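import Crest.Agent.T156.GdT_65
import Crest.Agent.T156.LDefX_64

/-!
# Row 156, block (L): the fine margin below the corner and its costs (helper65)
-/

set_option autoImplicit false

noncomputable section

namespace Crest.Agent.T156.Alt.Gd65

open Real Finset
open Crest.Agent.T156.Alt.Mp9 Crest.Agent.T156.Alt.Sz9 Crest.Agent.T156.Alt.L69
open Crest.Agent.T156.Alt.G89 (Ug Tau)

variable {S : Sc} {M : Md} {m : ℕ} {a T : ℝ}

/-- the error of the middle zone -/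
def ey (S : Sc) (Lg X γ : ℝ) : ℝ := (Lg ^ ((2 : ℝ) / 3) * w1 S 1) ^ 2 * (γ + X ^ ((1 : ℝ) / 3))

/-- the fine margin without loss -/
def tf (S : Sc) (Lg X γ τ : ℝ) (η : ℝ → ℝ) : ℝ := τ + (η 1 + ey S Lg X γ) / mf S 1

theorem eta_up {η : ℝ → ℝ} (h2 : ∀ t, 0 < t → η t ≤ 16 * η (2 * t)) {t : ℝ} (t0 : 0 < t) (i : ℕ) :
    η t ≤ 16 ^ i * η (2 ^ i * t) := by
  induction i with
  | zero => simp
  | succ i ih =>
    have := mul_le_mul_of_nonneg_left (h2 (2 ^ i * t) (by positivity)) (show (0 : ℝ) ≤ 16 ^ i by positivity)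
    rw [pow_succ, pow_succ, show 2 ^ i * 2 * t = 2 * (2 ^ i * t) by ring]
    linarith

/-- transfer from a top level to the level `1` -/
theorem lev (h : Cl S M) (hθ : S.θ ≤ 1) {Q t Lg : ℝ} (Q1 : 1 ≤ Q) (t0 : 0 < t) (ht : 1 ≤ Q * t)
    (g0 : 0 ≤ Lg) : mf S 1 ≤ 4 * Q ^ 2 * mf S t ∧ w1 S t ≤ 2 * Q * w1 S 1 ∧
      Ug S Lg t ^ 2 ≤ 4 * Q ^ 4 * S.F * (Lg ^ ((2 : ℝ) / 3) * w1 S 1) ^ 2 := by
  have F1 := h.F1
  have n0 := h.N0
  have m0 := h.ms_pos t0.le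
  have m1 := h.ms_pos zero_le_one
  have a1 : S.ms 1 ≤ 4 * Q ^ 2 * S.ms t := (h.msm ht).trans (h.ms_mul t0.le Q1)
  have p0 : 0 ≤ S.w3 t := by unfold Sc.w3; positivity
  have p1 : 0 ≤ S.w3 1 := by unfold Sc.w3; positivity
  have w0 : 0 ≤ w1 S t := rpow_nonneg p0 _
  have w0' : 0 ≤ w1 S 1 := rpow_nonneg p1 _
  have a2 : S.w3 t ≤ 8 * Q ^ 3 * S.w3 1 := by
    unfold Sc.w3
    rw [← mul_div_assoc, div_le_div_iff₀ (by positivity) (by positivity)]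
    have b := mul_le_mul ht a1 m1.le (by positivity)
    linarith [mul_le_mul_of_nonneg_left b (show 0 ≤ S.F * S.n by positivity),
      show 0 ≤ Q ^ 3 * S.F * (S.n * t * S.ms t) by positivity]
  have a3 : w1 S t ≤ 2 * Q * w1 S 1 := by
    refine le_of_pow_le_pow_left₀ (n := 3) (by norm_num) (by positivity) ?_
    unfold w1
    rw [mul_pow, cb3 p0, cb3 p1]
    linarith
  have c1 : 1 ≤ cr S t := le_max_left _ _
  have c2 : cr S t ^ 3 ≤ Q ^ 2 * S.F := by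
    have q : 1 ≤ Q ^ 2 * S.F := one_le_mul_of_one_le_of_one_le (one_le_pow₀ Q1) F1
    unfold cr
    rcases le_total 1 ((S.F * S.ms t / t ^ 2) ^ ((1 : ℝ) / 3)) with c | c
    · rw [max_eq_right c, cb3 (by positivity), div_le_iff₀ (by positivity)]
      have b := pow_le_pow_left₀ zero_le_one ht 2
      nlinarith [mul_le_mul_of_nonneg_left ((h.ms1 t).trans hθ) (zero_le_one.trans F1),
        mul_le_mul_of_nonneg_left b (zero_le_one.trans F1)]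
    · rw [max_eq_left c]; linarith
  have c3 : (cr S t ^ ((2 : ℝ) / 3)) ^ 2 ≤ Q ^ 2 * S.F :=
    (pow_le_pow_left₀ (by positivity) (rpow_le_self_of_one_le c1 (by norm_num)) 2).trans
      ((pow_le_pow_right₀ c1 (by norm_num)).trans c2)
  refine ⟨?_, a3, ?_⟩
  · unfold mf
    rw [← mul_div_assoc]
    exact div_le_div_of_nonneg_right a1 (by linarith)
  · unfold Ug Nd22.U
    rw [mul_rpow g0 (by linarith)]
    have b := mul_le_mul c3 (pow_le_pow_left₀ w0 a3 2) (sq_nonneg _) (by positivity)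
    linarith [mul_le_mul_of_nonneg_left b (sq_nonneg (Lg ^ ((2 : ℝ) / 3)))]

theorem p32 {r : ℝ} (r0 : 0 ≤ r) : (r ^ 2) ^ ((3 : ℝ) / 2) = r ^ 3 := by
  rw [← rpow_natCast, ← rpow_mul r0, show ((2 : ℕ) : ℝ) * (3 / 2) = (3 : ℕ) by norm_num,
    rpow_natCast]

theorem cs1 {e μ N : ℝ} (e0 : 0 ≤ e) (m0 : 0 < μ) (m1 : μ ≤ 1) (th : e ≤ μ ^ ((3 : ℝ) / 2))
    (c : e ^ ((3 : ℝ) / 2) ≤ N) : μ * (e / μ) ^ 3 ≤ N := by
  have r1 : √μ ≤ 1 := sqrt_le_one.2 m1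
  obtain ⟨r, r0, rfl⟩ : ∃ r, 0 < r ∧ μ = r ^ 2 := ⟨_, sqrt_pos.2 m0, (sq_sqrt m0.le).symm⟩
  obtain ⟨z, z0, rfl⟩ : ∃ z, 0 ≤ z ∧ e = z ^ 2 := ⟨_, sqrt_nonneg _, (sq_sqrt e0).symm⟩
  rw [sqrt_sq r0.le] at r1
  rw [p32 r0.le] at th
  rw [p32 z0] at c
  have z2 : z ^ 3 ≤ r ^ 4 := by
    refine le_of_pow_le_pow_left₀ (n := 2) (by norm_num) (by positivity) ?_
    calc _ = (z ^ 2) ^ 3 := by ring
      _ ≤ (r ^ 3) ^ 3 := pow_le_pow_left₀ (sq_nonneg _) th 3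
      _ = r ^ 8 * r := by ring
      _ ≤ r ^ 8 * 1 := mul_le_mul_of_nonneg_left r1 (by positivity)
      _ = _ := by ring
  rw [show r ^ 2 * (z ^ 2 / r ^ 2) ^ 3 = z ^ 3 * (z ^ 3 / r ^ 4) by field_simp]
  exact (mul_le_of_le_one_right (by positivity) ((div_le_one (by positivity)).2 z2)).trans c

section num

variable {E l0 l V X Lg X2 X3 G0 Xp Vt Lp G1 u1 u2 j γ Lc ηc τ N' : ℝ} {η : ℝ → ℝ}
  (h : Cl S M) (N : LN E S M l0 l V X Lg X2 X3 G0 η)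
  (P : LP E S M Xp Vt Lg Lp X2 X3 G0 G1 u1 u2 j γ Lc ηc τ η N') (E2 : 2 ≤ E) (hθ : S.θ ≤ 1)
  (j0 : 0 ≤ j)
include h N P E2 hθ j0

theorem facts : 1 ≤ Lg ∧ 0 ≤ γ ∧ γ ≤ 1 ∧ 0 ≤ X2 ∧ 0 < mf S 1 ∧ mf S 1 ≤ S.θ ∧ 0 ≤ η 1 ∧
    E * η 1 ≤ √S.θ * mf S 1 ∧ w1 S 1 ≤ τ ∧ E * τ ≤ 1 ∧ 0 ≤ w1 S 1 ∧ E * X2 ≤ mf S 1 ∧
    E * (Lg ^ ((2 : ℝ) / 3) * w1 S 1) ^ 2 ≤ mf S 1 ∧
    (Lg ^ ((2 : ℝ) / 3) * w1 S 1) ^ 2 * (S.θ + j) ≤ τ * mf S 1 ∧
    E * ((Lg ^ ((2 : ℝ) / 3) * w1 S 1) ^ 2 * X ^ ((1 : ℝ) / 3)) ^ 3 ≤ mf S 1 * X2 ^ 3 := by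
  have F1 := h.F1
  have n0 := h.N0
  have t0 := h.θ0
  have E0 : 0 < E := by linarith
  have g1 : 1 ≤ Lg := le_trans (one_le_mul_of_one_le_of_one_le (by linarith) (one_le_pow₀ F1)) N.Lg0
  have g0 : 0 ≤ γ := (sub_nonneg.2 (h.sm h.i3)).trans P.γ0
  have l0' : 0 ≤ l0 := (mul_nonneg E0.le (h.s_nn _)).trans N.l0s
  have l' := l0'.trans N.l0l
  have l1 : l ≤ 1 := by nlinarith [N.l1]
  have X20 : 0 ≤ X2 := (mul_nonneg l0' (sq_nonneg _)).trans N.x2a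
  have X30 : 0 ≤ X3 := (mul_nonneg l0' (by positivity)).trans N.x3a
  have G00 : 0 ≤ G0 := (mul_nonneg l0' (sq_nonneg _)).trans N.g0a
  have m0 : 0 < mf S 1 := div_pos t0 (by linarith)
  have m1 : mf S 1 ≤ S.θ := div_le_self t0.le F1
  have p1 : 0 ≤ S.w3 1 := by have := h.ms_pos zero_le_one; unfold Sc.w3; positivity
  have w0 : 0 ≤ w1 S 1 := rpow_nonneg p1 _
  obtain ⟨u0, u1', u2'⟩ := Ug_le h g1 one_pos
  have v0 : 0 ≤ uw S Lg 1 := le_trans (by positivity) u2'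
  have η0 : 0 ≤ η 1 := by
    refine le_trans ?_ (N.ηb 1 l1 h.C1)
    have : 0 ≤ min (S.ms 1 / 1) 1 := le_min (div_pos t0 one_pos).le zero_le_one
    positivity
  have e1 : mf S 1 ^ ((3 : ℝ) / 2) = √(mf S 1) * mf S 1 := by
    rw [sqrt_eq_rpow, ← rpow_add_one m0.ne']; norm_num
  have b1 := (N.th1 1 l1 h.C1).trans
    (e1.trans_le (mul_le_mul_of_nonneg_right (sqrt_le_sqrt m1) m0.le))
  have b2 := N.th2 1 l1 h.C1
  have xp := P.Xp0.1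
  obtain ⟨c1, c2⟩ := P.ηc1 _ rfl
  change _ * (Lc ^ ((2 : ℝ) / 3) * w1 S 1) ^ 2 ≤ _ at c2
  change (Lc ^ ((2 : ℝ) / 3) * w1 S 1) ^ 3 + (Lc ^ ((2 : ℝ) / 3) * w1 S 1) ^ 2 * _ +
    _ * (Lc ^ ((2 : ℝ) / 3) * w1 S 1 + _) + _ + _ ≤ _ at c1
  have Lc0 : 0 < Lc := by linarith [P.Lc1.1]
  have c3 : (Lg ^ ((2 : ℝ) / 3) * w1 S 1) ^ 2 ≤ (Lc ^ ((2 : ℝ) / 3) * w1 S 1) ^ 2 :=
    pow_le_pow_left₀ (by positivity) (mul_le_mul_of_nonneg_right
      (rpow_le_rpow (by linarith) P.Lc1.1 (by norm_num)) w0) 2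
  have c4 : (Lc ^ ((2 : ℝ) / 3) * w1 S 1) ^ 2 * (S.θ + j) ≤ ηc := by
    refine le_trans ?_ c1
    have : 0 ≤ (Lc ^ ((2 : ℝ) / 3) * w1 S 1) ^ 3 := by positivity
    have : 0 ≤ (Lc ^ ((2 : ℝ) / 3) * w1 S 1) ^ 2 * Xp ^ ((1 : ℝ) / 3) := by positivity
    have : 0 ≤ (√(Lc * gg S 1) + G0 + X2) * (Lc ^ ((2 : ℝ) / 3) * w1 S 1 + √X2) := by positivity
    have : 0 ≤ 1 / (S.n : ℝ) := by positivity
    linarith
  have c5 : ηc ≤ τ * mf S 1 := by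
    rw [← div_le_iff₀ m0]
    linarith [P.τ0, show 0 ≤ Xp ^ ((1 : ℝ) / 3) / Lc by positivity]
  have τ0 : 0 ≤ τ := nonneg_of_mul_nonneg_left ((le_trans (by positivity) c4).trans c5) m0
  have d1 : w1 S 1 ≤ τ := by
    refine le_of_pow_le_pow_left₀ (n := 3) (by norm_num) τ0 ?_
    unfold w1
    rw [cb3 p1]; exact P.tw
  have d2 : E * X2 ≤ mf S 1 :=
    N.th3.trans (div_le_div_of_nonneg_right (h.msm l1) (by linarith))
  refine ⟨g1, g0, by nlinarith [P.γ1], X20, m0, m1, η0, b1, d1,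
    by linarith [P.j1, mul_nonneg E0.le j0], w0, d2,
    (mul_le_mul_of_nonneg_left c3 E0.le).trans c2,
    (mul_le_mul_of_nonneg_right c3 (by positivity)).trans (c4.trans c5), ?_⟩
  have X0 := N.X0
  have X1 : X ≤ 1 := by nlinarith [N.X1]
  have k1 : 1 ≤ cl S V 1 := by
    have : 1 ≤ cr S 1 := le_max_left _ _
    unfold cl; linarith [N.V0]
  have k2 : w1 S 1 ^ 2 ≤ ws S V 1 ^ 2 := pow_le_pow_left₀ w0 (by
    unfold ws; rw [div_one]; exact le_mul_of_one_le_left w0 k1) 2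
  have x := N.x2b 1 (N.l0l.trans l1) h.C1
  rw [one_mul, one_mul, min_eq_left (X1.trans (one_le_pow₀ k1)), min_le_iff] at x
  have x := x.resolve_left (not_le.2 (by nlinarith [one_le_pow₀ (n := 2) k1]))
  have x1 : w1 S 1 ^ 2 ≤ X2 := by
    linarith [show 0 ≤ (ws S V 1 ^ 2) ^ ((3 : ℝ) / 7) * X ^ ((4 : ℝ) / 7) by positivity]
  have x2 : (w1 S 1 ^ 2) ^ 3 * X ^ 4 ≤ X2 ^ 7 := by
    have y := pow_le_pow_left₀ (by positivity)
      (show (ws S V 1 ^ 2) ^ ((3 : ℝ) / 7) * X ^ ((4 : ℝ) / 7) ≤ X2 by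
        linarith [sq_nonneg (ws S V 1)]) 7
    rw [mul_pow, ← rpow_natCast, ← rpow_natCast (X ^ _), ← rpow_mul (sq_nonneg _),
      ← rpow_mul X0.le, show (3 : ℝ) / 7 * (7 : ℕ) = (3 : ℕ) by norm_num,
      show (4 : ℝ) / 7 * (7 : ℕ) = (4 : ℕ) by norm_num, rpow_natCast, rpow_natCast] at y
    exact (mul_le_mul_of_nonneg_right (pow_le_pow_left₀ (sq_nonneg _) k2 3) (by positivity)).trans y
  have x3 : w1 S 1 ^ 4 * X ≤ X2 ^ 3 := by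
    refine le_of_pow_le_pow_left₀ (n := 4) (by norm_num) (by positivity) ?_
    calc _ = (w1 S 1 ^ 2) ^ 5 * ((w1 S 1 ^ 2) ^ 3 * X ^ 4) := by ring
      _ ≤ X2 ^ 5 * X2 ^ 7 := mul_le_mul (pow_le_pow_left₀ (sq_nonneg _) x1 5) x2 (by positivity)
          (by positivity)
      _ = _ := by ring
  have x4 : (Lg ^ ((2 : ℝ) / 3)) ^ 3 = Lg ^ 2 := by
    rw [← rpow_natCast, ← rpow_mul (by linarith), show (2 : ℝ) / 3 * (3 : ℕ) = (2 : ℕ) by norm_num,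
      rpow_natCast]
  have x5 : E * (Lg ^ 2 * w1 S 1) ^ 2 ≤ mf S 1 :=
    (mul_le_mul_of_nonneg_left (pow_le_pow_left₀ (by positivity) u2' 2) E0.le).trans b2
  calc _ = E * ((Lg ^ ((2 : ℝ) / 3)) ^ 3 * w1 S 1) ^ 2 * (w1 S 1 ^ 4 * (X ^ ((1 : ℝ) / 3)) ^ 3) := by
        ring
    _ ≤ _ := by
        rw [x4, cb3 X0.le]; exact mul_le_mul x5 x3 (by positivity) m0.le

/-- sizes of the fine margin -/
theorem tf_le : τ ≤ tf S Lg X γ τ η ∧ 0 ≤ τ ∧ E * tf S Lg X γ τ η ≤ 4 ∧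
    E * ey S Lg X γ ≤ mf S 1 * (γ + X ^ ((1 : ℝ) / 3)) ∧ ey S Lg X γ ≤ mf S 1 * γ + X2 := by
  obtain ⟨g1, g0, g2, X20, m0, m1, η0, b1, d1, d0, w0, d2, d3, d4, d5⟩ := facts h N P E2 hθ j0
  have X0 := N.X0
  have X1 : X ≤ 1 := by nlinarith [N.X1]
  have R0 : 0 ≤ X ^ ((1 : ℝ) / 3) := by positivity
  have R1 : X ^ ((1 : ℝ) / 3) ≤ 1 := rpow_le_one X0.le X1 (by norm_num)
  have y0 : 0 ≤ ey S Lg X γ := by unfold ey; positivity
  have y1 : E * ey S Lg X γ ≤ mf S 1 * (γ + X ^ ((1 : ℝ) / 3)) := by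
    unfold ey; rw [← mul_assoc]; exact mul_le_mul_of_nonneg_right d3 (by positivity)
  have s1 : √S.θ ≤ 1 := sqrt_le_one.2 hθ
  refine ⟨le_add_of_nonneg_right (by positivity), w0.trans d1, ?_, y1, ?_⟩
  · have : E * ((η 1 + ey S Lg X γ) / mf S 1) ≤ 3 := by
      rw [← mul_div_assoc, div_le_iff₀ m0]
      nlinarith [mul_le_mul_of_nonneg_right s1 m0.le,
        mul_le_mul_of_nonneg_left (add_le_add g2 R1) m0.le]
    unfold tf; linarith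
  · unfold ey
    generalize (Lg ^ ((2 : ℝ) / 3) * w1 S 1) ^ 2 = U at *
    have a1 : U * X ^ ((1 : ℝ) / 3) ≤ X2 := by
      refine le_of_pow_le_pow_left₀ (n := 3) (by norm_num) X20 (not_lt.1 fun c => ?_)
      have : 0 ≤ X2 ^ 3 := by positivity
      nlinarith [mul_le_mul_of_nonneg_right (m1.trans hθ) this]
    have a2 : U * γ ≤ mf S 1 * γ := mul_le_mul_of_nonneg_right (by
      by_contra c
      nlinarith [not_le.1 c]) g0
    linarith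

/-- **costs of the fine margin** -/
theorem tf_cost {V2 Nc : ℝ} (Q : LC E S M Xp Vt V2 Lg Lp X2 G0 G1 u1 u2 j γ ηc τ η Nc) :
    S.θ * tf S Lg X γ τ η ^ 3 ≤ 64 * S.F ^ 2 * (Nc + X2 ^ 2) ∧
    γ * S.θ * tf S Lg X γ τ η ≤ 4 * S.F * Nc ∧ min (η 1 ^ ((3 : ℝ) / 2)) (η 1 ^ 2 / S.θ) ≤ Nc := by
  obtain ⟨g1, g0, g2, X20, m0, m1, η0, b1, d1, d0, w0, d2, d3, d4, d5⟩ := facts h N P E2 hθ j0
  obtain ⟨-, τ0, -, -, y2⟩ := tf_le h N P E2 hθ j0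
  have F1 := h.F1
  have t0 := h.θ0
  have X0 := N.X0
  have xp := P.Xp0.1
  have eθ : S.θ = S.F * mf S 1 := by unfold mf Sc.θ; field_simp
  have dx0 : ∀ k, 0 ≤ dx M k := fun k => Ap63.w_nn h.leg.zm k
  have v1 : 0 ≤ u1 := ((sub_nonneg.2 (h.leg.z1 _)).trans h.last).trans P.u1a
  have v2 : 0 ≤ u2 := v1.trans P.u1b.1
  have L0 : 0 < Lp := by linarith [P.Lp1.1]
  have np : 0 ≤ Np M S Xp Vt γ u1 Lp 2 := add_nonneg v1 (sum_nonneg fun k _ => by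
    have r0 : 0 ≤ Rp M S Xp Vt γ k :=
      add_nonneg (add_nonneg (sqrt_nonneg _) (le_min P.Vt0 (sqrt_nonneg _))) g0
    exact mul_nonneg (dx0 k) (add_nonneg (sq_nonneg _) (le_min (by positivity) (by positivity))))
  have e0 : η 1 ≤ η 1 + G0 ^ 2 + Np M S Xp Vt γ u1 Lp 2 + X2 * (Xp ^ ((1 : ℝ) / 3) + V2) := by
    have := Q.v2.1
    linarith [sq_nonneg G0, show 0 ≤ X2 * (Xp ^ ((1 : ℝ) / 3) + V2) by positivity]
  have c1 : min (η 1 ^ ((3 : ℝ) / 2)) (η 1 ^ 2 / S.θ) ≤ Nc :=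
    (min_le_min (rpow_le_rpow η0 e0 (by norm_num))
      (div_le_div_of_nonneg_right (pow_le_pow_left₀ η0 e0 2) t0.le)).trans (Q.c1' _ rfl)
  have N0 : 0 ≤ Nc := le_trans (le_min (by positivity) (by positivity)) c1
  have gp : 0 ≤ GP M S := sum_nonneg fun k _ => mul_nonneg (dx0 k) (sq_nonneg _)
  have gs : 0 ≤ GS M S (1 / (8 * S.C ^ 2)) S.C :=
    sum_nonneg fun k _ => mul_nonneg (dx0 k) (sq_nonneg _)
  have c2 : S.θ * γ ^ 2 ≤ Nc := by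
    refine le_trans ?_ Q.c2
    rw [le_div_iff₀ t0]; linarith [sq_nonneg G1]
  have c3 : S.θ * τ ^ 3 ≤ Nc := by
    have := P.u0
    linarith [Q.c3, show 0 ≤ S.θ * S.u0 ^ 3 by positivity]
  have c4 : γ * (η 1 + X2) ≤ Nc := by
    refine le_trans ?_ Q.c4
    have : 0 ≤ u2 * (η 1 + X2 + √((GP M S + G1 ^ 2) / u2) + S.θ * γ) := by positivity
    have : 0 ≤ (u2 * S.θ) ^ ((3 : ℝ) / 2) := by positivity
    have : 0 ≤ γ ^ ((15 : ℝ) / 7) := by positivity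
    linarith [sq_nonneg u2]
  have f1 : Nc ≤ S.F * Nc := le_mul_of_one_le_left N0 F1
  have f2 : S.F * Nc ≤ S.F ^ 2 * Nc :=
    mul_le_mul_of_nonneg_right (le_self_pow₀ F1 two_ne_zero) N0
  refine ⟨?_, ?_, c1⟩
  · obtain ⟨U, hU⟩ : ∃ U, U = (Lg ^ ((2 : ℝ) / 3) * w1 S 1) ^ 2 := ⟨_, rfl⟩
    have U0 : 0 ≤ U := by rw [hU]; positivity
    have R0 : 0 ≤ X ^ ((1 : ℝ) / 3) := by positivity
    have e : tf S Lg X γ τ η =
        τ + η 1 / mf S 1 + U * γ / mf S 1 + U * X ^ ((1 : ℝ) / 3) / mf S 1 := by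
      unfold tf ey; rw [hU]; ring
    rw [← hU] at d3 d5
    have mm := m1.trans hθ
    have a1 : S.θ * (η 1 / mf S 1) ^ 3 ≤ S.F ^ 2 * Nc := by
      have s1 : √S.θ ≤ 1 := sqrt_le_one.2 hθ
      have s0 := sqrt_nonneg S.θ
      have q1 : η 1 / mf S 1 ≤ √S.θ := by
        rw [div_le_iff₀ m0]; nlinarith
      have q0 : 0 ≤ η 1 / mf S 1 := by positivity
      rcases min_le_iff.1 c1 with c | c
      · have l' : 0 ≤ l := (mul_nonneg (by linarith) (h.s_nn S.jl)).trans (N.l0s.trans N.l0l)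
        have th := N.th1 1 (by nlinarith [N.l1]) h.C1
        have z3 := cs1 η0 m0 mm ((le_mul_of_one_le_left η0 (by linarith)).trans th) c
        rw [eθ]
        linarith [mul_le_mul_of_nonneg_left z3 (zero_le_one.trans F1)]
      · have e2 : S.θ * (η 1 / mf S 1) ^ 3 ≤ S.F ^ 2 * (η 1 ^ 2 / S.θ) * 1 := by
          calc _ = S.F ^ 2 * (η 1 ^ 2 / S.θ) * (η 1 / mf S 1) := by rw [eθ]; field_simp
            _ ≤ _ := mul_le_mul_of_nonneg_left (q1.trans s1) (by positivity)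
        linarith [mul_le_mul_of_nonneg_left c (sq_nonneg S.F)]
    have a2 : S.θ * (U * γ / mf S 1) ^ 3 ≤ Nc := by
      have q : U * γ / mf S 1 ≤ γ := by
        rw [div_le_iff₀' m0]; exact mul_le_mul_of_nonneg_right (by nlinarith) g0
      exact (mul_le_mul_of_nonneg_left ((pow_le_pow_left₀ (by positivity) q 3).trans
        (pow_le_pow_of_le_one g0 g2 (by norm_num))) t0.le).trans c2
    have a3 : S.θ * (U * X ^ ((1 : ℝ) / 3) / mf S 1) ^ 3 ≤ S.F ^ 2 * X2 ^ 2 := by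
      have q1 : (U * X ^ ((1 : ℝ) / 3)) ^ 3 ≤ mf S 1 * X2 ^ 3 :=
        (le_mul_of_one_le_left (by positivity) (by linarith)).trans d5
      have q2 : X2 ≤ mf S 1 := (le_mul_of_one_le_left X20 (by linarith)).trans d2
      rw [div_pow, ← mul_div_assoc, div_le_iff₀ (by positivity), eθ]
      have q3 := mul_le_mul_of_nonneg_left q2 (show 0 ≤ mf S 1 * X2 ^ 2 by positivity)
      have q4 := mul_le_mul_of_nonneg_left (q1.trans (by linarith) : _ ≤ mf S 1 ^ 2 * X2 ^ 2)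
        (show 0 ≤ S.F * mf S 1 by positivity)
      linarith [mul_le_mul_of_nonneg_right (le_self_pow₀ F1 two_ne_zero)
        (show 0 ≤ X2 ^ 2 * mf S 1 ^ 3 by positivity)]
    rw [e]
    have p1 : 0 ≤ η 1 / mf S 1 := by positivity
    have p2 : 0 ≤ U * γ / mf S 1 := by positivity
    have p3 : 0 ≤ U * X ^ ((1 : ℝ) / 3) / mf S 1 := by positivity
    generalize η 1 / mf S 1 = x1 at *
    generalize U * γ / mf S 1 = x2 at *
    generalize U * X ^ ((1 : ℝ) / 3) / mf S 1 = x3 at *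
    have cu : ∀ {x y : ℝ}, 0 ≤ x → 0 ≤ y → (x + y) ^ 3 ≤ 4 * (x ^ 3 + y ^ 3) := fun {x y} x0 y0 => by
      nlinarith [mul_nonneg (add_nonneg x0 y0) (sq_nonneg (x - y))]
    have k : (τ + x1 + x2 + x3) ^ 3 ≤ 16 * (τ ^ 3 + x1 ^ 3 + x2 ^ 3 + x3 ^ 3) := by
      linarith [cu (add_nonneg τ0 p1) (add_nonneg p2 p3), cu τ0 p1, cu p2 p3,
        show τ + x1 + x2 + x3 = τ + x1 + (x2 + x3) by ring,
        congrArg (· ^ 3) (show τ + x1 + x2 + x3 = τ + x1 + (x2 + x3) by ring)]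
    linarith [mul_le_mul_of_nonneg_left k t0.le, show 0 ≤ S.F ^ 2 * X2 ^ 2 by positivity]
  · have a1 : γ * S.θ * ((η 1 + ey S Lg X γ) / mf S 1) = S.F * (γ * (η 1 + ey S Lg X γ)) := by
      rw [eθ]; field_simp
    have a2 : γ * (η 1 + ey S Lg X γ) ≤ 2 * Nc := by
      linarith [mul_le_mul_of_nonneg_left y2 g0, mul_le_mul_of_nonneg_right m1 (sq_nonneg γ)]
    unfold tf
    linarith [Q.c6, mul_le_mul_of_nonneg_left a2 (zero_le_one.trans F1)]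

end num

/-- **`Tau` with the fine margin** -/
theorem tau_one (C : ℝ) : ∃ K : ℝ, 1 ≤ K ∧ ∀ {S : Sc} {M : Md} {m : ℕ} {a T : ℝ}, S.C = C → Cl S M →
    ∀ {E l0 l V X Lg X2 X3 G0 Xp Vt Lp G1 u1 u2 j γ Lc ηc τ N' : ℝ} {η : ℝ → ℝ},
    LN E S M l0 l V X Lg X2 X3 G0 η →
    LP E S M Xp Vt Lg Lp X2 X3 G0 G1 u1 u2 j γ Lc ηc τ η N' → K ≤ E → S.θ ≤ 1 → 0 ≤ j →
    ∀ {K0 E' τ1 : ℝ}, 1 ≤ K0 → (∀ k, S.J ≤ 2 * k → k < S.J →
      G89.gd M S m a T k ≤ K0 * (S.θ + j + γ + X ^ ((1 : ℝ) / 3))) →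
    K * K0 * S.F * tf S Lg X γ τ η ≤ τ1 → E' * τ1 ^ 2 ≤ 1 →
    Tau E' S M m a T Lg (K0 * (S.θ + j + γ + X ^ ((1 : ℝ) / 3))) τ1 η := by
  obtain ⟨i, hi⟩ := pow_unbounded_of_one_lt (24 * C ^ 5) (one_lt_two (α := ℝ))
  refine ⟨2 + 16 * (24 * C ^ 5) ^ 6 + 4 * (24 * C ^ 5) ^ 2 * 16 ^ i, by
    linarith [show 0 ≤ 16 * (24 * C ^ 5) ^ 6 by positivity,
      show 0 ≤ 4 * (24 * C ^ 5) ^ 2 * 16 ^ i by positivity], fun {S M m a T} hC h E l0 l V X Lg X2 X3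
      G0 Xp Vt Lp G1 u1 u2 j γ Lc ηc τ N' η N P hE hθ j0 K0 E' τ1 k0 d hτ t2 =>
      ⟨d, fun k h1 h2 => ?_, t2⟩⟩
  subst hC
  have a1 := s_top h (show S.J ≤ 8 * k by omega) h2.le
  have Q1 : 1 ≤ 24 * S.C ^ 5 := by linarith [one_le_pow₀ (n := 5) h.C1]
  generalize 24 * S.C ^ 5 = Q at *
  have i1 : (1 : ℝ) ≤ 16 ^ i := one_le_pow₀ (by norm_num)
  have q1 : 0 ≤ 16 * Q ^ 6 := by positivity
  have q2 : 0 ≤ 4 * Q ^ 2 * 16 ^ i := by positivity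
  obtain ⟨g1, g0, -, -, m0, -, η0, -, d1, -, w0, -, -, d4, -⟩ := facts h N P (by linarith) hθ j0
  obtain ⟨y1, τ0, -⟩ := tf_le h N P (by linarith) hθ j0
  have s0 : 0 < M.s k := h.s_pos (by have := h.i2; omega)
  obtain ⟨b1, b2, b3⟩ := lev h hθ Q1 s0 a1 (zero_le_one.trans g1)
  have F1 := h.F1
  have t0 := h.θ0
  have X0 := N.X0
  have KF : 1 ≤ K0 * S.F := one_le_mul_of_one_le_of_one_le k0 F1
  have f0 : 0 ≤ tf S Lg X γ τ η := τ0.trans y1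
  have f1 := le_mul_of_one_le_left f0 KF
  have c1 : η (M.s k) ≤ 16 ^ i * η 1 := (eta_up N.η2 s0 i).trans (mul_le_mul_of_nonneg_left
    (N.ηa (a1.trans (mul_le_mul_of_nonneg_right hi.le s0.le))) (by positivity))
  have y0 : 0 ≤ ey S Lg X γ := by unfold ey; positivity
  have e : tf S Lg X γ τ η * mf S 1 = τ * mf S 1 + η 1 + ey S Lg X γ := by
    unfold tf; field_simp; ring
  have c2 := mul_le_mul_of_nonneg_right b3
    (show 0 ≤ K0 * (S.θ + j + γ + X ^ ((1 : ℝ) / 3)) by positivity)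
  have c3 : (Lg ^ ((2 : ℝ) / 3) * w1 S 1) ^ 2 * (S.θ + j + γ + X ^ ((1 : ℝ) / 3)) ≤
      tf S Lg X γ τ η * mf S 1 := by rw [e]; unfold ey; linarith
  have c4 := mul_le_mul_of_nonneg_left c3 (show 0 ≤ 4 * Q ^ 4 * S.F * K0 by positivity)
  have c5 : η 1 ≤ K0 * S.F * tf S Lg X γ τ η * mf S 1 := by
    linarith [mul_nonneg τ0 m0.le, mul_le_mul_of_nonneg_right f1 m0.le]
  have c6 := mul_le_mul_of_nonneg_left c5 (zero_le_one.trans i1)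
  have m1 : 0 < mf S (M.s k) := div_pos (h.ms_pos s0.le) (by linarith)
  have z0 : 0 ≤ K0 * S.F * tf S Lg X γ τ η := f0.trans f1
  have c7 := mul_le_mul_of_nonneg_left b1 (mul_nonneg (show 0 ≤ 16 ^ i + 4 * Q ^ 4 by positivity) z0)
  have c8 := mul_le_mul_of_nonneg_right hτ m1.le
  refine ⟨by linarith [mul_nonneg z0 m1.le], b2.trans (le_trans ?_ hτ)⟩
  have c9 : 2 * Q ≤ 2 + 16 * Q ^ 6 + 4 * Q ^ 2 * 16 ^ i := by
    linarith [le_self_pow₀ Q1 (show 6 ≠ 0 by norm_num)]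
  linarith [mul_le_mul c9 (d1.trans (y1.trans f1)) w0 (by positivity)]

/-- **(TauF)** the numbers `Tau` with the fine margin, and its costs -/
def TauF : Prop := CL fun E Λ S M m a =>
  ∀ l0 l V X Lg X2 X3 G0 η Xp Vt Lp G1 u1 u2 j γ Lc ηc τ N' T,
  LN E S M l0 l V X Lg X2 X3 G0 η → LP E S M Xp Vt Lg Lp X2 X3 G0 G1 u1 u2 j γ Lc ηc τ η N' →
  S.F ^ 40 ≤ E → Ap S M m a l0 X Xp Vt u1 j → At S M m a T → T ≤ 2 * S.C →
  ∃ D1 τ1, Tau E S M m a T Lg D1 τ1 η ∧ 0 ≤ τ ∧ τ + η 1 / mf S 1 ≤ τ1 ∧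
    τ1 ≤ Λ * S.F * tf S Lg X γ τ η ∧ E * τ1 ≤ Λ * S.F ∧
    ∀ V2 N, LC E S M Xp Vt V2 Lg Lp X2 G0 G1 u1 u2 j γ ηc τ η N →
      S.θ * τ1 ^ 3 ≤ Λ * S.F ^ 5 * (N + X2 ^ 2) ∧ γ * S.θ * τ1 ≤ Λ * S.F ^ 2 * N

theorem tauF : TauF := by
  refine CL.intro (fun E Λ Λ' S M m a h1 h2 H l0 l V X Lg X2 X3 G0 η Xp Vt Lp G1 u1 u2 j γ Lc ηc τ N'
    T N P f Z B hT => ?_) 0 1 1 fun C A ε η _ _ => ?_
  · obtain ⟨D1, τ1, p1, p2, p3, p4, p5, p6⟩ := H l0 l V X Lg X2 X3 G0 η Xp Vt Lp G1 u1 u2 j γ Lc ηc τ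
      N' T N P f Z B hT
    have F1 := B.cl.F1
    have t0 := B.cl.θ0
    have i2 := B.cl.i2
    have g0 : 0 ≤ γ := (sub_nonneg.2 (B.cl.sm B.cl.i3)).trans P.γ0
    have w := (p1.t1 (S.J - 1) (by omega) (by omega)).2
    have τ0 : 0 ≤ τ1 := le_trans (by
      have := B.cl.N0
      have := B.cl.s_nn (S.J - 1)
      have := B.cl.ms_pos this
      unfold w1 Sc.w3; positivity) w
    have k : ∀ {x y c : ℝ}, 0 ≤ x → 0 < c → x ≤ Λ * c * y → x ≤ Λ' * c * y := fun {x y c} x0 c0 b =>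
      b.trans (mul_le_mul_of_nonneg_right (mul_le_mul_of_nonneg_right h2 c0.le)
        (nonneg_of_mul_nonneg_right (x0.trans b) (by positivity)))
    exact ⟨D1, τ1, p1, p2, p3, k τ0 (by positivity) p4,
      p5.trans (mul_le_mul_of_nonneg_right h2 (by positivity)), fun V2 N q =>
      ⟨k (by positivity) (by positivity) (p6 V2 N q).1, k (by positivity) (by positivity) (p6 V2 N q).2⟩⟩
  obtain ⟨K0, k0, H0⟩ := gd_top C
  obtain ⟨K1, k1, H1⟩ := tau_one C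
  refine ⟨(4 * (K1 * K0)) ^ 4, fun S M m a G _ e _ h _ l0 l V X Lg X2 X3 G0 η' Xp Vt Lp G1 u1 u2 j γ
    Lc ηc τ N' T N P f Z B hT => ?_⟩
  rw [pow_one]
  have L1 := G.K_le
  have L2 := G.Kθ h
  have hE := L1.trans (Pre29.rp_le G.n1 (show η ≤ ε by simpa using e))
  have hθ := G.θ1 h
  have hv := v_le G h
  have hC := G.hC
  generalize (S.n : ℝ) ^ ε = E at *
  generalize (S.n : ℝ) ^ η = Λ at *
  have a0 : K0 ≤ K1 * K0 := le_mul_of_one_le_left (by linarith) k1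
  have a1 : K1 ≤ K1 * K0 := le_mul_of_one_le_right (by linarith) k0
  have a2 : 4 * (K1 * K0) ≤ (4 * (K1 * K0)) ^ 4 := le_self_pow₀ (by linarith) (by norm_num)
  have a3 : (4 * (K1 * K0)) ^ 3 ≤ (4 * (K1 * K0)) ^ 4 :=
    pow_le_pow_right₀ (by linarith) (by norm_num)
  have F1 := h.F1
  have t0 := h.θ0
  have E2 : 2 ≤ E := by linarith
  have j0 : 0 ≤ j := le_trans (by positivity) Z.j0
  have l0' : 0 ≤ l0 := (mul_nonneg (by linarith) (h.s_nn _)).trans N.l0s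
  have l1 : l0 ≤ 1 := by nlinarith [N.l0l, N.l1]
  have o := (H0 hC B hT (by linarith) ((mul_le_mul_of_nonneg_right (by linarith) t0.le).trans L2) hv
    N.l0s l1 N.X0 N.X1 P.γ0 P.γ1 Z).1
  obtain ⟨y1, τ0, y2, -⟩ := tf_le h N P E2 hθ j0
  obtain ⟨-, g0, -, -, m0, -⟩ := facts h N P E2 hθ j0
  have f0 := τ0.trans y1
  have K2 : 0 < K1 * K0 := by linarith
  have b1 : E * (K1 * K0 * S.F * tf S Lg X γ τ η') ≤ 4 * (K1 * K0) * S.F := by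
    linarith [mul_le_mul_of_nonneg_left y2 (show 0 ≤ K1 * K0 * S.F by positivity)]
  have b2 : (4 * (K1 * K0) * S.F) ^ 2 ≤ E := by
    refine le_of_pow_le_pow_left₀ (n := 2) (by norm_num) (by linarith) ?_
    calc _ = (4 * (K1 * K0)) ^ 4 * S.F ^ 4 := by ring
      _ ≤ E * E := mul_le_mul hE ((pow_le_pow_right₀ F1 (by norm_num)).trans f) (by positivity)
          (by linarith)
      _ = _ := by ring
  refine ⟨_, _, H1 hC h N P (by linarith) hθ j0 k0 (fun k x y => (o k (by omega) y).2.2) le_rfl ?_,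
    τ0, ?_, mul_le_mul_of_nonneg_right (mul_le_mul_of_nonneg_right (by linarith) (by linarith)) f0,
    b1.trans (mul_le_mul_of_nonneg_right (by linarith) (by linarith)), fun V2 Nc Q => ?_⟩
  · refine le_of_mul_le_mul_left ?_ (show 0 < E by linarith)
    linarith [(pow_le_pow_left₀ (by positivity) b1 2).trans b2]
  · refine le_trans ?_ (le_mul_of_one_le_left f0 (one_le_mul_of_one_le_of_one_le (by linarith) F1))
    have X0 := N.X0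
    have : 0 ≤ ey S Lg X γ / mf S 1 := by unfold ey; positivity
    unfold tf; rw [add_div]; linarith
  · obtain ⟨c1, c2, -⟩ := tf_cost h N P E2 hθ j0 Q
    have n1 : 0 ≤ S.F ^ 2 * (Nc + X2 ^ 2) := by
      linarith [show 0 ≤ S.θ * tf S Lg X γ τ η' ^ 3 by positivity]
    have n2 : 0 ≤ S.F * Nc := by
      linarith [show 0 ≤ γ * S.θ * tf S Lg X γ τ η' by positivity]
    constructor
    · linarith [mul_le_mul_of_nonneg_left c1 (show 0 ≤ (K1 * K0 * S.F) ^ 3 by positivity),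
        mul_le_mul_of_nonneg_right (a3.trans L1) (mul_nonneg (pow_pos (zero_lt_one.trans_le F1) 3).le n1)]
    · linarith [mul_le_mul_of_nonneg_left c2 (show 0 ≤ K1 * K0 * S.F by positivity),
        mul_le_mul_of_nonneg_right (a2.trans L1) (mul_nonneg (zero_le_one.trans F1) n2)]

end Crest.Agent.T156.Alt.Gd65

end
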