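import Crest.Agent.T156.Pder_69

/-!
Row 156, ALT, text (P) (helper28): definitions and leaf statements for the profile path
(docs/T156_28.md).  One-site lists `l = [(tilt, variance)]`, frame `PhiT / EX / lvr` at `β = 1`.
-/

set_option autoImplicit false

namespace Crest.Agent.T156.Pr

open MeasureTheory Set
open Crest.Agent.R164.GC Crest.Agent.R339.B Crest.Agent.R339.Var Crest.Agent.T157.Pf
open Crest.Agent.T156.Pp (Dn)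

noncomputable section

/-- admissible, positive variances -/
def Ok (l : List (ℝ × ℝ)) : Prop := Adm 1 l ∧ ∀ p ∈ l, 0 < p.2

/-- `E F(X_t)` from `0` -/
def Et (l : List (ℝ × ℝ)) (t : ℝ) (F : ℝ → ℝ) : ℝ := EX 1 l t F 0
/-- `∂_x^{k+1} Φ_t` -/
def Dk (k : ℕ) (l : List (ℝ × ℝ)) (t : ℝ) : ℝ → ℝ := Dn k (PhiT 1 l t)
def Gam (l : List (ℝ × ℝ)) (t : ℝ) : ℝ := Et l t fun x => Dk 0 l t x ^ 2
def GG (l : List (ℝ × ℝ)) (t : ℝ) : ℝ := Et l t fun x => Dk 1 l t x ^ 2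
def AA (l : List (ℝ × ℝ)) (t : ℝ) : ℝ := Et l t fun x => Dk 1 l t x ^ 3
def NN (l : List (ℝ × ℝ)) (t : ℝ) : ℝ := Et l t fun x => Dk 2 l t x ^ 2
def N4 (l : List (ℝ × ℝ)) (t : ℝ) : ℝ := Et l t fun x => Dk 3 l t x ^ 2
def BB (l : List (ℝ × ℝ)) (t : ℝ) : ℝ := Et l t fun x => Dk 1 l t x * Dk 2 l t x ^ 2
def chi (l : List (ℝ × ℝ)) : ℝ := Dk 1 l 0 0
def k4 (l : List (ℝ × ℝ)) : ℝ := Dk 3 l 0 0
/-- `L¹` distance of the tilt functions -/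
def dist1 (l l' : List (ℝ × ℝ)) : ℝ := ∫ s in (0:ℝ)..TT l, |lvr 1 l' s - lvr 1 l s|

/-! ### leaves -/

/-- **(ODE)** -/
def OdeS : Prop := ∀ T0 : ℝ, ∃ C : ℝ, 1 ≤ C ∧ ∀ l, Ok l → TT l ≤ T0 →
  (ContinuousOn (Gam l) (Icc 0 (TT l)) ∧ ContinuousOn (GG l) (Icc 0 (TT l)) ∧
    ContinuousOn (AA l) (Icc 0 (TT l)) ∧ ContinuousOn (NN l) (Icc 0 (TT l)) ∧
    ContinuousOn (N4 l) (Icc 0 (TT l)) ∧ ContinuousOn (BB l) (Icc 0 (TT l))) ∧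
  (∀ t, 0 ≤ t → t < TT l → HasDerivWithinAt (Gam l) (GG l t) (Ici t) t ∧
    HasDerivWithinAt (GG l) (NN l t - 2 * lvr 1 l t * AA l t) (Ici t) t ∧
    HasDerivWithinAt (NN l) (N4 l t - 6 * lvr 1 l t * BB l t) (Ici t) t) ∧
  (Gam l 0 = 0 ∧ GG l 0 = chi l ^ 2 ∧ AA l 0 = chi l ^ 3 ∧ NN l 0 = 0 ∧ N4 l 0 = k4 l ^ 2 ∧
    0 < chi l ∧ chi l ≤ 1) ∧
  ∀ t ∈ Icc 0 (TT l), 0 ≤ Gam l t ∧ Gam l t ≤ t ∧ Gam l t ≤ 1 ∧ 0 ≤ GG l t ∧ GG l t ≤ 1 ∧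
    0 ≤ AA l t ∧ AA l t ≤ 1 ∧ |AA l t - chi l ^ 3| ≤ 15 * t ∧ 0 ≤ BB l t ∧ BB l t ≤ NN l t ∧
    NN l t ≤ C * t ∧ |N4 l t - k4 l ^ 2| ≤ C * t ∧ ∀ s ∈ Icc 0 (TT l),
      |AA l t - AA l s| ≤ 15 * |t - s| ∧ |GG l t - GG l s| ≤ C * |t - s|

/-- **(Lip1)**: `L¹` Lipschitz bounds -/
def Lip1S : Prop := ∀ T0 : ℝ, ∃ C : ℝ, 1 ≤ C ∧ ∀ l l', Ok l → Ok l' → TT l' = TT l → TT l ≤ T0 →
  (∀ k ≤ 3, ∀ t, 0 ≤ t → ∀ x, |Dk k l' t x - Dk k l t x| ≤ C * dist1 l l') ∧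
  ∀ (F F' : ℝ → ℝ) (M La t : ℝ), t ∈ Icc 0 (TT l) → BD F → BD F' → (∀ x, |F' x - F x| ≤ M) →
    (∀ x, |deriv F x| ≤ La) → |Et l' t F' - Et l t F| ≤ M + C * La * dist1 l l'

/-- **(Lip2)**: above the support of the change -/
def Lip2S : Prop := ∀ T0 : ℝ, ∃ C : ℝ, 1 ≤ C ∧ ∀ l l', Ok l → Ok l' → TT l' = TT l → TT l ≤ T0 →
  ∀ Y ∈ Icc 0 (TT l), (∀ s, Y ≤ s → lvr 1 l' s = lvr 1 l s) → ∀ t ∈ Icc Y (TT l),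
    PhiT 1 l' t = PhiT 1 l t ∧ ∀ (F : ℝ → ℝ) (La : ℝ), BD F → (∀ x, |deriv F x| ≤ La) →
      |Et l' t F - Et l t F| ≤ C * La * √Y * dist1 l l'

/-- the functionals are Lipschitz (easy from Lip1 and `Dn_bound`) -/
def LipFS : Prop := ∀ T0 : ℝ, ∃ C : ℝ, 1 ≤ C ∧ ∀ l l', Ok l → Ok l' → TT l' = TT l → TT l ≤ T0 →
  ∀ t ∈ Icc 0 (TT l), |Gam l' t - Gam l t| ≤ C * t * dist1 l l' ∧
    |GG l' t - GG l t| ≤ C * dist1 l l' ∧ |AA l' t - AA l t| ≤ C * dist1 l l' ∧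
    |NN l' t - NN l t| ≤ C * t * dist1 l l' ∧ |N4 l' t - N4 l t| ≤ C * dist1 l l' ∧
    |BB l' t - BB l t| ≤ C * dist1 l l' ∧ |chi l' - chi l| ≤ C * dist1 l l' ∧
    |k4 l' - k4 l| ≤ C * dist1 l l'

/-- **(Cmp)** -/
def CmpS : Prop := ∀ T0 : ℝ, ∃ C : ℝ, 1 ≤ C ∧ ∀ l l', Ok l → Ok l' → TT l' = TT l → TT l ≤ T0 →
  ∀ C0 η t : ℝ, 0 ≤ C0 → 0 ≤ η → t ∈ Icc 0 (TT l) → (∀ s, 0 ≤ s → s < t → lvr 1 l s ≤ C0 * s + η) →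
    |(GG l' t - GG l' 0) - (GG l t - GG l 0) +
      2 * ∫ s in (0:ℝ)..t, (lvr 1 l' s - lvr 1 l s) * AA l' s| ≤
      C * dist1 l l' * ((1 + C0) * t ^ 2 + η * t)

/-- plateau: decay of `G` where the tilt is `1` -/
def PlatS : Prop := ∀ l, Ok l → ∀ T t, 0 ≤ T → T ≤ t → t ≤ TT l → (∀ s, T ≤ s → lvr 1 l s = 1) →
  GG l t ≤ Real.exp (-((t - T) / 2)) * GG l T ∧
    1 - Gam l t ≤ Real.exp (-((t - T) / 2)) * (1 - Gam l T)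

/-! ### profiles: labels fixed, nodes move -/

/-- displacement profiles -/
structure Om (v Y L : ℝ) (om : ℕ → ℝ) : Prop where
  zero : om 0 = 0
  nn : ∀ j, 0 ≤ om j
  supp : ∀ j : ℕ, Y ≤ j * v → om j = 0
  lip : ∀ j, |om (j + 1) - om j| ≤ L * v

/-- node times -/
def sig (v : ℝ) (om : ℕ → ℝ) (j : ℕ) : ℝ := j * v - om j

/-- the list with tilts `z`, node times `s` -/
def lst (z s : ℕ → ℝ) (N : ℕ) : List (ℝ × ℝ) := List.ofFn fun k : Fin N => (z k, s (k + 1) - s k)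

/-- labels: monotone, positive, `= 1` from `N` on -/
structure Lab (z : ℕ → ℝ) (N : ℕ) : Prop where
  mono : Monotone z
  pos : 0 < z 0
  top : ∀ k, N ≤ k → z k = 1

/-- mass of the node `j + 1` -/
def dm (z : ℕ → ℝ) (j : ℕ) : ℝ := z (j + 1) - z j

/-- **(Area)** -/
def AreaS : Prop := ∀ (z s : ℕ → ℝ) (N : ℕ), Lab z N → s 0 = 0 → StrictMono s →
  (Ok (lst z s N) ∧ TT (lst z s N) = s N ∧
    (∀ j t, s j ≤ t → t < s (j + 1) → lvr 1 (lst z s N) t = z j) ∧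
    (∀ t, s N ≤ t → lvr 1 (lst z s N) t = 1) ∧
    ∀ t, 0 ≤ t → lvr 1 (lst z s N) t =
      z 0 + ∑ j ∈ Finset.range N, dm z j * if s (j + 1) ≤ t then 1 else 0) ∧
  ∀ s' : ℕ → ℝ, s' 0 = 0 → StrictMono s' → s' N = s N →
    dist1 (lst z s N) (lst z s' N) ≤ ∑ j ∈ Finset.range N, dm z j * |s' (j + 1) - s (j + 1)| ∧
    ∀ (g : ℝ → ℝ) (t : ℝ), t ∈ Icc 0 (s N) → ContinuousOn g (Icc 0 (s N)) →
      ∫ r in (0:ℝ)..t, (lvr 1 (lst z s' N) r - lvr 1 (lst z s N) r) * g r =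
        ∑ j ∈ Finset.range N, dm z j * ∫ r in min (s' (j + 1)) t..min (s (j + 1)) t, g r

/-- slopes of the labels up to `δ` on the indices `≤ M` -/
def Slope (z : ℕ → ℝ) (M : ℕ) (c C δ : ℝ) : Prop := ∀ i j : ℕ, i ≤ j → j ≤ M →
  c * ((j:ℝ) - i) - δ ≤ z j - z i ∧ z j - z i ≤ C * ((j:ℝ) - i) + δ

/-- **(Abel)** -/
def AbelS : Prop := ∀ (z ψ : ℕ → ℝ) (M : ℕ) (c C δ : ℝ), Slope z M c C δ → (∀ j, 0 ≤ ψ j) →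
  c * ∑ j ∈ Finset.range M, ψ (j + 1) - δ * (ψ M + ∑ j ∈ Finset.range M, |ψ (j + 1) - ψ j|) ≤
      ∑ j ∈ Finset.range M, dm z j * ψ (j + 1) ∧
    ∑ j ∈ Finset.range M, dm z j * ψ (j + 1) ≤
      C * ∑ j ∈ Finset.range M, ψ (j + 1) + δ * (ψ M + ∑ j ∈ Finset.range M, |ψ (j + 1) - ψ j|)

/-- `b` is defined by criticality up to `eps` -/
def bb (l : List (ℝ × ℝ)) (eps : ℝ) : ℝ := (1 - eps) / chi l ^ 2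
/-- replicon coefficient -/
def ee (l : List (ℝ × ℝ)) (eps t : ℝ) : ℝ := 1 - bb l eps * GG l t
/-- displaced mass below the time `t` -/
def WW (z : ℕ → ℝ) (N : ℕ) (v : ℝ) (om : ℕ → ℝ) (t : ℝ) : ℝ :=
  ∑ j ∈ Finset.range N, if ((j:ℝ) + 1) * v ≤ t then dm z j * om (j + 1) else 0
/-- the profile's list -/
def lom (P : Par) (β : ℝ) (om : ℕ → ℝ) (N : ℕ) : List (ℝ × ℝ) :=
  lst P.z (sig (β ^ 2 / P.K) om) N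

/-- **Theorem P1** (one profile) -/
def P1S : Prop := ∀ β c C T0 : ℝ, 1 < β → 0 < c → 1 ≤ C → ∃ c1 C1 Y0 η0 : ℝ, 0 < c1 ∧ 1 ≤ C1 ∧
  0 < Y0 ∧ 0 < η0 ∧ ∀ (P : Par) (η : ℝ), P.OK → P.Good β c C η → 0 ≤ η → η ≤ η0 →
  ∀ (N : ℕ) (om : ℕ → ℝ) (Y L eps : ℝ), P.a ≤ N → N * (β ^ 2 / P.K) ≤ T0 →
    Om (β ^ 2 / P.K) Y L om → 0 ≤ Y → Y ≤ Y0 → L ≤ 1 / 2 → 0 ≤ eps → eps ≤ 1 / 4 →
    let l := lom P β om N
    let W := WW P.z N (β ^ 2 / P.K) om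
    let T := β ^ 2 * P.b
    let th := 1 - bb l eps / β ^ 2
    (∀ t ∈ Icc 0 T, eps + c1 * W t - C1 * (W Y * t ^ 2 + η) ≤ ee l eps t ∧
      ee l eps t ≤ eps + C1 * W (2 * t) + C1 * (W Y * t ^ 2 + η)) ∧
    (∀ t ∈ Icc Y T, |ee l eps t - th| ≤ C1 * (√Y * W Y + η)) ∧
    (eps + c1 * W Y - C1 * η ≤ th ∧ th ≤ eps + C1 * W Y + C1 * η) ∧
    (|chi l ^ 2 - 1 / β ^ 2| ≤ C1 * (W Y + η) ∧ W Y ≤ L * Y ∧ 3 / 4 ≤ bb l eps ∧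
      bb l eps ≤ 2 * β ^ 2) ∧
    ∀ t ∈ Icc T (TT l), 1 - Real.exp (-((t - T) / 2)) * (1 - ee l eps T) ≤ ee l eps t

/-- **Theorem P2** (two profiles; difference form: divide by the step for derivatives) -/
def P2S : Prop := ∀ β c C T0 : ℝ, 1 < β → 0 < c → 1 ≤ C → ∃ c1 C1 Y0 η0 : ℝ, 0 < c1 ∧ 1 ≤ C1 ∧
  0 < Y0 ∧ 0 < η0 ∧ ∀ (P : Par) (η : ℝ), P.OK → P.Good β c C η → 0 ≤ η → η ≤ η0 →
  ∀ (N : ℕ) (om om' : ℕ → ℝ) (Y L eps eps' : ℝ), P.a ≤ N → N * (β ^ 2 / P.K) ≤ T0 →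
    Om (β ^ 2 / P.K) Y L om → Om (β ^ 2 / P.K) Y L om' → 0 ≤ Y → Y ≤ Y0 → L ≤ 1 / 2 →
    0 ≤ eps → eps ≤ 1 / 4 → 0 ≤ eps' → eps' ≤ 1 / 4 →
    let v := β ^ 2 / P.K
    let l := lom P β om N
    let l' := lom P β om' N
    let D := ∑ j ∈ Finset.range N, dm P.z j * |om' (j + 1) - om (j + 1)|
    let dth := (1 - bb l' eps' / β ^ 2) - (1 - bb l eps / β ^ 2)
    (|chi l' - chi l| ≤ C1 * D ∧ |k4 l' - k4 l| ≤ C1 * D ∧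
      |bb l' eps' - bb l eps| ≤ C1 * (D + |eps' - eps|) ∧
      ∀ j ≤ N, |Gam l' (sig v om' j) - Gam l (sig v om j)| ≤ |om' j - om j| + C1 * (j * v) * D) ∧
    (∀ t ∈ Icc 0 (TT l), |ee l' eps' t - ee l eps t - (eps' - eps) - 2 * bb l' eps' *
        ∑ j ∈ Finset.range N, dm P.z j * ∫ r in min (sig v om' (j + 1)) t..min (sig v om (j + 1)) t, AA l' r|
      ≤ C1 * (D + |eps' - eps|) * (t ^ 2 + η * t + |ee l eps t - eps|)) ∧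
    (∀ t ∈ Icc Y (TT l), |ee l' eps' t - ee l eps t - dth * (β ^ 2 * GG l t)| ≤ C1 * √Y * D) ∧
    ((∀ j, om j ≤ om' j) → eps ≤ eps' → c1 * (D + (eps' - eps)) ≤ dth ∧
      dth ≤ C1 * (D + (eps' - eps)))

end

end Crest.Agent.T156.Pr
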