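import Crest.Agent.T156.Mon_48
import Crest.Agent.T156.PrDef_28

/-!
Row 156 (helper27): surgery on admissible lists: drop, splice, relabel, the two-sided cut.
-/

set_option autoImplicit false

namespace Crest.Agent.T156.Spl27

open MeasureTheory Set
open Crest.Agent.R164.GC Crest.Agent.R339.B Crest.Agent.R339.Var Crest.Agent.T157.Pf
open Crest.Agent.T156.Sc48

noncomputable section

theorem adm_tail {p : ℝ × ℝ} {l : List (ℝ × ℝ)} (h : Adm 1 (p :: l)) : Adm 1 l := h.2.2.2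

theorem TT_nil : TT ([] : List (ℝ × ℝ)) = 0 := by simp [TT]

/-- beyond the total time the tilt is `1` -/
theorem lvr_end : ∀ {l : List (ℝ × ℝ)}, Adm 1 l → ∀ t, TT l ≤ t → lvr 1 l t = 1
  | [], _, _, _ => rfl
  | p :: l, h, t, ht => by
    rw [TT_cons] at ht
    have := TT_nonneg (adm_len (adm_tail h))
    simp only [lvr]
    rw [if_neg (by linarith), lvr_end (adm_tail h) _ (by linarith)]

/-- forget the time interval `[0, s)` -/
theorem drop : ∀ {l : List (ℝ × ℝ)}, Adm 1 l → ∀ s, 0 ≤ s → s ≤ TT l →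
    ∃ r, Adm 1 r ∧ TT r = TT l - s ∧ (∀ t, 0 ≤ t → lvr 1 r t = lvr 1 l (t + s)) ∧
      headLv 1 r = lvr 1 l s
  | [], _, s, h0, h1 => ⟨[], trivial, by rw [TT_nil] at h1 ⊢; linarith, fun _ _ => rfl, rfl⟩
  | p :: l, h, s, h0, h1 => by
    rw [TT_cons] at h1
    by_cases hs : s < p.2
    · refine ⟨(p.1, p.2 - s) :: l, ⟨h.1, h.2.1, by simp only; linarith, h.2.2.2⟩, ?_, ?_, ?_⟩
      · rw [TT_cons, TT_cons]; ring
      · intro t _
        simp only [lvr]
        by_cases h2 : t < p.2 - s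
        · rw [if_pos h2, if_pos (by linarith)]
        · rw [if_neg h2, if_neg (by linarith)]
          congr 1; ring
      · simp only [lvr, headLv]; rw [if_pos hs]
    · obtain ⟨r, a, b, c, d⟩ := drop (adm_tail h) (s - p.2) (by linarith) (by linarith)
      refine ⟨r, a, by rw [b, TT_cons]; ring, fun t ht => ?_, ?_⟩
      · rw [c t ht]
        simp only [lvr]
        rw [if_neg (by linarith)]
        congr 1; ring
      · rw [d]; simp only [lvr]; rw [if_neg hs]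

/-- keep `[0, s)` of `l`, continue with `r` -/
theorem take_app {r : List (ℝ × ℝ)} (hr : Adm 1 r) : ∀ {l : List (ℝ × ℝ)}, Adm 1 l → ∀ s, 0 ≤ s →
    s ≤ TT l → (∀ t, 0 ≤ t → t < s → lvr 1 l t ≤ headLv 1 r) →
    ∃ u, Adm 1 u ∧ TT u = s + TT r ∧ (∀ t, 0 ≤ t → t < s → lvr 1 u t = lvr 1 l t) ∧
      (∀ t, s ≤ t → lvr 1 u t = lvr 1 r (t - s)) ∧ min (headLv 1 l) (headLv 1 r) ≤ headLv 1 u
  | [], _, s, h0, h1, _ => by
    rw [TT_nil] at h1
    obtain rfl : s = 0 := le_antisymm h1 h0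
    exact ⟨r, hr, by ring, fun t a b => absurd b (not_lt.2 a), fun t _ => by rw [sub_zero],
      min_le_right _ _⟩
  | p :: l, h, s, h0, h1, h2 => by
    rw [TT_cons] at h1
    rcases h0.eq_or_lt with rfl | hs
    · exact ⟨r, hr, by ring, fun t a b => absurd b (not_lt.2 a), fun t _ => by rw [sub_zero],
        min_le_right _ _⟩
    have hp : p.1 ≤ headLv 1 r := (lvr_mem h 0).1.trans (h2 0 le_rfl hs)
    by_cases h3 : s ≤ p.2
    · refine ⟨(p.1, s) :: r, ⟨h.1, hp, h0, hr⟩, by rw [TT_cons], fun t _ b => ?_, fun t b => ?_,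
        min_le_left _ _⟩
      · simp only [lvr]; rw [if_pos b, if_pos (by linarith)]
      · simp only [lvr]; rw [if_neg (not_lt.2 b)]
    · have h4 : 0 ≤ p.2 := h.2.2.1
      obtain ⟨u, a, b, c, d, e⟩ := take_app hr (adm_tail h) (s - p.2) (by linarith) (by linarith)
        (fun t x y => by
          have := h2 (t + p.2) (by linarith) (by linarith)
          simp only [lvr] at this
          rwa [if_neg (by linarith), add_sub_cancel_right] at this)
      refine ⟨p :: u, ⟨h.1, (le_min h.2.1 hp).trans e, h4, a⟩, by rw [TT_cons, b]; ring,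
        fun t x y => ?_, fun t x => ?_, min_le_left _ _⟩
      · simp only [lvr]
        split_ifs with h5
        · rfl
        · exact c _ (by linarith) (by linarith)
      · simp only [lvr]
        rw [if_neg (by linarith), d _ (by linarith)]
        congr 1; ring

/-- **splice**: `l0` before the time `s`, `l1` after -/
theorem splice {l0 l1 : List (ℝ × ℝ)} (h0 : Adm 1 l0) (h1 : Adm 1 l1) {s : ℝ} (hs : 0 ≤ s)
    (s0 : s ≤ TT l0) (s1 : s ≤ TT l1) (hj : ∀ t, 0 ≤ t → t < s → lvr 1 l0 t ≤ lvr 1 l1 s) :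
    ∃ u, Adm 1 u ∧ TT u = TT l1 ∧ (∀ t, 0 ≤ t → t < s → lvr 1 u t = lvr 1 l0 t) ∧
      ∀ t, s ≤ t → lvr 1 u t = lvr 1 l1 t := by
  obtain ⟨r, a, b, c, d⟩ := drop h1 s hs s1
  obtain ⟨u, e, f, g, k, -⟩ := take_app a h0 s hs s0 (by rw [d]; exact hj)
  refine ⟨u, e, by rw [f, b]; ring, g, fun t ht => ?_⟩
  rw [k t ht, c _ (by linarith), sub_add_cancel]

/-- **relabel** -/
theorem relabel {ψ : ℝ → ℝ} (hm : Monotone ψ) (hp : ∀ x, 0 < ψ x) (h1 : ∀ x, ψ x ≤ 1) :
    ∀ {l : List (ℝ × ℝ)}, Adm 1 l → Adm 1 (l.map fun p => (ψ p.1, p.2)) ∧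
      TT (l.map fun p => (ψ p.1, p.2)) = TT l ∧
      ∀ t, t < TT l → 0 ≤ t → lvr 1 (l.map fun p => (ψ p.1, p.2)) t = ψ (lvr 1 l t)
  | [], _ => ⟨trivial, rfl, fun t a b => by rw [TT_nil] at a; linarith⟩
  | p :: l, h => by
    obtain ⟨a, b, c⟩ := relabel hm hp h1 (adm_tail h)
    refine ⟨⟨hp _, ?_, h.2.2.1, a⟩, ?_, fun t x y => ?_⟩
    · cases l with
      | nil => exact h1 _
      | cons q l => exact hm h.2.1
    · rw [List.map_cons, TT_cons, TT_cons, b]
    · rw [TT_cons] at x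
      simp only [List.map_cons, lvr]
      split_ifs with h5
      · rfl
      · exact c _ (by linarith) (by linarith)

/-- zero slices can be removed -/
theorem exists_ok : ∀ {l : List (ℝ × ℝ)}, Adm 1 l →
    ∃ u, Pr.Ok u ∧ Eqv l u ∧ headLv 1 l ≤ headLv 1 u
  | [], _ => ⟨[], ⟨trivial, fun _ h => absurd h List.not_mem_nil⟩, Eqv.refl _, le_rfl⟩
  | p :: l, h => by
    obtain ⟨u, a, b, c⟩ := exists_ok (adm_tail h)
    rcases h.2.2.1.eq_or_lt with e | e
    · refine ⟨u, a, Eqv.trans ?_ b, h.2.1.trans c⟩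
      have : p = (p.1, 0) := Prod.ext rfl e.symm
      rw [this]
      exact eqv_zero h.1.ne' (adm_len (adm_tail h))
    · refine ⟨p :: u, ⟨⟨h.1, h.2.1.trans c, e.le, a.1⟩, fun q hq => ?_⟩, b.cons p, le_rfl⟩
      rcases List.mem_cons.1 hq with rfl | hq
      · exact e
      · exact a.2 q hq

/-- **the two-sided cut**: `lb` outside `[s0, s1)`, the relabelled `lh` inside -/
theorem cut3 {lb lh : List (ℝ × ℝ)} (hb : Adm 1 lb) (hh : Adm 1 lh) {T s0 s1 : ℝ} (eb : TT lb = T)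
    (eh : TT lh = T) (a0 : 0 ≤ s0) (a1 : s0 ≤ s1) (a2 : s1 ≤ T) {ψ : ℝ → ℝ}
    (hψ : MonotoneOn ψ (Icc (lvr 1 lh s0) (lvr 1 lh s1))) (p0 : 0 < ψ (lvr 1 lh s0))
    (j0 : ∀ t, 0 ≤ t → t < s0 → lvr 1 lb t ≤ ψ (lvr 1 lh s0))
    (j1 : ψ (lvr 1 lh s1) ≤ lvr 1 lb s1) :
    ∃ u, Pr.Ok u ∧ TT u = T ∧ (∀ t, s0 ≤ t → t < s1 → lvr 1 u t = ψ (lvr 1 lh t)) ∧
      ∀ t, 0 ≤ t → (t < s0 ∨ s1 ≤ t) → lvr 1 u t = lvr 1 lb t := by
  set x0 := lvr 1 lh s0 with hx0
  set x1 := lvr 1 lh s1 with hx1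
  have hx : x0 ≤ x1 := lvr_mono hh a1
  have cm : ∀ x, max x0 (min x x1) ∈ Icc x0 x1 := fun x =>
    ⟨le_max_left _ _, max_le hx (min_le_right _ _)⟩
  have m : Monotone fun x => ψ (max x0 (min x x1)) := fun x y h =>
    hψ (cm x) (cm y) (max_le_max le_rfl (min_le_min h le_rfl))
  have lo : ∀ x, ψ x0 ≤ ψ (max x0 (min x x1)) := fun x => hψ ⟨le_rfl, hx⟩ (cm x) (cm x).1
  have hi : ∀ x, ψ (max x0 (min x x1)) ≤ ψ x1 := fun x => hψ (cm x) ⟨hx, le_rfl⟩ (cm x).2
  obtain ⟨a, b, c⟩ := relabel m (fun x => p0.trans_le (lo x))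
    (fun x => (hi x).trans (j1.trans (lvr_mem hb s1).2)) hh
  obtain ⟨u, u1, u2, u3, u4⟩ := splice a hb (s := s1) (a0.trans a1) (by rw [b, eh]; exact a2)
    (by rw [eb]; exact a2) (fun t x y => by
      rw [c t (by rw [eh]; linarith) x]; exact (hi _).trans j1)
  have mid : ∀ t, s0 ≤ t → t < s1 → lvr 1 u t = ψ (lvr 1 lh t) := fun t x y => by
    rw [u3 t (a0.trans x) y, c t (by rw [eh]; linarith) (a0.trans x)]
    have e1 : lvr 1 lh t ≤ x1 := lvr_mono hh y.le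
    have e2 : x0 ≤ lvr 1 lh t := lvr_mono hh x
    simp only [min_eq_left e1, max_eq_right e2]
  obtain ⟨v, v1, v2, v3, v4⟩ := splice hb u1 (s := s0) a0 (by rw [eb]; linarith)
    (by rw [u2, eb]; linarith) (fun t x y => by
      rcases a1.eq_or_lt with e | e
      · rw [u4 s0 e.ge]; exact lvr_mono hb y.le
      · rw [mid s0 le_rfl e]; exact j0 t x y)
  obtain ⟨w, w1, w2, -⟩ := exists_ok v1
  refine ⟨w, w1, by rw [← w2.tt, v2, u2, eb], fun t x y => ?_, fun t x y => ?_⟩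
  · rw [← w2.lv t (a0.trans x), v4 t x, mid t x y]
  · rw [← w2.lv t x]
    rcases y with y | y
    · exact v3 t x y
    · rw [v4 t (a1.trans y), u4 t y]

/-- weighted maximum: `E ≤ W + a E` with `a W ≤ W / 2` gives `E ≤ 2 W` -/
theorem wmax {ι : Type} [Fintype ι] {E W : ι → ℝ} {a : ι → ι → ℝ} (hW : ∀ k, 0 < W k)
    (ha : ∀ k j, 0 ≤ a k j) (h : ∀ k, E k ≤ W k + ∑ j, a k j * E j)
    (hs : ∀ k, ∑ j, a k j * W j ≤ W k / 2) (k : ι) : E k ≤ 2 * W k := by
  obtain ⟨i, -, hi⟩ := Finset.exists_max_image Finset.univ (fun k => E k / W k)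
    ⟨k, Finset.mem_univ _⟩
  set M := E i / W i with hM
  have h1 : ∀ j, E j ≤ M * W j := fun j => (div_le_iff₀ (hW j)).1 (hi j (Finset.mem_univ _))
  by_cases hM2 : M ≤ 2
  · exact (h1 k).trans (mul_le_mul_of_nonneg_right hM2 (hW k).le)
  · exfalso
    have h2 : ∑ j, a i j * E j ≤ M * ∑ j, a i j * W j := by
      rw [Finset.mul_sum]
      refine Finset.sum_le_sum fun j _ => ?_
      have := mul_le_mul_of_nonneg_left (h1 j) (ha i j)
      linarith
    have h3 : E i = M * W i := by rw [hM, div_mul_cancel₀ _ (hW i).ne']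
    have h4 := mul_le_mul_of_nonneg_left (hs i) (by linarith : 0 ≤ M)
    have := h i
    have := hW i
    nlinarith

/-- nonlinear form: the right-hand side is any bound that is monotone in the weighted maximum -/
theorem wmax' {ι : Type} [Fintype ι] {E W : ι → ℝ} (hW : ∀ k, 0 < W k)
    (h : ∀ M, 1 ≤ M → (∀ j, E j ≤ M * W j) → ∀ k, E k ≤ W k + M * W k / 2) (k : ι) :
    E k ≤ 2 * W k := by
  obtain ⟨i, -, hi⟩ := Finset.exists_max_image Finset.univ (fun k => E k / W k)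
    ⟨k, Finset.mem_univ _⟩
  set M := E i / W i with hM
  have h1 : ∀ j, E j ≤ M * W j := fun j => (div_le_iff₀ (hW j)).1 (hi j (Finset.mem_univ _))
  by_cases hM2 : M ≤ 2
  · exact (h1 k).trans (mul_le_mul_of_nonneg_right hM2 (hW k).le)
  · exfalso
    have h3 : E i = M * W i := by rw [hM, div_mul_cancel₀ _ (hW i).ne']
    have := h M (by linarith) h1 i
    have := hW i
    nlinarith

end

end Crest.Agent.T156.Spl27
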