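import Crest.Agent.T156.PrDef_28

/-!
Row 156 (helper50): text (P), leaves (Area) and (Abel).  Fixed labels `z j`, moving nodes `sig j`.
-/

set_option autoImplicit false

namespace Crest.Agent.T156.Pp.Area50

open MeasureTheory Finset
open Set (indicator_of_mem indicator_of_notMem uIoc_of_le uIoc_subset_uIcc)
open Crest.Agent.R339.B Crest.Agent.R339.Var Crest.Agent.T157.Pf

noncomputable section

/-- blocks `(z j, sig (j+1) - sig j)`, `j < J` -/
def lsg (z sig : ℕ → ℝ) (J : ℕ) : List (ℝ × ℝ) :=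
  List.ofFn fun j : Fin J => (z j, sig (j + 1) - sig j)

/-- indicator of `u ≤ t` -/
def ind (u t : ℝ) : ℝ := if u ≤ t then 1 else 0

/-- the step function with jumps `z (j+1) - z j` at the times `sig (j+1)` -/
def stp (z sig : ℕ → ℝ) (J : ℕ) (t : ℝ) : ℝ :=
  z 0 + ∑ j ∈ range J, (z (j + 1) - z j) * ind (sig (j + 1)) t

/-- nondecreasing up to `J` -/
def Up (f : ℕ → ℝ) (J : ℕ) : Prop := ∀ j < J, f j ≤ f (j + 1)

theorem Up.le {f : ℕ → ℝ} {J : ℕ} (h : Up f J) {i j : ℕ} (hij : i ≤ j) (hj : j ≤ J) : f i ≤ f j := by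
  induction j, hij using Nat.le_induction with
  | base => exact le_rfl
  | succ k _ ih => exact (ih (by omega)).trans (h k (by omega))

theorem Up.tail {f : ℕ → ℝ} {J : ℕ} (h : Up f (J + 1)) : Up (fun j => f (j + 1)) J :=
  fun j hj => h (j + 1) (by omega)

theorem up_of_mono {f : ℕ → ℝ} (h : Monotone f) (J : ℕ) : Up f J := fun j _ => h (Nat.le_succ j)

theorem lsg_zero (z sig : ℕ → ℝ) : lsg z sig 0 = [] := by simp [lsg]

theorem lsg_succ (z sig : ℕ → ℝ) (J : ℕ) : lsg z sig (J + 1) =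
    (z 0, sig 1 - sig 0) :: lsg (fun j => z (j + 1)) (fun j => sig (j + 1)) J := by
  simp [lsg, List.ofFn_succ]

theorem TT_lsg : ∀ (J : ℕ) (z sig : ℕ → ℝ), TT (lsg z sig J) = sig J - sig 0
  | 0, z, sig => by simp [lsg_zero, TT]
  | J + 1, z, sig => by rw [lsg_succ, TT_cons, TT_lsg J]; ring

theorem headLv_lsg {β : ℝ} {z : ℕ → ℝ} (sig : ℕ → ℝ) {J : ℕ} (hz : z J = β) :
    headLv β (lsg z sig J) = z 0 := by
  cases J with
  | zero => rw [lsg_zero]; exact hz.symm
  | succ J => rw [lsg_succ]; rfl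

theorem adm_lsg {β : ℝ} : ∀ (J : ℕ) (z sig : ℕ → ℝ), z J = β → 0 < z 0 → Up z J → Up sig J →
    Adm β (lsg z sig J)
  | 0, z, sig, _, _, _, _ => by rw [lsg_zero]; trivial
  | J + 1, z, sig, hz, h0, h1, h2 => by
    rw [lsg_succ]
    refine ⟨h0, ?_, sub_nonneg.2 (h2 0 (by omega)),
      adm_lsg J _ _ hz (h0.trans_le (h1 0 (by omega))) h1.tail h2.tail⟩
    rw [headLv_lsg (z := fun j => z (j + 1)) _ hz]
    exact h1 0 (by omega)

theorem ind_nonneg (u t : ℝ) : 0 ≤ ind u t := by unfold ind; split_ifs <;> norm_num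
theorem ind_le_one (u t : ℝ) : ind u t ≤ 1 := by unfold ind; split_ifs <;> norm_num
theorem ind_pos {u t : ℝ} (h : u ≤ t) : ind u t = 1 := if_pos h
theorem ind_neg {u t : ℝ} (h : t < u) : ind u t = 0 := if_neg (not_le.2 h)
theorem ind_le {u t u' t' : ℝ} (h : u ≤ t → u' ≤ t') : ind u t ≤ ind u' t' := by
  by_cases h1 : u ≤ t
  · rw [ind_pos h1, ind_pos (h h1)]
  · rw [ind_neg (not_le.1 h1)]; exact ind_nonneg _ _
theorem ind_mono (u : ℝ) : Monotone (ind u) := fun _ _ h => ind_le fun h1 => h1.trans h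

theorem lvr_lsg' {β : ℝ} : ∀ (J : ℕ) (z sig : ℕ → ℝ), z J = β → Up sig J → ∀ t,
    lvr β (lsg z sig J) (t - sig 0) = stp z sig J t
  | 0, z, sig, hz, _, t => by rw [lsg_zero]; simp [stp, lvr, hz]
  | J + 1, z, sig, hz, h, t => by
    rw [lsg_succ]
    unfold lvr stp
    rw [sum_range_succ']
    split_ifs with h1
    · have h2 : t < sig 1 := by simp only at h1; linarith
      rw [ind_neg h2, sum_eq_zero fun j hj => ?_]
      · simp
      · rw [ind_neg (h2.trans_le (h.le (by omega) (by rw [mem_range] at hj; omega))), mul_zero]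
    · have h2 : sig 1 ≤ t := by simp only at h1; linarith
      have ih := lvr_lsg' (β := β) J (fun j => z (j + 1)) (fun j => sig (j + 1)) hz h.tail t
      simp only [zero_add] at ih ⊢
      rw [show t - sig 0 - (sig 1 - sig 0) = t - sig 1 by ring, ih, ind_pos h2, stp]
      ring

/-- `zh(t) = z_0 + ∑ dm_j 1(sig_j ≤ t)` -/
theorem lvr_lsg {β : ℝ} {J : ℕ} {z sig : ℕ → ℝ} (hz : z J = β) (h : Up sig J) (h0 : sig 0 = 0)
    (t : ℝ) : lvr β (lsg z sig J) t = stp z sig J t := by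
  rw [← lvr_lsg' J z sig hz h t, h0, sub_zero]

/-- slices at the top tilt do not change the level function -/
theorem lvr_top {β : ℝ} : ∀ {l : List (ℝ × ℝ)}, (∀ p ∈ l, p.1 = β) → ∀ t, lvr β l t = β
  | [], _, _ => rfl
  | p :: l, h, t => by
    unfold lvr
    split_ifs
    · exact h p (by simp)
    · exact lvr_top (fun q hq => h q (by simp [hq])) _

theorem lvr_append {β : ℝ} {l' : List (ℝ × ℝ)} (h : ∀ p ∈ l', p.1 = β) :
    ∀ (l : List (ℝ × ℝ)) (t : ℝ), lvr β (l ++ l') t = lvr β l t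
  | [], t => lvr_top h t
  | p :: l, t => by
    rw [List.cons_append]
    unfold lvr
    rw [lvr_append h l]

theorem stp_eq {z sig : ℕ → ℝ} {J k : ℕ} (h : Up sig J) (hk : k ≤ J) {t : ℝ}
    (h1 : 0 < k → sig k ≤ t) (h2 : k < J → t < sig (k + 1)) : stp z sig J t = z k := by
  unfold stp
  rw [← sum_range_add_sum_Ico _ hk, sum_eq_zero (s := Finset.Ico k J) fun j hj => ?_,
    sum_congr rfl (g := fun j => z (j + 1) - z j) fun j hj => ?_, sum_range_sub]
  · ring
  · rw [mem_range] at hj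
    rw [ind_pos ((h.le (by omega) hk).trans (h1 (by omega))), mul_one]
  · rw [Finset.mem_Ico] at hj
    rw [ind_neg ((h2 (by omega)).trans_le (h.le (by omega) (by omega))), mul_zero]

theorem stp_le {z sig sig' : ℕ → ℝ} {J : ℕ} (hz : Up z J) {t t' : ℝ}
    (h : ∀ j < J, sig (j + 1) ≤ t → sig' (j + 1) ≤ t') : stp z sig J t ≤ stp z sig' J t' := by
  unfold stp
  refine add_le_add le_rfl (sum_le_sum fun j hj => ?_)
  rw [mem_range] at hj
  exact mul_le_mul_of_nonneg_left (ind_le (h j hj)) (sub_nonneg.2 (hz j hj))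

theorem stp_mono {z : ℕ → ℝ} (sig : ℕ → ℝ) {J : ℕ} (hz : Up z J) : Monotone (stp z sig J) :=
  fun _ _ h => stp_le hz fun _ _ h1 => h1.trans h

theorem le_stp {z : ℕ → ℝ} (sig : ℕ → ℝ) {J : ℕ} (hz : Up z J) (t : ℝ) : z 0 ≤ stp z sig J t :=
  le_add_of_nonneg_right (sum_nonneg fun j hj =>
    mul_nonneg (sub_nonneg.2 (hz j (mem_range.1 hj))) (ind_nonneg _ _))

theorem stp_le_top {z : ℕ → ℝ} (sig : ℕ → ℝ) {J : ℕ} (hz : Up z J) (t : ℝ) :
    stp z sig J t ≤ z J := by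
  have h : ∑ j ∈ range J, (z (j + 1) - z j) * ind (sig (j + 1)) t ≤
      ∑ j ∈ range J, (z (j + 1) - z j) := sum_le_sum fun j hj =>
    mul_le_of_le_one_right (sub_nonneg.2 (hz j (mem_range.1 hj))) (ind_le_one _ _)
  rw [sum_range_sub] at h
  unfold stp
  linarith

theorem stp_sub (z sig sig' : ℕ → ℝ) (J : ℕ) (t : ℝ) : stp z sig' J t - stp z sig J t =
    ∑ j ∈ range J, (z (j + 1) - z j) * (ind (sig' (j + 1)) t - ind (sig (j + 1)) t) := by
  unfold stp
  simp only [mul_sub, sum_sub_distrib]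
  ring

/-! ### areas -/

/-- projection on `[a,b]` -/
def cl (a b u : ℝ) : ℝ := max a (min u b)

theorem cl_mem {a b : ℝ} (hab : a ≤ b) (u : ℝ) : cl a b u ∈ Set.Icc a b :=
  ⟨le_max_left _ _, max_le hab (min_le_right _ _)⟩

theorem cl_mono (a b : ℝ) : Monotone (cl a b) :=
  fun _ _ h => max_le_max le_rfl (min_le_min h le_rfl)

theorem cl_of_mem {a b u : ℝ} (h1 : a ≤ u) (h2 : u ≤ b) : cl a b u = u := by
  rw [cl, min_eq_left h2, max_eq_right h1]

theorem cl_of_ge {a b u : ℝ} (hab : a ≤ b) (h2 : b ≤ u) : cl a b u = b := by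
  rw [cl, min_eq_right h2, max_eq_right hab]

theorem cl_of_le {a b u : ℝ} (h2 : u ≤ a) : cl a b u = a :=
  max_eq_left ((min_le_left _ _).trans h2)

theorem cl_lip (a b u u' : ℝ) : |cl a b u - cl a b u'| ≤ |u - u'| := by
  unfold cl
  refine (abs_max_sub_max_le_max _ _ _ _).trans (max_le (by simp) ?_)
  refine (abs_min_sub_min_le_max _ _ _ _).trans (max_le le_rfl (by simp))

theorem ii_ind {a b : ℝ} {g : ℝ → ℝ} (hg : IntervalIntegrable g volume a b) (u : ℝ) :
    IntervalIntegrable (fun s => ind u s * g s) volume a b := by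
  have e : (fun s => ind u s * g s) = (Set.Ici u).indicator g := by
    funext s
    by_cases h : u ≤ s
    · rw [ind_pos h, one_mul, indicator_of_mem (show s ∈ Set.Ici u from h)]
    · rw [ind_neg (not_le.1 h), zero_mul, indicator_of_notMem (show s ∉ Set.Ici u from h)]
  rw [e]
  exact ⟨hg.1.indicator measurableSet_Ici, hg.2.indicator measurableSet_Ici⟩

theorem ii_sub {a b c d : ℝ} {g : ℝ → ℝ} (hab : a ≤ b) (hg : IntervalIntegrable g volume a b)
    (hc : c ∈ Set.Icc a b) (hd : d ∈ Set.Icc a b) : IntervalIntegrable g volume c d :=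
  hg.mono_set (by rw [Set.uIcc_of_le hab]; exact Set.uIcc_subset_Icc hc hd)

theorem int_ind {a b : ℝ} (hab : a ≤ b) {g : ℝ → ℝ} (hg : IntervalIntegrable g volume a b) (u : ℝ) :
    ∫ s in a..b, ind u s * g s = ∫ s in cl a b u..b, g s := by
  have hc := cl_mem hab u
  have hi := ii_ind hg u
  rw [← intervalIntegral.integral_add_adjacent_intervals (b := cl a b u)
    (ii_sub hab hi ⟨le_rfl, hab⟩ hc) (ii_sub hab hi hc ⟨hab, le_rfl⟩)]
  have e1 : ∫ s in a..cl a b u, ind u s * g s = 0 := by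
    rw [intervalIntegral.integral_of_le hc.1, integral_Ioc_eq_integral_Ioo,
      setIntegral_congr_fun measurableSet_Ioo (g := fun _ => (0 : ℝ)) fun s hs => ?_]
    · simp
    · have : s < u := by
        rcases lt_max_iff.1 hs.2 with h | h
        · exact absurd hs.1 (not_lt.2 h.le)
        · exact h.trans_le (min_le_left _ _)
      simp only [ind_neg this, zero_mul]
  have e2 : ∫ s in cl a b u..b, ind u s * g s = ∫ s in cl a b u..b, g s := by
    rw [intervalIntegral.integral_of_le hc.2, intervalIntegral.integral_of_le hc.2]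
    refine setIntegral_congr_fun measurableSet_Ioc fun s hs => ?_
    have : u ≤ s := by
      rcases min_lt_iff.1 ((le_max_right _ _).trans_lt hs.1) with h | h
      · exact h.le
      · exact absurd hs.2 (not_le.2 h)
    simp only [ind_pos this, one_mul]
  rw [e1, e2, zero_add]

theorem int_ind_sub {a b : ℝ} (hab : a ≤ b) {g : ℝ → ℝ} (hg : IntervalIntegrable g volume a b)
    (u u' : ℝ) : ∫ s in a..b, (ind u' s - ind u s) * g s = ∫ s in cl a b u'..cl a b u, g s := by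
  simp only [sub_mul]
  rw [intervalIntegral.integral_sub (ii_ind hg u') (ii_ind hg u), int_ind hab hg, int_ind hab hg,
    ← intervalIntegral.integral_add_adjacent_intervals (b := cl a b u)
    (ii_sub hab hg (cl_mem hab u') (cl_mem hab u)) (ii_sub hab hg (cl_mem hab u) ⟨hab, le_rfl⟩)]
  ring

theorem ii_ind_sub {a b : ℝ} {g : ℝ → ℝ} (hg : IntervalIntegrable g volume a b) (u u' : ℝ) :
    IntervalIntegrable (fun s => (ind u' s - ind u s) * g s) volume a b := by
  simp only [sub_mul]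
  exact (ii_ind hg u').sub (ii_ind hg u)

/-- **(Area)**, exact form -/
theorem area (z sig sig' : ℕ → ℝ) (J : ℕ) {a b : ℝ} (hab : a ≤ b) {g : ℝ → ℝ}
    (hg : IntervalIntegrable g volume a b) :
    ∫ s in a..b, (stp z sig' J s - stp z sig J s) * g s =
      ∑ j ∈ range J, (z (j + 1) - z j) *
        ∫ s in cl a b (sig' (j + 1))..cl a b (sig (j + 1)), g s := by
  simp only [stp_sub, sum_mul, mul_assoc]
  rw [intervalIntegral.integral_finsetSum fun j _ => (ii_ind_sub hg _ _).const_mul _]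
  refine sum_congr rfl fun j _ => ?_
  rw [intervalIntegral.integral_const_mul, int_ind_sub hab hg]

theorem ii_stp (z sig : ℕ → ℝ) (J : ℕ) {a b : ℝ} {g : ℝ → ℝ} (hg : IntervalIntegrable g volume a b) :
    IntervalIntegrable (fun s => stp z sig J s * g s) volume a b := by
  unfold stp
  simp only [add_mul, sum_mul, mul_assoc]
  refine (hg.const_mul _).add ?_
  have := IntervalIntegrable.sum (range J)
    (f := fun j s => (z (j + 1) - z j) * (ind (sig (j + 1)) s * g s))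
    fun j _ => (ii_ind hg _).const_mul _
  exact this.congr fun s _ => by simp only [Finset.sum_apply]

theorem ii_stp_one (z sig : ℕ → ℝ) (J : ℕ) (a b : ℝ) :
    IntervalIntegrable (stp z sig J) volume a b := by
  simpa using ii_stp z sig J (g := fun _ => 1) (a := a) (b := b) intervalIntegrable_const

theorem ii_abs (z sig sig' : ℕ → ℝ) (J : ℕ) {a b : ℝ} {g : ℝ → ℝ}
    (hg : IntervalIntegrable g volume a b) :
    IntervalIntegrable (fun s => |stp z sig' J s - stp z sig J s| * |g s|) volume a b := by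
  have := ((ii_stp z sig' J hg).sub (ii_stp z sig J hg)).abs
  simpa only [← sub_mul, abs_mul] using this

theorem int_abs_ind {a b : ℝ} (hab : a ≤ b) {g : ℝ → ℝ} (hg : IntervalIntegrable g volume a b)
    (u u' : ℝ) : ∫ s in a..b, |ind u' s - ind u s| * g s =
      ∫ s in cl a b (min u u')..cl a b (max u u'), g s := by
  rw [← int_ind_sub hab hg]
  congr 1
  funext s
  rcases le_total u u' with h | h
  · rw [min_eq_left h, max_eq_right h, abs_sub_comm,
      abs_of_nonneg (sub_nonneg.2 (ind_le fun h1 => h.trans h1))]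
  · rw [min_eq_right h, max_eq_left h, abs_of_nonneg (sub_nonneg.2 (ind_le fun h1 => h.trans h1))]

/-- **(Area)**, weighted `L¹` distance: `0 ≤ g ≤ G j` between the two positions of node `j` -/
theorem area_abs_le {z : ℕ → ℝ} (sig sig' : ℕ → ℝ) {J : ℕ} (hz : Up z J) {a b : ℝ} (hab : a ≤ b)
    {g : ℝ → ℝ} (hg : IntervalIntegrable g volume a b) (h0 : ∀ s ∈ Set.Icc a b, 0 ≤ g s) {G : ℕ → ℝ}
    (hG : ∀ j < J, ∀ s ∈ Set.Icc a b, min (sig (j + 1)) (sig' (j + 1)) ≤ s →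
      s ≤ max (sig (j + 1)) (sig' (j + 1)) → g s ≤ G (j + 1)) :
    ∫ s in a..b, |stp z sig' J s - stp z sig J s| * g s ≤
      ∑ j ∈ range J, (z (j + 1) - z j) *
        (G (j + 1) * |cl a b (sig' (j + 1)) - cl a b (sig (j + 1))|) := by
  have i1 : ∀ u u', IntervalIntegrable (fun s => |ind u' s - ind u s| * g s) volume a b := by
    intro u u'
    have e : (fun s => |ind u' s - ind u s| * g s) =
        fun s => (ind (min u u') s - ind (max u u') s) * g s := by
      funext s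
      rcases le_total u u' with h | h
      · rw [min_eq_left h, max_eq_right h, abs_sub_comm,
          abs_of_nonneg (sub_nonneg.2 (ind_le fun h1 => h.trans h1))]
      · rw [min_eq_right h, max_eq_left h,
          abs_of_nonneg (sub_nonneg.2 (ind_le fun h1 => h.trans h1))]
    rw [e]
    exact ii_ind_sub hg _ _
  have i2 : IntervalIntegrable (fun s => |stp z sig' J s - stp z sig J s| * g s) volume a b := by
    refine ((ii_abs z sig sig' J hg).congr fun s hs => ?_)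
    rw [uIoc_of_le hab] at hs
    simp only [abs_of_nonneg (h0 s ⟨hs.1.le, hs.2⟩)]
  have i3 : IntervalIntegrable (fun s => ∑ j ∈ range J,
      (z (j + 1) - z j) * (|ind (sig' (j + 1)) s - ind (sig (j + 1)) s| * g s)) volume a b := by
    have := IntervalIntegrable.sum (range J)
      (f := fun j s => (z (j + 1) - z j) * (|ind (sig' (j + 1)) s - ind (sig (j + 1)) s| * g s))
      fun j _ => (i1 _ _).const_mul _
    exact this.congr fun s _ => by simp only [Finset.sum_apply]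
  refine (intervalIntegral.integral_mono_on hab i2 i3 fun s hs => ?_).trans ?_
  · rw [stp_sub]
    simp only [← mul_assoc, ← sum_mul]
    refine mul_le_mul_of_nonneg_right ((abs_sum_le_sum_abs _ _).trans (sum_le_sum fun j hj => ?_))
      (h0 s hs)
    rw [abs_mul, abs_of_nonneg (sub_nonneg.2 (hz j (mem_range.1 hj)))]
  · rw [intervalIntegral.integral_finsetSum fun j _ => (i1 _ _).const_mul _]
    refine sum_le_sum fun j hj => ?_
    rw [mem_range] at hj
    rw [intervalIntegral.integral_const_mul, int_abs_ind hab hg]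
    refine mul_le_mul_of_nonneg_left ?_ (sub_nonneg.2 (hz j hj))
    set u := sig (j + 1)
    set u' := sig' (j + 1)
    have hle : cl a b (min u u') ≤ cl a b (max u u') := cl_mono a b (min_le_max)
    have e : |cl a b u' - cl a b u| = cl a b (max u u') - cl a b (min u u') := by
      rcases le_total u u' with h | h
      · rw [min_eq_left h, max_eq_right h, abs_of_nonneg (sub_nonneg.2 (cl_mono a b h))]
      · rw [min_eq_right h, max_eq_left h, abs_sub_comm,
          abs_of_nonneg (sub_nonneg.2 (cl_mono a b h))]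
    rw [e]
    have m1 := cl_mem hab (min u u')
    have m2 := cl_mem hab (max u u')
    calc _ ≤ ∫ _ in cl a b (min u u')..cl a b (max u u'), G (j + 1) := by
          refine intervalIntegral.integral_mono_on_of_le_Ioo hle (ii_sub hab hg m1 m2)
            intervalIntegrable_const fun s hs => hG j hj s
              ⟨m1.1.trans hs.1.le, hs.2.le.trans m2.2⟩ ?_ ?_
          · rcases min_lt_iff.1 ((le_max_right _ _).trans_lt hs.1) with h | h
            · exact h.le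
            · exact absurd (hs.2.le.trans m2.2) (not_le.2 h)
          · rcases lt_max_iff.1 hs.2 with h | h
            · exact absurd (m1.1.trans hs.1.le) (not_le.2 h)
            · exact h.le.trans (min_le_left _ _)
      _ = _ := by rw [intervalIntegral.integral_const, smul_eq_mul, mul_comm]

/-- **(Area)**: `∫ |zh' - zh| ≤ ∑ dm_j |cl sig'_j - cl sig_j|` -/
theorem area_L1 {z : ℕ → ℝ} (sig sig' : ℕ → ℝ) {J : ℕ} (hz : Up z J) {a b : ℝ} (hab : a ≤ b) :
    ∫ s in a..b, |stp z sig' J s - stp z sig J s| ≤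
      ∑ j ∈ range J, (z (j + 1) - z j) * |cl a b (sig' (j + 1)) - cl a b (sig (j + 1))| := by
  simpa using area_abs_le sig sig' hz hab (g := fun _ => 1) intervalIntegrable_const
    (fun _ _ => zero_le_one) (G := fun _ => 1) fun _ _ _ _ _ _ => le_rfl

theorem area_L1' {z : ℕ → ℝ} (sig sig' : ℕ → ℝ) {J : ℕ} (hz : Up z J) {a b : ℝ} (hab : a ≤ b) :
    ∫ s in a..b, |stp z sig' J s - stp z sig J s| ≤
      ∑ j ∈ range J, (z (j + 1) - z j) * |sig' (j + 1) - sig (j + 1)| :=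
  (area_L1 sig sig' hz hab).trans (sum_le_sum fun j hj =>
    mul_le_mul_of_nonneg_left (cl_lip _ _ _ _) (sub_nonneg.2 (hz j (mem_range.1 hj))))

/-- linearisation: `|g s - c j| ≤ E j` between the two positions of node `j` -/
theorem area_approx {z : ℕ → ℝ} (sig sig' : ℕ → ℝ) {J : ℕ} (hz : Up z J) {a b : ℝ} (hab : a ≤ b)
    {g : ℝ → ℝ} (hg : IntervalIntegrable g volume a b) {c E : ℕ → ℝ}
    (hE : ∀ j < J, ∀ s ∈ Set.uIcc (cl a b (sig' (j + 1))) (cl a b (sig (j + 1))),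
      |g s - c (j + 1)| ≤ E (j + 1)) :
    |(∫ s in a..b, (stp z sig' J s - stp z sig J s) * g s) - ∑ j ∈ range J, (z (j + 1) - z j) *
        (c (j + 1) * (cl a b (sig (j + 1)) - cl a b (sig' (j + 1))))| ≤
      ∑ j ∈ range J, (z (j + 1) - z j) *
        (E (j + 1) * |cl a b (sig (j + 1)) - cl a b (sig' (j + 1))|) := by
  rw [area z sig sig' J hab hg, ← sum_sub_distrib]
  refine (abs_sum_le_sum_abs _ _).trans (sum_le_sum fun j hj => ?_)
  rw [mem_range] at hj
  rw [← mul_sub, abs_mul, abs_of_nonneg (sub_nonneg.2 (hz j hj))]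
  refine mul_le_mul_of_nonneg_left ?_ (sub_nonneg.2 (hz j hj))
  have h1 := intervalIntegral.norm_integral_le_of_norm_le_const
    (a := cl a b (sig' (j + 1))) (b := cl a b (sig (j + 1))) (f := fun s => g s - c (j + 1))
    (C := E (j + 1)) fun s hs => hE j hj s (uIoc_subset_uIcc hs)
  rw [intervalIntegral.integral_sub (ii_sub hab hg (cl_mem hab _) (cl_mem hab _))
    intervalIntegrable_const, intervalIntegral.integral_const, smul_eq_mul, mul_comm] at h1
  exact h1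

/-- nodes moved to the left: two-sided bound for `g₀ ≤ g ≤ g₁` -/
theorem area_two {z sig sig' : ℕ → ℝ} {J : ℕ} (hz : Up z J) (hs : ∀ j < J, sig' (j + 1) ≤ sig (j + 1))
    {a b : ℝ} (hab : a ≤ b) {g : ℝ → ℝ} (hg : IntervalIntegrable g volume a b) {g₀ g₁ : ℝ}
    (h : ∀ s ∈ Set.Icc a b, g₀ ≤ g s ∧ g s ≤ g₁) :
    g₀ * ∑ j ∈ range J, (z (j + 1) - z j) * (cl a b (sig (j + 1)) - cl a b (sig' (j + 1))) ≤
        ∫ s in a..b, (stp z sig' J s - stp z sig J s) * g s ∧
      ∫ s in a..b, (stp z sig' J s - stp z sig J s) * g s ≤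
        g₁ * ∑ j ∈ range J, (z (j + 1) - z j) * (cl a b (sig (j + 1)) - cl a b (sig' (j + 1))) := by
  have e : ∀ c : ℝ, c * ∑ j ∈ range J,
      (z (j + 1) - z j) * (cl a b (sig (j + 1)) - cl a b (sig' (j + 1))) =
      ∫ s in a..b, (stp z sig' J s - stp z sig J s) * c := by
    intro c
    rw [area z sig sig' J hab (g := fun _ => c) intervalIntegrable_const, mul_sum]
    refine sum_congr rfl fun j _ => ?_
    rw [intervalIntegral.integral_const, smul_eq_mul]
    ring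
  have i : ∀ {g : ℝ → ℝ}, IntervalIntegrable g volume a b →
      IntervalIntegrable (fun s => (stp z sig' J s - stp z sig J s) * g s) volume a b := by
    intro g hg
    simpa only [sub_mul] using (ii_stp z sig' J hg).sub (ii_stp z sig J hg)
  have p : ∀ s, 0 ≤ stp z sig' J s - stp z sig J s := fun s =>
    sub_nonneg.2 (stp_le hz fun j hj h1 => (hs j hj).trans h1)
  rw [e, e]
  exact ⟨intervalIntegral.integral_mono_on hab (i intervalIntegrable_const) (i hg) fun s hs =>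
      mul_le_mul_of_nonneg_left (h s hs).1 (p s),
    intervalIntegral.integral_mono_on hab (i hg) (i intervalIntegrable_const) fun s hs =>
      mul_le_mul_of_nonneg_left (h s hs).2 (p s)⟩

/-! ### the class of displacements -/

/-- node times `j v - om j` -/
def sg (v : ℝ) (om : ℕ → ℝ) (j : ℕ) : ℝ := j * v - om j

/-- displacements: `om 0 = 0`, `om ≥ 0`, `L v`-Lipschitz -/
structure Disp (v L : ℝ) (om : ℕ → ℝ) : Prop where
  zero : om 0 = 0
  nonneg : ∀ j, 0 ≤ om j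
  lip : ∀ j, |om (j + 1) - om j| ≤ L * v

theorem Disp.le {v L : ℝ} {om : ℕ → ℝ} (h : Disp v L om) (j : ℕ) : om j ≤ L * (j * v) := by
  induction j with
  | zero => simp [h.zero]
  | succ j ih => push_cast; linarith [(abs_le.1 (h.lip j)).2]

theorem Disp.sg_zero {v L : ℝ} {om : ℕ → ℝ} (h : Disp v L om) : sg v om 0 = 0 := by
  simp [sg, h.zero]

theorem Disp.step {v L : ℝ} {om : ℕ → ℝ} (h : Disp v L om) (j : ℕ) :
    (1 - L) * v ≤ sg v om (j + 1) - sg v om j ∧ sg v om (j + 1) - sg v om j ≤ (1 + L) * v := by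
  have := abs_le.1 (h.lip j)
  unfold sg
  push_cast
  constructor <;> linarith [this.1, this.2]

theorem Disp.steps {v L : ℝ} {om : ℕ → ℝ} (h : Disp v L om) (j k : ℕ) :
    (1 - L) * (k * v) ≤ sg v om (j + k) - sg v om j ∧
      sg v om (j + k) - sg v om j ≤ (1 + L) * (k * v) := by
  induction k with
  | zero => simp
  | succ k ih =>
    have := h.step (j + k)
    rw [← add_assoc]
    push_cast
    constructor <;> linarith [this.1, this.2, ih.1, ih.2]

theorem Disp.mono {v L : ℝ} {om : ℕ → ℝ} (h : Disp v L om) (hv : 0 ≤ v) (hL : L ≤ 1) :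
    Monotone (sg v om) :=
  monotone_nat_of_le_succ fun j => by
    have := mul_nonneg (sub_nonneg.2 hL) hv
    linarith [(h.step j).1]

theorem Disp.sg_le {v L : ℝ} {om : ℕ → ℝ} (h : Disp v L om) (j : ℕ) : sg v om j ≤ j * v :=
  sub_le_self _ (h.nonneg j)

theorem Disp.le_sg {v L : ℝ} {om : ℕ → ℝ} (h : Disp v L om) (j : ℕ) :
    (1 - L) * (j * v) ≤ sg v om j := by
  unfold sg; linarith [h.le j]

theorem Disp.sg_nonneg {v L : ℝ} {om : ℕ → ℝ} (h : Disp v L om) (hv : 0 ≤ v) (hL : L ≤ 1) (j : ℕ) :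
    0 ≤ sg v om j :=
  (mul_nonneg (sub_nonneg.2 hL) (by positivity)).trans (h.le_sg j)

theorem Disp.grid_le {v L : ℝ} {om : ℕ → ℝ} (h : Disp v L om) (hv : 0 ≤ v) (hL0 : 0 ≤ L)
    (hL : L ≤ 1 / 2) {j : ℕ} {t : ℝ} (ht : sg v om j ≤ t) : j * v ≤ (1 + 2 * L) * t := by
  have h1 := (h.le_sg j).trans ht
  have h2 : 0 ≤ (j : ℝ) * v := by positivity
  have h3 := mul_le_mul_of_nonneg_left h1 (show 0 ≤ 1 + 2 * L by linarith)
  nlinarith [mul_nonneg (mul_nonneg hL0 (show 0 ≤ 1 - 2 * L by linarith)) h2]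

theorem sg_zero_fun (v : ℝ) (j : ℕ) : sg v (fun _ => 0) j = j * v := by simp [sg]

/-- `zh_0(s) ≤ zh_om(s) ≤ zh_0((1+2L)s)` -/
theorem Disp.stp_cmp {v L : ℝ} {om : ℕ → ℝ} (h : Disp v L om) (hv : 0 ≤ v) (hL0 : 0 ≤ L)
    (hL : L ≤ 1 / 2) {z : ℕ → ℝ} {J : ℕ} (hz : Up z J) (s : ℝ) :
    stp z (sg v fun _ => 0) J s ≤ stp z (sg v om) J s ∧
      stp z (sg v om) J s ≤ stp z (sg v fun _ => 0) J ((1 + 2 * L) * s) := by
  refine ⟨stp_le hz fun j _ h1 => (h.sg_le _).trans ?_, stp_le hz fun j _ h1 => ?_⟩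
  · rwa [sg_zero_fun] at h1
  · rw [sg_zero_fun]; exact h.grid_le hv hL0 hL h1

/-- `W(t) = ∑_{j v ≤ t} dm_j om_j` -/
def Wt (z : ℕ → ℝ) (v : ℝ) (om : ℕ → ℝ) (J : ℕ) (t : ℝ) : ℝ :=
  ∑ j ∈ range J, (z (j + 1) - z j) * (om (j + 1) * ind (((j + 1 : ℕ) : ℝ) * v) t)

theorem Wt_nonneg {z om : ℕ → ℝ} {J : ℕ} (hz : Up z J) (h : ∀ j, 0 ≤ om j) (v t : ℝ) :
    0 ≤ Wt z v om J t :=
  sum_nonneg fun j hj => mul_nonneg (sub_nonneg.2 (hz j (mem_range.1 hj)))
    (mul_nonneg (h _) (ind_nonneg _ _))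

theorem Wt_mono {z om : ℕ → ℝ} {J : ℕ} (hz : Up z J) (h : ∀ j, 0 ≤ om j) (v : ℝ) :
    Monotone (Wt z v om J) := fun _ _ hst =>
  sum_le_sum fun j hj => mul_le_mul_of_nonneg_left
    (mul_le_mul_of_nonneg_left (ind_mono _ hst) (h _)) (sub_nonneg.2 (hz j (mem_range.1 hj)))

theorem Wt_le {z om : ℕ → ℝ} {J : ℕ} (hz : Up z J) (h : ∀ j, 0 ≤ om j) (v t : ℝ) :
    Wt z v om J t ≤ ∑ j ∈ range J, (z (j + 1) - z j) * om (j + 1) :=
  sum_le_sum fun j hj => mul_le_mul_of_nonneg_left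
    (mul_le_of_le_one_right (h _) (ind_le_one _ _)) (sub_nonneg.2 (hz j (mem_range.1 hj)))

/-- the area swept inside `[0,t]` lies between `W(t)` and `W((1+2L)t)` -/
theorem Disp.swept {v L : ℝ} {om : ℕ → ℝ} (h : Disp v L om) (hv : 0 ≤ v) (hL0 : 0 ≤ L)
    (hL : L ≤ 1 / 2) {z : ℕ → ℝ} {J : ℕ} (hz : Up z J) {t : ℝ} (ht : 0 ≤ t) :
    Wt z v om J t ≤ ∑ j ∈ range J, (z (j + 1) - z j) *
        (cl 0 t (sg v (fun _ => 0) (j + 1)) - cl 0 t (sg v om (j + 1))) ∧
      ∑ j ∈ range J, (z (j + 1) - z j) *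
        (cl 0 t (sg v (fun _ => 0) (j + 1)) - cl 0 t (sg v om (j + 1))) ≤
        Wt z v om J ((1 + 2 * L) * t) := by
  have key : ∀ j : ℕ, om j * ind (j * v) t ≤ cl 0 t (sg v (fun _ => 0) j) - cl 0 t (sg v om j) ∧
      cl 0 t (sg v (fun _ => 0) j) - cl 0 t (sg v om j) ≤ om j * ind (j * v) ((1 + 2 * L) * t) := by
    intro j
    have a0 := h.sg_nonneg hv (by linarith) j
    have a1 := h.sg_le j
    rw [sg_zero_fun]
    constructor
    · by_cases h1 : j * v ≤ t
      · rw [ind_pos h1, cl_of_mem (a0.trans a1) h1, cl_of_mem a0 (a1.trans h1), sg]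
        linarith
      · rw [ind_neg (not_le.1 h1), mul_zero]
        exact sub_nonneg.2 (cl_mono 0 t a1)
    · by_cases h1 : sg v om j ≤ t
      · rw [ind_pos (h.grid_le hv hL0 hL h1), mul_one]
        refine (le_abs_self _).trans ((cl_lip _ _ _ _).trans ?_)
        rw [sg, sub_sub_cancel, abs_of_nonneg (h.nonneg j)]
      · have h2 := (not_le.1 h1).le
        rw [cl_of_ge ht h2, cl_of_ge ht (h2.trans a1), sub_self]
        exact mul_nonneg (h.nonneg j) (ind_nonneg _ _)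
  exact ⟨sum_le_sum fun j hj => mul_le_mul_of_nonneg_left (key _).1
      (sub_nonneg.2 (hz j (mem_range.1 hj))),
    sum_le_sum fun j hj => mul_le_mul_of_nonneg_left (key _).2
      (sub_nonneg.2 (hz j (mem_range.1 hj)))⟩

/-- `g₀ W(t) ≤ ∫_0^t (zh_om - zh_0) g ≤ g₁ W((1+2L)t)` -/
theorem Disp.area {v L : ℝ} {om : ℕ → ℝ} (h : Disp v L om) (hv : 0 ≤ v) (hL0 : 0 ≤ L)
    (hL : L ≤ 1 / 2) {z : ℕ → ℝ} {J : ℕ} (hz : Up z J) {t : ℝ} (ht : 0 ≤ t) {g : ℝ → ℝ}
    (hg : IntervalIntegrable g volume 0 t) {g₀ g₁ : ℝ} (h0 : 0 ≤ g₀) (h1 : 0 ≤ g₁)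
    (hb : ∀ s ∈ Set.Icc 0 t, g₀ ≤ g s ∧ g s ≤ g₁) :
    g₀ * Wt z v om J t ≤
        ∫ s in (0 : ℝ)..t, (stp z (sg v om) J s - stp z (sg v fun _ => 0) J s) * g s ∧
      ∫ s in (0 : ℝ)..t, (stp z (sg v om) J s - stp z (sg v fun _ => 0) J s) * g s ≤
        g₁ * Wt z v om J ((1 + 2 * L) * t) := by
  obtain ⟨a1, a2⟩ := area_two (sig := sg v fun _ => 0) (sig' := sg v om) hz
    (fun j _ => by rw [sg_zero_fun]; exact h.sg_le _) ht hg hb
  obtain ⟨b1, b2⟩ := h.swept hv hL0 hL hz ht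
  exact ⟨(mul_le_mul_of_nonneg_left b1 h0).trans a1, a2.trans (mul_le_mul_of_nonneg_left b2 h1)⟩

/-- `D ≤ ∑ dm_j |om'_j - om_j|` -/
theorem area_om {z : ℕ → ℝ} (v : ℝ) (om om' : ℕ → ℝ) {J : ℕ} (hz : Up z J) {a b : ℝ} (hab : a ≤ b) :
    ∫ s in a..b, |stp z (sg v om') J s - stp z (sg v om) J s| ≤
      ∑ j ∈ range J, (z (j + 1) - z j) * |om' (j + 1) - om (j + 1)| := by
  refine (area_L1' _ _ hz hab).trans_eq (sum_congr rfl fun j _ => ?_)
  rw [sg, sg, abs_sub_comm]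
  congr 2
  ring

/-- above the support of the displacements nothing moves -/
theorem stp_eq_above {z : ℕ → ℝ} {v Y : ℝ} {om om' : ℕ → ℝ} (J : ℕ) (h0 : ∀ j, 0 ≤ om j)
    (h0' : ∀ j, 0 ≤ om' j) (h : ∀ j : ℕ, Y ≤ j * v → om j = om' j) {t : ℝ} (ht : Y ≤ t) :
    stp z (sg v om) J t = stp z (sg v om') J t := by
  unfold stp
  congr 1
  refine sum_congr rfl fun j _ => ?_
  by_cases h1 : Y ≤ ((j + 1 : ℕ) : ℝ) * v
  · rw [sg, sg, h _ h1]
  · have h2 := ((not_le.1 h1).le).trans ht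
    rw [sg, sg, ind_pos ((sub_le_self _ (h0 _)).trans h2),
      ind_pos ((sub_le_self _ (h0' _)).trans h2)]

/-! ### Abel summation -/

/-- total variation with the upper end value -/
def TV (ψ : ℕ → ℝ) (N : ℕ) : ℝ := |ψ N| + ∑ j ∈ range N, |ψ (j + 1) - ψ j|

theorem abel_eq (e ψ : ℕ → ℝ) (N : ℕ) : ∑ j ∈ range N, (e (j + 1) - e j) * ψ (j + 1) =
    e N * ψ N - e 0 * ψ 0 - ∑ j ∈ range N, e j * (ψ (j + 1) - ψ j) := by
  induction N with
  | zero => simp
  | succ N ih => rw [sum_range_succ, sum_range_succ, ih]; ring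

theorem abel_abs {e : ℕ → ℝ} (ψ : ℕ → ℝ) {N : ℕ} {ε : ℝ} (he : ∀ j ≤ N, |e j| ≤ ε) :
    |∑ j ∈ range N, (e (j + 1) - e j) * ψ (j + 1)| ≤ |e 0 * ψ 0| + ε * TV ψ N := by
  rw [abel_eq, TV, mul_add, mul_sum, ← add_assoc]
  have a : ∀ j ≤ N, ∀ x : ℝ, |e j * x| ≤ ε * |x| := fun j hj x => by
    rw [abs_mul]; exact mul_le_mul_of_nonneg_right (he j hj) (abs_nonneg _)
  refine (abs_sub _ _).trans (add_le_add ((abs_sub _ _).trans ?_)
    ((abs_sum_le_sum_abs _ _).trans (sum_le_sum fun j hj => a j (mem_range.1 hj).le _)))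
  linarith [a N le_rfl (ψ N)]

/-- an almost nondecreasing sequence tested against `ψ ≥ 0` -/
theorem abel_almost {f ψ : ℕ → ℝ} {N : ℕ} {ε : ℝ} (hf : ∀ i j, i ≤ j → j ≤ N → f i - ε ≤ f j)
    (hψ : ∀ j < N, 0 ≤ ψ (j + 1)) :
    -(ε * TV ψ N) ≤ ∑ j ∈ range N, (f (j + 1) - f j) * ψ (j + 1) := by
  set F : ℕ → ℝ := fun j => partialSups f j with hF
  have h1 : ∀ j ≤ N, |f j - F j| ≤ ε := by
    intro j hj
    have a1 : f j ≤ F j := le_partialSups f j
    have a2 : F j ≤ f j + ε := partialSups_le f j _ fun i hi => by linarith [hf i j hi hj]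
    rw [abs_le]
    constructor <;> linarith
  have h2 := (abs_le.1 (abel_abs (e := fun j => f j - F j) ψ h1)).1
  have h0 : f 0 - F 0 = 0 := by simp [hF]
  rw [h0, zero_mul, abs_zero, zero_add] at h2
  have h3 : 0 ≤ ∑ j ∈ range N, (F (j + 1) - F j) * ψ (j + 1) := sum_nonneg fun j hj =>
    mul_nonneg (sub_nonneg.2 ((partialSups f).monotone (Nat.le_succ j))) (hψ j (mem_range.1 hj))
  have e : ∑ j ∈ range N, (f (j + 1) - f j) * ψ (j + 1) =
      ∑ j ∈ range N, (f (j + 1) - F (j + 1) - (f j - F j)) * ψ (j + 1) +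
        ∑ j ∈ range N, (F (j + 1) - F j) * ψ (j + 1) := by
    rw [← sum_add_distrib]
    exact sum_congr rfl fun j _ => by ring
  linarith

/-- **(Abel)**, lower bound -/
theorem abel_low {z ψ : ℕ → ℝ} {N : ℕ} {c ε : ℝ}
    (hz : ∀ i j, i ≤ j → j ≤ N → c * ((j : ℝ) - i) - ε ≤ z j - z i) (hψ : ∀ j < N, 0 ≤ ψ (j + 1)) :
    c * ∑ j ∈ range N, ψ (j + 1) - ε * TV ψ N ≤ ∑ j ∈ range N, (z (j + 1) - z j) * ψ (j + 1) := by
  have := abel_almost (f := fun j => z j - c * j) (ε := ε)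
    (fun i j hij hj => by linarith [hz i j hij hj]) hψ
  have e : ∑ j ∈ range N, (z (j + 1) - c * ((j + 1 : ℕ) : ℝ) - (z j - c * j)) * ψ (j + 1) =
      ∑ j ∈ range N, (z (j + 1) - z j) * ψ (j + 1) - c * ∑ j ∈ range N, ψ (j + 1) := by
    rw [mul_sum, ← sum_sub_distrib]
    exact sum_congr rfl fun j _ => by push_cast; ring
  linarith

/-- **(Abel)**, upper bound -/
theorem abel_up {z ψ : ℕ → ℝ} {N : ℕ} {C ε : ℝ}
    (hz : ∀ i j, i ≤ j → j ≤ N → z j - z i ≤ C * ((j : ℝ) - i) + ε) (hψ : ∀ j < N, 0 ≤ ψ (j + 1)) :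
    ∑ j ∈ range N, (z (j + 1) - z j) * ψ (j + 1) ≤ C * ∑ j ∈ range N, ψ (j + 1) + ε * TV ψ N := by
  have := abel_low (z := fun j => -z j) (c := -C) (ε := ε)
    (fun i j hij hj => by linarith [hz i j hij hj]) hψ
  have e : ∑ j ∈ range N, (-z (j + 1) - -z j) * ψ (j + 1) =
      -∑ j ∈ range N, (z (j + 1) - z j) * ψ (j + 1) := by
    rw [← sum_neg_distrib]
    exact sum_congr rfl fun j _ => by ring
  linarith

/-- **(Abel)** for labels that are bi-Lipschitz at grid scale -/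
theorem abel_grid {z ψ : ℕ → ℝ} {N : ℕ} {c C : ℝ}
    (hz : ∀ j < N, ψ (j + 1) ≠ 0 → c ≤ z (j + 1) - z j ∧ z (j + 1) - z j ≤ C)
    (hψ : ∀ j < N, 0 ≤ ψ (j + 1)) :
    c * ∑ j ∈ range N, ψ (j + 1) ≤ ∑ j ∈ range N, (z (j + 1) - z j) * ψ (j + 1) ∧
      ∑ j ∈ range N, (z (j + 1) - z j) * ψ (j + 1) ≤ C * ∑ j ∈ range N, ψ (j + 1) := by
  rw [mul_sum, mul_sum]
  refine ⟨sum_le_sum fun j hj => ?_, sum_le_sum fun j hj => ?_⟩ <;> rw [mem_range] at hj <;>
    by_cases h : ψ (j + 1) = 0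
  · simp [h]
  · exact mul_le_mul_of_nonneg_right (hz j hj h).1 (hψ j hj)
  · simp [h]
  · exact mul_le_mul_of_nonneg_right (hz j hj h).2 (hψ j hj)

/-- sums whose test function vanishes above `N` -/
theorem sum_cut {f ψ : ℕ → ℝ} {N J : ℕ} (hN : N ≤ J) (h : ∀ j, N < j → j ≤ J → ψ j = 0) :
    ∑ j ∈ range J, f j * ψ (j + 1) = ∑ j ∈ range N, f j * ψ (j + 1) := by
  refine (sum_subset (range_mono hN) fun j hj hj' => ?_).symm
  rw [mem_range] at hj hj'
  rw [h (j + 1) (by omega) (by omega), mul_zero]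

/-! ### the leaves of `PrDef_28` -/

theorem lst_eq (z s : ℕ → ℝ) (N : ℕ) : Pr.lst z s N = lsg z s N := rfl

theorem sig_eq (v : ℝ) (om : ℕ → ℝ) : Pr.sig v om = sg v om := rfl

theorem disp_of_om {v Y L : ℝ} {om : ℕ → ℝ} (h : Pr.Om v Y L om) : Disp v L om :=
  ⟨h.zero, h.nn, h.lip⟩

theorem WW_eq (z : ℕ → ℝ) (N : ℕ) (v : ℝ) (om : ℕ → ℝ) (t : ℝ) : Pr.WW z N v om t = Wt z v om N t := by
  refine sum_congr rfl fun j _ => ?_
  unfold ind Pr.dm
  push_cast
  split_ifs <;> simp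

theorem lvr_lst {z s : ℕ → ℝ} {N : ℕ} (hz : Pr.Lab z N) (h0 : s 0 = 0) (hs : Monotone s) :
    lvr 1 (Pr.lst z s N) = stp z s N :=
  funext fun t => lvr_lsg (hz.top N le_rfl) (up_of_mono hs N) h0 t

theorem cl_zero {t u : ℝ} (ht : 0 ≤ t) (hu : 0 ≤ u) : cl 0 t u = min u t :=
  max_eq_right (le_min hu ht)

end

end Crest.Agent.T156.Pp.Area50

namespace Crest.Agent.T156.Pr

open Finset Crest.Agent.T156.Pp.Area50

theorem areaS : AreaS := by
  intro z s N hz h0 hs
  have hm := hs.monotone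
  have nn : ∀ {s : ℕ → ℝ}, s 0 = 0 → Monotone s → ∀ j, 0 ≤ s j := fun h0 hm j =>
    h0 ▸ hm (Nat.zero_le j)
  have hT : Crest.Agent.R339.Var.TT (lst z s N) = s N := by rw [lst_eq, TT_lsg, h0, sub_zero]
  refine ⟨⟨⟨adm_lsg N z s (hz.top N le_rfl) hz.pos (up_of_mono hz.mono N) (up_of_mono hm N),
    fun p hp => ?_⟩, hT, fun j t h1 h2 => ?_, fun t ht => ?_, fun t _ => ?_⟩,
    fun s' h0' hs' _ => ⟨?_, fun g t ht hg => ?_⟩⟩
  · obtain ⟨k, rfl⟩ := List.mem_ofFn.1 hp
    exact sub_pos.2 (hs (Nat.lt_succ_self _))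
  · rw [lvr_lst hz h0 hm]
    rcases le_or_gt j N with hj | hj
    · exact stp_eq (up_of_mono hm N) hj (fun _ => h1) fun _ => h2
    · rw [stp_eq (up_of_mono hm N) le_rfl (fun _ => (hm hj.le).trans h1)
        (fun h => absurd h (lt_irrefl _)), hz.top N le_rfl, hz.top j hj.le]
  · rw [lvr_lst hz h0 hm, stp_eq (up_of_mono hm N) le_rfl (fun _ => ht)
      (fun h => absurd h (lt_irrefl _)), hz.top N le_rfl]
  · rw [lvr_lst hz h0 hm]; rfl
  · unfold dist1
    rw [lvr_lst hz h0 hm, lvr_lst hz h0' hs'.monotone, hT]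
    exact area_L1' s s' (up_of_mono hz.mono N) (nn h0 hm N)
  · rw [lvr_lst hz h0 hm, lvr_lst hz h0' hs'.monotone,
      area z s s' N ht.1 ((hg.mono (Set.Icc_subset_Icc_right ht.2)).intervalIntegrable_of_Icc ht.1)]
    refine sum_congr rfl fun j _ => ?_
    rw [cl_zero ht.1 (nn h0 hm _), cl_zero ht.1 (nn h0' hs'.monotone _)]
    rfl

theorem abelS : AbelS := by
  intro z ψ M c C δ h hψ
  have a := abel_low (ψ := ψ) (fun i j hij hj => (h i j hij hj).1) fun j _ => hψ _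
  have b := abel_up (ψ := ψ) (fun i j hij hj => (h i j hij hj).2) fun j _ => hψ _
  rw [TV, abs_of_nonneg (hψ M)] at a b
  exact ⟨a, b⟩

end Crest.Agent.T156.Pr
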