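import Crest.Agent.T156.CutB_8
import Crest.Agent.T156.SunB_9
import Crest.Agent.T156.Spl_27

/-!
# Row 156, text (L), leaf L-f (helper8): normalised cuts and the two systems of scales
-/

set_option autoImplicit false

noncomputable section

namespace Crest.Agent.T156.Cut8

open MeasureTheory Set intervalIntegral Filter Topology

variable {T : ℝ} {f : ℝ → ℝ}

/-- Cauchy-Schwarz -/
theorem int_abs_le (hf : LB T f) {x y e : ℝ} (hx : 0 ≤ x) (hxy : x ≤ y) (hy : y ≤ T)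
    (h : ∫ s in x..y, f s ^ 2 ≤ e) : ∫ s in x..y, |f s| ≤ √((y - x) * e) := by
  rcases hxy.eq_or_lt with rfl | hlt
  · simp
  have mx : x ∈ Icc 0 T := ⟨hx, by linarith⟩
  have my : y ∈ Icc 0 T := ⟨by linarith, hy⟩
  obtain ⟨m, hm⟩ : ∃ m, ∫ s in x..y, |f s| = (y - x) * m :=
    ⟨(∫ s in x..y, |f s|) / (y - x), by field_simp [(sub_pos.mpr hlt).ne']⟩
  have h1 := int_mono ((LB.const (2 * m)).mul hf.abs) (hf.sq.add (LB.const (m ^ 2))) hx hxy hy
    fun t _ _ => by nlinarith [sq_nonneg (|f t| - m), sq_abs (f t)]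
  rw [intervalIntegral.integral_const_mul, integral_add (hf.sq.ii mx my) ((LB.const _).ii mx my),
    intervalIntegral.integral_const, smul_eq_mul, hm] at h1
  refine Real.le_sqrt_of_sq_le ?_
  rw [hm]
  nlinarith [mul_le_mul_of_nonneg_left (show (y - x) * m ^ 2 ≤ e by linarith) (sub_pos.mpr hlt).le]

/-- Young with a fourth power -/
theorem young4 {η s d : ℝ} (hη : 0 ≤ η) (hs : 0 < s) : η * |d| ≤ η * s + η / s ^ 3 * d ^ 4 := by
  have h4 : d ^ 4 = |d| ^ 4 := by rw [← abs_pow, abs_of_nonneg (by positivity)]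
  have h0 := abs_nonneg d
  have : |d| ≤ s + |d| ^ 4 / s ^ 3 := by
    rcases le_total |d| s with h | h
    · linarith [show 0 ≤ |d| ^ 4 / s ^ 3 by positivity]
    · have : |d| ≤ |d| ^ 4 / s ^ 3 := by
        rw [le_div_iff₀ (by positivity)]
        nlinarith [pow_le_pow_left₀ hs.le h 3]
      linarith
  calc η * |d| ≤ η * (s + |d| ^ 4 / s ^ 3) := mul_le_mul_of_nonneg_left this hη
    _ = _ := by rw [h4]; ring

/-- the constant of a cut -/
def Kc (T c C : ℝ) : ℝ := 400 + 2 * C ^ 2 / c * (800 + 3200 * T ^ 2)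

theorem cutErr_le {c C L M η α D ε len c1 : ℝ} (hc : 0 < c) (hc1 : 0 < c1) (hL : 0 < L)
    (hM0 : 0 ≤ M) (hM : M ≤ L ^ 2) (hα : 0 ≤ α) (hD0 : 0 ≤ D) (hD : D ^ 2 ≤ c1 * α) (h0 : 0 ≤ len)
    (hlen : len * L ≤ T ^ 2) :
    cutErr c C L M η α D ε len ≤ Kc T c C * (L * α ^ 2) + 361 * η ^ 2 / L +
      19 * c1 ^ 2 * M ^ 4 / L ^ 3 + 4 * C ^ 2 / c * (len * ε ^ 2) := by
  have e1 : 38 * η * α ≤ L * α ^ 2 + 361 * η ^ 2 / L := by
    have : L * α ^ 2 + 361 * η ^ 2 / L - 38 * η * α = (L * α - 19 * η) ^ 2 / L := by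
      field_simp; ring
    linarith [show 0 ≤ (L * α - 19 * η) ^ 2 / L by positivity]
  have e2 : M * α * (α / L) ≤ L * α ^ 2 := by
    rw [← mul_div_assoc, div_le_iff₀ hL]
    nlinarith [mul_le_mul_of_nonneg_right hM (sq_nonneg α)]
  have e3 : M * α * D ≤ L * α ^ 2 + c1 ^ 2 * M ^ 4 / L ^ 3 := by
    rcases le_total (M * D) (L * α) with h | h
    · nlinarith [mul_le_mul_of_nonneg_left h hα, show 0 ≤ c1 ^ 2 * M ^ 4 / L ^ 3 by positivity]
    · have d1 : L * D ≤ c1 * M := by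
        rcases hD0.eq_or_lt with rfl | hp
        · rw [mul_zero]; positivity
        · refine le_of_mul_le_mul_right ?_ hp
          nlinarith [mul_le_mul_of_nonneg_left hD hL.le, mul_le_mul_of_nonneg_left h hc1.le]
      have d2 : L ^ 2 * α ≤ c1 * M ^ 2 := by
        nlinarith [mul_le_mul_of_nonneg_left h hL.le, mul_le_mul_of_nonneg_left d1 hM0]
      have : M * α * D ≤ c1 ^ 2 * M ^ 4 / L ^ 3 := by
        rw [le_div_iff₀ (by positivity)]
        have := mul_le_mul d2 d1 (by positivity) (by positivity)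
        nlinarith [mul_le_mul_of_nonneg_left this hM0]
      linarith [show 0 ≤ L * α ^ 2 by positivity]
  have e4 : len * (ε + 40 * L * α) ^ 2 ≤ 2 * (len * ε ^ 2) + 3200 * T ^ 2 * (L * α ^ 2) := by
    have a1 : (ε + 40 * L * α) ^ 2 ≤ 2 * ε ^ 2 + 3200 * (L * α) ^ 2 := by
      nlinarith [sq_nonneg (ε - 40 * L * α)]
    nlinarith [mul_le_mul_of_nonneg_left a1 h0,
      mul_le_mul_of_nonneg_right hlen (show 0 ≤ L * α ^ 2 by positivity)]
  have e5 := mul_le_mul_of_nonneg_left e4 (show 0 ≤ 2 * C ^ 2 / c by positivity)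
  unfold cutErr Kc
  have r1 : 20 * α / L = 20 * (α / L) := by ring
  have r2 : 19 * c1 ^ 2 * M ^ 4 / L ^ 3 = 19 * (c1 ^ 2 * M ^ 4 / L ^ 3) := by ring
  have r3 : 4 * C ^ 2 / c = 2 * (2 * C ^ 2 / c) := by ring
  rw [r1, r2, r3]
  nlinarith

/-- the ratio `α / √(B / g)` -/
def kap (c1 C5 : ℝ) : ℝ := 2 + (2 + 4 * C5) / c1

/-- numbers of a cut: window `L`, room `g`, bound `B` of the energy near the margins -/
structure Nm (L g M η B c1 C5 δ0 : ℝ) : Prop where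
  L_pos : 0 < L
  g_pos : 0 < g
  M_pos : 0 < M
  M_le : M ≤ L ^ 2
  η_nn : 0 ≤ η
  B_pos : 0 < B
  c_pos : 0 < c1
  C_pos : 0 < C5
  δ_nn : 0 ≤ δ0
  floor : δ0 ^ 4 * g ≤ B
  small : 6400 * kap c1 C5 ^ 2 * B ≤ c1 ^ 2 * L ^ 4 * g

/-- a margin `[x, y]`; the point of the cut is chosen in `[x', y']` -/
structure Mg (T : ℝ) (zh zb H e : ℝ → ℝ) (x y x' y' g M η B c1 C5 δ0 : ℝ) : Prop where
  len : g ≤ y' - x'
  slope : ∀ t t', x ≤ t → t ≤ t' → t' ≤ y → c1 * (t' - t) - δ0 ≤ zh t' - zh t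
  hJ : ∫ s in x'..y', Jf T zh zb s ^ 2 ≤ B
  h4 : ∫ s in x'..y', (zb s - zh s) ^ 4 ≤ C5 ^ 2 * B
  hH : ∀ t, x ≤ t → t < y → H t ^ 2 ≤ M * (H t * (zb t - zh t))
  hη : ∀ t, x ≤ t → t < y → e t ≤ η

theorem Mg.mar {zh zb H e : ℝ → ℝ} {x y x' y' L g M η B c1 C5 δ0 : ℝ}
    (lz : LB T fun t => zb t - zh t) (hx : 0 ≤ x') (hy : y' ≤ T) (n : Nm L g M η B c1 C5 δ0)
    (h : Mg T zh zb H e x y x' y' g M η B c1 C5 δ0) :
    Mar T zh zb x y x' y' L c1 δ0 (δ0 + √(2 * C5 * √(B / g))) (kap c1 C5 * √(B / g)) := by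
  obtain ⟨hL, hg, -, -, -, hB, hc, hC, hδ, fl, sm⟩ := n
  have hl := h.len
  have hu : 0 < √(B / g) := Real.sqrt_pos.mpr (by positivity)
  have hu2 : g * √(B / g) ^ 2 = B := by rw [Real.sq_sqrt (by positivity)]; field_simp
  generalize √(B / g) = u at *
  have hv : 0 < √(2 * C5 * u) := Real.sqrt_pos.mpr (by positivity)
  have hv2 : √(2 * C5 * u) ^ 2 = 2 * C5 * u := Real.sq_sqrt (by positivity)
  generalize √(2 * C5 * u) = v at *
  have k2 : 2 ≤ kap c1 C5 := le_add_of_nonneg_right (by positivity)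
  have k1 : 2 + 4 * C5 ≤ c1 * kap c1 C5 := by
    have : c1 * kap c1 C5 = 2 * c1 + (2 + 4 * C5) := by unfold kap; field_simp
    linarith
  generalize kap c1 C5 = κ at *
  have mx : x' ∈ Icc 0 T := ⟨hx, by linarith⟩
  have my : y' ∈ Icc 0 T := ⟨by linarith, hy⟩
  refine ⟨hc, hδ, by linarith, by positivity, by linarith, h.slope, ?_, ?_, ?_, ?_⟩
  · have a1 : 2 * u ^ 2 ≤ (κ * u) ^ 2 := by
      nlinarith [mul_le_mul_of_nonneg_right (show 2 ≤ κ ^ 2 by nlinarith) (sq_nonneg u)]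
    have := mul_le_mul hl a1 (by positivity) (by linarith)
    linarith [h.hJ]
  · have l4 : LB T fun t => (zb t - zh t) ^ 4 := by
      simpa only [← pow_mul] using lz.sq.sq
    have hs : 0 < C5 * u := by positivity
    have m := int_mono ((LB.const (2 * (C5 * u))).mul lz.sq) (l4.add (LB.const ((C5 * u) ^ 2))) hx
      (show x' ≤ y' by linarith) hy fun t _ _ => by
        nlinarith [sq_nonneg ((zb t - zh t) ^ 2 - C5 * u)]
    rw [intervalIntegral.integral_const_mul, integral_add (l4.ii mx my) ((LB.const _).ii mx my),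
      intervalIntegral.integral_const, smul_eq_mul] at m
    rw [add_sub_cancel_left, hv2]
    refine le_of_mul_le_mul_left ?_ hs
    have a1 := mul_le_mul_of_nonneg_right hl (sq_nonneg (C5 * u))
    have a2 : g * (C5 * u) ^ 2 = C5 ^ 2 * B := by rw [← hu2]; ring
    nlinarith [h.h4]
  · have d2 : δ0 ^ 2 ≤ u := by
      refine (pow_le_pow_iff_left₀ (by positivity) hu.le two_ne_zero).mp ?_
      refine le_of_mul_le_mul_left ?_ hg
      nlinarith
    nlinarith [sq_nonneg (δ0 - v), mul_le_mul_of_nonneg_right k1 hu.le]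
  · refine (pow_le_pow_iff_left₀ (by positivity) (by positivity) two_ne_zero).mp ?_
    refine le_of_mul_le_mul_left ?_ hg
    have : g * (80 * (κ * u)) ^ 2 = 6400 * κ ^ 2 * B := by rw [← hu2]; ring
    nlinarith

/-- the energy of `[x, y]` -/
def Eg (T c : ℝ) (zh zb H : ℝ → ℝ) (x y : ℝ) : ℝ :=
  c / 2 * (∫ t in x..y, Jf T zh zb t ^ 2) + (∫ t in x..y, H t * (zb t - zh t)) / 2

/-- a cut of `[A', B']` inside `[A, B]` whose sources and errors add up to at most `X` -/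
def Cut (T c C : ℝ) (zh zb ρ H : ℝ → ℝ) (A A' B' B X : ℝ) : Prop :=
  0 ≤ A ∧ B ≤ T ∧ ∃ (r1 r2 ω β ξ : ℝ → ℝ) (L g M η E c1 C5 δ0 B0 : ℝ),
    Res T (fun t => zb t - zh t) ρ H r1 r2 ω β ξ A B ∧ Nm L g M η E c1 C5 δ0 ∧ 0 ≤ B0 ∧
    ((A = 0 ∧ A' = 0 ∧ (|r2 0| + β 0) * |Jf T zh zb 0| ≤ B0) ∨
      Mg T zh zb H (fun t => |r1 t| + β t) A A' A (A' - L) g M η E c1 C5 δ0) ∧
    ((B' = T ∧ B = T) ∨ Mg T zh zb H (fun t => |r1 t| + β t) B' B (B' + L) B g M η E c1 C5 δ0) ∧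
    (∫ t in A..B, ξ t) + B0 + (∫ t in A..B, ω t ^ 2) / c + Kc T c C * kap c1 C5 ^ 2 * (L / g) * E +
      361 * η ^ 2 / L + 19 * c1 ^ 2 * M ^ 4 / L ^ 3 ≤ X

/-- no cut at all -/
theorem Cut.top {c C : ℝ} {zh zb ρ H r1 r2 ω β ξ : ℝ → ℝ} {B0 X : ℝ}
    (R : Res T (fun t => zb t - zh t) ρ H r1 r2 ω β ξ 0 T) (h0 : 0 ≤ B0)
    (hB : (|r2 0| + β 0) * |Jf T zh zb 0| ≤ B0)
    (hX : (∫ t in (0 : ℝ)..T, ξ t) + B0 + (∫ t in (0 : ℝ)..T, ω t ^ 2) / c < X) :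
    Cut T c C zh zb ρ H 0 0 T T X := by
  obtain ⟨d, hd, e⟩ : ∃ d, 0 < d ∧
      X = (∫ t in (0 : ℝ)..T, ξ t) + B0 + (∫ t in (0 : ℝ)..T, ω t ^ 2) / c + d :=
    ⟨_, sub_pos.mpr hX, by ring⟩
  have k8 : kap 1 1 = 8 := by norm_num [kap]
  obtain ⟨s, s0, s1, s2⟩ : ∃ s : ℝ, 0 < s ∧ s ≤ 1 / 409600 ∧ (|Kc T c C| * 64 + 19) * s ≤ d :=
    ⟨min (1 / 409600) (d / (|Kc T c C| * 64 + 19)), by positivity, min_le_left _ _,
      (le_div_iff₀' (by positivity)).mp (min_le_right _ _)⟩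
  refine ⟨le_rfl, le_rfl, r1, r2, ω, β, ξ, 1, 1, s, 0, s, 1, 1, 0, B0, R,
    ⟨one_pos, one_pos, s0, by linarith, le_rfl, s0, one_pos, one_pos, le_rfl, by linarith,
      by rw [k8]; linarith⟩, h0, .inl ⟨rfl, rfl, hB⟩, .inl ⟨rfl, rfl⟩, ?_⟩
  have a1 : s ^ 4 ≤ s := by
    have := pow_le_one₀ s0.le (show s ≤ 1 by linarith) (n := 3)
    nlinarith
  rw [k8, e]
  nlinarith [mul_le_mul_of_nonneg_right (le_abs_self (Kc T c C)) s0.le]

variable {P : Type} {c C : ℝ} {ok : P → Prop} {z Γ G : P → ℝ → ℝ}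

/-- **the energy inequality of a normalised cut** -/
theorem Fr.cut (F : Fr T c C ok z Γ G) {pb ph : P} (hb : ok pb) (hh : ok ph) {H : ℝ → ℝ}
    {A A' B' B X ε : ℝ} (h2 : A' ≤ B')
    (h : Cut T c C (z ph) (z pb) (fun t => Γ pb t - Γ ph t) H A A' B' B X)
    (hε : (∫ t in (0 : ℝ)..A', |Jf T (z ph) (z pb) t|) +
      (∫ t in B'..T, |Jf T (z ph) (z pb) t|) ≤ ε) :
    Eg T c (z ph) (z pb) H A' B' ≤ X + 4 * C ^ 2 / c * ((B - A) * ε ^ 2) := by
  obtain ⟨hA, hB, r1, r2, ω, β, ξ, L, g, M, η, E, c1, C5, δ0, B0, R, n, h0, lo, up, hX⟩ := h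
  have lz : LB T fun t => z pb t - z ph t := (F.lbz hb).sub (F.lbz hh)
  have hc := F.c_pos
  have hL := n.L_pos
  have hg := n.g_pos
  have hE := n.B_pos
  have hc1 := n.c_pos
  have k0 : 0 ≤ kap c1 C5 := by have := n.C_pos; unfold kap; positivity
  have key : ∀ {x y x' y'}, Mar T (z ph) (z pb) x y x' y' L c1 δ0 (δ0 + √(2 * C5 * √(E / g)))
      (kap c1 C5 * √(E / g)) → L ≤ B - A →
      (∫ t in A..B, ξ t) + B0 + (∫ t in A..B, ω t ^ 2) / c +
        cutErr c C L M η (kap c1 C5 * √(E / g)) (δ0 + √(2 * C5 * √(E / g))) ε (B - A) ≤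
      X + 4 * C ^ 2 / c * ((B - A) * ε ^ 2) := fun m hl => by
    have := cutErr_le (T := T) (C := C) (η := η) (ε := ε) (len := B - A) hc hc1 hL n.M_pos.le n.M_le
      m.α_pos.le (m.δ_nn.trans m.δ_lt.le) m.hD (by linarith) (by nlinarith)
    have e : Kc T c C * (L * (kap c1 C5 * √(E / g)) ^ 2) = Kc T c C * kap c1 C5 ^ 2 * (L / g) * E := by
      rw [mul_pow, Real.sq_sqrt (by positivity)]; ring
    linarith
  unfold Eg
  rcases lo with ⟨rfl, rfl, hr⟩ | lo <;> rcases up with ⟨e1, e2⟩ | up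
  · obtain rfl := e1.symm
    obtain rfl := e2.symm
    have := F.block_top hb hh h2 R hr h0
    have p1 : 0 ≤ Kc T c C * kap c1 C5 ^ 2 * (L / g) * E := by unfold Kc; positivity
    have p2 : 0 ≤ 4 * C ^ 2 / c * ((T - 0) * ε ^ 2) := by rw [sub_zero]; positivity
    have p3 : 0 ≤ 361 * η ^ 2 / L := by positivity
    have p4 : 0 ≤ 19 * c1 ^ 2 * M ^ 4 / L ^ 3 := by positivity
    linarith
  · have l := up.len
    have m := up.mar lz (by linarith) hB n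
    have := F.block_up hb hh (ε := ε) h2 hB hL n.M_pos n.η_nn m R up.hH up.hη (by simpa using hε) hr h0
    have k := key m (by linarith)
    rw [sub_zero] at k ⊢
    linarith
  · obtain rfl := e1.symm
    obtain rfl := e2.symm
    have l := lo.len
    have m := lo.mar lz hA (by linarith) n
    have := F.block_low hb hh (ε := ε) hA h2 hL n.M_pos n.η_nn m R
      (fun t t0 => lo.hH t t0.le) (fun t t0 => lo.hη t t0.le) (by simpa using hε)
    linarith [key m (by linarith)]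
  · have l := lo.len
    have l' := up.len
    have m := lo.mar lz hA (by linarith) n
    have := F.block_two hb hh (ε := ε) hA h2 hB hL n.M_pos n.η_nn m (up.mar lz (by linarith) hB n) R
      (fun t t0 t1 e => e.elim (lo.hH t t0.le) fun e => up.hH t e t1)
      (fun t t0 t1 e => e.elim (lo.hη t t0.le) fun e => up.hη t e t1) hε
    linarith [key m (by linarith)]

/-- the one-sided Lipschitz structure of the difference -/
theorem Fr.aosl (F : Fr T c C ok z Γ G) {pb ph : P} (hb : ok pb) (hh : ok ph) {a b C1 δ0 : ℝ}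
    (ha : 0 ≤ a) (hab : a ≤ b) (hT : b ≤ T) (hC : 0 < C1)
    (up : ∀ s t, a ≤ s → s ≤ t → t ≤ b → z ph t - z ph s ≤ C1 * (t - s) + δ0) :
    Sun9.AOSL a b C1 δ0 (fun s => z pb s - z ph s) (Jf T (z ph) (z pb)) := by
  have mb : b ∈ Icc 0 T := ⟨by linarith, hT⟩
  exact Sun9.aosl_sub hC hab ((F.mono pb hb).monotoneOn _) ((F.lbz hh).ii ⟨ha, by linarith⟩ mb) up
    fun s hs => by
      unfold Jf
      rw [int_split ((F.lbz hb).sub (F.lbz hh)) ⟨by linarith [hs.1], by linarith [hs.2]⟩ mb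
        (right_mem_Icc.mpr (by linarith)), add_comm]

/-- **(LIP)** in the frame -/
theorem Fr.four (F : Fr T c C ok z Γ G) {pb ph : P} (hb : ok pb) (hh : ok ph)
    {a x y b γ C1 δ0 B : ℝ} (ha : 0 ≤ a) (hγ : 0 ≤ γ) (hx : a + γ ≤ x) (hxy : x ≤ y)
    (hy : y + γ ≤ b) (hT : b ≤ T) (hC : 0 < C1)
    (up : ∀ s t, a ≤ s → s ≤ t → t ≤ b → z ph t - z ph s ≤ C1 * (t - s) + δ0)
    (crude : ∀ s, x ≤ s → s ≤ y → |z pb s - z ph s| + δ0 ≤ 2 * C1 * γ)
    (hB : (∫ s in a..b, Jf T (z ph) (z pb) s ^ 2) + δ0 ^ 2 * (b - a) ^ 3 + δ0 ^ 4 * (b - a) ≤ B) :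
    ∫ s in x..y, (z pb s - z ph s) ^ 4 ≤ (64 * C1 + 3) ^ 2 * B := by
  have hab : a ≤ b := by linarith
  have h := F.aosl hb hh ha hab hT hC up
  have hδ := h.eta
  have := h.four (c := x) (d := y) (by linarith) hxy (by linarith) fun s hs => by
    have e := crude s hs.1 hs.2
    have e1 := mul_le_mul_of_nonneg_left (show γ ≤ s - a by linarith [hs.1]) hC.le
    have e2 := mul_le_mul_of_nonneg_left (show γ ≤ b - s by linarith [hs.2]) hC.le
    constructor <;> linarith [le_abs_self (z pb s - z ph s), neg_abs_le (z pb s - z ph s)]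
  unfold Sun9.AOSL.En at this
  have p0 : 0 ≤ ∫ s in a..b, Jf T (z ph) (z pb) s ^ 2 := integral_nonneg hab fun _ _ => sq_nonneg _
  have p1 : 0 ≤ δ0 ^ 2 * (b - a) ^ 3 := mul_nonneg (sq_nonneg _) (pow_nonneg (by linarith) _)
  have p2 : 0 ≤ δ0 ^ 4 * (b - a) := mul_nonneg (by positivity) (by linarith)
  have p3 := mul_le_mul_of_nonneg_left (show y - x ≤ b - a by linarith)
    (show 0 ≤ δ0 ^ 4 by positivity)
  have p4 := mul_le_mul_of_nonneg_left (show (∫ s in a..b, Jf T (z ph) (z pb) s ^ 2) +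
    δ0 ^ 2 * (b - a) ^ 3 ≤ B by linarith) (show 0 ≤ 4096 * C1 ^ 2 by positivity)
  have p5 := mul_nonneg hC.le (show 0 ≤ B by linarith)
  nlinarith

/-- a margin from the energy of a neighbourhood `[a, b]` -/
theorem Fr.mg (F : Fr T c C ok z Γ G) {pb ph : P} (hb : ok pb) (hh : ok ph) {H e : ℝ → ℝ}
    {a x x' y' y b γ g M η c1 C1 δ0 B : ℝ} (ha : 0 ≤ a) (hγ : 0 ≤ γ) (hx : a + γ ≤ x')
    (hg0 : 0 ≤ g) (hg : g ≤ y' - x') (hy : y' + γ ≤ b) (hT : b ≤ T) (hC : 0 < C1)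
    (lo : ∀ t t', x ≤ t → t ≤ t' → t' ≤ y → c1 * (t' - t) - δ0 ≤ z ph t' - z ph t)
    (up : ∀ s t, a ≤ s → s ≤ t → t ≤ b → z ph t - z ph s ≤ C1 * (t - s) + δ0)
    (crude : ∀ s, x' ≤ s → s ≤ y' → |z pb s - z ph s| + δ0 ≤ 2 * C1 * γ)
    (hB : (∫ s in a..b, Jf T (z ph) (z pb) s ^ 2) + δ0 ^ 2 * (b - a) ^ 3 + δ0 ^ 4 * (b - a) ≤ B)
    (hH : ∀ t, x ≤ t → t < y → H t ^ 2 ≤ M * (H t * (z pb t - z ph t)))
    (hη : ∀ t, x ≤ t → t < y → e t ≤ η) :
    Mg T (z ph) (z pb) H e x y x' y' g M η B c1 (64 * C1 + 3) δ0 := by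
  refine ⟨hg, lo, ?_, F.four hb hh ha hγ hx (by linarith) hy hT hC up crude hB, hH, hη⟩
  have m := int_sub_le (F.lbJ hh hb (right_mem_Icc.mpr (show 0 ≤ T by linarith))).sq ha
    (show a ≤ x' by linarith) (show x' ≤ y' by linarith) (show y' ≤ b by linarith) hT
    fun _ _ _ => sq_nonneg _
  have p1 : 0 ≤ δ0 ^ 2 * (b - a) ^ 3 := mul_nonneg (sq_nonneg _) (pow_nonneg (by linarith) _)
  have p2 : 0 ≤ δ0 ^ 4 * (b - a) := mul_nonneg (by positivity) (by linarith)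
  linarith

/-- a partition of `[0, T]` -/
structure Par (T : ℝ) (N : ℕ) (t : ℕ → ℝ) : Prop where
  t0 : t 0 = 0
  tN : t N = T
  up : ∀ j < N, t j ≤ t (j + 1)

theorem Par.le {N : ℕ} {t : ℕ → ℝ} (h : Par T N t) {i j : ℕ} (hij : i ≤ j) (hj : j ≤ N) :
    t i ≤ t j := by
  induction j, hij using Nat.le_induction with
  | base => exact le_rfl
  | succ j _ ih => exact (ih (by omega)).trans (h.up j (by omega))

theorem Par.mem {N : ℕ} {t : ℕ → ℝ} (h : Par T N t) {j : ℕ} (hj : j ≤ N) : t j ∈ Icc 0 T :=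
  ⟨h.t0 ▸ h.le (Nat.zero_le j) hj, h.tN ▸ h.le hj le_rfl⟩

theorem Par.abs_le {N : ℕ} {t e : ℕ → ℝ} (h : Par T N t) (hf : LB T f) {i k : ℕ} (hik : i ≤ k)
    (hk : k ≤ N) {s : ℝ} (hs : 0 ≤ s)
    (he : ∀ j, i ≤ j → j < k → ∫ u in t j..t (j + 1), f u ^ 2 ≤ s * e j) :
    ∫ u in t i..t k, |f u| ≤ √s * ∑ j ∈ Finset.Ico i k, √((t (j + 1) - t j) * e j) := by
  rw [← sum_integral_adjacent_intervals_Ico (a := t) hik fun j hj =>
    hf.abs.ii (h.mem (by have := hj.2; omega)) (h.mem (by have := hj.2; omega)), Finset.mul_sum]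
  refine Finset.sum_le_sum fun j hj => ?_
  rw [Finset.mem_Ico] at hj
  rw [← Real.sqrt_mul hs, ← mul_left_comm]
  exact int_abs_le hf (h.mem (by omega)).1 (h.up j (by omega)) (h.mem (by omega)).2 (he j hj.1 hj.2)

section Sys

variable {pb ph : P} {H : ℝ → ℝ}

theorem Fr.Eg_mono (F : Fr T c C ok z Γ G) (hb : ok pb) (hh : ok ph) (lH : LB T H)
    (h0 : ∀ t, 0 < t → t < T → 0 ≤ H t * (z pb t - z ph t)) {a a' b' b : ℝ} (ha : 0 ≤ a)
    (h1 : a ≤ a') (h2 : a' ≤ b') (h3 : b' ≤ b) (hT : b ≤ T) :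
    Eg T c (z ph) (z pb) H a' b' ≤ Eg T c (z ph) (z pb) H a b := by
  have m1 := int_sub_le (F.lbJ hh hb (right_mem_Icc.mpr (show 0 ≤ T by linarith))).sq ha h1 h2 h3 hT
    fun _ _ _ => sq_nonneg _
  have m2 := int_sub_le (lH.mul ((F.lbz hb).sub (F.lbz hh))) ha h1 h2 h3 hT
    fun t t0 t1 => h0 t (by linarith) (by linarith)
  have := mul_le_mul_of_nonneg_left m1 (show 0 ≤ c / 2 by have := F.c_pos; positivity)
  unfold Eg
  linarith

theorem Fr.J_le (F : Fr T c C ok z Γ G) (hb : ok pb) (hh : ok ph) (lH : LB T H)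
    (h0 : ∀ t, 0 < t → t < T → 0 ≤ H t * (z pb t - z ph t)) {a b : ℝ} (ha : 0 ≤ a) (hab : a ≤ b)
    (hT : b ≤ T) : ∫ t in a..b, Jf T (z ph) (z pb) t ^ 2 ≤ 2 / c * Eg T c (z ph) (z pb) H a b := by
  have hc := F.c_pos
  have m := int_mono (LB.const 0) (lH.mul ((F.lbz hb).sub (F.lbz hh))) ha hab hT
    fun t t0 t1 => h0 t (by linarith) (by linarith)
  rw [intervalIntegral.integral_zero] at m
  rw [div_mul_eq_mul_div, le_div_iff₀ hc]
  unfold Eg
  linarith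

theorem Fr.H_le (F : Fr T c C ok z Γ G) {a b : ℝ} (hab : a ≤ b) :
    ∫ t in a..b, H t * (z pb t - z ph t) ≤ 2 * Eg T c (z ph) (z pb) H a b := by
  have hc := F.c_pos
  have m : 0 ≤ ∫ t in a..b, Jf T (z ph) (z pb) t ^ 2 := integral_nonneg hab fun _ _ => sq_nonneg _
  unfold Eg
  nlinarith

theorem Fr.Eg_add (F : Fr T c C ok z Γ G) (hb : ok pb) (hh : ok ph) (lH : LB T H) {a b d : ℝ}
    (ha : a ∈ Icc 0 T) (mb : b ∈ Icc 0 T) (hd : d ∈ Icc 0 T) : Eg T c (z ph) (z pb) H a d =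
      Eg T c (z ph) (z pb) H a b + Eg T c (z ph) (z pb) H b d := by
  unfold Eg
  rw [int_split (F.lbJ hh hb (right_mem_Icc.mpr (ha.1.trans ha.2))).sq ha mb hd,
    int_split (lH.mul ((F.lbz hb).sub (F.lbz hh))) ha mb hd]
  ring

/-- **stage 1**: upper cuts, induction down the scales -/
theorem Fr.down (F : Fr T c C ok z Γ G) (hb : ok pb) (hh : ok ph) (lH : LB T H)
    (h0 : ∀ t, 0 < t → t < T → 0 ≤ H t * (z pb t - z ph t)) {N k0 : ℕ} {t a : ℕ → ℝ}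
    (hp : Par T N t)
    (step : ∀ k, k0 ≤ k → k ≤ N → (∀ j, k < j → j ≤ N → Eg T c (z ph) (z pb) H 0 (t j) ≤ a j) →
      ∃ hi B X, k ≤ hi ∧ hi ≤ N ∧
        Cut T c C (z ph) (z pb) (fun t => Γ pb t - Γ ph t) H 0 0 (t hi) B X ∧
        X + 8 * C ^ 2 / c ^ 2 * (B * (∑ j ∈ Finset.Ico hi N, √((t (j + 1) - t j) * a (j + 1))) ^ 2) ≤
          (a k + Eg T c (z ph) (z pb) H 0 (t hi)) / 2) :
    ∀ k, k0 ≤ k → k ≤ N → Eg T c (z ph) (z pb) H 0 (t k) ≤ a k := by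
  have hc := F.c_pos
  have hT : 0 ≤ T := (hp.mem le_rfl).1.trans (hp.mem le_rfl).2
  suffices h : ∀ d k, N - k = d → k0 ≤ k → k ≤ N → Eg T c (z ph) (z pb) H 0 (t k) ≤ a k from
    fun k => h _ k rfl
  intro d
  induction d using Nat.strong_induction_on with
  | _ d ih =>
  intro k hd k1 k2
  have ih' : ∀ j, k < j → j ≤ N → Eg T c (z ph) (z pb) H 0 (t j) ≤ a j := fun j j1 j2 =>
    ih (N - j) (by omega) j rfl (by omega) j2
  obtain ⟨hi, B, X, i1, i2, cut, hX⟩ := step k k1 k2 ih'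
  have m := hp.abs_le (e := fun j => a (j + 1)) (F.lbJ hh hb (right_mem_Icc.mpr hT)) i2 le_rfl
    (s := 2 / c) (by positivity) fun j j1 j2 =>
      (F.J_le hb hh lH h0 (hp.mem (by omega)).1 (hp.up j j2) (hp.mem (by omega)).2).trans
        (mul_le_mul_of_nonneg_left ((F.Eg_mono hb hh lH h0 le_rfl (hp.mem (by omega)).1 (hp.up j j2)
          le_rfl (hp.mem (by omega)).2).trans (ih' _ (by omega) (by omega))) (by positivity))
  rw [hp.tN] at m
  have e := F.cut hb hh (hp.mem i2).1 cut ((by rw [integral_same, zero_add] : _ = _).trans_le m)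
  rw [mul_pow, Real.sq_sqrt (by positivity), sub_zero] at e
  have e2 := F.Eg_mono hb hh lH h0 le_rfl le_rfl (hp.mem k2).1 (hp.le i1 i2) (hp.mem i2).2
  have r : ∀ u : ℝ, 4 * C ^ 2 / c * (B * (2 / c * u)) = 8 * C ^ 2 / c ^ 2 * (B * u) := fun u => by
    field_simp; ring
  rw [r] at e
  linarith

/-- **stage 2**: two-sided cuts, closed by weights -/
theorem Fr.sys (F : Fr T c C ok z Γ G) (hb : ok pb) (hh : ok ph) (lH : LB T H)
    (h0 : ∀ t, 0 < t → t < T → 0 ≤ H t * (z pb t - z ph t)) {N : ℕ} {t W : ℕ → ℝ}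
    (hp : Par T N t) (hW : ∀ k < N, 0 < W k)
    (step : ∀ μ, 1 ≤ μ → (∀ j < N, Eg T c (z ph) (z pb) H (t j) (t (j + 1)) ≤ μ * W j) →
      ∀ k < N, ∃ lo hi A B X, lo ≤ k ∧ k < hi ∧ hi ≤ N ∧
        Cut T c C (z ph) (z pb) (fun t => Γ pb t - Γ ph t) H A (t lo) (t hi) B X ∧
        X + μ * (8 * C ^ 2 / c ^ 2 * ((B - A) *
          (∑ j ∈ Finset.Ico 0 lo, √((t (j + 1) - t j) * W j) +
            ∑ j ∈ Finset.Ico hi N, √((t (j + 1) - t j) * W j)) ^ 2)) ≤ W k + μ * W k / 2) :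
    ∀ k < N, Eg T c (z ph) (z pb) H (t k) (t (k + 1)) ≤ 2 * W k := by
  have hc := F.c_pos
  have hT : 0 ≤ T := (hp.mem le_rfl).1.trans (hp.mem le_rfl).2
  intro k hk
  refine Spl27.wmax' (ι := Fin N) (E := fun k => Eg T c (z ph) (z pb) H (t k) (t (k + 1)))
    (W := fun k => W k) (fun k => hW k k.2) (fun μ h1 h2 k => ?_) ⟨k, hk⟩
  have h3 : ∀ j < N, Eg T c (z ph) (z pb) H (t j) (t (j + 1)) ≤ μ * W j := fun j hj => h2 ⟨j, hj⟩
  obtain ⟨lo, hi, A, B, X, i0, i1, i2, cut, hX⟩ := step μ h1 h3 k k.2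
  have hJ : ∀ j < N, ∫ u in t j..t (j + 1), Jf T (z ph) (z pb) u ^ 2 ≤ 2 / c * μ * W j :=
    fun j j2 => by
      rw [mul_assoc]
      exact (F.J_le hb hh lH h0 (hp.mem (by omega)).1 (hp.up j j2) (hp.mem (by omega)).2).trans
        (mul_le_mul_of_nonneg_left (h3 j j2) (by positivity))
  have lJ := F.lbJ hh hb (right_mem_Icc.mpr hT)
  have m1 := hp.abs_le lJ (Nat.zero_le lo) (by omega) (s := 2 / c * μ) (by positivity)
    fun j _ j2 => hJ j (by omega)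
  have m2 := hp.abs_le lJ i2 le_rfl (s := 2 / c * μ) (by positivity) fun j _ j2 => hJ j j2
  rw [hp.t0] at m1
  rw [hp.tN] at m2
  have e := F.cut hb hh (hp.le (by omega) i2) cut ((add_le_add m1 m2).trans_eq (mul_add _ _ _).symm)
  rw [mul_pow, Real.sq_sqrt (by positivity)] at e
  have e2 := F.Eg_mono hb hh lH h0 (hp.mem (show lo ≤ N by omega)).1 (hp.le i0 (by omega))
    (hp.up k k.2) (hp.le (show k + 1 ≤ hi from i1) i2) (hp.mem i2).2
  have r : ∀ u : ℝ, 4 * C ^ 2 / c * ((B - A) * (2 / c * μ * u)) =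
      μ * (8 * C ^ 2 / c ^ 2 * ((B - A) * u)) := fun u => by
    field_simp; ring
  rw [r] at e
  linarith

end Sys

end Crest.Agent.T156.Cut8
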