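import Crest.Agent.T156.PCmp_3
import Crest.Agent.T156.Mon_48

/-!
Row 156 (helper14): integration by parts against a Lipschitz function (frame free), the formula
`chi = 1 - Gam T + ∫ z G`, and the kernel of `chi` at time `0` in the `H⁻¹` norm.
-/

set_option autoImplicit false

namespace Crest.Agent.T156.Hm14

open MeasureTheory Filter Topology Set
open Crest.Agent.R164.GC Crest.Agent.R339.B Crest.Agent.R339.Var Crest.Agent.T157.Pf
open Crest.Agent.T156.Pp Crest.Agent.T156.Pp.Ode3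
open Crest.Agent.T156.Sc48 (Jf)

noncomputable section

/-! ### frame free -/

theorem tail_cont {d : ℝ → ℝ} (hd : ∀ a b, IntervalIntegrable d volume a b) (T : ℝ) :
    Continuous fun s => ∫ r in s..T, d r := by
  have : (fun s => ∫ r in s..T, d r) = fun s => -∫ r in T..s, d r :=
    funext fun s => intervalIntegral.integral_symm _ _
  rw [this]
  exact (intervalIntegral.continuous_primitive hd T).neg

theorem ibp_one {d g : ℝ → ℝ} {B L s t T : ℝ} (hd : ∀ a b, IntervalIntegrable d volume a b)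
    (hB : ∀ r, |d r| ≤ B) (hst : s ≤ t)
    (hg : ∀ u ∈ Icc s t, ∀ v ∈ Icc s t, |g u - g v| ≤ L * |u - v|) :
    (∫ r in s..t, d r * g r) - ((∫ r in s..T, d r) * g s - (∫ r in t..T, d r) * g t) ≤
      L * ∫ r in s..t, |∫ u in r..T, d u| := by
  set J : ℝ → ℝ := fun s => ∫ r in s..T, d r with hJ
  have hJc : Continuous J := tail_cont hd T
  have hB0 : 0 ≤ B := (abs_nonneg _).trans (hB 0)
  have hgc : ContinuousOn g (Icc s t) := by
    refine (LipschitzOnWith.of_dist_le' (K := L) fun u hu v hv => ?_).continuousOn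
    rw [Real.dist_eq, Real.dist_eq]; exact hg u hu v hv
  have hi : ∀ a ∈ Icc s t, ∀ b ∈ Icc s t, IntervalIntegrable (fun r => d r * g r) volume a b :=
    fun a ha b hb => (hd a b).mul_continuousOn (hgc.mono (uIcc_subset_Icc ha hb))
  have hF : ContinuousOn (fun x => (∫ r in s..x, d r * g r) - (J s * g s - J x * g x)) (Icc s t) := by
    refine ContinuousOn.sub ?_ (continuousOn_const.sub (hJc.continuousOn.mul hgc))
    have := intervalIntegral.continuousOn_primitive_interval' (μ := volume) (a := s)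
      (hi s ⟨le_rfl, hst⟩ t ⟨hst, le_rfl⟩) left_mem_uIcc
    rwa [uIcc_of_le hst] at this
  have hac : Continuous fun r => |J r| := hJc.abs
  refine image_le_of_liminf_slope_right_le_deriv_boundary (a := s) (b := t) hF
    (B := fun x => L * ∫ r in s..x, |J r|) (B' := fun x => L * |J x|) (by simp)
    (continuous_const.mul (intervalIntegral.continuous_primitive
      (fun a b => hac.intervalIntegrable a b) s)).continuousOn
    (fun x _ => ((hac.integral_hasStrictDerivAt s x).hasDerivAt.const_mul L).hasDerivWithinAt) ?_ ⟨hst, le_rfl⟩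
  intro x hx ρ hρ
  have hL : 0 ≤ L := by
    have := hg t ⟨hst, le_rfl⟩ s ⟨le_rfl, hst⟩
    have h2 : 0 < |t - s| := abs_pos.2 (by linarith [hx.1, hx.2])
    by_contra hneg
    rw [not_le] at hneg
    nlinarith [abs_nonneg (g t - g s)]
  have hε : 0 < (ρ - L * |J x|) / (B * L + 1) := div_pos (by linarith) (by positivity)
  have hev : ∀ᶠ z in 𝓝[>] x, z ∈ Ioo x (min t (x + (ρ - L * |J x|) / (B * L + 1))) :=
    Ioo_mem_nhdsGT (lt_min hx.2 (by linarith))
  refine (hev.mono fun z hz => ?_).frequently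
  have hxz : x < z := hz.1
  have hzt : z ≤ t := (hz.2.trans_le (min_le_left _ _)).le
  have hz2 : z - x < (ρ - L * |J x|) / (B * L + 1) := by
    linarith [hz.2.trans_le (min_le_right _ _)]
  have hxm : x ∈ Icc s t := ⟨hx.1, hx.2.le⟩
  have hzm : z ∈ Icc s t := ⟨hx.1.trans hxz.le, hzt⟩
  rw [slope_def_field, div_lt_iff₀ (by linarith)]
  have e1 : (∫ r in s..z, d r * g r) - ∫ r in s..x, d r * g r = ∫ r in x..z, d r * g r :=
    intervalIntegral.integral_interval_sub_left (hi s ⟨le_rfl, hst⟩ z hzm) (hi s ⟨le_rfl, hst⟩ x hxm)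
  have e2 : J x - J z = ∫ r in x..z, d r := by
    have := intervalIntegral.integral_add_adjacent_intervals (hd x z) (hd z T)
    simp only [hJ]; linarith
  have e3 : (∫ r in x..z, d r * g r) - (∫ r in x..z, d r) * g z =
      ∫ r in x..z, d r * (g r - g z) := by
    rw [← intervalIntegral.integral_mul_const, ← intervalIntegral.integral_sub (hi x hxm z hzm)
      ((hd x z).mul_const _)]
    congr 1; funext r; ring
  have b1 : |∫ r in x..z, d r * (g r - g z)| ≤ B * L * (z - x) * |z - x| := by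
    refine intervalIntegral.norm_integral_le_of_norm_le_const (f := fun r => d r * (g r - g z))
      fun r hr => ?_
    rw [uIoc_of_le hxz.le] at hr
    have := hg r ⟨hx.1.trans hr.1.le, hr.2.trans hzt⟩ z hzm
    rw [abs_sub_comm r z, abs_of_nonneg (by linarith [hr.2] : 0 ≤ z - r)] at this
    rw [Real.norm_eq_abs, abs_mul, mul_assoc]
    exact mul_le_mul (hB r) (this.trans (mul_le_mul_of_nonneg_left (by linarith [hr.1]) hL))
      (abs_nonneg _) hB0
  have b2 : |J x * (g z - g x)| ≤ |J x| * (L * (z - x)) := by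
    have := hg z hzm x hxm
    rw [abs_of_nonneg (by linarith : 0 ≤ z - x)] at this
    rw [abs_mul]
    exact mul_le_mul_of_nonneg_left this (abs_nonneg _)
  rw [abs_of_nonneg (by linarith : 0 ≤ z - x)] at b1
  have b3 : (z - x) * (B * L + 1) < ρ - L * |J x| := (lt_div_iff₀ (by positivity)).1 hz2
  have e4 : (∫ r in s..z, d r * g r) - (J s * g s - J z * g z) -
      ((∫ r in s..x, d r * g r) - (J s * g s - J x * g x)) =
      (∫ r in x..z, d r * (g r - g z)) + J x * (g z - g x) := by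
    rw [← e3, ← e1, ← e2]; ring
  rw [e4]
  have := le_abs_self (∫ r in x..z, d r * (g r - g z))
  have := le_abs_self (J x * (g z - g x))
  have h0 : 0 < z - x := by linarith
  nlinarith [mul_lt_mul_of_pos_right b3 h0, mul_pos h0 h0]

/-- **integration by parts against a Lipschitz function**, `J s = ∫_s^T d` -/
theorem ibp_lip {d g : ℝ → ℝ} {B L s t T : ℝ} (hd : ∀ a b, IntervalIntegrable d volume a b)
    (hB : ∀ r, |d r| ≤ B) (hst : s ≤ t)
    (hg : ∀ u ∈ Icc s t, ∀ v ∈ Icc s t, |g u - g v| ≤ L * |u - v|) :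
    |(∫ r in s..t, d r * g r) - ((∫ r in s..T, d r) * g s - (∫ r in t..T, d r) * g t)| ≤
      L * ∫ r in s..t, |∫ u in r..T, d u| := by
  have h1 := ibp_one (T := T) hd hB hst hg
  have h2 := ibp_one (T := T) (g := fun r => -g r) hd hB hst fun u hu v hv => by
    rw [show -g u - -g v = -(g u - g v) by ring, abs_neg]; exact hg u hu v hv
  simp only [mul_neg, intervalIntegral.integral_neg] at h2
  exact abs_le.2 ⟨by linarith, h1⟩

/-! ### the formula for `chi` -/

variable {l l' : List (ℝ × ℝ)}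

theorem chi_ge (h : AP l) {T : ℝ} (hT : TT l ≤ T) : Real.exp (-T) ≤ Ode3.chi l := by
  have h1 := lo2_PhiL h.adm 0
  have h2 := D0_zero h.adm
  rw [Dn_zero] at h2
  rw [h2, ← Dn_one] at h1
  have : Real.exp (-T) ≤ Real.exp (-TT l) := Real.exp_le_exp.2 (by linarith)
  unfold Ode3.chi
  linarith

theorem X2_top (h : AP l) : X2 l (TT l) = 1 - Gam l (TT l) := by
  have e : PhiT 1 l (TT l) = phi0 1 := PhiT_end (Adm.pos h.adm) le_rfl
  have h1 : ∀ y, Dn 1 (PhiT 1 l (TT l)) y = 1 * 1 + (-1) * W0 (PhiT 1 l (TT l)) y := by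
    intro y
    rw [e, W0, Dn_one, Dn_zero, phi0_deriv2 one_pos, phi0_deriv one_pos]; ring
  obtain ⟨K, hK⟩ := Et_bc bfn_W0 l (TT l)
  unfold X2 Gam Et
  rw [show Dn 1 (PhiT 1 l (TT l)) = fun y => 1 * 1 + (-1) * W0 (PhiT 1 l (TT l)) y from funext h1,
    EX_add one_pos l _ (BC.const _) (hK.const_mul _), EX_const one_pos, EX_const_mul one_pos]
  ring

/-- `chi = 1 - Gam T + ∫ z G` -/
theorem chi_formula (h : AP l) :
    Ode3.chi l = 1 - Gam l (TT l) + ∫ r in (0:ℝ)..TT l, lvr 1 l r * Gp l r := by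
  have := X2_int h le_rfl h.TT_nn le_rfl
  rw [X2_top h, X2_zero h] at this
  linarith

theorem dz_ii' (h : Adm 1 l) (h' : Adm 1 l') (a b : ℝ) :
    IntervalIntegrable (fun s => lvr 1 l' s - lvr 1 l s) volume a b :=
  (lvr_ii h' a b).sub (lvr_ii h a b)

theorem Jf_cont (h : Adm 1 l) (h' : Adm 1 l') (S : ℝ) : Continuous (Jf l l' S) :=
  tail_cont (dz_ii' h h') S

/-- integration by parts in the list frame -/
theorem ibp_lvr (h : Adm 1 l) (h' : Adm 1 l') {g : ℝ → ℝ} {L s t : ℝ} (S : ℝ) (hst : s ≤ t)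
    (hg : ∀ u ∈ Icc s t, ∀ v ∈ Icc s t, |g u - g v| ≤ L * |u - v|) :
    |(∫ r in s..t, (lvr 1 l' r - lvr 1 l r) * g r) - (Jf l l' S s * g s - Jf l l' S t * g t)| ≤
      L * ∫ r in s..t, |Jf l l' S r| :=
  ibp_lip (T := S) (dz_ii' h h') (Sc48.lvr_sub_le h h') hst hg

/-- **kernel of `chi` at time `0`**, for one pair of lists -/
theorem chi_kernel (h : AP l) (h' : AP l') (hT : TT l' = TT l) {C : ℝ}
    (hGam : |Gam l' (TT l) - Gam l (TT l)| ≤ C * ∫ r in (0:ℝ)..TT l, |Jf l l' (TT l) r|)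
    (hG : ∀ t ∈ Icc 0 (TT l), |Gp l' t - Gp l t| ≤
      C * (|Jf l l' (TT l) t| + ∫ r in (0:ℝ)..TT l, |Jf l l' (TT l) r|)) :
    |Ode3.chi l' - Ode3.chi l - Ode3.chi l' ^ 2 * Jf l l' (TT l) 0| ≤
      (4 + C * (2 + TT l)) * ∫ r in (0:ℝ)..TT l, |Jf l l' (TT l) r| := by
  set T := TT l with hTT
  set I := ∫ r in (0:ℝ)..T, |Jf l l' T r| with hI
  have hT0 : 0 ≤ T := h.TT_nn
  have m0 : (0:ℝ) ∈ Icc 0 T := ⟨le_rfl, hT0⟩
  have mT : T ∈ Icc 0 T := ⟨hT0, le_rfl⟩
  have c' : ContinuousOn (Gp l') (Icc 0 T) := hT ▸ Gp_cont h'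
  have c : ContinuousOn (Gp l) (Icc 0 T) := Gp_cont h
  have f' := chi_formula h'
  rw [hT] at f'
  have f := chi_formula h
  have i1 := ii_lvr_mul h'.adm c' m0 mT
  have i2 := ii_lvr_mul h.adm c' m0 mT
  have i3 := ii_lvr_mul h.adm c m0 mT
  have p1 := ibp_lvr h.adm h'.adm (g := Gp l') (L := 4) T hT0 fun u hu v hv =>
    Gp_lip h' (hT ▸ hv) (hT ▸ hu)
  have jT : Jf l l' T T = 0 := intervalIntegral.integral_same
  rw [jT, Gp_zero h', zero_mul, sub_zero] at p1
  have e1 : ∫ r in (0:ℝ)..T, (lvr 1 l' r - lvr 1 l r) * Gp l' r =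
      (∫ r in (0:ℝ)..T, lvr 1 l' r * Gp l' r) - ∫ r in (0:ℝ)..T, lvr 1 l r * Gp l' r := by
    rw [← intervalIntegral.integral_sub i1 i2]; congr 1; funext r; ring
  have jc := (Jf_cont h.adm h'.adm T).abs
  have p2 : |(∫ r in (0:ℝ)..T, lvr 1 l r * Gp l' r) - ∫ r in (0:ℝ)..T, lvr 1 l r * Gp l r| ≤
      C * (I + T * I) := by
    rw [← intervalIntegral.integral_sub i2 i3]
    have := intervalIntegral.norm_integral_le_of_norm_le (μ := volume)
      (f := fun r => lvr 1 l r * Gp l' r - lvr 1 l r * Gp l r)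
      (g := fun r => C * (|Jf l l' T r| + I)) hT0 (Eventually.of_forall fun r hr => by
        rw [Real.norm_eq_abs, ← mul_sub, abs_mul, abs_of_pos (lvr_pos h.adm r)]
        have := hG r ⟨hr.1.le, hr.2⟩
        have := lvr_le_one h.adm r
        have := lvr_pos h.adm r
        nlinarith [abs_nonneg (Gp l' r - Gp l r)])
      ((continuous_const.mul (jc.add continuous_const)).intervalIntegrable _ _)
    rw [intervalIntegral.integral_const_mul, intervalIntegral.integral_add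
      (jc.intervalIntegrable _ _) intervalIntegrable_const, intervalIntegral.integral_const,
      sub_zero, smul_eq_mul] at this
    exact this
  rw [e1] at p1
  obtain ⟨a1, a2⟩ := abs_le.1 p1
  obtain ⟨b1, b2⟩ := abs_le.1 p2
  obtain ⟨c1, c2⟩ := abs_le.1 hGam
  rw [abs_le]
  constructor <;> nlinarith

/-- the `H⁻¹` bounds that are used (32's form (3)) -/
def HmG : Prop := ∀ T0 : ℝ, ∃ C : ℝ, 1 ≤ C ∧ ∀ l l', Pr.Ok l → Pr.Ok l' → TT l' = TT l → TT l ≤ T0 →
  ∀ t ∈ Icc 0 (TT l),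
    |Pr.Gam l' t - Pr.Gam l t| ≤
      C * (|Jf l l' (TT l) t| + ∫ r in (0:ℝ)..TT l, |Jf l l' (TT l) r|) ∧
    |Pr.GG l' t - Pr.GG l t| ≤
      C * (|Jf l l' (TT l) t| + ∫ r in (0:ℝ)..TT l, |Jf l l' (TT l) r|)

/-- **(H3)** -/
def KerS : Prop := ∀ T0 : ℝ, ∃ C : ℝ, 1 ≤ C ∧ ∀ l l', Pr.Ok l → Pr.Ok l' → TT l' = TT l → TT l ≤ T0 →
  |Pr.chi l' - Pr.chi l - Pr.chi l' ^ 2 * Jf l l' (TT l) 0| ≤
      C * (∫ r in (0:ℝ)..TT l, |Jf l l' (TT l) r|) ∧
    Real.exp (-T0) ≤ Pr.chi l' ∧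
    (Pr.chi l' = Pr.chi l → |Jf l l' (TT l) 0| ≤ C * ∫ r in (0:ℝ)..TT l, |Jf l l' (TT l) r|)

theorem kerS_of (H : HmG) : KerS := by
  intro T0
  obtain ⟨C, hC, H⟩ := H T0
  have hE : 1 ≤ Real.exp (2 * |T0|) := Real.one_le_exp (by positivity)
  have hA : 1 ≤ 4 + C * (2 + |T0|) := by nlinarith [abs_nonneg T0]
  refine ⟨(4 + C * (2 + |T0|)) * Real.exp (2 * |T0|), by nlinarith, fun l l' h h' hT h0 => ?_⟩
  have a := AP.of_ok h
  have a' := AP.of_ok h'
  have hI : 0 ≤ ∫ r in (0:ℝ)..TT l, |Jf l l' (TT l) r| :=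
    intervalIntegral.integral_nonneg a.TT_nn fun _ _ => abs_nonneg _
  have jT : Jf l l' (TT l) (TT l) = 0 := intervalIntegral.integral_same
  have k := chi_kernel a a' hT (C := C) (by
    have := (H l l' h h' hT h0 (TT l) ⟨a.TT_nn, le_rfl⟩).1
    rwa [jT, abs_zero, zero_add] at this) fun t ht => (H l l' h h' hT h0 t ht).2
  have hle : TT l ≤ |T0| := h0.trans (le_abs_self _)
  have k1 := k.trans (mul_le_mul_of_nonneg_right
    (show 4 + C * (2 + TT l) ≤ 4 + C * (2 + |T0|) by nlinarith) hI)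
  have g := chi_ge a' (T := T0) (hT ▸ h0)
  rw [chi_eq a, chi_eq a']
  refine ⟨k1.trans (mul_le_mul_of_nonneg_right (by nlinarith) hI), g, fun e => ?_⟩
  rw [e, sub_self, zero_sub, abs_neg, abs_mul, abs_of_nonneg (sq_nonneg _), ← e] at k1
  have g2 : Real.exp (-|T0|) ≤ Ode3.chi l' :=
    (Real.exp_le_exp.2 (by linarith [le_abs_self T0])).trans g
  have g3 : 1 ≤ Real.exp (2 * |T0|) * Ode3.chi l' ^ 2 := by
    have e2 : Real.exp (2 * |T0|) * Real.exp (-|T0|) ^ 2 = 1 := by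
      rw [← Real.exp_nat_mul, ← Real.exp_add]; simp
    rw [← e2]
    exact mul_le_mul_of_nonneg_left (pow_le_pow_left₀ (Real.exp_pos _).le g2 2) (by positivity)
  have := mul_le_mul_of_nonneg_left k1 (Real.exp_pos (2 * |T0|)).le
  nlinarith [abs_nonneg (Jf l l' (TT l) 0)]

end

end Crest.Agent.T156.Hm14
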