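import Crest.Agent.T156.Hm_32
import Crest.Agent.T156.Hm_14

/-!
Row 156 (helper32): `H⁻¹` Lipschitz bounds of the moments `Γ, G, A, N, …` (leaf L-e, (3), (4)).
-/

set_option autoImplicit false

namespace Crest.Agent.T156.Hm

open MeasureTheory ProbabilityTheory Filter Topology Set
open Crest.Agent.R164.GC Crest.Agent.R339.B Crest.Agent.R339.Var Crest.Agent.T157.Pf
open Crest.Agent.T156.Pp Crest.Agent.T156.Sc48
open Crest.ProbabilityR.InvariantGlass (gaussOp)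

noncomputable section

/-- a value with two derivatives -/
structure Cl (A D : ℝ) (f g : ℝ → ℝ) : Prop where
  bf : BD f
  bg : BD g
  f0 : ∀ x, |f x| ≤ A
  f1 : ∀ x, |deriv f x| ≤ A
  f2 : ∀ x, |deriv (deriv f) x| ≤ A
  g0 : ∀ x, |g x| ≤ A
  g1 : ∀ x, |deriv g x| ≤ A
  g2 : ∀ x, |deriv (deriv g) x| ≤ A
  d0 : ∀ x, |g x - f x| ≤ A * D
  d1 : ∀ x, |deriv g x - deriv f x| ≤ A * D
  d2 : ∀ x, |deriv (deriv g) x - deriv (deriv f) x| ≤ A * D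

theorem der_mul {f g : ℝ → ℝ} (hf : BD f) (hg : BD g) :
    deriv (fun x => f x * g x) = fun x => deriv f x * g x + f x * deriv g x :=
  funext fun x => ((hf.hasDerivAt x).fun_mul (hg.hasDerivAt x)).deriv

theorem der2_mul {f g : ℝ → ℝ} (hf : BD f) (hg : BD g) (x : ℝ) :
    deriv (deriv (fun x => f x * g x)) x = deriv (deriv f) x * g x + deriv f x * deriv g x +
      (deriv f x * deriv g x + f x * deriv (deriv g) x) := by
  rw [der_mul hf hg]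
  exact (((hf.deriv.hasDerivAt x).fun_mul (hg.hasDerivAt x)).fun_add
    ((hf.hasDerivAt x).fun_mul (hg.deriv.hasDerivAt x))).deriv

theorem dmul {a a' b b' A B D : ℝ} (ha : |a| ≤ A) (hb' : |b'| ≤ B) (h1 : |a' - a| ≤ A * D)
    (h2 : |b' - b| ≤ B * D) : |a' * b' - a * b| ≤ 2 * (A * B * D) := by
  have p := amul h1 hb'
  have q := amul ha h2
  rw [show a' * b' - a * b = (a' - a) * b' + a * (b' - b) by ring]
  refine (abs_add_le _ _).trans ?_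
  linarith

theorem abs4 {a b c d K : ℝ} (ha : |a| ≤ K) (hb : |b| ≤ K) (hc : |c| ≤ K) (hd : |d| ≤ K) :
    |a + b + (c + d)| ≤ 4 * K := by
  have := abs_add_le (a + b) (c + d)
  have := abs_add_le a b
  have := abs_add_le c d
  linarith

theorem Cl.mul {A B D : ℝ} {f g f' g' : ℝ → ℝ} (h : Cl A D f g) (h' : Cl B D f' g') :
    Cl (8 * (A * B)) D (fun x => f x * f' x) (fun x => g x * g' x) := by
  have n : 0 ≤ A * B := (abs_nonneg _).trans (amul (h.f0 0) (h'.f0 0))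
  have n' : 0 ≤ 2 * (A * B * D) := (abs_nonneg _).trans (dmul (h.f0 0) (h'.g0 0) (h.d0 0) (h'.d0 0))
  refine ⟨h.bf.mul h'.bf, h.bg.mul h'.bg, fun x => ?_, fun x => ?_, fun x => ?_, fun x => ?_,
    fun x => ?_, fun x => ?_, fun x => ?_, fun x => ?_, fun x => ?_⟩
  · linarith [amul (h.f0 x) (h'.f0 x)]
  · rw [der_mul h.bf h'.bf]
    refine (abs_add_le _ _).trans ?_
    linarith [amul (h.f1 x) (h'.f0 x), amul (h.f0 x) (h'.f1 x)]
  · rw [der2_mul h.bf h'.bf]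
    linarith [abs4 (amul (h.f2 x) (h'.f0 x)) (amul (h.f1 x) (h'.f1 x)) (amul (h.f1 x) (h'.f1 x))
      (amul (h.f0 x) (h'.f2 x))]
  · linarith [amul (h.g0 x) (h'.g0 x)]
  · rw [der_mul h.bg h'.bg]
    refine (abs_add_le _ _).trans ?_
    linarith [amul (h.g1 x) (h'.g0 x), amul (h.g0 x) (h'.g1 x)]
  · rw [der2_mul h.bg h'.bg]
    linarith [abs4 (amul (h.g2 x) (h'.g0 x)) (amul (h.g1 x) (h'.g1 x)) (amul (h.g1 x) (h'.g1 x))
      (amul (h.g0 x) (h'.g2 x))]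
  · linarith [dmul (h.f0 x) (h'.g0 x) (h.d0 x) (h'.d0 x)]
  · rw [der_mul h.bf h'.bf, der_mul h.bg h'.bg]
    have a := dmul (h.f1 x) (h'.g0 x) (h.d1 x) (h'.d0 x)
    have b := dmul (h.f0 x) (h'.g1 x) (h.d0 x) (h'.d1 x)
    rw [add_sub_add_comm]
    refine (abs_add_le _ _).trans ?_
    linarith
  · rw [der2_mul h.bf h'.bf, der2_mul h.bg h'.bg]
    have a := abs4 (dmul (h.f2 x) (h'.g0 x) (h.d2 x) (h'.d0 x))
      (dmul (h.f1 x) (h'.g1 x) (h.d1 x) (h'.d1 x)) (dmul (h.f1 x) (h'.g1 x) (h.d1 x) (h'.d1 x))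
      (dmul (h.f0 x) (h'.g2 x) (h.d0 x) (h'.d2 x))
    rw [add_sub_add_comm, add_sub_add_comm, add_sub_add_comm (deriv g x * deriv g' x)]
    linarith

theorem Cl.congr {A D : ℝ} {f g f' g' : ℝ → ℝ} (h : Cl A D f g) (e : ∀ x, f' x = f x)
    (e' : ∀ x, g' x = g x) : Cl A D f' g' := by
  rw [show f' = f from funext e, show g' = g from funext e']; exact h

/-- `|J t| + ∫_t^T |J|` -/
def HN (l l' : List (ℝ × ℝ)) (t : ℝ) : ℝ := |Jf l l' (TT l) t| + IJ l l' t (TT l)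

theorem HN_nn (l l' : List (ℝ × ℝ)) {t : ℝ} (ht : t ∈ Icc 0 (TT l)) : 0 ≤ HN l l' t :=
  add_nonneg (abs_nonneg _) (IJ_nn l l' ht.2)

theorem HN_le {l l' : List (ℝ × ℝ)} (h : Adm 1 l) (h' : Adm 1 l') (e : TT l' = TT l) {t : ℝ}
    (ht : t ∈ Icc 0 (TT l)) : HN l l' t ≤ |Jf l l' (TT l) t| + IJ l l' 0 (TT l) := by
  have a := IJ_add h h' e le_rfl ht.1 (ht.1.trans ht.2)
  have b := IJ_nn l l' ht.1
  unfold HN; linarith

theorem HL_le {l l' : List (ℝ × ℝ)} (h : Adm 1 l) (h' : Adm 1 l') (e : TT l' = TT l) {t T : ℝ}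
    (hT : TT l ≤ T) (ht : t ∈ Icc 0 (TT l)) :
    HL l l' t ≤ (1 + T) * (|Jf l l' (TT l) t| + IJ l l' 0 (TT l)) := by
  have a := IJ_add h h' e le_rfl ht.1 (ht.1.trans ht.2)
  have b := IJ_nn l l' ht.2
  have c := IJ_nn l l' ht.1
  have d := abs_nonneg (Jf l l' (TT l) t)
  have := mul_le_mul_of_nonneg_right (ht.2.trans hT) (show 0 ≤ |Jf l l' (TT l) t| +
    IJ l l' 0 (TT l) by linarith)
  unfold HL; linarith

/-- the derivatives of the two profiles are close -/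
theorem cl_Dn (T : ℝ) (K : ℕ) : ∃ A : ℝ, 1 ≤ A ∧ ∀ l l', Adm 1 l → Adm 1 l' → TT l' = TT l →
    TT l ≤ T → ∀ t ∈ Icc 0 (TT l), ∀ k ≤ K,
      Cl A (HN l l' t) (Dn k (PhiT 1 l t)) (Dn k (PhiT 1 l' t)) := by
  obtain ⟨C, hC, hB⟩ := exists_Bd T (K + 2)
  obtain ⟨C', hC', hD⟩ := dn_H T (K + 2)
  refine ⟨C + C', by linarith, fun l l' h h' e hT t ht k hk => ?_⟩
  have b : ∀ j ≤ K + 2, ∀ x, |Dn j (PhiT 1 l t) x| ≤ C + C' := fun j hj x =>
    (hB.phiT h hT ht.1 j hj x).trans (by linarith)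
  have b' : ∀ j ≤ K + 2, ∀ x, |Dn j (PhiT 1 l' t) x| ≤ C + C' := fun j hj x =>
    (hB.phiT h' (e ▸ hT) ht.1 j hj x).trans (by linarith)
  have d : ∀ j ≤ K + 2, ∀ x, |Dn j (PhiT 1 l' t) x - Dn j (PhiT 1 l t) x| ≤ (C + C') * HN l l' t :=
    fun j hj x => (hD l l' h h' e hT t ht j hj x).2.trans
      (mul_le_mul_of_nonneg_right (by linarith) (HN_nn l l' ht))
  refine ⟨Dn_bd (PhiT_prof one_pos l t) k, Dn_bd (PhiT_prof one_pos l' t) k, b k (by omega), ?_, ?_,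
    b' k (by omega), ?_, ?_, d k (by omega), ?_, ?_⟩ <;> simp only [← Dn_succ]
  · exact b _ (by omega)
  · exact b _ (by omega)
  · exact b' _ (by omega)
  · exact b' _ (by omega)
  · exact d _ (by omega)
  · exact d _ (by omega)

/-- **expectations of close functions** -/
theorem cl_E (T : ℝ) : ∃ C : ℝ, 1 ≤ C ∧ ∀ l l', Adm 1 l → Adm 1 l' → TT l' = TT l → TT l ≤ T →
    ∀ t ∈ Icc 0 (TT l), ∀ (A D : ℝ) (f g : ℝ → ℝ), Cl A D f g →
      |EX 1 l' t g 0 - EX 1 l t f 0| ≤ |g 0 - f 0| + 2 * (A * D) * t + C * A * HL l l' t := by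
  obtain ⟨C, hC, H⟩ := law_H T
  refine ⟨C, hC, fun l l' h h' e hT t ht A D f g c => ?_⟩
  have a := (H l l' h h' e hT t ht g g 0 A c.bg c.bg (fun x => by simp) c.g1 c.g2).2
  have e1 : deriv (fun x => g x - f x) = fun x => deriv g x - deriv f x :=
    funext fun x => ((c.bg.hasDerivAt x).fun_sub (c.bf.hasDerivAt x)).deriv
  have b := EX_self (c.bg.sub c.bf) (La := A * D) (fun x => by rw [e1]; exact c.d1 x)
    (fun x => by
      rw [e1, ((c.bg.deriv.hasDerivAt x).fun_sub (c.bf.deriv.hasDerivAt x)).deriv]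
      exact c.d2 x) h t ht.1 0
  obtain ⟨K, hK⟩ := c.bf.bc
  obtain ⟨K', hK'⟩ := (c.bg.sub c.bf).bc
  have e2 := EX_add one_pos l t hK hK' 0
  simp only [add_sub_cancel] at e2
  have e3 : EX 1 l' t g 0 - EX 1 l t f 0 = (EX 1 l' t g 0 - EX 1 l t g 0) +
      (EX 1 l t (fun x => g x - f x) 0 - (g 0 - f 0)) + (g 0 - f 0) := by
    have e4 : EX 1 l t g 0 = EX 1 l t (fun y => g y) 0 := rfl
    rw [e4, e2]; ring
  rw [e3]
  refine (abs_add_three _ _ _).trans ?_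
  linarith

/-- **(3)**: monomials of degree two and three in the derivatives -/
theorem mono_H (T : ℝ) (K : ℕ) : ∃ C : ℝ, 1 ≤ C ∧ ∀ l l', Adm 1 l → Adm 1 l' → TT l' = TT l →
    TT l ≤ T → ∀ t ∈ Icc 0 (TT l), ∀ (f g : ℝ → ℝ),
      ((∃ a ≤ K, f = Dn a (PhiT 1 l t) ∧ g = Dn a (PhiT 1 l' t)) ∨
       (∃ a ≤ K, ∃ b ≤ K, (∀ x, f x = Dn a (PhiT 1 l t) x * Dn b (PhiT 1 l t) x) ∧
          ∀ x, g x = Dn a (PhiT 1 l' t) x * Dn b (PhiT 1 l' t) x) ∨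
       (∃ a ≤ K, ∃ b ≤ K, ∃ c ≤ K,
          (∀ x, f x = Dn a (PhiT 1 l t) x * (Dn b (PhiT 1 l t) x * Dn c (PhiT 1 l t) x)) ∧
          ∀ x, g x = Dn a (PhiT 1 l' t) x * (Dn b (PhiT 1 l' t) x * Dn c (PhiT 1 l' t) x))) →
      |EX 1 l' t g 0 - EX 1 l t f 0| ≤ |g 0 - f 0| + C * HL l l' t ∧
      |g 0 - f 0| ≤ C * HN l l' t ∧
      |EX 1 l' t g 0 - EX 1 l t f 0| ≤ C * (|Jf l l' (TT l) t| + IJ l l' 0 (TT l)) := by
  obtain ⟨A, hA, hc⟩ := cl_Dn T K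
  obtain ⟨C, hC, hE⟩ := cl_E T
  set B := A + 8 * (A * A) + 8 * (A * (8 * (A * A))) with hB
  have hA0 : 0 ≤ A := by linarith
  have n1 : 0 ≤ 8 * (A * A) := by positivity
  have n2 : 0 ≤ 8 * (A * (8 * (A * A))) := by positivity
  have hB1 : 1 ≤ B := by linarith
  have nB : 0 ≤ (2 + C) * B := by positivity
  have nT : 0 ≤ (2 + C) * B * |T| := by positivity
  refine ⟨B + (2 + C) * B + (2 + C) * B * |T|, by linarith, fun l l' h h' e hT t ht f g hfg => ?_⟩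
  have key : ∃ A', A' ≤ B ∧ Cl A' (HN l l' t) f g := by
    have c := hc l l' h h' e hT t ht
    rcases hfg with ⟨a, ha, rfl, rfl⟩ | ⟨a, ha, b, hb, e1, e2⟩ | ⟨a, ha, b, hb, d, hd, e1, e2⟩
    · exact ⟨A, by linarith, c a ha⟩
    · exact ⟨_, by linarith, ((c a ha).mul (c b hb)).congr e1 e2⟩
    · exact ⟨_, by linarith, ((c a ha).mul ((c b hb).mul (c d hd))).congr e1 e2⟩
  obtain ⟨A', hA', c⟩ := key
  have a := hE l l' h h' e hT t ht A' _ f g c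
  have m0 := HN_nn l l' ht
  have m1 := HL_nn l l' ht
  have m2 := HN_le h h' e ht
  have m3 := HL_le h h' e (hT.trans (le_abs_self T)) ht
  have m4 : HN l l' t * t ≤ HL l l' t := by
    have := mul_le_mul_of_nonneg_right m2 ht.1
    have := IJ_nn l l' ht.1
    unfold HL; linarith
  have p1 : A' * (HN l l' t * t) ≤ B * HL l l' t :=
    mul_le_mul hA' m4 (mul_nonneg m0 ht.1) (by linarith)
  have p2 : C * A' * HL l l' t ≤ C * B * HL l l' t :=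
    mul_le_mul_of_nonneg_right (mul_le_mul_of_nonneg_left hA' (by linarith)) m1
  have q1 : |EX 1 l' t g 0 - EX 1 l t f 0| ≤ |g 0 - f 0| + (2 + C) * B * HL l l' t := by linarith
  have q2 : |g 0 - f 0| ≤ B * HN l l' t := (c.d0 0).trans (mul_le_mul_of_nonneg_right hA' m0)
  refine ⟨q1.trans (add_le_add le_rfl (mul_le_mul_of_nonneg_right (by linarith) m1)),
    q2.trans (mul_le_mul_of_nonneg_right (by linarith) m0), ?_⟩
  have r1 := mul_le_mul_of_nonneg_left m2 (show 0 ≤ B by linarith)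
  have r2 := mul_le_mul_of_nonneg_left m3 nB
  linarith

/-- **(3)** in the names of `PrDef_28`; `H = |J t| + ∫_0^T |J|`,
`HL = ∫_0^t |J| + t (|J t| + ∫_0^T |J|)` -/
theorem fun_H (T : ℝ) : ∃ C : ℝ, 1 ≤ C ∧ ∀ l l', Adm 1 l → Adm 1 l' → TT l' = TT l → TT l ≤ T →
    ∀ t ∈ Icc 0 (TT l), ∀ H, H = |Jf l l' (TT l) t| + IJ l l' 0 (TT l) →
      (|Pr.Gam l' t - Pr.Gam l t| ≤ C * H ∧ |Pr.GG l' t - Pr.GG l t| ≤ C * H ∧
        |Pr.AA l' t - Pr.AA l t| ≤ C * H ∧ |Pr.NN l' t - Pr.NN l t| ≤ C * H ∧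
        |Pr.N4 l' t - Pr.N4 l t| ≤ C * H ∧ |Pr.BB l' t - Pr.BB l t| ≤ C * H) ∧
      (|Pr.Gam l' t - Pr.Gam l t| ≤ C * HL l l' t ∧ |Pr.NN l' t - Pr.NN l t| ≤ C * HL l l' t ∧
        |Pr.BB l' t - Pr.BB l t| ≤ C * HL l l' t) ∧
      |Pr.chi l' - Pr.chi l| ≤ C * HN l l' 0 ∧ |Pr.k4 l' - Pr.k4 l| ≤ C * HN l l' 0 := by
  obtain ⟨C, hC, H⟩ := mono_H T 3
  refine ⟨C, hC, fun l l' h h' e hT t ht H' eH => ?_⟩
  subst eH
  have G := H l l' h h' e hT t ht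
  have z0 : ∀ {l : List (ℝ × ℝ)}, Adm 1 l → Dn 0 (PhiT 1 l t) 0 = 0 := fun {l} h => by
    rw [Lip62.PhiT_eq_rest]; exact Ode3.D0_zero (Lip62.adm_rest h t ht.1).1
  have z2 : ∀ {l : List (ℝ × ℝ)}, Adm 1 l → Dn 2 (PhiT 1 l t) 0 = 0 := fun {l} h => by
    rw [Lip62.PhiT_eq_rest]; exact Ode3.D2_zero (Lip62.adm_rest h t ht.1).1
  have sq : ∀ a ≤ 3, _ := fun a ha => G (fun x => Dn a (PhiT 1 l t) x ^ 2)
    (fun x => Dn a (PhiT 1 l' t) x ^ 2)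
    (Or.inr (Or.inl ⟨a, ha, a, ha, fun x => sq _, fun x => sq _⟩))
  have g0 := sq 0 (by omega)
  have g1 := sq 1 (by omega)
  have g2 := sq 2 (by omega)
  have g3 := sq 3 le_rfl
  have ga := G (fun x => Dn 1 (PhiT 1 l t) x ^ 3) (fun x => Dn 1 (PhiT 1 l' t) x ^ 3)
    (Or.inr (Or.inr ⟨1, by omega, 1, by omega, 1, by omega, fun x => by ring, fun x => by ring⟩))
  have gb := G (fun x => Dn 1 (PhiT 1 l t) x * Dn 2 (PhiT 1 l t) x ^ 2)
    (fun x => Dn 1 (PhiT 1 l' t) x * Dn 2 (PhiT 1 l' t) x ^ 2)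
    (Or.inr (Or.inr ⟨1, by omega, 2, by omega, 2, by omega, fun x => by ring, fun x => by ring⟩))
  have t0 : (0 : ℝ) ∈ Icc 0 (TT l) := ⟨le_rfl, ht.1.trans ht.2⟩
  have c1 := (H l l' h h' e hT 0 t0 _ _ (Or.inl ⟨1, by omega, rfl, rfl⟩)).2.1
  have c3 := (H l l' h h' e hT 0 t0 _ _ (Or.inl ⟨3, le_rfl, rfl, rfl⟩)).2.1
  refine ⟨⟨g0.2.2, g1.2.2, ga.2.2, g2.2.2, g3.2.2, gb.2.2⟩, ⟨?_, ?_, ?_⟩, c1, c3⟩
  · have := g0.1
    simp only [z0 h, z0 h', sub_self, abs_zero, zero_add] at this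
    exact this
  · have := g2.1
    simp only [z2 h, z2 h', sub_self, abs_zero, zero_add] at this
    exact this
  · have := gb.1
    simp only [z2 h, z2 h', ne_eq, OfNat.ofNat_ne_zero, not_false_eq_true, zero_pow, mul_zero,
      sub_self, abs_zero, zero_add] at this
    exact this

/-- the input of `Hm_14` -/
theorem hmG : Hm14.HmG := fun T => by
  obtain ⟨C, hC, H⟩ := fun_H T
  exact ⟨C, hC, fun l l' h h' e hT t ht =>
    ⟨(H l l' h.1 h'.1 e hT t ht _ rfl).1.1, (H l l' h.1 h'.1 e hT t ht _ rfl).1.2.1⟩⟩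

/-- the kernel at `0`, unconditionally -/
theorem kerS : Hm14.KerS := Hm14.kerS_of hmG

end

end Crest.Agent.T156.Hm
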