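import Crest.Agent.T156.Gap_27
import Crest.Agent.T156.HmC_32

/-!
Row 156 (helper27): unconditional frame (`Cut8.Fr` on lists, `HLip`), and `J` through the mass term.
-/

set_option autoImplicit false

namespace Crest.Agent.T156.Gap27

open MeasureTheory Set
open Crest.Agent.R164.GC Crest.Agent.R339.B Crest.Agent.R339.Var Crest.Agent.T157.Pf
open Crest.Agent.T156.Cut8

noncomputable section

/-- one constant for all total times `T ≤ T0` -/
theorem hlip (T0 : ℝ) : ∃ C : ℝ, 1 ≤ C ∧ ∀ T, T ≤ T0 → HLip Pr.Gam T C ∧ HLip Pr.GG T C ∧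
    HLip Pr.AA T C ∧ HLip Pr.NN T C ∧ Spl27.GLip T C ∧
    Fr T (Real.exp (-14 * T0) / 4) C (Spl27.okT T) (lvr 1) Pr.Gam Pr.GG := by
  obtain ⟨C, hC, H⟩ := Hm.fun_H T0
  refine ⟨C, hC, fun T hT => ?_⟩
  have k := fun (l l' : List (ℝ × ℝ)) (h : Pr.Ok l) (h' : Pr.Ok l') (e : TT l = T) (e' : TT l' = T)
    (t : ℝ) (ht : t ∈ Icc 0 T) => (H l l' h.1 h'.1 (e'.trans e.symm) (e ▸ hT) t (e ▸ ht)
      (|Sc48.Jf l l' T t| + ∫ s in (0 : ℝ)..T, |Sc48.Jf l l' T s|) (by subst e; rfl)).1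
  have g : Spl27.GLip T C := fun l l' h h' e e' t ht => (k l l' h h' e e' t ht).2.1
  exact ⟨fun l l' h h' e e' t ht => (k l l' h h' e e' t ht).1, g,
    fun l l' h h' e e' t ht => (k l l' h h' e e' t ht).2.2.1,
    fun l l' h h' e e' t ht => (k l l' h h' e e' t ht).2.2.2.1, g,
    Spl27.fr_list hT (by linarith) g⟩

variable {T : ℝ} {d J : ℝ → ℝ}

/-- Cauchy–Schwarz on an interval -/
theorem sq_int_le (ld : LB T d) {a b : ℝ} (ha : 0 ≤ a) (hab : a ≤ b) (hb : b ≤ T) :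
    (∫ t in a..b, |d t|) ^ 2 ≤ (b - a) * ∫ t in a..b, d t ^ 2 := by
  have ma : a ∈ Icc 0 T := ⟨ha, hab.trans hb⟩
  have mb : b ∈ Icc 0 T := ⟨ha.trans hab, hb⟩
  rcases hab.eq_or_lt with rfl | h
  · simp
  set I := ∫ t in a..b, |d t|
  obtain ⟨μ, hμ⟩ : ∃ μ, μ = I / (b - a) := ⟨_, rfl⟩
  have e : I = μ * (b - a) := by rw [hμ]; field_simp [sub_ne_zero.2 h.ne']
  have := int_mono ((LB.const (2 * μ)).mul ld.abs) (ld.sq.add (LB.const (μ ^ 2))) ha hab hb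
    fun t _ _ => by nlinarith [sq_nonneg (|d t| - μ), sq_abs (d t)]
  rw [intervalIntegral.integral_const_mul, intervalIntegral.integral_add (ld.sq.ii ma mb)
    ((LB.const _).ii ma mb), intervalIntegral.integral_const, smul_eq_mul] at this
  have h2 : μ ^ 2 * (b - a) ≤ ∫ t in a..b, d t ^ 2 := by
    change 2 * μ * I ≤ _ at this
    rw [e] at this
    nlinarith
  rw [e]
  nlinarith [mul_le_mul_of_nonneg_left h2 (sub_nonneg.2 hab)]

/-- **`J` at a point through a window**: `λ J(t)² ≤ 2 ∫ J² + 2 λ² ∫ d²` -/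
theorem J_sq_le (ld : LB T d) (lJ : LB T J) {a b t : ℝ} (ha : 0 ≤ a) (hb : b ≤ T)
    (ht : t ∈ Icc a b) (hJ : ∀ s ∈ Icc a b, ∀ s' ∈ Icc a b, J s - J s' = ∫ r in s..s', d r) :
    (b - a) * J t ^ 2 ≤ 2 * (∫ s in a..b, J s ^ 2) + 2 * (b - a) ^ 2 * ∫ s in a..b, d s ^ 2 := by
  have hab : a ≤ b := ht.1.trans ht.2
  have ma : a ∈ Icc 0 T := ⟨ha, hab.trans hb⟩
  have mb : b ∈ Icc 0 T := ⟨ha.trans hab, hb⟩
  set I := ∫ t in a..b, |d t|
  have o : ∀ s ∈ Icc a b, |J t - J s| ≤ I := fun s hs => by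
    rcases le_total t s with h | h
    · rw [hJ t ht s hs]; exact abs_int_le ld ha ht.1 h hs.2 hb
    · rw [abs_sub_comm, hJ s hs t ht]; exact abs_int_le ld ha hs.1 h ht.2 hb
  have := int_mono (LB.const (J t ^ 2)) (((LB.const 2).mul lJ.sq).add (LB.const (2 * I ^ 2))) ha hab
    hb fun s x y => by
      have := sq_le_sq' (abs_le.1 (o s ⟨x.le, y.le⟩)).1 (abs_le.1 (o s ⟨x.le, y.le⟩)).2
      nlinarith [sq_nonneg (J t - 2 * J s)]
  rw [intervalIntegral.integral_add (((LB.const 2).mul lJ.sq).ii ma mb) ((LB.const _).ii ma mb),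
    intervalIntegral.integral_const_mul, intervalIntegral.integral_const,
    intervalIntegral.integral_const, smul_eq_mul, smul_eq_mul] at this
  have c := mul_le_mul_of_nonneg_left (sq_int_le ld ha hab hb) (sub_nonneg.2 hab)
  nlinarith

/-- with the energy: window of length `λ`, `λ² ≤ m`: `λ J(t)² ≤ 2 (∫ J² + m ∫ d²)` -/
theorem J_sq_mass (ld : LB T d) (lJ : LB T J) {a b t m : ℝ} (ha : 0 ≤ a) (hb : b ≤ T)
    (ht : t ∈ Icc a b) (hJ : ∀ s ∈ Icc a b, ∀ s' ∈ Icc a b, J s - J s' = ∫ r in s..s', d r)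
    (hm : (b - a) ^ 2 ≤ m) :
    (b - a) * J t ^ 2 ≤ 2 * ((∫ s in a..b, J s ^ 2) + m * ∫ s in a..b, d s ^ 2) := by
  have := J_sq_le ld lJ ha hb ht hJ
  have p : 0 ≤ ∫ s in a..b, d s ^ 2 :=
    intervalIntegral.integral_nonneg (ht.1.trans ht.2) fun _ _ => sq_nonneg _
  nlinarith [mul_le_mul_of_nonneg_right hm p]

end

end Crest.Agent.T156.Gap27
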