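import Crest.Agent.T156.ClReg_29

/-!
# Row 156, ALT route: the ceiling of the marks with an extra plateau part `G₁` (helper88)
-/

set_option autoImplicit false

noncomputable section

namespace Crest.Agent.T156.Alt

open Real

/-- envelope of the extra plateau marks between the nodes `k ≤ k'` -/
def Md.env (M : Md) (S : Sc) (k k' : ℕ) : ℝ :=
  1 / √(M.z (k - 1) - M.z (S.J - 1) + S.u0) + 1 / √(1 - M.z (k' - 1))

theorem Md.env_nonneg (M : Md) (S : Sc) (k k' : ℕ) : 0 ≤ M.env S k k' := by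
  unfold Md.env; positivity

/-- ceiling: slope `F` on the sloped part, slope `F` plus `G₁ / √ρ` on the plateau -/
structure CeiG (S : Sc) (M : Md) (G₁ : ℝ) : Prop where
  G0 : 0 ≤ G₁
  up : ∀ k, S.jl + 1 ≤ k → k < S.J → M.H (k + 1) - M.H k ≤ S.C * S.F * S.ms (M.s k) * S.v
  bot : M.H (S.jl + 1) ≤ S.C * S.F * S.ms (M.s S.jl) * M.s S.jl
  pl : ∀ k k', S.J ≤ k → k ≤ k' → k' ≤ S.Jp →
    M.H k' - M.H k ≤ ((k' : ℝ) - k) * (S.C * S.F * S.θ * S.v) + G₁ * M.env S k k'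

theorem CeiG.mono {S : Sc} {M : Md} {G₁ G₂ : ℝ} (h : CeiG S M G₁) (hG : G₁ ≤ G₂) :
    CeiG S M G₂ :=
  ⟨h.G0.trans hG, h.up, h.bot, fun k k' a b c => (h.pl k k' a b c).trans
    (add_le_add le_rfl (mul_le_mul_of_nonneg_right hG (M.env_nonneg S k k')))⟩

theorem Cei.toG {S : Sc} {M : Md} (h : Cei S M) (c : Cl S M) : CeiG S M 0 := by
  refine ⟨le_rfl, fun k a b => h.up k a (b.trans_le c.i3), h.bot, fun k k' a b d => ?_⟩
  rw [zero_mul, add_zero]
  have i2 := c.i2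
  have F0 : 0 ≤ S.C * S.F := mul_nonneg c.C0.le (zero_le_one.trans c.F1)
  exact tel_le b fun j e f => (h.up j (by omega) (f.trans_le d)).trans
    (mul_le_mul_of_nonneg_right (mul_le_mul_of_nonneg_left (c.ms1 _) F0) c.v0.le)

end Crest.Agent.T156.Alt

end
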