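import Crest.Agent.T156.POde_3
import Crest.Agent.T156.StrB_62
import Crest.Agent.T156.PrDef_28

/-!
Row 156 (helper49): leaves L-g ((L0), root zone) and L-d (gap lemmas) of docs/T156_69.md in the
LIST frame.  `Gam, Gp` of `POde_3` are definitionally `Gam, GG` of `PrDef_28`.
-/

set_option autoImplicit false

namespace Crest.Agent.T156.L0

open MeasureTheory Set
open Crest.Agent.R164.GC Crest.Agent.R339.B Crest.Agent.R339.Var Crest.Agent.T157.Pf
open Crest.Agent.T156.Pp Crest.Agent.T156.Pp.Ode3 Crest.Agent.T156.Str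

noncomputable section

variable {l : List (ℝ × ℝ)} {T : ℝ}

theorem ap_of_ok (h : Pr.Ok l) : AP l := ⟨h.1, h.2⟩
theorem Gam_eq (l : List (ℝ × ℝ)) : Pr.Gam l = Gam l := rfl
theorem GG_eq (l : List (ℝ × ℝ)) : Pr.GG l = Gp l := rfl
theorem NN_eq (l : List (ℝ × ℝ)) : Pr.NN l = Nm l := rfl
theorem AA_eq (l : List (ℝ × ℝ)) : Pr.AA l = Am l := rfl

/-! ### lower bounds on `E Φ_xx`, `E Φ_xx²` -/

theorem bfn_one_sub : BFn fun Φ y => 1 - W0 Φ y :=
  ⟨fun _ h => toBC ((BD.const 1).sub ((Dn_bd h 0).pow 2)),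
    fun _ h m _ => (UG.const 1).sub ((Dn_ug h m 0).pow 2)⟩

theorem bfn_c (c : ℝ) : BFn fun _ _ => c := ⟨fun _ _ => ⟨_, BC.const c⟩, fun _ _ _ _ => UG.const c⟩

theorem Et_c (c : ℝ) (l : List (ℝ × ℝ)) (t : ℝ) : Et (fun _ _ => c) l t = c := by
  unfold Et; rw [EX_const one_pos]

theorem Et_one_sub (l : List (ℝ × ℝ)) (t : ℝ) :
    Et (fun Φ y => 1 - W0 Φ y) l t = 1 - Gam l t := by
  rw [Et_lin (bfn_c 1) bfn_W0 1 (-1) (fun Φ y => by ring), Et_c]
  unfold Gam; ring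

theorem Gp_le_sub (h : Adm 1 l) (t : ℝ) : Gp l t ≤ 1 - Gam l t := by
  rw [← Et_one_sub]
  refine Et_mono bfn_W1 bfn_one_sub fun y => ?_
  obtain ⟨m, _, _, hI⟩ := PhiT_inv one_pos l h t
  have a1 := hI.up y
  have a2 := D1_pos h t y
  have a3 := D1_le h t y
  unfold W1 W0
  rw [Dn_one] at a2 a3 ⊢
  rw [Dn_zero]
  nlinarith

theorem one_sub_Gam (h : AP l) {t : ℝ} (ht : t ∈ Icc 0 (TT l)) : Real.exp (-t) ≤ 1 - Gam l t := by
  have := le_of_rder (f := fun r => -((1 - Gam l r) * Real.exp r)) ht.1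
    (((continuousOn_const.sub ((Gam_cont h).mono (Icc_subset_Icc le_rfl ht.2))).mul
      Real.continuous_exp.continuousOn).neg)
    (fun r hr => (((Gam_rder h hr.1 (hr.2.trans_le ht.2)).const_sub 1).mul
      (Real.hasDerivAt_exp r).hasDerivWithinAt).neg)
    (fun r _ => by
      have := mul_le_mul_of_nonneg_right (Gp_le_sub h.adm r) (Real.exp_pos r).le
      linarith)
  simp only [Gam_zero h, Real.exp_zero] at this
  rw [Real.exp_neg, inv_le_iff_one_le_mul₀ (Real.exp_pos t)]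
  linarith

theorem X2_ge (h : AP l) (hT : TT l ≤ T) {t : ℝ} (ht : t ∈ Icc 0 (TT l)) :
    Real.exp (-T) ≤ X2 l t := by
  have e := Et_lin (H := fun Φ y => Real.exp (-(TT l - t)) * (1 - W0 Φ y)) bfn_one_sub bfn_one_sub
    (Real.exp (-(TT l - t))) 0 (fun Φ y => by ring) l t
  have a := Et_mono (l := l) (t := t) (G := fun Φ y => Real.exp (-(TT l - t)) * (1 - W0 Φ y))
    ⟨fun _ h => toBC (((BD.const 1).sub ((Dn_bd h 0).pow 2)).const_mul _),
      fun _ h m _ => ((UG.const 1).sub ((Dn_ug h m 0).pow 2)).const_mul _⟩ (bfn_Dn 1) fun y => by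
      have := lo2_PhiT h.adm t ht.2 y
      unfold W0
      rwa [Dn_one, Dn_zero]
  rw [e, Et_one_sub, zero_mul, add_zero] at a
  have b := mul_le_mul_of_nonneg_left (one_sub_Gam h ht) (Real.exp_pos (-(TT l - t))).le
  rw [← Real.exp_add] at b
  exact ((Real.exp_le_exp.2 (by linarith)).trans b).trans a

theorem Et_sq {G : (ℝ → ℝ) → ℝ → ℝ} (hG : BFn G) (l : List (ℝ × ℝ)) (t : ℝ) :
    Et G l t ^ 2 ≤ Et (fun Φ y => G Φ y ^ 2) l t := by
  obtain ⟨K, hK⟩ := Et_bc hG l t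
  exact EX_sq one_pos l t hK 0

/-- `E Φ_xx² ≥ e^{-2T}` -/
theorem Gp_ge (h : AP l) (hT : TT l ≤ T) {t : ℝ} (ht : t ∈ Icc 0 (TT l)) :
    Real.exp (-(2 * T)) ≤ Gp l t := by
  have a := pow_le_pow_left₀ (Real.exp_pos _).le (X2_ge h hT ht) 2
  rw [sq (Real.exp _), ← Real.exp_add, show -T + -T = -(2 * T) by ring] at a
  exact a.trans (Et_sq (bfn_Dn 1) l t)

theorem A4_ge (h : AP l) (hT : TT l ≤ T) {t : ℝ} (ht : t ∈ Icc 0 (TT l)) :
    Real.exp (-(4 * T)) ≤ A4 l t := by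
  have a := pow_le_pow_left₀ (Real.exp_pos _).le (Gp_ge h hT ht) 2
  rw [sq (Real.exp _), ← Real.exp_add, show -(2 * T) + -(2 * T) = -(4 * T) by ring] at a
  refine a.trans ((Et_sq bfn_W1 l t).trans (le_of_eq ?_))
  unfold A4
  congr 1
  funext Φ y
  unfold W1 Q4
  ring

/-! ### the fourth moment of `Φ_x` and (H3) -/

def R4 (Φ : ℝ → ℝ) (y : ℝ) : ℝ := W0 Φ y ^ 2
def R2 (Φ : ℝ → ℝ) (y : ℝ) : ℝ := W0 Φ y * W1 Φ y

theorem bfn_R4 : BFn R4 :=
  ⟨fun _ h => toBC (((Dn_bd h 0).pow 2).pow 2), fun _ h m _ => ((Dn_ug h m 0).pow 2).pow 2⟩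
theorem bfn_R2c (c : ℝ) : BFn fun Φ y => c * R2 Φ y :=
  ⟨fun _ h => toBC ((((Dn_bd h 0).pow 2).mul ((Dn_bd h 1).pow 2)).const_mul c),
    fun _ h m _ => (((Dn_ug h m 0).pow 2).mul ((Dn_ug h m 1).pow 2)).const_mul c⟩
theorem bfn_R2 : BFn R2 :=
  ⟨fun _ h => toBC (((Dn_bd h 0).pow 2).mul ((Dn_bd h 1).pow 2)),
    fun _ h m _ => ((Dn_ug h m 0).pow 2).mul ((Dn_ug h m 1).pow 2)⟩

theorem Et_R2c (c : ℝ) (l : List (ℝ × ℝ)) (t : ℝ) :
    Et (fun Φ y => c * R2 Φ y) l t = c * Et R2 l t := by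
  rw [Et_lin bfn_R2 bfn_R2 c 0 (fun Φ y => by ring)]; ring

/-- `E Φ_x⁴` -/
def M4 : List (ℝ × ℝ) → ℝ → ℝ := Et R4

theorem M4_cont (h : AP l) : ContinuousOn (M4 l) (Icc 0 (TT l)) := Et_cont bfn_R4 h

theorem M4_rder (h : AP l) {t : ℝ} (h0 : 0 ≤ t) (h1 : t < TT l) :
    HasDerivWithinAt (M4 l) (6 * Et R2 l t) (Ici t) t := by
  rw [← Et_R2c]
  exact Et_rder (G' := fun _ Φ y => 6 * R2 Φ y) bfn_R4 (fun _ => bfn_R2c 6) (fun Φ hΦ m _ => ⟨_,
    (((tb_Dn hΦ m 0).mul (tb_Dn hΦ m 0)).mul ((tb_Dn hΦ m 0).mul (tb_Dn hΦ m 0))).congr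
      (fun v x => by unfold R4 W0; ring)
      (fun v x => by
        unfold R2 W0 W1
        simp only [Finset.range_zero, Finset.sum_empty]
        ring) (fun _ _ => rfl)⟩) h h0 h1

theorem M4_zero (h : AP l) : M4 l 0 = 0 := by
  unfold M4; rw [Et_zero _ h.nn, R4, W0, D0_zero h.adm]; ring

theorem Gam_sq_le (l : List (ℝ × ℝ)) (t : ℝ) : Gam l t ^ 2 ≤ M4 l t := Et_sq bfn_W0 l t

theorem R2_nonneg (l : List (ℝ × ℝ)) (t : ℝ) : 0 ≤ Et R2 l t :=
  Et_nonneg bfn_R2 fun _ => mul_nonneg (sq_nonneg _) (sq_nonneg _)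

theorem R2_le (h : Adm 1 l) (t : ℝ) : Et R2 l t ≤ Gam l t :=
  Et_mono bfn_R2 bfn_W0 fun y => mul_le_of_le_one_right (sq_nonneg _)
    (pow_le_one₀ (D1_pos h t y).le (D1_le h t y))

theorem M4_le (h : AP l) {t : ℝ} (ht : t ∈ Icc 0 (TT l)) : M4 l t ≤ 3 * t ^ 2 := by
  have := le_of_rder (f := fun r => M4 l r - 3 * r ^ 2) ht.1
    (((M4_cont h).mono (Icc_subset_Icc le_rfl ht.2)).sub (by fun_prop))
    (fun r hr => (M4_rder h hr.1 (hr.2.trans_le ht.2)).sub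
      (((hasDerivAt_pow 2 r).const_mul 3).hasDerivWithinAt))
    (fun r hr => by
      have := (R2_le h.adm r).trans (Gam_le h ⟨hr.1, hr.2.le.trans ht.2⟩)
      norm_num
      linarith)
  simp only [M4_zero h] at this
  linarith

theorem M4_mono (h : AP l) {s t : ℝ} (hs : 0 ≤ s) (hst : s ≤ t) (ht : t ≤ TT l) :
    M4 l s ≤ M4 l t := by
  have := le_of_rder (f := fun r => -M4 l r) hst ((M4_cont h).mono (Icc_subset_Icc hs ht)).neg
    (fun r hr => (M4_rder h (hs.trans hr.1) (hr.2.trans_le ht)).neg)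
    (fun r _ => by linarith [R2_nonneg l r])
  linarith

/-- `Φ_xxx² ≥ 4 e^{-6T} Φ_x² Φ_xx²` -/
theorem D2_sq_ge (h : Adm 1 l) (hT : TT l ≤ T) {t : ℝ} (ht : t ∈ Icc 0 (TT l)) (x : ℝ) :
    4 * Real.exp (-(6 * T)) * R2 (PhiT 1 l t) x ≤ W2 (PhiT 1 l t) x := by
  obtain ⟨m, _, _, hI⟩ := PhiT_inv one_pos l h t
  unfold R2 W0 W1 W2
  rw [Dn_zero, Dn_one, Dn_two]
  set Φ := PhiT 1 l t
  have key : ∀ y, 0 ≤ y → 4 * Real.exp (-(6 * T)) * (deriv Φ y ^ 2 * deriv (deriv Φ) y ^ 2) ≤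
      deriv (deriv (deriv Φ)) y ^ 2 := by
    intro y hy
    have h1 := hop_PhiT h t ht.2 y hy
    have h0 : 0 ≤ deriv Φ y * deriv (deriv Φ) y := mul_nonneg (hI.nonneg hy) (u2_pos hI y).le
    have h2 : Real.exp (-(3 * T)) ≤ Real.exp (-(3 * (TT l - t))) :=
      Real.exp_le_exp.2 (by linarith [ht.1])
    have h3 : 2 * Real.exp (-(3 * T)) * (deriv Φ y * deriv (deriv Φ) y) ≤
        -deriv (deriv (deriv Φ)) y :=
      (mul_le_mul_of_nonneg_right (by linarith) h0).trans h1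
    have h4 := pow_le_pow_left₀ (by positivity) h3 2
    have h5 : Real.exp (-(6 * T)) = Real.exp (-(3 * T)) ^ 2 := by
      rw [sq (Real.exp _), ← Real.exp_add]
      congr 1
      ring
    rw [h5]
    nlinarith
  rcases le_total 0 x with hx | hx
  · exact key x hx
  · have := key (-x) (by linarith)
    rwa [hI.odd x, u2_even hI x, u3_odd hI x, neg_sq, neg_sq] at this

/-- `κ₃ = (2/3) e^{-6T}` -/
def k3 (T : ℝ) : ℝ := 2 / 3 * Real.exp (-(6 * T))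

theorem k3_pos (T : ℝ) : 0 < k3 T := by unfold k3; positivity

theorem Nm_ge (h : AP l) (hT : TT l ≤ T) {t : ℝ} (ht : t ∈ Icc 0 (TT l)) :
    k3 T * (6 * Et R2 l t) ≤ Nm l t := by
  have := Et_mono (l := l) (t := t) (bfn_R2c (4 * Real.exp (-(6 * T)))) bfn_W2
    (D2_sq_ge h.adm hT ht)
  rw [Et_R2c] at this
  unfold k3 Nm
  linarith

/-- **(H3)** from any base point -/
theorem h3 (h : AP l) (hT : TT l ≤ T) {r s Z : ℝ} (hr : 0 ≤ r) (hrs : r ≤ s) (hs : s ≤ TT l)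
    (hZ : ∀ u ∈ Ico r s, lvr 1 l u ≤ Z) :
    k3 T * (M4 l s - M4 l r) - (Gp l s - Gp l r) ≤ 2 * Z * (s - r) := by
  have := le_of_rder (f := fun u => k3 T * M4 l u - Gp l u - 2 * Z * u) hrs
    (((continuousOn_const.mul ((M4_cont h).mono (Icc_subset_Icc hr hs))).sub
      ((Gp_cont h).mono (Icc_subset_Icc hr hs))).sub (by fun_prop))
    (fun u hu => (((M4_rder h (hr.trans hu.1) (hu.2.trans_le hs)).const_mul (k3 T)).sub
      (Gp_rder h (hr.trans hu.1) (hu.2.trans_le hs))).sub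
      ((hasDerivWithinAt_id u _).const_mul (2 * Z)))
    (fun u hu => by
      have a1 := Nm_ge h hT ⟨hr.trans hu.1, hu.2.le.trans hs⟩
      have a2 : lvr 1 l u * Am l u ≤ Z :=
        (mul_le_of_le_one_right (lvr_pos h.adm u).le (Am_le_one h.adm u)).trans (hZ u hu)
      linarith)
  linarith

/-- **(H3) averaged over `[0,s]`** -/
theorem h3av (h : AP l) (hT : TT l ≤ T) {s u Z : ℝ} (hu : 0 ≤ u) (hus : u ≤ s) (hs : s ≤ TT l)
    (hZ : ∀ r ∈ Ico 0 s, lvr 1 l r ≤ Z) :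
    k3 T * (u * Gam l s ^ 2 - u ^ 3) ≤ Z * s ^ 2 + s * Gp l s - Gam l s := by
  have hk := k3_pos T
  have H : ∀ r ∈ Ico 0 s, k3 T * (M4 l s - M4 l r) - (Gp l s - Gp l r) ≤ 2 * Z * (s - r) :=
    fun r hr => h3 h hT hr.1 hr.2.le hs fun v hv => hZ v ⟨hr.1.trans hv.1, hv.2⟩
  have dp : ∀ r, HasDerivAt (fun r => Gp l s * r + Z * (2 * s * r - r ^ 2))
      (Gp l s + Z * (2 * s - 2 * r)) r := fun r => by
    have := ((hasDerivAt_id' r).const_mul (Gp l s)).add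
      ((((hasDerivAt_id' r).const_mul (2 * s)).sub (hasDerivAt_pow 2 r)).const_mul Z)
    exact this.congr_deriv (by norm_num)
  have dq : ∀ r, HasDerivAt (fun r => k3 T * (M4 l s * r - r ^ 3))
      (k3 T * (M4 l s - 3 * r ^ 2)) r := fun r => by
    have := ((((hasDerivAt_id' r).const_mul (M4 l s)).sub (hasDerivAt_pow 3 r)).const_mul (k3 T))
    exact this.congr_deriv (by norm_num)
  have a1 := le_of_rder (f := fun r => Gam l r - (Gp l s * r + Z * (2 * s * r - r ^ 2)) +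
      k3 T * (M4 l s * r - r ^ 3)) hu
    ((((Gam_cont h).mono (Icc_subset_Icc le_rfl (hus.trans hs))).sub (by fun_prop)).add
      (by fun_prop))
    (fun r hr => ((Gam_rder h hr.1 (hr.2.trans_le (hus.trans hs))).sub
      (dp r).hasDerivWithinAt).add (dq r).hasDerivWithinAt)
    (fun r hr => by
      have b1 := H r ⟨hr.1, hr.2.trans_le hus⟩
      have b2 := mul_le_mul_of_nonneg_left
        (M4_le h ⟨hr.1, hr.2.le.trans (hus.trans hs)⟩) hk.le
      nlinarith)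
  have a2 := le_of_rder (f := fun r => Gam l r - (Gp l s * r + Z * (2 * s * r - r ^ 2))) hus
    (((Gam_cont h).mono (Icc_subset_Icc hu hs)).sub (by fun_prop))
    (fun r hr => (Gam_rder h (hu.trans hr.1) (hr.2.trans_le hs)).sub (dp r).hasDerivWithinAt)
    (fun r hr => by
      have b1 := H r ⟨hu.trans hr.1, hr.2⟩
      have b2 := mul_nonneg hk.le (sub_nonneg.2 (M4_mono h (hu.trans hr.1) hr.2.le hs))
      nlinarith)
  simp only [Gam_zero h] at a1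
  have a3 := mul_le_mul_of_nonneg_left (mul_le_mul_of_nonneg_left (Gam_sq_le l s) hu) hk.le
  nlinarith

/-- the constant of (L0) -/
def c0 (T b : ℝ) : ℝ := 3 * k3 T / (64 * b ^ 3)

theorem c0_pos (T : ℝ) {b : ℝ} (hb : 0 < b) : 0 < c0 T b := by
  have := k3_pos T
  unfold c0; positivity

/-- **(L0), cubic form**: one node with one-sided Plefka `b G ≤ 1 + g` and `b Γ ≥ s - η` -/
theorem l0_cubic (h : AP l) (hT : TT l ≤ T) {b s g η Z : ℝ} (hb : 1 / 4 ≤ b) (h0 : 0 ≤ s)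
    (hs : s ≤ TT l) (hZ : ∀ r ∈ Ico 0 s, lvr 1 l r ≤ Z) (hg : b * Gp l s ≤ 1 + g)
    (hη : s - η ≤ b * Gam l s) (h2 : 2 * η ≤ s) :
    b * c0 T b * s ^ 3 ≤ b * Z * s ^ 2 + g * s + η := by
  have hb0 : 0 < b := by linarith
  have hk := k3_pos T
  have a := h3av h hT (u := s / (4 * b)) (by positivity)
    (div_le_self h0 (by linarith)) hs hZ
  have g1 : s / (2 * b) ≤ Gam l s := by
    rw [div_le_iff₀ (by positivity)]
    linarith
  have g2 := pow_le_pow_left₀ (by positivity) g1 2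
  have g3 := mul_le_mul_of_nonneg_left g2 (by positivity : 0 ≤ s / (4 * b))
  have e : c0 T b * s ^ 3 = k3 T * (s / (4 * b) * (s / (2 * b)) ^ 2 - (s / (4 * b)) ^ 3) := by
    unfold c0
    field_simp
    ring
  have g4 : c0 T b * s ^ 3 ≤ Z * s ^ 2 + s * Gp l s - Gam l s := by
    rw [e]
    exact (mul_le_mul_of_nonneg_left (by linarith) hk.le).trans a
  have g5 := mul_le_mul_of_nonneg_left g4 hb0.le
  have g6 := mul_le_mul_of_nonneg_left hg h0
  nlinarith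

/-- a cubic inequality -/
theorem cubic {c A s lam : ℝ} (hc : 0 < c) (hA : 1 ≤ A) (hl : 0 ≤ lam) (hc1 : c ≤ 1)
    (H : c * s ^ 3 ≤ A * (lam * s ^ 2 + lam ^ 2 * s + lam ^ 3)) : s ≤ 3 * A / c * lam := by
  by_contra hn
  have hn := not_le.1 hn
  have h1 : 1 ≤ 3 * A / c := by
    rw [le_div_iff₀ hc]; linarith
  have h2 : lam ≤ s := (le_mul_of_one_le_left hl h1).trans hn.le
  have h3 : 3 * A * lam < c * s := by
    have := mul_lt_mul_of_pos_left hn hc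
    rwa [← mul_assoc, mul_div_cancel₀ _ hc.ne'] at this
  have s0 : 0 < s := (by positivity : 0 ≤ 3 * A / c * lam).trans_lt hn
  have a1 : lam ^ 2 * s ≤ lam * s ^ 2 := by nlinarith [mul_nonneg hl s0.le]
  have a2 : lam ^ 3 ≤ lam * s ^ 2 := by
    nlinarith [mul_nonneg hl hl, mul_nonneg (mul_nonneg hl hl) (sub_nonneg.2 h2)]
  have a3 := mul_lt_mul_of_pos_right h3 (by positivity : 0 < s ^ 2)
  nlinarith

/-- **(L0)**: label `≤ λ`, `g ≤ λ²`, `η ≤ λ³` force `s ≤ C λ` -/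
theorem l0 (T b : ℝ) (hb : 1 ≤ b) : ∃ C : ℝ, 1 ≤ C ∧ ∀ l : List (ℝ × ℝ), Pr.Ok l → TT l ≤ T →
    ∀ s lam : ℝ, 0 ≤ s → s ≤ TT l → 0 ≤ lam → lam ≤ 1 → (∀ r ∈ Ico 0 s, lvr 1 l r ≤ lam) →
      b * Pr.GG l s ≤ 1 + lam ^ 2 → s - lam ^ 3 ≤ b * Pr.Gam l s → s ≤ C * lam := by
  set c := min (b * c0 T b) 1 with hc
  have b0 : 0 < b := by linarith
  have c1 : 0 < c := lt_min (mul_pos b0 (c0_pos T b0)) one_pos
  have c2 : c ≤ 1 := min_le_right _ _
  have c3 : 3 ≤ 3 * b / c := by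
    rw [le_div_iff₀ c1]; linarith
  refine ⟨3 * b / c, by linarith, fun l hl hT s lam h0 hs l0 l1 hZ hg hη => ?_⟩
  rcases le_total (2 * lam ^ 3) s with h2 | h2
  · have a := l0_cubic (ap_of_ok hl) hT (by linarith) h0 hs hZ hg hη h2
    refine cubic c1 hb l0 c2 ?_
    have a1 := mul_le_mul_of_nonneg_right (min_le_left (b * c0 T b) 1) (pow_nonneg h0 3)
    have a2 : lam ^ 2 * s + lam ^ 3 ≤ b * (lam ^ 2 * s + lam ^ 3) :=
      le_mul_of_one_le_left (by positivity) hb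
    nlinarith
  · have a1 : lam ^ 3 ≤ lam := pow_le_of_le_one l0 l1 (by norm_num)
    nlinarith

/-! ### root zone and windows -/

/-- `G' = N - 2 ζ A` -/
def Gd (l : List (ℝ × ℝ)) (t : ℝ) : ℝ := Nm l t - 2 * lvr 1 l t * Am l t

theorem Gd_le (h : AP l) {t : ℝ} (ht : t ∈ Icc 0 (TT l)) : Gd l t ≤ 4 * t := by
  have := mul_nonneg (lvr_pos h.adm t).le (Am_nonneg h.adm t)
  unfold Gd
  linarith [Nm_le h ht]

theorem Gd_ge (h : Adm 1 l) (t : ℝ) : -(2 * lvr 1 l t) ≤ Gd l t := by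
  have := mul_le_of_le_one_right (lvr_pos h t).le (Am_le_one h t)
  unfold Gd
  linarith [Nm_nonneg l t]

/-- `|G u - G u'| ≤ (4 s + 2 Z) |u - u'|` on `[0,s]` -/
theorem Gp_lip' (h : AP l) {s Z u u' : ℝ} (hs : s ≤ TT l) (hZ : ∀ r ∈ Ico 0 s, lvr 1 l r ≤ Z)
    (hu : u ∈ Icc 0 s) (hu' : u' ∈ Icc 0 s) : |Gp l u - Gp l u'| ≤ (4 * s + 2 * Z) * |u - u'| :=
  abs_sub_le_of_rder (f' := Gd l) ((Gp_cont h).mono (Icc_subset_Icc le_rfl hs))
    (fun r hr => Gp_rder h hr.1 (hr.2.trans_le hs)) hu' hu fun r hr => by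
      have r0 : 0 ≤ r := (le_min hu'.1 hu.1).trans hr.1
      have r1 : r < s := hr.2.trans_le (max_le hu'.2 hu.2)
      have a1 := Gd_le h ⟨r0, r1.le.trans hs⟩
      have a2 := Gd_ge h.adm r
      have a3 := hZ r ⟨r0, r1⟩
      have a4 := lvr_pos h.adm r
      rw [abs_le]; constructor <;> linarith

/-- window average versus point value -/
theorem window (h : AP l) {s t Z u : ℝ} (h0 : 0 ≤ s) (ht : t ≤ TT l)
    (hZ : ∀ r ∈ Ico 0 t, lvr 1 l r ≤ Z) (hu : u ∈ Icc s t) :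
    |Gam l t - Gam l s - Gp l u * (t - s)| ≤ (4 * t + 2 * Z) * (t - s) ^ 2 := by
  have hst := hu.1.trans hu.2
  rcases hst.eq_or_lt with rfl | hlt
  · simp
  have K0 : 0 ≤ 4 * t + 2 * Z := by
    have := (lvr_pos h.adm s).le.trans (hZ s ⟨h0, hlt⟩)
    linarith
  have := abs_sub_le_of_rder (f := fun r => Gam l r - Gp l u * r) (C := (4 * t + 2 * Z) * (t - s))
    (((Gam_cont h).mono (Icc_subset_Icc h0 ht)).sub (by fun_prop))
    (fun r hr => (Gam_rder h (h0.trans hr.1) (hr.2.trans_le ht)).sub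
      ((hasDerivWithinAt_id r _).const_mul (Gp l u))) ⟨le_rfl, hst⟩ ⟨hst, le_rfl⟩
    (fun r hr => by
      rw [min_eq_left hst, max_eq_right hst] at hr
      rw [mul_one]
      refine (Gp_lip' h ht hZ ⟨h0.trans hr.1, hr.2.le⟩ ⟨h0.trans hu.1, hu.2⟩).trans
        (mul_le_mul_of_nonneg_left ?_ K0)
      rw [abs_le]; constructor <;> linarith [hr.1, hr.2, hu.1, hu.2])
  rw [abs_of_nonneg (sub_nonneg.2 hst)] at this
  calc _ = |Gam l t - Gp l u * t - (Gam l s - Gp l u * s)| := by congr 1; ring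
    _ ≤ _ := this
    _ = _ := by ring

/-- some point of a window realises the average -/
theorem exists_mean (h : AP l) {s t : ℝ} (h0 : 0 ≤ s) (hst : s ≤ t) (ht : t ≤ TT l) :
    ∃ r ∈ Icc s t, Gp l r * (t - s) ≤ Gam l t - Gam l s := by
  obtain ⟨r, hr, hm⟩ := isCompact_Icc.exists_isMinOn (nonempty_Icc.2 hst)
    ((Gp_cont h).mono (Icc_subset_Icc h0 ht))
  refine ⟨r, hr, ?_⟩
  have := le_of_rder (f := fun u => Gp l r * u - Gam l u) hst
    ((by fun_prop : ContinuousOn (fun u => Gp l r * u) _).sub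
      ((Gam_cont h).mono (Icc_subset_Icc h0 ht)))
    (fun u hu => ((hasDerivWithinAt_id u _).const_mul (Gp l r)).sub
      (Gam_rder h (h0.trans hu.1) (hu.2.trans_le ht)))
    (fun u hu => by
      have : Gp l r ≤ Gp l u := hm ⟨hu.1, hu.2.le⟩
      linarith)
  linarith

/-- **root zone, mass**: `s |b G u - 1| ≤ η + b (4 s + 2 Z) s²` on `[0,s]` -/
theorem root_mu (h : AP l) {b s η Z u : ℝ} (hb : 0 ≤ b) (hs : s ≤ TT l)
    (hZ : ∀ r ∈ Ico 0 s, lvr 1 l r ≤ Z) (hη : |b * Gam l s - s| ≤ η) (hu : u ∈ Icc 0 s) :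
    s * |b * Gp l u - 1| ≤ η + b * ((4 * s + 2 * Z) * s ^ 2) := by
  have a := window h le_rfl hs hZ hu
  rw [Gam_zero h, sub_zero, sub_zero] at a
  have s0 := hu.1.trans hu.2
  have a1 := mul_le_mul_of_nonneg_left a hb
  rw [← abs_of_nonneg hb, ← abs_mul, abs_of_nonneg hb] at a1
  rw [← abs_of_nonneg s0, ← abs_mul, abs_of_nonneg s0]
  have a2 := abs_le.1 a1
  have a3 := abs_le.1 hη
  rw [abs_le]; constructor <;> nlinarith

/-- **root zone, residual**: `|b Γ u - u| ≤ η + b (4 s + 2 Z) s²` on `[0,s]` -/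
theorem root_res (h : AP l) {b s η Z u : ℝ} (hb : 0 ≤ b) (hs : s ≤ TT l)
    (hZ : ∀ r ∈ Ico 0 s, lvr 1 l r ≤ Z) (hη : |b * Gam l s - s| ≤ η) (hu : u ∈ Icc 0 s) :
    |b * Gam l u - u| ≤ η + b * ((4 * s + 2 * Z) * s ^ 2) := by
  have s0 := hu.1.trans hu.2
  rcases s0.eq_or_lt with rfl | s1
  · rw [le_antisymm hu.2 hu.1]
    simpa using hη
  set K := η + b * ((4 * s + 2 * Z) * s ^ 2) with hK
  have := abs_sub_le_of_rder (f := fun r => b * Gam l r - r) (C := K / s)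
    ((continuousOn_const.mul ((Gam_cont h).mono (Icc_subset_Icc le_rfl hs))).sub continuousOn_id)
    (fun r hr => ((Gam_rder h hr.1 (hr.2.trans_le hs)).const_mul b).sub (hasDerivWithinAt_id r _))
    ⟨le_rfl, s0⟩ hu (fun r hr => by
      rw [min_eq_left hu.1, max_eq_right hu.1] at hr
      rw [le_div_iff₀ s1, mul_comm]
      exact root_mu h hb hs hZ hη ⟨hr.1, hr.2.le.trans hu.2⟩)
  simp only [Gam_zero h, mul_zero, sub_zero, abs_of_nonneg hu.1] at this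
  have K0 : 0 ≤ K := (mul_nonneg s0 (abs_nonneg _)).trans (root_mu h hb hs hZ hη hu)
  refine this.trans ?_
  rw [div_mul_eq_mul_div, div_le_iff₀ s1]
  exact mul_le_mul_of_nonneg_left hu.2 K0

end

end Crest.Agent.T156.L0
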