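import Crest.Agent.T156.FrL_27
import Crest.Agent.T156.L0_49

/-!
Row 156 (helper27): the residual inside a gap between two good nodes, and its pairing with `dz`.
-/

set_option autoImplicit false

namespace Crest.Agent.T156.Gap27

open MeasureTheory Set
open Crest.Agent.R164.GC Crest.Agent.R339.B Crest.Agent.R339.Var Crest.Agent.T157.Pf
open Crest.Agent.T156.Pp.Ode3 Crest.Agent.T156.L0 Crest.Agent.T156.Cut8

noncomputable section

/-- frame-free: `f = R + φ` small at both ends, `|R''| ≤ κ`, `osc φ ≤ D` -/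
theorem gap_core {R u u' φ : ℝ → ℝ} {p q t κ D η : ℝ} (cR : ContinuousOn R (Icc p q))
    (cu : ContinuousOn u (Icc p q)) (dR : ∀ r ∈ Ico p q, HasDerivWithinAt R (u r) (Ici r) r)
    (du : ∀ r ∈ Ico p q, HasDerivWithinAt u (u' r) (Ici r) r) (hκ0 : 0 ≤ κ)
    (hκ : ∀ r ∈ Ico p q, |u' r| ≤ κ)
    (hD : ∀ s ∈ Icc p q, |φ s - φ p| ≤ D) (hp : |R p + φ p| ≤ η) (hq : |R q + φ q| ≤ η)
    (ht : t ∈ Icc p q) : |R t + φ t| ≤ 3 * η + 2 * D + 2 * κ * (q - p) ^ 2 := by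
  have hpq : p ≤ q := ht.1.trans ht.2
  have mp : p ∈ Icc p q := ⟨le_rfl, hpq⟩
  have a : ∀ r ∈ Icc p q, |u r - u p| ≤ κ * (q - p) := fun r hr => by
    refine (abs_sub_le_of_rder cu du mp hr fun s hs => hκ s ?_).trans ?_
    · rw [min_eq_left hr.1, max_eq_right hr.1] at hs
      exact ⟨hs.1, hs.2.trans_le hr.2⟩
    · rw [abs_of_nonneg (sub_nonneg.2 hr.1)]
      exact mul_le_mul_of_nonneg_left (by linarith [hr.2]) hκ0
  have b : ∀ s ∈ Icc p q, |R s - R p - u p * (s - p)| ≤ κ * (q - p) ^ 2 := fun s hs => by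
    have := abs_sub_le_of_rder (f := fun r => R r - u p * r) (f' := fun r => u r - u p)
      (C := κ * (q - p)) (cR.sub (by fun_prop))
      (fun r hr => by
        have := (dR r hr).sub ((hasDerivWithinAt_id r (Ici r)).const_mul (u p))
        rw [mul_one] at this
        exact this) mp hs
      fun r hr => by
        rw [min_eq_left hs.1, max_eq_right hs.1] at hr
        exact a r ⟨hr.1, hr.2.le.trans hs.2⟩
    rw [abs_of_nonneg (sub_nonneg.2 hs.1)] at this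
    have e : R s - R p - u p * (s - p) = R s - u p * s - (R p - u p * p) := by ring
    rw [e]
    refine this.trans ?_
    rw [sq, ← mul_assoc]
    exact mul_le_mul_of_nonneg_left (by linarith [hs.2]) (mul_nonneg hκ0 (by linarith))
  have b1 := abs_le.1 (b q ⟨hpq, le_rfl⟩)
  have b2 := abs_le.1 (b t ht)
  have d1 := abs_le.1 (hD q ⟨hpq, le_rfl⟩)
  have d2 := abs_le.1 (hD t ht)
  have p1 := abs_le.1 hp
  have q1 := abs_le.1 hq
  have c1 : |u p * (q - p)| ≤ 2 * η + D + κ * (q - p) ^ 2 := by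
    rw [abs_le]; constructor <;> linarith [b1.1, b1.2, d1.1, d1.2, p1.1, p1.2, q1.1, q1.2]
  have c2 : |u p * (t - p)| ≤ |u p * (q - p)| := by
    rw [abs_mul, abs_mul, abs_of_nonneg (sub_nonneg.2 ht.1), abs_of_nonneg (sub_nonneg.2 hpq)]
    exact mul_le_mul_of_nonneg_left (by linarith [ht.2]) (abs_nonneg _)
  have c3 := abs_le.1 (c2.trans c1)
  rw [abs_le]; constructor <;> linarith [b2.1, b2.2, d2.1, d2.2, p1.1, p1.2, c3.1, c3.2]

/-- `H⁻¹` Lipschitz bound for a functional of the profile -/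
def HLip (F : List (ℝ × ℝ) → ℝ → ℝ) (T C : ℝ) : Prop := ∀ l l', Pr.Ok l → Pr.Ok l' → TT l = T →
  TT l' = T → ∀ t ∈ Icc 0 T,
  |F l' t - F l t| ≤ C * (|Sc48.Jf l l' T t| + ∫ s in (0 : ℝ)..T, |Sc48.Jf l l' T s|)

variable {lb lh : List (ℝ × ℝ)} {T C : ℝ}

/-- `|Γ''[zb]| ≤ |Γ''[zh]| + 2 |dz| + 3 C (|J| + ∫ |J|)` -/
theorem Gd_le_ref (hA : HLip Pr.AA T C) (hN : HLip Pr.NN T C) (hb : Pr.Ok lb) (hh : Pr.Ok lh)
    (eb : TT lb = T) (eh : TT lh = T) {t : ℝ} (ht : t ∈ Icc 0 T) :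
    |Gd lb t| ≤ |Gd lh t| + 2 * |lvr 1 lb t - lvr 1 lh t| +
      3 * (C * (|Sc48.Jf lh lb T t| + ∫ s in (0 : ℝ)..T, |Sc48.Jf lh lb T s|)) := by
  have a := hA lh lb hh hb eh eb t ht
  have n := hN lh lb hh hb eh eb t ht
  set K := C * (|Sc48.Jf lh lb T t| + ∫ s in (0 : ℝ)..T, |Sc48.Jf lh lb T s|)
  rw [L0.AA_eq, L0.AA_eq] at a
  rw [L0.NN_eq, L0.NN_eq] at n
  have z0 := Sc48.lvr_pos hh.1 t
  have z1 := (Sc48.lvr_mem hh.1 t).2
  have a0 := Am_nonneg hb.1 t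
  have a1 := Am_le_one hb.1 t
  have e : Gd lb t = Gd lh t + (Nm lb t - Nm lh t) - 2 * ((lvr 1 lb t - lvr 1 lh t) * Am lb t) -
      2 * (lvr 1 lh t * (Am lb t - Am lh t)) := by unfold Gd; ring
  have f1 : |(lvr 1 lb t - lvr 1 lh t) * Am lb t| ≤ |lvr 1 lb t - lvr 1 lh t| := by
    rw [abs_mul, abs_of_nonneg a0]; exact mul_le_of_le_one_right (abs_nonneg _) a1
  have f2 : |lvr 1 lh t * (Am lb t - Am lh t)| ≤ K := by
    rw [abs_mul, abs_of_pos z0]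
    exact (mul_le_of_le_one_left (abs_nonneg _) z1).trans a
  have g0 := abs_le.1 (le_refl |Gd lh t|)
  have g1 := abs_le.1 f1
  have g2 := abs_le.1 f2
  have g3 := abs_le.1 n
  rw [e, abs_le]; constructor <;> linarith [g0.1, g0.2, g1.1, g1.2, g2.1, g2.2, g3.1, g3.2]

theorem Jf_sub (hb : Adm 1 lb) (hh : Adm 1 lh) (s t : ℝ) :
    Sc48.Jf lh lb T s - Sc48.Jf lh lb T t = ∫ r in s..t, (lvr 1 lb r - lvr 1 lh r) := by
  have i : ∀ a b, IntervalIntegrable (fun r => lvr 1 lb r - lvr 1 lh r) volume a b := fun a b =>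
    Sc48.ii_of_bdd ((Sc48.lvr_meas lb).sub (Sc48.lvr_meas lh)) (Sc48.lvr_sub_le hh hb) a b
  unfold Sc48.Jf
  rw [← intervalIntegral.integral_add_adjacent_intervals (i s t) (i t T)]
  ring

/-- the bound on `|Γ''[zb]|` on a whole gap, through the values at one point -/
theorem Gd_gap (hC : 0 ≤ C) (hA : HLip Pr.AA T C) (hN : HLip Pr.NN T C) (hb : Pr.Ok lb)
    (hh : Pr.Ok lh) (eb : TT lb = T) (eh : TT lh = T) {p q Gm Dz jh t s : ℝ} (p0 : 0 ≤ p)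
    (qT : q ≤ T) (hG : q - p ≤ Gm)
    (hz : lvr 1 lb q - lvr 1 lb p + (lvr 1 lh q - lvr 1 lh p) ≤ Dz)
    (hj : ∀ s ∈ Icc p q, |Gd lh s| ≤ jh) (ht : t ∈ Icc p q) (hs : s ∈ Icc p q) :
    |Gd lb s| ≤ jh + (2 + 3 * C * Gm) * (|lvr 1 lb t - lvr 1 lh t| + Dz) +
      3 * C * (|Sc48.Jf lh lb T t| + ∫ s in (0 : ℝ)..T, |Sc48.Jf lh lb T s|) := by
  have mb := Sc48.lvr_mono hb.1
  have mh := Sc48.lvr_mono hh.1
  set d := |lvr 1 lb t - lvr 1 lh t| + Dz with hd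
  have o : ∀ r ∈ Icc p q, |lvr 1 lb r - lvr 1 lh r| ≤ d := fun r hr => by
    have := mb hr.1; have := mb hr.2; have := mh hr.1; have := mh hr.2
    have := mb ht.1; have := mb ht.2; have := mh ht.1; have := mh ht.2
    have g := abs_le.1 (le_refl |lvr 1 lb t - lvr 1 lh t|)
    rw [abs_le]; constructor <;> linarith [g.1, g.2]
  have d0 : 0 ≤ d := (abs_nonneg _).trans (o t ht)
  have j : |Sc48.Jf lh lb T s - Sc48.Jf lh lb T t| ≤ d * Gm := by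
    rw [Jf_sub hb.1 hh.1]
    refine (intervalIntegral.norm_integral_le_of_norm_le_const (C := d)
      (f := fun r => lvr 1 lb r - lvr 1 lh r) fun r hr => o r ?_).trans ?_
    · exact ⟨(le_min hs.1 ht.1).trans hr.1.le, hr.2.trans (max_le hs.2 ht.2)⟩
    · refine mul_le_mul_of_nonneg_left ?_ d0
      rw [abs_le]; constructor <;> linarith [hs.1, hs.2, ht.1, ht.2]
  have j2 : |Sc48.Jf lh lb T s| ≤ |Sc48.Jf lh lb T t| + d * Gm := by
    have := abs_sub_abs_le_abs_sub (Sc48.Jf lh lb T s) (Sc48.Jf lh lb T t)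
    linarith
  have a := Gd_le_ref hA hN hb hh eb eh (t := s) ⟨p0.trans hs.1, hs.2.trans qT⟩
  have := hj s hs
  have := o s hs
  have := mul_le_mul_of_nonneg_left j2 hC
  nlinarith

/-- **the residual inside a gap** `[p, q]`: E1 at both ends with error `η + ω |Γ''|` -/
theorem gap_pt (hC : 0 ≤ C) (hA : HLip Pr.AA T C) (hN : HLip Pr.NN T C) (hb : Pr.Ok lb)
    (hh : Pr.Ok lh) (eb : TT lb = T) (eh : TT lh = T) {φ : ℝ → ℝ} {b p q Gm Dz jh D η ω t : ℝ}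
    (p0 : 0 ≤ p) (qT : q ≤ T) (hG : q - p ≤ Gm) (hω : 0 ≤ ω)
    (hz : lvr 1 lb q - lvr 1 lb p + (lvr 1 lh q - lvr 1 lh p) ≤ Dz)
    (hj : ∀ s ∈ Icc p q, |Gd lh s| ≤ jh) (hD : ∀ s ∈ Icc p q, |φ s - φ p| ≤ D)
    (hp : |Pr.Gam lb p - p / b + φ p| ≤ η + ω * |Gd lb p|)
    (hq : |Pr.Gam lb q - q / b + φ q| ≤ η + ω * |Gd lb q|) (ht : t ∈ Icc p q) :
    |Pr.Gam lb t - t / b + φ t| ≤ 3 * η + 2 * D + (3 * ω + 2 * Gm ^ 2) *
      (jh + (2 + 3 * C * Gm) * (|lvr 1 lb t - lvr 1 lh t| + Dz) +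
        3 * C * (|Sc48.Jf lh lb T t| + ∫ s in (0 : ℝ)..T, |Sc48.Jf lh lb T s|)) := by
  have hpq : p ≤ q := ht.1.trans ht.2
  have k := fun s hs => Gd_gap hC hA hN hb hh eb eh p0 qT hG hz hj ht (s := s) hs
  set κ := jh + (2 + 3 * C * Gm) * (|lvr 1 lb t - lvr 1 lh t| + Dz) +
    3 * C * (|Sc48.Jf lh lb T t| + ∫ s in (0 : ℝ)..T, |Sc48.Jf lh lb T s|)
  have κ0 : 0 ≤ κ := (abs_nonneg _).trans (k t ht)
  have ap := ap_of_ok hb
  have sub : Icc p q ⊆ Icc 0 (TT lb) := Icc_subset_Icc p0 (by rw [eb]; exact qT)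
  have := gap_core (R := fun s => Gam lb s - s / b) (u := fun s => Gp lb s - 1 / b) (u' := Gd lb)
    (φ := φ) (κ := κ) (D := D) (η := η + ω * κ) (((Gam_cont ap).mono sub).sub (by fun_prop))
    (((Gp_cont ap).mono sub).sub continuousOn_const)
    (fun r hr => (Gam_rder ap (p0.trans hr.1) (by rw [eb]; exact hr.2.trans_le qT)).sub
      ((hasDerivWithinAt_id r (Ici r)).div_const b))
    (fun r hr => (Gp_rder ap (p0.trans hr.1) (by rw [eb]; exact hr.2.trans_le qT)).sub_const _)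
    κ0 (fun r hr => k r ⟨hr.1, hr.2.le⟩) hD
    (hp.trans (by linarith [mul_le_mul_of_nonneg_left (k p ⟨le_rfl, hpq⟩) hω]))
    (hq.trans (by linarith [mul_le_mul_of_nonneg_left (k q ⟨hpq, le_rfl⟩) hω])) ht
  refine this.trans ?_
  have s1 : (q - p) ^ 2 ≤ Gm ^ 2 := pow_le_pow_left₀ (by linarith) hG 2
  nlinarith [mul_le_mul_of_nonneg_left s1 κ0]

/-! ### pairing with `dz` -/

theorem y31 {x l : ℝ} (hx : 0 ≤ x) (hl : 0 ≤ l) : l ^ 3 * x ≤ x ^ 4 + l ^ 4 := by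
  rcases le_total x l with h | h
  · nlinarith [mul_le_mul_of_nonneg_left h (pow_nonneg hl 3), pow_nonneg hx 4]
  · nlinarith [mul_le_mul_of_nonneg_right (pow_le_pow_left₀ hl h 3) hx, pow_nonneg hl 4]

/-- pointwise Young, quartic form -/
theorem young4 {r d J ι A0 A1 A2 θ lam : ℝ} (hθ : 0 < θ) (hl : 0 ≤ lam)
    (h : |r| ≤ A0 + A1 * |d| + A2 * (|J| + ι)) (h0 : A0 ≤ θ * lam ^ 3)
    (h1 : A1 + A2 ^ 2 / θ ≤ θ * lam ^ 2) :
    r * d ≤ θ * (2 * d ^ 4 + J ^ 2 + ι ^ 2 + 2 * lam ^ 4) := by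
  have x0 := abs_nonneg d
  set x := |d| with hx
  have e2 : d ^ 2 = x ^ 2 := (sq_abs d).symm
  have e4 : d ^ 4 = x ^ 4 := by rw [show d ^ 4 = (d ^ 2) ^ 2 by ring, e2]; ring
  have eJ : J ^ 2 = |J| ^ 2 := (sq_abs J).symm
  have a : r * d ≤ (A0 + A1 * x + A2 * (|J| + ι)) * x :=
    (le_abs_self _).trans (by rw [abs_mul]; exact mul_le_mul_of_nonneg_right h x0)
  obtain ⟨y, hy⟩ : ∃ y, y = A2 / θ := ⟨_, rfl⟩
  have hA2 : A2 = θ * y := by rw [hy]; field_simp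
  have hq : A2 ^ 2 / θ = θ * y ^ 2 := by rw [hA2]; field_simp
  rw [hq] at h1
  have b1 : A0 * x ≤ θ * (x ^ 4 + lam ^ 4) :=
    (mul_le_mul_of_nonneg_right h0 x0).trans
      (by rw [mul_assoc]; exact mul_le_mul_of_nonneg_left (y31 x0 hl) hθ.le)
  have b2 : (A1 + θ * y ^ 2) * x ^ 2 ≤ θ * (x ^ 4 + lam ^ 4) :=
    (mul_le_mul_of_nonneg_right h1 (sq_nonneg x)).trans
      (by rw [mul_assoc]; exact mul_le_mul_of_nonneg_left (by nlinarith [sq_nonneg (x ^ 2 - lam ^ 2)]) hθ.le)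
  have b3 : y * (|J| + ι) * x ≤ |J| ^ 2 + ι ^ 2 + y ^ 2 * x ^ 2 := by
    nlinarith [sq_nonneg (|J| - y * x / 2), sq_nonneg (ι - y * x / 2), sq_nonneg (y * x)]
  have b4 := mul_le_mul_of_nonneg_left b3 hθ.le
  rw [e4, eJ]
  rw [hA2] at a
  nlinarith

/-- pointwise Young, mass form -/
theorem young2 {r d J ι A0 A1 A2 θ m f : ℝ} (hθ : 0 < θ) (hm : 0 < m) (hA0 : 0 ≤ A0)
    (h : |r| ≤ A0 + A1 * |d| + A2 * (|J| + ι)) (h0 : A0 ^ 2 ≤ θ ^ 2 * m * f)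
    (h1 : A1 + A2 ^ 2 / θ ≤ θ * m) :
    r * d ≤ θ * (2 * m * d ^ 2 + J ^ 2 + ι ^ 2 + f) := by
  have x0 := abs_nonneg d
  set x := |d| with hx
  have e2 : d ^ 2 = x ^ 2 := (sq_abs d).symm
  have eJ : J ^ 2 = |J| ^ 2 := (sq_abs J).symm
  have a : r * d ≤ (A0 + A1 * x + A2 * (|J| + ι)) * x :=
    (le_abs_self _).trans (by rw [abs_mul]; exact mul_le_mul_of_nonneg_right h x0)
  obtain ⟨y, hy⟩ : ∃ y, y = A2 / θ := ⟨_, rfl⟩
  have hA2 : A2 = θ * y := by rw [hy]; field_simp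
  have hq : A2 ^ 2 / θ = θ * y ^ 2 := by rw [hA2]; field_simp
  rw [hq] at h1
  have f0 : 0 ≤ f := by
    by_contra hf
    have := mul_pos (mul_pos (pow_pos hθ 2) hm) (neg_pos.2 (not_le.1 hf))
    nlinarith [sq_nonneg A0]
  have b1 : A0 * x ≤ θ * (m * x ^ 2 + f) := by
    refine abs_le_of_sq_le_sq' ?_ (by positivity) |>.2
    have t1 : (A0 * x) ^ 2 ≤ θ ^ 2 * m * f * x ^ 2 := by
      rw [mul_pow]; exact mul_le_mul_of_nonneg_right h0 (sq_nonneg x)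
    refine t1.trans ?_
    have : m * x ^ 2 * f ≤ (m * x ^ 2 + f) ^ 2 := by
      have : 0 ≤ m * x ^ 2 := by positivity
      nlinarith
    nlinarith [mul_le_mul_of_nonneg_left this (sq_nonneg θ)]
  have b2 : (A1 + θ * y ^ 2) * x ^ 2 ≤ θ * m * x ^ 2 := mul_le_mul_of_nonneg_right h1 (sq_nonneg x)
  have b3 : y * (|J| + ι) * x ≤ |J| ^ 2 + ι ^ 2 + y ^ 2 * x ^ 2 := by
    nlinarith [sq_nonneg (|J| - y * x / 2), sq_nonneg (ι - y * x / 2), sq_nonneg (y * x)]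
  have b4 := mul_le_mul_of_nonneg_left b3 hθ.le
  rw [e2, eJ]
  rw [hA2] at a
  nlinarith

variable {r d J : ℝ → ℝ} {a b ι A0 A1 A2 θ : ℝ}

/-- **zone estimate, quartic form** -/
theorem zone4 {lam : ℝ} (lr : LB T r) (ld : LB T d) (lJ : LB T J) (ha : 0 ≤ a) (hab : a ≤ b)
    (hb : b ≤ T) (hθ : 0 < θ) (hl : 0 ≤ lam)
    (h : ∀ t, a < t → t < b → |r t| ≤ A0 + A1 * |d t| + A2 * (|J t| + ι))
    (h0 : A0 ≤ θ * lam ^ 3) (h1 : A1 + A2 ^ 2 / θ ≤ θ * lam ^ 2) :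
    ∫ t in a..b, r t * d t ≤ θ * (2 * (∫ t in a..b, d t ^ 4) + (∫ t in a..b, J t ^ 2) +
      (b - a) * (ι ^ 2 + 2 * lam ^ 4)) := by
  have ma : a ∈ Icc 0 T := ⟨ha, hab.trans hb⟩
  have mb : b ∈ Icc 0 T := ⟨ha.trans hab, hb⟩
  have l4 : LB T fun t => d t ^ 4 := by simpa [← pow_mul] using ld.sq.sq
  have := int_mono (lr.mul ld) ((((LB.const (2 * θ)).mul l4).add ((LB.const θ).mul lJ.sq)).add
    (LB.const (θ * (ι ^ 2 + 2 * lam ^ 4)))) ha hab hb fun t x y =>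
      (young4 hθ hl (h t x y) h0 h1).trans (le_of_eq (by ring))
  rw [intervalIntegral.integral_add ((((LB.const (2 * θ)).mul l4).add
      ((LB.const θ).mul lJ.sq)).ii ma mb) ((LB.const _).ii ma mb),
    intervalIntegral.integral_add (((LB.const (2 * θ)).mul l4).ii ma mb)
      (((LB.const θ).mul lJ.sq).ii ma mb), intervalIntegral.integral_const_mul,
    intervalIntegral.integral_const_mul, intervalIntegral.integral_const, smul_eq_mul] at this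
  linarith

/-- **zone estimate, mass form** -/
theorem zone2 {m f : ℝ} (lr : LB T r) (ld : LB T d) (lJ : LB T J) (ha : 0 ≤ a) (hab : a ≤ b)
    (hb : b ≤ T) (hθ : 0 < θ) (hm : 0 < m) (hA0 : 0 ≤ A0)
    (h : ∀ t, a < t → t < b → |r t| ≤ A0 + A1 * |d t| + A2 * (|J t| + ι))
    (h0 : A0 ^ 2 ≤ θ ^ 2 * m * f) (h1 : A1 + A2 ^ 2 / θ ≤ θ * m) :
    ∫ t in a..b, r t * d t ≤ θ * (2 * m * (∫ t in a..b, d t ^ 2) + (∫ t in a..b, J t ^ 2) +
      (b - a) * (ι ^ 2 + f)) := by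
  have ma : a ∈ Icc 0 T := ⟨ha, hab.trans hb⟩
  have mb : b ∈ Icc 0 T := ⟨ha.trans hab, hb⟩
  have := int_mono (lr.mul ld) ((((LB.const (2 * θ * m)).mul ld.sq).add
    ((LB.const θ).mul lJ.sq)).add (LB.const (θ * (ι ^ 2 + f)))) ha hab hb fun t x y =>
      (young2 hθ hm hA0 (h t x y) h0 h1).trans (le_of_eq (by ring))
  rw [intervalIntegral.integral_add ((((LB.const (2 * θ * m)).mul ld.sq).add
      ((LB.const θ).mul lJ.sq)).ii ma mb) ((LB.const _).ii ma mb),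
    intervalIntegral.integral_add (((LB.const (2 * θ * m)).mul ld.sq).ii ma mb)
      (((LB.const θ).mul lJ.sq).ii ma mb), intervalIntegral.integral_const_mul,
    intervalIntegral.integral_const_mul, intervalIntegral.integral_const, smul_eq_mul] at this
  linarith

end

end Crest.Agent.T156.Gap27
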