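import Crest.Agent.T156.HmC_32
import Crest.Agent.T156.Gap_27

/-!
Row 156 (helper32): the `H⁻¹` Lipschitz inputs of `FrL_27`, `Gap_27`, `Cut_8`, unconditionally.
-/

set_option autoImplicit false

namespace Crest.Agent.T156.Hm

open Set
open Crest.Agent.R339.B Crest.Agent.R339.Var Crest.Agent.T157.Pf

/-- one constant for all total times `T ≤ T0` -/
theorem hlip (T0 : ℝ) : ∃ C : ℝ, 1 ≤ C ∧ ∀ T ≤ T0, Gap27.HLip Pr.Gam T C ∧ Gap27.HLip Pr.GG T C ∧
    Gap27.HLip Pr.AA T C ∧ Gap27.HLip Pr.NN T C ∧ Gap27.HLip Pr.N4 T C ∧ Gap27.HLip Pr.BB T C ∧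
    Spl27.GLip T C ∧
    Cut8.Fr T (Real.exp (-14 * T0) / 4) C (Spl27.okT T) (lvr 1) Pr.Gam Pr.GG := by
  obtain ⟨C, hC, H⟩ := fun_H T0
  refine ⟨C, hC, fun T hT => ?_⟩
  have K := fun l l' (h : Pr.Ok l) (h' : Pr.Ok l') (e : TT l = T) (e' : TT l' = T) t
    (ht : t ∈ Icc 0 T) => (H l l' h.1 h'.1 (e'.trans e.symm) (e ▸ hT) t (e ▸ ht) _ rfl).1
  have g : Spl27.GLip T C := fun l l' h h' e e' t ht => by
    have := (K l l' h h' e e' t ht).2.1
    subst e; exact this
  refine ⟨fun l l' h h' e e' t ht => ?_, g, fun l l' h h' e e' t ht => ?_,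
    fun l l' h h' e e' t ht => ?_, fun l l' h h' e e' t ht => ?_, fun l l' h h' e e' t ht => ?_,
    g, Spl27.fr_list hT (by linarith) g⟩
  · have := (K l l' h h' e e' t ht).1
    subst e; exact this
  · have := (K l l' h h' e e' t ht).2.2.1
    subst e; exact this
  · have := (K l l' h h' e e' t ht).2.2.2.1
    subst e; exact this
  · have := (K l l' h h' e e' t ht).2.2.2.2.1
    subst e; exact this
  · have := (K l l' h h' e e' t ht).2.2.2.2.2
    subst e; exact this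

end Crest.Agent.T156.Hm
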