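import Crest.Agent.T156.TopZ_48
import Crest.Agent.T156.HmD_32
import Crest.Agent.T156.Abel_33

/-!
Row 156, text (L) (helper48): the top block of the continuation above the bulk.
-/

set_option autoImplicit false

noncomputable section

namespace Crest.Agent.T156.Alt.Mp9.At

open MeasureTheory Set Real
open Crest.Agent.R164.GC Crest.Agent.R339.B Crest.Agent.R339.Var Crest.Agent.T157.Pf
open Crest.Agent.T156.Pr.Reg48 (PlZ PNY QZ)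
open Crest.Agent.T156.Gap27 (resN)
open Crest.Agent.T156.Alt.L69

variable {S : Sc} {M : Md} {m : ℕ} {a T : ℝ}

/-- a time below the top window -/
def t48 (S : Sc) : ℝ := 1 / (12 * S.C ^ 3)
/-- the replicon floor above `t48` -/
def e48 (S : Sc) : ℝ := S.ms (t48 S) / S.C

theorem e_pack (A : At S M m a T) (θ1 : S.θ ≤ 1) : 0 < t48 S ∧ 4 * t48 S ≤ M.s S.J ∧
    0 < e48 S ∧ e48 S ≤ 1 ∧ S.θ ≤ 576 * S.C ^ 7 * e48 S := by
  have C1 := A.cl.C1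
  have C0 := A.c_pos
  have t0 : 0 < t48 S := by unfold t48; positivity
  have m0 := A.ms_pos t0.le
  have k := A.cl.ms_mul t0.le (k := 12 * S.C ^ 3) (by nlinarith [one_le_pow₀ (n := 3) C1])
  rw [show 12 * S.C ^ 3 * t48 S = 1 by unfold t48; field_simp] at k
  refine ⟨t0, ?_, div_pos m0 C0, (div_le_self m0.le C1).trans ((A.cl.ms1 _).trans θ1), ?_⟩
  · have := Ab33.sJ_ge A.cl
    unfold t48
    rw [mul_one_div, div_le_iff₀ (by positivity)]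
    linarith
  · calc S.θ ≤ 4 * (12 * S.C ^ 3) ^ 2 * S.ms (t48 S) := k
      _ = _ := by unfold e48; field_simp; ring

/-- a plateau node at the distance `ρ` from the upper end -/
theorem node_du (A : At S M m a T) {Xp u1 ρ : ℝ} (J : Jn S M Xp u1) (h0 : S.ue ≤ u1) (h1 : u1 ≤ ρ)
    (h2 : S.C * ρ < 1) (h3 : 2 * S.C * S.v * S.n ≤ ρ) :
    ∃ k, S.J < k ∧ k ≤ S.Jp ∧ ρ / 2 ≤ du M k ∧ du M k ≤ ρ := by
  have C0 := A.c_pos
  have i2 := A.cl.i2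
  have ex : ∃ k, S.J ≤ k ∧ du M k ≤ ρ := ⟨S.Jp, A.cl.i3, A.cl.last.trans (h0.trans h1)⟩
  classical
  obtain ⟨k1, k2⟩ := Nat.find_spec ex
  have k3 : Nat.find ex ≤ S.Jp := Nat.find_min' ex ⟨A.cl.i3, A.cl.last.trans (h0.trans h1)⟩
  have k4 : S.J < Nat.find ex := k1.lt_of_ne fun x => by
    rw [← x] at k2
    have := A.cl.atom.2
    have : 1 / S.C ≤ ρ := by unfold du at k2; linarith
    rw [div_le_iff₀ C0] at this
    linarith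
  obtain ⟨k, hk⟩ : ∃ k, Nat.find ex = k + 1 := ⟨Nat.find ex - 1, by omega⟩
  have k5 : ρ < du M k := not_le.1 fun x => Nat.find_min ex (by omega) ⟨by omega, x⟩
  rw [hk] at k2 k3 k4
  refine ⟨k + 1, k4, k3, ?_, k2⟩
  have f := J.fine k (by omega) (by omega) (by linarith)
  have p := (A.cl.plat k (by omega) (by omega)).2
  have d0 := A.cl.den0 (M.z (k - 1))
  have z0 : 0 ≤ M.z (k - 1) := by
    linarith [A.cl.leg.zm (Nat.zero_le (k - 1)), A.cl.leg.z0, A.mem.a2, A.a_pos]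
  have d1 : lsh M S k ≤ S.den (M.z (k - 1)) :=
    mul_le_of_le_one_right d0.le ((min_le_right _ _).trans (by unfold du; linarith))
  have n0 : (0 : ℝ) ≤ S.n := Nat.cast_nonneg _
  have dz := sub_nonneg.2 (A.cl.leg.zm (Nat.sub_le k 1))
  have f1 : 1 ≤ S.n * S.den (M.z (k - 1)) := f.trans (by gcongr)
  have f2 : M.z k - M.z (k - 1) ≤ S.n * (S.C * S.v) :=
    calc _ ≤ (M.z k - M.z (k - 1)) * (S.n * S.den (M.z (k - 1))) := le_mul_of_one_le_right dz f1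
      _ = S.n * ((M.z k - M.z (k - 1)) * S.den (M.z (k - 1))) := by ring
      _ ≤ _ := by gcongr
  unfold du at *
  rw [Nat.add_sub_cancel]
  linarith

theorem TK.mono {E L γ u2 g0 Lg N N' L' : ℝ} {ap : ℕ → ℝ} (A : At S M m a T)
    (h : TK S M E L γ u2 g0 Lg N ap) (hN : N ≤ N') (L0 : 0 ≤ L) (hL : L ≤ L') :
    TK S M E L' γ u2 g0 Lg N' ap := by
  have θ0 : 0 < S.θ := A.ms_pos zero_le_one
  have N0 : 0 ≤ N := (sq_nonneg _).trans h.u0.2.2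
  have L1 := L0.trans hL
  refine ⟨h.γ0, h.γ1, h.γ2.trans hN, ⟨h.u0.1, h.u0.2.1, h.u0.2.2.trans hN⟩,
    h.c2.trans (by gcongr), h.g3.imp_left fun x => x.trans hN, fun i a1 a2 a3 a4 a5 => ?_⟩
  exact (h.sh i a1 a2 a3 a4 a5).mono θ0.le zero_le_one (by positivity) a3.le le_rfl le_rfl
    (by gcongr) le_rfl le_rfl

/-- **what the top block reads**: `w` lies at the distance `ρ` from the upper end -/
structure TZ0 (S : Sc) (M : Md) (m : ℕ) (a T L E x0 g0 ρ θ' g βs ν N Lg u2 : ℝ)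
    (ap : ℕ → ℝ) (v w : ℕ) : Prop where
  E1 : L ^ 4 ≤ E
  θ1 : S.θ ≤ 1
  θ2 : 1 ≤ L * θ'
  ν0 : 0 < ν ∧ ν ≤ 1 ∧ ν ≤ N ∧ log (1 + T / ν) ≤ L
  m1 : 1 / ((m : ℝ) + 1) ≤ x0
  β0 : 0 ≤ βs ∧ βs ≤ L * x0
  g0 : 0 ≤ g ∧ g ≤ L * g0
  v1 : S.jl < v ∧ v ≤ w
  w1 : S.J ≤ w ∧ w ≤ S.Jp
  w2 : ρ / 4 ≤ 1 - M.z w ∧ du M w ≤ ρ
  w3 : M.s S.J ≤ 4 * sb M m a (w + 1)
  ew : |res M S m a T v - res M S m a T w| ≤ L * (x0 + (Lg ^ 2 * ap w) ^ 2)
  mu : sb M m a (w + 1) < M.s S.Jp → M.b * Pr.GG (lb M S m a T) (sb M m a (w + 1)) ≤ 1 + g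
  nx : ∀ k, w ≤ k → k ≤ S.Jp → 8 * u2 < 1 - M.z k → ∃ j, k < j ∧ j ≤ S.Jp ∧
    1 - M.z k ≤ 4 * du M j ∧ res M S m a T v - res M S m a T j ≤ L * (x0 + (Lg ^ 2 * ap j) ^ 2)

/-- **output of the top block** -/
structure TO (S : Sc) (M : Md) (m : ℕ) (a T L κ c θ' βs N u2 : ℝ) (v w : ℕ) : Prop where
  κ1 : 1 ≤ L * κ
  c1 : 1 ≤ L * c
  b1 : M.b ≤ L
  e1 : S.θ ≤ L * e48 S
  T1 : T ≤ L
  L1 : 64 * S.C ≤ L
  gap : ∀ t < sb M m a (w + 1), κ ≤ 1 - lvr 1 (lb M S m a T) t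
  mid : κ ≤ du M w ∧ du M w ≤ M.z (w - 1) - M.z (S.J - 1)
  conc : ∀ r ∈ Ico (sb M m a (w + 1)) T, Pr.Reg48.Gd (lb M S m a T) r ≤ 0
  cont : ∃ P, P ≤ T ∧ 1 - lvr 1 (lb M S m a T) P ≤ 8 * u2 ∧ ∀ A1 A0 En : ℝ,
    0 ≤ A1 → A1 ≤ sb M m a (w + 1) → 0 ≤ A0 → A0 ≤ sb M m a (w + 1) →
    (∫ t in A0..T, Sc48.Jf (lh M T) (lb M S m a T) T t ^ 2) +
      (∫ t in (0:ℝ)..A0, |Sc48.Jf (lh M T) (lb M S m a T) T t|) ^ 2 ≤ En →
    Cut8.Cont T (fun t => lvr 1 (lb M S m a T) t - lvr 1 (lh M T) t)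
      (fun t => Pr.Gam (lb M S m a T) t - Pr.Gam (lh M T) t)
      (resN (lb M S m a T) M.b (sb M m a) (hb M) (v + 1)) βs A1 (sb M m a (w + 1))
      (8 * θ' * En + 10 * (L ^ 23 * N))
      (QZ (lb M S m a T) M.b c (M.s S.J) (M.s S.Jp) (sb M m a (w + 1)) P (e48 S) κ (L ^ 23 * N))

/-- **the top block** -/
theorem top_pack (T0 : ℝ) : ∃ K0 ρ0 c : ℝ, 1 ≤ K0 ∧ 0 < ρ0 ∧ ρ0 ≤ 1 ∧ 0 < c ∧
    ∀ {S : Sc} {M : Md} {m : ℕ} {a T : ℝ}, At S M m a T → T ≤ T0 →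
    ∀ {E L γ u2 g0 Lg N x0 θ' g βs ν : ℝ} {ap : ℕ → ℝ} {v w : ℕ}, K0 * S.C ^ 7 ≤ L →
      TK S M E L γ u2 g0 Lg N ap → Pr.Reg48.Sm S.θ 1 (4 * N) 1 x0 →
      TZ0 S M m a T L E x0 g0 (ρ0 / (2 * S.C)) θ' g βs ν N Lg u2 ap v w →
      TO S M m a T L (ρ0 / (8 * S.C)) c θ' βs N u2 v w := by
  obtain ⟨u0, c, u00, c0, hc⟩ := conc_top T0
  obtain ⟨Ch, C1', hC⟩ := Hm.hlip T0
  have r0 : 0 < min u0 1 := lt_min u00 one_pos
  have c0' : 0 < min c 1 := lt_min c0 one_pos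
  have x1 : 0 < 1 / min c 1 := by positivity
  have x2 : 0 < 8 / min u0 1 := by positivity
  have x3 := abs_nonneg T0
  refine ⟨576 + 1 / min c 1 + 8 / min u0 1 + |T0| + Ch, min u0 1, min c 1, by linarith, r0,
    min_le_right _ _, c0', fun {S M m a T} A hT {E L γ u2 g0 Lg N x0 θ' g βs ν ap v w} hL P hx h => ?_⟩
  obtain ⟨hq, cc⟩ := hc A hT
  have C1 := A.cl.C1
  have C0 := A.c_pos
  have i2 := A.cl.i2
  have C7 : S.C ≤ S.C ^ 7 := le_self_pow₀ C1 (by norm_num)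
  have C7' : 1 ≤ S.C ^ 7 := C1.trans C7
  have kk : ∀ y, 0 ≤ y → y ≤ 576 + 1 / min c 1 + 8 / min u0 1 + |T0| + Ch → y * S.C ^ 7 ≤ L :=
    fun y _ y1 => le_trans (by gcongr) hL
  have k1 : ∀ y, 0 ≤ y → y ≤ 576 + 1 / min c 1 + 8 / min u0 1 + |T0| + Ch → y * S.C ≤ L :=
    fun y y0 y1 => le_trans (by gcongr) (kk y y0 y1)
  have k2 : ∀ y, 0 ≤ y → y ≤ 576 + 1 / min c 1 + 8 / min u0 1 + |T0| + Ch → y ≤ L :=
    fun y y0 y1 => (le_mul_of_one_le_right y0 C1).trans (k1 y y0 y1)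
  obtain ⟨e1, e2, e3, e4, e5⟩ := A.e_pack h.θ1
  have L1 : 64 * S.C ≤ L := k1 64 (by norm_num) (by linarith)
  have κ1 : 1 ≤ L * (min u0 1 / (8 * S.C)) := by
    have := k1 _ x2.le (by linarith)
    rw [div_mul_eq_mul_div, div_le_iff₀ r0] at this
    rw [mul_div_assoc', le_div_iff₀ (by positivity)]
    linarith
  have c1 : 1 ≤ L * min c 1 := (div_le_iff₀ c0').1 (k2 _ x1.le (by linarith))
  have T1 : T ≤ L := (hT.trans (le_abs_self _)).trans (k2 _ x3 (by linarith))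
  have e6 : S.θ ≤ L * e48 S := e5.trans (by gcongr; exact kk 576 (by norm_num) (by linarith))
  have zw := A.cl.leg.zm (Nat.sub_le w 1)
  have ρ1 : min u0 1 / (2 * S.C) ≤ u0 := (div_le_self r0.le (by linarith)).trans (min_le_left _ _)
  have ρ2 : min u0 1 / (2 * S.C) ≤ 1 / S.C / 2 := by
    rw [div_div, mul_comm S.C]; gcongr; exact min_le_right _ _
  have ρ3 : min u0 1 / (8 * S.C) = min u0 1 / (2 * S.C) / 4 := by field_simp; ring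
  obtain ⟨w2, w2'⟩ := h.w2
  have jw : S.jl ≤ w := by have := h.w1.1; omega
  have md : min u0 1 / (8 * S.C) ≤ du M w ∧ du M w ≤ M.z (w - 1) - M.z (S.J - 1) := by
    have := A.cl.atom.2
    unfold du at *
    constructor <;> linarith
  have cn := cc w jw h.w1.2 (by unfold du at w2'; linarith)
  obtain ⟨n0, n1, n2, n3⟩ := h.ν0
  obtain ⟨p, p1, p2, p3, H⟩ := A.topCG (κ := min u0 1 / (8 * S.C)) (c := min c 1) (Ch := Ch)
    (e := e48 S) (t0 := t48 S) (τ0 := ν) P hx ⟨L1, h.E1, h.θ1,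
      ⟨c0', c1, (min_le_right _ _).trans (by linarith)⟩, κ1, h.θ2, T1,
      ⟨by linarith, k2 _ (by linarith) (by linarith)⟩, ⟨e6, e4, le_rfl⟩,
      ⟨e1.le, by linarith [h.w3], by linarith [A.cl.sm A.cl.i3]⟩,
      ⟨n0, n1, by nlinarith, n3⟩, h.m1, h.β0, h.g0, h.v1, h.w1, md, cn, h.ew, h.mu, h.nx⟩
    (hC T hT).2.2.2.2.2.2.1 fun r r1 r2 => (hq r r1 r2).trans (neg_le_neg (min_le_left _ _))
  refine ⟨κ1, c1, A.b_mem.2.trans (by linarith), e6, T1, L1, fun t ht => ?_, md, cn,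
    sb M m a (p + 1), (A.sb_mem p2).2, by rwa [A.lvb_node (by omega) p2], H⟩
  have := Sc48.lvr_mono A.okb.1.1 ht.le
  rw [A.lvb_node jw h.w1.2] at this
  linarith

end Crest.Agent.T156.Alt.Mp9.At

end
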