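import Crest.Agent.T156.LInt_31
import Crest.Agent.T156.TauF_65
import Crest.Agent.T156.TxT_48

/-!
Row 156, text (L) (helper48): the uniform error `xs` and the margin `tq` above the bulk.
-/

set_option autoImplicit false

noncomputable section

namespace Crest.Agent.T156.Alt.X48

open Real Finset
open Crest.Agent.T156.Alt.Mp9 Crest.Agent.T156.Alt.L69 Crest.Agent.T156.Alt.L31
open Crest.Agent.T156.Alt.Sz9 (w1)
open Crest.Agent.T156.Alt.G89 (Ug)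
open Crest.Agent.T156.Pr.Reg48 (Sm)

section defs
variable (S : Sc) (M : Md) (p : Pa)

/-- the residual of the top window and of the plateau -/
def Ga : ℝ := GS M S (1 / (8 * S.C ^ 2)) S.C + GP M S
/-- size of the centred overlap at a corner node -/
def uc : ℝ := p.Lc ^ ((2 : ℝ) / 3) * w1 S 1
/-- **the uniform error** -/
def xs : ℝ := At.e0x S M p.Xp p.Vt p.V2 p.Lp p.X2 p.G0 p.u1 p.γ p.η + p.ηc + √(S.w3 1 * p.Xp) +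
  p.γ ^ 3 + p.X2 * p.γ + Ga S M + p.X2 * Ga S M ^ ((1 : ℝ) / 3)
/-- the cost -/
def N0 : ℝ := p.N + p.X2 ^ 2

end defs

theorem sm_le {θ N x : ℝ} (x0 : 0 ≤ x) (x1 : x ≤ 1) (h : x ≤ N) : Sm θ 1 N 1 x :=
  .inr (.inr (by nlinarith [mul_le_mul h h x0 (x0.trans h), mul_nonneg x0 x0]))

theorem yg {u y : ℝ} (u0 : 0 ≤ u) (y0 : 0 ≤ y) : u ^ 2 * y ≤ u ^ 3 + y ^ 3 := by
  rcases le_total y u with c | c
  · nlinarith [mul_le_mul_of_nonneg_left c (sq_nonneg u), pow_nonneg y0 3]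
  · nlinarith [mul_le_mul_of_nonneg_right (pow_le_pow_left₀ u0 c 2) y0, pow_nonneg u0 3]

/-- signs and atoms -/
structure At48 (E : ℝ) (S : Sc) (M : Md) (m : ℕ) (p : Pa) : Prop where
  j0 : 0 ≤ p.j
  γ0 : 0 ≤ p.γ ∧ p.γ ≤ 1
  τ0 : 0 ≤ p.τ
  X0 : 0 ≤ p.X2 ∧ p.X2 ≤ 1
  η0 : 0 ≤ p.η 1
  G0 : 0 ≤ p.G0
  N0 : 0 ≤ p.N
  m0 : 0 < mf S 1 ∧ mf S 1 ≤ S.θ
  u0 : 0 ≤ uc S p ∧ E * uc S p ^ 2 ≤ mf S 1
  Ga0 : 0 ≤ GP M S ∧ GP M S ≤ Ga S M ∧ Ga S M ≤ S.θ * p.N ∧ Ga S M ≤ p.j ^ 2 ∧ p.j ≤ 1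
  γ3 : p.γ ^ 3 ≤ p.N ∧ S.θ * p.γ ^ 2 ≤ p.N ∧ p.γ * (p.η 1 + p.X2) ≤ p.N
  a1 : p.η 1 ≤ xs S M p
  a2 : p.ηc ≤ xs S M p
  a3 : p.G0 ^ 2 ≤ xs S M p
  a4 : Np M S p.Xp p.Vt p.γ p.u1 p.Lp 2 ≤ xs S M p
  a5 : p.X2 * (p.Xp ^ ((1 : ℝ) / 3) + p.V2 + p.γ + Ga S M ^ ((1 : ℝ) / 3)) ≤ xs S M p
  a6 : Ga S M + p.γ ^ 3 + √(S.w3 1 * p.Xp) ≤ xs S M p
  a7 : 1 / (S.n : ℝ) ≤ p.ηc ∧ 1 / ((m : ℝ) + 1) ≤ p.ηc
  a8 : uc S p ^ 3 + uc S p ^ 2 * (S.θ + p.j + p.Xp ^ ((1 : ℝ) / 3)) +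
    (√(p.Lc * gg S 1) + p.G0 + p.X2) * (uc S p + √p.X2) + p.X3 ≤ p.ηc
  a9 : uc S p ^ 2 * (S.θ + p.j + p.Xp ^ ((1 : ℝ) / 3) + p.γ + Ga S M ^ ((1 : ℝ) / 3)) ≤ 3 * xs S M p
  ug : Ug S p.Lg 1 ^ 2 ≤ 4 * S.F * uc S p ^ 2 ∧ E * Ug S p.Lg 1 ^ 2 ≤ mf S 1
  sm : Sm S.θ 1 (256 * X48.N0 p) 1 (xs S M p)

variable {E lam : ℝ} {S : Sc} {M : Md} {m : ℕ} {a T : ℝ} {p : Pa}

theorem at48 (A : At S M m a T) (H : Hx E lam S M m a p) (E2 : 2 ≤ E) (hθ : S.θ ≤ 1) :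
    At48 E S M m p := by
  have h := A.cl
  have P := H.lp
  have Q := H.lc
  have θ0 := h.θ0
  have F1 := h.F1
  have n0 := h.N0
  have dx0 : ∀ k, 0 ≤ dx M k := fun k => Ap63.w_nn h.leg.zm k
  have gp : 0 ≤ GP M S := sum_nonneg fun k _ => mul_nonneg (dx0 k) (sq_nonneg _)
  have gs : 0 ≤ GS M S (1 / (8 * S.C ^ 2)) S.C :=
    sum_nonneg fun k _ => mul_nonneg (dx0 k) (sq_nonneg _)
  have gs' : GS M S (1 / (8 * S.C ^ 2)) S.C ≤ GS M S 0 S.C :=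
    sum_le_sum_of_subset_of_nonneg (fun k hk => mem_filter.2 ⟨(mem_filter.1 hk).1, h.s_nn k,
      (mem_filter.1 hk).2.2⟩) fun k _ _ => mul_nonneg (dx0 k) (sq_nonneg _)
  have jj := H.ap.j0
  have s1 := sqrt_nonneg p.X
  have s2 := sqrt_nonneg (GS M S 0 S.C + GP M S)
  have j0 : 0 ≤ p.j := by linarith [sq_nonneg p.l0]
  obtain ⟨g1, g0, g2, X20, m0, m1, η0, b1, d1, d0, w0, d2, d3, d4, d5⟩ :=
    Gd65.facts h H.ln P E2 hθ j0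
  have τ0 : 0 ≤ p.τ := w0.trans d1
  have j1 : p.j ≤ 1 := by nlinarith [P.j1]
  have Ga0 : 0 ≤ Ga S M := add_nonneg gs gp
  have Gj : Ga S M ≤ p.j ^ 2 := by
    have := pow_le_pow_left₀ s2 (show _ ≤ p.j by linarith [sq_nonneg p.l0]) 2
    rw [sq_sqrt (by linarith)] at this
    unfold Ga; linarith
  have Ga1 : Ga S M ≤ 1 := Gj.trans (pow_le_one₀ j0 j1)
  have a2 := (div_le_iff₀ θ0).1 Q.c2
  have GN : Ga S M ≤ S.θ * p.N := by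
    unfold Ga; linarith [sq_nonneg p.G1, sq_nonneg (S.θ * p.γ)]
  have N0' : 0 ≤ p.N := nonneg_of_mul_nonneg_right (Ga0.trans GN) θ0
  have X1 : p.X2 ≤ 1 := by nlinarith
  have l0' : 0 ≤ p.l0 := (mul_nonneg (by linarith) (h.s_nn _)).trans H.ln.l0s
  have X30 : 0 ≤ p.X3 := (mul_nonneg l0' (by positivity)).trans H.ln.x3a
  have G00 : 0 ≤ p.G0 := (mul_nonneg l0' (sq_nonneg _)).trans H.ln.g0a
  have xp := P.Xp0.1
  have v1 : 0 ≤ p.u1 := ((sub_nonneg.2 (h.leg.z1 _)).trans h.last).trans P.u1a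
  have v2 : 0 ≤ p.u2 := v1.trans P.u1b.1
  have L0 : 0 < p.Lp := by linarith [P.Lp1.1]
  have np : 0 ≤ Np M S p.Xp p.Vt p.γ p.u1 p.Lp 2 := add_nonneg v1 (sum_nonneg fun k _ => by
    have r0 : 0 ≤ Rp M S p.Xp p.Vt p.γ k :=
      add_nonneg (add_nonneg (sqrt_nonneg _) (le_min P.Vt0 (sqrt_nonneg _))) g0
    exact mul_nonneg (dx0 k) (add_nonneg (sq_nonneg _) (le_min (by positivity) (by positivity))))
  have c4 : p.γ * (p.η 1 + p.X2) ≤ p.N ∧ p.γ ^ ((15 : ℝ) / 7) ≤ p.N := by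
    have : 0 ≤ p.u2 * (p.η 1 + p.X2 + √((GP M S + p.G1 ^ 2) / p.u2) + S.θ * p.γ) := by positivity
    have : 0 ≤ (p.u2 * S.θ) ^ ((3 : ℝ) / 2) := by positivity
    have : 0 ≤ p.γ ^ ((15 : ℝ) / 7) := by positivity
    have : 0 ≤ p.γ * (p.η 1 + p.X2) := by positivity
    constructor <;> linarith [sq_nonneg p.u2, Q.c4]
  have γ3 : p.γ ^ 3 ≤ p.N := by
    refine le_trans ?_ c4.2
    rw [← rpow_natCast]
    exact rpow_le_rpow_of_exponent_ge' g0 g2 (by norm_num) (by norm_num)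
  have γ2 : S.θ * p.γ ^ 2 ≤ p.N := by
    refine le_of_mul_le_mul_left ?_ θ0
    linarith [sq_nonneg p.G1]
  obtain ⟨c1, c2⟩ := P.ηc1 _ rfl
  change _ * uc S p ^ 2 ≤ _ at c2
  change uc S p ^ 3 + uc S p ^ 2 * _ + _ * (uc S p + _) + _ + _ ≤ _ at c1
  have Lc0 : 0 < p.Lc := by linarith [P.Lc1.1]
  have u0 : 0 ≤ uc S p := by unfold uc; positivity
  have q1 : 0 ≤ uc S p ^ 3 := by positivity
  have q2 : 0 ≤ uc S p ^ 2 * (S.θ + p.j + p.Xp ^ ((1 : ℝ) / 3)) := by positivity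
  have q3 : 0 ≤ (√(p.Lc * gg S 1) + p.G0 + p.X2) * (uc S p + √p.X2) := by positivity
  have q4 : 0 < 1 / (S.n : ℝ) := by positivity
  have q5 : 1 / ((m : ℝ) + 1) ≤ 1 / (S.n : ℝ) := by
    have : (S.n : ℝ) ≤ m := by exact_mod_cast A.mem.m1
    gcongr; linarith
  have V0 := Q.v2.1
  have r1 : 0 ≤ p.X2 * (p.Xp ^ ((1 : ℝ) / 3) + p.V2) := by positivity
  have r2 := sqrt_nonneg (S.w3 1 * p.Xp)
  have r3 : 0 ≤ p.γ ^ 3 := by positivity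
  have r4 : 0 ≤ p.X2 * p.γ := by positivity
  have r5 : 0 ≤ p.X2 * Ga S M ^ ((1 : ℝ) / 3) := by positivity
  have r6 := sq_nonneg p.G0
  have ex : xs S M p = p.η 1 + p.G0 ^ 2 + Np M S p.Xp p.Vt p.γ p.u1 p.Lp 2 +
      p.X2 * (p.Xp ^ ((1 : ℝ) / 3) + p.V2) + p.ηc + √(S.w3 1 * p.Xp) +
      p.γ ^ 3 + p.X2 * p.γ + Ga S M + p.X2 * Ga S M ^ ((1 : ℝ) / 3) := rfl
  have y1 := yg u0 g0
  have y2 := yg u0 (rpow_nonneg Ga0 (1 / 3))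
  rw [Gd65.cb3 Ga0] at y2
  obtain ⟨k0, k1, k2⟩ := Gd65.Ug_le h g1 one_pos
  have NN : p.N ≤ N0 p := le_add_of_nonneg_right (sq_nonneg _)
  have N1 : 0 ≤ N0 p := N0'.trans NN
  refine ⟨j0, ⟨g0, g2⟩, τ0, ⟨X20, X1⟩, η0, G00, N0', ⟨m0, m1⟩, ⟨u0, c2⟩,
    ⟨gp, le_add_of_nonneg_left gs, GN, Gj, j1⟩, ⟨γ3, γ2, c4.1⟩, by linarith, by linarith,
    by linarith, by linarith, by linarith, by linarith, ⟨by linarith, by linarith⟩, by linarith,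
    by linarith, ⟨?_, ?_⟩, ?_⟩
  · have := (Gd65.lev h hθ le_rfl one_pos (by norm_num) (by linarith : 0 ≤ p.Lg)).2.2
    refine this.trans ?_
    rw [one_pow, mul_one]
    unfold uc
    gcongr
    exact P.Lc1.1
  · have l1 : p.l ≤ 1 := by nlinarith [H.ln.l1, l0'.trans H.ln.l0l]
    have k3 : Ug S p.Lg 1 ≤ uw S p.Lg 1 := (le_mul_of_one_le_left k0 g1).trans k1
    exact (mul_le_mul_of_nonneg_left (pow_le_pow_left₀ k0 k3 2) (by linarith)).trans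
      (H.ln.th2 1 l1 h.C1)
  have up : ∀ {x}, Sm S.θ 1 p.N 1 x → Sm S.θ 1 (4 * N0 p) 1 x := fun s =>
    s.mono θ0.le zero_le_one N0' zero_le_one le_rfl le_rfl (by linarith) le_rfl le_rfl
  have t1 : Sm S.θ 1 (4 * N0 p) 1 _ := (A.sm_e0x Q N0').mono θ0.le zero_le_one (by positivity)
    zero_le_one le_rfl le_rfl (by linarith) le_rfl le_rfl
  have t2 : Sm S.θ 1 (4 * N0 p) 1 √(S.w3 1 * p.Xp) := up (.inr (.inr (by
    have z0 : 0 ≤ S.w3 1 * p.Xp := mul_nonneg A.w3_nn xp.le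
    have z1 : (S.w3 1 * p.Xp) ^ ((3 : ℝ) / 4) ≤ p.N := by
      linarith [Q.c9, show 0 ≤ S.θ * (p.j ^ 9 + p.Xp ^ 3) by positivity]
    have z2 := pow_le_pow_left₀ (by positivity) z1 2
    rw [← rpow_natCast, ← rpow_mul z0] at z2
    rw [sqrt_eq_rpow, ← rpow_natCast ((S.w3 1 * p.Xp) ^ _), ← rpow_mul z0]
    norm_num at z2 ⊢
    exact z2)))
  have t3 := up (sm_le (θ := S.θ) r3 (pow_le_one₀ g0 g2) γ3)
  have t4 := up (sm_le (θ := S.θ) r4 (mul_le_one₀ X1 g0 g2) (by nlinarith [c4.1]))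
  have t5 : Sm S.θ 1 (4 * N0 p) 1 (Ga S M) := up (.inr (.inl (by nlinarith)))
  have t6 : Sm S.θ 1 (4 * N0 p) 1 (p.X2 * Ga S M ^ ((1 : ℝ) / 3)) := .inr (.inr (by
    rw [mul_pow, Gd65.cb3 Ga0]
    have z1 : p.X2 ^ 3 ≤ N0 p := (pow_le_pow_of_le_one X20 X1 (by norm_num)).trans
      (le_add_of_nonneg_left N0')
    have z2 : Ga S M ≤ N0 p := by nlinarith
    nlinarith [mul_le_mul z1 z2 Ga0 N1, sq_nonneg (N0 p)]))
  have y := ((((t1.max t2).max t3).max t4).max t5).max t6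
  refine (y.mul zero_le_one (a := 8) (by norm_num)).mono θ0.le zero_le_one (by positivity)
    zero_le_one le_rfl le_rfl (by linarith) le_rfl ?_
  generalize hy : max _ (p.X2 * Ga S M ^ ((1 : ℝ) / 3)) = y
  have hy' := hy.le
  simp only [max_le_iff] at hy'
  obtain ⟨⟨⟨⟨⟨z1, z2⟩, z3⟩, z4⟩, z5⟩, z6⟩ := hy'
  unfold xs
  linarith

namespace At48
variable (B : At48 E S M m p)
include B

theorem N_le : p.N ≤ X48.N0 p ∧ 0 ≤ X48.N0 p :=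
  ⟨le_add_of_nonneg_right (sq_nonneg _), add_nonneg B.N0 (sq_nonneg _)⟩

theorem x0 : 0 ≤ xs S M p := B.η0.trans B.a1

theorem sm_mul (θ0 : 0 ≤ S.θ) {W y N : ℝ} (W1 : 1 ≤ W) (hy : y ≤ W * xs S M p)
    (hN : 256 * W ^ 2 * X48.N0 p ≤ N) : Sm S.θ 1 N 1 y :=
  (B.sm.mul zero_le_one W1).mono θ0 zero_le_one (by have := B.N_le.2; positivity) zero_le_one le_rfl
    le_rfl (by linarith) le_rfl hy

end At48

end Crest.Agent.T156.Alt.X48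

end
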