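import Crest.Agent.T156.TxW_83
import Crest.Agent.T156.TauF_65

/-!
# Row 156, block (L): the unit of the label margins at the corner and its costs (helper12)
-/

set_option autoImplicit false

noncomputable section

namespace Crest.Agent.T156.Alt.L31

open Real
open Crest.Agent.T156.Alt.Mp9 Crest.Agent.T156.Alt.L69 Crest.Agent.T156.Alt.Ve83

/-- the unit of the label margins -/
def tm (E : ℝ) (S : Sc) (p : Pa) : ℝ := p.τ + p.γ / E + p.η 1 / mf S 1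

/-- the larger unit -/
def tu (S : Sc) (p : Pa) : ℝ := p.τ + p.γ + p.η 1 / mf S 1

/-- the lines of the unit -/
structure Tm12 (E : ℝ) (S : Sc) (M : Md) (p : Pa) : Prop where
  N0 : 0 < p.N
  m0 : 0 < mf S 1
  t0 : 0 < tm E S p
  τt : p.τ ≤ tm E S p
  τη : p.τ + p.η 1 / mf S 1 ≤ tm E S p
  mu : tm E S p ≤ tu S p
  cu : p.τ + p.γ ≤ tu S p
  Et : E * tu S p ≤ 3
  c3 : S.θ * tu S p ^ 3 ≤ 27 * p.N
  c6 : S.F ^ 2 * tu S p ^ 6 ≤ 729 * p.N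
  c9 : tu S p ^ 9 ≤ 19683 * p.N ^ 2
  cg : S.θ * p.γ * tu S p ≤ 3 * S.F * p.N
  t1 : t1 S p ≤ S.F * tm E S p
  ec : p.ηc + p.η 1 + Nd22.U S p.Lc 1 ^ 2 * p.γ ≤ tm E S p * mf S 1
  uE : E * Nd22.U S p.Lc 1 ^ 2 ≤ mf S 1
  w1 : Sz9.w1 S 1 ≤ tm E S p
  R : p.Xp ^ ((1 : ℝ) / 3) ≤ p.Lc * tm E S p
  γt : p.γ ≤ E * tm E S p
  γ1 : E * p.γ ≤ 1
  γ2 : S.θ * p.γ ^ 2 ≤ p.N
  γ3 : p.γ ^ 3 ≤ p.N
  gp : GP M S ≤ S.θ * p.N

theorem r32' {x : ℝ} (hx : 0 ≤ x) : x ^ ((3 : ℝ) / 2) = x * √x := by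
  rw [sqrt_eq_rpow, ← rpow_one_add' hx (by norm_num)]; norm_num

theorem q12 {θ F μ η E N : ℝ} (eθ : θ = F * μ) (m0 : 0 < μ) (F1 : 1 ≤ F) (θ1 : θ ≤ 1)
    (FE : F ^ 2 ≤ E) (η0 : 0 ≤ η) (th : E * η ≤ μ ^ ((3 : ℝ) / 2))
    (c : min (η ^ ((3 : ℝ) / 2)) (η ^ 2 / θ) ≤ N) :
    θ * (η / μ) ^ 3 ≤ N ∧ F ^ 2 * (η / μ) ^ 6 ≤ N ∧ E * (η / μ) ≤ 1 ∧ (η / μ) ^ 9 ≤ N ^ 2 := by
  obtain ⟨q, q0, rfl⟩ : ∃ q, 0 ≤ q ∧ η = μ * q :=
    ⟨η / μ, by positivity, by field_simp⟩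
  rw [mul_div_cancel_left₀ _ m0.ne']
  have m1 : μ ≤ θ := by rw [eθ]; exact le_mul_of_one_le_left m0.le F1
  have s1 : √μ ≤ 1 := sqrt_le_one.2 (m1.trans θ1)
  have F2 : F ≤ F ^ 2 := le_self_pow₀ F1 two_ne_zero
  rw [r32' m0.le, mul_left_comm] at th
  have a1 : E * q ≤ √μ := le_of_mul_le_mul_left th m0
  have a2 : F ^ 2 * q ≤ 1 := (mul_le_mul_of_nonneg_right FE q0).trans (a1.trans s1)
  have a3 : (F * q) ^ 2 ≤ μ := by
    have := pow_le_pow_left₀ (by positivity)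
      ((mul_le_mul_of_nonneg_right (F2.trans FE) q0).trans a1) 2
    rwa [sq_sqrt m0.le] at this
  have q1 : q ≤ 1 := (le_mul_of_one_le_left q0 (F1.trans F2)).trans a2
  have a4 : F ^ 2 * q ^ 3 ≤ μ := by
    linarith [mul_le_mul_of_nonneg_left q1 (sq_nonneg (F * q))]
  have a5 : θ * q ^ 3 ≤ N := by
    rcases min_le_iff.1 c with c | c
    · rw [r32' η0] at c
      have : F * q ^ 2 ≤ √(μ * q) := le_sqrt_of_sq_le (by
        linarith [mul_le_mul_of_nonneg_right a4 q0])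
      rw [eθ]
      linarith [mul_le_mul_of_nonneg_left this η0]
    · have e : θ * q ^ 3 = (μ * q) ^ 2 / θ * (F ^ 2 * q) := by rw [eθ]; field_simp
      rw [e]
      exact (mul_le_of_le_one_right (by rw [eθ]; positivity) a2).trans c
  refine ⟨a5, le_trans ?_ a5, a1.trans s1, ?_⟩
  · linarith [mul_le_mul_of_nonneg_right (a4.trans m1) (pow_nonneg q0 3)]
  have a6 : F * q ^ 2 ≤ μ := by linarith [mul_le_mul_of_nonneg_right F2 (sq_nonneg q)]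
  have a7 : q ^ 2 ≤ μ := (le_mul_of_one_le_left (sq_nonneg q) F1).trans a6
  rcases min_le_iff.1 c with c | c
  · rw [r32' η0] at c
    have := pow_le_pow_left₀ (by positivity) c 2
    rw [mul_pow, sq_sqrt η0] at this
    linarith [mul_le_mul_of_nonneg_right (pow_le_pow_left₀ (sq_nonneg q) a7 3) (pow_nonneg q0 3)]
  · have e : (μ * q) ^ 2 / θ = μ / F * q ^ 2 := by rw [eθ]; field_simp
    have b1 : q ^ 2 ≤ μ / F := by rw [le_div_iff₀ (by linarith)]; linarith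
    have b2 : q ^ 4 ≤ N := by linarith [mul_le_mul_of_nonneg_right b1 (sq_nonneg q)]
    calc q ^ 9 ≤ q ^ 8 := pow_le_pow_of_le_one q0 q1 (by norm_num)
      _ = (q ^ 4) ^ 2 := by ring
      _ ≤ _ := pow_le_pow_left₀ (by positivity) b2 2

theorem tau12 {θ F τ B N : ℝ} (θ0 : 0 < θ) (F1 : 1 ≤ F) (τ0 : 0 ≤ τ) (h : F ^ 4 * τ ≤ 1)
    (c3 : θ * τ ^ 3 ≤ N) (hB : τ ^ 3 ≤ B) (c : min (B ^ ((3 : ℝ) / 2)) (B ^ 2 / θ) ≤ N) :
    F ^ 2 * τ ^ 6 ≤ N ∧ τ ^ 9 ≤ N ^ 2 := by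
  have t3 : 0 ≤ τ ^ 3 := by positivity
  have N0 : 0 ≤ N := le_trans (by positivity) c3
  refine ⟨?_, ?_⟩
  swap
  · rcases min_le_iff.1 c with c | c
    · have a1 := (rpow_le_rpow t3 hB (by norm_num : (0 : ℝ) ≤ 3 / 2)).trans c
      rw [r32' t3] at a1
      have := pow_le_pow_left₀ (by positivity) a1 2
      rw [mul_pow, sq_sqrt t3] at this
      linarith
    · rw [div_le_iff₀ θ0] at c
      have a1 := mul_le_mul ((pow_le_pow_left₀ t3 hB 2).trans c) c3 (by positivity)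
        (by positivity)
      exact le_of_mul_le_mul_left (by linarith) θ0
  have τ1 : τ ≤ 1 := (le_mul_of_one_le_left τ0 (one_le_pow₀ F1)).trans h
  have a0 : F ^ 4 * τ ^ 3 ≤ 1 :=
    (mul_le_mul_of_nonneg_left (pow_le_of_le_one τ0 τ1 three_ne_zero) (by positivity)).trans h
  rcases le_total (F ^ 2 * τ ^ 3) θ with d | d
  · linarith [mul_le_mul_of_nonneg_right d t3]
  rcases min_le_iff.1 c with c | c
  · have a1 := (rpow_le_rpow t3 hB (by norm_num : (0 : ℝ) ≤ 3 / 2)).trans c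
    rw [r32' t3] at a1
    have : F ^ 2 * τ ^ 3 ≤ √(τ ^ 3) := le_sqrt_of_sq_le (by
      linarith [mul_le_mul_of_nonneg_right a0 t3])
    linarith [mul_le_mul_of_nonneg_left this t3]
  · rw [div_le_iff₀ θ0] at c
    have a1 := (pow_le_pow_left₀ t3 hB 2).trans c
    have a2 := mul_le_mul_of_nonneg_left (a1.trans (mul_le_mul_of_nonneg_left d N0)) (sq_nonneg F)
    linarith [mul_le_mul_of_nonneg_left a0 N0]

variable {E lam : ℝ} {S : Sc} {M : Md} {m : ℕ} {a : ℝ} {p : Pa}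

/-- **the lines of the unit** -/
theorem tm12 (W : Tw E S M m a p) (H : Hx E lam S M m a p) (θ1 : S.θ ≤ 1) (E2 : 2 ≤ E) :
    Tm12 E S M p := by
  have h := W.at'.cl
  have F1 := h.F1
  have θ0 := h.θ0
  have P := H.lp
  have Q := H.lc
  have τ0 := W.τ0
  have γ0 := W.γ0
  have η0 := W.η0
  have j0 := W.gj.1
  have E0 : 0 < E := by linarith
  obtain ⟨g1, -, g2, X20, m0, m1, -⟩ := Gd65.facts h H.ln P E2 θ1 j0
  have c1 := (Gd65.tf_cost h H.ln P E2 θ1 j0 Q).2.2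
  have eθ : S.θ = S.F * mf S 1 := by unfold mf Sc.θ; field_simp
  have F4 : S.F ^ 4 ≤ E := (pow_le_pow_right₀ F1 (by norm_num)).trans H.F40
  have F2 : S.F ^ 2 ≤ E := (pow_le_pow_right₀ F1 (by norm_num)).trans H.F40
  have dx0 : ∀ k, 0 ≤ dx M k := fun k => Ap63.w_nn h.leg.zm k
  have gp : 0 ≤ GP M S := Finset.sum_nonneg fun k _ => mul_nonneg (dx0 k) (sq_nonneg _)
  have gs : 0 ≤ GS M S (1 / (8 * S.C ^ 2)) S.C :=
    Finset.sum_nonneg fun k _ => mul_nonneg (dx0 k) (sq_nonneg _)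
  have c2 := Q.c2
  rw [div_le_iff₀ θ0] at c2
  have d2 : S.θ * p.γ ^ 2 ≤ p.N :=
    le_of_mul_le_mul_right (by linarith [sq_nonneg p.G1]) θ0
  have d3 : S.θ * p.τ ^ 3 ≤ p.N := by
    have := P.u0
    linarith [Q.c3, show 0 ≤ S.θ * S.u0 ^ 3 by positivity]
  have N0 : 0 < p.N := lt_of_lt_of_le (by positivity) d3
  have v1 : 0 ≤ p.u1 := ((sub_nonneg.2 (h.leg.z1 _)).trans h.last).trans P.u1a
  have v2 : 0 ≤ p.u2 := v1.trans P.u1b.1
  have d4 : p.γ * p.η 1 ≤ p.N ∧ p.γ ^ ((15 : ℝ) / 7) ≤ p.N := by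
    have := Q.c4
    have : 0 ≤ p.u2 * (p.η 1 + p.X2 + √((GP M S + p.G1 ^ 2) / p.u2) + S.θ * p.γ) := by positivity
    have : 0 ≤ (p.u2 * S.θ) ^ ((3 : ℝ) / 2) := by positivity
    have : 0 ≤ p.γ ^ ((15 : ℝ) / 7) := by positivity
    have : 0 ≤ p.γ * p.η 1 := by positivity
    have : 0 ≤ p.γ * p.X2 := by positivity
    constructor <;> linarith [sq_nonneg p.u2]
  have d5 : p.γ ^ 3 ≤ p.N := by
    refine le_trans ?_ d4.2
    rw [← rpow_natCast]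
    exact rpow_le_rpow_of_exponent_ge' γ0 g2 (by norm_num) (by norm_num)
  have a1 : E * p.τ ≤ 1 := by linarith [P.j1, mul_nonneg E0.le j0]
  have fN : p.N ≤ S.F * p.N := le_mul_of_one_le_left N0.le F1
  obtain ⟨q1, q2, q3, q4⟩ := q12 eθ m0 F1 θ1 F2 η0.le (H.ln.th1 1 W.l1 h.C1) c1
  have R0 : 0 ≤ p.Xp ^ ((1 : ℝ) / 3) := by have := P.Xp0.1; positivity
  have b1 : S.F ^ 2 * p.τ ^ 6 ≤ p.N ∧ p.τ ^ 9 ≤ p.N ^ 2 := by
    refine tau12 θ0 F1 τ0.le ((mul_le_mul_of_nonneg_right F4 τ0.le).trans a1) d3 ?_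
      (Q.c5 _ _ rfl rfl).1
    have e1 : p.τ ≤ S.θ + p.j + p.τ + p.γ := by linarith
    have := mul_le_mul e1 (pow_le_pow_left₀ τ0.le (le_min e1 P.τ1) 2) (by positivity)
      (by linarith)
    linarith [mul_nonneg X20 R0]
  have y0 : 0 ≤ p.γ / E := by positivity
  have y1 : p.γ / E ≤ p.γ := div_le_self γ0 (by linarith)
  have y2 : E * (p.γ / E) = p.γ := by field_simp
  have z0 : 0 ≤ p.η 1 / mf S 1 := by positivity
  have key : ∃ y, 0 ≤ y ∧ tu S p ≤ 3 * y ∧ S.θ * y ^ 3 ≤ p.N ∧ S.F ^ 2 * y ^ 6 ≤ p.N ∧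
      S.θ * p.γ * y ≤ S.F * p.N ∧ E * y ≤ 1 ∧ y ^ 9 ≤ p.N ^ 2 := by
    refine ⟨max p.τ (max p.γ (p.η 1 / mf S 1)), le_max_of_le_left τ0.le, by
      unfold tu
      linarith [le_max_left p.τ (max p.γ (p.η 1 / mf S 1)), le_max_left p.γ
        (p.η 1 / mf S 1), le_max_right p.γ (p.η 1 / mf S 1),
        le_max_right p.τ (max p.γ (p.η 1 / mf S 1))], ?_⟩
    rcases max_choice p.τ (max p.γ (p.η 1 / mf S 1)) with e | e <;> rw [e]
    · exact ⟨d3, b1.1, by linarith [Q.c6], a1, b1.2⟩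
    rcases max_choice p.γ (p.η 1 / mf S 1) with e | e <;> rw [e]
    · have k1 : S.F ^ 2 * p.γ ≤ 1 := by linarith [mul_le_mul_of_nonneg_right F2 γ0, P.γ1]
      have k2 : p.γ ^ 5 ≤ p.γ ^ 3 := pow_le_pow_of_le_one γ0 g2 (by norm_num)
      refine ⟨(mul_le_of_le_one_left (by positivity) θ1).trans d5, ?_, by linarith, P.γ1, ?_⟩
      · linarith [mul_le_mul_of_nonneg_right k1 (pow_nonneg γ0 5)]
      · calc p.γ ^ 9 ≤ p.γ ^ 6 := pow_le_pow_of_le_one γ0 g2 (by norm_num)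
          _ = (p.γ ^ 3) ^ 2 := by ring
          _ ≤ _ := pow_le_pow_left₀ (by positivity) d5 2
    · refine ⟨q1, q2, ?_, q3, q4⟩
      have : S.θ * p.γ * (p.η 1 / mf S 1) = S.F * (p.γ * p.η 1) := by rw [eθ]; field_simp
      rw [this]
      exact mul_le_mul_of_nonneg_left d4.1 (by linarith)
  obtain ⟨y, k0, k1, k2, k3, k4, k5, k6⟩ := key
  have tmu : tm E S p ≤ tu S p := by unfold tm tu; linarith
  have t0 : p.τ ≤ tm E S p := by unfold tm; linarith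
  have t00 := τ0.trans_le t0
  obtain ⟨u1, u2⟩ := P.ηc1 _ rfl
  have Lc1 : 1 ≤ p.Lc := g1.trans P.Lc1.1
  have ug : ∀ u : ℝ, E * u ^ 2 ≤ mf S 1 → u ^ 2 * p.γ / mf S 1 ≤ p.γ / E := fun u hu => by
    rw [div_le_div_iff₀ m0 E0]; linarith [mul_le_mul_of_nonneg_right hu γ0]
  have r0 : 0 ≤ p.Xp ^ ((1 : ℝ) / 3) / p.Lc := by positivity
  have ηc0 : 0 ≤ p.ηc / mf S 1 := by
    have w0 : 0 ≤ S.w3 1 ^ ((1 : ℝ) / 3) := by
      have := h.ms_pos zero_le_one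
      have := h.N0
      unfold Sc.w3; positivity
    have g0 : 0 ≤ p.G0 := by
      have := W.l0
      exact le_trans (by positivity) H.ln.g0a
    have x0 : 0 ≤ p.X3 := by
      have := W.l0
      exact le_trans (by positivity) H.ln.x3a
    have := h.N0
    exact div_nonneg (le_trans (by positivity) u1) m0.le
  have u00 := t00.le.trans tmu
  refine ⟨N0, m0, t00, t0, by unfold tm; linarith, tmu, by unfold tu; linarith,
    by linarith [mul_le_mul_of_nonneg_left k1 E0.le], ?_, ?_,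
    by linarith [pow_le_pow_left₀ u00 k1 9],
    by linarith [mul_le_mul_of_nonneg_left k1 (mul_nonneg θ0.le γ0)], ?_, ?_, u2, W.w1.trans t0,
    ?_, ?_, P.γ1, d2, d5, by linarith [sq_nonneg p.G1, sq_nonneg (S.θ * p.γ)]⟩
  · linarith [mul_le_mul_of_nonneg_left (pow_le_pow_left₀ u00 k1 3) θ0.le]
  · linarith [mul_le_mul_of_nonneg_left (pow_le_pow_left₀ u00 k1 6) (sq_nonneg S.F)]
  · have c1 : 1 ≤ cr S 1 := le_max_left _ _
    have w0 : 0 ≤ S.w3 1 ^ ((1 : ℝ) / 3) := by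
      have := h.ms_pos zero_le_one
      have := h.N0
      unfold Sc.w3; positivity
    have U0 : 0 ≤ G89.Ug S p.Lg 1 := by unfold G89.Ug Nd22.U Sz9.w1; positivity
    have U1 : G89.Ug S p.Lg 1 ≤ uw S p.Lg 1 := mul_le_mul_of_nonneg_right ((rpow_le_self_of_one_le
      (one_le_mul_of_one_le_of_one_le g1 c1) (by norm_num)).trans
        (mul_le_mul_of_nonneg_right (le_self_pow₀ g1 two_ne_zero) (by linarith))) w0
    have := ug _ ((mul_le_mul_of_nonneg_left (pow_le_pow_left₀ U0 U1 2) E0.le).trans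
      (H.ln.th2 1 W.l1 h.C1))
    unfold t1 tm
    rw [add_div]
    exact mul_le_mul_of_nonneg_left (by linarith) (by linarith)
  · rw [← div_le_iff₀ m0, add_div, add_div]
    have := ug _ u2
    have := P.τ0
    change _ + _ + (p.Lc ^ ((2 : ℝ) / 3) * S.w3 1 ^ ((1 : ℝ) / 3)) ^ 2 * p.γ / mf S 1 ≤ _
    unfold tm
    linarith
  · rw [← div_le_iff₀' (by linarith)]
    linarith [P.τ0]
  · unfold tm
    nlinarith [mul_nonneg E0.le τ0.le, mul_nonneg E0.le z0]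

/-- **the lines of a margin** `τ' ≤ W tu` -/
theorem Tm12.mar (U : Tm12 E S M p) (h : Cl S M) (γ0 : 0 ≤ p.γ) {W τ' : ℝ} (W0 : 0 ≤ W)
    (τ0 : 0 ≤ τ') (τ1 : τ' ≤ W * tu S p) :
    (3 * W ≤ E → τ' ≤ 1) ∧ S.θ * τ' ^ 3 ≤ 27 * W ^ 3 * p.N ∧
      S.F ^ 2 * τ' ^ 6 ≤ 729 * W ^ 6 * p.N ∧ τ' ^ 9 ≤ 19683 * W ^ 9 * p.N ^ 2 ∧
      S.θ * p.γ * τ' ≤ 3 * W * S.F * p.N := by
  have F1 := h.F1
  have θ0 := h.θ0
  have t0 := U.t0.le.trans U.mu
  refine ⟨fun hE => by linarith [mul_le_mul_of_nonneg_right hE t0, U.Et], ?_, ?_, ?_, ?_⟩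
  · linarith [mul_le_mul_of_nonneg_left (pow_le_pow_left₀ τ0 τ1 3) θ0.le,
      mul_le_mul_of_nonneg_left U.c3 (pow_nonneg W0 3)]
  · linarith [mul_le_mul_of_nonneg_left (pow_le_pow_left₀ τ0 τ1 6) (sq_nonneg S.F),
      mul_le_mul_of_nonneg_left U.c6 (pow_nonneg W0 6)]
  · linarith [pow_le_pow_left₀ τ0 τ1 9, mul_le_mul_of_nonneg_left U.c9 (pow_nonneg W0 9)]
  · linarith [mul_le_mul_of_nonneg_left τ1 (mul_nonneg θ0.le γ0),
      mul_le_mul_of_nonneg_left U.cg W0]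

end Crest.Agent.T156.Alt.L31

end
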