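import Crest.Agent.T156.TxX_84
import Crest.Agent.T156.TxU_12
import Crest.Agent.T156.TxN_48

/-!
Row 156, block (L) (helper49): crude size of the slow error and the width `τ` of zone I.
-/

set_option autoImplicit false

noncomputable section

namespace Crest.Agent.T156.Alt.X84

open Set Real
open Crest.Agent.T156.Alt.Mp9 Crest.Agent.T156.Alt.L69 Crest.Agent.T156.Alt.L31
open Crest.Agent.T156.Pr.Reg48 (Sm)

/-- the width `τ` of the line `h0` -/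
theorem h0_tau {θ μ ν W N x : ℝ} (θ0 : 0 < θ) (μ0 : 0 < μ) (W1 : 1 ≤ W) (hμ : θ ≤ W * μ)
    (N0 : 0 ≤ N) (ν0 : 0 ≤ ν) (hν : min 1 N ≤ ν ^ 5) (x0 : 0 ≤ x) (xW : x ≤ W)
    (h : Sm θ 1 N 1 x) : ∃ τ, 0 ≤ τ ∧ x ≤ (μ + ν ^ 2) * τ ∧ (μ + ν ^ 2) * τ ^ 3 ≤ W ^ 3 * N := by
  have q0 : 0 < μ + ν ^ 2 := by positivity
  have W0 : 0 < W := by linarith
  have W3 : 1 ≤ W ^ 3 := one_le_pow₀ W1
  have n4 : ν ^ 4 ≤ (μ + ν ^ 2) ^ 2 := by nlinarith [mul_nonneg μ0.le (sq_nonneg ν)]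
  have key : x ^ 3 ≤ W ^ 3 * N * (μ + ν ^ 2) ^ 2 := by
    rcases le_total 1 N with a | a
    · rw [min_eq_left a] at hν
      have b : 1 ≤ ν := (one_le_pow_iff_of_nonneg ν0 (by norm_num)).1 hν
      have b4 : 1 ≤ (μ + ν ^ 2) ^ 2 := (one_le_pow₀ b).trans n4
      exact ((pow_le_pow_left₀ x0 xW 3).trans (le_mul_of_one_le_right (by positivity) a)).trans
        (le_mul_of_one_le_right (by positivity) b4)
    rw [min_eq_right a] at hν
    have b : N ≤ ν ^ 4 := by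
      rcases le_total ν 1 with c | c
      · exact hν.trans (pow_le_pow_of_le_one ν0 c (by norm_num))
      · exact a.trans (one_le_pow₀ c)
    have c3 : x ^ 3 ≤ N ^ 2 → x ^ 3 ≤ W ^ 3 * N * (μ + ν ^ 2) ^ 2 := fun c => by
      have d1 := mul_le_mul_of_nonneg_left (b.trans n4) N0
      have d2 := mul_le_mul_of_nonneg_right W3 (show 0 ≤ N * (μ + ν ^ 2) ^ 2 by positivity)
      linarith
    rcases h with h | h | h
    · rw [le_antisymm h x0]; norm_num; positivity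
    · rcases le_total N θ with c | c
      · have d1 : x ≤ θ := (sq_le_sq₀ x0 θ0.le).1 (by nlinarith)
        have d2 : x ^ 3 ≤ θ ^ 2 * N := by nlinarith [mul_le_mul d1 h (by positivity) θ0.le]
        have d3 : θ ^ 2 ≤ W ^ 3 * (μ + ν ^ 2) ^ 2 := by
          have e1 : θ ≤ W * (μ + ν ^ 2) := by nlinarith [mul_nonneg W0.le (sq_nonneg ν)]
          have e2 := pow_le_pow_left₀ θ0.le e1 2
          have e3 := mul_le_mul_of_nonneg_right (pow_le_pow_right₀ W1 (show 2 ≤ 3 by norm_num))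
            (sq_nonneg (μ + ν ^ 2))
          linarith
        linarith [mul_le_mul_of_nonneg_right d3 N0]
      · have d1 : x ≤ N := (sq_le_sq₀ x0 N0).1 (by nlinarith)
        refine c3 ((pow_le_pow_left₀ x0 d1 3).trans (pow_le_pow_of_le_one N0 a (by norm_num)))
    · exact c3 (by linarith)
  refine ⟨x / (μ + ν ^ 2), by positivity, by rw [mul_div_cancel₀ _ q0.ne'], ?_⟩
  rw [show (μ + ν ^ 2) * (x / (μ + ν ^ 2)) ^ 3 = x ^ 3 / (μ + ν ^ 2) ^ 2 by field_simp,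
    div_le_iff₀ (by positivity)]
  exact key

/-- the width `τ` without loss for a small error -/
theorem h0_tau' {θ μ ν P N x : ℝ} (μ0 : 0 < μ) (P1 : 1 ≤ P) (hμ : θ ≤ P * μ) (N0 : 0 ≤ N)
    (ν0 : 0 ≤ ν) (hν : min 1 N ≤ ν ^ 5) (x0 : 0 ≤ x) (xP : P ^ 3 * x ≤ 1) (h : Sm θ 1 N 1 x) :
    ∃ τ, 0 ≤ τ ∧ x ≤ (μ + ν ^ 2) * τ ∧ (μ + ν ^ 2) * τ ^ 3 ≤ N := by
  have q0 : 0 < μ + ν ^ 2 := by positivity
  have x1 : x ≤ 1 := (le_mul_of_one_le_left x0 (one_le_pow₀ P1)).trans xP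
  have n4 : ν ^ 4 ≤ (μ + ν ^ 2) ^ 2 := by nlinarith [mul_nonneg μ0.le (sq_nonneg ν)]
  have key : x ^ 3 ≤ N * (μ + ν ^ 2) ^ 2 := by
    rcases le_total 1 N with a | a
    · rw [min_eq_left a] at hν
      have b : 1 ≤ ν := (one_le_pow_iff_of_nonneg ν0 (by norm_num)).1 hν
      exact (pow_le_one₀ x0 x1).trans
        (one_le_mul_of_one_le_of_one_le a ((one_le_pow₀ b).trans n4))
    rw [min_eq_right a] at hν
    rcases h with h | h | h
    · rw [le_antisymm h x0]; norm_num; positivity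
    · have d1 : x ^ 2 ≤ P * (μ * N) := by linarith [mul_le_mul_of_nonneg_right hμ N0]
      have d2 : x ^ 21 ≤ (μ * N) ^ 9 := by
        have e1 := mul_le_mul_of_nonneg_right (pow_le_pow_left₀ (sq_nonneg x) d1 9)
          (pow_nonneg x0 3)
        have e2 := mul_le_mul_of_nonneg_right (pow_le_one₀ (n := 3) (by positivity) xP)
          (show 0 ≤ (μ * N) ^ 9 by positivity)
        linarith [show x ^ 21 = (x ^ 2) ^ 9 * x ^ 3 by ring,
          show (P * (μ * N)) ^ 9 * x ^ 3 = (P ^ 3 * x) ^ 3 * (μ * N) ^ 9 by ring]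
      have d3 : μ ^ 9 * N ^ 2 ≤ (μ + ν ^ 2) ^ 14 := by
        have e1 := pow_le_pow_left₀ μ0.le (le_add_of_nonneg_right (sq_nonneg ν)) 9
        have e2 := pow_le_pow_left₀ (sq_nonneg ν) (le_add_of_nonneg_left μ0.le) 5
        have e3 := pow_le_pow_left₀ N0 hν 2
        have e4 : N ^ 2 ≤ (μ + ν ^ 2) ^ 5 := by linarith [show (ν ^ 5) ^ 2 = (ν ^ 2) ^ 5 by ring]
        exact (mul_le_mul e1 e4 (by positivity) (by positivity)).trans_eq (by ring)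
      refine le_of_pow_le_pow_left₀ (n := 7) (by norm_num) (by positivity) ?_
      have d4 := mul_le_mul_of_nonneg_left d3 (pow_nonneg N0 7)
      linarith [show (x ^ 3) ^ 7 = x ^ 21 by ring, show (μ * N) ^ 9 = N ^ 7 * (μ ^ 9 * N ^ 2) by ring,
        show (N * (μ + ν ^ 2) ^ 2) ^ 7 = N ^ 7 * (μ + ν ^ 2) ^ 14 by ring]
    · have b : N ≤ ν ^ 4 := by
        rcases le_total ν 1 with c | c
        · exact hν.trans (pow_le_pow_of_le_one ν0 c (by norm_num))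
        · exact a.trans (one_le_pow₀ c)
      linarith [mul_le_mul_of_nonneg_left (b.trans n4) N0]
  refine ⟨x / (μ + ν ^ 2), by positivity, by rw [mul_div_cancel₀ _ q0.ne'], ?_⟩
  rw [show (μ + ν ^ 2) * (x / (μ + ν ^ 2)) ^ 3 = x ^ 3 / (μ + ν ^ 2) ^ 2 by field_simp,
    div_le_iff₀ (by positivity)]
  exact key

variable {E : ℝ} {S : Sc} {M : Md} {m : ℕ} {a : ℝ} {c : Dt}

theorem Cy.E16 (Y : Cy E S M m a c) (hD : 16 * S.C ≤ c.D) : 16 ≤ c.D ∧ c.D ≤ E := by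
  have C1 := Y.tw.at'.cl.C1
  exact ⟨by linarith, (le_self_pow₀ (by linarith) (by norm_num)).trans Y.cw.DE⟩

/-- crude size of the slow error -/
theorem Cy.bE_crude (Y : Cy E S M m a c) (hD : 16 * S.C ≤ c.D) {s : ℝ} (hs : s ∈ Icc 0 (2 * S.C)) :
    0 ≤ bE S M m a c.p s ∧ bE S M m a c.p s ≤ c.D ∧ c.K * bE S M m a c.p s ≤ c.D ^ 2 := by
  have A := Y.tw.at'
  have C1 := A.cl.C1
  obtain ⟨d1, d2⟩ := Y.E16 hD
  have B := X48.at48 A Y.hx (by linarith) Y.cw.θ1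
  have U := tm12 Y.tw Y.hx Y.cw.θ1 (by linarith)
  have m1 : mf S 1 ≤ 1 := B.m0.2.trans Y.cw.θ1
  have e1 : c.p.η 1 ≤ 1 := by
    have a1 : c.p.η 1 / mf S 1 ≤ tu S c.p := by linarith [U.τη, U.mu, B.τ0]
    have a2 : tu S c.p ≤ 1 := by nlinarith [U.Et, U.t0, U.mu]
    exact ((div_le_one U.m0).1 (a1.trans a2)).trans m1
  have e2 : G89.Ug S c.p.Lg 1 ^ 2 ≤ 1 := by nlinarith [B.ug.2, sq_nonneg (G89.Ug S c.p.Lg 1)]
  have p := L0.Gd_le (Spl27.ap_of_ok A.okb.1) (t := s) (by rw [A.okb.2]; exact hs)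
  have q := L0.Gd_ge A.okb.1.1 s
  have r := Pp.Ode3.lvr_le_one A.okb.1.1 s
  have e3 : |L0.Gd (lb M S m a (2 * S.C)) s| ≤ 8 * S.C + 2 :=
    abs_le.2 ⟨by linarith, by linarith [hs.2]⟩
  have e4 : |uu M S m a (2 * S.C) s| ≤ 1 := Sc48.lvr_sub_le A.okh.1.1 A.okb.1.1 s
  have g0 := abs_nonneg (L0.Gd (lb M S m a (2 * S.C)) s)
  have u0 := abs_nonneg (uu M S m a (2 * S.C) s)
  have b0 : 0 ≤ bE S M m a c.p s := by
    have := B.η0
    have := B.X0.1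
    unfold bE; positivity
  have b1 : bE S M m a c.p s ≤ c.D := by
    have a1 := mul_le_of_le_one_left (add_nonneg g0 u0) e2
    have a2 := mul_le_of_le_one_left u0 B.X0.2
    unfold bE; linarith
  exact ⟨b0, b1, by rw [sq]; exact mul_le_mul Y.KD b1 b0 (by linarith)⟩

/-- the slow error is small -/
theorem Cy.bE_E (Y : Cy E S M m a c) (hD : 16 * S.C ≤ c.D) {s : ℝ} (hs : s ∈ Icc 0 (2 * S.C)) :
    E * (c.K * bE S M m a c.p s) ≤ c.D ^ 2 := by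
  have A := Y.tw.at'
  have C1 := A.cl.C1
  have F1 := A.cl.F1
  obtain ⟨d1, d2⟩ := Y.E16 hD
  have E0 : 0 ≤ E := by linarith
  have B := X48.at48 A Y.hx (by linarith) Y.cw.θ1
  have U := tm12 Y.tw Y.hx Y.cw.θ1 (by linarith)
  have m1 : mf S 1 ≤ 1 := B.m0.2.trans Y.cw.θ1
  have e1 : E * c.p.η 1 ≤ 3 := by
    have a1 : c.p.η 1 / mf S 1 ≤ tu S c.p := by linarith [U.τη, U.mu, B.τ0]
    have a2 : c.p.η 1 ≤ c.p.η 1 / mf S 1 := le_div_self B.η0 U.m0 m1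
    linarith [U.Et, mul_le_mul_of_nonneg_left (a2.trans a1) E0]
  have e2 : E * G89.Ug S c.p.Lg 1 ^ 2 ≤ 1 := B.ug.2.trans m1
  have e5 : E * c.p.X2 ≤ 1 := (Y.hx.ln.th3.trans (div_le_div_of_nonneg_right
    (A.cl.msm Y.tw.l1) (by linarith))).trans m1
  have p := L0.Gd_le (Spl27.ap_of_ok A.okb.1) (t := s) (by rw [A.okb.2]; exact hs)
  have q := L0.Gd_ge A.okb.1.1 s
  have r := Pp.Ode3.lvr_le_one A.okb.1.1 s
  have e3 : |L0.Gd (lb M S m a (2 * S.C)) s| ≤ 8 * S.C + 2 :=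
    abs_le.2 ⟨by linarith, by linarith [hs.2]⟩
  have e4 : |uu M S m a (2 * S.C) s| ≤ 1 := Sc48.lvr_sub_le A.okh.1.1 A.okb.1.1 s
  have g0 := abs_nonneg (L0.Gd (lb M S m a (2 * S.C)) s)
  have u0 := abs_nonneg (uu M S m a (2 * S.C) s)
  have b1 : E * bE S M m a c.p s ≤ c.D := by
    have a1 := mul_le_of_le_one_left (add_nonneg g0 u0) e2
    have a2 := mul_le_of_le_one_left u0 e5
    unfold bE; linarith
  have b2 := mul_le_mul Y.KD b1 (mul_nonneg E0 (Y.bE_crude hD hs).1) (by linarith)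
  linarith

theorem Nd.sb_mem {v v1 v2 : ℕ} (N : Nd S M m a c v v1 v2) (Y : Cy E S M m a c) :
    sb M m a (v + 1) ∈ Icc 0 (2 * S.C) :=
  Y.tw.at'.sb_mem (by
    have := N.o1; have := N.o2; have := N.mg.1; have := Y.tw.at'.cl.i3; omega)

/-- the slow error at the last node of the bulk -/
theorem Cy.KbE_one {v v1 v2 : ℕ} (Y : Cy E S M m a c) (hD : 16 * S.C ≤ c.D)
    (N : Nd S M m a c v v1 v2) : c.K * bE S M m a c.p (sb M m a (v + 1)) ≤ 1 := by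
  obtain ⟨d1, d2⟩ := Y.E16 hD
  have b := (Y.bE_E hD (N.sb_mem Y)).trans
    ((pow_le_pow_right₀ (by linarith) (by norm_num)).trans Y.cw.DE)
  exact le_of_mul_le_mul_left (by linarith) (show 0 < E by linarith)

end Crest.Agent.T156.Alt.X84

end
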