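import Crest.Agent.T156.TxX_84
import Crest.Agent.T156.TxU_12
import Crest.Agent.T156.TxN_48

/-!
Row 156, block (L) (helper7): the cost lines of zone I.
-/

set_option autoImplicit false

noncomputable section

namespace Crest.Agent.T156.Alt.X84

open Set Real
open Crest.Agent.T156.Alt.Mp9 Crest.Agent.T156.Alt.L69 Crest.Agent.T156.Alt.L31

variable {E : ℝ} {S : Sc} {M : Md} {m : ℕ} {a : ℝ} {c : Dt}

/-- `p.N` is below the unit of the costs -/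
theorem Cy.N_le7 (Y : Cy E S M m a c) : S.F ^ 10 * c.p.N ≤ Nb S M c := by
  have h := Y.tw.at'.cl
  have C0 := h.C0
  have F1 := h.F1
  have E1 : 1 ≤ E := (one_le_pow₀ Y.cw.D1).trans Y.cw.DE
  have t4 : c.t4 ≤ S.C := by
    by_contra hc
    have := not_le.1 hc
    nlinarith [Y.t4]
  have x0 : 0 ≤ c.X4 := by
    refine le_trans ?_ (Y.l4 S.C t4 le_rfl)
    have c1 : 0 ≤ cl S c.p.V S.C :=
      add_nonneg (mul_nonneg (zero_le_one.trans (le_max_left _ _)) C0.le) Y.hx.ln.V0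
    have w : 0 ≤ S.w3 S.C := div_nonneg (by linarith)
      (mul_nonneg (mul_nonneg h.N0.le C0.le) (h.ms_pos C0.le).le)
    have : 0 ≤ ws S c.p.V S.C := mul_nonneg (div_nonneg c1 C0.le) (rpow_nonneg w _)
    have : 0 ≤ min c.p.X (cl S c.p.V S.C ^ 3) := le_min Y.hx.ln.X0.le (by positivity)
    positivity
  have c0 : 0 ≤ cB M S c.p.η c.t4 S.C := Finset.sum_nonneg fun k _ =>
    mul_nonneg (L25.dx_nn h k) (add_nonneg (mul_nonneg (zero_le_one.trans (le_max_left _ _))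
      (div_nonneg (sq_nonneg _) (L25.mf_pos' h (h.s_nn k)).le))
      (le_min (by positivity) (div_nonneg (sq_nonneg _) (L25.mf_pos' h (h.s_nn k)).le)))
  have n0 := h.N0
  have : 0 ≤ 1 / (S.n : ℝ) ^ 3 := by positivity
  exact mul_le_mul_of_nonneg_left (by unfold Nn; linarith [sq_nonneg c.p.X2]) (by positivity)

theorem yg7 {u y : ℝ} (u0 : 0 ≤ u) (y0 : 0 ≤ y) : u ^ 2 * y ^ 3 ≤ u ^ 5 + y ^ 5 := by
  rcases le_total y u with h | h
  · linarith [mul_le_mul_of_nonneg_left (pow_le_pow_left₀ y0 h 3) (sq_nonneg u), pow_nonneg y0 5]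
  · linarith [mul_le_mul_of_nonneg_right (pow_le_pow_left₀ u0 h 2) (pow_nonneg y0 3),
      pow_nonneg u0 5]

/-- the floor `μ`, the mesh and the fifth power of the unit -/
theorem Cy.base7 (Y : Cy E S M m a c) {μ : ℝ} (hμ : μ = At.e48 S / (384 * S.C ^ 4 * S.F)) :
    0 < μ ∧ μ ≤ S.θ ∧ S.θ ≤ c.D ^ 2 * S.F * μ ∧ S.C * S.v ≤ c.p.N ∧ S.C * S.v ≤ c.p.τ ∧
      tu S c.p ^ 5 ≤ 243 * c.p.N := by
  have A := Y.tw.at'
  have h := A.cl
  have C0 := h.C0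
  have C1 := h.C1
  have F1 := h.F1
  have θ0 := h.θ0
  have θ1 := Y.cw.θ1
  have n0 := h.N0
  have n1 : (1 : ℝ) ≤ S.n := by exact_mod_cast h.n1
  have CD := Y.cw.Z.CD
  have c10 : 1 ≤ S.C ^ 10 := one_le_pow₀ C1
  have DE : c.D ≤ E := (le_self_pow₀ Y.cw.D1 (by norm_num)).trans Y.cw.DE
  have B := X48.at48 A Y.hx (by linarith) θ1
  have U := tm12 Y.tw Y.hx θ1 (by linarith)
  obtain ⟨t0, -, e0, -, e2⟩ := A.e_pack θ1
  have c4 : 1 ≤ S.C ^ 4 := one_le_pow₀ C1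
  have q1 : 1 ≤ 384 * S.C ^ 4 * S.F := by nlinarith
  have e3 : At.e48 S ≤ S.θ := (div_le_self (A.ms_pos t0.le).le C1).trans (h.ms1 _)
  have μ0 : 0 < μ := by rw [hμ]; positivity
  have e4 : At.e48 S = 384 * S.C ^ 4 * S.F * μ := by rw [hμ]; field_simp
  have vn : S.C * S.v ≤ 1 / S.n := by
    rw [le_div_iff₀ n0]
    have := mul_le_mul_of_nonneg_left (le_self_pow₀ n1 two_ne_zero) (mul_pos C0 h.v0).le
    linarith [Y.cw.Z.hv]
  refine ⟨μ0, (hμ ▸ div_le_self e0.le q1).trans e3, ?_, vn.trans ?_, vn.trans (B.a7.1.trans ?_), ?_⟩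
  · have a1 : S.C ^ 11 ≤ S.C ^ 20 := pow_le_pow_right₀ C1 (by norm_num)
    have a2 := pow_le_pow_left₀ (by positivity) CD 2
    have a3 : 221184 * S.C ^ 11 ≤ c.D ^ 2 := by linarith [pow_pos C0 11]
    rw [e4] at e2
    linarith [mul_le_mul_of_nonneg_right a3 (show 0 ≤ S.F * μ by positivity)]
  · have m0 := h.ms_pos zero_le_one
    have a1 : 1 / (S.n : ℝ) ≤ S.θ * S.w3 1 := by
      rw [Sc.w3, ← mul_div_assoc, div_le_div_iff₀ n0 (by positivity)]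
      have := mul_le_mul (h.ms1 1) F1 zero_le_one θ0.le
      nlinarith
    have a2 := mul_le_mul_of_nonneg_left Y.hx.lp.tw θ0.le
    have a3 := mul_pos θ0 (pow_pos Y.hx.lp.u0 3)
    linarith [Y.hx.lc.c3]
  · have L0 : 0 < c.p.Lc := by linarith [Y.tw.EL, Y.hx.lp.Lc1.1]
    have a1 : 0 ≤ c.p.Xp ^ ((1 : ℝ) / 3) / c.p.Lc :=
      div_nonneg (rpow_nonneg Y.hx.lp.Xp0.1.le _) L0.le
    have a2 : c.p.ηc ≤ c.p.τ * mf S 1 := (div_le_iff₀ U.m0).1 (by linarith [Y.hx.lp.τ0])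
    exact a2.trans (mul_le_of_le_one_right B.τ0 (B.m0.2.trans θ1))
  · have t0 := U.t0.le.trans U.mu
    have t3 : tu S c.p ≤ 3 := by nlinarith [U.Et]
    refine (pow_le_pow_iff_left₀ (by positivity) (by linarith [U.N0]) two_ne_zero).1 ?_
    linarith [mul_le_mul t3 U.c9 (by positivity) (by norm_num)]

/-- the cost lines of `ZI.z1e` -/
structure NL7 (S : Sc) (M : Md) (c : Dt) (μ ν N : ℝ) : Prop where
  n1 : S.C * S.v ≤ N
  n1' : S.C * S.v ≤ 1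
  hτ : 2 * (S.C * S.v) ≤ c.D ^ 44 * tc S c
  n2 : 2 * S.C ^ 5 * S.θ ^ 2 * S.v ^ 2 + S.C ^ 2 * GS M S (1 / (8 * S.C ^ 2)) S.C ≤ μ * N
  n4 : (μ + ν ^ 2) * (S.C * S.v + (c.D ^ 45 * tc S c + c.K * t1 S c.p + S.C * S.v)) ^ 3 ≤ N
  n5 : μ * ((c.D ^ 44 * tc S c) ^ 3 + c.p.γ ^ 3) ≤ N
  n6 : ν ^ 5 ≤ N
  n7 : (c.D ^ 44 * tc S c) ^ 5 + c.p.γ ^ 5 ≤ N

theorem Cy.nl7 (Y : Cy E S M m a c) {μ ν N : ℝ} (hμ : μ = At.e48 S / (384 * S.C ^ 4 * S.F))
    (ν0 : 0 ≤ ν) (hN : ν ^ 5 + c.D ^ 232 * (S.F ^ 5 * c.p.N) ≤ N) : NL7 S M c μ ν N := by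
  obtain ⟨μ0, μ1, μ2, v1, v2, t5⟩ := Y.base7 hμ
  have A := Y.tw.at'
  have h := A.cl
  have C0 := h.C0
  have C1 := h.C1
  have F1 := h.F1
  have θ0 := h.θ0
  have θ1 := Y.cw.θ1
  have CD := Y.cw.Z.CD
  have D1 := Y.cw.D1
  have c10 : 1 ≤ S.C ^ 10 := one_le_pow₀ C1
  have DE : c.D ≤ E := (le_self_pow₀ D1 (by norm_num)).trans Y.cw.DE
  have B := X48.at48 A Y.hx (by linarith) θ1
  have U := tm12 Y.tw Y.hx θ1 (by linarith)
  have N0 := U.N0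
  have cv := mul_pos C0 h.v0
  have γ0 := B.γ0.1
  have τ0 := B.τ0
  have t0 := U.t0.le.trans U.mu
  have tc0 : 0 ≤ tc S c := by unfold tc; positivity
  have tc1 : tc S c ≤ S.F * tu S c.p := mul_le_mul_of_nonneg_left U.cu (by linarith)
  have tc2 : c.p.τ ≤ tc S c := le_trans (by linarith) (le_mul_of_one_le_left (by linarith) F1)
  have t11 : t1 S c.p ≤ S.F * tu S c.p :=
    U.t1.trans (mul_le_mul_of_nonneg_left U.mu (by linarith))
  have K0 : 0 ≤ c.K := by linarith [Y.hx.l1, Y.lK]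
  have p44 : c.D ≤ c.D ^ 44 := le_self_pow₀ D1 (by norm_num)
  have p45 : c.D ^ 44 ≤ c.D ^ 45 := pow_le_pow_right₀ D1 (by norm_num)
  have p46 : 4 * c.D ^ 45 ≤ c.D ^ 46 := by
    rw [pow_succ' c.D 45]; exact mul_le_mul_of_nonneg_right (by linarith) (by positivity)
  have f0 : 0 ≤ S.F * tu S c.p := by positivity
  have k1 : S.C * S.v + (c.D ^ 45 * tc S c + c.K * t1 S c.p + S.C * S.v) ≤
      c.D ^ 46 * S.F * tu S c.p := by
    have a1 := mul_le_mul_of_nonneg_left tc1 (show 0 ≤ c.D ^ 45 by positivity)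
    have a2 := mul_le_mul (Y.KD.trans (p44.trans p45)) t11 Y.tw.t0 (by positivity)
    have a3 := mul_le_mul_of_nonneg_right (D1.trans (p44.trans p45)) f0
    have a4 := mul_le_mul_of_nonneg_right p46 f0
    linarith
  have k2 : c.D ^ 44 * tc S c ≤ c.D ^ 46 * S.F * tu S c.p := by
    have a1 := mul_le_mul_of_nonneg_right p45 tc0
    linarith [mul_nonneg K0 Y.tw.t0]
  have W1 : 1 ≤ c.D ^ 46 * S.F := one_le_mul_of_one_le_of_one_le (one_le_pow₀ D1) F1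
  have hW : 300 * ((c.D ^ 46 * S.F) ^ 5 * c.p.N) ≤ c.D ^ 232 * (S.F ^ 5 * c.p.N) :=
    calc _ = 300 * (c.D ^ 230 * (S.F ^ 5 * c.p.N)) := by ring
      _ ≤ c.D ^ 2 * (c.D ^ 230 * (S.F ^ 5 * c.p.N)) :=
        mul_le_mul_of_nonneg_right (by nlinarith) (by positivity)
      _ = _ := by ring
  have hD : c.D ^ 3 * S.F ≤ c.D ^ 46 * S.F :=
    mul_le_mul_of_nonneg_right (pow_le_pow_right₀ D1 (by norm_num)) (by linarith)
  have k0 : 0 ≤ S.C * S.v + (c.D ^ 45 * tc S c + c.K * t1 S c.p + S.C * S.v) := by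
    have := Y.tw.t0
    positivity
  have k0' : 0 ≤ c.D ^ 44 * tc S c := by positivity
  have hτ : 2 * (S.C * S.v) ≤ c.D ^ 44 * tc S c := by
    linarith [mul_le_mul_of_nonneg_right (show 2 ≤ c.D ^ 44 by linarith) tc0]
  generalize c.D ^ 46 * S.F = W at *
  have ν5 := pow_nonneg ν0 5
  have w1 : c.p.N ≤ W * c.p.N := le_mul_of_one_le_left N0.le W1
  have w3 : W * c.p.N ≤ W ^ 3 * c.p.N :=
    mul_le_mul_of_nonneg_right (le_self_pow₀ W1 (by norm_num)) N0.le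
  have w5 : W ^ 3 * c.p.N ≤ W ^ 5 * c.p.N :=
    mul_le_mul_of_nonneg_right (pow_le_pow_right₀ W1 (by norm_num)) N0.le
  have key : ∀ y, 0 ≤ y → y ≤ W * tu S c.p →
      μ * y ^ 3 ≤ 27 * (W ^ 3 * c.p.N) ∧ y ^ 5 ≤ 243 * (W ^ 5 * c.p.N) := fun y y0 y1 =>
    ⟨by linarith [(U.mar h γ0 (by linarith) y0 y1).2.1,
      mul_le_mul_of_nonneg_right μ1 (pow_nonneg y0 3)],
    by linarith [pow_le_pow_left₀ y0 y1 5,
      mul_le_mul_of_nonneg_left t5 (show 0 ≤ W ^ 5 by positivity)]⟩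
  have v3 : S.C * S.v ≤ 1 := by nlinarith [U.cu, U.Et]
  have g3 := U.γ3
  have z0 : 0 ≤ W ^ 5 * c.p.N := by positivity
  obtain ⟨a1, a2⟩ := key _ k0 k1
  obtain ⟨b1, b2⟩ := key _ k0' k2
  refine ⟨by linarith, v3, hτ, ?_, by linarith [yg7 ν0 k0], ?_, by linarith, ?_⟩
  · obtain ⟨g0, -, g1, -⟩ := B.Ga0
    unfold X48.Ga at g1
    have c2 : S.C ^ 2 ≤ S.C ^ 10 := pow_le_pow_right₀ C1 (by norm_num)
    have c3 : S.C ^ 3 ≤ S.C ^ 10 := pow_le_pow_right₀ C1 (by norm_num)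
    have y0 : 0 ≤ S.θ * c.p.N := by positivity
    have e1 : S.θ * (S.C * S.v) * (S.θ * (S.C * S.v)) ≤ S.θ * c.p.N * 1 :=
      mul_le_mul (mul_le_mul_of_nonneg_left v1 θ0.le) (mul_le_one₀ θ1 cv.le v3) (by positivity) y0
    have e2 := mul_le_mul c3 e1 (by positivity) (by positivity)
    have e3 := mul_le_mul_of_nonneg_left (show GS M S (1 / (8 * S.C ^ 2)) S.C ≤ S.θ * c.p.N by
      linarith) (sq_nonneg S.C)
    have e4 := mul_le_mul_of_nonneg_right c2 y0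
    have e5 := mul_le_mul_of_nonneg_right (show 3 * S.C ^ 10 ≤ c.D by linarith) y0
    have e6 := mul_le_mul_of_nonneg_left μ2 (show 0 ≤ c.D * c.p.N by positivity)
    have e7 := mul_le_mul_of_nonneg_right hD (show 0 ≤ μ * c.p.N by positivity)
    have e8 := mul_le_mul_of_nonneg_left (show W * c.p.N ≤ N by linarith) μ0.le
    linarith
  · linarith [mul_le_mul_of_nonneg_right (μ1.trans θ1) (pow_nonneg γ0 3)]
  · linarith [pow_le_pow_of_le_one γ0 B.γ0.2 (show 3 ≤ 5 by norm_num)]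

/-- the same with the unit `Nb` -/
theorem Cy.nl7' (Y : Cy E S M m a c) {μ ν N : ℝ} (hμ : μ = At.e48 S / (384 * S.C ^ 4 * S.F))
    (ν0 : 0 ≤ ν) (hN : ν ^ 5 + c.D ^ 232 * Nb S M c ≤ N) : NL7 S M c μ ν N := by
  have F1 := Y.tw.at'.cl.F1
  have D1 := Y.cw.D1
  have N0 : 0 ≤ c.p.N := by
    have := (Y.base7 hμ).2.2.2.1
    linarith [mul_pos Y.tw.at'.cl.C0 Y.tw.at'.cl.v0]
  have a1 := (mul_le_mul_of_nonneg_right (pow_le_pow_right₀ F1 (show 5 ≤ 10 by norm_num))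
    N0).trans Y.N_le7
  exact Y.nl7 hμ ν0 (by
    linarith [mul_le_mul_of_nonneg_left a1 (show 0 ≤ c.D ^ 232 by positivity)])

end Crest.Agent.T156.Alt.X84

end
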