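import Crest.Agent.T156.TxE_87

/-!
# Row 156, block (L): the residual in the top window, without `η` (helper87)
-/

set_option autoImplicit false

noncomputable section

namespace Crest.Agent.T156.Alt.G89.Cc

open Real Finset
open Crest.Agent.T156.Alt.E61 Crest.Agent.T156.Alt.Mp9 Crest.Agent.T156.Alt.Sz9
open Crest.Agent.T156.Alt.L69 (LN cr cl mf uw gg Phi)
open Crest.Agent.T156.Alt.Nd22 (ee Go U)

variable {D E Λ L ψ : ℝ} {S : Sc} {M : Md} {m : ℕ} {a T G1 l0 l V X Lg X2 X3 G0 W3 : ℝ}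
  {η : ℝ → ℝ} {Lc ηc j γ R : ℝ}
  (H : Cc D E Λ L ψ S M m a T G1 l0 l V X Lg X2 X3 G0 W3 η Lc ηc j γ R) {i k : ℕ}
include H

theorem go2 (lo : Lo S M i) (g : Gc S M m a l0 V L Lc i) (o : Mg S Lc i) (tp : S.J ≤ i + i / 3) :
    Go L S M m a l0 l V Lg η i ((D ^ 3 * ψ) ^ 3 * Lc) 0 :=
  { H.go lo g o with y0 := le_rfl, y1 := fun h => absurd h (not_lt.2 tp) }

theorem ee_le2 (hW : W3 ≤ D * X3) (lo : Lo S M i) (hi : i < S.J) :
    Λ * L ^ 5 * ee S X2 X3 G0 W3 ((D ^ 3 * ψ) ^ 3 * Lc) (M.s i) 0 ≤ 2 * (D ^ 27 * ψ ^ 6 * ηc) := by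
  have D4 := H.Z.D4
  have ψ1 := H.ψ1
  have L1 := H.Z.ni.L1
  have Λ1 := H.Z.Λ1
  have u0 := H.u0
  have G := H.Z.G00
  have X0 := H.Z.X20
  have X3' := H.Z.X30
  have n0 := H.Z.A.cl.N0
  have Lc1 := H.L1
  have p0 := H.parts.2.2
  obtain ⟨b, hb⟩ : ∃ b, b = D ^ 7 * ψ ^ 2 := ⟨_, rfl⟩
  have b2 : D ≤ b := hb ▸ (le_self_pow₀ (by linarith) (by norm_num)).trans
    (le_mul_of_one_le_right (by positivity) (one_le_pow₀ ψ1))
  have b1 : 1 ≤ b := by linarith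
  have a1 := H.U_le lo hi
  have a2 : √((D ^ 3 * ψ) ^ 3 * Lc * gg S (M.s i)) ≤ b * √(Lc * gg S 1) :=
    (H.sq_le lo hi).trans (by rw [hb]; gcongr; linarith; norm_num)
  rw [← hb] at a1
  have a0 : 0 ≤ U S ((D ^ 3 * ψ) ^ 3 * Lc) (M.s i) :=
    mul_nonneg (by positivity) (rpow_nonneg (H.Z.w3p (by linarith [H.ls lo, H.Z.lp])).le _)
  have b3 : b ≤ b ^ 3 := le_self_pow₀ b1 three_ne_zero
  have s0 := sqrt_nonneg X2
  have x3 : X3 ≤ ηc := by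
    linarith [H.parts.1, show 0 ≤ U S Lc 1 ^ 3 + (√(Lc * gg S 1) + G0 + X2) * (U S Lc 1 + √X2) +
      1 / S.n by positivity]
  have a3 : W3 ≤ b ^ 3 * ηc := hW.trans (mul_le_mul (b2.trans b3) x3 X3' (by positivity))
  have a4 : ee S X2 X3 G0 W3 ((D ^ 3 * ψ) ^ 3 * Lc) (M.s i) 0 ≤ 2 * (b ^ 3 * ηc) := by
    have p1 : b ≤ b ^ 2 := le_self_pow₀ b1 two_ne_zero
    have k1 : (√((D ^ 3 * ψ) ^ 3 * Lc * gg S (M.s i)) + G0 + X2) *
        (U S ((D ^ 3 * ψ) ^ 3 * Lc) (M.s i) + √X2) ≤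
        (b * (√(Lc * gg S 1) + G0 + X2)) * (b ^ 2 * (U S Lc 1 + √X2)) :=
      mul_le_mul (by linarith [le_mul_of_one_le_left G b1, le_mul_of_one_le_left X0 b1])
        (by linarith [mul_le_mul_of_nonneg_right p1 u0.le, le_mul_of_one_le_left s0 (b1.trans p1)])
        (by positivity) (by positivity)
    have k2 := pow_le_pow_left₀ a0 a1 3
    have k3 := mul_le_mul_of_nonneg_left H.parts.1 (show 0 ≤ b ^ 3 by positivity)
    have k4 := mul_le_mul_of_nonneg_right (b1.trans b3) (show 0 ≤ X3 + 1 / S.n by positivity)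
    unfold ee
    linarith
  calc _ ≤ Λ * L ^ 5 * (2 * (b ^ 3 * ηc)) := by gcongr
    _ ≤ D * D ^ 5 * (2 * (b ^ 3 * ηc)) := by gcongr; exacts [H.Z.ΛD, H.Z.LD]
    _ = _ := by rw [hb]; ring

/-- **parity data in the top window** -/
theorem sv2 (hW : W3 ≤ D * X3) (lo : Lo S M i) (tp : S.J ≤ i + i / 3)
    (g : Gc S M m a l0 V L Lc i) (o : Mg S Lc i) : u4 M m a i ≤ D ^ 8 * ψ ^ 2 * U S Lc 1 ∧
      ∃ G, Nd33.SV S M m a i G (D ^ 28 * ψ ^ 6 * ηc) ∧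
        G ≤ D ^ 9 * ψ ^ 2 * (√(Lc * gg S 1) + G0) := by
  have hi : i < S.J := by have := o.1; omega
  have D4 := H.Z.D4
  have ψ1 := H.ψ1
  have Λ1 := H.Z.Λ1
  have L1 := H.Z.ni.L1
  have p0 := H.parts.2.2
  have G00 := H.Z.G00
  obtain ⟨G, g1, g2, g3⟩ := H.Z.no.ng i _ _ (H.go2 lo g o tp)
  refine ⟨(H.sv lo g o).1, G, ⟨g1, (g2.trans (H.ee_le2 hW lo hi)).trans ?_⟩, g3.trans ?_⟩
  · calc _ ≤ D * (D ^ 27 * ψ ^ 6 * ηc) := by gcongr; linarith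
      _ = _ := by ring
  have b1 : 1 ≤ D ^ 6 * ψ ^ 2 :=
    one_le_mul_of_one_le_of_one_le (one_le_pow₀ (by linarith)) (one_le_pow₀ ψ1)
  calc _ ≤ D * D ^ 2 * (D ^ 6 * ψ ^ 2 * √(Lc * gg S 1) + D ^ 6 * ψ ^ 2 * G0) := by
        gcongr
        exacts [H.Z.ΛD, H.Z.LD, H.sq_le lo hi, le_mul_of_one_le_left G00 b1]
    _ = _ := by ring

/-- **(NcE) in the top window** -/
theorem nce2 (hW : W3 ≤ D * X3) (lo : Lo S M i) (tp : S.J ≤ i + i / 3) (h : i ≤ k)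
    (gi : Gc S M m a l0 V L Lc i) (gk : Gc S M m a l0 V L Lc k) (o : Mg S Lc k) {ρ : ℝ}
    (hρ : M.rb m a k - M.rb m a i ≤ ρ) :
    |res M S m a T k - res M S m a T i| ≤ D ^ 29 * ψ ^ 6 * (ηc + U S Lc 1 ^ 2 * γ) +
      D ^ 4 * (X2 + √(ρ * S.w3 1)) * ds M m a i k +
      D ^ 16 * ψ ^ 4 * U S Lc 1 ^ 2 * (M.z k - M.z i) := by
  have cl := H.Z.A.cl
  have hk : k < S.J := by have := o.1; omega
  have hi : i < S.J := by omega
  have D4 := H.Z.D4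
  have ψ1 := H.ψ1
  have γ0 := H.γ0
  have p0 := H.parts.2.2
  have X0 := H.Z.X20
  have d0 := ds_nn H.Z.A h
  rcases h.eq_or_lt with rfl | h'
  · rw [sub_self, sub_self, abs_zero]; positivity
  have lk := lo.mono cl h
  have a0 := H.Z.no.df T H.Z.A i _ _ k _ _ (H.go2 lo gi (o.anti cl (by linarith [H.L1]) h) tp)
    (H.go2 lk gk o (by omega)) h'
  have a1 := H.ee_le2 hW lo hi
  have a2 := H.ee_le2 hW lk hk
  have a3 := H.gd_le lo hi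
  have a4 := H.gd_le lk hk
  have a5 := mul_le_mul_of_nonneg_right H.Z.la_le d0
  have a6 := mul_le_mul H.Z.ΛD (H.clock lo h gi gk o hρ) (sum_nonneg fun y hy => mul_nonneg (by
    obtain ⟨y, rfl⟩ : ∃ x, y = x + 1 := ⟨y - 1, by have := (mem_Ioo.1 hy).1; omega⟩
    rw [Md67.dz_succ cl.leg]
    exact sub_nonneg.2 (cl.leg.zm (Nat.le_succ y))) (sq_nonneg _)) (by linarith)
  have a7 : 6 * (D ^ 27 * ψ ^ 6 * (ηc + U S Lc 1 ^ 2 * γ)) ≤ D ^ 2 * (D ^ 27 * ψ ^ 6 *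
      (ηc + U S Lc 1 ^ 2 * γ)) := by gcongr; nlinarith
  have a9 : 0 ≤ D ^ 27 * ψ ^ 6 * (U S Lc 1 ^ 2 * γ) := by positivity
  unfold gd ds at *
  linarith

/-- nodes near the corner are in the top window -/
theorem tp_of (h0 : S.j0 ≤ i) (hi : i < S.J) (h : D * (M.z (S.J - 1) - M.z i) ≤ 3) :
    S.J ≤ i + i / 3 := by
  have cl := H.Z.A.cl
  have c := cl.C0
  have v := cl.v0
  have j0 := cl.j0_lt
  have z1 := (cl.z_tel h0 (show i ≤ S.J - 1 by omega) (by omega)).1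
  rw [← mul_div_assoc, div_le_iff₀ c, Nat.cast_sub (by omega), Nat.cast_one] at z1
  have iJ : (i : ℝ) + 1 ≤ S.J := by exact_mod_cast hi
  have z0 : 0 ≤ M.z (S.J - 1) - M.z i :=
    le_of_mul_le_mul_right (by nlinarith [mul_nonneg (sub_nonneg.2 iJ) v.le]) c
  have a1 : 1 ≤ 2 * S.C ^ 2 * M.s S.J := H.lev ⟨by omega, by linarith [cl.s_nn S.J]⟩
  have a2 := mul_le_mul_of_nonneg_left (cl.s_bds le_rfl).2 (show 0 ≤ 2 * S.C ^ 2 by positivity)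
  have a4 := mul_le_mul_of_nonneg_right (H.Z.Cp (k := 4) (by norm_num)) z0
  have hv : 100 * S.C ^ 3 * S.v ≤ 1 := by
    have b1 : 100 * S.C ^ 2 ≤ S.n := by
      linarith [H.Z.Cp (k := 2) (by norm_num), H.Z.D_E, H.Z.En, show 0 < S.C ^ 2 by positivity]
    have b2 : (S.n : ℝ) ≤ (S.n : ℝ) ^ 2 := le_self_pow₀ (by exact_mod_cast cl.n1) two_ne_zero
    linarith [mul_le_mul_of_nonneg_left (b1.trans b2) (mul_pos c v).le, H.Z.hv]
  have a5 := mul_le_mul_of_nonneg_left z1 (show 0 ≤ S.C ^ 3 by positivity)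
  have b2 : (25 * ((S.J : ℝ) - i)) * S.v ≤ S.J * S.v :=
    le_of_mul_le_mul_left (by linarith) (show 0 < 2 * S.C ^ 3 by positivity)
  have b3 := le_of_mul_le_mul_right b2 v
  have b5 : (50 : ℝ) * S.v ≤ S.J * S.v :=
    le_of_mul_le_mul_left (by linarith) (show 0 < 2 * S.C ^ 3 by positivity)
  have b6 : 50 ≤ S.J := by exact_mod_cast le_of_mul_le_mul_right b5 v
  have b4 : 24 * S.J ≤ 25 * i := by exact_mod_cast (show (24 * S.J : ℝ) ≤ 25 * i by linarith)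
  omega

end Crest.Agent.T156.Alt.G89.Cc

end
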