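import Crest.Agent.T156.TopN_61
import Crest.Agent.T156.TxE2_87

/-!
# Row 156, block (L): short gaps below the corner with margins free of the bulk residual (helper61)
-/

set_option autoImplicit false

noncomputable section

namespace Crest.Agent.T156.Alt.Tx61

open Real Finset
open Crest.Agent.T156.Alt.Mp9 Crest.Agent.T156.Alt.G89 Crest.Agent.T156.Alt.L69
open Crest.Agent.T156.Alt.Sz9

/-- the gaps are short; `y` is the part of the bulk residual in the uniform error -/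
def NcB (E Λ : ℝ) (S : Sc) (M : Md) (m : ℕ) (a : ℝ) : Prop :=
  ∀ (G1 l0 l V X Lg X2 X3 G0 : ℝ) (η : ℝ → ℝ)
  (Xp Vt Lp u1 u2 j γ Lc ηc τ N T W Q ec la al θ τ' ρ y : ℝ) (Gn : ℕ → Prop) (U U' : ℕ),
  CeiG S M G1 → LN E S M l0 l V X Lg X2 X3 G0 η →
  LP E S M Xp Vt Lg Lp X2 X3 G0 G1 u1 u2 j γ Lc ηc τ η N →
  0 ≤ j → S.F ^ 40 ≤ E → T ≤ 2 * S.C → 1 ≤ W → W ^ 10 ≤ E → 1 ≤ Q → Q ^ 10 ≤ E →
  Ne S M m a T Gn U U' ec la al θ → M.s S.J ≤ 4 * M.s U → τ ≤ τ' → ρ ≤ Lc ^ 2 * τ' → 0 ≤ y →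
  y ≤ η 1 → ec ≤ W * S.F * (τ' * mf S 1 + y) → la ≤ W * S.F * (X2 + √(ρ * S.w3 1)) →
  al ≤ W * S.F * (Lc ^ ((2 : ℝ) / 3) * S.w3 1 ^ ((1 : ℝ) / 3)) ^ 2 → θ ≤ W / Lg →
  ∀ i k, Nx Gn U U' i k → M.z U + Λ * W * S.F * (τ' + y / mf S 1) ≤ M.z i →
    M.z k + Λ * W * S.F * (τ' + y / mf S 1) ≤ M.z U' →
    G89.ds M m a i k ^ 2 ≤ mf S 1 / Q + (Λ * W * Q * S.F * τ') ^ 2 ∧
      M.z k ≤ M.z i + (S.C * S.v + θ * G89.ds M m a i k)

set_option maxHeartbeats 800000 in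
/-- **short gaps** at a fixed size -/
theorem ncA : ∃ f : ℝ → ℝ, (∀ C, 0 ≤ f C) ∧ ∀ (E Λ : ℝ) (S : Sc) (M : Md) (m : ℕ) (a : ℝ),
    C33.Fn S M m a → f S.C ≤ Λ → f S.C ^ 10 ≤ E → NcB E Λ S M m a := by
  choose ε ε0 ε1 H using fun C => gapC (2 * C) C
  refine ⟨fun C => 4608 * C ^ 16 / ε C ^ 2, fun C => by positivity,
    fun E Λ S M m a F b1 b2 G1 l0 l V X Lg X2 X3 G0 η Xp Vt Lp u1 u2 j γ Lc ηc τ N T W Q ec
      la al θ τ' ρ y Gn U U' ce ln lp j0 F40 hT W1 WE Q1 QE Z hs hτ hρ η0 y1 he hl ha hθ i k n dn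
      up => ?_⟩
  have h := F.toCl
  have C1 := F.C1
  have C0 := F.C0
  have v0 := F.v0
  have F1 := h.F1
  have e0 := ε0 S.C
  have e1 := ε1 S.C
  have hU := Z.hU
  have hV := Z.hV
  have i1 := h.i1
  have i3 := h.i3
  have w0 := F.w3_pos one_pos
  obtain ⟨n1, n2, n3, -⟩ := id n
  have ds0 := ds_nn Z.A n2
  refine ⟨?_, ?_⟩
  swap
  · rcases n2.eq_or_lt with rfl | c
    · have := mul_nonneg Z.nn.2.2.2 ds0
      linarith [mul_pos C0 v0]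
    have d := (h.zs (k - 1) (by omega) (by omega)).2
    rw [show k - 1 + 1 = k by omega] at d
    linarith [Z.lab i k n c]
  have c16 : 1 ≤ S.C ^ 16 := one_le_pow₀ C1
  have k1 : 1 ≤ 4608 * S.C ^ 16 / ε S.C ^ 2 := by
    rw [le_div_iff₀ (by positivity)]
    linarith [pow_le_one₀ (n := 2) e0.le e1]
  have E1 : 1 ≤ E := (one_le_pow₀ k1).trans b2
  obtain ⟨D, D0, rfl⟩ : ∃ D : ℝ, 0 ≤ D ∧ E = D ^ 10 :=
    ⟨E ^ (((10 : ℕ) : ℝ)⁻¹), by positivity, (rpow_inv_natCast_pow (by linarith) (by norm_num)).symm⟩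
  have rt : ∀ {x : ℝ}, x ^ 10 ≤ D ^ 10 → x ≤ D := fun e => le_of_pow_le_pow_left₀ (by norm_num) D0 e
  have hΛ : 4608 * S.C ^ 16 ≤ ε S.C ^ 2 * Λ := by
    rw [← div_le_iff₀' (by positivity)]; exact b1
  have hD : 4608 * S.C ^ 16 ≤ ε S.C ^ 2 * D := by
    rw [← div_le_iff₀' (by positivity)]; exact rt b2
  have FD : S.F ≤ D := rt ((pow_le_pow_right₀ F1 (by norm_num)).trans F40)
  have m1 : 0 < S.ms 1 := F.ms_pos zero_le_one
  have μ0 : 0 < mf S 1 := by unfold mf; positivity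
  obtain ⟨s, s0, hs2⟩ : ∃ s : ℝ, 0 < s ∧ s ^ 2 = mf S 1 := ⟨√(mf S 1), by positivity, sq_sqrt μ0.le⟩
  have l00 : 0 ≤ l0 := le_trans (mul_nonneg (by linarith) (h.s_nn _)) ln.l0s
  have ll : 0 ≤ l := l00.trans ln.l0l
  have l1 : l ≤ 1 := (le_mul_of_one_le_left ll E1).trans ln.l1
  have f1 : D ^ 10 * y ≤ s ^ 3 := ((mul_le_mul_of_nonneg_left y1 (by positivity)).trans
    (ln.th1 1 l1 C1)).trans_eq (by
      rw [← hs2, ← rpow_natCast, ← rpow_mul s0.le, ← rpow_natCast]; norm_num)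
  have f2 : D ^ 10 * X2 ≤ s ^ 2 := ln.th3.trans (by
    rw [hs2]; unfold mf; gcongr; exact h.msm l1)
  have X20 : 0 ≤ X2 := le_trans (by positivity) ln.x2a
  have X30 : 0 ≤ X3 := le_trans (by positivity) ln.x3a
  have G00 : 0 ≤ G0 := le_trans (by positivity) ln.g0a
  have θ0 := h.θ0
  have Xp0 := lp.Xp0.1
  have Lg1 : 1 ≤ Lg := le_trans (one_le_mul_of_one_le_of_one_le E1 (one_le_pow₀ F1)) ln.Lg0
  have Lc1 : 1 ≤ Lc := Lg1.trans lp.Lc1.1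
  have n1' := F.n1
  obtain ⟨g1, f4⟩ := lp.ηc1 _ rfl
  have uω : w1 S 1 ≤ Lc ^ ((2 : ℝ) / 3) * S.w3 1 ^ ((1 : ℝ) / 3) :=
    le_mul_of_one_le_left (rpow_nonneg w0.le _) (one_le_rpow Lc1 (by norm_num))
  have u3 : (Lc ^ ((2 : ℝ) / 3) * S.w3 1 ^ ((1 : ℝ) / 3)) ^ 3 = Lc ^ 2 * S.w3 1 := by
    rw [mul_pow, rp3 w0.le, rp23 (by linarith)]
  have u0 : 0 ≤ Lc ^ ((2 : ℝ) / 3) * S.w3 1 ^ ((1 : ℝ) / 3) := by positivity
  generalize Lc ^ ((2 : ℝ) / 3) * S.w3 1 ^ ((1 : ℝ) / 3) = u at *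
  have g2 : 0 ≤ u ^ 2 * (S.θ + j + Xp ^ ((1 : ℝ) / 3)) := by positivity
  have g3 : 0 ≤ (√(Lc * gg S 1) + G0 + X2) * (u + √X2) := by positivity
  have g4 : (0 : ℝ) < 1 / S.n := by positivity
  have g5 : 0 ≤ u ^ 3 := by positivity
  have R0 : 0 < Xp ^ ((1 : ℝ) / 3) / Lc := by positivity
  have g6 : 0 ≤ ηc / mf S 1 := div_nonneg (by linarith) μ0.le
  have t0 : 0 < τ' := by linarith [lp.τ0]
  have f5 : ηc ≤ τ' * s ^ 2 := by
    rw [hs2, ← div_le_iff₀ μ0]; linarith [lp.τ0]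
  have vω := B61.v_le_w F one_pos C1
  have ωτ : w1 S 1 ≤ τ' := le_of_pow_le_pow_left₀ three_ne_zero t0.le (by
    rw [w1, rp3 w0.le]; exact lp.tw.trans (pow_le_pow_left₀ (by linarith [lp.τ0]) hτ 3))
  have f7 : √(ρ * S.w3 1) ≤ τ' ^ 2 + u ^ 2 :=
    (sqrt_le_sqrt (mul_le_mul_of_nonneg_right hρ w0.le)).trans (young4 (by
      rw [sq_sqrt (by positivity), u3]; exact le_of_eq (by ring)))
  have fx : (1 : ℝ) / (m + 1) ≤ ηc := by
    have d : (S.n : ℝ) ≤ m := by exact_mod_cast F.m1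
    have : (1 : ℝ) / (m + 1) ≤ 1 / S.n := by gcongr; linarith
    linarith
  have f8 : D ^ 9 * S.F ^ 2 * θ ≤ 1 :=
    calc _ ≤ D ^ 9 * S.F ^ 2 * (D / Lg) := mul_le_mul_of_nonneg_left
          (hθ.trans (div_le_div_of_nonneg_right (rt WE) (by linarith))) (by positivity)
      _ = D ^ 10 * S.F ^ 2 / Lg := by ring
      _ ≤ 1 := (div_le_one (by positivity)).2 ln.Lg0
  have p0 : 0 < s ^ 2 / Q + (Λ * W * Q * S.F * τ') ^ 2 := by positivity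
  obtain ⟨r1, r2, r3, r4, r5, r6, r7, r8⟩ := num (w := √(s ^ 2 / Q + (Λ * W * Q * S.F * τ') ^ 2))
    (ηc := τ' * s ^ 2) (ec := ec) e0 e1 C1 hΛ hD W1 (rt WE) Q1 (rt QE) F1 FD s0 f1 η0 f2 u0 (by linarith)
    (fx.trans f5) (by rwa [hs2]) le_rfl t0 v0.le (vω.trans (by gcongr)) (vω.trans (by gcongr)) f7
    Z.nn.2.2.2 f8 (by rwa [hs2]) hl Z.nn.2.2.1 ha (sqrt_pos.2 p0) (sq_sqrt p0.le)
  have mg : 2304 * S.C ^ 16 / ε S.C * W * S.F * (τ' + y / s ^ 2) ≤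
      Λ * W * S.F * (τ' + y / mf S 1) := by
    rw [hs2]
    gcongr
    rw [div_le_iff₀' e0]
    have Λ0 : 0 ≤ Λ := by linarith
    linarith [mul_le_mul_of_nonneg_right (pow_le_of_le_one e0.le e1 two_ne_zero) Λ0]
  have sU : 1 ≤ 12 * S.C ^ 4 * M.s U := by
    have d1 := mul_le_mul_of_nonneg_left (F.s_mem (le_refl S.J)).1 (pow_pos C0 3).le
    have d2 := mul_le_mul_of_nonneg_left hs (pow_pos C0 4).le
    linarith [F.J_lo]
  rw [← hs2, ← sq_sqrt p0.le]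
  refine H S.C Z le_rfl hT r1 (fun x z a1 a2 a3 => ?_) ?_ (sqrt_pos.2 p0) (by positivity)
    (by positivity) (by positivity) r2 r3 r4 r5 r6 r7 r8 n (by linarith) (by linarith)
  · refine le_trans ?_ (h.H_tel (by omega) a2 (by omega))
    have d0 : (0 : ℝ) ≤ (z : ℝ) - x := sub_nonneg.2 (by exact_mod_cast a2)
    have d1 : S.ms 1 ≤ 576 * S.C ^ 8 * S.ms (M.s x) :=
      ((h.msm (sU.trans (by gcongr; exact h.sm a1))).trans (h.ms_mul (h.s_nn x)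
        (by linarith [one_le_pow₀ (n := 4) C1]))).trans_eq (by ring)
    calc _ ≤ 576 * S.C ^ 8 * S.ms (M.s x) / S.F / (576 * S.C ^ 10) *
          (((z : ℝ) - x) * (S.C * S.v)) := by
          have := F.ms_pos (h.s_nn x)
          refine mul_le_mul ?_ (h.z_tel (by omega) a2 (by omega)).2
            (sub_nonneg.2 (h.leg.zm a2)) (by positivity)
          rw [hs2]; unfold mf; gcongr
      _ = _ := by field_simp
  · have d0 : (0 : ℝ) ≤ (k : ℝ) - i := sub_nonneg.2 (by exact_mod_cast n2)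
    have d1 : ∀ y, y ≤ S.J → S.ms (M.s y) ≤ 4 * S.C ^ 2 * S.ms 1 := fun y hy =>
      (h.msm (((h.sm (hy.trans i3)).trans h.sT).trans_eq (mul_one _).symm)).trans
        (h.ms_mul zero_le_one C1)
    refine (tel_le (c := S.C * S.F * (4 * S.C ^ 2 * S.ms 1) * S.v) n2 fun y a1 a2 =>
      (ce.up y (by omega) (by omega)).trans (by gcongr; exact d1 y (by omega))).trans ?_
    refine le_trans (le_of_eq ?_) (mul_le_mul_of_nonneg_left (h.z_tel (by omega) n2 (by omega)).1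
      (by positivity))
    rw [hs2]; unfold mf; field_simp

/-- **(NcG2)** (take `y = 0`) -/
theorem ncG2 : CL NcB := by
  obtain ⟨f, f0, H⟩ := ncA
  refine B61.of_kx' (fun C => max (f C) 1 ^ 10) 1 fun E lam Λ S M m a K b1 b2 b3 =>
    H E Λ S M m a K.fn ?_ ((pow_le_pow_left₀ (f0 _) (le_max_left _ _) 10).trans (b1.trans b2))
  linarith [le_max_left (f S.C) 1, le_self_pow₀ (le_max_right (f S.C) 1) (show 10 ≠ 0 by norm_num)]

/-- the residual between good nodes below the corner, with the part `y` of the bulk residual -/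
def Nce (D ψ : ℝ) (S : Sc) (M : Md) (m : ℕ) (a T l0 V L X2 Lc ηc γ y : ℝ) : Prop :=
  ∀ (i k : ℕ) (ρ : ℝ), Lo S M i → S.J ≤ i + i / 3 → i ≤ k → Gc S M m a l0 V L Lc i →
    Gc S M m a l0 V L Lc k → Mg S Lc k → M.rb m a k - M.rb m a i ≤ ρ → |res M S m a T k - res M S m a T i| ≤
      D ^ 29 * ψ ^ 6 * (ηc + y + Nd22.U S Lc 1 ^ 2 * γ) +
      D ^ 4 * (X2 + √(ρ * S.w3 1)) * G89.ds M m a i k +
      D ^ 16 * ψ ^ 4 * Nd22.U S Lc 1 ^ 2 * (M.z k - M.z i)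

namespace Ck

variable {D E Λ L ψ : ℝ} {S : Sc} {M : Md} {m : ℕ} {a T G1 l0 l V X Lg X2 X3 G0 W3 : ℝ}
  {η : ℝ → ℝ} {Xp Vt Lp u1 u2 j γ Lc ηc τ N t : ℝ}
  (K : Ck D E Λ L ψ S M m a T G1 l0 l V X Lg X2 X3 G0 W3 η Xp Vt Lp u1 u2 j γ Lc ηc τ N t)
include K

theorem nce1 : Nce D ψ S M m a T l0 V L X2 Lc ηc γ (η 1) :=
  fun _ _ _ lo _ h gi gk o hρ => K.H.nce' lo h gi gk o hρ

theorem nce0 (hW : W3 ≤ D * X3) : Nce D ψ S M m a T l0 V L X2 Lc ηc γ 0 :=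
  fun _ _ _ lo tp h gi gk o hρ => by rw [add_zero]; exact K.H.nce2 hW lo tp h gi gk o hρ

/-- **three good nodes below the corner**, label distances at least `C om` -/
theorem three {om : ℝ} (h0 : 0 ≤ om) (h1 : 4 * D * (S.C * om) ≤ 1) : ∃ v1 v2 v3, S.j0 ≤ v1 ∧
    v1 < v2 ∧ v2 < v3 ∧ v3 < S.J ∧ Gc S M m a l0 V L Lc v1 ∧ Gc S M m a l0 V L Lc v2 ∧
    Gc S M m a l0 V L Lc v3 ∧ Lo S M v1 ∧ Mg S Lc v3 ∧ M.z v1 + S.C * om < M.z v2 ∧
    M.z v2 + S.C * om < M.z v3 ∧ M.z v3 + D * t ≤ M.z (S.J - 1) ∧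
    om ≤ ((v2 : ℝ) - v1) * S.v ∧ om ≤ ((v3 : ℝ) - v2) * S.v ∧
    M.z (S.J - 1) - M.z v1 ≤ 4 * (D * t) + 2 * (S.C * om) ∧ D * (M.z (S.J - 1) - M.z v1) ≤ 1 := by
  have h := K.H.Z.A.cl
  have C0 := h.C0
  have D4 := K.H.Z.D4
  obtain ⟨-, r2, r3⟩ := K.Rt
  have t0 : 0 < t := K.Rτ.2.2.trans_le r2
  have Dt : 0 < D * t := by positivity
  have p0 : 0 ≤ S.C * om := by positivity
  have p1 : 0 ≤ D * (S.C * om) := by positivity
  have p2 : 0 < D * (D * t) := by positivity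
  have d : D * (D * t) ≤ 1 / 1000 := by
    have := mul_le_mul_of_nonneg_right (D4.trans (le_self_pow₀ (by linarith)
      (show 38 ≠ 0 by norm_num))) p2.le
    linarith
  obtain ⟨v1, a1, a2, a3, -, a5, a6⟩ := K.win (x := M.z (S.J - 1) - 4 * (D * t) - 2 * (S.C * om))
    (by linarith) (by linarith)
  obtain ⟨v2, b1, b2, b3, -, b5, b6⟩ := K.win (x := M.z (S.J - 1) - 3 * (D * t) - S.C * om)
    (by linarith) (by linarith)
  obtain ⟨v3, c1, c2, c3, c4, c5, c6⟩ := K.win (x := M.z (S.J - 1) - 2 * (D * t))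
    (by linarith) (by linarith)
  have e1 : v1 < v2 := h.leg.zm.reflect_lt (by linarith)
  have e2 : v2 < v3 := h.leg.zm.reflect_lt (by linarith)
  have z1 : D * (M.z (S.J - 1) - M.z v1) ≤ 1 := by
    linarith [mul_le_mul_of_nonneg_left a5.le (show 0 ≤ D by linarith)]
  exact ⟨v1, v2, v3, a1, e1, e2, c2, a3, b3, c3, K.H.lo_of a1 a2 z1, c4, by linarith, by linarith,
    by linarith, le_of_mul_le_mul_left (by linarith [(h.z_tel a1 e1.le b2).2]) C0,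
    le_of_mul_le_mul_left (by linarith [(h.z_tel b1 e2.le c2).2]) C0, by linarith, z1⟩

/-- the smallness of the margins -/
theorem small (F40 : S.F ^ 40 ≤ E) (DE : D ^ 300 ≤ E) : D ^ 100 * S.F * t ≤ 1 / 1000 := by
  have D4 := K.H.Z.D4
  have F1 := K.H.Z.A.cl.F1
  have E1 := K.H.Z.E1
  have t0 : 0 < t := K.Rτ.2.2.trans_le K.Rt.2.1
  have D1 : 1 ≤ D := by linarith
  have a1 : D ^ 101 * S.F ≤ E := by
    refine le_of_pow_le_pow_left₀ two_ne_zero (by linarith) ?_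
    rw [mul_pow, ← pow_mul, sq E]
    exact mul_le_mul ((pow_le_pow_right₀ D1 (by norm_num)).trans DE)
      ((pow_le_pow_right₀ F1 (by norm_num)).trans F40) (by positivity) (by linarith)
  have a2 := mul_le_mul_of_nonneg_right a1 t0.le
  have a3 := mul_le_mul_of_nonneg_right D4 (show 0 ≤ D ^ 100 * S.F * t by positivity)
  linarith [K.t1]

/-- the three nodes with the widths `D ^ 40 F t` -/
theorem three' (F40 : S.F ^ 40 ≤ E) (DE : D ^ 300 ≤ E) : ∃ v1 v2 v3, S.j0 ≤ v1 ∧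
    v1 < v2 ∧ v2 < v3 ∧ v3 < S.J ∧ Gc S M m a l0 V L Lc v1 ∧ Gc S M m a l0 V L Lc v2 ∧
    Gc S M m a l0 V L Lc v3 ∧ Lo S M v1 ∧ Mg S Lc v3 ∧ M.z v1 + D ^ 40 * S.F * t ≤ M.z v2 ∧
    M.z v2 + D ^ 40 * S.F * t ≤ M.z v3 ∧ D ^ 40 * S.F * t ≤ ((v2 : ℝ) - v1) * S.v ∧
    D ^ 40 * S.F * t ≤ ((v3 : ℝ) - v2) * S.v ∧ M.z (S.J - 1) - M.z v1 ≤ D ^ 42 * S.F * t := by
  have h := K.H.Z.A.cl
  have D4 := K.H.Z.D4
  have F1 := h.F1
  have C0 := h.C0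
  have t0 : 0 < t := K.Rτ.2.2.trans_le K.Rt.2.1
  have c1 : S.C ≤ D := by linarith [K.H.Z.Cp (k := 1) (by norm_num)]
  have p0 : 0 < D ^ 40 * S.F * t := by positivity
  have a1 := mul_le_mul_of_nonneg_right c1 p0.le
  have a2 := mul_le_mul_of_nonneg_left a1 (show 0 ≤ D by linarith)
  have a3 : D ^ 42 * S.F * t ≤ D ^ 100 * S.F * t := by gcongr; linarith; norm_num
  have a4 := mul_le_mul_of_nonneg_right D4 (show 0 ≤ D * (D ^ 40 * S.F * t) by positivity)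
  have a5 : D * t ≤ D * (D ^ 40 * S.F * t) := mul_le_mul_of_nonneg_left (le_mul_of_one_le_left
    t0.le (one_le_mul_of_one_le_of_one_le (one_le_pow₀ (by linarith)) F1)) (by linarith)
  have a6 := le_mul_of_one_le_left p0.le h.C1
  have a7 : 0 < D * t := by positivity
  obtain ⟨v1, v2, v3, b1, b2, b3, b4, b5, b6, b7, b8, b9, c1, c2, -, c4, c5, c6, -⟩ :=
    K.three p0.le (by linarith [K.small F40 DE])
  exact ⟨v1, v2, v3, b1, b2, b3, b4, b5, b6, b7, b8, b9, by linarith, by linarith, c4, c5,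
    by linarith⟩

/-- the net between two good nodes -/
theorem ne' {y : ℝ} (y0 : 0 ≤ y) (G : Nce D ψ S M m a T l0 V L X2 Lc ηc γ y) {U U' : ℕ} {ρ : ℝ}
    (h0 : S.j0 ≤ U) (hz : D * (M.z (S.J - 1) - M.z U) ≤ 1)
    (gU : Gc S M m a l0 V L Lc U) (gV : Gc S M m a l0 V L Lc U') (o : Mg S Lc U') (hU : U ≤ U')
    (hρ : M.rb m a U' - M.rb m a U ≤ ρ) : Lo S M U ∧ Ne S M m a T (Gc S M m a l0 V L Lc) U U'
      (D ^ 29 * ψ ^ 6 * (ηc + y + Nd22.U S Lc 1 ^ 2 * γ)) (D ^ 4 * (X2 + √(ρ * S.w3 1)))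
      (D ^ 16 * ψ ^ 4 * Nd22.U S Lc 1 ^ 2) (4 * S.C / Lc) := by
  obtain ⟨lo, Z⟩ := K.ne h0 hz gU gV o hU hρ
  have h := K.H.Z.A.cl
  have D4 := K.H.Z.D4
  have ψ1 := K.H.ψ1
  have p0 := K.H.parts.2.2
  have γ0 := K.H.γ0
  have rm := rb_mono (M := M) (a := a) K.H.Z.A.m_pos
  have tp := K.H.tp_of h0 (by have := o.1; omega) (by linarith)
  exact ⟨lo, Z.A, Z.hU, Z.hV, gU, gV, ⟨by positivity, Z.nn.2⟩, fun i k a1 a2 a3 gi gk =>
    G i k ρ (lo.mono h a1) (by omega) a2 gi gk (o.anti h (by linarith [K.H.L1]) a3)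
      (by linarith [rm a1, rm a3]), Z.lab⟩

set_option maxHeartbeats 800000 in
/-- **short gaps** from `NcB` at the loss `D` -/
theorem sh {y Q : ℝ} (B : NcB E D S M m a) (y0 : 0 ≤ y) (y1 : y ≤ η 1) (hy : y / mf S 1 ≤ t)
    (G : Nce D ψ S M m a T l0 V L X2 Lc ηc γ y) (hT : T ≤ 2 * S.C) (hψ : ψ ^ 6 ≤ S.F)
    (F40 : S.F ^ 40 ≤ E) (DE : D ^ 300 ≤ E) (Q1 : 1 ≤ Q) (QE : Q ^ 10 ≤ E) {U U' i k : ℕ}
    (n : Nx (Gc S M m a l0 V L Lc) U U' i k) (h0 : S.j0 ≤ i) (hk : k < S.J)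
    (hz : 2 * D * (M.z (S.J - 1) - M.z i) ≤ 1)
    (up : M.z k + 4 * (D ^ 30 * S.F * t) ≤ M.z (S.J - 1)) :
    G89.ds M m a i k ^ 2 ≤ mf S 1 / Q + (D ^ 30 * Q * S.F * t) ^ 2 := by
  obtain ⟨-, n2, -, gi, gk, nb⟩ := n
  have h := K.H.Z.A.cl
  have E1 := K.H.Z.E1
  have D4 := K.H.Z.D4
  have D1 : 1 ≤ D := by linarith
  have C0 := h.C0
  have F1 := h.F1
  have L1 := K.H.L1
  have EL := K.H.EL
  have μ0 := K.mf0
  have ψ1 := K.H.ψ1
  obtain ⟨r1, r2, -⟩ := K.Rt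
  obtain ⟨-, s2, s3⟩ := K.Rτ
  have t0 : 0 < t := s3.trans_le r2
  have sm := K.small F40 DE
  obtain ⟨x, hx⟩ : ∃ x, x = D ^ 30 * S.F * t := ⟨_, rfl⟩
  have x1 : 2 * (D * t) ≤ x :=
    calc _ = 2 * D * 1 * t := by ring
      _ ≤ _ := by
        rw [hx]; gcongr
        calc 2 * D ≤ D * D := by gcongr; linarith
          _ = D ^ 2 := by ring
          _ ≤ _ := K.H.Z.Dp (by norm_num)
  have x2 : D * x ≤ 1 / 1000 :=
    calc _ = D ^ 31 * S.F * t := by rw [hx]; ring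
      _ ≤ D ^ 100 * S.F * t := by gcongr; norm_num
      _ ≤ _ := sm
  have x3 : D * x ≤ Lc * t := by
    have a1 : D ^ 31 * S.F ≤ E := by
      refine le_of_pow_le_pow_left₀ two_ne_zero (by linarith) ?_
      rw [mul_pow, ← pow_mul, sq E]
      exact mul_le_mul ((pow_le_pow_right₀ D1 (by norm_num)).trans DE)
        ((pow_le_pow_right₀ F1 (by norm_num)).trans F40) (by positivity) (by linarith)
    calc _ = D ^ 31 * S.F * t := by rw [hx]; ring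
      _ ≤ _ := mul_le_mul_of_nonneg_right (a1.trans EL) t0.le
  have Dt : 0 < D * t := by positivity
  have DDt := mul_le_mul_of_nonneg_left x1 (show 0 ≤ D by linarith)
  have zik := h.leg.zm n2
  have zz : 0 ≤ D * (M.z k - M.z i) := mul_nonneg (by linarith) (by linarith)
  have mg : D * D ^ 29 * S.F * (t + y / mf S 1) ≤ 2 * x :=
    (mul_le_mul_of_nonneg_left (show t + y / mf S 1 ≤ 2 * t by linarith)
      (by positivity)).trans_eq (by rw [hx]; ring)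
  rw [← hx] at up
  obtain ⟨p, p1, p2, p3, -, p5, p6⟩ := K.win (x := M.z i - 2 * x - D * t) (by linarith)
    (by linarith)
  obtain ⟨q, q1, q2, q3, q4, q5, q6⟩ := K.win (x := M.z k + 2 * x)
    (by linarith [mul_pos (show 0 < D by linarith) Dt]) (by linarith)
  have pi : p < i := h.leg.zm.reflect_lt (by linarith)
  have kq : k < q := h.leg.zm.reflect_lt (by linarith)
  have zp : D * (M.z (S.J - 1) - M.z p) ≤ 1 := by
    linarith [mul_le_mul_of_nonneg_left p5.le (show 0 ≤ D by linarith)]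
  have gp : M.z k ≤ M.z i + D * t := by
    rcases n2.eq_or_lt with rfl | c
    · linarith
    · exact K.gap h0 c hk gi (.inl gk) nb (by linarith)
  obtain ⟨lo, Z⟩ := K.ne' y0 G (ρ := Lc ^ 2 * t) p1 zp p3 q3 q4 (by omega) (by
    have b1 := K.rise p1 (show p ≤ q by omega) q2 (by linarith)
    have b2 := mul_le_mul_of_nonneg_left (h.z_tel p1 (show p ≤ q by omega) q2).1 (sq_nonneg S.C)
    rw [show S.C ^ 2 * (((q : ℝ) - p) * (S.v / S.C)) = ((q : ℝ) - p) * (S.C * S.v) by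
      field_simp] at b2
    have b3 := mul_le_mul_of_nonneg_left (show M.z q - M.z p ≤ 6 * x by linarith) (sq_nonneg S.C)
    have b4 := mul_le_mul_of_nonneg_right (K.H.Z.Cp (k := 2) (by norm_num))
      (show 0 ≤ x by linarith)
    have b6 := mul_le_mul_of_nonneg_left r1 (show 0 ≤ S.C ^ 3 by positivity)
    have b7 := mul_le_mul_of_nonneg_right (((K.H.Z.Cp (k := 3) (by norm_num)).trans
      K.H.Z.D_E).trans EL) (show 0 ≤ Lc * t by positivity)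
    have b8 := mul_le_mul_of_nonneg_right ((D4.trans K.H.Z.D_E).trans EL)
      (show 0 ≤ Lc * t by positivity)
    have b9 : 0 ≤ S.C ^ 2 * x := mul_nonneg (sq_nonneg _) (by linarith)
    have b0 : 0 ≤ Lc * t := by positivity
    linarith)
  have u0 := K.H.u0
  have X0 := K.H.Z.X20
  have dp : ∀ {i : ℕ}, i ≤ 29 → D ^ i ≤ D ^ 29 := fun e => K.H.Z.Dp e
  rw [pow_succ' D 29]
  refine (B G1 l0 l V X Lg X2 X3 G0 η Xp Vt Lp u1 u2 j γ Lc ηc τ N T (D ^ 29) Q _ _ _ _ t _ y _ p q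
    K.H.Z.ce K.H.Z.ln K.lp K.H.j0 F40 hT (one_le_pow₀ D1)
    (by rw [← pow_mul]; exact (K.H.Z.Dp (by norm_num)).trans DE) Q1 QE Z
    (by linarith [lo.2, h.s_nn p]) r2 le_rfl y0 y1 ?_ ?_ ?_ ?_ i k ⟨pi.le, n2, kq.le, gi, gk, nb⟩
    (by linarith) (by linarith)).1
  · have b1 : Nd22.U S Lc 1 ^ 2 ≤ mf S 1 :=
      (le_mul_of_one_le_left (sq_nonneg _) E1).trans K.H.thk
    have b2 := mul_le_mul_of_nonneg_right b1 K.H.γ0
    have b3 := mul_le_mul_of_nonneg_right K.t0 μ0.le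
    have b4 := mul_nonneg (sq_nonneg (Nd22.U S Lc 1)) K.H.γ0
    exact mul_le_mul (by gcongr) (by linarith) (by linarith [K.H.parts.2.2]) (by positivity)
  · exact mul_le_mul_of_nonneg_right ((dp (by norm_num)).trans
      (le_mul_of_one_le_right (by positivity) F1)) (by positivity)
  · exact mul_le_mul_of_nonneg_right (mul_le_mul (dp (by norm_num))
      ((pow_le_pow_right₀ ψ1 (by norm_num)).trans hψ) (by positivity) (by positivity)) (sq_nonneg _)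
  · exact div_le_div₀ (by positivity) (by
      linarith [K.H.Z.Cp (k := 1) (by norm_num), dp (show 1 ≤ 29 by norm_num)])
      (by linarith [K.H.Z.EL]) K.H.Lc1

end Ck

/-- `NcB` at the loss `D` of the corner frame -/
theorem ncD : ∃ f : ℝ → ℝ, ∀ (E D : ℝ) (S : Sc) (M : Md) (m : ℕ) (a : ℝ), C33.Fn S M m a →
    f S.C ≤ D → D ^ 10 ≤ E → NcB E D S M m a := by
  obtain ⟨f, f0, H⟩ := ncA
  exact ⟨f, fun E D S M m a F b1 b2 =>
    H E D S M m a F b1 ((pow_le_pow_left₀ (f0 _) b1 10).trans b2)⟩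

end Crest.Agent.T156.Alt.Tx61

end
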