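import Crest.Agent.T156.TxX_84
import Crest.Agent.T156.TxG2_61

/-!
# Row 156, block (L): the corner net in the letters of `TxX` (helper61)
-/

set_option autoImplicit false

noncomputable section

namespace Crest.Agent.T156.Alt.X84

open Real
open Crest.Agent.T156.Alt.Mp9 Crest.Agent.T156.Alt.L69 Crest.Agent.T156.Alt.L31
open Crest.Agent.T156.Alt.Tx61 (Ck NcB Nce)

variable {E : ℝ} {S : Sc} {M : Md} {m : ℕ} {a : ℝ} {c : Dt}

namespace Cy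

variable (Y : Cy E S M m a c)
include Y

theorem ck61 : Ck c.D E c.Λ0 c.L (psi S) S M m a (2 * S.C) c.p.G1 c.p.l0 c.p.l c.p.V c.p.X c.p.Lg
    c.p.X2 c.p.X3 c.p.G0 c.W3 c.p.η c.p.Xp c.p.Vt c.p.Lp c.p.u1 c.p.u2 c.p.j c.p.γ c.p.Lc c.p.ηc
    c.p.τ c.p.N' (c.p.τ + c.p.γ) :=
  ⟨Y.cw.cc Y.hx, Y.hx.lp, Y.hx.ap.top, le_rfl, by
    linarith [Y.hx.lp.j1, Y.hx.lp.γ1, mul_nonneg (zero_le_one.trans Y.cw.Z.E1) Y.cw.j0]⟩

theorem D1_61 : 1 ≤ c.D := by linarith [Y.cw.Z.D4]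

theorem DE61 {k : ℕ} (h : k ≤ 500) : c.D ^ k ≤ E := (pow_le_pow_right₀ Y.D1_61 h).trans Y.cw.DE

theorem psi61 : psi S ^ 6 ≤ S.F := by
  obtain ⟨a1, a2⟩ := psi_spec Y.cw.Z.A.cl
  exact (pow_le_pow_right₀ a1 (by norm_num)).trans_eq a2

theorem tc61 : 0 < c.p.τ + c.p.γ ∧ c.p.τ + c.p.γ ≤ tc S c ∧ c.D ^ 100 * tc S c ≤ 1 / 1000 := by
  have t0 : 0 < c.p.τ + c.p.γ := by linarith [Y.tw.τ0, Y.tw.γ0]
  exact ⟨t0, le_mul_of_one_le_left t0.le Y.cw.Z.A.cl.F1, by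
    rw [tc, ← mul_assoc]; exact Y.ck61.small Y.hx.F40 (Y.DE61 (by norm_num))⟩

/-- **the pair of the corner** -/
theorem pair61 : ∃ v1 v2, S.j0 ≤ v1 ∧ v1 < v2 ∧ GC S M m a c v1 ∧ GC S M m a c v2 ∧
    G89.Mg S c.p.Lc v2 ∧ M.z (S.J - 1) - c.D ^ 44 * tc S c ≤ M.z v1 ∧
    M.z v1 + c.D ^ 43 * tc S c ≤ M.z v2 ∧ M.z v2 + c.D ^ 41 * tc S c ≤ M.z (S.J - 1) := by
  obtain ⟨t0, t1, t2⟩ := Y.tc61
  have D4 := Y.cw.Z.D4
  have D1 := Y.D1_61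
  have K := Y.ck61
  have p0 : 0 < tc S c := t0.trans_le t1
  generalize tc S c = x at *
  generalize c.p.τ + c.p.γ = t at *
  have d : ∀ {i j : ℕ}, i ≤ j → c.D ^ i * x ≤ c.D ^ j * x := fun e =>
    mul_le_mul_of_nonneg_right (pow_le_pow_right₀ D1 e) p0.le
  have a1 : c.D * t ≤ c.D ^ 41 * x := (mul_le_mul_of_nonneg_left t1 (by linarith)).trans
    (by simpa using d (i := 1) (j := 41) (by norm_num))
  have a2 := d (show 41 ≤ 43 by norm_num)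
  have a3 := mul_le_mul_of_nonneg_right D4 (show 0 ≤ c.D ^ 43 * x by positivity)
  have a4 := d (show 45 ≤ 100 by norm_num)
  have a5 : 0 < c.D * t := by positivity
  have a6 : ∀ y, y ≤ c.D ^ 44 * x → c.D * y ≤ 2 := fun y h => by
    linarith [mul_le_mul_of_nonneg_left h (show 0 ≤ c.D by linarith)]
  obtain ⟨v2, -, -, b3, b4, b5, b6⟩ := K.win (x := M.z (S.J - 1) - c.D ^ 41 * x - c.D * t)
    (a6 _ (by linarith)) (by linarith)
  obtain ⟨v1, c1, -, c3, -, c5, c6⟩ := K.win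
    (x := M.z (S.J - 1) - c.D ^ 41 * x - c.D ^ 43 * x - 2 * (c.D * t)) (a6 _ (by linarith))
    (by linarith)
  exact ⟨v1, v2, c1, K.H.Z.A.cl.leg.zm.reflect_lt (by linarith), c3, b3, b4, by linarith,
    by linarith, by linarith⟩

variable {v v1 v2 : ℕ} (N : Nd S M m a c v v1 v2)
include N

theorem near61 : S.j0 ≤ v ∧ v ≤ v2 ∧ v2 + 1 < S.J ∧ 2 * c.D * (M.z (S.J - 1) - M.z v) ≤ 1 ∧
    c.D * (M.z (S.J - 1) - M.z v) ≤ 1 ∧ G89.Lo S M v := by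
  have h := Y.cw.Z.A.cl
  have D4 := Y.cw.Z.D4
  have i1 := h.i1
  have jv := N.jv
  have o1 := N.o1
  have o2 := N.o2
  have o3 := N.mg.1
  have z0 : 0 ≤ c.D * (M.z (S.J - 1) - M.z v) :=
    mul_nonneg (by linarith) (sub_nonneg.2 (h.leg.zm (by omega)))
  have a1 := mul_le_mul_of_nonneg_right D4 z0
  have a2 := N.near
  have a3 : c.D * (M.z (S.J - 1) - M.z v) ≤ 1 := by linarith
  exact ⟨by omega, by omega, o3, by linarith, a3, Y.ck61.H.lo_of (by omega) (by omega) a3⟩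

/-- `ZI.lab` -/
theorem lab61 {i k : ℕ} (n : Nx (GC S M m a c) v v2 i k) :
    M.z k ≤ M.z i + (S.C * S.v + 4 * S.C / c.p.Lc * G89.ds M m a i k) := by
  obtain ⟨b1, -, b3, -⟩ := Y.near61 N
  obtain ⟨n1, n2, n3, n4, n5, n6⟩ := n
  have K := Y.ck61
  have h := K.H.Z.A.cl
  have L1 := K.H.L1
  rcases n2.eq_or_lt with rfl | e
  · have := mul_pos h.C0 h.v0
    simp only [G89.ds, sub_self, mul_zero]; linarith
  · exact (K.H.Z.cx.gap_lab K.H.Z.A n4 (.inl n5) (by linarith) (by omega) e (by omega) n6).2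

/-- the rise on `[v, v2]` -/
theorem rise61 {i k : ℕ} (h1 : v ≤ i) (h2 : i ≤ k) (h3 : k < S.J) : M.rb m a k - M.rb m a i ≤
    c.D * (c.p.Xp ^ ((1 : ℝ) / 3) + c.p.γ + c.p.τ + (M.z k - M.z i)) := by
  obtain ⟨b1, -, -, -, b5, -⟩ := Y.near61 N
  have K := Y.ck61
  have h := K.H.Z.A.cl
  have C0 := h.C0
  have D4 := K.H.Z.D4
  have a1 := K.rise (i := i) (by omega) h2 h3 (by
    linarith [mul_le_mul_of_nonneg_left (h.leg.zm h1) (show 0 ≤ c.D by linarith)])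
  have a2 := mul_le_mul_of_nonneg_left (h.z_tel (show S.j0 ≤ i by omega) h2 h3).1 (sq_nonneg S.C)
  rw [show S.C ^ 2 * (((k : ℝ) - i) * (S.v / S.C)) = ((k : ℝ) - i) * (S.C * S.v) by
    field_simp] at a2
  have z0 := sub_nonneg.2 (h.leg.zm h2)
  have R0 := K.R0
  have γ0 := K.H.γ0
  have v0 := h.v0
  have a3 := mul_le_mul_of_nonneg_right (K.H.Z.Cp (k := 2) (by norm_num)) z0
  have a4 := mul_le_mul (K.H.Z.Cp (k := 3) (by norm_num))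
    (show c.p.Xp ^ ((1 : ℝ) / 3) + c.p.γ + S.v ≤ c.p.Xp ^ ((1 : ℝ) / 3) + c.p.γ + c.p.τ by
      linarith [K.vτ]) (by positivity) (by linarith)
  have a5 : 0 ≤ S.C ^ 3 * (c.p.Xp ^ ((1 : ℝ) / 3) + c.p.γ + S.v) := by positivity
  have a6 := mul_nonneg (sq_nonneg S.C) z0
  linarith

/-- `ZI.sh` -/
theorem sh61 (B : NcB E c.D S M m a) {Q : ℝ} (Q1 : 1 ≤ Q) (QE : Q ^ 10 ≤ E) {i k : ℕ} (n : Nx (GC S M m a c) v v2 i k) :
    G89.ds M m a i k ^ 2 ≤ mf S 1 / Q + (c.D ^ 30 * Q * tc S c) ^ 2 := by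
  obtain ⟨b1, -, b3, b4, -⟩ := Y.near61 N
  obtain ⟨t0, t1, -⟩ := Y.tc61
  have K := Y.ck61
  have h := K.H.Z.A.cl
  have D4 := K.H.Z.D4
  have n1 := n.1
  have n3 := n.2.2.1
  rw [tc, ← mul_assoc]
  refine K.sh B le_rfl Y.tw.η0.le (by rw [zero_div]; exact t0.le) (K.nce0 Y.w3) le_rfl Y.psi61
    Y.hx.F40 (Y.DE61 (by norm_num)) Q1 QE n (by omega) (by omega) (by
      linarith [mul_le_mul_of_nonneg_left (h.leg.zm n1) (show 0 ≤ c.D by linarith)]) ?_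
  have a1 : 4 * c.D ^ 30 ≤ c.D ^ 41 :=
    calc _ ≤ c.D * c.D ^ 30 := by gcongr; linarith
      _ = c.D ^ 31 := by ring
      _ ≤ _ := pow_le_pow_right₀ Y.D1_61 (by norm_num)
  have a2 := mul_le_mul_of_nonneg_right a1 (t0.le.trans t1)
  have a3 := N.hi
  unfold tc at a2 a3
  linarith [h.leg.zm n3]

end Cy

theorem NcB_up {E Λ Λ' : ℝ} (h : Cl S M) (B : NcB E Λ S M m a) (h0 : 0 ≤ Λ) (h1 : Λ ≤ Λ') :
    NcB E Λ' S M m a := by
  intro G1 l0 l V X Lg X2 X3 G0 η Xp Vt Lp u1 u2 j γ Lc ηc τ N T W Q ec la al θ τ' ρ y Gn U U' ce ln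
    lp j0 F40 hT W1 WE Q1 QE Z hs hτ hρ y0 y1 he hl ha hθ i k n dn up
  have F1 := h.F1
  have μ0 : 0 < mf S 1 := div_pos (h.ms_pos zero_le_one) (by linarith)
  have t0 : 0 ≤ τ' := by
    by_contra e
    have w0 : 0 < S.w3 1 := by
      have := h.ms_pos zero_le_one
      have := h.N0
      unfold Sc.w3; positivity
    have := Odd.pow_neg (show Odd 3 by decide) (hτ.trans_lt (not_le.1 e))
    linarith [lp.tw]
  have a1 : Λ * W * S.F * (τ' + y / mf S 1) ≤ Λ' * W * S.F * (τ' + y / mf S 1) := by gcongr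
  obtain ⟨r1, r2⟩ := B G1 l0 l V X Lg X2 X3 G0 η Xp Vt Lp u1 u2 j γ Lc ηc τ N T W Q ec la al θ τ' ρ y
    Gn U U' ce ln lp j0 F40 hT W1 WE Q1 QE Z hs hτ hρ y0 y1 he hl ha hθ i k n (by linarith)
    (by linarith)
  exact ⟨r1.trans (by gcongr), r2⟩

/-- the short gaps are available in every leaf -/
theorem ncL61 : LF fun E S M m a c => NcB E c.D S M m a :=
  Tx61.ncG2.mono fun _ _ _ _ _ _ _ l1 h _ B _ _ e => NcB_up h B (by linarith) e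

/-- **the gaps of zone I are short** -/
theorem shL61 : LF fun E S M m a c => ∀ v v1 v2, Nd S M m a c v v1 v2 → ∀ Q, 1 ≤ Q → Q ^ 10 ≤ E →
    ∀ i k, Nx (GC S M m a c) v v2 i k →
      G89.ds M m a i k ^ 2 ≤ mf S 1 / Q + (c.D ^ 30 * Q * tc S c) ^ 2 :=
  CL.mono ncL61 fun _ _ _ _ _ _ _ _ _ _ B c Y e _ _ _ N _ Q1 QE _ _ n =>
    Y.sh61 N (B c Y e) Q1 QE n

end Crest.Agent.T156.Alt.X84

end
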