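import Crest.Agent.T157.PfC_56

/-!
Row 156 (helper69): (P+).  For every admissible step function `ζ`:
`-Φ_xxx ≥ 2 e^{-3β²(1-s)} Φ_x Φ_xx` on `x ≥ 0`, `Φ_xx ≥ e^{-β²(1-s)} (1 - Φ_x²)`,
`Φ_xxxx(s,0) ≤ -2 e^{-3β²(1-s)} Φ_xx(s,0)²`, and
`2β⁴ s ζ(s) ≥ κ Γ(s)² - (Γ'(s) - Γ'(0))`; hence `ζ(s) ≥ c s - C √η` at the grid minimiser.
-/

set_option autoImplicit false

namespace Crest.Agent.T156.Pp

open MeasureTheory ProbabilityTheory Filter Topology Set
open Crest.Agent.R164.GC Crest.Agent.R339.B Crest.Agent.R339.Var Crest.Agent.T157.Pf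
open Crest.ProbabilityR.InvariantGlass (gaussOp)

noncomputable section

/-- the tilted average keeps the cone of odd functions that are nonnegative on `[0,∞)` -/
theorem tE_cone {f φ : ℝ → ℝ} (hf : Lip1 f) (hfe : ∀ y, f (-y) = f y) (hφ : EG φ)
    (ho : ∀ y, φ (-y) = -φ y) (hp : ∀ y, 0 ≤ y → 0 ≤ φ y) (a v : ℝ) {x : ℝ} (hx : 0 ≤ x) :
    0 ≤ tE a v f φ x := by
  rcases le_or_gt v 0 with hv | hv
  · rw [tE_nonpos a hv]
    exact hp x hx
  have hw : EG fun y => Real.exp (a * f y) := EG.exp_lip hf a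
  unfold tE
  refine div_nonneg ?_ (den_pos hf a _ x).le
  rw [H_odd hv (hφ.mul hw) (fun y => by rw [hfe, ho]; ring)]
  refine mul_nonneg (gd_pos hv x).le (integral_nonneg fun y => ?_)
  have hx0 : 0 ≤ x / v := div_nonneg hx hv.le
  have key : 0 ≤ Real.sinh (x / v * y) * φ y := by
    rcases le_total 0 y with hy | hy
    · exact mul_nonneg (Real.sinh_nonneg_iff.2 (mul_nonneg hx0 hy)) (hp y hy)
    · have h1 := hp (-y) (by linarith)
      rw [ho] at h1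
      exact mul_nonneg_of_nonpos_of_nonpos
        (Real.sinh_nonpos_iff.2 (mul_nonpos_of_nonneg_of_nonpos hx0 hy)) (by linarith)
  have := mul_nonneg (mul_nonneg (ge_pos v y).le key) (Real.exp_pos (a * f y)).le
  refine this.trans_eq ?_
  ring

/-- `c Φ' Φ'' ≤ -Φ'''` on `[0,∞)` -/
def Hop (c : ℝ) (Φ : ℝ → ℝ) : Prop :=
  ∀ x, 0 ≤ x → c * (deriv Φ x * deriv (deriv Φ) x) ≤ -deriv (deriv (deriv Φ)) x

theorem exp_hasDerivAt (c k d τ : ℝ) :
    HasDerivAt (fun τ => c * Real.exp (k * (τ - d))) (k * (c * Real.exp (k * (τ - d)))) τ := by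
  have := ((((hasDerivAt_id' τ).sub_const d).const_mul k).exp).const_mul c
  refine this.congr_deriv ?_
  ring

theorem Hop.step {m c : ℝ} {Φ : ℝ → ℝ} (h : Inv 1 m Φ) (hU : Up2 1 Φ) (hm : 0 < m) (hm1 : m ≤ 1)
    (hc : 0 ≤ c) (hH : Hop c Φ) {d : ℝ} (hd : 0 ≤ d) :
    Hop (c * Real.exp (-(3 * d))) (gaussOp m d Φ) := by
  have hp := h.prof
  intro x hx
  have t3 := tb_U3 hp hm.ne'
  have t12 := (tb_U1 hp hm.ne').mul (tb_U2 hp hm.ne')
  have mono := monotoneOn_of_block (a := 0) (b := d)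
    (f := fun τ => VV Φ m d (U Φ m 3) x τ + c * Real.exp (3 * (τ - d)) *
      VV Φ m d (fun v x => U Φ m 1 v x * U Φ m 2 v x) x τ)
    ((VV_cont hp t3.ug d x).add ((by fun_prop : Continuous fun τ : ℝ =>
      c * Real.exp (3 * (τ - d))).mul (VV_cont hp t12.ug d x))).continuousOn
    (fun τ hτ => (VV_deriv hp t3 hτ.1 hτ.2 x).fun_add
      ((exp_hasDerivAt c 3 d τ).fun_mul (VV_deriv hp t12 hτ.1 hτ.2 x)))
    (fun τ hτ => by
      rw [VV_eq hp hm.ne' _ hτ.1.le hτ.2.le, VV_eq hp hm.ne' _ hτ.1.le hτ.2.le,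
        VV_eq hp hm.ne' _ hτ.1.le hτ.2.le]
      have hI := h.step hm hm1 (d - τ)
      have hU' := Up2.step h hU hm hm1 (d := d - τ) (by linarith [hτ.2])
      simp only [U_one, U_two, U_three]
      set Ψ := gaussOp m (d - τ) Φ
      have b1 := hI.prof.bd
      have b2 := b1.deriv
      have b3 := b2.deriv
      have a1 := tE_cone hI.prof.lip hI.even ((b2.const_mul (-3 * m)).mul b3).eg
        (fun y => by rw [u2_even hI, u3_odd hI]; ring)
        (fun y hy => by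
          have := mul_nonneg (mul_pos hm (u2_pos hI y)).le
            (neg_nonneg.2 (Inv.d3_nonpos hI hm hy))
          linarith) m τ hx
      have e1 : EG fun y => 3 * (deriv Ψ y * deriv (deriv Ψ) y) := ((b1.mul b2).const_mul 3).eg
      have e2 : EG fun y => deriv Ψ y * (-m * deriv (deriv Ψ) y ^ 2) + deriv (deriv Ψ) y * 0 +
          deriv (deriv Ψ) y * deriv (deriv (deriv Ψ)) y :=
        (((b1.mul ((b2.pow 2).const_mul (-m))).add (b2.mul (BD.const 0))).add (b2.mul b3)).eg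
      have a2 := tE_cone hI.prof.lip hI.even (e1.add e2)
        (fun y => by rw [u2_even hI, u3_odd hI, hI.odd]; ring)
        (fun y hy => by
          have p1 := hI.nonneg hy
          have p2 := u2_pos hI y
          have p3 := Inv.d2_le hI one_pos y
          have p4 := d3_abs_le hI hU' hm y
          rw [abs_of_nonneg p1] at p4
          have p5 := neg_abs_le (deriv (deriv (deriv Ψ)) y)
          have q1 : 0 ≤ deriv Ψ y * deriv (deriv Ψ) y := mul_nonneg p1 p2.le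
          have q2 : m * deriv (deriv Ψ) y ≤ 1 := by nlinarith
          have q3 := mul_le_mul_of_nonneg_left q2 q1
          have q4 := mul_le_mul_of_nonneg_left p3 q1
          have q5 := mul_le_mul_of_nonneg_left (show -(2 * (deriv Ψ y * deriv (deriv Ψ) y)) ≤
            deriv (deriv (deriv Ψ)) y by linarith) p2.le
          nlinarith) m τ hx
      rw [tE_add hI.prof.lip m τ e1 e2, tE_const_mul] at a2
      have a3 := mul_nonneg (mul_nonneg hc (Real.exp_pos (3 * (τ - d))).le) a2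
      nlinarith)
  have i1 := mono ⟨le_rfl, hd⟩ ⟨hd, le_rfl⟩ hd
  simp only at i1
  rw [VV_zero hp hm.ne' _ hd, VV_zero hp hm.ne' _ hd, VV_end hp hm.ne' _ hd,
    VV_end hp hm.ne' _ hd] at i1
  simp only [U_one, U_two, U_three, gaussOp_v0 hm.ne', sub_self, mul_zero, Real.exp_zero, mul_one,
    zero_sub] at i1
  have b1 := hp.bd
  have b2 := b1.deriv
  have b3 := b2.deriv
  have e1 : EG fun y => -1 * deriv (deriv (deriv Φ)) y := (b3.const_mul (-1)).eg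
  have e2 : EG fun y => c * (deriv Φ y * deriv (deriv Φ) y) := ((b1.mul b2).const_mul c).eg
  have i2 := tE_cone hp.lip h.even (e1.sub e2)
    (fun y => by rw [u2_even h, u3_odd h, h.odd]; ring)
    (fun y hy => by have := hH y hy; linarith) m d hx
  rw [tE_sub hp.lip m d e1 e2, tE_const_mul, tE_const_mul] at i2
  rw [show -(3 * d) = 3 * -d by ring]
  linarith

theorem hop_phi0 : Hop 2 (phi0 1) := by
  intro x _
  rw [phi0_deriv2 one_pos, phi0_deriv one_pos]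
  have := (((th_hasDerivAt 1 x).fun_pow 2).const_sub 1).const_mul 1
  rw [this.deriv]
  norm_num
  linarith

theorem Hop.mono {c c' m : ℝ} {Φ : ℝ → ℝ} (hI : Inv 1 m Φ) (h : Hop c Φ) (hc : c' ≤ c) :
    Hop c' Φ := fun x hx =>
  (mul_le_mul_of_nonneg_right hc (mul_nonneg (hI.nonneg hx) (u2_pos hI x).le)).trans (h x hx)

theorem hop_PhiL : ∀ {l : List (ℝ × ℝ)}, Adm 1 l → Hop (2 * Real.exp (-(3 * TT l))) (PhiL 1 l)
  | [], _ => by simpa [TT, PhiL] using hop_phi0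
  | p :: l, h => by
    have := Hop.step ((PhiL_inv one_pos h.2.2.2).mono h.2.1) (up2_PhiL one_pos h.2.2.2) h.1
      (h.2.1.trans h.2.2.2.head_le) (by positivity) (hop_PhiL h.2.2.2) h.2.2.1
    rw [mul_assoc, ← Real.exp_add] at this
    rw [TT_cons, show -(3 * (p.2 + TT l)) = -(3 * TT l) + -(3 * p.2) by ring]
    exact this

theorem hop_PhiT : ∀ {l : List (ℝ × ℝ)}, Adm 1 l → ∀ t, t ≤ TT l →
    Hop (2 * Real.exp (-(3 * (TT l - t)))) (PhiT 1 l t)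
  | [], _, t, ht => by
    refine Hop.mono (phi0_inv one_pos) hop_phi0 ?_
    have : Real.exp (-(3 * (TT [] - t))) ≤ 1 := Real.exp_le_one_iff.2 (by linarith)
    linarith
  | p :: l, h, t, ht => by
    unfold PhiT
    rw [TT_cons] at ht ⊢
    split_ifs with h1
    · have := Hop.step ((PhiL_inv one_pos h.2.2.2).mono h.2.1) (up2_PhiL one_pos h.2.2.2) h.1
        (h.2.1.trans h.2.2.2.head_le) (by positivity) (hop_PhiL h.2.2.2)
        (show 0 ≤ p.2 - t by linarith)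
      rw [mul_assoc, ← Real.exp_add] at this
      rw [show -(3 * (p.2 + TT l - t)) = -(3 * TT l) + -(3 * (p.2 - t)) by ring]
      exact this
    · have := hop_PhiT h.2.2.2 (t - p.2) (by linarith)
      rw [show p.2 + TT l - t = TT l - (t - p.2) by ring]
      exact this

/-! ### the lower bound on `Φ''` -/

/-- `c (1 - Φ'²) ≤ Φ''` -/
def Lo2 (c : ℝ) (Φ : ℝ → ℝ) : Prop := ∀ x, c * (1 - deriv Φ x ^ 2) ≤ deriv (deriv Φ) x

theorem Lo2.step {m c : ℝ} {Φ : ℝ → ℝ} (h : Inv 1 m Φ) (hm : 0 < m) (hm1 : m ≤ 1)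
    (hc : 0 ≤ c) (hH : Lo2 c Φ) {d : ℝ} (hd : 0 ≤ d) :
    Lo2 (c * Real.exp (-d)) (gaussOp m d Φ) := by
  have hp := h.prof
  intro x
  have t2 := (tb_U2 hp hm.ne').const_mul (-1)
  have t1 := (TB.const (Φ := Φ) (m := m) 1).sub (tb_U1sq hp hm.ne')
  have mono := monotoneOn_of_block (a := 0) (b := d)
    (f := fun τ => VV Φ m d (fun v x => -1 * U Φ m 2 v x) x τ + c * Real.exp (1 * (τ - d)) *
      VV Φ m d (fun v x => 1 - U Φ m 1 v x ^ 2) x τ)
    ((VV_cont hp t2.ug d x).add ((by fun_prop : Continuous fun τ : ℝ =>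
      c * Real.exp (1 * (τ - d))).mul (VV_cont hp t1.ug d x))).continuousOn
    (fun τ hτ => (VV_deriv hp t2 hτ.1 hτ.2 x).fun_add
      ((exp_hasDerivAt c 1 d τ).fun_mul (VV_deriv hp t1 hτ.1 hτ.2 x)))
    (fun τ hτ => by
      rw [VV_eq hp hm.ne' _ hτ.1.le hτ.2.le, VV_eq hp hm.ne' _ hτ.1.le hτ.2.le,
        VV_eq hp hm.ne' _ hτ.1.le hτ.2.le]
      have hI := h.step hm hm1 (d - τ)
      simp only [U_one, U_two]
      set Ψ := gaussOp m (d - τ) Φ
      have b1 := hI.prof.bd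
      have b2 := b1.deriv
      have a1 := tE_mono hI.prof.lip m τ (EG.const 0)
        (((b2.pow 2).const_mul (-m)).const_mul (-1)).eg
        (fun y => by have := mul_nonneg hm.le (sq_nonneg (deriv (deriv Ψ) y)); linarith) x
      have e1 : EG fun y => 1 - deriv Ψ y ^ 2 := ((BD.const 1).sub (b1.pow 2)).eg
      have e2 : EG fun y => 0 - deriv (deriv Ψ) y ^ 2 := ((BD.const 0).sub (b2.pow 2)).eg
      have a2 := tE_mono hI.prof.lip m τ (EG.const 0) (e1.add e2)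
        (fun y => by
          have p2 := u2_pos hI y
          have p3 := Inv.d2_le hI one_pos y
          have p4 := hI.up y
          nlinarith) x
      rw [tE_add hI.prof.lip m τ e1 e2, tE_const hI.prof.lip] at a2
      rw [tE_const hI.prof.lip] at a1
      have a3 := mul_nonneg (mul_nonneg hc (Real.exp_pos (1 * (τ - d))).le) a2
      nlinarith)
  have i1 := mono ⟨le_rfl, hd⟩ ⟨hd, le_rfl⟩ hd
  simp only at i1
  rw [VV_zero hp hm.ne' _ hd, VV_zero hp hm.ne' _ hd, VV_end hp hm.ne' _ hd,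
    VV_end hp hm.ne' _ hd] at i1
  simp only [U_one, U_two, gaussOp_v0 hm.ne', sub_self, mul_zero, Real.exp_zero, mul_one,
    zero_sub, one_mul] at i1
  have b1 := hp.bd
  have b2 := b1.deriv
  have e1 : EG fun y => c * (1 - deriv Φ y ^ 2) := (((BD.const 1).sub (b1.pow 2)).const_mul c).eg
  have i2 := tE_mono hp.lip m d e1 b2.eg hH x
  rw [tE_const_mul] at i1 i2
  linarith

theorem lo2_phi0 : Lo2 1 (phi0 1) := by
  intro x
  rw [phi0_deriv2 one_pos, phi0_deriv one_pos]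

theorem Lo2.mono {c c' : ℝ} {Φ : ℝ → ℝ} (hI : Prof Φ) (h : Lo2 c Φ) (hc : c' ≤ c) :
    Lo2 c' Φ := fun x =>
  (mul_le_mul_of_nonneg_right hc (by
    have := (sq_le_one_iff_abs_le_one _).2 (hI.b1 x)
    linarith)).trans (h x)

theorem lo2_PhiL : ∀ {l : List (ℝ × ℝ)}, Adm 1 l → Lo2 (Real.exp (-TT l)) (PhiL 1 l)
  | [], _ => by simpa [TT, PhiL] using lo2_phi0
  | p :: l, h => by
    have := Lo2.step ((PhiL_inv one_pos h.2.2.2).mono h.2.1) h.1
      (h.2.1.trans h.2.2.2.head_le) (by positivity) (lo2_PhiL h.2.2.2) h.2.2.1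
    rw [← Real.exp_add] at this
    rw [TT_cons, show -(p.2 + TT l) = -TT l + -p.2 by ring]
    exact this

theorem lo2_PhiT : ∀ {l : List (ℝ × ℝ)}, Adm 1 l → ∀ t, t ≤ TT l →
    Lo2 (Real.exp (-(TT l - t))) (PhiT 1 l t)
  | [], _, t, ht => Lo2.mono (phi0_prof one_pos) lo2_phi0 (Real.exp_le_one_iff.2 (by linarith))
  | p :: l, h, t, ht => by
    unfold PhiT
    rw [TT_cons] at ht ⊢
    split_ifs with h1
    · have := Lo2.step ((PhiL_inv one_pos h.2.2.2).mono h.2.1) h.1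
        (h.2.1.trans h.2.2.2.head_le) (by positivity) (lo2_PhiL h.2.2.2)
        (show 0 ≤ p.2 - t by linarith)
      rw [← Real.exp_add] at this
      rw [show -(p.2 + TT l - t) = -TT l + -(p.2 - t) by ring]
      exact this
    · have := lo2_PhiT h.2.2.2 (t - p.2) (by linarith)
      rw [show p.2 + TT l - t = TT l - (t - p.2) by ring]
      exact this

/-- Hopf at the origin -/
theorem Hop.d4 {c m : ℝ} {Φ : ℝ → ℝ} (hI : Inv 1 m Φ) (h : Hop c Φ) :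
    deriv (deriv (deriv (deriv Φ))) 0 ≤ -(c * deriv (deriv Φ) 0 ^ 2) := by
  have b1 := hI.prof.bd
  have b2 := b1.deriv
  have b3 := b2.deriv
  have d := (b3.hasDerivAt 0).fun_add (((b1.hasDerivAt 0).fun_mul (b2.hasDerivAt 0)).const_mul c)
  have z3 : deriv (deriv (deriv Φ)) 0 = 0 := by
    have := u3_odd hI 0
    rw [neg_zero] at this
    linarith
  by_contra hc
  push Not at hc
  have hpos : 0 < deriv (deriv (deriv (deriv Φ))) 0 + c * (deriv (deriv Φ) 0 * deriv (deriv Φ) 0 +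
      deriv Φ 0 * deriv (deriv (deriv Φ)) 0) := by
    rw [hI.d0]
    nlinarith
  have h1 := (hasDerivAt_iff_tendsto_slope_zero.1 d).mono_left (nhdsGT_le_nhdsNE 0)
  have h2 := (h1.eventually (lt_mem_nhds hpos)).and self_mem_nhdsWithin
  obtain ⟨y, hy1, hy2⟩ := h2.exists
  have hy : (0:ℝ) < y := hy2
  have h3 := h y hy.le
  simp only [zero_add, z3, hI.d0, zero_mul, mul_zero, sub_zero, smul_eq_mul] at hy1
  have h4 := (mul_pos_iff_of_pos_left (inv_pos.2 hy)).1 hy1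
  linarith

/-! ### in the words of `Par` -/

variable {P : Par} {β : ℝ}

/-- **(H1)** -/
theorem Pxxx_le (h : P.OK) (β : ℝ) {s x : ℝ} (hs : s ≤ 1) (hx : 0 ≤ x) :
    2 * Real.exp (-(3 * (β ^ 2 * (1 - s)))) * (P.Px β s x * P.Pxx β s x) ≤ -P.Pxxx β s x := by
  have := hop_PhiT (h.adm β P.K) (β ^ 2 * s) (by
    rw [h.TT_K]; nlinarith [sq_nonneg β]) x hx
  rw [h.TT_K, show β ^ 2 - β ^ 2 * s = β ^ 2 * (1 - s) by ring] at this
  exact this

/-- **(H2)** -/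
theorem Pxx_ge (h : P.OK) (β : ℝ) {s : ℝ} (hs : s ≤ 1) (x : ℝ) :
    Real.exp (-(β ^ 2 * (1 - s))) * (1 - P.Px β s x ^ 2) ≤ P.Pxx β s x := by
  have := lo2_PhiT (h.adm β P.K) (β ^ 2 * s) (by
    rw [h.TT_K]; nlinarith [sq_nonneg β]) x
  rw [h.TT_K, show β ^ 2 - β ^ 2 * s = β ^ 2 * (1 - s) by ring] at this
  exact this

theorem Px_zero (h : P.OK) (β s : ℝ) : P.Px β s 0 = 0 := by
  have := h.Px_odd β s 0
  rw [neg_zero] at this
  linarith

/-- **`Φ_xxxx(s,0) ≤ -2 e^{-3β²(1-s)} Φ_xx(s,0)²`** -/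
theorem P4_le (h : P.OK) (β : ℝ) {s : ℝ} (hs : s ≤ 1) :
    deriv (P.Pxxx β s) 0 ≤ -(2 * Real.exp (-(3 * (β ^ 2 * (1 - s)))) * P.Pxx β s 0 ^ 2) := by
  obtain ⟨m, _, _, hI⟩ := h.inv β s
  exact Hop.d4 hI fun x hx => Pxxx_le h β hs hx

/-- **`Φ_xxxx(s,0) ≤ -2 e^{-5β²}`** -/
theorem P4_le' (h : P.OK) (β : ℝ) {s : ℝ} (hs : s ∈ Icc (0:ℝ) 1) :
    deriv (P.Pxxx β s) 0 ≤ -(2 * Real.exp (-(5 * β ^ 2))) := by
  refine (P4_le h β hs.2).trans (neg_le_neg ?_)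
  have h1 := Pxx_ge h β hs.2 0
  rw [Px_zero h] at h1
  norm_num at h1
  have h2 := pow_le_pow_left₀ (Real.exp_pos _).le h1 2
  have h3 : Real.exp (-(5 * β ^ 2)) ≤ Real.exp (-(3 * (β ^ 2 * (1 - s)))) *
      Real.exp (-(β ^ 2 * (1 - s))) ^ 2 := by
    rw [sq (Real.exp _), ← Real.exp_add, ← Real.exp_add]
    refine Real.exp_le_exp.2 ?_
    nlinarith [mul_nonneg (sq_nonneg β) hs.1]
  have h4 := mul_le_mul_of_nonneg_left h2 (Real.exp_pos (-(3 * (β ^ 2 * (1 - s))))).le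
  linarith

/-- `Φ_xxx² ≥ 4 e^{-6β²} Φ_x² Φ_xx²` -/
theorem Pxxx_sq_ge (h : P.OK) (β : ℝ) {s : ℝ} (hs : s ∈ Icc (0:ℝ) 1) (x : ℝ) :
    4 * Real.exp (-(6 * β ^ 2)) * (P.Px β s x ^ 2 * P.Pxx β s x ^ 2) ≤ P.Pxxx β s x ^ 2 := by
  obtain ⟨m, _, _, hI⟩ := h.inv β s
  have key : ∀ y, 0 ≤ y → 4 * Real.exp (-(6 * β ^ 2)) * (P.Px β s y ^ 2 * P.Pxx β s y ^ 2) ≤
      P.Pxxx β s y ^ 2 := by
    intro y hy
    have h1 := Pxxx_le h β hs.2 hy
    have h0 : 0 ≤ P.Px β s y * P.Pxx β s y := mul_nonneg (hI.nonneg hy) (h.Pxx_pos β s y).le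
    have h2 : Real.exp (-(3 * β ^ 2)) ≤ Real.exp (-(3 * (β ^ 2 * (1 - s)))) :=
      Real.exp_le_exp.2 (by nlinarith [mul_nonneg (sq_nonneg β) hs.1])
    have h3 : 2 * Real.exp (-(3 * β ^ 2)) * (P.Px β s y * P.Pxx β s y) ≤ -P.Pxxx β s y :=
      (mul_le_mul_of_nonneg_right (by linarith) h0).trans h1
    have h4 := pow_le_pow_left₀ (by positivity) h3 2
    have h5 : Real.exp (-(6 * β ^ 2)) = Real.exp (-(3 * β ^ 2)) ^ 2 := by
      rw [sq (Real.exp _), ← Real.exp_add]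
      congr 1
      ring
    rw [h5]
    nlinarith
  rcases le_total 0 x with hx | hx
  · exact key x hx
  · have := key (-x) (by linarith)
    have e1 : P.Px β s (-x) = -P.Px β s x := hI.odd x
    have e2 : P.Pxx β s (-x) = P.Pxx β s x := u2_even hI x
    have e3 : P.Pxxx β s (-x) = -P.Pxxx β s x := u3_odd hI x
    rwa [e1, e2, e3, neg_sq, neg_sq] at this

/-! ### the fourth moment of `Φ_x` -/

def G4 (Φ : ℝ → ℝ) (y : ℝ) : ℝ := (deriv Φ y ^ 2) ^ 2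
def G4' (Φ : ℝ → ℝ) (y : ℝ) : ℝ := 6 * (deriv Φ y ^ 2 * deriv (deriv Φ) y ^ 2)

theorem bfn_G4 : BFn G4 := by
  refine ⟨fun Φ h => toBC ((h.bd.pow 2).pow 2), fun Φ h m hm => ?_⟩
  exact (((U_ug' h hm).1.pow 2).pow 2).congr fun v x => by rw [U_one]; rfl

theorem bfn_G4' : BFn G4' := by
  refine ⟨fun Φ h => toBC (((h.bd.pow 2).mul (h.bd.deriv.pow 2)).const_mul 6), fun Φ h m hm => ?_⟩
  exact ((((U_ug' h hm).1.pow 2).mul ((U_ug' h hm).2.1.pow 2)).const_mul 6).congr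
    fun v x => by rw [U_one, U_two]; rfl

theorem inv_G4 (Φ : ℝ → ℝ) (c : ℝ) : G4 (fun x => Φ x + c) = G4 Φ := by
  unfold G4; rw [Par.deriv_shift]

theorem inv_G4' (Φ : ℝ → ℝ) (c : ℝ) : G4' (fun x => Φ x + c) = G4' Φ := by
  unfold G4'; rw [Par.deriv_shift]

/-- `E Φ_x⁴` -/
def M4 (P : Par) (β s : ℝ) : ℝ := P.E β s fun x => (P.Px β s x ^ 2) ^ 2

theorem M4_cont (h : P.OK) (hβ : 0 < β) (T : ℝ) : ContinuousOn (M4 P β) (Icc 0 T) :=
  h.E_cont hβ bfn_G4 inv_G4 T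

theorem M4_rder (h : P.OK) (hβ : 0 < β) {s : ℝ} (hs : 0 ≤ s) :
    HasDerivWithinAt (M4 P β)
      (β ^ 2 * P.E β s fun x => 6 * (P.Px β s x ^ 2 * P.Pxx β s x ^ 2)) (Ici s) s :=
  h.E_rder hβ (G' := fun _ => G4') bfn_G4 (fun _ => bfn_G4') inv_G4 (fun _ => inv_G4')
    (fun Φ hΦ m hm ν hν d τ h0 h1 => by
      have e1 : (fun v => G4 (gaussOp m v Φ)) = fun v x => U Φ m 1 v x ^ 2 * U Φ m 1 v x ^ 2 := by
        funext v x; rw [U_one]; unfold G4; ring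
      have e2 : (fun v => G4' (gaussOp m v Φ)) = fun v x =>
          U Φ m 1 v x ^ 2 * U Φ m 2 v x ^ 2 + U Φ m 1 v x ^ 2 * U Φ m 2 v x ^ 2 +
          2 * U Φ m 1 v x * U Φ m 2 v x * (2 * U Φ m 1 v x * U Φ m 2 v x) := by
        funext v x; rw [U_one, U_two]; unfold G4'; ring
      rw [e1, e2]
      exact EE_deriv hΦ m ((tb_U1sq hΦ hm.ne').mul (tb_U1sq hΦ hm.ne')) hν h0 h1) hs

theorem M4_zero (h : P.OK) (β : ℝ) : M4 P β 0 = 0 := by
  unfold M4
  rw [Par.E_zero, Px_zero h]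
  norm_num

theorem Gam_sq_le (h : P.OK) (β s : ℝ) : P.Gam β s ^ 2 ≤ M4 P β s :=
  P.E_sq β s ((h.Px_bc β s).pow 2)

/-- the constant `κ = (2/3) β² e^{-6β²}` -/
def kap (β : ℝ) : ℝ := 2 / 3 * β ^ 2 * Real.exp (-(6 * β ^ 2))

theorem kap_pos (hβ : 0 < β) : 0 < kap β := by unfold kap; positivity

/-- **(H3)** `κ Γ(s)² - (Γ'(s) - Γ'(0)) ≤ 2β⁴ s ζ(s)`, for every admissible `ζ` -/
theorem zeta_ge (h : P.OK) (hβ : 0 < β) {s : ℝ} (hs : s ∈ Icc (0:ℝ) 1) :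
    kap β * P.Gam β s ^ 2 - (P.Gam' β s - P.Gam' β 0) ≤ 2 * β ^ 4 * (s * P.zeta s) := by
  set w := 2 * β ^ 4 * P.zeta s with hw
  have h1 := le_of_rder (f := fun r => kap β * M4 P β r - P.Gam' β r - w * r) (s := 0) (t := s) hs.1
    (((continuousOn_const.mul (M4_cont h hβ s)).sub (h.Gam'_cont hβ s)).sub (by fun_prop))
    (fun r hr => (((M4_rder h hβ hr.1).const_mul (kap β)).sub (h.Gam'_rder hβ hr.1)).sub
      ((hasDerivWithinAt_id r _).const_mul w))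
    (fun r hr => by
      have hr1 : r ∈ Icc (0:ℝ) 1 := ⟨hr.1, hr.2.le.trans hs.2⟩
      have e : (P.E β r fun x => P.Pxxx β r x ^ 2 - 2 * P.zeta r * P.Pxx β r x ^ 3) =
          (P.E β r fun x => P.Pxxx β r x ^ 2) -
            2 * P.zeta r * P.E β r fun x => P.Pxx β r x ^ 3 := by
        rw [P.E_sub β r ((h.Pxxx_bc β r).pow 2) (((h.Pxx_bc β r).pow 3).const_mul _),
          Par.E_const_mul]
      rw [e, Par.E_const_mul]
      have a1 := P.E_mono β r ((((h.Px_bc β r).pow 2).mul ((h.Pxx_bc β r).pow 2)).const_mul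
        (4 * Real.exp (-(6 * β ^ 2)))) ((h.Pxxx_bc β r).pow 2) (Pxxx_sq_ge h β hr1)
      rw [Par.E_const_mul] at a1
      have a2 : (P.E β r fun x => P.Pxx β r x ^ 3) ≤ 1 := by
        have := P.E_abs_le β r ((h.Pxx_bc β r).pow 3)
        rw [one_pow] at this
        exact (le_abs_self _).trans this
      have a3 := h.zeta_mono hr.2.le
      have a4 : P.zeta r * (P.E β r fun x => P.Pxx β r x ^ 3) ≤ P.zeta s :=
        (mul_le_of_le_one_right (h.zeta_pos r).le a2).trans a3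
      have a5 := mul_le_mul_of_nonneg_left a1 (by positivity : 0 ≤ β ^ 4)
      have a6 := mul_le_mul_of_nonneg_left a4 (by positivity : 0 ≤ β ^ 4)
      rw [hw]
      unfold kap
      nlinarith)
  simp only [M4_zero h] at h1
  have h2 := mul_le_mul_of_nonneg_left (Gam_sq_le h β s) (kap_pos hβ).le
  rw [hw] at h1
  nlinarith

/-- the slope `c' = κ / (2β⁴) = e^{-6β²} / (3β²)` -/
def cz (β : ℝ) : ℝ := Real.exp (-(6 * β ^ 2)) / (3 * β ^ 2)

theorem cz_pos (hβ : 0 < β) : 0 < cz β := by unfold cz; positivity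

theorem cz_le (hβ : 1 ≤ β) : cz β ≤ 1 / 3 := by
  unfold cz
  have h1 : Real.exp (-(6 * β ^ 2)) ≤ 1 := Real.exp_le_one_iff.2 (by nlinarith)
  rw [div_le_iff₀ (by positivity)]
  nlinarith

/-- at the minimiser: `c' s² - 2η ≤ s ζ(s)` on `[0,1]` -/
theorem mul_zeta_ge (h : P.OK) (hβ : 1 ≤ β) {c C η : ℝ} (hG : P.Good β c C η) {s : ℝ}
    (hs : s ∈ Icc (0:ℝ) 1) : cz β * s ^ 2 - 2 * η ≤ s * P.zeta s := by
  have hβ0 : 0 < β := by linarith
  have hz := cz_pos hβ0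
  have hz3 := cz_le hβ
  have g0 := abs_le.1 (hG.gam' 0 ⟨le_rfl, h.b_nonneg⟩)
  have hη : 0 ≤ η := by linarith [g0.1, g0.2]
  rcases le_total s P.b with hb | hb
  · have h1 := zeta_ge h hβ0 hs
    have g1 := abs_le.1 (hG.gam s ⟨hs.1, hb⟩)
    have g2 := abs_le.1 (hG.gam' s ⟨hs.1, hb⟩)
    have g3 := h.Gam_nonneg β s
    have g4 := h.Gam_le_one β s
    have h2 : s ^ 2 - 2 * η ≤ P.Gam β s ^ 2 := by nlinarith [hs.1, hs.2]
    have hk : kap β = 2 * β ^ 4 * cz β := by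
      unfold kap cz
      field_simp
    have b4 : 1 ≤ β ^ 4 := one_le_pow₀ hβ
    have h3 := mul_le_mul_of_nonneg_left h2 hz.le
    rw [hk] at h1
    have h4 : 2 * β ^ 4 * (cz β * P.Gam β s ^ 2 - η) ≤ 2 * β ^ 4 * (s * P.zeta s) := by
      nlinarith
    have h5 := le_of_mul_le_mul_left h4 (by positivity)
    nlinarith
  · rw [h.zeta_top hb]
    nlinarith [hs.1, hs.2]

/-- **(P+) `ζ(s) ≥ c' s - 2 √η` on `[0,1]` at the grid minimiser** -/
theorem zeta_lin_ge (h : P.OK) (hβ : 1 ≤ β) {c C η : ℝ} (hG : P.Good β c C η) {s : ℝ}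
    (hs : s ∈ Icc (0:ℝ) 1) : cz β * s - 2 * √η ≤ P.zeta s := by
  have hβ0 : 0 < β := by linarith
  have hz := cz_pos hβ0
  have hz3 := cz_le hβ
  have g0 := abs_le.1 (hG.gam' 0 ⟨le_rfl, h.b_nonneg⟩)
  have hη : 0 ≤ η := by linarith [g0.1, g0.2]
  have q0 := Real.sqrt_nonneg η
  have q1 := Real.mul_self_sqrt hη
  have zp := h.zeta_pos s
  rcases le_or_gt s √η with h1 | h1
  · nlinarith [hs.1]
  · have h2 := mul_zeta_ge h hβ hG hs
    have hs0 : 0 < s := q0.trans_lt h1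
    refine le_of_mul_le_mul_left ?_ hs0
    nlinarith

/-- `ParStmt` with the lower slope and the sign of `Φ_xxxx(s,0)` -/
theorem parPlus (β : ℝ) (hβ : 1 < β) : ∃ c C : ℝ, 0 < c ∧ c ≤ 1 ∧ 1 ≤ C ∧ ∃ K0 : ℕ, ∀ K : ℕ,
    K0 ≤ K → ∃ P : Par, P.K = K ∧ P.OK ∧ P.Good β c C (C * (K : ℝ) ^ (-(1 / 8 : ℝ))) ∧
      (∀ s ∈ Icc (0:ℝ) 1, cz β * s - 2 * √(C * (K : ℝ) ^ (-(1 / 8 : ℝ))) ≤ P.zeta s) ∧
      ∀ s ∈ Icc (0:ℝ) 1, deriv (P.Pxxx β s) 0 ≤ -(2 * Real.exp (-(5 * β ^ 2))) := by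
  obtain ⟨c, C, h1, h2, h3, K0, h4⟩ := parStmt β hβ
  refine ⟨c, C, h1, h2, h3, K0, fun K hK => ?_⟩
  obtain ⟨P, p1, p2, p3⟩ := h4 K hK
  exact ⟨P, p1, p2, p3, fun s hs => zeta_lin_ge p2 hβ.le p3 hs, fun s hs => P4_le' p2 β hs⟩

end

end Crest.Agent.T156.Pp
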