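import Crest.Agent.T156.POde_3
import Crest.Agent.T156.PrDef_28
import Crest.Agent.T156.Pplus_69

/-!
Row 156, ALT, text (L), leaf L-g (helper74): the a-priori bound (L0) of docs/T156_69.md sec.3.
For every admissible list `e^{-6T}/4 · Γ(s)³ ≤ s² Z + (s G(s) - Γ(s))` when the tilt is `≤ Z`
on `[0,s)`; root zone bounds; the top-down dyadic induction.
-/

set_option autoImplicit false

namespace Crest.Agent.T156.Lz74

open MeasureTheory Set
open Crest.Agent.R164.GC Crest.Agent.R339.B Crest.Agent.R339.Var Crest.Agent.T157.Pf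
open Crest.Agent.T156.Pp Crest.Agent.T156.Pp.Ode3
open Crest.ProbabilityR.InvariantGlass (gaussOp)

noncomputable section

variable {l : List (ℝ × ℝ)}

def V4 (Φ : ℝ → ℝ) (y : ℝ) : ℝ := (Dn 0 Φ y ^ 2) ^ 2
def V22 (Φ : ℝ → ℝ) (y : ℝ) : ℝ := Dn 0 Φ y ^ 2 * Dn 1 Φ y ^ 2

theorem bfn_V4 : BFn V4 :=
  ⟨fun _ h => toBC (((Dn_bd h 0).pow 2).pow 2), fun _ h m _ => ((Dn_ug h m 0).pow 2).pow 2⟩
theorem bfn_V22 : BFn V22 :=
  ⟨fun _ h => toBC (((Dn_bd h 0).pow 2).mul ((Dn_bd h 1).pow 2)),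
    fun _ h m _ => ((Dn_ug h m 0).pow 2).mul ((Dn_ug h m 1).pow 2)⟩
theorem bfn_cV22 (c : ℝ) : BFn fun Φ y => c * V22 Φ y :=
  ⟨fun _ h => toBC ((((Dn_bd h 0).pow 2).mul ((Dn_bd h 1).pow 2)).const_mul c),
    fun _ h m _ => (((Dn_ug h m 0).pow 2).mul ((Dn_ug h m 1).pow 2)).const_mul c⟩

/-- `E Φ_x⁴` -/
def M4 : List (ℝ × ℝ) → ℝ → ℝ := Et V4
/-- `E Φ_x² Φ_xx²` -/
def M22 : List (ℝ × ℝ) → ℝ → ℝ := Et V22

theorem M4_cont (h : AP l) : ContinuousOn (M4 l) (Icc 0 (TT l)) := Et_cont bfn_V4 h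

theorem M4_rder (h : AP l) {t : ℝ} (h0 : 0 ≤ t) (h1 : t < TT l) :
    HasDerivWithinAt (M4 l) (6 * M22 l t) (Ici t) t := by
  refine (Et_rder (G' := fun _ Φ y => 6 * V22 Φ y) bfn_V4 (fun _ => bfn_cV22 6)
    (fun Φ hΦ m _ => ⟨_,
      (((tb_Dn hΦ m 0).mul (tb_Dn hΦ m 0)).mul ((tb_Dn hΦ m 0).mul (tb_Dn hΦ m 0))).congr
      (fun v x => by unfold V4; ring)
      (fun v x => by
        unfold V22
        simp only [Finset.range_zero, Finset.sum_empty]
        ring) (fun _ _ => rfl)⟩) h h0 h1).congr_deriv ?_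
  rw [Et_lin bfn_V22 bfn_V22 6 0 (fun Φ y => by ring)]
  unfold M22; ring

theorem M4_zero (h : AP l) : M4 l 0 = 0 := by
  unfold M4
  rw [Et_zero _ h.nn]
  unfold V4
  rw [D0_zero h.adm]; norm_num

theorem Gam_sq_le (l : List (ℝ × ℝ)) (t : ℝ) : Gam l t ^ 2 ≤ M4 l t := by
  obtain ⟨K, hK⟩ := Et_bc bfn_W0 l t
  exact EX_sq one_pos l t hK 0

theorem M22_nonneg (l : List (ℝ × ℝ)) (t : ℝ) : 0 ≤ M22 l t :=
  Et_nonneg bfn_V22 fun y => by unfold V22; positivity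

theorem M22_le (h : Adm 1 l) (t : ℝ) : M22 l t ≤ Gam l t :=
  Et_mono bfn_V22 bfn_W0 fun y => by
    unfold V22 W0
    have h1 := D1_pos h t y
    have h2 := D1_le h t y
    exact mul_le_of_le_one_right (sq_nonneg _) (by nlinarith)

theorem M4_le (h : AP l) {u : ℝ} (hu : u ∈ Icc 0 (TT l)) : M4 l u ≤ 3 * u ^ 2 := by
  have h1 := le_of_rder (f := fun r => M4 l r - 3 * r ^ 2) (f' := fun r => 6 * M22 l r - 3 * (2 * r))
    hu.1 (((M4_cont h).mono (Icc_subset_Icc le_rfl hu.2)).sub (by fun_prop))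
    (fun r hr => (M4_rder h hr.1 (hr.2.trans_le hu.2)).sub
      (((hasDerivAt_pow 2 r).const_mul 3).hasDerivWithinAt.congr_deriv (by norm_num)))
    (fun r hr => by
      have a1 := M22_le h.adm r
      have a2 := Gam_le h (t := r) ⟨hr.1, hr.2.le.trans hu.2⟩
      linarith)
  simp only [M4_zero h] at h1
  linarith

theorem M4_mono (h : AP l) {u s : ℝ} (hu : 0 ≤ u) (hus : u ≤ s) (hs : s ≤ TT l) :
    M4 l u ≤ M4 l s := by
  have h1 := le_of_rder (f := fun r => -M4 l r) (f' := fun r => -(6 * M22 l r)) hus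
    ((M4_cont h).mono (Icc_subset_Icc hu hs)).neg
    (fun r hr => (M4_rder h (hu.trans hr.1) (hr.2.trans_le hs)).neg)
    (fun r _ => by have := M22_nonneg l r; linarith)
  linarith

/-- (H3) pointwise -/
theorem D2_sq_ge (h : Adm 1 l) {T t : ℝ} (hT : TT l ≤ T) (h0 : 0 ≤ t) (h1 : t ≤ TT l) (x : ℝ) :
    4 * Real.exp (-(6 * T)) * V22 (PhiT 1 l t) x ≤ Dn 2 (PhiT 1 l t) x ^ 2 := by
  obtain ⟨m, _, _, hI⟩ := PhiT_inv one_pos l h t
  unfold V22
  rw [Dn_two, Dn_one, Dn_zero]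
  set Φ := PhiT 1 l t
  have key : ∀ y, 0 ≤ y → 4 * Real.exp (-(6 * T)) * (deriv Φ y ^ 2 * deriv (deriv Φ) y ^ 2) ≤
      deriv (deriv (deriv Φ)) y ^ 2 := by
    intro y hy
    have h1 := hop_PhiT h t h1 y hy
    have h0' : 0 ≤ deriv Φ y * deriv (deriv Φ) y := mul_nonneg (hI.nonneg hy) (u2_pos hI y).le
    have h2 : Real.exp (-(3 * T)) ≤ Real.exp (-(3 * (TT l - t))) :=
      Real.exp_le_exp.2 (by linarith)
    have h3 : 2 * Real.exp (-(3 * T)) * (deriv Φ y * deriv (deriv Φ) y) ≤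
        -deriv (deriv (deriv Φ)) y :=
      (mul_le_mul_of_nonneg_right (by linarith) h0').trans h1
    have h4 := pow_le_pow_left₀ (by positivity) h3 2
    have h5 : Real.exp (-(6 * T)) = Real.exp (-(3 * T)) ^ 2 := by
      rw [sq (Real.exp _), ← Real.exp_add]
      congr 1
      ring
    rw [h5]
    nlinarith
  rcases le_total 0 x with hx | hx
  · exact key x hx
  · have := key (-x) (by linarith)
    have e1 : deriv Φ (-x) = -deriv Φ x := hI.odd x
    have e2 : deriv (deriv Φ) (-x) = deriv (deriv Φ) x := u2_even hI x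
    have e3 : deriv (deriv (deriv Φ)) (-x) = -deriv (deriv (deriv Φ)) x := u3_odd hI x
    rwa [e1, e2, e3, neg_sq, neg_sq] at this

theorem Nm_ge (h : Adm 1 l) {T t : ℝ} (hT : TT l ≤ T) (h0 : 0 ≤ t) (h1 : t ≤ TT l) :
    4 * Real.exp (-(6 * T)) * M22 l t ≤ Nm l t := by
  have a := Et_mono (l := l) (t := t) (bfn_cV22 (4 * Real.exp (-(6 * T)))) bfn_W2
    (fun y => D2_sq_ge h hT h0 h1 y)
  rw [Et_lin bfn_V22 bfn_V22 (4 * Real.exp (-(6 * T))) 0 (fun Φ y => by ring)] at a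
  unfold M22 Nm
  linarith

/-- increments of `G` from below -/
theorem Gp_incr (h : AP l) {T u s Z : ℝ} (hT : TT l ≤ T) (hu : 0 ≤ u) (hus : u ≤ s) (hs : s ≤ TT l)
    (hZ : ∀ r, u ≤ r → r < s → lvr 1 l r ≤ Z) :
    2 / 3 * Real.exp (-(6 * T)) * (M4 l s - M4 l u) - 2 * Z * (s - u) ≤ Gp l s - Gp l u := by
  set κ := 2 / 3 * Real.exp (-(6 * T)) with hκ
  have h1 := le_of_rder (f := fun r => κ * M4 l r - Gp l r - 2 * Z * r)
    (f' := fun r => κ * (6 * M22 l r) - (Nm l r - 2 * lvr 1 l r * Am l r) - 2 * Z * 1) hus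
    (((continuousOn_const.mul ((M4_cont h).mono (Icc_subset_Icc hu hs))).sub
      ((Gp_cont h).mono (Icc_subset_Icc hu hs))).sub (by fun_prop))
    (fun r hr => (((M4_rder h (hu.trans hr.1) (hr.2.trans_le hs)).const_mul κ).sub
      (Gp_rder h (hu.trans hr.1) (hr.2.trans_le hs))).sub ((hasDerivWithinAt_id r _).const_mul _))
    (fun r hr => by
      have a1 := Nm_ge h.adm hT (hu.trans hr.1) (hr.2.le.trans hs)
      have a2 : lvr 1 l r * Am l r ≤ Z :=
        (mul_le_of_le_one_right (lvr_pos h.adm r).le (Am_le_one h.adm r)).trans (hZ r hr.1 hr.2)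
      rw [hκ]; nlinarith)
  nlinarith

/-- **core inequality** -/
theorem core (h : AP l) {T s Z : ℝ} (hT : TT l ≤ T) (h0 : 0 ≤ s) (hs : s ≤ TT l)
    (hZ : ∀ r, 0 ≤ r → r < s → lvr 1 l r ≤ Z) :
    Real.exp (-(6 * T)) / 4 * Gam l s ^ 3 ≤ s ^ 2 * Z + (s * Gp l s - Gam l s) := by
  set κ := 2 / 3 * Real.exp (-(6 * T)) with hκ
  have hκ0 : 0 ≤ κ := by positivity
  set Γ := Gam l s with hΓ
  have hΓ0 : 0 ≤ Γ := Gam_nonneg l s
  have hΓs : Γ ≤ s := Gam_le h ⟨h0, hs⟩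
  set a := Γ / 2 with ha
  have ha0 : 0 ≤ a := by positivity
  have has : a ≤ s := by linarith
  -- on `[0, a]`
  have h1 := le_of_rder
    (f := fun u => κ * (Γ ^ 2 * u - u ^ 3) - Z * (2 * s * u - u ^ 2) - (u * Gp l s - Gam l u))
    (f' := fun u => κ * (Γ ^ 2 - 3 * u ^ 2) - Z * (2 * s - 2 * u) - (Gp l s - Gp l u)) ha0
    (((by fun_prop : ContinuousOn (fun u : ℝ => κ * (Γ ^ 2 * u - u ^ 3) - Z * (2 * s * u - u ^ 2))
      _)).sub ((by fun_prop : ContinuousOn (fun u : ℝ => u * Gp l s) _).sub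
        ((Gam_cont h).mono (Icc_subset_Icc le_rfl (has.trans hs)))))
    (fun u hu => by
      have d1 : HasDerivAt (fun u : ℝ => κ * (Γ ^ 2 * u - u ^ 3) - Z * (2 * s * u - u ^ 2))
          (κ * (Γ ^ 2 - 3 * u ^ 2) - Z * (2 * s - 2 * u)) u :=
        (((((hasDerivAt_id u).const_mul (Γ ^ 2)).sub (hasDerivAt_pow 3 u)).const_mul κ).sub
          ((((hasDerivAt_id u).const_mul (2 * s)).sub (hasDerivAt_pow 2 u)).const_mul Z)).congr_deriv
          (by norm_num)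
      exact d1.hasDerivWithinAt.sub (((hasDerivWithinAt_id u _).mul_const (Gp l s)).sub
        (Gam_rder h hu.1 (hu.2.trans_le (has.trans hs)))) |>.congr_deriv (by simp))
    (fun u hu => by
      have hus : u ≤ s := hu.2.le.trans has
      have a1 := Gp_incr h hT hu.1 hus hs fun r hr => hZ r (hu.1.trans hr)
      rw [← hκ] at a1
      have a2 := M4_le h (u := u) ⟨hu.1, hus.trans hs⟩
      have a3 := Gam_sq_le l s
      have a4 : κ * (Γ ^ 2 - 3 * u ^ 2) ≤ κ * (M4 l s - M4 l u) :=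
        mul_le_mul_of_nonneg_left (by linarith) hκ0
      linarith)
  -- on `[a, s]`
  have h2 := le_of_rder
    (f := fun u => -(Z * (2 * s * u - u ^ 2)) - (u * Gp l s - Gam l u))
    (f' := fun u => -(Z * (2 * s - 2 * u)) - (Gp l s - Gp l u)) has
    (((by fun_prop : ContinuousOn (fun u : ℝ => -(Z * (2 * s * u - u ^ 2))) _)).sub
      ((by fun_prop : ContinuousOn (fun u : ℝ => u * Gp l s) _).sub
        ((Gam_cont h).mono (Icc_subset_Icc ha0 hs))))
    (fun u hu => by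
      have d1 : HasDerivAt (fun u : ℝ => -(Z * (2 * s * u - u ^ 2))) (-(Z * (2 * s - 2 * u))) u :=
        (((((hasDerivAt_id u).const_mul (2 * s)).sub (hasDerivAt_pow 2 u)).const_mul Z).neg).congr_deriv
          (by norm_num)
      exact d1.hasDerivWithinAt.sub (((hasDerivWithinAt_id u _).mul_const (Gp l s)).sub
        (Gam_rder h (ha0.trans hu.1) (hu.2.trans_le hs))) |>.congr_deriv (by simp))
    (fun u hu => by
      have hu0 : 0 ≤ u := ha0.trans hu.1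
      have a1 := Gp_incr h hT hu0 hu.2.le hs fun r hr => hZ r (hu0.trans hr)
      rw [← hκ] at a1
      have a2 := M4_mono h hu0 hu.2.le hs
      have a4 : 0 ≤ κ * (M4 l s - M4 l u) := mul_nonneg hκ0 (by linarith)
      linarith)
  simp only [Gam_zero h] at h1 h2
  have e : κ * (Γ ^ 2 * a - a ^ 3) = Real.exp (-(6 * T)) / 4 * Γ ^ 3 := by rw [hκ, ha]; ring
  nlinarith

/-- `G` moves up at rate `≤ 4 s` and down at rate `≤ 2 Z` -/
theorem Gp_up (h : AP l) {u s : ℝ} (hu : 0 ≤ u) (hus : u ≤ s) (hs : s ≤ TT l) :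
    Gp l s - Gp l u ≤ 4 * s * (s - u) := by
  have h1 := le_of_rder (f := fun r => Gp l r - 4 * s * r)
    (f' := fun r => (Nm l r - 2 * lvr 1 l r * Am l r) - 4 * s * 1) hus
    (((Gp_cont h).mono (Icc_subset_Icc hu hs)).sub (by fun_prop))
    (fun r hr => (Gp_rder h (hu.trans hr.1) (hr.2.trans_le hs)).sub
      ((hasDerivWithinAt_id r _).const_mul _))
    (fun r hr => by
      have a1 := Nm_le h (t := r) ⟨hu.trans hr.1, hr.2.le.trans hs⟩
      have a2 : 0 ≤ lvr 1 l r * Am l r := mul_nonneg (lvr_pos h.adm r).le (Am_nonneg h.adm r)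
      have a3 := hr.2
      nlinarith)
  nlinarith

theorem Gp_down (h : AP l) {u s Z : ℝ} (hu : 0 ≤ u) (hus : u ≤ s) (hs : s ≤ TT l)
    (hZ : ∀ r, u ≤ r → r < s → lvr 1 l r ≤ Z) : Gp l u - Gp l s ≤ 2 * Z * (s - u) := by
  have a1 := Gp_incr h le_rfl hu hus hs hZ
  have a2 := M4_mono h hu hus hs
  have a3 : 0 ≤ 2 / 3 * Real.exp (-(6 * TT l)) * (M4 l s - M4 l u) :=
    mul_nonneg (by positivity) (by linarith)
  linarith

/-- increments of `Γ` against bounds for `G` -/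
theorem Gam_incr_ge (h : AP l) {u s c : ℝ} (hu : 0 ≤ u) (hus : u ≤ s) (hs : s ≤ TT l)
    (hc : ∀ r, u ≤ r → r < s → c ≤ Gp l r) : c * (s - u) ≤ Gam l s - Gam l u := by
  have h1 := le_of_rder (f := fun r => c * r - Gam l r) (f' := fun r => c * 1 - Gp l r) hus
    ((by fun_prop : ContinuousOn (fun r : ℝ => c * r) _).sub
      ((Gam_cont h).mono (Icc_subset_Icc hu hs)))
    (fun r hr => ((hasDerivWithinAt_id r _).const_mul c).sub
      (Gam_rder h (hu.trans hr.1) (hr.2.trans_le hs)))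
    (fun r hr => by have := hc r hr.1 hr.2; linarith)
  nlinarith

theorem Gam_incr_le (h : AP l) {u s c : ℝ} (hu : 0 ≤ u) (hus : u ≤ s) (hs : s ≤ TT l)
    (hc : ∀ r, u ≤ r → r < s → Gp l r ≤ c) : Gam l s - Gam l u ≤ c * (s - u) := by
  have h1 := le_of_rder (f := fun r => Gam l r - c * r) (f' := fun r => Gp l r - c * 1) hus
    (((Gam_cont h).mono (Icc_subset_Icc hu hs)).sub
      (by fun_prop : ContinuousOn (fun r : ℝ => c * r) _))
    (fun r hr => (Gam_rder h (hu.trans hr.1) (hr.2.trans_le hs)).sub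
      ((hasDerivWithinAt_id r _).const_mul c))
    (fun r hr => by have := hc r hr.1 hr.2; linarith)
  nlinarith

/-- a Plefka bound averaged over the window `[s - w, s]` gives the bound at `s` -/
theorem Gp_of_window_below (h : AP l) {s w c : ℝ} (hw : 0 < w) (hws : w ≤ s) (hs : s ≤ TT l)
    (hc : Gam l s - Gam l (s - w) ≤ c * w) : Gp l s ≤ c + 4 * s * w := by
  have a := Gam_incr_ge h (u := s - w) (s := s) (c := Gp l s - 4 * s * w) (by linarith)
    (by linarith) hs fun r hr hr' => by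
      have a1 := Gp_up h (u := r) (by linarith) hr'.le hs
      have a2 : 4 * s * (s - r) ≤ 4 * s * w :=
        mul_le_mul_of_nonneg_left (by linarith) (by linarith)
      linarith
  have : (Gp l s - 4 * s * w) * w ≤ c * w := by nlinarith
  have := le_of_mul_le_mul_right this hw
  linarith

/-- the same for the window `[s, s + w]` -/
theorem Gp_of_window_above (h : AP l) {s w c Z : ℝ} (hw : 0 < w) (h0 : 0 ≤ s) (hs : s + w ≤ TT l)
    (hZ : ∀ r, s ≤ r → r < s + w → lvr 1 l r ≤ Z)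
    (hc : Gam l (s + w) - Gam l s ≤ c * w) : Gp l s ≤ c + 2 * Z * w := by
  have hZ0 : 0 ≤ Z := (lvr_pos h.adm s).le.trans (hZ s le_rfl (by linarith))
  have a := Gam_incr_ge h (u := s) (s := s + w) (c := Gp l s - 2 * Z * w) h0
    (by linarith) hs fun r hr hr' => by
      have a1 := Gp_down h h0 hr (hr'.le.trans hs) fun t ht ht' => hZ t ht (ht'.trans hr')
      have a2 : 2 * Z * (r - s) ≤ 2 * Z * w :=
        mul_le_mul_of_nonneg_left (by linarith) (by linarith)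
      linarith
  have : (Gp l s - 2 * Z * w) * w ≤ c * w := by nlinarith
  have := le_of_mul_le_mul_right this hw
  linarith

/-- **(L0), cubic form** -/
theorem cubic (h : AP l) {T s Z b g η : ℝ} (hT : TT l ≤ T) (h0 : 0 ≤ s) (hs : s ≤ TT l)
    (hZ : ∀ r, 0 ≤ r → r < s → lvr 1 l r ≤ Z) (hb : 0 < b) (hG : b * Gp l s ≤ 1 + g)
    (hΓ : s / b - η ≤ Gam l s) (hη : η ≤ s / (2 * b)) :
    Real.exp (-(6 * T)) / (32 * b ^ 3) * s ^ 3 ≤ s ^ 2 * Z + s * g / b + η := by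
  have a1 := core h hT h0 hs hZ
  have a2 : s / (2 * b) ≤ Gam l s := by
    have : s / b = s / (2 * b) + s / (2 * b) := by field_simp; ring
    linarith
  have a3 := pow_le_pow_left₀ (by positivity) a2 3
  have a4 : Real.exp (-(6 * T)) / (32 * b ^ 3) * s ^ 3 =
      Real.exp (-(6 * T)) / 4 * (s / (2 * b)) ^ 3 := by field_simp; ring
  have a5 := mul_le_mul_of_nonneg_left a3 (by positivity : 0 ≤ Real.exp (-(6 * T)) / 4)
  have a6 : Gp l s ≤ (1 + g) / b := by rw [le_div_iff₀ hb]; linarith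
  have a7 : s * Gp l s ≤ s / b + s * g / b := by
    have := mul_le_mul_of_nonneg_left a6 h0
    have e : s * ((1 + g) / b) = s / b + s * g / b := by ring
    linarith
  linarith

/-- the constant of (L0) -/
def CL (T b : ℝ) : ℝ := 1 + 2 * b + 32 * b ^ 3 * Real.exp (6 * T) * (2 + 1 / b)

theorem one_le_CL (T : ℝ) {b : ℝ} (hb : 0 < b) : 1 ≤ CL T b := by
  unfold CL
  have : 0 ≤ 32 * b ^ 3 * Real.exp (6 * T) * (2 + 1 / b) := by positivity
  linarith

theorem CL_mono (T : ℝ) {b b0 b1 : ℝ} (h0 : 0 < b0) (h1 : b0 ≤ b) (h2 : b ≤ b1) :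
    CL T b ≤ 1 + 2 * b1 + 32 * b1 ^ 3 * Real.exp (6 * T) * (2 + 1 / b0) := by
  unfold CL
  have hb : 0 < b := h0.trans_le h1
  have hb1 : 0 < b1 := hb.trans_le h2
  have a1 : 1 / b ≤ 1 / b0 := one_div_le_one_div_of_le h0 h1
  gcongr

/-- **(L0)**: one node with Plefka defect `≤ λ²`, E1 residual `≤ λ³`, tilt `≤ λ` has time `≤ C λ` -/
theorem l0 (h : AP l) {T s b lam : ℝ} (hT : TT l ≤ T) (h0 : 0 ≤ s) (hs : s ≤ TT l) (hb : 0 < b)
    (hl : 0 < lam) (hl1 : lam ≤ 1) (hZ : ∀ r, 0 ≤ r → r < s → lvr 1 l r ≤ lam)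
    (hG : b * Gp l s ≤ 1 + lam ^ 2) (hΓ : s / b - lam ^ 3 ≤ Gam l s) : s ≤ CL T b * lam := by
  have hE : 0 ≤ 32 * b ^ 3 * Real.exp (6 * T) * (2 + 1 / b) := by positivity
  rcases le_total s lam with h1 | h1
  · exact h1.trans (le_mul_of_one_le_left hl.le (one_le_CL T hb))
  rcases le_total (lam ^ 3) (s / (2 * b)) with h2 | h2
  · have a1 := cubic h hT h0 hs hZ hb hG hΓ h2
    have hs0 : 0 < s := hl.trans_le h1
    have a2 : s * lam ^ 2 / b ≤ s ^ 2 * lam * (1 / b) := by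
      rw [div_eq_mul_one_div]
      refine mul_le_mul_of_nonneg_right ?_ (by positivity)
      nlinarith [mul_pos hs0 hl]
    have a3 : lam ^ 3 ≤ s ^ 2 * lam := by
      have := pow_le_pow_left₀ hl.le h1 2
      nlinarith
    have a4 : Real.exp (-(6 * T)) / (32 * b ^ 3) * s * s ^ 2 ≤ (2 + 1 / b) * lam * s ^ 2 := by
      nlinarith
    have a5 := le_of_mul_le_mul_right a4 (by positivity)
    have a6 : s = 32 * b ^ 3 * Real.exp (6 * T) * (Real.exp (-(6 * T)) / (32 * b ^ 3) * s) := by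
      rw [Real.exp_neg]; field_simp
    have a7 := mul_le_mul_of_nonneg_left a5 (by positivity : 0 ≤ 32 * b ^ 3 * Real.exp (6 * T))
    unfold CL
    nlinarith [mul_pos hb hl]
  · rw [div_le_iff₀ (by positivity)] at h2
    have a1 : lam ^ 3 ≤ lam := by nlinarith [mul_pos hl hl]
    have a2 : lam ^ 3 * (2 * b) ≤ lam * (2 * b) := mul_le_mul_of_nonneg_right a1 (by positivity)
    unfold CL
    nlinarith [mul_nonneg hE hl.le]

/-! ### the root zone -/

theorem Gp_osc (h : AP l) {s Z t u : ℝ} (hs : s ≤ TT l)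
    (hZ : ∀ r, 0 ≤ r → r < s → lvr 1 l r ≤ Z) (hZ0 : 0 ≤ Z) (ht : t ∈ Icc 0 s) (hu : u ∈ Icc 0 s) :
    |Gp l t - Gp l u| ≤ (4 * s + 2 * Z) * |t - u| := by
  wlog htu : u ≤ t generalizing t u
  · rw [abs_sub_comm, abs_sub_comm t u]; exact this hu ht (le_of_not_ge htu)
  have a1 := Gp_up h hu.1 htu (ht.2.trans hs)
  have a2 := Gp_down h hu.1 htu (ht.2.trans hs) fun r hr hr' =>
    hZ r (hu.1.trans hr) (hr'.trans_le ht.2)
  rw [abs_of_nonneg (sub_nonneg.2 htu), abs_le]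
  have a3 : 0 ≤ t - u := sub_nonneg.2 htu
  have a4 := ht.2
  have a5 := ht.1
  constructor <;> nlinarith [mul_nonneg a3 hZ0, mul_nonneg a3 (a5.trans a4)]

/-- **root zone**: `μ = 1 - b G` and the residual `Γ - t / b` on `[0, s]` -/
theorem root (h : AP l) {s Z b η : ℝ} (h0 : 0 < s) (hs : s ≤ TT l)
    (hZ : ∀ r, 0 ≤ r → r < s → lvr 1 l r ≤ Z) (hΓ : |Gam l s - s / b| ≤ η) {t : ℝ}
    (ht : t ∈ Icc 0 s) :
    |Gp l t - 1 / b| ≤ η / s + (4 * s + 2 * Z) * s ∧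
      |Gam l t - t / b| ≤ t * (η / s + (4 * s + 2 * Z) * s) := by
  have hZ0 : 0 ≤ Z := (lvr_pos h.adm 0).le.trans (hZ 0 le_rfl h0)
  set K := (4 * s + 2 * Z) * s with hK
  have key : ∀ t ∈ Icc 0 s, |Gp l t - 1 / b| ≤ η / s + K := by
    intro t ht
    have osc : ∀ r, 0 ≤ r → r < s → |Gp l r - Gp l t| ≤ K := fun r hr hr' =>
      (Gp_osc h hs hZ hZ0 ⟨hr, hr'.le⟩ ht).trans (mul_le_mul_of_nonneg_left
        (abs_le.2 ⟨by linarith [ht.2], by linarith [ht.1]⟩) (by positivity))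
    have a1 := Gam_incr_ge h (c := Gp l t - K) le_rfl h0.le hs fun r hr hr' => by
      linarith [(abs_le.1 (osc r hr hr')).1]
    have a2 := Gam_incr_le h (c := Gp l t + K) le_rfl h0.le hs fun r hr hr' => by
      linarith [(abs_le.1 (osc r hr hr')).2]
    rw [Gam_zero h] at a1 a2
    obtain ⟨b1, b2⟩ := abs_le.1 hΓ
    have e : s / b = 1 / b * s := by ring
    have e2 : η / s * s = η := by field_simp
    rw [abs_le]
    constructor
    · refine le_of_mul_le_mul_right ?_ h0; nlinarith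
    · refine le_of_mul_le_mul_right ?_ h0; nlinarith
  refine ⟨key t ht, ?_⟩
  have a1 := Gam_incr_ge h (c := 1 / b - (η / s + K)) le_rfl ht.1 (ht.2.trans hs) fun r hr hr' => by
    linarith [(abs_le.1 (key r ⟨hr, hr'.le.trans ht.2⟩)).1]
  have a2 := Gam_incr_le h (c := 1 / b + (η / s + K)) le_rfl ht.1 (ht.2.trans hs) fun r hr hr' => by
    linarith [(abs_le.1 (key r ⟨hr, hr'.le.trans ht.2⟩)).2]
  rw [Gam_zero h] at a1 a2
  have e : t / b = 1 / b * t := by ring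
  rw [abs_le]
  constructor <;> nlinarith

/-! ### top-down induction over the levels (frame free) -/

theorem topdown {rb : ℝ → ℝ} {lam l C M : ℝ} (hm : Monotone rb) (hlam : 1 < lam) (hl : 0 < l)
    (hC : 0 < C) (htop : ∀ x, rb x ≤ M)
    (step : ∀ S, l ≤ S → rb (lam * S) ≤ C * (lam * S) → rb S ≤ C * S) (x : ℝ) :
    rb x ≤ C * max x l := by
  have key : ∀ k : ℕ, ∀ S, l ≤ S → M ≤ C * (lam ^ k * S) → rb S ≤ C * S := by
    intro k
    induction k with
    | zero => intro S _ hM; simpa using (htop S).trans hM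
    | succ k ih =>
      intro S hS hM
      refine step S hS (ih _ ?_ ?_)
      · nlinarith
      · rwa [show lam ^ k * (lam * S) = lam ^ (k + 1) * S by ring]
  have hS : 0 < max x l := hl.trans_le (le_max_right _ _)
  obtain ⟨k, hk⟩ := pow_unbounded_of_one_lt (M / (C * max x l)) hlam
  rw [div_lt_iff₀ (by positivity)] at hk
  exact (hm (le_max_left x l)).trans (key k _ (le_max_right _ _) (by nlinarith))

/-! ### the names of `PrDef_28` -/

theorem ap_of_ok (h : Pr.Ok l) : AP l := ⟨h.1, h.2⟩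
theorem Gam_eq (l : List (ℝ × ℝ)) : Pr.Gam l = Gam l := rfl
theorem GG_eq (l : List (ℝ × ℝ)) : Pr.GG l = Gp l := rfl

/-- leaf L-g -/
def L0S : Prop := ∀ (l : List (ℝ × ℝ)) (T s : ℝ), Pr.Ok l → TT l ≤ T → 0 ≤ s → s ≤ TT l →
  (∀ Z, (∀ r, 0 ≤ r → r < s → lvr 1 l r ≤ Z) →
    Real.exp (-(6 * T)) / 4 * Pr.Gam l s ^ 3 ≤ s ^ 2 * Z + (s * Pr.GG l s - Pr.Gam l s)) ∧
  (∀ b lam, 0 < b → 0 < lam → lam ≤ 1 → (∀ r, 0 ≤ r → r < s → lvr 1 l r ≤ lam) →
    b * Pr.GG l s ≤ 1 + lam ^ 2 → s / b - lam ^ 3 ≤ Pr.Gam l s → s ≤ CL T b * lam) ∧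
  ∀ Z b η, 0 < s → (∀ r, 0 ≤ r → r < s → lvr 1 l r ≤ Z) → |Pr.Gam l s - s / b| ≤ η →
    ∀ t ∈ Icc 0 s, |Pr.GG l t - 1 / b| ≤ η / s + (4 * s + 2 * Z) * s ∧
      |Pr.Gam l t - t / b| ≤ t * (η / s + (4 * s + 2 * Z) * s)

theorem l0S : L0S := fun _ _ _ h hT h0 hs =>
  ⟨fun _ hZ => core (ap_of_ok h) hT h0 hs hZ,
    fun _ _ hb hl hl1 hZ hG hΓ => l0 (ap_of_ok h) hT h0 hs hb hl hl1 hZ hG hΓ,
    fun _ _ _ h0' hZ hΓ _ ht => root (ap_of_ok h) h0' hs hZ hΓ ht⟩

end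

end Crest.Agent.T156.Lz74
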