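import Crest.Agent.T156.AltCl_88
import Crest.Agent.T156.AltReg_29
import Crest.Agent.T156.Lz_74

/-!
# Row 156, ALT route: calculus of the prefix `CL`; elementary facts of the class `Cl` (helper29)
-/

set_option autoImplicit false

noncomputable section

namespace Crest.Agent.T156.Alt

open Real Set Filter Topology
open Crest.Agent.R164.GC Crest.Agent.R339.B Crest.Agent.R339.Var Crest.Agent.T157.Pf
open Pre29

/-- the type of the class statements -/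
abbrev CP : Type := ℝ → ℝ → Sc → Md → ℕ → ℝ → Prop

/-- monotone in the loss -/
def MoL (R : CP) : Prop := ∀ E Λ Λ' S M m a, 1 ≤ Λ → Λ ≤ Λ' → R E Λ S M m a → R E Λ' S M m a

/-- monotone in the margin -/
def MoE (R : CP) : Prop := ∀ E E' Λ S M m a, 1 ≤ E → E ≤ E' → R E Λ S M m a → R E' Λ S M m a

/-- a class statement at fixed numbers -/
def CLat (X : CP) (C : ℝ) (A n : ℕ) (E Λ : ℝ) : Prop :=
  ∀ (S : Sc) (M : Md), S.C = C → S.A = A → S.n = n → Cl S M → ∀ m a, S.In m a → X E Λ S M m a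

/-- what may be used about the scales; `Λ = S.n ^ η` -/
structure RgC (C : ℝ) (A : ℕ) (η K : ℝ) (S : Sc) : Prop where
  hC : S.C = C
  hA : S.A = A
  A2 : 2 ≤ A
  η_pos : 0 < η
  n3 : 3 ≤ S.n
  K_le : K ≤ (S.n : ℝ) ^ η
  K_log : K ≤ log S.n
  C_log : 2 * C ≤ log S.n
  log_le : log S.n ≤ (S.n : ℝ) ^ η
  A_le : (A : ℝ) ≤ (S.n : ℝ) ^ η
  num_le : 1000 ≤ (S.n : ℝ) ^ η

variable {P Q R : CP} {β : ℝ}

theorem ev_rgc (C : ℝ) {A : ℕ} (hA : 2 ≤ A) {η : ℝ} (hη : 0 < η) (K : ℝ) :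
    ∀ᶠ n : ℕ in atTop, ∀ S : Sc, S.C = C → S.A = A → S.n = n → RgC C A η K S := by
  filter_upwards [eventually_ge_atTop 3, ev_K K hη, ev_le_log K one_pos, ev_le_log (2 * C) one_pos,
    ev_log hη, ev_K A hη, ev_K 1000 hη] with n a1 a2 a3 a4 a5 a6 a7 S b1 b2 b3
  subst b3
  rw [one_mul] at a3 a4
  exact ⟨b1, b2, hA, hη, a1, a2, a3, a4, a5, a6, a7⟩

theorem CL.triv : CL fun _ _ _ _ _ _ => True := fun _ =>
  .of_forall fun _ _ _ _ _ => .of_forall fun _ _ _ _ _ _ _ _ _ _ => trivial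

theorem CL.and (H : CL P) (G : CL Q) : CL fun E Λ S M m a => P E Λ S M m a ∧ Q E Λ S M m a := by
  intro C
  filter_upwards [H C, G C] with A H G ε hε η hη
  filter_upwards [H ε hε η hη, G ε hε η hη] with n H G S M b1 b2 b3 b4 m a b5
  exact ⟨H S M b1 b2 b3 b4 m a b5, G S M b1 b2 b3 b4 m a b5⟩

theorem CL.mono (H : CL P) (h : ∀ E Λ S M m a, 1 ≤ E → 1 ≤ Λ → Cl S M → S.In m a →
    P E Λ S M m a → Q E Λ S M m a) : CL Q := by
  intro C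
  filter_upwards [H C] with A H ε hε η hη
  filter_upwards [H ε hε η hη, ev_one_le] with n H hn S M b1 b2 b3 b4 m a b5
  exact h _ _ S M m a (one_le_rpow hn hε.le) (one_le_rpow hn hη.le) b4 b5 (H S M b1 b2 b3 b4 m a b5)

theorem CL.mp (H : CL fun E Λ S M m a => P E Λ S M m a → Q E Λ S M m a) (G : CL P) : CL Q :=
  (H.and G).mono fun _ _ _ _ _ _ _ _ _ _ h => h.1 h.2

/-- **general glue**: the input is used with its own margin `ε'` and loss `η'` -/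
theorem CL.glue (H : CL P) (h : ∀ C : ℝ, ∃ A0 : ℕ, ∀ A, A0 ≤ A → ∀ ε η : ℝ, 0 < ε → 0 < η →
    ∃ ε' η' K : ℝ, 0 < ε' ∧ 0 < η' ∧ ∀ S M m a, RgC C A η' K S → Cl S M → S.In m a →
      P ((S.n : ℝ) ^ ε') ((S.n : ℝ) ^ η') S M m a → R ((S.n : ℝ) ^ ε) ((S.n : ℝ) ^ η) S M m a) :
    CL R := by
  intro C
  obtain ⟨A0, h⟩ := h C
  filter_upwards [H C, eventually_ge_atTop A0, eventually_ge_atTop 2] with A H hA hA2 ε hε η hη
  obtain ⟨ε', η', K, hε', hη', h⟩ := h A hA ε η hε hη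
  filter_upwards [H ε' hε' η' hη', ev_rgc C hA2 hη' K] with n H G S M b1 b2 b3 b4 m a b5
  subst b3
  exact h S M m a (G S b1 b2 rfl) b4 b5 (H S M b1 b2 rfl b4 m a b5)

/-- **usual glue**: input at `(E, Λ)`, output at `(E ^ i, Λ ^ k)`, with `j η ≤ ε` and `j η ≤ 1` -/
theorem CL.glue' (H : CL P) (hR : MoL R) (A0 : ℕ) {i : ℕ} (hi : 1 ≤ i) (j k : ℕ)
    (h : ∀ (C : ℝ) (A : ℕ) (ε η : ℝ), 0 < ε → 0 < η → ∃ K : ℝ, ∀ S M m a, RgC C A η K S → A0 ≤ A →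
      j * η ≤ ε → j * η ≤ 1 → Cl S M → S.In m a → P ((S.n : ℝ) ^ ε) ((S.n : ℝ) ^ η) S M m a →
      R (((S.n : ℝ) ^ ε) ^ i) (((S.n : ℝ) ^ η) ^ k) S M m a) : CL R :=
  H.glue fun C => ⟨A0, fun A hA ε η hε hη => by
    have hi' : (0 : ℝ) < i := by exact_mod_cast hi
    set η' := min (min (ε / i) 1 / (j + 1)) (η / (k + 1)) with hη'
    have h0 : 0 < η' := by positivity
    have h1 : η' * (j + 1) ≤ min (ε / i) 1 := by
      rw [← le_div_iff₀ (by positivity)]; exact min_le_left _ _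
    have h2 : η' * (k + 1) ≤ η := by
      rw [← le_div_iff₀ (by positivity)]; exact min_le_right _ _
    obtain ⟨K, h⟩ := h C A (ε / i) η' (by positivity) h0
    refine ⟨ε / i, η', K, by positivity, h0, fun S M m a G b1 b2 b3 => ?_⟩
    have hn : 1 ≤ S.n := le_trans (by norm_num) G.n3
    have := h S M m a G hA (by linarith [min_le_left (ε / i) 1])
      (by linarith [min_le_right (ε / i) 1]) b1 b2 b3
    rw [rp_pow, rp_pow, div_mul_cancel₀ _ hi'.ne'] at this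
    refine hR _ _ _ S M m a ?_ (rp_le hn (by linarith)) this
    exact one_le_rpow (by exact_mod_cast hn) (by positivity)⟩

/-- the same for an output monotone in both parameters: the margin is small too -/
theorem CL.glue'' (H : CL P) (hR : MoL R) (hE : MoE R) (A0 : ℕ) {ε1 : ℝ} (h1 : 0 < ε1) {i : ℕ}
    (hi : 1 ≤ i) (j k : ℕ)
    (h : ∀ (C : ℝ) (A : ℕ) (ε η : ℝ), 0 < ε → 0 < η → ∃ K : ℝ, ∀ S M m a, RgC C A η K S → A0 ≤ A →
      j * η ≤ ε → ε ≤ ε1 → Cl S M → S.In m a → P ((S.n : ℝ) ^ ε) ((S.n : ℝ) ^ η) S M m a →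
      R (((S.n : ℝ) ^ ε) ^ i) (((S.n : ℝ) ^ η) ^ k) S M m a) : CL R :=
  H.glue fun C => ⟨A0, fun A hA ε η hε hη => by
    have hi' : (0 : ℝ) < i := by exact_mod_cast hi
    set ε' := min (ε / i) ε1 with hε'
    have e0 : 0 < ε' := by positivity
    have e1 : ε' * i ≤ ε := by
      rw [← le_div_iff₀ hi']; exact min_le_left _ _
    set η' := min (ε' / (j + 1)) (η / (k + 1)) with hη'
    have h0 : 0 < η' := by positivity
    have h1 : η' * (j + 1) ≤ ε' := by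
      rw [← le_div_iff₀ (by positivity)]; exact min_le_left _ _
    have h2 : η' * (k + 1) ≤ η := by
      rw [← le_div_iff₀ (by positivity)]; exact min_le_right _ _
    obtain ⟨K, h⟩ := h C A ε' η' e0 h0
    refine ⟨ε', η', K, e0, h0, fun S M m a G b1 b2 b3 => ?_⟩
    have hn : 1 ≤ S.n := le_trans (by norm_num) G.n3
    have hn' : (1 : ℝ) ≤ S.n := by exact_mod_cast hn
    have := h S M m a G hA (by linarith) (min_le_right _ _) b1 b2 b3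
    rw [rp_pow, rp_pow] at this
    exact hE _ _ _ S M m a (one_le_rpow hn' (by positivity)) (rp_le hn e1)
      (hR _ _ _ S M m a (one_le_rpow hn' (by positivity)) (rp_le hn (by linarith)) this)⟩

/-- a statement with no input -/
theorem CL.intro (hR : MoL R) (A0 j k : ℕ)
    (h : ∀ (C : ℝ) (A : ℕ) (ε η : ℝ), 0 < ε → 0 < η → ∃ K : ℝ, ∀ S M m a, RgC C A η K S → A0 ≤ A →
      j * η ≤ ε → j * η ≤ 1 → Cl S M → S.In m a →
      R ((S.n : ℝ) ^ ε) (((S.n : ℝ) ^ η) ^ k) S M m a) : CL R :=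
  CL.triv.glue' hR A0 le_rfl j k fun C A ε η hε hη => (h C A ε η hε hη).imp
    fun _ h S M m a b1 b2 b3 b4 b5 b6 _ => by rw [pow_one]; exact h S M m a b1 b2 b3 b4 b5 b6

/-- **use of a class statement** in the frame of `Pm`: class constant `f C`, margin `n ^ ε c` -/
theorem Sml.glueCL {P Q R : ℝ → Pm → Prop} {X : CP} (hβ : 1 < β) (G : Cst β Q) (H : Sml β P)
    (L : CL X) (f : ℝ → ℝ) (ε : ℝ → ℝ) (hε : ∀ c, 0 < c → 0 < ε c)
    (h : ∀ C : ℝ, 1 ≤ C → Thr β fun _ _ Λ p => Q C p → P Λ p →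
      CLat X (f C) p.A p.n ((p.n : ℝ) ^ ε p.c) Λ → R Λ p) : Sml β R := by
  intro c0 C0 h0 h1
  obtain ⟨C, hC, G⟩ := G c0 C0 h0 h1
  filter_upwards [Sml.of_thr (P := fun Λ p => Q C p → P Λ p →
      CLat X (f C) p.A p.n ((p.n : ℝ) ^ ε p.c) Λ → R Λ p) hβ (h C hC) c0 C0 h0 h1,
    H c0 C0 h0 h1, eventually_ge_atTop 2, L (f C)] with A h H hA L
  filter_upwards [h, H, ev_pos, ev_le (by norm_num : (0 : ℝ) < 1 / 200)] with c h H hc hc'
  filter_upwards [h, H, ev_pos] with η h H hη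
  filter_upwards [h, H, G A hA c hc hc', L (ε c) (hε c hc) η hη] with n h H G L p b1 b2 b3 b4 b5
  refine h p b1 b2 b3 b4 b5 (G p b1 b2 b3 b4 b5) (H p b1 b2 b3 b4 b5) ?_
  rw [b2, b3, b4]
  exact L

theorem Lev.anti {E E' : ℝ} {S : Sc} {M : Md} {l : ℝ} (h : Lev E' S M l) (h0 : 0 ≤ E) (hE : E ≤ E')
    (hl : 0 ≤ l) : Lev E S M l := by
  have key : ∀ g t : ℝ, 0 ≤ t → E' * g ≤ t → E * g ≤ t := fun g t ht hg => by
    rcases le_total 0 g with h | h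
    · exact (mul_le_mul_of_nonneg_right hE h).trans hg
    · exact (mul_nonpos_of_nonneg_of_nonpos h0 h).trans ht
  exact ⟨h.fl, h.rt, hE.trans h.lo, hE.trans h.ms,
    fun t ht => key _ _ (pow_nonneg (hl.trans ht) 3) (h.gr t ht),
    fun t ht ht' => key _ _ (sq_nonneg t) (h.ml t ht ht')⟩

/-! ### telescoping -/

theorem tel_ge {f : ℕ → ℝ} {c : ℝ} {i j : ℕ} (hij : i ≤ j)
    (h : ∀ k, i ≤ k → k < j → c ≤ f (k + 1) - f k) : ((j : ℝ) - i) * c ≤ f j - f i := by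
  induction hij with
  | refl => simp
  | @step j hij ih =>
    have h1 := ih fun k a b => h k a (Nat.lt_succ_of_lt b)
    have h2 := h j hij (Nat.lt_succ_self j)
    push_cast
    linarith

theorem tel_le {f : ℕ → ℝ} {c : ℝ} {i j : ℕ} (hij : i ≤ j)
    (h : ∀ k, i ≤ k → k < j → f (k + 1) - f k ≤ c) : f j - f i ≤ ((j : ℝ) - i) * c := by
  have := tel_ge (f := fun k => -f k) (c := -c) hij fun k a b => by linarith [h k a b]
  linarith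

/-! ### the class -/

theorem Sc.In.amax0 {S : Sc} {m : ℕ} {a : ℝ} (h : S.In m a) (hn : 1 ≤ S.n) : 0 < a ∧ 0 < S.amax :=
  have := (half_pos (rp_pos hn _)).trans_le h.a1
  ⟨this, this.trans_le h.a2⟩

namespace Cl

variable {S : Sc} {M : Md} (h : Cl S M)
include h

theorem C0 : 0 < S.C := lt_of_lt_of_le one_pos h.C1

theorem jl_lt : S.jl < S.J := by have := h.i2; omega
theorem j0_lt : S.j0 < S.J := h.i1.trans_lt h.jl_lt
theorem J_lt : S.J < M.N := h.i3.trans_lt h.i4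

theorem n1 : 1 ≤ S.n := by
  rcases Nat.eq_zero_or_pos S.n with h0 | h0
  · have h1 := h.card
    have h2 : (0 : ℝ) < M.N := Nat.cast_pos.2 (Nat.zero_lt_of_lt h.i4)
    rw [h0, Nat.cast_zero, zero_pow (Nat.succ_ne_zero _)] at h1
    linarith
  · exact h0

theorem N0 : (0 : ℝ) < S.n := Nat.cast_pos.2 h.n1

theorem v0 : 0 < S.v :=
  (mul_pos_iff_of_pos_right (pow_pos h.N0 S.A)).1 ((one_div_pos.2 h.C0).trans_le h.v1)

theorem d_ge (k : ℕ) : 1 ≤ M.d k := h.b0.trans (h.leg.dm (Nat.zero_le k))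
theorem d_le {k : ℕ} (hk : k ≤ M.N) : M.d k ≤ M.b := h.leg.dm hk
theorem b_ge : 1 ≤ M.b := h.d_ge _
theorem d_eq {k : ℕ} (h1 : S.jl < k) (h2 : k ≤ M.N) : M.d k = M.b :=
  le_antisymm (h.d_le h2) (h.wmk.1.ge.trans (h.leg.dm h1))

theorem H_nn (k : ℕ) : 0 ≤ M.H k := h.leg.H0.ge.trans (h.leg.Hm (Nat.zero_le k))
theorem s_nn (k : ℕ) : 0 ≤ M.s k := h.s0.ge.trans (h.sm (Nat.zero_le k))
theorem s_TT {k : ℕ} (hk : k ≤ M.N) : M.s k ≤ TT M.lr := (h.sm hk).trans h.sN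
theorem s_le_C {k : ℕ} (hk : k ≤ S.Jp) : M.s k ≤ S.C := (h.sm hk).trans h.sT

theorem s_tel {i j : ℕ} (hij : i ≤ j) (hj : j ≤ S.J) :
    ((j : ℝ) - i) * (S.v / S.C) ≤ M.s j - M.s i ∧ M.s j - M.s i ≤ ((j : ℝ) - i) * (S.C * S.v) :=
  ⟨tel_ge hij fun k _ b => (h.ss k (b.trans_le hj)).1,
    tel_le hij fun k _ b => (h.ss k (b.trans_le hj)).2⟩

theorem s_bds {k : ℕ} (hk : k ≤ S.J) : k * (S.v / S.C) ≤ M.s k ∧ M.s k ≤ k * (S.C * S.v) := by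
  simpa [h.s0] using h.s_tel (Nat.zero_le k) hk

theorem s_lt {i j : ℕ} (hij : i < j) (hi : i < S.J) : M.s i < M.s j := by
  have h1 := (h.ss i hi).1
  have h2 := h.sm (show i + 1 ≤ j from hij)
  have h3 := div_pos h.v0 h.C0
  linarith

theorem s_pos {k : ℕ} (hk : 1 ≤ k) : 0 < M.s k :=
  h.s0.ge.trans_lt (h.s_lt hk (Nat.zero_lt_of_lt h.j0_lt))

theorem z_tel {i j : ℕ} (hi : S.j0 ≤ i) (hij : i ≤ j) (hj : j < S.J) :
    ((j : ℝ) - i) * (S.v / S.C) ≤ M.z j - M.z i ∧ M.z j - M.z i ≤ ((j : ℝ) - i) * (S.C * S.v) :=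
  ⟨tel_ge hij fun k a b => (h.zs k (hi.trans a) (by omega)).1,
    tel_le hij fun k a b => (h.zs k (hi.trans a) (by omega)).2⟩

theorem ck_tel {i j : ℕ} (hi : S.j0 ≤ i) (hij : i ≤ j) (hj : j ≤ S.Jp) :
    ((j : ℝ) - i) * (S.v / S.C) ≤ M.ck j - M.ck i ∧ M.ck j - M.ck i ≤ ((j : ℝ) - i) * (S.C * S.v) :=
  ⟨tel_ge hij fun k a b => (h.ckm k (hi.trans a) (b.trans_le hj)).1,
    tel_le hij fun k a b => (h.ckm k (hi.trans a) (b.trans_le hj)).2⟩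

theorem H_tel {i j : ℕ} (hi : S.jl ≤ i) (hij : i ≤ j) (hj : j ≤ S.Jp) :
    ((j : ℝ) - i) * (S.ms (M.s i) * S.v / (S.C * S.F)) ≤ M.H j - M.H i :=
  tel_ge hij fun k a b => le_trans (div_le_div_of_nonneg_right
    (mul_le_mul_of_nonneg_right (h.msm (h.sm a)) h.v0.le)
    (mul_nonneg h.C0.le (zero_le_one.trans h.F1))) (h.flr k (hi.trans a) (b.trans_le hj))

theorem z_eq {k : ℕ} (h0 : S.j0 ≤ k) (hk : k < S.J) : lvr 1 M.lr (M.s k) = M.z k :=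
  h.lv k h0 _ le_rfl (h.s_lt k.lt_succ_self hk)

theorem z_pos (k : ℕ) : 0 < M.z k := by
  have h1 := Pp.Ode3.lvr_pos h.ok.1 (M.s S.j0)
  rw [h.z_eq le_rfl h.j0_lt, ← h.low 0 (Nat.zero_le _)] at h1
  exact h1.trans_le (h.leg.zm (Nat.zero_le k))

/-- labels against times -/
theorem z_s {k : ℕ} (h0 : S.j0 ≤ k) (hk : k < S.J) :
    M.s k / S.C - S.C * S.v ≤ M.z k ∧ M.z k ≤ S.C * (M.s k + 2 * S.v) := by
  have h1 := h.lip 0 (M.s k) le_rfl (h.s_nn k) (h.s_lt hk hk)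
  have h2 := Pp.Ode3.lvr_pos h.ok.1 0
  have h3 := h.lv0
  rw [h.z_eq h0 hk, sub_zero] at h1
  exact ⟨by linarith [h1.1], by linarith [h1.2]⟩

/-- a node below a given time, at distance at most one mesh -/
theorem exists_node {t : ℝ} (h0 : 0 ≤ t) (h1 : t < M.s S.J) :
    ∃ k < S.J, M.s k ≤ t ∧ t < M.s (k + 1) ∧ t < M.s k + S.C * S.v := by
  classical
  have hex : ∃ k, t < M.s k := ⟨_, h1⟩
  have h2 := Nat.find_spec hex
  have h3 : Nat.find hex ≤ S.J := Nat.find_min' hex h1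
  obtain ⟨k, hk⟩ : ∃ k, Nat.find hex = k + 1 := Nat.exists_eq_succ_of_ne_zero fun e => by
    rw [e, h.s0] at h2
    linarith
  have h4 := Nat.find_min hex (show k < Nat.find hex by omega)
  rw [hk] at h2 h3
  exact ⟨k, h3, not_lt.1 h4, h2, by linarith [(h.ss k h3).2]⟩

theorem ms_ge {t : ℝ} (ht : 0 ≤ t) : (S.n : ℝ) ^ (-(1 : ℝ)) ≤ S.ms t := h.ms0.trans (h.msm ht)
theorem ms_pos {t : ℝ} (ht : 0 ≤ t) : 0 < S.ms t := (rp_pos h.n1 _).trans_le (h.ms_ge ht)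
theorem θ0 : 0 < S.θ := h.ms_pos zero_le_one

theorem ms_pow {t : ℝ} (ht : 0 ≤ t) (i : ℕ) : S.ms (2 ^ i * t) ≤ 4 ^ i * S.ms t := by
  induction i with
  | zero => simp
  | succ i ih =>
    have := h.ms2 (2 ^ i * t) (by positivity)
    rw [pow_succ', mul_assoc, pow_succ', mul_assoc]
    linarith

/-- doubling -/
theorem ms_mul {t k : ℝ} (ht : 0 ≤ t) (hk : 1 ≤ k) : S.ms (k * t) ≤ 4 * k ^ 2 * S.ms t := by
  obtain ⟨i, h1, h2⟩ := exists_nat_pow_near hk one_lt_two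
  have h3 := h.ms_pow ht (i + 1)
  have h4 := h.msm (mul_le_mul_of_nonneg_right h2.le ht)
  have h5 : (4 : ℝ) ^ (i + 1) ≤ 4 * k ^ 2 := by
    have := pow_le_pow_left₀ (by positivity) h1 2
    rw [← pow_mul, mul_comm i 2, pow_mul] at this
    rw [pow_succ']
    norm_num at this
    linarith
  exact h4.trans (h3.trans (mul_le_mul_of_nonneg_right h5 (h.ms_pos ht).le))

theorem ap : Pp.Ode3.AP M.lr := Lz74.ap_of_ok h.ok

theorem q0 : M.q 0 = 0 := by rw [Md.q, h.s0]; exact Pp.Ode3.Gam_zero h.ap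

theorem q_mono {i j : ℕ} (hij : i ≤ j) (hj : j ≤ M.N) : M.q i ≤ M.q j :=
  Pp.Ode3.Gam_mono h.ap (h.s_nn i) (h.sm hij) (h.s_TT hj)

theorem q_nn {k : ℕ} (hk : k ≤ M.N) : 0 ≤ M.q k := h.q0.ge.trans (h.q_mono (Nat.zero_le k) hk)
omit h in
theorem q_le_one (k : ℕ) : M.q k ≤ 1 := Pp.Ode3.Gam_le_one _ _
theorem q_le_s {k : ℕ} (hk : k ≤ M.N) : M.q k ≤ M.s k :=
  Pp.Ode3.Gam_le h.ap ⟨h.s_nn k, h.s_TT hk⟩

/-- `b G = 1 - e` -/
theorem GG_bds {t : ℝ} (ht : t ∈ Icc 0 (M.s S.Jp)) :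
    1 - S.C * S.ms t ≤ M.b * Pr.GG M.lr t ∧ M.b * Pr.GG M.lr t ≤ 1 - S.ms t / S.C := by
  have := h.crit t ht
  rw [Md.e] at this
  exact ⟨by linarith [this.2], by linarith [this.1]⟩

/-- increments of the reference marks `t - b Γ t` -/
theorem href {t t' : ℝ} (h0 : 0 ≤ t) (h1 : t ≤ t') (h2 : t' ≤ M.s S.Jp) :
    S.ms t / S.C * (t' - t) ≤ (t' - M.b * Pr.Gam M.lr t') - (t - M.b * Pr.Gam M.lr t) ∧
    (t' - M.b * Pr.Gam M.lr t') - (t - M.b * Pr.Gam M.lr t) ≤ S.C * S.ms t' * (t' - t) := by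
  have hb : 0 < M.b := lt_of_lt_of_le one_pos h.b_ge
  have hT := h2.trans (h.s_TT h.i4.le)
  have a1 := Lz74.Gam_incr_le h.ap (c := (1 - S.ms t / S.C) / M.b) h0 h1 hT fun r a b => by
    rw [le_div_iff₀' hb]
    exact (h.GG_bds ⟨h0.trans a, b.le.trans h2⟩).2.trans
      (sub_le_sub_left (div_le_div_of_nonneg_right (h.msm a) h.C0.le) 1)
  have a2 := Lz74.Gam_incr_ge h.ap (c := (1 - S.C * S.ms t') / M.b) h0 h1 hT fun r a b => by
    rw [div_le_iff₀' hb]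
    exact le_trans (sub_le_sub_left (mul_le_mul_of_nonneg_left (h.msm b.le) h.C0.le) 1)
      (h.GG_bds ⟨h0.trans a, b.le.trans h2⟩).1
  rw [div_mul_eq_mul_div, le_div_iff₀' hb] at a1
  rw [div_mul_eq_mul_div, div_le_iff₀' hb] at a2
  change M.b * (Pr.Gam M.lr t' - Pr.Gam M.lr t) ≤ _ at a1
  change _ ≤ M.b * (Pr.Gam M.lr t' - Pr.Gam M.lr t) at a2
  exact ⟨by linarith, by linarith⟩

/-- slope of `Γ` -/
theorem Gam_tel (hθ : S.C * S.θ ≤ 1 / 2) {t t' : ℝ} (h0 : 0 ≤ t) (h1 : t ≤ t')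
    (h2 : t' ≤ M.s S.Jp) : (t' - t) / 2 ≤ M.b * (Pr.Gam M.lr t' - Pr.Gam M.lr t) ∧
      M.b * (Pr.Gam M.lr t' - Pr.Gam M.lr t) ≤ t' - t := by
  obtain ⟨a1, a2⟩ := h.href h0 h1 h2
  have a3 : 0 ≤ S.ms t / S.C * (t' - t) :=
    mul_nonneg (div_pos (h.ms_pos h0) h.C0).le (sub_nonneg.2 h1)
  have a4 : S.C * S.ms t' * (t' - t) ≤ 1 / 2 * (t' - t) := mul_le_mul_of_nonneg_right
    ((mul_le_mul_of_nonneg_left (h.ms1 t') h.C0.le).trans hθ) (sub_nonneg.2 h1)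
  exact ⟨by linarith, by linarith⟩

theorem q_tel (hθ : S.C * S.θ ≤ 1 / 2) {i j : ℕ} (hij : i ≤ j) (hj : j ≤ S.Jp) :
    (M.s j - M.s i) / (2 * S.C) ≤ M.q j - M.q i ∧ M.q j - M.q i ≤ M.s j - M.s i := by
  obtain ⟨a1, a2⟩ := h.Gam_tel hθ (h.s_nn i) (h.sm hij) (h.sm hj)
  have a3 := sub_nonneg.2 (h.q_mono hij (hj.trans h.i4.le))
  change _ ≤ M.b * (M.q j - M.q i) at a1
  change M.b * (M.q j - M.q i) ≤ _ at a2
  have a4 := mul_le_mul_of_nonneg_right h.b1 a3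
  have a5 := mul_le_mul_of_nonneg_right h.b_ge a3
  refine ⟨?_, by linarith⟩
  rw [div_le_iff₀ (by linarith [h.C0])]
  linarith

theorem q_s (hθ : S.C * S.θ ≤ 1 / 2) {k : ℕ} (hk : k ≤ S.Jp) :
    M.s k / (2 * S.C) ≤ M.q k ∧ M.q k ≤ M.s k := by
  simpa [h.s0, h.q0] using h.q_tel hθ (Nat.zero_le k) hk

/-- the marks above the floor: reference marks plus residual -/
theorem H_eq {k : ℕ} (h1 : S.jl < k) (h2 : k ≤ M.N) : M.H k = M.s k - M.b * M.q k + M.G k := by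
  rw [Md.G, h.d_eq h1 h2]
  ring

theorem amax_le (k : ℕ) : 2 * S.amax ≤ M.z k := h.leg.z0.trans (h.leg.zm (Nat.zero_le k))

end Cl

/-! ### exponents -/

namespace RgC

variable {C : ℝ} {A : ℕ} {η K : ℝ} {S : Sc} (H : RgC C A η K S)
include H

theorem mono_K {K' : ℝ} (h : K' ≤ K) : RgC C A η K' S :=
  { H with K_le := h.trans H.K_le, K_log := h.trans H.K_log }

theorem n1 : 1 ≤ S.n := le_trans (by norm_num) H.n3
theorem N3 : (3 : ℝ) ≤ S.n := by exact_mod_cast H.n3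
theorem N1 : (1 : ℝ) < S.n := by linarith [H.N3]
theorem N0 : (0 : ℝ) < S.n := by linarith [H.N3]
theorem rp0 (x : ℝ) : 0 < (S.n : ℝ) ^ x := rp_pos H.n1 _
theorem Λ1 : 1 ≤ (S.n : ℝ) ^ η := le_trans (by norm_num) H.num_le
theorem log1 : 1 ≤ log (S.n : ℝ) := by
  rw [le_log_iff_exp_le H.N0]
  exact (exp_one_lt_d9.le.trans (by norm_num)).trans H.N3

theorem le_of_lg {x y : ℝ} (hx : 0 < x) (hy : 0 < y) (h : logb S.n x ≤ logb S.n y) : x ≤ y :=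
  (logb_le_logb H.N1 hx hy).1 h
theorem lg_mono {x y : ℝ} (hx : 0 < x) (h : x ≤ y) : logb S.n x ≤ logb S.n y :=
  logb_le_logb_of_le H.N1 hx h
theorem lg_n : logb (S.n : ℝ) S.n = 1 := logb_self_eq_one H.N1
theorem lg_rp (a : ℝ) : logb S.n ((S.n : ℝ) ^ a) = a := logb_rpow H.N0 H.N1.ne'
theorem lg_nn {x : ℝ} (hx : 1 ≤ x) : 0 ≤ logb S.n x := logb_nonneg H.N1 hx
theorem lg_np {x : ℝ} (h0 : 0 < x) (hx : x ≤ 1) : logb S.n x ≤ 0 := logb_nonpos H.N1 h0.le hx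
theorem lg_le {x : ℝ} (hx : 0 < x) (h : x ≤ (S.n : ℝ) ^ η) : logb S.n x ≤ η :=
  (H.lg_mono hx h).trans_eq (H.lg_rp η)
theorem lg_cst {x : ℝ} (hx : 1 ≤ x) (h : x ≤ (S.n : ℝ) ^ η) :
    0 ≤ logb S.n x ∧ logb S.n x ≤ η := ⟨H.lg_nn hx, H.lg_le (by linarith) h⟩
theorem lg_num {x : ℝ} (hx : 1 ≤ x) (h : x ≤ 1000) : 0 ≤ logb S.n x ∧ logb S.n x ≤ η :=
  H.lg_cst hx (h.trans H.num_le)
theorem lg_log : 0 ≤ logb S.n (log S.n) ∧ logb S.n (log S.n) ≤ η := H.lg_cst H.log1 H.log_le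

theorem lg_m {m : ℕ} {a : ℝ} (h : S.In m a) : 1 ≤ logb S.n m ∧ logb S.n m ≤ 1 + η := by
  have a1 : (S.n : ℝ) ≤ m := Nat.cast_le.2 h.m1
  have a2 : (m : ℝ) ≤ 2 * S.n := by exact_mod_cast h.m2
  have a3 := H.lg_mono (H.N0.trans_le a1) a2
  rw [logb_mul two_ne_zero H.N0.ne', H.lg_n] at a3
  exact ⟨H.lg_n.ge.trans (H.lg_mono H.N0 a1),
    by linarith [(H.lg_num (x := 2) (by norm_num) (by norm_num)).2]⟩

theorem lg_a {m : ℕ} {a : ℝ} (h : S.In m a) :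
    -(1 / 6) - η ≤ logb S.n a ∧ logb S.n a ≤ logb S.n S.amax := by
  have a1 := H.lg_mono (half_pos (H.rp0 _)) h.a1
  rw [logb_div (H.rp0 _).ne' two_ne_zero, H.lg_rp] at a1
  exact ⟨by linarith [(H.lg_num (x := 2) (by norm_num) (by norm_num)).2],
    H.lg_mono (h.amax0 H.n1).1 h.a2⟩

variable {M : Md} (h : Cl S M)
include h

omit h in
theorem C2_le : 2 * S.C ≤ (S.n : ℝ) ^ η := by rw [H.hC]; exact H.C_log.trans H.log_le

theorem C_le : S.C ≤ (S.n : ℝ) ^ η := by linarith [H.C2_le, h.C0]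

theorem lg_C : 0 ≤ logb S.n S.C ∧ logb S.n S.C ≤ η := H.lg_cst h.C1 (H.C_le h)

theorem lg_b : 0 ≤ logb S.n M.b ∧ logb S.n M.b ≤ η := H.lg_cst h.b_ge (h.b1.trans (H.C_le h))

/-- `K θ ≤ 1` -/
theorem Kθ : K * S.θ ≤ 1 :=
  (mul_le_mul_of_nonneg_right H.K_log h.θ0.le).trans (by rw [mul_comm]; exact h.msθ)

theorem Cθ : S.C * S.θ ≤ 1 / 2 := by
  have := mul_le_mul_of_nonneg_right H.C_log h.θ0.le
  rw [H.hC]
  linarith [h.msθ]

theorem lg_v : -A - η ≤ logb S.n S.v ∧ logb S.n S.v ≤ η - A := by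
  have a0 := h.v0
  have a1 := H.lg_mono (one_div_pos.2 h.C0) h.v1
  have a2 := H.lg_mono (mul_pos h.v0 (pow_pos H.N0 _)) h.v2
  rw [logb_mul a0.ne' (pow_pos H.N0 _).ne', logb_pow, H.lg_n, H.hA] at a1 a2
  rw [one_div, logb_inv] at a1
  exact ⟨by linarith [(H.lg_C h).2], by linarith [(H.lg_C h).2]⟩

theorem lg_ms {t : ℝ} (ht : 0 ≤ t) : -1 ≤ logb S.n (S.ms t) ∧
    logb S.n (S.ms t) ≤ logb S.n S.θ := by
  have := H.lg_mono (H.rp0 _) (h.ms_ge ht)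
  rw [H.lg_rp] at this
  exact ⟨by linarith, H.lg_mono (h.ms_pos ht) (h.ms1 t)⟩

theorem θ1 : S.θ ≤ 1 := by nlinarith [h.msθ, H.log1, h.θ0]

theorem lg_θ : -1 ≤ logb S.n S.θ ∧ logb S.n S.θ ≤ 0 :=
  ⟨(H.lg_ms h zero_le_one).1, H.lg_np h.θ0 (H.θ1 h)⟩

theorem lg_N : 0 ≤ logb S.n M.N ∧ logb S.n M.N ≤ A + 1 := by
  have a0 : (1 : ℝ) ≤ M.N := by exact_mod_cast Nat.zero_lt_of_lt h.i4
  have a1 := H.lg_mono (by linarith) h.card
  rw [logb_pow, H.lg_n, H.hA] at a1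
  push_cast at a1
  exact ⟨H.lg_nn a0, by linarith⟩

end RgC

end Crest.Agent.T156.Alt

end
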