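import Crest.Agent.T156.LDef_69
import Crest.Agent.T156.ClReg_29

/-!
# Row 156, block (L): the bulk numbers `LN`, `L4` and the cost of the residual for any loss `F`
(helper15)
-/

set_option autoImplicit false
set_option linter.unusedSectionVars false

noncomputable section

namespace Crest.Agent.T156.Alt.Tn15

open Real Finset
open Crest.Agent.T156.Alt.L69

theorem geo {a b A B Y p q : ℝ} (ha : 0 ≤ a) (hb : 0 ≤ b) (h1 : a ≤ A) (h2 : b ≤ B) (hp : 0 < p)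
    (hq : 0 < q) (h : A ^ p * B ^ q ≤ Y) : a ^ p * b ^ q ≤ Y :=
  (mul_le_mul (rpow_le_rpow ha h1 hp.le) (rpow_le_rpow hb h2 hq.le) (by positivity)
    (rpow_nonneg (ha.trans h1) _)).trans h

theorem geo1 {Y p q : ℝ} (hY : 0 ≤ Y) (e : p + q = 1) : Y ^ p * Y ^ q ≤ Y := by
  rw [← rpow_add' hY (by rw [e]; norm_num), e, rpow_one]

theorem cub3 {x : ℝ} (hx : 0 ≤ x) : (x ^ ((1 : ℝ) / 3)) ^ 3 = x := by
  rw [← rpow_natCast, ← rpow_mul hx]; norm_num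

theorem rp_pow {x p : ℝ} (hx : 0 ≤ x) (k j : ℕ) (e : p * k = j) : (x ^ p) ^ k = x ^ j := by
  rw [← rpow_natCast, ← rpow_mul hx, e, rpow_natCast]

theorem le3 {a b : ℝ} (hb : 0 ≤ b) (h : a ^ 3 ≤ b ^ 3) : a ≤ b :=
  le_of_pow_le_pow_left₀ three_ne_zero hb h

/-- the size of the centred overlap without the slope -/
def W (S : Sc) (t : ℝ) : ℝ := cr S t * S.w3 t ^ ((1 : ℝ) / 3)
def P (S : Sc) (t : ℝ) : ℝ := t * W S t ^ 3
/-- the residual size at the level `t` -/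
def e0 (S : Sc) (Lg ν X2 X3 G0 t : ℝ) : ℝ := Lg ^ 6 * W S t ^ 3 + Lg ^ 4 * (ν / t) +
  (√(Lg * P S t) + G0 + X2) * (Lg ^ 2 * W S t + √X2) + X3 + 1 / S.n
def eta (S : Sc) (l Lg ν X2 X3 G0 t : ℝ) : ℝ := e0 S Lg ν X2 X3 G0 (max t l)

section cl

variable {S : Sc} {M : Md} (c : Cl S M) {t t' : ℝ}
include c

theorem F0 : 0 < S.F := one_pos.trans_le c.F1
theorem mf0 (ht : 0 ≤ t) : 0 < mf S t := div_pos (c.ms_pos ht) (F0 c)
theorem mf_mono (h : t ≤ t') : mf S t ≤ mf S t' := div_le_div_of_nonneg_right (c.msm h) (F0 c).le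
theorem gg0 (ht : 0 ≤ t) : 0 < gg S t := div_pos (F0 c) (mul_pos c.N0 (c.ms_pos ht))
theorem w30 (ht : 0 < t) : 0 < S.w3 t := div_pos (F0 c) (mul_pos (mul_pos c.N0 ht) (c.ms_pos ht.le))
omit c in
theorem cr1 (S : Sc) (t : ℝ) : 1 ≤ cr S t := le_max_left _ _
theorem W0 (ht : 0 < t) : 0 < W S t :=
  mul_pos (one_pos.trans_le (cr1 S t)) (rpow_pos_of_pos (w30 c ht) _)
theorem P0 (ht : 0 < t) : 0 < P S t := mul_pos ht (pow_pos (W0 c ht) 3)

theorem gg_mf (ht : 0 ≤ t) : S.n * gg S t * mf S t = 1 := by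
  have := c.N0
  have := c.ms_pos ht
  have := F0 c
  rw [gg, mf]; field_simp

theorem cr3 (ht : 0 < t) : cr S t ^ 3 = max 1 (S.F * S.ms t / t ^ 2) := by
  have x0 : 0 ≤ S.F * S.ms t / t ^ 2 := (div_pos (mul_pos (F0 c) (c.ms_pos ht.le)) (by positivity)).le
  rw [cr]
  rcases le_total (S.F * S.ms t / t ^ 2) 1 with h | h
  · rw [max_eq_left (rpow_le_one x0 h (by norm_num)), max_eq_left h, one_pow]
  · rw [max_eq_right (one_le_rpow h (by norm_num)), max_eq_right h, cub3 x0]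

theorem P_cr (ht : 0 < t) : P S t = cr S t ^ 3 * gg S t := by
  have := c.N0
  have := c.ms_pos ht.le
  rw [P, W, mul_pow, cub3 (w30 c ht).le, Sc.w3, gg]; field_simp

theorem P_eq (ht : 0 < t) : P S t = max (gg S t) (S.F ^ 2 / (S.n * t ^ 2)) := by
  have := c.N0
  have := c.ms_pos ht.le
  rw [P_cr c ht, cr3 c ht, max_mul_of_nonneg _ _ (gg0 c ht.le).le, one_mul, gg]
  congr 1
  field_simp

theorem gg_anti (ht : 0 ≤ t) (h : t ≤ t') : gg S t' ≤ gg S t :=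
  div_le_div_of_nonneg_left (F0 c).le (mul_pos c.N0 (c.ms_pos ht))
    (mul_le_mul_of_nonneg_left (c.msm h) c.N0.le)

theorem P_anti (ht : 0 < t) (h : t ≤ t') : P S t' ≤ P S t := by
  have := c.N0
  rw [P_eq c ht, P_eq c (ht.trans_le h)]
  exact max_le_max (gg_anti c ht.le h) (by gcongr)

theorem P_two (ht : 0 < t) : P S t ≤ 4 * P S (2 * t) := by
  have n0 := c.N0
  have m0 := c.ms_pos ht.le
  have m1 := c.ms_pos (show 0 ≤ 2 * t by linarith)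
  have f0 := F0 c
  rw [P_eq c ht, P_eq c (by linarith), mul_max_of_nonneg _ _ (by norm_num : (0 : ℝ) ≤ 4)]
  refine max_le_max ?_ (le_of_eq (by field_simp; ring))
  rw [gg, gg, ← mul_div_assoc, div_le_div_iff₀ (by positivity) (by positivity)]
  nlinarith [mul_le_mul_of_nonneg_left (c.ms2 t ht.le) (mul_pos f0 n0).le]

theorem W_anti (ht : 0 < t) (h : t ≤ t') : W S t' ≤ W S t := le3 (W0 c ht).le <| by
  have := P_anti c ht h
  rw [P, P] at this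
  exact le_of_mul_le_mul_left ((mul_le_mul_of_nonneg_right h
    (pow_pos (W0 c (ht.trans_le h)) 3).le).trans this) ht

theorem W_two (ht : 0 < t) : W S t ≤ 2 * W S (2 * t) :=
  le3 (by linarith [W0 c (show 0 < 2 * t by linarith)]) <| by
  have := P_two c ht
  rw [P, P] at this
  exact le_of_mul_le_mul_left (by linarith) ht

theorem crt3 (ht : 0 < t) : (cr S t * t) ^ 3 = max (t ^ 3) (S.F * S.ms t * t) := by
  rw [mul_pow, cr3 c ht, max_mul_of_nonneg _ _ (by positivity), one_mul]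
  congr 1
  field_simp

theorem crt_mono (ht : 0 < t) (h : t ≤ t') : cr S t * t ≤ cr S t' * t' := by
  have t0 := ht.trans_le h
  have := F0 c
  have := c.ms_pos t0.le
  refine le3 (mul_pos (one_pos.trans_le (cr1 S t')) t0).le ?_
  rw [crt3 c ht, crt3 c t0]
  exact max_le_max (by gcongr) (by gcongr; exact c.msm h)

theorem crg_le (ht : 0 < t) : cr S t * gg S t ≤ P S t := by
  rw [P_cr c ht]
  exact mul_le_mul_of_nonneg_right (le_self_pow₀ (cr1 S t) three_ne_zero) (gg0 c ht.le).le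

theorem gg_le (ht : 0 < t) : gg S t ≤ P S t := by rw [P_eq c ht]; exact le_max_left _ _

theorem w3_le (ht : 0 < t) : S.w3 t ≤ W S t ^ 3 := by
  rw [W, mul_pow, cub3 (w30 c ht).le]
  exact le_mul_of_one_le_left (w30 c ht).le (one_le_pow₀ (cr1 S t))

theorem par_le {ν : ℝ} (ν0 : 0 < ν) (hν : S.F ^ 4 ≤ (S.n : ℝ) ^ 2 * ν ^ 3) (ht : 0 < t) :
    W S t ^ 2 * min (S.ms t / t) t ≤ ν / t := by
  have n0 := c.N0
  have m0 := c.ms_pos ht.le
  have f0 := F0 c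
  have k0 : 0 < min (S.ms t / t) t := lt_min (by positivity) ht
  have k1 := min_le_left (S.ms t / t) t
  have k2 := min_le_right (S.ms t / t) t
  refine le3 (by positivity) ?_
  have e : (W S t ^ 2 * min (S.ms t / t) t) ^ 3 = P S t ^ 2 * min (S.ms t / t) t ^ 3 / t ^ 2 := by
    rw [P]; field_simp
  have h4 : S.F ^ 4 / ((S.n : ℝ) ^ 2 * t ^ 3) ≤ (ν / t) ^ 3 := by
    rw [div_pow, div_le_div_iff₀ (by positivity) (by positivity)]
    nlinarith [mul_le_mul_of_nonneg_right hν (pow_pos ht 3).le]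
  rw [e, P_eq c ht]
  refine le_trans ?_ h4
  rcases le_total (gg S t) (S.F ^ 2 / (S.n * t ^ 2)) with h | h
  · rw [max_eq_right h]
    calc _ ≤ (S.F ^ 2 / (S.n * t ^ 2)) ^ 2 * t ^ 3 / t ^ 2 := by gcongr
      _ = _ := by field_simp
  · rw [max_eq_left h, gg]
    calc _ ≤ (S.F / (S.n * S.ms t)) ^ 2 * ((S.ms t / t) ^ 2 * t) / t ^ 2 := by
          rw [pow_succ _ 2]; gcongr
      _ = S.F ^ 2 / ((S.n : ℝ) ^ 2 * t ^ 3) := by field_simp
      _ ≤ _ := by gcongr; exacts [c.F1, by norm_num]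

theorem cl_bd {l : ℝ} (l0 : 0 < l) (h : l ≤ t) :
    0 < cl S (cr S l * l) t ∧ cl S (cr S l * l) t ≤ 2 * (cr S t * t) ∧
      0 < ws S (cr S l * l) t ∧ ws S (cr S l * l) t ≤ 2 * W S t := by
  have t0 := l0.trans_le h
  have a := crt_mono c l0 h
  have b := mul_pos (one_pos.trans_le (cr1 S l)) l0
  have w := rpow_pos_of_pos (w30 c t0) ((1 : ℝ) / 3)
  have d : cl S (cr S l * l) t ≤ 2 * (cr S t * t) := by rw [cl]; linarith
  have d0 : 0 < cl S (cr S l * l) t := by rw [cl]; linarith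
  refine ⟨d0, d, by rw [ws]; positivity, ?_⟩
  rw [ws, W, ← mul_assoc]
  exact mul_le_mul_of_nonneg_right ((div_le_iff₀ t0).2 (by linarith)) w.le

end cl

/-- the facts on the member -/
structure FN (E : ℝ) (S : Sc) (M : Md) (l μ lam g ρ ζ : ℝ) : Prop where
  cl : Cl S M
  HJ : M.H S.Jp ≤ S.C
  l0s : E * M.s S.jl ≤ l
  sub : ∀ t t', 0 ≤ t → t ≤ t' → S.ms t' ≤ S.ms t + t' ^ 2
  μ0 : 0 < μ
  μl : μ ≤ mf S l
  lam : cr S l * l ≤ lam
  gP : P S l ≤ g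
  ρ0 : 0 ≤ ρ
  ρP : ∀ t, l ≤ t → t ≤ S.C → t * P S t ^ 2 ≤ ρ ^ 3
  ζ0 : 0 ≤ ζ
  ζP : ∀ t, l ≤ t → cr S t * P S t ≤ ζ ^ 2

/-- pure numbers of the bulk -/
structure NN (E n F μ l lam g ω ν ρ X Lg X2 X3 G0 e : ℝ) : Prop where
  E1 : 1 ≤ E
  l0 : 0 < l
  l1 : E * l ≤ 1
  ω0 : 0 < ω
  ωg : g ≤ l * ω ^ 3
  ωl : ω ≤ l
  ν0 : 0 < ν
  ν1 : F ^ 4 ≤ n ^ 2 * ν ^ 3
  x0 : 0 < X
  x1 : E * X ≤ 1
  x43 : E ^ 3 * X ^ 4 ≤ μ ^ 3
  g04 : E * G0 ^ 4 ≤ μ ^ 3
  Lg0 : E * F ^ 2 ≤ Lg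
  Lg1 : Lg ≤ n
  a2 : 4 * l * lam ^ 2 ≤ X2
  b2 : 8 * ρ ≤ X2
  c2 : 2 ^ 13 * ρ ^ 3 * X ^ 4 ≤ X2 ^ 7
  a3 : 16 * l * lam ^ 4 ≤ X3
  b3 : 16 * g ≤ X3
  c3 : 4 * ω * X ≤ X3
  ga : 4 * l * lam ^ 2 ≤ G0
  gb : 8 * l ^ 2 * g ≤ G0 ^ 2
  t1 : (E * e) ^ 2 ≤ μ ^ 3
  t2 : E * (Lg ^ 2 * ω) ^ 2 ≤ μ
  t3 : E * X2 ≤ μ
  t4 : E * e ≤ μ * l

section

variable {E l μ lam g ω ν ρ ζ X Lg X2 X3 G0 e t : ℝ} {S : Sc} {M : Md} (h : FN E S M l μ lam g ρ ζ)
  (N : NN E S.n S.F μ l lam g ω ν ρ X Lg X2 X3 G0 e)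
include h N

theorem lam_ge : l ≤ lam := (le_mul_of_one_le_left N.l0.le (cr1 S l)).trans h.lam
theorem lam0 : 0 < lam := N.l0.trans_le (lam_ge h N)
theorem X2_pos : 0 < X2 := lt_of_lt_of_le (by have := N.l0; have := lam0 h N; positivity) N.a2
theorem X3_pos : 0 < X3 := lt_of_lt_of_le (by have := N.l0; have := lam0 h N; positivity) N.a3
theorem G0_pos : 0 < G0 := lt_of_lt_of_le (by have := N.l0; have := lam0 h N; positivity) N.ga
theorem Lg_ge : E ≤ Lg :=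
  (le_mul_of_one_le_right (by linarith [N.E1]) (one_le_pow₀ h.cl.F1)).trans N.Lg0
theorem Lg_pos : 0 < Lg := by linarith [N.E1, Lg_ge h N]
theorem P_le (ht : l ≤ t) : P S t ≤ g := (P_anti h.cl N.l0 ht).trans h.gP
theorem W_le (ht : l ≤ t) : W S t ≤ ω := (W_anti h.cl N.l0 ht).trans <| le3 N.ω0.le <|
  le_of_mul_le_mul_left (h.gP.trans N.ωg) N.l0

theorem e0_anti {t' : ℝ} (ht : l ≤ t) (h' : t ≤ t') :
    e0 S Lg ν X2 X3 G0 t' ≤ e0 S Lg ν X2 X3 G0 t := by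
  have t0 := N.l0.trans_le ht
  have := W0 h.cl (t0.trans_le h')
  have := W_anti h.cl t0 h'
  have := P_anti h.cl t0 h'
  have := Lg_pos h N
  have := G0_pos h N
  have := X2_pos h N
  have := N.ν0
  unfold e0
  gcongr

theorem eta_anti : Antitone (eta S l Lg ν X2 X3 G0) := fun _ _ a =>
  e0_anti h N (le_max_right _ _) (max_le_max_right _ a)

theorem eta_eq (ht : l ≤ t) : eta S l Lg ν X2 X3 G0 t = e0 S Lg ν X2 X3 G0 t := by
  rw [eta, max_eq_left ht]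

/-- the residual size from local bounds -/
theorem e0_le {w p : ℝ} (ht : l ≤ t) (hw : W S t ≤ w) (hp : P S t ≤ p) :
    e0 S Lg ν X2 X3 G0 t ≤ Lg ^ 6 * w ^ 3 + Lg ^ 4 * (ν / t) +
      (√(Lg * p) + G0 + X2) * (Lg ^ 2 * w + √X2) + X3 + 1 / S.n := by
  have := W0 h.cl (N.l0.trans_le ht)
  have := Lg_pos h N
  have := G0_pos h N
  have := X2_pos h N
  unfold e0
  gcongr

theorem eta_le (eb : Lg ^ 6 * ω ^ 3 + Lg ^ 4 * (ν / l) +
    (√(Lg * g) + G0 + X2) * (Lg ^ 2 * ω + √X2) + X3 + 1 / S.n ≤ e) (t : ℝ) :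
    eta S l Lg ν X2 X3 G0 t ≤ e :=
  (e0_anti h N le_rfl (le_max_right _ _)).trans
    ((e0_le h N le_rfl (W_le h N le_rfl) h.gP).trans eb)

theorem X3_le (t : ℝ) : X3 ≤ eta S l Lg ν X2 X3 G0 t := by
  have t0 := N.l0.trans_le (le_max_right t l)
  have := W0 h.cl t0
  have := Lg_pos h N
  have := G0_pos h N
  have := X2_pos h N
  have := N.ν0
  have := h.cl.N0
  have : 0 ≤ Lg ^ 6 * W S (max t l) ^ 3 + Lg ^ 4 * (ν / max t l) +
    (√(Lg * P S (max t l)) + G0 + X2) * (Lg ^ 2 * W S (max t l) + √X2) + 1 / (S.n : ℝ) := by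
    positivity
  rw [eta, e0]
  linarith

theorem eta_pos (t : ℝ) : 0 < eta S l Lg ν X2 X3 G0 t := (X3_pos h N).trans_le (X3_le h N t)

theorem e0_two (ht : l ≤ t) : e0 S Lg ν X2 X3 G0 t ≤ 16 * e0 S Lg ν X2 X3 G0 (2 * t) := by
  have t0 := N.l0.trans_le ht
  have w := W0 h.cl (show 0 < 2 * t by linarith)
  have L := Lg_pos h N
  have := G0_pos h N
  have := X2_pos h N
  have := X3_pos h N
  have := N.ν0
  have := h.cl.N0
  refine (e0_le h N ht (W_two h.cl t0) (P_two h.cl t0)).trans ?_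
  have s : √(Lg * (4 * P S (2 * t))) = 2 * √(Lg * P S (2 * t)) := by
    rw [mul_left_comm, sqrt_mul (by norm_num), show (4 : ℝ) = 2 ^ 2 by norm_num,
      sqrt_sq zero_le_two]
  have a : ν / t = 2 * (ν / (2 * t)) := by field_simp
  have b : (2 * √(Lg * P S (2 * t)) + G0 + X2) * (Lg ^ 2 * (2 * W S (2 * t)) + √X2) ≤
      (2 * (√(Lg * P S (2 * t)) + G0 + X2)) * (2 * (Lg ^ 2 * W S (2 * t) + √X2)) :=
    mul_le_mul (by linarith) (by linarith [sqrt_nonneg X2]) (by positivity) (by positivity)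
  have p1 : 0 ≤ Lg ^ 6 * W S (2 * t) ^ 3 := by positivity
  have p2 : 0 ≤ Lg ^ 4 * (ν / (2 * t)) := by positivity
  have p3 : 0 ≤ (√(Lg * P S (2 * t)) + G0 + X2) * (Lg ^ 2 * W S (2 * t) + √X2) := by positivity
  have p4 : 0 ≤ 1 / (S.n : ℝ) := by positivity
  rw [s, a, e0]
  nlinarith

theorem cub (ht : l ≤ t) : t * ws S (cr S l * l) t ^ 3 +
    (t * ws S (cr S l * l) t ^ 3) ^ ((1 : ℝ) / 7) *
      (ws S (cr S l * l) t * min X (cl S (cr S l * l) t ^ 3)) ^ ((6 : ℝ) / 7) ≤ X3 := by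
  obtain ⟨c0, -, s0, s1⟩ := cl_bd h.cl N.l0 ht
  have t0 := N.l0.trans_le ht
  have x0 := N.x0
  have a : t * ws S (cr S l * l) t ^ 3 ≤ X3 / 2 := by
    have := mul_le_mul_of_nonneg_left (pow_le_pow_left₀ s0.le s1 3) t0.le
    have := P_le h N ht
    rw [P] at this
    linarith [N.b3]
  have m0 : 0 ≤ min X (cl S (cr S l * l) t ^ 3) := by positivity
  have b : ws S (cr S l * l) t * min X (cl S (cr S l * l) t ^ 3) ≤ X3 / 2 := by
    have := mul_le_mul (s1.trans (by linarith [W_le h N ht] : 2 * W S t ≤ 2 * ω)) (min_le_left X _)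
      m0 (by linarith [N.ω0])
    linarith [N.c3]
  linarith [geo (p := 1 / 7) (q := 6 / 7) (by positivity) (mul_nonneg s0.le m0) a b (by norm_num)
    (by norm_num) (geo1 (by linarith [X3_pos h N]) (by norm_num))]

/-- **the bulk numbers**, any residual size between `e0` and `e` -/
theorem ln' {η : ℝ → ℝ} (ηa : Antitone η) (η2 : ∀ t, 0 < t → η t ≤ 16 * η (2 * t))
    (lo : ∀ t, l ≤ t → e0 S Lg ν X2 X3 G0 t ≤ η t) (hi : η l ≤ e) :
    LN E S M l l (cr S l * l) X Lg X2 X3 G0 η := by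
  have hi' : ∀ t, l ≤ t → η t ≤ e := fun t a => (ηa a).trans hi
  have l0 := N.l0
  have x0 := N.x0
  have E1 := N.E1
  have L0 := Lg_pos h N
  have Y0 := X2_pos h N
  have G := G0_pos h N
  have m0 := h.μ0
  have v0 := mul_pos (one_pos.trans_le (cr1 S l)) l0
  obtain ⟨c0, c1, -⟩ := cl_bd h.cl l0 le_rfl
  have c2 : cl S (cr S l * l) l ≤ 2 * lam := by linarith [h.lam]
  have m1 : ∀ t, l ≤ t → μ ≤ mf S t := fun t a => h.μl.trans (mf_mono h.cl a)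
  have q2 : l * cl S (cr S l * l) l ^ 2 ≤ 4 * l * lam ^ 2 :=
    (mul_le_mul_of_nonneg_left (pow_le_pow_left₀ c0.le c2 2) l0.le).trans_eq (by ring)
  refine ⟨h.HJ, h.l0s, (w3_le h.cl l0).trans (pow_le_pow_left₀ (W0 h.cl l0).le
    ((W_le h N le_rfl).trans N.ωl) 3), le_rfl, N.l1, h.sub, v0.le, x0, N.x1, N.Lg0, N.Lg1,
    mul_le_mul_of_nonneg_right (Lg_ge h N) v0.le, le_trans (le3 m0.le ?_) h.μl,
    N.g04.trans (pow_le_pow_left₀ m0.le h.μl 3), q2.trans N.a2, fun t a b => ?_,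
    ((mul_le_mul_of_nonneg_left (pow_le_pow_left₀ c0.le c2 4) l0.le).trans_eq (by ring)).trans N.a3,
    fun t a b => ?_, q2.trans N.ga, fun t a b => ?_, ηa, η2, fun t a b => ?_,
    fun t t' a b c => (cub h N (a.trans b)).trans ((X3_le h N t).trans (eta_eq h N a ▸ lo t a)),
    fun t a b => ?_, fun t a b => ?_,
    N.t3.trans h.μl, fun t a b => ?_⟩
  · rw [mul_pow, rp_pow x0.le 3 4 (by norm_num)]
    exact N.x43
  · obtain ⟨d0, -, s0, s1⟩ := cl_bd h.cl l0 a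
    have t0 := l0.trans_le a
    have u : t * ws S (cr S l * l) t ^ 2 ≤ 4 * ρ := by
      refine (mul_le_mul_of_nonneg_left (pow_le_pow_left₀ s0.le s1 2) t0.le).trans
        (le3 (by linarith [h.ρ0]) ?_)
      have := h.ρP t a b
      rw [P] at this
      linarith
    have r0 : 0 ≤ 4 * ρ := by linarith [h.ρ0]
    have := geo (p := 3 / 7) (q := 4 / 7) (Y := X2 / 2) (by positivity) (by positivity) u
      (min_le_left X (cl S (cr S l * l) t ^ 3)) (by norm_num) (by norm_num)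
      (le_of_pow_le_pow_left₀ (n := 7) (by norm_num) (by positivity) (by
        rw [mul_pow, rp_pow r0 7 3 (by norm_num), rp_pow x0.le 7 4 (by norm_num)]
        linarith [N.c2]))
    exact (min_le_right _ _).trans (by linarith [N.b2])
  · obtain ⟨d0, -, s0, -⟩ := cl_bd h.cl l0 a
    have t0 := l0.trans_le a
    exact (mul_le_of_le_one_left (le_min (by positivity) (by positivity)) (min_le_left _ _)).trans
      ((min_le_right _ _).trans (cub h N a))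
  · obtain rfl := le_antisymm a b
    have p := h.gP
    have g0 := gg0 h.cl l0.le
    rw [P_cr h.cl l0] at p
    calc _ ≤ (2 * (cr S l * l)) ^ 3 / l * gg S l := by gcongr
      _ = 8 * l ^ 2 * (cr S l ^ 3 * gg S l) := by field_simp; ring
      _ ≤ _ := (mul_le_mul_of_nonneg_left p (by positivity)).trans N.gb
  · have t0 := l0.trans_le a
    have w0 := W0 h.cl t0
    have a1 := mul_le_mul_of_nonneg_left (par_le h.cl N.ν0 N.ν1 t0) (pow_pos L0 4).le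
    have a3 : (√(Lg * cr S t * gg S t) + G0 + X2) * (Lg ^ 2 * W S t + √X2) ≤
        (√(Lg * P S t) + G0 + X2) * (Lg ^ 2 * W S t + √X2) := by
      rw [mul_assoc Lg]
      gcongr
      exact crg_le h.cl t0
    refine le_trans ?_ (lo t a)
    rw [e0, uw, mul_assoc (Lg ^ 2), ← W]
    linarith
  · refine (mul_le_mul_of_nonneg_left (hi' t a) (by linarith)).trans
      (le_trans (le_of_pow_le_pow_left₀ two_ne_zero (by positivity) ?_)
        (rpow_le_rpow m0.le (m1 t a) (by norm_num)))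
    rw [rp_pow m0.le 2 3 (by norm_num)]
    exact N.t1
  · have w0 := W0 h.cl (l0.trans_le a)
    rw [uw, mul_assoc (Lg ^ 2), ← W]
    refine le_trans ?_ (N.t2.trans (m1 t a))
    gcongr
    exact W_le h N a
  · exact (mul_le_mul_of_nonneg_left (hi' t a) (by linarith)).trans
      (N.t4.trans (mul_le_mul (m1 t a) a l0.le (m0.le.trans (m1 t a))))

theorem ln (eb : Lg ^ 6 * ω ^ 3 + Lg ^ 4 * (ν / l) +
    (√(Lg * g) + G0 + X2) * (Lg ^ 2 * ω + √X2) + X3 + 1 / S.n ≤ e) :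
    LN E S M l l (cr S l * l) X Lg X2 X3 G0 (eta S l Lg ν X2 X3 G0) :=
  ln' h N (eta_anti h N) (fun t _ => (e0_two h N (le_max_right t l)).trans
    (mul_le_mul_of_nonneg_left (e0_anti h N (le_max_right _ _) (max_le
      (by linarith [le_max_left t l]) (by linarith [le_max_right t l, N.l0]))) (by norm_num)))
    (fun _ a => (eta_eq h N a).ge) (eta_le h N eb l)

/-- **the quartic sum** -/
theorem l4 (T : ℝ) : L4 S (cr S l * l) X l T (16 * g * ω + 4 * ζ * X) := fun t a _ => by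
  obtain ⟨d0, d1, s0, s1⟩ := cl_bd h.cl N.l0 a
  have t0 := N.l0.trans_le a
  have x0 := N.x0
  have z0 := h.ζ0
  have w0 := W0 h.cl t0
  have m1 : 0 < min X (cl S (cr S l * l) t ^ 3) := by positivity
  refine add_le_add ?_ (le_of_pow_le_pow_left₀ (n := 6) (by norm_num) (by positivity) ?_)
  · have b := mul_le_mul_of_nonneg_left (pow_le_pow_left₀ s0.le s1 4) t0.le
    have c := mul_le_mul (P_le h N a) (W_le h N a) w0.le ((P0 h.cl t0).le.trans (P_le h N a))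
    rw [P] at c
    linarith
  · rw [mul_pow, rp_pow s0.le 6 9 (by norm_num), rp_pow m1.le 6 7 (by norm_num)]
    have z := h.ζP t a
    have c0 := one_pos.trans_le (cr1 S t)
    rw [P] at z
    calc _ = ws S (cr S l * l) t ^ 9 * (min X (cl S (cr S l * l) t ^ 3) *
          min X (cl S (cr S l * l) t ^ 3) ^ 6) := by ring
      _ ≤ (2 * W S t) ^ 9 * ((2 * (cr S t * t)) ^ 3 * X ^ 6) := by
          gcongr
          exacts [(min_le_right _ _).trans (by gcongr), min_le_left _ _]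
      _ = 4 ^ 6 * (cr S t * (t * W S t ^ 3)) ^ 3 * X ^ 6 := by ring
      _ ≤ 4 ^ 6 * (ζ ^ 2) ^ 3 * X ^ 6 := by gcongr
      _ = _ := by ring

/-- **the cost of the residual at one level** -/
theorem cost {σ r : ℝ} (σ0 : 0 ≤ σ) (hσ : ρ ^ 3 * g ≤ σ ^ 3 * (S.n * μ) ^ 2) (μ1 : μ ≤ 1)
    (a : l ≤ r) (b : r ≤ S.C) : r * (cr S r * (eta S l Lg ν X2 X3 G0 r ^ 2 / mf S r)) ≤
      8 * (S.n * (Lg ^ 12 * g ^ 3 / l + Lg ^ 8 * g * ν ^ 2 / l + Lg ^ 5 * ρ * g ^ 2 +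
        Lg * ρ ^ 3 * X2 + Lg ^ 4 * σ * (G0 + X2) ^ 2) +
        S.F * S.C * ((G0 + X2) ^ 2 * X2 + X3 ^ 2 + 1 / (S.n : ℝ) ^ 2) / μ) := by
  have l0 := N.l0
  have r0 := l0.trans_le a
  have n0 := h.cl.N0
  have f1 := h.cl.F1
  have C1 := h.cl.C1
  have L0 := Lg_pos h N
  have Y0 := X2_pos h N
  have G := G0_pos h N
  have m0 := h.μ0
  have m1 : μ ≤ mf S r := h.μl.trans (mf_mono h.cl a)
  have m2 := mf0 h.cl r0.le
  have w0 := W0 h.cl r0
  have p0 := P0 h.cl r0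
  have p1 := P_le h N a
  have p2 := h.ρP r a b
  have g1 := p0.trans_le p1
  have g0 := gg0 h.cl r0.le
  have c0 := one_pos.trans_le (cr1 S r)
  have ρ0 := h.ρ0
  have ν0 := N.ν0
  have gm := gg_mf h.cl r0.le
  have pe : P S r = r * W S r ^ 3 := rfl
  set κ := r * cr S r / mf S r with hκ
  have κ0 : 0 < κ := by positivity
  have κe : κ = S.n * r * (cr S r * gg S r) := by
    rw [hκ, div_eq_iff m2.ne']; linear_combination (-(r * cr S r)) * gm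
  have κ1 : κ ≤ S.n * r * P S r := by rw [κe]; gcongr; exact crg_le h.cl r0
  have κ2 : κ ≤ S.F * S.C / μ := by
    have e : cr S r * r ≤ S.F * S.C * (mf S r / μ) := le3 (by positivity) <| by
      have q : 1 ≤ mf S r / μ := (one_le_div m0).2 m1
      have f3 : S.F ^ 2 ≤ S.F ^ 3 := pow_le_pow_right₀ f1 (by norm_num)
      rw [crt3 h.cl r0]
      refine max_le (pow_le_pow_left₀ r0.le (b.trans ((le_mul_of_one_le_left (by linarith) f1).trans
        (le_mul_of_one_le_right (by positivity) q))) 3) ?_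
      calc S.F * S.ms r * r = S.F ^ 2 * r * mf S r := by rw [mf]; field_simp
        _ ≤ S.F ^ 3 * S.C ^ 3 * (mf S r / μ) ^ 3 := by
            gcongr
            · exact b.trans (le_self_pow₀ C1 three_ne_zero)
            · exact (le_div_self m2.le m0 μ1).trans (le_self_pow₀ q three_ne_zero)
        _ = _ := by ring
    rw [hκ, div_le_iff₀ m2, mul_comm r]
    exact e.trans_eq (by ring)
  have t1 : κ * (Lg ^ 6 * W S r ^ 3) ^ 2 ≤ S.n * (Lg ^ 12 * g ^ 3 / l) :=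
    calc _ ≤ S.n * r * P S r * (Lg ^ 6 * W S r ^ 3) ^ 2 := by gcongr
      _ = S.n * (Lg ^ 12 * P S r ^ 3 / r) := by rw [pe]; field_simp
      _ ≤ _ := by gcongr
  have t2 : κ * (Lg ^ 4 * (ν / r)) ^ 2 ≤ S.n * (Lg ^ 8 * g * ν ^ 2 / l) :=
    calc _ ≤ S.n * r * P S r * (Lg ^ 4 * (ν / r)) ^ 2 := by gcongr
      _ = S.n * (Lg ^ 8 * P S r * ν ^ 2 / r) := by field_simp
      _ ≤ _ := by gcongr
  have k2 : r * W S r ^ 2 ≤ ρ := le3 ρ0 (le_of_eq_of_le (by rw [pe]; ring) p2)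
  have s2 : √(Lg * P S r) ^ 2 = Lg * P S r := sq_sqrt (by positivity)
  have t3 : κ * (√(Lg * P S r) * (Lg ^ 2 * W S r)) ^ 2 ≤ S.n * (Lg ^ 5 * ρ * g ^ 2) :=
    calc _ ≤ S.n * r * P S r * (√(Lg * P S r) * (Lg ^ 2 * W S r)) ^ 2 := by gcongr
      _ = S.n * (Lg ^ 5 * (r * W S r ^ 2) * P S r ^ 2) := by rw [mul_pow, s2]; ring
      _ ≤ _ := by gcongr
  have t4 : κ * (√(Lg * P S r) * √X2) ^ 2 ≤ S.n * (Lg * ρ ^ 3 * X2) :=
    calc _ ≤ S.n * r * P S r * (√(Lg * P S r) * √X2) ^ 2 := by gcongr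
      _ = S.n * (Lg * (r * P S r ^ 2) * X2) := by rw [mul_pow, s2, sq_sqrt Y0.le]; ring
      _ ≤ _ := by gcongr
  have k3 : r * (cr S r * gg S r) * W S r ^ 2 ≤ σ := le3 σ0 <| by
    have q : gg S r * (S.n * μ) ≤ 1 := by
      rw [← gm]; nlinarith [mul_le_mul_of_nonneg_left m1 (mul_pos n0 g0).le]
    refine le_of_mul_le_mul_right (le_trans ?_ hσ) (show 0 < ((S.n : ℝ) * μ) ^ 2 by positivity)
    calc _ = (r * W S r ^ 2) ^ 3 * (cr S r ^ 3 * gg S r) * (gg S r * (S.n * μ)) ^ 2 := by ring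
      _ ≤ ρ ^ 3 * g * 1 ^ 2 := by rw [← P_cr h.cl r0]; gcongr
      _ = _ := by ring
  have t5 : κ * ((G0 + X2) * (Lg ^ 2 * W S r)) ^ 2 ≤ S.n * (Lg ^ 4 * σ * (G0 + X2) ^ 2) :=
    calc _ = S.n * (Lg ^ 4 * (r * (cr S r * gg S r) * W S r ^ 2) * (G0 + X2) ^ 2) := by
          rw [κe]; ring
      _ ≤ _ := by gcongr
  have t6 : κ * (((G0 + X2) * √X2) ^ 2 + X3 ^ 2 + (1 / S.n) ^ 2) ≤
      S.F * S.C * ((G0 + X2) ^ 2 * X2 + X3 ^ 2 + 1 / (S.n : ℝ) ^ 2) / μ :=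
    calc _ ≤ S.F * S.C / μ * (((G0 + X2) * √X2) ^ 2 + X3 ^ 2 + (1 / S.n) ^ 2) := by gcongr
      _ = _ := by rw [mul_pow, sq_sqrt Y0.le]; ring
  have key : ∀ a1 a2 a3 a4 a5 a6 a7 a8 : ℝ, (a1 + a2 + a3 + a4 + a5 + a6 + a7 + a8) ^ 2 ≤
      8 * (a1 ^ 2 + a2 ^ 2 + a3 ^ 2 + a4 ^ 2 + a5 ^ 2 + (a6 ^ 2 + a7 ^ 2 + a8 ^ 2)) :=
    fun a1 a2 a3 a4 a5 a6 a7 a8 => by
    have := sq_sum_le_card_mul_sum_sq (s := (univ : Finset (Fin 8)))
      (f := ![a1, a2, a3, a4, a5, a6, a7, a8])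
    simp [Fin.sum_univ_succ] at this
    linarith
  have k := mul_le_mul_of_nonneg_left (key (Lg ^ 6 * W S r ^ 3) (Lg ^ 4 * (ν / r))
    (√(Lg * P S r) * (Lg ^ 2 * W S r)) (√(Lg * P S r) * √X2) ((G0 + X2) * (Lg ^ 2 * W S r))
    ((G0 + X2) * √X2) X3 (1 / S.n)) κ0.le
  refine le_of_eq_of_le (b := κ * (Lg ^ 6 * W S r ^ 3 + Lg ^ 4 * (ν / r) +
    √(Lg * P S r) * (Lg ^ 2 * W S r) + √(Lg * P S r) * √X2 + (G0 + X2) * (Lg ^ 2 * W S r) +
    (G0 + X2) * √X2 + X3 + 1 / S.n) ^ 2) ?_ (k.trans (by linarith))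
  rw [eta_eq h N a, e0, hκ]
  ring

end

end Crest.Agent.T156.Alt.Tn15

end
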