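import Crest.Agent.T156.TxX_84
import Crest.Agent.T156.TxN_48
import Crest.Agent.T156.TermN_15

/-!
Row 156, block (L) (helper75): the rise of the residual between the last node of the bulk and the
corner node.
-/

set_option autoImplicit false

noncomputable section

namespace Crest.Agent.T156.Alt.X84

open Real
open Crest.Agent.T156.Alt.Mp9 Crest.Agent.T156.Alt.L69 Crest.Agent.T156.Alt.L31
open Crest.Agent.T156.Alt.X48 Crest.Agent.T156.Alt.Ve83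
open Crest.Agent.T156.Alt.G89 (Ug ds)

variable {E : ℝ} {S : Sc} {M : Md} {m : ℕ} {a : ℝ} {c : Dt} {v v1 v2 : ℕ}

/-- the unit of the widths -/
def Zw (S : Sc) (M : Md) (c : Dt) : ℝ := t1 S c.p + tc S c + DD S M c.p.Xp c.p.γ

theorem cube4 {a b c d : ℝ} (a0 : 0 ≤ a) (b0 : 0 ≤ b) (c0 : 0 ≤ c) (d0 : 0 ≤ d) :
    (a + b + c + d) ^ 3 ≤ 16 * (a ^ 3 + b ^ 3 + c ^ 3 + d ^ 3) := by
  have k : ∀ x y : ℝ, 0 ≤ x → 0 ≤ y → (x + y) ^ 3 ≤ 4 * (x ^ 3 + y ^ 3) := fun x y p q => by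
    nlinarith [mul_nonneg (add_nonneg p q) (sq_nonneg (x - y))]
  have := k (a + b) (c + d) (by positivity) (by positivity)
  rw [← add_assoc] at this
  linarith [k a b a0 b0, k c d c0 d0]

theorem sq75 {x y : ℝ} (y0 : 0 ≤ y) (h : x ^ 2 ≤ y ^ 2) : x ≤ y :=
  le_of_pow_le_pow_left₀ two_ne_zero y0 h

namespace Cy

variable (H : Cy E S M m a c)
include H

theorem b48 : At48 E S M m c.p :=
  at48 H.tw.at' H.hx (by linarith [H.cw.Z.D4, H.cw.Z.D_E]) H.cw.θ1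

theorem Gam_Ga : Gam S M ≤ Ga S M := by
  have h := H.tw.at'.cl
  have a1 := sJ_lo h H.tw.v1
  have C0 := h.C0
  refine add_le_add (GS_mono h ?_ le_rfl) le_rfl
  rw [div_le_iff₀ (by positivity)]
  linarith

/-- `Zw` against the four lengths -/
theorem Zw_le : 0 ≤ DD S M c.p.Xp c.p.γ ∧ DD S M c.p.Xp c.p.γ ≤ Zw S M c ∧
    Zw S M c ≤ 12 * S.C ^ 3 * S.F * (c.p.Xp ^ ((1 : ℝ) / 3) + c.p.γ + Ga S M ^ ((1 : ℝ) / 3) +
      c.p.η 1 / mf S 1) := by
  have h := H.tw.at'.cl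
  have B := H.b48
  have F1 := h.F1
  have C0 := h.C0
  have C3 : 1 ≤ S.C ^ 3 := one_le_pow₀ h.C1
  have E1 := H.cw.Z.E1
  have m0 := B.m0.1
  have γ0 := B.γ0.1
  have τ0 := B.τ0
  have η0 := B.η0
  have t0 := H.tw.t0
  have G0 := Gam_nn h
  have X0 := H.hx.lp.Xp0.1
  have g1 := rpow_le_rpow G0 H.Gam_Ga (show (0 : ℝ) ≤ 1 / 3 by norm_num)
  have g0 : 0 ≤ Gam S M ^ ((1 : ℝ) / 3) := by positivity
  have τ1 := H.hx.lp.τ1
  have a1 : Ug S c.p.Lg 1 ^ 2 * c.p.γ / mf S 1 ≤ c.p.γ := by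
    rw [div_le_iff₀' m0]
    exact mul_le_mul_of_nonneg_right ((le_mul_of_one_le_left (sq_nonneg _) E1).trans B.ug.2) γ0
  have e0 : 0 ≤ c.p.η 1 / mf S 1 := by positivity
  have d0 : 0 ≤ DD S M c.p.Xp c.p.γ := by unfold DD; positivity
  have c0 : 0 ≤ tc S c := by unfold tc; positivity
  refine ⟨d0, by unfold Zw; linarith, ?_⟩
  set σ := c.p.Xp ^ ((1 : ℝ) / 3) + c.p.γ + Ga S M ^ ((1 : ℝ) / 3) + c.p.η 1 / mf S 1 with hσ
  have σ0 : 0 ≤ σ := by linarith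
  have b1 : t1 S c.p + tc S c ≤ S.F * (2 * σ) := by
    rw [t1, tc, ← mul_add, add_div]
    exact mul_le_mul_of_nonneg_left (by linarith) (by linarith)
  have b2 : DD S M c.p.Xp c.p.γ ≤ 10 * S.C ^ 3 * σ :=
    mul_le_mul_of_nonneg_left (by linarith) (by positivity)
  have b3 := mul_le_mul_of_nonneg_right C3 (show 0 ≤ S.F * σ by positivity)
  have b4 := mul_le_mul_of_nonneg_right F1 (show 0 ≤ S.C ^ 3 * σ by positivity)
  unfold Zw
  linarith

/-- a size `y ≤ mf 1` times the width -/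
theorem mul_Zw {y : ℝ} (y0 : 0 ≤ y) (y1 : y ≤ mf S 1)
    (hy : y * (c.p.Xp ^ ((1 : ℝ) / 3) + c.p.γ + Ga S M ^ ((1 : ℝ) / 3)) ≤ 3 * xs S M c.p) :
    y * Zw S M c ≤ 48 * S.C ^ 3 * S.F * xs S M c.p := by
  have h := H.tw.at'.cl
  have B := H.b48
  have F1 := h.F1
  have C0 := h.C0
  have a1 : y * (c.p.η 1 / mf S 1) ≤ c.p.η 1 := by
    rw [← mul_div_assoc, div_le_iff₀' B.m0.1]
    exact mul_le_mul_of_nonneg_right y1 B.η0
  have a2 := mul_le_mul_of_nonneg_left H.Zw_le.2.2 y0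
  have a3 := mul_le_mul_of_nonneg_left (show y * (c.p.Xp ^ ((1 : ℝ) / 3) + c.p.γ +
    Ga S M ^ ((1 : ℝ) / 3) + c.p.η 1 / mf S 1) ≤ 4 * xs S M c.p by linarith [B.a1])
    (show 0 ≤ 12 * S.C ^ 3 * S.F by positivity)
  linarith

theorem uc_Zw : uc S c.p ^ 2 * Zw S M c ≤ 48 * S.C ^ 3 * S.F * xs S M c.p := by
  have B := H.b48
  have := mul_nonneg (sq_nonneg (uc S c.p)) (add_nonneg H.tw.at'.cl.θ0.le B.j0)
  exact H.mul_Zw (sq_nonneg _) ((le_mul_of_one_le_left (sq_nonneg _) H.cw.Z.E1).trans B.u0.2)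
    (by linarith [B.a9])

theorem X2_Zw : c.p.X2 * Zw S M c ≤ 48 * S.C ^ 3 * S.F * xs S M c.p := by
  have B := H.b48
  have := mul_nonneg B.X0.1 H.hx.lc.v2.1
  exact H.mul_Zw B.X0.1 ((le_mul_of_one_le_left B.X0.1 H.cw.Z.E1).trans
    (H.hx.ln.th3.trans (Tn15.mf_mono H.tw.at'.cl H.tw.l1))) (by linarith [B.a5, B.x0])

theorem w_Zw : √(Zw S M c * S.w3 1) * Zw S M c ≤ 1152 * S.C ^ 6 * S.F ^ 2 * xs S M c.p := by
  have h := H.tw.at'.cl
  have B := H.b48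
  have K := H.cw.cc H.hx
  have F1 := h.F1
  have C1 := h.C1
  have E1 := H.cw.Z.E1
  have x0 := B.x0
  have m0 := B.m0.1
  have η0 := B.η0
  have γ0 := B.γ0.1
  have X0 := H.hx.lp.Xp0.1
  have G0 := B.Ga0.1.trans B.Ga0.2.1
  have w0 := Tn15.w30 h one_pos
  obtain ⟨d0, d1, d2⟩ := H.Zw_le
  have Z0 := d0.trans d1
  have u0 := B.u0.1
  have s0 := sqrt_nonneg (S.w3 1 * c.p.Xp)
  have γ3 : 0 ≤ c.p.γ ^ 3 := by positivity
  have w1 : S.w3 1 ≤ uc S c.p ^ 3 := by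
    have := G89.U_cube (S := S) (κ := c.p.Lc) (t := 1) (by linarith [K.L1]) w0.le
    exact (le_mul_of_one_le_left w0.le (one_le_pow₀ K.L1)).trans this.ge
  have w2 : S.w3 1 ≤ xs S M c.p := by
    have := K.parts.2.1
    have := mul_nonneg (sq_nonneg (Nd22.U S c.p.Lc 1)) (add_nonneg (add_nonneg h.θ0.le B.j0) K.R0)
    have e : uc S c.p = Nd22.U S c.p.Lc 1 := rfl
    rw [e] at w1
    linarith [B.a2]
  have p1 : S.w3 1 * c.p.Xp ≤ xs S M c.p ^ 2 := by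
    rw [← sq_sqrt (mul_pos w0 X0).le]
    exact pow_le_pow_left₀ s0 (by linarith [B.a6]) 2
  have p2 := mul_le_mul w2 (show c.p.γ ^ 3 ≤ xs S M c.p by linarith [B.a6]) γ3 x0
  have p3 := mul_le_mul w2 (show Ga S M ≤ xs S M c.p by linarith [B.a6]) G0 x0
  have p4 : S.w3 1 * (c.p.η 1 / mf S 1) ^ 3 ≤ xs S M c.p ^ 2 := by
    have b1 : uc S c.p ^ 2 ≤ mf S 1 := (le_mul_of_one_le_left (sq_nonneg _) E1).trans B.u0.2
    have b2 : S.w3 1 ^ 2 ≤ mf S 1 ^ 3 := (pow_le_pow_left₀ w0.le w1 2).trans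
      (by rw [← pow_mul, mul_comm, pow_mul]; exact pow_le_pow_left₀ (sq_nonneg _) b1 3)
    have b3 : c.p.η 1 ^ 2 ≤ mf S 1 ^ 3 := by
      rw [← Tn15.rp_pow (p := 3 / 2) m0.le 2 3 (by norm_num)]
      exact pow_le_pow_left₀ η0
        ((le_mul_of_one_le_left η0 E1).trans (H.hx.ln.th1 1 H.tw.l1 C1)) 2
    have b4 : S.w3 1 * c.p.η 1 ≤ mf S 1 ^ 3 := by
      refine sq75 (by positivity) ?_
      rw [mul_pow, sq (mf S 1 ^ 3)]
      exact mul_le_mul b2 b3 (sq_nonneg _) (by positivity)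
    rw [div_pow, ← mul_div_assoc, div_le_iff₀ (by positivity)]
    have b5 := mul_le_mul b4 (pow_le_pow_left₀ η0 B.a1 2) (sq_nonneg _) (by positivity)
    linarith
  have q1 := cube4 (rpow_nonneg X0.le ((1 : ℝ) / 3)) γ0 (rpow_nonneg G0 ((1 : ℝ) / 3))
    (div_nonneg η0 m0.le)
  rw [cb3 X0.le, cb3 G0] at q1
  have q2 := pow_le_pow_left₀ Z0 d2 3
  rw [mul_pow] at q2
  have k1 : 1 ≤ 12 * S.C ^ 3 * S.F := by
    linarith [one_le_mul_of_one_le_of_one_le (one_le_pow₀ (n := 3) C1) F1]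
  have k2 : (12 * S.C ^ 3 * S.F) ^ 3 ≤ (12 * S.C ^ 3 * S.F) ^ 4 := pow_le_pow_right₀ k1 (by norm_num)
  refine sq75 (by positivity) ?_
  rw [mul_pow, sq_sqrt (by positivity)]
  calc _ = Zw S M c ^ 3 * S.w3 1 := by ring
    _ ≤ (12 * S.C ^ 3 * S.F) ^ 4 * (16 * (c.p.Xp + c.p.γ ^ 3 + Ga S M + (c.p.η 1 / mf S 1) ^ 3)) *
        S.w3 1 := mul_le_mul_of_nonneg_right (q2.trans (mul_le_mul k2 q1 (by positivity)
          (by positivity))) w0.le
    _ ≤ (12 * S.C ^ 3 * S.F) ^ 4 * (64 * xs S M c.p ^ 2) := by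
      rw [mul_assoc]; exact mul_le_mul_of_nonneg_left (by linarith) (by positivity)
    _ = _ := by ring

/-- widths between two nodes in `[v, J)` -/
theorem wid (N : Nd S M m a c v v1 v2) {i k : ℕ} (hi : v ≤ i) (ik : i ≤ k) (hk : k < S.J) :
    M.z k - M.z i ≤ c.D ^ 46 * Zw S M c ∧ ds M m a i k ≤ c.D ^ 48 * Zw S M c := by
  have h := H.tw.at'.cl
  have Z := H.cw.Z
  obtain ⟨d0, d1, -⟩ := H.Zw_le
  have Z0 := d0.trans d1
  have a1 : M.z k - M.z i ≤ c.D ^ 46 * Zw S M c := by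
    have := N.wz
    unfold Zw
    linarith [h.leg.zm hi, h.leg.zm (show k ≤ S.J - 1 by omega)]
  have si := N.v2e.s1.trans (h.sm hi)
  have a2 := abs_le.1 (H.tw.loc i si (by omega))
  have a3 := abs_le.1 (H.tw.loc k (si.trans (h.sm ik)) hk.le)
  have a4 := Ap63.s_z h (show S.j0 ≤ i by have := h.i1; have := N.jv; omega) ik hk
  have D4 := Z.D4
  have C2 : S.C ^ 2 ≤ c.D := by linarith [Z.Cp (k := 2) (by norm_num), sq_nonneg S.C]
  have a5 := mul_le_mul C2 a1 (sub_nonneg.2 (h.leg.zm ik)) (by linarith)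
  have a6 : c.D ^ 47 + 2 ≤ c.D ^ 48 := by
    have := one_le_pow₀ (n := 47) (show 1 ≤ c.D by linarith)
    rw [pow_succ c.D 47]; nlinarith
  have a7 := mul_le_mul_of_nonneg_right a6 Z0
  refine ⟨a1, ?_⟩
  unfold G89.ds
  linarith [a2.1, a3.2]

/-- **the rise of the residual** between good corner nodes in `[v, v2]` -/
theorem res_le (N : Nd S M m a c v v1 v2) {i k : ℕ} (hi : v ≤ i) (ik : i ≤ k) (hk : k ≤ v2)
    (gi : GC S M m a c i) (gk : GC S M m a c k) :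
    |res M S m a (2 * S.C) k - res M S m a (2 * S.C) i| ≤ c.D ^ 78 * S.F ^ 2 * xs S M c.p := by
  have h := H.tw.at'.cl
  have Z := H.cw.Z
  have K := H.cw.cc H.hx
  have B := H.b48
  have D4 := Z.D4
  have D1 : 1 ≤ c.D := by linarith
  have F1 := h.F1
  have x0 := B.x0
  have mg := N.mg.anti h (by linarith [K.L1]) hk
  have kJ : k < S.J := by have := mg.1; omega
  have vJ : v < S.J := by omega
  obtain ⟨d0, d1, -⟩ := H.Zw_le
  have Z0 := d0.trans d1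
  have z0 := sub_nonneg.2 (h.leg.zm (show v ≤ S.J - 1 by omega))
  have lo := (K.lo_of (h.i1.trans N.jv.le) vJ ((mul_le_mul_of_nonneg_right
    (le_self_pow₀ D1 two_ne_zero) z0).trans N.near)).mono h hi
  obtain ⟨w1, w2⟩ := H.wid N hi ik kJ
  have a1 := K.nce lo ik gi gk mg ((K.rb_ds ik kJ).trans
    (show _ ≤ (2 * c.D ^ 24) ^ 2 * Zw S M c by
      have : 0 ≤ c.D ^ 48 * Zw S M c := by positivity
      linarith))
  rw [mul_assoc ((2 * c.D ^ 24) ^ 2), sqrt_mul (sq_nonneg _), sqrt_sq (by positivity)] at a1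
  obtain ⟨ψ1, ψ9⟩ := psi_spec h
  have ψ : ∀ j, j ≤ 9 → psi S ^ j ≤ S.F := fun j hj => (pow_le_pow_right₀ ψ1 hj).trans ψ9.le
  have FF : S.F ≤ S.F ^ 2 := le_self_pow₀ F1 two_ne_zero
  have y0 : 0 ≤ S.F ^ 2 * xs S M c.p := by positivity
  have s0 := sqrt_nonneg (Zw S M c * S.w3 1)
  have X0 := B.X0.1
  have s1 := sqrt_nonneg (S.w3 1 * c.p.Xp)
  have G0 := B.Ga0.1.trans B.Ga0.2.1
  have P : ∀ (y : ℝ) (i j : ℕ), 0 ≤ y → y ≤ 2500 → i ≤ 10 → j ≤ 77 →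
      c.D ^ j * (y * S.C ^ i * S.F ^ 2 * xs S M c.p) ≤ c.D ^ 78 * S.F ^ 2 * xs S M c.p / 4 :=
    fun y i j y1 p q r => by
      have b1 := mul_le_mul_of_nonneg_right p (pow_pos h.C0 i).le
      have b2 := mul_le_mul (pow_le_pow_right₀ D1 r) (mul_le_mul_of_nonneg_right
        (show y * S.C ^ i ≤ c.D / 4 by linarith [Z.Cp q]) y0)
        (mul_nonneg (mul_nonneg y1 (pow_pos h.C0 i).le) y0) (by positivity)
      linarith
  have xF := mul_le_mul_of_nonneg_right FF x0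
  have c3 := mul_le_mul_of_nonneg_left xF (show 0 ≤ 48 * S.C ^ 3 by have := h.C0; positivity)
  have e1 : c.D ^ 29 * psi S ^ 6 * (c.p.ηc + c.p.η 1 + c.p.γ ^ 3) ≤
      c.D ^ 29 * (3 * S.C ^ 0 * S.F ^ 2 * xs S M c.p) := by
    rw [mul_assoc]
    refine mul_le_mul_of_nonneg_left ((mul_le_mul ((ψ 6 (by norm_num)).trans FF)
      (show _ ≤ 3 * xs S M c.p by linarith [B.a1, B.a2, B.a6]) ?_ (by positivity)).trans_eq
        (by ring)) (by positivity)
    have := K.parts.2.2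
    have := B.η0
    have := B.γ0.1
    positivity
  have e2 : c.D ^ 4 * (c.p.X2 + 2 * c.D ^ 24 * √(Zw S M c * S.w3 1)) * ds M m a i k ≤
      c.D ^ 52 * (48 * S.C ^ 3 * S.F ^ 2 * xs S M c.p) +
        c.D ^ 76 * (2304 * S.C ^ 6 * S.F ^ 2 * xs S M c.p) := by
    have b1 := mul_le_mul_of_nonneg_left w2
      (show 0 ≤ c.D ^ 4 * (c.p.X2 + 2 * c.D ^ 24 * √(Zw S M c * S.w3 1)) by positivity)
    have b2 := mul_le_mul_of_nonneg_left (show c.p.X2 * Zw S M c ≤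
      48 * S.C ^ 3 * S.F ^ 2 * xs S M c.p by linarith [H.X2_Zw]) (show 0 ≤ c.D ^ 52 by positivity)
    have b3 := mul_le_mul_of_nonneg_left H.w_Zw (show 0 ≤ 2 * c.D ^ 76 by positivity)
    linarith
  have e3 : c.D ^ 16 * psi S ^ 4 * Nd22.U S c.p.Lc 1 ^ 2 * (M.z k - M.z i) ≤
      c.D ^ 62 * (48 * S.C ^ 3 * S.F ^ 2 * xs S M c.p) := by
    have b1 := mul_le_mul (mul_le_mul_of_nonneg_left (mul_le_mul_of_nonneg_right
      (ψ 4 (by norm_num)) (sq_nonneg (uc S c.p))) (show 0 ≤ c.D ^ 16 by positivity)) w1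
      (sub_nonneg.2 (h.leg.zm ik)) (by positivity)
    have b2 := mul_le_mul_of_nonneg_left H.uc_Zw (show 0 ≤ c.D ^ 62 * S.F by positivity)
    rw [show Nd22.U S c.p.Lc 1 = uc S c.p from rfl]
    linarith
  linarith [P 3 0 29 (by norm_num) (by norm_num) (by norm_num) (by norm_num),
    P 48 3 52 (by norm_num) (by norm_num) (by norm_num) (by norm_num),
    P 2304 6 76 (by norm_num) (by norm_num) (by norm_num) (by norm_num),
    P 48 3 62 (by norm_num) (by norm_num) (by norm_num) (by norm_num)]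

/-- `res v2 - res v` -/
theorem res_v2 (N : Nd S M m a c v v1 v2) :
    res M S m a (2 * S.C) v2 - res M S m a (2 * S.C) v ≤ c.D ^ 78 * S.F ^ 2 * xs S M c.p :=
  (le_abs_self _).trans (H.res_le N le_rfl (N.o1.trans N.o2.le) le_rfl N.v2e.g2 N.g2)

/-- the location at the end of the bulk -/
theorem uu_le (N : Nd S M m a c v v1 v2) :
    |uu M S m a (2 * S.C) (sb M m a (v + 1))| ≤ 2 * S.C * Zw S M c := by
  have A := H.tw.at'
  have h := A.cl
  have C0 := h.C0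
  have C1 := h.C1
  have v0 := h.v0
  have vJ : v < S.J := by have := N.mg.1; have := N.o1; have := N.o2; omega
  obtain ⟨d0, d1, -⟩ := H.Zw_le
  have a1 := abs_le.1 (H.tw.loc v N.v2e.s1 vJ.le)
  have j0 := h.i1.trans N.jv.le
  have s0 := (A.sb_mem (vJ.le.trans h.i3)).1
  have X1 : c.p.Xp ≤ 1 :=
    (le_mul_of_one_le_left H.hx.lp.Xp0.1.le H.cw.Z.E1).trans H.hx.lp.Xp0.2
  have a2 : S.v ≤ DD S M c.p.Xp c.p.γ := by
    have n1 : (1 : ℝ) ≤ S.n := by exact_mod_cast h.n1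
    have b1 : S.v ≤ 1 / S.n := by
      rw [le_div_iff₀ h.N0]
      refine le_trans ?_ H.cw.Z.hv
      rw [mul_assoc]
      exact (mul_le_mul_of_nonneg_left (le_self_pow₀ n1 two_ne_zero) v0.le).trans
        (le_mul_of_one_le_left (by positivity) C1)
    have b2 : c.p.Xp ≤ c.p.Xp ^ ((1 : ℝ) / 3) := by
      simpa using rpow_le_rpow_of_exponent_ge H.hx.lp.Xp0.1 X1 (show (1 : ℝ) / 3 ≤ 1 by norm_num)
    have b3 := rpow_nonneg (Gam_nn h) ((1 : ℝ) / 3)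
    have b4 := H.hx.lp.Xp0.1
    refine le_trans ?_ (le_mul_of_one_le_left (by linarith [H.tw.γ0])
      (by linarith [one_le_pow₀ (n := 3) C1]))
    linarith [H.tw.n1, H.tw.γ0]
  have k1 := mul_le_mul_of_nonneg_left d1 C0.le
  have k2 := mul_le_mul_of_nonneg_left a2 C0.le
  have mo : Monotone (T157.Pf.lvr 1 (lh M (2 * S.C))) := Sc48.lvr_mono A.okh.1.1
  rw [uu, A.lvb_node N.jv.le (vJ.le.trans h.i3), ← A.lvh_node j0 vJ]
  rcases le_total (M.s v) (sb M m a (v + 1)) with e | e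
  · have b1 := (A.sl N.v2e.t2 _ _ (h.s_nn v) e le_rfl).2
    have b2 := mul_le_mul_of_nonneg_left a1.2 C0.le
    rw [abs_sub_comm, abs_of_nonneg (sub_nonneg.2 (mo e))]
    linarith
  · have b1 := (A.sl (h.s_lt vJ vJ) _ _ s0 e le_rfl).2
    have b2 := mul_le_mul_of_nonneg_left a1.1 C0.le
    rw [abs_of_nonneg (sub_nonneg.2 (mo e))]
    linarith

/-- the slow error at the end of the bulk -/
theorem bE_le (N : Nd S M m a c v v1 v2) :
    bE S M m a c.p (sb M m a (v + 1)) ≤ c.D ^ 2 * S.F ^ 2 * xs S M c.p := by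
  have h := H.tw.at'.cl
  have Z := H.cw.Z
  have B := H.b48
  have C0 := h.C0
  have F1 := h.F1
  have D4 := Z.D4
  have x0 := B.x0
  have vJ : v < S.J := by have := N.mg.1; have := N.o1; have := N.o2; omega
  have a1 : |L0.Gd (lb M S m a (2 * S.C)) (sb M m a (v + 1))| ≤ _ :=
    (H.cw.cc H.hx).out v (by linarith [N.v2e.s1, h.s_nn S.J]) vJ
  have a2 := H.uu_le N
  have G0 := rpow_nonneg (B.Ga0.1.trans B.Ga0.2.1) ((1 : ℝ) / 3)
  have a3 := mul_le_mul B.ug.1 (add_le_add a1 a2) (by positivity) (by positivity)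
  have a4 := mul_le_mul_of_nonneg_left a2 B.X0.1
  have a5 := mul_le_mul_of_nonneg_left (show uc S c.p ^ 2 * (S.θ + c.p.j + c.p.γ +
    c.p.Xp ^ ((1 : ℝ) / 3)) ≤ 3 * xs S M c.p by
      linarith [B.a9, mul_nonneg (sq_nonneg (uc S c.p)) G0]) (show 0 ≤ 4 * S.F * c.D by positivity)
  have a6 := mul_le_mul_of_nonneg_left H.uc_Zw (show 0 ≤ 8 * S.C * S.F by positivity)
  have a7 := mul_le_mul_of_nonneg_left H.X2_Zw (show 0 ≤ 2 * S.C by positivity)
  have FF : S.F ≤ S.F ^ 2 := le_self_pow₀ F1 two_ne_zero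
  have y0 : 0 ≤ S.F ^ 2 * xs S M c.p := by positivity
  have b0 := mul_le_mul_of_nonneg_right FF x0
  have b1 := mul_le_mul_of_nonneg_right (F1.trans FF) x0
  have b2 := mul_le_mul_of_nonneg_left b0 (show 0 ≤ 12 * c.D by positivity)
  have b3 := mul_le_mul_of_nonneg_left b0 (show 0 ≤ 96 * S.C ^ 4 by positivity)
  have b4 := mul_le_mul_of_nonneg_right (Z.Cp (k := 4) (by norm_num)) y0
  have b5 := mul_le_mul_of_nonneg_right D4 y0
  have b6 := mul_le_mul_of_nonneg_right D4 (show 0 ≤ c.D * (S.F ^ 2 * xs S M c.p) by positivity)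
  unfold bE
  linarith [B.a1]

theorem N0_le : N0 c.p ≤ Nn S M c.p c.X4 c.t4 := by
  have h := H.tw.at'.cl
  have C0 := h.C0
  have n0 := h.N0
  have a1 : c.t4 ≤ S.C := by
    rcases le_total c.t4 0 with e | e
    · linarith
    · exact (le_mul_of_one_le_left e H.cw.Z.E1).trans H.t4
  have a2 : 0 ≤ c.X4 := by
    refine le_trans ?_ (H.l4 S.C a1 le_rfl)
    have := Tn15.cr1 S S.C
    have := H.hx.ln.V0
    have := Tn15.w30 h C0
    have q : 0 ≤ cl S c.p.V S.C := by unfold cl; positivity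
    have : 0 ≤ ws S c.p.V S.C := by unfold ws; positivity
    have : 0 ≤ min c.p.X (cl S c.p.V S.C ^ 3) := le_min H.hx.ln.X0.le (by positivity)
    positivity
  have a3 : 0 ≤ cB M S c.p.η c.t4 S.C := Finset.sum_nonneg fun k _ => by
    have := Tn15.cr1 S (M.s k)
    have := Tn15.mf0 h (h.s_nn k)
    exact mul_nonneg (dx_nn h k) (add_nonneg (by positivity)
      (le_min (by positivity) (by positivity)))
  have a4 : 0 ≤ 1 / (S.n : ℝ) ^ 3 := by positivity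
  unfold X48.N0 Nn
  linarith

/-- `y ≤ D ^ k F ^ j xs` is small -/
theorem sm_of {y : ℝ} {k j i : ℕ} (hj : j ≤ 5) (hi : 2 * k + 1 ≤ i)
    (hy : y ≤ c.D ^ k * S.F ^ j * xs S M c.p) : Pr.Reg48.Sm S.θ 1 (c.D ^ i * Nb S M c) 1 y := by
  have h := H.tw.at'.cl
  have B := H.b48
  have D4 := H.cw.Z.D4
  have D1 : 1 ≤ c.D := by linarith
  have F1 := h.F1
  have n0 := B.N_le.2
  refine B.sm_mul h.θ0.le (one_le_mul_of_one_le_of_one_le (one_le_pow₀ D1) (one_le_pow₀ F1)) hy ?_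
  rw [Nb, ← mul_assoc]
  refine mul_le_mul ?_ H.N0_le n0 (by positivity)
  rw [mul_pow, ← pow_mul, ← pow_mul, ← mul_assoc]
  refine mul_le_mul (le_trans ?_ (pow_le_pow_right₀ D1 hi)) (pow_le_pow_right₀ F1 (by omega))
    (by positivity) (by positivity)
  rw [pow_succ', mul_comm k]
  exact mul_le_mul_of_nonneg_right (by linarith) (by positivity)

theorem KbE_le (N : Nd S M m a c v v1 v2) :
    c.K * bE S M m a c.p (sb M m a (v + 1)) ≤ c.D ^ 3 * S.F ^ 2 * xs S M c.p := by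
  have K0 : 0 ≤ c.K := by linarith [H.hx.l1, H.lK]
  have x0 := H.b48.x0
  refine (mul_le_mul_of_nonneg_left (H.bE_le N) K0).trans
    ((mul_le_mul_of_nonneg_right H.KD (by positivity)).trans_eq (by ring))

end Cy

/-- **(TxE)** -/
theorem txE75 : TxE := by
  unfold TxE LF
  refine CL.triv.mono fun _ _ S M m a _ _ h _ _ c H _ v v1 v2 N => ?_
  have B := H.b48
  have D4 := H.cw.Z.D4
  have D1 : 1 ≤ c.D := by linarith
  have x0 := B.x0
  have F1 := h.F1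
  have y0 : 0 ≤ S.F ^ 2 * xs S M c.p := by positivity
  refine ⟨_, H.sm_of (k := 78) (j := 2) (by norm_num) (by norm_num) le_rfl, ?_, H.res_v2 N, ?_⟩
  · have K0 : 0 ≤ c.K := by linarith [H.hx.l1, H.lK]
    refine (mul_le_mul_of_nonneg_left (H.bE_le N) K0).trans
      ((mul_le_mul_of_nonneg_right H.KD (by positivity)).trans ?_)
    have := mul_le_mul_of_nonneg_right (pow_le_pow_right₀ D1 (show 3 ≤ 78 by norm_num)) y0
    linarith
  · exact (B.a7.2.trans B.a2).trans (le_mul_of_one_le_left x0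
      (one_le_mul_of_one_le_of_one_le (one_le_pow₀ D1) (one_le_pow₀ F1)))

end Crest.Agent.T156.Alt.X84

end
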