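import Crest.Agent.T156.TxX_84
import Crest.Agent.T156.TxU_12
import Crest.Agent.T156.TxN_48

/-!
Row 156, block (L) (helper27): the numbers of the context `Cy`.
-/

set_option autoImplicit false

noncomputable section

namespace Crest.Agent.T156.Alt.X84

open Real
open Crest.Agent.T156.Alt.Mp9 Crest.Agent.T156.Alt.L69 Crest.Agent.T156.Alt.L31
open Crest.Agent.T156.Pr.Reg48 (Sm)

variable {E : ℝ} {S : Sc} {M : Md} {m : ℕ} {a : ℝ} {c : Dt}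

namespace Cy

variable (Y : Cy E S M m a c)
include Y

theorem A27 : At S M m a (2 * S.C) := Y.tw.at'
theorem cl27 : Cl S M := Y.tw.at'.cl
theorem CD27 : 10000 * S.C ^ 10 ≤ c.D := Y.cw.Z.CD
theorem qD4 : 10000 ≤ c.D := by
  linarith [Y.CD27, one_le_pow₀ (n := 10) Y.cl27.C1]
theorem qD1 : 1 ≤ c.D := by linarith [Y.qD4]
theorem qD0 : 0 < c.D := by linarith [Y.qD4]
theorem qK1 : 1 ≤ c.K := Y.hx.l1.trans Y.lK
theorem qF0 : 0 < S.F := by linarith [Y.cl27.F1]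
theorem qDp {i j : ℕ} (h : i ≤ j) : c.D ^ i ≤ c.D ^ j := pow_le_pow_right₀ Y.qD1 h
theorem qFp {i j : ℕ} (h : i ≤ j) : S.F ^ i ≤ S.F ^ j := pow_le_pow_right₀ Y.cl27.F1 h
/-- a numeral costs one power of `D` -/
theorem qDs {r : ℝ} (hr : r ≤ 10000) {i j : ℕ} (h : i < j) : r * c.D ^ i ≤ c.D ^ j :=
  (mul_le_mul_of_nonneg_right (hr.trans Y.qD4) (pow_pos Y.qD0 i).le).trans
    (by rw [← pow_succ']; exact Y.qDp h)
theorem qCD' {i : ℕ} (h : i ≤ 10) : 10000 * S.C ^ i ≤ c.D := by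
  linarith [Y.CD27, pow_le_pow_right₀ Y.cl27.C1 h]
theorem DE27 {i : ℕ} (h : i ≤ 500) : c.D ^ i ≤ E := (Y.qDp h).trans Y.cw.DE
theorem qE2 : 2 ≤ E := by linarith [Y.DE27 (i := 1) (by norm_num), Y.qD4]

theorem qDF : c.D ^ 450 * S.F ^ 4 ≤ E := by
  have E0 : 0 ≤ E := by linarith [Y.qE2]
  refine le_of_pow_le_pow_left₀ (n := 10) (by norm_num) E0 ?_
  rw [mul_pow, ← pow_mul, ← pow_mul, show 450 * 10 = 500 * 9 from rfl, pow_mul, pow_succ E 9]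
  exact mul_le_mul (pow_le_pow_left₀ (pow_pos Y.qD0 _).le Y.cw.DE 9) Y.hx.F40
    (pow_pos Y.qF0 _).le (pow_nonneg E0 _)
theorem qDF' {i j : ℕ} (hi : i ≤ 450) (hj : j ≤ 4) : c.D ^ i * S.F ^ j ≤ E :=
  (mul_le_mul (Y.qDp hi) (Y.qFp hj) (pow_pos Y.qF0 _).le (pow_pos Y.qD0 _).le).trans Y.qDF

theorem tm27 : Tm12 E S M c.p := tm12 Y.tw Y.hx Y.cw.θ1 Y.qE2
theorem at27 : X48.At48 E S M m c.p := X48.at48 Y.A27 Y.hx Y.qE2 Y.cw.θ1

theorem qX40 : 0 ≤ c.X4 := by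
  have h := Y.cl27
  have C0 := h.C0
  have t4 : c.t4 ≤ S.C := by
    rcases le_total c.t4 0 with q | q
    · linarith
    · linarith [Y.t4, mul_le_mul_of_nonneg_right Y.qE2 q]
  refine le_trans ?_ (Y.l4 S.C t4 le_rfl)
  have V0 := Y.hx.ln.V0
  have X0 := Y.hx.ln.X0
  have c0 : 0 ≤ cl S c.p.V S.C := by
    have := Ab33.cr_one S S.C
    unfold cl; positivity
  have w0 : 0 ≤ ws S c.p.V S.C ^ ((3 : ℝ) / 2) := by
    rcases le_total 0 (ws S c.p.V S.C) with q | q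
    · positivity
    · rcases q.eq_or_lt with q | q
      · rw [q]; positivity
      · rw [rpow_def_of_neg q, show (3 : ℝ) / 2 * π = π / 2 + π by ring, cos_add_pi, cos_pi_div_two]
        simp
  have : 0 ≤ min c.p.X (cl S c.p.V S.C ^ 3) := le_min X0.le (by positivity)
  positivity

theorem qcB0 : 0 ≤ cB M S c.p.η c.t4 S.C := Finset.sum_nonneg fun k _ => by
  have h := Y.cl27
  have := div_pos (h.ms_pos (h.s_nn k)) Y.qF0
  have := Ab33.cr_one S (M.s k)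
  have := Ap63.w_nn h.leg.zm k
  have : 0 ≤ min (|M.G k| ^ ((4 : ℝ) / 3)) (M.G k ^ 2 / mf S (M.s k)) :=
    le_min (by positivity) (by unfold mf; positivity)
  unfold mf dx at *
  positivity

theorem qN0_Nn : X48.N0 c.p + 1 / (S.n : ℝ) ^ 3 ≤ Nn S M c.p c.X4 c.t4 := by
  unfold X48.N0 Nn; linarith [Y.qX40, Y.qcB0]
theorem qN0_le : X48.N0 c.p ≤ Nn S M c.p c.X4 c.t4 := by
  have := Y.cl27.N0
  have : 0 ≤ 1 / (S.n : ℝ) ^ 3 := by positivity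
  linarith [Y.qN0_Nn]
theorem qN_le : c.p.N ≤ Nn S M c.p c.X4 c.t4 := Y.at27.N_le.1.trans Y.qN0_le
theorem qNn0 : 0 < Nn S M c.p c.X4 c.t4 := Y.tm27.N0.trans_le Y.qN_le
theorem qNb0 : 0 < Nb S M c := mul_pos (pow_pos Y.qF0 _) Y.qNn0
/-- anything below `Nn` times a power of `F` is below `Nb` -/
theorem qFNb {j : ℕ} (hj : j ≤ 10) {y : ℝ} (hy : y ≤ Nn S M c.p c.X4 c.t4) :
    S.F ^ j * y ≤ Nb S M c :=
  (mul_le_mul_of_nonneg_left hy (pow_pos Y.qF0 _).le).trans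
    (mul_le_mul_of_nonneg_right (Y.qFp hj) Y.qNn0.le)
theorem qNn_Nb : Nn S M c.p c.X4 c.t4 ≤ Nb S M c := by simpa using Y.qFNb (j := 0) (by norm_num) le_rfl
theorem qN_Nb : c.p.N ≤ Nb S M c := Y.qN_le.trans Y.qNn_Nb
theorem qn3_Nb : 1 / (S.n : ℝ) ^ 3 ≤ Nb S M c := by linarith [Y.qN0_Nn, Y.at27.N_le.2, Y.qNn_Nb]
theorem qNb_D (i : ℕ) : Nb S M c ≤ c.D ^ i * Nb S M c :=
  le_mul_of_one_le_left Y.qNb0.le (one_le_pow₀ Y.qD1)
theorem qDNb {i j : ℕ} (h : i ≤ j) : c.D ^ i * Nb S M c ≤ c.D ^ j * Nb S M c :=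
  mul_le_mul_of_nonneg_right (Y.qDp h) Y.qNb0.le

theorem qtc0 : 0 < tc S c := mul_pos Y.qF0 (by linarith [Y.tw.τ0, Y.tw.γ0])
theorem qtu0 : 0 < tu S c.p := Y.tm27.t0.trans_le Y.tm27.mu
theorem qtc_tu : tc S c ≤ S.F * tu S c.p := mul_le_mul_of_nonneg_left Y.tm27.cu Y.qF0.le
theorem qt1_tu : t1 S c.p ≤ S.F * tu S c.p :=
  Y.tm27.t1.trans (mul_le_mul_of_nonneg_left Y.tm27.mu Y.qF0.le)

/-- a margin of size `D ^ k F ^ j tu` is small -/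
theorem qsmall {k j i : ℕ} {t : ℝ} (h : t ≤ c.D ^ k * S.F ^ j * tu S c.p) (hk : i + k < 450)
    (hj : j ≤ 4) : c.D ^ i * t ≤ 1 := by
  have a := Y.qDF' (i := i + k + 1) (j := j) hk hj
  have b := mul_le_mul_of_nonneg_right a Y.qtu0.le
  have d := mul_le_mul_of_nonneg_left h (pow_pos Y.qD0 i).le
  have e : 0 ≤ c.D ^ i * (c.D ^ k * S.F ^ j * tu S c.p) :=
    (mul_pos (pow_pos Y.qD0 _) (mul_pos (mul_pos (pow_pos Y.qD0 _) (pow_pos Y.qF0 _)) Y.qtu0)).le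
  have f := mul_le_mul_of_nonneg_right Y.qD4 e
  have g : c.D ^ (i + k + 1) * S.F ^ j * tu S c.p =
      c.D * (c.D ^ i * (c.D ^ k * S.F ^ j * tu S c.p)) := by ring
  linarith [Y.tm27.Et]

/-- **the costs of a margin** of size `D ^ k F ^ j tu`, `j ≤ 2` -/
theorem qmar {k j : ℕ} {t : ℝ} (t0 : 0 ≤ t) (h : t ≤ c.D ^ k * S.F ^ j * tu S c.p) (hk : k < 450)
    (hj : j ≤ 2) : t ≤ 1 ∧ S.θ * t ^ 3 ≤ c.D ^ (3 * k + 1) * Nb S M c ∧
      t ^ 5 ≤ c.D ^ (5 * k + 1) * Nb S M c ∧ t ^ 6 ≤ c.D ^ (5 * k + 1) * Nb S M c ∧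
      S.θ * c.p.γ * t ≤ c.D ^ (k + 1) * Nb S M c ∧ t ^ 9 ≤ (c.D ^ (5 * k + 1) * Nb S M c) ^ 2 := by
  have D0 := Y.qD0
  have F0 := Y.qF0
  have N0 := Y.tm27.N0
  have B0 := Y.qNb0
  have t1 : t ≤ 1 := by simpa using Y.qsmall (i := 0) h (by omega) (by omega)
  obtain ⟨-, a1, -, a3, a4⟩ := Y.tm27.mar Y.cl27 Y.tw.γ0 (by positivity) t0 h
  have kk : ∀ (r : ℝ) (i l : ℕ), 0 ≤ r → r ≤ 10000 → l ≤ 10 →
      r * c.D ^ i * (S.F ^ l * c.p.N) ≤ c.D ^ (i + 1) * Nb S M c := fun r i l r0 r1 hl =>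
    mul_le_mul (Y.qDs r1 (Nat.lt_succ_self i)) (Y.qFNb hl Y.qN_le) (by positivity) (by positivity)
  have b9 : t ^ 9 ≤ (c.D ^ (5 * k + 1) * Nb S M c) ^ 2 := by
    refine a3.trans (le_trans ?_ (pow_le_pow_left₀ (by positivity)
      (kk 141 (5 * k) (5 * j) (by norm_num) (by norm_num) (by omega)) 2))
    have q : (c.D ^ k * S.F ^ j) ^ 9 ≤ (c.D ^ k * S.F ^ j) ^ 10 := pow_le_pow_right₀
      (one_le_mul_of_one_le_of_one_le (one_le_pow₀ Y.qD1) (one_le_pow₀ Y.cl27.F1)) (by norm_num)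
    calc _ ≤ 141 ^ 2 * (c.D ^ k * S.F ^ j) ^ 10 * c.p.N ^ 2 := by gcongr; norm_num
      _ = _ := by ring
  have b5 : t ^ 5 ≤ c.D ^ (5 * k + 1) * Nb S M c := by
    refine le_of_pow_le_pow_left₀ two_ne_zero (by positivity) (le_trans ?_ b9)
    rw [← pow_mul]
    exact pow_le_pow_of_le_one t0 t1 (by norm_num)
  refine ⟨t1, a1.trans (le_trans (le_of_eq ?_) (kk 27 (3 * k) (3 * j) (by norm_num) (by norm_num)
    (by omega))), b5, (pow_le_pow_of_le_one t0 t1 (by norm_num)).trans b5,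
    a4.trans (le_trans (le_of_eq ?_) (kk 3 k (j + 1) (by norm_num) (by norm_num) (by omega))), b9⟩
  · ring
  · ring

theorem qtc_le (k : ℕ) : c.D ^ k * tc S c ≤ c.D ^ k * S.F ^ 1 * tu S c.p := by
  rw [pow_one, mul_assoc]; exact mul_le_mul_of_nonneg_left Y.qtc_tu (pow_pos Y.qD0 _).le
theorem qt1_le (k : ℕ) : c.D ^ k * t1 S c.p ≤ c.D ^ k * S.F ^ 1 * tu S c.p := by
  rw [pow_one, mul_assoc]; exact mul_le_mul_of_nonneg_left Y.qt1_tu (pow_pos Y.qD0 _).le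

/-- errors below a multiple of `xs` are small -/
theorem sm27 {k j : ℕ} {y : ℝ} (hj : j ≤ 5) (h : y ≤ c.D ^ k * S.F ^ j * X48.xs S M c.p) :
    Sm S.θ 1 (c.D ^ (2 * k + 1) * Nb S M c) 1 y := by
  have D0 := Y.qD0
  have F0 := Y.qF0
  have := Y.at27.N_le.2
  refine Y.at27.sm_mul Y.cl27.θ0.le
    (one_le_mul_of_one_le_of_one_le (one_le_pow₀ Y.qD1) (one_le_pow₀ Y.cl27.F1)) h
    (le_trans (le_of_eq ?_) (mul_le_mul (Y.qDs (r := 256) (by norm_num) (Nat.lt_succ_self (2 * k)))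
      (Y.qFNb (j := 2 * j) (by omega) Y.qN0_le) (by positivity) (by positivity)))
  ring

end Cy

end Crest.Agent.T156.Alt.X84

end
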