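import Crest.Agent.T156.TxX_84
import Crest.Agent.T156.TxU_12
import Crest.Agent.T156.TxN_48

/-!
# Row 156, text (L) (helper8): the slope lines of zone I
-/

set_option autoImplicit false

noncomputable section

namespace Crest.Agent.T156.Alt.X84

open MeasureTheory Set Real
open Crest.Agent.T156.Alt.Mp9 Crest.Agent.T156.Alt.L69 Crest.Agent.T156.Alt.L31

theorem pw8 {D c : ℝ} (D1 : 1 ≤ D) (h : c ≤ D) {i j : ℕ} (hij : i + 1 ≤ j) : c * D ^ i ≤ D ^ j :=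
  (mul_le_mul_of_nonneg_right h (by positivity)).trans
    (by rw [← pow_succ']; exact pow_le_pow_right₀ D1 hij)

theorem numK {D F C μ mf θ θ' K th t w tl ν x : ℝ} (C1 : 1 ≤ C) (CD : 1000 * C ^ 3 ≤ D)
    (F1 : 1 ≤ F) (μ0 : 0 < μ) (m0 : 0 ≤ mf) (m1 : mf ≤ D * μ) (eθ : θ = F * mf) (θ1 : θ ≤ 1)
    (hθ : 1 ≤ D ^ 2 * θ') (K0 : 0 ≤ K) (KD : K ≤ D) (th0 : 0 ≤ th)
    (th1 : D ^ 60 * F ^ 4 * th ≤ 6 * D) (t0 : 0 ≤ t) (t1 : D ^ 60 * F ^ 4 * t ≤ 3) (w0 : 0 ≤ w)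
    (w1 : w ^ 2 ≤ mf / (D ^ 14 * F) + (D ^ 44 * F ^ 2 * t) ^ 2) (tl0 : 0 < tl)
    (tl1 : 1 ≤ 8 * C ^ 2 * tl) (hν : D ^ 50 * F ^ 2 * t ≤ ν) (hx : 2 * D ^ 3 * x ≤ μ + ν ^ 2) :
    x + 2 * (C ^ 2 * F * θ) * th + 2 * (C * (θ / tl)) * w + (2 * K + 4 * th) * w ^ 2 ≤
      (μ + ν ^ 2) * (θ' / (68 * C)) ∧
    4 * w ^ 2 + (6 * K * w ^ 2) ^ 2 / θ' ≤ θ' * (μ + ν ^ 2) := by
  have C0 : 0 < C := by linarith
  have c3 : 1 ≤ C ^ 3 := one_le_pow₀ C1
  have c13 : C ≤ C ^ 3 := le_self_pow₀ C1 (by norm_num)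
  have c23 : C ^ 2 ≤ C ^ 3 := pow_le_pow_right₀ C1 (by norm_num)
  have D3 : 1000 ≤ D := by linarith
  have D1 : 1 ≤ D := by linarith
  have D0 : 0 < D := by linarith
  have F0 : 0 < F := by linarith
  have θ'0 : 0 < θ' := by
    by_contra h
    linarith [mul_nonpos_of_nonneg_of_nonpos (pow_nonneg D0.le 2) (not_lt.1 h)]
  have θ0 : 0 ≤ θ := by rw [eθ]; positivity
  have M0 : 0 < μ + ν ^ 2 := by positivity
  have θμ : θ ≤ F * (D * μ) := by rw [eθ]; exact mul_le_mul_of_nonneg_left m1 F0.le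
  obtain ⟨y, hy⟩ : ∃ y, y = F ^ 2 * t := ⟨_, rfl⟩
  have y0 : 0 ≤ y := by rw [hy]; positivity
  rw [mul_assoc, ← hy] at w1 hν
  have f2 : 1 ≤ F ^ 2 := one_le_pow₀ F1
  have y1 : D ^ 60 * F ^ 2 * y ≤ 3 := by rw [hy]; linarith
  have n1 : D ^ 100 * y ^ 2 ≤ ν ^ 2 := by
    have := pow_le_pow_left₀ (by positivity) hν 2
    linarith
  -- sizes of `w`
  have a1 : D ^ 14 * F ^ 2 * (mf / (D ^ 14 * F)) = θ := by rw [eθ]; field_simp
  have a2 : D ^ 13 * (mf / (D ^ 14 * F)) ≤ μ := by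
    rw [show D ^ 13 * (mf / (D ^ 14 * F)) = mf / D / F by field_simp]
    exact (div_le_self (by positivity) F1).trans (by rw [div_le_iff₀ D0]; linarith)
  have a3 : D ^ 14 * F ^ 2 * (D ^ 44 * y) ^ 2 ≤ 1 := by
    have b1 := pow_le_pow_left₀ (by positivity) y1 2
    have b2 := mul_le_mul_of_nonneg_right (pw8 D1 (show 9 ≤ D by linarith) (i := 102) (j := 120)
      (by norm_num)) (show 0 ≤ F ^ 2 * y ^ 2 by positivity)
    have b3 := mul_le_mul_of_nonneg_right f2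
      (mul_nonneg (mul_nonneg (pow_nonneg D0.le 120) (sq_nonneg F)) (sq_nonneg y))
    linarith
  have a4 : D ^ 14 * F ^ 2 * w ^ 2 ≤ 2 := by
    linarith [mul_le_mul_of_nonneg_left w1 (show 0 ≤ D ^ 14 * F ^ 2 by positivity)]
  have a5 : D ^ 7 * F * w ≤ 2 := by
    by_contra h
    nlinarith only [a4, not_le.1 h]
  have a6 : D ^ 12 * w ^ 2 ≤ μ + ν ^ 2 := by
    have b1 := mul_le_mul_of_nonneg_left w1 (show 0 ≤ D ^ 12 by positivity)
    have b2 := mul_le_mul_of_nonneg_right (pow_le_pow_right₀ D1 (show 12 ≤ 13 by norm_num))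
      (show 0 ≤ mf / (D ^ 14 * F) by positivity)
    linarith
  have g1 : th ≤ 1 := by
    have := mul_le_mul_of_nonneg_right (mul_le_mul (pw8 D1 (show 6 ≤ D by linarith) (i := 1)
      (j := 60) (by norm_num)) (one_le_pow₀ F1 (n := 4)) zero_le_one (by positivity)) th0
    by_contra h
    nlinarith only [this, th1, not_le.1 h, D0]
  constructor
  · have k : 1 / D ^ 3 ≤ θ' / (68 * C) := by
      rw [div_le_div_iff₀ (by positivity) (by positivity)]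
      nlinarith only [mul_le_mul_of_nonneg_left hθ D0.le, CD, c13, C0]
    refine le_trans ?_ (mul_le_mul_of_nonneg_left k M0.le)
    rw [mul_one_div, le_div_iff₀ (by positivity)]
    have T4 : 2 * (C ^ 2 * F * θ) * th * D ^ 3 ≤ μ / 6 := by
      have b1 : C ^ 2 * F * θ ≤ D * F * (F * (D * μ)) :=
        mul_le_mul (mul_le_mul_of_nonneg_right (by linarith) F0.le) θμ θ0 (by positivity)
      have b2 := mul_le_mul_of_nonneg_right b1 (show 0 ≤ th * D ^ 3 by positivity)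
      have b3 : 72 * D ^ 6 * F ^ 2 ≤ D ^ 60 * F ^ 4 :=
        mul_le_mul (pw8 D1 (by linarith) (by norm_num)) (pow_le_pow_right₀ F1 (by norm_num))
          (by positivity) (by positivity)
      have b4 : 12 * D ^ 5 * F ^ 2 * th ≤ 1 := by
        have := mul_le_mul_of_nonneg_right b3 th0
        by_contra h
        nlinarith only [this, th1, not_le.1 h, D0]
      linarith [mul_le_mul_of_nonneg_right b4 μ0.le]
    have T5 : 2 * (C * (θ / tl)) * w * D ^ 3 ≤ μ / 6 := by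
      have b1 : θ / tl ≤ 8 * C ^ 2 * (F * (D * μ)) := by
        rw [div_le_iff₀ tl0]
        linarith [mul_le_mul θμ tl1 zero_le_one (show 0 ≤ F * (D * μ) by positivity)]
      have b2 := mul_le_mul_of_nonneg_right b1 (show 0 ≤ C * w * D ^ 3 by positivity)
      have b3 := mul_le_mul_of_nonneg_right CD (show 0 ≤ F * D ^ 4 * μ * w by positivity)
      have b4 := mul_le_mul_of_nonneg_right (pow_le_pow_right₀ D1 (show 5 ≤ 7 by norm_num))
        (show 0 ≤ F * μ * w by positivity)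
      linarith [mul_le_mul_of_nonneg_right a5 μ0.le]
    have T6 : (2 * K + 4 * th) * w ^ 2 * D ^ 3 ≤ (μ + ν ^ 2) / 6 := by
      have b1 := mul_le_mul_of_nonneg_right (show 2 * K + 4 * th ≤ 3 * D by linarith)
        (show 0 ≤ w ^ 2 * D ^ 3 by positivity)
      have b2 := mul_le_mul_of_nonneg_right (pw8 D1 (show 18 ≤ D by linarith) (i := 4) (j := 12)
        (by norm_num)) (sq_nonneg w)
      linarith
    linarith [sq_nonneg ν]
  · have b1 : (6 * K * w ^ 2) ^ 2 / θ' ≤ w ^ 2 := by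
      rw [div_le_iff₀ θ'0]
      have c1 := pow_le_pow_left₀ K0 KD 2
      have c2 := mul_le_mul_of_nonneg_right c1 (show 0 ≤ w ^ 2 * w ^ 2 by positivity)
      have c4 : 36 * D ^ 4 * w ^ 2 ≤ 1 := by
        have := mul_le_mul_of_nonneg_right (mul_le_mul (pw8 D1 (show 72 ≤ D by linarith) (i := 4)
          (j := 14) (by norm_num)) f2 zero_le_one (by positivity)) (sq_nonneg w)
        linarith
      have c5 := mul_le_mul_of_nonneg_right hθ (show 0 ≤ 36 * D ^ 2 * w ^ 2 * w ^ 2 by positivity)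
      have c6 := mul_le_mul_of_nonneg_right c4 (show 0 ≤ w ^ 2 * θ' by positivity)
      linarith
    have b2 := mul_le_mul_of_nonneg_right (pw8 D1 (show 5 ≤ D by linarith) (i := 2) (j := 12)
      (by norm_num)) (show 0 ≤ w ^ 2 * θ' by positivity)
    have b3 := mul_le_mul_of_nonneg_right hθ (show 0 ≤ 5 * w ^ 2 by positivity)
    have b4 := mul_le_mul_of_nonneg_left a6 θ'0.le
    linarith

variable {E : ℝ} {S : Sc} {M : Md} {m : ℕ} {a : ℝ} {c : Dt}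

theorem Cy.P8 (Y : Cy E S M m a c) : c.D ^ 60 * S.F ^ 4 ≤ E := by
  have D1 := Y.cw.D1
  have F1 := Y.tw.at'.cl.F1
  have a1 : c.D ^ 120 ≤ E := (pow_le_pow_right₀ D1 (by norm_num)).trans Y.cw.DE
  have a2 : S.F ^ 8 ≤ E := (pow_le_pow_right₀ F1 (by norm_num)).trans Y.hx.F40
  have E0 : 0 ≤ E := le_trans (by positivity) a1
  refine (pow_le_pow_iff_left₀ (by positivity) E0 two_ne_zero).1 ?_
  have := mul_le_mul a1 a2 (by positivity) E0
  linarith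

/-- **the lines `hk`, `h4`, `th1`** of `ZI.z1e`; `x = 3 (la + 2 al th)` -/
theorem Cy.hk4 (Y : Cy E S M m a c) (CD : 10 ^ 6 * S.C ^ 11 ≤ c.D) {K θ' w ν x μ th : ℝ}
    (hμ : μ = At.e48 S / (384 * S.C ^ 4 * S.F)) (hth : th = 2 * (c.K / c.p.Lg) + 4 * S.C / c.p.Lc)
    (K0 : 0 ≤ K) (KD : K ≤ c.D) (hθ : 1 ≤ c.D ^ 2 * θ') (w0 : 0 ≤ w)
    (w1 : w ^ 2 ≤ mf S 1 / (c.D ^ 14 * S.F) + (c.D ^ 30 * (c.D ^ 14 * S.F) * tc S c) ^ 2)
    (hν : c.D ^ 50 * S.F ^ 2 * tu S c.p ≤ ν) (hx : 2 * c.D ^ 3 * x ≤ μ + ν ^ 2) :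
    (x + 2 * (S.C ^ 2 * S.F * S.θ) * th + 2 * (S.C * (S.θ / (M.s S.J / 4))) * w +
      (2 * K + 4 * th) * w ^ 2 ≤ (μ + ν ^ 2) * (θ' / (68 * S.C)) ∧
    4 * w ^ 2 + (6 * K * w ^ 2) ^ 2 / θ' ≤ θ' * (μ + ν ^ 2)) ∧
    0 ≤ th ∧ 4 * S.C * th ≤ 1 ∧ 0 < μ ∧ mf S 1 ≤ c.D * μ ∧ S.θ ≤ c.D * S.F * μ := by
  have A := Y.tw.at'
  have C1 := A.cl.C1
  have C0 := A.c_pos
  have F1 := A.cl.F1
  have F0 : 0 < S.F := by linarith
  have D1 := Y.cw.D1
  have P := Y.P8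
  have c1 : S.C ^ 3 ≤ S.C ^ 11 := pow_le_pow_right₀ C1 (by norm_num)
  have c2 : S.C ≤ S.C ^ 11 := le_self_pow₀ C1 (by norm_num)
  have c0 : 0 ≤ S.C ^ 11 := by positivity
  have p1 : c.D ^ 2 ≤ c.D ^ 60 * S.F ^ 4 := (pow_le_pow_right₀ D1 (by norm_num)).trans
    (le_mul_of_one_le_right (by positivity) (one_le_pow₀ F1))
  have p2 : c.D ≤ c.D ^ 2 := le_self_pow₀ D1 two_ne_zero
  have E2 : 2 ≤ E := by linarith
  have T := tm12 Y.tw Y.hx Y.cw.θ1 E2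
  obtain ⟨-, -, e0, -, e1⟩ := A.e_pack Y.cw.θ1
  have μ0 : 0 < μ := by rw [hμ]; positivity
  have μe : 384 * S.C ^ 4 * S.F * μ = At.e48 S := by rw [hμ]; field_simp
  have θμ : S.θ ≤ c.D * S.F * μ := by
    rw [← μe] at e1
    linarith [mul_le_mul_of_nonneg_right CD (mul_pos F0 μ0).le, mul_nonneg c0 (mul_pos F0 μ0).le]
  have eθ : S.θ = S.F * mf S 1 := by unfold mf; rw [mul_div_cancel₀ _ F0.ne']; rfl
  have m1 : mf S 1 ≤ c.D * μ := by
    rw [eθ] at θμ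
    exact le_of_mul_le_mul_left (by linarith) F0
  have K1 : 1 ≤ c.K := Y.hx.l1.trans Y.lK
  have g1 := Y.tw.EL
  have g2 := g1.trans Y.hx.lp.Lc1.1
  have P0 : 0 < c.D ^ 60 * S.F ^ 4 := by positivity
  have th0 : 0 ≤ th := by
    rw [hth]; have : 0 < c.p.Lg := by linarith
    have : 0 < c.p.Lc := by linarith
    positivity
  have th1 : c.D ^ 60 * S.F ^ 4 * th ≤ 3 * c.D := by
    have b1 : c.K / c.p.Lg ≤ c.D / (c.D ^ 60 * S.F ^ 4) :=
      div_le_div₀ (by linarith) Y.KD P0 (P.trans g1)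
    have b2 : 4 * S.C / c.p.Lc ≤ c.D / (c.D ^ 60 * S.F ^ 4) :=
      div_le_div₀ (by linarith) (by linarith) P0 (P.trans g2)
    rw [le_div_iff₀ P0] at b1 b2
    rw [hth]; linarith
  have t0 : 0 ≤ tu S c.p := T.t0.le.trans T.mu
  have sJ := Ve83.sJ_lo A.cl Y.tw.v1
  have s0 : 0 < M.s S.J / 4 := by
    by_contra h
    nlinarith only [sJ, not_lt.1 h, sq_nonneg S.C]
  refine ⟨numK C1 (by linarith) F1 μ0 T.m0.le m1 eθ Y.cw.θ1 hθ K0 KD th0 (by linarith) t0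
    ((mul_le_mul_of_nonneg_right P t0).trans T.Et) w0 (w1.trans (add_le_add le_rfl ?_)) s0
    (by linarith) hν hx, th0, ?_, μ0, m1, θμ⟩
  · have τ0 := Y.tw.τ0
    have γ0 := Y.tw.γ0
    refine pow_le_pow_left₀ (by unfold tc; positivity) ?_ 2
    have := mul_le_mul_of_nonneg_left T.cu (show 0 ≤ c.D ^ 44 * S.F ^ 2 by positivity)
    unfold tc
    linarith
  · have b1 : 12 * c.D ^ 2 * 1 ≤ c.D ^ 60 * S.F ^ 4 :=
      mul_le_mul (pw8 D1 (by linarith) (by norm_num)) (one_le_pow₀ F1) zero_le_one (by positivity)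
    have b2 := mul_le_mul_of_nonneg_right b1 th0
    have b3 := mul_le_mul_of_nonneg_right (show S.C ≤ c.D by linarith) th0
    by_contra h
    nlinarith only [b2, b3, th1, not_le.1 h, D1]

end Crest.Agent.T156.Alt.X84

end
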