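import Crest.Agent.T156.ClMid2_36

/-!
# Row 156, text (L) (helper36): the deficit of the marks at the corner
-/

set_option autoImplicit false

noncomputable section

namespace Crest.Agent.T156.Alt.Mp9.At

open MeasureTheory Set Real
open Crest.Agent.R164.GC Crest.Agent.R339.B Crest.Agent.R339.Var Crest.Agent.T157.Pf
open Crest.Agent.T156.Spl27 Crest.Agent.T156.Zb9

variable {S : Sc} {M : Md} {m : ℕ} {a T : ℝ}

/-- the deficit of the mark of the node `k` -/
def _root_.Crest.Agent.T156.Alt.Mp9.df36 (S : Sc) (M : Md) (T : ℝ) (k : ℕ) : ℝ :=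
  M.s S.Jp - M.b * Pr.Gam (lh M T) (M.s S.Jp) - M.H k

theorem df_anti (A : At S M m a T) {i k : ℕ} (h : i ≤ k) : df36 S M T k ≤ df36 S M T i := by
  unfold df36; linarith [A.cl.leg.Hm h]

theorem df_crude (A : At S M m a T) (k : ℕ) : df36 S M T k ≤ S.C ^ 2 * S.θ := by
  have c0 := A.c_pos
  have θ0 : 0 ≤ S.θ := (A.ms_pos le_rfl).le.trans (A.cl.ms1 0)
  have a2 := (A.Mf_sl le_rfl le_rfl 0 _ le_rfl (s_nn A.cl _) le_rfl).2
  have a3 : S.C * S.ms (M.s S.Jp) * (M.s S.Jp - 0) ≤ S.C * S.θ * S.C :=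
    mul_le_mul (mul_le_mul_of_nonneg_left (A.cl.ms1 _) c0.le) (by linarith [A.cl.sT])
      (by linarith [s_nn A.cl S.Jp]) (by positivity)
  have a4 : 0 ≤ M.b * Pr.Gam (lh M T) 0 := mul_nonneg A.b_pos.le (Pp.Ode3.Gam_nonneg _ _)
  have a5 : 0 ≤ M.H k := A.cl.leg.H0.ge.trans (A.cl.leg.Hm (Nat.zero_le k))
  have e : ∀ t, Rig.Mf M.b (lh M T) t = t - M.b * Pr.Gam (lh M T) t := fun _ => rfl
  rw [e, e] at a2
  unfold df36
  linarith

theorem z_le_s36 (A : At S M m a T) {i : ℕ} (h0 : S.j0 ≤ i) (h1 : i < S.J) :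
    M.z i ≤ S.C * (M.s i + 2 * S.v) := by
  have h2 : M.s i < M.s S.J := (s_lt A.cl h1).trans_le (A.cl.sm h1)
  have a1 := (A.cl.lip 0 _ le_rfl (s_nn A.cl i) h2).2
  rw [A.cl.lv i h0 _ le_rfl (s_lt A.cl h1)] at a1
  linarith [A.cl.lv0]

theorem tel36 (M : Md) {p q : ℕ} (h : p ≤ q) :
    ∑ j ∈ Finset.Ioc p q, (M.z j - M.z (j - 1)) = M.z q - M.z p := by
  induction q, h using Nat.le_induction with
  | base => simp
  | succ q h ih => rw [Finset.sum_Ioc_succ_top h, ih, Nat.add_sub_cancel]; ring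

/-- **the deficit at the corner** -/
theorem df_corner (A : At S M m a T) {v : ℕ} {γ τ y t0 g : ℝ} (hγ : M.s S.Jp - M.s S.J ≤ γ)
    (τ0 : 0 ≤ τ) (hv : M.z (S.J - 1) - τ ≤ M.z v) (y0 : 0 < y) (hl : M.s S.jl < t0)
    (hw : S.C * (t0 + 2 * S.v) ≤ M.z (S.J - 1) - τ - y)
    (hG : ∑ k ∈ (Finset.Ioo S.jl S.J).filter fun k => t0 ≤ M.s k ∧ M.s k ≤ S.C,
      (M.z k - M.z (k - 1)) * M.G k ^ 2 ≤ g) :
    df36 S M T v ≤ S.C * S.θ * (γ + S.C * S.v + S.C ^ 2 * (τ + y)) + √(g / y) := by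
  have c0 := A.c_pos
  have θ0 : 0 ≤ S.θ := (A.ms_pos le_rfl).le.trans (A.cl.ms1 0)
  have i1 := A.cl.i1
  have i2 := A.cl.i2
  have i3 := A.cl.i3
  have zm := A.cl.leg.zm
  set w := min v (S.J - 1) with hwd
  have w1 : w < S.J := by omega
  have w2 : M.z (S.J - 1) - τ ≤ M.z w := by
    rcases le_total v (S.J - 1) with c | c
    · rwa [hwd, min_eq_left c]
    · rw [hwd, min_eq_right c]; linarith
  refine (A.df_anti (min_le_left v (S.J - 1))).trans ?_
  have ex : ∃ i, M.z w - y ≤ M.z i := ⟨w, by linarith⟩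
  have n1 := Nat.find_spec ex
  have n2 : Nat.find ex ≤ w := Nat.find_min' ex (by linarith)
  have zl : M.z S.jl < M.z w - y := by
    have := A.z_le_s36 i1 (by omega)
    have := mul_lt_mul_of_pos_left (show M.s S.jl + 2 * S.v < t0 + 2 * S.v by linarith) c0
    linarith
  have n3 : S.jl < Nat.find ex := lt_of_not_ge fun c => by linarith [zm c]
  have n4 : M.z (Nat.find ex - 1) < M.z w - y := not_le.1 (Nat.find_min ex (by omega))
  set D := max (df36 S M T w - S.C * S.θ * (γ + S.C * S.v + S.C ^ 2 * (τ + y))) 0 with hD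
  have dz : ∀ j, 0 ≤ M.z j - M.z (j - 1) := fun j => sub_nonneg.2 (zm (Nat.sub_le j 1))
  have key : y * D ^ 2 ≤ g := by
    refine le_trans ?_ ((Finset.sum_le_sum_of_subset_of_nonneg
      (s := Finset.Ioc (Nat.find ex - 1) w) (fun j hj => ?_)
      fun j _ _ => mul_nonneg (dz j) (sq_nonneg _)).trans hG)
    · refine le_trans (mul_le_mul_of_nonneg_right
        (show y ≤ M.z w - M.z (Nat.find ex - 1) by linarith) (sq_nonneg _)) ?_
      rw [← tel36 M (by omega), Finset.sum_mul]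
      refine Finset.sum_le_sum fun j hj => mul_le_mul_of_nonneg_left ?_ (dz j)
      obtain ⟨j1, j2⟩ := Finset.mem_Ioc.1 hj
      have d1 := (A.deficit (k := j) (by omega) (by omega)).2
      have d2 := A.df_anti j2
      have d3 := (A.s_z (i := j) (k := S.J - 1) (by omega) (by omega) (by omega)).2
      have d4 := zm (show Nat.find ex ≤ j by omega)
      have d5 := mul_le_mul_of_nonneg_left
        (show M.z (S.J - 1) - M.z j ≤ τ + y by linarith) (sq_nonneg S.C)
      have d6 := mul_le_mul_of_nonneg_left (show M.s S.Jp - M.s j ≤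
        γ + S.C * S.v + S.C ^ 2 * (τ + y) by linarith [A.s_pred.2]) (mul_nonneg c0.le θ0)
      rw [← sq_abs (M.G j)]
      refine pow_le_pow_left₀ (le_max_right _ _) (max_le ?_ (abs_nonneg _)) 2
      unfold df36 at d2 ⊢
      linarith [neg_le_abs (M.G j)]
    · obtain ⟨j1, j2⟩ := Finset.mem_Ioc.1 hj
      refine Finset.mem_filter.2 ⟨Finset.mem_Ioo.2 ⟨by omega, by omega⟩, ?_,
        (A.cl.sm (by omega)).trans A.cl.sT⟩
      have d1 := A.z_le_s36 (i := j) (by omega) (by omega)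
      have d4 := zm (show Nat.find ex ≤ j by omega)
      have : S.C * (t0 + 2 * S.v) ≤ S.C * (M.s j + 2 * S.v) := by linarith
      linarith [le_of_mul_le_mul_left this c0]
  have := le_sqrt_of_sq_le ((le_div_iff₀' y0).2 key)
  linarith [le_max_left (df36 S M T w - S.C * S.θ * (γ + S.C * S.v + S.C ^ 2 * (τ + y))) 0]

/-- the deficit at a plateau node -/
theorem df_plat (A : At S M m a T) {i : ℕ} {γ GP : ℝ} (hγ : M.s S.Jp - M.s S.J ≤ γ) (hi : S.J ≤ i)
    (hi' : i ≤ S.Jp)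
    (hG : ∑ j ∈ Finset.Icc S.J S.Jp, (M.z j - M.z (j - 1)) * M.G j ^ 2 ≤ GP) :
    df36 S M T i * √(M.z i - M.z (S.J - 1)) ≤ S.C * S.θ * γ + √GP := by
  have c0 := A.c_pos
  have θ0 : 0 ≤ S.θ := (A.ms_pos le_rfl).le.trans (A.cl.ms1 0)
  have i2 := A.cl.i2
  have zm := A.cl.leg.zm
  have γ0 : 0 ≤ γ := le_trans (sub_nonneg.2 (A.cl.sm A.cl.i3)) hγ
  have p0 : 0 ≤ S.C * S.θ * γ := by positivity
  have r0 : 0 ≤ M.z i - M.z (S.J - 1) := sub_nonneg.2 (zm (by omega))
  have r1 : √(M.z i - M.z (S.J - 1)) ≤ 1 := sqrt_le_one.2 (by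
    have : 0 ≤ M.z (S.J - 1) := le_trans (by positivity) A.cl.atom.1
    linarith [A.cl.leg.z1 i])
  set D := max (df36 S M T i - S.C * S.θ * γ) 0 with hD
  have D0 : 0 ≤ D := le_max_right _ _
  have dz : ∀ j, 0 ≤ M.z j - M.z (j - 1) := fun j => sub_nonneg.2 (zm (Nat.sub_le j 1))
  have key : (M.z i - M.z (S.J - 1)) * D ^ 2 ≤ GP := by
    refine le_trans ?_ ((Finset.sum_le_sum_of_subset_of_nonneg
      (s := Finset.Ioc (S.J - 1) i) (fun j hj => ?_)
      fun j _ _ => mul_nonneg (dz j) (sq_nonneg _)).trans hG)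
    · rw [← tel36 M (by omega), Finset.sum_mul]
      refine Finset.sum_le_sum fun j hj => mul_le_mul_of_nonneg_left ?_ (dz j)
      obtain ⟨j1, j2⟩ := Finset.mem_Ioc.1 hj
      have d1 := (A.deficit (k := j) (by omega) (by omega)).2
      have d2 := A.df_anti j2
      have d6 := mul_le_mul_of_nonneg_left (show M.s S.Jp - M.s j ≤ γ by
        linarith [A.cl.sm (show S.J ≤ j by omega)]) (mul_nonneg c0.le θ0)
      rw [← sq_abs (M.G j)]
      refine pow_le_pow_left₀ D0 (max_le ?_ (abs_nonneg _)) 2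
      unfold df36 at d2 ⊢
      linarith [neg_le_abs (M.G j)]
    · obtain ⟨j1, j2⟩ := Finset.mem_Ioc.1 hj
      exact Finset.mem_Icc.2 ⟨by omega, by omega⟩
  have k1 : D * √(M.z i - M.z (S.J - 1)) ≤ √GP := le_sqrt_of_sq_le (by
    rw [mul_pow, sq_sqrt r0]; linarith)
  have k2 := mul_le_mul_of_nonneg_right
    (show df36 S M T i ≤ S.C * S.θ * γ + D by linarith [le_max_left (df36 S M T i - S.C * S.θ * γ) 0])
    (sqrt_nonneg (M.z i - M.z (S.J - 1)))
  have k3 := mul_le_mul_of_nonneg_left r1 p0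
  linarith

/-- the residual at the node `i` with its own mark, against the constant of the node `v` -/
theorem res36 (A : At S M m a T) {v i : ℕ} (hv : S.jl < v) (h : v ≤ i) (hi : i ≤ S.Jp) :
    res M S m a T i - res M S m a T v ≤
      Pr.Gam (lb M S m a T) (sb M m a (i + 1)) - (sb M m a (i + 1) - M.H i) / M.b -
        Gap27.resN (lb M S m a T) M.b (sb M m a) (hb M) (v + 1) ∧
    Pr.Gam (lb M S m a T) (sb M m a (i + 1)) - (sb M m a (i + 1) - M.H i) / M.b -
        Gap27.resN (lb M S m a T) M.b (sb M m a) (hb M) (v + 1) ≤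
      res M S m a T i - res M S m a T v + 1 / (m + 1) := by
  have m1 : (0 : ℝ) < m + 1 := by positivity
  rw [A.R_node (by omega) hi, A.resN_eq hv (h.trans hi)]
  have a1 := div_le_div_of_nonneg_right (rb_mono (M := M) (a := a) A.m_pos h) m1.le
  have a2 : M.rb m a i / (m + 1) ≤ M.rb m a v / (m + 1) + 1 / (m + 1) := by
    rw [← add_div]
    exact div_le_div_of_nonneg_right
      (by linarith [(rb_mem (M := M) (a := a) A.m_pos v).1, (rb_mem (M := M) (a := a) A.m_pos i).2])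
      m1.le
  constructor <;> linarith

end Crest.Agent.T156.Alt.Mp9.At

end
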