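import Crest.Agent.T156.Lag_8
import Crest.Agent.T156.TopD_36

/-!
# Row 156, text (L) (helper47): the middle zone above the corner node as a segment
-/

set_option autoImplicit false

noncomputable section

namespace Crest.Agent.T156.Alt.Mp9

open MeasureTheory Set Real
open Crest.Agent.R164.GC Crest.Agent.R339.B Crest.Agent.R339.Var Crest.Agent.T157.Pf
open Crest.Agent.T156.Spl27 Crest.Agent.T156.Zb9 Crest.Agent.T156.Pr.Mid8
open Crest.Agent.T156.Pr.Cor36 Crest.Agent.T156.Pr.Mid36 Crest.Agent.T156.Pr.Lag8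
open Crest.Agent.T156.Cut8
open Crest.Agent.T156.Gap27 (resN)
open Crest.Agent.T156.Pr.Reg48 (Sm)

variable {S : Sc} {M : Md} {m : ℕ} {a T : ℝ}

/-- the lower end of the middle zone -/
def ys (S : Sc) (M : Md) (m : ℕ) (a : ℝ) (v : ℕ) : ℝ := min (sb M m a (v + 1)) (M.s S.J)

theorem At.ys_zb (A : At S M m a T) {v : ℕ} {t : ℝ} (hv : S.jl ≤ v) (hv' : v ≤ S.Jp)
    (h1 : ys S M m a v ≤ t) (h2 : t < M.s S.J) : M.z v ≤ lvr 1 (lb M S m a T) t := by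
  rw [← A.lvb_node hv hv']
  exact Sc48.lvr_mono A.okb.1.1 ((min_le_iff.1 h1).resolve_right (not_le.2 h2))

/-- **`Md3` from the corner node `v` to the node `w`, constant of the node `v0 ≤ v`** -/
theorem At.mid3 (A : At S M m a T) {v0 v w : ℕ} {γ er Rs τ e t0 G0 Gm Gp Kc τ0 : ℝ}
    (hv : S.jl < v0) (h0 : v0 ≤ v) (hJ : v < S.J) (hvw : v ≤ w) (hw : w ≤ S.Jp)
    (hγ : M.s S.Jp - M.s S.J ≤ γ)
    (rise : ∀ p q, ys S M m a v ≤ p → p ≤ q → q ≤ sb M m a (w + 1) →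
      p - M.b * Pr.Gam (lb M S m a T) p - Rs ≤ q - M.b * Pr.Gam (lb M S m a T) q)
    (zf : M.z (S.J - 1) - τ ≤ M.z v) (hτ : 2 * (S.C * S.v) ≤ τ)
    (er0 : 0 ≤ er) (R0 : 0 ≤ Rs) (e0 : 0 < e)
    (G00 : 0 < G0) (Gm0 : 0 < Gm) (Gp0 : 0 ≤ Gp) (K0 : 0 ≤ Kc) (τp : 0 < τ0) (t00 : 0 ≤ t0)
    (t1 : t0 ≤ ys S M m a v) (he : e ≤ S.ms t0 / S.C) (he1 : e ≤ 1)
    (atM : res M S m a T v0 - res M S m a T w ≤ er) (Gw : M.G w ≤ Gp)
    (net : ∀ k t, v ≤ k → k < w → ys S M m a v ≤ t → t < M.s S.Jp →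
      lvr 1 (lb M S m a T) t = M.z k → 0 ≤ M.z k - lvr 1 (lh M T) t → ∃ i K x, v ≤ i ∧ i ≤ k ∧
      res M S m a T i - res M S m a T v0 ≤ er + K + x ∧
      x * (M.z k - lvr 1 (lh M T) t) * (M.s S.Jp - t + τ0) ≤ Kc ∧
      ((df36 S M T i + M.b * K) * √(M.z k - lvr 1 (lh M T) t) ≤ G0 ∨
        (df36 S M T i + M.b * K ≤ Gm ∧
          M.z k - lvr 1 (lh M T) t ≤ 2 * S.C * (M.s S.Jp - t) + 2 * (S.C * S.v)))) :
    Md3 (lb M S m a T) (lh M T) T M.b (M.s S.J) (M.s S.Jp) γ (ys S M m a v) (sb M m a (w + 1))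
      (resN (lb M S m a T) M.b (sb M m a) (hb M) (v0 + 1)) (er + 1 / (m + 1)) Rs (2 * S.C * τ) τ e
      (S.C * S.θ) (2 * S.C) (2 * (S.C * S.v)) G0 Gm Gp (M.H w) Kc τ0 := by
  have c0 := A.c_pos
  have v0' := v_pos A.cl
  have b0 := A.b_pos
  have cv : 0 ≤ S.C * S.v := by positivity
  have τ0' : 0 ≤ τ := by linarith
  have θ0 : 0 ≤ S.θ := (A.ms_pos le_rfl).le.trans (A.cl.ms1 0)
  have s0 : 0 < ys S M m a v := by
    have a1 := A.sb_lt (k := S.jl) le_rfl (by omega)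
    have a2 := A.sb_mono (show S.jl + 2 ≤ v + 1 by omega)
    exact lt_min (by linarith [(A.sb_mem (k := S.jl) (by omega)).1])
      ((s_nn A.cl _).trans_lt A.s_pred.1)
  have sJ : M.s S.J ≤ M.s S.Jp := A.cl.sm A.cl.i3
  have y1 : ys S M m a v ≤ sb M m a (v + 1) := min_le_left _ _
  have y2 : ys S M m a v ≤ M.s S.J := min_le_right _ _
  have sM := A.sb_mono (Nat.succ_le_succ hvw)
  have p1 : (0 : ℝ) ≤ 1 / (m + 1) := by positivity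
  have jv : S.jl ≤ v := by omega
  have vp : v ≤ S.Jp := by omega
  refine ⟨A.okb.1, A.okh.1, A.okb.2, A.okh.2, b0, s0, y2.trans sJ, sJ, hγ, y1.trans sM, A.t2,
    (A.sb_mem hw).2, ⟨by positivity, R0, τ0', e0, by positivity, by positivity, by positivity, G00,
      Gm0, Gp0⟩, by positivity, K0, τp,
    fun t ht => by rw [A.lvh' ((s_nn A.cl _).trans ht), A.cl.lv1 t ht], fun t a1 a2 => ?_,
    fun t ht => by linarith [A.ys_zb jv vp ht.1 ht.2, A.zh_le_8 ht.2], rise,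
    fun r a1 a2 => A.e_lo t00 (by linarith) he he1 (t1.trans a1) a2.le,
    fun r hr => A.e_up (s0.le.trans hr.1) hr.2.le, ⟨?_, ?_⟩, fun t a1 a2 a3 a4 => ?_⟩
  · have w0 : 0 ≤ 2 * S.C * τ := by positivity
    have k1 := A.slope36 (s := t) (s0.le.trans a1) (by linarith)
    have k2 := A.ys_zb jv vp a1 (by linarith)
    have k3 : 2 * τ ≤ 1 / S.C * (M.s S.J - t) := by
      rw [one_div_mul_eq_div, le_div_iff₀ c0]; linarith
    linarith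
  · linarith [(A.res36 hv (h0.trans hvw) hw).1]
  · linarith [(A.deficit (k := w) (by omega) hw).1]
  rcases lt_or_ge t (sb M m a (v + 1)) with c | c
  · have k1 : M.s S.J ≤ t := (min_le_iff.1 a1).resolve_left (not_le.2 c)
    have k2 := Sc48.lvr_mono A.okh.1.1 (A.s_pred.1.le.trans k1)
    have k3 := Sc48.lvr_mono A.okb.1.1 c.le
    rw [A.zh_pred] at k2
    rw [A.lvb_node jv vp] at k3
    have k4 : M.z v ≤ M.z (S.J - 1) := A.cl.leg.zm (by omega)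
    have k5 : lvr 1 (lb M S m a T) t - lvr 1 (lh M T) t = 0 := by linarith
    rw [k5]
    exact ⟨t, 0, Pr.Gam (lb M S m a T) t - (t - 0) / M.b -
      resN (lb M S m a T) M.b (sb M m a) (hb M) (v0 + 1), a1, le_rfl, by linarith,
      by simpa using K0, .inl (by simpa using G00.le)⟩
  · obtain ⟨k, k1, k2, c⟩ := A.exists_cell hw c a3
    have tk := c.2.1 (Nat.succ_pos k)
    have zk := A.lvb_cell c
    rw [zk] at a4 ⊢
    obtain ⟨i, K, x, i1, i2, i3, i4, i5⟩ := net k t k1 k2 a1 a2 zk a4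
    have r := (A.res36 hv (h0.trans i1) (show i ≤ S.Jp by omega)).2
    have e1 : (sb M m a (i + 1) - (M.H i - M.b * K)) / M.b =
        (sb M m a (i + 1) - M.H i) / M.b + K := by field_simp; ring
    have e2 : M.s S.Jp - M.b * Pr.Gam (lh M T) (M.s S.Jp) - (M.H i - M.b * K) =
        df36 S M T i + M.b * K := by unfold df36; ring
    refine ⟨sb M m a (i + 1), M.H i - M.b * K, x, y1.trans (A.sb_mono (Nat.succ_le_succ i1)),
      (A.sb_mono (Nat.succ_le_succ i2)).trans tk, by rw [e1]; linarith, i4, by rwa [e2]⟩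

/-- **data of the middle zone**: `x` = uniform error, `N` = cost, `ν` = floor of `N`,
`v0` = node of the constant, `v` = corner node, `w` = upper node -/
structure TM (S : Sc) (M : Md) (m : ℕ) (a T L x N ν τ γ y Gm Rs e t0 βs : ℝ)
    (v0 v w : ℕ) : Prop where
  L1 : 64 * S.C ≤ L
  T1 : T ≤ L
  θ1 : S.θ ≤ 1
  e1 : S.θ ≤ L * e ∧ e ≤ 1 ∧ e ≤ S.ms t0 / S.C
  t0 : 0 ≤ t0 ∧ t0 ≤ ys S M m a v
  ν0 : 0 < ν ∧ ν ≤ 1 ∧ ν ≤ N ∧ log (1 + T / ν) ≤ L ∧ S.C * S.v ≤ ν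
  x0 : 1 / ((m : ℝ) + 1) ≤ x ∧ Sm S.θ 1 N 1 x
  β0 : 0 ≤ βs ∧ βs ≤ x
  v1 : S.jl < v0 ∧ v0 ≤ v ∧ v < S.J ∧ v ≤ w ∧ w ≤ S.Jp
  γ0 : M.s S.Jp - M.s S.J ≤ γ ∧ γ ≤ 1 ∧ γ ^ 3 ≤ N ∧ S.θ * γ ^ 2 ≤ N
  τ0 : 2 * (S.C * S.v) ≤ τ ∧ τ ≤ 1 ∧ S.θ * τ ^ 3 ≤ N ∧ τ ^ 6 ≤ N ∧ S.θ * γ * τ ≤ N
  zv : M.z (S.J - 1) - τ ≤ M.z v
  R0 : 0 ≤ Rs ∧ Rs ≤ x
  rise : ∀ p q, ys S M m a v ≤ p → p ≤ q → q ≤ sb M m a (w + 1) →
    p - M.b * Pr.Gam (lb M S m a T) p - Rs ≤ q - M.b * Pr.Gam (lb M S m a T) q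
  aM : res M S m a T v0 - res M S m a T w ≤ x ∧ M.G w ≤ x
  cn : res M S m a T v - res M S m a T v0 ≤ x ∧ df36 S M T v ≤ Gm ∧ S.θ * ν ≤ Gm ∧ Gm ≤ L ∧
    Gm ^ 3 ≤ S.θ ^ 2 * N ∧ 0 ≤ y ∧ Gm ^ 2 * y ≤ S.θ * N
  gp : ∑ j ∈ Finset.Icc S.J S.Jp, (M.z j - M.z (j - 1)) * M.G j ^ 2 ≤ S.θ * N
  net : ∀ k, v ≤ k → k < w → y < M.z k - M.z (S.J - 1) → ∃ i K1 K2, S.J ≤ i ∧ i ≤ k ∧
    M.z k - M.z (S.J - 1) ≤ 4 * (M.z i - M.z (S.J - 1)) ∧ 0 ≤ K1 ∧ 0 ≤ K2 ∧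
    res M S m a T i - res M S m a T v0 ≤ x + K1 + K2 ∧
    (M.z k - M.z (S.J - 1)) * K1 ^ 2 ≤ S.θ * N ∧ (M.z k - M.z (S.J - 1)) * K2 ^ 3 ≤ N ^ 2

variable {L x N ν τ γ y Gm Rs e t0 βs : ℝ} {v0 v w : ℕ}

theorem pos47 {L e : ℝ} (h : 0 < L * e) (L0 : 0 < L) : 0 < e := (pos_iff_pos_of_mul_pos h).1 L0

theorem kc47 {P N E L θ' : ℝ} (N0 : 0 ≤ N) (E0 : 0 ≤ E) (L0 : 0 < L) (hθ : 1 ≤ L * θ')
    (h : P ^ 3 ≤ 64 * N ^ 2 * E) : 2 * P ≤ θ' * E / L + 24 * L * N := by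
  have θ0 : 0 < θ' := by by_contra c; nlinarith
  rcases le_or_gt (2 * P) (θ' * E / L) with c | c
  · have : 0 ≤ 24 * L * N := by positivity
    linarith
  have q0 : 0 ≤ θ' * E / L := by positivity
  have P0 : 0 < P := by linarith
  rw [div_lt_iff₀ L0] at c
  have e1 : E ≤ 2 * P * L ^ 2 := by nlinarith [mul_le_mul_of_nonneg_right hθ E0]
  have e2 : P * P ^ 2 ≤ P * (12 * L * N) ^ 2 := by
    nlinarith [mul_le_mul_of_nonneg_left e1 (show 0 ≤ 64 * N ^ 2 by positivity),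
      mul_nonneg P0.le (sq_nonneg (L * N))]
  have := pow_le_pow_left₀ P0.le (le_refl P) 2
  have e3 := (pow_le_pow_iff_left₀ P0.le (by positivity) two_ne_zero).1
    (le_of_mul_le_mul_left e2 P0)
  linarith

theorem cu47 {K ρ u N : ℝ} (N0 : 0 ≤ N) (ρ0 : 0 ≤ ρ) (ρ1 : ρ ≤ 1) (K0 : 0 ≤ K) (u0 : 0 ≤ u)
    (h : ρ * K ^ 3 ≤ N ^ 2) (hu : u ^ 3 ≤ N) : K * ρ * u ≤ N := by
  refine (pow_le_pow_iff_left₀ (by positivity) N0 three_ne_zero).1 ?_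
  calc (K * ρ * u) ^ 3 = ρ ^ 2 * (ρ * K ^ 3) * u ^ 3 := by ring
    _ ≤ 1 ^ 2 * N ^ 2 * N := by gcongr
    _ = N ^ 3 := by ring

set_option maxHeartbeats 800000 in
/-- **the middle zone** -/
theorem TM.md3 (A : At S M m a T)
    (h : TM S M m a T L x N ν τ γ y Gm Rs e t0 βs v0 v w) {θ' A0 E : ℝ} (hθ : 1 ≤ L * θ')
    (hA0 : 0 ≤ A0) (hA : A0 ≤ ys S M m a v)
    (hE : ∫ t in A0..T, Jf T (lvr 1 (lh M T)) (lvr 1 (lb M S m a T)) t ^ 2 ≤ E) :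
    Md3 (lb M S m a T) (lh M T) T M.b (M.s S.J) (M.s S.Jp) γ (ys S M m a v) (sb M m a (w + 1))
      (resN (lb M S m a T) M.b (sb M m a) (hb M) (v0 + 1)) (x + 1 / (m + 1)) Rs (2 * S.C * τ) τ e
      (S.C * S.θ) (2 * S.C) (2 * (S.C * S.v)) (L * √(S.θ * N)) Gm x (M.H w)
      (θ' * E / L + L ^ 2 * N) ν := by
  have C1 := A.cl.C1
  have c0 := A.c_pos
  have vp := v_pos A.cl
  have L64 : 64 ≤ L := by linarith [h.L1]
  have L0 : 0 < L := by linarith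
  have θ0 : 0 < S.θ := A.ms_pos zero_le_one
  obtain ⟨b1, b2⟩ := A.b_mem
  obtain ⟨ν0, ν1, ν2, ν3, ν4⟩ := h.ν0
  have N0 : 0 < N := by linarith
  obtain ⟨v1, v2, v3, v4, v5⟩ := h.v1
  obtain ⟨γ0, γ1, γ2, γ3⟩ := h.γ0
  obtain ⟨n1, n2, n3, n4, n5, y0, n6⟩ := h.cn
  have sJ : M.s S.J ≤ M.s S.Jp := A.cl.sm A.cl.i3
  have γp : 0 ≤ γ := by linarith
  have x0 : 0 ≤ x := le_trans (by positivity) h.x0.1
  have ep : 0 < e := pos47 (θ0.trans_le h.e1.1) L0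
  have Gm0 : 0 < Gm := lt_of_lt_of_le (by positivity) n3
  have θp : 0 < θ' := pos47 (one_pos.trans_le hθ) L0
  have sT : ys S M m a v ≤ T := (min_le_right _ _).trans (sJ.trans A.t2)
  have ld : LB T fun t => lvr 1 (lb M S m a T) t - lvr 1 (lh M T) t :=
    (LB.of_mono (Sc48.lvr_mono A.okb.1.1)).sub (LB.of_mono (Sc48.lvr_mono A.okh.1.1))
  have lJ := (LB.of_cont (Lab36.jf_cont ld (by linarith))).sq
  have E0 : 0 ≤ E :=
    (intervalIntegral.integral_nonneg (by linarith) fun _ _ => sq_nonneg _).trans hE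
  set q := √(S.θ * N) with hq
  have q0 : 0 < q := by positivity
  have q2 : q ^ 2 = S.θ * N := sq_sqrt (by positivity)
  have lq : ∀ u, 0 ≤ u → u ^ 2 ≤ S.θ * N → u ≤ q := fun u _ hu => le_sqrt_of_sq_le hu
  refine A.mid3 v1 v2 v3 v4 v5 γ0 h.rise h.zv h.τ0.1 x0 h.R0.1 ep
    (by positivity) Gm0 x0 (by positivity) ν0 h.t0.1 h.t0.2 h.e1.2.2 h.e1.2.1 h.aM.1 h.aM.2
    fun k t k1 k2 a1 a2 zk a4 => ?_
  have t0' : 0 ≤ t := hA0.trans (hA.trans a1)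
  have bl := A.below t0' a2
  have K0 : 0 ≤ θ' * E / L + L ^ 2 * N := by positivity
  set d := M.z k - lvr 1 (lh M T) t with hd
  set ρ := M.z k - M.z (S.J - 1) with hρ
  rcases le_or_gt ρ (S.C * (M.s S.Jp - t) + S.C * S.v) with c | c
  · exact ⟨v, 0, 0, le_rfl, k1, by linarith, by simpa using K0,
      .inr ⟨by linarith, by linarith⟩⟩
  have d2 : d ≤ 2 * ρ := by linarith
  have ρ0 : 0 ≤ ρ := by linarith
  have ρ1 : ρ ≤ 1 := by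
    have : 0 ≤ M.z (S.J - 1) := le_trans (by positivity) A.cl.atom.1
    linarith [A.cl.leg.z1 k]
  have sd := sqrt_nonneg d
  have sd2 : √d ^ 2 = d := sq_sqrt a4
  rcases le_or_gt ρ y with c' | c'
  · refine ⟨v, 0, 0, le_rfl, k1, by linarith, by simpa using K0, .inl ?_⟩
    have r1 : Gm * √d / 2 ≤ q := lq _ (by positivity) (by
      rw [div_pow, mul_pow, sd2]
      linarith [mul_le_mul_of_nonneg_left (show d ≤ 2 * y by linarith) (sq_nonneg Gm),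
        mul_nonneg (sq_nonneg Gm) y0])
    have r2 := mul_le_mul_of_nonneg_right n2 sd
    rw [mul_zero, add_zero]
    linarith [mul_le_mul_of_nonneg_right L64 q0.le]
  obtain ⟨i, K1, K2, i2, i3, i4, i5, i6, i7, i8, i9⟩ := h.net k k1 k2 c'
  refine ⟨i, K1, K2, by omega, i3, i7, ?_, .inl ?_⟩
  · set ℓ := max (M.s S.J - t) 0 with hℓ
    have ℓ0 : 0 ≤ ℓ := le_max_right _ _
    have lag : ρ ^ 2 * ℓ ^ 3 ≤ 64 * E := by
      rcases le_total (M.s S.J) t with u | u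
      · rw [hℓ, max_eq_right (by linarith)]; simp only [ne_eq, OfNat.ofNat_ne_zero,
          not_false_eq_true, zero_pow, mul_zero]; positivity
      rw [hℓ, max_eq_left (by linarith)]
      have e' : t + (M.s S.J - t) = M.s S.J := by ring
      have JT : M.s S.J ≤ T := sJ.trans A.t2
      have g1 := Lab36.gap_pos ld (ℓ := M.s S.J - t) (κ := ρ) t0' (by linarith) (by linarith) ρ0
        (by
          rw [e']
          intro s s1 s2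
          have := Sc48.lvr_mono A.okb.1.1 s1.le
          rw [zk] at this
          linarith [A.zh_le_8 s2])
      rw [e'] at g1
      have g2 := int_sub_le lJ hA0 (hA.trans a1) u JT le_rfl fun _ _ _ => sq_nonneg _
      linarith
    have p1 := kc47 (P := K2 * ρ * ℓ) N0.le E0 L0 hθ (by
      calc (K2 * ρ * ℓ) ^ 3 = (ρ * K2 ^ 3) * (ρ ^ 2 * ℓ ^ 3) := by ring
        _ ≤ N ^ 2 * (64 * E) := by gcongr
        _ = _ := by ring)
    have p2 := cu47 N0.le ρ0 ρ1 i6 γp i9 γ2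
    have p3 := cu47 N0.le ρ0 ρ1 i6 ν0.le i9
      ((pow_le_of_le_one ν0.le ν1 three_ne_zero).trans ν2)
    have p4 : K2 * d * (M.s S.Jp - t + ν) ≤ K2 * (2 * ρ) * (ℓ + γ + ν) := by
      have : M.s S.J - t ≤ ℓ := le_max_left _ _
      exact mul_le_mul (mul_le_mul_of_nonneg_left d2 i6) (by linarith) (by linarith) (by positivity)
    linarith [mul_le_mul_of_nonneg_right L64 (mul_nonneg L0.le N0.le),
      mul_le_mul_of_nonneg_right L64 N0.le]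
  · have dp := A.df_plat γ0 i2 (by omega) h.gp
    set ρi := M.z i - M.z (S.J - 1) with hρi
    have ρi0 : 0 ≤ ρi := by linarith
    have r0 : √d ≤ 3 * √ρi := sqrt_le_iff.2 ⟨by positivity, by
      rw [mul_pow, sq_sqrt ρi0]; linarith⟩
    have r1 : S.θ * γ ≤ q := lq _ (by positivity) (by
      linarith [mul_le_mul_of_nonneg_left γ3 θ0.le])
    have r2 : K1 * √d / 2 ≤ q := lq _ (by positivity) (by
      rw [div_pow, mul_pow, sd2]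
      linarith [mul_le_mul_of_nonneg_left d2 (sq_nonneg K1), mul_nonneg ρ0 (sq_nonneg K1)])
    have r3 : df36 S M T i * √d ≤ 3 * (S.C * q + q) := by
      have r4 := mul_le_mul_of_nonneg_left r1 c0.le
      rcases le_total (df36 S M T i) 0 with u | u
      · exact (mul_nonpos_of_nonpos_of_nonneg u sd).trans (by positivity)
      · have r6 : √(S.θ * N) = q := rfl
        linarith [mul_le_mul_of_nonneg_left r0 u]
    have r5 : M.b * (K1 * √d) ≤ S.C * (2 * q) :=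
      mul_le_mul b2 (by linarith) (by positivity) c0.le
    linarith [mul_le_mul_of_nonneg_right h.L1 q0.le, mul_le_mul_of_nonneg_right C1 q0.le]

theorem sq47 {a u θ N : ℝ} (θ0 : 0 < θ) (N0 : 0 ≤ N) (a0 : 0 ≤ a) (u0 : 0 ≤ u)
    (h : a ^ 2 ≤ 25 * (θ * N)) (hu : θ * u ^ 2 ≤ N) : a * u ≤ 5 * N := by
  refine (pow_le_pow_iff_left₀ (by positivity) (by positivity) two_ne_zero).1
    (le_of_mul_le_mul_left ?_ θ0)
  calc θ * (a * u) ^ 2 = a ^ 2 * (θ * u ^ 2) := by ring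
    _ ≤ 25 * (θ * N) * N := by gcongr
    _ = _ := by ring

theorem cb47 {a u N : ℝ} (N0 : 0 ≤ N) (a0 : 0 ≤ a) (u0 : 0 ≤ u)
    (h : a ^ 3 ≤ 125 * N ^ 2) (hu : u ^ 3 ≤ N) : a * u ≤ 5 * N := by
  refine (pow_le_pow_iff_left₀ (by positivity) (by positivity) three_ne_zero).1 ?_
  calc (a * u) ^ 3 = a ^ 3 * u ^ 3 := by ring
    _ ≤ 125 * N ^ 2 * N := by gcongr
    _ = _ := by ring

theorem lg47 {T e G ν L θ : ℝ} (T0 : 0 ≤ T) (e0 : 0 < e) (ν0 : 0 < ν) (eθ : e ≤ θ)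
    (hG : θ * ν ≤ G) (h : log (1 + T / ν) ≤ L) :
    0 ≤ log (1 + e / 8 * T / G) ∧ log (1 + e / 8 * T / G) ≤ L := by
  have G0 : 0 < G := lt_of_lt_of_le (mul_pos (e0.trans_le eθ) ν0) hG
  have p : 0 ≤ e / 8 * T / G := by positivity
  refine ⟨log_nonneg (by linarith), le_trans (log_le_log (by linarith) ?_) h⟩
  have : e / 8 * T / G ≤ T / ν := by
    rw [div_le_div_iff₀ G0 ν0]
    nlinarith [mul_le_mul_of_nonneg_left hG T0, mul_le_mul_of_nonneg_right eθ (mul_nonneg T0 ν0.le),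
      mul_nonneg (mul_nonneg e0.le T0) ν0.le]
  linarith

set_option maxHeartbeats 800000 in
theorem er47 {T b C θ θ' γ τ e x η Rs Gm q ν δ L N E a1 a2 : ℝ} (C1 : 1 ≤ C) (L1 : 64 * C ≤ L)
    (T0 : 0 ≤ T) (T1 : T ≤ L) (b1 : 1 ≤ b) (b2 : b ≤ C) (θ0 : 0 < θ) (θ1 : θ ≤ 1) (θp : 0 < θ')
    (e0 : 0 < e) (e1 : θ ≤ L * e) (e2 : e ≤ θ) (ν0 : 0 < ν) (ν1 : ν ≤ 1) (ν2 : ν ≤ N)
    (ν3 : log (1 + T / ν) ≤ L) (δ0 : 0 ≤ δ) (δ1 : δ ≤ ν) (E0 : 0 ≤ E) (x0 : 0 ≤ x)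
    (η1 : η ≤ 2 * x) (R0 : 0 ≤ Rs) (R1 : Rs ≤ x) (γ0 : 0 ≤ γ) (γ2 : γ ^ 3 ≤ N) (γ3 : θ * γ ^ 2 ≤ N)
    (τ0 : 0 ≤ τ) (τ1 : τ ≤ 1) (τ2 : θ * τ ^ 3 ≤ N) (τ3 : τ ^ 6 ≤ N) (τ4 : θ * γ * τ ≤ N)
    (G1 : θ * ν ≤ Gm) (G2 : Gm ≤ L) (G3 : Gm ^ 3 ≤ θ ^ 2 * N) (q0 : 0 < q) (q2 : q ^ 2 = θ * N)
    (a10 : 0 ≤ a1) (a20 : 0 ≤ a2) (h1 : a1 ^ 3 ≤ 125 * N ^ 2) (h2 : a2 ^ 2 ≤ 25 * (θ * N))
    (ha : 5 * x ≤ a1 + a2) :
    Md3.Er T b γ η Rs (2 * C * τ) τ e (C * θ) (2 * C) (2 * δ) (L * q) Gm x (θ' * E / L + L ^ 2 * N) ν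
      a1 a2 (L ^ 2 * N) ≤ θ' * E + L ^ 6 * N := by
  have L64 : 64 ≤ L := by linarith
  have L0 : 0 < L := by linarith
  have N0 : 0 < N := by linarith
  have b0 : 0 < b := by linarith
  have C0 : 0 < C := by linarith
  have CL : C ≤ L / 64 := by linarith
  have Gm0 : 0 < Gm := lt_of_lt_of_le (by positivity) G1
  have pw : ∀ i : ℕ, 64 * (L ^ i * N) ≤ L ^ (i + 1) * N := fun i =>
    calc 64 * (L ^ i * N) ≤ L * (L ^ i * N) := by gcongr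
      _ = _ := by ring
  have ie : 1 / e ≤ L / θ := by rw [div_le_div_iff₀ e0 θ0]; linarith
  have s1 : 32 * a2 ^ 2 * b / e ≤ 13 * (L ^ 2 * N) :=
    calc 32 * a2 ^ 2 * b / e = 32 * a2 ^ 2 * b * (1 / e) := by ring
      _ ≤ 32 * (25 * (θ * N)) * (L / 64) * (L / θ) := by gcongr; linarith
      _ = 25 / 2 * (L ^ 2 * N) := by field_simp; ring
      _ ≤ _ := by gcongr; norm_num
  have s2 : (2 * a1 + a2 + (η + (x + Rs + C * θ * (2 * C * τ + γ)) / b)) *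
      (τ * (2 * C * τ + γ) + γ) ≤ L ^ 3 * N := by
    have u1 : (x + Rs + C * θ * (2 * C * τ + γ)) / b ≤ x + Rs + C * θ * (2 * C * τ + γ) :=
      div_le_self (by positivity) b1
    have u2 : τ * (2 * C * τ + γ) + γ ≤ 2 * C * τ ^ 2 + 2 * γ := by
      linarith [mul_le_mul_of_nonneg_right τ1 γ0]
    have t4 : θ * (τ ^ 2) ^ 2 ≤ N := by
      linarith [mul_le_mul_of_nonneg_left τ1 (show 0 ≤ θ * τ ^ 3 by positivity)]
    have w1 := cb47 N0.le a10 (sq_nonneg τ) h1 (by linarith)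
    have w2 := sq47 θ0 N0.le a20 (sq_nonneg τ) h2 t4
    have w3 := cb47 N0.le a10 γ0 h1 γ2
    have w4 := sq47 θ0 N0.le a20 γ0 h2 γ3
    have w5 : θ * γ * τ * τ ≤ N := (mul_le_of_le_one_right (by positivity) τ1).trans τ4
    have c2 : C ≤ C ^ 3 := le_self_pow₀ C1 three_ne_zero
    have c3 : C ^ 2 ≤ C ^ 3 := pow_le_pow_right₀ C1 (by norm_num)
    calc _ ≤ (3 * (a1 + a2) + C * θ * (2 * C * τ + γ)) * (2 * C * τ ^ 2 + 2 * γ) :=
          mul_le_mul (by linarith) u2 (by positivity) (by positivity)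
      _ = 6 * C * (a1 * τ ^ 2 + a2 * τ ^ 2) + 6 * (a1 * γ + a2 * γ) + 4 * C ^ 3 * (θ * τ ^ 3) +
          4 * C ^ 2 * (θ * γ * τ) + 2 * C ^ 2 * (θ * γ * τ * τ) + 2 * C * (θ * γ ^ 2) := by ring
      _ ≤ 6 * C ^ 3 * (5 * N + 5 * N) + 6 * C ^ 3 * (5 * N + 5 * N) + 4 * C ^ 3 * N +
          4 * C ^ 3 * N + 2 * C ^ 3 * N + 2 * C ^ 3 * N := by
          have : 6 * (a1 * γ + a2 * γ) ≤ 6 * C ^ 3 * (5 * N + 5 * N) := by
            linarith [mul_le_mul_of_nonneg_right (C1.trans c2) N0.le]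
          gcongr
      _ = 132 * C ^ 3 * N := by ring
      _ ≤ (64 * C) ^ 3 * N := mul_le_mul_of_nonneg_right (by linarith [pow_pos C0 3]) N0.le
      _ ≤ _ := by gcongr
  have qν : θ * ν ≤ L * q := by
    have : θ * ν ≤ q := (pow_le_pow_iff_left₀ (by positivity) q0.le two_ne_zero).1 (by
      rw [q2]
      calc (θ * ν) ^ 2 = θ * ν * (θ * ν) := by ring
        _ ≤ θ * N * (1 * 1) := by gcongr
        _ = _ := by ring)
    linarith [mul_le_mul_of_nonneg_right L64 q0.le]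
  obtain ⟨l1, l2⟩ := lg47 T0 e0 ν0 e2 qν ν3
  obtain ⟨l3, l4⟩ := lg47 T0 e0 ν0 e2 G1 ν3
  have s3 : St T b e (2 * C) (2 * δ) (L * q) Gm ≤ L ^ 5 * N := by
    have u1 : 16 * (L * q) ^ 2 / e * log (1 + e / 8 * T / (L * q)) ≤ 16 * (L ^ 4 * N) :=
      calc _ = 16 * (L ^ 2 * (θ * N)) * (1 / e) * log (1 + e / 8 * T / (L * q)) := by
            rw [← q2]; ring
        _ ≤ 16 * (L ^ 2 * (θ * N)) * (L / θ) * L := by gcongr
        _ = _ := by field_simp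
    have u2 : 128 * (2 * C) * Gm ^ 3 / e ^ 2 * log (1 + e / 8 * T / Gm) ≤ 4 * (L ^ 4 * N) :=
      calc _ = 256 * C * Gm ^ 3 * (1 / e) ^ 2 * log (1 + e / 8 * T / Gm) := by ring
        _ ≤ 256 * (L / 64) * (θ ^ 2 * N) * (L / θ) ^ 2 * L := by gcongr
        _ = _ := by field_simp; ring
    have u3 : Gm * (2 * δ) * T ≤ 2 * (L ^ 2 * N) :=
      calc _ ≤ L * (2 * N) * L := by gcongr; linarith
        _ = _ := by ring
    have : 64 * (L ^ 2 * N) ≤ L ^ 3 * N := pw 2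
    have : 64 * (L ^ 3 * N) ≤ L ^ 4 * N := pw 3
    have : 64 * (L ^ 4 * N) ≤ L ^ 5 * N := pw 4
    have : 0 ≤ L ^ 2 * N := by positivity
    refine (div_le_self (by positivity) b1).trans (by linarith)
  have s4 : (θ' * E / L + L ^ 2 * N) * log (1 + T / ν) ≤ θ' * E + L ^ 3 * N :=
    calc _ ≤ (θ' * E / L + L ^ 2 * N) * L := by gcongr
      _ = _ := by field_simp
  have : 64 * (L ^ 2 * N) ≤ L ^ 3 * N := pw 2
  have : 64 * (L ^ 3 * N) ≤ L ^ 4 * N := pw 3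
  have : 64 * (L ^ 4 * N) ≤ L ^ 5 * N := pw 4
  have : 64 * (L ^ 5 * N) ≤ L ^ 6 * N := pw 5
  have : 0 ≤ L ^ 2 * N := by positivity
  unfold Md3.Er
  linarith

/-- **the middle zone as a segment** -/
theorem TM.seg (A : At S M m a T)
    (h : TM S M m a T L x N ν τ γ y Gm Rs e t0 βs v0 v w) {c C' : ℝ}
    (F : Fr T c C' (okT T) (lvr 1) Pr.Gam Pr.GG) {θ' A0 E : ℝ} (hθ : 1 ≤ L * θ')
    (hA0 : 0 ≤ A0) (hA : A0 ≤ ys S M m a v)
    (hE : ∫ t in A0..T, Jf T (lvr 1 (lh M T)) (lvr 1 (lb M S m a T)) t ^ 2 ≤ E) :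
    ∃ Z, e / M.b * (∫ t in (ys S M m a v)..(sb M m a (w + 1)),
        |t - M.s S.Jp| * Mid.ff (lb M S m a T) (lh M T) (M.s S.Jp) t) ≤ Z ∧
      Seg T (fun t => lvr 1 (lb M S m a T) t - lvr 1 (lh M T) t)
        (fun t => Pr.Gam (lb M S m a T) t - Pr.Gam (lh M T) t)
        (resN (lb M S m a T) M.b (sb M m a) (hb M) (v0 + 1)) βs (ys S M m a v)
        (sb M m a (w + 1)) (9 * θ' * E + L ^ 6 * N + 3 / 16 * Z) Z := by
  have H := h.md3 A hθ hA0 hA hE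
  have C1 := A.cl.C1
  have c0 := A.c_pos
  have vp := v_pos A.cl
  have L64 : 64 ≤ L := by linarith [h.L1]
  have θ0 : 0 < S.θ := A.ms_pos zero_le_one
  obtain ⟨b1, b2⟩ := A.b_mem
  obtain ⟨ν0, ν1, ν2, ν3, ν4⟩ := h.ν0
  have N0 : 0 < N := by linarith
  have x0 : 0 < x := lt_of_lt_of_le (by positivity) h.x0.1
  have θp : 0 < θ' := pos47 (one_pos.trans_le hθ) (by linarith)
  have T0 : 0 ≤ T := (s_nn A.cl _).trans A.t2
  have E0 : 0 ≤ E := (intervalIntegral.integral_nonneg (by linarith [H.sM, H.MT])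
    fun _ _ => sq_nonneg _).trans hE
  have R0 := H.nn.2.1
  obtain ⟨a1, a2, p1, p2, p3, p4, p5⟩ : ∃ a1 a2 : ℝ, 0 ≤ a1 ∧ 0 < a2 ∧ a1 ^ 3 ≤ 125 * N ^ 2 ∧
      a2 ^ 2 ≤ 25 * (S.θ * N) ∧ 5 * x ≤ a1 + a2 := by
    rcases h.x0.2 with u | u | u
    · linarith
    · exact ⟨0, 5 * x, le_rfl, by positivity, by linarith [sq_nonneg N], by linarith, by linarith⟩
    · refine ⟨5 * x, S.θ * ν, by positivity, by positivity, by linarith, ?_,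
        le_add_of_nonneg_right (by positivity)⟩
      calc (S.θ * ν) ^ 2 = 1 * (S.θ * ν) * (S.θ * ν) := by ring
        _ ≤ 25 * (S.θ * N) * (1 * 1) := by gcongr; norm_num; exact h.θ1
        _ = _ := by ring
  have h3 : (4 * a1) ^ 3 ≤ θ' * (L ^ 2 * N) ^ 2 :=
    calc (4 * a1) ^ 3 = 64 * a1 ^ 3 := by ring
      _ ≤ 64 * (125 * N ^ 2) := by gcongr
      _ ≤ 64 ^ 3 * 1 * N ^ 2 := by linarith [sq_nonneg N]
      _ ≤ L ^ 3 * (L * θ') * N ^ 2 := by gcongr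
      _ = _ := by ring
  have ha : x + 1 / (m + 1) + (x + Rs) / M.b + βs ≤ a1 + a2 := by
    have := div_le_self (show 0 ≤ x + Rs by linarith) b1
    linarith [h.x0.1, h.R0.2, h.β0.2]
  obtain ⟨Z, z1, z2⟩ := H.seg F h.β0.1 p1 p2 θp (by positivity) ha h3 hA0 hA hE
  have eθ : e ≤ S.θ := h.e1.2.2.trans ((div_le_self (A.ms_pos h.t0.1).le C1).trans (A.cl.ms1 _))
  have := er47 (θ' := θ') (E := E) (η := x + 1 / (m + 1)) C1 h.L1 T0 h.T1 b1 b2 θ0 h.θ1 θp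
    H.nn.2.2.2.1 h.e1.1 eθ ν0 ν1 ν2 ν3 (by positivity) ν4 E0 x0.le (by linarith [h.x0.1]) R0
    h.R0.2 (by linarith [H.σσ, H.spr]) h.γ0.2.2.1 h.γ0.2.2.2 H.nn.2.2.1 h.τ0.2.1 h.τ0.2.2.1
    h.τ0.2.2.2.1 h.τ0.2.2.2.2 h.cn.2.2.1 h.cn.2.2.2.1 h.cn.2.2.2.2.1
    (q := √(S.θ * N)) (by positivity) (sq_sqrt (by positivity)) p1 p2.le p3 p4 p5
  exact ⟨Z, z1, z2.mono (by linarith)⟩

end Crest.Agent.T156.Alt.Mp9

end

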