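import Crest.Agent.T156.SzD_9

/-!
# Row 156, block (L): the bulk sums above a level (helper9)
-/

set_option autoImplicit false

noncomputable section

namespace Crest.Agent.T156.Alt.Sz9

open Real Finset
open Crest.Agent.T156.Alt.E61 Crest.Agent.T156.Alt.Mp9

/-- bulk nodes above the level `t` -/
def Bu (S : Sc) (M : Md) (t : ℝ) : Finset ℕ := (Bk S M).filter fun k => t ≤ M.s k

/-- numbers of the bulk sums above the level `l0` -/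
structure SN' (E : ℝ) (S : Sc) (M : Md) (m : ℕ) (a l0 X X2 X3 : ℝ) (cf Y3 : ℝ → ℝ) : Prop where
  phi : M.En S m a M.q 2 0 S.C ≤ X
  X0 : 0 < X
  X1 : E * X ≤ 1
  x2b : ∀ t, l0 ≤ t → t ≤ S.C → min (t * cf t ^ 2) (t * wc S cf t ^ 2 +
    (t * wc S cf t ^ 2) ^ ((3 : ℝ) / 7) * min X (cf t ^ 3) ^ ((4 : ℝ) / 7)) ≤ X2
  x3b : ∀ t, l0 ≤ t → t ≤ S.C → min 1 (cf t) * min (t * cf t ^ 3) (t * wc S cf t ^ 3 +
    (t * wc S cf t ^ 3) ^ ((1 : ℝ) / 7) * (wc S cf t * min X (cf t ^ 3)) ^ ((6 : ℝ) / 7)) ≤ X3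
  y3 : ∀ t t', l0 ≤ t → t ≤ t' → t' ≤ S.C → t' * wc S cf t' ^ 3 +
    (t' * wc S cf t' ^ 3) ^ ((1 : ℝ) / 7) * (wc S cf t' * min X (cf t' ^ 3)) ^ ((6 : ℝ) / 7) ≤ Y3 t

/-- **(a), (d)** bulk sums above the level `l0` (below it use `SzL`) -/
def SzB' : Prop := CL fun E Λ S M m a => ∀ l0 X X2 X3 cf Y3, Cf E S M m a l0 cf →
  SN' E S M m a l0 X X2 X3 cf Y3 →
    ∑ k ∈ Bu S M l0, M.dz m a k * u4 M m a k ^ 2 ≤ Λ * X2 ∧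
    ∑ k ∈ Bu S M l0, M.dz m a k * (min 1 (cf (max (M.z k) l0)) * u4 M m a k ^ 3) ≤ Λ * X3 ∧
    ∀ t, l0 ≤ t → t ≤ S.C → ∑ k ∈ Bu S M t, M.dz m a k * u4 M m a k ^ 3 ≤ Λ * Y3 t

end Crest.Agent.T156.Alt.Sz9

end
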