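import Crest.Agent.T156.ClSz_61
import Crest.Agent.T156.SzE_9

/-!
# Row 156, block (L) (helper61): the bulk sums of the powers of the centred overlap
-/

set_option autoImplicit false
set_option linter.unusedSectionVars false

noncomputable section

namespace Crest.Agent.T156.Alt.Sz9.B61

open Real Finset Filter
open Crest.Agent.T156.Alt.E61 Crest.Agent.T156.Alt.Md67 Crest.Agent.T156.Alt.C33
open Crest.Agent.T156.Alt.QS98 Crest.Agent.T156.Env96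

variable {S : Sc} {M : Md} {m : ℕ} {a lam E l0 X : ℝ} {cf : ℝ → ℝ} {p : ℕ}

/-- the dyadic block -/
def bl (S : Sc) (M : Md) (p : ℕ) : Finset ℕ := (Bk S M).filter fun k => p ≤ k ∧ k < 2 * p

theorem mem_bl {k : ℕ} (h : k ∈ bl S M p) : k < M.N ∧ k + k / 3 < S.J ∧ p ≤ k ∧ k < 2 * p := by
  simpa only [bl, Bk, mem_filter, mem_range, and_assoc] using h

/-- geometry of the dyadic block -/
theorem geo (F : Fn S M m a) (h8 : 8 * S.jl ≤ p) (hJ : p + p / 3 < S.J)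
    (hw : S.w3 (M.s p) ≤ M.s p ^ 3) {k1 : ℕ} (e : k1 = min (3 * p) (S.J - S.J / 8)) :
    QB (9 * S.C ^ 3) S M (M.s p) (p - p / 2) k1 ∧
      (∀ j ∈ bl S M p, Inn (9 * S.C ^ 3) S (M.s p) (p - p / 2) k1 j) ∧
      M.s k1 ≤ 3 * S.C ^ 2 * M.s p ∧ S.v ≤ S.C * M.s p := by
  have C1 := F.C1
  have C0 := F.C0
  have v0 := F.v0
  have i0 := F.i0
  have i1 := F.i1
  have i3 := F.i3
  have c2 : S.C ^ 2 ≤ S.C ^ 3 := pow_le_pow_right₀ C1 (by norm_num)
  have c1 : S.C ≤ S.C ^ 3 := le_self_pow₀ C1 (by norm_num)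
  obtain ⟨a1, a2⟩ := F.s_mem (k := p) (by omega)
  obtain ⟨b1, -⟩ := F.s_mem (k := p - p / 2) (by omega)
  obtain ⟨-, b2⟩ := F.s_mem (k := k1) (by omega)
  have e1 : (p : ℝ) ≤ 2 * ((p - p / 2 : ℕ) : ℝ) := by exact_mod_cast (by omega : p ≤ 2 * (p - p / 2))
  have e2 : (k1 : ℝ) ≤ 3 * p := by exact_mod_cast (by omega : k1 ≤ 3 * p)
  have e3 : (1 : ℝ) ≤ p := by exact_mod_cast (by omega : 1 ≤ p)
  have s0 := F.s_nonneg (p - p / 2)
  have s1 : 0 < M.s p := F.toCl.s_pos (by omega)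
  have inn : ∀ i j : ℕ, i ≤ j → p ≤ 6 * (j - i) → M.s p / (9 * S.C ^ 3) ≤ ((j : ℝ) - i) * S.v :=
    fun i j h1 h2 => by
      have h3 : (p : ℝ) ≤ 6 * ((j : ℝ) - i) := by rw [← Nat.cast_sub h1]; exact_mod_cast h2
      have h4 : (0 : ℝ) ≤ (j : ℝ) - i := by linarith
      rw [div_le_iff₀ (by positivity)]
      calc _ ≤ S.C ^ 3 * (9 * ((j : ℝ) - i) * S.v) := a2.trans (by gcongr; linarith)
        _ = _ := by ring
  refine ⟨⟨s1, by omega, by omega, by omega, ?_, ?_, hw⟩, fun j hj => ?_, ?_, ?_⟩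
  · calc _ ≤ S.C * (2 * ((p - p / 2 : ℕ) : ℝ) * S.v) := a2.trans (by gcongr)
      _ = 2 * S.C * (((p - p / 2 : ℕ) : ℝ) * S.v) := by ring
      _ ≤ 2 * S.C * (S.C * M.s (p - p / 2)) := by gcongr _ * ?_
      _ ≤ _ := by nlinarith [mul_le_mul_of_nonneg_right c2 s0, mul_nonneg (pow_pos C0 3).le s0]
  · calc _ ≤ 3 * S.C ^ 2 * (3 * p * S.v) := (F.z_hi (by omega) (by omega)).trans (by gcongr)
      _ = 9 * S.C ^ 2 * (p * S.v) := by ring
      _ ≤ 9 * S.C ^ 2 * (S.C * M.s p) := by gcongr _ * ?_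
      _ = _ := by ring
  · have := mem_bl hj
    exact ⟨inn _ _ (by omega) (by omega), inn _ _ (by omega) (by omega)⟩
  · calc _ ≤ S.C * (3 * p * S.v) := b2.trans (by gcongr)
      _ = 3 * S.C * (p * S.v) := by ring
      _ ≤ 3 * S.C * (S.C * M.s p) := by gcongr _ * ?_
      _ = _ := by ring
  · exact (le_mul_of_one_le_left v0.le e3).trans a1

theorem v_le_w (F : Fn S M m a) {t : ℝ} (t0 : 0 < t) (t1 : t ≤ S.C) : S.v ≤ S.C ^ 2 * w1 S t := by
  have w0 := F.w3_pos t0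
  have n1 := F.n1
  have v0 := F.v0
  have C0 := F.C0
  refine le_of_pow_le_pow_left₀ three_ne_zero (by unfold w1; positivity) ?_
  rw [mul_pow, w1, rp3 w0.le]
  have a1 : 1 ≤ S.w3 t * (S.n * S.C) := (w3_ge F t0).trans (by gcongr)
  have a2 : S.v ≤ S.C := (le_mul_of_one_le_right v0.le n1).trans F.vn
  calc _ ≤ S.v ^ 3 * (S.w3 t * (S.n * S.C)) := le_mul_of_one_le_right (by positivity) a1
    _ = S.v ^ 2 * (S.v * S.n) * S.C * S.w3 t := by ring
    _ ≤ S.C ^ 2 * S.C * S.C * S.w3 t := by have := F.vn; gcongr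
    _ = S.C ^ 4 * S.w3 t := by ring
    _ ≤ _ := by rw [← pow_mul]; gcongr; exacts [F.C1, by norm_num]

section blk

variable (K : Kx lam S M m a) (H : Cf E S M m a l0 cf) (hE : 8 * S.C ^ 2 ≤ E)
  (hp : l0 ≤ M.s p) (hJ : p + p / 3 < S.J)
include K H hE hp hJ

theorem z_bl {k : ℕ} (hk : k ∈ bl S M p) : M.z k ≤ 9 * S.C ^ 3 * M.s p := by
  have h8 := H.idx K.fn hE hp (by omega)
  obtain ⟨B, I, -⟩ := geo K.fn h8 hJ (H.wt K.fn hE hp) rfl
  have := mem_bl hk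
  exact (K.fn.leg.zm (by omega)).trans B.hi

/-- crude block sums -/
theorem blk_cru (i : ℕ) : ∑ k ∈ bl S M p, M.dz m a k * u4 M m a k ^ i ≤
    9 * S.C ^ 3 * (18 * S.C ^ 3 * lam) ^ i * (M.s p * cf (M.s p) ^ i) := by
  have F := K.fn
  have h8 := H.idx F hE hp (by omega)
  obtain ⟨B, I, -⟩ := geo F h8 hJ (H.wt F hE hp) rfl
  have C0 := F.C0
  have l2 := K.l2
  have c0 := B.t0.trans_le (H.ge _ hp)
  have i0 := F.i0.trans F.i1
  calc _ ≤ ∑ k ∈ bl S M p, M.dz m a k * (18 * S.C ^ 3 * lam * cf (M.s p)) ^ i :=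
        sum_le_sum fun k hk => mul_le_mul_of_nonneg_left (pow_le_pow_left₀ (u4_nn k)
          ((K.cru H hE hp K.K1 (mem_bl hk).1.le (z_bl K H hE hp hJ hk)).trans_eq (by ring)) i)
          (F.lg.dz_nonneg k)
    _ ≤ 9 * S.C ^ 3 * M.s p * (18 * S.C ^ 3 * lam * cf (M.s p)) ^ i := by
        rw [← sum_mul]
        refine mul_le_mul_of_nonneg_right ((sum_le_sum_of_subset_of_nonneg
          (t := Ioc (p - p / 2) (min (3 * p) (S.J - S.J / 8))) (fun j hj => by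
            have := mem_bl hj; exact mem_Ioc.2 ⟨by omega, by omega⟩)
          fun i _ _ => F.lg.dz_nonneg i).trans ?_) (by positivity)
        rw [sum_dz F.leg B.k01]
        linarith [B.hi, F.z_pos (p - p / 2)]
    _ = _ := by rw [mul_pow _ (cf _)]; ring

/-- block sums with the first slope `y ^ 3` times the crude one; `R` is the location -/
theorem blk_y (phi : M.En S m a M.q 2 0 S.C ≤ X) (X1 : X ≤ 1) {R y : ℝ} (R0 : 0 ≤ R)
    (hR : R ^ 3 = min X (cf (M.s p) ^ 3)) (y1 : 1 ≤ y) :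
    ∑ k ∈ bl S M p, M.dz m a k * u4 M m a k ^ 2 ≤ 30000 * S.C ^ 5 * lam ^ 2 *
      (M.s p * (2 * wc S cf (M.s p) * y ^ 2) ^ 2 + 11000 * S.C ^ 9 * max R S.v ^ 3 / y ^ 3) ∧
    ∑ k ∈ bl S M p, M.dz m a k * u4 M m a k ^ 3 ≤ 700000 * S.C ^ 6 * lam ^ 3 *
      (M.s p * (2 * wc S cf (M.s p) * y ^ 2) ^ 3 + 2 * wc S cf (M.s p) * y ^ 2 *
        (11000 * S.C ^ 9 * max R S.v ^ 3 / y ^ 3)) ∧
    ∑ k ∈ bl S M p, M.dz m a k * u4 M m a k ^ 4 ≤ 20000000 * S.C ^ 7 * lam ^ 4 *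
      (M.s p * (2 * wc S cf (M.s p) * y ^ 2) ^ 4 + 2 * wc S cf (M.s p) * y ^ 2 *
        √(2 * wc S cf (M.s p) * y ^ 2 * (20 * S.C ^ 3 * max R S.v)) *
        (11000 * S.C ^ 9 * max R S.v ^ 3 / y ^ 3)) := by
  have F := K.fn
  have h := F.toCl
  have h8 := H.idx F hE hp (by omega)
  obtain ⟨B, I, sk, -⟩ := geo F h8 hJ (H.wt F hE hp) rfl
  have C0 := F.C0
  have C1 := F.C1
  have v0 := F.v0
  have l2 := K.l2
  have t0 := B.t0
  have ge := H.ge _ hp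
  have c0 := t0.trans_le ge
  have i0 := F.i0
  have i1 := F.i1
  have i3 := F.i3
  have i4 := F.i4
  have w0 := F.w3_pos t0
  have r1 : 1 ≤ cf (M.s p) / M.s p := (one_le_div t0).2 ge
  have y3 : 1 ≤ y ^ 3 := one_le_pow₀ y1
  have c : ∀ {i j : ℕ}, i ≤ j → S.C ^ i ≤ S.C ^ j := fun e => pow_le_pow_right₀ C1 e
  have kk : 3 * p ≥ min (3 * p) (S.J - S.J / 8) ∧ S.J - S.J / 8 ≥ min (3 * p) (S.J - S.J / 8) :=
    ⟨min_le_left _ _, min_le_right _ _⟩
  generalize min (3 * p) (S.J - S.J / 8) = k1 at *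
  have k01 := B.k01
  have mR := le_max_left R S.v
  have mv := le_max_right R S.v
  have cr : ∀ i, i ≤ k1 → |M.del m a i| ≤ 18 * S.C ^ 3 * cf (M.s p) := fun i a2 => by
    have b1 := (H.cru i (by omega)).trans (H.le F hE hp (le_max_right _ _) (max_le
      ((F.leg.zm a2).trans B.hi) (hp.trans (le_mul_of_one_le_left t0.le K.K1))) K.K1)
    have b2 := (h.q_le_s (k := i) (by omega)).trans ((F.sm a2).trans sk)
    have b3 := h.q_nn (k := i) (by omega)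
    have b4 := rb_nonneg (M := M) (a := a) F.lg.m0 i
    have b5 : S.C ^ 2 * M.s p ≤ S.C ^ 3 * cf (M.s p) := by
      have := c (show 2 ≤ 3 by norm_num); gcongr
    have b6 : 0 ≤ S.C ^ 3 * cf (M.s p) := by positivity
    unfold Md.del
    exact abs_le.2 ⟨by linarith, by linarith⟩
  have key : (∀ i, p - p / 2 ≤ i → i ≤ k1 → |M.del m a i| ≤ 20 * S.C ^ 3 * max R S.v) ∧
      ∑ i ∈ Icc (p - p / 2) k1, M.dz m a i * M.del m a i ^ 2 ≤ 2916 * S.C ^ 9 * R ^ 3 := by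
    have sub : Icc (p - p / 2) k1 ⊆ Ioc S.j0 k1 := fun j hj => by
      have := mem_Icc.1 hj; exact mem_Ioc.2 ⟨by omega, by omega⟩
    rcases min_choice X (cf (M.s p) ^ 3) with e | e <;> rw [e] at hR
    · rw [Ap63.En_eq h, ← hR] at phi
      have R1 : R ≤ 1 := le_of_pow_le_pow_left₀ three_ne_zero zero_le_one (by rw [hR]; linarith)
      refine ⟨fun i a1 a2 => (del_le F R0 R1 phi (by omega) (by omega)).trans ?_, ?_⟩
      · have b1 : S.C ^ 2 * R ≤ S.C ^ 3 * max R S.v := by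
          have := c (show 2 ≤ 3 by norm_num); gcongr
        have b2 : S.C * S.v ≤ S.C ^ 3 * max R S.v := by
          have := le_self_pow₀ C1 three_ne_zero; gcongr
        have b3 : 0 ≤ S.C ^ 3 * max R S.v := by positivity
        linarith
      · rw [Ap63.Sx_two] at phi
        refine le_trans (le_trans ?_ phi) (le_mul_of_one_le_left (by positivity)
          (by linarith [one_le_pow₀ (n := 9) C1]))
        refine le_trans (le_of_eq (sum_congr rfl fun j hj => ?_)) (sum_le_sum_of_subset_of_nonneg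
          (sub.trans (Ioc_subset_Ioc_right (by omega))) fun j _ _ =>
            mul_nonneg (Ap63.w_nn F.leg.zm j) (sq_nonneg _))
        rw [dz_up F.leg (by have := (mem_Icc.1 hj).1; omega)]; rfl
    · have e' : R = cf (M.s p) := (pow_left_inj₀ R0 c0.le three_ne_zero).1 hR
      rw [← e'] at cr ge
      refine ⟨fun i _ a2 => (cr i a2).trans (by gcongr; norm_num), ?_⟩
      calc _ ≤ ∑ i ∈ Icc (p - p / 2) k1, M.dz m a i * (18 * S.C ^ 3 * R) ^ 2 :=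
            sum_le_sum fun i hi => mul_le_mul_of_nonneg_left (by
              rw [← sq_abs]; exact pow_le_pow_left₀ (abs_nonneg _) (cr i (mem_Icc.1 hi).2) 2)
              (F.lg.dz_nonneg i)
        _ ≤ 9 * S.C ^ 3 * R * (18 * S.C ^ 3 * R) ^ 2 := by
            rw [← sum_mul]
            refine mul_le_mul_of_nonneg_right ((sum_le_sum_of_subset_of_nonneg sub
              fun i _ _ => F.lg.dz_nonneg i).trans ?_) (by positivity)
            rw [sum_dz F.leg (by omega)]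
            have : 9 * S.C ^ 3 * M.s p ≤ 9 * S.C ^ 3 * R := by gcongr
            linarith [B.hi, F.z_pos S.j0]
        _ = _ := by ring
  have wc0 : 0 < wc S cf (M.s p) := by unfold wc; positivity
  obtain ⟨r2, r3, r4⟩ := K.blk (κ := 2 * (cf (M.s p) / M.s p * y ^ 3))
    (α := 2 * wc S cf (M.s p) * y ^ 2) (Y := 11000 * S.C ^ 9 * max R S.v ^ 3) B (by omega)
    (by omega) _ I (H.crude F hE hp (by
      rw [mul_right_comm, div_mul_cancel₀ _ t0.ne']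
      exact le_mul_of_one_le_right c0.le y3) _) (by positivity) (by
      rw [wc, mul_pow, mul_pow, mul_pow, mul_pow, mul_pow, rp3 w0.le]
      have a1 : (cf (M.s p) / M.s p) ^ 2 ≤ (cf (M.s p) / M.s p) ^ 3 :=
        pow_le_pow_right₀ r1 (by norm_num)
      have a2 : 0 ≤ S.w3 (M.s p) * y ^ 6 := by positivity
      have a3 : 0 ≤ (cf (M.s p) / M.s p) ^ 3 * (S.w3 (M.s p) * y ^ 6) := by positivity
      nlinarith [mul_le_mul_of_nonneg_right a1 a2]) key.1 (by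
      have a1 : S.C ^ 9 * R ^ 3 ≤ S.C ^ 9 * max R S.v ^ 3 := by gcongr
      have a2 : 0 ≤ S.C ^ 9 * max R S.v ^ 3 := by positivity
      nlinarith [key.2])
  have q : 11000 * S.C ^ 9 * max R S.v ^ 3 / (2 * (cf (M.s p) / M.s p * y ^ 3)) ≤
      11000 * S.C ^ 9 * max R S.v ^ 3 / y ^ 3 :=
    div_le_div_of_nonneg_left (by positivity) (by positivity) (by nlinarith)
  exact ⟨r2.trans (by gcongr), r3.trans (by gcongr), r4.trans (by gcongr)⟩

theorem v_le : S.v ≤ S.C ^ 2 * wc S cf (M.s p) ∧ S.v ^ 3 ≤ S.C ^ 5 * (M.s p * wc S cf (M.s p) ^ 2) := by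
  have F := K.fn
  have h8 := H.idx F hE hp (by omega)
  obtain ⟨B, -, -, vt⟩ := geo F h8 hJ (H.wt F hE hp) rfl
  have C0 := F.C0
  have v0 := F.v0
  have t0 := B.t0
  have w0 := F.w3_pos t0
  have a1 : S.v ≤ S.C ^ 2 * wc S cf (M.s p) :=
    (v_le_w F t0 (F.toCl.s_le_C (by have := F.i3; omega))).trans (mul_le_mul_of_nonneg_left
      (le_mul_of_one_le_left (by unfold w1; positivity) ((one_le_div t0).2 (H.ge _ hp)))
      (by positivity))
  refine ⟨a1, ?_⟩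
  calc _ = S.v * S.v ^ 2 := by ring
    _ ≤ S.C * M.s p * (S.C ^ 2 * wc S cf (M.s p)) ^ 2 := by gcongr
    _ = _ := by ring

theorem wc_pos : 0 < M.s p ∧ 0 < cf (M.s p) ∧ 0 < wc S cf (M.s p) := by
  have t0 := (H.pos K.fn hE).trans_le hp
  have c0 := t0.trans_le (H.ge _ hp)
  have w0 := K.fn.w3_pos t0
  exact ⟨t0, c0, by unfold wc; positivity⟩

/-- **block sums**, closed forms -/
theorem blk_opt (phi : M.En S m a M.q 2 0 S.C ≤ X) (X0 : 0 < X) (X1 : X ≤ 1) {t w Y : ℝ}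
    (et : t = M.s p) (ew : w = wc S cf t) (eY : Y = min X (cf t ^ 3)) :
    ∑ k ∈ bl S M p, M.dz m a k * u4 M m a k ^ 2 ≤ 10 ^ 13 * S.C ^ 24 * lam ^ 2 *
      min (t * cf t ^ 2) (t * w ^ 2 + (t * w ^ 2) ^ ((3 : ℝ) / 7) * Y ^ ((4 : ℝ) / 7)) ∧
    ∑ k ∈ bl S M p, M.dz m a k * u4 M m a k ^ 3 ≤ 10 ^ 13 * S.C ^ 24 * lam ^ 3 *
      min (t * cf t ^ 3) (t * w ^ 3 + (t * w ^ 3) ^ ((1 : ℝ) / 7) * (w * Y) ^ ((6 : ℝ) / 7)) ∧
    ∑ k ∈ bl S M p, M.dz m a k * u4 M m a k ^ 4 ≤ 10 ^ 13 * S.C ^ 24 * lam ^ 4 *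
      (t * w ^ 4 + w ^ ((3 : ℝ) / 2) * Y ^ ((7 : ℝ) / 6)) := by
  obtain ⟨t0, c0, w0⟩ := wc_pos K H hE hp hJ
  obtain ⟨v1, v3⟩ := v_le K H hE hp hJ
  have cr := blk_cru K H hE hp hJ
  have Y0 : 0 ≤ Y := by rw [eY, et]; positivity
  have by' := fun y => blk_y (y := y) K H hE hp hJ phi X1 (R := Y ^ ((1 : ℝ) / 3)) (by positivity)
    (by rw [rp3 Y0, eY, et])
  rw [← et] at *
  rw [← ew] at *
  have C1 := K.fn.C1
  have C0 := K.fn.C0
  have v0 := K.fn.v0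
  have l2 := K.l2
  have c : ∀ {i j : ℕ}, i ≤ j → S.C ^ i ≤ S.C ^ j := fun e => pow_le_pow_right₀ C1 e
  have c5 : 1 ≤ S.C ^ 5 := one_le_pow₀ C1
  have mx : max (Y ^ ((1 : ℝ) / 3)) S.v ^ 3 ≤ S.C ^ 5 * (Y + t * w ^ 2) := by
    have : 0 ≤ S.C ^ 5 * (t * w ^ 2) := by positivity
    have := le_mul_of_one_le_left Y0 c5
    rcases max_choice (Y ^ ((1 : ℝ) / 3)) S.v with e | e <;> rw [e]
    · rw [rp3 Y0]; linarith
    · linarith
  refine ⟨?_, ?_, (by' 1 le_rfl).2.2.trans ?_⟩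
  · rw [mul_min_of_nonneg _ _ (by positivity)]
    refine le_min ((cr 2).trans ?_) ?_
    · rw [show 9 * S.C ^ 3 * (18 * S.C ^ 3 * lam) ^ 2 = 2916 * S.C ^ 9 * lam ^ 2 by ring]
      gcongr <;> norm_num
    obtain ⟨y, y1, hy⟩ := opt2 (A := t * w ^ 2) (r := 3 / 7) (s := 4 / 7) (by positivity) Y0 4 3
      (by norm_num) (by norm_num) (by norm_num)
    refine (by' y y1).1.trans ?_
    have y0 : 0 < y := by linarith
    have a1 : t * w ^ 2 / y ^ 3 ≤ t * w ^ 2 * y ^ 4 :=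
      (div_le_self (by positivity) (one_le_pow₀ y1)).trans
        (le_mul_of_one_le_right (by positivity) (one_le_pow₀ y1))
    have a2 : 0 ≤ t * w ^ 2 * y ^ 4 := by positivity
    have a3 : 0 ≤ Y / y ^ 3 := by positivity
    calc _ ≤ 30000 * S.C ^ 5 * lam ^ 2 * (S.C ^ 14 * (t * (2 * w * y ^ 2) ^ 2) +
          11000 * S.C ^ 9 * (S.C ^ 5 * (Y + t * w ^ 2)) / y ^ 3) := by
          gcongr _ * (?_ + ?_)
          · exact le_mul_of_one_le_left (by positivity) (one_le_pow₀ C1)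
          · gcongr
      _ = 30000 * S.C ^ 19 * lam ^ 2 *
          (4 * (t * w ^ 2 * y ^ 4) + 11000 * (Y / y ^ 3) + 11000 * (t * w ^ 2 / y ^ 3)) := by ring
      _ ≤ 30000 * S.C ^ 24 * lam ^ 2 * (11004 * (2 * (t * w ^ 2 +
          (t * w ^ 2) ^ ((3 : ℝ) / 7) * Y ^ ((4 : ℝ) / 7)))) := by
          gcongr ?_ * ?_
          · gcongr; norm_num
          · linarith
      _ ≤ _ := by
          have : 0 ≤ S.C ^ 24 * lam ^ 2 * (t * w ^ 2 +
            (t * w ^ 2) ^ ((3 : ℝ) / 7) * Y ^ ((4 : ℝ) / 7)) := by positivity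
          linarith
  · rw [mul_min_of_nonneg _ _ (by positivity)]
    refine le_min ((cr 3).trans ?_) ?_
    · rw [show 9 * S.C ^ 3 * (18 * S.C ^ 3 * lam) ^ 3 = 52488 * S.C ^ 12 * lam ^ 3 by ring]
      gcongr <;> norm_num
    obtain ⟨y, y1, hy⟩ := opt2 (A := t * w ^ 3) (B := w * Y) (r := 1 / 7) (s := 6 / 7)
      (by positivity) (by positivity) 6 1 (by norm_num) (by norm_num) (by norm_num)
    refine (by' y y1).2.1.trans ?_
    rw [pow_one] at hy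
    have y0 : 0 < y := by linarith
    have a1 : t * w ^ 3 / y ≤ t * w ^ 3 * y ^ 6 :=
      (div_le_self (by positivity) y1).trans
        (le_mul_of_one_le_right (by positivity) (one_le_pow₀ y1))
    have a2 : 0 ≤ t * w ^ 3 * y ^ 6 := by positivity
    have a3 : 0 ≤ w * Y / y := by positivity
    calc _ ≤ 700000 * S.C ^ 6 * lam ^ 3 * (S.C ^ 14 * (t * (2 * w * y ^ 2) ^ 3) +
          2 * w * y ^ 2 * (11000 * S.C ^ 9 * (S.C ^ 5 * (Y + t * w ^ 2)) / y ^ 3)) := by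
          gcongr _ * (?_ + ?_)
          · exact le_mul_of_one_le_left (by positivity) (one_le_pow₀ C1)
          · gcongr
      _ = 700000 * S.C ^ 20 * lam ^ 3 *
          (8 * (t * w ^ 3 * y ^ 6) + 22000 * (w * Y / y) + 22000 * (t * w ^ 3 / y)) := by
          field_simp; ring
      _ ≤ 700000 * S.C ^ 24 * lam ^ 3 * (22008 * (2 * (t * w ^ 3 +
          (t * w ^ 3) ^ ((1 : ℝ) / 7) * (w * Y) ^ ((6 : ℝ) / 7)))) := by
          gcongr ?_ * ?_
          · gcongr; norm_num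
          · linarith
      _ ≤ _ := by
          have : 0 ≤ S.C ^ 24 * lam ^ 3 * (t * w ^ 3 +
            (t * w ^ 3) ^ ((1 : ℝ) / 7) * (w * Y) ^ ((6 : ℝ) / 7)) := by positivity
          linarith
  · simp only [one_pow, mul_one, div_one]
    set R := max (Y ^ ((1 : ℝ) / 3)) S.v with hR
    have R0 : 0 < R := v0.trans_le (le_max_right _ _)
    have a1 : √(2 * w * (20 * S.C ^ 3 * R)) ≤ 7 * S.C ^ 2 * √(w * R) := by
      refine sqrt_le_iff.2 ⟨by positivity, ?_⟩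
      rw [mul_pow, sq_sqrt (by positivity)]
      have : 0 ≤ S.C ^ 4 * (w * R) := by positivity
      nlinarith [mul_le_mul_of_nonneg_right (c (show 3 ≤ 4 by norm_num)) (mul_pos w0 R0).le]
    have a2 : w * √(w * R) * R ^ 3 ≤
        S.C ^ 6 * (t * w ^ 4 + w ^ ((3 : ℝ) / 2) * Y ^ ((7 : ℝ) / 6)) := by
      have p1 : 0 ≤ t * w ^ 4 := by positivity
      have p2 : 0 ≤ w ^ ((3 : ℝ) / 2) * Y ^ ((7 : ℝ) / 6) := by positivity
      rcases max_choice (Y ^ ((1 : ℝ) / 3)) S.v with e | e <;> rw [hR, e]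
      · refine le_trans (le_trans (le_of_eq ?_) (le_add_of_nonneg_left p1))
          (le_mul_of_one_le_left (by positivity) (one_le_pow₀ C1))
        rw [rp3 Y0, sqrt_eq_rpow, mul_rpow w0.le (by positivity), ← rpow_mul Y0,
          show (3 : ℝ) / 2 = 1 + 1 / 2 by norm_num, rpow_add w0, rpow_one,
          show (7 : ℝ) / 6 = 1 / 3 * (1 / 2) + 1 by norm_num, rpow_add_one' Y0 (by norm_num)]
        ring
      · have b1 : √(w * S.v) ≤ S.C * w :=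
          sqrt_le_iff.2 ⟨by positivity, by nlinarith [mul_le_mul_of_nonneg_left v1 w0.le]⟩
        calc _ ≤ w * (S.C * w) * (S.C ^ 5 * (t * w ^ 2)) := by gcongr
          _ = S.C ^ 6 * (t * w ^ 4) := by ring
          _ ≤ _ := by gcongr; linarith
    have p1 : 0 ≤ t * w ^ 4 := by positivity
    have p2 : 0 ≤ w ^ ((3 : ℝ) / 2) * Y ^ ((7 : ℝ) / 6) := by positivity
    calc _ ≤ 20000000 * S.C ^ 7 * lam ^ 4 * (S.C ^ 17 * (t * (2 * w) ^ 4) +
          2 * w * (7 * S.C ^ 2 * √(w * R)) * (11000 * S.C ^ 9 * R ^ 3)) := by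
          gcongr _ * (?_ + ?_)
          · exact le_mul_of_one_le_left (by positivity) (one_le_pow₀ C1)
          · gcongr
      _ = 20000000 * S.C ^ 18 * lam ^ 4 * (16 * (S.C ^ 6 * (t * w ^ 4)) +
          154000 * (w * √(w * R) * R ^ 3)) := by ring
      _ ≤ 20000000 * S.C ^ 18 * lam ^ 4 * (154016 * (S.C ^ 6 * (t * w ^ 4 +
          w ^ ((3 : ℝ) / 2) * Y ^ ((7 : ℝ) / 6)))) := by
          have : S.C ^ 6 * (t * w ^ 4) ≤ S.C ^ 6 * (t * w ^ 4 +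
            w ^ ((3 : ℝ) / 2) * Y ^ ((7 : ℝ) / 6)) := by gcongr; linarith
          gcongr ?_ * ?_
          linarith
      _ ≤ _ := by
          have : 0 ≤ S.C ^ 24 * lam ^ 4 * (t * w ^ 4 +
            w ^ ((3 : ℝ) / 2) * Y ^ ((7 : ℝ) / 6)) := by positivity
          linarith

end blk

/-- sums above a level from the dyadic blocks -/
theorem up_sum (K : Kx lam S M m a) {f : ℕ → ℝ} {t0 B : ℝ} (h0 : 0 < t0) (B0 : 0 ≤ B)
    (h : ∀ p, t0 ≤ M.s p → p + p / 3 < S.J → ∑ k ∈ bl S M p, f k ≤ B) :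
    ∑ k ∈ (Bk S M).filter fun k => t0 ≤ M.s k, f k ≤ lam * B := by
  have l2 := K.l2
  rcases ((Bk S M).filter fun k => t0 ≤ M.s k).eq_empty_or_nonempty with e | e
  · rw [e, sum_empty]; positivity
  obtain ⟨p0, m0, m2⟩ := exists_min_image _ id e
  have m1 := (mem_filter.1 m0).2
  refine (dyad _ (p0 := p0) (N := M.N) (B := B) (Nat.pos_of_ne_zero fun e => ?_)
    (fun k hk => ⟨m2 k hk, (mem_range.1 (mem_filter.1 (mem_filter.1 hk).1).1).le⟩)
    fun p hp => ?_).trans (mul_le_mul_of_nonneg_right K.lgN B0)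
  · rw [e, K.fn.s0] at m1; linarith
  · have s1 := m1.trans (K.fn.sm hp)
    rw [filter_filter, filter_congr (q := fun k => p ≤ k ∧ k < 2 * p) fun k _ =>
      ⟨fun e => e.2, fun e => ⟨s1.trans (K.fn.sm e.1), e⟩⟩]
    rcases lt_or_ge (p + p / 3) S.J with c | c
    · exact h p s1 c
    · rw [filter_false_of_mem fun k hk => by have := (mem_filter.1 hk).2; omega, sum_empty]
      exact B0

/-- the low zone -/
theorem low_sum (K : Kx lam S M m a) (H : Cf E S M m a l0 cf) (hE : 8 * S.C ^ 2 ≤ E) {g : ℕ → ℝ}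
    {G : ℝ} (G0 : 0 ≤ G) (h : ∀ k < M.N, M.z k ≤ 3 * S.C ^ 2 * l0 → g k ≤ G) :
    ∑ k ∈ (Bk S M).filter fun k => ¬ l0 ≤ M.s k, M.dz m a k * g k ≤ 3 * S.C ^ 2 * l0 * G := by
  have F := K.fn
  have l1 := H.pos F hE
  have z : ∀ k ∈ (Bk S M).filter fun k => ¬ l0 ≤ M.s k, k < M.N ∧ M.z k ≤ 3 * S.C ^ 2 * l0 :=
    fun k hk => by
      obtain ⟨a1, a2⟩ := mem_filter.1 hk
      obtain ⟨a3, a4⟩ := mem_filter.1 a1
      exact ⟨mem_range.1 a3, H.z_low F hE (by omega) (not_le.1 a2).le⟩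
  rcases ((Bk S M).filter fun k => ¬ l0 ≤ M.s k).eq_empty_or_nonempty with e | e
  · rw [e, sum_empty]; positivity
  refine (sum_le_sum fun k hk => mul_le_mul_of_nonneg_left (h k (z k hk).1 (z k hk).2)
    (F.lg.dz_nonneg k)).trans ?_
  rw [← sum_mul]
  refine mul_le_mul_of_nonneg_right ((sum_le_sum_of_subset_of_nonneg (t := range (max' _ e + 1))
    (fun k hk => mem_range.2 (Nat.lt_succ_of_le (le_max' _ k hk)))
    fun i _ _ => F.lg.dz_nonneg i).trans ?_) G0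
  rw [sum_dz_range F.leg]
  linarith [(z _ (max'_mem _ e)).2, F.lg.a0]

theorem lam_le {c lam x : ℝ} (i : ℕ) (l2 : 2 ≤ lam) (h : c ≤ lam) (hi : i ≤ 4) (x0 : 0 ≤ x) :
    lam * (c * lam ^ i * x) ≤ lam ^ 6 * x := by
  have l0 : 0 < lam := by linarith
  calc _ ≤ lam * (lam * lam ^ 4 * x) := by gcongr; linarith
    _ = _ := by ring

theorem cst_le {C lam : ℝ} (C1 : 1 ≤ C) (h : 10 ^ 15 * C ^ 27 ≤ lam) {c : ℝ} {i : ℕ}
    (hc : c ≤ 10 ^ 15) (hi : i ≤ 27) : c * C ^ i ≤ lam :=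
  le_trans (by gcongr) h

/-- passage from the context, no monotonicity needed -/
theorem of_kx' {R : CP} (K : ℝ → ℝ) (k : ℕ) (h : ∀ E lam Λ S M m a, Kx lam S M m a →
    K S.C ≤ lam → lam ≤ E → lam ^ k ≤ Λ → R E Λ S M m a) : CL R :=
  (of_kx (R := fun E Λ S M m a => ∀ Λ', Λ ≤ Λ' → R E Λ' S M m a)
    (fun _ _ _ _ _ _ _ _ h H _ h' => H _ (h.trans h')) K k
    fun E lam S M m a X b1 b2 Λ h' => h E lam Λ S M m a X b1 b2 h').mono
    fun _ _ _ _ _ _ _ _ _ _ H => H _ le_rfl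

/-- **(a), (d)** bulk sums (`SzB` with `t ≤ C` in the last clause) -/
def SzBt : Prop := CL fun E Λ S M m a => ∀ l0 X X2 X3 cf Y3, Cf E S M m a l0 cf →
  SN E S M m a l0 X X2 X3 cf Y3 →
    ∑ k ∈ Bk S M, M.dz m a k * u4 M m a k ^ 2 ≤ Λ * X2 ∧
    ∑ k ∈ Bk S M, M.dz m a k * (min 1 (cf (max (M.z k) l0)) * u4 M m a k ^ 3) ≤ Λ * X3 ∧
    ∀ t, l0 ≤ t → t ≤ S.C →
      ∑ k ∈ (Bk S M).filter fun k => t ≤ M.s k, M.dz m a k * u4 M m a k ^ 3 ≤ Λ * Y3 t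

/-- weighted cubic block sum -/
theorem blk_w (K : Kx lam S M m a) (H : Cf E S M m a l0 cf) (hE : 8 * S.C ^ 2 ≤ E)
    (a1 : l0 ≤ M.s p) (a2 : p + p / 3 < S.J) (phi : M.En S m a M.q 2 0 S.C ≤ X) (X0 : 0 < X)
    (X1 : X ≤ 1) {X3 : ℝ} (h : ∀ t, t = M.s p → min 1 (cf t) * min (t * cf t ^ 3)
      (t * wc S cf t ^ 3 + (t * wc S cf t ^ 3) ^ ((1 : ℝ) / 7) *
        (wc S cf t * min X (cf t ^ 3)) ^ ((6 : ℝ) / 7)) ≤ X3) :
    ∑ k ∈ bl S M p, M.dz m a k * (min 1 (cf (max (M.z k) l0)) * u4 M m a k ^ 3) ≤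
      18 * 10 ^ 13 * S.C ^ 27 * lam ^ 3 * X3 := by
  have F := K.fn
  have C0 := F.C0
  have l2 := K.l2
  obtain ⟨t0, c0, -⟩ := wc_pos K H hE a1 a2
  have g0 : 0 ≤ min 1 (cf (M.s p)) := le_min zero_le_one c0.le
  calc _ ≤ ∑ k ∈ bl S M p, 18 * S.C ^ 3 * min 1 (cf (M.s p)) *
        (M.dz m a k * u4 M m a k ^ 3) := sum_le_sum fun k hk => by
        rw [mul_left_comm]
        refine mul_le_mul_of_nonneg_right ?_
          (mul_nonneg (F.lg.dz_nonneg k) (pow_nonneg (u4_nn k) 3))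
        rw [mul_min_of_nonneg _ _ (by positivity)]
        refine min_le_min (by linarith [K.K1]) ((H.le F hE a1 (le_max_right _ _) (max_le
          (z_bl K H hE a1 a2 hk) (a1.trans (le_mul_of_one_le_left t0.le K.K1))) K.K1).trans_eq
          (by ring))
    _ ≤ 18 * S.C ^ 3 * min 1 (cf (M.s p)) * (10 ^ 13 * S.C ^ 24 * lam ^ 3 * _) := by
        rw [← mul_sum]
        exact mul_le_mul_of_nonneg_left
          (blk_opt K H hE a1 a2 phi X0 X1 rfl rfl rfl).2.1 (by positivity)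
    _ ≤ _ := by
        refine le_trans (le_of_eq ?_) (mul_le_mul_of_nonneg_left (h _ rfl) (by positivity))
        ring

/-- the three sums above the level `l0` at a fixed size -/
theorem sums_up (K : Kx lam S M m a) (b1 : 10 ^ 15 * S.C ^ 27 ≤ lam) (b2 : lam ≤ E)
    (H : Cf E S M m a l0 cf) {X2 X3 : ℝ} {Y3 : ℝ → ℝ} (N : SN' E S M m a l0 X X2 X3 cf Y3) :
    0 ≤ X2 ∧ 0 ≤ X3 ∧ ∑ k ∈ Bu S M l0, M.dz m a k * u4 M m a k ^ 2 ≤ lam ^ 6 * X2 ∧
    ∑ k ∈ Bu S M l0, M.dz m a k * (min 1 (cf (max (M.z k) l0)) * u4 M m a k ^ 3) ≤ lam ^ 6 * X3 ∧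
    ∀ t, l0 ≤ t → t ≤ S.C → 0 ≤ Y3 t ∧
      ∑ k ∈ Bu S M t, M.dz m a k * u4 M m a k ^ 3 ≤ lam ^ 6 * Y3 t := by
  have F := K.fn
  have C1 := F.C1
  have C0 := F.C0
  have l2 := K.l2
  have hE : 8 * S.C ^ 2 ≤ E := (cst_le C1 b1 (by norm_num) (by norm_num)).trans b2
  have l1 := H.pos F hE
  have c1 := l1.trans_le (H.ge _ le_rfl)
  have X0 := N.X0
  have X1 : X ≤ 1 := (le_mul_of_one_le_left N.X0.le (by linarith)).trans N.X1
  have lC : l0 ≤ S.C := ((le_mul_of_one_le_left l1.le (by linarith)).trans H.l1).trans C1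
  have w1 := F.w3_pos l1
  have X20 : 0 ≤ X2 := le_trans (by unfold wc; positivity) (N.x2b l0 le_rfl lC)
  have X30 : 0 ≤ X3 := le_trans (by unfold wc; positivity) (N.x3b l0 le_rfl lC)
  have sC : ∀ p, p + p / 3 < S.J → M.s p ≤ S.C := fun p hp =>
    F.toCl.s_le_C (by have := F.i3; omega)
  refine ⟨X20, X30, (up_sum K (B := 10 ^ 13 * S.C ^ 24 * lam ^ 2 * X2) l1 (by positivity)
      fun p a1 a2 => (blk_opt K H hE a1 a2 N.phi N.X0 X1 rfl rfl rfl).1.trans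
        (mul_le_mul_of_nonneg_left (N.x2b _ a1 (sC p a2)) (by positivity))).trans
      (lam_le 2 l2 (cst_le C1 b1 (by norm_num) (by norm_num)) (by norm_num) X20),
    (up_sum K l1 (by positivity) fun p a1 a2 => blk_w K H hE a1 a2 N.phi X0 X1 fun t e =>
      N.x3b t (e ▸ a1) (e ▸ sC p a2)).trans
      (lam_le 3 l2 (cst_le C1 b1 (by norm_num) (by norm_num)) (by norm_num) X30),
    fun t ht tC => ?_⟩
  have t0 := l1.trans_le ht
  have c0 := t0.trans_le (H.ge _ ht)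
  have w0 := F.w3_pos t0
  have Y0 : 0 ≤ Y3 t := le_trans (by unfold wc; positivity) (N.y3 t t ht le_rfl tC)
  exact ⟨Y0, (up_sum K (B := 10 ^ 13 * S.C ^ 24 * lam ^ 3 * Y3 t) t0 (by positivity)
    fun p a1 a2 => (blk_opt K H hE (ht.trans a1) a2 N.phi N.X0 X1 rfl rfl rfl).2.1.trans
      (mul_le_mul_of_nonneg_left ((min_le_right _ _).trans (N.y3 _ _ ht a1 (sC p a2)))
        (by positivity))).trans
    (lam_le 3 l2 (cst_le C1 b1 (by norm_num) (by norm_num)) (by norm_num) Y0)⟩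

/-- **`SzB'`** -/
theorem _root_.Crest.Agent.T156.Alt.Sz9.szB' : SzB' := by
  refine of_kx' (fun C => 10 ^ 15 * C ^ 27) 6
    fun E lam Λ S M m a K b1 b2 b3 l0 X X2 X3 cf Y3 H N => ?_
  obtain ⟨a1, a2, a3, a4, a5⟩ := sums_up K b1 b2 H N
  exact ⟨a3.trans (mul_le_mul_of_nonneg_right b3 a1), a4.trans (mul_le_mul_of_nonneg_right b3 a2),
    fun t ht tC => (a5 t ht tC).2.trans (mul_le_mul_of_nonneg_right b3 (a5 t ht tC).1)⟩

/-- the low zone, any power, with and without the parity weight -/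
theorem sums_low (K : Kx lam S M m a) (H : Cf E S M m a l0 cf) (hE : 8 * S.C ^ 2 ≤ E) (i : ℕ) :
    ∑ k ∈ (Bk S M).filter fun k => ¬ l0 ≤ M.s k, M.dz m a k * u4 M m a k ^ i ≤
      3 * S.C ^ 2 * l0 * (6 * S.C ^ 2 * lam * cf l0) ^ i ∧
    ∑ k ∈ (Bk S M).filter fun k => ¬ l0 ≤ M.s k,
      M.dz m a k * (min 1 (cf (max (M.z k) l0)) * u4 M m a k ^ i) ≤
      3 * S.C ^ 2 * l0 * (6 * S.C ^ 2 * cf l0 * (6 * S.C ^ 2 * lam * cf l0) ^ i) := by
  have F := K.fn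
  have C0 := F.C0
  have l2 := K.l2
  have l1 := H.pos F hE
  have c1 := l1.trans_le (H.ge _ le_rfl)
  have c3 : 1 ≤ 3 * S.C ^ 2 := by linarith [one_le_pow₀ (n := 2) F.C1]
  have ul : ∀ k < M.N, M.z k ≤ 3 * S.C ^ 2 * l0 → u4 M m a k ≤ 6 * S.C ^ 2 * lam * cf l0 :=
    fun k hk hz => (K.cru H hE le_rfl c3 hk.le hz).trans_eq (by ring)
  exact ⟨low_sum K H hE (by positivity) fun k hk hz => pow_le_pow_left₀ (u4_nn k) (ul k hk hz) i,
    low_sum K H hE (by positivity) fun k hk hz => mul_le_mul ((min_le_right _ _).trans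
      ((H.le F hE le_rfl (le_max_right _ _) (max_le hz (le_mul_of_one_le_left l1.le c3)) c3).trans_eq
        (by ring))) (pow_le_pow_left₀ (u4_nn k) (ul k hk hz) i) (pow_nonneg (u4_nn k) i)
      (by positivity)⟩

theorem szBt : SzBt := by
  refine of_kx' (fun C => 10 ^ 15 * C ^ 27) 7
    fun E lam Λ S M m a K b1 b2 b3 l0 X X2 X3 cf Y3 H N => ?_
  obtain ⟨X20, X30, a3, a4, a5⟩ := sums_up K b1 b2 H ⟨N.phi, N.X0, N.X1, N.x2b, N.x3b, N.y3⟩
  have C1 := K.fn.C1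
  have C0 := K.fn.C0
  have l2 := K.l2
  have hE : 8 * S.C ^ 2 ≤ E := (cst_le C1 b1 (by norm_num) (by norm_num)).trans b2
  have e7 : ∀ x, 0 ≤ x → lam ^ 6 * x + lam ^ 6 * x ≤ Λ * x := fun x x0 => by
    have : 0 ≤ lam ^ 6 * x := by positivity
    nlinarith [mul_le_mul_of_nonneg_right b3 x0]
  refine ⟨?_, ?_, fun t ht tC => ?_⟩
  · rw [← sum_filter_add_sum_filter_not _ fun k => l0 ≤ M.s k]
    refine (add_le_add a3 ((sums_low K H hE 2).1.trans ?_)).trans (e7 _ X20)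
    refine le_trans ?_ (lam_le (c := 108 * S.C ^ 6) 1 l2
      (cst_le C1 b1 (by norm_num) (by norm_num)) (by norm_num) X20)
    calc _ = lam * (108 * S.C ^ 6 * lam ^ 1 * (l0 * cf l0 ^ 2)) := by ring
      _ ≤ _ := by have := N.x2a; gcongr
  · rw [← sum_filter_add_sum_filter_not _ fun k => l0 ≤ M.s k]
    refine (add_le_add a4 ((sums_low K H hE 3).2.trans ?_)).trans (e7 _ X30)
    refine le_trans ?_ (lam_le (c := 3888 * S.C ^ 10) 2 l2
      (cst_le C1 b1 (by norm_num) (by norm_num)) (by norm_num) X30)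
    calc _ = lam * (3888 * S.C ^ 10 * lam ^ 2 * (l0 * cf l0 ^ 4)) := by ring
      _ ≤ _ := by have := N.x3a; gcongr
  · obtain ⟨Y0, h⟩ := a5 t ht tC
    have := e7 _ Y0
    have : 0 ≤ lam ^ 6 * Y3 t := by positivity
    exact h.trans (by linarith)

/-- **sums above a level** `t0 ≥ l0` and below a level `t1`, each power with its own bound -/
def _root_.Crest.Agent.T156.Alt.Sz9.SzU : Prop := CL fun E Λ S M m a => ∀ l0 X cf, Cf E S M m a l0 cf →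
  M.En S m a M.q 2 0 S.C ≤ X → 0 < X → X ≤ 1 → ∀ t0 t1 B, l0 ≤ t0 → 0 ≤ B →
    ((∀ t, t0 ≤ t → t ≤ t1 → t ≤ S.C → min (t * cf t ^ 2) (t * wc S cf t ^ 2 +
      (t * wc S cf t ^ 2) ^ ((3 : ℝ) / 7) * min X (cf t ^ 3) ^ ((4 : ℝ) / 7)) ≤ B) →
      ∑ k ∈ (Bk S M).filter fun k => t0 ≤ M.s k ∧ M.s k ≤ t1,
        M.dz m a k * u4 M m a k ^ 2 ≤ Λ * B) ∧
    ((∀ t, t0 ≤ t → t ≤ t1 → t ≤ S.C → min (t * cf t ^ 3) (t * wc S cf t ^ 3 +
      (t * wc S cf t ^ 3) ^ ((1 : ℝ) / 7) * (wc S cf t * min X (cf t ^ 3)) ^ ((6 : ℝ) / 7)) ≤ B) →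
      ∑ k ∈ (Bk S M).filter fun k => t0 ≤ M.s k ∧ M.s k ≤ t1,
        M.dz m a k * u4 M m a k ^ 3 ≤ Λ * B) ∧
    ((∀ t, t0 ≤ t → t ≤ t1 → t ≤ S.C → t * wc S cf t ^ 4 +
      wc S cf t ^ ((3 : ℝ) / 2) * min X (cf t ^ 3) ^ ((7 : ℝ) / 6) ≤ B) →
      ∑ k ∈ (Bk S M).filter fun k => t0 ≤ M.s k ∧ M.s k ≤ t1,
        M.dz m a k * u4 M m a k ^ 4 ≤ Λ * B)

theorem up_sum' (K : Kx lam S M m a) {f : ℕ → ℝ} {t0 t1 B : ℝ} (h0 : 0 < t0) (B0 : 0 ≤ B)
    (f0 : ∀ k, 0 ≤ f k)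
    (h : ∀ p, t0 ≤ M.s p → M.s p ≤ t1 → p + p / 3 < S.J → ∑ k ∈ bl S M p, f k ≤ B) :
    ∑ k ∈ (Bk S M).filter fun k => t0 ≤ M.s k ∧ M.s k ≤ t1, f k ≤ lam * B := by
  rw [← filter_filter, sum_filter]
  refine up_sum K h0 B0 fun p a1 a2 => ?_
  rcases le_or_gt (M.s p) t1 with c | c
  · exact (sum_le_sum fun k _ => by split_ifs; exacts [le_rfl, f0 k]).trans (h p a1 c a2)
  · exact (sum_eq_zero fun k hk => if_neg (not_le.2 (c.trans_le
      (K.fn.sm (mem_bl hk).2.2.1)))).trans_le B0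

theorem _root_.Crest.Agent.T156.Alt.Sz9.szU : SzU := by
  refine of_kx' (fun C => 10 ^ 15 * C ^ 27) 6
    fun E lam Λ S M m a K b1 b2 b3 l0 X cf H phi X0 X1 t0 t1 B ht B0 => ?_
  have F := K.fn
  have C1 := F.C1
  have C0 := F.C0
  have l2 := K.l2
  have hE : 8 * S.C ^ 2 ≤ E := (cst_le C1 b1 (by norm_num) (by norm_num)).trans b2
  have l1 := (H.pos F hE).trans_le ht
  have sC : ∀ p, p + p / 3 < S.J → M.s p ≤ S.C := fun p hp =>
    F.toCl.s_le_C (by have := F.i3; omega)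
  have key : ∀ i ≤ 4, (∀ p, t0 ≤ M.s p → M.s p ≤ t1 → p + p / 3 < S.J →
      ∑ k ∈ bl S M p, M.dz m a k * u4 M m a k ^ i ≤ 10 ^ 13 * S.C ^ 24 * lam ^ i * B) →
      ∑ k ∈ (Bk S M).filter fun k => t0 ≤ M.s k ∧ M.s k ≤ t1,
        M.dz m a k * u4 M m a k ^ i ≤ Λ * B := fun i hi h =>
    ((up_sum' K l1 (by positivity) (fun k => mul_nonneg (F.lg.dz_nonneg k)
      (pow_nonneg (u4_nn k) i)) h).trans (lam_le i l2 (cst_le C1 b1 (by norm_num) (by norm_num))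
      hi B0)).trans (mul_le_mul_of_nonneg_right b3 B0)
  refine ⟨fun h => key 2 (by norm_num) fun p a1 a2 a3 => ?_,
    fun h => key 3 (by norm_num) fun p a1 a2 a3 => ?_,
    fun h => key 4 le_rfl fun p a1 a2 a3 => ?_⟩
  · exact (blk_opt K H hE (ht.trans a1) a3 phi X0 X1 rfl rfl rfl).1.trans
      (mul_le_mul_of_nonneg_left (h _ a1 a2 (sC p a3)) (by positivity))
  · exact (blk_opt K H hE (ht.trans a1) a3 phi X0 X1 rfl rfl rfl).2.1.trans
      (mul_le_mul_of_nonneg_left (h _ a1 a2 (sC p a3)) (by positivity))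
  · exact (blk_opt K H hE (ht.trans a1) a3 phi X0 X1 rfl rfl rfl).2.2.trans
      (mul_le_mul_of_nonneg_left (h _ a1 a2 (sC p a3)) (by positivity))

end Crest.Agent.T156.Alt.Sz9.B61

end
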