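import Crest.Agent.T156.CasDef_88

/-!
# Row 156: the SK model in the cascade frame (helper33)
-/

set_option autoImplicit false
set_option linter.unusedSectionVars false

noncomputable section

namespace Crest.Agent.T156.Cas

open MeasureTheory ProbabilityTheory Real Set
open Crest.Agent.T157.E Crest.Agent.T157.Casc Crest.Agent.T157.SL
open Crest.ProbabilityR.SpinGlass

namespace Link33

lemma sv_sq {n : ℕ} (x : Cube n) (i : Fin n) : sv x i * sv x i = 1 := by
  unfold sv Crest.ProbabilityR.SpinGlassDynamics.spin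
  cases x i <;> simp

lemma sv_eq {n : ℕ} (x : Cube n) (i : Fin n) : sv x i = spinVal (x i) := rfl

lemma cov_wl (n : ℕ) (β d m : ℝ) (x y : Cube n) (hn : 0 < n) (hd : 0 ≤ d) :
    (wl n β d m).cov x y = d * (β ^ 2 * n / 2 * T157.G1.ov x y ^ 2) := by
  have hn' : (0 : ℝ) < n := Nat.cast_pos.2 hn
  have h1 : √d * √d = d := mul_self_sqrt hd
  have h2 : √(2 : ℝ) * √2 = 2 := mul_self_sqrt (by norm_num)
  have h3 : √(n : ℝ) * √n = n := mul_self_sqrt hn'.le
  have h4 : (√(n : ℝ)) ≠ 0 := (sqrt_pos.2 hn').ne'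
  have h5 : √2 / √(n : ℝ) * (√2 / √n) = 2 / n := by
    rw [div_mul_div_comm, h2, h3]
  have e : (wl n β d m).cov x y = ∑ p : Fin n × Fin n, d * (β ^ 2 / (2 * n)) *
      ((sv x p.1 * sv y p.1) * (sv x p.2 * sv y p.2)) := by
    refine Finset.sum_congr rfl fun p _ => ?_
    change √d * (β / 2 * (√2 / √n) * (sv x p.1 * sv x p.2)) *
      (√d * (β / 2 * (√2 / √n) * (sv y p.1 * sv y p.2))) = _
    have : √d * (β / 2 * (√2 / √n) * (sv x p.1 * sv x p.2)) *
      (√d * (β / 2 * (√2 / √n) * (sv y p.1 * sv y p.2))) = (√d * √d) * (β ^ 2 / 4 *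
        (√2 / √(n : ℝ) * (√2 / √n))) * ((sv x p.1 * sv y p.1) * (sv x p.2 * sv y p.2)) := by ring
    rw [this, h1, h5]
    field_simp
    ring
  rw [e, ← Finset.mul_sum, Fintype.sum_prod_type]
  simp only
  rw [← Finset.sum_mul_sum, T157.G1.ov, dotProduct]
  field_simp

lemma cov_fl (n : ℕ) (s : ℝ) (p : ℝ × ℝ) (x y : Cube n) (hn : 0 < n) (hp : 0 ≤ p.2) :
    (T157.G1.fl n s p).cov x y = s ^ 2 * p.2 * n * T157.G1.ov x y := by
  have hn' : (0 : ℝ) < n := Nat.cast_pos.2 hn
  have h1 : √p.2 * √p.2 = p.2 := mul_self_sqrt hp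
  have e : (T157.G1.fl n s p).cov x y = ∑ i : Fin n, s ^ 2 * p.2 * (sv x i * sv y i) := by
    refine Finset.sum_congr rfl fun i _ => ?_
    change s * √p.2 * sv x i * (s * √p.2 * sv y i) = _
    have : s * √p.2 * sv x i * (s * √p.2 * sv y i) = s ^ 2 * (√p.2 * √p.2) * (sv x i * sv y i) := by
      ring
    rw [this, h1]
  rw [e, ← Finset.mul_sum, T157.G1.ov, dotProduct]
  field_simp

/-- the completed model as a level -/
abbrev cl (n : ℕ) (β m : ℝ) : Lv (Cube n) :=
  ⟨(Fin n × Fin n) ⊕ Unit, fun x => Sum.elim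
    (fun p => if p.1 < p.2 then β * (√n)⁻¹ * (sv x p.1 * sv x p.2) else 0) fun _ => √(β ^ 2 / 2), m⟩

lemma sum_lt {n : ℕ} (a : Fin n → ℝ) (ha : ∀ i, a i * a i = 1) :
    2 * ∑ p : Fin n × Fin n, (if p.1 < p.2 then a p.1 * a p.2 else 0) = (∑ i, a i) ^ 2 - n := by
  have h1 : ∑ p : Fin n × Fin n, (if p.1 < p.2 then a p.1 * a p.2 else 0) =
      ∑ p : Fin n × Fin n, (if p.2 < p.1 then a p.1 * a p.2 else 0) := by
    refine Fintype.sum_equiv (Equiv.prodComm _ _) _ _ fun p => ?_
    simp [mul_comm]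
  have h2 : ∑ p : Fin n × Fin n, (if p.1 = p.2 then a p.1 * a p.2 else 0) = n := by
    rw [Fintype.sum_prod_type]
    simp [ha]
  have h3 : (∑ i, a i) ^ 2 = ∑ p : Fin n × Fin n, a p.1 * a p.2 := by
    rw [sq, Finset.sum_mul_sum, Fintype.sum_prod_type]
  rw [two_mul, h3, ← h2, eq_sub_iff_add_eq]
  nth_rewrite 2 [h1]
  rw [← Finset.sum_add_distrib, ← Finset.sum_add_distrib]
  refine Finset.sum_congr rfl fun p _ => ?_
  rcases lt_trichotomy p.1 p.2 with h | h | h
  · simp [h, h.not_gt, h.ne]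
  · simp [h]
  · simp [h, h.not_gt, h.ne']

lemma cov_cl (n : ℕ) (β m : ℝ) (x y : Cube n) (hn : 0 < n) :
    (cl n β m).cov x y = β ^ 2 * n / 2 * T157.G1.ov x y ^ 2 := by
  have hn' : (0 : ℝ) < n := Nat.cast_pos.2 hn
  have h3 : (√(n : ℝ))⁻¹ * (√n)⁻¹ = (n : ℝ)⁻¹ := by
    rw [← mul_inv, mul_self_sqrt hn'.le]
  have h4 : √(β ^ 2 / 2) * √(β ^ 2 / 2) = β ^ 2 / 2 := mul_self_sqrt (by positivity)
  have h5 := sum_lt (fun i => sv x i * sv y i) fun i => by
    have := sv_sq x i
    have := sv_sq y i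
    calc sv x i * sv y i * (sv x i * sv y i) = (sv x i * sv x i) * (sv y i * sv y i) := by ring
      _ = 1 := by rw [sv_sq, sv_sq, mul_one]
  have e : (cl n β m).cov x y = β ^ 2 * (n : ℝ)⁻¹ * (∑ p : Fin n × Fin n,
      if p.1 < p.2 then (sv x p.1 * sv y p.1) * (sv x p.2 * sv y p.2) else 0) + β ^ 2 / 2 := by
    change ∑ i : (Fin n × Fin n) ⊕ Unit, _ = _
    rw [Fintype.sum_sum_type, Finset.mul_sum]
    congr 1
    · refine Finset.sum_congr rfl fun p _ => ?_
      simp only [Sum.elim_inl]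
      split_ifs
      · rw [← h3]; ring
      · simp
    · simp only [Sum.elim_inr, Finset.univ_unique, Finset.sum_singleton, h4]
  rw [e, T157.G1.ov, dotProduct]
  have h6 : (∑ p : Fin n × Fin n,
      if p.1 < p.2 then (sv x p.1 * sv y p.1) * (sv x p.2 * sv y p.2) else 0) =
      ((∑ i, sv x i * sv y i) ^ 2 - n) / 2 := by linarith
  rw [h6]
  field_simp
  ring

/-- the completed disorder read off the noise of `cl` -/
def rd (n : ℕ) (β : ℝ) (g : (Fin n × Fin n) ⊕ Unit → ℝ) : Disorder n × ℝ :=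
  (fun p => g (.inl p), √(β ^ 2 / 2) * g (.inr ()))

lemma mp_rd (n : ℕ) (β : ℝ) :
    MeasurePreserving (rd n β) (gv ((Fin n × Fin n) ⊕ Unit)) (completedLaw n β) := by
  have h1 := measurePreserving_sumPiEquivProdPi
    (fun _ : (Fin n × Fin n) ⊕ Unit => gaussianReal 0 1)
  have h2 : MeasurePreserving (fun g : Unit → ℝ => g ())
      (Measure.pi fun _ : Unit => gaussianReal 0 1) (gaussianReal 0 1) :=
    measurePreserving_eval (fun _ : Unit => gaussianReal 0 1) ()
  have h3 : MeasurePreserving (fun t : ℝ => √(β ^ 2 / 2) * t) (gaussianReal 0 1)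
      (gaussianReal 0 (Real.toNNReal (β ^ 2 / 2))) := by
    refine ⟨by fun_prop, ?_⟩
    rw [gaussianReal_map_const_mul]
    congr 1
    · simp
    · ext
      simp only [mul_one, NNReal.coe_mk]
      rw [sq_sqrt (by positivity), Real.coe_toNNReal _ (by positivity)]
  exact ((MeasurePreserving.id (gv (Fin n × Fin n))).prod (h3.comp h2)).comp h1

lemma cfe_rd (n : ℕ) (β m : ℝ) (g : (Fin n × Fin n) ⊕ Unit → ℝ) :
    completedFreeEnergy n β (rd n β g) =
      X (fun _ => 1) [] (0 + (cl n β m).fld g) - n * log 2 := by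
  have e : ∀ x : Cube n, (0 + (cl n β m).fld g) x =
      β * energy n (fun p => g (.inl p)) x + √(β ^ 2 / 2) * g (.inr ()) := by
    intro x
    rw [zero_add]
    change ∑ i : (Fin n × Fin n) ⊕ Unit, _ = _
    rw [Fintype.sum_sum_type, energy, ← mul_assoc, Finset.mul_sum]
    congr 1
    · refine Finset.sum_congr rfl fun p _ => ?_
      simp only [Sum.elim_inl]
      split_ifs
      · rw [sv_eq, sv_eq]; ring
      · simp
    · simp only [Sum.elim_inr, Finset.univ_unique, Finset.sum_singleton]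
  have hZ : 0 < ∑ σ : Fin n → Bool, exp (β * energy n (fun p => g (.inl p)) σ) :=
    Finset.sum_pos (fun _ _ => exp_pos _) Finset.univ_nonempty
  simp only [X, e, one_mul, exp_add]
  rw [← Finset.sum_mul, log_mul hZ.ne' (exp_pos _).ne', log_exp]
  simp only [completedFreeEnergy, logPartitionFunction, partitionFunction, rd]
  ring

lemma cont_cfe (n : ℕ) (β : ℝ) : Continuous (completedFreeEnergy n β) := by
  have h0 : ∀ σ : Fin n → Bool, Continuous fun g : Disorder n => energy n g σ := fun σ => by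
    unfold energy
    refine continuous_const.mul (continuous_finsetSum _ fun p _ => ?_)
    split_ifs
    · fun_prop
    · exact continuous_const
  have h : Continuous (partitionFunction n β) := by
    unfold partitionFunction
    exact continuous_finsetSum _ fun σ _ => continuous_exp.comp (continuous_const.mul (h0 σ))
  have h1 : Continuous (logPartitionFunction n β) :=
    h.log fun g => (Finset.sum_pos (fun _ _ => exp_pos _) Finset.univ_nonempty).ne'
  unfold completedFreeEnergy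
  exact ((h1.comp continuous_fst).sub continuous_const).add continuous_snd

lemma wt1 {n : ℕ} : Wt fun _ : Cube n => (1 : ℝ) := by
  constructor
  · intro _; exact zero_le_one
  · exact Finset.sum_pos (fun _ _ => one_pos) Finset.univ_nonempty

lemma psi_eq (n : ℕ) (β m : ℝ) (hn : 0 < n) (hm : m ≠ 0) :
    Soft.psi n β m = X (fun _ => 1) [wl n β 1 m] 0 - n * log 2 := by
  have hS : C.Same (wl n β 1 m) (cl n β m) := ⟨rfl, by
    funext x y
    rw [cov_wl n β 1 m x y hn zero_le_one, cov_cl n β m x y hn, one_mul]⟩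
  have hL := C.lp_X (wt1 (n := n)) []
  rw [C.X_cons, hS.step hL, C.step_ne (l := cl n β m) hm]
  have h1 : ∫ ω, exp (m * completedFreeEnergy n β ω) ∂completedLaw n β =
      (∫ g, exp (m * X (fun _ => 1) [] (0 + (cl n β m).fld g)) ∂gv (cl n β m).ι) *
        exp (-(m * (n * log 2))) := by
    have hc : Continuous fun ω => exp (m * completedFreeEnergy n β ω) :=
      continuous_exp.comp (continuous_const.mul (cont_cfe n β))
    rw [← (mp_rd n β).map_eq, integral_map (mp_rd n β).measurable.aemeasurable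
      hc.aestronglyMeasurable, ← integral_mul_const]
    refine integral_congr_ae (Filter.Eventually.of_forall fun g => ?_)
    simp only
    rw [cfe_rd n β m g, ← exp_add]
    congr 1
    ring
  rw [Soft.psi, h1, log_mul (hL.pos (cl n β m) m 0).ne' (exp_pos _).ne', log_exp]
  field_simp
  ring

/-- a signed permutation of the cube -/
def sp {n : ℕ} (ρ : Equiv.Perm (Fin n)) (ε : Fin n → Bool) : Equiv.Perm (Cube n) where
  toFun u := fun i => xor (u (ρ i)) (ε i)
  invFun u := fun i => xor (u (ρ.symm i)) (ε (ρ.symm i))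
  left_inv u := by funext i; simp
  right_inv u := by funext i; simp

lemma ov_sp {n : ℕ} (ρ : Equiv.Perm (Fin n)) (ε : Fin n → Bool) (u v : Cube n) :
    T157.G1.ov (sp ρ ε u) (sp ρ ε v) = T157.G1.ov u v := by
  unfold T157.G1.ov dotProduct
  congr 1
  refine Fintype.sum_equiv ρ _ _ fun i => ?_
  change spinVal (xor (u (ρ i)) (ε i)) * spinVal (xor (v (ρ i)) (ε i)) =
    spinVal (u (ρ i)) * spinVal (v (ρ i))
  cases u (ρ i) <;> cases v (ρ i) <;> cases ε i <;> simp [spinVal]

lemma trans_typ (n : ℕ) (κ : Type) [Fintype κ] (a₀ : κ) (x y : κ → Cube n)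
    (H : typ a₀ x = typ a₀ y) :
    ∃ τ : Equiv.Perm (Cube n), (∀ u v, T157.G1.ov (τ u) (τ v) = T157.G1.ov u v) ∧
      ∀ a, τ (x a) = y a := by
  classical
  let f : Fin n → κ → Bool := fun i a => x a i == x a₀ i
  let f' : Fin n → κ → Bool := fun i a => y a i == y a₀ i
  have hc : ∀ b : κ → Bool, Fintype.card {i // f' i = b} = Fintype.card {i // f i = b} := by
    intro b
    have := congrFun H b
    unfold typ at this
    rw [Fintype.card_subtype, Fintype.card_subtype]
    simp only [funext_iff]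
    convert this.symm
  let ρ : Equiv.Perm (Fin n) := Equiv.ofFiberEquiv fun b => Fintype.equivOfCardEq (hc b)
  have hρ : ∀ i, f (ρ i) = f' i := fun i =>
    Equiv.ofFiberEquiv_map (fun b => Fintype.equivOfCardEq (hc b)) i
  refine ⟨sp ρ fun i => xor (x a₀ (ρ i)) (y a₀ i), ov_sp _ _, fun a => ?_⟩
  funext i
  have h := congrFun (hρ i) a
  change xor (x a (ρ i)) (xor (x a₀ (ρ i)) (y a₀ i)) = y a i
  simp only [f, f'] at h
  revert h
  cases x a (ρ i) <;> cases x a₀ (ρ i) <;> cases y a₀ i <;> cases y a i <;> simp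

end Link33

theorem linkStmt : LinkStmt :=
  ⟨Link33.cov_wl, Link33.cov_fl, Link33.psi_eq, Link33.trans_typ⟩

end Crest.Agent.T156.Cas

end
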