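import Crest.Agent.T156.AltDef_88
import Crest.Agent.T156.CaRow_90

/-!
# Row 156, ALT route: the ABSTRACT class of models and the chain of stages (helper88)

A model `M : Md` does not depend on the size `m` and on the root tilt `a`.  Cascade node `k + 1` is
the profile node `k`; it carries the labels `[z (k-1), z k)` (`[a, z 0)` for `k = 0`).
-/

set_option autoImplicit false

noncomputable section

namespace Crest.Agent.T156.Alt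

open MeasureTheory Real Set Filter Topology
open Crest.Agent.T157.E Crest.Agent.T157.Casc Crest.Agent.T157.SL
open Crest.Agent.T157.G1 (ov fl FL)
open Crest.Agent.R164.GC Crest.Agent.R339.B Crest.Agent.R339.Var Crest.Agent.T157.Pf
open Crest.Agent.T156.Cas (wl mxL)

/-- `N` levels above the root with tilts `z`; accumulated covariance `m (d k R² / 2 + H k R)` at the
node `k`; reference list `lr`, reference times `s`, clock `ck` -/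
structure Md where
  N : ℕ
  z : ℕ → ℝ
  d : ℕ → ℝ
  H : ℕ → ℝ
  lr : List (ℝ × ℝ)
  s : ℕ → ℝ
  ck : ℕ → ℝ

namespace Md

/-- the SK model -/
def sk (β : ℝ) : Md := ⟨0, fun _ => 1, fun _ => β ^ 2, 0, [], 0, 0⟩

variable (M : Md)

/-- reference overlap -/
def q (k : ℕ) : ℝ := Pr.Gam M.lr (M.s k)
/-- the top W variance -/
def b : ℝ := M.d M.N
/-- replicon coefficient at the time `t` -/
def e (t : ℝ) : ℝ := 1 - M.b * Pr.GG M.lr t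
/-- residual -/
def G (k : ℕ) : ℝ := M.d k * M.q k + M.H k - M.s k
/-- the levels above the root as data `(tilt, W, field)` -/
def Mu : List (ℝ × ℝ × ℝ) :=
  List.ofFn fun k : Fin M.N => (M.z k, M.d (k + 1) - M.d k, M.H (k + 1) - M.H k)

variable (m : ℕ) (a : ℝ)

/-- data of `OneP_23` (with `β = 1`) -/
def Mx : List (ℝ × ℝ × ℝ) := (a, M.d 0, 0) :: M.Mu
def root : Lv (Cube m) := mxL m 1 (a, M.d 0, 0)
def up : List (Lv (Cube m)) := M.Mu.map (mxL m 1)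
/-- **the cascade** -/
def L : List (Lv (Cube m)) := (M.Mx a).map (mxL m 1)
def V : ℝ := X (fun _ => 1) (M.L m a) 0
def EP : ℝ := tE (M.root m a) (X (fun _ => 1) (M.up m)) (X (fun _ => 1) (M.up m)) 0
def W (a' : ℝ) : ℝ := Cas.Wd (fun _ => 1) (M.root m 0) (M.up m) 0 a a'
/-- label weight of the node `k` -/
def dz (k : ℕ) : ℝ := dm (M.L m a) 0 (k + 1)
def E2 (f : ℝ → ℝ) (k : ℕ) : ℝ :=
  pi2 (fun _ => 1) (M.L m a) (k + 1) (fun x x' => f (ov x x')) 0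
def rb (k : ℕ) : ℝ := M.E2 m a id k
def rh (k : ℕ) (h : Cube m → ℝ) : ℝ := qf (P (fun _ => 1) ((M.L m a).drop (k + 1)) h) ov
def del (k : ℕ) : ℝ := M.rb m a k - M.q k
/-- the flow defect -/
def T : ℝ := M.V (m + 1) a - M.V m a - M.EP m a / (6 * m)

theorem L_eq : M.L m a = Cas.rt (M.root m 0) a :: M.up m := rfl
theorem root_eq : M.root m a = Cas.rt (M.root m 0) a := rfl

/-- legal above the root tilt `x` -/
structure Leg (x : ℝ) : Prop where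
  zm : Monotone M.z
  z0 : x ≤ M.z 0
  z1 : ∀ k, M.z k ≤ 1
  zN : M.z M.N = 1
  d0 : 0 ≤ M.d 0
  dm : Monotone M.d
  H0 : M.H 0 = 0
  Hm : Monotone M.H

end Md

/-! ### the chain of stages -/

/-- root tilts `a ≤ a'` in the window of `(n, s, γ)` -/
structure Win (n : ℕ) (s γ a a' : ℝ) : Prop where
  lo : (n : ℝ) ^ (-(1 : ℝ) / 6) / 2 ≤ a
  le : a ≤ a'
  hi : a' ≤ s * (n : ℝ) ^ (γ - 1 / 6)

/-- `(a' - a) W ≤ Q²` on the set `T` -/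
def WT (n : ℕ) (T : Set Md) (a a' Q : ℝ) : Prop :=
  ∀ M ∈ T, ∀ m, n ≤ m → m ≤ 2 * n → (a' - a) * M.W m a a' ≤ Q ^ 2

/-- **one stage**: every member of `T` is close to the start `M₀ ∈ T` -/
structure Stage (n : ℕ) (s γ C δ : ℝ) (M₀ : Md) (T : Set Md) : Prop where
  mem : M₀ ∈ T
  leg : ∀ M ∈ T, M.Leg (s * (n : ℝ) ^ (γ - 1 / 6)) ∧ M.d 0 ≤ C
  lnk : ∀ a a' Q : ℝ, Win n s γ a a' → 0 ≤ Q → WT n T a a' Q → ∀ m, n ≤ m → m ≤ 2 * n →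
    ∀ M ∈ T, |M.V m a' - M.V m a - (M₀.V m a' - M₀.V m a)| ≤
      δ * (n : ℝ) ^ ((1 : ℝ) / 6) * (Q * s ^ 2 + s ^ 5)

/-- **the flow in the size** at the end model -/
structure Flw (n : ℕ) (s γ δ : ℝ) (M : Md) : Prop where
  tot : M.b + M.H M.N ≤ (n : ℝ) ^ ((1 : ℝ) / 12)
  flow : ∀ a a' Q : ℝ, Win n s γ a a' → 0 ≤ Q → WT n {M} a a' Q → ∀ m, n ≤ m → m < 2 * n →
    |M.T m a' - M.T m a| ≤ δ * (n : ℝ) ^ (-(5 : ℝ) / 6) * (Q * s ^ 2 + s ^ 5)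

/-- stages compose -/
def StageTrans : Prop := ∀ (n : ℕ) (s γ C δ δ' : ℝ) (M₀ M₁ : Md) (T T' : Set Md), 0 ≤ s → 0 ≤ δ →
  0 ≤ δ' → Stage n s γ C δ M₀ T → M₁ ∈ T → Stage n s γ C δ' M₁ T' →
  Stage n s γ C (δ + δ') M₀ (T ∪ T')

/-- **the top, chain form** -/
def TopC : Prop := ∀ β : ℝ, 1 < β → ∀ γ c' C : ℝ, 0 < γ → 0 < c' →
  (∀ᶠ n : ℕ in atTop, ∀ s ∈ Icc 1 ((n : ℝ) ^ ((1 : ℝ) / 19)), ∃ (T : Set Md) (M : Md), M ∈ T ∧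
    Stage n s γ C ((n : ℝ) ^ (-c')) (Md.sk β) T ∧ Flw n s γ ((n : ℝ) ^ (-c')) M) →
  LowS β → Soft.Key β

/-! ### the class -/

/-- scales: constant, size, mesh `v ≍ n^{-A}`, largest root tilt; mass `ms`, bounds `gr`, `g2` of
the residual; clock density `den`, end lengths `u0`, `ue` of the plateau; indices: merged below
`j0`, floor of the marks from `jl`, sloped below `J`, plateau below `Jp`, tilt `1` from `Jp`; loss `F` of the floor -/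
structure Sc where
  C : ℝ
  n : ℕ
  A : ℕ
  v : ℝ
  amax : ℝ
  ms : ℝ → ℝ
  gr : ℝ → ℝ
  g2 : ℝ
  den : ℝ → ℝ
  u0 : ℝ
  ue : ℝ
  j0 : ℕ
  jl : ℕ
  J : ℕ
  Jp : ℕ
  F : ℝ := 1

/-- the top mass -/
def Sc.θ (S : Sc) : ℝ := S.ms 1

/-- size and root tilt -/
structure Sc.In (S : Sc) (m : ℕ) (a : ℝ) : Prop where
  m1 : S.n ≤ m
  m2 : m ≤ 2 * S.n
  a1 : (S.n : ℝ) ^ (-(1 : ℝ) / 6) / 2 ≤ a
  a2 : a ≤ S.amax

/-- **the class** -/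
structure Cl (S : Sc) (M : Md) : Prop where
  leg : M.Leg (2 * S.amax)
  C1 : 1 ≤ S.C
  v1 : 1 / S.C ≤ S.v * (S.n : ℝ) ^ S.A
  v2 : S.v * (S.n : ℝ) ^ S.A ≤ S.C
  card : (M.N : ℝ) ≤ (S.n : ℝ) ^ (S.A + 1)
  i0 : 1 ≤ S.j0
  i1 : S.j0 ≤ S.jl
  i2 : S.jl + 1 < S.J
  i3 : S.J ≤ S.Jp
  i4 : S.Jp < M.N
  /- mass function -/
  msm : Monotone S.ms
  ms2 : ∀ t, 0 ≤ t → S.ms (2 * t) ≤ 4 * S.ms t
  ms0 : (S.n : ℝ) ^ (-(1 : ℝ)) ≤ S.ms 0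
  ms1 : ∀ t, S.ms t ≤ S.θ
  msθ : S.θ * log S.n ≤ 1
  /- W variance, merged low zone, top -/
  b0 : 1 ≤ M.d 0
  b1 : M.b ≤ S.C
  low : ∀ k ≤ S.j0, M.z k = M.z S.j0
  wmk : M.d (S.jl + 1) = M.b ∧ M.b - M.d 0 ≤ S.C * S.ms (M.s S.jl)
  top : ∀ k, S.Jp ≤ k → M.z k = 1
  HN : M.H M.N ≤ S.C * S.A * log S.n
  /- the reference -/
  ok : Pr.Ok M.lr
  s0 : M.s 0 = 0
  sm : Monotone M.s
  sN : M.s M.N ≤ TT M.lr
  sT : M.s S.Jp ≤ S.C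
  lv : ∀ k, S.j0 ≤ k → ∀ t, M.s k ≤ t → t < M.s (k + 1) → lvr 1 M.lr t = M.z k
  lv1 : ∀ t, M.s S.Jp ≤ t → lvr 1 M.lr t = 1
  lip : ∀ t t', 0 ≤ t → t ≤ t' → t' < M.s S.J → (t' - t) / S.C - S.C * S.v ≤
    lvr 1 M.lr t' - lvr 1 M.lr t ∧ lvr 1 M.lr t' - lvr 1 M.lr t ≤ S.C * (t' - t + S.v)
  lv0 : lvr 1 M.lr 0 ≤ S.C * S.v
  zs : ∀ k, S.j0 ≤ k → k + 1 < S.J → S.v / S.C ≤ M.z (k + 1) - M.z k ∧
    M.z (k + 1) - M.z k ≤ S.C * S.v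
  ss : ∀ k, k < S.J → S.v / S.C ≤ M.s (k + 1) - M.s k ∧ M.s (k + 1) - M.s k ≤ S.C * S.v
  sr : ∀ k, S.Jp ≤ k → k < M.N → 0 ≤ M.s (k + 1) - M.s k ∧ M.s (k + 1) - M.s k ≤ S.C * S.v
  atom : 1 / S.C ≤ M.z (S.J - 1) ∧ M.z (S.J - 1) ≤ 1 - 1 / S.C
  /- criticality up to the mass -/
  crit : ∀ t ∈ Icc 0 (M.s S.Jp), S.ms t / S.C ≤ M.e t ∧ M.e t ≤ S.C * S.ms t
  gpp : ∀ t, 0 ≤ t → t < M.s S.J → |Pr.NN M.lr t - 2 * lvr 1 M.lr t * Pr.AA M.lr t| ≤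
    S.C * (S.ms t / max t (M.s S.j0))
  /- clock: uniform mesh up to `Jp`, floor of the marks -/
  ckm : ∀ k, S.j0 ≤ k → k < S.Jp → S.v / S.C ≤ M.ck (k + 1) - M.ck k ∧
    M.ck (k + 1) - M.ck k ≤ S.C * S.v
  ckq : ∀ k, M.z k ≤ 1 / (2 * S.C) → M.ck k = M.q k
  flr : ∀ k, S.jl ≤ k → k < S.Jp → S.ms (M.s k) * S.v / (S.C * S.F) ≤ M.H (k + 1) - M.H k
  /- residual -/
  Glo : ∀ k ≤ S.jl, |M.G k| ≤ S.C * S.ms (M.s S.jl) * M.s S.jl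
  Gmi : ∀ k, S.jl ≤ k → M.z k ≤ 1 / (2 * S.C) → |M.G k| ≤ S.gr (M.s k)
  Gtp : ∑ k ∈ (Finset.Icc 1 S.Jp).filter fun k => 1 / (2 * S.C) < M.z k,
    (M.z k - M.z (k - 1)) * M.G k ^ 2 ≤ S.g2
  Grv : ∀ k, S.Jp ≤ k → k ≤ M.N → M.G k = M.G S.Jp
  /- plateau: label weight `v / den`, `den` slowly varying on shells, last weight `ue` -/
  plat : ∀ k, S.J ≤ k → k < S.Jp → S.v / S.C ≤ (M.z k - M.z (k - 1)) * S.den (M.z (k - 1)) ∧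
    (M.z k - M.z (k - 1)) * S.den (M.z (k - 1)) ≤ S.C * S.v
  den0 : ∀ x, 0 < S.den x
  dens : ∀ x x', M.z (S.J - 1) ≤ x → x ≤ x' → x' < 1 →
    x' - x ≤ min (x - M.z (S.J - 1) + S.u0) (1 - x') → S.den x ≤ S.C * S.den x' ∧
      S.den x' ≤ S.C * S.den x
  last : 1 - M.z (S.Jp - 1) ≤ S.ue
  F1 : 1 ≤ S.F

/-- ceiling of the marks -/
structure Cei (S : Sc) (M : Md) : Prop where
  up : ∀ k, S.jl + 1 ≤ k → k < S.Jp → M.H (k + 1) - M.H k ≤ S.C * S.F * S.ms (M.s k) * S.v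
  bot : M.H (S.jl + 1) ≤ S.C * S.F * S.ms (M.s S.jl) * M.s S.jl

/-- nodes `k > j0` whose reference time lies in `[t, t']` (`En`: sloped part and plateau) -/
def Md.blk (M : Md) (S : Sc) (t t' : ℝ) : Finset ℕ :=
  (Finset.Ioc S.j0 S.Jp).filter fun k => t ≤ M.s k ∧ M.s k ≤ t'

/-- `∫ |rb - c|^i dx` over the block (`c = M.q` or `M.ck`) -/
def Md.En (M : Md) (S : Sc) (m : ℕ) (a : ℝ) (c : ℕ → ℝ) (i : ℕ) (t t' : ℝ) : ℝ :=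
  ∑ k ∈ M.blk S t t', (M.z k - M.z (k - 1)) * |M.rb m a k - c k| ^ i

/-- prefix of the class statements: margin `E = n^ε`, loss `Λ = n^η`, both arbitrary -/
def CL (P : ℝ → ℝ → Sc → Md → ℕ → ℝ → Prop) : Prop :=
  ∀ C : ℝ, ∀ᶠ A : ℕ in atTop, ∀ ε : ℝ, 0 < ε → ∀ η : ℝ, 0 < η → ∀ᶠ n : ℕ in atTop,
    ∀ (S : Sc) (M : Md), S.C = C → S.A = A → S.n = n → Cl S M → ∀ m a, S.In m a →
      P ((n : ℝ) ^ ε) ((n : ℝ) ^ η) S M m a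

/-- the level `l` is admissible for (L0): above the floor, the root and `n^{-1/6}`, with mass
`m ≥ S^{-11/5}` (units) and small residual, all with the margin `E` -/
structure Lev (E : ℝ) (S : Sc) (M : Md) (l : ℝ) : Prop where
  fl : M.s S.jl ≤ l
  rt : S.amax ≤ l
  lo : E ≤ l * (S.n : ℝ) ^ ((1 : ℝ) / 6)
  ms : E ≤ S.ms l * (S.n : ℝ) ^ ((1 : ℝ) / 3) * (l * (S.n : ℝ) ^ ((1 : ℝ) / 6)) ^ ((11 : ℝ) / 5)
  gr : ∀ t, l ≤ t → E * S.gr t ≤ t ^ 3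
  ml : ∀ t, l ≤ t → t ≤ 1 / S.C → E * S.ms t ≤ t ^ 2

/-- **(L0)** crude location -/
def L0 (E Λ : ℝ) (S : Sc) (M : Md) (m : ℕ) (a : ℝ) : Prop := ∀ l, Lev E S M l →
  ∀ k ≤ S.Jp, M.rb m a k ≤ Λ * max (M.z k) l

/-- sup location below the top window, rms and quartic location on the top window -/
structure Loc (S : Sc) (M : Md) (m : ℕ) (a l : ℝ) (Vs : ℝ → ℝ) (V2 V4 : ℝ) : Prop where
  sup : ∀ k, l ≤ M.s k → M.z k ≤ 1 / (2 * S.C) → |M.del m a k| ≤ Vs (M.s k)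
  rms : M.En S m a M.q 2 (1 / (8 * S.C ^ 2)) S.C ≤ V2
  qua : M.En S m a M.q 4 (1 / (8 * S.C ^ 2)) S.C ≤ V4

end Crest.Agent.T156.Alt

end
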