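import Crest.Agent.T156.CaVar_6
import Crest.Agent.T156.CaLink_33

/-!
# Row 156, cascade frame: simultaneous variance moves (helper21)

`mov`: derivative of the value of a cascade when the variances of all its levels move along `C¹`
curves.  `mov_sk`: the same for kernels that are polynomials of degree two in the overlap.
`gue`: the Guerra move (one W-mark loses variance, a list of fields gains it) inside any prefix
and suffix.
-/

set_option autoImplicit false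
set_option linter.unusedSectionVars false

noncomputable section

namespace Crest.Agent.T156.Cas

open MeasureTheory Real Set Filter Topology
open Crest.Agent.T157.E Crest.Agent.T157.Casc Crest.Agent.T157.SL

/-- a level whose variance is multiplied by `v t` -/
structure ML (Ω : Type) where
  l : Lv Ω
  v : ℝ → ℝ
  v' : ℝ → ℝ

namespace ML

variable {Ω : Type}

/-- the level at time `t` -/
abbrev «at» (p : ML Ω) (t : ℝ) : Lv Ω := lv p.l (p.v t) p.l.m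

/-- a level that does not move -/
def cst (l : Lv Ω) : ML Ω := ⟨l, fun _ => 1, fun _ => 0⟩

/-- variance `a + b t`, tilt `m` -/
def aff (l : Lv Ω) (a b m : ℝ) : ML Ω := ⟨⟨l.ι, l.A, m⟩, fun t => a + b * t, fun _ => b⟩

/-- `C¹` and positive on `I`, or constant -/
def Ok (p : ML Ω) (I : Set ℝ) : Prop :=
  ((∀ t ∈ I, HasDerivAt p.v (p.v' t) t ∧ 0 < p.v t) ∧ ContinuousOn p.v' I) ∨
    ∀ t, p.v t = p.v 0 ∧ p.v' t = 0

/-- as a level with a derivative -/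
def tl (p : ML Ω) : TL Ω :=
  ⟨p.l.ι, fun t x i => √(p.v t) * p.l.A x i, fun t x i => p.v' t / (2 * √(p.v t)) * p.l.A x i, p.l.m⟩

lemma cst_at (l : Lv Ω) (t : ℝ) : (cst l).at t = l := by
  cases l
  simp [cst, ML.at, lv]

lemma aff_at (l : Lv Ω) (a b m t : ℝ) : (aff l a b m).at t = lv l (a + b * t) m := rfl

lemma cst_ok (l : Lv Ω) (I : Set ℝ) : (cst l).Ok I := Or.inr fun _ => ⟨rfl, rfl⟩

lemma aff_ok (l : Lv Ω) (a b m : ℝ) {I : Set ℝ} (h : b = 0 ∨ ∀ t ∈ I, 0 < a + b * t) :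
    (aff l a b m).Ok I := by
  rcases h with h | h
  · exact Or.inr fun t => by simp [aff, h]
  · refine Or.inl ⟨fun t ht => ⟨?_, h t ht⟩, continuousOn_const⟩
    show HasDerivAt (fun t : ℝ => a + b * t) b t
    simpa using ((hasDerivAt_id t).const_mul b).const_add a

lemma Ok.c1 {p : ML Ω} {I : Set ℝ} (h : p.Ok I) : p.tl.C1 I := by
  rcases h with ⟨h, h'⟩ | h
  · refine ⟨fun t ht x i => ((h t ht).1.sqrt (h t ht).2.ne').mul_const _, fun x i => ?_⟩
    have hc : ContinuousOn p.v I := fun t ht => (h t ht).1.continuousAt.continuousWithinAt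
    refine ContinuousOn.mul (ContinuousOn.div h' (continuousOn_const.mul hc.sqrt) fun t ht => ?_)
      continuousOn_const
    have := sqrt_pos.2 (h t ht).2
    positivity
  · refine ⟨fun t _ x i => ?_, fun x i => ?_⟩
    · show HasDerivAt (fun t => √(p.v t) * p.l.A x i) (p.v' t / (2 * √(p.v t)) * p.l.A x i) t
      simp only [fun t => (h t).1, (h t).2, zero_div, zero_mul]
      exact hasDerivAt_const _ _
    · show ContinuousOn (fun t => p.v' t / (2 * √(p.v t)) * p.l.A x i) I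
      simp only [fun t => (h t).2, zero_div, zero_mul]
      exact continuousOn_const

lemma Ok.S {p : ML Ω} {I : Set ℝ} (h : p.Ok I) {t : ℝ} (ht : t ∈ I) (x y : Ω) :
    p.tl.S t x y = p.v' t / 2 * p.l.cov x y := by
  show ∑ i : p.l.ι, p.v' t / (2 * √(p.v t)) * p.l.A x i * (√(p.v t) * p.l.A y i) = _
  rw [Lv.cov, Finset.mul_sum]
  refine Finset.sum_congr rfl fun i _ => ?_
  rcases h with ⟨h, -⟩ | h
  · have := (sqrt_pos.2 (h t ht).2).ne'
    field_simp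
  · simp [(h t).2]

end ML

variable {Ω : Type}

/-- the cascade at time `t` -/
def mat (L : List (ML Ω)) (t : ℝ) : List (Lv Ω) := L.map fun p => p.at t

/-- derivative of the accumulated covariance of the first `j` levels -/
def dcov (L : List (ML Ω)) (t : ℝ) (j : ℕ) (x y : Ω) : ℝ :=
  ((L.take j).map fun p => p.v' t * p.l.cov x y).sum

lemma mat_length (L : List (ML Ω)) (t : ℝ) : (mat L t).length = L.length := by simp [mat]

lemma mat_append (L M : List (ML Ω)) (t : ℝ) : mat (L ++ M) t = mat L t ++ mat M t := by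
  simp [mat]

lemma mat_cons (p : ML Ω) (L : List (ML Ω)) (t : ℝ) : mat (p :: L) t = p.at t :: mat L t := rfl

lemma mat_cst (L : List (Lv Ω)) (t : ℝ) : mat (L.map ML.cst) t = L := by
  induction L with
  | nil => rfl
  | cons l L ih => rw [List.map_cons, mat_cons, ih, ML.cst_at]

lemma atL_tl (L : List (ML Ω)) (t : ℝ) : atL (L.map ML.tl) t = mat L t := by
  simp only [atL, mat, List.map_map]
  rfl

lemma dcov_zero (L : List (ML Ω)) (t : ℝ) : dcov L t 0 = fun _ _ => 0 := by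
  ext x y; simp [dcov]

lemma dcov_cons (p : ML Ω) (L : List (ML Ω)) (t : ℝ) (j : ℕ) (x y : Ω) :
    dcov (p :: L) t (j + 1) x y = p.v' t * p.l.cov x y + dcov L t j x y := by simp [dcov]

lemma dcov_nil (t : ℝ) (j : ℕ) (x y : Ω) : dcov ([] : List (ML Ω)) t j x y = 0 := by simp [dcov]

lemma dcov_append (M : List (ML Ω)) (t : ℝ) (x y : Ω) : ∀ (L : List (ML Ω)) (j : ℕ),
    dcov (L ++ M) t j x y = dcov L t j x y + dcov M t (j - L.length) x y
  | [], j => by simp [dcov_nil]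
  | p :: L, 0 => by simp [dcov_zero]
  | p :: L, j + 1 => by
    rw [List.cons_append, dcov_cons, dcov_cons, dcov_append M t x y L j, List.length_cons,
      Nat.add_sub_add_right, add_assoc]

lemma dcov_cst (t : ℝ) (x y : Ω) : ∀ (L : List (Lv Ω)) (j : ℕ), dcov (L.map ML.cst) t j x y = 0
  | [], j => dcov_nil t j x y
  | _ :: _, 0 => by simp [dcov_zero]
  | l :: L, j + 1 => by rw [List.map_cons, dcov_cons, dcov_cst t x y L j]; simp [ML.cst]

lemma Sacc_tl {I : Set ℝ} {t : ℝ} (ht : t ∈ I) (x y : Ω) : ∀ (L : List (ML Ω)),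
    (∀ p ∈ L, p.Ok I) → ∀ j, Sacc (L.map ML.tl) t j x y = 1 / 2 * dcov L t j x y
  | [], _, j => by simp [Sacc, dcov]
  | _ :: _, _, 0 => by simp [Sacc, dcov]
  | p :: L, h, j + 1 => by
    have e := Sacc_tl ht x y L (fun q hq => h q (List.mem_cons_of_mem p hq)) j
    have e1 : Sacc ((p :: L).map ML.tl) t (j + 1) x y =
        p.tl.S t x y + Sacc (L.map ML.tl) t j x y := by simp [Sacc]
    rw [e1, e, dcov_cons, (h p (by simp)).S ht]
    ring

variable [Fintype Ω] {w : Ω → ℝ}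

/-- the derivative -/
def mD (w : Ω → ℝ) (L : List (ML Ω)) (h : Ω → ℝ) (t : ℝ) : ℝ :=
  (Pf w (mat L t) h (fun x => dcov L t L.length x x) -
    ∑ j ∈ Finset.range (L.length + 1), dm (mat L t) 0 j * pi2 w (mat L t) j (dcov L t j) h) / 2

/-- **simultaneous variance moves** -/
theorem mov (hw : Wt w) {I : Set ℝ} (hI : IsOpen I) {L : List (ML Ω)} (hL : ∀ p ∈ L, p.Ok I)
    {t : ℝ} (ht : t ∈ I) (h : Ω → ℝ) :
    HasDerivAt (fun t => X w (mat L t) h) (mD w L h t) t := by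
  have hC : ∀ k ∈ L.map ML.tl, k.C1 I := by
    intro k hk
    obtain ⟨p, hp, rfl⟩ := List.mem_map.1 hk
    exact (hL p hp).c1
  have hd := hasDerivAt_X hw hI hC ht (b := fun _ => h) (b' := 0) fun x => hasDerivAt_const t (h x)
  simp only [atL_tl] at hd
  refine hd.congr_deriv ?_
  have hS : ∀ j, Sacc (L.map ML.tl) t j = fun x y => 1 / 2 * dcov L t j x y := fun j => by
    ext x y; exact Sacc_tl ht x y L hL j
  rw [DX, pair_eq_sum hw, atL_tl, mat_length, List.length_map, mD, sub_div, Pf, Finset.sum_div,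
    Finset.sum_div]
  congr 1
  · refine Finset.sum_congr rfl fun x _ => ?_
    rw [hS]
    simp only [Pi.zero_apply, zero_add]
    ring
  · refine Finset.sum_congr rfl fun j _ => ?_
    rw [hS, pi2_const_mul]
    ring

lemma tl_okC {L : List (ML Ω)} {K : Set ℝ} (hK : IsCompact K) (hL : ∀ p ∈ L, ContinuousOn p.v K) :
    ∀ k ∈ L.map ML.tl, k.OkC K := by
  intro k hk
  obtain ⟨p, hp, rfl⟩ := List.mem_map.1 hk
  exact TL.okC_of_compact hK fun x i => (hL p hp).sqrt.mul continuousOn_const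

theorem mov_cont (hw : Wt w) {L : List (ML Ω)} {K : Set ℝ} (hK : IsCompact K)
    (hL : ∀ p ∈ L, ContinuousOn p.v K) (h : Ω → ℝ) :
    ContinuousOn (fun t => X w (mat L t) h) K := by
  have := continuousOn_X hw (tl_okC hK hL) (b := fun _ => h) fun _ => continuousOn_const
  simpa only [atL_tl] using this

theorem mov_cont_pi2 (hw : Wt w) {L : List (ML Ω)} {K : Set ℝ} (hK : IsCompact K)
    (hL : ∀ p ∈ L, ContinuousOn p.v K) (j : ℕ) (Q : Ω → Ω → ℝ) (h : Ω → ℝ) :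
    ContinuousOn (fun t => pi2 w (mat L t) j Q h) K := by
  have := (Var6.eg_pi2P hw Q _ (tl_okC hK hL) j).cont.comp
    (f := fun ρ : ℝ => ((ρ, h) : Pt Ω)) (s := K) (by fun_prop) fun _ ht => ⟨ht, trivial⟩
  simpa only [Function.comp_def, atL_tl] using this

/-- mean value form -/
theorem mov_mvt (hw : Wt w) {L : List (ML Ω)} {a c : ℝ} (hac : a < c)
    (hC : ∀ p ∈ L, ContinuousOn p.v (Icc a c)) (hL : ∀ p ∈ L, p.Ok (Ioo a c)) (h : Ω → ℝ) :
    ∃ t ∈ Ioo a c, X w (mat L c) h - X w (mat L a) h = (c - a) * mD w L h t := by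
  obtain ⟨t, ht, e⟩ := exists_hasDerivAt_eq_slope (fun t => X w (mat L t) h) (mD w L h) hac
    (mov_cont hw isCompact_Icc hC h) fun t ht => mov hw isOpen_Ioo hL ht h
  exact ⟨t, ht, by rw [e, mul_div_cancel₀ _ (sub_pos.2 hac).ne']⟩

omit [Fintype Ω] in
/-- the tilts do not move -/
lemma ex_mat (L : List (ML Ω)) (s t : ℝ) (j : ℕ) : ex (mat L s) j = ex (mat L t) j := by
  simp only [ex, mat, List.getElem?_map]
  cases L[j]? <;> rfl

omit [Fintype Ω] in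
lemma dm_mat (L : List (ML Ω)) (s t m0 : ℝ) (j : ℕ) : dm (mat L s) m0 j = dm (mat L t) m0 j := by
  cases j <;> simp only [dm, exP, ex_mat L s t]

/-- kernels of degree two in a similarity `R` with `R x x = 1` on the support -/
theorem mD_sk (hw : Wt w) (L : List (ML Ω)) (h : Ω → ℝ) (t : ℝ) (R : Ω → Ω → ℝ)
    (hR : ∀ x, R x x = 1) (A B C : ℕ → ℝ)
    (hK : ∀ j ≤ L.length, ∀ x y, dcov L t j x y = A j * R x y ^ 2 + B j * R x y + C j) :
    mD w L h t = (A L.length + B L.length + C L.length -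
      ∑ j ∈ Finset.range (L.length + 1), dm (mat L t) 0 j *
        (A j * pi2 w (mat L t) j (fun x y => R x y ^ 2) h + B j * pi2 w (mat L t) j R h + C j)) / 2 := by
  rw [mD]
  congr 2
  · simp only [Pf, hK _ le_rfl, hR, one_pow, mul_one, ← Finset.sum_mul, sum_P hw, one_mul]
  · refine Finset.sum_congr rfl fun j hj => ?_
    have hj' : j ≤ L.length := Nat.lt_succ_iff.1 (Finset.mem_range.1 hj)
    rw [show dcov L t j = fun x y => A j * R x y ^ 2 + B j * R x y + C j from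
      funext fun x => funext fun y => hK j hj' x y, pi2_add hw, pi2_add hw, pi2_const_mul,
      pi2_const_mul, pi2_const hw]

/-! ### summation by parts -/

omit [Fintype Ω] in
lemma abel_dm (L : List (Lv Ω)) (m0 : ℝ) (f : ℕ → ℝ) (K : ℕ) :
    ∑ j ∈ Finset.range (K + 1), dm L m0 j * f j =
      ex L K * f K - m0 * f 0 - ∑ j ∈ Finset.range K, ex L j * (f (j + 1) - f j) := by
  induction K with
  | zero => simp [dm, exP, sub_mul]
  | succ K ih =>
    rw [Finset.sum_range_succ, ih, Finset.sum_range_succ]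
    simp only [dm, exP]
    ring

omit [Fintype Ω] in
lemma dm_app (L M : List (Lv Ω)) (l : Lv Ω) (m0 : ℝ) (j : ℕ) :
    dm (L ++ l :: M) m0 (L.length + 1 + j) = dm M l.m j := by
  induction L generalizing m0 with
  | nil => rw [List.nil_append, List.length_nil, zero_add, add_comm, dm_cons_succ]
  | cons k L ih =>
    rw [List.cons_append, List.length_cons, show L.length + 1 + 1 + j = (L.length + 1 + j) + 1 by omega,
      dm_cons_succ, ih]

/-! ### the Guerra move -/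

/-- the fields: tilt `p.1`, variance `u p + d * p.2` -/
def gF (lF : Lv Ω) (ℓ : List (ℝ × ℝ × ℝ)) (d : ℝ) : List (Lv Ω) :=
  ℓ.map fun p => lv lF (p.2.1 + p.2.2 * d) p.1

/-- prefix `M`, the mark that loses variance (tilt `a`), the fields (tilt, background variance,
slope), suffix `N` -/
def gL (M N : List (Lv Ω)) (lW lF : Lv Ω) (a v0 : ℝ) (ℓ : List (ℝ × ℝ × ℝ)) (d : ℝ) : List (Lv Ω) :=
  M ++ lv lW (v0 - d) a :: (gF lF ℓ d ++ N)

/-- the reference overlap after `j` fields -/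
def gq (ℓ : List (ℝ × ℝ × ℝ)) (j : ℕ) : ℝ := ((ℓ.take j).map fun p => p.2.2).sum

/-- the correction `∑ x_k (q_{k+1}² - q_k²) - (1 - q_K)²` -/
def gc (ℓ : List (ℝ × ℝ × ℝ)) : ℝ :=
  ∑ k ∈ Finset.range ℓ.length, (ℓ.getD k 0).1 * (gq ℓ (k + 1) ^ 2 - gq ℓ k ^ 2) -
    (1 - gq ℓ ℓ.length) ^ 2

/-- the remainder `∫_a^1 E (R_s - q_s)² ds` -/
def gR (w : Ω → ℝ) (M N : List (Lv Ω)) (lW lF : Lv Ω) (a v0 : ℝ) (ℓ : List (ℝ × ℝ × ℝ))
    (R : Ω → Ω → ℝ) (h : Ω → ℝ) (d : ℝ) : ℝ :=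
  ∑ j ∈ Finset.range (ℓ.length + N.length + 1), dm (gF lF ℓ d ++ N) a j *
    pi2 w (gL M N lW lF a v0 ℓ d) (M.length + 1 + j) (fun x y => (R x y - gq ℓ j) ^ 2) h

/-- the moving list -/
def gM (M N : List (Lv Ω)) (lW lF : Lv Ω) (a v0 : ℝ) (ℓ : List (ℝ × ℝ × ℝ)) : List (ML Ω) :=
  M.map ML.cst ++ ML.aff lW v0 (-1) a ::
    (ℓ.map (fun p => ML.aff lF p.2.1 p.2.2 p.1) ++ N.map ML.cst)

omit [Fintype Ω] in
lemma gM_at (M N : List (Lv Ω)) (lW lF : Lv Ω) (a v0 : ℝ) (ℓ : List (ℝ × ℝ × ℝ)) (d : ℝ) :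
    mat (gM M N lW lF a v0 ℓ) d = gL M N lW lF a v0 ℓ d := by
  rw [gM, mat_append, mat_cons, mat_append, mat_cst, mat_cst, ML.aff_at, neg_one_mul,
    ← sub_eq_add_neg, gL, gF, mat, List.map_map]
  rfl

omit [Fintype Ω] in
lemma gq_zero (ℓ : List (ℝ × ℝ × ℝ)) : gq ℓ 0 = 0 := by simp [gq]

omit [Fintype Ω] in
lemma gq_of_le (ℓ : List (ℝ × ℝ × ℝ)) {j : ℕ} (hj : ℓ.length ≤ j) : gq ℓ j = gq ℓ ℓ.length := by
  simp [gq, List.take_of_length_le hj]

omit [Fintype Ω] in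
lemma dcov_aff (lF : Lv Ω) (t : ℝ) (x y : Ω) : ∀ (ℓ : List (ℝ × ℝ × ℝ)) (j : ℕ),
    dcov (ℓ.map fun p => ML.aff lF p.2.1 p.2.2 p.1) t j x y = gq ℓ j * lF.cov x y
  | [], j => by simp [dcov, gq]
  | _ :: _, 0 => by simp [dcov, gq]
  | p :: ℓ, j + 1 => by
    rw [List.map_cons, dcov_cons, dcov_aff lF t x y ℓ j]
    have : gq (p :: ℓ) (j + 1) = p.2.2 + gq ℓ j := by simp [gq]
    rw [this, add_mul]
    rfl

omit [Fintype Ω] in
lemma dcov_gM (M N : List (Lv Ω)) (lW lF : Lv Ω) (a v0 : ℝ) (ℓ : List (ℝ × ℝ × ℝ)) (t : ℝ)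
    (x y : Ω) : (∀ j ≤ M.length, dcov (gM M N lW lF a v0 ℓ) t j x y = 0) ∧
    ∀ j, dcov (gM M N lW lF a v0 ℓ) t (M.length + 1 + j) x y =
      -lW.cov x y + gq ℓ j * lF.cov x y := by
  refine ⟨fun j hj => ?_, fun j => ?_⟩
  · rw [gM, dcov_append, dcov_cst, List.length_map, Nat.sub_eq_zero_of_le hj, dcov_zero, add_zero]
  · rw [gM, dcov_append, dcov_cst, List.length_map, show M.length + 1 + j - M.length = j + 1 by omega,
      dcov_cons, dcov_append, dcov_cst, dcov_aff, zero_add, add_zero]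
    show -1 * lW.cov x y + _ = _
    ring

omit [Fintype Ω] in
lemma ex_gF (lF : Lv Ω) (N : List (Lv Ω)) (d : ℝ) (ℓ : List (ℝ × ℝ × ℝ)) {k : ℕ}
    (hk : k < ℓ.length) : ex (gF lF ℓ d ++ N) k = (ℓ.getD k 0).1 := by
  have h1 : k < (gF lF ℓ d).length := by simpa [gF] using hk
  simp only [ex, List.getElem?_append_left h1]
  simp [gF, List.getElem?_eq_getElem hk]

omit [Fintype Ω] in
lemma sum_dm_gq (lF : Lv Ω) (N : List (Lv Ω)) (d a : ℝ) (ℓ : List (ℝ × ℝ × ℝ)) :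
    ∑ j ∈ Finset.range (ℓ.length + N.length + 1), dm (gF lF ℓ d ++ N) a j * gq ℓ j ^ 2 =
      2 * gq ℓ ℓ.length - 1 - gc ℓ := by
  have hl : (gF lF ℓ d ++ N).length = ℓ.length + N.length := by simp [gF]
  rw [abel_dm _ _ (fun j => gq ℓ j ^ 2), ← hl, ex_length, hl, gq_zero,
    gq_of_le ℓ (Nat.le_add_right _ _), Finset.sum_range_add,
    Finset.sum_eq_zero (s := Finset.range N.length) fun j _ => by
      rw [gq_of_le ℓ (j := ℓ.length + j + 1) (by omega), gq_of_le ℓ (j := ℓ.length + j) (by omega),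
        sub_self, mul_zero],
    Finset.sum_congr rfl fun k hk => by rw [ex_gF lF N d ℓ (Finset.mem_range.1 hk)], gc]
  ring

lemma gM_ok (M N : List (Lv Ω)) (lW lF : Lv Ω) (a v0 : ℝ) (ℓ : List (ℝ × ℝ × ℝ)) {I : Set ℝ}
    (h0 : ∀ t ∈ I, t < v0) (h1 : ∀ p ∈ ℓ, p.2.2 = 0 ∨ ∀ t ∈ I, 0 < p.2.1 + p.2.2 * t) :
    ∀ p ∈ gM M N lW lF a v0 ℓ, p.Ok I := by
  intro p hp
  simp only [gM, List.mem_append, List.mem_cons, List.mem_map] at hp
  rcases hp with ⟨l, -, rfl⟩ | rfl | ⟨q, hq, rfl⟩ | ⟨l, -, rfl⟩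
  · exact ML.cst_ok _ _
  · exact ML.aff_ok _ _ _ _ (Or.inr fun t ht => by linarith [h0 t ht])
  · exact ML.aff_ok _ _ _ _ (h1 q hq)
  · exact ML.cst_ok _ _

lemma gM_cont (M N : List (Lv Ω)) (lW lF : Lv Ω) (a v0 : ℝ) (ℓ : List (ℝ × ℝ × ℝ)) (K : Set ℝ) :
    ∀ p ∈ gM M N lW lF a v0 ℓ, ContinuousOn p.v K := by
  intro p hp
  simp only [gM, List.mem_append, List.mem_cons, List.mem_map] at hp
  rcases hp with ⟨l, -, rfl⟩ | rfl | ⟨q, -, rfl⟩ | ⟨l, -, rfl⟩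
  · exact continuousOn_const
  · show ContinuousOn (fun t : ℝ => v0 + -1 * t) K
    fun_prop
  · show ContinuousOn (fun t : ℝ => q.2.1 + q.2.2 * t) K
    fun_prop
  · exact continuousOn_const

lemma mD_gM (hw : Wt w) (M N : List (Lv Ω)) {lW lF : Lv Ω} (a v0 : ℝ) (ℓ : List (ℝ × ℝ × ℝ))
    {R : Ω → Ω → ℝ} {c : ℝ} (hR : ∀ x, R x x = 1) (hW : ∀ x y, lW.cov x y = c / 2 * R x y ^ 2)
    (hF : ∀ x y, lF.cov x y = c * R x y) (h : Ω → ℝ) (d : ℝ) :
    mD w (gM M N lW lF a v0 ℓ) h d = c / 4 * (gc ℓ + gR w M N lW lF a v0 ℓ R h d) := by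
  have hl : (gM M N lW lF a v0 ℓ).length = M.length + 1 + (ℓ.length + N.length) := by
    simp [gM]; omega
  have hK := dcov_gM M N lW lF a v0 ℓ d
  have e1 : ∀ j, dcov (gM M N lW lF a v0 ℓ) d (M.length + 1 + j) =
      fun x y => -(c / 2) * (R x y - gq ℓ j) ^ 2 + c / 2 * gq ℓ j ^ 2 := fun j => by
    ext x y; rw [(hK x y).2, hW, hF]; ring
  rw [mD, hl, show M.length + 1 + (ℓ.length + N.length) + 1 =
    (M.length + 1) + (ℓ.length + N.length + 1) by omega, Finset.sum_range_add,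
    Finset.sum_eq_zero (s := Finset.range (M.length + 1)) fun j hj => by
      rw [show dcov (gM M N lW lF a v0 ℓ) d j = fun _ _ => 0 from funext fun x => funext fun y =>
        (hK x y).1 j (Nat.lt_succ_iff.1 (Finset.mem_range.1 hj)), pi2_const hw, mul_zero]]
  simp only [e1, pi2_add hw, pi2_const_mul, pi2_const hw, gM_at, hR, Pf, ← Finset.sum_mul, sum_P hw]
  have e2 : ∀ j, dm (gL M N lW lF a v0 ℓ d) 0 (M.length + 1 + j) = dm (gF lF ℓ d ++ N) a j :=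
    fun j => dm_app _ _ _ _ j
  have e3 := sum_dm_gq lF N d a ℓ
  simp only [e2, mul_add, Finset.sum_add_distrib, gq_of_le ℓ (Nat.le_add_right _ N.length)]
  have e4 : ∑ j ∈ Finset.range (ℓ.length + N.length + 1),
      dm (gF lF ℓ d ++ N) a j * (c / 2 * gq ℓ j ^ 2) = c / 2 * (2 * gq ℓ ℓ.length - 1 - gc ℓ) := by
    rw [← e3, Finset.mul_sum]
    exact Finset.sum_congr rfl fun j _ => by ring
  have e5 : ∑ j ∈ Finset.range (ℓ.length + N.length + 1), dm (gF lF ℓ d ++ N) a j * (-(c / 2) *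
      pi2 w (gL M N lW lF a v0 ℓ d) (M.length + 1 + j) (fun x y => (R x y - gq ℓ j) ^ 2) h) =
      -(c / 2) * gR w M N lW lF a v0 ℓ R h d := by
    rw [gR, Finset.mul_sum]
    exact Finset.sum_congr rfl fun j _ => by ring
  rw [e4, e5]
  ring

/-- **the Guerra move** inside any prefix and suffix -/
theorem gue (hw : Wt w) (M N : List (Lv Ω)) {lW lF : Lv Ω} (a v0 : ℝ) {ℓ : List (ℝ × ℝ × ℝ)}
    {R : Ω → Ω → ℝ} {c : ℝ} (hR : ∀ x, R x x = 1) (hW : ∀ x y, lW.cov x y = c / 2 * R x y ^ 2)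
    (hF : ∀ x y, lF.cov x y = c * R x y) (h : Ω → ℝ) {d : ℝ} (hd : d < v0)
    (hℓ : ∀ p ∈ ℓ, p.2.2 = 0 ∨ 0 < p.2.1 + p.2.2 * d) :
    HasDerivAt (fun d => X w (gL M N lW lF a v0 ℓ d) h - d * (c / 4 * gc ℓ))
      (c / 4 * gR w M N lW lF a v0 ℓ R h d) d := by
  set I : Set ℝ := Iio v0 ∩ ⋂ p ∈ {p | p ∈ ℓ ∧ p.2.2 ≠ 0}, {t | 0 < p.2.1 + p.2.2 * t} with hI
  have hfin : {p : ℝ × ℝ × ℝ | p ∈ ℓ ∧ p.2.2 ≠ 0}.Finite :=
    (List.finite_toSet ℓ).subset fun p hp => hp.1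
  have hO : IsOpen I := isOpen_Iio.inter
    (hfin.isOpen_biInter fun p _ => isOpen_lt continuous_const (by fun_prop))
  have hdI : d ∈ I := ⟨hd, mem_iInter₂.2 fun p hp => (hℓ p hp.1).resolve_left hp.2⟩
  have h1 := mov hw hO (gM_ok M N lW lF a v0 ℓ (I := I) (fun t ht => ht.1) fun p hp => by
    by_cases h0 : p.2.2 = 0
    · exact Or.inl h0
    · exact Or.inr fun t ht => mem_iInter₂.1 ht.2 p ⟨hp, h0⟩) hdI h
  simp only [gM_at] at h1
  rw [mD_gM hw M N a v0 ℓ hR hW hF] at h1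
  refine (h1.sub ((hasDerivAt_id d).mul_const _)).congr_deriv ?_
  ring

theorem gue_cont (hw : Wt w) (M N : List (Lv Ω)) (lW lF : Lv Ω) (a v0 : ℝ) (ℓ : List (ℝ × ℝ × ℝ))
    (h : Ω → ℝ) : Continuous fun d => X w (gL M N lW lF a v0 ℓ d) h := by
  refine continuous_iff_continuousAt.2 fun d => ?_
  have := mov_cont hw (isCompact_Icc (a := d - 1) (b := d + 1)) (gM_cont M N lW lF a v0 ℓ _) h
  simp only [gM_at] at this
  exact this.continuousAt (Icc_mem_nhds (by linarith) (by linarith))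

theorem gue_cont_pi2 (hw : Wt w) (M N : List (Lv Ω)) (lW lF : Lv Ω) (a v0 : ℝ)
    (ℓ : List (ℝ × ℝ × ℝ)) (j : ℕ) (Q : Ω → Ω → ℝ) (h : Ω → ℝ) :
    Continuous fun d => pi2 w (gL M N lW lF a v0 ℓ d) j Q h := by
  refine continuous_iff_continuousAt.2 fun d => ?_
  have := mov_cont_pi2 hw (isCompact_Icc (a := d - 1) (b := d + 1)) (gM_cont M N lW lF a v0 ℓ _) j Q h
  simp only [gM_at] at this
  exact this.continuousAt (Icc_mem_nhds (by linarith) (by linarith))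

omit [Fintype Ω] in
lemma dm_gF (lF : Lv Ω) (N : List (Lv Ω)) (ℓ : List (ℝ × ℝ × ℝ)) (a d d' : ℝ) (j : ℕ) :
    dm (gF lF ℓ d ++ N) a j = dm (gF lF ℓ d' ++ N) a j := by
  have e : ∀ d, gF lF ℓ d ++ N =
      mat (ℓ.map (fun p => ML.aff lF p.2.1 p.2.2 p.1) ++ N.map ML.cst) d := fun d => by
    rw [mat_append, mat_cst, gF, mat, List.map_map]; rfl
  rw [e, e, dm_mat]

theorem gR_cont (hw : Wt w) (M N : List (Lv Ω)) (lW lF : Lv Ω) (a v0 : ℝ) (ℓ : List (ℝ × ℝ × ℝ))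
    (R : Ω → Ω → ℝ) (h : Ω → ℝ) : Continuous (gR w M N lW lF a v0 ℓ R h) := by
  have e : gR w M N lW lF a v0 ℓ R h = fun d =>
      ∑ j ∈ Finset.range (ℓ.length + N.length + 1), dm (gF lF ℓ 0 ++ N) a j *
        pi2 w (gL M N lW lF a v0 ℓ d) (M.length + 1 + j) (fun x y => (R x y - gq ℓ j) ^ 2) h := by
    ext d; simp only [gR, dm_gF lF N ℓ a d 0]
  rw [e]
  exact continuous_finsetSum _ fun j _ => continuous_const.mul (gue_cont_pi2 hw M N lW lF a v0 ℓ _ _ h)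

theorem gR_nonneg (hw : Wt w) (M N : List (Lv Ω)) (lW lF : Lv Ω) (a v0 : ℝ) (ℓ : List (ℝ × ℝ × ℝ))
    (R : Ω → Ω → ℝ) (h : Ω → ℝ) (d : ℝ) (hm : Mono a (gF lF ℓ d ++ N)) :
    0 ≤ gR w M N lW lF a v0 ℓ R h d :=
  Finset.sum_nonneg fun j _ => mul_nonneg (dm_nonneg hm j)
    (pi2_nonneg hw _ _ (fun _ _ => sq_nonneg _) h)

theorem gR_le (hw : Wt w) (M N : List (Lv Ω)) (lW lF : Lv Ω) (a v0 : ℝ) (ℓ : List (ℝ × ℝ × ℝ))
    {R : Ω → Ω → ℝ} (h : Ω → ℝ) (d : ℝ) (hm : Mono a (gF lF ℓ d ++ N)) {B : ℝ}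
    (hB : ∀ j x y, (R x y - gq ℓ j) ^ 2 ≤ B) : gR w M N lW lF a v0 ℓ R h d ≤ (1 - a) * B := by
  have hl : (gF lF ℓ d ++ N).length = ℓ.length + N.length := by simp [gF]
  have := sum_dm (gF lF ℓ d ++ N) a (ℓ.length + N.length)
  rw [← hl, ex_length, hl] at this
  rw [← this, Finset.sum_mul]
  refine Finset.sum_le_sum fun j _ => mul_le_mul_of_nonneg_left ?_ (dm_nonneg hm j)
  exact (pi2_mono hw _ _ (hB j) h).trans (pi2_const hw _ _ B h).le

/-- integrated form -/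
theorem gue_int (hw : Wt w) (M N : List (Lv Ω)) {lW lF : Lv Ω} (a v0 : ℝ) {ℓ : List (ℝ × ℝ × ℝ)}
    {R : Ω → Ω → ℝ} {c : ℝ} (hR : ∀ x, R x x = 1) (hW : ∀ x y, lW.cov x y = c / 2 * R x y ^ 2)
    (hF : ∀ x y, lF.cov x y = c * R x y) (h : Ω → ℝ) {d0 d1 : ℝ} (h01 : d0 ≤ d1) (hd : d1 ≤ v0)
    (hℓ : ∀ p ∈ ℓ, 0 ≤ p.2.2 ∧ 0 ≤ p.2.1 + p.2.2 * d0) :
    X w (gL M N lW lF a v0 ℓ d1) h - X w (gL M N lW lF a v0 ℓ d0) h =
      (d1 - d0) * (c / 4 * gc ℓ) + c / 4 * ∫ d in d0..d1, gR w M N lW lF a v0 ℓ R h d := by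
  have h1 := intervalIntegral.integral_eq_sub_of_hasDerivAt_of_le h01
    (f := fun d => X w (gL M N lW lF a v0 ℓ d) h - d * (c / 4 * gc ℓ))
    (f' := fun d => c / 4 * gR w M N lW lF a v0 ℓ R h d)
    (((gue_cont hw M N lW lF a v0 ℓ h).sub (by fun_prop)).continuousOn)
    (fun d hd' => gue hw M N a v0 hR hW hF h (hd'.2.trans_le hd) fun p hp => by
      rcases (hℓ p hp).1.eq_or_lt with e | e
      · exact Or.inl e.symm
      · exact Or.inr (by nlinarith [(hℓ p hp).2, hd'.1]))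
    ((continuous_const.mul (gR_cont hw M N lW lF a v0 ℓ R h)).intervalIntegrable _ _)
  rw [intervalIntegral.integral_const_mul] at h1
  linarith

/-! ### equal slices -/

omit [Fintype Ω] in
lemma gF_ofFn (lF : Lv Ω) {K : ℕ} (x : Fin K → ℝ) (u s d : ℝ) :
    gF lF (List.ofFn fun k => (x k, u, s)) d = List.ofFn fun k => lv lF (u + s * d) (x k) := by
  rw [gF, List.map_ofFn]; rfl

omit [Fintype Ω] in
lemma gq_ofFn {K : ℕ} (x : Fin K → ℝ) (u s : ℝ) (j : ℕ) :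
    gq (List.ofFn fun k => (x k, u, s)) j = (min j K : ℕ) * s := by
  rw [gq, List.map_take, List.map_ofFn]
  have : (List.ofFn ((fun p : ℝ × ℝ × ℝ => p.2.2) ∘ fun k => (x k, u, s))) = List.replicate K s := by
    rw [← List.ofFn_const]; rfl
  rw [this, List.take_replicate, List.sum_replicate, nsmul_eq_mul]

omit [Fintype Ω] in
lemma gc_ofFn {K : ℕ} (x : Fin K → ℝ) (u s : ℝ) :
    gc (List.ofFn fun k => (x k, u, s)) =
      ∑ k : Fin K, x k * ((2 * (k : ℕ) + 1) * s ^ 2) - (1 - K * s) ^ 2 := by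
  rw [gc, List.length_ofFn, gq_ofFn, min_self, ← Fin.sum_univ_eq_sum_range
    (fun k => ((List.ofFn fun k => (x k, u, s)).getD k 0).1 *
      (gq (List.ofFn fun k => (x k, u, s)) (k + 1) ^ 2 - gq (List.ofFn fun k => (x k, u, s)) k ^ 2))]
  congr 1
  refine Finset.sum_congr rfl fun k _ => ?_
  rw [gq_ofFn, gq_ofFn, min_eq_left (Nat.succ_le_of_lt k.2), min_eq_left k.2.le]
  have : ((List.ofFn fun k => (x k, u, s)).getD k 0).1 = x k := by simp
  rw [this]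
  push_cast
  ring

/-- monotone and Lipschitz in `d` -/
theorem gue_lip (hw : Wt w) (M N : List (Lv Ω)) {lW lF : Lv Ω} (a v0 : ℝ) {ℓ : List (ℝ × ℝ × ℝ)}
    {R : Ω → Ω → ℝ} {c : ℝ} (hc : 0 ≤ c) (hR : ∀ x, R x x = 1)
    (hW : ∀ x y, lW.cov x y = c / 2 * R x y ^ 2) (hF : ∀ x y, lF.cov x y = c * R x y) (h : Ω → ℝ)
    {d0 d1 : ℝ} (h01 : d0 ≤ d1) (hd : d1 ≤ v0) (hℓ : ∀ p ∈ ℓ, 0 ≤ p.2.2 ∧ 0 ≤ p.2.1 + p.2.2 * d0)
    (hm : ∀ d, Mono a (gF lF ℓ d ++ N)) {B : ℝ} (hB : ∀ j x y, (R x y - gq ℓ j) ^ 2 ≤ B) :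
    (X w (gL M N lW lF a v0 ℓ d1) h - d1 * (c / 4 * gc ℓ)) -
      (X w (gL M N lW lF a v0 ℓ d0) h - d0 * (c / 4 * gc ℓ)) ∈
        Icc 0 (c / 4 * ((1 - a) * B) * (d1 - d0)) := by
  have e := gue_int hw M N a v0 hR hW hF h h01 hd hℓ
  have hi := (gR_cont hw M N lW lF a v0 ℓ R h).intervalIntegrable (μ := volume) d0 d1
  have h1 : 0 ≤ ∫ d in d0..d1, gR w M N lW lF a v0 ℓ R h d :=
    intervalIntegral.integral_nonneg h01 fun d _ => gR_nonneg hw M N lW lF a v0 ℓ R h d (hm d)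
  have h2 : ∫ d in d0..d1, gR w M N lW lF a v0 ℓ R h d ≤ ∫ _ in d0..d1, (1 - a) * B :=
    intervalIntegral.integral_mono_on h01 hi (by simp) fun d _ =>
      gR_le hw M N lW lF a v0 ℓ h d (hm d) hB
  rw [intervalIntegral.integral_const, smul_eq_mul] at h2
  have h3 := mul_le_mul_of_nonneg_left h2 (show 0 ≤ c / 4 by positivity)
  have h4 := mul_nonneg (show 0 ≤ c / 4 by positivity) h1
  constructor <;> nlinarith

/-! ### the SK model -/

section sk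
open Crest.Agent.T157.G1 (ov Jw fl)

/-- the field with covariance `β² n R` -/
abbrev fF (n : ℕ) (β : ℝ) : Lv (Cube n) := fl n β (0, 1)

lemma ov_self {n : ℕ} (hn : 0 < n) (x : Cube n) : ov x x = 1 := by
  have hn' : (n : ℝ) ≠ 0 := Nat.cast_ne_zero.2 hn.ne'
  simp [ov, dotProduct, Link33.sv_sq, hn']

lemma abs_ov_le {n : ℕ} (x y : Cube n) : |ov x y| ≤ 1 := by
  rcases Nat.eq_zero_or_pos n with rfl | hn
  · simp [ov]
  have hn' : (0 : ℝ) < n := Nat.cast_pos.2 hn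
  rw [ov, abs_div, abs_of_pos hn', div_le_one hn', dotProduct]
  refine (Finset.abs_sum_le_sum_abs _ _).trans ?_
  have : ∀ i, |sv x i * sv y i| ≤ 1 := fun i => by
    have h1 := Link33.sv_sq x i
    have h2 := Link33.sv_sq y i
    rw [abs_le]
    constructor <;> nlinarith [sq_nonneg (sv x i - sv y i), sq_nonneg (sv x i + sv y i)]
  simpa using Finset.sum_le_sum fun i (_ : i ∈ Finset.univ) => this i

lemma cov_Jw {n : ℕ} (hn : 0 < n) (β : ℝ) (x y : Cube n) :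
    (Jw n β).cov x y = β ^ 2 * n / 2 * ov x y ^ 2 := by
  have := Link33.cov_wl n β 1 0 x y hn zero_le_one
  simpa [Lv.cov] using this

lemma cov_fF {n : ℕ} (hn : 0 < n) (β : ℝ) (x y : Cube n) :
    (fF n β).cov x y = β ^ 2 * n * ov x y := by
  rw [Link33.cov_fl n β (0, 1) x y hn zero_le_one, mul_one]

/-- **85's model**: `gL M N (Jw n β) (fF n β) a v0 ℓ d = M ++ wl n β (v0 - d) a :: fields ++ N` -/
theorem gue_sk {n : ℕ} (hn : 0 < n) (β : ℝ) {w : Cube n → ℝ} (hw : Wt w) (M N : List (Lv (Cube n)))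
    (a v0 : ℝ) {ℓ : List (ℝ × ℝ × ℝ)} (h : Cube n → ℝ) {d : ℝ} (hd : d < v0)
    (hℓ : ∀ p ∈ ℓ, p.2.2 = 0 ∨ 0 < p.2.1 + p.2.2 * d) :
    HasDerivAt (fun d => X w (gL M N (Jw n β) (fF n β) a v0 ℓ d) h - d * (β ^ 2 * n / 4 * gc ℓ))
      (β ^ 2 * n / 4 * gR w M N (Jw n β) (fF n β) a v0 ℓ ov h d) d :=
  gue hw M N a v0 (ov_self hn) (cov_Jw hn β) (cov_fF hn β) h hd hℓ

theorem gue_int_sk {n : ℕ} (hn : 0 < n) (β : ℝ) {w : Cube n → ℝ} (hw : Wt w)
    (M N : List (Lv (Cube n))) (a v0 : ℝ) {ℓ : List (ℝ × ℝ × ℝ)} (h : Cube n → ℝ) {d0 d1 : ℝ}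
    (h01 : d0 ≤ d1) (hd : d1 ≤ v0) (hℓ : ∀ p ∈ ℓ, 0 ≤ p.2.2 ∧ 0 ≤ p.2.1 + p.2.2 * d0) :
    X w (gL M N (Jw n β) (fF n β) a v0 ℓ d1) h - X w (gL M N (Jw n β) (fF n β) a v0 ℓ d0) h =
      (d1 - d0) * (β ^ 2 * n / 4 * gc ℓ) +
        β ^ 2 * n / 4 * ∫ d in d0..d1, gR w M N (Jw n β) (fF n β) a v0 ℓ ov h d :=
  gue_int hw M N a v0 (ov_self hn) (cov_Jw hn β) (cov_fF hn β) h h01 hd hℓ

/-- a level of an SK cascade: W-mark (`true`) or field (`false`), tilt, variance curve -/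
def skL (n : ℕ) (β : ℝ) (p : Bool × ℝ × (ℝ → ℝ) × (ℝ → ℝ)) : ML (Cube n) :=
  ⟨if p.1 then ⟨(Jw n β).ι, (Jw n β).A, p.2.1⟩ else ⟨(fF n β).ι, (fF n β).A, p.2.1⟩, p.2.2.1, p.2.2.2⟩

/-- accumulated slope of the levels of kind `b` -/
def slp (ℓ : List (Bool × ℝ × (ℝ → ℝ) × (ℝ → ℝ))) (b : Bool) (t : ℝ) (j : ℕ) : ℝ :=
  ((ℓ.take j).map fun p => if p.1 = b then p.2.2.2 t else 0).sum

lemma dcov_skL {n : ℕ} (hn : 0 < n) (β t : ℝ) (x y : Cube n) :
    ∀ (ℓ : List (Bool × ℝ × (ℝ → ℝ) × (ℝ → ℝ))) (j : ℕ), dcov (ℓ.map (skL n β)) t j x y =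
      β ^ 2 * n / 2 * slp ℓ true t j * ov x y ^ 2 + β ^ 2 * n * slp ℓ false t j * ov x y + 0
  | [], j => by simp [dcov, slp]
  | _ :: _, 0 => by simp [dcov, slp]
  | (b, m, v, v') :: ℓ, j + 1 => by
    rw [List.map_cons, dcov_cons, dcov_skL hn β t x y ℓ j]
    have e : ∀ c, slp ((b, m, v, v') :: ℓ) c t (j + 1) =
        (if b = c then v' t else 0) + slp ℓ c t j := fun c => by simp [slp]
    rw [e, e]
    cases b
    · have : (skL n β (false, m, v, v')).l.cov x y = β ^ 2 * n * ov x y := cov_fF hn β x y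
      rw [this]
      simp only [skL, if_true, Bool.false_eq_true, if_false]
      ring
    · have : (skL n β (true, m, v, v')).l.cov x y = β ^ 2 * n / 2 * ov x y ^ 2 := cov_Jw hn β x y
      rw [this]
      simp only [skL, if_true, Bool.true_eq_false, if_false]
      ring

/-- **any move of W-marks and fields** -/
theorem mov_sk {n : ℕ} (hn : 0 < n) (β : ℝ) {w : Cube n → ℝ} (hw : Wt w) {I : Set ℝ} (hI : IsOpen I)
    {ℓ : List (Bool × ℝ × (ℝ → ℝ) × (ℝ → ℝ))} (hL : ∀ p ∈ ℓ, (skL n β p).Ok I) {t : ℝ} (ht : t ∈ I)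
    (h : Cube n → ℝ) :
    HasDerivAt (fun t => X w (mat (ℓ.map (skL n β)) t) h)
      (β ^ 2 * n / 4 * (slp ℓ true t ℓ.length + 2 * slp ℓ false t ℓ.length -
        ∑ j ∈ Finset.range (ℓ.length + 1), dm (mat (ℓ.map (skL n β)) t) 0 j *
          (slp ℓ true t j * pi2 w (mat (ℓ.map (skL n β)) t) j (fun x y => ov x y ^ 2) h +
            2 * slp ℓ false t j * pi2 w (mat (ℓ.map (skL n β)) t) j ov h))) t := by
  have h1 := mov hw hI (L := ℓ.map (skL n β)) (fun p hp => by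
    obtain ⟨q, hq, rfl⟩ := List.mem_map.1 hp
    exact hL q hq) ht h
  rw [mD_sk hw _ h t ov (ov_self hn) _ _ _ fun j _ x y => dcov_skL hn β t x y ℓ j] at h1
  refine h1.congr_deriv ?_
  rw [List.length_map, mul_sub, Finset.mul_sum, sub_div, Finset.sum_div]
  congr 1
  · ring
  · exact Finset.sum_congr rfl fun j _ => by ring

end sk

end Crest.Agent.T156.Cas

end
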