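import Crest.Agent.T156.CasDef_88

/-!
# Row 156: the path law of a cascade — growth, recursion, disintegration (helper45)
-/

set_option autoImplicit false
set_option linter.unusedSectionVars false

noncomputable section

namespace Crest.Agent.T156.Cas

open MeasureTheory Real Set Filter Topology
open Crest.Agent.T157.E Crest.Agent.T157.Casc Crest.Agent.T157.SL
open Crest.Agent.R339.Guerra (mp_int mp_sum)

namespace Pe

/-! ### growth classes under affine-growth substitutions -/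

section growth
variable {α β : Type} [Fintype α] [Fintype β]

theorem eg_comp {Φ : (β → ℝ) → ℝ} (h : Eg Φ) {φ : (α → ℝ) → β → ℝ} (hc : Continuous φ)
    {a B : ℝ} (hB : 0 ≤ B) (hb : ∀ g, ‖φ g‖ ≤ a + B * ‖g‖) : Eg fun g => Φ (φ g) := by
  obtain ⟨C, c, h1, h2, h3⟩ := h.bd
  refine ⟨h.cont.comp hc, C * exp (c * a), c * B, by positivity, by positivity, fun g =>
    (h3 _).trans ?_⟩
  rw [mul_assoc, ← exp_add, mul_assoc, ← mul_add]
  gcongr
  exact hb g

theorem lg_bd {F : (β → ℝ) → ℝ} (h : Lg F) :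
    ∃ C c : ℝ, 0 ≤ C ∧ 0 ≤ c ∧ ∀ z, |F z| ≤ C + c * ‖z‖ := by
  obtain ⟨C, c, h1, h2, h3⟩ := h.bd
  exact ⟨C, c, h1, h2, fun z => h3 (0, z) trivial⟩

theorem lg_comp {F : (β → ℝ) → ℝ} (h : Lg F) {φ : (α → ℝ) → β → ℝ} (hc : Continuous φ)
    {a B : ℝ} (hb : ∀ g, ‖φ g‖ ≤ a + B * ‖g‖) : Lg fun g => F (φ g) := by
  obtain ⟨C, c, -, h2, h3⟩ := lg_bd h
  refine Lg.of (h.eg.cont.comp hc) (C + c * a) (c * B) fun g => (h3 _).trans ?_
  have := mul_le_mul_of_nonneg_left (hb g) h2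
  linarith

theorem lg_add {F G : (β → ℝ) → ℝ} (h : Lg F) (h' : Lg G) : Lg fun z => F z + G z := by
  obtain ⟨C, c, -, -, h3⟩ := lg_bd h
  obtain ⟨C', c', -, -, h3'⟩ := lg_bd h'
  refine Lg.of (h.eg.cont.add h'.eg.cont) (C + C') (c + c') fun z => (abs_add_le _ _).trans ?_
  linarith [h3 z, h3' z]

theorem lg_const_mul {F : (β → ℝ) → ℝ} (a : ℝ) (h : Lg F) : Lg fun z => a * F z := by
  obtain ⟨C, c, -, -, h3⟩ := lg_bd h
  refine Lg.of (continuous_const.mul h.eg.cont) (|a| * C) (|a| * c) fun z => ?_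
  rw [abs_mul, mul_assoc, ← mul_add]
  gcongr
  exact h3 z

theorem lg_const (a : ℝ) : Lg fun _ : β → ℝ => a :=
  Lg.of continuous_const |a| 0 fun _ => by simp

theorem lg_neg {F : (β → ℝ) → ℝ} (h : Lg F) : Lg fun z => -F z := by
  simpa using lg_const_mul (-1) h

theorem lg_sub {F G : (β → ℝ) → ℝ} (h : Lg F) (h' : Lg G) : Lg fun z => F z - G z := by
  simpa [sub_eq_add_neg] using lg_add h (lg_neg h')

theorem lg_sum {κ : Type*} (s : Finset κ) {F : κ → (β → ℝ) → ℝ} (h : ∀ k ∈ s, Lg (F k)) :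
    Lg fun z => ∑ k ∈ s, F k z := by
  classical
  induction s using Finset.induction_on with
  | empty => simpa using lg_const 0
  | insert k s hk ih =>
    simpa [Finset.sum_insert hk] using lg_add (h k (by simp)) (ih fun j hj => h j (by simp [hj]))

theorem lg_coord (x : β) : Lg fun z : β → ℝ => z x :=
  Lg.of (continuous_apply x) 0 1 fun z => by simpa using norm_le_pi_norm z x

theorem eg_exp {F : (β → ℝ) → ℝ} (h : Lg F) : Eg fun z => exp (F z) := by simpa using h.exp 1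

theorem eg_int {Φ : (β → ℝ) → ℝ} (h : Eg Φ) : Integrable Φ (gv β) := by
  classical
  obtain ⟨C, c, -, -, h3⟩ := h.bd
  exact ((int_exp c).const_mul C).mono' h.cont.aestronglyMeasurable (.of_forall h3)

theorem norm_inl (g : α ⊕ β → ℝ) : ‖fun i => g (.inl i)‖ ≤ ‖g‖ :=
  (pi_norm_le_iff_of_nonneg (norm_nonneg _)).2 fun _ => norm_le_pi_norm g _

theorem norm_inr (g : α ⊕ β → ℝ) : ‖fun i => g (.inr i)‖ ≤ ‖g‖ :=
  (pi_norm_le_iff_of_nonneg (norm_nonneg _)).2 fun _ => norm_le_pi_norm g _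

theorem norm_elim (g : α → ℝ) (g' : β → ℝ) : ‖(Sum.elim g g' : α ⊕ β → ℝ)‖ ≤ ‖g‖ + ‖g'‖ := by
  refine (pi_norm_le_iff_of_nonneg (by positivity)).2 fun k => ?_
  cases k with
  | inl x => exact (norm_le_pi_norm g x).trans (le_add_of_nonneg_right (norm_nonneg _))
  | inr i => exact (norm_le_pi_norm g' i).trans (le_add_of_nonneg_left (norm_nonneg _))

theorem cont_elim (g : α → ℝ) : Continuous fun g' : β → ℝ => (Sum.elim g g' : α ⊕ β → ℝ) := by
  refine continuous_pi fun k => ?_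
  cases k <;> simp only [Sum.elim_inl, Sum.elim_inr] <;> fun_prop

/-- sections of functions of exponential growth -/
theorem eg_elim {Φ : (α ⊕ β → ℝ) → ℝ} (h : Eg Φ) (g : α → ℝ) : Eg fun g' => Φ (Sum.elim g g') :=
  eg_comp h (cont_elim g) zero_le_one fun g' => by simpa using norm_elim g g'

/-- Fubini on a sum of index types -/
theorem int_sum {G : (α ⊕ β → ℝ) → ℝ} (hG : Integrable G (gv (α ⊕ β))) :
    ∫ g, G g ∂gv (α ⊕ β) = ∫ g, ∫ g', G (Sum.elim g g') ∂gv β ∂gv α := by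
  have h1 := mp_sum (ι := α) (κ := β)
  exact (mp_int h1 hG.aestronglyMeasurable).symm.trans
    (integral_prod _ (h1.integrable_comp_of_integrable hG))

end growth

variable {Ω : Type}

theorem st_zero (L : List (Lv Ω)) (h : Ω → ℝ) (g : NI L → ℝ) : st L 0 h g = h := by
  cases L <;> rfl

theorem st_nil (j : ℕ) (h : Ω → ℝ) (g : NI ([] : List (Lv Ω)) → ℝ) : st [] j h g = h := by
  cases j <;> rfl

theorem st_cons (l : Lv Ω) (L : List (Lv Ω)) (j : ℕ) (h : Ω → ℝ) (g : l.ι → ℝ) (g' : NI L → ℝ) :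
    st (l :: L) (j + 1) h (Sum.elim g g') = st L j (h + l.fld g) g' := rfl

variable [Fintype Ω]

theorem fld_bd (l : Lv Ω) : ∃ B : ℝ, 0 ≤ B ∧ ∀ g, ‖l.fld g‖ ≤ B * ‖g‖ := by
  classical
  obtain ⟨B, h0, hB⟩ := (l.cst_okD univ).toOkC.sh_bd
  exact ⟨B, h0, fun g => hB 0 g trivial⟩

theorem cont_fld (l : Lv Ω) : Continuous l.fld := by unfold Lv.fld; fun_prop

theorem cont_st : ∀ (L : List (Lv Ω)) (j : ℕ),
    Continuous fun p : (Ω → ℝ) × (NI L → ℝ) => st L j p.1 p.2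
  | L, 0 => by simp only [st_zero]; exact continuous_fst
  | [], _ + 1 => continuous_fst
  | l :: L, j + 1 => (cont_st L j).comp (f := fun p : (Ω → ℝ) × (l.ι ⊕ NI L → ℝ) =>
      (p.1 + l.fld fun i => p.2 (.inl i), fun i => p.2 (.inr i)))
      ((continuous_fst.add ((cont_fld l).comp (by fun_prop))).prodMk (by fun_prop))

theorem norm_st : ∀ L : List (Lv Ω), ∃ B : ℝ, 0 ≤ B ∧ ∀ (j : ℕ) (h : Ω → ℝ) (g : NI L → ℝ),
    ‖st L j h g‖ ≤ ‖h‖ + B * ‖g‖
  | [] => ⟨0, le_rfl, fun j h g => by rw [st_nil]; simp⟩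
  | l :: L => by
    obtain ⟨B, h0, hB⟩ := norm_st L
    obtain ⟨B', h0', hB'⟩ := fld_bd l
    refine ⟨B' + B, by positivity, fun j h g => ?_⟩
    cases j with
    | zero => rw [st_zero]; exact le_add_of_nonneg_right (by positivity)
    | succ j =>
      have e1 := hB j (h + l.fld fun i => g (.inl i)) fun i => g (.inr i)
      have e2 := norm_add_le h (l.fld fun i => g (.inl i))
      have e3 := hB' fun i => g (.inl i)
      have e4 := mul_le_mul_of_nonneg_left (norm_inl (α := l.ι) (β := NI L) g) h0'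
      have e5 := mul_le_mul_of_nonneg_left (norm_inr (α := l.ι) (β := NI L) g) h0
      have e6 : ‖st (l :: L) (j + 1) h g‖ ≤ ‖h‖ + (B' * @norm (l.ι ⊕ NI L → ℝ) _ g +
          B * @norm (l.ι ⊕ NI L → ℝ) _ g) := by
        refine e1.trans ?_
        linarith
      rw [add_mul]
      exact e6

theorem cont_st' (L : List (Lv Ω)) (j : ℕ) (h : Ω → ℝ) : Continuous (st L j h) :=
  (cont_st L j).comp (Continuous.prodMk_right h)

theorem eg_st (L : List (Lv Ω)) (h : Ω → ℝ) (j : ℕ) {Φ : (Ω → ℝ) → ℝ} (hΦ : Eg Φ) :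
    Eg fun g : NI L → ℝ => Φ (st L j h g) := by
  obtain ⟨B, h0, hB⟩ := norm_st L
  exact eg_comp hΦ (cont_st' L j h) h0 (hB j h)

theorem lg_st (L : List (Lv Ω)) (h : Ω → ℝ) (j : ℕ) {F : (Ω → ℝ) → ℝ} (hF : Lg F) :
    Lg fun g : NI L → ℝ => F (st L j h g) := by
  obtain ⟨B, -, hB⟩ := norm_st L
  exact lg_comp hF (cont_st' L j h) (hB j h)

variable {w : Ω → ℝ}

theorem lg_Ph (hw : Wt w) (L : List (Lv Ω)) (j : ℕ) (h : Ω → ℝ) : Lg (Ph w L j h) :=
  lg_st L h j (lg_X hw _)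

theorem lg_U (hw : Wt w) (L : List (Lv Ω)) (h : Ω → ℝ) (x : Ω) : Lg (U w L h x) :=
  lg_sub (lg_sum _ fun j _ => lg_const_mul _ (lg_Ph hw L (j + 1) h)) (lg_st L h _ (lg_coord x))

theorem eg_den (hw : Wt w) (L : List (Lv Ω)) (h : Ω → ℝ) (x : Ω) : Eg fun g => den w L h g x :=
  (eg_exp (lg_sub (lg_neg (lg_U hw L h x)) (lg_const _))).const_mul _

theorem den_nonneg (hw : Wt w) (L : List (Lv Ω)) (h : Ω → ℝ) (g : NI L → ℝ) (x : Ω) :
    0 ≤ den w L h g x := mul_nonneg (hw.nn x) (exp_pos _).le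

theorem U_nil (w h : Ω → ℝ) (x : Ω) (g : NI ([] : List (Lv Ω)) → ℝ) : U w [] h x g = -h x := by
  simp [U, st_nil]

theorem U_cons (w : Ω → ℝ) (l : Lv Ω) (L : List (Lv Ω)) (h : Ω → ℝ) (x : Ω) (g : l.ι → ℝ)
    (g' : NI L → ℝ) : U w (l :: L) h x (Sum.elim g g') =
      U w L (h + l.fld g) x g' + (ex L 0 - l.m) * X w L (h + l.fld g) := by
  have e : ∀ j, Ph w (l :: L) (j + 1) h (Sum.elim g g') = Ph w L j (h + l.fld g) g' := fun _ => rfl
  have e0 : Ph w L 0 (h + l.fld g) g' = X w L (h + l.fld g) := by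
    simp only [Ph, st_zero, List.drop_zero]
  have e1 : ∀ j, dm L l.m (j + 1) = dm L 0 (j + 1) := fun _ => rfl
  have e2 : dm L l.m 0 = ex L 0 - l.m := rfl
  simp only [U, List.length_cons, st_cons, e, dm_cons_succ]
  rw [Finset.sum_range_succ']
  simp only [e0, e1, e2]
  ring

/-- the normalisation of a level -/
theorem exp_X_cons (hw : Wt w) (l : Lv Ω) (L : List (Lv Ω)) (h : Ω → ℝ) :
    exp (l.m * X w (l :: L) h) = ∫ g, exp (l.m * X w L (h + l.fld g)) ∂gv l.ι := by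
  by_cases hm : l.m = 0
  · simp [hm]
  · exact C.exp_step hm (C.lp_X hw L) h

theorem den_nil (hw : Wt w) (h : Ω → ℝ) (g : NI ([] : List (Lv Ω)) → ℝ) (x : Ω) :
    den w [] h g x = P w [] h x := by
  have e : ex ([] : List (Lv Ω)) 0 = 1 := rfl
  simp only [den, U_nil, e, neg_neg, one_mul, exp_sub, C.exp_X_nil hw, P, prob, mul_div_assoc]

theorem den_cons (hw : Wt w) (l : Lv Ω) (L : List (Lv Ω)) (h : Ω → ℝ) (g : l.ι → ℝ)
    (g' : NI L → ℝ) (x : Ω) : den w (l :: L) h (Sum.elim g g') x =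
      exp (l.m * X w L (h + l.fld g)) * den w L (h + l.fld g) g' x /
        ∫ g, exp (l.m * X w L (h + l.fld g)) ∂gv l.ι := by
  have e : ex (l :: L) 0 = l.m := rfl
  rw [← exp_X_cons hw]
  unfold den
  rw [U_cons, e, mul_left_comm, mul_div_assoc, ← exp_add, ← exp_sub]
  congr 2
  ring

theorem pE_nil (hw : Wt w) (h : Ω → ℝ) (F : (NI ([] : List (Lv Ω)) → ℝ) → Ω → ℝ) :
    pE w [] h F = ∑ x, P w [] h x * F (fun i => i.elim) x := by
  have e : ∀ g : NI ([] : List (Lv Ω)) → ℝ, g = fun i => i.elim := fun g => funext fun i => i.elim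
  have e' : (fun g => ∑ x, den w [] h g x * F g x) =
      fun _ => ∑ x, P w [] h x * F (fun i => i.elim) x := by
    funext g
    simp only [den_nil hw]
    rw [e g]
  rw [pE, e']
  simp

theorem int_pE (hw : Wt w) (L : List (Lv Ω)) (h : Ω → ℝ) {F : (NI L → ℝ) → Ω → ℝ}
    (hF : ∀ x, Eg fun g => F g x) : Integrable (fun g => ∑ x, den w L h g x * F g x) (gv (NI L)) :=
  eg_int (Eg.sum _ fun x _ => (eg_den hw L h x).mul (hF x))

theorem pE_cons (hw : Wt w) (l : Lv Ω) (L : List (Lv Ω)) (h : Ω → ℝ)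
    (F : (NI (l :: L) → ℝ) → Ω → ℝ) (hF : ∀ x, Eg fun g => F g x) :
    pE w (l :: L) h F = (∫ g, exp (l.m * X w L (h + l.fld g)) *
      pE w L (h + l.fld g) (fun g' => F (Sum.elim g g')) ∂gv l.ι) /
      ∫ g, exp (l.m * X w L (h + l.fld g)) ∂gv l.ι := by
  refine (int_sum (α := l.ι) (β := NI L) (int_pE hw (l :: L) h hF)).trans ?_
  rw [← integral_div]
  refine integral_congr_ae (.of_forall fun g => ?_)
  simp only [pE]
  rw [← integral_const_mul, ← integral_div]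
  refine integral_congr_ae (.of_forall fun g' => ?_)
  simp only [den_cons hw, Finset.mul_sum, Finset.sum_div]
  exact Finset.sum_congr rfl fun x _ => by ring

theorem pE_eq_sum (hw : Wt w) (L : List (Lv Ω)) (h : Ω → ℝ) {F : (NI L → ℝ) → Ω → ℝ}
    (hF : ∀ x, Eg fun g => F g x) :
    pE w L h F = ∑ x, ∫ g, den w L h g x * F g x ∂gv (NI L) :=
  integral_finsetSum _ fun x _ => eg_int ((eg_den hw L h x).mul (hF x))

/-- the law of the leaf -/
theorem pE_leaf (hw : Wt w) (f : Ω → ℝ) : ∀ (L : List (Lv Ω)) (h : Ω → ℝ),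
    pE w L h (fun _ x => f x) = ∑ x, P w L h x * f x
  | [], h => pE_nil hw h _
  | l :: L, h => by
    rw [pE_cons hw l L h (fun _ x => f x) fun x => Eg.const (f x)]
    simp only [pE_leaf hw f L]
    have := node_sum_P hw f (l :: L) 1 h
    rw [node_cons, node_zero] at this
    exact this

theorem int_den (hw : Wt w) (L : List (Lv Ω)) (h : Ω → ℝ) (x : Ω) :
    ∫ g, den w L h g x ∂gv (NI L) = P w L h x := by
  classical
  have := pE_leaf hw (fun y => if y = x then 1 else 0) L h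
  simpa [pE] using this

theorem pE_dis (hw : Wt w) (L : List (Lv Ω)) (h : Ω → ℝ) (F : (NI L → ℝ) → Ω → ℝ)
    (hF : ∀ x, Eg fun g => F g x) :
    pE w L h F = ∑ x, P w L h x * lE (U w L h x) fun g => F g x := by
  rw [pE_eq_sum hw L h hF]
  refine Finset.sum_congr rfl fun x _ => ?_
  have hZ : 0 < ∫ g, exp (-U w L h x g) ∂gv (NI L) :=
    integral_exp_pos (eg_int (eg_exp (lg_neg (lg_U hw L h x))))
  have e : ∀ g, den w L h g x = w x * exp (-(ex L 0 * X w L h)) * exp (-U w L h x g) := fun g => by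
    rw [den, mul_assoc, ← exp_add]
    congr 2
    ring
  rw [← int_den hw, lE]
  simp only [e, mul_assoc]
  simp only [integral_const_mul]
  field_simp

theorem pE_node (hw : Wt w) (Φ : Ω → (Ω → ℝ) → ℝ) (hΦ : ∀ x, Eg (Φ x)) :
    ∀ (L : List (Lv Ω)) (j : ℕ) (h : Ω → ℝ), pE w L h (fun g x => Φ x (st L j h g)) =
      node w L j (fun z => ∑ x, P w (L.drop j) z x * Φ x z) h
  | L, 0, h => by
    simp only [st_zero, node_zero, List.drop_zero]
    exact pE_leaf hw (fun x => Φ x h) L h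
  | [], j + 1, h => by
    simp only [st_nil, node_nil, List.drop_nil]
    exact pE_leaf hw (fun x => Φ x h) [] h
  | l :: L, j + 1, h => by
    rw [pE_cons hw l L h _ fun x => eg_st (l :: L) h (j + 1) (hΦ x), node_cons, List.drop_succ_cons]
    simp only [st_cons, pE_node hw Φ hΦ L j]
    rfl

theorem pE_const_mul (w : Ω → ℝ) (L : List (Lv Ω)) (h : Ω → ℝ) (c : ℝ)
    (F : (NI L → ℝ) → Ω → ℝ) : pE w L h (fun g x => c * F g x) = c * pE w L h F := by
  simp only [pE]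
  rw [← integral_const_mul]
  refine integral_congr_ae (.of_forall fun g => ?_)
  simp only [Finset.mul_sum]
  exact Finset.sum_congr rfl fun x _ => by ring

theorem pE_node1 (hw : Wt w) {Φ : (Ω → ℝ) → ℝ} (hΦ : Eg Φ) (L : List (Lv Ω)) (j : ℕ) (h : Ω → ℝ) :
    pE w L h (fun g _ => Φ (st L j h g)) = node w L j Φ h := by
  rw [pE_node hw (fun _ => Φ) (fun _ => hΦ) L j h]
  simp only [← Finset.sum_mul, sum_P hw, one_mul]

theorem pE_two (hw : Wt w) (j : ℕ) {Φ Φ' : (Ω → ℝ) → ℝ} (hΦ : Eg Φ) (hΦ' : Eg Φ') :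
    ∀ (L : List (Lv Ω)) (i : ℕ) (h : Ω → ℝ),
    pE w L h (fun g _ => Φ (st L i h g) * Φ' (st L (i + j) h g)) =
      node w L i (fun z => Φ z * node w (L.drop i) j Φ' z) h
  | L, 0, h => by
    simp only [st_zero, node_zero, List.drop_zero, zero_add]
    rw [pE_const_mul w L h (Φ h) fun g _ => Φ' (st L j h g), pE_node1 hw hΦ']
  | [], i + 1, h => by
    simp only [st_nil, node_nil, List.drop_nil]
    rw [pE_leaf hw (fun _ => Φ h * Φ' h) [] h, ← Finset.sum_mul, sum_P hw, one_mul]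
  | l :: L, i + 1, h => by
    rw [show i + 1 + j = i + j + 1 by omega, pE_cons hw l L h _ fun _ =>
      (eg_st (l :: L) h (i + 1) hΦ).mul (eg_st (l :: L) h (i + j + 1) hΦ'), node_cons,
      List.drop_succ_cons]
    simp only [st_cons, pE_two hw j hΦ hΦ' L i]
    rfl

end Pe

theorem peStmt : PeStmt := fun _ _ _ hw =>
  ⟨Pe.lg_U hw, fun L h j _ hΦ => Pe.eg_st L h j hΦ, Pe.pE_dis hw, Pe.pE_nil hw, Pe.pE_cons hw,
    fun L h j Φ hΦ => Pe.pE_node hw Φ hΦ L j h, fun L h i j _ _ hΦ hΦ' => Pe.pE_two hw j hΦ hΦ' L i h⟩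

end Crest.Agent.T156.Cas

end
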