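import Mathlib
import Crest.Prelude.Def_SKModel

/-!
# Row 156: signed permutations acting on spins and on Gaussian noise (helper69)

`g = (ε, π)` acts on spin configurations, and on noise vectors indexed by sites, by ordered pairs,
or by the couplings `i < j` of the Prelude model, as a signed reindexing (an isometry that keeps
the Gaussian laws).  The energies are invariant, and the action is transitive on single
configurations, on pairs of equal overlap and on tuples of equal type.
-/

set_option autoImplicit false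
open MeasureTheory ProbabilityTheory Finset
open Crest.ProbabilityR.SpinGlass

namespace Crest.Agent.T156.Sgn

/-! ### signed reindexings of a finite Gaussian vector -/

/-- the sign of a flip bit -/
def sg (b : Bool) : ℝ := if b then -1 else 1

@[simp] lemma sg_true : sg true = -1 := rfl
@[simp] lemma sg_false : sg false = 1 := rfl
lemma sg_mul_self (b : Bool) : sg b * sg b = 1 := by cases b <;> simp
lemma sg_sq (b : Bool) : sg b ^ 2 = 1 := by rw [sq, sg_mul_self]
lemma sg_xor (a b : Bool) : sg (xor a b) = sg a * sg b := by cases a <;> cases b <;> simp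
lemma spinVal_xor (a b : Bool) : spinVal (xor a b) = sg a * spinVal b := by
  cases a <;> cases b <;> simp [spinVal]
lemma spinVal_mul (a b : Bool) : spinVal a * spinVal b = sg (xor a b) := by
  cases a <;> cases b <;> simp [spinVal]
lemma spinVal_mul_self (a : Bool) : spinVal a * spinVal a = 1 := by cases a <;> simp [spinVal]

section reindex
variable {J : Type*}

/-- signed reindexing `w ↦ (j ↦ ± w (e j))` -/
def re (s : J → Bool) (e : J ≃ J) (w : J → ℝ) : J → ℝ := fun j => sg (s j) * w (e j)

@[simp] lemma re_apply (s : J → Bool) (e : J ≃ J) (w : J → ℝ) (j : J) :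
    re s e w j = sg (s j) * w (e j) := rfl

lemma re_re_symm (s : J → Bool) (e : J ≃ J) (w : J → ℝ) :
    re s e (re (fun j => s (e.symm j)) e.symm w) = w := by
  funext j; simp [← mul_assoc, sg_mul_self]

lemma re_symm_re (s : J → Bool) (e : J ≃ J) (w : J → ℝ) :
    re (fun j => s (e.symm j)) e.symm (re s e w) = w := by
  funext j; simp [← mul_assoc, sg_mul_self]

/-- as a linear equivalence of the plain function space -/
def reL (s : J → Bool) (e : J ≃ J) : (J → ℝ) ≃ₗ[ℝ] (J → ℝ) where
  toFun := re s e
  invFun := re (fun j => s (e.symm j)) e.symm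
  map_add' v w := by funext j; simp [mul_add]
  map_smul' c w := by funext j; simp [mul_left_comm]
  left_inv := re_symm_re s e
  right_inv := re_re_symm s e

@[simp] lemma reL_apply (s : J → Bool) (e : J ≃ J) (w : J → ℝ) : reL s e w = re s e w := rfl

lemma measurable_re (s : J → Bool) (e : J ≃ J) : Measurable (re s e) :=
  measurable_pi_iff.mpr fun j => (measurable_pi_apply (e j)).const_mul _

lemma continuous_re (s : J → Bool) (e : J ≃ J) : Continuous (re s e) :=
  continuous_pi fun j => continuous_const.mul (continuous_apply (e j))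

/-- as a measurable equivalence -/
def reM (s : J → Bool) (e : J ≃ J) : (J → ℝ) ≃ᵐ (J → ℝ) where
  toEquiv := (reL s e).toEquiv
  measurable_toFun := measurable_re s e
  measurable_invFun := measurable_re _ _

@[simp] lemma reM_apply (s : J → Bool) (e : J ≃ J) (w : J → ℝ) : reM s e w = re s e w := rfl

variable [Fintype J]

lemma sum_re_mul_re (s : J → Bool) (e : J ≃ J) (v w : J → ℝ) :
    ∑ j, re s e v j * re s e w j = ∑ j, v j * w j := by
  rw [← e.sum_comp (fun j => v j * w j)]
  refine Finset.sum_congr rfl fun j _ => ?_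
  simp only [re_apply]
  linear_combination (v (e j) * w (e j)) * sg_mul_self (s j)

lemma mp_sg (b : Bool) (v : NNReal) :
    MeasurePreserving (fun x : ℝ => sg b * x) (gaussianReal 0 v) (gaussianReal 0 v) := by
  refine ⟨by fun_prop, ?_⟩
  cases b
  · simp
  · simpa using gaussianReal_map_neg (μ := 0) (v := v)

/-- signed reindexings keep a centred product Gaussian law with `e`-invariant variances -/
theorem mp_re (s : J → Bool) (e : J ≃ J) (v : J → NNReal) (hv : ∀ j, v (e j) = v j) :
    MeasurePreserving (re s e) (Measure.pi fun j => gaussianReal 0 (v j))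
      (Measure.pi fun j => gaussianReal 0 (v j)) := by
  have h1 := (measurePreserving_piCongrLeft (α := fun _ : J => ℝ)
    (fun j => gaussianReal 0 (v j)) e).symm
  have h2 := measurePreserving_pi (fun j => gaussianReal 0 (v (e j)))
    (fun j => gaussianReal 0 (v j)) (f := fun j x => sg (s j) * x)
    (fun j => by rw [hv j]; exact mp_sg _ _)
  exact h2.comp h1

theorem mp_re_std (s : J → Bool) (e : J ≃ J) :
    MeasurePreserving (re s e) (Measure.pi fun _ : J => gaussianReal 0 1)
      (Measure.pi fun _ : J => gaussianReal 0 1) :=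
  mp_re s e (fun _ => 1) fun _ => rfl

theorem integral_re (s : J → Bool) (e : J ≃ J) (f : (J → ℝ) → ℝ) :
    ∫ w, f (re s e w) ∂(Measure.pi fun _ : J => gaussianReal 0 1) =
      ∫ w, f w ∂(Measure.pi fun _ : J => gaussianReal 0 1) :=
  MeasurePreserving.integral_comp' (f := reM s e) (mp_re_std s e) f

/-- as a linear isometry of Euclidean space -/
noncomputable def reI (s : J → Bool) (e : J ≃ J) :
    EuclideanSpace ℝ J ≃ₗᵢ[ℝ] EuclideanSpace ℝ J where
  toLinearEquiv := (WithLp.linearEquiv 2 ℝ (J → ℝ)).trans
    ((reL s e).trans (WithLp.linearEquiv 2 ℝ (J → ℝ)).symm)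
  norm_map' w := by
    rw [EuclideanSpace.norm_eq, EuclideanSpace.norm_eq]
    congr 1
    rw [← e.sum_comp (fun j => ‖w j‖ ^ 2)]
    refine Finset.sum_congr rfl fun j _ => ?_
    change ‖sg (s j) * w (e j)‖ ^ 2 = _
    cases s j <;> simp

@[simp] lemma reI_apply (s : J → Bool) (e : J ≃ J) (w : EuclideanSpace ℝ J) (j : J) :
    reI s e w j = sg (s j) * w (e j) := rfl

lemma reI_toLp (s : J → Bool) (e : J ≃ J) (w : J → ℝ) :
    reI s e (WithLp.toLp 2 w) = WithLp.toLp 2 (re s e w) := rfl

theorem mp_reI (s : J → Bool) (e : J ≃ J) :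
    MeasurePreserving (reI s e) (stdGaussian (EuclideanSpace ℝ J))
      (stdGaussian (EuclideanSpace ℝ J)) :=
  ⟨(reI s e).continuous.measurable, stdGaussian_map _⟩

end reindex

/-! ### signed permutations of the sites -/

/-- signed permutations of the site set `ι` -/
abbrev SP (ι : Type*) : Type _ := (ι → Bool) × Equiv.Perm ι

section sites
variable {ι : Type*}

/-- action on configurations -/
def act (g : SP ι) (σ : ι → Bool) : ι → Bool := fun i => xor (g.1 i) (σ (g.2 i))

/-- the inverse signed permutation -/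
def inv (g : SP ι) : SP ι := (fun i => g.1 (g.2.symm i), g.2.symm)

/-- the product: `act (mul g h) = act g ∘ act h` -/
def mul (g h : SP ι) : SP ι := (fun i => xor (g.1 i) (h.1 (g.2 i)), g.2.trans h.2)

lemma act_mul (g h : SP ι) (σ : ι → Bool) : act (mul g h) σ = act g (act h σ) := by
  funext i; simp [act, mul]

lemma act_act_inv (g : SP ι) (σ : ι → Bool) : act g (act (inv g) σ) = σ := by
  funext i; simp [act, inv]

lemma act_inv_act (g : SP ι) (σ : ι → Bool) : act (inv g) (act g σ) = σ := by
  funext i; simp [act, inv]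

/-- the action on configurations as a permutation of the leaves -/
def actE (g : SP ι) : (ι → Bool) ≃ (ι → Bool) where
  toFun := act g
  invFun := act (inv g)
  left_inv := act_inv_act g
  right_inv := act_act_inv g

@[simp] lemma actE_apply (g : SP ι) (σ : ι → Bool) : actE g σ = act g σ := rfl

lemma spinVal_act (g : SP ι) (σ : ι → Bool) (i : ι) :
    spinVal (act g σ i) = sg (g.1 i) * spinVal (σ (g.2 i)) := spinVal_xor _ _

/-- the spin vector -/
def sv (σ : ι → Bool) : ι → ℝ := fun i => spinVal (σ i)

/-- fields: the spin vector is carried by the signed reindexing of the sites -/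
lemma sv_act (g : SP ι) (σ : ι → Bool) : sv (act g σ) = re g.1 g.2 (sv σ) := by
  funext i; simp [sv, spinVal_act]

/-- sign pattern on pairs -/
def s2 (g : SP ι) (p : ι × ι) : Bool := xor (g.1 p.1) (g.1 p.2)

/-- reindexing of ordered pairs -/
def e2 (g : SP ι) : ι × ι ≃ ι × ι := g.2.prodCongr g.2

/-- the full matrix `σ_i σ_j` -/
def pv (σ : ι → Bool) : ι × ι → ℝ := fun p => spinVal (σ p.1) * spinVal (σ p.2)

lemma pv_act (g : SP ι) (σ : ι → Bool) : pv (act g σ) = re (s2 g) (e2 g) (pv σ) := by
  funext p; simp only [pv, spinVal_act, re_apply, s2, e2, sg_xor, Equiv.prodCongr_apply,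
    Prod.map_fst, Prod.map_snd]; ring

variable [Fintype ι]

/-- unnormalised overlap -/
def ov (σ τ : ι → Bool) : ℝ := ∑ i, spinVal (σ i) * spinVal (τ i)

lemma ov_act (g : SP ι) (σ τ : ι → Bool) : ov (act g σ) (act g τ) = ov σ τ := by
  have := sum_re_mul_re g.1 g.2 (sv σ) (sv τ)
  rw [← sv_act, ← sv_act] at this
  exact this

lemma field_act (g : SP ι) (h : ι → ℝ) (σ : ι → Bool) :
    ∑ i, re g.1 g.2 h i * spinVal (act g σ i) = ∑ i, h i * spinVal (σ i) := by
  have := sum_re_mul_re g.1 g.2 h (sv σ)
  rw [← sv_act] at this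
  exact this

lemma full_act (g : SP ι) (W : ι × ι → ℝ) (σ : ι → Bool) :
    ∑ p, re (s2 g) (e2 g) W p * pv (act g σ) p = ∑ p, W p * pv σ p := by
  rw [pv_act]; exact sum_re_mul_re _ _ _ _

end sites

/-! ### the couplings `i < j` -/

section tri
variable {ι : Type*} [LinearOrder ι]

/-- reindexing of pairs that keeps the orientation -/
def triF (π : Equiv.Perm ι) (p : ι × ι) : ι × ι :=
  if (p.1 < p.2 ↔ π p.1 < π p.2) then (π p.1, π p.2) else (π p.2, π p.1)

lemma triF_symm (π : Equiv.Perm ι) (p : ι × ι) : triF π.symm (triF π p) = p := by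
  obtain ⟨i, j⟩ := p
  by_cases h : (i < j ↔ π i < π j)
  · simp [triF, h]
  · have hij : i ≠ j := by rintro rfl; simp at h
    have hπ : π i ≠ π j := fun e => hij (π.injective e)
    have h2 : ¬ (π j < π i ↔ j < i) := by
      intro h3
      apply h
      rw [lt_iff_le_and_ne, lt_iff_le_and_ne, ← not_lt, ← not_lt, h3]
      simp [hij, hπ]
    simp [triF, h, h2]

/-- the orientation preserving permutation of pairs -/
def eT (π : Equiv.Perm ι) : ι × ι ≃ ι × ι where
  toFun := triF π
  invFun := triF π.symm
  left_inv := triF_symm π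
  right_inv p := triF_symm π.symm p

lemma eT_lt (π : Equiv.Perm ι) (p : ι × ι) : (eT π p).1 < (eT π p).2 ↔ p.1 < p.2 := by
  obtain ⟨i, j⟩ := p
  change (triF π (i, j)).1 < (triF π (i, j)).2 ↔ _
  by_cases h : (i < j ↔ π i < π j)
  · simp [triF, h]
  · have hij : i ≠ j := by rintro rfl; simp at h
    have hπ : π i ≠ π j := fun e => hij (π.injective e)
    simp only [triF, h, if_false]
    rw [lt_iff_le_and_ne, ← not_lt]
    have := hπ.symm
    tauto

lemma eT_prod (π : Equiv.Perm ι) (p : ι × ι) (f : ι → ℝ) :
    f (eT π p).1 * f (eT π p).2 = f (π p.1) * f (π p.2) := by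
  change f (triF π p).1 * f (triF π p).2 = _
  unfold triF
  split_ifs
  · rfl
  · exact mul_comm _ _

/-- the triangular vector `1_{i<j} σ_i σ_j` -/
def tv (σ : ι → Bool) : ι × ι → ℝ :=
  fun p => if p.1 < p.2 then spinVal (σ p.1) * spinVal (σ p.2) else 0

lemma tv_act (g : SP ι) (σ : ι → Bool) : tv (act g σ) = re (s2 g) (eT g.2) (tv σ) := by
  funext p
  simp only [tv, re_apply, eT_lt, eT_prod g.2 p (fun i => spinVal (σ i)), spinVal_act, s2, sg_xor]
  split_ifs <;> ring

end tri

/-- action on the Prelude disorder -/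
def actW {n : ℕ} (g : SP (Fin n)) (W : Disorder n) : Disorder n := re (s2 g) (eT g.2) W

lemma energy_eq (n : ℕ) (W : Disorder n) (σ : Fin n → Bool) :
    energy n W σ = (Real.sqrt n)⁻¹ * ∑ p, W p * tv σ p := by
  unfold energy tv
  congr 1
  refine Finset.sum_congr rfl fun p _ => ?_
  split_ifs <;> ring

theorem energy_act {n : ℕ} (g : SP (Fin n)) (W : Disorder n) (σ : Fin n → Bool) :
    energy n (actW g W) (act g σ) = energy n W σ := by
  rw [energy_eq, energy_eq, tv_act, actW, sum_re_mul_re]

theorem mp_actW {n : ℕ} (g : SP (Fin n)) :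
    MeasurePreserving (actW g) (disorderLaw n) (disorderLaw n) := mp_re_std _ _

theorem logZ_act {n : ℕ} (g : SP (Fin n)) (β : ℝ) (W : Disorder n) :
    logPartitionFunction n β (actW g W) = logPartitionFunction n β W := by
  unfold logPartitionFunction partitionFunction
  congr 1
  rw [← (actE g).sum_comp]
  simp [energy_act]

/-! ### transitivity -/

section trans
variable {ι : Type*}

/-- the gauge is transitive on single configurations -/
theorem trans_one (σ τ : ι → Bool) : ∃ g : SP ι, act g σ = τ :=
  ⟨(fun i => xor (τ i) (σ i), Equiv.refl ι), by funext i; simp [act]⟩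

variable {L : Type*} [Fintype ι] [Fintype L]

/-- column of a tuple at site `i`, normalised by the replica `l₀` -/
def col (l₀ : L) (σ : L → ι → Bool) (i : ι) : L → Bool := fun l => xor (σ l₀ i) (σ l i)

/-- the type of a tuple: how many sites carry each normalised column -/
def typ (l₀ : L) (σ : L → ι → Bool) : (L → Bool) → ℕ :=
  fun c => (univ.filter fun i => col l₀ σ i = c).card

omit [Fintype ι] [Fintype L] in
lemma col_act (l₀ : L) (g : SP ι) (σ : L → ι → Bool) (i : ι) :
    col l₀ (fun l => act g (σ l)) i = col l₀ σ (g.2 i) := by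
  funext l
  simp only [col, act]
  cases g.1 i <;> simp

/-- the type is invariant -/
theorem typ_act (l₀ : L) (g : SP ι) (σ : L → ι → Bool) :
    typ l₀ (fun l => act g (σ l)) = typ l₀ σ := by
  funext c
  simp only [typ, col_act]
  exact Finset.card_bij (fun i _ => g.2 i) (by simp) (by simp) (fun j hj =>
    ⟨g.2.symm j, by simpa using hj, by simp⟩)

/-- **transitivity on tuples of equal type** -/
theorem trans_typ (l₀ : L) (σ τ : L → ι → Bool) (h : typ l₀ σ = typ l₀ τ) :
    ∃ g : SP ι, ∀ l, act g (σ l) = τ l := by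
  classical
  have e : ∀ c, {i // col l₀ τ i = c} ≃ {i // col l₀ σ i = c} := fun c =>
    Fintype.equivOfCardEq (by
      rw [Fintype.card_subtype, Fintype.card_subtype]
      exact (congrFun h c).symm)
  refine ⟨(fun i => xor (τ l₀ i) (σ l₀ (Equiv.ofFiberEquiv e i)), Equiv.ofFiberEquiv e),
    fun l => funext fun i => ?_⟩
  have := congrFun (Equiv.ofFiberEquiv_map e i) l
  simp only [col] at this
  simp only [act, Bool.xor_assoc, this]
  cases τ l₀ i <;> simp

theorem typ_eq_iff (l₀ : L) (σ τ : L → ι → Bool) :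
    typ l₀ σ = typ l₀ τ ↔ ∃ g : SP ι, ∀ l, act g (σ l) = τ l := by
  refine ⟨trans_typ l₀ σ τ, ?_⟩
  rintro ⟨g, hg⟩
  rw [← typ_act l₀ g σ]
  congr 1
  exact funext hg

/-- overlaps are functions of the type -/
theorem ov_of_typ (l₀ : L) (σ τ : L → ι → Bool) (h : typ l₀ σ = typ l₀ τ) (l l' : L) :
    ov (σ l) (σ l') = ov (τ l) (τ l') := by
  obtain ⟨g, hg⟩ := trans_typ l₀ σ τ h
  rw [← hg l, ← hg l', ov_act]

/-- there are at most `(n+1)^(2^k)` types -/
theorem card_typ [DecidableEq ι] [DecidableEq L] (l₀ : L) :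
    ((univ : Finset (L → ι → Bool)).image (typ l₀)).card ≤
      (Fintype.card ι + 1) ^ (2 ^ Fintype.card L) := by
  have hsub : (univ : Finset (L → ι → Bool)).image (typ l₀) ⊆
      Fintype.piFinset fun _ : L → Bool => range (Fintype.card ι + 1) := by
    intro t ht
    obtain ⟨σ, -, rfl⟩ := Finset.mem_image.mp ht
    rw [Fintype.mem_piFinset]
    intro c
    rw [Finset.mem_range, Nat.lt_succ_iff]
    exact Finset.card_le_univ _
  refine (Finset.card_le_card hsub).trans ?_
  simp

omit [Fintype L] in
lemma ov_eq_card (σ τ : ι → Bool) :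
    ov σ τ = (Fintype.card ι : ℝ) - 2 * ((univ.filter fun i => xor (σ i) (τ i) = true).card : ℝ) := by
  unfold ov
  rw [Finset.card_filter, ← Finset.card_univ, Finset.card_eq_sum_ones]
  push_cast
  rw [Finset.mul_sum, ← Finset.sum_sub_distrib]
  refine Finset.sum_congr rfl fun i _ => ?_
  rw [spinVal_mul]
  cases xor (σ i) (τ i) <;> norm_num

omit [Fintype L] in
/-- **transitivity on pairs of equal overlap** -/
theorem trans_two (σ₁ σ₂ τ₁ τ₂ : ι → Bool) (h : ov σ₁ σ₂ = ov τ₁ τ₂) :
    ∃ g : SP ι, act g σ₁ = τ₁ ∧ act g σ₂ = τ₂ := by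
  classical
  have h1 : (univ.filter fun i => xor (τ₁ i) (τ₂ i) = true).card =
      (univ.filter fun i => xor (σ₁ i) (σ₂ i) = true).card := by
    rw [ov_eq_card, ov_eq_card] at h
    have : ((univ.filter fun i => xor (τ₁ i) (τ₂ i) = true).card : ℝ) =
        ((univ.filter fun i => xor (σ₁ i) (σ₂ i) = true).card : ℝ) := by linarith
    exact_mod_cast this
  have h0 : (univ.filter fun i => xor (τ₁ i) (τ₂ i) = false).card =
      (univ.filter fun i => xor (σ₁ i) (σ₂ i) = false).card := by
    have a1 := Finset.card_filter_add_card_filter_not (s := (univ : Finset ι))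
      (fun i => xor (τ₁ i) (τ₂ i) = true)
    have a2 := Finset.card_filter_add_card_filter_not (s := (univ : Finset ι))
      (fun i => xor (σ₁ i) (σ₂ i) = true)
    simp only [Bool.not_eq_true] at a1 a2
    omega
  have e : ∀ c : Bool, {i // xor (τ₁ i) (τ₂ i) = c} ≃ {i // xor (σ₁ i) (σ₂ i) = c} := fun c =>
    Fintype.equivOfCardEq (by
      rw [Fintype.card_subtype, Fintype.card_subtype]
      cases c
      · exact h0
      · exact h1)
  refine ⟨(fun i => xor (τ₁ i) (σ₁ (Equiv.ofFiberEquiv e i)), Equiv.ofFiberEquiv e),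
    funext fun i => ?_, funext fun i => ?_⟩
  · simp [act]
  · have := Equiv.ofFiberEquiv_map e i
    simp only [act, Bool.xor_assoc, this]
    cases τ₁ i <;> simp

end trans

end Crest.Agent.T156.Sgn
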