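import Crest.Agent.T156.CasDef_88
import Crest.Agent.T156.Sgn_69

/-!
# Row 156: the signed permutations in the cascade frame (helper69)

Cascades on the cube (or on tuples of configurations) whose levels have covariances depending on
the overlaps only are symmetric under the signed permutations; these act transitively on single
leaves, on pairs of a fixed overlap and on tuples of a fixed type.
-/

set_option autoImplicit false

noncomputable section

namespace Crest.Agent.T156.Cas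

open MeasureTheory Real Set
open Crest.Agent.T157.E Crest.Agent.T157.Casc Crest.Agent.T157.SL
open Crest.Agent.T156.Sgn (SP act actE)

variable {n : ℕ}

lemma ov_eq_ov (x y : Cube n) : T157.G1.ov x y = Sgn.ov x y / n := rfl

lemma ov_act (g : SP (Fin n)) (x y : Cube n) :
    T157.G1.ov (act g x) (act g y) = T157.G1.ov x y := by
  rw [ov_eq_ov, ov_eq_ov, Sgn.ov_act]

lemma typ_eq {κ : Type} [Fintype κ] (a₀ : κ) (x : κ → Cube n) (b : κ → Bool) :
    typ a₀ x b = Sgn.typ a₀ x fun a => !b a := by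
  unfold typ Sgn.typ
  congr 1
  ext i
  simp only [Finset.mem_filter, Finset.mem_univ, true_and, Sgn.col, funext_iff]
  refine forall_congr' fun a => ?_
  cases x a i <;> cases x a₀ i <;> cases b a <;> simp

lemma typ_eq_iff {κ : Type} [Fintype κ] (a₀ : κ) (x y : κ → Cube n) :
    typ a₀ x = typ a₀ y ↔ ∃ g : SP (Fin n), ∀ a, act g (x a) = y a := by
  rw [← Sgn.typ_eq_iff a₀]
  constructor
  · intro h
    funext c
    have := congrFun h fun a => !c a
    simpa [typ_eq] using this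
  · intro h
    funext b
    rw [typ_eq, typ_eq, h]

lemma typ_act {κ : Type} [Fintype κ] (a₀ : κ) (g : SP (Fin n)) (x : κ → Cube n) :
    typ a₀ (fun a => act g (x a)) = typ a₀ x :=
  ((typ_eq_iff a₀ x _).2 ⟨g, fun _ => rfl⟩).symm

/-- the fourth part of `LinkStmt` -/
theorem link_four (n : ℕ) (κ : Type) [Fintype κ] (a₀ : κ) (x y : κ → Cube n)
    (h : typ a₀ x = typ a₀ y) :
    ∃ τ : Equiv.Perm (Cube n), (∀ u v, T157.G1.ov (τ u) (τ v) = T157.G1.ov u v) ∧
      ∀ a, τ (x a) = y a := by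
  obtain ⟨g, hg⟩ := (typ_eq_iff a₀ x y).1 h
  exact ⟨actE g, ov_act g, hg⟩

/-- there are at most `(n+1)^(2^k)` types -/
theorem card_typ {κ : Type} [Fintype κ] [DecidableEq κ] (a₀ : κ) :
    ((Finset.univ : Finset (κ → Cube n)).image (typ a₀)).card ≤
      (n + 1) ^ (2 ^ Fintype.card κ) := by
  have hsub : (Finset.univ : Finset (κ → Cube n)).image (typ a₀) ⊆
      Fintype.piFinset fun _ : κ → Bool => Finset.range (n + 1) := by
    intro t ht
    obtain ⟨σ, -, rfl⟩ := Finset.mem_image.mp ht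
    rw [Fintype.mem_piFinset]
    intro c
    rw [Finset.mem_range, Nat.lt_succ_iff]
    exact (Finset.card_le_univ _).trans (Fintype.card_fin n).le
  refine (Finset.card_le_card hsub).trans ?_
  simp

/-! ### single leaves -/

/-- the covariance of the level depends on the overlap only -/
def OvLv (l : Lv (Cube n)) : Prop := ∃ φ : ℝ → ℝ, ∀ x y, l.cov x y = φ (T157.G1.ov x y)

lemma cov_lv {Ω : Type} (l : Lv Ω) (v m : ℝ) (x y : Ω) :
    (lv l v m).cov x y = √v ^ 2 * l.cov x y := by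
  simp only [Lv.cov, Finset.mul_sum]
  exact Finset.sum_congr rfl fun i _ => by ring

lemma OvLv.lv {l : Lv (Cube n)} (h : OvLv l) (v m : ℝ) : OvLv (lv l v m) := by
  obtain ⟨φ, hφ⟩ := h
  exact ⟨fun r => √v ^ 2 * φ r, fun x y => by rw [cov_lv, hφ]⟩

lemma OvLv.tilt {l : Lv (Cube n)} (h : OvLv l) (m : ℝ) : OvLv ⟨l.ι, l.A, m⟩ := h

lemma dot_eq (x y : Cube n) : ∑ i, sv x i * sv y i = n * T157.G1.ov x y := by
  rcases Nat.eq_zero_or_pos n with rfl | hn
  · simp
  · have : (n : ℝ) ≠ 0 := by positivity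
    unfold T157.G1.ov dotProduct
    field_simp

lemma ovLv_Jw (n : ℕ) (β : ℝ) : OvLv (T157.G1.Jw n β) := by
  refine ⟨fun r => (β / 2 * (√2 / √n)) ^ 2 * (n * r) ^ 2, fun x y => ?_⟩
  simp only [Lv.cov]
  rw [← dot_eq, sq (∑ i, _), Finset.sum_mul_sum, Fintype.sum_prod_type, Finset.mul_sum]
  refine Finset.sum_congr rfl fun i _ => ?_
  rw [Finset.mul_sum]
  exact Finset.sum_congr rfl fun j _ => by ring

lemma ovLv_wl (n : ℕ) (β d m : ℝ) : OvLv (wl n β d m) := (ovLv_Jw n β).lv d m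

lemma ovLv_fl (n : ℕ) (s : ℝ) (p : ℝ × ℝ) : OvLv (T157.G1.fl n s p) := by
  refine ⟨fun r => (s * √p.2) ^ 2 * (n * r), fun x y => ?_⟩
  simp only [Lv.cov]
  rw [← dot_eq, Finset.mul_sum]
  exact Finset.sum_congr rfl fun j _ => by ring

/-- the signed permutations of the cube -/
def TS (n : ℕ) : Set (Equiv.Perm (Cube n)) := range actE

theorem sym_act {L : List (Lv (Cube n))} (hL : ∀ l ∈ L, OvLv l) (c c' : ℝ) :
    ∀ τ ∈ TS n, Sym (fun _ => c) L (fun _ => c') τ := by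
  rintro _ ⟨g, rfl⟩
  refine ⟨fun _ => rfl, fun _ => rfl, fun l hl x y => ?_⟩
  obtain ⟨φ, hφ⟩ := hL l hl
  rw [hφ, hφ]
  exact congrArg φ (ov_act g x y)

theorem sym_act₀ {L : List (Lv (Cube n))} (hL : ∀ l ∈ L, OvLv l) :
    ∀ τ ∈ TS n, Sym (fun _ => 1) L 0 τ := sym_act hL 1 0

theorem TS_trans (x₀ x : Cube n) : ∃ τ ∈ TS n, τ x₀ = x := by
  obtain ⟨g, hg⟩ := Sgn.trans_one x₀ x
  exact ⟨actE g, ⟨g, rfl⟩, hg⟩

theorem TS_ov {τ : Equiv.Perm (Cube n)} (h : τ ∈ TS n) (x y : Cube n) :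
    T157.G1.ov (τ x) (τ y) = T157.G1.ov x y := by
  obtain ⟨g, rfl⟩ := h
  exact ov_act g x y

theorem TS_typ {κ : Type} [Fintype κ] (a₀ : κ) (x y : κ → Cube n) :
    typ a₀ x = typ a₀ y ↔ ∃ τ ∈ TS n, ∀ a, τ (x a) = y a := by
  rw [typ_eq_iff]
  constructor
  · rintro ⟨g, hg⟩
    exact ⟨actE g, ⟨g, rfl⟩, hg⟩
  · rintro ⟨_, ⟨g, rfl⟩, hg⟩
    exact ⟨g, hg⟩

theorem TS_two (x₁ x₂ y₁ y₂ : Cube n) (h : T157.G1.ov x₁ x₂ = T157.G1.ov y₁ y₂) :
    ∃ τ ∈ TS n, τ x₁ = y₁ ∧ τ x₂ = y₂ := by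
  have h' : Sgn.ov x₁ x₂ = Sgn.ov y₁ y₂ := by
    have a := dot_eq x₁ x₂
    have b := dot_eq y₁ y₂
    rw [h] at a
    exact a.trans b.symm
  obtain ⟨g, hg⟩ := Sgn.trans_two x₁ x₂ y₁ y₂ h'
  exact ⟨actE g, ⟨g, rfl⟩, hg⟩

/-! ### tuples as leaves (constrained systems) -/

section tuples
variable {κ : Type}

/-- the diagonal action on tuples -/
def actT (g : SP (Fin n)) : Equiv.Perm (κ → Cube n) := Equiv.piCongrRight fun _ => actE g

@[simp] lemma actT_apply (g : SP (Fin n)) (x : κ → Cube n) (a : κ) :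
    actT g x a = act g (x a) := rfl

/-- the signed permutations acting on tuples -/
def TT (n : ℕ) (κ : Type) : Set (Equiv.Perm (κ → Cube n)) := range actT

/-- the covariance of the level depends on the matrix of overlaps only -/
def OvLvT (l : Lv (κ → Cube n)) : Prop :=
  ∃ φ : (κ → κ → ℝ) → ℝ, ∀ x y, l.cov x y = φ fun a b => T157.G1.ov (x a) (y b)

/-- a weight (or energy) that depends on the overlaps inside the tuple, or on its type, only -/
def InvT (w : (κ → Cube n) → ℝ) : Prop := ∀ (g : SP (Fin n)) x, w (actT g x) = w x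

lemma invT_ov (ψ : (κ → κ → ℝ) → ℝ) :
    InvT fun x : κ → Cube n => ψ fun a b => T157.G1.ov (x a) (x b) := fun g x => by
  simp only [actT_apply, ov_act]

lemma invT_typ [Fintype κ] (a₀ : κ) (ψ : ((κ → Bool) → ℕ) → ℝ) :
    InvT fun x : κ → Cube n => ψ (typ a₀ x) := fun g x =>
  congrArg ψ (typ_act a₀ g x)

theorem symT_act {L : List (Lv (κ → Cube n))} (hL : ∀ l ∈ L, OvLvT l)
    {w h : (κ → Cube n) → ℝ} (hw : InvT w) (hh : InvT h) : ∀ τ ∈ TT n κ, Sym w L h τ := by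
  rintro _ ⟨g, rfl⟩
  refine ⟨hw g, hh g, fun l hl x y => ?_⟩
  obtain ⟨φ, hφ⟩ := hL l hl
  rw [hφ, hφ]
  simp only [actT_apply, ov_act]

theorem TT_typ [Fintype κ] (a₀ : κ) (x₀ x : κ → Cube n) (h : typ a₀ x = typ a₀ x₀) :
    ∃ τ ∈ TT n κ, τ x₀ = x := by
  obtain ⟨g, hg⟩ := (typ_eq_iff a₀ x₀ x).1 h.symm
  exact ⟨actT g, ⟨g, rfl⟩, funext hg⟩

/-- the level acting on the sum `∑_a c_a H(x_a)` of the energies of the members -/
abbrev sumLv [Fintype κ] (l : Lv (Cube n)) (c : κ → ℝ) (m : ℝ) : Lv (κ → Cube n) :=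
  ⟨l.ι, fun x i => ∑ a, c a * l.A (x a) i, m⟩

lemma cov_sumLv [Fintype κ] (l : Lv (Cube n)) (c : κ → ℝ) (m : ℝ) (x y : κ → Cube n) :
    (sumLv l c m).cov x y = ∑ a, ∑ b, c a * c b * l.cov (x a) (y b) := by
  simp only [Lv.cov, Finset.sum_mul_sum]
  simp only [Finset.mul_sum]
  rw [Finset.sum_comm]
  refine Finset.sum_congr rfl fun a _ => ?_
  rw [Finset.sum_comm]
  exact Finset.sum_congr rfl fun b _ => Finset.sum_congr rfl fun i _ => by ring

lemma OvLv.sumLv [Fintype κ] {l : Lv (Cube n)} (h : OvLv l) (c : κ → ℝ) (m : ℝ) :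
    OvLvT (sumLv l c m) := by
  obtain ⟨φ, hφ⟩ := h
  exact ⟨fun R => ∑ a, ∑ b, c a * c b * φ (R a b), fun x y => by simp only [cov_sumLv, hφ]⟩

end tuples

end Crest.Agent.T156.Cas

end
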