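import Crest.Agent.T156.CaSym_84
import Crest.Agent.T156.CaTr_32
import Crest.Agent.T156.CaPe_45
import Crest.Agent.T156.SgnCas_69

/-!
# Row 156: site exchangeability on replica trees (helper55)

The tree law `tX` is invariant under every symmetry of the data.  On the cube with levels that
depend on the overlap only, a one-site function of the leaves may be replaced by its site average,
odd one-site functions vanish, and `k` distinct sites may be replaced by `k` independent averages at
the cost `k²/n`.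
-/

set_option autoImplicit false
set_option linter.all false

noncomputable section

namespace Crest.Agent.T156.Cas.Site55

open MeasureTheory Real Set
open Crest.Agent.T157.E Crest.Agent.T157.Casc Crest.Agent.T157.SL
open Crest.Agent.T156.Sgn (SP act actE)

section gen
variable {Ω : Type} [Fintype Ω] {w : Ω → ℝ}

/-- the tree law is invariant under the symmetries of the data -/
theorem tX_sym (hw : Wt w) {L : List (Lv Ω)} {h : Ω → ℝ} {τ : Equiv.Perm Ω} (H : Sym w L h τ)
    (s : Sh) {F : (s.Lf → ℕ → Ω → ℝ) → (s.Lf → Ω) → ℝ} (hF : ∀ x, Measurable fun p => F p x) :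
    tX w s L h (fun g x => F (stT s L h g) x) =
      tX w s L h fun g x => F (fun a j y => stT s L h g a j (τ y)) fun a => τ.symm (x a) := by
  unfold tX denT
  simp only [Sy84.UT_eq]
  rw [Sy84.int_tree H s (G := fun p => ∑ x : s.Lf → Ω, (∏ a, w (x a)) *
      exp (-Sy84.UP w s L x p - s.br * ex L 0 * X w L h) * F p x)
    (Finset.measurable_sum _ fun x _ =>
      ((((Sy84.meas_UP hw s L x).neg.sub_const _).exp).const_mul _).mul (hF x))]
  refine integral_congr_ae (.of_forall fun g => ?_)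
  simp only [Sy84.UP_sym hw H.w s L H.cov]
  refine Fintype.sum_equiv (Equiv.piCongrRight fun _ => τ) _ _ fun x => ?_
  have e : (Equiv.piCongrRight fun _ : s.Lf => τ) x = fun a => τ (x a) := rfl
  simp only [e, H.w, Equiv.symm_apply_apply]

/-- leaf functions -/
theorem tX_sym_leaf (hw : Wt w) {L : List (Lv Ω)} {h : Ω → ℝ} {τ : Equiv.Perm Ω}
    (H : Sym w L h τ) (s : Sh) (F : (s.Lf → Ω) → ℝ) :
    tX w s L h (fun _ x => F fun a => τ (x a)) = tX w s L h fun _ x => F x := by
  have := tX_sym hw H s (F := fun _ x => F fun a => τ (x a)) fun _ => measurable_const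
  simpa using this

variable (s : Sh) (L : List (Lv Ω)) (h : Ω → ℝ)

theorem tX_cmul (c : ℝ) (F : (NT s L → ℝ) → (s.Lf → Ω) → ℝ) :
    tX w s L h (fun g x => c * F g x) = c * tX w s L h F := by
  unfold tX
  rw [← integral_const_mul]
  refine integral_congr_ae (.of_forall fun g => ?_)
  simp only [Finset.mul_sum]
  exact Finset.sum_congr rfl fun x _ => by ring

theorem tX_neg (F : (NT s L → ℝ) → (s.Lf → Ω) → ℝ) :
    tX w s L h (fun g x => -F g x) = -tX w s L h F := by
  simpa using tX_cmul (w := w) s L h (-1) F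

theorem tX_sum (hw : Wt w) {α : Type*} (S : Finset α) {F : α → (NT s L → ℝ) → (s.Lf → Ω) → ℝ}
    (hF : ∀ k ∈ S, ∀ x, Eg fun g => F k g x) :
    tX w s L h (fun g x => ∑ k ∈ S, F k g x) = ∑ k ∈ S, tX w s L h (F k) := by
  unfold tX
  rw [← integral_finsetSum _ fun k hk => Tr.eg_int (Tr.eg_sumT hw s L h (hF k hk))]
  refine integral_congr_ae (.of_forall fun g => ?_)
  simp only [Finset.mul_sum]
  exact Finset.sum_comm

theorem tX_mono (hw : Wt w) {F F' : (NT s L → ℝ) → (s.Lf → Ω) → ℝ}
    (hF : ∀ x, Eg fun g => F g x) (hF' : ∀ x, Eg fun g => F' g x) (e : ∀ g x, F g x ≤ F' g x) :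
    tX w s L h F ≤ tX w s L h F' :=
  integral_mono (Tr.eg_int (Tr.eg_sumT hw s L h hF)) (Tr.eg_int (Tr.eg_sumT hw s L h hF'))
    fun g => Finset.sum_le_sum fun x _ =>
      mul_le_mul_of_nonneg_left (e g x) (Tr.denT_nonneg hw s L h g x)

theorem tX_nonneg (hw : Wt w) {F : (NT s L → ℝ) → (s.Lf → Ω) → ℝ} (e : ∀ g x, 0 ≤ F g x) :
    0 ≤ tX w s L h F :=
  integral_nonneg fun g => Finset.sum_nonneg fun x _ =>
    mul_nonneg (Tr.denT_nonneg hw s L h g x) (e g x)

theorem eg_abs {κ : Type} [Fintype κ] {F : (κ → ℝ) → ℝ} (hF : Eg F) : Eg fun g => |F g| :=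
  hF.of_le hF.cont.abs fun z => (abs_abs _).le

theorem abs_tX_le (hw : Wt w) {F F' : (NT s L → ℝ) → (s.Lf → Ω) → ℝ}
    (hF : ∀ x, Eg fun g => F g x) (hF' : ∀ x, Eg fun g => F' g x) (e : ∀ g x, |F g x| ≤ F' g x) :
    |tX w s L h F| ≤ tX w s L h F' := by
  refine abs_le.2 ⟨?_, tX_mono s L h hw hF hF' fun g x => (le_abs_self _).trans (e g x)⟩
  rw [← tX_neg]
  exact tX_mono s L h hw (fun x => by simpa using (hF' x).const_mul (-1)) hF
    fun g x => (abs_le.1 (e g x)).1

theorem tX_const (hw : Wt w) (c : ℝ) : tX w s L h (fun _ _ => c) = c := by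
  have := tX_cmul (w := w) s L h c fun _ _ => 1
  rw [Tr.tX_unit peStmt hw] at this
  simpa using this

end gen

/-! ### the cube -/

variable {n : ℕ}

/-- paths of the leaves `κ` -/
abbrev Pt55 (κ : Type) (n : ℕ) : Type := κ → ℕ → Cube n → ℝ

/-- `G (path, leaves)` is invariant under the signed permutation `g` -/
def InvAt {κ : Type} (G : Pt55 κ n → (κ → Cube n) → ℝ) (g : SP (Fin n)) : Prop :=
  ∀ p x, G (fun a j y => p a j (act g y)) (fun a => (actE g).symm (x a)) = G p x

/-- invariant under the permutations of the sites -/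
def SInv {κ : Type} (G : Pt55 κ n → (κ → Cube n) → ℝ) : Prop :=
  ∀ pr : Equiv.Perm (Fin n), InvAt G (fun _ => false, pr)

/-- invariant under all signed permutations -/
def BInv {κ : Type} (G : Pt55 κ n → (κ → Cube n) → ℝ) : Prop := ∀ g, InvAt G g

theorem BInv.sInv {κ : Type} {G : Pt55 κ n → (κ → Cube n) → ℝ} (h : BInv G) : SInv G :=
  fun _ => h _

theorem ov_symm_act (g : SP (Fin n)) (x y : Cube n) :
    T157.G1.ov ((actE g).symm x) ((actE g).symm y) = T157.G1.ov x y := ov_act (Sgn.inv g) x y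

/-- functions of the overlap matrix of the leaves are invariant -/
theorem bInv_ov {κ : Type} (ψ : (κ → κ → ℝ) → ℝ) :
    BInv fun (_ : Pt55 κ n) x => ψ fun a b => T157.G1.ov (x a) (x b) := fun g p x => by
  simp only [ov_symm_act]

theorem BInv.mul {κ : Type} {G G' : Pt55 κ n → (κ → Cube n) → ℝ} (h : BInv G) (h' : BInv G') :
    BInv fun p x => G p x * G' p x := fun g p x => by
  beta_reduce
  rw [h g, h' g]

theorem SInv.mul {κ : Type} {G G' : Pt55 κ n → (κ → Cube n) → ℝ} (h : SInv G) (h' : SInv G') :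
    SInv fun p x => G p x * G' p x := fun g p x => by
  beta_reduce
  rw [h g, h' g]

theorem wt_one : Wt fun _ : Cube n => (1 : ℝ) := ⟨fun _ => zero_le_one, by simp⟩

variable {L : List (Lv (Cube n))} {s : Sh} {G : Pt55 s.Lf n → (s.Lf → Cube n) → ℝ}

local notation "tx" => tX (fun _ => (1 : ℝ)) s L 0
local notation "pa" => stT s L 0

/-- an invariant factor times any function of the leaves -/
theorem tX_act (hL : ∀ l ∈ L, OvLv l) (hm : ∀ x, Measurable fun p => G p x) {g : SP (Fin n)}
    (hG : InvAt G g) (Ξ : (s.Lf → Cube n) → ℝ) :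
    tx (fun u x => G (pa u) x * Ξ x) =
      tx fun u x => G (pa u) x * Ξ fun a => (actE g).symm (x a) := by
  rw [tX_sym wt_one (sym_act₀ hL (actE g) ⟨g, rfl⟩) s (F := fun p x => G p x * Ξ x)
    fun x => (hm x).mul_const _]
  simp only [Sgn.actE_apply, hG _]

/-- **distinct sites are exchangeable** -/
theorem tX_inj (hL : ∀ l ∈ L, OvLv l) (hm : ∀ x, Measurable fun p => G p x) (hG : SInv G)
    {ι : Type} [Finite ι] {e e' : ι → Fin n} (he : Function.Injective e)
    (he' : Function.Injective e') (Ξ : (ι → s.Lf → Bool) → ℝ) :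
    tx (fun u x => G (pa u) x * Ξ fun r a => x a (e r)) =
      tx fun u x => G (pa u) x * Ξ fun r a => x a (e' r) := by
  obtain ⟨pr, hpr⟩ := Equiv.Perm.exists_extending_pair e' e he' he
  rw [tX_act hL hm (hG pr)]
  congr 1
  funext u x
  congr 2
  funext r a
  change act (Sgn.inv _) (x a) (e r) = _
  simp [act, Sgn.inv, ← hpr r]

theorem tX_site_eq (hL : ∀ l ∈ L, OvLv l) (hm : ∀ x, Measurable fun p => G p x) (hG : SInv G)
    (i j : Fin n) (ξ : (s.Lf → Bool) → ℝ) :
    tx (fun u x => G (pa u) x * ξ fun a => x a i) = tx fun u x => G (pa u) x * ξ fun a => x a j :=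
  tX_inj hL hm hG (ι := Unit) (e := fun _ => i) (e' := fun _ => j)
    (Function.injective_of_subsingleton _) (Function.injective_of_subsingleton _) fun b => ξ (b ())

/-- **last spin to site average** -/
theorem tX_site (hL : ∀ l ∈ L, OvLv l) (hm : ∀ x, Measurable fun p => G p x)
    (hE : ∀ x, Eg fun u => G (pa u) x) (hG : SInv G) (i : Fin n) (ξ : (s.Lf → Bool) → ℝ) :
    tx (fun u x => G (pa u) x * ξ fun a => x a i) =
      tx fun u x => G (pa u) x * ((∑ j, ξ fun a => x a j) / n) := by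
  have hn : (n : ℝ) ≠ 0 := Nat.cast_ne_zero.2 (Fin.pos i).ne'
  have e : (fun (u : NT s L → ℝ) (x : s.Lf → Cube n) => G (pa u) x * ((∑ j, ξ fun a => x a j) / n))
      = fun u x => (n : ℝ)⁻¹ * ∑ j, G (pa u) x * ξ fun a => x a j := by
    funext u x
    rw [← Finset.mul_sum]
    ring
  rw [e, tX_cmul, tX_sum s L 0 wt_one _ fun j _ x => (hE x).mul (Eg.const _),
    Finset.sum_congr rfl fun j _ => tX_site_eq hL hm hG j i ξ]
  simp only [Finset.sum_const, Finset.card_univ, Fintype.card_fin, nsmul_eq_mul]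
  field_simp

/-- **last spin to overlap** -/
theorem tX_ov (hL : ∀ l ∈ L, OvLv l) (hm : ∀ x, Measurable fun p => G p x)
    (hE : ∀ x, Eg fun u => G (pa u) x) (hG : SInv G) (i : Fin n) (a b : s.Lf) :
    tx (fun u x => G (pa u) x * (sv (x a) i * sv (x b) i)) =
      tx fun u x => G (pa u) x * T157.G1.ov (x a) (x b) :=
  tX_site hL hm hE hG i fun c => Crest.ProbabilityR.SpinGlassDynamics.spin (c a) * Crest.ProbabilityR.SpinGlassDynamics.spin (c b)

/-- odd one-site functions vanish -/
theorem tX_odd (hL : ∀ l ∈ L, OvLv l) (hm : ∀ x, Measurable fun p => G p x) (i : Fin n)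
    (hG : InvAt G (fun j => decide (j = i), 1)) (Ξ : (s.Lf → Cube n) → ℝ)
    (hΞ : ∀ x, Ξ (fun a => Function.update (x a) i (!x a i)) = -Ξ x) :
    tx (fun u x => G (pa u) x * Ξ x) = 0 := by
  have h1 := tX_act hL hm hG Ξ
  have e : ∀ x : s.Lf → Cube n, (fun a => (actE ((fun j => decide (j = i), 1) : SP (Fin n))).symm
      (x a)) = fun a => Function.update (x a) i (!x a i) := by
    intro x
    funext a j
    change act (Sgn.inv _) (x a) j = _
    by_cases hj : j = i
    · subst hj; simp [act, Sgn.inv, Equiv.Perm.one_def]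
    · simp [act, Sgn.inv, hj, Equiv.Perm.one_def]
  simp only [e, hΞ, mul_neg, tX_neg] at h1
  linarith

theorem tX_odd_site (hL : ∀ l ∈ L, OvLv l) (hm : ∀ x, Measurable fun p => G p x) (hG : BInv G)
    (i : Fin n) (ξ : (s.Lf → Bool) → ℝ) (hξ : ∀ b, ξ (fun a => !b a) = -ξ b) :
    tx (fun u x => G (pa u) x * ξ fun a => x a i) = 0 :=
  tX_odd hL hm i (hG _) (fun x => ξ fun a => x a i) fun x => by simpa using hξ fun a => x a i

/-! ### `k` distinct sites against `k` independent averages -/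

theorem card_coll {ι : Type} [Fintype ι] [DecidableEq ι] {r r' : ι} (hr : r ≠ r') :
    n * (Finset.univ.filter fun f : ι → Fin n => f r = f r').card ≤ n ^ Fintype.card ι := by
  have h1 : (Finset.univ.filter fun f : ι → Fin n => f r = f r').card ≤
      (Finset.univ : Finset ({t // t ≠ r} → Fin n)).card := by
    refine Finset.card_le_card_of_injOn (fun f t => f t.1) (fun _ _ => Finset.mem_univ _) ?_
    intro f hf f' hf' e
    simp only [Finset.coe_filter, Finset.mem_univ, true_and, Set.mem_setOf_eq] at hf hf'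
    funext t
    by_cases ht : t = r
    · rw [ht, hf, hf']
      exact congrFun e ⟨r', hr.symm⟩
    · exact congrFun e ⟨t, ht⟩
  have h2 : Fintype.card {t // t ≠ r} + 1 = Fintype.card ι := by
    have := Fintype.card_pos_iff.2 (⟨r⟩ : Nonempty ι)
    rw [Fintype.card_subtype_compl, Fintype.card_subtype_eq]
    omega
  rw [Finset.card_univ, Fintype.card_fun, Fintype.card_fin] at h1
  rw [← h2, pow_succ']
  exact Nat.mul_le_mul_left _ h1

theorem card_ninj {ι : Type} [Fintype ι] [DecidableEq ι] :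
    n * (Finset.univ.filter fun f : ι → Fin n => ¬Function.Injective f).card ≤
      Fintype.card ι ^ 2 * n ^ Fintype.card ι := by
  have h1 : (Finset.univ.filter fun f : ι → Fin n => ¬Function.Injective f) ⊆
      (Finset.univ.filter fun p : ι × ι => p.1 ≠ p.2).biUnion
        fun p => Finset.univ.filter fun f : ι → Fin n => f p.1 = f p.2 := by
    intro f hf
    simp only [Finset.mem_filter, Finset.mem_univ, true_and, Function.Injective, not_forall] at hf
    obtain ⟨a, b, h1, h2⟩ := hf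
    simp only [Finset.mem_biUnion, Finset.mem_filter, Finset.mem_univ, true_and]
    exact ⟨(a, b), h2, h1⟩
  calc _ ≤ n * ∑ p ∈ Finset.univ.filter (fun p : ι × ι => p.1 ≠ p.2),
        (Finset.univ.filter fun f : ι → Fin n => f p.1 = f p.2).card :=
        Nat.mul_le_mul_left _ ((Finset.card_le_card h1).trans Finset.card_biUnion_le)
    _ ≤ ∑ p ∈ Finset.univ.filter (fun p : ι × ι => p.1 ≠ p.2), n ^ Fintype.card ι := by
        rw [Finset.mul_sum]
        exact Finset.sum_le_sum fun p hp => card_coll (Finset.mem_filter.1 hp).2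
    _ ≤ _ := by
        rw [Finset.sum_const, smul_eq_mul]
        refine Nat.mul_le_mul_right _ ((Finset.card_le_univ _).trans ?_)
        rw [Fintype.card_prod, sq]

/-- **`k` distinct sites against the average over all `k`-tuples of sites** -/
theorem tX_tuple (hL : ∀ l ∈ L, OvLv l) (hm : ∀ x, Measurable fun p => G p x)
    (hE : ∀ x, Eg fun u => G (pa u) x) (hG : SInv G) {ι : Type} [Fintype ι] [DecidableEq ι]
    {e : ι → Fin n} (he : Function.Injective e) (Ξ : (ι → s.Lf → Bool) → ℝ) {C : ℝ}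
    (hC : ∀ b, |Ξ b| ≤ C) (hn : 0 < n) :
    |tx (fun u x => G (pa u) x * Ξ fun r a => x a (e r)) -
      tx (fun u x => G (pa u) x *
        ((∑ f : ι → Fin n, Ξ fun r a => x a (f r)) / (n : ℝ) ^ Fintype.card ι))| ≤
      2 * (Fintype.card ι : ℝ) ^ 2 / n * C * tx fun u x => |G (pa u) x| := by
  have hn' : (0 : ℝ) < n := by exact_mod_cast hn
  set N : ℝ := (n : ℝ) ^ Fintype.card ι with hN
  have hN0 : 0 < N := by positivity
  set B := tx fun u x => |G (pa u) x| with hB
  set T : (ι → Fin n) → ℝ := fun f => tx fun u x => G (pa u) x * Ξ fun r a => x a (f r) with hT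
  have hC0 : 0 ≤ C := (abs_nonneg _).trans (hC fun _ _ => true)
  have hB0 : 0 ≤ B := tX_nonneg s L 0 wt_one fun _ _ => abs_nonneg _
  have hb : ∀ f, |T f| ≤ C * B := fun f => by
    rw [hB, ← tX_cmul]
    refine abs_tX_le s L 0 wt_one (fun x => (hE x).mul (Eg.const _))
      (fun x => (eg_abs (hE x)).const_mul _) fun u x => ?_
    rw [abs_mul, mul_comm]
    exact mul_le_mul_of_nonneg_right (hC _) (abs_nonneg _)
  have e1 : (fun (u : NT s L → ℝ) (x : s.Lf → Cube n) => G (pa u) x *
      ((∑ f : ι → Fin n, Ξ fun r a => x a (f r)) / N)) =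
      fun u x => N⁻¹ * ∑ f : ι → Fin n, G (pa u) x * Ξ fun r a => x a (f r) := by
    funext u x
    rw [← Finset.mul_sum]
    ring
  rw [e1, tX_cmul, tX_sum s L 0 wt_one _ fun j _ x => (hE x).mul (Eg.const _)]
  change |T e - N⁻¹ * ∑ f, T f| ≤ _
  have e2 : T e - N⁻¹ * ∑ f, T f = N⁻¹ * ∑ f, (T e - T f) := by
    rw [Finset.sum_sub_distrib, Finset.sum_const, Finset.card_univ, Fintype.card_fun,
      Fintype.card_fin, nsmul_eq_mul, Nat.cast_pow, ← hN]
    field_simp
  have e3 : ∑ f, (T e - T f) =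
      ∑ f ∈ Finset.univ.filter (fun f : ι → Fin n => ¬Function.Injective f), (T e - T f) := by
    rw [Finset.sum_filter]
    refine Finset.sum_congr rfl fun f _ => ?_
    by_cases hf : Function.Injective f
    · rw [if_neg (not_not.2 hf)]
      exact sub_eq_zero.2 (tX_inj hL hm hG he hf Ξ)
    · rw [if_pos hf]
  have h4 : |∑ f, (T e - T f)| ≤
      ((Finset.univ.filter fun f : ι → Fin n => ¬Function.Injective f).card : ℝ) *
        (2 * (C * B)) := by
    rw [e3, ← nsmul_eq_mul, ← Finset.sum_const]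
    refine (Finset.abs_sum_le_sum_abs _ _).trans (Finset.sum_le_sum fun f _ => ?_)
    linarith [abs_sub (T e) (T f), hb e, hb f]
  have h5 : (n : ℝ) * ((Finset.univ.filter fun f : ι → Fin n => ¬Function.Injective f).card : ℝ) ≤
      (Fintype.card ι : ℝ) ^ 2 * N := by
    rw [hN]
    exact_mod_cast card_ninj (n := n) (ι := ι)
  rw [e2, abs_mul, abs_of_pos (inv_pos.2 hN0), inv_mul_le_iff₀ hN0]
  refine h4.trans ?_
  have h6 : ((Finset.univ.filter fun f : ι → Fin n => ¬Function.Injective f).card : ℝ) ≤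
      (Fintype.card ι : ℝ) ^ 2 * N / n := by
    rw [le_div_iff₀ hn']
    linarith
  refine (mul_le_mul_of_nonneg_right h6 (by positivity)).trans_eq ?_
  field_simp

/-- product form: `k` distinct sites against the product of the site averages -/
theorem tX_prod (hL : ∀ l ∈ L, OvLv l) (hm : ∀ x, Measurable fun p => G p x)
    (hE : ∀ x, Eg fun u => G (pa u) x) (hG : SInv G) {ι : Type} [Fintype ι] [DecidableEq ι]
    {e : ι → Fin n} (he : Function.Injective e) (ξ : ι → (s.Lf → Bool) → ℝ) {C : ι → ℝ}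
    (hC : ∀ r b, |ξ r b| ≤ C r) (hn : 0 < n) :
    |tx (fun u x => G (pa u) x * ∏ r, ξ r fun a => x a (e r)) -
      tx (fun u x => G (pa u) x * ∏ r, ((∑ j, ξ r fun a => x a j) / n))| ≤
      2 * (Fintype.card ι : ℝ) ^ 2 / n * (∏ r, C r) * tx fun u x => |G (pa u) x| := by
  have := tX_tuple hL hm hE hG he (fun b => ∏ r, ξ r (b r)) (C := ∏ r, C r) (fun b => by
    rw [Finset.abs_prod]
    exact Finset.prod_le_prod (fun _ _ => abs_nonneg _) fun r _ => hC r _) hn
  have e1 : ∀ x : s.Lf → Cube n, ∏ r, ((∑ j, ξ r fun a => x a j) / n) =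
      (∑ f : ι → Fin n, ∏ r, ξ r fun a => x a (f r)) / (n : ℝ) ^ Fintype.card ι := by
    intro x
    rw [Finset.prod_div_distrib, Finset.prod_const, Finset.card_univ, Finset.prod_univ_sum,
      Fintype.piFinset_univ]
  simp only [e1]
  exact this

/-! ### functions of the leaves only -/

section leaf
variable (ψ : (s.Lf → s.Lf → ℝ) → ℝ)

theorem leaf_site (hL : ∀ l ∈ L, OvLv l) (i : Fin n) (ξ : (s.Lf → Bool) → ℝ) :
    tx (fun _ x => ψ (fun a b => T157.G1.ov (x a) (x b)) * ξ fun a => x a i) =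
      tx fun _ x => ψ (fun a b => T157.G1.ov (x a) (x b)) * ((∑ j, ξ fun a => x a j) / n) :=
  tX_site (G := fun _ x => ψ fun a b => T157.G1.ov (x a) (x b)) hL (fun _ => measurable_const)
    (fun _ => Eg.const _) (bInv_ov ψ).sInv i ξ

theorem leaf_ov (hL : ∀ l ∈ L, OvLv l) (i : Fin n) (a b : s.Lf) :
    tx (fun _ x => ψ (fun a b => T157.G1.ov (x a) (x b)) * (sv (x a) i * sv (x b) i)) =
      tx fun _ x => ψ (fun a b => T157.G1.ov (x a) (x b)) * T157.G1.ov (x a) (x b) :=
  tX_ov (G := fun _ x => ψ fun a b => T157.G1.ov (x a) (x b)) hL (fun _ => measurable_const)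
    (fun _ => Eg.const _) (bInv_ov ψ).sInv i a b

theorem leaf_odd (hL : ∀ l ∈ L, OvLv l) (i : Fin n) (ξ : (s.Lf → Bool) → ℝ)
    (hξ : ∀ b, ξ (fun a => !b a) = -ξ b) :
    tx (fun _ x => ψ (fun a b => T157.G1.ov (x a) (x b)) * ξ fun a => x a i) = 0 :=
  tX_odd_site (G := fun _ x => ψ fun a b => T157.G1.ov (x a) (x b)) hL
    (fun _ => measurable_const) (bInv_ov ψ) i ξ hξ

end leaf

end Crest.Agent.T156.Cas.Site55

end
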