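import Crest.Agent.T156.CavM_22
import Crest.Agent.T156.CaRow_90
import Crest.Agent.T156.Site_55
import Crest.Agent.T156.Mov_21

/-!
# Row 156: the ONE cavity path (helper23)

On `Cube n × Bool`, the path `op n β M q θ` joins (`n`-system) × (site cascade) at `θ = 0` to the
`n + 1` system at `θ = 1`; the derivative of its covariance at the split `j` is
`τ_j (η U - U² / 2)`, `U = R - q_j`, `η = ε ε' - q_j`.
-/

set_option autoImplicit false
set_option linter.unusedSectionVars false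

noncomputable section

namespace Crest.Agent.T156.Cas

open MeasureTheory Real Set Filter Topology
open Crest.Agent.T157.E Crest.Agent.T157.Casc Crest.Agent.T157.SL
open Crest.Agent.T157.Casc.C (Same addLv coLv push)
open Crest.Agent.T157.G1 (ov fl)
open Crest.ProbabilityR.SpinGlassDynamics (spin)

/-- a level `p = (m, d, f)` with the increments `u` of `τ q` and `v` of `τ q² / 2` -/
structure OL where
  p : ℝ × ℝ × ℝ
  u : ℝ
  v : ℝ

/-- all variances are nonnegative -/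
def OL.Ok (c : OL) : Prop := 0 ≤ c.p.2.1 ∧ 0 ≤ c.p.2.2 ∧ 0 ≤ c.u ∧ 0 ≤ c.v

/-- one level of the path -/
def OL.il (n : ℕ) (β : ℝ) (c : OL) : IL (Cube n × Bool) :=
  ⟨pl (mxL n (bb n β) c.p, C.sl spin (c.p.1, c.p.2.2)),
    addLv (rowL n (bb n β) c.p.2.1 c.p.1) (cLv _ c.v c.p.1),
    pl (wl n (bb n β) (c.p.2.1 / n) c.p.1, C.sl spin (c.p.1, c.u))⟩

/-- the increments of `τ q` and `τ q² / 2` along `M`, started from `τ = T` -/
def oInc (κ : ℝ) : ℝ → (ℕ → ℝ) → List (ℝ × ℝ × ℝ) → List OL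
  | _, _, [] => []
  | T, q, p :: M => ⟨p, (T + κ * p.2.1) * q 1 - T * q 0,
      ((T + κ * p.2.1) * q 1 ^ 2 - T * q 0 ^ 2) / 2⟩ :: oInc κ (T + κ * p.2.1) (fun j => q (j + 1)) M

/-- accumulated W-variance -/
def dAcc (M : List (ℝ × ℝ × ℝ)) (j : ℕ) : ℝ := ((M.take j).map fun p => p.2.1).sum

/-- accumulated field variance -/
def fAcc (M : List (ℝ × ℝ × ℝ)) (j : ℕ) : ℝ := ((M.take j).map fun p => p.2.2).sum

/-- `τ_j = β² n / (n + 1) ∑_{i<j} d_i` -/
def oTau (n : ℕ) (β : ℝ) (M : List (ℝ × ℝ × ℝ)) (j : ℕ) : ℝ := bb n β ^ 2 * dAcc M j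

/-- admissible data: variances, and a nondecreasing reference from `q 0 ≥ 0` to `1` -/
structure OOk (M : List (ℝ × ℝ × ℝ)) (q : ℕ → ℝ) : Prop where
  nn : ∀ p ∈ M, 0 ≤ p.2.1 ∧ 0 ≤ p.2.2
  q0 : 0 ≤ q 0
  mono : ∀ j < M.length, q j ≤ q (j + 1)
  top : q M.length = 1

/-- the levels of the path -/
def opL (n : ℕ) (β : ℝ) (M : List (ℝ × ℝ × ℝ)) (q : ℕ → ℝ) : List (IL (Cube n × Bool)) :=
  (oInc (bb n β ^ 2) 0 q M).map (OL.il n β)

/-- **the ONE path** -/
def op (n : ℕ) (β : ℝ) (M : List (ℝ × ℝ × ℝ)) (q : ℕ → ℝ) (θ : ℝ) : List (Lv (Cube n × Bool)) :=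
  ipl (opL n β M q) θ

/-- tilts and variances of the site cascade -/
def opV (n : ℕ) (β : ℝ) (M : List (ℝ × ℝ × ℝ)) (q : ℕ → ℝ) : List (ℝ × ℝ) :=
  (oInc (bb n β ^ 2) 0 q M).map fun c => (c.p.1, c.p.2.2 + c.u)

/-- the site cascade -/
def opS (n : ℕ) (β : ℝ) (M : List (ℝ × ℝ × ℝ)) (q : ℕ → ℝ) : List (Lv Bool) :=
  (opV n β M q).map (C.sl spin)

/-- `U = R - q_j` -/
def oU {n : ℕ} (q : ℕ → ℝ) (j : ℕ) (x y : Cube n) : ℝ := ov x y - q j

/-- `η = ε ε' - q_j` -/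
def oE (q : ℕ → ℝ) (j : ℕ) (a b : Bool) : ℝ := spin a * spin b - q j

/-- `τ_j (η U - U² / 2)` -/
def oD (n : ℕ) (β : ℝ) (M : List (ℝ × ℝ × ℝ)) (q : ℕ → ℝ) (j : ℕ) (x y : Cube n × Bool) : ℝ :=
  oTau n β M j * (oE q j x.2 y.2 * oU q j x.1 y.1 - oU q j x.1 y.1 ^ 2 / 2)

/-- the overlap of the `n + 1` system -/
def ov1 {n : ℕ} (x y : Cube n × Bool) : ℝ := (n * ov x.1 y.1 + spin x.2 * spin y.2) / (n + 1)

namespace OneP

theorem dAcc_cons (p : ℝ × ℝ × ℝ) (M : List (ℝ × ℝ × ℝ)) (j : ℕ) :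
    dAcc (p :: M) (j + 1) = p.2.1 + dAcc M j := by simp [dAcc]

theorem dAcc_zero (M : List (ℝ × ℝ × ℝ)) : dAcc M 0 = 0 := by simp [dAcc]

theorem oInc_p (κ : ℝ) : ∀ (M : List (ℝ × ℝ × ℝ)) (T : ℝ) (q : ℕ → ℝ), (oInc κ T q M).map OL.p = M
  | [], _, _ => rfl
  | p :: M, _, _ => by rw [oInc, List.map_cons, oInc_p κ M]

theorem oInc_map {α : Type*} (κ T : ℝ) (q : ℕ → ℝ) (M : List (ℝ × ℝ × ℝ)) (f : ℝ × ℝ × ℝ → α) :
    ((oInc κ T q M).map fun c => f c.p) = M.map f := by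
  conv_rhs => rw [← oInc_p κ M T q, List.map_map]
  rfl

theorem oInc_length (κ T : ℝ) (q : ℕ → ℝ) (M : List (ℝ × ℝ × ℝ)) :
    (oInc κ T q M).length = M.length := by
  simpa using congrArg List.length (oInc_p κ M T q)

theorem oInc_ok {κ : ℝ} (hκ : 0 ≤ κ) : ∀ (M : List (ℝ × ℝ × ℝ)) (T : ℝ) (q : ℕ → ℝ), 0 ≤ T →
    (∀ p ∈ M, 0 ≤ p.2.1 ∧ 0 ≤ p.2.2) → 0 ≤ q 0 → (∀ j < M.length, q j ≤ q (j + 1)) →
    ∀ c ∈ oInc κ T q M, c.Ok
  | [], _, _, _, _, _, _, _, hc => by simp [oInc] at hc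
  | p :: M, T, q, hT, hM, h0, hq, c, hc => by
    have h1 := hM p (by simp)
    have h2 : q 0 ≤ q 1 := hq 0 (by simp)
    have h3 := mul_nonneg hκ h1.1
    rcases List.mem_cons.1 hc with rfl | hc
    · refine ⟨h1.1, h1.2, ?_, ?_⟩
      · show 0 ≤ (T + κ * p.2.1) * q 1 - T * q 0
        nlinarith [mul_nonneg hT (sub_nonneg.2 h2), mul_nonneg h3 (h0.trans h2)]
      · show 0 ≤ ((T + κ * p.2.1) * q 1 ^ 2 - T * q 0 ^ 2) / 2
        have h4 := pow_le_pow_left₀ h0 h2 2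
        nlinarith [mul_nonneg hT (sub_nonneg.2 h4), mul_nonneg h3 (sq_nonneg (q 1))]
    · exact oInc_ok hκ M _ _ (add_nonneg hT h3) (fun p hp => hM p (by simp [hp])) (h0.trans h2)
        (fun j hj => hq (j + 1) (by simpa using hj)) c hc

theorem oInc_uv (κ : ℝ) : ∀ (M : List (ℝ × ℝ × ℝ)) (T : ℝ) (q : ℕ → ℝ) (j : ℕ), j ≤ M.length →
    (((oInc κ T q M).take j).map OL.u).sum = (T + κ * dAcc M j) * q j - T * q 0 ∧
    (((oInc κ T q M).take j).map OL.v).sum = ((T + κ * dAcc M j) * q j ^ 2 - T * q 0 ^ 2) / 2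
  | _, _, _, 0, _ => by simp [dAcc_zero]
  | [], _, _, _ + 1, h => by simp at h
  | p :: M, T, q, j + 1, h => by
    have := oInc_uv κ M (T + κ * p.2.1) (fun j => q (j + 1)) j (by simpa using h)
    simp only [oInc, List.take_succ_cons, List.map_cons, List.sum_cons, this.1, this.2, dAcc_cons,
      zero_add]
    constructor <;> ring

/-- summation by parts against the tilts -/
theorem abel {α Θ : Type} (f : α → Lv Θ) (v : α → ℝ) : ∀ (A : List α) (m0 a : ℝ),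
    ∑ j ∈ Finset.range (A.length + 1), dm (A.map f) m0 j * (a + ((A.take j).map v).sum) =
      a + (A.map v).sum - m0 * a - (A.map fun c => (f c).m * v c).sum
  | [], m0, a => by simp [dm, ex, exP]; ring
  | c :: A, m0, a => by
    have := abel f v A (f c).m (a + v c)
    rw [List.length_cons, Finset.sum_range_succ']
    simp only [List.map_cons, dm_cons_succ, List.take_succ_cons, List.sum_cons, ← add_assoc, this]
    simp [dm, ex, exP]
    ring

variable {n : ℕ} {β : ℝ}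

theorem b_cov (hn : 0 < n) {c : OL} (hc : c.Ok) (x y : Cube n × Bool) :
    (c.il n β).b.cov x y = c.p.2.1 * (bb n β ^ 2 * n / 2 * ov x.1 y.1 ^ 2) +
      c.p.2.2 * n * ov x.1 y.1 + c.p.2.2 * (spin x.2 * spin y.2) := by
  simp only [OL.il, pl_cov, mxL_cov hn _ hc.1 hc.2.1, sl_cov90 hc.2.1]

theorem k1_cov (hn : 0 < n) {c : OL} (hc : c.Ok) (x y : Cube n × Bool) :
    (c.il n β).k1.cov x y = spin x.2 * spin y.2 * (c.p.2.1 * bb n β ^ 2 * ov x.1 y.1) + c.v := by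
  simp only [OL.il, Lin22.add_cov, rowL_cov hn _ hc.1, cLv_cov23 hc.2.2.2]

theorem k0_cov (hn : 0 < n) {c : OL} (hc : c.Ok) (x y : Cube n × Bool) :
    (c.il n β).k0.cov x y =
      c.p.2.1 * bb n β ^ 2 * ov x.1 y.1 ^ 2 / 2 + c.u * (spin x.2 * spin y.2) := by
  have hn' : (n : ℝ) ≠ 0 := Nat.cast_ne_zero.2 hn.ne'
  simp only [OL.il, pl_cov, sl_cov90 hc.2.2.1,
    Link33.cov_wl n _ _ _ _ _ hn (div_nonneg hc.1 n.cast_nonneg)]
  field_simp

theorem iD_il (hn : 0 < n) (x y : Cube n × Bool) : ∀ (L : List OL) (j : ℕ), (∀ c ∈ L, c.Ok) →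
    iD (L.map (OL.il n β)) j x y =
      bb n β ^ 2 * ((L.take j).map fun c => c.p.2.1).sum *
        (spin x.2 * spin y.2 * ov x.1 y.1 - ov x.1 y.1 ^ 2 / 2) +
      ((L.take j).map OL.v).sum - ((L.take j).map OL.u).sum * (spin x.2 * spin y.2)
  | [], _, _ => by simp [iD]
  | _ :: _, 0, _ => by simp [iD]
  | c :: L, j + 1, H => by
    rw [List.map_cons, iD_cons, iD_il hn x y L j fun c hc => H c (by simp [hc]), IL.D,
      k1_cov hn (H c (by simp)), k0_cov hn (H c (by simp))]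
    simp only [List.take_succ_cons, List.map_cons, List.sum_cons]
    ring

theorem abs_spin2 (a b : Bool) : |spin a * spin b| = 1 := by cases a <;> cases b <;> simp [spin]

end OneP

open OneP

variable {n : ℕ} {β : ℝ} {M : List (ℝ × ℝ × ℝ)} {q : ℕ → ℝ}

theorem OOk.ok (H : OOk M q) (n : ℕ) (β : ℝ) : ∀ c ∈ oInc (bb n β ^ 2) 0 q M, c.Ok :=
  oInc_ok (sq_nonneg _) M 0 q le_rfl H.nn H.q0 H.mono

theorem OOk.le (H : OOk M q) {i j : ℕ} (hij : i ≤ j) (hj : j ≤ M.length) : q i ≤ q j := by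
  induction hij with
  | refl => exact le_rfl
  | step _ ih => exact (ih (Nat.le_of_succ_le hj)).trans (H.mono _ hj)

theorem OOk.mem (H : OOk M q) {j : ℕ} (hj : j ≤ M.length) : q j ∈ Icc (0 : ℝ) 1 :=
  ⟨H.q0.trans (H.le (Nat.zero_le j) hj), (H.le hj le_rfl).trans_eq H.top⟩

theorem OOk.dAcc_le (H : OOk M q) (j : ℕ) : 0 ≤ dAcc M j ∧ dAcc M j ≤ dAcc M M.length := by
  have h : ∀ N : List (ℝ × ℝ × ℝ), (∀ p ∈ N, p ∈ M) → 0 ≤ (N.map fun p => p.2.1).sum :=
    fun N hN => List.sum_nonneg fun x hx => by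
      obtain ⟨p, hp, rfl⟩ := List.mem_map.1 hx
      exact (H.nn p (hN p hp)).1
  refine ⟨h _ fun p hp => List.mem_of_mem_take hp, ?_⟩
  have := h (M.drop j) fun p hp => List.mem_of_mem_drop hp
  rw [dAcc, dAcc, List.take_length]
  conv_rhs => rw [← List.take_append_drop j M, List.map_append, List.sum_append]
  linarith

theorem OOk.oTau_le (H : OOk M q) (n : ℕ) (β : ℝ) (j : ℕ) :
    0 ≤ oTau n β M j ∧ oTau n β M j ≤ oTau n β M M.length :=
  ⟨mul_nonneg (sq_nonneg _) (H.dAcc_le j).1,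
    mul_le_mul_of_nonneg_left (H.dAcc_le j).2 (sq_nonneg _)⟩

theorem opL_length : (opL n β M q).length = M.length := by rw [opL, List.length_map, oInc_length]

theorem op_length (θ : ℝ) : (op n β M q θ).length = M.length := by rw [op, ipl_length, opL_length]

theorem opS_length : (opS n β M q).length = M.length := by
  rw [opS, opV, List.length_map, List.length_map, oInc_length]

theorem tilt_opL : ((opL n β M q).map IL.b).map Lv.m = (M.map (mxL n β)).map Lv.m := by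
  simp only [opL, List.map_map]
  exact oInc_map _ _ _ _ fun p => p.1

theorem tilt_op (θ : ℝ) : (op n β M q θ).map Lv.m = (M.map (mxL n β)).map Lv.m :=
  (tilt_ipl _ θ).trans tilt_opL

theorem tilt_opS : (opS n β M q).map Lv.m = (M.map (mxL n β)).map Lv.m := by
  simp only [opS, opV, List.map_map]
  exact oInc_map _ _ _ _ fun p => p.1

theorem dm_opL (m0 : ℝ) (j : ℕ) :
    dm ((opL n β M q).map IL.b) m0 j = dm (M.map (mxL n β)) m0 j := Cav22.dm_tilt tilt_opL m0 j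

theorem mono_opL (hM : Mono 0 (M.map (mxL n β))) : Mono 0 ((opL n β M q).map IL.b) :=
  Cav22.mono_tilt tilt_opL.symm hM

/-- accumulated variance of the site cascade: `σ_j = τ_j q_j + h_j` -/
theorem opV_acc {j : ℕ} (hj : j ≤ M.length) :
    (((opV n β M q).take j).map Prod.snd).sum = oTau n β M j * q j + fAcc M j := by
  have h1 := (oInc_uv (bb n β ^ 2) M 0 q j hj).1
  have h2 : (((oInc (bb n β ^ 2) 0 q M).take j).map fun c => c.p.2.2).sum = fAcc M j := by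
    rw [List.map_take, oInc_map _ _ _ _ fun p => p.2.2, fAcc, List.map_take]
  rw [opV, ← List.map_take, List.map_map]
  simp only [Function.comp_def, List.sum_map_add, h2]
  erw [h1]
  rw [oTau]
  ring

theorem opV_nn (H : OOk M q) : ∀ p ∈ opV n β M q, 0 ≤ p.2 := fun p hp => by
  obtain ⟨c, hc, rfl⟩ := List.mem_map.1 hp
  exact add_nonneg (H.ok n β c hc).2.1 (H.ok n β c hc).2.2.1

/-- **the derivative of the covariance** -/
theorem iD_op (hn : 0 < n) (H : OOk M q) {j : ℕ} (hj : j ≤ M.length) :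
    iD (opL n β M q) j = oD n β M q j := by
  funext x y
  have h := oInc_uv (bb n β ^ 2) M 0 q j hj
  rw [opL, iD_il hn x y _ j (H.ok n β), h.1, h.2, List.map_take, oInc_map _ _ _ _ fun p => p.2.1,
    ← List.map_take, oD, oTau, oE, oU, dAcc]
  ring

theorem iD_op_min (hn : 0 < n) (H : OOk M q) (j : ℕ) :
    iD (opL n β M q) j = oD n β M q (min j M.length) := by
  rw [← iD_op hn H (min_le_right _ _)]
  funext x y
  rw [iD, iD, ← opL_length (n := n) (β := β) (q := q), ← List.take_eq_take_min]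

/-- zero on the diagonal -/
theorem iD_op_diag (hn : 0 < n) (H : OOk M q) (y : Cube n × Bool) :
    iD (opL n β M q) (opL n β M q).length y y = 0 := by
  rw [opL_length, iD_op hn H le_rfl, oD, oU, ov_self hn, H.top]
  simp

theorem abs_oU_le (H : OOk M q) {j : ℕ} (hj : j ≤ M.length) (x y : Cube n) : |oU q j x y| ≤ 2 := by
  have h1 := abs_le.1 (abs_ov_le x y)
  have h2 := H.mem hj
  exact abs_le.2 ⟨by rw [oU]; linarith [h2.2], by rw [oU]; linarith [h2.1]⟩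

theorem abs_oE_le (H : OOk M q) {j : ℕ} (hj : j ≤ M.length) (a b : Bool) : |oE q j a b| ≤ 2 := by
  have h1 := abs_le.1 (abs_spin2 a b).le
  have h2 := H.mem hj
  exact abs_le.2 ⟨by rw [oE]; linarith [h2.2], by rw [oE]; linarith [h2.1]⟩

theorem abs_oD_le (H : OOk M q) {j : ℕ} (hj : j ≤ M.length) (x y : Cube n × Bool) :
    |oD n β M q j x y| ≤ 3 * oTau n β M j * |oU q j x.1 y.1| := by
  have h1 := abs_oU_le H hj x.1 y.1
  have h2 := abs_oE_le H hj x.2 y.2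
  have h3 := (H.oTau_le n β j).1
  rw [oD, show ∀ e u : ℝ, e * u - u ^ 2 / 2 = (e - u / 2) * u from fun e u => by ring, abs_mul,
    abs_mul, abs_of_nonneg h3, mul_comm 3, mul_assoc]
  refine mul_le_mul_of_nonneg_left (mul_le_mul_of_nonneg_right ?_ (abs_nonneg _)) h3
  rw [abs_le] at h1 h2 ⊢
  constructor <;> linarith [h1.1, h1.2, h2.1, h2.2]

theorem abs_iD_op (hn : 0 < n) (H : OOk M q) (j : ℕ) (x y : Cube n × Bool) :
    |iD (opL n β M q) j x y| ≤ 6 * oTau n β M M.length := by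
  rw [iD_op_min hn H]
  refine (abs_oD_le H (min_le_right _ _) x y).trans ?_
  have h1 := abs_oU_le H (min_le_right j _) x.1 y.1
  have h2 := H.oTau_le n β (min j M.length)
  nlinarith [h2.1, h2.2, abs_nonneg (oU q (min j M.length) x.1 y.1)]

/-! ### the endpoint `θ = 0` -/

theorem prd_op (hn : 0 < n) (H : OOk M q) : List.Forall₂ Prd (op n β M q 0)
    ((oInc (bb n β ^ 2) 0 q M).map fun c => (mxL n β c.p, C.sl spin (c.p.1, c.p.2.2 + c.u))) := by
  have hn' : (n : ℝ) + 1 ≠ 0 := by positivity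
  rw [op, opL, ipl_eq, List.map_map]
  refine Lin22.forall₂_map _ _ _ fun c hc => ⟨rfl, rfl, fun x y => ?_⟩
  have h := H.ok n β c hc
  refine (IL.cov_at _ ⟨le_rfl, zero_le_one⟩ x y).trans ?_
  rw [b_cov hn h, k0_cov hn h, mxL_cov hn β h.1 h.2.1, sl_cov90 (add_nonneg h.2.1 h.2.2.1), bb_sq]
  field_simp
  ring

theorem X_op_zero (hn : 0 < n) (H : OOk M q) (z₁ : Cube n → ℝ) (z₂ : Bool → ℝ) :
    X (fun _ => 1) (op n β M q 0) (ad z₁ z₂) =
      X (fun _ => 1) (M.map (mxL n β)) z₁ + X (fun _ => 1) (opS n β M q) z₂ := by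
  have := Law.X_prd wt_one90 wt_one90 (prd_op (β := β) hn H) z₁ z₂
  rw [Law.pw2_one, List.map_map, List.map_map] at this
  rw [this, opS, opV, List.map_map, ← oInc_map (bb n β ^ 2) 0 q M]
  rfl

theorem TE_op_zero (hn : 0 < n) (H : OOk M q) (z₁ : Cube n → ℝ) (z₂ : Bool → ℝ) (s : Sh)
    (G : (s.Lf → Cube n) → ℝ) (ξ : (s.Lf → Bool) → ℝ) :
    TE (fun _ => 1) s (op n β M q 0) (ad z₁ z₂) (tens G ξ) =
      TE (fun _ => 1) s (M.map (mxL n β)) z₁ G * TE (fun _ => 1) s (opS n β M q) z₂ ξ := by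
  have := Law.TE_prd wt_one90 wt_one90 s (prd_op (β := β) hn H) G ξ z₁ z₂
  rw [Law.pw2_one, List.map_map, List.map_map] at this
  rw [opS, opV, List.map_map, ← oInc_map (bb n β ^ 2) 0 q M]
  exact this

theorem pi2_op_zero (hn : 0 < n) (H : OOk M q) (z₁ : Cube n → ℝ) (z₂ : Bool → ℝ) (j : ℕ)
    (U : Cube n → Cube n → ℝ) (Z : Bool → Bool → ℝ) :
    pi2 (fun _ => 1) (op n β M q 0) j (fun x y => U x.1 y.1 * Z x.2 y.2) (ad z₁ z₂) =
      pi2 (fun _ => 1) (M.map (mxL n β)) j U z₁ * pi2 (fun _ => 1) (opS n β M q) j Z z₂ := by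
  rw [← Wt87.tX_two wt_one90, ← Wt87.tX_two wt_one90, ← Wt87.tX_two wt_one90]
  exact TE_op_zero hn H z₁ z₂ _ (pr2 j U) (pr2 j Z)

/-! ### the endpoint `θ = 1` -/

theorem sameC_op (hn : 0 < n) {c : OL} (hc : c.Ok) :
    SameC c.v ((c.il n β).tl.at 1) (cavL n (bb n β) c.p) := ⟨rfl, fun x y => by
  rw [IL.cov_at _ ⟨zero_le_one, le_rfl⟩, b_cov hn hc, k1_cov hn hc, cavL_cov hn _ hc.1 hc.2.1]
  ring⟩

theorem sameC_op_one (hn : 0 < n) (H : OOk M q) :
    List.Forall₂ (fun l l' => ∃ c, SameC c l l') (op n β M q 1) (M.map (cavL n (bb n β))) := by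
  rw [op, opL, ipl_eq, List.map_map, ← oInc_map (bb n β ^ 2) 0 q M]
  exact Lin22.forall₂_map _ _ _ fun c hc => ⟨c.v, sameC_op hn (H.ok n β c hc)⟩

/-- the laws at `θ = 1` are those of the `n + 1` system -/
theorem TE_op_one (hn : 0 < n) (H : OOk M q) (i : Fin (n + 1)) (s : Sh) (h : Cube n × Bool → ℝ)
    (F : (s.Lf → Cube n × Bool) → ℝ) : TE (fun _ => 1) s (op n β M q 1) h F =
      TE (fun _ => 1) s (M.map (mxL (n + 1) β)) (fun x => h (rmv i x))
        fun x => F fun a => rmv i (x a) :=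
  (Law.TE_sameC wt_one90 s (sameC_op_one hn H) F h).trans (tX_row hn i β H.nn s h F).symm

theorem pi2_op_one (hn : 0 < n) (H : OOk M q) (i : Fin (n + 1)) (j : ℕ) (h : Cube n × Bool → ℝ)
    (K : Cube n × Bool → Cube n × Bool → ℝ) : pi2 (fun _ => 1) (op n β M q 1) j K h =
      pi2 (fun _ => 1) (M.map (mxL (n + 1) β)) j (fun x y => K (rmv i x) (rmv i y))
        fun x => h (rmv i x) := by
  rw [← Wt87.tX_two wt_one90, ← Wt87.tX_two wt_one90]
  exact TE_op_one hn H i _ h (pr2 j K)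

/-- the spin-free part: `(τ(1) - ∑ dm_j τ_j q_j²) / 4` -/
def oC (n : ℕ) (β : ℝ) (M : List (ℝ × ℝ × ℝ)) (q : ℕ → ℝ) : ℝ :=
  (oTau n β M M.length - ∑ j ∈ Finset.range (M.length + 1),
    dm (M.map (mxL n β)) 0 j * (oTau n β M j * q j ^ 2)) / 4

/-- the diagonal constant `c_n = β² ∑ m_j d_j / (4 (n + 1))` -/
def oN (n : ℕ) (β : ℝ) (M : List (ℝ × ℝ × ℝ)) : ℝ :=
  (M.map fun p => p.1 * p.2.1).sum * (β ^ 2 / (4 * (n + 1)))

theorem oN_eq : oN n β M = (dAcc M M.length - ∑ j ∈ Finset.range (M.length + 1),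
    dm (M.map (mxL n β)) 0 j * dAcc M j) * (β ^ 2 / (4 * (n + 1))) := by
  have := abel (mxL n β) (fun p => p.2.1) M 0 0
  simp only [zero_add, mul_zero, sub_zero, mxL_m] at this
  simp only [dAcc, this, List.take_length, oN]
  ring

theorem sum_mv (H : OOk M q) :
    ((oInc (bb n β ^ 2) 0 q M).map fun c => c.p.1 * c.v / 2).sum = oC n β M q := by
  have h := abel (fun c : OL => mxL n β c.p) OL.v (oInc (bb n β ^ 2) 0 q M) 0 0
  have h1 := (oInc_uv (bb n β ^ 2) M 0 q M.length le_rfl).2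
  rw [List.take_of_length_le (oInc_length _ _ _ _).le] at h1
  rw [oInc_map, oInc_length, h1, Finset.sum_congr rfl fun j hj => by
    rw [(oInc_uv (bb n β ^ 2) M 0 q j (Nat.lt_succ_iff.1 (Finset.mem_range.1 hj))).2]] at h
  simp only [zero_add, zero_mul, sub_zero, mxL_m, H.top, ← mul_div_assoc, ← Finset.sum_div] at h
  simp only [div_eq_mul_inv _ (2 : ℝ), List.sum_map_mul_right, oC, oTau]
  linarith

theorem X_op_one (hn : 0 < n) (H : OOk M q) (i : Fin (n + 1)) (h : Cube n × Bool → ℝ) :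
    X (fun _ => 1) (M.map (mxL (n + 1) β)) (fun x => h (rmv i x)) =
      X (fun _ => 1) (op n β M q 1) h - oC n β M q + oN n β M := by
  have := Law.X_sameC wt_one90 ((oInc (bb n β ^ 2) 0 q M).map fun c =>
      ((c.il n β).tl.at 1, cavL n (bb n β) c.p, c.v)) (fun t ht => by
      obtain ⟨c, hc, rfl⟩ := List.mem_map.1 ht
      exact sameC_op hn (H.ok n β c hc)) h
  simp only [List.map_map, Function.comp_def] at this
  rw [oInc_map _ _ _ _ (cavL n (bb n β))] at this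
  rw [X_row hn i β H.nn, ← sum_mv H, op, opL, ipl_eq, List.map_map]
  erw [this]
  rw [oN]
  have e : ∀ a b c : ℝ, a + c = a + b - b + c := fun a b c => by ring
  exact e _ _ _

theorem ad_rmv_zero (i : Fin (n + 1)) :
    (fun x => (0 : Cube n × Bool → ℝ) (rmv i x)) = (0 : Cube (n + 1) → ℝ) := rfl

/-- `n`-th derivative of `∑ dm_j E_θ K_j`, for the path -/
abbrev oW (n : ℕ) (β : ℝ) (M : List (ℝ × ℝ × ℝ)) (q : ℕ → ℝ)
    (K : ℕ → Cube n × Bool → Cube n × Bool → ℝ) (k : ℕ) (θ : ℝ) : ℝ :=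
  iW (fun _ => 1) (opL n β M q) 0 K k θ

theorem oW_zero (K : ℕ → Cube n × Bool → Cube n × Bool → ℝ) (θ : ℝ) :
    oW n β M q K 0 θ = ∑ j ∈ Finset.range (M.length + 1),
      dm (M.map (mxL n β)) 0 j * pi2 (fun _ => 1) (op n β M q θ) j (K j) 0 := by
  simp only [oW, iW_zero wt_one90, opL_length, dm_opL, op]

theorem oW_iD (hn : 0 < n) (H : OOk M q) (k : ℕ) (θ : ℝ) :
    oW n β M q (iD (opL n β M q)) k θ = oW n β M q (oD n β M q) k θ :=
  Finset.sum_congr rfl fun j hj => by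
    rw [iD_op hn H (by simpa only [opL_length] using Nat.lt_succ_iff.1 (Finset.mem_range.1 hj))]

/-- **(val)**, Taylor form -/
theorem val_taylor (hn : 0 < n) (H : OOk M q) (J : ℕ) :
    X (fun _ => 1) (M.map (mxL (n + 1) β)) 0 - X (fun _ => 1) (M.map (mxL n β)) 0 =
      X (fun _ => 1) (opS n β M q) 0 - oC n β M q + oN n β M -
      (∑ k ∈ Finset.range J, oW n β M q (oD n β M q) k 0 / (k + 1).factorial +
        ∫ θ in (0 : ℝ)..1, oW n β M q (oD n β M q) J θ * (1 - θ) ^ J / J.factorial) / 2 := by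
  have h1 := taylor_X_ipl wt_one90 (opL n β M q) 0 (iD_op_diag hn H) ⟨zero_le_one, le_rfl⟩ J
  have h2 := X_op_zero (β := β) hn H 0 0
  have h3 := X_op_one (β := β) hn H 0 0
  rw [Law.ad_zero] at h2
  rw [ad_rmv_zero] at h3
  simp only [oW_iD hn H, one_pow, mul_one, zero_div, add_zero] at h1
  rw [h3, op, h1, ← op, h2]
  ring

/-- **(val)** -/
theorem val_op (hn : 0 < n) (H : OOk M q) :
    X (fun _ => 1) (M.map (mxL (n + 1) β)) 0 - X (fun _ => 1) (M.map (mxL n β)) 0 =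
      X (fun _ => 1) (opS n β M q) 0 - oC n β M q + oN n β M -
      (∫ θ in (0 : ℝ)..1, ∑ j ∈ Finset.range (M.length + 1),
        dm (M.map (mxL n β)) 0 j * pi2 (fun _ => 1) (op n β M q θ) j (oD n β M q j) 0) / 2 := by
  simpa only [Finset.range_zero, Finset.sum_empty, zero_add, pow_zero, mul_one, Nat.factorial_zero,
    Nat.cast_one, div_one, oW_zero] using val_taylor hn H 0

/-! ### site symmetry at `θ = 1` -/

theorem ov1_rmv (hn : 0 < n) (i : Fin (n + 1)) (x y : Cube (n + 1)) :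
    ov1 (rmv i x) (rmv i y) = ov x y := by
  have h1 : (n : ℝ) + 1 ≠ 0 := by positivity
  rw [ov1, ← ov_rmv hn, mul_div_cancel_left₀ _ h1]

theorem ovLv_mxL (hn : 0 < n) (hM : ∀ p ∈ M, 0 ≤ p.2.1 ∧ 0 ≤ p.2.2) :
    ∀ l ∈ M.map (mxL n β), OvLv l := fun l hl => by
  obtain ⟨p, hp, rfl⟩ := List.mem_map.1 hl
  exact ⟨fun r => p.2.1 * (β ^ 2 * n / 2 * r ^ 2) + p.2.2 * n * r,
    mxL_cov hn β (hM p hp).1 (hM p hp).2⟩

/-- **(Sym)**, general form: against any function of the overlaps of the `n + 1` system -/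
theorem sym_op (hn : 0 < n) (H : OOk M q) (s : Sh) (ψ : (s.Lf → s.Lf → ℝ) → ℝ) (a b : s.Lf) :
    TE (fun _ => 1) s (op n β M q 1) 0
        (fun x => ψ (fun c d => ov1 (x c) (x d)) * (spin (x a).2 * spin (x b).2)) =
      TE (fun _ => 1) s (op n β M q 1) 0
        fun x => ψ (fun c d => ov1 (x c) (x d)) * ov1 (x a) (x b) := by
  rw [TE_op_one hn H 0, TE_op_one hn H 0]
  simp only [ov1_rmv hn]
  exact Site55.leaf_ov ψ (ovLv_mxL n.succ_pos H.nn) 0 a b

/-- odd functions of the spins of the site vanish -/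
theorem odd_op (hn : 0 < n) (H : OOk M q) (s : Sh) (ψ : (s.Lf → s.Lf → ℝ) → ℝ)
    (ξ : (s.Lf → Bool) → ℝ) (hξ : ∀ b, ξ (fun a => !b a) = -ξ b) :
    TE (fun _ => 1) s (op n β M q 1) 0
      (fun x => ψ (fun c d => ov1 (x c) (x d)) * ξ fun a => (x a).2) = 0 := by
  rw [TE_op_one hn H 0]
  simp only [ov1_rmv hn]
  exact Site55.leaf_odd ψ (ovLv_mxL n.succ_pos H.nn) 0 ξ hξ

/-- **(Sym)**: `E (ε ε' - R) ψ = 0` -/
theorem sym_one (hn : 0 < n) (H : OOk M q) (s : Sh) (ψ : (s.Lf → s.Lf → ℝ) → ℝ) (a b : s.Lf) :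
    TE (fun _ => 1) s (op n β M q 1) 0 (fun x => ψ (fun c d => ov1 (x c) (x d)) *
      (spin (x a).2 * spin (x b).2 - ov (x a).1 (x b).1)) = 0 := by
  have hn' : (n : ℝ) ≠ 0 := Nat.cast_ne_zero.2 hn.ne'
  have h1 : (n : ℝ) + 1 ≠ 0 := by positivity
  have := sub_eq_zero.2 (sym_op (β := β) hn H s ψ a b)
  rw [← Law.TE_sub wt_one90] at this
  rw [← mul_zero (((n : ℝ) + 1) / n), ← this, ← Law.TE_const_mul wt_one90]
  congr 1
  funext x
  rw [ov1]
  field_simp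
  ring

/-- **(test)** at every split -/
theorem test_op (hn : 0 < n) (H : OOk M q) (j : ℕ) :
    pi2 (fun _ => 1) (op n β M q 1) j (fun x y => oE q j x.2 y.2 - oU q j x.1 y.1) 0 = 0 := by
  rw [← Wt87.tX_two wt_one90]
  refine Eq.trans ?_ (sym_one (β := β) hn H (Sh.two j) (fun _ => 1) (Sh.twoL j) (Sh.twoR j))
  simp only [oE, oU, one_mul, sub_sub_sub_cancel_right, TE]

/-- **(amp)** at every split, exact form -/
theorem amp_op (hn : 0 < n) (H : OOk M q) (j : ℕ) :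
    pi2 (fun _ => 1) (op n β M q 1) j
        (fun x y => (oE q j x.2 y.2 - oU q j x.1 y.1) * oU q j x.1 y.1) 0 =
      -pi2 (fun _ => 1) (op n β M q 1) j
        (fun x y => 1 - spin x.2 * spin y.2 * ov x.1 y.1) 0 / n := by
  have hn' : (n : ℝ) ≠ 0 := Nat.cast_ne_zero.2 hn.ne'
  have h1 : (n : ℝ) + 1 ≠ 0 := by positivity
  have h2 := sym_one (β := β) hn H (Sh.two j)
    (fun r => (r (Sh.twoL j) (Sh.twoR j) * (n + 1)) / n - q j) (Sh.twoL j) (Sh.twoR j)
  rw [← Wt87.tX_two wt_one90, ← Wt87.tX_two wt_one90, neg_div, eq_neg_iff_add_eq_zero,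
    div_eq_mul_inv, ← h2]
  refine (congrArg _ (Law.TE_mul_const wt_one90 _ _ _ _ _).symm).trans
    ((Law.TE_add wt_one90 _ _ _ _ _).symm.trans ?_)
  congr 1
  funext x
  have h3 : (spin (x (Sh.twoL j)).2 * spin (x (Sh.twoR j)).2) ^ 2 = 1 := by
    rw [← sq_abs, abs_spin2, one_pow]
  simp only [oE, oU, ov1]
  generalize spin (x (Sh.twoL j)).2 * spin (x (Sh.twoR j)).2 = e at h3 ⊢
  generalize ov (x (Sh.twoL j)).1 (x (Sh.twoR j)).1 = R
  field_simp
  linear_combination -h3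

theorem abs_amp_op (hn : 0 < n) (H : OOk M q) (j : ℕ) :
    |pi2 (fun _ => 1) (op n β M q 1) j
      (fun x y => (oE q j x.2 y.2 - oU q j x.1 y.1) * oU q j x.1 y.1) 0| ≤ 2 / n := by
  rw [amp_op hn H, abs_div, abs_neg, Nat.abs_cast, ← Wt87.tX_two wt_one90]
  refine div_le_div_of_nonneg_right ((abs_TE_le' wt_one90 _ _ _ (F' := fun _ => 2)
    fun x => ?_).trans_eq (Law.TE_const wt_one90 _ _ _ _)) n.cast_nonneg
  refine (abs_sub _ _).trans ?_
  rw [abs_mul, abs_spin2, abs_one]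
  linarith [abs_ov_le (x (Sh.twoL j)).1 (x (Sh.twoR j)).1]

/-- **(test ω)** -/
theorem test_oW (hn : 0 < n) (H : OOk M q) (ω : ℕ → ℝ) (N : ℕ) :
    ∑ j ∈ Finset.range N, ω j * pi2 (fun _ => 1) (op n β M q 1) j
      (fun x y => oE q j x.2 y.2 - oU q j x.1 y.1) 0 = 0 := by
  simp only [test_op hn H, mul_zero, Finset.sum_const_zero]

/-- **(amp φ)** -/
theorem amp_oW (hn : 0 < n) (H : OOk M q) (hM : Mono 0 (M.map (mxL n β))) (φ : ℕ → ℝ) :
    |oW n β M q (fun j x y => φ j * ((oE q j x.2 y.2 - oU q j x.1 y.1) * oU q j x.1 y.1)) 0 1| ≤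
      2 / n * ∑ j ∈ Finset.range (M.length + 1), dm (M.map (mxL n β)) 0 j * |φ j| := by
  rw [oW_zero, Finset.mul_sum]
  refine (Finset.abs_sum_le_sum_abs _ _).trans (Finset.sum_le_sum fun j _ => ?_)
  rw [pi2_const_mul, abs_mul, abs_mul, abs_of_nonneg (dm_nonneg hM j), mul_left_comm (2 / (n : ℝ)),
    mul_comm (2 / (n : ℝ))]
  exact mul_le_mul_of_nonneg_left (mul_le_mul_of_nonneg_left (abs_amp_op hn H j) (abs_nonneg _))
    (dm_nonneg hM j)

/-! ### comparison with the `n`-system and the expansion -/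

/-- `ν_θ ≤ e^C ν_0` -/
theorem cmp_op (hn : 0 < n) (H : OOk M q) (hM : Mono 0 (M.map (mxL n β))) (s : Sh)
    (h : Cube n × Bool → ℝ) {F : (s.Lf → Cube n × Bool) → ℝ} (hF : ∀ x, 0 ≤ F x) {θ θ' : ℝ}
    (hθ : θ ∈ Icc (0 : ℝ) 1) (hθ' : θ' ∈ Icc (0 : ℝ) 1) :
    TE (fun _ => 1) s (op n β M q θ) h F ≤
      exp ((2 * Fintype.card s.Lf ^ 2 + Fintype.card s.Lf) * (6 * oTau n β M M.length)) *
        TE (fun _ => 1) s (op n β M q θ') h F :=
  ipl_cmp' wt_one90 s (mono_opL hM) (abs_iD_op hn H) h hF hθ hθ'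

theorem TE_op_fst (hn : 0 < n) (H : OOk M q) (s : Sh) (G : (s.Lf → Cube n) → ℝ) :
    TE (fun _ => 1) s (op n β M q 0) 0 (fun x => G fun a => (x a).1) =
      TE (fun _ => 1) s (M.map (mxL n β)) 0 G := by
  have := TE_op_zero (β := β) hn H 0 0 s G fun _ => 1
  rw [Law.ad_zero, Law.TE_const wt_one90, mul_one] at this
  rw [← this]
  congr 1
  funext x
  rw [tens, mul_one]

/-- only moments of the `n`-system are needed -/
theorem abs_TE_op_le (hn : 0 < n) (H : OOk M q) (hM : Mono 0 (M.map (mxL n β))) (s : Sh)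
    {F : (s.Lf → Cube n × Bool) → ℝ} {G : (s.Lf → Cube n) → ℝ}
    (hF : ∀ x, |F x| ≤ G fun a => (x a).1) {θ : ℝ} (hθ : θ ∈ Icc (0 : ℝ) 1) :
    |TE (fun _ => 1) s (op n β M q θ) 0 F| ≤
      exp ((2 * Fintype.card s.Lf ^ 2 + Fintype.card s.Lf) * (6 * oTau n β M M.length)) *
        TE (fun _ => 1) s (M.map (mxL n β)) 0 G := by
  rw [← TE_op_fst hn H]
  exact (abs_TE_le' wt_one90 s _ 0 hF).trans (cmp_op hn H hM s 0
    (fun x => (abs_nonneg _).trans (hF x)) hθ ⟨le_rfl, zero_le_one⟩)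

/-- bulk factors of the two letters of `oD / 2` -/
def oUb (n : ℕ) (β : ℝ) (M : List (ℝ × ℝ × ℝ)) (q : ℕ → ℝ) : Bool → ℕ → Cube n → Cube n → ℝ
  | true, j, x, y => oTau n β M j / 2 * oU q j x y
  | false, j, x, y => -(oTau n β M j / 4) * oU q j x y ^ 2

/-- site factors of the two letters of `oD / 2` -/
def oZs (q : ℕ → ℝ) : Bool → ℕ → Bool → Bool → ℝ
  | true, j, a, b => oE q j a b
  | false, _, _, _ => 1

theorem oD_tK (j : ℕ) (x y : Cube n × Bool) :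
    1 / 2 * oD n β M q j x y = tK (oUb n β M q) (oZs q) j x y := by
  simp only [tK, Fintype.sum_bool, oUb, oZs, oD]
  ring

/-- the Taylor coefficients at `θ = 0`: weight × bulk expectation × site expectation -/
def opC (n : ℕ) (β : ℝ) (M : List (ℝ × ℝ × ℝ)) (q : ℕ → ℝ) :=
  itM (-1) (M.map (mxL n β)) (oUb n β M q) (oZs q) fun s G ξ =>
    TE (fun _ => 1) s (M.map (mxL n β)) 0 G * TE (fun _ => 1) s (opS n β M q) 0 ξ

theorem iDn_op (hn : 0 < n) (H : OOk M q) (h : Cube n × Bool → ℝ) (k : ℕ) (s : Sh)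
    (F : (s.Lf → Cube n × Bool) → ℝ) (θ : ℝ) : iDn (fun _ => 1) (opL n β M q) h k s F θ =
      itE (-1) (M.map (mxL n β)) (tK (oUb n β M q) (oZs q))
        (TEf (fun _ => 1) (op n β M q θ) h) k s F := by
  rw [iDn, itE_tilt (-1) tilt_opL, itE_congr (-1) _ (K' := tK (oUb n β M q) (oZs q))
    fun j hj => funext fun x => funext fun y => by
      rw [iD_op hn H (by simpa using hj), oD_tK]]
  rfl

theorem iDn_op_zero (hn : 0 < n) (H : OOk M q) (k : ℕ) (s : Sh) (G : (s.Lf → Cube n) → ℝ)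
    (ξ : (s.Lf → Bool) → ℝ) :
    iDn (fun _ => 1) (opL n β M q) 0 k s (tens G ξ) 0 = opC n β M q k s G ξ := by
  rw [iDn_op hn H, itE_tK _ _ _ _ (fnLin_TEf wt_one90 _ _), opC]
  congr 1
  funext s G ξ
  rw [← TE_op_zero hn H, Law.ad_zero]
  rfl

/-- pair sums of sums of tensors at `θ = 0` -/
theorem oW_tK (hn : 0 < n) (H : OOk M q) {A : Type} [Fintype A] (U : A → ℕ → Cube n → Cube n → ℝ)
    (Z : A → ℕ → Bool → Bool → ℝ) (k : ℕ) : oW n β M q (tK U Z) k 0 =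
      ∑ α, ∑ j ∈ Finset.range (M.length + 1), dm (M.map (mxL n β)) 0 j *
        opC n β M q k (Sh.two j) (pr2 j (U α j)) (pr2 j (Z α j)) := by
  rw [Finset.sum_comm]
  simp only [oW, iW, opL_length, dm_opL, ← Finset.mul_sum, ← iDn_op_zero hn H]
  refine Finset.sum_congr rfl fun j _ => congrArg _ ?_
  exact (fnLin_iDn wt_one90 _ _ k 0).sum (Sh.two j) Finset.univ
    fun α => tens (pr2 j (U α j)) (pr2 j (Z α j))

theorem oW_oD (k : ℕ) (θ : ℝ) :
    oW n β M q (oD n β M q) k θ = 2 * oW n β M q (tK (oUb n β M q) (oZs q)) k θ := by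
  simp only [oW, iW, Finset.mul_sum]
  refine Finset.sum_congr rfl fun j _ => ?_
  rw [mul_left_comm]
  refine congrArg _ (Eq.trans ?_ ((fnLin_iDn wt_one90 _ _ k θ).2 _ _ _))
  congr 1
  funext x
  simp only [pr2, ← oD_tK]
  ring

/-- **remainder**: total variation in the `n`-system -/
theorem abs_iDn_op_le (hn : 0 < n) (H : OOk M q) (hM : Mono 0 (M.map (mxL n β))) {θ : ℝ}
    (hθ : θ ∈ Icc (0 : ℝ) 1) {N k : ℕ} {s : Sh} (hs : Fintype.card s.Lf + 2 * k ≤ N)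
    {F : (s.Lf → Cube n × Bool) → ℝ} {G : (s.Lf → Cube n) → ℝ}
    (hF : ∀ x, |F x| ≤ G fun a => (x a).1) :
    |iDn (fun _ => 1) (opL n β M q) 0 k s F θ| ≤ exp ((2 * N ^ 2 + N) * (6 * oTau n β M M.length)) *
      itE 1 (M.map (mxL n β)) (fun j x y => 3 / 2 * oTau n β M j * |oU q j x y|)
        (TEf (fun _ => 1) (M.map (mxL n β)) 0) k s G := by
  refine (abs_iDn_le wt_one90 (mono_opL hM) (abs_iD_op hn H) 0
    (K := fun j x y => 3 / 2 * oTau n β M j * |oU q j x.1 y.1|) (fun j hj x y => ?_) hθ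
    ⟨le_rfl, zero_le_one⟩ hs hF).trans_eq ?_
  · rw [opL_length] at hj
    rw [iD_op hn H hj, abs_mul, abs_of_pos one_half_pos]
    linarith [abs_oD_le (n := n) (β := β) H hj x y]
  · rw [itE_tilt 1 tilt_opL,
      itE_fst 1 _ fun j (x y : Cube n) => 3 / 2 * oTau n β M j * |oU q j x y|]
    congr 2
    funext s G
    exact TE_op_fst hn H s G

/-- **Taylor expansion of any function of the leaves** -/
theorem taylor_op (hn : 0 < n) (H : OOk M q) (s : Sh) (G : (s.Lf → Cube n) → ℝ)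
    (ξ : (s.Lf → Bool) → ℝ) {T : ℝ} (hT : T ∈ Icc (0 : ℝ) 1) (J : ℕ) :
    TE (fun _ => 1) s (op n β M q T) 0 (tens G ξ) =
      ∑ k ∈ Finset.range (J + 1), opC n β M q k s G ξ * T ^ k / k.factorial +
      ∫ t in (0 : ℝ)..T, iDn (fun _ => 1) (opL n β M q) 0 (J + 1) s (tens G ξ) t *
        (T - t) ^ J / J.factorial := by
  simp only [← iDn_op_zero hn H]
  exact taylor_ipl wt_one90 _ _ (iD_op_diag hn H) s _ hT J

/-- **Taylor expansion of a pair sum** -/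
theorem taylor_oW (hn : 0 < n) (H : OOk M q) (K : ℕ → Cube n × Bool → Cube n × Bool → ℝ) {T : ℝ}
    (hT : T ∈ Icc (0 : ℝ) 1) (J : ℕ) :
    oW n β M q K 0 T = ∑ k ∈ Finset.range (J + 1), oW n β M q K k 0 * T ^ k / k.factorial +
      ∫ t in (0 : ℝ)..T, oW n β M q K (J + 1) t * (T - t) ^ J / J.factorial :=
  taylor_iW wt_one90 _ _ (iD_op_diag hn H) K hT J

end Crest.Agent.T156.Cas

end
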