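import Crest.Agent.T156.Pplus_69
import Crest.Agent.T157.Sc1_68

/-!
Row 156 (helper10): unimodality of the Parisi diffusion and stability of the top plateau.
The law of `X_t` divided by `exp (m Φ_t)` (`m ≥` the current tilt) is even and unimodal (dual form),
hence on slices of tilt `1`: `E sech^k X_{T+s} ≤ e^{-s/2} E sech^k X_T` for `k ≥ 1`.
-/

set_option autoImplicit false

namespace Crest.Agent.T156.Plat

open MeasureTheory ProbabilityTheory Filter Topology Set
open Crest.Agent.R164.GC Crest.Agent.R339.B Crest.Agent.R339.Var Crest.Agent.T157.Pf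
open Crest.ProbabilityR.InvariantGlass (gaussOp)

noncomputable section

/-- derivatives of odd functions that are nonnegative on `[0,∞)` -/
def Cone (u : ℝ → ℝ) : Prop := EG u ∧ ∃ ψ : ℝ → ℝ, EG ψ ∧ (∀ x, HasDerivAt ψ (u x) x) ∧
  (∀ x, ψ (-x) = -ψ x) ∧ ∀ x, 0 ≤ x → 0 ≤ ψ x

theorem Cone.zero {u : ℝ → ℝ} (h : Cone u) : 0 ≤ u 0 := by
  obtain ⟨-, ψ, -, hd, ho, hp⟩ := h
  have h0 : ψ 0 = 0 := by have := ho 0; rw [neg_zero] at this; linarith
  have ht := (hasDerivAt_iff_tendsto_slope.1 (hd 0)).mono_left (nhdsGT_le_nhdsNE 0)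
  refine ge_of_tendsto ht (eventually_nhdsWithin_of_forall fun x hx => ?_)
  have hx : 0 < x := hx
  rw [slope_def_field, h0, sub_zero, sub_zero]
  exact div_nonneg (hp x hx.le) hx.le

theorem Cone.even {u : ℝ → ℝ} (h : Cone u) (x : ℝ) : u (-x) = u x := by
  obtain ⟨-, ψ, -, hd, ho, -⟩ := h
  have h1 : HasDerivAt (fun y => ψ (-y)) (u (-x) * -1) x := (hd (-x)).comp x (hasDerivAt_neg x)
  have h2 : HasDerivAt (fun y => ψ (-y)) (-u x) x := by
    rw [funext ho]
    exact (hd x).neg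
  linarith [h1.unique h2]

theorem Cone.heat {u : ℝ → ℝ} (h : Cone u) (v : ℝ) : Cone (H (Real.sqrt v) u) := by
  obtain ⟨hu, ψ, hψ, hd, ho, hp⟩ := h
  refine ⟨H_eg hu _, H (Real.sqrt v) ψ, H_eg hψ _, fun x => H_deriv_x hψ hu hd _ x, fun x => ?_,
    fun x hx => ?_⟩
  · rw [H_neg, funext ho]
    have := H_const_mul ψ (-1) (Real.sqrt v) x
    simpa using this
  · have := Pp.tE_cone (f := fun _ => 0) (fun x y => by simp) (fun _ => rfl) hψ ho hp 0 v hx
    rwa [tE_zero] at this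

theorem eg_prim {u : ℝ → ℝ} (hu : EG u) : EG fun x => ∫ y in (0:ℝ)..x, u y := by
  obtain ⟨K, A, hK, hA, h⟩ := hu.bd
  refine ⟨continuous_iff_continuousAt.2 fun x =>
    (hu.cont.integral_hasStrictDerivAt 0 x).hasDerivAt.continuousAt, K, A + 1, hK, by linarith,
    fun x => ?_⟩
  have h1 : ‖∫ y in (0:ℝ)..x, u y‖ ≤ K * Real.exp (A * |x|) * |x - 0| := by
    refine intervalIntegral.norm_integral_le_of_norm_le_const fun y hy => (h y).trans ?_
    have : |y| ≤ |x| := by
      rcases le_total 0 x with hx | hx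
      · rw [uIoc_of_le hx] at hy
        rw [abs_of_pos hy.1, abs_of_nonneg hx]
        exact hy.2
      · rw [uIoc_of_ge hx] at hy
        rw [abs_of_nonpos hy.2, abs_of_nonpos hx]
        linarith [hy.1]
    gcongr
  rw [Real.norm_eq_abs, sub_zero] at h1
  refine h1.trans ?_
  rw [add_mul, one_mul, Real.exp_add, ← mul_assoc]
  have := Real.add_one_le_exp |x|
  gcongr
  linarith

theorem prim_odd {u : ℝ → ℝ} (he : ∀ x, u (-x) = u x) (x : ℝ) :
    ∫ y in (0:ℝ)..-x, u y = -∫ y in (0:ℝ)..x, u y := by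
  have := intervalIntegral.integral_comp_neg (a := 0) (b := x) u
  rw [neg_zero, funext he] at this
  rw [this, intervalIntegral.integral_symm]

/-- multiplication by an even function that decreases on `[0,∞)` -/
theorem Cone.mul {u ρ ρ' : ℝ → ℝ} (h : Cone u) (hρ : EG ρ) (hd' : ∀ x, HasDerivAt ρ (ρ' x) x)
    (he : ∀ x, ρ (-x) = ρ x) (h0 : ∀ x, 0 ≤ ρ x) (hm : ∀ x, 0 ≤ x → ρ' x ≤ 0) :
    Cone fun x => u x * ρ x := by
  have hev := h.even
  obtain ⟨hu, ψ, hψ, hd, ho, hp⟩ := h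
  have hE := hu.mul hρ
  have hD : ∀ x, HasDerivAt (fun x => ∫ y in (0:ℝ)..x, u y * ρ y) (u x * ρ x) x := fun x =>
    (hE.cont.integral_hasStrictDerivAt 0 x).hasDerivAt
  refine ⟨hE, _, eg_prim hE, hD, prim_odd fun x => by rw [hev, he], fun x hx => ?_⟩
  have h00 : ψ 0 = 0 := by have := ho 0; rw [neg_zero] at this; linarith
  have hG : ∀ x, HasDerivAt (fun x => (∫ y in (0:ℝ)..x, u y * ρ y) - ψ x * ρ x)
      (-(ψ x * ρ' x)) x := fun x => by
    exact ((hD x).fun_sub ((hd x).fun_mul (hd' x))).congr_deriv (by ring)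
  have hmono : MonotoneOn (fun x => (∫ y in (0:ℝ)..x, u y * ρ y) - ψ x * ρ x) (Ici 0) :=
    monotoneOn_of_hasDerivWithinAt_nonneg (convex_Ici 0)
      (fun x _ => (hG x).continuousAt.continuousWithinAt)
      (fun x _ => (hG x).hasDerivWithinAt) fun x hx => by
        have hx : 0 ≤ x := interior_subset hx
        have := mul_nonpos_of_nonneg_of_nonpos (hp x hx) (hm x hx)
        linarith
  have := hmono (show (0:ℝ) ∈ Ici 0 from le_refl (0:ℝ)) hx hx
  simp only [intervalIntegral.integral_same, h00, zero_mul, sub_zero] at this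
  nlinarith [mul_nonneg (hp x hx) (h0 x)]

theorem Cone.const_mul {u : ℝ → ℝ} (h : Cone u) {c : ℝ} (hc : 0 ≤ c) : Cone fun x => c * u x := by
  have := h.mul (ρ := fun _ => c) (ρ' := fun _ => 0) (EG.const c) (fun x => hasDerivAt_const x c)
    (fun _ => rfl) (fun _ => hc) fun _ _ => le_rfl
  simpa only [mul_comm] using this

/-- lowering the tilt -/
theorem Cone.lower {β k m m' : ℝ} {Φ F : ℝ → ℝ} (hI : Inv β k Φ) (hm : m' ≤ m)
    (h : Cone fun y => F y * Real.exp (m * Φ y)) : Cone fun y => F y * Real.exp (m' * Φ y) := by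
  have := h.mul (ρ := fun y => Real.exp ((m' - m) * Φ y))
    (ρ' := fun y => Real.exp ((m' - m) * Φ y) * ((m' - m) * deriv Φ y))
    (EG.exp_lip hI.prof.lip _) (fun x => ((hI.prof.d1 x).const_mul (m' - m)).exp)
    (fun x => by rw [hI.even]) (fun x => (Real.exp_pos _).le) fun x hx =>
      mul_nonpos_of_nonneg_of_nonpos (Real.exp_pos _).le
        (mul_nonpos_of_nonpos_of_nonneg (by linarith) (hI.nonneg hx))
  convert this using 2 with y
  rw [mul_assoc, ← Real.exp_add]
  congr 2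
  ring

theorem Cone.step {m v : ℝ} {Φ F : ℝ → ℝ} (hΦ : Prof Φ) (hm : m ≠ 0)
    (h : Cone fun y => F y * Real.exp (m * Φ y)) :
    Cone fun y => tE m v Φ F y * Real.exp (m * gaussOp m v Φ y) := by
  rw [funext (tE_eq hΦ hm v F)]
  exact h.heat v

/-- the tilt at time `t` -/
def cur (β : ℝ) : List (ℝ × ℝ) → ℝ → ℝ
  | [], _ => β
  | p :: l, t => if t ≤ p.2 then p.1 else cur β l (t - p.2)

theorem cur_le {β : ℝ} : ∀ {l : List (ℝ × ℝ)}, Adm β l → ∀ t, cur β l t ≤ β
  | [], _, _ => le_rfl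
  | p :: l, h, t => by
    unfold cur
    split_ifs
    · exact h.head_le
    · exact cur_le h.2.2.2 _

theorem EX_cone {β : ℝ} (hβ : 0 < β) : ∀ {l : List (ℝ × ℝ)}, Adm β l → ∀ {t m : ℝ} {F : ℝ → ℝ},
    0 ≤ t → cur β l t ≤ m → (Cone fun y => F y * Real.exp (m * PhiT β l t y)) →
    Cone fun y => EX β l t F y * Real.exp (headLv β l * PhiL β l y)
  | [], _, _, _, _, _, hm, h => h.lower (phi0_inv hβ) hm
  | p :: l, hA, t, m, F, ht, hm, h => by
    have ih := PhiL_inv hβ hA.2.2.2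
    have hβp := hA.2.1.trans hA.2.2.2.head_le
    unfold cur at hm
    unfold PhiT at h
    unfold EX
    show Cone fun y => _ * Real.exp (p.1 * gaussOp p.1 p.2 (PhiL β l) y)
    split_ifs at hm h ⊢ with h1
    · have hI := (ih.mono hA.2.1).step hA.1 hβp (p.2 - t)
      have := (h.lower hI hm).step (v := t) hI.prof hA.1.ne'
      rwa [← gaussOp_semi ih.prof hA.1.ne' ht (by linarith), add_sub_cancel] at this
    · exact ((EX_cone hβ hA.2.2.2 (by linarith [not_le.1 h1]) hm h).lower ih hA.2.1).step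
        ih.prof hA.1.ne'

/-- **unimodality, dual form** -/
theorem EX_nonneg_of_cone {β : ℝ} (hβ : 0 < β) {l : List (ℝ × ℝ)} (hA : Adm β l) {t m : ℝ}
    {F : ℝ → ℝ} (ht : 0 ≤ t) (hm : cur β l t ≤ m)
    (h : Cone fun y => F y * Real.exp (m * PhiT β l t y)) : 0 ≤ EX β l t F 0 :=
  nonneg_of_mul_nonneg_left (EX_cone hβ hA ht hm h).zero (Real.exp_pos _)

/-- Anderson's inequality on the line -/
theorem cone_sub_heat {g : ℝ → ℝ} (hg : EG g) (he : ∀ x, g (-x) = g x)
    (ha : AntitoneOn g (Ici 0)) (t : ℝ) : Cone fun y => g y - H t g y := by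
  set γ : ℝ → ℝ := fun x => ∫ y in (0:ℝ)..x, g y with hγ
  have hγe : EG γ := eg_prim hg
  have hD : ∀ x, HasDerivAt γ (g x) x := fun x => (hg.cont.integral_hasStrictDerivAt 0 x).hasDerivAt
  have ho : ∀ x, γ (-x) = -γ x := prim_odd he
  have hHo : ∀ x, H t γ (-x) = -H t γ x := fun x => by
    rw [H_neg, funext ho]
    simpa using H_const_mul γ (-1) t x
  refine ⟨hg.sub (H_eg hg t), fun y => γ y - H t γ y, hγe.sub (H_eg hγe t),
    fun x => (hD x).fun_sub (H_deriv_x hγe hg hD t x), fun x => by simp only [ho, hHo]; ring,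
    fun y hy => ?_⟩
  have habs : ∀ x, g |x| = g x := fun x => by
    rcases abs_choice x with h | h <;> rw [h]
    exact he x
  have k1 : ∀ u, 0 ≤ u → γ (y + u) + γ (y - u) ≤ 2 * γ y := fun u hu => by
    have hG : ∀ r, HasDerivAt (fun r => 2 * γ y - γ (y + r) - γ (y - r))
        (g (y - r) - g (y + r)) r := fun r => by
      have a1 := (hD (y + r)).comp r ((hasDerivAt_id' r).const_add y)
      have a2 := (hD (y - r)).comp r ((hasDerivAt_id' r).const_sub y)
      exact (((hasDerivAt_const r (2 * γ y)).fun_sub a1).fun_sub a2).congr_deriv (by ring)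
    have hmono : MonotoneOn (fun r => 2 * γ y - γ (y + r) - γ (y - r)) (Ici 0) :=
      monotoneOn_of_hasDerivWithinAt_nonneg (convex_Ici 0)
        (fun x _ => (hG x).continuousAt.continuousWithinAt)
        (fun x _ => (hG x).hasDerivWithinAt) fun r hr => by
          have hr : 0 ≤ r := interior_subset hr
          have : g (y + r) ≤ g |y - r| :=
            ha (mem_Ici.2 (abs_nonneg _)) (mem_Ici.2 (add_nonneg hy hr)) (abs_le.2 ⟨by linarith, by linarith⟩)
          rw [habs] at this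
          linarith
    have := hmono (show (0:ℝ) ∈ Ici 0 from le_refl (0:ℝ)) hu hu
    simp only [add_zero, sub_zero] at this
    linarith
  have k2 : ∀ u, γ (y + u) + γ (y - u) ≤ 2 * γ y := fun u => by
    rcases le_total 0 u with hu | hu
    · exact k1 u hu
    · have := k1 (-u) (by linarith)
      rw [← sub_eq_add_neg, sub_neg_eq_add] at this
      linarith
  have e1 : H t γ y = ∫ z, γ (y - t * z) ∂gaussianReal 0 1 := by
    have := hHo (-y)
    rw [neg_neg] at this
    rw [this, H, ← integral_neg]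
    refine integral_congr_ae (Eventually.of_forall fun z => ?_)
    simp only
    rw [← ho]
    congr 1
    ring
  have i1 := hγe.int t y
  have i2 : Integrable (fun z => γ (y - t * z)) (gaussianReal 0 1) := by
    simpa [sub_eq_add_neg] using hγe.int (-t) y
  have : H t γ y + H t γ y ≤ 2 * γ y := by
    nth_rewrite 2 [e1]
    rw [H, ← integral_add i1 i2]
    refine (integral_mono (i1.add i2) (integrable_const (2 * γ y)) fun z => k2 _).trans ?_
    simp
  linarith

theorem exp_phi0 (y : ℝ) : Real.exp (1 * phi0 1 y) = 2 * Real.cosh y := by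
  rw [one_mul, phi0, div_one, one_mul, Real.exp_log (by positivity)]

/-- **stability of the plateau**: `G cosh` even and decreasing on `[0,∞)` -/
theorem plateau {l : List (ℝ × ℝ)} (hA : Adm 1 l) {t c s K : ℝ} (ht : 0 ≤ t)
    (hT : PhiT 1 l t = fun x => phi0 1 x + c) (hs : 0 ≤ s) {G : ℝ → ℝ} (hG : BC G K)
    (he : ∀ x, G (-x) = G x) (ha : AntitoneOn (fun y => G y * Real.cosh y) (Ici 0)) :
    EX 1 l t (tE 1 s (phi0 1) G) 0 ≤ Real.exp (-(s / 2)) * EX 1 l t G 0 := by
  have hP := phi0_prof one_pos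
  have hB := tE_BC hP.lip 1 s hG
  set g : ℝ → ℝ := fun y => G y * Real.exp (1 * phi0 1 y) with hg
  have hc := (cone_sub_heat (g := g) (hG.eg.mul (EG.exp_lip hP.lip 1))
    (fun x => by simp only [hg, he, phi0_even]) (fun x hx y hy hxy => by
      simp only [hg, exp_phi0]
      have := ha hx hy hxy
      simp only at this
      linarith) (Real.sqrt s)).const_mul (c := Real.exp (-(s / 2)) * Real.exp c) (by positivity)
  have h0 := EX_nonneg_of_cone one_pos hA (m := 1)
    (F := fun y => Real.exp (-(s / 2)) * G y + -1 * tE 1 s (phi0 1) G y) ht (cur_le hA t) (by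
      convert hc using 2 with y
      have e := tE_eq hP one_ne_zero s G y
      rw [gaussOp_phi0 one_pos hs] at e
      rw [hT, ← e]
      simp only [hg, one_mul, Real.exp_add, Real.exp_neg]
      field_simp
      ring)
  rw [EX_add one_pos l t (hG.const_mul _) (hB.const_mul _), EX_const_mul one_pos,
    EX_const_mul one_pos] at h0
  linarith

theorem bc_sech (k : ℕ) : BC (fun y => (1 / Real.cosh y) ^ k) 1 := by
  refine ⟨(continuous_const.div Real.continuous_cosh fun y => (Real.cosh_pos y).ne').pow k,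
    fun y => ?_⟩
  have c1 := Real.one_le_cosh y
  rw [abs_of_nonneg (by positivity)]
  exact pow_le_one₀ (by positivity) (by rw [div_le_one (by positivity)]; exact c1)

theorem anti_sech (k : ℕ) :
    AntitoneOn (fun y => (1 / Real.cosh y) ^ (k + 1) * Real.cosh y) (Ici 0) := by
  intro x hx y hy hxy
  have e : ∀ z, (1 / Real.cosh z) ^ (k + 1) * Real.cosh z = (1 / Real.cosh z) ^ k := fun z => by
    rw [pow_succ, mul_assoc, one_div_mul_cancel (Real.cosh_pos z).ne', mul_one]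
  simp only [e]
  have : Real.cosh x ≤ Real.cosh y := Real.cosh_le_cosh.2 (by
    rw [abs_of_nonneg hx, abs_of_nonneg hy]; exact hxy)
  have := Real.cosh_pos x
  gcongr

/-- `E sech^{k+1} X_{t+s} ≤ e^{-s/2} E sech^{k+1} X_t` on the plateau -/
theorem plateau_sech {l : List (ℝ × ℝ)} (hA : Adm 1 l) {t c s : ℝ} (ht : 0 ≤ t)
    (hT : PhiT 1 l t = fun x => phi0 1 x + c) (hs : 0 ≤ s) (k : ℕ) :
    EX 1 l t (tE 1 s (phi0 1) fun y => (1 / Real.cosh y) ^ (k + 1)) 0 ≤
      Real.exp (-(s / 2)) * EX 1 l t (fun y => (1 / Real.cosh y) ^ (k + 1)) 0 :=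
  plateau hA ht hT hs (bc_sech _) (fun x => by rw [Real.cosh_neg]) (anti_sech k)

variable {P : Par} {β : ℝ}

/-- the same for `Par` -/
theorem E_plateau (h : P.OK) (hβ : 0 < β) {s t K : ℝ} (hs : P.b ≤ s) (ht : 0 ≤ t) {G : ℝ → ℝ}
    (hG : BC G K) (he : ∀ x, G (-x) = G x)
    (ha : AntitoneOn (fun y => G y * Real.cosh y) (Ici 0)) :
    P.E β (s + t / β ^ 2) G ≤ Real.exp (-(t / 2)) * P.E β s G := by
  rw [h.E_top hβ hs ht hG]
  obtain ⟨c, hc⟩ := h.PhiT_eq β (Nat.le_add_right P.K ⌈s * P.K⌉₊) s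
  have h0 : 0 ≤ β ^ 2 * s := mul_nonneg (sq_nonneg β) (h.b_nonneg.trans hs)
  rcases le_total s 1 with h1 | h1
  · refine plateau (c := β ^ 2 * (1 - s) / 2 + c) (h.adm β _) h0 ?_ ht hG he ha
    rw [hc]
    funext x
    rw [h.Ph_top hβ ⟨hs, h1⟩, Par.phi0_one, add_assoc]
  · refine plateau (c := c) (h.adm β _) h0 ?_ ht hG he ha
    rw [hc, h.Ph_end β h1]

theorem Pxx_top (h : P.OK) (hβ : 0 < β) {s : ℝ} (hs : P.b ≤ s) (y : ℝ) :
    P.Pxx β s y = (1 / Real.cosh y) ^ 2 := by
  rw [h.topEq hβ hs, h.Px_top hβ hs, one_sub_th_sq, one_mul, div_pow, one_pow]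

/-- **`Γ'` decays above `b`, relative form** -/
theorem Gam'_plateau (h : P.OK) (hβ : 0 < β) {s s' : ℝ} (hs : P.b ≤ s) (hs' : s ≤ s') :
    P.Gam' β s' ≤ Real.exp (-(β ^ 2 * (s' - s) / 2)) * P.Gam' β s := by
  have hb : 0 < β ^ 2 := by positivity
  have := E_plateau h hβ hs (t := β ^ 2 * (s' - s)) (mul_nonneg hb.le (by linarith)) (bc_sech 4)
    (fun x => by rw [Real.cosh_neg]) (anti_sech 3)
  rw [show s + β ^ 2 * (s' - s) / β ^ 2 = s' by field_simp; ring] at this
  have e : ∀ r, P.b ≤ r → (fun x => P.Pxx β r x ^ 2) = fun y => (1 / Real.cosh y) ^ 4 :=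
    fun r hr => funext fun y => by rw [Pxx_top h hβ hr]; ring
  unfold Par.Gam'
  rw [e s hs, e s' (hs.trans hs'), mul_left_comm]
  exact mul_le_mul_of_nonneg_left this hb.le

/-- **`1 - Γ` decays above `b`, relative form** -/
theorem Gam_plateau (h : P.OK) (hβ : 0 < β) {s s' : ℝ} (hs : P.b ≤ s) (hs' : s ≤ s') :
    1 - P.Gam β s' ≤ Real.exp (-(β ^ 2 * (s' - s) / 2)) * (1 - P.Gam β s) := by
  have hb : 0 < β ^ 2 := by positivity
  have := E_plateau h hβ hs (t := β ^ 2 * (s' - s)) (mul_nonneg hb.le (by linarith)) (bc_sech 2)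
    (fun x => by rw [Real.cosh_neg]) (anti_sech 1)
  rw [show s + β ^ 2 * (s' - s) / β ^ 2 = s' by field_simp; ring] at this
  rw [← h.EPxx_top hβ hs, ← h.EPxx_top hβ (hs.trans hs'), funext (Pxx_top h hβ hs),
    funext (Pxx_top h hβ (hs.trans hs'))]
  exact this

/-- the same in the `EL` form of `CascD_52.node_spin` -/
theorem EL_cone {β : ℝ} (hβ : 0 < β) {l' : List (ℝ × ℝ)} {F : ℝ → ℝ}
    (h : Cone fun y => F y * Real.exp (headLv β l' * PhiL β l' y)) :
    ∀ {l : List (ℝ × ℝ)}, Adm β (l ++ l') → Cone fun y => T157.Sc.EL l (PhiL β l') F y *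
      Real.exp (headLv β (l ++ l') * PhiL β (l ++ l') y)
  | [], _ => h
  | p :: l, hA => by
    have ih := PhiL_inv hβ hA.2.2.2
    have e : T157.Sc.Rec l (PhiL β l') = PhiL β (l ++ l') := by
      rw [← T157.Sc.rec_phi0, ← T157.Sc.rec_append, T157.Sc.rec_phi0]
    show Cone fun y => tE p.1 p.2 (T157.Sc.Rec l (PhiL β l')) (T157.Sc.EL l (PhiL β l') F) y *
      Real.exp (p.1 * gaussOp p.1 p.2 (PhiL β (l ++ l')) y)
    rw [e]
    exact ((EL_cone hβ h hA.2.2.2).lower ih hA.2.1).step ih.prof hA.1.ne'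

theorem EL_nonneg_of_cone {β : ℝ} (hβ : 0 < β) {l l' : List (ℝ × ℝ)} (hA : Adm β (l ++ l'))
    {F : ℝ → ℝ} (h : Cone fun y => F y * Real.exp (headLv β l' * PhiL β l' y)) :
    0 ≤ T157.Sc.EL l (PhiL β l') F 0 :=
  nonneg_of_mul_nonneg_left (EL_cone hβ h hA).zero (Real.exp_pos _)

end

end Crest.Agent.T156.Plat
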