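import Crest.Agent.T156.PrDef_28
import Crest.Agent.T156.Plat_10

/-!
Row 156 (helper10): the leaf `PlatS` of `PrDef_28` (decay of `G` and `1 - Γ` where the tilt is `1`).
-/

set_option autoImplicit false

namespace Crest.Agent.T156.Pr

open MeasureTheory Set
open Crest.Agent.R164.GC Crest.Agent.R339.B Crest.Agent.R339.Var Crest.Agent.T157.Pf
open Crest.Agent.T156.Pp (Dn)

noncomputable section

namespace Plat10

theorem ok_tail {p : ℝ × ℝ} {l : List (ℝ × ℝ)} (h : Ok (p :: l)) : Ok l :=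
  ⟨h.1.2.2.2, fun q hq => h.2 q (by simp [hq])⟩

theorem lvr_tail {p : ℝ × ℝ} {l : List (ℝ × ℝ)} {s : ℝ} (hs : 0 ≤ s) :
    lvr 1 (p :: l) (s + p.2) = lvr 1 l s := by
  conv_lhs => unfold lvr
  rw [if_neg (by linarith), add_sub_cancel_right]

theorem all_top : ∀ {l : List (ℝ × ℝ)}, Ok l → (∀ s, 0 ≤ s → lvr 1 l s = 1) →
    ∀ p ∈ l, p.1 = 1 ∧ 0 ≤ p.2
  | [], _, _ => by simp
  | p :: l, h, hz => by
    have hp := h.2 p (by simp)
    have h0 := hz 0 le_rfl
    unfold lvr at h0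
    rw [if_pos hp] at h0
    intro q hq
    rcases List.mem_cons.1 hq with rfl | hq
    · exact ⟨h0, hp.le⟩
    · exact all_top (ok_tail h) (fun s hs => by rw [← lvr_tail (p := p) hs]; exact hz _ (by linarith)) q hq

/-- above `T` the profile is `log 2cosh` up to a constant, and the Markov property at `T` -/
theorem top_markov : ∀ {l : List (ℝ × ℝ)}, Ok l → ∀ {T : ℝ}, 0 ≤ T →
    (∀ s, T ≤ s → lvr 1 l s = 1) →
    (∀ t, T ≤ t → ∃ c, PhiT 1 l t = fun x => phi0 1 x + c) ∧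
    ∀ r, 0 ≤ r → T + r ≤ TT l → ∀ (F : ℝ → ℝ) (K : ℝ), BC F K →
      EX 1 l (T + r) F = EX 1 l T (tE 1 r (phi0 1) F)
  | [], _, T, hT, _ => by
    refine ⟨fun t _ => ⟨0, by funext x; simp [PhiT]⟩, fun r hr h F K _ => ?_⟩
    have h1 : T + r ≤ 0 := by simpa [TT] using h
    rw [tE_nonpos _ (by linarith)]
    rfl
  | p :: l, h, T, hT, hz => by
    have hp := h.2 p (by simp)
    have hl : ∀ q ∈ l, 0 ≤ q.2 := fun q hq => (h.2 q (by simp [hq])).le
    rcases lt_or_ge T p.2 with h1 | h1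
    · have h0 := hz T le_rfl
      unfold lvr at h0
      rw [if_pos h1] at h0
      have ha : ∀ q ∈ p :: l, q.1 = 1 ∧ 0 ≤ q.2 := fun q hq => by
        rcases List.mem_cons.1 hq with rfl | hq
        · exact ⟨h0, hp.le⟩
        · exact all_top (ok_tail h)
            (fun s hs => by rw [← lvr_tail (p := p) hs]; exact hz _ (by linarith)) q hq
      refine ⟨fun t _ => PhiT_top one_pos ha t, fun r hr hT' F K hF => ?_⟩
      rw [EX_top one_pos hF.eg ha hT',
        EX_top one_pos (tE_BC (phi0_prof one_pos).lip 1 r hF).eg ha (by linarith),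
        tE_phi0_semi one_pos hT hr hF.eg]
    · obtain ⟨i1, i2⟩ := top_markov (ok_tail h) (T := T - p.2) (by linarith) fun s hs => by
        rw [← lvr_tail (p := p) (by linarith)]
        exact hz _ (by linarith)
      refine ⟨fun t ht => ?_, fun r hr hT' F K hF => ?_⟩
      · rw [PhiT_next h.1.1.ne' hl (h1.trans ht)]
        exact i1 _ (by linarith)
      · rw [TT_cons] at hT'
        rw [EX_next h.1.1.ne' hl (by linarith), EX_next h.1.1.ne' hl h1,
          show T + r - p.2 = (T - p.2) + r by ring, i2 r hr (by linarith) F K hF]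

theorem d1_top {l : List (ℝ × ℝ)} {t c : ℝ} (h : PhiT 1 l t = fun x => phi0 1 x + c) (x : ℝ) :
    Dk 1 l t x = (1 / Real.cosh x) ^ 2 := by
  rw [Dk, h, Pp.Dn_shift, Pp.Dn_one, phi0_deriv2 one_pos]
  simp only
  rw [one_sub_th_sq, one_mul, one_mul, div_pow, one_pow]

theorem d0_top {l : List (ℝ × ℝ)} {t c : ℝ} (h : PhiT 1 l t = fun x => phi0 1 x + c) (x : ℝ) :
    Dk 0 l t x ^ 2 = 1 + -1 * (1 / Real.cosh x) ^ 2 := by
  rw [Dk, h, Pp.Dn_shift, Pp.Dn_zero, phi0_deriv one_pos]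
  have := one_sub_th_sq 1 x
  rw [one_mul] at this
  rw [div_pow, one_pow, ← this]
  ring

theorem GG_top {l : List (ℝ × ℝ)} {t c : ℝ} (h : PhiT 1 l t = fun x => phi0 1 x + c) :
    GG l t = EX 1 l t (fun y => (1 / Real.cosh y) ^ (3 + 1)) 0 := by
  unfold GG Et
  congr 1
  funext x
  rw [d1_top h]
  ring

theorem Gam_top {l : List (ℝ × ℝ)} {t c : ℝ} (h : PhiT 1 l t = fun x => phi0 1 x + c) :
    1 - Gam l t = EX 1 l t (fun y => (1 / Real.cosh y) ^ (1 + 1)) 0 := by
  unfold Gam Et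
  have hc : BC (fun _ : ℝ => (1:ℝ)) 1 := ⟨continuous_const, fun _ => by simp⟩
  rw [funext (d0_top h), EX_add one_pos l t hc ((Plat.bc_sech 2).const_mul (-1)),
    EX_const one_pos, EX_const_mul one_pos]
  ring

end Plat10

open Plat10 in
/-- **plateau leaf** -/
theorem platS : PlatS := by
  intro l hl T t hT hTt ht hz
  obtain ⟨i1, i2⟩ := top_markov hl hT hz
  obtain ⟨c, hc⟩ := i1 T le_rfl
  obtain ⟨c', hc'⟩ := i1 t hTt
  have key : ∀ k : ℕ, EX 1 l t (fun y => (1 / Real.cosh y) ^ (k + 1)) 0 ≤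
      Real.exp (-((t - T) / 2)) * EX 1 l T (fun y => (1 / Real.cosh y) ^ (k + 1)) 0 := fun k => by
    have e := i2 (t - T) (by linarith) (by linarith) _ _ (Plat.bc_sech (k + 1))
    rw [add_sub_cancel] at e
    rw [e]
    exact Plat.plateau_sech hl.1 hT hc (by linarith) k
  rw [GG_top hc, GG_top hc', Gam_top hc, Gam_top hc']
  exact ⟨key 3, key 1⟩

end

end Crest.Agent.T156.Pr

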