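import Crest.Agent.T156.CasDef_88

/-!
# Row 156, cascade frame: log-concavity of the planted laws, joint convexity (helper44)
-/

set_option autoImplicit false
set_option linter.unusedSectionVars false

noncomputable section

namespace Crest.Agent.T156.Cas

open MeasureTheory Real Set Filter Topology
open Crest.Agent.T157.E Crest.Agent.T157.Casc Crest.Agent.T157.SL

/-- Hölder's inequality in logarithmic form -/
theorem lc_hold {α : Type*} [MeasurableSpace α] {μ : Measure α} [NeZero μ] {f f0 f1 : α → ℝ}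
    {a b : ℝ} (ha : 0 ≤ a) (hb : 0 ≤ b) (hab : a + b = 1)
    (i : Integrable (fun x => exp (f x)) μ) (i0 : Integrable (fun x => exp (f0 x)) μ)
    (i1 : Integrable (fun x => exp (f1 x)) μ) (e : ∀ x, f x ≤ a * f0 x + b * f1 x) :
    log (∫ x, exp (f x) ∂μ) ≤ a * log (∫ x, exp (f0 x) ∂μ) + b * log (∫ x, exp (f1 x) ∂μ) := by
  have h0 := integral_exp_pos i0
  have h1 := integral_exp_pos i1
  set Z0 := ∫ x, exp (f0 x) ∂μ with hZ0
  set Z1 := ∫ x, exp (f1 x) ∂μ with hZ1
  set c := a * log Z0 + b * log Z1 with hc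
  rw [log_le_iff_le_exp (integral_exp_pos i)]
  have key : ∀ x, exp (f x) ≤ exp c * a / Z0 * exp (f0 x) + exp c * b / Z1 * exp (f1 x) := by
    intro x
    have h := convexOn_exp.2 (mem_univ (f0 x - log Z0)) (mem_univ (f1 x - log Z1)) ha hb hab
    simp only [smul_eq_mul] at h
    rw [exp_sub (f0 x), exp_sub (f1 x), exp_log h0, exp_log h1] at h
    calc exp (f x) ≤ exp (c + (a * (f0 x - log Z0) + b * (f1 x - log Z1))) :=
          exp_le_exp.2 (by have := e x; rw [hc]; linarith)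
      _ ≤ exp c * (a * (exp (f0 x) / Z0) + b * (exp (f1 x) / Z1)) := by
          rw [exp_add]; exact mul_le_mul_of_nonneg_left h (exp_pos _).le
      _ = _ := by ring
  refine (integral_mono i ((i0.const_mul _).add (i1.const_mul _)) key).trans (le_of_eq ?_)
  rw [integral_add' (i0.const_mul _) (i1.const_mul _), integral_const_mul, integral_const_mul,
    ← hZ0, ← hZ1, div_mul_cancel₀ _ h0.ne', div_mul_cancel₀ _ h1.ne', ← mul_add, hab, mul_one]

variable {Ω : Type} [Fintype Ω] {w : Ω → ℝ}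

/-- one level keeps a pointwise convexity inequality -/
theorem lc_step {ι : Type} [Fintype ι] {m : ℝ} (hm : 0 ≤ m) {A A0 A1 : Ω → ι → ℝ}
    {F F0 F1 : (Ω → ℝ) → ℝ} (hF : Lg F) (hF0 : Lg F0) (hF1 : Lg F1) {z z0 z1 : Ω → ℝ} {a b : ℝ}
    (ha : 0 ≤ a) (hb : 0 ≤ b) (hab : a + b = 1)
    (e : ∀ g, F (z + Lv.fld ⟨ι, A, m⟩ g) ≤
      a * F0 (z0 + Lv.fld ⟨ι, A0, m⟩ g) + b * F1 (z1 + Lv.fld ⟨ι, A1, m⟩ g)) :
    step ⟨ι, A, m⟩ F z ≤ a * step ⟨ι, A0, m⟩ F0 z0 + b * step ⟨ι, A1, m⟩ F1 z1 := by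
  rcases hm.eq_or_lt with hm | hm
  · have i := hF.eg.int ⟨ι, A, m⟩ z
    have i0 := hF0.eg.int ⟨ι, A0, m⟩ z0
    have i1 := hF1.eg.int ⟨ι, A1, m⟩ z1
    simp only [step, if_pos hm.symm]
    refine (integral_mono i ((i0.const_mul a).add (i1.const_mul b)) e).trans (le_of_eq ?_)
    exact (integral_add' (i0.const_mul a) (i1.const_mul b)).trans
      (by rw [integral_const_mul, integral_const_mul])
  · have h := lc_hold ha hb hab ((hF.exp m).int ⟨ι, A, m⟩ z) ((hF0.exp m).int ⟨ι, A0, m⟩ z0)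
      ((hF1.exp m).int ⟨ι, A1, m⟩ z1) fun g => by
        have := mul_le_mul_of_nonneg_left (e g) hm.le
        linarith
    simp only [step, if_neg hm.ne']
    have := mul_le_mul_of_nonneg_left h (inv_nonneg.2 hm.le)
    linarith

theorem lc_of_tan {F : (Ω → ℝ) → ℝ} {p : (Ω → ℝ) → Ω → ℝ}
    (h : ∀ z f, F z + ∑ x, p z x * f x ≤ F (z + f)) : ConvexOn ℝ univ F := by
  refine ⟨convex_univ, fun u _ v _ a b ha hb hab => ?_⟩
  set z := a • u + b • v with hz
  have h1 := h z (u - z)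
  have h2 := h z (v - z)
  rw [add_sub_cancel] at h1 h2
  have h3 : a * ∑ x, p z x * (u - z) x + b * ∑ x, p z x * (v - z) x = 0 := by
    rw [Finset.mul_sum, Finset.mul_sum, ← Finset.sum_add_distrib]
    refine Finset.sum_eq_zero fun x _ => ?_
    have : z x = a * u x + b * v x := rfl
    simp only [Pi.sub_apply]
    linear_combination (-p z x) * this - p z x * z x * hab
  have h4 := mul_le_mul_of_nonneg_left h1 ha
  have h5 := mul_le_mul_of_nonneg_left h2 hb
  have h6 : F z = a * F z + b * F z := by rw [← add_mul, hab, one_mul]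
  simp only [smul_eq_mul]
  linarith

/-- the value of a cascade with nonnegative tilts is convex -/
theorem convexOn_X (hw : Wt w) {L : List (Lv Ω)} (hL : ∀ l ∈ L, 0 ≤ l.m) :
    ConvexOn ℝ univ (X w L) := lc_of_tan (X_add_ge hw L hL)

theorem ampStmt : AmpStmt := by
  intro Ω _ w hw L
  induction L with
  | nil =>
    intro _
    exact ⟨convex_univ, fun u _ v _ a b ha hb hab =>
      (convexOn_X hw (L := []) (by simp)).2 (mem_univ u.1) (mem_univ v.1) ha hb hab⟩
  | cons l L ih =>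
    intro hL
    have hl := hL l List.mem_cons_self
    have ih := ih fun l' h => hL l' (List.mem_cons_of_mem _ h)
    refine ⟨convex_univ, fun u _ v _ a b ha hb hab => ?_⟩
    refine lc_step (A := l.A (a • u + b • v).2) (A0 := l.A u.2) (A1 := l.A v.2) hl.1
      (lg_X hw (atL L (a • u + b • v).2)) (lg_X hw (atL L u.2)) (lg_X hw (atL L v.2)) ha hb hab
      fun g => ?_
    have h := ih.2 (mem_univ (u.1 + (l.at u.2).fld g, u.2)) (mem_univ (v.1 + (l.at v.2).fld g, v.2))
      ha hb hab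
    refine le_of_eq_of_le ?_ h
    congr 1
    funext x
    have e : ∀ i, l.A (a * u.2 + b * v.2) x i = a * l.A u.2 x i + b * l.A v.2 x i := fun i => by
      rw [hl.2 (a * u.2 + b * v.2), hl.2 u.2, hl.2 v.2]
      linear_combination (-l.A 0 x i) * hab
    simp only [Prod.fst_add, Prod.snd_add, Prod.smul_fst, Prod.smul_snd, Pi.add_apply,
      Pi.smul_apply, smul_eq_mul, Lv.fld, e, add_mul, Finset.sum_add_distrib, mul_assoc,
      ← Finset.mul_sum]
    ring

omit [Fintype Ω] in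
theorem lc_fld (l : Lv Ω) (a b : ℝ) (h h' : Ω → ℝ) (g g' : l.ι → ℝ) :
    a • h + b • h' + l.fld (a • g + b • g') = a • (h + l.fld g) + b • (h' + l.fld g') := by
  funext x
  simp only [Pi.add_apply, Pi.smul_apply, smul_eq_mul, Lv.fld, mul_add, Finset.sum_add_distrib,
    mul_left_comm _ a, mul_left_comm _ b, ← Finset.mul_sum]
  ring

omit [Fintype Ω] in
/-- the states are linear in (initial state, noise) -/
theorem st_lin (a b : ℝ) : ∀ (L : List (Lv Ω)) (j : ℕ) (h h' : Ω → ℝ) (g g' : NI L → ℝ),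
    st L j (a • h + b • h') (a • g + b • g') = a • st L j h g + b • st L j h' g'
  | [], 0, _, _, _, _ => rfl
  | _ :: _, 0, _, _, _, _ => rfl
  | [], _ + 1, _, _, _, _ => rfl
  | l :: L, j + 1, h, h', g, g' => by
    have e := lc_fld l a b h h' (fun i => g (.inl i)) fun i => g' (.inl i)
    exact (congrArg (fun z => st L j z _) e).trans (st_lin a b L j _ _ (fun i => g (.inr i))
      fun i => g' (.inr i))

theorem lc_comp {V V' : Type*} [AddCommGroup V] [Module ℝ V] [AddCommGroup V'] [Module ℝ V']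
    {F : V' → ℝ} (hF : ConvexOn ℝ univ F) {φ : V → V'}
    (hφ : ∀ (a b : ℝ) u v, φ (a • u + b • v) = a • φ u + b • φ v) :
    ConvexOn ℝ univ fun u => F (φ u) :=
  ⟨convex_univ, fun u _ v _ a b ha hb hab => by
    simp only [hφ]; exact hF.2 (mem_univ _) (mem_univ _) ha hb hab⟩

theorem lc_mul {V : Type*} [AddCommGroup V] [Module ℝ V] {F : V → ℝ} (hF : ConvexOn ℝ univ F)
    {c : ℝ} (hc : 0 ≤ c) : ConvexOn ℝ univ fun u => c * F u := hF.smul hc

theorem convexOn_Ph (hw : Wt w) {L : List (Lv Ω)} (hL : ∀ l ∈ L, 0 ≤ l.m) (j : ℕ) :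
    ConvexOn ℝ univ fun p : (Ω → ℝ) × (NI L → ℝ) => Ph w L j p.1 p.2 :=
  lc_comp (convexOn_X hw fun l h => hL l (List.mem_of_mem_drop h))
    (φ := fun p : (Ω → ℝ) × (NI L → ℝ) => st L j p.1 p.2) fun a b _ _ => st_lin a b L j _ _ _ _

theorem convexOn_U (hw : Wt w) {L : List (Lv Ω)} (hL : Mono 0 L) (x : Ω) :
    ConvexOn ℝ univ fun p : (Ω → ℝ) × (NI L → ℝ) => U w L p.1 x p.2 := by
  refine ⟨convex_univ, fun u _ v _ a b ha hb hab => ?_⟩
  have e : st L L.length (a • u + b • v).1 (a • u + b • v).2 x =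
      a * st L L.length u.1 u.2 x + b * st L L.length v.1 v.2 x :=
    congrFun (st_lin a b L L.length u.1 v.1 u.2 v.2) x
  have h : ∑ j ∈ Finset.range L.length,
      dm L 0 (j + 1) * Ph w L (j + 1) (a • u + b • v).1 (a • u + b • v).2 ≤
      ∑ j ∈ Finset.range L.length, (a * (dm L 0 (j + 1) * Ph w L (j + 1) u.1 u.2) +
        b * (dm L 0 (j + 1) * Ph w L (j + 1) v.1 v.2)) := Finset.sum_le_sum fun j _ =>
    (lc_mul (convexOn_Ph hw (hL.nn le_rfl) (j + 1)) (dm_nonneg hL (j + 1))).2 (mem_univ u)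
      (mem_univ v) ha hb hab
  rw [Finset.sum_add_distrib, ← Finset.mul_sum, ← Finset.mul_sum] at h
  simp only [U, smul_eq_mul, e]
  linarith

theorem Sh.one_le_br : ∀ s : Sh, 1 ≤ s.br
  | .one => le_rfl
  | .step _ => le_rfl
  | .split s _ => s.one_le_br.trans (Nat.le_add_right _ _)

omit [Fintype Ω] in
theorem mono_le : ∀ {L : List (Lv Ω)} {m m' : ℝ}, m' ≤ m → Mono m L → Mono m' L
  | [], _, _, h, h' => h.trans h'
  | _ :: _, _, _, h, h' => ⟨h.trans h'.1, h'.2⟩

omit [Fintype Ω] in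
theorem mono_ex : ∀ {L : List (Lv Ω)} {m : ℝ}, Mono m L → m ≤ ex L 0
  | [], _, h => h
  | _ :: _, _, h => h.1

theorem convexOn_UT (hw : Wt w) : ∀ (s : Sh) (L : List (Lv Ω)), Mono 0 L → ∀ x : s.Lf → Ω,
    ConvexOn ℝ univ fun p : (Ω → ℝ) × (NT s L → ℝ) => UT w s L p.1 x p.2
  | .one, _, hL, x => convexOn_U hw hL (x ())
  | .step s, [], hL, x => (convexOn_UT hw s [] hL x).add (lc_mul
      (lc_comp (convexOn_X hw (L := []) (by simp)) (φ := fun p : (Ω → ℝ) × (NT s [] → ℝ) => p.1)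
        fun _ _ _ _ => rfl) (sub_nonneg.2 (by exact_mod_cast s.one_le_br)))
  | .step s, l :: L, hL, x => by
    have hL' : Mono 0 L := mono_le hL.1 hL.2
    have h1 : (1 : ℝ) ≤ s.br := by exact_mod_cast s.one_le_br
    have h2 := mono_ex hL.2
    have h3 : 0 ≤ s.br * ex L 0 - l.m := by nlinarith [hL.1]
    refine (lc_comp (convexOn_UT hw s L hL' x)
      (φ := fun p : (Ω → ℝ) × (l.ι ⊕ NT s L → ℝ) =>
        (p.1 + l.fld fun i => p.2 (.inl i), fun i => p.2 (.inr i))) fun a b u v => ?_).add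
      (lc_mul (lc_comp (convexOn_X hw (hL'.nn le_rfl))
        (φ := fun p : (Ω → ℝ) × (l.ι ⊕ NT s L → ℝ) => p.1 + l.fld fun i => p.2 (.inl i))
        fun a b u v => ?_) h3)
    · exact Prod.ext (lc_fld l a b u.1 v.1 (fun i => u.2 (.inl i)) fun i => v.2 (.inl i)) rfl
    · exact lc_fld l a b u.1 v.1 (fun i => u.2 (.inl i)) fun i => v.2 (.inl i)
  | .split s t, L, hL, x =>
    (lc_comp (convexOn_UT hw s L hL fun a => x (.inl a))
      (φ := fun p : (Ω → ℝ) × (NT s L ⊕ NT t L → ℝ) => (p.1, fun i => p.2 (.inl i)))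
      fun _ _ _ _ => rfl).add
    (lc_comp (convexOn_UT hw t L hL fun a => x (.inr a))
      (φ := fun p : (Ω → ℝ) × (NT s L ⊕ NT t L → ℝ) => (p.1, fun i => p.2 (.inr i)))
      fun _ _ _ _ => rfl)

theorem lcStmt : LcStmt := fun _ _ _ hw L hL =>
  ⟨convexOn_X hw (hL.nn le_rfl), convexOn_Ph hw (hL.nn le_rfl), convexOn_U hw hL,
    fun s => convexOn_UT hw s L hL⟩

end Crest.Agent.T156.Cas

end
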