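import Crest.Agent.T156.QOne_33
import Crest.Agent.T156.SgnCas_69
import Crest.Agent.T156.CaERic_43
import Crest.Agent.T156.CaLink_33

/-!
# Row 156, block (Q): domination from covariances, and the bounds Q1 on the cube (helper33)
-/

set_option autoImplicit false
set_option linter.unusedSectionVars false

noncomputable section

namespace Crest.Agent.T156.Cas.Q33

open MeasureTheory Real Set Filter Topology
open Crest.Agent.T157.E Crest.Agent.T157.Casc Crest.Agent.T157.SL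
open Crest.Agent.T156.Cas.Sy41
open Crest.Agent.T157.G1 (ov fl)

variable {Ω : Type} [Fintype Ω]

/-! ### Douglas' lemma -/

theorem exists_solve {ι : Type} [Fintype ι] (A : Ω → ι → ℝ) (y : Ω → ℝ)
    (H : ∀ c : Ω → ℝ, (∀ i, ∑ x, c x * A x i = 0) → ∑ x, c x * y x = 0) :
    ∃ c : Ω → ℝ, ∀ x, ∑ i, A x i * ∑ x', c x' * A x' i = y x := by
  let e := WithLp.linearEquiv 2 ℝ (Ω → ℝ)
  let M : Matrix Ω Ω ℝ := Matrix.of fun x x' => ∑ i, A x i * A x' i
  let S : EuclideanSpace ℝ Ω →ₗ[ℝ] EuclideanSpace ℝ Ω :=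
    e.symm.toLinearMap ∘ₗ M.mulVecLin ∘ₗ e.toLinearMap
  have hS : ∀ (c : EuclideanSpace ℝ Ω) x, S c x = ∑ i, A x i * ∑ x', c x' * A x' i := by
    intro c x
    change ∑ x', (∑ i, A x i * A x' i) * c x' = _
    simp only [Finset.sum_mul, Finset.mul_sum]
    exact Finset.sum_comm.trans (Finset.sum_congr rfl fun _ _ => Finset.sum_congr rfl fun _ _ => by
      ring)
  have hy : e.symm y ∈ (LinearMap.range S)ᗮᗮ := by
    rw [Submodule.mem_orthogonal]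
    intro c hc
    have h1 := (Submodule.mem_orthogonal _ _).1 hc (S c) (LinearMap.mem_range_self S c)
    have h2 : ∑ i, (∑ x, c x * A x i) ^ 2 = 0 := by
      rw [← h1, PiLp.inner_apply]
      simp only [hS, RCLike.inner_apply, conj_trivial, sq, Finset.mul_sum, Finset.sum_mul]
      rw [Finset.sum_comm]
      refine Finset.sum_congr rfl fun _ _ => Finset.sum_congr rfl fun _ _ =>
        Finset.sum_congr rfl fun _ _ => by ring
    have h3 := H (fun x => c x) fun i => pow_eq_zero_iff two_ne_zero |>.1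
      ((Finset.sum_eq_zero_iff_of_nonneg fun _ _ => sq_nonneg _).1 h2 i (Finset.mem_univ i))
    rw [PiLp.inner_apply, ← h3]
    refine Finset.sum_congr rfl fun x _ => ?_
    simp only [RCLike.inner_apply, conj_trivial]
    exact mul_comm _ _
  rw [Submodule.orthogonal_orthogonal] at hy
  obtain ⟨c, hc⟩ := hy
  exact ⟨fun x => c x, fun x => by rw [← hS, hc]; rfl⟩

theorem douglas {ι κ : Type} [Fintype ι] [Fintype κ] (A : Ω → ι → ℝ) (B : Ω → κ → ℝ)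
    (H : ∀ c : Ω → ℝ, ∑ k, (∑ x, c x * B x k) ^ 2 ≤ ∑ i, (∑ x, c x * A x i) ^ 2) (v : κ → ℝ) :
    ∃ η : ι → ℝ, (∀ x, ∑ i, A x i * η i = ∑ k, B x k * v k) ∧ ∑ i, η i ^ 2 ≤ ∑ k, v k ^ 2 := by
  have e : ∀ c : Ω → ℝ, ∑ x, c x * ∑ k, B x k * v k = ∑ k, (∑ x, c x * B x k) * v k := fun c => by
    simp only [Finset.mul_sum, Finset.sum_mul, mul_assoc]
    exact Finset.sum_comm
  obtain ⟨c, hc⟩ := exists_solve A (fun x => ∑ k, B x k * v k) fun c hc => by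
    have h1 := H c
    simp only [hc, ne_eq, OfNat.ofNat_ne_zero, not_false_eq_true, zero_pow,
      Finset.sum_const_zero] at h1
    have h2 := (Finset.sum_eq_zero_iff_of_nonneg fun k _ => sq_nonneg (∑ x, c x * B x k)).1
      (le_antisymm h1 (Finset.sum_nonneg fun _ _ => sq_nonneg _))
    rw [e]
    exact Finset.sum_eq_zero fun k hk => by
      rw [pow_eq_zero_iff two_ne_zero |>.1 (h2 k hk), zero_mul]
  refine ⟨fun i => ∑ x, c x * A x i, hc, ?_⟩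
  set N := ∑ i, (∑ x, c x * A x i) ^ 2 with hN
  have h1 : N = ∑ k, (∑ x, c x * B x k) * v k := by
    rw [← e]
    simp only [← hc, hN, sq]
    generalize hη : (fun i => ∑ x, c x * A x i) = η
    have hη' : ∀ i, ∑ x, c x * A x i = η i := fun i => congrFun hη i
    calc ∑ i, (∑ x, c x * A x i) * ∑ x, c x * A x i = ∑ i, ∑ x, c x * (A x i * η i) :=
          Finset.sum_congr rfl fun i _ => by
            nth_rewrite 2 [hη' i]
            simp only [Finset.sum_mul, mul_assoc]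
      _ = _ := by
          rw [Finset.sum_comm]
          simp only [hη', Finset.mul_sum]
  have h2 : N ^ 2 ≤ N * ∑ k, v k ^ 2 := by
    nth_rewrite 1 [h1]
    exact (Finset.sum_mul_sq_le_sq_mul_sq _ _ _).trans (mul_le_mul_of_nonneg_right (H c)
      (Finset.sum_nonneg fun _ _ => sq_nonneg _))
  have h0 : 0 ≤ N := Finset.sum_nonneg fun _ _ => sq_nonneg _
  rcases h0.eq_or_lt with h3 | h3
  · rw [← h3]; exact Finset.sum_nonneg fun _ _ => sq_nonneg _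
  · exact le_of_mul_le_mul_left (by nlinarith) h3

theorem qf_cov_eq (c : Ω → ℝ) (l : Lv Ω) : qf c l.cov = ∑ i, (∑ x, c x * l.A x i) ^ 2 := by
  simp only [qf, Lv.cov, sq, Finset.sum_mul_sum]
  simp only [Finset.mul_sum]
  refine (Finset.sum_congr rfl fun x _ => Finset.sum_comm).trans (Finset.sum_comm.trans ?_)
  exact Finset.sum_congr rfl fun _ _ => Finset.sum_congr rfl fun _ _ =>
    Finset.sum_congr rfl fun _ _ => by ring

theorem qf_cov_nonneg (c : Ω → ℝ) (l : Lv Ω) : 0 ≤ qf c l.cov := by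
  rw [qf_cov_eq]; exact Finset.sum_nonneg fun _ _ => sq_nonneg _

/-- **domination read off the covariances** (up to additive constants) -/
theorem dom_of_cov {l l₀ : Lv Ω} {τ : ℝ} (hτ : 0 ≤ τ)
    (H : ∀ c : Ω → ℝ, ∑ x, c x = 0 → τ * qf c l₀.cov ≤ qf c l.cov) : Dom l l₀ τ := by
  classical
  refine ⟨hτ, fun v => ?_⟩
  rcases isEmpty_or_nonempty Ω with hΩ | ⟨⟨x₀⟩⟩
  · exact ⟨0, 0, fun x => hΩ.elim x, by simpa using Finset.sum_nonneg fun i _ => sq_nonneg (v i)⟩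
  have e : ∀ (c F : Ω → ℝ), ∑ x, c x * (F x - F x₀) =
      ∑ x, (c x - if x = x₀ then ∑ y, c y else 0) * F x := fun c F => by
    simp only [mul_sub, sub_mul, Finset.sum_sub_distrib, ite_mul, zero_mul, Finset.sum_ite_eq',
      Finset.mem_univ, if_true, Finset.sum_mul]
  obtain ⟨η, h1, h2⟩ := douglas (fun x i => l.A x i - l.A x₀ i)
    (fun x k => √τ * l₀.A x k - √τ * l₀.A x₀ k) (fun c => by
      have := H (fun x => c x - if x = x₀ then ∑ y, c y else 0) (by simp)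
      rw [qf_cov_eq, qf_cov_eq, Finset.mul_sum] at this
      simp only [e c fun x => l.A x _, e c fun x => √τ * l₀.A x _]
      refine le_trans (le_of_eq (Finset.sum_congr rfl fun k _ => ?_)) this
      simp only [mul_left_comm _ √τ, ← Finset.mul_sum, mul_pow, sq_sqrt hτ]) v
  refine ⟨η, l.fld η x₀ - √τ * l₀.fld v x₀, fun x => ?_, h2⟩
  have := h1 x
  simp only [sub_mul, Finset.sum_sub_distrib, mul_assoc, ← Finset.mul_sum] at this
  simp only [Lv.fld]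
  linarith

theorem Dom.mono {l l₀ : Lv Ω} {τ τ' : ℝ} (H : Dom l l₀ τ) (h0 : 0 ≤ τ') (h : τ' ≤ τ) :
    Dom l l₀ τ' := by
  refine ⟨h0, fun v => ?_⟩
  rcases H.1.eq_or_lt with h1 | h1
  · rw [le_antisymm (h.trans h1.ge) h0]; exact (dom_zero l l₀).2 v
  obtain ⟨η, κ, h2, h3⟩ := H.2 fun i => √τ' / √τ * v i
  have h4 : √τ ≠ 0 := (sqrt_pos.2 h1).ne'
  refine ⟨η, κ, fun x => ?_, h3.trans (Finset.sum_le_sum fun i _ => ?_)⟩
  · rw [h2]
    simp only [Lv.fld, mul_left_comm _ (√τ' / √τ), ← Finset.mul_sum]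
    field_simp
  · rw [mul_pow, div_pow, sq_sqrt h0, sq_sqrt H.1]
    exact mul_le_of_le_one_left (sq_nonneg _) ((div_le_one h1).2 h)

/-- a window of dominating levels sees every unit direction of `l₀` -/
theorem sees_of_dom {M : List (Lv Ω)} {l₀ : Lv Ω} {τ : ℕ → ℝ}
    (H : ∀ j (hj : j < M.length), Dom M[j] l₀ (τ j)) {v : l₀.ι → ℝ} (hv : ∑ i, v i ^ 2 ≤ 1) :
    ERic43.Sees M (l₀.fld v) fun j => √(τ j) := fun j hj => by
  obtain ⟨η, κ, h1, h2⟩ := (H j hj).2 v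
  exact ⟨η, κ, h1, h2.trans hv⟩

/-! ### the cube -/

variable {n : ℕ}

theorem ov_self (hn : 0 < n) (x : Cube n) : ov x x = 1 := by
  have : (n : ℝ) ≠ 0 := by positivity
  simp only [ov, dotProduct, Link33.sv_sq, Finset.sum_const, Finset.card_univ, Fintype.card_fin,
    nsmul_eq_mul, mul_one]
  exact div_self this

theorem qf_ov (hn : 0 < n) (c : Cube n → ℝ) : 0 ≤ qf c ov := by
  have h := qf_cov_nonneg c (fl n 1 (0, 1 / n))
  have : (n : ℝ) ≠ 0 := by positivity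
  have e : (fl n 1 (0, 1 / n)).cov = ov := by
    funext x y
    rw [Link33.cov_fl n 1 _ x y hn (by positivity)]
    field_simp
  rwa [e] at h

theorem qf_ov_sq (hn : 0 < n) (c : Cube n → ℝ) : 0 ≤ qf c fun x y => ov x y ^ 2 := by
  have h := qf_cov_nonneg c (wl n 1 (2 / n) 0)
  have : (n : ℝ) ≠ 0 := by positivity
  have e : (wl n 1 (2 / n) 0).cov = fun x y => ov x y ^ 2 := by
    funext x y
    rw [Link33.cov_wl n 1 _ _ x y hn (by positivity)]
    field_simp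
  rwa [e] at h

/-- covariance `α R² + φ R + c`, `α ≥ 0` -/
def QC (l : Lv (Cube n)) (φ : ℝ) : Prop :=
  ∃ α c : ℝ, 0 ≤ α ∧ ∀ x y, l.cov x y = α * ov x y ^ 2 + φ * ov x y + c

theorem QC.ovLv {l : Lv (Cube n)} {φ : ℝ} (H : QC l φ) : OvLv l := by
  obtain ⟨α, c, -, h⟩ := H
  exact ⟨fun r => α * r ^ 2 + φ * r + c, h⟩

theorem qc_fl (hn : 0 < n) (s : ℝ) {p : ℝ × ℝ} (hp : 0 ≤ p.2) : QC (fl n s p) (s ^ 2 * p.2 * n) :=
  ⟨0, 0, le_rfl, fun x y => by rw [Link33.cov_fl n s p x y hn hp]; ring⟩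

theorem qc_wl (hn : 0 < n) (β : ℝ) {d : ℝ} (hd : 0 ≤ d) (m : ℝ) : QC (wl n β d m) 0 :=
  ⟨d * (β ^ 2 * n / 2), 0, by positivity, fun x y => by
    rw [Link33.cov_wl n β d m x y hn hd]; ring⟩

theorem QC.dom (hn : 0 < n) {l l₀ : Lv (Cube n)} {φ θ τ : ℝ} (H : QC l φ)
    (h₀ : ∀ x y, l₀.cov x y = θ * ov x y) (hτ : 0 ≤ τ) (h : τ * θ ≤ φ) : Dom l l₀ τ := by
  obtain ⟨α, c, hα, hl⟩ := H
  refine dom_of_cov hτ fun u hu => ?_
  have e1 : qf u l₀.cov = θ * qf u ov := by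
    simp only [qf, h₀, Finset.mul_sum]
    exact Finset.sum_congr rfl fun _ _ => Finset.sum_congr rfl fun _ _ => by ring
  have e2 : qf u l.cov = α * qf u (fun x y => ov x y ^ 2) + φ * qf u ov +
      c * ((∑ x, u x) * ∑ x, u x) := by
    rw [Finset.sum_mul_sum]
    simp only [qf, hl, Finset.mul_sum, ← Finset.sum_add_distrib]
    exact Finset.sum_congr rfl fun _ _ => Finset.sum_congr rfl fun _ _ => by ring
  rw [e1, e2, hu]
  nlinarith [mul_nonneg hα (qf_ov_sq hn u), mul_le_mul_of_nonneg_right h (qf_ov hn u)]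

/-- the normalised spin level: covariance `R` -/
abbrev sl (n : ℕ) : Lv (Cube n) := fl n 1 (0, 1 / n)

theorem sl_cov (hn : 0 < n) (x y : Cube n) : (sl n).cov x y = ov x y := by
  have : (n : ℝ) ≠ 0 := by positivity
  rw [Link33.cov_fl n 1 _ x y hn (by positivity)]
  field_simp

/-- a model on the cube: level `k` carries the field variance `dh k` per site -/
structure Cm (L : List (Lv (Cube n))) (dh : ℕ → ℝ) : Prop where
  pos : 0 < n
  mono : Mono 0 L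
  qc : ∀ k (hk : k < L.length), QC L[k] (dh k * n)
  nn : ∀ k, 0 ≤ dh k

variable {L : List (Lv (Cube n))} {dh : ℕ → ℝ} {l₀ : Lv (Cube n)}

theorem Cm.ovLv (H : Cm L dh) : ∀ l ∈ L, OvLv l := fun l hl => by
  obtain ⟨k, hk, rfl⟩ := List.getElem_of_mem hl
  exact (H.qc k hk).ovLv

theorem Cm.sym (H : Cm L dh) : ∀ τ ∈ TS n, Sym (fun _ => 1) L 0 τ := sym_act₀ H.ovLv

theorem ts_trans : ∀ x y : Cube n, (fun _ => (1 : ℝ)) x ≠ 0 → (fun _ => (1 : ℝ)) y ≠ 0 →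
    ∃ τ ∈ TS n, τ x = y := fun x y _ _ => TS_trans x y

theorem ts_cov (h₀ : ∀ x y, l₀.cov x y = ov x y) :
    ∀ τ ∈ TS n, ∀ x y, l₀.cov (τ x) (τ y) = l₀.cov x y := fun τ hτ x y => by
  rw [h₀, h₀, TS_ov hτ]

theorem Cm.dt (H : Cm L dh) (h₀ : ∀ x y, l₀.cov x y = ov x y) :
    Dt (fun _ => 1) L l₀ (fun k => dh k * n) 1 :=
  ⟨Link33.wt1, H.mono, fun k hk => (H.qc k hk).dom H.pos (θ := 1) (fun x y => by rw [h₀, one_mul])
    (mul_nonneg (H.nn k) (Nat.cast_nonneg n)) (mul_one _).le,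
    fun x => by rw [h₀, ov_self H.pos]⟩

/-- block hypotheses: tilts `≥ x`, field increments `≥ μ v` on the levels `[A, B)` -/
theorem Cm.blk (H : Cm L dh) (h₀ : ∀ x y, l₀.cov x y = ov x y) {x μ v : ℝ} {A B : ℕ}
    (hB : B ≤ L.length) (hx : 0 < x) (hμ : 0 < μ) (hv : 0 < v)
    (h1 : ∀ k, A ≤ k → k < B → x ≤ ex L k) (h2 : ∀ k, A ≤ k → k < B → μ * v ≤ dh k) :
    Blk (fun _ => 1) L l₀ (fun k => dh k * n) 1 (x * (μ * v * n)) A B :=
  have hn : (0 : ℝ) < n := Nat.cast_pos.2 H.pos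
  { toDt := H.dt h₀
    len := hB
    pos := by positivity
    mass := fun k a b => mul_le_mul (h1 k a b) (mul_le_mul_of_nonneg_right (h2 k a b) hn.le)
      (by positivity) (hx.le.trans (h1 k a b)) }

/-- the block bound in units -/
def qu (n x μ v : ℝ) (D N : ℕ) (top rise : ℝ) : ℝ :=
  (D + 2) * ((N / 2 ^ D * top + D * rise) / (n * x * μ) + v * rise)

theorem qb_eq {n x μ v : ℝ} (hn : n ≠ 0) (hx : x ≠ 0) (hμ : μ ≠ 0) (hv : v ≠ 0) (C : ℝ) (D N : ℕ)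
    (top rise : ℝ) : C * v * qb 1 (x * (μ * v * n)) D N top rise = C * qu n x μ v D N top rise := by
  unfold qb qu
  field_simp
  ring

section units
variable (H : Cm L dh) (h₀ : ∀ x y, l₀.cov x y = ov x y) {x μ v : ℝ} {A B : ℕ}
  (hB : B ≤ L.length) (hx : 0 < x) (hμ : 0 < μ) (hv : 0 < v)
  (h1 : ∀ k, A ≤ k → k < B → x ≤ ex L k) (h2 : ∀ k, A ≤ k → k < B → μ * v ≤ dh k)
  {D lo hi : ℕ} (h3 : A + 2 ^ D ≤ lo) (hl : lo ≤ hi) {top rise C : ℝ} (hC : 0 ≤ C)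
include H h₀ hB hx hμ hv h1 h2 h3 hl hC

/-- **(Q1) on the cube** -/
theorem Cm.q1 (h : Cube n → ℝ) (h4 : hi ≤ B + 1) (ht : rho (fun _ => 1) L l₀ h (hi - 1) ≤ top)
    (hr : rho (fun _ => 1) L l₀ h (hi - 1) - rho (fun _ => 1) L l₀ h (lo - 2 ^ D) ≤ rise)
    {c : ℕ → ℝ} (hc : ∀ j ∈ Finset.Ico lo hi, c j ≤ C * v) :
    ∑ j ∈ Finset.Ico lo hi, c j * aa (fun _ => 1) L l₀ h j ≤ C * qu n x μ v D (hi - lo) top rise := by
  have hn : (0 : ℝ) < n := Nat.cast_pos.2 H.pos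
  rw [← qb_eq hn.ne' hx.ne' hμ.ne' hv.ne']
  exact (H.blk h₀ hB hx hμ hv h1 h2).q1 h h3 hl h4 ht hr (by positivity) hc

/-- **(Q1V) on the cube**, `V` -/
theorem Cm.q1V (h : Cube n → ℝ) (h4 : hi ≤ B) (ht : rho (fun _ => 1) L l₀ h (hi - 1) ≤ top)
    (hr : rho (fun _ => 1) L l₀ h (hi - 1) - rho (fun _ => 1) L l₀ h (lo - 2 ^ D) ≤ rise)
    {c : ℕ → ℝ} (hc : ∀ j ∈ Finset.Ico lo hi, c j ≤ C * v) :
    ∑ j ∈ Finset.Ico lo hi, c j * vv (fun _ => 1) L l₀ h j ≤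
      C * qu n x μ v D (hi - lo) top rise / x := by
  have hn : (0 : ℝ) < n := Nat.cast_pos.2 H.pos
  have h5 : 1 ≤ 2 ^ D := Nat.one_le_two_pow
  rw [← qb_eq hn.ne' hx.ne' hμ.ne' hv.ne']
  exact (H.blk h₀ hB hx hμ hv h1 h2).q1V h h3 hl (by omega) ht hr (by positivity) hc hx
    fun j hj => h1 j (by have := (Finset.mem_Ico.1 hj).1; omega)
      (by have := (Finset.mem_Ico.1 hj).2; omega)

/-- **(Q1J) on the cube** -/
theorem Cm.q1J (h4 : hi ≤ B + 1) (ht : rho (fun _ => 1) L l₀ 0 (hi - 1) ≤ top)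
    (hr : rho (fun _ => 1) L l₀ 0 (hi - 1) - rho (fun _ => 1) L l₀ 0 (lo - 2 ^ D) ≤ rise)
    {φ : ℕ → ℝ} (h0 : ∀ j, j < lo ∨ hi ≤ j → φ j = 0)
    (hc : ∀ j ∈ Finset.Ico lo hi, dm L 0 j * φ j ^ 2 ≤ C * v) :
    pE (fun _ => 1) L 0 (fun g _ => lin (fun _ => 1) L l₀ 0 φ g ^ 2) -
      pE (fun _ => 1) L 0 (fun g _ => lin (fun _ => 1) L l₀ 0 φ g) ^ 2 ≤
      4 * (C * qu n x μ v D (hi - lo) top rise) := by
  have hn : (0 : ℝ) < n := Nat.cast_pos.2 H.pos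
  rw [← qb_eq hn.ne' hx.ne' hμ.ne' hv.ne']
  exact (H.blk h₀ hB hx hμ hv h1 h2).q1J 0 H.sym ts_trans (ts_cov h₀) h3 hl h4 ht hr
    (by positivity) h0 hc

end units

/-- **(Q1V) on the cube**, `tr C²`; `t ≥ n dh` on the window -/
theorem Cm.q1C (H : Cm L dh) (h₀ : ∀ x y, l₀.cov x y = ov x y) (h : Cube n → ℝ) {x μ v C t : ℝ}
    {lo hi : ℕ} (hl : lo ≤ hi) (hh : hi ≤ L.length) (hx : 0 < x) (hμ : 0 < μ) (hC : 0 ≤ C)
    (h1 : ∀ j ∈ Finset.Ico lo hi, x ≤ ex L j) (h2 : ∀ j ∈ Finset.Ico lo hi, μ * v ≤ dh j)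
    (h3 : ∀ j ∈ Finset.Ico lo hi, dh j * n ≤ t) {c : ℕ → ℝ}
    (hc : ∀ j ∈ Finset.Ico lo hi, c j ≤ C * v) :
    ∑ j ∈ Finset.Ico lo hi, c j * tc (fun _ => 1) L l₀ h j ≤ C / (n * μ) * (2 + 2 * t) *
      (rho (fun _ => 1) L l₀ h hi - rho (fun _ => 1) L l₀ h lo) / x ^ 2 := by
  have hn : (0 : ℝ) < n := Nat.cast_pos.2 H.pos
  refine (H.dt h₀).tc_win h hl hh (by positivity) (fun j hj => (hc j hj).trans ?_)
    (fun j hj => by rw [mul_one]; exact h3 j hj) hx h1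
  have := mul_le_mul_of_nonneg_left (h2 j hj) (by positivity : 0 ≤ C / μ)
  calc C * v = C / μ * (μ * v) := by field_simp
    _ ≤ C / μ * dh j := this
    _ = _ := by field_simp

/-- the same for `tr A²` -/
theorem Cm.q1A (H : Cm L dh) (h₀ : ∀ x y, l₀.cov x y = ov x y) (h : Cube n → ℝ) {μ v C t : ℝ}
    {lo hi : ℕ} (hl : lo ≤ hi) (hh : hi ≤ L.length) (hμ : 0 < μ) (hC : 0 ≤ C)
    (h2 : ∀ j ∈ Finset.Ico lo hi, μ * v ≤ dh j)
    (h3 : ∀ j ∈ Finset.Ico lo hi, dh j * n ≤ t) {c : ℕ → ℝ}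
    (hc : ∀ j ∈ Finset.Ico lo hi, c j ≤ C * v) :
    ∑ j ∈ Finset.Ico lo hi, c j * ta (fun _ => 1) L l₀ h j ≤ C / (n * μ) * (2 + 2 * t) *
      (rho (fun _ => 1) L l₀ h hi - rho (fun _ => 1) L l₀ h lo) := by
  have hn : (0 : ℝ) < n := Nat.cast_pos.2 H.pos
  refine (H.dt h₀).ta_win h hl hh (by positivity) (fun j hj => (hc j hj).trans ?_)
    fun j hj => by rw [mul_one]; exact h3 j hj
  have := mul_le_mul_of_nonneg_left (h2 j hj) (by positivity : 0 ≤ C / μ)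
  calc C * v = C / μ * (μ * v) := by field_simp
    _ ≤ C / μ * dh j := this
    _ = _ := by field_simp

end Crest.Agent.T156.Cas.Q33

end
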