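import Crest.Agent.T156.L0_49

/-!
Row 156 (helper49): leaf L-d of docs/T156_69.md in the LIST frame: strict convexity of
`G = E Φ_xx²` across a label-poor interval, equal-area rule, Plefka gaps and floor gaps.
-/

set_option autoImplicit false

namespace Crest.Agent.T156.L0

open MeasureTheory Set Filter Topology
open Crest.Agent.R164.GC Crest.Agent.R339.B Crest.Agent.R339.Var Crest.Agent.T157.Pf
open Crest.Agent.T156.Pp Crest.Agent.T156.Pp.Ode3 Crest.Agent.T156.Str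

noncomputable section

variable {l : List (ℝ × ℝ)} {T : ℝ}

/-- the convexity margin -/
def kc (T : ℝ) : ℝ := kp T * Real.exp (-(4 * T))

theorem kc_pos (T : ℝ) : 0 < kc T := mul_pos (kp_pos T) (Real.exp_pos _)

/-- `N' - 2 ζ A' ≥ κ` -/
theorem strictL (h : AP l) (hT : TT l ≤ T) {t : ℝ} (h0 : 0 ≤ t) (h1 : t < TT l) :
    kc T ≤ (N4 l t - 6 * lvr 1 l t * Bm l t) -
      2 * lvr 1 l t * (3 * Bm l t - 3 * lvr 1 l t * A4 l t) := by
  have a : 0 ≤ Et (NJ (lvr 1 l t) (kp T)) l t := EX_NJ h.adm h.pos hT h0 h1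
  rw [Et_lin (bfn_W2' (2 * lvr 1 l t)) bfn_Q4 1 (6 * lvr 1 l t ^ 2 - kp T)
      (fun Φ y => by unfold NJ W2' Q4; ring),
    Et_lin bfn_W3 bfn_B3 1 (-(12 * lvr 1 l t)) (fun Φ y => by unfold W2' Pp.W3 B3; ring)] at a
  have b := mul_le_mul_of_nonneg_left (A4_ge h hT ⟨h0, h1.le⟩) (kp_pos T).le
  unfold kc
  unfold N4 Bm A4 at *
  nlinarith

/-- crude increments of `G'` -/
theorem Gd_crude (h : AP l) (hT : TT l ≤ T) {s t : ℝ} (h0 : 0 ≤ s) (hst : s ≤ t) (ht : t ≤ TT l) :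
    (kc T - 6 * (lvr 1 l t - lvr 1 l s)) * (t - s) - 2 * (lvr 1 l t - lvr 1 l s) ≤
      Gd l t - Gd l s := by
  set c := lvr 1 l s with hc
  set D := lvr 1 l t - c with hD
  have := le_of_rder (f := fun r => (kc T - 6 * D) * r - (Nm l r - 2 * c * Am l r)) hst
    ((by fun_prop : ContinuousOn (fun r => (kc T - 6 * D) * r) _).sub
      (((Nm_cont h).sub (continuousOn_const.mul (Am_cont h))).mono (Icc_subset_Icc h0 ht)))
    (fun r hr => ((hasDerivWithinAt_id r _).const_mul (kc T - 6 * D)).sub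
      ((Nm_rder h (h0.trans hr.1) (hr.2.trans_le ht)).sub
        ((Am_rder h (h0.trans hr.1) (hr.2.trans_le ht)).const_mul (2 * c))))
    (fun r hr => by
      have a1 := strictL h hT (h0.trans hr.1) (hr.2.trans_le ht)
      have m1 : c ≤ lvr 1 l r := lvr_mono h.adm hr.1
      have m2 : lvr 1 l r ≤ lvr 1 l t := lvr_mono h.adm hr.2.le
      have a2 := Bm_nonneg h.adm r
      have a3 := mul_le_one₀ (lvr_le_one h.adm r) (A4_nonneg h.adm r) (A4_le_one h.adm r)
      have a4 : 0 ≤ (lvr 1 l r - c) * (3 * Bm l r - 3 * lvr 1 l r * A4 l r + 3) :=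
        mul_nonneg (by linarith) (by linarith)
      nlinarith)
  have a5 : D * Am l t ≤ D := mul_le_of_le_one_right (by
    rw [hD]; linarith [lvr_mono h.adm hst]) (Am_le_one h.adm t)
  unfold Gd
  rw [← hc, show lvr 1 l t = c + D by rw [hD]; ring]
  nlinarith

/-- **sharp increments of `G'`**: `dG' ≥ κ dt - 2 dζ` -/
theorem Gd_mono (h : AP l) (hT : TT l ≤ T) {s t : ℝ} (h0 : 0 ≤ s) (hst : s ≤ t) (ht : t ≤ TT l) :
    kc T * (t - s) - 2 * (lvr 1 l t - lvr 1 l s) ≤ Gd l t - Gd l s := by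
  have key : ∀ n : ℕ, ∀ δ : ℝ, 0 ≤ δ → s + n * δ ≤ TT l →
      kc T * (n * δ) - (6 * δ + 2) * (lvr 1 l (s + n * δ) - lvr 1 l s) ≤
        Gd l (s + n * δ) - Gd l s := by
    intro n δ hδ
    induction n with
    | zero => intro _; simp
    | succ n ih =>
      intro hn
      push_cast at hn ⊢
      have n0 : 0 ≤ (n : ℝ) * δ := by positivity
      have a1 := ih (by nlinarith)
      have a2 := Gd_crude h hT (s := s + n * δ) (t := s + (n + 1) * δ) (by linarith)
        (by nlinarith) hn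
      nlinarith
  have lim : Tendsto (fun n : ℕ => kc T * (t - s) -
      (6 * ((t - s) / ((n : ℝ) + 1)) + 2) * (lvr 1 l t - lvr 1 l s)) atTop
      (𝓝 (kc T * (t - s) - (6 * 0 + 2) * (lvr 1 l t - lvr 1 l s))) := by
    refine tendsto_const_nhds.sub ((((Tendsto.const_mul 6 ?_).add_const 2)).mul_const _)
    exact tendsto_const_nhds.div_atTop (tendsto_natCast_atTop_atTop.atTop_add tendsto_const_nhds)
  rw [mul_zero, zero_add] at lim
  refine le_of_tendsto' lim fun n => ?_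
  have e : ((n + 1 : ℕ) : ℝ) * ((t - s) / ((n : ℝ) + 1)) = t - s := by
    push_cast
    field_simp
  have := key (n + 1) ((t - s) / ((n : ℝ) + 1)) (div_nonneg (by linarith) (by positivity))
    (by rw [e]; linarith)
  rwa [e, add_sub_cancel] at this

theorem dquad (p q u r : ℝ) :
    HasDerivAt (fun r => p * (r - u) + q / 2 * (r - u) ^ 2) (p + q * (r - u)) r := by
  have := (((hasDerivAt_id' r).sub_const u).const_mul p).add
    ((((hasDerivAt_id' r).sub_const u).pow 2).const_mul (q / 2))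
  exact this.congr_deriv (by norm_num; ring)

/-- growth of `G` to the right of `u` -/
theorem Gp_right (h : AP l) (hT : TT l ≤ T) {u t Z : ℝ} (h0 : 0 ≤ u) (hut : u ≤ t) (ht : t ≤ TT l)
    (hZ : ∀ r ∈ Ico u t, lvr 1 l r ≤ Z) :
    (Gd l u - 2 * (Z - lvr 1 l u)) * (t - u) + kc T / 2 * (t - u) ^ 2 ≤ Gp l t - Gp l u := by
  have := le_of_rder (f := fun r => ((Gd l u - 2 * (Z - lvr 1 l u)) * (r - u) +
      kc T / 2 * (r - u) ^ 2) - Gp l r) hut
    ((by fun_prop : ContinuousOn (fun r => (Gd l u - 2 * (Z - lvr 1 l u)) * (r - u) +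
      kc T / 2 * (r - u) ^ 2) _).sub ((Gp_cont h).mono (Icc_subset_Icc h0 ht)))
    (fun r hr => (dquad _ _ u r).hasDerivWithinAt.sub
      (Gp_rder h (h0.trans hr.1) (hr.2.trans_le ht)))
    (fun r hr => by
      have a := Gd_mono h hT h0 hr.1 (hr.2.le.trans ht)
      have b := hZ r hr
      unfold Gd at a ⊢
      linarith)
  simp only [sub_self] at this
  linarith

/-- growth of `G` to the left of `u` -/
theorem Gp_left (h : AP l) (hT : TT l ≤ T) {s u : ℝ} (h0 : 0 ≤ s) (hsu : s ≤ u) (hu : u ≤ TT l) :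
    Gp l u - Gp l s ≤
      (Gd l u + 2 * (lvr 1 l u - lvr 1 l s)) * (u - s) - kc T / 2 * (u - s) ^ 2 := by
  have := le_of_rder (f := fun r => Gp l r - ((Gd l u + 2 * (lvr 1 l u - lvr 1 l s)) * (r - u) +
      kc T / 2 * (r - u) ^ 2)) hsu
    (((Gp_cont h).mono (Icc_subset_Icc h0 hu)).sub (by fun_prop))
    (fun r hr => (Gp_rder h (h0.trans hr.1) (hr.2.trans_le hu)).sub
      (dquad _ _ u r).hasDerivWithinAt)
    (fun r hr => by
      have a := Gd_mono h hT (h0.trans hr.1) hr.2.le hu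
      have b : lvr 1 l s ≤ lvr 1 l r := lvr_mono h.adm hr.1
      unfold Gd at a ⊢
      linarith)
  simp only [sub_self] at this
  nlinarith

/-- **strict convexity of `G`** on `[s,t]` up to the label move `D` -/
theorem conv (h : AP l) (hT : TT l ≤ T) {s t u D : ℝ} (h0 : 0 ≤ s) (ht : t ≤ TT l)
    (hD : ∀ r ∈ Ico s t, lvr 1 l r ≤ lvr 1 l s + D) (hu : u ∈ Icc s t) :
    (t - s) * Gp l u ≤ (t - u) * Gp l s + (u - s) * Gp l t -
      (kc T / 2 * (t - s) - 2 * D) * ((u - s) * (t - u)) := by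
  have a := Gp_right h hT (h0.trans hu.1) hu.2 ht (Z := lvr 1 l s + D)
    fun r hr => hD r ⟨hu.1.trans hr.1, hr.2⟩
  have b := Gp_left h hT h0 hu.1 (hu.2.trans ht)
  have a1 := mul_le_mul_of_nonneg_left a (sub_nonneg.2 hu.1)
  have b1 := mul_le_mul_of_nonneg_left b (sub_nonneg.2 hu.2)
  nlinarith

/-- **equal-area rule** -/
theorem area (h : AP l) (hT : TT l ≤ T) {s t D : ℝ} (h0 : 0 ≤ s) (hst : s ≤ t) (ht : t ≤ TT l)
    (hD : ∀ r ∈ Ico s t, lvr 1 l r ≤ lvr 1 l s + D) :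
    Gam l t - Gam l s ≤ (t - s) * (Gp l s + Gp l t) / 2 - kc T / 12 * (t - s) ^ 3 +
      D / 3 * (t - s) ^ 2 := by
  rcases hst.eq_or_lt with rfl | hlt
  · simp
  set L := t - s with hL
  set w := kc T / 2 * L - 2 * D with hw
  have L0 : 0 < L := by rw [hL]; linarith
  have dp : ∀ r, HasDerivAt (fun r => (L * (r - s) - (r - s) ^ 2 / 2) * Gp l s +
      (r - s) ^ 2 / 2 * Gp l t - w * (L * (r - s) ^ 2 / 2 - (r - s) ^ 3 / 3))
      ((t - r) * Gp l s + (r - s) * Gp l t - w * ((r - s) * (t - r))) r := fun r => by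
    have d := (hasDerivAt_id' r).sub_const s
    have := ((((d.const_mul L).sub ((d.pow 2).div_const 2)).mul_const (Gp l s)).add
      (((d.pow 2).div_const 2).mul_const (Gp l t))).sub
      (((((d.pow 2).const_mul L).div_const 2).sub ((d.pow 3).div_const 3)).const_mul w)
    refine this.congr_deriv ?_
    have e : t = s + L := by rw [hL]; ring
    rw [e]
    push_cast
    ring
  have := le_of_rder (f := fun r => L * Gam l r - ((L * (r - s) - (r - s) ^ 2 / 2) * Gp l s +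
      (r - s) ^ 2 / 2 * Gp l t - w * (L * (r - s) ^ 2 / 2 - (r - s) ^ 3 / 3))) hst
    ((continuousOn_const.mul ((Gam_cont h).mono (Icc_subset_Icc h0 ht))).sub (by fun_prop))
    (fun r hr => ((Gam_rder h (h0.trans hr.1) (hr.2.trans_le ht)).const_mul L).sub
      (dp r).hasDerivWithinAt)
    (fun r hr => by
      have := conv h hT h0 ht hD ⟨hr.1, hr.2.le⟩
      rw [← hL, ← hw] at this
      linarith)
  simp only [sub_self, ← hL] at this
  refine le_of_mul_le_mul_left ?_ L0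
  rw [hw] at this
  nlinarith

/-- **(a) Plefka gaps**: `b G ≤ 1 + g` at both ends, `b ΔΓ ≥ Δσ - δ` -/
theorem gap_plefka (h : AP l) (hT : TT l ≤ T) {b s t D g δ : ℝ} (hb : 0 ≤ b) (h0 : 0 ≤ s)
    (hst : s ≤ t) (ht : t ≤ TT l) (hD : ∀ r ∈ Ico s t, lvr 1 l r ≤ lvr 1 l s + D)
    (h1 : b * Gp l s ≤ 1 + g) (h2 : b * Gp l t ≤ 1 + g)
    (hδ : t - s - δ ≤ b * (Gam l t - Gam l s)) :
    b * kc T / 12 * (t - s) ^ 3 ≤ g * (t - s) + δ + b * D / 3 * (t - s) ^ 2 := by
  have a := mul_le_mul_of_nonneg_left (area h hT h0 hst ht hD) hb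
  have a1 := mul_le_mul_of_nonneg_left (add_le_add h1 h2) (sub_nonneg.2 hst)
  nlinarith

/-- `G` inside a gap -/
theorem Gp_inside (h : AP l) (hT : TT l ≤ T) {s t u D M : ℝ} (h0 : 0 ≤ s) (ht : t ≤ TT l)
    (hD0 : 0 ≤ D) (hD : ∀ r ∈ Ico s t, lvr 1 l r ≤ lvr 1 l s + D) (h1 : Gp l s ≤ M)
    (h2 : Gp l t ≤ M) (hu : u ∈ Icc s t) : Gp l u ≤ M + D / 2 * (t - s) := by
  rcases (hu.1.trans hu.2).eq_or_lt with rfl | hlt
  · rw [le_antisymm hu.2 hu.1]; simpa using h1
  have a := conv h hT h0 ht hD hu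
  have p1 := sub_nonneg.2 hu.1
  have p2 := sub_nonneg.2 hu.2
  have a1 := mul_le_mul_of_nonneg_left h1 p2
  have a2 := mul_le_mul_of_nonneg_left h2 p1
  have a3 : 0 ≤ kc T / 2 * (t - s) * ((u - s) * (t - u)) := by
    have := kc_pos T
    have : 0 ≤ t - s := by linarith
    positivity
  have a4 := mul_le_mul_of_nonneg_left
    (show 4 * ((u - s) * (t - u)) ≤ (t - s) ^ 2 by nlinarith [sq_nonneg (u - s - (t - u))]) hD0
  refine le_of_mul_le_mul_left ?_ (sub_pos.2 hlt)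
  nlinarith

/-- increments of `ρ = b Γ - σ` from an upper bound on `b G` -/
theorem rho_le (h : AP l) {b s t g : ℝ} (h0 : 0 ≤ s) (hst : s ≤ t) (ht : t ≤ TT l)
    (hg : ∀ r ∈ Ico s t, b * Gp l r ≤ 1 + g) :
    (b * Gam l t - t) - (b * Gam l s - s) ≤ g * (t - s) := by
  have := le_of_rder (f := fun r => b * Gam l r - (1 + g) * r) hst
    ((continuousOn_const.mul ((Gam_cont h).mono (Icc_subset_Icc h0 ht))).sub (by fun_prop))
    (fun r hr => ((Gam_rder h (h0.trans hr.1) (hr.2.trans_le ht)).const_mul b).sub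
      ((hasDerivWithinAt_id r _).const_mul (1 + g)))
    (fun r hr => by linarith [hg r hr])
  linarith

/-- increments of `ρ = b Γ - σ` from a lower bound on `b G` -/
theorem le_rho (h : AP l) {b s t g : ℝ} (h0 : 0 ≤ s) (hst : s ≤ t) (ht : t ≤ TT l)
    (hg : ∀ r ∈ Ico s t, 1 + g ≤ b * Gp l r) :
    g * (t - s) ≤ (b * Gam l t - t) - (b * Gam l s - s) := by
  have := le_of_rder (f := fun r => (1 + g) * r - b * Gam l r) hst
    ((by fun_prop : ContinuousOn (fun r => (1 + g) * r) _).sub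
      (continuousOn_const.mul ((Gam_cont h).mono (Icc_subset_Icc h0 ht))))
    (fun r hr => ((hasDerivWithinAt_id r _).const_mul (1 + g)).sub
      ((Gam_rder h (h0.trans hr.1) (hr.2.trans_le ht)).const_mul b))
    (fun r hr => by linarith [hg r hr])
  linarith

/-- **(a) residual inside a Plefka gap** -/
theorem res_plefka (h : AP l) (hT : TT l ≤ T) {b s t u D g : ℝ} (hb : 0 < b) (h0 : 0 ≤ s)
    (ht : t ≤ TT l) (hD0 : 0 ≤ D) (hD : ∀ r ∈ Ico s t, lvr 1 l r ≤ lvr 1 l s + D)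
    (h1 : b * Gp l s ≤ 1 + g) (h2 : b * Gp l t ≤ 1 + g) (hu : u ∈ Icc s t) :
    b * Gam l u - u ≤ (b * Gam l s - s) + (g + b * D / 2 * (t - s)) * (u - s) ∧
      (b * Gam l t - t) - (g + b * D / 2 * (t - s)) * (t - u) ≤ b * Gam l u - u := by
  have H : ∀ r ∈ Icc s t, b * Gp l r ≤ 1 + (g + b * D / 2 * (t - s)) := fun r hr => by
    have := mul_le_mul_of_nonneg_left (Gp_inside h hT (M := (1 + g) / b) h0 ht hD0 hD
      ((le_div_iff₀' hb).2 h1) ((le_div_iff₀' hb).2 h2) hr) hb.le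
    rw [mul_add, mul_div_cancel₀ _ hb.ne'] at this
    linarith
  constructor
  · linarith [rho_le h h0 hu.1 (hu.2.trans ht) fun r hr => H r ⟨hr.1, hr.2.le.trans hu.2⟩]
  · linarith [rho_le h (h0.trans hu.1) hu.2 ht fun r hr => H r ⟨hu.1.trans hr.1, hr.2.le⟩]

/-- **(b) floor gaps**: a long gap `[s,t]` inside a label-poor stretch `[s',t']` makes
`ρ = b Γ - σ` increase over `[t,t']` or over `[s',s]`. -/
theorem gap_floor (h : AP l) (hT : TT l ≤ T) {b s' s t t' D δ : ℝ} (hb : 0 ≤ b) (h0 : 0 ≤ s')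
    (h1 : s' ≤ s) (hst : s < t) (h2 : t ≤ t') (ht : t' ≤ TT l)
    (hD : lvr 1 l t' ≤ lvr 1 l s' + D) (hκ : 8 * D ≤ kc T * (t - s))
    (hδ : t - s - δ ≤ b * (Gam l t - Gam l s)) :
    (b * kc T / 24 * (t - s) ^ 2 - δ / (t - s)) * (t' - t) ≤
        (b * Gam l t' - t') - (b * Gam l t - t) ∨
      (b * kc T / 24 * (t - s) ^ 2 - δ / (t - s)) * (s - s') ≤
        (b * Gam l s - s) - (b * Gam l s' - s') := by
  have m := lvr_mono h.adm
  have k0 := kc_pos T
  have L0 : 0 < t - s := sub_pos.2 hst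
  have s0 : 0 ≤ s := h0.trans h1
  have tT : t ≤ TT l := h2.trans ht
  have z1 : lvr 1 l s' ≤ lvr 1 l s := m h1
  have z2 : lvr 1 l s ≤ lvr 1 l t := m hst.le
  have z3 : lvr 1 l t ≤ lvr 1 l t' := m h2
  have a := mul_le_mul_of_nonneg_left (area h hT (D := D) s0 hst.le tT fun r hr => by
    have : lvr 1 l r ≤ lvr 1 l t := m hr.2.le
    linarith) hb
  set g := b * kc T / 24 * (t - s) ^ 2 - δ / (t - s) with hg
  have a1 : 2 * (1 + g) ≤ b * Gp l s + b * Gp l t := by
    refine le_of_mul_le_mul_left ?_ L0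
    have e : (t - s) * (δ / (t - s)) = δ := mul_div_cancel₀ _ L0.ne'
    have a2 := mul_le_mul_of_nonneg_left hκ (by positivity : 0 ≤ b * (t - s) ^ 2)
    rw [hg]
    nlinarith
  rcases le_total (Gp l s) (Gp l t) with hc | hc
  · left
    have b1 := Gp_left h hT s0 hst.le tT
    have b2 : kc T / 2 * (t - s) ≤ Gd l t + 2 * (lvr 1 l t - lvr 1 l s) := by
      refine le_of_mul_le_mul_right ?_ L0
      nlinarith
    refine le_rho h (s0.trans hst.le) h2 ht fun r hr => ?_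
    have b3 := Gp_right h hT (s0.trans hst.le) hr.1 (hr.2.le.trans ht) (Z := lvr 1 l t')
      fun v hv => m (hv.2.le.trans hr.2.le)
    have b4 : 0 ≤ (Gd l t - 2 * (lvr 1 l t' - lvr 1 l t)) * (r - t) :=
      mul_nonneg (by linarith) (sub_nonneg.2 hr.1)
    have b5 : 0 ≤ kc T / 2 * (r - t) ^ 2 := by positivity
    have b6 := mul_le_mul_of_nonneg_left (show Gp l t ≤ Gp l r by linarith) hb
    have b7 := mul_le_mul_of_nonneg_left hc hb
    linarith
  · right
    have b1 := Gp_right h hT s0 hst.le tT (Z := lvr 1 l t) fun v hv => m hv.2.le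
    have b2 : Gd l s - 2 * (lvr 1 l t - lvr 1 l s) ≤ -(kc T / 2 * (t - s)) := by
      refine le_of_mul_le_mul_right ?_ L0
      nlinarith
    refine le_rho h h0 h1 (hst.le.trans tT) fun r hr => ?_
    have b3 := Gp_left h hT (h0.trans hr.1) hr.2.le (hst.le.trans tT)
    have z4 : lvr 1 l s' ≤ lvr 1 l r := m hr.1
    have b4 : (Gd l s + 2 * (lvr 1 l s - lvr 1 l r)) * (s - r) ≤ 0 :=
      mul_nonpos_of_nonpos_of_nonneg (by linarith) (sub_nonneg.2 hr.2.le)
    have b5 : 0 ≤ kc T / 2 * (s - r) ^ 2 := by positivity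
    have b6 := mul_le_mul_of_nonneg_left (show Gp l s ≤ Gp l r by linarith) hb
    have b7 := mul_le_mul_of_nonneg_left hc hb
    linarith

/-! ### oscillation of `G'` and the residual inside a floor gap -/

/-- `G'` increases at most linearly -/
theorem Gd_up (T : ℝ) : ∃ C : ℝ, 1 ≤ C ∧ ∀ l : List (ℝ × ℝ), AP l → TT l ≤ T → ∀ s t : ℝ, 0 ≤ s →
    s ≤ t → t ≤ TT l → |Gd l t - Gd l s| ≤ C * (t - s) + 2 * (lvr 1 l t - lvr 1 l s) := by
  obtain ⟨C, c1, hC⟩ := Dn_PhiT T 3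
  refine ⟨C ^ 2 + 24, by nlinarith, fun l h hT s t h0 hst ht => ?_⟩
  set c := lvr 1 l s with hc
  have c0 : 0 < c := lvr_pos h.adm s
  have c1' : c ≤ 1 := lvr_le_one h.adm s
  have m : c ≤ lvr 1 l t := lvr_mono h.adm hst
  have := le_of_rder (f := fun r => (Nm l r - 2 * c * Am l r) - (C ^ 2 + 24) * r) hst
    ((((Nm_cont h).sub (continuousOn_const.mul (Am_cont h))).mono (Icc_subset_Icc h0 ht)).sub
      (by fun_prop))
    (fun r hr => ((Nm_rder h (h0.trans hr.1) (hr.2.trans_le ht)).sub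
      ((Am_rder h (h0.trans hr.1) (hr.2.trans_le ht)).const_mul (2 * c))).sub
      ((hasDerivWithinAt_id r _).const_mul (C ^ 2 + 24)))
    (fun r hr => by
      have a1 : N4 l r ≤ C ^ 2 := Et_le bfn_W3 fun y => by
        have := pow_le_pow_left₀ (abs_nonneg _) (hC l h.adm hT r (h0.trans hr.1) 3 le_rfl y) 2
        rwa [sq_abs] at this
      have a2 := mul_nonneg (lvr_pos h.adm r).le (Bm_nonneg h.adm r)
      have a3 := (abs_le.1 (Am_der_le h.adm r)).1
      nlinarith)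
  have a1 := Gd_mono h hT h0 hst ht
  have a2 := mul_nonneg (kc_pos T).le (sub_nonneg.2 hst)
  have a3 := mul_nonneg (sub_nonneg.2 m) (Am_nonneg h.adm t)
  have a4 := mul_nonneg (by positivity : 0 ≤ C ^ 2 + 24) (sub_nonneg.2 hst)
  rw [abs_le]
  constructor
  · linarith
  · unfold Gd
    rw [← hc]
    nlinarith

/-- residual inside an interval on which `|G'| ≤ K` -/
theorem res_inside (h : AP l) {b s t u K : ℝ} (hb : 0 ≤ b) (h0 : 0 ≤ s) (ht : t ≤ TT l)
    (hK : ∀ r ∈ Ico s t, |Gd l r| ≤ K) (hu : u ∈ Icc s t) :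
    |(b * Gam l u - u) - (b * Gam l s - s)| ≤
      |(b * Gam l t - t) - (b * Gam l s - s)| + b * (K * (t - s) ^ 2) := by
  have hst := hu.1.trans hu.2
  rcases hst.eq_or_lt with rfl | hlt
  · rw [le_antisymm hu.2 hu.1]; simp
  have L0 := sub_pos.2 hlt
  have K0 : 0 ≤ K := (abs_nonneg _).trans (hK s ⟨le_rfl, hlt⟩)
  have lip : ∀ r ∈ Icc s t, ∀ r' ∈ Icc s t, |Gp l r - Gp l r'| ≤ K * (t - s) := fun r hr r' hr' =>
    (abs_sub_le_of_rder (f' := Gd l) ((Gp_cont h).mono (Icc_subset_Icc h0 ht))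
      (fun v hv => Gp_rder h (h0.trans hv.1) (hv.2.trans_le ht)) hr' hr fun v hv =>
        hK v ⟨(le_min hr'.1 hr.1).trans hv.1, hv.2.trans_le (max_le hr'.2 hr.2)⟩).trans
      (mul_le_mul_of_nonneg_left (by
        rw [abs_le]; constructor <;> linarith [hr.1, hr.2, hr'.1, hr'.2]) K0)
  set E := |(b * Gam l t - t) - (b * Gam l s - s)| + b * (K * (t - s) ^ 2) with hE
  have pt : ∀ r ∈ Icc s t, |b * Gp l r - 1| ≤ E / (t - s) := fun r hr => by
    have a := abs_sub_le_of_rder (f := fun v => Gam l v - Gp l r * v) (C := K * (t - s))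
      (((Gam_cont h).mono (Icc_subset_Icc h0 ht)).sub (by fun_prop))
      (fun v hv => (Gam_rder h (h0.trans hv.1) (hv.2.trans_le ht)).sub
        ((hasDerivWithinAt_id v _).const_mul (Gp l r))) ⟨le_rfl, hst⟩ ⟨hst, le_rfl⟩
      (fun v hv => by
        rw [min_eq_left hst, max_eq_right hst] at hv
        rw [mul_one]
        exact lip v ⟨hv.1, hv.2.le⟩ r hr)
    rw [abs_of_pos L0] at a
    have a1 := abs_le.1 a
    have a2 := mul_le_mul_of_nonneg_left a1.1 hb
    have a3 := mul_le_mul_of_nonneg_left a1.2 hb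
    have a4 := le_abs_self ((b * Gam l t - t) - (b * Gam l s - s))
    have a5 := neg_abs_le ((b * Gam l t - t) - (b * Gam l s - s))
    rw [le_div_iff₀ L0, ← abs_of_pos L0, ← abs_mul, abs_le, hE]
    constructor <;> nlinarith
  have := abs_sub_le_of_rder (f := fun r => b * Gam l r - r) (C := E / (t - s))
    ((continuousOn_const.mul ((Gam_cont h).mono (Icc_subset_Icc h0 ht))).sub continuousOn_id)
    (fun r hr => ((Gam_rder h (h0.trans hr.1) (hr.2.trans_le ht)).const_mul b).sub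
      (hasDerivWithinAt_id r _)) ⟨le_rfl, hst⟩ hu (fun r hr => by
      rw [min_eq_left hu.1, max_eq_right hu.1] at hr
      exact pt r ⟨hr.1, hr.2.le.trans hu.2⟩)
  refine this.trans ?_
  have E0 : 0 ≤ E := by positivity
  rw [abs_of_nonneg (sub_nonneg.2 hu.1), div_mul_eq_mul_div, div_le_iff₀ L0]
  exact mul_le_mul_of_nonneg_left (by linarith [hu.2]) E0

end

end Crest.Agent.T156.L0
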