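import Crest.Agent.T156.RigI_63
import Crest.Agent.T156.HmC_32
import Crest.Agent.T156.L0B_49

/-!
# Row 156: rigidity from good times (helper63)

`|ν|` is bounded from the difference form of the cavity equation and almost nonnegative mass at a
`Γ`-dense set of good times; list instance, and the relation `ν - ν₀ = 2 b A u + O(H⁻¹)`.
-/

set_option autoImplicit false

namespace Crest.Agent.T156.Rig

open Set Real MeasureTheory Filter Topology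
open Crest.Agent.R164.GC Crest.Agent.R339.B Crest.Agent.R339.Var Crest.Agent.T157.Pf
open Crest.Agent.T156.Pp Crest.Agent.T156.Pp.Ode3

noncomputable section

/-- good times are `Γ`-dense in `[a, c]` -/
structure Net {ι : Type} (g : ι → ℝ) (Gn : ι → Prop) (a c Γ : ℝ) : Prop where
  up : ∀ t ∈ Icc a c, ∃ i, Gn i ∧ t ≤ g i ∧ g i ≤ t + Γ ∧ g i ≤ c
  dn : ∀ t ∈ Icc a c, ∃ i, Gn i ∧ t - Γ ≤ g i ∧ g i ≤ t ∧ a ≤ g i

theorem Net.mono {ι : Type} {g : ι → ℝ} {Gn Gn' : ι → Prop} {a c Γ Γ' : ℝ} (h : Net g Gn a c Γ)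
    (hG : ∀ i, Gn i → Gn' i) (hΓ : Γ ≤ Γ') : Net g Gn' a c Γ' :=
  ⟨fun t ht => let ⟨i, a1, a2, a3, a4⟩ := h.up t ht; ⟨i, hG i a1, a2, by linarith, a4⟩,
    fun t ht => let ⟨i, a1, a2, a3, a4⟩ := h.dn t ht; ⟨i, hG i a1, by linarith, a3, a4⟩⟩

/-- consecutive good nodes at distance `≤ Γ` -/
theorem net_of_good {σ : ℕ → ℝ} {Gn : ℕ → Prop} {u v : ℕ} {Γ : ℝ} (huv : u ≤ v) (hΓ : 0 ≤ Γ)
    (hm : ∀ i j, u ≤ i → i ≤ j → j ≤ v → σ i ≤ σ j) (hu : Gn u) (hv : Gn v)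
    (hg : ∀ i j, u ≤ i → i < j → j ≤ v → Gn i → Gn j → (∀ k, i < k → k < j → ¬ Gn k) →
      σ j - σ i ≤ Γ) : Net σ (fun i => Gn i ∧ u ≤ i ∧ i ≤ v) (σ u) (σ v) Γ := by
  classical
  have key : ∀ t ∈ Icc (σ u) (σ v), ∃ i j, (Gn i ∧ u ≤ i ∧ i ≤ v) ∧ (Gn j ∧ u ≤ j ∧ j ≤ v) ∧
      σ i ≤ t ∧ t ≤ σ j ∧ σ j - σ i ≤ Γ := by
    intro t ht
    have hex : ∃ j, (Gn j ∧ u ≤ j ∧ j ≤ v) ∧ t ≤ σ j := ⟨v, ⟨hv, huv, le_rfl⟩, ht.2⟩
    obtain ⟨j1, j2⟩ := Nat.find_spec hex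
    set j := Nat.find hex with hj
    rcases j1.2.1.eq_or_lt with e | e
    · exact ⟨j, j, j1, j1, by rw [← e]; exact ht.1, j2, by linarith⟩
    · have s := Nat.findGreatest_spec (P := fun k => Gn k ∧ u ≤ k) (show u ≤ j - 1 by omega)
        ⟨hu, le_rfl⟩
      have s' := Nat.findGreatest_le (P := fun k => Gn k ∧ u ≤ k) (j - 1)
      set i := Nat.findGreatest (fun k => Gn k ∧ u ≤ k) (j - 1) with hi
      have i1 : Gn i ∧ u ≤ i ∧ i ≤ v := ⟨s.1, s.2, by omega⟩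
      refine ⟨i, j, i1, j1, ?_, j2, hg i j s.2 (by omega) j1.2.2 s.1 j1.1 fun k k1 k2 hk => ?_⟩
      · by_contra hc
        exact Nat.find_min hex (show i < j by omega) ⟨i1, (not_le.1 hc).le⟩
      · exact Nat.findGreatest_is_greatest (P := fun k => Gn k ∧ u ≤ k) k1 (by omega)
          ⟨hk, by omega⟩
  refine ⟨fun t ht => ?_, fun t ht => ?_⟩
  · obtain ⟨i, j, _, b, c, d, e⟩ := key t ht
    exact ⟨j, b, d, by linarith, hm _ _ b.2.1 b.2.2 le_rfl⟩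
  · obtain ⟨i, j, a, _, c, d, e⟩ := key t ht
    exact ⟨i, a, by linarith, c, hm _ _ le_rfl a.2.1 a.2.2⟩

/-- a monotone sequence with short gaps -/
theorem net_of_seq {g : ℕ → ℝ} {N : ℕ} {Γ : ℝ} (hΓ : 0 ≤ Γ)
    (hm : ∀ i j, i ≤ j → j ≤ N → g i ≤ g j) (hg : ∀ k < N, g (k + 1) - g k ≤ Γ) :
    Net g (fun i => i ≤ N) (g 0) (g N) Γ :=
  (net_of_good (Gn := fun _ => True) (Nat.zero_le N) hΓ (fun i j _ => hm i j) trivial trivial
    fun i j _ b c _ _ e => by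
      obtain rfl : j = i + 1 := by
        by_contra hc
        exact e (i + 1) (by omega) (by omega) trivial
      exact hg i c).mono (fun _ h => h.2.2) le_rfl

namespace PC2
variable {S : Finset ℝ} {a c : ℝ} {M μ ν : ℝ → ℝ}

theorem sub_const (h : PC2 S a c M μ ν) (k : ℝ) : PC2 S a c (fun t => M t - k) μ ν :=
  ⟨h.cW.sub continuousOn_const, h.cω, fun t ht hs => (h.dW t ht hs).sub_const k, h.dω⟩

theorem nu_le_pt (h : PC2 S a c M μ ν) {t p q Q η K ℓ Γ : ℝ} (hQ0 : 0 ≤ Q) (hη : 0 ≤ η)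
    (hK : 0 ≤ K) (hℓ : 0 < ℓ) (ha : a ≤ p) (hq : q ≤ c) (hΓ : p - t ≤ Γ) (h1 : ℓ ≤ q - p)
    (h2 : q - p ≤ ℓ + Γ) (hQ : M q - M p ≤ Q) (hμ : -η ≤ μ p)
    (hL : ∀ u ∈ Ioo p q, u ∉ S → -(2 * K * (u - t)) ≤ ν u - ν t) :
    ν t ≤ 2 * Q / ℓ ^ 2 + 2 * η / ℓ + 2 * K * (ℓ + 2 * Γ) := by
  have hT := (h.mono ha hq (Finset.Subset.refl _)).taylorL
    (A := -(ν t - 2 * K * Γ - 2 * K * (q - p))) (by linarith) fun u hu hS => by
      have a1 := hL u hu hS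
      have a3 : u - t ≤ Γ + (q - p) := by linarith [hu.2]
      nlinarith [mul_le_mul_of_nonneg_left a3 hK]
  refine Prof.fin_bd hQ0 hη hK hℓ h1 h2 ?_
  nlinarith [mul_le_mul_of_nonneg_right hμ (show 0 ≤ q - p by linarith)]

theorem le_nu_pt (h : PC2 S a c M μ ν) {t p q Q η K ℓ Γ : ℝ} (hQ0 : 0 ≤ Q) (hη : 0 ≤ η)
    (hK : 0 ≤ K) (hℓ : 0 < ℓ) (ha : a ≤ p) (hq : q ≤ c) (hΓ : t - q ≤ Γ) (h1 : ℓ ≤ q - p)
    (h2 : q - p ≤ ℓ + Γ) (hQ : M q - M p ≤ Q) (hμ : -η ≤ μ q)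
    (hL : ∀ u ∈ Ioo p q, u ∉ S → -(2 * K * (t - u)) ≤ ν t - ν u) :
    -ν t ≤ 2 * Q / ℓ ^ 2 + 2 * η / ℓ + 2 * K * (ℓ + 2 * Γ) := by
  have hT := (h.mono ha hq (Finset.Subset.refl _)).neg.taylorR
    (A := ν t + 2 * K * Γ + 2 * K * (q - p)) (by linarith) fun u hu hS => by
      have a1 := hL u hu hS
      have a3 : t - u ≤ Γ + (q - p) := by linarith [hu.1]
      show _ ≤ -ν u
      nlinarith [mul_le_mul_of_nonneg_left a3 hK]
  refine Prof.fin_bd hQ0 hη hK hℓ h1 h2 ?_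
  nlinarith [mul_le_mul_of_nonneg_right hμ (show 0 ≤ q - p by linarith)]

/-- **location from good times**, difference form -/
theorem abs_nu_net {ι : Type} {g : ι → ℝ} {Gn : ι → Prop} (h : PC2 S a c M μ ν)
    {t Q η K ℓ Γ : ℝ} (hN : Net g Gn a c Γ) (hΓ : 0 ≤ Γ) (hQ0 : 0 ≤ Q) (hη : 0 ≤ η) (hK : 0 ≤ K)
    (hℓ : 0 < ℓ)
    (hE : ∀ i j, Gn i → Gn j → a ≤ g i → g i ≤ g j → g j ≤ c → g j - g i ≤ ℓ + Γ →
      M (g j) - M (g i) ≤ Q)
    (hμ : ∀ i, Gn i → a ≤ g i → g i ≤ c → -η ≤ μ (g i))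
    (hU : ∀ u ∈ Ioo t c, u ∉ S → -(2 * K * (u - t)) ≤ ν u - ν t)
    (hD : ∀ u ∈ Ioo a t, u ∉ S → -(2 * K * (t - u)) ≤ ν t - ν u)
    (h1 : a + ℓ + Γ ≤ t) (h2 : t + ℓ + Γ ≤ c) :
    |ν t| ≤ 2 * Q / ℓ ^ 2 + 2 * η / ℓ + 2 * K * (ℓ + 2 * Γ) := by
  have ht : t ∈ Icc a c := ⟨by linarith, by linarith⟩
  refine abs_le.2 ⟨neg_le.1 ?_, ?_⟩
  · obtain ⟨j, j1, j2, j3, j4⟩ := hN.dn t ht
    obtain ⟨i, i1, i2, i3, i4⟩ := hN.dn (g j - ℓ) ⟨by linarith, by linarith⟩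
    exact h.le_nu_pt hQ0 hη hK hℓ i4 (j3.trans ht.2) (by linarith) (by linarith) (by linarith)
      (hE i j i1 j1 i4 (by linarith) (j3.trans ht.2) (by linarith)) (hμ j j1 j4 (j3.trans ht.2))
      fun u hu => hD u ⟨i4.trans_lt hu.1, hu.2.trans_le j3⟩
  · obtain ⟨i, i1, i2, i3, i4⟩ := hN.up t ht
    obtain ⟨j, j1, j2, j3, j4⟩ := hN.up (g i + ℓ) ⟨by linarith, by linarith⟩
    exact h.nu_le_pt hQ0 hη hK hℓ (ht.1.trans i2) j4 (by linarith) (by linarith) (by linarith)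
      (hE i j i1 j1 (ht.1.trans i2) (by linarith) j4 (by linarith)) (hμ i i1 (ht.1.trans i2) i4)
      fun u hu => hU u ⟨i2.trans_lt hu.1, hu.2.trans_le j4⟩

/-- the same for a sequence of good times, absolute form -/
theorem abs_nu_seq {g H : ℕ → ℝ} {N : ℕ} (h : PC2 S (g 0) (g N) M μ ν) {t err Hr η K ℓ Γ : ℝ}
    (hm : ∀ i j, i ≤ j → j ≤ N → g i ≤ g j) (hg : ∀ k < N, g (k + 1) - g k ≤ Γ) (hΓ : 0 ≤ Γ)
    (hη : 0 ≤ η) (hK : 0 ≤ K) (hℓ : 0 < ℓ) (hE : ∀ k ≤ N, |M (g k) - H k| ≤ err)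
    (hH : ∀ i ≤ N, ∀ j ≤ N, H j - H i ≤ Hr) (hμ : ∀ k ≤ N, -η ≤ μ (g k))
    (hL : ∀ s ∈ Ioo (g 0) (g N), ∀ u ∈ Ioo (g 0) (g N), s ≤ u → s ∉ S → u ∉ S →
      -(2 * K * (u - s)) ≤ ν u - ν s)
    (hS : t ∉ S) (h1 : g 0 + ℓ + Γ ≤ t) (h2 : t + ℓ + Γ ≤ g N) :
    |ν t| ≤ 2 * (Hr + 2 * err) / ℓ ^ 2 + 2 * η / ℓ + 2 * K * (ℓ + 2 * Γ) := by
  have e0 : 0 ≤ err := (abs_nonneg _).trans (hE 0 (Nat.zero_le _))
  have e1 := hH 0 (Nat.zero_le _) 0 (Nat.zero_le _)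
  have ht : t ∈ Ioo (g 0) (g N) := ⟨by linarith, by linarith⟩
  exact h.abs_nu_net (net_of_seq hΓ hm hg) hΓ (by linarith) hη hK hℓ
    (fun i j a1 a2 _ _ _ _ => by
      linarith [(abs_le.1 (hE i a1)).1, (abs_le.1 (hE j a2)).2, hH i a1 j a2])
    (fun i a1 _ _ => hμ i a1)
    (fun u hu hs => hL t ht u ⟨ht.1.trans hu.1, hu.2⟩ hu.1.le hS hs)
    (fun u hu hs => hL u ⟨hu.1, hu.2.trans ht.2⟩ t ht hu.2.le hs hS) h1 h2

/-- upper bound for `μ` at a good time -/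
theorem mu_le_net {ι : Type} {g : ι → ℝ} {Gn : ι → Prop} (h : PC2 S a c M μ ν) {Q A ℓ Γ : ℝ}
    (hN : Net g Gn a c Γ) (hQ0 : 0 ≤ Q) (hA : 0 ≤ A) (hℓ : 0 < ℓ) {p : ℝ} (ha : a ≤ p)
    (hw : p + ℓ ≤ c) (hE : ∀ j, Gn j → p ≤ g j → g j ≤ c → g j - p ≤ ℓ + Γ → M (g j) - M p ≤ Q)
    (hν : ∀ u ∈ Ioo p (p + ℓ + Γ), u < c → u ∉ S → -A ≤ ν u) :
    μ p ≤ Q / ℓ + A * (ℓ + Γ) / 2 := by
  obtain ⟨j, j1, j2, j3, j4⟩ := hN.up (p + ℓ) ⟨by linarith, hw⟩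
  have hT := (h.mono ha j4 (Finset.Subset.refl _)).taylorL (A := A) (by linarith)
    fun u hu hS => hν u ⟨hu.1, by linarith [hu.2]⟩ (hu.2.trans_le j4) hS
  have e := hE j j1 (by linarith) j4 (by linarith)
  have hs : 0 < g j - p := by linarith
  have a1 : μ p ≤ Q / (g j - p) + A * (g j - p) / 2 := by
    have : Q / (g j - p) + A * (g j - p) / 2 = (Q + A * (g j - p) ^ 2 / 2) / (g j - p) := by
      field_simp
    rw [this, le_div_iff₀ hs]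
    linarith
  have a2 : Q / (g j - p) ≤ Q / ℓ := div_le_div_of_nonneg_left hQ0 hℓ (by linarith)
  nlinarith [mul_le_mul_of_nonneg_left (show g j - p ≤ ℓ + Γ by linarith) hA]

end PC2

/-! ### lists -/

variable {l : List (ℝ × ℝ)}

/-- break points of a list -/
def brk : List (ℝ × ℝ) → Finset ℝ
  | [] => ∅
  | p :: l => insert p.2 ((brk l).image fun s => s + p.2)

theorem lvr_loc : ∀ (l : List (ℝ × ℝ)) {t : ℝ}, t ∉ brk l → ∀ᶠ u in 𝓝 t, lvr 1 l u = lvr 1 l t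
  | [], _, _ => Eventually.of_forall fun _ => rfl
  | p :: l, t, h => by
    simp only [brk, Finset.mem_insert, Finset.mem_image, not_or, not_exists, not_and] at h
    rcases lt_or_gt_of_ne h.1 with a | a
    · filter_upwards [Iio_mem_nhds a] with u hu
      simp only [lvr]
      rw [if_pos (show u < p.2 from hu), if_pos a]
    · have b := lvr_loc l (t := t - p.2) fun hm => h.2 _ hm (by ring)
      have c : Tendsto (fun u => u - p.2) (𝓝 t) (𝓝 (t - p.2)) :=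
        (continuous_id.sub continuous_const).tendsto t
      filter_upwards [Ioi_mem_nhds a, c.eventually b] with u hu hv
      simp only [lvr]
      rw [if_neg (not_lt.2 (le_of_lt hu)), if_neg (not_lt.2 a.le), hv]

/-- `M = t - b Γ` is piecewise `C²` on any part of `[0, T]` -/
theorem pc2_list (h : AP l) (b : ℝ) {S : Finset ℝ} (hS : brk l ⊆ S) {a c : ℝ} (ha : 0 ≤ a)
    (hc : c ≤ TT l) : PC2 S a c (Mf b l) (muf b l) (nuf b l) := by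
  have hs : Icc a c ⊆ Icc 0 (TT l) := Icc_subset_Icc ha hc
  refine ⟨continuousOn_id.sub (continuousOn_const.mul ((Gam_cont h).mono hs)),
    continuousOn_const.sub (continuousOn_const.mul ((Gp_cont h).mono hs)),
    fun t ht _ => ?_, fun t ht hS' => ?_⟩
  · have := der_of_right ((Gam_cont h).mono hs) ((Gp_cont h).mono hs)
      (fun u hu => Gam_rder h (ha.trans hu.1.le) (hu.2.trans_le hc)) ht
    exact (hasDerivAt_id' t).fun_sub (this.const_mul b)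
  · obtain ⟨p, q, h1, h2⟩ := mem_nhds_iff_exists_Ioo_subset.1 (lvr_loc l fun hm => hS' (hS hm))
    have s2 : Icc (max p a) (min q c) ⊆ Icc 0 (TT l) :=
      (Icc_subset_Icc (le_max_right _ _) (min_le_right _ _)).trans hs
    have := der_of_right (f' := fun u => Nm l u - 2 * lvr 1 l t * Am l u)
      ((Gp_cont h).mono s2) (((Nm_cont h).mono s2).sub
        (continuousOn_const.mul ((Am_cont h).mono s2)))
      (fun u hu => by
        have e : lvr 1 l u = lvr 1 l t :=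
          h2 ⟨(le_max_left _ _).trans_lt hu.1, hu.2.trans_le (min_le_left _ _)⟩
        rw [← e]
        exact Gp_rder h (s2 (Ioo_subset_Icc_self hu)).1
          (hu.2.trans_le ((min_le_right _ _).trans hc)))
      (show t ∈ Ioo (max p a) (min q c) from ⟨max_lt h1.1 ht.1, lt_min h1.2 ht.2⟩)
    refine ((this.const_mul b).const_sub 1).congr_deriv ?_
    unfold nuf
    ring

/-- the difference of two profiles -/
theorem pc2_pair {lb lh : List (ℝ × ℝ)} (hb : AP lb) (hh : AP lh) (b k : ℝ) {a c : ℝ} (ha : 0 ≤ a)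
    (h1 : c ≤ TT lb) (h2 : c ≤ TT lh) :
    PC2 (brk lb ∪ brk lh) a c (fun t => Mf b lb t - Mf b lh t - k)
      (fun t => muf b lb t - muf b lh t) fun t => nuf b lb t - nuf b lh t :=
  ((pc2_list hb b Finset.subset_union_left ha h1).sub
    (pc2_list hh b Finset.subset_union_right ha h2)).sub_const k

theorem nuf_eq (b : ℝ) (l : List (ℝ × ℝ)) (t : ℝ) : nuf b l t = -(b * L0.Gd l t) := by
  unfold nuf L0.Gd; ring

/-- **`Lo` at all times** -/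
theorem lo_list (h : AP l) {b C : ℝ} (hb : 0 ≤ b) (hC : ∀ t, 0 ≤ t → N4 l t ≤ C) {s t : ℝ}
    (h0 : 0 ≤ s) (hst : s ≤ t) (ht : t ≤ TT l) :
    -(2 * (b * (C + 24) / 2) * (t - s)) ≤ nuf b l t - nuf b l s := by
  set z := lvr 1 l s with hz
  have c0 : 0 < z := lvr_pos h.adm s
  have c1 : z ≤ 1 := lvr_le_one h.adm s
  have m : z ≤ lvr 1 l t := lvr_mono h.adm hst
  have a1 := le_of_rder (f := fun r => Nm l r - C * r) hst
    (((Nm_cont h).mono (Icc_subset_Icc h0 ht)).sub (by fun_prop))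
    (fun r hr => (Nm_rder h (h0.trans hr.1) (hr.2.trans_le ht)).sub
      ((hasDerivWithinAt_id r _).const_mul C)) fun r hr => by
      have := mul_nonneg (lvr_pos h.adm r).le (Bm_nonneg h.adm r)
      linarith [hC r (h0.trans hr.1)]
  have a2 := (abs_le.1 (Am_lip h ⟨h0, hst.trans ht⟩ ⟨h0.trans hst, ht⟩)).1
  rw [abs_of_nonneg (sub_nonneg.2 hst)] at a2
  have a3 := mul_nonneg (sub_nonneg.2 m) (Am_nonneg h.adm t)
  have a4 : -(12 * (t - s)) ≤ z * (Am l t - Am l s) := by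
    nlinarith [mul_le_mul_of_nonneg_left a2 c0.le, mul_nonneg (sub_nonneg.2 c1) (sub_nonneg.2 hst)]
  have a5 : -((C + 24) * (t - s)) ≤
      (2 * lvr 1 l t * Am l t - Nm l t) - (2 * z * Am l s - Nm l s) := by nlinarith
  unfold nuf
  nlinarith [mul_le_mul_of_nonneg_left a5 hb]

/-- **location of a profile from good times**, at every time of the middle window -/
theorem abs_nuf_le (T : ℝ) : ∃ C : ℝ, 1 ≤ C ∧ ∀ l : List (ℝ × ℝ), AP l → TT l ≤ T →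
    ∀ {ι : Type} (g : ι → ℝ) (Gn : ι → Prop) (b a c Q η ℓ Γ t : ℝ), 0 ≤ b → 0 ≤ a → c ≤ TT l →
      Net g Gn a c Γ → 0 ≤ Γ → 0 ≤ Q → 0 ≤ η → 0 < ℓ →
      (∀ i j, Gn i → Gn j → a ≤ g i → g i ≤ g j → g j ≤ c → g j - g i ≤ ℓ + Γ →
        Mf b l (g j) - Mf b l (g i) ≤ Q) →
      (∀ i, Gn i → a ≤ g i → g i ≤ c → b * Gp l (g i) ≤ 1 + η) →
      a + ℓ + Γ ≤ t → t + ℓ + Γ ≤ c →
      |nuf b l t| ≤ 2 * Q / ℓ ^ 2 + 2 * η / ℓ + b * C * (ℓ + 2 * Γ) := by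
  obtain ⟨C, c1, hC⟩ := N4_bd T
  refine ⟨C + 24, by linarith, fun l h hT ι g Gn b a c Q η ℓ Γ t hb ha hc hN hΓ hQ hη hℓ hE hμ
    h1 h2 => ?_⟩
  have := (pc2_list h b (Finset.Subset.refl _) ha hc).abs_nu_net (K := b * (C + 24) / 2) hN hΓ hQ
    hη (by positivity) hℓ hE (fun i i1 i2 i3 => by
      have := hμ i i1 i2 i3
      unfold muf; linarith)
    (fun u hu _ => lo_list h hb (hC l h hT) (by linarith) hu.1.le (hu.2.le.trans hc))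
    (fun u hu _ => lo_list h hb (hC l h hT) (ha.trans hu.1.le) hu.2.le (by linarith)) h1 h2
  linarith

theorem A4_le_Am (h : Adm 1 l) (t : ℝ) : A4 l t ≤ Am l t :=
  Et_mono bfn_Q4 bfn_A3 fun y => by
    have a := D1_pos h t y
    have b := D1_le h t y
    unfold Q4 A3
    nlinarith [pow_pos a 3]

theorem Am_ge {T : ℝ} (h : AP l) (hT : TT l ≤ T) {t : ℝ} (ht : t ∈ Icc 0 (TT l)) :
    exp (-(4 * T)) ≤ Am l t := (L0.A4_ge h hT ht).trans (A4_le_Am h.adm t)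

/-- the `H⁻¹` size `|J t| + ∫ |J|` -/
def Hp (lh lb : List (ℝ × ℝ)) (t : ℝ) : ℝ :=
  |Sc48.Jf lh lb (TT lh) t| + ∫ s in (0 : ℝ)..TT lh, |Sc48.Jf lh lb (TT lh) s|

/-- **(rel)**: `ν - ν₀ = 2 b A₀ u + O(b p₀)`, `μ - μ₀`, `M - M₀ = O(b p₀)`, at every time -/
theorem rel (T : ℝ) : ∃ C : ℝ, 1 ≤ C ∧ ∀ lb lh : List (ℝ × ℝ), AP lb → AP lh → TT lb = TT lh →
    TT lh ≤ T → ∀ b, 0 ≤ b → ∀ t ∈ Icc 0 (TT lh),
      (b * exp (-(4 * T)) ≤ b * Am lh t ∧ b * Am lh t ≤ b) ∧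
      |nuf b lb t - nuf b lh t - 2 * (b * Am lh t) * (lvr 1 lb t - lvr 1 lh t)| ≤
        C * b * Hp lh lb t ∧
      |muf b lb t - muf b lh t| ≤ C * b * Hp lh lb t ∧
      |Mf b lb t - Mf b lh t| ≤ C * b * Hp lh lb t := by
  obtain ⟨C, c1, H⟩ := Hm.fun_H T
  refine ⟨3 * C, by linarith, fun lb lh hb hh e hT b b0 t ht => ?_⟩
  obtain ⟨⟨a0, a1, a2, a3, -⟩, -⟩ := H lh lb hh.adm hb.adm e hT t ht (Hp lh lb t) rfl
  rw [L0.Gam_eq, L0.Gam_eq] at a0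
  rw [L0.GG_eq, L0.GG_eq] at a1
  rw [L0.AA_eq, L0.AA_eq] at a2
  rw [L0.NN_eq, L0.NN_eq] at a3
  have n : 0 ≤ b * (C * Hp lh lb t) := mul_nonneg b0 ((abs_nonneg _).trans a0)
  have z0 := lvr_pos hb.adm t
  have z1 := lvr_le_one hb.adm t
  have k : ∀ x y : ℝ, |x - y| ≤ C * Hp lh lb t → ∀ k : ℝ, |k - b * x - (k - b * y)| ≤
      3 * C * b * Hp lh lb t := fun x y hxy k => by
    rw [show k - b * x - (k - b * y) = -(b * (x - y)) by ring, abs_neg, abs_mul, abs_of_nonneg b0]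
    nlinarith [mul_le_mul_of_nonneg_left hxy b0]
  refine ⟨⟨mul_le_mul_of_nonneg_left (Am_ge hh hT ht) b0,
    mul_le_of_le_one_right b0 (Am_le_one hh.adm t)⟩, ?_, k _ _ a1 1, k _ _ a0 t⟩
  have a4 : |lvr 1 lb t * (Am lb t - Am lh t)| ≤ C * Hp lh lb t := by
    rw [abs_mul, abs_of_pos z0]
    nlinarith [abs_nonneg (Am lb t - Am lh t)]
  have a5 : |2 * (lvr 1 lb t * (Am lb t - Am lh t)) - (Nm lb t - Nm lh t)| ≤
      3 * (C * Hp lh lb t) :=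
    abs_le.2 ⟨by linarith [(abs_le.1 a4).1, (abs_le.1 a3).2],
      by linarith [(abs_le.1 a4).2, (abs_le.1 a3).1]⟩
  unfold nuf
  rw [show b * (2 * lvr 1 lb t * Am lb t - Nm lb t) - b * (2 * lvr 1 lh t * Am lh t - Nm lh t) -
      2 * (b * Am lh t) * (lvr 1 lb t - lvr 1 lh t) =
      b * (2 * (lvr 1 lb t * (Am lb t - Am lh t)) - (Nm lb t - Nm lh t)) by ring, abs_mul,
    abs_of_nonneg b0]
  nlinarith [mul_le_mul_of_nonneg_left a5 b0]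

/-- existential form of (rel) -/
theorem rel' (T : ℝ) : ∃ C : ℝ, 1 ≤ C ∧ ∀ lb lh : List (ℝ × ℝ), AP lb → AP lh → TT lb = TT lh →
    TT lh ≤ T → ∀ b, 0 ≤ b → ∀ t ∈ Icc 0 (TT lh), ∃ be ∈ Icc (b * exp (-(4 * T))) b,
      |nuf b lb t - nuf b lh t - 2 * be * (lvr 1 lb t - lvr 1 lh t)| ≤ C * b * Hp lh lb t := by
  obtain ⟨C, c1, H⟩ := rel T
  exact ⟨C, c1, fun lb lh hb hh e hT b b0 t ht =>
    ⟨_, (H lb lh hb hh e hT b b0 t ht).1, (H lb lh hb hh e hT b b0 t ht).2.1⟩⟩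

/-- **THIN**: the labels differ by at most the two `ν` and the `H⁻¹` size -/
theorem thin (T : ℝ) : ∃ C : ℝ, 1 ≤ C ∧ ∀ lb lh : List (ℝ × ℝ), AP lb → AP lh → TT lb = TT lh →
    TT lh ≤ T → ∀ b, 0 < b → ∀ t ∈ Icc 0 (TT lh),
      |lvr 1 lb t - lvr 1 lh t| ≤ C * ((|nuf b lb t| + |nuf b lh t|) / b + Hp lh lb t) := by
  obtain ⟨C, c1, H⟩ := rel T
  have e0 := exp_pos (4 * T)
  refine ⟨1 + C * exp (4 * T), by nlinarith, fun lb lh hb hh e hT b b0 t ht => ?_⟩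
  obtain ⟨⟨a1, -⟩, a2, a3, -⟩ := H lb lh hb hh e hT b b0.le t ht
  set u := lvr 1 lb t - lvr 1 lh t
  set V := |nuf b lb t| + |nuf b lh t| with hV
  have p0 : 0 ≤ Hp lh lb t := by
    have := (abs_nonneg _).trans a3
    by_contra hc
    nlinarith [mul_pos (mul_pos (show 0 < C by linarith) b0) (neg_pos.2 (not_le.1 hc))]
  have V0 : 0 ≤ V / b := by positivity
  have a4 : |2 * (b * Am lh t) * u| ≤ V + C * b * Hp lh lb t := by
    have := abs_sub (nuf b lb t - nuf b lh t) (nuf b lb t - nuf b lh t - 2 * (b * Am lh t) * u)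
    rw [sub_sub_cancel] at this
    linarith [abs_sub (nuf b lb t) (nuf b lh t)]
  have e1 : exp (-(4 * T)) * exp (4 * T) = 1 := by rw [← exp_add]; simp
  have b1 : 0 < b * exp (-(4 * T)) := by positivity
  rw [abs_mul, abs_of_pos (by linarith)] at a4
  have a5 : b * exp (-(4 * T)) * |u| ≤ b * (V / b + C * Hp lh lb t) := by
    rw [mul_add, mul_div_cancel₀ _ b0.ne']
    nlinarith [mul_le_mul_of_nonneg_right a1 (abs_nonneg u), mul_nonneg b1.le (abs_nonneg u)]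
  rw [mul_assoc] at a5
  have a6 := mul_le_mul_of_nonneg_right (le_of_mul_le_mul_left a5 b0) e0.le
  rw [mul_right_comm, e1, one_mul] at a6
  nlinarith [mul_nonneg (mul_nonneg (sub_nonneg.2 c1) V0) e0.le]

end

end Crest.Agent.T156.Rig
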