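import Crest.Agent.T156.Reg_48
import Crest.Agent.T156.RigD_63
import Crest.Agent.T156.ClZb_9
import Crest.Agent.T156.ClReg_29

/-!
Row 156 (helper25): the plateau without a Plefka bound.  Above the corner `Γ` is concave, so one
use of the floor bounds `b Γ'` at all later times.
-/

set_option autoImplicit false

namespace Crest.Agent.T156.Pr.Cv25

open MeasureTheory Set
open Crest.Agent.R164.GC Crest.Agent.R339.B Crest.Agent.R339.Var Crest.Agent.T157.Pf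
open Crest.Agent.T156.Pr.Reg48

noncomputable section

variable {l : List (ℝ × ℝ)} {p p' s t : ℝ}

/-- `G'` of `lb` at the time `t` against `G'` of `lh` at the time `t0` -/
theorem Gd_two (T0 : ℝ) : ∃ C : ℝ, 1 ≤ C ∧ ∀ lb lh, Ok lb → Ok lh → TT lb = TT lh → TT lh ≤ T0 →
    ∀ t ∈ Icc 0 (TT lh), ∀ t0 ∈ Icc 0 (TT lh), ∀ j, Rig.Hp lh lb t ≤ j →
      |Gd lb t - Gd lh t0 + 2 * AA lh t0 * (lvr 1 lb t - lvr 1 lh t0)| ≤ C * (j + |t - t0|) ∧
      (lvr 1 lh t0 ≤ lvr 1 lb t → Gd lb t ≤ Gd lh t0 -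
        2 * Real.exp (-(4 * T0)) * (lvr 1 lb t - lvr 1 lh t0) + C * (j + |t - t0|)) := by
  obtain ⟨C, c1, hC⟩ := Hm.fun_H T0
  obtain ⟨K, k1, hK⟩ := Atom48.NN_lip T0
  refine ⟨3 * C + K + 24, by linarith, fun lb lh hb hh e hT t ht t0 ht0 j hj => ?_⟩
  obtain ⟨⟨-, -, a, n, -⟩, -⟩ := hC lh lb hh.1 hb.1 e hT t ht (Rig.Hp lh lb t) rfl
  have m := mul_le_mul_of_nonneg_left hj (by linarith : 0 ≤ C)
  have a' := a.trans m
  have n' := n.trans m
  have z : 0 ≤ C * j := (abs_nonneg _).trans a'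
  have j0 : 0 ≤ j := by
    by_contra h
    nlinarith [not_le.1 h]
  have n2 : |NN lh t - NN lh t0| ≤ K * |t - t0| := by
    rcases le_total t0 t with a | a
    · rw [abs_of_nonneg (sub_nonneg.2 a)]
      exact hK lh hh hT t0 t ht0.1 a ht.2
    · rw [abs_sub_comm, abs_sub_comm t, abs_of_nonneg (sub_nonneg.2 a)]
      exact hK lh hh hT t t0 ht.1 a ht0.2
  have a2 : |AA lh t - AA lh t0| ≤ 12 * |t - t0| := Pp.Ode3.Am_lip (Spl27.ap_of_ok hh) ht0 ht
  have z1 := Pp.Ode3.lvr_pos hb.1 t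
  have z2 := Pp.Ode3.lvr_le_one hb.1 t
  have d0 := abs_nonneg (t - t0)
  have a3 : |AA lb t - AA lh t0| ≤ C * j + 12 * |t - t0| :=
    abs_le.2 ⟨by linarith [(abs_le.1 a').1, (abs_le.1 a2).1],
      by linarith [(abs_le.1 a').2, (abs_le.1 a2).2]⟩
  have a4 : |lvr 1 lb t * (AA lb t - AA lh t0)| ≤ C * j + 12 * |t - t0| := by
    rw [abs_mul, abs_of_pos z1]
    exact (mul_le_of_le_one_left (abs_nonneg _) z2).trans a3
  have key : |Gd lb t - Gd lh t0 + 2 * AA lh t0 * (lvr 1 lb t - lvr 1 lh t0)| ≤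
      (3 * C + K + 24) * (j + |t - t0|) := by
    have e1 : Gd lb t - Gd lh t0 + 2 * AA lh t0 * (lvr 1 lb t - lvr 1 lh t0) =
        (NN lb t - NN lh t) + (NN lh t - NN lh t0) - 2 * (lvr 1 lb t * (AA lb t - AA lh t0)) := by
      unfold Gd; ring
    have e2 : 3 * (C * j) + (K + 24) * |t - t0| ≤ (3 * C + K + 24) * (j + |t - t0|) := by
      nlinarith [mul_nonneg (by linarith : 0 ≤ K + 24) j0, mul_nonneg (by linarith : 0 ≤ C) d0]
    rw [e1]
    refine le_trans (abs_le.2 ⟨?_, ?_⟩) e2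
    · linarith [(abs_le.1 n').1, (abs_le.1 n2).1, (abs_le.1 a4).2]
    · linarith [(abs_le.1 n').2, (abs_le.1 n2).2, (abs_le.1 a4).1]
  refine ⟨key, fun hz => ?_⟩
  have g : Real.exp (-(4 * T0)) ≤ AA lh t0 := Rig.Am_ge (Spl27.ap_of_ok hh) hT ht0
  have := mul_le_mul_of_nonneg_right g (sub_nonneg.2 hz)
  linarith [(abs_le.1 key).2]

/-- **concavity above the corner**: from `p` on the labels exceed the reference label at `t0` by
`C (γ + j + δ)`, and the label `1 - u0` is reached at a time `P ≤ t0 + δ` -/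
theorem conc_of (T0 : ℝ) : ∃ C u0 : ℝ, 1 ≤ C ∧ 0 < u0 ∧ ∀ lb lh, Ok lb → Ok lh → TT lb = TT lh →
    TT lh ≤ T0 → ∀ t0 ∈ Icc 0 (TT lh), ∀ p P γ j δ : ℝ, 0 ≤ p → Gd lh t0 ≤ γ → 0 ≤ γ →
      (∀ t, p ≤ t → t < P → t < TT lh → Rig.Hp lh lb t ≤ j) → 0 ≤ j → t0 - δ ≤ p → P ≤ t0 + δ →
      0 ≤ δ → 1 - u0 ≤ lvr 1 lb P → C * (γ + j + δ) ≤ lvr 1 lb p - lvr 1 lh t0 →
      ∀ t ∈ Ico p (TT lb), Gd lb t ≤ 0 := by
  obtain ⟨C, c1, hC⟩ := Gd_two T0
  obtain ⟨u0, c, u1, c0, hu⟩ := Gd_neg T0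
  have e0 := Real.exp_pos (4 * T0)
  refine ⟨1 + C * Real.exp (4 * T0), u0, by nlinarith, u1,
    fun lb lh hb hh e hT t0 ht0 p P γ j δ p0 hγ γ0 hj j0 h1 h2 δ0 hP hx t ht => ?_⟩
  have t0' := p0.trans ht.1
  have m := Pp.Ode3.lvr_mono hb.1
  rcases le_or_gt P t with a | a
  · linarith [hu lb hb (e ▸ hT) t t0' ht.2 (hP.trans (m a))]
  · have tT : t < TT lh := e ▸ ht.2
    have s0 : 0 ≤ γ + j + δ := by linarith
    have x1 : (1 + C * Real.exp (4 * T0)) * (γ + j + δ) ≤ lvr 1 lb t - lvr 1 lh t0 := by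
      linarith [m ht.1]
    have x0 : 0 ≤ (1 + C * Real.exp (4 * T0)) * (γ + j + δ) := by positivity
    have b := (hC lb lh hb hh e hT t ⟨t0', tT.le⟩ t0 ht0 j (hj t ht.1 a tT)).2 (by linarith)
    have d : |t - t0| ≤ δ := abs_le.2 ⟨by linarith [ht.1], by linarith⟩
    have e1 : Real.exp (-(4 * T0)) * Real.exp (4 * T0) = 1 := by rw [← Real.exp_add]; simp
    have e2 := Real.exp_pos (-(4 * T0))
    have x2 := mul_le_mul_of_nonneg_left x1 e2.le
    have x3 : Real.exp (-(4 * T0)) * ((1 + C * Real.exp (4 * T0)) * (γ + j + δ)) =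
        Real.exp (-(4 * T0)) * (γ + j + δ) + C * (γ + j + δ) := by
      linear_combination (C * (γ + j + δ)) * e1
    have x4 : 0 ≤ Real.exp (-(4 * T0)) * (γ + j + δ) := by positivity
    have x5 : C * (j + |t - t0|) ≤ C * (j + δ) :=
      mul_le_mul_of_nonneg_left (by linarith) (by linarith)
    have x6 : γ ≤ C * γ := le_mul_of_one_le_left γ0 c1
    have x7 : 0 ≤ C * (γ + j + δ) := by positivity
    nlinarith

theorem GG_anti (h : Ok l) (hp : 0 ≤ p) (hK : ∀ r ∈ Ico p (TT l), Gd l r ≤ 0) (hs : p ≤ s)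
    (hst : s ≤ t) (ht : t ≤ TT l) : GG l t ≤ GG l s := by
  have := GG_up h (hp.trans hs) hst ht (K := 0)
    fun r hr => hK r ⟨hs.trans hr.1, hr.2.trans_le ht⟩
  linarith

/-- a bound on one increment of `Γ` bounds `G` at all later times -/
theorem GG_le_of_inc (h : Ok l) {k : ℝ} (hp : 0 ≤ p') (hpp : p' < p)
    (hK : ∀ r ∈ Ico p' (TT l), Gd l r ≤ 0) (hi : Gam l p - Gam l p' ≤ k * (p - p'))
    (hpt : p ≤ t) (ht : t ≤ TT l) : GG l t ≤ k := by
  have a := Gam_inc_lo h hp hpp.le (hpt.trans ht) (K := GG l p)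
    fun r hr => GG_anti h hp hK hr.1 hr.2.le (hpt.trans ht)
  have b : GG l p ≤ k := le_of_mul_le_mul_right (by linarith) (sub_pos.2 hpp)
  exact (GG_anti h hp hK hpp.le hpt ht).trans b

/-- **one use of the floor**: marks `h' ≤ h` at two good times `p' < p`, (E1) in difference form
with the error `er + lam (p - p')`, `b er ≤ h - h'` -/
theorem GG_floor (h : Ok l) {b hp hp' er lam : ℝ} (hb : 0 < b) (h0 : 0 ≤ p') (hpp : p' < p)
    (hK : ∀ r ∈ Ico p' (TT l), Gd l r ≤ 0)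
    (hE : Gam l p - (p - hp) / b - (Gam l p' - (p' - hp') / b) ≤ er + lam * (p - p'))
    (hf : b * er ≤ hp - hp') (hpt : p ≤ t) (ht : t ≤ TT l) : b * GG l t ≤ 1 + b * lam := by
  have e : er ≤ (hp - hp') / b := by rw [le_div_iff₀ hb]; linarith
  have e1 : (p - hp) / b - (p' - hp') / b = 1 / b * (p - p') - (hp - hp') / b := by ring
  have a := GG_le_of_inc h (k := 1 / b + lam) h0 hpp hK (by linarith) hpt ht
  have c := mul_le_mul_of_nonneg_left a hb.le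
  rwa [mul_add, mul_one_div_cancel hb.ne'] at c

/-- the same with an error `om |G'|` at both ends dropped into `er` beforehand; upper bound of the
residual with the frozen mark of `p` at every later time -/
theorem res_up (h : Ok l) {b h0 η g : ℝ} (hb : 0 < b) (hp : 0 ≤ p)
    (hK : ∀ r ∈ Ico p (TT l), Gd l r ≤ 0) (hη : Gam l p - (p - h0) / b ≤ η)
    (hg : b * GG l p ≤ 1 + g) (hs : p ≤ s) (hT : s ≤ TT l) :
    Gam l s - (s - h0) / b ≤ η + g / b * (s - p) := by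
  have := reg2 h (K := 0) hb hp hs hT (fun r hr => hK r ⟨hr.1, hr.2.trans_le hT⟩) hη hg
  linarith

/-- once `b G ≤ 1 - μ`, the times move by at most the marks over `μ` -/
theorem len_le (h : Ok l) {b hs ht er lam μ : ℝ} (hb : 0 < b) (hp : 0 ≤ p)
    (hK : ∀ r ∈ Ico p (TT l), Gd l r ≤ 0) (hg : b * GG l p ≤ 1 - μ) (h1 : p ≤ s) (h2 : s ≤ t)
    (hT : t ≤ TT l)
    (hE : -(er + lam * (t - s)) ≤ Gam l t - (t - ht) / b - (Gam l s - (s - hs) / b)) :
    (μ - b * lam) * (t - s) ≤ ht - hs + b * er := by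
  have a := Mh_ge h (e := μ) hb (hp.trans h1) h2 hT fun r hr => by
    have := mul_le_mul_of_nonneg_left
      (GG_anti h hp hK le_rfl (h1.trans hr.1) (hr.2.le.trans hT)) hb.le
    linarith
  have c := mul_le_mul_of_nonneg_left hE hb.le
  have e : b * (Gam l t - (t - ht) / b - (Gam l s - (s - hs) / b)) =
      b * Gam l t - (t - ht) - (b * Gam l s - (s - hs)) := by field_simp
  rw [e] at c
  linarith

/-- **the floor point**: no concavity is needed for one time between the two good times -/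
theorem pt_of_inc (h : Ok l) {k : ℝ} (hp : 0 ≤ p') (hpp : p' < p) (hT : p ≤ TT l)
    (hi : Gam l p - Gam l p' ≤ k * (p - p')) : ∃ t0 ∈ Icc p' p, GG l t0 ≤ k := by
  obtain ⟨t0, h0, hm⟩ := isCompact_Icc.exists_isMinOn (nonempty_Icc.2 hpp.le)
    ((ode h).2.1.mono (Icc_subset_Icc hp hT))
  have a := Gam_inc_lo h hp hpp.le hT (K := GG l t0) fun r hr => hm (Ico_subset_Icc_self hr)
  exact ⟨t0, h0, le_of_mul_le_mul_right (by linarith) (sub_pos.2 hpp)⟩

theorem floor_pt (h : Ok l) {b lam : ℝ} (hb : 0 < b) (h0 : 0 ≤ p') (hpp : p' < p) (hT : p ≤ TT l)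
    (hE : -(lam * (p - p')) ≤ p - b * Gam l p - (p' - b * Gam l p')) :
    ∃ t0 ∈ Icc p' p, b * GG l t0 ≤ 1 + lam := by
  obtain ⟨t0, m, a⟩ := pt_of_inc h (k := (1 + lam) / b) h0 hpp hT (by
    rw [div_mul_eq_mul_div, le_div_iff₀ hb]; linarith)
  exact ⟨t0, m, by rw [le_div_iff₀ hb] at a; linarith⟩

end

end Crest.Agent.T156.Pr.Cv25

namespace Crest.Agent.T156.Alt.Mp9.At

open Set
open Crest.Agent.R164.GC Crest.Agent.R339.B Crest.Agent.R339.Var Crest.Agent.T157.Pf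

variable {S : Sc} {M : Md} {m : ℕ} {a T : ℝ}

theorem b_pos (A : At S M m a T) : 0 < M.b :=
  lt_of_lt_of_le one_pos (d_mem A.cl (le_refl M.N)).1

theorem sb_lt' (A : At S M m a T) {i k : ℕ} (h1 : S.jl ≤ i) (h : i < k) (h2 : k ≤ S.Jp) :
    sb M m a (i + 1) < sb M m a (k + 1) :=
  (A.sb_lt h1 (h.trans_le h2)).trans_le (A.sb_mono (by omega))

/-- rise of `M` along the mean profile between two nodes -/
theorem Mf_rise (A : At S M m a T) {i k : ℕ} {er la : ℝ} (h1 : S.jl < i) (h : i ≤ k)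
    (h2 : k ≤ S.Jp) (hE : res M S m a T k - res M S m a T i ≤
      er + la * (sb M m a (k + 1) - sb M m a (i + 1))) (hf : M.b * er ≤ M.H k - M.H i) :
    -((M.b * la + 1 / m) * (sb M m a (k + 1) - sb M m a (i + 1))) ≤
      Rig.Mf M.b (lb M S m a T) (sb M m a (k + 1)) -
        Rig.Mf M.b (lb M S m a T) (sb M m a (i + 1)) := by
  rw [A.Mf_b (h1.trans_le h) h2, A.Mf_b h1 (h.trans h2)]
  have b0 := A.b_pos
  have c := mul_le_mul_of_nonneg_left hE b0.le
  have m0 : (0 : ℝ) < m := by exact_mod_cast A.m_pos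
  have H0 := A.cl.leg.Hm h
  have e : sb M m a (k + 1) - sb M m a (i + 1) =
      kp m * M.b * (M.rb m a k - M.rb m a i) + (M.H k - M.H i) := by
    simp only [sb, d_top A.cl h1 (A.jp_le (h.trans h2)), d_top A.cl (h1.trans_le h) (A.jp_le h2)]
    ring
  have e2 : M.b * M.rb m a k / (m + 1) - M.b * M.rb m a i / (m + 1) =
      1 / m * (kp m * M.b * (M.rb m a k - M.rb m a i)) := by
    rw [kp]; field_simp
  have e3 : 1 / (m : ℝ) * (kp m * M.b * (M.rb m a k - M.rb m a i)) ≤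
      1 / m * (sb M m a (k + 1) - sb M m a (i + 1)) :=
    mul_le_mul_of_nonneg_left (by linarith) (by positivity)
  linarith

/-- **the floor point on the class** -/
theorem floor_pt (A : At S M m a T) {i k : ℕ} {er la : ℝ} (h1 : S.jl < i) (h : i < k)
    (h2 : k ≤ S.Jp) (hE : res M S m a T k - res M S m a T i ≤
      er + la * (sb M m a (k + 1) - sb M m a (i + 1)))
    (hf : M.b * er ≤ ((k : ℝ) - i) * (S.ms (M.s i) * S.v / (S.C * S.F))) :
    ∃ t0 ∈ Icc (sb M m a (i + 1)) (sb M m a (k + 1)),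
      M.b * Pr.GG (lb M S m a T) t0 ≤ 1 + (M.b * la + 1 / m) ∧
        M.z i ≤ lvr 1 (lb M S m a T) t0 ∧ lvr 1 (lb M S m a T) t0 ≤ M.z k := by
  have r := A.Mf_rise h1 h.le h2 hE (hf.trans (A.cl.H_tel h1.le h.le h2))
  obtain ⟨t0, m0, a0⟩ := Pr.Cv25.floor_pt A.okb.1 A.b_pos (A.sb_mem (h.le.trans h2)).1
    (A.sb_lt' h1.le h h2) (by rw [A.okb.2]; exact (A.sb_mem h2).2) r
  refine ⟨t0, m0, a0, ?_, ?_⟩
  · rw [← A.lvb_node h1.le (h.le.trans h2)]
    exact Pp.Ode3.lvr_mono A.okb.1.1 m0.1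
  · rw [← A.lvb_node (h1.le.trans h.le) h2]
    exact Pp.Ode3.lvr_mono A.okb.1.1 m0.2

end Crest.Agent.T156.Alt.Mp9.At
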