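import Crest.Agent.T156.NetB_27

/-!
Row 156 (helper27): the actual gap length, its absorption in the mass, the mixed Young inequality.
-/

set_option autoImplicit false

namespace Crest.Agent.T156.Gap27

open MeasureTheory Set
open Crest.Agent.R164.GC Crest.Agent.R339.B Crest.Agent.R339.Var Crest.Agent.T157.Pf
open Crest.Agent.T156.L0 Crest.Agent.T156.Cut8 Crest.Agent.T156.Pp.Area50

noncomputable section

/-- mixed form: the mass pays `a0`, `A1`, `A2`, the quartic term pays `g` -/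
def NumM (θ m f A0 A1 A2 : ℝ) : Prop := ∃ a0 g f1 lam : ℝ, A0 ≤ a0 + g ∧ 0 < m ∧ 0 ≤ a0 ∧
  a0 ^ 2 ≤ θ ^ 2 * m * f1 ∧ A1 + A2 ^ 2 / θ ≤ θ * m ∧ 0 ≤ lam ∧ g ≤ θ * lam ^ 3 ∧
  f1 + 2 * lam ^ 4 ≤ f

theorem xi_mix {θ m f A0 A1 A2 r β d J ι : ℝ} (hθ : 0 < θ) (hβ : 0 ≤ β)
    (h : |r| + β ≤ A0 + A1 * |d| + A2 * (|J| + ι)) (hN : NumM θ m f A0 A1 A2) :
    r * d + β * |d| ≤ xi θ m f ι d J := by
  obtain ⟨a0, g, f1, lam, p1, p2, p3, p4, p5, p6, p7, p8⟩ := hN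
  have e : r * d ≤ |r| * |d| := (le_abs_self _).trans_eq (abs_mul _ _)
  have e2 : |d| ^ 2 = d ^ 2 := sq_abs d
  have e4 : |d| ^ 4 = d ^ 4 := by rw [show |d| ^ 4 = (|d| ^ 2) ^ 2 by ring, e2]; ring
  set G := max g 0 with hG
  set X := max (|r| + β - G) 0 with hX
  have k : 0 ≤ a0 + A1 * |d| + A2 * (|J| + ι) ∨ a0 + A1 * |d| + A2 * (|J| + ι) < 0 := le_or_gt _ _
  have y4 := young4 (r := G) (d := |d|) (J := 0) (ι := 0) (A0 := G) (A1 := 0) (A2 := 0) hθ p6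
    (by rw [abs_of_nonneg (le_max_right _ _)]; simp) (max_le p7 (by positivity))
    (by simpa using by positivity)
  have g1 : g ≤ G := le_max_left _ _
  have x1 : |r| + β - G ≤ X := le_max_left _ _
  have f0 : 0 ≤ f1 := by
    by_contra hc
    nlinarith [mul_pos (mul_pos (pow_pos hθ 2) p2) (neg_pos.2 (not_le.1 hc)), sq_nonneg a0]
  have y2 : X * |d| ≤ θ * (2 * m * |d| ^ 2 + J ^ 2 + ι ^ 2 + f1) := by
    rcases k with k | k
    · exact young2 hθ p2 p3 (by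
        rw [abs_of_nonneg (le_max_right _ _), abs_abs]; exact max_le (by linarith) k) p4 p5
    · rw [hX, max_eq_right (by linarith), zero_mul]; positivity
  rw [e4] at y4
  rw [e2] at y2
  unfold xi
  nlinarith [mul_le_mul_of_nonneg_right x1 (abs_nonneg d), mul_le_mul_of_nonneg_left p8 hθ.le]

/-- the price of `g` is the smaller one of `|g|^{4/3}` and `g² / m` -/
theorem numM_of {θ m A0 A1 A2 α g : ℝ} (hθ : 0 < θ) (hθ1 : θ ≤ 1) (hm : 0 < m) (a0 : 0 ≤ α)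
    (h0 : A0 ≤ α + |g|) (h1 : A1 + A2 ^ 2 / θ ≤ θ * m) :
    NumM θ m (2 / θ ^ 2 * (α ^ 2 / m + min (|g| ^ ((4 : ℝ) / 3)) (g ^ 2 / m))) A0 A1 A2 := by
  rcases le_total (|g| ^ ((4 : ℝ) / 3)) (g ^ 2 / m) with c | c
  · rw [min_eq_left c]
    set x := |g| ^ ((1 : ℝ) / 3) with hx
    have x0 : 0 ≤ x := by positivity
    have x3 : x ^ 3 = |g| := by
      rw [hx, ← Real.rpow_natCast, ← Real.rpow_mul (abs_nonneg _)]; norm_num
    have x4 : x ^ 4 = |g| ^ ((4 : ℝ) / 3) := by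
      rw [hx, ← Real.rpow_natCast, ← Real.rpow_mul (abs_nonneg _)]; norm_num
    obtain ⟨y, y0, hy⟩ : ∃ y : ℝ, 0 < y ∧ y ^ 3 = θ :=
      ⟨θ ^ ((3 : ℕ)⁻¹ : ℝ), by positivity, Real.rpow_inv_natCast_pow hθ.le (by simp)⟩
    have y1 : y ≤ 1 := by
      by_contra hc
      nlinarith [one_lt_pow₀ (not_le.1 hc) (three_ne_zero)]
    refine ⟨α, |g|, α ^ 2 / (θ ^ 2 * m), x / y, h0, hm, a0, by
      rw [mul_div_cancel₀ _ (by positivity)], h1, by positivity, by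
      rw [div_pow, hy, x3, mul_div_cancel₀ _ hθ.ne'], ?_⟩
    have q : (x / y) ^ 4 ≤ x ^ 4 / θ ^ 2 := by
      rw [div_pow]
      refine div_le_div_of_nonneg_left (by positivity) (by positivity) ?_
      rw [← hy, ← pow_mul]
      exact pow_le_pow_of_le_one y0.le y1 (by norm_num)
    have e : 2 / θ ^ 2 * (α ^ 2 / m + x ^ 4) = 2 * (α ^ 2 / (θ ^ 2 * m)) + 2 * (x ^ 4 / θ ^ 2) := by
      field_simp
    have : 0 ≤ α ^ 2 / (θ ^ 2 * m) := by positivity
    rw [← x4, e]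
    linarith
  · rw [min_eq_right c]
    refine ⟨α + |g|, 0, 2 / θ ^ 2 * (α ^ 2 / m + g ^ 2 / m), 0, by linarith, hm, by positivity, ?_, h1,
      le_rfl, by simp, by simp⟩
    rw [show θ ^ 2 * m * (2 / θ ^ 2 * (α ^ 2 / m + g ^ 2 / m)) = 2 * (α ^ 2 + g ^ 2) by field_simp]
    nlinarith [sq_nonneg (α - |g|), sq_abs g]

section gl

variable {σ : ℕ → ℝ} {Gn : ℕ → Prop} {u v J : ℕ}

open Classical in
/-- the length of the gap of the time `t` -/
def gl (σ : ℕ → ℝ) (Gn : ℕ → Prop) (u v : ℕ) (t : ℝ) : ℝ :=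
  (Finset.range (v + 1) ×ˢ Finset.range (v + 1)).fold max 0 fun p =>
    if Cons Gn u v p.1 p.2 ∧ σ p.1 ≤ t ∧ t ≤ σ p.2 then σ p.2 - σ p.1 else 0

theorem gl_nn (t : ℝ) : 0 ≤ gl σ Gn u v t := (Finset.le_fold_max _).2 (.inl le_rfl)

theorem le_gl {i j : ℕ} {t : ℝ} (K : Cons Gn u v i j) (h1 : σ i ≤ t) (h2 : t ≤ σ j) :
    σ j - σ i ≤ gl σ Gn u v t :=
  (Finset.le_fold_max _).2 (.inr ⟨(i, j), by
    have := K.ij; have := K.jv
    simp only [Finset.mem_product, Finset.mem_range]; omega, by rw [if_pos ⟨K, h1, h2⟩]⟩)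

theorem gl_le {t Γ : ℝ} (h0 : 0 ≤ Γ)
    (h : ∀ i j, Cons Gn u v i j → σ i ≤ t → t ≤ σ j → σ j - σ i ≤ Γ) : gl σ Gn u v t ≤ Γ :=
  (Finset.fold_max_le _).2 ⟨h0, fun p _ => by
    split_ifs with c
    · exact h _ _ c.1 c.2.1 c.2.2
    · exact h0⟩

theorem gl_in (us : Up σ J) (vJ : v ≤ J) {i j : ℕ} {t : ℝ} (K : Cons Gn u v i j) (h1 : σ i < t)
    (h2 : t < σ j) : gl σ Gn u v t ≤ σ j - σ i :=
  gl_le (by linarith) fun i' j' K' p q => by
    have a : i' < j := lt_of_not_ge fun c => by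
      linarith [us.le c ((K'.ij.trans K'.jv).trans vJ)]
    have b : i < j' := lt_of_not_ge fun c => by
      linarith [us.le c ((K.ij.trans K.jv).trans vJ)]
    rcases K'.ij.eq_or_lt with e | e
    · rw [e]; linarith
    · have c1 : i ≤ i' := le_of_not_gt fun c => K'.no i c b K.gi
      have c2 : j' ≤ j := le_of_not_gt fun c => K'.no j a c K.gj
      linarith [us.le c1 ((K'.ij.trans K'.jv).trans vJ), us.le c2 (K.jv.trans vJ)]

theorem LB_gl (T : ℝ) : LB T (gl σ Gn u v) := by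
  classical
  unfold gl
  induction Finset.range (v + 1) ×ˢ Finset.range (v + 1) using Finset.induction_on with
  | empty => simpa using LB.const (T := T) 0
  | insert p s hp ih =>
    simp only [Finset.fold_insert hp]
    refine Zb9.LB_max ?_ ih
    by_cases c : Cons Gn u v p.1 p.2
    · have := Zb9.LB_ite (T := T) (p := fun t => σ p.1 ≤ t ∧ t ≤ σ p.2) measurableSet_Icc
        (LB.const (σ p.2 - σ p.1)) (LB.const 0)
      refine (congrArg (LB T) (funext fun t => ?_)).mp this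
      by_cases e : σ p.1 ≤ t ∧ t ≤ σ p.2 <;> simp [c, e]
    · simpa [c] using LB.const (T := T) 0

/-- summation over the gaps between two good nodes -/
theorem int_gaps {T : ℝ} {F : ℝ → ℝ} (lF : LB T F) (hm : ∀ k ≤ v, σ k ∈ Icc 0 T)
    (h : ∀ i j, Cons Gn u v i j → 0 ≤ ∫ t in σ i..σ j, F t) {i : ℕ} (hi : u ≤ i) (gi : Gn i) :
    ∀ j, i ≤ j → j ≤ v → Gn j → 0 ≤ ∫ t in σ i..σ j, F t := by
  classical
  intro j
  induction j using Nat.strong_induction_on with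
  | _ j ih =>
    intro ij jv gj
    rcases ij.eq_or_lt with e | e
    · simp [e]
    · have sp := Nat.findGreatest_spec (P := Gn) (m := i) (n := j - 1) (by omega) gi
      have l1 := Nat.le_findGreatest (P := Gn) (m := i) (n := j - 1) (by omega) gi
      have l2 := Nat.findGreatest_le (P := Gn) (j - 1)
      set k := Nat.findGreatest Gn (j - 1) with hk
      rw [int_split lF (hm i (by omega)) (hm k (by omega)) (hm j jv)]
      exact add_nonneg (ih k (by omega) l1 (by omega) sp) (h k j ⟨by omega, by omega, jv, sp, gj,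
        fun r a c => Nat.findGreatest_is_greatest (hk ▸ a) (by omega)⟩)

end gl

/-- on a gap the difference falls -/
theorem gap_cube {T p q c1 κ : ℝ} {d : ℝ → ℝ} (ld : LB T d) (p0 : 0 ≤ p) (pq : p ≤ q) (qT : q ≤ T)
    (hc : 0 < c1) (h : ∀ s t, p ≤ s → s ≤ t → t ≤ q →
      c1 * (t - s) - c1 / 4 * (q - p) - κ ≤ d s - d t) :
    c1 ^ 2 * (q - p) ^ 3 ≤ 128 * (∫ t in p..q, d t ^ 2) + 32 * κ ^ 2 * (q - p) := by
  set g := q - p with hg
  have g0 : 0 ≤ g := by linarith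
  have m1 : p ∈ Icc 0 T := ⟨p0, pq.trans qT⟩
  have m2 : p + g / 2 ∈ Icc 0 T := ⟨by linarith, by linarith⟩
  have m3 : q ∈ Icc 0 T := ⟨p0.trans pq, qT⟩
  have e : ∫ t in (p + g / 2)..q, d t ^ 2 = ∫ t in p..(p + g / 2), d (t + g / 2) ^ 2 := by
    rw [intervalIntegral.integral_comp_add_right (fun t => d t ^ 2)]
    congr 1; rw [hg]; ring
  have i2 : IntervalIntegrable (fun t => d (t + g / 2) ^ 2) volume p (p + g / 2) := by
    have := (ld.sq.ii m2 m3).comp_add_right (g / 2)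
    rwa [show p + g / 2 - g / 2 = p by ring, show q - g / 2 = p + g / 2 by rw [hg]; ring] at this
  have k := intervalIntegral.integral_mono_on (show p ≤ p + g / 2 by linarith)
    (intervalIntegrable_const (c := (c1 * g) ^ 2 / 64 - κ ^ 2 / 2)) ((ld.sq.ii m1 m2).add i2)
    fun s hs => by
      have a := h s (s + g / 2) hs.1 (by linarith) (by linarith [hs.2])
      have b : c1 * g / 4 ≤ |d s - d (s + g / 2)| + |κ| := by
        linarith [le_abs_self (d s - d (s + g / 2)), le_abs_self κ]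
      have b2 := pow_le_pow_left₀ (by positivity) b 2
      nlinarith [sq_nonneg (|d s - d (s + g / 2)| - |κ|), sq_abs (d s - d (s + g / 2)), sq_abs κ,
        sq_nonneg (d s + d (s + g / 2))]
  rw [intervalIntegral.integral_add (ld.sq.ii m1 m2) i2, ← e, ← int_split ld.sq m1 m2 m3] at k
  simp only [intervalIntegral.integral_const, smul_eq_mul] at k
  nlinarith

/-- **the gap lengths are paid by the mass** -/
theorem gl_mass {T c1 κ K : ℝ} {σ : ℕ → ℝ} {Gn : ℕ → Prop} {u v J : ℕ} {d m : ℝ → ℝ} (us : Up σ J)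
    (vJ : v ≤ J) (hm : ∀ k ≤ v, σ k ∈ Icc 0 T) (ld : LB T d) (lm : LB T m) (hc : 0 < c1)
    (hK : 0 < K) (h : ∀ i j, Cons Gn u v i j → ∀ s t, σ i ≤ s → s ≤ t → t ≤ σ j →
      c1 * (t - s) - c1 / 4 * (σ j - σ i) - κ ≤ d s - d t ∧ 0 ≤ m s ∧ m s ≤ K * m t ∧ m t ≤ K * m s)
    {i j : ℕ} (hi : u ≤ i) (ij : i ≤ j) (jv : j ≤ v) (gi : Gn i) (gj : Gn j) :
    c1 ^ 2 * ∫ t in σ i..σ j, m t * gl σ Gn u v t ^ 2 ≤
      K ^ 2 * (128 * (∫ t in σ i..σ j, m t * d t ^ 2) + 32 * κ ^ 2 * ∫ t in σ i..σ j, m t) := by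
  have l1 := lm.mul (LB_gl (σ := σ) (Gn := Gn) (u := u) (v := v) T).sq
  have l2 := lm.mul ld.sq
  have E : ∀ i j, i ≤ v → j ≤ v → ∫ t in σ i..σ j, (K ^ 2 * 128 * (m t * d t ^ 2) +
      K ^ 2 * 32 * κ ^ 2 * m t - c1 ^ 2 * (m t * gl σ Gn u v t ^ 2)) =
      K ^ 2 * (128 * (∫ t in σ i..σ j, m t * d t ^ 2) + 32 * κ ^ 2 * ∫ t in σ i..σ j, m t) -
        c1 ^ 2 * ∫ t in σ i..σ j, m t * gl σ Gn u v t ^ 2 := fun i j a c => by
    rw [intervalIntegral.integral_sub ((((LB.const _).mul l2).add ((LB.const _).mul lm)).ii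
      (hm i a) (hm j c)) (((LB.const _).mul l1).ii (hm i a) (hm j c)),
      intervalIntegral.integral_add (((LB.const _).mul l2).ii (hm i a) (hm j c))
        (((LB.const _).mul lm).ii (hm i a) (hm j c))]
    simp only [intervalIntegral.integral_const_mul]
    ring
  have := int_gaps (Gn := Gn) (u := u) ((((LB.const (K ^ 2 * 128)).mul l2).add
    ((LB.const (K ^ 2 * 32 * κ ^ 2)).mul lm)).sub ((LB.const (c1 ^ 2)).mul l1)) hm
    (fun i j C => ?_) hi gi j ij jv gj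
  · rw [E i j (ij.trans jv) jv] at this
    linarith
  · have iv := C.ij.trans C.jv
    rw [E i j iv C.jv]
    have pq := us.le C.ij (C.jv.trans vJ)
    obtain ⟨p0, -⟩ := hm i iv
    obtain ⟨-, qT⟩ := hm j C.jv
    have hh := fun t (a : σ i < t) (c : t < σ j) => h i j C (σ i) t le_rfl a.le c.le
    have μ0 := (h i j C (σ i) (σ i) le_rfl le_rfl pq).2.1
    have a1 := gap_cube ld p0 pq qT hc fun s t a b c => (h i j C s t a b c).1
    have a2 := int_le_const (K := K * m (σ i) * (σ j - σ i) ^ 2) l1 p0 pq qT fun t a c =>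
      mul_le_mul (hh t a c).2.2.2 (pow_le_pow_left₀ (gl_nn _) (gl_in us vJ C a c) 2) (sq_nonneg _)
        (by positivity)
    have a3 := int_mono ((LB.const (m (σ i))).mul ld.sq) ((LB.const K).mul l2) p0 pq qT
      fun t a c => by nlinarith [(hh t a c).2.2.1, sq_nonneg (d t)]
    have a4 := int_mono (LB.const (m (σ i))) ((LB.const K).mul lm) p0 pq qT
      fun t a c => (hh t a c).2.2.1
    simp only [intervalIntegral.integral_const_mul, intervalIntegral.integral_const,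
      smul_eq_mul] at a3 a4
    have b1 := mul_le_mul_of_nonneg_left a2 (sq_nonneg c1)
    have b2 := mul_le_mul_of_nonneg_left a1 (mul_nonneg hK.le μ0)
    have b3 := mul_le_mul_of_nonneg_left a3 (show 0 ≤ 128 * K by positivity)
    have b4 := mul_le_mul_of_nonneg_left a4 (show 0 ≤ 32 * κ ^ 2 * K by positivity)
    nlinarith

variable {lb lh : List (ℝ × ℝ)} {T C b θ : ℝ}

/-- **`Res` from node data**, mixed Young inequality -/
theorem res_nodes3 (hC : 0 ≤ C) (hA : HLip Pr.AA T C) (hN : HLip Pr.NN T C) {x σ h en on : ℕ → ℝ}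
    {J u v : ℕ} (Db : Zb9.Dat x σ J T) (hh : Pr.Ok lh) (eh : TT lh = T) (hθ : 0 < θ) (b0 : 0 < b)
    {Gn : ℕ → Prop} {l0 δ : ℝ} {Ω ϖ Gm Dz jh D η ω lam m Mx f ζ : ℝ → ℝ}
    (hlb : lb = Zb9.zl x σ J T)
    (N : Nodes lb lh b x σ h en on Gn J u v l0 δ Ω ϖ Gm Dz jh D η ω lam)
    (lϖ : LB T ϖ) (lm : LB T m) (lM : LB T Mx) (lf : LB T f)
    (nn : ∀ t, σ u < t → t < σ v → 0 ≤ ϖ t ∧ 0 ≤ m t ∧ 0 ≤ f t ∧ 0 ≤ ζ t ∧ m t ≤ Mx t)
    (fl : ∀ t, σ u < t → t < σ v → m t * (lvr 1 lb t - lvr 1 lh t) ^ 2 -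
      ζ t * |lvr 1 lb t - lvr 1 lh t| ≤ yN lh b σ h J t * (lvr 1 lb t - lvr 1 lh t))
    (num : ∀ t, σ u < t → t < σ v → NumM θ (m t) (f t) (cA0 C Gm Dz jh D η ω t + ζ t)
      (cA1 C Gm ω lam t) (cA2 C Gm ω t)) :
    ∃ r1 r2 β : ℝ → ℝ, Res T (fun t => lvr 1 lb t - lvr 1 lh t)
      (fun t => Pr.Gam lb t - Pr.Gam lh t) (HN lb lh b σ h J m Mx) r1 r2 ϖ β
      (fun t => xi θ (m t) (f t) (∫ s in (0 : ℝ)..T, |Sc48.Jf lh lb T s|)
        (lvr 1 lb t - lvr 1 lh t) (Sc48.Jf lh lb T t)) (σ u) (σ v) ∧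
      (∀ k, u ≤ k → k ≤ v → Gn k → r2 (σ k) = resN lb b σ h k ∧
        β (σ k) = betN lb lh η ω lam (σ k)) ∧
      ∀ t, σ u ≤ t → t ≤ σ v → |r1 t| + β t ≤ cA0 C Gm Dz jh D η ω t +
        |HN lb lh b σ h J m Mx t - yN lh b σ h J t| +
        cA1 C Gm ω lam t * |lvr 1 lb t - lvr 1 lh t| + cA2 C Gm ω t *
          (|Sc48.Jf lh lb T t| + ∫ s in (0 : ℝ)..T, |Sc48.Jf lh lb T s|) := by
  have ob : Pr.Ok lb := hlb ▸ Db.ok
  have eb : TT lb = T := hlb ▸ Db.tt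
  have hT : 0 ≤ T := (Db.mem le_rfl).1.trans (Db.mem le_rfl).2
  have mb := Sc48.lvr_mono ob.1
  have cn : ∀ k, u ≤ k → k ≤ v → Gn k → Zb9.Cell σ J k (σ k) := fun k a c g =>
    Zb9.cell_node (c.trans N.vJ) (N.str k a c g)
  have zx : ∀ k, u ≤ k → k ≤ v → Gn k → lvr 1 lb (σ k) = x k := fun k a c g => by
    rw [hlb]; exact Db.lv_cell (Db.nn (c.trans N.vJ)) (cn k a c g)
  have hx : ∀ k, u ≤ k → k ≤ v → Gn k → stp h σ J (σ k) = h k := fun k a c g =>
    (cn k a c g).stp Db.us h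
  obtain ⟨I, M, mI, xI, hI⟩ := exists_net (σ := σ) N.uv N.gu N.gv
  set r : ℝ → ℝ := fun s => Pr.Gam lb s - s / b + stp h σ J s / b with hr
  have rn : ∀ k, u ≤ k → k ≤ v → Gn k → r (σ k) = resN lb b σ h k := fun k a c g => by
    simp only [hr, resN, hx k a c g]
  have ld : LB T fun t => lvr 1 lb t - lvr 1 lh t :=
    (LB.of_mono mb).sub (LB.of_mono (Sc48.lvr_mono hh.1))
  have lJ : LB T (Sc48.Jf lh lb T) := .of_cont (ld.tail (right_mem_Icc.mpr hT))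
  have l4 : LB T fun t => (lvr 1 lb t - lvr 1 lh t) ^ 4 := by simpa [← pow_mul] using ld.sq.sq
  have lG : LB T (Pr.Gam lh) := .of_cont (eh ▸ Pp.Ode3.Gam_cont (L0.ap_of_ok hh))
  have G : ∀ t, σ u ≤ t → t ≤ σ v → GapD lb lh T b (stp h σ J) r t (σ (I t)) (σ (M t)) (Gm t)
      (Dz t) (jh t) (D t) (η t) (ω t) := fun t a c => by
    obtain ⟨K, p, q⟩ := hI t a c
    obtain ⟨g1, g2, g3, g4, g5, g5', g6, g7, g8, g9⟩ := N.gap _ _ K t p q
    have iv := K.ij.trans K.jv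
    have uj := K.ui.trans K.ij
    have s0 : σ (I t) ≤ σ (M t) := p.trans q
    have x0 : x (I t) ≤ x (M t) := Db.ux.le K.ij (K.jv.trans N.vJ)
    have o0 := N.Ωm x0
    have o1 := mul_nonneg N.l00 (sub_nonneg.2 s0)
    have δ0 := N.δ0
    refine ⟨Db.nn (iv.trans N.vJ), p, q, (Db.mem (K.jv.trans N.vJ)).2, g1, g6.trans g7,
      by linarith, by rw [zx _ K.ui iv K.gi, zx _ uj K.jv K.gj]; exact g2, g3, fun s hs => ?_,
      by simp only [hr, sub_self, abs_zero]; linarith,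
      by simp only [hr, sub_self, abs_zero]; linarith, ?_⟩
    · have a1 := stp_mono σ N.hm hs.1
      have a2 := stp_mono σ N.hm hs.2
      rw [hx _ uj K.jv K.gj] at a2
      rw [← sub_div, abs_of_nonneg (div_nonneg (sub_nonneg.2 a1) b0.le), hx _ K.ui iv K.gi]
      exact (div_le_div_of_nonneg_right (by linarith) b0.le).trans g4
    · rw [rn _ K.ui iv K.gi, rn _ uj K.jv K.gj]
      have := N.e1 _ _ K.ui K.ij K.jv K.gi K.gj
      nlinarith [mul_le_mul_of_nonneg_right g7 (abs_nonneg (Gd lb (σ (I t)))),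
        mul_le_mul_of_nonneg_right g8 (abs_nonneg (Gd lb (σ (M t))))]
  have B := fun t (a : σ u ≤ t) (c : t ≤ σ v) =>
    bound_diff (lam := lam t) hC hA hN ob hh eb eh b0.ne' (G t a c)
  refine ⟨_, fun t => r (σ (I t)), fun t => η t + ω t * |Gd lb (σ (I t))| +
    lam t * |lvr 1 lb t - lvr 1 lh t|, Zb9.res_two (ζ := ζ) (y := yN lh b σ h J)
    (r1 := fun t => Pr.Gam lb t - Pr.Gam lh t + yN lh b σ h J t - r (σ (I t)))
    ((Sc48.lvr_meas lb).sub (Sc48.lvr_meas lh)) lm lM ld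
    (((LB.of_mono (stp_mono σ N.hm)).sub ((LB.of_cont continuousOn_id).sub
      ((LB.const b).mul lG))).div b) lϖ
    ((LB.const θ).mul ((((((LB.const 2).mul l4).add (((LB.const 2).mul lm).mul ld.sq)).add
      lJ.sq).add (LB.const _)).add lf)) (fun t _ _ => by ring) (fun t a c => (nn t a c).1)
    (fun s t a st c => ?_) (fun t a c => ⟨(nn t a c).2.1, (nn t a c).2.2.2.2⟩)
    (fun t a c => (nn t a c).2.2.2.1) fl
    (fun t a c => xi_nn hθ.le (nn t a c).2.1 (nn t a c).2.2.1) (fun t a c => ?_),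
    fun k a c g => ?_, fun t a c => ?_⟩
  · obtain ⟨K, p, q⟩ := hI s a (st.trans c)
    obtain ⟨K', p', q'⟩ := hI t (a.trans st) c
    obtain ⟨-, -, -, -, g5, g5', -, g7, -, g9⟩ := N.gap _ _ K s p q
    obtain ⟨-, -, -, -, k5, k5', -, k7, -, k9⟩ := N.gap _ _ K' t p' q'
    have iv := K.ij.trans K.jv
    have iv' := K'.ij.trans K'.jv
    have e := N.e1 _ _ K.ui (mI s t a st) iv' K.gi K'.gi
    rw [rn _ K.ui iv K.gi, rn _ K'.ui iv' K'.gi]
    have a1 : Ω (x (I t)) ≤ Ω (lvr 1 lb t) := N.Ωm (zx _ K'.ui iv' K'.gi ▸ mb p')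
    have a2 : Ω (lvr 1 lb s) ≤ Ω (x (M s)) := N.Ωm (zx _ (K.ui.trans K.ij) K.jv K.gj ▸ mb q)
    have a3 := abs_le.1 (N.o1 s a (st.trans c)).2
    have a4 := abs_le.1 (N.o1 t (a.trans st) c).2
    have a5 := N.o2 s t a st c
    have a6 := mul_le_mul_of_nonneg_left p' N.l00
    have a7 := mul_le_mul_of_nonneg_left q N.l00
    have a8 := N.Ωm (Db.ux.le K'.ij (K'.jv.trans N.vJ))
    have a9 := mul_nonneg N.l00 (sub_nonneg.2 (p'.trans q'))
    have := N.δ0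
    nlinarith [mul_le_mul_of_nonneg_right g7 (abs_nonneg (Gd lb (σ (I s)))),
      mul_le_mul_of_nonneg_right k7 (abs_nonneg (Gd lb (σ (I t)))), a3.1, a4.2]
  · have k := B t a.le c.le
    have g := G t a.le c.le
    refine xi_mix hθ (add_nonneg (add_nonneg (add_nonneg g.η0 (mul_nonneg g.ω0 (abs_nonneg _)))
      (mul_nonneg (N.o1 t a.le c.le).1 (abs_nonneg _))) (nn t a c).2.2.2.1) ?_ (num t a c)
    simp only [cA0, cA1, cA2, yN]
    linarith
  · have a0 : σ u ≤ σ k := Db.us.le a (c.trans N.vJ)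
    have a1 : σ k ≤ σ v := Db.us.le c N.vJ
    obtain ⟨K, p, q⟩ := hI (σ k) a0 a1
    have e : σ (I (σ k)) = σ k :=
      le_antisymm p (Db.us.le (xI _ k a c g le_rfl) ((K.ij.trans K.jv).trans N.vJ))
    simp only [e, betN]
    exact ⟨rn k a c g, trivial⟩
  · have := B t a c
    have := abs_add_le (Pr.Gam lb t - Pr.Gam lh t + yN lh b σ h J t - r (σ (I t)))
      (HN lb lh b σ h J m Mx t - yN lh b σ h J t)
    simp only [cA0, cA1, cA2, HN, yN] at *
    linarith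

end

end Crest.Agent.T156.Gap27
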