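import Crest.Agent.T156.ClTop_27
import Crest.Agent.T156.ClTh_9
import Crest.Agent.T156.NetC_27

/-!
Row 156, ALT, text (L) (helper27): the level of a time, the floor mass, the label clock.
-/

set_option autoImplicit false

noncomputable section

namespace Crest.Agent.T156.Alt.Mp9

open MeasureTheory Set Real
open Crest.Agent.R164.GC Crest.Agent.R339.B Crest.Agent.R339.Var Crest.Agent.T157.Pf
open Crest.Agent.T156.Pp.Area50 Crest.Agent.T156.Spl27 Crest.Agent.T156.Zb9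
open Crest.Agent.T156.Cut8 (LB int_split int_mono int_le_const int_sub_le abs_int_le)
open Crest.Agent.T156.Gap27 (yN HN)

theorem LB_comp {T : ℝ} {f φ : ℝ → ℝ} (hf : LB T f) (hφ : Continuous φ) : LB T fun t => φ (f t) := by
  obtain ⟨h1, K, hK⟩ := hf
  obtain ⟨K', hK'⟩ := isCompact_Icc.exists_bound_of_continuousOn (hφ.continuousOn (s := Icc (-K) K))
  exact ⟨hφ.comp_aestronglyMeasurable h1, K', fun t ht => hK' _ (abs_le.1 (hK t ht))⟩

/-- the level of the time `t`: the larger one of `t` and the reference time of its label -/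
def lev (M : Md) (S : Sc) (m : ℕ) (a t : ℝ) : ℝ :=
  max t (stp (fun j => M.s (j - 1)) (sb M m a) (S.Jp + 1) t)

/-- the floor mass at the time `t` -/
def mm (M : Md) (S : Sc) (m : ℕ) (a t : ℝ) : ℝ := S.ms (lev M S m a t) / (384 * S.C ^ 5 * S.F)

open Classical in
/-- slopes cut to `(u, v]` -/
def cut (c : ℕ → ℝ) (u v k : ℕ) : ℝ := if u < k ∧ k ≤ v then c k else 0

/-- the label clock with the slope `c k` on `[z (k-1), z k]` -/
def Om (M : Md) (c : ℕ → ℝ) (u v : ℕ) (x : ℝ) : ℝ :=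
  ∑ k ∈ Finset.Ioc u v, c k * Pp.Area50.cl (M.z (k - 1)) (M.z k) x

/-- its slope in the reference time -/
def cc (M : Md) (S : Sc) (c : ℕ → ℝ) (u v : ℕ) (t : ℝ) : ℝ := stp (cut c u v) (sh M S) (S.Jp + 1) t

theorem Om_mono (M : Md) {c : ℕ → ℝ} (hc : ∀ k, 0 ≤ c k) (u v : ℕ) : Monotone (Om M c u v) :=
  fun _ _ h => Finset.sum_le_sum fun k _ => mul_le_mul_of_nonneg_left (cl_mono _ _ h) (hc k)

theorem Om_step {M : Md} (hz : Monotone M.z) (c : ℕ → ℝ) (u v j : ℕ) :
    Om M c u v (M.z (j + 1)) - Om M c u v (M.z j) = cut c u v (j + 1) * (M.z (j + 1) - M.z j) := by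
  classical
  have e : ∀ k, c k * Pp.Area50.cl (M.z (k - 1)) (M.z k) (M.z (j + 1)) -
      c k * Pp.Area50.cl (M.z (k - 1)) (M.z k) (M.z j) =
      if k = j + 1 then c k * (M.z (j + 1) - M.z j) else 0 := fun k => by
    unfold Pp.Area50.cl
    rcases lt_trichotomy k (j + 1) with h | h | h
    · rw [if_neg h.ne, min_eq_right (hz h.le), min_eq_right (hz (by omega)), sub_self]
    · subst h
      rw [if_pos rfl, min_self, Nat.add_sub_cancel, min_eq_left (hz (Nat.le_succ j)), max_self,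
        max_eq_right (hz (Nat.le_succ j)), mul_sub]
    · rw [if_neg h.ne', max_eq_left ((min_le_left _ _).trans (hz (by omega))),
        max_eq_left ((min_le_left _ _).trans (hz (by omega))), sub_self]
  rw [Om, Om, ← Finset.sum_sub_distrib, Finset.sum_congr rfl fun k _ => e k, Finset.sum_ite_eq', cut]
  simp only [Finset.mem_Ioc]
  split_ifs <;> simp

theorem Om_sub {M : Md} (hz : Monotone M.z) (c : ℕ → ℝ) (u v : ℕ) {i j : ℕ} (h : i ≤ j) :
    Om M c u v (M.z j) - Om M c u v (M.z i) =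
      ∑ k ∈ Finset.Ico i j, cut c u v (k + 1) * (M.z (k + 1) - M.z k) := by
  induction j, h using Nat.le_induction with
  | base => simp
  | succ j ij ih => rw [Finset.sum_Ico_succ_top ij, ← ih, ← Om_step hz]; ring

theorem Om_le {M : Md} (hz : Monotone M.z) {c : ℕ → ℝ} {u v i j : ℕ} (h : i ≤ j) {L : ℝ}
    (hL : ∀ k, i < k → k ≤ j → cut c u v k ≤ L) :
    Om M c u v (M.z j) - Om M c u v (M.z i) ≤ L * (M.z j - M.z i) := by
  induction j, h using Nat.le_induction with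
  | base => simp
  | succ j ij ih =>
    have := ih fun k a b => hL k a (by omega)
    have := Om_step hz c u v j
    nlinarith [mul_le_mul_of_nonneg_right (hL (j + 1) (by omega) le_rfl)
      (sub_nonneg.2 (hz (Nat.le_succ j)))]

theorem cut_nn {c : ℕ → ℝ} (hc : ∀ k, 0 ≤ c k) (u v k : ℕ) : 0 ≤ cut c u v k := by
  unfold cut; split_ifs; exacts [hc k, le_rfl]

namespace At
variable {S : Sc} {M : Md} {m : ℕ} {a T : ℝ}

theorem lev_mono (A : At S M m a T) : Monotone (lev M S m a) := fun _ _ h =>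
  max_le_max h (stp_mono _ (fun j _ => A.cl.sm (by omega)) h)

theorem le_lev (t : ℝ) : t ≤ lev M S m a t := le_max_left _ _

theorem lev_cell (A : At S M m a T) {k : ℕ} {t : ℝ} (c : Cell (sb M m a) (S.Jp + 1) (k + 1) t) :
    lev M S m a t = max t (M.s k) := by rw [lev, c.stp A.ub, Nat.add_sub_cancel]

theorem K_pos (A : At S M m a T) : 0 < 384 * S.C ^ 5 * S.F := by
  have := A.c_pos; have := A.cl.F1; positivity

theorem mm_mono (A : At S M m a T) : Monotone (mm M S m a) := fun _ _ h =>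
  div_le_div_of_nonneg_right (A.cl.msm (A.lev_mono h)) A.K_pos.le

theorem mm_ge (A : At S M m a T) (t : ℝ) : S.ms t / (384 * S.C ^ 5 * S.F) ≤ mm M S m a t :=
  div_le_div_of_nonneg_right (A.cl.msm (le_lev t)) A.K_pos.le

theorem mm_pos (A : At S M m a T) {t : ℝ} (ht : 0 ≤ t) : 0 < mm M S m a t :=
  (div_pos (A.ms_pos ht) A.K_pos).trans_le (A.mm_ge t)

theorem mm_le (A : At S M m a T) (t : ℝ) : mm M S m a t ≤ S.θ := by
  have p := one_le_pow₀ A.cl.C1 (n := 5)
  have q := A.cl.F1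
  have r := (A.ms_pos le_rfl).le.trans (A.cl.ms1 0)
  exact (div_le_div_of_nonneg_right (A.cl.ms1 _) A.K_pos.le).trans (div_le_self r (by nlinarith))

theorem LB_mm (A : At S M m a T) : LB T (mm M S m a) := .of_mono A.mm_mono

theorem LB_inv (A : At S M m a T) : LB T fun t => (mm M S m a t)⁻¹ :=
  .of_meas A.mm_mono.measurable.inv (K := (mm M S m a 0)⁻¹) fun t ht => by
    rw [abs_of_pos (inv_pos.2 (A.mm_pos ht.1))]
    exact inv_anti₀ (A.mm_pos le_rfl) (A.mm_mono ht.1)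

/-- time integrals over reference cells -/
theorem int_ref (A : At S M m a T) {F : ℝ → ℝ} {w : ℕ → ℝ} (lF : LB T F) {i j : ℕ} (hij : i ≤ j)
    (hj : j ≤ S.Jp) (h : ∀ k t, i ≤ k → k < j → M.s k < t → t < M.s (k + 1) → F t ≤ w k) :
    ∫ t in M.s i..M.s j, F t ≤ ∑ k ∈ Finset.Ico i j, (M.s (k + 1) - M.s k) * w k := by
  have mem : ∀ k ≤ S.Jp, M.s k ∈ Icc 0 T := fun k hk => ⟨s_nn A.cl k, (A.cl.sm hk).trans A.t2⟩
  induction j, hij using Nat.le_induction with
  | base => simp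
  | succ j ij ih =>
    rw [int_split lF (mem i (by omega)) (mem j (by omega)) (mem _ hj), Finset.sum_Ico_succ_top ij]
    exact add_le_add (ih (by omega) fun k t a b => h k t a (by omega)) (int_le_const lF
      (s_nn A.cl j) (A.cl.sm (Nat.le_succ j)) (mem _ hj).2 fun t => h j t ij (Nat.lt_succ_self j))

theorem cc_cell (A : At S M m a T) (c : ℕ → ℝ) (u v : ℕ) {k : ℕ} {t : ℝ} (h0 : S.j0 ≤ k)
    (hk : k < S.Jp) (h1 : M.s k ≤ t) (h2 : t < M.s (k + 1)) : cc M S c u v t = cut c u v (k + 1) :=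
  (A.ref_cell h0 hk h1 h2).stp A.uh _

/-- the upper half of the labels carries the floor -/
theorem fl_half (A : At S M m a T) {i k : ℕ} (hi : S.jl ≤ i) (hik : i ≤ k) (hk : k < S.J) {t : ℝ}
    (h1 : t ≤ M.s k + S.C * S.v) (me : 8 * S.C ^ 2 * S.v ≤ t) :
    S.ms t / (384 * S.C ^ 4 * S.F) * (M.z k - M.z i) ≤ M.H k - M.H i := by
  have C0 := A.c_pos
  have C1 := A.cl.C1
  have F0 : 0 < S.F := by linarith [A.cl.F1]
  have v0 := v_pos A.cl
  have cv : S.C * S.v ≤ S.C ^ 2 * S.v := by nlinarith [mul_pos C0 v0]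
  have t0 : 0 < t := lt_of_lt_of_le (by positivity) me
  have sk : M.s k < M.s S.J := (s_lt A.cl hk).trans_le (A.cl.sm hk)
  have dz := sub_nonneg.2 (A.cl.leg.zm hik)
  obtain ⟨j, -, p2, p3, p4⟩ := A.exists_ref (i := 0) (j := k) (t := M.s k / 2)
    (by rw [A.cl.s0]; linarith [s_nn A.cl k]) (by linarith)
  have q := (A.cl.ss j (by omega)).2
  have d1 := A.cl.ms2 (t / 2) (by linarith)
  have d2 := A.cl.ms2 (t / 4) (by linarith)
  rw [show 2 * (t / 2) = t by ring] at d1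
  rw [show 2 * (t / 4) = t / 2 by ring] at d2
  have d3 : S.ms t ≤ 16 * S.ms (M.s j) := by
    linarith [A.cl.msm (show t / 4 ≤ M.s j by linarith)]
  have m0 := A.ms_pos (s_nn A.cl j)
  have c2 : 1 ≤ S.C ^ 2 := one_le_pow₀ C1
  rcases le_total j i with h | h
  · refine le_trans (mul_le_mul_of_nonneg_right ?_ dz) (A.h_fl hi le_rfl hik hk)
    rw [div_le_div_iff₀ (by positivity) (by positivity)]
    have := A.cl.msm (A.cl.sm h)
    have e : S.ms t * (S.C ^ 2 * S.F) ≤ 16 * S.ms (M.s i) * (S.C ^ 2 * S.F) :=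
      mul_le_mul_of_nonneg_right (by linarith) (by positivity)
    nlinarith [mul_le_mul_of_nonneg_left c2 (show 0 ≤ S.ms (M.s i) * (S.C ^ 2 * S.F) by
      have := m0.trans_le this; positivity), mul_pos (m0.trans_le this) (mul_pos (pow_pos C0 2) F0)]
  · have j0 : S.j0 ≤ j := A.cl.i1.trans (hi.trans h)
    have f := A.h_fl (hi.trans h) le_rfl p2.le hk
    have l1 := (A.sl sk _ _ (s_nn A.cl j) (A.cl.sm p2.le) le_rfl).1
    have l2 := (A.sl sk 0 _ le_rfl (s_nn A.cl k) le_rfl).2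
    rw [A.lvh_node (by omega) hk, A.lvh_node j0 (by omega)] at l1
    rw [A.lvh_node (by omega) hk, A.lvh' le_rfl] at l2
    have l3 := A.cl.lv0
    have zi : 0 < M.z i := A.a_pos.trans_le (A.xb_mono (Nat.zero_le (i + 1)))
    have l4 : M.s k / (4 * S.C) ≤ M.z k - M.z j := by
      rw [div_le_iff₀ (by positivity)]
      rw [one_div_mul_eq_div, sub_le_iff_le_add, div_le_iff₀ C0] at l1
      nlinarith
    have l5 : M.z k - M.z i ≤ 2 * S.C * M.s k := by nlinarith
    have l6 : M.z k - M.z i ≤ 24 * S.C ^ 2 * (M.z k - M.z j) := by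
      rw [div_le_iff₀ (by positivity)] at l4
      nlinarith [s_nn A.cl k]
    have e : S.ms t / (384 * S.C ^ 4 * S.F) * (24 * S.C ^ 2 * (M.z k - M.z j)) =
        S.ms t / 16 / (S.C ^ 2 * S.F) * (M.z k - M.z j) := by field_simp; ring
    have g1 := mul_le_mul_of_nonneg_left l6 (show 0 ≤ S.ms t / (384 * S.C ^ 4 * S.F) by
      have := A.ms_pos t0.le; positivity)
    have g2 := mul_le_mul_of_nonneg_right (div_le_div_of_nonneg_right
      (show S.ms t / 16 ≤ S.ms (M.s j) by linarith) (show 0 ≤ S.C ^ 2 * S.F by positivity))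
      (sub_nonneg.2 (A.cl.leg.zm p2.le))
    linarith [A.cl.leg.Hm h]

/-- **floor and ceiling of the mark term** -/
theorem fl3 (A : At S M m a T)
    (E : ∀ k, S.jl + 1 ≤ k → k < S.J → M.H (k + 1) - M.H k ≤ S.C * S.F * S.ms (M.s k) * S.v)
    {k : ℕ} {t : ℝ} (h1 : S.jl < k) (h2 : k < S.J) (c : Cell (sb M m a) (S.Jp + 1) (k + 1) t)
    (t0 : M.s (S.jl + 1) ≤ t) (ht : t < M.s S.J) (me : 8 * S.C ^ 2 * S.v ≤ lev M S m a t) :
    mm M S m a t * uu M S m a T t ^ 2 - (S.C ^ 2 * S.θ * S.v + |gt M S t|) * |uu M S m a T t| ≤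
      yN (lh M T) M.b (sb M m a) (hb M) (S.Jp + 1) t * uu M S m a T t ∧
    |yN (lh M T) M.b (sb M m a) (hb M) (S.Jp + 1) t| ≤ S.C ^ 2 * S.F * S.ms (lev M S m a t) *
      |uu M S m a T t| + (S.C ^ 2 * S.θ * S.v + |gt M S t|) := by
  have C0 := A.c_pos
  have F0 : 0 < S.F := by linarith [A.cl.F1]
  have i3 := A.cl.i3
  have i1 := A.cl.i1
  have cv := mul_pos C0 (v_pos A.cl)
  obtain ⟨i, p1, p2, p3, p4⟩ := A.exists_ref t0 ht
  have e1 : uu M S m a T t = M.z k - M.z i := by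
    rw [uu, A.lvb_cell c, A.lvh' ((s_nn A.cl i).trans p3), A.cl.lv i (by omega) t p3 p4]
  have e2 := A.Mf_node (k := i) (by omega) (by omega)
  obtain ⟨q1, q2⟩ := A.Mf_sl (a' := M.s i) (b' := t) (s_nn A.cl i) (ht.le.trans (A.cl.sm i3))
    (M.s i) t le_rfl p3 le_rfl
  have m0 := A.ms_pos (s_nn A.cl i)
  have si := (A.cl.ss i p2).2
  have r0 : 0 ≤ S.ms (M.s i) / S.C * (t - M.s i) := mul_nonneg (by positivity) (by linarith)
  have r1 : S.C * S.ms t * (t - M.s i) ≤ S.C * S.θ * (S.C * S.v) :=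
    mul_le_mul (mul_le_mul_of_nonneg_left (A.cl.ms1 t) C0.le) (by linarith) (by linarith)
      (mul_nonneg C0.le (m0.le.trans (A.cl.ms1 _)))
  have el := A.lev_cell c
  have tl : t ≤ lev M S m a t := le_lev t
  have kl : M.s k ≤ lev M S m a t := el ▸ le_max_right _ _
  have ml := A.ms_pos ((s_nn A.cl k).trans kl)
  set ν := S.ms (lev M S m a t) / (384 * S.C ^ 4 * S.F) with hν
  set Mx := S.C ^ 2 * S.F * S.ms (lev M S m a t) with hM
  have cf : 0 ≤ S.C ^ 2 * S.F := by positivity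
  have fl : ν * (M.z k - M.z i) ^ 2 ≤ (M.H k - M.H i) * (M.z k - M.z i) ∧
      |M.H k - M.H i| ≤ Mx * |M.z k - M.z i| := by
    rcases le_total i k with h | h
    · have z0 := sub_nonneg.2 (A.cl.leg.zm h)
      have := A.fl_half (by omega) h h2 (t := lev M S m a t)
        (el ▸ max_le (by linarith [A.cl.sm h]) (by linarith)) me
      refine ⟨by nlinarith, ?_⟩
      rw [abs_of_nonneg z0, abs_of_nonneg (sub_nonneg.2 (A.cl.leg.Hm h))]
      exact (A.h_up E p1 h h2).trans (mul_le_mul_of_nonneg_right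
        (mul_le_mul_of_nonneg_left (A.cl.msm kl) cf) z0)
    · have z0 := sub_nonneg.2 (A.cl.leg.zm h)
      have := A.fl_half h1.le h p2 (t := lev M S m a t)
        (el ▸ max_le (by linarith) (by linarith [A.cl.sm h])) me
      refine ⟨by nlinarith, ?_⟩
      rw [abs_sub_comm, abs_sub_comm (M.z k), abs_of_nonneg z0,
        abs_of_nonneg (sub_nonneg.2 (A.cl.leg.Hm h))]
      exact (A.h_up E h1 h p2).trans (mul_le_mul_of_nonneg_right
        (mul_le_mul_of_nonneg_left (A.cl.msm (p3.trans tl)) cf) z0)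
  obtain ⟨b1, b2⟩ := A.b_mem
  have ey : yN (lh M T) M.b (sb M m a) (hb M) (S.Jp + 1) t = (M.H k - M.H i +
      (M.G i - (Rig.Mf M.b (lh M T) t - Rig.Mf M.b (lh M T) (M.s i)))) / M.b := by
    change (hm M S m a t - Rig.Mf M.b (lh M T) t) / M.b = _
    rw [A.hm_cell c, e2]; ring
  rw [ey, A.gt_cell (by omega) (by omega) p3 p4, e1]
  set d := M.z k - M.z i
  set ζ := S.C ^ 2 * S.θ * S.v + |M.G i| with hζ
  set W := M.G i - (Rig.Mf M.b (lh M T) t - Rig.Mf M.b (lh M T) (M.s i)) with hW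
  have w : |W| ≤ ζ :=
    abs_le.2 ⟨by nlinarith [neg_abs_le (M.G i)], by nlinarith [le_abs_self (M.G i)]⟩
  refine ⟨?_, ?_⟩
  · have w1 := neg_abs_le (W * d)
    rw [abs_mul] at w1
    have w2 := mul_le_mul_of_nonneg_right w (abs_nonneg d)
    have z0 : 0 ≤ ζ * |d| := mul_nonneg ((abs_nonneg _).trans w) (abs_nonneg d)
    have w3 : mm M S m a t * M.b ≤ ν := (mul_le_mul_of_nonneg_left b2 (by
      rw [mm]; positivity)).trans_eq (by rw [hν, mm]; field_simp)
    rw [div_mul_eq_mul_div _ M.b, le_div_iff₀ (by linarith), add_mul]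
    nlinarith [mul_le_mul_of_nonneg_right w3 (sq_nonneg d), mul_le_mul_of_nonneg_left b1 z0, fl.1]
  · rw [abs_div, abs_of_pos (by linarith : 0 < M.b)]
    exact (div_le_self (abs_nonneg _) b1).trans ((abs_add_le _ _).trans (add_le_add fl.2 w))

end At

end Crest.Agent.T156.Alt.Mp9

end
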