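import Crest.Agent.T156.Cut_8

/-!
# Row 156, text (L), leaf L-f (helper8): block form of the energy inequality with cuts
-/

set_option autoImplicit false

noncomputable section

namespace Crest.Agent.T156.Cut8

open MeasureTheory Set intervalIntegral Filter Topology

variable {T : ℝ} {f g : ℝ → ℝ}

/-- a point below the mean -/
theorem exists_le_mean (hf : LB T f) {x y : ℝ} (hx : 0 ≤ x) (hxy : x < y) (hy : y ≤ T) :
    ∃ t, x < t ∧ t < y ∧ (y - x) * f t ≤ ∫ s in x..y, f s := by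
  have hi := hf.ii (a := x) (b := y) ⟨hx, by linarith⟩ ⟨by linarith, hy⟩
  have hi' : IntegrableOn f (Ioo x y) :=
    ((intervalIntegrable_iff_integrableOn_Ioo_of_le hxy.le).mp hi)
  obtain ⟨t, ht, h⟩ := exists_le_setAverage (μ := volume) (s := Ioo x y) (f := f)
    (by simp [hxy]) (by simp) hi'
  refine ⟨t, ht.1, ht.2, ?_⟩
  rw [setAverage_eq, Measure.real, Real.volume_Ioo, ENNReal.toReal_ofReal (by linarith),
    smul_eq_mul, ← integral_Ioc_eq_integral_Ioo, ← integral_of_le hxy.le,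
    le_inv_mul_iff₀ (by linarith)] at h
  exact h

/-- a point where two functions are below twice their means -/
theorem exists_pt (hf : LB T f) (hg : LB T g) {x y α D : ℝ} (hx : 0 ≤ x) (hxy : x < y) (hy : y ≤ T)
    (hα : 0 < α) (hD : 0 < D) (h1 : 2 * ∫ s in x..y, f s ^ 2 ≤ (y - x) * α ^ 2)
    (h2 : 2 * ∫ s in x..y, g s ^ 2 ≤ (y - x) * D ^ 2) :
    ∃ t, x < t ∧ t < y ∧ |f t| ≤ α ∧ |g t| ≤ D := by
  have mx : x ∈ Icc 0 T := ⟨hx, by linarith⟩
  have my : y ∈ Icc 0 T := ⟨by linarith, hy⟩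
  obtain ⟨t, t0, t1, h⟩ := exists_le_mean ((hf.sq.div (α ^ 2)).add (hg.sq.div (D ^ 2))) hx hxy hy
  rw [integral_add ((hf.sq.div _).ii mx my) ((hg.sq.div _).ii mx my),
    intervalIntegral.integral_div, intervalIntegral.integral_div] at h
  have e1 : (∫ s in x..y, f s ^ 2) / α ^ 2 ≤ (y - x) / 2 := by
    rw [div_le_iff₀ (by positivity)]; linarith
  have e2 : (∫ s in x..y, g s ^ 2) / D ^ 2 ≤ (y - x) / 2 := by
    rw [div_le_iff₀ (by positivity)]; linarith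
  have e3 : f t ^ 2 / α ^ 2 + g t ^ 2 / D ^ 2 ≤ 1 :=
    le_of_mul_le_mul_left (by linarith) (sub_pos.mpr hxy)
  have p1 : 0 ≤ f t ^ 2 / α ^ 2 := by positivity
  have p2 : 0 ≤ g t ^ 2 / D ^ 2 := by positivity
  refine ⟨t, t0, t1, abs_le_of_sq_le_sq ?_ hα.le, abs_le_of_sq_le_sq ?_ hD.le⟩
  · exact (div_le_one (by positivity)).mp (by linarith)
  · exact (div_le_one (by positivity)).mp (by linarith)

/-- increments dominated by `∫ ω`: a density -/
theorem exists_dens {r ω : ℝ → ℝ} (lω : LB T ω) {a b : ℝ} (ha : 0 ≤ a) (hab : a ≤ b) (hb : b ≤ T)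
    (h : ∀ s t, a ≤ s → s ≤ t → t ≤ b → |r t - r s| ≤ ∫ u in s..t, ω u) :
    ∃ w, LB T w ∧ (∀ t ∈ Icc a b, r t = r a + ∫ s in a..t, w s) ∧
      ∫ t in a..b, w t ^ 2 ≤ ∫ t in a..b, ω t ^ 2 := by
  obtain ⟨K, hK⟩ := lω.2
  have ma : a ∈ Icc 0 T := ⟨ha, by linarith⟩
  have mb : b ∈ Icc 0 T := ⟨by linarith, hb⟩
  have hK0 : 0 ≤ K := (abs_nonneg _).trans (hK a ma)
  have hL : ∀ s t, a ≤ s → s ≤ t → t ≤ b → |r t - r s| ≤ K * (t - s) := fun s t h0 h1 h2 => by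
    have := int_le_const lω (K := K) (by linarith) h1 (by linarith) fun u u0 u1 =>
      (le_abs_self _).trans (hK u ⟨by linarith, by linarith⟩)
    linarith [h s t h0 h1 h2]
  have lip : LipschitzOnWith ⟨K, hK0⟩ r (uIcc a b) := by
    rw [uIcc_of_le hab]
    refine LipschitzOnWith.of_dist_le_mul fun s hs t ht => ?_
    rw [Real.dist_eq, Real.dist_eq]
    rcases le_total s t with c | c
    · rw [abs_sub_comm, abs_sub_comm s t, abs_of_nonneg (sub_nonneg.mpr c)]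
      exact hL s t hs.1 c ht.2
    · rw [abs_of_nonneg (sub_nonneg.mpr c)]; exact hL t s ht.1 c hs.2
  have ac := lip.absolutelyContinuousOnInterval
  have hae : ∀ᵐ t, t ∈ Ioo a b → |deriv r t| ≤ ω t := by
    filter_upwards [ac.ae_differentiableAt, (lω.ii ma mb).ae_hasDerivAt_integral] with t h1 h2 ht
    have mt : t ∈ uIcc a b := by rw [uIcc_of_le hab]; exact Ioo_subset_Icc_self ht
    have d1 := (h1 mt).hasDerivAt.tendsto_slope_zero_right.abs
    have d2 := (h2 mt t mt).tendsto_slope_zero_right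
    refine le_of_tendsto_of_tendsto d1 d2 ?_
    filter_upwards [Ioo_mem_nhdsGT (sub_pos.mpr ht.2)] with u hu
    have := h t (t + u) ht.1.le (by linarith [hu.1]) (by linarith [hu.2])
    rw [smul_eq_mul, smul_eq_mul, abs_mul, abs_of_pos (inv_pos.mpr hu.1), integral_same, sub_zero]
    exact mul_le_mul_of_nonneg_left this (inv_pos.mpr hu.1).le
  have hw : ∀ᵐ t, t ∈ Ioo a b → clamp (-K) K (deriv r t) = deriv r t := by
    filter_upwards [hae] with t h1 ht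
    have := abs_le.mp ((h1 ht).trans ((le_abs_self _).trans
      (hK t ⟨by linarith [ht.1], by linarith [ht.2]⟩)))
    unfold clamp
    rw [min_eq_right this.2, max_eq_right this.1]
  have lw : LB T fun t => clamp (-K) K (deriv r t) :=
    .of_meas ((clamp_mono _ _).measurable.comp (measurable_deriv r)) (K := K) fun t _ =>
      abs_le.mpr (clamp_mem (by linarith) _)
  have nb : ∀ᵐ t : ℝ, t ≠ b := by simp [ae_iff]
  refine ⟨_, lw, fun t ht => ?_, ?_⟩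
  · have := (ac.mono (c := a) (d := t) (by
      rw [uIcc_of_le ht.1, uIcc_of_le hab]; exact Icc_subset_Icc le_rfl ht.2)).integral_deriv_eq_sub
    rw [intervalIntegral.integral_congr_ae (g := deriv r), this]
    · ring
    · filter_upwards [hw, nb] with u h1 h2 hu
      rw [uIoc_of_le ht.1] at hu
      exact h1 ⟨hu.1, lt_of_le_of_ne (hu.2.trans ht.2) h2⟩
  · refine integral_mono_ae_restrict hab (lw.sq.ii ma mb) (lω.sq.ii ma mb) ?_
    have na : ∀ᵐ t : ℝ, t ≠ a := by simp [ae_iff]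
    refine (ae_restrict_iff' measurableSet_Icc).mpr ?_
    filter_upwards [hae, hw, na, nb] with u h1 h2 h3 h4 hu
    have hu' : u ∈ Ioo a b := ⟨lt_of_le_of_ne hu.1 h3.symm, lt_of_le_of_ne hu.2 h4⟩
    rw [h2 hu']
    exact sq_le_sq' (abs_le.mp (h1 hu')).1 (abs_le.mp (h1 hu')).2

/-- increments dominated up to pointwise errors `β`: a regular function at distance `β` -/
theorem exists_reg {r Ω β : ℝ → ℝ} {a b : ℝ} (hab : a ≤ b)
    (h : ∀ s ∈ Icc a b, ∀ t ∈ Icc a b, r t - r s ≤ |Ω t - Ω s| + β s + β t) :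
    ∃ r' : ℝ → ℝ, (∀ s ∈ Icc a b, ∀ t ∈ Icc a b, |r' t - r' s| ≤ |Ω t - Ω s|) ∧
      ∀ t ∈ Icc a b, |r' t - r t| ≤ β t := by
  set S : ℝ → Set ℝ := fun t => (fun s => r s + β s + |Ω t - Ω s|) '' Icc a b with hS
  have ne : ∀ t, (S t).Nonempty := fun t => ⟨_, a, left_mem_Icc.mpr hab, rfl⟩
  have lo : ∀ t ∈ Icc a b, r t - β t ∈ lowerBounds (S t) := by
    rintro t ht _ ⟨s, hs, rfl⟩
    have := h s hs t ht
    simp only
    linarith
  have one : ∀ s ∈ Icc a b, ∀ t ∈ Icc a b, sInf (S t) - |Ω t - Ω s| ≤ sInf (S s) := by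
    intro s _ t ht
    refine le_csInf (ne s) ?_
    rintro _ ⟨u, hu, rfl⟩
    have h1 := csInf_le ⟨_, lo t ht⟩ (show r u + β u + |Ω t - Ω u| ∈ S t from ⟨u, hu, rfl⟩)
    have h2 := abs_sub_le (Ω t) (Ω s) (Ω u)
    simp only
    linarith
  refine ⟨fun t => sInf (S t), fun s hs t ht => ?_, fun t ht => ?_⟩
  · have h1 := one s hs t ht
    have h2 := one t ht s hs
    rw [abs_sub_comm] at h2
    exact abs_le.mpr ⟨by linarith, by linarith⟩
  · have h1 := le_csInf (ne t) (lo t ht)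
    have h2 := csInf_le ⟨_, lo t ht⟩ (show r t + β t + |Ω t - Ω t| ∈ S t from ⟨t, ht, rfl⟩)
    rw [sub_self, abs_zero] at h2
    exact abs_le.mpr ⟨by linarith, by linarith⟩

variable {P : Type} {c C : ℝ} {ok : P → Prop} {z Γ G : P → ℝ → ℝ}

/-- residual data on the block `[A, B]`: `Γb - Γh + H = r1 + r2`, `r2` slowly varying,
`ξ` bounds the pairing of the rest with `dz` -/
structure Res (T : ℝ) (dz ρ H r1 r2 ω β ξ : ℝ → ℝ) (A B : ℝ) : Prop where
  lH : LB T H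
  lω : LB T ω
  lξ : LB T ξ
  eq : ∀ t, A < t → t < B → ρ t + H t = r1 t + r2 t
  ω_nn : ∀ t, A < t → t < B → 0 ≤ ω t
  slow : ∀ s t, A ≤ s → s ≤ t → t ≤ B → |r2 t - r2 s| ≤ (∫ u in s..t, ω u) + β s + β t
  H_nn : ∀ t, A < t → t < B → 0 ≤ H t * dz t
  ξ_nn : ∀ t, A < t → t < B → 0 ≤ ξ t
  pair : ∀ t, A < t → t < B → r1 t * dz t + β t * |dz t| ≤ ξ t

/-- the error of a cut -/
def cutErr (c C L M η α D ε len : ℝ) : ℝ :=
  38 * η * α + 19 * M * α * (20 * α / L + D) +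
    2 * C ^ 2 / c * (800 * L * α ^ 2 + len * (ε + 40 * L * α) ^ 2)

theorem Fr.fin (F : Fr T c C ok z Γ G) {pb ph ps : P} (hb : ok pb) (hh : ok ph) (hs : ok ps)
    {A A' B' B a a1 b0 b α D L M η ε B0 : ℝ} (hA : 0 ≤ A) (h0 : A ≤ a) (h1 : a ≤ a1) (h1' : a1 ≤ A')
    (h2 : A' ≤ B') (h2' : B' ≤ b0) (h3 : b0 ≤ b) (h4 : b ≤ B) (hBT : B ≤ T) (hL1 : a1 - a ≤ L)
    (hL2 : b - b0 ≤ L) (hM : 0 < M) (hη0 : 0 ≤ η) (hE0 : 0 ≤ 20 * α / L + D)
    (h : Cmp T (z ph) (z pb) (z ps) a a1 b0 b α (20 * α / L + D)) {H r1 r2 ω β ξ : ℝ → ℝ}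
    (R : Res T (fun t => z pb t - z ph t) (fun t => Γ pb t - Γ ph t) H r1 r2 ω β ξ A B)
    (hH : ∀ t, A < t → t < B → t < a1 ∨ b0 ≤ t → H t ^ 2 ≤ M * (H t * (z pb t - z ph t)))
    (hη : ∀ t, A < t → t < B → t < a1 ∨ b0 ≤ t → |r1 t| + β t ≤ η)
    (hε : (∫ t in (0 : ℝ)..A', |Jf T (z ph) (z pb) t|) + (∫ t in B'..T, |Jf T (z ph) (z pb) t|) ≤ ε ∨
      (∫ t in (0 : ℝ)..a, |Jf T (z ph) (z pb) t|) + (∫ t in b..T, |Jf T (z ph) (z pb) t|) ≤ ε)
    (hB0 : 0 ≤ B0) (hB : a1 = 0 → (|r2 0| + β 0) * |Jf T (z ph) (z pb) 0| ≤ B0) :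
    c / 2 * (∫ t in A'..B', Jf T (z ph) (z pb) t ^ 2) +
        (∫ t in A'..B', H t * (z pb t - z ph t)) / 2 ≤
      (∫ t in A..B, ξ t) + B0 + (∫ t in A..B, ω t ^ 2) / c + cutErr c C L M η α D ε (B - A) := by
  have ha : 0 ≤ a := by linarith
  have hab : a ≤ b := by linarith
  have hbT : b ≤ T := by linarith
  have hT : 0 ≤ T := by linarith
  have hc := F.c_pos
  have ma : a ∈ Icc 0 T := ⟨ha, by linarith⟩
  have mT : T ∈ Icc 0 T := right_mem_Icc.mpr hT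
  have lz : LB T fun t => z pb t - z ph t := (F.lbz hb).sub (F.lbz hh)
  have lJ := F.lbJ hh hb mT
  have eΩ : ∀ s t, a ≤ s → s ≤ t → t ≤ b →
      |(∫ u in a..t, ω u) - ∫ u in a..s, ω u| = ∫ u in s..t, ω u := fun s t s0 s1 s2 => by
    rw [int_split R.lω ma (b := s) (c := t) ⟨by linarith, by linarith⟩ ⟨by linarith, by linarith⟩,
      add_sub_cancel_left, abs_of_nonneg]
    simpa using int_mono (LB.const 0) R.lω (by linarith) s1 (by linarith) fun u u0 u1 =>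
      R.ω_nn u (by linarith) (by linarith)
  obtain ⟨r', q1, q2⟩ := exists_reg (r := r2) (Ω := fun t => ∫ u in a..t, ω u) (β := β) hab
    fun s hs t ht => by
      rcases le_total s t with e | e
      · rw [eΩ s t hs.1 e ht.2]
        linarith [le_abs_self (r2 t - r2 s), R.slow s t (h0.trans hs.1) e (ht.2.trans h4)]
      · rw [abs_sub_comm, eΩ t s ht.1 e hs.2]
        linarith [neg_abs_le (r2 s - r2 t), R.slow t s (h0.trans ht.1) e (hs.2.trans h4)]
  obtain ⟨w, lw, w1, w2⟩ := exists_dens (r := r') R.lω ha hab hbT fun s t s0 s1 s2 => by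
    rw [← eΩ s t s0 s1 s2]; exact q1 s ⟨s0, by linarith⟩ t ⟨by linarith, s2⟩
  have l2 : LB T fun t => r' a + ∫ s in a..t, w s := by
    refine (LB.const _).add (.of_cont ((lw.tail ma).neg.congr fun t _ => ?_))
    simp only [Pi.neg_apply]; rw [integral_symm]
  have lρ : LB T fun t => Γ pb t - Γ ph t + H t := ((F.lbΓ hb hT).sub (F.lbΓ hh hT)).add R.lH
  have dev : ∀ t, a < t → t < b →
      |Γ pb t - Γ ph t + H t - (r' a + ∫ s in a..t, w s) - r1 t| ≤ β t := fun t t0 t1 => by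
    have e := R.eq t (by linarith) (by linarith)
    rw [← w1 t ⟨t0.le, t1.le⟩, e, abs_sub_comm]
    convert q2 t ⟨t0.le, t1.le⟩ using 2
    ring
  have hε' : (∫ t in (0 : ℝ)..a, |Jf T (z ph) (z pb) t|) +
      (∫ t in b..T, |Jf T (z ph) (z pb) t|) ≤ ε := by
    rcases hε with e | e
    · have m1 := int_sub_le lJ.abs le_rfl le_rfl ha (show a ≤ A' by linarith) (by linarith)
        fun _ _ _ => abs_nonneg _
      have m2 := int_sub_le lJ.abs (show 0 ≤ B' by linarith) (show B' ≤ b by linarith) hbT le_rfl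
        le_rfl fun _ _ _ => abs_nonneg _
      linarith
    · exact e
  have m := F.cut_est hb hh hs ha h1 (by linarith) h3 hbT hL1 hL2 hM hη0 hE0 h R.lH (lρ.sub l2) l2 lw
    (fun t _ _ => by ring) (fun t _ => by simp)
    (fun t t0 t1 => R.H_nn t (by linarith) (by linarith))
    (fun t t0 t1 => hH t (by linarith) (by linarith))
    (fun t t0 t1 hw => by
      have e1 := hη t (by linarith) (by linarith) hw
      have e2 := abs_add_le (Γ pb t - Γ ph t + H t - (r' a + ∫ s in a..t, w s) - r1 t) (r1 t)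
      rw [sub_add_cancel] at e2
      linarith [dev t t0 t1]) hε' hB0 fun e => by
      have ea : a = 0 := by linarith
      subst ea
      refine le_trans ?_ (hB e)
      have e1 := q2 0 (left_mem_Icc.mpr hab)
      have e2 := abs_add_le (r' 0 - r2 0) (r2 0)
      rw [sub_add_cancel] at e2
      rw [integral_same, add_zero]
      refine (le_abs_self _).trans ?_
      rw [abs_mul]
      exact mul_le_mul_of_nonneg_right (by linarith) (abs_nonneg _)
  have m1 := int_sub_le lJ.sq (show 0 ≤ a1 by linarith) h1' h2 h2' (by linarith)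
    fun _ _ _ => sq_nonneg _
  have m2 := int_sub_le (R.lH.mul lz) ha (show a ≤ A' by linarith) h2 (show B' ≤ b by linarith) hbT
    fun t t0 t1 => R.H_nn t (by linarith) (by linarith)
  have m3 := int_mono ((lρ.sub l2).mul lz) R.lξ ha hab hbT fun t t0 t1 => by
    have e1 := mul_le_mul_of_nonneg_right (dev t t0 t1) (abs_nonneg (z pb t - z ph t))
    rw [← abs_mul] at e1
    have e2 := R.pair t (by linarith) (by linarith)
    linarith [le_abs_self ((Γ pb t - Γ ph t + H t - (r' a + ∫ s in a..t, w s) - r1 t) *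
      (z pb t - z ph t))]
  have m4 := int_sub_le R.lξ hA h0 hab h4 hBT R.ξ_nn
  have m5 := div_le_div_of_nonneg_right
    (w2.trans (int_sub_le R.lω.sq hA h0 hab h4 hBT fun _ _ _ => sq_nonneg _)) hc.le
  have m6 := mul_le_mul_of_nonneg_left m1 (show 0 ≤ c / 2 by positivity)
  have m7 : 2 * C ^ 2 / c * (800 * L * α ^ 2 + (b - a) * (ε + 40 * L * α) ^ 2) ≤
      2 * C ^ 2 / c * (800 * L * α ^ 2 + (B - A) * (ε + 40 * L * α) ^ 2) :=
    mul_le_mul_of_nonneg_left (add_le_add le_rfl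
      (mul_le_mul_of_nonneg_right (by linarith) (sq_nonneg _))) (by positivity)
  unfold cutErr
  linarith

/-- data of a margin `[x, y]`: slope of the reference, sizes on the part `[x', y']` where the
point of the cut is chosen -/
structure Mar (T : ℝ) (zh zb : ℝ → ℝ) (x y x' y' L c1 δ0 D α : ℝ) : Prop where
  c_pos : 0 < c1
  δ_nn : 0 ≤ δ0
  δ_lt : δ0 < D
  α_pos : 0 < α
  lt : x' < y'
  slope : ∀ t t', x ≤ t → t ≤ t' → t' ≤ y → c1 * (t' - t) - δ0 ≤ zh t' - zh t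
  hJ : 2 * ∫ s in x'..y', Jf T zh zb s ^ 2 ≤ (y' - x') * α ^ 2
  hd : 2 * ∫ s in x'..y', (zb s - zh s) ^ 2 ≤ (y' - x') * (D - δ0) ^ 2
  hD : D ^ 2 ≤ c1 * α
  hα : 80 * α ≤ c1 * L ^ 2

theorem Fr.pt (F : Fr T c C ok z Γ G) {pb ph : P} (hb : ok pb) (hh : ok ph)
    {x y x' y' L c1 δ0 D α : ℝ} (hx : 0 ≤ x') (hy : y' ≤ T)
    (h : Mar T (z ph) (z pb) x y x' y' L c1 δ0 D α) :
    ∃ t, x' < t ∧ t < y' ∧ ∀ s, x ≤ s → s + L ≤ y → Pt T (z ph) (z pb) t s L c1 δ0 D α := by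
  obtain ⟨t, t0, t1, e1, e2⟩ := exists_pt
    (F.lbJ hh hb (right_mem_Icc.mpr (by linarith [h.lt]))) ((F.lbz hb).sub (F.lbz hh)) hx h.lt hy
    h.α_pos (sub_pos.mpr h.δ_lt) h.hJ h.hd
  exact ⟨t, t0, t1, fun s s0 s1 => ⟨h.c_pos, h.δ_nn,
    fun u u' u0 u1 u2 => h.slope u u' (by linarith) u1 (by linarith), by linarith, e1, h.hD, h.hα⟩⟩

theorem Mar.nn {zh zb : ℝ → ℝ} {x y x' y' L c1 δ0 D α : ℝ} (h : Mar T zh zb x y x' y' L c1 δ0 D α)
    (hL : 0 < L) : 0 ≤ 20 * α / L + D := by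
  have := h.α_pos
  have := h.δ_nn.trans h.δ_lt.le
  positivity

/-- **two-sided cut**: block `[A', B']` inside `[A, B]` -/
theorem Fr.block_two (F : Fr T c C ok z Γ G) {pb ph : P} (hb : ok pb) (hh : ok ph)
    {A A' B' B α D L M η ε c1 δ0 : ℝ} (hA : 0 ≤ A) (h2 : A' ≤ B') (hBT : B ≤ T) (hL : 0 < L)
    (hM : 0 < M) (hη0 : 0 ≤ η) (lo : Mar T (z ph) (z pb) A A' A (A' - L) L c1 δ0 D α)
    (up : Mar T (z ph) (z pb) B' B (B' + L) B L c1 δ0 D α) {H r1 r2 ω β ξ : ℝ → ℝ}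
    (R : Res T (fun t => z pb t - z ph t) (fun t => Γ pb t - Γ ph t) H r1 r2 ω β ξ A B)
    (hH : ∀ t, A < t → t < B → t < A' ∨ B' ≤ t → H t ^ 2 ≤ M * (H t * (z pb t - z ph t)))
    (hη : ∀ t, A < t → t < B → t < A' ∨ B' ≤ t → |r1 t| + β t ≤ η)
    (hε : (∫ t in (0 : ℝ)..A', |Jf T (z ph) (z pb) t|) +
      (∫ t in B'..T, |Jf T (z ph) (z pb) t|) ≤ ε) :
    c / 2 * (∫ t in A'..B', Jf T (z ph) (z pb) t ^ 2) +
        (∫ t in A'..B', H t * (z pb t - z ph t)) / 2 ≤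
      (∫ t in A..B, ξ t) + (∫ t in A..B, ω t ^ 2) / c + cutErr c C L M η α D ε (B - A) := by
  have l1 := lo.lt
  have l2 := up.lt
  obtain ⟨a, a0, a1, pa⟩ := F.pt hb hh hA (by linarith) lo
  obtain ⟨b, b0, b1, pb'⟩ := F.pt hb hh (by linarith) hBT up
  obtain ⟨b', rfl⟩ : ∃ b', b = b' + L := ⟨b - L, by ring⟩
  obtain ⟨ps, hs, h⟩ := F.cmp_two hb hh (a := a) (b0 := b') (by linarith) hL (by linarith)
    (by linarith) (pa a a0.le (by linarith)) (pb' b' (by linarith) b1.le)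
  simpa using F.fin hb hh hs (B0 := 0) hA a0.le (by linarith) (by linarith) h2 (by linarith)
    (by linarith) b1.le hBT (by linarith) (by linarith) hM hη0 (lo.nn hL) h R
    (fun t t0 t1 e => hH t t0 t1 (e.imp (by intro; linarith) (by intro; linarith)))
    (fun t t0 t1 e => hη t t0 t1 (e.imp (by intro; linarith) (by intro; linarith)))
    (.inl hε) le_rfl fun e => by linarith

/-- **upper cut**: `[0, B']` inside `[0, B]` -/
theorem Fr.block_up (F : Fr T c C ok z Γ G) {pb ph : P} (hb : ok pb) (hh : ok ph)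
    {B' B α D L M η ε c1 δ0 B0 : ℝ} (h2 : 0 ≤ B') (hBT : B ≤ T) (hL : 0 < L)
    (hM : 0 < M) (hη0 : 0 ≤ η) (up : Mar T (z ph) (z pb) B' B (B' + L) B L c1 δ0 D α)
    {H r1 r2 ω β ξ : ℝ → ℝ}
    (R : Res T (fun t => z pb t - z ph t) (fun t => Γ pb t - Γ ph t) H r1 r2 ω β ξ 0 B)
    (hH : ∀ t, B' ≤ t → t < B → H t ^ 2 ≤ M * (H t * (z pb t - z ph t)))
    (hη : ∀ t, B' ≤ t → t < B → |r1 t| + β t ≤ η)
    (hε : ∫ t in B'..T, |Jf T (z ph) (z pb) t| ≤ ε)
    (hB : (|r2 0| + β 0) * |Jf T (z ph) (z pb) 0| ≤ B0) (hB0 : 0 ≤ B0) :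
    c / 2 * (∫ t in (0 : ℝ)..B', Jf T (z ph) (z pb) t ^ 2) +
        (∫ t in (0 : ℝ)..B', H t * (z pb t - z ph t)) / 2 ≤
      (∫ t in (0 : ℝ)..B, ξ t) + B0 + (∫ t in (0 : ℝ)..B, ω t ^ 2) / c +
        cutErr c C L M η α D ε B := by
  have l2 := up.lt
  obtain ⟨b, b0, b1, pb'⟩ := F.pt hb hh (by linarith) hBT up
  obtain ⟨b', rfl⟩ : ∃ b', b = b' + L := ⟨b - L, by ring⟩
  obtain ⟨ps, hs, h⟩ := F.cmp_up hb hh (b0 := b') (by linarith) hL (by linarith)
    (pb' b' (by linarith) b1.le)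
  simpa using F.fin hb hh hs (A := 0) (A' := 0) (ε := ε) le_rfl le_rfl le_rfl le_rfl h2 (by linarith)
    (by linarith) b1.le hBT (by linarith) (by linarith) hM hη0 (up.nn hL) h R
    (fun t t0 t1 e => hH t (by rcases e with e | e <;> linarith) t1)
    (fun t t0 t1 e => hη t (by rcases e with e | e <;> linarith) t1)
    (.inl (by simpa using hε)) hB0 fun _ => hB

/-- **lower cut**: `[A', T]` inside `[A, T]` -/
theorem Fr.block_low (F : Fr T c C ok z Γ G) {pb ph : P} (hb : ok pb) (hh : ok ph)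
    {A A' α D L M η ε c1 δ0 : ℝ} (hA : 0 ≤ A) (h2 : A' ≤ T) (hL : 0 < L)
    (hM : 0 < M) (hη0 : 0 ≤ η) (lo : Mar T (z ph) (z pb) A A' A (A' - L) L c1 δ0 D α)
    {H r1 r2 ω β ξ : ℝ → ℝ}
    (R : Res T (fun t => z pb t - z ph t) (fun t => Γ pb t - Γ ph t) H r1 r2 ω β ξ A T)
    (hH : ∀ t, A < t → t < A' → H t ^ 2 ≤ M * (H t * (z pb t - z ph t)))
    (hη : ∀ t, A < t → t < A' → |r1 t| + β t ≤ η)
    (hε : ∫ t in (0 : ℝ)..A', |Jf T (z ph) (z pb) t| ≤ ε) :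
    c / 2 * (∫ t in A'..T, Jf T (z ph) (z pb) t ^ 2) +
        (∫ t in A'..T, H t * (z pb t - z ph t)) / 2 ≤
      (∫ t in A..T, ξ t) + (∫ t in A..T, ω t ^ 2) / c + cutErr c C L M η α D ε (T - A) := by
  have l1 := lo.lt
  obtain ⟨a, a0, a1, pa⟩ := F.pt hb hh hA (by linarith) lo
  obtain ⟨ps, hs, h⟩ := F.cmp_low hb hh (a := a) (by linarith) hL (by linarith)
    (pa a a0.le (by linarith))
  simpa using F.fin hb hh hs (B0 := 0) (B' := T) (ε := ε) hA a0.le (by linarith) (by linarith) h2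
    le_rfl le_rfl le_rfl le_rfl (by linarith) (by linarith) hM hη0 (lo.nn hL) h R
    (fun t t0 t1 e => hH t t0 (by rcases e with e | e <;> linarith))
    (fun t t0 t1 e => hη t t0 (by rcases e with e | e <;> linarith))
    (.inl (by simpa using hε)) le_rfl fun e => by linarith

/-- **no cut** -/
theorem Fr.block_top (F : Fr T c C ok z Γ G) {pb ph : P} (hb : ok pb) (hh : ok ph) (hT : 0 ≤ T)
    {B0 : ℝ} {H r1 r2 ω β ξ : ℝ → ℝ}
    (R : Res T (fun t => z pb t - z ph t) (fun t => Γ pb t - Γ ph t) H r1 r2 ω β ξ 0 T)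
    (hB : (|r2 0| + β 0) * |Jf T (z ph) (z pb) 0| ≤ B0) (hB0 : 0 ≤ B0) :
    c / 2 * (∫ t in (0 : ℝ)..T, Jf T (z ph) (z pb) t ^ 2) +
        (∫ t in (0 : ℝ)..T, H t * (z pb t - z ph t)) / 2 ≤
      (∫ t in (0 : ℝ)..T, ξ t) + B0 + (∫ t in (0 : ℝ)..T, ω t ^ 2) / c := by
  simpa [cutErr] using F.fin hb hh hh (A := 0) (A' := 0) (B' := T) (α := 0) (D := 0) (L := 0) (M := 1)
    (η := 0) (ε := 0) le_rfl le_rfl le_rfl le_rfl hT le_rfl le_rfl le_rfl le_rfl (by simp) (by simp)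
    one_pos le_rfl (by simp) (by simpa using cmp_top (z ph) (z pb)) R
    (fun t t0 t1 e => by rcases e with e | e <;> linarith)
    (fun t t0 t1 e => by rcases e with e | e <;> linarith) (.inr (by simp)) hB0 fun _ => hB

end Crest.Agent.T156.Cut8
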