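import Mathlib

/-!
# Row 156, text (L), leaf L-f (helper8): energy inequality with cuts, frame-free

`zb` = located profile, `zh` = reference, `dz = zb - zh`, `J t = ∫_t^T dz`.
-/

set_option autoImplicit false

noncomputable section

namespace Crest.Agent.T156.Cut8

open MeasureTheory Set intervalIntegral

/-- bounded and measurable on `[0, T]` -/
def LB (T : ℝ) (f : ℝ → ℝ) : Prop :=
  AEStronglyMeasurable f (volume.restrict (Icc 0 T)) ∧ ∃ K, ∀ t ∈ Icc 0 T, |f t| ≤ K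

variable {T : ℝ} {f g : ℝ → ℝ}

theorem LB.ii (h : LB T f) {a b : ℝ} (ha : a ∈ Icc 0 T) (hb : b ∈ Icc 0 T) :
    IntervalIntegrable f volume a b := by
  obtain ⟨hm, K, hK⟩ := h
  have : IntegrableOn f (Icc 0 T) := Integrable.of_bound hm K
    ((ae_restrict_iff' measurableSet_Icc).mpr (Filter.Eventually.of_forall hK))
  exact (this.mono_set (uIcc_subset_Icc ha hb)).intervalIntegrable

theorem LB.of_cont (h : ContinuousOn f (Icc 0 T)) : LB T f :=
  ⟨h.aestronglyMeasurable measurableSet_Icc, isCompact_Icc.exists_bound_of_continuousOn h⟩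

theorem LB.of_meas (h : Measurable f) {K : ℝ} (hK : ∀ t ∈ Icc 0 T, |f t| ≤ K) : LB T f :=
  ⟨h.aestronglyMeasurable, K, hK⟩

theorem LB.of_mono (h : Monotone f) : LB T f :=
  .of_meas h.measurable (K := |f 0| + |f T|) fun t ht => by
    have h1 := h ht.1
    have h2 := h ht.2
    rw [abs_le]
    constructor <;> linarith [le_abs_self (f T), neg_abs_le (f 0), abs_nonneg (f 0),
      abs_nonneg (f T)]

theorem LB.const (c : ℝ) : LB T fun _ => c := .of_cont continuousOn_const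

theorem LB.add (hf : LB T f) (hg : LB T g) : LB T fun t => f t + g t := by
  obtain ⟨h1, K, hK⟩ := hf
  obtain ⟨h2, K', hK'⟩ := hg
  exact ⟨h1.add h2, K + K', fun t ht => (abs_add_le _ _).trans (add_le_add (hK t ht) (hK' t ht))⟩

theorem LB.mul (hf : LB T f) (hg : LB T g) : LB T fun t => f t * g t := by
  obtain ⟨h1, K, hK⟩ := hf
  obtain ⟨h2, K', hK'⟩ := hg
  exact ⟨h1.mul h2, K * K', fun t ht => by
    rw [abs_mul]
    exact mul_le_mul (hK t ht) (hK' t ht) (abs_nonneg _) ((abs_nonneg _).trans (hK t ht))⟩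

theorem LB.sub (hf : LB T f) (hg : LB T g) : LB T fun t => f t - g t := by
  simpa [sub_eq_add_neg] using hf.add ((LB.const (-1)).mul hg)

theorem LB.sq (hf : LB T f) : LB T fun t => f t ^ 2 := by simpa [pow_two] using hf.mul hf

theorem LB.abs (hf : LB T f) : LB T fun t => |f t| := by
  obtain ⟨h1, K, hK⟩ := hf
  exact ⟨h1.norm, K, fun t ht => by rw [abs_abs]; exact hK t ht⟩

theorem LB.div (hf : LB T f) (c : ℝ) : LB T fun t => f t / c := by
  simpa [div_eq_mul_inv] using hf.mul (LB.const c⁻¹)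

theorem LB.tail (hf : LB T f) {b : ℝ} (hb : b ∈ Icc 0 T) :
    ContinuousOn (fun t => ∫ s in t..b, f s) (Icc 0 T) := by
  have hT : (0 : ℝ) ≤ T := hb.1.trans hb.2
  have := (continuousOn_primitive_interval' (hf.ii (left_mem_Icc.mpr hT) (right_mem_Icc.mpr hT))
    (a := b) (by rwa [uIcc_of_le hT])).neg
  rw [uIcc_of_le hT] at this
  exact this.congr fun t _ => by simp only [Pi.neg_apply]; rw [integral_symm]

/-- integration by parts against a tail integral -/
theorem ibp {w : ℝ → ℝ} {a b : ℝ} (hab : a ≤ b) (hw : IntervalIntegrable w volume a b)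
    (hg : IntervalIntegrable g volume a b) (hf : ∀ t ∈ Icc a b, f t = f a + ∫ s in a..t, w s) :
    ∫ t in a..b, f t * g t = f a * (∫ s in a..b, g s) + ∫ t in a..b, w t * ∫ s in t..b, g s := by
  have h1 := hw.absolutelyContinuousOnInterval_intervalIntegral (c := a) (by simp)
  have h2 := hg.absolutelyContinuousOnInterval_intervalIntegral (c := b) (by simp)
  have h3 := h1.integral_mul_deriv_eq_deriv_mul h2
  have e1 : ∫ x in a..b, (∫ s in a..x, w s) * deriv (fun x => ∫ s in b..x, g s) x =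
      ∫ x in a..b, (∫ s in a..x, w s) * g x := by
    refine integral_congr_ae ?_
    filter_upwards [hg.ae_hasDerivAt_integral] with x hx hx'
    rw [(hx (uIoc_subset_uIcc hx') b (by simp)).deriv]
  have e2 : ∫ x in a..b, deriv (fun x => ∫ s in a..x, w s) x * (∫ s in b..x, g s) =
      -∫ x in a..b, w x * ∫ s in x..b, g s := by
    rw [← intervalIntegral.integral_neg]
    refine integral_congr_ae ?_
    filter_upwards [hw.ae_hasDerivAt_integral] with x hx hx'
    rw [(hx (uIoc_subset_uIcc hx') a (by simp)).deriv, integral_symm x b]; ring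
  rw [e1, e2] at h3
  simp only [integral_same, mul_zero, zero_mul, sub_zero, zero_sub, neg_neg] at h3
  rw [← h3, ← intervalIntegral.integral_const_mul, ← integral_add (hg.const_mul _)
    (hg.continuousOn_mul h1.continuousOn)]
  refine integral_congr fun t ht => ?_
  rw [uIcc_of_le hab] at ht
  simp only [hf t ht]
  ring_nf

/-- the tail integral of the difference of two profiles -/
def Jf (T : ℝ) (z0 z1 : ℝ → ℝ) (t : ℝ) : ℝ := ∫ s in t..T, (z1 s - z0 s)

/-- the class of profiles: closure, (MON) and the `H⁻¹` Lipschitz bound -/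
structure Fr {P : Type} (T c C : ℝ) (ok : P → Prop) (z Γ G : P → ℝ → ℝ) : Prop where
  c_pos : 0 < c
  C_nn : 0 ≤ C
  mono : ∀ p, ok p → Monotone (z p)
  pos : ∀ p, ok p → ∀ t, 0 < z p t
  le1 : ∀ p, ok p → ∀ t, z p t ≤ 1
  glue : ∀ p p', ok p → ok p' → ∀ s, 0 ≤ s → s ≤ T → (∀ t, 0 ≤ t → t < s → z p t ≤ z p' s) →
    ∃ r, ok r ∧ ∀ t, 0 ≤ t → t < T → z r t = if t < s then z p t else z p' t
  map : ∀ p, ok p → ∀ φ : ℝ → ℝ, Monotone φ → (∀ x, 0 < φ x ∧ φ x ≤ 1) →
    ∃ r, ok r ∧ ∀ t, 0 ≤ t → t < T → z r t = φ (z p t)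
  cont : ∀ p, ok p → ContinuousOn (G p) (Icc 0 T)
  gam : ∀ p, ok p → ∀ t ∈ Icc 0 T, Γ p t = ∫ s in (0 : ℝ)..t, G p s
  mon : ∀ p p', ok p → ok p' → c * ∫ t in (0 : ℝ)..T, Jf T (z p) (z p') t ^ 2 ≤
    ∫ t in (0 : ℝ)..T, (z p' t - z p t) * (Γ p' t - Γ p t)
  lip : ∀ p p', ok p → ok p' → ∀ t ∈ Icc 0 T, |G p' t - G p t| ≤
    C * (|Jf T (z p) (z p') t| + ∫ s in (0 : ℝ)..T, |Jf T (z p) (z p') s|)

theorem int_split (hf : LB T f) {a b c : ℝ} (ha : a ∈ Icc 0 T) (hb : b ∈ Icc 0 T)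
    (hc : c ∈ Icc 0 T) : ∫ t in a..c, f t = (∫ t in a..b, f t) + ∫ t in b..c, f t :=
  (integral_add_adjacent_intervals (hf.ii ha hb) (hf.ii hb hc)).symm

theorem int_zero {a b : ℝ} (hab : a ≤ b) (h : ∀ t, a < t → t < b → f t = 0) :
    ∫ t in a..b, f t = 0 := by
  rw [integral_congr_Ioo_of_le hab (g := fun _ => 0) fun t ht => h t ht.1 ht.2]; simp

theorem int_mono (hf : LB T f) (hg : LB T g) {a b : ℝ} (ha : 0 ≤ a) (hab : a ≤ b) (hb : b ≤ T)
    (h : ∀ t, a < t → t < b → f t ≤ g t) : ∫ t in a..b, f t ≤ ∫ t in a..b, g t :=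
  integral_mono_on_of_le_Ioo hab (hf.ii ⟨ha, hab.trans hb⟩ ⟨ha.trans hab, hb⟩)
    (hg.ii ⟨ha, hab.trans hb⟩ ⟨ha.trans hab, hb⟩) fun t ht => h t ht.1 ht.2

theorem int_le_const (hf : LB T f) {a b K : ℝ} (ha : 0 ≤ a) (hab : a ≤ b) (hb : b ≤ T)
    (h : ∀ t, a < t → t < b → f t ≤ K) : ∫ t in a..b, f t ≤ (b - a) * K := by
  simpa using int_mono hf (LB.const K) ha hab hb h

theorem int_sub_le (hf : LB T f) {a a' b' b : ℝ} (ha : 0 ≤ a) (h1 : a ≤ a') (h2 : a' ≤ b')
    (h3 : b' ≤ b) (hb : b ≤ T) (h : ∀ t, a < t → t < b → 0 ≤ f t) :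
    ∫ t in a'..b', f t ≤ ∫ t in a..b, f t := by
  rw [int_split hf (a := a) (b := a') (c := b) ⟨ha, by linarith⟩ ⟨by linarith, by linarith⟩
      ⟨by linarith, hb⟩,
    int_split hf (a := a') (b := b') (c := b) ⟨by linarith, by linarith⟩ ⟨by linarith, by linarith⟩
      ⟨by linarith, hb⟩]
  have m1 := int_mono (LB.const 0) hf ha h1 (by linarith) fun t t0 t1 => h t t0 (by linarith)
  have m2 := int_mono (LB.const 0) hf (by linarith) h3 hb fun t t0 t1 => h t (by linarith) t1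
  simp only [intervalIntegral.integral_zero] at m1 m2
  linarith

section core

variable {P : Type} {c C : ℝ} {ok : P → Prop} {z Γ G : P → ℝ → ℝ}

theorem Fr.lbz (F : Fr T c C ok z Γ G) {p : P} (hp : ok p) : LB T (z p) := .of_mono (F.mono p hp)

theorem Fr.lbJ (F : Fr T c C ok z Γ G) {p p' : P} (hp : ok p) (hp' : ok p') {b : ℝ}
    (hb : b ∈ Icc 0 T) : LB T (Jf b (z p) (z p')) :=
  .of_cont (((F.lbz hp').sub (F.lbz hp)).tail hb)

theorem Fr.gam' (F : Fr T c C ok z Γ G) {p : P} (hp : ok p) {a t : ℝ} (ha : a ∈ Icc 0 T)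
    (ht : t ∈ Icc 0 T) : Γ p t = Γ p a + ∫ s in a..t, G p s := by
  rw [F.gam p hp t ht, F.gam p hp a ha,
    int_split (.of_cont (F.cont p hp)) (left_mem_Icc.mpr (ha.1.trans ha.2)) ha ht]

theorem Fr.lbΓ (F : Fr T c C ok z Γ G) {p : P} (hp : ok p) (hT : 0 ≤ T) : LB T (Γ p) := by
  refine .of_cont (ContinuousOn.congr
    ((LB.of_cont (F.cont p hp)).tail (left_mem_Icc.mpr hT)).neg fun t ht => ?_)
  simp only [Pi.neg_apply]
  rw [F.gam p hp t ht, integral_symm]

/-- **energy inequality** for a competitor `ps` that agrees with `pb` outside `[a, b)` -/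
theorem Fr.core (F : Fr T c C ok z Γ G) {pb ph ps : P} (hb : ok pb) (hh : ok ph) (hs : ok ps)
    {a b M : ℝ} (ha : 0 ≤ a) (hab : a ≤ b) (hbT : b ≤ T)
    (hout : ∀ t, 0 ≤ t → t < T → t < a ∨ b ≤ t → z ps t = z pb t)
    {H r1 r2 w : ℝ → ℝ} (lH : LB T H) (l1 : LB T r1) (l2 : LB T r2) (lw : LB T w)
    (heq : ∀ t, a < t → t < b → Γ pb t - Γ ph t + H t = r1 t + r2 t)
    (hr2 : ∀ t ∈ Icc a b, r2 t = r2 a + ∫ s in a..t, w s)
    (hH : ∀ t, a < t → t < b → H t * (z ps t - z ph t) ≤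
      H t * (z pb t - z ph t) / 2 + M / 2 * (z ps t - z ph t) ^ 2) :
    c / 2 * (∫ t in a..b, Jf b (z ps) (z pb) t ^ 2) +
        (∫ t in a..b, H t * (z pb t - z ph t)) / 2 ≤
      (∫ t in a..b, r1 t * (z pb t - z ps t)) +
        (r2 a - (Γ ps a - Γ ph a)) * Jf b (z ps) (z pb) a + (∫ t in a..b, w t ^ 2) / c +
        M / 2 * (∫ t in a..b, (z ps t - z ph t) ^ 2) + (∫ t in a..b, (G ps t - G ph t) ^ 2) / c := by
  have hT : 0 ≤ T := ha.trans (hab.trans hbT)
  have ma : a ∈ Icc 0 T := ⟨ha, hab.trans hbT⟩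
  have mb : b ∈ Icc 0 T := ⟨ha.trans hab, hbT⟩
  have m0 : (0 : ℝ) ∈ Icc 0 T := left_mem_Icc.mpr hT
  have mT : T ∈ Icc 0 T := right_mem_Icc.mpr hT
  have hc := F.c_pos
  have ld : LB T fun t => z pb t - z ps t := (F.lbz hb).sub (F.lbz hs)
  have le : LB T fun t => z ps t - z ph t := (F.lbz hs).sub (F.lbz hh)
  have lz : LB T fun t => z pb t - z ph t := (F.lbz hb).sub (F.lbz hh)
  have lJ := F.lbJ hs hb mb
  have lG : LB T fun t => G ps t - G ph t := (LB.of_cont (F.cont ps hs)).sub (.of_cont (F.cont ph hh))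
  have lΓ : LB T fun t => Γ ps t - Γ ph t := (F.lbΓ hs hT).sub (F.lbΓ hh hT)
  have lm : LB T fun t => (z pb t - z ps t) * (Γ pb t - Γ ps t) :=
    ld.mul ((F.lbΓ hb hT).sub (F.lbΓ hs hT))
  -- (MON) localised
  have h1 := F.mon ps pb hs hb
  have e1 : ∫ t in (0 : ℝ)..T, (z pb t - z ps t) * (Γ pb t - Γ ps t) =
      ∫ t in a..b, (z pb t - z ps t) * (Γ pb t - Γ ps t) := by
    rw [int_split lm m0 ma mT, int_split lm ma mb mT,
      int_zero ha fun t t0 t1 => by rw [hout t t0.le (by linarith) (.inl t1)]; ring,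
      int_zero hbT fun t t0 t1 => by rw [hout t (by linarith) t1 (.inr t0.le)]; ring]
    ring
  have eJ : ∀ t ∈ Icc 0 T, Jf T (z ps) (z pb) t = Jf b (z ps) (z pb) t := fun t ht => by
    unfold Jf
    rw [int_split ld ht mb mT,
      int_zero hbT fun t t0 t1 => by rw [hout t (by linarith) t1 (.inr t0.le)]; ring, add_zero]
  have e2 : ∫ t in a..b, Jf b (z ps) (z pb) t ^ 2 ≤
      ∫ t in (0 : ℝ)..T, Jf T (z ps) (z pb) t ^ 2 := by
    rw [integral_congr (a := 0) (b := T) (g := fun t => Jf b (z ps) (z pb) t ^ 2) fun t ht => by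
      rw [uIcc_of_le hT] at ht; simp only [eJ t ht]]
    exact int_sub_le lJ.sq le_rfl ha hab hbT le_rfl fun _ _ _ => sq_nonneg _
  have i2 := ibp hab (lw.ii ma mb) (ld.ii ma mb) hr2
  have i3 := ibp (f := fun t => Γ ps t - Γ ph t) hab (lG.ii ma mb) (ld.ii ma mb) fun t ht => by
    have mt : t ∈ Icc 0 T := ⟨ha.trans ht.1, ht.2.trans hbT⟩
    rw [integral_sub ((LB.of_cont (F.cont ps hs)).ii ma mt) ((LB.of_cont (F.cont ph hh)).ii ma mt),
      F.gam' hs ma mt, F.gam' hh ma mt]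
    ring
  have h2 : ∫ t in a..b, (z pb t - z ps t) * (Γ pb t - Γ ps t) ≤
      ∫ t in a..b, (r1 t * (z pb t - z ps t) + r2 t * (z pb t - z ps t) -
        (Γ ps t - Γ ph t) * (z pb t - z ps t) - H t * (z pb t - z ph t) / 2 +
        M / 2 * (z ps t - z ph t) ^ 2) := by
    refine int_mono lm (((((l1.mul ld).add (l2.mul ld)).sub (lΓ.mul ld)).sub
      ((lH.mul lz).div 2)).add ((LB.const _).mul le.sq)) ha hab hbT fun t t0 t1 => ?_
    have e3 := heq t t0 t1
    have e4 := hH t t0 t1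
    have : Γ pb t - Γ ps t = r1 t + r2 t - H t - (Γ ps t - Γ ph t) := by linarith
    rw [this]
    nlinarith
  rw [integral_add (((((l1.mul ld).add (l2.mul ld)).sub (lΓ.mul ld)).sub
        ((lH.mul lz).div 2)).ii ma mb) (((LB.const _).mul le.sq).ii ma mb),
    integral_sub ((((l1.mul ld).add (l2.mul ld)).sub (lΓ.mul ld)).ii ma mb)
      (((lH.mul lz).div 2).ii ma mb),
    integral_sub (((l1.mul ld).add (l2.mul ld)).ii ma mb) ((lΓ.mul ld).ii ma mb),
    integral_add ((l1.mul ld).ii ma mb) ((l2.mul ld).ii ma mb), i2, i3,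
    intervalIntegral.integral_div, intervalIntegral.integral_const_mul] at h2
  have y : ∀ {u : ℝ → ℝ}, LB T u → ∀ σ : ℝ, σ ^ 2 = 1 →
      σ * ∫ t in a..b, u t * Jf b (z ps) (z pb) t ≤
        c / 4 * (∫ t in a..b, Jf b (z ps) (z pb) t ^ 2) + (∫ t in a..b, u t ^ 2) / c := by
    intro u lu σ hσ
    rw [← intervalIntegral.integral_const_mul, ← intervalIntegral.integral_const_mul,
      ← intervalIntegral.integral_div,
      ← integral_add (((LB.const _).mul lJ.sq).ii ma mb) ((lu.sq.div c).ii ma mb)]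
    refine int_mono ((LB.const _).mul (lu.mul lJ)) (((LB.const _).mul lJ.sq).add (lu.sq.div c))
      ha hab hbT fun t _ _ => ?_
    have : c / 4 * Jf b (z ps) (z pb) t ^ 2 + u t ^ 2 / c - σ * (u t * Jf b (z ps) (z pb) t) =
        (c * Jf b (z ps) (z pb) t / 2 - σ * u t) ^ 2 / c := by
      field_simp
      linear_combination (-(16 : ℝ) * u t ^ 2) * hσ
    have h0 : 0 ≤ (c * Jf b (z ps) (z pb) t / 2 - σ * u t) ^ 2 / c := by positivity
    linarith
  have y1 := y lw 1 (by norm_num)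
  have y2 := y lG (-1) (by norm_num)
  have h3 := mul_le_mul_of_nonneg_left e2 hc.le
  rw [e1] at h1
  unfold Jf at *
  linarith

end core

/-! ### the transition window -/

/-- projection on `[lo, hi]` -/
def clamp (lo hi y : ℝ) : ℝ := max lo (min hi y)

theorem clamp_mono (lo hi : ℝ) : Monotone (clamp lo hi) := fun _ _ h =>
  max_le_max le_rfl (min_le_min le_rfl h)

theorem clamp_lip (lo hi y y' : ℝ) : |clamp lo hi y - clamp lo hi y'| ≤ |y - y'| := by
  have h1 := le_abs_self (y - y')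
  have h2 := neg_abs_le (y - y')
  have h3 := abs_nonneg (y - y')
  unfold clamp
  simp only [max_def, min_def]
  rw [abs_le]
  split_ifs <;> constructor <;> linarith

theorem clamp_mem {lo hi : ℝ} (h : lo ≤ hi) (y : ℝ) : lo ≤ clamp lo hi y ∧ clamp lo hi y ≤ hi :=
  ⟨le_max_left _ _, max_le h (min_le_left _ _)⟩

theorem clamp_sub {lo hi : ℝ} (h : lo ≤ hi) (y : ℝ) :
    |clamp lo hi y - y| ≤ max (lo - y) 0 + max (y - hi) 0 := by
  unfold clamp
  simp only [max_def, min_def]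
  rw [abs_le]
  split_ifs <;> constructor <;> linarith

theorem area_le {k : ℝ → ℝ} (lk : LB T k) {s L c1 E : ℝ} (hs : 0 ≤ s) (hL : 0 < L)
    (hT : s + L ≤ T) (hc : 0 < c1) (hE : 0 ≤ E) (hEL : E ≤ c1 * L / 4)
    (pt : ∀ t, s ≤ t → t ≤ s + L → k t ≤ max (E - c1 * (t - s)) 0 + max (E - c1 * (s + L - t)) 0) :
    ∫ t in s..s + L, k t ≤ 2 * E ^ 2 / c1 := by
  obtain ⟨x, hx⟩ : ∃ x, x = E / c1 := ⟨_, rfl⟩
  have hx0 : 0 ≤ x := by rw [hx]; positivity
  have hxc : E = c1 * x := by rw [hx]; field_simp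
  have hxL : x ≤ L / 4 := by rw [hx, div_le_iff₀ hc]; linarith
  have z : ∀ y, x ≤ y → max (E - c1 * y) 0 = 0 := fun y hy =>
    max_eq_right (by linarith [mul_le_mul_of_nonneg_left hy hc.le])
  have b : ∀ y, 0 ≤ y → max (E - c1 * y) 0 ≤ E := fun y hy =>
    max_le (by linarith [mul_nonneg hc.le hy]) hE
  rw [int_split lk ⟨hs, by linarith⟩ (b := s + x) ⟨by linarith, by linarith⟩ ⟨by linarith, hT⟩,
    int_split lk (a := s + x) (b := s + L - x) ⟨by linarith, by linarith⟩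
      ⟨by linarith, by linarith⟩ ⟨by linarith, hT⟩]
  have m1 := int_le_const lk (K := E) hs (show s ≤ s + x by linarith) (by linarith)
    fun t t0 t1 => (pt t t0.le (by linarith)).trans (by
      rw [z (s + L - t) (by linarith), add_zero]; exact b _ (by linarith))
  have m2 := int_le_const lk (K := 0) (a := s + x) (b := s + L - x) (by linarith)
    (by linarith) (by linarith) fun t t0 t1 => (pt t (by linarith) (by linarith)).trans (by
      rw [z (s + L - t) (by linarith), z (t - s) (by linarith), add_zero])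
  have m3 := int_le_const lk (K := E) (a := s + L - x) (b := s + L) (by linarith)
    (by linarith) hT fun t t0 t1 => (pt t (by linarith) t1.le).trans (by
      rw [z (t - s) (by linarith), zero_add]; exact b _ (by linarith))
  have m4 : 2 * E ^ 2 / c1 = 2 * (x * E) := by rw [hx]; field_simp
  rw [m4]
  linarith

/-- a monotone transition with prescribed area `A` -/
theorem window {zh : ℝ → ℝ} (hz : Monotone zh) {s L c1 δ0 D α lo hi A : ℝ} (hs : 0 ≤ s)
    (hL : 0 < L) (hT : s + L ≤ T) (hc : 0 < c1) (hδ : 0 ≤ δ0)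
    (hsl : ∀ t t', s ≤ t → t ≤ t' → t' ≤ s + L → c1 * (t' - t) - δ0 ≤ zh t' - zh t)
    (hlo : |lo - zh s| + δ0 ≤ D) (hhi : |hi - zh (s + L)| + δ0 ≤ D) (hA : |A| ≤ α)
    (hD : D ^ 2 ≤ c1 * α) (hα : 80 * α ≤ c1 * L ^ 2) :
    lo ≤ hi ∧ ∃ u, (∫ t in s..s + L, (clamp lo hi (zh t + u) - zh t)) = A ∧
      (∫ t in s..s + L, |clamp lo hi (zh t + u) - zh t|) ≤ 19 * α ∧
      ∀ t, s ≤ t → t ≤ s + L → |clamp lo hi (zh t + u) - zh t| ≤ 20 * α / L + D := by
  have hα0 : 0 ≤ α := (abs_nonneg _).trans hA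
  have hD0 : 0 ≤ D := by linarith [abs_nonneg (lo - zh s)]
  have hDL : D ≤ c1 * L / 8 := by
    refine abs_le_of_sq_le_sq' ?_ (by positivity) |>.2
    nlinarith [mul_le_mul_of_nonneg_left hα hc.le, sq_nonneg (c1 * L)]
  have l1 := abs_le.mp (show |lo - zh s| ≤ D - δ0 by linarith)
  have l2 := abs_le.mp (show |hi - zh (s + L)| ≤ D - δ0 by linarith)
  have hcL : 0 < c1 * L := by positivity
  have hle : lo ≤ hi := by
    have := hsl s (s + L) le_rfl (by linarith) le_rfl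
    rw [add_sub_cancel_left] at this
    linarith
  refine ⟨hle, ?_⟩
  set u0 := 10 * α / L with hu0
  have hu00 : 0 ≤ u0 := by positivity
  have huL : u0 * L = 10 * α := by rw [hu0]; field_simp
  have hu8 : u0 ≤ c1 * L / 8 := by
    rw [hu0, div_le_iff₀ hL]; nlinarith
  have ms : s ∈ Icc 0 T := ⟨hs, by linarith⟩
  have me : s + L ∈ Icc 0 T := ⟨by linarith, hT⟩
  have lc : ∀ u, LB T fun t => clamp lo hi (zh t + u) := fun u =>
    .of_mono ((clamp_mono lo hi).comp fun _ _ h => add_le_add (hz h) le_rfl)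
  have le : ∀ u, LB T fun t => clamp lo hi (zh t + u) - zh t := fun u => (lc u).sub (.of_mono hz)
  have lk : ∀ u, LB T fun t => |clamp lo hi (zh t + u) - zh t - u| := fun u =>
    ((le u).sub (.const u)).abs
  have pt : ∀ u, |u| ≤ u0 → ∀ t, s ≤ t → t ≤ s + L → |clamp lo hi (zh t + u) - zh t - u| ≤
      max (D + u0 - c1 * (t - s)) 0 + max (D + u0 - c1 * (s + L - t)) 0 := by
    intro u hu t t0 t1
    have h1 := clamp_sub hle (zh t + u)
    have h2 := hsl s t le_rfl t0 t1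
    have h3 := hsl t (s + L) t0 t1 le_rfl
    have h4 := abs_le.mp hu
    rw [show clamp lo hi (zh t + u) - zh t - u = clamp lo hi (zh t + u) - (zh t + u) by ring]
    exact h1.trans (add_le_add (max_le_max (by linarith) le_rfl) (max_le_max (by linarith) le_rfl))
  have key : ∀ u, |u| ≤ u0 → (∫ t in s..s + L, |clamp lo hi (zh t + u) - zh t - u|) ≤ 9 * α := by
    intro u hu
    refine (area_le (lk u) hs hL hT hc (by linarith) (by linarith) (pt u hu)).trans ?_
    rw [div_le_iff₀ hc]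
    have h1 : u0 * u0 ≤ u0 * (c1 * L / 8) := mul_le_mul_of_nonneg_left hu8 hu00
    have h2 : u0 * (c1 * L / 8) = c1 * α * (10 / 8) := by
      rw [show u0 * (c1 * L / 8) = c1 * (u0 * L) / 8 by ring, huL]; ring
    nlinarith [sq_nonneg (D - u0)]
  have dev : ∀ u, |u| ≤ u0 →
      |(∫ t in s..s + L, (clamp lo hi (zh t + u) - zh t)) - u * L| ≤ 9 * α := by
    intro u hu
    have e : (∫ t in s..s + L, (clamp lo hi (zh t + u) - zh t)) - u * L =
        ∫ t in s..s + L, (clamp lo hi (zh t + u) - zh t - u) := by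
      rw [integral_sub ((le u).ii ms me) ((LB.const u).ii ms me)]; simp [mul_comm]
    rw [e]
    exact (abs_integral_le_integral_abs (by linarith)).trans (key u hu)
  have hcont : Continuous fun u => ∫ t in s..s + L, (clamp lo hi (zh t + u) - zh t) := by
    refine (LipschitzWith.of_dist_le' (K := L) fun u u' => ?_).continuous
    rw [Real.dist_eq, Real.dist_eq, ← integral_sub ((le u).ii ms me) ((le u').ii ms me)]
    refine (abs_integral_le_integral_abs (by linarith)).trans ?_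
    have := int_le_const ((le u).sub (le u')).abs (K := |u - u'|) hs (show s ≤ s + L by linarith) hT
      fun t _ _ => by
        have := clamp_lip lo hi (zh t + u) (zh t + u')
        rw [show zh t + u - (zh t + u') = u - u' by ring] at this
        convert this using 2; ring
    rwa [add_sub_cancel_left] at this
  have hA' := abs_le.mp hA
  have d1 := abs_le.mp (dev u0 (by rw [abs_of_nonneg hu00]))
  have d2 := abs_le.mp (dev (-u0) (by rw [abs_neg, abs_of_nonneg hu00]))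
  obtain ⟨u, hu, huA⟩ := intermediate_value_Icc (show -u0 ≤ u0 by linarith) hcont.continuousOn
    (show A ∈ Icc _ _ from ⟨by linarith, by linarith⟩)
  have hu' : |u| ≤ u0 := abs_le.mpr hu
  refine ⟨u, huA, ?_, fun t t0 t1 => ?_⟩
  · have m := int_mono (le u).abs ((lk u).add (.const u0)) hs (show s ≤ s + L by linarith) hT
      fun t _ _ => by
        have := abs_add_le (clamp lo hi (zh t + u) - zh t - u) u
        rw [sub_add_cancel] at this
        linarith
    rw [integral_add ((lk u).ii ms me) ((LB.const u0).ii ms me)] at m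
    simp only [intervalIntegral.integral_const, add_sub_cancel_left, smul_eq_mul] at m
    linarith [key u hu']
  · have h1 := clamp_sub hle (zh t + u)
    have h2 := hz t0
    have h3 := hz t1
    have h4 := abs_add_le (clamp lo hi (zh t + u) - (zh t + u)) u
    rw [show clamp lo hi (zh t + u) - (zh t + u) + u = clamp lo hi (zh t + u) - zh t by ring] at h4
    have h5 : max (lo - (zh t + u)) 0 + max (zh t + u - hi) 0 ≤ D + u0 := by
      simp only [max_def]
      split_ifs <;> linarith [hu.1, hu.2]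
    have : 20 * α / L = 2 * u0 := by rw [hu0]; ring
    linarith

section cut

variable {P : Type} {c C : ℝ} {ok : P → Prop} {z Γ G : P → ℝ → ℝ}

/-- data of a cut at the point `x` of the profile `pb`, window `[s, s + L]` -/
structure Pt (T : ℝ) (zh zb : ℝ → ℝ) (x s L c1 δ0 D α : ℝ) : Prop where
  c_pos : 0 < c1
  δ_nn : 0 ≤ δ0
  slope : ∀ t t', s ≤ t → t ≤ t' → t' ≤ s + L → c1 * (t' - t) - δ0 ≤ zh t' - zh t
  hd : |zb x - zh x| + δ0 ≤ D
  hJ : |Jf T zh zb x| ≤ α
  hD : D ^ 2 ≤ c1 * α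
  hα : 80 * α ≤ c1 * L ^ 2

/-- a competitor: `pb` outside `[a, b)`, `ph` on `[a1, b0)` -/
structure Cmp (T : ℝ) (zh zb zs : ℝ → ℝ) (a a1 b0 b α E0 : ℝ) : Prop where
  out : ∀ t, 0 ≤ t → t < T → t < a ∨ b ≤ t → zs t = zb t
  mid : ∀ t, a1 ≤ t → t < b0 → zs t = zh t
  up : (∫ t in b0..b, (zs t - zh t)) = -Jf T zh zb b
  low : a1 = 0 ∨ (∫ t in a..a1, (zs t - zh t)) = Jf T zh zb a
  upJ : |Jf T zh zb b| ≤ α
  up1 : (∫ t in b0..b, |zs t - zh t|) ≤ 19 * α
  low1 : (∫ t in a..a1, |zs t - zh t|) ≤ 19 * α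
  sup : ∀ t, a < t → t < b → |zs t - zh t| ≤ E0

/-- upper transition: `ph` below `b - L`, `pb` above `b` -/
theorem Fr.exists_up (F : Fr T c C ok z Γ G) {pb ph : P} (hb : ok pb) (hh : ok ph)
    {b0 L c1 δ0 D α : ℝ} (h0 : 0 ≤ b0) (hL : 0 < L) (hT : b0 + L ≤ T)
    (h : Pt T (z ph) (z pb) (b0 + L) b0 L c1 δ0 D α) :
    ∃ p, ok p ∧ (∀ t, 0 ≤ t → t < b0 → z p t = z ph t) ∧
      (∀ t, b0 + L ≤ t → t < T → z p t = z pb t) ∧
      (∫ t in b0..b0 + L, (z p t - z ph t)) = -Jf T (z ph) (z pb) (b0 + L) ∧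
      (∫ t in b0..b0 + L, |z p t - z ph t|) ≤ 19 * α ∧
      ∀ t, b0 ≤ t → t < b0 + L → |z p t - z ph t| ≤ 20 * α / L + D := by
  obtain ⟨hle, u, h1, h2, h3⟩ := window (F.mono ph hh) (lo := z ph b0) (hi := z pb (b0 + L))
    (A := -Jf T (z ph) (z pb) (b0 + L)) h0 hL hT h.c_pos h.δ_nn h.slope
    (by rw [sub_self, abs_zero]; linarith [h.hd, abs_nonneg (z pb (b0 + L) - z ph (b0 + L))])
    h.hd (by rw [abs_neg]; exact h.hJ) h.hD h.hα
  obtain ⟨p1, o1, e1⟩ := F.map ph hh (fun y => clamp (z ph b0) (z pb (b0 + L)) (y + u))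
    ((clamp_mono _ _).comp fun _ _ h => add_le_add h le_rfl) fun y =>
      ⟨(F.pos ph hh b0).trans_le (clamp_mem hle _).1, (clamp_mem hle _).2.trans (F.le1 pb hb _)⟩
  obtain ⟨p2, o2, e2⟩ := F.glue ph p1 hh o1 b0 h0 (by linarith) fun t _ t1 => by
    rw [e1 b0 h0 (by linarith)]
    exact (F.mono ph hh t1.le).trans (clamp_mem hle _).1
  have w : ∀ t, b0 ≤ t → t < b0 + L → z p2 t = clamp (z ph b0) (z pb (b0 + L)) (z ph t + u) :=
    fun t t0 t1 => by
      rw [e2 t (by linarith) (by linarith), if_neg (not_lt.mpr t0), e1 t (by linarith) (by linarith)]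
  obtain ⟨p, o, e⟩ := F.glue p2 pb o2 hb (b0 + L) (by linarith) hT fun t t0 t1 => by
    rcases lt_or_ge t b0 with h' | h'
    · rw [e2 t t0 (by linarith), if_pos h']; exact (F.mono ph hh h'.le).trans hle
    · rw [w t h' t1]; exact (clamp_mem hle _).2
  have w' : ∀ t, b0 ≤ t → t < b0 + L → z p t = clamp (z ph b0) (z pb (b0 + L)) (z ph t + u) :=
    fun t t0 t1 => by rw [e t (by linarith) (by linarith), if_pos t1, w t t0 t1]
  refine ⟨p, o, fun t t0 t1 => ?_, fun t t0 t1 => ?_, ?_, ?_, fun t t0 t1 => ?_⟩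
  · rw [e t t0 (by linarith), if_pos (by linarith), e2 t t0 (by linarith), if_pos t1]
  · rw [e t (by linarith) t1, if_neg (not_lt.mpr t0)]
  · rw [← h1]
    exact integral_congr_Ioo_of_le (by linarith) fun t ht => by simp only [w' t ht.1.le ht.2]
  · refine le_of_eq_of_le ?_ h2
    exact integral_congr_Ioo_of_le (by linarith) fun t ht => by simp only [w' t ht.1.le ht.2]
  · rw [w' t t0 t1]; exact h3 t t0 t1.le

/-- lower transition: `pb` below `a`, `ph` above `a + L` -/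
theorem Fr.exists_low (F : Fr T c C ok z Γ G) {pb ph : P} (hb : ok pb) (hh : ok ph)
    {a L c1 δ0 D α : ℝ} (h0 : 0 ≤ a) (hL : 0 < L) (hT : a + L ≤ T)
    (h : Pt T (z ph) (z pb) a a L c1 δ0 D α) :
    ∃ p, ok p ∧ (∀ t, 0 ≤ t → t < a → z p t = z pb t) ∧
      (∀ t, a + L ≤ t → t < T → z p t = z ph t) ∧
      (∫ t in a..a + L, (z p t - z ph t)) = Jf T (z ph) (z pb) a ∧
      (∫ t in a..a + L, |z p t - z ph t|) ≤ 19 * α ∧
      ∀ t, a ≤ t → t < a + L → |z p t - z ph t| ≤ 20 * α / L + D := by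
  obtain ⟨hle, u, h1, h2, h3⟩ := window (F.mono ph hh) (lo := z pb a) (hi := z ph (a + L))
    (A := Jf T (z ph) (z pb) a) h0 hL hT h.c_pos h.δ_nn h.slope h.hd
    (by rw [sub_self, abs_zero]; linarith [h.hd, abs_nonneg (z pb a - z ph a)])
    h.hJ h.hD h.hα
  obtain ⟨p1, o1, e1⟩ := F.map ph hh (fun y => clamp (z pb a) (z ph (a + L)) (y + u))
    ((clamp_mono _ _).comp fun _ _ h => add_le_add h le_rfl) fun y =>
      ⟨(F.pos pb hb a).trans_le (clamp_mem hle _).1, (clamp_mem hle _).2.trans (F.le1 ph hh _)⟩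
  obtain ⟨p2, o2, e2⟩ := F.glue pb p1 hb o1 a h0 (by linarith) fun t _ t1 => by
    rw [e1 a h0 (by linarith)]
    exact (F.mono pb hb t1.le).trans (clamp_mem hle _).1
  have w : ∀ t, a ≤ t → t < a + L → z p2 t = clamp (z pb a) (z ph (a + L)) (z ph t + u) :=
    fun t t0 t1 => by
      rw [e2 t (by linarith) (by linarith), if_neg (not_lt.mpr t0), e1 t (by linarith) (by linarith)]
  obtain ⟨p, o, e⟩ := F.glue p2 ph o2 hh (a + L) (by linarith) hT fun t t0 t1 => by
    rcases lt_or_ge t a with h' | h'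
    · rw [e2 t t0 (by linarith), if_pos h']; exact (F.mono pb hb h'.le).trans hle
    · rw [w t h' t1]; exact (clamp_mem hle _).2
  have w' : ∀ t, a ≤ t → t < a + L → z p t = clamp (z pb a) (z ph (a + L)) (z ph t + u) :=
    fun t t0 t1 => by rw [e t (by linarith) (by linarith), if_pos t1, w t t0 t1]
  refine ⟨p, o, fun t t0 t1 => ?_, fun t t0 t1 => ?_, ?_, ?_, fun t t0 t1 => ?_⟩
  · rw [e t t0 (by linarith), if_pos (by linarith), e2 t t0 (by linarith), if_pos t1]
  · rw [e t (by linarith) t1, if_neg (not_lt.mpr t0)]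
  · rw [← h1]
    exact integral_congr_Ioo_of_le (by linarith) fun t ht => by simp only [w' t ht.1.le ht.2]
  · refine le_of_eq_of_le ?_ h2
    exact integral_congr_Ioo_of_le (by linarith) fun t ht => by simp only [w' t ht.1.le ht.2]
  · rw [w' t t0 t1]; exact h3 t t0 t1.le

theorem abs_int_le (hf : LB T f) {a a' b' b : ℝ} (ha : 0 ≤ a) (h1 : a ≤ a') (h2 : a' ≤ b')
    (h3 : b' ≤ b) (hb : b ≤ T) : |∫ t in a'..b', f t| ≤ ∫ t in a..b, |f t| :=
  (abs_integral_le_integral_abs h2).trans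
    (int_sub_le hf.abs ha h1 h2 h3 hb fun _ _ _ => abs_nonneg _)

/-- the estimate for a competitor -/
theorem Fr.cut_est (F : Fr T c C ok z Γ G) {pb ph ps : P} (hb : ok pb) (hh : ok ph) (hs : ok ps)
    {a a1 b0 b α E0 L M η ε B0 : ℝ} (ha : 0 ≤ a) (h1 : a ≤ a1) (h2 : a1 ≤ b0) (h3 : b0 ≤ b)
    (hbT : b ≤ T) (hL1 : a1 - a ≤ L) (hL2 : b - b0 ≤ L) (hM : 0 < M) (hη0 : 0 ≤ η) (hE0 : 0 ≤ E0)
    (h : Cmp T (z ph) (z pb) (z ps) a a1 b0 b α E0)
    {H r1 r2 w : ℝ → ℝ} (lH : LB T H) (l1 : LB T r1) (l2 : LB T r2) (lw : LB T w)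
    (heq : ∀ t, a < t → t < b → Γ pb t - Γ ph t + H t = r1 t + r2 t)
    (hr2 : ∀ t ∈ Icc a b, r2 t = r2 a + ∫ s in a..t, w s)
    (hH0 : ∀ t, a < t → t < b → 0 ≤ H t * (z pb t - z ph t))
    (hH : ∀ t, a < t → t < b → t < a1 ∨ b0 ≤ t → H t ^ 2 ≤ M * (H t * (z pb t - z ph t)))
    (hη : ∀ t, a < t → t < b → t < a1 ∨ b0 ≤ t → |r1 t| ≤ η)
    (hε : (∫ t in (0 : ℝ)..a, |Jf T (z ph) (z pb) t|) + (∫ t in b..T, |Jf T (z ph) (z pb) t|) ≤ ε)
    (hB0 : 0 ≤ B0) (hB : a1 = 0 → r2 0 * Jf T (z ph) (z pb) 0 ≤ B0) :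
    c / 2 * (∫ t in a1..b0, Jf T (z ph) (z pb) t ^ 2) +
        (∫ t in a..b, H t * (z pb t - z ph t)) / 2 ≤
      (∫ t in a..b, r1 t * (z pb t - z ph t)) + B0 + 38 * η * α + (∫ t in a..b, w t ^ 2) / c +
        19 * M * α * E0 + 2 * C ^ 2 / c * (800 * L * α ^ 2 + (b - a) * (ε + 40 * L * α) ^ 2) := by
  have hab : a ≤ b := by linarith
  have hT : 0 ≤ T := by linarith
  have hL : 0 ≤ L := by linarith
  have hα : 0 ≤ α := (abs_nonneg _).trans h.upJ
  have hc := F.c_pos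
  have ma : a ∈ Icc 0 T := ⟨ha, by linarith⟩
  have ma1 : a1 ∈ Icc 0 T := ⟨by linarith, by linarith⟩
  have mb0 : b0 ∈ Icc 0 T := ⟨by linarith, by linarith⟩
  have mb : b ∈ Icc 0 T := ⟨by linarith, hbT⟩
  have m0 : (0 : ℝ) ∈ Icc 0 T := left_mem_Icc.mpr hT
  have mT : T ∈ Icc 0 T := right_mem_Icc.mpr hT
  have ld : LB T fun t => z pb t - z ps t := (F.lbz hb).sub (F.lbz hs)
  have le : LB T fun t => z ps t - z ph t := (F.lbz hs).sub (F.lbz hh)
  have lz : LB T fun t => z pb t - z ph t := (F.lbz hb).sub (F.lbz hh)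
  have lJ := F.lbJ hh hb mT
  have lK := F.lbJ hh hs mT
  have lS := F.lbJ hs hb mb
  have lG : LB T fun t => G ps t - G ph t := (LB.of_cont (F.cont ps hs)).sub (.of_cont (F.cont ph hh))
  have sp : ∀ {x y : ℝ}, x ∈ Icc 0 T → y ∈ Icc 0 T →
      Jf T (z ph) (z ps) x = (∫ t in x..y, (z ps t - z ph t)) + Jf T (z ph) (z ps) y :=
    fun hx hy => int_split le hx hy mT
  have K1 : ∀ t, b ≤ t → t ≤ T → Jf T (z ph) (z ps) t = Jf T (z ph) (z pb) t := fun t t0 t1 =>
    integral_congr_Ioo_of_le t1 fun s hs => by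
      simp only [h.out s (by linarith [hs.1]) hs.2 (.inr (t0.trans hs.1.le))]
  have K3 : ∀ t, a1 ≤ t → t ≤ b0 → Jf T (z ph) (z ps) t = 0 := fun t t0 t1 => by
    rw [sp ⟨by linarith, by linarith⟩ mb0, sp mb0 mb, h.up, K1 b le_rfl hbT,
      int_zero t1 fun s s0 s1 => by rw [h.mid s (by linarith) s1, sub_self]]
    ring
  have K4 : ∀ t, b0 ≤ t → t ≤ b → |Jf T (z ph) (z ps) t| ≤ 20 * α := fun t t0 t1 => by
    rw [sp ⟨by linarith, by linarith⟩ mb, K1 b le_rfl hbT]
    have := abs_int_le le mb0.1 t0 t1 le_rfl hbT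
    linarith [abs_add_le (∫ s in t..b, (z ps s - z ph s)) (Jf T (z ph) (z pb) b), h.upJ, h.up1]
  have K5 : ∀ t, a ≤ t → t ≤ a1 → |Jf T (z ph) (z ps) t| ≤ 20 * α := fun t t0 t1 => by
    rw [sp ⟨by linarith, by linarith⟩ ma1, K3 a1 le_rfl h2, add_zero]
    have := abs_int_le le ha t0 t1 le_rfl ma1.2
    linarith [h.low1]
  have K6 : ∫ t in (0 : ℝ)..a, |Jf T (z ph) (z ps) t| = ∫ t in (0 : ℝ)..a, |Jf T (z ph) (z pb) t| := by
    rcases h.low with h0 | h0
    · rw [show a = 0 by linarith]; simp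
    · refine integral_congr_Ioo_of_le ha fun t ht => ?_
      have mt : t ∈ Icc 0 T := ⟨ht.1.le, by linarith [ht.2]⟩
      have e : ∫ s in t..a, (z ps s - z ph s) = ∫ s in t..a, (z pb s - z ph s) :=
        integral_congr_Ioo_of_le ht.2.le fun s hs => by
          simp only [h.out s (by linarith [hs.1, ht.1]) (by linarith [hs.2]) (.inl hs.2)]
      rw [sp mt ma, sp ma ma1, K3 a1 le_rfl h2, h0, e, add_zero]
      exact congrArg _ (int_split lz mt ma mT).symm
  have eS : ∀ t ∈ Icc 0 T, Jf b (z ps) (z pb) t = Jf T (z ph) (z pb) t - Jf T (z ph) (z ps) t :=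
    fun t ht => by
      unfold Jf
      rw [← integral_sub (lz.ii ht mT) (le.ii ht mT)]
      simp only [sub_sub_sub_cancel_right]
      rw [int_split ld ht mb mT, int_zero hbT fun s s0 s1 => by
        rw [h.out s (by linarith) s1 (.inr s0.le), sub_self], add_zero]
  have three : ∀ {u : ℝ → ℝ}, LB T u → ∫ t in a..b, u t =
      (∫ t in a..a1, u t) + (∫ t in a1..b0, u t) + ∫ t in b0..b, u t := fun lu => by
    rw [int_split lu ma ma1 mb, int_split lu ma1 mb0 mb]; ring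
  have core := F.core hb hh hs (M := M) ha hab hbT h.out lH l1 l2 lw heq hr2 fun t t0 t1 => by
    by_cases hw : t < a1 ∨ b0 ≤ t
    · have := hH t t0 t1 hw
      refine le_of_mul_le_mul_left ?_ hM
      nlinarith [sq_nonneg (H t - M * (z ps t - z ph t))]
    · push Not at hw
      rw [h.mid t hw.1 hw.2, sub_self]
      linarith [hH0 t t0 t1]
  -- the left side
  have s1 : ∫ t in a1..b0, Jf T (z ph) (z pb) t ^ 2 ≤ ∫ t in a..b, Jf b (z ps) (z pb) t ^ 2 := by
    refine le_of_eq_of_le ?_ (int_sub_le lS.sq ha h1 h2 h3 hbT fun _ _ _ => sq_nonneg _)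
    refine integral_congr_Ioo_of_le h2 fun t ht => ?_
    rw [eS t ⟨by linarith [ht.1], by linarith [ht.2]⟩, K3 t ht.1.le ht.2.le, sub_zero]
  have e1 : ∫ t in a..b, |z ps t - z ph t| ≤ 38 * α := by
    rw [three le.abs, int_zero h2 fun s s0 s1 => by rw [h.mid s s0.le s1, sub_self, abs_zero]]
    linarith [h.up1, h.low1]
  have s2 : ∫ t in a..b, r1 t * (z pb t - z ps t) ≤
      (∫ t in a..b, r1 t * (z pb t - z ph t)) + 38 * η * α := by
    have m := int_mono (l1.mul ld) ((l1.mul lz).add ((LB.const η).mul le.abs)) ha hab hbT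
      fun t t0 t1 => by
        by_cases hw : t < a1 ∨ b0 ≤ t
        · have h5 := mul_le_mul_of_nonneg_right (hη t t0 t1 hw) (abs_nonneg (z ps t - z ph t))
          rw [← abs_mul] at h5
          linarith [neg_abs_le (r1 t * (z ps t - z ph t))]
        · push Not at hw
          rw [h.mid t hw.1 hw.2]; simp
    rw [integral_add ((l1.mul lz).ii ma mb) (((LB.const η).mul le.abs).ii ma mb),
      intervalIntegral.integral_const_mul] at m
    linarith [mul_le_mul_of_nonneg_left e1 hη0]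
  have s3 : (r2 a - (Γ ps a - Γ ph a)) * Jf b (z ps) (z pb) a ≤ B0 := by
    rcases h.low with h0 | h0
    · have : a = 0 := by linarith
      subst this
      rw [eS 0 m0, K3 0 h0.le (by linarith), F.gam ps hs 0 m0, F.gam ph hh 0 m0]
      simpa using hB h0
    · rw [eS a ma, sp ma ma1, K3 a1 le_rfl h2, h0]; simpa using hB0
  have s4 : ∫ t in a..b, (z ps t - z ph t) ^ 2 ≤ 38 * α * E0 := by
    have m := int_mono le.sq ((LB.const E0).mul le.abs) ha hab hbT fun t t0 t1 => by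
      rw [← sq_abs, pow_two]
      exact mul_le_mul_of_nonneg_right (h.sup t t0 t1) (abs_nonneg _)
    rw [intervalIntegral.integral_const_mul] at m
    linarith [mul_le_mul_of_nonneg_left e1 hE0]
  have s5 : ∫ t in (0 : ℝ)..T, |Jf T (z ph) (z ps) t| ≤ ε + 40 * L * α := by
    rw [int_split lK.abs m0 ma mT, int_split lK.abs ma mb mT, three lK.abs, K6,
      int_zero h2 fun s s0 s1 => by rw [K3 s s0.le s1.le, abs_zero],
      integral_congr_Ioo_of_le hbT (g := fun t => |Jf T (z ph) (z pb) t|) fun t ht => by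
        simp only [K1 t ht.1.le ht.2.le]]
    have m1 := int_le_const lK.abs ha h1 ma1.2 fun t t0 t1 => K5 t t0.le t1.le
    have m2 := int_le_const lK.abs mb0.1 h3 hbT fun t t0 t1 => K4 t t0.le t1.le
    have m3 := mul_le_mul_of_nonneg_right hL1 (show 0 ≤ 20 * α by positivity)
    have m4 := mul_le_mul_of_nonneg_right hL2 (show 0 ≤ 20 * α by positivity)
    linarith
  have s6 : ∫ t in a..b, Jf T (z ph) (z ps) t ^ 2 ≤ 800 * L * α ^ 2 := by
    rw [three lK.sq, int_zero h2 fun s s0 s1 => by rw [K3 s s0.le s1.le]; ring]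
    have m1 := int_le_const lK.sq (K := (20 * α) ^ 2) ha h1 ma1.2 fun t t0 t1 =>
      sq_le_sq' (abs_le.mp (K5 t t0.le t1.le)).1 (abs_le.mp (K5 t t0.le t1.le)).2
    have m2 := int_le_const lK.sq (K := (20 * α) ^ 2) mb0.1 h3 hbT fun t t0 t1 =>
      sq_le_sq' (abs_le.mp (K4 t t0.le t1.le)).1 (abs_le.mp (K4 t t0.le t1.le)).2
    have m3 := mul_le_mul_of_nonneg_right hL1 (sq_nonneg (20 * α))
    have m4 := mul_le_mul_of_nonneg_right hL2 (sq_nonneg (20 * α))
    linarith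
  have s7 : ∫ t in a..b, (G ps t - G ph t) ^ 2 ≤
      2 * C ^ 2 * (800 * L * α ^ 2 + (b - a) * (ε + 40 * L * α) ^ 2) := by
    have m := int_mono lG.sq ((LB.const (2 * C ^ 2)).mul (lK.sq.add (.const ((ε + 40 * L * α) ^ 2))))
      ha hab hbT fun t t0 t1 => by
        have h5 := (F.lip ph ps hh hs t ⟨by linarith, by linarith⟩).trans
          (mul_le_mul_of_nonneg_left (add_le_add le_rfl s5) F.C_nn)
        have h6 := sq_le_sq' (abs_le.mp h5).1 (abs_le.mp h5).2
        rw [← sq_abs (Jf T (z ph) (z ps) t)]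
        nlinarith [mul_nonneg (sq_nonneg C)
          (sq_nonneg (|Jf T (z ph) (z ps) t| - (ε + 40 * L * α)))]
    rw [intervalIntegral.integral_const_mul, integral_add (lK.sq.ii ma mb) ((LB.const _).ii ma mb),
      intervalIntegral.integral_const, smul_eq_mul] at m
    exact m.trans (mul_le_mul_of_nonneg_left (add_le_add s6 le_rfl) (by positivity))
  have s8 := div_le_div_of_nonneg_right s7 hc.le
  have s9 := mul_le_mul_of_nonneg_left s4 (show 0 ≤ M / 2 by positivity)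
  have s10 := mul_le_mul_of_nonneg_left s1 (show 0 ≤ c / 2 by positivity)
  rw [mul_div_right_comm] at s8
  linarith

/-- competitor with both cuts -/
theorem Fr.cmp_two (F : Fr T c C ok z Γ G) {pb ph : P} (hb : ok pb) (hh : ok ph)
    {a b0 L c1 δ0 D α : ℝ} (ha : 0 ≤ a) (hL : 0 < L) (h1 : a + L < b0) (hT : b0 + L ≤ T)
    (hl : Pt T (z ph) (z pb) a a L c1 δ0 D α) (hu : Pt T (z ph) (z pb) (b0 + L) b0 L c1 δ0 D α) :
    ∃ ps, ok ps ∧ Cmp T (z ph) (z pb) (z ps) a (a + L) b0 (b0 + L) α (20 * α / L + D) := by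
  obtain ⟨p1, o1, x1, x2, x3, x4, x5⟩ := F.exists_low hb hh ha hL (by linarith) hl
  obtain ⟨p2, o2, y1, y2, y3, y4, y5⟩ := F.exists_up hb hh (by linarith) hL hT hu
  obtain ⟨p, o, e⟩ := F.glue p1 p2 o1 o2 (a + L) (by linarith) (by linarith) fun t _ t1 => by
    rw [y1 _ (by linarith) h1, ← x2 _ le_rfl (by linarith)]
    exact F.mono p1 o1 t1.le
  have e1 : ∀ t, 0 ≤ t → t < a + L → z p t = z p1 t := fun t t0 t1 => by
    rw [e t t0 (by linarith), if_pos t1]
  have e2 : ∀ t, a + L ≤ t → t < T → z p t = z p2 t := fun t t0 t1 => by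
    rw [e t (by linarith) t1, if_neg (not_lt.mpr t0)]
  have hE : 0 ≤ 20 * α / L + D := (abs_nonneg _).trans (x5 a le_rfl (by linarith))
  refine ⟨p, o, ⟨fun t t0 t1 h => ?_, fun t t0 t1 => ?_, ?_, .inr ?_, hu.hJ, ?_, ?_,
    fun t t0 t1 => ?_⟩⟩
  · rcases h with h | h
    · rw [e1 t t0 (by linarith), x1 t t0 h]
    · rw [e2 t (by linarith) t1, y2 t h t1]
  · rw [e2 t t0 (by linarith), y1 t (by linarith) t1]
  · rw [← y3]
    exact integral_congr_Ioo_of_le (by linarith) fun t ht => by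
      simp only [e2 t (by linarith [ht.1]) (by linarith [ht.2])]
  · rw [← x3]
    exact integral_congr_Ioo_of_le (by linarith) fun t ht => by
      simp only [e1 t (by linarith [ht.1]) ht.2]
  · refine le_of_eq_of_le ?_ y4
    exact integral_congr_Ioo_of_le (by linarith) fun t ht => by
      simp only [e2 t (by linarith [ht.1]) (by linarith [ht.2])]
  · refine le_of_eq_of_le ?_ x4
    exact integral_congr_Ioo_of_le (by linarith) fun t ht => by
      simp only [e1 t (by linarith [ht.1]) ht.2]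
  · rcases lt_or_ge t (a + L) with h | h
    · rw [e1 t (by linarith) h]; exact x5 t t0.le h
    · rw [e2 t h (by linarith)]
      rcases lt_or_ge t b0 with h' | h'
      · rw [y1 t (by linarith) h', sub_self, abs_zero]; exact hE
      · exact y5 t h' t1

/-- competitor with the upper cut only (`a = a1 = 0`) -/
theorem Fr.cmp_up (F : Fr T c C ok z Γ G) {pb ph : P} (hb : ok pb) (hh : ok ph)
    {b0 L c1 δ0 D α : ℝ} (h0 : 0 ≤ b0) (hL : 0 < L) (hT : b0 + L ≤ T)
    (hu : Pt T (z ph) (z pb) (b0 + L) b0 L c1 δ0 D α) :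
    ∃ ps, ok ps ∧ Cmp T (z ph) (z pb) (z ps) 0 0 b0 (b0 + L) α (20 * α / L + D) := by
  obtain ⟨p, o, y1, y2, y3, y4, y5⟩ := F.exists_up hb hh h0 hL hT hu
  have hE : 0 ≤ 20 * α / L + D := (abs_nonneg _).trans (y5 b0 le_rfl (by linarith))
  have hα : 0 ≤ α := (abs_nonneg _).trans hu.hJ
  refine ⟨p, o, ⟨fun t t0 t1 h => ?_, y1, y3, .inl rfl, hu.hJ, y4, by simpa using hα,
    fun t t0 t1 => ?_⟩⟩
  · exact y2 t (h.resolve_left (not_lt.mpr t0)) t1
  · rcases lt_or_ge t b0 with h' | h'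
    · rw [y1 t t0.le h', sub_self, abs_zero]; exact hE
    · exact y5 t h' t1

/-- competitor with the lower cut only (`b0 = b = T`) -/
theorem Fr.cmp_low (F : Fr T c C ok z Γ G) {pb ph : P} (hb : ok pb) (hh : ok ph)
    {a L c1 δ0 D α : ℝ} (ha : 0 ≤ a) (hL : 0 < L) (hT : a + L ≤ T)
    (hl : Pt T (z ph) (z pb) a a L c1 δ0 D α) :
    ∃ ps, ok ps ∧ Cmp T (z ph) (z pb) (z ps) a (a + L) T T α (20 * α / L + D) := by
  obtain ⟨p, o, x1, x2, x3, x4, x5⟩ := F.exists_low hb hh ha hL hT hl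
  have hE : 0 ≤ 20 * α / L + D := (abs_nonneg _).trans (x5 a le_rfl (by linarith))
  have hα : 0 ≤ α := (abs_nonneg _).trans hl.hJ
  refine ⟨p, o, ⟨fun t t0 t1 h => ?_, x2, by simp [Jf], .inr x3, by simpa [Jf] using hα,
    by simpa using hα, x4, fun t t0 t1 => ?_⟩⟩
  · exact x1 t t0 (h.resolve_right (not_le.mpr t1))
  · rcases lt_or_ge t (a + L) with h' | h'
    · exact x5 t t0.le h'
    · rw [x2 t h' t1, sub_self, abs_zero]; exact hE

/-- no cut -/
theorem cmp_top (zh zb : ℝ → ℝ) : Cmp T zh zb zh 0 0 T T 0 0 :=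
  ⟨fun t t0 t1 h => by rcases h with h | h <;> linarith, fun _ _ _ => rfl, by simp [Jf], .inl rfl,
    by simp [Jf], by simp, by simp, fun _ _ _ => by simp⟩

end cut

end Crest.Agent.T156.Cut8
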