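import Crest.Agent.T156.Pder_69

/-!
Row 156 (helper3): the moment ODEs of the one-site Parisi diffusion in the LIST frame
(leaf (ODE) of docs/T156_28.md) and the comparison of two profiles (leaf (Cmp)).
`Et G l t = E G(Φ_t)(X_t)`; `Gam = E Φ_x²`, `Gp = E Φ_xx²`, `Am = E Φ_xx³`, `Nm = E Φ_xxx²`,
`N4 = E Φ_xxxx²`, `Bm = E Φ_xx Φ_xxx²`, `A4 = E Φ_xx⁴`.
-/

set_option autoImplicit false

namespace Crest.Agent.T156.Pp.Ode3

open MeasureTheory ProbabilityTheory Filter Topology Set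
open Crest.Agent.R164.GC Crest.Agent.R339.B Crest.Agent.R339.Var Crest.Agent.T157.Pf
open Crest.ProbabilityR.InvariantGlass (gaussOp)

noncomputable section

/-- `E G(Φ_t)(X_t)`, started at `0` -/
def Et (G : (ℝ → ℝ) → ℝ → ℝ) (l : List (ℝ × ℝ)) (t : ℝ) : ℝ := EX 1 l t (G (PhiT 1 l t)) 0

/-- admissible list with positive variances -/
structure AP (l : List (ℝ × ℝ)) : Prop where
  adm : Adm 1 l
  pos : ∀ p ∈ l, 0 < p.2

variable {l l' : List (ℝ × ℝ)}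

theorem AP.nn (h : AP l) : ∀ p ∈ l, 0 ≤ p.2 := fun p hp => (h.pos p hp).le

theorem AP.TT_nn (h : AP l) : 0 ≤ TT l := TT_nonneg h.nn

theorem Et_psi (G : (ℝ → ℝ) → ℝ → ℝ) (l : List (ℝ × ℝ)) : Et G l = PsiF G 1 l (nu0 1 l) :=
  funext fun t => (PsiF_nu0 G 1 l t).symm

theorem Et_cont {G : (ℝ → ℝ) → ℝ → ℝ} (hG : BFn G) (h : AP l) :
    ContinuousOn (Et G l) (Icc 0 (TT l)) := by
  rw [Et_psi]
  exact PsiF_continuousOn hG one_pos (gclass 1) l h.adm h.pos _ (Par.gc_nu0 l)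

theorem Et_rder {G : (ℝ → ℝ) → ℝ → ℝ} {G' : ℝ → (ℝ → ℝ) → ℝ → ℝ} (hG : BFn G)
    (hG' : ∀ c, BFn (G' c))
    (hd : ∀ Φ, Prof Φ → ∀ m, 0 < m → ∃ Fx, TB Φ m (fun v => G (gaussOp m v Φ))
      (fun v => G' m (gaussOp m v Φ)) Fx) (h : AP l) {t : ℝ} (h0 : 0 ≤ t) (h1 : t < TT l) :
    HasDerivWithinAt (Et G l) (Et (G' (lvr 1 l t)) l t) (Ici t) t := by
  rw [Et_psi, Et_psi]
  exact PsiF_rder hG hG' one_pos (fun Φ hΦ m hm ν hν d τ a b => by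
    obtain ⟨Fx, hF⟩ := hd Φ hΦ m hm
    exact EE_deriv hΦ m hF hν a b) l h.adm h.pos _ (Par.gc_nu0 l) t h0 h1

theorem Et_zero (G : (ℝ → ℝ) → ℝ → ℝ) (hl : ∀ p ∈ l, 0 ≤ p.2) : Et G l 0 = G (PhiL 1 l) 0 := by
  unfold Et
  rw [EX_nonpos hl le_rfl, PhiT_zero hl]

theorem Et_bc {G : (ℝ → ℝ) → ℝ → ℝ} (hG : BFn G) (l : List (ℝ × ℝ)) (t : ℝ) :
    ∃ K, BC (G (PhiT 1 l t)) K := hG.bc _ (PhiT_prof one_pos l t)

theorem Et_mono {G G' : (ℝ → ℝ) → ℝ → ℝ} (hG : BFn G) (hG' : BFn G') {t : ℝ}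
    (h : ∀ y, G (PhiT 1 l t) y ≤ G' (PhiT 1 l t) y) : Et G l t ≤ Et G' l t := by
  obtain ⟨K, hK⟩ := Et_bc hG l t
  obtain ⟨K', hK'⟩ := Et_bc hG' l t
  exact EX_mono one_pos _ _ hK hK' h 0

theorem Et_abs_le {G : (ℝ → ℝ) → ℝ → ℝ} (hG : BFn G) {t K : ℝ}
    (h : ∀ y, |G (PhiT 1 l t) y| ≤ K) : |Et G l t| ≤ K := by
  obtain ⟨K', hK⟩ := Et_bc hG l t
  exact (EX_BC one_pos l t (⟨hK.cont, h⟩ : BC _ K)).bd 0

theorem Et_nonneg {G : (ℝ → ℝ) → ℝ → ℝ} (hG : BFn G) {t : ℝ}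
    (h : ∀ y, 0 ≤ G (PhiT 1 l t) y) : 0 ≤ Et G l t := by
  obtain ⟨K', hK⟩ := Et_bc hG l t
  have := EX_mono one_pos l t (BC.const 0) hK h 0
  rwa [EX_const one_pos] at this

theorem Et_le {G : (ℝ → ℝ) → ℝ → ℝ} (hG : BFn G) {t K : ℝ}
    (h : ∀ y, G (PhiT 1 l t) y ≤ K) : Et G l t ≤ K := by
  obtain ⟨K', hK⟩ := Et_bc hG l t
  have := EX_mono one_pos l t hK (BC.const K) h 0
  rwa [EX_const one_pos] at this

/-- linearity in the form `E (a F + b G)` -/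
theorem Et_lin {G G' H : (ℝ → ℝ) → ℝ → ℝ} (hG : BFn G) (hG' : BFn G') (a b : ℝ)
    (hH : ∀ Φ y, H Φ y = a * G Φ y + b * G' Φ y) (l : List (ℝ × ℝ)) (t : ℝ) :
    Et H l t = a * Et G l t + b * Et G' l t := by
  obtain ⟨K, hK⟩ := Et_bc hG l t
  obtain ⟨K', hK'⟩ := Et_bc hG' l t
  unfold Et
  rw [show H (PhiT 1 l t) = fun y => a * G (PhiT 1 l t) y + b * G' (PhiT 1 l t) y from
    funext (hH _), EX_add one_pos l t (hK.const_mul a) (hK'.const_mul b),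
    EX_const_mul one_pos, EX_const_mul one_pos]

/-! ### the level function -/

theorem headLv_le_lvr : ∀ {l : List (ℝ × ℝ)}, Adm 1 l → ∀ t, headLv 1 l ≤ lvr 1 l t
  | [], _, _ => le_rfl
  | p :: l, h, t => by
    unfold lvr
    split_ifs
    · exact le_rfl
    · exact h.2.1.trans (headLv_le_lvr h.2.2.2 _)

theorem lvr_pos (h : Adm 1 l) (t : ℝ) : 0 < lvr 1 l t :=
  (h.head_pos one_pos).trans_le (headLv_le_lvr h t)

theorem lvr_le_one : ∀ {l : List (ℝ × ℝ)}, Adm 1 l → ∀ t, lvr 1 l t ≤ 1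
  | [], _, _ => le_rfl
  | p :: l, h, t => by
    unfold lvr
    split_ifs
    · exact h.head_le
    · exact lvr_le_one h.2.2.2 _

theorem lvr_mono : ∀ {l : List (ℝ × ℝ)}, Adm 1 l → Monotone (lvr 1 l)
  | [], _ => monotone_const
  | p :: l, h => fun s t hst => by
    unfold lvr
    split_ifs with h1 h2 h2
    · exact le_rfl
    · exact h.2.1.trans (headLv_le_lvr h.2.2.2 _)
    · exact absurd (hst.trans_lt h2) h1
    · exact lvr_mono h.2.2.2 (by linarith)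

theorem lvr_ii (h : Adm 1 l) (a b : ℝ) : IntervalIntegrable (lvr 1 l) volume a b :=
  (lvr_mono h).intervalIntegrable

/-! ### pointwise bounds -/

theorem D0_le (l : List (ℝ × ℝ)) (t x : ℝ) : |Dn 0 (PhiT 1 l t) x| ≤ 1 := by
  rw [Dn_zero]; exact (PhiT_prof one_pos l t).b1 x

theorem D1_pos (h : Adm 1 l) (t x : ℝ) : 0 < Dn 1 (PhiT 1 l t) x := by
  obtain ⟨m, _, _, hI⟩ := PhiT_inv one_pos l h t
  rw [Dn_one]; exact u2_pos hI x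

theorem D1_le (h : Adm 1 l) (t x : ℝ) : Dn 1 (PhiT 1 l t) x ≤ 1 := by
  obtain ⟨m, _, _, hI⟩ := PhiT_inv one_pos l h t
  rw [Dn_one]; exact Inv.d2_le hI one_pos x

theorem D2_le (h : Adm 1 l) (t x : ℝ) :
    |Dn 2 (PhiT 1 l t) x| ≤ 2 * Dn 1 (PhiT 1 l t) x * |Dn 0 (PhiT 1 l t) x| := by
  obtain ⟨m, hm, _, hI⟩ := PhiT_inv one_pos l h t
  have := d3_abs_le hI (up2_PhiT one_pos h t) hm x
  rw [mul_one] at this
  rwa [Dn_two, Dn_one, Dn_zero]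

theorem D2_le' (h : Adm 1 l) (t x : ℝ) : |Dn 2 (PhiT 1 l t) x| ≤ 2 * |Dn 0 (PhiT 1 l t) x| := by
  have a1 := D2_le h t x
  have a2 := D1_le h t x
  have a3 := abs_nonneg (Dn 0 (PhiT 1 l t) x)
  nlinarith

theorem D2_sq_le (h : Adm 1 l) (t x : ℝ) :
    Dn 2 (PhiT 1 l t) x ^ 2 ≤ 4 * Dn 0 (PhiT 1 l t) x ^ 2 := by
  have := pow_le_pow_left₀ (abs_nonneg _) (D2_le' h t x) 2
  rw [sq_abs, mul_pow, sq_abs] at this
  linarith

theorem D2_sq_le_four (h : Adm 1 l) (t x : ℝ) : Dn 2 (PhiT 1 l t) x ^ 2 ≤ 4 := by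
  have a1 := D2_sq_le h t x
  have a2 := pow_le_one₀ (n := 2) (abs_nonneg _) (D0_le l t x)
  rw [sq_abs] at a2
  linarith

theorem D0_zero (h : Adm 1 l) : Dn 0 (PhiL 1 l) 0 = 0 := by
  have := (PhiL_inv one_pos h).odd 0
  rw [neg_zero] at this
  rw [Dn_zero]; linarith

theorem D2_zero (h : Adm 1 l) : Dn 2 (PhiL 1 l) 0 = 0 := by
  have := u3_odd (PhiL_inv one_pos h) 0
  rw [neg_zero] at this
  rw [Dn_two]; linarith

/-- uniform bounds for all derivatives of `Φ_t` -/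
theorem Dn_PhiT (T : ℝ) (k : ℕ) : ∃ C : ℝ, 1 ≤ C ∧ ∀ l : List (ℝ × ℝ), Adm 1 l → TT l ≤ T →
    ∀ t, 0 ≤ t → ∀ j ≤ k, ∀ x, |Dn j (PhiT 1 l t) x| ≤ C := by
  obtain ⟨C, h1, hC⟩ := Dn_bound T (k + 1)
  refine ⟨C, h1, fun l h hT t ht j hj x => ?_⟩
  rw [Lip62.PhiT_eq_rest]
  obtain ⟨a, b⟩ := Lip62.adm_rest h t ht
  exact hC j (Nat.lt_succ_of_le hj) _ a (b.trans hT) x

/-! ### the moments -/

def W0 (Φ : ℝ → ℝ) (y : ℝ) : ℝ := Dn 0 Φ y ^ 2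
def W1 (Φ : ℝ → ℝ) (y : ℝ) : ℝ := Dn 1 Φ y ^ 2
def W1' (c : ℝ) (Φ : ℝ → ℝ) (y : ℝ) : ℝ := Dn 2 Φ y ^ 2 - 2 * c * Dn 1 Φ y ^ 3
def B3 (Φ : ℝ → ℝ) (y : ℝ) : ℝ := Dn 1 Φ y * Dn 2 Φ y ^ 2
def Q4 (Φ : ℝ → ℝ) (y : ℝ) : ℝ := Dn 1 Φ y ^ 4

theorem bfn_W0 : BFn W0 :=
  ⟨fun _ h => toBC ((Dn_bd h 0).pow 2), fun _ h m _ => (Dn_ug h m 0).pow 2⟩
theorem bfn_W1 : BFn W1 :=
  ⟨fun _ h => toBC ((Dn_bd h 1).pow 2), fun _ h m _ => (Dn_ug h m 1).pow 2⟩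
theorem bfn_W1' (c : ℝ) : BFn (W1' c) :=
  ⟨fun _ h => toBC (((Dn_bd h 2).pow 2).sub (((Dn_bd h 1).pow 3).const_mul (2 * c))),
    fun _ h m _ => ((Dn_ug h m 2).pow 2).sub (((Dn_ug h m 1).pow 3).const_mul (2 * c))⟩
theorem bfn_B3 : BFn B3 :=
  ⟨fun _ h => toBC ((Dn_bd h 1).mul ((Dn_bd h 2).pow 2)),
    fun _ h m _ => (Dn_ug h m 1).mul ((Dn_ug h m 2).pow 2)⟩
theorem bfn_Q4 : BFn Q4 :=
  ⟨fun _ h => toBC ((Dn_bd h 1).pow 4), fun _ h m _ => (Dn_ug h m 1).pow 4⟩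
theorem bfn_Dn (k : ℕ) : BFn (Dn k) :=
  ⟨fun _ h => toBC (Dn_bd h k), fun _ h m _ => Dn_ug h m k⟩

/-- `Γ = E Φ_x²` -/
def Gam : List (ℝ × ℝ) → ℝ → ℝ := Et W0
/-- `G = E Φ_xx²` -/
def Gp : List (ℝ × ℝ) → ℝ → ℝ := Et W1
/-- `A = E Φ_xx³` -/
def Am : List (ℝ × ℝ) → ℝ → ℝ := Et A3
/-- `N = E Φ_xxx²` -/
def Nm : List (ℝ × ℝ) → ℝ → ℝ := Et W2
/-- `N4 = E Φ_xxxx²` -/
def N4 : List (ℝ × ℝ) → ℝ → ℝ := Et W3
/-- `B = E Φ_xx Φ_xxx²` -/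
def Bm : List (ℝ × ℝ) → ℝ → ℝ := Et B3
/-- `E Φ_xx⁴` -/
def A4 : List (ℝ × ℝ) → ℝ → ℝ := Et Q4
/-- `E Φ_xx` -/
def X2 : List (ℝ × ℝ) → ℝ → ℝ := Et (Dn 1)

theorem Gam_cont (h : AP l) : ContinuousOn (Gam l) (Icc 0 (TT l)) := Et_cont bfn_W0 h
theorem Gp_cont (h : AP l) : ContinuousOn (Gp l) (Icc 0 (TT l)) := Et_cont bfn_W1 h
theorem Am_cont (h : AP l) : ContinuousOn (Am l) (Icc 0 (TT l)) := Et_cont bfn_A3 h
theorem Nm_cont (h : AP l) : ContinuousOn (Nm l) (Icc 0 (TT l)) := Et_cont bfn_W2 h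
theorem N4_cont (h : AP l) : ContinuousOn (N4 l) (Icc 0 (TT l)) := Et_cont bfn_W3 h
theorem Bm_cont (h : AP l) : ContinuousOn (Bm l) (Icc 0 (TT l)) := Et_cont bfn_B3 h
theorem A4_cont (h : AP l) : ContinuousOn (A4 l) (Icc 0 (TT l)) := Et_cont bfn_Q4 h
theorem X2_cont (h : AP l) : ContinuousOn (X2 l) (Icc 0 (TT l)) := Et_cont (bfn_Dn 1) h

variable {t : ℝ}

theorem Gam_rder (h : AP l) (h0 : 0 ≤ t) (h1 : t < TT l) :
    HasDerivWithinAt (Gam l) (Gp l t) (Ici t) t :=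
  Et_rder (G' := fun _ => W1) bfn_W0 (fun _ => bfn_W1) (fun Φ hΦ m _ => ⟨_,
    ((tb_Dn hΦ m 0).mul (tb_Dn hΦ m 0)).congr (fun v x => by unfold W0; ring)
      (fun v x => by
        unfold W1
        simp only [Finset.range_zero, Finset.sum_empty]
        ring) (fun _ _ => rfl)⟩) h h0 h1

theorem Gp_rder (h : AP l) (h0 : 0 ≤ t) (h1 : t < TT l) :
    HasDerivWithinAt (Gp l) (Nm l t - 2 * lvr 1 l t * Am l t) (Ici t) t := by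
  refine (Et_rder bfn_W1 bfn_W1' (fun Φ hΦ m _ => ⟨_,
    ((tb_Dn hΦ m 1).mul (tb_Dn hΦ m 1)).congr (fun v x => by unfold W1; ring)
      (fun v x => by
        unfold W1'
        simp only [Finset.sum_range_succ, Finset.range_zero, Finset.sum_empty]
        norm_num
        ring) (fun _ _ => rfl)⟩) h h0 h1).congr_deriv ?_
  rw [Et_lin bfn_W2 bfn_A3 1 (-(2 * lvr 1 l t)) (fun Φ y => by unfold W1' W2 A3; ring)]
  unfold Nm Am; ring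

theorem Nm_rder (h : AP l) (h0 : 0 ≤ t) (h1 : t < TT l) :
    HasDerivWithinAt (Nm l) (N4 l t - 6 * lvr 1 l t * Bm l t) (Ici t) t := by
  refine (Et_rder bfn_W2 bfn_W2' (fun Φ hΦ m _ => ⟨_,
    ((tb_Dn hΦ m 2).mul (tb_Dn hΦ m 2)).congr (fun v x => by unfold W2; ring)
      (fun v x => by
        unfold W2'
        simp only [Finset.sum_range_succ, Finset.range_zero, Finset.sum_empty]
        norm_num
        ring) (fun _ _ => rfl)⟩) h h0 h1).congr_deriv ?_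
  rw [Et_lin bfn_W3 bfn_B3 1 (-(6 * lvr 1 l t)) (fun Φ y => by unfold W2' W3 B3; ring)]
  unfold N4 Bm; ring

theorem Am_rder (h : AP l) (h0 : 0 ≤ t) (h1 : t < TT l) :
    HasDerivWithinAt (Am l) (3 * Bm l t - 3 * lvr 1 l t * A4 l t) (Ici t) t := by
  refine (Et_rder bfn_A3 bfn_A3' (fun Φ hΦ m _ => ⟨_,
    ((tb_Dn hΦ m 1).mul ((tb_Dn hΦ m 1).mul (tb_Dn hΦ m 1))).congr
      (fun v x => by unfold A3; ring)
      (fun v x => by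
        unfold A3'
        simp only [Finset.sum_range_succ, Finset.range_zero, Finset.sum_empty]
        norm_num
        ring) (fun _ _ => rfl)⟩) h h0 h1).congr_deriv ?_
  rw [Et_lin bfn_B3 bfn_Q4 3 (-(3 * lvr 1 l t)) (fun Φ y => by unfold A3' Q4 B3; ring)]
  unfold Bm A4; ring

theorem X2_rder (h : AP l) (h0 : 0 ≤ t) (h1 : t < TT l) :
    HasDerivWithinAt (X2 l) (-(lvr 1 l t * Gp l t)) (Ici t) t := by
  refine (Et_rder (G' := fun c Φ y => -c * W1 Φ y) (bfn_Dn 1) (fun c =>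
    ⟨fun Φ hΦ => toBC (((Dn_bd hΦ 1).pow 2).const_mul (-c)),
      fun Φ hΦ m _ => ((Dn_ug hΦ m 1).pow 2).const_mul (-c)⟩) (fun Φ hΦ m _ => ⟨_,
    (tb_Dn hΦ m 1).congr (fun v x => rfl)
      (fun v x => by
        unfold W1
        simp only [Finset.sum_range_succ, Finset.range_zero, Finset.sum_empty, zero_add,
          Nat.choose_self, Nat.sub_zero, Nat.cast_one]
        ring) (fun _ _ => rfl)⟩) h h0 h1).congr_deriv ?_
  rw [Et_lin bfn_W1 bfn_W1 (-lvr 1 l t) 0 (fun Φ y => by ring)]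
  unfold Gp; ring

theorem N4_rder (h : AP l) (h0 : 0 ≤ t) (h1 : t < TT l) :
    HasDerivWithinAt (N4 l) (Et (W3' (lvr 1 l t)) l t) (Ici t) t :=
  Et_rder bfn_W3 bfn_W3' (fun Φ hΦ m _ => ⟨_,
    ((tb_Dn hΦ m 3).mul (tb_Dn hΦ m 3)).congr (fun v x => by unfold W3; ring)
      (fun v x => by
        unfold W3'
        simp only [Finset.sum_range_succ, Finset.range_zero, Finset.sum_empty]
        norm_num [Nat.choose]
        ring) (fun _ _ => rfl)⟩) h h0 h1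

/-! ### values at `0` -/

/-- `χ = Φ_xx(0,0)` -/
def chi (l : List (ℝ × ℝ)) : ℝ := Dn 1 (PhiL 1 l) 0
/-- `k = Φ_xxxx(0,0)` -/
def kk (l : List (ℝ × ℝ)) : ℝ := Dn 3 (PhiL 1 l) 0

theorem Gam_zero (h : AP l) : Gam l 0 = 0 := by
  unfold Gam; rw [Et_zero _ h.nn, W0, D0_zero h.adm]; ring
theorem Gp_zero (h : AP l) : Gp l 0 = chi l ^ 2 := by
  unfold Gp; rw [Et_zero _ h.nn]; rfl
theorem Am_zero (h : AP l) : Am l 0 = chi l ^ 3 := by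
  unfold Am; rw [Et_zero _ h.nn]; rfl
theorem Nm_zero (h : AP l) : Nm l 0 = 0 := by
  unfold Nm; rw [Et_zero _ h.nn, W2, D2_zero h.adm]; ring
theorem N4_zero (h : AP l) : N4 l 0 = kk l ^ 2 := by
  unfold N4; rw [Et_zero _ h.nn]; rfl
theorem Bm_zero (h : AP l) : Bm l 0 = 0 := by
  unfold Bm; rw [Et_zero _ h.nn, B3, D2_zero h.adm]; ring
theorem X2_zero (h : AP l) : X2 l 0 = chi l := by
  unfold X2; rw [Et_zero _ h.nn]; rfl

theorem chi_pos (h : AP l) : 0 < chi l := by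
  have := D1_pos h.adm 0 0
  rwa [PhiT_zero h.nn] at this
theorem chi_le (h : AP l) : chi l ≤ 1 := by
  have := D1_le h.adm 0 0
  rwa [PhiT_zero h.nn] at this

/-! ### bounds -/

theorem Gam_nonneg (l : List (ℝ × ℝ)) (t : ℝ) : 0 ≤ Gam l t :=
  Et_nonneg bfn_W0 fun _ => sq_nonneg _
theorem Gam_le_one (l : List (ℝ × ℝ)) (t : ℝ) : Gam l t ≤ 1 :=
  Et_le bfn_W0 fun y => by
    have := pow_le_one₀ (n := 2) (abs_nonneg _) (D0_le l t y)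
    rwa [sq_abs] at this
theorem Gp_nonneg (l : List (ℝ × ℝ)) (t : ℝ) : 0 ≤ Gp l t :=
  Et_nonneg bfn_W1 fun _ => sq_nonneg _
theorem Gp_le_one (h : Adm 1 l) (t : ℝ) : Gp l t ≤ 1 :=
  Et_le bfn_W1 fun y => pow_le_one₀ (D1_pos h t y).le (D1_le h t y)
theorem Am_nonneg (h : Adm 1 l) (t : ℝ) : 0 ≤ Am l t :=
  Et_nonneg bfn_A3 fun y => pow_nonneg (D1_pos h t y).le 3
theorem Am_le_one (h : Adm 1 l) (t : ℝ) : Am l t ≤ 1 :=
  Et_le bfn_A3 fun y => pow_le_one₀ (D1_pos h t y).le (D1_le h t y)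
theorem A4_nonneg (h : Adm 1 l) (t : ℝ) : 0 ≤ A4 l t :=
  Et_nonneg bfn_Q4 fun y => pow_nonneg (D1_pos h t y).le 4
theorem A4_le_one (h : Adm 1 l) (t : ℝ) : A4 l t ≤ 1 :=
  Et_le bfn_Q4 fun y => pow_le_one₀ (D1_pos h t y).le (D1_le h t y)
theorem X2_nonneg (h : Adm 1 l) (t : ℝ) : 0 ≤ X2 l t :=
  Et_nonneg (bfn_Dn 1) fun y => (D1_pos h t y).le
theorem X2_le_one (h : Adm 1 l) (t : ℝ) : X2 l t ≤ 1 :=
  Et_le (bfn_Dn 1) fun y => D1_le h t y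
theorem Nm_nonneg (l : List (ℝ × ℝ)) (t : ℝ) : 0 ≤ Nm l t :=
  Et_nonneg bfn_W2 fun _ => sq_nonneg _
theorem N4_nonneg (l : List (ℝ × ℝ)) (t : ℝ) : 0 ≤ N4 l t :=
  Et_nonneg bfn_W3 fun _ => sq_nonneg _
theorem Bm_nonneg (h : Adm 1 l) (t : ℝ) : 0 ≤ Bm l t :=
  Et_nonneg bfn_B3 fun y => mul_nonneg (D1_pos h t y).le (sq_nonneg _)
theorem Bm_le_Nm (h : Adm 1 l) (t : ℝ) : Bm l t ≤ Nm l t :=
  Et_mono bfn_B3 bfn_W2 fun y => mul_le_of_le_one_left (sq_nonneg _) (D1_le h t y)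
theorem Nm_le_four (h : Adm 1 l) (t : ℝ) : Nm l t ≤ 4 :=
  Et_le bfn_W2 fun y => D2_sq_le_four h t y
theorem Nm_le_Gam (h : Adm 1 l) (t : ℝ) : Nm l t ≤ 4 * Gam l t := by
  have e := Et_lin (H := fun Φ y => 4 * W0 Φ y) bfn_W0 bfn_W0 4 0 (fun Φ y => by ring) l t
  have := Et_mono (l := l) (t := t) (G' := fun Φ y => 4 * W0 Φ y) bfn_W2
    ⟨fun _ h => toBC (((Dn_bd h 0).pow 2).const_mul 4),
      fun _ h m _ => ((Dn_ug h m 0).pow 2).const_mul 4⟩ fun y => D2_sq_le h t y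
  rw [e] at this
  unfold Nm Gam; linarith

theorem Gam_lip (h : AP l) {s t : ℝ} (hs : s ∈ Icc 0 (TT l)) (ht : t ∈ Icc 0 (TT l)) :
    |Gam l t - Gam l s| ≤ |t - s| := by
  have := abs_sub_le_of_rder (C := 1) (Gam_cont h) (fun r hr => Gam_rder h hr.1 hr.2) hs ht
    fun r _ => by rw [abs_of_nonneg (Gp_nonneg l r)]; exact Gp_le_one h.adm r
  rwa [one_mul] at this

theorem Gam_le (h : AP l) (ht : t ∈ Icc 0 (TT l)) : Gam l t ≤ t := by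
  have := (le_abs_self _).trans (Gam_lip h ⟨le_rfl, h.TT_nn⟩ ht)
  rwa [Gam_zero h, sub_zero, sub_zero, abs_of_nonneg ht.1] at this

theorem Gam_mono (h : AP l) {s t : ℝ} (hs : 0 ≤ s) (hst : s ≤ t) (ht : t ≤ TT l) :
    Gam l s ≤ Gam l t := by
  have := le_of_rder (f := fun r => -Gam l r) hst
    ((Gam_cont h).mono (Icc_subset_Icc hs ht)).neg
    (fun r hr => (Gam_rder h (hs.trans hr.1) (hr.2.trans_le ht)).neg)
    (fun r _ => by linarith [Gp_nonneg l r])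
  linarith

/-- `N ≤ 4 t` -/
theorem Nm_le (h : AP l) (ht : t ∈ Icc 0 (TT l)) : Nm l t ≤ 4 * t := by
  linarith [Nm_le_Gam h.adm t, Gam_le h ht]

theorem Bm_le (h : AP l) (ht : t ∈ Icc 0 (TT l)) : Bm l t ≤ 4 * t :=
  (Bm_le_Nm h.adm t).trans (Nm_le h ht)

/-- `|A'| ≤ 12` -/
theorem Am_der_le (h : Adm 1 l) (t : ℝ) : |3 * Bm l t - 3 * lvr 1 l t * A4 l t| ≤ 12 := by
  have a1 := Bm_nonneg h t
  have a2 := (Bm_le_Nm h t).trans (Nm_le_four h t)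
  have a3 := mul_nonneg (lvr_pos h t).le (A4_nonneg h t)
  have a4 := mul_le_one₀ (lvr_le_one h t) (A4_nonneg h t) (A4_le_one h t)
  rw [abs_le]; constructor <;> linarith

theorem Am_lip (h : AP l) {s t : ℝ} (hs : s ∈ Icc 0 (TT l)) (ht : t ∈ Icc 0 (TT l)) :
    |Am l t - Am l s| ≤ 12 * |t - s| :=
  abs_sub_le_of_rder (Am_cont h) (fun _ hr => Am_rder h hr.1 hr.2) hs ht
    fun r _ => Am_der_le h.adm r

theorem Am_near (h : AP l) (ht : t ∈ Icc 0 (TT l)) : |Am l t - chi l ^ 3| ≤ 12 * t := by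
  have := Am_lip h ⟨le_rfl, h.TT_nn⟩ ht
  rwa [Am_zero h, sub_zero, abs_of_nonneg ht.1] at this

/-- `|G'| ≤ 4` -/
theorem Gp_der_le (h : Adm 1 l) (t : ℝ) : |Nm l t - 2 * lvr 1 l t * Am l t| ≤ 4 := by
  have a1 := Nm_nonneg l t
  have a2 := Nm_le_four h t
  have a3 := mul_nonneg (lvr_pos h t).le (Am_nonneg h t)
  have a4 := mul_le_one₀ (lvr_le_one h t) (Am_nonneg h t) (Am_le_one h t)
  rw [abs_le]; constructor <;> linarith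

theorem Gp_lip (h : AP l) {s t : ℝ} (hs : s ∈ Icc 0 (TT l)) (ht : t ∈ Icc 0 (TT l)) :
    |Gp l t - Gp l s| ≤ 4 * |t - s| :=
  abs_sub_le_of_rder (Gp_cont h) (fun _ hr => Gp_rder h hr.1 hr.2) hs ht
    fun r _ => Gp_der_le h.adm r

/-! ### integral forms -/

theorem ii_of_cont {f : ℝ → ℝ} {T s t : ℝ} (hf : ContinuousOn f (Icc 0 T)) (hs : s ∈ Icc 0 T)
    (ht : t ∈ Icc 0 T) : IntervalIntegrable f volume s t :=
  (hf.mono (uIcc_subset_Icc hs ht)).intervalIntegrable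

theorem ii_lvr_mul (h : Adm 1 l) {f : ℝ → ℝ} {T s t : ℝ} (hf : ContinuousOn f (Icc 0 T))
    (hs : s ∈ Icc 0 T) (ht : t ∈ Icc 0 T) :
    IntervalIntegrable (fun r => lvr 1 l r * f r) volume s t :=
  (lvr_ii h s t).mul_continuousOn (hf.mono (uIcc_subset_Icc hs ht))

theorem ftc_r {f f' : ℝ → ℝ} {T s t : ℝ} (hc : ContinuousOn f (Icc 0 T))
    (hd : ∀ r ∈ Ico 0 T, HasDerivWithinAt f (f' r) (Ici r) r) (hs : 0 ≤ s) (hst : s ≤ t)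
    (ht : t ≤ T) (hi : IntervalIntegrable f' volume s t) : ∫ r in s..t, f' r = f t - f s :=
  intervalIntegral.integral_eq_sub_of_hasDeriv_right_of_le hst (hc.mono (Icc_subset_Icc hs ht))
    (fun r hr => (hd r ⟨hs.trans hr.1.le, hr.2.trans_le ht⟩).mono Ioi_subset_Ici_self) hi

theorem Gam_int (h : AP l) {s t : ℝ} (hs : 0 ≤ s) (hst : s ≤ t) (ht : t ≤ TT l) :
    Gam l t - Gam l s = ∫ r in s..t, Gp l r :=
  (ftc_r (Gam_cont h) (fun _ hr => Gam_rder h hr.1 hr.2) hs hst ht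
    (ii_of_cont (Gp_cont h) ⟨hs, hst.trans ht⟩ ⟨hs.trans hst, ht⟩)).symm

theorem Gp_int (h : AP l) {s t : ℝ} (hs : 0 ≤ s) (hst : s ≤ t) (ht : t ≤ TT l) :
    Gp l t - Gp l s = (∫ r in s..t, Nm l r) - 2 * ∫ r in s..t, lvr 1 l r * Am l r := by
  have i1 := ii_of_cont (Nm_cont h) ⟨hs, hst.trans ht⟩ ⟨hs.trans hst, ht⟩
  have i2 := ii_lvr_mul h.adm (Am_cont h) ⟨hs, hst.trans ht⟩ ⟨hs.trans hst, ht⟩
  rw [← ftc_r (f' := fun r => Nm l r - 2 * (lvr 1 l r * Am l r)) (Gp_cont h)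
    (fun _ hr => (Gp_rder h hr.1 hr.2).congr_deriv (by ring)) hs hst ht
    (i1.sub (i2.const_mul 2)), intervalIntegral.integral_sub i1 (i2.const_mul 2),
    intervalIntegral.integral_const_mul]

theorem Nm_int (h : AP l) {s t : ℝ} (hs : 0 ≤ s) (hst : s ≤ t) (ht : t ≤ TT l) :
    Nm l t - Nm l s = (∫ r in s..t, N4 l r) - 6 * ∫ r in s..t, lvr 1 l r * Bm l r := by
  have i1 := ii_of_cont (N4_cont h) ⟨hs, hst.trans ht⟩ ⟨hs.trans hst, ht⟩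
  have i2 := ii_lvr_mul h.adm (Bm_cont h) ⟨hs, hst.trans ht⟩ ⟨hs.trans hst, ht⟩
  rw [← ftc_r (f' := fun r => N4 l r - 6 * (lvr 1 l r * Bm l r)) (Nm_cont h)
    (fun _ hr => (Nm_rder h hr.1 hr.2).congr_deriv (by ring)) hs hst ht
    (i1.sub (i2.const_mul 6)), intervalIntegral.integral_sub i1 (i2.const_mul 6),
    intervalIntegral.integral_const_mul]

theorem X2_int (h : AP l) {s t : ℝ} (hs : 0 ≤ s) (hst : s ≤ t) (ht : t ≤ TT l) :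
    X2 l t - X2 l s = -∫ r in s..t, lvr 1 l r * Gp l r := by
  have i2 := ii_lvr_mul h.adm (Gp_cont h) ⟨hs, hst.trans ht⟩ ⟨hs.trans hst, ht⟩
  rw [← ftc_r (f' := fun r => -(lvr 1 l r * Gp l r)) (X2_cont h)
    (fun _ hr => X2_rder h hr.1 hr.2) hs hst ht i2.neg, intervalIntegral.integral_neg]

end

end Crest.Agent.T156.Pp.Ode3
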