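import Crest.Agent.T156.Spl_27
import Crest.Agent.T156.Cut_8
import Crest.Agent.T156.POde_3

/-!
Row 156 (helper27): the list instance of `Cut8.Fr`.
-/

set_option autoImplicit false

namespace Crest.Agent.T156.Spl27

open MeasureTheory Set
open Crest.Agent.R164.GC Crest.Agent.R339.B Crest.Agent.R339.Var Crest.Agent.T157.Pf
open Crest.Agent.T156.Sc48

noncomputable section

/-- the class -/
def okT (T : ℝ) (l : List (ℝ × ℝ)) : Prop := Pr.Ok l ∧ TT l = T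

/-- the `H⁻¹` Lipschitz bound of `G` -/
def GLip (T C : ℝ) : Prop := ∀ l l', Pr.Ok l → Pr.Ok l' → TT l = T → TT l' = T → ∀ t ∈ Icc 0 T,
  |Pr.GG l' t - Pr.GG l t| ≤ C * (|Sc48.Jf l l' T t| + ∫ s in (0 : ℝ)..T, |Sc48.Jf l l' T s|)

theorem ap_of_ok {l : List (ℝ × ℝ)} (h : Pr.Ok l) : Pp.Ode3.AP l := ⟨h.1, h.2⟩

theorem Gam_eq_QQ (l : List (ℝ × ℝ)) (t : ℝ) : Pr.Gam l t = QQ 1 l t 0 := by
  unfold Pr.Gam Pr.Et Pr.Dk QQ
  simp only [Pp.Dn_zero]

theorem fr_list {T T0 C : ℝ} (hT : T ≤ T0) (hC : 0 ≤ C) (hL : GLip T C) :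
    Cut8.Fr T (Real.exp (-14 * T0) / 4) C (okT T) (lvr 1) Pr.Gam Pr.GG where
  c_pos := by positivity
  C_nn := hC
  mono := fun _ h => lvr_mono h.1.1
  pos := fun _ h => lvr_pos h.1.1
  le1 := fun _ h t => (lvr_mem h.1.1 t).2
  glue := fun p p' h h' s s0 s1 hj => by
    obtain ⟨u, a, b, c, d⟩ := splice h.1.1 h'.1.1 s0 (by rw [h.2]; exact s1) (by rw [h'.2]; exact s1) hj
    obtain ⟨w, w1, w2, -⟩ := exists_ok a
    refine ⟨w, ⟨w1, by rw [← w2.tt, b, h'.2]⟩, fun t t0 _ => ?_⟩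
    rw [← w2.lv t t0]
    split_ifs with e
    · exact c t t0 e
    · exact d t (not_lt.1 e)
  map := fun p h φ hm hb => by
    obtain ⟨a, b, c⟩ := relabel hm (fun x => (hb x).1) (fun x => (hb x).2) h.1.1
    obtain ⟨w, w1, w2, -⟩ := exists_ok a
    refine ⟨w, ⟨w1, by rw [← w2.tt, b, h.2]⟩, fun t t0 t1 => ?_⟩
    rw [← w2.lv t t0, c t (by rw [h.2]; exact t1) t0]
  cont := fun p h => by
    have := Pp.Ode3.Gp_cont (ap_of_ok h.1)
    rwa [h.2] at this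
  gam := fun p h t ht => by
    have a := Pp.Ode3.Gam_int (ap_of_ok h.1) le_rfl ht.1 (by rw [h.2]; exact ht.2)
    rw [Pp.Ode3.Gam_zero (ap_of_ok h.1), sub_zero] at a
    exact a
  mon := fun p p' h h' => by
    have a := mon_gen h.1.1 h'.1.1 h.2 h'.2 hT
    rw [← intervalIntegral.integral_sub (dz_mul_ii h.1.1 h'.1.1 (QQ_meas h'.1.1 0)
      (fun s => (QQ_BC one_pos p' s).2 0) _ _) (dz_mul_ii h.1.1 h'.1.1 (QQ_meas h.1.1 0)
      (fun s => (QQ_BC one_pos p s).2 0) _ _)] at a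
    simp only [Gam_eq_QQ]
    refine a.trans (le_of_eq ?_)
    congr 1; funext s; ring
  lip := fun p p' h h' t ht => hL p p' h.1 h'.1 h.2 h'.2 t ht

end

end Crest.Agent.T156.Spl27
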