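import Crest.Agent.T156.RigC_63
import Crest.Agent.T156.POde_3
import Crest.Agent.T156.StrB_62

/-!
# Row 156: the rigidity kit for one-site profiles in the list frame (helper63)

`M s = s - b Γ s`, `μ = 1 - b E Φ₂²`, `ν = b (2 z E Φ₂³ - E Φ₃²)`.
-/

set_option autoImplicit false

namespace Crest.Agent.T156.Rig

open Set Real MeasureTheory Filter Topology
open Crest.Agent.R164.GC Crest.Agent.R339.B Crest.Agent.R339.Var Crest.Agent.T157.Pf
open Crest.Agent.T156.Pp Crest.Agent.T156.Pp.Ode3 Crest.Agent.T156.Str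

noncomputable section

/-- a continuous right derivative is a derivative -/
theorem der_of_right {f f' : ℝ → ℝ} {p q : ℝ} (hc : ContinuousOn f (Icc p q))
    (hc' : ContinuousOn f' (Icc p q))
    (hd : ∀ u ∈ Ioo p q, HasDerivWithinAt f (f' u) (Ici u) u) {t : ℝ} (ht : t ∈ Ioo p q) :
    HasDerivAt f (f' t) t := by
  have h1 : ∀ u ∈ Icc p q, f u = f p + ∫ r in p..u, f' r := fun u hu => by
    rw [intervalIntegral.integral_eq_sub_of_hasDeriv_right_of_le hu.1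
      (hc.mono (Icc_subset_Icc_right hu.2))
      (fun r hr => (hd r ⟨hr.1, hr.2.trans_le hu.2⟩).mono Ioi_subset_Ici_self)
      ((hc'.mono (by rw [uIcc_of_le hu.1]; exact Icc_subset_Icc_right hu.2)).intervalIntegrable)]
    ring
  have hn : Icc p q ∈ 𝓝 t := Icc_mem_nhds ht.1 ht.2
  have h2 : HasDerivAt (fun u => f p + ∫ r in p..u, f' r) (f' t) t :=
    (intervalIntegral.integral_hasDerivAt_right
      ((hc'.mono (by
        rw [uIcc_of_le ht.1.le]; exact Icc_subset_Icc_right ht.2.le)).intervalIntegrable)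
      ((hc'.mono Ioo_subset_Icc_self).stronglyMeasurableAtFilter isOpen_Ioo t ht)
      (hc'.continuousAt hn)).const_add _
  exact h2.congr_of_eventuallyEq (mem_of_superset hn h1)

/-- increments of `ν` from its pieces -/
theorem up_of_pieces {N : ℕ} {r X : ℕ → ℝ} {ν : ℝ → ℝ} {φ : ℕ → ℝ → ℝ} {b K : ℝ}
    (rm : ∀ i j, i ≤ j → j ≤ N → r i ≤ r j)
    (h1 : ∀ m < N, ∀ s t, r m ≤ s → s ≤ t → t ≤ r (m + 1) → φ m t - φ m s ≤ -(2 * K * (t - s)))
    (h2 : ∀ m, m + 1 < N → φ (m + 1) (r (m + 1)) - φ m (r (m + 1)) ≤ 2 * b * (X (m + 2) - X (m + 1)))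
    (h3 : ∀ m < N, ∀ t ∈ Ioo (r m) (r (m + 1)), ν t = φ m t) : Up N r X ν b K := by
  intro i j hij hj s hs t ht hst
  rw [h3 i (by omega) s hs, h3 j hj t ht]
  have key : ∀ j, i ≤ j → j < N → ∀ t, s ≤ t → r j ≤ t → t ≤ r (j + 1) →
      φ j t - φ i s ≤ 2 * b * (X (j + 1) - X (i + 1)) - 2 * K * (t - s) := by
    intro j hij
    induction j, hij using Nat.le_induction with
    | base =>
      intro hj t hst _ ht
      have := h1 i hj s t hs.1.le hst ht
      simp only [sub_self, mul_zero]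
      linarith
    | succ j hij ih =>
      intro hj t _ t1 t2
      have a := ih (by omega) (r (j + 1)) (hs.2.le.trans (rm _ _ (by omega) hj.le))
        (rm _ _ (by omega) hj.le) le_rfl
      have b' := h2 j hj
      have c := h1 (j + 1) hj (r (j + 1)) t le_rfl t1 t2
      linarith
  exact key j hij hj t hst ht.1.le ht.2.le

variable {l : List (ℝ × ℝ)} {N : ℕ} {r X : ℕ → ℝ}

def Mf (b : ℝ) (l : List (ℝ × ℝ)) (s : ℝ) : ℝ := s - b * Gam l s
def muf (b : ℝ) (l : List (ℝ × ℝ)) (s : ℝ) : ℝ := 1 - b * Gp l s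
def nuf (b : ℝ) (l : List (ℝ × ℝ)) (s : ℝ) : ℝ := b * (2 * lvr 1 l s * Am l s - Nm l s)

/-- nodes and labels of a list (any window of it) -/
structure Blk (l : List (ℝ × ℝ)) (N : ℕ) (r X : ℕ → ℝ) : Prop where
  ap : AP l
  rm : ∀ i j, i ≤ j → j ≤ N → r i ≤ r j
  Xm : ∀ i j, i ≤ j → j ≤ N + 1 → X i ≤ X j
  lo : 0 ≤ r 0
  hi : r N ≤ TT l
  lab : ∀ k < N, ∀ t ∈ Ioo (r k) (r (k + 1)), lvr 1 l t = X (k + 1)

namespace Blk

theorem sub (h : Blk l N r X) {k : ℕ} (hk : k < N) : Icc (r k) (r (k + 1)) ⊆ Icc 0 (TT l) :=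
  Icc_subset_Icc (h.lo.trans (h.rm 0 k (Nat.zero_le _) hk.le)) ((h.rm _ N hk le_rfl).trans h.hi)

theorem mem (h : Blk l N r X) {k : ℕ} (hk : k < N) {t : ℝ} (ht : t ∈ Ioo (r k) (r (k + 1))) :
    0 ≤ t ∧ t < TT l :=
  ⟨(h.sub hk (Ioo_subset_Icc_self ht)).1, ht.2.trans_le ((h.rm _ N hk le_rfl).trans h.hi)⟩

theorem pc2 (h : Blk l N r X) (b : ℝ) :
    PC2 (nodes N r) (r 0) (r N) (Mf b l) (muf b l) (nuf b l) := by
  have hs : Icc (r 0) (r N) ⊆ Icc 0 (TT l) := Icc_subset_Icc h.lo h.hi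
  refine ⟨continuousOn_id.sub (continuousOn_const.mul ((Gam_cont h.ap).mono hs)),
    continuousOn_const.sub (continuousOn_const.mul ((Gp_cont h.ap).mono hs)),
    fun t ht _ => ?_, fun t ht hS => ?_⟩
  · have := der_of_right ((Gam_cont h.ap).mono hs) ((Gp_cont h.ap).mono hs)
      (fun u hu => Gam_rder h.ap (h.lo.trans hu.1.le) (hu.2.trans_le h.hi)) ht
    exact (hasDerivAt_id' t).fun_sub (this.const_mul b)
  · obtain ⟨k, _, k2, k3⟩ := Prof.exists_gap r hS (Nat.zero_le N) le_rfl ht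
    have := der_of_right (f' := fun u => Nm l u - 2 * X (k + 1) * Am l u)
      ((Gp_cont h.ap).mono (h.sub k2))
      (((Nm_cont h.ap).mono (h.sub k2)).sub
        (continuousOn_const.mul ((Am_cont h.ap).mono (h.sub k2))))
      (fun u hu => by
        rw [← h.lab k k2 u hu]
        exact Gp_rder h.ap (h.mem k2 hu).1 (h.mem k2 hu).2) k3
    refine ((this.const_mul b).const_sub 1).congr_deriv ?_
    unfold nuf
    rw [h.lab k k2 t k3]
    ring

/-- the cavity equation at the nodes gives a profile -/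
theorem prof (h : Blk l N r X) {b err : ℝ} {H : ℝ → ℝ}
    (eL : ∀ k ≤ N, |r k - b * Gam l (r k) - H (X k)| ≤ err)
    (eR : ∀ k ≤ N, |r k - b * Gam l (r k) - H (X (k + 1))| ≤ err) :
    Prof N r X (Mf b l) (muf b l) (nuf b l) H err := ⟨h.rm, h.Xm, h.pc2 b, eL, eR⟩

/-- derivative of `ν / b` inside a block -/
theorem der_blk (h : Blk l N r X) {k : ℕ} (hk : k < N) {t : ℝ}
    (ht : t ∈ Ioo (r k) (r (k + 1))) :
    HasDerivAt (fun u => 2 * X (k + 1) * Am l u - Nm l u)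
      (-(N4 l t - 12 * X (k + 1) * Bm l t + 6 * X (k + 1) ^ 2 * A4 l t)) t := by
  have s := h.sub hk
  refine der_of_right (f' := fun t => -(N4 l t - 12 * X (k + 1) * Bm l t +
      6 * X (k + 1) ^ 2 * A4 l t))
    ((continuousOn_const.mul ((Am_cont h.ap).mono s)).sub ((Nm_cont h.ap).mono s))
    ((((N4_cont h.ap).mono s).sub (continuousOn_const.mul ((Bm_cont h.ap).mono s))).add
      (continuousOn_const.mul ((A4_cont h.ap).mono s))).neg (fun u hu => ?_) ht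
  have a := ((Am_rder h.ap (h.mem hk hu).1 (h.mem hk hu).2).const_mul (2 * X (k + 1))).fun_sub
    (Nm_rder h.ap (h.mem hk hu).1 (h.mem hk hu).2)
  rw [h.lab k hk u hu] at a
  exact a.congr_deriv (by ring)

end Blk

theorem sq_le_A4 (l : List (ℝ × ℝ)) (t : ℝ) : Gp l t ^ 2 ≤ A4 l t := by
  obtain ⟨K, hK⟩ := Et_bc bfn_W1 l t
  have := EX_sq one_pos l t hK 0
  have e : (fun y => W1 (PhiT 1 l t) y ^ 2) = Q4 (PhiT 1 l t) := by
    funext y; unfold W1 Q4; ring
  rw [e] at this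
  exact this

/-- strict no-gap inequality in the list frame -/
theorem strict_list {T : ℝ} (h : AP l) (hT : TT l ≤ T) {t : ℝ} (h0 : 0 ≤ t) (h1 : t < TT l) :
    kp T * A4 l t ≤ N4 l t - 12 * lvr 1 l t * Bm l t + 6 * lvr 1 l t ^ 2 * A4 l t := by
  have a := EX_NJ h.adm h.pos hT h0 h1
  have b : BFn fun Φ y => 1 * Pp.W3 Φ y + -(12 * lvr 1 l t) * B3 Φ y :=
    ⟨fun _ h => toBC ((((Dn_bd h 3).pow 2).const_mul 1).add
      (((Dn_bd h 1).mul ((Dn_bd h 2).pow 2)).const_mul (-(12 * lvr 1 l t)))),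
      fun _ h m' _ => (((Dn_ug h m' 3).pow 2).const_mul 1).add
      (((Dn_ug h m' 1).mul ((Dn_ug h m' 2).pow 2)).const_mul (-(12 * lvr 1 l t)))⟩
  have c := Et_lin (H := NJ (lvr 1 l t) (kp T)) b bfn_Q4 1 (6 * lvr 1 l t ^ 2 - kp T)
    (fun Φ y => by unfold NJ Pp.W3 B3 Q4; ring) l t
  rw [Et_lin bfn_W3 bfn_B3 1 (-(12 * lvr 1 l t)) (fun _ _ => rfl)] at c
  change 0 ≤ Et (NJ (lvr 1 l t) (kp T)) l t at a
  rw [c] at a
  unfold N4 Bm A4
  linarith

namespace Blk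

/-- **`Up`** with `K = b kp g² / 2` -/
theorem up (h : Blk l N r X) {b g T : ℝ} (hb : 0 ≤ b) (hg : 0 ≤ g) (hT : TT l ≤ T)
    (hG : ∀ t ∈ Icc (r 0) (r N), g ≤ Gp l t) :
    Up N r X (nuf b l) b (b * kp T * g ^ 2 / 2) := by
  refine up_of_pieces (φ := fun m u => b * (2 * X (m + 1) * Am l u - Nm l u)) h.rm
    (fun m hm s t a1 a2 a3 => ?_) (fun m hm => ?_) fun m hm t ht => ?_
  · have sb : Icc s t ⊆ Icc 0 (TT l) := (Icc_subset_Icc a1 a3).trans (h.sub hm)
    have := le_off ∅ (f := fun u => -(2 * X (m + 1) * Am l u - Nm l u) - kp T * g ^ 2 * u) a2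
      ((((continuousOn_const.mul ((Am_cont h.ap).mono sb)).sub ((Nm_cont h.ap).mono sb)).neg).sub
        (by fun_prop)) fun u hu _ => by
        have hu' : u ∈ Ioo (r m) (r (m + 1)) := Ioo_subset_Ioo a1 a3 hu
        refine ⟨_, (h.der_blk hm hu').fun_neg.fun_sub ((hasDerivAt_id' u).const_mul _), ?_⟩
        have b1 := strict_list h.ap hT (h.mem hm hu').1 (h.mem hm hu').2
        rw [h.lab m hm u hu'] at b1
        have b2 := sq_le_A4 l u
        have b3 := pow_le_pow_left₀ hg (hG u ⟨(h.rm 0 m (Nat.zero_le _) hm.le).trans hu'.1.le,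
          hu'.2.le.trans (h.rm _ N hm le_rfl)⟩) 2
        nlinarith [mul_le_mul_of_nonneg_left (b3.trans b2) (kp_pos T).le]
    nlinarith [mul_le_mul_of_nonneg_left this hb]
  · have a := h.Xm (m + 1) (m + 2) (by omega) (by omega)
    have c := Am_le_one h.ap.adm (r (m + 1))
    nlinarith [mul_nonneg (mul_nonneg hb (sub_nonneg.2 a)) (sub_nonneg.2 c)]
  · unfold nuf; rw [h.lab m hm t ht]

/-- two-sided slope of `ν` inside a block -/
theorem slope (h : Blk l N r X) {b C : ℝ} (hb : 0 ≤ b) (hC : ∀ t ∈ Icc 0 (TT l), N4 l t ≤ C)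
    {m : ℕ} (hm : m < N) {s t : ℝ} (a1 : r m ≤ s) (a2 : s ≤ t) (a3 : t ≤ r (m + 1)) :
    -(b * (2 * X (m + 1) * Am l t - Nm l t)) - -(b * (2 * X (m + 1) * Am l s - Nm l s)) ≤
      b * (C + 6) * (t - s) := by
  have sb : Icc s t ⊆ Icc 0 (TT l) := (Icc_subset_Icc a1 a3).trans (h.sub hm)
  have := le_off ∅ (f := fun u => (2 * X (m + 1) * Am l u - Nm l u) + (C + 6) * u) a2
    ((((continuousOn_const.mul ((Am_cont h.ap).mono sb)).sub ((Nm_cont h.ap).mono sb))).add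
      (by fun_prop)) fun u hu _ => by
      have hu' : u ∈ Ioo (r m) (r (m + 1)) := Ioo_subset_Ioo a1 a3 hu
      refine ⟨_, (h.der_blk hm hu').fun_add ((hasDerivAt_id' u).const_mul _), ?_⟩
      have b1 := hC u (sb (Ioo_subset_Icc_self hu))
      have b2 := lvr_pos h.ap.adm u
      have b3 := lvr_le_one h.ap.adm u
      rw [h.lab m hm u hu'] at b2 b3
      have b4 := Bm_nonneg h.ap.adm u
      have b5 := A4_le_one h.ap.adm u
      have b6 := A4_nonneg h.ap.adm u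
      have b7 : X (m + 1) ^ 2 * A4 l u ≤ 1 := by
        have : X (m + 1) ^ 2 ≤ 1 := by nlinarith
        nlinarith
      nlinarith [mul_nonneg b2.le b4]
  nlinarith [mul_le_mul_of_nonneg_left this hb]

/-- **`Lo`** with `K = b (C + 6) / 2`, `C ≥ E Φ₄²` -/
theorem lo' (h : Blk l N r X) {b C : ℝ} (hb : 0 ≤ b) (hC : ∀ t ∈ Icc 0 (TT l), N4 l t ≤ C) :
    Lo N r (nuf b l) (b * (C + 6) / 2) := by
  have := up_of_pieces (ν := fun t => -nuf b l t) (X := X) (b := 0) (K := -(b * (C + 6) / 2))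
    (φ := fun m u => -(b * (2 * X (m + 1) * Am l u - Nm l u))) h.rm
    (fun m hm s t a1 a2 a3 => by linarith [h.slope hb hC hm a1 a2 a3]) (fun m hm => by
      have a := h.Xm (m + 1) (m + 2) (by omega) (by omega)
      have c := Am_nonneg h.ap.adm (r (m + 1))
      nlinarith [mul_nonneg (mul_nonneg hb (sub_nonneg.2 a)) c])
    fun m hm t ht => by unfold nuf; rw [h.lab m hm t ht]
  intro i j hij hj s hs t ht hst
  have := this i j hij hj s hs t ht hst
  linarith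

/-- oscillation of `ν` on a block -/
theorem osc (h : Blk l N r X) {b C T Γ : ℝ} (hb : 0 ≤ b) (hT : TT l ≤ T)
    (hC : ∀ t ∈ Icc 0 (TT l), N4 l t ≤ C) {k : ℕ} (hk : k < N) (hΓ : r (k + 1) - r k ≤ Γ)
    {s t : ℝ} (hs : s ∈ Ioo (r k) (r (k + 1))) (ht : t ∈ Ioo (r k) (r (k + 1))) :
    |nuf b l s - nuf b l t| ≤ b * (C + 6) * Γ := by
  have hU := h.up hb le_rfl hT fun t _ => Gp_nonneg l t
  have hL := h.lo' hb hC
  have hC0 : 0 ≤ C := (N4_nonneg l 0).trans (hC 0 ⟨le_rfl, h.ap.TT_nn⟩)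
  have hp : 0 ≤ b * (C + 6) := by positivity
  rcases le_total s t with a | a
  · have h1 := hU k k le_rfl hk s hs t ht a
    have h2 := hL k k le_rfl hk s hs t ht a
    have h3 := mul_le_mul_of_nonneg_left (show t - s ≤ Γ by linarith [hs.1, ht.2]) hp
    have h4 := mul_nonneg hp (sub_nonneg.2 a)
    exact abs_le.2 ⟨by nlinarith, by nlinarith⟩
  · have h1 := hU k k le_rfl hk t ht s hs a
    have h2 := hL k k le_rfl hk t ht s hs a
    have h3 := mul_le_mul_of_nonneg_left (show s - t ≤ Γ by linarith [ht.1, hs.2]) hp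
    have h4 := mul_nonneg hp (sub_nonneg.2 a)
    exact abs_le.2 ⟨by nlinarith, by nlinarith⟩

end Blk

/-- a uniform bound for `E Φ₄²` -/
theorem N4_bd (T : ℝ) : ∃ C : ℝ, 1 ≤ C ∧ ∀ l : List (ℝ × ℝ), AP l → TT l ≤ T →
    ∀ t, 0 ≤ t → N4 l t ≤ C := by
  obtain ⟨C, h1, h2⟩ := Dn_PhiT T 3
  refine ⟨C ^ 2, by nlinarith, fun l h hT t ht => Et_le bfn_W3 fun y => ?_⟩
  have := h2 l h.adm hT t ht 3 le_rfl y
  unfold Pp.W3
  rw [← sq_abs]
  exact pow_le_pow_left₀ (abs_nonneg _) this 2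

end

end Crest.Agent.T156.Rig
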