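import Crest.Agent.T156.PrB_28
import Crest.Agent.T156.POde_3

/-!
Row 156, ALT, text (P) (helper28): the pair comparison behind P1 and P2.
-/

set_option autoImplicit false

namespace Crest.Agent.T156.Pr

open MeasureTheory Set
open Crest.Agent.R164.GC Crest.Agent.R339.B Crest.Agent.R339.Var Crest.Agent.T157.Pf
open Crest.Agent.T156.Pp

noncomputable section

variable {v Y L : ℝ} {om om' z : ℕ → ℝ} {N J : ℕ}

theorem lo_ok (hA : AreaS) (hz : Lab z N) (h : Om v Y L om) (hv : 0 < v) (hL : L ≤ 1 / 2)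
    (hY : Y ≤ N * v) : Ok (lo z v om N) ∧ TT (lo z v om N) = N * v := by
  obtain ⟨⟨a, b, -⟩, -⟩ := hA z (sig v om) N hz h.sig0 (h.sm hv hL)
  exact ⟨a, b.trans (h.sig_eq hY)⟩

theorem lvr_lin (hA : AreaS) (hz : Lab z N) (h : Om v Y L om) (hv : 0 < v) (hL : L ≤ 1 / 2)
    (hY : Y ≤ N * v) {C η : ℝ} (hC : 0 ≤ C) (hl : ∀ j : ℕ, z j ≤ C * (j * v) + η) {s : ℝ}
    (h0 : 0 ≤ s) (h1 : s < N * v) : lvr 1 (lo z v om N) s ≤ 2 * C * s + η := by
  obtain ⟨⟨-, -, c, -⟩, -⟩ := hA z (sig v om) N hz h.sig0 (h.sm hv hL)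
  obtain ⟨j, -, a, b⟩ := exists_cell (s := sig v om) (t := s) (by rw [h.sig0]; exact h0) N
    (by rw [h.sig_eq hY]; exact h1)
  unfold lo
  rw [c j s a b]
  have := h.sig_ge hv hL j
  have := hl j
  nlinarith

theorem lvr_eq (hA : AreaS) (hz : Lab z N) (h : Om v Y L om) (h' : Om v Y L om') (hv : 0 < v)
    (hL : L ≤ 1 / 2) (hY : 0 ≤ Y) {s : ℝ} (hs : Y ≤ s) :
    lvr 1 (lo z v om' N) s = lvr 1 (lo z v om N) s := by
  obtain ⟨⟨-, -, -, -, c⟩, -⟩ := hA z (sig v om) N hz h.sig0 (h.sm hv hL)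
  obtain ⟨⟨-, -, -, -, c'⟩, -⟩ := hA z (sig v om') N hz h'.sig0 (h'.sm hv hL)
  unfold lo
  rw [c s (hY.trans hs), c' s (hY.trans hs)]
  congr 1
  refine Finset.sum_congr rfl fun j _ => ?_
  rcases le_or_gt Y (((j + 1 : ℕ) : ℝ) * v) with a | a
  · rw [h.sig_eq a, h'.sig_eq a]
  · rw [if_pos ((h.sig_le _).trans (a.le.trans hs)), if_pos ((h'.sig_le _).trans (a.le.trans hs))]

theorem lvr_top (hA : AreaS) (hz : Lab z J) (hN : J ≤ N) (h : Om v Y L om) (hv : 0 < v)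
    (hL : L ≤ 1 / 2) {s : ℝ} (hs : J * v ≤ s) : lvr 1 (lo z v om N) s = 1 := by
  obtain ⟨⟨-, -, -, -, c⟩, -⟩ := hA z (sig v om) N (hz.up hN) h.sig0 (h.sm hv hL)
  unfold lo
  have e : z 0 + ∑ j ∈ Finset.range N, dm z j = 1 := by
    rw [sum_dm, (hz.up hN).top N le_rfl]; ring
  rw [c s (le_trans (by positivity) hs)]
  refine Eq.trans ?_ e
  congr 1
  refine Finset.sum_congr rfl fun j _ => ?_
  rcases le_or_gt J j with a | a
  · rw [hz.dm_top a, zero_mul]
  · have : ((j + 1 : ℕ) : ℝ) * v ≤ J * v := by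
      have : ((j + 1 : ℕ) : ℝ) ≤ J := by exact_mod_cast a
      exact mul_le_mul_of_nonneg_right this hv.le
    rw [if_pos ((h.sig_le _).trans (this.trans hs)), mul_one]

theorem sq_lip {l : List (ℝ × ℝ)} (hl : Ok l) (t x : ℝ) :
    BD (fun x => Dk 1 l t x ^ 2) ∧ |deriv (fun x => Dk 1 l t x ^ 2) x| ≤ 4 := by
  have hb : BD (Dk 1 l t) := Dn_bd (PhiT_prof one_pos l t) 1
  refine ⟨hb.pow 2, ?_⟩
  have d := ((hb.hasDerivAt x).pow 2).deriv
  have e : deriv (Dk 1 l t) x = Dn 2 (PhiT 1 l t) x := by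
    unfold Dk; rw [Dn_succ 1]
  have a1 := Ode3.D1_pos hl.1 t x
  have a2 := Ode3.D1_le hl.1 t x
  have a3 : |Dn 2 (PhiT 1 l t) x| ≤ 2 :=
    abs_le_of_sq_le_sq (by linarith [Ode3.D2_sq_le_four hl.1 t x]) (by norm_num)
  rw [show (fun x => Dk 1 l t x ^ 2) = Dk 1 l t ^ 2 from rfl, d, e]
  norm_num
  rw [abs_of_pos (show 0 < Dk 1 l t x from a1)]
  have : Dk 1 l t x ≤ 1 := a2
  nlinarith [abs_nonneg (Dn 2 (PhiT 1 l t) x)]

/-- the pair comparison -/
theorem core (hO : OdeS) (h2 : Lip2S) (hF : LipFS) (hC : CmpS) (hA : AreaS) (T0 : ℝ) :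
    ∃ Q : ℝ, 1 ≤ Q ∧ ∀ (z : ℕ → ℝ) (N : ℕ) (v Y L C η : ℝ) (om om' : ℕ → ℝ), 0 < v → Lab z N →
    (∀ j : ℕ, z j ≤ C * (j * v) + η) → 0 ≤ C → 0 ≤ η → N * v ≤ T0 → Om v Y L om → Om v Y L om' →
    0 ≤ Y → Y ≤ N * v → L ≤ 1 / 2 →
    (∀ t ∈ Icc 0 (N * v),
      |Gam (lo z v om' N) t - Gam (lo z v om N) t| ≤ Q * t * DD z N om om' ∧
      |GG (lo z v om' N) t - GG (lo z v om N) t| ≤ Q * DD z N om om' ∧
      |(GG (lo z v om' N) t - GG (lo z v om' N) 0) - (GG (lo z v om N) t - GG (lo z v om N) 0) +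
        2 * SS z N v om om' t| ≤ Q * DD z N om om' * ((1 + 2 * C) * t ^ 2 + η * t)) ∧
    |chi (lo z v om' N) - chi (lo z v om N)| ≤ Q * DD z N om om' ∧
    |k4 (lo z v om' N) - k4 (lo z v om N)| ≤ Q * DD z N om om' ∧
    ∀ t ∈ Icc Y (N * v), |GG (lo z v om' N) t - GG (lo z v om N) t| ≤ Q * √Y * DD z N om om' := by
  obtain ⟨C0, -, hO⟩ := hO T0
  obtain ⟨C2, c2, h2⟩ := h2 T0
  obtain ⟨CF, cF, hF⟩ := hF T0
  obtain ⟨CC, cC, hC⟩ := hC T0
  refine ⟨4 * C2 + CF + CC, by linarith, fun z N v Y L C η om om' hv hz hl hC0 hη hT h h' hY hYN hL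
    => ?_⟩
  obtain ⟨o, e⟩ := lo_ok hA hz h hv hL hYN
  obtain ⟨o', e'⟩ := lo_ok hA hz h' hv hL hYN
  obtain ⟨-, ar⟩ := hA z (sig v om) N hz h.sig0 (h.sm hv hL)
  obtain ⟨d, ai⟩ := ar (sig v om') h'.sig0 (h'.sm hv hL) (by rw [h.sig_eq hYN, h'.sig_eq hYN])
  have dD : dist1 (lo z v om N) (lo z v om' N) ≤ DD z N om om' := by
    refine d.trans (le_of_eq (Finset.sum_congr rfl fun j _ => ?_))
    unfold sig
    rw [show ((j + 1 : ℕ) : ℝ) * v - om' (j + 1) - (((j + 1 : ℕ) : ℝ) * v - om (j + 1)) =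
      -(om' (j + 1) - om (j + 1)) by ring, abs_neg]
  have d0 : 0 ≤ dist1 (lo z v om N) (lo z v om' N) := by
    unfold dist1
    rw [e]
    exact intervalIntegral.integral_nonneg (hY.trans hYN) fun _ _ => abs_nonneg _
  have D0 := DD_nn hz om om'
  have F := hF _ _ o o' (e'.trans e.symm) (e.trans_le hT)
  rw [e] at F
  have q1 : CF * dist1 (lo z v om N) (lo z v om' N) ≤ (4 * C2 + CF + CC) * DD z N om om' :=
    mul_le_mul (by linarith) dD d0 (by linarith)
  refine ⟨fun t ht => ⟨(F t ht).1.trans ?_, (F t ht).2.1.trans q1, ?_⟩,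
    (F 0 ⟨le_rfl, hY.trans hYN⟩).2.2.2.2.2.2.1.trans q1,
    (F 0 ⟨le_rfl, hY.trans hYN⟩).2.2.2.2.2.2.2.trans q1, fun t ht => ?_⟩
  · have := mul_le_mul_of_nonneg_left q1 ht.1
    linarith
  · have c := hC _ _ o o' (e'.trans e.symm) (e.trans_le hT) (2 * C) η t (by linarith) hη
      (by rw [e]; exact ht) fun s h0 h1 => lvr_lin hA hz h hv hL hYN hC0 hl h0 (h1.trans_le ht.2)
    have cA := (hO _ o' (e'.trans_le hT)).1.2.2.1
    rw [e', ← h.sig_eq hYN] at cA
    have i := ai _ t (by rw [h.sig_eq hYN]; exact ht) cA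
    have i' : ∫ r in (0:ℝ)..t, (lvr 1 (lo z v om' N) r - lvr 1 (lo z v om N) r) *
        AA (lo z v om' N) r = SS z N v om om' t := i
    rw [i'] at c
    refine c.trans (mul_le_mul_of_nonneg_right (mul_le_mul (by linarith) dD d0 (by linarith)) ?_)
    have := ht.1
    positivity
  · obtain ⟨p, q⟩ := h2 _ _ o o' (e'.trans e.symm) (e.trans_le hT) Y (by rw [e]; exact ⟨hY, hYN⟩)
      (fun s hs => lvr_eq hA hz h h' hv hL hY hs) t (by rw [e]; exact ht)
    have r := q _ 4 (sq_lip o t 0).1 fun x => (sq_lip o t x).2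
    have e1 : GG (lo z v om' N) t = Et (lo z v om' N) t fun x => Dk 1 (lo z v om N) t x ^ 2 := by
      unfold GG Dk; rw [p]
    rw [e1]
    refine r.trans (mul_le_mul (mul_le_mul_of_nonneg_right (by linarith) (Real.sqrt_nonneg _))
      dD d0 ?_)
    have := Real.sqrt_nonneg Y
    positivity

/-- two-sided bound of the first-order term for ordered profiles -/
theorem SS_bds (hz : Lab z N) (h : Om v Y L om) (h' : Om v Y L om') (hv : 0 < v) (hL : L ≤ 1 / 2)
    (ho : ∀ j, om j ≤ om' j) {a t : ℝ} (ht : t ∈ Icc 0 (N * v))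
    (hc : ContinuousOn (AA (lo z v om' N)) (Icc 0 (N * v)))
    (h01 : ∀ r ∈ Icc 0 (N * v), 0 ≤ AA (lo z v om' N) r ∧ AA (lo z v om' N) r ≤ 1)
    (ha : ∀ r ∈ Icc 0 Y, a ≤ AA (lo z v om' N) r) :
    a * ∑ j ∈ Finset.range N, (if ((j:ℝ) + 1) * v ≤ t then dm z j * (om' (j + 1) - om (j + 1))
      else 0) ≤ SS z N v om om' t ∧
    SS z N v om om' t ≤ ∑ j ∈ Finset.range N,
      if ((j:ℝ) + 1) * v ≤ 2 * t then dm z j * (om' (j + 1) - om (j + 1)) else 0 := by
  unfold SS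
  rw [Finset.mul_sum]
  have key : ∀ j : ℕ, (if ((j:ℝ) + 1) * v ≤ t then a * (om' (j + 1) - om (j + 1)) else 0) ≤
      ∫ r in min (sig v om' (j + 1)) t..min (sig v om (j + 1)) t, AA (lo z v om' N) r ∧
      ∫ r in min (sig v om' (j + 1)) t..min (sig v om (j + 1)) t, AA (lo z v om' N) r ≤
        if ((j:ℝ) + 1) * v ≤ 2 * t then om' (j + 1) - om (j + 1) else 0 := by
    intro j
    have s1 : sig v om' (j + 1) ≤ sig v om (j + 1) := by unfold sig; linarith [ho (j + 1)]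
    have s2 : sig v om (j + 1) - sig v om' (j + 1) = om' (j + 1) - om (j + 1) := by
      unfold sig; ring
    have s3 := h'.sig_nn hv hL (j + 1)
    have s4 := h.sig_le (j + 1)
    have s5 := h'.sig_ge hv hL (j + 1)
    push_cast at s4 s5
    have m0 : 0 ≤ min (sig v om' (j + 1)) t := le_min s3 ht.1
    have m1 : min (sig v om' (j + 1)) t ≤ min (sig v om (j + 1)) t := min_le_min_right _ s1
    have m2 : min (sig v om (j + 1)) t ≤ N * v := (min_le_right _ _).trans ht.2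
    have b := int_bds hc m0 m1 m2 fun r hr => h01 r ⟨m0.trans hr.1, hr.2.trans m2⟩
    constructor
    · split_ifs with c
      · rw [min_eq_left (s1.trans (s4.trans c)), min_eq_left (s4.trans c)] at *
        rcases le_or_gt Y (((j + 1 : ℕ) : ℝ) * v) with d | d
        · rw [h.supp _ d, h'.supp _ d, sub_self, mul_zero]
          linarith [b.1]
        · push_cast at d
          have b' := int_bds (m := a) (M := 1) hc m0 m1 m2 fun r hr =>
            ⟨ha r ⟨m0.trans hr.1, hr.2.trans (s4.trans d.le)⟩,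
              (h01 r ⟨m0.trans hr.1, hr.2.trans m2⟩).2⟩
          rw [← s2]
          exact b'.1
      · linarith [b.1]
    · split_ifs with c
      · refine b.2.trans ?_
        rw [one_mul, ← s2]
        rcases le_total (sig v om' (j + 1)) t with d | d
        · rw [min_eq_left d]
          linarith [min_le_left (sig v om (j + 1)) t]
        · rw [min_eq_right d, min_eq_right (d.trans s1)]
          linarith
      · have d : t ≤ sig v om' (j + 1) := by linarith [not_le.1 c]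
        rw [min_eq_right d, min_eq_right (d.trans s1), intervalIntegral.integral_same]
  constructor
  · refine Finset.sum_le_sum fun j _ => ?_
    have := mul_le_mul_of_nonneg_left (key j).1 (hz.dm_nn j)
    refine le_trans (le_of_eq ?_) this
    split_ifs <;> ring
  · refine Finset.sum_le_sum fun j _ => ?_
    have := mul_le_mul_of_nonneg_left (key j).2 (hz.dm_nn j)
    refine this.trans (le_of_eq ?_)
    split_ifs <;> ring

end

end Crest.Agent.T156.Pr
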