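import Crest.Agent.T156.KerB_31
import Crest.Agent.T156.PrC_28
import Crest.Agent.T156.PArea_50

/-!
Row 156 (helper31): slices of tilt `1` on top do not matter.  Transfer between lists with the same
tilt function and different total times; constants independent of the length of the reveal.
-/

set_option autoImplicit false

namespace Crest.Agent.T156.Ker

open MeasureTheory ProbabilityTheory Filter Topology Set
open Crest.Agent.R164.GC Crest.Agent.R339.B Crest.Agent.R339.Var Crest.Agent.T157.Pf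
open Crest.Agent.T156.Pp Crest.Agent.T156.Sc48
open Crest.ProbabilityR.InvariantGlass (gaussOp)

noncomputable section

variable {l l' l2 : List (ℝ × ℝ)}

theorem eqv_of_lvr (h : Adm 1 l) (h' : Adm 1 l') (e : TT l' = TT l)
    (hz : ∀ s, 0 < s → s < TT l → lvr 1 l' s = lvr 1 l s) : Eqv l l' := by
  obtain ⟨a, a', hs, ha, ha', q, q'⟩ := exists_sl h h' e
  refine (q.trans (eqv_of_dN hs ha ha' ?_)).trans q'.symm
  rw [(dN_int hs (nn_of_adm ha)).1]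
  exact Nf_zero (Min62.TT_nn ha) fun s h1 h2 => by
    rw [← q.lv s h1.le, ← q'.lv s h1.le, hz s h1 (q.tt ▸ h2)]

theorem adm_app {d : ℝ} (hd : 0 ≤ d) : ∀ {l : List (ℝ × ℝ)}, Adm 1 l → Adm 1 (l ++ [(1, d)])
  | [], _ => ⟨one_pos, le_rfl, hd, trivial⟩
  | _ :: [], h => ⟨h.1, h.2.1, h.2.2.1, adm_app hd h.2.2.2⟩
  | _ :: _ :: _, h => ⟨h.1, h.2.1, h.2.2.1, adm_app hd h.2.2.2⟩

theorem lvr_app (d : ℝ) : ∀ (l : List (ℝ × ℝ)) (s : ℝ), lvr 1 (l ++ [(1, d)]) s = lvr 1 l s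
  | [], _ => by simp [lvr]
  | p :: l, s => by simp only [List.cons_append, lvr, lvr_app d l]

theorem adm_pre (R : List (ℝ × ℝ)) : ∀ {M : List (ℝ × ℝ)}, Adm 1 (M ++ R) → Adm 1 M
  | [], _ => trivial
  | _ :: [], h => ⟨h.1, Lip62.head_le_one h, h.2.2.1, trivial⟩
  | _ :: _ :: _, h => ⟨h.1, h.2.1, h.2.2.1, adm_pre R h.2.2.2⟩

theorem lvr_end' : ∀ {l : List (ℝ × ℝ)}, Nn l → ∀ {s : ℝ}, TT l ≤ s → lvr 1 l s = 1
  | [], _, _, _ => rfl
  | p :: l, h, s, hs => by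
    rw [TT_cons] at hs
    simp only [lvr]
    rw [if_neg (by linarith [TT_nonneg h.tail]), lvr_end' h.tail (by linarith)]

theorem EX_app {d r : ℝ} (hr : 0 ≤ r) (hd : r ≤ d) (F : ℝ → ℝ) : ∀ {l : List (ℝ × ℝ)}, Adm 1 l →
    EX 1 (l ++ [(1, d)]) (TT l + r) F = EX 1 l (TT l) (tE 1 r (phi0 1) F)
  | [], _ => by
    simp only [List.nil_append, EX, PhiL, show TT ([] : List (ℝ × ℝ)) = 0 from rfl, zero_add]
    rw [if_pos hd, gaussOp_phi0 one_pos (sub_nonneg.2 hd), tE_shift]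
  | p :: l, h => by
    have hT := Min62.TT_nn h.2.2.2
    rw [List.cons_append, TT_cons,
      EX_next h.1.ne' (nn_of_adm (adm_app (hr.trans hd) h.2.2.2)) (by linarith),
      EX_next h.1.ne' (nn_of_adm h.2.2.2) (by linarith),
      PhiL_append one_pos (by simpa using hr.trans hd) fun q hq => (Adm.pos h.2.2.2 q hq).1,
      tE_shift, show p.2 + TT l + r - p.2 = TT l + r by ring, add_sub_cancel_left,
      EX_app hr hd F h.2.2.2]

/-- **transfer**: the same tilt function, `l2` is longer -/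
theorem ext_le (h : Adm 1 l) (h2 : Adm 1 l2) (hT : TT l ≤ TT l2)
    (hz : ∀ s, 0 < s → s < TT l2 → lvr 1 l2 s = lvr 1 l s) :
    (∀ t, 0 ≤ t → ∃ c, PhiT 1 l2 t = fun x => PhiT 1 l t x + c) ∧
    (∀ t ∈ Icc 0 (TT l), ∀ F, BD F → EX 1 l2 t F = EX 1 l t F) ∧
    ∀ t ∈ Icc (TT l) (TT l2), ∀ F, BD F →
      EX 1 l2 t F = EX 1 l (TT l) (tE 1 (t - TT l) (phi0 1) F) := by
  have hd := sub_nonneg.2 hT
  have top : ∀ p ∈ [((1:ℝ), TT l2 - TT l)], p.1 = 1 ∧ 0 ≤ p.2 := by simpa using hT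
  have pos : ∀ p ∈ l, 0 < p.1 := fun q hq => (Adm.pos h q hq).1
  have q : Eqv l2 (l ++ [(1, TT l2 - TT l)]) := eqv_of_lvr h2 (adm_app hd h)
    (by rw [TT_append]; simp [TT]) fun s h1 h3 => by rw [lvr_app, hz s h1 h3]
  refine ⟨fun t ht => ?_, fun t ht F hF => ?_, fun t ht F hF => ?_⟩
  · rw [q.phiT t ht]
    exact PhiT_append one_pos top pos t
  · obtain ⟨K, hK⟩ := hF.bc
    rw [q.ex t ht.1 F K hK, EX_append one_pos top pos ht.2]
  · obtain ⟨K, hK⟩ := hF.bc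
    rw [q.ex t ((Min62.TT_nn h).trans ht.1) F K hK,
      ← EX_app (sub_nonneg.2 ht.1) (sub_le_sub_right ht.2 _) F h, add_sub_cancel]

/-- equality of all the data of `PrDef_28` up to the time `T` -/
structure Same (l l2 : List (ℝ × ℝ)) (T : ℝ) : Prop where
  dk : ∀ k t, 0 ≤ t → Pr.Dk k l2 t = Pr.Dk k l t
  ex : ∀ t ∈ Icc 0 T, ∀ F, BD F → EX 1 l2 t F = EX 1 l t F
  gam : ∀ t ∈ Icc 0 T, Pr.Gam l2 t = Pr.Gam l t
  gg : ∀ t ∈ Icc 0 T, Pr.GG l2 t = Pr.GG l t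
  aa : ∀ t ∈ Icc 0 T, Pr.AA l2 t = Pr.AA l t
  nn : ∀ t ∈ Icc 0 T, Pr.NN l2 t = Pr.NN l t
  n4 : ∀ t ∈ Icc 0 T, Pr.N4 l2 t = Pr.N4 l t
  bB : ∀ t ∈ Icc 0 T, Pr.BB l2 t = Pr.BB l t
  chi : Pr.chi l2 = Pr.chi l
  k4 : Pr.k4 l2 = Pr.k4 l
  bb : ∀ eps, Pr.bb l2 eps = Pr.bb l eps
  ee : ∀ eps, ∀ t ∈ Icc 0 T, Pr.ee l2 eps t = Pr.ee l eps t

theorem Dk_bd (k : ℕ) (l : List (ℝ × ℝ)) (t : ℝ) : BD (Pr.Dk k l t) :=
  Dn_bd (PhiT_prof one_pos l t) k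

theorem same_of {T : ℝ} (dk : ∀ k t, 0 ≤ t → Pr.Dk k l2 t = Pr.Dk k l t)
    (ex : ∀ t ∈ Icc 0 T, ∀ F, BD F → EX 1 l2 t F = EX 1 l t F) : Same l l2 T := by
  have g : ∀ k i, ∀ t ∈ Icc 0 T, (Pr.Et l2 t fun x => Pr.Dk k l2 t x ^ i) =
      Pr.Et l t fun x => Pr.Dk k l t x ^ i := fun k i t ht => by
    unfold Pr.Et
    rw [dk k t ht.1, ex t ht _ ((Dk_bd k l t).pow i)]
  have c : Pr.chi l2 = Pr.chi l := by unfold Pr.chi; rw [dk 1 0 le_rfl]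
  have b : ∀ eps, Pr.bb l2 eps = Pr.bb l eps := fun eps => by unfold Pr.bb; rw [c]
  refine ⟨dk, ex, g 0 2, g 1 2, g 1 3, g 2 2, g 3 2, fun t ht => ?_, c,
    by unfold Pr.k4; rw [dk 3 0 le_rfl], b, fun eps t ht => ?_⟩
  · unfold Pr.BB Pr.Et
    rw [dk 1 t ht.1, dk 2 t ht.1, ex t ht _ ((Dk_bd 1 l t).mul ((Dk_bd 2 l t).pow 2))]
  · unfold Pr.ee Pr.GG
    rw [b, g 1 2 t ht]

theorem Same.symm {T : ℝ} (h : Same l l2 T) : Same l2 l T :=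
  same_of (fun k t ht => (h.dk k t ht).symm) fun t ht F hF => (h.ex t ht F hF).symm

theorem same_le (h : Adm 1 l) (h2 : Adm 1 l2) (hT : TT l ≤ TT l2)
    (hz : ∀ s, 0 < s → s < TT l2 → lvr 1 l2 s = lvr 1 l s) : Same l l2 (TT l) := by
  obtain ⟨a, b, -⟩ := ext_le h h2 hT hz
  refine same_of (fun k t ht => ?_) b
  obtain ⟨c, hc⟩ := a t ht
  unfold Pr.Dk
  rw [hc, Dn_shift]

/-- **(a)** any two total times -/
theorem same (h : Adm 1 l) (h2 : Adm 1 l2) (hz : ∀ s, 0 < s → lvr 1 l2 s = lvr 1 l s) :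
    Same l l2 (min (TT l) (TT l2)) := by
  rcases le_total (TT l) (TT l2) with a | a
  · rw [min_eq_left a]
    exact same_le h h2 a fun s h1 _ => hz s h1
  · rw [min_eq_right a]
    exact (same_le h2 h a fun s h1 _ => (hz s h1).symm).symm

/-- truncation at a time above which the tilt is `1` -/
theorem trunc (h : Adm 1 l) {T1 : ℝ} (hT : T1 ∈ Icc 0 (TT l))
    (top : ∀ s, T1 ≤ s → lvr 1 l s = 1) :
    Adm 1 (cut l T1) ∧ TT (cut l T1) = T1 ∧ ∀ s, lvr 1 l s = lvr 1 (cut l T1) s := by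
  obtain ⟨c1, -, c3⟩ := adm_cut h hT.1
  obtain ⟨-, r2, -⟩ := Min62.rest_adm h T1 hT.1 hT.2
  have tM : TT (cut l T1) = T1 := by
    rw [TT_append, r2] at c3
    linarith
  have a := adm_pre _ c1
  refine ⟨a, tM, fun s => ?_⟩
  rcases lt_or_ge s T1 with h1 | h1
  · exact (lvr_cut l h1).symm
  · rw [top s h1, lvr_end' (nn_of_adm a) (tM.trans_le h1)]

/-! ### one slice: derivative bounds that do not depend on its length -/

/-- the derivatives of order `≤ k` are bounded by `K` -/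
def Bk : ℕ → (ℝ → ℝ) → ℝ → Prop
  | 0, F, K => ∀ x, |F x| ≤ K
  | k + 1, F, K => (∀ x, |F x| ≤ K) ∧ Bk k (deriv F) K

theorem Bk.b0 : ∀ {k : ℕ} {F : ℝ → ℝ} {K : ℝ}, Bk k F K → ∀ x, |F x| ≤ K
  | 0, _, _, h => h
  | _ + 1, _, _, h => h.1

theorem Bk.nn {k : ℕ} {F : ℝ → ℝ} {K : ℝ} (h : Bk k F K) : 0 ≤ K := (abs_nonneg _).trans (h.b0 0)

theorem Bk.low : ∀ {k : ℕ} {F : ℝ → ℝ} {K : ℝ}, Bk (k + 1) F K → Bk k F K
  | 0, _, _, h => h.1
  | _ + 1, _, _, h => ⟨h.1, h.2.low⟩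

theorem Bk.mono : ∀ {k : ℕ} {F : ℝ → ℝ} {K K' : ℝ}, Bk k F K → K ≤ K' → Bk k F K'
  | 0, _, _, _, h, e => fun x => (h x).trans e
  | _ + 1, _, _, _, h, e => ⟨fun x => (h.1 x).trans e, h.2.mono e⟩

theorem bk_iff : ∀ {k : ℕ} {F : ℝ → ℝ} {K : ℝ},
    Bk k F K ↔ ∀ j ≤ k, ∀ x, |iteratedDeriv j F x| ≤ K
  | 0, F, K => by simp [Bk]
  | k + 1, F, K => by
    refine ⟨fun h j hj => ?_, fun h => ⟨by simpa using h 0 (Nat.zero_le _), bk_iff.2 fun j hj => ?_⟩⟩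
    · cases j with
      | zero => simpa using h.1
      | succ j => rw [iteratedDeriv_succ']; exact bk_iff.1 h.2 j (by omega)
    · rw [← iteratedDeriv_succ']; exact h _ (by omega)

theorem Bk.lin (c : ℝ) (hc : |c| ≤ 1) : ∀ {k : ℕ} {F G : ℝ → ℝ} {a b : ℝ}, BD F → BD G → Bk k F a →
    Bk k G b → Bk k (fun x => F x + c * G x) (a + b) := by
  have z : ∀ {F G : ℝ → ℝ} {a b : ℝ}, (∀ x, |F x| ≤ a) → (∀ x, |G x| ≤ b) → ∀ x,
      |F x + c * G x| ≤ a + b := fun h h' x => (abs_add_le _ _).trans (add_le_add (h x) (by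
    rw [abs_mul]; exact (mul_le_of_le_one_left (abs_nonneg _) hc).trans (h' x)))
  intro k
  induction k with
  | zero => exact fun _ _ h h' => z h h'
  | succ k ih =>
    intro F G a b hF hG h h'
    refine ⟨z h.1 h'.1, ?_⟩
    rw [show deriv (fun x => F x + c * G x) = fun x => deriv F x + c * deriv G x from
      funext fun x => ((hF.hasDerivAt x).fun_add ((hG.hasDerivAt x).const_mul c)).deriv]
    exact ih hF.deriv hG.deriv h.2 h'.2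

theorem Bk.mul : ∀ {k : ℕ} {F G : ℝ → ℝ} {a b : ℝ}, BD F → BD G → Bk k F a → Bk k G b →
    Bk k (fun x => F x * G x) (2 ^ k * (a * b))
  | 0, _, _, _, _, _, _, h, h' => fun x => by
    rw [abs_mul, pow_zero, one_mul]; exact mul_le_mul (h x) (h' x) (abs_nonneg _) h.nn
  | k + 1, F, G, a, b, hF, hG, h, h' => by
    refine ⟨fun x => ?_, ?_⟩
    · rw [abs_mul]
      exact (mul_le_mul (h.1 x) (h'.1 x) (abs_nonneg _) h.nn).trans
        (le_mul_of_one_le_left (mul_nonneg h.nn h'.nn) (one_le_pow₀ one_le_two))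
    · rw [show deriv (fun x => F x * G x) = fun x => deriv F x * G x + 1 * (F x * deriv G x) from
        funext fun x => by rw [deriv_fun_mul (hF.diff x) (hG.diff x), one_mul]]
      exact (Bk.lin 1 (by simp) (hF.deriv.mul hG) (hF.mul hG.deriv) (Bk.mul hF.deriv hG h.2 h'.low)
        (Bk.mul hF hG.deriv h.low h'.2)).mono (le_of_eq (by ring))

/-- **(b)** uniform in the variance `v` -/
theorem tE_bk (D : ℝ) : ∀ k : ℕ, ∃ C : ℝ, 1 ≤ C ∧ ∀ {Φ : ℝ → ℝ}, Prof Φ → Bk k (deriv Φ) D →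
    ∀ (a v : ℝ), |a| ≤ 1 → ∀ (F : ℝ → ℝ) (K : ℝ), BD F → Bk k F K → Bk k (tE a v Φ F) (C * K)
  | 0 => ⟨1, le_rfl, fun h _ a v _ F K hF hK x => by
      rw [one_mul]; exact tE_abs_le h.lip a v ⟨hF.cont, hK⟩ x⟩
  | k + 1 => by
    obtain ⟨C, h1, hC⟩ := tE_bk D k
    have q : 0 ≤ C * (2 ^ k * |D|) + 2 ^ k * (C * (C * |D|)) := by positivity
    refine ⟨C + (C * (2 ^ k * |D|) + 2 ^ k * (C * (C * |D|))), by linarith,
      fun {Φ} h hD a v ha F K hF hK => ⟨fun x => ?_, ?_⟩⟩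
    · exact (tE_abs_le h.lip a v ⟨hF.cont, hK.1⟩ x).trans
        (le_mul_of_one_le_left hK.nn (by linarith))
    · rw [show deriv (tE a v Φ F) = fun x => tE a v Φ (deriv F) x +
          a * (tE a v Φ (fun y => F y * deriv Φ y) x +
          (-1) * (tE a v Φ F x * tE a v Φ (deriv Φ) x)) from
        funext fun x => by rw [(h.tE_hasDerivAt a v hF.egs x).deriv]; ring]
      have i1 := hC h hD.low a v ha _ _ hF.deriv hK.2
      have i2 := hC h hD.low a v ha _ _ (hF.mul h.bd) (Bk.mul hF h.bd hK.low hD.low)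
      have i3 := Bk.mul (h.tE_bd a v hF) (h.tE_bd a v h.bd) (hC h hD.low a v ha _ _ hF hK.low)
        (hC h hD.low a v ha _ _ h.bd hD.low)
      have b2 := h.tE_bd a v (hF.mul h.bd)
      have b3 := (h.tE_bd a v hF).mul (h.tE_bd a v h.bd)
      refine (Bk.lin a ha (h.tE_bd a v hF.deriv) (b2.add (b3.const_mul (-1))) i1
        (Bk.lin (-1) (by simp) b2 b3 i2 i3)).mono (le_of_eq ?_)
      rw [abs_of_nonneg hD.nn]
      ring

theorem top_bk (k : ℕ) : ∃ C : ℝ, 1 ≤ C ∧ ∀ (r : ℝ) (F : ℝ → ℝ) (K : ℝ), BD F → Bk k F K →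
    Bk k (tE 1 r (phi0 1) F) (C * K) := by
  obtain ⟨D, -, hD⟩ := Dn_bound 0 (k + 1)
  obtain ⟨C, h1, hC⟩ := tE_bk D k
  exact ⟨C, h1, fun r => hC (phi0_prof one_pos) (bk_iff.2 fun j hj =>
    hD j (Nat.lt_succ_of_le hj) [] trivial le_rfl) 1 r (by simp)⟩

/-! ### (c) constants depending only on the time `T1` where the tilt reaches `1` -/

/-- admissible, tilt `1` from `T1` on -/
structure Tp (T1 : ℝ) (l : List (ℝ × ℝ)) : Prop where
  adm : Adm 1 l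
  mem : T1 ∈ Icc 0 (TT l)
  top : ∀ s, T1 ≤ s → lvr 1 l s = 1

theorem Tp.ext {T1 : ℝ} (h : Tp T1 l) : Adm 1 (cut l T1) ∧ TT (cut l T1) = T1 ∧
    lvr 1 (cut l T1) = lvr 1 l ∧ Same (cut l T1) l T1 ∧
    (∀ t, T1 ≤ t → ∀ k, Dn k (PhiT 1 l t) = Dn k (phi0 1)) ∧
    ∀ t ∈ Icc T1 (TT l), ∀ F, BD F →
      EX 1 l t F = EX 1 (cut l T1) T1 (tE 1 (t - T1) (phi0 1) F) := by
  obtain ⟨a, b, c⟩ := trunc h.adm h.mem h.top
  have s := same_le a h.adm (b.trans_le h.mem.2) fun s _ _ => c s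
  have e := (ext_le a h.adm (b.trans_le h.mem.2) fun s _ _ => c s).2.2
  rw [b] at s e
  refine ⟨a, b, funext fun s => (c s).symm, s, fun t ht k => ?_, e⟩
  have := s.dk k t (h.mem.1.trans ht)
  unfold Pr.Dk at this
  rw [this, PhiT_end (fun p hp => Adm.pos a p hp) (b.trans_le ht)]

theorem Dn_bound' (T : ℝ) (k : ℕ) : ∃ C : ℝ, 1 ≤ C ∧ ∀ (T1 : ℝ) (l : List (ℝ × ℝ)), Tp T1 l →
    T1 ≤ T → ∀ t, 0 ≤ t → ∀ j ≤ k, ∀ x, |Dn j (PhiT 1 l t) x| ≤ C := by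
  obtain ⟨C, h1, hC⟩ := Dn_bound T (k + 1)
  refine ⟨C, h1, fun T1 l h hT t ht j hj x => ?_⟩
  obtain ⟨a, b, -, s, -⟩ := h.ext
  have := s.dk j t ht
  unfold Pr.Dk at this
  obtain ⟨r1, r2⟩ := Lip62.adm_rest a t ht
  rw [this, Lip62.PhiT_eq_rest]
  exact hC j (Nat.lt_succ_of_le hj) _ r1 (by linarith) x

theorem Dn_lip' (T : ℝ) (k : ℕ) : ∃ C : ℝ, 1 ≤ C ∧ ∀ (T1 : ℝ) (l l' : List (ℝ × ℝ)), Tp T1 l →
    Tp T1 l' → T1 ≤ T → ∀ t, 0 ≤ t → ∀ j ≤ k, ∀ x,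
      |Dn j (PhiT 1 l' t) x - Dn j (PhiT 1 l t) x| ≤ C * Nf l l' (min t T1) T1 := by
  obtain ⟨C, h1, hC⟩ := Dn_lip T k
  refine ⟨C, h1, fun T1 l l' h h' hT t ht j hj x => ?_⟩
  obtain ⟨a, b, c, s, u, -⟩ := h.ext
  obtain ⟨a', b', c', s', u', -⟩ := h'.ext
  rcases le_total t T1 with h2 | h2
  · have e := s.dk j t ht
    have e' := s'.dk j t ht
    unfold Pr.Dk at e e'
    have := hC _ _ a a' (b'.trans b.symm) (b.trans_le hT) t ⟨ht, h2.trans_eq b.symm⟩ j hj x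
    rw [min_eq_left h2]
    unfold Nf at this ⊢
    rwa [← e, ← e', b, c, c'] at this
  · rw [u t h2, u' t h2, min_eq_right h2]
    simp [Nf]

/-- comparison of the laws at a reveal time -/
theorem EX_lip' (T : ℝ) : ∃ C : ℝ, 1 ≤ C ∧ ∀ (T1 : ℝ) (l l' : List (ℝ × ℝ)), Tp T1 l →
    Tp T1 l' → T1 ≤ T → ∀ t, T1 ≤ t → t ≤ TT l → t ≤ TT l' → ∀ (F : ℝ → ℝ) (K : ℝ), BD F → ∀ x,
    (Bk 1 F K → |EX 1 l' t F x - EX 1 l t F x| ≤ C * K * Nf l l' 0 T1 ∧ ∀ δ, 0 < δ →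
      |EX 1 l' t F x - EX 1 l t F x| ≤
        C * K * (δ * Nf l l' 0 T1 + (Wf l l' T1 + Nf l l' 0 T1 * x ^ 2) / δ)) ∧
    (Bk 2 F K → (∀ x, F (-x) = F x) →
      |EX 1 l' t F x - EX 1 l t F x| ≤ C * K * (Wf l l' T1 + Nf l l' 0 T1 * x ^ 2)) := by
  obtain ⟨C, h1, hC⟩ := EX_lip T
  obtain ⟨C1, h2, hC1⟩ := top_bk 1
  obtain ⟨C2, h3, hC2⟩ := top_bk 2
  refine ⟨C * (C1 + C2), one_le_mul_of_one_le_of_one_le h1 (by linarith),
    fun T1 l l' h h' hT t t1 t2 t3 F K hF x => ?_⟩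
  obtain ⟨a, b, c, -, -, e⟩ := h.ext
  obtain ⟨a', b', c', -, -, e'⟩ := h'.ext
  rw [e t ⟨t1, t2⟩ F hF, e' t ⟨t1, t3⟩ F hF]
  have g := (phi0_prof one_pos).tE_bd 1 (t - T1) hF
  have key := fun K hK => hC _ _ a a' (b'.trans b.symm) (b.trans_le hT) T1 ⟨h.mem.1, b.ge⟩ _ K g hK
    x (Nf l l' 0 T1) (Wf l l' T1) (by simp [Nf, b, c, c']) (by simp [Nf, Wf, b, c, c'])
  refine ⟨fun hK => ?_, fun hK he => ?_⟩
  · obtain ⟨k1, k2, -⟩ := key _ ((hC1 (t - T1) F K hF hK).mono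
      (mul_le_mul_of_nonneg_right (show C1 ≤ C1 + C2 by linarith) hK.nn)).2
    exact ⟨k1.trans_eq (by ring), fun δ hδ => (k2 δ hδ).trans_eq (by ring)⟩
  · have i := (hC2 (t - T1) F K hF hK).mono
      (mul_le_mul_of_nonneg_right (show C2 ≤ C1 + C2 by linarith) hK.nn)
    exact ((key _ i.2.1).2.2 (tE_even (phi0_even 1) he _ _) i.2.2).trans_eq (by ring)

/-- the functionals, all times, constants depending on `T1` only -/
theorem fun_lip' (T : ℝ) : ∃ C : ℝ, 1 ≤ C ∧ ∀ (T1 : ℝ) (l l' : List (ℝ × ℝ)), Tp T1 l →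
    Tp T1 l' → T1 ≤ T → ∀ t, 0 ≤ t → t ≤ TT l → t ≤ TT l' → ∀ W N, W = Wf l l' (min t T1) →
    N = Nf l l' (min t T1) T1 →
    |Pr.Gam l' t - Pr.Gam l t| ≤ C * (W + t * N) ∧ |Pr.GG l' t - Pr.GG l t| ≤ C * (W + N) ∧
    |Pr.AA l' t - Pr.AA l t| ≤ C * (W + N) ∧ |Pr.NN l' t - Pr.NN l t| ≤ C * (W + t * N) ∧
    |Pr.N4 l' t - Pr.N4 l t| ≤ C * (W + N) ∧ |Pr.BB l' t - Pr.BB l t| ≤ C * (W + t * N) := by
  obtain ⟨C, h1, hC⟩ := fun_lip T
  obtain ⟨C1, h2, hC1⟩ := EX_lip' T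
  obtain ⟨D, h3, hD⟩ := Dn_bound 0 6
  have hD' : ∀ k ≤ 3, Bk 2 (Dn k (phi0 1)) D := fun k hk =>
    ⟨hD k (by omega) [] trivial le_rfl, by rw [← Dn_succ]; exact hD _ (by omega) [] trivial le_rfl,
      by rw [← Dn_succ, ← Dn_succ]; exact hD _ (by omega) [] trivial le_rfl⟩
  have hb := fun k => Dn_bd (phi0_prof one_pos) k
  have D2 : 1 ≤ D * D := one_le_mul_of_one_le_of_one_le h3 h3
  set K := 2 ^ 2 * (D * (2 ^ 2 * (D * D))) with hK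
  have K1 : 2 ^ 2 * (D * D) ≤ K := by nlinarith
  have K0 : 0 ≤ C1 * K := by positivity
  refine ⟨C + C1 * K, by linarith, fun T1 l l' h h' hT t t0 t2 t3 W N hW hN => ?_⟩
  obtain ⟨a, b, c, s, u, -⟩ := h.ext
  obtain ⟨a', b', c', s', u', -⟩ := h'.ext
  have W0 : 0 ≤ W := hW ▸ Wf_nonneg l l' (le_min t0 h.mem.1)
  have N0 : 0 ≤ N := hN ▸ Nf_nonneg l l' (min_le_right _ _)
  have w1 : 0 ≤ W + t * N := by positivity
  have w2 : 0 ≤ W + N := by positivity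
  rcases le_total t T1 with t1 | t1
  · have m : t ∈ Icc 0 T1 := ⟨t0, t1⟩
    have := hC _ _ a a' (b'.trans b.symm) (b.trans_le hT) t ⟨t0, t1.trans_eq b.symm⟩
    rw [min_eq_left t1] at hW hN
    unfold Wf at hW
    unfold Nf at hN
    unfold Wf Nf at this
    rw [b, c, c', ← hW, ← hN, ← s.gam t m, ← s'.gam t m, ← s.gg t m, ← s'.gg t m, ← s.aa t m,
      ← s'.aa t m, ← s.nn t m, ← s'.nn t m, ← s.n4 t m, ← s'.n4 t m, ← s.bB t m,
      ← s'.bB t m] at this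
    obtain ⟨a1, a2, a3, a4, a5, a6⟩ := this
    have hc : C ≤ C + C1 * K := by linarith
    exact ⟨a1.trans (mul_le_mul_of_nonneg_right hc w1), a2.trans (mul_le_mul_of_nonneg_right hc w2),
      a3.trans (mul_le_mul_of_nonneg_right hc w2), a4.trans (mul_le_mul_of_nonneg_right hc w1),
      a5.trans (mul_le_mul_of_nonneg_right hc w2), a6.trans (mul_le_mul_of_nonneg_right hc w1)⟩
  · rw [min_eq_right t1] at hW hN
    have n0 : N = 0 := by simp [hN, Nf]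
    have key : ∀ F, BD F → Bk 2 F K → (∀ x, F (-x) = F x) →
        |EX 1 l' t F 0 - EX 1 l t F 0| ≤ (C + C1 * K) * W := fun F hF k he => by
      have := (hC1 T1 l l' h h' hT t t1 t2 t3 F K hF 0).2 k he
      rw [← hW] at this
      nlinarith [mul_nonneg (zero_le_one.trans h1) W0]
    have ev := Dn_neg (phi0_even 1)
    have k2 : ∀ k ≤ 3, |EX 1 l' t (fun x => Dn k (phi0 1) x ^ 2) 0 -
        EX 1 l t (fun x => Dn k (phi0 1) x ^ 2) 0| ≤ (C + C1 * K) * W := fun k hk =>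
      key _ ((hb k).pow 2) (by
        simp only [sq]
        exact (Bk.mul (hb k) (hb k) (hD' k hk) (hD' k hk)).mono K1) fun x => by
          rw [ev, mul_pow, ← pow_mul, mul_comm (k + 1), pow_mul]; simp
    have k3 : ∀ k ≤ 3, |EX 1 l' t (fun x => Dn 1 (phi0 1) x * Dn k (phi0 1) x ^ 2) 0 -
        EX 1 l t (fun x => Dn 1 (phi0 1) x * Dn k (phi0 1) x ^ 2) 0| ≤ (C + C1 * K) * W :=
      fun k hk => key _ ((hb 1).mul ((hb k).pow 2)) (by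
        simp only [sq]
        exact Bk.mul (hb 1) ((hb k).mul (hb k)) (hD' 1 (by omega))
          (Bk.mul (hb k) (hb k) (hD' k hk) (hD' k hk))) fun x => by
          rw [ev, ev k, mul_pow, ← pow_mul, mul_comm (k + 1), pow_mul]; simp
    have k4 := k3 1 (by omega)
    simp only [← pow_succ'] at k4
    simp only [Pr.Gam, Pr.GG, Pr.AA, Pr.NN, Pr.N4, Pr.BB, Pr.Et, Pr.Dk, u t t1, u' t t1, n0,
      mul_zero, add_zero]
    exact ⟨k2 0 (by omega), k2 1 (by omega), k4, k2 2 (by omega), k2 3 le_rfl, k3 2 (by omega)⟩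

/-- the instance: profile lists with `N ≤ N'` slices -/
theorem lo_same {v Y L : ℝ} {om z : ℕ → ℝ} {J N N' : ℕ} (hz : Pr.Lab z J) (hN : J ≤ N)
    (hN' : N ≤ N') (h : Pr.Om v Y L om) (hv : 0 < v) (hL : L ≤ 1 / 2) (hY : Y ≤ J * v) :
    Same (Pr.lo z v om N) (Pr.lo z v om N') (N * v) ∧ Tp (J * v) (Pr.lo z v om N') ∧
    (∀ s, 0 ≤ s → lvr 1 (Pr.lo z v om N') s = lvr 1 (Pr.lo z v om N) s) ∧
    ∀ t ∈ Icc (N * v) (N' * v), ∀ F, BD F → EX 1 (Pr.lo z v om N') t F =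
      EX 1 (Pr.lo z v om N) (N * v) (tE 1 (t - N * v) (phi0 1) F) := by
  have m : ∀ {a b : ℕ}, a ≤ b → (a:ℝ) * v ≤ b * v := fun h =>
    mul_le_mul_of_nonneg_right (by exact_mod_cast h) hv.le
  obtain ⟨a, b⟩ := Pr.lo_ok Pr.areaS (hz.up hN) h hv hL (hY.trans (m hN))
  obtain ⟨a', b'⟩ := Pr.lo_ok Pr.areaS (hz.up (hN.trans hN')) h hv hL (hY.trans (m (hN.trans hN')))
  have e : ∀ s, 0 ≤ s → lvr 1 (Pr.lo z v om N') s = lvr 1 (Pr.lo z v om N) s := fun s hs => by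
    obtain ⟨⟨-, -, -, -, c⟩, -⟩ := Pr.areaS z (Pr.sig v om) N (hz.up hN) h.sig0 (h.sm hv hL)
    obtain ⟨⟨-, -, -, -, c'⟩, -⟩ :=
      Pr.areaS z (Pr.sig v om) N' (hz.up (hN.trans hN')) h.sig0 (h.sm hv hL)
    unfold Pr.lo
    rw [c s hs, c' s hs]
    congr 1
    refine (Finset.sum_subset (Finset.range_mono hN') fun j _ hj => ?_).symm
    rw [hz.dm_top (hN.trans (by simpa using hj)), zero_mul]
  have hT : TT (Pr.lo z v om N) ≤ TT (Pr.lo z v om N') := by rw [b, b']; exact m hN'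
  have s1 := same_le a.1 a'.1 hT fun s h1 _ => e s h1.le
  have s2 := (ext_le a.1 a'.1 hT fun s h1 _ => e s h1.le).2.2
  rw [b] at s1
  rw [b, b'] at s2
  exact ⟨s1, ⟨a'.1, ⟨by positivity, b'.symm ▸ m (hN.trans hN')⟩,
    fun s hs => Pr.lvr_top Pr.areaS hz (hN.trans hN') h hv hL hs⟩, e, s2⟩

end

end Crest.Agent.T156.Ker
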