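import Crest.Agent.T156.TopC_27
import Crest.Agent.T156.Zb_9

/-!
Row 156 (helper27): the net of good nodes; `Cut8.Res` from node data.
-/

set_option autoImplicit false

namespace Crest.Agent.T156.Gap27

open MeasureTheory Set
open Crest.Agent.R164.GC Crest.Agent.R339.B Crest.Agent.R339.Var Crest.Agent.T157.Pf
open Crest.Agent.T156.L0 Crest.Agent.T156.Cut8 Crest.Agent.T156.Pp.Area50

noncomputable section

/-- `i ≤ j` are consecutive good nodes of `[u, v]` (or equal) -/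
structure Cons (Gn : ℕ → Prop) (u v i j : ℕ) : Prop where
  ui : u ≤ i
  ij : i ≤ j
  jv : j ≤ v
  gi : Gn i
  gj : Gn j
  no : ∀ k, i < k → k < j → ¬ Gn k

/-- a monotone choice of the gap around each time -/
theorem exists_net {σ : ℕ → ℝ} {Gn : ℕ → Prop} {u v : ℕ} (huv : u ≤ v) (hu : Gn u) (hv : Gn v) :
    ∃ I N : ℝ → ℕ, (∀ s t, σ u ≤ s → s ≤ t → I s ≤ I t) ∧
      (∀ t k, u ≤ k → k ≤ v → Gn k → σ k ≤ t → k ≤ I t) ∧
      ∀ t, σ u ≤ t → t ≤ σ v → Cons Gn u v (I t) (N t) ∧ σ (I t) ≤ t ∧ t ≤ σ (N t) := by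
  classical
  let P : ℝ → ℕ → Prop := fun t i => u ≤ i ∧ Gn i ∧ σ i ≤ t
  let I : ℝ → ℕ := fun t => Nat.findGreatest (P t) v
  have sp : ∀ t, σ u ≤ t → P t (I t) := fun t ht =>
    Nat.findGreatest_spec (P := P t) huv ⟨le_rfl, hu, ht⟩
  have ex' : ∀ i, i < v → ∃ j, i < j ∧ Gn j := fun i h => ⟨v, h, hv⟩
  let nx : ℕ → ℕ := fun i => if h : i < v then Nat.find (ex' i h) else v
  refine ⟨I, fun t => nx (I t), fun s t hs hst => ?_,
    fun t k a c g e => Nat.le_findGreatest c ⟨a, g, e⟩, fun t h0 h1 => ?_⟩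
  · have a := sp s hs
    exact Nat.le_findGreatest (Nat.findGreatest_le v) ⟨a.1, a.2.1, a.2.2.trans hst⟩
  · have a := sp t h0
    have b : I t ≤ v := Nat.findGreatest_le v
    by_cases h : I t < v
    · have e : nx (I t) = Nat.find (ex' _ h) := dif_pos h
      have c := Nat.find_spec (ex' _ h)
      have d : Nat.find (ex' _ h) ≤ v := Nat.find_min' _ ⟨h, hv⟩
      simp only [e]
      refine ⟨⟨a.1, c.1.le, d, a.2.1, c.2, fun k x y g => Nat.find_min (ex' _ h) y ⟨x, g⟩⟩,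
        a.2.2, ?_⟩
      by_contra hc
      exact Nat.findGreatest_is_greatest (P := P t) c.1 d ⟨a.1.trans c.1.le, c.2, (not_le.1 hc).le⟩
    · have e : nx (I t) = v := dif_neg h
      simp only [e]
      exact ⟨⟨a.1, b, le_rfl, a.2.1, hv, fun k x y => by omega⟩, a.2.2, h1⟩

variable {lb lh : List (ℝ × ℝ)} {T C b θ : ℝ}

/-- the pairing on one gap, raw mark term -/
theorem pair_diff (hC : 0 ≤ C) (hA : HLip Pr.AA T C) (hN : HLip Pr.NN T C) (hb : Pr.Ok lb)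
    (hh : Pr.Ok lh) (eb : TT lb = T) (eh : TT lh = T) (hθ : 0 < θ) (b0 : b ≠ 0)
    {hm r : ℝ → ℝ} {t p q Gm Dz jh D η ω lam m f ζ : ℝ} (hm0 : 0 ≤ m) (hl : 0 ≤ lam) (hζ : 0 ≤ ζ)
    (G : GapD lb lh T b hm r t p q Gm Dz jh D η ω)
    (num : Num θ m f (7 * η + 2 * D + ζ + (7 * ω + 2 * Gm ^ 2) * (jh + (2 + 3 * C * Gm) * Dz))
      ((7 * ω + 2 * Gm ^ 2) * (2 + 3 * C * Gm) + lam) (3 * C * (7 * ω + 2 * Gm ^ 2))) :
    (Pr.Gam lb t - Pr.Gam lh t + (hm t - (t - b * Pr.Gam lh t)) / b - r p) *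
        (lvr 1 lb t - lvr 1 lh t) +
      (η + ω * |Gd lb p| + lam * |lvr 1 lb t - lvr 1 lh t| + ζ) * |lvr 1 lb t - lvr 1 lh t| ≤
      xi θ m f (∫ s in (0 : ℝ)..T, |Sc48.Jf lh lb T s|) (lvr 1 lb t - lvr 1 lh t)
        (Sc48.Jf lh lb T t) := by
  have pq : p ≤ q := G.pt.trans G.tq
  have k := fun s hs => Gd_gap hC hA hN hb hh eb eh G.p0 G.qT G.len G.dz G.jh ⟨G.pt, G.tq⟩
    (s := s) hs
  have kp := k p ⟨le_rfl, pq⟩
  have kq := k q ⟨pq, le_rfl⟩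
  set κ := jh + (2 + 3 * C * Gm) * (|lvr 1 lb t - lvr 1 lh t| + Dz) +
    3 * C * (|Sc48.Jf lh lb T t| + ∫ s in (0 : ℝ)..T, |Sc48.Jf lh lb T s|) with hκ
  have w1 := mul_le_mul_of_nonneg_left kp G.ω0
  have w2 := mul_le_mul_of_nonneg_left kq G.ω0
  have n1 : 0 ≤ ω * |Gd lb p| := mul_nonneg G.ω0 (abs_nonneg _)
  have η0 := G.η0
  have a := gap_pt hC hA hN hb hh eb eh (φ := fun s => hm s / b - r p) (b := b)
    (η := 2 * η + 2 * (ω * κ)) (ω := 0) (D := D) G.p0 G.qT G.len le_rfl G.dz G.jh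
    (fun s hs => by simpa using G.osc s hs)
    (by
      have := G.rp
      rw [show Pr.Gam lb p - p / b + (hm p / b - r p) = Pr.Gam lb p - p / b + hm p / b - r p by ring]
      linarith)
    (by
      have a1 := abs_le.1 G.rq
      have a2 := abs_le.1 G.e1
      rw [abs_le]
      constructor <;> nlinarith [a1.1, a1.2, a2.1, a2.2]) ⟨G.pt, G.tq⟩
  rw [← hκ] at a
  refine xi_pt hθ hm0 (add_nonneg (add_nonneg (add_nonneg η0 n1)
    (mul_nonneg hl (abs_nonneg _))) hζ) ?_ num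
  have e1 : Pr.Gam lb t - Pr.Gam lh t + (hm t - (t - b * Pr.Gam lh t)) / b - r p =
      Pr.Gam lb t - t / b + (hm t / b - r p) := by
    field_simp
    ring
  have e4 : (7 * ω + 2 * Gm ^ 2) * κ = (7 * ω + 2 * Gm ^ 2) * (jh + (2 + 3 * C * Gm) * Dz) +
      (7 * ω + 2 * Gm ^ 2) * (2 + 3 * C * Gm) * |lvr 1 lb t - lvr 1 lh t| +
      3 * C * (7 * ω + 2 * Gm ^ 2) *
        (|Sc48.Jf lh lb T t| + ∫ s in (0 : ℝ)..T, |Sc48.Jf lh lb T s|) := by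
    rw [hκ]; ring
  rw [e1]
  nlinarith

/-- the residual at the node `k` -/
def resN (lb : List (ℝ × ℝ)) (b : ℝ) (σ h : ℕ → ℝ) (k : ℕ) : ℝ :=
  Pr.Gam lb (σ k) - σ k / b + h k / b

/-- node data on `[u, v]`: labels `x`, times `σ`, marks `h`, good nodes `Gn`, node errors
`en + on |Γ''|`, source clock `l0 σ + Ω (x)`; level functions of the time -/
structure Nodes (lb lh : List (ℝ × ℝ)) (b : ℝ) (x σ h en on : ℕ → ℝ) (Gn : ℕ → Prop) (J u v : ℕ)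
    (l0 δ : ℝ) (Ω ϖ Gm Dz jh D η ω lam : ℝ → ℝ) : Prop where
  uv : u ≤ v
  vJ : v ≤ J
  gu : Gn u
  gv : Gn v
  hm : Up h J
  l00 : 0 ≤ l0
  δ0 : 0 ≤ δ
  Ωm : Monotone Ω
  str : ∀ k, u ≤ k → k ≤ v → Gn k → k < J → σ k < σ (k + 1)
  e1 : ∀ i j, u ≤ i → i ≤ j → j ≤ v → Gn i → Gn j → |resN lb b σ h j - resN lb b σ h i| ≤
    en i + on i * |Gd lb (σ i)| + (en j + on j * |Gd lb (σ j)|) +
      (l0 * (σ j - σ i) + (Ω (x j) - Ω (x i)))
  gap : ∀ i j, Cons Gn u v i j → ∀ t, σ i ≤ t → t ≤ σ j → σ j - σ i ≤ Gm t ∧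
    x j - x i + (lvr 1 lh (σ j) - lvr 1 lh (σ i)) ≤ Dz t ∧ (∀ s ∈ Icc (σ i) (σ j), |Gd lh s| ≤ jh t) ∧
    (h j - h i) / b ≤ D t ∧ 0 ≤ en i ∧ 0 ≤ en j ∧ 0 ≤ on i ∧ on i ≤ ω t ∧ on j ≤ ω t ∧
    en i + en j + (l0 * (σ j - σ i) + (Ω (x j) - Ω (x i))) + δ ≤ η t
  o1 : ∀ t, σ u ≤ t → t ≤ σ v → 0 ≤ lam t ∧
    |Ω (lvr 1 lb t) - Ω (lvr 1 lh t)| ≤ lam t * |lvr 1 lb t - lvr 1 lh t|
  o2 : ∀ s t, σ u ≤ s → s ≤ t → t ≤ σ v →
    l0 * (t - s) + (Ω (lvr 1 lh t) - Ω (lvr 1 lh s)) ≤ (∫ r in s..t, ϖ r) + δ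

/-- **`Res` from node data** (lower clamp `Zb9.lo`); `r2` takes the node values -/
theorem res_nodes (hC : 0 ≤ C) (hA : HLip Pr.AA T C) (hN : HLip Pr.NN T C) {x σ h en on : ℕ → ℝ}
    {J u v : ℕ} (Db : Zb9.Dat x σ J T) (hh : Pr.Ok lh) (eh : TT lh = T) (hθ : 0 < θ) (b0 : 0 < b)
    {Gn : ℕ → Prop} {l0 δ : ℝ} {Ω ϖ Gm Dz jh D η ω lam m f ζ : ℝ → ℝ}
    (hlb : lb = Zb9.zl x σ J T)
    (N : Nodes lb lh b x σ h en on Gn J u v l0 δ Ω ϖ Gm Dz jh D η ω lam)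
    (lϖ : LB T ϖ) (lm : LB T m) (lf : LB T f)
    (nn : ∀ t, σ u < t → t < σ v → 0 ≤ ϖ t ∧ 0 ≤ m t ∧ 0 ≤ f t ∧ 0 ≤ ζ t)
    (fl : ∀ t, σ u < t → t < σ v → m t * (lvr 1 lb t - lvr 1 lh t) ^ 2 -
      ζ t * |lvr 1 lb t - lvr 1 lh t| ≤
      (stp h σ J t - (t - b * Pr.Gam lh t)) / b * (lvr 1 lb t - lvr 1 lh t))
    (num : ∀ t, σ u < t → t < σ v → Num θ (m t) (f t)
      (7 * η t + 2 * D t + ζ t + (7 * ω t + 2 * Gm t ^ 2) * (jh t + (2 + 3 * C * Gm t) * Dz t))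
      ((7 * ω t + 2 * Gm t ^ 2) * (2 + 3 * C * Gm t) + lam t)
      (3 * C * (7 * ω t + 2 * Gm t ^ 2))) :
    ∃ r1 r2 β : ℝ → ℝ, Res T (fun t => lvr 1 lb t - lvr 1 lh t)
      (fun t => Pr.Gam lb t - Pr.Gam lh t)
      (fun t => Zb9.lo (m t) (lvr 1 lb t - lvr 1 lh t) ((stp h σ J t - (t - b * Pr.Gam lh t)) / b))
      r1 r2 ϖ β
      (fun t => xi θ (m t) (f t) (∫ s in (0 : ℝ)..T, |Sc48.Jf lh lb T s|)
        (lvr 1 lb t - lvr 1 lh t) (Sc48.Jf lh lb T t)) (σ u) (σ v) ∧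
      ∀ k, u ≤ k → k ≤ v → Gn k → r2 (σ k) = resN lb b σ h k ∧
        β (σ k) = η (σ k) + ω (σ k) * |Gd lb (σ k)| +
          lam (σ k) * |lvr 1 lb (σ k) - lvr 1 lh (σ k)| := by
  have ob : Pr.Ok lb := hlb ▸ Db.ok
  have eb : TT lb = T := hlb ▸ Db.tt
  have hT : 0 ≤ T := (Db.mem le_rfl).1.trans (Db.mem le_rfl).2
  have mb := Sc48.lvr_mono ob.1
  have cn : ∀ k, u ≤ k → k ≤ v → Gn k → Zb9.Cell σ J k (σ k) := fun k a c g =>
    Zb9.cell_node (c.trans N.vJ) (N.str k a c g)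
  have zx : ∀ k, u ≤ k → k ≤ v → Gn k → lvr 1 lb (σ k) = x k := fun k a c g => by
    rw [hlb]; exact Db.lv_cell (Db.nn (c.trans N.vJ)) (cn k a c g)
  have hx : ∀ k, u ≤ k → k ≤ v → Gn k → stp h σ J (σ k) = h k := fun k a c g =>
    (cn k a c g).stp Db.us h
  obtain ⟨I, M, mI, xI, hI⟩ := exists_net (σ := σ) N.uv N.gu N.gv
  set r : ℝ → ℝ := fun s => Pr.Gam lb s - s / b + stp h σ J s / b with hr
  have rn : ∀ k, u ≤ k → k ≤ v → Gn k → r (σ k) = resN lb b σ h k := fun k a c g => by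
    simp only [hr, resN, hx k a c g]
  have ld : LB T fun t => lvr 1 lb t - lvr 1 lh t :=
    (LB.of_mono mb).sub (LB.of_mono (Sc48.lvr_mono hh.1))
  have lJ : LB T (Sc48.Jf lh lb T) := .of_cont (ld.tail (right_mem_Icc.mpr hT))
  have l4 : LB T fun t => (lvr 1 lb t - lvr 1 lh t) ^ 4 := by simpa [← pow_mul] using ld.sq.sq
  have lG : LB T (Pr.Gam lh) := .of_cont (eh ▸ Pp.Ode3.Gam_cont (L0.ap_of_ok hh))
  have G : ∀ t, σ u ≤ t → t ≤ σ v → GapD lb lh T b (stp h σ J) r t (σ (I t)) (σ (M t)) (Gm t)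
      (Dz t) (jh t) (D t) (η t) (ω t) := fun t a c => by
    obtain ⟨K, p, q⟩ := hI t a c
    obtain ⟨g1, g2, g3, g4, g5, g5', g6, g7, g8, g9⟩ := N.gap _ _ K t p q
    have iv := K.ij.trans K.jv
    have uj := K.ui.trans K.ij
    have s0 : σ (I t) ≤ σ (M t) := p.trans q
    have x0 : x (I t) ≤ x (M t) := Db.ux.le K.ij (K.jv.trans N.vJ)
    have o0 := N.Ωm x0
    have o1 := mul_nonneg N.l00 (sub_nonneg.2 s0)
    have δ0 := N.δ0
    refine ⟨Db.nn (iv.trans N.vJ), p, q, (Db.mem (K.jv.trans N.vJ)).2, g1, g6.trans g7,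
      by linarith, by rw [zx _ K.ui iv K.gi, zx _ uj K.jv K.gj]; exact g2, g3, fun s hs => ?_,
      by simp only [hr, sub_self, abs_zero]; linarith,
      by simp only [hr, sub_self, abs_zero]; linarith, ?_⟩
    · have a1 := stp_mono σ N.hm hs.1
      have a2 := stp_mono σ N.hm hs.2
      rw [hx _ uj K.jv K.gj] at a2
      rw [← sub_div, abs_of_nonneg (div_nonneg (sub_nonneg.2 a1) b0.le), hx _ K.ui iv K.gi]
      exact (div_le_div_of_nonneg_right (by linarith) b0.le).trans g4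
    · rw [rn _ K.ui iv K.gi, rn _ uj K.jv K.gj]
      have := N.e1 _ _ K.ui K.ij K.jv K.gi K.gj
      nlinarith [mul_le_mul_of_nonneg_right g7 (abs_nonneg (Gd lb (σ (I t)))),
        mul_le_mul_of_nonneg_right g8 (abs_nonneg (Gd lb (σ (M t))))]
  refine ⟨_, fun t => r (σ (I t)), fun t => η t + ω t * |Gd lb (σ (I t))| +
    lam t * |lvr 1 lb t - lvr 1 lh t|, Zb9.res_lo (ζ := ζ)
    (r1 := fun t => Pr.Gam lb t - Pr.Gam lh t + (stp h σ J t - (t - b * Pr.Gam lh t)) / b -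
      r (σ (I t)))
    ((Sc48.lvr_meas lb).sub (Sc48.lvr_meas lh)) lm ld
    (((LB.of_mono (stp_mono σ N.hm)).sub ((LB.of_cont continuousOn_id).sub
      ((LB.const b).mul lG))).div b) lϖ
    ((LB.const θ).mul ((((((LB.const 2).mul l4).add (((LB.const 2).mul lm).mul ld.sq)).add
      lJ.sq).add (LB.const _)).add lf)) (fun t _ _ => by ring) (fun t a c => (nn t a c).1)
    (fun s t a st c => ?_) (fun t a c => (nn t a c).2.1) (fun t a c => (nn t a c).2.2.2) fl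
    (fun t a c => xi_nn hθ.le (nn t a c).2.1 (nn t a c).2.2.1) (fun t a c => ?_),
    fun k a c g => ?_⟩
  · obtain ⟨K, p, q⟩ := hI s a (st.trans c)
    obtain ⟨K', p', q'⟩ := hI t (a.trans st) c
    obtain ⟨-, -, -, -, g5, g5', -, g7, -, g9⟩ := N.gap _ _ K s p q
    obtain ⟨-, -, -, -, k5, k5', -, k7, -, k9⟩ := N.gap _ _ K' t p' q'
    have iv := K.ij.trans K.jv
    have iv' := K'.ij.trans K'.jv
    have e := N.e1 _ _ K.ui (mI s t a st) iv' K.gi K'.gi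
    rw [rn _ K.ui iv K.gi, rn _ K'.ui iv' K'.gi]
    have a1 : Ω (x (I t)) ≤ Ω (lvr 1 lb t) := N.Ωm (zx _ K'.ui iv' K'.gi ▸ mb p')
    have a2 : Ω (lvr 1 lb s) ≤ Ω (x (M s)) := N.Ωm (zx _ (K.ui.trans K.ij) K.jv K.gj ▸ mb q)
    have a3 := abs_le.1 (N.o1 s a (st.trans c)).2
    have a4 := abs_le.1 (N.o1 t (a.trans st) c).2
    have a5 := N.o2 s t a st c
    have a6 := mul_le_mul_of_nonneg_left p' N.l00
    have a7 := mul_le_mul_of_nonneg_left q N.l00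
    have a8 := N.Ωm (Db.ux.le K'.ij (K'.jv.trans N.vJ))
    have a9 := mul_nonneg N.l00 (sub_nonneg.2 (p'.trans q'))
    have := N.δ0
    nlinarith [mul_le_mul_of_nonneg_right g7 (abs_nonneg (Gd lb (σ (I s)))),
      mul_le_mul_of_nonneg_right k7 (abs_nonneg (Gd lb (σ (I t)))), a3.1, a4.2]
  · exact pair_diff hC hA hN ob hh eb eh hθ b0.ne' (nn t a c).2.1 (N.o1 t a.le c.le).1
      (nn t a c).2.2.2 (G t a.le c.le) (num t a c)
  · have a0 : σ u ≤ σ k := Db.us.le a (c.trans N.vJ)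
    have a1 : σ k ≤ σ v := Db.us.le c N.vJ
    obtain ⟨K, p, q⟩ := hI (σ k) a0 a1
    have e : σ (I (σ k)) = σ k :=
      le_antisymm p (Db.us.le (xI _ k a c g le_rfl) ((K.ij.trans K.jv).trans N.vJ))
    simp only [e]
    exact ⟨rn k a c g, trivial⟩

end

end Crest.Agent.T156.Gap27
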