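import Crest.Agent.T156.TopE_8
import Crest.Agent.T156.Net_27
import Crest.Agent.T156.GapB_27

/-!
Row 156 (helper27): the root zone, and the global energy bound from node data.
-/

set_option autoImplicit false

noncomputable section

namespace Crest.Agent.T156.Cut8

open MeasureTheory Set intervalIntegral
open Crest.Agent.T156.Pr.Reg48 (LB_ite int_ite)

theorem LB.ite_le {T A : ℝ} {f g : ℝ → ℝ} (hf : LB T f) (hg : LB T g) :
    LB T fun t => if t ≤ A then f t else g t :=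
  Zb9.LB_ite (p := fun t => t ≤ A) measurableSet_Iic hf hg

theorem int_ite_le {T A M B : ℝ} {f g : ℝ → ℝ} (hf : LB T f) (hg : LB T g) (hA : 0 ≤ A)
    (h1 : A ≤ M) (h2 : M ≤ B) (hB : B ≤ T) : ∫ t in A..B, (if t ≤ M then f t else g t) =
      (∫ t in A..M, f t) + ∫ t in M..B, g t := by
  rw [int_split (hf.ite_le hg) (b := M) ⟨hA, by linarith⟩ ⟨by linarith, by linarith⟩
    ⟨by linarith, hB⟩]
  congr 1
  · exact integral_congr_Ioo_of_le h1 fun t ht => if_pos ht.2.le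
  · exact integral_congr_Ioo_of_le h2 fun t ht => if_neg (not_le.2 ht.1)

/-- **extension of residual data downwards**: below `A` the slow part is frozen at `r2 A` -/
theorem Res.low {T A B : ℝ} {dz ρ H r1 r2 ω β ξ ξ' : ℝ → ℝ} (R : Res T dz ρ H r1 r2 ω β ξ A B)
    (hB : B ≤ T) (β0 : 0 ≤ β A) (lξ : LB T ξ') (hξ : ∀ t, 0 < t → t ≤ A → 0 ≤ ξ' t)
    (hp : ∀ t, 0 < t → t ≤ A → (ρ t - r2 A) * dz t + β A * |dz t| ≤ ξ' t) :
    Res T dz ρ (fun t => if t ≤ A then 0 else H t)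
      (fun t => if t ≤ A then ρ t - r2 A else r1 t) (fun t => if t ≤ A then r2 A else r2 t)
      (fun t => if t ≤ A then 0 else ω t) (fun t => if t ≤ A then β A else β t)
      (fun t => if t ≤ A then ξ' t else ξ t) 0 B where
  lH := (LB.const 0).ite_le R.lH
  lω := (LB.const 0).ite_le R.lω
  lξ := lξ.ite_le R.lξ
  eq := fun t _ b => by
    split_ifs with e
    · ring
    · exact R.eq t (not_le.1 e) b
  ω_nn := fun t _ b => by
    split_ifs with e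
    · exact le_rfl
    · exact R.ω_nn t (not_le.1 e) b
  slow := fun s t a st tb => by
    by_cases es : s ≤ A
    · by_cases et : t ≤ A
      · rw [if_pos et, if_pos es, if_pos es, if_pos et,
          int_zero st fun r _ hr => if_pos (hr.le.trans et)]
        simp only [sub_self, abs_zero]
        linarith
      · rw [if_neg et, if_pos es, if_pos es, if_neg et, int_ite_le (LB.const 0) R.lω a es
          (not_le.1 et).le (tb.trans hB)]
        simpa using R.slow A t le_rfl (not_le.1 et).le tb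
    · have et : ¬t ≤ A := fun h => es (st.trans h)
      rw [if_neg et, if_neg es, if_neg es, if_neg et,
        integral_congr_Ioo_of_le st (g := ω) fun r hr =>
          if_neg (not_le.2 ((not_le.1 es).trans hr.1))]
      exact R.slow s t (not_le.1 es).le st tb
  H_nn := fun t _ b => by
    split_ifs with e
    · simp
    · exact R.H_nn t (not_le.1 e) b
  ξ_nn := fun t a b => by
    split_ifs with e
    · exact hξ t a e
    · exact R.ξ_nn t (not_le.1 e) b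
  pair := fun t a b => by
    split_ifs with e
    · exact hp t a e
    · exact R.pair t (not_le.1 e) b

variable {T : ℝ} {P : Type} {c C : ℝ} {ok : P → Prop} {z Γ G : P → ℝ → ℝ} {pb ph : P}

/-- **the root zone**: `Γ` starts at `0` and `G` is `H⁻¹`-Lipschitz -/
theorem Fr.rho_root (F : Fr T c C ok z Γ G) (hb : ok pb) (hh : ok ph) {l D t : ℝ} (t0 : 0 ≤ t)
    (tl : t ≤ l) (lT : l ≤ T) (hD : ∀ s, 0 < s → s < l → |z pb s - z ph s| ≤ D) (D0 : 0 ≤ D) :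
    |Γ pb t - Γ ph t| ≤ C * l ^ 2 * D + C * l * (|Jf T (z ph) (z pb) t| +
      ∫ s in (0 : ℝ)..T, |Jf T (z ph) (z pb) s|) := by
  have hT : 0 ≤ T := by linarith
  have tT : t ≤ T := tl.trans lT
  have lz : LB T fun t => z pb t - z ph t := (F.lbz hb).sub (F.lbz hh)
  have gb : LB T (G pb) := .of_cont (F.cont pb hb)
  have gh : LB T (G ph) := .of_cont (F.cont ph hh)
  have m0 : (0 : ℝ) ∈ Icc 0 T := left_mem_Icc.mpr hT
  set ι := ∫ s in (0 : ℝ)..T, |Jf T (z ph) (z pb) s| with hι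
  have ι0 : 0 ≤ ι := integral_nonneg hT fun _ _ => abs_nonneg _
  have C0 := F.C_nn
  rw [F.gam pb hb t ⟨t0, tT⟩, F.gam ph hh t ⟨t0, tT⟩,
    ← integral_sub (gb.ii m0 ⟨t0, tT⟩) (gh.ii m0 ⟨t0, tT⟩)]
  have k := (abs_int_le (gb.sub gh) le_rfl le_rfl t0 le_rfl tT).trans
    (int_le_const (K := C * (|Jf T (z ph) (z pb) t| + l * D + ι)) (gb.sub gh).abs le_rfl t0 tT
      fun s s0 s1 => (F.lip ph pb hh hb s ⟨s0.le, s1.le.trans tT⟩).trans
        (mul_le_mul_of_nonneg_left (by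
          have e := Lab36.jf_sub lz (s := s) (t := t) ⟨s0.le, s1.le.trans tT⟩ ⟨t0, tT⟩
          have a := (abs_int_le lz le_rfl s0.le s1.le tl lT).trans
            (int_le_const lz.abs le_rfl (t0.trans tl) lT hD)
          rw [← e, sub_zero] at a
          have := abs_sub_abs_le_abs_sub (Jf T (z ph) (z pb) s) (Jf T (z ph) (z pb) t)
          linarith) C0))
  have p : 0 ≤ C * (|Jf T (z ph) (z pb) t| + l * D + ι) :=
    mul_nonneg C0 (by have := mul_nonneg (t0.trans tl) D0; positivity)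
  nlinarith [mul_le_mul_of_nonneg_right tl p]

/-- **global energy bound from bulk data on `[A, s]`**: root zone `[0, l]`, `A ≤ l`; the part above
`s` is a continuation hypothesis -/
theorem Fr.topR (F : Fr T c C ok z Γ G) (hb : ok pb) (hh : ok ph) {H r1 r2 ω β m f : ℝ → ℝ}
    {A s b l D ρ f0 C1 δ θ P0 Ω : ℝ} {Q : ℝ → Prop} (hA : 0 ≤ A) (hAs : A ≤ s) (hs : s ≤ b)
    (hT : b ≤ T) (hC : 0 < C1) (hθ : 0 < θ) (lm : LB T m) (lf : LB T f)
    (R : Res T (fun t => z pb t - z ph t) (fun t => Γ pb t - Γ ph t) H r1 r2 ω β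
      (fun t => Gap27.xi θ (m t) (f t) (∫ s in (0 : ℝ)..T, |Jf T (z ph) (z pb) s|)
        (z pb t - z ph t) (Jf T (z ph) (z pb) t)) A s)
    (mass : ∀ t, A < t → t < s → m t * (z pb t - z ph t) ^ 2 ≤ H t * (z pb t - z ph t))
    (up : ∀ s t, 0 ≤ s → s ≤ t → t ≤ b → z ph t - z ph s ≤ C1 * (t - s) + δ)
    (h0 : z ph 0 ≤ δ) (h1 : ∀ t, t < s → z pb t ≤ z ph b + δ)
    (l0 : 0 < l) (Al : A ≤ l) (lT : l ≤ T) (D1 : z pb l ≤ D) (D2 : z ph l ≤ D) (β0 : 0 ≤ β A)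
    (hρ : |r2 A| + β A ≤ ρ) (hf0 : 0 ≤ f0)
    (num : Gap27.Num θ 0 f0 (ρ + C * l ^ 2 * D) 0 (C * l))
    (ext : ∀ H' r1' r2' ω' β' ξ' : ℝ → ℝ,
      Res T (fun t => z pb t - z ph t) (fun t => Γ pb t - Γ ph t) H' r1' r2' ω' β' ξ' 0 s →
      r2' s = r2 s → β' s = β s → ∃ X Z, Q Z ∧
        Ext T (fun t => z pb t - z ph t) (fun t => Γ pb t - Γ ph t) H' r2' ω' β' ξ' s T X Z ∧
        X ≤ c / 8 * (∫ t in (0 : ℝ)..T, Jf T (z ph) (z pb) t ^ 2) + Z / 4 + P0)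
    (hΩ : (∫ t in A..s, ω t ^ 2) / c ≤ Ω + θ * ∫ t in (0 : ℝ)..s, (z pb t - z ph t) ^ 4)
    (s4 : θ * (3 * (4096 * C1 ^ 2) + (1 + T ^ 2)) ≤ c / 8) (s2 : θ ≤ 1 / 8) :
    ∃ Z, Q Z ∧ c / 8 * (∫ t in (0 : ℝ)..T, Jf T (z ph) (z pb) t ^ 2) +
        (∫ t in A..s, H t * (z pb t - z ph t)) / 4 + Z / 4 ≤
      θ * (l * f0 + (∫ t in A..s, f t) +
        3 * (4096 * C1 ^ 2 * δ ^ 2 * T ^ 3 + 8 * δ ^ 4 * T + 6 * δ / C1)) + P0 +
        (8 * ρ ^ 2 / (c * l) + ρ * (l * D)) + Ω := by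
  have sT : s ≤ T := hs.trans hT
  have hc := F.c_pos
  have lz : LB T fun t => z pb t - z ph t := (F.lbz hb).sub (F.lbz hh)
  have lJ := F.lbJ hh hb (right_mem_Icc.mpr (hA.trans (hAs.trans sT)))
  have ρ0 : 0 ≤ ρ := (add_nonneg (abs_nonneg _) β0).trans hρ
  have D0 : 0 ≤ D := (F.pos pb hb l).le.trans D1
  have hD : ∀ t, 0 < t → t < l → |z pb t - z ph t| ≤ D := fun t _ h => abs_le.2
    ⟨by linarith [F.pos pb hb t, F.mono ph hh h.le], by linarith [F.pos ph hh t, F.mono pb hb h.le]⟩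
  set ι := ∫ s in (0 : ℝ)..T, |Jf T (z ph) (z pb) s| with hι
  have l4 : LB T fun t => (z pb t - z ph t) ^ 4 := by simpa [← pow_mul] using lz.sq.sq
  have lx : LB T fun t => Gap27.xi θ 0 f0 ι (z pb t - z ph t) (Jf T (z ph) (z pb) t) :=
    (LB.const θ).mul ((((((LB.const 2).mul l4).add (((LB.const 2).mul (LB.const 0)).mul lz.sq)).add
      lJ.sq).add (LB.const _)).add (LB.const _))
  have R' := R.low sT β0 lx (fun _ _ _ => Gap27.xi_nn hθ.le le_rfl hf0) fun t t0 t1 =>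
    Gap27.xi_pt hθ le_rfl β0 (by
      have a := F.rho_root hb hh t0.le (t1.trans Al) lT hD D0
      have := abs_sub (Γ pb t - Γ ph t) (r2 A)
      linarith) num
  have es : ∀ g : ℝ → ℝ, (if s ≤ A then g A else g s) = g s := fun g => by
    split_ifs with e
    · rw [le_antisymm hAs e]
    · rfl
  obtain ⟨X, Z, hQ, E, hX⟩ := ext _ _ _ _ _ _ R' (es r2) (es β)
  have ex : (fun t => if t ≤ A then Gap27.xi θ 0 f0 ι (z pb t - z ph t) (Jf T (z ph) (z pb) t)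
      else Gap27.xi θ (m t) (f t) ι (z pb t - z ph t) (Jf T (z ph) (z pb) t)) =
      fun t => Gap27.xi θ (if t ≤ A then 0 else m t) (if t ≤ A then f0 else f t) ι
        (z pb t - z ph t) (Jf T (z ph) (z pb) t) := funext fun t => by split_ifs <;> rfl
  rw [ex] at E
  have lH := (LB.const 0).ite_le (A := A) R.lH
  have lm' := (LB.const 0).ite_le (A := A) lm
  have rt := F.root_le hb hh l0 lT ρ0 (τ := c / 8) (by positivity) hD
  have k := F.topE hb hh (K2 := 1) (e2 := 0) (B1 := 8 * ρ ^ 2 / (c * l) + ρ * (l * D)) (Ω := Ω)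
    (hA.trans hAs) hs hT hC hθ.le lH lm' ((LB.const f0).ite_le lf) up h0 h1 R'.H_nn
    (by
      rw [one_mul, add_zero]
      refine int_mono (lm'.mul lz.sq) (lH.mul lz) le_rfl (hA.trans hAs) sT fun t _ t1 => ?_
      split_ifs with e
      · simp
      · exact mass t (not_le.1 e) t1) E hX
    (by
      simp only [if_pos hA]
      have e : ρ ^ 2 / (c / 8 * l) = 8 * ρ ^ 2 / (c * l) := by field_simp
      linarith [mul_le_mul_of_nonneg_right hρ (abs_nonneg (Jf T (z ph) (z pb) 0))])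
    (by positivity)
    (by
      have e := int_ite_le (M := A) (LB.const 0) R.lω.sq le_rfl hA hAs sT
      rw [intervalIntegral.integral_zero, zero_add] at e
      rw [← e] at hΩ
      refine le_of_eq_of_le (congrArg (· / c) (integral_congr fun t _ => ?_)) hΩ
      split_ifs <;> simp) s4 (by linarith)
  have e1 := int_ite_le (M := A) (LB.const 0) (R.lH.mul lz) le_rfl hA hAs sT
  rw [intervalIntegral.integral_zero, zero_add] at e1
  have e2 : ∫ t in (0 : ℝ)..s, (if t ≤ A then 0 else H t) * (z pb t - z ph t) =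
      ∫ t in A..s, H t * (z pb t - z ph t) := by
    rw [← e1]
    refine integral_congr fun t _ => ?_
    split_ifs <;> simp
  rw [e2, int_ite_le (LB.const f0) lf le_rfl hA hAs sT] at k
  simp only [intervalIntegral.integral_const, sub_zero, smul_eq_mul] at k
  refine ⟨Z, hQ, ?_⟩
  nlinarith [mul_le_mul_of_nonneg_left (mul_le_mul_of_nonneg_right Al hf0) hθ.le]

end Crest.Agent.T156.Cut8

namespace Crest.Agent.T156.Gap27

open MeasureTheory Set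
open Crest.Agent.R164.GC Crest.Agent.R339.B Crest.Agent.R339.Var Crest.Agent.T157.Pf
open Crest.Agent.T156.L0 Crest.Agent.T156.Cut8 Crest.Agent.T156.Pp.Area50

variable {lb lh : List (ℝ × ℝ)} {T C b θ c : ℝ} {x σ h en on : ℕ → ℝ} {J u v : ℕ} {Gn : ℕ → Prop}
  {l0 δ : ℝ} {Ω ϖ Gm Dz jh D η ω lam m f ζ : ℝ → ℝ}

/-- the size of the node error at a good node -/
def betN (lb lh : List (ℝ × ℝ)) (η ω lam : ℝ → ℝ) (t : ℝ) : ℝ :=
  η t + ω t * |Gd lb t| + lam t * |lvr 1 lb t - lvr 1 lh t|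

theorem Nodes.bet_nn (N : Nodes lb lh b x σ h en on Gn J u v l0 δ Ω ϖ Gm Dz jh D η ω lam)
    (us : Up σ J) {k : ℕ} (h1 : u ≤ k) (h2 : k ≤ v) (g : Gn k) :
    0 ≤ betN lb lh η ω lam (σ k) := by
  obtain ⟨-, -, -, -, g5, -, g6, g7, -, g9⟩ :=
    N.gap k k ⟨h1, le_rfl, h2, g, g, fun _ a b => by omega⟩ (σ k) le_rfl le_rfl
  have a := (N.o1 (σ k) (us.le h1 (h2.trans N.vJ)) (us.le h2 N.vJ)).1
  have := N.δ0
  simp only [sub_self, mul_zero, add_zero] at g9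
  exact add_nonneg (add_nonneg (by linarith) (mul_nonneg (g6.trans g7) (abs_nonneg _)))
    (mul_nonneg a (abs_nonneg _))

/-- **the global energy bound from node data** -/
theorem topL (F : Fr T c C (Spl27.okT T) (lvr 1) Pr.Gam Pr.GG) (hA : HLip Pr.AA T C)
    (hN : HLip Pr.NN T C) (Db : Zb9.Dat x σ J T) (hh : Spl27.okT T lh) (hθ : 0 < θ) (b0 : 0 < b)
    (hlb : lb = Zb9.zl x σ J T)
    (N : Nodes lb lh b x σ h en on Gn J u v l0 δ Ω ϖ Gm Dz jh D η ω lam)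
    (lϖ : LB T ϖ) (lm : LB T m) (lf : LB T f)
    (nn : ∀ t, σ u < t → t < σ v → 0 ≤ ϖ t ∧ 0 ≤ m t ∧ 0 ≤ f t ∧ 0 ≤ ζ t)
    (fl : ∀ t, σ u < t → t < σ v → m t * (lvr 1 lb t - lvr 1 lh t) ^ 2 -
      ζ t * |lvr 1 lb t - lvr 1 lh t| ≤
      (stp h σ J t - (t - b * Pr.Gam lh t)) / b * (lvr 1 lb t - lvr 1 lh t))
    (num : ∀ t, σ u < t → t < σ v → Num θ (m t) (f t)
      (7 * η t + 2 * D t + ζ t + (7 * ω t + 2 * Gm t ^ 2) * (jh t + (2 + 3 * C * Gm t) * Dz t))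
      ((7 * ω t + 2 * Gm t ^ 2) * (2 + 3 * C * Gm t) + lam t)
      (3 * C * (7 * ω t + 2 * Gm t ^ 2)))
    {s' l Dr ρ f0 C1 δ' P0 Om : ℝ} {Q : ℝ → Prop} (hs : σ v ≤ s') (hT : s' ≤ T) (hC : 0 < C1)
    (up : ∀ s t, 0 ≤ s → s ≤ t → t ≤ s' → lvr 1 lh t - lvr 1 lh s ≤ C1 * (t - s) + δ')
    (h0 : lvr 1 lh 0 ≤ δ') (h1 : x v ≤ lvr 1 lh s' + δ')
    (hl : 0 < l) (ul : σ u ≤ l) (lT : l ≤ T) (D1 : lvr 1 lb l ≤ Dr) (D2 : lvr 1 lh l ≤ Dr)
    (hρ : |resN lb b σ h u| + betN lb lh η ω lam (σ u) ≤ ρ) (hf0 : 0 ≤ f0)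
    (num0 : Num θ 0 f0 (ρ + C * l ^ 2 * Dr) 0 (C * l))
    (ext : ∀ H' r1' r2' ω' β' ξ' : ℝ → ℝ,
      Res T (fun t => lvr 1 lb t - lvr 1 lh t) (fun t => Pr.Gam lb t - Pr.Gam lh t)
        H' r1' r2' ω' β' ξ' 0 (σ v) →
      r2' (σ v) = resN lb b σ h v → β' (σ v) = betN lb lh η ω lam (σ v) → ∃ X Z, Q Z ∧
        Ext T (fun t => lvr 1 lb t - lvr 1 lh t) (fun t => Pr.Gam lb t - Pr.Gam lh t)
          H' r2' ω' β' ξ' (σ v) T X Z ∧
        X ≤ c / 8 * (∫ t in (0 : ℝ)..T, Sc48.Jf lh lb T t ^ 2) + Z / 4 + P0)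
    (hΩ : (∫ t in σ u..σ v, ϖ t ^ 2) / c ≤
      Om + θ * ∫ t in (0 : ℝ)..σ v, (lvr 1 lb t - lvr 1 lh t) ^ 4)
    (s4 : θ * (3 * (4096 * C1 ^ 2) + (1 + T ^ 2)) ≤ c / 8) (s2 : θ ≤ 1 / 8) :
    ∃ Z, Q Z ∧ c / 8 * (∫ t in (0 : ℝ)..T, Sc48.Jf lh lb T t ^ 2) +
        (∫ t in σ u..σ v, m t * (lvr 1 lb t - lvr 1 lh t) ^ 2) / 4 + Z / 4 ≤
      θ * (l * f0 + (∫ t in σ u..σ v, f t) +
        3 * (4096 * C1 ^ 2 * δ' ^ 2 * T ^ 3 + 8 * δ' ^ 4 * T + 6 * δ' / C1)) + P0 +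
        (8 * ρ ^ 2 / (c * l) + ρ * (l * Dr)) + Om := by
  have ob : Spl27.okT T lb := hlb ▸ Db.okT
  obtain ⟨r1, r2, β, R, e⟩ := res_nodes F.C_nn hA hN Db hh.1 hh.2 hθ b0 hlb N lϖ lm lf nn fl num
  obtain ⟨u1, u2⟩ := e u le_rfl N.uv N.gu
  obtain ⟨v1, v2⟩ := e v N.uv le_rfl N.gv
  have u0 := Db.nn (N.uv.trans N.vJ)
  have uv := Db.us.le N.uv N.vJ
  have ms : ∀ t, σ u < t → t < σ v → m t * (lvr 1 lb t - lvr 1 lh t) ^ 2 ≤
      Zb9.lo (m t) (lvr 1 lb t - lvr 1 lh t) ((stp h σ J t - (t - b * Pr.Gam lh t)) / b) *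
        (lvr 1 lb t - lvr 1 lh t) := fun t _ _ => by rw [Zb9.lo_mul]; exact le_max_left _ _
  have zv : lvr 1 lb (σ v) = x v := by
    rw [hlb]
    exact Db.lv_cell (Db.nn N.vJ) (Zb9.cell_node N.vJ (N.str v N.uv le_rfl N.gv))
  obtain ⟨Z, hQ, k⟩ := F.topR ob hh (Q := Q) (P0 := P0) (Ω := Om) u0 uv hs hT hC hθ lm lf R ms up h0
    (fun t ht => ((F.mono lb ob ht.le).trans_eq zv).trans h1) hl ul lT D1 D2
    (u2 ▸ N.bet_nn Db.us le_rfl N.uv N.gu) (by rw [u1, u2]; exact hρ) hf0 num0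
    (fun H' r1' r2' ω' β' ξ' R' a1 a2 => ext _ _ _ _ _ _ R' (a1.trans v1) (a2.trans v2)) hΩ s4 s2
  have ld := (F.lbz ob).sub (F.lbz hh)
  have := int_mono (lm.mul ld.sq) (R.lH.mul ld) u0 uv (hs.trans hT) ms
  exact ⟨Z, hQ, by
    change c / 8 * (∫ t in (0 : ℝ)..T, Jf T (lvr 1 lh) (lvr 1 lb) t ^ 2) + _ + _ ≤ _
    linarith⟩

end Crest.Agent.T156.Gap27

end
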