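import Crest.Agent.T156.ClNo_9
import Crest.Agent.T156.TopL_27

/-!
Row 156, ALT, text (L) (helper27): the residual `G` read in the reference time, the floor of the
mark term, a-priori size of `J`, node sums from the energy.
-/

set_option autoImplicit false

noncomputable section

namespace Crest.Agent.T156.Gap27

/-- thin zone: the price of `g` is quadratic -/
theorem num_thin {θ m A0 A1 A2 α g l : ℝ} (hθ : 0 < θ) (hl : 0 < l) (h0 : A0 ≤ α + |g|)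
    (hα : α ≤ θ * l ^ 3) (h1 : A1 + A2 ^ 2 / θ ≤ θ * l ^ 2) :
    Num θ m (32 * l ^ 4 + 16 * (g / (θ * l)) ^ 2) A0 A1 A2 := by
  obtain ⟨x, x0, hx⟩ : ∃ x : ℝ, 0 ≤ x ∧ x ^ 3 = |g| / θ :=
    ⟨(|g| / θ) ^ ((3 : ℕ)⁻¹ : ℝ), by positivity, Real.rpow_inv_natCast_pow (by positivity) (by simp)⟩
  have e : |g| = θ * x ^ 3 := by rw [hx]; field_simp
  have e2 : (g / (θ * l)) ^ 2 = (x ^ 3 / l) ^ 2 := by
    rw [← sq_abs, abs_div, e, abs_of_pos (mul_pos hθ hl)]; field_simp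
  have x4 : x ^ 4 ≤ l ^ 4 + (x ^ 3 / l) ^ 2 := by
    rcases le_total x l with c | c
    · exact (pow_le_pow_left₀ x0 c 4).trans (le_add_of_nonneg_right (sq_nonneg _))
    · have : x ^ 2 ≤ x ^ 3 / l := by
        rw [le_div_iff₀ hl]; nlinarith [mul_le_mul_of_nonneg_left c (sq_nonneg x)]
      nlinarith [pow_le_pow_left₀ (sq_nonneg x) this 2, pow_pos hl 4]
  refine .inl ⟨l + x, by positivity, ?_, h1.trans ?_, ?_⟩
  · have : l ^ 3 + x ^ 3 ≤ (l + x) ^ 3 := by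
      nlinarith [mul_nonneg (mul_nonneg hl.le x0) (add_nonneg hl.le x0)]
    nlinarith [mul_le_mul_of_nonneg_left this hθ.le]
  · exact mul_le_mul_of_nonneg_left (pow_le_pow_left₀ hl.le (by linarith) 2) hθ.le
  · have := add_pow_le hl.le x0 4
    rw [e2]
    norm_num at this
    linarith

/-- thick zone -/
theorem num_thick {θ m A0 A1 A2 α g : ℝ} (hθ : 0 < θ) (hm : 0 < m) (a0 : 0 ≤ A0)
    (h0 : A0 ≤ α + |g|) (h1 : A1 + A2 ^ 2 / θ ≤ θ * m) :
    Num θ m (2 * (α ^ 2 + g ^ 2) / (θ ^ 2 * m)) A0 A1 A2 := by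
  refine .inr ⟨hm, a0, ?_, h1⟩
  rw [mul_div_cancel₀ _ (by positivity)]
  nlinarith [pow_le_pow_left₀ a0 h0 2, sq_nonneg (α - |g|), sq_abs g]

end Crest.Agent.T156.Gap27

namespace Crest.Agent.T156.Alt.Mp9

open MeasureTheory Set Real
open Crest.Agent.R164.GC Crest.Agent.R339.B Crest.Agent.R339.Var Crest.Agent.T157.Pf
open Crest.Agent.T156.Pp.Area50 Crest.Agent.T156.Spl27 Crest.Agent.T156.Zb9
open Crest.Agent.T156.Cut8 (LB int_split int_mono int_le_const int_sub_le abs_int_le)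

theorem LB_stp (T : ℝ) (x s : ℕ → ℝ) (J : ℕ) : LB T (stp x s J) := by
  induction J with
  | zero => exact (congrArg (LB T) (funext fun t => by simp [stp])).mp (LB.const (x 0))
  | succ J ih =>
    have := ih.add ((LB.const (x (J + 1) - x J)).mul (LB.of_mono (ind_mono (s (J + 1)))))
    refine (congrArg (LB T) (funext fun t => ?_)).mp this
    simp only [stp, Finset.sum_range_succ, add_assoc]

/-- the residual of the reference cell of the time `t` -/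
def gt (M : Md) (S : Sc) (t : ℝ) : ℝ := stp (fun j => M.G (j - 1)) (sh M S) (S.Jp + 1) t

theorem LB_gt (T : ℝ) (M : Md) (S : Sc) : LB T (gt M S) := LB_stp _ _ _ _

namespace At
variable {S : Sc} {M : Md} {m : ℕ} {a T : ℝ}

theorem ref_cell (A : At S M m a T) {k : ℕ} {t : ℝ} (h0 : S.j0 ≤ k) (hk : k < S.Jp)
    (h1 : M.s k ≤ t) (h2 : t < M.s (k + 1)) : Cell (sh M S) (S.Jp + 1) (k + 1) t :=
  ⟨by omega, fun _ => by rwa [A.sh_succ h0], fun _ => by rwa [A.sh_succ (by omega)]⟩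

theorem gt_cell (A : At S M m a T) {k : ℕ} {t : ℝ} (h0 : S.j0 ≤ k) (hk : k < S.Jp)
    (h1 : M.s k ≤ t) (h2 : t < M.s (k + 1)) : gt M S t = M.G k :=
  (A.ref_cell h0 hk h1 h2).stp A.uh _

theorem exists_ref (A : At S M m a T) {i j : ℕ} {t : ℝ} (h1 : M.s i ≤ t) (h2 : t < M.s j) :
    ∃ k, i ≤ k ∧ k < j ∧ M.s k ≤ t ∧ t < M.s (k + 1) := by
  induction j with
  | zero => exact absurd (h1.trans_lt h2) (not_lt.2 (A.cl.sm (Nat.zero_le i)))
  | succ j ih =>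
    rcases lt_or_ge t (M.s j) with h | h
    · obtain ⟨k, p, q, r⟩ := ih h
      exact ⟨k, p, by omega, r⟩
    · exact ⟨j, Nat.le_of_lt_succ (lt_of_not_ge fun c =>
        absurd (h1.trans_lt h2) (not_lt.2 (A.cl.sm c))), Nat.lt_succ_self j, h, h2⟩

/-- time integrals of the residual are node sums -/
theorem int_gt (A : At S M m a T) {i j : ℕ} (h0 : S.j0 < i) (hij : i ≤ j) (hj : j ≤ S.J) :
    ∫ t in M.s i..M.s j, gt M S t ^ 2 ≤
      S.C ^ 2 * ∑ k ∈ Finset.Ico i j, (M.z k - M.z (k - 1)) * M.G k ^ 2 := by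
  have mem : ∀ k ≤ S.J, M.s k ∈ Icc 0 T := fun k hk =>
    ⟨s_nn A.cl k, (A.cl.sm (hk.trans A.cl.i3)).trans A.t2⟩
  induction j, hij using Nat.le_induction with
  | base => simp
  | succ j ij ih =>
    have c := A.cl.i3
    rw [int_split (LB_gt T M S).sq (mem i (by omega)) (mem j (by omega)) (mem _ hj),
      Finset.sum_Ico_succ_top ij, mul_add]
    refine add_le_add (ih (by omega)) ((int_le_const (K := M.G j ^ 2) (LB_gt T M S).sq
      (s_nn A.cl j) (A.cl.sm (Nat.le_succ j)) (mem _ hj).2 fun t t0 t1 => by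
        rw [A.gt_cell (by omega) (by omega) t0.le t1]).trans ?_)
    obtain ⟨k, rfl⟩ : ∃ k, j = k + 1 := ⟨j - 1, by omega⟩
    have p := (A.cl.zs k (by omega) (by omega)).1
    have q := (A.cl.ss (k + 1) (by omega)).2
    rw [div_le_iff₀ A.c_pos] at p
    rw [← mul_assoc, Nat.add_sub_cancel]
    exact mul_le_mul_of_nonneg_right (by nlinarith [A.c_pos]) (sq_nonneg _)

/-- **floor of the mark term, residual in the reference time** -/
theorem fl2 (A : At S M m a T) {u k : ℕ} {t μ : ℝ} (hu : S.jl < u) (h1 : u ≤ k) (h2 : k < S.J)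
    (c : Cell (sb M m a) (S.Jp + 1) (k + 1) t) (t0 : M.s u ≤ t) (ht : t < M.s S.J)
    (hμ : μ ≤ S.ms (M.s u) / (S.C ^ 3 * S.F)) :
    μ * uu M S m a T t ^ 2 - (S.C ^ 2 * S.θ * S.v + |gt M S t|) * |uu M S m a T t| ≤
      (hm M S m a t - (t - M.b * Pr.Gam (lh M T) t)) / M.b * uu M S m a T t := by
  have C0 := A.c_pos
  have F0 : 0 < S.F := by linarith [A.cl.F1]
  have i3 := A.cl.i3
  have i1 := A.cl.i1
  obtain ⟨i, p1, p2, p3, p4⟩ := A.exists_ref t0 ht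
  have e1 : uu M S m a T t = M.z k - M.z i := by
    rw [uu, A.lvb_cell c, A.lvh' ((s_nn A.cl i).trans p3), A.cl.lv i (by omega) t p3 p4]
  have e2 := A.Mf_node (k := i) (by omega) (by omega)
  obtain ⟨q1, q2⟩ := A.Mf_sl (a' := M.s i) (b' := t) (s_nn A.cl i) (ht.le.trans (A.cl.sm i3))
    (M.s i) t le_rfl p3 le_rfl
  have m0 := A.ms_pos (s_nn A.cl i)
  have r0 : 0 ≤ S.ms (M.s i) / S.C * (t - M.s i) := mul_nonneg (by positivity) (by linarith)
  have r1 : S.C * S.ms t * (t - M.s i) ≤ S.C * S.θ * (S.C * S.v) :=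
    mul_le_mul (mul_le_mul_of_nonneg_left (A.cl.ms1 t) C0.le)
      (by linarith [(A.cl.ss i p2).2]) (by linarith)
      (mul_nonneg C0.le (m0.le.trans (A.cl.ms1 _)))
  set ν := S.ms (M.s u) / (S.C ^ 2 * S.F) with hν
  have ν0 : 0 ≤ ν := by have := A.ms_pos (s_nn A.cl u); positivity
  have fl : ν * (M.z k - M.z i) ^ 2 ≤ (M.H k - M.H i) * (M.z k - M.z i) := by
    rcases le_total i k with h | h
    · nlinarith [A.h_fl hu.le p1 h h2, A.cl.leg.zm h]
    · nlinarith [A.h_fl hu.le h1 h p2, A.cl.leg.zm h]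
  obtain ⟨b1, b2⟩ := A.b_mem
  change _ ≤ (hm M S m a t - Rig.Mf M.b (lh M T) t) / M.b * uu M S m a T t
  rw [A.hm_cell c, A.gt_cell (by omega) (by omega) p3 p4, e1, div_mul_eq_mul_div _ M.b,
    le_div_iff₀ (by linarith)]
  set d := M.z k - M.z i
  set ζ := S.C ^ 2 * S.θ * S.v + |M.G i| with hζ
  have w : |M.G i - (Rig.Mf M.b (lh M T) t - Rig.Mf M.b (lh M T) (M.s i))| ≤ ζ :=
    abs_le.2 ⟨by nlinarith [neg_abs_le (M.G i)], by nlinarith [le_abs_self (M.G i)]⟩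
  have w1 := neg_abs_le ((M.G i - (Rig.Mf M.b (lh M T) t - Rig.Mf M.b (lh M T) (M.s i))) * d)
  rw [abs_mul] at w1
  have w2 := mul_le_mul_of_nonneg_right w (abs_nonneg d)
  have z0 : 0 ≤ ζ * |d| := mul_nonneg ((abs_nonneg _).trans w) (abs_nonneg d)
  have w3 : μ * M.b ≤ ν := by
    have e : S.ms (M.s u) / (S.C ^ 3 * S.F) * S.C = ν := by rw [hν]; field_simp
    rcases le_total 0 μ with h | h
    · exact (mul_le_mul hμ b2 (by linarith) (h.trans hμ)).trans e.le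
    · exact (mul_nonpos_of_nonpos_of_nonneg h (by linarith)).trans ν0
  have ey : M.H k - Rig.Mf M.b (lh M T) t = M.H k - M.H i +
      (M.G i - (Rig.Mf M.b (lh M T) t - Rig.Mf M.b (lh M T) (M.s i))) := by rw [e2]; ring
  rw [ey, add_mul]
  nlinarith [mul_le_mul_of_nonneg_right w3 (sq_nonneg d), mul_le_mul_of_nonneg_left b1 z0]

/-- the area between the two profiles -/
def ar (M : Md) (S : Sc) (m : ℕ) (a : ℝ) : ℝ :=
  ∑ k ∈ Finset.Ioc S.j0 S.Jp, (M.z k - M.z (k - 1)) * |sb M m a (k + 1) - M.s k| +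
    M.z S.j0 * (2 * M.s S.j0 + sb M m a 1)

/-- **a-priori size of `J`** -/
theorem J_le (A : At S M m a T) {t : ℝ} (ht : t ∈ Icc 0 T) :
    |Cut8.Jf T (lvr 1 (lh M T)) (lvr 1 (lb M S m a T)) t| ≤ ar M S m a := by
  have j0 := A.j0_le
  have s0 := s_nn A.cl S.j0
  have sT : M.s S.j0 ≤ T := (A.cl.sm j0).trans A.t2
  have a0 := A.a_pos
  have az : a ≤ M.z S.j0 := A.xb_mono (Nat.zero_le (S.j0 + 1))
  set zm := stp (xb M a) (sh M S) (S.Jp + 1) with hzm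
  have lm : LB T zm := LB_stp _ _ _ _
  have lh' : LB T (lvr 1 (lh M T)) := .of_mono (Sc48.lvr_mono A.okh.1.1)
  have lb' : LB T (lvr 1 (lb M S m a T)) := .of_mono (Sc48.lvr_mono A.okb.1.1)
  have mT : T ∈ Icc 0 T := ⟨ht.1.trans ht.2, le_rfl⟩
  have e : Cut8.Jf T (lvr 1 (lh M T)) (lvr 1 (lb M S m a T)) t =
      Cut8.Jf T zm (stp (xb M a) (sb M m a) (S.Jp + 1)) t + ∫ s in t..T, (zm s - lvr 1 (lh M T) s) := by
    rw [← Jf_congr (z0 := zm) ht.2 (fun _ _ => rfl) fun s hs => A.lvb (ht.1.trans hs.1)]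
    unfold Cut8.Jf
    rw [← intervalIntegral.integral_add ((lb'.sub lm).ii ht mT) ((lm.sub lh').ii ht mT)]
    simp
  have b1 : |∫ s in t..T, (zm s - lvr 1 (lh M T) s)| ≤ M.z S.j0 * M.s S.j0 := by
    refine (abs_int_le (lm.sub lh') le_rfl ht.1 ht.2 le_rfl le_rfl).trans ?_
    rw [int_split (lm.sub lh').abs ⟨le_rfl, mT.1⟩ ⟨s0, sT⟩ mT,
      Cut8.int_zero sT fun s h _ => by rw [A.lvh h.le, sub_self, abs_zero], add_zero, mul_comm]
    refine (int_le_const (lm.sub lh').abs le_rfl s0 sT fun s _ h => ?_).trans_eq (by rw [sub_zero])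
    have p1 : zm s = a := stp_eq A.uh (Nat.zero_le _) (fun h => absurd h (lt_irrefl 0)) fun _ => by
      simpa [sh] using h
    have p2 := Sc48.lvr_mono A.okh.1.1 h.le
    rw [A.lvh_node le_rfl (by have := A.cl.i1; have := A.cl.i2; omega)] at p2
    have p3 := Sc48.lvr_pos A.okh.1.1 s
    exact abs_le.2 ⟨by linarith, by linarith⟩
  have lip : ∀ x y, |Pp.Area50.cl t T x - Pp.Area50.cl t T y| ≤ |x - y| := fun x y =>
    (abs_max_sub_max_le_max _ _ _ _).trans (max_le (by simp)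
      ((abs_min_sub_min_le_max _ _ _ _).trans (max_le le_rfl (by simp))))
  have b2 : |Cut8.Jf T zm (stp (xb M a) (sb M m a) (S.Jp + 1)) t| ≤
      ∑ j ∈ Finset.range (S.Jp + 1), (xb M a (j + 1) - xb M a j) *
        |sb M m a (j + 1) - sh M S (j + 1)| := by
    rw [hzm, Jf_eq _ _ _ _ ht.2]
    refine (Finset.abs_sum_le_sum_abs _ _).trans (Finset.sum_le_sum fun j _ => ?_)
    have x0 := sub_nonneg.2 (A.xb_mono (Nat.le_succ j))
    rw [abs_mul, abs_of_nonneg x0, abs_sub_comm (sb M m a _)]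
    exact mul_le_mul_of_nonneg_left (lip _ _) x0
  rw [Finset.sum_range_succ', Finset.range_eq_Ico, Finset.sum_Ico_add' (fun j =>
    (xb M a (j + 1) - xb M a j) * |sb M m a (j + 1) - sh M S (j + 1)|) 0 S.Jp 1,
    ← Finset.sum_Ico_consecutive _ (show 0 + 1 ≤ S.j0 + 1 by omega) (Nat.succ_le_succ j0),
    Finset.sum_eq_zero (s := Finset.Ico (0 + 1) (S.j0 + 1)) fun k hk => by
      rw [Finset.mem_Ico] at hk
      obtain ⟨k, rfl⟩ : ∃ j, k = j + 1 := ⟨k - 1, by omega⟩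
      simp only [xb]
      rw [A.cl.low _ (by omega), A.cl.low k (by omega), sub_self, zero_mul],
    show Finset.Ico (S.j0 + 1) (S.Jp + 1) = Finset.Ioc S.j0 S.Jp by ext; simp,
    ← sum_eq (fun k hk => (Finset.mem_Ioc.1 hk).1) fun u => |u|] at b2
  have b3 : (xb M a (0 + 1) - xb M a 0) * |sb M m a (0 + 1) - sh M S (0 + 1)| ≤
      M.z S.j0 * (M.s S.j0 + sb M m a 1) := by
    have q : 0 ≤ sb M m a 1 := A.sb_mono (Nat.zero_le 1)
    simp only [xb, sh, zero_add, Nat.zero_le, max_eq_right, A.cl.low 0 (Nat.zero_le _)]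
    exact mul_le_mul (by linarith) (abs_le.2 ⟨by linarith, by linarith⟩) (abs_nonneg _) (by linarith)
  rw [e, ar]
  linarith [abs_add_le (Cut8.Jf T zm (stp (xb M a) (sb M m a) (S.Jp + 1)) t)
    (∫ s in t..T, (zm s - lvr 1 (lh M T) s))]

theorem Hp_le (A : At S M m a T) {t : ℝ} (ht : t ∈ Icc 0 T) :
    Rig.Hp (lh M T) (lb M S m a T) t ≤ (1 + T) * ar M S m a := by
  have hT := ht.1.trans ht.2
  have lJ : LB T (Cut8.Jf T (lvr 1 (lh M T)) (lvr 1 (lb M S m a T))) :=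
    .of_cont (((LB.of_mono (Sc48.lvr_mono A.okb.1.1)).sub
      (LB.of_mono (Sc48.lvr_mono A.okh.1.1))).tail (right_mem_Icc.mpr hT))
  have p := int_le_const lJ.abs le_rfl hT le_rfl fun s a b => A.J_le ⟨a.le, b.le⟩
  have q := A.J_le ht
  rw [Rig.Hp, A.okh.2]
  change |Cut8.Jf T (lvr 1 (lh M T)) (lvr 1 (lb M S m a T)) t| +
    ∫ s in (0 : ℝ)..T, |Cut8.Jf T (lvr 1 (lh M T)) (lvr 1 (lb M S m a T)) s| ≤ _
  linarith

theorem E_le (A : At S M m a T) {x y : ℝ} (hx : 0 ≤ x) (hxy : x ≤ y) (hy : y ≤ T) :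
    ∫ t in x..y, Cut8.Jf T (lvr 1 (lh M T)) (lvr 1 (lb M S m a T)) t ^ 2 ≤
      (y - x) * ar M S m a ^ 2 := by
  have lJ : LB T (Cut8.Jf T (lvr 1 (lh M T)) (lvr 1 (lb M S m a T))) :=
    .of_cont (((LB.of_mono (Sc48.lvr_mono A.okb.1.1)).sub
      (LB.of_mono (Sc48.lvr_mono A.okh.1.1))).tail (right_mem_Icc.mpr (by linarith)))
  exact int_le_const lJ.sq hx hxy hy fun s a b => by
    rw [← sq_abs]
    exact pow_le_pow_left₀ (abs_nonneg _) (A.J_le ⟨by linarith, by linarith⟩) 2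

theorem sum_dz_le (A : At S M m a T) {i : ℕ} (hi : i ≤ S.Jp) :
    ∑ k ∈ Finset.Ioc i S.Jp, (M.z k - M.z (k - 1)) = 1 - M.z i := by
  have : ∀ j, i ≤ j → ∑ k ∈ Finset.Ioc i j, (M.z k - M.z (k - 1)) = M.z j - M.z i := fun j hj => by
    induction j, hj using Nat.le_induction with
    | base => simp
    | succ j ij ih => rw [Finset.sum_Ioc_succ_top ij, ih, Nat.add_sub_cancel]; ring
  rw [this _ hi, A.cl.top _ le_rfl]

/-- the area from the `L²` norms of `del` and `G` -/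
theorem ar_le (A : At S M m a T) {p g : ℝ} (hp0 : 0 ≤ p) (hg0 : 0 ≤ g)
    (hp : ∑ k ∈ Finset.Ioc S.j0 S.Jp, (M.z k - M.z (k - 1)) * M.del m a k ^ 2 ≤ p ^ 2)
    (hg : ∑ k ∈ Finset.Ioc S.j0 S.Jp, (M.z k - M.z (k - 1)) * M.G k ^ 2 ≤ g ^ 2) :
    ar M S m a ≤ S.C * p + g + S.C / (m + 1) + M.z S.j0 * (2 * M.s S.j0 + sb M m a 1) := by
  have z0 : ∀ k, 0 ≤ M.z k - M.z (k - 1) := fun k => sub_nonneg.2 (A.cl.leg.zm (Nat.sub_le _ _))
  have zp : 0 < M.z S.j0 := A.a_pos.trans_le (A.xb_mono (Nat.zero_le (S.j0 + 1)))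
  have one := A.sum_dz_le A.j0_le
  have cs : ∀ (f : ℕ → ℝ) (r : ℝ), 0 ≤ r →
      ∑ k ∈ Finset.Ioc S.j0 S.Jp, (M.z k - M.z (k - 1)) * f k ^ 2 ≤ r ^ 2 →
      ∑ k ∈ Finset.Ioc S.j0 S.Jp, (M.z k - M.z (k - 1)) * |f k| ≤ r := fun f r r0 h => by
    have := Finset.sum_mul_sq_le_sq_mul_sq (Finset.Ioc S.j0 S.Jp)
      (fun k => √(M.z k - M.z (k - 1))) fun k => √(M.z k - M.z (k - 1)) * |f k|
    simp only [← mul_assoc, Real.mul_self_sqrt (z0 _), mul_pow, Real.sq_sqrt (z0 _), sq_abs] at this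
    refine (abs_le_of_sq_le_sq' (this.trans ?_) r0).2
    rw [one]
    exact (mul_le_of_le_one_left (Finset.sum_nonneg fun k _ => mul_nonneg (z0 k) (sq_nonneg _))
      (by linarith)).trans h
  have p1 := mul_le_mul_of_nonneg_left (cs _ _ hp0 hp) A.c_pos.le
  have p2 := cs _ _ hg0 hg
  have c0 : 0 ≤ S.C / (m + 1) := by have := A.c_pos; positivity
  have p3 : ∑ k ∈ Finset.Ioc S.j0 S.Jp, (M.z k - M.z (k - 1)) * |sb M m a (k + 1) - M.s k| ≤
      ∑ k ∈ Finset.Ioc S.j0 S.Jp, (S.C * ((M.z k - M.z (k - 1)) * |M.del m a k|) +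
        (M.z k - M.z (k - 1)) * |M.G k| + (M.z k - M.z (k - 1)) * (S.C / (m + 1))) :=
    Finset.sum_le_sum fun k hk => (mul_le_mul_of_nonneg_left
      (A.sub_le (A.jp_le (Finset.mem_Ioc.1 hk).2)) (z0 k)).trans_eq (by ring)
  rw [Finset.sum_add_distrib, Finset.sum_add_distrib, ← Finset.mul_sum, ← Finset.sum_mul, one] at p3
  rw [ar]
  nlinarith [mul_nonneg zp.le c0]

/-- **output**: node sums of `del²` from `∫ u²` -/
theorem phi_le (A : At S M m a T) {a' b' : ℝ} (ha : M.s S.j0 ≤ a') (hab : a' ≤ b')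
    (hb : b' < M.s S.J) {U : Finset ℕ}
    (hU : ∀ k ∈ U, S.j0 < k ∧ M.s k ∈ Icc a' b' ∧ sb M m a (k + 1) ∈ Icc a' b') :
    ∑ k ∈ U, (M.z k - M.z (k - 1)) * M.del m a k ^ 2 ≤
      8 * S.C * ((∫ t in a'..b', uu M S m a T t ^ 2) + (S.C * S.v) ^ 2 * (b' - a')) +
        4 * ∑ k ∈ U, (M.z k - M.z (k - 1)) * (M.G k ^ 2 + (S.C / (m + 1)) ^ 2) := by
  have p := A.en_pow ha hab hb hU 1
  have q := A.sum_del (U := U) (fun k hk => (lt_of_not_ge fun h =>
    absurd (A.cl.sm h) (not_le.2 ((hU k hk).2.1.2.trans_lt hb)) : k < S.J).le.trans A.cl.i3) 1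
  have r : ∑ k ∈ U, (M.z k - M.z (k - 1)) * (|M.G k| + S.C / (m + 1)) ^ (1 + 1) ≤
      2 * ∑ k ∈ U, (M.z k - M.z (k - 1)) * (M.G k ^ 2 + (S.C / (m + 1)) ^ 2) := by
    rw [Finset.mul_sum]
    refine Finset.sum_le_sum fun k _ => ?_
    rw [mul_left_comm]
    refine mul_le_mul_of_nonneg_left ?_ (sub_nonneg.2 (A.cl.leg.zm (Nat.sub_le _ _)))
    nlinarith [sq_nonneg (|M.G k| - S.C / (m + 1)), sq_abs (M.G k)]
  simp only [show (1 + 1 : ℕ) = 2 from rfl, sq_abs] at p q r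
  norm_num at p q
  simp only [Md.del]
  linarith

/-- `∫ u²` from `∫ u⁴` -/
theorem sq_of_four (A : At S M m a T) {x y κ : ℝ} (hx : 0 ≤ x) (hxy : x ≤ y) (hy : y ≤ T)
    (hκ : 0 < κ) : ∫ t in x..y, uu M S m a T t ^ 2 ≤
      (y - x) * κ ^ 2 + (∫ t in x..y, uu M S m a T t ^ 4) / κ ^ 2 := by
  have lu : LB T (uu M S m a T) :=
    (LB.of_mono (Sc48.lvr_mono A.okb.1.1)).sub (LB.of_mono (Sc48.lvr_mono A.okh.1.1))
  have l4 : LB T fun t => uu M S m a T t ^ 4 := by simpa [← pow_mul] using lu.sq.sq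
  have mx : x ∈ Icc 0 T := ⟨hx, hxy.trans hy⟩
  have my : y ∈ Icc 0 T := ⟨hx.trans hxy, hy⟩
  refine (int_mono lu.sq ((LB.const (κ ^ 2)).add (l4.div (κ ^ 2))) hx hxy hy fun t _ _ => ?_).trans_eq ?_
  · have : uu M S m a T t ^ 2 - κ ^ 2 ≤ uu M S m a T t ^ 4 / κ ^ 2 := by
      rw [le_div_iff₀ (by positivity)]
      nlinarith [sq_nonneg (uu M S m a T t ^ 2 - κ ^ 2), sq_nonneg (uu M S m a T t * κ)]
    linarith
  · rw [intervalIntegral.integral_add ((LB.const _).ii mx my) ((l4.div _).ii mx my),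
      intervalIntegral.integral_div]
    simp

/-- **the low end**: below a located node -/
theorem phi_low (A : At S M m a T) {i j : ℕ} (hij : i ≤ j) {V : ℝ} (h1 : M.rb m a j ≤ V)
    (h2 : M.q j ≤ V) (hq : ∀ k ≤ j, 0 ≤ M.q k ∧ M.q k ≤ M.q j) :
    ∑ k ∈ Finset.Ioc i j, (M.z k - M.z (k - 1)) * M.del m a k ^ 2 ≤ M.z j * V ^ 2 := by
  have e : ∀ j, i ≤ j → ∑ k ∈ Finset.Ioc i j, (M.z k - M.z (k - 1)) = M.z j - M.z i := fun j hj => by
    induction j, hj using Nat.le_induction with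
    | base => simp
    | succ j ij ih => rw [Finset.sum_Ioc_succ_top ij, ih, Nat.add_sub_cancel]; ring
  have zp : 0 < M.z i := A.a_pos.trans_le (A.xb_mono (Nat.zero_le (i + 1)))
  refine (Finset.sum_le_sum (g := fun k => (M.z k - M.z (k - 1)) * V ^ 2) fun k hk => ?_).trans ?_
  · have kj := (Finset.mem_Ioc.1 hk).2
    have r1 := rb_mono (M := M) (a := a) A.m_pos kj
    have r2 := (rb_mem (M := M) (a := a) A.m_pos k).1
    obtain ⟨r3, r4⟩ := hq k kj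
    exact mul_le_mul_of_nonneg_left (sq_le_sq' (by simp only [Md.del]; linarith)
      (by simp only [Md.del]; linarith)) (sub_nonneg.2 (A.cl.leg.zm (Nat.sub_le _ _)))
  · rw [← Finset.sum_mul, e j hij]
    exact mul_le_mul_of_nonneg_right (by linarith) (sq_nonneg _)

end At

end Crest.Agent.T156.Alt.Mp9

end
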