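import Crest.Agent.T156.PlatZ_48
import Crest.Agent.T156.ClMid_8
import Crest.Agent.T156.ClTop_27
import Crest.Agent.T156.CutN_93

/-!
Row 156, text (L) (helper48): the top part of the plateau for a member of the class.
-/

set_option autoImplicit false

noncomputable section

namespace Crest.Agent.T156.Pr.Reg48

open MeasureTheory Set
open Crest.Agent.R164.GC Crest.Agent.R339.B Crest.Agent.R339.Var Crest.Agent.T157.Pf
open Crest.Agent.T156.Cut8 (LB Res Ext ExtA)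

/-- the gains above the cut `M` -/
def QZ (lb : List (ℝ × ℝ)) (b c σ' σ M P e κ N Z : ℝ) : Prop :=
  0 ≤ Z ∧ e * κ * (max M σ' - M) ^ 2 / (2 * b) + e / (4 * b) *
    (∫ t in max M σ..max (max M σ) P, (t - max M σ) * (1 - lvr 1 lb t)) +
    c / 4 * (∫ t in max M σ..max (max M σ) P, (t - max M σ) ^ 2 * (1 - lvr 1 lb t)) ≤ Z + N

variable {lb lh : List (ℝ × ℝ)} {T b c σ' σ γ M P c0 η g lam N0 e e1 κ u1 : ℝ} {hb : ℝ → ℝ}

/-- the continuation from `M` (hypothesis `cont` of `Mid.ext`, `Md2.ext`) -/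
theorem PlZ.cont (h : PlZ lb lh T b c σ' σ γ M P c0 η g lam N0 e e1 κ u1 hb)
    {A0 C θ E N U Lt τ0 βs : ℝ} (hU : ∀ s, U ≤ s → lvr 1 lb s = 1)
    (L0 : 0 ≤ Lt) (hL' : U - max M σ ≤ Lt) (hC : 0 ≤ C) (hL : Spl27.GLip T C) (hM : 0 < M)
    (β0 : 0 ≤ βs) (hA0 : 0 ≤ A0) (hA0M : A0 ≤ M)
    (hE : (∫ t in A0..T, Sc48.Jf lh lb T t ^ 2) + (∫ t in (0:ℝ)..A0, |Sc48.Jf lh lb T t|) ^ 2 ≤ E)
    (hq : ∀ r, σ ≤ r → r < T → Gd lh r ≤ -c)
    (n : PNZ T C b c θ (η + βs + (lam * e * γ + (g + e1) * (γ + u1 * Lt)) / b) g e κ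
      (γ + u1 * Lt) N0 τ0 N) (H r1 r2 ω β ξ : ℝ → ℝ)
    (R : Res T (fun t => lvr 1 lb t - lvr 1 lh t) (fun t => Gam lb t - Gam lh t) H r1 r2 ω β ξ 0 M)
    (hc : r2 M = c0) (hβ : β M = βs) : ∃ X Z, QZ lb b c σ' σ M P e κ N Z ∧
      Ext T (fun t => lvr 1 lb t - lvr 1 lh t) (fun t => Gam lb t - Gam lh t) H r2 ω β ξ M T X Z ∧
      X ≤ 4 * θ * E + 7 * N + Z / 4 := by
  subst hβ
  obtain ⟨Z, a1, a2, a3⟩ := h.ext hU L0 hL' hC hL R hM hc β0 hA0 hA0M hE hq n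
  exact ⟨_, Z, ⟨a1, a3⟩, a2, by linarith⟩

/-- the continuation from `M` above a lower cut `A` -/
theorem PlZ.contA (h : PlZ lb lh T b c σ' σ γ M P c0 η g lam N0 e e1 κ u1 hb)
    {A A0 C θ E N U Lt τ0 βs : ℝ} (hU : ∀ s, U ≤ s → lvr 1 lb s = 1)
    (L0 : 0 ≤ Lt) (hL' : U - max M σ ≤ Lt) (hC : 0 ≤ C) (hL : Spl27.GLip T C) (hA : 0 ≤ A)
    (hAM : A ≤ M) (β0 : 0 ≤ βs) (hA0 : 0 ≤ A0) (hA0M : A0 ≤ M)
    (hE : (∫ t in A0..T, Sc48.Jf lh lb T t ^ 2) + (∫ t in (0:ℝ)..A0, |Sc48.Jf lh lb T t|) ^ 2 ≤ E)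
    (hq : ∀ r, σ ≤ r → r < T → Gd lh r ≤ -c)
    (n : PNZ T C b c θ (η + βs + (lam * e * γ + (g + e1) * (γ + u1 * Lt)) / b) g e κ
      (γ + u1 * Lt) N0 τ0 N) (H r1 r2 ω β ξ : ℝ → ℝ)
    (R : Res T (fun t => lvr 1 lb t - lvr 1 lh t) (fun t => Gam lb t - Gam lh t) H r1 r2 ω β ξ A M)
    (hc : r2 M = c0) (hβ : β M = βs) : ∃ Z, QZ lb b c σ' σ M P e κ N Z ∧
      ExtA T (fun t => lvr 1 lb t - lvr 1 lh t) (fun t => Gam lb t - Gam lh t) H r1 ω β ξ A M T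
        (4 * θ * E + Z / 4 + 7 * N) Z := by
  subst hβ
  obtain ⟨H', r1', r2', ω', β', ξ', Z, a1, a2, a5, a6, a7, a8, a9⟩ :=
    h.res hU L0 hL' hC hL R hA hAM hc β0 hA0 hA0M hE hq n
  exact ⟨Z, ⟨a7, a9⟩, H', r1', r2', ω', β', ξ', a1,
    fun t x => ⟨(a2 t x).1, (a2 t x).2.1, (a2 t x).2.2.2⟩, a5.le, by linarith, a6⟩

end Crest.Agent.T156.Pr.Reg48

namespace Crest.Agent.T156.Alt.Mp9.At

open MeasureTheory Set Real
open Crest.Agent.R164.GC Crest.Agent.R339.B Crest.Agent.R339.Var Crest.Agent.T157.Pf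
open Crest.Agent.T156.Pp.Area50 Crest.Agent.T156.Spl27 Crest.Agent.T156.Zb9
open Crest.Agent.T156.Pr.Reg48 (PlZ Gd_neg)
open Crest.Agent.T156.Gap27 (resN)

variable {S : Sc} {M : Md} {m : ℕ} {a T : ℝ}

theorem lb_top (A : At S M m a T) {s : ℝ} (hs : sb M m a (S.Jp + 1) ≤ s) :
    lvr 1 (lb M S m a T) s = 1 := by
  have i2 := A.cl.i2
  have i3 := A.cl.i3
  refine le_antisymm (Pp.Ode3.lvr_le_one A.okb.1.1 s) ?_
  have := Sc48.lvr_mono A.okb.1.1 hs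
  rwa [A.lvb_node (by omega) le_rfl, A.cl.top _ le_rfl] at this

theorem lh_top (A : At S M m a T) {s : ℝ} (hs : M.s S.Jp ≤ s) : lvr 1 (lh M T) s = 1 := by
  rw [A.lvh' ((s_nn A.cl _).trans hs), A.cl.lv1 s hs]

/-- concavity above a node with label close to `1`, curvature of the reference above the atom -/
theorem conc_top (T0 : ℝ) : ∃ u0 c : ℝ, 0 < u0 ∧ 0 < c ∧ ∀ {S : Sc} {M : Md} {m : ℕ} {a T : ℝ},
    At S M m a T → T ≤ T0 → (∀ r, M.s S.Jp ≤ r → r < T → Pr.Reg48.Gd (lh M T) r ≤ -c) ∧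
      ∀ w, S.jl ≤ w → w ≤ S.Jp → 1 - u0 ≤ M.z w →
        ∀ r ∈ Ico (sb M m a (w + 1)) T, Pr.Reg48.Gd (lb M S m a T) r ≤ 0 := by
  obtain ⟨u0, c, h0, hc, h⟩ := Gd_neg T0
  refine ⟨u0, c, h0, hc, fun {S M m a T} A hT => ⟨fun r h1 h2 => ?_, fun w w1 w2 w3 r hr => ?_⟩⟩
  · exact h _ A.okh.1 (A.okh.2.trans_le hT) r ((s_nn A.cl _).trans h1) (h2.trans_eq A.okh.2.symm)
      (by rw [A.lh_top h1]; linarith)
  · refine (h _ A.okb.1 (A.okb.2.trans_le hT) r ((A.sb_mem w2).1.trans hr.1) (hr.2.trans_eq A.okb.2.symm)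
      ?_).trans (by linarith)
    have := Sc48.lvr_mono A.okb.1.1 hr.1
    rw [A.lvb_node w1 w2] at this
    linarith

/-- `G` is almost monotone on the plateau -/
theorem G_am (A : At S M m a T) {i k : ℕ} {γ : ℝ} (hγ : M.s S.Jp - M.s S.J ≤ γ) (hi : S.J ≤ i)
    (hik : i ≤ k) (hk : k ≤ S.Jp) : M.G i - S.C * S.θ * γ ≤ M.G k := by
  have i2 := A.cl.i2
  have θ0 : 0 ≤ S.θ := (A.ms_pos le_rfl).le.trans (A.cl.ms1 0)
  have c0 := A.c_pos
  have e1 := A.Mf_node (k := i) (by omega) (by omega)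
  have e2 := A.Mf_node (k := k) (by omega) hk
  have a2 := (A.Mf_sl (s_nn A.cl i) le_rfl _ _ le_rfl (A.cl.sm hik) (A.cl.sm hk)).2
  have a3 : S.C * S.ms (M.s S.Jp) * (M.s k - M.s i) ≤ S.C * S.θ * γ :=
    mul_le_mul (mul_le_mul_of_nonneg_left (A.cl.ms1 _) c0.le)
      (by linarith [A.cl.sm hk, A.cl.sm hi]) (sub_nonneg.2 (A.cl.sm hik)) (by positivity)
  linarith [A.cl.leg.Hm hik]

theorem tel_z (M : Md) {i k : ℕ} (h1 : 1 ≤ i) (h : i ≤ k + 1) :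
    ∑ j ∈ Finset.Icc i k, (M.z j - M.z (j - 1)) = M.z k - M.z (i - 1) := by
  induction k with
  | zero => obtain rfl : i = 1 := by omega
            simp
  | succ k ih =>
    rcases h.eq_or_lt with x | x
    · subst x; simp
    · rw [Finset.sum_Icc_succ_top (by omega), ih (by omega)]; simp

/-- upper bound of `G` on the plateau -/
theorem G_up (A : At S M m a T) {k : ℕ} {γ GP : ℝ} (hγ : M.s S.Jp - M.s S.J ≤ γ) (hk : S.J ≤ k)
    (hk' : k ≤ S.Jp)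
    (hG : ∑ j ∈ Finset.Icc S.J S.Jp, (M.z j - M.z (j - 1)) * M.G j ^ 2 ≤ GP) :
    (1 - M.z (k - 1)) * max (M.G k - S.C * S.θ * γ) 0 ^ 2 ≤ GP := by
  have i2 := A.cl.i2
  have dz : ∀ j, 0 ≤ M.z j - M.z (j - 1) := fun j => sub_nonneg.2 (A.cl.leg.zm (Nat.sub_le j 1))
  refine le_trans ?_ ((Finset.sum_le_sum_of_subset_of_nonneg (Finset.Icc_subset_Icc hk le_rfl)
    fun j _ _ => mul_nonneg (dz j) (sq_nonneg _)).trans hG)
  rw [← A.cl.top _ le_rfl, ← tel_z M (by omega) (by omega), Finset.sum_mul]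
  refine Finset.sum_le_sum fun j hj => mul_le_mul_of_nonneg_left ?_ (dz j)
  obtain ⟨j1, j2⟩ := Finset.mem_Icc.1 hj
  have := A.G_am hγ hk j1 j2
  rw [← sq_abs (M.G j)]
  exact pow_le_pow_left₀ (le_max_right _ _) (max_le (this.trans (le_abs_self _)) (abs_nonneg _)) 2

/-- lower bound of `G` on the plateau -/
theorem G_lo (A : At S M m a T) {k : ℕ} {γ GP : ℝ} (hγ : M.s S.Jp - M.s S.J ≤ γ) (hk : S.J ≤ k)
    (hk' : k ≤ S.Jp)
    (hG : ∑ j ∈ Finset.Icc S.J S.Jp, (M.z j - M.z (j - 1)) * M.G j ^ 2 ≤ GP) :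
    (M.z k - M.z (S.J - 1)) * max (-M.G k - S.C * S.θ * γ) 0 ^ 2 ≤ GP := by
  have i2 := A.cl.i2
  have dz : ∀ j, 0 ≤ M.z j - M.z (j - 1) := fun j => sub_nonneg.2 (A.cl.leg.zm (Nat.sub_le j 1))
  refine le_trans ?_ ((Finset.sum_le_sum_of_subset_of_nonneg (Finset.Icc_subset_Icc le_rfl hk')
    fun j _ _ => mul_nonneg (dz j) (sq_nonneg _)).trans hG)
  rw [← tel_z M (by omega) (by omega), Finset.sum_mul]
  refine Finset.sum_le_sum fun j hj => mul_le_mul_of_nonneg_left ?_ (dz j)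
  obtain ⟨j1, j2⟩ := Finset.mem_Icc.1 hj
  have := A.G_am hγ j1 j2 hk'
  rw [← sq_abs (M.G j)]
  exact pow_le_pow_left₀ (le_max_right _ _)
    (max_le (by linarith [neg_le_abs (M.G j)]) (abs_nonneg _)) 2

/-- **the top part of the plateau, above the node `w`** -/
theorem plz (A : At S M m a T) {v w P : ℕ} {c γ er g e t0 κ Gp N0 u1 : ℝ} (hv : S.jl < v)
    (hvw : v ≤ w) (hJ : S.J ≤ w) (hP : w ≤ P) (hP' : P ≤ S.Jp) (hγ : M.s S.Jp - M.s S.J ≤ γ)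
    (cp : 0 < c) (er0 : 0 ≤ er) (g0 : 0 ≤ g) (e0 : 0 < e) (Gp0 : 0 ≤ Gp) (κ0 : 0 < κ)
    (hκ : κ ≤ M.z w - M.z (S.J - 1)) (t00 : 0 ≤ t0) (t1 : t0 ≤ sb M m a (w + 1))
    (t2 : t0 ≤ M.s S.Jp) (he : e ≤ S.ms t0 / S.C) (he1 : e ≤ 1)
    (conc : ∀ r ∈ Ico (sb M m a (w + 1)) T, Pr.Reg48.Gd (lb M S m a T) r ≤ 0)
    (atL : res M S m a T v - res M S m a T w ≤ er ∧ M.G w ≤ Gp)
    (atM : sb M m a (w + 1) < M.s S.Jp → res M S m a T w - res M S m a T v ≤ er ∧ -M.G w ≤ Gp ∧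
      M.b * Pr.GG (lb M S m a T) (sb M m a (w + 1)) ≤ 1 + g)
    (net : ∀ k, w ≤ k → k < P → ∃ i j K, w ≤ i ∧ i ≤ k ∧ k < j ∧ j ≤ S.Jp ∧
      M.b * (res M S m a T v - res M S m a T i) + M.G i ≤ K ∧
      M.b * (res M S m a T v - res M S m a T j) + M.G j ≤ K ∧
      Pr.Reg48.Sm (e / 4) (M.b * c / 4) N0 (1 - M.z k) K)
    (last : 1 - M.z P ≤ u1) :
    ∃ hb', PlZ (lb M S m a T) (lh M T) T M.b c (M.s S.J) (M.s S.Jp) γ (sb M m a (w + 1))
      (sb M m a (P + 1)) (resN (lb M S m a T) M.b (sb M m a) (hb M) (v + 1))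
      (er + 1 / (m + 1) + (Gp + S.C * S.θ * γ) / M.b) g 0 N0 e (S.C * S.θ) κ u1 hb' := by
  have c0 := A.c_pos
  have b0 := A.b_pos
  have θ0 : 0 ≤ S.θ := (A.ms_pos le_rfl).le.trans (A.cl.ms1 0)
  have hw := hP.trans hP'
  have hv' := hvw.trans hw
  have sJ : M.s S.J ≤ M.s S.Jp := A.cl.sm A.cl.i3
  have γ0 : 0 ≤ γ := by linarith
  have m1 : (0 : ℝ) < m + 1 := by positivity
  have rb1 : ∀ i, v ≤ i → M.rb m a v / (m + 1) ≤ M.rb m a i / (m + 1) ∧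
      M.rb m a i / (m + 1) ≤ M.rb m a v / (m + 1) + 1 / (m + 1) := fun i hi =>
    ⟨div_le_div_of_nonneg_right (rb_mono A.m_pos hi) m1.le, by
      rw [← add_div]
      exact div_le_div_of_nonneg_right
        (by linarith [(rb_mem (M := M) (a := a) A.m_pos v).1, (rb_mem (M := M) (a := a) A.m_pos i).2])
        m1.le⟩
  have p1 : (0 : ℝ) ≤ 1 / (m + 1) := by positivity
  have M0 := (A.sb_mem hw).1
  choose! fi fj K hK using net
  set ms := M.s S.Jp - M.b * Pr.Gam (lh M T) (M.s S.Jp) with hms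
  have cel : ∀ t, sb M m a (w + 1) ≤ t → t < sb M m a (P + 1) → ∃ k, w ≤ k ∧ k < P ∧
      Cell (sb M m a) (S.Jp + 1) (k + 1) t ∧
      stp (fun j => K (j - 1)) (sb M m a) (S.Jp + 1) t = K k := fun t a1 a2 => by
    obtain ⟨k, k1, k2, x⟩ := A.exists_cell hP' a1 a2
    exact ⟨k, k1, k2, x, by rw [x.stp A.ub]; rfl⟩
  have nd : ∀ i x, w ≤ i → i ≤ S.Jp →
      Pr.Gam (lb M S m a T) (sb M m a (i + 1)) - (sb M m a (i + 1) - (ms + x)) / M.b -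
        resN (lb M S m a T) M.b (sb M m a) (hb M) (v + 1) = res M S m a T i - res M S m a T v +
          (M.rb m a i / (m + 1) - M.rb m a v / (m + 1)) + (ms - M.H i + x) / M.b := fun i x i1 i2 => by
    have := A.R_node (k := i) (by omega) i2
    rw [A.resN_eq hv hv', show (sb M m a (i + 1) - (ms + x)) / M.b =
      (sb M m a (i + 1) - M.H i) / M.b - (ms - M.H i + x) / M.b by ring]
    linarith
  have lo : ∀ i x, w ≤ i → i ≤ S.Jp → M.b * (res M S m a T v - res M S m a T i) + M.G i ≤ x →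
      0 ≤ Pr.Gam (lb M S m a T) (sb M m a (i + 1)) - (sb M m a (i + 1) - (ms + x)) / M.b -
        resN (lb M S m a T) M.b (sb M m a) (hb M) (v + 1) := fun i x i1 i2 hx => by
    rw [nd i x i1 i2]
    have d := (A.deficit (k := i) (by omega) i2).1
    have : res M S m a T v - res M S m a T i ≤ (ms - M.H i + x) / M.b := by
      rw [le_div_iff₀ b0]; linarith
    linarith [(rb1 i (hvw.trans i1)).1]
  have zw := A.lvb_node (k := w) (by omega) hw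
  have q0 : 0 ≤ S.C * S.θ * γ := by positivity
  have n0 := nd w 0 le_rfl hw
  rw [add_zero, add_zero] at n0
  obtain ⟨d1, d2⟩ := A.deficit (k := w) (by omega) hw
  refine ⟨fun t => ms + stp (fun j => K (j - 1)) (sb M m a) (S.Jp + 1) t, A.okb.1, A.okh.1, A.okb.2,
    A.okh.2, b0, cp, s_nn A.cl _, A.t2, sJ, hγ, M0, A.sb_mono (Nat.succ_le_succ hP),
    (A.sb_mem hP').2, by positivity, g0, le_rfl, e0, by positivity, κ0,
    by linarith [A.cl.leg.z1 w, A.cl.atom.1, one_div_pos.2 c0], by positivity,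
    (Cut8.LB.const _).add (LB_stp _ _ _ _), fun s hs => A.lh_top hs, conc, fun t ht => ?_,
    fun r hr hT => A.e_lo t00 t2 he he1 (hr.elim t1.trans t2.trans) hT.le,
    fun r hr => A.e_up (M0.trans hr.1) hr.2.le, ?_, fun x => ⟨?_, (atM x).2.2⟩, fun t ht => ?_,
    by rw [A.lvb_node (by omega) hP']; exact last, fun t a1 a2 => ?_⟩
  · have := Sc48.lvr_mono A.okb.1.1 ht.1
    linarith [A.zh_le_8 ht.2]
  · rw [n0]
    have : -((Gp + S.C * S.θ * γ) / M.b) ≤ (ms - M.H w) / M.b := by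
      rw [← neg_div]; exact div_le_div_of_nonneg_right (by linarith [atL.2]) b0.le
    linarith [atL.1, (rb1 w hvw).1]
  · rw [n0]
    have x1 : S.C * S.θ * (M.s S.Jp - M.s w) ≤ S.C * S.θ * γ :=
      mul_le_mul_of_nonneg_left (by linarith [A.cl.sm hJ]) (by positivity)
    have : (ms - M.H w) / M.b ≤ (Gp + S.C * S.θ * γ) / M.b :=
      div_le_div_of_nonneg_right (by linarith [(atM x).2.1]) b0.le
    linarith [(atM x).1, (rb1 w hvw).2]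
  · obtain ⟨k, k1, k2, x, y⟩ := cel t ((le_max_left _ _).trans ht.1) ht.2
    obtain ⟨a1, a2, a3, a4, a5, a6, -⟩ := hK k k1 k2
    refine ⟨sb M m a (fi k + 1), sb M m a (fj k + 1), A.sb_mono (Nat.succ_le_succ a1),
      (A.sb_mono (Nat.succ_le_succ a2)).trans (x.2.1 (Nat.succ_pos k)),
      (x.2.2 (by omega)).le.trans (A.sb_mono (by omega)), (A.sb_mem a4).2, ?_, ?_⟩
    · rw [y]; exact lo _ _ a1 (by omega) a5
    · rw [y, zero_mul, zero_mul, add_zero]; exact lo _ _ (by omega) a4 a6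
  · obtain ⟨k, k1, k2, x, y⟩ := cel t ((le_max_left _ _).trans a1.le) a2
    rw [y, A.lvb_cell x, add_sub_cancel_left]
    exact (hK k k1 k2).2.2.2.2.2.2

/-- the field `net` of `plz` from node errors and the `L²` norm of `G` -/
theorem net_of (A : At S M m a T) {v w k i j : ℕ} {e c γ GP N1 Ke : ℝ} (hJ : S.J ≤ w)
    (hγ : M.s S.Jp - M.s S.J ≤ γ) (e0 : 0 ≤ e) (c0 : 0 ≤ c) (N0 : 0 ≤ N1)
    (hG : ∑ j ∈ Finset.Icc S.J S.Jp, (M.z j - M.z (j - 1)) * M.G j ^ 2 ≤ GP)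
    (s1 : Pr.Reg48.Sm e c N1 1 (S.C * S.θ * γ)) (s2 : Pr.Reg48.Sm e c N1 1 (2 * √GP)) (h1 : w ≤ i) (h2 : i ≤ k)
    (h3 : k < j) (h4 : j ≤ S.Jp) (h5 : M.b * (res M S m a T v - res M S m a T i) ≤ Ke)
    (h6 : M.b * (res M S m a T v - res M S m a T j) ≤ Ke)
    (h7 : 1 - M.z k ≤ 4 * (1 - M.z (j - 1))) (s3 : Pr.Reg48.Sm e c N1 (1 - M.z k) Ke) :
    ∃ i j K, w ≤ i ∧ i ≤ k ∧ k < j ∧ j ≤ S.Jp ∧
      M.b * (res M S m a T v - res M S m a T i) + M.G i ≤ K ∧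
      M.b * (res M S m a T v - res M S m a T j) + M.G j ≤ K ∧ Pr.Reg48.Sm e c (16 * N1) (1 - M.z k) K := by
  have ρ0 : 0 ≤ 1 - M.z k := sub_nonneg.2 (A.cl.leg.z1 k)
  have ρ1 : 1 - M.z k ≤ 1 := by
    linarith [A.cl.leg.zm (Nat.zero_le k), A.cl.leg.z0, A.mem.a2, A.a_pos]
  have u1 := A.G_up hγ (hJ.trans h1) (by omega) hG
  have u2 := A.G_up hγ (by omega) h4 hG
  set x := max (max (M.G i - S.C * S.θ * γ) 0) (max (M.G j - S.C * S.θ * γ) 0) with hx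
  have x0 : 0 ≤ x := (le_max_right _ _).trans (le_max_left _ _)
  have G0 : 0 ≤ GP := le_trans (mul_nonneg (sub_nonneg.2 (A.cl.leg.z1 _)) (sq_nonneg _)) u1
  have x2 : (1 - M.z k) * x ^ 2 ≤ 4 * GP := by
    rcases max_choice (max (M.G i - S.C * S.θ * γ) 0) (max (M.G j - S.C * S.θ * γ) 0) with y | y
    · rw [hx, y]
      have := mul_le_mul_of_nonneg_right (show 1 - M.z k ≤ 1 - M.z (i - 1) by
        linarith [A.cl.leg.zm (show i - 1 ≤ k by omega)]) (sq_nonneg (max (M.G i - S.C * S.θ * γ) 0))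
      linarith
    · rw [hx, y]
      have := mul_le_mul_of_nonneg_right h7 (sq_nonneg (max (M.G j - S.C * S.θ * γ) 0))
      linarith
  have sq : (2 * √GP) ^ 2 = 4 * GP := by rw [mul_pow, sq_sqrt G0]; norm_num
  have s4 : Pr.Reg48.Sm e c N1 (1 - M.z k) x := by
    have y : (1 - M.z k) * x ≤ 2 * √GP := by
      refine le_of_pow_le_pow_left₀ (n := 2) (by norm_num) (by positivity) ?_
      rw [sq]
      nlinarith [mul_le_mul_of_nonneg_right ρ1 (mul_nonneg ρ0 (sq_nonneg x))]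
    rcases s2 with s | s | s
    · refine .inr (.inl (x2.trans ?_))
      rw [← sq, le_antisymm s (by positivity)]
      simpa using mul_nonneg e0 N0
    · exact .inr (.inl (by linarith))
    · refine .inr (.inr (le_trans ?_ s))
      calc (1 - M.z k) ^ 2 * x ^ 3 = (1 - M.z k) * x ^ 2 * ((1 - M.z k) * x) := by ring
        _ ≤ (2 * √GP) ^ 2 * (2 * √GP) := by rw [sq]; gcongr
        _ = _ := by ring
  have s5 := (s1.mono e0 c0 N0 ρ0 le_rfl le_rfl le_rfl ρ1 le_rfl).add s4 e0 c0 N0 ρ0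
  have s6 := (s3.mono e0 c0 N0 ρ0 le_rfl le_rfl (by linarith : N1 ≤ 4 * N1) le_rfl le_rfl).add s5
    e0 c0 (by positivity) ρ0
  rw [show 4 * (4 * N1) = 16 * N1 by ring] at s6
  refine ⟨i, j, _, h1, h2, h3, h4, ?_, ?_, s6⟩
  · linarith [le_max_left (M.G i - S.C * S.θ * γ) 0,
      le_max_left (max (M.G i - S.C * S.θ * γ) 0) (max (M.G j - S.C * S.θ * γ) 0)]
  · linarith [le_max_left (M.G j - S.C * S.θ * γ) 0,
      le_max_right (max (M.G i - S.C * S.θ * γ) 0) (max (M.G j - S.C * S.θ * γ) 0)]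

/-- two sided bound of `G` at a node at the label distance `κ` from both ends -/
theorem G_abs (A : At S M m a T) {k : ℕ} {γ GP κ : ℝ} (hγ : M.s S.Jp - M.s S.J ≤ γ) (hk : S.J ≤ k)
    (hk' : k ≤ S.Jp) (κ0 : 0 < κ) (h1 : κ ≤ M.z k - M.z (S.J - 1)) (h2 : κ ≤ 1 - M.z (k - 1))
    (hG : ∑ j ∈ Finset.Icc S.J S.Jp, (M.z j - M.z (j - 1)) * M.G j ^ 2 ≤ GP) :
    |M.G k| ≤ S.C * S.θ * γ + √(GP / κ) := by
  have u1 := (mul_le_mul_of_nonneg_right h2 (sq_nonneg _)).trans (A.G_up hγ hk hk' hG)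
  have u2 := (mul_le_mul_of_nonneg_right h1 (sq_nonneg _)).trans (A.G_lo hγ hk hk' hG)
  have v1 := le_sqrt_of_sq_le ((le_div_iff₀' κ0).2 u1)
  have v2 := le_sqrt_of_sq_le ((le_div_iff₀' κ0).2 u2)
  exact abs_le.2 ⟨by linarith [le_max_left (-M.G k - S.C * S.θ * γ) 0],
    by linarith [le_max_left (M.G k - S.C * S.θ * γ) 0]⟩

end Crest.Agent.T156.Alt.Mp9.At

end
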