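import Crest.Agent.T156.Mid2_36
import Crest.Agent.T156.CutN_93
import Crest.Agent.T156.PlatY_48
import Crest.Agent.T156.ClPl_48

/-!
# Row 156, text (L) (helper8): continuations, segments, the middle zone with a general lower end
-/

set_option autoImplicit false

noncomputable section

namespace Crest.Agent.T156.Cut8

open MeasureTheory Set intervalIntegral
open Crest.Agent.T156.Pr.Reg48 (LB_ite int_ite res_ext)

variable {T : ℝ} {dz ρ : ℝ → ℝ}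

/-- residual data on `[A, s]` extended to `[A, B]`, unchanged below `s` -/
def ExtB (T : ℝ) (dz ρ H r1 r2 ω β ξ : ℝ → ℝ) (A s B X Z : ℝ) : Prop :=
  ∃ H' r1' r2' ω' β' ξ' : ℝ → ℝ, Res T dz ρ H' r1' r2' ω' β' ξ' A B ∧
    (∀ t, t < s → H' t = H t ∧ r1' t = r1 t ∧ r2' t = r2 t ∧ β' t = β t) ∧
    ∫ t in A..B, ω' t ^ 2 ≤ ∫ t in A..s, ω t ^ 2 ∧
    ∫ t in A..B, ξ' t ≤ (∫ t in A..s, ξ t) + X ∧
    ∫ t in A..B, H' t * dz t = (∫ t in A..s, H t * dz t) + Z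

theorem ExtB.ext {H r1 r2 ω β ξ : ℝ → ℝ} {s B X Z : ℝ} (h : ExtB T dz ρ H r1 r2 ω β ξ 0 s B X Z)
    (hs : 0 < s) : Ext T dz ρ H r2 ω β ξ s B X Z := by
  obtain ⟨_, _, _, _, _, _, R, a1, a3, a4, a5⟩ := h
  exact ⟨_, _, _, _, _, _, R, (a1 0 hs).2.2.1, (a1 0 hs).2.2.2, a3, a4, a5⟩

theorem ExtB.extA {H r1 r2 ω β ξ : ℝ → ℝ} {A s B X Z : ℝ}
    (h : ExtB T dz ρ H r1 r2 ω β ξ A s B X Z) : ExtA T dz ρ H r1 ω β ξ A s B X Z := by
  obtain ⟨_, _, _, _, _, _, R, a1, a3, a4, a5⟩ := h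
  exact ⟨_, _, _, _, _, _, R, fun t ht => ⟨(a1 t ht).1, (a1 t ht).2.1, (a1 t ht).2.2.2⟩, a3, a4, a5⟩

/-- **continuation above `s`**: cost `τ + Z / 4`, gain `Z` -/
def Cont (T : ℝ) (dz ρ : ℝ → ℝ) (c0 βs A s τ : ℝ) (Q : ℝ → Prop) : Prop :=
  ∀ H r1 r2 ω β ξ : ℝ → ℝ, Res T dz ρ H r1 r2 ω β ξ A s → r2 s = c0 → β s = βs →
    ∃ Z, 0 ≤ Z ∧ Q Z ∧ ExtB T dz ρ H r1 r2 ω β ξ A s T (τ + Z / 4) Z

theorem Cont.mono {c0 βs A s τ τ' : ℝ} {Q Q' : ℝ → Prop} (h : Cont T dz ρ c0 βs A s τ Q)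
    (hτ : τ ≤ τ') (hQ : ∀ Z, 0 ≤ Z → Q Z → Q' Z) : Cont T dz ρ c0 βs A s τ' Q' := by
  intro H r1 r2 ω β ξ R e1 e2
  obtain ⟨Z, z0, q, _, _, _, _, _, _, R', a1, a3, a4, a5⟩ := h H r1 r2 ω β ξ R e1 e2
  exact ⟨Z, z0, hQ Z z0 q, _, _, _, _, _, _, R', a1, a3, by linarith, a5⟩

/-- the field `ext` of `Fr.topR` -/
theorem Cont.top {c0 βs s τ : ℝ} {Q : ℝ → Prop} (h : Cont T dz ρ c0 βs 0 s τ Q) (hs : 0 < s)
    (H r1 r2 ω β ξ : ℝ → ℝ) (R : Res T dz ρ H r1 r2 ω β ξ 0 s) (e1 : r2 s = c0) (e2 : β s = βs) :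
    ∃ X Z, (0 ≤ Z ∧ Q Z) ∧ Ext T dz ρ H r2 ω β ξ s T X Z ∧ X ≤ τ + Z / 4 := by
  obtain ⟨Z, z0, q, x⟩ := h H r1 r2 ω β ξ R e1 e2
  exact ⟨_, Z, ⟨z0, q⟩, x.ext hs, le_rfl⟩

/-- a segment `[s, M)` with the constant slow part `c0` -/
def Seg (T : ℝ) (dz ρ : ℝ → ℝ) (c0 βs s M X Z : ℝ) : Prop :=
  ∃ H k : ℝ → ℝ, LB T H ∧ LB T k ∧ (∀ t, s ≤ t → t < M → 0 ≤ H t * dz t ∧ 0 ≤ k t ∧
    (ρ t + H t - c0) * dz t + βs * |dz t| ≤ k t) ∧ ∫ t in s..M, k t ≤ X ∧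
    ∫ t in s..M, H t * dz t = Z

theorem Seg.nil (c0 βs s : ℝ) : Seg T dz ρ c0 βs s s 0 0 :=
  ⟨fun _ => 0, fun _ => 0, LB.const 0, LB.const 0, fun _ a b => absurd a (not_le.2 b), by simp,
    by simp⟩

theorem Seg.mono {c0 βs s M X X' Z : ℝ} (h : Seg T dz ρ c0 βs s M X Z) (hX : X ≤ X') :
    Seg T dz ρ c0 βs s M X' Z := by
  obtain ⟨H, k, a1, a2, a3, a4, a5⟩ := h
  exact ⟨H, k, a1, a2, a3, a4.trans hX, a5⟩

theorem Seg.nn {c0 βs s M X Z : ℝ} (h : Seg T dz ρ c0 βs s M X Z) (hM : s ≤ M) : 0 ≤ Z := by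
  obtain ⟨H, k, -, -, a3, -, a5⟩ := h
  rw [← a5, integral_of_le hM, integral_Ioc_eq_integral_Ioo]
  exact setIntegral_nonneg measurableSet_Ioo fun t ht => (a3 t ht.1.le ht.2).1

theorem Seg.trans {c0 βs s y M X Z X' Z' : ℝ} (ld : LB T dz) (hs : 0 ≤ s) (h1 : s ≤ y) (h2 : y ≤ M)
    (hT : M ≤ T) (h : Seg T dz ρ c0 βs s y X Z) (h' : Seg T dz ρ c0 βs y M X' Z') :
    Seg T dz ρ c0 βs s M (X + X') (Z + Z') := by
  obtain ⟨H, k, a1, a2, a3, a4, a5⟩ := h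
  obtain ⟨H', k', b1, b2, b3, b4, b5⟩ := h'
  refine ⟨_, _, LB_ite (M := y) a1 b1, LB_ite (M := y) a2 b2, fun t t0 t1 => ?_, ?_, ?_⟩
  · split_ifs with c
    · exact a3 t t0 c
    · exact b3 t (not_lt.1 c) t1
  · rw [int_ite a2 b2 hs h1 h2 hT]; linarith
  · rw [← a5, ← b5, ← int_ite (a1.mul ld) (b1.mul ld) hs h1 h2 hT]
    refine integral_congr fun t _ => ?_
    split_ifs <;> rfl

/-- **a segment in front of a continuation** -/
theorem Cont.seg {c0 βs A s M X Z1 τ τ' : ℝ} {Q : ℝ → Prop} (ld : LB T dz) (hA : 0 ≤ A) (hs : A ≤ s)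
    (hM : s ≤ M) (hT : M ≤ T) (β0 : 0 ≤ βs) (h : Seg T dz ρ c0 βs s M X Z1) (hX : X ≤ τ' + Z1 / 4)
    (h' : Cont T dz ρ c0 βs A M τ Q) :
    Cont T dz ρ c0 βs A s (τ' + τ) fun Z => ∃ Z2, Z = Z1 + Z2 ∧ 0 ≤ Z2 ∧ Q Z2 := by
  intro H r1 r2 ω β ξ R e1 e2
  have z1 := h.nn hM
  obtain ⟨H', k, a1, a2, a3, a4, a5⟩ := h
  have R1 := res_ext R hA hT (e2 ▸ β0) a1 a2 (fun t a b => (a3 t a b).1)
    (fun t a b => (a3 t a b).2.1) fun t a b => by rw [e1, e2]; exact (a3 t a b).2.2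
  obtain ⟨Z, z0, q, _, _, _, _, _, _, R', b1, b3, b4, b5⟩ := h' _ _ _ _ _ _ R1
    ((if_neg (not_lt.2 hM)).trans e1) ((if_neg (not_lt.2 hM)).trans e2)
  refine ⟨Z1 + Z, by linarith, ⟨Z, rfl, z0, q⟩, _, _, _, _, _, _, R', fun t ht => ?_, ?_, ?_, ?_⟩
  · obtain ⟨c1, c2, c3, c4⟩ := b1 t (ht.trans_le hM)
    exact ⟨c1.trans (if_pos ht), c2.trans (if_pos ht), c3.trans (if_pos ht), c4.trans (if_pos ht)⟩
  · refine b3.trans (le_of_eq ?_)
    have := int_ite (M := s) R.lω.sq (LB.const 0) hA hs hM hT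
    rw [intervalIntegral.integral_zero, add_zero] at this
    rw [← this]
    refine integral_congr fun t _ => ?_
    simp only
    split_ifs <;> simp
  · rw [int_ite R.lξ a2 hA hs hM hT] at b4
    linarith
  · rw [b5, ← add_assoc, ← a5, ← int_ite (R.lH.mul ld) (a1.mul ld) hA hs hM hT]
    congr 1
    refine integral_congr fun t _ => ?_
    simp only
    split_ifs <;> rfl

end Crest.Agent.T156.Cut8

namespace Crest.Agent.T156.Pr.Lag8

open MeasureTheory Set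
open Crest.Agent.R164.GC Crest.Agent.R339.B Crest.Agent.R339.Var Crest.Agent.T157.Pf
open Crest.Agent.T156.Cut8 Crest.Agent.T156.Pr.Reg48 Crest.Agent.T156.Pr.Mid8
open Crest.Agent.T156.Pr.Mid36
open Crest.Agent.T156.Pr.Mid8.Mid (mk' ff)

variable {lb lh : List (ℝ × ℝ)} {T b : ℝ}

/-- the middle zone `[s, M)`; the upper bound is needed only where `dz ≥ 0`; `x` is a node error
with the price `Kc log` -/
structure Md3 (lb lh : List (ℝ × ℝ))
    (T b σ' σ γ s M c0 η Rs w d1 e e1 C1 δ G0 Gm Gp mM Kc τ0 : ℝ) : Prop where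
  okb : Ok lb
  okh : Ok lh
  tb : TT lb = T
  th : TT lh = T
  b0 : 0 < b
  s0 : 0 < s
  sσ : s ≤ σ
  σσ : σ' ≤ σ
  spr : σ - σ' ≤ γ
  sM : s ≤ M
  σT : σ ≤ T
  MT : M ≤ T
  nn : 0 ≤ η ∧ 0 ≤ Rs ∧ 0 ≤ d1 ∧ 0 < e ∧ 0 ≤ e1 ∧ 0 ≤ C1 ∧ 0 ≤ δ ∧ 0 < G0 ∧ 0 < Gm ∧ 0 ≤ Gp
  w0 : 0 ≤ w
  K0 : 0 ≤ Kc
  τp : 0 < τ0
  top : ∀ t, σ ≤ t → lvr 1 lh t = 1
  pos : ∀ t, s ≤ t → t < σ' - w → 0 ≤ lvr 1 lb t - lvr 1 lh t
  dlo : ∀ t ∈ Ico s σ', -d1 ≤ lvr 1 lb t - lvr 1 lh t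
  rise : ∀ p q, s ≤ p → p ≤ q → q ≤ M → p - b * Gam lb p - Rs ≤ q - b * Gam lb q
  elo : ∀ r, s ≤ r → r < T → e ≤ 1 - b * GG lh r
  eup : ∀ r ∈ Ico s σ, 1 - b * GG lh r ≤ e1
  atM : -η ≤ Gam lb M - (M - mM) / b - c0 ∧ mM ≤ σ - b * Gam lh σ + Gp
  net : ∀ t, s ≤ t → t < σ → t < M → 0 ≤ lvr 1 lb t - lvr 1 lh t → ∃ p mp x : ℝ, s ≤ p ∧ p ≤ t ∧
    Gam lb p - (p - mp) / b - c0 ≤ η + x ∧
    x * (lvr 1 lb t - lvr 1 lh t) * (σ - t + τ0) ≤ Kc ∧
    ((σ - b * Gam lh σ - mp) * √(lvr 1 lb t - lvr 1 lh t) ≤ G0 ∨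
      (σ - b * Gam lh σ - mp ≤ Gm ∧ lvr 1 lb t - lvr 1 lh t ≤ C1 * (σ - t) + δ))

variable {σ' σ γ s M c0 η Rs w d1 e e1 C1 δ G0 Gm Gp mM Kc τ0 : ℝ}

namespace Md3

theorem dlo' (h : Md3 lb lh T b σ' σ γ s M c0 η Rs w d1 e e1 C1 δ G0 Gm Gp mM Kc τ0) {t : ℝ}
    (ht : s ≤ t) : -d2 σ' w d1 t ≤ lvr 1 lb t - lvr 1 lh t := by
  unfold d2
  split_ifs with c c' c'
  · linarith [h.pos t ht c]
  · linarith [h.pos t ht c]
  · linarith [h.dlo t ⟨ht, c'⟩]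
  · linarith [Sc48.lvr_pos h.okb.1 t, (Sc48.lvr_mem h.okh.1 t).2, h.nn.2.2.1]

theorem coer (h : Md3 lb lh T b σ' σ γ s M c0 η Rs w d1 e e1 C1 δ G0 Gm Gp mM Kc τ0) {t : ℝ}
    (h1 : s ≤ t) (h2 : t < M) :
    e / b * (|t - σ| * ff lb lh σ t) ≤ mk' lb lh b σ t * (lvr 1 lb t - lvr 1 lh t) := by
  have b0 := h.b0
  have s0 := h.s0
  unfold mk' ff
  split_ifs with c c'
  · rw [max_eq_right c'.le]; simp
  · have a := Mh_ge h.okh b0 (p := t) (s := σ) (e := e) (by linarith) c.le (h.th ▸ h.σT)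
      fun r hr => h.elo r (h1.trans hr.1) (hr.2.trans_le h.σT)
    rw [max_eq_left (not_lt.mp c'), mul_one, ← mul_assoc, abs_of_neg (sub_neg.mpr c)]
    refine mul_le_mul_of_nonneg_right ?_ (not_lt.mp c')
    rw [div_mul_eq_mul_div]
    exact div_le_div_of_nonneg_right (by linarith) b0.le
  · have c1 := not_lt.mp c
    have a := Mh_ge h.okh b0 (p := σ) (s := t) (e := e) (by linarith [h.sσ]) c1
      (h.th ▸ (h2.le.trans h.MT)) fun r hr => h.elo r (h.sσ.trans hr.1)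
        (hr.2.trans (h2.trans_le h.MT))
    have z : lvr 1 lb t - lvr 1 lh t ≤ 0 := by
      rw [h.top t c1]; linarith [(Sc48.lvr_mem h.okb.1 t).2]
    rw [abs_of_nonpos z, abs_of_nonneg (sub_nonneg.mpr c1), mul_one, ← mul_assoc,
      div_mul_eq_mul_div, div_mul_eq_mul_div, div_mul_eq_mul_div]
    refine div_le_div_of_nonneg_right ?_ b0.le
    nlinarith

theorem pair (h : Md3 lb lh T b σ' σ γ s M c0 η Rs w d1 e e1 C1 δ G0 Gm Gp mM Kc τ0) {t : ℝ}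
    (h1 : s ≤ t) (h2 : t < M) :
    (Gam lb t - Gam lh t + mk' lb lh b σ t - c0) * (lvr 1 lb t - lvr 1 lh t) ≤
      (η + (Gp + Rs) / b) * |lvr 1 lb t - lvr 1 lh t| +
      (if t < σ then (η + (Gp + Rs + e1 * (w + γ)) / b) * d2 σ' w d1 t +
        (e / 8 * ((σ - t) * max (lvr 1 lb t - lvr 1 lh t) 0) +
          (2 * G0 ^ 2 * (1 / (e / 8 * (σ - t) + G0)) +
            16 * C1 * Gm ^ 3 / e * (1 / (e / 8 * (σ - t) + Gm)) + Gm * δ)) / b +
          Kc * (1 / (1 * (σ - t) + τ0)) else 0) := by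
  obtain ⟨η0, g0, d0, e0, e10, C0, δ0, G00, Gm0, Gp0⟩ := h.nn
  have b0 := h.b0
  have s0 := h.s0
  have w0 := h.w0
  have K0 := h.K0
  have τp := h.τp
  have γ0 : 0 ≤ γ := by linarith [h.σσ, h.spr]
  have hT := h2.le.trans h.MT
  have inc : ∀ p q, s ≤ p → p ≤ q → q ≤ M →
      Gam lb q - q / b ≤ Gam lb p - p / b + Rs / b := fun p q a1 a2 a3 => by
    have a := div_le_div_of_nonneg_right (h.rise p q a1 a2 a3) b0.le
    have e1 : ∀ x : ℝ, b * x / b = x := fun x => by field_simp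
    simp only [sub_div, e1] at a
    linarith
  have p1 : 0 ≤ η + (Gp + Rs + e1 * (w + γ)) / b := by positivity
  have eb : ∀ x : ℝ, b * x / b = x := fun x => by field_simp
  unfold mk'
  split_ifs with c c'
  · have τ0' : 0 ≤ σ - t := by linarith
    have tw : σ' - w ≤ t := not_lt.mp fun q => by linarith [h.pos t h1 q]
    have m := Mh_le h.okh b0 (p := t) (s := σ) (e := e1) (by linarith) c.le (h.th ▸ h.σT)
      fun r hr => h.eup r ⟨h1.trans hr.1, hr.2⟩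
    have m2 := mul_le_mul_of_nonneg_left (show σ - t ≤ w + γ by linarith [h.spr]) e10
    obtain ⟨a1, a2⟩ := h.atM
    have m3 := div_le_div_of_nonneg_right
      (show mM ≤ t - b * Gam lh t + e1 * (w + γ) + Gp by linarith) b0.le
    have lo : -(η + (Gp + Rs + e1 * (w + γ)) / b) ≤ Gam lb t - Gam lh t - c0 := by
      have i := inc t M h1 h2.le le_rfl
      simp only [sub_div, add_div, eb] at *
      linarith
    have q1 := mul_le_mul_of_nonneg_right lo (neg_nonneg.mpr c'.le)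
    have q2 := mul_le_mul_of_nonneg_left (h.dlo' h1) p1
    have q3 : 0 ≤ (η + (Gp + Rs) / b) * |lvr 1 lb t - lvr 1 lh t| := by positivity
    have q4 : 0 ≤ (e / 8 * ((σ - t) * max (lvr 1 lb t - lvr 1 lh t) 0) +
        (2 * G0 ^ 2 * (1 / (e / 8 * (σ - t) + G0)) +
          16 * C1 * Gm ^ 3 / e * (1 / (e / 8 * (σ - t) + Gm)) + Gm * δ)) / b := by positivity
    have q5 : 0 ≤ Kc * (1 / (1 * (σ - t) + τ0)) := by positivity
    linarith
  · have z := not_lt.mp c'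
    have τ0' : 0 ≤ σ - t := by linarith
    obtain ⟨p, mp, x, a1, a2, a3, a4, a5⟩ := h.net t h1 c h2 z
    have d1' : lvr 1 lb t - lvr 1 lh t ≤ 1 := by
      linarith [(Sc48.lvr_mem h.okb.1 t).2, Sc48.lvr_pos h.okh.1 t]
    have st : (σ - b * Gam lh σ - mp) * (lvr 1 lb t - lvr 1 lh t) ≤
        e / 8 * ((σ - t) * (lvr 1 lb t - lvr 1 lh t)) +
          (2 * G0 ^ 2 * (1 / (e / 8 * (σ - t) + G0)) +
            16 * C1 * Gm ^ 3 / e * (1 / (e / 8 * (σ - t) + Gm)) + Gm * δ) := by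
      rcases a5 with a5 | ⟨a5, a6⟩
      · have := stat_pt (C1 := 0) (δ := 0) (Gm := max (σ - b * Gam lh σ - mp) 1) e0 G00
          (lt_max_of_lt_right one_pos) le_rfl le_rfl τ0' z d1' z (by linarith) a5 (le_max_left _ _)
        have p2 : 0 ≤ 16 * C1 * Gm ^ 3 / e * (1 / (e / 8 * (σ - t) + Gm)) + Gm * δ := by positivity
        simp only [mul_zero, zero_mul, zero_div, add_zero] at this
        linarith
      · exact stat_pt (u := 0) e0 G00 Gm0 C0 δ0 τ0' le_rfl zero_le_one z (by linarith)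
          (by simpa using G00.le) a5
    have st' := div_le_div_of_nonneg_right st b0.le
    have up : Gam lb t - Gam lh t + (σ - b * Gam lh σ - (t - b * Gam lh t)) / b * 1 - c0 ≤
        η + (Gp + Rs) / b + (σ - b * Gam lh σ - mp) / b + x := by
      have i := inc p t a1 a2 h2.le
      have : 0 ≤ Gp / b := by positivity
      simp only [sub_div, add_div, mul_one, eb] at *
      linarith
    have q1 := mul_le_mul_of_nonneg_right up z
    have q2 := mul_nonneg p1 (d2_nn (σ' := σ') (w := w) d0 t)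
    have q3 : x * (lvr 1 lb t - lvr 1 lh t) ≤ Kc * (1 / (1 * (σ - t) + τ0)) := by
      rw [mul_one_div, le_div_iff₀ (by positivity), one_mul]; exact a4
    rw [abs_of_nonneg z, max_eq_left z]
    rw [mul_div_right_comm] at st'
    linarith
  · have c1 := not_lt.mp c
    have z : lvr 1 lb t - lvr 1 lh t ≤ 0 := by
      rw [h.top t c1]; linarith [(Sc48.lvr_mem h.okb.1 t).2]
    obtain ⟨a1, a2⟩ := h.atM
    have lo : -(η + (Gp + Rs) / b) ≤
        Gam lb t - Gam lh t + (σ - b * Gam lh σ - (t - b * Gam lh t)) / b * 1 - c0 := by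
      have i := inc t M h1 h2.le le_rfl
      have := div_le_div_of_nonneg_right a2 b0.le
      simp only [sub_div, add_div, mul_one, eb] at *
      linarith
    have q1 := mul_le_mul_of_nonneg_right lo (neg_nonneg.mpr z)
    rw [abs_of_nonpos z]
    linarith

/-- the error of the zone -/
def Er (T b γ η Rs w d1 e e1 C1 δ G0 Gm Gp Kc τ0 a1 a2 N : ℝ) : ℝ :=
  N + 32 * a2 ^ 2 * b / e +
    (2 * a1 + a2 + (η + (Gp + Rs + e1 * (w + γ)) / b)) * (d1 * (w + γ) + γ) +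
    St T b e C1 δ G0 Gm + Kc * Real.log (1 + T / τ0)

/-- **the middle zone as a segment** -/
theorem seg (h : Md3 lb lh T b σ' σ γ s M c0 η Rs w d1 e e1 C1 δ G0 Gm Gp mM Kc τ0) {c C' : ℝ}
    (F : Fr T c C' (Spl27.okT T) (lvr 1) Gam GG) {βs a1 a2 θ N : ℝ} (β0 : 0 ≤ βs) (h1 : 0 ≤ a1)
    (h2 : 0 < a2) (hθ : 0 < θ) (hN : 0 ≤ N) (ha : η + (Gp + Rs) / b + βs ≤ a1 + a2)
    (h3 : (4 * a1) ^ 3 ≤ θ * N ^ 2) {A0 E : ℝ} (hA0 : 0 ≤ A0) (hA : A0 ≤ s)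
    (hE : ∫ t in A0..T, Jf T (lvr 1 lh) (lvr 1 lb) t ^ 2 ≤ E) :
    ∃ Z, e / b * (∫ t in s..M, |t - σ| * ff lb lh σ t) ≤ Z ∧
      Seg T (fun t => lvr 1 lb t - lvr 1 lh t) (fun t => Gam lb t - Gam lh t) c0 βs s M
        (8 * θ * E + 3 / 16 * (e / b * ∫ t in s..M, |t - σ| * ff lb lh σ t) +
          Er T b γ η Rs w d1 e e1 C1 δ G0 Gm Gp Kc τ0 a1 a2 N) Z := by
  obtain ⟨η0, g0, d0, e0, e10, C0, δ0, G00, Gm0, Gp0⟩ := h.nn
  have b0 := h.b0
  have s0 := h.s0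
  have sM := h.sM
  have MT := h.MT
  have sσ := h.sσ
  have σT := h.σT
  have w0 := h.w0
  have K0 := h.K0
  have τp := h.τp
  have γ0 : 0 ≤ γ := by linarith [h.σσ, h.spr]
  have ob : Spl27.okT T lb := ⟨h.okb, h.tb⟩
  have oh : Spl27.okT T lh := ⟨h.okh, h.th⟩
  have ms' : s ∈ Icc 0 T := ⟨s0.le, by linarith⟩
  have mM' : M ∈ Icc 0 T := ⟨by linarith, MT⟩
  have ld : LB T fun t => lvr 1 lb t - lvr 1 lh t := (F.lbz ob).sub (F.lbz oh)
  have lf : LB T (ff lb lh σ) := LB_ite (LB_max ld) ld.abs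
  have f0 : ∀ t, 0 ≤ ff lb lh σ t := fun t => by unfold ff; split_ifs <;> positivity
  have f1 : ∀ t, ff lb lh σ t ≤ 1 := fun t => by
    have := F.dz_le ob oh t
    unfold ff
    split_ifs
    · exact max_le ((le_abs_self _).trans this) zero_le_one
    · exact this
  have lw : LB T fun t => |t - σ| * ff lb lh σ t :=
    (LB.of_cont (f := fun t => |t - σ|) (by fun_prop)).mul lf
  have lH : LB T (mk' lb lh b σ) := by
    refine (((LB.const _).sub ((LB.of_cont continuousOn_id).sub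
      ((LB.const b).mul (F.lbΓ oh (by linarith))))).div b).mul (LB_ite ?_ (LB.const 1))
    exact .of_meas (Measurable.ite (measurableSet_lt ((Sc48.lvr_meas lb).sub (Sc48.lvr_meas lh))
      measurable_const) measurable_const measurable_const) (K := 1) fun t _ => by
        split_ifs <;> simp
  set B2 := η + (Gp + Rs + e1 * (w + γ)) / b with hB2
  have B20 : 0 ≤ B2 := by positivity
  have α0 : 0 < e / 8 := by positivity
  have k1 := (LB.const (T := T) (2 * G0 ^ 2)).mul (LB_ker σ α0 G00)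
  have k2 := (LB.const (T := T) (16 * C1 * Gm ^ 3 / e)).mul (LB_ker σ α0 Gm0)
  have k3 := (LB.const (T := T) Kc).mul (LB_ker σ one_pos τp)
  have lr := (((LB.const B2).mul (LB_d2 σ' w d1)).add
    (((k1.add k2).add (LB.const (Gm * δ))).div b)).add k3
  have lk := ((LB.const (e / b / 8)).mul lw).add (LB_ite (M := σ) lr (LB.const 0))
  have la := (LB.const (η + (Gp + Rs) / b + βs)).mul ld.abs
  have z1 := int_mono ((LB.const (e / b)).mul lw) (lH.mul ld) s0.le sM MT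
    fun t t0 t1 => h.coer t0.le t1
  rw [intervalIntegral.integral_const_mul] at z1
  have W0 : 0 ≤ ∫ t in s..M, |t - σ| * ff lb lh σ t :=
    intervalIntegral.integral_nonneg sM fun t _ => by have := f0 t; positivity
  refine ⟨_, z1, _, _, lH, la.add lk, fun t t0 t1 =>
    ⟨le_trans (by have := f0 t; positivity) (h.coer t0 t1),
      add_nonneg (by positivity) (add_nonneg (by have := f0 t; positivity)
        (by have := d2_nn (σ' := σ') (w := w) d0 t; unfold ker; split_ifs <;> positivity)), ?_⟩,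
    ?_, rfl⟩
  · have p := h.pair t0 t1
    have q : (if t < σ then (η + (Gp + Rs + e1 * (w + γ)) / b) * d2 σ' w d1 t +
        (e / 8 * ((σ - t) * max (lvr 1 lb t - lvr 1 lh t) 0) +
          (2 * G0 ^ 2 * (1 / (e / 8 * (σ - t) + G0)) +
            16 * C1 * Gm ^ 3 / e * (1 / (e / 8 * (σ - t) + Gm)) + Gm * δ)) / b +
          Kc * (1 / (1 * (σ - t) + τ0)) else 0) ≤
        e / b / 8 * (|t - σ| * ff lb lh σ t) + if t < σ then B2 * d2 σ' w d1 t +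
          (2 * G0 ^ 2 * ker (e / 8) G0 σ t + 16 * C1 * Gm ^ 3 / e * ker (e / 8) Gm σ t + Gm * δ) / b +
          Kc * ker 1 τ0 σ t else 0 := by
      unfold ff ker
      split_ifs with c
      · rw [max_eq_left (sub_nonneg.mpr c.le), abs_of_neg (sub_neg.mpr c)]
        exact le_of_eq (by ring)
      · positivity
    simp only
    linarith
  have m0 : s ≤ min σ M := le_min sσ sM
  have m1 : min σ M ≤ σ := min_le_left _ _
  have m2 : min σ M ≤ M := min_le_right _ _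
  have mm : min σ M ∈ Icc 0 T := ⟨by linarith, by linarith⟩
  have i1 := mul_le_mul_of_nonneg_left (int_ker' s0.le m0 m1 σT α0 G00)
    (show 0 ≤ 2 * G0 ^ 2 by positivity)
  have i2 := mul_le_mul_of_nonneg_left (int_ker' s0.le m0 m1 σT α0 Gm0)
    (show 0 ≤ 16 * C1 * Gm ^ 3 / e by positivity)
  have i6 := mul_le_mul_of_nonneg_left (int_ker' s0.le m0 m1 σT one_pos τp) K0
  rw [one_mul, div_one] at i6
  have i3 := mul_le_mul_of_nonneg_right (show min σ M - s ≤ T by linarith)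
    (show 0 ≤ Gm * δ by positivity)
  have i0 := int_d2 (T := T) (σ' := σ') s0.le m0 mm.2 d0 w0 γ0
    (show min σ M - σ' ≤ γ by linarith [h.spr])
  have i4 := mul_le_mul_of_nonneg_left i0 B20
  have i5 : ((2 * G0 ^ 2 * ∫ t in s..min σ M, ker (e / 8) G0 σ t) +
      (16 * C1 * Gm ^ 3 / e * ∫ t in s..min σ M, ker (e / 8) Gm σ t) +
      (min σ M - s) * (Gm * δ)) / b ≤ St T b e C1 δ G0 Gm := by
    refine div_le_div_of_nonneg_right ?_ b0.le
    have r1 : 2 * G0 ^ 2 * (Real.log (1 + e / 8 * T / G0) / (e / 8)) =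
        16 * G0 ^ 2 / e * Real.log (1 + e / 8 * T / G0) := by field_simp; ring
    have r2 : 16 * C1 * Gm ^ 3 / e * (Real.log (1 + e / 8 * T / Gm) / (e / 8)) =
        128 * C1 * Gm ^ 3 / e ^ 2 * Real.log (1 + e / 8 * T / Gm) := by field_simp; ring
    linarith
  rw [intervalIntegral.integral_add (la.ii ms' mM') (lk.ii ms' mM'),
    intervalIntegral.integral_add (((LB.const _).mul lw).ii ms' mM')
      ((LB_ite lr (LB.const 0)).ii ms' mM'), int_cut lr s0.le sσ sM MT,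
    intervalIntegral.integral_add ((((LB.const _).mul (LB_d2 σ' w d1)).add
      (((k1.add k2).add (LB.const _)).div b)).ii ms' mm) (k3.ii ms' mm),
    intervalIntegral.integral_add (((LB.const _).mul (LB_d2 σ' w d1)).ii ms' mm)
      ((((k1.add k2).add (LB.const _)).div b).ii ms' mm), intervalIntegral.integral_div,
    intervalIntegral.integral_add ((k1.add k2).ii ms' mm) ((LB.const _).ii ms' mm),
    intervalIntegral.integral_add (k1.ii ms' mm) (k2.ii ms' mm), intervalIntegral.integral_const,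
    smul_eq_mul]
  simp only [intervalIntegral.integral_const_mul]
  have E0 : 0 ≤ E := (intervalIntegral.integral_nonneg (by linarith) fun _ _ => sq_nonneg _).trans hE
  obtain ⟨y, y0, y3'⟩ : ∃ y : ℝ, 0 ≤ y ∧ y ^ 3 = 8 * E :=
    ⟨_, by positivity, Real.rpow_inv_natCast_pow (by positivity) three_ne_zero⟩
  have jy : ∀ t, s ≤ t → t ≤ T → |Jf T (lvr 1 lh) (lvr 1 lb) t| ≤ y := fun t t0 t1 =>
    (pow_le_pow_iff_left₀ (abs_nonneg _) y0 three_ne_zero).mp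
      ((J_cube_loc ld (F.dz_le ob oh) hA0 (hA.trans t0) t1).trans (by linarith))
  have v1 := area_loc ld (LB_d2 σ' w d1) s0.le m0 mm.2 (d2_nn d0) (jy _ le_rfl ms'.2) (jy _ m0 mm.2)
    (.inl fun t t0 _ => h.dlo' t0.le)
  have v2 := area_loc ld (LB.const 0) mm.1 m2 MT (fun _ => le_rfl) (jy _ m0 mm.2) (jy _ sM MT)
    (.inr fun t t0 t1 => by
      rw [h.top t (by rcases min_lt_iff.mp t0 with c | c <;> linarith)]
      linarith [(Sc48.lvr_mem h.okb.1 t).2])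
  rw [intervalIntegral.integral_zero] at v2
  have v3 := int_split ld.abs ms' mm mM'
  have l5 := LB_ite (M := σ) (LB_d2 (T := T) σ' w d1) (LB.const 0)
  have v5 := int_mono ld.abs (lf.add l5) s0.le sM MT fun t t0 _ => by
    unfold ff
    split_ifs with c
    · exact abs_le.mpr ⟨by linarith [h.dlo' t0.le, le_max_right (lvr 1 lb t - lvr 1 lh t) 0],
        by linarith [le_max_left (lvr 1 lb t - lvr 1 lh t) 0, d2_nn (σ' := σ') (w := w) d0 t]⟩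
    · linarith
  rw [intervalIntegral.integral_add (lf.ii ms' mM') (l5.ii ms' mM'),
    int_cut (LB_d2 σ' w d1) s0.le sσ sM MT] at v5
  have v6 := bath2 lf (σ := σ) (r := 16 * a2 * b / e) s0.le sM MT (by positivity) f0 f1
  have V0 : 0 ≤ ∫ t in s..M, |lvr 1 lb t - lvr 1 lh t| :=
    intervalIntegral.integral_nonneg sM fun _ _ => abs_nonneg _
  have w0' := mul_le_mul_of_nonneg_right ha V0
  have w1 := mul_le_mul_of_nonneg_left
    (show ∫ t in s..M, |lvr 1 lb t - lvr 1 lh t| ≤ 4 * y + 2 * (d1 * (w + γ) + γ) by linarith) h1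
  have w2 := mul_le_mul_of_nonneg_left
    (show ∫ t in s..M, |lvr 1 lb t - lvr 1 lh t| ≤ 2 * (16 * a2 * b / e) +
      (∫ t in s..M, |t - σ| * ff lb lh σ t) / (16 * a2 * b / e) + (d1 * (w + γ) + γ) by linarith) h2.le
  have w3 := y3 y0 hN hθ h3
  have r3 : ∀ W : ℝ, a2 * (2 * (16 * a2 * b / e) + W / (16 * a2 * b / e) + (d1 * (w + γ) + γ)) =
      32 * a2 ^ 2 * b / e + e / b * W / 16 + a2 * (d1 * (w + γ) + γ) := fun W => by field_simp; ring
  rw [r3] at w2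
  rw [y3'] at w3
  unfold Er
  linarith

end Md3

/-- **the plateau zone as a continuation** -/
theorem contB {c P g lam N0 κ u1 : ℝ} {hb : ℝ → ℝ}
    (h : PlZ lb lh T b c σ' σ γ M P c0 η g lam N0 e e1 κ u1 hb)
    {A A0 C θ E N U Lt βs : ℝ} (hU : ∀ s, U ≤ s → lvr 1 lb s = 1)
    (L0 : 0 ≤ Lt) (hL' : U - max M σ ≤ Lt) (hC : 0 ≤ C) (hL : Spl27.GLip T C) (hA : 0 ≤ A)
    (hAM : A ≤ M) (β0 : 0 ≤ βs) (hA0 : 0 ≤ A0) (hA0M : A0 ≤ M)
    (hE : (∫ t in A0..T, Sc48.Jf lh lb T t ^ 2) + (∫ t in (0:ℝ)..A0, |Sc48.Jf lh lb T t|) ^ 2 ≤ E)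
    (hq : ∀ r, σ ≤ r → r < T → Gd lh r ≤ -c)
    (n : PNY T C b c θ (η + βs + (lam * e * γ + (g + e1) * (γ + u1 * Lt)) / b) g e κ
      γ (u1 * Lt) N0 τ0 N) :
    Cont T (fun t => lvr 1 lb t - lvr 1 lh t) (fun t => Gam lb t - Gam lh t) c0 βs A M
      (8 * θ * E + 10 * N) (QZ lb b c σ' σ M P e κ N) := by
  intro H r1 r2 ω β ξ R hc hβ
  subst hβ
  obtain ⟨H', r1', r2', ω', β', ξ', Z, a1, a2, a5, a6, a7, a8, a9⟩ :=
    h.resY hU L0 hL' hC hL R hA hAM hc β0 hA0 hA0M hE hq n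
  exact ⟨Z, a7, ⟨a7, a9⟩, H', r1', r2', ω', β', ξ', a1, a2, a5.le, by linarith, a6⟩

end Crest.Agent.T156.Pr.Lag8

end
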