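import Crest.Agent.T156.SzD_9
import Crest.Agent.T156.ClReg_29

/-!
# Row 156, block (L): the good nodes of the sloped part (helper89)
-/

set_option autoImplicit false

noncomputable section

namespace Crest.Agent.T156.Alt.G89

open Real Finset
open Crest.Agent.T156.Alt.Mp9 Crest.Agent.T156.Alt.Sz9

/-- the level of the node `i` -/
def tl (M : Md) (l0 : ℝ) (i : ℕ) : ℝ := max (M.s i) l0
/-- crude ratio at the node `i` -/
def cq (M : Md) (l0 : ℝ) (cf : ℝ → ℝ) (i : ℕ) : ℝ := cf (tl M l0 i) / tl M l0 i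
/-- the clock of the good nodes -/
def ps (S : Sc) (M : Md) (l0 : ℝ) (cf : ℝ → ℝ) (k : ℕ) : ℝ := ∑ i ∈ range k, S.v * cq M l0 cf i
/-- **good nodes**: slope `L` against the clock on the standard block cut at `V` -/
def Gn (S : Sc) (M : Md) (m : ℕ) (a l0 : ℝ) (cf : ℝ → ℝ) (L : ℝ) (V j : ℕ) : Prop :=
  Sun9.Good (ps S M l0 cf) (M.rb m a) L (j - j / 3) (min (j + j / 3) V) j

/-- the context -/
structure Cx (E : ℝ) (S : Sc) (M : Md) (m : ℕ) (a l0 : ℝ) (cf : ℝ → ℝ) : Prop where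
  cl : Cl S M
  m0 : 0 < m
  cf : Cf E S M m a l0 cf
  CE : S.C ≤ E

variable {E : ℝ} {S : Sc} {M : Md} {m : ℕ} {a l0 L : ℝ} {cf : ℝ → ℝ} {V : ℕ}

theorem ps_step (k : ℕ) : ps S M l0 cf (k + 1) - ps S M l0 cf k = S.v * cq M l0 cf k := by
  unfold ps; rw [sum_range_succ]; ring

theorem l0_le (i : ℕ) : l0 ≤ tl M l0 i := le_max_right _ _

theorem tl_eq {i : ℕ} (h : l0 ≤ M.s i) : tl M l0 i = M.s i := max_eq_left h

namespace Cx

variable (X : Cx E S M m a l0 cf)
include X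

theorem v_le : S.v ≤ l0 := by
  have h := X.cl
  have a1 := (h.s_bds (k := S.jl) h.jl_lt.le).1
  have a2 : (1 : ℝ) ≤ S.jl := by exact_mod_cast h.i0.trans h.i1
  have c := h.C0
  have v := h.v0
  have a3 : S.v / S.C ≤ M.s S.jl := le_trans (le_mul_of_one_le_left (by positivity) a2) a1
  rw [div_le_iff₀ c] at a3
  nlinarith [X.cf.l0s, mul_le_mul_of_nonneg_right X.CE (h.s_nn S.jl)]

theorem l0_pos : 0 < l0 := X.cl.v0.trans_le X.v_le

theorem tl_pos (i : ℕ) : 0 < tl M l0 i := X.l0_pos.trans_le (l0_le i)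

theorem tl_mono {i j : ℕ} (h : i ≤ j) : tl M l0 i ≤ tl M l0 j := max_le_max (X.cl.sm h) le_rfl

theorem cq_ge (i : ℕ) : 1 ≤ cq M l0 cf i := by
  rw [cq, le_div_iff₀ (X.tl_pos i), one_mul]; exact X.cf.ge _ (l0_le i)

theorem cq_mul (i : ℕ) : cq M l0 cf i * tl M l0 i = cf (tl M l0 i) :=
  div_mul_cancel₀ _ (X.tl_pos i).ne'

theorem tl_cmp {i j : ℕ} (h : j ≤ 2 * i) (hi : i ≤ S.J) (hj : j ≤ S.J) :
    tl M l0 j ≤ 2 * S.C ^ 2 * tl M l0 i := by
  have h1 := (X.cl.s_bds hi).1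
  have h2 := (X.cl.s_bds hj).2
  have c := X.cl.C0
  have c1 := X.cl.C1
  have v := X.cl.v0
  have h3 : (j : ℝ) ≤ 2 * i := by exact_mod_cast h
  have p := X.tl_pos i
  have q : 1 ≤ 2 * S.C ^ 2 := by nlinarith
  refine max_le ?_ ((l0_le i).trans (le_mul_of_one_le_left p.le q))
  calc M.s j ≤ 2 * i * (S.C * S.v) := h2.trans (by gcongr)
    _ = 2 * S.C ^ 2 * (i * (S.v / S.C)) := by field_simp
    _ ≤ _ := by gcongr; exact h1.trans (le_max_left _ _)

theorem cq_cmp {i j : ℕ} (h1 : j ≤ 2 * i) (hi : i ≤ S.J) (hj : j ≤ S.J) :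
    cq M l0 cf i ≤ 2 * S.C ^ 2 * cq M l0 cf j := by
  have c1 := X.cl.C1
  have g := X.cq_ge j
  rcases le_total i j with h | h
  · have a1 := X.cf.mono _ _ (l0_le i) (X.tl_mono h)
    have a2 := X.tl_cmp h1 hi hj
    rw [← X.cq_mul i, ← X.cq_mul j] at a1
    refine le_of_mul_le_mul_right (a1.trans ?_) (X.tl_pos i)
    nlinarith [mul_le_mul_of_nonneg_left a2 (show 0 ≤ cq M l0 cf j by linarith)]
  · have a1 : cq M l0 cf i ≤ 2 * cq M l0 cf j := X.cf.dbl _ _ (l0_le j) (X.tl_mono h)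
    nlinarith [mul_le_mul_of_nonneg_right (show 1 ≤ S.C ^ 2 by nlinarith)
      (show 0 ≤ cq M l0 cf j by linarith)]

theorem ps_ge {i j : ℕ} (h : i ≤ j) : ((j : ℝ) - i) * S.v ≤ ps S M l0 cf j - ps S M l0 cf i :=
  tel_ge h fun k _ _ => by
    rw [ps_step]; exact le_mul_of_one_le_right X.cl.v0.le (X.cq_ge k)

theorem ps_le {i j y : ℕ} (h : i ≤ j) (h1 : y ≤ 2 * i) (hj : j ≤ S.J) (hy : y ≤ S.J) :
    ps S M l0 cf j - ps S M l0 cf i ≤ ((j : ℝ) - i) * (S.v * (2 * S.C ^ 2 * cq M l0 cf y)) :=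
  tel_le h fun k a1 a2 => by
    rw [ps_step]
    exact mul_le_mul_of_nonneg_left (X.cq_cmp (by omega) (by omega) hy) X.cl.v0.le

theorem ps_mono : Monotone (ps S M l0 cf) := fun i j h => by
  have := X.ps_ge h
  have : 0 ≤ ((j : ℝ) - i) * S.v :=
    mul_nonneg (sub_nonneg.2 (by exact_mod_cast h)) X.cl.v0.le
  linarith

theorem rbm : Monotone (M.rb m a) := rb_mono X.m0

theorem mono_L {L' : ℝ} {j : ℕ} (g : Gn S M m a l0 cf L V j) (h : L ≤ L') :
    Gn S M m a l0 cf L' V j :=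
  ⟨fun k a1 a2 => (g.1 k a1 a2).trans
      (mul_le_mul_of_nonneg_right h (sub_nonneg.2 (X.ps_mono a1))),
    fun k a1 a2 => (g.2 k a1 a2).trans
      (mul_le_mul_of_nonneg_right h (sub_nonneg.2 (X.ps_mono a2)))⟩

omit X in
theorem mono_V {V' j : ℕ} (g : Gn S M m a l0 cf L V j) (h : V' ≤ V) : Gn S M m a l0 cf L V' j :=
  Sun9.Good.mono g le_rfl (min_le_min le_rfl h)

/-- one-sided cones, measured with the ratio at a node `y` of a comparable level -/
theorem cone_up {j y i : ℕ} {κ : ℝ} (g : Gn S M m a l0 cf L V j) (L0 : 0 ≤ L) (hV : V ≤ S.J)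
    (hy : y ≤ 2 * j) (yJ : y ≤ S.J) (hκ : 2 * S.C ^ 2 * L * cq M l0 cf y ≤ κ) (h1 : j ≤ i)
    (h2 : i ≤ min (j + j / 3) V) : M.rb m a i - M.rb m a j ≤ κ * S.v * ((i : ℝ) - j) := by
  have a1 := mul_le_mul_of_nonneg_left (X.ps_le h1 hy (by omega) yJ) L0
  have a2 := mul_le_mul_of_nonneg_right hκ (mul_nonneg X.cl.v0.le
    (show (0 : ℝ) ≤ (i : ℝ) - j from sub_nonneg.2 (by exact_mod_cast h1)))
  linarith [g.1 i h1 h2]

theorem cone_dn {j y i : ℕ} {κ : ℝ} (g : Gn S M m a l0 cf L V j) (L0 : 0 ≤ L) (hj : j ≤ S.J)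
    (hy : y ≤ 2 * i) (yJ : y ≤ S.J) (hκ : 2 * S.C ^ 2 * L * cq M l0 cf y ≤ κ) (h1 : j - j / 3 ≤ i)
    (h2 : i ≤ j) : M.rb m a j - M.rb m a i ≤ κ * S.v * ((j : ℝ) - i) := by
  have a1 := mul_le_mul_of_nonneg_left (X.ps_le h2 hy hj yJ) L0
  have a2 := mul_le_mul_of_nonneg_right hκ (mul_nonneg X.cl.v0.le
    (show (0 : ℝ) ≤ (j : ℝ) - i from sub_nonneg.2 (by exact_mod_cast h2)))
  linarith [g.2 i h1 h2]

/-- **a good node is good against the labels** (input of `SzN`) -/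
theorem gd {j : ℕ} {κ : ℝ} (g : Gn S M m a l0 cf L V j) (L0 : 0 ≤ L) (hV : V < S.J) (hj : j ≤ V)
    (h0 : S.j0 ≤ j - j / 3) (hκ : 2 * S.C ^ 3 * L * cq M l0 cf j ≤ κ) :
    Gd M m a κ (j - j / 3) (min (j + j / 3) V) j := by
  have c := X.cl.C0
  have g1 := X.cq_ge j
  have k0 : 0 ≤ κ := le_trans (by positivity) hκ
  have hκ' : 2 * S.C ^ 2 * L * cq M l0 cf j ≤ κ / S.C := by
    rw [le_div_iff₀ c]; linarith
  have e : ∀ x : ℝ, κ / S.C * S.v * x = κ * (x * (S.v / S.C)) := fun x => by ring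
  refine ⟨fun k a1 a2 => ?_, fun k a1 a2 => ?_⟩
  · refine (X.cone_up g L0 hV.le (by omega) (by omega) hκ' a1 a2).trans ?_
    rw [e]
    exact mul_le_mul_of_nonneg_left (X.cl.z_tel (by omega) a1 (by omega)).1 k0
  · refine (X.cone_dn g L0 (by omega) (by omega) (by omega) hκ' a1 a2).trans ?_
    rw [e]
    exact mul_le_mul_of_nonneg_left (X.cl.z_tel (by omega) a2 (by omega)).1 k0

/-- **the envelope between two good nodes** (`q = V` is allowed without goodness; `p = y = q`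
gives `0`) -/
theorem ev_gap {p y q : ℕ} {κ : ℝ} (gp : Gn S M m a l0 cf L V p)
    (gq : Gn S M m a l0 cf L V q ∨ q = V) (L0 : 0 ≤ L) (hV : V ≤ S.J) (h1 : p ≤ y) (h2 : y ≤ q)
    (h3 : q ≤ V) (hκ : 2 * S.C ^ 2 * L * cq M l0 cf y ≤ κ) :
    Env96.ev (M.rb m a) (κ * S.v) (y - y / 3) (min (y + y / 3) V) y ≤
      M.rb m a q - M.rb m a p := by
  have mo := X.rbm
  have c := X.cl.C0
  have g1 := X.cq_ge y
  have k0 : 0 ≤ κ * S.v := mul_nonneg (le_trans (by positivity) hκ) X.cl.v0.le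
  have b1 := mo h1
  have b2 := mo h2
  refine Env96.ev_le (by linarith) fun i i1 i2 => ?_
  rcases le_total i y with c1 | c1
  · have b3 := mo c1
    have r1 : (i : ℝ) ≤ y := by exact_mod_cast c1
    rw [abs_of_nonpos (by linarith), abs_of_nonpos (by linarith)]
    rcases le_total p i with c2 | c2
    · have := mo c2
      nlinarith
    · have a1 := X.cone_dn gp L0 (by omega) (y := y) (i := i) (by omega) (by omega) hκ
        (by omega) c2
      have r2 : (p : ℝ) ≤ y := by exact_mod_cast h1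
      nlinarith
  · have b3 := mo c1
    have r1 : (y : ℝ) ≤ i := by exact_mod_cast c1
    rw [abs_of_nonneg (by linarith), abs_of_nonneg (by linarith)]
    rcases le_total i q with c2 | c2
    · have := mo c2
      nlinarith
    · rcases gq with gq | rfl
      · have a1 := X.cone_up gq L0 hV (y := y) (i := i) (by omega) (by omega) hκ c2 (by omega)
        have r2 : (y : ℝ) ≤ q := by exact_mod_cast h2
        nlinarith
      · have e : i = q := by omega
        subst e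
        nlinarith

/-- **number of nodes in a gap** -/
theorem gap_card {p q : ℕ} (gp : Gn S M m a l0 cf L V p) (gq : Gn S M m a l0 cf L V q ∨ q = V)
    (L0 : 0 ≤ L) (hpq : p < q) (hbad : ∀ y, p < y → y < q → ¬ Gn S M m a l0 cf L V y) :
    L * S.v * ((q : ℝ) - p - 1) ≤ 2 * (M.rb m a q - M.rb m a p) := by
  classical
  have h := Sun9.card_bad (x := ps S M l0 cf) X.rbm L0 hpq.le (μ := S.v) fun i _ _ => by
    rw [ps_step]; exact le_mul_of_one_le_right X.cl.v0.le (X.cq_ge i)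
  refine le_trans (mul_le_mul_of_nonneg_left ?_ (mul_nonneg L0 X.cl.v0.le)) h
  have hs : Ioo p q ⊆ (Icc p q).filter fun i => ¬ Sun9.Good (ps S M l0 cf) (M.rb m a) L p q i := by
    intro y hy
    rw [mem_Ioo] at hy
    refine mem_filter.2 ⟨mem_Icc.2 ⟨hy.1.le, hy.2.le⟩, fun g => hbad y hy.1 hy.2 ⟨?_, ?_⟩⟩
    · intro k k1 k2
      rcases le_total k q with c | c
      · exact g.1 k k1 c
      · rcases gq with gq | rfl
        · linarith [g.1 q hy.2.le le_rfl, gq.1 k c (by omega)]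
        · exact g.1 k k1 (by omega)
    · intro k k1 k2
      rcases le_total p k with c | c
      · exact g.2 k c k2
      · linarith [g.2 p le_rfl hy.1.le, gp.2 k (by omega) c]
  have hc := card_le_card hs
  rw [Nat.card_Ioo] at hc
  have e : (q : ℝ) - p - 1 = ((q - p - 1 : ℕ) : ℝ) := by
    rw [Nat.cast_sub (by omega), Nat.cast_sub hpq.le]; simp
  rw [e]
  exact_mod_cast hc

/-- **label length of a gap** -/
theorem gap_lab {T : ℝ} (A : At S M m a T) {p q : ℕ} (gp : Gn S M m a l0 cf L V p)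
    (gq : Gn S M m a l0 cf L V q ∨ q = V) (L0 : 0 < L) (h0 : S.j0 ≤ p) (hpq : p < q)
    (hq : q < S.J) (hbad : ∀ y, p < y → y < q → ¬ Gn S M m a l0 cf L V y) :
    M.z (q - 1) - M.z p ≤ 4 * S.C / L * (sb M m a (q + 1) - sb M m a (p + 1)) ∧
      M.z q ≤ M.z p + (S.C * S.v + 4 * S.C / L * (sb M m a (q + 1) - sb M m a (p + 1))) := by
  have c := X.cl.C0
  have a1 := X.gap_card gp gq L0.le hpq hbad
  have a2 := A.sb_rb hpq.le (k := q) (hq.trans X.cl.J_lt).le
  have a3 := X.cl.leg.Hm hpq.le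
  have a4 := (X.cl.z_tel h0 (j := q - 1) (by omega) (by omega)).2
  have a5 := (X.cl.z_tel h0 hpq.le hq).2
  rw [Nat.cast_sub (by omega), Nat.cast_one] at a4
  have a6 : ((q : ℝ) - p - 1) * (S.C * S.v) ≤
      4 * S.C / L * (sb M m a (q + 1) - sb M m a (p + 1)) := by
    rw [div_mul_eq_mul_div, le_div_iff₀ L0]
    nlinarith [mul_le_mul_of_nonneg_left a1 c.le, mul_le_mul_of_nonneg_left a2 c.le,
      mul_le_mul_of_nonneg_left a3 c.le]
  constructor <;> linarith

theorem rb_le {k : ℕ} (h0 : S.j0 ≤ k) (hk : k < S.J) :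
    M.rb m a k ≤ 6 * S.C * (cq M l0 cf k * tl M l0 k) := by
  have c1 := X.cl.C1
  have p := X.tl_pos k
  have a1 := (X.cl.z_s h0 hk).2
  have a2 : M.s k ≤ tl M l0 k := le_max_left _ _
  have a3 := X.v_le.trans (l0_le (M := M) k)
  have a4 : max (M.z k) l0 ≤ 3 * S.C * tl M l0 k :=
    max_le (by nlinarith) ((l0_le k).trans (by nlinarith))
  have a5 := X.cf.mono _ _ (le_max_right _ _) a4
  have a6 := X.cf.dbl _ (3 * S.C * tl M l0 k) (l0_le (M := M) k) (by nlinarith)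
  rw [div_le_iff₀ (by positivity)] at a6
  have a7 := X.cf.cru k (by have := X.cl.i3; omega)
  unfold cq
  linarith

/-- **good nodes exist** in index windows of relative size `96 C⁷ / L` -/
theorem exists_cru {p q : ℕ} (L0 : 0 ≤ L) (h0 : S.j0 ≤ p) (hpq : p ≤ q) (h1 : 2 * q ≤ 3 * p)
    (hq : q ≤ V) (hV : V < S.J) (big : 96 * S.C ^ 7 * tl M l0 p < L * S.v * ((q : ℝ) - p + 1)) :
    ∃ i, p ≤ i ∧ i ≤ q ∧ Gn S M m a l0 cf L V i := by
  have c := X.cl.C0
  have v := X.cl.v0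
  have g := X.cq_ge p
  have t := X.tl_pos p
  obtain ⟨i, i1, i2, gi⟩ := Sun9.exists_good (x := ps S M l0 cf) X.rbm L0 (u := p - p / 3)
    (v := min (q + q / 3) V) (by omega) hpq (by omega)
    (μ := S.v * (cq M l0 cf p / (2 * S.C ^ 2))) (by positivity) (fun i a1 a2 => by
      rw [ps_step]
      refine mul_le_mul_of_nonneg_left ?_ v.le
      rw [div_le_iff₀ (by positivity), mul_comm]
      exact X.cq_cmp (by omega) (by omega) (by omega)) (by
      have a1 := X.rb_le (k := min (q + q / 3) V) (by omega) (by omega)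
      have a2 := X.cq_cmp (i := min (q + q / 3) V) (j := p) (by omega) (by omega) (by omega)
      have a3 := X.tl_cmp (i := p) (j := min (q + q / 3) V) (by omega) (by omega) (by omega)
      have a4 := mul_le_mul a2 a3 (X.tl_pos _).le (by positivity)
      have a5 := (rb_mem (M := M) (a := a) X.m0 (p - p / 3)).1
      have a6 := mul_le_mul_of_nonneg_left a4 (show 0 ≤ 6 * S.C by positivity)
      have a7 := mul_lt_mul_of_pos_left big (show 0 < cq M l0 cf p / (2 * S.C ^ 2) by positivity)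
      have e : cq M l0 cf p / (2 * S.C ^ 2) * (96 * S.C ^ 7 * tl M l0 p) =
          2 * (6 * S.C * (2 * S.C ^ 2 * cq M l0 cf p * (2 * S.C ^ 2 * tl M l0 p))) := by
        field_simp; ring
      linarith)
  exact ⟨i, i1, i2, gi.mono (by omega) (by omega)⟩

/-- **good nodes exist** in index windows of size `8 D / (L v)` where `|del| ≤ D` -/
theorem exists_sup {p q : ℕ} {D : ℝ} (hθ : S.C * S.θ ≤ 1 / 2) (hL : 12 * S.C ≤ L) (hpq : p ≤ q)
    (hq : q ≤ V) (hV : V ≤ S.J)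
    (hD : ∀ k, p - p / 3 ≤ k → k ≤ min (q + q / 3) V → |M.del m a k| ≤ D)
    (big : 8 * D < L * S.v * ((q : ℝ) - p + 1)) : ∃ i, p ≤ i ∧ i ≤ q ∧ Gn S M m a l0 cf L V i := by
  have c := X.cl.C0
  have v := X.cl.v0
  have L0 : 0 ≤ L := by linarith
  have J1 := X.cl.i3
  have key : ∀ i k, p - p / 3 ≤ i → i ≤ k → k ≤ min (q + q / 3) V →
      M.rb m a k - M.rb m a i ≤ ((k : ℝ) - i) * (S.C * S.v) + 2 * D := fun i k a1 a2 a3 => by
    have b1 := (X.cl.q_tel hθ a2 (by omega)).2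
    have b2 := (X.cl.s_tel a2 (by omega)).2
    have b3 := abs_le.1 (hD i a1 (by omega))
    have b4 := abs_le.1 (hD k (by omega) a3)
    unfold Md.del at b3 b4
    linarith [b3.1, b4.2]
  have eN : ((q - p + 1 : ℕ) : ℝ) = (q : ℝ) - p + 1 := by
    rw [Nat.cast_add, Nat.cast_sub hpq, Nat.cast_one]
  rw [← eN] at big
  set N := q - p + 1 with hN
  have Lv := mul_le_mul_of_nonneg_right hL v.le
  have far : ∀ i k, p - p / 3 ≤ i → i + N ≤ k → k ≤ min (q + q / 3) V →
      M.rb m a k - M.rb m a i ≤ L * (ps S M l0 cf k - ps S M l0 cf i) := fun i k a1 a2 a3 => by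
    have b1 := key i k a1 (by omega) a3
    have b2 := mul_le_mul_of_nonneg_left (X.ps_ge (show i ≤ k by omega)) L0
    have b3 : (N : ℝ) ≤ (k : ℝ) - i := by
      have : ((i + N : ℕ) : ℝ) ≤ k := by exact_mod_cast a2
      push_cast at this
      linarith
    have N0 : (0 : ℝ) ≤ N := Nat.cast_nonneg _
    have b4 := mul_le_mul_of_nonneg_left b3 (mul_nonneg L0 v.le)
    have b5 := mul_le_mul_of_nonneg_left Lv (show 0 ≤ (k : ℝ) - i by linarith)
    have b6 := mul_nonneg (show 0 ≤ (k : ℝ) - i by linarith) (mul_nonneg c.le v.le)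
    linarith
  obtain ⟨i, i1, i2, gi⟩ := Sun9.exists_good (x := ps S M l0 cf) X.rbm L0
    (u := max (p - N) (p - p / 3)) (v := min (q + N) (min (q + q / 3) V)) (p := p) (q := q)
    (by omega) hpq (by omega) (μ := S.v) v.le (fun i _ _ => by
      rw [ps_step]; exact le_mul_of_one_le_right v.le (X.cq_ge i)) (by
      have a1 := key (max (p - N) (p - p / 3)) (min (q + N) (min (q + q / 3) V)) (by omega)
        (by omega) (by omega)
      have a2 : ((min (q + N) (min (q + q / 3) V) : ℕ) : ℝ) ≤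
          ((max (p - N) (p - p / 3) : ℕ) : ℝ) + 3 * N := by
        exact_mod_cast (show min (q + N) (min (q + q / 3) V) ≤ max (p - N) (p - p / 3) + 3 * N by
          omega)
      have N0 : (0 : ℝ) ≤ N := Nat.cast_nonneg _
      have a3 := mul_le_mul_of_nonneg_right (sub_le_iff_le_add'.2 a2) (mul_nonneg c.le v.le)
      have a4 := mul_le_mul_of_nonneg_right Lv N0
      rw [← eN]
      linarith)
  refine ⟨i, i1, i2, fun k a1 a2 => ?_, fun k a1 a2 => ?_⟩
  · by_cases h : k ≤ q + N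
    · exact gi.1 k a1 (by omega)
    · exact far i k (by omega) (by omega) (by omega)
  · by_cases h : p - N ≤ k
    · exact gi.2 k (by omega) a2
    · exact far k i (by omega) (by omega) (by omega)

end Cx

end Crest.Agent.T156.Alt.G89

end
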