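import Crest.Agent.T156.SzT_33
import Crest.Agent.T156.SzE_9
import Crest.Agent.T156.LDef_69

/-!
# Row 156, block (L): the errors of (E1) at good nodes, statement (helper22)
-/

set_option autoImplicit false

noncomputable section

namespace Crest.Agent.T156.Alt.Nd22

open Real Finset
open Crest.Agent.T156.Alt.E61 Crest.Agent.T156.Alt.Mp9 Crest.Agent.T156.Alt.Sz9
open Crest.Agent.T156.Alt.L69

/-- crude location and the sums over the top window and the plateau, loss `L` -/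
structure NI (L : ℝ) (S : Sc) (M : Md) (m : ℕ) (a l0 V X2 G0 W3 : ℝ) : Prop where
  L1 : 1 ≤ L
  cru : ∀ k ≤ S.Jp, M.rb m a k ≤ L * cl S V (max (M.z k) l0)
  t2 : ∑ k ∈ Tp S M, M.dz m a k * u4 M m a k ^ 2 ≤ L * X2
  t3 : ∑ k ∈ Tp S M, M.dz m a k * u4 M m a k ^ 3 ≤ W3
  pa : ∑ k ∈ Icc S.J S.Jp, M.dz m a k * Cost41.aM M m a k ≤ L * G0 ^ 2

/-- size of the centred overlap at a good node of slope `κ` -/
def U (S : Sc) (κ t : ℝ) : ℝ := κ ^ ((2 : ℝ) / 3) * w1 S t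

/-- the node error -/
def ee (S : Sc) (X2 X3 G0 W3 κ t y : ℝ) : ℝ :=
  U S κ t ^ 3 + (√(κ * gg S t) + G0 + X2) * (U S κ t + √X2) + X3 + W3 + y + 1 / S.n

/-- a good node of slope `κ`; `y` is `η (s j)` below the top window and free there -/
structure Go (L : ℝ) (S : Sc) (M : Md) (m : ℕ) (a l0 l V Lg : ℝ) (η : ℝ → ℝ) (j : ℕ) (κ y : ℝ) :
    Prop where
  lo : l ≤ M.s j
  lo2 : 2 * l0 ≤ M.s j
  hi : j + 1 < S.J
  k1 : L * cl S V (M.s j) ≤ κ * M.s j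
  k2 : Lg ≤ κ
  k3 : κ ≤ S.n
  top : j + j / 3 < S.J ∨ 2 * log S.n * U S κ (M.s j) ≤ κ * (((S.J : ℝ) - j) * S.v)
  gd : Gd M m a (κ / S.C) (j - j / 3) (min (j + j / 3) (S.J - 1)) j
  y0 : 0 ≤ y
  y1 : j + j / 3 < S.J → η (M.s j) ≤ y

/-- **output** -/
structure NO (Λ L : ℝ) (S : Sc) (M : Md) (m : ℕ) (a l0 l V Lg X2 X3 G0 W3 : ℝ) (η : ℝ → ℝ) :
    Prop where
  n2 : Nu M m a (u4 M m a) 2 ≤ Λ * L ^ 3 * X2
  cru : ∀ k < M.N, u4 M m a k ≤ Λ * L * cl S V (max (M.z k) l0)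
  pt : ∀ k κ e, l0 ≤ M.s k → k < S.J → L * cl S V (M.s k) ≤ κ * M.s k → κ ≤ S.n →
    Env96.ev (M.rb m a) (κ * S.v) (k - k / 3) (min (k + k / 3) (S.J - 1)) k ≤ e →
    (k + k / 3 < S.J ∨ 2 * log S.n * (U S κ (M.s k) + e) ≤ κ * (((S.J : ℝ) - k) * S.v)) →
    u4 M m a k ≤ Λ * (U S κ (M.s k) + e)
  nd : ∀ j κ y, Go L S M m a l0 l V Lg η j κ y → u4 M m a j ≤ Λ * U S κ (M.s j) ∧
    ∃ G, Tn S M m a (u4 M m a) (S.C * S.v) j G ∧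
      en M m a (u4 M m a) (S.C * S.v) (n3 true M m a (u4 M m a) (S.C * S.v) j) G j ≤
        Λ * L ^ 5 * ee S X2 X3 G0 W3 κ (M.s j) y
  ab : ∀ T, At S M m a T → ∀ i κ y, Go L S M m a l0 l V Lg η i κ y →
    |res M S m a T i| ≤ Λ * L ^ 5 * ee S X2 X3 G0 W3 κ (M.s i) y +
      Λ * U S κ (M.s i) ^ 2 * |L0.Gd (lb M S m a T) (sb M m a (i + 1))| +
      Λ * (pb M m a (S.C * S.v) i * (L ^ 3 * X2) + ∑ k ∈ range i, M.dz m a k * u4 M m a k ^ 2)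
  df : ∀ T, At S M m a T → ∀ i κ y k κ' y', Go L S M m a l0 l V Lg η i κ y →
    Go L S M m a l0 l V Lg η k κ' y' → i < k →
    |res M S m a T k - res M S m a T i| ≤
      Λ * L ^ 5 * ee S X2 X3 G0 W3 κ (M.s i) y +
        Λ * U S κ (M.s i) ^ 2 * |L0.Gd (lb M S m a T) (sb M m a (i + 1))| +
      (Λ * L ^ 5 * ee S X2 X3 G0 W3 κ' (M.s k) y' +
        Λ * U S κ' (M.s k) ^ 2 * |L0.Gd (lb M S m a T) (sb M m a (k + 1))|) +
      (Λ * L ^ 3 * X2 * (sb M m a (k + 1) - sb M m a (i + 1)) +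
        Λ * ∑ y ∈ Ioo i k, M.dz m a y * u4 M m a y ^ 2)
  ng : ∀ j κ y, Go L S M m a l0 l V Lg η j κ y →
    ∃ G, Tn S M m a (u4 M m a) (S.C * S.v) j G ∧
      en M m a (u4 M m a) (S.C * S.v) (n3 true M m a (u4 M m a) (S.C * S.v) j) G j ≤
        Λ * L ^ 5 * ee S X2 X3 G0 W3 κ (M.s j) y ∧ G ≤ Λ * L ^ 2 * (√(κ * gg S (M.s j)) + G0)

/-- **(NodeS)** -/
def NodeS : Prop := CL fun E Λ S M m a => ∀ G1 l0 l V X Lg X2 X3 G0 η L W3, CeiG S M G1 →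
  LN E S M l0 l V X Lg X2 X3 G0 η → Rev S M → Phi M S m a ≤ X → L ^ 6 ≤ E →
  NI L S M m a l0 V X2 G0 W3 → NO Λ L S M m a l0 l V Lg X2 X3 G0 W3 η

end Crest.Agent.T156.Alt.Nd22

end
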