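import Crest.Agent.T156.GapW_89
import Crest.Agent.T156.Gn_89
import Crest.Agent.T156.NdD_22

/-!
# Row 156, block (L): the net of good nodes on the class, statement (helper89)
-/

set_option autoImplicit false

noncomputable section

namespace Crest.Agent.T156.Alt.G89

open Real Finset
open Crest.Agent.T156.Alt.E61 Crest.Agent.T156.Alt.Mp9 Crest.Agent.T156.Alt.Sz9
open Crest.Agent.T156.Alt.L69 (LN cr cl mf uw Phi)
open Crest.Agent.T156.Alt.Nd22 (NI NO NodeS)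

/-- size of the centred overlap at a good node; `Lg * Ug ≤ uw` -/
def Ug (S : Sc) (Lg t : ℝ) : ℝ := Nd22.U S (Lg * cr S t) t

/-- the top numbers: `D1` bounds `|Γ''|` of the mean profile on the upper half, `τ1` is the label
margin there -/
structure Tau (E : ℝ) (S : Sc) (M : Md) (m : ℕ) (a T Lg D1 τ1 : ℝ) (η : ℝ → ℝ) : Prop where
  d1 : ∀ k, S.J ≤ 2 * k → k < S.J → gd M S m a T k ≤ D1
  t1 : ∀ k, S.J ≤ 2 * k → k < S.J →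
    η (M.s k) + Ug S Lg (M.s k) ^ 2 * D1 ≤ τ1 * mf S (M.s k) ∧ w1 S (M.s k) ≤ τ1
  t2 : E * τ1 ^ 2 ≤ 1

/-- **the net of good nodes** above the level `lo`, up to the node `V0` -/
structure NG (E Λ : ℝ) (S : Sc) (M : Md) (m : ℕ) (a T lo Lg X2 τ1 : ℝ) (η : ℝ → ℝ)
    (Gn : ℕ → Prop) (V0 : ℕ) : Prop where
  gV : Gn V0
  hV : V0 + 1 < S.J
  big : ∀ j, Gn j → 8 * j ≤ 5 * S.J → j ≤ V0
  top : M.z (S.J - 1) - M.z V0 ≤ Λ * τ1 + Λ / Lg * ds M m a V0 (S.J - 1)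
  e1 : ∀ i k, lo ≤ M.s i → i ≤ k → k ≤ V0 → Gn i → Gn k →
    |res M S m a T k - res M S m a T i| ≤
      Λ * η (M.s i) + Λ * Ug S Lg (M.s i) ^ 2 * gd M S m a T i +
      (Λ * η (M.s k) + Λ * Ug S Lg (M.s k) ^ 2 * gd M S m a T k) +
      (Λ * X2 * ds M m a i k + Λ * ∑ y ∈ Ioo i k, M.dz m a y * u4 M m a y ^ 2)
  ab : ∀ i, lo ≤ M.s i → i ≤ V0 → Gn i → |res M S m a T i| ≤
    Λ * η (M.s i) + Λ * Ug S Lg (M.s i) ^ 2 * gd M S m a T i +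
      Λ * (pb M m a (S.C * S.v) i * X2 + ∑ k ∈ range i, M.dz m a k * u4 M m a k ^ 2)
  /-- sizes in the gaps (`i = y = k`: at a good node) -/
  u4 : ∀ U i k y, Nx Gn U V0 i k → lo ≤ M.s i → i ≤ y → y ≤ k →
    u4 M m a y ≤ Λ * (Ug S Lg (M.s y) + ds M m a i k)
  /-- label length of a gap (`k = J - 1` is allowed without goodness) -/
  lab : ∀ i k, lo ≤ M.s i → i < k → k < S.J → Gn i → Gn k ∨ k = S.J - 1 →
    (∀ y, i < y → y < k → ¬ Gn y) → M.z (k - 1) - M.z i ≤ Λ / Lg * ds M m a i k ∧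
      M.z k ≤ M.z i + (S.C * S.v + Λ / Lg * ds M m a i k)
  ex : ∀ p q, lo ≤ M.s p → p ≤ q → q < S.J → 2 * q ≤ 3 * p →
    Λ * M.s p ≤ Lg * S.v * ((q : ℝ) - p + 1) → ∃ i, p ≤ i ∧ i ≤ q ∧ Gn i
  exs : ∀ p q D0, p ≤ q → q < S.J → 0 < D0 →
    (∀ k, p - p / 3 ≤ k → k ≤ min (q + q / 3) (S.J - 1) → |M.del m a k| ≤ D0) →
    Λ * D0 ≤ Lg * S.v * ((q : ℝ) - p + 1) → ∃ i, p ≤ i ∧ i ≤ q ∧ Gn i
  /-- **short gaps** -/
  sh : ∀ U i k, Nx Gn U V0 i k → 9 / 8 * lo ≤ M.s i → E * ds M m a i k ^ 6 ≤ mf S (M.s i) ^ 3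

/-- **(NdS)** -/
def NdS : Prop := CL fun E Λ S M m a => ∀ G1 l0 l V X Lg X2 X3 G0 η L W3 T D1 τ1, CeiG S M G1 →
  LN E S M l0 l V X Lg X2 X3 G0 η → Rev S M → Phi M S m a ≤ X → V ≤ cr S l * l → L ^ 100 ≤ E →
  NI L S M m a l0 V X2 G0 W3 → W3 ≤ L * η S.C → At S M m a T → T ≤ 2 * S.C →
  Tau E S M m a T Lg D1 τ1 η →
  ∃ Gn V0, NG E (Λ * L ^ 16) S M m a T (max l (2 * l0)) Lg X2 τ1 η Gn V0

end Crest.Agent.T156.Alt.G89

end
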