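import Crest.Agent.T156.TxI_8
import Crest.Agent.T156.LInt_31

/-!
# Row 156, text (L) (helper8): zone I of (TxS) on the class
-/

set_option autoImplicit false

noncomputable section

namespace Crest.Agent.T156.Alt.Mp9

open MeasureTheory Set Real
open Crest.Agent.R164.GC Crest.Agent.R339.B Crest.Agent.R339.Var Crest.Agent.T157.Pf
open Crest.Agent.T156.Cut8 Crest.Agent.T156.Gap27 Crest.Agent.T156.Zb9
open Crest.Agent.T156.Alt.C74 (JJ io)
open Crest.Agent.T156.Alt.G89 (ds)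

/-- **zone I**: a net `Gc` on `[v, v2]`, the zone is `[sb (v + 1), y]` -/
structure ZI (S : Sc) (M : Md) (m : ℕ) (a T : ℝ) (Gc : ℕ → Prop) (v v2 : ℕ)
    (y Dq ec la al w th κ0 tl : ℝ) : Prop where
  A : At S M m a T
  up : ∀ k, S.jl + 1 ≤ k → k < S.J → M.H (k + 1) - M.H k ≤ S.C * S.F * S.ms (M.s k) * S.v
  jv : S.jl < v
  vv : v ≤ v2
  vJ : v2 < S.J
  gv : Gc v
  g2 : Gc v2
  s1 : M.s (S.jl + 1) ≤ sb M m a (v + 1)
  me : 8 * S.C ^ 2 * S.v ≤ sb M m a (v + 1)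
  tl0 : 0 < tl
  tl1 : tl ≤ sb M m a (v + 1)
  sy : sb M m a (v + 1) ≤ y
  y1 : y ≤ sb M m a (v2 + 1)
  y2 : y ≤ M.s S.J
  D0 : 0 ≤ Dq
  D1 : sb M m a (v2 + 1) - y ≤ Dq
  nn : 0 ≤ ec ∧ 0 ≤ la ∧ 0 ≤ al ∧ 0 ≤ w ∧ 0 ≤ th ∧ 0 ≤ κ0
  th1 : 4 * S.C * th ≤ 1
  e1 : ∀ k, v ≤ k → k ≤ v2 → Gc k →
    |res M S m a T k - res M S m a T v| ≤ ec + la * ds M m a v k + al * (M.z k - M.z v)
  sh : ∀ i k, Nx Gc v v2 i k → ds M m a i k ≤ w
  lab : ∀ i k, Nx Gc v v2 i k → M.z k ≤ M.z i + (S.C * S.v + th * ds M m a i k)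
  wid : ∀ k, v ≤ k → k ≤ v2 → sb M m a (k + 1) < M.s S.J →
    M.z k ≤ M.z v + κ0 + th * (y - sb M m a (v + 1) + Dq)

variable {S : Sc} {M : Md} {m : ℕ} {a T : ℝ} {Gc : ℕ → Prop} {v v2 : ℕ}
  {y Dq ec la al w th κ0 tl : ℝ}

/-- the ceiling of the marks -/
theorem At.h_ce8 (A : At S M m a T)
    (E : ∀ k, S.jl + 1 ≤ k → k < S.J → M.H (k + 1) - M.H k ≤ S.C * S.F * S.ms (M.s k) * S.v)
    {i k : ℕ} (h1 : S.jl < i) (h2 : i ≤ k) (hk : k < S.J) :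
    M.H k - M.H i ≤ S.C ^ 2 * S.F * S.θ * (M.z k - M.z i) := by
  have C0 := A.c_pos
  have F0 : 0 < S.F := by linarith [A.cl.F1]
  have v0 := v_pos A.cl
  have := tele (f := M.H) (g := fun j => S.C ^ 2 * S.F * S.θ * M.z j) (lo := i) (hi := k)
    (fun j a b => by
      obtain ⟨p1, -⟩ := A.cl.zs j (A.cl.i1.trans (h1.le.trans a)) (by omega)
      have m1 := (A.ms_pos (s_nn A.cl j)).le
      have m2 := A.cl.ms1 (M.s j)
      calc _ ≤ S.C * S.F * S.ms (M.s j) * S.v := E j (by omega) (by omega)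
        _ = S.C ^ 2 * S.F * S.ms (M.s j) * (S.v / S.C) := by field_simp
        _ ≤ S.C ^ 2 * S.F * S.θ * (M.z (j + 1) - M.z j) :=
          mul_le_mul (mul_le_mul_of_nonneg_left m2 (by positivity)) p1 (by positivity)
            (mul_nonneg (by positivity) (by linarith))
        _ = _ := by ring) le_rfl h2 le_rfl
  linarith

namespace ZI

theorem s0 (Z : ZI S M m a T Gc v v2 y Dq ec la al w th κ0 tl) : 0 < sb M m a (v + 1) :=
  Z.tl0.trans_le Z.tl1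

theorem yT (Z : ZI S M m a T Gc v v2 y Dq ec la al w th κ0 tl) : y ≤ T :=
  Z.y2.trans ((Z.A.cl.sm Z.A.cl.i3).trans Z.A.t2)

theorem cellk (Z : ZI S M m a T Gc v v2 y Dq ec la al w th κ0 tl) {t : ℝ}
    (h1 : sb M m a (v + 1) ≤ t) (h2 : t < y) :
    ∃ k, v ≤ k ∧ k < v2 ∧ Cell (sb M m a) (S.Jp + 1) (k + 1) t :=
  Z.A.exists_cell (by have := Z.A.cl.i3; have := Z.vJ; omega) h1 (h2.trans_le Z.y1)

/-- the fall of the difference -/
theorem fall (Z : ZI S M m a T Gc v v2 y Dq ec la al w th κ0 tl) (p t : ℝ)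
    (h1 : sb M m a (v + 1) ≤ p) (h2 : p ≤ t) (h3 : t < y) :
    1 / S.C * (t - p) - 1 / S.C / 4 * (y - sb M m a (v + 1)) - (S.C * S.v + κ0 + th * Dq) ≤
      uu M S m a T p - uu M S m a T t := by
  have A := Z.A
  have C0 := A.c_pos
  obtain ⟨k, k1, k2, c⟩ := Z.cellk (h1.trans h2) h3
  have e := A.lvb_cell c
  have w1 := Z.wid k k1 k2.le ((c.2.1 (Nat.succ_pos k)).trans_lt (h3.trans_le Z.y2))
  have e0 := A.lvb_node Z.jv.le (show v ≤ S.Jp by have := A.cl.i3; have := Z.vJ; have := Z.vv; omega)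
  have mb := Sc48.lvr_mono A.okb.1.1 h1
  have l := (A.sl (h3.trans_le Z.y2) p t (Z.s0.le.trans h1) h2 le_rfl).1
  have t1 : th ≤ 1 / S.C / 4 := by
    rw [div_div, le_div_iff₀ (by positivity)]; linarith [Z.th1]
  have := mul_le_mul_of_nonneg_right t1 (sub_nonneg.2 Z.sy)
  unfold uu
  nlinarith

/-- the residual inside the zone -/
theorem pt (Z : ZI S M m a T Gc v v2 y Dq ec la al w th κ0 tl) {K : ℝ} (K0 : 0 ≤ K)
    (hA : HLip Pr.AA T K) (hN : HLip Pr.NN T K)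
    (hL : ∀ s t : ℝ, 0 ≤ s → s ≤ t → t ≤ T → |L0.Gd (lb M S m a T) t - L0.Gd (lb M S m a T) s| ≤
      K * (t - s) + 2 * (lvr 1 (lb M S m a T) t - lvr 1 (lb M S m a T) s)) {t : ℝ}
    (h1 : sb M m a (v + 1) ≤ t) (h2 : t < y) :
    |Pr.Gam (lb M S m a T) t - t / M.b + (hm M S m a t / M.b -
        resN (lb M S m a T) M.b (sb M m a) (hb M) (v + 1))| ≤
      (3 * (ec + 1 / (m + 1) + al * (κ0 + S.C * S.v)) + 2 * (S.C ^ 2 * S.F * S.θ) * (S.C * S.v) +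
        4 * (S.C * S.v) * w ^ 2) +
      (3 * (la + 2 * al * th) + 2 * (S.C ^ 2 * S.F * S.θ) * th + 2 * (S.C * (S.θ / tl)) * w +
        (2 * K + 4 * th) * w ^ 2) * (y - sb M m a (v + 1) + Dq) +
      4 * w ^ 2 * |uu M S m a T t| + 6 * K * w ^ 2 * (|JJ M S m a T t| + io M S m a T) := by
  have A := Z.A
  have C0 := A.c_pos
  have F0 : 0 < S.F := by linarith [A.cl.F1]
  have v0 := v_pos A.cl
  have i3 := A.cl.i3
  have vJ := Z.vJ
  have jv := Z.jv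
  obtain ⟨n1, n2, n3, n4, n5, n6⟩ := Z.nn
  obtain ⟨b1, -⟩ := A.b_mem
  have θ0 := (A.ms_pos le_rfl).le.trans (A.cl.ms1 0)
  obtain ⟨i, k, n, p, q⟩ := exists_nx (σ := fun k => sb M m a (k + 1)) Z.vv Z.gv Z.g2 h1
    (h2.le.trans Z.y1)
  set g := y - sb M m a (v + 1) + Dq with hg
  set c0 := resN (lb M S m a T) M.b (sb M m a) (hb M) (v + 1)
  have dg : ∀ j, j ≤ v2 → ds M m a v j ≤ g := fun j h => by
    have := A.sb_mono (Nat.succ_le_succ h); have := Z.D1; unfold ds; linarith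
  have d0 : 0 ≤ ds M m a i k := G89.ds_nn A n.2.1
  have d1 : ds M m a i k ≤ g := by
    have := dg k n.2.2.1; have := A.sb_mono (Nat.succ_le_succ n.1); unfold ds at *; linarith
  have g0 : 0 ≤ g := d0.trans d1
  have d2 := Z.sh i k n
  have l1 := Z.lab i k n
  have l2 := Z.wid i n.1 (n.2.1.trans n.2.2.1) (p.trans_lt (h2.trans_le Z.y2))
  have l3 := mul_le_mul_of_nonneg_left d1 n5
  have zik := A.cl.leg.zm n.2.1
  have cv := mul_pos C0 v0
  have nd : ∀ j, v ≤ j → j ≤ k → Gc j → |Pr.Gam (lb M S m a T) (sb M m a (j + 1)) -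
      sb M m a (j + 1) / M.b + (hm M S m a (sb M m a (j + 1)) / M.b - c0)| ≤
      ec + 1 / (m + 1) + al * (κ0 + S.C * S.v) + (la + 2 * al * th) * g := fun j j1 j2 gj => by
    obtain ⟨r1, r2⟩ := A.res36 jv j1 (show j ≤ S.Jp by have := n.2.2.1; omega)
    obtain ⟨e1, e2⟩ := abs_le.1 (Z.e1 j j1 (j2.trans n.2.2.1) gj)
    rw [A.hm_cell (A.cell (by omega) (by have := n.2.2.1; omega))]
    have x1 := mul_le_mul_of_nonneg_left (dg j (j2.trans n.2.2.1)) n2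
    have x2 := mul_le_mul_of_nonneg_left (show M.z j - M.z v ≤ κ0 + S.C * S.v + 2 * th * g by
      linarith [A.cl.leg.zm j2]) n3
    have x3 : (0 : ℝ) ≤ 1 / (m + 1) := by positivity
    rw [sub_div] at r1 r2
    exact abs_le.2 ⟨by linarith, by linarith⟩
  have kJ : k < S.J := by have := n.2.2.1; omega
  have ce := A.h_ce8 Z.up (jv.trans_le n.1) n.2.1 kJ
  have ci := A.cell (k := i) (by have := n.1; omega) (by have := n.2.1; omega)
  have ck := A.cell (k := k) (by have := n.1; have := n.2.1; omega) (by omega)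
  have jh : |L0.Gd (lh M T) t| ≤ S.C * (S.θ / tl) :=
    (A.gd_h (Z.s0.le.trans h1) (h2.trans_le Z.y2)).trans (mul_le_mul_of_nonneg_left
      (div_le_div₀ θ0 (A.cl.ms1 t) Z.tl0 ((Z.tl1.trans h1).trans (le_max_left _ _))) C0.le)
  have k1 := gap_one K0 hA hN A.okb.1 A.okh.1 A.okb.2 A.okh.2 hL
    (φ := fun s => hm M S m a s / M.b - c0) (b := M.b) (p := sb M m a (i + 1))
    (q := sb M m a (k + 1)) (Dz := S.C * S.v + th * g)
    (D := S.C ^ 2 * S.F * S.θ * (S.C * S.v + th * g)) (A.sb_mem (by have := n.2.1; omega)).1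
    (A.sb_mem (by omega)).2 (by rw [A.lvb_cell ci, A.lvb_cell ck]; linarith) jh
    (fun s hs => by
      have m1 := A.hm_mono hs.1
      have m2 := A.hm_mono hs.2
      rw [A.hm_cell ck] at m2
      rw [A.hm_cell ci] at m1 ⊢
      rw [show hm M S m a s / M.b - c0 - (M.H i / M.b - c0) = (hm M S m a s - M.H i) / M.b by ring,
        abs_of_nonneg (div_nonneg (by linarith) (by linarith))]
      refine (div_le_self (by linarith) b1).trans ?_
      linarith [mul_le_mul_of_nonneg_left (show M.z k - M.z i ≤ S.C * S.v + th * g by linarith)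
        (show 0 ≤ S.C ^ 2 * S.F * S.θ by positivity)])
    (nd i n.1 n.2.1 n.2.2.2.1) (nd k (n.1.trans n.2.1) le_rfl n.2.2.2.2.1) ⟨p, q⟩
  refine k1.trans ?_
  change _ + 2 * (_ + K * ds M m a i k + _ + 2 * |uu M S m a T t| +
    3 * K * (|JJ M S m a T t| + io M S m a T)) * ds M m a i k ^ 2 ≤ _
  set d := ds M m a i k
  have io0 : 0 ≤ io M S m a T := intervalIntegral.integral_nonneg
    ((Z.s0.le.trans Z.sy).trans Z.yT) fun _ _ => abs_nonneg _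
  have q1 : d ^ 2 ≤ w ^ 2 := pow_le_pow_left₀ d0 d2 2
  have q2 : d ^ 2 ≤ w * g := by rw [sq]; exact mul_le_mul d2 d1 d0 n4
  have j0 : 0 ≤ S.C * (S.θ / tl) := by have := Z.tl0; positivity
  have x1 := mul_le_mul_of_nonneg_left q2 j0
  have x2 := mul_le_mul (mul_le_mul_of_nonneg_left d1 K0) q1 (sq_nonneg _) (mul_nonneg K0 g0)
  have x3 := mul_le_mul_of_nonneg_left q1 (show 0 ≤ S.C * S.v + th * g by positivity)
  have x4 := mul_le_mul_of_nonneg_left q1 (abs_nonneg (uu M S m a T t))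
  have x5 := mul_le_mul_of_nonneg_left q1
    (show 0 ≤ K * (|JJ M S m a T t| + io M S m a T) by positivity)
  linarith

/-- **zone I as a segment**, floor `μ = mm s` -/
theorem seg (Z : ZI S M m a T Gc v v2 y Dq ec la al w th κ0 tl) {K βs ν θ lam τ μ : ℝ} (K0 : 0 ≤ K)
    (hA : HLip Pr.AA T K) (hN : HLip Pr.NN T K)
    (hL : ∀ s t : ℝ, 0 ≤ s → s ≤ t → t ≤ T → |L0.Gd (lb M S m a T) t - L0.Gd (lb M S m a T) s| ≤
      K * (t - s) + 2 * (lvr 1 (lb M S m a T) t - lvr 1 (lb M S m a T) s))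
    (μ0 : 0 < μ) (μ1 : μ ≤ mm M S m a (sb M m a (v + 1))) (ν0 : 0 ≤ ν) (hθ : 0 < θ) (hl : 0 < lam)
    (τ0 : 0 ≤ τ) (β0 : 0 ≤ βs)
    (h0 : βs + (3 * (ec + 1 / (m + 1) + al * (κ0 + S.C * S.v)) +
      2 * (S.C ^ 2 * S.F * S.θ) * (S.C * S.v) + 4 * (S.C * S.v) * w ^ 2) ≤ (μ + ν ^ 2) * τ)
    (hk : 3 * (la + 2 * al * th) + 2 * (S.C ^ 2 * S.F * S.θ) * th + 2 * (S.C * (S.θ / tl)) * w +
        (2 * K + 4 * th) * w ^ 2 ≤ (μ + ν ^ 2) * lam)
    (h1 : 4608 * lam ^ 2 ≤ θ ^ 2 * (1 / S.C) ^ 2)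
    (h4 : 4 * w ^ 2 + (6 * K * w ^ 2) ^ 2 / θ ≤ θ * (μ + ν ^ 2)) :
    Seg T (uu M S m a T) (fun t => Pr.Gam (lb M S m a T) t - Pr.Gam (lh M T) t)
      (resN (lb M S m a T) M.b (sb M m a) (hb M) (v + 1)) βs (sb M m a (v + 1)) y
      (3 * θ * (μ * ∫ t in sb M m a (v + 1)..y, uu M S m a T t ^ 2) +
        θ * (6 * (∫ t in sb M m a (v + 1)..y, uu M S m a T t ^ 4) +
          (∫ t in sb M m a (v + 1)..y, JJ M S m a T t ^ 2) +
          (y - sb M m a (v + 1)) * io M S m a T ^ 2) +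
        2 / (θ * μ) * (∫ t in sb M m a (v + 1)..y, (S.C ^ 2 * S.θ * S.v + |gt M S t|) ^ 2) +
        (μ + ν ^ 2) * (6 * τ ^ 3 / (θ * lam) + 6 * lam ^ 2 / θ * Dq ^ 3 +
          8 * θ / (1 / S.C) * (S.C * S.v + κ0 + th * Dq) ^ 3) + 18 * θ / (1 / S.C) * ν ^ 5)
      (μ * ∫ t in sb M m a (v + 1)..y, uu M S m a T t ^ 2) := by
  have A := Z.A
  have C0 := A.c_pos
  have v0 := v_pos A.cl
  have θ0 := (A.ms_pos le_rfl).le.trans (A.cl.ms1 0)
  obtain ⟨n1, n2, n3, n4, n5, n6⟩ := Z.nn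
  have D0 := Z.D0
  have g0 : 0 ≤ y - sb M m a (v + 1) + Dq := by linarith [Z.sy]
  have lu : LB T (uu M S m a T) :=
    (LB.of_mono (Sc48.lvr_mono A.okb.1.1)).sub (LB.of_mono (Sc48.lvr_mono A.okh.1.1))
  have T0 : 0 ≤ T := (Z.s0.le.trans Z.sy).trans Z.yT
  refine segI (α := (μ + ν ^ 2) * (τ + lam * (y - sb M m a (v + 1) + Dq))) (A1 := 4 * w ^ 2)
    (A2 := 6 * K * w ^ 2) lu ((LB.const _).add (LB_gt T M S).abs) (.of_cont (lu.tail ⟨T0, le_rfl⟩)) Z.s0.le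
    Z.sy Z.yT μ0 ν0 hθ (by positivity) hl (by positivity) τ0 D0 β0 (by positivity) le_rfl h1 h4
    (fun t t1 t2 => ⟨_, ?_, by positivity, (add_le_add_left (Z.pt K0 hA hN hL t1 t2) βs).trans ?_⟩)
    Z.fall
  · obtain ⟨k, k1, k2, c⟩ := Z.cellk t1 t2
    have f := (A.fl3 Z.up (Z.jv.trans_le k1) (k2.trans Z.vJ) c (Z.s1.trans t1)
      (t2.trans_le Z.y2) ((Z.me.trans t1).trans (At.le_lev t))).1
    have g := mul_le_mul_of_nonneg_right (μ1.trans (A.mm_mono t1)) (sq_nonneg (uu M S m a T t))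
    have e : yN (lh M T) M.b (sb M m a) (hb M) (S.Jp + 1) t =
        hm M S m a t / M.b - t / M.b + Pr.Gam (lh M T) t := by
      have := A.b_mem.1
      unfold yN hm; field_simp; ring
    rw [e] at f
    nlinarith
  · nlinarith [mul_le_mul_of_nonneg_right hk g0]

end ZI

end Crest.Agent.T156.Alt.Mp9

end
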