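import Crest.Agent.T156.TxW_83

/-!
# Row 156, block (L): the last node of the bulk, good for two nets (helper83)
-/

set_option autoImplicit false

noncomputable section

namespace Crest.Agent.T156.Alt.Ve83

open Real Finset
open Crest.Agent.T156.Alt.Mp9 Crest.Agent.T156.Alt.L69 Crest.Agent.T156.Alt.G89
open Crest.Agent.T156.Alt.Ap63

variable {S : Sc} {M : Md} {m : ℕ} {a T : ℝ}

/-- label length of the gaps of the set `G` -/
def Lab (S : Sc) (M : Md) (m : ℕ) (a lo θ : ℝ) (G : ℕ → Prop) : Prop :=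
  ∀ i k, lo ≤ M.s i → i < k → k < S.J → G i → G k ∨ k = S.J - 1 →
    (∀ y, i < y → y < k → ¬ G y) → M.z (k - 1) - M.z i ≤ θ * G89.ds M m a i k

open Classical in
/-- label weight of a bad node -/
def bw (M : Md) (G : ℕ → Prop) (y : ℕ) : ℝ := if G y then 0 else dx M y

variable {E W lo Lg X2 τ1 D θ θ2 μ : ℝ} {η : ℝ → ℝ} {G Gn G2 : ℕ → Prop} {V0 : ℕ}

theorem bw_nn (h : Cl S M) (y : ℕ) : 0 ≤ bw M G y := by
  unfold bw; split_ifs; exacts [le_rfl, dx_nn h y]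

theorem bw_le (h : Cl S M) (y : ℕ) : bw M G y ≤ dx M y := by
  unfold bw; split_ifs; exacts [dx_nn h y, le_rfl]

/-- **the bad labels above a good node** -/
theorem bw_sum (h : Cl S M) (L : Lab S M m a lo θ G) : ∀ d i, i + d = S.J - 2 → lo ≤ M.s i → G i →
    ∑ y ∈ Ioc i (S.J - 2), bw M G y ≤ θ * G89.ds M m a i (S.J - 1) := by
  classical
  have i2 := h.i2
  intro d
  induction d using Nat.strong_induction_on with
  | _ d ih =>
  intro i e h0 gi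
  have ex : ∃ k, i < k ∧ (G k ∨ k = S.J - 1) := ⟨S.J - 1, by omega, Or.inr rfl⟩
  obtain ⟨k1, k2⟩ := Nat.find_spec ex
  have k3 : Nat.find ex ≤ S.J - 1 := Nat.find_min' ex ⟨by omega, Or.inr rfl⟩
  have k4 : ∀ y, i < y → y < Nat.find ex → ¬ G y := fun y a b g => Nat.find_min ex b ⟨a, Or.inl g⟩
  generalize Nat.find ex = k at k1 k2 k3 k4
  have a1 := L i k h0 k1 (by omega) gi k2 k4
  have a2 : ∑ y ∈ Ioc i (k - 1), bw M G y ≤ M.z (k - 1) - M.z i :=
    (sum_le_sum fun y _ => bw_le h y).trans_eq (tel M.z (by omega))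
  rcases k3.eq_or_lt with c | c
  · subst c
    exact a2.trans a1
  have gk : G k := k2.resolve_right c.ne
  have a3 := ih (S.J - 2 - k) (by omega) k (by omega) (h0.trans (h.sm k1.le)) gk
  have a4 : ∑ y ∈ Ioc i k, bw M G y = ∑ y ∈ Ioc i (k - 1), bw M G y := by
    obtain ⟨r, rfl⟩ : ∃ r, k = r + 1 := ⟨k - 1, by omega⟩
    rw [sum_Ioc_succ_top (by omega), Nat.add_sub_cancel, bw, if_pos gk, add_zero]
  rw [← sum_Ioc_consecutive _ k1.le (show k ≤ S.J - 2 by omega), a4]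
  unfold G89.ds at *
  linarith

/-- a window without a node good for both sets -/
theorem two (h : Cl S M) (L1 : Lab S M m a lo θ G) (L2 : Lab S M m a lo θ2 G2) {i1 i2 p q : ℕ}
    (l1 : lo ≤ M.s i1) (l2 : lo ≤ M.s i2) (g1 : G i1) (g2 : G2 i2) (a1 : i1 ≤ p) (a2 : i2 ≤ p)
    (pq : p ≤ q) (hq : q + 1 < S.J) (no : ∀ y, p < y → y ≤ q → ¬ (G y ∧ G2 y)) :
    M.z q - M.z p ≤ θ * G89.ds M m a i1 (S.J - 1) + θ2 * G89.ds M m a i2 (S.J - 1) := by
  have b1 := bw_sum h L1 (S.J - 2 - i1) i1 (by omega) l1 g1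
  have b2 := bw_sum h L2 (S.J - 2 - i2) i2 (by omega) l2 g2
  have c1 := sum_le_sum_of_subset_of_nonneg (Ioc_subset_Ioc a1 (show q ≤ S.J - 2 by omega))
    fun y _ _ => bw_nn (G := G) h y
  have c2 := sum_le_sum_of_subset_of_nonneg (Ioc_subset_Ioc a2 (show q ≤ S.J - 2 by omega))
    fun y _ _ => bw_nn (G := G2) h y
  rw [← tel M.z pq]
  refine le_trans (sum_le_sum fun y hy => ?_) ((sum_add_distrib (f := bw M G) (g := bw M G2)).trans_le
    (add_le_add (c1.trans b1) (c2.trans b2)))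
  have := no y (mem_Ioc.1 hy).1 (mem_Ioc.1 hy).2
  have d := dx_nn h y
  unfold bw
  change dx M y ≤ _
  split_ifs with e1 e2 e2
  · exact absurd ⟨e1, e2⟩ this
  all_goals linarith

/-- **the last node of the bulk**, good for two sets, at the label distance `μ` of the corner -/
structure VE2 (S : Sc) (M : Md) (m : ℕ) (a W Lg τ1 θ2 μ : ℝ) (Gn G2 : ℕ → Prop) (V0 v : ℕ) :
    Prop where
  gn : Gn v
  g2 : G2 v
  le : v ≤ V0
  mu : M.z v + μ ≤ M.z (S.J - 1)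
  s1 : 3 / 4 * M.s S.J ≤ M.s v
  t1 : 5 / 8 * M.s S.J ≤ sb M m a (v + 1)
  t2 : sb M m a (v + 1) < M.s S.J
  wid : ∀ k, v ≤ k → k < S.J → sb M m a (k + 1) < M.s S.J → M.z k ≤ M.z v + μ + W * τ1 +
    S.C * S.v + (2 * (W / Lg) + θ2) * G89.ds M m a v (S.J - 1)

theorem ve2 (A : At S M m a T) (G : NG E W S M m a T lo Lg X2 τ1 η Gn V0) (W0 : 0 ≤ W)
    (L0 : 0 < Lg) (τ0 : 0 ≤ τ1) (jl : 2 * M.s S.jl ≤ M.s S.J) (hlo : lo ≤ 3 / 4 * M.s S.J)
    (hv : 64 * (S.C * S.v) ≤ M.s S.J) (hL : 64 * S.C * W ≤ Lg)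
    (hτ : 16 * (S.C ^ 2 * (W * τ1 + W / Lg * T)) ≤ M.s S.J) (hD : 8 * D < M.s S.J)
    (lc : ∀ k, 3 / 4 * M.s S.J ≤ M.s k → k < S.J → |sb M m a (k + 1) - M.s k| ≤ D)
    (L2 : Lab S M m a lo θ2 G2) (θ0 : 0 ≤ θ2) (μ0 : 0 ≤ μ)
    (hu : ∃ u, G2 u ∧ lo ≤ M.s u ∧ M.s u ≤ 13 / 16 * M.s S.J)
    (hμ : 16 * (S.C ^ 2 * μ) ≤ M.s S.J) (hθ : 64 * (S.C ^ 2 * ((W / Lg + θ2) * T)) ≤ M.s S.J) :
    ∃ v, VE2 S M m a W Lg τ1 θ2 μ Gn G2 V0 v := by
  classical
  have h := A.cl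
  have C0 := h.C0
  have v0 := h.v0
  have i1 := h.i1
  have i2 := h.i2
  have i3 := h.i3
  have hV := G.hV
  have s0 : 0 < M.s S.J := h.s_pos (by omega)
  have cv : 0 < S.C * S.v := by positivity
  have wl : 0 ≤ W / Lg := div_nonneg W0 L0.le
  have L1 : Lab S M m a lo (W / Lg) Gn := fun i k a b c d e f => (G.lab i k a b c d e f).1
  have dT : ∀ i, i < S.J → G89.ds M m a i (S.J - 1) ≤ T := fun i hi => by
    unfold G89.ds
    linarith [(A.sb_mem (k := S.J - 1) (by omega)).2, (A.sb_mem (k := i) (by omega)).1]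
  have sJ := (h.ss (S.J - 1) (by omega)).2
  rw [show S.J - 1 + 1 = S.J by omega] at sJ
  obtain ⟨u1, g1, -, a1, a2⟩ := first A G W0 L0 jl hlo hv hL hτ
  obtain ⟨u2, g2, b1, b2⟩ := hu
  obtain ⟨p, p1, p2, p3, p4⟩ := h.exists_node (t := 13 / 16 * M.s S.J) (by linarith) (by linarith)
  obtain ⟨q, q1, q2, q3, q4⟩ := h.exists_node (t := 7 / 8 * M.s S.J) (by linarith) (by linarith)
  have c1 : u1 ≤ p := Nat.lt_succ_iff.1 (h.sm.reflect_lt (by linarith))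
  have c2 : u2 ≤ p := Nat.lt_succ_iff.1 (h.sm.reflect_lt (by linarith))
  have c3 : p < q := h.sm.reflect_lt (by linarith)
  have c4 : q < S.J - 1 := h.sm.reflect_lt (by linarith)
  have c5 : S.jl < p := h.sm.reflect_lt (by linarith)
  obtain ⟨u, u3, u4, u5, u6⟩ : ∃ u, p < u ∧ u ≤ q ∧ Gn u ∧ G2 u := by
    by_contra c
    have d1 := two h L1 L2 (by linarith) b1 g1 g2 c1 c2 c3.le (by omega)
      fun y e1 e2 e3 => c ⟨y, e1, e2, e3⟩
    have d2 := s_z h (i := p) (k := q) (by omega) c3.le q1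
    have d3 := mul_le_mul_of_nonneg_left (dT u1 (by omega)) wl
    have d4 := mul_le_mul_of_nonneg_left (dT u2 (by omega)) θ0
    have d5 : M.z q - M.z p ≤ (W / Lg + θ2) * T := by linarith
    linarith [mul_le_mul_of_nonneg_left d5 (sq_nonneg S.C)]
  have u7 := (h.sm u4).trans q2
  have u8 : 3 / 4 * M.s S.J ≤ M.s u := by linarith [h.sm (show p + 1 ≤ u from u3)]
  have u9 := s_z h (i := u) (k := S.J - 1) (by omega) (by omega) (by omega)
  have c2' : 0 < S.C ^ 2 := by positivity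
  have uV : u ≤ V0 := not_lt.1 fun c => by
    have a4 := mul_le_mul_of_nonneg_left (dT V0 (by omega)) wl
    have a5 : M.z (S.J - 1) - M.z u ≤ W * τ1 + W / Lg * T := by
      linarith [G.top, h.leg.zm c.le]
    linarith [mul_le_mul_of_nonneg_left a5 c2'.le]
  set P := fun k => Gn k ∧ G2 k ∧ sb M m a (k + 1) < M.s S.J ∧ M.z k + μ ≤ M.z (S.J - 1) with hP
  have pu : P u := ⟨u5, u6, by linarith [(abs_le.1 (lc u u8 (by omega))).2],
    le_of_mul_le_mul_left (by linarith) c2'⟩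
  have f1 : u ≤ Nat.findGreatest P V0 := Nat.le_findGreatest uV pu
  have f2 : Nat.findGreatest P V0 ≤ V0 := Nat.findGreatest_le _
  have f3 : P (Nat.findGreatest P V0) := Nat.findGreatest_spec uV pu
  have f4 : ∀ k, Nat.findGreatest P V0 < k → k ≤ V0 → ¬ P k := fun k => Nat.findGreatest_is_greatest
  generalize Nat.findGreatest P V0 = v at f1 f2 f3 f4
  obtain ⟨f5, f6, f7, f8⟩ := f3
  have s1 := u8.trans (h.sm f1)
  refine ⟨v, f5, f6, f2, f8, s1, by linarith [(abs_le.1 (lc v s1 (by omega))).1], f7,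
    fun k k1 k2 k3 => ?_⟩
  set Q := fun y => y ≤ V0 ∧ M.z y + μ ≤ M.z (S.J - 1) with hQ
  have e1 : v ≤ Nat.findGreatest Q k := Nat.le_findGreatest k1 ⟨f2, f8⟩
  have e2 : Nat.findGreatest Q k ≤ k := Nat.findGreatest_le _
  have e3 : Q (Nat.findGreatest Q k) := Nat.findGreatest_spec k1 ⟨f2, f8⟩
  have e4 : ∀ y, Nat.findGreatest Q k < y → y ≤ k → ¬ Q y := fun y => Nat.findGreatest_is_greatest
  generalize Nat.findGreatest Q k = r at e1 e2 e3 e4
  have e5 := two h L1 L2 (by linarith) (by linarith) f5 f6 le_rfl le_rfl e1 (by have := e3.1; omega)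
    fun y y1 y2 y3 => f4 y y1 (y2.trans e3.1) ⟨y3.1, y3.2,
      (A.sb_mono (by omega)).trans_lt k3, by linarith [h.leg.zm y2, e3.2]⟩
  have d0 : 0 ≤ W / Lg * G89.ds M m a v (S.J - 1) :=
    mul_nonneg wl (sub_nonneg.2 (A.sb_mono (by omega)))
  have d1 := mul_nonneg W0 τ0
  have d2 := h.leg.zm (show k ≤ S.J - 1 by omega)
  rcases e2.eq_or_lt with c | c
  · subst c
    linarith
  rcases e3.1.eq_or_lt with c' | c'
  · subst c'
    have d3 : G89.ds M m a r (S.J - 1) ≤ G89.ds M m a v (S.J - 1) := by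
      unfold G89.ds
      linarith [A.sb_mono (Nat.succ_le_succ e1)]
    linarith [G.top, mul_le_mul_of_nonneg_left d3 wl]
  · have d3 : M.z (S.J - 1) < M.z (r + 1) + μ := not_le.1 fun e => e4 (r + 1) (by omega) c ⟨c', e⟩
    linarith [(h.zs r (by omega) (by omega)).2]

end Crest.Agent.T156.Alt.Ve83

namespace Crest.Agent.T156.Alt.L31

open Real
open Crest.Agent.T156.Alt.Mp9 Crest.Agent.T156.Alt.L69 Crest.Agent.T156.Alt.Ve83

variable {E K θ2 μ : ℝ} {S : Sc} {M : Md} {m : ℕ} {a : ℝ} {p : Pa} {Gn G2 : ℕ → Prop} {V0 : ℕ}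

theorem ve2_of (W : Tw E S M m a p) (hE : (2000 * S.C ^ 6) ^ 3 ≤ E) (K1 : 1 ≤ K) (KE : K ^ 3 ≤ E)
    (FE : S.F ^ 3 ≤ E) (G : Ng E K S M m a p Gn V0)
    (L2 : Lab S M m a (max p.l (2 * p.l0)) θ2 G2) (θ0 : 0 ≤ θ2) (μ0 : 0 ≤ μ)
    (hu : ∃ u, G2 u ∧ max p.l (2 * p.l0) ≤ M.s u ∧ M.s u ≤ 13 / 16 * M.s S.J)
    (hμ : 48 * S.C ^ 5 * μ ≤ 1) (hθ : 1000 * S.C ^ 6 * θ2 ≤ 1) :
    ∃ v, VE2 S M m a K p.Lg (t1 S p) θ2 μ Gn G2 V0 v ∧ Ve S M m a Gn V0 v := by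
  have h := W.at'.cl
  have C0 := h.C0
  have C1 := h.C1
  have F1 := h.F1
  have c6 : 1 ≤ S.C ^ 6 := one_le_pow₀ C1
  have s0 : 0 < M.s S.J := h.s_pos (by have := h.i2; omega)
  have E1 : 1 ≤ E := (one_le_pow₀ K1).trans KE
  have a1 : 2000 * S.C ^ 6 * K * S.F ≤ E := by
    refine le_of_pow_le_pow_left₀ (n := 3) (by norm_num) (by linarith) ?_
    rw [mul_pow, mul_pow, pow_succ E, pow_two E]
    exact mul_le_mul (mul_le_mul hE KE (by positivity) (by linarith)) FE (by positivity)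
      (by positivity)
  have a2 : 2000 * S.C ^ 6 * K ≤ p.Lg :=
    (le_mul_of_one_le_right (by positivity) F1).trans (a1.trans W.EL)
  have L0 : 0 < p.Lg := by linarith [W.EL]
  have a3 : S.C * K ≤ S.C ^ 6 * K :=
    mul_le_mul_of_nonneg_right (le_self_pow₀ C1 (by norm_num)) (by linarith)
  have a4 : 2000 * S.C ^ 6 * (K / p.Lg) ≤ 1 := by rw [← mul_div_assoc, div_le_one L0]; exact a2
  have a5 : 2000 * S.C ^ 6 * (K * t1 S p) ≤ 3 := by
    refine le_of_mul_le_mul_left ?_ (show 0 < S.F by linarith)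
    linarith [mul_le_mul_of_nonneg_right a1 W.t0, W.t1]
  have a6 : S.C ^ 5 * (K * t1 S p) ≤ S.C ^ 6 * (K * t1 S p) := mul_le_mul_of_nonneg_right
    (pow_le_pow_right₀ C1 (by norm_num)) (mul_nonneg (by linarith) W.t0)
  have sJ := Ab33.sJ_ge h
  obtain ⟨v, hv⟩ := ve2 W.at' G.ng (by linarith) L0 W.t0 W.jl (by linarith [W.lo]) W.v1
    (by linarith [mul_nonneg C0.le (show 0 ≤ K by linarith)]) (by
      refine le_of_mul_le_mul_left ?_ (show 0 < 3 * S.C ^ 3 by positivity)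
      change _ * (16 * (_ * (K * t1 S p + _))) ≤ _
      linarith) (D := DD S M p.Xp p.γ) (by linarith [W.D1]) (fun k a b => W.loc k a b.le)
    L2 θ0 μ0 hu (le_of_mul_le_mul_left (by linarith) (show 0 < 3 * S.C ^ 3 by positivity))
    (le_of_mul_le_mul_left (by linarith) (show 0 < 3 * S.C ^ 3 by positivity))
  exact ⟨v, hv, hv.gn, hv.le, by linarith [hv.s1], by linarith [hv.t1], hv.t2⟩

end Crest.Agent.T156.Alt.L31

end
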