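import Crest.Agent.T156.TxE_87
import Crest.Agent.T156.TxJ_8
import Crest.Agent.T156.TxG_61
import Crest.Agent.T156.TxV2_83
import Crest.Agent.T156.TopM_47

/-!
# Row 156, block (L): the net of zone I from the corner context (helper87)
-/

set_option autoImplicit false

noncomputable section

namespace Crest.Agent.T156.Alt.G89

open Real Finset
open Crest.Agent.T156.Alt.E61 Crest.Agent.T156.Alt.Mp9 Crest.Agent.T156.Alt.Sz9
open Crest.Agent.T156.Alt.L69 (LN cr cl mf uw gg Phi)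
open Crest.Agent.T156.Alt.Nd22 (U)

/-- uniform error of the corner net -/
def ecC (D ψ : ℝ) (S : Sc) (η : ℝ → ℝ) (Lc ηc γ : ℝ) : ℝ :=
  D ^ 29 * ψ ^ 6 * (ηc + η 1 + U S Lc 1 ^ 2 * γ)
/-- error per time -/
def laC (D : ℝ) (S : Sc) (X2 ρ : ℝ) : ℝ := D ^ 4 * (X2 + √(ρ * S.w3 1))
/-- error per label -/
def alC (D ψ : ℝ) (S : Sc) (Lc : ℝ) : ℝ := D ^ 16 * ψ ^ 4 * U S Lc 1 ^ 2

namespace Cc

variable {D E Λ L ψ : ℝ} {S : Sc} {M : Md} {m : ℕ} {a T G1 l0 l V X Lg X2 X3 G0 W3 : ℝ}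
  {η : ℝ → ℝ} {Lc ηc j γ R : ℝ}
  (H : Cc D E Λ L ψ S M m a T G1 l0 l V X Lg X2 X3 G0 W3 η Lc ηc j γ R)
include H

theorem nn (ρ : ℝ) : 0 ≤ ecC D ψ S η Lc ηc γ ∧ 0 ≤ laC D S X2 ρ ∧ 0 ≤ alC D ψ S Lc := by
  have := H.Z.D4
  have := H.ψ1
  have := H.η0
  have := H.γ0
  have := H.parts.2.2
  have := H.Z.X20
  unfold ecC laC alC
  exact ⟨by positivity, by positivity, by positivity⟩

theorem th0 : 0 ≤ 4 * S.C / Lc := by
  have := H.Z.A.cl.C0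
  have := H.L1
  positivity

/-- label length of a gap -/
theorem gap {i k : ℕ} (h1 : l0 ≤ M.s i) (h : i < k) (hk : k < S.J) (gi : Gc S M m a l0 V L Lc i)
    (gk : Gc S M m a l0 V L Lc k ∨ k = S.J - 1)
    (hb : ∀ y, i < y → y < k → ¬ Gc S M m a l0 V L Lc y) :
    M.z (k - 1) - M.z i ≤ 4 * S.C / Lc * ds M m a i k ∧
      M.z k ≤ M.z i + (S.C * S.v + 4 * S.C / Lc * ds M m a i k) := by
  have := H.Z.jl4 h1 (h.trans hk).le
  have := H.Z.A.cl.i1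
  exact H.Z.cx.gap_lab H.Z.A gi gk (by linarith [H.L1]) (by omega) h hk hb

/-- the second set of `ve2_of` -/
theorem lab {lo : ℝ} (h : l0 ≤ lo) :
    Ve83.Lab S M m a lo (4 * S.C / Lc) (Gc S M m a l0 V L Lc) :=
  fun _ _ a1 a2 a3 a4 a5 a6 => (H.gap (h.trans a1) a2 a3 a4 a5 a6).1

theorem l0s {i : ℕ} (lo : Lo S M i) : l0 ≤ M.s i :=
  H.Z.ln.l0l.trans (by linarith [H.ls lo, H.Z.lp])

theorem jl {i : ℕ} (lo : Lo S M i) (hi : i < S.J) : S.jl < i := by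
  have := H.Z.jl4 (H.l0s lo) hi.le
  have := H.Z.A.cl.i0
  have := H.Z.A.cl.i1
  omega

/-- the residual on a net -/
theorem e1 {u u' : ℕ} {ρ : ℝ} (lo : Lo S M u) (o : Mg S Lc u')
    (hρ : M.rb m a u' - M.rb m a u ≤ ρ) {i k : ℕ} (h1 : u ≤ i) (h2 : i ≤ k) (h3 : k ≤ u')
    (gi : Gc S M m a l0 V L Lc i) (gk : Gc S M m a l0 V L Lc k) :
    |res M S m a T k - res M S m a T i| ≤ ecC D ψ S η Lc ηc γ + laC D S X2 ρ * ds M m a i k +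
      alC D ψ S Lc * (M.z k - M.z i) :=
  H.nce' (lo.mono H.Z.A.cl h1) h2 gi gk (o.anti H.Z.A.cl (by linarith [H.L1]) h3)
    (by linarith [H.Z.cx.rbm h1, H.Z.cx.rbm h3])

/-- **the input of `ncG`** -/
theorem ne {u u' : ℕ} {ρ : ℝ} (lo : Lo S M u) (h : u ≤ u') (gu : Gc S M m a l0 V L Lc u)
    (gu' : Gc S M m a l0 V L Lc u') (o : Mg S Lc u') (hρ : M.rb m a u' - M.rb m a u ≤ ρ) :
    Tx61.Ne S M m a T (Gc S M m a l0 V L Lc) u u' (ecC D ψ S η Lc ηc γ) (laC D S X2 ρ)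
      (alC D ψ S Lc) (4 * S.C / Lc) := by
  have := o.1
  exact ⟨H.Z.A, H.jl lo (by omega), by omega, gu, gu',
    ⟨(H.nn ρ).1, (H.nn ρ).2.1, (H.nn ρ).2.2, H.th0⟩,
    fun i k a1 a2 a3 a4 a5 => H.e1 lo o hρ a1 a2 a3 a4 a5, fun i k n ik =>
      (H.gap (H.l0s (lo.mono H.Z.A.cl n.1)) ik (by have := n.2.2.1; omega) n.2.2.2.1
        (Or.inl n.2.2.2.2.1) n.2.2.2.2.2).1⟩

/-- **the net of zone I** -/
theorem zi {K τ1 θ2 μ ρ w : ℝ} {Gn : ℕ → Prop} {V0 v v2 : ℕ}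
    (P : Ve83.VE2 S M m a K Lg τ1 θ2 μ Gn (Gc S M m a l0 V L Lc) V0 v) (lo : Lo S M v)
    (vv : v ≤ v2) (g2 : Gc S M m a l0 V L Lc v2) (o : Mg S Lc v2)
    (hρ : M.rb m a v2 - M.rb m a v ≤ ρ) (K0 : 0 ≤ K) (τ0 : 0 ≤ τ1) (μ0 : 0 ≤ μ) (w0 : 0 ≤ w)
    (θ1 : 4 * S.C / Lc ≤ θ2) (θ3 : 4 * S.C * (2 * (K / Lg) + θ2) ≤ 1)
    (sh : ∀ i k, Nx (Gc S M m a l0 V L Lc) v v2 i k → ds M m a i k ≤ w) :
    ZI S M m a T (Gc S M m a l0 V L Lc) v v2 (ys S M m a v2) (sb M m a S.J - ys S M m a v2)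
      (ecC D ψ S η Lc ηc γ) (laC D S X2 ρ) (alC D ψ S Lc) w (2 * (K / Lg) + θ2)
      (μ + K * τ1 + S.C * S.v) (M.s S.J / 4) := by
  have A := H.Z.A
  have h := A.cl
  have o1 := o.1
  have c := h.C0
  have C1 := h.C1
  have v0 := h.v0
  have g0 : 0 ≤ K / Lg := div_nonneg K0 (by linarith [H.Z.E1, H.Z.EL])
  have t0 := H.th0
  have a1 : 1 ≤ 2 * S.C ^ 2 * M.s S.J := H.lev ⟨by omega, by linarith [h.s_nn S.J]⟩
  have s0 : 0 < M.s S.J := h.s_pos (by omega)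
  have hv : 100 * S.C ^ 4 * S.v ≤ 1 := by
    have b1 : 100 * S.C ^ 3 ≤ S.n := by
      linarith [H.Z.Cp (k := 3) (by norm_num), H.Z.D_E, H.Z.En, show 0 < S.C ^ 3 by positivity]
    have b2 : (S.n : ℝ) ≤ (S.n : ℝ) ^ 2 := le_self_pow₀ (by exact_mod_cast h.n1) two_ne_zero
    nlinarith [mul_le_mul_of_nonneg_left (b1.trans b2) (mul_pos c v0).le, H.Z.hv]
  have a2 : 50 * S.C ^ 2 * S.v ≤ M.s S.J :=
    le_of_mul_le_mul_left (by linarith) (show 0 < 2 * S.C ^ 2 by positivity)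
  have a3 : S.C * S.v ≤ S.C ^ 2 * S.v := by gcongr; nlinarith
  have a4 : 8 * M.s S.jl ≤ M.s S.J := by
    have b1 := H.ls (i := S.J) ⟨by omega, by linarith⟩
    nlinarith [H.Z.ln.l0s, H.Z.ln.l0l, H.Z.D4, H.Z.D_E, h.s_nn S.jl]
  have m1 : sb M m a (v2 + 1) ≤ sb M m a S.J := A.sb_mono (by omega)
  have m2 : ys S M m a v2 ≤ sb M m a (v2 + 1) := min_le_left _ _
  refine ⟨A, H.Z.ce.up, H.jl lo (by omega), vv, by omega, P.g2, g2, ?_, ?_, by linarith,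
    by linarith [P.t1], le_min (A.sb_mono (by omega)) P.t2.le, m2, min_le_right _ _, by linarith,
    by linarith, ⟨(H.nn ρ).1, (H.nn ρ).2.1, (H.nn ρ).2.2, w0, by linarith, by positivity⟩, θ3,
    fun k a1 a2 a3 => H.e1 lo o hρ le_rfl a1 a2 P.g2 a3, sh, fun i k n => ?_,
    fun k a1 a2 a3 => ?_⟩
  · linarith [(h.ss S.jl h.jl_lt).2, P.t1, mul_pos (pow_pos c 2) v0]
  · linarith [P.t1, mul_pos (pow_pos c 2) v0]
  · have d0 := ds_nn A n.2.1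
    rcases n.2.1.eq_or_lt with rfl | ik
    · nlinarith [mul_pos c v0]
    · have := (H.gap (H.l0s (lo.mono h n.1)) ik (by have := n.2.2.1; omega) n.2.2.2.1
        (Or.inl n.2.2.2.2.1) n.2.2.2.2.2).2
      nlinarith
  · have := P.wid k a1 (by omega) a3
    rw [ds, show S.J - 1 + 1 = S.J by omega] at this
    linarith

end Cc

end Crest.Agent.T156.Alt.G89

end
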