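import Crest.Agent.T156.TxA_83
import Crest.Agent.T156.TxZI_87
import Crest.Agent.T156.TxU_12

/-!
# Row 156, block (L): the net of zone I in the letters of `Nd` (helper87)
-/

set_option autoImplicit false

noncomputable section

namespace Crest.Agent.T156.Alt.X84.Cy

open Real
open Crest.Agent.T156.Alt.Mp9 Crest.Agent.T156.Alt.L69 Crest.Agent.T156.Alt.L31
open Crest.Agent.T156.Alt.Ve83 Crest.Agent.T156.Alt.G89

variable {E : ℝ} {S : Sc} {M : Md} {m : ℕ} {a : ℝ} {c : Dt} {v v1 v2 : ℕ}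
  (Y : Cy E S M m a c) (N : Nd S M m a c v v1 v2)
include Y

theorem tm87 : Tm12 E S M c.p :=
  tm12 Y.tw Y.hx Y.cw.θ1 (by linarith [Y.cw.Z.D4, Y.cw.Z.D_E])

include N

theorem lo87 : Lo S M v := ⟨by
  have H := Y.ck83.H
  have D4 := H.Z.D4
  have o := N.mg.1
  have := N.o1
  have := N.o2
  have a1 := (near3 Y.tw H Y.K83.1 Y.K83.2.1 Y.ng N.v2e).2.1
  have a2 := H.Z.jl4 a1 (by omega)
  have := H.Z.A.cl.i1
  have z0 := H.Z.A.cl.leg.zm (show v ≤ S.J - 1 by omega)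
  exact (H.lo_of (by omega) (by omega) (by nlinarith [N.near])).1,
  by linarith [N.v2e.s1, Y.tw.at'.cl.s_nn v]⟩

theorem j087 : S.j0 ≤ v ∧ v ≤ v2 ∧ v2 + 1 < S.J ∧ 2 * c.D * (M.z (S.J - 1) - M.z v) ≤ 1 := by
  have H := Y.ck83.H
  have D4 := H.Z.D4
  have o := N.mg.1
  have := N.o1
  have := N.o2
  have a2 := H.Z.jl4 (H.l0s (Y.lo87 N)) (by omega)
  have := H.Z.A.cl.i1
  have z0 := H.Z.A.cl.leg.zm (show v ≤ S.J - 1 by omega)
  exact ⟨by omega, by omega, o, by nlinarith [N.near]⟩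

/-- **the rise on zone I** -/
theorem rho87 : M.rb m a v2 - M.rb m a v ≤
    c.D ^ 48 * S.F * (tu S c.p + Gam S M ^ ((1 : ℝ) / 3)) * c.p.Lc := by
  have K := Y.ck83
  have H := K.H
  have U := Y.tm87
  have h := H.Z.A.cl
  obtain ⟨j0, vv, o, nr⟩ := Y.j087 N
  have D4 := H.Z.D4
  have C0 := h.C0
  have C1 := h.C1
  have F1 := h.F1
  have L1 := H.L1
  have z1 := h.leg.zm vv
  have z2 := h.leg.zm (show v2 ≤ S.J - 1 by omega)
  have a1 := H.rise (Y.lo87 N) vv (by omega)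
  have a2 := (K.del j0 (by omega) (by nlinarith)).2
  have a3 := (K.del (j0.trans vv) (by omega) (by nlinarith)).2
  have g0 : 0 ≤ Gam S M ^ ((1 : ℝ) / 3) := rpow_nonneg (Gam_nn h) _
  have u0 : 0 < tu S c.p := U.t0.trans_le U.mu
  obtain ⟨y, hy⟩ : ∃ y, y = tu S c.p + Gam S M ^ ((1 : ℝ) / 3) := ⟨_, rfl⟩
  obtain ⟨x, hx⟩ : ∃ x, x = S.F * y * c.p.Lc := ⟨_, rfl⟩
  have y0 : 0 < y := by linarith
  have b1 : S.F * y ≤ x := hx ▸ le_mul_of_one_le_right (by positivity) L1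
  have b2 : y ≤ S.F * y := le_mul_of_one_le_left y0.le F1
  have b3 : c.p.Lc * y ≤ x := by rw [hx]; nlinarith [mul_pos y0 (show 0 < c.p.Lc by linarith)]
  have b4 : c.p.Xp ^ ((1 : ℝ) / 3) ≤ x :=
    U.R.trans ((mul_le_mul_of_nonneg_left (by linarith [U.mu]) (by linarith)).trans b3)
  have b5 : t1 S c.p ≤ x :=
    U.t1.trans ((mul_le_mul_of_nonneg_left (by linarith [U.mu]) (by linarith)).trans b1)
  have b6 : tc S c ≤ x := (mul_le_mul_of_nonneg_left (by linarith [U.cu]) (by linarith)).trans b1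
  have b7 : c.p.γ + Gam S M ^ ((1 : ℝ) / 3) ≤ x := by linarith [U.cu, Y.tw.τ0]
  have b8 : c.p.γ + S.v ≤ x := by linarith [U.cu, K.vτ]
  have x0 : 0 < x := by linarith
  have c1 : DD S M c.p.Xp c.p.γ ≤ 20 * S.C ^ 3 * x := by
    unfold DD
    linarith [mul_le_mul_of_nonneg_left (add_le_add b4 b7) (show 0 ≤ S.C ^ 3 by positivity)]
  have c2 : M.z v2 - M.z v ≤ c.D ^ 46 * (22 * S.C ^ 3 * x) :=
    (by linarith [N.wz] : _ ≤ c.D ^ 46 * (t1 S c.p + tc S c + DD S M c.p.Xp c.p.γ)).trans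
      (mul_le_mul_of_nonneg_left (by
      linarith [le_mul_of_one_le_left x0.le (one_le_pow₀ (n := 3) C1)]) (by positivity))
  have c3 := mul_le_mul_of_nonneg_left c2 (sq_nonneg S.C)
  have c4 := mul_le_mul_of_nonneg_left (add_le_add b4 b8) (show 0 ≤ S.C ^ 3 by positivity)
  have c5 := mul_le_mul_of_nonneg_right (H.Z.Cp (k := 5) (by norm_num))
    (show 0 ≤ c.D ^ 46 * x by positivity)
  have c6 := mul_le_mul_of_nonneg_right ((H.Z.Cp (k := 3) (by norm_num)).trans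
    (le_self_pow₀ (n := 47) (by linarith) (by norm_num))) x0.le
  have c7 := mul_le_mul_of_nonneg_right D4 (show 0 ≤ c.D ^ 47 * x by positivity)
  have e : c.D ^ 48 * S.F * y * c.p.Lc = c.D ^ 48 * x := by rw [hx]; ring
  rw [← hy, e]
  linarith [show 0 ≤ S.C ^ 3 * x by positivity, show 0 ≤ S.C ^ 5 * (c.D ^ 46 * x) by positivity,
    show 0 ≤ c.D ^ 47 * x by positivity]

theorem th87 : 0 ≤ 2 * (c.K / c.p.Lg) + 4 * S.C / c.p.Lc ∧
    E * (2 * (c.K / c.p.Lg) + 4 * S.C / c.p.Lc) ≤ 3 * c.D ∧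
    4 * S.C * (2 * (c.K / c.p.Lg) + 4 * S.C / c.p.Lc) ≤ 1 := by
  have H := Y.ck83.H
  have D4 := H.Z.D4
  have E1 := H.Z.E1
  have C0 := H.Z.A.cl.C0
  have K1 := Y.K83.1
  have g : 0 < c.p.Lg := by linarith [H.Z.EL]
  have l : 0 < c.p.Lc := by linarith [H.L1]
  have c1 := H.Z.Cp (k := 1) (by norm_num)
  rw [pow_one] at c1
  have a1 : E * (c.K / c.p.Lg) ≤ c.D := by
    rw [← mul_div_assoc, div_le_iff₀ g, mul_comm]
    exact mul_le_mul Y.KD H.Z.EL (by linarith) (by linarith)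
  have a2 : E * (4 * S.C / c.p.Lc) ≤ c.D := by
    rw [← mul_div_assoc, div_le_iff₀ l, mul_comm]
    exact mul_le_mul (by linarith) H.EL (by linarith) (by linarith)
  have t0 : 0 ≤ 2 * (c.K / c.p.Lg) + 4 * S.C / c.p.Lc := by positivity
  have a3 : E * (2 * (c.K / c.p.Lg) + 4 * S.C / c.p.Lc) ≤ 3 * c.D := by linarith
  refine ⟨t0, a3, le_of_mul_le_mul_left ?_ (show 0 < E by linarith)⟩
  nlinarith [mul_le_mul_of_nonneg_left a3 C0.le, H.Z.DpE (i := 2) (by norm_num)]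

/-- **the net of zone I** -/
theorem zi87 {ρ w : ℝ} (hρ : M.rb m a v2 - M.rb m a v ≤ ρ) (w0 : 0 ≤ w)
    (sh : ∀ i k, Nx (GC S M m a c) v v2 i k → ds M m a i k ≤ w) :
    ZI S M m a (2 * S.C) (GC S M m a c) v v2 (ys S M m a v2) (sb M m a S.J - ys S M m a v2)
      (ecC c.D (psi S) S c.p.η c.p.Lc c.p.ηc c.p.γ) (laC c.D S c.p.X2 ρ)
      (alC c.D (psi S) S c.p.Lc) w (2 * (c.K / c.p.Lg) + 4 * S.C / c.p.Lc)
      (c.D ^ 45 * tc S c + c.K * t1 S c.p + S.C * S.v) (M.s S.J / 4) := by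
  have D4 := Y.cw.Z.D4
  have := Y.tc83.1
  exact Y.ck83.H.zi N.v2e (Y.lo87 N) (Y.j087 N).2.1 N.g2 N.mg hρ (by linarith [Y.K83.1]) Y.tw.t0
    (by positivity) w0 le_rfl (Y.th87 N).2.2 sh

/-- the same with a uniform residual -/
theorem zi87' {ec w : ℝ} (e0 : 0 ≤ ec) (w0 : 0 ≤ w)
    (e1 : ∀ k, v ≤ k → k ≤ v2 → GC S M m a c k →
      |res M S m a (2 * S.C) k - res M S m a (2 * S.C) v| ≤ ec)
    (sh : ∀ i k, Nx (GC S M m a c) v v2 i k → ds M m a i k ≤ w) :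
    ZI S M m a (2 * S.C) (GC S M m a c) v v2 (ys S M m a v2) (sb M m a S.J - ys S M m a v2)
      ec 0 0 w (2 * (c.K / c.p.Lg) + 4 * S.C / c.p.Lc)
      (c.D ^ 45 * tc S c + c.K * t1 S c.p + S.C * S.v) (M.s S.J / 4) :=
  have Z := Y.zi87 N le_rfl w0 sh
  { Z with
    nn := ⟨e0, le_rfl, le_rfl, Z.nn.2.2.2⟩
    e1 := fun k a1 a2 a3 => by simpa using e1 k a1 a2 a3 }

end Crest.Agent.T156.Alt.X84.Cy

end
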