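import Crest.Agent.T156.TxBg_9
import Crest.Agent.T156.TxQ_8
import Crest.Agent.T156.TxQ_27
import Crest.Agent.T156.TxBn_7
import Crest.Agent.T156.TxBe_49
import Crest.Agent.T156.TxEr_75
import Crest.Agent.T156.TxZN_87
import Crest.Agent.T156.TxCk_61

/-!
# Row 156, text (L) (helper8): zone I of (TxS), the leaf `TxB`
-/

set_option autoImplicit false

noncomputable section

namespace Crest.Agent.T156.Alt.X84

open MeasureTheory Set Real
open Crest.Agent.T156.Alt.Mp9 Crest.Agent.T156.Alt.L69 Crest.Agent.T156.Alt.L31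

theorem res_two8 {S : Sc} {M : Md} {m : ℕ} {a T : ℝ} (A : At S M m a T) (i k : ℕ) :
    |res M S m a T k - res M S m a T i| ≤ 2 := by
  have a1 := rb_mem (M := M) (a := a) A.m_pos i
  have a2 := rb_mem (M := M) (a := a) A.m_pos k
  have b1 := Pp.Ode3.Gam_nonneg (lb M S m a T) (sb M m a (i + 1))
  have b2 := Pp.Ode3.Gam_le_one (lb M S m a T) (sb M m a (i + 1))
  have b3 := Pp.Ode3.Gam_nonneg (lb M S m a T) (sb M m a (k + 1))
  have b4 := Pp.Ode3.Gam_le_one (lb M S m a T) (sb M m a (k + 1))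
  have e : ∀ t, Pr.Gam (lb M S m a T) t = Pp.Ode3.Gam (lb M S m a T) t := fun _ => rfl
  unfold res
  rw [e, e]
  exact abs_le.2 ⟨by linarith [a1.1, a2.2], by linarith [a1.2, a2.1]⟩

/-- **(TxB)** -/
theorem txB8 : TxB := by
  refine LF.of9 fun E S M m a c K' Y F v v1 v2 N Mt A0 En βs M1 M2 a0 a1 hE β0 β1 => ?_
  have A := Y.A27
  have h := Y.cl27
  have C1 := h.C1
  have C0 := A.c_pos
  have F1 := h.F1
  have F0 := Y.qF0
  have D1 := Y.qD1
  have D0 := Y.qD0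
  have D4 := Y.qD4
  have K1 := Y.qK1
  have B := Y.at27
  have v0 := v_pos h
  have cD : ∀ i, i ≤ 20 → 10 ^ 12 * S.C ^ i ≤ c.D := fun i hi => by
    linarith [F.C20, pow_le_pow_right₀ C1 hi]
  have cp : ∀ i : ℕ, 0 ≤ S.C ^ i := fun i => by positivity
  obtain ⟨μ, hμ⟩ : ∃ μ, μ = At.e48 S / (384 * S.C ^ 4 * S.F) := ⟨_, rfl⟩
  obtain ⟨θ', hθ⟩ : ∃ θ', θ' = 1 / (2 * 10 ^ 7 * S.C ^ 5 * c.K) := ⟨_, rfl⟩
  have θ0 : 0 < θ' := by rw [hθ]; positivity
  have θ2 : 2 * 10 ^ 7 * S.C ^ 5 * c.K * θ' = 1 := by rw [hθ]; field_simp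
  have θ1 : 1 ≤ c.D ^ 2 * θ' := by
    rw [← θ2, sq]
    exact mul_le_mul_of_nonneg_right (mul_le_mul (by linarith [cD 5 (by norm_num), cp 5]) Y.KD
      (by linarith) D0.le) θ0.le
  have Q1 : c.D ≤ c.D ^ 14 * S.F := (le_self_pow₀ D1 (by norm_num)).trans
    (le_mul_of_one_le_right (pow_pos D0 _).le F1)
  have E0 : 0 ≤ E := by linarith [Y.qE2]
  have QE : (c.D ^ 14 * S.F) ^ 10 ≤ E := by
    refine le_of_pow_le_pow_left₀ two_ne_zero E0 ?_
    rw [← pow_mul, mul_pow, ← pow_mul, sq]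
    exact mul_le_mul (Y.DE27 (by norm_num)) ((Y.qFp (by norm_num)).trans Y.hx.F40)
      (pow_pos F0 _).le E0
  obtain ⟨y, hy⟩ : ∃ y, y = c.D ^ 30 * (c.D ^ 14 * S.F) * tc S c := ⟨_, rfl⟩
  have y0 : 0 ≤ y := by rw [hy]; have := Y.qtc0; positivity
  have y1 : c.D ^ 1 * y ≤ 1 := Y.qsmall (k := 44) (j := 2) (by
    have := mul_le_mul_of_nonneg_left Y.qtc_tu (show 0 ≤ c.D ^ 44 * S.F by positivity)
    rw [hy]; linarith) (by norm_num) (by norm_num)
  have y2 : y ≤ 1 / 2 := by nlinarith only [y1, y0, D4]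
  have m0 := B.m0
  have m2 : mf S 1 / (c.D ^ 14 * S.F) ≤ 1 / 2 := by
    rw [div_le_iff₀ (by linarith)]; linarith [m0.2, Y.cw.θ1]
  have q0 : 0 ≤ mf S 1 / (c.D ^ 14 * S.F) + y ^ 2 := by have := m0.1; positivity
  obtain ⟨w, hw⟩ : ∃ w, w = √(mf S 1 / (c.D ^ 14 * S.F) + y ^ 2) := ⟨_, rfl⟩
  have w0 : 0 ≤ w := by rw [hw]; exact sqrt_nonneg _
  have w1 : w ^ 2 = mf S 1 / (c.D ^ 14 * S.F) + y ^ 2 := by rw [hw]; exact sq_sqrt q0
  have w2 : w ^ 2 ≤ 1 := by nlinarith only [w1, m2, y0, y2]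
  have x0 := B.x0
  obtain ⟨ec, hec⟩ : ∃ ec, ec = min (c.D ^ 78 * S.F ^ 2 * X48.xs S M c.p) 2 := ⟨_, rfl⟩
  have e0 : 0 ≤ ec := by rw [hec]; exact le_min (by positivity) (by norm_num)
  have Z := Y.zi87' N e0 w0 (fun k k1 k2 k3 => by
      rw [hec]; exact le_min (Y.res_le N le_rfl k1 k2 N.v2e.g2 k3) (res_two8 A _ _))
    fun i k n => by
      rw [hw, hy]
      exact (le_abs_self _).trans (abs_le_sqrt (Y.sh61 N
        (F.nc _ le_rfl (Y.DE27 (by norm_num)) Y.cw.fn) (D1.trans Q1) QE n))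
  obtain ⟨N1, hN1⟩ : ∃ N1, N1 = 256 * (c.D ^ 80 * S.F ^ 2) ^ 2 * X48.N0 c.p := ⟨_, rfl⟩
  have n0 := B.N_le.2
  have N10 : 0 ≤ N1 := by rw [hN1]; positivity
  have N11 : S.F ^ 3 * N1 ≤ c.D ^ 161 * Nb S M c := by
    have := mul_le_mul (Y.qDs (r := 256) (i := 160) (j := 161) (by norm_num) (by norm_num))
      (Y.qFNb (j := 7) (by norm_num) Y.qN0_le) (mul_nonneg (pow_pos F0 _).le n0) (pow_pos D0 _).le
    rw [hN1]; linarith
  have N12 : N1 ≤ c.D ^ 161 * Nb S M c := (le_mul_of_one_le_left N10 (one_le_pow₀ F1)).trans N11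
  obtain ⟨r, r0, r5⟩ : ∃ r : ℝ, 0 ≤ r ∧ r ^ 5 = min 1 N1 :=
    ⟨_, rpow_nonneg (le_min zero_le_one N10) _,
      rpow_inv_natCast_pow (le_min zero_le_one N10) (by norm_num)⟩
  have t0 : 0 ≤ c.D ^ 50 * S.F ^ 2 * tu S c.p := by have := Y.qtu0; positivity
  obtain ⟨ν, hν⟩ : ∃ ν, ν = max (c.D ^ 50 * S.F ^ 2 * tu S c.p) r := ⟨_, rfl⟩
  have ν0 : 0 ≤ ν := by rw [hν]; exact r0.trans (le_max_right _ _)
  have ν1 : min 1 N1 ≤ ν ^ 5 := by
    rw [← r5, hν]; exact pow_le_pow_left₀ r0 (le_max_right _ _) 5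
  have ν5 : ν ^ 5 ≤ c.D ^ 251 * Nb S M c := by
    rw [hν]
    rcases le_total (c.D ^ 50 * S.F ^ 2 * tu S c.p) r with q | q
    · rw [max_eq_right q, r5]
      exact (min_le_right _ _).trans (N12.trans (Y.qDNb (by norm_num)))
    · rw [max_eq_left q]
      exact (Y.qmar (k := 50) (j := 2) t0 le_rfl (by norm_num) le_rfl).2.2.1
  obtain ⟨μ0, -, μ2, -, -, -⟩ := Y.base7 hμ
  have L := Y.nl7' hμ ν0 (N := c.D ^ 790 * Nb S M c) (by
    have a1 := Y.qDNb (i := 232) (j := 251) (by norm_num)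
    have a2 := mul_le_mul_of_nonneg_right
      (Y.qDs (r := 2) (i := 251) (j := 790) (by norm_num) (by norm_num)) Y.qNb0.le
    rw [mul_assoc] at a2
    linarith only [a1, a2, ν5])
  obtain ⟨⟨hk, h4⟩, -⟩ := Y.hk4 (K := K') (x := 0) (ν := ν) (by linarith [cD 11 (by norm_num), cp 11]) hμ rfl
    (by linarith [F.K1]) F.KΛ θ1 w0 (by rw [w1, hy]) (by rw [hν]; exact le_max_left _ _)
    (by rw [mul_zero]; positivity)
  have cv := mul_pos C0 v0
  have θ3 := h.θ0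
  have θ4 := Y.cw.θ1
  have f2 : S.F ≤ S.F ^ 2 := le_self_pow₀ F1 two_ne_zero
  have vx : S.v ≤ X48.xs S M c.p := by
    have n1 : (1 : ℝ) ≤ S.n := by exact_mod_cast n_pos h
    exact F.v4.trans ((one_div_le_one_div_of_le (by linarith) (le_self_pow₀ n1 (by norm_num))).trans
      (B.a7.1.trans B.a2))
  have g1 : S.C ^ 2 * S.F * S.θ ≤ S.C ^ 2 * S.F := mul_le_of_le_one_right (by positivity) θ4
  have g0 : 0 ≤ S.C ^ 2 * S.F * S.θ := by positivity
  have g2 := mul_le_mul_of_nonneg_left w2 cv.le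
  have i0 : (0 : ℝ) ≤ 1 / (m + 1) := by positivity
  have i1 : (1 : ℝ) / (m + 1) ≤ 1 := by
    rw [div_le_one (by positivity)]; linarith [Nat.cast_nonneg (α := ℝ) m]
  obtain ⟨τ, τ0, τ1, τ3⟩ := h0_tau (W := c.D ^ 2 * S.F) (N := N1)
    (x := βs + (3 * (ec + 1 / (m + 1)) + 2 * (S.C ^ 2 * S.F * S.θ) * (S.C * S.v) +
      4 * (S.C * S.v) * w ^ 2)) θ3 μ0 (one_le_mul_of_one_le_of_one_le (one_le_pow₀ D1) F1) μ2 N10 ν0
    ν1 (by positivity)
    (by
      have b1 := β1.trans (Y.KbE_one (by linarith [cD 1 (by norm_num), cp 1]) N)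
      have b2 : ec ≤ 2 := by rw [hec]; exact min_le_right _ _
      have b3 := mul_le_mul g1 L.n1' cv.le (by positivity)
      have b4 := mul_le_mul_of_nonneg_right (cD 2 (by norm_num)) F0.le
      have b5 := mul_le_mul_of_nonneg_right (le_self_pow₀ D1 two_ne_zero) F0.le
      have b6 := mul_le_mul_of_nonneg_right (one_le_pow₀ C1 (n := 2)) F0.le
      linarith only [b1, b2, b3, b4, b5, b6, g2, L.n1', i1, F1])
    (B.sm_mul θ3.le (W := c.D ^ 80 * S.F ^ 2)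
      (one_le_mul_of_one_le_of_one_le (one_le_pow₀ D1) (one_le_pow₀ F1)) (by
      have b1 := β1.trans (Y.KbE_le N)
      have b2 : ec ≤ c.D ^ 78 * S.F ^ 2 * X48.xs S M c.p := by rw [hec]; exact min_le_left _ _
      have b3 := mul_le_mul g1 (mul_le_mul_of_nonneg_left vx C0.le) cv.le (by positivity)
      have z0 : 0 ≤ S.F ^ 2 * X48.xs S M c.p := by positivity
      have z1 := mul_le_mul_of_nonneg_right (F1.trans f2) x0
      have b4 := mul_le_mul_of_nonneg_right (Y.qDp (i := 3) (j := 78) (by norm_num)) z0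
      have b5 := mul_le_mul_of_nonneg_right (Y.qDs (r := 10) (i := 78) (j := 80) (by norm_num)
        (by norm_num)) z0
      have b6 := mul_le_mul_of_nonneg_right ((cD 3 (by norm_num)).trans
        (le_self_pow₀ D1 (n := 78) (by norm_num))) z0
      have b7 := mul_le_mul_of_nonneg_left (mul_le_mul_of_nonneg_right f2 x0) (cp 3)
      have b8 := mul_le_mul (le_self_pow₀ C1 (n := 3) (by norm_num)) (vx.trans (by linarith only [z1] :
        _ ≤ S.F ^ 2 * X48.xs S M c.p)) v0.le (cp 3)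
      have b9 := mul_le_mul_of_nonneg_right (one_le_pow₀ C1 (n := 3)) z0
      linarith only [b1, b2, b3, b4, b5, b6, b7, b8, b9, z0, z1, g2, B.a7.2, B.a2])
      (by rw [hN1]))
  refine Y.txB_at F N Z M1 M2 a0 a1 hE β0 hμ θ0 (θ1.trans (mul_le_mul_of_nonneg_right
    (Y.qDp (by norm_num)) θ0.le)) θ2.le ν0 τ0 le_rfl (by linarith only [τ1])
    (by linarith only [hk]) h4 L.n1 L.n2 (τ3.trans ?_) L.n4 L.n5 L.n6 L.n7
  have a2 := mul_le_mul_of_nonneg_left N11 (pow_pos D0 6).le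
  have a3 := Y.qDNb (i := 167) (j := 790) (by norm_num)
  generalize c.D ^ 790 * Nb S M c = z at *
  linarith only [a2, a3]

end Crest.Agent.T156.Alt.X84

end
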