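import Crest.Agent.T156.KeyD_88
import Crest.Agent.T156.TxB_8

/-!
# Row 156 (helper88): the key estimate
-/

set_option autoImplicit false

namespace Crest.Agent.T156.Alt

/-- **the key estimate** -/
theorem key {β : ℝ} (hβ : 1 < β) : Soft.Key β := Z88.key_t hβ (Z88.txS X84.txB8)

end Crest.Agent.T156.Alt
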