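import Crest.Agent.T156.SoftDef_88

/-!
# Row 156, soft part: `S27` gives `S24` and `S28` (helper74)
-/

set_option autoImplicit false
open MeasureTheory ProbabilityTheory Filter Topology Set
open Crest.ProbabilityR.SpinGlass

namespace Crest.Agent.T156.Soft

namespace A248

theorem tend_of_rate (m : ℕ → ℝ) (a c C : ℝ) (hc : 0 < c)
    (h : ∀ n : ℕ, 2 ≤ n → |m n - a| ≤ C * (n : ℝ) ^ (-c)) : Tendsto m atTop (𝓝 a) := by
  have h0 : Tendsto (fun n : ℕ => C * (n : ℝ) ^ (-c)) atTop (𝓝 0) := by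
    have := ((tendsto_rpow_neg_atTop hc).comp tendsto_natCast_atTop_atTop).const_mul C
    simpa using this
  rw [tendsto_iff_dist_tendsto_zero]
  refine squeeze_zero' (Eventually.of_forall fun _ => dist_nonneg) ?_ h0
  filter_upwards [eventually_ge_atTop 2] with n hn
  rw [Real.dist_eq]
  exact h n hn

theorem std_eq (n : ℕ) (hn : 1 ≤ n) (V y : ℝ) :
    (n : ℝ) ^ (-(1 : ℝ) / 6) * y / Real.sqrt (V / (n : ℝ) ^ ((1 : ℝ) / 3)) = y / Real.sqrt V := by
  have hn0 : (0 : ℝ) < n := by exact_mod_cast hn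
  have h1 : (0 : ℝ) < (n : ℝ) ^ ((1 : ℝ) / 6) := Real.rpow_pos_of_pos hn0 _
  have h2 : (n : ℝ) ^ ((1 : ℝ) / 3) = ((n : ℝ) ^ ((1 : ℝ) / 6)) ^ 2 := by
    rw [← Real.rpow_natCast, ← Real.rpow_mul hn0.le]; norm_num
  have h3 : (n : ℝ) ^ (-(1 : ℝ) / 6) = ((n : ℝ) ^ ((1 : ℝ) / 6))⁻¹ := by
    rw [← Real.rpow_neg hn0.le]; norm_num
  rw [h2, h3, Real.sqrt_div' _ (sq_nonneg _), Real.sqrt_sq h1.le]
  by_cases hV : Real.sqrt V = 0
  · simp [hV]
  · field_simp

theorem sqrt_pow_eq (v : ℝ) (hv : 0 < v) (k : ℕ) : Real.sqrt v ^ k = v ^ ((k : ℝ) / 2) := by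
  rw [Real.sqrt_eq_rpow, ← Real.rpow_natCast, ← Real.rpow_mul hv.le]
  congr 1; ring

/-- the limit law of the standardised variables -/
theorem limit (hB : BasicStmt) (hX : XMomStmt) (hD : DetStmt) (hL : LimitStmt) (β c C : ℝ)
    (a : ℕ → ℝ) (hc : 0 < c) (ha : 0 < a 2)
    (hy : ∀ n : ℕ, 2 ≤ n → ∫ x, Real.exp (c * |x|) ∂yLaw n β ≤ C)
    (ht : ∀ k : ℕ, 1 ≤ k → Tendsto (fun n : ℕ => fluctuationMoment β k n) atTop (𝓝 (a k))) :
    ∃ ν : Measure ℝ, IsProbabilityMeasure ν ∧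
      (∃ c : ℝ, 0 < c ∧ Integrable (fun x => Real.exp (c * |x|)) ν) ∧
      (∀ k : ℕ, 1 ≤ k → Integrable (fun x => x ^ k) ν ∧
        ∫ x, x ^ k ∂ν = a k / a 2 ^ ((k : ℝ) / 2)) ∧
      ∀ f : BoundedContinuousFunction ℝ ℝ,
        Tendsto
          (fun n : ℕ => ∫ g, f ((logPartitionFunction n β g -
              ∫ g', logPartitionFunction n β g' ∂disorderLaw n) /
              Real.sqrt (variance (logPartitionFunction n β) (disorderLaw n)))
            ∂disorderLaw n)
          atTop (𝓝 (∫ x, f x ∂ν)) := by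
  obtain ⟨hxe, hxm⟩ := hX hB β c C a hc hy ht
  set s : ℕ → ℝ := fun n => Real.sqrt (∫ x, x ^ 2 ∂xLaw n β) with hs
  have hsa : 0 < Real.sqrt (a 2) := Real.sqrt_pos.2 ha
  have hst : Tendsto s atTop (𝓝 (Real.sqrt (a 2))) :=
    (Real.continuous_sqrt.tendsto _).comp (hxm 2 (by norm_num))
  have hN : ∀ n, Nice (xLaw n β) := fun n => (hB n β).2.2.2.2.2.2.2.2.2.2.1
  have hme : ∀ n, Measurable (fun x : ℝ => x / s n) := fun n => measurable_id.div_const _
  set μ : ℕ → Measure ℝ := fun n => (xLaw n β).map (fun x => x / s n) with hμ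
  have hμp : ∀ n, IsProbabilityMeasure (μ n) := fun n => by
    haveI := (hN n).prob
    exact Measure.isProbabilityMeasure_map (hme n).aemeasurable
  have hc' : 0 < c * (Real.sqrt (a 2) / 2) := by positivity
  have hev : ∀ᶠ n in atTop, Integrable (fun x => Real.exp (c * (Real.sqrt (a 2) / 2) * |x|)) (μ n) ∧
      ∫ x, Real.exp (c * (Real.sqrt (a 2) / 2) * |x|) ∂μ n ≤ C := by
    have h1 : ∀ᶠ n in atTop, Real.sqrt (a 2) / 2 < s n :=
      hst.eventually (lt_mem_nhds (by linarith))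
    filter_upwards [h1, eventually_ge_atTop 2] with n hn hn2
    have hs0 : 0 < s n := by linarith
    have hcont : Continuous (fun x : ℝ => Real.exp (c * (Real.sqrt (a 2) / 2) * |x|)) := by
      fun_prop
    have hle : ∀ x : ℝ, Real.exp (c * (Real.sqrt (a 2) / 2) * |x / s n|) ≤ Real.exp (c * |x|) := by
      intro x
      apply Real.exp_le_exp.2
      rw [abs_div, abs_of_pos hs0, mul_assoc]
      apply mul_le_mul_of_nonneg_left _ hc.le
      rw [← mul_div_assoc, div_le_iff₀ hs0, mul_comm]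
      exact mul_le_mul_of_nonneg_left hn.le (abs_nonneg _)
    have hint : Integrable (fun x : ℝ => Real.exp (c * (Real.sqrt (a 2) / 2) * |x / s n|))
        (xLaw n β) := by
      refine ((hN n).expInt c).mono' ?_ (Eventually.of_forall fun x => ?_)
      · exact (hcont.measurable.comp (hme n)).aestronglyMeasurable
      · rw [Real.norm_eq_abs, abs_of_pos (Real.exp_pos _)]; exact hle x
    refine ⟨?_, ?_⟩
    · exact (integrable_map_measure hcont.aestronglyMeasurable (hme n).aemeasurable).2 hint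
    · simp only [hμ]
      rw [integral_map (hme n).aemeasurable hcont.aestronglyMeasurable]
      exact (integral_mono hint ((hN n).expInt c) hle).trans (hxe n hn2)
  have hmom : ∀ k : ℕ, 1 ≤ k → Tendsto (fun n => ∫ x, x ^ k ∂μ n) atTop
      (𝓝 (a k / a 2 ^ ((k : ℝ) / 2))) := by
    intro k hk
    have h1 : ∀ n, ∫ x, x ^ k ∂μ n = (∫ x, x ^ k ∂xLaw n β) / s n ^ k := by
      intro n
      simp only [hμ]
      rw [integral_map (hme n).aemeasurable (continuous_pow k).aestronglyMeasurable]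
      simp only [div_pow]
      exact integral_div _ _
    simp only [h1]
    rw [← sqrt_pow_eq _ ha]
    exact (hxm k hk).div (hst.pow k) (pow_pos hsa k).ne'
  obtain ⟨ν, hν, hνe, hνm, hνf⟩ :=
    hL hD μ (fun k => a k / a 2 ^ ((k : ℝ) / 2)) _ C hμp hc' hev hmom
  refine ⟨ν, hν, ⟨_, hc', hνe⟩, hνm, fun f => (hνf f).congr' ?_⟩
  filter_upwards [eventually_ge_atTop 1] with n hn
  have hxc : Continuous (xs n β) := (hB n β).2.2.2.2.2.1
  simp only [hμ]
  rw [integral_map (hme n).aemeasurable f.continuous.aestronglyMeasurable]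
  have hfm : AEStronglyMeasurable (fun x : ℝ => f (x / s n)) ((disorderLaw n).map (xs n β)) :=
    (f.continuous.measurable.comp (hme n)).aestronglyMeasurable
  rw [xLaw, integral_map hxc.measurable.aemeasurable hfm]
  refine integral_congr_ae (Eventually.of_forall fun g => ?_)
  have h2 := (hB n β).2.2.2.2.2.2.2.2.2.2.2.2.2
  simp only [hs, h2, xs]
  rw [std_eq n hn]

end A248

theorem a248Stmt : A248Stmt := by
  intro hB hX hC hCB hD hL hS hSe β h27
  obtain ⟨a, ha1, ha2, hk, c, hc, C, hexp⟩ := h27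
  have hy : ∀ n : ℕ, 2 ≤ n → ∫ x, Real.exp (c * |x|) ∂yLaw n β ≤ C := by
    intro n hn
    have hsc : Continuous (scaledFluctuation n β) := (hB n β).2.2.2.2.1
    have hcont : Continuous (fun x : ℝ => Real.exp (c * |x|)) := by fun_prop
    rw [yLaw, integral_map hsc.measurable.aemeasurable hcont.aestronglyMeasurable]
    exact (hexp n hn).2
  have ht : ∀ k : ℕ, 1 ≤ k →
      Tendsto (fun n : ℕ => fluctuationMoment β k n) atTop (𝓝 (a k)) := by
    intro k hk1
    obtain ⟨c', hc', C', h⟩ := hk k hk1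
    exact A248.tend_of_rate _ _ c' C' hc' fun n hn => (h n hn).2
  obtain ⟨ν, hν, hνe, hνm, hνf⟩ := A248.limit hB hX hD hL β c C a hc ha2 hy ht
  refine ⟨⟨ν, hν, ?_, ?_, hνe, hνf⟩, a, fun k hk1 => ⟨fun l _ => hC hB l β k, fun h => ?_, ?_,
    ht k hk1⟩, ha2, ν, hν, hνf, hνm⟩
  · have := (hνm 1 le_rfl).2
    simpa [ha1] using this
  · have := (hνm 2 (by norm_num)).2
    rw [this]
    have h2 : ((2 : ℕ) : ℝ) / 2 = 1 := by norm_num
    rw [h2, Real.rpow_one, div_self ha2.ne']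
  · obtain ⟨K, hK⟩ := hCB hB k c C hc
    refine hS (fun l => ∫ ω, |copyProduct l β k ω| ∂copyLaw l β k) K h fun l hl => ?_
    rw [abs_of_nonneg (integral_nonneg fun _ => abs_nonneg _)]
    exact hK l β (hy l hl)
  · obtain ⟨c', hc', C', h⟩ := hk k hk1
    have := hSe (fun l => fluctuationMoment β k l) (a k) c' C' hc' fun l hl => (h l hl).2
    simpa only [(hC hB _ β k).2] using this

end Crest.Agent.T156.Soft
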