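import Crest.Agent.T156.SoftDef_88

/-!
# Row 156, soft part: `S27` gives `S25` and `S26` (helper64)
-/

set_option autoImplicit false
open MeasureTheory ProbabilityTheory Filter Topology Set
open Crest.ProbabilityR.SpinGlass

namespace Crest.Agent.T156.Soft

namespace A256

/-- a power rate gives convergence -/
theorem tendsto_of_rate (m : ℕ → ℝ) (a c C : ℝ) (hc : 0 < c)
    (h : ∀ n : ℕ, 2 ≤ n → |m n - a| ≤ C * (n : ℝ) ^ (-c)) : Tendsto m atTop (𝓝 a) := by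
  have h0 : Tendsto (fun n : ℕ => C * (n : ℝ) ^ (-c)) atTop (𝓝 0) := by
    have := ((tendsto_rpow_neg_atTop hc).comp tendsto_natCast_atTop_atTop).const_mul C
    simpa using this
  rw [tendsto_iff_norm_sub_tendsto_zero]
  refine squeeze_zero' (Eventually.of_forall fun n => norm_nonneg _) ?_ h0
  filter_upwards [eventually_ge_atTop 2] with n hn
  simpa [Real.norm_eq_abs] using h n hn

theorem sq_int {μ : Measure ℝ} (h : Nice μ) : Integrable (fun x => x ^ 2) μ := by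
  refine ((h.expInt 1).const_mul 2).mono' (by fun_prop) (Eventually.of_forall fun x => ?_)
  have h1 := Real.quadratic_le_exp_of_nonneg (abs_nonneg x)
  have h2 : |x| ^ 2 = x ^ 2 := sq_abs x
  have h3 := abs_nonneg x
  rw [Real.norm_eq_abs, abs_of_nonneg (sq_nonneg x), one_mul]
  linarith

/-- the mass of an annulus -/
theorem ann {μ : Measure ℝ} (h : Nice μ) {r R ε : ℝ} (hr : r ≤ ε) (hR : 0 < R) :
    1 - μ.real (Ioo (-ε) ε) - (∫ x, x ^ 2 ∂μ) / R ^ 2 ≤ μ.real {x | r ≤ |x| ∧ |x| ≤ R} := by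
  have := h.prob
  have hcov : (univ : Set ℝ) ⊆ ({x | r ≤ |x| ∧ |x| ≤ R} ∪ Ioo (-ε) ε) ∪ {x | R ^ 2 ≤ x ^ 2} := by
    intro x _
    by_cases h1 : |x| ≤ R
    · by_cases h2 : r ≤ |x|
      · exact Or.inl (Or.inl ⟨h2, h1⟩)
      · refine Or.inl (Or.inr ?_)
        have : |x| < ε := lt_of_lt_of_le (not_le.mp h2) hr
        exact abs_lt.mp this
    · refine Or.inr ?_
      have h3 : R ≤ |x| := (not_le.mp h1).le
      have : R ^ 2 ≤ |x| ^ 2 := pow_le_pow_left₀ hR.le h3 2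
      simpa [sq_abs] using this
  have h1 : μ.real univ ≤ μ.real {x | r ≤ |x| ∧ |x| ≤ R} + μ.real (Ioo (-ε) ε) +
      μ.real {x | R ^ 2 ≤ x ^ 2} :=
    (measureReal_mono hcov).trans ((measureReal_union_le _ _).trans
      (add_le_add (measureReal_union_le _ _) le_rfl))
  rw [probReal_univ] at h1
  have h2 : R ^ 2 * μ.real {x | R ^ 2 ≤ x ^ 2} ≤ ∫ x, x ^ 2 ∂μ :=
    mul_meas_ge_le_integral_of_nonneg (Eventually.of_forall fun x => sq_nonneg x) (sq_int h) _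
  have h3 : μ.real {x | R ^ 2 ≤ x ^ 2} ≤ (∫ x, x ^ 2 ∂μ) / R ^ 2 := by
    rw [le_div_iff₀ (by positivity)]
    linarith
  linarith

theorem set_eq (n : ℕ) (hn : 1 ≤ n) (β η : ℝ) :
    {g | (n : ℝ) ^ ((1 : ℝ) / 6 - η) ≤
              |logPartitionFunction n β g - ∫ g', logPartitionFunction n β g' ∂disorderLaw n| ∧
            |logPartitionFunction n β g - ∫ g', logPartitionFunction n β g' ∂disorderLaw n| ≤
              (n : ℝ) ^ ((1 : ℝ) / 6 + η)} =
      xs n β ⁻¹' {x | (n : ℝ) ^ (-η) ≤ |x| ∧ |x| ≤ (n : ℝ) ^ η} := by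
  have hn0 : (0 : ℝ) < n := by exact_mod_cast hn
  have hp : 0 < (n : ℝ) ^ (-(1 : ℝ) / 6) := Real.rpow_pos_of_pos hn0 _
  have e1 : (n : ℝ) ^ (-η) = (n : ℝ) ^ (-(1 : ℝ) / 6) * (n : ℝ) ^ ((1 : ℝ) / 6 - η) := by
    rw [← Real.rpow_add hn0]; congr 1; ring
  have e2 : (n : ℝ) ^ η = (n : ℝ) ^ (-(1 : ℝ) / 6) * (n : ℝ) ^ ((1 : ℝ) / 6 + η) := by
    rw [← Real.rpow_add hn0]; congr 1; ring
  ext g
  simp only [mem_ofPred_eq, mem_preimage, xs]
  rw [abs_mul, abs_of_pos hp, e1, e2, mul_le_mul_iff_right₀ hp, mul_le_mul_iff_right₀ hp]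

end A256

open A256 in
theorem a256Stmt : A256Stmt := by
  intro hB hL hX hA β ⟨a, _, ha2, hmom, c, hc, C, hexp⟩
  have hlim : ∀ k : ℕ, 1 ≤ k → Tendsto (fun n : ℕ => fluctuationMoment β k n) atTop (𝓝 (a k)) := by
    intro k hk
    obtain ⟨c', hc', C', h⟩ := hmom k hk
    exact tendsto_of_rate _ _ c' C' hc' fun n hn => (h n hn).2
  have hy : ∀ n : ℕ, 2 ≤ n → ∫ x, Real.exp (c * |x|) ∂yLaw n β ≤ C := by
    intro n hn
    have hcont : Continuous (scaledFluctuation n β) := (hB n β).2.2.2.2.1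
    rw [yLaw, integral_map hcont.measurable.aemeasurable (by fun_prop)]
    exact (hexp n hn).2
  obtain ⟨_, hx⟩ := hX hB β c C a hc hy hlim
  have hnice : ∀ n : ℕ, Nice (xLaw n β) := fun n => (hB n β).2.2.2.2.2.2.2.2.2.2.1
  have hvar : ∀ n : ℕ, ∫ x, x ^ 2 ∂xLaw n β =
      variance (logPartitionFunction n β) (disorderLaw n) / (n : ℝ) ^ ((1 : ℝ) / 3) :=
    fun n => (hB n β).2.2.2.2.2.2.2.2.2.2.2.2.2
  have h2 := hx 2 (by norm_num)
  have h4 := hx 4 (by norm_num)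
  refine ⟨⟨a 2, ha2, by simpa only [hvar] using h2⟩, fun η hη => ⟨?_, ?_⟩⟩
  · have hlo : ∀ᶠ n : ℕ in atTop, a 2 / 2 < ∫ x, x ^ 2 ∂xLaw n β :=
      h2.eventually (lt_mem_nhds (by linarith))
    have hhi : ∀ᶠ n : ℕ in atTop, ∫ x, x ^ 2 ∂xLaw n β < a 2 + 1 :=
      h2.eventually (gt_mem_nhds (by linarith))
    have hs : ∀ᶠ n : ℕ in atTop, (n : ℝ) ^ (-(2 * η)) < a 2 / 2 :=
      ((tendsto_rpow_neg_atTop (by linarith : 0 < 2 * η)).comp
        tendsto_natCast_atTop_atTop).eventually (gt_mem_nhds (by linarith))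
    have hb : ∀ᶠ n : ℕ in atTop, a 2 + 1 < (n : ℝ) ^ (2 * η) :=
      ((tendsto_rpow_atTop (by linarith : 0 < 2 * η)).comp
        tendsto_natCast_atTop_atTop).eventually (eventually_gt_atTop _)
    obtain ⟨n₀, hn₀⟩ := eventually_atTop.mp
      (hlo.and (hhi.and (hs.and (hb.and (eventually_ge_atTop 1)))))
    refine ⟨n₀, fun n hn => ?_⟩
    obtain ⟨h1, h2', h3, h4', h5⟩ := hn₀ n hn
    have hn0 : (0 : ℝ) < n := by exact_mod_cast h5
    have hp : 0 < (n : ℝ) ^ ((1 : ℝ) / 3) := Real.rpow_pos_of_pos hn0 _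
    rw [hvar] at h1 h2'
    have e1 : ((n : ℝ) ^ ((1 : ℝ) / 6 - η)) ^ 2 = (n : ℝ) ^ (-(2 * η)) * (n : ℝ) ^ ((1 : ℝ) / 3) := by
      rw [sq, ← Real.rpow_add hn0, ← Real.rpow_add hn0]; congr 1; ring
    have e2 : ((n : ℝ) ^ ((1 : ℝ) / 6 + η)) ^ 2 = (n : ℝ) ^ (2 * η) * (n : ℝ) ^ ((1 : ℝ) / 3) := by
      rw [sq, ← Real.rpow_add hn0, ← Real.rpow_add hn0]; congr 1; ring
    constructor
    · refine Real.le_sqrt_of_sq_le ?_
      rw [e1, ← le_div_iff₀ hp]
      linarith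
    · refine Real.sqrt_le_iff.mpr ⟨(Real.rpow_pos_of_pos hn0 _).le, ?_⟩
      rw [e2, ← div_le_iff₀ hp]
      linarith
  · rw [tendsto_order]
    refine ⟨fun t ht => ?_, fun t ht => Eventually.of_forall fun n => ?_⟩
    · obtain ⟨ε, hε, hanti⟩ := hA (a 2 / 2) (a 4 + 1) ((1 - t) / 2) (by linarith) (by linarith)
      have hlo : ∀ᶠ n : ℕ in atTop, a 2 / 2 < ∫ x, x ^ 2 ∂xLaw n β :=
        h2.eventually (lt_mem_nhds (by linarith))
      have hhi : ∀ᶠ n : ℕ in atTop, ∫ x, x ^ 4 ∂xLaw n β < a 4 + 1 :=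
        h4.eventually (gt_mem_nhds (by linarith))
      have hs : ∀ᶠ n : ℕ in atTop, (n : ℝ) ^ (-η) < ε :=
        ((tendsto_rpow_neg_atTop hη).comp
          tendsto_natCast_atTop_atTop).eventually (gt_mem_nhds hε)
      have hinf : Tendsto (fun n : ℕ => ((n : ℝ) ^ η) ^ 2) atTop atTop :=
        (tendsto_pow_atTop two_ne_zero).comp
          ((tendsto_rpow_atTop hη).comp tendsto_natCast_atTop_atTop)
      have hc0 : ∀ᶠ n : ℕ in atTop, (∫ x, x ^ 2 ∂xLaw n β) / ((n : ℝ) ^ η) ^ 2 < (1 - t) / 2 :=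
        (h2.div_atTop hinf).eventually (gt_mem_nhds (by linarith))
      filter_upwards [hlo, hhi, hs, hc0, eventually_ge_atTop 1] with n h1 h2' h3 h4' h5
      have hn0 : (0 : ℝ) < n := by exact_mod_cast h5
      have hcont : Continuous (xs n β) := (hB n β).2.2.2.2.2.1
      have hms : MeasurableSet {x : ℝ | (n : ℝ) ^ (-η) ≤ |x| ∧ |x| ≤ (n : ℝ) ^ η} :=
        (measurableSet_le measurable_const measurable_abs).inter
          (measurableSet_le measurable_abs measurable_const)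
      rw [set_eq n h5 β η, ← map_measureReal_apply hcont.measurable hms]
      have h6 := ann (hnice n) h3.le (Real.rpow_pos_of_pos hn0 η)
      have h7 := hanti _ (hnice n) (hL hB n β).1 h1.le h2'.le
      change t < (xLaw n β).real _
      linarith
    · have := (hB n β).1
      exact lt_of_le_of_lt measureReal_le_one ht

end Crest.Agent.T156.Soft
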