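import Crest.Agent.T156.SoftDef_88

/-!
# Row 156, soft part, leaf `AntiStmt` (helper31)

A centred law with a log-concave distribution function, second moment `≥ v` and fourth moment
`≤ K` has little mass near zero.
-/

set_option autoImplicit false
open MeasureTheory ProbabilityTheory Filter Topology Set

namespace Crest.Agent.T156.Soft

namespace Anti31

theorem integrable_pow {μ : Measure ℝ} (h : Nice μ) (k : ℕ) :
    Integrable (fun x : ℝ => x ^ k) μ := by
  have h1 := (h.expInt 1).const_mul (k.factorial : ℝ)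
  refine h1.mono' (by fun_prop) (Eventually.of_forall fun x => ?_)
  have h2 := Real.pow_div_factorial_le_exp (|x|) (abs_nonneg x) k
  have h3 : (0 : ℝ) < k.factorial := by positivity
  rw [div_le_iff₀ h3] at h2
  rw [Real.norm_eq_abs, abs_pow, one_mul]
  linarith

theorem sq_le (A x : ℝ) (hA : 0 < A) : x ^ 2 ≤ A * |x| + x ^ 4 / A ^ 2 := by
  have hx := abs_nonneg x
  have h2 : x ^ 2 = |x| ^ 2 := (sq_abs x).symm
  have h4 : x ^ 4 = (x ^ 2) ^ 2 := by ring
  rcases le_total |x| A with h | h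
  · have : 0 ≤ x ^ 4 / A ^ 2 := by positivity
    nlinarith
  · have h5 : A ^ 2 ≤ x ^ 2 := by rw [h2]; exact pow_le_pow_left₀ hA.le h 2
    have h6 : x ^ 2 ≤ x ^ 4 / A ^ 2 := by
      rw [le_div_iff₀ (by positivity), h4]
      nlinarith [sq_nonneg x]
    nlinarith [mul_nonneg hA.le hx]

theorem mul_abs_le (A x : ℝ) (hA : 0 < A) : A * |x| ≤ A ^ 2 + x ^ 4 / A ^ 2 := by
  have h := sq_le A x hA
  have hx := abs_nonneg x
  have h2 : x ^ 2 = |x| ^ 2 := (sq_abs x).symm
  rcases le_total |x| A with h1 | h1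
  · have : 0 ≤ x ^ 4 / A ^ 2 := by positivity
    nlinarith
  · have h5 : A ^ 2 ≤ x ^ 2 := by rw [h2]; exact pow_le_pow_left₀ hA.le h1 2
    have h4 : x ^ 4 = (x ^ 2) ^ 2 := by ring
    have h6 : x ^ 2 ≤ x ^ 4 / A ^ 2 := by
      rw [le_div_iff₀ (by positivity), h4]
      nlinarith [sq_nonneg x]
    nlinarith [sq_nonneg A]

theorem point (A a x : ℝ) (hA : 0 < A) (ha : 0 < a) :
    x ^ 2 ≤ A * x + 2 * A * a + 2 * A ^ 2 * (Iic (-a)).indicator (fun _ => (1 : ℝ)) x +
      3 / A ^ 2 * x ^ 4 := by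
  have h1 := sq_le A x hA
  have h2 := mul_abs_le A x hA
  have h3 : 3 / A ^ 2 * x ^ 4 = 3 * (x ^ 4 / A ^ 2) := by ring
  have h4 : 0 ≤ x ^ 4 / A ^ 2 := by positivity
  have h5 : 0 < A * a := mul_pos hA ha
  rw [h3]
  by_cases hx : x ∈ Iic (-a)
  · rw [indicator_of_mem hx]
    have hx' : x ≤ -a := hx
    have h6 : |x| = -x := abs_of_nonpos (by linarith)
    rw [h6] at h1 h2
    nlinarith
  · rw [indicator_of_notMem hx]
    have hx' : -a < x := not_le.mp hx
    have h6 : |x| ≤ x + 2 * a := abs_le.mpr ⟨by linarith, by linarith⟩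
    have h7 := mul_le_mul_of_nonneg_left h6 hA.le
    nlinarith

theorem lower {μ : Measure ℝ} (h : Nice μ) (A a : ℝ) (hA : 0 < A) (ha : 0 < a) :
    ∫ x, x ^ 2 ∂μ ≤ 2 * A * a + 2 * A ^ 2 * μ.real (Iic (-a)) + 3 / A ^ 2 * ∫ x, x ^ 4 ∂μ := by
  have := h.prob
  have i1 : Integrable (fun x : ℝ => x) μ := by simpa using integrable_pow h 1
  have i2 := integrable_pow h 2
  have i4 := integrable_pow h 4
  have ii : Integrable (fun x => (Iic (-a)).indicator (fun _ => (1 : ℝ)) x) μ :=
    (integrable_const (1 : ℝ)).indicator measurableSet_Iic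
  have j1 : Integrable (fun x : ℝ => A * x) μ := i1.const_mul A
  have j2 : Integrable (fun x : ℝ => A * x + 2 * A * a) μ := j1.add (integrable_const _)
  have j3 : Integrable
      (fun x : ℝ => 2 * A ^ 2 * (Iic (-a)).indicator (fun _ => (1 : ℝ)) x) μ := ii.const_mul _
  have j4 : Integrable (fun x : ℝ => A * x + 2 * A * a +
      2 * A ^ 2 * (Iic (-a)).indicator (fun _ => (1 : ℝ)) x) μ := j2.add j3
  have j5 : Integrable (fun x : ℝ => 3 / A ^ 2 * x ^ 4) μ := i4.const_mul _
  have key := integral_mono i2 (j4.add j5) (fun x => point A a x hA ha)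
  simp only [Pi.add_apply] at key
  rw [integral_add j4 j5, integral_add j2 j3, integral_add j1 (integrable_const _),
    integral_const_mul A, integral_const_mul (2 * A ^ 2), integral_const_mul (3 / A ^ 2), h.mean,
    integral_const, integral_indicator measurableSet_Iic, setIntegral_const] at key
  simp only [probReal_univ, smul_eq_mul, one_mul, mul_zero, zero_add, mul_one] at key
  exact key

end Anti31

open Anti31 in
theorem antiStmt : AntiStmt := by
  intro v K τ hv hτ
  set K' : ℝ := max K 1 with hK'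
  have hK1 : 1 ≤ K' := le_max_right _ _
  set A : ℝ := 12 * K' / v + 1 with hAdef
  have hA0 : 0 ≤ 12 * K' / v := by positivity
  have hA1 : 1 ≤ A := by linarith
  have hA : 0 < A := by linarith
  set a : ℝ := v / (8 * A) with hadef
  have ha : 0 < a := by positivity
  set p : ℝ := v / (4 * A ^ 2) with hpdef
  have hp : 0 < p := by positivity
  set L : ℝ := |Real.log p| + 1 with hLdef
  have hL : 0 < L := by positivity
  set ε : ℝ := min (a / 2) (τ * a / (2 * L)) with hεdef
  have hε : 0 < ε := lt_min (by positivity) (by positivity)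
  have hε1 : ε ≤ a / 2 := min_le_left _ _
  have hε2 : ε ≤ τ * a / (2 * L) := min_le_right _ _
  refine ⟨ε, hε, fun μ hμ hlc h2 h4 => ?_⟩
  have := hμ.prob
  -- the lower bound on `G (-a)`
  have hG : p ≤ μ.real (Iic (-a)) := by
    have h1 := lower hμ A a hA ha
    have e1 : 2 * A * a = v / 4 := by rw [hadef]; field_simp; norm_num
    have e2 : 3 / A ^ 2 * ∫ x, x ^ 4 ∂μ ≤ v / 4 := by
      have h5 : ∫ x, x ^ 4 ∂μ ≤ K' := h4.trans (le_max_left _ _)
      have h6 : 3 / A ^ 2 * ∫ x, x ^ 4 ∂μ ≤ 3 / A ^ 2 * K' :=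
        mul_le_mul_of_nonneg_left h5 (by positivity)
      have h7 : 12 * K' / v ≤ A ^ 2 := by nlinarith
      rw [div_le_iff₀ hv] at h7
      have h8 : 3 / A ^ 2 * K' ≤ v / 4 := by
        rw [div_mul_eq_mul_div, div_le_div_iff₀ (by positivity) (by norm_num)]
        nlinarith
      linarith
    rw [hpdef, div_le_iff₀ (by positivity)]
    nlinarith
  set θ : ℝ := 2 * ε / (a + ε) with hθdef
  have haε : 0 < a + ε := by positivity
  have hθ0 : 0 < θ := by positivity
  have hθ1 : θ < 1 := by rw [hθdef, div_lt_one haε]; linarith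
  have hθ2 : θ * L ≤ τ := by
    have h5 : θ ≤ 2 * ε / a := div_le_div_of_nonneg_left (by positivity) ha (by linarith)
    have h6 : 2 * ε / a ≤ τ / L := by
      rw [le_div_iff₀ (by positivity)] at hε2
      rw [div_le_div_iff₀ ha hL]
      nlinarith
    have h7 : θ ≤ τ / L := h5.trans h6
    rwa [le_div_iff₀ hL] at h7
  have hc := hlc ε (-a) θ hθ0 hθ1
  have e3 : (1 - θ) * ε + θ * (-a) = -ε := by rw [hθdef]; field_simp; ring
  rw [e3] at hc
  set G : ℝ := μ.real (Iic ε) with hGdef
  have hG0 : 0 ≤ G := measureReal_nonneg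
  have hG1 : G ≤ 1 := measureReal_le_one
  have h5 : G ≤ G ^ (1 - θ) := by
    rcases hG0.eq_or_lt with h | h
    · rw [← h]; exact Real.rpow_nonneg le_rfl _
    · calc G = G ^ (1 : ℝ) := (Real.rpow_one G).symm
        _ ≤ G ^ (1 - θ) := Real.rpow_le_rpow_of_exponent_ge h hG1 (by linarith)
  have h6 : p ^ θ ≤ μ.real (Iic (-a)) ^ θ := Real.rpow_le_rpow hp.le hG hθ0.le
  have h7 : 1 - τ ≤ p ^ θ := by
    rw [Real.rpow_def_of_pos hp]
    have h8 := Real.add_one_le_exp (Real.log p * θ)
    have h9 : -|Real.log p| ≤ Real.log p := neg_abs_le _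
    have h10 : -(θ * L) ≤ Real.log p * θ := by rw [hLdef]; nlinarith
    linarith
  have h8 : G * p ^ θ ≤ μ.real (Iic (-ε)) :=
    (mul_le_mul h5 h6 (Real.rpow_nonneg hp.le _) (hG0.trans h5)).trans hc
  have h9 : μ.real (Ioo (-ε) ε) + μ.real (Iic (-ε)) ≤ G := by
    rw [← measureReal_union (by
      rw [Set.disjoint_left]; intro x hx hx'; exact absurd hx.1 (not_lt.mpr hx'))
      measurableSet_Iic]
    refine measureReal_mono ?_
    rintro x (hx | hx)
    · exact hx.2.le
    · have hx' : x ≤ -ε := hx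
      show x ≤ ε
      linarith
  have h10 : G * (1 - τ) ≤ G * p ^ θ := mul_le_mul_of_nonneg_left h7 hG0
  nlinarith

end Crest.Agent.T156.Soft
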