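import Crest.Agent.T156.SoftDef_88

/-!
# Row 156, soft part: elementary facts about the model (helper50)
-/

set_option autoImplicit false
open MeasureTheory ProbabilityTheory Filter Topology Set
open Crest.ProbabilityR.SpinGlass

namespace Crest.Agent.T156.Soft

namespace Basic50

instance probD (n : ℕ) : IsProbabilityMeasure (disorderLaw n) := by
  unfold disorderLaw; infer_instance

instance probC (n : ℕ) (β : ℝ) : IsProbabilityMeasure (completedLaw n β) := by
  unfold completedLaw; infer_instance

lemma cont_energy (n : ℕ) (σ : Fin n → Bool) : Continuous (fun g : Disorder n => energy n g σ) := by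
  unfold energy
  refine continuous_const.mul (continuous_finsetSum _ fun p _ => ?_)
  split_ifs
  · fun_prop
  · exact continuous_const

lemma Z_pos (n : ℕ) (β : ℝ) (g : Disorder n) : 0 < partitionFunction n β g :=
  Finset.sum_pos (fun _ _ => Real.exp_pos _) Finset.univ_nonempty

lemma cont_F (n : ℕ) (β : ℝ) : Continuous (logPartitionFunction n β) := by
  have h : Continuous (partitionFunction n β) := by
    unfold partitionFunction
    exact continuous_finsetSum _ fun σ _ =>
      Real.continuous_exp.comp (continuous_const.mul (cont_energy n σ))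
  exact h.log fun g => (Z_pos n β g).ne'

lemma cont_C (n : ℕ) (β : ℝ) : Continuous (completedFreeEnergy n β) := by
  unfold completedFreeEnergy
  exact (((cont_F n β).comp continuous_fst).sub continuous_const).add continuous_snd

lemma cont_Y (n : ℕ) (β : ℝ) : Continuous (scaledFluctuation n β) := by
  unfold scaledFluctuation
  exact continuous_const.mul ((cont_C n β).sub continuous_const)

lemma cont_X (n : ℕ) (β : ℝ) : Continuous (xs n β) := by
  unfold xs
  exact continuous_const.mul ((cont_F n β).sub continuous_const)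

lemma energy_lin (n : ℕ) (σ : Fin n → Bool) (x y : Disorder n) (a b : ℝ) :
    energy n (a • x + b • y) σ = a * energy n x σ + b * energy n y σ := by
  unfold energy
  rw [mul_left_comm a, mul_left_comm b, ← mul_add, Finset.mul_sum _ _ a, Finset.mul_sum _ _ b,
    ← Finset.sum_add_distrib]
  congr 1
  refine Finset.sum_congr rfl fun p _ => ?_
  split_ifs
  · simp only [Pi.add_apply, Pi.smul_apply, smul_eq_mul]; ring
  · simp

lemma lse_convex {ι : Type*} [Fintype ι] [Nonempty ι] (u v : ι → ℝ) {a b : ℝ} (ha : 0 ≤ a)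
    (hb : 0 ≤ b) (hab : a + b = 1) :
    Real.log (∑ i, Real.exp (a * u i + b * v i)) ≤
      a * Real.log (∑ i, Real.exp (u i)) + b * Real.log (∑ i, Real.exp (v i)) := by
  have hU : 0 < ∑ i, Real.exp (u i) := Finset.sum_pos (fun _ _ => Real.exp_pos _) Finset.univ_nonempty
  have hV : 0 < ∑ i, Real.exp (v i) := Finset.sum_pos (fun _ _ => Real.exp_pos _) Finset.univ_nonempty
  have hW : 0 < ∑ i, Real.exp (a * u i + b * v i) :=
    Finset.sum_pos (fun _ _ => Real.exp_pos _) Finset.univ_nonempty
  set A := Real.log (∑ i, Real.exp (u i)) with hA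
  set B := Real.log (∑ i, Real.exp (v i)) with hB
  have eA : Real.exp A = ∑ i, Real.exp (u i) := Real.exp_log hU
  have eB : Real.exp B = ∑ i, Real.exp (v i) := Real.exp_log hV
  rw [Real.log_le_iff_le_exp hW]
  have key : ∀ i, Real.exp (a * u i + b * v i) ≤ Real.exp (a * A + b * B) *
      (a * (Real.exp (u i) / Real.exp A) + b * (Real.exp (v i) / Real.exp B)) := by
    intro i
    have h := convexOn_exp.2 (mem_univ (u i - A)) (mem_univ (v i - B)) ha hb hab
    simp only [smul_eq_mul] at h
    rw [← Real.exp_sub, ← Real.exp_sub]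
    have e : a * u i + b * v i = (a * A + b * B) + (a * (u i - A) + b * (v i - B)) := by ring
    rw [e, Real.exp_add]
    exact mul_le_mul_of_nonneg_left h (Real.exp_pos _).le
  refine (Finset.sum_le_sum fun i _ => key i).trans (le_of_eq ?_)
  rw [← Finset.mul_sum, Finset.sum_add_distrib, ← Finset.mul_sum, ← Finset.mul_sum,
    ← Finset.sum_div, ← Finset.sum_div, ← eA, ← eB, div_self (Real.exp_pos _).ne',
    div_self (Real.exp_pos _).ne', mul_one, mul_one, hab, mul_one]

lemma convex_F (n : ℕ) (β : ℝ) : ConvexOn ℝ univ (logPartitionFunction n β) := by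
  refine ⟨convex_univ, fun x _ y _ a b ha hb hab => ?_⟩
  have h := lse_convex (fun σ : Fin n → Bool => β * energy n x σ)
    (fun σ : Fin n → Bool => β * energy n y σ) ha hb hab
  unfold logPartitionFunction partitionFunction
  simp only [smul_eq_mul, energy_lin]
  refine le_of_eq_of_le ?_ h
  congr 1
  refine Finset.sum_congr rfl fun σ _ => ?_
  congr 1
  ring

lemma abs_spin (b : Bool) : |spinVal b| = 1 := by
  cases b <;> simp [spinVal]

lemma abs_energy_le (n : ℕ) (g : Disorder n) (σ : Fin n → Bool) :
    |energy n g σ| ≤ (Real.sqrt n)⁻¹ * ∑ p, |g p| := by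
  unfold energy
  rw [abs_mul, abs_of_nonneg (by positivity : (0 : ℝ) ≤ (Real.sqrt n)⁻¹)]
  refine mul_le_mul_of_nonneg_left ((Finset.abs_sum_le_sum_abs _ _).trans
    (Finset.sum_le_sum fun p _ => ?_)) (by positivity)
  split_ifs
  · rw [abs_mul, abs_mul, abs_spin, abs_spin, mul_one, mul_one]
  · simp

lemma abs_F_le (n : ℕ) (β : ℝ) (g : Disorder n) :
    |logPartitionFunction n β g| ≤ n * Real.log 2 + |β| * (Real.sqrt n)⁻¹ * ∑ p, |g p| := by
  set K := |β| * (Real.sqrt n)⁻¹ * ∑ p, |g p| with hK
  have hb : ∀ σ, |β * energy n g σ| ≤ K := fun σ => by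
    rw [abs_mul, hK, mul_assoc]
    exact mul_le_mul_of_nonneg_left (abs_energy_le n g σ) (abs_nonneg _)
  have h2 : 0 ≤ (n : ℝ) * Real.log 2 := mul_nonneg (Nat.cast_nonneg _) (Real.log_nonneg (by norm_num))
  have hcard : ((Finset.univ : Finset (Fin n → Bool)).card : ℝ) = Real.exp (n * Real.log 2) := by
    rw [Real.exp_nat_mul, Real.exp_log (by norm_num)]
    simp
  unfold logPartitionFunction
  rw [abs_le]
  constructor
  · rw [Real.le_log_iff_exp_le (Z_pos n β g)]
    unfold partitionFunction
    have h1 : Real.exp (-(n * Real.log 2 + K)) ≤ Real.exp (β * energy n g (fun _ => true)) := by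
      apply Real.exp_le_exp.2
      have := (abs_le.1 (hb fun _ => true)).1
      linarith
    exact h1.trans (Finset.single_le_sum (f := fun σ => Real.exp (β * energy n g σ))
      (fun _ _ => (Real.exp_pos _).le) (Finset.mem_univ _))
  · rw [Real.log_le_iff_le_exp (Z_pos n β g)]
    unfold partitionFunction
    refine (Finset.sum_le_card_nsmul _ _ (Real.exp K) fun σ _ =>
      Real.exp_le_exp.2 (abs_le.1 (hb σ)).2).trans (le_of_eq ?_)
    rw [nsmul_eq_mul, hcard, Real.exp_add]

lemma int_gauss (v : NNReal) (c : ℝ) :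
    Integrable (fun x : ℝ => Real.exp (c * |x|)) (gaussianReal 0 v) := by
  refine ((integrable_exp_mul_gaussianReal (μ := 0) (v := v) c).add
    (integrable_exp_mul_gaussianReal (μ := 0) (v := v) (-c))).mono' (by fun_prop) ?_
  refine Eventually.of_forall fun x => ?_
  rw [Real.norm_eq_abs, abs_of_pos (Real.exp_pos _)]
  simp only [Pi.add_apply]
  rcases abs_cases x with h | h
  · rw [h.1]; linarith [Real.exp_pos (-c * x)]
  · rw [h.1, show c * -x = -c * x by ring]; linarith [Real.exp_pos (c * x)]

lemma int_sum (n : ℕ) (c : ℝ) :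
    Integrable (fun g : Disorder n => Real.exp (c * ∑ p, |g p|)) (disorderLaw n) := by
  have h := Integrable.fintype_prod (ι := Fin n × Fin n) (𝕜 := ℝ)
    (μ := fun _ => gaussianReal 0 1) (f := fun _ x => Real.exp (c * |x|)) fun _ => int_gauss 1 c
  refine h.congr (Eventually.of_forall fun g => ?_)
  simp only [Finset.mul_sum, Real.exp_sum]

/-- an exponential moment passes to anything bounded by an affine function -/
lemma int_of_le {Ω : Type*} [MeasurableSpace Ω] {μ : Measure Ω} {f g : Ω → ℝ} (A B : ℝ)
    (hf : AEStronglyMeasurable f μ) (hg : ∀ c : ℝ, Integrable (fun ω => Real.exp (c * g ω)) μ)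
    (hle : ∀ ω, |f ω| ≤ A + B * g ω) (c : ℝ) : Integrable (fun ω => Real.exp (c * |f ω|)) μ := by
  refine ((hg (|c| * B)).const_mul (Real.exp (|c| * A))).mono'
    (Real.continuous_exp.comp_aestronglyMeasurable
      (aestronglyMeasurable_const.mul (continuous_abs.comp_aestronglyMeasurable hf))) ?_
  refine Eventually.of_forall fun ω => ?_
  rw [Real.norm_eq_abs, abs_of_pos (Real.exp_pos _), ← Real.exp_add]
  apply Real.exp_le_exp.2
  have h1 : c * |f ω| ≤ |c| * |f ω| := mul_le_mul_of_nonneg_right (le_abs_self c) (abs_nonneg _)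
  have h2 := mul_le_mul_of_nonneg_left (hle ω) (abs_nonneg c)
  nlinarith

lemma int_of_exp {Ω : Type*} [MeasurableSpace Ω] {μ : Measure Ω} {f : Ω → ℝ}
    (hf : AEStronglyMeasurable f μ) (h : Integrable (fun ω => Real.exp (1 * |f ω|)) μ) :
    Integrable f μ := by
  refine h.mono' hf (Eventually.of_forall fun ω => ?_)
  rw [Real.norm_eq_abs, one_mul]
  linarith [Real.add_one_le_exp |f ω|]

lemma expF (n : ℕ) (β c : ℝ) :
    Integrable (fun g => Real.exp (c * |logPartitionFunction n β g|)) (disorderLaw n) :=
  int_of_le (n * Real.log 2) (|β| * (Real.sqrt n)⁻¹) (cont_F n β).aestronglyMeasurable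
    (int_sum n) (abs_F_le n β) c

lemma intF (n : ℕ) (β : ℝ) : Integrable (logPartitionFunction n β) (disorderLaw n) :=
  int_of_exp (cont_F n β).aestronglyMeasurable (expF n β 1)

lemma expC (n : ℕ) (β c : ℝ) :
    Integrable (fun ω => Real.exp (c * |completedFreeEnergy n β ω|)) (completedLaw n β) := by
  refine int_of_le (g := fun ω => |logPartitionFunction n β ω.1| + |ω.2|) (|n * Real.log 2|) 1
    (cont_C n β).aestronglyMeasurable (fun c => ?_) (fun ω => ?_) c
  · have h := (expF n β c).mul_prod (int_gauss (Real.toNNReal (β ^ 2 / 2)) c)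
    refine h.congr (Eventually.of_forall fun ω => ?_)
    simp only [mul_add, Real.exp_add]
  · unfold completedFreeEnergy
    have h1 := abs_add_le (logPartitionFunction n β ω.1 - n * Real.log 2) ω.2
    have h2 := abs_sub (logPartitionFunction n β ω.1) (n * Real.log 2)
    linarith

lemma intC (n : ℕ) (β : ℝ) : Integrable (completedFreeEnergy n β) (completedLaw n β) :=
  int_of_exp (cont_C n β).aestronglyMeasurable (expC n β 1)

lemma mean_C (n : ℕ) (β : ℝ) : ∫ ω, completedFreeEnergy n β ω ∂completedLaw n β =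
    ∫ g, logPartitionFunction n β g ∂disorderLaw n - n * Real.log 2 := by
  have h1 : Integrable (fun ω : Disorder n × ℝ => logPartitionFunction n β ω.1)
      (completedLaw n β) := (intF n β).comp_fst _
  have h2 : Integrable (fun ω : Disorder n × ℝ => ω.2) (completedLaw n β) :=
    (int_of_exp (f := fun x : ℝ => x) (by fun_prop)
      (int_gauss (Real.toNNReal (β ^ 2 / 2)) 1)).comp_snd _
  have e1 : ∫ ω : Disorder n × ℝ, logPartitionFunction n β ω.1 ∂completedLaw n β =
      ∫ g, logPartitionFunction n β g ∂disorderLaw n := by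
    unfold completedLaw
    rw [integral_fun_fst (logPartitionFunction n β)]
    simp
  have e2 : ∫ ω : Disorder n × ℝ, ω.2 ∂completedLaw n β = 0 := by
    unfold completedLaw
    rw [integral_fun_snd (fun x : ℝ => x)]
    simp
  unfold completedFreeEnergy
  have h3 : Integrable (fun ω : Disorder n × ℝ => logPartitionFunction n β ω.1 - n * Real.log 2)
      (completedLaw n β) := h1.sub (integrable_const _)
  rw [integral_add h3 h2, integral_sub h1 (integrable_const _), e1, e2]
  simp

lemma Y_eq (n : ℕ) (β : ℝ) (ω : Disorder n × ℝ) :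
    scaledFluctuation n β ω = xs n β ω.1 + (n : ℝ) ^ (-(1 : ℝ) / 6) * ω.2 := by
  unfold scaledFluctuation xs
  rw [mean_C]
  unfold completedFreeEnergy
  ring

lemma nice_map {Ω : Type*} [MeasurableSpace Ω] (μ : Measure Ω) [IsProbabilityMeasure μ]
    {f : Ω → ℝ} (hf : Measurable f) (h : ∀ c : ℝ, Integrable (fun ω => Real.exp (c * |f ω|)) μ)
    (m : ℝ) : Nice (μ.map fun ω => m * (f ω - ∫ ω', f ω' ∂μ)) := by
  have hm : Measurable fun ω => m * (f ω - ∫ ω', f ω' ∂μ) := by fun_prop
  have hi : Integrable f μ := int_of_exp hf.aestronglyMeasurable (h 1)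
  refine ⟨Measure.isProbabilityMeasure_map hm.aemeasurable, fun c => ?_, ?_⟩
  · rw [integrable_map_measure (by fun_prop) hm.aemeasurable]
    refine int_of_le (g := fun ω => |f ω|) (|m| * |∫ ω', f ω' ∂μ|) |m| hm.aestronglyMeasurable h
      (fun ω => ?_) c
    rw [abs_mul]
    have := mul_le_mul_of_nonneg_left (abs_sub (f ω) (∫ ω', f ω' ∂μ)) (abs_nonneg m)
    linarith
  · rw [integral_map hm.aemeasurable (by fun_prop), integral_const_mul,
      integral_sub hi (integrable_const _)]
    simp

lemma var_X (n : ℕ) (β : ℝ) : ∫ x, x ^ 2 ∂xLaw n β =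
    variance (logPartitionFunction n β) (disorderLaw n) / (n : ℝ) ^ ((1 : ℝ) / 3) := by
  unfold xLaw
  rw [integral_map (cont_X n β).measurable.aemeasurable (by fun_prop),
    variance_eq_integral (cont_F n β).measurable.aemeasurable]
  unfold xs
  have e : ((n : ℝ) ^ (-(1 : ℝ) / 6)) ^ 2 = ((n : ℝ) ^ ((1 : ℝ) / 3))⁻¹ := by
    rw [← Real.rpow_natCast, ← Real.rpow_mul (Nat.cast_nonneg n),
      ← Real.rpow_neg (Nat.cast_nonneg n)]
    norm_num
  simp only [mul_pow]
  rw [integral_const_mul, e, mul_comm, ← div_eq_mul_inv]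

end Basic50

open Basic50 in
theorem basicStmt : BasicStmt := fun n β =>
  ⟨probD n, probC n β, cont_F n β, cont_C n β, cont_Y n β, cont_X n β, convex_F n β, expF n β,
    expC n β, Y_eq n β, nice_map _ (cont_F n β).measurable (expF n β) _,
    nice_map _ (cont_C n β).measurable (expC n β) _,
    fun k => by
      unfold yLaw fluctuationMoment
      rw [integral_map (cont_Y n β).measurable.aemeasurable (by fun_prop)],
    var_X n β⟩

end Crest.Agent.T156.Soft
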