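import Crest.Agent.T156.SoftDef_88

/-!
# Row 156, soft part: `CloseStmt` (helper98, task 1220)

`h z = (M_μ z - M_{ν + d} z) / A`, the two-constants theorem gives `|E_μ x^k - E_ν (x+d)^k| ≲ ε^α`,
`k = 1` gives `|d| ≲ ε^α`, and the shift costs `O(|d|)`.
-/

set_option autoImplicit false
set_option maxHeartbeats 400000
open MeasureTheory ProbabilityTheory Filter Topology Set

namespace Crest.Agent.T156.Soft

namespace Close98

theorem expInt {μ : Measure ℝ} (h : Nice μ) (t d : ℝ) :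
    Integrable (fun x => Real.exp (t * (x + d))) μ := by
  refine Integrable.mono' ((h.expInt |t|).mul_const (Real.exp (t * d))) ?_ ?_
  · exact (by fun_prop : Continuous fun x : ℝ => Real.exp (t * (x + d))).aestronglyMeasurable
  · refine Eventually.of_forall fun x => ?_
    rw [Real.norm_eq_abs, abs_of_pos (Real.exp_pos _), ← Real.exp_add]
    apply Real.exp_le_exp.2
    have : t * x ≤ |t| * |x| := by rw [← abs_mul]; exact le_abs_self _
    nlinarith

theorem expInt0 {μ : Measure ℝ} (h : Nice μ) (t : ℝ) :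
    Integrable (fun x => Real.exp (t * x)) μ := by
  simpa using expInt h t 0

theorem iset {μ : Measure ℝ} (h : Nice μ) (d : ℝ) :
    integrableExpSet (fun x : ℝ => x + d) μ = univ := by
  refine eq_univ_of_forall fun t => ?_
  exact expInt h t d

theorem diff {μ : Measure ℝ} (h : Nice μ) (d : ℝ) :
    Differentiable ℂ (complexMGF (fun x : ℝ => x + d) μ) := by
  intro z
  have hz : z.re ∈ interior (integrableExpSet (fun x : ℝ => x + d) μ) := by
    rw [iset h d]; simp
  exact (hasDerivAt_complexMGF hz).differentiableAt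

theorem iter {μ : Measure ℝ} (h : Nice μ) (d : ℝ) (k : ℕ) :
    iteratedDeriv k (complexMGF (fun x : ℝ => x + d) μ) 0 = ((∫ x, (x + d) ^ k ∂μ : ℝ) : ℂ) := by
  have hz : (0 : ℂ).re ∈ interior (integrableExpSet (fun x : ℝ => x + d) μ) := by
    rw [iset h d]; simp
  rw [iteratedDeriv_complexMGF hz k, ← integral_complex_ofReal]
  simp

theorem powInt {μ : Measure ℝ} (h : Nice μ) (d : ℝ) (k : ℕ) :
    Integrable (fun x : ℝ => (x + d) ^ k) μ := by
  have hz : (0 : ℝ) ∈ interior (integrableExpSet (fun x : ℝ => x + d) μ) := by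
    rw [iset h d]; simp
  exact integrable_pow_of_mem_interior_integrableExpSet hz k

theorem mgf_shift (μ : Measure ℝ) (t d : ℝ) :
    mgf (fun x : ℝ => x + d) μ t = (∫ x, Real.exp (t * x) ∂μ) * Real.exp (t * d) := by
  rw [mgf, ← integral_mul_const]
  congr 1
  ext x
  rw [← Real.exp_add]
  congr 1
  ring

theorem mgf_le {μ : Measure ℝ} (h : Nice μ) {c₀ s₂ M t : ℝ} (hc : 0 ≤ c₀)
    (h1 : ∫ x, Real.exp (c₀ * |x|) ∂μ ≤ M) (h2 : ∫ x, Real.exp (s₂ * x) ∂μ ≤ M)
    (ht1 : -c₀ ≤ t) (ht2 : t ≤ s₂) : ∫ x, Real.exp (t * x) ∂μ ≤ 2 * M := by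
  have hle : ∫ x, Real.exp (t * x) ∂μ ≤
      ∫ x, (Real.exp (c₀ * |x|) + Real.exp (s₂ * x)) ∂μ := by
    refine integral_mono (expInt0 h t) ((h.expInt c₀).add (expInt0 h s₂)) fun x => ?_
    have p1 := Real.exp_pos (c₀ * |x|)
    have p2 := Real.exp_pos (s₂ * x)
    rcases le_total 0 x with hx | hx
    · have : Real.exp (t * x) ≤ Real.exp (s₂ * x) :=
        Real.exp_le_exp.2 (mul_le_mul_of_nonneg_right ht2 hx)
      simp only
      linarith
    · have : Real.exp (t * x) ≤ Real.exp (c₀ * |x|) := by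
        apply Real.exp_le_exp.2
        rw [abs_of_nonpos hx]
        nlinarith
      simp only
      linarith
  rw [integral_add (h.expInt c₀) (expInt0 h s₂)] at hle
  linarith

theorem one_le_mgf {μ : Measure ℝ} (h : Nice μ) (t : ℝ) : 1 ≤ ∫ x, Real.exp (t * x) ∂μ := by
  haveI := h.prob
  have hx : Integrable (fun x : ℝ => x) μ := by simpa using powInt h 0 1
  have hle : ∫ x, (t * x + 1) ∂μ ≤ ∫ x, Real.exp (t * x) ∂μ :=
    integral_mono ((hx.const_mul t).add (integrable_const 1)) (expInt0 h t)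
      fun x => Real.add_one_le_exp _
  rw [integral_add (hx.const_mul t) (integrable_const 1), integral_const_mul, h.mean] at hle
  simpa using hle

theorem lam_nonneg {μ : Measure ℝ} (h : Nice μ) (t : ℝ) : 0 ≤ lam μ t :=
  Real.log_nonneg (one_le_mgf h t)

theorem exp_lam {μ : Measure ℝ} (h : Nice μ) (t : ℝ) :
    Real.exp (lam μ t) = ∫ x, Real.exp (t * x) ∂μ :=
  Real.exp_log (lt_of_lt_of_le one_pos (one_le_mgf h t))

theorem lam_le {μ : Measure ℝ} (h : Nice μ) {t B : ℝ} (hB : ∫ x, Real.exp (t * x) ∂μ ≤ B) :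
    lam μ t ≤ B := by
  have := Real.add_one_le_exp (lam μ t)
  rw [exp_lam h t] at this
  linarith

theorem shift_bd {ν : Measure ℝ} (h : Nice ν) {c₀ M D d : ℝ} (hc : 0 < c₀)
    (h1 : ∫ x, Real.exp (c₀ * |x|) ∂ν ≤ M) (hd : |d| ≤ D) (k : ℕ) :
    |∫ x, (x + d) ^ k ∂ν - ∫ x, x ^ k ∂ν| ≤
      |d| * (k * ((k - 1).factorial / c₀ ^ (k - 1) * Real.exp (c₀ * D)) * M) := by
  have hx : Integrable (fun x : ℝ => x ^ k) ν := by simpa using powInt h 0 k
  rw [← integral_sub (powInt h d k) hx]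
  set K : ℝ := |d| * (k * ((k - 1).factorial / c₀ ^ (k - 1) * Real.exp (c₀ * D))) with hK
  have hK0 : 0 ≤ K := by positivity
  have hpt : ∀ x : ℝ, ‖(x + d) ^ k - x ^ k‖ ≤ K * Real.exp (c₀ * |x|) := by
    intro x
    have hD : 0 ≤ D := (abs_nonneg d).trans hd
    have e1 : |(x + d) ^ k - x ^ k| ≤ |x + d - x| * k * max |x + d| |x| ^ (k - 1) :=
      abs_pow_sub_pow_le ..
    have e2 : max |x + d| |x| ≤ |x| + D := by
      refine max_le ((abs_add_le _ _).trans (by linarith)) (by linarith)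
    have e3 : max |x + d| |x| ^ (k - 1) ≤ (|x| + D) ^ (k - 1) :=
      pow_le_pow_left₀ (le_max_of_le_right (abs_nonneg _)) e2 _
    have e4 := Real.pow_div_factorial_le_exp (c₀ * (|x| + D)) (by positivity) (k - 1)
    have hf : (0 : ℝ) < (k - 1).factorial := by exact_mod_cast Nat.factorial_pos _
    have hcp : 0 < c₀ ^ (k - 1) := pow_pos hc _
    have e5 : (|x| + D) ^ (k - 1) ≤
        (k - 1).factorial / c₀ ^ (k - 1) * Real.exp (c₀ * D) * Real.exp (c₀ * |x|) := by
      rw [mul_pow, div_le_iff₀ hf] at e4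
      rw [mul_assoc, ← Real.exp_add, div_mul_eq_mul_div, le_div_iff₀ hcp]
      have : c₀ * D + c₀ * |x| = c₀ * (|x| + D) := by ring
      rw [this]
      nlinarith
    rw [Real.norm_eq_abs]
    have e6 : |x + d - x| = |d| := by congr 1; ring
    rw [e6] at e1
    calc |(x + d) ^ k - x ^ k| ≤ |d| * k * max |x + d| |x| ^ (k - 1) := e1
      _ ≤ |d| * k * ((k - 1).factorial / c₀ ^ (k - 1) * Real.exp (c₀ * D) *
            Real.exp (c₀ * |x|)) :=
          mul_le_mul_of_nonneg_left (e3.trans e5) (by positivity)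
      _ = K * Real.exp (c₀ * |x|) := by rw [hK]; ring
  have hb := norm_integral_le_of_norm_le ((h.expInt c₀).const_mul K) (Eventually.of_forall hpt)
  rw [integral_const_mul, Real.norm_eq_abs] at hb
  calc _ ≤ K * ∫ x, Real.exp (c₀ * |x|) ∂ν := hb
    _ ≤ K * M := mul_le_mul_of_nonneg_left h1 hK0
    _ = _ := by rw [hK]; ring

theorem abs_exp_sub_le {a b B η S : ℝ} (ha : Real.exp a ≤ B) (hab : |a - b| ≤ η) (hη : η ≤ S) :
    |Real.exp a - Real.exp b| ≤ B * (η * Real.exp S) := by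
  have hη0 : 0 ≤ η := (abs_nonneg _).trans hab
  have hB : 0 ≤ B := (Real.exp_pos a).le.trans ha
  have hu := abs_le.1 hab
  have hS1 : 1 ≤ Real.exp S := Real.one_le_exp (hη0.trans hη)
  have key : |1 - Real.exp (b - a)| ≤ η * Real.exp S := by
    rw [abs_le]
    constructor
    · -- exp u - 1 ≤ u exp u ≤ η exp S
      have h1 := Real.add_one_le_exp (-(b - a))
      have h2 : Real.exp (-(b - a)) * Real.exp (b - a) = 1 := by
        rw [← Real.exp_add]; simp
      have h3 : Real.exp (b - a) ≤ Real.exp S := Real.exp_le_exp.2 (by linarith)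
      have h4 := Real.exp_pos (b - a)
      have h5 : (-(b - a) + 1) * Real.exp (b - a) ≤ 1 := by
        exact (mul_le_mul_of_nonneg_right h1 h4.le).trans h2.le
      have h6 : (b - a) * Real.exp (b - a) ≤ η * Real.exp (b - a) :=
        mul_le_mul_of_nonneg_right (by linarith) h4.le
      have h7 : η * Real.exp (b - a) ≤ η * Real.exp S := mul_le_mul_of_nonneg_left h3 hη0
      nlinarith
    · have h1 := Real.add_one_le_exp (b - a)
      have h7 : η * 1 ≤ η * Real.exp S := mul_le_mul_of_nonneg_left hS1 hη0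
      linarith
  have e : Real.exp a - Real.exp b = Real.exp a * (1 - Real.exp (b - a)) := by
    rw [mul_sub, ← Real.exp_add]; congr 2 <;> ring
  rw [e, abs_mul, abs_of_pos (Real.exp_pos a)]
  exact mul_le_mul ha key (abs_nonneg _) hB

end Close98

open Close98 in
theorem closeStmt : CloseStmt := by
  intro htwo s₁ s₂ c₀ M hs₁ hs hc
  have hs₂ : 0 < s₂ := by linarith
  set D : ℝ := 2 * M / s₁ with hD
  set A : ℝ := |2 * M * (s₂ * Real.exp s₂)| + 1 with hA
  have hA0 : 0 < A := by positivity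
  obtain ⟨α, hα, hC⟩ := htwo s₁ s₂ c₀ ((2 * M + 2 * M * Real.exp ((c₀ + s₂) * D)) / A) hs₁ hs hc
  refine ⟨α, hα, fun k => ?_⟩
  obtain ⟨Ck, hCk⟩ := hC k
  obtain ⟨C1, hC1⟩ := hC 1
  refine ⟨A * Ck + A * C1 * (k * ((k - 1).factorial / c₀ ^ (k - 1) * Real.exp (c₀ * D)) * M),
    fun μ ν hμ hν hμ1 hν1 hμ2 hν2 ε hε hε1 hL => ?_⟩
  set d : ℝ := lam μ s₁ / s₁ - lam ν s₁ / s₁ with hd
  have hM : 0 ≤ M := le_trans (integral_nonneg fun x => (Real.exp_pos _).le) hμ1
  have hdD : |d| ≤ D := by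
    have a1 := lam_nonneg hμ s₁
    have a2 := lam_nonneg hν s₁
    have a3 := lam_le hμ (mgf_le hμ hc.le hμ1 hμ2 (t := s₁) (by linarith) (by linarith))
    have a4 := lam_le hν (mgf_le hν hc.le hν1 hν2 (t := s₁) (by linarith) (by linarith))
    rw [hd, ← sub_div, abs_div, abs_of_pos hs₁, hD]
    apply div_le_div_of_nonneg_right _ hs₁.le
    rw [abs_le]; constructor <;> linarith
  set h : ℂ → ℂ := fun z =>
    (complexMGF (fun x : ℝ => x + 0) μ z - complexMGF (fun x : ℝ => x + d) ν z) / (A : ℂ) with hh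
  have hdiff : Differentiable ℂ h := ((diff hμ 0).sub (diff hν d)).div_const _
  have hnA : ‖(A : ℂ)‖ = A := by rw [Complex.norm_real, Real.norm_eq_abs, abs_of_pos hA0]
  have hstrip : ∀ z : ℂ, -c₀ ≤ z.re → z.re ≤ s₂ →
      ‖h z‖ ≤ (2 * M + 2 * M * Real.exp ((c₀ + s₂) * D)) / A := by
    intro z hz1 hz2
    rw [hh]
    simp only
    rw [norm_div, hnA]
    apply div_le_div_of_nonneg_right _ hA0.le
    refine (norm_sub_le _ _).trans (add_le_add ?_ ?_)
    · refine norm_complexMGF_le_mgf.trans ?_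
      rw [mgf_shift]
      simpa using mgf_le hμ hc.le hμ1 hμ2 hz1 hz2
    · refine norm_complexMGF_le_mgf.trans ?_
      rw [mgf_shift]
      refine mul_le_mul (mgf_le hν hc.le hν1 hν2 hz1 hz2) (Real.exp_le_exp.2 ?_)
        (Real.exp_pos _).le (by linarith)
      have b1 : |z.re| ≤ c₀ + s₂ := by rw [abs_le]; constructor <;> linarith
      calc z.re * d ≤ |z.re * d| := le_abs_self _
        _ = |z.re| * |d| := abs_mul _ _
        _ ≤ (c₀ + s₂) * D := mul_le_mul b1 hdD (abs_nonneg _) (by linarith)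
  have hreal : ∀ s ∈ Icc s₁ s₂, ‖h (s : ℂ)‖ ≤ ε := by
    intro s hsI
    have hs0 : 0 < s := lt_of_lt_of_le hs₁ hsI.1
    rw [hh]
    simp only
    rw [norm_div, hnA, div_le_iff₀ hA0, complexMGF_ofReal, complexMGF_ofReal, mgf_shift, mgf_shift,
      ← exp_lam hμ, ← exp_lam hν, ← Complex.ofReal_sub, Complex.norm_real, Real.norm_eq_abs,
      ← Real.exp_add, ← Real.exp_add]
    have b1 : Real.exp (lam μ s + s * 0) ≤ 2 * M := by
      rw [mul_zero, add_zero, exp_lam hμ]
      exact mgf_le hμ hc.le hμ1 hμ2 (by linarith) hsI.2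
    have b2 : |lam μ s + s * 0 - (lam ν s + s * d)| ≤ ε * s₂ := by
      have e : lam μ s + s * 0 - (lam ν s + s * d) = (Lm μ s₁ s - Lm ν s₁ s) * s := by
        rw [hd, Lm, Lm]
        field_simp
        ring
      rw [e, abs_mul, abs_of_pos hs0]
      exact mul_le_mul (hL s hsI) hsI.2 hs0.le hε.le
    have b3 : ε * s₂ ≤ s₂ := by nlinarith
    refine (abs_exp_sub_le b1 b2 b3).trans ?_
    have b4 : 2 * M * (s₂ * Real.exp s₂) ≤ A := by
      have := le_abs_self (2 * M * (s₂ * Real.exp s₂))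
      linarith
    calc 2 * M * (ε * s₂ * Real.exp s₂) = ε * (2 * M * (s₂ * Real.exp s₂)) := by ring
      _ ≤ ε * A := mul_le_mul_of_nonneg_left b4 hε.le
  have hit : ∀ j : ℕ, ‖iteratedDeriv j h 0‖ =
      |∫ x, x ^ j ∂μ - ∫ x, (x + d) ^ j ∂ν| / A := by
    intro j
    rw [hh, iteratedDeriv_div_const,
      iteratedDeriv_fun_sub ((diff hμ 0).contDiff.contDiffAt) ((diff hν d).contDiff.contDiffAt),
      iter hμ, iter hν, norm_div, hnA, ← Complex.ofReal_sub, Complex.norm_real, Real.norm_eq_abs]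
    simp
  have r1 := hC1 h hdiff hstrip ε hε hε1 hreal
  have rk := hCk h hdiff hstrip ε hε hε1 hreal
  rw [hit, div_le_iff₀ hA0] at r1 rk
  have hd1 : |d| ≤ A * C1 * ε ^ α := by
    haveI := hν.prob
    have hx : Integrable (fun x : ℝ => x) ν := by simpa using powInt hν 0 1
    have e : ∫ x, x ^ 1 ∂μ - ∫ x, (x + d) ^ 1 ∂ν = -d := by
      simp only [pow_one]
      rw [integral_add hx (integrable_const d), hμ.mean, hν.mean]
      simp
    rw [e, abs_neg] at r1
    linarith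
  have hsh := shift_bd hν hc hν1 hdD k
  have hK0 : 0 ≤ (k * ((k - 1).factorial / c₀ ^ (k - 1) * Real.exp (c₀ * D)) * M : ℝ) := by
    positivity
  have hsh2 := hsh.trans (mul_le_mul_of_nonneg_right hd1 hK0)
  calc |∫ x, x ^ k ∂μ - ∫ x, x ^ k ∂ν|
      ≤ |∫ x, x ^ k ∂μ - ∫ x, (x + d) ^ k ∂ν| + |∫ x, (x + d) ^ k ∂ν - ∫ x, x ^ k ∂ν| :=
        abs_sub_le _ _ _
    _ ≤ Ck * ε ^ α * A + A * C1 * ε ^ α *
          (k * ((k - 1).factorial / c₀ ^ (k - 1) * Real.exp (c₀ * D)) * M) := add_le_add rk hsh2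
    _ = _ := by ring

end Crest.Agent.T156.Soft
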