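import Crest.Agent.T156.SoftDef_88

/-!
# Row 156, soft part: the copy product (helper81)

`copyStmt` (integrable, mean = moment) and `copyBdStmt` (uniform bound of the absolute mean).
-/

set_option autoImplicit false
open MeasureTheory ProbabilityTheory Filter Topology Set
open Crest.ProbabilityR.SpinGlass

namespace Crest.Agent.T156.Soft

section generic
variable {Ω : Type} [MeasurableSpace Ω] {μ : Measure Ω}

omit [MeasurableSpace Ω] in
theorem cp81_bd (Y : Ω → ℝ) (k : ℕ) {c : ℝ} (hc : 0 < c) (ω : Fin (k + 1) → Ω) :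
    |∏ i : Fin k, (Y (ω 0) - Y (ω i.succ))| ≤
      2 ^ k * (k.factorial / c ^ k) * ∑ j : Fin (k + 1), Real.exp (c * |Y (ω j)|) := by
  obtain ⟨j, hj⟩ := Finite.exists_max (fun j : Fin (k + 1) => |Y (ω j)|)
  have h1 : |∏ i : Fin k, (Y (ω 0) - Y (ω i.succ))| ≤ (2 * |Y (ω j)|) ^ k := by
    rw [Finset.abs_prod]
    calc ∏ i : Fin k, |Y (ω 0) - Y (ω i.succ)| ≤ ∏ _i : Fin k, (2 * |Y (ω j)|) := by
          refine Finset.prod_le_prod (fun i _ => abs_nonneg _) (fun i _ => ?_)
          have := abs_sub (Y (ω 0)) (Y (ω i.succ))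
          have := hj 0
          have := hj i.succ
          linarith
      _ = (2 * |Y (ω j)|) ^ k := by simp
  have h2 : (c * |Y (ω j)|) ^ k / k.factorial ≤ Real.exp (c * |Y (ω j)|) :=
    Real.pow_div_factorial_le_exp _ (by positivity) k
  have hf : (0 : ℝ) < k.factorial := by exact_mod_cast k.factorial_pos
  have hck : 0 < c ^ k := pow_pos hc k
  have h3 : |Y (ω j)| ^ k ≤ (k.factorial / c ^ k) * Real.exp (c * |Y (ω j)|) := by
    rw [div_le_iff₀ hf, mul_pow] at h2
    rw [div_mul_eq_mul_div, le_div_iff₀ hck]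
    linarith
  have h4 : Real.exp (c * |Y (ω j)|) ≤ ∑ j : Fin (k + 1), Real.exp (c * |Y (ω j)|) :=
    Finset.single_le_sum (f := fun j : Fin (k + 1) => Real.exp (c * |Y (ω j)|))
      (fun i _ => (Real.exp_pos _).le) (Finset.mem_univ j)
  calc _ ≤ (2 * |Y (ω j)|) ^ k := h1
    _ = 2 ^ k * |Y (ω j)| ^ k := mul_pow _ _ _
    _ ≤ 2 ^ k * ((k.factorial / c ^ k) * ∑ j : Fin (k + 1), Real.exp (c * |Y (ω j)|)) := by
        gcongr
        exact h3.trans (by gcongr)
    _ = _ := by ring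

theorem cp81_dom [IsProbabilityMeasure μ] (Y : Ω → ℝ) (k : ℕ) {c : ℝ}
    (hI : Integrable (fun x => Real.exp (c * |Y x|)) μ) :
    Integrable (fun ω : Fin (k + 1) → Ω => ∑ j : Fin (k + 1), Real.exp (c * |Y (ω j)|))
      (Measure.pi fun _ => μ) ∧
    ∫ ω : Fin (k + 1) → Ω, ∑ j : Fin (k + 1), Real.exp (c * |Y (ω j)|) ∂(Measure.pi fun _ => μ) =
      (k + 1) * ∫ x, Real.exp (c * |Y x|) ∂μ := by
  have hj : ∀ j : Fin (k + 1), Integrable (fun ω : Fin (k + 1) → Ω => Real.exp (c * |Y (ω j)|))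
      (Measure.pi fun _ => μ) := fun j =>
    (measurePreserving_eval (fun _ : Fin (k + 1) => μ) j).integrable_comp_of_integrable hI
  refine ⟨integrable_finsetSum _ fun j _ => hj j, ?_⟩
  rw [integral_finsetSum _ fun j _ => hj j]
  have : ∀ j : Fin (k + 1), ∫ ω : Fin (k + 1) → Ω, Real.exp (c * |Y (ω j)|)
      ∂(Measure.pi fun _ => μ) = ∫ x, Real.exp (c * |Y x|) ∂μ := fun j =>
    integral_comp_eval (μ := fun _ : Fin (k + 1) => μ) (i := j)
      (f := fun x => Real.exp (c * |Y x|)) hI.aestronglyMeasurable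
  simp [this]

theorem cp81_int [IsProbabilityMeasure μ] {Y : Ω → ℝ} (hY : Measurable Y) (k : ℕ) {c : ℝ}
    (hc : 0 < c) (hI : Integrable (fun x => Real.exp (c * |Y x|)) μ) :
    Integrable (fun ω : Fin (k + 1) → Ω => ∏ i : Fin k, (Y (ω 0) - Y (ω i.succ)))
      (Measure.pi fun _ => μ) := by
  refine Integrable.mono' ((cp81_dom Y k hI).1.const_mul (2 ^ k * (k.factorial / c ^ k))) ?_
    (Eventually.of_forall fun ω => ?_)
  · refine Measurable.aestronglyMeasurable ?_
    exact Finset.measurable_prod _ fun i _ =>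
      (hY.comp (measurable_pi_apply 0)).sub (hY.comp (measurable_pi_apply _))
  · exact cp81_bd Y k hc ω

theorem cp81_abs [IsProbabilityMeasure μ] {Y : Ω → ℝ} (hY : Measurable Y) (k : ℕ) {c : ℝ}
    (hc : 0 < c) (hI : Integrable (fun x => Real.exp (c * |Y x|)) μ) :
    ∫ ω : Fin (k + 1) → Ω, |∏ i : Fin k, (Y (ω 0) - Y (ω i.succ))| ∂(Measure.pi fun _ => μ) ≤
      2 ^ k * (k.factorial / c ^ k) * ((k + 1) * ∫ x, Real.exp (c * |Y x|) ∂μ) := by
  rw [← (cp81_dom Y k hI).2, ← integral_const_mul]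
  exact integral_mono (cp81_int hY k hc hI).abs ((cp81_dom Y k hI).1.const_mul _)
    fun ω => cp81_bd Y k hc ω

theorem cp81_mean [IsProbabilityMeasure μ] {Y : Ω → ℝ} (hY : Measurable Y) (k : ℕ)
    (hI : Integrable (fun x => Real.exp (1 * |Y x|)) μ) (h0 : ∫ x, Y x ∂μ = 0) :
    ∫ ω : Fin (k + 1) → Ω, ∏ i : Fin k, (Y (ω 0) - Y (ω i.succ)) ∂(Measure.pi fun _ => μ) =
      ∫ x, Y x ^ k ∂μ := by
  have hYI : Integrable Y μ := by
    refine hI.mono' hY.aestronglyMeasurable (Eventually.of_forall fun x => ?_)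
    have := Real.add_one_le_exp (1 * |Y x|)
    rw [Real.norm_eq_abs]
    linarith
  have hmp := measurePreserving_piFinSuccAbove (fun _ : Fin (k + 1) => μ) 0
  set G : Ω × (Fin k → Ω) → ℝ := fun p => ∏ i : Fin k, (Y p.1 - Y (p.2 i)) with hG
  have hcomp : (fun ω : Fin (k + 1) → Ω => ∏ i : Fin k, (Y (ω 0) - Y (ω i.succ))) =
      fun ω => G (MeasurableEquiv.piFinSuccAbove (fun _ : Fin (k + 1) => Ω) 0 ω) := by
    funext ω
    rfl
  have hGI : Integrable G (μ.prod (Measure.pi fun _ : Fin k => μ)) := by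
    have h := cp81_int hY k one_pos hI
    rw [hcomp] at h
    exact (hmp.integrable_comp_emb
      (MeasurableEquiv.piFinSuccAbove (fun _ : Fin (k + 1) => Ω) 0).measurableEmbedding).1 h
  rw [hcomp, hmp.integral_comp' G, integral_prod _ hGI]
  refine integral_congr_ae (Eventually.of_forall fun x => ?_)
  simp only [hG]
  rw [integral_fintype_prod_eq_pow (ι := Fin k) (fun y => Y x - Y y),
    integral_sub (integrable_const _) hYI, h0]
  simp

end generic

theorem cp81_eq (l : ℕ) (β : ℝ) (k : ℕ) : copyProduct l β k = fun ω =>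
    ∏ i : Fin k, (scaledFluctuation l β (ω 0) - scaledFluctuation l β (ω i.succ)) := by
  funext ω
  unfold copyProduct scaledFluctuation
  refine Finset.prod_congr rfl fun i _ => ?_
  ring

theorem cp81_facts (hB : BasicStmt) (l : ℕ) (β : ℝ) :
    IsProbabilityMeasure (completedLaw l β) ∧ Measurable (scaledFluctuation l β) ∧
    (∀ c : ℝ, Integrable (fun x => Real.exp (c * |scaledFluctuation l β x|)) (completedLaw l β) ∧
      ∫ x, Real.exp (c * |x|) ∂yLaw l β =
        ∫ x, Real.exp (c * |scaledFluctuation l β x|) ∂completedLaw l β) ∧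
    ∫ x, scaledFluctuation l β x ∂completedLaw l β = 0 := by
  obtain ⟨-, hP, -, -, hS, -, -, -, -, -, -, hN, -, -⟩ := hB l β
  have hm : Measurable (scaledFluctuation l β) := hS.measurable
  refine ⟨hP, hm, fun c => ⟨?_, ?_⟩, ?_⟩
  · have h := hN.expInt c
    unfold yLaw at h
    exact (integrable_map_measure h.aestronglyMeasurable hm.aemeasurable).1 h
  · unfold yLaw
    exact integral_map hm.aemeasurable (by fun_prop)
  · have h := hN.mean
    unfold yLaw at h
    rw [integral_map hm.aemeasurable (by fun_prop)] at h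
    exact h

theorem copyStmt : CopyStmt := by
  intro hB l β k
  obtain ⟨hP, hm, hE, h0⟩ := cp81_facts hB l β
  rw [cp81_eq]
  exact ⟨cp81_int hm k one_pos (hE 1).1, cp81_mean hm k (hE 1).1 h0⟩

theorem copyBdStmt : CopyBdStmt := by
  intro hB k c C hc
  refine ⟨2 ^ k * (k.factorial / c ^ k) * ((k + 1) * C), fun l β hC => ?_⟩
  obtain ⟨hP, hm, hE, -⟩ := cp81_facts hB l β
  rw [cp81_eq]
  refine (cp81_abs hm k hc (hE c).1).trans ?_
  rw [← (hE c).2]
  gcongr

end Crest.Agent.T156.Soft
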