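import Crest.Agent.T156.SoftDef_88

/-! # Row 156, soft part: `ExpStmt` (helper56) -/

set_option autoImplicit false
open MeasureTheory ProbabilityTheory Filter Topology Set

namespace Crest.Agent.T156.Soft

namespace Exp56

theorem int_exp {μ : Measure ℝ} (h : Nice μ) (a : ℝ) :
    Integrable (fun x => Real.exp (a * x)) μ := by
  refine (h.expInt |a|).mono' (by fun_prop) (ae_of_all _ fun x => ?_)
  rw [Real.norm_eq_abs, abs_of_pos (Real.exp_pos _), ← abs_mul]
  exact Real.exp_le_exp.2 (le_abs_self _)

theorem int_id {μ : Measure ℝ} (h : Nice μ) : Integrable (fun x : ℝ => x) μ := by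
  refine (h.expInt 1).mono' (by fun_prop) (ae_of_all _ fun x => ?_)
  rw [Real.norm_eq_abs, one_mul]
  linarith [Real.add_one_le_exp |x|]

theorem int_exp' {μ : Measure ℝ} (h : Nice μ) (c a : ℝ) :
    Integrable (fun x => Real.exp (c * (a - x))) μ := by
  have := (int_exp h (-c)).const_mul (Real.exp (c * a))
  refine this.congr (ae_of_all _ fun x => ?_)
  simp only [← Real.exp_add]
  congr 1
  ring

/-- Jensen in the form `1 + c a ≤ E exp (c (a - x))` -/
theorem jensen {μ : Measure ℝ} (h : Nice μ) (c a : ℝ) :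
    1 + c * a ≤ ∫ x, Real.exp (c * (a - x)) ∂μ := by
  have := h.prob
  have h1 : ∫ x, (1 + c * a - c * x) ∂μ = 1 + c * a := by
    rw [integral_sub (integrable_const _) ((int_id h).const_mul c), integral_const_mul, h.mean]
    simp
  rw [← h1]
  refine integral_mono ((integrable_const _).sub ((int_id h).const_mul c)) (int_exp' h c a)
    fun x => ?_
  have := Real.add_one_le_exp (c * (a - x))
  dsimp only
  linarith

theorem one_le {μ : Measure ℝ} (h : Nice μ) (s : ℝ) : 1 ≤ ∫ x, Real.exp (s * x) ∂μ := by
  have := jensen h (-s) 0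
  simpa using this

theorem exp_lam {μ : Measure ℝ} (h : Nice μ) (s : ℝ) :
    Real.exp (lam μ s) = ∫ x, Real.exp (s * x) ∂μ :=
  Real.exp_log (by linarith [one_le h s])

/-- Markov -/
theorem markov {μ : Measure ℝ} (h : Nice μ) {s : ℝ} (hs : 0 < s) (u : ℝ) :
    μ.real (Ioi ((lam μ s + u) / s)) ≤ Real.exp (-u) := by
  have := h.prob
  rw [← integral_indicator_one measurableSet_Ioi]
  have h1 : ∫ x, Real.exp (-(lam μ s + u)) * Real.exp (s * x) ∂μ = Real.exp (-u) := by
    rw [integral_const_mul, ← exp_lam h s, ← Real.exp_add]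
    congr 1
    ring
  rw [← h1]
  refine integral_mono ((integrable_const (1 : ℝ)).indicator measurableSet_Ioi)
    ((int_exp h s).const_mul _) fun x => ?_
  by_cases hx : x ∈ Ioi ((lam μ s + u) / s)
  · rw [indicator_of_mem hx]
    have : lam μ s + u < s * x := by
      have := (div_lt_iff₀ hs).1 hx
      linarith
    dsimp only
    rw [← Real.exp_add]
    exact Real.one_le_exp (by linarith)
  · rw [indicator_of_notMem hx]
    positivity

theorem amgm {e M E : ℝ} (hM : 0 < M) (hE : 0 < E) :
    e ≤ 1 / (4 * M * E) * (e * e) + M * E := by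
  have h : 0 < M * E := mul_pos hM hE
  have h2 : 1 / (4 * M * E) * (e * e) + M * E - e = (e - 2 * (M * E)) ^ 2 / (4 * (M * E)) := by
    field_simp
    ring
  have h3 : 0 ≤ (e - 2 * (M * E)) ^ 2 / (4 * (M * E)) := by positivity
  linarith

/-- Paley–Zygmund -/
theorem pz {μ : Measure ℝ} (h : Nice μ) {s K : ℝ} (hs : 0 < s)
    (hK : lam μ (2 * s) ≤ 2 * lam μ s + K) :
    Real.exp (-K) / 4 ≤ μ.real (Ioi ((lam μ s - Real.log 2) / s)) := by
  have := h.prob
  set A := Ioi ((lam μ s - Real.log 2) / s) with hA
  set M := Real.exp (lam μ s) with hM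
  set E := Real.exp K with hE
  have hM0 : 0 < M := Real.exp_pos _
  have hE0 : 0 < E := Real.exp_pos _
  have hI : Integrable (A.indicator (1 : ℝ → ℝ)) μ :=
    (integrable_const (1 : ℝ)).indicator measurableSet_Ioi
  have h2 : ∫ x, Real.exp (2 * s * x) ∂μ ≤ M * M * E := by
    rw [← exp_lam h (2 * s), hM, hE, ← Real.exp_add, ← Real.exp_add]
    exact Real.exp_le_exp.2 (by linarith)
  have h1 : ∫ x, Real.exp (s * x) ∂μ ≤
      ∫ x, (M / 2 + 1 / (4 * M * E) * Real.exp (2 * s * x) + M * E * A.indicator 1 x) ∂μ := by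
    refine integral_mono (int_exp h s)
      (((integrable_const _).add ((int_exp h (2 * s)).const_mul _)).add (hI.const_mul _))
      fun x => ?_
    dsimp only
    have he : Real.exp (2 * s * x) = Real.exp (s * x) * Real.exp (s * x) := by
      rw [← Real.exp_add]; congr 1; ring
    by_cases hx : x ∈ A
    · rw [indicator_of_mem hx, he]
      have := amgm (e := Real.exp (s * x)) hM0 hE0
      simp only [Pi.one_apply, mul_one]
      linarith
    · rw [indicator_of_notMem hx]
      have hx' : s * x ≤ lam μ s - Real.log 2 := by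
        have : x ≤ (lam μ s - Real.log 2) / s := not_lt.1 hx
        have := (le_div_iff₀ hs).1 this
        linarith
      have h3 : Real.exp (s * x) ≤ M / 2 := by
        refine (Real.exp_le_exp.2 hx').trans_eq ?_
        rw [Real.exp_sub, Real.exp_log (by norm_num)]
      have h4 : 0 ≤ 1 / (4 * M * E) * Real.exp (2 * s * x) := by positivity
      linarith
  have hJ : Integrable (fun x => M / 2 + 1 / (4 * M * E) * Real.exp (2 * s * x)) μ :=
    (integrable_const _).add ((int_exp h (2 * s)).const_mul _)
  rw [integral_add hJ (hI.const_mul _),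
    integral_add (integrable_const _) ((int_exp h (2 * s)).const_mul _), integral_const_mul,
    integral_const_mul, integral_indicator_one measurableSet_Ioi, ← exp_lam h s, ← hM] at h1
  simp only [integral_const, probReal_univ, smul_eq_mul, one_mul] at h1
  have h5 : 1 / (4 * M * E) * ∫ x, Real.exp (2 * s * x) ∂μ ≤ M / 4 := by
    refine (mul_le_mul_of_nonneg_left h2 (by positivity)).trans_eq ?_
    field_simp
  have h6 : M * (1 / 4) ≤ M * (E * μ.real A) := by linarith
  have h7 := le_of_mul_le_mul_left h6 hM0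
  rw [Real.exp_neg, ← hE, div_le_iff₀ (by norm_num), inv_le_iff_one_le_mul₀' hE0]
  linarith

/-- log-concavity gives an exponential lower tail -/
theorem tail {μ : Measure ℝ} (h : Nice μ) (hc : CdfLC μ) {a w p : ℝ} (hw : 0 < w) (hp : 0 < p)
    (hp' : p ≤ 1 / 4) (ha : μ.real (Iic a) ≤ 1 - 2 * p) (hb : 1 - p ≤ μ.real (Iic (a + w)))
    (t : ℝ) : μ.real (Iic t) ≤
      Real.exp (-(-Real.log ((1 - 2 * p) / (1 - p)) / w) * (a - t)) := by
  have := h.prob
  have hq0 : 0 < (1 - 2 * p) / (1 - p) := div_pos (by linarith) (by linarith)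
  have hq1 : (1 - 2 * p) / (1 - p) ≤ 1 := (div_le_one (by linarith)).2 (by linarith)
  have hl : Real.log ((1 - 2 * p) / (1 - p)) ≤ 0 := Real.log_nonpos hq0.le hq1
  set q := (1 - 2 * p) / (1 - p) with hq
  have hγ : 0 ≤ -Real.log q / w := div_nonneg (by linarith) hw.le
  rcases le_or_gt a t with hat | hat
  · refine measureReal_le_one.trans (Real.one_le_exp ?_)
    nlinarith
  rcases (measureReal_nonneg (μ := μ) (s := Iic t)).eq_or_lt with h0 | h0
  · rw [← h0]; positivity
  have hd : 0 < a + w - t := by linarith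
  have hθ0 : 0 < (a - t) / (a + w - t) := div_pos (by linarith) hd
  have hθ1 : (a - t) / (a + w - t) < 1 := (div_lt_one hd).2 (by linarith)
  set θ := (a - t) / (a + w - t) with hθ
  have h1 := hc t (a + w) θ hθ0 hθ1
  have he : (1 - θ) * t + θ * (a + w) = a := by
    rw [hθ]; field_simp; ring
  rw [he] at h1
  have h2 : 1 - p ≤ μ.real (Iic (a + w)) ^ θ := by
    refine hb.trans ?_
    conv_lhs => rw [← Real.rpow_one (μ.real (Iic (a + w)))]
    exact Real.rpow_le_rpow_of_exponent_ge (by linarith) measureReal_le_one hθ1.le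
  have h3 : μ.real (Iic t) ^ (1 - θ) ≤ q := by
    rw [hq, le_div_iff₀ (by linarith)]
    exact ((mul_le_mul_of_nonneg_left h2 (by positivity)).trans h1).trans ha
  have h4 : (1 - θ) * Real.log (μ.real (Iic t)) ≤ Real.log q := by
    rw [← Real.log_rpow h0]
    exact Real.log_le_log (by positivity) h3
  have h5 : 1 - θ = w / (a + w - t) := by
    rw [hθ]; field_simp; ring
  rw [h5, div_mul_eq_mul_div, div_le_iff₀ hd] at h4
  rw [← Real.exp_log h0]
  refine Real.exp_le_exp.2 ?_
  have h6 : -(-Real.log q / w) * (a - t) = Real.log q * (a - t) / w := by ring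
  rw [h6, le_div_iff₀ hw]
  nlinarith

/-- the constant of the layer-cake bound -/
noncomputable def C1 : ℝ := ∫ t in Ioi (0 : ℝ), 2 * (1 + t ^ 2)⁻¹

theorem C1_nonneg : 0 ≤ C1 := integral_nonneg fun t => by positivity

theorem layer {μ : Measure ℝ} (h : Nice μ) {a c : ℝ} (hc : 0 < c)
    (ht : ∀ t, μ.real (Iic t) ≤ Real.exp (-(2 * c) * (a - t))) :
    ∫ x, Real.exp (c * (a - x)) ∂μ ≤ C1 := by
  have := h.prob
  rw [(int_exp' h c a).integral_eq_integral_meas_le (ae_of_all _ fun x => (Real.exp_pos _).le)]
  refine integral_mono_of_nonneg (ae_of_all _ fun t => measureReal_nonneg)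
    (integrable_inv_one_add_sq.const_mul 2).integrableOn ?_
  filter_upwards [ae_restrict_mem measurableSet_Ioi] with t ht0
  have ht0 : 0 < t := ht0
  rcases le_or_gt t 1 with h1 | h1
  · refine measureReal_le_one.trans ?_
    rw [← div_eq_mul_inv, le_div_iff₀ (by positivity)]
    nlinarith
  have hsub : {x : ℝ | t ≤ Real.exp (c * (a - x))} ⊆ Iic (a - Real.log t / c) := by
    intro x hx
    have hx' : Real.log t ≤ c * (a - x) := (Real.log_le_iff_le_exp ht0).2 hx
    have : Real.log t / c ≤ a - x := (div_le_iff₀ hc).2 (by linarith)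
    show x ≤ a - Real.log t / c
    linarith
  refine ((measureReal_mono hsub).trans (ht _)).trans ?_
  have he : -(2 * c) * (a - (a - Real.log t / c)) = -(Real.log t + Real.log t) := by
    field_simp
    ring
  rw [he, Real.exp_neg, Real.exp_add, Real.exp_log ht0, ← div_eq_mul_inv, ← one_div,
    div_le_div_iff₀ (by positivity) (by positivity)]
  nlinarith

end Exp56

open Exp56 in
theorem expStmt : ExpStmt := by
  intro s k hs
  set K := max k 0 with hKdef
  have hK0 : 0 ≤ K := le_max_right _ _
  set p := Real.exp (-K) / 8 with hpdef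
  have hp : 0 < p := by positivity
  have hp' : p ≤ 1 / 4 := by
    have : Real.exp (-K) ≤ 1 := Real.exp_le_one_iff.2 (by linarith)
    linarith
  have hl2 : 0 < Real.log 2 := Real.log_pos (by norm_num)
  have hl8 : 0 < Real.log 8 := Real.log_pos (by norm_num)
  set w := (K + Real.log 8 + Real.log 2) / s with hwdef
  have hw : 0 < w := by positivity
  have hq0 : 0 < (1 - 2 * p) / (1 - p) := div_pos (by linarith) (by linarith)
  have hq1 : (1 - 2 * p) / (1 - p) < 1 := (div_lt_one (by linarith)).2 (by linarith)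
  have hl : Real.log ((1 - 2 * p) / (1 - p)) < 0 := Real.log_neg hq0 hq1
  set c := -Real.log ((1 - 2 * p) / (1 - p)) / w / 2 with hcdef
  have hc : 0 < c := div_pos (div_pos (by linarith) hw) (by norm_num)
  set L := s * (C1 / c) + Real.log 2 with hL
  have hC1 := C1_nonneg
  have hL0 : 0 ≤ L := by positivity
  refine ⟨min c s, Real.exp L + Real.exp (c * (Real.log 2 / s)) * C1 + L, lt_min hc hs,
    fun μ h hcl hk => ?_⟩
  have := h.prob
  set a := (lam μ s - Real.log 2) / s with hadef
  have hΛ : 0 ≤ lam μ s := Real.log_nonneg (one_le h s)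
  have ha : μ.real (Iic a) ≤ 1 - 2 * p := by
    have h1 := pz h hs (K := K) (hk.trans (by linarith [le_max_left k 0]))
    rw [← compl_Ioi, probReal_compl_eq_one_sub measurableSet_Ioi]
    linarith
  have hb : 1 - p ≤ μ.real (Iic (a + w)) := by
    have h1 := markov h hs (K + Real.log 8)
    have he : a + w = (lam μ s + (K + Real.log 8)) / s := by
      rw [hadef, hwdef]; ring
    have h2 : Real.exp (-(K + Real.log 8)) = p := by
      rw [neg_add, Real.exp_add, Real.exp_neg (Real.log 8), Real.exp_log (by norm_num), hpdef]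
      ring
    rw [he, ← compl_Ioi, probReal_compl_eq_one_sub measurableSet_Ioi]
    linarith
  have hlay : ∫ x, Real.exp (c * (a - x)) ∂μ ≤ C1 := by
    refine layer h hc fun t => (tail h hcl hw hp hp' ha hb t).trans_eq ?_
    congr 2
    rw [hcdef]; ring
  have haC : a ≤ C1 / c := by
    have := (jensen h c a).trans hlay
    rw [le_div_iff₀ hc]
    linarith
  have hΛL : lam μ s ≤ L := by
    have h1 : lam μ s = s * a + Real.log 2 := by rw [hadef]; field_simp; ring
    have h2 := mul_le_mul_of_nonneg_left haC hs.le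
    linarith
  have hE : 0 ≤ Real.exp (c * (Real.log 2 / s)) * C1 := by positivity
  refine ⟨?_, by rw [abs_of_nonneg hΛ]; linarith [Real.exp_pos L]⟩
  have h1 : ∫ x, Real.exp (min c s * |x|) ∂μ ≤
      ∫ x, (Real.exp (s * x) + Real.exp (c * (Real.log 2 / s)) * Real.exp (c * (a - x))) ∂μ := by
    refine integral_mono (h.expInt _) ((int_exp h s).add ((int_exp' h c a).const_mul _))
      fun x => ?_
    dsimp only
    rcases le_or_gt 0 x with hx | hx
    · have h2 : Real.exp (min c s * |x|) ≤ Real.exp (s * x) := by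
        rw [abs_of_nonneg hx]
        exact Real.exp_le_exp.2 (mul_le_mul_of_nonneg_right (min_le_right _ _) hx)
      have h3 : 0 ≤ Real.exp (c * (Real.log 2 / s)) * Real.exp (c * (a - x)) := by positivity
      linarith
    · have ha0 : 0 ≤ Real.log 2 / s + a := by
        rw [hadef, ← add_div]
        exact div_nonneg (by linarith) hs.le
      have h2 : Real.exp (min c s * |x|) ≤
          Real.exp (c * (Real.log 2 / s)) * Real.exp (c * (a - x)) := by
        rw [abs_of_neg hx, ← Real.exp_add]
        refine Real.exp_le_exp.2 ?_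
        have h3 := mul_le_mul_of_nonneg_right (min_le_left c s) (neg_nonneg.2 hx.le)
        have h4 := mul_nonneg hc.le ha0
        linarith
      linarith [Real.exp_pos (s * x)]
  rw [integral_add (int_exp h s) ((int_exp' h c a).const_mul _), integral_const_mul,
    ← exp_lam h s] at h1
  have h2 := Real.exp_le_exp.2 hΛL
  have h3 := mul_le_mul_of_nonneg_left hlay (Real.exp_pos (c * (Real.log 2 / s))).le
  linarith

end Crest.Agent.T156.Soft
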