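import Crest.Agent.T156.SoftDef_88
import Crest.Agent.R239.LineGauss

/-!
# Row 156, soft part: the distribution functions of the scaled fluctuations are log-concave
-/

set_option autoImplicit false
open MeasureTheory ProbabilityTheory Filter Topology Set
open scoped ENNReal NNReal
open Crest.ProbabilityR.SpinGlass
open Crest.Agent.Lib.PrekopaLeindler

namespace Crest.Agent.T156.Soft

theorem lc_PL_gauss (v : ℝ≥0) : PL ℝ (gaussianReal 0 v) := by
  have h : MeasurePreserving (fun x : ℝ => Real.sqrt v * x) (gaussianReal 0 1)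
      (gaussianReal 0 v) := by
    refine ⟨by fun_prop, ?_⟩
    rw [gaussianReal_map_const_mul]
    congr 1
    · simp
    · ext
      simp [Real.sq_sqrt]
  refine PL.of_measurePreserving _ h ?_ Crest.Agent.R239.PL_g1
  intro a b x y
  simp only [smul_eq_mul]; ring

theorem lc_PL_pi (ι : Type) [Fintype ι] :
    PL (ι → ℝ) (Measure.pi fun _ : ι => gaussianReal 0 1) := by
  let e : Fin (Fintype.card ι) ≃ ι := (Fintype.equivFin ι).symm
  refine PL.of_measurePreserving (MeasurableEquiv.piCongrLeft (fun _ : ι => ℝ) e)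
    (measurePreserving_piCongrLeft (fun _ : ι => gaussianReal 0 1) e) ?_
    (Crest.Agent.R239.PL_gp _)
  intro a b x y
  ext i
  obtain ⟨j, rfl⟩ := e.surjective i
  simp [MeasurableEquiv.piCongrLeft_apply_apply]

/-- sublevel sets of a convex function under a measure with the Prékopa–Leindler property -/
theorem lc_cdf {E : Type*} [AddCommGroup E] [Module ℝ E] [MeasurableSpace E] {μ : Measure E}
    [IsProbabilityMeasure μ] (hμ : PL E μ) {f : E → ℝ} (hf : Measurable f)
    (hc : ConvexOn ℝ univ f) : CdfLC (μ.map f) := by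
  intro s t θ h0 h1
  have hm : ∀ r : ℝ, MeasurableSet (f ⁻¹' Iic r) := fun r => hf measurableSet_Iic
  have key := hμ θ h0 h1 ((f ⁻¹' Iic s).indicator 1) ((f ⁻¹' Iic t).indicator 1)
    ((f ⁻¹' Iic ((1 - θ) * s + θ * t)).indicator 1)
    (measurable_one.indicator (hm _)) (measurable_one.indicator (hm _))
    (measurable_one.indicator (hm _)) ?_
  · rw [lintegral_indicator_one (hm _), lintegral_indicator_one (hm _),
      lintegral_indicator_one (hm _)] at key
    simp only [Measure.real]
    rw [Measure.map_apply hf measurableSet_Iic, Measure.map_apply hf measurableSet_Iic,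
      Measure.map_apply hf measurableSet_Iic, ENNReal.toReal_rpow, ENNReal.toReal_rpow,
      ← ENNReal.toReal_mul]
    exact ENNReal.toReal_mono (measure_ne_top _ _) key
  · intro x y
    by_cases hx : x ∈ f ⁻¹' Iic s
    · by_cases hy : y ∈ f ⁻¹' Iic t
      · have hz : (1 - θ) • x + θ • y ∈ f ⁻¹' Iic ((1 - θ) * s + θ * t) := by
          have h2 := hc.2 (mem_univ x) (mem_univ y) (show (0:ℝ) ≤ 1 - θ by linarith) h0.le
            (by ring)
          simp only [mem_preimage, mem_Iic, smul_eq_mul] at hx hy h2 ⊢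
          have h3 := mul_le_mul_of_nonneg_left hx (show (0:ℝ) ≤ 1 - θ by linarith)
          have h4 := mul_le_mul_of_nonneg_left hy h0.le
          linarith
        rw [indicator_of_mem hx, indicator_of_mem hy, indicator_of_mem hz]
        simp
      · rw [indicator_of_notMem hy, ENNReal.zero_rpow_of_pos h0, mul_zero]
        exact bot_le
    · rw [indicator_of_notMem hx, ENNReal.zero_rpow_of_pos (by linarith), zero_mul]
      exact bot_le

theorem lc_xs_convex (n : ℕ) (β : ℝ) (h : ConvexOn ℝ univ (logPartitionFunction n β)) :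
    ConvexOn ℝ univ (xs n β) := by
  have hp : (0:ℝ) ≤ (n : ℝ) ^ (-(1 : ℝ) / 6) := Real.rpow_nonneg (Nat.cast_nonneg n) _
  refine ⟨convex_univ, fun x _ y _ a b ha hb hab => ?_⟩
  have h2 := h.2 (mem_univ x) (mem_univ y) ha hb hab
  simp only [smul_eq_mul, xs] at h2 ⊢
  set m := ∫ g', logPartitionFunction n β g' ∂disorderLaw n
  set r := (n : ℝ) ^ (-(1 : ℝ) / 6)
  have h3 := mul_le_mul_of_nonneg_left h2 hp
  have h4 : r * m = a * (r * m) + b * (r * m) := by rw [← add_mul, hab, one_mul]
  nlinarith

theorem lcStmt : LcStmt := by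
  intro hB n β
  obtain ⟨p1, p2, -, -, c3, c4, hcv, -, -, hsum, -⟩ := hB n β
  have hx := lc_xs_convex n β hcv
  have hPd : PL (Disorder n) (disorderLaw n) := lc_PL_pi _
  refine ⟨lc_cdf hPd c4.measurable hx, ?_⟩
  have hPc : PL (Disorder n × ℝ) (completedLaw n β) := hPd.prod (lc_PL_gauss _)
  refine lc_cdf hPc c3.measurable ⟨convex_univ, fun x _ y _ a b ha hb hab => ?_⟩
  have h2 := hx.2 (mem_univ x.1) (mem_univ y.1) ha hb hab
  rw [hsum, hsum, hsum]
  simp only [smul_eq_mul, Prod.fst_add, Prod.smul_fst, Prod.snd_add, Prod.smul_snd] at h2 ⊢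
  nlinarith

end Crest.Agent.T156.Soft
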