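import Crest.Agent.T156.SoftDef_88

/-!
# Row 156, soft part: the method of moments (`LimitStmt`, helper87)

Tightness by Markov, Prokhorov, truncation for the moments of every cluster point, `DetStmt`.
-/

set_option autoImplicit false
open MeasureTheory ProbabilityTheory Filter Topology Set

namespace Crest.Agent.T156.Soft

/-- truncation of a continuous function at height `R` -/
noncomputable def trunc87 (g : ℝ → ℝ) (hg : Continuous g) (R : ℝ) : BoundedContinuousFunction ℝ ℝ :=
  BoundedContinuousFunction.ofNormedAddCommGroup (fun x => max (-|R|) (min (g x) |R|))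
    (continuous_const.max (hg.min continuous_const)) |R| (fun x => by
      rw [Real.norm_eq_abs, abs_le]
      exact ⟨le_max_left _ _, max_le (by linarith [abs_nonneg R]) (min_le_right _ _)⟩)

lemma trunc87_apply (g : ℝ → ℝ) (hg : Continuous g) (R x : ℝ) :
    trunc87 g hg R x = max (-|R|) (min (g x) |R|) := rfl

lemma trunc87_err (g : ℝ → ℝ) (hg : Continuous g) {R : ℝ} (hR : 0 < R) (x : ℝ) :
    |g x - trunc87 g hg R x| ≤ g x ^ 2 / R := by
  rw [trunc87_apply, abs_of_pos hR, le_div_iff₀ hR]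
  rcases le_total (g x) R with h | h
  · rw [min_eq_left h]
    rcases le_total (-R) (g x) with h' | h'
    · rw [max_eq_right h']; simp; positivity
    · rw [max_eq_left h', abs_of_nonpos (by linarith)]; nlinarith
  · rw [min_eq_right h, max_eq_right (by linarith), abs_of_nonneg (by linarith)]; nlinarith

/-- a function dominated by `K exp ((c/2)|x|)` is uniformly close to its truncations -/
lemma int_trunc87 (g : ℝ → ℝ) (hg : Continuous g) {c K C R : ℝ} (hR : 0 < R)
    (hK : ∀ x, g x ^ 2 ≤ K * Real.exp (c * |x|)) (hK0 : 0 ≤ K) (μ : Measure ℝ)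
    [IsProbabilityMeasure μ] (hi : Integrable (fun x => Real.exp (c * |x|)) μ)
    (hC : ∫ x, Real.exp (c * |x|) ∂μ ≤ C) :
    Integrable g μ ∧ |∫ x, g x ∂μ - ∫ x, trunc87 g hg R x ∂μ| ≤ K * C / R := by
  have ht : Integrable (fun x => trunc87 g hg R x) μ := (trunc87 g hg R).integrable μ
  have hb : ∀ x, |g x - trunc87 g hg R x| ≤ K / R * Real.exp (c * |x|) := fun x => by
    refine (trunc87_err g hg hR x).trans ?_
    rw [div_mul_eq_mul_div]
    exact div_le_div_of_nonneg_right (hK x) hR.le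
  have hd : Integrable (fun x => g x - trunc87 g hg R x) μ :=
    (hi.const_mul (K / R)).mono' ((hg.sub (trunc87 g hg R).continuous).aestronglyMeasurable)
      (Eventually.of_forall fun x => by rw [Real.norm_eq_abs]; exact hb x)
  have hgi : Integrable g μ := by
    have := hd.add ht
    refine this.congr (Eventually.of_forall fun x => by simp)
  refine ⟨hgi, ?_⟩
  rw [← integral_sub hgi ht]
  calc |∫ x, (g x - trunc87 g hg R x) ∂μ| ≤ ∫ x, |g x - trunc87 g hg R x| ∂μ :=
        abs_integral_le_integral_abs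
    _ ≤ ∫ x, K / R * Real.exp (c * |x|) ∂μ := integral_mono hd.abs (hi.const_mul _) hb
    _ = K / R * ∫ x, Real.exp (c * |x|) ∂μ := integral_const_mul _ _
    _ ≤ K / R * C := mul_le_mul_of_nonneg_left hC (div_nonneg hK0 hR.le)
    _ = K * C / R := by ring

/-- the exponential moment passes to a weak limit -/
lemma exp_limit87 {F : Filter ℕ} [F.NeBot] (P : ℕ → ProbabilityMeasure ℝ) (ν : ProbabilityMeasure ℝ)
    (hP : Tendsto P F (𝓝 ν)) {c C : ℝ}
    (h : ∀ᶠ n in F, Integrable (fun x => Real.exp (c * |x|)) (P n : Measure ℝ) ∧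
      ∫ x, Real.exp (c * |x|) ∂(P n : Measure ℝ) ≤ C) :
    Integrable (fun x => Real.exp (c * |x|)) (ν : Measure ℝ) ∧
      ∫ x, Real.exp (c * |x|) ∂(ν : Measure ℝ) ≤ C := by
  have he : Continuous (fun x : ℝ => Real.exp (c * |x|)) := by fun_prop
  have hval : ∀ (m : ℕ) (x : ℝ), trunc87 _ he m x = min (Real.exp (c * |x|)) m := fun m x => by
    rw [trunc87_apply, abs_of_nonneg (Nat.cast_nonneg m)]
    refine max_eq_right ?_
    have : (0 : ℝ) ≤ min (Real.exp (c * |x|)) m := le_min (Real.exp_pos _).le (Nat.cast_nonneg m)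
    linarith [(Nat.cast_nonneg m : (0 : ℝ) ≤ m)]
  have hm : ∀ m : ℕ, ∫ x, min (Real.exp (c * |x|)) m ∂(ν : Measure ℝ) ≤ C := fun m => by
    have h1 := (ProbabilityMeasure.tendsto_iff_forall_integral_tendsto.1 hP) (trunc87 _ he m)
    simp only [hval] at h1
    refine le_of_tendsto h1 (h.mono fun n hn => le_trans ?_ hn.2)
    refine integral_mono ?_ hn.1 (fun x => min_le_left _ _)
    have := (trunc87 _ he m).integrable (P n : Measure ℝ)
    exact this.congr (Eventually.of_forall fun x => hval m x)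
  have hint : ∀ m : ℕ, Integrable (fun x => min (Real.exp (c * |x|)) m) (ν : Measure ℝ) :=
    fun m => ((trunc87 _ he m).integrable (ν : Measure ℝ)).congr
      (Eventually.of_forall fun x => hval m x)
  have hnn : ∀ (m : ℕ) (x : ℝ), (0 : ℝ) ≤ min (Real.exp (c * |x|)) m := fun m x =>
    le_min (Real.exp_pos _).le (Nat.cast_nonneg m)
  have hlim : Tendsto (fun m : ℕ => ∫⁻ x, ENNReal.ofReal (min (Real.exp (c * |x|)) m)
      ∂(ν : Measure ℝ)) atTop (𝓝 (∫⁻ x, ENNReal.ofReal (Real.exp (c * |x|)) ∂(ν : Measure ℝ))) := by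
    refine lintegral_tendsto_of_tendsto_of_monotone (fun m => ?_) (Eventually.of_forall fun x => ?_)
      (Eventually.of_forall fun x => ?_)
    · exact ((he.min continuous_const).measurable.ennreal_ofReal).aemeasurable
    · intro m m' hmm
      exact ENNReal.ofReal_le_ofReal (min_le_min_left _ (Nat.cast_le.2 hmm))
    · refine tendsto_const_nhds.congr' ?_
      filter_upwards [tendsto_natCast_atTop_atTop.eventually_ge_atTop (Real.exp (c * |x|))]
        with m hm'
      rw [min_eq_left hm']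
  have hle : ∫⁻ x, ENNReal.ofReal (Real.exp (c * |x|)) ∂(ν : Measure ℝ) ≤ ENNReal.ofReal C := by
    refine le_of_tendsto' hlim fun m => ?_
    rw [← ofReal_integral_eq_lintegral_ofReal (hint m) (Eventually.of_forall (hnn m))]
    exact ENNReal.ofReal_le_ofReal (hm m)
  have hI : Integrable (fun x => Real.exp (c * |x|)) (ν : Measure ℝ) := by
    refine ⟨he.aestronglyMeasurable, ?_⟩
    rw [hasFiniteIntegral_iff_ofReal (Eventually.of_forall fun x => (Real.exp_pos _).le)]
    exact hle.trans_lt ENNReal.ofReal_lt_top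
  refine ⟨hI, ?_⟩
  have hC0 : 0 ≤ C := le_trans (integral_nonneg (hnn 0)) (hm 0)
  rw [← ofReal_integral_eq_lintegral_ofReal hI
    (Eventually.of_forall fun x => (Real.exp_pos _).le)] at hle
  exact (ENNReal.ofReal_le_ofReal_iff hC0).1 hle

lemma pow_sq_le87 {c : ℝ} (hc : 0 < c) (k : ℕ) (x : ℝ) :
    (x ^ k) ^ 2 ≤ ((2 * k).factorial / c ^ (2 * k)) * Real.exp (c * |x|) := by
  have h := Real.pow_div_factorial_le_exp (c * |x|) (by positivity) (2 * k)
  have hf : (0 : ℝ) < (2 * k).factorial := by exact_mod_cast Nat.factorial_pos _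
  rw [div_le_iff₀ hf, mul_pow] at h
  have e : (x ^ k) ^ 2 = |x| ^ (2 * k) := by
    rw [← pow_mul, mul_comm k 2, pow_mul, pow_mul, sq_abs]
  rw [e, div_mul_eq_mul_div, le_div_iff₀ (by positivity)]
  linarith

/-- the moments pass to a weak limit -/
lemma mom_limit87 {F : Filter ℕ} [F.NeBot] (P : ℕ → ProbabilityMeasure ℝ) (ν : ProbabilityMeasure ℝ)
    (hP : Tendsto P F (𝓝 ν)) {c C : ℝ} (hc : 0 < c)
    (h : ∀ᶠ n in F, Integrable (fun x => Real.exp (c * |x|)) (P n : Measure ℝ) ∧
      ∫ x, Real.exp (c * |x|) ∂(P n : Measure ℝ) ≤ C) (k : ℕ) :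
    Integrable (fun x : ℝ => x ^ k) (ν : Measure ℝ) ∧
      Tendsto (fun n => ∫ x, x ^ k ∂(P n : Measure ℝ)) F (𝓝 (∫ x, x ^ k ∂(ν : Measure ℝ))) := by
  obtain ⟨hν, hνC⟩ := exp_limit87 P ν hP h
  have hg : Continuous (fun x : ℝ => x ^ k) := continuous_pow k
  set K : ℝ := (2 * k).factorial / c ^ (2 * k) with hK
  have hK0 : 0 ≤ K := by positivity
  refine ⟨(int_trunc87 _ hg one_pos (pow_sq_le87 hc k) hK0 _ hν hνC).1, ?_⟩
  rw [Metric.tendsto_nhds]
  intro ε hε
  obtain ⟨R, hR, hRε⟩ : ∃ R : ℝ, 0 < R ∧ K * C / R < ε / 3 := by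
    refine ⟨3 * (|K * C| + 1) / ε, by positivity, ?_⟩
    rw [div_lt_iff₀ (by positivity)]
    have : ε / 3 * (3 * (|K * C| + 1) / ε) = |K * C| + 1 := by field_simp
    rw [this]; linarith [le_abs_self (K * C)]
  have h1 := (ProbabilityMeasure.tendsto_iff_forall_integral_tendsto.1 hP) (trunc87 _ hg R)
  rw [Metric.tendsto_nhds] at h1
  filter_upwards [h, h1 (ε / 3) (by positivity)] with n hn hn1
  have a1 := (int_trunc87 _ hg hR (pow_sq_le87 hc k) hK0 _ hn.1 hn.2).2
  have a2 := (int_trunc87 _ hg hR (pow_sq_le87 hc k) hK0 _ hν hνC).2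
  rw [Real.dist_eq] at hn1 ⊢
  rw [abs_le] at a1 a2
  rw [abs_lt] at hn1 ⊢
  constructor <;> linarith [a1.1, a1.2, a2.1, a2.2, hn1.1, hn1.2]

lemma tight87 (μ : ℕ → Measure ℝ) [∀ n, IsProbabilityMeasure (μ n)] {c C : ℝ} (hc : 0 < c)
    (h : ∀ᶠ n in atTop, Integrable (fun x => Real.exp (c * |x|)) (μ n) ∧
      ∫ x, Real.exp (c * |x|) ∂μ n ≤ C) : IsTightMeasureSet (range μ) := by
  refine isTightMeasureSet_range_of_tendsto_limsup_measure_norm_gt ?_
  have hlim : Tendsto (fun r : ℝ => ENNReal.ofReal (C * Real.exp (-(c * r)))) atTop (𝓝 0) := by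
    have : Tendsto (fun r : ℝ => C * Real.exp (-(c * r))) atTop (𝓝 (C * 0)) :=
      (Real.tendsto_exp_neg_atTop_nhds_zero.comp (tendsto_id.const_mul_atTop hc)).const_mul C
    rw [mul_zero] at this
    simpa using ENNReal.tendsto_ofReal this
  refine tendsto_of_tendsto_of_tendsto_of_le_of_le tendsto_const_nhds hlim (fun r => zero_le)
    (fun r => ?_)
  refine limsup_le_of_le (h := h.mono fun n hn => ?_)
  have hm := mul_meas_ge_le_integral_of_nonneg (μ := μ n)
    (Eventually.of_forall fun x => (Real.exp_pos (c * |x|)).le) hn.1 (Real.exp (c * r))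
  have hsub : {x : ℝ | r < ‖x‖} ⊆ {x | Real.exp (c * r) ≤ Real.exp (c * |x|)} := fun x hx =>
    Real.exp_le_exp.2 (mul_le_mul_of_nonneg_left (le_of_lt hx) hc.le)
  refine (measure_mono hsub).trans ?_
  rw [← ofReal_measureReal]
  refine ENNReal.ofReal_le_ofReal ?_
  rw [Real.exp_neg, ← div_eq_mul_inv, le_div_iff₀ (Real.exp_pos _)]
  linarith [hn.2]

theorem limitStmt : LimitStmt := by
  intro hdet μ b c C hprob hc h hb
  let P : ℕ → ProbabilityMeasure ℝ := fun n => ⟨μ n, hprob n⟩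
  have hT : IsTightMeasureSet {((ρ : ProbabilityMeasure ℝ) : Measure ℝ) | ρ ∈ range P} := by
    refine (tight87 μ hc h).subset ?_
    rintro _ ⟨_, ⟨n, rfl⟩, rfl⟩
    exact ⟨n, rfl⟩
  have hK : IsCompact (closure (range P)) := isCompact_closure_of_isTightMeasureSet hT
  have hmem : ∀ᶠ n in atTop, P n ∈ closure (range P) :=
    Eventually.of_forall fun n => subset_closure ⟨n, rfl⟩
  have key : ∀ ν : ProbabilityMeasure ℝ, MapClusterPt ν atTop P →
      Integrable (fun x => Real.exp (c * |x|)) (ν : Measure ℝ) ∧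
      ∀ k : ℕ, 1 ≤ k → Integrable (fun x : ℝ => x ^ k) (ν : Measure ℝ) ∧
        ∫ x, x ^ k ∂(ν : Measure ℝ) = b k := by
    intro ν hν
    obtain ⟨U, hU, hUP⟩ := mapClusterPt_iff_ultrafilter.1 hν
    have h' : ∀ᶠ n in (U : Filter ℕ), Integrable (fun x => Real.exp (c * |x|)) (P n : Measure ℝ) ∧
        ∫ x, Real.exp (c * |x|) ∂(P n : Measure ℝ) ≤ C := h.filter_mono hU
    refine ⟨(exp_limit87 P ν hUP h').1, fun k hk => ?_⟩
    obtain ⟨h1, h2⟩ := mom_limit87 P ν hUP hc h' k
    exact ⟨h1, tendsto_nhds_unique h2 ((hb k hk).mono_left hU)⟩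
  obtain ⟨ν, -, hν⟩ := hK.exists_mapClusterPt_of_frequently hmem.frequently
  have hconv : Tendsto P atTop (𝓝 ν) := by
    refine hK.tendsto_nhds_of_unique_mapClusterPt hmem fun ρ _ hρ => ?_
    apply ProbabilityMeasure.toMeasure_injective
    refine hdet _ _ c inferInstance inferInstance hc (key ρ hρ).1 (key ν hν).1 fun k hk => ?_
    rw [((key ρ hρ).2 k hk).2, ((key ν hν).2 k hk).2]
  exact ⟨ν, inferInstance, (key ν hν).1, (key ν hν).2,
    fun f => (ProbabilityMeasure.tendsto_iff_forall_integral_tendsto.1 hconv) f⟩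

end Crest.Agent.T156.Soft
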