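import Crest.Agent.T156.SoA27_88

/-!
# Row 156, soft part: `PosStmt`, `DetStmt` (helper88)
-/

set_option autoImplicit false
open MeasureTheory ProbabilityTheory Filter Topology Set

namespace Crest.Agent.T156.Soft

theorem pd88_sub {μ : Measure ℝ} {c : ℝ} (h : Integrable (fun x => Real.exp (c * |x|)) μ) :
    Ioo (-c) c ⊆ interior (integrableExpSet id μ) := by
  refine interior_maximal (fun t ht => ?_) isOpen_Ioo
  refine h.mono' (by fun_prop) (ae_of_all _ fun x => ?_)
  rw [Real.norm_eq_abs, abs_of_pos (Real.exp_pos _)]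
  apply Real.exp_le_exp.mpr
  have h1 : |t| ≤ c := (abs_lt.mpr ht).le
  calc t * id x ≤ |t * x| := le_abs_self _
    _ = |t| * |x| := abs_mul _ _
    _ ≤ c * |x| := mul_le_mul_of_nonneg_right h1 (abs_nonneg _)

theorem detStmt_88 : DetStmt := by
  intro μ ν c hμ hν hc iμ iν hm
  set U : Set ℂ := {z | z.re ∈ Ioo (-c) c} with hU
  have aμ : AnalyticOnNhd ℂ (complexMGF id μ) U :=
    analyticOnNhd_complexMGF.mono fun z hz => pd88_sub iμ hz
  have aν : AnalyticOnNhd ℂ (complexMGF id ν) U :=
    analyticOnNhd_complexMGF.mono fun z hz => pd88_sub iν hz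
  have h0 : (0 : ℂ) ∈ U := by simp [hU, hc]
  have hconv : Convex ℝ U := (convex_Ioo (-c) c).linear_preimage Complex.reLm
  have hd : ∀ k : ℕ, iteratedDeriv k (complexMGF id μ) 0 = iteratedDeriv k (complexMGF id ν) 0 := by
    intro k
    rw [iteratedDeriv_complexMGF (pd88_sub iμ h0), iteratedDeriv_complexMGF (pd88_sub iν h0)]
    simp only [id, zero_mul, Complex.exp_zero, mul_one]
    have e : ∀ ρ : Measure ℝ, ∫ x : ℝ, (x : ℂ) ^ k ∂ρ = ((∫ x, x ^ k ∂ρ : ℝ) : ℂ) := by
      intro ρ
      rw [← integral_complex_ofReal]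
      simp
    rw [e, e]
    rcases Nat.eq_zero_or_pos k with rfl | hk
    · simp
    · rw [hm k hk]
  have hev : complexMGF id μ =ᶠ[𝓝 0] complexMGF id ν := by
    have a := (aμ 0 h0).sub (aν 0 h0)
    have hz : analyticOrderAt (complexMGF id μ - complexMGF id ν) 0 = ⊤ := by
      rw [← top_le_iff]
      refine ENat.forall_natCast_le_iff_le.mp fun k _ => ?_
      rw [natCast_le_analyticOrderAt_iff_iteratedDeriv_eq_zero a]
      intro i _
      rw [iteratedDeriv_sub (aμ 0 h0).contDiffAt (aν 0 h0).contDiffAt, hd, sub_self]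
    rw [analyticOrderAt_eq_top] at hz
    filter_upwards [hz] with z hz using sub_eq_zero.mp hz
  have heq := aμ.eqOn_of_preconnected_of_eventuallyEq aν hconv.isPreconnected h0 hev
  refine Measure.ext_of_charFun (funext fun t => ?_)
  rw [← complexMGF_id_mul_I, ← complexMGF_id_mul_I]
  exact heq (by simp [hU, hc])

theorem posStmt_88 : PosStmt := by
  intro s s' s₂ M δ hs hs' h2 h2' hδ
  have hA : 0 < 2 + |M| := by positivity
  refine ⟨δ ^ 2 / (2 + |M|), by positivity, fun μ hμ hM hL => ?_⟩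
  have := hμ.prob
  have i1 : Integrable (fun x : ℝ => x) μ := by simpa using hμ.int_pow_88 1
  have i2 := hμ.int_pow_88 2
  have lam0 : 0 ≤ lam μ s := by
    rw [← Real.one_le_exp_iff, ← hμ.mgf_eq_88]
    have : ∫ x, (s * x + 1) ∂μ ≤ ∫ x, Real.exp (s * x) ∂μ :=
      integral_mono ((i1.const_mul s).add (integrable_const _)) (hμ.int_exp_88 s)
        fun x => Real.add_one_le_exp _
    rw [integral_add (i1.const_mul s) (integrable_const _), integral_const_mul, hμ.mean] at this
    simpa using this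
  have h1 : δ * s' ≤ lam μ s' := by
    have : 0 ≤ lam μ s / s := div_nonneg lam0 hs.le
    rw [Lm] at hL
    rw [← le_div_iff₀ hs']
    linarith
  set A := 2 + |M| with hAdef
  set t := δ / A with ht
  have ht0 : 0 < t := by positivity
  have pt : ∀ x : ℝ, Real.exp (s' * x) ≤
      1 + s' * (x ^ 2 / (2 * t) + t / 2 * (2 + Real.exp (s₂ * x))) := by
    intro x
    have hb : ∀ y : ℝ, |x| * y ≤ x ^ 2 / (2 * t) + t / 2 * y ^ 2 := by
      intro y
      have h3 : 0 ≤ (|x| - t * y) ^ 2 / (2 * t) := by positivity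
      have h4 : (|x| - t * y) ^ 2 / (2 * t) = |x| ^ 2 / (2 * t) + t / 2 * y ^ 2 - |x| * y := by
        field_simp; ring
      rw [h4, sq_abs] at h3
      linarith
    have hE := Real.exp_pos (s₂ * x)
    rcases le_total x 0 with hx | hx
    · have : Real.exp (s' * x) ≤ 1 := Real.exp_le_one_iff.mpr (by nlinarith)
      have : 0 ≤ s' * (x ^ 2 / (2 * t) + t / 2 * (2 + Real.exp (s₂ * x))) := by positivity
      linarith
    · have e1 : Real.exp (s' * x) - 1 ≤ s' * x * Real.exp (s' * x) := by
        have h5 := Real.add_one_le_exp (-(s' * x))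
        have h6 : Real.exp (-(s' * x)) * Real.exp (s' * x) = 1 := by rw [← Real.exp_add]; simp
        nlinarith [Real.exp_pos (s' * x)]
      have e2 : Real.exp (s' * x) ^ 2 ≤ Real.exp (s₂ * x) := by
        rw [← Real.exp_nat_mul]
        exact Real.exp_le_exp.mpr (by push_cast; nlinarith)
      have e3 := hb (Real.exp (s' * x))
      rw [abs_of_nonneg hx] at e3
      have e4 : x * Real.exp (s' * x) ≤ x ^ 2 / (2 * t) + t / 2 * (2 + Real.exp (s₂ * x)) := by
        nlinarith
      nlinarith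
  have iE := hμ.int_exp_88 s₂
  have iQ : Integrable (fun x : ℝ => t / 2 * (2 + Real.exp (s₂ * x))) μ :=
    ((integrable_const _).add iE).const_mul _
  have iR : Integrable (fun x : ℝ => x ^ 2 / (2 * t) + t / 2 * (2 + Real.exp (s₂ * x))) μ :=
    (i2.div_const _).add iQ
  have h3 := integral_mono (hμ.int_exp_88 s') ((integrable_const 1).add (iR.const_mul s')) pt
  rw [hμ.mgf_eq_88] at h3
  simp only [Pi.add_apply] at h3
  rw [integral_add (integrable_const 1) (iR.const_mul s'), integral_const_mul,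
    integral_add (i2.div_const _) iQ, integral_div,
    integral_const_mul, integral_add (integrable_const _) iE] at h3
  simp only [integral_const, probReal_univ, smul_eq_mul, one_mul] at h3
  have h4 := Real.add_one_le_exp (lam μ s')
  have h5 : δ ≤ (∫ x, x ^ 2 ∂μ) / (2 * t) + t / 2 * (2 + ∫ x, Real.exp (s₂ * x) ∂μ) := by
    refine le_of_mul_le_mul_left ?_ hs'
    linarith
  have h6 : t / 2 * (2 + ∫ x, Real.exp (s₂ * x) ∂μ) ≤ δ / 2 := by
    have : 2 + ∫ x, Real.exp (s₂ * x) ∂μ ≤ A := by linarith [le_abs_self M]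
    calc _ ≤ t / 2 * A := mul_le_mul_of_nonneg_left this (by positivity)
      _ = δ / 2 := by rw [ht]; field_simp
  have h7 : δ / 2 ≤ (∫ x, x ^ 2 ∂μ) / (2 * t) := by linarith
  rw [le_div_iff₀ (by positivity)] at h7
  calc δ ^ 2 / A = δ / 2 * (2 * t) := by rw [ht]; field_simp
    _ ≤ _ := h7

end Crest.Agent.T156.Soft
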