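import Crest.Agent.T156.SoftDef_88

/-! Row 156, soft part: `psiStmt`, `cauchyStmt`, `summStmt` (helper10). -/

set_option autoImplicit false
open MeasureTheory ProbabilityTheory Filter Topology Set
open Crest.ProbabilityR.SpinGlass

namespace Crest.Agent.T156.Soft

namespace Seq10

lemma lam_div (hB : BasicStmt) (n : ℕ) (β s : ℝ) (hn : 1 ≤ n) (hs : 0 < s) :
    lam (yLaw n β) s / s =
      (n : ℝ) ^ (-(1 : ℝ) / 6) * psi n β (s * (n : ℝ) ^ (-(1 : ℝ) / 6)) -
        (n : ℝ) ^ (-(1 : ℝ) / 6) * ∫ ω', completedFreeEnergy n β ω' ∂completedLaw n β := by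
  obtain ⟨-, hP, -, hcF, hcY, -, -, -, hI, -⟩ := hB n β
  have hn0 : (0 : ℝ) < n := by exact_mod_cast hn
  set u : ℝ := (n : ℝ) ^ (-(1 : ℝ) / 6) with hu
  have hu0 : 0 < u := Real.rpow_pos_of_pos hn0 _
  set E : ℝ := ∫ ω', completedFreeEnergy n β ω' ∂completedLaw n β with hE
  have hint : Integrable (fun ω => Real.exp (s * u * completedFreeEnergy n β ω))
      (completedLaw n β) := by
    refine (hI (s * u)).mono' (by fun_prop) (Eventually.of_forall fun ω => ?_)
    rw [Real.norm_eq_abs, abs_of_pos (Real.exp_pos _)]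
    exact Real.exp_le_exp.2 (mul_le_mul_of_nonneg_left (le_abs_self _) (by positivity))
  have hpos : 0 < ∫ ω, Real.exp (s * u * completedFreeEnergy n β ω) ∂completedLaw n β :=
    integral_exp_pos hint
  have h1 : ∫ x, Real.exp (s * x) ∂yLaw n β =
      Real.exp (-(s * u * E)) *
        ∫ ω, Real.exp (s * u * completedFreeEnergy n β ω) ∂completedLaw n β := by
    unfold yLaw
    rw [integral_map hcY.measurable.aemeasurable (by fun_prop), ← integral_const_mul]
    refine integral_congr_ae (Eventually.of_forall fun ω => ?_)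
    simp only [scaledFluctuation]
    rw [← Real.exp_add]
    congr 1
    rw [← hu, ← hE]; ring
  unfold lam psi
  rw [h1, Real.log_mul (Real.exp_pos _).ne' hpos.ne', Real.log_exp]
  field_simp
  ring

lemma chain (m : ℕ → ℝ) (c C : ℝ) (n₁ : ℕ) (hc : 0 < c) (h1 : 1 ≤ n₁)
    (h : ∀ n n' : ℕ, n₁ ≤ n → n ≤ n' → n' ≤ 2 * n → |m n - m n'| ≤ C * (n : ℝ) ^ (-c)) :
    ∃ K : ℝ, 0 ≤ K ∧ ∀ n n' : ℕ, n₁ ≤ n → n ≤ n' → |m n - m n'| ≤ K * (n : ℝ) ^ (-c) := by
  set r : ℝ := (2 : ℝ) ^ (-c) with hr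
  have hr0 : 0 < r := Real.rpow_pos_of_pos two_pos _
  have hr1 : r < 1 := Real.rpow_lt_one_of_one_lt_of_neg one_lt_two (by linarith)
  have hC : 0 ≤ C := by
    have h0 := h n₁ n₁ le_rfl le_rfl (by omega)
    have hp : (0 : ℝ) < (n₁ : ℝ) ^ (-c) := Real.rpow_pos_of_pos (by exact_mod_cast h1) _
    rw [sub_self, abs_zero] at h0
    exact nonneg_of_mul_nonneg_left h0 hp
  set K : ℝ := C / (1 - r) with hK
  have hK0 : 0 ≤ K := div_nonneg hC (by linarith)
  have hKr : C + K * r = K := by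
    have : (1 - r) ≠ 0 := by linarith
    rw [hK]; field_simp; ring
  have key : ∀ k : ℕ, ∀ n n' : ℕ, n₁ ≤ n → n ≤ n' → n' ≤ 2 ^ k * n →
      |m n - m n'| ≤ K * (n : ℝ) ^ (-c) := by
    intro k
    induction k with
    | zero =>
      intro n n' _ h2 h3
      have : n' = n := by omega
      subst this
      rw [sub_self, abs_zero]; positivity
    | succ k ih =>
      intro n n' hn h2 h3
      have hp : (0 : ℝ) ≤ (n : ℝ) ^ (-c) := by positivity
      by_cases hle : n' ≤ 2 * n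
      · refine (h n n' hn h2 hle).trans (mul_le_mul_of_nonneg_right ?_ hp)
        nlinarith [mul_nonneg hK0 hr0.le]
      · have ha := h n (2 * n) hn (by omega) le_rfl
        have hb := ih (2 * n) n' (by omega) (by omega) (by rw [pow_succ] at h3; linarith)
        have hc2 : ((2 * n : ℕ) : ℝ) ^ (-c) = r * (n : ℝ) ^ (-c) := by
          push_cast
          rw [Real.mul_rpow (by norm_num) (by positivity)]
        rw [hc2] at hb
        calc |m n - m n'| ≤ |m n - m (2 * n)| + |m (2 * n) - m n'| := abs_sub_le _ _ _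
          _ ≤ C * (n : ℝ) ^ (-c) + K * (r * (n : ℝ) ^ (-c)) := add_le_add ha hb
          _ = (C + K * r) * (n : ℝ) ^ (-c) := by ring
          _ = K * (n : ℝ) ^ (-c) := by rw [hKr]
  refine ⟨K, hK0, fun n n' hn h2 => key n' n n' hn h2 ?_⟩
  have h3 : n' < 2 ^ n' := Nat.lt_two_pow_self
  have h4 : 1 ≤ n := le_trans h1 hn
  nlinarith

lemma pow_fact_le (l : ℕ) (hl : 2 ≤ l) (h : ℕ) :
    Real.log l ^ h / (Nat.factorial h : ℝ) ≤ 2 ^ h * (l : ℝ) ^ ((1 : ℝ) / 2) := by
  have hl0 : (0 : ℝ) < l := by exact_mod_cast (by omega : 0 < l)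
  have ht : 0 ≤ Real.log l := Real.log_natCast_nonneg l
  have h1 := Real.pow_div_factorial_le_exp (Real.log l / 2) (by positivity) h
  have h2 : Real.exp (Real.log l / 2) = (l : ℝ) ^ ((1 : ℝ) / 2) := by
    rw [Real.rpow_def_of_pos hl0]; congr 1; ring
  rw [h2, div_pow] at h1
  have h3 : Real.log l ^ h / (Nat.factorial h : ℝ) =
      2 ^ h * (Real.log l ^ h / 2 ^ h / (Nat.factorial h : ℝ)) := by
    field_simp
  rw [h3]
  exact mul_le_mul_of_nonneg_left h1 (by positivity)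

lemma weight_le (l : ℕ) (hl : 2 ≤ l) (h : ℕ) :
    |seriesWeight h (Real.log l)| ≤ (2 ^ h + 2 ^ (h - 1)) * (l : ℝ) ^ ((1 : ℝ) / 2) := by
  have ht : 0 ≤ Real.log l := Real.log_natCast_nonneg l
  have h1 := pow_fact_le l hl h
  have h2 := pow_fact_le l hl (h - 1)
  have h3 : 0 ≤ Real.log l ^ h / (Nat.factorial h : ℝ) := by positivity
  have h4 : 0 ≤ Real.log l ^ (h - 1) / (Nat.factorial (h - 1) : ℝ) := by positivity
  have h5 : (0 : ℝ) ≤ 2 ^ (h - 1) * (l : ℝ) ^ ((1 : ℝ) / 2) := by positivity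
  unfold seriesWeight
  rw [add_mul, abs_le]
  split_ifs with h0
  · constructor <;> linarith
  · constructor <;> linarith

end Seq10

open Seq10

theorem psiStmt : PsiStmt := by
  intro hB n β s s' hn hs hs'
  unfold Lm Ln
  rw [lam_div hB n β s hn hs, lam_div hB n β s' hn hs']
  ring

theorem cauchyStmt : CauchyStmt := by
  intro m c C n₁ hc h
  obtain ⟨K, hK0, hK⟩ := chain m c C (max n₁ 1) hc (le_max_right _ _)
    (fun n n' hn => h n n' (le_trans (le_max_left _ _) hn))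
  set N : ℕ := max n₁ 1 with hN
  have ht : Tendsto (fun n : ℕ => K * ((n + N : ℕ) : ℝ) ^ (-c)) atTop (𝓝 0) := by
    have h1 : Tendsto (fun n : ℕ => ((n + N : ℕ) : ℝ) ^ (-c)) atTop (𝓝 0) :=
      (tendsto_rpow_neg_atTop hc).comp
        (tendsto_natCast_atTop_atTop.comp (tendsto_add_atTop_nat N))
    simpa using h1.const_mul K
  have hcs : CauchySeq (fun n : ℕ => m (n + N)) := by
    refine cauchySeq_of_le_tendsto_0' _ (fun n n' hnn => ?_) ht
    rw [Real.dist_eq]
    exact hK _ _ (by omega) (by omega)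
  obtain ⟨a, ha⟩ := cauchySeq_tendsto_of_complete hcs
  have hS : 0 ≤ ∑ i ∈ Finset.range N, |m i - a| * (i : ℝ) ^ c :=
    Finset.sum_nonneg fun i _ => by positivity
  refine ⟨a, K + ∑ i ∈ Finset.range N, |m i - a| * (i : ℝ) ^ c, fun n hn => ?_⟩
  have hn0 : (0 : ℝ) < n := by exact_mod_cast hn
  have hp : (0 : ℝ) < (n : ℝ) ^ (-c) := Real.rpow_pos_of_pos hn0 _
  by_cases hle : N ≤ n
  · have h2 : Tendsto (fun k : ℕ => |m n - m (k + N)|) atTop (𝓝 |m n - a|) :=
      (tendsto_const_nhds.sub ha).abs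
    have h3 : |m n - a| ≤ K * (n : ℝ) ^ (-c) := by
      refine le_of_tendsto h2 ?_
      filter_upwards [eventually_ge_atTop n] with k hk
      exact hK _ _ hle (by omega)
    nlinarith [mul_nonneg hS hp.le]
  · have h2 : |m n - a| * (n : ℝ) ^ c ≤ ∑ i ∈ Finset.range N, |m i - a| * (i : ℝ) ^ c :=
      Finset.single_le_sum (f := fun i : ℕ => |m i - a| * (i : ℝ) ^ c)
        (fun i _ => by positivity) (Finset.mem_range.2 (by omega))
    have h3 : (n : ℝ) ^ c * (n : ℝ) ^ (-c) = 1 := by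
      rw [← Real.rpow_add hn0]; simp
    calc |m n - a| = |m n - a| * (n : ℝ) ^ c * (n : ℝ) ^ (-c) := by rw [mul_assoc, h3, mul_one]
      _ ≤ _ := mul_le_mul_of_nonneg_right (by linarith) hp.le

theorem summStmt : SummStmt := by
  intro b K h hb
  have hK : 0 ≤ K := le_trans (abs_nonneg _) (hb 2 le_rfl)
  have hs : Summable (fun l : ℕ => (|sizeWeightSum|⁻¹ * K * (2 ^ h + 2 ^ (h - 1))) *
      (l : ℝ) ^ (-(3 : ℝ) / 2)) :=
    (Real.summable_nat_rpow.2 (by norm_num)).mul_left _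
  refine Summable.of_norm_bounded hs fun l => ?_
  by_cases hl : l < 2
  · have : sizeLaw l = 0 := by simp [sizeLaw, sizeWeight, hl]
    rw [this, zero_mul, zero_mul, norm_zero]
    positivity
  · have hl2 : 2 ≤ l := by omega
    have hl0 : (0 : ℝ) < l := by exact_mod_cast (by omega : 0 < l)
    have h1 : |sizeLaw l| = |sizeWeightSum|⁻¹ * (l : ℝ) ^ (-(2 : ℝ)) := by
      simp only [sizeLaw, sizeWeight, if_neg hl]
      rw [abs_div, abs_of_pos (by positivity), Real.rpow_neg hl0.le, Real.rpow_two]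
      ring
    have h2 : (l : ℝ) ^ (-(3 : ℝ) / 2) = (l : ℝ) ^ (-(2 : ℝ)) * (l : ℝ) ^ ((1 : ℝ) / 2) := by
      rw [← Real.rpow_add hl0]; norm_num
    rw [Real.norm_eq_abs, abs_mul, abs_mul, abs_abs, h1, h2]
    have h3 := weight_le l hl2 h
    have h4 := hb l hl2
    have h5 : (0 : ℝ) ≤ |sizeWeightSum|⁻¹ * (l : ℝ) ^ (-(2 : ℝ)) := by positivity
    calc |sizeWeightSum|⁻¹ * (l : ℝ) ^ (-(2 : ℝ)) * |b l| * |seriesWeight h (Real.log l)|
        ≤ |sizeWeightSum|⁻¹ * (l : ℝ) ^ (-(2 : ℝ)) * K *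
            ((2 ^ h + 2 ^ (h - 1)) * (l : ℝ) ^ ((1 : ℝ) / 2)) := by
          refine mul_le_mul (mul_le_mul_of_nonneg_left h4 h5) h3 (abs_nonneg _) (by positivity)
      _ = _ := by ring

end Crest.Agent.T156.Soft

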