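import Crest.Agent.T156.SoftDef_88

/-!
# Row 156, soft part: the random-size series (`SeriesStmt`)

Both the error part and the difference between the main part and a telescoping sum are
absolutely summable double series whose sums over `h` vanish.
-/

set_option autoImplicit false
open MeasureTheory ProbabilityTheory Filter Topology Set
open Crest.ProbabilityR.SpinGlass

namespace Crest.Agent.T156.Soft
namespace Ser93

noncomputable def p (t : ℝ) (h : ℕ) : ℝ := t ^ h / (Nat.factorial h : ℝ)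

noncomputable def sh (f : ℕ → ℝ) (h : ℕ) : ℝ := if h = 0 then 0 else f (h - 1)

@[simp] lemma sh_zero (f : ℕ → ℝ) : sh f 0 = 0 := by simp [sh]
@[simp] lemma sh_succ (f : ℕ → ℝ) (h : ℕ) : sh f (h + 1) = f h := by simp [sh]

lemma w_eq (h : ℕ) (t : ℝ) : seriesWeight h t = p t h - sh (p t) h := rfl

lemma hasSum_p (t : ℝ) : HasSum (p t) (Real.exp t) := by
  rw [Real.exp_eq_exp_ℝ]
  exact NormedSpace.expSeries_div_hasSum_exp t

lemma hasSum_sh {f : ℕ → ℝ} {s : ℝ} (hf : HasSum f s) : HasSum (sh f) s := by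
  rw [← hasSum_nat_add_iff' 1]
  simpa using hf

lemma hasSum_w (t : ℝ) : HasSum (fun h => seriesWeight h t) 0 := by
  have := (hasSum_p t).sub (hasSum_sh (hasSum_p t))
  simpa [w_eq] using this

lemma p_nonneg {t : ℝ} (ht : 0 ≤ t) (h : ℕ) : 0 ≤ p t h := by unfold p; positivity

lemma sh_nonneg {f : ℕ → ℝ} (hf : ∀ h, 0 ≤ f h) (h : ℕ) : 0 ≤ sh f h := by
  cases h with
  | zero => simp
  | succ h => simpa using hf h

lemma abs_w_le {t : ℝ} (ht : 0 ≤ t) (h : ℕ) : |seriesWeight h t| ≤ p t h + sh (p t) h := by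
  rw [w_eq, abs_le]
  have h1 := p_nonneg ht h
  have h2 := sh_nonneg (p_nonneg ht) h
  constructor <;> linarith

lemma key (F G : ℕ → ℕ → ℝ) (σ : ℕ → ℝ) (hb : ∀ h l, |F h l| ≤ G h l)
    (hG : ∀ l, HasSum (fun h => G h l) (σ l)) (hσ : Summable σ)
    (h0 : ∀ l, HasSum (fun h => F h l) 0) :
    (∀ h, Summable (F h)) ∧ HasSum (fun h => ∑' l, F h l) 0 := by
  have hG0 : ∀ h l, 0 ≤ G h l := fun h l => (abs_nonneg _).trans (hb h l)
  have hGs : Summable (fun x : ℕ × ℕ => G x.2 x.1) := by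
    rw [summable_prod_of_nonneg (fun x => hG0 x.2 x.1)]
    refine ⟨fun l => (hG l).summable, ?_⟩
    simpa [fun l => (hG l).tsum_eq] using hσ
  have hFs : Summable (fun x : ℕ × ℕ => F x.2 x.1) :=
    Summable.of_norm_bounded hGs (fun x => by simpa using hb x.2 x.1)
  have hs0 : ∑' x : ℕ × ℕ, F x.2 x.1 = 0 := by
    have := HasSum.prod_fiberwise (g := fun _ => (0 : ℝ)) hFs.hasSum (fun l => h0 l)
    exact this.unique hasSum_zero
  have hsw : HasSum (fun x : ℕ × ℕ => F x.1 x.2) 0 := by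
    have h1 := hFs.hasSum
    rw [hs0] at h1
    exact ((Equiv.prodComm ℕ ℕ).hasSum_iff (f := fun x : ℕ × ℕ => F x.1 x.2)).1 h1
  have hf : ∀ h, Summable (F h) := fun h => hsw.summable.prod_factor h
  exact ⟨hf, HasSum.prod_fiberwise hsw (fun h => (hf h).hasSum)⟩

lemma hasDerivAt_p (h : ℕ) (t : ℝ) : HasDerivAt (fun t => p t h) (sh (p t) h) t := by
  cases h with
  | zero => simpa [p] using hasDerivAt_const t (1 : ℝ)
  | succ i =>
    have := (hasDerivAt_pow (i + 1) t).div_const (Nat.factorial (i + 1) : ℝ)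
    refine this.congr_deriv ?_
    rw [sh_succ, p, Nat.factorial_succ]
    have : (Nat.factorial i : ℝ) ≠ 0 := by positivity
    push_cast
    field_simp

lemma p_lip {s t : ℝ} (hs : 0 ≤ s) (hst : s ≤ t) (j : ℕ) :
    |p t j - p s j| ≤ (t - s) * sh (p t) j := by
  cases j with
  | zero => simp [p]
  | succ i =>
    have h1 := abs_pow_sub_pow_le t s (i + 1)
    rw [abs_of_nonneg (hs.trans hst), abs_of_nonneg hs, max_eq_left hst,
      abs_of_nonneg (sub_nonneg.2 hst)] at h1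
    rw [sh_succ, p, p, p, ← sub_div, abs_div, Nat.factorial_succ]
    have h2 : (0 : ℝ) < (Nat.factorial i : ℝ) := by positivity
    rw [abs_of_pos (by positivity : (0 : ℝ) < (((i + 1) * Nat.factorial i : ℕ) : ℝ)),
      div_le_iff₀ (by positivity)]
    refine h1.trans (le_of_eq ?_)
    push_cast
    field_simp

noncomputable def φ (y : ℝ) (j : ℕ) : ℝ := (y ^ 2)⁻¹ * p (Real.log y) j

lemma φ_lip {x ξ : ℝ} (hx : 2 ≤ x) (h1 : x - 1 ≤ ξ) (h2 : ξ ≤ x) (j : ℕ) :
    |φ x j - φ ξ j| ≤ 8 / x ^ 3 * (p (Real.log x) j + sh (p (Real.log x)) j) := by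
  have hξ1 : 1 ≤ ξ := by linarith
  have hξ0 : 0 < ξ := by linarith
  have hx0 : 0 < x := by linarith
  have hl0 : 0 ≤ Real.log ξ := Real.log_nonneg hξ1
  have hl : Real.log ξ ≤ Real.log x := Real.log_le_log hξ0 h2
  have hP := p_nonneg (hl0.trans hl) j
  have hQ := sh_nonneg (p_nonneg (hl0.trans hl)) j
  have hlip := p_lip hl0 hl j
  have hhalf : x ≤ 2 * ξ := by linarith
  have hlog : Real.log x - Real.log ξ ≤ 2 / x := by
    rw [← Real.log_div hx0.ne' hξ0.ne']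
    refine (Real.log_le_sub_one_of_pos (by positivity)).trans ?_
    rw [div_sub_one hξ0.ne', div_le_div_iff₀ hξ0 hx0]
    nlinarith
  have hinv : (ξ ^ 2)⁻¹ ≤ 4 / x ^ 2 := by
    rw [inv_eq_one_div, div_le_div_iff₀ (by positivity) (by positivity)]
    nlinarith
  have hd0 : 0 ≤ (ξ ^ 2)⁻¹ - (x ^ 2)⁻¹ := by
    rw [sub_nonneg]
    exact inv_anti₀ (by positivity) (by nlinarith)
  have hd : (ξ ^ 2)⁻¹ - (x ^ 2)⁻¹ ≤ 8 / x ^ 3 := by
    have e : (ξ ^ 2)⁻¹ - (x ^ 2)⁻¹ = (ξ ^ 2)⁻¹ * ((x - ξ) * (x + ξ) / x ^ 2) := by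
      field_simp; ring
    have h3 : (x - ξ) * (x + ξ) / x ^ 2 ≤ 2 / x := by
      rw [div_le_div_iff₀ (by positivity) hx0]
      have : (x - ξ) * (x + ξ) ≤ 2 * x := by nlinarith
      nlinarith
    rw [e]
    calc _ ≤ 4 / x ^ 2 * (2 / x) :=
          mul_le_mul hinv h3 (div_nonneg (by nlinarith) (by positivity)) (by positivity)
      _ = 8 / x ^ 3 := by field_simp; ring
  have e : φ x j - φ ξ j = (ξ ^ 2)⁻¹ * (p (Real.log x) j - p (Real.log ξ) j) -
      ((ξ ^ 2)⁻¹ - (x ^ 2)⁻¹) * p (Real.log x) j := by unfold φ; ring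
  rw [e]
  have a1 : |(ξ ^ 2)⁻¹ * (p (Real.log x) j - p (Real.log ξ) j)| ≤
      8 / x ^ 3 * sh (p (Real.log x)) j := by
    rw [abs_mul, abs_of_pos (by positivity : 0 < (ξ ^ 2)⁻¹)]
    calc _ ≤ 4 / x ^ 2 * (2 / x * sh (p (Real.log x)) j) :=
          mul_le_mul hinv (hlip.trans (mul_le_mul_of_nonneg_right hlog hQ)) (abs_nonneg _)
            (by positivity)
      _ = _ := by field_simp; ring
  have a2 : |((ξ ^ 2)⁻¹ - (x ^ 2)⁻¹) * p (Real.log x) j| ≤ 8 / x ^ 3 * p (Real.log x) j := by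
    rw [abs_of_nonneg (mul_nonneg hd0 hP)]
    exact mul_le_mul_of_nonneg_right hd hP
  refine (abs_sub _ _).trans ?_
  linarith [mul_add (8 / x ^ 3) (p (Real.log x) j) (sh (p (Real.log x)) j)]

noncomputable def B (h : ℕ) (y : ℝ) : ℝ := y⁻¹ * p (Real.log y) h

lemma hasDerivAt_B (h : ℕ) {y : ℝ} (hy : y ≠ 0) :
    HasDerivAt (B h) (-(φ y h - sh (φ y) h)) y := by
  have h1 := (hasDerivAt_p h (Real.log y)).comp y (Real.hasDerivAt_log hy)
  have h2 := (hasDerivAt_inv hy).mul h1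
  refine h2.congr_deriv ?_
  cases h with
  | zero => simp [φ]
  | succ i => simp only [φ, sh_succ, Function.comp]; field_simp; ring

lemma E_bound (h : ℕ) {x : ℝ} (hx : 2 ≤ x) :
    |(x ^ 2)⁻¹ * seriesWeight h (Real.log x) - (B h (x - 1) - B h x)| ≤
      8 / x ^ 3 * (p (Real.log x) h + 2 * sh (p (Real.log x)) h +
        sh (sh (p (Real.log x))) h) := by
  have hder : ∀ y ∈ Icc (x - 1) x, HasDerivAt (B h) (-(φ y h - sh (φ y) h)) y :=
    fun y hy => hasDerivAt_B h (by linarith [hy.1] : (0 : ℝ) < y).ne'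
  obtain ⟨ξ, hξ, e⟩ := exists_hasDerivAt_eq_slope (B h) (fun y => -(φ y h - sh (φ y) h))
    (by linarith : x - 1 < x) (fun y hy => (hder y hy).continuousAt.continuousWithinAt)
    (fun y hy => hder y (Ioo_subset_Icc_self hy))
  rw [show x - (x - 1) = 1 by ring, div_one] at e
  have e1 : B h (x - 1) - B h x = φ ξ h - sh (φ ξ) h := by linarith
  rw [e1, w_eq]
  have l1 := φ_lip hx hξ.1.le hξ.2.le h
  cases h with
  | zero =>
    simp only [sh_zero] at l1 ⊢
    simpa [φ] using l1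
  | succ i =>
    have l2 := φ_lip hx hξ.1.le hξ.2.le i
    simp only [sh_succ] at l1 ⊢
    have e2 : (x ^ 2)⁻¹ * (p (Real.log x) (i + 1) - p (Real.log x) i) - (φ ξ (i + 1) - φ ξ i) =
        (φ x (i + 1) - φ ξ (i + 1)) - (φ x i - φ ξ i) := by unfold φ; ring
    rw [e2]
    refine (abs_sub _ _).trans ((add_le_add l1 l2).trans (le_of_eq ?_))
    ring

lemma p_le {t : ℝ} (ht : 0 ≤ t) (h : ℕ) : p t h ≤ 2 ^ h * Real.exp (t / 2) := by
  have := Real.pow_div_factorial_le_exp (t / 2) (by positivity) h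
  calc p t h = 2 ^ h * ((t / 2) ^ h / (Nat.factorial h : ℝ)) := by
        rw [p, div_pow]; field_simp
    _ ≤ _ := by gcongr

lemma exp_half {x : ℝ} (hx : 0 < x) : Real.exp (Real.log x / 2) = x ^ ((1 : ℝ) / 2) := by
  rw [Real.rpow_def_of_pos hx]; congr 1; ring

lemma summable_shift {q : ℝ} (hq : q < -1) : Summable (fun k : ℕ => ((k : ℝ) + 2) ^ q) := by
  have := (summable_nat_add_iff 2).2 (Real.summable_nat_rpow.2 hq)
  simpa using this

lemma summable_φ (h : ℕ) : Summable (fun k : ℕ => φ ((k : ℝ) + 2) h) := by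
  refine Summable.of_nonneg_of_le (fun k => ?_) (fun k => ?_)
    ((summable_shift (q := -3 / 2) (by norm_num)).mul_left (2 ^ h))
  · exact mul_nonneg (by positivity)
      (p_nonneg (Real.log_nonneg (by linarith [(Nat.cast_nonneg k : (0 : ℝ) ≤ k)])) h)
  · have hx : (0 : ℝ) < (k : ℝ) + 2 := by positivity
    have h1 := p_le (Real.log_nonneg
      (by linarith [(Nat.cast_nonneg k : (0 : ℝ) ≤ k)] : (1 : ℝ) ≤ (k : ℝ) + 2)) h
    rw [exp_half hx] at h1
    have e : ((k : ℝ) + 2) ^ (-3 / 2 : ℝ) = (((k : ℝ) + 2) ^ 2)⁻¹ * ((k : ℝ) + 2) ^ ((1 : ℝ) / 2) := by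
      rw [← Real.rpow_natCast, ← Real.rpow_neg hx.le, ← Real.rpow_add hx]; norm_num
    rw [φ, e]
    calc _ ≤ (((k : ℝ) + 2) ^ 2)⁻¹ * (2 ^ h * ((k : ℝ) + 2) ^ ((1 : ℝ) / 2)) := by gcongr
      _ = _ := by ring

lemma summable_w (h : ℕ) :
    Summable (fun k : ℕ => (((k : ℝ) + 2) ^ 2)⁻¹ * seriesWeight h (Real.log ((k : ℝ) + 2))) := by
  cases h with
  | zero => simpa [w_eq, φ] using summable_φ 0
  | succ i =>
    refine ((summable_φ (i + 1)).sub (summable_φ i)).congr (fun k => ?_)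
    simp only [w_eq, φ, sh_succ]; ring

lemma tendsto_B (h : ℕ) : Tendsto (fun k : ℕ => B h ((k : ℝ) + 1)) atTop (𝓝 0) := by
  have h1 : Tendsto (fun k : ℕ => (2 : ℝ) ^ h * ((k : ℝ) + 1) ^ (-(1 / 2 : ℝ))) atTop
      (𝓝 (2 ^ h * 0)) :=
    ((tendsto_rpow_neg_atTop (by norm_num : (0 : ℝ) < 1 / 2)).comp
      (tendsto_atTop_add_const_right _ 1 tendsto_natCast_atTop_atTop)).const_mul _
  rw [mul_zero] at h1
  refine squeeze_zero (fun k => ?_) (fun k => ?_) h1
  · exact mul_nonneg (by positivity)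
      (p_nonneg (Real.log_nonneg (by linarith [(Nat.cast_nonneg k : (0 : ℝ) ≤ k)])) h)
  · have hx : (0 : ℝ) < (k : ℝ) + 1 := by positivity
    have h1 := p_le (Real.log_nonneg
      (by linarith [(Nat.cast_nonneg k : (0 : ℝ) ≤ k)] : (1 : ℝ) ≤ (k : ℝ) + 1)) h
    rw [exp_half hx] at h1
    have e : ((k : ℝ) + 1) ^ (-(1 / 2 : ℝ)) = ((k : ℝ) + 1)⁻¹ * ((k : ℝ) + 1) ^ ((1 : ℝ) / 2) := by
      rw [← Real.rpow_neg_one, ← Real.rpow_add hx]; norm_num
    rw [B, e]
    calc _ ≤ ((k : ℝ) + 1)⁻¹ * (2 ^ h * ((k : ℝ) + 1) ^ ((1 : ℝ) / 2)) := by gcongr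
      _ = _ := by ring

/-- the main part -/
lemma main_part : HasSum (fun h : ℕ => ∑' k : ℕ,
    (((k : ℝ) + 2) ^ 2)⁻¹ * seriesWeight h (Real.log ((k : ℝ) + 2))) 1 := by
  have hx : ∀ k : ℕ, (2 : ℝ) ≤ (k : ℝ) + 2 := fun k => by
    linarith [(Nat.cast_nonneg k : (0 : ℝ) ≤ k)]
  obtain ⟨hs, h0⟩ := key
    (fun h k => (((k : ℝ) + 2) ^ 2)⁻¹ * seriesWeight h (Real.log ((k : ℝ) + 2)) -
      (B h ((k : ℝ) + 2 - 1) - B h ((k : ℝ) + 2)))
    (fun h k => 8 / ((k : ℝ) + 2) ^ 3 * (p (Real.log ((k : ℝ) + 2)) h +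
      2 * sh (p (Real.log ((k : ℝ) + 2))) h + sh (sh (p (Real.log ((k : ℝ) + 2)))) h))
    (fun k => 32 * ((k : ℝ) + 2) ^ (-2 : ℝ)) (fun h k => E_bound h (hx k))
    (fun k => by
      have h1 := hasSum_p (Real.log ((k : ℝ) + 2))
      have h2 := ((h1.add ((hasSum_sh h1).mul_left 2)).add
        (hasSum_sh (hasSum_sh h1))).mul_left (8 / ((k : ℝ) + 2) ^ 3)
      have hk : (0 : ℝ) < (k : ℝ) + 2 := by positivity
      rw [Real.exp_log hk] at h2
      have e : 32 * ((k : ℝ) + 2) ^ (-2 : ℝ) =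
          8 / ((k : ℝ) + 2) ^ 3 * ((k : ℝ) + 2 + 2 * ((k : ℝ) + 2) + ((k : ℝ) + 2)) := by
        rw [Real.rpow_neg hk.le, Real.rpow_two]; field_simp; ring
      rw [e]; exact h2)
    ((summable_shift (by norm_num)).mul_left 32)
    (fun k => by
      have hk : (0 : ℝ) < (k : ℝ) + 2 := by positivity
      have hk1 : (0 : ℝ) < (k : ℝ) + 2 - 1 := by linarith [hx k]
      have h1 := (hasSum_p (Real.log ((k : ℝ) + 2))).mul_left ((k : ℝ) + 2)⁻¹
      have h2 := (hasSum_p (Real.log ((k : ℝ) + 2 - 1))).mul_left ((k : ℝ) + 2 - 1)⁻¹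
      rw [Real.exp_log hk, inv_mul_cancel₀ hk.ne'] at h1
      rw [Real.exp_log hk1, inv_mul_cancel₀ hk1.ne'] at h2
      have h3 := ((hasSum_w (Real.log ((k : ℝ) + 2))).mul_left
        ((((k : ℝ) + 2) ^ 2)⁻¹)).sub (h2.sub h1)
      simpa [B] using h3)
  have htel : ∀ h, HasSum (fun k : ℕ => B h ((k : ℝ) + 2 - 1) - B h ((k : ℝ) + 2)) (B h 1) := by
    intro h
    have hsum : Summable (fun k : ℕ => B h ((k : ℝ) + 2 - 1) - B h ((k : ℝ) + 2)) :=
      ((summable_w h).sub (hs h)).congr (fun k => by ring)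
    rw [hsum.hasSum_iff_tendsto_nat]
    have e : ∀ n : ℕ, ∑ k ∈ Finset.range n, (B h ((k : ℝ) + 2 - 1) - B h ((k : ℝ) + 2)) =
        B h 1 - B h ((n : ℝ) + 1) := by
      intro n
      induction n with
      | zero => simp
      | succ n ih =>
        rw [Finset.sum_range_succ, ih]
        push_cast
        rw [show (n : ℝ) + 2 - 1 = n + 1 by ring, show (n : ℝ) + 1 + 1 = n + 2 by ring]
        ring
    simp_rw [e]
    simpa using (tendsto_B h).const_sub (B h 1)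
  have hB : HasSum (fun h => B h 1) 1 := by
    have := hasSum_p 0
    simpa [B] using this
  have := h0.add hB
  rw [zero_add] at this
  refine this.congr_fun ?_
  intro h
  rw [Summable.tsum_sub (summable_w h) (htel h).summable, (htel h).tsum_eq]
  ring

lemma sum_pos : 0 < sizeWeightSum := by
  have hs : Summable sizeWeight := by
    rw [← summable_nat_add_iff 2]
    refine (summable_shift (q := -2) (by norm_num)).congr (fun k => ?_)
    have hk : (0 : ℝ) < (k : ℝ) + 2 := by positivity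
    rw [sizeWeight, if_neg (by omega), Real.rpow_neg hk.le, Real.rpow_two]
    push_cast; ring
  refine hs.tsum_pos (fun l => ?_) 2 (by norm_num [sizeWeight])
  unfold sizeWeight; split_ifs <;> positivity

end Ser93

open Ser93 in
theorem seriesStmt : SeriesStmt := by
  intro m a c C hc hm
  have hx : ∀ k : ℕ, (1 : ℝ) ≤ (k : ℝ) + 2 := fun k => by
    linarith [(Nat.cast_nonneg k : (0 : ℝ) ≤ k)]
  obtain ⟨hs, h0⟩ := key
    (fun h k => (((k : ℝ) + 2) ^ 2)⁻¹ * (m (k + 2) - a) * seriesWeight h (Real.log ((k : ℝ) + 2)))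
    (fun h k => (((k : ℝ) + 2) ^ 2)⁻¹ * (C * ((k : ℝ) + 2) ^ (-c)) *
      (p (Real.log ((k : ℝ) + 2)) h + sh (p (Real.log ((k : ℝ) + 2))) h))
    (fun k => 2 * C * ((k : ℝ) + 2) ^ (-1 - c))
    (fun h k => by
      have h1 := hm (k + 2) (by omega)
      push_cast at h1
      rw [abs_mul, abs_mul, abs_of_pos (by positivity : (0 : ℝ) < (((k : ℝ) + 2) ^ 2)⁻¹)]
      exact mul_le_mul (mul_le_mul_of_nonneg_left h1 (by positivity))
        (abs_w_le (Real.log_nonneg (hx k)) h) (abs_nonneg _)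
        (mul_nonneg (by positivity) ((abs_nonneg _).trans h1)))
    (fun k => by
      have h1 := hasSum_p (Real.log ((k : ℝ) + 2))
      have h2 := (h1.add (hasSum_sh h1)).mul_left
        ((((k : ℝ) + 2) ^ 2)⁻¹ * (C * ((k : ℝ) + 2) ^ (-c)))
      have hk : (0 : ℝ) < (k : ℝ) + 2 := by positivity
      rw [Real.exp_log hk] at h2
      have e : 2 * C * ((k : ℝ) + 2) ^ (-1 - c) = (((k : ℝ) + 2) ^ 2)⁻¹ *
          (C * ((k : ℝ) + 2) ^ (-c)) * ((k : ℝ) + 2 + ((k : ℝ) + 2)) := by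
        rw [sub_eq_add_neg, Real.rpow_add hk, Real.rpow_neg_one]; field_simp; ring
      rw [e]; exact h2)
    ((summable_shift (by linarith)).mul_left (2 * C))
    (fun k => by
      have h1 := (hasSum_w (Real.log ((k : ℝ) + 2))).mul_left
        ((((k : ℝ) + 2) ^ 2)⁻¹ * (m (k + 2) - a))
      rwa [mul_zero] at h1)
  have := h0.add (main_part.mul_left a)
  rw [zero_add, mul_one] at this
  refine this.congr_fun ?_
  intro h
  have h1 := ((hs h).hasSum.add ((summable_w h).hasSum.mul_left a)).mul_left sizeWeightSum⁻¹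
  have h2 : HasSum (fun l : ℕ => sizeLaw l * m l * seriesWeight h (Real.log l))
      (sizeWeightSum⁻¹ * (∑' k : ℕ, (((k : ℝ) + 2) ^ 2)⁻¹ * (m (k + 2) - a) *
        seriesWeight h (Real.log ((k : ℝ) + 2)) + a * ∑' k : ℕ,
        (((k : ℝ) + 2) ^ 2)⁻¹ * seriesWeight h (Real.log ((k : ℝ) + 2)))) := by
    rw [← hasSum_nat_add_iff' 2]
    have e0 : ∑ i ∈ Finset.range 2, sizeLaw i * m i * seriesWeight h (Real.log i) = 0 := by
      simp [Finset.sum_range_succ, sizeLaw, sizeWeight]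
    rw [e0, sub_zero]
    refine h1.congr_fun ?_
    intro k
    rw [sizeLaw, sizeWeight, if_neg (by omega)]
    push_cast; ring
  rw [h2.tsum_eq, ← mul_assoc, mul_inv_cancel₀ sum_pos.ne', one_mul]

end Crest.Agent.T156.Soft
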