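import Crest.Agent.T156.SoftDef_88

/-!
# Row 156, soft part: the two-constants theorem (`TwoStmt`)
-/

set_option autoImplicit false
open Set Complex

namespace Crest.Agent.T156.Soft

/-- every complex number is a `cosh w` with `0 ≤ re w`, and then `exp (re w) ≤ 2 ‖ζ‖ + 1` -/
lemma two_exists_cosh (ζ : ℂ) :
    ∃ w : ℂ, 0 ≤ w.re ∧ Complex.cosh w = ζ ∧ Real.exp w.re ≤ 2 * ‖ζ‖ + 1 := by
  obtain ⟨δ, hδ⟩ : ∃ δ : ℂ, δ ^ 2 = ζ ^ 2 - 1 :=
    IsAlgClosed.exists_pow_nat_eq (ζ ^ 2 - 1) (by norm_num)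
  have hmul : (ζ + δ) * (ζ - δ) = 1 := by linear_combination (-1 : ℂ) * hδ
  have ht : ζ + δ ≠ 0 := left_ne_zero_of_mul_eq_one hmul
  have hinv : (ζ + δ)⁻¹ = ζ - δ := inv_eq_of_mul_eq_one_right hmul
  have hc : Complex.cosh (Complex.log (ζ + δ)) = ζ := by
    rw [Complex.cosh, Complex.exp_neg, Complex.exp_log ht, hinv]; ring
  have key : ∀ w : ℂ, 0 ≤ w.re → Complex.cosh w = ζ → Real.exp w.re ≤ 2 * ‖ζ‖ + 1 := by
    intro w hw hcw
    have h1 : Complex.exp w = 2 * ζ - Complex.exp (-w) := by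
      rw [← hcw, Complex.cosh]; ring
    have h2 : ‖Complex.exp w‖ ≤ 2 * ‖ζ‖ + ‖Complex.exp (-w)‖ := by
      rw [h1]
      refine (norm_sub_le _ _).trans ?_
      rw [norm_mul]; simp
    rw [Complex.norm_exp, Complex.norm_exp] at h2
    have h3 : Real.exp (-w).re ≤ 1 := by
      rw [Real.exp_le_one_iff]; simpa using hw
    linarith
  by_cases h0 : 0 ≤ (Complex.log (ζ + δ)).re
  · exact ⟨_, h0, hc, key _ h0 hc⟩
  · have h0' : 0 ≤ (-Complex.log (ζ + δ)).re := by
      rw [Complex.neg_re]; linarith [not_le.mp h0]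
    have hc' : Complex.cosh (-Complex.log (ζ + δ)) = ζ := by rw [Complex.cosh_neg, hc]
    exact ⟨_, h0', hc', key _ h0' hc'⟩

lemma two_norm_cosh_le (w : ℂ) (A : ℝ) (hw : 0 ≤ w.re) (hA : Real.exp w.re ≤ A) :
    ‖Complex.cosh w‖ ≤ (A + 1) / 2 := by
  have h3 : Real.exp (-w).re ≤ 1 := by
    rw [Real.exp_le_one_iff]; simpa using hw
  rw [Complex.cosh, norm_div]
  have h2 : ‖Complex.exp w + Complex.exp (-w)‖ ≤ A + 1 := by
    refine (norm_add_le _ _).trans ?_
    rw [Complex.norm_exp, Complex.norm_exp]; linarith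
  have : ‖(2 : ℂ)‖ = 2 := by simp
  rw [this]; linarith

lemma two_cosh_of_re_zero (w : ℂ) (hw : w.re = 0) :
    Complex.cosh w = ((Real.cos w.im : ℝ) : ℂ) := by
  have : w = (w.im : ℂ) * Complex.I := by
    apply Complex.ext <;> simp [hw]
  rw [this, Complex.cosh_mul_I, Complex.ofReal_cos]
  simp

theorem twoStmt : TwoStmt := by
  intro s₁ s₂ c₀ M hs₁ hs₂ hc₀
  set c' : ℝ := min c₀ (s₁ / 2) with hc'
  have hc'0 : 0 < c' := lt_min hc₀ (by linarith)
  have hc'1 : c' ≤ c₀ := min_le_left _ _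
  have hc'2 : c' ≤ s₁ / 2 := min_le_right _ _
  set l : ℝ := c' / 4 with hl
  have hl0 : 0 < l := by positivity
  set x₀ : ℝ := s₁ + l with hx₀
  have hx0 : 0 < x₀ := by positivity
  set A : ℝ := 2 * ((x₀ + c') / l) - 1 with hA
  set A' : ℝ := 2 * ((x₀ + l) / l) + 1 with hA'
  have hA'1 : 1 < A' := by
    have : 0 < (x₀ + l) / l := by positivity
    linarith
  have hAA : A' < A := by
    have h1 : (x₀ + c') / l = (x₀ + l) / l + 3 := by
      field_simp; rw [hl]; ring
    rw [hA, hA', h1]; linarith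
  set b : ℝ := Real.log A with hb
  set b' : ℝ := Real.log A' with hb'
  have hb'0 : 0 < b' := Real.log_pos hA'1
  have hbb : b' < b := Real.log_lt_log (by linarith) hAA
  have hb0 : 0 < b := by linarith
  have hα : 0 < 1 - b' / b := by
    rw [sub_pos, div_lt_one hb0]; exact hbb
  refine ⟨1 - b' / b, hα, fun k => ⟨k.factorial * max M 1 / l ^ k, ?_⟩⟩
  intro h hd hM ε hε0 hε1 hε
  set G : ℂ → ℂ := fun w => h ((x₀ : ℂ) + (l : ℂ) * Complex.cosh w) with hG
  have hGd : Differentiable ℂ G :=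
    hd.comp ((differentiable_const _).add ((differentiable_const _).mul Complex.differentiable_cosh))
  have hGM : ∀ w : ℂ, 0 ≤ w.re → w.re ≤ b → ‖G w‖ ≤ max M 1 := by
    intro w hw0 hwb
    have hexp : Real.exp w.re ≤ A := by
      calc Real.exp w.re ≤ Real.exp b := Real.exp_le_exp.mpr hwb
        _ = A := Real.exp_log (by linarith)
    have h1 := two_norm_cosh_le w A hw0 hexp
    have h2 : (A + 1) / 2 = (x₀ + c') / l := by rw [hA]; ring
    rw [h2, le_div_iff₀ hl0] at h1
    have h3 : |(Complex.cosh w).re| ≤ ‖Complex.cosh w‖ := Complex.abs_re_le_norm _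
    have h4 : ((x₀ : ℂ) + (l : ℂ) * Complex.cosh w).re = x₀ + l * (Complex.cosh w).re := by simp
    obtain ⟨h5, h6⟩ := abs_le.mp h3
    refine (hM _ ?_ ?_).trans (le_max_left _ _)
    · rw [h4]; nlinarith
    · rw [h4]; nlinarith
  have hGε : ∀ w : ℂ, w.re = 0 → ‖G w‖ ≤ ε := by
    intro w hw
    have h1 : (x₀ : ℂ) + (l : ℂ) * Complex.cosh w = ((x₀ + l * Real.cos w.im : ℝ) : ℂ) := by
      rw [two_cosh_of_re_zero w hw]; push_cast; ring
    simp only [hG]
    rw [h1]
    have h2 := Real.neg_one_le_cos w.im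
    have h3 := Real.cos_le_one w.im
    apply hε
    constructor <;> nlinarith
  have hdisc : ∀ z ∈ Metric.sphere (0 : ℂ) l, ‖h z‖ ≤ max M 1 * ε ^ (1 - b' / b) := by
    intro z hz
    have hzn : ‖z‖ = l := by simpa using hz
    obtain ⟨w, hw0, hwc, hwe⟩ := two_exists_cosh ((z - x₀) / l)
    have hn : ‖(z - x₀) / (l : ℂ)‖ ≤ (x₀ + l) / l := by
      rw [norm_div, Complex.norm_real, Real.norm_of_nonneg hl0.le]
      refine div_le_div_of_nonneg_right ?_ hl0.le
      refine (norm_sub_le _ _).trans ?_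
      rw [hzn, Complex.norm_real, Real.norm_of_nonneg hx0.le]; linarith
    have hwb' : w.re ≤ b' := by
      rw [hb', Real.le_log_iff_exp_le (by linarith)]
      rw [hA']; linarith
    have hGw : G w = h z := by
      simp only [hG]
      rw [hwc]
      congr 1
      have : (l : ℂ) ≠ 0 := by exact_mod_cast hl0.ne'
      field_simp
      ring
    have h3 := Complex.HadamardThreeLines.norm_le_interp_of_mem_verticalClosedStrip'
      (f := G) (z := w) (a := ε) (b := max M 1) (l := 0) (u := b) hb0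
      (by simp only [Complex.HadamardThreeLines.verticalClosedStrip, mem_preimage, mem_Icc]
          exact ⟨hw0, by linarith⟩)
      hGd.diffContOnCl
      ⟨max M 1, by
        rintro _ ⟨v, hv, rfl⟩
        simp only [Complex.HadamardThreeLines.verticalClosedStrip, mem_preimage, mem_Icc] at hv
        exact hGM v hv.1 hv.2⟩
      (fun v hv => hGε v (by simpa using hv))
      (fun v hv => by
        have : v.re = b := by simpa using hv
        exact hGM v (by rw [this]; exact hb0.le) this.le)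
    rw [hGw, sub_zero, sub_zero] at h3
    have hθ0 : 0 ≤ w.re / b := div_nonneg hw0 hb0.le
    have hθ1 : w.re / b ≤ b' / b := div_le_div_of_nonneg_right hwb' hb0.le
    have h4 : ε ^ (1 - w.re / b) ≤ ε ^ (1 - b' / b) :=
      Real.rpow_le_rpow_of_exponent_ge hε0 hε1 (by linarith)
    have h5 : (max M 1) ^ (w.re / b) ≤ max M 1 := by
      calc (max M 1) ^ (w.re / b) ≤ (max M 1) ^ (1 : ℝ) :=
            Real.rpow_le_rpow_of_exponent_le (le_max_right _ _) (by linarith)
        _ = max M 1 := Real.rpow_one _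
    refine h3.trans ?_
    rw [mul_comm]
    exact mul_le_mul h5 h4 (Real.rpow_nonneg hε0.le _) (le_trans zero_le_one (le_max_right _ _))
  have h6 := Complex.norm_iteratedDeriv_le_of_forall_mem_sphere_norm_le k hl0 hd.diffContOnCl hdisc
  refine h6.trans (le_of_eq ?_)
  ring

end Crest.Agent.T156.Soft
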