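import Crest.Agent.T156.SoftDef_88

/-!
# Row 156, soft part, leaf `XMomStmt` (helper6)

The Gaussian completion does not change the limits of the moments (binomial formula on the
product law and strong induction), and it only increases the exponential moment (tangent line of
the convex function in the completion variable).
-/

set_option autoImplicit false
open MeasureTheory ProbabilityTheory Filter Topology Set
open Crest.ProbabilityR.SpinGlass

namespace Crest.Agent.T156.Soft

namespace XMom6

lemma int_gauss (v : NNReal) (c : ℝ) :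
    Integrable (fun x : ℝ => Real.exp (c * |x|)) (gaussianReal 0 v) := by
  refine ((integrable_exp_mul_gaussianReal (μ := 0) (v := v) c).add
    (integrable_exp_mul_gaussianReal (μ := 0) (v := v) (-c))).mono' (by fun_prop) ?_
  refine Eventually.of_forall fun x => ?_
  rw [Real.norm_eq_abs, abs_of_pos (Real.exp_pos _)]
  simp only [Pi.add_apply]
  rcases abs_cases x with h | h
  · rw [h.1]; linarith [Real.exp_pos (-c * x)]
  · rw [h.1, show c * -x = -c * x by ring]; linarith [Real.exp_pos (c * x)]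

lemma nice_gauss (v : NNReal) : Nice (gaussianReal 0 v) :=
  ⟨inferInstance, int_gauss v, integral_id_gaussianReal⟩

lemma int_pow {μ : Measure ℝ} (h : Nice μ) (k : ℕ) :
    Integrable (fun x : ℝ => x ^ k) μ := by
  have h1 := (h.expInt 1).const_mul (k.factorial : ℝ)
  refine h1.mono' (by fun_prop) (Eventually.of_forall fun x => ?_)
  have h2 := Real.pow_div_factorial_le_exp (|x|) (abs_nonneg x) k
  have h3 : (0 : ℝ) < k.factorial := by positivity
  rw [div_le_iff₀ h3] at h2
  rw [Real.norm_eq_abs, abs_pow, one_mul]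
  linarith

/-- tangent line -/
lemma tangent (c x y : ℝ) (hc : 0 ≤ c) : ∃ s : ℝ, ∀ z : ℝ,
    Real.exp (c * |x|) + s * z ≤ Real.exp (c * |x + y * z|) := by
  have key : ∀ σ : ℝ, (∀ w : ℝ, |x| + σ * w ≤ |x + w|) → ∀ z : ℝ,
      Real.exp (c * |x|) + (Real.exp (c * |x|) * c * σ * y) * z ≤ Real.exp (c * |x + y * z|) := by
    intro σ hσ z
    have h1 := hσ (y * z)
    have h2 : c * |x| + c * σ * (y * z) ≤ c * |x + y * z| := by
      have := mul_le_mul_of_nonneg_left h1 hc
      linarith
    have h3 := Real.exp_le_exp.2 h2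
    rw [Real.exp_add] at h3
    have h4 := Real.add_one_le_exp (c * σ * (y * z))
    have h5 := mul_le_mul_of_nonneg_left h4 (Real.exp_pos (c * |x|)).le
    linarith
  rcases le_total 0 x with h | h
  · refine ⟨_, key 1 fun w => ?_⟩
    rw [abs_of_nonneg h, one_mul]
    exact le_abs_self _
  · refine ⟨_, key (-1) fun w => ?_⟩
    rw [abs_of_nonpos h]
    have := neg_le_abs (x + w)
    linarith

lemma int_exp_prod {μ γ : Measure ℝ} (hμ : Nice μ) (hγ : Nice γ) (c m : ℝ) (hc : 0 ≤ c) :
    Integrable (fun p : ℝ × ℝ => Real.exp (c * |p.1 + m * p.2|)) (μ.prod γ) := by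
  have := hμ.prob
  have := hγ.prob
  refine ((hμ.expInt c).mul_prod (hγ.expInt (c * |m|))).mono' (by fun_prop) ?_
  refine Eventually.of_forall fun p => ?_
  rw [Real.norm_eq_abs, abs_of_pos (Real.exp_pos _), ← Real.exp_add]
  apply Real.exp_le_exp.2
  have h1 := abs_add_le p.1 (m * p.2)
  rw [abs_mul] at h1
  have := mul_le_mul_of_nonneg_left h1 hc
  linarith

lemma exp_le {μ γ : Measure ℝ} (hμ : Nice μ) (hγ : Nice γ) (c m : ℝ) (hc : 0 ≤ c) :
    ∫ x, Real.exp (c * |x|) ∂μ ≤ ∫ p : ℝ × ℝ, Real.exp (c * |p.1 + m * p.2|) ∂(μ.prod γ) := by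
  have := hμ.prob
  have := hγ.prob
  have hI := int_exp_prod hμ hγ c m hc
  rw [integral_prod _ hI]
  refine integral_mono_ae (hμ.expInt c) hI.integral_prod_left ?_
  filter_upwards [hI.prod_right_ae] with x hx
  obtain ⟨s, hs⟩ := tangent c x m hc
  have hid : Integrable (fun z : ℝ => z) γ := by simpa using int_pow hγ 1
  have h1 : ∫ z, (Real.exp (c * |x|) + s * z) ∂γ = Real.exp (c * |x|) := by
    rw [integral_add (integrable_const _) (hid.const_mul s), integral_const_mul, hγ.mean]
    simp
  rw [← h1]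
  exact integral_mono ((integrable_const _).add (hid.const_mul s)) hx hs

lemma mom_eq {μ γ : Measure ℝ} (hμ : Nice μ) (hγ : Nice γ) (m : ℝ) (k : ℕ) :
    ∫ p : ℝ × ℝ, (p.1 + m * p.2) ^ k ∂(μ.prod γ) =
      ∑ j ∈ Finset.range (k + 1),
        (∫ x, x ^ j ∂μ) * (m ^ (k - j) * (k.choose j : ℝ) * ∫ z, z ^ (k - j) ∂γ) := by
  have := hμ.prob
  have := hγ.prob
  have h1 : ∀ p : ℝ × ℝ, (p.1 + m * p.2) ^ k = ∑ j ∈ Finset.range (k + 1),
      p.1 ^ j * (m ^ (k - j) * (k.choose j : ℝ) * p.2 ^ (k - j)) := by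
    intro p
    rw [add_pow]
    refine Finset.sum_congr rfl fun j _ => ?_
    rw [mul_pow]; ring
  simp_rw [h1]
  rw [integral_finsetSum]
  · refine Finset.sum_congr rfl fun j _ => ?_
    rw [integral_prod_mul (fun x : ℝ => x ^ j)
      (fun z : ℝ => m ^ (k - j) * (k.choose j : ℝ) * z ^ (k - j)), integral_const_mul]
  · intro j _
    exact (int_pow hμ j).mul_prod ((int_pow hγ (k - j)).const_mul _)

lemma yLaw_eq (hB : BasicStmt) (n : ℕ) (β : ℝ) :
    yLaw n β = ((xLaw n β).prod (gaussianReal 0 (Real.toNNReal (β ^ 2 / 2)))).map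
      (fun p : ℝ × ℝ => p.1 + (n : ℝ) ^ (-(1 : ℝ) / 6) * p.2) := by
  obtain ⟨hP, -, -, -, -, hX, -, -, -, hY, -⟩ := hB n β
  have hm : Measurable (xs n β) := hX.measurable
  have h1 : (xLaw n β).prod (gaussianReal 0 (Real.toNNReal (β ^ 2 / 2))) =
      (completedLaw n β).map (Prod.map (xs n β) id) := by
    unfold xLaw completedLaw
    rw [← Measure.map_prod_map _ _ hm measurable_id, Measure.map_id]
  rw [h1, Measure.map_map (by fun_prop) (hm.prodMap measurable_id)]
  unfold yLaw
  congr 1
  funext ω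
  exact hY ω

end XMom6

open XMom6 in
theorem xMomStmt : XMomStmt := by
  intro hB β c C a hc hC ha
  set γ : Measure ℝ := gaussianReal 0 (Real.toNNReal (β ^ 2 / 2)) with hγdef
  have hγ : Nice γ := nice_gauss _
  have hX : ∀ n : ℕ, Nice (xLaw n β) := fun n => (hB n β).2.2.2.2.2.2.2.2.2.2.1
  have hF : ∀ n k : ℕ, ∫ x, x ^ k ∂yLaw n β = fluctuationMoment β k n :=
    fun n => (hB n β).2.2.2.2.2.2.2.2.2.2.2.2.1
  have hmeas : ∀ n : ℕ, Measurable
      (fun p : ℝ × ℝ => p.1 + (n : ℝ) ^ (-(1 : ℝ) / 6) * p.2) := fun n => by fun_prop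
  refine ⟨fun n hn => ?_, ?_⟩
  · refine le_trans ?_ (hC n hn)
    rw [yLaw_eq hB n β, integral_map (hmeas n).aemeasurable (by fun_prop)]
    exact exp_le (hX n) hγ c _ hc.le
  · have hm : Tendsto (fun n : ℕ => (n : ℝ) ^ (-(1 : ℝ) / 6)) atTop (𝓝 0) := by
      have := (tendsto_rpow_neg_atTop (y := (1 : ℝ) / 6) (by norm_num)).comp
        tendsto_natCast_atTop_atTop
      refine this.congr fun n => ?_
      simp only [Function.comp]
      congr 1
      ring
    have hrec : ∀ n k : ℕ, ∫ x, x ^ k ∂xLaw n β = fluctuationMoment β k n -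
        ∑ j ∈ Finset.range k, (∫ x, x ^ j ∂xLaw n β) *
          (((n : ℝ) ^ (-(1 : ℝ) / 6)) ^ (k - j) * (k.choose j : ℝ) * ∫ z, z ^ (k - j) ∂γ) := by
      intro n k
      have := hγ.prob
      rw [← hF n k, yLaw_eq hB n β, integral_map (hmeas n).aemeasurable (by fun_prop),
        mom_eq (hX n) hγ, Finset.sum_range_succ]
      simp
    have main : ∀ k : ℕ, Tendsto (fun n : ℕ => ∫ x, x ^ k ∂xLaw n β) atTop
        (𝓝 (if k = 0 then 1 else a k)) := by
      intro k
      induction k using Nat.strong_induction_on with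
      | _ k ih =>
        by_cases hk : k = 0
        · subst hk
          simp only [pow_zero, if_true]
          refine tendsto_const_nhds.congr fun n => ?_
          have := (hX n).prob
          simp
        · rw [if_neg hk]
          have h0 : Tendsto (fun n : ℕ => ∑ j ∈ Finset.range k, (∫ x, x ^ j ∂xLaw n β) *
              (((n : ℝ) ^ (-(1 : ℝ) / 6)) ^ (k - j) * (k.choose j : ℝ) * ∫ z, z ^ (k - j) ∂γ))
              atTop (𝓝 (∑ j ∈ Finset.range k, (if j = 0 then 1 else a j) *
                ((0 : ℝ) ^ (k - j) * (k.choose j : ℝ) * ∫ z, z ^ (k - j) ∂γ))) := by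
            refine tendsto_finsetSum _ fun j hj => ?_
            exact (ih j (Finset.mem_range.1 hj)).mul
              (((hm.pow (k - j)).mul_const _).mul_const _)
          have h1 : (∑ j ∈ Finset.range k, (if j = 0 then 1 else a j) *
              ((0 : ℝ) ^ (k - j) * (k.choose j : ℝ) * ∫ z, z ^ (k - j) ∂γ)) = 0 := by
            refine Finset.sum_eq_zero fun j hj => ?_
            have : k - j ≠ 0 := by have := Finset.mem_range.1 hj; omega
            simp [zero_pow this]
          rw [h1] at h0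
          have h2 := (ha k (by omega)).sub h0
          rw [sub_zero] at h2
          exact h2.congr fun n => (hrec n k).symm
    intro k hk
    have := main k
    rwa [if_neg (by omega)] at this

end Crest.Agent.T156.Soft
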