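import Crest.Agent.T156.SoA27_88
import Crest.Agent.T156.SoA248_74
import Crest.Agent.T156.SoA256_64
import Crest.Agent.T156.SoAnti_31
import Crest.Agent.T156.SoBasic_50
import Crest.Agent.T156.SoClose_98
import Crest.Agent.T156.SoCopy_81
import Crest.Agent.T156.SoExp_56
import Crest.Agent.T156.SoLc_5
import Crest.Agent.T156.SoLimit_87
import Crest.Agent.T156.SoSeq_10
import Crest.Agent.T156.SoSeries_93
import Crest.Agent.T156.SoTwo_2
import Crest.Agent.T156.SoXMom_6
import Crest.Agent.T156.SoPD_88

/-!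
# Row 156, soft part assembled (helper88): `Key β` gives the five statements
-/

set_option autoImplicit false

namespace Crest.Agent.T156.Soft

theorem s27_of_key {β : ℝ} (h : Key β) : S27 β :=
  a27Stmt basicStmt lcStmt psiStmt expStmt twoStmt closeStmt posStmt_88 cauchyStmt β h

theorem s25_of_s27 {β : ℝ} (h : S27 β) : S25 β :=
  (a256Stmt basicStmt lcStmt xMomStmt antiStmt β h).1

theorem s26_of_s27 {β : ℝ} (h : S27 β) {η : ℝ} (hη : 0 < η) : S26 β η :=
  (a256Stmt basicStmt lcStmt xMomStmt antiStmt β h).2 η hη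

theorem s24_of_s27 {β : ℝ} (h : S27 β) : S24 β :=
  (a248Stmt basicStmt xMomStmt copyStmt copyBdStmt detStmt_88 limitStmt summStmt seriesStmt β h).1

theorem s28_of_s27 {β : ℝ} (h : S27 β) : S28 β :=
  (a248Stmt basicStmt xMomStmt copyStmt copyBdStmt detStmt_88 limitStmt summStmt seriesStmt β h).2

end Crest.Agent.T156.Soft
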