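import Crest.Agent.T156.Rect_52

/-!
Two-dimensional Abel summation (docs/T156_40C.md sec. 5): a kernel with bounded mixed second
differences against the double upper primitive of a bilinear array.
-/

namespace Crest.Agent.T156.Rect52
open Finset

theorem abel_id' (φ g : ℕ → ℝ) (a b : ℕ) :
    ∑ j ∈ Ico a b, φ j * g j
      = φ a * ∑ j ∈ Ico a b, g j
        + ∑ j ∈ Ico a (b - 1), (φ (j + 1) - φ j) * ∑ i ∈ Ico (j + 1) b, g i := by
  by_cases hab : a ≤ b
  · exact abel_id φ g b (b - a) a (by omega)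
  · rw [Finset.Ico_eq_empty (show ¬ a < b by omega),
      Finset.Ico_eq_empty (show ¬ a < b - 1 by omega)]
    simp

/-- Double upper primitive. -/
def G2 (B : ℕ → ℕ → ℝ) (b b' x y : ℕ) : ℝ := ∑ i ∈ Ico x b, ∑ j ∈ Ico y b', B i j

/-- Mixed second difference. -/
def mx (c : ℕ → ℕ → ℝ) (i j : ℕ) : ℝ := c (i + 1) (j + 1) - c (i + 1) j - c i (j + 1) + c i j

/-- Two-dimensional Abel summation on a rectangle. -/
theorem abel2 (c B : ℕ → ℕ → ℝ) (a b a' b' : ℕ) :
    ∑ i ∈ Ico a b, ∑ j ∈ Ico a' b', c i j * B i j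
      = c a a' * G2 B b b' a a'
        + ∑ i ∈ Ico a (b - 1), (c (i + 1) a' - c i a') * G2 B b b' (i + 1) a'
        + ∑ j ∈ Ico a' (b' - 1), (c a (j + 1) - c a j) * G2 B b b' a (j + 1)
        + ∑ i ∈ Ico a (b - 1), ∑ j ∈ Ico a' (b' - 1), mx c i j * G2 B b b' (i + 1) (j + 1) := by
  have h1 : ∑ i ∈ Ico a b, ∑ j ∈ Ico a' b', c i j * B i j
      = ∑ i ∈ Ico a b, c i a' * ∑ j ∈ Ico a' b', B i j
        + ∑ j ∈ Ico a' (b' - 1), ∑ i ∈ Ico a b,
            (c i (j + 1) - c i j) * ∑ l ∈ Ico (j + 1) b', B i l := by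
    rw [Finset.sum_comm (s := Ico a' (b' - 1)), ← Finset.sum_add_distrib]
    exact Finset.sum_congr rfl fun i _ => abel_id' (c i) (B i) a' b'
  have h2 := abel_id' (fun i => c i a') (fun i => ∑ j ∈ Ico a' b', B i j) a b
  have h3 : ∀ j, ∑ i ∈ Ico a b, (c i (j + 1) - c i j) * ∑ l ∈ Ico (j + 1) b', B i l
      = (c a (j + 1) - c a j) * G2 B b b' a (j + 1)
        + ∑ i ∈ Ico a (b - 1), mx c i j * G2 B b b' (i + 1) (j + 1) := by
    intro j
    rw [abel_id' (fun i => c i (j + 1) - c i j) (fun i => ∑ l ∈ Ico (j + 1) b', B i l) a b]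
    unfold G2 mx
    congr 1
    exact Finset.sum_congr rfl fun i _ => by ring
  rw [h1, h2, Finset.sum_congr rfl fun j _ => h3 j, Finset.sum_add_distrib,
    Finset.sum_comm (s := Ico a' (b' - 1)) (t := Ico a (b - 1))]
  unfold G2
  ring

/-- Bound form of `abel2`. -/
theorem abel2_le (c B : ℕ → ℕ → ℝ) (a b a' b' : ℕ) (f f' p p' : ℕ → ℝ) (m : ℕ → ℕ → ℝ)
    {k0 : ℝ} (hG : ∀ x, a ≤ x → ∀ y, a' ≤ y → |G2 B b b' x y| ≤ f x * f' y)
    (h0 : |c a a'| ≤ k0)
    (h1 : ∀ i ∈ Ico a (b - 1), |c (i + 1) a' - c i a'| ≤ p i)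
    (h2 : ∀ j ∈ Ico a' (b' - 1), |c a (j + 1) - c a j| ≤ p' j)
    (h12 : ∀ i ∈ Ico a (b - 1), ∀ j ∈ Ico a' (b' - 1), |mx c i j| ≤ m i j) :
    |∑ i ∈ Ico a b, ∑ j ∈ Ico a' b', c i j * B i j|
      ≤ k0 * (f a * f' a') + (∑ i ∈ Ico a (b - 1), p i * f (i + 1)) * f' a'
        + f a * (∑ j ∈ Ico a' (b' - 1), p' j * f' (j + 1))
        + ∑ i ∈ Ico a (b - 1), ∑ j ∈ Ico a' (b' - 1), m i j * (f (i + 1) * f' (j + 1)) := by
  have mm : ∀ {u v k w : ℝ}, |u| ≤ k → |v| ≤ w → |u * v| ≤ k * w := fun hu hv => by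
    rw [abs_mul]
    exact mul_le_mul hu hv (abs_nonneg _) ((abs_nonneg _).trans hu)
  rw [abel2]
  refine (abs_add_le _ _).trans (add_le_add ((abs_add_le _ _).trans (add_le_add
    ((abs_add_le _ _).trans (add_le_add ?_ ?_)) ?_)) ?_)
  · exact mm h0 (hG a le_rfl a' le_rfl)
  · rw [Finset.sum_mul]
    refine (Finset.abs_sum_le_sum_abs _ _).trans (Finset.sum_le_sum fun i hi => ?_)
    rw [mul_assoc]
    exact mm (h1 i hi) (hG _ (by have := (mem_Ico.1 hi).1; omega) _ le_rfl)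
  · rw [Finset.mul_sum]
    refine (Finset.abs_sum_le_sum_abs _ _).trans (Finset.sum_le_sum fun j hj => ?_)
    rw [show f a * (p' j * f' (j + 1)) = p' j * (f a * f' (j + 1)) by ring]
    exact mm (h2 j hj) (hG _ le_rfl _ (by have := (mem_Ico.1 hj).1; omega))
  · refine (Finset.abs_sum_le_sum_abs _ _).trans (Finset.sum_le_sum fun i hi => ?_)
    refine (Finset.abs_sum_le_sum_abs _ _).trans (Finset.sum_le_sum fun j hj => ?_)
    exact mm (h12 i hi j hj) (hG _ (by have := (mem_Ico.1 hi).1; omega) _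
      (by have := (mem_Ico.1 hj).1; omega))

/-- Symmetric extension of a kernel given on `i ≤ j`. -/
def sy (c : ℕ → ℕ → ℝ) (i j : ℕ) : ℝ := c (min i j) (max i j)

theorem sy_le (c : ℕ → ℕ → ℝ) {i j : ℕ} (h : i ≤ j) : sy c i j = c i j := by
  unfold sy; rw [min_eq_left h, max_eq_right h]

theorem sy_ge (c : ℕ → ℕ → ℝ) {i j : ℕ} (h : j ≤ i) : sy c i j = c j i := by
  unfold sy; rw [min_eq_right h, max_eq_left h]

theorem sq_tri (F : ℕ → ℕ → ℝ) (hF : ∀ i j, F i j = F j i) (a b : ℕ) :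
    ∑ i ∈ Ico a b, ∑ j ∈ Ico a b, F i j
      = 2 * ∑ j ∈ Ico a b, ∑ i ∈ Ico a j, F i j + ∑ i ∈ Ico a b, F i i := by
  by_cases hab : a ≤ b
  · induction b, hab using Nat.le_induction with
    | base => simp
    | succ b hab ih =>
      rw [Finset.sum_Ico_succ_top hab, Finset.sum_Ico_succ_top hab, Finset.sum_Ico_succ_top hab,
        Finset.sum_Ico_succ_top hab,
        Finset.sum_congr rfl fun i _ => Finset.sum_Ico_succ_top hab (F i),
        Finset.sum_add_distrib, ih, Finset.sum_congr rfl fun j _ => hF b j]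
      ring
  · rw [Finset.Ico_eq_empty (show ¬ a < b by omega)]; simp

/-- **Triangle form**: symmetric array `B`, kernel `c` on `i ≤ j`, Lipschitz in each variable
with bounded mixed second differences off the diagonal. -/
theorem tri2 (c B : ℕ → ℕ → ℝ) (hB : ∀ i j, B i j = B j i) (a b : ℕ) (f s : ℕ → ℝ)
    {k0 ka k1 k : ℝ} (hG : ∀ x, a ≤ x → ∀ y, a ≤ y → |G2 B b b x y| ≤ f x * f y)
    (hk : 0 ≤ k)
    (h0 : |c a a| ≤ k0)
    (ha : ∀ j ∈ Ico a (b - 1), |c a (j + 1) - c a j| ≤ ka * s j)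
    (hd : ∀ i ∈ Ico a (b - 1), |c (i + 1) (i + 1) - c i (i + 1)| ≤ k1 * s i ∧
      |c i (i + 1) - c i i| ≤ k1 * s i)
    (h12 : ∀ j ∈ Ico a (b - 1), ∀ i ∈ Ico a j, |mx c i j| ≤ k * (s i * s j)) :
    |∑ j ∈ Ico a b, ∑ i ∈ Ico a j, c i j * B i j + (∑ i ∈ Ico a b, c i i * B i i) / 2|
      ≤ (k0 * f a ^ 2 + 2 * ka * f a * (∑ i ∈ Ico a (b - 1), s i * f (i + 1))
        + k * (∑ i ∈ Ico a (b - 1), s i * f (i + 1)) ^ 2
        + 2 * k1 * ∑ i ∈ Ico a (b - 1), s i * f (i + 1) ^ 2) / 2 := by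
  have e := sq_tri (fun i j => sy c i j * B i j)
    (fun i j => by simp only [sy, min_comm i j, max_comm i j, hB i j]) a b
  have e1 : ∑ j ∈ Ico a b, ∑ i ∈ Ico a j, sy c i j * B i j
      = ∑ j ∈ Ico a b, ∑ i ∈ Ico a j, c i j * B i j :=
    Finset.sum_congr rfl fun j _ => Finset.sum_congr rfl fun i hi => by
      rw [sy_le c (mem_Ico.1 hi).2.le]
  have e2 : ∑ i ∈ Ico a b, sy c i i * B i i = ∑ i ∈ Ico a b, c i i * B i i :=
    Finset.sum_congr rfl fun i _ => by rw [sy_le c le_rfl]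
  rw [e1, e2] at e
  have H := abel2_le (sy c) B a b a b f f (fun i => ka * s i) (fun i => ka * s i)
    (fun i j => k * (s i * s j) + if i = j then 2 * k1 * s i else 0) (k0 := k0) hG
    (by rwa [sy_le c le_rfl])
    (fun i hi => by
      have := (mem_Ico.1 hi).1
      rw [sy_ge c (by omega), sy_ge c this]; exact ha i hi)
    (fun j hj => by
      have := (mem_Ico.1 hj).1
      rw [sy_le c (by omega), sy_le c this]; exact ha j hj)
    (fun i hi j hj => by
      have hi' := mem_Ico.1 hi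
      have hj' := mem_Ico.1 hj
      rcases lt_trichotomy i j with h | h | h
      · rw [if_neg h.ne, add_zero]
        have : mx (sy c) i j = mx c i j := by
          unfold mx
          rw [sy_le c (by omega), sy_le c (by omega), sy_le c (by omega), sy_le c h.le]
        rw [this]; exact h12 j hj i (mem_Ico.2 ⟨hi'.1, h⟩)
      · subst h
        rw [if_pos rfl]
        have : mx (sy c) i i = (c (i + 1) (i + 1) - c i (i + 1)) - (c i (i + 1) - c i i) := by
          unfold mx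
          rw [sy_le c le_rfl, sy_ge c (Nat.le_succ i), sy_le c (Nat.le_succ i), sy_le c le_rfl]
          ring
        rw [this]
        have h3 := hd i hi
        have h4 : 0 ≤ k * (s i * s i) := mul_nonneg hk (mul_self_nonneg _)
        exact (abs_sub _ _).trans (by linarith [h3.1, h3.2])
      · rw [if_neg h.ne', add_zero]
        have : mx (sy c) i j = mx c j i := by
          unfold mx
          rw [sy_ge c (by omega), sy_ge c (by omega), sy_ge c (by omega), sy_ge c h.le]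
          ring
        rw [this, mul_comm (s i)]; exact h12 i hi j (mem_Ico.2 ⟨hj'.1, h⟩))
  have e3 : ∑ i ∈ Ico a (b - 1), ∑ j ∈ Ico a (b - 1),
        (k * (s i * s j) + if i = j then 2 * k1 * s i else 0) * (f (i + 1) * f (j + 1))
      = k * (∑ i ∈ Ico a (b - 1), s i * f (i + 1)) ^ 2
        + 2 * k1 * ∑ i ∈ Ico a (b - 1), s i * f (i + 1) ^ 2 := by
    rw [sq, Finset.sum_mul_sum, Finset.mul_sum, Finset.mul_sum, ← Finset.sum_add_distrib]
    refine Finset.sum_congr rfl fun i hi => ?_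
    simp only [add_mul, Finset.sum_add_distrib, ite_mul, zero_mul, Finset.sum_ite_eq, hi, if_true,
      Finset.mul_sum]
    congr 1
    · exact Finset.sum_congr rfl fun j _ => by ring
    · ring
  have e4 : ∑ i ∈ Ico a (b - 1), ka * s i * f (i + 1)
      = ka * ∑ i ∈ Ico a (b - 1), s i * f (i + 1) := by
    rw [Finset.mul_sum]; exact Finset.sum_congr rfl fun j _ => by ring
  rw [e3, e4, e] at H
  rw [show ∑ j ∈ Ico a b, ∑ i ∈ Ico a j, c i j * B i j + (∑ i ∈ Ico a b, c i i * B i i) / 2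
      = (2 * ∑ j ∈ Ico a b, ∑ i ∈ Ico a j, c i j * B i j + ∑ i ∈ Ico a b, c i i * B i i) / 2
      by ring, abs_div, abs_two]
  refine div_le_div_of_nonneg_right (H.trans (le_of_eq ?_)) (by norm_num)
  ring

/-- `(∑ s f)² ≤ (∑ s)(∑ s f²)`. -/
theorem wsq_le (s f : ℕ → ℝ) (A : Finset ℕ) (hs : ∀ i ∈ A, 0 ≤ s i) :
    (∑ i ∈ A, s i * f i) ^ 2 ≤ (∑ i ∈ A, s i) * ∑ i ∈ A, s i * f i ^ 2 := by
  refine Finset.sum_sq_le_sum_mul_sum_of_sq_le_mul A hs
    (fun i hi => mul_nonneg (hs i hi) (sq_nonneg _)) fun i _ => le_of_eq (by ring)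

end Crest.Agent.T156.Rect52
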