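import Crest.Agent.T156.CaGf_90

/-!
# Row 156 (helper90): transport of the tree law

`tF w s L h F` is the expectation of a function of the paths and of the leaves.  It only depends on
the covariances (`tF_same`), up to constants for shift-invariant functions (`tF_sameC`); a level can
be split in two (`tF_dbl`).
-/

set_option autoImplicit false
set_option linter.unusedSectionVars false

noncomputable section

namespace Crest.Agent.T156.Cas

open MeasureTheory Real Set Filter Topology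
open Crest.Agent.T157.E Crest.Agent.T157.Casc Crest.Agent.T157.SL
open Crest.Agent.T157.Casc.C (Same addLv)

variable {Ω : Type} [Fintype Ω] {w : Ω → ℝ}

/-- expectation of a function of the paths and of the leaves -/
def tF (w : Ω → ℝ) (s : Sh) (L : List (Lv Ω)) (h : Ω → ℝ)
    (F : Pa s.Lf Ω → (s.Lf → Ω) → ℝ) : ℝ := tX w s L h fun g x => F (stT s L h g) x

theorem tF_leaf (w : Ω → ℝ) (s : Sh) (L : List (Lv Ω)) (h : Ω → ℝ) (F : (s.Lf → Ω) → ℝ) :
    tF w s L h (fun _ => F) = tX w s L h fun _ => F := rfl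

theorem tX_leaf (hw : Wt w) (s : Sh) (L : List (Lv Ω)) (h : Ω → ℝ) (F : (s.Lf → Ω) → ℝ) :
    tX w s L h (fun _ => F) = ∑ x, PT w s L h x * F x := by
  rw [Sd.tX_eq_sum hw s L h fun x => Eg.const (F x)]
  simp only [integral_mul_const, PT]

open Classical in
theorem PT_eq_tX (hw : Wt w) (s : Sh) (L : List (Lv Ω)) (h : Ω → ℝ) (y : s.Lf → Ω) :
    PT w s L h y = tX w s L h fun _ x => if x = y then 1 else 0 := by
  rw [tX_leaf hw]
  simp

namespace Tp

/-! ### growth of parametrised expectations -/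

theorem eg_par {κ ι : Type} [Fintype κ] [Fintype ι] {G : (κ ⊕ ι → ℝ) → ℝ} (hG : Eg G) :
    Eg fun z : κ → ℝ => ∫ g, G (Sum.elim z g) ∂gv ι := by
  classical
  exact eg_of_EG (T157.Casc.eg_int (hG.toEG univ)) (mem_univ 0)

theorem eg_tX (hw : Wt w) (s : Sh) (L : List (Lv Ω)) {κ : Type} [Fintype κ]
    {H : (κ → ℝ) → Ω → ℝ} (hH : ∀ y, Lg fun z => H z y)
    {F : (κ → ℝ) → (NT s L → ℝ) → (s.Lf → Ω) → ℝ}
    (hF : ∀ x, Eg fun q : κ ⊕ NT s L → ℝ => F (fun i => q (.inl i)) (fun i => q (.inr i)) x) :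
    Eg fun z => tX w s L (H z) (F z) := by
  have hH' : ∀ y, Lg fun q : κ ⊕ NT s L → ℝ => H (fun i => q (.inl i)) y := fun y =>
    Tr.lg_comp (hH y) fun i => Tr.lg_coord _
  have h1 : Eg fun q : κ ⊕ NT s L → ℝ => ∑ x, denT w s L (H fun i => q (.inl i))
      (fun i => q (.inr i)) x * F (fun i => q (.inl i)) (fun i => q (.inr i)) x :=
    Eg.sum _ fun x _ => Eg.mul (Eg.const_mul _ (by
      have := (Tr.lg_sub (Tr.lg_neg (Tr.lg_UT hw s L x hH' fun i => Tr.lg_coord (Sum.inr i)))
        (Tr.lg_cmul (s.br * ex L 0) (Tr.lg_comp (lg_X hw L) hH'))).exp 1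
      simpa only [one_mul] using this)) (hF x)
  exact eg_par h1

/-- as a function of the initial state -/
theorem eg_tF (hw : Wt w) (s : Sh) (L : List (Lv Ω)) {F : Pa s.Lf Ω → (s.Lf → Ω) → ℝ}
    (hF : ∀ x, EgP fun p => F p x) : Eg fun z => tF w s L z F :=
  eg_tX hw s L (H := fun z => z) (fun y => Tr.lg_coord y) (F := fun z g => F (stT s L z g))
    fun x => hF x _ _ fun a j => Tr.lg_stT s L a j (fun y => Tr.lg_coord (Sum.inl y))
      fun i => Tr.lg_coord (Sum.inr i)

/-- as a function of the paths of another tree -/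
theorem egP_tF (hw : Wt w) (t : Sh) (L : List (Lv Ω)) (h : Ω → ℝ) {κ : Type}
    {F : Pa (κ ⊕ t.Lf) Ω → (t.Lf → Ω) → ℝ} (hF : ∀ y, EgP fun p => F p y) :
    EgP fun p : Pa κ Ω => tF w t L h fun q => F (Sum.elim p q) := fun ι _ p hp =>
  eg_tX hw t L (H := fun _ => h) (fun _ => Tr.lg_const _)
    (F := fun z g => F (Sum.elim (p z) (stT t L h g))) fun y => hF y _ _ fun a j u => by
      cases a with
      | inl a => exact Tr.lg_comp (hp a j u) fun i => Tr.lg_coord (Sum.inl i)
      | inr a =>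
        exact Tr.lg_stT t L a j (H := fun _ => h) (fun _ => Tr.lg_const _)
          (fun i => Tr.lg_coord (Sum.inr i)) u

/-! ### recursion -/

theorem tF_step_nil (w : Ω → ℝ) (s : Sh) (h : Ω → ℝ) (F : Pa s.Lf Ω → (s.Lf → Ω) → ℝ) :
    tF w (.step s) [] h F = tF w s [] h F := Tr.tX_step_nil w s h _

theorem tF_step_cons (hw : Wt w) (s : Sh) (l : Lv Ω) (L : List (Lv Ω)) (h : Ω → ℝ)
    {F : Pa s.Lf Ω → (s.Lf → Ω) → ℝ} (hF : ∀ x, EgP fun p => F p x) :
    tF w (.step s) (l :: L) h F =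
      tE l (X w L) (fun z => tF w s L z fun p => F fun b => Gf.cons h (p b)) h := by
  refine (Tr.tX_step_cons hw s l L h _ fun x => (hF x).stT (s := .step s) _ h).trans ?_
  rw [tE]
  congr 2
  funext g
  congr 2
  funext g' x
  congr 1
  funext b
  exact Gf.stT_step s l L h g g' b

theorem tF_one_cons (w : Ω → ℝ) (l : Lv Ω) (L : List (Lv Ω)) (h : Ω → ℝ)
    (F : Pa Unit Ω → (Unit → Ω) → ℝ) :
    tF w .one (l :: L) h F = tF w (.step .one) (l :: L) h F := by
  refine (Gf.tX_one_cons w l L h _).trans ?_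
  have : ∀ g, stT .one (l :: L) h g = stT (.step .one) (l :: L) h g := fun g => by
    funext a k; cases k <;> rfl
  simp only [this]
  rfl

theorem tF_split (hw : Wt w) (s t : Sh) (L : List (Lv Ω)) (h : Ω → ℝ)
    {F : Pa (s.Lf ⊕ t.Lf) Ω → (s.Lf ⊕ t.Lf → Ω) → ℝ} (hF : ∀ x, EgP fun p => F p x) :
    tF w (.split s t) L h F =
      tF w s L h fun p x => tF w t L h fun q y => F (Sum.elim p q) (Sum.elim x y) := by
  refine (Tr.tX_split hw s t L h _ fun x => (hF x).stT (s := .split s t) _ h).trans ?_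
  simp only [Gf.stT_split]
  rfl

/-! ### equal covariances -/

theorem same_step (hw : Wt w) {s : Sh} {l l' : Lv Ω} {L L' : List (Lv Ω)} (H : Same l l')
    (HL : X w L = X w L') (ih : ∀ h F, (∀ x, EgP fun p => F p x) → tF w s L h F = tF w s L' h F)
    (h : Ω → ℝ) (F : Pa s.Lf Ω → (s.Lf → Ω) → ℝ) (hF : ∀ x, EgP fun p => F p x) :
    tF w (.step s) (l :: L) h F = tF w (.step s) (l' :: L') h F := by
  rw [tF_step_cons hw s l L h hF, tF_step_cons hw s l' L' h hF, HL]
  simp only [fun z => ih z _ fun x => Gf.egP_cons (hF x) h]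
  rw [H.tE (C.lp_X hw _).meas (eg_tF hw s L' fun x => Gf.egP_cons (hF x) h).cont.measurable]

theorem same_one (hw : Wt w) {L L' : List (Lv Ω)} (H : List.Forall₂ Same L L') :
    ∀ h F, (∀ x, EgP fun p => F p x) → tF w .one L h F = tF w .one L' h F := by
  induction H with
  | nil => exact fun _ _ _ => rfl
  | cons h1 h2 ih =>
    intro h F hF
    rw [tF_one_cons, tF_one_cons]
    exact same_step hw h1 (C.X_same hw h2) ih h F hF

end Tp

/-- **the tree law only depends on the tilts and the covariances** -/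
theorem tF_same (hw : Wt w) : ∀ (s : Sh) {L L' : List (Lv Ω)}, List.Forall₂ Same L L' →
    ∀ h F, (∀ x, EgP fun p => F p x) → tF w s L h F = tF w s L' h F
  | .one, _, _, H => Tp.same_one hw H
  | .step _, _, _, .nil => fun _ _ _ => rfl
  | .step s, _, _, .cons h1 h2 => Tp.same_step hw h1 (C.X_same hw h2) (tF_same hw s h2)
  | .split s t, L, L', H => fun h F hF => by
      rw [Tp.tF_split hw s t L h hF, Tp.tF_split hw s t L' h hF]
      simp only [fun p x => tF_same hw t H h (fun q y => F (Sum.elim p q) (Sum.elim x y))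
        fun y => Gf.egP_inr (hF _) p]
      exact tF_same hw s H h _ fun x =>
        Tp.egP_tF hw t L' h (F := fun p y => F p (Sum.elim x y)) fun y => hF _

theorem tX_same (hw : Wt w) (s : Sh) {L L' : List (Lv Ω)} (H : List.Forall₂ Same L L')
    (h : Ω → ℝ) (F : (s.Lf → Ω) → ℝ) : tX w s L h (fun _ => F) = tX w s L' h fun _ => F :=
  tF_same hw s H h (fun _ => F) fun _ => .const _

theorem PT_same (hw : Wt w) (s : Sh) {L L' : List (Lv Ω)} (H : List.Forall₂ Same L L')
    (h : Ω → ℝ) : PT w s L h = PT w s L' h := by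
  funext y
  rw [PT_eq_tX hw, PT_eq_tX hw]
  exact tX_same hw s H h _

/-! ### covariances equal up to constants -/

/-- the same tilt, covariances that differ by the constant `c` -/
def SameC (c : ℝ) (l l' : Lv Ω) : Prop := l.m = l'.m ∧ ∀ x y, l.cov x y = l'.cov x y + c

/-- functions that do not see constants added to the states -/
def ShI {κ : Type} (F : Pa κ Ω → (κ → Ω) → ℝ) : Prop :=
  ∀ (p : Pa κ Ω) (c : κ → ℕ → ℝ), F (fun a j y => p a j y + c a j) = F p

/-- the level of variance `c` that does not depend on the configuration -/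
abbrev cLv (Ω : Type) (c m : ℝ) : Lv Ω := ⟨Unit, fun _ _ => √c, m⟩

namespace Tp

omit [Fintype Ω] in
theorem cov_cLv {c : ℝ} (hc : 0 ≤ c) (m : ℝ) (x y : Ω) : (cLv Ω c m).cov x y = c := by
  simp [Lv.cov, mul_self_sqrt hc]

theorem tE_shift (l : Lv Ω) (F Φ : (Ω → ℝ) → ℝ) (c : ℝ) :
    tE l (fun z => F z + c) Φ = tE l F Φ := by
  funext h
  simp only [tE, mul_add, exp_add, mul_right_comm _ (exp (l.m * c)), integral_mul_const]
  exact mul_div_mul_right _ _ (exp_pos _).ne'

theorem step_shift (l : Lv Ω) {F : (Ω → ℝ) → ℝ} (hF : C.Lp F) (c : ℝ) (h : Ω → ℝ) :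
    step l (fun z => F z + c) h = step l F h + c := by
  have := (C.Same.rel (l := l) (l' := l) ⟨rfl, rfl⟩).step (F := fun z => F z + c) (c := c)
    one_ne_zero (hF.meas.add_const c) hF (fun _ => by rw [one_mul]) h
  rwa [one_mul] at this

theorem same_add {c : ℝ} (hc : 0 ≤ c) {l l' : Lv Ω} (H : SameC c l l') :
    Same l (addLv l' (cLv Ω c l'.m)) :=
  ⟨H.1, by funext x y; rw [C.addLv_cov, cov_cLv hc, H.2]⟩

theorem step_cLv (hw : Wt w) (L : List (Lv Ω)) {c : ℝ} (hc : 0 ≤ c) (m : ℝ) :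
    step (cLv Ω c m) (X w L) = fun z => X w L z + m * c / 2 := by
  funext z
  rw [C.step_of_const (l := cLv Ω c m) (a := fun _ => √c) (fun _ => rfl) (C.X_add_const hw L)]
  simp [mul_self_sqrt hc]

theorem step_sameC₀ (hw : Wt w) {c : ℝ} (hc : 0 ≤ c) {l l' : Lv Ω} (H : SameC c l l')
    (L : List (Lv Ω)) (h : Ω → ℝ) : X w (l :: L) h = X w (l' :: L) h + l.m * c / 2 := by
  rw [C.X_cons, (same_add hc H).step (C.lp_X hw L),
    C.step_addLv (l := l') (l' := cLv Ω c l'.m) rfl (C.lp_X hw L), step_cLv hw L hc,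
    step_shift l' (C.lp_X hw L), H.1]
  rfl

theorem tE_sameC₀ (hw : Wt w) {c : ℝ} (hc : 0 ≤ c) {l l' : Lv Ω} (H : SameC c l l')
    (L : List (Lv Ω)) {Φ : (Ω → ℝ) → ℝ} (hΦ : Eg Φ) (hs : ∀ z a, Φ (z + fun _ => a) = Φ z)
    (h : Ω → ℝ) : tE l (X w L) Φ h = tE l' (X w L) Φ h := by
  rw [(same_add hc H).tE (C.lp_X hw L).meas hΦ.cont.measurable,
    C.tE_addLv (l := l') (l' := cLv Ω c l'.m) rfl (C.lp_X hw L) h
      ((lg_X hw L).int hΦ (addLv l' (cLv Ω c l'.m)) h), step_cLv hw L hc, tE_shift]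
  congr 1
  funext z
  have e : ∀ g, Φ (z + (cLv Ω c l'.m).fld g) = Φ z := fun g => hs z (∑ i, √c * g i)
  simp only [tE, e, integral_mul_const]
  exact mul_div_cancel_left₀ _ ((C.lp_X hw L).pos (cLv Ω c l'.m) l'.m z).ne'

omit [Fintype Ω] in
theorem SameC.symm {c : ℝ} {l l' : Lv Ω} (H : SameC c l l') : SameC (-c) l' l :=
  ⟨H.1.symm, fun x y => by rw [H.2]; ring⟩

theorem step_sameC (hw : Wt w) {c : ℝ} {l l' : Lv Ω} (H : SameC c l l')
    (L : List (Lv Ω)) (h : Ω → ℝ) : X w (l :: L) h = X w (l' :: L) h + l.m * c / 2 := by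
  rcases le_total 0 c with hc | hc
  · exact step_sameC₀ hw hc H L h
  · rw [step_sameC₀ hw (neg_nonneg.2 hc) (SameC.symm H) L h, H.1]
    ring

theorem tE_sameC (hw : Wt w) {c : ℝ} {l l' : Lv Ω} (H : SameC c l l')
    (L : List (Lv Ω)) {Φ : (Ω → ℝ) → ℝ} (hΦ : Eg Φ) (hs : ∀ z a, Φ (z + fun _ => a) = Φ z)
    (h : Ω → ℝ) : tE l (X w L) Φ h = tE l' (X w L) Φ h := by
  rcases le_total 0 c with hc | hc
  · exact tE_sameC₀ hw hc H L hΦ hs h
  · exact (tE_sameC₀ hw (neg_nonneg.2 hc) (SameC.symm H) L hΦ hs h).symm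

/-- a constant added to the initial state -/
theorem tF_shift (hw : Wt w) (s : Sh) (L : List (Lv Ω)) (h : Ω → ℝ) (a : ℝ)
    {F : Pa s.Lf Ω → (s.Lf → Ω) → ℝ} (hF : ShI F) :
    tF w s L (h + fun _ => a) F = tF w s L h F := by
  refine integral_congr_ae (.of_forall fun g => Finset.sum_congr rfl fun x _ => ?_)
  have e : stT s L (h + fun _ => a) g = fun b j y => stT s L h g b j y + a := by
    funext b j y
    simp only [Sd.stT_apply s L _ g, Pi.add_apply]
    ring
  have e2 : ∀ b j, stT s L (h + fun _ => a) g b j = stT s L h g b j + fun _ => a := fun b j => by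
    rw [e]; rfl
  show denT w s L _ g x * F _ x = denT w s L h g x * F _ x
  rw [e, hF _ fun _ _ => a]
  congr 1
  simp only [denT, UT_eq, UP, e2, C.X_add_const hw, Pi.add_apply, mul_add, Finset.sum_add_distrib,
    ← Finset.sum_mul, sum_cf, Finset.sum_const, Finset.card_univ, nsmul_eq_mul]
  congr 2
  ring

omit [Fintype Ω] in
theorem shI_cons {κ : Type} {F : Pa κ Ω → (κ → Ω) → ℝ} (hF : ShI F) (h : Ω → ℝ) :
    ShI fun p : Pa κ Ω => F fun b => Gf.cons h (p b) := fun p c => by
  refine Eq.trans ?_ (hF _ fun a j => Nat.casesOn j 0 (c a))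
  show F _ = F _
  congr 1
  funext a j y
  cases j with
  | zero => exact (add_zero _).symm
  | succ j => rfl

omit [Fintype Ω] in
theorem shI_inr {κ κ' : Type} {F : Pa (κ ⊕ κ') Ω → (κ ⊕ κ' → Ω) → ℝ} (hF : ShI F) (p : Pa κ Ω)
    (x : κ → Ω) : ShI fun (q : Pa κ' Ω) y => F (Sum.elim p q) (Sum.elim x y) := fun q c => by
  funext y
  refine Eq.trans ?_ (congrFun (hF _ (Sum.elim 0 c)) _)
  show F _ _ = F _ _
  congr 1
  funext a j u
  cases a with
  | inl a => exact (add_zero _).symm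
  | inr a => rfl

omit [Fintype Ω] in
theorem shI_inl {κ κ' : Type} {F : Pa (κ ⊕ κ') Ω → (κ ⊕ κ' → Ω) → ℝ} (hF : ShI F) (p : Pa κ Ω)
    (c : κ → ℕ → ℝ) (q : Pa κ' Ω) :
    F (Sum.elim (fun a j y => p a j y + c a j) q) = F (Sum.elim p q) := by
  refine Eq.trans ?_ (hF _ (Sum.elim c 0))
  congr 1
  funext a j u
  cases a with
  | inl a => rfl
  | inr a => exact (add_zero _).symm

end Tp

/-- lists of levels whose covariances agree up to constants; `k = ∑ m_j c_j / 2` -/
inductive SameL : List (Lv Ω) → List (Lv Ω) → ℝ → Prop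
  | nil : SameL [] [] 0
  | cons {l l' : Lv Ω} {L L' : List (Lv Ω)} {c k : ℝ} : SameC c l l' → SameL L L' k →
      SameL (l :: L) (l' :: L') (l.m * c / 2 + k)

theorem SameL.map {α : Type} (f f' : α → Lv Ω) (c : α → ℝ) : ∀ M : List α,
    (∀ a ∈ M, SameC (c a) (f a) (f' a)) →
    SameL (M.map f) (M.map f') (M.map fun a => (f a).m * c a / 2).sum
  | [], _ => .nil
  | a :: M, H => .cons (H a (by simp)) (SameL.map f f' c M fun b hb => H b (by simp [hb]))

/-- **the value moves by a constant** -/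
theorem X_sameC (hw : Wt w) {L L' : List (Lv Ω)} {k : ℝ} (H : SameL L L' k) :
    X w L = fun h => X w L' h + k := by
  induction H with
  | nil => simp
  | @cons l l' L L' c k h1 _ ih =>
    funext h
    rw [C.X_cons, ih, Tp.step_shift l (C.lp_X hw _), ← C.X_cons, Tp.step_sameC hw h1]
    ring

namespace Tp

theorem sameC_step (hw : Wt w) {s : Sh} {l l' : Lv Ω} {L L' : List (Lv Ω)} {c k : ℝ}
    (H : SameC c l l') (HL : SameL L L' k)
    (ih : ∀ h F, (∀ x, EgP fun p => F p x) → ShI F → tF w s L h F = tF w s L' h F)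
    (h : Ω → ℝ) (F : Pa s.Lf Ω → (s.Lf → Ω) → ℝ) (hF : ∀ x, EgP fun p => F p x) (hI : ShI F) :
    tF w (.step s) (l :: L) h F = tF w (.step s) (l' :: L') h F := by
  rw [tF_step_cons hw s l L h hF, tF_step_cons hw s l' L' h hF, X_sameC hw HL, tE_shift]
  simp only [fun z => ih z _ (fun x => Gf.egP_cons (hF x) h) (shI_cons hI h)]
  exact tE_sameC hw H L' (eg_tF hw s L' fun x => Gf.egP_cons (hF x) h)
    (fun z a => tF_shift hw s L' z a (shI_cons hI h)) h

theorem sameC_one (hw : Wt w) {L L' : List (Lv Ω)} {k : ℝ} (H : SameL L L' k) :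
    ∀ h F, (∀ x, EgP fun p => F p x) → ShI F → tF w .one L h F = tF w .one L' h F := by
  induction H with
  | nil => exact fun _ _ _ _ => rfl
  | cons h1 h2 ih =>
    intro h F hF hI
    rw [tF_one_cons, tF_one_cons]
    exact sameC_step hw h1 h2 ih h F hF hI

end Tp

/-- **constants in the covariances are not seen by shift-invariant functions** -/
theorem tF_sameC (hw : Wt w) : ∀ (s : Sh) {L L' : List (Lv Ω)} {k : ℝ}, SameL L L' k →
    ∀ h F, (∀ x, EgP fun p => F p x) → ShI F → tF w s L h F = tF w s L' h F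
  | .one, _, _, _, H => Tp.sameC_one hw H
  | .step _, _, _, _, .nil => fun _ _ _ _ => rfl
  | .step s, _, _, _, .cons h1 h2 => Tp.sameC_step hw h1 h2 (tF_sameC hw s h2)
  | .split s t, L, L', _, H => fun h F hF hI => by
      rw [Tp.tF_split hw s t L h hF, Tp.tF_split hw s t L' h hF]
      simp only [fun p x => tF_sameC hw t H h (fun q y => F (Sum.elim p q) (Sum.elim x y))
        (fun y => Gf.egP_inr (hF _) p) (Tp.shI_inr hI p x)]
      refine tF_sameC hw s H h _ (fun x =>
        Tp.egP_tF hw t L' h (F := fun p y => F p (Sum.elim x y)) fun y => hF _) fun p c => ?_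
      simp only [Tp.shI_inl hI]

theorem tX_sameC (hw : Wt w) (s : Sh) {L L' : List (Lv Ω)} {k : ℝ} (H : SameL L L' k)
    (h : Ω → ℝ) (F : (s.Lf → Ω) → ℝ) : tX w s L h (fun _ => F) = tX w s L' h fun _ => F :=
  tF_sameC hw s H h (fun _ => F) (fun _ => .const _) fun _ _ => rfl

/-! ### splitting a level -/

/-- the shape with the step at depth `k` doubled -/
def Sh.dbl : Sh → ℕ → Sh
  | .one, _ => .one
  | .step s, 0 => .step (.step s)
  | .step s, k + 1 => .step (s.dbl k)
  | .split s t, k => .split (s.dbl k) (t.dbl k)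

/-- its leaves -/
def Sh.dE : (s : Sh) → (k : ℕ) → s.Lf ≃ (s.dbl k).Lf
  | .one, _ => .refl _
  | .step _, 0 => .refl _
  | .step s, k + 1 => s.dE k
  | .split s t, k => .sumCongr (s.dE k) (t.dE k)

/-- the depths: `j` for `j ≤ k`, `j + 1` for `j > k` -/
def skp : ℕ → ℕ → ℕ
  | _, 0 => 0
  | 0, j + 1 => j + 2
  | k + 1, j + 1 => skp k j + 1

theorem skp_eq : ∀ k j, skp k j = if j ≤ k then j else j + 1
  | _, 0 => by simp [skp]
  | 0, j + 1 => by simp [skp]
  | k + 1, j + 1 => by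
      rw [skp, skp_eq k j]
      split_ifs <;> omega

namespace Tp

theorem egP_re {κ κ' : Type} {Φ : Pa κ Ω → ℝ} (hΦ : EgP Φ) (e : κ → κ') (σ : ℕ → ℕ) :
    EgP fun p : Pa κ' Ω => Φ fun b j => p (e b) (σ j) :=
  hΦ.comp fun _ _ _ hp a j y => hp (e a) (σ j) y

/-- the statement for two shapes and two lists -/
def Dbl (w : Ω → ℝ) (s s' : Sh) (e : s.Lf → s'.Lf) (k : ℕ) (L L' : List (Lv Ω)) : Prop :=
  ∀ h F, (∀ x, EgP fun p => F p x) → tF w s L h F =
    tF w s' L' h fun p x => F (fun b j => p (e b) (skp k j)) fun b => x (e b)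

theorem dbl_zero (hw : Wt w) (s : Sh) {l l' : Lv Ω} (H : l.m = l'.m) (L : List (Lv Ω)) :
    Dbl w (.step s) (.step (.step s)) id 0 (addLv l l' :: L) (l :: l' :: L) := fun h F hF => by
  have hF' := fun x => egP_re (hF x) id (skp 0)
  refine (tF_step_cons hw s _ L h hF).trans
    (Eq.trans ?_ (tF_step_cons hw (.step s) l (l' :: L) h hF').symm)
  refine (C.tE_addLv H (C.lp_X hw L) h ((lg_X hw L).int
    (eg_tF hw s L fun x => Gf.egP_cons (hF x) h) (addLv l l') h)).trans ?_
  rw [C.X_cons]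
  congr 1
  funext z
  refine Eq.trans ?_ (tF_step_cons hw s l' L z fun x => Gf.egP_cons (hF' x) h).symm
  congr 1
  funext z'
  congr 1
  funext p x
  congr 1
  funext b j
  cases j <;> rfl

theorem dbl_step (hw : Wt w) {s s' : Sh} {e : s.Lf → s'.Lf} {k : ℕ} {L L' : List (Lv Ω)}
    (HL : X w L = X w L') (H : Dbl w s s' e k L L') (l : Lv Ω) :
    Dbl w (.step s) (.step s') e (k + 1) (l :: L) (l :: L') := fun h F hF => by
  refine (tF_step_cons hw s l L h hF).trans
    (Eq.trans ?_ (tF_step_cons hw s' l L' h fun x => egP_re (hF _) e (skp (k + 1))).symm)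
  rw [HL]
  congr 1
  funext z
  refine (H z _ fun x => Gf.egP_cons (hF x) h).trans ?_
  congr 1
  funext p x
  congr 1
  funext b j
  cases j <;> rfl

theorem dbl_one (hw : Wt w) {l l' : Lv Ω} (H : l.m = l'.m) (L : List (Lv Ω)) :
    ∀ M : List (Lv Ω), Dbl w .one .one id M.length (M ++ addLv l l' :: L) (M ++ l :: l' :: L)
  | [] => fun h F hF => by
      have hF' := fun x => egP_re (hF x) id (skp 0)
      refine (tF_one_cons w _ L h F).trans ((dbl_zero hw .one H L h F hF).trans ?_)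
      refine Eq.trans ?_ (tF_one_cons w l (l' :: L) h _).symm
      refine (tF_step_cons hw (.step .one) l (l' :: L) h hF').trans
        (Eq.trans ?_ (tF_step_cons hw .one l (l' :: L) h hF').symm)
      congr 1
      funext z
      exact (tF_one_cons w l' L z _).symm
  | l₀ :: M => fun h F hF =>
      (tF_one_cons w l₀ _ h F).trans ((dbl_step hw (C.X_append_congr w (C.X_addLv hw H L) M)
        (dbl_one hw H L M) l₀ h F hF).trans (tF_one_cons w l₀ _ h _).symm)

theorem dbl_all (hw : Wt w) {l l' : Lv Ω} (H : l.m = l'.m) (L : List (Lv Ω)) :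
    ∀ (s : Sh) (M : List (Lv Ω)), Dbl w s (s.dbl M.length) (s.dE M.length) M.length
      (M ++ addLv l l' :: L) (M ++ l :: l' :: L)
  | .one, M => dbl_one hw H L M
  | .step s, [] => dbl_zero hw s H L
  | .step s, l₀ :: M =>
      dbl_step hw (C.X_append_congr w (C.X_addLv hw H L) M) (dbl_all hw H L s M) l₀
  | .split s t, M => fun h F hF => by
      refine (tF_split hw s t _ h hF).trans (Eq.trans ?_ (tF_split hw (s.dbl M.length)
        (t.dbl M.length) _ h fun x => egP_re (hF _) _ (skp M.length)).symm)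
      simp only [fun p x => dbl_all hw H L t M h (fun q y => F (Sum.elim p q) (Sum.elim x y))
        fun y => Gf.egP_inr (hF _) p]
      refine (dbl_all hw H L s M h _ fun x => ?_).trans ?_
      · refine fun ι _ p hp => eg_tX hw _ _ (H := fun _ => h) (fun _ => Tr.lg_const _)
          fun y => hF _ _ _ fun a j u => ?_
        cases a with
        | inl a => exact Tr.lg_comp (hp a j u) fun i => Tr.lg_coord (Sum.inl i)
        | inr a =>
          exact Tr.lg_stT _ _ _ _ (H := fun _ => h) (fun _ => Tr.lg_const _)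
            (fun i => Tr.lg_coord (Sum.inr i)) u
      · congr 1
        funext p x
        congr 1
        funext q y
        congr 1
        · funext b; cases b <;> rfl
        · funext b; cases b <;> rfl

end Tp

/-- **a level is two levels of the same tilt**: the step at depth `M.length` is doubled -/
theorem tF_dbl (hw : Wt w) (s : Sh) (M L : List (Lv Ω)) {l l₁ l₂ : Lv Ω} (h1 : l.m = l₁.m)
    (h2 : l₁.m = l₂.m) (hc : ∀ x y, l.cov x y = l₁.cov x y + l₂.cov x y) (h : Ω → ℝ)
    {F : Pa s.Lf Ω → (s.Lf → Ω) → ℝ} (hF : ∀ x, EgP fun p => F p x) :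
    tF w s (M ++ l :: L) h F = tF w (s.dbl M.length) (M ++ l₁ :: l₂ :: L) h fun p x =>
      F (fun b j => p (s.dE M.length b) (skp M.length j)) fun b => x (s.dE M.length b) := by
  refine (tF_same hw s (L' := M ++ addLv l₁ l₂ :: L) ?_ h F hF).trans
    (Tp.dbl_all hw h2 L s M h F hF)
  have r : ∀ N : List (Lv Ω), List.Forall₂ Same N N := fun N =>
    List.forall₂_same.2 fun _ _ => ⟨rfl, rfl⟩
  exact List.rel_append (r M) (.cons ⟨h1, by
    funext x y; exact (hc x y).trans (C.addLv_cov l₁ l₂ x y).symm⟩ (r L))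

end Crest.Agent.T156.Cas

end
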