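import Crest.Agent.T156.CaItp_16
import Crest.Agent.T156.CaTp_90

/-!
# Row 156 (helper22): the linear smart path

`IL` is a level with covariance `b + t k₁ + (1 - t) k₀` (tilt `b.m`).  Along `ipl L t` the
accumulated kernels `Sacc` are `iD L / 2`, independent of `t`.  `IL.site` is the one-site cavity
instance on `Ω × S`.
-/

set_option autoImplicit false
set_option linter.unusedSectionVars false

noncomputable section

namespace Crest.Agent.T156.Cas

open MeasureTheory Real Set Filter Topology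
open Crest.Agent.T157.E Crest.Agent.T157.Casc Crest.Agent.T157.SL
open Crest.Agent.T157.Casc.C (Same addLv coLv)

variable {Ω S : Type}

theorem Lin22.add_cov (l l' : Lv Ω) (x y : Ω) : (addLv l l').cov x y = l.cov x y + l'.cov x y :=
  Fintype.sum_sum_type (α₁ := l.ι) (α₂ := l'.ι) _

theorem Lin22.co_cov (ρ : Ω → S) (l : Lv S) (x y : Ω) : (coLv ρ l).cov x y = l.cov (ρ x) (ρ y) := rfl

/-- a level with covariance `b + t k₁ + (1 - t) k₀` -/
structure IL (Ω : Type) where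
  b : Lv Ω
  k1 : Lv Ω
  k0 : Lv Ω

namespace IL

/-- as a level with a derivative -/
def tl (c : IL Ω) : TL Ω :=
  ⟨c.b.ι ⊕ c.k1.ι ⊕ c.k0.ι,
    fun t x => Sum.elim (c.b.A x) (Sum.elim (fun i => √t * c.k1.A x i) fun i => √(1 - t) * c.k0.A x i),
    fun t x => Sum.elim 0 (Sum.elim (fun i => 1 / (2 * √t) * c.k1.A x i)
      fun i => -1 / (2 * √(1 - t)) * c.k0.A x i), c.b.m⟩

/-- the derivative of the covariance -/
def D (c : IL Ω) (x y : Ω) : ℝ := c.k1.cov x y - c.k0.cov x y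

theorem cov_at (c : IL Ω) {t : ℝ} (ht : t ∈ Icc (0 : ℝ) 1) (x y : Ω) :
    (c.tl.at t).cov x y = c.b.cov x y + t * c.k1.cov x y + (1 - t) * c.k0.cov x y := by
  show ∑ i : c.b.ι ⊕ c.k1.ι ⊕ c.k0.ι, _ = _
  simp only [Fintype.sum_sum_type, tl, Sum.elim_inl, Sum.elim_inr, Lv.cov, Finset.mul_sum, add_assoc]
  congr 2
  · exact Finset.sum_congr rfl fun i _ => by
      linear_combination (c.k1.A x i * c.k1.A y i) * mul_self_sqrt ht.1
  · exact Finset.sum_congr rfl fun i _ => by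
      linear_combination (c.k0.A x i * c.k0.A y i) * mul_self_sqrt (sub_nonneg.2 ht.2)

theorem S_eq (c : IL Ω) {t : ℝ} (ht : t ∈ Ioo (0 : ℝ) 1) (x y : Ω) :
    c.tl.S t x y = 1 / 2 * c.D x y := by
  have h1 := (sqrt_pos.2 ht.1).ne'
  have h2 := (sqrt_pos.2 (sub_pos.2 ht.2)).ne'
  show ∑ i : c.b.ι ⊕ c.k1.ι ⊕ c.k0.ι, _ = _
  rw [D, mul_sub, sub_eq_add_neg]
  simp only [Fintype.sum_sum_type, tl, Sum.elim_inl, Sum.elim_inr, Lv.cov, Finset.mul_sum,
    Pi.zero_apply, zero_mul, Finset.sum_const_zero, zero_add, ← Finset.sum_neg_distrib]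
  congr 1
  · exact Finset.sum_congr rfl fun i _ => by field_simp
  · exact Finset.sum_congr rfl fun i _ => by field_simp

theorem c1 (c : IL Ω) : c.tl.C1 (Ioo 0 1) := by
  have p1 : ∀ t ∈ Ioo (0 : ℝ) 1, 2 * √t ≠ 0 := fun t ht => by
    have := sqrt_pos.2 ht.1; positivity
  have p2 : ∀ t ∈ Ioo (0 : ℝ) 1, 2 * √(1 - t) ≠ 0 := fun t ht => by
    have := sqrt_pos.2 (sub_pos.2 ht.2); positivity
  refine ⟨fun t ht x i => ?_, fun x i => ?_⟩
  · rcases i with i | i | i
    · exact hasDerivAt_const _ _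
    · exact (hasDerivAt_sqrt ht.1.ne').mul_const _
    · exact (((hasDerivAt_id t).const_sub 1).sqrt (sub_pos.2 ht.2).ne').mul_const _
  · rcases i with i | i | i
    · exact continuousOn_const
    · exact (continuousOn_const.div (by fun_prop) p1).mul continuousOn_const
    · exact (continuousOn_const.div (by fun_prop) p2).mul continuousOn_const

theorem okC [Fintype Ω] (c : IL Ω) {K : Set ℝ} (hK : IsCompact K) : c.tl.OkC K :=
  TL.okC_of_compact hK fun x i => by
    rcases i with i | i | i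
    · exact continuousOn_const
    · show ContinuousOn (fun t => √t * c.k1.A x i) K
      fun_prop
    · show ContinuousOn (fun t => √(1 - t) * c.k0.A x i) K
      fun_prop

theorem D_symm (c : IL Ω) (x y : Ω) : c.D x y = c.D y x := by
  simp only [D, Lv.cov, mul_comm]

end IL

/-- the cascade at time `t` -/
def ipl (L : List (IL Ω)) (t : ℝ) : List (Lv Ω) := atL (L.map IL.tl) t

/-- derivative of the accumulated covariance -/
def iD (L : List (IL Ω)) (j : ℕ) (x y : Ω) : ℝ := ((L.take j).map fun c => c.D x y).sum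

theorem ipl_length (L : List (IL Ω)) (t : ℝ) : (ipl L t).length = L.length := by simp [ipl, atL]

theorem ipl_eq (L : List (IL Ω)) (t : ℝ) : ipl L t = L.map fun c => c.tl.at t := by
  simp [ipl, atL]

theorem ex_ipl (L : List (IL Ω)) (t : ℝ) (j : ℕ) : ex (ipl L t) j = ex (L.map IL.b) j := by
  simp only [ex, ipl_eq, List.getElem?_map]
  cases L[j]? <;> rfl

theorem dm_ipl (L : List (IL Ω)) (t m0 : ℝ) (j : ℕ) : dm (ipl L t) m0 j = dm (L.map IL.b) m0 j := by
  cases j <;> simp only [dm, exP, ex_ipl]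

theorem mono_ipl (t : ℝ) : ∀ (L : List (IL Ω)) (m0 : ℝ), Mono m0 (ipl L t) ↔ Mono m0 (L.map IL.b)
  | [], _ => Iff.rfl
  | c :: L, _ => and_congr Iff.rfl (mono_ipl t L c.b.m)

theorem iD_zero (L : List (IL Ω)) (x y : Ω) : iD L 0 x y = 0 := by simp [iD]

theorem iD_nil (j : ℕ) (x y : Ω) : iD ([] : List (IL Ω)) j x y = 0 := by simp [iD]

theorem iD_cons (c : IL Ω) (L : List (IL Ω)) (j : ℕ) (x y : Ω) :
    iD (c :: L) (j + 1) x y = c.D x y + iD L j x y := by simp [iD]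

theorem iD_symm (L : List (IL Ω)) (j : ℕ) (x y : Ω) : iD L j x y = iD L j y x := by
  simp only [iD, IL.D_symm _ x y]

theorem iD_eq (x y : Ω) : ∀ (L : List (IL Ω)) (j : ℕ),
    iD L j x y = cacc (L.map IL.k1) j x y - cacc (L.map IL.k0) j x y
  | [], _ => by simp [iD, cacc]
  | _ :: _, 0 => by simp [iD, cacc]
  | c :: L, j + 1 => by
    rw [iD_cons, iD_eq x y L j, List.map_cons, List.map_cons, Sd.cacc_cons, Sd.cacc_cons, IL.D]
    ring

theorem Sacc_ipl (L : List (IL Ω)) {t : ℝ} (ht : t ∈ Ioo (0 : ℝ) 1) :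
    Sacc (L.map IL.tl) t = fun j x y => 1 / 2 * iD L j x y := by
  funext j x y
  simp only [Sacc, iD, ← List.map_take, List.map_map, Function.comp_def, IL.S_eq _ ht,
    List.sum_map_mul_left]

theorem c1_ipl (L : List (IL Ω)) : ∀ l ∈ L.map IL.tl, l.C1 (Ioo 0 1) := fun l hl => by
  obtain ⟨c, -, rfl⟩ := List.mem_map.1 hl
  exact c.c1

variable [Fintype Ω] {w : Ω → ℝ}

theorem okC_ipl (L : List (IL Ω)) : ∀ l ∈ L.map IL.tl, l.OkC (Icc 0 1) := fun l hl => by
  obtain ⟨c, -, rfl⟩ := List.mem_map.1 hl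
  exact c.okC isCompact_Icc

omit [Fintype Ω] in
theorem Lin22.forall₂_map {α β γ : Type*} {R : β → γ → Prop} (f : α → β) (g : α → γ) :
    ∀ M : List α, (∀ a ∈ M, R (f a) (g a)) → List.Forall₂ R (M.map f) (M.map g)
  | [], _ => .nil
  | a :: M, H => .cons (H a (by simp)) (Lin22.forall₂_map f g M fun b hb => H b (by simp [hb]))

omit [Fintype Ω] in
/-- transport: any levels with the tilts and covariances of the path -/
theorem same_ipl (L : List (IL Ω)) {t : ℝ} (ht : t ∈ Icc (0 : ℝ) 1) (f : IL Ω → Lv Ω)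
    (H : ∀ c ∈ L, (f c).m = c.b.m ∧ ∀ x y,
      (f c).cov x y = c.b.cov x y + t * c.k1.cov x y + (1 - t) * c.k0.cov x y) :
    List.Forall₂ Same (ipl L t) (L.map f) := by
  rw [ipl_eq]
  exact Lin22.forall₂_map _ _ L fun c hc => ⟨(H c hc).1.symm, by
    funext x y; rw [c.cov_at ht, (H c hc).2]⟩

omit [Fintype Ω] in
theorem same_ipl_zero (L : List (IL Ω)) :
    List.Forall₂ Same (ipl L 0) (L.map fun c => addLv c.b c.k0) :=
  same_ipl L ⟨le_rfl, zero_le_one⟩ _ fun c _ => ⟨rfl, fun x y => by rw [Lin22.add_cov]; ring⟩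

omit [Fintype Ω] in
theorem same_ipl_one (L : List (IL Ω)) :
    List.Forall₂ Same (ipl L 1) (L.map fun c => addLv c.b c.k1) :=
  same_ipl L ⟨zero_le_one, le_rfl⟩ _ fun c _ => ⟨rfl, fun x y => by rw [Lin22.add_cov]; ring⟩

/-- the derivative of the value -/
def iX (w : Ω → ℝ) (L : List (IL Ω)) (h : Ω → ℝ) (t : ℝ) : ℝ :=
  (Pf w (ipl L t) h (fun x => iD L L.length x x) -
    ∑ j ∈ Finset.range (L.length + 1), dm (L.map IL.b) 0 j * pi2 w (ipl L t) j (iD L j) h) / 2

theorem hasDerivAt_X_ipl (hw : Wt w) (L : List (IL Ω)) (h : Ω → ℝ) {t : ℝ} (ht : t ∈ Ioo (0 : ℝ) 1) :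
    HasDerivAt (fun t => X w (ipl L t) h) (iX w L h t) t := by
  have hd := hasDerivAt_X hw isOpen_Ioo (c1_ipl L) ht (b := fun _ => h) (b' := 0)
    fun x => hasDerivAt_const t (h x)
  refine hd.congr_deriv ?_
  rw [DX, pair_eq_sum hw, Sacc_ipl L ht, List.length_map, iX, sub_div, Pf, Finset.sum_div,
    Finset.sum_div]
  show _ - ∑ j ∈ Finset.range ((ipl L t).length + 1), dm (ipl L t) 0 j * pi2 w (ipl L t) j _ h = _
  rw [ipl_length]
  congr 1
  · refine Finset.sum_congr rfl fun x _ => ?_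
    simp only [Pi.zero_apply, zero_add, ipl]
    ring
  · refine Finset.sum_congr rfl fun j _ => ?_
    rw [pi2_const_mul, dm_ipl]
    ring

theorem continuousOn_X_ipl (hw : Wt w) (L : List (IL Ω)) (h : Ω → ℝ) :
    ContinuousOn (fun t => X w (ipl L t) h) (Icc 0 1) :=
  continuousOn_X hw (okC_ipl L) (b := fun _ => h) fun _ => continuousOn_const

theorem hasDerivAt_tX_ipl (hw : Wt w) (s : Sh) (L : List (IL Ω)) (h : Ω → ℝ) (F : (s.Lf → Ω) → ℝ)
    {t : ℝ} (ht : t ∈ Ioo (0 : ℝ) 1) :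
    HasDerivAt (fun t => tX w s (ipl L t) h fun _ x => F x)
      (tX w s (ipl L t) h fun g x => F x * Th w s (ipl L t) (fun j x y => 1 / 2 * iD L j x y) h x
        (stT s (ipl L t) h g)) t := by
  have := hasDerivAt_tX_atL hw isOpen_Ioo s (c1_ipl L) h F ht
  rwa [Sacc_ipl L ht] at this

theorem continuousOn_tX_ipl (hw : Wt w) (s : Sh) (L : List (IL Ω)) (h : Ω → ℝ)
    (F : (s.Lf → Ω) → ℝ) : ContinuousOn (fun t => tX w s (ipl L t) h fun _ x => F x) (Icc 0 1) :=
  continuousOn_tX_atL hw s (okC_ipl L) h F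

/-! ### the one-site instance -/

/-- the level with covariance `z ⊗ k` -/
def mulLv (k : Lv Ω) (z : Lv S) : Lv (Ω × S) := ⟨k.ι × z.ι, fun x p => k.A x.1 p.1 * z.A x.2 p.2, k.m⟩

omit [Fintype Ω] in
theorem mulLv_cov (k : Lv Ω) (z : Lv S) (x y : Ω × S) :
    (mulLv k z).cov x y = k.cov x.1 y.1 * z.cov x.2 y.2 := by
  show ∑ p : k.ι × z.ι, _ = _
  rw [Fintype.sum_prod_type, Lv.cov, Lv.cov, Finset.sum_mul_sum]
  exact Finset.sum_congr rfl fun i _ => Finset.sum_congr rfl fun j _ => by simp only [mulLv]; ring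

omit [Fintype Ω] in
theorem Lin22.lv_cov (l : Lv Ω) {v : ℝ} (hv : 0 ≤ v) (m : ℝ) (x y : Ω) :
    (lv l v m).cov x y = v * l.cov x y := by
  simp only [Lv.cov, Finset.mul_sum]
  exact Finset.sum_congr rfl fun i _ => by
    linear_combination (l.A x i * l.A y i) * mul_self_sqrt hv

/-- data of one level of the cavity path: bulk level `b` (it carries the tilt), site field `f`,
row kernel `k`, and the variance `v` that replaces `k` at time `0` -/
structure CL (Ω S : Type) where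
  b : Lv Ω
  f : Lv S
  k : Lv Ω
  v : ℝ

/-- covariance `b + f + z (t k + (1 - t) v)` on `Ω × S` -/
def CL.il (z : Lv S) (c : CL Ω S) : IL (Ω × S) :=
  ⟨addLv (coLv Prod.fst c.b) (coLv Prod.snd c.f), mulLv c.k z, coLv Prod.snd (lv z c.v 0)⟩

/-- the level of the decoupled site: covariance `f + v z`, tilt of the bulk -/
def CL.sl (z : Lv S) (c : CL Ω S) : Lv S := addLv ⟨c.f.ι, c.f.A, c.b.m⟩ (lv z c.v 0)

/-- the cavity path -/
def cav (z : Lv S) (L : List (CL Ω S)) (t : ℝ) : List (Lv (Ω × S)) := ipl (L.map (CL.il z)) t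

/-- centred accumulated row kernel `U_j = ∑_{i<j} (k_i - v_i)` -/
def cU (L : List (CL Ω S)) (j : ℕ) (x y : Ω) : ℝ := ((L.take j).map fun c => c.k.cov x y - c.v).sum

omit [Fintype Ω] in
theorem CL.sl_cov (z : Lv S) {c : CL Ω S} (hv : 0 ≤ c.v) (x y : S) :
    (c.sl z).cov x y = c.f.cov x y + c.v * z.cov x y := by
  rw [CL.sl, Lin22.add_cov, Lin22.lv_cov z hv]
  rfl

omit [Fintype Ω] in
theorem CL.cov_at (z : Lv S) {c : CL Ω S} (hv : 0 ≤ c.v) {t : ℝ} (ht : t ∈ Icc (0 : ℝ) 1)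
    (x y : Ω × S) : ((c.il z).tl.at t).cov x y = c.b.cov x.1 y.1 + c.f.cov x.2 y.2 +
      z.cov x.2 y.2 * (t * c.k.cov x.1 y.1 + (1 - t) * c.v) := by
  rw [IL.cov_at _ ht]
  simp only [CL.il, Lin22.add_cov, Lin22.co_cov, mulLv_cov, Lin22.lv_cov z hv]
  ring

omit [Fintype Ω] in
theorem iD_cav (z : Lv S) {L : List (CL Ω S)} (hv : ∀ c ∈ L, 0 ≤ c.v) (j : ℕ) (x y : Ω × S) :
    iD (L.map (CL.il z)) j x y = cU L j x.1 y.1 * z.cov x.2 y.2 := by
  rw [iD, cU, ← List.map_take, List.map_map, ← List.sum_map_mul_right]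
  congr 1
  refine List.map_congr_left fun c hc => ?_
  simp only [Function.comp, IL.D, CL.il, Lin22.co_cov, mulLv_cov, Lin22.lv_cov z (hv c (List.mem_of_mem_take hc))]
  ring

omit [Fintype Ω] in
theorem cU_eq (x y : Ω) : ∀ (L : List (CL Ω S)) (j : ℕ),
    cU L j x y = cacc (L.map CL.k) j x y - ((L.take j).map CL.v).sum
  | [], _ => by simp [cU, cacc]
  | _ :: _, 0 => by simp [cU, cacc]
  | c :: L, j + 1 => by
    have := cU_eq x y L j
    simp only [cU, List.take_succ_cons, List.map_cons, List.sum_cons, Sd.cacc_cons] at this ⊢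
    rw [this]
    ring

omit [Fintype Ω] in
/-- at time `0` the site is decoupled -/
theorem same_cav_zero (z : Lv S) {L : List (CL Ω S)} (hv : ∀ c ∈ L, 0 ≤ c.v) :
    List.Forall₂ Same (cav z L 0)
      (L.map fun c => addLv (coLv Prod.fst c.b) (coLv Prod.snd (c.sl z))) := by
  rw [cav, ipl_eq, List.map_map]
  refine Lin22.forall₂_map _ _ L fun c hc => ⟨rfl, ?_⟩
  funext x y
  refine (CL.cov_at z (hv c hc) ⟨le_rfl, zero_le_one⟩ x y).trans ?_
  simp only [Lin22.add_cov, Lin22.co_cov, CL.sl_cov z (hv c hc)]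
  ring

omit [Fintype Ω] in
/-- transport at any time -/
theorem same_cav (z : Lv S) {L : List (CL Ω S)} (hv : ∀ c ∈ L, 0 ≤ c.v) {t : ℝ}
    (ht : t ∈ Icc (0 : ℝ) 1) (f : CL Ω S → Lv (Ω × S))
    (H : ∀ c ∈ L, (f c).m = c.b.m ∧ ∀ x y, (f c).cov x y = c.b.cov x.1 y.1 + c.f.cov x.2 y.2 +
      z.cov x.2 y.2 * (t * c.k.cov x.1 y.1 + (1 - t) * c.v)) :
    List.Forall₂ Same (cav z L t) (L.map f) := by
  rw [cav, ipl_eq, List.map_map]
  exact Lin22.forall₂_map _ _ L fun c hc => ⟨(H c hc).1.symm, by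
    funext x y; exact (CL.cov_at z (hv c hc) ht x y).trans ((H c hc).2 x y).symm⟩

end Crest.Agent.T156.Cas

end
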