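import Crest.Agent.T156.CaSpB_38
import Crest.Agent.T156.CaLin_22
import Crest.Agent.T156.CaLaw_45

/-!
# Row 156: the second variation of a cascade is symmetric (helper55)

`V1 M S` is the first variation of `X` for the kernels `S` (`S j + (S j)ᵀ` is the derivative of
the covariance of the first `j` levels), `V2 M S T` the variation of `V1 M S` for the kernels `T`.
`V2_symm`: it is symmetric.  `V2_prd`: at a factorised model, a site test in a mixed direction is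
the bulk mean of the direction times the one-site variation (the linearised equation is
self-adjoint).
-/

set_option autoImplicit false
set_option linter.all false

noncomputable section

namespace Crest.Agent.T156.Cas.Adj55

open MeasureTheory Real Set Filter Topology
open Crest.Agent.T157.E Crest.Agent.T157.Casc Crest.Agent.T157.SL
open Crest.Agent.T157.Casc.C (Same addLv coLv)

/-! ### Schwarz at a corner -/

theorem dd_tendsto {g g1 g12 : ℝ → ℝ → ℝ} {A : ℝ}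
    (c1 : ∀ t ∈ Icc (0 : ℝ) 1, ContinuousOn (fun s => g s t) (Icc 0 1))
    (d1 : ∀ t ∈ Icc (0 : ℝ) 1, ∀ s ∈ Ioo (0 : ℝ) 1, HasDerivAt (fun s => g s t) (g1 s t) s)
    (c12 : ∀ s ∈ Ioo (0 : ℝ) 1, ContinuousOn (fun t => g1 s t) (Icc 0 1))
    (d12 : ∀ s ∈ Ioo (0 : ℝ) 1, ∀ t ∈ Ioo (0 : ℝ) 1, HasDerivAt (fun t => g1 s t) (g12 s t) t)
    (lim : Tendsto (fun p : ℝ × ℝ => g12 p.1 p.2) (𝓝[Icc 0 1 ×ˢ Icc 0 1] (0, 0)) (𝓝 A)) :
    Tendsto (fun e => (g e e - g e 0 - g 0 e + g 0 0) / e ^ 2) (𝓝[Ioo 0 1] 0) (𝓝 A) := by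
  have key : ∀ e ∈ Ioo (0 : ℝ) 1, ∃ p : ℝ × ℝ, p.1 ∈ Ioo 0 e ∧ p.2 ∈ Ioo 0 e ∧
      g12 p.1 p.2 = (g e e - g e 0 - g 0 e + g 0 0) / e ^ 2 := by
    intro e he
    have h1 : Icc 0 e ⊆ Icc (0 : ℝ) 1 := Icc_subset_Icc_right he.2.le
    have h2 : Ioo 0 e ⊆ Ioo (0 : ℝ) 1 := Ioo_subset_Ioo_right he.2.le
    have m0 : (0 : ℝ) ∈ Icc (0 : ℝ) 1 := ⟨le_rfl, zero_le_one⟩
    have me : e ∈ Icc (0 : ℝ) 1 := Ioo_subset_Icc_self he
    obtain ⟨s, hs, e1⟩ := exists_hasDerivAt_eq_slope (fun s => g s e - g s 0)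
      (fun s => g1 s e - g1 s 0) he.1 (((c1 e me).sub (c1 0 m0)).mono h1)
      fun s hs => (d1 e me s (h2 hs)).sub (d1 0 m0 s (h2 hs))
    obtain ⟨t, ht, e2⟩ := exists_hasDerivAt_eq_slope (fun t => g1 s t) (g12 s) he.1
      ((c12 s (h2 hs)).mono h1) fun t ht => d12 s (h2 hs) t (h2 ht)
    refine ⟨(s, t), hs, ht, ?_⟩
    have := he.1.ne'
    simp only [e2, e1, sub_zero]
    field_simp
    ring
  choose! p hp1 hp2 hp3 using key
  have t0 : Tendsto (fun e : ℝ => e) (𝓝[Ioo 0 1] 0) (𝓝 0) := nhdsWithin_le_nhds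
  have ev : ∀ᶠ e in 𝓝[Ioo (0 : ℝ) 1] 0, e ∈ Ioo (0 : ℝ) 1 := self_mem_nhdsWithin
  have t1 : Tendsto (fun e => (p e).1) (𝓝[Ioo 0 1] 0) (𝓝 0) :=
    tendsto_of_tendsto_of_tendsto_of_le_of_le' tendsto_const_nhds t0
      (ev.mono fun e he => (hp1 e he).1.le) (ev.mono fun e he => (hp1 e he).2.le)
  have t2 : Tendsto (fun e => (p e).2) (𝓝[Ioo 0 1] 0) (𝓝 0) :=
    tendsto_of_tendsto_of_tendsto_of_le_of_le' tendsto_const_nhds t0
      (ev.mono fun e he => (hp2 e he).1.le) (ev.mono fun e he => (hp2 e he).2.le)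
  have t3 : Tendsto p (𝓝[Ioo 0 1] 0) (𝓝[Icc 0 1 ×ˢ Icc 0 1] (0, 0)) :=
    tendsto_nhdsWithin_iff.2 ⟨t1.prodMk_nhds t2, ev.mono fun e he =>
      ⟨⟨(hp1 e he).1.le, ((hp1 e he).2.trans he.2).le⟩,
        ⟨(hp2 e he).1.le, ((hp2 e he).2.trans he.2).le⟩⟩⟩
  exact (lim.comp t3).congr' (ev.mono fun e he => hp3 e he)

/-! ### the graft formula for an abstract functional -/

variable {Ω : Type}

/-- functionals of leaf functions -/
abbrev Fn (Ω : Type) : Type := (s : Sh) → ((s.Lf → Ω) → ℝ) → ℝ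

/-- `dT` with the tree expectation replaced by `E` -/
def dG (K : ℕ) (c : (s : Sh) → s.Lf → ℕ → ℝ) (d : ℕ → ℕ → ℝ) (E : Fn Ω) (s : Sh)
    (S : ℕ → Ω → Ω → ℝ) (F : (s.Lf → Ω) → ℝ) : ℝ :=
  ∑ a, ∑ b, E s (fun x => F x * S (s.shr a b K) (x a) (x b)) -
  ∑ a, ∑ j ∈ Finset.range (K + 1), c s a j *
    (∑ b, E (s.graft a j) (fun x => F (fun c => x (s.emb a j c)) *
        S (s.shr b a j) (x (s.emb a j b)) (x (s.nw a j))) +
      ∑ b, E (s.graft a j) (fun x => F (fun c => x (s.emb a j c)) *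
        S (s.shr a b j) (x (s.nw a j)) (x (s.emb a j b))) +
      E (s.graft a j) fun x => F (fun c => x (s.emb a j c)) *
        S K (x (s.nw a j)) (x (s.nw a j))) +
  ∑ a, ∑ j ∈ Finset.range (K + 1), c s a j *
    (∑ b, ∑ k ∈ Finset.range (K + 1), c s b k *
      E ((s.graft b k).graft (s.emb b k a) j) (fun x =>
        F (fun c => x ((s.graft b k).emb (s.emb b k a) j (s.emb b k c))) *
          S (s.shr a b (min j k)) (x ((s.graft b k).nw (s.emb b k a) j))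
            (x ((s.graft b k).emb (s.emb b k a) j (s.nw b k)))) +
    ∑ i ∈ Finset.range (K - j + 1), d j i *
      E ((s.graft a j).graft (s.nw a j) (i + j)) fun x =>
        F (fun b => x ((s.graft a j).emb (s.nw a j) (i + j) (s.emb a j b))) *
          S (i + j) (x ((s.graft a j).emb (s.nw a j) (i + j) (s.nw a j)))
            (x ((s.graft a j).nw (s.nw a j) (i + j))))

/-- the first variation with the tree expectation replaced by `E` -/
def vG (K : ℕ) (d : ℕ → ℝ) (E : Fn Ω) (S : ℕ → Ω → Ω → ℝ) : ℝ :=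
  E .one (fun x => S K (x ()) (x ())) -
    ∑ j ∈ Finset.range (K + 1), d j * E (Sh.two j) fun x => S j (x (Sh.twoL j)) (x (Sh.twoR j))

theorem cont_dG (K : ℕ) (c : (s : Sh) → s.Lf → ℕ → ℝ) (d : ℕ → ℕ → ℝ) (s : Sh)
    (S : ℕ → Ω → Ω → ℝ) (F : (s.Lf → Ω) → ℝ) : Continuous fun E : Fn Ω => dG K c d E s S F := by
  unfold dG
  fun_prop

theorem cont_vG (K : ℕ) (d : ℕ → ℝ) (S : ℕ → Ω → Ω → ℝ) :
    Continuous fun E : Fn Ω => vG K d E S := by
  unfold vG
  fun_prop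

theorem shr_le : ∀ (s : Sh) (a b : s.Lf) (j : ℕ), s.shr a b j ≤ j
  | .one, _, _, _ => le_rfl
  | .step _, _, _, 0 => le_rfl
  | .step s, a, b, j + 1 => Nat.succ_le_succ (shr_le s a b j)
  | .split s _, .inl a, .inl b, j => shr_le s a b j
  | .split _ t, .inr a, .inr b, j => shr_le t a b j
  | .split _ _, .inl _, .inr _, _ => Nat.zero_le _
  | .split _ _, .inr _, .inl _, _ => Nat.zero_le _

theorem dG_congr {K : ℕ} (c : (s : Sh) → s.Lf → ℕ → ℝ) (d : ℕ → ℕ → ℝ) (E : Fn Ω) (s : Sh)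
    {S S' : ℕ → Ω → Ω → ℝ} (H : ∀ j ≤ K, S j = S' j) (F : (s.Lf → Ω) → ℝ) :
    dG K c d E s S F = dG K c d E s S' F := by
  have h1 : ∀ a b j, j ≤ K → S (s.shr a b j) = S' (s.shr a b j) := fun a b j hj =>
    H _ ((shr_le s a b j).trans hj)
  unfold dG
  congr 1
  · congr 1
    · simp only [h1 _ _ K le_rfl]
    · refine Finset.sum_congr rfl fun a _ => Finset.sum_congr rfl fun j hj => ?_
      simp only [h1 _ _ j (Nat.lt_succ_iff.1 (Finset.mem_range.1 hj)), H K le_rfl]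
  · refine Finset.sum_congr rfl fun a _ => Finset.sum_congr rfl fun j hj => ?_
    have hj' := Nat.lt_succ_iff.1 (Finset.mem_range.1 hj)
    simp only [fun b k => h1 a b (min j k) ((min_le_left _ _).trans hj')]
    congr 2
    refine Finset.sum_congr rfl fun i hi => ?_
    rw [H (i + j) (by have := Finset.mem_range.1 hi; omega)]

theorem vG_congr {K : ℕ} (d : ℕ → ℝ) (E : Fn Ω) {S S' : ℕ → Ω → Ω → ℝ}
    (H : ∀ j ≤ K, S j = S' j) : vG K d E S = vG K d E S' := by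
  unfold vG
  rw [H K le_rfl]
  congr 1
  refine Finset.sum_congr rfl fun j hj => ?_
  rw [H j (Nat.lt_succ_iff.1 (Finset.mem_range.1 hj))]

/-- linear functionals -/
def Lin (E : Fn Ω) : Prop := ∀ (s : Sh) (a b : ℝ) (F G : (s.Lf → Ω) → ℝ),
  E s (fun x => a * F x + b * G x) = a * E s F + b * E s G

theorem dG_linS {E : Fn Ω} (hE : Lin E) (K : ℕ) (c : (s : Sh) → s.Lf → ℕ → ℝ) (d : ℕ → ℕ → ℝ)
    (s : Sh) (a b : ℝ) (S T : ℕ → Ω → Ω → ℝ) (F : (s.Lf → Ω) → ℝ) :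
    dG K c d E s (fun j x y => a * S j x y + b * T j x y) F =
      a * dG K c d E s S F + b * dG K c d E s T F := by
  have e : ∀ u v z : ℝ, u * (a * v + b * z) = a * (u * v) + b * (u * z) := fun u v z => by ring
  simp only [dG, e, hE _ a b, mul_add, mul_sub, Finset.sum_add_distrib, Finset.mul_sum,
    mul_left_comm _ a, mul_left_comm _ b]
  ring

theorem dG_lin {E : Fn Ω} (hE : Lin E) (K : ℕ) (c : (s : Sh) → s.Lf → ℕ → ℝ) (d : ℕ → ℕ → ℝ)
    (S : ℕ → Ω → Ω → ℝ) : Lin fun s F => dG K c d E s S F := fun s a b F G => by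
  have e : ∀ u v z : ℝ, (a * v + b * z) * u = a * (v * u) + b * (z * u) := fun u v z => by ring
  simp only [dG, e, hE _ a b, mul_add, mul_sub, Finset.sum_add_distrib, Finset.mul_sum,
    mul_left_comm _ a, mul_left_comm _ b]
  ring

theorem vG_linS {E : Fn Ω} (hE : Lin E) (K : ℕ) (d : ℕ → ℝ) (a b : ℝ) (S T : ℕ → Ω → Ω → ℝ) :
    vG K d E (fun j x y => a * S j x y + b * T j x y) = a * vG K d E S + b * vG K d E T := by
  simp only [vG, hE _ a b, mul_add, mul_sub, Finset.sum_add_distrib, Finset.mul_sum,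
    mul_left_comm _ a, mul_left_comm _ b]
  ring

theorem vG_linE (K : ℕ) (d : ℕ → ℝ) (a b : ℝ) (E E' : Fn Ω) (S : ℕ → Ω → Ω → ℝ) :
    vG K d (fun s F => a * E s F + b * E' s F) S = a * vG K d E S + b * vG K d E' S := by
  simp only [vG, mul_add, mul_sub, Finset.sum_add_distrib, Finset.mul_sum,
    mul_left_comm _ a, mul_left_comm _ b]
  ring

theorem hasDerivAt_vG (K : ℕ) (d : ℕ → ℝ) {E : ℝ → Fn Ω} {E' : Fn Ω} {u : ℝ}
    (H : ∀ s F, HasDerivAt (fun t => E t s F) (E' s F) u) (S : ℕ → Ω → Ω → ℝ) :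
    HasDerivAt (fun t => vG K d (E t) S) (vG K d E' S) u :=
  (H _ _).sub (HasDerivAt.fun_sum fun j _ => (H _ _).const_mul _)

/-! ### lists with the same tilts -/

/-- same tilts -/
def ST (M M' : List (Lv Ω)) : Prop := List.Forall₂ (fun l l' : Lv Ω => l.m = l'.m) M M'

theorem ST.ex {M M' : List (Lv Ω)} (H : ST M M') : ∀ j, ex M j = ex M' j := by
  induction H with
  | nil => exact fun _ => rfl
  | cons h _ ih => exact fun j => by cases j; exacts [h, ih _]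

theorem ST.dm {M M' : List (Lv Ω)} (H : ST M M') (m0 : ℝ) (j : ℕ) : dm M m0 j = dm M' m0 j := by
  cases j <;> simp only [T157.Casc.dm, exP, H.ex]

theorem ST.cf : ∀ (s : Sh) {M M' : List (Lv Ω)}, ST M M' → ∀ (a : s.Lf) (j : ℕ),
    cf s M a j = cf s M' a j
  | .one, _, _, _, _, 0 => rfl
  | .one, _, _, H, _, j + 1 => H.dm 0 (j + 1)
  | .step _, _, _, .nil, _, _ => rfl
  | .step _, _, _, .cons _ _, _, 0 => rfl
  | .step s, _, _, .cons h H, a, j + 1 => by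
      refine (Sp38.cf_step s _ _ a j).trans (Eq.trans ?_ (Sp38.cf_step s _ _ a j).symm)
      rw [ST.cf s H a j, ST.ex H, h]
  | .split s _, _, _, H, .inl a, j => ST.cf s H a j
  | .split _ s, _, _, H, .inr a, j => ST.cf s H a j

theorem ST.cw {M M' : List (Lv Ω)} (H : ST M M') (s : Sh) (a : s.Lf) (j : ℕ) :
    cw s M a j = cw s M' a j := by rw [Cas.cw, Cas.cw, ST.cf s H, H.ex]

theorem ST.of_same {M M' : List (Lv Ω)} (H : List.Forall₂ Same M M') : ST M M' :=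
  H.imp fun _ _ h => h.1

theorem ST.map {α : Type*} (Z : List α) {f g : α → Lv Ω} (H : ∀ z, (f z).m = (g z).m) :
    ST (Z.map f) (Z.map g) := Lin22.forall₂_map f g Z fun z _ => H z

theorem ST.atL (L : List (TL Ω)) (t u : ℝ) : ST (atL L t) (atL L u) := ST.map L fun _ => rfl

/-- the graft formula with the weights of `M` -/
def dW (M : List (Lv Ω)) (E : Fn Ω) (S : ℕ → Ω → Ω → ℝ) : Fn Ω := fun s F =>
  dG M.length (fun s => cw s M) (fun j => dm (M.drop j) 0) E s S F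

/-- the first variation with the weights of `M` -/
def vW (M : List (Lv Ω)) (E : Fn Ω) (S : ℕ → Ω → Ω → ℝ) : ℝ := vG M.length (dm M 0) E S

theorem ST.dW {M M' : List (Lv Ω)} (H : ST M M') : dW M = dW M' := by
  funext E S s F
  have e1 : (fun s => Cas.cw s M) = fun s => Cas.cw s M' := by
    funext s a j; exact H.cw s a j
  have e2 : (fun j => T157.Casc.dm (M.drop j) 0) = fun j => T157.Casc.dm (M'.drop j) 0 := by
    funext j i; exact ST.dm (List.forall₂_drop j H) 0 i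
  rw [Adj55.dW, Adj55.dW, e1, e2, H.length_eq]

theorem ST.vW {M M' : List (Lv Ω)} (H : ST M M') : vW M = vW M' := by
  funext E S
  rw [Adj55.vW, Adj55.vW, H.length_eq, funext (H.dm 0)]

theorem cont_dW (M : List (Lv Ω)) (S : ℕ → Ω → Ω → ℝ) (s : Sh) (F : (s.Lf → Ω) → ℝ) :
    Continuous fun E : Fn Ω => dW M E S s F := cont_dG _ _ _ s S F

theorem cont_vW (M : List (Lv Ω)) (S : ℕ → Ω → Ω → ℝ) :
    Continuous fun E : Fn Ω => vW M E S := cont_vG _ _ S

theorem dW_congr (M : List (Lv Ω)) (E : Fn Ω) (s : Sh) {S S' : ℕ → Ω → Ω → ℝ}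
    (H : ∀ j ≤ M.length, S j = S' j) (F : (s.Lf → Ω) → ℝ) : dW M E S s F = dW M E S' s F :=
  dG_congr _ _ E s H F

theorem dW_linS {E : Fn Ω} (hE : Lin E) (M : List (Lv Ω)) (s : Sh) (a b : ℝ)
    (S T : ℕ → Ω → Ω → ℝ) (F : (s.Lf → Ω) → ℝ) :
    dW M E (fun j x y => a * S j x y + b * T j x y) s F = a * dW M E S s F + b * dW M E T s F :=
  dG_linS hE _ _ _ s a b S T F

theorem dW_lin {E : Fn Ω} (hE : Lin E) (M : List (Lv Ω)) (S : ℕ → Ω → Ω → ℝ) : Lin (dW M E S) :=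
  dG_lin hE _ _ _ S

theorem hasDerivAt_vW (M : List (Lv Ω)) {E : ℝ → Fn Ω} {E' : Fn Ω} {u : ℝ}
    (H : ∀ s F, HasDerivAt (fun t => E t s F) (E' s F) u) (S : ℕ → Ω → Ω → ℝ) :
    HasDerivAt (fun t => vW M (E t) S) (vW M E' S) u := hasDerivAt_vG _ _ H S

theorem der_dW (M : List (Lv Ω)) {E : ℝ → Fn Ω} {E' : Fn Ω} {u : ℝ} {I : Set ℝ}
    (H : ∀ s F, HasDerivWithinAt (fun t => E t s F) (E' s F) I u) (S : ℕ → Ω → Ω → ℝ) (s : Sh)
    (F : (s.Lf → Ω) → ℝ) : HasDerivWithinAt (fun t => dW M (E t) S s F) (dW M E' S s F) I u := by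
  unfold dW dG
  refine ((HasDerivWithinAt.fun_sum fun _ _ => HasDerivWithinAt.fun_sum fun _ _ => H _ _).fun_sub
    (HasDerivWithinAt.fun_sum fun _ _ => HasDerivWithinAt.fun_sum fun _ _ =>
      HasDerivWithinAt.const_mul _ ?_)).fun_add
    (HasDerivWithinAt.fun_sum fun _ _ => HasDerivWithinAt.fun_sum fun _ _ =>
      HasDerivWithinAt.const_mul _ ?_)
  · exact ((HasDerivWithinAt.fun_sum fun _ _ => H _ _).fun_add
      (HasDerivWithinAt.fun_sum fun _ _ => H _ _)).fun_add (H _ _)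
  · exact (HasDerivWithinAt.fun_sum fun _ _ => HasDerivWithinAt.fun_sum fun _ _ =>
      (H _ _).const_mul _).fun_add (HasDerivWithinAt.fun_sum fun _ _ => (H _ _).const_mul _)

theorem hasDerivAt_dW (M : List (Lv Ω)) {E : ℝ → Fn Ω} {E' : Fn Ω} {u : ℝ}
    (H : ∀ s F, HasDerivAt (fun t => E t s F) (E' s F) u) (S : ℕ → Ω → Ω → ℝ) (s : Sh)
    (F : (s.Lf → Ω) → ℝ) : HasDerivAt (fun t => dW M (E t) S s F) (dW M E' S s F) u :=
  hasDerivWithinAt_univ.1 (der_dW M (fun s F => (H s F).hasDerivWithinAt) S s F)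

theorem dW_linE (M : List (Lv Ω)) (a b : ℝ) (E E' : Fn Ω) (S : ℕ → Ω → Ω → ℝ) :
    dW M (fun s F => a * E s F + b * E' s F) S = fun s F => a * dW M E S s F + b * dW M E' S s F := by
  funext s F
  simp only [dW, dG, mul_add, mul_sub, Finset.sum_add_distrib, Finset.mul_sum,
    mul_left_comm _ a, mul_left_comm _ b]
  ring

theorem cont_dW' (M : List (Lv Ω)) (S : ℕ → Ω → Ω → ℝ) : Continuous fun E : Fn Ω => dW M E S :=
  continuous_pi fun s => continuous_pi fun F => cont_dW M S s F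

variable [Fintype Ω] {w : Ω → ℝ}

/-- the tree expectations of a model -/
def tE' (w : Ω → ℝ) (M : List (Lv Ω)) (h : Ω → ℝ) : Fn Ω := fun s F => TE w s M h F

theorem dT_eq (s : Sh) (M : List (Lv Ω)) (h : Ω → ℝ) (S : ℕ → Ω → Ω → ℝ)
    (F : (s.Lf → Ω) → ℝ) : dT w s M h S F = dW M (tE' w M h) S s F := rfl

theorem lin_tE' (hw : Wt w) (M : List (Lv Ω)) (h : Ω → ℝ) : Lin (tE' w M h) := fun s a b F G => by
  simp only [tE', Law.TE_add hw, Law.TE_const_mul hw]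

theorem tE'_same (hw : Wt w) {M M' : List (Lv Ω)} (H : List.Forall₂ Same M M') (h : Ω → ℝ) :
    tE' w M h = tE' w M' h := by
  funext s F
  exact Law.TE_same hw s H F h

theorem tE'_mem (hw : Wt w) (M : List (Lv Ω)) (h : Ω → ℝ) :
    tE' w M h ∈ Icc (fun s F => -∑ x, |F x| : Fn Ω) fun s F => ∑ x, |F x| := by
  have : ∀ s F, |tE' w M h s F| ≤ ∑ x, |F x| := fun s F =>
    (Law.abs_TE_le hw s M h F).trans ((Law.TE_mono hw s M h fun x =>
      Finset.single_le_sum (f := fun x => |F x|) (fun _ _ => abs_nonneg _)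
        (Finset.mem_univ x)).trans_eq (Law.TE_const hw s M h _))
  exact ⟨fun s F => (abs_le.1 (this s F)).1, fun s F => (abs_le.1 (this s F)).2⟩

theorem dT_same (hw : Wt w) {M M' : List (Lv Ω)} (H : List.Forall₂ Same M M') (s : Sh)
    (h : Ω → ℝ) (S : ℕ → Ω → Ω → ℝ) (F : (s.Lf → Ω) → ℝ) : dT w s M h S F = dT w s M' h S F := by
  rw [dT_eq, dT_eq, (ST.of_same H).dW, tE'_same hw H]

theorem dT_congr (s : Sh) (M : List (Lv Ω)) (h : Ω → ℝ) {S S' : ℕ → Ω → Ω → ℝ}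
    (H : ∀ j ≤ M.length, S j = S' j) (F : (s.Lf → Ω) → ℝ) : dT w s M h S F = dT w s M h S' F :=
  by rw [dT_eq, dT_eq]; exact dW_congr M _ s H F

theorem dT_linS (hw : Wt w) (s : Sh) (M : List (Lv Ω)) (h : Ω → ℝ) (a b : ℝ)
    (S T : ℕ → Ω → Ω → ℝ) (F : (s.Lf → Ω) → ℝ) :
    dT w s M h (fun j x y => a * S j x y + b * T j x y) F =
      a * dT w s M h S F + b * dT w s M h T F := by
  rw [dT_eq, dT_eq, dT_eq]
  exact dW_linS (lin_tE' hw M h) M s a b S T F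

theorem dT_linF (hw : Wt w) (s : Sh) (M : List (Lv Ω)) (h : Ω → ℝ) (a b : ℝ)
    (S : ℕ → Ω → Ω → ℝ) (F G : (s.Lf → Ω) → ℝ) :
    dT w s M h S (fun x => a * F x + b * G x) = a * dT w s M h S F + b * dT w s M h S G := by
  rw [dT_eq, dT_eq, dT_eq]
  exact dW_lin (lin_tE' hw M h) M S s a b F G

/-- **first variation** of `X` -/
def V1 (w : Ω → ℝ) (M : List (Lv Ω)) (h : Ω → ℝ) (S : ℕ → Ω → Ω → ℝ) : ℝ := vW M (tE' w M h) S

/-- **second variation**: the variation of `V1 M S` for the kernels `T` -/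
def V2 (w : Ω → ℝ) (M : List (Lv Ω)) (h : Ω → ℝ) (S T : ℕ → Ω → Ω → ℝ) : ℝ :=
  dT w .one M h T (fun x => S M.length (x ()) (x ())) -
    ∑ j ∈ Finset.range (M.length + 1), dm M 0 j *
      dT w (Sh.two j) M h T fun x => S j (x (Sh.twoL j)) (x (Sh.twoR j))

theorem V2_eq (M : List (Lv Ω)) (h : Ω → ℝ) (S T : ℕ → Ω → Ω → ℝ) :
    V2 w M h S T = vW M (dW M (tE' w M h) T) S := rfl

theorem TE_two' (hw : Wt w) (K : Ω → Ω → ℝ) : ∀ (j : ℕ) (L : List (Lv Ω)) (h : Ω → ℝ),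
    TE w (Sh.two j) L h (fun x => K (x (Sh.twoL j)) (x (Sh.twoR j))) = pi2 w L j K h
  | 0, L, h => by
    refine (Law.TE_split hw .one .one L h _).trans ((Law.TE_one hw L h _).trans ?_)
    have e' : ∀ x : Ω, (TE w .one L h fun x' => K x (x' ())) = Pf w L h (K x) := fun x =>
      Law.TE_one hw L h _
    rw [pi2_zero]
    refine (congrArg (Pf w L h) (funext e')).trans ?_
    simp only [Pf, qf, Finset.mul_sum, mul_assoc]
  | j + 1, [], h => by
    refine (Law.TE_step_nil w (Sh.two j) h _).trans ((TE_two' hw K j [] h).trans ?_)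
    simp [pi2]
  | j + 1, l :: L, h => by
    refine (Law.TE_step hw (Sh.two j) l L h _).trans ?_
    rw [pi2_cons]
    exact congrArg (fun Φ => tE l (X w L) Φ h) (funext fun z => TE_two' hw K j L z)

theorem V1_eq (hw : Wt w) (M : List (Lv Ω)) (h : Ω → ℝ) (S : ℕ → Ω → Ω → ℝ) :
    V1 w M h S = Pf w M h (fun x => S M.length x x) -
      ∑ j ∈ Finset.range (M.length + 1), dm M 0 j * pi2 w M j (S j) h := by
  simp only [V1, vW, vG, tE', TE_two' hw]
  rw [Law.TE_one hw]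

theorem hasDerivAt_X_V1 (hw : Wt w) {I : Set ℝ} (hI : IsOpen I) {L : List (TL Ω)}
    (hL : ∀ l ∈ L, l.C1 I) {u : ℝ} (hu : u ∈ I) (h : Ω → ℝ) :
    HasDerivAt (fun t => X w (atL L t) h) (V1 w (atL L u) h (Sacc L u)) u := by
  refine (hasDerivAt_X hw hI hL hu (b := fun _ => h) (b' := 0)
    fun x => hasDerivAt_const u (h x)).congr_deriv ?_
  rw [DX, pair_eq_sum hw, V1_eq hw, Sp38.len_at, Pf]
  simp

/-- along any path the derivative of the first variation is the second variation -/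
theorem hasDerivAt_V1 (hw : Wt w) {I : Set ℝ} (hI : IsOpen I) {L : List (TL Ω)}
    (hL : ∀ l ∈ L, l.C1 I) {u : ℝ} (hu : u ∈ I) (h : Ω → ℝ) (S : ℕ → Ω → Ω → ℝ) :
    HasDerivAt (fun t => V1 w (atL L t) h S) (V2 w (atL L u) h S (Sacc L u)) u := by
  simp only [V1, fun t => (ST.atL L t u).vW]
  exact hasDerivAt_vG _ _ (E := fun t => tE' w (atL L t) h)
    (E' := dW (atL L u) (tE' w (atL L u) h) (Sacc L u))
    (fun s F => hasDerivAt_tX_t hw hI hL hu s h F) S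

/-! ### adding variance -/

/-- the levels `y.1 + u y.2` -/
def N1 (Y : List (Lv Ω × Lv Ω)) (u : ℝ) : List (Lv Ω) := Y.map fun y => addLv y.1 (lv y.2 u 0)

/-- half of the accumulated covariance -/
def hc (P : List (Lv Ω)) (j : ℕ) (x y : Ω) : ℝ := 1 / 2 * cacc P j x y

/-- as a linear path -/
def il (y : Lv Ω × Lv Ω) : IL Ω := ⟨y.1, y.2, lv y.2 0 0⟩

omit [Fintype Ω] in
theorem same_N1 (Y : List (Lv Ω × Lv Ω)) {u : ℝ} (hu : u ∈ Icc (0 : ℝ) 1) :
    List.Forall₂ Same (ipl (Y.map il) u) (N1 Y u) := by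
  rw [ipl_eq, List.map_map]
  refine Lin22.forall₂_map _ _ Y fun y _ => ⟨rfl, ?_⟩
  funext a b
  refine (IL.cov_at _ hu a b).trans ?_
  simp only [il, Lin22.add_cov, Lin22.lv_cov _ hu.1, Lin22.lv_cov _ le_rfl]
  ring

omit [Fintype Ω] in
theorem Sacc_il (Y : List (Lv Ω × Lv Ω)) {u : ℝ} (hu : u ∈ Ioo (0 : ℝ) 1) :
    Sacc ((Y.map il).map IL.tl) u = hc (Y.map Prod.snd) := by
  rw [Sacc_ipl _ hu]
  funext j x y
  simp only [hc, iD, cacc, ← List.map_take, List.map_map, Function.comp_def, IL.D, il,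
    Lin22.lv_cov _ le_rfl, zero_mul, sub_zero]

omit [Fintype Ω] in
theorem same_N1_zero (Y : List (Lv Ω × Lv Ω)) : List.Forall₂ Same (N1 Y 0) (Y.map Prod.fst) :=
  Lin22.forall₂_map _ _ Y fun y _ => ⟨rfl, by
    funext a b; simp only [Lin22.add_cov, Lin22.lv_cov _ le_rfl, zero_mul, add_zero]⟩

omit [Fintype Ω] in
theorem st_N1 (Y : List (Lv Ω × Lv Ω)) (u : ℝ) : ST (N1 Y u) (Y.map Prod.fst) :=
  ST.map Y fun _ => rfl

theorem cont_X_N1 (hw : Wt w) (Y : List (Lv Ω × Lv Ω)) (h : Ω → ℝ) :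
    ContinuousOn (fun u => X w (N1 Y u) h) (Icc 0 1) :=
  (continuousOn_X_ipl hw (Y.map il) h).congr fun u hu =>
    (congrFun (C.X_same hw (same_N1 Y hu)) h).symm

theorem cont_tE'_N1 (hw : Wt w) (Y : List (Lv Ω × Lv Ω)) (h : Ω → ℝ) :
    ContinuousOn (fun u => tE' w (N1 Y u) h) (Icc 0 1) :=
  continuousOn_pi.2 fun s => continuousOn_pi.2 fun F =>
    (continuousOn_tX_ipl hw s (Y.map il) h F).congr fun u hu =>
      (Law.TE_same hw s (same_N1 Y hu) F h).symm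

theorem der_X_N1 (hw : Wt w) (Y : List (Lv Ω × Lv Ω)) (h : Ω → ℝ) {u : ℝ}
    (hu : u ∈ Ioo (0 : ℝ) 1) : HasDerivAt (fun u => X w (N1 Y u) h)
      (vW (Y.map Prod.fst) (tE' w (N1 Y u) h) (hc (Y.map Prod.snd))) u := by
  have H := same_N1 Y (Ioo_subset_Icc_self hu)
  have := hasDerivAt_X_V1 hw isOpen_Ioo (c1_ipl (Y.map il)) hu h
  rw [Sacc_il Y hu, V1] at this
  change HasDerivAt (fun t => X w (ipl _ t) h) (vW (ipl _ u) (tE' w (ipl _ u) h) _) u at this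
  rw [(ST.of_same H).vW, tE'_same hw H, (st_N1 Y u).vW] at this
  refine this.congr_of_eventuallyEq ?_
  filter_upwards [Icc_mem_nhds hu.1 hu.2] with t ht
  rw [C.X_same hw (same_N1 Y ht)]

theorem der_tE'_N1 (hw : Wt w) (Y : List (Lv Ω × Lv Ω)) (h : Ω → ℝ) {u : ℝ}
    (hu : u ∈ Ioo (0 : ℝ) 1) (s : Sh) (F : (s.Lf → Ω) → ℝ) :
    HasDerivAt (fun u => tE' w (N1 Y u) h s F)
      (dW (Y.map Prod.fst) (tE' w (N1 Y u) h) (hc (Y.map Prod.snd)) s F) u := by
  have H := same_N1 Y (Ioo_subset_Icc_self hu)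
  have := hasDerivAt_tX_t hw isOpen_Ioo (c1_ipl (Y.map il)) hu s h F
  rw [Sacc_il Y hu, dT_eq] at this
  change HasDerivAt (fun t => TE w s (ipl _ t) h F) (dW (ipl _ u) (tE' w (ipl _ u) h) _ s F) u
    at this
  rw [(ST.of_same H).dW, tE'_same hw H, (st_N1 Y u).dW] at this
  refine this.congr_of_eventuallyEq ?_
  filter_upwards [Icc_mem_nhds hu.1 hu.2] with t ht
  exact (Law.TE_same hw s (same_N1 Y ht) F h).symm

/-- **the right derivative at zero added variance** -/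
theorem der_tE'_zero (hw : Wt w) (Y : List (Lv Ω × Lv Ω)) (h : Ω → ℝ) (s : Sh)
    (F : (s.Lf → Ω) → ℝ) : HasDerivWithinAt (fun u => TE w s (N1 Y u) h F)
      (dT w s (Y.map Prod.fst) h (hc (Y.map Prod.snd)) F) (Ici 0) 0 := by
  have m0 : (0 : ℝ) ∈ Icc (0 : ℝ) 1 := ⟨le_rfl, zero_le_one⟩
  have hI : Ioo (0 : ℝ) 1 ∈ 𝓝[>] (0 : ℝ) := Ioo_mem_nhdsGT zero_lt_one
  have c0 := (cont_tE'_N1 hw Y h 0 m0).mono Ioo_subset_Icc_self
  refine hasDerivWithinAt_Ici_of_tendsto_deriv (s := Ioo 0 1)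
    (fun u hu => (der_tE'_N1 hw Y h hu s F).differentiableAt.differentiableWithinAt)
    (continuousWithinAt_pi.1 (continuousWithinAt_pi.1 c0 s) F) hI ?_
  have t1 := ((cont_dW (Y.map Prod.fst) (hc (Y.map Prod.snd)) s F).tendsto _).comp c0
  beta_reduce at t1
  rw [tE'_same hw (same_N1_zero Y), ← dT_eq] at t1
  refine (t1.mono_left (nhdsWithin_le_of_mem hI)).congr' ?_
  filter_upwards [hI] with u hu
  exact (der_tE'_N1 hw Y h hu s F).deriv.symm

/-! ### two directions -/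

/-- the levels `l + s p + t q` -/
def G2 (Z : List (Lv Ω × Lv Ω × Lv Ω)) (s t : ℝ) : List (Lv Ω) :=
  N1 (Z.map fun z => (addLv z.1 (lv z.2.1 s 0), z.2.2)) t

/-- exchange of the two directions -/
def sw (Z : List (Lv Ω × Lv Ω × Lv Ω)) : List (Lv Ω × Lv Ω × Lv Ω) :=
  Z.map fun z => (z.1, z.2.2, z.2.1)

omit [Fintype Ω] in
theorem same_sw (Z : List (Lv Ω × Lv Ω × Lv Ω)) (s t : ℝ) :
    List.Forall₂ Same (G2 Z s t) (G2 (sw Z) t s) := by
  simp only [G2, N1, sw, List.map_map]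
  refine Lin22.forall₂_map _ _ Z fun z _ => ⟨rfl, ?_⟩
  funext a b
  simp only [Function.comp, Lin22.add_cov]
  ring

omit [Fintype Ω] in
theorem same_G2_zero (Z : List (Lv Ω × Lv Ω × Lv Ω)) :
    List.Forall₂ Same (G2 Z 0 0) (Z.map Prod.fst) := by
  simp only [G2, N1, List.map_map]
  refine Lin22.forall₂_map _ _ Z fun z _ => ⟨rfl, ?_⟩
  funext a b
  simp only [Function.comp, Lin22.add_cov, Lin22.lv_cov _ le_rfl, zero_mul, add_zero]

omit [Fintype Ω] in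
theorem st_G2 (Z : List (Lv Ω × Lv Ω × Lv Ω)) (s : ℝ) :
    ST ((Z.map fun z => (addLv z.1 (lv z.2.1 s 0), z.2.2)).map Prod.fst) (Z.map Prod.fst) := by
  rw [List.map_map]
  exact ST.map Z fun _ => rfl

theorem der2_tE' (hw : Wt w) (Z : List (Lv Ω × Lv Ω × Lv Ω)) (h : Ω → ℝ) (a : ℝ) {u : ℝ}
    (hu : u ∈ Ioo (0 : ℝ) 1) (s : Sh) (F : (s.Lf → Ω) → ℝ) :
    HasDerivAt (fun u => tE' w (G2 Z a u) h s F)
      (dW (Z.map Prod.fst) (tE' w (G2 Z a u) h) (hc (Z.map fun z => z.2.2)) s F) u := by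
  have := der_tE'_N1 hw (Z.map fun z => (addLv z.1 (lv z.2.1 a 0), z.2.2)) h hu s F
  rwa [(st_G2 Z a).dW, List.map_map] at this

omit [Fintype Ω] in
theorem sw_fst (Z : List (Lv Ω × Lv Ω × Lv Ω)) : (sw Z).map Prod.fst = Z.map Prod.fst := by
  rw [sw, List.map_map]; rfl

omit [Fintype Ω] in
theorem sw_snd (Z : List (Lv Ω × Lv Ω × Lv Ω)) :
    ((sw Z).map fun z => z.2.2) = Z.map fun z => z.2.1 := by
  rw [sw, List.map_map]; rfl

omit [Fintype Ω] in
theorem sw_snd' (Z : List (Lv Ω × Lv Ω × Lv Ω)) :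
    ((sw Z).map fun z => z.2.1) = Z.map fun z => z.2.2 := by
  rw [sw, List.map_map]; rfl

theorem der2_X (hw : Wt w) (Z : List (Lv Ω × Lv Ω × Lv Ω)) (h : Ω → ℝ) (a : ℝ) {u : ℝ}
    (hu : u ∈ Ioo (0 : ℝ) 1) : HasDerivAt (fun u => X w (G2 Z a u) h)
      (vW (Z.map Prod.fst) (tE' w (G2 Z a u) h) (hc (Z.map fun z => z.2.2))) u := by
  have := der_X_N1 hw (Z.map fun z => (addLv z.1 (lv z.2.1 a 0), z.2.2)) h hu
  rwa [(st_G2 Z a).vW, List.map_map] at this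

theorem der1_X (hw : Wt w) (Z : List (Lv Ω × Lv Ω × Lv Ω)) (h : Ω → ℝ) (a : ℝ) {u : ℝ}
    (hu : u ∈ Ioo (0 : ℝ) 1) : HasDerivAt (fun u => X w (G2 Z u a) h)
      (vW (Z.map Prod.fst) (tE' w (G2 Z u a) h) (hc (Z.map fun z => z.2.1))) u := by
  have := der2_X hw (sw Z) h a hu
  rw [sw_fst, sw_snd] at this
  simpa only [fun u => C.X_same hw (same_sw Z u a), fun u => tE'_same hw (same_sw Z u a)]

theorem cont_G2 (hw : Wt w) (Z : List (Lv Ω × Lv Ω × Lv Ω)) (h : Ω → ℝ) (a : ℝ) :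
    ContinuousOn (fun u => tE' w (G2 Z a u) h) (Icc 0 1) := cont_tE'_N1 hw _ h

/-- joint continuity at the corner -/
theorem tendsto_G2 (hw : Wt w) (Z : List (Lv Ω × Lv Ω × Lv Ω)) (h : Ω → ℝ) :
    Tendsto (fun p : ℝ × ℝ => tE' w (G2 Z p.1 p.2) h) (𝓝[Icc 0 1 ×ˢ Icc 0 1] (0, 0))
      (𝓝 (tE' w (Z.map Prod.fst) h)) := by
  have m0 : (0 : ℝ) ∈ Icc (0 : ℝ) 1 := ⟨le_rfl, zero_le_one⟩
  refine tendsto_pi_nhds.2 fun s => tendsto_pi_nhds.2 fun F => ?_
  obtain ⟨C, hC⟩ := (isCompact_Icc (a := (fun s F => -∑ x, |F x| : Fn Ω))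
    (b := fun s F => ∑ x, |F x|)).exists_bound_of_continuousOn
    (cont_dW (Z.map Prod.fst) (hc (Z.map fun z => z.2.2)) s F).continuousOn
  have h1 : ∀ a, ∀ t ∈ Icc (0 : ℝ) 1,
      |tE' w (G2 Z a t) h s F - tE' w (G2 Z a 0) h s F| ≤ C * t := fun a t ht => by
    rcases ht.1.eq_or_lt with rfl | h0
    · simp
    have c := continuousOn_pi.1 (continuousOn_pi.1 (cont_G2 hw Z h a) s) F
    obtain ⟨u, -, e⟩ := exists_hasDerivAt_eq_slope (fun t => tE' w (G2 Z a t) h s F) _ h0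
      (c.mono (Icc_subset_Icc_right ht.2))
      fun u hu => der2_tE' hw Z h a (Ioo_subset_Ioo_right ht.2 hu) s F
    have := hC _ (tE'_mem hw (G2 Z a u) h)
    rwa [e, sub_zero, Real.norm_eq_abs, abs_div, abs_of_pos h0, div_le_iff₀ h0] at this
  have p1 : Tendsto (fun p : ℝ × ℝ => p.1) (𝓝[Icc 0 1 ×ˢ Icc 0 1] (0, 0)) (𝓝[Icc 0 1] 0) :=
    continuousWithinAt_fst.tendsto_nhdsWithin fun p hp => hp.1
  have p2 : Tendsto (fun p : ℝ × ℝ => C * p.2) (𝓝[Icc 0 1 ×ˢ Icc 0 1] (0, 0)) (𝓝 0) := by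
    have : Tendsto (fun p : ℝ × ℝ => C * p.2) (𝓝 (0, 0)) (𝓝 (C * 0)) :=
      (continuous_const.mul continuous_snd).tendsto _
    rw [mul_zero] at this
    exact this.mono_left nhdsWithin_le_nhds
  have h2 : Tendsto (fun p : ℝ × ℝ => tE' w (G2 Z p.1 0) h s F) (𝓝[Icc 0 1 ×ˢ Icc 0 1] (0, 0))
      (𝓝 (tE' w (Z.map Prod.fst) h s F)) := by
    have c : Tendsto (fun u => tE' w (G2 (sw Z) 0 u) h s F) (𝓝[Icc 0 1] 0)
        (𝓝 (tE' w (G2 (sw Z) 0 0) h s F)) :=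
      continuousOn_pi.1 (continuousOn_pi.1 (cont_G2 hw (sw Z) h 0) s) F 0 m0
    rw [tE'_same hw (same_G2_zero _), sw_fst] at c
    simp only [fun u => tE'_same hw (same_sw Z u 0)]
    exact c.comp p1
  have h3 := (squeeze_zero_norm' (eventually_mem_nhdsWithin.mono fun p hp => h1 p.1 p.2 hp.2)
    p2).add h2
  simpa using h3

theorem cont_X_G2 (hw : Wt w) (Z : List (Lv Ω × Lv Ω × Lv Ω)) (h : Ω → ℝ) (a : ℝ) :
    ContinuousOn (fun u => X w (G2 Z a u) h) (Icc 0 1) := cont_X_N1 hw _ h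

theorem tendsto_dd (hw : Wt w) (Z : List (Lv Ω × Lv Ω × Lv Ω)) (h : Ω → ℝ) :
    Tendsto (fun e => (X w (G2 Z e e) h - X w (G2 Z e 0) h - X w (G2 Z 0 e) h +
      X w (G2 Z 0 0) h) / e ^ 2) (𝓝[Ioo 0 1] 0)
      (𝓝 (vW (Z.map Prod.fst) (dW (Z.map Prod.fst) (tE' w (Z.map Prod.fst) h)
        (hc (Z.map fun z => z.2.2))) (hc (Z.map fun z => z.2.1)))) := by
  refine dd_tendsto (g := fun s t => X w (G2 Z s t) h)
    (g1 := fun s t => vW (Z.map Prod.fst) (tE' w (G2 Z s t) h) (hc (Z.map fun z => z.2.1)))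
    (g12 := fun s t => vW (Z.map Prod.fst) (dW (Z.map Prod.fst) (tE' w (G2 Z s t) h)
      (hc (Z.map fun z => z.2.2))) (hc (Z.map fun z => z.2.1)))
    (fun t _ => ?_) (fun t _ s hs => ?_) (fun s _ => ?_) (fun s _ t ht => ?_) ?_
  · have := cont_X_G2 hw (sw Z) h t
    simpa only [fun u => C.X_same hw (same_sw Z u t)]
  · have := der1_X hw Z h t hs
    simpa only
  · have := (cont_vW (Z.map Prod.fst) (hc (Z.map fun z => z.2.1))).comp_continuousOn
      (cont_G2 hw Z h s)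
    simpa only [Function.comp_def]
  · exact hasDerivAt_vW _ (fun s' F => der2_tE' hw Z h s ht s' F) _
  · have := (((cont_vW (Z.map Prod.fst) (hc (Z.map fun z => z.2.1))).comp
      (cont_dW' (Z.map Prod.fst) (hc (Z.map fun z => z.2.2)))).tendsto _).comp (tendsto_G2 hw Z h)
    simpa only [Function.comp_def]

theorem tendsto_dd' (hw : Wt w) (Z : List (Lv Ω × Lv Ω × Lv Ω)) (h : Ω → ℝ) (s : Sh)
    (F : (s.Lf → Ω) → ℝ) :
    Tendsto (fun e => (tE' w (G2 Z e e) h s F - tE' w (G2 Z e 0) h s F - tE' w (G2 Z 0 e) h s F +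
      tE' w (G2 Z 0 0) h s F) / e ^ 2) (𝓝[Ioo 0 1] 0)
      (𝓝 (dW (Z.map Prod.fst) (dW (Z.map Prod.fst) (tE' w (Z.map Prod.fst) h)
        (hc (Z.map fun z => z.2.2))) (hc (Z.map fun z => z.2.1)) s F)) := by
  refine dd_tendsto (g := fun a t => tE' w (G2 Z a t) h s F)
    (g1 := fun a t => dW (Z.map Prod.fst) (tE' w (G2 Z a t) h) (hc (Z.map fun z => z.2.1)) s F)
    (g12 := fun a t => dW (Z.map Prod.fst) (dW (Z.map Prod.fst) (tE' w (G2 Z a t) h)
      (hc (Z.map fun z => z.2.2))) (hc (Z.map fun z => z.2.1)) s F)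
    (fun t _ => ?_) (fun t _ a ha => ?_) (fun a _ => ?_) (fun a _ t ht => ?_) ?_
  · simp only [fun u => tE'_same hw (same_sw Z u t)]
    exact continuousOn_pi.1 (continuousOn_pi.1 (cont_G2 hw (sw Z) h t) s) F
  · have := der2_tE' hw (sw Z) h t ha s F
    rw [sw_fst, sw_snd] at this
    simpa only [fun u => tE'_same hw (same_sw Z u t)]
  · have := (cont_dW (Z.map Prod.fst) (hc (Z.map fun z => z.2.1)) s F).comp_continuousOn
      (cont_G2 hw Z h a)
    exact this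
  · exact hasDerivAt_dW _ (fun s' F => der2_tE' hw Z h a ht s' F) _ s F
  · have := (((cont_dW (Z.map Prod.fst) (hc (Z.map fun z => z.2.1)) s F).comp
      (cont_dW' (Z.map Prod.fst) (hc (Z.map fun z => z.2.2)))).tendsto _).comp (tendsto_G2 hw Z h)
    exact this

theorem dW_comm_Z (hw : Wt w) (Z : List (Lv Ω × Lv Ω × Lv Ω)) (h : Ω → ℝ) :
    dW (Z.map Prod.fst) (dW (Z.map Prod.fst) (tE' w (Z.map Prod.fst) h)
        (hc (Z.map fun z => z.2.2))) (hc (Z.map fun z => z.2.1)) =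
      dW (Z.map Prod.fst) (dW (Z.map Prod.fst) (tE' w (Z.map Prod.fst) h)
        (hc (Z.map fun z => z.2.1))) (hc (Z.map fun z => z.2.2)) := by
  funext s F
  have h1 := tendsto_dd' hw Z h s F
  have h2 := tendsto_dd' hw (sw Z) h s F
  rw [sw_fst, sw_snd, sw_snd'] at h2
  simp only [← fun s t => tE'_same hw (same_sw Z s t)] at h2
  haveI : (𝓝[Ioo (0 : ℝ) 1] 0).NeBot := left_nhdsWithin_Ioo_neBot zero_lt_one
  refine tendsto_nhds_unique h1 (h2.congr fun e => ?_)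
  ring

theorem V2_symm_Z (hw : Wt w) (Z : List (Lv Ω × Lv Ω × Lv Ω)) (h : Ω → ℝ) :
    V2 w (Z.map Prod.fst) h (hc (Z.map fun z => z.2.1)) (hc (Z.map fun z => z.2.2)) =
      V2 w (Z.map Prod.fst) h (hc (Z.map fun z => z.2.2)) (hc (Z.map fun z => z.2.1)) := by
  rw [V2_eq, V2_eq]
  have h1 := tendsto_dd hw Z h
  have h2 := tendsto_dd hw (sw Z) h
  rw [sw_fst, sw_snd, sw_snd'] at h2
  simp only [← fun s t => C.X_same hw (same_sw Z s t)] at h2
  haveI : (𝓝[Ioo (0 : ℝ) 1] 0).NeBot := left_nhdsWithin_Ioo_neBot zero_lt_one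
  refine tendsto_nhds_unique h1 (h2.congr fun e => ?_)
  ring

omit [Fintype Ω] in
theorem exists_Z : ∀ (M P Q : List (Lv Ω)), P.length = M.length → Q.length = M.length →
    ∃ Z : List (Lv Ω × Lv Ω × Lv Ω), Z.map Prod.fst = M ∧ (Z.map fun z => z.2.1) = P ∧
      (Z.map fun z => z.2.2) = Q
  | [], [], [], _, _ => ⟨[], rfl, rfl, rfl⟩
  | l :: M, p :: P, q :: Q, h1, h2 => by
      obtain ⟨Z, e1, e2, e3⟩ := exists_Z M P Q (Nat.succ.inj h1) (Nat.succ.inj h2)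
      exact ⟨(l, p, q) :: Z, by simp [e1], by simp [e2], by simp [e3]⟩
  | [], _ :: _, _, h, _ => by simp at h
  | [], [], _ :: _, _, h => by simp at h
  | _ :: _, [], _, h, _ => by simp at h
  | _ :: _, _ :: _, [], _, h => by simp at h

open Classical in
/-- a level whose covariance is one half of the polarisation of `k` -/
def pol (e : ℝ) (k : Ω → Ω → ℝ) : Lv Ω :=
  ⟨Ω, fun x u => ((if x = u then 1 else 0) + e * k u x) / √2, 0⟩

theorem pol_cov (k : Ω → Ω → ℝ) (x y : Ω) :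
    (pol 1 k).cov x y - (pol (-1) k).cov x y = k x y + k y x := by
  classical
  have h2 : √2 * √2 = (2 : ℝ) := mul_self_sqrt zero_le_two
  have h3 : (√2 : ℝ) ≠ 0 := by positivity
  show ∑ u : Ω, _ - ∑ u : Ω, _ = _
  rw [← Finset.sum_sub_distrib]
  have : ∀ u : Ω, ((pol 1 k).A x u * (pol 1 k).A y u - (pol (-1) k).A x u * (pol (-1) k).A y u) =
      (if x = u then k u y else 0) + if y = u then k u x else 0 := fun u => by
    simp only [pol, div_mul_div_comm, h2]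
    split_ifs <;> ring
  simp only [this, Finset.sum_add_distrib, Finset.sum_ite_eq, Finset.mem_univ, if_true]

/-- the polarisations of the increments of `S` -/
def mkP (e : ℝ) : ℕ → (ℕ → Ω → Ω → ℝ) → List (Lv Ω)
  | 0, _ => []
  | K + 1, S => pol e (fun x y => S 1 x y - S 0 x y) :: mkP e K fun j => S (j + 1)

theorem mkP_length (e : ℝ) : ∀ (K : ℕ) (S : ℕ → Ω → Ω → ℝ), (mkP e K S).length = K
  | 0, _ => rfl
  | K + 1, _ => congrArg (· + 1) (mkP_length e K _)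

theorem cacc_mkP (x y : Ω) : ∀ (K : ℕ) (S : ℕ → Ω → Ω → ℝ) (j : ℕ), j ≤ K →
    cacc (mkP 1 K S) j x y - cacc (mkP (-1) K S) j x y = S j x y + S j y x - (S 0 x y + S 0 y x)
  | _, _, 0, _ => by simp [cacc]
  | 0, _, _ + 1, h => by omega
  | K + 1, S, j + 1, h => by
      have h1 := cacc_mkP x y K (fun j => S (j + 1)) j (by omega)
      have h2 := pol_cov (fun x y => S 1 x y - S 0 x y) x y
      rw [mkP, mkP, Sd.cacc_cons, Sd.cacc_cons]
      simp only [zero_add] at h1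
      linarith

/-- symmetric kernels that vanish at the root -/
def Adm (S : ℕ → Ω → Ω → ℝ) : Prop := (∀ j x y, S j x y = S j y x) ∧ ∀ x y, S 0 x y = 0

/-- an admissible direction is a difference of two directions that add variance -/
theorem Adm.dec {S : ℕ → Ω → Ω → ℝ} (H : Adm S) (K : ℕ) : ∃ P Q : List (Lv Ω), P.length = K ∧
    Q.length = K ∧ ∀ j ≤ K, S j = fun x y => 1 * hc P j x y + -1 * hc Q j x y :=
  ⟨mkP 1 K S, mkP (-1) K S, mkP_length _ _ _, mkP_length _ _ _, fun j hj => by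
    funext x y
    have := cacc_mkP x y K S j hj
    rw [H.2, H.2, H.1 j y x] at this
    simp only [hc]
    linarith⟩

theorem V2_congr (M : List (Lv Ω)) (h : Ω → ℝ) {S S' T T' : ℕ → Ω → Ω → ℝ}
    (H : ∀ j ≤ M.length, S j = S' j) (H' : ∀ j ≤ M.length, T j = T' j) :
    V2 w M h S T = V2 w M h S' T' := by
  have e : dW M (tE' w M h) T = dW M (tE' w M h) T' := by
    funext s F
    exact dW_congr M _ s H' F
  rw [V2_eq, V2_eq, e]
  exact vG_congr _ _ H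

theorem V2_linS (hw : Wt w) (M : List (Lv Ω)) (h : Ω → ℝ) (a b : ℝ) (S S' T : ℕ → Ω → Ω → ℝ) :
    V2 w M h (fun j x y => a * S j x y + b * S' j x y) T =
      a * V2 w M h S T + b * V2 w M h S' T := by
  rw [V2_eq, V2_eq, V2_eq]
  exact vG_linS (dW_lin (lin_tE' hw M h) M T) _ _ a b S S'

theorem V2_linT (hw : Wt w) (M : List (Lv Ω)) (h : Ω → ℝ) (a b : ℝ) (S T T' : ℕ → Ω → Ω → ℝ) :
    V2 w M h S (fun j x y => a * T j x y + b * T' j x y) =
      a * V2 w M h S T + b * V2 w M h S T' := by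
  have e : dW M (tE' w M h) (fun j x y => a * T j x y + b * T' j x y) =
      fun s F => a * dW M (tE' w M h) T s F + b * dW M (tE' w M h) T' s F := by
    funext s F
    exact dW_linS (lin_tE' hw M h) M s a b T T' F
  rw [V2_eq, V2_eq, V2_eq, e]
  exact vG_linE _ _ a b _ _ S

/-- **the second variation is symmetric** -/
theorem V2_symm (hw : Wt w) (M : List (Lv Ω)) (h : Ω → ℝ) {S T : ℕ → Ω → Ω → ℝ} (hS : Adm S)
    (hT : Adm T) : V2 w M h S T = V2 w M h T S := by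
  have key : ∀ P Q : List (Lv Ω), P.length = M.length → Q.length = M.length →
      V2 w M h (hc P) (hc Q) = V2 w M h (hc Q) (hc P) := fun P Q hP hQ => by
    obtain ⟨Z, rfl, rfl, rfl⟩ := exists_Z M P Q hP hQ
    exact V2_symm_Z hw Z h
  obtain ⟨P, P', h1, h2, e⟩ := hS.dec M.length
  obtain ⟨Q, Q', h3, h4, e'⟩ := hT.dec M.length
  rw [V2_congr M h e e', V2_congr M h e' e]
  simp only [V2_linS hw, V2_linT hw]
  rw [key P Q h1 h3, key P Q' h1 h4, key P' Q h2 h3, key P' Q' h2 h4]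
  ring

/-- **transfer**: a linear relation between tree expectations that holds for all models with the
tilts of `M` holds for the variations -/
theorem dT_of_const (hw : Wt w) (M : List (Lv Ω)) (h : Ω → ℝ) {S : ℕ → Ω → Ω → ℝ} (hS : Adm S)
    {κ : Type*} (A : Finset κ) (c : κ → ℝ) (s : κ → Sh) (F : ∀ k, ((s k).Lf → Ω) → ℝ) (v : ℝ)
    (H : ∀ M', ST M' M → ∑ k ∈ A, c k * TE w (s k) M' h (F k) = v) :
    ∑ k ∈ A, c k * dT w (s k) M h S (F k) = 0 := by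
  have key : ∀ P : List (Lv Ω), P.length = M.length →
      ∑ k ∈ A, c k * dT w (s k) M h (hc P) (F k) = 0 := fun P hP => by
    have e1 : (M.zip P).map Prod.fst = M := List.map_fst_zip hP.ge
    have e2 : (M.zip P).map Prod.snd = P := List.map_snd_zip hP.le
    have d := HasDerivWithinAt.fun_sum fun k (_ : k ∈ A) =>
      (der_tE'_zero hw (M.zip P) h (s k) (F k)).const_mul (c k)
    rw [e1, e2] at d
    simp only [fun u => H _ (e1 ▸ st_N1 (M.zip P) u)] at d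
    exact (uniqueDiffWithinAt_Ici 0).eq_deriv _ d (hasDerivWithinAt_const _ _ _)
  obtain ⟨P, Q, h1, h2, e⟩ := hS.dec M.length
  simp only [fun k => dT_congr (w := w) (s k) M h e, dT_linS hw, mul_add, Finset.sum_add_distrib,
    mul_left_comm (c _), ← Finset.mul_sum, key P h1, key Q h2]
  simp

theorem dT_const (hw : Wt w) (s : Sh) (M : List (Lv Ω)) (h : Ω → ℝ) {S : ℕ → Ω → Ω → ℝ}
    (hS : Adm S) (v : ℝ) : dT w s M h S (fun _ => v) = 0 := by
  simpa using dT_of_const hw M h hS {()} (fun _ => 1) (fun _ => s) (fun _ _ => v) v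
    fun M' _ => by simp [Law.TE_const hw]

/-! ### the variations commute -/

omit [Fintype Ω] in
theorem dW_dec {E : Fn Ω} (hE : Lin E) (M : List (Lv Ω)) {S P Q : ℕ → Ω → Ω → ℝ}
    (e : ∀ j ≤ M.length, S j = fun x y => 1 * P j x y + -1 * Q j x y) :
    dW M E S = fun s F => 1 * dW M E P s F + -1 * dW M E Q s F := by
  funext s F
  rw [dW_congr M E s e, dW_linS hE]

theorem dW_comm₀ (hw : Wt w) (M : List (Lv Ω)) (h : Ω → ℝ) {S T : ℕ → Ω → Ω → ℝ} (hS : Adm S)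
    (hT : Adm T) : dW M (dW M (tE' w M h) T) S = dW M (dW M (tE' w M h) S) T := by
  have key : ∀ P Q : List (Lv Ω), P.length = M.length → Q.length = M.length →
      dW M (dW M (tE' w M h) (hc Q)) (hc P) = dW M (dW M (tE' w M h) (hc P)) (hc Q) :=
    fun P Q hP hQ => by
      obtain ⟨Z, rfl, rfl, rfl⟩ := exists_Z M P Q hP hQ
      exact dW_comm_Z hw Z h
  obtain ⟨P, P', h1, h2, e⟩ := hS.dec M.length
  obtain ⟨Q, Q', h3, h4, e'⟩ := hT.dec M.length
  have l0 := lin_tE' hw M h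
  rw [dW_dec (dW_lin l0 M T) M e, dW_dec (dW_lin l0 M S) M e', dW_dec l0 M e, dW_dec l0 M e']
  simp only [dW_linE]
  rw [key P Q h1 h3, key P Q' h1 h4, key P' Q h2 h3, key P' Q' h2 h4]
  funext s F
  ring

/-- finite linear combinations of evaluations -/
structure Ev (φ : Fn Ω → ℝ) : Prop where
  lin : ∀ (a b : ℝ) (E E' : Fn Ω), φ (fun s F => a * E s F + b * E' s F) = a * φ E + b * φ E'
  der : ∀ (E : ℝ → Fn Ω) (E' : Fn Ω) (I : Set ℝ) (u : ℝ),
    (∀ s F, HasDerivWithinAt (fun t => E t s F) (E' s F) I u) →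
    HasDerivWithinAt (fun t => φ (E t)) (φ E') I u

omit [Fintype Ω] in
theorem Ev.eval (s : Sh) (F : (s.Lf → Ω) → ℝ) : Ev fun E : Fn Ω => E s F :=
  ⟨fun _ _ _ _ => rfl, fun _ _ _ _ H => H s F⟩

omit [Fintype Ω] in
theorem Ev.sub {φ ψ : Fn Ω → ℝ} (h : Ev φ) (h' : Ev ψ) : Ev fun E => φ E - ψ E :=
  ⟨fun a b E E' => by rw [h.lin, h'.lin]; ring,
    fun E E' I u H => (h.der E E' I u H).fun_sub (h'.der E E' I u H)⟩

omit [Fintype Ω] in
theorem Ev.add {φ ψ : Fn Ω → ℝ} (h : Ev φ) (h' : Ev ψ) : Ev fun E => φ E + ψ E :=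
  ⟨fun a b E E' => by rw [h.lin, h'.lin]; ring,
    fun E E' I u H => (h.der E E' I u H).fun_add (h'.der E E' I u H)⟩

omit [Fintype Ω] in
theorem Ev.cmul {φ : Fn Ω → ℝ} (h : Ev φ) (c : ℝ) : Ev fun E => c * φ E :=
  ⟨fun a b E E' => by rw [h.lin]; ring, fun E E' I u H => (h.der E E' I u H).const_mul c⟩

omit [Fintype Ω] in
theorem Ev.sum {κ : Type*} (A : Finset κ) {φ : κ → Fn Ω → ℝ} (h : ∀ k ∈ A, Ev (φ k)) :
    Ev fun E => ∑ k ∈ A, φ k E :=
  ⟨fun a b E E' => by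
    rw [Finset.mul_sum, Finset.mul_sum, ← Finset.sum_add_distrib]
    exact Finset.sum_congr rfl fun k hk => (h k hk).lin a b E E',
    fun E E' I u H => HasDerivWithinAt.fun_sum fun k hk => (h k hk).der E E' I u H⟩

omit [Fintype Ω] in
theorem Ev.dW {φ : Fn Ω → ℝ} (h : Ev φ) (M : List (Lv Ω)) (S : ℕ → Ω → Ω → ℝ) :
    Ev fun E => φ (dW M E S) :=
  ⟨fun a b E E' => by rw [dW_linE, h.lin], fun E E' I u H =>
    h.der (fun t => Adj55.dW M (E t) S) _ I u fun s F => der_dW M H S s F⟩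

/-- a relation that holds for all models with the tilts of `M` -/
def Cst (w : Ω → ℝ) (M : List (Lv Ω)) (h : Ω → ℝ) (φ : Fn Ω → ℝ) (v : ℝ) : Prop :=
  ∀ M', ST M' M → φ (tE' w M' h) = v

omit [Fintype Ω] in
theorem ST.trans {M M' M'' : List (Lv Ω)} (H : ST M M') (H' : ST M' M'') : ST M M'' := by
  induction H generalizing M'' with
  | nil => exact H'
  | cons h _ ih => cases H' with | cons h' H' => exact .cons (h.trans h') (ih H')

omit [Fintype Ω] in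
theorem ST.refl (M : List (Lv Ω)) : ST M M := List.forall₂_same.2 fun _ _ => rfl

/-- **transfer** -/
theorem Cst.dW (hw : Wt w) {M : List (Lv Ω)} {h : Ω → ℝ} {φ : Fn Ω → ℝ} {v : ℝ} (hφ : Ev φ)
    (H : Cst w M h φ v) {S : ℕ → Ω → Ω → ℝ} (hS : Adm S) :
    Cst w M h (fun E => φ (dW M E S)) 0 := by
  intro M' hM
  have key : ∀ P : List (Lv Ω), P.length = M'.length →
      φ (Adj55.dW M' (tE' w M' h) (hc P)) = 0 := fun P hP => by
    have e1 : (M'.zip P).map Prod.fst = M' := List.map_fst_zip hP.ge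
    have e2 : (M'.zip P).map Prod.snd = P := List.map_snd_zip hP.le
    have d := hφ.der (fun u => tE' w (N1 (M'.zip P) u) h)
      (Adj55.dW M' (tE' w M' h) (hc P)) (Ici 0) 0 fun s F => by
        have := der_tE'_zero hw (M'.zip P) h s F
        rwa [e1, e2, dT_eq] at this
    simp only [fun u => H _ (ST.trans (e1 ▸ st_N1 (M'.zip P) u) hM)] at d
    exact (uniqueDiffWithinAt_Ici 0).eq_deriv _ d (hasDerivWithinAt_const _ _ _)
  obtain ⟨P, Q, h1, h2, e⟩ := hS.dec M'.length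
  beta_reduce
  rw [← hM.dW, dW_dec (lin_tE' hw M' h) M' e, hφ.lin, key P h1, key Q h2]
  simp

/-- iterated variations (the head of the list is the outermost one) -/
def it (M : List (Lv Ω)) (E : Fn Ω) : List (ℕ → Ω → Ω → ℝ) → Fn Ω
  | [] => E
  | S :: U => dW M (it M E U) S

/-- relations pass to all iterated variations -/
theorem Cst.it (hw : Wt w) {M : List (Lv Ω)} {h : Ω → ℝ} : ∀ (U : List (ℕ → Ω → Ω → ℝ))
    {φ : Fn Ω → ℝ}, Ev φ → Cst w M h φ 0 → (∀ S ∈ U, Adm S) →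
    Cst w M h (fun E => φ (it M E U)) 0
  | [], _, _, H, _ => H
  | S :: U, _, hφ, H, hU => Cst.it hw U (hφ.dW M S) (H.dW hw hφ (hU S (by simp)))
      fun T hT => hU T (by simp [hT])

/-- **the variations commute**, for every shape and test function, inside any iteration -/
theorem dW_comm (hw : Wt w) (M : List (Lv Ω)) (h : Ω → ℝ) {S T : ℕ → Ω → Ω → ℝ} (hS : Adm S)
    (hT : Adm T) {U : List (ℕ → Ω → Ω → ℝ)} (hU : ∀ S ∈ U, Adm S) :
    dW M (dW M (it M (tE' w M h) U) T) S = dW M (dW M (it M (tE' w M h) U) S) T := by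
  funext s F
  have := Cst.it hw (M := M) (h := h) U
    ((((Ev.eval s F).dW M S).dW M T).sub (((Ev.eval s F).dW M T).dW M S))
    (fun M' hM => by
      beta_reduce
      rw [← hM.dW, dW_comm₀ hw M' h hS hT, sub_self]) hU M (ST.refl M)
  exact sub_eq_zero.1 this

theorem it_perm (hw : Wt w) (M : List (Lv Ω)) (h : Ω → ℝ) {U U' : List (ℕ → Ω → Ω → ℝ)}
    (H : U.Perm U') (hU : ∀ S ∈ U, Adm S) : it M (tE' w M h) U = it M (tE' w M h) U' := by
  induction H with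
  | nil => rfl
  | cons S _ ih => rw [it, it, ih fun T hT => hU T (by simp [hT])]
  | swap S T U =>
    exact dW_comm hw M h (hU T (by simp)) (hU S (by simp)) fun T hT => hU T (by simp [hT])
  | trans h1 _ ih1 ih2 => exact (ih1 hU).trans (ih2 fun T hT => hU T (h1.mem_iff.2 hT))

omit [Fintype Ω] in
theorem lin_it {E : Fn Ω} (hE : Lin E) (M : List (Lv Ω)) : ∀ U, Lin (it M E U)
  | [] => hE
  | S :: U => dW_lin (lin_it hE M U) M S

/-- the derivative of an iterated variation along a path -/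
theorem hasDerivAt_it (hw : Wt w) {I : Set ℝ} (hI : IsOpen I) {L : List (TL Ω)}
    (hL : ∀ l ∈ L, l.C1 I) {u : ℝ} (hu : u ∈ I) (h : Ω → ℝ) (M : List (Lv Ω))
    (hM : ST (atL L u) M) : ∀ (U : List (ℕ → Ω → Ω → ℝ)) (s : Sh) (F : (s.Lf → Ω) → ℝ),
    HasDerivAt (fun t => it M (tE' w (atL L t) h) U s F)
      (it M (dW M (tE' w (atL L u) h) (Sacc L u)) U s F) u
  | [], s, F => by
      have := hasDerivAt_tX_t hw hI hL hu s h F
      rwa [dT_eq, hM.dW] at this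
  | S :: U, s, F => hasDerivAt_dW M (hasDerivAt_it hw hI hL hu h M hM U) S s F

omit [Fintype Ω] in
theorem it_append (M : List (Lv Ω)) (E : Fn Ω) (V : List (ℕ → Ω → Ω → ℝ)) :
    ∀ U, it M E (U ++ V) = it M (it M E V) U
  | [] => rfl
  | S :: U => by rw [List.cons_append, it, it, it_append M E V U]

/-! ### factorised models -/

section prd
variable {Ω₁ Ω₂ : Type} [Fintype Ω₁] [Fintype Ω₂] {w₁ : Ω₁ → ℝ} {w₂ : Ω₂ → ℝ}
  {L : List (Lv (Ω₁ × Ω₂))} {T : List (Lv Ω₁ × Lv Ω₂)}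

theorem TE_emb (hw : Wt w) (s : Sh) (a : s.Lf) (j : ℕ) (M : List (Lv Ω)) (h : Ω → ℝ)
    (F : (s.Lf → Ω) → ℝ) :
    TE w (s.graft a j) M h (fun x => F fun c => x (s.emb a j c)) = TE w s M h F := by
  have := graft_leaf hw s a j M h fun x _ => F x
  simp only [← Finset.sum_mul, sum_P hw, one_mul] at this
  exact this

omit [Fintype Ω₁] [Fintype Ω₂] in
theorem st_prd (H : List.Forall₂ Prd L T) : ST L ((T.map Prod.snd).map (coLv Prod.snd)) := by
  induction H with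
  | nil => exact .nil
  | cons h _ ih => exact .cons h.2.1 ih

omit [Fintype Ω₁] [Fintype Ω₂] in
theorem ex_co (ρ : Ω₁ → Ω₂) (M : List (Lv Ω₂)) (j : ℕ) : ex (M.map (coLv ρ)) j = ex M j := by
  simp only [ex, List.getElem?_map]
  cases M[j]? <;> rfl

omit [Fintype Ω₁] [Fintype Ω₂] in
theorem dm_co (ρ : Ω₁ → Ω₂) (M : List (Lv Ω₂)) (m0 : ℝ) (j : ℕ) :
    dm (M.map (coLv ρ)) m0 j = dm M m0 j := by
  cases j <;> simp only [dm, exP, ex_co]

omit [Fintype Ω₁] [Fintype Ω₂] in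
theorem cf_co (ρ : Ω₁ → Ω₂) : ∀ (s : Sh) (M : List (Lv Ω₂)) (a : s.Lf) (j : ℕ),
    cf s (M.map (coLv ρ)) a j = cf s M a j
  | .one, _, _, 0 => rfl
  | .one, M, _, j + 1 => dm_co ρ M 0 (j + 1)
  | .step s, [], a, j => by
      show cf s (([] : List (Lv Ω₂)).map (coLv ρ)) a j + _ = cf s [] a j + _
      rw [cf_co ρ s [] a j]
  | .step _, _ :: _, _, 0 => rfl
  | .step s, l :: M, a, j + 1 => by
      refine (Sp38.cf_step s _ _ a j).trans (Eq.trans ?_ (Sp38.cf_step s _ _ a j).symm)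
      rw [cf_co ρ s M a j, ex_co]
      rfl
  | .split s _, M, .inl a, j => cf_co ρ s M a j
  | .split _ s, M, .inr a, j => cf_co ρ s M a j

omit [Fintype Ω₁] [Fintype Ω₂] in
theorem w_prd (H : List.Forall₂ Prd L T) : L.length = (T.map Prod.snd).length ∧
    (∀ s a j, cw s L a j = cw s (T.map Prod.snd) a j) ∧
    ∀ i j, dm (L.drop i) 0 j = dm ((T.map Prod.snd).drop i) 0 j := by
  have H' := st_prd H
  refine ⟨by rw [H'.length_eq, List.length_map], fun s a j => ?_, fun i j => ?_⟩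
  · rw [H'.cw, cw, cw, cf_co, ex_co]
  · rw [ST.dm (List.forall₂_drop i H'), ← List.map_drop, dm_co]

/-- a direction that only moves the second factor -/
theorem dT_prd (h₁ : Wt w₁) (h₂ : Wt w₂) (H : List.Forall₂ Prd L T) (z₁ : Ω₁ → ℝ) (z₂ : Ω₂ → ℝ)
    (s : Sh) (α : ℕ → Ω₂ → Ω₂ → ℝ) (G₁ : (s.Lf → Ω₁) → ℝ) (G₂ : (s.Lf → Ω₂) → ℝ) :
    dT (pw2 w₁ w₂) s L (ad z₁ z₂) (fun j x y => α j x.2 y.2)
        (fun x => G₁ (fun a => (x a).1) * G₂ fun a => (x a).2) =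
      TE w₁ s (T.map Prod.fst) z₁ G₁ * dT w₂ s (T.map Prod.snd) z₂ α G₂ := by
  obtain ⟨e1, e2, e3⟩ := w_prd H
  have k : ∀ (s' : Sh) (e : s.Lf → s'.Lf) (p q : s'.Lf) (β : Ω₂ → Ω₂ → ℝ),
      (TE w₁ s' (T.map Prod.fst) z₁ fun x => G₁ fun c => x (e c)) =
        TE w₁ s (T.map Prod.fst) z₁ G₁ →
      (tE' (pw2 w₁ w₂) L (ad z₁ z₂) s' fun x =>
        (G₁ (fun a => (x (e a)).1) * G₂ fun a => (x (e a)).2) * β (x p).2 (x q).2) =
      TE w₁ s (T.map Prod.fst) z₁ G₁ *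
        tE' w₂ (T.map Prod.snd) z₂ s' fun x => G₂ (fun a => x (e a)) * β (x p) (x q) := by
    intro s' e p q β he
    rw [← he]
    simp only [mul_assoc]
    exact Law.TE_prd h₁ h₂ s' H (fun x => G₁ fun c => x (e c))
      (fun x => G₂ (fun a => x (e a)) * β (x p) (x q)) z₁ z₂
  have k0 := fun p q β => k s (fun c => c) p q β rfl
  have k1 := fun a j p q β => k (s.graft a j) (s.emb a j) p q β (TE_emb h₁ s a j _ z₁ G₁)
  have k2 := fun a j b i p q β => k ((s.graft a j).graft b i)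
    (fun c => (s.graft a j).emb b i (s.emb a j c)) p q β
    ((TE_emb h₁ (s.graft a j) b i _ z₁ fun x => G₁ fun c => x (s.emb a j c)).trans
      (TE_emb h₁ s a j _ z₁ G₁))
  rw [dT_eq, dT_eq]
  simp only [dW, dG, e1, e2, e3, k0, k1, k2, mul_add, mul_sub, Finset.mul_sum,
    mul_left_comm (TE w₁ s (T.map Prod.fst) z₁ G₁)]

/-- **the linearised equation is self-adjoint**: a test `α` of the second factor, varied in the
mixed direction `D ⊗ β` at a factorised model -/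
theorem V2_prd (h₁ : Wt w₁) (h₂ : Wt w₂) (H : List.Forall₂ Prd L T) (z₁ : Ω₁ → ℝ) (z₂ : Ω₂ → ℝ)
    {α : ℕ → Ω₂ → Ω₂ → ℝ} {D : ℕ → Ω₁ → Ω₁ → ℝ} {β : Ω₂ → Ω₂ → ℝ} (hα : Adm α) (hD : Adm D)
    (hβ : ∀ x y, β x y = β y x) :
    V2 (pw2 w₁ w₂) L (ad z₁ z₂) (fun j x y => α j x.2 y.2) (fun j x y => D j x.1 y.1 * β x.2 y.2) =
      Pf w₁ (T.map Prod.fst) z₁ (fun x => D L.length x x) *
        dT w₂ .one (T.map Prod.snd) z₂ α (fun x => β (x ()) (x ())) -
      ∑ j ∈ Finset.range (L.length + 1), dm L 0 j * (pi2 w₁ (T.map Prod.fst) j (D j) z₁ *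
        dT w₂ (Sh.two j) (T.map Prod.snd) z₂ α fun x => β (x (Sh.twoL j)) (x (Sh.twoR j))) := by
  rw [V2_symm (Law.wt_pw2 h₁ h₂) L _ ⟨fun j x y => hα.1 j _ _, fun x y => hα.2 _ _⟩
    ⟨fun j x y => by rw [hD.1, hβ], fun x y => by rw [hD.2, zero_mul]⟩, V2]
  congr 1
  · rw [← Law.TE_one h₁ (F := fun x => D L.length (x ()) (x ()))]
    exact dT_prd h₁ h₂ H z₁ z₂ .one α (fun x => D L.length (x ()) (x ())) fun x => β (x ()) (x ())
  · refine Finset.sum_congr rfl fun j _ => ?_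
    rw [← TE_two' h₁]
    exact congrArg _ (dT_prd h₁ h₂ H z₁ z₂ (Sh.two j) α
      (fun x => D j (x (Sh.twoL j)) (x (Sh.twoR j))) fun x => β (x (Sh.twoL j)) (x (Sh.twoR j)))

/-- the case of a kernel `β` with constant diagonal (`β e e' = e e'`): only the pair terms remain -/
theorem V2_prd' (h₁ : Wt w₁) (h₂ : Wt w₂) (H : List.Forall₂ Prd L T) (z₁ : Ω₁ → ℝ) (z₂ : Ω₂ → ℝ)
    {α : ℕ → Ω₂ → Ω₂ → ℝ} {D : ℕ → Ω₁ → Ω₁ → ℝ} {β : Ω₂ → Ω₂ → ℝ} (hα : Adm α) (hD : Adm D)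
    (hβ : ∀ x y, β x y = β y x) {v : ℝ} (hv : ∀ x, β x x = v) :
    V2 (pw2 w₁ w₂) L (ad z₁ z₂) (fun j x y => α j x.2 y.2) (fun j x y => D j x.1 y.1 * β x.2 y.2) =
      -∑ j ∈ Finset.range (L.length + 1), dm L 0 j * (pi2 w₁ (T.map Prod.fst) j (D j) z₁ *
        dT w₂ (Sh.two j) (T.map Prod.snd) z₂ α fun x => β (x (Sh.twoL j)) (x (Sh.twoR j))) := by
  rw [V2_prd h₁ h₂ H z₁ z₂ hα hD hβ]
  simp only [hv, dT_const h₂ .one _ z₂ hα, mul_zero, zero_sub]

end prd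

/-- the derivative of `pi2` along a path, in the form used by `V2_prd` -/
theorem hasDerivAt_pi2 (hw : Wt w) {I : Set ℝ} (hI : IsOpen I) {L : List (TL Ω)}
    (hL : ∀ l ∈ L, l.C1 I) {u : ℝ} (hu : u ∈ I) (h : Ω → ℝ) (j : ℕ) (β : Ω → Ω → ℝ) :
    HasDerivAt (fun t => pi2 w (atL L t) j β h)
      (dT w (Sh.two j) (atL L u) h (Sacc L u) fun x => β (x (Sh.twoL j)) (x (Sh.twoR j))) u := by
  simp only [← TE_two' hw]
  exact hasDerivAt_tX_t hw hI hL hu (Sh.two j) h _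

end Crest.Agent.T156.Cas.Adj55

end
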