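import Crest.Agent.T156.PlEx_13

/-!
# Row 156, ALT: existence of the grid of the logarithmic spread, `PlEx` (helper13)
-/

set_option autoImplicit false

noncomputable section

namespace Crest.Agent.T156.Alt.Plt13

open Real Set Finset
open Crest.Agent.T157.Nm

/-- the grid of a clock with a lower slope -/
theorem exists_grid {ρ : ℝ → ℝ} {x0 v ue κ : ℝ} (hv : 0 < v) (hκ : 0 < κ) (h1 : x0 ≤ 1 - ue)
    (hm : 2 * v ≤ κ * ue) (cont : ContinuousOn ρ (Set.Ico x0 1))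
    (inc : ∀ a b, x0 ≤ a → a ≤ b → b < 1 → κ * (b - a) ≤ ρ b - ρ a) :
    ∃ (I : ℕ) (x : ℕ → ℝ), x 0 = x0 ∧ StrictMono x ∧ (∀ i < I, ρ (x (i + 1)) - ρ (x i) = v) ∧
      ue / 2 ≤ 1 - x I ∧ 1 - x I ≤ ue := by
  have u0 : 0 < ue := by by_contra c; nlinarith [not_lt.1 c]
  have p0 := inc x0 (1 - ue) le_rfl h1 (by linarith)
  have p1 : 0 ≤ ρ (1 - ue) - ρ x0 := le_trans (mul_nonneg hκ.le (by linarith)) p0
  set I := ⌈(ρ (1 - ue) - ρ x0) / v⌉₊ with hI
  have a : (ρ (1 - ue) - ρ x0) / v ≤ I := Nat.le_ceil _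
  have b : (I : ℝ) < (ρ (1 - ue) - ρ x0) / v + 1 := Nat.ceil_lt_add_one (by positivity)
  rw [div_le_iff₀ hv] at a
  have b' := mul_le_mul_of_nonneg_right b.le hv.le
  rw [add_mul, div_mul_cancel₀ _ hv.ne', one_mul] at b'
  have t := inc (1 - ue) (1 - ue / 2) h1 (by linarith) (by linarith)
  have ex : ∀ k : ℕ, ∃ y ∈ Set.Icc x0 (1 - ue / 2), ρ y = ρ x0 + (min k I : ℕ) * v := fun k => by
    have c : ((min k I : ℕ) : ℝ) ≤ I := by exact_mod_cast min_le_right k I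
    exact intermediate_value_Icc (by linarith)
      (cont.mono fun z hz => ⟨hz.1, by linarith [hz.2]⟩)
      ⟨le_add_of_nonneg_right (by positivity), by nlinarith⟩
  choose y hy ey using ex
  have lt : ∀ k, y k < 1 := fun k => by linarith [(hy k).2]
  have st : ∀ i < I, ρ (y (i + 1)) - ρ (y i) = v := fun i hi => by
    rw [ey, ey, min_eq_left hi, min_eq_left hi.le]; push_cast; ring
  refine ⟨I, fun k => y (min k I) + ((k - I : ℕ) : ℝ), ?_, strictMono_nat_of_lt_succ fun k => ?_,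
    fun i hi => ?_, ?_, ?_⟩
  · have c := inc x0 (y 0) le_rfl (hy 0).1 (lt 0)
    rw [ey 0] at c
    simp only [Nat.zero_min, Nat.cast_zero, zero_mul, add_zero, sub_self, Nat.zero_sub] at c ⊢
    by_contra d
    nlinarith [mul_pos hκ (sub_pos.2 (lt_of_le_of_ne (hy 0).1 (Ne.symm d)))]
  · rcases Nat.lt_or_ge k I with c | c
    · simp only [min_eq_left c.le, min_eq_left (show k + 1 ≤ I from c), Nat.sub_eq_zero_of_le c.le,
        Nat.sub_eq_zero_of_le (show k + 1 ≤ I from c), add_lt_add_iff_right]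
      by_contra d
      have e := inc _ _ (hy (k + 1)).1 (not_lt.1 d) (lt k)
      linarith [st k c, mul_nonneg hκ.le (sub_nonneg.2 (not_lt.1 d))]
    · simp only [min_eq_right c, min_eq_right (c.trans (Nat.le_succ k)), add_lt_add_iff_left,
        Nat.cast_lt]
      omega
  · simp only [min_eq_left hi.le, min_eq_left (show i + 1 ≤ I from hi), Nat.sub_eq_zero_of_le hi.le,
      Nat.sub_eq_zero_of_le (show i + 1 ≤ I from hi), Nat.cast_zero, add_zero]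
    exact st i hi
  · simp only [min_self, Nat.sub_self, Nat.cast_zero, add_zero]; linarith [(hy I).2]
  · simp only [min_self, Nat.sub_self, Nat.cast_zero, add_zero]
    by_contra d
    have e := inc (y I) (1 - ue) (hy I).1 (by linarith [not_le.1 d]) (by linarith)
    rw [ey I, min_self] at e
    nlinarith [mul_pos hκ (show 0 < 1 - ue - y I by linarith [not_le.1 d])]

theorem cont_lsp (p : Pm) (γ : ℝ) : ContinuousOn (p.lsp γ) (Set.Ico p.xs 1) := fun _ hx =>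
  (p.hasDerivAt_lsp γ hx.1 hx.2.le).continuousAt.continuousWithinAt

theorem lL_le {p : Pm} (hn : (2 : ℝ) ≤ p.n) : p.lL ≤ 12 * p.n := by
  have := log_le_sub_one_of_pos (show (0 : ℝ) < p.n + 3 by linarith)
  unfold Pm.lL; linarith

theorem exists_spOk {p : Pm} {g : ℝ} (hn : (2 : ℝ) ≤ p.n) (hv : 0 < p.v) (x0 : 0 ≤ p.xs)
    (hx : p.xs ≤ 1 - 1 / p.n) (g1 : g ≤ 1) (v4 : 1000 * p.v ≤ 1 / (p.n : ℝ) ^ 4) :
    ∃ P, p.SpOk g P := by
  have np : (0 : ℝ) < p.n := by linarith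
  have γ0 : 0 < (p.n : ℝ) ^ (-g) := rpow_pos_of_pos np _
  have γn : 1 / p.n ≤ (p.n : ℝ) ^ (-g) := by
    rw [one_div, ← rpow_neg_one]
    exact rpow_le_rpow_of_exponent_le (by linarith) (by linarith)
  have L := p.lL_pos
  have e2 : (p.n : ℝ) ^ (-(2 : ℝ)) = 1 / (p.n : ℝ) ^ 2 := by rw [rpow_neg np.le]; norm_num
  have e3 : (p.n : ℝ) ^ (-(3 : ℝ)) = 1 / (p.n : ℝ) ^ 3 := by rw [rpow_neg np.le]; norm_num
  have u1 : 1 / (p.n : ℝ) ^ 2 ≤ 1 / p.n := one_div_le_one_div_of_le np (by nlinarith)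
  have u3 : (p.n : ℝ) ^ (-(3 : ℝ)) ≤ (p.n : ℝ) ^ (-(2 : ℝ)) / 2 := by
    rw [e2, e3, div_div]
    exact one_div_le_one_div_of_le (by positivity) (by nlinarith [pow_pos np 2])
  obtain ⟨I, x, a, b, c, d, e⟩ := exists_grid (ρ := fun x => (p.n : ℝ) ^ (-g) * p.lsp ((p.n : ℝ) ^ (-g)) x)
    (x0 := p.xs) (ue := (p.n : ℝ) ^ (-(2 : ℝ))) (κ := (p.n : ℝ) ^ (-g) / (2 * p.lL)) hv
    (by positivity) (by rw [e2]; linarith) (by
      have k : 1 / p.n / (2 * (12 * p.n)) ≤ (p.n : ℝ) ^ (-g) / (2 * p.lL) :=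
        div_le_div₀ γ0.le γn (by positivity) (by linarith [lL_le hn])
      have k' := mul_le_mul_of_nonneg_right k (show 0 ≤ 1 / (p.n : ℝ) ^ 2 by positivity)
      have e : 1 / p.n / (2 * (12 * p.n)) * (1 / (p.n : ℝ) ^ 2) = 1 / (p.n : ℝ) ^ 4 / 24 := by
        field_simp; ring
      rw [e2]; linarith)
    (continuousOn_const.mul (cont_lsp p _)) fun a b ha hab hb => by
      have := mul_le_mul_of_nonneg_left (p.lsp_inc ((p.n : ℝ) ^ (-g)) x0 ha hab hb.le) γ0.le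
      rw [div_mul_eq_mul_div, mul_div_assoc]; linarith
  refine ⟨⟨I, x, 0, 0, (p.n : ℝ) ^ (-g)⟩, rfl, rfl, rfl, a, b, fun i hi => ?_, u3.trans d, e⟩
  have := c i hi
  simp only [mul_sub]
  constructor <;> linarith

theorem v4_of {β c0 C0 K η : ℝ} {p : Pm} (h : Ctx β c0 C0 K η p) (hK : 1000 * β ^ 2 ≤ p.n)
    (hA : 5 ≤ p.A) : 1000 * p.v ≤ 1 / (p.n : ℝ) ^ 4 := by
  have np := h.n_pos
  have a := h.v_le (k := 5) (by exact_mod_cast hA)
  rw [rpow_neg np.le, show ((p.n : ℝ) ^ (5 : ℝ)) = (p.n : ℝ) ^ 5 by norm_num] at a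
  have b : 1000 * (β ^ 2 * ((p.n : ℝ) ^ 5)⁻¹) ≤ 1 / (p.n : ℝ) ^ 4 := by
    rw [← mul_assoc, ← div_eq_mul_inv, div_le_div_iff₀ (by positivity) (by positivity)]
    nlinarith [mul_le_mul_of_nonneg_right hK (pow_pos np 4).le]
  linarith

end Crest.Agent.T156.Alt.Plt13

namespace Crest.Agent.T156.Alt

/-- **`PlEx`** -/
theorem plEx {β g : ℝ} (hβ : 1 < β) (g1 : g ≤ 1) : Gain β (PlEx g) :=
  Gain.introF (Par.intro' 5 one_pos fun c0 C0 _ _ h0 h1 hA _ _ => by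
    obtain ⟨K, c2, hc, H⟩ := Plt13.fin_nm hβ c0 C0 h0 h1
    refine ⟨1, one_pos, 1, one_pos, max K (1000 * β ^ 2), fun p a _ h => ?_⟩
    have h' := h.mono (le_max_left _ _) le_rfl
    have k := h.big.le_rpow
    rw [Real.rpow_one] at k
    have N := (H p h').2 p.μ0 le_rfl ((h.μ0_le_μ h.mem_end).trans ((h.μ_le h.mem_end).trans
      (pow_le_of_le_one h.κ_pos.le h.κ_le_one (by norm_num))))
    exact ⟨fun μ a b => ((H p h').2 μ a b).exists_plOk,
      Plt13.exists_spOk N.n2 N.v0 N.x0.le N.x1 g1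
        (Plt13.v4_of h ((le_max_right _ _).trans k) (a ▸ hA)),
      (Plt13.y1_facts h).1, (Plt13.y1_facts h).2.1⟩)

end Crest.Agent.T156.Alt

end
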