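import Crest.Agent.T156.AltTopF_11
import Crest.Agent.T156.AltReg_29

/-!
# Row 156 (helper59): stage C is a chain of segments and snaps

`alM g P α`: labels of `P`, referenced spread `n^{-g}`, static marks `α μ rF`.
-/

set_option autoImplicit false

noncomputable section

namespace Crest.Agent.T156.Alt

open Real Set Filter Topology

namespace Pm

variable (p : Pm)

/-- the end mass -/
def μe : ℝ := p.μ 1 p.ye

/-- labels of `P`, spread `n^{-g}`, static data `α rF` -/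
def alP (g : ℝ) (P : Pl) (α : ℝ) : Pl :=
  ⟨P.I, P.x, fun x => α * (p.μe * p.rF p.μe x), fun x => α * p.rF p.μe x, (p.n : ℝ) ^ (-g)⟩

/-- the models of stage C2 -/
def alM (g : ℝ) (P : Pl) (α : ℝ) : Md := p.tst (p.alP g P α) p.ye

/-- the models of stage C1: reference of `tst P`, the field moves to that of `alM g P 1` up to the
node `Jp` -/
def c1M (g : ℝ) (P : Pl) (t : ℝ) : Md :=
  p.fam P 1 p.ye p.jf (p.b 1 p.ye) 0 fun k =>
    t * ((p.alM g P 1).H (min k (p.Jp P)) - (p.tst P p.ye).H (min k (p.Jp P)))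

/-- a fine grid of plateau labels -/
structure Fine (P : Pl) : Prop where
  x0 : P.x 0 = p.xs
  xm : StrictMono P.x
  ms : ∀ i < P.I, P.x (i + 1) - P.x i ≤ (p.n : ℝ) ^ (-(2 : ℝ))
  e1 : P.x P.I < 1
  e2 : 1 - P.x P.I ≤ (p.n : ℝ) ^ (-(2 : ℝ))

/-- uniform mesh for the clock `α rF + γ lsp` -/
structure AlOk (g α : ℝ) (P : Pl) : Prop extends p.Fine P where
  st : ∀ i < P.I,
    p.v / 2 ≤ α * (p.rF p.μe (P.x (i + 1)) - p.rF p.μe (P.x i)) +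
      (p.n : ℝ) ^ (-g) *
        (p.lsp ((p.n : ℝ) ^ (-g)) (P.x (i + 1)) - p.lsp ((p.n : ℝ) ^ (-g)) (P.x i)) ∧
    α * (p.rF p.μe (P.x (i + 1)) - p.rF p.μe (P.x i)) +
      (p.n : ℝ) ^ (-g) *
        (p.lsp ((p.n : ℝ) ^ (-g)) (P.x (i + 1)) - p.lsp ((p.n : ℝ) ^ (-g)) (P.x i)) ≤ 3 * p.v
  e3 : (p.n : ℝ) ^ (-(3 : ℝ)) ≤ 1 - P.x P.I

/-- size and root tilt -/
structure InW (m : ℕ) (a : ℝ) : Prop where
  m1 : p.n ≤ m
  m2 : m ≤ 2 * p.n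
  a1 : (p.n : ℝ) ^ (-(1 : ℝ) / 6) / 2 ≤ a
  a2 : a ≤ p.am

/-- the level above which the crude location is used -/
def lC : ℝ := p.s * (p.n : ℝ) ^ (p.c - 1 / 6)

/-- `∫ (rb - q)² dx` on the labels above `xs / 2` -/
def tw (P : Pl) (M : Md) (m : ℕ) (a : ℝ) : ℝ :=
  ∑ k ∈ (Finset.Ioc p.jf (p.Jp P)).filter fun k => p.xs / 2 ≤ M.z (k - 1),
    (M.z k - M.z (k - 1)) * (M.rb m a k - M.q k) ^ 2

end Pm

/-! ### the leaves -/

/-- grids -/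
def AlEx (g : ℝ) (_δ : ℝ) (p : Pm) : Prop :=
  (∀ P, p.PlOk p.μe P → p.AlOk g 1 P) ∧ (∀ P, p.SpOk g P → p.Fine P) ∧
    ∀ α, 0 < α → α ≤ 1 → ∃ P, p.AlOk g α P

/-- the spread is switched on (segment) -/
def C1S (g : ℝ) (δ : ℝ) (p : Pm) : Prop :=
  ∀ P, p.PlOk p.μe P → Go δ p (p.tst P p.ye) (p.c1M g P 1)

/-- the reveal levels are replaced (exact) -/
def C1T (g : ℝ) (δ : ℝ) (p : Pm) : Prop :=
  ∀ P, p.PlOk p.μe P → p.AlOk g 1 P → Go δ p (p.c1M g P 1) (p.alM g P 1)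

/-- the static marks are halved (segment) -/
def C2S (g : ℝ) (δ : ℝ) (p : Pm) : Prop :=
  ∀ α P, 0 < α → α ≤ 1 → p.AlOk g α P → Go δ p (p.alM g P α) (p.alM g P (α / 2))

/-- the last static marks are removed (segment, no location) -/
def C3S (g : ℝ) (δ : ℝ) (p : Pm) : Prop :=
  ∀ α P, 0 < α → α ≤ (p.n : ℝ)⁻¹ → p.AlOk g α P → Go δ p (p.alM g P α) (p.alM g P 0)

/-- the grid is switched (snap) -/
def C2T (g : ℝ) (δ : ℝ) (p : Pm) : Prop :=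
  ∀ α α' P P', 0 ≤ α' → α' ≤ α → α ≤ 1 → p.AlOk g α P →
    (p.AlOk g α' P' ∨ α' = 0 ∧ p.Fine P') → Go δ p (p.alM g P α') (p.alM g P' α')

/-- location input of `C1S` (loss form) -/
def SprL1 (g : ℝ) (Λ : ℝ) (p : Pm) : Prop :=
  ∀ P, p.PlOk p.μe P → ∀ t ∈ Icc (0 : ℝ) 1, ∀ m a, p.InW m a →
    (∀ k ≤ p.Jp P, (p.c1M g P t).rb m a k ≤ Λ * max ((p.c1M g P t).z k) p.lC) ∧
    p.tw P (p.c1M g P t) m a ≤ Λ * p.s ^ 8 * (p.n : ℝ) ^ (-(2 : ℝ) / 3) / p.μe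

/-- location input of `C2S` (loss form; trivial for `α ≤ n^{-1/3}`) -/
def SprL2 (g : ℝ) (Λ : ℝ) (p : Pm) : Prop :=
  ∀ α α' P, 0 < α → α ≤ 1 → α / 2 ≤ α' → α' ≤ α → p.AlOk g α P → ∀ m a, p.InW m a →
    p.tw P (p.alM g P α') m a ≤ Λ * p.s ^ 8 * (p.n : ℝ) ^ (-(2 : ℝ) / 3) / (α ^ 2 * p.μe)

/-! ### the glue -/

theorem alM_zero {g : ℝ} {p : Pm} {P : Pl} (h : p.SpOk g P) : p.alM g P 0 = p.tst P p.ye := by
  have : p.alP g P 0 = P := by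
    obtain ⟨I, x, hs, rs, γ⟩ := P
    have h1 : hs = 0 := h.hs
    have h2 : rs = 0 := h.rs
    have h3 : γ = (p.n : ℝ) ^ (-g) := h.g'
    subst h1 h2 h3
    simp only [Pm.alP, zero_mul]
    rfl
  rw [Pm.alM, this]

theorem spr_chain {g d δ : ℝ} {p : Pm} (hs : 0 ≤ p.s) (hδ : 0 ≤ δ) (hE : AlEx g d p)
    (h2 : C2S g δ p) (hT : C2T g δ p) {P : Pl} (hP : p.AlOk g 1 P) {M : Md}
    (h0 : Go δ p M (p.alM g P 1)) : ∀ i : ℕ, ∃ P', p.AlOk g ((1 / 2) ^ i) P' ∧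
      Go ((2 * i + 1) * δ) p M (p.alM g P' ((1 / 2) ^ i))
  | 0 => ⟨P, by simpa using hP, by simpa using h0⟩
  | i + 1 => by
    obtain ⟨P', a, b⟩ := spr_chain hs hδ hE h2 hT hP h0 i
    have p0 : (0 : ℝ) < (1 / 2) ^ i := by positivity
    have p1 : ((1 : ℝ) / 2) ^ i ≤ 1 := pow_le_one₀ (by norm_num) (by norm_num)
    have e : ((1 : ℝ) / 2) ^ (i + 1) = (1 / 2) ^ i / 2 := by ring
    obtain ⟨P'', c⟩ := hE.2.2 ((1 / 2) ^ i / 2) (by positivity) (by linarith)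
    have hi : (0 : ℝ) ≤ (2 * i + 1) * δ := by positivity
    rw [e]
    exact ⟨P'', c, ((b.trans (h2 _ P' p0 p1 a) hs hi hδ).trans
      (hT _ _ P' P'' (by positivity) (by linarith) p1 a (Or.inl c)) hs (by linarith) hδ).mono hs
      (by push_cast; linarith)⟩

/-- **stage C from its steps** -/
theorem sprS_of {β g : ℝ} (hβ : 1 < β) (hE : Gain β (AlEx g)) (h1 : Gain β (C1S g))
    (h1' : Gain β (C1T g)) (h2 : Gain β (C2S g)) (h3 : Gain β (C3S g)) (hT : Gain β (C2T g)) :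
    Gain β (SprS g) := by
  have m1 : Mo fun δ p => 0 ≤ p.s → C1S g δ p := fun x x' p _ h H hs P hP => (H hs P hP).mono hs h
  have m1' : Mo fun δ p => 0 ≤ p.s → C1T g δ p := fun x x' p _ h H hs P hP hP' =>
    (H hs P hP hP').mono hs h
  have m2 : Mo fun δ p => 0 ≤ p.s → C2S g δ p := fun x x' p _ h H hs α P a b c =>
    (H hs α P a b c).mono hs h
  have m3 : Mo fun δ p => 0 ≤ p.s → C3S g δ p := fun x x' p _ h H hs α P a b c =>
    (H hs α P a b c).mono hs h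
  have mT : Mo fun δ p => 0 ≤ p.s → C2T g δ p := fun x x' p _ h H hs α α' P P' a b c d e =>
    (H hs α α' P P' a b c d e).mono hs h
  have mE : Mo (AlEx g) := fun _ _ _ _ _ H => H
  have lift : ∀ {Q : ℝ → Pm → Prop}, Gain β Q → Gain β fun δ p => 0 ≤ p.s → Q δ p :=
    fun H c0 C0 a b => (H c0 C0 a b).mono fun _ H => H.mono fun _ H => H.imp fun _ H =>
      ⟨H.1, H.2.mono fun _ H p b1 b2 b3 b4 b5 _ => H p b1 b2 b3 b4 b5⟩
  refine Sml.gain (Sml.glue' hβ (((((((lift h1).sml 3 m1).and ((lift h1').sml 3 m1')).and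
    ((lift h2).sml 3 m2)).and ((lift h3).sml 3 m3)).and ((lift hT).sml 3 mT)).and (hE.sml 3 mE))
    2 one_pos 1 ?_)
  intro c0 C0 A c η _ _ _ _
  refine ⟨1, fun p H _ _ _ ⟨⟨⟨⟨⟨k1, k1'⟩, k2⟩, k3⟩, kT⟩, kE⟩ P P' hP hP' => ?_⟩
  have hs := H.s0.le
  set Λ := (p.n : ℝ) ^ η with hΛ
  have hΛ0 : 0 < Λ := H.Λ0
  set d := Λ⁻¹ ^ 3 with hd
  have d0 : 0 ≤ d := by positivity
  set i := ⌈2 * log (p.n : ℝ)⌉₊ with hi
  have hl := H.log1
  have hi1 : 2 * log (p.n : ℝ) ≤ i := Nat.le_ceil _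
  have hi2 : (i : ℝ) ≤ 2 * log p.n + 1 := (Nat.ceil_lt_add_one (by linarith)).le
  have e2 : (p.n : ℝ) ≤ 2 ^ i := by
    have h3 : (1 : ℝ) / 2 ≤ log 2 := by linarith [log_two_gt_d9]
    rw [← log_le_log_iff H.N0 (by positivity), log_pow]
    nlinarith
  have e3 : ((1 : ℝ) / 2) ^ i ≤ (p.n : ℝ)⁻¹ := by
    rw [one_div, inv_pow]
    exact inv_anti₀ H.N0 e2
  have hA := kE.1 P hP
  have g1 := (k1 hs P hP).trans (k1' hs P hP hA) hs d0 d0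
  have mo : ∀ {x y : ℝ} {M M' : Md}, x ≤ y → Go x p M M' → Go y p M M' := fun h G => G.mono hs h
  obtain ⟨Q, a, b⟩ := spr_chain (δ := d + d) hs (by positivity) kE
    (fun α P a b c => mo (by linarith) (k2 hs α P a b c))
    (fun α α' P P' a b c e f => mo (by linarith) (kT hs α α' P P' a b c e f)) hA g1 i
  have p0 : (0 : ℝ) < (1 / 2) ^ i := by positivity
  have p1 : ((1 : ℝ) / 2) ^ i ≤ 1 := pow_le_one₀ (by norm_num) (by norm_num)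
  have hi0 : (0 : ℝ) ≤ (2 * i + 1) * (d + d) := by positivity
  have := (b.trans (k3 hs _ Q p0 e3 a) hs hi0 d0).trans
    (kT hs _ 0 Q P' le_rfl p0.le p1 a (Or.inr ⟨rfl, kE.2.1 P' hP'⟩)) hs (by positivity) d0
  rw [alM_zero hP'] at this
  refine this.mono hs ?_
  have h5 : log (p.n : ℝ) ≤ Λ := H.log_le
  have h6 : 1000 ≤ Λ := H.num_le
  have h7 : (4 * i + 4 : ℝ) ≤ Λ ^ 2 := by nlinarith
  calc (2 * i + 1 : ℝ) * (d + d) + d + d = (4 * i + 4) * Λ⁻¹ ^ 3 := by rw [hd]; ring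
    _ ≤ Λ ^ 2 * Λ⁻¹ ^ 3 := by gcongr
    _ = Λ⁻¹ := by field_simp

end Crest.Agent.T156.Alt

end
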