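import Crest.Agent.T156.PlW_13
import Crest.Agent.T156.PlS_13
import Crest.Agent.T156.SprDef_59

/-!
# Row 156, ALT: the grids of stage C (helper13)
-/

set_option autoImplicit false
set_option linter.unusedSectionVars false

noncomputable section

namespace Crest.Agent.T156.Alt.Plt13

open Real Set Finset
open Crest.Agent.T157.Nm

/-- the clock `α rF + γ lsp` -/
def rA (g : ℝ) (p : Pm) (α x : ℝ) : ℝ :=
  α * p.rF p.μe x + (p.n : ℝ) ^ (-g) * p.lsp ((p.n : ℝ) ^ (-g)) x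

/-- the density of `γ lsp` (`1` outside `[xs, 1)`) -/
def dL (p : Pm) (γ x : ℝ) : ℝ := if p.xs ≤ x ∧ x < 1 then γ * p.lsp' γ x else 1

/-- the density of `rA` -/
def dA (g : ℝ) (p : Pm) (α x : ℝ) : ℝ := α * dn p p.μe x + dL p ((p.n : ℝ) ^ (-g)) x

theorem log_sub_bd {a b : ℝ} (ha : 0 < a) (h : a ≤ b) :
    (b - a) / b ≤ log b - log a ∧ log b - log a ≤ (b - a) / a := by
  have hb := ha.trans_le h
  have c := log_le_sub_one_of_pos (div_pos ha hb)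
  have d := log_le_sub_one_of_pos (div_pos hb ha)
  rw [log_div ha.ne' hb.ne'] at c
  rw [log_div hb.ne' ha.ne'] at d
  rw [sub_div, sub_div, div_self ha.ne', div_self hb.ne']
  constructor <;> linarith

/-- two-sided increments of the spread -/
theorem lsp_bd (p : Pm) (γ : ℝ) {a b : ℝ} (ha : p.xs ≤ a) (hab : a ≤ b) (hb : b ≤ 1) :
    (1 / (b - p.xs + p.l0' γ) + 1 / (1 - a + p.l1')) / p.lL * (b - a) ≤ p.lsp γ b - p.lsp γ a ∧
      p.lsp γ b - p.lsp γ a ≤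
        (1 / (a - p.xs + p.l0' γ) + 1 / (1 - b + p.l1')) / p.lL * (b - a) := by
  have c := log_sub_bd (a := a - p.xs + p.l0' γ) (b := b - p.xs + p.l0' γ)
    (by linarith [p.l0'_pos γ]) (by linarith)
  have d := log_sub_bd (a := 1 - b + p.l1') (b := 1 - a + p.l1') (by linarith [p.l1'_pos])
    (by linarith)
  rw [show b - p.xs + p.l0' γ - (a - p.xs + p.l0' γ) = b - a by ring] at c
  rw [show 1 - a + p.l1' - (1 - b + p.l1') = b - a by ring] at d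
  unfold Pm.lsp
  rw [← sub_div, div_mul_eq_mul_div, div_mul_eq_mul_div, add_mul, add_mul, one_div_mul_eq_div,
    one_div_mul_eq_div, one_div_mul_eq_div, one_div_mul_eq_div]
  exact ⟨div_le_div_of_nonneg_right (by linarith [c.1, d.1]) p.lL_pos.le,
    div_le_div_of_nonneg_right (by linarith [c.2, d.2]) p.lL_pos.le⟩

theorem inv_shell {A A' : ℝ} (h0 : 0 < A) (h1 : A ≤ A') (h2 : A' ≤ 2 * A) :
    1 / A' ≤ 1 / A ∧ 1 / A ≤ 2 * (1 / A') := by
  refine ⟨one_div_le_one_div_of_le h0 h1, ?_⟩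
  rw [mul_one_div, div_le_div_iff₀ h0 (h0.trans_le h1)]; linarith

/-- slopes and slow variation of the spread on shells -/
theorem lsp_shell (p : Pm) (γ : ℝ) {a b : ℝ} (ha : p.xs ≤ a) (hab : a ≤ b) (hb : b ≤ 1)
    (hs : b - a ≤ min (a - p.xs + p.l0' γ) (1 - b)) :
    (p.lsp' γ a * (b - a) ≤ 2 * (p.lsp γ b - p.lsp γ a) ∧
      p.lsp γ b - p.lsp γ a ≤ 2 * (p.lsp' γ a * (b - a))) ∧
    p.lsp' γ a ≤ 2 * p.lsp' γ b ∧ p.lsp' γ b ≤ 2 * p.lsp' γ a := by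
  obtain ⟨s1, s2⟩ := le_min_iff.1 hs
  have L := p.lL_pos
  have pA : 0 < a - p.xs + p.l0' γ := by linarith [p.l0'_pos γ]
  have pB : 0 < 1 - b + p.l1' := by linarith [p.l1'_pos]
  have c := inv_shell pA (A' := b - p.xs + p.l0' γ) (by linarith) (by linarith)
  have d := inv_shell pB (A' := 1 - a + p.l1') (by linarith) (by linarith [p.l1'_pos])
  have c0 := (one_div_pos.2 pA).le
  have d0 := (one_div_pos.2 pB).le
  have c1 : 0 ≤ 1 / (b - p.xs + p.l0' γ) := (one_div_pos.2 (by linarith)).le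
  have d1 : 0 ≤ 1 / (1 - a + p.l1') := (one_div_pos.2 (by linarith)).le
  have e := lsp_bd p γ ha hab hb
  have w := sub_nonneg.2 hab
  have f1 : p.lsp' γ a ≤ 2 * ((1 / (b - p.xs + p.l0' γ) + 1 / (1 - a + p.l1')) / p.lL) := by
    unfold Pm.lsp'; rw [← mul_div_assoc]
    exact div_le_div_of_nonneg_right (by linarith [c.2]) L.le
  have f2 : (1 / (a - p.xs + p.l0' γ) + 1 / (1 - b + p.l1')) / p.lL ≤ 2 * p.lsp' γ a := by
    unfold Pm.lsp'; rw [← mul_div_assoc]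
    exact div_le_div_of_nonneg_right (by linarith [d.2]) L.le
  refine ⟨⟨by linarith [mul_le_mul_of_nonneg_right f1 w, e.1],
    by linarith [mul_le_mul_of_nonneg_right f2 w, e.2]⟩, ?_, ?_⟩ <;> unfold Pm.lsp' <;>
    rw [← mul_div_assoc]
  · exact div_le_div_of_nonneg_right (by linarith [c.2, d.1]) L.le
  · exact div_le_div_of_nonneg_right (by linarith [c.1, d.2]) L.le

theorem dL_eq {p : Pm} (γ : ℝ) {x : ℝ} (h0 : p.xs ≤ x) (h1 : x < 1) :
    dL p γ x = γ * p.lsp' γ x := by simp [dL, h0, h1]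

theorem dL_pos (p : Pm) {γ : ℝ} (hγ : 0 < γ) (x : ℝ) : 0 < dL p γ x := by
  unfold dL
  split_ifs with h
  · exact mul_pos hγ (p.lsp'_pos γ h.1 h.2.le)
  · exact one_pos

/-- numeric facts of stage C -/
structure Ne (g : ℝ) (p : Pm) : Prop where
  nm : Nm p p.μe
  gl : 256 * (p.n : ℝ) ^ (-g) ≤ p.la p.μe
  gL : p.lL / p.n ≤ (p.n : ℝ) ^ (-g)
  v4 : 1000 * p.v ≤ 1 / (p.n : ℝ) ^ 4

theorem rA_sub (g : ℝ) (p : Pm) (α a b : ℝ) : rA g p α b - rA g p α a =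
    α * (p.rF p.μe b - p.rF p.μe a) + (p.n : ℝ) ^ (-g) *
      (p.lsp ((p.n : ℝ) ^ (-g)) b - p.lsp ((p.n : ℝ) ^ (-g)) a) := by unfold rA; ring

namespace Ne

variable {g : ℝ} {p : Pm} (h : Ne g p)
include h

theorem γ0 : 0 < (p.n : ℝ) ^ (-g) := rpow_pos_of_pos h.nm.np _
theorem γ1 : (p.n : ℝ) ^ (-g) ≤ 1 / 16 := by linarith [h.gl, h.nm.l_le]
theorem e2 : (p.n : ℝ) ^ (-(2 : ℝ)) = 1 / (p.n : ℝ) ^ 2 := by rw [rpow_neg h.nm.np.le]; norm_num
theorem e3 : (p.n : ℝ) ^ (-(3 : ℝ)) = 1 / (p.n : ℝ) ^ 3 := by rw [rpow_neg h.nm.np.le]; norm_num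

theorem gn : 1 / p.n ≤ (p.n : ℝ) ^ (-g) :=
  (div_le_div_of_nonneg_right (by linarith [p.lL_ge]) h.nm.np.le).trans h.gL

theorem l0_eq : p.l0' ((p.n : ℝ) ^ (-g)) = 64 * ((p.n : ℝ) ^ (-g) / p.lL) := by
  rw [p.l0'_eq ((one_div_le_one_div_of_le h.nm.np (by linarith)).trans h.gn), mul_div_assoc]

theorem w_ge : 1 / p.n ≤ (p.n : ℝ) ^ (-g) / p.lL := by
  have := h.gL
  rw [div_le_iff₀ h.nm.np] at this
  rw [div_le_div_iff₀ h.nm.np p.lL_pos]; linarith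

theorem w_le : 1536 * ((p.n : ℝ) ^ (-g) / p.lL) ≤ p.la p.μe := by
  have := div_le_div_of_nonneg_left h.γ0.le (by norm_num : (0 : ℝ) < 6) p.lL_ge
  linarith [h.gl]

/-- `l0' ≤ u0` -/
theorem l0_le : p.l0' ((p.n : ℝ) ^ (-g)) ≤ u0 p p.μe := by
  rw [h.l0_eq]; linarith [h.w_le, h.nm.l_le_u0, h.nm.lp]

/-- lower slope `1 / (2 n)` of the spread -/
theorem sp_ge {a b : ℝ} (ha : p.xs ≤ a) (hab : a ≤ b) (hb : b ≤ 1) : 1 / p.n / 2 * (b - a) ≤
    (p.n : ℝ) ^ (-g) * (p.lsp ((p.n : ℝ) ^ (-g)) b - p.lsp ((p.n : ℝ) ^ (-g)) a) := by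
  have a1 := mul_le_mul_of_nonneg_left (p.lsp_inc ((p.n : ℝ) ^ (-g)) h.nm.x0.le ha hab hb) h.γ0.le
  have a2 := mul_le_mul_of_nonneg_right h.w_ge (sub_nonneg.2 hab)
  have e : (p.n : ℝ) ^ (-g) * ((b - a) / (2 * p.lL)) = (p.n : ℝ) ^ (-g) / p.lL * (b - a) / 2 := by
    ring
  linarith

/-- `1000 v ≤ γ n⁻³` -/
theorem vγ : 1000 * p.v ≤ (p.n : ℝ) ^ (-g) * (p.n : ℝ) ^ (-(3 : ℝ)) := by
  have np := h.nm.np
  have a := mul_le_mul_of_nonneg_right h.gn (show 0 ≤ 1 / (p.n : ℝ) ^ 3 by positivity)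
  have e : 1 / (p.n : ℝ) * (1 / (p.n : ℝ) ^ 3) = 1 / (p.n : ℝ) ^ 4 := by field_simp
  rw [h.e3]; linarith [h.v4]

theorem n32 : (p.n : ℝ) ^ (-(3 : ℝ)) ≤ (p.n : ℝ) ^ (-(2 : ℝ)) / 2 := by
  have np := h.nm.np
  rw [h.e2, h.e3, div_div]
  exact one_div_le_one_div_of_le (by positivity) (by nlinarith [pow_pos np 2, h.nm.n2])

theorem n21 : (p.n : ℝ) ^ (-(2 : ℝ)) ≤ 1 / p.n := by
  have np := h.nm.np
  rw [h.e2]
  exact one_div_le_one_div_of_le np (by nlinarith [h.nm.n2])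

theorem n30 : 0 < (p.n : ℝ) ^ (-(3 : ℝ)) := rpow_pos_of_pos h.nm.np _

/-- a label step with `d / (2 n) ≤ 3 v` is tiny -/
theorem tiny {d : ℝ} (hd : 1 / p.n / 2 * d ≤ 3 * p.v) : d ≤ (p.n : ℝ) ^ (-(3 : ℝ)) / 100 := by
  have np := h.nm.np
  have e : 1 / (p.n : ℝ) ^ 4 = 1 / p.n * (1 / (p.n : ℝ) ^ 3) := by field_simp
  have a := h.v4
  rw [h.e3]
  refine le_of_mul_le_mul_left ?_ (one_div_pos.2 np)
  linarith [h.nm.v0]

/-- `Cl.den0` -/
theorem dA_pos {α : ℝ} (h0 : 0 ≤ α) (x : ℝ) : 0 < dA g p α x :=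
  add_pos_of_nonneg_of_pos (mul_nonneg h0 (h.nm.den0 x).le) (dL_pos p h.γ0 x)

theorem dA_ge {α x : ℝ} (hα : 0 ≤ α) (h0 : p.xs ≤ x) (h1 : x < 1) :
    (p.n : ℝ) ^ (-g) * p.lsp' ((p.n : ℝ) ^ (-g)) x ≤ dA g p α x := by
  rw [← dL_eq _ h0 h1]
  exact le_add_of_nonneg_left (mul_nonneg hα (h.nm.den0 x).le)

theorem sh_u0 {a b : ℝ} (hs : b - a ≤ min (a - p.xs + p.l0' ((p.n : ℝ) ^ (-g))) (1 - b)) :
    b - a ≤ min (a - p.xs + u0 p p.μe) (1 - b) :=
  hs.trans (min_le_min (by linarith [h.l0_le]) le_rfl)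

/-- `Cl.dens` with `u0 = l0' γ` -/
theorem dA_dens {α x x' : ℝ} (hα : 0 ≤ α) (h0 : p.xs ≤ x) (h1 : x ≤ x') (h2 : x' < 1)
    (hs : x' - x ≤ min (x - p.xs + p.l0' ((p.n : ℝ) ^ (-g))) (1 - x')) :
    dA g p α x ≤ 3 * dA g p α x' ∧ dA g p α x' ≤ 3 * dA g p α x := by
  have a := h.nm.dens h0 h1 h2 (h.sh_u0 hs)
  have b := mul_le_mul_of_nonneg_left a.1 hα
  have c := mul_le_mul_of_nonneg_left a.2 hα
  have d := (lsp_shell p _ h0 h1 h2.le hs).2
  have d1 := mul_le_mul_of_nonneg_left d.1 h.γ0.le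
  have d2 := mul_le_mul_of_nonneg_left d.2 h.γ0.le
  have e1 := dL_pos p h.γ0 x
  have e2 := dL_pos p h.γ0 x'
  unfold dA
  rw [dL_eq _ h0 (h1.trans_lt h2)] at e1 ⊢
  rw [dL_eq _ (h0.trans h1) h2] at e2 ⊢
  constructor <;> linarith

theorem rA_slope {α a b : ℝ} (hα : 0 ≤ α) (ha : p.xs ≤ a) (hab : a ≤ b) (hb : b < 1)
    (hs : b - a ≤ min (a - p.xs + p.l0' ((p.n : ℝ) ^ (-g))) (1 - b)) :
    dA g p α a * (b - a) ≤ 39 * (rA g p α b - rA g p α a) ∧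
      rA g p α b - rA g p α a ≤ 39 * (dA g p α a * (b - a)) := by
  have s := h.nm.clw.slope a b ha hab hb (h.sh_u0 hs)
  have s1 := mul_le_mul_of_nonneg_left s.1 hα
  have s2 := mul_le_mul_of_nonneg_left s.2 hα
  have d := (lsp_shell p _ ha hab hb.le hs).1
  have d1 := mul_le_mul_of_nonneg_left d.1 h.γ0.le
  have d2 := mul_le_mul_of_nonneg_left d.2 h.γ0.le
  have t := mul_nonneg h.γ0.le (mul_nonneg (p.lsp'_pos ((p.n : ℝ) ^ (-g)) ha
    (hab.trans hb.le)).le (sub_nonneg.2 hab))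
  have t' := mul_nonneg h.γ0.le (sub_nonneg.2 (p.lsp_le ((p.n : ℝ) ^ (-g)) ha hab hb.le))
  rw [rA_sub]
  unfold dA
  rw [dL_eq _ ha (hab.trans_lt hb)]
  constructor <;> linarith

theorem rA_ge {α a b : ℝ} (hα : 0 ≤ α) (ha : p.xs ≤ a) (hab : a ≤ b) (hb : b < 1) :
    1 / p.n / 2 * (b - a) ≤ rA g p α b - rA g p α a := by
  rw [rA_sub]
  exact (h.sp_ge ha hab hb.le).trans
    (le_add_of_nonneg_left (mul_nonneg hα (sub_nonneg.2 (h.nm.clw.le ha hab hb))))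

theorem exists_alOk {α : ℝ} (hα : 0 ≤ α) : ∃ P, p.AlOk g α P := by
  have hv := h.nm.v0
  have np := h.nm.np
  have u1 : p.xs ≤ 1 - (p.n : ℝ) ^ (-(2 : ℝ)) := by linarith [h.nm.x1, h.n21]
  obtain ⟨I, x, a, b, c, d, e⟩ := exists_grid (ρ := rA g p α) (κ := 1 / p.n / 2) hv
    (by positivity) u1 (by
      have e : 1 / (p.n : ℝ) ^ 4 = 1 / p.n * (1 / (p.n : ℝ) ^ 3) := by field_simp
      have f := mul_le_mul_of_nonneg_left h.n32 (one_div_pos.2 np).le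
      rw [h.e3] at f
      linarith [h.v4])
    ((continuousOn_const.mul h.nm.clw.cont).add (continuousOn_const.mul (cont_lsp p _)))
    fun a b ha hab hb => h.rA_ge hα ha hab hb
  have lt : x I < 1 := by linarith [h.n32, h.n30]
  refine ⟨⟨I, x, 0, 0, 0⟩, ⟨a, b, fun i hi => ?_, lt, e⟩, fun i hi => ?_, h.n32.trans d⟩
  · have := h.rA_ge hα (a.ge.trans (b.monotone (Nat.zero_le i))) (b.monotone (Nat.le_succ i))
      ((b.monotone hi).trans_lt lt)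
    rw [c i hi] at this
    exact (h.tiny (by linarith)).trans (by linarith [h.n32, h.n30])
  · have := c i hi
    rw [rA_sub] at this
    simp only [this]; constructor <;> linarith

/-- **the spread is slower than the static clock** on shells -/
theorem sp_le_rF {a b : ℝ} (ha : p.xs ≤ a) (hab : a ≤ b) (hb : b < 1)
    (hs : b - a ≤ min (a - p.xs + u0 p p.μe) (1 - b)) :
    2 * ((p.n : ℝ) ^ (-g) * (p.lsp ((p.n : ℝ) ^ (-g)) b - p.lsp ((p.n : ℝ) ^ (-g)) a)) ≤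
      p.rF p.μe b - p.rF p.μe a := by
  have N := h.nm
  obtain ⟨s1, s2⟩ := le_min_iff.1 hs
  have d := sub_nonneg.2 hab
  have e := mul_le_mul_of_nonneg_left (lsp_bd p ((p.n : ℝ) ^ (-g)) ha hab hb.le).2 h.γ0.le
  rw [h.l0_eq] at e
  have w1 := h.w_le
  have w0 : 0 < (p.n : ℝ) ^ (-g) / p.lL := div_pos h.γ0 p.lL_pos
  have e' : (p.n : ℝ) ^ (-g) * ((1 / (a - p.xs + 64 * ((p.n : ℝ) ^ (-g) / p.lL)) +
      1 / (1 - b + p.l1')) / p.lL * (b - a)) =
      (p.n : ℝ) ^ (-g) / p.lL / (a - p.xs + 64 * ((p.n : ℝ) ^ (-g) / p.lL)) * (b - a) +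
        (p.n : ℝ) ^ (-g) / p.lL / (1 - b + p.l1') * (b - a) := by ring
  rw [e'] at e
  set w := (p.n : ℝ) ^ (-g) / p.lL
  have lp := N.lp
  have pA : 0 < a - p.xs + u0 p p.μe := by linarith [N.u0p]
  have pB : 0 < b - p.xs + u0 p p.μe := by linarith
  have sB := sqrt_pos.2 pB
  have i := (Rs13.inv_sqrt_sub lp.le pA (u' := b - p.xs + u0 p p.μe) (by linarith)).1
  have r := N.rise_ge ha hab hb
  have e1 : p.la p.μe * (b - p.xs + u0 p p.μe - (a - p.xs + u0 p p.μe)) /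
      (2 * ((b - p.xs + u0 p p.μe) * √(b - p.xs + u0 p p.μe))) =
      db (p.la p.μe) (b - p.xs + u0 p p.μe) * (b - a) := by unfold db; ring
  rw [e1] at i
  have k1 : 4 * (w / (a - p.xs + 64 * w)) ≤ db (p.la p.μe) (b - p.xs + u0 p p.μe) := by
    unfold db
    rw [← mul_div_assoc, div_le_div_iff₀ (by linarith) (by positivity)]
    rcases le_total (b - p.xs + u0 p p.μe) (4 * u0 p p.μe) with c | c
    · have q : √(b - p.xs + u0 p p.μe) ≤ 2 * √(u0 p p.μe) := by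
        rw [sqrt_le_left (by positivity), mul_pow, sq_sqrt N.u0p.le]; linarith
      have su := sqrt_pos.2 N.u0p
      have f := N.fb_u0
      unfold fb at f
      rw [div_eq_iff su.ne'] at f
      have m := mul_le_mul c q sB.le (by linarith [N.u0p])
      nlinarith [mul_le_mul_of_nonneg_left m w0.le, mul_nonneg lp.le (sub_nonneg.2 ha)]
    · have q : √(b - p.xs + u0 p p.μe) ≤ 3 / 2 := by
        rw [sqrt_le_left (by norm_num)]; linarith [N.u0_le, N.x0]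
      have m := mul_le_mul_of_nonneg_left q pB.le
      have m2 : b - p.xs + u0 p p.μe ≤ 4 * (a - p.xs) := by linarith
      nlinarith [mul_le_mul_of_nonneg_left m w0.le, mul_le_mul_of_nonneg_right w1 pB.le,
        mul_le_mul_of_nonneg_left m2 lp.le, mul_pos lp w0]
  have k2 : 156 * (w / (1 - b + p.l1')) ≤ dn p p.μe a := by
    have u : 0 < 1 - a := by linarith
    have su := sqrt_pos.2 u
    have s1' : √(1 - a) ≤ 1 := sqrt_le_one.2 (by linarith [N.x0])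
    have t : p.la p.μe / (4 * (1 - a)) ≤ dt (p.Vc p.μe) (p.la p.μe) (1 - a) := by
      have Vp := N.Vp
      unfold dt
      rw [div_le_div_iff₀ (by positivity) (by positivity)]
      have : p.Vc p.μe * √(1 - a) + p.la p.μe ≤ 2 * p.Vc p.μe := by nlinarith [N.lV]
      nlinarith [mul_le_mul_of_nonneg_left this (mul_pos lp u).le]
    have t2 : 156 * (w / (1 - b + p.l1')) ≤ p.la p.μe / (4 * (1 - a)) := by
      rw [← mul_div_assoc, div_le_div_iff₀ (by linarith [p.l1'_pos]) (by positivity)]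
      have : 1 - a ≤ 2 * (1 - b + p.l1') := by linarith [p.l1'_pos]
      nlinarith [mul_le_mul_of_nonneg_left this w0.le,
        mul_le_mul_of_nonneg_right w1 (show 0 ≤ 1 - b + p.l1' by linarith [p.l1'_pos]),
        mul_pos w0 (show 0 < 1 - b + p.l1' by linarith [p.l1'_pos])]
    unfold dn
    rw [den_eq ha (hab.trans_lt hb)]
    linarith [db_pos lp pA, dt_nn one_pos N.sp.le u]
  have s := (N.clw.slope a b ha hab hb hs).1
  have j1 := mul_le_mul_of_nonneg_right k1 d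
  have j2 := mul_le_mul_of_nonneg_right k2 d
  unfold fb at r
  linarith

theorem alOk_of_plOk {P : Pl} (H : p.PlOk p.μe P) : p.AlOk g 1 P := by
  have k := fun i (hi : i < P.I) => h.sp_le_rF (x_ge h.nm H i) (H.xm.monotone (Nat.le_succ i))
    (x_lt h.nm H hi) (x_shell h.nm H hi)
  have k' := fun i (hi : i < P.I) => h.sp_ge (x_ge h.nm H i) (H.xm.monotone (Nat.le_succ i))
    (x_lt h.nm H hi).le
  refine ⟨⟨H.x0, H.xm, fun i hi => ?_, x_lt h.nm H le_rfl, H.e2⟩, fun i hi => ?_, H.e1⟩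
  · have b := H.st i hi
    rw [H.rs] at b
    exact (h.tiny (by linarith [k i hi, k' i hi, b.2, h.nm.v0])).trans (by linarith [h.n32, h.n30])
  · have b := H.st i hi
    rw [H.rs] at b
    have d := mul_nonneg h.γ0.le (sub_nonneg.2 (p.lsp_le ((p.n : ℝ) ^ (-g)) (x_ge h.nm H i)
      (H.xm.monotone (Nat.le_succ i)) (x_lt h.nm H hi).le))
    constructor <;> linarith [b.1, b.2, k i hi]

/-- the grid of the spread is the grid at `α = 0` -/
theorem alOk_of_spOk {P : Pl} (H : p.SpOk g P) : p.AlOk g 0 P := by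
  have lt : P.x P.I < 1 := by linarith [H.e1, h.n30]
  refine ⟨⟨H.x0, H.xm, fun i hi => ?_, lt, H.e2⟩, fun i hi => ?_, H.e1⟩
  · have a := (H.st i hi).2
    rw [H.g'] at a
    have b := h.sp_ge (H.x0.ge.trans (H.xm.monotone (Nat.zero_le i))) (H.xm.monotone (Nat.le_succ i))
      ((H.xm.monotone hi).trans lt.le)
    exact (h.tiny (b.trans a)).trans (by linarith [h.n32, h.n30])
  · have a := H.st i hi
    rw [H.g'] at a
    rwa [zero_mul, zero_add]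

theorem fine_of_spOk {P : Pl} (H : p.SpOk g P) : p.Fine P := (h.alOk_of_spOk H).toFine

theorem alEx (δ : ℝ) : AlEx g δ p :=
  ⟨fun _ H => h.alOk_of_plOk H, fun _ H => h.fine_of_spOk H, fun _ a _ => h.exists_alOk a.le⟩

/-! ### facts on every grid of stage C -/

section alok
variable {α : ℝ} {P : Pl} (hα : 0 ≤ α) (H : p.AlOk g α P)
include hα H

theorem al_ge (i : ℕ) : p.xs ≤ P.x i := H.x0 ▸ H.xm.monotone (Nat.zero_le i)

theorem al_le {i : ℕ} (hi : i ≤ P.I) : (p.n : ℝ) ^ (-(3 : ℝ)) ≤ 1 - P.x i := by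
  linarith [H.e3, H.xm.monotone hi]

theorem al_lt {i : ℕ} (hi : i ≤ P.I) : P.x i < 1 := by linarith [h.al_le hα H hi, h.n30]

theorem al_st {i : ℕ} (hi : i < P.I) : p.v / 2 ≤ rA g p α (P.x (i + 1)) - rA g p α (P.x i) ∧
    rA g p α (P.x (i + 1)) - rA g p α (P.x i) ≤ 3 * p.v := by
  rw [rA_sub]; exact H.st i hi

/-- `0 ≤ α ΔrF ≤ 3 v`, `0 ≤ γ Δlsp ≤ 3 v` -/
theorem al_rF {i : ℕ} (hi : i < P.I) :
    (0 ≤ α * (p.rF p.μe (P.x (i + 1)) - p.rF p.μe (P.x i)) ∧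
      α * (p.rF p.μe (P.x (i + 1)) - p.rF p.μe (P.x i)) ≤ 3 * p.v) ∧
    0 ≤ (p.n : ℝ) ^ (-g) *
      (p.lsp ((p.n : ℝ) ^ (-g)) (P.x (i + 1)) - p.lsp ((p.n : ℝ) ^ (-g)) (P.x i)) ∧
    (p.n : ℝ) ^ (-g) *
      (p.lsp ((p.n : ℝ) ^ (-g)) (P.x (i + 1)) - p.lsp ((p.n : ℝ) ^ (-g)) (P.x i)) ≤ 3 * p.v := by
  have m := H.xm.monotone (Nat.le_succ i)
  have a := mul_nonneg hα (sub_nonneg.2 (h.nm.clw.le (h.al_ge hα H i) m (h.al_lt hα H hi)))
  have b := mul_nonneg h.γ0.le (sub_nonneg.2 (p.lsp_le ((p.n : ℝ) ^ (-g)) (h.al_ge hα H i) m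
    (h.al_lt hα H hi).le))
  exact ⟨⟨a, by linarith [(H.st i hi).2]⟩, b, by linarith [(H.st i hi).2]⟩

theorem al_mesh {i : ℕ} (hi : i < P.I) : P.x (i + 1) - P.x i ≤ (p.n : ℝ) ^ (-(3 : ℝ)) / 100 :=
  h.tiny ((h.rA_ge hα (h.al_ge hα H i) (H.xm.monotone (Nat.le_succ i)) (h.al_lt hα H hi)).trans
    (h.al_st hα H hi).2)

/-- cells lie in the shells of `l0' γ` -/
theorem al_shell' {i : ℕ} (hi : i < P.I) : P.x (i + 1) - P.x i ≤
    min (P.x i - p.xs + p.l0' ((p.n : ℝ) ^ (-g))) (1 - P.x (i + 1)) := by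
  have a := h.al_mesh hα H hi
  have b := h.al_le hα H (i := i + 1) hi
  have c := h.al_ge hα H i
  rw [h.l0_eq]
  exact le_min (by linarith [h.n32, h.n21, h.w_ge, h.n30]) (by linarith [h.n30])

theorem al_shell {i : ℕ} (hi : i < P.I) :
    P.x (i + 1) - P.x i ≤ min (P.x i - p.xs + u0 p p.μe) (1 - P.x (i + 1)) :=
  h.sh_u0 (h.al_shell' hα H hi)

/-- the grid is a shell grid: `Shg.maj`, `Shg.sum_env`, `Shg.sum_dFF` apply -/
theorem al_shg : Shg p p.μe P.x P.I :=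
  ⟨H.x0.ge, fun i _ => H.xm.monotone (Nat.le_succ i), H.e3, fun _ hi => h.al_shell hα H hi⟩

/-- `Cl.plat` -/
theorem al_plat {i : ℕ} (hi : i < P.I) : p.v / 78 ≤ (P.x (i + 1) - P.x i) * dA g p α (P.x i) ∧
    (P.x (i + 1) - P.x i) * dA g p α (P.x i) ≤ 117 * p.v := by
  have s := h.rA_slope hα (h.al_ge hα H i) (H.xm.monotone (Nat.le_succ i)) (h.al_lt hα H hi)
    (h.al_shell' hα H hi)
  have t := h.al_st hα H hi
  constructor <;> linarith [s.1, s.2, t.1, t.2]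

/-- adjacent weights are comparable -/
theorem al_adj (i : ℕ) (hi : i + 1 < P.I) :
    P.x (i + 2) - P.x (i + 1) ≤ 27378 * (P.x (i + 1) - P.x i) := by
  have a := (h.al_plat hα H hi).2
  have b := (h.al_plat hα H (i := i) (by omega)).1
  have c := (h.dA_dens hα (h.al_ge hα H i) (H.xm.monotone (Nat.le_succ i))
    (h.al_lt hα H hi.le) (h.al_shell' hα H (i := i) (by omega))).1
  have d := h.dA_pos hα (P.x (i + 1))
  have e : 0 ≤ P.x (i + 1) - P.x i := sub_nonneg.2 (H.xm.monotone (Nat.le_succ i))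
  refine le_of_mul_le_mul_right ?_ d
  nlinarith [mul_le_mul_of_nonneg_left c e]

/-- number of plateau levels -/
theorem al_I_le (h1 : α ≤ 1) : (P.I : ℝ) * p.v ≤ 16 * log p.n := by
  have a : ∀ i ≤ P.I, (i : ℝ) * (p.v / 2) ≤ rA g p α (P.x i) - rA g p α (P.x 0) := fun i => by
    induction i with
    | zero => simp
    | succ i ih =>
      intro hi
      have := ih (by omega)
      have := (h.al_st hα H hi).1
      push_cast; linarith
  have b := a P.I le_rfl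
  rw [rA_sub] at b
  have c := h.nm.rise_le (h.al_lt hα H (Nat.zero_le _)) H.e3
  have c0 := sub_nonneg.2 (h.nm.clw.le (h.al_ge hα H 0) (H.xm.monotone (Nat.zero_le P.I))
    (h.al_lt hα H le_rfl))
  have d : p.lsp ((p.n : ℝ) ^ (-g)) (P.x P.I) - p.lsp ((p.n : ℝ) ^ (-g)) (P.x 0) ≤ 1 := by
    rw [H.x0, p.lsp_xs, sub_zero]
    exact p.lsp_le_one _ h.nm.x0.le (h.al_ge hα H _) (h.al_lt hα H le_rfl).le
  nlinarith [mul_le_mul_of_nonneg_left d h.γ0.le, mul_le_mul_of_nonneg_right h1 c0, h.γ1, h.nm.l1]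

end alok

end Ne

theorem ne_of {β c0 C0 K η g : ℝ} {p : Pm} (h : Ctx β c0 C0 K η p) (hn : Nm p p.μe)
    (hK : 1000 * β ^ 2 ≤ p.n) (hA : 5 ≤ p.A) (g0 : 1 / 3 ≤ g) (g1 : g ≤ 1 / 2)
    (hc : log 256 ≤ p.c * log p.n) (hl : 8 * log (log p.n) ≤ log p.n) : Ne g p := by
  have np := h.n_pos
  have Eμ : Eb p.μe _ := (Eb.one.mul h.Eκ).mul h.Eye.pow
  have Em : Eb (p.mu' p.μe) _ := Eμ.mul (h.Epow ((1 : ℝ) / 3))
  have El : Eb (p.la p.μe) _ := (h.Epow _).mul (Em.rpow.min Em.rpow)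
  have E16 := Eb.log (show (0 : ℝ) < 256 by norm_num)
  have l2 := h.l2
  have c0 := h.cl_pos
  have c1 := h.cl_le
  have gg := mul_le_mul_of_nonneg_right g0 (show 0 ≤ log (p.n : ℝ) by linarith)
  have gg' := mul_le_mul_of_nonneg_right g1 (show 0 ≤ log (p.n : ℝ) by linarith)
  refine ⟨hn, ?_, ?_, v4_of h hK hA⟩
  · rw [(E16.mul (h.Epow (-g))).le_iff El]
    push_cast
    rw [← sub_le_iff_le_add', le_min_iff]
    constructor <;> linarith
  · have ll := h.big.ll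
    have n3 : (3 : ℝ) ≤ p.n := by
      have := log_le_sub_one_of_pos np
      linarith
    have a : p.lL ≤ 12 * log p.n := by
      have := log_le_log (by linarith) (show (p.n : ℝ) + 3 ≤ (p.n : ℝ) ^ 2 by nlinarith)
      rw [log_pow] at this
      unfold Pm.lL; push_cast at this; linarith
    have b : (12 : ℝ) ≤ exp 3 := by
      have := exp_one_gt_d9
      rw [show (3 : ℝ) = 1 + 1 + 1 by norm_num, exp_add, exp_add]; nlinarith
    have d : p.lL ≤ exp 3 * log p.n := a.trans (mul_le_mul_of_nonneg_right b (by linarith))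
    refine (div_le_div_of_nonneg_right d np.le).trans ?_
    have E3 : Eb (exp 3) 3 := rfl
    rw [((E3.mul h.El).div h.En).le_iff (h.Epow (-g))]
    linarith

/-- for `n` large: `Ne` -/
theorem fin_ne {β g : ℝ} (hβ : 1 < β) (g0 : 1 / 3 ≤ g) (g1 : g ≤ 1 / 2) (c0 C0 c : ℝ) (h0 : 0 < c0)
    (h1 : 1 ≤ C0) (hc : 0 < c) : ∃ K : ℝ, ∀ p : Pm, p.c = c → 5 ≤ p.A → Ctx β c0 C0 K 1 p →
      Ne g p := by
  obtain ⟨K, c2, _, H⟩ := fin_nm hβ c0 C0 h0 h1
  refine ⟨max (max K 8) (max (1000 * β ^ 2) (log 256 / c)), fun p e hA h => ?_⟩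
  have h' := h.mono ((le_max_left _ _).trans (le_max_left _ _)) le_rfl
  have h8 := (h.mono ((le_max_right _ _).trans (le_max_left _ _)) le_rfl).big.le'
  have k := h.big.le_rpow
  rw [rpow_one] at k
  have k2 := h.big.le
  rw [one_mul] at k2 h8
  have k3 := (le_max_right _ _).trans ((le_max_right _ _).trans k2)
  rw [div_le_iff₀ hc] at k3
  refine ne_of h ((H p h').2 _ (h.μ0_le_μ h.mem_end) ((h.μ_le h.mem_end).trans ?_))
    ((le_max_left _ _).trans ((le_max_right _ _).trans k)) hA g0 g1 (by rw [e]; linarith) h8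
  exact pow_le_of_le_one h.κ_pos.le h.κ_le_one (by norm_num)

end Crest.Agent.T156.Alt.Plt13

namespace Crest.Agent.T156.Alt

/-- **`AlEx`** -/
theorem alEx {β g : ℝ} (hβ : 1 < β) (g0 : 1 / 3 ≤ g) (g1 : g ≤ 1 / 2) : Gain β (AlEx g) :=
  Gain.introF (Par.intro' 5 one_pos fun c0 C0 A c h0 h1 hA hc _ => by
    obtain ⟨K, H⟩ := Plt13.fin_ne hβ g0 g1 c0 C0 c h0 h1 hc
    exact ⟨1, one_pos, 1, one_pos, K, fun p a b h => (H p b (a ▸ hA) h).alEx _⟩)

end Crest.Agent.T156.Alt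

end
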