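import Crest.Agent.T156.CaSd_90

/-!
# Row 156 (helper90): Stein and response formulas under the tree law

`stein_tX` (any smooth function of the noise), `stein_dir` (functions of the paths, direction
depending on the leaves), `hasDerivAt_tX` (response to a shift of the root state),
`fe_cov` (covariance of the features), `stein_cov`.
-/

set_option autoImplicit false
set_option linter.unusedSectionVars false

noncomputable section

namespace Crest.Agent.T156.Cas

open MeasureTheory Real Set Filter Topology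
open Crest.Agent.T157.E Crest.Agent.T157.Casc Crest.Agent.T157.SL

variable {Ω : Type} [Fintype Ω] {w : Ω → ℝ}

namespace Sd

theorem tX_sum (hw : Wt w) (s : Sh) (L : List (Lv Ω)) (h : Ω → ℝ) {α : Type*} (S : Finset α)
    {F : α → (NT s L → ℝ) → (s.Lf → Ω) → ℝ} (hF : ∀ k ∈ S, ∀ x, Eg fun g => F k g x) :
    tX w s L h (fun g x => ∑ k ∈ S, F k g x) = ∑ k ∈ S, tX w s L h (F k) := by
  simp only [tX]
  rw [← integral_finsetSum _ fun k hk => Tr.eg_int (Tr.eg_sumT hw s L h (hF k hk))]
  refine integral_congr_ae (.of_forall fun g => ?_)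
  simp only [Finset.mul_sum]
  exact Finset.sum_comm

theorem tX_add (hw : Wt w) (s : Sh) (L : List (Lv Ω)) (h : Ω → ℝ)
    {F G : (NT s L → ℝ) → (s.Lf → Ω) → ℝ} (hF : ∀ x, Eg fun g => F g x)
    (hG : ∀ x, Eg fun g => G g x) :
    tX w s L h (fun g x => F g x + G g x) = tX w s L h F + tX w s L h G := by
  simp only [tX, mul_add, Finset.sum_add_distrib]
  exact integral_add (Tr.eg_int (Tr.eg_sumT hw s L h hF)) (Tr.eg_int (Tr.eg_sumT hw s L h hG))

theorem tX_sub (hw : Wt w) (s : Sh) (L : List (Lv Ω)) (h : Ω → ℝ)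
    {F G : (NT s L → ℝ) → (s.Lf → Ω) → ℝ} (hF : ∀ x, Eg fun g => F g x)
    (hG : ∀ x, Eg fun g => G g x) :
    tX w s L h (fun g x => F g x - G g x) = tX w s L h F - tX w s L h G := by
  simp only [tX, mul_sub, Finset.sum_sub_distrib]
  exact integral_sub (Tr.eg_int (Tr.eg_sumT hw s L h hF)) (Tr.eg_int (Tr.eg_sumT hw s L h hG))

theorem tX_const_mul (w : Ω → ℝ) (s : Sh) (L : List (Lv Ω)) (h : Ω → ℝ) (c : ℝ)
    (F : (NT s L → ℝ) → (s.Lf → Ω) → ℝ) :
    tX w s L h (fun g x => c * F g x) = c * tX w s L h F := by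
  simp only [tX, ← integral_const_mul, Finset.mul_sum, mul_left_comm c]

theorem tX_eq_sum (hw : Wt w) (s : Sh) (L : List (Lv Ω)) (h : Ω → ℝ)
    {F : (NT s L → ℝ) → (s.Lf → Ω) → ℝ} (hF : ∀ x, Eg fun g => F g x) :
    tX w s L h F = ∑ x, ∫ g, denT w s L h g x * F g x ∂gv (NT s L) :=
  integral_finsetSum _ fun x _ => Tr.eg_int ((Tr.eg_denT hw s L h x).mul (hF x))

theorem tX_nonneg (hw : Wt w) (s : Sh) (L : List (Lv Ω)) (h : Ω → ℝ)
    {F : (NT s L → ℝ) → (s.Lf → Ω) → ℝ} (hF : ∀ g x, 0 ≤ F g x) : 0 ≤ tX w s L h F :=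
  integral_nonneg fun g => Finset.sum_nonneg fun x _ =>
    mul_nonneg (Tr.denT_nonneg hw s L h g x) (hF g x)

theorem tX_mono (hw : Wt w) (s : Sh) (L : List (Lv Ω)) (h : Ω → ℝ)
    {F G : (NT s L → ℝ) → (s.Lf → Ω) → ℝ} (hF : ∀ x, Eg fun g => F g x)
    (hG : ∀ x, Eg fun g => G g x) (e : ∀ g x, F g x ≤ G g x) : tX w s L h F ≤ tX w s L h G := by
  rw [← sub_nonneg, ← tX_sub hw s L h hG hF]
  exact tX_nonneg hw s L h fun g x => sub_nonneg.2 (e g x)

/-- the paths along a coordinate line -/
theorem der_upd (s : Sh) (L : List (Lv Ω)) (h : Ω → ℝ) [DecidableEq (NT s L)] (g : NT s L → ℝ)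
    (i : NT s L) (t : ℝ) (a : s.Lf) (j : ℕ) (y : Ω) :
    HasDerivAt (fun t => stT s L h (Function.update g i t) a j y) (ft s L i a j y) t := by
  simp only [stT_apply s L h]
  have := HasDerivAt.fun_sum (u := Finset.univ)
    (A := fun k t => Function.update g i t k * ft s L k a j y)
    (A' := fun k => (if k = i then 1 else 0) * ft s L k a j y) (x := t) fun k _ => by
      refine HasDerivAt.mul_const ?_ _
      by_cases hk : k = i
      · subst hk; simpa using hasDerivAt_id' t
      · simpa [hk] using hasDerivAt_const t (g k)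
  exact (this.const_add (h y)).congr_deriv (by simp)

theorem eg_DP (hw : Wt w) (s : Sh) (L : List (Lv Ω)) (h : Ω → ℝ) (x : s.Lf → Ω) (q : Pa s.Lf Ω) :
    Eg fun g => DP w s L x (stT s L h g) q := ((grP_UP hw s L x).eg' q).stT L h

theorem lin_sum {s : Sh} {L : List (Lv Ω)} {D : Pa s.Lf Ω → ℝ} (hD : IsLinearMap ℝ D)
    (η : NT s L → ℝ) : D (stT s L 0 η) = ∑ i, η i * D (ft s L i) := by
  rw [stT_eq_sum, show D = IsLinearMap.mk' D hD from rfl, map_sum]
  exact Finset.sum_congr rfl fun i _ => by rw [map_smul, smul_eq_mul]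

theorem stein_line (hw : Wt w) (s : Sh) (L : List (Lv Ω)) (h : Ω → ℝ) [DecidableEq (NT s L)]
    (i : NT s L) {F F₁ : (NT s L → ℝ) → (s.Lf → Ω) → ℝ} (hF : ∀ x, Eg fun g => F g x)
    (hF₁ : ∀ x, Eg fun g => F₁ g x)
    (hd : ∀ x g, HasDerivAt (fun t => F (Function.update g i t) x) (F₁ g x) (g i)) :
    tX w s L h (fun g x => g i * F g x) =
      tX w s L h F₁ - tX w s L h fun g x => F g x * DP w s L x (stT s L h g) (ft s L i) := by
  have e2 := fun x => (hF x).mul (eg_DP hw s L h x (ft s L i))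
  rw [← tX_sub hw s L h hF₁ e2, tX_eq_sum hw s L h fun x => (Eg.coord i).mul (hF x),
    tX_eq_sum hw s L h fun x => (hF₁ x).sub (e2 x)]
  refine Finset.sum_congr rfl fun x _ => ?_
  have := stein (I := univ) (((Tr.eg_denT hw s L h x).mul (hF x)).toEG univ)
    (((Tr.eg_denT hw s L h x).mul ((hF₁ x).sub (e2 x))).toEG univ) (mem_univ 0) i fun g => by
      have h1 := (grP_UP hw s L x).der (fun t => stT s L h (Function.update g i t)) (ft s L i)
        (g i) (der_upd s L h g i (g i))
      have h2 := ((h1.neg.exp).const_mul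
        ((∏ a, w (x a)) * exp (-(s.br * ex L 0 * X w L h)))).mul (hd x g)
      simp only [Tr.denT_eq, UT_eq]
      refine h2.congr_deriv ?_
      simp only [Function.update_eq_self, Pi.neg_apply]
      ring
  refine Eq.trans ?_ this
  exact integral_congr_ae (.of_forall fun g => by simp only; ring)

end Sd

/-- **Stein's identity under the tree law**, one coordinate -/
theorem stein_tX (hw : Wt w) (s : Sh) (L : List (Lv Ω)) (h : Ω → ℝ) (i : NT s L)
    {F : (NT s L → ℝ) → (s.Lf → Ω) → ℝ} {F₁ : (s.Lf → Ω) → NT s L → (NT s L → ℝ) → ℝ}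
    (hF : ∀ x, Gr (fun g => F g x) (F₁ x)) :
    tX w s L h (fun g x => g i * F g x) = tX w s L h (fun g x => F₁ x i g) -
      tX w s L h fun g x => F g x * DP w s L x (stT s L h g) (ft s L i) := by
  classical
  refine Sd.stein_line hw s L h i (fun x => (hF x).eg) (fun x => (hF x).eg' i) fun x g => ?_
  have h1 : HasDerivAt (fun t => Function.update g i t) (Pi.single i 1) (g i) :=
    hasDerivAt_update g i (g i)
  refine ((hF x).hasDerivAt h1).congr_deriv ?_
  simp [Pi.single_apply]

/-- **Stein's identity** in a direction `η` depending on the leaves, smooth function of the noise -/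
theorem stein_tX_dir (hw : Wt w) (s : Sh) (L : List (Lv Ω)) (h : Ω → ℝ)
    (η : (s.Lf → Ω) → NT s L → ℝ)
    {F : (NT s L → ℝ) → (s.Lf → Ω) → ℝ} {F₁ : (s.Lf → Ω) → NT s L → (NT s L → ℝ) → ℝ}
    (hF : ∀ x, Gr (fun g => F g x) (F₁ x)) :
    tX w s L h (fun g x => (∑ i, η x i * g i) * F g x) =
      tX w s L h (fun g x => ∑ i, η x i * F₁ x i g) -
      tX w s L h fun g x => F g x * DP w s L x (stT s L h g) (stT s L 0 (η x)) := by
  have h1 : ∀ i, tX w s L h (fun g x => g i * (η x i * F g x)) =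
      tX w s L h (fun g x => η x i * F₁ x i g) -
        tX w s L h fun g x => η x i * F g x * DP w s L x (stT s L h g) (ft s L i) := fun i =>
    stein_tX hw s L h i (F := fun g x => η x i * F g x) (F₁ := fun x k g => η x i * F₁ x k g)
      fun x => (hF x).const_mul _
  have h2 := Finset.sum_congr rfl fun i (_ : i ∈ Finset.univ) => h1 i
  rw [Finset.sum_sub_distrib,
    ← Sd.tX_sum hw s L h _ fun i _ x => (Eg.coord i).mul ((hF x).eg.const_mul _),
    ← Sd.tX_sum hw s L h _ fun i _ x => ((hF x).eg' i).const_mul _,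
    ← Sd.tX_sum hw s L h _ fun i _ x => ((hF x).eg.const_mul _).mul (Sd.eg_DP hw s L h x _)] at h2
  have e : ∀ x g, DP w s L x (stT s L h g) (stT s L 0 (η x)) =
      ∑ i, η x i * DP w s L x (stT s L h g) (ft s L i) :=
    fun x g => Sd.lin_sum ((grP_UP hw s L x).lin (stT s L h g)) (η x)
  simp only [e, Finset.sum_mul, Finset.mul_sum]
  refine Eq.trans ?_ (h2.trans ?_)
  · simp only [mul_assoc, mul_left_comm]
  · simp only [mul_assoc, mul_left_comm]

/-- **Stein's identity** for functions of the paths -/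
theorem stein_dir (hw : Wt w) (s : Sh) (L : List (Lv Ω)) (h : Ω → ℝ)
    (η : (s.Lf → Ω) → NT s L → ℝ) {F : Pa s.Lf Ω → (s.Lf → Ω) → ℝ}
    {F' : (s.Lf → Ω) → Pa s.Lf Ω → Pa s.Lf Ω → ℝ} (hF : ∀ x, GrP (fun p => F p x) (F' x)) :
    tX w s L h (fun g x => (∑ i, η x i * g i) * F (stT s L h g) x) =
      tX w s L h (fun g x => F' x (stT s L h g) (stT s L 0 (η x))) -
      tX w s L h fun g x => F (stT s L h g) x * DP w s L x (stT s L h g) (stT s L 0 (η x)) := by
  classical
  have h1 : ∀ i, tX w s L h (fun g x => g i * (η x i * F (stT s L h g) x)) =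
      tX w s L h (fun g x => η x i * F' x (stT s L h g) (ft s L i)) -
        tX w s L h fun g x => η x i * F (stT s L h g) x * DP w s L x (stT s L h g) (ft s L i) :=
    fun i => Sd.stein_line hw s L h i (fun x => ((hF x).eg.stT L h).const_mul _)
      (fun x => (((hF x).eg' _).stT L h).const_mul _) fun x g => by
        have := ((hF x).der (fun t => stT s L h (Function.update g i t)) (ft s L i) (g i)
          (Sd.der_upd s L h g i (g i))).const_mul (η x i)
        simpa only [Function.update_eq_self] using this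
  have h2 := Finset.sum_congr rfl fun i (_ : i ∈ Finset.univ) => h1 i
  rw [Finset.sum_sub_distrib,
    ← Sd.tX_sum hw s L h _ fun i _ x => (Eg.coord i).mul (((hF x).eg.stT L h).const_mul _),
    ← Sd.tX_sum hw s L h _ fun i _ x => (((hF x).eg' _).stT L h).const_mul _,
    ← Sd.tX_sum hw s L h _ fun i _ x =>
      (((hF x).eg.stT L h).const_mul _).mul (Sd.eg_DP hw s L h x _)] at h2
  have e : ∀ x g, DP w s L x (stT s L h g) (stT s L 0 (η x)) =
      ∑ i, η x i * DP w s L x (stT s L h g) (ft s L i) :=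
    fun x g => Sd.lin_sum ((grP_UP hw s L x).lin (stT s L h g)) (η x)
  have e' : ∀ x g, F' x (stT s L h g) (stT s L 0 (η x)) =
      ∑ i, η x i * F' x (stT s L h g) (ft s L i) :=
    fun x g => Sd.lin_sum ((hF x).lin (stT s L h g)) (η x)
  simp only [e, e', Finset.sum_mul, Finset.mul_sum]
  refine Eq.trans ?_ (h2.trans ?_)
  · simp only [mul_assoc, mul_left_comm]
  · simp only [mul_assoc, mul_left_comm]

namespace Sd

/-- joint growth in (time, noise) -/
theorem eG_of_eg {ι : Type} [Fintype ι] {G : (Option ι → ℝ) → ℝ} (hG : Eg G) (T : ℝ) :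
    EG (Ioo (-T) T) fun p : Pt ι => G fun o => o.elim p.1 p.2 := by
  classical
  refine (hG.toEG univ).comp (J := Ioo (-T) T)
    (φ := fun p : Pt ι => (p.1, fun o : Option ι => o.elim p.1 p.2)) ?_ (fun _ _ => trivial) |T| 1
    fun p hp => ?_
  · refine (continuous_fst.prodMk (continuous_pi fun o => ?_)).continuousOn
    cases o with
    | none => exact continuous_fst
    | some i => exact (continuous_apply i).comp continuous_snd
  · refine (pi_norm_le_iff_of_nonneg (by positivity)).2 fun o => ?_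
    cases o with
    | none =>
      have : |p.1| ≤ |T| := (abs_le.2 ⟨hp.1.le, hp.2.le⟩).trans (le_abs_self T)
      exact this.trans (le_add_of_nonneg_right (by positivity))
    | some i =>
      exact (norm_le_pi_norm p.2 i).trans (by rw [one_mul]; exact le_add_of_nonneg_left (abs_nonneg T))

theorem lg_line {ι : Type} [Fintype ι] (h f : Ω → ℝ) (y : Ω) :
    Lg fun z : Option ι → ℝ => (h + z none • f) y := by
  simpa [mul_comm] using Tr.lg_add (Tr.lg_const (h y)) (Tr.lg_cmul (f y) (Tr.lg_coord none))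

theorem lg_paths (s : Sh) (L : List (Lv Ω)) (h f : Ω → ℝ) (a : s.Lf) (j : ℕ) (y : Ω) :
    Lg fun z : Option (NT s L) → ℝ => stT s L (h + z none • f) (fun i => z (some i)) a j y :=
  Tr.lg_stT s L a j (lg_line h f) (fun i => Tr.lg_coord (some i)) y

end Sd

/-- **response to a shift of the root state** -/
theorem hasDerivAt_tX (hw : Wt w) (s : Sh) (L : List (Lv Ω)) (h f : Ω → ℝ)
    {F : Pa s.Lf Ω → (s.Lf → Ω) → ℝ} {F' : (s.Lf → Ω) → Pa s.Lf Ω → Pa s.Lf Ω → ℝ}
    (hF : ∀ x, GrP (fun p => F p x) (F' x)) :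
    HasDerivAt (fun e : ℝ => tX w s L (h + e • f) fun g x => F (stT s L (h + e • f) g) x)
      (tX w s L h (fun g x => F' x (stT s L h g) fun _ _ => f) -
        tX w s L h fun g x => F (stT s L h g) x *
          (DP w s L x (stT s L h g) (fun _ _ => f) + s.br * ex L 0 * Pf w L h f)) 0 := by
  classical
  have den : ∀ x, Eg fun z : Option (NT s L) → ℝ =>
      denT w s L (h + z none • f) (fun i => z (some i)) x := fun x => by
    have h1 := (Tr.lg_sub (Tr.lg_neg (Tr.lg_UT hw s L x (Sd.lg_line h f)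
      fun i => Tr.lg_coord (some i))) (Tr.lg_cmul (s.br * ex L 0)
        (Tr.lg_comp (lg_X hw L) (Sd.lg_line h f)))).exp 1
    simpa only [one_mul, denT] using h1.const_mul (∏ a, w (x a))
  have e0 : Eg fun z : Option (NT s L) → ℝ => ∑ x,
      denT w s L (h + z none • f) (fun i => z (some i)) x *
        F (stT s L (h + z none • f) fun i => z (some i)) x :=
    Eg.sum _ fun x _ => (den x).mul ((hF x).eg _ _ (Sd.lg_paths s L h f))
  have e1 : Eg fun z : Option (NT s L) → ℝ => ∑ x,
      denT w s L (h + z none • f) (fun i => z (some i)) x *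
        (F' x (stT s L (h + z none • f) fun i => z (some i)) (fun _ _ => f) -
          F (stT s L (h + z none • f) fun i => z (some i)) x *
            (DP w s L x (stT s L (h + z none • f) fun i => z (some i)) (fun _ _ => f) +
              s.br * ex L 0 * Pf w L (h + z none • f) f)) :=
    Eg.sum _ fun x _ => (den x).mul (((hF x).eg' _ _ _ (Sd.lg_paths s L h f)).sub
      (((hF x).eg _ _ (Sd.lg_paths s L h f)).mul
        (((grP_UP hw s L x).eg' _ _ _ (Sd.lg_paths s L h f)).add
          ((Tr.eg_comp (eg_Pf hw L f) (Sd.lg_line h f)).const_mul _))))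
  have key := (Sd.eG_of_eg e0 1).hasDerivAt_int (Sd.eG_of_eg e1 1) (t := 0)
    (Ioo_mem_nhds (by norm_num) one_pos) fun t _ g => by
      refine HasDerivAt.fun_sum fun x _ => ?_
      have hc : ∀ a j y, HasDerivAt (fun t : ℝ => stT s L (h + t • f) g a j y) (f y) t :=
        fun a j y => by
          simp only [Sd.stT_apply s L (h + _ • f), Pi.add_apply, Pi.smul_apply, smul_eq_mul]
          exact ((((hasDerivAt_id t).mul_const (f y)).const_add (h y)).add_const
            (∑ i, g i * ft s L i a j y)).congr_deriv (one_mul _)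
      have h1 := (grP_UP hw s L x).der (fun t => stT s L (h + t • f) g) (fun _ _ => f) t hc
      have h2 := (hF x).der (fun t => stT s L (h + t • f) g) (fun _ _ => f) t hc
      have h3 := ((gr_X hw L).line h f t).const_mul (s.br * ex L 0)
      have h4 := (((h1.neg.sub h3).exp).const_mul (∏ a, w (x a))).mul h2
      simp only [denT, UT_eq, Option.elim]
      refine h4.congr_deriv ?_
      simp only [Pi.neg_apply, Pi.sub_apply, Pf]
      ring
  rw [← Sd.tX_sub hw s L h (fun x => ((hF x).eg' _).stT L h) fun x => ((hF x).eg.stT L h).mul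
    ((Sd.eg_DP hw s L h x _).add (Eg.const _))]
  simpa only [tX, Option.elim, zero_smul, add_zero] using key

/-! ### covariance of the features -/

namespace Sd

omit [Fintype Ω] in
theorem cacc_zero (L : List (Lv Ω)) (x y : Ω) : cacc L 0 x y = 0 := by simp [cacc]

omit [Fintype Ω] in
theorem cacc_nil (j : ℕ) (x y : Ω) : cacc ([] : List (Lv Ω)) j x y = 0 := by simp [cacc]

omit [Fintype Ω] in
theorem cacc_cons (l : Lv Ω) (L : List (Lv Ω)) (j : ℕ) (x y : Ω) :
    cacc (l :: L) (j + 1) x y = l.cov x y + cacc L j x y := by simp [cacc]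

end Sd

omit [Fintype Ω] in
/-- the feature vector of the energy of `y` after `j` levels of one path -/
def fe1 : (L : List (Lv Ω)) → ℕ → Ω → NI L → ℝ
  | [], _, _ => 0
  | _ :: _, 0, _ => 0
  | l :: L, j + 1, y => Sum.elim (l.A y) (fe1 L j y)

omit [Fintype Ω] in
/-- the feature vector of the energy of `y` after `j` levels of the path of the leaf `a` -/
def fe : (s : Sh) → (L : List (Lv Ω)) → s.Lf → ℕ → Ω → NT s L → ℝ
  | .one, L, _, j, y => fe1 L j y
  | .step s, [], a, j, y => fe s [] a j y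
  | .step _, _ :: _, _, 0, _ => 0
  | .step s, l :: L, a, j + 1, y => Sum.elim (l.A y) (fe s L a j y)
  | .split s _, L, .inl a, j, y => Sum.elim (fe s L a j y) 0
  | .split _ t, L, .inr a, j, y => Sum.elim 0 (fe t L a j y)

omit [Fintype Ω] in
theorem st_fe : ∀ (L : List (Lv Ω)) (j : ℕ) (h : Ω → ℝ) (g : NI L → ℝ) (y : Ω),
    st L j h g y = h y + ∑ i, fe1 L j y i * g i
  | [], 0, h, g, y => by simp [st, fe1]
  | [], _ + 1, h, g, y => by simp [st, fe1]
  | _ :: _, 0, h, g, y => by simp [st, fe1]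
  | l :: L, j + 1, h, g, y => by
      refine (st_fe L j _ _ y).trans ?_
      show _ = h y + ∑ i : l.ι ⊕ NI L, Sum.elim (l.A y) (fe1 L j y) i * g i
      rw [Fintype.sum_sum_type, ← add_assoc]
      rfl

omit [Fintype Ω] in
theorem stT_fe : ∀ (s : Sh) (L : List (Lv Ω)) (h : Ω → ℝ) (g : NT s L → ℝ) (a : s.Lf) (j : ℕ)
    (y : Ω), stT s L h g a j y = h y + ∑ i, fe s L a j y i * g i
  | .one, L, h, g, _, j, y => st_fe L j h g y
  | .step s, [], h, g, a, j, y => stT_fe s [] h g a j y
  | .step _, _ :: _, h, g, _, 0, y => by simp [stT, fe]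
  | .step s, l :: L, h, g, a, j + 1, y => by
      refine (stT_fe s L _ _ a j y).trans ?_
      show _ = h y + ∑ i : l.ι ⊕ NT s L, Sum.elim (l.A y) (fe s L a j y) i * g i
      rw [Fintype.sum_sum_type, ← add_assoc]
      rfl
  | .split s t, L, h, g, .inl a, j, y => by
      refine (stT_fe s L _ _ a j y).trans ?_
      show _ = h y + ∑ i : NT s L ⊕ NT t L, Sum.elim (fe s L a j y) (0 : NT t L → ℝ) i * g i
      rw [Fintype.sum_sum_type]
      simp
  | .split s t, L, h, g, .inr a, j, y => by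
      refine (stT_fe t L _ _ a j y).trans ?_
      show _ = h y + ∑ i : NT s L ⊕ NT t L, Sum.elim (0 : NT s L → ℝ) (fe t L a j y) i * g i
      rw [Fintype.sum_sum_type]
      simp

omit [Fintype Ω] in
theorem ft_eq_fe (s : Sh) (L : List (Lv Ω)) (i : NT s L) (a : s.Lf) (j : ℕ) (y : Ω) :
    ft s L i a j y = fe s L a j y i := by
  rw [ft, stT_fe]
  simp [Pi.single_apply]

omit [Fintype Ω] in
theorem fe1_cov : ∀ (L : List (Lv Ω)) (j k : ℕ) (y y' : Ω),
    ∑ i, fe1 L j y i * fe1 L k y' i = cacc L (min j k) y y'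
  | [], j, k, y, y' => by simp [fe1, Sd.cacc_nil]
  | _ :: _, 0, k, y, y' => by simp [fe1, Sd.cacc_zero]
  | _ :: _, j + 1, 0, y, y' => by simp [fe1, Sd.cacc_zero]
  | l :: L, j + 1, k + 1, y, y' => by
      rw [Nat.succ_min_succ, Sd.cacc_cons, ← fe1_cov L j k y y']
      show ∑ i : l.ι ⊕ NI L, Sum.elim (l.A y) (fe1 L j y) i *
        Sum.elim (l.A y') (fe1 L k y') i = _
      rw [Fintype.sum_sum_type]
      rfl

omit [Fintype Ω] in
/-- **covariance of the energies of two nodes**: the shared levels -/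
theorem fe_cov : ∀ (s : Sh) (L : List (Lv Ω)) (a b : s.Lf) (j k : ℕ) (y y' : Ω),
    ∑ i, fe s L a j y i * fe s L b k y' i = cacc L (s.shr a b (min j k)) y y'
  | .one, L, _, _, j, k, y, y' => fe1_cov L j k y y'
  | .step s, [], a, b, j, k, y, y' => by
      rw [Sd.cacc_nil]; exact (fe_cov s [] a b j k y y').trans (Sd.cacc_nil _ _ _)
  | .step _, _ :: _, a, b, 0, k, y, y' => by simp [fe, Sh.shr, Sd.cacc_zero]
  | .step _, _ :: _, a, b, j + 1, 0, y, y' => by simp [fe, Sh.shr, Sd.cacc_zero]
  | .step s, l :: L, a, b, j + 1, k + 1, y, y' => by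
      rw [Nat.succ_min_succ]
      show ∑ i : l.ι ⊕ NT s L, Sum.elim (l.A y) (fe s L a j y) i *
        Sum.elim (l.A y') (fe s L b k y') i = cacc (l :: L) (s.shr a b (min j k) + 1) y y'
      rw [Sd.cacc_cons, ← fe_cov s L a b j k y y', Fintype.sum_sum_type]
      rfl
  | .split s t, L, .inl a, .inl b, j, k, y, y' => by
      show ∑ i : NT s L ⊕ NT t L, Sum.elim (fe s L a j y) (0 : NT t L → ℝ) i *
        Sum.elim (fe s L b k y') (0 : NT t L → ℝ) i =
        cacc L (s.shr a b (min j k)) y y'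
      rw [← fe_cov s L a b j k y y', Fintype.sum_sum_type]
      simp
  | .split s t, L, .inr a, .inr b, j, k, y, y' => by
      show ∑ i : NT s L ⊕ NT t L, Sum.elim (0 : NT s L → ℝ) (fe t L a j y) i *
        Sum.elim (0 : NT s L → ℝ) (fe t L b k y') i =
        cacc L (t.shr a b (min j k)) y y'
      rw [← fe_cov t L a b j k y y', Fintype.sum_sum_type]
      simp
  | .split s t, L, .inl a, .inr b, j, k, y, y' => by
      show ∑ i : NT s L ⊕ NT t L, Sum.elim (fe s L a j y) (0 : NT t L → ℝ) i *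
        Sum.elim (0 : NT s L → ℝ) (fe t L b k y') i =
        cacc L 0 y y'
      rw [Sd.cacc_zero, Fintype.sum_sum_type]
      simp
  | .split s t, L, .inr a, .inl b, j, k, y, y' => by
      show ∑ i : NT s L ⊕ NT t L, Sum.elim (0 : NT s L → ℝ) (fe t L a j y) i *
        Sum.elim (fe s L b k y') (0 : NT t L → ℝ) i =
        cacc L 0 y y'
      rw [Sd.cacc_zero, Fintype.sum_sum_type]
      simp

omit [Fintype Ω] in
/-- the direction of the paths when the noise moves along a feature vector -/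
theorem stT_dir_fe (s : Sh) (L : List (Lv Ω)) (b : s.Lf) (k : ℕ) (z : Ω) :
    stT s L 0 (fe s L b k z) = fun a j y => cacc L (s.shr a b (min j k)) y z := by
  funext a j y
  rw [stT_fe, fe_cov]
  simp

omit [Fintype Ω] in
/-- the direction of the paths when only the root slice moves -/
theorem stT_dir_root (s : Sh) (l : Lv Ω) (L : List (Lv Ω)) (η : l.ι → ℝ) (a : s.Lf) :
    stT (.step s) (l :: L) 0 (Sum.elim η 0) a 0 = 0 ∧
      ∀ j, stT (.step s) (l :: L) 0 (Sum.elim η 0) a (j + 1) = l.fld η := by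
  refine ⟨rfl, fun j => ?_⟩
  show stT s L (0 + l.fld η) 0 a j = _
  rw [Sd.stT_g0, zero_add]

/-- **Schwinger–Dyson identity for the energy of `z x` at the node `(b, k)`** -/
theorem stein_cov (hw : Wt w) (s : Sh) (L : List (Lv Ω)) (h : Ω → ℝ) (b : s.Lf) (k : ℕ)
    (z : (s.Lf → Ω) → Ω) {F : Pa s.Lf Ω → (s.Lf → Ω) → ℝ}
    {F' : (s.Lf → Ω) → Pa s.Lf Ω → Pa s.Lf Ω → ℝ} (hF : ∀ x, GrP (fun p => F p x) (F' x)) :
    tX w s L h (fun g x => (stT s L h g b k (z x) - h (z x)) * F (stT s L h g) x) =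
      tX w s L h (fun g x => F' x (stT s L h g) fun a j y => cacc L (s.shr a b (min j k)) y (z x)) -
      tX w s L h fun g x => F (stT s L h g) x *
        DP w s L x (stT s L h g) fun a j y => cacc L (s.shr a b (min j k)) y (z x) := by
  have := stein_dir hw s L h (fun x => fe s L b k (z x)) hF
  simp only [stT_dir_fe] at this
  rw [← this]
  congr 1
  funext g x
  rw [stT_fe, add_sub_cancel_left]

end Crest.Agent.T156.Cas

end
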