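import Crest.Agent.T156.CasDef_88

/-!
# Row 156, cascade frame, leaves `VarStmt` and `TDerStmt` (helper6)

Derivative of the value of a cascade in the variance and in the tilt of one level.
-/

set_option autoImplicit false
set_option linter.unusedSectionVars false

noncomputable section

namespace Crest.Agent.T156.Cas

open MeasureTheory Real Set Filter Topology
open Crest.Agent.T157.E Crest.Agent.T157.Casc Crest.Agent.T157.SL

namespace Var6

variable {Ω : Type} [Fintype Ω] {w : Ω → ℝ} {I : Set ℝ}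

lemma atL_app (L : List (Lv Ω)) (M : List (TL Ω)) (t : ℝ) :
    atL (L.map Lv.cst ++ M) t = L ++ atL M t := by
  have : atL (L.map Lv.cst ++ M) t = atL (L.map Lv.cst) t ++ atL M t := by
    simp only [atL, List.map_append]
  rw [this, atL_cst]

lemma atL_cons (l : TL Ω) (M : List (TL Ω)) (t : ℝ) : atL (l :: M) t = l.at t :: atL M t := rfl

lemma S_cst (l : Lv Ω) (t : ℝ) (x y : Ω) : l.cst.S t x y = 0 := by simp [TL.S, Lv.cst]

lemma Sacc_app (M : List (TL Ω)) (t : ℝ) : ∀ (L : List (Lv Ω)) (j : ℕ),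
    Sacc (L.map Lv.cst ++ M) t j = Sacc M t (j - L.length)
  | [], j => by simp
  | l :: L, 0 => by simp [Sacc_zero]
  | l :: L, j + 1 => by
    rw [List.map_cons, List.cons_append, Sacc_cons, Sacc_app M t L j, List.length_cons,
      Nat.add_sub_add_right]
    ext x y
    simp [S_cst]

lemma Sacc_cst (L : List (Lv Ω)) (t : ℝ) (j : ℕ) : Sacc (L.map Lv.cst) t j = fun _ _ => 0 := by
  have := Sacc_app [] t L j
  rw [List.append_nil] at this
  rw [this]
  ext x y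
  simp [Sacc]

lemma c1_of_okD {l : TL Ω} (h : l.OkD I) : l.C1 I := ⟨h.der, h.cont'⟩

/-- the level with variance `a + b t` -/
def vT (l : Lv Ω) (a b m : ℝ) : TL Ω :=
  ⟨l.ι, fun t x i => √(a + b * t) * l.A x i, fun t x i => b / (2 * √(a + b * t)) * l.A x i, m⟩

lemma vT_at (l : Lv Ω) (a b m t : ℝ) : (vT l a b m).at t = lv l (a + b * t) m := rfl

lemma vT_c1 (l : Lv Ω) (a b m : ℝ) (h : ∀ t ∈ I, 0 < a + b * t) : (vT l a b m).C1 I := by
  refine ⟨fun t ht x i => ?_, fun x i => ?_⟩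
  · have h1 : HasDerivAt (fun t : ℝ => a + b * t) b t := by
      simpa using ((hasDerivAt_id t).const_mul b).const_add a
    exact (h1.sqrt (h t ht).ne').mul_const _
  · refine ContinuousOn.mul (ContinuousOn.div continuousOn_const (by fun_prop) fun t ht => ?_)
      continuousOn_const
    have := sqrt_pos.2 (h t ht)
    positivity

lemma vT_cont (l : Lv Ω) (a b m : ℝ) (x : Ω) (i : (vT l a b m).ι) :
    ContinuousOn (fun t => (vT l a b m).A t x i) I := by
  show ContinuousOn (fun t => √(a + b * t) * l.A x i) I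
  fun_prop

lemma vT_S (l : Lv Ω) (a b m t : ℝ) (h : 0 < a + b * t) (x y : Ω) :
    (vT l a b m).S t x y = b / 2 * l.cov x y := by
  show ∑ i : l.ι, b / (2 * √(a + b * t)) * l.A x i * (√(a + b * t) * l.A y i) = _
  rw [Lv.cov, Finset.mul_sum]
  refine Finset.sum_congr rfl fun i _ => ?_
  have := (sqrt_pos.2 h).ne'
  field_simp

open Classical in
lemma eg_pi2P (hw : Wt w) (K : Ω → Ω → ℝ) : ∀ (L : List (TL Ω)), (∀ l ∈ L, l.OkC I) → ∀ j : ℕ,
    EG I fun p : Pt Ω => pi2 w (atL L p.1) j K p.2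
  | L, hL, 0 => by
    simp only [pi2_zero, qf]
    exact EG.sum _ fun x _ => EG.sum _ fun y _ =>
      ((eg_PP hw hL x).mul (eg_PP hw hL y)).mul (EG.const _)
  | [], hL, j + 1 => by
    have := eg_pi2P hw K [] hL 0
    simpa [pi2, atL] using this
  | l :: L, hL, j + 1 => by
    have h := fun k hk => hL k (List.mem_cons_of_mem l hk)
    exact (lg_XP hw h).eg_tP (hL l (by simp)) (eg_pi2P hw K L h j)

lemma pi2_zeroK (hw : Wt w) (L : List (Lv Ω)) (j : ℕ) (z : Ω → ℝ) :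
    pi2 w L j (fun _ _ => 0) z = 0 := pi2_const hw L j 0 z

lemma var1 (hw : Wt w) (L₁ L₂ : List (Lv Ω)) (l : Lv Ω) (m v : ℝ) (h : Ω → ℝ) (hv : 0 < v) :
    HasDerivAt (fun v => X w (L₁ ++ lv l v m :: L₂) h)
      ((Pf w (L₁ ++ lv l v m :: L₂) h (fun x => l.cov x x) -
        ∑ j ∈ Finset.Ioc L₁.length (L₁.length + 1 + L₂.length),
          dm (L₁ ++ lv l v m :: L₂) 0 j * pi2 w (L₁ ++ lv l v m :: L₂) j l.cov h) / 2) v := by
  set LT : List (TL Ω) := L₁.map Lv.cst ++ vT l 0 1 m :: L₂.map Lv.cst with hLT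
  have hat : ∀ t, atL LT t = L₁ ++ lv l t m :: L₂ := fun t => by
    rw [hLT, atL_app, atL_cons, atL_cst, vT_at, zero_add, one_mul]
  have hC : ∀ k ∈ LT, k.C1 (Ioi 0) := by
    intro k hk
    rcases List.mem_append.1 hk with hk | hk
    · exact c1_of_okD (cst_ok L₁ _ k hk)
    · rcases List.mem_cons.1 hk with rfl | hk
      · exact vT_c1 l 0 1 m fun t ht => by simpa using ht
      · exact c1_of_okD (cst_ok L₂ _ k hk)
  have hd := hasDerivAt_X hw isOpen_Ioi hC (t := v) hv (b := fun _ => h) (b' := 0)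
    fun x => hasDerivAt_const v (h x)
  simp only [hat] at hd
  refine hd.congr_deriv ?_
  have hS : ∀ j, Sacc LT v j = fun x y => if L₁.length < j then 1 / 2 * l.cov x y else 0 := by
    intro j
    rw [hLT, Sacc_app]
    split_ifs with hj
    · obtain ⟨k, hk⟩ : ∃ k, j - L₁.length = k + 1 := ⟨j - L₁.length - 1, by omega⟩
      rw [hk, Sacc_cons, Sacc_cst]
      ext x y
      rw [vT_S l 0 1 m v (by simpa using hv), add_zero]
    · rw [show j - L₁.length = 0 by omega, Sacc_zero]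
  have hlen : LT.length = L₁.length + 1 + L₂.length := by simp [hLT]; omega
  have hlen' : (L₁ ++ lv l v m :: L₂).length = L₁.length + 1 + L₂.length := by simp; omega
  rw [DX, pair_eq_sum hw, hat, hlen', hlen, sub_div]
  congr 1
  · rw [Pf, Finset.sum_div]
    refine Finset.sum_congr rfl fun x _ => ?_
    rw [hS]
    simp only [Pi.zero_apply, zero_add]
    rw [if_pos (by omega)]
    ring
  · rw [Finset.sum_div]
    symm
    refine Finset.sum_subset_zero_on_sdiff (fun j hj => ?_) (fun j hj => ?_) fun j hj => ?_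
    · simp only [Finset.mem_Ioc, Finset.mem_range] at hj ⊢
      omega
    · simp only [Finset.mem_sdiff, Finset.mem_Ioc, Finset.mem_range] at hj
      rw [hS]
      simp only [if_neg (show ¬ L₁.length < j by omega)]
      rw [pi2_zeroK hw, mul_zero]
    · simp only [Finset.mem_Ioc] at hj
      rw [hS]
      simp only [if_pos hj.1]
      rw [pi2_const_mul]
      ring

lemma ex_app (M : List (Lv Ω)) : ∀ (L : List (Lv Ω)) (j : ℕ), ex (L ++ M) (L.length + j) = ex M j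
  | [], j => by simp
  | l :: L, j => by
    rw [List.cons_append, List.length_cons, show L.length + 1 + j = (L.length + j) + 1 by omega,
      ex_cons_succ, ex_app M L j]

/-- the two-level list -/
def two (L₁ L₂ : List (Lv Ω)) (l : Lv Ω) (m m' : ℝ) : List (TL Ω) :=
  L₁.map Lv.cst ++ vT l 0 1 m :: vT l 1 (-1) m' :: L₂.map Lv.cst

lemma two_at (L₁ L₂ : List (Lv Ω)) (l : Lv Ω) (m m' t : ℝ) :
    atL (two L₁ L₂ l m m') t = L₁ ++ lv l t m :: lv l (1 - t) m' :: L₂ := by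
  rw [two, atL_app, atL_cons, atL_cons, atL_cst, vT_at, vT_at, zero_add, one_mul, neg_one_mul,
    ← sub_eq_add_neg]

lemma two_okC (L₁ L₂ : List (Lv Ω)) (l : Lv Ω) (m m' : ℝ) :
    ∀ k ∈ two L₁ L₂ l m m', k.OkC (Icc 0 1) := by
  intro k hk
  rcases List.mem_append.1 hk with hk | hk
  · exact (cst_ok L₁ _ k hk).toOkC
  · rcases List.mem_cons.1 hk with rfl | hk
    · exact TL.okC_of_compact isCompact_Icc (vT_cont l 0 1 m)
    · rcases List.mem_cons.1 hk with rfl | hk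
      · exact TL.okC_of_compact isCompact_Icc (vT_cont l 1 (-1) m')
      · exact (cst_ok L₂ _ k hk).toOkC

lemma cont_rho (hw : Wt w) (L₁ L₂ : List (Lv Ω)) (l : Lv Ω) (m m' : ℝ) (j : ℕ) (K : Ω → Ω → ℝ)
    (h : Ω → ℝ) : ContinuousOn
      (fun ρ => pi2 w (L₁ ++ lv l ρ m :: lv l (1 - ρ) m' :: L₂) j K h) (Icc 0 1) := by
  have := (eg_pi2P hw K _ (two_okC L₁ L₂ l m m') j).cont.comp
    (f := fun ρ : ℝ => ((ρ, h) : Pt Ω)) (s := Icc 0 1) (by fun_prop) fun _ ht => ⟨ht, trivial⟩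
  simpa only [Function.comp_def, two_at] using this

lemma var2 (hw : Wt w) (L₁ L₂ : List (Lv Ω)) (l : Lv Ω) (m m' : ℝ) (h : Ω → ℝ) :
    X w (L₁ ++ lv l 1 m' :: L₂) h - X w (L₁ ++ lv l 1 m :: L₂) h = (m' - m) / 2 *
      ∫ ρ in (0 : ℝ)..1,
        pi2 w (L₁ ++ lv l ρ m :: lv l (1 - ρ) m' :: L₂) (L₁.length + 1) l.cov h := by
  have hC : ∀ k ∈ two L₁ L₂ l m m', k.C1 (Ioo 0 1) := by
    intro k hk
    rcases List.mem_append.1 hk with hk | hk
    · exact c1_of_okD (cst_ok L₁ _ k hk)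
    · rcases List.mem_cons.1 hk with rfl | hk
      · exact vT_c1 l 0 1 m fun t ht => by simpa using ht.1
      · rcases List.mem_cons.1 hk with rfl | hk
        · exact vT_c1 l 1 (-1) m' fun t ht => by linarith [ht.2]
        · exact c1_of_okD (cst_ok L₂ _ k hk)
  have hd : ∀ t ∈ Ioo (0 : ℝ) 1,
      HasDerivAt (fun ρ => X w (L₁ ++ lv l ρ m :: lv l (1 - ρ) m' :: L₂) h)
        (-((m' - m) / 2) *
          pi2 w (L₁ ++ lv l t m :: lv l (1 - t) m' :: L₂) (L₁.length + 1) l.cov h) t := by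
    intro t ht
    have hd := hasDerivAt_X hw isOpen_Ioo hC ht (b := fun _ => h) (b' := 0)
      fun x => hasDerivAt_const t (h x)
    simp only [two_at] at hd
    refine hd.congr_deriv ?_
    have hS : ∀ j, Sacc (two L₁ L₂ l m m') t j =
        fun x y => if j = L₁.length + 1 then 1 / 2 * l.cov x y else 0 := by
      intro j
      rw [two, Sacc_app]
      have e1 := vT_S l 0 1 m t (by simpa using ht.1)
      have e2 := vT_S l 1 (-1) m' t (by linarith [ht.2])
      split_ifs with hj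
      · rw [show j - L₁.length = 0 + 1 by omega, Sacc_cons, Sacc_zero]
        ext x y
        rw [e1, add_zero]
      · by_cases hj' : j ≤ L₁.length
        · rw [show j - L₁.length = 0 by omega, Sacc_zero]
        · obtain ⟨k, hk⟩ : ∃ k, j - L₁.length = k + 1 + 1 := ⟨j - L₁.length - 2, by omega⟩
          rw [hk, Sacc_cons, Sacc_cons, Sacc_cst]
          ext x y
          simp only [e1, e2]
          ring
    have hlen : (two L₁ L₂ l m m').length = L₁.length + 2 + L₂.length := by simp [two]; omega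
    have hlen' : (L₁ ++ lv l t m :: lv l (1 - t) m' :: L₂).length =
        L₁.length + 2 + L₂.length := by simp; omega
    rw [DX, pair_eq_sum hw, two_at, hlen', hlen, hS,
      Finset.sum_eq_single (L₁.length + 1) (fun j _ hj => by
        rw [hS]; simp only [if_neg hj]; rw [pi2_zeroK hw, mul_zero])
      (fun hj => absurd (Finset.mem_range.2 (by omega)) hj), hS]
    simp only [if_neg (show ¬ L₁.length + 2 + L₂.length = L₁.length + 1 by omega), if_true,
      Pi.zero_apply, add_zero, mul_zero, Finset.sum_const_zero]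
    rw [pi2_const_mul]
    have e : dm (L₁ ++ lv l t m :: lv l (1 - t) m' :: L₂) 0 (L₁.length + 1) = m' - m := by
      show ex _ (L₁.length + 1) - ex _ L₁.length = _
      rw [ex_app, show ex (L₁ ++ lv l t m :: lv l (1 - t) m' :: L₂) L₁.length =
        ex (L₁ ++ lv l t m :: lv l (1 - t) m' :: L₂) (L₁.length + 0) from rfl, ex_app]
      rfl
    rw [e]
    ring
  have hc : ContinuousOn (fun ρ => X w (L₁ ++ lv l ρ m :: lv l (1 - ρ) m' :: L₂) h) (Icc 0 1) := by
    have := continuousOn_X hw (two_okC L₁ L₂ l m m') (b := fun _ => h) fun _ => continuousOn_const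
    simpa only [two_at] using this
  have hi : IntervalIntegrable (fun t => -((m' - m) / 2) *
      pi2 w (L₁ ++ lv l t m :: lv l (1 - t) m' :: L₂) (L₁.length + 1) l.cov h) volume 0 1 :=
    (ContinuousOn.intervalIntegrable_of_Icc zero_le_one
      (cont_rho hw L₁ L₂ l m m' _ _ h)).const_mul _
  have ftc := intervalIntegral.integral_eq_sub_of_hasDerivAt_of_le zero_le_one hc hd hi
  rw [intervalIntegral.integral_const_mul] at ftc
  have e1 : X w (L₁ ++ lv l 1 m :: lv l (1 - 1) m' :: L₂) = X w (L₁ ++ lv l 1 m :: L₂) := by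
    refine C.X_append_congr w ?_ L₁
    rw [C.X_cons, C.X_cons w (lv l (1 - 1) m'),
      C.step_of_zero (l := lv l (1 - 1) m') (fun x i => by simp), C.X_cons]
  have e0 : X w (L₁ ++ lv l 0 m :: lv l (1 - 0) m' :: L₂) = X w (L₁ ++ lv l 1 m' :: L₂) := by
    refine C.X_append_congr w ?_ L₁
    rw [C.X_cons, C.step_of_zero (fun x i => by simp), sub_zero]
  rw [e1, e0] at ftc
  linarith

/-! ### the tilt -/

/-- the level `l` with tilt `s` -/
abbrev tm (l : Lv Ω) (s : ℝ) : Lv Ω := ⟨l.ι, l.A, s⟩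

lemma lv_one (l : Lv Ω) (s : ℝ) : lv l 1 s = tm l s := by simp [lv, tm]

lemma abs_pi2_le (hw : Wt w) (L : List (Lv Ω)) (j : ℕ) (K : Ω → Ω → ℝ) (z : Ω → ℝ) :
    |pi2 w L j K z| ≤ ∑ x, ∑ y, |K x y| := by
  have hb : ∀ x y, |K x y| ≤ ∑ x, ∑ y, |K x y| := fun x y =>
    (Finset.single_le_sum (f := fun y => |K x y|) (fun _ _ => abs_nonneg _)
      (Finset.mem_univ y)).trans (Finset.single_le_sum (f := fun x => ∑ y, |K x y|)
      (fun _ _ => Finset.sum_nonneg fun _ _ => abs_nonneg _) (Finset.mem_univ x))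
  refine abs_le.2 ⟨?_, ?_⟩
  · rw [← pi2_const hw L j (-∑ x, ∑ y, |K x y|) z]
    exact pi2_mono hw L j (fun x y => (abs_le.1 (hb x y)).1) z
  · conv_rhs => rw [← pi2_const hw L j (∑ x, ∑ y, |K x y|) z]
    exact pi2_mono hw L j (fun x y => (abs_le.1 (hb x y)).2) z

lemma lip_tm (hw : Wt w) (l : Lv Ω) (L₂ : List (Lv Ω)) (s s' : ℝ) (z : Ω → ℝ) :
    |X w (tm l s' :: L₂) z - X w (tm l s :: L₂) z| ≤ |s' - s| * ∑ x, ∑ y, |l.cov x y| := by
  have h := var2 hw [] L₂ l s s' z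
  simp only [List.nil_append, lv_one] at h
  rw [h, abs_mul, abs_div, abs_two]
  have h1 := intervalIntegral.norm_integral_le_of_norm_le_const (a := 0) (b := 1)
    (f := fun ρ => pi2 w (lv l ρ s :: lv l (1 - ρ) s' :: L₂) (([] : List (Lv Ω)).length + 1) l.cov z)
    (C := ∑ x, ∑ y, |l.cov x y|) fun ρ _ => abs_pi2_le hw _ _ _ _
  rw [Real.norm_eq_abs, sub_zero, abs_one, mul_one] at h1
  exact mul_le_mul (by linarith [abs_nonneg (s' - s)]) h1 (abs_nonneg _) (abs_nonneg _)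

lemma lg_tm (hw : Wt w) (l : Lv Ω) (L₂ : List (Lv Ω)) {B : ℝ} (hI : ∀ t ∈ I, |t| ≤ B) :
    LG I fun p : Pt Ω => X w (tm l p.1 :: L₂) p.2 := by
  set C := ∑ x, ∑ y, |l.cov x y| with hC
  have hC0 : 0 ≤ C := Finset.sum_nonneg fun _ _ => Finset.sum_nonneg fun _ _ => abs_nonneg _
  refine ⟨Continuous.continuousOn (continuous_iff_continuousAt.2 fun p => ?_), ?_⟩
  · have hc := (lg_X hw (tm l p.1 :: L₂)).eg.cont
    rw [ContinuousAt, tendsto_iff_norm_sub_tendsto_zero]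
    have h0 : Tendsto (fun q : Pt Ω => |q.1 - p.1| * C +
        |X w (tm l p.1 :: L₂) q.2 - X w (tm l p.1 :: L₂) p.2|) (𝓝 p) (𝓝 0) := by
      have : Continuous fun q : Pt Ω => |q.1 - p.1| * C +
        |X w (tm l p.1 :: L₂) q.2 - X w (tm l p.1 :: L₂) p.2| := by fun_prop
      simpa using this.tendsto p
    refine squeeze_zero (fun _ => norm_nonneg _) (fun q => ?_) h0
    rw [Real.norm_eq_abs]
    have h1 := lip_tm hw l L₂ p.1 q.1 q.2
    have h2 := abs_sub_le (X w (tm l q.1 :: L₂) q.2) (X w (tm l p.1 :: L₂) q.2)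
      (X w (tm l p.1 :: L₂) p.2)
    linarith
  · obtain ⟨D, c, h1, h2, h3⟩ := (lg_X hw (tm l 0 :: L₂)).bd
    refine ⟨D + |B| * C, c, by positivity, h2, fun p hp => ?_⟩
    have h4 := h3 p trivial
    have h5 := lip_tm hw l L₂ 0 p.1 p.2
    rw [sub_zero] at h5
    have h6 := mul_le_mul_of_nonneg_right ((hI p.1 hp).trans (le_abs_self B)) hC0
    have h7 := abs_sub_abs_le_abs_sub (X w (tm l p.1 :: L₂) p.2) (X w (tm l 0 :: L₂) p.2)
    linarith

lemma lg_scale {F : (Ω → ℝ) → ℝ} (hF : Lg F) {B : ℝ} (hI : ∀ t ∈ I, |t| ≤ B) :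
    LG I fun p : Pt Ω => p.1 * F p.2 := by
  obtain ⟨D, c, h1, h2, h3⟩ := hF.bd
  have hc := hF.eg.cont
  refine ⟨by fun_prop, |B| * D, |B| * c, by positivity, by positivity, fun p hp => ?_⟩
  rw [abs_mul, mul_assoc, ← mul_add]
  exact mul_le_mul ((hI p.1 hp).trans (le_abs_self B)) (h3 p trivial) (abs_nonneg _) (abs_nonneg _)

lemma tP_tm (l : Lv Ω) (F : (Ω → ℝ) → ℝ) (Φ : Pt Ω → ℝ) (p : Pt Ω) :
    tP (tm l 1).cst (fun p : Pt Ω => p.1 * F p.2) Φ p =
      tE (tm l p.1) F (fun z => Φ (p.1, z)) p.2 := by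
  show (∫ g, exp (1 * (p.1 * F (p.2 + l.fld g))) * Φ (p.1, p.2 + l.fld g) ∂gv l.ι) /
    (∫ g, exp (1 * (p.1 * F (p.2 + l.fld g))) ∂gv l.ι) = _
  simp only [one_mul]
  rfl

open Classical in
lemma eg_tE_tm (l : Lv Ω) {F Φ : (Ω → ℝ) → ℝ} (hF : Lg F) (hΦ : Eg Φ) {B : ℝ}
    (hI : ∀ t ∈ I, |t| ≤ B) : EG I fun p : Pt Ω => tE (tm l p.1) F Φ p.2 :=
  ((lg_scale hF hI).eg_tP ((tm l 1).cst_okD I).toOkC (hΦ.toEG I)).congr fun p _ =>
    (tP_tm l F (fun p => Φ p.2) p).symm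

open Classical in
lemma pre {F Φ : Pt Ω → ℝ} (hF : LG I F) (hΦ : EG I Φ) : ∀ M : List (Lv Ω),
    LG I (fun p : Pt Ω => XT (fun z => F (p.1, z)) M p.2) ∧
      EG I fun p : Pt Ω => nodeT (fun z => F (p.1, z)) M (fun z => Φ (p.1, z)) p.2
  | [] => ⟨hF, hΦ⟩
  | l :: M => ⟨(pre hF hΦ M).1.sP (l.cst_okD I).toOkC,
      (pre hF hΦ M).1.eg_tP (l.cst_okD I).toOkC (pre hF hΦ M).2⟩

lemma X_app (w : Ω → ℝ) (L : List (Lv Ω)) : ∀ M : List (Lv Ω), X w (M ++ L) = XT (X w L) M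
  | [] => rfl
  | l :: M => by rw [List.cons_append, C.X_cons, X_app w L M]; rfl

lemma node_app (w : Ω → ℝ) (L : List (Lv Ω)) (Φ : (Ω → ℝ) → ℝ) :
    ∀ M : List (Lv Ω), node w (M ++ L) M.length Φ = nodeT (X w L) M Φ
  | [] => by simp [nodeT]
  | l :: M => by
    rw [List.cons_append, List.length_cons, node_cons, node_app w L Φ M, X_app w L M]; rfl

open Classical in
lemma cont_s (hw : Wt w) (M L₂ : List (Lv Ω)) (l : Lv Ω) (K : Ω → Ω → ℝ) (h : Ω → ℝ) (m : ℝ) :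
    ContinuousAt (fun s => pi2 w (M ++ tm l s :: L₂) M.length K h) m := by
  have hI : ∀ t ∈ Ioo (m - 1) (m + 1), |t| ≤ |m| + 1 := fun t ht => by
    rw [abs_le]; constructor <;> linarith [ht.1, ht.2, le_abs_self m, neg_abs_le m]
  have hP : ∀ x, EG (Ioo (m - 1) (m + 1)) fun p : Pt Ω => P w (tm l p.1 :: L₂) p.2 x :=
    fun x => eg_tE_tm l (lg_X hw L₂) (eg_P hw L₂ x) hI
  have hq : EG (Ioo (m - 1) (m + 1)) fun p : Pt Ω => qf (P w (tm l p.1 :: L₂) p.2) K :=
    EG.sum _ fun x _ => EG.sum _ fun y _ => ((hP x).mul (hP y)).mul (EG.const _)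
  have h1 := (pre (lg_tm hw l L₂ hI) hq M).2.cont.comp
    (f := fun s : ℝ => ((s, h) : Pt Ω)) (s := Ioo (m - 1) (m + 1)) (by fun_prop)
    fun _ ht => ⟨ht, trivial⟩
  have h2 := h1.continuousAt (Ioo_mem_nhds (by linarith) (by linarith) :
    Ioo (m - 1) (m + 1) ∈ 𝓝 m)
  simp only [pi2, List.drop_left, node_app]
  exact h2

lemma tder1 (hw : Wt w) (L₁ L₂ : List (Lv Ω)) (l : Lv Ω) (m : ℝ) (h : Ω → ℝ) :
    HasDerivAt (fun m => X w (L₁ ++ lv l 1 m :: L₂) h)
      ((∫ ρ in (0 : ℝ)..1,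
        pi2 w (L₁ ++ lv l ρ m :: lv l (1 - ρ) m :: L₂) (L₁.length + 1) l.cov h) / 2) m := by
  have hJ : ContinuousAt (fun s => ∫ ρ in (0 : ℝ)..1,
      pi2 w (L₁ ++ lv l ρ m :: lv l (1 - ρ) s :: L₂) (L₁.length + 1) l.cov h) m := by
    refine intervalIntegral.continuousAt_of_dominated_interval
      (bound := fun _ => ∑ x, ∑ y, |l.cov x y|) (.of_forall fun s => ?_)
      (.of_forall fun s => .of_forall fun ρ _ => abs_pi2_le hw _ _ _ _)
      intervalIntegrable_const (.of_forall fun ρ _ => ?_)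
    · rw [uIoc_of_le zero_le_one]
      exact ((cont_rho hw L₁ L₂ l m s _ _ h).mono Ioc_subset_Icc_self).aestronglyMeasurable
        measurableSet_Ioc
    · have := cont_s hw (L₁ ++ [lv l ρ m]) L₂ (lv l (1 - ρ) 0) l.cov h m
      simpa only [List.append_assoc, List.singleton_append, List.length_append,
        List.length_singleton] using this
  rw [hasDerivAt_iff_tendsto_slope]
  refine ((hJ.tendsto.div_const 2).mono_left nhdsWithin_le_nhds).congr' ?_
  filter_upwards [self_mem_nhdsWithin] with s hs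
  have hs' : s - m ≠ 0 := sub_ne_zero.2 hs
  rw [slope_def_field, var2 hw L₁ L₂ l m s h]
  field_simp

open Classical in
lemma sP_cst {F a : Pt Ω → ℝ} {b : Ω → Pt Ω → ℝ} (hI : IsOpen I) (l : Lv Ω) (hF : LG I F)
    (h : Sm I F a b) : Sm I (sP l.cst F) (tP l.cst F a) fun x => tP l.cst F (b x) :=
  (h.sP hI (l.cst_okD I) hF).congr (fun p _ => by simp [tP, dfl, Lv.cst]) fun _ _ _ => rfl

open Classical in
lemma pre_sm {F a : Pt Ω → ℝ} {b : Ω → Pt Ω → ℝ} (hI : IsOpen I) (hF : LG I F)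
    (h : Sm I F a b) : ∀ M : List (Lv Ω), ∃ b', Sm I
      (fun p : Pt Ω => XT (fun z => F (p.1, z)) M p.2)
      (fun p : Pt Ω => nodeT (fun z => F (p.1, z)) M (fun z => a (p.1, z)) p.2) b'
  | [] => ⟨b, h⟩
  | l :: M => by
    obtain ⟨b', hb⟩ := pre_sm hI hF h M
    exact ⟨_, sP_cst hI l (pre hF h.ega M).1 hb⟩

open Classical in
lemma sm_tm (hw : Wt w) (l : Lv Ω) (L₂ : List (Lv Ω)) (hI : IsOpen I) {B : ℝ}
    (hB : ∀ t ∈ I, |t| ≤ B) (h0 : ∀ t ∈ I, t ≠ 0) (hB' : ∀ t ∈ I, |t⁻¹| ≤ B) :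
    ∃ b, Sm I (fun p : Pt Ω => X w (tm l p.1 :: L₂) p.2)
      (fun p : Pt Ω => p.1⁻¹ * (tE (tm l p.1) (X w L₂) (X w L₂) p.2 - X w (tm l p.1 :: L₂) p.2))
      b := by
  have hid : Sm I (fun p : Pt Ω => p.1) (fun _ => 1) fun _ _ => 0 :=
    ⟨EG.time continuousOn_id B hB, EG.const 1, fun _ => EG.const 0, fun p _ =>
      hasFDerivAt_fst.congr_fderiv (ContinuousLinearMap.ext fun v => by simp)⟩
  have hinv := hid.inv (fun p hp => h0 p.1 hp)
    (EG.time (f := fun t => t⁻¹) (continuousOn_id.inv₀ h0) B hB')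
  have h1 := sP_cst hI (tm l 1) (lg_scale (lg_X hw L₂) hB) (hid.mul ((gr_X hw L₂).toSm I))
  have e : ∀ p : Pt Ω, p.1 ∈ I → X w (tm l p.1 :: L₂) p.2 =
      p.1⁻¹ * sP (tm l 1).cst (fun p : Pt Ω => p.1 * X w L₂ p.2) p := by
    intro p hp
    show step (tm l p.1) (X w L₂) p.2 = p.1⁻¹ * step (tm l 1) (fun z => p.1 * X w L₂ z) p.2
    rw [step, step, if_neg (h0 p.1 hp), if_neg one_ne_zero]
    simp only [inv_one, one_mul]
    rfl
  refine ⟨_, ((hinv.mul h1).congr_fun hI e).congr (fun p hp => ?_) fun _ _ _ => rfl⟩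
  rw [e p hp, tP_tm]
  simp only [one_mul, mul_zero, add_zero, mul_one]
  ring

open Classical in
lemma tder2 (hw : Wt w) (L₁ L₂ : List (Lv Ω)) (l : Lv Ω) (m : ℝ) (h : Ω → ℝ) (hm : m ≠ 0) :
    HasDerivAt (fun m => X w (L₁ ++ lv l 1 m :: L₂) h)
      (m⁻¹ * (node w (L₁ ++ lv l 1 m :: L₂) (L₁.length + 1) (X w L₂) h -
        node w (L₁ ++ lv l 1 m :: L₂) L₁.length (X w (lv l 1 m :: L₂)) h)) m := by
  have hm' := abs_pos.2 hm
  have hlow : ∀ t ∈ Ioo (m - |m| / 2) (m + |m| / 2), |m| / 2 ≤ |t| := fun t ht => by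
    have := abs_sub_abs_le_abs_sub m t
    have h2 : |m - t| ≤ |m| / 2 := abs_le.2 ⟨by linarith [ht.2], by linarith [ht.1]⟩
    linarith
  have hB : ∀ t ∈ Ioo (m - |m| / 2) (m + |m| / 2), |t| ≤ 2 * |m| + (|m| / 2)⁻¹ := fun t ht => by
    have : 0 < (|m| / 2)⁻¹ := by positivity
    rw [abs_le]; constructor <;> linarith [ht.1, ht.2, le_abs_self m, neg_abs_le m]
  have h0 : ∀ t ∈ Ioo (m - |m| / 2) (m + |m| / 2), t ≠ 0 := fun t ht =>
    abs_pos.1 (lt_of_lt_of_le (by positivity) (hlow t ht))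
  have hB' : ∀ t ∈ Ioo (m - |m| / 2) (m + |m| / 2), |t⁻¹| ≤ 2 * |m| + (|m| / 2)⁻¹ := fun t ht => by
    rw [abs_inv]
    have := inv_anti₀ (by positivity) (hlow t ht)
    linarith
  obtain ⟨b, hb⟩ := sm_tm hw l L₂ isOpen_Ioo hB h0 hB'
  obtain ⟨b', hb'⟩ := pre_sm isOpen_Ioo (lg_tm hw l L₂ hB) hb L₁
  have hd := (hb'.fd (m, h) ⟨by linarith, by linarith⟩).comp_hasDerivAt m
    ((hasDerivAt_id m).prodMk (hasDerivAt_const m h))
  simp only [lv_one, X_app]
  refine hd.congr_deriv ?_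
  rw [D2_apply]
  simp only [mul_one, Pi.zero_apply, mul_zero, Finset.sum_const_zero, add_zero]
  rw [← node_app, node_const_mul, node_sub hw (((lg_X hw L₂).eg).tE (lg_X hw L₂) _)
    (lg_X hw _).eg, add_comm L₁.length 1, ← node_node, List.drop_left, node_cons, node_zero]

end Var6

theorem varStmt : VarStmt := fun _ _ _ hw =>
  ⟨fun L₁ L₂ l m v h hv => Var6.var1 hw L₁ L₂ l m v h hv,
    fun L₁ L₂ l m m' h => Var6.var2 hw L₁ L₂ l m m' h⟩

theorem tDerStmt : TDerStmt := by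
  intro _ Ω _ w hw L₁ L₂ l m h
  refine ⟨Var6.tder1 hw L₁ L₂ l m h, ?_⟩
  by_cases hm : m = 0
  · simp [hm]
  · have := (Var6.tder1 hw L₁ L₂ l m h).unique (Var6.tder2 hw L₁ L₂ l m h hm)
    rw [div_eq_iff two_ne_zero] at this
    rw [this]
    field_simp

end Crest.Agent.T156.Cas

end
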