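import Crest.Agent.T156.CaTrf_56
import Crest.Agent.T156.CaSdB_90
import Crest.Agent.T156.CaPe_45
import Crest.Agent.T156.CaVar_6
import Crest.Agent.T156.CaLink_33

/-!
# Row 156: the curve of a model and the `sd` form of the root transfer (helper56)
-/

set_option autoImplicit false
set_option linter.unusedSectionVars false

noncomputable section

namespace Crest.Agent.T156.Cas

open MeasureTheory Real Set Filter Topology
open Crest.Agent.T157.E Crest.Agent.T157.Casc Crest.Agent.T157.SL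
open Trf

variable {Ω : Type} [Fintype Ω]

/-- `W = E_{a'} Φ₁ - E_a Φ₁ = ∫ Var_s Φ₁ ds` -/
def Wd (w : Ω → ℝ) (l : Lv Ω) (L : List (Lv Ω)) (h : Ω → ℝ) (a a' : ℝ) : ℝ :=
  tE (rt l a') (X w L) (X w L) h - tE (rt l a) (X w L) (X w L) h

/-- variance under the tree law -/
def vT (w : Ω → ℝ) (s : Sh) (L : List (Lv Ω)) (h : Ω → ℝ)
    (F : (NT s L → ℝ) → (s.Lf → Ω) → ℝ) : ℝ :=
  tX w s L h (fun g x => F g x ^ 2) - tX w s L h F ^ 2

/-- the curve of the model `(w, l, L, h)`: the root level `l` gets the tilt `s n^{-1/6}` -/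
def crv (n : ℕ) (s₁ : ℝ) (w : Ω → ℝ) (l : Lv Ω) (L : List (Lv Ω)) (h : Ω → ℝ) (s : ℝ) : ℝ :=
  (n : ℝ) ^ (-(1 : ℝ) / 6) * (X w (rt l (s * (n : ℝ) ^ (-(1 : ℝ) / 6)) :: L) h -
    X w (rt l (s₁ * (n : ℝ) ^ (-(1 : ℝ) / 6)) :: L) h)

namespace Crv

variable {F φ ψ : (Ω → ℝ) → ℝ} {w : Ω → ℝ}

theorem cont_tE (hF : Lg F) (hφ : Eg φ) (l : Lv Ω) (h : Ω → ℝ) :
    Continuous fun s => tE (rt l s) F φ h :=
  continuous_iff_continuousAt.2 fun s => (der_tE hF hφ l h s).continuousAt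

theorem cont_cT (hF : Lg F) (hφ : Eg φ) (hψ : Eg ψ) (l : Lv Ω) (h : Ω → ℝ) :
    Continuous fun s => cT (rt l s) F φ ψ h :=
  (cont_tE hF (hφ.mul hψ) l h).sub ((cont_tE hF hφ l h).mul (cont_tE hF hψ l h))

theorem cT_nonneg (hF : Lg F) (hφ : Eg φ) (l : Lv Ω) (h : Ω → ℝ) : 0 ≤ cT l F φ φ h := by
  simpa using cT_quad hF hφ hφ l h 1 0

theorem ftc (hF : Lg F) (hφ : Eg φ) (l : Lv Ω) (h : Ω → ℝ) (a a' : ℝ) :
    tE (rt l a') F φ h - tE (rt l a) F φ h = ∫ s in a..a', cT (rt l s) F F φ h :=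
  (intervalIntegral.integral_eq_sub_of_hasDerivAt (fun s _ => der_tE hF hφ l h s)
    ((cont_cT hF hF.eg hφ l h).intervalIntegrable _ _)).symm

/-- integral form -/
theorem delta_int (hF : Lg F) (hφ : Eg φ) (l : Lv Ω) (h : Ω → ℝ) {a a' : ℝ} (haa : a ≤ a') :
    (tE (rt l a') F φ h - tE (rt l a) F φ h) ^ 2 ≤
      (tE (rt l a') F F h - tE (rt l a) F F h) * ∫ s in a..a', cT (rt l s) F φ φ h := by
  rw [ftc hF hφ, ftc hF hF.eg]
  have c1 := cont_cT hF hF.eg hF.eg l h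
  have c2 := cont_cT hF hφ hφ l h
  have c3 := cont_cT hF hF.eg hφ l h
  refine sq_le_of_forall
    (intervalIntegral.integral_nonneg haa fun s _ => cT_nonneg hF hF.eg _ h)
    (intervalIntegral.integral_nonneg haa fun s _ => cT_nonneg hF hφ _ h) fun η hη => ?_
  have c4 : Continuous fun s => η / 2 * cT (rt l s) F F F h := continuous_const.mul c1
  have c5 : Continuous fun s => cT (rt l s) F φ φ h / (2 * η) := c2.div_const _
  rw [← intervalIntegral.integral_const_mul, ← intervalIntegral.integral_div,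
    ← intervalIntegral.integral_add (c4.intervalIntegrable _ _) (c5.intervalIntegrable _ _)]
  refine (intervalIntegral.abs_integral_le_integral_abs haa).trans
    (intervalIntegral.integral_mono_on haa (c3.abs.intervalIntegrable _ _)
      ((c4.add c5).intervalIntegrable _ _) fun s _ => ?_)
  exact cT_abs hF hF.eg hφ _ h hη

theorem W_nonneg (hF : Lg F) (l : Lv Ω) (h : Ω → ℝ) {a a' : ℝ} (haa : a ≤ a') :
    0 ≤ tE (rt l a') F F h - tE (rt l a) F F h := by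
  rw [ftc hF hF.eg]
  exact intervalIntegral.integral_nonneg haa fun s _ => cT_nonneg hF hF.eg _ h

/-- supremum form -/
theorem delta_sup (hF : Lg F) (hφ : Eg φ) (l : Lv Ω) (h : Ω → ℝ) {a a' V : ℝ} (haa : a ≤ a')
    (hV : ∀ s ∈ Icc a a', cT (rt l s) F φ φ h ≤ V) :
    (tE (rt l a') F φ h - tE (rt l a) F φ h) ^ 2 ≤
      (tE (rt l a') F F h - tE (rt l a) F F h) * ((a' - a) * V) := by
  refine (delta_int hF hφ l h haa).trans (mul_le_mul_of_nonneg_left ?_ (W_nonneg hF l h haa))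
  have := intervalIntegral.integral_mono_on haa
    ((cont_cT hF hφ hφ l h).intervalIntegrable (μ := volume) _ _)
    (continuous_const.intervalIntegrable _ _) hV
  simpa using this

open Classical in
/-- the identity level -/
abbrev idl (ι : Type) [Fintype ι] : Lv ι := ⟨ι, fun x i => if x = i then 1 else 0, 0⟩

theorem idl_fld {ι : Type} [Fintype ι] (t : ℝ) (g : ι → ℝ) : 0 + (rt (idl ι) t).fld g = g := by
  funext x
  classical
  show 0 + ∑ i : ι, (if x = i then 1 else 0) * g i = g x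
  simp

theorem tE_idl {ι : Type} [Fintype ι] (t : ℝ) (G Φ : (ι → ℝ) → ℝ) : tE (rt (idl ι) t) G Φ 0 =
    (∫ g, exp (t * G g) * Φ g ∂gv ι) / ∫ g, exp (t * G g) ∂gv ι := by
  simp only [tE, idl_fld]

/-- partial Gaussian integrals keep exponential growth -/
theorem eg_part {α β : Type} [Fintype α] [Fintype β] {Φ : (α ⊕ β → ℝ) → ℝ} (hΦ : Eg Φ) :
    Eg fun g => ∫ g', Φ (Sum.elim g g') ∂gv β := by
  classical
  have h1 := eg_int hΦ (⟨β, fun x i => if x = .inr i then 1 else 0, 0⟩ : Lv (α ⊕ β))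
  have h2 := Tr.eg_comp h1 (Tr.lg_elim_left (ι := α) (0 : β → ℝ))
  convert h2 using 5 with g g'
  funext x
  cases x <;> simp [Lv.fld]

theorem tX_const (hw : Wt w) (s : Sh) (L : List (Lv Ω)) (h : Ω → ℝ) (c : ℝ) :
    tX w s L h (fun _ _ => c) = c := by
  have := Sd.tX_const_mul w s L h c fun _ _ => 1
  rwa [Tr.tX_unit peStmt hw, mul_one] at this

theorem tX_sq_sub (hw : Wt w) (s : Sh) (L : List (Lv Ω)) (h : Ω → ℝ)
    {F : (NT s L → ℝ) → (s.Lf → Ω) → ℝ} (hF : ∀ x, Eg fun g => F g x) (c : ℝ) :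
    tX w s L h (fun g x => (F g x - c) ^ 2) = vT w s L h F + (tX w s L h F - c) ^ 2 := by
  have e : ∀ g x, (F g x - c) ^ 2 = F g x ^ 2 + (-(2 * c)) * F g x + c ^ 2 := fun g x => by ring
  simp only [e]
  rw [Sd.tX_add hw s L h (fun x => ((hF x).pow 2).add ((hF x).const_mul _)) fun _ => Eg.const _,
    Sd.tX_add hw s L h (fun x => (hF x).pow 2) fun x => (hF x).const_mul _, Sd.tX_const_mul,
    tX_const hw, vT]
  ring

end Crv

open Crv

variable {w : Ω → ℝ}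

theorem vT_nonneg (hw : Wt w) (s : Sh) (L : List (Lv Ω)) (h : Ω → ℝ)
    {F : (NT s L → ℝ) → (s.Lf → Ω) → ℝ} (hF : ∀ x, Eg fun g => F g x) : 0 ≤ vT w s L h F := by
  have := tX_sq_sub hw s L h hF (tX w s L h F)
  have p := Sd.tX_nonneg hw s L h (F := fun g x => (F g x - tX w s L h F) ^ 2)
    fun _ _ => sq_nonneg _
  rw [this] at p
  simpa using p

theorem vT_le (hw : Wt w) (s : Sh) (L : List (Lv Ω)) (h : Ω → ℝ)
    {F : (NT s L → ℝ) → (s.Lf → Ω) → ℝ} (hF : ∀ x, Eg fun g => F g x) (c : ℝ) :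
    vT w s L h F ≤ tX w s L h fun g x => (F g x - c) ^ 2 := by
  rw [tX_sq_sub hw s L h hF]
  exact le_add_of_nonneg_right (sq_nonneg _)

theorem Wd_nonneg (hw : Wt w) (l : Lv Ω) (L : List (Lv Ω)) (h : Ω → ℝ) {a a' : ℝ} (haa : a ≤ a') :
    0 ≤ Wd w l L h a a' := W_nonneg (lg_X hw L) l h haa

namespace Crv

theorem eg_cond (hw : Wt w) (s : Sh) (l : Lv Ω) (L : List (Lv Ω)) (h : Ω → ℝ)
    {F : (l.ι ⊕ NT s L → ℝ) → (s.Lf → Ω) → ℝ} (hF : ∀ x, Eg fun g => F g x) :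
    Eg fun g => tX w s L (h + l.fld g) fun g' => F (Sum.elim g g') := by
  have hH : ∀ y, Lg fun p : l.ι ⊕ NT s L → ℝ => (h + l.fld fun i => p (.inl i)) y :=
    Tr.lg_fld l (H := fun _ => h) (fun _ => Tr.lg_const _) fun i => Tr.lg_coord _
  refine eg_part (Φ := fun p : l.ι ⊕ NT s L → ℝ => ∑ x, denT w s L (h + l.fld fun i => p (.inl i))
    (fun i => p (.inr i)) x * F p x) (Eg.sum _ fun x _ => Eg.mul ?_ (hF x))
  have := (Tr.lg_sub (Tr.lg_neg (Tr.lg_UT hw s L x hH fun i => Tr.lg_coord (.inr i)))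
    (Tr.lg_cmul (s.br * ex L 0) (Tr.lg_comp (lg_X hw L) hH))).exp 1
  simp only [one_mul] at this
  exact this.const_mul _

theorem lg_root (hw : Wt w) (l : Lv Ω) (L : List (Lv Ω)) (h : Ω → ℝ) :
    Lg fun g => X w L (h + l.fld g) :=
  Tr.lg_comp (lg_X hw L) (Tr.lg_fld l (H := fun _ => h) (fun _ => Tr.lg_const _) Tr.lg_coord)

theorem tX_root (hw : Wt w) (s : Sh) (l : Lv Ω) (L : List (Lv Ω)) (h : Ω → ℝ)
    {F : (l.ι ⊕ NT s L → ℝ) → (s.Lf → Ω) → ℝ} (hF : ∀ x, Eg fun g => F g x) (t : ℝ) :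
    tX w (.step s) (rt l t :: L) h F = tE (rt (idl l.ι) t) (fun g => X w L (h + l.fld g))
      (fun g => tX w s L (h + l.fld g) fun g' => F (Sum.elim g g')) 0 := by
  rw [tE_idl]
  exact Tr.tX_step_cons hw s (rt l t) L h F hF

theorem Wd_root (l : Lv Ω) (L : List (Lv Ω)) (h : Ω → ℝ) (a a' : ℝ) : Wd w l L h a a' =
    tE (rt (idl l.ι) a') (fun g => X w L (h + l.fld g)) (fun g => X w L (h + l.fld g)) 0 -
      tE (rt (idl l.ι) a) (fun g => X w L (h + l.fld g)) (fun g => X w L (h + l.fld g)) 0 := by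
  rw [tE_idl, tE_idl]
  rfl

theorem cT_root (hw : Wt w) (s : Sh) (l : Lv Ω) (L : List (Lv Ω)) (h : Ω → ℝ)
    {F : (l.ι ⊕ NT s L → ℝ) → (s.Lf → Ω) → ℝ} (hF : ∀ x, Eg fun g => F g x) (t : ℝ) :
    cT (rt (idl l.ι) t) (fun g => X w L (h + l.fld g))
      (fun g => tX w s L (h + l.fld g) fun g' => F (Sum.elim g g'))
      (fun g => tX w s L (h + l.fld g) fun g' => F (Sum.elim g g')) 0 ≤
      vT w (.step s) (rt l t :: L) h F := by
  have e := eg_cond hw s l L h hF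
  have e2 := eg_cond hw s l L h (F := fun g x => F g x ^ 2) fun x => (hF x).pow 2
  have a := tX_root hw s l L h hF t
  have b := tX_root hw s l L h (F := fun g x => F g x ^ 2) (fun x => (hF x).pow 2) t
  have c := tE_mono (lg_root hw l L h) (e.mul e) e2 (fun g => by
    have := vT_nonneg hw s L (h + l.fld g) (F := fun g' => F (Sum.elim g g'))
      fun x => Pe.eg_elim (hF x) g
    rw [vT, sq (tX _ _ _ _ _)] at this
    linarith) (rt (idl l.ι) t) 0
  rw [cT, ← a]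
  rw [← b] at c
  have d : vT w (.step s) (rt l t :: L) h F =
      tX w (.step s) (rt l t :: L) h (fun g x => F g x ^ 2) -
        tX w (.step s) (rt l t :: L) h F ^ 2 := rfl
  rw [d, sq (tX w (.step s) (rt l t :: L) h F)]
  exact sub_le_sub_right c _

end Crv

/-- the derivative of a tree expectation in the root tilt is a covariance with `Φ₁` -/
theorem der_tX_root (hw : Wt w) (s : Sh) (l : Lv Ω) (L : List (Lv Ω)) (h : Ω → ℝ)
    {F : (l.ι ⊕ NT s L → ℝ) → (s.Lf → Ω) → ℝ} (hF : ∀ x, Eg fun g => F g x) (t : ℝ) :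
    HasDerivAt (fun t => tX w (.step s) (rt l t :: L) h F)
      (tX w (.step s) (rt l t :: L) h
          (fun g x => X w L (h + l.fld fun i => g (.inl i)) * F g x) -
        tE (rt l t) (X w L) (X w L) h * tX w (.step s) (rt l t :: L) h F) t := by
  have hG : Eg fun p : l.ι ⊕ NT s L → ℝ => X w L (h + l.fld fun i => p (.inl i)) :=
    (Tr.lg_comp (lg_X hw L) (Tr.lg_fld l (H := fun _ => h) (fun _ => Tr.lg_const _)
      fun i => Tr.lg_coord _)).eg
  have d := der_tE (lg_root hw l L h) (eg_cond hw s l L h hF) (idl l.ι) 0 t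
  simp only [← tX_root hw s l L h hF] at d
  refine d.congr_deriv ?_
  have a := tX_root hw s l L h (F := fun g x => X w L (h + l.fld fun i => g (.inl i)) * F g x)
    (fun x => hG.mul (hF x)) t
  have b : tE (rt (idl l.ι) t) (fun g => X w L (h + l.fld g)) (fun g => X w L (h + l.fld g)) 0 =
      tE (rt l t) (X w L) (X w L) h := by rw [tE_idl]; rfl
  rw [cT, ← tX_root hw s l L h hF, b]
  congr 1
  refine Eq.trans ?_ a.symm
  congr 1
  funext g
  exact (Sd.tX_const_mul w s L (h + l.fld g) _ fun g' => F (Sum.elim g g')).symm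

/-- **`sd` form of the root transfer**, trees -/
theorem delta_tX (hw : Wt w) (s : Sh) (l : Lv Ω) (L : List (Lv Ω)) (h : Ω → ℝ)
    {F : (l.ι ⊕ NT s L → ℝ) → (s.Lf → Ω) → ℝ} (hF : ∀ x, Eg fun g => F g x) {a a' V : ℝ}
    (haa : a ≤ a') (hV : ∀ t ∈ Icc a a', vT w (.step s) (rt l t :: L) h F ≤ V) :
    (tX w (.step s) (rt l a' :: L) h F - tX w (.step s) (rt l a :: L) h F) ^ 2 ≤
      Wd w l L h a a' * ((a' - a) * V) := by
  rw [tX_root hw s l L h hF, tX_root hw s l L h hF, Wd_root]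
  exact delta_sup (lg_root hw l L h) (eg_cond hw s l L h hF) _ _ haa fun t ht =>
    (cT_root hw s l L h hF t).trans (hV t ht)

/-- the same with an integrable majorant of the variance -/
theorem delta_tX_int (hw : Wt w) (s : Sh) (l : Lv Ω) (L : List (Lv Ω)) (h : Ω → ℝ)
    {F : (l.ι ⊕ NT s L → ℝ) → (s.Lf → Ω) → ℝ} (hF : ∀ x, Eg fun g => F g x) {a a' : ℝ}
    {V : ℝ → ℝ} (haa : a ≤ a') (hi : IntervalIntegrable V volume a a')
    (hV : ∀ t ∈ Icc a a', vT w (.step s) (rt l t :: L) h F ≤ V t) :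
    (tX w (.step s) (rt l a' :: L) h F - tX w (.step s) (rt l a :: L) h F) ^ 2 ≤
      Wd w l L h a a' * ∫ t in a..a', V t := by
  have p := Wd_nonneg hw l L h haa
  rw [tX_root hw s l L h hF, tX_root hw s l L h hF]
  rw [Wd_root] at p ⊢
  have e := eg_cond hw s l L h hF
  refine (delta_int (lg_root hw l L h) e _ _ haa).trans (mul_le_mul_of_nonneg_left
    (intervalIntegral.integral_mono_on haa
      ((cont_cT (lg_root hw l L h) e e _ _).intervalIntegrable _ _) hi fun t ht =>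
    (cT_root hw s l L h hF t).trans (hV t ht)) p)

theorem pE_eq_tX_step (hw : Wt w) (l : Lv Ω) (L : List (Lv Ω)) (h : Ω → ℝ)
    {F : (l.ι ⊕ NI L → ℝ) → Ω → ℝ} (hF : ∀ x, Eg fun g => F g x) :
    pE w (l :: L) h F = tX w (.step .one) (l :: L) h fun g x => F g (x ()) := by
  refine (Pe.pE_cons hw l L h F hF).trans (Eq.trans ?_
    (Tr.tX_step_cons hw .one l L h (fun g x => F g (x ())) fun x => hF (x ())).symm)
  exact congrArg (· / _) (integral_congr_ae (.of_forall fun g => congrArg (_ * ·)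
    (Tr.tX_one w L (h + l.fld g) fun g' x => F (Sum.elim g g') (x ())).symm))

/-- **`sd` form of the root transfer**, one path -/
theorem delta_pE (hw : Wt w) (l : Lv Ω) (L : List (Lv Ω)) (h : Ω → ℝ)
    {F : (l.ι ⊕ NI L → ℝ) → Ω → ℝ} (hF : ∀ x, Eg fun g => F g x) {a a' V : ℝ} (haa : a ≤ a')
    (hV : ∀ t ∈ Icc a a', pE w (rt l t :: L) h (fun g x => F g x ^ 2) -
      pE w (rt l t :: L) h F ^ 2 ≤ V) :
    (pE w (rt l a' :: L) h F - pE w (rt l a :: L) h F) ^ 2 ≤ Wd w l L h a a' * ((a' - a) * V) := by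
  have e := fun t => pE_eq_tX_step hw (rt l t) L h hF
  have e2 := fun t => pE_eq_tX_step hw (rt l t) L h (F := fun g x => F g x ^ 2)
    fun x => (hF x).pow 2
  rw [e, e]
  refine delta_tX hw .one l L h (F := fun g x => F g (x ())) (fun x => hF (x ())) haa fun t ht => ?_
  have := hV t ht
  rw [e] at this
  exact (congrArg (· - _) (e2 t).symm).le.trans this

/-- **`sd` form of the root transfer**, one node -/
theorem delta_node (hw : Wt w) (l : Lv Ω) (L : List (Lv Ω)) (h : Ω → ℝ) (j : ℕ)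
    {Φ : (Ω → ℝ) → ℝ} (hΦ : Eg Φ) {a a' V : ℝ} (haa : a ≤ a')
    (hV : ∀ t ∈ Icc a a', node w (rt l t :: L) j (fun z => Φ z ^ 2) h -
      node w (rt l t :: L) j Φ h ^ 2 ≤ V) :
    (node w (rt l a' :: L) j Φ h - node w (rt l a :: L) j Φ h) ^ 2 ≤
      Wd w l L h a a' * ((a' - a) * V) := by
  have e : ∀ {Ψ : (Ω → ℝ) → ℝ}, Eg Ψ → ∀ t, node w (rt l t :: L) j Ψ h =
      pE w (rt l t :: L) h fun g _ => Ψ (st (l :: L) j h g) := fun hΨ t => by
    rw [← Pe.pE_node1 hw hΨ]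
    cases j <;> rfl
  rw [e hΦ, e hΦ]
  refine delta_pE hw l L h (F := fun g _ => Φ (st (l :: L) j h g))
    (fun _ => Pe.eg_st (l :: L) h j hΦ) haa fun t ht => ?_
  have := hV t ht
  rwa [e hΦ, e (hΦ.pow 2)] at this

/-! ### the curve -/

theorem rt_eq_lv (l : Lv Ω) (m : ℝ) : rt l m = lv l 1 m := by simp [rt, lv]

theorem abs_cov_le (l : Lv Ω) {c : ℝ} (hc : ∀ x, l.cov x x ≤ c) (x y : Ω) : |l.cov x y| ≤ c := by
  have p : ∀ σ : ℝ, 0 ≤ l.cov x x + 2 * σ * l.cov x y + σ ^ 2 * l.cov y y := fun σ => by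
    simp only [Lv.cov, Finset.mul_sum, ← Finset.sum_add_distrib]
    exact Finset.sum_nonneg fun i _ => (sq_nonneg (l.A x i + σ * l.A y i)).trans_eq (by ring)
  have p1 := p 1
  have p2 := p (-1)
  rw [abs_le]
  constructor <;> linarith [hc x, hc y]

/-- the value is monotone and Lipschitz in the root tilt -/
theorem X_rt_sub (hw : Wt w) (l : Lv Ω) (L : List (Lv Ω)) (h : Ω → ℝ) {c a a' : ℝ}
    (hc : ∀ x, l.cov x x ≤ c) (haa : a ≤ a') :
    0 ≤ X w (rt l a' :: L) h - X w (rt l a :: L) h ∧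
      X w (rt l a' :: L) h - X w (rt l a :: L) h ≤ (a' - a) / 2 * c := by
  have e := (varStmt Ω w hw).2 [] L l a a' h
  simp only [List.nil_append, ← rt_eq_lv] at e
  rw [e]
  have hd : 0 ≤ (a' - a) / 2 := by linarith
  have lo : ∀ (M : List (Lv Ω)) j, 0 ≤ pi2 w M j l.cov h := fun M j => by
    have := pi2_sum hw M j Finset.univ (fun i x y => l.A x i * l.A y i) h
    exact le_of_le_of_eq (Finset.sum_nonneg fun i _ => pi2_sq_nonneg w M j _ h) this.symm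
  have up : ∀ (M : List (Lv Ω)) j, pi2 w M j l.cov h ≤ c := fun M j =>
    (pi2_mono hw M j (fun x y => (le_abs_self _).trans (abs_cov_le l hc x y)) h).trans_eq
      (pi2_const hw M j c h)
  refine ⟨mul_nonneg hd (intervalIntegral.integral_nonneg zero_le_one fun _ _ => lo _ _),
    mul_le_mul_of_nonneg_left ((le_abs_self _).trans ?_) hd⟩
  have := intervalIntegral.norm_integral_le_of_norm_le_const (a := 0) (b := 1) (C := c)
    (f := fun ρ => pi2 w (lv l ρ a :: lv l (1 - ρ) a' :: L) (([] : List (Lv Ω)).length + 1) l.cov h)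
    fun ρ _ => by rw [Real.norm_eq_abs, abs_of_nonneg (lo _ _)]; exact up _ _
  simpa using this

theorem X_rt_mono (hw : Wt w) (l : Lv Ω) (L : List (Lv Ω)) (h : Ω → ℝ) {a a' : ℝ} (haa : a ≤ a') :
    X w (rt l a :: L) h ≤ X w (rt l a' :: L) h :=
  sub_nonneg.1 (X_rt_sub hw l L h (c := ∑ x, |l.cov x x|) (fun x => (le_abs_self _).trans
    (Finset.single_le_sum (f := fun x => |l.cov x x|) (fun _ _ => abs_nonneg _)
      (Finset.mem_univ x))) haa).1

/-- (M): the curve of the SK model -/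
theorem Ln_eq_crv {n : ℕ} (hn : 0 < n) (β m : ℝ) {s₁ s : ℝ} (h1 : s₁ ≠ 0) (h2 : s ≠ 0) :
    Soft.Ln n β s₁ s = crv n s₁ (fun _ => 1) (wl n β 1 m) [] 0 s := by
  have he : (n : ℝ) ^ (-(1 : ℝ) / 6) ≠ 0 := (rpow_pos_of_pos (Nat.cast_pos.2 hn) _).ne'
  rw [Soft.Ln, linkStmt.2.2.1 n β _ hn (mul_ne_zero h2 he),
    linkStmt.2.2.1 n β _ hn (mul_ne_zero h1 he), crv, sub_sub_sub_cancel_right]

theorem crv_mono (hw : Wt w) (n : ℕ) (s₁ : ℝ) (l : Lv Ω) (L : List (Lv Ω)) (h : Ω → ℝ) :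
    Monotone (crv n s₁ w l L h) := fun _ _ hs =>
  mul_le_mul_of_nonneg_left (sub_le_sub_right (X_rt_mono hw l L h
    (mul_le_mul_of_nonneg_right hs (by positivity))) _) (by positivity)

theorem crv_self (n : ℕ) (s₁ : ℝ) (l : Lv Ω) (L : List (Lv Ω)) (h : Ω → ℝ) :
    crv n s₁ w l L h s₁ = 0 := by simp [crv]

theorem crv_nonneg (hw : Wt w) (n : ℕ) {s₁ s : ℝ} (l : Lv Ω) (L : List (Lv Ω)) (h : Ω → ℝ)
    (hs : s₁ ≤ s) : 0 ≤ crv n s₁ w l L h s :=
  (crv_self n s₁ l L h).symm.le.trans (crv_mono hw n s₁ l L h hs)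

/-- (T): the trivial bound -/
theorem crv_le (hw : Wt w) (n : ℕ) {s₁ s c : ℝ} (l : Lv Ω) (L : List (Lv Ω)) (h : Ω → ℝ)
    (hc : ∀ x, l.cov x x ≤ c) (hs : s₁ ≤ s) :
    crv n s₁ w l L h s ≤ ((n : ℝ) ^ (-(1 : ℝ) / 6)) ^ 2 * ((s - s₁) / 2 * c) := by
  have he : 0 ≤ (n : ℝ) ^ (-(1 : ℝ) / 6) := by positivity
  refine (mul_le_mul_of_nonneg_left
    (X_rt_sub hw l L h hc (mul_le_mul_of_nonneg_right hs he)).2 he).trans_eq (by ring)

theorem crv_le' (hw : Wt w) {n : ℕ} (hn : 0 < n) {s₁ s c : ℝ} (l : Lv Ω) (L : List (Lv Ω))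
    (h : Ω → ℝ) (h0 : 0 ≤ c) (hc : ∀ x, l.cov x x ≤ c) (hs : s₁ ≤ s) :
    crv n s₁ w l L h s ≤ (s - s₁) / 2 * c := by
  have he : (n : ℝ) ^ (-(1 : ℝ) / 6) ≤ 1 :=
    rpow_le_one_of_one_le_of_nonpos (by exact_mod_cast hn) (by norm_num)
  refine (crv_le hw n l L h hc hs).trans (mul_le_of_le_one_left
    (mul_nonneg (by linarith) h0) (pow_le_one₀ (by positivity) he))

/-- `n^{-1/6} W ≤ λ/(λ-1) crv (λ s)` -/
theorem Wd_le_crv (hw : Wt w) {n : ℕ} (hn : 0 < n) {s₁ s lam : ℝ} (l : Lv Ω) (L : List (Lv Ω))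
    (h : Ω → ℝ) (h1 : 0 < s₁) (hs : s₁ ≤ s) (hl : 1 < lam) :
    (n : ℝ) ^ (-(1 : ℝ) / 6) *
        Wd w l L h (s₁ * (n : ℝ) ^ (-(1 : ℝ) / 6)) (s * (n : ℝ) ^ (-(1 : ℝ) / 6)) ≤
      lam / (lam - 1) * crv n s₁ w l L h (lam * s) := by
  set e := (n : ℝ) ^ (-(1 : ℝ) / 6) with he
  have e0 : 0 < e := rpow_pos_of_pos (Nat.cast_pos.2 hn) _
  have s0 : 0 < s := h1.trans_le hs
  have k := W_le hw l L h (a := s₁ * e) (a' := s * e) (a₁ := lam * s * e) (mul_pos h1 e0)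
    (mul_le_mul_of_nonneg_right hs e0.le)
    (mul_lt_mul_of_pos_right (lt_mul_of_one_lt_left s0 hl) e0)
  have q : lam * s * e / (lam * s * e - s * e) = lam / (lam - 1) := by
    have : lam - 1 ≠ 0 := by linarith
    rw [show lam * s * e - s * e = (lam - 1) * (s * e) by ring, mul_assoc,
      mul_div_mul_right _ _ (mul_pos s0 e0).ne']
  rw [q] at k
  exact (mul_le_mul_of_nonneg_left k e0.le).trans_eq (by rw [crv, ← he]; ring)

/-- `(a' - a) W ≤ λ/(λ-1) s crv (λ s)` -/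
theorem len_Wd_le (hw : Wt w) {n : ℕ} (hn : 0 < n) {s₁ s lam : ℝ} (l : Lv Ω) (L : List (Lv Ω))
    (h : Ω → ℝ) (h1 : 0 < s₁) (hs : s₁ ≤ s) (hl : 1 < lam) :
    Wd w l L h (s₁ * (n : ℝ) ^ (-(1 : ℝ) / 6)) (s * (n : ℝ) ^ (-(1 : ℝ) / 6)) *
        (s * (n : ℝ) ^ (-(1 : ℝ) / 6) - s₁ * (n : ℝ) ^ (-(1 : ℝ) / 6)) ≤
      lam / (lam - 1) * (s * crv n s₁ w l L h (lam * s)) := by
  have k := Wd_le_crv hw hn l L h h1 hs hl
  set e := (n : ℝ) ^ (-(1 : ℝ) / 6) with he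
  have e0 : 0 < e := rpow_pos_of_pos (Nat.cast_pos.2 hn) _
  have p := Wd_nonneg hw l L h (mul_le_mul_of_nonneg_right hs e0.le)
  have k2 := mul_le_mul_of_nonneg_left k (h1.le.trans hs)
  have k3 := mul_nonneg p (mul_pos h1 e0).le
  linarith

/-- **scaled `sd` form**: `(Δ_a E F)² ≤ λ/(λ-1) · s · crv (λ s) · sup Var F` -/
theorem delta_crv (hw : Wt w) {n : ℕ} (hn : 0 < n) (sh : Sh) (l : Lv Ω) (L : List (Lv Ω))
    (h : Ω → ℝ) {F : (l.ι ⊕ NT sh L → ℝ) → (sh.Lf → Ω) → ℝ} (hF : ∀ x, Eg fun g => F g x)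
    {s₁ s lam V B : ℝ} (h1 : 0 < s₁) (hs : s₁ ≤ s) (hl : 1 < lam)
    (hB : crv n s₁ w l L h (lam * s) ≤ B)
    (hV : ∀ t ∈ Icc (s₁ * (n : ℝ) ^ (-(1 : ℝ) / 6)) (s * (n : ℝ) ^ (-(1 : ℝ) / 6)),
      vT w (.step sh) (rt l t :: L) h F ≤ V) :
    (tX w (.step sh) (rt l (s * (n : ℝ) ^ (-(1 : ℝ) / 6)) :: L) h F -
      tX w (.step sh) (rt l (s₁ * (n : ℝ) ^ (-(1 : ℝ) / 6)) :: L) h F) ^ 2 ≤
      lam / (lam - 1) * (s * B) * V := by
  have haa : s₁ * (n : ℝ) ^ (-(1 : ℝ) / 6) ≤ s * (n : ℝ) ^ (-(1 : ℝ) / 6) :=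
    mul_le_mul_of_nonneg_right hs (by positivity)
  have V0 : 0 ≤ V := (vT_nonneg hw (.step sh) (rt l (s₁ * (n : ℝ) ^ (-(1 : ℝ) / 6)) :: L) h
    hF).trans (hV _ ⟨le_rfl, haa⟩)
  refine (delta_tX hw sh l L h hF haa hV).trans ?_
  rw [← mul_assoc]
  refine mul_le_mul_of_nonneg_right ((len_Wd_le hw hn l L h h1 hs hl).trans ?_) V0
  exact mul_le_mul_of_nonneg_left (mul_le_mul_of_nonneg_left hB (h1.le.trans hs))
    (div_nonneg (by linarith) (by linarith))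

end Crest.Agent.T156.Cas

end
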