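import Crest.Agent.T156.AltDef_88

/-!
# Row 156, ALT route: the normalised logarithmic spread (helper88)
-/

set_option autoImplicit false

noncomputable section

namespace Crest.Agent.T156.Alt.Pm

open Real Set

variable (p : Pm)

/-- normalisation, lower and upper end length -/
def lL : ℝ := 6 * log ((p.n : ℝ) + 3)
def l0' (γ : ℝ) : ℝ := 64 * max γ (1 / ((p.n : ℝ) + 1)) / p.lL
def l1' : ℝ := 1 / ((p.n : ℝ) + 1) ^ 3
/-- **the spread**, from `0` at `xs` to at most `1` at `1` -/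
def lsp (γ x : ℝ) : ℝ :=
  (log (x - p.xs + p.l0' γ) - log (p.l0' γ) + (log (1 - p.xs + p.l1') - log (1 - x + p.l1'))) / p.lL
/-- its derivative -/
def lsp' (γ x : ℝ) : ℝ := (1 / (x - p.xs + p.l0' γ) + 1 / (1 - x + p.l1')) / p.lL

theorem lL_ge : 6 ≤ p.lL := by
  have : (1 : ℝ) ≤ log ((p.n : ℝ) + 3) := by
    rw [le_log_iff_exp_le (by positivity)]
    linarith [exp_one_lt_d9, (Nat.cast_nonneg p.n : (0 : ℝ) ≤ p.n)]
  unfold lL; linarith

theorem lL_pos : 0 < p.lL := by linarith [p.lL_ge]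

theorem l0'_pos (γ : ℝ) : 0 < p.l0' γ := by
  have := p.lL_pos
  have : 0 < max γ (1 / ((p.n : ℝ) + 1)) := lt_max_of_lt_right (by positivity)
  unfold l0'; positivity

theorem l1'_pos : 0 < p.l1' := by unfold l1'; positivity

theorem l1'_le : p.l1' ≤ 1 := by
  unfold l1'
  rw [div_le_one (by positivity)]
  exact one_le_pow₀ (by linarith [(Nat.cast_nonneg p.n : (0 : ℝ) ≤ p.n)])

theorem l0'_eq {γ : ℝ} (h : 1 / ((p.n : ℝ) + 1) ≤ γ) : p.l0' γ = 64 * γ / p.lL := by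
  rw [l0', max_eq_left h]

@[simp] theorem lsp_xs (γ : ℝ) : p.lsp γ p.xs = 0 := by simp [lsp]

theorem hasDerivAt_lsp (γ : ℝ) {x : ℝ} (h0 : p.xs ≤ x) (h1 : x ≤ 1) :
    HasDerivAt (p.lsp γ) (p.lsp' γ x) x := by
  have a : 0 < x - p.xs + p.l0' γ := by linarith [p.l0'_pos γ]
  have b : 0 < 1 - x + p.l1' := by linarith [p.l1'_pos]
  have d1 := (((hasDerivAt_id x).sub_const p.xs).add_const (p.l0' γ)).log a.ne'
  have d2 := ((((hasDerivAt_id x).const_sub 1).add_const p.l1').log b.ne').const_sub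
    (log (1 - p.xs + p.l1'))
  refine (((d1.sub_const (log (p.l0' γ))).add d2).div_const p.lL).congr_deriv ?_
  simp only [lsp', id]
  ring

theorem lsp'_pos (γ : ℝ) {x : ℝ} (h0 : p.xs ≤ x) (h1 : x ≤ 1) : 0 < p.lsp' γ x := by
  have a : 0 < x - p.xs + p.l0' γ := by linarith [p.l0'_pos γ]
  have b : 0 < 1 - x + p.l1' := by linarith [p.l1'_pos]
  have := p.lL_pos
  unfold lsp'; positivity

/-- lower slope `1 / (2 lL)` when `0 ≤ xs` -/
theorem lsp_inc (γ : ℝ) (hx : 0 ≤ p.xs) {x y : ℝ} (h0 : p.xs ≤ x) (hxy : x ≤ y) (h1 : y ≤ 1) :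
    (y - x) / (2 * p.lL) ≤ p.lsp γ y - p.lsp γ x := by
  have L := p.lL_pos
  have a : 0 < x - p.xs + p.l0' γ := by linarith [p.l0'_pos γ]
  have b : 0 < 1 - y + p.l1' := by linarith [p.l1'_pos]
  have c : 0 < 1 - x + p.l1' := by linarith
  have e1 := log_le_log a (show x - p.xs + p.l0' γ ≤ y - p.xs + p.l0' γ by linarith)
  have e2 := log_le_sub_one_of_pos (div_pos b c)
  rw [log_div b.ne' c.ne'] at e2
  have e3 : (y - x) / 2 ≤ 1 - (1 - y + p.l1') / (1 - x + p.l1') := by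
    rw [one_sub_div c.ne']
    exact div_le_div₀ (by linarith) (by linarith) c (by linarith [p.l1'_le])
  unfold lsp
  rw [← sub_div, ← div_div]
  exact div_le_div_of_nonneg_right (by linarith) L.le

theorem lsp_le (γ : ℝ) {x y : ℝ} (h0 : p.xs ≤ x) (hxy : x ≤ y) (h1 : y ≤ 1) :
    p.lsp γ x ≤ p.lsp γ y := by
  have a : 0 < x - p.xs + p.l0' γ := by linarith [p.l0'_pos γ]
  have b : 0 < 1 - y + p.l1' := by linarith [p.l1'_pos]
  have e1 := log_le_log a (show x - p.xs + p.l0' γ ≤ y - p.xs + p.l0' γ by linarith)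
  have e2 := log_le_log b (show 1 - y + p.l1' ≤ 1 - x + p.l1' by linarith)
  exact div_le_div_of_nonneg_right (by linarith) p.lL_pos.le

theorem lsp_lt (γ : ℝ) {x y : ℝ} (h0 : p.xs ≤ x) (hxy : x < y) (h1 : y ≤ 1) :
    p.lsp γ x < p.lsp γ y := by
  have a : 0 < x - p.xs + p.l0' γ := by linarith [p.l0'_pos γ]
  have b : 0 < 1 - y + p.l1' := by linarith [p.l1'_pos]
  have e1 := log_lt_log a (show x - p.xs + p.l0' γ < y - p.xs + p.l0' γ by linarith)
  have e2 := log_lt_log b (show 1 - y + p.l1' < 1 - x + p.l1' by linarith)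
  exact div_lt_div_of_pos_right (by linarith) p.lL_pos

theorem lsp_nonneg (γ : ℝ) {x : ℝ} (h0 : p.xs ≤ x) (h1 : x ≤ 1) : 0 ≤ p.lsp γ x :=
  (p.lsp_xs γ).ge.trans (p.lsp_le γ le_rfl h0 h1)

theorem lsp_le_one (γ : ℝ) (hx : 0 ≤ p.xs) {x : ℝ} (h0 : p.xs ≤ x) (h1 : x ≤ 1) :
    p.lsp γ x ≤ 1 := by
  refine (p.lsp_le γ h0 h1 le_rfl).trans ?_
  have L := p.lL_pos
  have n0 : (0 : ℝ) ≤ p.n := Nat.cast_nonneg _
  have a := p.l0'_pos γ
  have b := p.l1'_pos
  have x1 : 0 ≤ 1 - p.xs := by linarith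
  have lg : log ((p.n : ℝ) + 3) ≤ p.n + 3 := (log_le_sub_one_of_pos (by positivity)).trans (by linarith)
  have a1 : 1 ≤ ((p.n : ℝ) + 1) * (p.n + 3) * p.l0' γ := by
    have m : 1 / ((p.n : ℝ) + 1) ≤ max γ (1 / ((p.n : ℝ) + 1)) := le_max_right _ _
    rw [div_le_iff₀ (by positivity)] at m
    unfold l0'
    rw [← mul_div_assoc, le_div_iff₀ L]
    unfold lL
    nlinarith [mul_le_mul_of_nonneg_left m (by positivity : (0 : ℝ) ≤ 64 * (p.n + 3))]
  have e1 : log (1 - p.xs + p.l0' γ) ≤ log (p.l0' γ) + 2 * log ((p.n : ℝ) + 3) := by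
    rw [show 2 * log ((p.n : ℝ) + 3) = log (((p.n : ℝ) + 3) ^ 2) by simp,
      ← log_mul a.ne' (by positivity)]
    exact log_le_log (by positivity) (by nlinarith [mul_nonneg a.le n0])
  have b1 : ((p.n : ℝ) + 1) ^ 3 * p.l1' = 1 := by unfold l1'; field_simp
  have e2 : log (1 - p.xs + p.l1') ≤ log (p.l1') + 3 * log ((p.n : ℝ) + 3) := by
    rw [show 3 * log ((p.n : ℝ) + 3) = log (((p.n : ℝ) + 3) ^ 3) by simp,
      ← log_mul b.ne' (by positivity)]
    refine log_le_log (by positivity) ?_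
    have : ((p.n : ℝ) + 1) ^ 3 + 1 ≤ (p.n + 3) ^ 3 := by nlinarith [sq_nonneg (p.n : ℝ)]
    nlinarith [mul_le_mul_of_nonneg_left this b.le]
  have l0 : 0 ≤ log ((p.n : ℝ) + 3) := log_nonneg (by linarith)
  unfold lsp
  rw [div_le_one L, sub_self, zero_add]
  unfold lL
  linarith

end Crest.Agent.T156.Alt.Pm

end
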