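import Mathlib

/-!
# Discrete Boué–Dupuis (helper27): the statement
-/

set_option autoImplicit false
open MeasureTheory ProbabilityTheory Real

namespace Crest.Agent.T156.Bd

/-- **three function inequality** for tilted Gaussian averages (no convexity needed beyond the
three function hypothesis; the functions are Lipschitz for the sup norm; tilts of one sign). -/
def BdStmt : Prop := ∀ (ι : Type) [Fintype ι] (f f₀ f₁ : (ι → ℝ) → ℝ) (L θ x₀ x₁ : ℝ),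
  0 ≤ θ → θ ≤ 1 → ((0 < x₀ ∧ 0 < x₁) ∨ (x₀ < 0 ∧ x₁ < 0)) →
  (∀ u w, |f u - f w| ≤ L * ‖u - w‖) → (∀ u w, |f₀ u - f₀ w| ≤ L * ‖u - w‖) →
  (∀ u w, |f₁ u - f₁ w| ≤ L * ‖u - w‖) →
  (∀ a b, f ((1 - θ) • a + θ • b) ≤ (1 - θ) * f₀ a + θ * f₁ b) →
  ((1 - θ) * x₀ + θ * x₁)⁻¹ *
      log (∫ g, exp (((1 - θ) * x₀ + θ * x₁) * f g) ∂Measure.pi fun _ : ι => gaussianReal 0 1) ≤
    (1 - θ) * (x₀⁻¹ * log (∫ g, exp (x₀ * f₀ g) ∂Measure.pi fun _ : ι => gaussianReal 0 1)) +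
      θ * (x₁⁻¹ * log (∫ g, exp (x₁ * f₁ g) ∂Measure.pi fun _ : ι => gaussianReal 0 1))

end Crest.Agent.T156.Bd
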