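import Crest.Agent.T156.BdC_27
import Crest.Agent.T156.BdDef_27

/-!
# Discrete Boué–Dupuis (helper27), part D: any finite dimension
-/

set_option autoImplicit false
open MeasureTheory ProbabilityTheory Real
open scoped NNReal

namespace Crest.Agent.T156.Bd

lemma int_exp_pi {ι : Type} [Fintype ι] {f : (ι → ℝ) → ℝ} {L : ℝ}
    (hf : ∀ u w, |f u - f w| ≤ L * ‖u - w‖) (hL : 0 ≤ L) (x : ℝ) :
    Integrable (fun g => exp (x * f g)) (Measure.pi fun _ : ι => gam) := by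
  have hc : Continuous f := by
    have : LipschitzWith (Real.toNNReal L) f := by
      refine LipschitzWith.of_dist_le_mul fun u w => ?_
      rw [Real.dist_eq, dist_eq_norm, Real.coe_toNNReal _ hL]
      exact hf u w
    exact this.continuous
  have hi : Integrable (fun g : ι → ℝ => ∏ i, exp (|x| * L * |g i|)) (Measure.pi fun _ : ι => gam) :=
    Integrable.fintype_prod (f := fun _ t => exp (|x| * L * |t|)) fun _ => int_exp_abs 0 1 _
  refine (hi.const_mul (exp (|x| * |f 0|))).mono' (by fun_prop) (Filter.Eventually.of_forall fun g => ?_)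
  rw [Real.norm_eq_abs, abs_exp, ← exp_sum, ← exp_add, exp_le_exp, ← Finset.mul_sum]
  have h1 : ‖g‖ ≤ ∑ i, |g i| :=
    (pi_norm_le_iff_of_nonneg (Finset.sum_nonneg fun i _ => abs_nonneg _)).2 fun i =>
      Finset.single_le_sum (f := fun i => |g i|) (fun i _ => abs_nonneg _) (Finset.mem_univ i)
  have h2 := hf g 0
  rw [sub_zero] at h2
  have h3 : |f g| ≤ |f 0| + L * ∑ i, |g i| := by
    have := abs_sub_abs_le_abs_sub (f g) (f 0)
    have := mul_le_mul_of_nonneg_left h1 hL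
    linarith
  calc x * f g ≤ |x| * |f g| := by rw [← abs_mul]; exact le_abs_self _
    _ ≤ |x| * (|f 0| + L * ∑ i, |g i|) := mul_le_mul_of_nonneg_left h3 (abs_nonneg x)
    _ = _ := by ring

lemma V_mono {Ω : Type*} [MeasurableSpace Ω] {μ : Measure Ω} [IsProbabilityMeasure μ]
    {f k : Ω → ℝ} {x c : ℝ} (hx : x ≠ 0) (hf : Integrable (fun g => exp (x * f g)) μ)
    (hk : Integrable (fun g => exp (x * k g)) μ) (h : ∀ g, f g ≤ k g + c) :
    x⁻¹ * log (∫ g, exp (x * f g) ∂μ) ≤ x⁻¹ * log (∫ g, exp (x * k g) ∂μ) + c := by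
  have e : log (∫ g, exp (x * k g) * exp (x * c) ∂μ) = log (∫ g, exp (x * k g) ∂μ) + x * c := by
    rw [integral_mul_const, log_mul (int_exp_pos hk).ne' (exp_pos _).ne', log_exp]
  have e2 : x⁻¹ * log (∫ g, exp (x * k g) ∂μ) + c
      = x⁻¹ * (log (∫ g, exp (x * k g) ∂μ) + x * c) := by field_simp
  have hp : 0 < ∫ g, exp (x * k g) * exp (x * c) ∂μ := by
    rw [integral_mul_const]; exact mul_pos (int_exp_pos hk) (exp_pos _)
  rw [e2, ← e]
  rcases lt_or_gt_of_ne hx with hx' | hx'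
  · refine mul_le_mul_of_nonpos_left (log_le_log hp ?_) (inv_nonpos.2 hx'.le)
    refine integral_mono (hk.mul_const _) hf fun g => ?_
    simp only [← exp_add]
    exact exp_le_exp.2 (by nlinarith [h g])
  · refine mul_le_mul_of_nonneg_left (log_le_log (int_exp_pos hf) ?_) (inv_nonneg.2 hx'.le)
    refine integral_mono hf (hk.mul_const _) fun g => ?_
    simp only [← exp_add]
    exact exp_le_exp.2 (by nlinarith [h g])

lemma cons_snd {n : ℕ} (a : ℝ) (u w : Fin n → ℝ) :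
    ‖(Fin.cons a u : Fin (n + 1) → ℝ) - Fin.cons a w‖ ≤ ‖u - w‖ :=
  (pi_norm_le_iff_of_nonneg (norm_nonneg _)).2 fun i => by
    refine Fin.cases ?_ (fun j => ?_) i
    · simp
    · simpa using norm_le_pi_norm (u - w) j

lemma cons_fst {n : ℕ} (a b : ℝ) (u : Fin n → ℝ) :
    ‖(Fin.cons a u : Fin (n + 1) → ℝ) - Fin.cons b u‖ ≤ |a - b| :=
  (pi_norm_le_iff_of_nonneg (abs_nonneg _)).2 fun i => by
    refine Fin.cases ?_ (fun j => ?_) i
    · simp
    · simp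

lemma cons_comb {n : ℕ} (θ a b : ℝ) (u w : Fin n → ℝ) :
    (Fin.cons ((1 - θ) * a + θ * b) ((1 - θ) • u + θ • w) : Fin (n + 1) → ℝ)
      = (1 - θ) • (Fin.cons a u : Fin (n + 1) → ℝ) + θ • (Fin.cons b w : Fin (n + 1) → ℝ) := by
  funext i
  refine Fin.cases ?_ (fun j => ?_) i <;> simp

lemma int_succ {n : ℕ} (φ : (Fin (n + 1) → ℝ) → ℝ)
    (hφ : Integrable φ (Measure.pi fun _ : Fin (n + 1) => gam)) :
    ∫ g, φ g ∂(Measure.pi fun _ : Fin (n + 1) => gam) =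
      ∫ a, ∫ u, φ (Fin.cons a u) ∂(Measure.pi fun _ : Fin n => gam) ∂gam := by
  have mp := (measurePreserving_piFinSuccAbove (fun _ : Fin (n + 1) => gam) 0).symm
  have e : ∀ p : ℝ × (Fin n → ℝ),
      (MeasurableEquiv.piFinSuccAbove (fun _ : Fin (n + 1) => ℝ) 0).symm p = Fin.cons p.1 p.2 := by
    intro p
    simp [MeasurableEquiv.piFinSuccAbove, Fin.insertNthEquiv]
  have hi : Integrable (fun p => φ ((MeasurableEquiv.piFinSuccAbove (fun _ : Fin (n + 1) => ℝ) 0).symm p))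
      (gam.prod (Measure.pi fun _ : Fin n => gam)) :=
    (mp.integrable_comp_emb (MeasurableEquiv.measurableEmbedding _)).2 hφ
  rw [← mp.integral_comp' φ]
  refine (integral_prod _ hi).trans ?_
  simp only [e]

/-- marginal in the first coordinate -/
noncomputable def mg {n : ℕ} (x : ℝ) (f : (Fin (n + 1) → ℝ) → ℝ) (a : ℝ) : ℝ :=
  x⁻¹ * log (∫ u, exp (x * f (Fin.cons a u)) ∂(Measure.pi fun _ : Fin n => gam))

lemma lip_cons {n : ℕ} {f : (Fin (n + 1) → ℝ) → ℝ} {L : ℝ} (hL : 0 ≤ L)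
    (hf : ∀ u w, |f u - f w| ≤ L * ‖u - w‖) (a : ℝ) (u w : Fin n → ℝ) :
    |f (Fin.cons a u) - f (Fin.cons a w)| ≤ L * ‖u - w‖ :=
  (hf _ _).trans (mul_le_mul_of_nonneg_left (cons_snd a u w) hL)

lemma mg_lip {n : ℕ} {f : (Fin (n + 1) → ℝ) → ℝ} {L x : ℝ} (hL : 0 ≤ L) (hx : x ≠ 0)
    (hf : ∀ u w, |f u - f w| ≤ L * ‖u - w‖) : Lip L (mg x f) := by
  have key : ∀ a b, mg x f a ≤ mg x f b + L * |a - b| := fun a b =>
    V_mono hx (int_exp_pi (lip_cons hL hf a) hL x) (int_exp_pi (lip_cons hL hf b) hL x) fun u => by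
      have := (hf (Fin.cons a u) (Fin.cons b u)).trans
        (mul_le_mul_of_nonneg_left (cons_fst a b u) hL)
      linarith [le_abs_self (f (Fin.cons a u) - f (Fin.cons b u))]
  intro a b
  have h1 := key a b
  have h2 := key b a
  rw [abs_sub_comm b a] at h2
  exact abs_le.2 ⟨by linarith, by linarith⟩

lemma T_mg {n : ℕ} {f : (Fin (n + 1) → ℝ) → ℝ} {L x : ℝ} (hL : 0 ≤ L) (hx : x ≠ 0)
    (hf : ∀ u w, |f u - f w| ≤ L * ‖u - w‖) :
    T x 1 (mg x f) 0 =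
      x⁻¹ * log (∫ g, exp (x * f g) ∂(Measure.pi fun _ : Fin (n + 1) => gam)) := by
  rw [int_succ _ (int_exp_pi hf hL x), T, one_div]
  congr 3
  funext a
  rw [mg, ← mul_assoc, mul_inv_cancel₀ hx, one_mul, zero_add, one_mul,
    exp_log (int_exp_pos (int_exp_pi (lip_cons hL hf a) hL x))]

theorem bd_fin {L θ x₀ x₁ : ℝ} (hθ0 : 0 ≤ θ) (hθ1 : θ ≤ 1)
    (hx : (0 < x₀ ∧ 0 < x₁) ∨ (x₀ < 0 ∧ x₁ < 0)) (hL : 0 ≤ L) : ∀ (n : ℕ)
    (f f₀ f₁ : (Fin n → ℝ) → ℝ), (∀ u w, |f u - f w| ≤ L * ‖u - w‖) →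
    (∀ u w, |f₀ u - f₀ w| ≤ L * ‖u - w‖) → (∀ u w, |f₁ u - f₁ w| ≤ L * ‖u - w‖) →
    (∀ a b, f ((1 - θ) • a + θ • b) ≤ (1 - θ) * f₀ a + θ * f₁ b) →
    ((1 - θ) * x₀ + θ * x₁)⁻¹ *
        log (∫ g, exp (((1 - θ) * x₀ + θ * x₁) * f g) ∂Measure.pi fun _ : Fin n => gam) ≤
      (1 - θ) * (x₀⁻¹ * log (∫ g, exp (x₀ * f₀ g) ∂Measure.pi fun _ : Fin n => gam)) +
        θ * (x₁⁻¹ * log (∫ g, exp (x₁ * f₁ g) ∂Measure.pi fun _ : Fin n => gam)) := by
  obtain ⟨nx, n0, n1⟩ := comb_ne hθ0 hθ1 hx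
  intro n
  induction n with
  | zero =>
    intro f f₀ f₁ _ _ _ h
    have e : ∀ (k : (Fin 0 → ℝ) → ℝ) (y : ℝ), y ≠ 0 →
        y⁻¹ * log (∫ g, exp (y * k g) ∂Measure.pi fun _ : Fin 0 => gam) = k 0 := by
      intro k y hy
      have : (fun g => exp (y * k g)) = fun _ => exp (y * k 0) := by
        funext g; rw [Subsingleton.elim g 0]
      rw [this]
      simp [hy]
    rw [e _ _ nx, e _ _ n0, e _ _ n1]
    simpa using h 0 0
  | succ n ih =>
    intro f f₀ f₁ hf h0 h1 h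
    have := tri_one hθ0 hθ1 hx (mg_lip hL nx hf) (mg_lip hL n0 h0) (mg_lip hL n1 h1)
      (fun a b => by
        rw [add_zero]
        refine ih _ _ _ (lip_cons hL hf _) (lip_cons hL h0 _) (lip_cons hL h1 _) fun u w => ?_
        rw [cons_comb]; exact h _ _) 0 0
    rw [← T_mg hL nx hf, ← T_mg hL n0 h0, ← T_mg hL n1 h1]
    simpa using this

theorem bdStmt : BdStmt := by
  intro ι _ f f₀ f₁ L θ x₀ x₁ hθ0 hθ1 hx hf h0 h1 h
  set n := Fintype.card ι
  let e : Fin n ≃ ι := (Fintype.equivFin ι).symm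
  have mp := measurePreserving_piCongrLeft (fun _ : ι => gam) e
  have ee : ∀ g : Fin n → ℝ,
      MeasurableEquiv.piCongrLeft (fun _ : ι => ℝ) e g = fun i => g (e.symm i) := by
    intro g
    funext i
    obtain ⟨j, rfl⟩ := e.surjective i
    simp [MeasurableEquiv.piCongrLeft_apply_apply]
  have ei : ∀ φ : (ι → ℝ) → ℝ, ∫ g, φ g ∂(Measure.pi fun _ : ι => gam)
      = ∫ g, φ (fun i => g (e.symm i)) ∂(Measure.pi fun _ : Fin n => gam) := by
    intro φ
    rw [← mp.integral_comp' φ]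
    simp only [ee]
  have nn : ∀ u w : Fin n → ℝ,
      ‖(fun i => u (e.symm i)) - (fun i => w (e.symm i))‖ ≤ ‖u - w‖ := fun u w =>
    (pi_norm_le_iff_of_nonneg (norm_nonneg _)).2 fun i => norm_le_pi_norm (u - w) (e.symm i)
  have tr : ∀ k : (ι → ℝ) → ℝ, (∀ u w, |k u - k w| ≤ L * ‖u - w‖) → ∀ u w : Fin n → ℝ,
      |k (fun i => u (e.symm i)) - k (fun i => w (e.symm i))| ≤ |L| * ‖u - w‖ := fun k hk u w =>
    (hk _ _).trans (mul_le_mul (le_abs_self L) (nn u w) (norm_nonneg _) (abs_nonneg L))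
  rw [ei, ei, ei]
  exact bd_fin hθ0 hθ1 hx (abs_nonneg L) n _ _ _ (tr f hf) (tr f₀ h0) (tr f₁ h1) fun a b =>
    h (fun i => a (e.symm i)) (fun i => b (e.symm i))

end Crest.Agent.T156.Bd
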