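import Crest.Agent.T156.CasDef_88
import Crest.Agent.T156.BdD_27

/-!
# Row 156, cascade frame: joint convexity in (state, tilts) (helper43)

Glue from the three function inequality `Bd.bdStmt`; tilt `0` by continuity in the tilt.
-/

set_option autoImplicit false
set_option linter.unusedSectionVars false

noncomputable section

namespace Crest.Agent.T156.Cas

open MeasureTheory ProbabilityTheory Real Set Filter Topology
open Crest.Agent.T157.E Crest.Agent.T157.Casc Crest.Agent.T157.SL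

namespace Tilt43

open Crest.Agent.T157.Casc.C (sz sz_nonneg norm_fld_le lp_X)

/-- `x⁻¹ log E exp (x f)`, `E f` at `x = 0` -/
def TT {α : Type*} [MeasurableSpace α] (μ : Measure α) (f : α → ℝ) (x : ℝ) : ℝ :=
  if x = 0 then ∫ g, f g ∂μ else x⁻¹ * log (∫ g, exp (x * f g) ∂μ)

theorem cont_TT {α : Type*} [MeasurableSpace α] {μ : Measure α} [IsProbabilityMeasure μ]
    {f : α → ℝ} (hf : ∀ x : ℝ, Integrable (fun g => exp (x * f g)) μ) : Continuous (TT μ f) := by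
  have hs : integrableExpSet f μ = univ := eq_univ_of_forall hf
  have hi : ∀ x : ℝ, x ∈ interior (integrableExpSet f μ) := fun x => by simp [hs]
  have hd : ∀ x : ℝ, DifferentiableAt ℝ (cgf f μ) x := fun x => (analyticAt_cgf (hi x)).differentiableAt
  have e : TT μ f = dslope (cgf f μ) 0 := by
    funext x
    by_cases hx : x = 0
    · subst hx
      simp [TT, deriv_cgf_zero (hi 0)]
    · rw [dslope_of_ne _ hx, slope_def_field, cgf_zero, TT, if_neg hx, sub_zero, sub_zero,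
        div_eq_inv_mul]
      rfl
  rw [e, continuous_iff_continuousAt]
  intro x
  by_cases hx : x = 0
  · subst hx
    exact continuousAt_dslope_same.2 (hd 0)
  · exact (continuousAt_dslope_of_ne hx).2 (hd x).continuousAt

/-- the three function inequality for nonnegative tilts -/
theorem tri {ι : Type} [Fintype ι] {f f₀ f₁ : (ι → ℝ) → ℝ} {L θ x₀ x₁ : ℝ} (h0 : 0 ≤ θ)
    (h1 : θ ≤ 1) (hx0 : 0 ≤ x₀) (hx1 : 0 ≤ x₁) (hL : 0 ≤ L)
    (hf : ∀ u w, |f u - f w| ≤ L * ‖u - w‖) (hf0 : ∀ u w, |f₀ u - f₀ w| ≤ L * ‖u - w‖)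
    (hf1 : ∀ u w, |f₁ u - f₁ w| ≤ L * ‖u - w‖)
    (H : ∀ a b, f ((1 - θ) • a + θ • b) ≤ (1 - θ) * f₀ a + θ * f₁ b) :
    TT (gv ι) f ((1 - θ) * x₀ + θ * x₁) ≤ (1 - θ) * TT (gv ι) f₀ x₀ + θ * TT (gv ι) f₁ x₁ := by
  have c := cont_TT (μ := gv ι) (Bd.int_exp_pi hf hL)
  have c0 := cont_TT (μ := gv ι) (Bd.int_exp_pi hf0 hL)
  have c1 := cont_TT (μ := gv ι) (Bd.int_exp_pi hf1 hL)
  have t1 : Tendsto (fun ε => TT (gv ι) f ((1 - θ) * (x₀ + ε) + θ * (x₁ + ε))) (𝓝[>] 0)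
      (𝓝 (TT (gv ι) f ((1 - θ) * (x₀ + 0) + θ * (x₁ + 0)))) :=
    ((c.comp (f := fun ε : ℝ => (1 - θ) * (x₀ + ε) + θ * (x₁ + ε)) (by fun_prop)).tendsto 0).mono_left
      nhdsWithin_le_nhds
  have t2 : Tendsto (fun ε => (1 - θ) * TT (gv ι) f₀ (x₀ + ε) + θ * TT (gv ι) f₁ (x₁ + ε)) (𝓝[>] 0)
      (𝓝 ((1 - θ) * TT (gv ι) f₀ (x₀ + 0) + θ * TT (gv ι) f₁ (x₁ + 0))) :=
    (Continuous.tendsto (f := fun ε : ℝ => (1 - θ) * TT (gv ι) f₀ (x₀ + ε) +
      θ * TT (gv ι) f₁ (x₁ + ε)) (by fun_prop) 0).mono_left nhdsWithin_le_nhds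
  simp only [add_zero] at t1 t2
  refine le_of_tendsto_of_tendsto t1 t2 (eventually_nhdsWithin_of_forall fun ε hε => ?_)
  have hε : 0 < ε := hε
  have p0 : 0 < x₀ + ε := by linarith
  have p1 : 0 < x₁ + ε := by linarith
  have p : 0 < (1 - θ) * (x₀ + ε) + θ * (x₁ + ε) := by
    nlinarith [mul_nonneg (sub_nonneg.2 h1) hx0, mul_nonneg h0 hx1]
  simp only [TT, if_neg p0.ne', if_neg p1.ne', if_neg p.ne']
  exact Bd.bdStmt ι f f₀ f₁ L θ _ _ h0 h1 (.inl ⟨p0, p1⟩) hf hf0 hf1 H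

variable {Ω : Type} [Fintype Ω]

theorem lip_fld {F : (Ω → ℝ) → ℝ} (hF : Crest.Agent.T157.Casc.C.Lp F) (l : Lv Ω) (z : Ω → ℝ) (u v : l.ι → ℝ) :
    |F (z + l.fld u) - F (z + l.fld v)| ≤ sz l * Fintype.card l.ι * ‖u - v‖ := by
  refine (hF.abs_sub _ _).trans ?_
  have e : z + l.fld u - (z + l.fld v) = l.fld (u - v) := by
    funext x
    simp [Lv.fld, mul_sub, Finset.sum_sub_distrib]
  rw [e, mul_assoc]
  refine (norm_fld_le l _).trans (mul_le_mul_of_nonneg_left ?_ (sz_nonneg l))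
  calc ∑ j, |(u - v) j| ≤ ∑ _j : l.ι, ‖u - v‖ :=
        Finset.sum_le_sum fun j _ => norm_le_pi_norm (u - v) j
    _ = _ := by simp

/-- **one level keeps joint convexity in (state, tilt)** -/
theorem tri_step {ι : Type} [Fintype ι] (A : Ω → ι → ℝ) {F F₀ F₁ : (Ω → ℝ) → ℝ} (hF : Crest.Agent.T157.Casc.C.Lp F)
    (hF0 : Crest.Agent.T157.Casc.C.Lp F₀) (hF1 : Crest.Agent.T157.Casc.C.Lp F₁) {a b m₀ m₁ : ℝ} (ha : 0 ≤ a) (hb : 0 ≤ b) (hab : a + b = 1)
    (hm0 : 0 ≤ m₀) (hm1 : 0 ≤ m₁) (H : ∀ u v, F (a • u + b • v) ≤ a * F₀ u + b * F₁ v)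
    (z₀ z₁ : Ω → ℝ) :
    step ⟨ι, A, a * m₀ + b * m₁⟩ F (a • z₀ + b • z₁) ≤
      a * step ⟨ι, A, m₀⟩ F₀ z₀ + b * step ⟨ι, A, m₁⟩ F₁ z₁ := by
  obtain rfl : a = 1 - b := by linarith
  set l : Lv Ω := ⟨ι, A, 0⟩ with hl
  exact tri (f := fun g => F ((1 - b) • z₀ + b • z₁ + l.fld g)) (f₀ := fun g => F₀ (z₀ + l.fld g))
    (f₁ := fun g => F₁ (z₁ + l.fld g)) hb (by linarith) hm0 hm1
    (mul_nonneg (sz_nonneg l) (Nat.cast_nonneg _)) (lip_fld hF l _) (lip_fld hF0 l _)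
    (lip_fld hF1 l _) fun u v => by
      refine le_of_eq_of_le ?_ (H (z₀ + l.fld u) (z₁ + l.fld v))
      congr 1
      funext x
      simp only [Pi.add_apply, Pi.smul_apply, smul_eq_mul, Lv.fld, mul_add, Finset.sum_add_distrib,
        mul_left_comm _ (1 - b), mul_left_comm _ b, ← Finset.mul_sum]
      ring

theorem nil_conv {w : Ω → ℝ} (hw : Wt w) {a b : ℝ} (ha : 0 ≤ a) (hb : 0 ≤ b) (hab : a + b = 1)
    (u v : Ω → ℝ) : X w [] (a • u + b • v) ≤ a * X w [] u + b * X w [] v := by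
  set z := a • u + b • v with hz
  have h1 := X_add_ge hw [] (by simp) z (u - z)
  have h2 := X_add_ge hw [] (by simp) z (v - z)
  rw [add_sub_cancel] at h1 h2
  have h3 : a * ∑ x, P w [] z x * (u - z) x + b * ∑ x, P w [] z x * (v - z) x = 0 := by
    rw [Finset.mul_sum, Finset.mul_sum, ← Finset.sum_add_distrib]
    refine Finset.sum_eq_zero fun x _ => ?_
    have : z x = a * u x + b * v x := rfl
    simp only [Pi.sub_apply]
    linear_combination (-P w [] z x) * this - P w [] z x * z x * hab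
  have h4 := mul_le_mul_of_nonneg_left h1 ha
  have h5 := mul_le_mul_of_nonneg_left h2 hb
  have h6 : X w [] z = a * X w [] z + b * X w [] z := by rw [← add_mul, hab, one_mul]
  linarith

/-- three point form for two arbitrary admissible parameter values -/
theorem tl_conv {w : Ω → ℝ} (hw : Wt w) {a b s t : ℝ} (ha : 0 ≤ a) (hb : 0 ≤ b)
    (hab : a + b = 1) : ∀ (L : List (Lv Ω × ℝ)), (∀ p ∈ L, 0 ≤ p.1.m + s * p.2) →
    (∀ p ∈ L, 0 ≤ p.1.m + t * p.2) → ∀ u v : Ω → ℝ,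
    X w (tl L (a * s + b * t)) (a • u + b • v) ≤ a * X w (tl L s) u + b * X w (tl L t) v
  | [], _, _, u, v => nil_conv hw ha hb hab u v
  | p :: L, hs, ht, u, v => by
    have ih := tl_conv hw ha hb hab L (fun q h => hs q (List.mem_cons_of_mem _ h))
      fun q h => ht q (List.mem_cons_of_mem _ h)
    have h := tri_step p.1.A (lp_X hw _) (lp_X hw _) (lp_X hw _) ha hb hab
      (hs p List.mem_cons_self) (ht p List.mem_cons_self) ih u v
    have e : a * (p.1.m + s * p.2) + b * (p.1.m + t * p.2) = p.1.m + (a * s + b * t) * p.2 := by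
      linear_combination p.1.m * hab
    rw [e] at h
    exact h

end Tilt43

/-- **joint convexity in (state, tilts)** -/
theorem tiltStmt : TiltStmt := fun _ _ _ hw L _ _ hL =>
  ⟨convex_univ.prod (convex_Icc _ _), fun u hu v hv _ _ ha hb hab =>
    Tilt43.tl_conv hw ha hb hab L (fun p hp => hL p hp _ hu.2) (fun p hp => hL p hp _ hv.2) u.1 v.1⟩

end Crest.Agent.T156.Cas

end
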