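import Crest.Agent.T156.DnB_41
import Crest.Agent.T156.SgnCas_69
import Crest.Agent.T157.CascD_52

/-!
# Row 156: the soft Parisi bound for the SK model
-/

set_option autoImplicit false
set_option linter.unusedSectionVars false

noncomputable section

namespace Crest.Agent.T156.Cas.Sy41

open MeasureTheory Real Set Filter Topology
open Crest.Agent.T157.E Crest.Agent.T157.Casc Crest.Agent.T157.SL
open Crest.Agent.T157.G1 (ov Jw fl)
open Crest.Agent.R339.B (PhiL)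

/-- the level with covariance `R` -/
abbrev ovL (n : ℕ) : Lv (Cube n) := fl n (1 / √n) (0, 1)

theorem cov_ovL {n : ℕ} (hn : 0 < n) (x y : Cube n) : (ovL n).cov x y = ov x y := by
  have : (0 : ℝ) < n := by exact_mod_cast hn
  rw [Link33.cov_fl n _ (0, 1) x y hn zero_le_one, div_pow, sq_sqrt this.le]
  field_simp

theorem dat_sk {n : ℕ} (hn : 0 < n) {β : ℝ} (hβ : 0 < β) :
    Dat (fun _ => 1) 0 (Jw n β) (ovL n) (β ^ 2 * n) (TS n) where
  wt := C.wt_one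
  pos := by positivity
  cW x y := by rw [cov_Jw hn, cov_ovL hn]
  diag x := by rw [cov_ovL hn, ov_self hn]
  abs x y := by rw [cov_ovL hn]; exact abs_ov_le x y
  sw _ _ _ := rfl
  sh _ _ _ := rfl
  sc τ hτ x y := by rw [cov_ovL hn, cov_ovL hn, TS_ov hτ]
  tr x y _ _ := TS_trans x y

theorem err_le {c a u K D ℓ : ℝ} (hc : 0 < c) (ha : 0 < a) (ha1 : a ≤ 1) (hu : 0 < u)
    (hu3 : u ^ 3 = a * c) (hK : 1 ≤ K) (hcK : c ≤ K) (hℓ : 0 ≤ ℓ) (hD0 : 0 ≤ D)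
    (hD : D ≤ 2 * ℓ + 1) :
    1 + c / 4 * ((6 / (c * a ^ 2) + 18 * (9 * (D + 2) ^ 2 / (a * c)) *
      (1 / a + (1 / (1 / u) + 1) * ℓ)) * ℓ + (6 / (K * a ^ 2) + 4 * (1 / u + 1 / K) ^ 2)) ≤
      400 * (1 + ℓ) ^ 4 * (u / a + 1 / a ^ 2) := by
  have hK0 : 0 < K := by linarith
  set Y := u / a with hY
  set Z := 1 / a ^ 2 with hZ
  have Y0 : 0 < Y := by positivity
  have Z1 : 1 / a ≤ Z := one_div_le_one_div_of_le (by positivity) (by nlinarith)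
  have Z2 : 1 ≤ 1 / a := by rw [le_div_iff₀ ha]; linarith
  have e1 : c * ((6 / (c * a ^ 2) + 18 * (9 * (D + 2) ^ 2 / (a * c)) *
      (1 / a + (1 / (1 / u) + 1) * ℓ)) * ℓ) =
      6 * Z * ℓ + 162 * (D + 2) ^ 2 * ((Z + (Y + 1 / a) * ℓ) * ℓ) := by
    rw [hY, hZ]; field_simp; ring
  have e2 : c * (6 / (K * a ^ 2)) ≤ 6 * Z := by
    have : c * (6 / (K * a ^ 2)) = c / K * (6 * Z) := by rw [hZ]; field_simp
    rw [this]
    exact mul_le_of_le_one_left (by positivity) ((div_le_one hK0).2 hcK)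
  have e3 : c * (1 / u) ^ 2 = Y := by
    rw [hY, show c = u ^ 3 / a by rw [hu3]; field_simp]; field_simp
  have e4 : c * (1 / K) ^ 2 ≤ 1 := by
    rw [div_pow, mul_div, div_le_one (by positivity)]; nlinarith
  have e5 : c * (4 * (1 / u + 1 / K) ^ 2) ≤ 8 * Y + 8 := by
    nlinarith [mul_nonneg hc.le (sq_nonneg (1 / u - 1 / K))]
  have l1 : (1 : ℝ) ≤ (1 + ℓ) ^ 4 := one_le_pow₀ (by linarith)
  have l2 : ℓ ≤ (1 + ℓ) ^ 4 := le_trans (by linarith) (le_self_pow₀ (by linarith) (by norm_num))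
  have e6 : (D + 2) ^ 2 ≤ 9 * (1 + ℓ) ^ 2 := by nlinarith
  have e7 : (Z + (Y + 1 / a) * ℓ) * ℓ ≤ (1 + ℓ) ^ 2 * (Y + Z) := by
    nlinarith [mul_nonneg hℓ hℓ, mul_nonneg hℓ Y0.le, mul_nonneg hℓ (show 0 ≤ Z by linarith),
      mul_le_mul_of_nonneg_right Z1 (mul_nonneg hℓ hℓ)]
  have e8 := mul_le_mul e6 e7 (by positivity) (by positivity)
  have e9 := mul_le_mul_of_nonneg_right l1 (show 0 ≤ Y + Z by positivity)
  have e10 := mul_le_mul_of_nonneg_right l2 (show 0 ≤ Z by positivity)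
  have e11 : 0 ≤ (1 + ℓ) ^ 4 * Y := by positivity
  nlinarith

/-- **soft Parisi bound with a rate** (85 #7053) -/
theorem dn_sk (β : ℝ) (hβ : 0 < β) : ∃ C : ℝ, 0 < C ∧ ∀ n : ℕ, 0 < n → ∀ a : ℝ, 0 < a → a ≤ 1 →
    ∀ K : ℕ, 0 < K → β ^ 2 * n ≤ K → ∃ x ∈ Kkt.Simp K a 1,
      n * (PhiL 1 (List.ofFn fun k => (x k, β ^ 2 / K)) 0 -
        β ^ 2 / 4 * ∑ k : Fin K, x k * ((2 * (k : ℕ) + 1) / (K : ℝ) ^ 2)) -
      C * (1 + log (1 + β ^ 2 * n)) ^ 4 * ((n : ℝ) ^ (1 / 3 : ℝ) * a ^ (-(2 / 3) : ℝ) + a ^ (-2 : ℝ)) ≤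
      X (fun _ => 1) [wl n β 1 a] 0 := by
  refine ⟨400 * (1 + (β ^ 2) ^ (1 / 3 : ℝ)), by positivity, fun n hn a ha ha1 K hK hcK => ?_⟩
  have n0 : (0 : ℝ) < n := by exact_mod_cast hn
  have K0 : (0 : ℝ) < K := by exact_mod_cast hK
  set c := β ^ 2 * n with hc
  have c0 : 0 < c := by positivity
  have l0 : 0 ≤ log (1 + c) := Real.log_nonneg (by linarith)
  have l2 : (1 : ℝ) / 2 < log 2 := by linarith [Real.log_two_gt_d9]
  set u := (a * c) ^ (1 / 3 : ℝ) with hu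
  have u0 : 0 < u := by positivity
  have u3 : u ^ 3 = a * c := by
    rw [hu, ← Real.rpow_natCast, ← Real.rpow_mul (by positivity)]; norm_num
  obtain ⟨x, hx, h⟩ := dn_abs (dat_sk hn hβ) ha ha1 (v := 1 / u) (by positivity) hK hcK
    (D := ⌈log (1 + c) / log 2⌉₊) (by
      have h1 := Nat.le_ceil (log (1 + c) / log 2)
      rw [div_le_iff₀ (by linarith), ← Real.log_pow] at h1
      linarith [(Real.log_le_log_iff (by positivity) (by positivity)).1 h1])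
  refine ⟨x, hx, ?_⟩
  have h1 := err_le c0 ha ha1 u0 u3 (K := K) (by exact_mod_cast hK) hcK l0
    (D := (⌈log (1 + c) / log 2⌉₊ : ℕ)) (Nat.cast_nonneg _) (by
      have h1 := (Nat.ceil_lt_add_one (show 0 ≤ log (1 + c) / log 2 by positivity)).le
      have h2 : log (1 + c) / log 2 ≤ 2 * log (1 + c) := by
        rw [div_le_iff₀ (by linarith)]; nlinarith
      linarith)
  have h2 : X (fun _ => 1) (List.ofFn fun k => lv (lv (ovL n) c 0) (1 / K) (x k)) 0 =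
      n * PhiL 1 (List.ofFn fun k => (x k, β ^ 2 / K)) 0 := by
    refine C.X_cube_zero (List.forall₂_of_length_eq_of_get (by simp) fun i h1 h2 => ?_)
    simp only [List.get_eq_getElem, List.getElem_ofFn]
    refine ⟨rfl, by positivity, fun y z => ?_⟩
    rw [Kkt28.lv_cov _ (by positivity), Kkt28.lv_cov _ c0.le, cov_ovL hn, hc, ov]
    field_simp
  have h3 : u / a = (β ^ 2) ^ (1 / 3 : ℝ) * ((n : ℝ) ^ (1 / 3 : ℝ) * a ^ (-(2 / 3) : ℝ)) := by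
    rw [hu, hc, Real.mul_rpow ha.le (by positivity), Real.mul_rpow (by positivity) n0.le,
      show (-(2 / 3) : ℝ) = 1 / 3 - 1 by norm_num, Real.rpow_sub_one ha.ne']
    ring
  have h4 : 1 / a ^ 2 = a ^ (-2 : ℝ) := by rw [Real.rpow_neg ha.le, Real.rpow_two, one_div]
  rw [h3, h4] at h1
  rw [h2] at h
  have p1 : 0 ≤ (1 + log (1 + c)) ^ 4 * ((n : ℝ) ^ (1 / 3 : ℝ) * a ^ (-(2 / 3) : ℝ)) := by positivity
  have p2 : 0 ≤ (β ^ 2) ^ (1 / 3 : ℝ) * ((1 + log (1 + c)) ^ 4 * a ^ (-2 : ℝ)) := by positivity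
  have e : (n : ℝ) * (β ^ 2 / 4 * ∑ k : Fin K, x k * ((2 * (k : ℕ) + 1) / (K : ℝ) ^ 2)) =
      c / 4 * ∑ k : Fin K, x k * ((2 * (k : ℕ) + 1) / (K : ℝ) ^ 2) := by rw [hc]; ring
  rw [mul_sub, e]
  nlinarith

end Crest.Agent.T156.Cas.Sy41

end
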