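import Crest.Agent.T156.CaLink_33
import Crest.Agent.T156.CaTilt_43
import Crest.Agent.T156.Dn_41
import Crest.Agent.T156.Sc_48
import Crest.Agent.T157.G1b_52
import Crest.Agent.T157.PfC_56

/-!
# Row 156 (helper76): the lower bound `c s⁵ ≤ L_n(s₁,s)` for `s ≥ δ n^k`, `k > 5/102`, pure SK

Convexity in the root tilt, Guerra's bound at tilt `0`, the soft Parisi formula with a floor
(`DnStmt`), `H⁻¹` convexity of the one-site functional (`ScStmt`) and the grid minimiser.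
-/

set_option autoImplicit false

noncomputable section

namespace Crest.Agent.T156.Cas.Low76

open MeasureTheory Real Set Filter
open Crest.Agent.T157.E Crest.Agent.T157.Casc Crest.Agent.T157.SL Crest.Agent.T157.Pf
open Crest.Agent.R339.B Crest.Agent.R339.Var
open Crest.Agent.R339.Guerra (pen)
open Crest.Agent.T157

/-- the functional on the grid -/
def PG (β : ℝ) {K : ℕ} (x : Fin K → ℝ) : ℝ :=
  PhiL 1 (List.ofFn fun k => (x k, β ^ 2 / K)) 0 -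
    β ^ 2 / 4 * ∑ k : Fin K, x k * ((2 * (k : ℕ) + 1) / (K : ℝ) ^ 2)

/-- the soft Parisi formula with a floor (helper41) -/
def DnStmt : Prop := ∀ β : ℝ, 0 < β → ∃ C : ℝ, 0 < C ∧ ∀ n : ℕ, 0 < n → ∀ a : ℝ, 0 < a → a ≤ 1 →
  ∀ K : ℕ, 0 < K → β ^ 2 * n ≤ K → ∃ x ∈ Kkt.Simp K a 1,
    n * PG β x - C * (1 + log (1 + β ^ 2 * n)) ^ 4 *
      ((n : ℝ) ^ (1 / 3 : ℝ) * a ^ (-(2 / 3) : ℝ) + a ^ (-2 : ℝ)) ≤
      X (fun _ => 1) [wl n β 1 a] 0

/-- midpoint form of the `H⁻¹` modulus (helper48) -/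
def ScStmt : Prop := ∀ T : ℝ, 0 < T → ∃ c : ℝ, 0 < c ∧ ∀ K : ℕ, 0 < K → ∀ x y : ℕ → ℝ,
  Monotone x → Monotone y → (∀ k, 0 < x k ∧ x k ≤ 1) → (∀ k, 0 < y k ∧ y k ≤ 1) →
  PhiL 1 (List.ofFn fun k : Fin K => ((x k + y k) / 2, T / K)) 0 ≤
    (PhiL 1 (List.ofFn fun k : Fin K => (x k, T / K)) 0 +
      PhiL 1 (List.ofFn fun k : Fin K => (y k, T / K)) 0) / 2 -
    c * ∑ k ∈ Finset.range K, T / K * (∑ j ∈ Finset.Ico k K, T / K * (y j - x j)) ^ 2

/-- the lower bound -/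
def LowSk (β : ℝ) : Prop := ∃ c : ℝ, 0 < c ∧ ∀ k δ s₁ : ℝ, 5 / 102 < k → 0 < δ → 0 < s₁ →
  ∀ᶠ n : ℕ in atTop, ∀ s, δ * (n : ℝ) ^ k ≤ s → s ≤ (n : ℝ) ^ (1 / 6 : ℝ) →
    c * s ^ 5 ≤ Soft.Ln n β s₁ s

theorem pen_ofFn (v : ℝ) : ∀ (K : ℕ) (x : Fin K → ℝ) (i : ℕ),
    pen (i * v) (List.ofFn fun k => (x k, v)) =
      ∑ k : Fin K, x k * ((2 * (i + (k : ℕ)) + 1) * v ^ 2)
  | 0, _, _ => by simp [pen]
  | K + 1, x, i => by
    rw [List.ofFn_succ, pen, Fin.sum_univ_succ]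
    have := pen_ofFn v K (fun k => x k.succ) (i + 1)
    push_cast at this
    rw [show (i : ℝ) * v + v = (i + 1) * v by ring, this]
    simp only [Fin.val_zero, Fin.val_succ]
    push_cast
    congr 1
    · ring
    · exact Finset.sum_congr rfl fun k _ => by ring

theorem PG_eq {β : ℝ} (hβ : 0 < β) {K : ℕ} (hK : 0 < K) (x : Fin K → ℝ) :
    PG β x = G1.val β (List.ofFn fun k => (x k, β ^ 2 / K)) := by
  have h := pen_ofFn (β ^ 2 / K) K x 0
  simp only [Nat.cast_zero, zero_mul, zero_add] at h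
  have hK' : (K : ℝ) ≠ 0 := Nat.cast_ne_zero.2 hK.ne'
  rw [PG, G1.val, G1.cor, h, Finset.mul_sum, Finset.sum_div]
  congr 1
  refine Finset.sum_congr rfl fun k _ => ?_
  field_simp

theorem DD_ofFn (v : ℝ) : ∀ (N : ℕ) (x d : ℕ → ℝ),
    Sc48.DD (List.ofFn fun k : Fin N => (x k, d k, v)) = ∑ j ∈ Finset.range N, v * d j
  | 0, _, _ => by simp [Sc48.DD]
  | N + 1, x, d => by
    rw [List.ofFn_succ, Sc48.DD, Finset.sum_range_succ']
    have := DD_ofFn v N (fun j => x (j + 1)) (fun j => d (j + 1))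
    simp only [Fin.val_succ, Fin.val_zero]
    rw [this, mul_comm]

theorem NN_ofFn {v : ℝ} (hv : 0 ≤ v) : ∀ (N : ℕ) (x d : ℕ → ℝ),
    ∑ k ∈ Finset.range N, v * (∑ j ∈ Finset.Ico k N, v * d j) ^ 2 ≤
      Sc48.NN (List.ofFn fun k : Fin N => (x k, d k, v))
  | 0, _, _ => by simp [Sc48.NN]
  | N + 1, x, d => by
    have h1 := DD_ofFn v (N + 1) x d
    have h2 := NN_ofFn hv N (fun j => x (j + 1)) (fun j => d (j + 1))
    rw [List.ofFn_succ] at h1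
    rw [List.ofFn_succ, Sc48.NN, h1, Finset.sum_range_succ', ← Finset.range_eq_Ico]
    simp only [Fin.val_succ]
    have h3 : ∀ k, ∑ j ∈ Finset.Ico (k + 1) (N + 1), v * d j =
        ∑ j ∈ Finset.Ico k N, v * d (j + 1) := fun k =>
      (Finset.sum_Ico_add' (fun j => v * d j) k N 1).symm
    simp only [h3]
    have h4 := mul_nonneg hv (sq_nonneg
      (Sc48.DD (List.ofFn fun k : Fin N => (x (k + 1), d (k + 1), v))))
    nlinarith

theorem scStmt : ScStmt := fun T hT => by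
  refine ⟨exp (-14 * T) / 384, by positivity, fun K hK x y hx hy x1 y1 => ?_⟩
  have hv : 0 ≤ T / K := by positivity
  have e : ∀ t, lev t (List.ofFn fun k : Fin K => (x k, y k - x k, T / K)) =
      List.ofFn fun k : Fin K => ((1 - t) * x k + t * y k, T / K) := fun t => by
    rw [lev, List.map_ofFn]
    congr 1
    funext k
    simp only [Function.comp]
    congr 1
    ring
  have e2 : lev (1 / 2) (List.ofFn fun k : Fin K => (x k, y k - x k, T / K)) =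
      List.ofFn fun k : Fin K => ((x k + y k) / 2, T / K) := by
    rw [e]
    congr 1
    funext k
    congr 1
    ring
  have h := Sc48.sconv_NN (θ := 1 / 2) (T := T)
    (L := List.ofFn fun k : Fin K => (x k, y k - x k, T / K)) (by norm_num) (by norm_num)
    (fun p hp => by
      obtain ⟨k, rfl⟩ := List.mem_ofFn.1 hp
      refine ⟨(x1 k).1, by simpa using (y1 k).1, abs_le.2 ⟨?_, ?_⟩⟩ <;>
        linarith [(x1 k).1, (x1 k).2, (y1 k).1, (y1 k).2])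
    (by
      rw [e2]
      exact R339.V4.adm_ofFn hv (fun i j hij => by
          have := hx (show (i : ℕ) ≤ j from hij); have := hy (show (i : ℕ) ≤ j from hij)
          linarith)
        (fun k => by linarith [(x1 k).1, (y1 k).1]) fun k => by linarith [(x1 k).2, (y1 k).2])
    (by
      have hK' : (K : ℝ) ≠ 0 := Nat.cast_ne_zero.2 hK.ne'
      rw [e2, R339.Var.TT, List.map_ofFn, List.sum_ofFn]
      simp only [Function.comp, Finset.sum_const, Finset.card_univ, Fintype.card_fin, nsmul_eq_mul]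
      rw [mul_div_cancel₀ _ hK'])
  rw [e2, e 0, e 1] at h
  simp only [sub_zero, one_mul, zero_mul, add_zero, sub_self, zero_add] at h
  have h2 := mul_le_mul_of_nonneg_left (NN_ofFn hv K x fun j => y j - x j) (exp_pos (-14 * T)).le
  linarith

/-- a step function with a free top -/
def mk (K : ℕ) (z : ℕ → ℝ) : Par := ⟨K, K, fun k => if k < K then z k else 1⟩

theorem mk_ok {K : ℕ} (hK : 0 < K) {z : ℕ → ℝ} (hm : Monotone z) (hz : ∀ k, 0 < z k ∧ z k ≤ 1) :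
    (mk K z).OK where
  Kpos := hK
  aK := le_rfl
  mono := fun i j hij => by
    simp only [mk]
    split_ifs with h1 h2 h2
    · exact hm hij
    · exact (hz i).2
    · omega
    · exact le_rfl
  pos := fun k => by
    simp only [mk]
    split_ifs
    · exact (hz k).1
    · exact one_pos
  top := fun k hk => by
    simp only [mk] at hk ⊢
    rw [if_neg (by omega)]

theorem mk_lst (β : ℝ) (K : ℕ) (z : ℕ → ℝ) :
    (mk K z).lst β K = List.ofFn fun k : Fin K => (z k, β ^ 2 / K) := by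
  simp only [Par.lst, mk]
  congr 1
  funext k
  rw [if_pos k.2]

theorem z_le_one {P : Par} (h : P.OK) (k : ℕ) : P.z k ≤ 1 :=
  (h.mono (le_max_left k P.a)).trans (h.top _ (le_max_right _ _)).le

/-- the grid minimiser is below every step function of the grid -/
theorem min_le {β c C η : ℝ} (hβ : 0 < β) {P : Par} (hG : P.Good β c C η) {Q : Par} (hQ : Q.OK) :
    P.val β ≤ Q.val β + η := by
  rw [hQ.val_sc hβ]
  refine hG.min _ ?_ ?_
  · exact R339.V4.adm_ofFn (by positivity) (fun i j hij => mul_le_mul_of_nonneg_left (hQ.mono hij) hβ.le)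
      (fun k => mul_pos hβ (hQ.pos k)) fun k => mul_le_of_le_one_right hβ.le (z_le_one hQ k)
  · exact TT_grid hQ.Kpos _

/-- a tail sum with a steady slope has a large square sum -/
theorem sq_sum_ge {K m : ℕ} (hm : 2 * m ≤ K) {v b : ℝ} (hv : 0 ≤ v) (hb : 0 ≤ b) (u : ℕ → ℝ)
    (hu : ∀ j < 2 * m, b ≤ u j) :
    (m * v) ^ 3 * b ^ 2 / 2 ≤ ∑ k ∈ Finset.range K, v * (∑ j ∈ Finset.Ico k K, v * u j) ^ 2 := by
  set D : ℕ → ℝ := fun k => ∑ j ∈ Finset.Ico k K, v * u j with hD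
  have h1 : ∀ i < m, (m * v * b) ^ 2 / 2 ≤ D i ^ 2 + D (m + i) ^ 2 := fun i hi => by
    have e : D i = ∑ j ∈ Finset.Ico i (m + i), v * u j + D (m + i) :=
      (Finset.sum_Ico_consecutive _ (by omega) (by omega)).symm
    have h2 : ∑ _j ∈ Finset.Ico i (m + i), v * b ≤ ∑ j ∈ Finset.Ico i (m + i), v * u j :=
      Finset.sum_le_sum fun j hj => mul_le_mul_of_nonneg_left
        (hu j (by have := (Finset.mem_Ico.1 hj).2; omega)) hv
    rw [Finset.sum_const, Nat.card_Ico, show m + i - i = m by omega, nsmul_eq_mul] at h2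
    have h3 : m * v * b ≤ D i - D (m + i) := by rw [e]; linarith
    have h4 := pow_le_pow_left₀ (by positivity) h3 2
    nlinarith [sq_nonneg (D i + D (m + i))]
  have h5 : ∑ k ∈ Finset.range (m + m), v * D k ^ 2 ≤ ∑ k ∈ Finset.range K, v * D k ^ 2 :=
    Finset.sum_le_sum_of_subset_of_nonneg (Finset.range_mono (by omega))
      fun k _ _ => by positivity
  rw [Finset.sum_range_add, ← Finset.sum_add_distrib] at h5
  have h6 : ∑ _i ∈ Finset.range m, v * ((m * v * b) ^ 2 / 2) ≤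
      ∑ i ∈ Finset.range m, (v * D i ^ 2 + v * D (m + i) ^ 2) :=
    Finset.sum_le_sum fun i hi => by
      rw [← mul_add]
      exact mul_le_mul_of_nonneg_left (h1 i (Finset.mem_range.1 hi)) hv
  rw [Finset.sum_const, Finset.card_range, nsmul_eq_mul] at h6
  calc (m * v) ^ 3 * b ^ 2 / 2 = m * (v * ((m * v * b) ^ 2 / 2)) := by ring
    _ ≤ _ := h6.trans h5

/-- **mean-field law with a floor, lower half** -/
theorem mf5 (hS : ScStmt) {β : ℝ} (hβ : 1 < β) {C : ℝ} (hC : 1 ≤ C) : ∃ c' : ℝ, 0 < c' ∧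
    ∀ (c η : ℝ) (P : Par), P.OK → P.Good β c C η → ∀ a, a ≤ 1 → 4 * η ≤ a → 16 * C ≤ P.K * a →
      ∀ x ∈ Kkt.Simp P.K a 1, P.val β + c' * a ^ 5 - 2 * η ≤ PG β x := by
  have hβ0 : 0 < β := by linarith
  obtain ⟨c0, hc0, hS⟩ := hS (β ^ 2) (by positivity)
  refine ⟨c0 * (β ^ 2 / (16 * C)) ^ 3 / 4, by positivity, fun c η P h hG a ha1 hη hKa x hx => ?_⟩
  have hK := h.Kpos
  have hK' : (0 : ℝ) < P.K := Nat.cast_pos.2 hK
  have ha : 0 < a := by
    by_contra hc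
    have := mul_nonpos_of_nonneg_of_nonpos hK'.le (not_lt.1 hc)
    linarith
  set y : ℕ → ℝ := fun k => if hk : k < P.K then x ⟨k, hk⟩ else 1 with hy
  have y1 : ∀ k, a ≤ y k ∧ y k ≤ 1 := fun k => by
    simp only [hy]
    split_ifs with hk
    · exact hx.2 _
    · exact ⟨ha1, le_rfl⟩
  have ym : Monotone y := fun i j hij => by
    simp only [hy]
    split_ifs with h1 h2 h2
    · exact hx.1 (show (⟨i, h1⟩ : Fin P.K) ≤ ⟨j, h2⟩ from hij)
    · exact (hx.2 _).2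
    · omega
    · exact le_rfl
  have yx : ∀ k : Fin P.K, y k = x k := fun k => by simp [hy]
  have z1 : ∀ k, 0 < P.z k ∧ P.z k ≤ 1 := fun k => ⟨h.pos k, z_le_one h k⟩
  have y2 : ∀ k, 0 < y k ∧ y k ≤ 1 := fun k => ⟨ha.trans_le (y1 k).1, (y1 k).2⟩
  have h1 := hS P.K hK P.z y h.mono ym z1 y2
  have hQ := mk_ok hK (z := fun k => (P.z k + y k) / 2)
    (fun i j hij => by have := h.mono hij; have := ym hij; dsimp only; linarith)
    (fun k => ⟨by linarith [(z1 k).1, (y2 k).1], by linarith [(z1 k).2, (y2 k).2]⟩)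
  have h2 := min_le hβ0 hG hQ
  have e1 : (mk P.K fun k => (P.z k + y k) / 2).val β =
      PG β fun k : Fin P.K => (P.z k + y k) / 2 := by
    rw [← G1.val_lst hQ hβ0, PG_eq hβ0 hK]
    exact congrArg _ (mk_lst β P.K _)
  have e2 : P.val β = PG β fun k : Fin P.K => P.z k := by
    rw [← G1.val_lst h hβ0, PG_eq hβ0 hK]; rfl
  have e3 : x = fun k : Fin P.K => y k := funext fun k => (yx k).symm
  set m := ⌊P.K * a / (8 * C)⌋₊ with hm
  have m1 : (m : ℝ) ≤ P.K * a / (8 * C) := Nat.floor_le (by positivity)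
  have m2 : P.K * a / (8 * C) < m + 1 := Nat.lt_floor_add_one _
  have m3 : P.K * a / (16 * C) ≤ m := by
    have e : P.K * a / (8 * C) = 2 * (P.K * a / (16 * C)) := by field_simp; ring
    have : 1 ≤ P.K * a / (16 * C) := by rw [le_div_iff₀ (by positivity)]; linarith
    linarith
  have m4 : (m : ℝ) * (8 * C) ≤ P.K * a := by rwa [le_div_iff₀ (by positivity)] at m1
  have m5 : 2 * m ≤ P.K := by
    have : (2 * m : ℝ) ≤ P.K := by nlinarith [Nat.cast_nonneg (α := ℝ) m]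
    exact_mod_cast this
  have h3 := sq_sum_ge m5 (v := β ^ 2 / P.K) (b := a / 2) (by positivity) (by positivity)
    (fun j => y j - P.z j) fun j hj => by
      have hj' : (j : ℝ) ≤ 2 * m := by exact_mod_cast hj.le
      have hjK : (j : ℝ) / P.K ≤ 1 := by
        rw [div_le_one hK']; exact_mod_cast (by omega : j ≤ P.K)
      have := hG.zlin (j / P.K) ⟨by positivity, hjK⟩
      rw [Par.zeta, div_mul_cancel₀ _ hK'.ne', Nat.floor_natCast] at this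
      have h4 : C * (j / P.K) ≤ a / 4 := by
        rw [← mul_div_assoc, div_le_iff₀ hK']
        nlinarith
      linarith [(y1 j).1]
  have h5 : a * (β ^ 2 / (16 * C)) ≤ m * (β ^ 2 / P.K) := by
    have := mul_le_mul_of_nonneg_right m3 (show 0 ≤ β ^ 2 / P.K by positivity)
    refine le_trans (le_of_eq ?_) this
    field_simp
  have h6 := pow_le_pow_left₀ (by positivity) h5 3
  have h7 : (β ^ 2 / (16 * C)) ^ 3 / 8 * a ^ 5 ≤ (m * (β ^ 2 / P.K)) ^ 3 * (a / 2) ^ 2 / 2 := by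
    have := mul_le_mul_of_nonneg_right h6 (show 0 ≤ (a / 2) ^ 2 / 2 by positivity)
    refine le_trans (le_of_eq ?_) (this.trans (le_of_eq ?_)) <;> ring
  have h8 := mul_le_mul_of_nonneg_left (h7.trans h3) hc0.le
  have e4 : ∑ k : Fin P.K, (P.z k + y k) / 2 * ((2 * (k : ℕ) + 1) / (P.K : ℝ) ^ 2) =
      (∑ k : Fin P.K, P.z k * ((2 * (k : ℕ) + 1) / (P.K : ℝ) ^ 2) +
        ∑ k : Fin P.K, y k * ((2 * (k : ℕ) + 1) / (P.K : ℝ) ^ 2)) / 2 := by
    rw [← Finset.sum_add_distrib, Finset.sum_div]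
    exact Finset.sum_congr rfl fun k _ => by ring
  rw [e1, e2] at h2
  rw [e2, e3]
  simp only [PG] at h2 ⊢
  rw [e4] at h2
  nlinarith

/-- Guerra's bound at the tilt `0` -/
theorem guerra0 {n : ℕ} (hn : 0 < n) {β : ℝ} (hβ : 0 < β) {P : Par} (h : P.OK) :
    X (fun _ => 1) [wl n β 1 0] 0 ≤ n * P.val β := by
  have h1 := (G1.g1_lst hn hβ (G1.isJ_Jw hn β) h).phi_le 1 zero_le_one le_rfl
  have h2 := C.X_of_zero (fun _ : Cube n => (1 : ℝ)) (L := G1.FL n √(1 - 1) (P.lst β P.K))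
    (fun l hl x i => by
      obtain ⟨p, _, rfl⟩ := List.mem_map.1 hl
      simp) []
  rw [List.append_nil] at h2
  rw [G1.phi, G1.Lt, C.X_cons, h2, ← C.X_cons, one_mul, sub_zero] at h1
  rw [← G1.val_lst h hβ]
  exact h1

/-- convexity in the root tilt -/
theorem conv_root (n : ℕ) (β : ℝ) :
    ConvexOn ℝ (Icc 0 1) fun m => X (fun _ => 1) [wl n β 1 m] 0 := by
  have h := tiltStmt (Cube n) (fun _ => 1) Link33.wt1 [(wl n β 1 0, 1)] 0 1 (fun p hp t ht => by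
    rw [List.mem_singleton.1 hp]; simpa using ht.1)
  refine ⟨convex_Icc _ _, fun u hu v hv s t hs ht hst => ?_⟩
  have := h.2 (show ((0 : Cube n → ℝ), u) ∈ _ from ⟨mem_univ _, hu⟩)
    (show ((0 : Cube n → ℝ), v) ∈ _ from ⟨mem_univ _, hv⟩) hs ht hst
  have e : ∀ m, tl [(wl n β 1 0, 1)] m = [wl n β 1 m] := fun m => by
    show [(⟨_, _, 0 + m * 1⟩ : Lv (Cube n))] = _
    rw [zero_add, mul_one]
  simpa only [e, Prod.smul_mk, Prod.mk_add_mk, smul_zero, add_zero] using this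

theorem ev_gap {γ A : ℝ} (hγ : 0 < γ) (β : ℝ) :
    ∀ᶠ n : ℕ in atTop, A * (1 + log (1 + β ^ 2 * n)) ^ 4 ≤ (n : ℝ) ^ γ := by
  have h1 : ∀ᶠ n : ℕ in atTop, (1 + log (1 + β ^ 2 * n)) ≤
      (1 + 8 / γ * (1 + β ^ 2) ^ (γ / 8)) * (n : ℝ) ^ (γ / 8) := by
    filter_upwards [eventually_ge_atTop 1] with n hn
    have hn' : (1 : ℝ) ≤ n := by exact_mod_cast hn
    have h2 := Real.log_le_rpow_div (x := 1 + β ^ 2 * n) (by positivity) (show 0 < γ / 8 by positivity)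
    have h3 : (1 + β ^ 2 * n) ^ (γ / 8) ≤ (1 + β ^ 2) ^ (γ / 8) * (n : ℝ) ^ (γ / 8) := by
      rw [← Real.mul_rpow (by positivity) (by positivity)]
      exact Real.rpow_le_rpow (by positivity) (by nlinarith [sq_nonneg β]) (by positivity)
    have h4 : 1 ≤ (n : ℝ) ^ (γ / 8) := Real.one_le_rpow hn' (by positivity)
    have h5 : (1 + β ^ 2 * n) ^ (γ / 8) / (γ / 8) ≤
        8 / γ * ((1 + β ^ 2) ^ (γ / 8) * (n : ℝ) ^ (γ / 8)) := by
      rw [div_div_eq_mul_div, mul_div_assoc, mul_comm]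
      exact mul_le_mul_of_nonneg_left h3 (by positivity)
    nlinarith
  have h6 := ((tendsto_rpow_atTop (show 0 < γ / 2 by positivity)).comp
    tendsto_natCast_atTop_atTop).eventually_ge_atTop
      (|A| * (1 + 8 / γ * (1 + β ^ 2) ^ (γ / 8)) ^ 4)
  filter_upwards [h1, h6, eventually_ge_atTop 1] with n h1 h6 hn
  have hn' : (0 : ℝ) < n := by exact_mod_cast hn
  have h0 : 0 ≤ 1 + log (1 + β ^ 2 * n) := by
    have := Real.log_nonneg (show 1 ≤ 1 + β ^ 2 * n by nlinarith [sq_nonneg β])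
    linarith
  have h7 := pow_le_pow_left₀ h0 h1 4
  have e : ((n : ℝ) ^ (γ / 8)) ^ 4 = (n : ℝ) ^ (γ / 2) := by
    rw [← Real.rpow_natCast, ← Real.rpow_mul hn'.le]; congr 1; push_cast; ring
  have e2 : (n : ℝ) ^ γ = (n : ℝ) ^ (γ / 2) * (n : ℝ) ^ (γ / 2) := by
    rw [← Real.rpow_add hn']; congr 1; ring
  rw [mul_pow, e] at h7
  have h8 : A * (1 + log (1 + β ^ 2 * n)) ^ 4 ≤ |A| * (1 + log (1 + β ^ 2 * n)) ^ 4 :=
    mul_le_mul_of_nonneg_right (le_abs_self A) (by positivity)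
  have h9 := mul_le_mul_of_nonneg_left h7 (abs_nonneg A)
  have h10 := mul_le_mul_of_nonneg_right h6 (show 0 ≤ (n : ℝ) ^ (γ / 2) by positivity)
  simp only [Function.comp] at h10
  rw [e2]
  nlinarith

/-- the estimate at one size -/
theorem low_one {β c' C η D : ℝ} (hβ : 0 < β) {n : ℕ} (hn : 0 < n) {P : Par} (h : P.OK) {a a₁ : ℝ}
    (h1 : 0 < a₁) (h2 : 2 * a₁ ≤ a) (h3 : a ≤ 1) {p : ℝ} (h4 : P.val β + c' * a ^ 5 - 2 * η ≤ p)
    (h5 : n * p - D ≤ X (fun _ => 1) [wl n β 1 a] 0) (h6 : 0 ≤ C)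
    (h7 : C + 2 * n * η + D ≤ n * (c' * a ^ 5)) :
    C / 2 ≤ Soft.psi n β a - Soft.psi n β a₁ := by
  have ha : 0 < a := by linarith
  rw [Link33.psi_eq n β a hn ha.ne', Link33.psi_eq n β a₁ hn h1.ne']
  have g0 := guerra0 hn hβ h
  have t1 : a₁ / a ≤ 1 / 2 := by rw [div_le_iff₀ ha]; linarith
  have t0 : 0 ≤ a₁ / a := by positivity
  have cv := (conv_root n β).2 (show (0 : ℝ) ∈ Icc 0 1 from ⟨le_rfl, zero_le_one⟩)
    (show a ∈ Icc 0 1 from ⟨ha.le, h3⟩) (show 0 ≤ 1 - a₁ / a by linarith) t0 (by ring)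
  simp only [smul_eq_mul, mul_zero, zero_add, div_mul_cancel₀ _ ha.ne'] at cv
  have hn' : (0 : ℝ) ≤ n := Nat.cast_nonneg n
  have h8 := mul_le_mul_of_nonneg_left h4 hn'
  have h9 : C ≤ X (fun _ => 1) [wl n β 1 a] 0 - X (fun _ => 1) [wl n β 1 0] 0 := by nlinarith
  nlinarith

set_option maxHeartbeats 1600000 in
/-- **the lower bound** -/
theorem lowSk (hD : DnStmt) (hS : ScStmt) {β : ℝ} (hβ : 1 < β) : LowSk β := by
  have hβ0 : 0 < β := by linarith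
  obtain ⟨c, C, -, -, hC, K0, hP⟩ := parStmt β hβ
  obtain ⟨c', hc', hM⟩ := mf5 hS hβ hC
  obtain ⟨D, hD0, hD⟩ := hD β hβ0
  refine ⟨c' / 4, by positivity, fun k δ s₁ hk hδ hs₁ => ?_⟩
  have k0 : 0 < k := by linarith
  have T := fun {γ : ℝ} (hγ : 0 < γ) (A : ℝ) => ((tendsto_rpow_atTop hγ).comp
    tendsto_natCast_atTop_atTop).eventually_ge_atTop A
  filter_upwards [ev_gap (A := D * δ ^ (-(2 / 3) : ℝ) / (c' / 8 * δ ^ 5))
      (show 0 < 17 * k / 3 - 5 / 18 by linarith) β,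
    ev_gap (A := D * δ ^ (-2 : ℝ) / (c' / 8 * δ ^ 5)) (show 0 < 7 * k - 1 / 6 by linarith) β,
    T k0 ((2 * s₁ + 1) / δ), T (show (0:ℝ) < 1 / 6 by norm_num) (2 * C / (c' / 4)),
    T (show (0:ℝ) < 5 / 6 by norm_num) (16 * C), T one_pos (β ^ 2), eventually_ge_atTop K0,
    eventually_ge_atTop 1] with n g1 g2 g3 g4 g5 g6 g7 hn s hs hs'
  simp only [Function.comp, rpow_one] at g3 g4 g5 g6
  have hn1 : (1 : ℝ) ≤ n := by exact_mod_cast hn
  have hn0 : (0 : ℝ) < n := by linarith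
  set e := (n : ℝ) ^ (-(1 : ℝ) / 6) with he
  have e0 : 0 < e := by positivity
  have e1 : (n : ℝ) ^ (1 / 6 : ℝ) * e = 1 := by
    rw [he, ← rpow_add hn0]; norm_num
  have e2 : (n : ℝ) * e = (n : ℝ) ^ (5 / 6 : ℝ) := by
    rw [he, ← rpow_one_add' hn0.le (by norm_num)]; norm_num
  have e5 : (n : ℝ) * e ^ 5 = (n : ℝ) ^ (1 / 6 : ℝ) := by
    rw [he, ← rpow_natCast, ← rpow_mul hn0.le, ← rpow_one_add' hn0.le (by norm_num)]; norm_num
  rw [div_le_iff₀ hδ] at g3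
  have s1 : 2 * s₁ + 1 ≤ s := by linarith
  have s0 : 1 ≤ s := by linarith
  have a1 : s * e ≤ 1 := by rw [← e1]; gcongr
  have a0 : 0 < s * e := by positivity
  have hK8 : n ≤ n ^ 8 := Nat.le_self_pow (by norm_num) n
  obtain ⟨P, pK, pO, pG⟩ := hP (n ^ 8) (g7.trans hK8)
  have eη : C * ((n ^ 8 : ℕ) : ℝ) ^ (-(1 / 8 : ℝ)) = C / n := by
    rw [Nat.cast_pow, ← rpow_natCast, ← rpow_mul hn0.le]
    norm_num
    rw [rpow_neg_one, div_eq_mul_inv]
  rw [eη] at pG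
  have ne : 16 * C ≤ n * (s * e) := by
    rw [mul_left_comm, e2]
    exact g5.trans (le_mul_of_one_le_left (by positivity) s0)
  have nK : (n : ℝ) * n ≤ P.K := by
    rw [pK]
    have : n ^ 2 ≤ n ^ 8 := Nat.pow_le_pow_right hn (by norm_num)
    rw [← sq]; exact_mod_cast this
  obtain ⟨x, hx, hX⟩ := hD n hn (s * e) a0 a1 P.K pO.Kpos
    ((mul_le_mul_of_nonneg_right g6 hn0.le).trans nK)
  have hm := hM c (C / n) P pO pG (s * e) a1
    (by rw [← mul_div_assoc, div_le_iff₀ hn0]; linarith)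
    (ne.trans (mul_le_mul_of_nonneg_right ((le_mul_of_one_le_left hn0.le hn1).trans nK) a0.le)) x hx
  set Λ := (1 + log (1 + β ^ 2 * n)) ^ 4 with hΛ
  have Λ0 : 0 ≤ Λ := by positivity
  have b0 : δ * (n : ℝ) ^ (k - 1 / 6) ≤ s * e := by
    have : (n : ℝ) ^ (k - 1 / 6) = (n : ℝ) ^ k * e := by
      rw [he, ← rpow_add hn0]; congr 1; ring
    rw [this, ← mul_assoc]; gcongr
  have b1 : ∀ r : ℝ, r ≤ 0 → (s * e) ^ r ≤ δ ^ r * (n : ℝ) ^ ((k - 1 / 6) * r) := fun r hr => by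
    rw [rpow_mul hn0.le, ← mul_rpow hδ.le (by positivity)]
    exact rpow_le_rpow_of_nonpos (by positivity) b0 hr
  have b2 : δ ^ 5 * (n : ℝ) ^ (5 * k + 1 / 6) ≤ s ^ 5 * (n : ℝ) ^ (1 / 6 : ℝ) := by
    rw [rpow_add hn0, ← mul_assoc, mul_comm 5 k, rpow_mul hn0.le,
      show (5 : ℝ) = (5 : ℕ) by norm_num, rpow_natCast, ← mul_pow]
    gcongr
  have cδ : 0 < c' / 8 * δ ^ 5 := by positivity
  have d1 : D * Λ * ((n : ℝ) ^ (1 / 3 : ℝ) * (s * e) ^ (-(2 / 3) : ℝ)) ≤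
      c' / 8 * (s ^ 5 * (n : ℝ) ^ (1 / 6 : ℝ)) := by
    rw [div_mul_eq_mul_div, div_le_iff₀ cδ] at g1
    have q : (n : ℝ) ^ (5 * k + 1 / 6) = (n : ℝ) ^ (17 * k / 3 - 5 / 18) *
        ((n : ℝ) ^ (1 / 3 : ℝ) * (n : ℝ) ^ ((k - 1 / 6) * (-(2 / 3)))) := by
      rw [← rpow_add hn0, ← rpow_add hn0]; congr 1; ring
    calc _ ≤ D * Λ * ((n : ℝ) ^ (1 / 3 : ℝ) * (δ ^ (-(2 / 3) : ℝ) *
          (n : ℝ) ^ ((k - 1 / 6) * (-(2 / 3))))) := by
          have := b1 (-(2 / 3)) (by norm_num); gcongr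
      _ = D * δ ^ (-(2 / 3) : ℝ) * Λ *
          ((n : ℝ) ^ (1 / 3 : ℝ) * (n : ℝ) ^ ((k - 1 / 6) * (-(2 / 3)))) := by ring
      _ ≤ (n : ℝ) ^ (17 * k / 3 - 5 / 18) * (c' / 8 * δ ^ 5) *
          ((n : ℝ) ^ (1 / 3 : ℝ) * (n : ℝ) ^ ((k - 1 / 6) * (-(2 / 3)))) := by gcongr
      _ = c' / 8 * (δ ^ 5 * (n : ℝ) ^ (5 * k + 1 / 6)) := by rw [q]; ring
      _ ≤ _ := by gcongr
  have d2 : D * Λ * (s * e) ^ (-2 : ℝ) ≤ c' / 8 * (s ^ 5 * (n : ℝ) ^ (1 / 6 : ℝ)) := by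
    rw [div_mul_eq_mul_div, div_le_iff₀ cδ] at g2
    have q : (n : ℝ) ^ (5 * k + 1 / 6) = (n : ℝ) ^ (7 * k - 1 / 6) *
        (n : ℝ) ^ ((k - 1 / 6) * (-2)) := by
      rw [← rpow_add hn0]; congr 1; ring
    calc _ ≤ D * Λ * (δ ^ (-2 : ℝ) * (n : ℝ) ^ ((k - 1 / 6) * (-2))) := by
          have := b1 (-2) (by norm_num); gcongr
      _ = D * δ ^ (-2 : ℝ) * Λ * (n : ℝ) ^ ((k - 1 / 6) * (-2)) := by ring
      _ ≤ (n : ℝ) ^ (7 * k - 1 / 6) * (c' / 8 * δ ^ 5) * (n : ℝ) ^ ((k - 1 / 6) * (-2)) := by gcongr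
      _ = c' / 8 * (δ ^ 5 * (n : ℝ) ^ (5 * k + 1 / 6)) := by rw [q]; ring
      _ ≤ _ := by gcongr
  have d3 : 2 * C ≤ c' / 4 * (s ^ 5 * (n : ℝ) ^ (1 / 6 : ℝ)) := by
    rw [div_le_iff₀ (by positivity)] at g4
    have : 1 * (n : ℝ) ^ (1 / 6 : ℝ) ≤ s ^ 5 * (n : ℝ) ^ (1 / 6 : ℝ) := by
      gcongr; exact one_le_pow₀ s0
    have := mul_le_mul_of_nonneg_left this (show 0 ≤ c' / 4 by positivity)
    linarith
  have e6 : (n : ℝ) * (c' * (s * e) ^ 5) = c' * (s ^ 5 * (n : ℝ) ^ (1 / 6 : ℝ)) := by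
    rw [← e5]; ring
  have e7 : 2 * (n : ℝ) * (C / n) = 2 * C := by field_simp
  have key := low_one (C := c' / 2 * (s ^ 5 * (n : ℝ) ^ (1 / 6 : ℝ))) hβ0 hn pO
    (a₁ := s₁ * e) (by positivity)
    (by rw [← mul_assoc]; exact mul_le_mul_of_nonneg_right (by linarith) e0.le) a1 hm hX (by positivity)
    (by rw [e6, e7, mul_add]; linarith)
  have := mul_le_mul_of_nonneg_left key e0.le
  rw [Soft.Ln, ← he]
  refine le_trans (le_of_eq ?_) this
  calc c' / 4 * s ^ 5 = c' / 4 * s ^ 5 * ((n : ℝ) ^ (1 / 6 : ℝ) * e) := by rw [e1, mul_one]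
    _ = _ := by ring

/-- **unconditional** -/
theorem low {β : ℝ} (hβ : 1 < β) : LowSk β := lowSk Sy41.dn_sk scStmt hβ

/-- the form of `Clo_5.key_of_cls'` (`q = 5`) -/
theorem low_cls {β : ℝ} (hβ : 1 < β) : ∃ c : ℝ, 0 < c ∧ ∀ k s₁ : ℝ, 5 / 102 < k → k ≤ 1 / 6 → 0 < s₁ →
    ∀ δ : ℝ, 0 < δ → δ ≤ 1 → ∃ᶠ n : ℕ in atTop,
      c * (δ * (n : ℝ) ^ k) ^ (5 : ℝ) ≤ Soft.Ln n β s₁ (δ * (n : ℝ) ^ k) := by
  obtain ⟨c, hc, h⟩ := low hβ
  refine ⟨c, hc, fun k s₁ hk hk' hs δ hδ hδ' => Eventually.frequently ?_⟩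
  filter_upwards [h k δ s₁ hk hδ hs, eventually_ge_atTop 1] with n hn h1
  have hn1 : (1 : ℝ) ≤ n := by exact_mod_cast h1
  rw [show (5 : ℝ) = (5 : ℕ) by norm_num, rpow_natCast]
  exact hn _ le_rfl ((mul_le_of_le_one_left (by positivity) hδ').trans
    (rpow_le_rpow_of_exponent_le hn1 hk'))

/-- the form of `Nest39.key_of_rfam` (`C' = 5`) -/
theorem low_rfam {β : ℝ} (hβ : 1 < β) : ∃ γ : ℝ, 0 < γ ∧ ∀ k₀ s₁ : ℝ, 5 / 102 < k₀ → k₀ ≤ 1 / 6 →
    0 < s₁ → ∃ᶠ n : ℕ in atTop, ∃ s, s₁ ≤ s ∧ s ≤ (n : ℝ) ^ k₀ ∧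
      γ * s ^ (5 : ℝ) ≤ Soft.Ln n β s₁ s := by
  obtain ⟨c, hc, h⟩ := low_cls hβ
  refine ⟨c, hc, fun k s₁ hk hk' hs => ?_⟩
  have e : ∀ᶠ n : ℕ in atTop, s₁ ≤ (n : ℝ) ^ k :=
    ((tendsto_rpow_atTop (by linarith)).comp tendsto_natCast_atTop_atTop).eventually_ge_atTop _
  refine ((h k s₁ hk hk' hs 1 one_pos le_rfl).and_eventually e).mono fun n hn => ?_
  rw [one_mul] at hn
  exact ⟨_, hn.2, le_rfl, hn.1⟩

end Crest.Agent.T156.Cas.Low76

end
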