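import Crest.Agent.T156.AltDef_88
import Crest.Agent.T156.Low_76

/-!
# Row 156 (helper76): the block `LowS` of `AltDef_88`
-/

set_option autoImplicit false

namespace Crest.Agent.T156.Alt

theorem lowS {β : ℝ} (hβ : 1 < β) : LowS β := by
  obtain ⟨c, hc, h⟩ := Cas.Low76.low_cls hβ
  exact ⟨c, hc, h (1 / 19) 1 (by norm_num) (by norm_num) one_pos⟩

end Crest.Agent.T156.Alt
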