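import Crest.Agent.T156.PrB_28
import Crest.Agent.T156.StrB_62
import Crest.Agent.T157.PfC_56

/-!
Row 156, ALT, text (P) (helper85): existence of base profiles.  The grid minimiser on a very fine
grid is sampled on a coarse grid; its labels are then exactly bi-Lipschitz at the grid scale.
-/

set_option autoImplicit false

namespace Crest.Agent.T156.Pr

open MeasureTheory Set Filter Topology
open Crest.Agent.R164.GC Crest.Agent.R339.B Crest.Agent.R339.Var Crest.Agent.T157.Pf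
open Crest.Agent.T156.Pp (Dn Dn_one Dn_shift)

noncomputable section

namespace B85

variable {P : Par} {β : ℝ}

theorem lst_eq (P : Par) (β : ℝ) (N : ℕ) :
    lst P.z (fun j => j * (β ^ 2 / P.K)) N = P.lst β N := by
  unfold lst Par.lst
  congr 1
  funext k
  congr 1
  push_cast
  ring

theorem GG_app (h : P.OK) (β : ℝ) {N M : ℕ} (hN : P.a ≤ N) (hNM : N ≤ M) {t : ℝ}
    (ht : t ≤ TT (P.lst β N)) : GG (P.lst β M) t = GG (P.lst β N) t := by
  obtain ⟨l', e, hl'⟩ := h.lst_add β hN hNM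
  have hp : ∀ p ∈ P.lst β N, 0 < p.1 := fun p hp => (Adm.pos (h.adm β N) p hp).1
  obtain ⟨c, hc⟩ := PhiT_append one_pos hl' hp t
  unfold GG Et Dk
  rw [e, EX_append one_pos hl' hp ht, hc, Dn_shift]

theorem GG_K (h : P.OK) (β : ℝ) {s : ℝ} (hs : s ≤ 1) :
    β ^ 2 * GG (P.lst β P.K) (β ^ 2 * s) = P.Gam' β s := by
  unfold Par.Gam'
  rw [h.E_eq β h.aK (mul_le_of_le_one_left h.Kp.le hs)]
  unfold GG Et Dk
  rw [Dn_one]
  rfl

/-- the replicon functional of the list is `Γ'` -/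
theorem GG_par (h : P.OK) (β : ℝ) {N : ℕ} (hN : P.a ≤ N) {s : ℝ} (hs : s ≤ P.b) :
    β ^ 2 * GG (P.lst β N) (β ^ 2 * s) = P.Gam' β s := by
  have hK := h.Kp
  have h1 : s * P.K ≤ P.a := by
    have := mul_le_mul_of_nonneg_right hs hK.le
    unfold Par.b at this
    rwa [div_mul_cancel₀ _ hK.ne'] at this
  rw [← GG_K h β (hs.trans h.b_le_one), GG_app h β le_rfl hN (h.le_TT β h1),
    GG_app h β le_rfl h.aK (h.le_TT β h1)]

/-- the coarse profile -/
def co (P : Par) (K M J : ℕ) : Par := ⟨K, J, fun j => if j < J then P.z (j * M) else 1⟩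

theorem co_ok (h : P.OK) {K M J : ℕ} (hK : 0 < K) (hJ : J ≤ K) : (co P K M J).OK where
  Kpos := hK
  aK := hJ
  mono := fun i j hij => by
    simp only [co]
    split_ifs with h1 h2 h2
    · exact h.mono (Nat.mul_le_mul_right _ hij)
    · exact h.le_one _
    · omega
    · exact le_rfl
  pos := fun k => by
    simp only [co]
    split_ifs
    · exact h.pos _
    · exact one_pos
  top := fun k hk => by
    simp only [co] at hk ⊢
    rw [if_neg (by omega)]

theorem z_eq (h : P.OK) {K M : ℕ} (hK : 0 < K) (hM : 0 < M) (e : P.K = K * M) (j : ℕ) :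
    P.z (j * M) = P.zeta ((j : ℝ) / K) := by
  rw [← Str.zeta_grid h, e]
  congr 1
  have : (0:ℝ) < K := by exact_mod_cast hK
  have : (0:ℝ) < M := by exact_mod_cast hM
  push_cast
  field_simp

/-- `L¹` distance of two profiles from pointwise bounds -/
theorem dist_le {Q : Par} (h : P.OK) (h' : Q.OK) (hβ : 0 < β) {A p : ℝ} (hA : 0 ≤ A)
    (hp : p ≤ P.b) (h1 : ∀ s, 0 ≤ s → s < p → |Q.zeta s - P.zeta s| ≤ A) (h2 : Q.b ≤ P.b) :
    dist1 (P.lst β P.K) (Q.lst β Q.K) ≤ β ^ 2 * A + β ^ 2 * (P.b - p) := by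
  have b2 : 0 < β ^ 2 := by positivity
  unfold dist1
  rw [h.TT_K]
  set I := Ico (β ^ 2 * p) (β ^ 2 * P.b) with hI
  have hi : Integrable (I.indicator fun _ => (1:ℝ)) := by
    rw [integrable_indicator_iff measurableSet_Ico]
    exact integrableOn_const (by simp)
  have key := intervalIntegral.norm_integral_le_of_norm_le (μ := volume) (a := 0) (b := β ^ 2)
    (f := fun s => |lvr 1 (Q.lst β Q.K) s - lvr 1 (P.lst β P.K) s|)
    (g := fun s => A + I.indicator (fun _ => (1:ℝ)) s) b2.le ?_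
    (intervalIntegrable_const.add hi.intervalIntegrable)
  · refine (le_abs_self _).trans (key.trans ?_)
    rw [intervalIntegral.integral_add intervalIntegrable_const hi.intervalIntegrable,
      intervalIntegral.integral_const, intervalIntegral.integral_of_le b2.le]
    have a1 : ∫ x in Ioc 0 (β ^ 2), I.indicator (fun _ => (1:ℝ)) x ≤
        ∫ x, I.indicator (fun _ => (1:ℝ)) x :=
      setIntegral_le_integral hi (.of_forall fun x => indicator_nonneg (fun _ _ => zero_le_one) x)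
    have a2 : ∫ x, I.indicator (fun _ => (1:ℝ)) x = β ^ 2 * P.b - β ^ 2 * p := by
      rw [integral_indicator measurableSet_Ico, setIntegral_const, Real.volume_real_Ico_of_le
        (mul_le_mul_of_nonneg_left hp b2.le), smul_eq_mul, mul_one]
    rw [a2] at a1
    simp only [smul_eq_mul, sub_zero]
    linarith
  · have ne : ∀ᵐ t : ℝ, t ≠ β ^ 2 := by simp [ae_iff]
    filter_upwards [ne] with t ht hm
    have t0 : 0 ≤ t / β ^ 2 := div_nonneg hm.1.le b2.le
    have t1 : t / β ^ 2 < 1 := (div_lt_one b2).2 (lt_of_le_of_ne hm.2 ht)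
    have e : t = β ^ 2 * (t / β ^ 2) := by field_simp
    set s := t / β ^ 2 with hs
    rw [Real.norm_eq_abs, abs_abs, e, h.lvr_eq hβ t0 (mul_lt_of_lt_one_left h.Kp t1),
      h'.lvr_eq hβ t0 (mul_lt_of_lt_one_left h'.Kp t1)]
    have i0 : 0 ≤ I.indicator (fun _ => (1:ℝ)) (β ^ 2 * s) :=
      indicator_nonneg (fun _ _ => zero_le_one) _
    rcases lt_or_ge s p with c1 | c1
    · linarith [h1 s t0 c1]
    rcases lt_or_ge s P.b with c2 | c2
    · rw [indicator_of_mem (show β ^ 2 * s ∈ I from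
        ⟨mul_le_mul_of_nonneg_left c1 b2.le, mul_lt_mul_of_pos_left c2 b2⟩)]
      have := h.zeta_pos s
      have := h'.zeta_pos s
      have := h.zeta_le s
      have := h'.zeta_le s
      rw [abs_le]
      constructor <;> linarith
    · rw [h.zeta_top c2, h'.zeta_top (h2.trans c2), sub_self, abs_zero]
      linarith

theorem exists_M (C : ℝ) {ε : ℝ} (hε : 0 < ε) (K0 : ℕ) {K : ℕ} (hK : 0 < K) :
    ∃ M : ℕ, 0 < M ∧ K0 ≤ K * M ∧ C * ((K * M : ℕ) : ℝ) ^ (-(1 / 8 : ℝ)) ≤ ε := by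
  have t : Tendsto (fun n : ℕ => C * (n : ℝ) ^ (-(1 / 8 : ℝ))) atTop (𝓝 (C * 0)) :=
    ((tendsto_rpow_neg_atTop (by norm_num)).comp tendsto_natCast_atTop_atTop).const_mul C
  rw [mul_zero] at t
  obtain ⟨N, hN⟩ := eventually_atTop.1 (t.eventually (Iic_mem_nhds hε))
  have le : N + K0 + 1 ≤ K * (N + K0 + 1) := Nat.le_mul_of_pos_left _ hK
  exact ⟨N + K0 + 1, by omega, by omega, hN _ (by omega)⟩

end B85

open B85

/-- **existence of base profiles** -/
theorem baseS (hL : LipFS) : BaseS := by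
  intro β hβ
  have hβ0 : 0 < β := by linarith
  have b1 : 1 ≤ β ^ 2 := one_le_pow₀ hβ.le
  have b2 : 0 < β ^ 2 := by positivity
  obtain ⟨c, C, hc, hc1, hC, K0, hP⟩ := parStmt β hβ
  obtain ⟨C', hC', hS⟩ := Str.slopes hβ.le C (by linarith)
  obtain ⟨CL, hCL, hLip⟩ := hL (β ^ 2)
  have cs0 := Str.cs_pos hβ0
  set cs := Str.cs β with hcs
  set δ := min (1 / 2) (cs / 6) with hδ
  have δ0 : 0 < δ := lt_min (by norm_num) (by positivity)
  have δ1 : δ ≤ 1 / 2 := min_le_left _ _
  have δ2 : δ ≤ cs / 6 := min_le_right _ _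
  have q1 : 0 < 2 / c := by positivity
  have q2 : 0 ≤ β ^ 2 * (CL * (β ^ 2 * (2 * C') + β ^ 2 * 2)) := by positivity
  set CB := C + 2 * C' + 2 / c + β ^ 2 * (CL * (β ^ 2 * (2 * C') + β ^ 2 * 2)) + 1 with hCB
  refine ⟨min (c / 2) (cs / (2 * β ^ 2)), CB, lt_min (by positivity) (by positivity),
    by linarith, ⌈4 / c⌉₊ + 1, fun K hK => ?_⟩
  have K1 : 0 < K := by omega
  have Kp : (0:ℝ) < K := by exact_mod_cast K1
  have K2 : (1:ℝ) ≤ K := by exact_mod_cast K1
  have K4 : 4 / c ≤ K := (Nat.le_ceil _).trans (by exact_mod_cast (by omega))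
  rw [div_le_iff₀ hc] at K4
  set u : ℝ := 1 / K with hu
  have u0 : 0 < u := by positivity
  have uK : u * K = 1 := by rw [hu]; field_simp
  have u1 : u ≤ 1 := by rw [hu, div_le_one Kp]; exact K2
  have kU : ∀ x : ℝ, x * K * u = x := fun x => by rw [mul_assoc, mul_comm (K:ℝ), uK, mul_one]
  have uc : 4 * u ≤ c := by linarith [mul_le_mul_of_nonneg_right K4 u0.le, kU c]
  obtain ⟨M, M0, hM, hη⟩ := exists_M C (ε := (δ * u) ^ 2) (by positivity) K0 K1
  obtain ⟨P, e, h, hG⟩ := hP (K * M) hM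
  set η := C * ((K * M : ℕ) : ℝ) ^ (-(1 / 8 : ℝ)) with hηd
  have η0 : 0 < η := by
    have : (0:ℝ) < ((K * M : ℕ) : ℝ) := by exact_mod_cast Nat.mul_pos K1 M0
    positivity
  have r1 : √η ≤ δ * u := Real.sqrt_le_iff.2 ⟨by positivity, hη⟩
  have du : δ * u ≤ u / 2 := by linarith [mul_le_mul_of_nonneg_right δ1 u0.le]
  have du0 : 0 < δ * u := by positivity
  have dd : (δ * u) ^ 2 ≤ δ * u := by
    rw [sq]
    exact mul_le_of_le_one_left du0.le (by linarith)
  have η1 : η ≤ u := by linarith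
  have η2 : η ≤ 1 / 2 := by linarith
  have r0 := Real.sqrt_nonneg η
  have bc := hG.b_ge
  have bl := h.b_le_one
  have f1 : (⌊P.b * K⌋₊ : ℝ) ≤ P.b * K := Nat.floor_le (mul_nonneg (by linarith) Kp.le)
  have f2 : P.b * K < ⌊P.b * K⌋₊ + 1 := Nat.lt_floor_add_one _
  have f3 : 2 ≤ ⌊P.b * K⌋₊ := Nat.le_floor (by
    push_cast
    linarith [mul_le_mul_of_nonneg_right bc Kp.le])
  obtain ⟨J, hJ⟩ : ∃ J, ⌊P.b * K⌋₊ = J + 1 := ⟨⌊P.b * K⌋₊ - 1, by omega⟩
  rw [hJ] at f1 f2 f3
  push_cast at f1 f2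
  have J0 : 0 < J := by omega
  have dv : ∀ x : ℝ, x / K = x * u := fun x => by rw [hu]; ring
  have j1 : J * u + u ≤ P.b := by linarith [mul_le_mul_of_nonneg_right f1 u0.le, kU P.b]
  have j2 : P.b ≤ J * u + 2 * u := by linarith [mul_le_mul_of_nonneg_right f2.le u0.le, kU P.b]
  have JK : J ≤ K := by
    have : (J:ℝ) ≤ K := by linarith [mul_le_of_le_one_left Kp.le bl]
    exact_mod_cast this
  have hQ := co_ok h (M := M) K1 JK
  set Q := co P K M J with hQd
  have zlt : ∀ j, j < J → Q.z j = P.zeta (j * u) := fun j hj => by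
    rw [← dv, ← z_eq h K1 M0 e]
    simp only [hQd, co, if_pos hj]
  have sl := hS P c η h hG η0 η2
  have vu : u ≤ β ^ 2 * u := le_mul_of_one_le_left u0.le b1
  have Jv : c / 2 ≤ J * (β ^ 2 * u) := by
    linarith [mul_le_mul_of_nonneg_left vu (Nat.cast_nonneg J)]
  have cle : ∀ j : ℕ, j ≤ J → (j:ℝ) * u ≤ J * u := fun j hj =>
    mul_le_mul_of_nonneg_right (by exact_mod_cast hj) u0.le
  refine ⟨J, Q.z, ?_⟩
  rw [dv, dv]
  have CB1 : 1 ≤ CB := by linarith
  refine ⟨by positivity, ⟨hQ.mono, hQ.pos 0, hQ.top⟩, (min_le_left _ _).trans Jv, ?_, ?_,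
    fun j hj => ?_, fun j => ?_, fun N hN t ht => ?_⟩
  · have : (J:ℝ) * u ≤ 1 := by linarith
    linarith [mul_le_mul_of_nonneg_left this b2.le]
  · rw [zlt 0 J0]
    have := hG.zlin 0 ⟨le_rfl, zero_le_one⟩
    simp only [Nat.cast_zero, zero_mul, mul_zero, zero_add] at this ⊢
    linarith [le_mul_of_one_le_left (u0.le.trans vu) CB1]
  · unfold dm
    rw [zlt _ hj, zlt j (by omega)]
    have a0 := cle (j + 1) hj.le
    have a := sl (j * u) (((j + 1 : ℕ) : ℝ) * u) (by positivity) (by push_cast; linarith)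
    have a1 := a.1 (by linarith)
    have a2 := a.2 (by linarith)
    have e1 : ((j + 1 : ℕ) : ℝ) * u - j * u = u := by push_cast; ring
    rw [e1] at a1 a2
    constructor
    · have m1 : min (c / 2) (cs / (2 * β ^ 2)) * (β ^ 2 * u) ≤ cs / (2 * β ^ 2) * (β ^ 2 * u) :=
        mul_le_mul_of_nonneg_right (min_le_right _ _) (by positivity)
      have m2 : cs / (2 * β ^ 2) * (β ^ 2 * u) = cs * u / 2 := by field_simp
      linarith [mul_le_mul_of_nonneg_right δ2 u0.le]
    · have m1 : C' * (u + √η) ≤ C' * (2 * (β ^ 2 * u)) :=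
        mul_le_mul_of_nonneg_left (by linarith) (by linarith)
      have m2 : 2 * C' * (β ^ 2 * u) ≤ CB * (β ^ 2 * u) :=
        mul_le_mul_of_nonneg_right (by linarith) (by positivity)
      linarith
  · have p0 : 0 ≤ (j:ℝ) * (β ^ 2 * u) := by positivity
    have p1 : u ≤ CB * u := le_mul_of_one_le_left u0.le CB1
    rcases lt_or_ge j J with hj | hj
    · rw [zlt j hj]
      have a0 := cle j hj.le
      have a := hG.zlin (j * u) ⟨by positivity, by linarith⟩
      have m1 : C * (j * u) ≤ C * (j * (β ^ 2 * u)) :=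
        mul_le_mul_of_nonneg_left (mul_le_mul_of_nonneg_left vu (Nat.cast_nonneg _)) (by linarith)
      have m2 : C * (j * (β ^ 2 * u)) ≤ CB * (j * (β ^ 2 * u)) :=
        mul_le_mul_of_nonneg_right (by linarith) p0
      linarith
    · rw [hQ.top j hj]
      have m0 : (J:ℝ) * (β ^ 2 * u) ≤ j * (β ^ 2 * u) :=
        mul_le_mul_of_nonneg_right (by exact_mod_cast hj) (by positivity)
      have m1 : 2 / c * (c / 2) ≤ 2 / c * (j * (β ^ 2 * u)) :=
        mul_le_mul_of_nonneg_left (by linarith) q1.le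
      have m2 : 2 / c * (j * (β ^ 2 * u)) ≤ CB * (j * (β ^ 2 * u)) :=
        mul_le_mul_of_nonneg_right (by linarith) p0
      have m3 : 2 / c * (c / 2) = 1 := by field_simp
      linarith
  · have QK : Q.K = K := rfl
    have Qb : Q.b = J * u := by rw [← dv]; rfl
    have e1 := lst_eq Q β N
    rw [QK, dv] at e1
    rw [e1]
    set s := t / β ^ 2 with hs
    have et : t = β ^ 2 * s := by rw [hs]; field_simp
    have s0 : 0 ≤ s := div_nonneg ht.1 b2.le
    have s1 : s ≤ J * u := by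
      rw [hs, div_le_iff₀ b2]
      linarith [ht.2]
    rw [et, GG_par hQ β hN (by rw [Qb]; exact s1), ← GG_K hQ β (by linarith)]
    have g := abs_le.1 (hG.gam' s ⟨s0, by linarith⟩)
    rw [← GG_K h β (by linarith)] at g
    have d := dist_le h hQ hβ0 (A := 2 * C' * u) (p := J * u) (by positivity) (by linarith)
      (fun r r0' r1' => by
        have k1 : (⌊r * K⌋₊ : ℝ) ≤ r * K := Nat.floor_le (by positivity)
        have k2 : r * K < ⌊r * K⌋₊ + 1 := Nat.lt_floor_add_one _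
        have k3 : ⌊r * K⌋₊ < J := by
          have : (⌊r * K⌋₊ : ℝ) < J := by linarith [mul_lt_mul_of_pos_right r1' Kp, kU J]
          exact_mod_cast this
        have e2 : Q.zeta r = P.zeta (⌊r * K⌋₊ * u) := zlt _ k3
        have k4 : (⌊r * K⌋₊ : ℝ) * u ≤ r := by
          linarith [mul_le_mul_of_nonneg_right k1 u0.le, kU r]
        have k5 : r - ⌊r * K⌋₊ * u ≤ u := by
          linarith [mul_le_mul_of_nonneg_right k2.le u0.le, kU r]
        have a := (sl (⌊r * K⌋₊ * u) r (by positivity) k4).2 (by linarith)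
        have a' := h.zeta_mono k4
        have m1 : C' * (r - ⌊r * K⌋₊ * u + √η) ≤ C' * (2 * u) :=
          mul_le_mul_of_nonneg_left (by linarith) (by linarith)
        have m2 : 0 ≤ C' * u := by positivity
        rw [e2, abs_le]
        constructor <;> linarith)
      (by rw [Qb]; linarith)
    have l := (hLip (P.lst β P.K) (Q.lst β Q.K) ⟨h.adm β _, h.lst_pos hβ0 _⟩
      ⟨hQ.adm β _, hQ.lst_pos hβ0 _⟩ (by rw [hQ.TT_K, h.TT_K]) (h.TT_K β).le (β ^ 2 * s)
      ⟨by positivity, by rw [h.TT_K]; exact mul_le_of_le_one_right b2.le (by linarith)⟩).2.1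
    have d2 : dist1 (P.lst β P.K) (Q.lst β Q.K) ≤ (β ^ 2 * (2 * C') + β ^ 2 * 2) * u := by
      have : β ^ 2 * (P.b - J * u) ≤ β ^ 2 * (2 * u) :=
        mul_le_mul_of_nonneg_left (by linarith) b2.le
      linarith
    have l2 := abs_le.1 (l.trans (mul_le_mul_of_nonneg_left d2 (by linarith)))
    have l3 := mul_le_mul_of_nonneg_left l2.1 b2.le
    have l4 := mul_le_mul_of_nonneg_left l2.2 b2.le
    have m2 : (β ^ 2 * (CL * (β ^ 2 * (2 * C') + β ^ 2 * 2)) + 1) * u ≤ CB * u :=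
      mul_le_mul_of_nonneg_right (by linarith) u0.le
    rw [abs_le]
    constructor <;> linarith [g.1, g.2]

end

end Crest.Agent.T156.Pr
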