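import Crest.Agent.T156.KerA_31
import Crest.Agent.T156.Mon_48
import Crest.Agent.T156.PrDef_28

/-!
Row 156 (helper31): `L¹`-Lipschitz dependence on the tilt function for any two admissible lists
with the same total time; the leaves `Lip1S`, `Lip2S` of the text (P).
-/

set_option autoImplicit false

namespace Crest.Agent.T156.Ker

open MeasureTheory ProbabilityTheory Filter Topology Set
open Crest.Agent.R164.GC Crest.Agent.R339.B Crest.Agent.R339.Var Crest.Agent.T157.Pf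
open Crest.Agent.T156.Pp Crest.Agent.T156.Sc48
open Crest.ProbabilityR.InvariantGlass (gaussOp)

noncomputable section

/-- comparison of the laws with the parity of the drift only -/
theorem EP_gen (T : ℝ) : ∃ C : ℝ, 1 ≤ C ∧ ∀ (R R' : List (ℝ × ℝ)) (F : ℝ → ℝ) (a b : ℝ), Sl R R' →
    BD F → 0 ≤ a → 0 ≤ b → (∀ M', Adm 1 (M' ++ R') → TT (M' ++ R') ≤ T → ∀ y,
      |y| * |deriv (EP R' F M') y| ≤ a + b * y ^ 2) → ∀ M M' : List (ℝ × ℝ), Sl M M' →
    Adm 1 (M ++ R) → Adm 1 (M' ++ R') → TT (M ++ R) ≤ T → ∀ x, |EP R' F M' x - EP R F M x| ≤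
      C * (a * (dN M M' + Zs M * dN R R') +
        b * (dW M M' + TT M * Zs M * dN R R' + (dN M M' + Zs M * dN R R') * x ^ 2)) := by
  obtain ⟨C1, h1, hD⟩ := Dn_sl T 1
  have hC1 : 0 ≤ C1 := by linarith
  have key : ∀ (R R' : List (ℝ × ℝ)) (F : ℝ → ℝ) (a b : ℝ), Sl R R' →
      BD F → 0 ≤ a → 0 ≤ b → (∀ M', Adm 1 (M' ++ R') → TT (M' ++ R') ≤ T → ∀ y,
        |y| * |deriv (EP R' F M') y| ≤ a + b * y ^ 2) → ∀ M M' : List (ℝ × ℝ), Sl M M' →
      Adm 1 (M ++ R) → Adm 1 (M' ++ R') → TT (M ++ R) ≤ T → ∀ x, |EP R F M x - EP R' F M' x| ≤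
        (C1 * a * (dN M M' + dW M M' + Zs M * dN R R') +
        C1 * b * Real.exp (2 * TT M) * (dW M M' * (1 + TT M) + TT M * Zs M * dN R R')) +
        C1 * b * Real.exp (2 * TT M) * (dN M M' + dW M M' + Zs M * dN R R') * x ^ 2 := by
    intro R R' F a b hR hF ha0 hb0 hK M M' hs
    induction hs with
    | nil => intro _ _ _; simp [EP, dN, dW, Zs, TT]
    | @cons p p' M M' hp hl ih =>
      intro h h' hT x
      rw [List.cons_append] at h h' hT
      have hP := PhiL_prof one_pos (M ++ R)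
      have hP' := PhiL_prof one_pos (M' ++ R')
      have hd := h.2.2.1
      have hm := h.1
      have hm1 := Lip62.head_le_one h
      have hl' : Sl M M' := hl
      have htt := (hl'.append hR).tt
      rw [TT_cons] at hT
      have i2 := ih h.2.2.2 h'.2.2.2 (by linarith)
      have nM : Nn M := fun q hq => nn_of_adm h.2.2.2 q (List.mem_append_left _ hq)
      have nR : Nn R := fun q hq => nn_of_adm h.2.2.2 q (List.mem_append_right _ hq)
      have a1 := dN_nonneg M' nM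
      have a2 := dW_nonneg M' nM
      have a3 := dN_nonneg R' nR
      have a4 : 0 ≤ Zs M := Zs_nonneg fun q hq => Adm.pos h.2.2.2 q (List.mem_append_left _ hq)
      have a5 := TT_nonneg nM
      have he := abs_nonneg (p'.1 - p.1)
      set e := |p'.1 - p.1| with hed
      set N := e * p.2 + dN M M' + dN R R' with hN
      have hN0 : 0 ≤ N := by positivity
      have hDv : ∀ v ∈ Icc 0 p.2, ∀ j ≤ 1, ∀ y, |Dn j (gaussOp p'.1 v (PhiL 1 (M' ++ R'))) y -
          Dn j (gaussOp p.1 v (PhiL 1 (M ++ R))) y| ≤ C1 * N := fun v hv j hj y => by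
        refine (hD ((p.1, v) :: (M ++ R)) ((p'.1, v) :: (M' ++ R'))
          (List.Forall₂.cons rfl (hl'.append hR)) (adm_head h hv.1) (adm_head h' hv.1)
          (by rw [TT_cons]; linarith [hv.2]) j hj y).trans (mul_le_mul_of_nonneg_left ?_ hC1)
        simp only [dN, dN_append hl']
        nlinarith [mul_le_mul_of_nonneg_left hv.2 he]
      have hdr : ∀ v y, Dk (PhiL 1 (M ++ R)) p.1 1 v y - Dk (PhiL 1 (M' ++ R')) p'.1 1 v y =
          -(p.1 * (Dn 0 (gaussOp p'.1 v (PhiL 1 (M' ++ R'))) y -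
            Dn 0 (gaussOp p.1 v (PhiL 1 (M ++ R))) y) +
            (p'.1 - p.1) * deriv (gaussOp p'.1 v (PhiL 1 (M' ++ R'))) y) := fun v y => by
        rw [D1_eq hP, D1_eq hP', Lip62.At_deriv hP, Lip62.At_deriv hP', Dn_zero, Dn_zero]
        ring
      have hdr2 : ∀ v y b, 0 ≤ b → |Dn 0 (gaussOp p'.1 v (PhiL 1 (M' ++ R'))) y -
          Dn 0 (gaussOp p.1 v (PhiL 1 (M ++ R))) y| ≤ C1 * N * b →
          |deriv (gaussOp p'.1 v (PhiL 1 (M' ++ R'))) y| ≤ b →
          |Dk (PhiL 1 (M ++ R)) p.1 1 v y - Dk (PhiL 1 (M' ++ R')) p'.1 1 v y| ≤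
            C1 * (e + p.1 * N) * b := fun v y b hb q1 q2 => by
        rw [hdr, abs_neg]
        refine (abs_add_le _ _).trans ?_
        rw [abs_mul, abs_mul, abs_of_pos hm, ← hed]
        have := mul_le_mul_of_nonneg_left q1 hm.le
        have := mul_le_mul_of_nonneg_left q2 he
        nlinarith [mul_le_mul_of_nonneg_right h1 (mul_nonneg he hb)]
      have hAt : ∀ v, At (PhiL 1 (M' ++ R')) p'.1 (EP R' F M') v = EP R' F ((p'.1, v) :: M') :=
        fun v => rfl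
      have hT' : ∀ v ∈ Icc 0 p.2, TT (((p'.1, v) :: M') ++ R') ≤ T := fun v hv => by
        rw [List.cons_append, TT_cons, htt]
        linarith [hv.2]
      have hu : ∀ v ∈ Icc 0 p.2, ∀ y, |deriv (gaussOp p.1 v (PhiL 1 (M ++ R))) y| ≤ |y| :=
        fun v hv => u_le (adm_head h hv.1)
      have q1 : p.2 * (p.1 * (e * p.2 + dN M M')) ≤ p.2 * (e * p.2 + dN M M') :=
        mul_le_mul_of_nonneg_left (mul_le_of_le_one_left (by positivity) hm1) hd
      have c0 : 0 ≤ C1 * b := by positivity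
      have g := block_par hP hm hm1 hP' (m' := p'.1) (c := C1 * (e + p.1 * N) * b)
        (c0 := C1 * (e + p.1 * N) * a) hd hu (EP_bd R hF M) (EP_bd R' hF M') (by positivity)
        (by positivity) i2 (fun v hv y => by
          rw [hAt]
          have b1 := hdr2 v y |y| (abs_nonneg y) (odd_le
            (g := fun y => Dn 0 (gaussOp p'.1 v (PhiL 1 (M' ++ R'))) y -
              Dn 0 (gaussOp p.1 v (PhiL 1 (M ++ R))) y)
            ((Dn_bd (hP'.step _ _) 0).diff.sub (Dn_bd (hP.step _ _) 0).diff)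
            (by
              simp only [Dn_zero, zero_of_odd (deriv_neg_of_even (gaussOp_even (PhiL_even _) _ _)),
                sub_self])
            (fun y => by
              rw [deriv_fun_sub ((Dn_bd (hP'.step _ _) 0).diff y) ((Dn_bd (hP.step _ _) 0).diff y),
                ← Dn_succ, ← Dn_succ]
              exact hDv v hv 1 le_rfl y) y) (u_le (adm_head h' hv.1) y)
          have b2 := mul_le_mul_of_nonneg_left
            (hK ((p'.1, v) :: M') (adm_head h' hv.1) (hT' v hv) y)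
            (show 0 ≤ C1 * (e + p.1 * N) by positivity)
          refine (mul_le_mul_of_nonneg_right b1 (abs_nonneg _)).trans ?_
          linarith) x
      simp only [EP, dN, dW, Zs, TT_cons, ← hp, ← hed]
      refine g.trans ?_
      rw [show 2 * (p.2 + TT M) = 2 * TT M + 2 * p.2 by ring, Real.exp_add]
      have e1 : 1 ≤ Real.exp (2 * p.2) := Real.one_le_exp (by positivity)
      have e2 : 1 ≤ Real.exp (2 * TT M) := Real.one_le_exp (by positivity)
      set E1 := Real.exp (2 * p.2)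
      set E2 := Real.exp (2 * TT M)
      set b' := e * p.2 + dN M M' + (p.2 * (e * p.2 + dN M M') + dW M M') +
        (p.1 * p.2 + Zs M) * dN R R' with hb'
      set a' := dW M M' * (1 + TT M) + TT M * Zs M * dN R R' with ha
      have ha0' : 0 ≤ a' := by positivity
      have r2 : dN M M' + dW M M' + Zs M * dN R R' + (e + p.1 * N) * p.2 ≤ b' := by
        rw [hb', hN]; linarith
      have s0 := mul_le_mul_of_nonneg_left r2 (show 0 ≤ C1 * a by positivity)
      have s1 : C1 * b * E2 * (dN M M' + dW M M' + Zs M * dN R R') +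
          C1 * (e + p.1 * N) * b * p.2 ≤ C1 * b * E2 * b' := by
        have r1 : (e + p.1 * N) * p.2 ≤ E2 * ((e + p.1 * N) * p.2) :=
          le_mul_of_one_le_left (by positivity) e2
        have r3 := mul_le_mul_of_nonneg_left r2 (show 0 ≤ C1 * b * E2 by positivity)
        have r4 := mul_le_mul_of_nonneg_left r1 c0
        linarith
      have s2 := mul_le_mul_of_nonneg_right s1 (show 0 ≤ (x ^ 2 + p.2) * E1 by positivity)
      have s3 : C1 * b * E2 * a' ≤ C1 * b * E2 * a' * E1 :=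
        le_mul_of_one_le_right (by positivity) e1
      have s4 : a' + p.2 * b' ≤ (p.2 * (e * p.2 + dN M M') + dW M M') * (1 + (p.2 + TT M)) +
          (p.2 + TT M) * (p.1 * p.2 + Zs M) * dN R R' := by
        have r1 : 0 ≤ p.2 * (e * p.2 + dN M M') * TT M := by positivity
        have r2 : 0 ≤ TT M * (p.1 * p.2) * dN R R' := by positivity
        rw [ha, hb']
        linarith
      have s5 := mul_le_mul_of_nonneg_left s4 (show 0 ≤ C1 * b * (E2 * E1) by positivity)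
      linarith
  have e1 : 1 ≤ Real.exp (2 * |T|) := Real.one_le_exp (by positivity)
  refine ⟨C1 * Real.exp (2 * |T|) * (1 + |T|), one_le_mul_of_one_le_of_one_le
    (one_le_mul_of_one_le_of_one_le h1 e1) (by linarith [abs_nonneg T]),
    fun R R' F a b hR hF ha hb hK M M' hs h h' hT x => ?_⟩
  have k2 := key R R' F a b hR hF ha hb hK M M' hs h h' hT x
  have nM : Nn M := fun q hq => nn_of_adm h q (List.mem_append_left _ hq)
  have nR : Nn R := fun q hq => nn_of_adm h q (List.mem_append_right _ hq)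
  have a1 := dN_nonneg M' nM
  have a2 := dW_nonneg M' nM
  have a3 := dN_nonneg R' nR
  have a4 : 0 ≤ Zs M := Zs_nonneg fun q hq => Adm.pos h q (List.mem_append_left _ hq)
  have a5 := TT_nonneg nM
  have a6 : TT M ≤ |T| := by
    rw [TT_append] at hT
    linarith [le_abs_self T, TT_nonneg nR]
  have a7 : dN M M' + dW M M' + Zs M * dN R R' ≤ (1 + |T|) * (dN M M' + Zs M * dN R R') := by
    nlinarith [dW_le M' nM, mul_le_mul_of_nonneg_right a6 a1,
      mul_nonneg (abs_nonneg T) (mul_nonneg a4 a3)]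
  have a8 : dW M M' * (1 + TT M) + TT M * Zs M * dN R R' ≤
      (1 + |T|) * (dW M M' + TT M * Zs M * dN R R') := by
    nlinarith [mul_le_mul_of_nonneg_left a6 a2,
      mul_nonneg (abs_nonneg T) (mul_nonneg (mul_nonneg a5 a4) a3)]
  rw [abs_sub_comm]
  refine k2.trans ?_
  have c0 : C1 * a ≤ C1 * a * Real.exp (2 * |T|) := le_mul_of_one_le_right (by positivity) e1
  have c1 : C1 * b * Real.exp (2 * TT M) ≤ C1 * b * Real.exp (2 * |T|) := by gcongr
  have c2 := mul_le_mul c1 a8 (by positivity) (by positivity)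
  have c3 := mul_le_mul_of_nonneg_right (mul_le_mul c1 a7 (by positivity) (by positivity))
    (sq_nonneg x)
  have c4 := mul_le_mul c0 a7 (by positivity) (by positivity)
  linarith

/-! ### cutting a list -/

theorem head_cut : ∀ (l : List (ℝ × ℝ)) (t : ℝ), headLv 1 (cut l t ++ rest l t) = headLv 1 l
  | [], _ => rfl
  | p :: l, t => by
    simp only [cut, rest]
    split_ifs <;> rfl

theorem adm_cut : ∀ {l : List (ℝ × ℝ)}, Adm 1 l → ∀ {t : ℝ}, 0 ≤ t →
    Adm 1 (cut l t ++ rest l t) ∧ PhiL 1 (cut l t ++ rest l t) = PhiL 1 l ∧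
      TT (cut l t ++ rest l t) = TT l
  | [], _, _, _ => ⟨trivial, rfl, rfl⟩
  | p :: l, h, t, ht => by
    simp only [cut, rest]
    split_ifs with h1
    · refine ⟨⟨h.1, le_rfl, ht, h.1, h.2.1, sub_nonneg.2 h1, h.2.2.2⟩, ?_, ?_⟩
      · show gaussOp p.1 t (gaussOp p.1 (p.2 - t) (PhiL 1 l)) = gaussOp p.1 p.2 (PhiL 1 l)
        rw [← gaussOp_semi (PhiL_prof one_pos l) h.1.ne' ht (sub_nonneg.2 h1), add_sub_cancel]
      · simp only [List.cons_append, List.nil_append, TT_cons]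
        ring
    · obtain ⟨a, b, c⟩ := adm_cut h.2.2.2 (t := t - p.2) (by linarith)
      refine ⟨⟨h.1, (head_cut l _).symm ▸ h.2.1, h.2.2.1, a⟩, ?_, ?_⟩
      · simp only [List.cons_append, PhiL, b]
      · simp only [List.cons_append, TT_cons, c]

theorem EX_eq_EP (F : ℝ → ℝ) : ∀ {l : List (ℝ × ℝ)}, Adm 1 l → ∀ {t : ℝ}, 0 ≤ t →
    EX 1 l t F = EP (rest l t) F (cut l t)
  | [], _, _, _ => rfl
  | p :: l, h, t, ht => by
    simp only [cut, rest, EX]
    split_ifs with h1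
    · rfl
    · have h2 : 0 ≤ t - p.2 := by linarith
      simp only [EP, (adm_cut h.2.2.2 h2).2.1, EX_eq_EP F h.2.2.2 h2]

theorem Sl.cut {l l' : List (ℝ × ℝ)} (h : Sl l l') :
    ∀ t, Sl (cut l t) (cut l' t) ∧ Sl (rest l t) (rest l' t) := by
  induction h with
  | nil => intro t; exact ⟨List.Forall₂.nil, List.Forall₂.nil⟩
  | @cons p p' l l' hp hl ih =>
    intro t
    simp only [T157.Pf.cut, rest, ← hp]
    split_ifs
    · exact ⟨List.Forall₂.cons rfl List.Forall₂.nil, List.Forall₂.cons rfl hl⟩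
    · exact ⟨List.Forall₂.cons hp (ih _).1, (ih _).2⟩

theorem lvr_cut : ∀ (l : List (ℝ × ℝ)) {t s : ℝ}, s < t → lvr 1 (cut l t) s = lvr 1 l s
  | [], _, _, _ => rfl
  | p :: l, t, s, h => by
    simp only [cut]
    split_ifs with h1
    · simp only [lvr]
      rw [if_pos h, if_pos (h.trans_le h1)]
    · simp only [lvr]
      split_ifs
      · rfl
      · exact lvr_cut l (by linarith)

theorem lvr_rest : ∀ (l : List (ℝ × ℝ)) (t : ℝ) {s : ℝ}, 0 ≤ s →
    lvr 1 (rest l t) s = lvr 1 l (s + t)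
  | [], _, _, _ => rfl
  | p :: l, t, s, h => by
    simp only [rest]
    split_ifs with h1
    · simp only [lvr, lt_sub_iff_add_lt]
      rw [show s - (p.2 - t) = s + t - p.2 by ring]
    · simp only [lvr]
      rw [if_neg (by linarith), lvr_rest l _ h, add_sub_assoc]

/-! ### sums as integrals -/

/-- `|ζ' - ζ|` -/
def et (l l' : List (ℝ × ℝ)) (s : ℝ) : ℝ := |lvr 1 l' s - lvr 1 l s|

theorem lvr_bd : ∀ l : List (ℝ × ℝ), ∃ B, ∀ s, |lvr 1 l s| ≤ B
  | [] => ⟨1, fun _ => by simp [lvr]⟩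
  | p :: l => by
    obtain ⟨B, hB⟩ := lvr_bd l
    refine ⟨max |p.1| B, fun s => ?_⟩
    simp only [lvr]
    split_ifs
    · exact le_max_left _ _
    · exact (hB _).trans (le_max_right _ _)

theorem lvr_ii (l : List (ℝ × ℝ)) (a b : ℝ) : IntervalIntegrable (lvr 1 l) volume a b := by
  obtain ⟨B, hB⟩ := lvr_bd l
  exact ii_of_bdd (lvr_meas l) hB a b

theorem et_ii (l l' : List (ℝ × ℝ)) (a b : ℝ) : IntervalIntegrable (et l l') volume a b :=
  ((lvr_ii l' a b).sub (lvr_ii l a b)).abs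

theorem wet_ii (l l' : List (ℝ × ℝ)) (a b : ℝ) :
    IntervalIntegrable (fun s => s * et l l' s) volume a b :=
  (et_ii l l' a b).continuousOn_mul continuousOn_id

theorem lvr_shift (p : ℝ × ℝ) (l : List (ℝ × ℝ)) {s : ℝ} (hs : 0 ≤ s) :
    lvr 1 (p :: l) (s + p.2) = lvr 1 l s := by
  simp only [lvr]
  rw [if_neg (by linarith), add_sub_cancel_right]

theorem Zs_int : ∀ {l : List (ℝ × ℝ)}, Nn l → Zs l = ∫ s in (0:ℝ)..TT l, lvr 1 l s
  | [], _ => by simp [Zs, TT]
  | p :: l, h => by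
    rw [TT_cons, int_cons (lvr_ii _), intervalIntegral.integral_congr_Ioo_of_le h.head
      (g := fun _ => p.1) (fun r hr => by simp only [lvr]; rw [if_pos hr.2]),
      intervalIntegral.integral_congr_Ioo_of_le (TT_nonneg h.tail) (g := lvr 1 l)
        (fun r hr => lvr_shift p l hr.1.le), ← Zs_int h.tail]
    simp [Zs, mul_comm]

theorem dN_int {l l' : List (ℝ × ℝ)} (hs : Sl l l') : Nn l →
    dN l l' = ∫ s in (0:ℝ)..TT l, et l l' s ∧
      dW l l' ≤ 2 * ∫ s in (0:ℝ)..TT l, s * et l l' s := by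
  induction hs with
  | nil => intro _; simp [dN, dW, TT]
  | @cons p p' l l' hp hl ih =>
    intro h
    obtain ⟨i1, i2⟩ := ih h.tail
    have e1 : ∀ r, r < p.2 → et (p :: l) (p' :: l') r = |p'.1 - p.1| := fun r hr => by
      simp only [et, lvr]
      rw [if_pos hr, if_pos (hp ▸ hr)]
    have e2 : ∀ r, 0 ≤ r → et (p :: l) (p' :: l') (r + p.2) = et l l' r := fun r hr => by
      unfold et
      rw [lvr_shift p l hr, hp, lvr_shift p' l' hr]
    have hT := TT_nonneg h.tail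
    constructor
    · rw [TT_cons, int_cons (et_ii _ _), intervalIntegral.integral_congr_Ioo_of_le h.head
        (g := fun _ => |p'.1 - p.1|) (fun r hr => e1 r hr.2),
        intervalIntegral.integral_congr_Ioo_of_le hT (g := et l l') (fun r hr => e2 r hr.1.le), ← i1]
      simp [dN, mul_comm]
    · rw [TT_cons, int_cons (wet_ii _ _), intervalIntegral.integral_congr_Ioo_of_le h.head
        (g := fun r => |p'.1 - p.1| * r) (fun r hr => by rw [e1 r hr.2, mul_comm]),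
        intervalIntegral.integral_congr_Ioo_of_le hT (g := fun r => r * et l l' r + p.2 * et l l' r)
          (fun r hr => by rw [e2 r hr.1.le, add_mul]),
        intervalIntegral.integral_add (wet_ii _ _ _ _) ((et_ii _ _ _ _).const_mul _),
        intervalIntegral.integral_const_mul, intervalIntegral.integral_const_mul, ← i1, integral_id]
      simp only [dW, dN]
      nlinarith [mul_nonneg h.head (dN_nonneg l' h.tail)]

theorem eqv_of_dN {l l' : List (ℝ × ℝ)} (hs : Sl l l') : Adm 1 l → Adm 1 l' → dN l l' = 0 →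
    Eqv l l' := by
  induction hs with
  | nil => intro _ _ _; exact Eqv.refl _
  | @cons p p' l l' hp hl ih =>
    intro h h' h0
    have a1 := dN_nonneg l' (nn_of_adm h.2.2.2)
    have a2 := mul_nonneg (abs_nonneg (p'.1 - p.1)) h.2.2.1
    simp only [dN] at h0
    have i := ih h.2.2.2 h'.2.2.2 (by linarith)
    rcases mul_eq_zero.1 (show |p'.1 - p.1| * p.2 = 0 by linarith) with h1 | h1
    · obtain rfl : p = p' := Prod.ext (sub_eq_zero.1 (abs_eq_zero.1 h1)).symm hp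
      exact i.cons p
    · have e : p = (p.1, 0) := Prod.ext rfl h1
      have e' : p' = (p'.1, 0) := Prod.ext rfl (hp ▸ h1)
      rw [e, e']
      exact ((eqv_zero h.1.ne' (nn_of_adm h.2.2.2)).trans i).trans
        (eqv_zero h'.1.ne' (nn_of_adm h'.2.2.2)).symm

theorem exists_sl {l l' : List (ℝ × ℝ)} (h : Adm 1 l) (h' : Adm 1 l') (e : TT l' = TT l) :
    ∃ a a', Sl a a' ∧ Adm 1 a ∧ Adm 1 a' ∧ Eqv l a ∧ Eqv l' a' := by
  obtain ⟨L, hL⟩ := exists_ref h h' e.symm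
  refine ⟨_, _, ?_, hL.a0, hL.a1, hL.e0, hL.e1⟩
  unfold Sl lev
  rw [List.forall₂_map_left_iff, List.forall₂_map_right_iff, List.forall₂_same]
  exact fun _ _ => rfl

/-- `∫_a^b |ζ' - ζ|` -/
def Nf (l l' : List (ℝ × ℝ)) (a b : ℝ) : ℝ := ∫ s in a..b, |lvr 1 l' s - lvr 1 l s|
/-- `∫_0^t s |ζ' - ζ|(s) ds` -/
def Wf (l l' : List (ℝ × ℝ)) (t : ℝ) : ℝ := ∫ s in (0:ℝ)..t, s * |lvr 1 l' s - lvr 1 l s|
/-- `∫_0^t ζ` -/
def Zf (l : List (ℝ × ℝ)) (t : ℝ) : ℝ := ∫ s in (0:ℝ)..t, lvr 1 l s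

/-- reduction to two lists on the same slices, cut at the time `t` -/
theorem exists_cut {l l' : List (ℝ × ℝ)} (h : Adm 1 l) (h' : Adm 1 l') (e : TT l' = TT l) {t : ℝ}
    (ht : t ∈ Icc 0 (TT l)) : ∃ M M' R R', Sl M M' ∧ Sl R R' ∧ Adm 1 (M ++ R) ∧ Adm 1 (M' ++ R') ∧
    Adm 1 R ∧ Adm 1 R' ∧ TT (M ++ R) = TT l ∧ TT M = t ∧ TT R = TT l - t ∧ PhiT 1 l t = PhiL 1 R ∧
    PhiT 1 l' t = PhiL 1 R' ∧
    (∀ F, BD F → EX 1 l t F = EP R F M ∧ EX 1 l' t F = EP R' F M') ∧ dN M M' = Nf l l' 0 t ∧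
    dN R R' = Nf l l' t (TT l) ∧ dW M M' ≤ 2 * Wf l l' t ∧ Zs M = Zf l t := by
  obtain ⟨a, a', hs, ha, ha', q, q'⟩ := exists_sl h h' e
  obtain ⟨c1, -, c3⟩ := adm_cut ha ht.1
  obtain ⟨r1, r2, -⟩ := Min62.rest_adm ha t ht.1 (q.tt ▸ ht.2)
  have tM : TT (cut a t) = t := by
    rw [TT_append, r2] at c3
    linarith
  have nM : Nn (cut a t) := fun p hp => nn_of_adm c1 p (List.mem_append_left _ hp)
  obtain ⟨i1, i2⟩ := dN_int (hs.cut t).1 nM
  have i3 := (dN_int (hs.cut t).2 (nn_of_adm r1)).1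
  have e1 : ∀ s ∈ Ioo 0 t, et (cut a t) (cut a' t) s = |lvr 1 l' s - lvr 1 l s| := fun s hs => by
    rw [et, lvr_cut a hs.2, lvr_cut a' hs.2, q.lv s hs.1.le, q'.lv s hs.1.le]
  refine ⟨cut a t, cut a' t, rest a t, rest a' t, (hs.cut t).1, (hs.cut t).2, c1,
    (adm_cut ha' ht.1).1, r1, (Lip62.adm_rest ha' t ht.1).1, c3.trans q.tt.symm, tM,
    by rw [r2, q.tt], by rw [q.phiT t ht.1, Lip62.PhiT_eq_rest],
    by rw [q'.phiT t ht.1, Lip62.PhiT_eq_rest], fun F hF => ?_, ?_, ?_, ?_, ?_⟩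
  · obtain ⟨K, hK⟩ := hF.bc
    rw [q.ex t ht.1 F K hK, q'.ex t ht.1 F K hK]
    exact ⟨EX_eq_EP F ha ht.1, EX_eq_EP F ha' ht.1⟩
  · rw [i1, tM]
    exact intervalIntegral.integral_congr_Ioo_of_le ht.1 e1
  · rw [i3, r2, ← q.tt, intervalIntegral.integral_congr_Ioo_of_le (sub_nonneg.2 ht.2)
      (g := fun s => et l l' (s + t)) (fun s hs => by
        have : 0 ≤ s + t := add_nonneg hs.1.le ht.1
        simp only [et]
        rw [lvr_rest a t hs.1.le, lvr_rest a' t hs.1.le, q.lv _ this, q'.lv _ this]),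
      intervalIntegral.integral_comp_add_right, zero_add, sub_add_cancel]
    rfl
  · rw [tM, intervalIntegral.integral_congr_Ioo_of_le ht.1
      (g := fun s => s * |lvr 1 l' s - lvr 1 l s|) (fun s hs => by rw [e1 s hs])] at i2
    exact i2
  · rw [Zs_int nM, tM]
    exact intervalIntegral.integral_congr_Ioo_of_le ht.1 fun s hs => by
      rw [lvr_cut a hs.2, q.lv s hs.1.le]

theorem Nf_nonneg (l l' : List (ℝ × ℝ)) {a b : ℝ} (h : a ≤ b) : 0 ≤ Nf l l' a b :=
  intervalIntegral.integral_nonneg h fun _ _ => abs_nonneg _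

theorem Nf_add (l l' : List (ℝ × ℝ)) (a b c : ℝ) : Nf l l' a b + Nf l l' b c = Nf l l' a c :=
  intervalIntegral.integral_add_adjacent_intervals (et_ii l l' a b) (et_ii l l' b c)

theorem Wf_nonneg (l l' : List (ℝ × ℝ)) {t : ℝ} (h : 0 ≤ t) : 0 ≤ Wf l l' t :=
  intervalIntegral.integral_nonneg h fun _ hs => mul_nonneg hs.1 (abs_nonneg _)

theorem Zf_mem {l : List (ℝ × ℝ)} (h : Adm 1 l) {t : ℝ} (ht : 0 ≤ t) : Zf l t ∈ Icc 0 t :=
  ⟨intervalIntegral.integral_nonneg ht fun s _ => (lvr_pos h s).le, by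
    simpa [Zf] using intervalIntegral.integral_mono_on ht (lvr_ii l 0 t)
      (intervalIntegrable_const (c := (1:ℝ))) fun s _ => (lvr_mem h s).2⟩

theorem Wf_le {l l' : List (ℝ × ℝ)} {Y t : ℝ} (ht : 0 ≤ t)
    (h : ∀ s, Y ≤ s → s ≤ t → lvr 1 l' s = lvr 1 l s) : Wf l l' t ≤ Y * Nf l l' 0 t := by
  rw [Nf, ← intervalIntegral.integral_const_mul]
  refine intervalIntegral.integral_mono_on ht (wet_ii l l' 0 t) ((et_ii l l' 0 t).const_mul Y)
    fun s hs => ?_
  rcases le_total s Y with h1 | h1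
  · exact mul_le_mul_of_nonneg_right h1 (abs_nonneg _)
  · simp [h s h1 hs.2]

theorem Nf_zero {l l' : List (ℝ × ℝ)} {a b : ℝ} (hab : a ≤ b)
    (h : ∀ s, a < s → s < b → lvr 1 l' s = lvr 1 l s) : Nf l l' a b = 0 := by
  rw [Nf, intervalIntegral.integral_congr_Ioo_of_le hab (g := fun _ => 0)
    fun s hs => by simp [h s hs.1 hs.2]]
  simp

/-- **all space derivatives**: only the tilts above `t` matter -/
theorem Dn_lip (T : ℝ) (k : ℕ) : ∃ C : ℝ, 1 ≤ C ∧ ∀ l l' : List (ℝ × ℝ), Adm 1 l → Adm 1 l' →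
    TT l' = TT l → TT l ≤ T → ∀ t ∈ Icc 0 (TT l), ∀ j ≤ k, ∀ x,
      |Dn j (PhiT 1 l' t) x - Dn j (PhiT 1 l t) x| ≤ C * Nf l l' t (TT l) := by
  obtain ⟨C, h1, hC⟩ := Dn_sl T k
  refine ⟨C, h1, fun l l' h h' e hT t ht j hj x => ?_⟩
  obtain ⟨M, M', R, R', -, s, -, -, a, a', -, -, tR, p, p', -, -, n, -⟩ := exists_cut h h' e ht
  rw [p, p', ← n]
  exact hC R R' s a a' (by linarith [ht.1]) j hj x

theorem phiT_eq {l l' : List (ℝ × ℝ)} (h : Adm 1 l) (h' : Adm 1 l') (e : TT l' = TT l) {t : ℝ}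
    (ht : t ∈ Icc 0 (TT l)) (h0 : Nf l l' t (TT l) = 0) : PhiT 1 l' t = PhiT 1 l t := by
  obtain ⟨M, M', R, R', -, s, -, -, a, a', -, -, -, p, p', -, -, n, -⟩ := exists_cut h h' e ht
  rw [p, p', (eqv_of_dN s a a' (n.trans h0)).phi]

/-- second moment: `E X_t² ≤ (x² + t) e^{2t}` -/
theorem EX_sq {l : List (ℝ × ℝ)} (h : Adm 1 l) {t : ℝ} (ht : t ∈ Icc 0 (TT l)) {F : ℝ → ℝ}
    (hF : BD F) {A B : ℝ} (hB : 0 ≤ B) (hM : ∀ y, |F y| ≤ A + B * y ^ 2) (x : ℝ) :
    |EX 1 l t F x| ≤ A + B * ((x ^ 2 + t) * Real.exp (2 * t)) := by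
  obtain ⟨M, M', R, R', -, -, a, -, -, -, -, tM, -, -, -, ex, -⟩ := exists_cut h h rfl ht
  rw [(ex F hF).1, ← tM]
  exact EP_sq R hF hB hM M a x

/-- derivatives of `x ↦ E_x F(X_t)` -/
theorem EX_der (T : ℝ) (k : ℕ) : ∃ C : ℝ, 1 ≤ C ∧ ∀ l : List (ℝ × ℝ), Adm 1 l → TT l ≤ T →
    ∀ t, 0 ≤ t → ∀ (F : ℝ → ℝ) (K : ℝ), BD F →
    (∀ j, 1 ≤ j → j ≤ k → ∀ x, |iteratedDeriv j F x| ≤ K) →
    ∀ j, 1 ≤ j → j ≤ k → ∀ x, |iteratedDeriv j (EX 1 l t F) x| ≤ C * K := by
  obtain ⟨C, h1, hC⟩ := EP_der T k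
  refine ⟨C, h1, fun l h hT t ht F K hF hK => ?_⟩
  rw [EX_eq_EP F h ht]
  exact hC _ _ F K (adm_cut h ht).1 ((adm_cut h ht).2.2.trans_le hT) hF hK

/-- **comparison of the laws**: plain, with the parity of the drift, with the parity of `F` -/
theorem EX_lip (T : ℝ) : ∃ C : ℝ, 1 ≤ C ∧ ∀ l l' : List (ℝ × ℝ), Adm 1 l → Adm 1 l' →
    TT l' = TT l → TT l ≤ T → ∀ t ∈ Icc 0 (TT l), ∀ (F : ℝ → ℝ) (K : ℝ), BD F →
    (∀ x, |deriv F x| ≤ K) → ∀ x S W, S = Nf l l' 0 t + Zf l t * Nf l l' t (TT l) →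
    W = Wf l l' t + t * Zf l t * Nf l l' t (TT l) →
    |EX 1 l' t F x - EX 1 l t F x| ≤ C * K * S ∧
    (∀ δ, 0 < δ → |EX 1 l' t F x - EX 1 l t F x| ≤ C * K * (δ * S + (W + S * x ^ 2) / δ)) ∧
    ((∀ x, F (-x) = F x) → (∀ x, |deriv (deriv F) x| ≤ K) →
      |EX 1 l' t F x - EX 1 l t F x| ≤ C * K * (W + S * x ^ 2)) := by
  obtain ⟨C1, h1, hC1⟩ := EP_sl T
  obtain ⟨C2, h2, hC2⟩ := EP_gen T
  obtain ⟨C3, h3, hC3⟩ := EP_der T 1
  have c23 := one_le_mul_of_one_le_of_one_le h2 h3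
  refine ⟨2 * C1 + C2 * C3, by linarith, fun l l' h h' e hT t ht F K hF hK x S W hS hW => ?_⟩
  obtain ⟨M, M', R, R', sM, sR, a, a', -, -, tt, tM, -, -, -, ex, n1, n2, n3, n4⟩ :=
    exists_cut h h' e ht
  have hK0 : 0 ≤ K := (abs_nonneg _).trans (hK 0)
  have z := (Zf_mem h ht.1).1
  have m1 := Nf_nonneg l l' ht.1
  have m2 := Nf_nonneg l l' ht.2
  have m3 := Wf_nonneg l l' ht.1
  have t0 := ht.1
  have hS0 : 0 ≤ S := by rw [hS]; positivity
  have hW0 : 0 ≤ W := by rw [hW]; positivity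
  have m4 : 0 ≤ t * Zf l t * Nf l l' t (TT l) := by positivity
  have m5 : 0 ≤ S * x ^ 2 := by positivity
  have w : dW M M' + t * Zf l t * Nf l l' t (TT l) + S * x ^ 2 ≤ 2 * (W + S * x ^ 2) := by
    linarith
  obtain ⟨k1, k2⟩ := hC1 R R' F K sR hF hK M M' sM a a' (tt.trans_le hT)
  rw [(ex F hF).1, (ex F hF).2]
  rw [n1, n2, n4, ← hS] at k1 k2
  refine ⟨(k1 x).trans ?_, fun δ hδ => ?_, fun he hK2 => ?_⟩
  · gcongr
    linarith
  · have k3 := hC2 R R' F (C3 * K * (δ / 2)) (C3 * K * (1 / (2 * δ))) sR hF (by positivity)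
      (by positivity) (fun N aN tN y => by
        have b := hC3 N R' F K aN tN hF (fun j j1 j2 y => by
          rw [le_antisymm j2 j1, iteratedDeriv_one]; exact hK y) 1 le_rfl le_rfl y
        rw [iteratedDeriv_one] at b
        have b2 : |y| ≤ δ / 2 + 1 / (2 * δ) * y ^ 2 := by
          rw [← sq_abs y, ← sub_nonneg, show δ / 2 + 1 / (2 * δ) * |y| ^ 2 - |y| =
            (|y| - δ) ^ 2 / (2 * δ) by field_simp; ring]
          positivity
        refine (mul_le_mul b2 b (abs_nonneg _) (by positivity)).trans_eq (by ring))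
      M M' sM a a' (tt.trans_le hT) x
    rw [n1, n2, n4, ← hS, tM] at k3
    refine k3.trans ?_
    have u1 := mul_le_mul_of_nonneg_left w
      (show 0 ≤ C2 * (C3 * K * (1 / (2 * δ))) by positivity)
    have u2 : C2 * (C3 * K * (1 / (2 * δ))) * (2 * (W + S * x ^ 2)) =
        C2 * C3 * K * ((W + S * x ^ 2) / δ) := by field_simp
    have u3 : 0 ≤ C1 * K * (δ * S + (W + S * x ^ 2) / δ) := by positivity
    have u4 : 0 ≤ C2 * C3 * K * (δ * S) := by positivity
    nlinarith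
  · have k3 := k2 he hK2 x
    rw [tM] at k3
    have u1 := mul_le_mul_of_nonneg_left w (show 0 ≤ C1 * K by positivity)
    have u3 : 0 ≤ C2 * C3 * K * (W + S * x ^ 2) := by positivity
    linarith

theorem EX_sub_le (l : List (ℝ × ℝ)) (t : ℝ) {F F' : ℝ → ℝ} (hF : BD F) (hF' : BD F') {M : ℝ}
    (h : ∀ x, |F' x - F x| ≤ M) (x : ℝ) : |EX 1 l t F' x - EX 1 l t F x| ≤ M := by
  have key : ∀ {F F' : ℝ → ℝ}, BD F → BD F' → (∀ x, F' x ≤ F x + M) →
      EX 1 l t F' x ≤ EX 1 l t F x + M := fun {F F'} hF hF' h => by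
    obtain ⟨K, hK⟩ := hF.bc
    obtain ⟨K', hK'⟩ := hF'.bc
    obtain ⟨K1, hK1⟩ := (BD.const M).bc
    obtain ⟨K2, hK2⟩ := (hF.add (BD.const M)).bc
    have := EX_mono one_pos l t hK' hK2 h x
    rwa [EX_add one_pos l t hK hK1, EX_const one_pos] at this
  have a := key hF hF' fun y => by linarith [(abs_le.1 (h y)).2]
  have b := key hF' hF fun y => by linarith [(abs_le.1 (h y)).1]
  exact abs_le.2 ⟨by linarith, by linarith⟩

theorem S_le {l l' : List (ℝ × ℝ)} (h : Adm 1 l) {T t : ℝ} (hT : TT l ≤ T) (ht : t ∈ Icc 0 (TT l)) :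
    Nf l l' 0 t + Zf l t * Nf l l' t (TT l) ≤ (1 + |T|) * Pr.dist1 l l' := by
  have z := Zf_mem h ht.1
  have m1 := Nf_nonneg l l' ht.1
  have m2 := Nf_nonneg l l' ht.2
  have e : Pr.dist1 l l' = Nf l l' 0 t + Nf l l' t (TT l) := (Nf_add l l' 0 t (TT l)).symm
  have z2 : Zf l t ≤ |T| := by linarith [z.2, ht.2, le_abs_self T]
  rw [e]
  nlinarith [mul_le_mul_of_nonneg_right z2 m2, mul_nonneg (abs_nonneg T) m1]

/-- **(Lip1)** -/
theorem lip1S : Pr.Lip1S := by
  intro T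
  obtain ⟨C1, h1, hC1⟩ := Dn_lip T 3
  obtain ⟨C2, h2, hC2⟩ := EX_lip T
  have hT1 : 1 ≤ 1 + |T| := by linarith [abs_nonneg T]
  have c2 := one_le_mul_of_one_le_of_one_le h2 hT1
  refine ⟨C1 + C2 * (1 + |T|), by linarith, fun l l' h h' e hT => ?_⟩
  have d0 : 0 ≤ Pr.dist1 l l' := Nf_nonneg l l' (Min62.TT_nn h.1)
  refine ⟨fun k hk t ht x => ?_, fun F F' M La t ht hF hF' hM hL => ?_⟩
  · unfold Pr.Dk
    rcases le_total t (TT l) with h3 | h3
    · refine (hC1 l l' h.1 h'.1 e hT t ⟨ht, h3⟩ k hk x).trans (mul_le_mul (by linarith) ?_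
        (Nf_nonneg l l' h3) (by linarith))
      have := Nf_nonneg l l' ht
      have e : Pr.dist1 l l' = Nf l l' 0 t + Nf l l' t (TT l) := (Nf_add l l' 0 t (TT l)).symm
      linarith
    · rw [PhiT_end (fun p hp => Adm.pos h.1 p hp) h3,
        PhiT_end (fun p hp => Adm.pos h'.1 p hp) (e.trans_le h3), sub_self, abs_zero]
      positivity
  · have hL0 : 0 ≤ La := (abs_nonneg _).trans (hL 0)
    have a := EX_sub_le l' t hF hF' hM 0
    have b := ((hC2 l l' h.1 h'.1 e hT t ht F La hF hL 0 _ _ rfl rfl).1).trans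
      (mul_le_mul_of_nonneg_left (S_le h.1 hT ht) (by positivity))
    have c : 0 ≤ C1 * La * Pr.dist1 l l' := by positivity
    refine (abs_sub_le _ (EX 1 l' t F 0) _).trans ?_
    unfold Pr.Et
    linarith

/-- **(Lip2)** -/
theorem lip2S : Pr.Lip2S := by
  intro T
  obtain ⟨C, h1, hC⟩ := EX_lip T
  refine ⟨2 * C, by linarith, fun l l' h h' e hT Y hY hz t ht => ?_⟩
  have ht' : t ∈ Icc 0 (TT l) := ⟨hY.1.trans ht.1, ht.2⟩
  have n0 : Nf l l' t (TT l) = 0 := Nf_zero ht.2 fun s h1 _ => hz s (ht.1.trans h1.le)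
  refine ⟨phiT_eq h.1 h'.1 e ht' n0, fun F La hF hL => ?_⟩
  have hL0 : 0 ≤ La := (abs_nonneg _).trans (hL 0)
  have e1 : Pr.dist1 l l' = Nf l l' 0 t := by
    have := Nf_add l l' 0 t (TT l)
    rw [n0, add_zero] at this
    exact this.symm
  obtain ⟨a, b, -⟩ := hC l l' h.1 h'.1 e hT t ht' F La hF hL 0 _ _ rfl rfl
  rw [n0, mul_zero, add_zero] at a
  simp only [n0, mul_zero, add_zero, ne_eq, OfNat.ofNat_ne_zero, not_false_eq_true, zero_pow] at b
  rw [e1]
  rcases hY.1.eq_or_lt with rfl | hY0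
  · rw [Nf_zero ht'.1 fun s h1 _ => hz s h1.le, mul_zero] at a ⊢
    exact a
  · have hs := Real.sqrt_pos.2 hY0
    refine (b _ hs).trans ?_
    have w : Wf l l' t / √Y ≤ √Y * Nf l l' 0 t := by
      rw [div_le_iff₀ hs, mul_right_comm, Real.mul_self_sqrt hY.1]
      exact Wf_le ht'.1 fun s h1 _ => hz s h1
    nlinarith [mul_le_mul_of_nonneg_left w (show 0 ≤ C * La by positivity)]

end

end Crest.Agent.T156.Ker
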