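import Crest.Agent.T156.POde_3
import Crest.Agent.T156.PrDef_28

/-!
Row 156 (helper3): the leaves `OdeS`, `LipFS` (from `Lip1S`) and `CmpS` (from `LipFS`) of
`PrDef_28`.
-/

set_option autoImplicit false

namespace Crest.Agent.T156.Pp.Ode3

open MeasureTheory ProbabilityTheory Filter Topology Set
open Crest.Agent.R164.GC Crest.Agent.R339.B Crest.Agent.R339.Var Crest.Agent.T157.Pf
open Crest.Agent.T156.Pr (Ok OdeS Lip1S LipFS CmpS dist1)

noncomputable section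

variable {l l' : List (ℝ × ℝ)} {t : ℝ}

theorem AP.of_ok (h : Ok l) : AP l := ⟨h.1, h.2⟩

theorem chi_eq (h : AP l) : Pr.chi l = chi l := by
  unfold Pr.chi Pr.Dk chi; rw [PhiT_zero h.nn]
theorem kk_eq (h : AP l) : Pr.k4 l = kk l := by
  unfold Pr.k4 Pr.Dk kk; rw [PhiT_zero h.nn]
theorem Gam_eq : Pr.Gam = Gam := rfl
theorem GG_eq : Pr.GG = Gp := rfl
theorem AA_eq : Pr.AA = Am := rfl
theorem NN_eq : Pr.NN = Nm := rfl
theorem N4_eq : Pr.N4 = N4 := rfl
theorem BB_eq : Pr.BB = Bm := rfl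

theorem W3'_le {Φ : ℝ → ℝ} {y C c : ℝ} (hb : ∀ j ≤ 4, |Dn j Φ y| ≤ C) (hC1 : 1 ≤ C) (z0 : 0 < c)
    (z1 : c ≤ 1) : |W3' c Φ y| ≤ 15 * C ^ 3 := by
  unfold W3'
  have b1 := hb 1 (by norm_num)
  have b2 := hb 2 (by norm_num)
  have b3 := hb 3 (by norm_num)
  have b4 := hb 4 (by norm_num)
  have hC0 : 0 ≤ C := by linarith
  have c1 : |Dn 4 Φ y ^ 2| ≤ C ^ 3 := by
    rw [abs_pow]
    exact (pow_le_pow_left₀ (abs_nonneg _) b4 2).trans (pow_le_pow_right₀ hC1 (by norm_num))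
  have c2 : |4 * (Dn 1 Φ y * Dn 3 Φ y) + 3 * Dn 2 Φ y ^ 2| ≤ 7 * C ^ 2 := by
    refine (abs_add_le _ _).trans ?_
    rw [abs_mul, abs_mul, abs_mul, abs_pow, abs_of_pos (by norm_num : (0:ℝ) < 4),
      abs_of_pos (by norm_num : (0:ℝ) < 3)]
    have d1 := mul_le_mul b1 b3 (abs_nonneg _) hC0
    have d2 := pow_le_pow_left₀ (abs_nonneg _) b2 2
    linarith
  refine (abs_sub _ _).trans ?_
  rw [abs_mul, abs_mul (Dn 3 _ _), abs_of_pos (by linarith : 0 < 2 * c)]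
  have d3 := mul_le_mul b3 c2 (abs_nonneg _) hC0
  have d4 := mul_le_mul (show 2 * c ≤ 2 by linarith) d3 (by positivity) (by norm_num)
  linarith

/-- `N4` is Lipschitz, uniformly -/
theorem N4_lip (T : ℝ) : ∃ C : ℝ, 4 ≤ C ∧ ∀ l, AP l → TT l ≤ T → ∀ s ∈ Icc 0 (TT l),
    ∀ t ∈ Icc 0 (TT l), |N4 l t - N4 l s| ≤ C * |t - s| := by
  obtain ⟨C, h1, hC⟩ := Dn_PhiT T 4
  refine ⟨15 * C ^ 3, by nlinarith [one_le_pow₀ (n := 3) h1], fun l h hT s hs t ht => ?_⟩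
  exact abs_sub_le_of_rder (N4_cont h) (fun _ hr => N4_rder h hr.1 hr.2) hs ht fun r hr =>
    Et_abs_le (bfn_W3' _) fun y => W3'_le
      (fun j hj => hC l h.adm hT r ((le_min hs.1 ht.1).trans hr.1) j hj y) h1 (lvr_pos h.adm r)
      (lvr_le_one h.adm r)

/-- **(ODE)** -/
theorem odeS : OdeS := by
  intro T0
  obtain ⟨C, hC, hN⟩ := N4_lip T0
  refine ⟨C, by linarith, fun l hl hT => ?_⟩
  have h := AP.of_ok hl
  rw [Gam_eq, GG_eq, AA_eq, NN_eq, N4_eq, BB_eq, chi_eq h, kk_eq h]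
  refine ⟨⟨Gam_cont h, Gp_cont h, Am_cont h, Nm_cont h, N4_cont h, Bm_cont h⟩,
    fun t h0 h1 => ⟨Gam_rder h h0 h1, Gp_rder h h0 h1, Nm_rder h h0 h1⟩,
    ⟨Gam_zero h, Gp_zero h, Am_zero h, Nm_zero h, N4_zero h, chi_pos h, chi_le h⟩,
    fun t ht => ⟨Gam_nonneg l t, Gam_le h ht, Gam_le_one l t, Gp_nonneg l t, Gp_le_one h.adm t,
      Am_nonneg h.adm t, Am_le_one h.adm t, (Am_near h ht).trans (by linarith [ht.1]),
      Bm_nonneg h.adm t, Bm_le_Nm h.adm t,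
      (Nm_le h ht).trans (mul_le_mul_of_nonneg_right hC ht.1), ?_, fun s hs =>
      ⟨(Am_lip h hs ht).trans (by linarith [abs_nonneg (t - s)]),
        (Gp_lip h hs ht).trans (mul_le_mul_of_nonneg_right hC (abs_nonneg _))⟩⟩⟩
  have := hN l h hT 0 ⟨le_rfl, h.TT_nn⟩ t ht
  rwa [N4_zero h, sub_zero, abs_of_nonneg ht.1] at this

/-! ### the `L¹` distance -/

theorem dz_ii (h : Adm 1 l) (h' : Adm 1 l') (a b : ℝ) :
    IntervalIntegrable (fun s => |lvr 1 l' s - lvr 1 l s|) volume a b :=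
  ((lvr_ii h' a b).sub (lvr_ii h a b)).abs

theorem dist1_nonneg (h : AP l) (l' : List (ℝ × ℝ)) : 0 ≤ dist1 l l' :=
  intervalIntegral.integral_nonneg h.TT_nn fun _ _ => abs_nonneg _

theorem dz_le (h : AP l) (h' : Adm 1 l') (ht : t ∈ Icc 0 (TT l)) :
    ∫ s in (0:ℝ)..t, |lvr 1 l' s - lvr 1 l s| ≤ dist1 l l' :=
  intervalIntegral.integral_mono_interval le_rfl ht.1 ht.2
    (Eventually.of_forall fun _ => abs_nonneg _) (dz_ii h.adm h' _ _)

theorem int_dz_le (h : AP l) (h' : Adm 1 l') (ht : t ∈ Icc 0 (TT l)) {g : ℝ → ℝ} {K : ℝ}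
    (hK : 0 ≤ K) (hg : ∀ s ∈ Icc 0 t, |g s| ≤ K) :
    |∫ s in (0:ℝ)..t, (lvr 1 l' s - lvr 1 l s) * g s| ≤ K * dist1 l l' := by
  have := intervalIntegral.norm_integral_le_of_norm_le (μ := volume)
    (f := fun s => (lvr 1 l' s - lvr 1 l s) * g s)
    (g := fun s => K * |lvr 1 l' s - lvr 1 l s|) ht.1 (Eventually.of_forall fun s hs => by
      rw [Real.norm_eq_abs, abs_mul, mul_comm]
      exact mul_le_mul_of_nonneg_right (hg s ⟨hs.1.le, hs.2⟩) (abs_nonneg _))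
    ((dz_ii h.adm h' _ _).const_mul K)
  rw [intervalIntegral.integral_const_mul] at this
  exact this.trans (mul_le_mul_of_nonneg_left (dz_le h h' ht) hK)

theorem int_le_const {f : ℝ → ℝ} {K : ℝ} (ht : 0 ≤ t) (hf : ∀ s, 0 < s → s < t → |f s| ≤ K) :
    |∫ s in (0:ℝ)..t, f s| ≤ K * t := by
  have := intervalIntegral.norm_integral_le_of_norm_le_const_ae (a := 0) (b := t) (C := K) (f := f)
    (by
      filter_upwards [Measure.ae_ne volume t] with s hs hm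
      rw [uIoc_of_le ht] at hm
      exact hf s hm.1 (lt_of_le_of_ne hm.2 hs))
  rwa [sub_zero, abs_of_nonneg ht] at this

/-! ### products -/

/-- a pair of nearby test functions -/
structure Pr2 (F F' : ℝ → ℝ) (K M La : ℝ) : Prop where
  bd : BD F
  bd' : BD F'
  le : ∀ x, |F x| ≤ K
  le' : ∀ x, |F' x| ≤ K
  sub : ∀ x, |F' x - F x| ≤ M
  der : ∀ x, |deriv F x| ≤ La

theorem Pr2.mul {F F' G G' : ℝ → ℝ} {K M La K2 M2 La2 : ℝ} (h : Pr2 F F' K M La)
    (g : Pr2 G G' K2 M2 La2) : Pr2 (fun x => F x * G x) (fun x => F' x * G' x) (K * K2)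
      (M * K2 + K * M2) (La * K2 + K * La2) := by
  have k0 : 0 ≤ K := (abs_nonneg _).trans (h.le 0)
  have m0 : 0 ≤ M := (abs_nonneg _).trans (h.sub 0)
  have l0 : 0 ≤ La := (abs_nonneg _).trans (h.der 0)
  refine ⟨h.bd.mul g.bd, h.bd'.mul g.bd', fun x => ?_, fun x => ?_, fun x => ?_, fun x => ?_⟩
  · rw [abs_mul]; exact mul_le_mul (h.le x) (g.le x) (abs_nonneg _) k0
  · rw [abs_mul]; exact mul_le_mul (h.le' x) (g.le' x) (abs_nonneg _) k0
  · rw [show F' x * G' x - F x * G x = (F' x - F x) * G' x + F x * (G' x - G x) by ring]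
    refine (abs_add_le _ _).trans ?_
    rw [abs_mul, abs_mul]
    exact add_le_add (mul_le_mul (h.sub x) (g.le' x) (abs_nonneg _) m0)
      (mul_le_mul (h.le x) (g.sub x) (abs_nonneg _) k0)
  · rw [((h.bd.hasDerivAt x).fun_mul (g.bd.hasDerivAt x)).deriv]
    refine (abs_add_le _ _).trans ?_
    rw [abs_mul, abs_mul]
    exact add_le_add (mul_le_mul (h.der x) (g.le x) (abs_nonneg _) l0)
      (mul_le_mul (h.le x) (g.der x) (abs_nonneg _) k0)

/-- the functionals are Lipschitz in the `L¹` distance of the tilt functions -/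
theorem lipFS_of (H : Lip1S) : LipFS := by
  intro T0
  obtain ⟨C1, hC1, H⟩ := H T0
  obtain ⟨K, hK, hb⟩ := Dn_PhiT T0 4
  have K3 : 1 ≤ K ^ 3 := one_le_pow₀ hK
  have hC2 : C1 ≤ 6 * K ^ 3 * C1 := by nlinarith
  set C2 := 6 * K ^ 3 * C1 with e2
  refine ⟨7 * C2 + 24, by linarith, fun l l' hl hl' hTT hT => ?_⟩
  have h := AP.of_ok hl
  have h' := AP.of_ok hl'
  obtain ⟨H1, H2⟩ := H l l' hl hl' hTT hT
  set D := dist1 l l' with hD
  have D0 : 0 ≤ D := dist1_nonneg h l'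
  have base : ∀ t, 0 ≤ t → ∀ k ≤ 3, Pr2 (Pr.Dk k l t) (Pr.Dk k l' t) K (C1 * D) K := fun t ht k hk =>
    ⟨Dn_bd (PhiT_prof one_pos l t) k, Dn_bd (PhiT_prof one_pos l' t) k,
      hb l h.adm hT t ht k (by omega), hb l' h'.adm (hTT ▸ hT) t ht k (by omega),
      H1 k hk t ht, fun x => by
        unfold Pr.Dk; rw [← Dn_succ]; exact hb l h.adm hT t ht (k + 1) (by omega) x⟩
  have cd : 0 ≤ C1 * D := by positivity
  have two : ∀ t ∈ Icc 0 (TT l), ∀ i ≤ 3, ∀ j ≤ 3,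
      |Pr.Et l' t (fun x => Pr.Dk i l' t x * Pr.Dk j l' t x) -
        Pr.Et l t (fun x => Pr.Dk i l t x * Pr.Dk j l t x)| ≤ C2 * D := fun t ht i hi j hj => by
    have p := (base t ht.1 i hi).mul (base t ht.1 j hj)
    refine (H2 _ _ _ _ t ht p.bd p.bd' p.sub p.der).trans ?_
    have a1 : K ≤ K ^ 3 := le_self_pow₀ hK (by norm_num)
    have a2 : K ^ 2 ≤ K ^ 3 := pow_le_pow_right₀ hK (by norm_num)
    have a3 := mul_le_mul_of_nonneg_right a1 cd
    have a4 := mul_le_mul_of_nonneg_right a2 cd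
    have a5 : 0 ≤ K ^ 3 * (C1 * D) := by positivity
    rw [e2]; linarith
  have three : ∀ t ∈ Icc 0 (TT l), ∀ i ≤ 3, ∀ j ≤ 3, ∀ k ≤ 3,
      |Pr.Et l' t (fun x => Pr.Dk i l' t x * Pr.Dk j l' t x * Pr.Dk k l' t x) -
        Pr.Et l t (fun x => Pr.Dk i l t x * Pr.Dk j l t x * Pr.Dk k l t x)| ≤ C2 * D :=
    fun t ht i hi j hj k hk => by
    have p := ((base t ht.1 i hi).mul (base t ht.1 j hj)).mul (base t ht.1 k hk)
    refine (H2 _ _ _ _ t ht p.bd p.bd' p.sub p.der).trans ?_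
    have a2 : K ^ 2 ≤ K ^ 3 := pow_le_pow_right₀ hK (by norm_num)
    have a4 := mul_le_mul_of_nonneg_right a2 cd
    rw [e2]; linarith
  have dG : ∀ t ∈ Icc 0 (TT l), |Gp l' t - Gp l t| ≤ C2 * D := fun t ht => by
    have := two t ht 1 (by norm_num) 1 (by norm_num)
    simp only [← sq] at this
    exact this
  have dN4 : ∀ t ∈ Icc 0 (TT l), |N4 l' t - N4 l t| ≤ C2 * D := fun t ht => by
    have := two t ht 3 (by norm_num) 3 (by norm_num)
    simp only [← sq] at this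
    exact this
  have dA : ∀ t ∈ Icc 0 (TT l), |Am l' t - Am l t| ≤ C2 * D := fun t ht => by
    have := three t ht 1 (by norm_num) 1 (by norm_num) 1 (by norm_num)
    simp only [← pow_three'] at this
    exact this
  have dB : ∀ t ∈ Icc 0 (TT l), |Bm l' t - Bm l t| ≤ C2 * D := fun t ht => by
    have := three t ht 1 (by norm_num) 2 (by norm_num) 2 (by norm_num)
    simp only [mul_assoc, ← sq] at this
    exact this
  intro t ht
  have ht' : t ∈ Icc 0 (TT l') := hTT ▸ ht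
  have z : (0:ℝ) ∈ Icc 0 (TT l) := ⟨le_rfl, h.TT_nn⟩
  have z' : (0:ℝ) ∈ Icc 0 (TT l') := ⟨le_rfl, h'.TT_nn⟩
  have sub : ∀ s, 0 < s → s < t → s ∈ Icc 0 (TT l) := fun s a b => ⟨a.le, b.le.trans ht.2⟩
  have c0 : 0 ≤ C2 * D := mul_nonneg (by linarith) D0
  have up : C2 * D ≤ (7 * C2 + 24) * D := by nlinarith
  have up1 : C1 * D ≤ (7 * C2 + 24) * D := mul_le_mul_of_nonneg_right (by linarith) D0
  have td : 0 ≤ t * D := mul_nonneg ht.1 D0
  have ctd : 0 ≤ C2 * D * t := mul_nonneg c0 ht.1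
  rw [Gam_eq, GG_eq, AA_eq, NN_eq, N4_eq, BB_eq]
  refine ⟨?_, (dG t ht).trans up, (dA t ht).trans up, ?_, (dN4 t ht).trans up, (dB t ht).trans up,
    (H1 1 (by norm_num) 0 le_rfl 0).trans up1, (H1 3 (by norm_num) 0 le_rfl 0).trans up1⟩
  · have e1 := Gam_int h le_rfl ht.1 ht.2
    have e1' := Gam_int h' le_rfl ht.1 ht'.2
    rw [Gam_zero h, sub_zero] at e1
    rw [Gam_zero h', sub_zero] at e1'
    rw [e1, e1', ← intervalIntegral.integral_sub (ii_of_cont (Gp_cont h') z' ht')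
      (ii_of_cont (Gp_cont h) z ht)]
    refine (int_le_const ht.1 fun s a b => dG s (sub s a b)).trans ?_
    linarith
  · have e1 := Nm_int h le_rfl ht.1 ht.2
    have e1' := Nm_int h' le_rfl ht.1 ht'.2
    rw [Nm_zero h, sub_zero] at e1
    rw [Nm_zero h', sub_zero] at e1'
    have cB' : ContinuousOn (Bm l') (Icc 0 (TT l)) := hTT ▸ Bm_cont h'
    have i1 := ii_lvr_mul h'.adm cB' z ht
    have i2 := ii_lvr_mul h.adm cB' z ht
    have i3 := ii_lvr_mul h.adm (Bm_cont h) z ht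
    have b1 := int_le_const ht.1 fun s a b => dN4 s (sub s a b)
    rw [intervalIntegral.integral_sub (ii_of_cont (N4_cont h') z' ht')
      (ii_of_cont (N4_cont h) z ht)] at b1
    have b2 := int_dz_le h h'.adm ht (g := Bm l') (K := 4 * t) (by linarith [ht.1]) fun s hs => by
      rw [abs_of_nonneg (Bm_nonneg h'.adm s)]
      linarith [Bm_le h' (t := s) ⟨hs.1, hs.2.trans ht'.2⟩, hs.2]
    simp only [sub_mul] at b2
    rw [intervalIntegral.integral_sub i1 i2, ← hD] at b2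
    have b3 := int_le_const (f := fun s => lvr 1 l s * Bm l' s - lvr 1 l s * Bm l s)
      (K := C2 * D) ht.1 fun s a b => by
        rw [← mul_sub, abs_mul, abs_of_pos (lvr_pos h.adm s)]
        exact (mul_le_of_le_one_left (abs_nonneg _) (lvr_le_one h.adm s)).trans (dB s (sub s a b))
    rw [intervalIntegral.integral_sub i2 i3] at b3
    rw [e1, e1']
    rw [abs_le] at b1 b2 b3 ⊢
    constructor <;> linarith [b1.1, b1.2, b2.1, b2.2, b3.1, b3.2]

/-- **(Cmp)** -/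
theorem cmpS_of (H : LipFS) : CmpS := by
  intro T0
  obtain ⟨C, hC, H⟩ := H T0
  refine ⟨2 * C, by linarith, fun l l' hl hl' hTT hT C0 η t hC0 hη ht hz => ?_⟩
  have h := AP.of_ok hl
  have h' := AP.of_ok hl'
  have H := H l l' hl hl' hTT hT
  set D := dist1 l l' with hD
  have D0 : 0 ≤ D := dist1_nonneg h l'
  rw [Gam_eq, GG_eq, AA_eq, NN_eq, N4_eq, BB_eq] at H
  rw [GG_eq, AA_eq]
  have ht' : t ∈ Icc 0 (TT l') := hTT ▸ ht
  have z : (0:ℝ) ∈ Icc 0 (TT l) := ⟨le_rfl, h.TT_nn⟩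
  have z' : (0:ℝ) ∈ Icc 0 (TT l') := ⟨le_rfl, h'.TT_nn⟩
  have sub : ∀ s, 0 < s → s < t → s ∈ Icc 0 (TT l) := fun s a b => ⟨a.le, b.le.trans ht.2⟩
  have cd : 0 ≤ C * D := mul_nonneg (by linarith) D0
  have cA' : ContinuousOn (Am l') (Icc 0 (TT l)) := hTT ▸ Am_cont h'
  have i1 := ii_lvr_mul h'.adm cA' z ht
  have i2 := ii_lvr_mul h.adm cA' z ht
  have i3 := ii_lvr_mul h.adm (Am_cont h) z ht
  have b1 := int_le_const (f := fun s => Nm l' s - Nm l s) (K := C * t * D) ht.1 fun s a b =>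
    (H s (sub s a b)).2.2.2.1.trans (mul_le_mul_of_nonneg_right
      (mul_le_mul_of_nonneg_left b.le (by linarith)) D0)
  rw [intervalIntegral.integral_sub (ii_of_cont (Nm_cont h') z' ht')
    (ii_of_cont (Nm_cont h) z ht)] at b1
  have b3 := int_le_const (f := fun s => lvr 1 l s * Am l' s - lvr 1 l s * Am l s)
    (K := (C0 * t + η) * (C * D)) ht.1 fun s a b => by
      rw [← mul_sub, abs_mul, abs_of_pos (lvr_pos h.adm s)]
      have q1 := mul_le_mul_of_nonneg_left b.le hC0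
      have q2 := mul_nonneg hC0 ht.1
      exact mul_le_mul (by linarith [hz s a.le b]) (H s (sub s a b)).2.2.1 (abs_nonneg _)
        (by linarith)
  rw [intervalIntegral.integral_sub i2 i3] at b3
  simp only [sub_mul]
  rw [Gp_int h le_rfl ht.1 ht.2, Gp_int h' le_rfl ht.1 ht'.2, intervalIntegral.integral_sub i1 i2]
  have p1 : 0 ≤ C * D * t ^ 2 := mul_nonneg cd (sq_nonneg t)
  rw [abs_le] at b1 b3 ⊢
  constructor <;> linarith [b1.1, b1.2, b3.1, b3.2]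

theorem cmpS_of_lip1 (H : Lip1S) : CmpS := cmpS_of (lipFS_of H)

end

end Crest.Agent.T156.Pp.Ode3
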