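import Crest.Agent.T156.PrP_28
import Crest.Agent.T156.PCmp_3
import Crest.Agent.T156.PArea_50
import Crest.Agent.T156.Ker_31
import Crest.Agent.T156.PlatS_10

/-!
Row 156, ALT, text (P) (helper28): P1 and P2, unconditional.
-/

namespace Crest.Agent.T156.Pr

open Crest.Agent.T156.Pp

theorem lipFS : LipFS := Ode3.lipFS_of Ker.lip1S
theorem cmpS : CmpS := Ode3.cmpS_of lipFS
theorem p1B : P1B := p1B_of Ode3.odeS Ker.lip2S lipFS cmpS platS areaS
theorem p2B : P2B := p2B_of Ode3.odeS Ker.lip2S lipFS cmpS platS areaS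

end Crest.Agent.T156.Pr
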