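import Crest.Agent.T156.AltTop_88
import Crest.Agent.T156.AltLow_76
import Crest.Agent.T156.PrBase_85
import Crest.Agent.T156.PrU_28
import Crest.Agent.T156.SoTop_88

/-!
# Row 156, ALT route: closing glue (helper11)
-/

set_option autoImplicit false

namespace Crest.Agent.T156.Alt

theorem baseS' : Pr.BaseS := Pr.baseS Pr.lipFS

/-- the row from the three remaining block statements -/
theorem key_of {β : ℝ} (hβ : 1 < β) (h0 : Loss β P0) (h1 : Gain β R1) (h2 : Gain β R2) :
    Soft.Key β := topS baseS' β hβ h0 h1 h2 (lowS hβ)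

theorem s27_of {β : ℝ} (hβ : 1 < β) (h0 : Loss β P0) (h1 : Gain β R1) (h2 : Gain β R2) :
    Soft.S27 β := Soft.s27_of_key (key_of hβ h0 h1 h2)

end Crest.Agent.T156.Alt
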