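import Crest.Agent.T156.PSharp_81
import Crest.Agent.T156.PlatS_10

/-!
Row 156 (helper48): text (P), leaf (Atom) of docs/T156_58.md sec. 5: the top atom of a base
profile has label mass at least `c2`.
-/

set_option autoImplicit false

namespace Crest.Agent.T156.Pr

open MeasureTheory Set
open Crest.Agent.R164.GC Crest.Agent.R339.B Crest.Agent.R339.Var Crest.Agent.T157.Pf

noncomputable section

/-- **(Atom)** -/
def AtomS : Prop := ∀ b0 c C : ℝ, 1 ≤ b0 → 0 < c → 1 ≤ C → ∃ c2 η0 : ℝ, 0 < c2 ∧ 0 < η0 ∧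
  ∀ (η v : ℝ) (J : ℕ) (z : ℕ → ℝ), Base b0 c C η v J z → η ≤ η0 →
    1 ≤ J ∧ c2 ≤ 1 - z (J - 1) ∧ c2 ≤ dm z (J - 1)

namespace Atom48

open Sharp81

theorem der_le {f : ℝ → ℝ} {d a u : ℝ} (hu : a < u) (hd : HasDerivWithinAt f d (Ici a) a)
    (h : ∀ t ∈ Ioc a u, f t ≤ f a) : d ≤ 0 := by
  have h1 := (hasDerivWithinAt_iff_tendsto_slope' (s := Ioi a) (by simp)).1 hd.Ioi_of_Ici
  refine le_of_tendsto h1 ?_
  filter_upwards [Ioc_mem_nhdsGT hu] with t ht
  rw [slope_def_field]
  exact div_nonpos_of_nonpos_of_nonneg (sub_nonpos.2 (h t ht)) (sub_nonneg.2 ht.1.le)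

/-- `N - 2 A ≤ -G / 2` at the start of the plateau -/
theorem top_slope {l : List (ℝ × ℝ)} (h : Ok l) {T : ℝ} (h0 : 0 ≤ T) (h1 : T < TT l)
    (hz : ∀ s, T ≤ s → lvr 1 l s = 1) : NN l T - 2 * AA l T ≤ -(GG l T / 2) := by
  obtain ⟨C, -, hC⟩ := Pp.Ode3.odeS (TT l)
  obtain ⟨-, hd, -⟩ := hC l h le_rfl
  have d1 := (hd T h0 h1).2.1
  rw [hz T le_rfl] at d1
  have d2 : HasDerivAt (fun t => Real.exp (-((t - T) / 2)) * GG l T)
      (Real.exp (-((T - T) / 2)) * (-(1 / 2)) * GG l T) T :=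
    ((((hasDerivAt_id T).sub_const T).div_const 2).neg.exp).mul_const _
  have := der_le h1 (d1.sub d2.hasDerivWithinAt) fun t ht => by
    have := (platS l h T t h0 ht.1.le ht.2 hz).1
    simp only [Pi.sub_apply, sub_self, zero_div, neg_zero, Real.exp_zero]
    linarith
  simp only [sub_self, zero_div, neg_zero, Real.exp_zero] at this
  linarith

theorem NN_lip (T0 : ℝ) : ∃ K : ℝ, 1 ≤ K ∧ ∀ l, Ok l → TT l ≤ T0 → ∀ s t, 0 ≤ s → s ≤ t →
    t ≤ TT l → |NN l t - NN l s| ≤ K * (t - s) := by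
  obtain ⟨C, h1, hC⟩ := Pp.Ode3.odeS T0
  obtain ⟨K, k1, hK⟩ := k4_sq_le T0
  refine ⟨K + 7 * C * |T0|, by nlinarith [abs_nonneg T0], fun l h hT s t hs hst ht => ?_⟩
  obtain ⟨⟨-, -, -, cN, -, -⟩, hd, -, hb⟩ := hC l h hT
  have := mvt_lin (f := NN l) (f' := fun r => N4 l r - 6 * lvr 1 l r * BB l r) (a := s)
    (u := t - s) (g := 0) (E := K + 7 * C * |T0|) (by linarith)
    (cN.mono (Icc_subset_Icc hs (by linarith)))
    (fun r hr => (hd r (hs.trans hr.1) (by linarith [hr.2])).2.2) (fun r hr => by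
      have hr' : r ∈ Icc 0 (TT l) := ⟨hs.trans hr.1, by linarith [hr.2]⟩
      obtain ⟨-, -, -, -, -, -, -, -, b1, b2, b3, b4, -⟩ := hb r hr'
      have z1 := Pp.Ode3.lvr_pos h.1 r
      have z2 := Pp.Ode3.lvr_le_one h.1 r
      have r1 : C * r ≤ C * |T0| :=
        mul_le_mul_of_nonneg_left ((hr'.2.trans hT).trans (le_abs_self _)) (by linarith)
      have p1 : lvr 1 l r * BB l r ≤ BB l r := mul_le_of_le_one_left b1 z2
      have p2 : 0 ≤ lvr 1 l r * BB l r := mul_nonneg z1.le b1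
      have := abs_le.1 b4
      have := hK l h hT
      have := sq_nonneg (k4 l)
      rw [abs_le]; constructor <;> nlinarith)
  simpa using this

/-- `G` drops below a plateau whose tilts are approached continuously -/
theorem drop (T0 : ℝ) : ∃ K : ℝ, 1 ≤ K ∧ ∀ l, Ok l → TT l ≤ T0 → ∀ T d r : ℝ, 0 ≤ d → d ≤ T →
    T < TT l → (∀ s, T ≤ s → lvr 1 l s = 1) → (∀ s ∈ Ico (T - d) T, 1 - r ≤ lvr 1 l s) →
    GG l T - GG l (T - d) ≤ d * (-(GG l T / 2) + K * d + 2 * r) := by
  obtain ⟨C, -, hC⟩ := Pp.Ode3.odeS T0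
  obtain ⟨K, k1, hK⟩ := NN_lip T0
  refine ⟨K + 30, by linarith, fun l h hT T d r d0 dT h1 hz hr => ?_⟩
  obtain ⟨⟨-, cG, -⟩, hd, -, hb⟩ := hC l h hT
  have t0 : 0 ≤ T := d0.trans dT
  have ts := top_slope h t0 h1 hz
  set m := -(GG l T / 2) + (K + 30) * d + 2 * r with hm
  have := image_le_of_deriv_right_le_deriv_boundary (f := GG l)
    (f' := fun s => NN l s - 2 * lvr 1 l s * AA l s) (a := T - d) (b := T)
    (cG.mono (Icc_subset_Icc (by linarith) h1.le))
    (fun s hs => (hd s (by linarith [hs.1]) (hs.2.trans h1)).2.1)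
    (B := fun s => GG l (T - d) + m * (s - (T - d))) (B' := fun _ => m) (by simp) (by fun_prop)
    (fun s _ => by
      simpa using ((((hasDerivAt_id s).sub_const (T - d)).const_mul m).const_add
        (GG l (T - d))).hasDerivWithinAt)
    (fun s hs => by
      have s0 : 0 ≤ s := by linarith [hs.1]
      have hs' : s ∈ Icc 0 (TT l) := ⟨s0, (hs.2.trans h1).le⟩
      obtain ⟨-, -, -, -, -, a0, a1, -, -, -, -, -, a2⟩ := hb s hs'
      have a3 := (abs_le.1 (a2 T ⟨t0, h1.le⟩).1).1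
      rw [abs_of_nonpos (by linarith [hs.2])] at a3
      have n1 := (abs_le.1 (hK l h hT s T s0 hs.2.le h1.le)).1
      have n2 : K * (T - s) ≤ K * d := mul_le_mul_of_nonneg_left (by linarith [hs.1]) (by linarith)
      have z1 := hr s hs
      have z2 := Pp.Ode3.lvr_le_one h.1 s
      have z3 : (1 - lvr 1 l s) * AA l s ≤ r := by nlinarith
      have := hs.1
      nlinarith) (x := T) ⟨by linarith, le_rfl⟩
  simp only [sub_sub_cancel] at this
  linarith

end Atom48

open Sharp81 Atom48 in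
/-- **(Atom)** -/
theorem atomS : AtomS := by
  intro b0 c C hb hc hC
  obtain ⟨K, k1, hK⟩ := drop (2 * b0)
  have b0p : 0 < b0 := by linarith
  set d := min c (1 / (16 * b0 * (K + 2 * C))) with hd
  have d0 : 0 < d := lt_min hc (by positivity)
  have d1 : (K + 2 * C) * d ≤ 1 / (16 * b0) := by
    have : d ≤ 1 / (16 * b0 * (K + 2 * C)) := min_le_right _ _
    calc (K + 2 * C) * d ≤ (K + 2 * C) * (1 / (16 * b0 * (K + 2 * C))) := by gcongr
      _ = _ := by field_simp
  refine ⟨1 / (32 * b0), min (1 / 2) (d / (32 * b0)), by positivity,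
    lt_min (by norm_num) (by positivity), fun η v J z h hη => ?_⟩
  have hv := h.v_pos
  have J1 : 1 ≤ J := by
    rcases Nat.eq_zero_or_pos J with rfl | a
    · have := h.lo
      simp at this
      linarith
    · exact a
  have key : 1 / (32 * b0) ≤ 1 - z (J - 1) := by
    by_contra hlt
    push Not at hlt
    obtain ⟨ok, tt, cell⟩ := base_area h (Nat.le_succ J)
    have J1' : (1:ℝ) ≤ J := by exact_mod_cast J1
    have vb : v ≤ b0 := le_trans (by nlinarith) h.hi
    have tt' : TT (lo z v 0 (J + 1)) = J * v + v := by rw [tt]; push_cast; ring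
    have top : ∀ s, J * v ≤ s → lvr 1 (lo z v 0 (J + 1)) s = 1 := fun s hs => by
      obtain ⟨⟨-, -, a3, a4, -⟩, -⟩ := areaS z (fun j => j * v) (J + 1)
        (h.lab.up (Nat.le_succ J)) (by simp) (grid_sm hv)
      rw [lo_zero]
      rcases lt_or_ge s (((J + 1 : ℕ):ℝ) * v) with a | a
      · rw [a3 J s hs a, h.lab.top J le_rfl]
      · exact a4 s a
    have dc : d ≤ J * v := (min_le_left _ _).trans h.lo
    have dr := hK _ ok (by rw [tt']; linarith [h.hi]) (J * v) d (1 / (32 * b0) + C * d) d0.le dc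
      (by rw [tt']; linarith) top fun s hs => by
        obtain ⟨i, hi, i1, i2, i3⟩ := cell s (by linarith [hs.1]) hs.2
        obtain ⟨e, he⟩ := Nat.exists_eq_add_of_le (show i ≤ J - 1 by omega)
        have a := (lab_lip h (i := i) e (by omega)).2
        have e1 : (J:ℝ) = i + e + 1 := by
          have : J = i + e + 1 := by omega
          rw [this]; push_cast; ring
        have e2 : v * e ≤ d := by have := hs.1; rw [e1] at this; nlinarith
        have e3 : C * v * e ≤ C * d := by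
          rw [mul_assoc]; exact mul_le_mul_of_nonneg_left e2 (by linarith)
        rw [i3]
        rw [← he] at a
        linarith
    have os := (abs_le.1 (GG_osc h hb (Nat.le_succ J) (s := J * v - d) (t := J * v)
      ⟨by linarith, by linarith⟩ ⟨by positivity, le_rfl⟩)).1
    have cr := (abs_le.1 (h.crit (J + 1) (Nat.le_succ J) (J * v) ⟨by positivity, le_rfl⟩)).1
    rw [← lo_zero] at cr
    have η1 : η ≤ 1 / 2 := hη.trans (min_le_left _ _)
    have η2 : η ≤ d / (32 * b0) := hη.trans (min_le_right _ _)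
    have g1 : 1 / (2 * b0) ≤ GG (lo z v 0 (J + 1)) (J * v) := by
      rw [div_le_iff₀ (by positivity)]; linarith
    have e1 : 1 / (2 * b0) = 16 * (1 / (32 * b0)) := by field_simp; ring
    have e2 : 1 / (16 * b0) = 2 * (1 / (32 * b0)) := by field_simp; ring
    have e3 : d / (32 * b0) = d * (1 / (32 * b0)) := by ring
    have p : 0 < 1 / (32 * b0) := by positivity
    rw [e1] at g1
    rw [e2] at d1
    rw [e3] at η2
    have m1 : -(GG (lo z v 0 (J + 1)) (J * v) / 2) + K * d + 2 * (1 / (32 * b0) + C * d) ≤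
        -(4 * (1 / (32 * b0))) := by linarith
    have m2 := mul_le_mul_of_nonneg_left m1 d0.le
    have m3 : 0 < d * (1 / (32 * b0)) := by positivity
    simp only [Nat.succ_eq_add_one] at os
    nlinarith
  refine ⟨J1, key, ?_⟩
  unfold dm
  rw [Nat.sub_add_cancel J1, h.lab.top J le_rfl]
  exact key

end

end Crest.Agent.T156.Pr
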