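import Crest.Agent.T156.AltP1_3
import Crest.Agent.T156.Atom_48
import Crest.Agent.T156.AltFam_88

/-!
Row 156 (helper3): the slope `G' = N - 2 z A` of the reference lists (`Cl.gpp`), and the
bi-Lipschitz bounds of their tilt functions.
-/

set_option autoImplicit false

noncomputable section

namespace Crest.Agent.T156.Alt

open MeasureTheory Real Set Filter Topology
open Crest.Agent.R339.B Crest.Agent.R339.Var Crest.Agent.T157.Pf
open Crest.Agent.T156.Pp Crest.Agent.T156.Pr Crest.Agent.T156.Pr.Fam3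

namespace PP3

section pr

variable {b0 c C η v Y L : ℝ} {J : ℕ} {z om : ℕ → ℝ}

/-- Landau on the base -/
theorem gp_base (b0 c C : ℝ) (hb : 1 ≤ b0) (hC : 1 ≤ C) : ∃ K : ℝ, 1 ≤ K ∧
    ∀ (η v : ℝ) (J : ℕ) (z : ℕ → ℝ), Base b0 c C η v J z → √η + v ≤ c / 2 →
    ∀ t, 0 ≤ t → t < J * v → |Pr.NN (lo z v 0 J) t - 2 * lvr 1 (lo z v 0 J) t * Pr.AA (lo z v 0 J) t| ≤
      K * (√η + v) := by
  obtain ⟨K, hK1, hK⟩ := Atom48.NN_lip b0
  obtain ⟨C0, -, hO⟩ := Ode3.odeS b0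
  refine ⟨K + 4 * C + 32, by linarith, fun η v J z h hη t t0 t1 => ?_⟩
  obtain ⟨ok, hTT, -⟩ := Sharp81.base_area h le_rfl
  have hT' : TT (lo z v 0 J) ≤ b0 := hTT.le.trans h.hi
  have v0 := h.v_pos
  have η0 := h.eta_nn
  have s0 := Real.sqrt_nonneg η
  have ss : √η * √η = η := Real.mul_self_sqrt η0
  obtain ⟨⟨-, cG, -⟩, hd, -, hbd⟩ := hO _ ok hT'
  have hN := hK _ ok hT'
  have e2 := fun r (r0 : 0 ≤ r) (r1 : r < J * v) =>
    Sharp81.lvr_lip h (by linarith) le_rfl r0 r1 t0 t1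
  have osc := fun s t hs ht => Sharp81.GG_osc h hb le_rfl (s := s) (t := t) hs ht
  generalize lo z v 0 J = l at *
  obtain ⟨u, hu⟩ : ∃ u, u = √η + v := ⟨_, rfl⟩
  rw [← hu] at hη ⊢
  have u0 : 0 < u := by linarith
  obtain ⟨a, a0, a1, a2, a3⟩ : ∃ a : ℝ, 0 ≤ a ∧ a + u ≤ J * v ∧ t - u ≤ a ∧ a ≤ t := by
    rcases le_or_gt (t + u) (J * v) with q | q
    · exact ⟨t, t0, q, by linarith, le_rfl⟩
    · exact ⟨t - u, by linarith [h.lo], by linarith, le_rfl, by linarith⟩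
  have m := Sharp81.mvt_lin (f := Pr.GG l) (f' := fun r => Pr.NN l r - 2 * lvr 1 l r * Pr.AA l r) (a := a)
    (u := u) (g := Pr.NN l t - 2 * lvr 1 l t * Pr.AA l t) (E := (K + 4 * C + 30) * u) u0.le
    (cG.mono (Icc_subset_Icc a0 (a1.trans hTT.ge)))
    (fun r hr => (hd r (a0.trans hr.1) (by linarith [hr.2])).2.1) (fun r hr => by
      have r0 : 0 ≤ r := a0.trans hr.1
      have r1 : r < J * v := hr.2.trans_le a1
      have r3 : |r - t| ≤ u := abs_le.2 ⟨by linarith [hr.1], by linarith [hr.2]⟩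
      have n1 : |Pr.NN l r - Pr.NN l t| ≤ K * u := by
        have := abs_le.1 r3
        rcases le_total r t with q | q
        · rw [abs_sub_comm]
          exact (hN r t r0 q (by linarith)).trans
            (mul_le_mul_of_nonneg_left (by linarith) (by linarith))
        · exact (hN t r t0 q (by linarith)).trans
            (mul_le_mul_of_nonneg_left (by linarith) (by linarith))
      obtain ⟨-, -, -, -, -, A0, A1, -, -, -, -, -, hA⟩ := hbd r ⟨r0, by linarith⟩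
      have n2 : |(lvr 1 l r - lvr 1 l t) * Pr.AA l r| ≤ 2 * C * u := by
        rw [abs_mul, abs_of_nonneg A0]
        refine (mul_le_of_le_one_right (abs_nonneg _) A1).trans ((e2 r r0 r1).trans ?_)
        have := mul_le_mul_of_nonneg_left (show |r - t| + v ≤ 2 * u by linarith)
          (show 0 ≤ C by linarith)
        linarith
      have n3 : |lvr 1 l t * (Pr.AA l r - Pr.AA l t)| ≤ 15 * u := by
        rw [abs_mul, abs_of_pos (Ode3.lvr_pos ok.1 t)]
        refine (mul_le_of_le_one_left (abs_nonneg _) (Ode3.lvr_le_one ok.1 t)).trans ?_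
        linarith [(hA t ⟨t0, by linarith⟩).1]
      have n1' := abs_le.1 n1
      have n2' := abs_le.1 n2
      have n3' := abs_le.1 n3
      rw [abs_le]; constructor <;> linarith)
  have o := abs_le.1 (osc a (a + u) ⟨a0, by linarith⟩ ⟨by linarith, a1⟩)
  have m' := abs_le.1 m
  have w : η ≤ u * u := by
    rw [← ss]; exact mul_le_mul (by linarith) (by linarith) s0 u0.le
  rw [abs_le]
  constructor
  · refine le_of_mul_le_mul_right ?_ u0
    linarith [m'.1, m'.2, o.1, o.2]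
  · refine le_of_mul_le_mul_right ?_ u0
    linarith [m'.1, m'.2, o.1, o.2]

/-- displaced mass -/
theorem DD_sq (h : Base b0 c C η v J z) (hC : 0 ≤ C) (ho : Om v Y L om) (hY : 0 ≤ Y)
    (hJ : Y ≤ J * v) : ∀ N : ℕ, DD z N 0 om ≤ C * (L * Y) * min (N * v) Y
  | 0 => by simp [DD, hY]
  | N + 1 => by
    have ih := DD_sq h hC ho hY hJ N
    have hv := h.v_pos
    have hL := ho.L_nn hv
    unfold DD at ih ⊢
    rw [Finset.sum_range_succ, Pi.zero_apply, sub_zero, abs_of_nonneg (ho.nn _)]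
    have k0 : 0 ≤ C * (L * Y) := by positivity
    rcases le_or_gt Y (((N + 1 : ℕ) : ℝ) * v) with a | a
    · rw [ho.supp _ a, mul_zero, add_zero, min_eq_right a]
      exact ih.trans (mul_le_mul_of_nonneg_left (min_le_right _ _) k0)
    · have b : N + 1 < J := by
        have := lt_of_mul_lt_mul_right (a.trans_le hJ) hv.le
        exact_mod_cast this
      have d := mul_le_mul (h.slo N b).2 (ho.leY hv hY (N + 1)) (ho.nn _) (by positivity)
      rw [min_eq_left a.le]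
      have e := mul_le_mul_of_nonneg_left (min_le_left ((N : ℝ) * v) Y) k0
      push_cast
      linarith

/-- the cell of a time -/
theorem cell_om (h : Base b0 c C η v J z) (ho : Om v Y L om) (hL : L ≤ 1 / 2) (hJ : Y ≤ J * v)
    {t : ℝ} (t0 : 0 ≤ t) (t1 : t < J * v) : ∃ j < J, sig v om j ≤ t ∧ t < sig v om (j + 1) ∧
      ∀ M : ℕ, lvr 1 (lo z v om (J + M)) t = z j := by
  obtain ⟨j, hj, a, b⟩ := exists_cell (s := sig v om) (t := t) (by rw [ho.sig0]; exact t0) J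
    (by rw [ho.sig_eq hJ]; exact t1)
  refine ⟨j, hj, a, b, fun M => ?_⟩
  obtain ⟨⟨-, -, e, -⟩, -⟩ := areaS z (sig v om) (J + M) (h.lab.up (Nat.le_add_right _ _)) ho.sig0
    (ho.sm h.v_pos hL)
  exact e j t a b

theorem sig_inc (ho : Om v Y L om) (hv : 0 < v) (hL : L ≤ 1 / 2) (j : ℕ) : ∀ d : ℕ,
    v * d / 2 ≤ sig v om (j + d) - sig v om j ∧ sig v om (j + d) - sig v om j ≤ 3 / 2 * (v * d)
  | 0 => by simp
  | d + 1 => by
    obtain ⟨a, b⟩ := sig_inc ho hv hL j d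
    have e := abs_le.1 (ho.lip (j + d))
    have f := mul_le_mul_of_nonneg_right hL hv.le
    unfold sig at *
    rw [← add_assoc]
    push_cast at *
    constructor <;> linarith

/-- bi-Lipschitz tilt function -/
theorem lip_om (h : Base b0 c C η v J z) (hc : 0 ≤ c) (hC : 0 ≤ C) (ho : Om v Y L om)
    (hL : L ≤ 1 / 2) (hJ : Y ≤ J * v) (M : ℕ) {t t' : ℝ} (t0 : 0 ≤ t) (tt : t ≤ t')
    (t1 : t' < J * v) :
    c * (2 / 3 * (t' - t) - v) ≤ lvr 1 (lo z v om (J + M)) t' - lvr 1 (lo z v om (J + M)) t ∧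
      lvr 1 (lo z v om (J + M)) t' - lvr 1 (lo z v om (J + M)) t ≤ C * (2 * (t' - t) + v) := by
  have hv := h.v_pos
  obtain ⟨j, -, a, b, e⟩ := cell_om h ho hL hJ t0 (tt.trans_lt t1)
  obtain ⟨j', hj', a', b', e'⟩ := cell_om h ho hL hJ (t0.trans tt) t1
  rw [e, e']
  have jj : j ≤ j' := Nat.lt_succ_iff.1 ((ho.sm hv hL).lt_iff_lt.1 ((a.trans tt).trans_lt b'))
  obtain ⟨d, rfl⟩ := Nat.exists_eq_add_of_le jj
  obtain ⟨p, q⟩ := Sharp81.lab_lip h d hj'
  have r := (sig_inc ho hv hL j (d + 1)).2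
  rw [← add_assoc] at r
  push_cast at r
  have s : v * d ≤ 2 * (t' - t) + v := by
    rcases d with _ | d
    · simp only [Nat.cast_zero, mul_zero]; linarith
    · have := (sig_inc ho hv hL (j + 1) d).1
      rw [show j + 1 + d = j + (d + 1) by ring] at this
      push_cast
      linarith
  constructor
  · have := mul_le_mul_of_nonneg_left (show 2 / 3 * (t' - t) - v ≤ v * d by linarith) hc
    linarith
  · have := mul_le_mul_of_nonneg_left s hC
    linarith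

theorem lv0_om (h : Base b0 c C η v J z) (hc : 0 < c) (ho : Om v Y L om) (hL : L ≤ 1 / 2)
    (hJ : Y ≤ J * v) (M : ℕ) : lvr 1 (lo z v om (J + M)) 0 = z 0 := by
  obtain ⟨j, -, a, -, e⟩ := cell_om h ho hL hJ le_rfl (hc.trans_le h.lo)
  rw [← ho.sig0] at a
  rw [e, Nat.le_zero.1 ((ho.sm h.v_pos hL).le_iff_le.1 a)]

/-- the tilt functions of the base and of the displaced list -/
theorem lvr_om (h : Base b0 c C η v J z) (hC : 0 ≤ C) (ho : Om v Y L om) (hL : L ≤ 1 / 2)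
    (hJ : Y ≤ J * v) {t : ℝ} (t0 : 0 ≤ t) (t1 : t < J * v) :
    |lvr 1 (lo z v om J) t - lvr 1 (lo z v 0 J) t| ≤ C * (2 * L * t + v) := by
  have hv := h.v_pos
  obtain ⟨j, hj, a, b, e⟩ := cell_om h ho hL hJ t0 t1
  obtain ⟨-, -, f⟩ := Sharp81.base_area h le_rfl
  obtain ⟨i, hi, a', b', e'⟩ := f t t0 t1
  have e0 := e 0
  rw [add_zero] at e0
  rw [e0, e']
  refine (Sharp81.lab_abs h hj hi).trans (mul_le_mul_of_nonneg_left ?_ hC)
  have p1 := ho.le j
  have p2 := ho.sig_ge hv hL j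
  have p3 := mul_le_mul_of_nonneg_left (show (j : ℝ) * v ≤ 2 * t by linarith) (ho.L_nn hv)
  have p4 := ho.sig_le (j + 1)
  have p5 : 0 ≤ L * t := mul_nonneg (ho.L_nn hv) t0
  unfold sig at a
  push_cast at p4
  rw [abs_le]; constructor <;> linarith

theorem ext_NN {s : ℕ → ℝ} (hz : Lab z J) (hs : StrictMono s) (ho : Ok (lst z s J)) (M : ℕ) {t : ℝ}
    (ht : t ≤ TT (lst z s J)) : Pr.NN (lst z s (J + M)) t = Pr.NN (lst z s J) t := by
  unfold Pr.NN; rw [ext_Dk hz hs ho, ext_Et hz hs ho M ht]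

theorem ext_AA {s : ℕ → ℝ} (hz : Lab z J) (hs : StrictMono s) (ho : Ok (lst z s J)) (M : ℕ) {t : ℝ}
    (ht : t ≤ TT (lst z s J)) : Pr.AA (lst z s (J + M)) t = Pr.AA (lst z s J) t := by
  unfold Pr.AA; rw [ext_Dk hz hs ho, ext_Et hz hs ho M ht]

theorem ext_GG {s : ℕ → ℝ} (hz : Lab z J) (hs : StrictMono s) (ho : Ok (lst z s J)) (M : ℕ) {t : ℝ}
    (ht : t ≤ TT (lst z s J)) : Pr.GG (lst z s (J + M)) t = Pr.GG (lst z s J) t := by
  unfold Pr.GG; rw [ext_Dk hz hs ho, ext_Et hz hs ho M ht]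

/-- **the slope of `G` on a displaced list** -/
theorem gp_om (b0 c C : ℝ) (hb : 1 ≤ b0) (hC : 1 ≤ C) : ∃ K : ℝ, 1 ≤ K ∧
    ∀ (η v : ℝ) (J : ℕ) (z : ℕ → ℝ), Base b0 c C η v J z → √η + v ≤ c / 2 → η ≤ 1 →
    ∀ (M : ℕ) (om : ℕ → ℝ) (Y L : ℝ), Om v Y L om → 0 ≤ Y → Y ≤ 1 → Y ≤ J * v → L ≤ 1 / 2 →
    ∀ t, 0 ≤ t → t < J * v →
      |Pr.NN (lo z v om (J + M)) t - 2 * lvr 1 (lo z v om (J + M)) t * Pr.AA (lo z v om (J + M)) t| ≤
        K * (√η + v + L * min t (Y ^ 2 / t)) := by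
  obtain ⟨K, hK1, hK⟩ := gp_base b0 c C hb hC
  obtain ⟨Q, hQ1, hQ⟩ := Ode3.lipFS_of Ker.lip1S b0
  obtain ⟨R, hR⟩ : ∃ R, R = Q * C * C * (b0 * b0) := ⟨_, rfl⟩
  have b2 : b0 ≤ b0 * b0 := le_mul_of_one_le_left (by linarith) hb
  have qc : 1 ≤ Q * C := one_le_mul_of_one_le_of_one_le hQ1 hC
  have r1 : Q * C * (b0 * b0) ≤ R := by
    rw [hR]; exact mul_le_mul_of_nonneg_right (le_mul_of_one_le_right (by linarith) hC) (by linarith)
  have r2 : Q * C * C ≤ R := by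
    rw [hR]; exact le_mul_of_one_le_right (by positivity) (by linarith)
  have r3 : Q * C * b0 ≤ R := (mul_le_mul_of_nonneg_left b2 (by linarith)).trans r1
  have r4 : Q * C ≤ R := (le_mul_of_one_le_right (by linarith) hb).trans r3
  refine ⟨K + 4 * C + 3 * R, by linarith, fun η v J z h hη η1 M om Y L ho Y0 Y1 YJ hL t t0 t1 => ?_⟩
  have hv := h.v_pos
  have L0 := ho.L_nn hv
  have η0 := h.eta_nn
  have s0 := Real.sqrt_nonneg η
  have ηs : η ≤ √η := by
    have := mul_le_mul_of_nonneg_left (Real.sqrt_le_one.2 η1) s0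
    rwa [Real.mul_self_sqrt η0, mul_one] at this
  obtain ⟨ok, tt⟩ := lo_ok areaS h.lab ho hv hL YJ
  obtain ⟨ok0, tt0, -⟩ := Sharp81.base_area h le_rfl
  have x1 : Pr.NN (lo z v om (J + M)) t = Pr.NN (lo z v om J) t :=
    ext_NN h.lab (ho.sm hv hL) ok M (t1.le.trans tt.ge)
  have x2 : Pr.AA (lo z v om (J + M)) t = Pr.AA (lo z v om J) t :=
    ext_AA h.lab (ho.sm hv hL) ok M (t1.le.trans tt.ge)
  have x3 : lvr 1 (lo z v om (J + M)) t = lvr 1 (lo z v om J) t := by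
    obtain ⟨j, -, -, -, e⟩ := cell_om h ho hL YJ t0 t1
    rw [e M]; exact (e 0).symm
  rw [x1, x2, x3]
  have o0 : Om v Y L 0 := om_zero v Y ho.Lv
  have dd : dist1 (lo z v 0 J) (lo z v om J) ≤ C * (L * Y ^ 2) := by
    obtain ⟨-, e⟩ := areaS z (sig v 0) J h.lab o0.sig0 (o0.sm hv hL)
    refine (e (sig v om) ho.sig0 (ho.sm hv hL) (by rw [ho.sig_eq YJ, o0.sig_eq YJ])).1.trans ?_
    have a := (DD_sq h (by linarith) ho Y0 YJ J).trans
      (mul_le_mul_of_nonneg_left (min_le_right _ _) (by positivity))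
    refine le_trans (le_of_eq ?_) (a.trans_eq (by ring))
    unfold DD sig
    refine Finset.sum_congr rfl fun j _ => ?_
    rw [← abs_neg]; congr 2; ring
  obtain ⟨-, -, dA, dN, -⟩ := hQ _ _ ok0 ok (tt.trans tt0.symm) (tt0.le.trans h.hi) t
    ⟨t0, t1.le.trans tt0.ge⟩
  have dA' := dA.trans (mul_le_mul_of_nonneg_left dd (by linarith))
  have dN' := dN.trans (mul_le_mul_of_nonneg_left dd (by positivity))
  have g0 := hK η v J z h hη t t0 t1
  have hA0 : 0 ≤ Pr.AA (lo z v om J) t := Ode3.Am_nonneg ok.1 t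
  have hA1 : Pr.AA (lo z v om J) t ≤ 1 := Ode3.Am_le_one ok.1 t
  have z0 := Ode3.lvr_pos ok0.1 t
  have z1 := Ode3.lvr_le_one ok0.1 t
  have z2 := Sharp81.lvr_lin h (by linarith) le_rfl t0 t1
  have z3 := lvr_om h (by linarith) ho hL YJ t0 t1
  have z4 := fun hY : Y ≤ t => lvr_eq (N := J) areaS h.lab o0 ho hv hL Y0 hY
  have tb : t ≤ b0 := t1.le.trans h.hi
  clear dA dN dd hQ hK x1 x2 x3 tt tt0 ok ok0
  generalize Pr.NN (lo z v om J) t = N1 at *
  generalize Pr.NN (lo z v 0 J) t = N0 at *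
  generalize Pr.AA (lo z v om J) t = A1 at *
  generalize Pr.AA (lo z v 0 J) t = A0 at *
  generalize lvr 1 (lo z v om J) t = x1 at *
  generalize lvr 1 (lo z v 0 J) t = x0 at *
  have Y2 : Y ^ 2 ≤ 1 := pow_le_one₀ Y0 Y1
  have n2 : |(x1 - x0) * A1| ≤ |x1 - x0| := by
    rw [abs_mul, abs_of_nonneg hA0]; exact mul_le_of_le_one_right (abs_nonneg _) hA1
  have n3 : |x0 * (A1 - A0)| ≤ x0 * (Q * (C * (L * Y ^ 2))) := by
    rw [abs_mul, abs_of_pos z0]; exact mul_le_mul_of_nonneg_left dA' z0.le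
  have key : |N1 - 2 * x1 * A1| ≤ K * (√η + v) + Q * t * (C * (L * Y ^ 2)) + 2 * |x1 - x0| +
      2 * (x0 * (Q * (C * (L * Y ^ 2)))) := by
    have a1 := abs_le.1 n2
    have a2 := abs_le.1 n3
    have a3 := abs_le.1 g0
    have a4 := abs_le.1 dN'
    rw [abs_le]; constructor <;> linarith
  refine key.trans ?_
  have R0 : 0 ≤ R := by linarith
  rcases le_total t Y with q | q
  · have e : min t (Y ^ 2 / t) = t := by
      rcases t0.eq_or_lt with a | a
      · rw [← a]; simp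
      · exact min_eq_left ((le_div_iff₀ a).2 (by nlinarith))
    rw [e]
    have Lt : 0 ≤ L * t := mul_nonneg L0 t0
    have LY : L * Y ^ 2 ≤ L := mul_le_of_le_one_right L0 Y2
    have a1 : Q * t * (C * (L * Y ^ 2)) ≤ R * (L * t) := by
      have := mul_le_mul_of_nonneg_left LY (show 0 ≤ Q * C * t by positivity)
      have := mul_le_mul_of_nonneg_right r4 Lt
      linarith
    have a2 : x0 * (Q * (C * (L * Y ^ 2))) ≤ R * (L * t) + R * √η := by
      have b1 := mul_le_mul z2 LY (by positivity) (by positivity)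
      have b2 := mul_le_mul_of_nonneg_left b1 (show 0 ≤ Q * C by positivity)
      have b3 := mul_le_mul_of_nonneg_right r2 Lt
      have b4 : η * L ≤ √η := (mul_le_of_le_one_right η0 (by linarith)).trans ηs
      have b5 := mul_le_mul r4 b4 (by positivity) R0
      linarith
    have a3 : 0 ≤ K * (L * t) := by positivity
    have a4 : 0 ≤ C * √η := by positivity
    have a5 : 0 ≤ R * √η := by positivity
    have a6 : 0 ≤ C * v := by positivity
    have a7 : 0 ≤ R * v := by positivity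
    linarith
  · rw [z4 q, sub_self, abs_zero]
    have e : min t (Y ^ 2 / t) = Y ^ 2 / t := by
      rcases t0.eq_or_lt with a | a
      · rw [← a]; simp
      · exact min_eq_right ((div_le_iff₀ a).2 (by nlinarith))
    have f : Y ^ 2 = t * (Y ^ 2 / t) := by
      rcases t0.eq_or_lt with a | a
      · rw [le_antisymm (q.trans a.ge) Y0]; simp
      · field_simp
    have m0 : 0 ≤ Y ^ 2 / t := by positivity
    rw [e]
    generalize Y ^ 2 / t = m at *
    have Lm : 0 ≤ L * m := mul_nonneg L0 m0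
    rw [f]
    have a1 : Q * t * (C * (L * (t * m))) ≤ R * (L * m) := by
      have b1 := mul_le_mul_of_nonneg_left (mul_le_mul tb tb t0 (by linarith))
        (show 0 ≤ Q * C by positivity)
      have := mul_le_mul_of_nonneg_right (b1.trans r1) Lm
      linarith
    have a2 : x0 * (Q * (C * (L * (t * m)))) ≤ R * (L * m) := by
      refine (mul_le_of_le_one_left (by positivity) z1).trans ?_
      have b1 := mul_le_mul_of_nonneg_left tb (show 0 ≤ Q * C by positivity)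
      have := mul_le_mul_of_nonneg_right (b1.trans r3) Lm
      linarith
    have a3 : 0 ≤ K * (L * m) := by positivity
    have a4 : 0 ≤ C * (√η + v + L * m) := by positivity
    have a5 : 0 ≤ R * (√η + v) := by positivity
    linarith

theorem lvr_om' (h : Base b0 c C η v J z) (hC : 0 ≤ C) (ho : Om v Y L om) (hL : L ≤ 1 / 2)
    (hJ : Y ≤ J * v) {t ω : ℝ} (t0 : 0 ≤ t) (t1 : t < J * v)
    (hω : ∀ j, sig v om j ≤ t → t < sig v om (j + 1) → om j ≤ ω) :
    |lvr 1 (lo z v om J) t - lvr 1 (lo z v 0 J) t| ≤ C * (ω + v) := by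
  have hv := h.v_pos
  obtain ⟨j, hj, a, b, e⟩ := cell_om h ho hL hJ t0 t1
  obtain ⟨-, -, f⟩ := Sharp81.base_area h le_rfl
  obtain ⟨i, hi, a', b', e'⟩ := f t t0 t1
  have e0 := e 0
  rw [add_zero] at e0
  rw [e0, e']
  refine (Sharp81.lab_abs h hj hi).trans (mul_le_mul_of_nonneg_left ?_ hC)
  have p1 := hω j a b
  have p2 := ho.nn j
  have p4 := ho.sig_le (j + 1)
  unfold sig at a
  push_cast at p4
  rw [abs_le]; constructor <;> linarith

/-- **general form**: `ω` bounds the displacement of the cell of `t` (graded families) -/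
theorem gp_gen (b0 c C : ℝ) (hb : 1 ≤ b0) (hC : 1 ≤ C) : ∃ K : ℝ, 1 ≤ K ∧
    ∀ (η v : ℝ) (J : ℕ) (z : ℕ → ℝ), Base b0 c C η v J z → √η + v ≤ c / 2 → η ≤ 1 →
    ∀ (M : ℕ) (om : ℕ → ℝ) (Y L : ℝ), Om v Y L om → 0 ≤ Y → Y ≤ 1 → Y ≤ J * v → L ≤ 1 / 2 →
    ∀ t ω, 0 ≤ t → t < J * v → (∀ j, sig v om j ≤ t → t < sig v om (j + 1) → om j ≤ ω) →
      |Pr.NN (lo z v om (J + M)) t -
        2 * lvr 1 (lo z v om (J + M)) t * Pr.AA (lo z v om (J + M)) t| ≤
        K * (√η + v + t * DD z J 0 om + ω) := by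
  obtain ⟨K, hK1, hK⟩ := gp_base b0 c C hb hC
  obtain ⟨Q, hQ1, hQ⟩ := Ode3.lipFS_of Ker.lip1S b0
  have qc : Q ≤ Q * C := le_mul_of_one_le_right (by linarith) hC
  refine ⟨K + 2 * C + 3 * (Q * C), by linarith,
    fun η v J z h hη η1 M om Y L ho Y0 Y1 YJ hL t ω t0 t1 hω => ?_⟩
  have hv := h.v_pos
  have L0 := ho.L_nn hv
  have η0 := h.eta_nn
  have s0 := Real.sqrt_nonneg η
  have ηs : η ≤ √η := by
    have := mul_le_mul_of_nonneg_left (Real.sqrt_le_one.2 η1) s0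
    rwa [Real.mul_self_sqrt η0, mul_one] at this
  obtain ⟨ok, tt⟩ := lo_ok areaS h.lab ho hv hL YJ
  obtain ⟨ok0, tt0, -⟩ := Sharp81.base_area h le_rfl
  have x1 : Pr.NN (lo z v om (J + M)) t = Pr.NN (lo z v om J) t :=
    ext_NN h.lab (ho.sm hv hL) ok M (t1.le.trans tt.ge)
  have x2 : Pr.AA (lo z v om (J + M)) t = Pr.AA (lo z v om J) t :=
    ext_AA h.lab (ho.sm hv hL) ok M (t1.le.trans tt.ge)
  obtain ⟨j, -, ja, jb, e⟩ := cell_om h ho hL YJ t0 t1
  have x3 : lvr 1 (lo z v om (J + M)) t = lvr 1 (lo z v om J) t := by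
    rw [e M]; exact (e 0).symm
  have ω0 : 0 ≤ ω := (ho.nn j).trans (hω j ja jb)
  rw [x1, x2, x3]
  have o0 : Om v Y L 0 := om_zero v Y ho.Lv
  have dd : dist1 (lo z v 0 J) (lo z v om J) ≤ DD z J 0 om := by
    obtain ⟨-, e⟩ := areaS z (sig v 0) J h.lab o0.sig0 (o0.sm hv hL)
    refine (e (sig v om) ho.sig0 (ho.sm hv hL) (by rw [ho.sig_eq YJ, o0.sig_eq YJ])).1.trans ?_
    refine le_of_eq ?_
    unfold DD sig
    refine Finset.sum_congr rfl fun j _ => ?_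
    rw [← abs_neg]; congr 2; ring
  have D0 := DD_nn h.lab 0 om
  have D1 : DD z J 0 om ≤ 1 :=
    (DD_le h.lab ho hv Y0).trans (mul_le_one₀ (by linarith) Y0 Y1)
  obtain ⟨-, -, dA, dN, -⟩ := hQ _ _ ok0 ok (tt.trans tt0.symm) (tt0.le.trans h.hi) t
    ⟨t0, t1.le.trans tt0.ge⟩
  have dA' := dA.trans (mul_le_mul_of_nonneg_left dd (by linarith))
  have dN' := dN.trans (mul_le_mul_of_nonneg_left dd (by positivity))
  have g0 := hK η v J z h hη t t0 t1
  have hA0 : 0 ≤ Pr.AA (lo z v om J) t := Ode3.Am_nonneg ok.1 t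
  have hA1 : Pr.AA (lo z v om J) t ≤ 1 := Ode3.Am_le_one ok.1 t
  have z0 := Ode3.lvr_pos ok0.1 t
  have z2 := Sharp81.lvr_lin h (by linarith) le_rfl t0 t1
  have z3 := lvr_om' h (by linarith) ho hL YJ t0 t1 hω
  clear dA dN dd hQ hK x1 x2 x3 tt tt0 ok ok0 e
  generalize Pr.NN (lo z v om J) t = N1 at *
  generalize Pr.NN (lo z v 0 J) t = N0 at *
  generalize Pr.AA (lo z v om J) t = A1 at *
  generalize Pr.AA (lo z v 0 J) t = A0 at *
  generalize lvr 1 (lo z v om J) t = x1 at *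
  generalize lvr 1 (lo z v 0 J) t = x0 at *
  generalize DD z J 0 om = D at *
  have n2 : |(x1 - x0) * A1| ≤ C * (ω + v) := by
    rw [abs_mul, abs_of_nonneg hA0]; exact (mul_le_of_le_one_right (abs_nonneg _) hA1).trans z3
  have n3 : |x0 * (A1 - A0)| ≤ (C * t + η) * (Q * D) := by
    rw [abs_mul, abs_of_pos z0]; exact mul_le_mul z2 dA' (abs_nonneg _) (by positivity)
  have tD : 0 ≤ t * D := mul_nonneg t0 D0
  have b1 := mul_le_mul qc ((mul_le_of_le_one_right η0 D1).trans ηs) (by positivity) (by positivity)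
  have b2 := mul_le_mul_of_nonneg_right qc tD
  have a1 := abs_le.1 n2
  have a2 := abs_le.1 n3
  have a3 := abs_le.1 g0
  have a4 := abs_le.1 dN'
  have c1 : 0 ≤ K * (t * D + ω) := by positivity
  have c2 : 0 ≤ C * (√η + t * D) := by positivity
  have c3 : 0 ≤ Q * C * √η := by positivity
  have c4 : 0 ≤ Q * C * (v + ω) := by positivity
  rw [abs_le]; constructor <;> linarith

end pr

/-- numerics: `√v ≤ μ0`, the first mark lies below `r` -/
theorem ev_sqv (β c0 C0 : ℝ) {A : ℕ} (hA : 2 ≤ A) {c : ℝ} (hc : 0 < c) (hc' : c ≤ 1 / 200) :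
    ∀ᶠ n : ℕ in atTop, All β c0 C0 A c n fun p => √p.v ≤ p.μ0 ∧ p.jf * p.v ≤ p.r := by
  have e1 := ((tendsto_rpow_atTop (show (0:ℝ) < 1 / 2 by norm_num)).comp
    tendsto_natCast_atTop_atTop).eventually_ge_atTop (β ^ 2)
  have e2 := ((tendsto_rpow_atTop (show (0:ℝ) < c / 7 - c / 13 by linarith)).comp
    tendsto_natCast_atTop_atTop).eventually_ge_atTop 2
  filter_upwards [e1, e2, eventually_ge_atTop 1] with n h1 h2 h6
  intro p hβ hn hA' hc'' hp
  simp only [Function.comp] at h1 h2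
  have n1 : (1:ℝ) ≤ n := by exact_mod_cast h6
  have n0 : (0:ℝ) < n := by linarith
  have mono : ∀ {a b : ℝ}, a ≤ b → (n:ℝ) ^ a ≤ (n:ℝ) ^ b := fun h => rpow_le_rpow_of_exponent_le n1 h
  have hv := hp.base.v_pos
  have v1 : p.v ≤ (n:ℝ) ^ (-(3:ℝ) / 2) := by
    unfold Pm.v
    rw [hn, hA', hβ, div_le_iff₀ (by positivity)]
    refine h1.trans ?_
    refine le_trans ?_ (mul_le_mul_of_nonneg_left (pow_le_pow_right₀ n1 hA) (by positivity))
    rw [← rpow_natCast, ← rpow_add n0]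
    exact mono (by norm_num)
  constructor
  · unfold Pm.μ0
    rw [hn, hc'']
    refine Real.sqrt_le_iff.2 ⟨by positivity, v1.trans ?_⟩
    rw [← rpow_natCast, ← rpow_mul n0.le]
    exact mono (by push_cast; linarith)
  · have a : (p.jf : ℝ) ≤ p.s * (p.n : ℝ) ^ (p.c / 13 - 1 / 6) / p.v + 1 :=
      (Nat.ceil_lt_add_one (div_nonneg (mul_nonneg (by linarith [hp.s1])
        (rpow_nonneg (Nat.cast_nonneg _) _)) hv.le)).le
    have b := mul_le_mul_of_nonneg_right a hv.le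
    rw [add_mul, div_mul_cancel₀ _ hv.ne', one_mul] at b
    unfold Pm.r
    rw [hn, hc''] at *
    have x0 : 0 < (n:ℝ) ^ (c / 13 - 1 / 6) := rpow_pos_of_pos n0 _
    have e : (n:ℝ) ^ (c / 7 - 1 / 6) = (n:ℝ) ^ (c / 7 - c / 13) * (n:ℝ) ^ (c / 13 - 1 / 6) := by
      rw [← rpow_add n0]; congr 1; ring
    have f : p.v ≤ p.s * (n:ℝ) ^ (c / 13 - 1 / 6) :=
      (v1.trans (mono (by linarith))).trans (le_mul_of_one_le_left x0.le hp.s1)
    have g := mul_le_mul_of_nonneg_right h2 (mul_nonneg (show 0 ≤ p.s by linarith [hp.s1]) x0.le)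
    rw [e]
    linarith

/-- `τ κ min (t, y² / t) ≤ ms t / max t s₀` for `s₀ ≤ r ≤ y` -/
theorem min_le_ms (p : Pm) {τ y t s0 : ℝ} (hl : 0 ≤ τ * p.κ) (r0 : 0 < p.r) (ry : p.r ≤ y)
    (t0 : 0 ≤ t) (hs : s0 ≤ p.r) (hm : 0 < max t s0) :
    τ * p.κ * min t (y ^ 2 / t) ≤ p.ms τ y t / max t s0 := by
  unfold Pm.ms
  rw [mul_div_assoc]
  refine mul_le_mul_of_nonneg_left ((le_div_iff₀ hm).2 ?_) hl
  rcases le_total t p.r with a | a
  · refine le_trans ?_ (pow_le_pow_left₀ r0.le (le_max_left _ _) 2)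
    rw [sq p.r]
    exact mul_le_mul ((min_le_left _ _).trans a) (max_le a hs) hm.le r0.le
  · rw [max_eq_left (hs.trans a)]
    have tp : 0 < t := r0.trans_le a
    rcases le_total t y with b | b
    · rw [min_eq_left b, max_eq_right a, sq t]
      exact mul_le_mul_of_nonneg_right (min_le_left _ _) t0
    · rw [min_eq_right b, max_eq_right ry]
      exact (le_div_iff₀ tp).1 (min_le_right _ _)

end PP3

open PP3

/-- slope of `G`, tilt function and atom of the reference lists, for ANY displacement -/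
def GpO (C : ℝ) (p : Pm) : Prop :=
  (√p.v ≤ p.μ0 ∧ p.jf * p.v ≤ p.r ∧ 1 ≤ p.J ∧ 1 / C ≤ p.xs ∧ p.xs ≤ 1 - 1 / C ∧
    2 * p.ye ≤ p.J * p.v) ∧
  ∀ (M : ℕ) (om : ℕ → ℝ) (Y L : ℝ), Om p.v Y L om → 0 ≤ Y → Y ≤ 2 * p.ye → L ≤ 1 / 2 →
    lvr 1 (lo p.z p.v om (p.J + M)) 0 ≤ C * p.v ∧ DD p.z p.J 0 om ≤ C * (L * Y ^ 2) ∧
    (∀ t t', 0 ≤ t → t ≤ t' → t' < p.J * p.v → (t' - t) / C - C * p.v ≤
      lvr 1 (lo p.z p.v om (p.J + M)) t' - lvr 1 (lo p.z p.v om (p.J + M)) t ∧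
      lvr 1 (lo p.z p.v om (p.J + M)) t' - lvr 1 (lo p.z p.v om (p.J + M)) t ≤
        C * (t' - t + p.v)) ∧
    ∀ t, 0 ≤ t → t < p.J * p.v →
      |Pr.NN (lo p.z p.v om (p.J + M)) t -
        2 * lvr 1 (lo p.z p.v om (p.J + M)) t * Pr.AA (lo p.z p.v om (p.J + M)) t| ≤
        C * (√p.v + L * min t (Y ^ 2 / t)) ∧
      ∀ ω, (∀ j, sig p.v om j ≤ t → t < sig p.v om (j + 1) → om j ≤ ω) →
        |Pr.NN (lo p.z p.v om (p.J + M)) t -
          2 * lvr 1 (lo p.z p.v om (p.J + M)) t * Pr.AA (lo p.z p.v om (p.J + M)) t| ≤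
          C * (√p.v + t * DD p.z p.J 0 om + ω)

theorem gpO (β : ℝ) (hβ : 1 < β) : Cst β GpO := by
  intro c0 C0 hc0 hC0
  have hb : 1 ≤ β ^ 2 := one_le_pow₀ hβ.le
  obtain ⟨K, hK1, hK⟩ := gp_om (β ^ 2) c0 C0 hb hC0
  obtain ⟨K', hK1', hK'⟩ := gp_gen (β ^ 2) c0 C0 hb hC0
  obtain ⟨c2, η0, hc2, hη0, hA⟩ := Pr.atomS (β ^ 2) c0 C0 hb hc0 hC0
  obtain ⟨C, hC⟩ : ∃ C, C = (K + K') * (C0 + 1) + 2 * C0 + c0 + 2 / c0 + 2 / c0 ^ 2 + 1 / c2 :=
    ⟨_, rfl⟩
  have q1 : 0 < 2 / c0 := by positivity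
  have q2 : 0 < 2 / c0 ^ 2 := by positivity
  have q3 : 0 < 1 / c2 := by positivity
  have q4 : 0 ≤ K * (C0 + 1) := by positivity
  have q5 : 0 ≤ K' * (C0 + 1) := by positivity
  have C1 : 1 ≤ C := by linarith
  have Cp : 0 < C := by linarith
  obtain ⟨δ, hδ, hd⟩ := exists_del
    ![1 / 8, η0, c0 / 4, (c0 / 4) ^ 2, 1, 1, 1] (by intro i; fin_cases i <;> simp <;> positivity)
  have d0 : δ ≤ 1 / 8 := hd 0
  have d1 : δ ≤ η0 := hd 1
  have d2 : δ ≤ c0 / 4 := hd 2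
  have d3 : δ ≤ (c0 / 4) ^ 2 := hd 3
  clear hd
  refine ⟨C, C1, fun A hA2 c hc hc' => ?_⟩
  filter_upwards [ev_small β c0 C0 hA2 hc hc' hδ, ev_sqv β c0 C0 hA2 hc hc'] with n hS hq p hβ' hn
    hA' hc'' hp
  have S := hS p hβ' hn hA' hc'' hp
  obtain ⟨q6, q7⟩ := hq p hβ' hn hA' hc'' hp
  clear hS hq
  subst hβ'
  have hB := hp.base
  have hv := hB.v_pos
  have η0' := hB.eta_nn
  have ηv : C0 / (p.n : ℝ) ^ p.A + p.v ≤ δ := S.ηv.trans (mul_le_of_le_one_right hδ.le S.μ1)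
  have s1 : √(C0 / (p.n : ℝ) ^ p.A) ≤ c0 / 4 := Real.sqrt_le_iff.2 ⟨by positivity, by linarith⟩
  have sv := Real.sqrt_nonneg p.v
  have s2 : √(C0 / (p.n : ℝ) ^ p.A) ≤ C0 * √p.v := by
    refine Real.sqrt_le_iff.2 ⟨by positivity, ?_⟩
    rw [mul_pow, Real.sq_sqrt hv.le]
    unfold Pm.v
    rw [← mul_div_assoc]
    refine div_le_div_of_nonneg_right ?_ (by positivity)
    have := mul_le_mul (show C0 ≤ C0 ^ 2 by nlinarith) hb zero_le_one (by positivity)
    linarith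
  have s3 : p.v ≤ √p.v := by
    have := mul_le_mul_of_nonneg_left (Real.sqrt_le_one.2 (show p.v ≤ 1 by linarith)) sv
    rwa [Real.mul_self_sqrt hv.le, mul_one] at this
  obtain ⟨J1, at1, -⟩ := hA _ _ _ _ hB (by linarith)
  have ye := S.ye
  have lo' := hB.lo
  refine ⟨⟨q6, q7, J1, ?_, ?_, by linarith⟩, fun M om Y L ho Y0 Y1 hL => ?_⟩
  · have a := (z_bds hB (p.J - 1) (by omega)).1
    rw [Nat.cast_sub J1] at a
    have b := mul_le_mul_of_nonneg_left (show c0 / 2 ≤ ((p.J : ℝ) - (1 : ℕ)) * p.v by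
      push_cast; linarith) hc0.le
    refine le_trans ?_ (b.trans a)
    rw [div_le_iff₀ Cp]
    have := mul_le_mul_of_nonneg_left (show 2 / c0 ^ 2 ≤ C by linarith)
      (show 0 ≤ c0 * (c0 / 2) by positivity)
    rwa [show c0 * (c0 / 2) * (2 / c0 ^ 2) = 1 by field_simp] at this
  · have : 1 / C ≤ c2 := by
      rw [div_le_iff₀ Cp]
      have := mul_le_mul_of_nonneg_left (show 1 / c2 ≤ C by linarith) hc2.le
      rwa [mul_one_div_cancel hc2.ne'] at this
    unfold Pm.xs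
    linarith
  have YJ : Y ≤ p.J * p.v := by linarith
  have L0 := ho.L_nn hv
  have key : ∀ k x : ℝ, 1 ≤ k → k * (C0 + 1) ≤ C → 0 ≤ x →
      k * (√(C0 / (p.n : ℝ) ^ p.A) + p.v + x) ≤ C * (√p.v + x) := fun k x k1 k2 x0 => by
    refine le_trans ?_ (mul_le_mul_of_nonneg_right k2 (by positivity))
    rw [mul_assoc]
    refine mul_le_mul_of_nonneg_left ?_ (by linarith)
    have : 0 ≤ C0 * x := by positivity
    linarith
  refine ⟨?_, ?_, fun t t' t0 tt t1 => ?_, fun t t0 t1 => ⟨?_, fun ω hω => ?_⟩⟩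
  · rw [lv0_om hB hc0 ho hL YJ]
    exact hB.z0.trans (mul_le_mul_of_nonneg_right (by linarith) hv.le)
  · refine ((DD_sq hB (by linarith) ho Y0 YJ p.J).trans
      (mul_le_mul_of_nonneg_left (min_le_right _ _) (by positivity))).trans ?_
    have := mul_le_mul_of_nonneg_right (show C0 ≤ C by linarith) (show 0 ≤ L * Y ^ 2 by positivity)
    linarith
  · obtain ⟨a, b⟩ := lip_om hB hc0.le (by linarith) ho hL YJ M t0 tt t1
    constructor
    · have e : (t' - t) / C ≤ c0 * (2 / 3) * (t' - t) := dv (by linarith) Cp (by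
        have := mul_le_mul_of_nonneg_left (show 2 / c0 ≤ C by linarith)
          (show 0 ≤ c0 * (2 / 3) by positivity)
        rw [show c0 * (2 / 3) * (2 / c0) = 4 / 3 by field_simp; norm_num] at this
        linarith)
      have := mul_le_mul_of_nonneg_right (show c0 ≤ C by linarith) hv.le
      linarith
    · have := mul_le_mul_of_nonneg_right (show 2 * C0 ≤ C by linarith)
        (show 0 ≤ t' - t + p.v by linarith)
      have : 0 ≤ C0 * p.v := by positivity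
      linarith
  · exact (hK _ _ _ _ hB (by linarith) (by linarith) M om Y L ho Y0 (by linarith) YJ hL t t0
      t1).trans (key K _ hK1 (by linarith) (mul_nonneg L0 (le_min t0 (by positivity))))
  · refine (hK' _ _ _ _ hB (by linarith) (by linarith) M om Y L ho Y0 (by linarith) YJ hL t ω t0
      t1 hω).trans ?_
    obtain ⟨j, -, ja, jb, -⟩ := cell_om hB ho hL YJ t0 t1
    have := key K' (t * DD p.z p.J 0 om + ω) hK1' (by linarith)
      (add_nonneg (mul_nonneg t0 (DD_nn hB.lab _ _)) ((ho.nn j).trans (hω j ja jb)))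
    linarith

/-- **(gpp)** for `p.l τ y`: 37's form and the form of `Cl.gpp` -/
def Gp (C : ℝ) (p : Pm) : Prop := ∀ τ y, 0 ≤ τ → τ ≤ 1 → 0 < y → y ≤ p.ye →
  Om p.v (2 * y) (4 * (τ * p.κ)) (p.om τ y) ∧ ∀ t, 0 ≤ t → t < p.J * p.v →
    |Pr.NN (p.l τ y) t - 2 * lvr 1 (p.l τ y) t * Pr.AA (p.l τ y) t| ≤
      C * (√p.v + τ * p.κ * min t (y ^ 2 / t)) ∧
    (p.Mem τ y → ∀ s0, 0 < s0 → s0 ≤ p.r →
      |Pr.NN (p.l τ y) t - 2 * lvr 1 (p.l τ y) t * Pr.AA (p.l τ y) t| ≤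
        C * (p.ms τ y t / max t s0))

theorem gp (β : ℝ) (hβ : 1 < β) : Cst β Gp := by
  intro c0 C0 hc0 hC0
  have hb : 1 ≤ β ^ 2 := one_le_pow₀ hβ.le
  obtain ⟨K, hK1, hK⟩ := gpO β hβ c0 C0 hc0 hC0
  have K2 : K ≤ K * β ^ 2 := le_mul_of_one_le_right (by linarith) hb
  refine ⟨16 * K + K * β ^ 2, by linarith, fun A hA2 c hc hc' => ?_⟩
  filter_upwards [ev_small β c0 C0 hA2 hc hc' (show (0:ℝ) < 1 / 8 by norm_num), hK A hA2 c hc hc']
    with n hS hq p hβ' hn hA' hc'' hp τ y τ0 τ1 y0 y1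
  have S := hS p hβ' hn hA' hc'' hp
  obtain ⟨⟨q6, -⟩, H⟩ := hq p hβ' hn hA' hc'' hp
  clear hS hq
  subst hβ'
  have hv := hp.base.v_pos
  have k0 : 0 < p.κ := rpow_pos_of_pos (by linarith [S.n1]) _
  have l0 : 0 ≤ τ * p.κ := mul_nonneg τ0 k0.le
  have l1 : τ * p.κ ≤ p.κ := mul_le_of_le_one_left k0.le τ1
  have ho : Om p.v (2 * y) (4 * (τ * p.κ)) (p.om τ y) := (wA_sh l0 y0).om hv
  refine ⟨ho, fun t t0 t1 => ?_⟩
  have h1 := ((H p.Nr _ _ _ ho (by linarith) (by linarith) (by linarith [S.κ])).2.2.2 t t0 t1).1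
  change |Pr.NN (p.l τ y) t - 2 * lvr 1 (p.l τ y) t * Pr.AA (p.l τ y) t| ≤ _ at h1
  have m0 : 0 ≤ min t (y ^ 2 / t) := le_min t0 (by positivity)
  have m1 : min t ((2 * y) ^ 2 / t) ≤ 4 * min t (y ^ 2 / t) := by
    rcases le_total t (y ^ 2 / t) with a | a
    · rw [min_eq_left a]; linarith [min_le_left t ((2 * y) ^ 2 / t)]
    · rw [min_eq_right a]
      exact (min_le_right _ _).trans_eq (by ring)
  have m2 := mul_le_mul_of_nonneg_left m1 (show 0 ≤ K * (4 * (τ * p.κ)) by positivity)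
  have sv := Real.sqrt_nonneg p.v
  have x0 : 0 ≤ τ * p.κ * min t (y ^ 2 / t) := mul_nonneg l0 m0
  have h2 : |Pr.NN (p.l τ y) t - 2 * lvr 1 (p.l τ y) t * Pr.AA (p.l τ y) t| ≤
      K * √p.v + 16 * K * (τ * p.κ * min t (y ^ 2 / t)) := by linarith
  refine ⟨h2.trans ?_, fun hm s0 s1 s2 => h2.trans ?_⟩
  · have : 0 ≤ K * √p.v := by positivity
    have : 0 ≤ K * p.β ^ 2 * (√p.v + τ * p.κ * min t (y ^ 2 / t)) := by positivity
    linarith
  · obtain ⟨-, r0, -, -, -, ry, -, me⟩ := mem_facts S hp.s1 hm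
    have hm0 : 0 < max t s0 := lt_max_of_lt_right s1
    have a := mul_le_mul_of_nonneg_left (min_le_ms p l0 r0 ry t0 s2 hm0)
      (show 0 ≤ 16 * K by linarith)
    have b : √p.v ≤ p.β ^ 2 * (p.ms τ y t / max t s0) := by
      have e : p.eps τ ≤ p.ms τ y t :=
        mul_le_mul_of_nonneg_left (pow_le_pow_left₀ r0.le (le_max_left _ _) 2) l0
      rw [← mul_div_assoc, le_div_iff₀ hm0, mul_comm]
      exact mul_le_mul (max_le (t1.le.trans hp.base.hi) (by linarith [S.r])) ((q6.trans me).trans e)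
        sv (by positivity)
    have := mul_le_mul_of_nonneg_left b (show 0 ≤ K by linarith)
    linarith

end Crest.Agent.T156.Alt

end
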