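import Crest.Agent.T156.Top_31
import Crest.Agent.T156.PlatS_10
import Crest.Agent.T156.PCmp_3

/-!
Row 156, stage C (helper41): spreading the top atom over a time `g` is a perturbation of size `g`.
-/

set_option autoImplicit false

namespace Crest.Agent.T156.Pr.Spr41

open MeasureTheory Set
open Crest.Agent.R164.GC Crest.Agent.R339.B Crest.Agent.R339.Var Crest.Agent.T157.Pf
open Crest.Agent.T156.Pp Crest.Agent.T156.Ker Crest.Agent.T156.Pp.Ode3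

noncomputable section

variable {l l2 : List (ℝ × ℝ)} {T g : ℝ}

/-- `l2` has the tilts of `l` before `T`; both have tilt `1` from `T + g` on -/
structure Spr (T g : ℝ) (l l2 : List (ℝ × ℝ)) : Prop where
  t0 : 0 ≤ T
  g0 : 0 ≤ g
  tp : Tp (T + g) l
  tp2 : Tp (T + g) l2
  eq : ∀ s, 0 < s → s < T → lvr 1 l2 s = lvr 1 l s

theorem Spr.symm (h : Spr T g l l2) : Spr T g l2 l :=
  ⟨h.t0, h.g0, h.tp2, h.tp, fun s a b => (h.eq s a b).symm⟩

theorem Nf_le_len (h : Adm 1 l) (h2 : Adm 1 l2) {a b : ℝ} (hab : a ≤ b) : Nf l l2 a b ≤ b - a := by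
  have := intervalIntegral.integral_mono_on hab (et_ii l l2 a b)
    (intervalIntegrable_const (c := (1:ℝ))) fun s _ => Sc48.lvr_sub_le h h2 s
  simpa [Nf, et] using this

theorem Spr.Nf_le (h : Spr T g l l2) {a b : ℝ} (ha : 0 ≤ a) (_hab : a ≤ b) (hb : b ≤ T + g) :
    Nf l l2 a b ≤ g := by
  have e1 := Nf_add l l2 0 a b
  have e2 := Nf_add l l2 0 b (T + g)
  have e3 := Nf_add l l2 0 T (T + g)
  have e4 := Nf_zero h.t0 h.eq
  have e5 := Nf_le_len h.tp.adm h.tp2.adm (show T ≤ T + g by linarith [h.g0])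
  have := Nf_nonneg l l2 ha
  have := Nf_nonneg l l2 hb
  linarith

theorem Spr.Wf_le (h : Spr T g l l2) {t : ℝ} (ht : 0 ≤ t) (ht' : t ≤ T + g) :
    Wf l l2 t ≤ t * g := by
  have : Wf l l2 t ≤ t * Nf l l2 0 t := by
    rw [Nf, ← intervalIntegral.integral_const_mul]
    exact intervalIntegral.integral_mono_on ht (wet_ii l l2 0 t) ((et_ii l l2 0 t).const_mul t)
      fun s hs => mul_le_mul_of_nonneg_right hs.2 (abs_nonneg _)
  exact this.trans (mul_le_mul_of_nonneg_left (h.Nf_le le_rfl ht ht') ht)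

/-- the size of the perturbation -/
structure Near (C g : ℝ) (l l2 : List (ℝ × ℝ)) : Prop where
  dk : ∀ t, 0 ≤ t → ∀ j ≤ 6, ∀ x, |Dk j l2 t x - Dk j l t x| ≤ C * g
  chi : |Pr.chi l2 - Pr.chi l| ≤ C * g
  k4 : |Pr.k4 l2 - Pr.k4 l| ≤ C * g
  gam : ∀ t, 0 ≤ t → t ≤ TT l → t ≤ TT l2 → |Pr.Gam l2 t - Pr.Gam l t| ≤ C * min t 1 * g
  gg : ∀ t, 0 ≤ t → t ≤ TT l → t ≤ TT l2 → |Pr.GG l2 t - Pr.GG l t| ≤ C * g
  aa : ∀ t, 0 ≤ t → t ≤ TT l → t ≤ TT l2 → |Pr.AA l2 t - Pr.AA l t| ≤ C * g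
  nn : ∀ t, 0 ≤ t → t ≤ TT l → t ≤ TT l2 → |Pr.NN l2 t - Pr.NN l t| ≤ C * min t 1 * g
  n4 : ∀ t, 0 ≤ t → t ≤ TT l → t ≤ TT l2 → |Pr.N4 l2 t - Pr.N4 l t| ≤ C * g
  bb : ∀ t, 0 ≤ t → t ≤ TT l → t ≤ TT l2 → |Pr.BB l2 t - Pr.BB l t| ≤ C * min t 1 * g

/-- **the spread is a perturbation of size `g`**, uniformly in the length of the reveal -/
theorem near (T0 : ℝ) : ∃ C : ℝ, 1 ≤ C ∧ ∀ T g l l2, Spr T g l l2 → T + g ≤ T0 →
    Near C g l l2 := by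
  obtain ⟨C1, h1, H1⟩ := Dn_lip' T0 6
  obtain ⟨C2, h2, H2⟩ := fun_lip' T0
  refine ⟨C1 + C2 * (2 * (1 + |T0|)), by nlinarith [abs_nonneg T0], fun T g l l2 h hT => ?_⟩
  have g0 := h.g0
  have t1 : 0 ≤ T + g := h.tp.mem.1
  have a0 : T0 ≤ |T0| := le_abs_self _
  have c2 : 0 ≤ C2 * (2 * (1 + |T0|)) := by positivity
  have hd : ∀ t, 0 ≤ t → ∀ j ≤ 6, ∀ x,
      |Dk j l2 t x - Dk j l t x| ≤ (C1 + C2 * (2 * (1 + |T0|))) * g := fun t ht j hj x => by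
    have := H1 _ l l2 h.tp h.tp2 hT t ht j hj x
    have e := h.Nf_le (le_min ht t1) (min_le_right t _) le_rfl
    have := mul_le_mul_of_nonneg_left e (by linarith : 0 ≤ C1)
    unfold Dk
    nlinarith [mul_nonneg c2 g0]
  have key : ∀ t, 0 ≤ t → t ≤ TT l → t ≤ TT l2 → ∃ W N, 0 ≤ W ∧ 0 ≤ N ∧
      W = Wf l l2 (min t (T + g)) ∧ N = Nf l l2 (min t (T + g)) (T + g) ∧
      C2 * (W + t * N) ≤ (C1 + C2 * (2 * (1 + |T0|))) * min t 1 * g ∧
      C2 * (W + N) ≤ (C1 + C2 * (2 * (1 + |T0|))) * g := fun t ht _ _ => by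
    have m0 : 0 ≤ min t (T + g) := le_min ht t1
    have hW := h.Wf_le m0 (min_le_right _ _)
    have hN := h.Nf_le m0 (min_le_right _ _) le_rfl
    have W0 := Wf_nonneg l l2 m0
    have N0 := Nf_nonneg l l2 (min_le_right t (T + g))
    have hm : min t (T + g) ≤ (1 + |T0|) * min t 1 := by
      rcases le_total t 1 with a | a
      · rw [min_eq_left a]; nlinarith [min_le_left t (T + g), abs_nonneg T0]
      · rw [min_eq_right a]; nlinarith [min_le_right t (T + g)]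
    have hN' : t * Nf l l2 (min t (T + g)) (T + g) ≤ min t (T + g) * g := by
      rcases le_total t (T + g) with a | a
      · rw [min_eq_left a] at hN ⊢; exact mul_le_mul_of_nonneg_left hN ht
      · rw [min_eq_right a]; simp only [Nf, intervalIntegral.integral_same, mul_zero]; positivity
    have m1 : 0 ≤ min t 1 := le_min ht zero_le_one
    have m2 : min t 1 ≤ 1 := min_le_right _ _
    have e1 := mul_le_mul_of_nonneg_right hm g0
    have e2 : min t 1 * g ≤ g := mul_le_of_le_one_left g0 m2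
    have e3 : (1 + |T0|) * (min t 1 * g) ≤ (1 + |T0|) * g :=
      mul_le_mul_of_nonneg_left e2 (by positivity)
    have e4 : 0 ≤ C1 * (min t 1 * g) := by positivity
    refine ⟨_, _, W0, N0, rfl, rfl, ?_, ?_⟩
    · have := mul_le_mul_of_nonneg_left (show Wf l l2 (min t (T + g)) +
        t * Nf l l2 (min t (T + g)) (T + g) ≤ 2 * (1 + |T0|) * (min t 1 * g) by nlinarith)
        (by linarith : 0 ≤ C2)
      nlinarith
    · have := mul_le_mul_of_nonneg_left (show Wf l l2 (min t (T + g)) +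
        Nf l l2 (min t (T + g)) (T + g) ≤ 2 * (1 + |T0|) * g by nlinarith [abs_nonneg T0])
        (by linarith : 0 ≤ C2)
      nlinarith
  refine ⟨hd, hd 0 le_rfl 1 (by norm_num) 0, hd 0 le_rfl 3 (by norm_num) 0, ?_, ?_, ?_, ?_, ?_, ?_⟩ <;>
  · intro t a b c
    obtain ⟨W, N, -, -, eW, eN, k1, k2⟩ := key t a b c
    obtain ⟨i1, i2, i3, i4, i5, i6⟩ := H2 _ l l2 h.tp h.tp2 hT t a b c W N eW eN
    linarith

/-! ### marks and replicon coefficient at a fixed `b` -/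

/-- `σ - b Γ` -/
def mk (b : ℝ) (l : List (ℝ × ℝ)) (t : ℝ) : ℝ := t - b * Pr.Gam l t
/-- `1 - b G` -/
def ec (b : ℝ) (l : List (ℝ × ℝ)) (t : ℝ) : ℝ := 1 - b * Pr.GG l t

theorem ee_eq (l : List (ℝ × ℝ)) (eps t : ℝ) : ee l eps t = ec (Pr.bb l eps) l t := rfl

theorem Gam_inc (h : Ok l) {s t lo hi : ℝ} (hs : 0 ≤ s) (hst : s ≤ t) (ht : t ≤ TT l)
    (H : ∀ r ∈ Icc s t, lo ≤ Pr.GG l r ∧ Pr.GG l r ≤ hi) :
    lo * (t - s) ≤ Pr.Gam l t - Pr.Gam l s ∧ Pr.Gam l t - Pr.Gam l s ≤ hi * (t - s) := by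
  rw [Gam_eq, Gam_int (AP.of_ok h) hs hst ht]
  exact int_bds (Gp_cont (AP.of_ok h)) hs hst ht H

theorem mk_inc (h : Ok l) (b : ℝ) {s t lo hi : ℝ} (hs : 0 ≤ s) (hst : s ≤ t) (ht : t ≤ TT l)
    (H : ∀ r ∈ Icc s t, lo ≤ ec b l r ∧ ec b l r ≤ hi) :
    lo * (t - s) ≤ mk b l t - mk b l s ∧ mk b l t - mk b l s ≤ hi * (t - s) := by
  have hc : ContinuousOn (ec b l) (Icc 0 (TT l)) :=
    continuousOn_const.sub (continuousOn_const.mul (Gp_cont (AP.of_ok h)))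
  have e : ∫ r in s..t, ec b l r = mk b l t - mk b l s := by
    have hi := ii_of_cont (Gp_cont (AP.of_ok h)) ⟨hs, hst.trans ht⟩ ⟨hs.trans hst, ht⟩
    have := Gam_int (AP.of_ok h) hs hst ht
    simp only [ec, mk, GG_eq, Gam_eq]
    rw [intervalIntegral.integral_sub intervalIntegrable_const (hi.const_mul b),
      intervalIntegral.integral_const_mul, ← this]
    simp only [intervalIntegral.integral_const, smul_eq_mul]
    ring
  rw [← e]
  exact int_bds hc hs hst ht H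

theorem ec_lip (h : Ok l) {b : ℝ} (hb : 0 ≤ b) {s t : ℝ} (hs : s ∈ Icc 0 (TT l))
    (ht : t ∈ Icc 0 (TT l)) : |ec b l t - ec b l s| ≤ 4 * b * |t - s| := by
  have := Gp_lip (AP.of_ok h) hs ht
  rw [show ec b l t - ec b l s = -(b * (Gp l t - Gp l s)) by simp only [ec, GG_eq]; ring, abs_neg,
    abs_mul, abs_of_nonneg hb]
  nlinarith [mul_le_mul_of_nonneg_left this hb]

theorem ec_le_one (l : List (ℝ × ℝ)) {b : ℝ} (hb : 0 ≤ b) (t : ℝ) : ec b l t ≤ 1 := by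
  have := mul_nonneg hb (Gp_nonneg l t)
  simp only [ec, GG_eq]; linarith

theorem ec_top (h : Ok l) {b : ℝ} (hb : 0 ≤ b) {T1 t : ℝ} (tp : Tp T1 l) (h1 : T1 ≤ t)
    (ht : t ≤ TT l) : 1 - Real.exp (-((t - T1) / 2)) * (1 - ec b l T1) ≤ ec b l t := by
  have := mul_le_mul_of_nonneg_left (platS l h T1 t tp.mem.1 h1 ht tp.top).1 hb
  simp only [ec]; linarith

variable {C b : ℝ}

theorem Near.ec (h : Near C g l l2) (hb : 0 ≤ b) {t : ℝ} (h0 : 0 ≤ t) (h1 : t ≤ TT l)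
    (h2 : t ≤ TT l2) : |Spr41.ec b l2 t - Spr41.ec b l t| ≤ b * (C * g) := by
  rw [show Spr41.ec b l2 t - Spr41.ec b l t = -(b * (Pr.GG l2 t - Pr.GG l t)) by
    simp only [Spr41.ec]; ring, abs_neg, abs_mul, abs_of_nonneg hb]
  exact mul_le_mul_of_nonneg_left (h.gg t h0 h1 h2) hb

theorem Near.mk' (h : Near C g l l2) (hb : 0 ≤ b) {t : ℝ} (h0 : 0 ≤ t) (h1 : t ≤ TT l)
    (h2 : t ≤ TT l2) : |Spr41.mk b l2 t - Spr41.mk b l t| ≤ b * (C * min t 1 * g) := by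
  rw [show Spr41.mk b l2 t - Spr41.mk b l t = -(b * (Pr.Gam l2 t - Pr.Gam l t)) by
    simp only [Spr41.mk]; ring, abs_neg, abs_mul, abs_of_nonneg hb]
  exact mul_le_mul_of_nonneg_left (h.gam t h0 h1 h2) hb

/-- on the spread `[T, T + g]` everything is within `O(g)` of its value at `T` -/
theorem Near.plat (h : Near C g l l2) (S : Spr T g l l2) (ok : Ok l2) (hb : 0 ≤ b) {t : ℝ}
    (h0 : T ≤ t) (h1 : t ≤ T + g) :
    |Spr41.ec b l2 t - Spr41.ec b l T| ≤ b * ((C + 4) * g) ∧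
    |Pr.GG l2 t - Pr.GG l T| ≤ (C + 4) * g ∧
    |Pr.Gam l2 t - Pr.Gam l T| ≤ C * min T 1 * g + (t - T) ∧
    |Spr41.mk b l2 t - Spr41.mk b l T| ≤ b * (C * min T 1 * g) + (1 + b) * (t - T) := by
  have T1 : T ≤ TT l := by linarith [S.tp.mem.2, S.g0]
  have T2 : T ≤ TT l2 := by linarith [S.tp2.mem.2, S.g0]
  have t2 : t ∈ Icc 0 (TT l2) := ⟨S.t0.trans h0, h1.trans S.tp2.mem.2⟩
  have a1 := Gp_lip (AP.of_ok ok) ⟨S.t0, T2⟩ t2
  have a2 := Gam_lip (AP.of_ok ok) ⟨S.t0, T2⟩ t2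
  rw [abs_of_nonneg (sub_nonneg.2 h0)] at a1 a2
  have a3 := h.gg T S.t0 T1 T2
  have a4 := h.gam T S.t0 T1 T2
  rw [GG_eq] at a3
  rw [Gam_eq] at a4
  have b1 : |Pr.GG l2 t - Pr.GG l T| ≤ (C + 4) * g := by
    rw [GG_eq]
    have := abs_sub_le (Gp l2 t) (Gp l2 T) (Gp l T)
    linarith
  have b2 : |Pr.Gam l2 t - Pr.Gam l T| ≤ C * min T 1 * g + (t - T) := by
    rw [Gam_eq]
    have := abs_sub_le (Ode3.Gam l2 t) (Ode3.Gam l2 T) (Ode3.Gam l T)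
    linarith
  refine ⟨?_, b1, b2, ?_⟩
  · rw [show Spr41.ec b l2 t - Spr41.ec b l T = -(b * (Pr.GG l2 t - Pr.GG l T)) by
      simp only [Spr41.ec]; ring, abs_neg, abs_mul, abs_of_nonneg hb]
    exact mul_le_mul_of_nonneg_left b1 hb
  · rw [show Spr41.mk b l2 t - Spr41.mk b l T = (t - T) - b * (Pr.Gam l2 t - Pr.Gam l T) by
      simp only [Spr41.mk]; ring]
    refine (abs_sub _ _).trans ?_
    rw [abs_mul, abs_of_nonneg hb, abs_of_nonneg (sub_nonneg.2 h0)]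
    nlinarith [mul_le_mul_of_nonneg_left b2 hb]

/-- above the spread -/
theorem Near.top (h : Near C g l l2) (S : Spr T g l l2) (ok : Ok l2) (hb : 0 ≤ b) {t : ℝ}
    (h0 : T + g ≤ t) (h1 : t ≤ TT l2) :
    1 - Real.exp (-((t - (T + g)) / 2)) * (1 - (Spr41.ec b l T - b * ((C + 4) * g))) ≤
      Spr41.ec b l2 t := by
  have a := ec_top ok hb S.tp2 h0 h1
  have c := (abs_le.1 (h.plat S ok hb (t := T + g) (by linarith [S.g0]) le_rfl).1).1
  have := mul_le_mul_of_nonneg_left (show 1 - Spr41.ec b l2 (T + g) ≤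
    1 - (Spr41.ec b l T - b * ((C + 4) * g)) by linarith) (Real.exp_pos (-((t - (T + g)) / 2))).le
  linarith

/-! ### lists given by labels and node times -/

theorem tp_lst {z s : ℕ → ℝ} {J N : ℕ} (hz : Lab z J) (hN : J ≤ N) (h0 : s 0 = 0)
    (hs : StrictMono s) {T1 : ℝ} (h1 : s J ≤ T1) (h2 : T1 ≤ s N) : Tp T1 (lst z s N) := by
  obtain ⟨⟨ok, tt, hl, ht, -⟩, -⟩ := areaS z s N (hz.up hN) h0 hs
  have s0 : 0 ≤ s J := h0 ▸ hs.monotone (Nat.zero_le J)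
  refine ⟨ok.1, ⟨s0.trans h1, tt ▸ h2⟩, fun t h => ?_⟩
  rcases lt_or_ge t (s N) with a | a
  · obtain ⟨j, -, b, c⟩ := exists_cell (s := s) (t := t) (by linarith) N a
    rw [hl j t b c]
    refine hz.top j (Nat.lt_succ_iff.1 (hs.lt_iff_lt.1 (by linarith)))
  · exact ht t a

/-- **instance**: same labels and times below the node `J`; the new list reaches the tilt `1` at
the node `J'`, before `s J + g` -/
theorem spr_lst {z z2 s s2 : ℕ → ℝ} {J J' N N2 : ℕ} (hz : Lab z J) (hz2 : Lab z2 J') (hN : J ≤ N)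
    (hN2 : J' ≤ N2) (h0 : s 0 = 0) (hs : StrictMono s) (hs2 : StrictMono s2)
    (ez : ∀ k < J, z2 k = z k) (es : ∀ k ≤ J, s2 k = s k) (hg : 0 ≤ g) (h1 : s2 J' ≤ s J + g)
    (h2 : s J + g ≤ s N) (h3 : s J + g ≤ s2 N2) :
    Spr (s J) g (lst z s N) (lst z2 s2 N2) ∧ Ok (lst z s N) ∧ Ok (lst z2 s2 N2) ∧
      TT (lst z s N) = s N ∧ TT (lst z2 s2 N2) = s2 N2 := by
  have h0' : s2 0 = 0 := (es 0 (Nat.zero_le J)).trans h0
  obtain ⟨⟨ok, tt, hl, -⟩, -⟩ := areaS z s N (hz.up hN) h0 hs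
  obtain ⟨⟨ok2, tt2, hl2, -⟩, -⟩ := areaS z2 s2 N2 (hz2.up hN2) h0' hs2
  refine ⟨⟨h0 ▸ hs.monotone (Nat.zero_le J), hg, tp_lst hz hN h0 hs (by linarith) h2,
    tp_lst hz2 hN2 h0' hs2 h1 h3, fun t a b => ?_⟩, ok, ok2, tt, tt2⟩
  obtain ⟨j, hj, c, d⟩ := exists_cell (s := s) (t := t) (by linarith) J b
  rw [hl j t c d, hl2 j t (by rwa [es j hj.le]) (by rwa [es _ hj]), ez j hj]

end

end Crest.Agent.T156.Pr.Spr41
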