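import Crest.Agent.T156.AltMemA_37

/-!
# Row 156, ALT route: membership of the concrete family in the class `Cl` (helper37)
-/

set_option autoImplicit false

noncomputable section

namespace Crest.Agent.T156.Alt

open Real Set Filter Topology
open Crest.Agent.R164.GC Crest.Agent.R339.B Crest.Agent.R339.Var Crest.Agent.T157.Pf
open Crest.Agent.T156.Pr.Spr41 (ec mk_inc Gam_inc)
open Mem37

/-- the scales of a member; the residual vanishes above the node `jl` -/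
def Pm.scl (p : Pm) (P : Pl) (om : ℕ → ℝ) (C : ℝ) (jl : ℕ) (ms den : ℝ → ℝ) (g2 u0 ue : ℝ) :
    Sc where
  C := C
  n := p.n
  A := p.A
  v := p.v
  amax := p.am
  ms := ms
  gr t := if t ≤ p.sO P om jl then C * ms (p.sO P om jl) * p.sO P om jl else 0
  g2 := g2
  den := den
  u0 := u0
  ue := ue
  j0 := jl
  jl := jl
  J := p.J
  Jp := p.Jp P

/-- the inputs of the membership -/
structure MemD (K c0 C0 η Y : ℝ) (p : Pm) (P : Pl) (om : ℕ → ℝ) (jl : ℕ) (b₁ be : ℝ)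
    (ms den : ℝ → ℝ) (g2 u0 ue : ℝ) : Prop where
  geo : Geo c0 C0 η Y p P om
  K1 : 1 ≤ K
  cK : 1 ≤ c0 * K
  CK : C0 ≤ K
  βK : p.β ^ 2 ≤ K
  β1 : 1 ≤ p.β ^ 2
  lg : 1 ≤ log p.n
  A1 : 1 ≤ p.A
  v1 : p.v ≤ 1
  g1 : P.γ ≤ 1
  card : (p.NP P : ℝ) ≤ (p.n : ℝ) ^ (p.A + 1)
  jf1 : 1 ≤ p.jf
  jfl : p.jf ≤ jl
  jlJ : jl + 1 < p.J
  am : 2 * p.am ≤ p.z jl
  zjl : p.z jl ≤ 1 / (16 * K ^ 2)
  msm : Monotone ms
  ms2 : ∀ t, 0 ≤ t → ms (2 * t) ≤ 4 * ms t
  ms0 : (p.n : ℝ) ^ (-(1 : ℝ)) ≤ ms 0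
  ms1 : ∀ t, ms t ≤ ms 1
  msθ : ms 1 * log p.n ≤ 1
  msK : K * ms 1 ≤ 1 / 2
  b0 : 1 ≤ b₁
  be0 : 0 ≤ be
  bK : b₁ + be ≤ K
  wm : be ≤ K * ms (p.sO P om jl)
  atom : 1 / K ≤ p.xs ∧ p.xs ≤ 1 - 1 / K
  crit : ∀ t ∈ Icc 0 (p.sO P om (p.Jp P)), ms t / K ≤ ec (b₁ + be) (p.lO P om) t ∧
    ec (b₁ + be) (p.lO P om) t ≤ K * ms t
  gpp : ∀ t, 0 ≤ t → t < p.J * p.v →
    |Pr.NN (p.lO P om) t - 2 * lvr 1 (p.lO P om) t * Pr.AA (p.lO P om) t| ≤
      K * (ms t / max t (p.sO P om jl))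
  z0 : ∀ x, x ≤ 1 / (2 * K) → P.rs x = 0 ∧ P.hs x = 0
  sl : ∀ k, jl < k → k < p.J → -(p.v / (8 * K)) ≤ P.rs (p.z k) - P.rs (p.z (k - 1)) ∧
    P.rs (p.z k) - P.rs (p.z (k - 1)) ≤ K * p.v ∧
    -(ms (p.sO P om k) * p.v / (4 * K)) ≤ P.hs (p.z k) - P.hs (p.z (k - 1))
  pc : ∀ i < P.I, p.v / K ≤ P.γ * (p.lsp P.γ (P.x (i + 1)) - p.lsp P.γ (P.x i)) +
      (P.rs (P.x (i + 1)) - P.rs (P.x i)) ∧
    P.γ * (p.lsp P.γ (P.x (i + 1)) - p.lsp P.γ (P.x i)) + (P.rs (P.x (i + 1)) - P.rs (P.x i)) ≤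
      K * p.v ∧
    0 ≤ P.rs (P.x (i + 1)) - P.rs (P.x i) ∧
    ms 1 / K * (P.rs (P.x (i + 1)) - P.rs (P.x i)) ≤ P.hs (P.x (i + 1)) - P.hs (P.x i)
  hN : P.hs (P.x P.I) ≤ K * p.A * log p.n
  Gtp : ∑ k ∈ Finset.Ioc jl (p.Jp P), (p.zP P k - p.zP P (k - 1)) * P.hs (p.xP P k) ^ 2 ≤ g2
  plat : ∀ i < P.I, p.v / K ≤ (P.x (i + 1) - P.x i) * den (P.x i) ∧
    (P.x (i + 1) - P.x i) * den (P.x i) ≤ K * p.v
  den0 : ∀ x, 0 < den x
  dens : ∀ x x', p.xs ≤ x → x ≤ x' → x' < 1 → x' - x ≤ min (x - p.xs + u0) (1 - x') →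
    den x ≤ K * den x' ∧ den x' ≤ K * den x
  last : 1 - P.x P.I ≤ ue

namespace MemD

variable {K c0 C0 η Y : ℝ} {p : Pm} {P : Pl} {om : ℕ → ℝ} {jl : ℕ} {b₁ be : ℝ}
  {ms den : ℝ → ℝ} {g2 u0 ue : ℝ} (h : MemD K c0 C0 η Y p P om jl b₁ be ms den g2 u0 ue)
include h

theorem K0 : 0 < K := by linarith [h.K1]
theorem n0 : (0 : ℝ) < p.n := by
  rcases (Nat.cast_nonneg (α := ℝ) p.n).eq_or_lt with e | e
  · have := h.lg; rw [← e, log_zero] at this; linarith
  · exact e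
theorem msp {t : ℝ} (ht : 0 ≤ t) : 0 < ms t :=
  ((rpow_pos_of_pos h.n0 _).trans_le h.ms0).trans_le (h.msm ht)
theorem KC : K ≤ 8 * K ^ 2 := by nlinarith [h.K1]
theorem iC : 1 / (8 * K ^ 2) ≤ 1 / K := one_div_le_one_div_of_le h.K0 h.KC
theorem i2 : 1 / (2 * (8 * K ^ 2)) ≤ 1 / (2 * K) :=
  one_div_le_one_div_of_le (by linarith [h.K0]) (by linarith [h.KC])
theorem zjl' : p.z jl ≤ 1 / (2 * K) := h.zjl.trans (by
  rw [show 16 * K ^ 2 = 2 * (8 * K ^ 2) by ring]; exact h.i2)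

theorem Nr_bd : 0 < p.Nr ∧ (p.Nr : ℝ) * p.v ≤ p.A * log p.n + p.v := by
  have v := h.geo.v0
  have A : (1 : ℝ) ≤ p.A := by exact_mod_cast h.A1
  have a : 0 < p.A * log p.n / p.v := div_pos (by nlinarith [h.lg]) v
  refine ⟨Nat.ceil_pos.2 a, ?_⟩
  have := mul_le_mul_of_nonneg_right (Nat.ceil_lt_add_one a.le).le v.le
  rwa [add_mul, div_mul_cancel₀ _ v.ne', one_mul] at this

/-- increments between two times below the top -/
theorem inc {s t : ℝ} (h0 : 0 ≤ s) (h1 : s ≤ t) (h2 : t ≤ p.sO P om (p.Jp P)) :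
    (ms s / K * (t - s) ≤ Pr.Spr41.mk (b₁ + be) (p.lO P om) t - Pr.Spr41.mk (b₁ + be) (p.lO P om) s ∧
      Pr.Spr41.mk (b₁ + be) (p.lO P om) t - Pr.Spr41.mk (b₁ + be) (p.lO P om) s ≤ K * ms t * (t - s)) ∧
    1 / (2 * K) * (t - s) ≤ Pr.Gam (p.lO P om) t - Pr.Gam (p.lO P om) s ∧
      Pr.Gam (p.lO P om) t - Pr.Gam (p.lO P om) s ≤ 1 * (t - s) := by
  have K0 := h.K0
  have T := h2.trans (h.geo.sP_le_tt (Nat.le_add_right _ _))
  refine ⟨mk_inc h.geo.ok _ h0 h1 T fun r hr => ?_, Gam_inc h.geo.ok h0 h1 T fun r hr => ?_⟩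
  · have := h.crit r ⟨h0.trans hr.1, hr.2.trans h2⟩
    exact ⟨(div_le_div_of_nonneg_right (h.msm hr.1) K0.le).trans this.1,
      this.2.trans (mul_le_mul_of_nonneg_left (h.msm hr.2) K0.le)⟩
  · have a := (h.crit r ⟨h0.trans hr.1, hr.2.trans h2⟩).2
    have b := mul_le_mul_of_nonneg_left (h.ms1 r) K0.le
    have c := mul_le_mul_of_nonneg_right h.bK (GG_nn (p.lO P om) r)
    refine ⟨?_, Pp.Ode3.Gp_le_one h.geo.ok.1 r⟩
    unfold ec at a
    rw [div_le_iff₀ (by positivity)]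
    linarith [h.msK]

theorem mk0 : Pr.Spr41.mk (b₁ + be) (p.lO P om) 0 = 0 := by
  unfold Pr.Spr41.mk; rw [Gam_zero h.geo.ok]; ring

/-- the low nodes -/
theorem low {k : ℕ} (hk : k ≤ jl) : 0 ≤ Pr.Spr41.mk (b₁ + be) (p.lO P om) (p.sO P om k) ∧
    Pr.Spr41.mk (b₁ + be) (p.lO P om) (p.sO P om k) ≤ K * ms (p.sO P om jl) * p.sO P om jl ∧
    0 ≤ be * p.qO P om k ∧ be * p.qO P om k ≤ K * ms (p.sO P om jl) * p.sO P om jl := by
  have K0 := h.K0
  have s0 := h.geo.sP_nn k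
  have s1 := h.geo.sP_mono hk
  obtain ⟨⟨a, b⟩, -, c⟩ := h.inc le_rfl s0
    (h.geo.sP_mono (hk.trans ((Nat.le_succ _).trans (h.jlJ.le.trans J_le))))
  rw [h.mk0, sub_zero, sub_zero] at a b
  rw [Gam_zero h.geo.ok, sub_zero, sub_zero, one_mul] at c
  have m := h.msp le_rfl
  have m' := h.msp (s0.trans s1)
  refine ⟨le_trans (by positivity) a, b.trans ?_, mul_nonneg h.be0 (Gam_nn _ _),
    mul_le_mul h.wm (c.trans s1) (Gam_nn _ _) (by positivity)⟩
  exact mul_le_mul (mul_le_mul_of_nonneg_left (h.msm s1) K0.le) s1 s0 (by positivity)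

omit h in
theorem H_hi {b : ℝ} {k : ℕ} (hk : p.jf < k) :
    p.HO P om b k = Pr.Spr41.mk b (p.lO P om) (p.sO P om k) + P.hs (p.xP P k) := by
  unfold Pm.HO; rw [if_neg (by omega)]; rfl

omit h in
theorem H_lo {b : ℝ} {k : ℕ} (hk : k ≤ p.jf) : p.HO P om b k = 0 := if_pos hk

theorem xP_sl {k : ℕ} (hk : k ≤ p.J) : p.xP P k = p.z (k - 1) := by
  have := h.geo.J0
  rw [xP_lo (hk.trans J_le), zP_lo (by omega)]

theorem low0 {k : ℕ} (hk : k ≤ jl + 1) : P.rs (p.xP P k) = 0 ∧ P.hs (p.xP P k) = 0 := by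
  rw [h.xP_sl (hk.trans h.jlJ.le)]
  exact h.z0 _ ((h.geo.base.lab.mono (by omega)).trans h.zjl')

/-- marks below `jl + 1` dominate -/
theorem H_step_low {k : ℕ} (h1 : p.jf ≤ k) (h2 : k ≤ jl) :
    Pr.Spr41.mk (b₁ + be) (p.lO P om) (p.sO P om (k + 1)) - Pr.Spr41.mk (b₁ + be) (p.lO P om) (p.sO P om k) ≤
      p.HO P om (b₁ + be) (k + 1) - p.HO P om (b₁ + be) k := by
  rw [H_hi (k := k + 1) (by omega), (h.low0 (k := k + 1) (by omega)).2]
  rcases h1.eq_or_lt with e | e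
  · rw [H_lo e.ge]; linarith [(h.low h2).1]
  · rw [H_hi e, (h.low0 (k := k) (by omega)).2]; linarith

theorem inc_sl {k : ℕ} (hk : k < p.J) :
    ms (p.sO P om k) * p.v / (2 * K) ≤
      Pr.Spr41.mk (b₁ + be) (p.lO P om) (p.sO P om (k + 1)) - Pr.Spr41.mk (b₁ + be) (p.lO P om) (p.sO P om k) ∧
    p.v / (4 * K) ≤ p.qO P om (k + 1) - p.qO P om k ∧
      p.qO P om (k + 1) - p.qO P om k ≤ 3 / 2 * p.v := by
  have K0 := h.K0
  obtain ⟨⟨a, -⟩, b, c⟩ := h.inc (h.geo.sP_nn k) (h.geo.sP_mono (Nat.le_succ k))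
    (h.geo.sP_mono (show k + 1 ≤ p.Jp P from hk.trans_le J_le))
  obtain ⟨d, e⟩ := h.geo.ds_lo hk
  have m := h.msp (h.geo.sP_nn k)
  refine ⟨le_trans ?_ a, le_trans ?_ b, c.trans (by linarith)⟩
  · refine le_trans (le_of_eq ?_) (mul_le_mul_of_nonneg_left d (by positivity))
    field_simp
  · refine le_trans (le_of_eq ?_) (mul_le_mul_of_nonneg_left d (by positivity))
    field_simp; norm_num

/-- floor of the marks -/
theorem flr {k : ℕ} (h1 : jl ≤ k) (h2 : k < p.Jp P) : ms (p.sO P om k) * p.v / (8 * K ^ 2) ≤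
    p.HO P om (b₁ + be) (k + 1) - p.HO P om (b₁ + be) k := by
  have K0 := h.K0
  have K1 := h.K1
  have v := h.geo.v0
  have m := h.msp (h.geo.sP_nn k)
  have jf := h.jfl
  rcases h.geo.cases k with a | ⟨i, a, rfl⟩ | a
  · have b := (h.inc_sl a).1
    have c : ms (p.sO P om k) * p.v / (8 * K ^ 2) ≤ ms (p.sO P om k) * p.v / (4 * K) :=
      div_le_div_of_nonneg_left (by positivity) (by positivity) (by nlinarith)
    have d : ms (p.sO P om k) * p.v / (2 * K) =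
        ms (p.sO P om k) * p.v / (4 * K) + ms (p.sO P om k) * p.v / (4 * K) := by
      field_simp; norm_num
    have d0 : 0 ≤ ms (p.sO P om k) * p.v / (4 * K) := by positivity
    rcases h1.eq_or_lt with e | e
    · have := h.H_step_low (k := k) (by omega) e.ge
      linarith
    · have := (h.sl k e a).2.2
      rw [H_hi (k := k + 1) (by omega), H_hi (k := k) (by omega), h.xP_sl (k := k + 1) a, h.xP_sl a.le,
        Nat.add_sub_cancel]
      linarith
  · have jJ := h.jlJ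
    obtain ⟨⟨b, -⟩, -⟩ := h.inc (h.geo.sP_nn (p.J + i)) (h.geo.sP_mono (Nat.le_succ _))
      (h.geo.sP_mono h2)
    obtain ⟨c1, -, c3, c4⟩ := h.pc i a
    rw [H_hi (k := p.J + i + 1) (by omega), H_hi (k := p.J + i) (by omega),
      show p.xP P (p.J + i + 1) = P.x (i + 1) from h.geo.xP_x a, h.geo.xP_x a.le]
    rw [show p.sO P om (p.J + i).succ - p.sO P om (p.J + i) = _ from h.geo.ds_mid a] at b
    have d := mul_le_mul_of_nonneg_right
      (div_le_div_of_nonneg_right (h.ms1 (p.sO P om (p.J + i))) K0.le) c3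
    have e := mul_le_mul_of_nonneg_left c1 (show 0 ≤ ms (p.sO P om (p.J + i)) / K by positivity)
    have f : ms (p.sO P om (p.J + i)) * p.v / (8 * K ^ 2) ≤
        ms (p.sO P om (p.J + i)) / K * (p.v / K) := by
      rw [div_mul_div_comm]
      exact div_le_div_of_nonneg_left (by positivity) (by positivity) (by nlinarith)
    have g : p.sO P om (p.J + i).succ = p.sO P om (p.J + i + 1) := rfl
    rw [g] at b
    nlinarith
  · omega

theorem H_mono : Monotone (p.HO P om (b₁ + be)) := by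
  have K0 := h.K0
  have v := h.geo.v0
  have jf := h.jfl
  have jJ := h.jlJ
  have JJ := J_le (p := p) (P := P)
  refine monotone_nat_of_le_succ fun k => ?_
  rcases lt_or_ge k p.jf with a | a
  · rw [H_lo a.le, H_lo a]
  rcases le_or_gt k jl with b | b
  · have c := (h.inc_sl (k := k) (by omega)).1
    have m := h.msp (h.geo.sP_nn k)
    have : 0 ≤ ms (p.sO P om k) * p.v / (2 * K) := by positivity
    linarith [h.H_step_low a b]
  rcases lt_or_ge k (p.Jp P) with c | c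
  · have m := h.msp (h.geo.sP_nn k)
    have : 0 ≤ ms (p.sO P om k) * p.v / (8 * K ^ 2) := by positivity
    linarith [h.flr b.le c]
  rw [H_hi (k := k + 1) (by omega), H_hi (k := k) (by omega), xP_hi c,
    xP_hi (c.trans (Nat.le_succ k))]
  have ds := h.geo.ds_hi c
  rcases lt_or_ge k (p.NP P) with d | d
  · have := (mk_inc h.geo.ok (b₁ + be) (lo := 0) (hi := 1) (h.geo.sP_nn k)
      (h.geo.sP_mono (Nat.le_succ k)) (h.geo.sP_le_tt d) fun r hr => ?_).1
    · linarith [show p.sO P om k.succ = p.sO P om (k + 1) from rfl]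
    · have T0 := h.geo.sP_nn (p.Jp P)
      have r1 := (h.geo.sP_mono c).trans hr.1
      have e1 := (Pr.platS _ h.geo.ok _ r T0 r1 (hr.2.trans (h.geo.sP_le_tt d)) h.geo.ref.2.2.2).1
      have e2 : exp (-((r - p.sO P om (p.Jp P)) / 2)) ≤ 1 := exp_le_one_iff.2 (by linarith)
      have e3 := mul_le_mul_of_nonneg_right e2 (GG_nn (p.lO P om) (p.sO P om (p.Jp P)))
      have e4 := (h.crit _ ⟨T0, le_rfl⟩).1
      have e5 : 0 ≤ ms (p.sO P om (p.Jp P)) / K := div_nonneg (h.msp T0).le K0.le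
      have b0 : 0 ≤ b₁ + be := by linarith [h.b0, h.be0]
      have e6 := mul_le_mul_of_nonneg_left (e1.trans e3) b0
      have e7 := mul_nonneg b0 (GG_nn (p.lO P om) r)
      unfold ec at e4 ⊢
      constructor <;> linarith
  · have t1 : TT (p.lO P om) ≤ p.sO P om k := h.geo.tt ▸ h.geo.sP_mono d
    unfold Pr.Spr41.mk
    rw [Gam_end h.geo.ok t1, Gam_end h.geo.ok (t := p.sO P om (k + 1)) (by linarith)]
    linarith

theorem xs0 : 0 ≤ p.xs := le_trans (div_nonneg zero_le_one h.K0.le) h.atom.1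

theorem sT : p.sO P om (p.Jp P) ≤ K + 1 := by
  rw [h.geo.sP_Jp]
  have a := mul_le_mul h.g1 (h.geo.lsp_mem le_rfl).2 (h.geo.lsp_mem le_rfl).1 zero_le_one
  linarith [h.geo.base.hi, h.βK]

theorem G_hi {k : ℕ} (hk : jl < k) : (p.famO P om jl b₁ be 0).G k = P.hs (p.xP P k) := by
  have jf := h.jfl
  show (if k ≤ jl then b₁ else b₁ + be) * p.qO P om k + (p.HO P om (b₁ + be) k + 0) -
    p.sO P om k = _
  rw [if_neg (by omega), H_hi (by omega)]
  unfold Pr.Spr41.mk Pm.qO; ring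

theorem G_lo {k : ℕ} (hk : k ≤ jl) : |(p.famO P om jl b₁ be 0).G k| ≤
    8 * K ^ 2 * ms (p.sO P om jl) * p.sO P om jl := by
  obtain ⟨a, b, c, d⟩ := h.low hk
  have e : 2 * (K * ms (p.sO P om jl) * p.sO P om jl) ≤
      8 * K ^ 2 * ms (p.sO P om jl) * p.sO P om jl := by
    have := mul_nonneg (h.msp (h.geo.sP_nn jl)).le (h.geo.sP_nn jl)
    nlinarith [mul_le_mul_of_nonneg_right (show 2 * K ≤ 8 * K ^ 2 by nlinarith [h.K1]) this]
  show |(if k ≤ jl then b₁ else b₁ + be) * p.qO P om k + (p.HO P om (b₁ + be) k + 0) -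
    p.sO P om k| ≤ _
  rw [if_pos hk, abs_le]
  have q : Pr.Spr41.mk (b₁ + be) (p.lO P om) (p.sO P om k) = p.sO P om k - (b₁ + be) * p.qO P om k := rfl
  rcases le_or_gt k p.jf with f | f
  · rw [H_lo f]; constructor <;> linarith
  · rw [H_hi f, (h.low0 (k := k) (by omega)).2]; constructor <;> linarith

/-- ceiling of the marks -/
theorem cei (j3 : 3 ≤ jl) (mJ : ms 1 ≤ ms (p.J * p.v))
    (u1 : ∀ k, jl < k → k < p.J →
      P.hs (p.z k) - P.hs (p.z (k - 1)) ≤ K * ms (p.sO P om k) * p.v)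
    (u2 : ∀ i < P.I, P.hs (P.x (i + 1)) - P.hs (P.x i) ≤
      K * ms 1 * (P.rs (P.x (i + 1)) - P.rs (P.x i))) :
    (∀ k, jl + 1 ≤ k → k < p.Jp P → p.HO P om (b₁ + be) (k + 1) - p.HO P om (b₁ + be) k ≤
      8 * K ^ 2 * ms (p.sO P om k) * p.v) ∧
    p.HO P om (b₁ + be) (jl + 1) ≤ 8 * K ^ 2 * ms (p.sO P om jl) * p.sO P om jl := by
  have K0 := h.K0
  have K1 := h.K1
  have v := h.geo.v0
  have jf := h.jfl
  have jJ := h.jlJ
  have JJ := J_le (p := p) (P := P)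
  have two : ∀ k, 3 ≤ k → k < p.J → p.sO P om (k + 1) ≤ 2 * p.sO P om k ∧
      ms (p.sO P om (k + 1)) ≤ 4 * ms (p.sO P om k) := fun k h3 hk => by
    have a := (h.geo.s_inc (Nat.zero_le k) hk.le).1
    have b : (3 : ℝ) ≤ k := by exact_mod_cast h3
    have c := (h.geo.ds_lo hk).2
    rw [h.geo.sP_zero] at a
    have d : p.sO P om (k + 1) ≤ 2 * p.sO P om k := by push_cast at a; nlinarith
    exact ⟨d, (h.msm d).trans (h.ms2 _ (h.geo.sP_nn k))⟩
  refine ⟨fun k h1 h2 => ?_, ?_⟩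
  · have m := h.msp (h.geo.sP_nn k)
    obtain ⟨⟨-, b⟩, -⟩ := h.inc (h.geo.sP_nn k) (h.geo.sP_mono (Nat.le_succ k))
      (h.geo.sP_mono h2)
    rw [H_hi (k := k + 1) (by omega), H_hi (k := k) (by omega)]
    have g : p.sO P om k.succ = p.sO P om (k + 1) := rfl
    rw [g] at b
    have mv : 0 ≤ ms (p.sO P om k) * p.v := by positivity
    rcases h.geo.cases k with a | ⟨i, a, rfl⟩ | a
    · rw [h.xP_sl (k := k + 1) a, h.xP_sl a.le, Nat.add_sub_cancel]
      have c := u1 k h1 a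
      obtain ⟨d1, d2⟩ := h.geo.ds_lo a
      have e := mul_le_mul (mul_le_mul_of_nonneg_left (two k (by omega) a).2 K0.le) d2
        (by linarith) (by positivity)
      have f := mul_le_mul_of_nonneg_right (show 7 * K ≤ 8 * K ^ 2 by nlinarith) mv
      linarith
    · obtain ⟨-, c2, c3, -⟩ := h.pc i a
      rw [show p.xP P (p.J + i + 1) = P.x (i + 1) from h.geo.xP_x a, h.geo.xP_x a.le]
      rw [show p.sO P om (p.J + i + 1) - p.sO P om (p.J + i) = _ from h.geo.ds_mid a] at b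
      have d0 := mul_nonneg h.geo.g0 (sub_nonneg.2 (h.geo.lsp_lt a).le)
      have d1 := mul_le_mul_of_nonneg_right
        (mul_le_mul_of_nonneg_left (h.ms1 (p.sO P om (p.J + i + 1))) K0.le) d0
      have d2 := u2 i a
      have m1 : ms 1 ≤ ms (p.sO P om (p.J + i)) :=
        mJ.trans (h.msm (h.geo.sP_J ▸ h.geo.sP_mono (Nat.le_add_right _ _)))
      have d3 := mul_le_mul (mul_le_mul_of_nonneg_left m1 K0.le) c2 (by linarith) (by positivity)
      have f := mul_le_mul_of_nonneg_right (show K ^ 2 ≤ 8 * K ^ 2 by nlinarith) mv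
      linarith
    · omega
  · obtain ⟨⟨-, b⟩, -⟩ := h.inc le_rfl (h.geo.sP_nn (jl + 1))
      (h.geo.sP_mono (show jl + 1 ≤ p.Jp P by omega))
    rw [h.mk0, sub_zero, sub_zero] at b
    rw [H_hi (by omega), (h.low0 le_rfl).2, add_zero]
    obtain ⟨c, d⟩ := two jl j3 (by omega)
    have m := h.msp (h.geo.sP_nn jl)
    have e := mul_le_mul (mul_le_mul_of_nonneg_left d K0.le) c (h.geo.sP_nn _) (by positivity)
    have f := mul_le_mul_of_nonneg_right (show 8 * K ≤ 8 * K ^ 2 by nlinarith)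
      (mul_nonneg m.le (h.geo.sP_nn jl))
    linarith

set_option maxHeartbeats 1000000 in
/-- **membership** -/
theorem cl : Cl (p.scl P om (8 * K ^ 2) jl ms den g2 u0 ue) (p.famO P om jl b₁ be 0) := by
  have K0 := h.K0
  have K1 := h.K1
  have KC := h.KC
  have v := h.geo.v0
  have jf := h.jfl
  have jf1 := h.jf1
  have jJ := h.jlJ
  have JJ := J_le (p := p) (P := P)
  have Nr := h.Nr_bd
  have JN : p.Jp P < p.NP P := by rw [NP_eq]; omega
  have C0' : 0 < 8 * K ^ 2 := by positivity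
  have zk : ∀ k, jl ≤ k → (p.famO P om jl b₁ be 0).z k = p.zP P k := fun k hk =>
    congrArg (p.zP P) (max_eq_left hk)
  have dk : ∀ k, jl < k → (p.famO P om jl b₁ be 0).d k = b₁ + be := fun k hk => by
    show (if k ≤ jl then b₁ else b₁ + be) = _
    rw [if_neg (by omega)]
  have bN : (p.famO P om jl b₁ be 0).b = b₁ + be := dk _ (show jl < p.NP P by omega)
  have d0 : (p.famO P om jl b₁ be 0).d 0 = b₁ := by
    show (if 0 ≤ jl then b₁ else b₁ + be) = _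
    rw [if_pos (Nat.zero_le jl)]
  have vn : p.v * (p.n : ℝ) ^ p.A = p.β ^ 2 := div_mul_cancel₀ _ (pow_pos h.n0 _).ne'
  have vC : p.v / (8 * K ^ 2) ≤ p.v / K := div_le_div_of_nonneg_left v.le K0 KC
  have Cv : K * p.v ≤ 8 * K ^ 2 * p.v := mul_le_mul_of_nonneg_right KC v.le
  have c00 : 0 < c0 := by nlinarith [h.cK]
  have cK : p.v / K ≤ c0 * p.v := by rw [div_le_iff₀ K0]; nlinarith [h.cK]
  have CK : C0 * p.v ≤ K * p.v := mul_le_mul_of_nonneg_right h.CK v.le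
  have zJ : (p.famO P om jl b₁ be 0).z (p.J - 1) = p.xs := by
    rw [zk _ (by omega), zP_lo (by omega)]; rfl
  have A : (1 : ℝ) ≤ p.A := by exact_mod_cast h.A1
  refine
    { leg := ⟨fun a b hab => h.geo.zP_mono (max_le_max_right _ hab), ?_, fun k => h.geo.zP_le _,
        ?_, d0 ▸ zero_le_one.trans h.b0, fun a b hab => ?_, ?_, fun a b hab => ?_⟩
      C1 := K1.trans KC
      v1 := ?_, v2 := ?_, card := h.card, i0 := jf1.trans jf, i1 := le_rfl, i2 := jJ, i3 := JJ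
      i4 := JN, msm := h.msm, ms2 := h.ms2, ms0 := h.ms0, ms1 := h.ms1, msθ := h.msθ
      b0 := d0 ▸ h.b0
      b1 := bN ▸ h.bK.trans KC
      low := fun k hk => congrArg (p.zP P) ((max_eq_right hk).trans (max_self jl).symm)
      wmk := ⟨(dk (jl + 1) (Nat.lt_succ_self jl)).trans bN.symm, ?_⟩
      top := fun k hk => (zk k (by change p.Jp P ≤ k at hk; omega)).trans (zP_hi hk)
      HN := ?_, ok := h.geo.ok, s0 := h.geo.sP_zero, sm := h.geo.sP_mono, sN := h.geo.tt.ge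
      sT := h.sT.trans (show K + 1 ≤ 8 * K ^ 2 by nlinarith)
      lv := fun k hk t h1 h2 => (h.geo.ref.2.2.1 k t h1 h2).trans (zk k hk).symm
      lv1 := h.geo.ref.2.2.2
      lip := fun t t' h0 h1 h2 => ?_
      lv0 := ?_
      zs := fun k h1 h2 => ?_
      ss := fun k hk => ?_
      sr := fun k hk _ => ?_
      atom := ?_
      crit := fun t ht => ?_
      gpp := fun t h0 h1 => ?_
      ckm := fun k h1 h2 => ?_
      ckq := fun k hk => ?_
      flr := fun k h1 h2 => ?_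
      Glo := fun k hk => h.G_lo hk
      Gmi := fun k h1 h2 => ?_
      Gtp := ?_
      Grv := fun k h1 _ => ?_
      plat := fun k h1 h2 => ?_
      den0 := h.den0
      dens := fun x x' h1 h2 h3 h4 => ?_
      last := ?_
      F1 := le_rfl }
  · show 2 * p.am ≤ p.zP P (max 0 jl)
    rw [max_eq_right (Nat.zero_le _), zP_lo (by omega)]; exact h.am
  · exact (zk _ (show jl ≤ p.NP P by omega)).trans (zP_hi JN.le)
  · show (if a ≤ jl then b₁ else b₁ + be) ≤ if b ≤ jl then b₁ else b₁ + be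
    split_ifs <;> first | omega | linarith [h.be0]
  · show p.HO P om (b₁ + be) 0 + 0 = 0
    rw [H_lo (Nat.zero_le _), add_zero]
  · show p.HO P om (b₁ + be) a + 0 ≤ p.HO P om (b₁ + be) b + 0
    linarith [h.H_mono hab]
  · show 1 / (8 * K ^ 2) ≤ p.v * (p.n : ℝ) ^ p.A
    rw [vn]; exact ((div_le_one C0').2 (K1.trans KC)).trans h.β1
  · show p.v * (p.n : ℝ) ^ p.A ≤ 8 * K ^ 2
    rw [vn]; exact h.βK.trans KC
  · rw [bN, d0]
    show b₁ + be - b₁ ≤ 8 * K ^ 2 * ms (p.sO P om jl)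
    linarith [h.wm, mul_le_mul_of_nonneg_right KC (h.msp (h.geo.sP_nn jl)).le]
  · show p.HO P om (b₁ + be) (p.NP P) + 0 ≤ 8 * K ^ 2 * p.A * log p.n
    rw [H_hi (by omega), h.geo.xP_top JN.le]
    have a : Pr.Spr41.mk (b₁ + be) (p.lO P om) (p.sO P om (p.NP P)) ≤ p.sO P om (p.NP P) := by
      have := mul_nonneg (show 0 ≤ b₁ + be by linarith [h.b0, h.be0])
        (Gam_nn (p.lO P om) (p.sO P om (p.NP P)))
      unfold Pr.Spr41.mk; linarith
    have b : 1 ≤ p.A * log p.n := one_le_mul_of_one_le_of_one_le A h.lg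
    have c := mul_le_mul_of_nonneg_right (show 2 * K + 3 ≤ 8 * K ^ 2 by nlinarith)
      (zero_le_one.trans b)
    have d := mul_le_mul_of_nonneg_left b (show 0 ≤ K + 2 by linarith)
    linarith [h.geo.sP_N, h.sT, Nr.2, h.v1, h.hN]
  · obtain ⟨a, b⟩ := h.geo.lip c00.le (by nlinarith [h.geo.base.z0, h.geo.base.lab.pos]) h0 h1 h2
    have c0K : c0 ≤ K := h.geo.base.lo.trans (h.geo.base.hi.trans h.βK)
    have d := sub_nonneg.2 h1
    constructor
    · refine le_trans ?_ a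
      show (t' - t) / (8 * K ^ 2) - 8 * K ^ 2 * p.v ≤ _
      have e : (t' - t) / (8 * K ^ 2) ≤ c0 * (2 / 3 * (t' - t)) := by
        rw [div_le_iff₀ C0']
        have : 1 ≤ c0 * (2 / 3) * (8 * K ^ 2) := by nlinarith [h.cK]
        nlinarith
      have f := mul_le_mul_of_nonneg_right (c0K.trans KC) v.le
      linarith
    · refine b.trans ?_
      show _ ≤ 8 * K ^ 2 * (t' - t + p.v)
      have e := mul_le_mul_of_nonneg_right h.CK (show 0 ≤ 2 * (t' - t) + p.v by linarith)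
      have f := mul_le_mul_of_nonneg_right (show 2 * K ≤ 8 * K ^ 2 by nlinarith) d
      linarith
  · show lvr 1 (p.lO P om) 0 ≤ 8 * K ^ 2 * p.v
    rw [h.geo.lv0]; linarith [h.geo.base.z0]
  · change k + 1 < p.J at h2
    rw [zk k h1, zk (k + 1) (Nat.le_succ_of_le h1), zP_lo h2, zP_lo (by omega)]
    obtain ⟨a, b⟩ := h.geo.base.slo k h2
    unfold Pr.dm at a b
    exact ⟨by show p.v / (8 * K ^ 2) ≤ _; linarith, by show _ ≤ 8 * K ^ 2 * p.v; linarith⟩
  · obtain ⟨a, b⟩ := h.geo.ds_lo hk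
    have c : p.v / (8 * K ^ 2) ≤ p.v / 2 := div_le_div_of_nonneg_left v.le two_pos (by nlinarith)
    have d := mul_le_mul_of_nonneg_right (show 3 / 2 ≤ 8 * K ^ 2 by nlinarith) v.le
    exact ⟨c.trans a, b.trans d⟩
  · have a : p.sO P om (k + 1) - p.sO P om k = p.v := h.geo.ds_hi hk
    have d := mul_le_mul_of_nonneg_right (K1.trans KC) v.le
    exact ⟨by show 0 ≤ p.sO P om (k + 1) - p.sO P om k; linarith,
      by show p.sO P om (k + 1) - p.sO P om k ≤ 8 * K ^ 2 * p.v; linarith⟩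
  · show 1 / (8 * K ^ 2) ≤ (p.famO P om jl b₁ be 0).z (p.J - 1) ∧
      (p.famO P om jl b₁ be 0).z (p.J - 1) ≤ 1 - 1 / (8 * K ^ 2)
    rw [zJ]
    constructor <;> linarith [h.iC, h.atom.1, h.atom.2]
  · obtain ⟨a, b⟩ := h.crit t ht
    have m := (h.msp ht.1).le
    unfold Md.e
    rw [bN]
    exact ⟨(div_le_div_of_nonneg_left m K0 KC).trans a,
      b.trans (mul_le_mul_of_nonneg_right KC m)⟩
  · refine (h.gpp t h0 (h.geo.sP_J ▸ h1)).trans (mul_le_mul_of_nonneg_right KC ?_)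
    exact div_nonneg (h.msp h0).le (h0.trans (le_max_left _ _))
  · show p.v / (8 * K ^ 2) ≤ p.qO P om (k + 1) + P.rs (p.xP P (k + 1)) -
        (p.qO P om k + P.rs (p.xP P k)) ∧ p.qO P om (k + 1) + P.rs (p.xP P (k + 1)) -
        (p.qO P om k + P.rs (p.xP P k)) ≤ 8 * K ^ 2 * p.v
    change jl ≤ k at h1
    change k < p.Jp P at h2
    rcases h.geo.cases k with a | ⟨i, a, rfl⟩ | a
    · obtain ⟨-, b, c⟩ := h.inc_sl a
      have d : p.v / (8 * K ^ 2) ≤ p.v / (8 * K) :=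
        div_le_div_of_nonneg_left v.le (by positivity) (by nlinarith)
      have e : p.v / (4 * K) = p.v / (8 * K) + p.v / (8 * K) := by field_simp; norm_num
      have e0 : 0 ≤ p.v / (8 * K) := by positivity
      have f := mul_le_mul_of_nonneg_right (show K + 3 / 2 ≤ 8 * K ^ 2 by nlinarith) v.le
      have f0 := mul_nonneg K0.le v.le
      rcases h1.eq_or_lt with g | g
      · rw [(h.low0 (k := k) (by omega)).1, (h.low0 (k := k + 1) (by omega)).1]
        constructor <;> linarith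
      · obtain ⟨s1, s2, -⟩ := h.sl k g a
        rw [h.xP_sl (k := k + 1) a, h.xP_sl a.le, Nat.add_sub_cancel]
        constructor <;> linarith
    · obtain ⟨-, b, c⟩ := h.inc (h.geo.sP_nn (p.J + i)) (h.geo.sP_mono (Nat.le_succ _))
        (h.geo.sP_mono h2)
      obtain ⟨c1, c2, c3, -⟩ := h.pc i a
      rw [show p.xP P (p.J + i + 1) = P.x (i + 1) from h.geo.xP_x a, h.geo.xP_x a.le]
      rw [show p.sO P om (p.J + i).succ - p.sO P om (p.J + i) = _ from h.geo.ds_mid a] at b c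
      change _ ≤ p.qO P om (p.J + i + 1) - p.qO P om (p.J + i) at b
      change p.qO P om (p.J + i + 1) - p.qO P om (p.J + i) ≤ _ at c
      have e1 : 1 / (2 * K) ≤ 1 := (div_le_one (by positivity)).2 (by linarith)
      have e2 := mul_le_mul_of_nonneg_right e1 c3
      have e3 := mul_le_mul_of_nonneg_left c1 (show 0 ≤ 1 / (2 * K) by positivity)
      have e4 : p.v / (8 * K ^ 2) ≤ 1 / (2 * K) * (p.v / K) := by
        rw [div_mul_div_comm, one_mul]
        exact div_le_div_of_nonneg_left v.le (by positivity) (by nlinarith)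
      constructor <;> linarith
    · omega
  · show p.qO P om k + P.rs (p.xP P k) = p.qO P om k
    rw [(h.z0 _ (((h.geo.xP_le k).trans (h.geo.zP_mono (le_max_left k jl))).trans
      (hk.trans h.i2))).1, add_zero]
  · show ms (p.sO P om k) * p.v / (8 * K ^ 2 * 1) ≤
      p.HO P om (b₁ + be) (k + 1) + 0 - (p.HO P om (b₁ + be) k + 0)
    rw [add_zero, add_zero, mul_one]
    exact h.flr h1 h2
  · change jl ≤ k at h1
    show _ ≤ if p.sO P om k ≤ p.sO P om jl then _ else _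
    rcases h1.eq_or_lt with e | e
    · rw [← e, if_pos le_rfl]; exact h.G_lo le_rfl
    · rw [h.G_hi e, (h.z0 _ (((h.geo.xP_le k).trans (h.geo.zP_mono (le_max_left k jl))).trans
        (h2.trans h.i2))).2, abs_zero]
      split_ifs
      · exact mul_nonneg (mul_nonneg C0'.le (h.msp (h.geo.sP_nn jl)).le) (h.geo.sP_nn jl)
      · exact le_rfl
  · refine le_trans ?_ h.Gtp
    have sub : ((Finset.Icc 1 (p.Jp P)).filter fun k =>
        1 / (2 * (8 * K ^ 2)) < (p.famO P om jl b₁ be 0).z k) ⊆ Finset.Ioc jl (p.Jp P) := by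
      intro k hk
      obtain ⟨a, b⟩ := Finset.mem_filter.1 hk
      refine Finset.mem_Ioc.2 ⟨?_, (Finset.mem_Icc.1 a).2⟩
      by_contra hc
      have e : (p.famO P om jl b₁ be 0).z k = p.z jl :=
        (congrArg (p.zP P) (max_eq_right (not_lt.1 hc))).trans (zP_lo (by omega))
      have := h.zjl
      rw [show 16 * K ^ 2 = 2 * (8 * K ^ 2) by ring] at this
      linarith
    refine le_trans (le_of_eq (Finset.sum_congr rfl fun k hk => ?_))
      (Finset.sum_le_sum_of_subset_of_nonneg sub fun k _ _ =>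
        mul_nonneg (sub_nonneg.2 (h.geo.zP_mono (Nat.sub_le _ _))) (sq_nonneg _))
    have a := (Finset.mem_Ioc.1 (sub hk)).1
    rw [h.G_hi a, zk k a.le, zk (k - 1) (by omega)]
  · change p.Jp P ≤ k at h1
    show _ = (p.famO P om jl b₁ be 0).G (p.Jp P)
    rw [h.G_hi (by omega), h.G_hi (by omega), xP_hi h1, xP_hi le_rfl]
  · change p.J ≤ k at h1
    change k < p.Jp P at h2
    obtain ⟨i, rfl⟩ := Nat.exists_eq_add_of_le h1
    have a : i < P.I := by unfold Pm.Jp at h2; omega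
    rw [zk _ (by omega), zk _ (by omega), h.geo.zP_x a.le,
      show p.zP P (p.J + i) = P.x (i + 1) from h.geo.zP_x (i := i + 1) a]
    obtain ⟨b, c⟩ := h.plat i a
    exact ⟨vC.trans b, c.trans Cv⟩
  · change (p.famO P om jl b₁ be 0).z (p.J - 1) ≤ x at h1
    change x' - x ≤ min (x - (p.famO P om jl b₁ be 0).z (p.J - 1) + u0) (1 - x') at h4
    rw [zJ] at h1 h4
    obtain ⟨a, b⟩ := h.dens x x' h1 h2 h3 h4
    exact ⟨a.trans (mul_le_mul_of_nonneg_right KC (h.den0 _).le),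
      b.trans (mul_le_mul_of_nonneg_right KC (h.den0 _).le)⟩
  · show 1 - (p.famO P om jl b₁ be 0).z (p.Jp P - 1) ≤ ue
    rw [zk _ (by omega), show p.zP P (p.Jp P - 1) = P.x P.I from h.geo.zP_x le_rfl]
    exact h.last

/-- the ceiling in the form of the class -/
theorem cei' (j3 : 3 ≤ jl) (mJ : ms 1 ≤ ms (p.J * p.v))
    (u1 : ∀ k, jl < k → k < p.J →
      P.hs (p.z k) - P.hs (p.z (k - 1)) ≤ K * ms (p.sO P om k) * p.v)
    (u2 : ∀ i < P.I, P.hs (P.x (i + 1)) - P.hs (P.x i) ≤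
      K * ms 1 * (P.rs (P.x (i + 1)) - P.rs (P.x i))) :
    Cei (p.scl P om (8 * K ^ 2) jl ms den g2 u0 ue) (p.famO P om jl b₁ be 0) := by
  obtain ⟨a, b⟩ := h.cei j3 mJ u1 u2
  refine ⟨fun k h1 h2 => ?_, ?_⟩
  · show p.HO P om (b₁ + be) (k + 1) + 0 - (p.HO P om (b₁ + be) k + 0) ≤
      8 * K ^ 2 * 1 * ms (p.sO P om k) * p.v
    rw [add_zero, add_zero, mul_one]
    exact a k h1 h2
  · show p.HO P om (b₁ + be) (jl + 1) + 0 ≤ 8 * K ^ 2 * 1 * ms (p.sO P om jl) * p.sO P om jl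
    rw [add_zero, mul_one]
    exact b

end MemD

/-- the marks may be replaced -/
theorem Cl.withH {S : Sc} {M : Md} (h : Cl S M) (H' : ℕ → ℝ) (gr' : ℝ → ℝ) (g2' : ℝ)
    (H0 : H' 0 = 0) (Hm : Monotone H') (HN : H' M.N ≤ S.C * S.A * log S.n)
    (flr : ∀ k, S.jl ≤ k → k < S.Jp → S.ms (M.s k) * S.v / (S.C * S.F) ≤ H' (k + 1) - H' k)
    (Glo : ∀ k ≤ S.jl, |M.d k * M.q k + H' k - M.s k| ≤ S.C * S.ms (M.s S.jl) * M.s S.jl)
    (Gmi : ∀ k, S.jl ≤ k → M.z k ≤ 1 / (2 * S.C) → |M.d k * M.q k + H' k - M.s k| ≤ gr' (M.s k))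
    (Gtp : ∑ k ∈ (Finset.Icc 1 S.Jp).filter fun k => 1 / (2 * S.C) < M.z k,
      (M.z k - M.z (k - 1)) * (M.d k * M.q k + H' k - M.s k) ^ 2 ≤ g2')
    (Grv : ∀ k, S.Jp ≤ k → k ≤ M.N → H' k - M.H k = H' S.Jp - M.H S.Jp) :
    Cl { S with gr := gr', g2 := g2' } { M with H := H' } :=
  { h with
    leg := { h.leg with H0 := H0, Hm := Hm }
    HN := HN, flr := flr, Glo := Glo, Gmi := Gmi, Gtp := Gtp
    Grv := fun k h1 h2 => by
      have a := h.Grv k h1 h2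
      have b := Grv k h1 h2
      show M.d k * M.q k + H' k - M.s k = M.d S.Jp * M.q S.Jp + H' S.Jp - M.s S.Jp
      unfold Md.G at a
      linarith }

end Crest.Agent.T156.Alt

end
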