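import Crest.Agent.T156.AltPre_67

/-!
# Row 156, ALT route: final steps for the prefixes `Gain`, `Loss`, `Cst` and exponents of the data
(helper11)
-/

set_option autoImplicit false

noncomputable section

namespace Crest.Agent.T156.Alt

open Real Set Filter Topology
open Crest.Agent.T157.Nm

/-! ### `n` large -/

/-- `n` is large with respect to the constant `K` at the scale `n ^ η` -/
structure Big (K η : ℝ) (n : ℕ) : Prop where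
  two : 2 ≤ n
  ll : 1 ≤ log (log n)
  le : K ≤ η * log n
  le' : K * log (log n) ≤ η * log n

theorem tendsto_logn : Tendsto (fun n : ℕ => log (n : ℝ)) atTop atTop :=
  tendsto_log_atTop.comp tendsto_natCast_atTop_atTop

theorem ev_Big (K : ℝ) {η : ℝ} (hη : 0 < η) : ∀ᶠ n : ℕ in atTop, Big K η n := by
  have h1 : ∀ᶠ n : ℕ in atTop, 1 ≤ log (log (n : ℝ)) :=
    (tendsto_log_atTop.comp tendsto_logn).eventually_ge_atTop 1
  have h2 : ∀ᶠ x : ℝ in atTop, ‖log x‖ ≤ η / (|K| + 1) * ‖x‖ :=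
    isLittleO_log_id_atTop.bound (by positivity)
  have h3 := tendsto_logn.eventually h2
  filter_upwards [h1, h3, eventually_ge_atTop 2, tendsto_logn.eventually_ge_atTop 0] with n a b c d
  have hk : 0 < |K| + 1 := by positivity
  rw [Real.norm_eq_abs, Real.norm_eq_abs, abs_of_nonneg d, abs_of_nonneg (by linarith),
    div_mul_eq_mul_div, le_div_iff₀ hk] at b
  have e : K * log (log (n : ℝ)) ≤ η * log n := by nlinarith [le_abs_self K, abs_nonneg K]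
  refine ⟨c, a, ?_, e⟩
  nlinarith [le_abs_self K, abs_nonneg K]

namespace Big

variable {K K' η η' : ℝ} {n : ℕ}

theorem n_pos (h : Big K η n) : (0 : ℝ) < n := by have := h.two; positivity

theorem one_le (h : Big K η n) : (1 : ℝ) ≤ n := by exact_mod_cast h.two.trans' one_le_two

theorem l_nn (h : Big K η n) : 0 ≤ log (n : ℝ) := log_nonneg h.one_le

theorem l_pos (h : Big K η n) : 0 < log (n : ℝ) :=
  log_pos (by exact_mod_cast lt_of_lt_of_le one_lt_two h.two)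

theorem one_le_l (h : Big K η n) : 1 ≤ log (n : ℝ) := by
  have := log_le_sub_one_of_pos h.l_pos
  linarith [h.ll]

theorem two_le_l (h : Big K η n) : 2 ≤ log (n : ℝ) := by
  have := log_le_sub_one_of_pos h.l_pos
  linarith [h.ll]

theorem mono (h : Big K η n) (hK : K' ≤ K) (hη : η ≤ η') : Big K' η' n := by
  have a := mul_le_mul_of_nonneg_right hη h.l_nn
  have b := mul_le_mul_of_nonneg_right hK (zero_le_one.trans h.ll)
  exact ⟨h.two, h.ll, by linarith [h.le], by linarith [h.le']⟩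

theorem En (h : Big K η n) : Eb (n : ℝ) (log n) := Eb.log h.n_pos

theorem Epow (h : Big K η n) (y : ℝ) : Eb ((n : ℝ) ^ y) (y * log n) := h.En.rpow

theorem El (h : Big K η n) : Eb (log (n : ℝ)) (log (log n)) := Eb.log h.l_pos

/-- constants are below `n ^ η` -/
theorem le_rpow (h : Big K η n) : K ≤ (n : ℝ) ^ η := by
  rw [h.Epow η]
  linarith [add_one_le_exp (η * log n), h.le]

theorem exp_le_rpow (h : Big K η n) : exp K ≤ (n : ℝ) ^ η := by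
  rw [h.Epow η]; exact exp_le_exp.2 h.le

theorem one_le_rpow (h : Big K η n) {y : ℝ} (hy : 0 ≤ y) : 1 ≤ (n : ℝ) ^ y :=
  Real.one_le_rpow h.one_le hy

theorem log_pow_le {k : ℕ} (h : Big k η n) : log (n : ℝ) ^ k ≤ (n : ℝ) ^ η :=
  (h.El.pow.le_iff (h.Epow η)).2 h.le'

end Big

theorem ev_log_pow (C : ℝ) (k : ℕ) {η : ℝ} (hη : 0 < η) :
    ∀ᶠ n : ℕ in atTop, C * log (n : ℝ) ^ k ≤ (n : ℝ) ^ η := by
  filter_upwards [ev_Big C (half_pos hη), ev_Big k (half_pos hη)] with n a b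
  calc C * log (n : ℝ) ^ k ≤ (n : ℝ) ^ (η / 2) * (n : ℝ) ^ (η / 2) :=
        mul_le_mul a.le_rpow b.log_pow_le (pow_nonneg a.l_nn k) (by positivity)
    _ = _ := by rw [← rpow_add a.n_pos, add_halves]

/-! ### the context of a final step -/

/-- everything that is known on the data in a final step -/
structure Ctx (β c0 C0 K η : ℝ) (p : Pm) : Prop where
  hβ : p.β = β
  ok : p.Ok c0 C0
  c0 : 0 < c0
  C0 : 1 ≤ C0
  A2 : 2 ≤ p.A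
  c_pos : 0 < p.c
  c_le : p.c ≤ 1 / 200
  η_pos : 0 < η
  big : Big K η p.n

theorem Ctx.mono {β c0 C0 K η K' η' : ℝ} {p : Pm} (h : Ctx β c0 C0 K η p) (hK : K' ≤ K)
    (hη : η ≤ η') : Ctx β c0 C0 K' η' p :=
  ⟨h.hβ, h.ok, h.c0, h.C0, h.A2, h.c_pos, h.c_le, h.η_pos.trans_le hη, h.big.mono hK hη⟩

/-- the quantifiers common to all prefixes -/
def Par (F : ℝ → ℝ → ℕ → ℝ → Prop) : Prop :=
  ∀ c0 C0 : ℝ, 0 < c0 → 1 ≤ C0 → ∀ᶠ A : ℕ in atTop, ∀ᶠ c in 𝓝[>] (0 : ℝ), F c0 C0 A c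

theorem Par.and {F G : ℝ → ℝ → ℕ → ℝ → Prop} (hF : Par F) (hG : Par G) :
    Par fun c0 C0 A c => F c0 C0 A c ∧ G c0 C0 A c := fun c0 C0 h0 h1 => by
  filter_upwards [hF c0 C0 h0 h1, hG c0 C0 h0 h1] with A a b using a.and b

theorem Par.mono {F G : ℝ → ℝ → ℕ → ℝ → Prop} (hF : Par F)
    (H : ∀ c0 C0 A c, 0 < c0 → 1 ≤ C0 → 2 ≤ A → 0 < c → c ≤ 1 / 200 → F c0 C0 A c → G c0 C0 A c) :
    Par G := fun c0 C0 h0 h1 => by
  filter_upwards [hF c0 C0 h0 h1, eventually_ge_atTop 2] with A a hA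
  filter_upwards [a, ev_small (show (0 : ℝ) < 1 / 200 by norm_num)] with c b hc
    using H c0 C0 A c h0 h1 hA hc.1 hc.2 b

/-- introduction with explicit thresholds -/
theorem Par.intro {F : ℝ → ℝ → ℕ → ℝ → Prop}
    (H : ∀ c0 C0 : ℝ, 0 < c0 → 1 ≤ C0 → ∃ A0 : ℕ, ∀ A, A0 ≤ A → ∃ c1 : ℝ, 0 < c1 ∧
      ∀ c, 0 < c → c ≤ c1 → F c0 C0 A c) : Par F := fun c0 C0 h0 h1 => by
  obtain ⟨A0, h⟩ := H c0 C0 h0 h1
  filter_upwards [eventually_ge_atTop A0] with A hA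
  obtain ⟨c1, hc1, h⟩ := h A hA
  filter_upwards [ev_small hc1] with c hc using h c hc.1 hc.2

/-- introduction with absolute thresholds -/
theorem Par.intro' {F : ℝ → ℝ → ℕ → ℝ → Prop} (A0 : ℕ) {c1 : ℝ} (hc1 : 0 < c1)
    (H : ∀ c0 C0 A c, 0 < c0 → 1 ≤ C0 → A0 ≤ A → 0 < c → c ≤ c1 → F c0 C0 A c) : Par F :=
  Par.intro fun c0 C0 h0 h1 => ⟨A0, fun A hA => ⟨c1, hc1, fun c a b => H c0 C0 A c h0 h1 hA a b⟩⟩

theorem Par.triv : Par fun _ _ _ _ => True := Par.intro' 0 one_pos fun _ _ _ _ _ _ _ _ _ => trivial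

/-- a final step: `P p` for all data with the given parameters, `n` large at the scale `η` -/
def Fin' (β c0 C0 : ℝ) (A : ℕ) (c η : ℝ) (P : Pm → Prop) : Prop :=
  ∃ K : ℝ, ∀ p : Pm, p.A = A → p.c = c → Ctx β c0 C0 K η p → P p

theorem Fin'.ev {β c0 C0 c η : ℝ} {A : ℕ} {P : Pm → Prop} (h : Fin' β c0 C0 A c η P) (h0 : 0 < c0)
    (h1 : 1 ≤ C0) (hA : 2 ≤ A) (hc : 0 < c) (hc' : c ≤ 1 / 200) (hη : 0 < η) :
    ∀ᶠ n : ℕ in atTop, All β c0 C0 A c n P := by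
  obtain ⟨K, h⟩ := h
  filter_upwards [ev_Big K hη] with n hn p e1 e2 e3 e4 ok
  exact h p e3 e4 ⟨e1, ok, h0, h1, e3 ▸ hA, e4 ▸ hc, e4 ▸ hc', hη, e2 ▸ hn⟩

variable {β : ℝ} {P Q G G' : ℝ → Pm → Prop} {E E' : Pm → Prop}

/-! ### master rules -/

/-- `Loss` from `Loss` -/
theorem Loss.impF (hP : Loss β P) (H : Par fun c0 C0 A c => ∀ η : ℝ, 0 < η → ∃ η' : ℝ, 0 < η' ∧
    Fin' β c0 C0 A c η' fun p => P ((p.n : ℝ) ^ η') p → Q ((p.n : ℝ) ^ η) p) : Loss β Q :=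
  Par.mono (Par.and hP H) fun c0 C0 A c h0 h1 hA hc hc' h η hη => by
    obtain ⟨η', hη', hf⟩ := h.2 η hη
    filter_upwards [h.1 η' hη', hf.ev h0 h1 hA hc hc' hη'] with n a b p e1 e2 e3 e4 ok
    subst e2
    exact b p e1 rfl e3 e4 ok (a p e1 rfl e3 e4 ok)

/-- `Gain` from `Loss` -/
theorem Loss.gainF (hP : Loss β P) (H : Par fun c0 C0 A c => ∃ η : ℝ, 0 < η ∧ ∃ c' : ℝ, 0 < c' ∧
    Fin' β c0 C0 A c η fun p => P ((p.n : ℝ) ^ η) p → Q ((p.n : ℝ) ^ (-c')) p) : Gain β Q :=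
  Par.mono (Par.and hP H) fun c0 C0 A c h0 h1 hA hc hc' h => by
    obtain ⟨η, hη, c', hc1, hf⟩ := h.2
    refine ⟨c', hc1, ?_⟩
    filter_upwards [h.1 η hη, hf.ev h0 h1 hA hc hc' hη] with n a b p e1 e2 e3 e4 ok
    subst e2
    exact b p e1 rfl e3 e4 ok (a p e1 rfl e3 e4 ok)

/-- `Gain` from `Gain` and `Loss` -/
theorem Gain.impF (hG : Gain β G) (hP : Loss β P) (H : Par fun c0 C0 A c => ∀ c1 : ℝ, 0 < c1 →
    ∃ η : ℝ, 0 < η ∧ ∃ c' : ℝ, 0 < c' ∧ Fin' β c0 C0 A c η fun p =>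
      G ((p.n : ℝ) ^ (-c1)) p → P ((p.n : ℝ) ^ η) p → Q ((p.n : ℝ) ^ (-c')) p) : Gain β Q :=
  Par.mono (Par.and (Par.and hG hP) H) fun c0 C0 A c h0 h1 hA hc hc' h => by
    obtain ⟨c1, hc1, hg⟩ := h.1.1
    obtain ⟨η, hη, c', hc2, hf⟩ := h.2 c1 hc1
    refine ⟨c', hc2, ?_⟩
    filter_upwards [hg, h.1.2 η hη, hf.ev h0 h1 hA hc hc' hη] with n g a b p e1 e2 e3 e4 ok
    subst e2
    exact b p e1 rfl e3 e4 ok (g p e1 rfl e3 e4 ok) (a p e1 rfl e3 e4 ok)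

/-- `Loss` from `Gain` and `Loss` -/
theorem Gain.lossF (hG : Gain β G) (hP : Loss β P) (H : Par fun c0 C0 A c => ∀ c1 : ℝ, 0 < c1 →
    ∀ η : ℝ, 0 < η → ∃ η' : ℝ, 0 < η' ∧ Fin' β c0 C0 A c η' fun p =>
      G ((p.n : ℝ) ^ (-c1)) p → P ((p.n : ℝ) ^ η') p → Q ((p.n : ℝ) ^ η) p) : Loss β Q :=
  Par.mono (Par.and (Par.and hG hP) H) fun c0 C0 A c h0 h1 hA hc hc' h η hη => by
    obtain ⟨c1, hc1, hg⟩ := h.1.1
    obtain ⟨η', hη', hf⟩ := h.2 c1 hc1 η hη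
    filter_upwards [hg, h.1.2 η' hη', hf.ev h0 h1 hA hc hc' hη'] with n g a b p e1 e2 e3 e4 ok
    subst e2
    exact b p e1 rfl e3 e4 ok (g p e1 rfl e3 e4 ok) (a p e1 rfl e3 e4 ok)

/-- `Loss` from nothing -/
theorem Loss.introF (H : Par fun c0 C0 A c => ∀ η : ℝ, 0 < η → ∃ η' : ℝ, 0 < η' ∧
    Fin' β c0 C0 A c η' fun p => Q ((p.n : ℝ) ^ η) p) : Loss β Q :=
  (Loss.triv β).impF (H.mono fun _ _ _ _ _ _ _ _ _ h η hη => by
    obtain ⟨η', a, K, b⟩ := h η hη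
    exact ⟨η', a, K, fun p x y z _ => b p x y z⟩)

/-- pointwise implication; `Λ ≥ 1` and the context are available -/
theorem Loss.monoC (hP : Loss β P)
    (H : ∀ (c0 C0 η : ℝ) p, Ctx β c0 C0 1 η p → P ((p.n : ℝ) ^ η) p → Q ((p.n : ℝ) ^ η) p) : Loss β Q :=
  hP.impF (Par.triv.mono fun c0 C0 _ _ _ _ _ _ _ _ η hη => ⟨η, hη, 1, fun p _ _ h => H c0 C0 η p h⟩)

/-- losses multiply: `Λ ^ k` and constants depending on the parameters are again a loss -/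
theorem Loss.powC (hP : Loss β P) (k : ℕ) (H : ∀ c0 C0 : ℝ, ∀ A : ℕ, ∀ c : ℝ, ∃ K : ℝ,
    ∀ (η Λ' : ℝ) p, p.A = A → p.c = c → Ctx β c0 C0 K η p → ((p.n : ℝ) ^ η) ^ k ≤ Λ' →
      P ((p.n : ℝ) ^ η) p → Q Λ' p) : Loss β Q :=
  hP.impF (Par.triv.mono fun c0 C0 A c _ _ _ _ _ _ η hη => by
    obtain ⟨K, h⟩ := H c0 C0 A c
    have hk : (0 : ℝ) < k + 1 := by positivity
    refine ⟨η / (k + 1), by positivity, K, fun p a b x => h _ _ p a b x ?_⟩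
    rw [← rpow_natCast, ← rpow_mul x.big.n_pos.le]
    refine rpow_le_rpow_of_exponent_le x.big.one_le ?_
    rw [div_mul_eq_mul_div, div_le_iff₀ hk]
    nlinarith)

theorem Gain.monoC (hG : Gain β G)
    (H : ∀ (c0 C0 c' : ℝ) p, Ctx β c0 C0 1 c' p → G ((p.n : ℝ) ^ (-c')) p → Q ((p.n : ℝ) ^ (-c')) p) :
    Gain β Q :=
  hG.impF (Loss.triv β) (Par.triv.mono fun c0 C0 _ _ _ _ _ _ _ _ c1 h1 =>
    ⟨c1, h1, c1, h1, 1, fun p _ _ h g _ => H c0 C0 c1 p h g⟩)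

/-- `Ev` from a final step -/
theorem Ev.introF (H : Par fun c0 C0 A c => ∃ η : ℝ, 0 < η ∧ Fin' β c0 C0 A c η E) : Ev β E :=
  H.mono fun _ _ _ _ h0 h1 hA hc hc' ⟨_, hη, hf⟩ => hf.ev h0 h1 hA hc hc' hη

/-- `Gain` from nothing -/
theorem Gain.introF (H : Par fun c0 C0 A c => ∃ η : ℝ, 0 < η ∧ ∃ c' : ℝ, 0 < c' ∧
    Fin' β c0 C0 A c η fun p => Q ((p.n : ℝ) ^ (-c')) p) : Gain β Q :=
  (Loss.triv β).gainF (H.mono fun _ _ _ _ _ _ _ _ _ ⟨η, a, c', b, K, h⟩ =>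
    ⟨η, a, c', b, K, fun p x y z _ => h p x y z⟩)

/-! ### `Cst` -/

/-- a constant form, the constant being known before `A` and `c` -/
theorem Cst.par (h : Cst β P) : ∀ c0 C0 : ℝ, 0 < c0 → 1 ≤ C0 → ∃ C : ℝ, 1 ≤ C ∧
    ∀ᶠ A : ℕ in atTop, ∀ᶠ c in 𝓝[>] (0 : ℝ), ∀ᶠ n : ℕ in atTop, All β c0 C0 A c n (P C) :=
  fun c0 C0 h0 h1 => by
    obtain ⟨C, hC, h⟩ := h c0 C0 h0 h1
    refine ⟨C, hC, ?_⟩
    filter_upwards [eventually_ge_atTop 2] with A hA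
    filter_upwards [ev_small (show (0 : ℝ) < 1 / 200 by norm_num)] with c hc using h A hA c hc.1 hc.2

/-- a constant is a loss (even `exp C` is) -/
theorem Cst.loss_exp (h : Cst β P) : Loss β fun Λ p => ∃ C, 1 ≤ C ∧ exp C ≤ Λ ∧ P C p :=
  fun c0 C0 h0 h1 => by
    obtain ⟨C, hC, h⟩ := h.par c0 C0 h0 h1
    filter_upwards [h] with A h
    filter_upwards [h] with c h η hη
    filter_upwards [h, ev_Big C hη] with n a b p e1 e2 e3 e4 ok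
    exact ⟨C, hC, b.exp_le_rpow, a p e1 e2 e3 e4 ok⟩

/-- `Cst` from `Cst`; `n` may be taken large at any scale `η` depending on `A`, `c` -/
theorem Cst.impF (h : Cst β P) (H : ∀ c0 C0 C : ℝ, 0 < c0 → 1 ≤ C0 → 1 ≤ C → ∃ C' : ℝ, 1 ≤ C' ∧
    ∀ (A : ℕ) (c : ℝ), 2 ≤ A → 0 < c → c ≤ 1 / 200 → ∃ η : ℝ, 0 < η ∧
      Fin' β c0 C0 A c η fun p => P C p → Q C' p) : Cst β Q := fun c0 C0 h0 h1 => by
  obtain ⟨C, hC, h⟩ := h c0 C0 h0 h1
  obtain ⟨C', hC', H⟩ := H c0 C0 C h0 h1 hC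
  refine ⟨C', hC', fun A hA c hc hc' => ?_⟩
  obtain ⟨η, hη, hf⟩ := H A c hA hc hc'
  filter_upwards [h A hA c hc hc', hf.ev h0 h1 hA hc hc' hη] with n a b p e1 e2 e3 e4 ok
  exact b p e1 e2 e3 e4 ok (a p e1 e2 e3 e4 ok)

/-- `Loss` from `Cst` and `Loss`, the constant being fixed in the final step -/
theorem Cst.lossF (h : Cst β G) (hP : Loss β P) (H : ∀ C : ℝ, 1 ≤ C → Par fun c0 C0 A c =>
    ∀ η : ℝ, 0 < η → ∃ η' : ℝ, 0 < η' ∧ Fin' β c0 C0 A c η' fun p =>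
      G C p → P ((p.n : ℝ) ^ η') p → Q ((p.n : ℝ) ^ η) p) : Loss β Q := fun c0 C0 h0 h1 => by
  obtain ⟨C, hC, h⟩ := h.par c0 C0 h0 h1
  filter_upwards [h, hP c0 C0 h0 h1, H C hC c0 C0 h0 h1, eventually_ge_atTop 2] with A h hP H hA
  filter_upwards [h, hP, H, ev_small (show (0 : ℝ) < 1 / 200 by norm_num)] with c h hP H hc η hη
  obtain ⟨η', hη', hf⟩ := H η hη
  filter_upwards [h, hP η' hη', hf.ev h0 h1 hA hc.1 hc.2 hη'] with n g a b p e1 e2 e3 e4 ok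
  subst e2
  exact b p e1 rfl e3 e4 ok (g p e1 rfl e3 e4 ok) (a p e1 rfl e3 e4 ok)

/-- `Gain` from `Cst` and `Loss`, the constant being fixed in the final step -/
theorem Cst.gainF (h : Cst β G) (hP : Loss β P) (H : ∀ C : ℝ, 1 ≤ C → Par fun c0 C0 A c =>
    ∃ η : ℝ, 0 < η ∧ ∃ c' : ℝ, 0 < c' ∧ Fin' β c0 C0 A c η fun p =>
      G C p → P ((p.n : ℝ) ^ η) p → Q ((p.n : ℝ) ^ (-c')) p) : Gain β Q := fun c0 C0 h0 h1 => by
  obtain ⟨C, hC, h⟩ := h.par c0 C0 h0 h1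
  filter_upwards [h, hP c0 C0 h0 h1, H C hC c0 C0 h0 h1, eventually_ge_atTop 2] with A h hP H hA
  filter_upwards [h, hP, H, ev_small (show (0 : ℝ) < 1 / 200 by norm_num)] with c h hP H hc
  obtain ⟨η, hη, c', hc', hf⟩ := H
  refine ⟨c', hc', ?_⟩
  filter_upwards [h, hP η hη, hf.ev h0 h1 hA hc.1 hc.2 hη] with n g a b p e1 e2 e3 e4 ok
  subst e2
  exact b p e1 rfl e3 e4 ok (g p e1 rfl e3 e4 ok) (a p e1 rfl e3 e4 ok)

/-! ### numerics of the data -/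

namespace Ctx

variable {c0 C0 K η τ y a : ℝ} {p : Pm} {m : ℕ}

theorem n_pos (h : Ctx β c0 C0 K η p) : (0 : ℝ) < p.n := h.big.n_pos
theorem one_le_n (h : Ctx β c0 C0 K η p) : (1 : ℝ) ≤ p.n := h.big.one_le
theorem l2 (h : Ctx β c0 C0 K η p) : 2 ≤ log (p.n : ℝ) := h.big.two_le_l
theorem s_pos (h : Ctx β c0 C0 K η p) : 0 < p.s := one_pos.trans_le h.ok.s1
theorem En (h : Ctx β c0 C0 K η p) : Eb (p.n : ℝ) (log p.n) := h.big.En
theorem El (h : Ctx β c0 C0 K η p) : Eb (log (p.n : ℝ)) (log (log p.n)) := h.big.El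
theorem Epow (h : Ctx β c0 C0 K η p) (x : ℝ) : Eb ((p.n : ℝ) ^ x) (x * log p.n) := h.big.Epow x
theorem Es (h : Ctx β c0 C0 K η p) : Eb p.s (log p.s) := Eb.log h.s_pos
theorem sg_nn (h : Ctx β c0 C0 K η p) : 0 ≤ log p.s := log_nonneg h.ok.s1
theorem sg_le (h : Ctx β c0 C0 K η p) : log p.s ≤ 1 / 19 * log p.n :=
  (h.Es.le_iff (h.Epow _)).1 h.ok.s2
/-- `cl = c log n` lies in `[0, log n / 200]` -/
theorem cl_pos (h : Ctx β c0 C0 K η p) : 0 < p.c * log p.n := mul_pos h.c_pos h.big.l_pos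
theorem cl_le (h : Ctx β c0 C0 K η p) : p.c * log p.n ≤ 1 / 200 * log p.n :=
  mul_le_mul_of_nonneg_right h.c_le h.big.l_nn
theorem Eκ (h : Ctx β c0 C0 K η p) : Eb p.κ (-(p.c * log p.n)) := by
  rw [← neg_mul]; exact h.Epow _
theorem Er (h : Ctx β c0 C0 K η p) :
    Eb p.r (log p.s + 1 / 7 * (p.c * log p.n) - 1 / 6 * log p.n) := by
  have := h.Es.mul (h.Epow (p.c / 7 - 1 / 6))
  rw [show log p.s + 1 / 7 * (p.c * log p.n) - 1 / 6 * log p.n =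
    log p.s + (p.c / 7 - 1 / 6) * log p.n by ring]
  exact this
theorem Eye (h : Ctx β c0 C0 K η p) : Eb p.ye (-(3 * (p.c * log p.n))) := by
  have := h.Eκ.pow (k := 3)
  rw [show -(3 * (p.c * log p.n)) = ((3 : ℕ) : ℝ) * -(p.c * log p.n) by push_cast; ring]
  exact this
theorem Eμ0 (h : Ctx β c0 C0 K η p) :
    Eb p.μ0 (-(2 / 3 * log p.n) - 2 * (p.c * log p.n)) := by
  rw [show -(2 / 3 * log p.n) - 2 * (p.c * log p.n) = (-(2 / 3) - 2 * p.c) * log p.n by ring]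
  exact h.Epow _
theorem Eamin (h : Ctx β c0 C0 K η p) : Eb p.amin (-(1 / 6 * log p.n) - log 2) := by
  rw [show -(1 / 6 * log p.n) - log 2 = (-(1 : ℝ) / 6) * log p.n - log 2 by ring]
  exact (h.Epow _).div (Eb.log two_pos)
theorem Uamin (h : Ctx β c0 C0 K η p) : Ub p.amin (-(1 / 6 * log p.n)) :=
  h.Eamin.ub.mono (by linarith [log_nonneg (one_le_two (α := ℝ))])
theorem Lamin (h : Ctx β c0 C0 K η p) : Lb p.amin (-(1 / 6 * log p.n) - 1) :=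
  h.Eamin.lb.mono (by linarith [log_le_sub_one_of_pos (two_pos (α := ℝ))])
theorem Eamax (h : Ctx β c0 C0 K η p) :
    Eb p.amax (log p.s + 1 / 14 * (p.c * log p.n) - 1 / 6 * log p.n) := by
  have := h.Es.mul (h.Epow (p.c / 14 - 1 / 6))
  rw [show log p.s + 1 / 14 * (p.c * log p.n) - 1 / 6 * log p.n =
    log p.s + (p.c / 14 - 1 / 6) * log p.n by ring]
  exact this
theorem Ev' (h : Ctx β c0 C0 K η p) (hβ : 0 < β) : Eb p.v (2 * log β - p.A * log p.n) := by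
  have := ((Eb.log hβ).pow (k := 2)).div (h.En.pow (k := p.A))
  rw [Pm.v, h.hβ]
  simpa using this
theorem κ_pos (h : Ctx β c0 C0 K η p) : 0 < p.κ := h.Eκ.pos
theorem r_pos (h : Ctx β c0 C0 K η p) : 0 < p.r := h.Er.pos
theorem ye_pos (h : Ctx β c0 C0 K η p) : 0 < p.ye := h.Eye.pos
theorem μ0_pos (h : Ctx β c0 C0 K η p) : 0 < p.μ0 := h.Eμ0.pos
theorem amin_pos (h : Ctx β c0 C0 K η p) : 0 < p.amin := h.Eamin.pos
theorem amax_pos (h : Ctx β c0 C0 K η p) : 0 < p.amax := h.Eamax.pos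
theorem v_pos (h : Ctx β c0 C0 K η p) (hβ : 0 < β) : 0 < p.v := (h.Ev' hβ).pos
theorem κ_le_one (h : Ctx β c0 C0 K η p) : p.κ ≤ 1 :=
  (h.Eκ.le_iff Eb.one).2 (by linarith [h.cl_pos])
theorem ye_le_κ (h : Ctx β c0 C0 K η p) : p.ye ≤ p.κ :=
  (h.Eye.le_iff h.Eκ).2 (by linarith [h.cl_pos])
theorem ye_le_one (h : Ctx β c0 C0 K η p) : p.ye ≤ 1 := h.ye_le_κ.trans h.κ_le_one
theorem r_le_ye (h : Ctx β c0 C0 K η p) : p.r ≤ p.ye :=
  (h.Er.le_iff h.Eye).2 (by linarith [h.cl_pos, h.cl_le, h.sg_le, h.l2])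
theorem r_le_one (h : Ctx β c0 C0 K η p) : p.r ≤ 1 := h.r_le_ye.trans h.ye_le_one
theorem amin_le_amax (h : Ctx β c0 C0 K η p) : p.amin ≤ p.amax :=
  le_of h.Uamin h.Eamax.lb (by linarith [h.cl_pos, h.sg_nn])
theorem amax_le_r (h : Ctx β c0 C0 K η p) : p.amax ≤ p.r :=
  (h.Eamax.le_iff h.Er).2 (by linarith [h.cl_pos])
theorem μ0_le (h : Ctx β c0 C0 K η p) : p.μ0 ≤ p.κ * p.r ^ 2 :=
  (h.Eμ0.le_iff (h.Eκ.mul h.Er.pow)).2 (by push_cast; linarith [h.cl_pos, h.sg_nn, h.l2])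
/-- `v ≤ β² n^{-k}` for `k ≤ A` -/
theorem v_le (h : Ctx β c0 C0 K η p) {k : ℝ} (hk : k ≤ p.A) :
    p.v ≤ β ^ 2 * (p.n : ℝ) ^ (-k) := by
  rw [Pm.v, h.hβ, div_eq_mul_inv, ← rpow_natCast (p.n : ℝ) p.A, ← rpow_neg h.n_pos.le]
  exact mul_le_mul_of_nonneg_left (rpow_le_rpow_of_exponent_le h.one_le_n (neg_le_neg hk))
    (sq_nonneg β)
theorem mem_start (h : Ctx β c0 C0 K η p) : p.Mem 1 p.r :=
  Or.inr ⟨rfl, le_rfl, h.r_le_ye⟩
theorem mem_end (h : Ctx β c0 C0 K η p) : p.Mem 1 p.ye :=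
  Or.inr ⟨rfl, h.r_le_ye, le_rfl⟩

/-! members of the path -/

theorem τ_le (_ : Ctx β c0 C0 K η p) (hm : p.Mem τ y) : τ ≤ 1 := by
  rcases hm with ⟨_, _, a⟩ | ⟨a, _⟩ <;> linarith
theorem r_le_y (_ : Ctx β c0 C0 K η p) (hm : p.Mem τ y) : p.r ≤ y := by
  rcases hm with ⟨a, _⟩ | ⟨_, a, _⟩ <;> linarith
theorem y_le (h : Ctx β c0 C0 K η p) (hm : p.Mem τ y) : y ≤ p.ye := by
  rcases hm with ⟨a, _⟩ | ⟨_, _, a⟩ <;> linarith [h.r_le_ye]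
theorem y_pos (h : Ctx β c0 C0 K η p) (hm : p.Mem τ y) : 0 < y := h.r_pos.trans_le (h.r_le_y hm)
theorem μ0_le_eps (h : Ctx β c0 C0 K η p) (hm : p.Mem τ y) : p.μ0 ≤ p.eps τ := by
  rcases hm with ⟨_, a, _⟩ | ⟨a, _⟩
  · exact a
  · rw [Pm.eps, a, one_mul]; exact h.μ0_le
theorem eps_pos (h : Ctx β c0 C0 K η p) (hm : p.Mem τ y) : 0 < p.eps τ :=
  h.μ0_pos.trans_le (h.μ0_le_eps hm)
theorem τ_pos (h : Ctx β c0 C0 K η p) (hm : p.Mem τ y) : 0 < τ := by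
  have := h.eps_pos hm
  rw [Pm.eps, mul_assoc] at this
  exact (mul_pos_iff_of_pos_right (mul_pos h.κ_pos (pow_pos h.r_pos 2))).1 this
theorem Eτ (h : Ctx β c0 C0 K η p) (hm : p.Mem τ y) : Eb τ (log τ) := Eb.log (h.τ_pos hm)
theorem Ey (h : Ctx β c0 C0 K η p) (hm : p.Mem τ y) : Eb y (log y) := Eb.log (h.y_pos hm)
theorem Eeps (h : Ctx β c0 C0 K η p) (hm : p.Mem τ y) : Eb (p.eps τ) (log τ - p.c * log p.n +
    2 * (log p.s + 1 / 7 * (p.c * log p.n) - 1 / 6 * log p.n)) := by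
  simpa [Pm.eps, sub_eq_add_neg] using ((h.Eτ hm).mul h.Eκ).mul (h.Er.pow (k := 2))
theorem Eμ (h : Ctx β c0 C0 K η p) (hm : p.Mem τ y) :
    Eb (p.μ τ y) (log τ - p.c * log p.n + 2 * log y) := by
  simpa [Pm.μ, sub_eq_add_neg] using ((h.Eτ hm).mul h.Eκ).mul ((h.Ey hm).pow (k := 2))
theorem μ_pos (h : Ctx β c0 C0 K η p) (hm : p.Mem τ y) : 0 < p.μ τ y := (h.Eμ hm).pos
theorem Eμ' (h : Ctx β c0 C0 K η p) (hm : p.Mem τ y) : Eb (p.μ τ y) (log (p.μ τ y)) :=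
  Eb.log (h.μ_pos hm)
theorem Ewt (h : Ctx β c0 C0 K η p) (hm : p.Mem τ y) :
    Eb (p.wt τ y) (-(1 : ℝ) / 3 * (log p.n + log (p.μ τ y))) := (h.En.mul (h.Eμ' hm)).rpow
theorem wt_pos (h : Ctx β c0 C0 K η p) (hm : p.Mem τ y) : 0 < p.wt τ y := (h.Ewt hm).pos
theorem lτ_le (h : Ctx β c0 C0 K η p) (hm : p.Mem τ y) : log τ ≤ 0 :=
  log_nonpos (h.τ_pos hm).le (h.τ_le hm)
theorem ly_ge (h : Ctx β c0 C0 K η p) (hm : p.Mem τ y) :
    log p.s + 1 / 7 * (p.c * log p.n) - 1 / 6 * log p.n ≤ log y :=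
  (h.Er.le_iff (h.Ey hm)).1 (h.r_le_y hm)
theorem ly_le (h : Ctx β c0 C0 K η p) (hm : p.Mem τ y) : log y ≤ -(3 * (p.c * log p.n)) :=
  ((h.Ey hm).le_iff h.Eye).1 (h.y_le hm)
theorem leps_ge (h : Ctx β c0 C0 K η p) (hm : p.Mem τ y) :
    -(2 / 3 * log p.n) - 2 * (p.c * log p.n) ≤ log τ - p.c * log p.n +
      2 * (log p.s + 1 / 7 * (p.c * log p.n) - 1 / 6 * log p.n) :=
  (h.Eμ0.le_iff (h.Eeps hm)).1 (h.μ0_le_eps hm)
theorem lμ_eq (h : Ctx β c0 C0 K η p) (hm : p.Mem τ y) :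
    log (p.μ τ y) = log τ - p.c * log p.n + 2 * log y := (h.Eμ hm).log_eq
theorem eps_le_μ (h : Ctx β c0 C0 K η p) (hm : p.Mem τ y) : p.eps τ ≤ p.μ τ y :=
  ((h.Eeps hm).le_iff (h.Eμ hm)).2 (by linarith [h.ly_ge hm])
theorem μ0_le_μ (h : Ctx β c0 C0 K η p) (hm : p.Mem τ y) : p.μ0 ≤ p.μ τ y :=
  (h.μ0_le_eps hm).trans (h.eps_le_μ hm)
theorem lμ_ge (h : Ctx β c0 C0 K η p) (hm : p.Mem τ y) :
    -(2 / 3 * log p.n) - 2 * (p.c * log p.n) ≤ log (p.μ τ y) :=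
  (h.Eμ0.le_iff (h.Eμ' hm)).1 (h.μ0_le_μ hm)
theorem lμ_le (h : Ctx β c0 C0 K η p) (hm : p.Mem τ y) :
    log (p.μ τ y) ≤ -(7 * (p.c * log p.n)) := by
  linarith [h.lμ_eq hm, h.lτ_le hm, h.ly_le hm]
theorem μ_le (h : Ctx β c0 C0 K η p) (hm : p.Mem τ y) : p.μ τ y ≤ p.κ ^ 7 :=
  ((h.Eμ' hm).le_iff h.Eκ.pow).2 (by push_cast; linarith [h.lμ_le hm])
theorem μ_le_one (h : Ctx β c0 C0 K η p) (hm : p.Mem τ y) : p.μ τ y ≤ 1 :=
  ((h.Eμ' hm).le_iff Eb.one).2 (by linarith [h.lμ_le hm, h.cl_pos])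
/-- `w ≤ n^{-1/10}` -/
theorem wt_le (h : Ctx β c0 C0 K η p) (hm : p.Mem τ y) :
    p.wt τ y ≤ (p.n : ℝ) ^ (-(1 : ℝ) / 10) :=
  ((h.Ewt hm).le_iff (h.Epow _)).2 (by linarith [h.lμ_ge hm, h.cl_le, h.l2])
theorem wt_le_one (h : Ctx β c0 C0 K η p) (hm : p.Mem τ y) : p.wt τ y ≤ 1 :=
  ((h.Ewt hm).le_iff Eb.one).2 (by linarith [h.lμ_ge hm, h.cl_le, h.l2])
theorem wt_cube (h : Ctx β c0 C0 K η p) (hm : p.Mem τ y) :
    p.n * p.μ τ y * p.wt τ y ^ 3 = 1 := by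
  have := (h.En.mul (h.Eμ' hm)).mul ((h.Ewt hm).pow (k := 3))
  rw [this, exp_eq_one_iff]; push_cast; ring
theorem Ems (h : Ctx β c0 C0 K η p) (hm : p.Mem τ y) {t : ℝ} (ht : 0 < t) :
    Eb (p.ms τ y t) (log τ - p.c * log p.n +
      2 * max (log p.s + 1 / 7 * (p.c * log p.n) - 1 / 6 * log p.n) (min (log t) (log y))) := by
  simpa [Pm.ms, sub_eq_add_neg] using ((h.Eτ hm).mul h.Eκ).mul
    ((h.Er.max ((Eb.log ht).min (h.Ey hm))).pow (k := 2))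
theorem ms_mono (h : Ctx β c0 C0 K η p) (hm : p.Mem τ y) : Monotone (p.ms τ y) :=
  fun _ _ e => mul_le_mul_of_nonneg_left
    (pow_le_pow_left₀ (le_max_of_le_left h.r_pos.le) (max_le_max le_rfl (min_le_min e le_rfl)) 2)
    (mul_pos (h.τ_pos hm) h.κ_pos).le
theorem eps_le_ms (h : Ctx β c0 C0 K η p) (hm : p.Mem τ y) (t : ℝ) : p.eps τ ≤ p.ms τ y t :=
  mul_le_mul_of_nonneg_left (pow_le_pow_left₀ h.r_pos.le (le_max_left _ _) 2)
    (mul_pos (h.τ_pos hm) h.κ_pos).le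
theorem ms_le_μ (h : Ctx β c0 C0 K η p) (hm : p.Mem τ y) (t : ℝ) : p.ms τ y t ≤ p.μ τ y :=
  mul_le_mul_of_nonneg_left (pow_le_pow_left₀ (le_max_of_le_left h.r_pos.le)
    (max_le (h.r_le_y hm) (min_le_right _ _)) 2) (mul_pos (h.τ_pos hm) h.κ_pos).le
theorem ms_pos (h : Ctx β c0 C0 K η p) (hm : p.Mem τ y) (t : ℝ) : 0 < p.ms τ y t :=
  (h.eps_pos hm).trans_le (h.eps_le_ms hm t)
theorem ms_of_ge (h : Ctx β c0 C0 K η p) (hm : p.Mem τ y) {t : ℝ} (ht : y ≤ t) :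
    p.ms τ y t = p.μ τ y := by
  rw [Pm.ms, min_eq_right ht, max_eq_right (h.r_le_y hm), Pm.μ]
theorem ms_of_mid (_ : Ctx β c0 C0 K η p) {t : ℝ} (h1 : p.r ≤ t) (h2 : t ≤ y) :
    p.ms τ y t = τ * p.κ * t ^ 2 := by
  rw [Pm.ms, min_eq_left h2, max_eq_right h1]
/-- doubling: `ms (k t) ≤ k² ms t` for `k ≥ 1` -/
theorem ms_mul (h : Ctx β c0 C0 K η p) (hm : p.Mem τ y) {k : ℝ} (hk : 1 ≤ k) (t : ℝ) :
    p.ms τ y (k * t) ≤ k ^ 2 * p.ms τ y t := by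
  have hr := h.r_pos
  have hy := h.y_pos hm
  have e : max p.r (min (k * t) y) ≤ k * max p.r (min t y) := by
    refine max_le ((le_mul_of_one_le_left hr.le hk).trans
      (mul_le_mul_of_nonneg_left (le_max_left _ _) (by linarith))) ?_
    refine le_trans ?_ (mul_le_mul_of_nonneg_left (le_max_right _ _) (by linarith))
    rw [mul_min_of_nonneg _ _ (by linarith : (0 : ℝ) ≤ k)]
    exact min_le_min le_rfl (le_mul_of_one_le_left hy.le hk)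
  have := pow_le_pow_left₀ (le_max_of_le_left hr.le) e 2
  have h2 := mul_le_mul_of_nonneg_left this (mul_pos (h.τ_pos hm) h.κ_pos).le
  simp only [Pm.ms]
  nlinarith [h2]

/-! sizes and root tilts -/

theorem m_pos (h : Ctx β c0 C0 K η p) (hm : p.n ≤ m) : (0 : ℝ) < m :=
  h.n_pos.trans_le (by exact_mod_cast hm)
theorem Lm (h : Ctx β c0 C0 K η p) (hm : p.n ≤ m) : Lb (m : ℝ) (log p.n) :=
  h.En.lb.of_le (by exact_mod_cast hm)
theorem Um (h : Ctx β c0 C0 K η p) (hm : m ≤ 2 * p.n) : Ub (m : ℝ) (log p.n + 1) := by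
  refine ⟨Nat.cast_nonneg m, ?_⟩
  have e : (m : ℝ) ≤ 2 * p.n := by exact_mod_cast hm
  rw [exp_add, ← h.En]
  nlinarith [add_one_le_exp (1 : ℝ), h.n_pos]
theorem a_pos (h : Ctx β c0 C0 K η p) (ha : p.amin ≤ a) : 0 < a := h.amin_pos.trans_le ha
theorem La (h : Ctx β c0 C0 K η p) (ha : p.amin ≤ a) : Lb a (-(1 / 6 * log p.n) - 1) :=
  h.Lamin.of_le ha
theorem Ua (h : Ctx β c0 C0 K η p) (h0 : 0 ≤ a) (ha : a ≤ p.amax) :
    Ub a (log p.s + 1 / 14 * (p.c * log p.n) - 1 / 6 * log p.n) := h.Eamax.ub.of_le h0 ha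

end Ctx

/-- the context holds eventually on `All` -/
theorem ev_ctx (β K : ℝ) {c0 C0 c η : ℝ} {A : ℕ} (h0 : 0 < c0) (h1 : 1 ≤ C0) (hA : 2 ≤ A)
    (hc : 0 < c) (hc' : c ≤ 1 / 200) (hη : 0 < η) :
    ∀ᶠ n : ℕ in atTop, All β c0 C0 A c n (Ctx β c0 C0 K η) :=
  Fin'.ev ⟨K, fun _ _ _ h => h⟩ h0 h1 hA hc hc' hη

/-- usage: `C log n √(n μ) r ^ 3 ≤ n ^ (-c / 100) s ^ 5` along the path, with a loss `Λ ^ 2` -/
example (β C : ℝ) (hC : 0 ≤ C) : Gain β fun δ p => ∀ τ y, p.Mem τ y →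
    C * log p.n * √(p.n * p.μ τ y) * p.r ^ 3 ≤ δ * p.s ^ 5 :=
  Gain.introF (Par.triv.mono fun _ _ _ c _ _ _ hc _ _ =>
    ⟨c / 100, by positivity, c / 100, by positivity, C + 1, fun p _ e h τ y hm => by
      subst e
      have := h.En; have := h.El; have := h.Eμ' hm; have := h.Er; have := h.Es
      have := h.Epow (-(p.c / 100)); have := Ub.self hC le_rfl
      have := h.lμ_le hm; have := h.sg_nn; have := h.cl_pos; have := h.big.le'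
      have := h.big.ll; have := h.big.le
      have : log (log (p.n : ℝ)) ≤ (C + 1) * log (log p.n) := by nlinarith
      num⟩)

end Crest.Agent.T156.Alt

end
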