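import Crest.Agent.T156.CaERic_43

/-!
# Row 156: exponential Riccati, instances and tail forms (helper43)
-/

set_option autoImplicit false
set_option linter.unusedSectionVars false

noncomputable section

namespace Crest.Agent.T156.Cas.ERic43

open MeasureTheory Real Set Filter Topology Matrix
open Crest.Agent.T157.E Crest.Agent.T157.Casc Crest.Agent.T157.SL

variable {Ω : Type} [Fintype Ω] {w : Ω → ℝ}

omit [Fintype Ω] in
/-- a window made of copies of one level `l` sees every unit direction of `l` -/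
theorem sees_lv (l : Lv Ω) (η : l.ι → ℝ) (hη : ∑ i, η i ^ 2 ≤ 1) (D : List (ℝ × ℝ)) :
    Sees (D.map fun p => lv l p.1 p.2) (l.fld η) fun j => √(D.getD j 0).1 := by
  induction D with
  | nil => intro j hj; simp at hj
  | cons p D ih =>
    intro j hj
    cases j with
    | zero =>
      refine ⟨η, 0, fun x => ?_, hη⟩
      show ∑ i, √p.1 * l.A x i * η i = √p.1 * ∑ i, l.A x i * η i + 0
      simp [Finset.mul_sum, mul_assoc]
    | succ j => exact ih j (by simpa using hj)

omit [Fintype Ω] in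
theorem SS_lv (l : Lv Ω) : ∀ (D : List (ℝ × ℝ)), (∀ p ∈ D, 0 ≤ p.1) →
    SS (D.map fun p => lv l p.1 p.2) (fun j => √(D.getD j 0).1) = (D.map fun p => p.2 * p.1).sum
  | [], _ => by simp [SS]
  | p :: D, h => by
    have ih := SS_lv l D fun q hq => h q (List.mem_cons_of_mem _ hq)
    simp only [SS, List.map_cons, List.length_cons, Finset.sum_range_succ', List.sum_cons] at ih ⊢
    rw [add_comm, ← ih]
    congr 1
    simp [T157.Casc.ex, sq_sqrt (h p List.mem_cons_self)]

/-- **window of copies of one level**: `D` lists (variance, tilt); any direction `η` of `l` -/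
theorem eric_lv (hw : Wt w) (l : Lv Ω) (D : List (ℝ × ℝ)) (N : List (Lv Ω)) {x : ℝ} (hx : 0 < x)
    (hx2 : x ≤ 2) (hD : ∀ p ∈ D, 0 ≤ p.1 ∧ x ≤ p.2) (hN : ∀ k ∈ N, x / 2 ≤ k.m)
    (hS : 0 < (D.map fun p => p.2 * p.1).sum) (η : l.ι → ℝ) (t : ℝ) (h : Ω → ℝ) :
    node w ((D.map fun p => lv l p.1 p.2) ++ N) D.length
        (fun z => Pf w N z fun s => exp (t * (l.fld η s - Pf w N z (l.fld η)))) h ≤
      exp (2 * t ^ 2 * (∑ i, η i ^ 2) / (x * (D.map fun p => p.2 * p.1).sum)) ∧
    ∀ k, node w ((D.map fun p => lv l p.1 p.2) ++ N) D.length (fun z => node w N k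
        (fun z' => exp (t * (Pf w (N.drop k) z' (l.fld η) - Pf w N z (l.fld η)))) z) h ≤
      exp (2 * t ^ 2 * (∑ i, η i ^ 2) / (x * (D.map fun p => p.2 * p.1).sum)) := by
  obtain ⟨r, η', h1, rfl, h2⟩ : ∃ (r : ℝ) (η' : l.ι → ℝ), ∑ i, η' i ^ 2 ≤ 1 ∧ η = r • η' ∧
      r ^ 2 = ∑ i, η i ^ 2 := by
    set s := ∑ i, η i ^ 2 with hs
    have s0 : 0 ≤ s := by positivity
    rcases s0.eq_or_lt with h0 | h0
    · refine ⟨0, 0, by simp, ?_, by simpa using h0⟩
      funext i
      have := (Finset.sum_eq_zero_iff_of_nonneg fun i _ => sq_nonneg (η i)).1 (hs ▸ h0.symm) i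
        (Finset.mem_univ i)
      simpa using this
    · have p := sqrt_pos.2 h0
      refine ⟨√s, (√s)⁻¹ • η, le_of_eq ?_, by rw [smul_smul, mul_inv_cancel₀ p.ne', one_smul],
        sq_sqrt s0⟩
      simp only [Pi.smul_apply, smul_eq_mul, mul_pow, ← Finset.mul_sum, inv_pow, sq_sqrt s0]
      exact inv_mul_cancel₀ h0.ne'
  have e := SS_lv l D fun p hp => (hD p hp).1
  have key := eRicStmt Ω w hw (D.map fun p => lv l p.1 p.2) N x (l.fld η') _ hx hx2
    (fun k hk => by obtain ⟨p, hp, rfl⟩ := List.mem_map.1 hk; exact (hD p hp).2) hN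
    (sees_lv l η' h1 D) (e ▸ hS) (t * r) h
  have eP : ∀ (L : List (Lv Ω)) z, Pf w L z (l.fld (r • η')) = r * Pf w L z (l.fld η') := by
    intro L z
    simp only [fld_smul, Pf, Finset.mul_sum, Pi.smul_apply, smul_eq_mul]
    exact Finset.sum_congr rfl fun s _ => by ring
  rw [e, List.length_map, mul_pow, h2, ← mul_assoc] at key
  simp only [eP]
  simpa only [fld_smul, Pi.smul_apply, smul_eq_mul, ← mul_sub, mul_assoc] using key

/-- the quadratic form as a direction of the `W` level -/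
theorem Jw_fld (n : ℕ) (β : ℝ) (A : Fin n × Fin n → ℝ) (s : Cube n) :
    (T157.G1.Jw n β).fld A s =
      β / 2 * (√2 / √n) * ∑ p : Fin n × Fin n, A p * (sv s p.1 * sv s p.2) := by
  simp only [Lv.fld, Finset.mul_sum]
  exact Finset.sum_congr rfl fun p _ => by ring

/-! ### from exponential moments to tails -/

/-- Chernoff for a node expectation: any continuous `χ ≤ 1` supported in `{Y ≥ u}` -/
theorem node_tail (hw : Wt w) (L : List (Lv Ω)) (j : ℕ) (h : Ω → ℝ) {Y χ : (Ω → ℝ) → ℝ}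
    (hY : Lg Y) (hχ : Eg χ) {u v : ℝ} (hv : 0 < v) (hu : 0 ≤ u) (h1 : ∀ z, χ z ≤ 1)
    (h0 : ∀ z, Y z < u → χ z ≤ 0)
    (H : ∀ t, 0 ≤ t → node w L j (fun z => exp (t * Y z)) h ≤ exp (v * t ^ 2)) :
    node w L j χ h ≤ exp (-(u ^ 2 / (4 * v))) := by
  set t := u / (2 * v) with ht
  have t0 : 0 ≤ t := by positivity
  have h2 := node_mono hw hχ ((hY.exp t).const_mul (exp (-(t * u)))) (fun z => by
    rcases lt_or_ge (Y z) u with hz | hz
    · exact (h0 z hz).trans (by positivity)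
    · rw [← exp_add]
      refine (h1 z).trans (one_le_exp ?_)
      nlinarith [mul_le_mul_of_nonneg_left hz t0]) L j h
  rw [node_const_mul] at h2
  refine h2.trans ((mul_le_mul_of_nonneg_left (H t t0) (exp_pos _).le).trans (le_of_eq ?_))
  rw [← exp_add, ht]
  congr 1
  field_simp
  ring

theorem pow_le_cosh (y : ℝ) (k : ℕ) :
    y ^ (2 * k) ≤ (2 * k).factorial * (exp y + exp (-y)) := by
  have h := Real.pow_div_factorial_le_exp |y| (abs_nonneg y) (2 * k)
  have p : (0 : ℝ) < (2 * k).factorial := by positivity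
  rw [div_le_iff₀ p, pow_mul, sq_abs, ← pow_mul, mul_comm (exp _)] at h
  refine h.trans (mul_le_mul_of_nonneg_left ?_ p.le)
  rcases abs_cases y with ⟨e, -⟩ | ⟨e, -⟩ <;> rw [e] <;> linarith [exp_pos y, exp_pos (-y)]

/-- even moments from two-sided exponential moments -/
theorem node_mom (hw : Wt w) (L : List (Lv Ω)) (j : ℕ) (h : Ω → ℝ) {Y : (Ω → ℝ) → ℝ}
    (hY : Lg Y) {v : ℝ} (hv : 0 < v)
    (H : ∀ t, node w L j (fun z => exp (t * Y z)) h ≤ exp (v * t ^ 2)) (k : ℕ) :
    node w L j (fun z => Y z ^ (2 * k)) h ≤ 2 * exp 1 * (2 * k).factorial * v ^ k := by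
  have p := sqrt_pos.2 hv
  set t := (√v)⁻¹ with ht
  have e1 : v * t ^ 2 = 1 := by rw [ht, inv_pow, sq_sqrt hv.le, mul_inv_cancel₀ hv.ne']
  have h1 := H t
  have h2 := H (-t)
  rw [neg_sq] at h2
  rw [e1] at h1 h2
  have h3 := node_mono hw (hY.eg.pow (2 * k))
    (((hY.exp t).add (hY.exp (-t))).const_mul ((2 * k).factorial * v ^ k)) (fun z => by
      have h4 := pow_le_cosh (t * Y z) k
      have e2 : Y z ^ (2 * k) = v ^ k * (t * Y z) ^ (2 * k) := by
        rw [mul_pow, pow_mul t, ← mul_assoc, ← mul_pow, e1, one_pow, one_mul]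
      rw [e2, neg_mul, mul_comm _ (v ^ k), mul_assoc]
      exact mul_le_mul_of_nonneg_left h4 (by positivity)) L j h
  rw [node_const_mul, node_add hw (hY.exp t) (hY.exp (-t))] at h3
  refine h3.trans ?_
  have : (0 : ℝ) ≤ (2 * k).factorial * v ^ k := by positivity
  nlinarith

end Crest.Agent.T156.Cas.ERic43

end
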