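import Crest.Agent.T156.CaSp_38

/-!
# Row 156 (helper38): the smart path on replica trees, replica form

`hasDerivAt_tX_t`: the derivative of `t ↦ tX w s (atL L t) h F` as a sum over grafted trees.
-/

set_option autoImplicit false
set_option linter.unusedSectionVars false

noncomputable section

namespace Crest.Agent.T156.Cas

open MeasureTheory Real Set Filter Topology
open Crest.Agent.T157.E Crest.Agent.T157.Casc Crest.Agent.T157.SL

variable {Ω : Type}

/-- the weight of the node `(a, j)` for a new replica, the root included (total: number of leaves) -/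
def cw (s : Sh) (L : List (Lv Ω)) (a : s.Lf) (j : ℕ) : ℝ :=
  cf s L a j + if a = s.fst ∧ j = 0 then s.br * ex L 0 else 0

theorem sum_cw_mul (s : Sh) (L : List (Lv Ω)) (n : ℕ) (G : s.Lf → ℕ → ℝ) :
    ∑ a, ∑ j ∈ Finset.range (n + 1), cw s L a j * G a j =
      ∑ a, ∑ j ∈ Finset.range (n + 1), cf s L a j * G a j + s.br * ex L 0 * G s.fst 0 := by
  simp only [cw, add_mul, Finset.sum_add_distrib, Sd.sum_ite]

theorem sum_cw (s : Sh) (L : List (Lv Ω)) :
    ∑ a, ∑ j ∈ Finset.range (L.length + 1), cw s L a j = Fintype.card s.Lf := by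
  have := sum_cw_mul s L L.length fun _ _ => 1
  simp only [mul_one] at this
  rw [this, sum_cf]
  ring

theorem cw_nonneg (s : Sh) {L : List (Lv Ω)} (hL : Mono 0 L) (a : s.Lf) (j : ℕ) :
    0 ≤ cw s L a j := by
  have h1 : 0 ≤ ex L 0 := by simpa [dm, exP] using dm_nonneg hL 0
  refine add_nonneg (cf_nonneg s L 0 le_rfl hL a j) ?_
  split_ifs
  · positivity
  · exact le_rfl

theorem shr_zero38 : ∀ (s : Sh) (a b : s.Lf), s.shr a b 0 = 0
  | .one, _, _ => rfl
  | .step _, _, _ => rfl
  | .split s _, .inl a, .inl b => shr_zero38 s a b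
  | .split _ t, .inr a, .inr b => shr_zero38 t a b
  | .split _ _, .inl _, .inr _ => rfl
  | .split _ _, .inr _, .inl _ => rfl

variable [Fintype Ω] {w : Ω → ℝ}

namespace Sp38

open Gf

/-- the new leaf has the path law of the node -/
def Gf2 (w : Ω → ℝ) (s s' : Sh) (e : s.Lf → s'.Lf) (ν : s'.Lf) (a : s.Lf) (j : ℕ) : Prop :=
  ∀ (L : List (Lv Ω)) (h : Ω → ℝ) (F : Pa s.Lf Ω → (s.Lf → Ω) → ℝ) (Φ : Ω → (Ω → ℝ) → ℝ) (i : ℕ),
    (∀ x, EgP fun p => F p x) → (∀ y, Eg (Φ y)) →
    tX w s' L h (fun g x => F (fun b => stT s' L h g (e b)) (fun b => x (e b)) *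
        Φ (x ν) (stT s' L h g ν (i + j))) =
      tX w s L h fun g x => F (stT s L h g) x * node w (L.drop j) i
        (fun z => ∑ y, P w (L.drop (i + j)) z y * Φ y z) (stT s L h g a j)

theorem egL {κ κ' : Type} {F : Pa κ Ω → ℝ} (hF : EgP F) (e : κ → κ') {Φ : (Ω → ℝ) → ℝ}
    (hΦ : Eg Φ) (ν : κ') (k : ℕ) : EgP fun p : Pa κ' Ω => F (fun b => p (e b)) * Φ (p ν k) :=
  (egP_emb hF e).mul (EgP.state hΦ ν k)

theorem egR (hw : Wt w) {κ : Type} {F : Pa κ Ω → ℝ} (hF : EgP F) {Φ : Ω → (Ω → ℝ) → ℝ}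
    (hΦ : ∀ y, Eg (Φ y)) (M M' : List (Lv Ω)) (i : ℕ) (a : κ) (j : ℕ) :
    EgP fun p : Pa κ Ω => F p * node w M i (fun z => ∑ y, P w M' z y * Φ y z) (p a j) :=
  hF.mul (EgP.state ((Eg.sum _ fun y _ => (eg_P hw M' y).mul (hΦ y)).node hw M i) a j)

theorem gf2_zero (hw : Wt w) (s : Sh) (a : s.Lf) :
    Gf2 w s (.split s .one) Sum.inl (.inr ()) a 0 := fun L h F Φ i hF hΦ => by
  refine (Tr.tX_split hw s .one L h _ fun x =>
    (egL (hF _) Sum.inl (hΦ _) _ _).stT (s := .split s .one) L h).trans ?_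
  congr 1
  funext g x
  rw [Sd.stT_zero, List.drop_zero, add_zero, ← Pe.pE_node hw Φ hΦ, ← Pe.pE_const_mul]
  exact Tr.tX_one w L h _

theorem gf2_step (hw : Wt w) {s s' : Sh} {e : s.Lf → s'.Lf} {ν : s'.Lf} {a : s.Lf} {j : ℕ}
    (H : Gf2 w s s' e ν a j) : Gf2 w (.step s) (.step s') e ν a (j + 1)
  | [], h, F, Φ, i, hF, hΦ => by
      refine (Tr.tX_step_nil w s' h _).trans (Eq.trans ?_ ((H [] h F Φ i hF hΦ).trans ?_))
      · congr 1
        funext g x
        exact congrArg (fun z => _ * Φ (x ν) z)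
          ((Sd.stT_nil s' h g ν _).trans (Sd.stT_nil s' h g ν _).symm)
      refine Eq.trans ?_ (Tr.tX_step_nil w s h _).symm
      congr 1
      funext g x
      simp only [List.drop_nil]
      exact congrArg (fun z => _ * node w [] i _ z)
        ((Sd.stT_nil s h g a _).trans (Sd.stT_nil s h g a _).symm)
  | l :: L, h, F, Φ, i, hF, hΦ => by
      refine (Tr.tX_step_cons hw s' l L h _ fun x =>
        (egL (hF _) e (hΦ _) _ _).stT (s := .step s') _ h).trans ?_
      refine Eq.trans ?_ (Tr.tX_step_cons hw s l L h _ fun x =>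
        (egR hw (hF x) hΦ _ _ i a (j + 1)).stT (s := .step s) _ h).symm
      congr 2
      funext g
      congr 1
      have := H L (h + l.fld g) (fun p => F fun b => cons h (p b)) Φ i
        (fun x => egP_cons (hF x) h) hΦ
      simp only [stT_step]
      refine this.trans ?_
      congr 1
      funext g' x
      congr 2
      funext b
      exact (stT_step s l L h g g' b).symm

theorem gf2_inl (hw : Wt w) {s s' : Sh} (t : Sh) {e : s.Lf → s'.Lf} {ν : s'.Lf} {a : s.Lf} {j : ℕ}
    (H : Gf2 w s s' e ν a j) :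
    Gf2 w (.split s t) (.split s' t) (Sum.map e id) (.inl ν) (.inl a) j :=
    fun L h F Φ i hF hΦ => by
  refine (tX_split' hw s' t L h _ fun x =>
    (egL (hF _) (Sum.map e id) (hΦ _) _ _).stT (s := .split s' t) _ h).trans ?_
  refine Eq.trans ?_ (tX_split' hw s t L h _ fun x =>
    (egR hw (hF x) hΦ _ _ i (.inl a) j).stT (s := .split s t) _ h).symm
  congr 1
  funext g' x'
  have := H L h (fun p x => F (Sum.elim p (stT t L h g')) (Sum.elim x x')) Φ i
    (fun x => egP_inl (hF _) _) hΦ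
  simp only [stT_split]
  refine Eq.trans ?_ this
  congr 1
  funext g x
  congr 2
  · funext b; cases b <;> rfl
  · funext b; cases b <;> rfl

theorem gf2_inr (hw : Wt w) (s : Sh) {t t' : Sh} {e : t.Lf → t'.Lf} {ν : t'.Lf} {a : t.Lf} {j : ℕ}
    (H : Gf2 w t t' e ν a j) :
    Gf2 w (.split s t) (.split s t') (Sum.map id e) (.inr ν) (.inr a) j :=
    fun L h F Φ i hF hΦ => by
  refine (Tr.tX_split hw s t' L h _ fun x =>
    (egL (hF _) (Sum.map id e) (hΦ _) _ _).stT (s := .split s t') _ h).trans ?_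
  refine Eq.trans ?_ (Tr.tX_split hw s t L h _ fun x =>
    (egR hw (hF x) hΦ _ _ i (.inr a) j).stT (s := .split s t) _ h).symm
  congr 1
  funext g x
  have := H L h (fun p x' => F (Sum.elim (stT s L h g) p) (Sum.elim x x')) Φ i
    (fun x => egP_inr (hF _) _) hΦ
  simp only [stT_split]
  refine Eq.trans ?_ this
  congr 1
  funext g' x'
  congr 2
  · funext b; cases b <;> rfl
  · funext b; cases b <;> rfl

theorem gf2_one {s' : Sh} {e : Unit → s'.Lf} {ν : s'.Lf} {j : ℕ}
    (H : Gf2 w (.step .one) s' e ν () j) : Gf2 w .one s' e ν () j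
  | [], h, F, Φ, i, hF, hΦ => (H [] h F Φ i hF hΦ).trans (Tr.tX_step_nil w .one h _)
  | l :: L, h, F, Φ, i, hF, hΦ => by
      refine (H (l :: L) h F Φ i hF hΦ).trans (Eq.trans ?_ (tX_one_cons w l L h _).symm)
      congr 1
      funext g x
      have : stT (.step .one) (l :: L) h g = stT .one (l :: L) h g := by
        funext a k; cases k <;> rfl
      rw [this]

theorem gf2_two (hw : Wt w) : ∀ j : ℕ,
    Gf2 w .one (Sh.two j) (fun _ => Sh.twoL j) (Sh.twoR j) () j
  | 0 => gf2_zero hw .one ()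
  | j + 1 => gf2_one (gf2_step hw (gf2_two hw j))

theorem gf2_graft (hw : Wt w) : ∀ (s : Sh) (a : s.Lf) (j : ℕ),
    Gf2 w s (s.graft a j) (s.emb a j) (s.nw a j) a j
  | .one, _, j => gf2_two hw j
  | .step s, a, 0 => gf2_zero hw (.step s) a
  | .step s, a, j + 1 => gf2_step hw (gf2_graft hw s a j)
  | .split s t, .inl a, j => gf2_inl hw t (gf2_graft hw s a j)
  | .split s t, .inr a, j => gf2_inr hw s (gf2_graft hw t a j)

end Sp38

/-- **the grafted leaf has the path law of the node** -/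
theorem tX_graft_path (hw : Wt w) (s : Sh) (a : s.Lf) (j i : ℕ) (L : List (Lv Ω)) (h : Ω → ℝ)
    (F : Pa s.Lf Ω → (s.Lf → Ω) → ℝ) (Φ : Ω → (Ω → ℝ) → ℝ) (hF : ∀ x, EgP fun p => F p x)
    (hΦ : ∀ y, Eg (Φ y)) :
    tX w (s.graft a j) L h (fun g x => F (fun b => stT (s.graft a j) L h g (s.emb a j b))
        (fun b => x (s.emb a j b)) * Φ (x (s.nw a j)) (stT (s.graft a j) L h g (s.nw a j) (i + j))) =
      tX w s L h fun g x => F (stT s L h g) x * node w (L.drop j) i
        (fun z => ∑ y, P w (L.drop (i + j)) z y * Φ y z) (stT s L h g a j) :=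
  Sp38.gf2_graft hw s a j L h F Φ i hF hΦ

/-- one new leaf -/
theorem graft_leaf (hw : Wt w) (s : Sh) (a : s.Lf) (j : ℕ) (L : List (Lv Ω)) (h : Ω → ℝ)
    (G : (s.Lf → Ω) → Ω → ℝ) :
    tX w (s.graft a j) L h (fun _ x => G (fun b => x (s.emb a j b)) (x (s.nw a j))) =
      tX w s L h fun g x => ∑ y, P w (L.drop j) (stT s L h g a j) y * G x y :=
  tX_graft hw s a j L h (fun _ => G) fun _ _ => .const _

/-- two new leaves, the second one split from the first one -/
theorem graft_pi2 (hw : Wt w) (s : Sh) (a : s.Lf) (j i : ℕ) (L : List (Lv Ω)) (h : Ω → ℝ)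
    (F : (s.Lf → Ω) → ℝ) (K : Ω → Ω → ℝ) :
    tX w ((s.graft a j).graft (s.nw a j) (i + j)) L h (fun _ x =>
        F (fun b => x ((s.graft a j).emb (s.nw a j) (i + j) (s.emb a j b))) *
          K (x ((s.graft a j).emb (s.nw a j) (i + j) (s.nw a j)))
            (x ((s.graft a j).nw (s.nw a j) (i + j)))) =
      tX w s L h fun g x => F x * pi2 w (L.drop j) i K (stT s L h g a j) := by
  rw [graft_leaf hw (s.graft a j) (s.nw a j) (i + j) L h
    fun x y => F (fun b => x (s.emb a j b)) * K (x (s.nw a j)) y]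
  have := tX_graft_path hw s a j i L h (fun _ => F)
    (fun y z => ∑ y', P w (L.drop (i + j)) z y' * K y y') (fun _ => .const _)
    fun y => Eg.sum _ fun y' _ => (eg_P hw _ y').mul_const _
  simp only [mul_left_comm _ (F _), ← Finset.mul_sum]
  rw [this]
  simp only [pi2, qf, List.drop_drop, add_comm j i, Finset.mul_sum, mul_assoc]

namespace Sp38

theorem eg_lin {ι : Type} [Fintype ι] (η : ι → ℝ) : Eg fun g : ι → ℝ => ∑ i, η i * g i :=
  Eg.sum _ fun i _ => (Eg.coord i).const_mul _

theorem eg_node (s : Sh) (L : List (Lv Ω)) (h : Ω → ℝ) {Φ : (Ω → ℝ) → ℝ} (hΦ : Eg Φ) (a : s.Lf)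
    (j : ℕ) : Eg fun g => Φ (stT s L h g a j) := (EgP.state hΦ a j).stT L h

theorem fs1_zero (φ : Sel Ω) (u : ℝ) : ∀ (L : List (TL Ω)) (y : Ω), fs1 φ u L 0 y = 0
  | [], _ => rfl
  | _ :: _, _ => rfl

theorem fs_zero (φ : Sel Ω) (u : ℝ) : ∀ (s : Sh) (L : List (TL Ω)) (a : s.Lf) (y : Ω)
    (i : NT s (atL L u)), fs φ u s L a 0 y i = 0
  | .one, L, _, y, i => congrFun (fs1_zero φ u L y) i
  | .step s, [], a, y, i => fs_zero φ u s [] a y i
  | .step _, _ :: _, _, _, _ => rfl
  | .split s _, L, .inl a, y, .inl i => fs_zero φ u s L a y i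
  | .split _ _, _, .inl _, _, .inr _ => rfl
  | .split _ _, _, .inr _, _, .inl _ => rfl
  | .split _ s, L, .inr a, y, .inr i => fs_zero φ u s L a y i

variable {I : Set ℝ} {L : List (TL Ω)} {u : ℝ}

theorem eg_D0 (hw : Wt w) (hI : IsOpen I) (hL : ∀ l ∈ L, l.OkD I) (hu : u ∈ I) :
    Eg fun z => D0 w L (u, z) := by
  classical
  exact eg_of_EG (sm_XP hI hw hL).ega hu

/-- splitting of the raw derivative -/
theorem raw_eq (hw : Wt w) (hI : IsOpen I) (hL : ∀ l ∈ L, l.OkD I) (hu : u ∈ I) (s : Sh)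
    (h : Ω → ℝ) (F : (s.Lf → Ω) → ℝ) :
    tX w s (atL L u) h (fun g x => ee' w u s L h x (u, g) * F x) =
      ∑ a, tX w s (atL L u) h (fun g x =>
        (∑ i, fs (fun l => l.A' u) u s L a L.length (x a) i * g i) * F x) -
      ∑ a, ∑ j ∈ Finset.range (L.length + 1), cw s (atL L u) a j *
        (tX w s (atL L u) h (fun g x => F x * D0 w (L.drop j) (u, stT s (atL L u) h g a j)) +
        ∑ y, tX w s (atL L u) h fun g x => (∑ i, fs (fun l => l.A' u) u s L a j y i * g i) *
          (P w ((atL L u).drop j) (stT s (atL L u) h g a j) y * F x)) := by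
  have g1 : ∀ a x, Eg fun g : NT s (atL L u) → ℝ =>
      (∑ i, fs (fun l => l.A' u) u s L a L.length (x a) i * g i) * F x :=
    fun a x => (eg_lin _).mul_const _
  have g2 : ∀ a j x, Eg fun g => F x * D0 w (L.drop j) (u, stT s (atL L u) h g a j) :=
    fun a j x => (eg_node s _ h (eg_D0 hw hI (okD_drop hL j) hu) a j).const_mul _
  have g3 : ∀ a j y x, Eg fun g : NT s (atL L u) → ℝ =>
      (∑ i, fs (fun l => l.A' u) u s L a j y i * g i) *
        (P w ((atL L u).drop j) (stT s (atL L u) h g a j) y * F x) :=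
    fun a j y x => (eg_lin _).mul ((eg_node s _ h (eg_P hw _ y) a j).mul_const _)
  have g4 := fun a j x => ((g2 a j x).add (Eg.sum Finset.univ fun y _ => g3 a j y x)).const_mul
    (cw s (atL L u) a j)
  simp only [fun a j => (Sd.tX_sum hw s _ h Finset.univ fun y _ => g3 a j y).symm,
    fun a j => (Sd.tX_add hw s _ h (g2 a j) fun x => Eg.sum Finset.univ fun y _ => g3 a j y x).symm,
    ← Sd.tX_const_mul]
  simp only [fun a => (Sd.tX_sum hw s _ h (Finset.range (L.length + 1)) fun j _ => g4 a j).symm]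
  rw [← Sd.tX_sum hw s _ h _ fun a _ x => Eg.sum _ fun j _ => g4 a j x,
    ← Sd.tX_sum hw s _ h _ fun a _ => g1 a,
    ← Sd.tX_sub hw s _ h (fun x => Eg.sum _ fun a _ => g1 a x)
      fun x => Eg.sum _ fun a _ => Eg.sum _ fun j _ => g4 a j x]
  congr 1
  funext g x
  rw [sum_cw_mul]
  simp only [ee', pa_self, pa', PP, drop_at, fs_zero, zero_mul, Finset.sum_const_zero, add_zero,
    Sd.stT_zero, List.drop_zero, sub_mul, neg_mul, Finset.sum_mul]
  have e : ∀ a j, cf s (atL L u) a j * (D0 w (L.drop j) (u, stT s (atL L u) h g a j) +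
      ∑ y, P w (atL (L.drop j) u) (stT s (atL L u) h g a j) y *
        ∑ i, fs (fun l => l.A' u) u s L a j y i * g i) * F x =
      cf s (atL L u) a j * (F x * D0 w (L.drop j) (u, stT s (atL L u) h g a j) +
        ∑ y, ∑ i, fs (fun l => l.A' u) u s L a j y i * g i *
          (P w (atL (L.drop j) u) (stT s (atL L u) h g a j) y * F x)) := fun a j => by
    rw [mul_assoc, add_mul, Finset.sum_mul]
    congr 2
    · ring
    · exact Finset.sum_congr rfl fun y _ => by rw [← Finset.sum_mul]; ring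
  simp only [e]
  ring

/-- the leaf terms -/
theorem t1_eq (hw : Wt w) (s : Sh) (h : Ω → ℝ) (F : (s.Lf → Ω) → ℝ) (a : s.Lf) :
    tX w s (atL L u) h (fun g x =>
        (∑ i, fs (fun l => l.A' u) u s L a L.length (x a) i * g i) * F x) =
      ∑ b, tX w s (atL L u) h (fun _ x => F x * Sacc L u (s.shr a b L.length) (x a) (x b)) -
      ∑ b, ∑ k ∈ Finset.range (L.length + 1), cw s (atL L u) b k *
        tX w (s.graft b k) (atL L u) h fun _ x => F (fun c => x (s.emb b k c)) *
          Sacc L u (s.shr a b k) (x (s.emb b k a)) (x (s.nw b k)) := by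
  have := sd_leaf hw s (atL L u) h F fun x => fs (fun l => l.A' u) u s L a L.length (x a)
  simp only [stT_dir, len_at, min_self] at this
  rw [this, sum_cw_mul]
  simp only [shr_zero38, Sacc_zero', mul_zero, show ∀ s' : Sh, tX w s' (atL L u) h
    (fun _ _ => 0) = 0 from fun s' => by simp [tX], add_zero]
  congr 1
  refine Finset.sum_congr rfl fun b _ => Finset.sum_congr rfl fun k hk => ?_
  rw [min_eq_right (Nat.lt_succ_iff.1 (Finset.mem_range.1 hk))]

/-- the node terms -/
theorem t3_eq (hw : Wt w) (s : Sh) (h : Ω → ℝ) (F : (s.Lf → Ω) → ℝ) (a : s.Lf) {j : ℕ}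
    (hj : j ≤ L.length) :
    ∑ y, tX w s (atL L u) h (fun g x => (∑ i, fs (fun l => l.A' u) u s L a j y i * g i) *
        (P w ((atL L u).drop j) (stT s (atL L u) h g a j) y * F x)) =
      tX w s (atL L u) h (fun g x => F x * ∑ y, ∑ z, Sacc L u j y z *
        Hs w ((atL L u).drop j) (stT s (atL L u) h g a j) y z) -
      ∑ b, ∑ k ∈ Finset.range (L.length + 1), cw s (atL L u) b k *
        tX w ((s.graft b k).graft (s.emb b k a) j) (atL L u) h (fun _ x =>
          F (fun c => x ((s.graft b k).emb (s.emb b k a) j (s.emb b k c))) *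
            Sacc L u (s.shr a b (min j k)) (x ((s.graft b k).nw (s.emb b k a) j))
              (x ((s.graft b k).emb (s.emb b k a) j (s.nw b k)))) +
      ∑ b, tX w (s.graft a j) (atL L u) h fun _ x => F (fun c => x (s.emb a j c)) *
        Sacc L u (s.shr a b j) (x (s.nw a j)) (x (s.emb a j b)) := by
  have h1 := fun y => stein_dir hw s (atL L u) h (fun _ => fs (fun l => l.A' u) u s L a j y)
    (F := fun p x => P w ((atL L u).drop j) (p a j) y * F x)
    (F' := fun x p q => (∑ z, Hs w ((atL L u).drop j) (p a j) y z * q a j z) * F x)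
    fun x => ((GrP.state (gr_P hw ((atL L u).drop j) y) a j).mul (GrP.const (F x))).congr
      fun _ _ => by simp
  have h2 := fun y => sd_rep hw s (atL L u) h
    (F := fun p x => P w ((atL L u).drop j) (p a j) y * F x)
    (fun x => (EgP.state (eg_P hw ((atL L u).drop j) y) a j).mul (.const _))
    fun _ => stT s (atL L u) 0 (fs (fun l => l.A' u) u s L a j y)
  simp only [h1, h2]
  simp only [stT_dir, len_at, min_self, shr_self, min_eq_left hj]
  generalize atL L u = M
  rw [Finset.sum_sub_distrib, Finset.sum_sub_distrib, ← sub_add,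
    ← Sd.tX_sum hw s M h _ fun y _ x =>
      (Eg.sum _ fun z _ => (eg_node s M h (eg_Hs hw _ y z) a j).mul_const _).mul_const _,
    sum_cw_mul]
  simp only [Nat.min_zero, shr_zero38, Sacc_zero', mul_zero, show ∀ s' : Sh, tX w s' M h
    (fun _ _ => 0) = 0 from fun s' => by simp [tX], add_zero]
  congr 1
  · congr 1
    · congr 1
      funext g x
      rw [← Finset.sum_mul, mul_comm]
      simp only [mul_comm (Sacc _ _ _ _ _)]
    · rw [Finset.sum_comm]
      refine Finset.sum_congr rfl fun b _ => ?_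
      rw [Finset.sum_comm]
      refine Finset.sum_congr rfl fun k _ => ?_
      rw [← Finset.mul_sum, graft_leaf hw (s.graft b k) (s.emb b k a) j M h fun x y =>
        F (fun c => x (s.emb b k c)) * Sacc L u (s.shr a b (min j k)) y (x (s.nw b k)),
        Sd.tX_sum hw _ M h _ fun y _ x => (eg_node _ M h (eg_P hw _ y) _ j).mul_const _]
      simp only [mul_assoc]
  · rw [Finset.sum_comm]
    refine Finset.sum_congr rfl fun b _ => ?_
    rw [graft_leaf hw s a j M h fun x y => F x * Sacc L u (s.shr a b j) y (x b),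
      Sd.tX_sum hw _ M h _ fun y _ x => (eg_node _ M h (eg_P hw _ y) _ j).mul_const _]
    simp only [mul_assoc]

/-- the moving node value together with the Hessian term -/
theorem t2_eq (hw : Wt w) (hI : IsOpen I) (hL : ∀ l ∈ L, l.OkD I) (hu : u ∈ I) (s : Sh)
    (h : Ω → ℝ) (F : (s.Lf → Ω) → ℝ) (a : s.Lf) {j : ℕ} (hj : j ≤ L.length) :
    tX w s (atL L u) h (fun g x => F x * D0 w (L.drop j) (u, stT s (atL L u) h g a j)) +
      tX w s (atL L u) h (fun g x => F x * ∑ y, ∑ z, Sacc L u j y z *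
        Hs w ((atL L u).drop j) (stT s (atL L u) h g a j) y z) =
      tX w (s.graft a j) (atL L u) h (fun _ x => F (fun c => x (s.emb a j c)) *
        Sacc L u L.length (x (s.nw a j)) (x (s.nw a j))) -
      ∑ i ∈ Finset.range (L.length - j + 1), dm ((atL L u).drop j) 0 i *
        tX w ((s.graft a j).graft (s.nw a j) (i + j)) (atL L u) h fun _ x =>
          F (fun b => x ((s.graft a j).emb (s.nw a j) (i + j) (s.emb a j b))) *
            Sacc L u (i + j) (x ((s.graft a j).emb (s.nw a j) (i + j) (s.nw a j)))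
              (x ((s.graft a j).nw (s.nw a j) (i + j))) := by
  set M := atL L u with hM
  have g5 : ∀ i x, Eg fun g => dm (M.drop j) 0 i *
      (F x * pi2 w (M.drop j) i (Sacc L u (i + j)) (stT s M h g a j)) := fun i x =>
    ((eg_node s M h (eg_pi2 hw _ i _) a j).const_mul _).const_mul _
  simp only [graft_pi2 hw, ← Sd.tX_const_mul]
  rw [graft_leaf hw s a j M h fun x y => F x * Sacc L u L.length y y,
    ← Sd.tX_sum hw s M h _ fun i _ => g5 i,
    ← Sd.tX_sub hw s M h (fun x => Eg.sum _ fun y _ => (eg_node s M h (eg_P hw _ y) a j).mul_const _)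
      fun x => Eg.sum _ fun i _ => g5 i x,
    ← Sd.tX_add hw s M h
      (fun x => (eg_node s _ h (eg_D0 hw hI (okD_drop hL j) hu) a j).const_mul _)
      fun x => (Eg.sum _ fun y _ => Eg.sum _ fun z _ =>
        (eg_node s M h (eg_Hs hw _ y z) a j).const_mul _).const_mul _]
  congr 1
  funext g x
  have e1 := D0_eq hw hu hI (L.drop j) (okD_drop hL j) 0 (stT s M h g a j)
  have e2 := sum_Hs hw (Sacc L u j) (M.drop j) 0 (stT s M h g a j)
  simp only [zero_mul, add_zero] at e2
  rw [← drop_at, ← hM] at e1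
  have e3 := pair_add hw (M.drop j) 0 (fun _ => Sacc L u j) (Sacc (L.drop j) u) (stT s M h g a j)
  have e4 : ∀ y, Sacc L u L.length y y =
      Sacc L u j y y + Sacc (L.drop j) u (L.drop j).length y y := fun y => by
    rw [← Sacc_add, List.length_drop, Nat.add_sub_cancel' hj]
  simp only [← Sacc_add] at e3
  rw [pair_eq_sum hw, List.length_drop, show M.length = L.length from len_at L u] at e3
  simp only [add_comm j] at e3
  simp only [mul_left_comm _ (F x), ← Finset.mul_sum]
  rw [e1, e2, e3]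
  simp only [e4, mul_add, Finset.sum_add_distrib]
  ring

end Sp38

/-- the derivative of a tree expectation for the kernels `S j` (`S j + (S j)ᵀ` is the derivative
of the covariance of the first `j` levels) -/
def dT (w : Ω → ℝ) (s : Sh) (M : List (Lv Ω)) (h : Ω → ℝ) (S : ℕ → Ω → Ω → ℝ)
    (F : (s.Lf → Ω) → ℝ) : ℝ :=
  ∑ a, ∑ b, tX w s M h (fun _ x => F x * S (s.shr a b M.length) (x a) (x b)) -
  ∑ a, ∑ j ∈ Finset.range (M.length + 1), cw s M a j *
    (∑ b, tX w (s.graft a j) M h (fun _ x => F (fun c => x (s.emb a j c)) *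
        S (s.shr b a j) (x (s.emb a j b)) (x (s.nw a j))) +
      ∑ b, tX w (s.graft a j) M h (fun _ x => F (fun c => x (s.emb a j c)) *
        S (s.shr a b j) (x (s.nw a j)) (x (s.emb a j b))) +
      tX w (s.graft a j) M h fun _ x => F (fun c => x (s.emb a j c)) *
        S M.length (x (s.nw a j)) (x (s.nw a j))) +
  ∑ a, ∑ j ∈ Finset.range (M.length + 1), cw s M a j *
    (∑ b, ∑ k ∈ Finset.range (M.length + 1), cw s M b k *
      tX w ((s.graft b k).graft (s.emb b k a) j) M h (fun _ x =>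
        F (fun c => x ((s.graft b k).emb (s.emb b k a) j (s.emb b k c))) *
          S (s.shr a b (min j k)) (x ((s.graft b k).nw (s.emb b k a) j))
            (x ((s.graft b k).emb (s.emb b k a) j (s.nw b k)))) +
    ∑ i ∈ Finset.range (M.length - j + 1), dm (M.drop j) 0 i *
      tX w ((s.graft a j).graft (s.nw a j) (i + j)) M h fun _ x =>
        F (fun b => x ((s.graft a j).emb (s.nw a j) (i + j) (s.emb a j b))) *
          S (i + j) (x ((s.graft a j).emb (s.nw a j) (i + j) (s.nw a j)))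
            (x ((s.graft a j).nw (s.nw a j) (i + j))))

/-- **the smart path on a replica tree** -/
theorem hasDerivAt_tX_t (hw : Wt w) {I : Set ℝ} (hI : IsOpen I) {L : List (TL Ω)}
    (hL : ∀ l ∈ L, l.C1 I) {u : ℝ} (hu : u ∈ I) (s : Sh) (h : Ω → ℝ) (F : (s.Lf → Ω) → ℝ) :
    HasDerivAt (fun t => tX w s (atL L t) h fun _ x => F x)
      (dT w s (atL L u) h (Sacc L u) F) u := by
  obtain ⟨a, c, hac, hs⟩ := exists_Icc_mem_subset_of_mem_nhds (hI.mem_nhds hu)
  have hu' : u ∈ Ioo a c := by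
    have := mem_interior_iff_mem_nhds.2 hs.1
    rwa [interior_Icc] at this
  have hD := fun l hl => (hL l hl).okD hs.2
  refine (Sp38.hasDerivAt_raw hw isOpen_Ioo hD hu' s h F).congr_deriv ?_
  rw [Sp38.raw_eq hw isOpen_Ioo hD hu', dT]
  simp only [Sp38.t1_eq hw, Sp38.len_at]
  have hc := Finset.sum_comm (s := Finset.univ) (t := Finset.univ) (f := fun a b =>
      ∑ k ∈ Finset.range (L.length + 1), cw s (atL L u) b k *
        tX w (s.graft b k) (atL L u) h fun _ x => F (fun c => x (s.emb b k c)) *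
          Sacc L u (s.shr a b k) (x (s.emb b k a)) (x (s.nw b k)))
  rw [Finset.sum_sub_distrib, hc, sub_sub, sub_add]
  congr 1
  rw [← Finset.sum_add_distrib, ← Finset.sum_sub_distrib]
  refine Finset.sum_congr rfl fun a _ => ?_
  rw [Finset.sum_comm, ← Finset.sum_add_distrib, ← Finset.sum_sub_distrib]
  refine Finset.sum_congr rfl fun j hj => ?_
  have hj' := Nat.lt_succ_iff.1 (Finset.mem_range.1 hj)
  have e2 := Sp38.t2_eq hw isOpen_Ioo hD hu' s h F a hj'
  rw [Sp38.t3_eq hw s h F a hj', ← Finset.mul_sum, ← mul_add, ← mul_sub]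
  congr 1
  linarith

end Crest.Agent.T156.Cas

end
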