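import Crest.Agent.T156.CaLaw_45
import Crest.Agent.T156.CaSpB_38
import Crest.Agent.T156.CaERicB_43
import Crest.Agent.T157.CascD_52
import Crest.Agent.T157.G1_52

/-!
# Row 156 (helper15): the one-site dictionary on replica trees and the parity bounds

General state space: response of `TE` to the state in replica form, Lipschitz bound, exponential
moments of linear functionals of the state.  One site: dictionary with `PhiL`, `EX`; the
one-dimensional recursion `T1` of a spin monomial `mo k`; parity; `|E ∏ spins| ≤ C σ_j^{r/2}`.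
-/

set_option autoImplicit false
set_option linter.unusedSectionVars false

noncomputable section

namespace Crest.Agent.T156.Cas

open MeasureTheory Real Set Filter Topology Matrix
open Crest.Agent.T157.E Crest.Agent.T157.Casc Crest.Agent.T157.SL Crest.Agent.T157.Casc.C
open Crest.Agent.R339.B Crest.Agent.R339.Var Crest.Agent.T157
open Crest.ProbabilityR.SpinGlassDynamics (spin)

namespace One15

section general
variable {Ω : Type} [Fintype Ω] {w : Ω → ℝ}

/-- the response of a tree expectation to the state, replica form -/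
def dS (w : Ω → ℝ) (s : Sh) (L : List (Lv Ω)) (h f : Ω → ℝ) (F : (s.Lf → Ω) → ℝ) : ℝ :=
  ∑ a, TE w s L h (fun x => F x * f (x a)) -
    ∑ a, ∑ j ∈ Finset.range (L.length + 1), cw s L a j *
      TE w (s.graft a j) L h fun x => F (fun b => x (s.emb a j b)) * f (x (s.nw a j))

theorem graft_zero (hw : Wt w) (s : Sh) (a : s.Lf) (L : List (Lv Ω)) (h f : Ω → ℝ)
    (F : (s.Lf → Ω) → ℝ) :
    TE w (s.graft a 0) L h (fun x => F (fun b => x (s.emb a 0 b)) * f (x (s.nw a 0))) =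
      TE w s L h F * Pf w L h f := by
  have := tX_graft hw s a 0 L h (fun _ x y => F x * f y) fun x y => .const _
  refine this.trans ?_
  rw [← Law.TE_mul_const hw]
  show _ = tX w s L h _
  congr 1
  funext g x
  simp only [Sd.stT_zero, List.drop_zero, Pf, Finset.mul_sum, mul_left_comm]

theorem hasDerivAt_TE0 (hw : Wt w) (s : Sh) (L : List (Lv Ω)) (h f : Ω → ℝ)
    (F : (s.Lf → Ω) → ℝ) :
    HasDerivAt (fun e : ℝ => TE w s L (h + e • f) F) (dS w s L h f F) 0 := by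
  have h1 := hasDerivAt_tX hw s L h f (F := fun _ x => F x) fun x => GrP.const (F x)
  refine h1.congr_deriv ?_
  have h2 := sd_rep hw s L h (F := fun _ x => F x) (fun x => .const _) fun _ _ _ => f
  have h3 : tX w s L h (fun _ _ => 0) = 0 := by simp [tX]
  have h4 : tX w s L h (fun g x => F x * (DP w s L x (stT s L h g) (fun _ _ => f) +
      s.br * ex L 0 * Pf w L h f)) =
      tX w s L h (fun g x => F x * DP w s L x (stT s L h g) fun _ _ => f) +
        s.br * ex L 0 * (TE w s L h F * Pf w L h f) := by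
    rw [← Law.TE_mul_const hw, ← Law.TE_const_mul hw, TE]
    refine Eq.trans ?_ (Sd.tX_add hw s L h
      (fun x => (Sd.eg_DP hw s L h x fun _ _ => f).const_mul (F x)) fun x => Eg.const _)
    congr 1
    funext g x
    ring
  rw [h3, h4, h2, dS, sum_cw_mul, graft_zero hw]
  simp only [TE]
  ring

/-- **response to the state** -/
theorem hasDerivAt_TE (hw : Wt w) (s : Sh) (L : List (Lv Ω)) (h f : Ω → ℝ)
    (F : (s.Lf → Ω) → ℝ) (e : ℝ) :
    HasDerivAt (fun e : ℝ => TE w s L (h + e • f) F) (dS w s L (h + e • f) f F) e := by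
  have h1 := hasDerivAt_TE0 hw s L (h + e • f) f F
  have h2 : HasDerivAt (fun u : ℝ => u - e) 1 e := (hasDerivAt_id e).sub_const e
  have h3 := HasDerivAt.comp e (h₂ := fun u : ℝ => TE w s L (h + e • f + u • f) F)
    (by simpa using h1) h2
  rw [mul_one] at h3
  refine h3.congr_of_eventuallyEq (.of_forall fun u => ?_)
  show TE w s L (h + u • f) F = TE w s L (h + e • f + (u - e) • f) F
  rw [add_assoc, ← add_smul, add_sub_cancel]

theorem abs_TE_le (hw : Wt w) (s : Sh) (L : List (Lv Ω)) (h : Ω → ℝ) {F : (s.Lf → Ω) → ℝ} {B : ℝ}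
    (hF : ∀ x, |F x| ≤ B) : |TE w s L h F| ≤ B :=
  (Law.abs_TE_le hw s L h F).trans
    ((Law.TE_mono hw s L h hF).trans_eq (Law.TE_const hw s L h B))

theorem abs_dS_le (hw : Wt w) (s : Sh) {L : List (Lv Ω)} (hL : Mono 0 L) (h : Ω → ℝ)
    {f : Ω → ℝ} {F : (s.Lf → Ω) → ℝ} {B c : ℝ} (hF : ∀ x, |F x| ≤ B) (hf : ∀ y, |f y| ≤ c) :
    |dS w s L h f F| ≤ 2 * Fintype.card s.Lf * (B * c) := by
  have e : ∀ x y, |F x * f y| ≤ B * c := fun x y => by
    rw [abs_mul]
    exact mul_le_mul (hF x) (hf y) (abs_nonneg _) ((abs_nonneg _).trans (hF x))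
  have h1 : |∑ a, TE w s L h (fun x => F x * f (x a))| ≤ Fintype.card s.Lf * (B * c) := by
    refine (Finset.abs_sum_le_sum_abs _ _).trans ((Finset.sum_le_sum fun a _ =>
      abs_TE_le hw s L h fun x => e x _).trans_eq ?_)
    simp
  have h2 : |∑ a, ∑ j ∈ Finset.range (L.length + 1), cw s L a j *
      TE w (s.graft a j) L h fun x => F (fun b => x (s.emb a j b)) * f (x (s.nw a j))| ≤
      Fintype.card s.Lf * (B * c) := by
    rw [← sum_cw s L, Finset.sum_mul]
    refine (Finset.abs_sum_le_sum_abs _ _).trans (Finset.sum_le_sum fun a _ => ?_)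
    rw [Finset.sum_mul]
    refine (Finset.abs_sum_le_sum_abs _ _).trans (Finset.sum_le_sum fun j _ => ?_)
    rw [abs_mul, abs_of_nonneg (cw_nonneg s hL a j)]
    exact mul_le_mul_of_nonneg_left (abs_TE_le hw _ L h fun x => e _ _) (cw_nonneg s hL a j)
  exact (abs_sub _ _).trans (by linarith)

/-- **tree expectations are Lipschitz in the state** -/
theorem TE_lip (hw : Wt w) (s : Sh) {L : List (Lv Ω)} (hL : Mono 0 L) (h : Ω → ℝ)
    {f : Ω → ℝ} {F : (s.Lf → Ω) → ℝ} {B c : ℝ} (hF : ∀ x, |F x| ≤ B) (hf : ∀ y, |f y| ≤ c)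
    (e e' : ℝ) : |TE w s L (h + e • f) F - TE w s L (h + e' • f) F| ≤
      2 * Fintype.card s.Lf * (B * c) * |e - e'| := by
  have := Convex.norm_image_sub_le_of_norm_hasDerivWithin_le
    (f := fun e : ℝ => TE w s L (h + e • f) F) (s := univ)
    (fun e _ => (hasDerivAt_TE hw s L h f F e).hasDerivWithinAt)
    (fun e _ => abs_dS_le hw s hL (h + e • f) hF hf) convex_univ (mem_univ e') (mem_univ e)
  simpa only [Real.norm_eq_abs] using this

theorem lg_lin (u : Ω → ℝ) : Lg fun z : Ω → ℝ => ∑ x, u x * z x :=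
  Lg.of (by fun_prop) 0 (∑ x, |u x|) fun z => by
    rw [zero_add, Finset.sum_mul]
    refine (Finset.abs_sum_le_sum_abs _ _).trans (Finset.sum_le_sum fun x _ => ?_)
    rw [abs_mul]
    exact mul_le_mul_of_nonneg_left (norm_le_pi_norm z x) (abs_nonneg _)

/-- exponential moment of a linear functional of the next state -/
theorem tE_exp_lin (hw : Wt w) (l : Lv Ω) (L : List (Lv Ω)) (h u : Ω → ℝ) (t : ℝ) {B : ℝ}
    (hm : 0 ≤ l.m) (hB : ∀ x, |∑ y, u y * l.cov x y| ≤ B) :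
    tE l (X w L) (fun z => exp (t * ∑ x, u x * z x)) h ≤
      exp (t * ∑ x, u x * h x + (t ^ 2 * qf u l.cov / 2 + l.m * (|t| * B))) := by
  set c : l.ι → ℝ := fun i => ∑ x, u x * l.A x i with hc
  have e1 : ∀ g, ∑ x, u x * (h + l.fld g) x = ∑ x, u x * h x + g ⬝ᵥ c := fun g => by
    simp only [Pi.add_apply, mul_add, Finset.sum_add_distrib, Lv.fld, dotProduct, hc,
      Finset.mul_sum]
    rw [Finset.sum_comm (f := fun x i => u x * (l.A x i * g i))]
    congr 1
    exact Finset.sum_congr rfl fun i _ => Finset.sum_congr rfl fun x _ => by ring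
  have e2 : c ⬝ᵥ c = qf u l.cov := by
    simp only [dotProduct, hc, qf, Lv.cov, Finset.sum_mul_sum]
    simp only [Finset.mul_sum]
    rw [Finset.sum_comm]
    refine Finset.sum_congr rfl fun x _ => ?_
    rw [Finset.sum_comm]
    exact Finset.sum_congr rfl fun y _ => Finset.sum_congr rfl fun i _ => by ring
  have e3 : ∀ x, l.fld ((-t) • c) x = -t * ∑ y, u y * l.cov x y := fun x => by
    simp only [Lv.fld, hc, Lv.cov, Pi.smul_apply, smul_eq_mul, Finset.mul_sum]
    rw [Finset.sum_comm]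
    exact Finset.sum_congr rfl fun y _ => Finset.sum_congr rfl fun i _ => by ring
  obtain ⟨i1, i2⟩ := ERic43.cm_lv (lg_X hw L) l h ((-t) • c)
  have hZ := (lg_X hw L).Z_pos l h
  rw [tE, div_le_iff₀ hZ, ← i2, ← integral_const_mul]
  refine integral_mono ((lg_X hw L).int ((lg_lin u).exp t) l h) (i1.const_mul _) fun g => ?_
  simp only [e1]
  rw [← exp_add, ← exp_add, exp_le_exp, dotProduct_smul, smul_dotProduct, dotProduct_smul, e2]
  have h1 : X w L (h + l.fld g) ≤ X w L (h + l.fld ((-t) • c) + l.fld g) + |t| * B :=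
    X_le_add hw L fun x _ => by
      have h2 := mul_le_mul_of_nonneg_left (hB x) (abs_nonneg t)
      rw [← abs_mul] at h2
      simp only [Pi.add_apply, e3]
      linarith [(abs_le.1 h2).2]
  have h2 := mul_le_mul_of_nonneg_left h1 hm
  simp only [smul_eq_mul]
  nlinarith

end general

/-! ### one site: the dictionary -/

variable {L : List (Lv Bool)} {ℓ : List (ℝ × ℝ)}

theorem w1 : Wt fun _ : Bool => (1 : ℝ) := wt_one

theorem spin_not (b : Bool) : spin (!b) = -spin b := by cases b <;> simp [spin]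

theorem abs_spin (b : Bool) : |spin b| = 1 := by cases b <;> simp [spin]

theorem spin_sq (b : Bool) : spin b ^ 2 = 1 := by cases b <;> simp [spin]

/-- the field of a one-site state -/
def xs (z : Bool → ℝ) : ℝ := (z true - z false) / 2

theorem xs_spin (x : ℝ) : xs (x • spin) = x := by simp [xs, spin]

theorem xs_zero : xs 0 = 0 := by simp [xs]

theorem xs_eq (z : Bool → ℝ) : xs z = ∑ b, spin b / 2 * z b := by
  simp [xs, spin]; ring

theorem eq_xs (z : Bool → ℝ) : z = xs z • spin + fun _ => (z true + z false) / 2 := by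
  funext b; cases b <;> simp [xs, spin] <;> ring

theorem lg_xs : Lg xs := by
  rw [funext xs_eq]; exact lg_lin _

theorem TE_xs (s : Sh) (L : List (Lv Bool)) (F : (s.Lf → Bool) → ℝ) (z : Bool → ℝ) :
    TE (fun _ => 1) s L z F = TE (fun _ => 1) s L (xs z • spin) F := by
  conv_lhs => rw [eq_xs z]
  exact Law.TE_shift w1 _ s L F _

/-- the magnetisation is `Φ_x` -/
theorem Pf_spin (H : List.Forall₂ (Rk1 spin) L ℓ) (x : ℝ) :
    Pf (fun _ => 1) L (x • spin) spin = deriv (PhiL 1 ℓ) x := by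
  have h1 := (gr_X w1 L).line 0 spin x
  simp only [zero_add, X_spin H] at h1
  exact h1.deriv.symm

/-- the susceptibility is `Φ_xx` -/
theorem Hb_spin (H : List.Forall₂ (Rk1 spin) L ℓ) (x : ℝ) :
    Hb (fun _ => 1) L (x • spin) spin spin = deriv (deriv (PhiL 1 ℓ)) x := by
  have h1 := (gr_Pf w1 L spin).line 0 spin x
  simp only [zero_add, Pf_spin H] at h1
  rw [h1.deriv, Hb, Finset.sum_comm]
  simp only [Finset.sum_mul]
  exact Finset.sum_congr rfl fun _ _ => Finset.sum_congr rfl fun _ _ => by ring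

theorem P_spin (H : List.Forall₂ (Rk1 spin) L ℓ) (x : ℝ) (b : Bool) :
    P (fun _ => 1) L (x • spin) b = (1 + spin b * deriv (PhiL 1 ℓ) x) / 2 := by
  have h1 := sum_P w1 L (x • spin)
  have h2 := Pf_spin H x
  simp only [Pf, Fintype.sum_bool] at h1 h2
  rw [← h2]
  cases b <;> simp only [spin] at h1 ⊢ <;> simp at h1 ⊢ <;> linarith

theorem Cb_spin (H : List.Forall₂ (Rk1 spin) L ℓ) (x : ℝ) :
    Cb (fun _ => 1) L (x • spin) spin spin = 1 - deriv (PhiL 1 ℓ) x ^ 2 := by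
  rw [Cb, Pf_spin H, Pf]
  simp only [← sq, spin_sq, mul_one, sum_P w1]

theorem TT_cons (p : ℝ × ℝ) (ℓ : List (ℝ × ℝ)) : TT (p :: ℓ) = p.2 + TT ℓ := by simp [TT]

theorem TT_nonneg (h : ∀ p ∈ ℓ, 0 ≤ p.2) : 0 ≤ TT ℓ :=
  List.sum_nonneg fun x hx => by
    obtain ⟨p, hp, rfl⟩ := List.mem_map.1 hx
    exact h p hp

theorem tE_v0 (a : ℝ) (f φ : ℝ → ℝ) : R164.GC.tE a 0 f φ = φ := by
  funext x
  rw [R164.GC.tE, sqrt_zero, R164.GC.H_zero, R164.GC.H_zero,
    mul_div_cancel_right₀ _ (exp_pos _).ne']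

theorem EX_zero (φ : ℝ → ℝ) : ∀ {ℓ : List (ℝ × ℝ)}, (∀ p ∈ ℓ, 0 ≤ p.2) → EX 1 ℓ 0 φ = φ
  | [], _ => rfl
  | p :: ℓ, h => by rw [EX, if_pos (h p List.mem_cons_self), tE_v0]

theorem gaussOp_v0 (a : ℝ) (f : ℝ → ℝ) :
    Crest.ProbabilityR.InvariantGlass.gaussOp a 0 f = f := by
  funext x
  by_cases ha : a = 0
  · rw [ha, R164.GC.gaussOp_zero, sqrt_zero, R164.GC.H_zero]
  · rw [R164.GC.gaussOp_ne ha, sqrt_zero, R164.GC.H_zero, log_exp, inv_mul_cancel_left₀ ha]

theorem EL_of_zero (F φ : ℝ → ℝ) : ∀ {ℓ : List (ℝ × ℝ)}, (∀ p ∈ ℓ, 0 ≤ p.2) → TT ℓ ≤ 0 →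
    Sc.EL ℓ F φ = φ ∧ Sc.Rec ℓ F = F
  | [], _, _ => ⟨rfl, rfl⟩
  | p :: ℓ, h, hT => by
    have h1 := h p List.mem_cons_self
    have h2 : ∀ q ∈ ℓ, 0 ≤ q.2 := fun q hq => h q (List.mem_cons_of_mem _ hq)
    have h3 := TT_nonneg h2
    rw [TT_cons] at hT
    have h4 : p.2 = 0 := by linarith
    obtain ⟨e1, e2⟩ := EL_of_zero F φ h2 (by linarith)
    rw [Sc.EL, Sc.Rec, e1, e2, h4, tE_v0, gaussOp_v0]
    exact ⟨rfl, rfl⟩

/-- node `j` is the time `TT (ℓ.take j)` -/
theorem EL_take (φ : ℝ → ℝ) : ∀ {ℓ : List (ℝ × ℝ)}, (∀ p ∈ ℓ, 0 ≤ p.2) → ∀ j,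
    Sc.EL (ℓ.take j) (PhiL 1 (ℓ.drop j)) φ = EX 1 ℓ (TT (ℓ.take j)) φ ∧
      PhiT 1 ℓ (TT (ℓ.take j)) = PhiL 1 (ℓ.drop j)
  | [], _, j => by simp [Sc.EL, EX, PhiT, PhiL]
  | p :: ℓ, h, 0 => by
    have h1 := h p List.mem_cons_self
    have e : TT ((p :: ℓ).take 0) = 0 := rfl
    rw [e, EX_zero φ h, PhiT, if_pos h1, sub_zero]
    exact ⟨rfl, rfl⟩
  | p :: ℓ, h, j + 1 => by
    have h2 : ∀ q ∈ ℓ, 0 ≤ q.2 := fun q hq => h q (List.mem_cons_of_mem _ hq)
    have h3 : ∀ q ∈ ℓ.take j, 0 ≤ q.2 := fun q hq => h2 q (List.mem_of_mem_take hq)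
    obtain ⟨e1, e2⟩ := EL_take φ h2 j
    have e3 : Sc.Rec (ℓ.take j) (PhiL 1 (ℓ.drop j)) = PhiL 1 ℓ := by
      rw [← Sc.rec_phi0, ← Sc.rec_append, List.take_append_drop, Sc.rec_phi0]
    rw [List.take_succ_cons, List.drop_succ_cons, TT_cons, Sc.EL, EX, PhiT, e3]
    split_ifs with h4
    · have h5 : TT (ℓ.take j) = 0 := le_antisymm (by linarith) (TT_nonneg h3)
      obtain ⟨e4, e5⟩ := EL_of_zero (PhiL 1 (ℓ.drop j)) φ h3 h5.le
      rw [e4, h5, add_zero, sub_self, gaussOp_v0, ← e3, e5]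
      exact ⟨rfl, rfl⟩
    · rw [add_sub_cancel_left, e1, e2]
      exact ⟨rfl, rfl⟩

theorem nn_of (H : List.Forall₂ (Rk1 spin) L ℓ) : ∀ p ∈ ℓ, 0 ≤ p.2 := by
  induction H with
  | nil => simp
  | cons h1 _ ih => simpa using ⟨h1.2.1, fun a b h => ih (a, b) h⟩

/-- **nodes are the expectations `EX`** -/
theorem node_EX (H : List.Forall₂ (Rk1 spin) L ℓ) {j : ℕ} (hj : j ≤ ℓ.length)
    {Φ : (Bool → ℝ) → ℝ} (hΦ : Measurable Φ) (x : ℝ) :
    node (fun _ => 1) L j Φ (x • spin) =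
      EX 1 ℓ (TT (ℓ.take j)) (fun y => Φ (y • spin)) x := by
  rw [node_spin H hj hΦ, (EL_take _ (nn_of H) j).1]

theorem PhiT_take (H : List.Forall₂ (Rk1 spin) L ℓ) (j : ℕ) :
    PhiT 1 ℓ (TT (ℓ.take j)) = PhiL 1 (ℓ.drop j) := (EL_take id (nn_of H) j).2

/-- `Γ` at node `j` -/
theorem pi2_spin (H : List.Forall₂ (Rk1 spin) L ℓ) {j : ℕ} (hj : j ≤ ℓ.length) (x : ℝ) :
    pi2 (fun _ => 1) L j (fun a b => spin a * spin b) (x • spin) =
      EX 1 ℓ (TT (ℓ.take j)) (fun y => deriv (PhiT 1 ℓ (TT (ℓ.take j))) y ^ 2) x := by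
  rw [pi2, node_EX H hj (eg_qf w1 _ _).cont.measurable, PhiT_take H]
  congr 1
  funext y
  rw [qf_mul, ← Pf_spin (List.forall₂_drop j H), sq]
  rfl

/-- any function of (magnetisation, susceptibility) at node `j`; `G m a = a ^ 2` is `Γ'` -/
theorem node_G (H : List.Forall₂ (Rk1 spin) L ℓ) {j : ℕ} (hj : j ≤ ℓ.length) {G : ℝ → ℝ → ℝ}
    (hG : Measurable fun p : ℝ × ℝ => G p.1 p.2) (x : ℝ) :
    node (fun _ => 1) L j (fun z => G (Pf (fun _ => 1) (L.drop j) z spin)
        (Hb (fun _ => 1) (L.drop j) z spin spin)) (x • spin) =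
      EX 1 ℓ (TT (ℓ.take j)) (fun y => G (deriv (PhiT 1 ℓ (TT (ℓ.take j))) y)
        (deriv (deriv (PhiT 1 ℓ (TT (ℓ.take j)))) y)) x := by
  have m1 : Measurable fun z => Hb (fun _ : Bool => (1 : ℝ)) (L.drop j) z spin spin :=
    (Eg.sum _ fun a _ => Eg.sum _ fun b _ => (eg_Hs w1 _ a b).const_mul _).cont.measurable
  have m2 : Measurable fun z => G (Pf (fun _ : Bool => (1 : ℝ)) (L.drop j) z spin)
      (Hb (fun _ : Bool => (1 : ℝ)) (L.drop j) z spin spin) :=
    hG.comp ((eg_Pf w1 (L.drop j) spin).cont.measurable.prodMk m1)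
  rw [node_EX H hj m2, PhiT_take H]
  simp only [Pf_spin (List.forall₂_drop j H), Hb_spin (List.forall₂_drop j H)]

/-! ### spin monomials -/

/-- a spin monomial of the leaves -/
def mo {κ : Type} [Fintype κ] (k : κ → ℕ) (x : κ → Bool) : ℝ := ∏ a, spin (x a) ^ k a

theorem abs_mo {κ : Type} [Fintype κ] (k : κ → ℕ) (x : κ → Bool) : |mo k x| = 1 := by
  simp [mo, Finset.abs_prod, abs_spin]

theorem mo_add {κ : Type} [Fintype κ] (k k' : κ → ℕ) (x : κ → Bool) :
    mo (k + k') x = mo k x * mo k' x := by simp [mo, pow_add, Finset.prod_mul_distrib]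

theorem mo_zero {κ : Type} [Fintype κ] (x : κ → Bool) : mo (0 : κ → ℕ) x = 1 := by simp [mo]

theorem mo_single {κ : Type} [Fintype κ] [DecidableEq κ] (a : κ) (x : κ → Bool) :
    mo (Pi.single a 1) x = spin (x a) := by
  rw [mo, Finset.prod_eq_single a (fun b _ hb => by simp [hb]) (by simp)]
  simp

theorem mo_not {κ : Type} [Fintype κ] (k : κ → ℕ) (x : κ → Bool) :
    mo k (fun a => !x a) = (-1) ^ (∑ a, k a) * mo k x := by
  simp only [mo, spin_not, ← Finset.prod_pow_eq_pow_sum, ← Finset.prod_mul_distrib, ← mul_pow,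
    neg_one_mul]

theorem mo_elim {κ κ' : Type} [Fintype κ] [Fintype κ'] (k : κ ⊕ κ' → ℕ) (x : κ → Bool)
    (x' : κ' → Bool) :
    mo k (Sum.elim x x') = mo (fun a => k (.inl a)) x * mo (fun a => k (.inr a)) x' := by
  simp [mo, Fintype.prod_sum_type]

theorem TE_mo_split (s t : Sh) (L : List (Lv Bool)) (z : Bool → ℝ) (k : (Sh.split s t).Lf → ℕ) :
    TE (fun _ => 1) (.split s t) L z (mo k) = TE (fun _ => 1) s L z (mo fun a => k (.inl a)) *
      TE (fun _ => 1) t L z (mo fun a => k (.inr a)) := by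
  rw [Law.TE_split w1, ← Law.TE_mul_const w1]
  congr 1
  funext x
  rw [← Law.TE_const_mul w1]
  congr 1
  funext x'
  exact mo_elim (κ := s.Lf) (κ' := t.Lf) k x x'

theorem TE_mo_one (L : List (Lv Bool)) (z : Bool → ℝ) (k : Sh.one.Lf → ℕ) :
    TE (fun _ => 1) .one L z (mo k) =
      if Even (k ()) then 1 else Pf (fun _ => 1) L z spin := by
  have e : ∀ b : Bool, mo k (fun _ => b) = spin b ^ k () := fun b =>
    Fintype.prod_unique (ι := Unit) fun a => spin b ^ k a
  rw [Law.TE_one w1]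
  simp only [e]
  split_ifs with h
  · obtain ⟨r, hr⟩ := h
    simp only [hr, ← two_mul, pow_mul, spin_sq, one_pow, Pf, mul_one, sum_P w1]
  · obtain ⟨r, hr⟩ := Nat.not_even_iff_odd.1 h
    simp only [hr, pow_succ _ (2 * r), pow_mul, spin_sq, one_pow, one_mul]

/-- the one-dimensional recursion of a spin monomial on a tree -/
def T1 : (s : Sh) → List (ℝ × ℝ) → (s.Lf → ℕ) → ℝ → ℝ
  | .one, ℓ, k => fun x => if Even (k ()) then 1 else deriv (PhiL 1 ℓ) x
  | .step s, [], k => T1 s [] k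
  | .step s, p :: ℓ, k => R164.GC.tE p.1 p.2 (PhiL 1 ℓ) (T1 s ℓ k)
  | .split s t, ℓ, k => fun x => T1 s ℓ (fun a => k (.inl a)) x * T1 t ℓ (fun a => k (.inr a)) x

/-- **tree expectations of spin monomials are one-dimensional recursions** -/
theorem TE_T1 : ∀ (s : Sh) {L : List (Lv Bool)} {ℓ : List (ℝ × ℝ)},
    List.Forall₂ (Rk1 spin) L ℓ → ∀ (k : s.Lf → ℕ) (x : ℝ),
    TE (fun _ => 1) s L (x • spin) (mo k) = T1 s ℓ k x
  | .one, _, _, H, k, x => by rw [TE_mo_one, Pf_spin H, T1]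
  | .step s, _, _, .nil, k, x => (Law.TE_step_nil _ s _ _).trans (TE_T1 s .nil k x)
  | .step s, _, _, .cons (a := l) (l₁ := L) h1 H, k, x => by
    have := h1.tE 0 x (lp_X w1 L).meas (Law.meas_TE w1 s L (mo k))
    simp only [zero_add, X_spin H] at this
    refine (Law.TE_step w1 s l L _ _).trans (this.trans ?_)
    rw [T1, funext (TE_T1 s H k)]
  | .split s t, _, _, H, k, x => by rw [TE_mo_split, TE_T1 s H, TE_T1 t H, T1]

/-! ### parity -/

/-- all levels are invariant under the spin flip -/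
def Fl (L : List (Lv Bool)) : Prop := ∀ l ∈ L, ∀ a b, l.cov a b = l.cov (!a) (!b)

theorem fl_of (H : List.Forall₂ (Rk1 spin) L ℓ) : Fl L := by
  induction H with
  | nil => intro l hl; simp at hl
  | cons h1 _ ih =>
    intro l hl a b
    rcases List.mem_cons.1 hl with rfl | hl
    · rw [h1.2.2, h1.2.2, spin_not, spin_not, neg_mul_neg]
    · exact ih l hl a b

theorem Fl.tail {l : Lv Bool} (h : Fl (l :: L)) : Fl L := fun k hk => h k (List.mem_cons_of_mem _ hk)

theorem TE_flip (hL : Fl L) (s : Sh) (F : (s.Lf → Bool) → ℝ) (x : ℝ) :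
    TE (fun _ => 1) s L ((-x) • spin) (fun y => F fun a => !y a) =
      TE (fun _ => 1) s L (x • spin) F := by
  have H : List.Forall₂ (CoS not) L L := List.forall₂_same.2 fun l hl => ⟨rfl, hL l hl⟩
  have h1 := Law.TE_coS w1 s H F (x • spin)
  have h2 : push not (fun _ : Bool => (1 : ℝ)) = fun _ => 1 := Law.push_one Equiv.boolNot
  rw [h2] at h1
  rw [← h1]
  congr 1
  funext b
  simp [spin_not]

/-- **parity in the field** -/
theorem TE_mo_neg (hL : Fl L) (s : Sh) (k : s.Lf → ℕ) (x : ℝ) :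
    TE (fun _ => 1) s L ((-x) • spin) (mo k) =
      (-1) ^ (∑ a, k a) * TE (fun _ => 1) s L (x • spin) (mo k) := by
  have h1 := TE_flip hL s (mo k) (-x)
  rw [neg_neg] at h1
  rw [← h1, ← Law.TE_const_mul w1]
  simp only [mo_not]

theorem TE_mo_odd (hL : Fl L) (s : Sh) {k : s.Lf → ℕ} (hk : Odd (∑ a, k a)) :
    TE (fun _ => 1) s L 0 (mo k) = 0 := by
  have h1 := TE_mo_neg hL s k 0
  rw [neg_zero, hk.neg_one_pow, zero_smul] at h1
  linarith

theorem abs_TE_mo (s : Sh) (L : List (Lv Bool)) (z : Bool → ℝ) (k : s.Lf → ℕ) :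
    |TE (fun _ => 1) s L z (mo k)| ≤ 1 := abs_TE_le w1 s L z fun x => (abs_mo k x).le

theorem TE_mo_lip (hM : Mono 0 L) (s : Sh) (k : s.Lf → ℕ) (z z' : Bool → ℝ) :
    |TE (fun _ => 1) s L z (mo k) - TE (fun _ => 1) s L z' (mo k)| ≤
      2 * Fintype.card s.Lf * |xs z - xs z'| := by
  have := TE_lip w1 s hM 0 (f := spin) (fun x => (abs_mo k x).le) (fun b => (abs_spin b).le)
    (xs z) (xs z')
  rw [TE_xs s L _ z, TE_xs s L _ z']
  simpa using this

/-- an odd monomial is at most linear in the field -/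
theorem abs_TE_odd (hL : Fl L) (hM : Mono 0 L) (s : Sh) {k : s.Lf → ℕ} (hk : Odd (∑ a, k a))
    (z : Bool → ℝ) : |TE (fun _ => 1) s L z (mo k)| ≤ 2 * Fintype.card s.Lf * |xs z| := by
  have := TE_mo_lip hM s k z 0
  rwa [TE_mo_odd hL s hk, xs_zero, sub_zero, sub_zero] at this

/-- number of odd branches at the present node -/
def od0 : (s : Sh) → (s.Lf → ℕ) → ℕ
  | .one, k => if Odd (∑ a, k a) then 1 else 0
  | .step s, k => if Odd (∑ a : s.Lf, k a) then 1 else 0
  | .split s t, k => od0 s (fun a => k (.inl a)) + od0 t fun a => k (.inr a)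

/-- number of odd branches (inside the present branch) at the node reached by the leaf `a` after
`j` levels -/
def od : (s : Sh) → (s.Lf → ℕ) → s.Lf → ℕ → ℕ
  | s, k, _, 0 => od0 s k
  | .one, k, _, _ + 1 => od0 .one k
  | .step s, k, a, j + 1 => od s k a j
  | .split s _, k, .inl a, j + 1 => od s (fun b => k (.inl b)) a (j + 1)
  | .split _ t, k, .inr a, j + 1 => od t (fun b => k (.inr b)) a (j + 1)

theorem card_inl (s t : Sh) : Fintype.card s.Lf ≤ Fintype.card (Sh.split s t).Lf :=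
  Fintype.card_le_of_injective (β := s.Lf ⊕ t.Lf) Sum.inl Sum.inl_injective

theorem card_inr (s t : Sh) : Fintype.card t.Lf ≤ Fintype.card (Sh.split s t).Lf :=
  Fintype.card_le_of_injective (β := s.Lf ⊕ t.Lf) Sum.inr Sum.inr_injective

theorem abs_TE_od0 (hL : Fl L) (hM : Mono 0 L) {N : ℕ} (z : Bool → ℝ) : ∀ (s : Sh) (k : s.Lf → ℕ),
    Fintype.card s.Lf ≤ N → |TE (fun _ => 1) s L z (mo k)| ≤ min 1 (2 * N * |xs z|) ^ od0 s k
  | .one, k, h => by
    rw [od0]
    split_ifs with hk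
    · rw [pow_one]
      refine le_min (abs_TE_mo _ L z k) ((abs_TE_odd hL hM .one hk z).trans ?_)
      gcongr
    · exact abs_TE_mo _ L z k
  | .step s, k, h => by
    rw [od0]
    split_ifs with hk
    · rw [pow_one]
      refine le_min (abs_TE_mo _ L z k) ((abs_TE_odd hL hM (.step s) hk z).trans ?_)
      gcongr
    · exact abs_TE_mo _ L z k
  | .split s t, k, h => by
    rw [TE_mo_split, abs_mul, od0, pow_add]
    exact mul_le_mul (abs_TE_od0 hL hM z s _ ((card_inl s t).trans h))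
      (abs_TE_od0 hL hM z t _ ((card_inr s t).trans h)) (abs_nonneg _) (by positivity)

theorem eg_od (N r : ℕ) : Eg fun z : Bool → ℝ => (2 * N * |xs z|) ^ r :=
  (lg_xs.eg.abs.const_mul _).pow r

theorem eg_min (N r : ℕ) : Eg fun z : Bool → ℝ => min 1 (2 * N * |xs z|) ^ r :=
  (Eg.of_bdd (continuous_const.min (lg_xs.eg.abs.const_mul _).cont) 1 fun z => by
    rw [abs_of_nonneg (by positivity)]; exact min_le_left _ _).pow r

theorem mono_le_one {Ω : Type} : ∀ {L : List (Lv Ω)} {m : ℝ}, Mono m L → m ≤ 1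
  | [], _, h => h
  | _ :: _, _, h => h.1.trans (mono_le_one h.2)

theorem mono_tail {Ω : Type} {l : Lv Ω} : ∀ {L : List (Lv Ω)}, Mono 0 (l :: L) → Mono 0 L
  | [], _ => zero_le_one
  | _ :: _, h => ⟨h.1.trans h.2.1, h.2.2⟩

theorem mono_drop {Ω : Type} : ∀ {L : List (Lv Ω)} (j : ℕ), Mono 0 L → Mono 0 (L.drop j)
  | _, 0, h => h
  | [], _ + 1, h => h
  | _ :: _, j + 1, h => mono_drop j (mono_tail h)

theorem Fl.drop (h : Fl L) (j : ℕ) : Fl (L.drop j) := fun l hl => h l (List.mem_of_mem_drop hl)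

theorem abs_node_le {Ω : Type} [Fintype Ω] {w : Ω → ℝ} (hw : Wt w) {Φ Ψ : (Ω → ℝ) → ℝ} (h : Eg Φ)
    (h' : Eg Ψ) (e : ∀ z, |Φ z| ≤ Ψ z) (L : List (Lv Ω)) (j : ℕ) (z : Ω → ℝ) :
    |node w L j Φ z| ≤ node w L j Ψ z := by
  refine abs_le.2 ⟨?_, node_mono hw h h' (fun z => (abs_le.1 (e z)).2) L j z⟩
  have := node_mono hw (h'.const_mul (-1)) h (fun z => by linarith [(abs_le.1 (e z)).1]) L j z
  rw [node_const_mul] at this
  linarith

theorem TE_one_node {Ω : Type} [Fintype Ω] {w : Ω → ℝ} (hw : Wt w) (L : List (Lv Ω)) (j : ℕ)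
    (z : Ω → ℝ) (F : (Sh.one.Lf → Ω) → ℝ) :
    TE w .one L z F = node w L j (fun z => TE w .one (L.drop j) z F) z := by
  simp only [Law.TE_one hw]
  exact (node_sum_P hw _ L j z).symm

/-- **parity bound at any node** -/
theorem abs_TE_od {N : ℕ} : ∀ (s : Sh) {L : List (Lv Bool)}, Fl L → Mono 0 L →
    Fintype.card s.Lf ≤ N → ∀ (k : s.Lf → ℕ) (a : s.Lf) (j : ℕ) (z : Bool → ℝ),
    |TE (fun _ => 1) s L z (mo k)| ≤
      node (fun _ => 1) L j (fun z => min 1 (2 * N * |xs z|) ^ od s k a j) z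
  | s, L, hL, hM, h, k, a, 0, z => by
    have e : od s k a 0 = od0 s k := by cases s <;> rfl
    rw [Casc.node_zero, e]
    exact abs_TE_od0 hL hM z s k h
  | .one, L, hL, hM, h, k, a, j + 1, z => by
    rw [TE_one_node w1 L (j + 1)]
    exact abs_node_le w1 (Law.eg_TE w1 _ _ _) (eg_min _ _)
      (fun z => abs_TE_od0 (hL.drop _) (mono_drop _ hM) z .one k h) L _ z
  | .step s, [], hL, hM, h, k, a, j + 1, z => by
    have := abs_TE_od s hL hM h k a j z
    rw [Casc.node_nil] at this ⊢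
    exact (congrArg abs (Law.TE_step_nil _ s _ _)).trans_le this
  | .step s, l :: L, hL, hM, h, k, a, j + 1, z => by
    have ih := abs_TE_od s hL.tail (mono_tail hM) h k a j
    have e1 := Law.eg_TE w1 s L (mo k)
    have e2 := (eg_min N (od s k a j)).node w1 L j
    rw [Law.TE_step w1, Casc.node_cons]
    refine abs_le.2 ⟨?_, tE_mono (lg_X w1 L) e1 e2 (fun z => (abs_le.1 (ih z)).2) l z⟩
    rw [← tE_neg]
    exact tE_mono (lg_X w1 L) e2.neg e1 (fun z => (abs_le.1 (ih z)).1) l z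
  | .split s t, L, hL, hM, h, k, .inl a, j + 1, z => by
    have ih := abs_TE_od s hL hM ((card_inl s t).trans h) (fun b => k (.inl b)) a (j + 1) z
    rw [TE_mo_split, abs_mul]
    exact (mul_le_of_le_one_right (abs_nonneg _) (abs_TE_mo t L z _)).trans ih
  | .split s t, L, hL, hM, h, k, .inr a, j + 1, z => by
    have ih := abs_TE_od t hL hM ((card_inr s t).trans h) (fun b => k (.inr b)) a (j + 1) z
    rw [TE_mo_split, abs_mul]
    exact (mul_le_of_le_one_left (abs_nonneg _) (abs_TE_mo s L z _)).trans ih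

/-! ### moments of the site field -/

theorem node_exp (H : List.Forall₂ (Rk1 spin) L ℓ) (hM : Mono 0 L) (t : ℝ) : ∀ (j : ℕ)
    (z : Bool → ℝ), node (fun _ => 1) L j (fun z => exp (t * xs z)) z ≤
      exp (t * xs z + (t ^ 2 / 2 + |t|) * TT (ℓ.take j)) := by
  induction H with
  | nil => intro j z; simp [TT]
  | @cons l p L ℓ h1 H ih =>
    intro j z
    cases j with
    | zero => simp [TT]
    | succ j =>
      have hm1 : l.m ≤ 1 := mono_le_one hM.2
      have h2 := tE_mono (lg_X w1 L) ((lg_xs.exp t).node w1 L j)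
        ((lg_xs.exp t).const_mul (exp ((t ^ 2 / 2 + |t|) * TT (ℓ.take j))))
        (fun z => (ih (mono_tail hM) j z).trans_eq (by rw [exp_add, mul_comm])) l z
      have h3 := tE_exp_lin w1 l L z (fun b => spin b / 2) t (B := p.2) hM.1 fun x => by
        have := h1.2.1
        cases x <;> simp [h1.2.2, spin] <;> rw [abs_le] <;> constructor <;> linarith
      have h4 : qf (fun b => spin b / 2) l.cov = p.2 := by
        simp [qf, h1.2.2, spin]; ring
      simp only [← xs_eq] at h3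
      rw [tE_const_mul] at h2
      rw [Casc.node_cons, List.take_succ_cons, TT_cons]
      refine h2.trans ((mul_le_mul_of_nonneg_left h3 (exp_pos _).le).trans ?_)
      rw [← exp_add, exp_le_exp, h4]
      have h5 : 0 ≤ |t| * p.2 := mul_nonneg (abs_nonneg _) h1.2.1
      nlinarith

/-- **moments of the site field**: any `σ ≥ TT (ℓ.take j)` -/
theorem node_pow (H : List.Forall₂ (Rk1 spin) L ℓ) (hM : Mono 0 L) (j p : ℕ) {σ : ℝ} (h0 : 0 < σ)
    (hσ : TT (ℓ.take j) ≤ σ) : node (fun _ => 1) L j (fun z => |xs z| ^ p) 0 ≤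
      2 * p.factorial * exp (1 / 2 + √σ) * √σ ^ p := by
  have q := sqrt_pos.2 h0
  set t := (√σ)⁻¹ with ht
  have t0 : 0 < t := inv_pos.2 q
  have e1 : t * √σ = 1 := inv_mul_cancel₀ q.ne'
  have e2 : (t ^ 2 / 2 + t) * σ = 1 / 2 + √σ := by
    rw [← mul_self_sqrt h0.le, sqrt_mul_self q.le]
    linear_combination (t * √σ / 2 + 1 / 2 + √σ) * e1
  have b : exp ((t ^ 2 / 2 + t) * TT (ℓ.take j)) ≤ exp (1 / 2 + √σ) := by
    rw [exp_le_exp, ← e2]
    exact mul_le_mul_of_nonneg_left hσ (by positivity)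
  have h1 := node_exp H hM t j 0
  have h2 := node_exp H hM (-t) j 0
  rw [xs_zero, mul_zero, zero_add] at h1 h2
  rw [neg_sq, abs_neg] at h2
  rw [abs_of_pos t0] at h1 h2
  have h3 := node_mono w1 (lg_xs.eg.abs.pow p)
    (((lg_xs.exp t).add (lg_xs.exp (-t))).const_mul (p.factorial * √σ ^ p)) (fun z => by
      have h4 := pow_div_factorial_le_exp (t * |xs z|) (by positivity) p
      have h5 : exp (t * |xs z|) ≤ exp (t * xs z) + exp (-t * xs z) := by
        rcases abs_cases (xs z) with h | h <;> rw [h.1]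
        · linarith [exp_pos (-t * xs z)]
        · rw [mul_neg, ← neg_mul]; linarith [exp_pos (t * xs z)]
      have e3 : |xs z| ^ p = √σ ^ p * (t * |xs z|) ^ p := by
        rw [← mul_pow, ← mul_assoc, mul_comm √σ, e1, one_mul]
      rw [div_le_iff₀ (by positivity)] at h4
      rw [e3, mul_comm (p.factorial : ℝ), mul_assoc]
      refine mul_le_mul_of_nonneg_left (h4.trans ?_) (by positivity)
      rw [mul_comm]
      exact mul_le_mul_of_nonneg_left h5 (by positivity)) L j 0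
  rw [node_const_mul, node_add w1 (lg_xs.exp t) (lg_xs.exp (-t))] at h3
  refine h3.trans ?_
  have : (0 : ℝ) ≤ p.factorial * √σ ^ p := by positivity
  nlinarith

theorem abs_TE_od' {N r : ℕ} (s : Sh) (hL : Fl L) (hM : Mono 0 L) (hN : Fintype.card s.Lf ≤ N)
    (k : s.Lf → ℕ) (a : s.Lf) (j : ℕ) (hr : r ≤ od s k a j) (z : Bool → ℝ) :
    |TE (fun _ => 1) s L z (mo k)| ≤
      (2 * N) ^ r * node (fun _ => 1) L j (fun z => |xs z| ^ r) z := by
  refine (abs_TE_od s hL hM hN k a j z).trans ((node_mono w1 (eg_min _ _) (eg_od N r)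
    (fun z => ?_) L j z).trans_eq ?_)
  · refine (pow_le_pow_of_le_one (by positivity) (min_le_left _ _) hr).trans ?_
    exact pow_le_pow_left₀ (by positivity) (min_le_right _ _) r
  · simp only [mul_pow _ |xs _|, node_const_mul]

/-- **(PAR)** `r` odd branches at a node of depth `j` cost `σ_j^{r/2}` -/
theorem par (H : List.Forall₂ (Rk1 spin) L ℓ) (hM : Mono 0 L) (s : Sh) (k : s.Lf → ℕ) (a : s.Lf)
    (j : ℕ) {N r : ℕ} (hN : Fintype.card s.Lf ≤ N) (hr : r ≤ od s k a j) {σ : ℝ} (h0 : 0 < σ)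
    (hσ : TT (ℓ.take j) ≤ σ) : |TE (fun _ => 1) s L 0 (mo k)| ≤
      2 * r.factorial * exp (1 / 2 + √σ) * (2 * N * √σ) ^ r := by
  refine (abs_TE_od' s (fl_of H) hM hN k a j hr 0).trans ((mul_le_mul_of_nonneg_left
    (node_pow H hM j r h0 hσ) (by positivity)).trans_eq ?_)
  rw [mul_pow _ √σ]
  ring

/-! ### counting odd branches from the leaves -/

/-- degree of the branch of `a` above its node of depth `j` -/
def bd (s : Sh) (k : s.Lf → ℕ) (a : s.Lf) (j : ℕ) : ℕ :=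
  ∑ c, if s.shr a c (j + 1) = j + 1 then k c else 0

theorem bd_one (k : Sh.one.Lf → ℕ) (a : Sh.one.Lf) (j : ℕ) : bd .one k a j = ∑ c, k c :=
  Finset.sum_congr rfl fun _ _ => if_pos rfl

theorem bd_step_zero (s : Sh) (k : s.Lf → ℕ) (a : s.Lf) : bd (.step s) k a 0 = ∑ c : s.Lf, k c :=
  Finset.sum_congr rfl fun c _ => if_pos (congrArg (· + 1) (shr_zero38 s a c))

theorem bd_step (s : Sh) (k : s.Lf → ℕ) (a : s.Lf) (j : ℕ) :
    bd (.step s) k a (j + 1) = bd s k a j :=
  Finset.sum_congr rfl fun _ _ => if_congr Nat.succ_inj rfl rfl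

theorem bd_inl (s t : Sh) (k : s.Lf ⊕ t.Lf → ℕ) (a : s.Lf) (j : ℕ) :
    bd (.split s t) k (.inl a) j = bd s (fun b => k (.inl b)) a j := by
  refine (Fintype.sum_sum_type (α₁ := s.Lf) (α₂ := t.Lf) _).trans ?_
  exact (congrArg₂ (· + ·) rfl
    (Finset.sum_eq_zero fun c _ => if_neg (Nat.succ_ne_zero j).symm)).trans (add_zero _)

theorem bd_inr (s t : Sh) (k : s.Lf ⊕ t.Lf → ℕ) (a : t.Lf) (j : ℕ) :
    bd (.split s t) k (.inr a) j = bd t (fun b => k (.inr b)) a j := by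
  refine (Fintype.sum_sum_type (α₁ := s.Lf) (α₂ := t.Lf) _).trans ?_
  exact (congrArg₂ (· + ·)
    (Finset.sum_eq_zero fun c _ => if_neg (Nat.succ_ne_zero j).symm) rfl).trans (zero_add _)

theorem card_le_ite {κ : Type} {A : Finset κ} {p : Prop} [Decidable p]
    (h1 : ∀ a ∈ A, ∀ b ∈ A, a = b) (h2 : ∀ a ∈ A, p) : A.card ≤ if p then 1 else 0 := by
  split_ifs with h
  · exact Finset.card_le_one.2 h1
  · exact (Finset.card_eq_zero.2 (Finset.eq_empty_of_forall_notMem fun a ha => h (h2 a ha))).le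

theorem card_le_od0 : ∀ (s : Sh) (k : s.Lf → ℕ) (A : Finset s.Lf),
    (∀ a ∈ A, ∀ b ∈ A, s.shr a b 1 = 1 → a = b) → (∀ a ∈ A, Odd (bd s k a 0)) → A.card ≤ od0 s k
  | .one, k, _, h1, h2 => card_le_ite (fun a ha b hb => h1 a ha b hb rfl)
      fun a ha => bd_one k a 0 ▸ h2 a ha
  | .step s, k, _, h1, h2 => card_le_ite
      (fun a ha b hb => h1 a ha b hb (congrArg (· + 1) (shr_zero38 s a b)))
      fun a ha => bd_step_zero s k a ▸ h2 a ha
  | .split s t, k, A, h1, h2 => by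
    refine (Finset.card_toLeft_add_card_toRight (α := s.Lf) (β := t.Lf) (u := A)).symm.trans_le ?_
    refine add_le_add (card_le_od0 s _ _ (fun a ha b hb e => ?_) fun a ha => ?_)
      (card_le_od0 t _ _ (fun a ha b hb e => ?_) fun a ha => ?_)
    · exact Sum.inl_injective (h1 _ (Finset.mem_toLeft.1 ha) _ (Finset.mem_toLeft.1 hb) e)
    · exact bd_inl s t k a 0 ▸ h2 _ (Finset.mem_toLeft.1 ha)
    · exact Sum.inr_injective (h1 _ (Finset.mem_toRight.1 ha) _ (Finset.mem_toRight.1 hb) e)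
    · exact bd_inr s t k a 0 ▸ h2 _ (Finset.mem_toRight.1 ha)

/-- leaves through the node `(a₀, j)`, in different branches, all odd -/
theorem card_le_od : ∀ (s : Sh) (k : s.Lf → ℕ) (a₀ : s.Lf) (j : ℕ) (A : Finset s.Lf),
    (∀ a ∈ A, s.shr a₀ a j = j) → (∀ a ∈ A, ∀ b ∈ A, s.shr a b (j + 1) = j + 1 → a = b) →
    (∀ a ∈ A, Odd (bd s k a j)) → A.card ≤ od s k a₀ j
  | s, k, a₀, 0, A, _, h1, h2 => by
    have e : od s k a₀ 0 = od0 s k := by cases s <;> rfl
    exact e ▸ card_le_od0 s k A h1 h2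
  | .one, k, _, j + 1, _, _, h1, h2 => card_le_ite (fun a ha b hb => h1 a ha b hb rfl)
      fun a ha => bd_one k a (j + 1) ▸ h2 a ha
  | .step s, k, a₀, j + 1, A, h0, h1, h2 => card_le_od s k a₀ j A
      (fun a ha => Nat.succ_injective (h0 a ha))
      (fun a ha b hb e => h1 a ha b hb (congrArg (· + 1) e)) fun a ha => bd_step s k a j ▸ h2 a ha
  | .split s t, k, .inl a₀, j + 1, A, h0, h1, h2 => by
    have e : Finset.toRight (α := s.Lf) (β := t.Lf) A = ∅ :=
      Finset.eq_empty_of_forall_notMem fun a ha =>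
        (Nat.succ_ne_zero j).symm (h0 _ (Finset.mem_toRight.1 ha))
    refine (Finset.card_toLeft_add_card_toRight (α := s.Lf) (β := t.Lf) (u := A)).symm.trans_le ?_
    rw [e, Finset.card_empty, add_zero]
    exact card_le_od s _ a₀ (j + 1) _ (fun a ha => h0 _ (Finset.mem_toLeft.1 ha))
      (fun a ha b hb e =>
        Sum.inl_injective (h1 _ (Finset.mem_toLeft.1 ha) _ (Finset.mem_toLeft.1 hb) e))
      fun a ha => bd_inl s t k a (j + 1) ▸ h2 _ (Finset.mem_toLeft.1 ha)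
  | .split s t, k, .inr a₀, j + 1, A, h0, h1, h2 => by
    have e : Finset.toLeft (α := s.Lf) (β := t.Lf) A = ∅ :=
      Finset.eq_empty_of_forall_notMem fun a ha =>
        (Nat.succ_ne_zero j).symm (h0 _ (Finset.mem_toLeft.1 ha))
    refine (Finset.card_toLeft_add_card_toRight (α := s.Lf) (β := t.Lf) (u := A)).symm.trans_le ?_
    rw [e, Finset.card_empty, zero_add]
    exact card_le_od t _ a₀ (j + 1) _ (fun a ha => h0 _ (Finset.mem_toRight.1 ha))
      (fun a ha b hb e =>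
        Sum.inr_injective (h1 _ (Finset.mem_toRight.1 ha) _ (Finset.mem_toRight.1 hb) e))
      fun a ha => bd_inr s t k a (j + 1) ▸ h2 _ (Finset.mem_toRight.1 ha)

theorem one_le_od (s : Sh) (k : s.Lf → ℕ) (a : s.Lf) (j : ℕ) (h : Odd (bd s k a j)) :
    1 ≤ od s k a j := by
  simpa using card_le_od s k a j {a} (by simp [Sp38.shr_self]) (by simp) (by simpa using h)

theorem shr_comm : ∀ (s : Sh) (a b : s.Lf) (j : ℕ), s.shr a b j = s.shr b a j
  | .one, _, _, _ => rfl
  | .step _, _, _, 0 => rfl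
  | .step s, a, b, j + 1 => congrArg (· + 1) (shr_comm s a b j)
  | .split s _, .inl a, .inl b, j => shr_comm s a b j
  | .split _ t, .inr a, .inr b, j => shr_comm t a b j
  | .split _ _, .inl _, .inr _, _ => rfl
  | .split _ _, .inr _, .inl _, _ => rfl

/-- two leaves that split at depth `j`, both branches odd -/
theorem two_le_od (s : Sh) (k : s.Lf → ℕ) {a b : s.Lf} {j : ℕ} (h0 : s.shr a b j = j)
    (h1 : s.shr a b (j + 1) ≠ j + 1) (ha : Odd (bd s k a j)) (hb : Odd (bd s k b j)) :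
    2 ≤ od s k a j := by
  have hab : a ≠ b := fun e => h1 (e ▸ Sp38.shr_self s a _)
  have := card_le_od s k a j {a, b} (by simp [Sp38.shr_self, h0])
    (by simp [h1, shr_comm s b a]) (by simp [ha, hb])
  rwa [Finset.card_pair hab] at this

/-- **(PAR), pair form**: `|E ∏ spins| ≤ C N² σ_j` -/
theorem par2 (H : List.Forall₂ (Rk1 spin) L ℓ) (hM : Mono 0 L) (s : Sh) (k : s.Lf → ℕ)
    {a b : s.Lf} {j N : ℕ} (hN : Fintype.card s.Lf ≤ N) (h0 : s.shr a b j = j)
    (h1 : s.shr a b (j + 1) ≠ j + 1) (ha : Odd (bd s k a j)) (hb : Odd (bd s k b j)) {σ : ℝ}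
    (hp : 0 < σ) (hσ : TT (ℓ.take j) ≤ σ) :
    |TE (fun _ => 1) s L 0 (mo k)| ≤ 16 * exp (1 / 2 + √σ) * N ^ 2 * σ := by
  refine (par H hM s k a j hN (two_le_od s k h0 h1 ha hb) hp hσ).trans_eq ?_
  rw [mul_pow _ √σ, sq_sqrt hp.le]
  norm_num [Nat.factorial]
  ring

end One15

end Crest.Agent.T156.Cas

end
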