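import Crest.Agent.T156.PrDef_28

/-!
Row 156, ALT, text (P) (helper28): the base profile (85's coarse grid) and the statements P1, P2
over it.
-/

set_option autoImplicit false

namespace Crest.Agent.T156.Pr

open MeasureTheory Set
open Crest.Agent.R164.GC Crest.Agent.R339.B Crest.Agent.R339.Var Crest.Agent.T157.Pf

noncomputable section

/-- base profile: labels `z` on the grid `v`, critical up to `η` on `[0, J v]` -/
structure Base (b0 c C η v : ℝ) (J : ℕ) (z : ℕ → ℝ) : Prop where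
  v_pos : 0 < v
  lab : Lab z J
  lo : c ≤ J * v
  hi : J * v ≤ b0
  z0 : z 0 ≤ C * v
  slo : ∀ j, j + 1 < J → c * v ≤ dm z j ∧ dm z j ≤ C * v
  lin : ∀ j : ℕ, z j ≤ C * (j * v) + η
  crit : ∀ N, J ≤ N → ∀ t ∈ Icc 0 (J * v), |b0 * GG (lst z (fun j => j * v) N) t - 1| ≤ η

/-- existence of base profiles (85) -/
def BaseS : Prop := ∀ β : ℝ, 1 < β → ∃ c C : ℝ, 0 < c ∧ 1 ≤ C ∧ ∃ K0 : ℕ, ∀ K : ℕ, K0 ≤ K →
  ∃ (J : ℕ) (z : ℕ → ℝ), Base (β ^ 2) c C (C / K) (β ^ 2 / K) J z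

/-- the list of a profile -/
def lo (z : ℕ → ℝ) (v : ℝ) (om : ℕ → ℝ) (N : ℕ) : List (ℝ × ℝ) := lst z (sig v om) N

/-- displaced mass between two profiles -/
def DD (z : ℕ → ℝ) (N : ℕ) (om om' : ℕ → ℝ) : ℝ :=
  ∑ j ∈ Finset.range N, dm z j * |om' (j + 1) - om (j + 1)|

/-- first-order term of the comparison -/
def SS (z : ℕ → ℝ) (N : ℕ) (v : ℝ) (om om' : ℕ → ℝ) (t : ℝ) : ℝ :=
  ∑ j ∈ Finset.range N, dm z j *
    ∫ r in min (sig v om' (j + 1)) t..min (sig v om (j + 1)) t, AA (lo z v om' N) r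

/-- `θ = 1 - b / b0` -/
def thh (b0 : ℝ) (l : List (ℝ × ℝ)) (eps : ℝ) : ℝ := 1 - bb l eps / b0

/-- **Theorem P1** (one profile) -/
def P1B : Prop := ∀ b0 c C T0 : ℝ, 1 ≤ b0 → 0 < c → 1 ≤ C → ∃ c1 C1 Y0 η0 : ℝ, 0 < c1 ∧ 1 ≤ C1 ∧
  0 < Y0 ∧ 0 < η0 ∧ ∀ (η v : ℝ) (J : ℕ) (z : ℕ → ℝ), Base b0 c C η v J z → η ≤ η0 →
  ∀ (N : ℕ) (om : ℕ → ℝ) (Y L eps : ℝ), J ≤ N → N * v ≤ T0 →
    Om v Y L om → 0 ≤ Y → Y ≤ Y0 → L ≤ 1 / 2 → 0 ≤ eps → eps ≤ 1 / 4 →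
    (Ok (lo z v om N) ∧ TT (lo z v om N) = N * v ∧ Y ≤ J * v) ∧
    (∀ t ∈ Icc 0 (J * v),
      eps + c1 * WW z N v om t - C1 * (WW z N v om Y * t ^ 2 + η) ≤ ee (lo z v om N) eps t ∧
      ee (lo z v om N) eps t ≤ eps + C1 * WW z N v om (2 * t) + C1 * (WW z N v om Y * t ^ 2 + η) ∧
      |ee (lo z v om N) eps t - eps - 2 * bb (lo z v om N) eps * SS z N v 0 om t| ≤
        C1 * (WW z N v om Y * t ^ 2 + η)) ∧
    (∀ t ∈ Icc Y (J * v), |ee (lo z v om N) eps t - thh b0 (lo z v om N) eps| ≤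
      C1 * (√Y * WW z N v om Y + η)) ∧
    (eps + c1 * WW z N v om Y - C1 * η ≤ thh b0 (lo z v om N) eps ∧
      thh b0 (lo z v om N) eps ≤ eps + C1 * WW z N v om Y + C1 * η) ∧
    (|chi (lo z v om N) ^ 2 - 1 / b0| ≤ C1 * (WW z N v om Y + η) ∧ 0 ≤ WW z N v om Y ∧
      WW z N v om Y ≤ L * Y ∧ 1 / (2 * b0) ≤ chi (lo z v om N) ^ 2 ∧
      3 / 4 ≤ bb (lo z v om N) eps ∧ bb (lo z v om N) eps ≤ 2 * b0) ∧
    ∀ t ∈ Icc (J * v) (N * v), 1 - Real.exp (-((t - J * v) / 2)) *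
      (1 - ee (lo z v om N) eps (J * v)) ≤ ee (lo z v om N) eps t

/-- **Theorem P2** (two profiles; difference form) -/
def P2B : Prop := ∀ b0 c C T0 : ℝ, 1 ≤ b0 → 0 < c → 1 ≤ C → ∃ c1 C1 Y0 η0 : ℝ, 0 < c1 ∧ 1 ≤ C1 ∧
  0 < Y0 ∧ 0 < η0 ∧ ∀ (η v : ℝ) (J : ℕ) (z : ℕ → ℝ), Base b0 c C η v J z → η ≤ η0 →
  ∀ (N : ℕ) (om om' : ℕ → ℝ) (Y L eps eps' : ℝ), J ≤ N → N * v ≤ T0 →
    Om v Y L om → Om v Y L om' → 0 ≤ Y → Y ≤ Y0 → L ≤ 1 / 2 →
    0 ≤ eps → eps ≤ 1 / 4 → 0 ≤ eps' → eps' ≤ 1 / 4 →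
    (|chi (lo z v om' N) - chi (lo z v om N)| ≤ C1 * DD z N om om' ∧
      |k4 (lo z v om' N) - k4 (lo z v om N)| ≤ C1 * DD z N om om' ∧
      |bb (lo z v om' N) eps' - bb (lo z v om N) eps| ≤ C1 * (DD z N om om' + |eps' - eps|) ∧
      (∀ t ∈ Icc 0 (N * v), |GG (lo z v om' N) t - GG (lo z v om N) t| ≤ C1 * DD z N om om') ∧
      ∀ j ≤ N, |Gam (lo z v om' N) (sig v om' j) - Gam (lo z v om N) (sig v om j)| ≤
        |om' j - om j| + C1 * (j * v) * DD z N om om') ∧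
    (∀ t ∈ Icc 0 (N * v), |ee (lo z v om' N) eps' t - ee (lo z v om N) eps t - (eps' - eps) -
        2 * bb (lo z v om' N) eps' * SS z N v om om' t| ≤
      C1 * (DD z N om om' + |eps' - eps|) * (t ^ 2 + η * t + |ee (lo z v om N) eps t - eps|)) ∧
    (∀ t ∈ Icc Y (N * v), |ee (lo z v om' N) eps' t - ee (lo z v om N) eps t -
        (thh b0 (lo z v om' N) eps' - thh b0 (lo z v om N) eps) * (b0 * GG (lo z v om N) t)| ≤
      C1 * √Y * DD z N om om') ∧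
    ((∀ j, om j ≤ om' j) → eps ≤ eps' →
      c1 * (DD z N om om' + (eps' - eps)) ≤ thh b0 (lo z v om' N) eps' - thh b0 (lo z v om N) eps ∧
      thh b0 (lo z v om' N) eps' - thh b0 (lo z v om N) eps ≤ C1 * (DD z N om om' + (eps' - eps)))

/-! ### elementary facts on profiles -/

section elem

variable {v Y L : ℝ} {om om' z : ℕ → ℝ} {N J : ℕ}

theorem om_zero (v Y : ℝ) {L : ℝ} (h : 0 ≤ L * v) : Om v Y L 0 :=
  ⟨rfl, fun _ => le_rfl, fun _ _ => rfl, fun _ => by simpa using h⟩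

theorem Om.Lv (h : Om v Y L om) : 0 ≤ L * v := (abs_nonneg _).trans (h.lip 0)

theorem Om.L_nn (h : Om v Y L om) (hv : 0 < v) : 0 ≤ L := by
  have := h.Lv
  by_contra hc
  push Not at hc
  nlinarith

theorem Om.le (h : Om v Y L om) : ∀ j : ℕ, om j ≤ L * (j * v)
  | 0 => by simp [h.zero]
  | j + 1 => by
    have a := h.le j
    have b := (abs_le.1 (h.lip j)).2
    push_cast
    nlinarith

theorem Om.leY (h : Om v Y L om) (hv : 0 < v) (hY : 0 ≤ Y) (j : ℕ) : om j ≤ L * Y := by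
  have hL := h.L_nn hv
  rcases le_or_gt Y (j * v) with a | a
  · rw [h.supp j a]; positivity
  · exact (h.le j).trans (mul_le_mul_of_nonneg_left a.le hL)

theorem Om.sig0 (h : Om v Y L om) : sig v om 0 = 0 := by simp [sig, h.zero]

theorem Om.sig_le (h : Om v Y L om) (j : ℕ) : sig v om j ≤ j * v := by
  unfold sig; linarith [h.nn j]

theorem Om.sig_ge (h : Om v Y L om) (hv : 0 < v) (hL : L ≤ 1 / 2) (j : ℕ) :
    j * v / 2 ≤ sig v om j := by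
  have a := h.le j
  have b : 0 ≤ (j:ℝ) * v := by positivity
  unfold sig
  nlinarith

theorem Om.sig_nn (h : Om v Y L om) (hv : 0 < v) (hL : L ≤ 1 / 2) (j : ℕ) : 0 ≤ sig v om j :=
  le_trans (by positivity) (h.sig_ge hv hL j)

theorem Om.sig_eq (h : Om v Y L om) {j : ℕ} (hj : Y ≤ j * v) : sig v om j = j * v := by
  simp [sig, h.supp j hj]

theorem Om.sm (h : Om v Y L om) (hv : 0 < v) (hL : L ≤ 1 / 2) : StrictMono (sig v om) :=
  strictMono_nat_of_lt_succ fun j => by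
    have b := (abs_le.1 (h.lip j)).2
    unfold sig
    push_cast
    nlinarith

theorem Lab.up (h : Lab z J) (hN : J ≤ N) : Lab z N :=
  ⟨h.mono, h.pos, fun k hk => h.top k (hN.trans hk)⟩

theorem Lab.dm_nn (h : Lab z J) (j : ℕ) : 0 ≤ dm z j := sub_nonneg.2 (h.mono (Nat.le_succ j))

theorem Lab.dm_top (h : Lab z J) {j : ℕ} (hj : J ≤ j) : dm z j = 0 := by
  unfold dm; rw [h.top j hj, h.top _ (hj.trans (Nat.le_succ j)), sub_self]

theorem sum_dm (z : ℕ → ℝ) (N : ℕ) : ∑ j ∈ Finset.range N, dm z j = z N - z 0 :=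
  Finset.sum_range_sub z N

theorem Lab.sum_le (h : Lab z N) : ∑ j ∈ Finset.range N, dm z j ≤ 1 := by
  rw [sum_dm, h.top N le_rfl]; linarith [h.pos]

theorem DD_nn (h : Lab z N) (om om' : ℕ → ℝ) : 0 ≤ DD z N om om' :=
  Finset.sum_nonneg fun j _ => mul_nonneg (h.dm_nn j) (abs_nonneg _)

theorem WW_eq (h : Om v Y L om) {t : ℝ} (ht : Y ≤ t) : WW z N v om t = DD z N 0 om := by
  unfold WW DD
  refine Finset.sum_congr rfl fun j _ => ?_
  rw [Pi.zero_apply, sub_zero, abs_of_nonneg (h.nn _)]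
  split_ifs with a
  · rfl
  · rw [h.supp (j + 1) (by push_cast; linarith [not_le.1 a]), mul_zero]

theorem DD_le (hz : Lab z N) (h : Om v Y L om) (hv : 0 < v) (hY : 0 ≤ Y) :
    DD z N 0 om ≤ L * Y := by
  have hL := h.L_nn hv
  calc DD z N 0 om ≤ ∑ j ∈ Finset.range N, dm z j * (L * Y) :=
        Finset.sum_le_sum fun j _ => mul_le_mul_of_nonneg_left (by
          rw [Pi.zero_apply, sub_zero, abs_of_nonneg (h.nn _)]
          exact h.leY hv hY _) (hz.dm_nn j)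
    _ = (∑ j ∈ Finset.range N, dm z j) * (L * Y) := by rw [Finset.sum_mul]
    _ ≤ L * Y := mul_le_of_le_one_left (by positivity) hz.sum_le

theorem exists_cell {s : ℕ → ℝ} {t : ℝ} (h0 : s 0 ≤ t) : ∀ N : ℕ, t < s N →
    ∃ j < N, s j ≤ t ∧ t < s (j + 1)
  | 0, h => absurd h (not_lt.2 h0)
  | N + 1, h => by
    rcases lt_or_ge t (s N) with a | a
    · obtain ⟨j, hj, b⟩ := exists_cell h0 N a
      exact ⟨j, hj.trans (Nat.lt_succ_self N), b⟩
    · exact ⟨N, Nat.lt_succ_self N, a, h⟩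

theorem int_bds {g : ℝ → ℝ} {T a b m M : ℝ} (hg : ContinuousOn g (Icc 0 T)) (ha : 0 ≤ a)
    (hab : a ≤ b) (hb : b ≤ T) (h : ∀ r ∈ Icc a b, m ≤ g r ∧ g r ≤ M) :
    m * (b - a) ≤ ∫ r in a..b, g r ∧ ∫ r in a..b, g r ≤ M * (b - a) := by
  have hi : IntervalIntegrable g volume a b :=
    (hg.mono (Icc_subset_Icc ha hb)).intervalIntegrable_of_Icc hab
  constructor
  · have := intervalIntegral.integral_mono_on hab (intervalIntegrable_const (c := m)) hi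
      fun r hr => (h r hr).1
    simpa [mul_comm] using this
  · have := intervalIntegral.integral_mono_on hab hi (intervalIntegrable_const (c := M))
      fun r hr => (h r hr).2
    simpa [mul_comm] using this

end elem

end

end Crest.Agent.T156.Pr
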