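import Crest.Agent.T156.AltPre_67
import Crest.Agent.T156.PFam_3
import Crest.Agent.T156.PrC_28
import Crest.Agent.T156.PArea_50

/-!
# Row 156, ALT route: (P0) from (P1) (helper37)
-/

set_option autoImplicit false

noncomputable section

namespace Crest.Agent.T156.Alt.P037

open Real Set Filter Topology
open Crest.Agent.R339.Var (TT)

theorem sm_zero {u : ℝ} (h : u ≤ 0) : sm u = 0 := by
  unfold sm
  rw [max_eq_left (min_le_of_left_le h)]; ring

theorem sm_one : sm 1 = 1 := by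
  unfold sm; norm_num

theorem sm_nn (u : ℝ) : 0 ≤ sm u := by
  unfold sm
  have a : 0 ≤ max 0 (min u 1) := le_max_left _ _
  have b : max 0 (min u 1) ≤ 1 := max_le zero_le_one (min_le_right _ _)
  generalize max 0 (min u 1) = x at a b
  nlinarith [mul_nonneg (sq_nonneg x) (sub_nonneg.2 b), sq_nonneg x]

/-- the numeric facts used -/
structure Nm (c0 C Λ : ℝ) (p : Pm) : Prop where
  n1 : 1 ≤ (p.n : ℝ)
  mu0 : p.μ0 ≤ p.κ * p.r ^ 2
  mu0p : 0 < p.μ0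
  rye : p.r ≤ p.ye
  rp : 0 < p.r
  kp : 0 < p.κ
  vr : p.v ≤ p.r
  am : 2 * p.amax * C ≤ p.r
  L1 : 2 * C ≤ Λ
  r1 : 4 * C * p.r ≤ 1
  r2 : 4 * p.r ≤ c0
  k1 : 8 * C * p.κ ≤ 1
  y1 : 2 * p.ye ≤ c0
  w : ∀ τ y, p.μ0 ≤ p.μ τ y → p.wt τ y ≤ 1 ∧
    2 * C * p.r + log p.n * p.wt τ y ^ ((2 : ℝ) / 3) ≤ c0 / (2 * C)
  L2 : C * p.β ^ 2 + log (1 + 1 / √p.v) ≤ Λ
  L3 : p.β ^ 2 + p.A * log p.n + p.v + log (1 + 1 / √p.v) ≤ Λ

section det

variable {c0 C0 C Λ η : ℝ} {p : Pm} {τ y : ℝ}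

theorem Nm.mem (h : Nm c0 C Λ p) (hm : p.Mem τ y) :
    0 < τ ∧ τ ≤ 1 ∧ p.r ≤ y ∧ y ≤ p.ye ∧ p.μ0 ≤ p.μ τ y := by
  have k := h.kp
  have r := h.rp
  rcases hm with ⟨rfl, a, b⟩ | ⟨rfl, a, b⟩
  · refine ⟨?_, b, le_rfl, h.rye, a⟩
    by_contra hc
    have : τ * p.κ * p.r ^ 2 ≤ 0 :=
      mul_nonpos_of_nonpos_of_nonneg (mul_nonpos_of_nonpos_of_nonneg (not_lt.1 hc) k.le)
        (sq_nonneg _)
    linarith [h.mu0p]
  · refine ⟨one_pos, le_rfl, a, b, h.mu0.trans ?_⟩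
    unfold Pm.μ
    rw [one_mul]
    exact mul_le_mul_of_nonneg_left (pow_le_pow_left₀ r.le a 2) k.le

theorem Nm.mem0 (h : Nm c0 C Λ p) : p.Mem 1 p.r := Or.inr ⟨rfl, le_rfl, h.rye⟩

theorem Nm.k_le (h : Nm c0 C Λ p) (hC : 1 ≤ C) : p.κ ≤ 1 / 8 := by
  nlinarith [h.k1, h.kp]

theorem Nm.mu_le (h : Nm c0 C Λ p) (hC : 1 ≤ C) (hm : p.Mem τ y) :
    0 < p.μ τ y ∧ p.μ τ y ≤ p.κ := by
  obtain ⟨t0, t1, a, b, c⟩ := h.mem hm
  refine ⟨h.mu0p.trans_le c, ?_⟩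
  have k := h.kp
  have k1 := h.k_le hC
  have y0 : 0 ≤ y := h.rp.le.trans a
  have y1 : y ≤ 1 := b.trans (by unfold Pm.ye; exact pow_le_one₀ k.le (by linarith))
  unfold Pm.μ
  calc τ * p.κ * y ^ 2 ≤ 1 * p.κ * 1 := by
        gcongr
        exact pow_le_one₀ y0 y1
    _ = p.κ := by ring

theorem wt_pos (h : Nm c0 C Λ p) (hC : 1 ≤ C) (hm : p.Mem τ y) : 0 < p.wt τ y :=
  rpow_pos_of_pos (mul_pos (by linarith [h.n1]) (h.mu_le hC hm).1) _

theorem ms_bds (h : Nm c0 C Λ p) (hm : p.Mem τ y) (t : ℝ) :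
    0 < p.eps τ ∧ p.eps τ ≤ p.ms τ y t ∧ p.ms τ y t ≤ p.μ τ y := by
  obtain ⟨t0, t1, a, b, c⟩ := h.mem hm
  have k := h.kp
  have r := h.rp
  unfold Pm.eps Pm.ms Pm.μ
  refine ⟨by positivity, ?_, ?_⟩
  · exact mul_le_mul_of_nonneg_left (pow_le_pow_left₀ r.le (le_max_left _ _) 2) (by positivity)
  · exact mul_le_mul_of_nonneg_left (pow_le_pow_left₀ (r.le.trans (le_max_left _ _))
      (max_le a (min_le_right _ _)) 2) (by positivity)

/-! ### labels -/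

theorem z_le_one (hB : Pr.Base (p.β ^ 2) c0 C0 η p.v p.J p.z) (k : ℕ) : p.z k ≤ 1 :=
  (hB.lab.mono (le_max_left k p.J)).trans (hB.lab.top _ (le_max_right _ _)).le

theorem plat_lt (hv : 0 < p.v) {k : ℕ} (h1 : p.J ≤ k) (h2 : k < p.J + p.I) :
    p.xs + ((k : ℝ) + 1 - p.J) * p.v ≤ 1 - p.v := by
  have a : k + 1 - p.J + 1 ≤ ⌊(1 - p.xs) / p.v⌋₊ := by unfold Pm.I at h2; omega
  have b : 0 ≤ (1 - p.xs) / p.v := by
    by_contra hc
    rw [Nat.floor_of_nonpos (not_le.1 hc).le] at a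
    omega
  have c : ((k + 1 - p.J + 1 : ℕ) : ℝ) ≤ (1 - p.xs) / p.v :=
    (Nat.cast_le.2 a).trans (Nat.floor_le b)
  rw [Nat.cast_add, Nat.cast_sub (by omega), le_div_iff₀ hv] at c
  push_cast at c
  linarith

theorem zz_lo {k : ℕ} (h : k < p.J) : p.zz k = p.z k := if_pos h

theorem zz_mid {k : ℕ} (h1 : p.J ≤ k) (h2 : k < p.J + p.I) :
    p.zz k = p.xs + ((k : ℝ) + 1 - p.J) * p.v := by
  unfold Pm.zz; rw [if_neg (by omega), if_pos h2]

theorem zz_hi {k : ℕ} (h : p.J + p.I ≤ k) : p.zz k = 1 := by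
  unfold Pm.zz; rw [if_neg (by omega), if_neg (by omega)]

theorem zz_le_one (hB : Pr.Base (p.β ^ 2) c0 C0 η p.v p.J p.z) (k : ℕ) : p.zz k ≤ 1 := by
  rcases lt_or_ge k p.J with a | a
  · rw [zz_lo a]; exact z_le_one hB k
  · rcases lt_or_ge k (p.J + p.I) with b | b
    · rw [zz_mid a b]; linarith [plat_lt hB.v_pos a b, hB.v_pos]
    · rw [zz_hi b]

/-- on the plateau (from the last base node on) the label is `xs + (k + 1 - J) v` -/
theorem zz_mid' (hJ : 0 < p.J) {k : ℕ} (h1 : p.J ≤ k + 1) (h2 : k < p.J + p.I) :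
    p.zz k = p.xs + ((k : ℝ) + 1 - p.J) * p.v := by
  rcases lt_or_ge k p.J with a | a
  · have e : k = p.J - 1 := by omega
    have e' : (p.J : ℝ) = k + 1 := by exact_mod_cast (by omega : p.J = k + 1)
    rw [zz_lo a, e', sub_self, zero_mul, add_zero, Pm.xs, ← e]
  · exact zz_mid a h2

theorem zz_mono (hB : Pr.Base (p.β ^ 2) c0 C0 η p.v p.J p.z) (hJ : 0 < p.J) : Monotone p.zz := by
  refine monotone_nat_of_le_succ fun k => ?_
  rcases lt_or_ge (k + 1) p.J with a | a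
  · rw [zz_lo a, zz_lo (by omega)]; exact hB.lab.mono (Nat.le_succ k)
  · rcases lt_or_ge (k + 1) (p.J + p.I) with b | b
    · rw [zz_mid' hJ a (by omega), zz_mid a b]
      push_cast
      nlinarith [hB.v_pos]
    · rw [zz_hi b]; exact zz_le_one hB k

theorem xs_le_zz (hB : Pr.Base (p.β ^ 2) c0 C0 η p.v p.J p.z) (hJ : 0 < p.J) {k : ℕ}
    (h : p.J ≤ k + 1) : p.xs ≤ p.zz k := by
  have := zz_mono hB hJ (show p.J - 1 ≤ k by omega)
  rwa [zz_lo (by omega)] at this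

theorem j0_bds (h : Nm c0 C Λ p) (hv : 0 < p.v) :
    p.r ≤ p.j0 * p.v ∧ p.j0 * p.v ≤ 2 * p.r ∧ 1 ≤ p.j0 := by
  have r := h.rp
  have a : p.r / p.v ≤ p.j0 := Nat.le_ceil _
  have b : (p.j0 : ℝ) < p.r / p.v + 1 := Nat.ceil_lt_add_one (by positivity)
  rw [div_le_iff₀ hv] at a
  refine ⟨a, ?_, Nat.ceil_pos.2 (by positivity)⟩
  have : (p.j0 : ℝ) * p.v ≤ (p.r / p.v + 1) * p.v := mul_le_mul_of_nonneg_right b.le hv.le
  rw [add_mul, div_mul_cancel₀ _ hv.ne'] at this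
  linarith [h.vr]

theorem j0_lt (h : Nm c0 C Λ p) (hB : Pr.Base (p.β ^ 2) c0 C0 η p.v p.J p.z) :
    p.j0 + 1 < p.J := by
  have hv := hB.v_pos
  have a := (j0_bds h hv).2.1
  have b : ((p.j0 : ℝ) + 1) * p.v < p.J * p.v := by
    nlinarith [hB.lo, h.r2, h.vr, h.rp]
  have c : (p.j0 : ℝ) + 1 < p.J := lt_of_mul_lt_mul_right b hv.le
  exact_mod_cast c

/-! ### static marks -/

theorem lg_mono {w v x x' : ℝ} (hw : 0 ≤ w) (hv : 0 < v) (h : x ≤ x') (h1 : x' ≤ 1) :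
    log ((1 + w / √(1 - max x (1 / 2) + v)) / (1 + w / √(1 / 2 + v))) ≤
      log ((1 + w / √(1 - max x' (1 / 2) + v)) / (1 + w / √(1 / 2 + v))) := by
  have a : max x' (1 / 2) ≤ 1 := max_le h1 (by norm_num)
  have b : max x (1 / 2) ≤ max x' (1 / 2) := max_le_max h le_rfl
  have c : 0 < √(1 - max x' (1 / 2) + v) := sqrt_pos.2 (by linarith)
  refine log_le_log (by positivity) (div_le_div_of_nonneg_right ?_ (by positivity))
  have : w / √(1 - max x (1 / 2) + v) ≤ w / √(1 - max x' (1 / 2) + v) :=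
    div_le_div_of_nonneg_left hw c (sqrt_le_sqrt (by linarith))
  linarith

theorem lg_le {w v x : ℝ} (hw : 0 ≤ w) (hw1 : w ≤ 1) (hv : 0 < v) (h1 : x ≤ 1) :
    log ((1 + w / √(1 - max x (1 / 2) + v)) / (1 + w / √(1 / 2 + v))) ≤ log (1 + 1 / √v) := by
  have a : max x (1 / 2) ≤ 1 := max_le h1 (by norm_num)
  have c : 0 < √v := sqrt_pos.2 hv
  refine log_le_log (by positivity) ((div_le_self (by positivity) ?_).trans ?_)
  · have : 0 ≤ w / √(1 / 2 + v) := by positivity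
    linarith
  · have : w / √(1 - max x (1 / 2) + v) ≤ 1 / √v :=
      div_le_div₀ zero_le_one hw1 c (sqrt_le_sqrt (by linarith))
    linarith

theorem rs_le (hw : 0 ≤ p.wt τ y) (hw1 : p.wt τ y ≤ 1) (hv : 0 < p.v) {x : ℝ} (h1 : x ≤ 1) :
    p.rs τ y x ≤ log (1 + 1 / √p.v) := by
  unfold Pm.rs
  have a := lg_le hw hw1 hv h1
  split_ifs
  · have := mul_nonneg (rpow_nonneg hw ((2 : ℝ) / 3))
      (sm_nn (1 - (p.xs - x) / (log p.n * p.wt τ y ^ ((2 : ℝ) / 3))))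
    linarith
  · have : 0 ≤ p.wt τ y / √(x - p.xs + p.wt τ y ^ ((2 : ℝ) / 3)) := by positivity
    linarith

theorem rs_top (hw : 0 < p.wt τ y) {x : ℝ} (h : p.xs ≤ x) :
    p.rs τ y x = -(p.wt τ y / √(x - p.xs + p.wt τ y ^ ((2 : ℝ) / 3))) +
      log ((1 + p.wt τ y / √(1 - max x (1 / 2) + p.v)) / (1 + p.wt τ y / √(1 / 2 + p.v))) := by
  unfold Pm.rs
  split_ifs with a
  · have e : x = p.xs := le_antisymm a h
    rw [e, sub_self, zero_div, sub_zero, sm_one, mul_one, zero_add,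
      sqrt_eq_rpow (p.wt τ y ^ ((2 : ℝ) / 3)), ← rpow_mul hw.le]
    congr 2
    rw [eq_div_iff (rpow_pos_of_pos hw _).ne', ← rpow_add hw]
    norm_num
  · rfl

theorem rs_lt (hw : 0 < p.wt τ y) (hv : 0 < p.v) {x x' : ℝ} (h : p.xs ≤ x) (h' : x < x')
    (h1 : x' ≤ 1) : p.rs τ y x < p.rs τ y x' := by
  rw [rs_top hw h, rs_top hw (h.trans h'.le)]
  have a := lg_mono hw.le hv h'.le h1
  have b : 0 < p.wt τ y ^ ((2 : ℝ) / 3) := rpow_pos_of_pos hw _
  have c : p.wt τ y / √(x' - p.xs + p.wt τ y ^ ((2 : ℝ) / 3)) <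
      p.wt τ y / √(x - p.xs + p.wt τ y ^ ((2 : ℝ) / 3)) :=
    div_lt_div_of_pos_left hw (sqrt_pos.2 (by linarith)) (sqrt_lt_sqrt (by linarith) (by linarith))
  linarith

theorem rs_le' (hw : 0 < p.wt τ y) (hv : 0 < p.v) {x x' : ℝ} (h : p.xs ≤ x) (h' : x ≤ x')
    (h1 : x' ≤ 1) : p.rs τ y x ≤ p.rs τ y x' := by
  rcases h'.eq_or_lt with e | e
  · rw [e]
  · exact (rs_lt hw hv h e h1).le

theorem rs_zero {x : ℝ} (hd : 0 < log p.n * p.wt τ y ^ ((2 : ℝ) / 3))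
    (h : x + log p.n * p.wt τ y ^ ((2 : ℝ) / 3) ≤ p.xs) (h2 : x ≤ 1 / 2) (hw : 0 ≤ p.wt τ y) :
    p.rs τ y x = 0 := by
  unfold Pm.rs
  rw [if_pos (by linarith), sm_zero, max_eq_right h2, show (1 : ℝ) - 1 / 2 = 1 / 2 by norm_num,
    div_self (by positivity), log_one]
  · ring
  · rw [sub_nonpos, le_div_iff₀ hd]; linarith

/-! ### the marks -/

theorem H_hi {k : ℕ} (h : p.j0 < k) :
    p.H τ y k = Pr.Fam3.hh (p.l τ y) (p.eps τ) (p.ss τ y k) + p.μ τ y * p.rs τ y (p.zz (k - 1)) := by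
  unfold Pm.H; rw [if_neg (by omega)]; rfl

theorem H_lo {k : ℕ} (h : k ≤ p.j0) : p.H τ y k = 0 := if_pos h

theorem ss_lo {k : ℕ} (h : k ≤ p.J) : p.ss τ y k = Pr.sig p.v (p.om τ y) k := if_pos h

theorem ss_mid {Y L : ℝ} (ho : Pr.Om p.v Y L (p.om τ y)) (hY : Y ≤ p.J * p.v) {k : ℕ}
    (h1 : p.J ≤ k) (h2 : k ≤ p.J + p.I) : p.ss τ y k = p.J * p.v := by
  rcases h1.eq_or_lt with e | e
  · rw [← e, ss_lo le_rfl, ho.sig_eq hY]
  · unfold Pm.ss; rw [if_neg (by omega), if_pos h2]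

theorem ss_hi {Y L : ℝ} (ho : Pr.Om p.v Y L (p.om τ y)) (hY : Y ≤ p.J * p.v) {k : ℕ}
    (h : p.J + p.I ≤ k) : p.ss τ y k = ((k : ℝ) - p.I) * p.v := by
  rcases h.eq_or_lt with e | e
  · rw [ss_mid ho hY (by omega) e.ge, ← e]; push_cast; ring
  · unfold Pm.ss; rw [if_neg (by omega), if_neg (by omega)]

set_option maxHeartbeats 1000000 in
/-- **(P0) from (P1)**, deterministic form -/
theorem p0_det (hc0 : 0 < c0) (hC : 1 ≤ C) (hn : 2 ≤ (p.n : ℝ)) (hβ : 1 < p.β)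
    (hB : Pr.Base (p.β ^ 2) c0 C0 η p.v p.J p.z) (h : Nm c0 C Λ p) (hP : P1 C p) : P0 Λ p := by
  have hv := hB.v_pos
  have r := h.rp
  have C0' : 0 < C := by linarith
  have jl := j0_lt h hB
  have hJ : 0 < p.J := by omega
  obtain ⟨j1, j2, j3⟩ := j0_bds h hv
  obtain ⟨-, -, -, -, -, -, hz, -⟩ := hP 1 p.r h.mem0
  have z1 := (hz p.j0 j3 (by omega)).1
  have z2 := (hz p.j0 j3 (by omega)).2
  have z3 : p.z p.j0 ≤ 2 * C * p.r := z2.trans (by nlinarith)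
  have zj : p.zz p.j0 = p.z p.j0 := zz_lo (by omega)
  have z4 : p.z p.j0 ≤ 1 / 2 := by linarith [h.r1]
  have xs0 : c0 / (2 * C) ≤ p.xs := by
    refine le_trans ?_ (hz (p.J - 1) (by omega) (by omega)).1
    rw [Nat.cast_sub (by omega), div_le_div_iff₀ (by positivity) C0']
    push_cast
    have : c0 ≤ 2 * ((p.J - 1) * p.v) := by nlinarith [hB.lo, h.vr, h.r2]
    nlinarith
  refine ⟨h.mu0, h.rye, zz_mono hB hJ, zz_le_one hB, ?_, ?_, zj ▸ z4, by omega,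
    fun τ y hm => ?_⟩
  · rw [zj]
    refine le_trans ?_ z1
    rw [le_div_iff₀ C0']
    exact h.am.trans j1
  · rw [zj]
    exact z3.trans (mul_le_mul_of_nonneg_right h.L1 r.le)
  obtain ⟨ho, hok, ⟨b1, b2⟩, he, hr, -, -, hH⟩ := hP τ y hm
  obtain ⟨t0, t1, y0, y1, -⟩ := h.mem hm
  obtain ⟨m0, m1⟩ := h.mu_le hC hm
  have k8 := h.k_le hC
  have w0 := wt_pos h hC hm
  obtain ⟨w1, w2⟩ := h.w τ y (h.mem hm).2.2.2.2
  have hY : 2 * y ≤ p.J * p.v := by linarith [h.y1, hB.lo]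
  have hL : 4 * p.κ ≤ 1 / 2 := by linarith
  have β2 : 0 < p.β ^ 2 := by positivity
  have hTT : TT (p.l τ y) = ((p.J + p.Nr : ℕ) : ℝ) * p.v :=
    (Pr.lo_ok Pr.areaS (hB.lab.up (Nat.le_add_right _ _)) ho hv hL (hY.trans (by
      push_cast
      have : (0 : ℝ) ≤ p.Nr * p.v := by positivity
      linarith))).2
  have JT : (p.J : ℝ) * p.v ≤ TT (p.l τ y) := by
    rw [hTT]; push_cast
    have : (0 : ℝ) ≤ p.Nr * p.v := by positivity
    linarith
  have Cm : C * p.μ τ y ≤ 1 / 8 := by nlinarith [h.k1]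
  have mC : 0 < p.μ τ y / C := by positivity
  have mC1 : p.μ τ y / C ≤ 1 := by rw [div_le_one C0']; linarith
  have b0 : 0 < p.b τ y := by
    have : 0 < p.b τ y / p.β ^ 2 := by linarith
    exact (div_pos_iff_of_pos_right β2).1 this
  have hh0 := Pr.Fam3.hh_zero hok (p.eps τ)
  have eb : ∀ t ∈ Icc 0 (p.J * p.v), p.eps τ / C ≤ Pr.ee (p.l τ y) (p.eps τ) t ∧
      Pr.ee (p.l τ y) (p.eps τ) t ≤ C * p.μ τ y := fun t ht =>
    ⟨(div_le_div_of_nonneg_right (ms_bds h hm t).2.1 C0'.le).trans (he t ht).1,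
      (he t ht).2.trans (mul_le_mul_of_nonneg_left (ms_bds h hm t).2.2 C0'.le)⟩
  have e0 := (ms_bds h hm 0).1
  have hle : ∀ t, Pr.Fam3.hh (p.l τ y) (p.eps τ) t ≤ t := fun t => by
    have : 0 ≤ Pr.Gam (p.l τ y) t := by rw [Pp.Ode3.Gam_eq]; exact Pp.Ode3.Gam_nonneg _ _
    have := mul_nonneg b0.le this
    unfold Pr.Fam3.hh
    unfold Pm.b at this
    linarith
  have lg0 : 0 ≤ log (1 + 1 / √p.v) := log_nonneg (by
    have : 0 ≤ 1 / √p.v := by positivity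
    linarith)
  have rsb : ∀ k, p.μ τ y * p.rs τ y (p.zz k) ≤ p.μ τ y * log (1 + 1 / √p.v) := fun k =>
    mul_le_mul_of_nonneg_left (rs_le w0.le w1 hv (zz_le_one hB k)) m0.le
  refine ⟨b0, ?_, b2.trans (mul_le_mul_of_nonneg_right (by linarith [h.L1]) m0.le),
    fun k k0 k1 => ?_, ?_, ?_⟩
  · have : p.b τ y / p.β ^ 2 ≤ 1 := by linarith
    exact (div_le_one β2).1 this
  · rcases k0.eq_or_lt with e | e
    · -- the first mark
      rw [← e, H_lo le_rfl, H_hi (k := p.j0 + 1) (by omega), Nat.add_sub_cancel, zj,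
        rs_zero (mul_pos (log_pos (by linarith)) (rpow_pos_of_pos w0 _)) (by linarith) z4 w0.le,
        mul_zero, add_zero, ss_lo (by omega)]
      have s0 : 0 < Pr.sig p.v (p.om τ y) (p.j0 + 1) :=
        lt_of_lt_of_le (by positivity) (ho.sig_ge hv hL (p.j0 + 1))
      have s1 : Pr.sig p.v (p.om τ y) (p.j0 + 1) ≤ p.J * p.v := (ho.sig_le _).trans
        (mul_le_mul_of_nonneg_right (Nat.cast_le.2 jl.le) hv.le)
      have := (Pr.Fam3.hh_bds hok (p.eps τ) le_rfl s0.le (s1.trans JT)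
        fun t ht => eb t ⟨ht.1, ht.2.trans s1⟩).1.1
      rw [hh0, sub_zero, sub_zero] at this
      exact lt_of_lt_of_le (by positivity) this
    rcases lt_or_ge k p.J with a | a
    · -- base levels
      have := (hH k e a).1
      have m := ms_bds h hm (k * p.v)
      have : 0 < p.ms τ y (k * p.v) * p.v / C := div_pos (mul_pos (m.1.trans_le m.2.1) hv) C0'
      linarith
    rw [H_hi e, H_hi (k := k + 1) (by omega), Nat.add_sub_cancel]
    have x0 : p.xs ≤ p.zz (k - 1) := xs_le_zz hB hJ (by omega)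
    rcases lt_or_ge k (p.J + p.I) with b | b
    · -- plateau
      rw [ss_mid ho hY a b.le, ss_mid ho hY (k := k + 1) (by omega) b]
      have : p.zz (k - 1) < p.zz k := by
        rw [zz_mid' hJ (k := k - 1) (by omega) (by omega), zz_mid a b, Nat.cast_sub (by omega)]
        push_cast
        nlinarith
      have := mul_lt_mul_of_pos_left (rs_lt w0 hv x0 this (zz_le_one hB k)) m0
      linarith
    · -- reveal
      rw [ss_hi ho hY b, ss_hi ho hY (k := k + 1) (by omega)]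
      have a1 := mul_le_mul_of_nonneg_left
        (rs_le' w0 hv x0 (zz_mono hB hJ (Nat.sub_le k 1)) (zz_le_one hB k)) m0.le
      have c1 : (p.J : ℝ) + p.I ≤ k := by exact_mod_cast b
      have c2 : (k : ℝ) + 1 ≤ p.J + p.I + p.Nr := by
        unfold Pm.N at k1; exact_mod_cast k1
      have d1 : (p.J : ℝ) * p.v ≤ ((k : ℝ) - p.I) * p.v :=
        mul_le_mul_of_nonneg_right (by linarith) hv.le
      have d2 : (((k + 1 : ℕ) : ℝ) - p.I) * p.v ≤ ((p.J + p.Nr : ℕ) : ℝ) * p.v :=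
        mul_le_mul_of_nonneg_right (by push_cast; linarith) hv.le
      have d3 : (((k + 1 : ℕ) : ℝ) - p.I) * p.v - ((k : ℝ) - p.I) * p.v = p.v := by
        push_cast; ring
      have := (Pr.Fam3.hh_bds hok (p.eps τ) (m := p.μ τ y / C) (M := 1)
        (le_trans (by positivity) d1) (by linarith) (d2.trans hTT.ge) fun t ht => ⟨?_, ?_⟩).1.1
      · rw [d3] at this
        have : 0 < p.μ τ y / C * p.v := by positivity
        linarith
      · have q1 := hr t ⟨d1.trans ht.1, ht.2.trans d2⟩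
        have q2 : exp (-((t - p.J * p.v) / 2)) ≤ 1 := exp_le_one_iff.2 (by linarith [ht.1])
        nlinarith
      · have : 0 ≤ Pr.GG (p.l τ y) t := by rw [Pp.Ode3.GG_eq]; exact Pp.Ode3.Gp_nonneg _ _
        have := mul_nonneg b0.le this
        unfold Pr.ee
        unfold Pm.b at this
        linarith
  · rw [H_hi (by omega), ss_mid ho hY (Nat.le_add_right _ _) le_rfl]
    have := (Pr.Fam3.hh_bds hok (p.eps τ) le_rfl (by positivity) JT eb).1.2
    rw [hh0, sub_zero, sub_zero] at this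
    have a1 : C * p.μ τ y * (p.J * p.v) ≤ C * p.μ τ y * p.β ^ 2 :=
      mul_le_mul_of_nonneg_left hB.hi (by positivity)
    have a2 := mul_le_mul_of_nonneg_right h.L2 m0.le
    linarith [rsb (p.J + p.I - 1)]
  · rw [H_hi (by unfold Pm.N; omega), ss_hi ho hY (by unfold Pm.N; omega)]
    have a1 := hle (((p.N : ℝ) - p.I) * p.v)
    have a2 : (p.Nr : ℝ) < p.A * log p.n / p.v + 1 :=
      Nat.ceil_lt_add_one (div_nonneg (mul_nonneg (Nat.cast_nonneg _)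
        (log_nonneg (by linarith))) hv.le)
    have a3 : (p.Nr : ℝ) * p.v ≤ p.A * log p.n + p.v := by
      have := mul_le_mul_of_nonneg_right a2.le hv.le
      rwa [add_mul, div_mul_cancel₀ _ hv.ne', one_mul] at this
    have a4 : ((p.N : ℝ) - p.I) * p.v = p.J * p.v + p.Nr * p.v := by
      unfold Pm.N; push_cast; ring
    have a5 : p.μ τ y * log (1 + 1 / √p.v) ≤ log (1 + 1 / √p.v) :=
      mul_le_of_le_one_left lg0 (by linarith)
    linarith [rsb (p.N - 1), hB.hi, h.L3]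

end det

/-! ### the numbers -/

theorem lg_v {β x : ℝ} {A : ℕ} (hβ : 1 ≤ β) (hx : 2 ≤ x) :
    log (1 + 1 / √(β ^ 2 / x ^ A)) ≤ (A + 1) * log x := by
  have a : 1 ≤ x ^ A := one_le_pow₀ (by linarith)
  have b : 1 / √(β ^ 2 / x ^ A) ≤ x ^ A := by
    rw [div_le_iff₀ (sqrt_pos.2 (by positivity)), ← div_le_iff₀' (by positivity)]
    refine le_sqrt_of_sq_le ?_
    rw [div_pow, div_le_div_iff₀ (by positivity) (by positivity)]
    have : 1 ≤ β ^ 2 := one_le_pow₀ hβ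
    nlinarith [mul_le_mul this a zero_le_one (by positivity : 0 ≤ β ^ 2)]
  have c : 1 + 1 / √(β ^ 2 / x ^ A) ≤ x ^ (A + 1) := by
    rw [pow_succ x A]; nlinarith [mul_le_mul_of_nonneg_left hx (zero_le_one.trans a)]
  have := log_le_log (by positivity) c
  rwa [log_pow, Nat.cast_add, Nat.cast_one] at this

set_option maxHeartbeats 1000000 in
theorem ev_nm {β c0 C c η : ℝ} {A : ℕ} (hβ : 1 < β) (hc0 : 0 < c0) (hC : 1 ≤ C) (hA : 2 ≤ A)
    (hc : 0 < c) (hc' : c ≤ 1 / 200) (hη : 0 < η) : ∀ᶠ n : ℕ in atTop, 2 ≤ (n : ℝ) ∧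
    ∀ p : Pm, p.β = β → p.n = n → p.A = A → p.c = c → 1 ≤ p.s →
      p.s ≤ (p.n : ℝ) ^ ((1 : ℝ) / 19) → Nm c0 C ((n : ℝ) ^ η) p := by
  have C0' : 0 < C := by linarith
  filter_upwards [ev_le_rpow 2 one_pos, ev_le_rpow (β ^ 2) one_pos,
    ev_le_rpow (2 * C) (show 0 < c / 14 by positivity), ev_le_rpow (2 * C) hη,
    ev_rpow_le (show 0 < 1 / (4 * C) by positivity) (show (0 : ℝ) < 1 / 10 by norm_num),
    ev_rpow_le (show 0 < c0 / (8 * C ^ 2) by positivity) (show (0 : ℝ) < 1 / 10 by norm_num),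
    ev_rpow_le (show 0 < 1 / (8 * C) by positivity) hc,
    ev_rpow_le (show 0 < c0 / 2 by positivity) hc,
    ev_rpow_le (show 0 < c0 / (4 * C) by positivity) (show (0 : ℝ) < 1 / 30 by norm_num),
    ev_log_le (show (0 : ℝ) < 1 / 30 by norm_num), ev_log_le (half_pos hη),
    ev_le_rpow (C * β ^ 2 + 1 + (2 * A + 1)) (half_pos hη)] with n n2 nβ e1 e2 e3 e4 e5 e6 e7 e8
    e9 e10
  rw [rpow_one] at n2 nβ
  refine ⟨n2, fun p h1 h2 h3 h4 s1 s2 => ?_⟩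
  subst h1 h2 h3 h4
  have n1 : (1 : ℝ) ≤ p.n := by linarith
  have n0 : (0 : ℝ) < p.n := by linarith
  have mono : ∀ {a b : ℝ}, a ≤ b → (p.n : ℝ) ^ a ≤ (p.n : ℝ) ^ b := fun h =>
    rpow_le_rpow_of_exponent_le n1 h
  have pos : ∀ a : ℝ, 0 < (p.n : ℝ) ^ a := fun a => rpow_pos_of_pos n0 a
  have r1 : p.r ≤ (p.n : ℝ) ^ (-(1 / 10 : ℝ)) := by
    refine (mul_le_mul_of_nonneg_right s2 (pos _).le).trans ?_
    rw [← rpow_add n0]
    exact mono (by linarith)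
  have r2 : (p.n : ℝ) ^ (-(1 / 6 : ℝ)) ≤ p.r :=
    (mono (by linarith)).trans (le_mul_of_one_le_left (pos _).le s1)
  have r0 : 0 < p.r := (pos _).trans_le r2
  have k0 : 0 < p.κ := pos _
  have k1 : p.κ ≤ 1 := rpow_le_one_of_one_le_of_nonpos n1 (by linarith)
  have v1 : p.v ≤ (p.n : ℝ) ^ (-(1 : ℝ)) := by
    unfold Pm.v
    rw [rpow_neg_one, div_le_iff₀ (by positivity), ← div_eq_inv_mul, le_div_iff₀ n0]
    calc p.β ^ 2 * p.n ≤ p.n * p.n := mul_le_mul_of_nonneg_right nβ n0.le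
      _ = (p.n : ℝ) ^ 2 := by ring
      _ ≤ (p.n : ℝ) ^ p.A := pow_le_pow_right₀ n1 hA
  have v2 : p.v ≤ 1 := v1.trans (rpow_le_one_of_one_le_of_nonpos n1 (by norm_num))
  have lg : log (1 + 1 / √p.v) ≤ (p.A + 1) * log p.n := lg_v hβ.le n2
  have l0 : 0 ≤ log (p.n : ℝ) := log_nonneg n1
  have h1 : 1 ≤ (p.n : ℝ) ^ (η / 2) := one_le_rpow n1 (by positivity)
  have h2 : (p.n : ℝ) ^ η = (p.n : ℝ) ^ (η / 2) * (p.n : ℝ) ^ (η / 2) := by
    rw [← rpow_add n0]; congr 1; ring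
  have β2 : 0 ≤ p.β ^ 2 := sq_nonneg _
  have Cβ : p.β ^ 2 ≤ C * p.β ^ 2 := le_mul_of_one_le_left β2 hC
  have A0 : (0 : ℝ) ≤ p.A := Nat.cast_nonneg _
  have big : C * p.β ^ 2 + 1 + (2 * p.A + 1) * log p.n ≤ (p.n : ℝ) ^ η := by
    rw [h2]
    have a := mul_le_mul_of_nonneg_right e10 (pos (η / 2)).le
    have b := mul_le_mul_of_nonneg_left e9 (show (0 : ℝ) ≤ 2 * p.A + 1 by positivity)
    have c := mul_le_mul_of_nonneg_left h1 (show (0 : ℝ) ≤ C * p.β ^ 2 + 1 by positivity)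
    linarith
  have Al := mul_nonneg A0 l0
  refine ⟨n1, ?_, pos _, ?_, r0, k0, v1.trans ((mono (by norm_num)).trans r2), ?_, e2, ?_, ?_, ?_,
    ?_, fun τ y hm => ?_, by linarith, by linarith⟩
  · refine le_trans ?_ (mul_le_mul_of_nonneg_left (pow_le_pow_left₀ (pos _).le r2 2) k0.le)
    unfold Pm.μ0 Pm.κ
    rw [← rpow_natCast, ← rpow_mul n0.le, ← rpow_add n0]
    exact mono (by push_cast; linarith)
  · refine r1.trans ?_
    unfold Pm.ye Pm.κ
    rw [← rpow_natCast, ← rpow_mul n0.le]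
    exact mono (by push_cast; linarith)
  · have e : p.r = p.amax * (p.n : ℝ) ^ (p.c / 14) := by
      unfold Pm.r Pm.amax
      rw [mul_assoc, ← rpow_add n0]; congr 2; ring
    have a0 : 0 ≤ p.amax := mul_nonneg (by linarith) (pos _).le
    rw [e]
    nlinarith [mul_le_mul_of_nonneg_left e1 a0]
  · have := r1.trans e3
    rw [le_div_iff₀ (by positivity)] at this
    linarith
  · have a := r1.trans e4
    rw [le_div_iff₀ (by positivity)] at a
    have : 1 ≤ C ^ 2 := one_le_pow₀ hC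
    nlinarith
  · have : p.κ ≤ 1 / (8 * C) := e5
    rw [le_div_iff₀ (by positivity)] at this
    linarith
  · have a : p.κ ≤ c0 / 2 := e6
    have : p.ye ≤ p.κ := pow_le_of_le_one k0.le k1 (by norm_num)
    linarith
  · have a : (p.n : ℝ) ^ ((3 : ℝ) / 10) ≤ p.n * p.μ τ y := by
      refine le_trans ?_ (mul_le_mul_of_nonneg_left hm n0.le)
      unfold Pm.μ0
      rw [← rpow_one_add' n0.le (by linarith)]
      exact mono (by linarith)
    have b : p.wt τ y ≤ (p.n : ℝ) ^ (-(1 / 10 : ℝ)) := by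
      refine (rpow_le_rpow_of_nonpos (pos _) a (by norm_num)).trans ?_
      rw [← rpow_mul n0.le]
      exact mono (by norm_num)
    have w0 : 0 ≤ p.wt τ y := rpow_nonneg ((pos _).le.trans a) _
    have c : p.wt τ y ^ ((2 : ℝ) / 3) ≤ (p.n : ℝ) ^ (-(1 / 15 : ℝ)) := by
      refine (rpow_le_rpow w0 b (by norm_num)).trans ?_
      rw [← rpow_mul n0.le]
      exact mono (by norm_num)
    refine ⟨b.trans (rpow_le_one_of_one_le_of_nonpos n1 (by norm_num)), ?_⟩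
    have d : log p.n * p.wt τ y ^ ((2 : ℝ) / 3) ≤ c0 / (4 * C) := by
      refine (mul_le_mul e8 c (rpow_nonneg w0 _) (pos _).le).trans (le_trans ?_ e7)
      rw [← rpow_add n0]
      exact mono (by norm_num)
    have f : 2 * C * p.r ≤ c0 / (4 * C) := by
      have := mul_le_mul_of_nonneg_left (r1.trans e4) (show 0 ≤ 2 * C by positivity)
      refine this.trans (le_of_eq ?_)
      field_simp
      ring
    have g : c0 / (2 * C) = c0 / (4 * C) + c0 / (4 * C) := by field_simp; ring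
    linarith

end Crest.Agent.T156.Alt.P037

namespace Crest.Agent.T156.Alt

open Filter Topology

/-- **(P0) from (P1)** -/
theorem p0_of {β : ℝ} (hβ : 1 < β) (h : Cst β P1) : Loss β P0 := by
  intro c0 C0 hc0 hC0
  obtain ⟨C, hC, H⟩ := h c0 C0 hc0 hC0
  filter_upwards [eventually_ge_atTop 2] with A hA
  filter_upwards [ev_small (show (0 : ℝ) < 1 / 200 by norm_num)] with c hc η hη
  filter_upwards [H A hA c hc.1 hc.2, P037.ev_nm hβ hc0 hC hA hc.1 hc.2 hη] with n h1 h2 p e1 e2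
    e3 e4 ok
  exact P037.p0_det hc0 hC (e2 ▸ h2.1) (e1 ▸ hβ) ok.base (h2.2 p e1 e2 e3 e4 ok.s1 ok.s2)
    (h1 p e1 e2 e3 e4 ok)

end Crest.Agent.T156.Alt

end
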