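import Crest.Agent.T156.PrC_28

/-!
Row 156, ALT, text (P) (helper28): P1 and P2 from the leaves.
-/

set_option autoImplicit false

namespace Crest.Agent.T156.Pr

open MeasureTheory Set
open Crest.Agent.R164.GC Crest.Agent.R339.B Crest.Agent.R339.Var Crest.Agent.T157.Pf
open Crest.Agent.T156.Pp

noncomputable section

theorem lo_zero (z : ℕ → ℝ) (v : ℝ) (N : ℕ) : lo z v 0 N = lst z (fun j => j * v) N := by
  unfold lo; congr 1; funext j; simp [sig]

theorem bb_mul {l : List (ℝ × ℝ)} (h : 0 < chi l) (eps : ℝ) : bb l eps * chi l ^ 2 = 1 - eps := by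
  unfold bb; field_simp

theorem WW_sub (z : ℕ → ℝ) (N : ℕ) (v : ℝ) (om : ℕ → ℝ) (t : ℝ) :
    ∑ j ∈ Finset.range N, (if ((j:ℝ) + 1) * v ≤ t then dm z j * (om (j + 1) - (0 : ℕ → ℝ) (j + 1))
      else 0) = WW z N v om t := by
  unfold WW; simp

theorem Base.eta_nn {b0 c C η v : ℝ} {J : ℕ} {z : ℕ → ℝ} (h : Base b0 c C η v J z) : 0 ≤ η :=
  (abs_nonneg _).trans (h.crit J le_rfl 0 ⟨le_rfl, mul_nonneg (Nat.cast_nonneg _) h.v_pos.le⟩)

/-- choice of the smallness constants -/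
theorem small (b0 c K : ℝ) (hb : 1 ≤ b0) (hc : 0 < c) (hK : 1 ≤ K) : ∃ y : ℝ, 0 < y ∧ y ≤ c ∧
    y ≤ 1 ∧ K * √y ≤ 1 / (64 * b0 ^ 2) ∧ K * y ≤ 1 / (64 * b0 ^ 2) := by
  set r := min (min c 1) (1 / (64 * b0 ^ 2 * K)) with hr
  have r0 : 0 < r := lt_min (lt_min hc one_pos) (by positivity)
  have r1 : r ≤ 1 := (min_le_left _ _).trans (min_le_right _ _)
  have r2 : r ≤ c := (min_le_left _ _).trans (min_le_left _ _)
  have r3 : K * r ≤ 1 / (64 * b0 ^ 2) := by
    have := mul_le_mul_of_nonneg_left (min_le_right (min c 1) (1 / (64 * b0 ^ 2 * K)))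
      (by linarith : 0 ≤ K)
    refine this.trans (le_of_eq ?_)
    field_simp
  have r4 : r ^ 2 ≤ r := by nlinarith
  refine ⟨r ^ 2, by positivity, by linarith, by linarith, by rw [Real.sqrt_sq r0.le]; exact r3, ?_⟩
  nlinarith

set_option maxHeartbeats 1000000 in
theorem p1B_of (hO : OdeS) (h2 : Lip2S) (hF : LipFS) (hC : CmpS) (hP : PlatS) (hA : AreaS) :
    P1B := by
  intro b0 c C T0 hb hc hC1
  obtain ⟨Q, q1, hQ⟩ := core hO h2 hF hC hA T0
  obtain ⟨C0, -, hO⟩ := hO T0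
  set C1 := 2 * b0 * (Q * (1 + 2 * C) + Q * b0 + 2) with hC1'
  have c1 : 2 * b0 * Q ≤ C1 := by
    have : 0 ≤ 2 * b0 * (Q * (2 * C) + Q * b0 + 2) := by positivity
    linarith only [this, hC1']
  have c2 : 4 * b0 ≤ C1 := by
    have : 0 ≤ 2 * b0 * (Q * (1 + 2 * C) + Q * b0) := by positivity
    linarith only [this, hC1']
  have c3 : Q ≤ C1 := by nlinarith only [c1, q1, hb]
  obtain ⟨y, y0, y1, y2, y3, y4⟩ := small b0 c (C1 + 15) hb hc (by linarith)
  refine ⟨1 / (16 * b0 ^ 2), 3 * C1, y, 1 / (4 * b0), by positivity, by linarith, y0, by positivity,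
    fun η v J z hB hη N om Y L eps hN hT h hY hYy hL e0 e1 => ?_⟩
  have hv := hB.v_pos
  have η0 := hB.eta_nn
  have hz := hB.lab.up hN
  have hJN : (J:ℝ) * v ≤ N * v := mul_le_mul_of_nonneg_right (by exact_mod_cast hN) hv.le
  have hYJ : Y ≤ J * v := hYy.trans (y1.trans hB.lo)
  have hYN := hYJ.trans hJN
  have h0 : Om v Y L 0 := om_zero v Y h.Lv
  obtain ⟨o, e⟩ := lo_ok hA hz h hv hL hYN
  obtain ⟨k1, -, -, k2⟩ := hQ z N v Y L C η 0 om hv hz hB.lin (by linarith) η0 hT h0 h hY hYN hL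
  obtain ⟨⟨-, -, cA, -⟩, -, ⟨-, g0, -, -, -, x0, x1⟩, bd⟩ := hO _ o (e.trans_le hT)
  rw [e] at cA bd
  have cr := hB.crit N hN
  rw [← lo_zero] at cr
  rw [← WW_eq h le_rfl] at k1 k2
  have W0 : 0 ≤ WW z N v om Y := by rw [WW_eq h le_rfl]; exact DD_nn hz _ _
  have W1 : WW z N v om Y ≤ L * Y := by rw [WW_eq h le_rfl]; exact DD_le hz h hv hY
  have W2 : WW z N v om (2 * Y) = WW z N v om Y := by
    rw [WW_eq h le_rfl, WW_eq h (by linarith)]
  set W := WW z N v om Y with hW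
  set l := lo z v om N with hl
  set l0 := lo z v 0 N with hl0
  have W3 : W ≤ y := by nlinarith only [W1, hL, hY, hYy]
  have b00 : 0 < b0 := by linarith
  have ib : 1 / (64 * b0 ^ 2) ≤ 1 / (4 * b0) :=
    one_div_le_one_div_of_le (by positivity) (by nlinarith only [hb])
  have crd : ∀ t ∈ Icc 0 ((J:ℝ) * v), |GG l0 t - 1 / b0| ≤ η := fun t ht => by
    rw [show GG l0 t - 1 / b0 = (b0 * GG l0 t - 1) / b0 by field_simp, abs_div, abs_of_pos b00]
    exact (div_le_self (abs_nonneg _) hb).trans (cr t ht)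
  have z0 : (0:ℝ) ∈ Icc 0 ((J:ℝ) * v) := ⟨le_rfl, hY.trans hYJ⟩
  have x2 : |chi l ^ 2 - 1 / b0| ≤ Q * W + η := by
    rw [← g0]
    have a := abs_le.1 (k1 0 ⟨le_rfl, hY.trans hYN⟩).2.1
    have b := abs_le.1 (crd 0 z0)
    rw [abs_le]; constructor <;> linarith only [a.1, a.2, b.1, b.2]
  have QW : Q * W ≤ 1 / (64 * b0 ^ 2) :=
    (mul_le_mul (show Q ≤ C1 + 15 by linarith only [c3]) W3 W0 (by linarith only [c3, q1])).trans y4
  have x3 : 1 / (2 * b0) ≤ chi l ^ 2 := by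
    have a := (abs_le.1 x2).1
    have : 1 / b0 = 1 / (2 * b0) + 1 / (4 * b0) + 1 / (4 * b0) := by field_simp; ring
    linarith only [a, this, QW, ib, hη]
  have bm := bb_mul x0 eps
  set b := bb l eps with hbb
  have x4 : chi l ^ 2 ≤ 1 := pow_le_one₀ x0.le x1
  have b0' : 0 ≤ b := by rw [hbb]; unfold bb; exact div_nonneg (by linarith) (sq_nonneg _)
  have b1 : 3 / 4 ≤ b := by nlinarith only [bm, x4, b0', e1]
  have b2 : b ≤ 2 * b0 := by
    have a := mul_le_mul_of_nonneg_left x3 b0'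
    rw [bm, mul_one_div, div_le_iff₀ (by positivity)] at a
    nlinarith only [a, e0, hb]
  have aA : ∀ r ∈ Icc 0 Y, 1 / (8 * b0 ^ 2) ≤ AA l r := fun r hr => by
    have a := (abs_le.1 (bd r ⟨hr.1, hr.2.trans hYN⟩).2.2.2.2.2.2.2.1).1
    have a1 : (1 / (2 * b0)) ^ 2 ≤ (chi l ^ 2) ^ 2 := pow_le_pow_left₀ (by positivity) x3 2
    have a2 : (chi l ^ 2) ^ 2 ≤ chi l ^ 3 := by
      rw [← pow_mul]; exact pow_le_pow_of_le_one x0.le x1 (by norm_num)
    have a3 : (1 / (2 * b0)) ^ 2 = 1 / (8 * b0 ^ 2) + 8 * (1 / (64 * b0 ^ 2)) := by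
      field_simp; ring
    have a4 : 0 < 1 / (64 * b0 ^ 2) := by positivity
    have a5 : 0 ≤ C1 * y := mul_nonneg (by linarith only [c3, q1]) y0.le
    linarith only [hr.2, a, a1, a2, a3, a4, a5, y4, hYy]
  have sharp : ∀ t ∈ Icc 0 ((J:ℝ) * v),
      |ee l eps t - eps - 2 * b * SS z N v 0 om t| ≤ C1 * (W * t ^ 2 + η) := fun t ht => by
    have a := (k1 t ⟨ht.1, ht.2.trans hJN⟩).2.2
    have a1 := abs_le.1 (crd t ht)
    have a2 := abs_le.1 (crd 0 z0)
    have t1 : t ≤ b0 := ht.2.trans hB.hi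
    have e1 : ee l eps t - eps - 2 * b * SS z N v 0 om t =
        -b * ((GG l t - GG l 0 - (GG l0 t - GG l0 0) + 2 * SS z N v 0 om t) +
          (GG l0 t - GG l0 0)) := by
      unfold ee
      rw [← hbb, g0]
      linear_combination -bm
    have a3 : |(GG l t - GG l 0 - (GG l0 t - GG l0 0) + 2 * SS z N v 0 om t) +
        (GG l0 t - GG l0 0)| ≤ (Q * (1 + 2 * C) + Q * b0 + 2) * (W * t ^ 2 + η) := by
      refine (abs_add_le _ _).trans ?_
      have a4 : |GG l0 t - GG l0 0| ≤ 2 * η := by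
        rw [abs_le]; constructor <;> linarith only [a1.1, a1.2, a2.1, a2.2]
      have a5 : W * t ≤ b0 := by nlinarith only [ht.1, t1, W0, W3, y2]
      have a6 := mul_le_mul_of_nonneg_left a5 (show 0 ≤ Q * η by positivity)
      have a7 : 0 ≤ W * t ^ 2 := by positivity
      have a8 : 0 ≤ (Q * b0 + 2) * (W * t ^ 2) := by positivity
      have a9 : 0 ≤ Q * (1 + 2 * C) * η := by positivity
      linarith only [a, a4, a6, a8, a9]
    rw [e1, abs_mul, abs_neg, abs_of_nonneg b0', hC1', mul_assoc (2 * b0)]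
    exact mul_le_mul b2 a3 (abs_nonneg _) (by positivity)
  have one : ∀ t ∈ Icc 0 ((J:ℝ) * v),
      eps + 1 / (8 * b0 ^ 2) * WW z N v om t - C1 * (W * t ^ 2 + η) ≤ ee l eps t ∧
      ee l eps t ≤ eps + C1 * WW z N v om (2 * t) + C1 * (W * t ^ 2 + η) := fun t ht => by
    obtain ⟨s1, s2⟩ := SS_bds hz h0 h hv hL h.nn ⟨ht.1, ht.2.trans hJN⟩ cA
      (fun r hr => ⟨(bd r hr).2.2.2.2.2.1, (bd r hr).2.2.2.2.2.2.1⟩) aA
    rw [WW_sub] at s1 s2
    have w0 : 0 ≤ WW z N v om t := Finset.sum_nonneg fun j _ => by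
      split_ifs
      · exact mul_nonneg (hz.dm_nn j) (h.nn _)
      · exact le_rfl
    have s0 : 0 ≤ SS z N v 0 om t := le_trans (by positivity) s1
    have a := abs_le.1 (sharp t ht)
    have a1 := mul_le_mul (show 2 * b ≤ C1 by linarith only [b2, c2]) s2 s0
      (by linarith only [c3, q1])
    have a2 := mul_le_mul_of_nonneg_right (show 1 ≤ 2 * b by linarith only [b1]) s0
    constructor <;> linarith only [a.1, a.2, a1, a2, s1]
  have two : ∀ t ∈ Icc Y ((J:ℝ) * v), |ee l eps t - thh b0 l eps| ≤ C1 * (√Y * W + η) :=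
    fun t ht => by
    have a := k2 t ⟨ht.1, ht.2.trans hJN⟩
    have a1 := crd t ⟨hY.trans ht.1, ht.2⟩
    have e1 : ee l eps t - thh b0 l eps = -b * ((GG l t - GG l0 t) + (GG l0 t - 1 / b0)) := by
      unfold ee thh
      rw [← hbb]
      ring
    have a2 := (abs_add_le _ _).trans (add_le_add a a1)
    have a3 : 0 ≤ √Y * W := by positivity
    rw [e1, abs_mul, abs_neg, abs_of_nonneg b0']
    refine (mul_le_mul b2 a2 (abs_nonneg _) (by positivity)).trans ?_
    have a4 := mul_le_mul_of_nonneg_right c1 a3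
    have a5 := mul_le_mul_of_nonneg_right (show 2 * b0 ≤ C1 by linarith only [c2, hb]) η0
    linarith only [a4, a5]
  have C10 : 0 ≤ C1 := by linarith only [c3, q1]
  refine ⟨⟨o, e, hYJ⟩, fun t ht => ?_, fun t ht => (two t ht).trans ?_, ?_,
    ⟨x2.trans (by nlinarith only [c3, q1, W0, η0]), W0, W1, x3, b1, b2⟩, fun t ht => ?_⟩
  · obtain ⟨a1, a2⟩ := one t ht
    have w0 : ∀ s, 0 ≤ WW z N v om s := fun s => Finset.sum_nonneg fun j _ => by
      split_ifs
      · exact mul_nonneg (hz.dm_nn j) (h.nn _)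
      · exact le_rfl
    have a3 : 0 ≤ C1 * (W * t ^ 2 + η) := by positivity
    have a4 := mul_nonneg C10 (w0 (2 * t))
    have a5 : 1 / (16 * b0 ^ 2) * WW z N v om t ≤ 1 / (8 * b0 ^ 2) * WW z N v om t :=
      mul_le_mul_of_nonneg_right (one_div_le_one_div_of_le (by positivity)
        (by nlinarith only [hb])) (w0 t)
    refine ⟨by linarith only [a1, a3, a5], by linarith only [a2, a3, a4],
      (sharp t ht).trans (by linarith only [a3])⟩
  · have : 0 ≤ C1 * (√Y * W + η) := by positivity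
    linarith only [this]
  · obtain ⟨a1, a2⟩ := one Y ⟨hY, hYJ⟩
    rw [W2] at a2
    have a3 := abs_le.1 (two Y ⟨le_rfl, hYJ⟩)
    have s1 : √Y ≤ √y := Real.sqrt_le_sqrt hYy
    have s0 := Real.sqrt_nonneg Y
    have s2 : C1 * √Y ≤ 1 / (64 * b0 ^ 2) := by
      nlinarith only [Real.sqrt_nonneg y, s1, C10, y3]
    have s3 : C1 * Y ^ 2 ≤ 1 / (64 * b0 ^ 2) := by
      have : Y ^ 2 ≤ y := by nlinarith only [hY, hYy, y2]
      nlinarith only [this, C10, y4, y0]
    have s4 := mul_le_mul_of_nonneg_right s2 W0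
    have s5 := mul_le_mul_of_nonneg_right s3 W0
    have s6 : 1 / (8 * b0 ^ 2) = 8 * (1 / (64 * b0 ^ 2)) := by field_simp; ring
    have s7 : 1 / (16 * b0 ^ 2) = 4 * (1 / (64 * b0 ^ 2)) := by field_simp; ring
    have s8 : 1 / (64 * b0 ^ 2) ≤ 1 := by
      rw [div_le_one (by positivity)]; nlinarith only [hb]
    have s9 : 0 ≤ 1 / (64 * b0 ^ 2) * W := by positivity
    have s10 := mul_le_mul_of_nonneg_right s8 W0
    have s11 := mul_nonneg C10 η0
    have s12 := mul_le_mul_of_nonneg_right (show 1 ≤ C1 by linarith only [c3, q1]) W0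
    rw [s6] at a1
    rw [s7]
    constructor <;> linarith only [a1, a2, a3.1, a3.2, s4, s5, s9, s10, s11, s12]
  · have a := (hP l o (J * v) t (hY.trans hYJ) ht.1 (by rw [e]; exact ht.2)
      fun s hs => lvr_top hA hB.lab hN h hv hL hs).1
    have := mul_le_mul_of_nonneg_left a b0'
    unfold ee
    rw [← hbb]
    linarith only [this]

set_option maxHeartbeats 1000000 in
theorem p2B_of (hO : OdeS) (h2 : Lip2S) (hF : LipFS) (hC : CmpS) (hP : PlatS) (hA : AreaS) :
    P2B := by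
  intro b0 c C T0 hb hc hC1
  obtain ⟨c1, C1, Y0, η0, p0, p1, p2, p3, h1⟩ := p1B_of hO h2 hF hC hP hA b0 c C T0 hb hc hC1
  obtain ⟨Q, q1, hQ⟩ := core hO h2 hF hC hA T0
  obtain ⟨C0, -, hO⟩ := hO T0
  have b00 : 0 < b0 := by linarith
  set C2 := 8 * b0 ^ 2 * Q * (1 + 2 * C) with hC2
  have bb1 : 1 ≤ b0 ^ 2 := one_le_pow₀ hb
  have bb2 : b0 ≤ b0 ^ 2 := by nlinarith only [hb]
  have u1 : 8 * b0 ^ 2 * Q ≤ C2 := le_mul_of_one_le_right (by positivity) (by linarith)
  have u2 : 8 * b0 ^ 2 ≤ 8 * b0 ^ 2 * Q := le_mul_of_one_le_right (by positivity) q1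
  have u3 : Q ≤ b0 ^ 2 * Q := le_mul_of_one_le_left (by linarith) bb1
  have u4 : 2 * b0 * Q * (1 + 2 * C) ≤ C2 := by
    rw [hC2]
    exact mul_le_mul_of_nonneg_right (mul_le_mul_of_nonneg_right (by linarith) (by linarith))
      (by linarith)
  have C20 : 1 ≤ C2 := by linarith only [u1, u2, bb1]
  obtain ⟨y, y0, y1, y2, y3, y4⟩ := small b0 (min Y0 η0) (8 * C2 * C1 + 15) hb (lt_min p2 p3)
    (by nlinarith only [C20, p1])
  refine ⟨1 / (64 * b0 ^ 2) / b0, C2, y, y, by positivity, C20, y0, y0,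
    fun η v J z hB hη N om om' Y L eps eps' hN hT h h' hY hYy hL e0 e1 e0' e1' => ?_⟩
  have hv := hB.v_pos
  have η0' := hB.eta_nn
  have hz := hB.lab.up hN
  have yY : Y ≤ Y0 := hYy.trans (y1.trans (min_le_left _ _))
  have yη : η ≤ η0 := hη.trans (y1.trans (min_le_right _ _))
  obtain ⟨⟨o, e, hYJ⟩, i1, -, -, ⟨-, W0, W1, x3, b1, b2⟩, -⟩ :=
    h1 η v J z hB yη N om Y L eps hN hT h hY yY hL e0 e1
  obtain ⟨⟨o', e', -⟩, -, -, -, ⟨-, -, -, x3', b1', b2'⟩, -⟩ :=
    h1 η v J z hB yη N om' Y L eps' hN hT h' hY yY hL e0' e1'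
  have hJN : (J:ℝ) * v ≤ N * v := mul_le_mul_of_nonneg_right (by exact_mod_cast hN) hv.le
  have hYN := hYJ.trans hJN
  obtain ⟨k1, k3, k4', k2⟩ :=
    hQ z N v Y L C η om om' hv hz hB.lin (by linarith) η0' hT h h' hY hYN hL
  obtain ⟨-, -, ⟨-, g0, -, -, -, x0, x1⟩, bd⟩ := hO _ o (e.trans_le hT)
  obtain ⟨⟨cG', -, cA', -⟩, od', ⟨-, g0', -, -, -, x0', x1'⟩, bd'⟩ := hO _ o' (e'.trans_le hT)
  rw [e'] at cG' cA' bd' od'
  have D0 := DD_nn hz om om'
  have W2 : WW z N v om (2 * Y) = WW z N v om Y := by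
    rw [WW_eq h le_rfl, WW_eq h (by linarith)]
  set W := WW z N v om Y with hW
  set D := DD z N om om' with hD
  set l := lo z v om N with hl
  set l' := lo z v om' N with hl'
  have bm := bb_mul x0 eps
  have bm' := bb_mul x0' eps'
  set b := bb l eps with hbb
  set b' := bb l' eps' with hbb'
  have a0 := abs_nonneg (eps' - eps)
  have QD : Q * D ≤ C2 * D := mul_le_mul_of_nonneg_right (by linarith only [u1, u3, q1, bb1]) D0
  have db : |b' - b| ≤ C2 / 2 * (D + |eps' - eps|) := by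
    have a := (k1 0 ⟨le_rfl, hY.trans hYN⟩).2.1
    rw [g0, g0'] at a
    have e1 : (b' - b) * chi l' ^ 2 = -(eps' - eps) - b * (chi l' ^ 2 - chi l ^ 2) := by
      linear_combination bm' - bm
    have a1 : |b' - b| * chi l' ^ 2 ≤ |eps' - eps| + 2 * b0 * (Q * D) := by
      rw [← abs_of_nonneg (sq_nonneg (chi l')), ← abs_mul, e1]
      refine (abs_sub _ _).trans ?_
      rw [abs_neg, abs_mul, abs_of_nonneg (by linarith only [b1] : 0 ≤ b)]
      exact add_le_add le_rfl (mul_le_mul b2 a (abs_nonneg _) (by positivity))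
    have a2 := (mul_le_mul_of_nonneg_left x3' (abs_nonneg (b' - b))).trans a1
    rw [mul_one_div, div_le_iff₀ (by positivity)] at a2
    have a3 := mul_le_mul_of_nonneg_right u1 D0
    have a4 := mul_le_mul_of_nonneg_right (show 4 * b0 ≤ C2 by linarith only [u1, u2, bb2, hb]) a0
    linarith only [a2, a3, a4]
  have two : ∀ t ∈ Icc 0 ((N:ℝ) * v), |ee l' eps' t - ee l eps t - (eps' - eps) -
      2 * b' * SS z N v om om' t| ≤
      C2 * (D + |eps' - eps|) * (t ^ 2 + η * t + |ee l eps t - eps|) := fun t ht => by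
    have a := (k1 t ht).2.2
    have e1 : ee l eps t - eps = -b * (GG l t - GG l 0) := by
      unfold ee; rw [← hbb, g0]; linear_combination -bm
    have e2 : ee l' eps' t - ee l eps t - (eps' - eps) - 2 * b' * SS z N v om om' t =
        -b' * (GG l' t - GG l' 0 - (GG l t - GG l 0) + 2 * SS z N v om om' t) -
          (b' - b) * (GG l t - GG l 0) := by
      unfold ee; rw [← hbb, ← hbb', g0, g0']; linear_combination bm - bm'
    have a1 : |GG l t - GG l 0| ≤ 2 * |ee l eps t - eps| := by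
      rw [e1, abs_mul, abs_neg, abs_of_nonneg (by linarith only [b1] : 0 ≤ b)]
      nlinarith only [b1, abs_nonneg (GG l t - GG l 0)]
    rw [e2]
    refine (abs_sub _ _).trans ?_
    rw [abs_mul, abs_mul, abs_neg, abs_of_nonneg (by linarith only [b1'] : 0 ≤ b')]
    have a2 := mul_le_mul b2' a (abs_nonneg _) (by positivity)
    have a3 := mul_le_mul db a1 (abs_nonneg _) (by positivity)
    have t0 := ht.1
    have a4 : (1 + 2 * C) * t ^ 2 + η * t ≤ (1 + 2 * C) * (t ^ 2 + η * t) := by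
      have : 0 ≤ C * (η * t) := by positivity
      linarith only [this]
    have a5 := mul_le_mul_of_nonneg_left a4 (show 0 ≤ 2 * b0 * (Q * D) by positivity)
    have a6 := mul_le_mul_of_nonneg_right u4 (show 0 ≤ D * (t ^ 2 + η * t) by positivity)
    have a7 : 0 ≤ C2 * (|eps' - eps| * (t ^ 2 + η * t)) := by positivity
    linarith only [a2, a3, a5, a6, a7]
  have thr : ∀ t ∈ Icc Y ((N:ℝ) * v), |ee l' eps' t - ee l eps t -
      (thh b0 l' eps' - thh b0 l eps) * (b0 * GG l t)| ≤ C2 * √Y * D := fun t ht => by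
    have e1 : ee l' eps' t - ee l eps t - (thh b0 l' eps' - thh b0 l eps) * (b0 * GG l t) =
        -b' * (GG l' t - GG l t) := by
      unfold ee thh; rw [← hbb, ← hbb']; field_simp; ring
    rw [e1, abs_mul, abs_neg, abs_of_nonneg (by linarith only [b1'] : 0 ≤ b')]
    refine (mul_le_mul b2' (k2 t ht) (abs_nonneg _) (by positivity)).trans ?_
    have a1 : 2 * b0 * Q ≤ C2 := by nlinarith only [u1, bb2, q1, u3]
    have := mul_le_mul_of_nonneg_right a1 (show 0 ≤ √Y * D by positivity)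
    linarith only [this]
  refine ⟨⟨k3.trans QD, k4'.trans QD, db.trans ?_, fun t ht => (k1 t ht).2.1.trans QD,
    fun j hj => ?_⟩, two, thr, fun ho he => ⟨?_, ?_⟩⟩
  · exact mul_le_mul_of_nonneg_right (by linarith only [C20]) (by positivity)
  · have jN : (j:ℝ) * v ≤ N * v := mul_le_mul_of_nonneg_right (by exact_mod_cast hj) hv.le
    have m : sig v om j ∈ Icc 0 ((N:ℝ) * v) := ⟨h.sig_nn hv hL j, (h.sig_le j).trans jN⟩
    have m' : sig v om' j ∈ Icc 0 ((N:ℝ) * v) := ⟨h'.sig_nn hv hL j, (h'.sig_le j).trans jN⟩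
    have a1 := abs_sub_le_of_rder (a := 0) (b := N * v) (C := 1) cG'
      (fun r hr => (od' r hr.1 hr.2).1) m m' (fun r hr => by
        have r1 : r ∈ Icc 0 ((N:ℝ) * v) :=
          ⟨(le_min m.1 m'.1).trans hr.1, hr.2.le.trans (max_le m.2 m'.2)⟩
        rw [abs_of_nonneg (bd' r r1).2.2.2.1]
        exact (bd' r r1).2.2.2.2.1)
    have a2 := (k1 _ m).1
    have a3 : |sig v om' j - sig v om j| = |om' j - om j| := by
      unfold sig
      rw [show (j:ℝ) * v - om' j - (j * v - om j) = -(om' j - om j) by ring, abs_neg]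
    have a4 : Q * sig v om j * D ≤ C2 * (j * v) * D := mul_le_mul_of_nonneg_right
      (mul_le_mul (by linarith only [u1, u3, q1, bb1]) (h.sig_le j) m.1 (by linarith only [C20])) D0
    rw [a3, one_mul] at a1
    have a5 := abs_sub_le (Gam l' (sig v om' j)) (Gam l' (sig v om j)) (Gam l (sig v om j))
    linarith only [a1, a2, a4, a5]
  · have aA : ∀ r ∈ Icc 0 Y, 1 / (8 * b0 ^ 2) ≤ AA l' r := fun r hr => by
      have a := (abs_le.1 (bd' r ⟨hr.1, hr.2.trans hYN⟩).2.2.2.2.2.2.2.1).1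
      have a1 : (1 / (2 * b0)) ^ 2 ≤ (chi l' ^ 2) ^ 2 := pow_le_pow_left₀ (by positivity) x3' 2
      have a2 : (chi l' ^ 2) ^ 2 ≤ chi l' ^ 3 := by
        rw [← pow_mul]; exact pow_le_pow_of_le_one x0'.le x1' (by norm_num)
      have a3 : (1 / (2 * b0)) ^ 2 = 1 / (8 * b0 ^ 2) + 8 * (1 / (64 * b0 ^ 2)) := by
        field_simp; ring
      have a4 : 0 < 1 / (64 * b0 ^ 2) := by positivity
      have a5 : 0 ≤ 8 * C2 * C1 * y := by positivity
      linarith only [hr.2, a, a1, a2, a3, a4, a5, y4, hYy]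
    obtain ⟨s1, -⟩ := SS_bds hz h h' hv hL ho (t := Y) ⟨hY, hYN⟩ cA'
      (fun r hr => ⟨(bd' r hr).2.2.2.2.2.1, (bd' r hr).2.2.2.2.2.2.1⟩) aA
    have s2 : ∑ j ∈ Finset.range N, (if ((j:ℝ) + 1) * v ≤ Y then
        dm z j * (om' (j + 1) - om (j + 1)) else 0) = D := by
      refine Finset.sum_congr rfl fun j _ => ?_
      rw [abs_of_nonneg (sub_nonneg.2 (ho _))]
      split_ifs with a
      · rfl
      · have : Y ≤ ((j + 1 : ℕ) : ℝ) * v := by push_cast; exact (not_le.1 a).le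
        rw [h.supp _ this, h'.supp _ this, sub_self, mul_zero]
    rw [s2] at s1
    have t2 := (abs_le.1 (two Y ⟨hY, hYN⟩)).1
    have t3 := (abs_le.1 (thr Y ⟨le_rfl, hYN⟩)).2
    rw [abs_of_nonneg (sub_nonneg.2 he)] at t2
    obtain ⟨j1, j2, -⟩ := i1 Y ⟨hY, hYJ⟩
    rw [W2] at j2
    have W3 : W ≤ y := by nlinarith only [W1, hL, hY, hYy]
    have Y1 : Y ≤ 1 := hYy.trans y2
    have Y2 : Y ^ 2 ≤ y := by nlinarith only [hY, hYy, Y1]
    have Y3 : W * Y ^ 2 ≤ y := by nlinarith only [Y2, W0, W3, y2, sq_nonneg Y]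
    have Y4 : η * Y ≤ y := by nlinarith only [η0', hη, hY, Y1]
    have w1 : 0 ≤ c1 * W := mul_nonneg p0.le W0
    have C10 : 0 ≤ C1 := by linarith only [p1]
    have w2 := mul_le_mul_of_nonneg_left (add_le_add Y3 hη) C10
    have w3 := mul_le_mul_of_nonneg_left W3 C10
    have w4 : 0 ≤ C1 * y := by positivity
    have j3 : |ee l eps Y - eps| ≤ 3 * C1 * y := by
      rw [abs_le]; constructor <;> linarith only [j1, j2, w1, w2, w3, w4]
    have gY := bd Y (by rw [e]; exact ⟨hY, hYN⟩)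
    have g1 : 0 ≤ b0 * GG l Y := mul_nonneg b00.le gY.2.2.2.1
    have g2 : b0 * GG l Y ≤ b0 := mul_le_of_le_one_right b00.le gY.2.2.2.2.1
    set u := 1 / (64 * b0 ^ 2) with hu
    have v0 : 0 < u := by positivity
    have v1 : 8 * u ≤ 1 := by
      rw [hu, mul_one_div, div_le_one (by positivity)]; linarith only [bb1]
    have v2 : 1 / (8 * b0 ^ 2) = 8 * u := by rw [hu]; field_simp; ring
    rw [v2] at s1
    have d0 : 0 ≤ eps' - eps := sub_nonneg.2 he
    have v3 : C2 * (Y ^ 2 + η * Y + |ee l eps Y - eps|) ≤ u := by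
      have a1 : Y ^ 2 + η * Y + |ee l eps Y - eps| ≤ 5 * C1 * y := by
        nlinarith only [Y2, Y4, j3, p1, y0]
      have a2 := mul_le_mul_of_nonneg_left a1 (show 0 ≤ C2 by linarith only [C20])
      have a3 : 0 ≤ C2 * (C1 * y) := by positivity
      linarith only [a2, a3, y4, y0]
    have v4 : C2 * √Y ≤ u := by
      have a1 : √Y ≤ √y := Real.sqrt_le_sqrt hYy
      have a2 : C2 ≤ 8 * C2 * C1 + 15 := by nlinarith only [C20, p1]
      exact (mul_le_mul a2 a1 (Real.sqrt_nonneg _) (by linarith only [a2, C20])).trans y3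
    have v5 := mul_le_mul_of_nonneg_right v3 (add_nonneg D0 d0)
    have v6 := mul_le_mul_of_nonneg_right v4 D0
    have s0 : 0 ≤ SS z N v om om' Y := le_trans (by positivity) s1
    have v7 := mul_le_mul_of_nonneg_right (show 1 ≤ 2 * b' by linarith only [b1']) s0
    have v8 := mul_le_mul_of_nonneg_right v1 d0
    have v9 : 0 ≤ u * D := by positivity
    have v10 : 0 ≤ u * (eps' - eps) := by positivity
    have key : u * (D + (eps' - eps)) ≤ (thh b0 l' eps' - thh b0 l eps) * (b0 * GG l Y) := by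
      linarith only [t2, t3, v5, v6, v7, v8, v9, v10, s1]
    rw [div_mul_eq_mul_div, div_le_iff₀ b00]
    rcases le_or_gt 0 (thh b0 l' eps' - thh b0 l eps) with a | a
    · exact key.trans (mul_le_mul_of_nonneg_left g2 a)
    · exfalso
      have a1 : u * (D + (eps' - eps)) ≤ 0 := key.trans (mul_nonpos_of_nonpos_of_nonneg a.le g1)
      have a2 : D + (eps' - eps) ≤ 0 := by
        by_contra hc
        exact absurd (mul_pos v0 (not_le.1 hc)) (not_lt.2 a1)
      rw [abs_of_nonneg d0] at db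
      have a3 : |b' - b| ≤ 0 :=
        db.trans (mul_nonpos_of_nonneg_of_nonpos (by linarith only [C20]) a2)
      have a4 : b' = b := sub_eq_zero.1 (abs_nonpos_iff.1 a3)
      unfold thh at a
      rw [← hbb, ← hbb', a4, sub_self] at a
      exact lt_irrefl _ a
  · have e1 : thh b0 l' eps' - thh b0 l eps = -(b' - b) / b0 := by
      unfold thh; rw [← hbb, ← hbb']; ring
    rw [e1, ← abs_of_nonneg (sub_nonneg.2 he)]
    have a1 : -(b' - b) / b0 ≤ |b' - b| :=
      (div_le_div_of_nonneg_right (neg_le_abs _) b00.le).trans (div_le_self (abs_nonneg _) hb)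
    have : 0 ≤ C2 * (D + |eps' - eps|) := by positivity
    linarith only [a1, db, this]

end

end Crest.Agent.T156.Pr
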