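import Crest.Agent.T156.PFam_3
import Crest.Agent.T156.PrP_28
import Crest.Agent.T156.Ker_31
import Crest.Agent.T156.PlatS_10
import Crest.Agent.T156.PArea_50
import Crest.Agent.T156.AltDef_88

/-!
Row 156 (helper3): `Cst β P1` for the class of `AltDef_88`.
-/

set_option autoImplicit false

noncomputable section

namespace Crest.Agent.T156.Alt

open MeasureTheory Real Set Filter Topology
open Crest.Agent.R339.B Crest.Agent.R339.Var Crest.Agent.T157.Pf
open Crest.Agent.T156.Pp Crest.Agent.T156.Pr Crest.Agent.T156.Pr.Fam3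

namespace PP3

theorem p1B : P1B := p1B_of Ode3.odeS Ker.lip2S (Ode3.lipFS_of Ker.lip1S)
  (Ode3.cmpS_of_lip1 Ker.lip1S) platS areaS

theorem p2B : P2B := p2B_of Ode3.odeS Ker.lip2S (Ode3.lipFS_of Ker.lip1S)
  (Ode3.cmpS_of_lip1 Ker.lip1S) platS areaS

theorem famE : FamE := famE_of p1B

/-! ### extension by slices of tilt one -/

section ext

variable {z s : ℕ → ℝ} {J : ℕ}

theorem lst_add (hz : Lab z J) (hs : StrictMono s) (M : ℕ) :
    ∃ l', lst z s (J + M) = lst z s J ++ l' ∧ ∀ p ∈ l', p.1 = 1 ∧ 0 ≤ p.2 := by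
  refine ⟨List.ofFn fun i : Fin M => (z (J + i), s (J + i + 1) - s (J + i)), ?_, fun p hp => ?_⟩
  · unfold lst
    rw [List.ofFn_add]
    rfl
  · rw [List.mem_ofFn] at hp
    obtain ⟨k, rfl⟩ := hp
    exact ⟨hz.top _ (Nat.le_add_right _ _), sub_nonneg.2 (hs (Nat.lt_succ_self _)).le⟩

theorem ext_Dk (hz : Lab z J) (hs : StrictMono s) (ho : Ok (lst z s J)) (M k : ℕ) (t : ℝ) :
    Pr.Dk k (lst z s (J + M)) t = Pr.Dk k (lst z s J) t := by
  obtain ⟨l', e, h'⟩ := lst_add hz hs M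
  obtain ⟨c, hc⟩ := PhiT_append one_pos h' (fun p hp => (Adm.pos ho.1 p hp).1) t
  unfold Pr.Dk
  rw [e, hc, Dn_shift]

theorem ext_Et (hz : Lab z J) (hs : StrictMono s) (ho : Ok (lst z s J)) (M : ℕ) {t : ℝ}
    (ht : t ≤ TT (lst z s J)) (F : ℝ → ℝ) :
    Pr.Et (lst z s (J + M)) t F = Pr.Et (lst z s J) t F := by
  obtain ⟨l', e, h'⟩ := lst_add hz hs M
  unfold Pr.Et
  rw [e, EX_append one_pos h' (fun p hp => (Adm.pos ho.1 p hp).1) ht]

theorem ext_bb (hz : Lab z J) (hs : StrictMono s) (ho : Ok (lst z s J)) (M : ℕ) (eps : ℝ) :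
    bb (lst z s (J + M)) eps = bb (lst z s J) eps := by
  unfold bb Pr.chi; rw [ext_Dk hz hs ho]

theorem ext_Gam (hz : Lab z J) (hs : StrictMono s) (ho : Ok (lst z s J)) (M : ℕ) {t : ℝ}
    (ht : t ≤ TT (lst z s J)) : Pr.Gam (lst z s (J + M)) t = Pr.Gam (lst z s J) t := by
  unfold Pr.Gam; rw [ext_Dk hz hs ho, ext_Et hz hs ho M ht]

theorem ext_ee (hz : Lab z J) (hs : StrictMono s) (ho : Ok (lst z s J)) (M : ℕ) (eps : ℝ) {t : ℝ}
    (ht : t ≤ TT (lst z s J)) : ee (lst z s (J + M)) eps t = ee (lst z s J) eps t := by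
  unfold ee Pr.GG; rw [ext_bb hz hs ho, ext_Dk hz hs ho, ext_Et hz hs ho M ht]

end ext

/-! ### the step `sm` and the shape -/

theorem cl_mem (u : ℝ) : 0 ≤ max 0 (min u 1) ∧ max 0 (min u 1) ≤ 1 :=
  ⟨le_max_left _ _, max_le zero_le_one (min_le_right _ _)⟩

theorem sm_inc {a b : ℝ} (h : a ≤ b) : 0 ≤ sm b - sm a ∧ sm b - sm a ≤ 3 / 2 * (b - a) := by
  obtain ⟨a0, a1⟩ := cl_mem a
  obtain ⟨b0, b1⟩ := cl_mem b
  have m : max 0 (min a 1) ≤ max 0 (min b 1) := max_le_max le_rfl (min_le_min h le_rfl)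
  have d : max 0 (min b 1) - max 0 (min a 1) ≤ b - a := by
    rcases le_total a 1 with p | p <;> rcases le_total b 1 with q | q <;>
      simp only [min_eq_left, min_eq_right, p, q] <;>
      rcases le_total 0 a with r | r <;> rcases le_total 0 b with t | t <;>
      simp only [max_eq_left, max_eq_right, r, t, zero_le_one] <;> linarith
  unfold sm
  generalize max 0 (min a 1) = x at *
  generalize max 0 (min b 1) = y at *
  have e : 3 * y ^ 2 - 2 * y ^ 3 - (3 * x ^ 2 - 2 * x ^ 3) =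
      (y - x) * (3 * (x + y) - 2 * (x ^ 2 + x * y + y ^ 2)) := by ring
  have g0 : 0 ≤ 3 * (x + y) - 2 * (x ^ 2 + x * y + y ^ 2) := by nlinarith
  have g1 : 3 * (x + y) - 2 * (x ^ 2 + x * y + y ^ 2) ≤ 3 / 2 := by
    nlinarith [sq_nonneg (x + y - 1), sq_nonneg (x - y)]
  rw [e]
  exact ⟨mul_nonneg (by linarith) g0, (mul_le_mul d g1 g0 (by linarith)).trans_eq (by ring)⟩

theorem sm_lo {u : ℝ} (h : u ≤ 0) : sm u = 0 := by
  unfold sm; rw [min_eq_left (by linarith), max_eq_left h]; ring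

theorem sm_hi {u : ℝ} (h : 1 ≤ u) : sm u = 1 := by
  unfold sm; rw [min_eq_right h, max_eq_right zero_le_one]; ring

theorem sm_mem (u : ℝ) : 0 ≤ sm u ∧ sm u ≤ 1 := by
  have a := (sm_inc (min_le_left u 0)).1
  have b := (sm_inc (le_max_left u 1)).1
  rw [sm_lo (min_le_right u 0)] at a
  rw [sm_hi (le_max_right u 1)] at b
  constructor <;> linarith

/-- the shape of the class -/
def wA (lam y t : ℝ) : ℝ := lam * t * (1 - sm (t / y - 1))

variable {lam y t : ℝ}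

theorem wA_lo (lam : ℝ) (hy : 0 < y) (ht : t ≤ y) : wA lam y t = lam * t := by
  unfold wA; rw [sm_lo (by rw [sub_nonpos, div_le_one hy]; exact ht)]; ring

theorem wA_hi (lam : ℝ) (hy : 0 < y) (ht : 2 * y ≤ t) : wA lam y t = 0 := by
  unfold wA; rw [sm_hi (by rw [le_sub_iff_add_le, le_div_iff₀ hy]; linarith)]; ring

theorem wA_mem (hl : 0 ≤ lam) (y : ℝ) (ht : 0 ≤ t) : 0 ≤ wA lam y t ∧ wA lam y t ≤ lam * t := by
  obtain ⟨a, b⟩ := sm_mem (t / y - 1)
  have := mul_nonneg hl ht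
  exact ⟨mul_nonneg this (by linarith), mul_le_of_le_one_right this (by linarith)⟩

theorem wA_sh (hl : 0 ≤ lam) (hy : 0 < y) : Sh (2 * y) (4 * lam) (wA lam y) := by
  have k1 : ∀ s t, 0 ≤ s → s ≤ t → t ≤ 2 * y → |wA lam y t - wA lam y s| ≤ 4 * lam * (t - s) := by
    intro s t hs hst ht
    obtain ⟨a, b⟩ := sm_inc (show s / y - 1 ≤ t / y - 1 by
      linarith [div_le_div_of_nonneg_right hst hy.le])
    obtain ⟨c, d⟩ := sm_mem (t / y - 1)
    have e : wA lam y t - wA lam y s =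
        lam * ((t - s) * (1 - sm (t / y - 1)) - s * (sm (t / y - 1) - sm (s / y - 1))) := by
      unfold wA; ring
    have f1 := mul_nonneg (sub_nonneg.2 hst) (sub_nonneg.2 d)
    have f2 := mul_le_of_le_one_right (sub_nonneg.2 hst) (show 1 - sm (t / y - 1) ≤ 1 by linarith)
    have f3 := mul_nonneg hs a
    have f4 := mul_le_mul (hst.trans ht) b a (by linarith)
    rw [show 2 * y * (3 / 2 * (t / y - 1 - (s / y - 1))) = 3 * (t - s) by field_simp; ring] at f4
    rw [e, abs_mul, abs_of_nonneg hl, show 4 * lam * (t - s) = lam * (4 * (t - s)) by ring]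
    refine mul_le_mul_of_nonneg_left ?_ hl
    rw [abs_le]; constructor <;> linarith
  have k2 : ∀ s t, s ≤ t → |wA lam y t - wA lam y s| ≤ 4 * lam * (t - s) := by
    intro s t hst
    have p : 0 ≤ lam * (t - s) := mul_nonneg hl (sub_nonneg.2 hst)
    rcases le_total s 0 with a | a
    · rw [wA_lo lam hy (a.trans hy.le)]
      have q := mul_nonneg hl (neg_nonneg.2 a)
      rcases le_total t 0 with b | b
      · rw [wA_lo lam hy (b.trans hy.le), abs_le]; constructor <;> linarith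
      · obtain ⟨c, d⟩ := wA_mem hl y b
        rw [abs_le]; constructor <;> linarith
    · rcases le_total t (2 * y) with b | b
      · exact k1 s t a hst b
      · rcases le_total s (2 * y) with c | c
        · have := k1 s (2 * y) a c le_rfl
          rw [wA_hi lam hy le_rfl] at this
          rw [wA_hi lam hy b]
          exact this.trans (mul_le_mul_of_nonneg_left (by linarith) (by linarith))
        · rw [wA_hi lam hy b, wA_hi lam hy c, sub_zero, abs_zero]; linarith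
  refine ⟨by simp [wA], fun t ht => (wA_mem hl y ht).1, fun t ht => wA_hi lam hy ht, fun s t => ?_⟩
  rcases le_total s t with h | h
  · rw [abs_sub_comm, abs_sub_comm s t, abs_of_nonneg (sub_nonneg.2 h)]; exact k2 s t h
  · rw [abs_of_nonneg (sub_nonneg.2 h)]; exact k2 t s h

theorem Ms_wA_le (hl : 0 ≤ lam) (hy : 0 < y) (ht : 0 ≤ t) : Ms (wA lam y) t ≤ lam * t ^ 2 / 2 := by
  have := intervalIntegral.integral_mono_on (μ := volume) ht
    ((wA_sh hl hy).cont.intervalIntegrable _ _)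
    ((continuous_id'.intervalIntegrable _ _).const_mul lam) fun s hs => (wA_mem hl y hs.1).2
  rw [intervalIntegral.integral_const_mul, integral_id] at this
  unfold Ms; linarith

theorem Ms_wA_lo (lam : ℝ) (hy : 0 < y) (h0 : 0 ≤ t) (ht : t ≤ y) :
    Ms (wA lam y) t = lam * t ^ 2 / 2 := by
  unfold Ms
  rw [intervalIntegral.integral_congr (g := fun s => lam * s) (fun s hs => by
    rw [uIcc_of_le h0] at hs
    exact wA_lo lam hy (hs.2.trans ht)), intervalIntegral.integral_const_mul, integral_id]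
  ring

theorem Ms_wA_ge (hl : 0 ≤ lam) (hy : 0 < y) (ht : 0 ≤ t) :
    lam * min t y ^ 2 / 2 ≤ Ms (wA lam y) t := by
  rw [← Ms_wA_lo lam hy (le_min ht hy.le) (min_le_right _ _)]
  exact (wA_sh hl hy).Ms_mono (le_min ht hy.le) (min_le_left _ _)

theorem om_eq (p : Pm) (τ y : ℝ) : p.om τ y = omw (wA (τ * p.κ) y) p.v := rfl

/-! ### smallness of the parameters -/

/-- everything that tends to zero is below `δ` -/
structure Small (p : Pm) (C0 δ : ℝ) : Prop where
  n1 : 1 ≤ (p.n : ℝ)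
  κ : p.κ ≤ δ
  r : p.r ≤ δ
  ye : p.ye ≤ δ
  μ1 : p.μ0 ≤ 1
  ηv : C0 / (p.n : ℝ) ^ p.A + p.v ≤ δ * p.μ0
  lg : 1 ≤ δ * log p.n
  μκ : p.μ0 ≤ p.κ * p.r ^ 2
  wt : ∀ μ, p.μ0 ≤ μ → log p.n * ((p.n * μ) ^ (-(1 : ℝ) / 3)) ^ ((2 : ℝ) / 3) ≤ δ

theorem ev_rpow {a δ : ℝ} (ha : 0 < a) (hδ : 0 < δ) : ∀ᶠ n : ℕ in atTop, (n : ℝ) ^ (-a) ≤ δ :=
  ((tendsto_rpow_neg_atTop ha).comp tendsto_natCast_atTop_atTop).eventually (ge_mem_nhds hδ)

theorem ev_small (β c0 C0 : ℝ) {A : ℕ} (hA : 2 ≤ A) {c δ : ℝ} (hc : 0 < c)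
    (hc' : c ≤ 1 / 200) (hδ : 0 < δ) :
    ∀ᶠ n : ℕ in atTop, All β c0 C0 A c n fun p => Small p C0 δ := by
  have e1 := ev_rpow hc hδ
  have e2 := ev_rpow (show (0:ℝ) < 1 / 10 by norm_num) hδ
  have e3 := (tendsto_natCast_atTop_atTop (R := ℝ)).eventually_ge_atTop ((C0 + β ^ 2) / δ)
  have e4 := (tendsto_log_atTop.comp tendsto_natCast_atTop_atTop).eventually_ge_atTop (1 / δ)
  have e5 := ((isLittleO_log_rpow_atTop (show (0:ℝ) < 1 / 18 by norm_num)).comp_tendsto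
    tendsto_natCast_atTop_atTop).bound hδ
  filter_upwards [e1, e2, e3, e4, e5, eventually_ge_atTop 1] with n h1 h2 h3 h4 h5 h6
  intro p hβ hn hA' hc'' hp
  have n1 : (1:ℝ) ≤ n := by exact_mod_cast h6
  have n0 : (0:ℝ) < n := by linarith
  have mono : ∀ {a b : ℝ}, a ≤ b → (n:ℝ) ^ a ≤ (n:ℝ) ^ b := fun h => rpow_le_rpow_of_exponent_le n1 h
  have s1 := hp.s1
  have s2 := hp.s2
  have k1 : (n:ℝ) ^ (-c) ≤ 1 := rpow_le_one_of_one_le_of_nonpos n1 (by linarith)
  have k0 : 0 < (n:ℝ) ^ (-c) := rpow_pos_of_pos n0 _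
  refine ⟨by rw [hn]; exact n1, by unfold Pm.κ; rw [hn, hc'']; exact h1, ?_, ?_, ?_, ?_, ?_, ?_,
    fun μ hμ => ?_⟩
  · unfold Pm.r
    rw [hn] at s2
    rw [hn, hc'']
    refine (mul_le_mul_of_nonneg_right s2 (rpow_nonneg n0.le _)).trans ?_
    rw [← rpow_add n0]
    exact (mono (by linarith)).trans h2
  · unfold Pm.ye Pm.κ
    rw [hn, hc'']
    exact (pow_le_of_le_one k0.le k1 (by norm_num)).trans h1
  · unfold Pm.μ0
    rw [hn, hc'']
    exact rpow_le_one_of_one_le_of_nonpos n1 (by linarith)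
  · unfold Pm.μ0 Pm.v
    rw [hn, hc'', hA', hβ, ← add_div, div_le_iff₀ (by positivity)]
    have a1 : (n:ℝ) ^ (-1 : ℝ) ≤ (n:ℝ) ^ (-(2 / 3) - 2 * c) := mono (by linarith)
    have a2 : (n:ℝ) ^ 2 ≤ (n:ℝ) ^ A := pow_le_pow_right₀ n1 hA
    have a3 := mul_le_mul a1 a2 (by positivity) (by positivity)
    rw [rpow_neg_one, show (n:ℝ)⁻¹ * n ^ 2 = n by field_simp] at a3
    rw [div_le_iff₀ hδ] at h3
    have a4 := mul_le_mul_of_nonneg_left a3 hδ.le
    linarith
  · rw [hn]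
    rw [Function.comp, div_le_iff₀ hδ] at h4
    linarith
  · unfold Pm.μ0 Pm.κ Pm.r
    rw [hn, hc'']
    have a1 : ((n:ℝ) ^ (c / 7 - 1 / 6)) ^ 2 ≤ (p.s * (n:ℝ) ^ (c / 7 - 1 / 6)) ^ 2 :=
      pow_le_pow_left₀ (by positivity) (le_mul_of_one_le_left (by positivity) s1) 2
    refine le_trans ?_ (mul_le_mul_of_nonneg_left a1 k0.le)
    rw [← rpow_natCast, ← rpow_mul n0.le, ← rpow_add n0]
    exact mono (by push_cast; linarith)
  · unfold Pm.μ0 at hμ
    rw [hn, hc''] at hμ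
    rw [hn]
    have a1 : (n:ℝ) ^ (1 / 4 : ℝ) ≤ n * μ := by
      refine le_trans ?_ (mul_le_mul_of_nonneg_left hμ n0.le)
      rw [show (n:ℝ) * n ^ (-(2 / 3) - 2 * c) = n ^ (1 + (-(2 / 3) - 2 * c)) by
        rw [rpow_add n0, rpow_one]]
      exact mono (by linarith)
    have a0 : 0 < (n:ℝ) ^ (1 / 4 : ℝ) := rpow_pos_of_pos n0 _
    rw [← rpow_mul (a0.le.trans a1)]
    have a2 := rpow_le_rpow_of_nonpos a0 a1 (show -(1:ℝ) / 3 * (2 / 3) ≤ 0 by norm_num)
    rw [← rpow_mul n0.le, show (1 / 4 : ℝ) * (-1 / 3 * (2 / 3)) = -(1 / 18) by norm_num,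
      rpow_neg n0.le] at a2
    simp only [Function.comp, Real.norm_eq_abs] at h5
    rw [abs_of_nonneg (log_nonneg n1), abs_of_nonneg (rpow_nonneg n0.le _)] at h5
    have a3 := mul_le_mul h5 a2 (rpow_nonneg (a0.le.trans a1) _) (by positivity)
    rwa [mul_assoc, mul_inv_cancel₀ (rpow_pos_of_pos n0 _).ne', mul_one] at a3

/-! ### the static marks below the atom -/

theorem rs_inc (p : Pm) (τ y : ℝ) (hv : 0 < p.v) (hw : 0 < p.wt τ y) (hl : 0 < log p.n) {x x' : ℝ}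
    (h : x ≤ x') (h1 : x' ≤ p.xs) (h2 : x' ≤ 1) :
    -(3 / 2 * (x' - x) / log p.n) ≤ p.rs τ y x' - p.rs τ y x ∧
      (log p.n * p.wt τ y ^ ((2 : ℝ) / 3) ≤ p.xs - x' → 0 ≤ p.rs τ y x' - p.rs τ y x) := by
  unfold Pm.rs
  rw [if_pos h1, if_pos (h.trans h1)]
  have W0 : 0 < p.wt τ y ^ ((2 : ℝ) / 3) := rpow_pos_of_pos hw _
  generalize p.wt τ y ^ ((2 : ℝ) / 3) = W at *
  generalize p.wt τ y = w at *
  have lw := mul_pos hl W0
  have lg : log ((1 + w / √(1 - max x (1 / 2) + p.v)) / (1 + w / √(1 / 2 + p.v))) ≤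
      log ((1 + w / √(1 - max x' (1 / 2) + p.v)) / (1 + w / √(1 / 2 + p.v))) := by
    have a1 : max x' (1 / 2) ≤ 1 := max_le h2 (by norm_num)
    have a2 : max x (1 / 2) ≤ max x' (1 / 2) := max_le_max h le_rfl
    refine log_le_log (by positivity) (div_le_div_of_nonneg_right ?_ (by positivity))
    exact add_le_add le_rfl (div_le_div_of_nonneg_left hw.le (sqrt_pos.2 (by linarith))
      (sqrt_le_sqrt (by linarith)))
  constructor
  · have := (sm_inc (show 1 - (p.xs - x) / (log p.n * W) ≤ 1 - (p.xs - x') / (log p.n * W) by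
      linarith [div_le_div_of_nonneg_right (show p.xs - x' ≤ p.xs - x by linarith) lw.le])).2
    have q := mul_le_mul_of_nonneg_left this W0.le
    rw [show W * (3 / 2 * (1 - (p.xs - x') / (log p.n * W) - (1 - (p.xs - x) / (log p.n * W)))) =
      3 / 2 * (x' - x) / log p.n by field_simp; ring] at q
    linarith
  · intro a
    rw [sm_lo (by rw [sub_nonpos, one_le_div lw]; exact a),
      sm_lo (by rw [sub_nonpos, one_le_div lw]; linarith)]
    linarith

/-! ### the mass function `ms` -/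

theorem mx_two {r y s t : ℝ} (hr : 0 ≤ r) (hy : 0 ≤ y) (h : t ≤ 2 * s) :
    max r (min t y) ≤ 2 * max r (min s y) := by
  refine max_le (by linarith [le_max_left r (min s y)]) ?_
  have := le_max_right r (min s y)
  rcases le_total s y with a | a
  · rw [min_eq_left a] at this ⊢; linarith [min_le_left t y]
  · rw [min_eq_right a] at this ⊢; linarith [min_le_right t y]

theorem ms_two (p : Pm) {τ y s t : ℝ} (hl : 0 ≤ τ * p.κ) (hr : 0 ≤ p.r) (hy : 0 ≤ y)
    (h : t ≤ 2 * s) : p.ms τ y t ≤ 4 * p.ms τ y s := by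
  unfold Pm.ms
  have := pow_le_pow_left₀ (le_max_of_le_left hr) (mx_two hr hy h) 2
  have := mul_le_mul_of_nonneg_left this hl
  linarith

theorem z_bds {b0 c C η v : ℝ} {J : ℕ} {z : ℕ → ℝ} (hB : Base b0 c C η v J z) :
    ∀ k : ℕ, k < J → c * (k * v) ≤ z k ∧ z k ≤ C * v + C * (k * v)
  | 0, _ => by simpa using ⟨hB.lab.pos.le, hB.z0⟩
  | k + 1, h => by
    obtain ⟨a, b⟩ := z_bds hB k (by omega)
    obtain ⟨d, e⟩ := hB.slo k h
    unfold dm at d e
    push_cast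
    constructor <;> linarith

theorem dv {x a C : ℝ} (hx : 0 ≤ x) (hC : 0 < C) (h : 1 ≤ a * C) : x / C ≤ a * x := by
  rw [div_le_iff₀ hC]
  have := mul_le_mul_of_nonneg_right h hx
  linarith

theorem exists_del (a : Fin 7 → ℝ) (h : ∀ i, 0 < a i) : ∃ δ : ℝ, 0 < δ ∧ ∀ i, δ ≤ a i := by
  obtain ⟨i, hi⟩ := Finite.exists_min a
  exact ⟨a i, h i, hi⟩

/-- elementary facts on a member of the path -/
theorem mem_facts {p : Pm} {C0 δ τ y : ℝ} (S : Small p C0 δ) (s1 : 1 ≤ p.s) (h : p.Mem τ y) :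
    0 < p.κ ∧ 0 < p.r ∧ 0 < p.μ0 ∧ 0 < τ ∧ τ ≤ 1 ∧ p.r ≤ y ∧ y ≤ δ ∧ p.μ0 ≤ p.eps τ := by
  have n0 : (0:ℝ) < p.n := by linarith [S.n1]
  have k0 : 0 < p.κ := rpow_pos_of_pos n0 _
  have r0 : 0 < p.r := mul_pos (by linarith) (rpow_pos_of_pos n0 _)
  have m0 : 0 < p.μ0 := rpow_pos_of_pos n0 _
  refine ⟨k0, r0, m0, ?_⟩
  rcases h with ⟨a, b, c⟩ | ⟨a, b, c⟩
  · refine ⟨?_, c, a.ge, a ▸ S.r, b⟩
    by_contra hn
    have := mul_nonpos_of_nonpos_of_nonneg (mul_nonpos_of_nonpos_of_nonneg (not_lt.1 hn) k0.le)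
      (sq_nonneg p.r)
    linarith
  · refine ⟨by rw [a]; exact one_pos, a.le, b, c.trans S.ye, ?_⟩
    unfold Pm.eps
    rw [a, one_mul]
    exact S.μκ

end PP3

open PP3

set_option maxHeartbeats 1000000 in
/-- **(P1)** -/
theorem p1 (β : ℝ) (hβ : 1 < β) : Cst β P1 := by
  intro c0 C0 hc0 hC0
  have hb : 1 ≤ β ^ 2 := one_le_pow₀ hβ.le
  obtain ⟨c2, C2, Y0, η0, hc2, hc21, hC2, hY0, hY1, hη0, H⟩ := famE (β ^ 2) c0 C0 (β ^ 2) hb hc0 hC0
  obtain ⟨C, hC⟩ : ∃ C, C = 8 * β ^ 2 + 2 * C0 + 1 / c0 + 32 / c2 + 24 * C2 := ⟨_, rfl⟩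
  have q1 : 0 < 1 / c0 := by positivity
  have q2 : 0 < 32 / c2 := by positivity
  have C1 : 1 ≤ C := by linarith
  have Cp : 0 < C := by linarith
  have Cc : 1 ≤ c2 / 32 * C := by
    have := mul_le_mul_of_nonneg_left (show 32 / c2 ≤ C by linarith) (show 0 ≤ c2 / 32 by positivity)
    rwa [show c2 / 32 * (32 / c2) = 1 by field_simp] at this
  have Cc' : 1 ≤ c2 / 2 * C := Cc.trans (mul_le_mul_of_nonneg_right (by linarith) Cp.le)
  have Cb : 1 ≤ 1 / (8 * β ^ 2) * C := by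
    rw [one_div, ← div_eq_inv_mul, one_le_div (by positivity)]; linarith
  have Cz : 1 ≤ c0 * C := by
    have := mul_le_mul_of_nonneg_left (show 1 / c0 ≤ C by linarith) hc0.le
    rwa [mul_one_div_cancel hc0.ne'] at this
  obtain ⟨δ, hδ, hd⟩ := exists_del
    ![1 / 8, Y0 / 2, 1 / (16 * C2), η0, c2 / (48 * C0), c0 / 2, c0 ^ 2 / (6 * C0)] (by
      intro i; fin_cases i <;> simp <;> positivity)
  have d0 : δ ≤ 1 / 8 := hd 0
  have d1 : δ ≤ Y0 / 2 := hd 1
  have d2 : δ * (16 * C2) ≤ 1 := (le_div_iff₀ (by positivity)).1 (hd 2)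
  have d3 : δ ≤ η0 := hd 3
  have d4 : δ * (48 * C0) ≤ c2 := (le_div_iff₀ (by positivity)).1 (hd 4)
  have d5 : δ ≤ c0 / 2 := hd 5
  have d6 : δ * (6 * C0) ≤ c0 ^ 2 := (le_div_iff₀ (by positivity)).1 (hd 6)
  clear hd
  refine ⟨C, C1, fun A hA c hc hc' => ?_⟩
  filter_upwards [ev_small β c0 C0 hA hc hc' hδ] with n hS p hβ' hn hA' hc'' hp τ y hm
  have S := hS p hβ' hn hA' hc'' hp
  clear hS
  subst hβ'
  obtain ⟨k0, r0, m0, t0, t1, ry, yd, me⟩ := mem_facts S hp.s1 hm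
  have hB := hp.base
  have hv := hB.v_pos
  have y0 : 0 < y := r0.trans_le ry
  have l0 : 0 < τ * p.κ := mul_pos t0 k0
  have l1 : τ * p.κ ≤ p.κ := mul_le_of_le_one_left k0.le t1
  have kd := S.κ
  have sh := wA_sh l0.le y0
  have sh' : Sh (2 * y) (4 * p.κ) (wA (τ * p.κ) y) := sh.mono le_rfl (by linarith)
  have hL : 4 * p.κ ≤ 1 / 2 := by linarith
  have η0' := hB.eta_nn
  have ηv : C0 / (p.n : ℝ) ^ p.A + p.v ≤ δ := S.ηv.trans (mul_le_of_le_one_right hδ.le S.μ1)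
  have y1 : y ^ 2 ≤ δ := by
    have := mul_le_mul yd (show y ≤ 1 by linarith) y0.le hδ.le
    linarith
  have MY : Ms (wA (τ * p.κ) y) (2 * y) ≤ 2 * (τ * p.κ * y ^ 2) := by
    linarith [Ms_wA_le l0.le y0 (t := 2 * y) (by linarith)]
  have MY' : τ * p.κ * y ^ 2 / 2 ≤ Ms (wA (τ * p.κ) y) (2 * y) := by
    have := Ms_wA_ge l0.le y0 (t := 2 * y) (by linarith)
    rwa [min_eq_right (by linarith)] at this
  have er : p.eps τ ≤ τ * p.κ * y ^ 2 :=
    mul_le_mul_of_nonneg_left (pow_le_pow_left₀ r0.le ry 2) l0.le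
  have ly : τ * p.κ * y ^ 2 ≤ δ * δ := mul_le_mul (by linarith) y1 (sq_nonneg y) hδ.le
  have dd : δ * δ ≤ 1 / 8 * (1 / 8) := mul_le_mul d0 d0 hδ.le (by norm_num)
  obtain ⟨⟨o1, o2, o3, b1, b2⟩, h1, h2, -, -⟩ := H _ _ _ _ hB (by linarith) p.J (wA (τ * p.κ) y)
    (2 * y) (4 * p.κ) (p.eps τ) 0 le_rfl hB.hi sh' (by linarith) (by linarith) hL
    (fun t ht => by
      refine le_trans ?_ (Ms_wA_ge l0.le y0 ht.1)
      have a1 : t ≤ 2 * min t y := by
        rcases le_total t y with a | a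
        · rw [min_eq_left a]; linarith [ht.1]
        · rw [min_eq_right a]; exact ht.2
      have a2 := mul_le_mul_of_nonneg_left (pow_le_pow_left₀ ht.1 a1 2) l0.le
      have a3 := mul_le_mul_of_nonneg_left (mul_le_mul_of_nonneg_right MY (sq_nonneg t))
        (show 0 ≤ C2 by linarith)
      have a4 : y ^ 2 * (16 * C2) ≤ 1 := (mul_le_mul_of_nonneg_right y1 (by positivity)).trans d2
      have a5 := mul_le_mul_of_nonneg_right a4 (show 0 ≤ τ * p.κ * t ^ 2 by positivity)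
      linarith only [a2, a3, a5])
    (by
      have a1 := mul_le_mul_of_nonneg_left S.ηv (show 0 ≤ C2 by linarith)
      have a2 := mul_le_mul_of_nonneg_right d2 m0.le
      have a3 : 0 ≤ δ * C2 * p.μ0 := by positivity
      rw [zero_pow two_ne_zero, mul_zero, add_zero]
      linarith only [a1, a2, a3, me])
    (by linarith)
  clear H
  have hom : Om p.v (2 * y) (4 * p.κ) (p.om τ y) := sh'.om hv
  have JN : p.J * p.v ≤ ((p.J + p.Nr : ℕ) : ℝ) * p.v :=
    mul_le_mul_of_nonneg_right (Nat.cast_le.2 (Nat.le_add_right _ _)) hv.le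
  obtain ⟨ok, tt⟩ := lo_ok areaS (hB.lab.up (Nat.le_add_right _ p.Nr)) hom hv hL (o3.trans JN)
  change Pr.Ok (p.l τ y) at ok
  change TT (p.l τ y) = _ at tt
  have xb : p.b τ y = bb (lo p.z p.v (omw (wA (τ * p.κ) y) p.v) p.J) (p.eps τ) :=
    ext_bb hB.lab (hom.sm hv hL) o1 p.Nr _
  have xe : ∀ t, t ≤ p.J * p.v → ee (p.l τ y) (p.eps τ) t =
      ee (lo p.z p.v (omw (wA (τ * p.κ) y) p.v) p.J) (p.eps τ) t := fun t ht =>
    ext_ee hB.lab (hom.sm hv hL) o1 p.Nr _ (ht.trans_eq o2.symm)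
  have top := fun s (hs : p.J * p.v ≤ s) =>
    lvr_top areaS hB.lab (Nat.le_add_right _ p.Nr) hom hv hL hs
  unfold thh at h2
  rw [← xb] at b1 b2 h2
  have ms0 : ∀ t, 0 ≤ p.ms τ y t := fun t => mul_nonneg l0.le (sq_nonneg _)
  have μ0' : 0 < p.μ τ y := mul_pos l0 (by positivity)
  have C20 : 0 ≤ C2 := by linarith
  have hee : ∀ t ∈ Icc 0 (p.J * p.v), c2 / 2 * p.ms τ y t ≤ ee (p.l τ y) (p.eps τ) t ∧
      ee (p.l τ y) (p.eps τ) t ≤ 4 * C2 * p.ms τ y t ∧ ee (p.l τ y) (p.eps τ) t ≤ 1 / 2 := by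
    intro t ht
    obtain ⟨a1, a2, a3, a4⟩ := h1 t ht
    rw [xe t ht.2]
    have m1 : 0 ≤ min t y := le_min ht.1 y0.le
    have u1 := mul_le_mul_of_nonneg_left
      (pow_le_pow_left₀ r0.le (le_max_left p.r (min t y)) 2) l0.le
    have u2 := mul_le_mul_of_nonneg_left
      (pow_le_pow_left₀ m1 (le_max_right p.r (min t y)) 2) l0.le
    change p.eps τ ≤ p.ms τ y t at u1
    change _ ≤ p.ms τ y t at u2
    refine ⟨le_trans ?_ a1, ?_, a4⟩
    · have u3 := Ms_wA_ge l0.le y0 ht.1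
      have u4 : p.ms τ y t ≤ p.eps τ + τ * p.κ * min t y ^ 2 := by
        unfold Pm.ms Pm.eps
        have v1 : 0 ≤ τ * p.κ * p.r ^ 2 := by positivity
        have v2 : 0 ≤ τ * p.κ * min t y ^ 2 := by positivity
        rcases le_total p.r (min t y) with b | b
        · rw [max_eq_right b]; linarith
        · rw [max_eq_left b]; linarith
      have := mul_le_mul_of_nonneg_left (show p.ms τ y t / 2 ≤ p.eps τ + Ms (wA (τ * p.κ) y) t by
        linarith) hc2.le
      linarith only [this]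
    · rcases le_total t y with b | b
      · rw [min_eq_left b] at u2
        have u3 := Ms_wA_le l0.le y0 (t := 2 * t) (by linarith [ht.1])
        have u4 := mul_le_mul_of_nonneg_right MY (sq_nonneg t)
        have u5 := mul_le_mul_of_nonneg_right (show y ^ 2 ≤ 1 / 2 by linarith)
          (show 0 ≤ τ * p.κ * t ^ 2 by positivity)
        have := mul_le_mul_of_nonneg_left (show p.eps τ + Ms (wA (τ * p.κ) y) (2 * t) +
          Ms (wA (τ * p.κ) y) (2 * y) * t ^ 2 ≤ 4 * p.ms τ y t by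
            linarith only [u1, u2, u3, u4, u5]) C20
        linarith only [this, a2]
      · rw [min_eq_right b] at u2
        have := mul_le_mul_of_nonneg_left (show p.eps τ + Ms (wA (τ * p.κ) y) (2 * y) ≤
          4 * p.ms τ y t by linarith only [u1, u2, MY, ms0 t]) C20
        linarith only [this, a3]
  have msY : ∀ t, y ≤ t → p.ms τ y t = p.μ τ y := fun t ht => by
    unfold Pm.ms Pm.μ; rw [min_eq_right ht, max_eq_right ry]
  have CC : ∀ x, 0 ≤ x → 24 * C2 * x ≤ C * x := fun x hx =>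
    mul_le_mul_of_nonneg_right (by linarith) hx
  have cell : ∀ k, k < p.J → 0 ≤ sig p.v (p.om τ y) k ∧
      sig p.v (p.om τ y) (k + 1) ≤ p.J * p.v ∧
      p.v / 2 ≤ sig p.v (p.om τ y) (k + 1) - sig p.v (p.om τ y) k ∧
      sig p.v (p.om τ y) (k + 1) - sig p.v (p.om τ y) k ≤ 3 / 2 * p.v := fun k hk => by
    have a := abs_le.1 (hom.lip k)
    have b := mul_le_mul_of_nonneg_right hL hv.le
    refine ⟨hom.sig_nn hv hL k, (hom.sig_le _).trans
      (mul_le_mul_of_nonneg_right (Nat.cast_le.2 hk) hv.le), ?_, ?_⟩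
    · unfold sig; push_cast; linarith only [a.2, b]
    · unfold sig; push_cast; linarith only [a.1, b]
  have ssk : ∀ k, k ≤ p.J → p.ss τ y k = sig p.v (p.om τ y) k := fun k hk => if_pos hk
  have zb := z_bds hB
  refine ⟨hom, ok, ⟨(dv μ0'.le Cp Cc').trans (le_trans ?_ h2.1), h2.2.trans ?_⟩,
    fun t ht => ⟨(dv (ms0 t) Cp Cc').trans (hee t ht).1, (hee t ht).2.1.trans ?_⟩,
    fun t ht => ?_, fun k hk => ?_, fun k h1 hk => ⟨?_, ?_⟩, fun k h1 hk => ?_⟩
  · have := mul_le_mul_of_nonneg_left (show p.μ τ y / 2 ≤ p.eps τ +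
      Ms (wA (τ * p.κ) y) (2 * y) by unfold Pm.μ; linarith only [MY', me, m0]) hc2.le
    linarith only [this]
  · have := mul_le_mul_of_nonneg_left (show p.eps τ + Ms (wA (τ * p.κ) y) (2 * y) ≤
      24 * p.μ τ y by have := μ0'; unfold Pm.μ at this ⊢; linarith only [MY, er, this]) C20
    linarith only [this, CC _ μ0'.le]
  · have : 0 ≤ C2 * p.ms τ y t := mul_nonneg C20 (ms0 t)
    linarith only [this, CC _ (ms0 t)]
  · have J0 : 0 ≤ p.J * p.v := by positivity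
    have a1 := (platS _ ok _ t J0 ht.1 (ht.2.trans_eq tt.symm) top).1
    have a2 := (hee _ ⟨J0, le_rfl⟩).1
    rw [msY _ (by linarith only [o3, y0])] at a2
    have a3 := (dv μ0'.le Cp Cc').trans a2
    have a4 := mul_le_mul_of_nonneg_left a1 (show 0 ≤ p.b τ y by linarith only [b1])
    have a5 := mul_le_mul_of_nonneg_left a3 (exp_pos (-((t - p.J * p.v) / 2))).le
    unfold ee at a5 ⊢
    unfold Pm.b at a4
    linarith only [a4, a5]
  · obtain ⟨c1, c3, c4, c5⟩ := cell k hk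
    have := (hh_bds ok (p.eps τ) (m := 0) (M := 1 / 2) c1 (by linarith only [c4, hv])
      (c3.trans (JN.trans_eq tt.symm)) fun r hr => by
        obtain ⟨a, -, b⟩ := hee r ⟨c1.trans hr.1, hr.2.trans c3⟩
        exact ⟨le_trans (mul_nonneg (by positivity) (ms0 r)) a, b⟩).2
    unfold Pm.q
    rw [ssk k hk.le, ssk (k + 1) hk]
    change _ ≤ p.b τ y * _ ∧ p.b τ y * _ ≤ _ at this
    generalize Pr.Gam (p.l τ y) (sig p.v (p.om τ y) (k + 1)) -
      Pr.Gam (p.l τ y) (sig p.v (p.om τ y) k) = g at *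
    obtain ⟨a1, a2⟩ := this
    have g0 : 0 ≤ g := by
      by_contra hg
      have := mul_neg_of_pos_of_neg (show 0 < p.b τ y by linarith only [b1]) (not_le.1 hg)
      linarith only [this, a1, c4, hv]
    have a3 := mul_le_mul_of_nonneg_right b1 g0
    have a4 := mul_le_mul_of_nonneg_right b2 g0
    have a5 := mul_le_mul_of_nonneg_right (show 2 ≤ C by linarith) hv.le
    refine ⟨(dv hv.le Cp Cb).trans ?_, by linarith only [a2, a3, a5, c5]⟩
    rw [one_div, ← div_eq_inv_mul, div_le_iff₀ (by positivity)]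
    linarith only [a1, a4, c4]
  · exact (dv (by positivity) Cp Cz).trans (zb k hk).1
  · have a1 : p.v ≤ k * p.v := le_mul_of_one_le_left hv.le (by exact_mod_cast h1)
    have a2 := mul_le_mul_of_nonneg_left a1 (show 0 ≤ C0 by linarith)
    have a3 := mul_le_mul_of_nonneg_right (show 2 * C0 ≤ C by linarith)
      (show 0 ≤ k * p.v by positivity)
    linarith only [(zb k hk).2, a2, a3]
  · obtain ⟨c1, c3, c4, c5⟩ := cell k hk
    obtain ⟨j, rfl⟩ : ∃ j, k = j + 1 := ⟨k - 1, by omega⟩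
    have kv : p.v ≤ ((j + 1 : ℕ) : ℝ) * p.v :=
      le_mul_of_one_le_left hv.le (by exact_mod_cast Nat.le_add_left 1 j)
    have M0 := ms0 (((j + 1 : ℕ) : ℝ) * p.v)
    obtain ⟨a1, a2⟩ := (hh_bds ok (p.eps τ) (m := c2 / 8 * p.ms τ y (((j + 1 : ℕ) : ℝ) * p.v))
      (M := 16 * C2 * p.ms τ y (((j + 1 : ℕ) : ℝ) * p.v)) c1 (by linarith only [c4, hv])
      (c3.trans (JN.trans_eq tt.symm)) fun r hr => by
        obtain ⟨a, b, -⟩ := hee r ⟨c1.trans hr.1, hr.2.trans c3⟩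
        have u1 := ms_two p l0.le r0.le y0.le (t := ((j + 1 : ℕ) : ℝ) * p.v) (s := r)
          (by linarith only [hom.sig_ge hv hL (j + 1), hr.1])
        have u2 := ms_two p l0.le r0.le y0.le (s := ((j + 1 : ℕ) : ℝ) * p.v) (t := r) (by
          have := hom.sig_le (j + 1 + 1)
          push_cast at this kv ⊢
          linarith only [this, hr.2, kv])
        have u3 := mul_le_mul_of_nonneg_left u1 hc2.le
        have u4 := mul_le_mul_of_nonneg_left u2 C20
        constructor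
        · linarith only [a, u3]
        · linarith only [b, u4]).1
    have e : p.H τ y (j + 1 + 1) - p.H τ y (j + 1) =
        hh (p.l τ y) (p.eps τ) (sig p.v (p.om τ y) (j + 1 + 1)) -
          hh (p.l τ y) (p.eps τ) (sig p.v (p.om τ y) (j + 1)) +
          p.μ τ y * (p.rs τ y (p.z (j + 1)) - p.rs τ y (p.z j)) := by
      have zk : ∀ k, k < p.J → p.zz k = p.z k := fun k hk => if_pos hk
      unfold Pm.H
      rw [if_neg (show ¬ j + 1 + 1 ≤ p.j0 by omega), if_neg (show ¬ j + 1 ≤ p.j0 by omega),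
        Nat.add_sub_cancel, Nat.add_sub_cancel, zk _ hk, zk j (by omega)]
      unfold Pm.q hh Pm.b
      rw [ssk (j + 1) hk.le, ssk (j + 1 + 1) hk]
      ring
    rw [e, Nat.add_sub_cancel]
    have zx : p.z (j + 1) ≤ p.xs := hB.lab.mono (by omega)
    have z1 : p.z (j + 1) ≤ 1 := (hB.lab.mono hk.le).trans_eq (hB.lab.top _ le_rfl)
    have lg0 : 0 < log p.n := by
      by_contra hn
      linarith only [mul_nonpos_of_nonneg_of_nonpos hδ.le (not_lt.1 hn), S.lg]
    obtain ⟨ra, rb⟩ := rs_inc p τ y hv (rpow_pos_of_pos (mul_pos (by linarith only [S.n1]) μ0') _)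
      lg0 (hB.lab.mono (Nat.le_succ j)) zx z1
    have f1 := mul_le_mul_of_nonneg_left c4
      (show 0 ≤ c2 / 8 * p.ms τ y (((j + 1 : ℕ) : ℝ) * p.v) by positivity)
    have f2 := mul_le_mul_of_nonneg_left c5
      (show 0 ≤ 16 * C2 * p.ms τ y (((j + 1 : ℕ) : ℝ) * p.v) by positivity)
    have Mv : 0 ≤ p.ms τ y (((j + 1 : ℕ) : ℝ) * p.v) * p.v := mul_nonneg M0 hv.le
    constructor
    · refine (dv Mv Cp Cc).trans ?_
      rcases le_or_gt y (((j + 1 : ℕ) : ℝ) * p.v) with a | a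
      · rw [msY _ a] at a1 f1 ⊢
        have g1 : p.z (j + 1) - p.z j ≤ C0 * p.v := (hB.slo j hk).2
        have g2 : 3 / 2 * (p.z (j + 1) - p.z j) / log p.n ≤ c2 / 32 * p.v := by
          rw [div_le_iff₀ lg0]
          have u1 := mul_le_mul_of_nonneg_right S.lg (show 0 ≤ C0 * p.v by positivity)
          have u2 := mul_le_mul_of_nonneg_right d4 (show 0 ≤ log p.n * p.v by positivity)
          linarith only [g1, u1, u2]
        have g3 := mul_le_mul_of_nonneg_left (show -(c2 / 32 * p.v) ≤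
          p.rs τ y (p.z (j + 1)) - p.rs τ y (p.z j) by linarith only [ra, g2]) μ0'.le
        linarith only [a1, f1, g3]
      · have g1 := S.wt (p.μ τ y) (me.trans er)
        have g2 := (zb (p.J - 1) (by omega)).1
        have g3 := (zb (j + 1) hk).2
        have g4 : ((p.J - 1 : ℕ) : ℝ) = p.J - 1 := by
          rw [Nat.cast_sub (by omega), Nat.cast_one]
        rw [g4] at g2
        have g5 := mul_le_mul_of_nonneg_left (show c0 / 2 ≤ (p.J - 1) * p.v by
          linarith only [hB.lo, ηv, η0', d5]) hc0.le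
        have g6 := mul_le_mul_of_nonneg_left (show p.v + ((j + 1 : ℕ) : ℝ) * p.v ≤ 2 * δ by
          linarith only [a, yd, ηv, η0']) (show 0 ≤ C0 by linarith only [hC0])
        have g7 := mul_le_mul_of_nonneg_left hC0 hδ.le
        have g8 := mul_nonneg μ0'.le (rb (by
          refine g1.trans ?_
          unfold Pm.xs
          linarith only [g2, g3, g5, g6, g7, d6]))
        have g9 : 0 ≤ c2 * (p.ms τ y (((j + 1 : ℕ) : ℝ) * p.v) * p.v) := mul_nonneg hc2.le Mv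
        linarith only [a1, f1, g8, g9]
    · have g1 := mul_le_mul_of_nonneg_left
        (le_abs_self (p.rs τ y (p.z (j + 1)) - p.rs τ y (p.z j))) μ0'.le
      have g2 := le_mul_of_one_le_left (mul_nonneg μ0'.le
        (abs_nonneg (p.rs τ y (p.z (j + 1)) - p.rs τ y (p.z j)))) C1
      linarith only [a2, f2, g1, g2, CC _ Mv]

end Crest.Agent.T156.Alt

end
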