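import Crest.Agent.T156.AltMemA_37
import Crest.Agent.T156.AltP1_3

/-!
# Row 156, ALT route with SR: the GRADED family and the stages from SK to `tst P ye` (helper62)

Shape of helper6: `gS σ t = t` for `t ≤ σ²`, `= 2 σ √t - σ²` above.
-/

set_option autoImplicit false

noncomputable section

namespace Crest.Agent.T156.Alt

open MeasureTheory Real Set Filter Topology

/-- the graded shape -/
def gS (σ t : ℝ) : ℝ := t - max 0 (√t - σ) ^ 2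

theorem gS_lo {σ t : ℝ} (h : √t ≤ σ) : gS σ t = t := by
  rw [gS, max_eq_left (by linarith)]; ring

theorem gS_hi {σ t : ℝ} (ht : 0 ≤ t) (h : σ ≤ √t) : gS σ t = 2 * σ * √t - σ ^ 2 := by
  rw [gS, max_eq_right (by linarith)]
  nlinarith [sq_sqrt ht]

namespace Pm

variable (p : Pm)

variable (σ : ℝ)

/-- graded displacement, `σ = τ / κ` -/
def omG (j : ℕ) : ℝ := p.κ * gS σ (j * p.v) * (1 - sm (j * p.v / p.ye - 1))
def epsG : ℝ := p.κ * p.r * gS σ p.r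
def lG : List (ℝ × ℝ) := Pr.lo p.z p.v (p.omG σ) (p.J + p.Nr)
def bG : ℝ := Pr.bb (p.lG σ) (p.epsG σ)
/-- mass at the level `t` up to constants -/
def msG (t : ℝ) : ℝ := p.κ * max p.r (min t p.ye) * gS σ (max p.r (min t p.ye))
/-- top mass -/
def muG : ℝ := p.κ * p.ye * gS σ p.ye
/-- start and end of the path -/
def sg0 : ℝ := p.μ0 / (p.κ * p.ye * √p.ye)
def sg1 : ℝ := √(2 * p.ye)

/-- **the graded path** -/
def gst (P : Pl) (σ : ℝ) : Md := p.famO P (p.omG σ) p.jf (p.bG σ) 0 0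

/-- the mass at which grid and clock of the plateau are read (smaller amplitude while thin) -/
def mt (μ : ℝ) : ℝ := min (μ / p.κ ^ 3) (max μ (p.κ * (p.n : ℝ) ^ (-(1 : ℝ) / 3)))

/-- plateau data of the graded path: grid and clock at `mt μ`, field `μ rs` -/
structure PlG (μ : ℝ) (P : Pl) : Prop where
  ok : p.PlOk (p.mt μ) { P with hs := fun x => p.mt μ * p.rF (p.mt μ) x }
  hs : P.hs = fun x => μ * p.rF (p.mt μ) x

/-- members -/
def MemG : Prop := p.sg0 ≤ σ ∧ σ ≤ p.sg1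

/-- one octave -/
def OctR (σ σ' : ℝ) : Prop := p.sg0 ≤ σ ∧ σ ≤ σ' ∧ σ' ≤ 2 * σ ∧ σ' ≤ p.sg1

variable {p}

theorem omG_one (hy : 0 < p.ye) : p.omG p.sg1 = p.om 1 p.ye := by
  funext j
  rw [omG, om, one_mul]
  rcases le_total (j * p.v) (2 * p.ye) with h | h
  · rw [gS_lo (σ := p.sg1) (sqrt_le_sqrt h)]
  · rw [PP3.sm_hi (by rw [le_sub_iff_add_le, le_div_iff₀ hy]; linarith)]; ring

theorem epsG_one (hy : 0 < p.ye) (hr : p.r ≤ p.ye) : p.epsG p.sg1 = p.eps 1 := by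
  rw [epsG, eps, gS_lo (σ := p.sg1) (sqrt_le_sqrt (by linarith))]; ring

theorem muG_one (hy : 0 < p.ye) : p.muG p.sg1 = p.μ 1 p.ye := by
  rw [muG, μ, gS_lo (σ := p.sg1) (sqrt_le_sqrt (by linarith))]; ring

theorem bG_one (hy : 0 < p.ye) (hr : p.r ≤ p.ye) : p.bG p.sg1 = p.b 1 p.ye := by
  rw [bG, b, lG, omG_one hy, epsG_one hy hr]; rfl

/-- the end of the graded path is the end of the tested stage -/
theorem gst_one (hy : 0 < p.ye) (hr : p.r ≤ p.ye) (P : Pl) :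
    p.gst P p.sg1 = p.tst P p.ye := by
  rw [tst_eq, gst, omG_one hy, bG_one hy hr]

theorem PlG.g {μ : ℝ} {P : Pl} (h : p.PlG μ P) : P.γ = 0 := h.ok.g
theorem PlG.rs {μ : ℝ} {P : Pl} (h : p.PlG μ P) : P.rs = p.rF (p.mt μ) := h.ok.rs

theorem PlG.of {μ : ℝ} {P : Pl} (h : p.PlOk (p.mt μ) P) :
    p.PlG μ { P with hs := fun x => μ * p.rF (p.mt μ) x } :=
  ⟨⟨h.g, h.rs, rfl, h.x0, h.xm, h.st, h.e1, h.e2⟩, rfl⟩

theorem PlG.plOk {μ : ℝ} {P : Pl} (h : p.PlG μ P) (e : p.mt μ = μ) : p.PlOk μ P := by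
  obtain ⟨a, b⟩ := h
  rw [e] at a b
  exact ⟨a.g, a.rs, b, a.x0, a.xm, a.st, a.e1, a.e2⟩

theorem le_mt {μ : ℝ} (h0 : 0 < p.κ) (h1 : p.κ ≤ 1) (hμ : 0 ≤ μ) : μ ≤ p.mt μ :=
  le_min (le_div_self hμ (pow_pos h0 3) (pow_le_one₀ h0.le h1)) (le_max_left _ _)

theorem mt_le (μ : ℝ) : p.mt μ ≤ μ / p.κ ^ 3 := min_le_left _ _

theorem mt_le' (μ : ℝ) : p.mt μ ≤ max μ (p.κ * (p.n : ℝ) ^ (-(1 : ℝ) / 3)) := min_le_right _ _

theorem mt_eq {μ : ℝ} (h0 : 0 < p.κ) (h1 : p.κ ≤ 1) (hμ : 0 ≤ μ)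
    (h : p.κ * (p.n : ℝ) ^ (-(1 : ℝ) / 3) ≤ μ) : p.mt μ = μ :=
  le_antisymm ((mt_le' μ).trans (max_le le_rfl h)) (le_mt h0 h1 hμ)

end Pm

/-- START: from SK to the first member -/
def StartG (δ : ℝ) (p : Pm) : Prop :=
  ∀ P, p.PlG (p.muG p.sg0) P → Go δ p (Md.sk p.β) (p.gst P p.sg0)

/-- one OCTAVE of the tested path, plateau data fixed -/
def OctG (δ : ℝ) (p : Pm) : Prop :=
  ∀ σ σ' P, p.OctR σ σ' → p.PlG (p.muG σ) P → Go δ p (p.gst P σ) (p.gst P σ')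

/-- SWITCH of the plateau data -/
def SwG (δ : ℝ) (p : Pm) : Prop :=
  ∀ σ σ' P P', p.OctR σ σ' → p.PlG (p.muG σ) P → p.PlG (p.muG σ') P' →
    Go δ p (p.gst P σ') (p.gst P' σ')

/-- the whole path -/
def PathG (δ : ℝ) (p : Pm) : Prop :=
  ∃ P, p.PlOk (p.μ 1 p.ye) P ∧ Go δ p (Md.sk p.β) (p.tst P p.ye)

/-- **the row, graded form** -/
def TopG : Prop := ∀ β g : ℝ, 1 < β → Gain β (PlEx g) → Gain β StartG → Gain β OctG →
  Gain β SwG → Gain β (SprS g) → Gain β (FlwS g) → Soft.Key β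

end Crest.Agent.T156.Alt

end
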