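import Crest.Agent.T156.AltGp_3
import Crest.Agent.T156.GrDef_62

/-!
Row 156 (helper3): static facts on the profiles of the graded family.
-/

set_option autoImplicit false

noncomputable section

namespace Crest.Agent.T156.Alt

open MeasureTheory Real Set Filter Topology
open Crest.Agent.R339.B Crest.Agent.R339.Var Crest.Agent.T157.Pf
open Crest.Agent.T156.Pp Crest.Agent.T156.Pr Crest.Agent.T156.Pr.Fam3

namespace PG3

open PP3

variable {σ s t k y : ℝ}

theorem gS_neg (hσ : 0 ≤ σ) (ht : t ≤ 0) : gS σ t = t :=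
  gS_lo (by rw [sqrt_eq_zero_of_nonpos ht]; exact hσ)

theorem gS_zero (hσ : 0 ≤ σ) : gS σ 0 = 0 := gS_neg hσ le_rfl

theorem gS_le (σ t : ℝ) : gS σ t ≤ t := sub_le_self _ (sq_nonneg _)

theorem gS_inc (hσ : 0 ≤ σ) (h : s ≤ t) : 0 ≤ gS σ t - gS σ s ∧ gS σ t - gS σ s ≤ t - s := by
  have m := sqrt_le_sqrt h
  have a : max 0 (√s - σ) ≤ max 0 (√t - σ) := max_le_max le_rfl (by linarith)
  have b0 : 0 ≤ max 0 (√s - σ) := le_max_left _ _
  have c := pow_le_pow_left₀ b0 a 2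
  unfold gS
  refine ⟨?_, by linarith⟩
  have a1 : max 0 (√t - σ) ≤ √t := max_le (sqrt_nonneg _) (by linarith)
  rcases le_total 0 s with q | q
  · have a2 : max 0 (√s - σ) ≤ √s := max_le (sqrt_nonneg _) (by linarith)
    have a3 : max 0 (√t - σ) - max 0 (√s - σ) ≤ √t - √s := by
      have := le_max_right 0 (√s - σ)
      rcases le_total 0 (√t - σ) with e | e
      · rw [max_eq_right e]; linarith
      · rw [max_eq_left e]; linarith
    have a4 := mul_le_mul a3 (add_le_add a1 a2) (by linarith) (by linarith)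
    nlinarith [sq_sqrt q, sq_sqrt (q.trans h)]
  · rw [sqrt_eq_zero_of_nonpos q, max_eq_left (show 0 - σ ≤ 0 by linarith)]
    rcases le_total 0 t with e | e
    · have := pow_le_pow_left₀ (le_max_left _ _) a1 2
      rw [sq_sqrt e] at this
      linarith
    · rw [sqrt_eq_zero_of_nonpos e, max_eq_left (show 0 - σ ≤ 0 by linarith)]; linarith

theorem gS_mono (hσ : 0 ≤ σ) (h : s ≤ t) : gS σ s ≤ gS σ t := by linarith [(gS_inc hσ h).1]

theorem gS_nn (hσ : 0 ≤ σ) (ht : 0 ≤ t) : 0 ≤ gS σ t := by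
  have := gS_mono hσ ht
  rwa [gS_zero hσ] at this

/-- `g t / t` decreases -/
theorem gS_conc (hσ : 0 ≤ σ) (hs : 0 ≤ s) (h : s ≤ t) : gS σ t * s ≤ gS σ s * t := by
  have m := sqrt_le_sqrt h
  have a : max 0 (√s - σ) * √t ≤ max 0 (√t - σ) * √s := by
    rcases le_total 0 (√s - σ) with e | e
    · rw [max_eq_right e, max_eq_right (by linarith)]
      nlinarith [mul_le_mul_of_nonneg_left m hσ]
    · rw [max_eq_left e, zero_mul]
      exact mul_nonneg (le_max_left _ _) (sqrt_nonneg _)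
  have b := pow_le_pow_left₀ (mul_nonneg (le_max_left _ _) (sqrt_nonneg _)) a 2
  rw [mul_pow, mul_pow, sq_sqrt hs, sq_sqrt (hs.trans h)] at b
  unfold gS
  linarith

theorem gS_two (hσ : 0 ≤ σ) (hs : 0 ≤ s) (h : t ≤ 2 * s) : gS σ t ≤ 2 * gS σ s := by
  rcases hs.eq_or_lt with e | e
  · subst e
    rw [gS_zero hσ]; linarith [gS_le σ t]
  · refine (gS_mono hσ h).trans (le_of_mul_le_mul_right ?_ e)
    linarith [gS_conc hσ hs (show s ≤ 2 * s by linarith)]

theorem gS_ge (hσ : 0 ≤ σ) (ht : 0 ≤ t) : min t (σ * √t) ≤ gS σ t := by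
  rcases le_total √t σ with e | e
  · rw [gS_lo e]; exact min_le_left _ _
  · rw [gS_hi ht e]
    refine (min_le_right _ _).trans ?_
    nlinarith [mul_le_mul_of_nonneg_left e hσ]

theorem gS_le_two (hσ : 0 ≤ σ) (ht : 0 ≤ t) : gS σ t ≤ 2 * σ * √t := by
  rcases le_total √t σ with e | e
  · rw [gS_lo e]
    nlinarith [sq_sqrt ht, mul_le_mul_of_nonneg_right e (sqrt_nonneg t),
      mul_nonneg hσ (sqrt_nonneg t)]
  · rw [gS_hi ht e]; linarith [sq_nonneg σ]

/-- the graded shape with its cut -/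
def wG (k σ y t : ℝ) : ℝ := k * gS σ t * (1 - sm (t / y - 1))
/-- `k t g(t)` -/
def mG (k σ t : ℝ) : ℝ := k * t * gS σ t

theorem wG_lo (k σ : ℝ) (hy : 0 < y) (ht : t ≤ y) : wG k σ y t = k * gS σ t := by
  unfold wG; rw [sm_lo (by rw [sub_nonpos, div_le_one hy]; exact ht)]; ring

theorem wG_hi (k σ : ℝ) (hy : 0 < y) (ht : 2 * y ≤ t) : wG k σ y t = 0 := by
  unfold wG; rw [sm_hi (by rw [le_sub_iff_add_le, le_div_iff₀ hy]; linarith)]; ring

theorem wG_mem (hk : 0 ≤ k) (hσ : 0 ≤ σ) (y : ℝ) (ht : 0 ≤ t) :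
    0 ≤ wG k σ y t ∧ wG k σ y t ≤ k * gS σ t := by
  obtain ⟨a, b⟩ := sm_mem (t / y - 1)
  have := mul_nonneg hk (gS_nn hσ ht)
  exact ⟨mul_nonneg this (by linarith), mul_le_of_le_one_right this (by linarith)⟩

theorem wG_sh (hk : 0 ≤ k) (hσ : 0 ≤ σ) (hy : 0 < y) : Sh (2 * y) (4 * k) (wG k σ y) := by
  have k1 : ∀ s t, 0 ≤ s → s ≤ t → t ≤ 2 * y → |wG k σ y t - wG k σ y s| ≤ 4 * k * (t - s) := by
    intro s t hs hst ht
    obtain ⟨a, b⟩ := sm_inc (show s / y - 1 ≤ t / y - 1 by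
      linarith [div_le_div_of_nonneg_right hst hy.le])
    obtain ⟨c, d⟩ := sm_mem (t / y - 1)
    obtain ⟨g1, g2⟩ := gS_inc hσ hst
    have e : wG k σ y t - wG k σ y s = k * ((gS σ t - gS σ s) * (1 - sm (t / y - 1)) -
        gS σ s * (sm (t / y - 1) - sm (s / y - 1))) := by
      unfold wG; ring
    have f1 := mul_nonneg g1 (sub_nonneg.2 d)
    have f2 := mul_le_of_le_one_right g1 (show 1 - sm (t / y - 1) ≤ 1 by linarith)
    have f3 := mul_nonneg (gS_nn hσ hs) a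
    have f4 := mul_le_mul (((gS_le σ s).trans hst).trans ht) b a (by linarith)
    rw [show 2 * y * (3 / 2 * (t / y - 1 - (s / y - 1))) = 3 * (t - s) by field_simp; ring] at f4
    rw [e, abs_mul, abs_of_nonneg hk, show 4 * k * (t - s) = k * (4 * (t - s)) by ring]
    refine mul_le_mul_of_nonneg_left ?_ hk
    rw [abs_le]; constructor <;> linarith
  have k2 : ∀ s t, s ≤ t → |wG k σ y t - wG k σ y s| ≤ 4 * k * (t - s) := by
    intro s t hst
    have p : 0 ≤ k * (t - s) := mul_nonneg hk (sub_nonneg.2 hst)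
    rcases le_total s 0 with a | a
    · rw [wG_lo k σ hy (a.trans hy.le), gS_neg hσ a]
      have q := mul_nonneg hk (neg_nonneg.2 a)
      rcases le_total t 0 with b | b
      · rw [wG_lo k σ hy (b.trans hy.le), gS_neg hσ b, abs_le]; constructor <;> linarith
      · obtain ⟨c, d⟩ := wG_mem hk hσ y b
        have := mul_le_mul_of_nonneg_left (gS_le σ t) hk
        rw [abs_le]; constructor <;> linarith
    · rcases le_total t (2 * y) with b | b
      · exact k1 s t a hst b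
      · rcases le_total s (2 * y) with c | c
        · have := k1 s (2 * y) a c le_rfl
          rw [wG_hi k σ hy le_rfl] at this
          rw [wG_hi k σ hy b]
          exact this.trans (mul_le_mul_of_nonneg_left (by linarith) (by linarith))
        · rw [wG_hi k σ hy b, wG_hi k σ hy c, sub_zero, abs_zero]; linarith
  refine ⟨by simp [wG, gS_zero hσ], fun t ht => (wG_mem hk hσ y ht).1, fun t ht => wG_hi k σ hy ht,
    fun s t => ?_⟩
  rcases le_total s t with h | h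
  · rw [abs_sub_comm, abs_sub_comm s t, abs_of_nonneg (sub_nonneg.2 h)]; exact k2 s t h
  · rw [abs_of_nonneg (sub_nonneg.2 h)]; exact k2 t s h

theorem mG_nn (hk : 0 ≤ k) (hσ : 0 ≤ σ) (ht : 0 ≤ t) : 0 ≤ mG k σ t :=
  mul_nonneg (mul_nonneg hk ht) (gS_nn hσ ht)

theorem mG_mono (hk : 0 ≤ k) (hσ : 0 ≤ σ) (hs : 0 ≤ s) (h : s ≤ t) : mG k σ s ≤ mG k σ t :=
  mul_le_mul (mul_le_mul_of_nonneg_left h hk) (gS_mono hσ h) (gS_nn hσ hs)
    (mul_nonneg hk (hs.trans h))

theorem mG_two (hk : 0 ≤ k) (hσ : 0 ≤ σ) (hs : 0 ≤ s) (ht : 0 ≤ t) (h : t ≤ 2 * s) :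
    mG k σ t ≤ 4 * mG k σ s := by
  have := mul_le_mul (mul_le_mul_of_nonneg_left h hk) (gS_two hσ hs h) (gS_nn hσ ht)
    (by positivity)
  unfold mG; linarith

theorem mG_conc (hk : 0 ≤ k) (hσ : 0 ≤ σ) (hs : 0 ≤ s) (h : s ≤ t) :
    mG k σ t * s ^ 2 ≤ mG k σ s * t ^ 2 := by
  have := mul_le_mul_of_nonneg_left (gS_conc hσ hs h)
    (mul_nonneg hk (mul_nonneg hs (hs.trans h)))
  unfold mG; linarith

theorem Ms_le (hk : 0 ≤ k) (hσ : 0 ≤ σ) (hy : 0 < y) (ht : 0 ≤ t) :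
    Ms (wG k σ y) t ≤ mG k σ t := by
  have := intervalIntegral.integral_mono_on (μ := volume) ht
    ((wG_sh hk hσ hy).cont.intervalIntegrable _ _)
    (intervalIntegrable_const (c := k * gS σ t)) fun s hs =>
      (wG_mem hk hσ y hs.1).2.trans (mul_le_mul_of_nonneg_left (gS_mono hσ hs.2) hk)
  rw [intervalIntegral.integral_const, smul_eq_mul] at this
  unfold Ms mG; linarith

theorem Ms_ge (hk : 0 ≤ k) (hσ : 0 ≤ σ) (hy : 0 < y) (ht : 0 ≤ t) :
    mG k σ (min t y) / 2 ≤ Ms (wG k σ y) t := by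
  have u0 : 0 ≤ min t y := le_min ht hy.le
  refine le_trans ?_ ((wG_sh hk hσ hy).Ms_mono u0 (min_le_left _ _))
  have u1 : min t y ≤ y := min_le_right _ _
  generalize min t y = u at *
  rcases u0.eq_or_lt with e | e
  · subst e; simp [mG, Ms]
  have := intervalIntegral.integral_mono_on (μ := volume) u0
    ((continuous_id'.intervalIntegrable _ _).const_mul (k * gS σ u / u))
    ((wG_sh hk hσ hy).cont.intervalIntegrable _ _) fun s hs => by
      rw [wG_lo k σ hy (hs.2.trans u1), div_mul_eq_mul_div, div_le_iff₀ e]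
      linarith [mul_le_mul_of_nonneg_left (gS_conc hσ hs.1 hs.2) hk]
  rw [intervalIntegral.integral_const_mul, integral_id] at this
  refine le_trans (le_of_eq ?_) this
  unfold mG; field_simp; ring

theorem omG_eq (p : Pm) (σ : ℝ) : p.omG σ = omw (wG p.κ σ p.ye) p.v := rfl
theorem epsG_eq (p : Pm) (σ : ℝ) : p.epsG σ = mG p.κ σ p.r := rfl
theorem muG_eq (p : Pm) (σ : ℝ) : p.muG σ = mG p.κ σ p.ye := rfl
theorem msG_eq (p : Pm) (σ t : ℝ) : p.msG σ t = mG p.κ σ (max p.r (min t p.ye)) := rfl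

/-- displaced mass from a sup bound -/
theorem DD_sup {b0 c C η v Y L B : ℝ} {J : ℕ} {z om : ℕ → ℝ} (h : Base b0 c C η v J z) (hC : 0 ≤ C)
    (ho : Om v Y L om) (hY : 0 ≤ Y) (hJ : Y ≤ J * v) (hB : ∀ j : ℕ, j * v ≤ Y → om j ≤ B) :
    ∀ N : ℕ, DD z N 0 om ≤ C * B * min (N * v) Y
  | 0 => by simp [DD, hY]
  | N + 1 => by
    have ih := DD_sup h hC ho hY hJ hB N
    have hv := h.v_pos
    have B0 : 0 ≤ B := (ho.nn 0).trans (hB 0 (by simpa using hY))
    unfold DD at ih ⊢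
    rw [Finset.sum_range_succ, Pi.zero_apply, sub_zero, abs_of_nonneg (ho.nn _)]
    have k0 : 0 ≤ C * B := by positivity
    rcases le_or_gt Y (((N + 1 : ℕ) : ℝ) * v) with a | a
    · rw [ho.supp _ a, mul_zero, add_zero, min_eq_right a]
      exact ih.trans (mul_le_mul_of_nonneg_left (min_le_right _ _) k0)
    · have b : N + 1 < J := by
        have := lt_of_mul_lt_mul_right (a.trans_le hJ) hv.le
        exact_mod_cast this
      have d := mul_le_mul (h.slo N b).2 (hB (N + 1) a.le) (ho.nn _) (by positivity)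
      rw [min_eq_left a.le]
      have e := mul_le_mul_of_nonneg_left (min_le_left ((N : ℝ) * v) Y) k0
      push_cast
      linarith

/-- numerics -/
theorem ev_gr (β c0 C0 : ℝ) {A : ℕ} (hA : 2 ≤ A) {c : ℝ} (hc : 0 < c) (hc' : c ≤ 1 / 200) :
    ∀ᶠ n : ℕ in atTop, All β c0 C0 A c n fun p => p.r ≤ p.ye ∧ √p.v ≤ p.μ0 * (p.r * √p.r) ∧
      (p.n : ℝ) ^ (-(1 : ℝ)) ≤ p.μ0 * (p.r * √p.r) := by
  have e1 := ((tendsto_rpow_atTop (show (0:ℝ) < 1 / 10 by norm_num)).comp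
    tendsto_natCast_atTop_atTop).eventually_ge_atTop (β ^ 2)
  filter_upwards [e1, eventually_ge_atTop 1] with n h1 h6
  intro p hβ hn hA' hc'' hp
  simp only [Function.comp] at h1
  have n1 : (1:ℝ) ≤ n := by exact_mod_cast h6
  have n0 : (0:ℝ) < n := by linarith
  have mono : ∀ {a b : ℝ}, a ≤ b → (n:ℝ) ^ a ≤ (n:ℝ) ^ b := fun h => rpow_le_rpow_of_exponent_le n1 h
  have s1 := hp.s1
  have s2 := hp.s2
  have v1 : p.v ≤ (n:ℝ) ^ (-(19:ℝ) / 10) := by
    unfold Pm.v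
    rw [hn, hA', hβ, div_le_iff₀ (by positivity)]
    refine h1.trans ?_
    refine le_trans ?_ (mul_le_mul_of_nonneg_left (pow_le_pow_right₀ n1 hA) (by positivity))
    rw [← rpow_natCast, ← rpow_add n0]
    exact mono (by norm_num)
  have r1 : (n:ℝ) ^ (-(1:ℝ) / 6) ≤ p.r := by
    unfold Pm.r
    rw [hn, hc'']
    exact (mono (by linarith)).trans (le_mul_of_one_le_left (by positivity) s1)
  have r2 : (n:ℝ) ^ (-(1:ℝ) / 12) ≤ √p.r := by
    refine le_sqrt_of_sq_le (le_trans (le_of_eq ?_) r1)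
    rw [← rpow_natCast, ← rpow_mul n0.le]; norm_num
  have r3 : (n:ℝ) ^ (-(19:ℝ) / 20) ≤ p.μ0 * (p.r * √p.r) := by
    have a := mul_le_mul r1 r2 (by positivity) (le_trans (by positivity) r1)
    unfold Pm.μ0
    rw [hn, hc'']
    refine le_trans ?_ (mul_le_mul_of_nonneg_left a (by positivity))
    rw [← rpow_add n0, ← rpow_add n0]
    exact mono (by linarith)
  refine ⟨?_, le_trans ?_ r3, le_trans ?_ r3⟩
  · unfold Pm.r Pm.ye Pm.κ
    rw [hn] at s2
    rw [hn, hc'']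
    refine (mul_le_mul_of_nonneg_right s2 (rpow_nonneg n0.le _)).trans ?_
    rw [← rpow_add n0, ← rpow_natCast, ← rpow_mul n0.le]
    exact mono (by push_cast; linarith)
  · refine Real.sqrt_le_iff.2 ⟨by positivity, v1.trans (le_of_eq ?_)⟩
    rw [← rpow_natCast, ← rpow_mul n0.le]; norm_num
  · rw [hn]; exact mono (by norm_num)

end PG3

open PP3 PG3

/-- **static facts on the graded profiles** -/
def P1G (C : ℝ) (p : Pm) : Prop := ∀ σ, p.MemG σ →
  (0 < σ ∧ 0 < p.κ ∧ 0 < p.r ∧ p.r ≤ p.ye ∧ 4 * p.κ ≤ 1 / 2 ∧ 2 * p.ye ≤ p.J * p.v) ∧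
  (Om p.v (2 * p.ye) (4 * p.κ) (p.omG σ) ∧ Pr.Ok (p.lG σ) ∧
    TT (p.lG σ) = ((p.J + p.Nr : ℕ) : ℝ) * p.v ∧ DD p.z p.J 0 (p.omG σ) ≤ C * p.muG σ) ∧
  (3 / 4 ≤ p.bG σ ∧ p.bG σ ≤ p.β ^ 2 ∧ p.muG σ / C ≤ 1 - p.bG σ / p.β ^ 2 ∧
    1 - p.bG σ / p.β ^ 2 ≤ C * p.muG σ) ∧
  (∀ t ∈ Icc 0 (p.J * p.v), p.msG σ t / C ≤ ee (p.lG σ) (p.epsG σ) t ∧
    ee (p.lG σ) (p.epsG σ) t ≤ C * p.msG σ t ∧ ee (p.lG σ) (p.epsG σ) t ≤ 1 / 2) ∧
  (∀ t ∈ Icc (p.J * p.v) ((p.J + p.Nr : ℕ) * p.v),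
    1 - exp (-((t - p.J * p.v) / 2)) * (1 - p.muG σ / C) ≤ ee (p.lG σ) (p.epsG σ) t ∧
    p.muG σ / C ≤ ee (p.lG σ) (p.epsG σ) t ∧ ee (p.lG σ) (p.epsG σ) t ≤ 1) ∧
  (∀ t, 0 ≤ t → t < p.J * p.v → ∀ s0, 0 < s0 → s0 ≤ p.r →
    |Pr.NN (p.lG σ) t - 2 * lvr 1 (p.lG σ) t * Pr.AA (p.lG σ) t| ≤ C * (p.msG σ t / max t s0)) ∧
  (Monotone (p.msG σ) ∧ (∀ s t, t ≤ 2 * s → p.msG σ t ≤ 4 * p.msG σ s) ∧
    (∀ t, p.epsG σ ≤ p.msG σ t ∧ p.msG σ t ≤ p.muG σ) ∧ (∀ t, p.ye ≤ t → p.msG σ t = p.muG σ) ∧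
    √p.v ≤ p.epsG σ ∧ (p.n : ℝ) ^ (-(1 : ℝ)) ≤ p.epsG σ ∧ p.μ0 ≤ p.muG σ ∧ p.muG σ ≤ p.κ)

set_option maxHeartbeats 1000000 in
theorem p1G (β : ℝ) (hβ : 1 < β) : Cst β P1G := by
  intro c0 C0 hc0 hC0
  have hb : 1 ≤ β ^ 2 := one_le_pow₀ hβ.le
  obtain ⟨c2, C2, Y0, η0, hc2, hc21, hC2, hY0, hY1, hη0, H⟩ := famE (β ^ 2) c0 C0 (β ^ 2) hb hc0 hC0
  obtain ⟨K, hK1, hK⟩ := gpO β hβ c0 C0 hc0 hC0
  obtain ⟨B, hB'⟩ : ∃ B, B = 2 * β ^ 2 + 4 * C0 * (4 + β ^ 2 * β ^ 2) + 8 := ⟨_, rfl⟩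
  have B0 : 0 ≤ B := by rw [hB']; positivity
  obtain ⟨C, hC⟩ : ∃ C, C = 2 / c2 + 6 * C2 + 4 * C0 + K * B := ⟨_, rfl⟩
  have q2 : 0 < 2 / c2 := by positivity
  have q3 : 0 ≤ K * B := by positivity
  have C1 : 1 ≤ C := by linarith
  have Cp : 0 < C := by linarith
  have Cc : 1 ≤ c2 / 2 * C := by
    have := mul_le_mul_of_nonneg_left (show 2 / c2 ≤ C by linarith) (show 0 ≤ c2 / 2 by positivity)
    rwa [show c2 / 2 * (2 / c2) = 1 by field_simp] at this
  obtain ⟨δ, hδ, hd⟩ := exists_del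
    ![1 / 8, Y0 / 2, 1 / (32 * C2), η0, 1 / (C2 * (C0 + 1)), 1, 1] (by
      intro i; fin_cases i <;> simp <;> positivity)
  have d0 : δ ≤ 1 / 8 := hd 0
  have d1 : δ ≤ Y0 / 2 := hd 1
  have d2 : δ * (32 * C2) ≤ 1 := (le_div_iff₀ (by positivity)).1 (hd 2)
  have d3 : δ ≤ η0 := hd 3
  have d4 : δ * (C2 * (C0 + 1)) ≤ 1 := (le_div_iff₀ (by positivity)).1 (hd 4)
  clear hd
  refine ⟨C, C1, fun A hA c hc hc' => ?_⟩
  filter_upwards [ev_small β c0 C0 hA hc hc' hδ, ev_gr β c0 C0 hA hc hc', hK A hA c hc hc'] with n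
    hS hG hq p hβ' hn hA' hc'' hp σ hm
  have S := hS p hβ' hn hA' hc'' hp
  obtain ⟨ry, g1, g2⟩ := hG p hβ' hn hA' hc'' hp
  obtain ⟨⟨q6, -, -, -, -, YJ⟩, HO⟩ := hq p hβ' hn hA' hc'' hp
  clear hS hG hq hK
  subst hβ'
  have n0 : (0:ℝ) < p.n := by linarith [S.n1]
  have k0 : 0 < p.κ := rpow_pos_of_pos n0 _
  have r0 : 0 < p.r := mul_pos (by linarith [hp.s1]) (rpow_pos_of_pos n0 _)
  have m0 : 0 < p.μ0 := rpow_pos_of_pos n0 _
  have y0 : 0 < p.ye := r0.trans_le ry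
  have yd := S.ye
  have kd := S.κ
  have rd := S.r
  have sy : 0 < √p.ye := sqrt_pos.2 y0
  have sy1 : √p.ye ≤ 1 := sqrt_le_one.2 (by linarith)
  have sr1 : √p.r ≤ 1 := sqrt_le_one.2 (by linarith)
  have sr0 := sqrt_nonneg p.r
  have e0 : p.κ * p.ye * √p.ye * p.sg0 = p.μ0 := by unfold Pm.sg0; field_simp
  have σ00 : 0 < p.sg0 := by unfold Pm.sg0; positivity
  have σ0 : 0 < σ := σ00.trans_le hm.1
  have hB := hp.base
  have hv := hB.v_pos
  have μκ := S.μκ
  -- the smallest mass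
  have E1 : p.μ0 * (p.r * √p.r) ≤ p.epsG σ := by
    have a := mul_le_mul_of_nonneg_left (gS_ge σ0.le r0.le) (show 0 ≤ p.κ * p.r by positivity)
    refine le_trans ?_ a
    rcases le_total p.r (σ * √p.r) with e | e
    · rw [min_eq_left e]
      have := mul_le_of_le_one_right m0.le (mul_le_one₀ (show p.r ≤ 1 by linarith) sr0 sr1)
      linarith
    · rw [min_eq_right e, ← e0]
      have a1 : p.ye * √p.ye * p.sg0 ≤ σ :=
        (mul_le_of_le_one_left σ00.le (mul_le_one₀ (by linarith) sy.le sy1)).trans hm.1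
      linarith [mul_le_mul_of_nonneg_left a1 (show 0 ≤ p.κ * (p.r * √p.r) by positivity)]
  have E2 : p.μ0 ≤ p.muG σ := by
    have a := mul_le_mul_of_nonneg_left (gS_ge σ0.le y0.le) (show 0 ≤ p.κ * p.ye by positivity)
    refine le_trans ?_ a
    rcases le_total p.ye (σ * √p.ye) with e | e
    · rw [min_eq_left e]
      linarith [mul_le_mul_of_nonneg_left (pow_le_pow_left₀ r0.le ry 2) k0.le]
    · rw [min_eq_right e, ← e0]
      linarith [mul_le_mul_of_nonneg_left hm.1 (show 0 ≤ p.κ * p.ye * √p.ye by positivity)]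
  have E3 : p.muG σ ≤ p.κ * (1 / 64) := by
    have a := mul_le_mul (show p.ye ≤ 1 / 8 by linarith)
      ((gS_le σ p.ye).trans (show p.ye ≤ 1 / 8 by linarith)) (gS_nn σ0.le y0.le) (by norm_num)
    have := mul_le_mul_of_nonneg_left a k0.le
    unfold Pm.muG; linarith
  have sv := sqrt_nonneg p.v
  have ve : √p.v ≤ p.epsG σ := g1.trans E1
  have T0 : ∀ t, 0 ≤ max p.r (min t p.ye) := fun t => le_max_of_le_left r0.le
  have u1 : ∀ t, p.epsG σ ≤ p.msG σ t := fun t => mG_mono k0.le σ0.le r0.le (le_max_left _ _)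
  have u2 : ∀ t, p.msG σ t ≤ p.muG σ := fun t =>
    mG_mono k0.le σ0.le (T0 t) (max_le ry (min_le_right _ _))
  have u3 : ∀ t, p.ye ≤ t → p.msG σ t = p.muG σ := fun t ht => by
    rw [msG_eq, min_eq_right ht, max_eq_right ry]; rfl
  have ep0 : 0 < p.epsG σ := lt_of_lt_of_le (by positivity) E1
  have ms0 : ∀ t, 0 ≤ p.msG σ t := fun t => ep0.le.trans (u1 t)
  have μ0' : 0 < p.muG σ := m0.trans_le E2
  have sh := wG_sh k0.le σ0.le y0
  have hL : 4 * p.κ ≤ 1 / 2 := by linarith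
  have η0' := hB.eta_nn
  have ηv : C0 / (p.n : ℝ) ^ p.A + p.v ≤ δ := S.ηv.trans (mul_le_of_le_one_right hδ.le S.μ1)
  have MY : Ms (wG p.κ σ p.ye) (2 * p.ye) ≤ 4 * p.muG σ :=
    (Ms_le k0.le σ0.le y0 (by linarith)).trans (mG_two k0.le σ0.le y0.le (by linarith) le_rfl)
  have MY' : p.muG σ / 2 ≤ Ms (wG p.κ σ p.ye) (2 * p.ye) := by
    have := Ms_ge k0.le σ0.le y0 (t := 2 * p.ye) (by linarith)
    rwa [min_eq_right (by linarith)] at this
  have C20 : 0 ≤ C2 := by linarith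
  have hyp : ∀ t ∈ Icc 0 (2 * p.ye), C2 * (Ms (wG p.κ σ p.ye) (2 * p.ye) * t ^ 2) ≤
      mG p.κ σ (min t p.ye) / 2 := fun t ht => by
    have a0 : 0 ≤ min t p.ye := le_min ht.1 y0.le
    have a1 : t ≤ 2 * min t p.ye := by
      rcases le_total t p.ye with a | a
      · rw [min_eq_left a]; linarith [ht.1]
      · rw [min_eq_right a]; exact ht.2
    have a2 := mul_le_mul MY (pow_le_pow_left₀ ht.1 a1 2) (sq_nonneg t) (by positivity)
    have a3 := mG_conc k0.le σ0.le a0 (min_le_right t p.ye)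
    rw [← muG_eq] at a3
    have a4 : p.ye ^ 2 * (32 * C2) ≤ 1 := by
      refine (mul_le_mul_of_nonneg_right ?_ (by positivity)).trans d2
      have := mul_le_mul yd (show p.ye ≤ 1 by linarith) y0.le hδ.le
      linarith
    have a5 := mul_le_mul_of_nonneg_right a4 (mG_nn k0.le σ0.le a0)
    have a6 := mul_le_mul_of_nonneg_left a2 C20
    have a7 := mul_le_mul_of_nonneg_left a3 C20
    linarith only [a5, a6, a7]
  obtain ⟨⟨o1, o2, o3, b1, b2⟩, h1, h2, -, -⟩ := H _ _ _ _ hB (by linarith) p.J (wG p.κ σ p.ye)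
    (2 * p.ye) (4 * p.κ) (p.epsG σ) 0 le_rfl hB.hi sh (by linarith) (by linarith) hL
    (fun t ht => (hyp t ht).trans (Ms_ge k0.le σ0.le y0 ht.1))
    (by
      rw [zero_pow two_ne_zero, mul_zero, add_zero]
      have a1 : C0 / (p.n : ℝ) ^ p.A ≤ C0 * p.v := by
        unfold Pm.v
        rw [← mul_div_assoc]
        exact div_le_div_of_nonneg_right (le_mul_of_one_le_right (by linarith) hb) (by positivity)
      have a2 : √p.v ≤ δ := by
        have := mul_le_mul kd (pow_le_one₀ r0.le (show p.r ≤ 1 by linarith) (n := 2))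
          (sq_nonneg _) hδ.le
        linarith
      have a3 := mul_le_mul a2 ve sv hδ.le
      rw [mul_self_sqrt hv.le] at a3
      have a4 := mul_le_mul_of_nonneg_left a3 (show 0 ≤ C2 * (C0 + 1) by positivity)
      have a5 := mul_le_mul_of_nonneg_right d4 ep0.le
      have a6 := mul_le_mul_of_nonneg_left a1 C20
      linarith only [a4, a5, a6])
    (by linarith [u1 0, u2 0])
  clear H
  have hom : Om p.v (2 * p.ye) (4 * p.κ) (p.omG σ) := sh.om hv
  have JN : p.J * p.v ≤ ((p.J + p.Nr : ℕ) : ℝ) * p.v :=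
    mul_le_mul_of_nonneg_right (Nat.cast_le.2 (Nat.le_add_right _ _)) hv.le
  obtain ⟨ok, tt⟩ := lo_ok areaS (hB.lab.up (Nat.le_add_right _ p.Nr)) hom hv hL (o3.trans JN)
  change Pr.Ok (p.lG σ) at ok
  change TT (p.lG σ) = _ at tt
  have xb : p.bG σ = bb (lo p.z p.v (omw (wG p.κ σ p.ye) p.v) p.J) (p.epsG σ) :=
    ext_bb hB.lab (hom.sm hv hL) o1 p.Nr _
  have xe : ∀ t, t ≤ p.J * p.v → ee (p.lG σ) (p.epsG σ) t =
      ee (lo p.z p.v (omw (wG p.κ σ p.ye) p.v) p.J) (p.epsG σ) t := fun t ht =>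
    ext_ee hB.lab (hom.sm hv hL) o1 p.Nr _ (ht.trans_eq o2.symm)
  have top := fun s (hs : p.J * p.v ≤ s) =>
    lvr_top areaS hB.lab (Nat.le_add_right _ p.Nr) hom hv hL hs
  unfold thh at h2
  rw [← xb] at b1 b2 h2
  have hee : ∀ t ∈ Icc 0 (p.J * p.v), c2 / 2 * p.msG σ t ≤ ee (p.lG σ) (p.epsG σ) t ∧
      ee (p.lG σ) (p.epsG σ) t ≤ 6 * C2 * p.msG σ t ∧ ee (p.lG σ) (p.epsG σ) t ≤ 1 / 2 := by
    intro t ht
    obtain ⟨a1, a2, a3, a4⟩ := h1 t ht
    rw [xe t ht.2]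
    have m1 : 0 ≤ min t p.ye := le_min ht.1 y0.le
    have w2 : mG p.κ σ (min t p.ye) ≤ p.msG σ t := mG_mono k0.le σ0.le m1 (le_max_right _ _)
    refine ⟨le_trans ?_ a1, ?_, a4⟩
    · have w3 := Ms_ge k0.le σ0.le y0 ht.1
      have w4 : p.msG σ t ≤ p.epsG σ + mG p.κ σ (min t p.ye) := by
        have v2 := mG_nn k0.le σ0.le m1
        rw [msG_eq]
        rcases le_total p.r (min t p.ye) with b | b
        · rw [max_eq_right b]; linarith
        · rw [max_eq_left b, ← epsG_eq]; linarith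
      have := mul_le_mul_of_nonneg_left (show p.msG σ t / 2 ≤ p.epsG σ + Ms (wG p.κ σ p.ye) t by
        linarith) hc2.le
      linarith only [this]
    · rcases le_total t p.ye with b | b
      · have w5 := hyp t ⟨ht.1, by linarith⟩
        rw [min_eq_left b] at w2 w5
        have w3 := (Ms_le k0.le σ0.le y0 (t := 2 * t) (by linarith [ht.1])).trans
          (mG_two k0.le σ0.le ht.1 (by linarith [ht.1]) le_rfl)
        have w6 := le_mul_of_one_le_left (mul_nonneg (sh.Ms_nn (t := 2 * p.ye) (by linarith))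
          (sq_nonneg t)) hC2
        have := mul_le_mul_of_nonneg_left (show p.epsG σ + Ms (wG p.κ σ p.ye) (2 * t) +
          Ms (wG p.κ σ p.ye) (2 * p.ye) * t ^ 2 ≤ 6 * p.msG σ t by
            linarith only [u1 t, w2, w3, w5, w6, ms0 t]) C20
        linarith only [this, a2]
      · have := mul_le_mul_of_nonneg_left (show p.epsG σ + Ms (wG p.κ σ p.ye) (2 * p.ye) ≤
          6 * p.msG σ t by linarith only [u1 t, u3 t b, MY, ms0 t]) C20
        linarith only [this, a3]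
  have CC : ∀ x, 0 ≤ x → 6 * C2 * x ≤ C * x := fun x hx =>
    mul_le_mul_of_nonneg_right (by linarith) hx
  have th1 : p.muG σ / C ≤ 1 - p.bG σ / p.β ^ 2 := by
    refine (dv μ0'.le Cp Cc).trans (le_trans ?_ h2.1)
    have := mul_le_mul_of_nonneg_left (show p.muG σ / 2 ≤ p.epsG σ +
      Ms (wG p.κ σ p.ye) (2 * p.ye) by linarith only [MY', ep0]) hc2.le
    linarith only [this]
  have dd : DD p.z p.J 0 (p.omG σ) ≤ 4 * C0 * p.muG σ := by
    have a := (DD_sup hB (by linarith) hom (by linarith) o3 (B := p.κ * gS σ (2 * p.ye))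
      (fun j hj => (wG_mem k0.le σ0.le p.ye (by positivity)).2.trans
        (mul_le_mul_of_nonneg_left (gS_mono σ0.le hj) k0.le)) p.J).trans
      (mul_le_mul_of_nonneg_left (min_le_right _ _)
        (mul_nonneg (by linarith) (mul_nonneg k0.le (gS_nn σ0.le (by linarith)))))
    have b := mul_le_mul_of_nonneg_left (mG_two k0.le σ0.le y0.le (t := 2 * p.ye) (by linarith)
      le_rfl) (show 0 ≤ C0 by linarith)
    rw [← muG_eq] at b
    unfold mG at b
    linarith only [a, b]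
  have μC : 0 ≤ p.muG σ / C := by positivity
  refine ⟨⟨σ0, k0, r0, ry, hL, YJ⟩, ⟨hom, ok, tt, dd.trans
      (mul_le_mul_of_nonneg_right (by linarith) μ0'.le)⟩, ⟨b1, ?_, th1, h2.2.trans ?_⟩,
    fun t ht => ⟨(dv (ms0 t) Cp Cc).trans (hee t ht).1, (hee t ht).2.1.trans (CC _ (ms0 t)),
      (hee t ht).2.2⟩, fun t ht => ?_, fun t t0 t1 s0 s1 s2 => ?_,
    fun s t h => mG_mono k0.le σ0.le (T0 s) (max_le_max le_rfl (min_le_min h le_rfl)),
    fun s t h => mG_two k0.le σ0.le (T0 s) (T0 t) (mx_two r0.le y0.le h),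
    fun t => ⟨u1 t, u2 t⟩, u3, ve, g2.trans E1, E2, by linarith⟩
  · exact (div_le_one (by positivity)).1 (by linarith only [th1, μC])
  · have := mul_le_mul_of_nonneg_left (show p.epsG σ + Ms (wG p.κ σ p.ye) (2 * p.ye) ≤
      6 * p.muG σ by linarith only [MY, u1 0, u2 0, μ0']) C20
    linarith only [this, CC _ μ0'.le]
  · have J0 : 0 ≤ p.J * p.v := by positivity
    have a1 := (platS _ ok _ t J0 ht.1 (ht.2.trans_eq tt.symm) top).1
    have a2 := (hee _ ⟨J0, le_rfl⟩).1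
    rw [u3 _ (by linarith only [o3, y0])] at a2
    have a3 := (dv μ0'.le Cp Cc).trans a2
    have a4 := mul_le_mul_of_nonneg_left a1 (show 0 ≤ p.bG σ by linarith only [b1])
    have a5 := mul_le_mul_of_nonneg_left a3 (exp_pos (-((t - p.J * p.v) / 2))).le
    have a6 : exp (-((t - p.J * p.v) / 2)) ≤ 1 := exp_le_one_iff.2 (by linarith only [ht.1])
    have a7 : p.muG σ / C ≤ 1 := (div_le_one Cp).2 (by linarith)
    have a8 := mul_le_of_le_one_left (sub_nonneg.2 a7) a6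
    have a9 := mul_nonneg (show 0 ≤ p.bG σ by linarith only [b1]) (Ode3.Gp_nonneg (p.lG σ) t)
    have a10 : 1 - exp (-((t - p.J * p.v) / 2)) * (1 - p.muG σ / C) ≤
        ee (p.lG σ) (p.epsG σ) t := by
      unfold ee at a5 ⊢
      unfold Pm.bG at a4
      linarith only [a4, a5]
    refine ⟨a10, by linarith only [a10, a8], ?_⟩
    unfold ee
    exact sub_le_self _ a9
  · have hm0 : 0 < max t s0 := lt_max_of_lt_right s1
    have G := ((HO p.Nr _ _ _ hom (by linarith) le_rfl hL).2.2.2 t t0 t1).2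
    change ∀ ω, _ → |Pr.NN (p.lG σ) t - 2 * lvr 1 (p.lG σ) t * Pr.AA (p.lG σ) t| ≤ _ at G
    have tb : t ≤ p.β ^ 2 := t1.le.trans hB.hi
    obtain ⟨R, hR⟩ : ∃ R, R = p.msG σ t / max t s0 := ⟨_, rfl⟩
    have R1 : R * max t s0 = p.msG σ t := by rw [hR]; field_simp
    have R0 : 0 ≤ R := by rw [hR]; exact div_nonneg (ms0 t) hm0.le
    rw [← hR]
    have f1 : √p.v ≤ p.β ^ 2 * R := by
      have := mul_le_mul_of_nonneg_left (max_le tb (show s0 ≤ p.β ^ 2 by linarith)) R0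
      linarith only [this, R1, ve, u1 t]
    have gt := gS_nn σ0.le t0
    have f2 : t ≤ 2 * p.ye → p.κ * gS σ t ≤ 4 * R := fun h => by
      rcases le_total t p.r with a | a
      · have b1 := mul_le_mul_of_nonneg_left (max_le a s2) R0
        have b2 := mul_le_mul_of_nonneg_left (gS_mono σ0.le a) (show 0 ≤ p.κ * p.r by positivity)
        have b3 := u1 t
        unfold Pm.epsG at b3
        have : p.κ * gS σ t ≤ R := le_of_mul_le_mul_right (by linarith only [b1, b2, b3, R1]) r0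
        linarith only [this, R0]
      · rw [max_eq_left (s2.trans a)] at R1
        have tp : 0 < t := r0.trans_le a
        rcases le_total t p.ye with b | b
        · rw [msG_eq, min_eq_left b, max_eq_right a] at R1
          unfold mG at R1
          have : p.κ * gS σ t ≤ R := le_of_mul_le_mul_right (by linarith only [R1]) tp
          linarith only [this, R0]
        · rw [u3 t b] at R1
          have b2 := mG_two k0.le σ0.le y0.le t0 h
          rw [← muG_eq] at b2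
          unfold mG at b2
          exact le_of_mul_le_mul_right (by linarith only [R1, b2]) tp
    have f3 : t * p.muG σ ≤ (4 + p.β ^ 2 * p.β ^ 2) * R := by
      have b0 : 0 ≤ p.β ^ 2 * p.β ^ 2 * R := by positivity
      rcases le_total t p.ye with b | b
      · have b1 := mul_le_mul_of_nonneg_left (gS_conc σ0.le t0 b)
          (show 0 ≤ p.κ * p.ye by positivity)
        have b2 := mul_le_of_le_one_right (mul_nonneg k0.le gt)
          (mul_le_one₀ (show p.ye ≤ 1 by linarith) y0.le (show p.ye ≤ 1 by linarith))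
        have b3 := f2 (by linarith)
        unfold Pm.muG
        linarith only [b0, b1, b2, b3]
      · rw [max_eq_left ((s2.trans ry).trans b), u3 t b] at R1
        have b1 := mul_le_mul_of_nonneg_right (mul_le_mul tb tb t0 (by positivity)) R0
        rw [← R1]
        linarith only [b1, R0]
    have f4 : t * DD p.z p.J 0 (p.omG σ) ≤ 4 * C0 * (4 + p.β ^ 2 * p.β ^ 2) * R := by
      have b1 := mul_le_mul_of_nonneg_left dd t0
      have b2 := mul_le_mul_of_nonneg_left f3 (show 0 ≤ 4 * C0 by linarith)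
      linarith only [b1, b2]
    have f5 : p.v ≤ √p.v := by
      have := mul_le_mul_of_nonneg_left (sqrt_le_one.2 (show p.v ≤ 1 by linarith)) sv
      rwa [mul_self_sqrt hv.le, mul_one] at this
    have bR : 0 ≤ p.β ^ 2 * R := by positivity
    refine (G (p.β ^ 2 * R + 8 * R) fun j ja jb => ?_).trans ?_
    · rcases le_total t (2 * p.ye) with a | a
      · have b1 := (wG_mem k0.le σ0.le p.ye (t := j * p.v) (by positivity)).2
        have b2 := mul_le_mul_of_nonneg_left (gS_two σ0.le t0 (t := j * p.v)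
          (by linarith only [hom.sig_ge hv hL j, ja])) k0.le
        change p.omG σ j ≤ _ at b1
        linarith only [b1, b2, f2 a, bR]
      · have b1 := hom.supp (j + 1) (by linarith only [a, jb, hom.sig_le (j + 1)])
        have b2 := (abs_le.1 (hom.lip j)).1
        have b3 := mul_le_mul_of_nonneg_right hL hv.le
        linarith only [b1, b2, b3, f1, f5, R0, hv]
    · have a := mul_le_mul_of_nonneg_left (show √p.v + t * DD p.z p.J 0 (p.omG σ) +
        (p.β ^ 2 * R + 8 * R) ≤ B * R by rw [hB']; linarith only [f1, f4]) (show 0 ≤ K by linarith)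
      have b := mul_le_mul_of_nonneg_right (show K * B ≤ C by linarith) R0
      linarith only [a, b]

end Crest.Agent.T156.Alt

end
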