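import Crest.Agent.T156.AltDef_88
import Crest.Agent.T156.LpB_12

/-!
# Row 156, ALT route: (SD) in class form (helper56)

`|E_{a'} F - E_a F| ≤ Q · sup_t ‖F - c t‖₂` for path functionals of the models `p.L τ y m t`.
-/

set_option autoImplicit false
set_option linter.unusedSectionVars false

noncomputable section

namespace Crest.Agent.T156.Alt.Sd56

open MeasureTheory Real Set Filter Topology
open Crest.Agent.T157.E Crest.Agent.T157.Casc Crest.Agent.T157.SL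
open Crest.Agent.T157.G1 (ov fl FL)
open Crest.Agent.T156.Cas Crest.Agent.T156.Cas.Lp12

/-! ### any model -/

section Gen

variable {Ω : Type} [Fintype Ω] {w : Ω → ℝ} {F G : Pth Ω → ℝ}

theorem EE_sq_sub (hw : Wt w) (L : List (Lv Ω)) (h : Ω → ℝ) (hF : EP F) (c : ℝ) :
    EE w L h (fun ω => (F ω - c) ^ 2) =
      EE w L h (fun ω => F ω ^ 2) - 2 * c * EE w L h F + c ^ 2 := by
  have e : (fun ω => (F ω - c) ^ 2) = fun ω => F ω ^ 2 - 2 * c * F ω + c ^ 2 := by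
    funext ω; ring
  rw [e, EE_add hw L h ((hF.pow 2).sub (hF.const_mul _)) (EP.const _),
    EE_sub hw L h (hF.pow 2) (hF.const_mul _), EE_const_mul, EE_const hw]

/-- Jensen -/
theorem sq_EE_sub (hw : Wt w) (L : List (Lv Ω)) (h : Ω → ℝ) (hF : EP F) (c : ℝ) :
    (EE w L h F - c) ^ 2 ≤ EE w L h fun ω => (F ω - c) ^ 2 := by
  have p : 0 ≤ EE w L h fun ω => (F ω - EE w L h F) ^ 2 := EE_nonneg L h fun _ => sq_nonneg _
  rw [EE_sq_sub hw L h hF] at p ⊢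
  nlinarith

/-- the mean is the best centring -/
theorem var_le (hw : Wt w) (L : List (Lv Ω)) (h : Ω → ℝ) (hF : EP F) (c : ℝ) :
    EE w L h (fun ω => (F ω - EE w L h F) ^ 2) ≤ EE w L h fun ω => (F ω - c) ^ 2 := by
  rw [EE_sq_sub hw L h hF, EE_sq_sub hw L h hF]
  nlinarith [sq_nonneg (EE w L h F - c)]

theorem cT_le (hw : Wt w) (l : Lv Ω) (L : List (Lv Ω)) (h : Ω → ℝ) (hF : EP F) (c : ℝ) :
    cT l (X w L) (fun z => EE w L z fun ω => F (Gf.cons h ω))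
        (fun z => EE w L z fun ω => F (Gf.cons h ω)) h ≤
      EE w (l :: L) h fun ω => (F ω - c) ^ 2 := by
  have g := lg_X hw L
  have e1 := eg_EE hw L (hF.cons h)
  have e2 := eg_EE hw L (((hF.sub (EP.const c)).pow 2).cons h)
  set φ := fun z => EE w L z fun ω => F (Gf.cons h ω) with hφ
  have a1 : tE l (X w L) (fun z => (φ z - c) ^ 2) h ≤ EE w (l :: L) h fun ω => (F ω - c) ^ 2 :=
    tE_mono g ((e1.sub (Eg.const c)).pow 2) e2 (fun z => sq_EE_sub hw L z (hF.cons h) c) l h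
  have e : (fun z => (φ z - c) ^ 2) = fun z => φ z * φ z - 2 * c * φ z + c ^ 2 := by
    funext z; ring
  rw [e, tE_add g ((e1.mul e1).sub (e1.const_mul _)) (Eg.const _),
    tE_sub g (e1.mul e1) (e1.const_mul _), tE_const_mul, tE_const g] at a1
  rw [cT]
  nlinarith [sq_nonneg (tE l (X w L) φ h - c)]

/-- (SD), squared form -/
theorem delta_EE (hw : Wt w) (l : Lv Ω) (L : List (Lv Ω)) (h : Ω → ℝ) (hF : EP F) {a a' V : ℝ}
    {c : ℝ → ℝ} (haa : a ≤ a')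
    (hV : ∀ t ∈ Icc a a', EE w (rt l t :: L) h (fun ω => (F ω - c t) ^ 2) ≤ V) :
    (EE w (rt l a' :: L) h F - EE w (rt l a :: L) h F) ^ 2 ≤ Wd w l L h a a' * ((a' - a) * V) :=
  Crv.delta_sup (lg_X hw L) (eg_EE hw L (hF.cons h)) l h haa fun t ht =>
    (cT_le hw (rt l t) L h hF (c t)).trans (hV t ht)

theorem abs_le_of_sq {x W d Q B : ℝ} (hQ : 0 ≤ Q) (hB : 0 ≤ B) (hW : d * W ≤ Q ^ 2)
    (h : x ^ 2 ≤ W * (d * B ^ 2)) : |x| ≤ Q * B :=
  abs_le_of_sq_le_sq (h.trans (by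
    nlinarith [mul_le_mul_of_nonneg_right hW (sq_nonneg B)])) (mul_nonneg hQ hB)

/-- (SD) with `L²` bounds -/
theorem delta_Mo (hw : Wt w) (l : Lv Ω) (L : List (Lv Ω)) (h : Ω → ℝ) (hF : EP F) {a a' Q B : ℝ}
    {c : ℝ → ℝ} (haa : a ≤ a') (hQ : 0 ≤ Q) (hW : (a' - a) * Wd w l L h a a' ≤ Q ^ 2)
    (hV : ∀ t ∈ Icc a a', Mo w (rt l t :: L) h 2 (fun ω => F ω - c t) B) :
    |EE w (rt l a' :: L) h F - EE w (rt l a :: L) h F| ≤ Q * B :=
  abs_le_of_sq hQ (hV a ⟨le_rfl, haa⟩).nn hW (delta_EE hw l L h hF (c := c) haa fun t ht => by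
    simpa only [sq_abs] using (hV t ht).le)

theorem Wd_sub (hw : Wt w) (l : Lv Ω) (L : List (Lv Ω)) (h : Ω → ℝ) {a b b' a' : ℝ} (h1 : a ≤ b)
    (h2 : b ≤ b') (h3 : b' ≤ a') : (b' - b) * Wd w l L h b b' ≤ (a' - a) * Wd w l L h a a' := by
  have e1 := Wd_nonneg hw l L h h1
  have e2 := Wd_nonneg hw l L h h2
  have e3 := Wd_nonneg hw l L h h3
  refine mul_le_mul (by linarith) ?_ e2 (by linarith)
  simp only [Wd] at *
  linarith

theorem eg_qf (hw : Wt w) (L : List (Lv Ω)) (K : Ω → Ω → ℝ) : Eg fun z => qf (P w L z) K := by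
  unfold qf
  exact Eg.sum _ fun x _ => Eg.sum _ fun y _ =>
    ((eg_P hw L x).mul (eg_P hw L y)).mul (Eg.const _)

end Gen

/-! ### the class -/

variable {p : Pm} {τ y a a' b b' Q B : ℝ} {m : ℕ}

/-- path law of the model -/
abbrev E (p : Pm) (τ y : ℝ) (m : ℕ) (a : ℝ) (F : Pth (Cube m) → ℝ) : ℝ :=
  EE (fun _ => 1) (p.L τ y m a) 0 F

/-- `‖F‖_k ≤ B` under the path law of the model -/
abbrev M (p : Pm) (τ y : ℝ) (m : ℕ) (a : ℝ) (k : ℕ) (F : Pth (Cube m) → ℝ) (B : ℝ) : Prop :=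
  Mo (fun _ => 1) (p.L τ y m a) 0 k F B

/-- `E[f(R) | state at the node k]` for two replicas split at the node `k` -/
def cE (p : Pm) (τ y : ℝ) (m : ℕ) (f : ℝ → ℝ) (k : ℕ) (ω : Pth (Cube m)) : ℝ :=
  qf (P (fun _ => 1) ((p.up τ y m).drop k) (ω (k + 1))) fun x x' => f (ov x x')

/-- the path overlap at the node `k` (free of the root tilt) -/
def ρ (p : Pm) (τ y : ℝ) (m : ℕ) (k : ℕ) (ω : Pth (Cube m)) : ℝ := cE p τ y m id k ω

theorem wt1 (m : ℕ) : Wt (fun _ : Cube m => (1 : ℝ)) := Link33.wt1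

theorem L_eq (p : Pm) (τ y : ℝ) (m : ℕ) (t : ℝ) :
    p.L τ y m t = rt (p.root τ y m 0) t :: p.up τ y m := rfl

theorem rh_eq (p : Pm) (τ y : ℝ) (m : ℕ) (t : ℝ) (k : ℕ) (ω : Pth (Cube m)) :
    p.rh τ y m t k (ω (k + 1)) = ρ p τ y m k ω := rfl

theorem ep_cE (f : ℝ → ℝ) (k : ℕ) : EP (cE p τ y m f k) :=
  EP.state (eg_qf (wt1 m) _ _) (k + 1)

theorem ep_ρ (k : ℕ) : EP (ρ p τ y m k) := ep_cE id k

theorem ad_cE (f : ℝ → ℝ) {k t : ℕ} (h : k + 1 ≤ t) : Ad t (cE p τ y m f k) :=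
  Ad.state h fun z => qf (P (fun _ => 1) ((p.up τ y m).drop k) z) fun x x' => f (ov x x')

theorem E_cE (t : ℝ) (f : ℝ → ℝ) (k : ℕ) : E p τ y m t (cE p τ y m f k) = p.E2 τ y m t f k :=
  EE_node (wt1 m) (fun z => qf (P (fun _ => 1) ((p.up τ y m).drop k) z) fun x x' => f (ov x x'))
    (k + 1) _ 0

theorem E_ρ (t : ℝ) (k : ℕ) : E p τ y m t (ρ p τ y m k) = p.rb τ y m t k := E_cE t id k

theorem E_sum_cE (t : ℝ) (s : Finset ℕ) (c : ℕ → ℝ) (f : ℕ → ℝ → ℝ) :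
    E p τ y m t (fun ω => ∑ k ∈ s, c k * cE p τ y m (f k) k ω) =
      ∑ k ∈ s, c k * p.E2 τ y m t (f k) k := by
  rw [E, EE_sum (wt1 m) _ _ s fun k _ => (ep_cE (f k) k).const_mul (c k)]
  exact Finset.sum_congr rfl fun k _ => by rw [EE_const_mul]; exact congrArg _ (E_cE t (f k) k)

theorem E_sum_ρ (t : ℝ) (s : Finset ℕ) (c : ℕ → ℝ) :
    E p τ y m t (fun ω => ∑ k ∈ s, c k * ρ p τ y m k ω) = ∑ k ∈ s, c k * p.rb τ y m t k :=
  E_sum_cE t s c fun _ => id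

/-- the label weights above the root node do not depend on the root tilt -/
theorem dz_succ (t t' : ℝ) (k : ℕ) : p.dz τ y m t (k + 1) = p.dz τ y m t' (k + 1) := rfl

theorem dz_eq (t t' : ℝ) {k : ℕ} (hk : 1 ≤ k) : p.dz τ y m t k = p.dz τ y m t' k := by
  obtain ⟨k, rfl⟩ := Nat.exists_eq_add_of_le' hk
  rfl

theorem dz_zero (t : ℝ) : p.dz τ y m t 0 = p.dz τ y m 0 0 - t := by
  show ex (p.up τ y m) 0 - t = ex (p.up τ y m) 0 - 0 - t
  ring

/-- sub-windows -/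
theorem WB_sub (H : p.WB a a' Q) (h1 : a ≤ b) (h2 : b ≤ b') (h3 : b' ≤ a') : p.WB b b' Q :=
  fun τ y hm m m1 m2 =>
    (Wd_sub (wt1 m) (p.root τ y m 0) (p.up τ y m) 0 h1 h2 h3).trans (H τ y hm m m1 m2)

theorem WB_mono {Q' : ℝ} (H : p.WB a a' Q) (hQ : 0 ≤ Q) (h : Q ≤ Q') : p.WB a a' Q' :=
  fun τ y hm m m1 m2 => (H τ y hm m m1 m2).trans (pow_le_pow_left₀ hQ h 2)

/-- the data of one application of (SD) -/
structure At (p : Pm) (τ y : ℝ) (m : ℕ) (a a' Q : ℝ) : Prop where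
  a1 : p.amin ≤ a
  le : a ≤ a'
  a2 : a' ≤ p.amax
  Q0 : 0 ≤ Q
  mem : p.Mem τ y
  m1 : p.n ≤ m
  m2 : m ≤ 2 * p.n
  wb : p.WB a a' Q

namespace At

theorem inn (H : At p τ y m a a' Q) {t : ℝ} (ht : t ∈ Icc a a') : p.In τ y m t :=
  ⟨H.mem, H.m1, H.m2, H.a1.trans ht.1, ht.2.trans H.a2⟩

theorem left (H : At p τ y m a a' Q) : p.In τ y m a := H.inn ⟨le_rfl, H.le⟩
theorem right (H : At p τ y m a a' Q) : p.In τ y m a' := H.inn ⟨H.le, le_rfl⟩

/-- **(SD)** for path functionals; the centring may depend on the root tilt -/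
theorem sd (H : At p τ y m a a' Q) {F : Pth (Cube m) → ℝ} (hF : EP F) {c : ℝ → ℝ}
    (hV : ∀ t, p.In τ y m t → M p τ y m t 2 (fun ω => F ω - c t) B) :
    |E p τ y m a' F - E p τ y m a F| ≤ Q * B :=
  delta_Mo (wt1 m) (p.root τ y m 0) (p.up τ y m) 0 hF (c := c) H.le H.Q0
    (H.wb τ y H.mem m H.m1 H.m2) fun t ht => hV t (H.inn ht)

/-- (SD) with a second moment -/
theorem sd_sq (H : At p τ y m a a' Q) {F : Pth (Cube m) → ℝ} (hF : EP F) {c : ℝ → ℝ} {V : ℝ}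
    (hV : ∀ t, p.In τ y m t → E p τ y m t (fun ω => (F ω - c t) ^ 2) ≤ V) :
    |E p τ y m a' F - E p τ y m a F| ≤ Q * √V := by
  have h0 : 0 ≤ V := (EE_nonneg _ _ fun _ => sq_nonneg _).trans (hV a H.left)
  refine H.sd hF (c := c) fun t ht => ⟨hF.sub (EP.const _), sqrt_nonneg _, ?_⟩
  rw [sq_sqrt h0]
  simpa only [sq_abs] using hV t ht

/-- (SD) in tree form -/
theorem sd_tX (H : At p τ y m a a' Q) (s : Sh)
    {F : ((p.root τ y m 0).ι ⊕ NT s (p.up τ y m) → ℝ) → (s.Lf → Cube m) → ℝ}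
    (hF : ∀ x, Eg fun g => F g x)
    (hV : ∀ t, p.In τ y m t → vT (fun _ => 1) (.step s) (p.L τ y m t) 0 F ≤ B ^ 2) (hB : 0 ≤ B) :
    |tX (fun _ => 1) (.step s) (p.L τ y m a') 0 F - tX (fun _ => 1) (.step s) (p.L τ y m a) 0 F| ≤
      Q * B :=
  abs_le_of_sq H.Q0 hB (H.wb τ y H.mem m H.m1 H.m2)
    (delta_tX (wt1 m) s (p.root τ y m 0) (p.up τ y m) 0 hF H.le fun t ht => hV t (H.inn ht))

/-- weighted sums of pair expectations -/
theorem sd_E2 (H : At p τ y m a a' Q) (s : Finset ℕ) (c : ℕ → ℝ) (f : ℕ → ℝ → ℝ) {c₀ : ℝ → ℝ}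
    (hV : ∀ t, p.In τ y m t →
      M p τ y m t 2 (fun ω => ∑ k ∈ s, c k * cE p τ y m (f k) k ω - c₀ t) B) :
    |∑ k ∈ s, c k * p.E2 τ y m a' (f k) k - ∑ k ∈ s, c k * p.E2 τ y m a (f k) k| ≤ Q * B := by
  rw [← E_sum_cE, ← E_sum_cE]
  exact H.sd (EP.sum s fun k _ => (ep_cE (f k) k).const_mul (c k)) hV

/-- **window averages of the overlap**: input (B) -/
theorem sd_rb (H : At p τ y m a a' Q) (s : Finset ℕ) (c : ℕ → ℝ)
    (hV : ∀ t, p.In τ y m t →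
      M p τ y m t 2 (fun ω => ∑ k ∈ s, c k * (ρ p τ y m k ω - p.rb τ y m t k)) B) :
    |∑ k ∈ s, c k * (p.rb τ y m a' k - p.rb τ y m a k)| ≤ Q * B := by
  have := H.sd_E2 s c (fun _ => id) (c₀ := fun t => ∑ k ∈ s, c k * p.rb τ y m t k) fun t ht =>
    (hV t ht).congr fun ω => by simp only [mul_sub, Finset.sum_sub_distrib]; rfl
  simp only [mul_sub, Finset.sum_sub_distrib]
  exact this

theorem sd_del (H : At p τ y m a a' Q) (s : Finset ℕ) (c : ℕ → ℝ)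
    (hV : ∀ t, p.In τ y m t →
      M p τ y m t 2 (fun ω => ∑ k ∈ s, c k * (ρ p τ y m k ω - p.rb τ y m t k)) B) :
    |∑ k ∈ s, c k * p.del τ y m a' k - ∑ k ∈ s, c k * p.del τ y m a k| ≤ Q * B := by
  refine le_of_eq_of_le ?_ (H.sd_rb s c hV)
  rw [← Finset.sum_sub_distrib]
  exact congrArg _ (Finset.sum_congr rfl fun k _ => by simp only [Pm.del]; ring)

/-- blocks: the windows are added -/
theorem sd_blocks (H : At p τ y m a a' Q) {κ : Type*} (I : Finset κ) (s : κ → Finset ℕ)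
    (c : κ → ℕ → ℝ) (Bd : κ → ℝ) (hV : ∀ i ∈ I, ∀ t, p.In τ y m t →
      M p τ y m t 2 (fun ω => ∑ k ∈ s i, c i k * (ρ p τ y m k ω - p.rb τ y m t k)) (Bd i)) :
    |∑ i ∈ I, ∑ k ∈ s i, c i k * p.del τ y m a' k - ∑ i ∈ I, ∑ k ∈ s i, c i k * p.del τ y m a k| ≤
      Q * ∑ i ∈ I, Bd i := by
  rw [← Finset.sum_sub_distrib, Finset.mul_sum]
  exact (Finset.abs_sum_le_sum_abs _ _).trans
    (Finset.sum_le_sum fun i hi => H.sd_del (s i) (c i) (hV i hi))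

/-- products: `D_a E[F G]` from `L⁴` bounds of the centred factors and bounds of the centrings -/
theorem sd_mul (H : At p τ y m a a' Q) {F G : Pth (Cube m) → ℝ} (hF : EP F) (hG : EP G)
    {c d : ℝ → ℝ} {B₁ B₂ C D : ℝ}
    (h1 : ∀ t, p.In τ y m t → M p τ y m t 4 (fun ω => F ω - c t) B₁)
    (h2 : ∀ t, p.In τ y m t → M p τ y m t 4 (fun ω => G ω - d t) B₂)
    (hc : ∀ t, p.In τ y m t → |c t| ≤ C) (hd : ∀ t, p.In τ y m t → |d t| ≤ D) :
    |E p τ y m a' (fun ω => F ω * G ω) - E p τ y m a fun ω => F ω * G ω| ≤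
      Q * (B₁ * B₂ + C * B₂ + D * B₁) := by
  refine H.sd (hF.mul hG) (c := fun t => c t * d t) fun t ht => ?_
  have w1 := wt1 m
  have k1 := h1 t ht
  have k2 := h2 t ht
  have e1 := Mo.mul (k := 2) w1 k1 k2
  have e2 := ((k2.lyap w1 (by norm_num : 2 ≤ 4)).const_mul (c t)).mono
    (mul_le_mul_of_nonneg_right (hc t ht) k2.nn)
  have e3 := ((k1.lyap w1 (by norm_num : 2 ≤ 4)).const_mul (d t)).mono
    (mul_le_mul_of_nonneg_right (hd t ht) k1.nn)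
  exact ((e1.add w1 e2).add w1 e3).congr fun ω => by ring

/-- the root node carries the weight `z - t` -/
theorem sd_root (H : At p τ y m a a' Q) {F : Pth (Cube m) → ℝ} (hF : EP F) {c : ℝ → ℝ} {z K : ℝ}
    (hV : ∀ t, p.In τ y m t → M p τ y m t 2 (fun ω => F ω - c t) B)
    (hK : |E p τ y m a' F| ≤ K) :
    |(z - a') * E p τ y m a' F - (z - a) * E p τ y m a F| ≤ |z - a| * (Q * B) + (a' - a) * K := by
  have e : (z - a') * E p τ y m a' F - (z - a) * E p τ y m a F =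
      (z - a) * (E p τ y m a' F - E p τ y m a F) - (a' - a) * E p τ y m a' F := by ring
  rw [e]
  refine (abs_sub _ _).trans (add_le_add ?_ ?_)
  · rw [abs_mul]
    exact mul_le_mul_of_nonneg_left (H.sd hF hV) (abs_nonneg _)
  · rw [abs_mul, abs_of_nonneg (sub_nonneg.2 H.le)]
    exact mul_le_mul_of_nonneg_left hK (sub_nonneg.2 H.le)

end At

end Crest.Agent.T156.Alt.Sd56

end
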