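import Crest.Agent.T156.ChainQ_26
import Crest.Agent.T156.AltLow_76

/-!
# Row 156: the chain for an arbitrary class of models, `Q s²`-form with total variance `n^{1/12}` (helper26, after helper11)

The class is any set `T` of indices; every size `m ∈ [n, 2 n]`; the errors are measured by `Q` with
`(a' - a) W ≤ Q²` on the whole class.
-/

set_option autoImplicit false
set_option linter.unusedSectionVars false

noncomputable section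

namespace Crest.Agent.T156.Cas.Chain26

open MeasureTheory Real Set Filter Topology
open Crest.Agent.T157.E Crest.Agent.T157.Casc Crest.Agent.T157.SL
open Crest.Agent.T156.Soft Crest.Agent.T156.Soft.Fin26 Crest.Agent.T156.Cas.Flow26

/-! ### the class -/

section
variable (β : ℝ) (n : ℕ) {ι : Type} (T : Set ι) (l : ∀ m, ι → Lv (Cube m))
  (L : ∀ m, ι → List (Lv (Cube m)))

/-- every member of the class is close to SK of the same size; the flow in the size runs at `t₁` -/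
structure ChnS (t₁ : ι) (a₀ A M δ s : ℝ) : Prop where
  m1 : t₁ ∈ T
  var : ∀ m, n ≤ m → m ≤ 2 * n → ∀ t ∈ T, ∀ x, (l m t).cov x x ≤ M * m
  good : ∀ m, n ≤ m → m < 2 * n → Good (fun _ => 1) (l m t₁) (L m t₁) 0 A (M * (n : ℝ) ^ ((1 : ℝ) / 12) * m)
  path : ∀ a a' Q : ℝ, a₀ ≤ a → a ≤ a' → a' ≤ A → 0 ≤ Q → WBq β n T l L a a' Q →
    ∀ m, n ≤ m → m ≤ 2 * n → ∀ t ∈ T,
      Cl a a' (δ * (n : ℝ) ^ ((1 : ℝ) / 6) * (Q * s ^ 2 + s ^ 5)) (Vv (l m t) (L m t)) (Vv (wl m β 1 1) [])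
  flow : ∀ a a' Q : ℝ, a₀ ≤ a → a ≤ a' → a' ≤ A → 0 ≤ Q → WBq β n T l L a a' Q →
    ∀ m, n ≤ m → m < 2 * n →
      |Kv (l m t₁) (L m t₁) (l (m + 1) t₁) (L (m + 1) t₁) a' -
        Kv (l m t₁) (L m t₁) (l (m + 1) t₁) (L (m + 1) t₁) a| ≤
          δ * (n : ℝ) ^ (-(5 : ℝ) / 6) * (Q * s ^ 2 + s ^ 5)

end

/-- **the class gives the hypothesis of the closure** (`l = 4`, `r = 1`, `C' = 5`) -/
theorem cls_of_chnS {β c k D M : ℝ} {J n₀ : ℕ} (hc : 0 < c) (hc' : c ≤ 1 / 12)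
    (hk : 0 < k) (hJ : 1 + k ≤ c * J) (hD : 0 ≤ D) (hM : 0 ≤ M) (hn₀ : 1 ≤ n₀)
    (hA : ∀ n : ℕ, n₀ ≤ n → 4 ^ J * (n : ℝ) ^ k * (n : ℝ) ^ (-(1 : ℝ) / 6) ≤ 1)
    (H : ∀ n : ℕ, n₀ ≤ n → ∀ s ∈ Icc 1 ((n : ℝ) ^ k),
      ∃ (ι : Type) (T : Set ι) (t₁ : ι) (l : ∀ m, ι → Lv (Cube m))
        (L : ∀ m, ι → List (Lv (Cube m))) (a₀ A : ℝ), a₀ ≤ (n : ℝ) ^ (-(1 : ℝ) / 6) / 2 ∧
        4 ^ J * s * (n : ℝ) ^ (-(1 : ℝ) / 6) ≤ A ∧
        ChnS β n T l L t₁ a₀ A M (D * (n : ℝ) ^ (-c)) s) :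
    Cls (fun n => Ln n β 1) 1 4 (M + β ^ 2) 1 (5 * (D * (12 + 4 ^ J + 1)) + 4 * M) c k 5 J n₀ := by
  have lnc : ∀ m : ℕ, 0 < m → ∀ u, 1 ≤ u →
      Ln m β 1 u = crv m 1 (fun _ => 1) (wl m β 1 1) [] 0 u := fun m hm u hu =>
    Ln_eq_crv hm β 1 one_ne_zero (by linarith)
  have triv : ∀ (m : ℕ) (l : Lv (Cube m)) (L : List (Lv (Cube m))) (K : ℝ), 0 < m → 0 ≤ K →
      (∀ x, l.cov x x ≤ K * m) → ∀ u, 1 ≤ u → crv m 1 (fun _ => 1) l L 0 u ≤ K / 2 * u * m := by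
    intro m l L K hm hK hv u hu
    refine (crv_le' (wt1 m) hm l L 0 (by positivity) hv hu).trans ?_
    nlinarith [show 0 ≤ K * m by positivity]
  refine ⟨le_rfl, by norm_num, hc, hk, zero_le_one, by norm_num, hJ, fun n hn s hs => ?_,
    fun n n' hn h1 h2 s hs => ?_⟩
  · have n0 : 0 < n := by omega
    rw [lnc n n0 s hs, rpow_one]
    refine (triv n _ _ _ n0 (by positivity) (wl_var n0 β) s hs).trans ?_
    have : 0 < s := by linarith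
    gcongr
    nlinarith [sq_nonneg β]
  obtain ⟨ι, T, t₁, l, L, a₀, A, ha₀, hA', h⟩ := H n hn s hs
  have n1 : 1 ≤ n := hn₀.trans hn
  have n0 : 0 < n := n1
  have nR : (1 : ℝ) ≤ n := by exact_mod_cast n1
  have h12 : n ≤ 2 * n := by omega
  set cv : ∀ m, ι → ℝ → ℝ := fun m t => crv m 1 (fun _ => 1) (l m t) (L m t) 0 with hcv
  refine ⟨{f | ∃ m, n ≤ m ∧ m ≤ 2 * n ∧ (f = (fun u => Ln m β 1 u) ∨ ∃ t ∈ T, f = cv m t)},
    ⟨n', h1, h2, Or.inl rfl⟩, ?_, ?_⟩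
  · rintro f ⟨m, a1, a2, rfl | ⟨t, ht, rfl⟩⟩ u hu <;> rw [rpow_one]
    · have m0 : 0 < m := by omega
      show Ln m β 1 u ≤ _
      rw [lnc m m0 u hu.1]
      refine (triv m _ _ _ m0 (by positivity) (wl_var m0 β) u hu.1).trans ?_
      have mR : (m : ℝ) ≤ 2 * n := by exact_mod_cast a2
      have u0 : 0 < u := by linarith [hu.1]
      nlinarith [mul_nonneg (mul_nonneg (sq_nonneg β) u0.le) (sub_nonneg.2 mR),
        mul_nonneg (mul_nonneg hM u0.le) (show (0 : ℝ) ≤ n by linarith),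
        mul_nonneg (mul_nonneg (sq_nonneg β) u0.le) (show (0 : ℝ) ≤ n by linarith)]
    · refine (triv m _ _ _ (by omega) hM (h.var m a1 a2 t ht) u hu.1).trans ?_
      have mR : (m : ℝ) ≤ 2 * n := by exact_mod_cast a2
      have u0 : 0 < u := by linarith [hu.1]
      nlinarith [mul_nonneg (mul_nonneg hM u0.le) (sub_nonneg.2 mR),
        mul_nonneg (mul_nonneg (sq_nonneg β) u0.le) (show (0 : ℝ) ≤ n by linarith)]
  intro u hu B B0 hB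
  set σ := (n : ℝ) ^ (-(1 : ℝ) / 6) with hσ
  set ρ := ((2 * n : ℕ) : ℝ) ^ (-(1 : ℝ) / 6) with hρ
  have σ0 : 0 < σ := rpow_pos_of_pos (by linarith) _
  have ρ0 : 0 < ρ := rpow_pos_of_pos (by exact_mod_cast (by omega : 0 < 2 * n)) _
  have ρσ : ρ ≤ σ := tau_le n1 h12
  have σρ : σ ≤ 2 * ρ := tau_ge (by omega) n1 le_rfl
  have u1 : 1 ≤ u := hu.1
  have u0 : 0 < u := by linarith
  have u4 : 4 * u ∈ Icc 1 (4 * u) := ⟨by linarith, le_rfl⟩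
  have lo : a₀ ≤ 1 * ρ := by linarith
  have hi : u * σ ≤ A := (mul_le_mul_of_nonneg_right hu.2 σ0.le).trans hA'
  have lh : 1 * ρ ≤ u * σ := by gcongr
  set Q := √(12 * u * B) with hQ
  have Q0 : 0 ≤ Q := sqrt_nonneg _
  have s1 : 1 ≤ s := hs.1
  have s5 : s ≤ s ^ 5 := le_self_pow₀ s1 (by norm_num)
  have e5 : s ^ (5 : ℝ) = s ^ 5 := by exact_mod_cast Real.rpow_natCast s 5
  set ε := D * (n : ℝ) ^ (-c) with hε
  have ε0 : 0 ≤ ε := by positivity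
  set K := (12 : ℝ) + 4 ^ J + 1 with hK
  have p4 : (0 : ℝ) < 4 ^ J := by positivity
  have QK : Q * s ^ 2 + s ^ 5 ≤ K * (B + s ^ 5) := by
    have : Q * s ^ 2 ≤ 12 * B + u * s ^ 4 := by
      have e : Q * s ^ 2 = √(u * s ^ 4 * (12 * B)) := by
        rw [hQ, show u * s ^ 4 * (12 * B) = 12 * u * B * (s ^ 2) ^ 2 by ring,
          sqrt_mul' _ (sq_nonneg _), sqrt_sq (sq_nonneg _)]
      rw [e]
      exact sqrt_le_lin (by positivity) (by positivity)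
    have h3 : u * s ^ 4 ≤ 4 ^ J * s ^ 5 :=
      (mul_le_mul_of_nonneg_right hu.2 (by positivity)).trans_eq (by ring)
    rw [hK]
    nlinarith [mul_nonneg p4.le B0]
  have wd : ∀ m, n ≤ m → m ≤ 2 * n → ∀ (l' : Lv (Cube m)) (L' : List (Lv (Cube m))),
      crv m 1 (fun _ => 1) l' L' 0 (4 * u) ≤ B → ∀ a a', 1 * ρ ≤ a → a ≤ a' → a' ≤ u * σ →
      (a' - a) * Wd (fun _ => 1) l' L' 0 a a' ≤ Q ^ 2 := by
    intro m a1 a2 l' L' hb a a' b1 b2 b3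
    have k1 := (Wd_mono (wt1 m) l' L' 0 b1 b3).trans
      (Wd_of_crv n1 a1 a2 le_rfl l' L' one_pos u1 hb)
    rw [hQ, sq_sqrt (by positivity)]
    refine (mul_le_mul (show a' - a ≤ u * σ by linarith) k1 (Wd_nonneg (wt1 m) l' L' 0 b2)
      (by positivity)).trans_eq ?_
    rw [← hσ]
    field_simp
  have wb : ∀ a a', 1 * ρ ≤ a → a ≤ a' → a' ≤ u * σ → WBq β n T l L a a' Q := by
    intro a a' b1 b2 b3 m a1 a2
    refine ⟨wd m a1 a2 _ _ ?_ a a' b1 b2 b3, fun t ht => wd m a1 a2 _ _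
      (hB (cv m t) ⟨m, a1, a2, Or.inr ⟨t, ht, rfl⟩⟩ _ u4) a a' b1 b2 b3⟩
    rw [← lnc m (by omega) _ u4.1]
    exact hB (fun u => Ln m β 1 u) ⟨m, a1, a2, Or.inl rfl⟩ _ u4
  have σ6 : σ * (n : ℝ) ^ ((1 : ℝ) / 6) = 1 := by
    rw [hσ, ← Real.rpow_add (by linarith)]
    norm_num
  set e := ε * K * (B + s ^ 5) with he
  have e0 : 0 ≤ e := by positivity
  have σe : σ * (ε * (n : ℝ) ^ ((1 : ℝ) / 6) * (Q * s ^ 2 + s ^ 5)) ≤ e := by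
    calc _ = σ * (n : ℝ) ^ ((1 : ℝ) / 6) * (ε * (Q * s ^ 2 + s ^ 5)) := by ring
      _ ≤ 1 * (ε * (K * (B + s ^ 5))) := by rw [σ6]; gcongr
      _ = e := by rw [he]; ring
  have c1 : ∀ m, n ≤ m → m ≤ 2 * n → ∀ t ∈ T, |cv m t u - Ln m β 1 u| ≤ e := by
    intro m a1 a2 t ht
    have p1 : (m : ℝ) ^ (-(1 : ℝ) / 6) ≤ σ := tau_le n1 a1
    have p2 : ρ ≤ (m : ℝ) ^ (-(1 : ℝ) / 6) := tau_le (n1.trans a1) a2
    have p3 : 0 ≤ (m : ℝ) ^ (-(1 : ℝ) / 6) := ρ0.le.trans p2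
    have b1 : 1 * ρ ≤ 1 * (m : ℝ) ^ (-(1 : ℝ) / 6) := by gcongr
    have b2 : 1 * (m : ℝ) ^ (-(1 : ℝ) / 6) ≤ u * (m : ℝ) ^ (-(1 : ℝ) / 6) := by gcongr
    have b3 : u * (m : ℝ) ^ (-(1 : ℝ) / 6) ≤ u * σ := by gcongr
    have k := h.path _ _ Q (lo.trans b1) b2 (b3.trans hi) Q0 (wb _ _ b1 b2 b3) m a1 a2 t ht
    rw [lnc m (by omega) u u1, hcv]
    unfold crv
    simp only
    rw [← mul_sub, abs_mul, abs_of_nonneg p3]
    exact (mul_le_mul p1 k (abs_nonneg _) σ0.le).trans σe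
  have c3 : ∀ m, n ≤ m → m ≤ 2 * n →
      |cv m t₁ u - cv n t₁ u| ≤ 2 * e + 4 * M * (n : ℝ) ^ (-c) * (B + s ^ 5) := by
    intro m a1 a2
    have fl := flowT_of_good (w := fun m _ => 1) (l := fun m => l m t₁) (L := fun m => L m t₁)
      (h := fun _ => 0) (κ := fun m => Kv (l m t₁) (L m t₁) (l (m + 1) t₁) (L (m + 1) t₁) (1 * ρ))
      (n := n) (n' := 2 * n) (a₀ := 1 * ρ) (a₁ := u * σ) (M := M * (n : ℝ) ^ ((1 : ℝ) / 12))
      (e := ε * (n : ℝ) ^ (-(5 : ℝ) / 6) * (Q * s ^ 2 + s ^ 5))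
      (by positivity) (fun m b1 b2 => Good.anti (h.good m b1 b2) hi)
      (fun m b1 b2 a ha => h.flow _ a Q lo ha.1 (ha.2.trans hi) Q0 (wb _ _ le_rfl ha.1 ha.2) m b1 b2)
    have k := flowT_tele fl n1 le_rfl (by positivity) (by positivity) (by positivity) one_pos u1 le_rfl le_rfl
      a1 a2
    refine le_trans k ?_
    have q6 : (n : ℝ) * (ε * (n : ℝ) ^ (-(5 : ℝ) / 6) * (Q * s ^ 2 + s ^ 5)) =
        ε * (n : ℝ) ^ ((1 : ℝ) / 6) * (Q * s ^ 2 + s ^ 5) := by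
      rw [show (1 : ℝ) / 6 = 1 + -(5 : ℝ) / 6 by norm_num, Real.rpow_add (by linarith), rpow_one]
      ring
    rw [q6, ← hσ]
    have a3 : u * σ ≤ 1 := (mul_le_mul_of_nonneg_right hu.2 σ0.le).trans
      (le_trans (by gcongr; exact hs.2) (hA n hn))
    have a4 : σ * (n : ℝ) ^ ((1 : ℝ) / 12) ≤ (n : ℝ) ^ (-c) := by
      rw [hσ, ← Real.rpow_add (by linarith)]
      exact Real.rpow_le_rpow_of_exponent_le nR (by linarith)
    have a5 : σ * (M * (n : ℝ) ^ ((1 : ℝ) / 12) * (1 + u * σ)) ≤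
        (n : ℝ) ^ (-c) * (M * 2) * (B + s ^ 5) := by
      rw [show σ * (M * (n : ℝ) ^ ((1 : ℝ) / 12) * (1 + u * σ)) =
        σ * (n : ℝ) ^ ((1 : ℝ) / 12) * (M * (1 + u * σ)) by ring]
      exact le_trans (by gcongr; linarith) (le_mul_of_one_le_right (by positivity) (by linarith))
    rw [mul_add σ]
    linarith
  have tot : (5 * (D * K) + 4 * M) * (n : ℝ) ^ (-c) * (B + s ^ (5 : ℝ)) =
      5 * e + 4 * M * (n : ℝ) ^ (-c) * (B + s ^ 5) := by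
    rw [e5, he, hε]; ring
  have d1 := abs_le.1 (c1 n le_rfl h12 t₁ h.m1)
  rw [tot]
  rintro f ⟨m, a1, a2, rfl | ⟨t, ht, rfl⟩⟩
  · have d2 := abs_le.1 (c1 m a1 a2 t₁ h.m1)
    have d3 := abs_le.1 (c3 m a1 a2)
    rw [abs_le]
    constructor <;> linarith [d1.1, d1.2, d2.1, d2.2, d3.1, d3.2]
  · have d2 := abs_le.1 (c1 m a1 a2 t₁ h.m1)
    have d3 := abs_le.1 (c3 m a1 a2)
    have d4 := abs_le.1 (c1 m a1 a2 t ht)
    rw [abs_le]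
    constructor <;> linarith [d1.1, d1.2, d2.1, d2.2, d3.1, d3.2, d4.1, d4.2]

/-- **the class and the lower bound for the SK curve give `Key`**.  The window of root tilts must
contain `[n^{-1/6}/2, s n^{γ - 1/6}]` for some fixed `γ > 0`. -/
theorem key_of_chnS {β c k γ D M c₀ : ℝ} (hc : 0 < c) (hk : 0 < k) (hk' : k < 1 / 6) (hγ : 0 < γ)
    (hD : 0 ≤ D) (hM : 0 ≤ M)
    (H : ∀ᶠ n : ℕ in atTop, ∀ s ∈ Icc 1 ((n : ℝ) ^ k),
      ∃ (ι : Type) (T : Set ι) (t₁ : ι) (l : ∀ m, ι → Lv (Cube m))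
        (L : ∀ m, ι → List (Lv (Cube m))) (a₀ A : ℝ), a₀ ≤ (n : ℝ) ^ (-(1 : ℝ) / 6) / 2 ∧
        s * (n : ℝ) ^ (γ - 1 / 6) ≤ A ∧ ChnS β n T l L t₁ a₀ A M (D * (n : ℝ) ^ (-c)) s)
    (h0 : 0 < c₀) (hlb : ∀ δ : ℝ, 0 < δ → δ ≤ 1 → ∃ᶠ n : ℕ in atTop,
      c₀ * (δ * (n : ℝ) ^ k) ^ (5 : ℝ) ≤ Ln n β 1 (δ * (n : ℝ) ^ k)) : Key β := by
  set c' := min c (1 / 12) with hc'
  have c0 : 0 < c' := lt_min hc (by norm_num)
  obtain ⟨J, hJ⟩ := exists_nat_ge ((1 + k) / c')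
  obtain ⟨n₁, h₁⟩ := eventually_atTop.1 (H.and ((ev_small (c := 1 / 6 - k) (by linarith) (4 ^ J) 1
    one_pos).and ((ev_small hγ (4 ^ J) 1 one_pos).and (eventually_ge_atTop 1))))
  refine key_of_cls' (cls_of_chnS (c := c') (D := D) (J := J) (n₀ := max n₁ 1) c0 (min_le_right _ _) hk
    (by rwa [div_le_iff₀' c0] at hJ) hD hM (le_max_right _ _) (fun n hn => ?_) fun n hn s hs => ?_)
    (by simpa using c0) h0 hlb
  · obtain ⟨-, a1, -, a2⟩ := h₁ n ((le_max_left _ _).trans hn)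
    rw [mul_assoc, ← Real.rpow_add (by exact_mod_cast a2),
      show k + -(1 : ℝ) / 6 = -(1 / 6 - k) by ring]
    exact a1
  · obtain ⟨a0, -, a1, a2⟩ := h₁ n ((le_max_left _ _).trans hn)
    obtain ⟨ι, T, t₁, l, L, a₀, A, b1, b2, h⟩ := a0 s hs
    have nR : (1 : ℝ) ≤ n := by exact_mod_cast a2
    have s0 : 0 < s := by linarith [hs.1]
    have mono : D * (n : ℝ) ^ (-c) ≤ D * (n : ℝ) ^ (-c') :=
      mul_le_mul_of_nonneg_left (Real.rpow_le_rpow_of_exponent_le nR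
        (neg_le_neg (min_le_left _ _))) hD
    refine ⟨ι, T, t₁, l, L, a₀, A, b1, le_trans ?_ b2, h.m1, h.var, h.good,
      fun a a' Q e1 e2 e3 e4 e5 m e6 e7 t ht => (h.path a a' Q e1 e2 e3 e4 e5 m e6 e7 t ht).mono
        (by gcongr), fun a a' Q e1 e2 e3 e4 e5 m e6 e7 =>
          (h.flow a a' Q e1 e2 e3 e4 e5 m e6 e7).trans (by gcongr)⟩
    have e : (n : ℝ) ^ (-(1 : ℝ) / 6) = (n : ℝ) ^ (-γ) * (n : ℝ) ^ (γ - 1 / 6) := by
      rw [← Real.rpow_add (by linarith)]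
      congr 1
      ring
    rw [e]
    calc _ = 4 ^ J * (n : ℝ) ^ (-γ) * (s * (n : ℝ) ^ (γ - 1 / 6)) := by ring
      _ ≤ 1 * (s * (n : ℝ) ^ (γ - 1 / 6)) := by gcongr
      _ = _ := one_mul _

/-- **the row from any class**: `k = 1 / 19`, the signal is discharged -/
theorem key_of_chnS' {β c γ D M : ℝ} (hβ : 1 < β) (hc : 0 < c) (hγ : 0 < γ) (hD : 0 ≤ D)
    (hM : 0 ≤ M) (H : ∀ᶠ n : ℕ in atTop, ∀ s ∈ Icc 1 ((n : ℝ) ^ ((1 : ℝ) / 19)),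
      ∃ (ι : Type) (T : Set ι) (t₁ : ι) (l : ∀ m, ι → Lv (Cube m))
        (L : ∀ m, ι → List (Lv (Cube m))) (a₀ A : ℝ), a₀ ≤ (n : ℝ) ^ (-(1 : ℝ) / 6) / 2 ∧
        s * (n : ℝ) ^ (γ - 1 / 6) ≤ A ∧ ChnS β n T l L t₁ a₀ A M (D * (n : ℝ) ^ (-c)) s) :
    Key β := by
  obtain ⟨c₀, h0, hl⟩ := Alt.lowS hβ
  exact key_of_chnS hc (by norm_num) (by norm_num) hγ hD hM H h0 hl

end Crest.Agent.T156.Cas.Chain26

end
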