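import Crest.Agent.T156.AltFam_88
import Crest.Agent.T156.ChainS_26
import Crest.Agent.T156.AltNum_11
import Crest.Agent.T156.PrBase_85
import Crest.Agent.T156.PrU_28
import Crest.Agent.T156.SoTop_88

/-!
# Row 156, ALT route: `StageTrans`, `TopC`, `TopF` (helper11)
-/

set_option autoImplicit false

noncomputable section

namespace Crest.Agent.T156.Alt

open MeasureTheory Real Set Filter Topology
open Crest.Agent.T157.E Crest.Agent.T157.Casc Crest.Agent.T157.SL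
open Crest.Agent.T157.G1 (ov fl FL)
open Crest.Agent.T156.Cas Crest.Agent.T156.Cas.Chain26

theorem WT.anti {n : ℕ} {T T' : Set Md} {a a' Q : ℝ} (h : WT n T a a' Q) (hT : T' ⊆ T) :
    WT n T' a a' Q := fun M hM => h M (hT hM)

theorem Stage.mono {n : ℕ} {s γ C δ δ' : ℝ} {M₀ : Md} {T : Set Md} (h : Stage n s γ C δ M₀ T)
    (hs : 0 ≤ s) (hδ : δ ≤ δ') : Stage n s γ C δ' M₀ T :=
  ⟨h.mem, h.leg, fun a a' Q w hQ wt m m1 m2 M hM =>
    (h.lnk a a' Q w hQ wt m m1 m2 M hM).trans (by gcongr)⟩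

theorem Flw.mono {n : ℕ} {s γ δ δ' : ℝ} {M : Md} (h : Flw n s γ δ M) (hs : 0 ≤ s) (hδ : δ ≤ δ') :
    Flw n s γ δ' M :=
  ⟨h.tot, fun a a' Q w hQ wt m m1 m2 => (h.flow a a' Q w hQ wt m m1 m2).trans (by gcongr)⟩

/-- **stages compose** -/
theorem stageTrans : StageTrans := by
  intro n s γ C δ δ' M₀ M₁ T T' hs hδ hδ' h h1 h'
  refine ⟨Or.inl h.mem, fun M hM => hM.elim (h.leg M) (h'.leg M),
    fun a a' Q w hQ wt m m1 m2 M hM => ?_⟩
  rcases hM with hM | hM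
  · exact (h.mono hs (le_add_of_nonneg_right hδ')).lnk a a' Q w hQ (wt.anti subset_union_left)
      m m1 m2 M hM
  · have k1 := h.lnk a a' Q w hQ (wt.anti subset_union_left) m m1 m2 M₁ h1
    have k2 := h'.lnk a a' Q w hQ (wt.anti subset_union_right) m m1 m2 M hM
    refine (abs_sub_le _ (M₁.V m a' - M₁.V m a) _).trans ?_
    linarith

theorem Stage.refl {n : ℕ} {s γ C δ : ℝ} {M : Md} (h : M.Leg (s * (n : ℝ) ^ (γ - 1 / 6)))
    (hC : M.d 0 ≤ C) (hs : 0 ≤ s) (hδ : 0 ≤ δ) : Stage n s γ C δ M {M} :=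
  ⟨rfl, fun _ hM => hM ▸ ⟨h, hC⟩, fun a a' Q _ hQ _ m _ _ M' hM => by
    rw [hM, sub_self, abs_zero]; positivity⟩

theorem Go.mono {δ δ' : ℝ} {p : Pm} {M₀ M₁ : Md} (h : Go δ p M₀ M₁) (hs : 0 ≤ p.s) (hδ : δ ≤ δ') :
    Go δ' p M₀ M₁ := h.imp fun _ h => ⟨h.1.mono hs hδ, h.2⟩

theorem Go.trans {δ δ' : ℝ} {p : Pm} {M₀ M₁ M₂ : Md} (h : Go δ p M₀ M₁) (h' : Go δ' p M₁ M₂)
    (hs : 0 ≤ p.s) (hδ : 0 ≤ δ) (hδ' : 0 ≤ δ') : Go (δ + δ') p M₀ M₂ := by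
  obtain ⟨T, a, b⟩ := h
  obtain ⟨T', a', b'⟩ := h'
  exact ⟨T ∪ T', stageTrans _ _ _ _ _ _ _ _ _ _ hs hδ hδ' a b a', Or.inr b'⟩

/-- finitely many stages -/
theorem Go.chain {p : Pm} (hs : 0 ≤ p.s) {M : ℕ → Md} {δ : ℕ → ℝ} (hδ : ∀ i, 0 ≤ δ i) :
    ∀ N : ℕ, (∀ i ≤ N, Go (δ i) p (M i) (M (i + 1))) →
      Go (∑ i ∈ Finset.range (N + 1), δ i) p (M 0) (M (N + 1))
  | 0, h => by simpa using h 0 le_rfl
  | N + 1, h => by
    rw [Finset.sum_range_succ]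
    exact (Go.chain hs hδ N fun i hi => h i (by omega)).trans (h _ le_rfl) hs
      (Finset.sum_nonneg fun i _ => hδ i) (hδ _)

namespace Top11

theorem ov_self {m : ℕ} (hm : 0 < m) (x : Cube m) : ov x x = 1 := by
  have hn' : (m : ℝ) ≠ 0 := Nat.cast_ne_zero.2 hm.ne'
  simp [ov, dotProduct, Link33.sv_sq, hn']

theorem mono_mx (m : ℕ) : ∀ (N : ℕ) (g d f : ℕ → ℝ) (x : ℝ), Monotone g → (∀ k, g k ≤ 1) →
    x ≤ g 0 → Mono x ((List.ofFn fun k : Fin N => (g k, d k, f k)).map (mxL m 1))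
  | 0, g, _, _, _, _, h1, h0 => by simpa [Mono] using h0.trans (h1 0)
  | N + 1, g, d, f, x, hg, h1, h0 => by
    rw [List.ofFn_succ]
    exact ⟨h0, mono_mx m N (fun k => g (k + 1)) (fun k => d (k + 1)) (fun k => f (k + 1)) (g 0)
      (fun _ _ h => hg (Nat.succ_le_succ h)) (fun k => h1 _) (hg (Nat.zero_le _))⟩

variable {M : Md} {x : ℝ} {m : ℕ}

theorem up_mono (h : M.Leg x) (m : ℕ) : Mono x (M.up m) :=
  mono_mx m M.N M.z (fun k => M.d (k + 1) - M.d k) (fun k => M.H (k + 1) - M.H k) x h.zm h.z1 h.z0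

theorem ov_mx (hm : 0 < m) {p : ℝ × ℝ × ℝ} (hd : 0 ≤ p.2.1) (hf : 0 ≤ p.2.2) :
    OvLv (mxL m 1 p) :=
  ⟨fun r => p.2.1 * (1 ^ 2 * m / 2 * r ^ 2) + p.2.2 * m * r, mxL_cov hm 1 hd hf⟩

theorem ov_dg (hm : 0 < m) {l : Lv (Cube m)} (h : OvLv l) (x y : Cube m) :
    l.cov y y = l.cov x x := by
  obtain ⟨φ, h⟩ := h
  rw [h, h, ov_self hm, ov_self hm]

theorem ov_all (h : M.Leg x) (hm : 0 < m) (a : ℝ) : ∀ l ∈ M.root m a :: M.up m, OvLv l := by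
  intro l hl
  rcases List.mem_cons.1 hl with rfl | hl
  · exact ov_mx hm h.d0 le_rfl
  · obtain ⟨p, hp, rfl⟩ := List.mem_map.1 hl
    obtain ⟨k, rfl⟩ := (List.mem_ofFn' _ _).1 hp
    exact ov_mx hm (sub_nonneg.2 (h.dm (Nat.le_succ _))) (sub_nonneg.2 (h.Hm (Nat.le_succ _)))

theorem root_cov (h : M.Leg x) (hm : 0 < m) (a : ℝ) (y : Cube m) :
    (M.root m a).cov y y = M.d 0 * m / 2 := by
  rw [Md.root, mxL_cov hm 1 h.d0 le_rfl, ov_self hm]; ring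

theorem up_sum (h : M.Leg x) (hm : 0 < m) (y : Cube m) :
    ((M.up m).map fun l => l.cov y y).sum = m * ((M.d M.N - M.d 0) / 2 + M.H M.N) := by
  have e : ∀ N : ℕ, ∑ k ∈ Finset.range N, (mxL m 1
      (M.z k, M.d (k + 1) - M.d k, M.H (k + 1) - M.H k)).cov y y =
      m * ((M.d N - M.d 0) / 2 + M.H N) := by
    intro N
    induction N with
    | zero => simp [h.H0]
    | succ N ih =>
      rw [Finset.sum_range_succ, ih, mxL_cov hm 1 (sub_nonneg.2 (h.dm (Nat.le_succ _)))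
        (sub_nonneg.2 (h.Hm (Nat.le_succ _))), ov_self hm]
      ring
  rw [← e, Md.up, Md.Mu, List.map_map, List.map_ofFn, List.sum_ofFn]
  exact Fin.sum_univ_eq_sum_range (fun k => (mxL m 1
    (M.z k, M.d (k + 1) - M.d k, M.H (k + 1) - M.H k)).cov y y) M.N

theorem good (h : M.Leg x) (hm : 0 < m) {B : ℝ} (hB : m * (1 + (M.b + M.H M.N)) ≤ B) :
    Flow26.Good (fun _ => 1) (M.root m 0) (M.up m) 0 x B := by
  have ho := ov_all h hm 0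
  refine Flow26.good_cube (up_mono h m) ho (fun l => l.cov (fun _ => true) fun _ => true)
    (fun l hl y => (ov_dg hm (ho l hl) _ y).le) (le_trans ?_ hB)
  have d1 : M.d 0 ≤ M.d M.N := h.dm (Nat.zero_le _)
  have H1 : 0 ≤ M.H M.N := h.H0 ▸ h.Hm (Nat.zero_le _)
  have m0 : (0 : ℝ) ≤ m := Nat.cast_nonneg m
  rw [up_sum h hm, root_cov h hm, abs_of_nonneg (mul_nonneg m0 (by linarith)), Md.b]
  nlinarith [mul_le_mul_of_nonneg_left d1 m0]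

theorem sk_V (β : ℝ) (hm : 0 < m) (a : ℝ) : (Md.sk β).V m a = Vv (wl m β 1 1) [] a := by
  have := Tp.step_sameC (w := fun _ : Cube m => (1 : ℝ)) ⟨fun _ => zero_le_one, by simp⟩ (c := 0)
    (l := mxL m 1 (a, β ^ 2, 0)) (l' := rt (wl m β 1 1) a) ⟨rfl, fun x y => by
      rw [mxL_cov hm 1 (sq_nonneg β) le_rfl]
      have e : (rt (wl m β 1 1) a).cov x y = (wl m β 1 1).cov x y := rfl
      rw [e, Link33.cov_wl m β _ _ x y hm zero_le_one]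
      ring⟩ [] 0
  rw [mul_zero, zero_div, add_zero] at this
  exact this

end Top11

open Top11

/-- **the top, chain form** -/
theorem topC : TopC := by
  intro β hβ γ c' C hγ hc H _
  refine key_of_chnS' (D := 1) (M := |C| + 2) hβ hc hγ zero_le_one (by positivity) ?_
  filter_upwards [H, eventually_ge_atTop 1] with n hn n1 s hs
  obtain ⟨T, M, hM, hS, hF⟩ := hn s hs
  have nR : (1 : ℝ) ≤ n := by exact_mod_cast n1
  refine ⟨Md, T, M, fun m t => t.root m 0, fun m t => t.up m, _, _, le_rfl, le_rfl, hM,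
    fun m m1 _ t ht x => ?_, fun m m1 _ => ?_, fun a a' Q e1 e2 e3 e4 e5 m e6 e7 t ht => ?_,
    fun a a' Q e1 e2 e3 e4 e5 m e6 e7 => ?_⟩
  · rw [root_cov (hS.leg t ht).1 (by omega)]
    have := (hS.leg t ht).2
    have m0 : (0 : ℝ) ≤ m := Nat.cast_nonneg m
    nlinarith [le_abs_self C, abs_nonneg C, mul_le_mul_of_nonneg_right this m0,
      mul_le_mul_of_nonneg_right (le_abs_self C) m0, mul_nonneg (abs_nonneg C) m0]
  · refine good (hS.leg M hM).1 (by omega) ?_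
    have m0 : (0 : ℝ) ≤ m := Nat.cast_nonneg m
    have a1 : 1 ≤ (n : ℝ) ^ ((1 : ℝ) / 12) := one_le_rpow nR (by norm_num)
    have a2 : 1 + (M.b + M.H M.N) ≤ (|C| + 2) * (n : ℝ) ^ ((1 : ℝ) / 12) := by
      nlinarith [hF.tot, abs_nonneg C]
    rw [mul_comm]
    exact mul_le_mul_of_nonneg_right a2 m0
  · have := hS.lnk a a' Q ⟨e1, e2, e3⟩ e4 (fun M' hM' m' a1 a2 => (e5 m' a1 a2).2 M' hM')
      m e6 e7 t ht
    rw [sk_V β (by omega), sk_V β (by omega)] at this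
    rw [one_mul]
    exact this
  · rw [one_mul]
    exact hF.flow a a' Q ⟨e1, e2, e3⟩ e4 (fun M' hM' m' a1 a2 => hM' ▸ (e5 m' a1 a2).2 M hM)
      m e6 e7

/-- the row from one gain statement: a stage from SK and the flow at its end -/
theorem key_of_go {β : ℝ} (hβ : 1 < β) (h : Gain β fun δ p =>
    ∃ M, Go δ p (Md.sk p.β) M ∧ Flw p.n p.s p.ga δ M) : Soft.Key β := by
  obtain ⟨c0, C0, c00, C01, K0, hK⟩ := Pr.baseS Pr.lipFS β hβ
  obtain ⟨A, a1, A1⟩ := ((h c0 C0 c00 C01).and (eventually_ge_atTop 1)).exists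
  obtain ⟨c, ⟨c', c1, b1⟩, cp, -⟩ := (a1.and (ev_small one_pos)).exists
  refine topC β hβ (c / 100) c' (β ^ 2) (by positivity) c1 ?_ (lowS hβ)
  filter_upwards [b1, eventually_ge_atTop K0] with n hn nK s hs
  obtain ⟨J, z, hz⟩ := hK (n ^ A) (nK.trans (Nat.le_self_pow (by omega) n))
  obtain ⟨M, ⟨T, a, b⟩, f⟩ := hn ⟨β, n, A, c, s, J, z⟩ rfl rfl rfl rfl
    ⟨by simpa [Pm.v] using hz, hs.1, hs.2⟩
  exact ⟨T, M, b, a, f⟩

/-- **the row** -/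
theorem topF : TopF := by
  intro β g hβ h0 h1 h2 h3 h4
  refine key_of_go hβ ?_
  have h := (((h0.and_sub h1).and_sub h2).and_sub h3).and_sub h4
  refine h.impF (Loss.triv β) (Par.triv.mono fun _ _ _ _ _ _ _ _ _ _ c1 hc1 =>
    ⟨c1 / 2, half_pos hc1, c1 / 2, half_pos hc1, 3, fun p _ _ x H _ => ?_⟩)
  obtain ⟨⟨d3, -, e3, ⟨d2, -, e2, ⟨d1, -, e1, ⟨_, -, -, ⟨hP, ⟨P3, p3⟩, m1, y1⟩⟩,
    t1, t1p, t1e, T1⟩, t2, t2p, t2e, T2⟩, t3, t3p, t3e, T3⟩, t4, -, t4e, T4⟩ := H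
  have s0 := x.s_pos.le
  have M1 : p.Mem 1 p.y1 := Or.inr ⟨rfl, le_max_left _ _, y1⟩
  have k7 : p.κ ^ 7 ≤ p.κ := pow_le_of_le_one x.κ_pos.le x.κ_le_one (by norm_num)
  obtain ⟨P1, p1⟩ := hP _ m1 ((x.μ_le M1).trans k7)
  obtain ⟨P2, p2⟩ := hP _ (x.μ0_le_μ x.mem_end) ((x.μ_le x.mem_end).trans k7)
  have d0 : 0 < (p.n : ℝ) ^ (-c1) := rpow_pos_of_pos x.n_pos _
  have e : 3 * (p.n : ℝ) ^ (-c1) ≤ (p.n : ℝ) ^ (-(c1 / 2)) :=
    calc 3 * (p.n : ℝ) ^ (-c1) ≤ (p.n : ℝ) ^ (c1 / 2) * (p.n : ℝ) ^ (-c1) :=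
          mul_le_mul_of_nonneg_right x.big.le_rpow d0.le
      _ = _ := by rw [← rpow_add x.n_pos]; congr 1; ring
  refine ⟨p.tst P3 p.ye, (((T1 P1 p1).trans (T2 P1 P2 p1 p2) s0 t1p.le t2p.le).trans
    (T3 P2 P3 p2 p3) s0 (by linarith) t3p.le).mono s0 (by linarith), (T4 P3 p3).mono s0 ?_⟩
  linarith

theorem s27_of_topF {β g : ℝ} (hβ : 1 < β) (h0 : Gain β (PlEx g)) (h1 : Gain β ThinS)
    (h2 : Gain β TestS) (h3 : Gain β (SprS g)) (h4 : Gain β (FlwS g)) : Soft.S27 β :=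
  Soft.s27_of_key (topF β g hβ h0 h1 h2 h3 h4)

end Crest.Agent.T156.Alt

end
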