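import Crest.Agent.T156.Crv_56
import Crest.Agent.T156.CaTilt_43
import Crest.Agent.T156.SgnCas_69

/-!
# Row 156: small marks are free (they move to tilt `1` by the dyadic transfer) (helper56)
-/

set_option autoImplicit false
set_option linter.unusedSectionVars false

noncomputable section

namespace Crest.Agent.T156.Cas

open MeasureTheory Real Set Filter Topology
open Crest.Agent.T157.E Crest.Agent.T157.Casc Crest.Agent.T157.SL
open Trf

variable {Ω : Type} [Fintype Ω] {w : Ω → ℝ}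

/-- affine moves of the tilts of the upper levels give a family -/
theorem fam_tl (hw : Wt w) {l : Lv Ω} {M : List (Lv Ω)} {L : List (Lv Ω × ℝ)} {h : Ω → ℝ}
    {T : Set (Equiv.Perm Ω)} {x₀ : Ω} {α β : ℝ}
    (hL : ∀ p ∈ L, ∀ t ∈ Icc α β, 0 ≤ p.1.m + t * p.2)
    (hT : ∀ τ ∈ T, Sym w (l :: M ++ L.map Prod.fst) h τ) (htr : ∀ x, w x ≠ 0 → ∃ τ ∈ T, τ x₀ = x) :
    Fam w l M (tl L) h T x₀ α β :=
  ⟨hw, tiltStmt Ω w hw L α β hL, fun τ hτ t _ => ⟨(hT τ hτ).w, (hT τ hτ).h, fun k hk => by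
    rcases List.mem_append.1 hk with hk | hk
    · exact (hT τ hτ).cov k (List.mem_append_left _ hk)
    · obtain ⟨p, hp, rfl⟩ := List.mem_map.1 hk
      exact (hT τ hτ).cov p.1 (List.mem_append_right _ (List.mem_map_of_mem hp))⟩, htr⟩

/-- slopes of the value along an affine move of the tilts -/
theorem tl_sub (hw : Wt w) {c : Lv Ω × ℝ → ℝ} {t t' : ℝ} (ht : t ≤ t') :
    ∀ L : List (Lv Ω × ℝ), (∀ p ∈ L, ∀ x, p.1.cov x x ≤ c p) → ∀ z,
      X w (tl L t) z + (t' - t) / 2 * (L.map fun p => min p.2 0 * c p).sum ≤ X w (tl L t') z ∧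
      X w (tl L t') z ≤ X w (tl L t) z + (t' - t) / 2 * (L.map fun p => max p.2 0 * c p).sum
  | [], _, z => by simp [tl]
  | p :: L, hc, z => by
    have ih := tl_sub hw ht L fun q hq => hc q (List.mem_cons_of_mem _ hq)
    have a1 := C.X_append_le hw hw (fun z => (ih z).2) [rt p.1 (p.1.m + t' * p.2)] z
    have a2 := C.X_append_le hw hw (M := tl L t) (M' := tl L t')
      (c := -((t' - t) / 2 * (L.map fun p => min p.2 0 * c p).sum))
      (fun z => by linarith [(ih z).1]) [rt p.1 (p.1.m + t' * p.2)] z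
    have e : ∀ u, tl (p :: L) u = rt p.1 (p.1.m + u * p.2) :: tl L u := fun _ => rfl
    simp only [List.singleton_append] at a1 a2
    simp only [e, List.map_cons, List.sum_cons]
    rcases le_total 0 p.2 with h0 | h0
    · have b := X_rt_sub hw p.1 (tl L t) z (hc p (by simp)) (a := p.1.m + t * p.2)
        (a' := p.1.m + t' * p.2) (by nlinarith)
      rw [min_eq_right h0, max_eq_left h0]
      constructor <;> linarith [b.1, b.2]
    · have b := X_rt_sub hw p.1 (tl L t) z (hc p (by simp)) (a := p.1.m + t' * p.2)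
        (a' := p.1.m + t * p.2) (by nlinarith)
      rw [min_eq_left h0, max_eq_right h0]
      constructor <;> linarith [b.1, b.2]

/-- the tilt `m ≥ x` after the move that carries `x` to `u` and fixes `1` -/
def upm (x m u : ℝ) : ℝ := (m - x) / (1 - x) + u * ((1 - m) / (1 - x))

/-- all tilts move affinely to `1`; `u` is the position of the tilt `x` -/
def upT (N : List (Lv Ω)) (x u : ℝ) : List (Lv Ω) := N.map fun l => rt l (upm x l.m u)

namespace Ann56

variable {x m m' u : ℝ}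

theorem upm_self (hx : x < 1) : upm x m x = m := by
  have : 1 - x ≠ 0 := by linarith
  unfold upm; field_simp; ring

theorem upm_one (hx : x < 1) : upm x m 1 = 1 := by
  have : 1 - x ≠ 0 := by linarith
  unfold upm; field_simp; ring

theorem upm_low (hx : x < 1) : upm x x u = u := by
  have : 1 - x ≠ 0 := by linarith
  unfold upm; field_simp; ring

theorem upm_top (hx : x < 1) : upm x 1 u = 1 := by
  have : 1 - x ≠ 0 := by linarith
  unfold upm; field_simp; ring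

theorem upm_mono (hx : x < 1) (hu : u ≤ 1) (h : m ≤ m') : upm x m u ≤ upm x m' u := by
  have h0 : 0 < 1 - x := by linarith
  have e : upm x m' u - upm x m u = (m' - m) * (1 - u) / (1 - x) := by
    unfold upm; field_simp; ring
  have := div_nonneg (mul_nonneg (sub_nonneg.2 h) (sub_nonneg.2 hu)) h0.le
  linarith

theorem le_upm (hx : x < 1) (hu : x ≤ u) (h : m ≤ 1) : m ≤ upm x m u := by
  have h0 : 0 < 1 - x := by linarith
  have e : upm x m u - m = (u - x) * (1 - m) / (1 - x) := by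
    unfold upm; field_simp; ring
  have := div_nonneg (mul_nonneg (sub_nonneg.2 hu) (sub_nonneg.2 h)) h0.le
  linarith

theorem upm_upm {v : ℝ} (hx : x < 1) (hu : u < 1) : upm u (upm x m u) v = upm x m v := by
  have : 1 - x ≠ 0 := by linarith
  have : 1 - u ≠ 0 := by linarith
  unfold upm; field_simp; ring

theorem mono_mem : ∀ {N : List (Lv Ω)} {m0 : ℝ}, Mono m0 N → ∀ l ∈ N, m0 ≤ l.m ∧ l.m ≤ 1
  | [], _, _, _, hl => by simp at hl
  | k :: N, _, h, l, hl => by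
    rcases List.mem_cons.1 hl with rfl | hl
    · exact ⟨h.1, (mono_ex h.2).trans (ex_le_one h.2)⟩
    · exact ⟨h.1.trans (mono_mem h.2 l hl).1, (mono_mem h.2 l hl).2⟩

theorem mono_up (hx : x < 1) (hu : u ≤ 1) : ∀ {N : List (Lv Ω)} {m0 : ℝ}, Mono m0 N →
    Mono (upm x m0 u) (upT N x u)
  | [], _, h => (upm_mono hx hu h).trans_eq (upm_top hx)
  | _ :: _, _, h => ⟨upm_mono hx hu h.1, mono_up hx hu h.2⟩

theorem mono_app_up (hx : x < 1) (hu : u ∈ Icc x 1) {N : List (Lv Ω)} :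
    ∀ {M : List (Lv Ω)} {m0 : ℝ}, Mono m0 (M ++ N) → Mono m0 (M ++ upT N x u)
  | [], _, h => mono_le (mono_up hx hu.2 h)
      (le_upm hx hu.1 ((mono_ex h).trans (ex_le_one h)))
  | _ :: _, _, h => ⟨h.1, mono_app_up hx hu h.2⟩

/-- the move in the form `tl` -/
def pr (N : List (Lv Ω)) (x : ℝ) : List (Lv Ω × ℝ) :=
  N.map fun l => (rt l ((l.m - x) / (1 - x)), (1 - l.m) / (1 - x))

theorem tl_pr (N : List (Lv Ω)) (x : ℝ) : tl (pr N x) = upT N x := by
  funext u
  simp only [tl, pr, upT, List.map_map]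
  rfl

theorem X_top (hw : Wt w) (x₀ : Ω) : ∀ N : List (Lv Ω),
    (∀ l ∈ N, l.m = 1 ∧ ∀ y, l.cov y y = l.cov x₀ x₀) → ∃ c, ∀ z, X w N z = X w [] z + c
  | [], _ => ⟨0, fun z => by simp⟩
  | l :: N, H => by
    obtain ⟨c, hc⟩ := X_top hw x₀ N fun k hk => H k (List.mem_cons_of_mem _ hk)
    refine ⟨l.cov x₀ x₀ / 2 + c, fun z => ?_⟩
    have a1 := C.X_append_le hw hw (fun z => (hc z).le) [l] z
    have a2 := C.X_append_le hw hw (M := []) (M' := N) (c := -c)
      (fun z => by linarith [hc z]) [l] z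
    have b := C.X_annealed_const hw (H l (by simp)).1 (H l (by simp)).2 z
    simp only [List.singleton_append] at a1 a2
    linarith

end Ann56

open Ann56

theorem upT_self (N : List (Lv Ω)) {x : ℝ} (hx : x < 1) : upT N x x = N := by
  simp only [upT, upm_self hx]
  exact List.map_id _

theorem upT_upT (N : List (Lv Ω)) {x u : ℝ} (hx : x < 1) (hu : u < 1) (v : ℝ) :
    upT (upT N x u) u v = upT N x v := by
  simp only [upT, List.map_map]
  exact List.map_congr_left fun l _ => congrArg (rt l) (upm_upm hx hu)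

theorem mono_upT {N : List (Lv Ω)} {x u : ℝ} (hx : x < 1) (hu : u ≤ 1) (h : Mono x N) :
    Mono u (upT N x u) := by
  have := mono_up hx hu h
  rwa [upm_low hx] at this

/-- **small marks are free**: along the move to tilt `1`, from any point `u` of the path -/
theorem anneal (hw : Wt w) {l : Lv Ω} {M N : List (Lv Ω)} {h : Ω → ℝ} {T : Set (Equiv.Perm Ω)}
    {x₀ : Ω} {a a' x u W S : ℝ} {J : ℕ} (hT : ∀ τ ∈ T, Sym w (l :: M ++ N) h τ)
    (htr : ∀ y, w y ≠ 0 → ∃ τ ∈ T, τ x₀ = y) (hd : ∀ k ∈ N, ∀ y, k.cov y y = k.cov x₀ x₀)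
    (ha : 0 < a) (haa : a ≤ a') (hx : a' < x) (hx1 : x < 1) (hu : u ∈ Icc x 1)
    (hM : Mono a' (M ++ N)) (hN : Mono x N) (hJ : 1 - a' ≤ 2 ^ J * (x - a'))
    (hS : (N.map fun k => (1 - k.m) * k.cov x₀ x₀).sum ≤ 2 * (1 - x) * S)
    (hW : ∀ v ∈ Icc x 1, Wd w l (M ++ upT N x v) h a a' ≤ W) :
    |X w (rt l a' :: M ++ upT N x u) h - X w (rt l a :: M ++ upT N x u) h -
      (X w (rt l a' :: M) h - X w (rt l a :: M) h)| ≤ J * √(6 * (a' - a) * W * S) := by
  have h0 : 0 < 1 - x := by linarith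
  have hr : ∀ k ∈ N, 0 ≤ (1 - k.m) / (1 - x) := fun k hk =>
    div_nonneg (sub_nonneg.2 (mono_mem hN k hk).2) h0.le
  have H : Fam w l M (upT N x) h T x₀ u 1 := by
    rw [← tl_pr]
    refine fam_tl hw (fun p hp t ht => ?_) (fun τ hτ => ⟨(hT τ hτ).w, (hT τ hτ).h, fun k hk => ?_⟩)
      htr
    · obtain ⟨k, hk, rfl⟩ := List.mem_map.1 hp
      exact add_nonneg (div_nonneg (sub_nonneg.2 (mono_mem hN k hk).1) h0.le)
        (mul_nonneg (by linarith [hu.1, ht.1]) (hr k hk))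
    · rcases List.mem_append.1 hk with hk | hk
      · exact (hT τ hτ).cov k (List.mem_append_left _ hk)
      · obtain ⟨p, hp, rfl⟩ := List.mem_map.1 hk
        obtain ⟨k', hk', rfl⟩ := List.mem_map.1 hp
        exact (hT τ hτ).cov k' (List.mem_append_right _ hk')
  have hcov : ∀ k : Lv Ω, 0 ≤ k.cov x₀ x₀ := fun k => Finset.sum_nonneg fun _ _ => mul_self_nonneg _
  have hS0 : 0 ≤ S := by
    have : 0 ≤ (N.map fun k => (1 - k.m) * k.cov x₀ x₀).sum := List.sum_nonneg fun r hr => by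
      obtain ⟨k, hk, rfl⟩ := List.mem_map.1 hr
      exact mul_nonneg (sub_nonneg.2 (mono_mem hN k hk).2) (hcov k)
    exact nonneg_of_mul_nonneg_right (this.trans hS) (by linarith)
  have sl : ∀ t t', t ≤ t' → ∀ z, X w (upT N x t) z ≤ X w (upT N x t') z + 0 ∧
      X w (upT N x t') z ≤ X w (upT N x t) z + S * (t' - t) := fun t t' ht z => by
    have b := tl_sub hw (c := fun p => p.1.cov x₀ x₀) ht (pr N x) (fun p hp y => by
      obtain ⟨k, hk, rfl⟩ := List.mem_map.1 hp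
      exact (hd k hk y).le) z
    have e1 : ((pr N x).map fun p => min p.2 0 * p.1.cov x₀ x₀).sum = 0 :=
      List.sum_eq_zero fun r hr' => by
        obtain ⟨p, hp, rfl⟩ := List.mem_map.1 hr'
        obtain ⟨k, hk, rfl⟩ := List.mem_map.1 hp
        simp only [min_eq_right (hr k hk), zero_mul]
    have e2 : ((pr N x).map fun p => max p.2 0 * p.1.cov x₀ x₀).sum =
        (1 - x)⁻¹ * (N.map fun k => (1 - k.m) * k.cov x₀ x₀).sum := by
      rw [← List.sum_map_mul_left, pr, List.map_map]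
      refine congrArg _ (List.map_congr_left fun k hk => ?_)
      show max ((1 - k.m) / (1 - x)) 0 * k.cov x₀ x₀ = _
      rw [max_eq_left (hr k hk)]
      ring
    have e3 : (1 - x)⁻¹ * (N.map fun k => (1 - k.m) * k.cov x₀ x₀).sum ≤ 2 * S := by
      rw [inv_mul_le_iff₀ h0]; linarith
    rw [tl_pr, e1, e2] at b
    have := mul_le_mul_of_nonneg_left e3 (show 0 ≤ (t' - t) / 2 by linarith)
    constructor <;> linarith [b.1, b.2]
  have key := H.transfer_dyadic (a := a) (a' := a') (K := S) (W := W) (S := S) (lo := fun _ => 0)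
    (J := J) ha haa (hx.trans_le hu.1) hu.2
    (hJ.trans (mul_le_mul_of_nonneg_left (by linarith [hu.1]) (by positivity)))
    ((Wd_nonneg hw l _ h haa).trans (hW 1 ⟨hx1.le, le_rfl⟩)) hS0
    (fun t ht => mono_app_up hx1 ⟨hu.1.trans ht.1, ht.2⟩ hM)
    (fun t ht => mono_ex (mono_upT hx1 ht.2 hN))
    (fun t _ t' _ z => by
      rcases le_total t t' with h1 | h1
      · rw [abs_sub_comm, abs_sub_comm t, abs_of_nonneg (sub_nonneg.2 h1), abs_le]
        have := mul_nonneg hS0 (sub_nonneg.2 h1)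
        constructor <;> linarith [(sl t t' h1 z).1, (sl t t' h1 z).2]
      · rw [abs_of_nonneg (sub_nonneg.2 h1), abs_le]
        have := mul_nonneg hS0 (sub_nonneg.2 h1)
        constructor <;> linarith [(sl t' t h1 z).1, (sl t' t h1 z).2])
    (fun t ht => hW t ⟨hu.1.trans ht.1, ht.2⟩)
    (fun s _ t _ t' _ h1 => by
      have b1 := C.X_append_le hw hw (fun z => (sl t t' h1 z).1) (rt l s :: M) h
      have b2 := C.X_append_le hw hw (fun z => (sl t t' h1 z).2) (rt l s :: M) h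
      constructor <;> linarith)
  obtain ⟨c, hc⟩ := X_top hw x₀ (upT N x 1) fun k hk => by
    obtain ⟨k', hk', rfl⟩ := List.mem_map.1 hk
    exact ⟨upm_one hx1, hd k' hk'⟩
  have top : ∀ s, X w (rt l s :: M ++ upT N x 1) h = X w (rt l s :: M) h + c := fun s => by
    have a1 := C.X_append_le hw hw (fun z => (hc z).le) (rt l s :: M) h
    have a2 := C.X_append_le hw hw (M := []) (M' := upT N x 1) (c := -c)
      (fun z => by linarith [hc z]) (rt l s :: M) h
    rw [List.append_nil] at a1 a2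
    linarith
  rw [top, top, abs_sub_comm] at key
  refine le_of_eq_of_le (congrArg _ ?_) key
  ring

/-- a thin slice of the root level moves to a fixed tilt -/
theorem slice (hw : Wt w) (l : Lv Ω) (L : List (Lv Ω)) (h : Ω → ℝ) {τ c x a a' : ℝ} (m : ℝ)
    (h0 : 0 ≤ τ) (h1 : τ ≤ 1) (hc : ∀ y, l.cov y y ≤ c) (ha : a ∈ Icc 0 x) (ha' : a' ∈ Icc 0 x)
    (hc0 : 0 ≤ c) :
    |X w (rt l a' :: L) h - X w (rt l a :: L) h -
      (X w (rt (lv l (1 - τ) m) a' :: lv l τ x :: L) h -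
        X w (rt (lv l (1 - τ) m) a :: lv l τ x :: L) h)| ≤ x / 2 * (τ * c) := by
  have key : ∀ s ∈ Icc 0 x, X w (rt l s :: L) h ≤ X w (rt (lv l (1 - τ) m) s :: lv l τ x :: L) h + 0 ∧
      X w (rt (lv l (1 - τ) m) s :: lv l τ x :: L) h ≤ X w (rt l s :: L) h + x / 2 * (τ * c) := by
    intro s hs
    have e : X w (rt l s :: L) = X w (rt (lv l (1 - τ) m) s :: rt (lv l τ x) s :: L) :=
      C.X_split hw (l := rt l s) (l1 := rt (lv l (1 - τ) m) s) (l2 := rt (lv l τ x) s) rfl rfl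
        (fun y y' => by
        show l.cov y y' = (lv l (1 - τ) m).cov y y' + (lv l τ x).cov y y'
        rw [cov_lv, cov_lv, sq_sqrt h0, sq_sqrt (sub_nonneg.2 h1)]; ring) L
    have b := fun z => X_rt_sub hw (lv l τ x) L z (c := τ * c) (a := s) (a' := x) (fun y => by
      rw [cov_lv, sq_sqrt h0]; exact mul_le_mul_of_nonneg_left (hc y) h0) hs.2
    have p := mul_nonneg hs.1 (mul_nonneg h0 hc0)
    rw [e]
    exact ⟨C.X_append_le hw hw (M := rt (lv l τ x) s :: L) (M' := lv l τ x :: L)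
        (fun z => by linarith [(b z).1]) [_] h,
      C.X_append_le hw hw (M := lv l τ x :: L) (M' := rt (lv l τ x) s :: L)
        (fun z => by linarith [(b z).2]) [_] h⟩
  have k1 := key a ha
  have k2 := key a' ha'
  rw [abs_le]
  constructor <;> linarith [k1.1, k1.2, k2.1, k2.2]

/-! ### the cube, in terms of curves -/

theorem ov_diag {n : ℕ} {k : Lv (Cube n)} (hk : OvLv k) (x₀ y : Cube n) :
    k.cov y y = k.cov x₀ x₀ := by
  obtain ⟨τ, hτ, rfl⟩ := TS_trans x₀ y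
  exact (sym_act₀ (L := [k]) (by simpa using hk) τ hτ).cov k (by simp) x₀ x₀

/-- `anneal` for curves on the cube -/
theorem anneal_crv {n : ℕ} (hn : 0 < n) {l : Lv (Cube n)} {M N : List (Lv (Cube n))}
    (x₀ : Cube n) {s₁ s lam x u B S : ℝ} {J : ℕ} (hO : ∀ k ∈ l :: M ++ N, OvLv k)
    (h1 : 0 < s₁) (hs : s₁ ≤ s) (hl : 1 < lam) (hx : s * (n : ℝ) ^ (-(1 : ℝ) / 6) < x)
    (hx1 : x < 1) (hu : u ∈ Icc x 1) (hM : Mono (s * (n : ℝ) ^ (-(1 : ℝ) / 6)) (M ++ N))
    (hN : Mono x N)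
    (hJ : 1 - s * (n : ℝ) ^ (-(1 : ℝ) / 6) ≤ 2 ^ J * (x - s * (n : ℝ) ^ (-(1 : ℝ) / 6)))
    (hS : (N.map fun k => (1 - k.m) * k.cov x₀ x₀).sum ≤ 2 * (1 - x) * S) (hS0 : 0 ≤ S)
    (hB : ∀ v ∈ Icc x 1, crv n s₁ (fun _ => 1) l (M ++ upT N x v) 0 (lam * s) ≤ B) :
    |crv n s₁ (fun _ => 1) l (M ++ upT N x u) 0 s - crv n s₁ (fun _ => 1) l M 0 s| ≤
      (n : ℝ) ^ (-(1 : ℝ) / 6) * (J * √(6 * (lam / (lam - 1) * (s * B)) * S)) := by
  have hw : Wt fun _ : Cube n => (1 : ℝ) := Link33.wt1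
  have kW := fun v => Wd_le_crv hw hn l (M ++ upT N x v) 0 h1 hs hl
  have B0 : 0 ≤ B := (crv_nonneg hw n l _ 0 (hs.trans (le_mul_of_one_le_left (h1.le.trans hs)
    hl.le))).trans (hB 1 ⟨hx1.le, le_rfl⟩)
  simp only [crv] at *
  set e := (n : ℝ) ^ (-(1 : ℝ) / 6) with he
  have e0 : 0 < e := rpow_pos_of_pos (Nat.cast_pos.2 hn) _
  have q0 : 0 ≤ lam / (lam - 1) := div_nonneg (by linarith) (by linarith)
  have key := anneal hw (x₀ := x₀) (W := lam / (lam - 1) * B / e) (sym_act₀ hO)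
    (fun y _ => TS_trans x₀ y)
    (fun k hk y => ov_diag (hO k (List.mem_append_right _ hk)) x₀ y) (mul_pos h1 e0)
    (mul_le_mul_of_nonneg_right hs e0.le) hx hx1 hu hM hN hJ hS fun v hv => by
      rw [le_div_iff₀ e0, mul_comm]
      exact (kW v).trans (mul_le_mul_of_nonneg_left (hB v hv) q0)
  rw [← mul_sub, abs_mul, abs_of_pos e0]
  refine mul_le_mul_of_nonneg_left (key.trans (mul_le_mul_of_nonneg_left (sqrt_le_sqrt
    (mul_le_mul_of_nonneg_right ?_ hS0)) (by positivity))) e0.le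
  have r : 6 * (s * e - s₁ * e) * (lam / (lam - 1) * B / e) =
      6 * (lam / (lam - 1) * ((s - s₁) * B)) := by field_simp
  rw [r]
  have := mul_le_mul_of_nonneg_left (mul_le_mul_of_nonneg_right
    (show s - s₁ ≤ s by linarith) B0) q0
  linarith

/-- `slice` for the SK curve -/
theorem slice_sk {n : ℕ} (hn : 0 < n) (β m : ℝ) {s₁ s τ x : ℝ} (h1 : 0 < s₁) (hs : s₁ ≤ s)
    (hx : s * (n : ℝ) ^ (-(1 : ℝ) / 6) ≤ x) (h0 : 0 ≤ τ) (hτ : τ ≤ 1) :
    |Soft.Ln n β s₁ s - crv n s₁ (fun _ => 1) (wl n β (1 - τ) m) [wl n β τ x] 0 s| ≤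
      (n : ℝ) ^ (-(1 : ℝ) / 6) * (x / 2 * (τ * (β ^ 2 * n / 2))) := by
  rw [Ln_eq_crv hn β m h1.ne' (h1.trans_le hs).ne']
  simp only [crv]
  set e := (n : ℝ) ^ (-(1 : ℝ) / 6) with he
  have e0 : 0 < e := rpow_pos_of_pos (Nat.cast_pos.2 hn) _
  have hc : ∀ y, (wl n β 1 m).cov y y ≤ β ^ 2 * n / 2 := fun y => by
    rw [linkStmt.1 n β 1 m y y hn zero_le_one]
    have : T157.G1.ov y y = 1 := by
      have hn' : (n : ℝ) ≠ 0 := Nat.cast_ne_zero.2 hn.ne'
      simp [T157.G1.ov, dotProduct, Link33.sv_sq, hn']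
    rw [this]; linarith
  have a1 := mul_le_mul_of_nonneg_right hs e0.le
  have key := slice (Link33.wt1 (n := n)) (T157.G1.Jw n β) [] 0 (x := x) (a := s₁ * e)
    (a' := s * e) m h0 hτ (c := β ^ 2 * n / 2) (fun y => by
      have := hc y
      rwa [cov_lv, sqrt_one, one_pow, one_mul] at this)
    ⟨(mul_pos h1 e0).le, a1.trans hx⟩ ⟨(mul_pos h1 e0).le.trans a1, hx⟩ (by positivity)
  rw [rt_eq_lv (T157.G1.Jw n β) (s * e), rt_eq_lv (T157.G1.Jw n β) (s₁ * e)] at key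
  rw [← mul_sub, abs_mul, abs_of_pos e0]
  exact mul_le_mul_of_nonneg_left key e0.le

/-- **the start of the path**: SK against the root `W` of variance `1 - τ` with small marks `N`
(at any point `u` of their move to tilt `1`) -/
theorem start_sk {n : ℕ} (hn : 0 < n) (β m : ℝ) {N : List (Lv (Cube n))} (x₀ : Cube n)
    {s₁ s lam τ x u B S : ℝ} {J : ℕ} (hO : ∀ k ∈ N, OvLv k) (h1 : 0 < s₁) (hs : s₁ ≤ s)
    (hl : 1 < lam) (hx : s * (n : ℝ) ^ (-(1 : ℝ) / 6) < x) (hx1 : x < 1) (hu : u ∈ Icc x 1)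
    (h0 : 0 ≤ τ) (hτ : τ ≤ 1) (hN : Mono x N)
    (hJ : 1 - s * (n : ℝ) ^ (-(1 : ℝ) / 6) ≤ 2 ^ J * (x - s * (n : ℝ) ^ (-(1 : ℝ) / 6)))
    (hS : (N.map fun k => (1 - k.m) * k.cov x₀ x₀).sum ≤ 2 * (1 - x) * S)
    (hS1 : τ * (β ^ 2 * n / 4) ≤ S)
    (hB : ∀ v ∈ Icc x 1,
      crv n s₁ (fun _ => 1) (wl n β (1 - τ) m) (upT N x v) 0 (lam * s) ≤ B)
    (hB' : ∀ v ∈ Icc x 1,
      crv n s₁ (fun _ => 1) (wl n β (1 - τ) m) (upT [wl n β τ x] x v) 0 (lam * s) ≤ B) :
    |Soft.Ln n β s₁ s - crv n s₁ (fun _ => 1) (wl n β (1 - τ) m) (upT N x u) 0 s| ≤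
      (n : ℝ) ^ (-(1 : ℝ) / 6) *
        (x * S + 2 * (J * √(6 * (lam / (lam - 1) * (s * B)) * S))) := by
  have hS0 : 0 ≤ S := le_trans (by positivity) hS1
  have k1 := slice_sk hn β m h1 hs hx.le h0 hτ
  have mN : Mono x [wl n β τ x] := ⟨le_rfl, hx1.le⟩
  have k2 := anneal_crv hn (l := wl n β (1 - τ) m) (M := []) (N := [wl n β τ x]) x₀ (S := S)
    (fun k hk => by
      simp only [List.cons_append, List.nil_append, List.mem_cons, List.not_mem_nil,
        or_false] at hk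
      rcases hk with rfl | rfl <;> exact ovLv_wl _ _ _ _)
    h1 hs hl hx hx1 ⟨le_rfl, hx1.le⟩ (mono_le mN hx.le) mN hJ (by
      have hn' : (n : ℝ) ≠ 0 := Nat.cast_ne_zero.2 hn.ne'
      have o : T157.G1.ov x₀ x₀ = 1 := by simp [T157.G1.ov, dotProduct, Link33.sv_sq, hn']
      simp only [List.map_cons, List.map_nil, List.sum_cons, List.sum_nil, add_zero]
      rw [linkStmt.1 n β τ x x₀ x₀ hn h0, o]
      have := mul_le_mul_of_nonneg_left hS1 (show 0 ≤ 2 * (1 - x) by linarith)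
      linarith) hS0 hB'
  have k3 := anneal_crv hn (l := wl n β (1 - τ) m) (M := []) (N := N) x₀ (S := S)
    (fun k hk => by
      rcases List.mem_cons.1 hk with rfl | hk
      · exact ovLv_wl _ _ _ _
      · exact hO k hk)
    h1 hs hl hx hx1 hu (mono_le hN hx.le) hN hJ hS hS0 hB
  rw [List.nil_append, upT_self _ hx1] at k2
  rw [List.nil_append] at k3
  have e0 : 0 < (n : ℝ) ^ (-(1 : ℝ) / 6) := rpow_pos_of_pos (Nat.cast_pos.2 hn) _
  have x0 : 0 ≤ x := ((mul_pos (h1.trans_le hs) e0).trans hx).le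
  have k4 := mul_le_mul_of_nonneg_left (mul_le_mul_of_nonneg_left hS1 x0) e0.le
  rw [abs_le] at k1 k2 k3 ⊢
  constructor <;> linarith [k1.1, k1.2, k2.1, k2.2, k3.1, k3.2]

/-- the number of dyadic steps -/
theorem exists_J {d : ℝ} (h0 : 0 < d) (h1 : d ≤ 1) :
    ∃ J : ℕ, 1 ≤ 2 ^ J * d ∧ (J : ℝ) ≤ 1 + 2 * log d⁻¹ := by
  have hl : 0 ≤ log d⁻¹ := log_nonneg (one_le_inv₀ h0 |>.2 h1)
  have l2 : (1 : ℝ) / 2 ≤ log 2 := by linarith [log_two_gt_d9]
  refine ⟨⌈2 * log d⁻¹⌉₊, ?_, by linarith [Nat.ceil_lt_add_one (show 0 ≤ 2 * log d⁻¹ by linarith)]⟩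
  rw [← div_le_iff₀ h0, one_div, ← exp_log (inv_pos.2 h0), ← exp_log (show (0 : ℝ) < 2 ^ _ by
    positivity), log_pow, exp_le_exp, exp_log (inv_pos.2 h0)]
  have := mul_le_mul (Nat.le_ceil (2 * log d⁻¹)) l2 (by norm_num) (by positivity)
  linarith

end Crest.Agent.T156.Cas

end
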