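import Crest.Agent.T156.Fin_26

/-!
# Row 156, closure with model classes that depend on the tilt (helper5)

The class of models joining size `n` to size `n'` may depend on `(n, n', s)`; the comparison is
only asked on `[s₁, l ^ J s]` for a fixed `J` with `r + k ≤ c J`.
-/

set_option autoImplicit false
open Filter Topology Set

namespace Crest.Agent.T156.Soft

open Fin26

/-- nesting of tilt intervals inside one class -/
theorem nest_5 {G : Set (ℝ → ℝ)} {L : ℝ → ℝ} {s₁ l s ε E T B₀ : ℝ} {J : ℕ} (hl : 1 ≤ l)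
    (hs : 0 ≤ s) (ε0 : 0 ≤ ε) (ε1 : ε ≤ 1 / 2) (E0 : 0 ≤ E) (T0 : 0 ≤ T) (B0 : 0 ≤ B₀)
    (hT : ∀ f ∈ G, ∀ u ∈ Icc s₁ (l ^ (J + 1) * s), f u ≤ T)
    (hF : ∀ u ∈ Icc s₁ (l ^ J * s), ∀ B : ℝ, 0 ≤ B → (∀ g ∈ G, ∀ v ∈ Icc s₁ (l * u), g v ≤ B) →
      ∀ f ∈ G, |f u - L u| ≤ ε * (B + E))
    (hL : ∀ u ∈ Icc s₁ (l ^ J * s), L u ≤ B₀) :
    ∀ f ∈ G, ∀ u ∈ Icc s₁ s, |f u - L u| ≤ ε * (2 * B₀ + 2 * E + ε ^ J * T) := by
  have l0 : 0 ≤ l := by linarith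
  have ind : ∀ i j : ℕ, i + j = J → ∀ g ∈ G, ∀ v ∈ Icc s₁ (l ^ (j + 1) * s),
      g v ≤ 2 * B₀ + E + ε ^ i * T := by
    intro i
    induction i with
    | zero =>
      intro j hj g hg v hv
      obtain rfl : j = J := by omega
      have := hT g hg v hv
      rw [pow_zero, one_mul]
      linarith
    | succ i ih =>
      intro j hj g hg v hv
      have m : v ∈ Icc s₁ (l ^ J * s) := ⟨hv.1, hv.2.trans
        (mul_le_mul_of_nonneg_right (pow_le_pow_right₀ hl (by omega)) hs)⟩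
      have p0 : 0 ≤ ε ^ i * T := by positivity
      have a1 := (abs_le.1 (hF v m _ (by positivity) (fun g' hg' w hw =>
        ih (j + 1) (by omega) g' hg' w ⟨hw.1, hw.2.trans (by
          rw [pow_succ' l (j + 1), mul_assoc]
          exact mul_le_mul_of_nonneg_left hv.2 l0)⟩) g hg)).2
      have a2 := hL v m
      have a3 := mul_le_mul_of_nonneg_right ε1 (show 0 ≤ 2 * B₀ + 2 * E by positivity)
      rw [pow_succ']
      nlinarith
  intro f hf u hu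
  have m : u ∈ Icc s₁ (l ^ J * s) :=
    ⟨hu.1, hu.2.trans (le_mul_of_one_le_left hs (one_le_pow₀ hl))⟩
  refine (hF u m _ (by positivity) (fun g hg v hv => ind J 0 rfl g hg v ⟨hv.1, hv.2.trans ?_⟩)
    f hf).trans_eq (by ring)
  rw [zero_add, pow_one]
  exact mul_le_mul_of_nonneg_left hu.2 l0

/-- classes that depend on `(n, n', s)` -/
structure Cls (L : ℕ → ℝ → ℝ) (s₁ l A r D c k C' : ℝ) (J n₀ : ℕ) : Prop where
  s1 : 1 ≤ s₁
  hl : 1 ≤ l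
  hc : 0 < c
  hk : 0 < k
  hr : 0 ≤ r
  hC : 0 ≤ C'
  hJ : r + k ≤ c * J
  triv : ∀ n : ℕ, n₀ ≤ n → ∀ s, s₁ ≤ s → L n s ≤ A * s * (n : ℝ) ^ r
  cls : ∀ n n' : ℕ, n₀ ≤ n → n ≤ n' → n' ≤ 2 * n → ∀ s ∈ Icc s₁ ((n : ℝ) ^ k),
    ∃ G : Set (ℝ → ℝ), L n' ∈ G ∧
      (∀ f ∈ G, ∀ u ∈ Icc s₁ (l ^ (J + 1) * s), f u ≤ A * u * (n : ℝ) ^ r) ∧
      ∀ u ∈ Icc s₁ (l ^ J * s), ∀ B : ℝ, 0 ≤ B → (∀ g ∈ G, ∀ v ∈ Icc s₁ (l * u), g v ≤ B) →
        ∀ f ∈ G, |f u - L n u| ≤ D * (n : ℝ) ^ (-c) * (B + s ^ C')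

variable {L : ℕ → ℝ → ℝ} {s₁ l A r D c k C' : ℝ} {J n₀ : ℕ}

theorem Cls.fam (H : Cls L s₁ l A r D c k C' J n₀) : ∃ (A' D' : ℝ) (n₁ : ℕ),
    Fam L (fun n => {f | ∃ n' : ℕ, n ≤ n' ∧ n' ≤ 2 * n ∧ f = L n'}) s₁ (l ^ J) A' r D' c k C' n₁ := by
  have s1 := H.s1
  have hl := H.hl
  have l0 : 0 < l := by linarith
  obtain ⟨n₁, h₁⟩ := eventually_atTop.1 ((ev_small H.hc |D| (1 / 2) (by norm_num)).and
    ((eventually_ge_atTop n₀).and (eventually_ge_atTop 1)))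
  set Q := |D| ^ J * (|A| * l ^ (J + 1)) with hQ
  have Q0 : 0 ≤ Q := by positivity
  refine ⟨|A| * 2 ^ r, |D| * (2 + Q), n₁, s1, one_le_pow₀ hl, H.hc, H.hk, H.hr, H.hC,
    fun n n' _ h2 h3 => ⟨n', h2, h3, rfl⟩, ?_, ?_⟩
  · rintro n hn _ ⟨n', h2, h3, rfl⟩ s hs
    have sp : 0 < s := by linarith
    refine (H.triv n' ((h₁ n hn).2.1.trans h2) s hs).trans ?_
    have a1 : (n' : ℝ) ^ r ≤ 2 ^ r * (n : ℝ) ^ r := by
      rw [← Real.mul_rpow (by norm_num) (Nat.cast_nonneg n)]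
      exact Real.rpow_le_rpow (Nat.cast_nonneg _) (by exact_mod_cast h3) H.hr
    calc A * s * (n' : ℝ) ^ r ≤ |A| * s * (2 ^ r * (n : ℝ) ^ r) :=
        mul_le_mul (mul_le_mul_of_nonneg_right (le_abs_self A) sp.le) a1 (by positivity)
          (by positivity)
      _ = _ := by ring
  · rintro n hn s hs hs' B B0 hB _ ⟨n', h2, h3, rfl⟩
    obtain ⟨e1, e2, e3⟩ := h₁ n hn
    have sp : 0 < s := by linarith
    have n1 : (1 : ℝ) ≤ n := by exact_mod_cast e3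
    have np : (0 : ℝ) < n := by linarith
    obtain ⟨G, g1, g2, g3⟩ := H.cls n n' e2 h2 h3 s ⟨hs, hs'⟩
    have E1 : 1 ≤ s ^ C' := Real.one_le_rpow (s1.trans hs) H.hC
    have a1 := nest_5 (G := G) (L := L n) (s₁ := s₁) (ε := |D| * (n : ℝ) ^ (-c)) (E := s ^ C')
      (T := |A| * (l ^ (J + 1) * s) * (n : ℝ) ^ r) (J := J) hl sp.le (by positivity) e1
      (by positivity) (by positivity) B0
      (fun f hf u hu => (g2 f hf u hu).trans (mul_le_mul_of_nonneg_right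
        (mul_le_mul (le_abs_self A) hu.2 (by linarith [hu.1]) (abs_nonneg A)) (by positivity)))
      (fun u hu B' B0' hB' f hf => (g3 u hu B' B0' hB' f hf).trans
        (mul_le_mul_of_nonneg_right (mul_le_mul_of_nonneg_right (le_abs_self D) (by positivity))
          (by positivity)))
      (fun u hu => hB _ ⟨n, le_rfl, by omega, rfl⟩ u hu.1 hu.2) _ g1 s ⟨hs, le_rfl⟩
    refine a1.trans ?_
    have a2 : (|D| * (n : ℝ) ^ (-c)) ^ J * (|A| * (l ^ (J + 1) * s) * (n : ℝ) ^ r) ≤ Q := by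
      have b1 : ((n : ℝ) ^ (-c)) ^ J * (s * (n : ℝ) ^ r) ≤ 1 := by
        refine (mul_le_mul_of_nonneg_left (mul_le_mul_of_nonneg_right hs' (by positivity))
          (by positivity)).trans ?_
        rw [← Real.rpow_natCast, ← Real.rpow_mul np.le, ← Real.rpow_add np, ← Real.rpow_add np]
        exact Real.rpow_le_one_of_one_le_of_nonpos n1 (by linarith [H.hJ])
      calc _ = Q * (((n : ℝ) ^ (-c)) ^ J * (s * (n : ℝ) ^ r)) := by rw [hQ, mul_pow]; ring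
        _ ≤ Q := mul_le_of_le_one_right Q0 b1
    have a3 : 2 * B + 2 * s ^ C' + (|D| * (n : ℝ) ^ (-c)) ^ J *
        (|A| * (l ^ (J + 1) * s) * (n : ℝ) ^ r) ≤ (2 + Q) * (B + s ^ C') := by
      nlinarith [mul_nonneg Q0 B0, mul_le_mul_of_nonneg_left E1 Q0]
    calc _ ≤ |D| * (n : ℝ) ^ (-c) * ((2 + Q) * (B + s ^ C')) :=
        mul_le_mul_of_nonneg_left a3 (by positivity)
      _ = _ := by ring

/-- **closure, classes depending on the tilt**; the lower bound is for the target curves -/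
theorem key_of_cls {β : ℝ} (H : Cls (fun n => Ln n β s₁) s₁ l A r D c k C' J n₀)
    (hlb : ∀ K δ : ℝ, 0 < δ → ∃ᶠ n : ℕ in atTop, ∃ s, s₁ ≤ s ∧ s ≤ δ * (n : ℝ) ^ k ∧
      K * (n : ℝ) ^ (-c) * s ^ C' ≤ Ln n β s₁ s) : Key β := by
  obtain ⟨A', D', n₁, h⟩ := H.fam
  exact key_of_family h fun K δ hδ => (hlb K δ hδ).mono fun n ⟨s, h1⟩ =>
    ⟨_, ⟨n, le_rfl, by omega, rfl⟩, s, h1⟩

/-- the same with a signal `c₀ s ^ q`, `k (C' - q) < c`, at `s = δ n ^ k` -/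
theorem key_of_cls' {β q c₀ : ℝ} (H : Cls (fun n => Ln n β s₁) s₁ l A r D c k C' J n₀)
    (hq : k * (C' - q) < c) (h0 : 0 < c₀)
    (hlb : ∀ δ : ℝ, 0 < δ → δ ≤ 1 → ∃ᶠ n : ℕ in atTop,
      c₀ * (δ * (n : ℝ) ^ k) ^ q ≤ Ln n β s₁ (δ * (n : ℝ) ^ k)) : Key β := by
  refine key_of_cls H fun K δ hδ => ?_
  set d := min δ 1 with hd
  have d0 : 0 < d := lt_min hδ one_pos
  have e1 := ev_small (c := c - k * (C' - q)) (by linarith) (|K| * d ^ (C' - q)) c₀ h0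
  have e2 : ∀ᶠ n : ℕ in atTop, s₁ / d ≤ (n : ℝ) ^ k :=
    ((tendsto_rpow_atTop H.hk).comp tendsto_natCast_atTop_atTop).eventually_ge_atTop _
  refine ((hlb d d0 (min_le_right _ _)).and_eventually
    (e1.and (e2.and (eventually_ge_atTop 1)))).mono ?_
  rintro n ⟨h1, h2, h3, h4⟩
  have np : (0 : ℝ) < n := by exact_mod_cast h4
  have sp : 0 < d * (n : ℝ) ^ k := by positivity
  refine ⟨d * (n : ℝ) ^ k, by rwa [div_le_iff₀' d0] at h3,
    mul_le_mul_of_nonneg_right (min_le_left _ _) (by positivity), le_trans ?_ h1⟩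
  refine le_trans ?_ (mul_le_mul_of_nonneg_right h2 (by positivity))
  have e : (d * (n : ℝ) ^ k) ^ C' =
      d ^ (C' - q) * (n : ℝ) ^ (k * (C' - q)) * (d * (n : ℝ) ^ k) ^ q := by
    rw [Real.rpow_mul np.le, ← Real.mul_rpow d0.le (by positivity), ← Real.rpow_add sp,
      sub_add_cancel]
  rw [e, show -(c - k * (C' - q)) = -c + k * (C' - q) by ring, Real.rpow_add np]
  calc _ = K * (d ^ (C' - q) * ((n : ℝ) ^ (-c) * (n : ℝ) ^ (k * (C' - q))) *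
        (d * (n : ℝ) ^ k) ^ q) := by ring
    _ ≤ |K| * (d ^ (C' - q) * ((n : ℝ) ^ (-c) * (n : ℝ) ^ (k * (C' - q))) *
        (d * (n : ℝ) ^ k) ^ q) := mul_le_mul_of_nonneg_right (le_abs_self K) (by positivity)
    _ = _ := by ring

end Crest.Agent.T156.Soft
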