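import Crest.Agent.T156.CasDef_88
import Crest.Agent.T157.ConcL_16

/-!
# Row 156, cascade frame (helper68): Gaussian concentration under a log-concave tilt

`spl` is the strong Prékopa–Leindler inequality of the standard Gaussian (Maurey's property (τ)),
`concStmt` follows with Jensen's inequality.
-/

set_option autoImplicit false
set_option linter.unusedSectionVars false

noncomputable section

namespace Crest.Agent.T156.Cas

open MeasureTheory ProbabilityTheory Real Set Filter Topology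
open scoped ENNReal
open Crest.Agent.T157.E Crest.Agent.T157.Casc Crest.Agent.T157.SL
open Crest.Agent.Lib.PrekopaLeindler

variable {ι : Type} [Fintype ι]

theorem pl_vol68 (ι : Type) [Fintype ι] : PL (ι → ℝ) volume := by
  let e : Fin (Fintype.card ι) ≃ ι := (Fintype.equivFin ι).symm
  refine PL.of_measurePreserving (MeasurableEquiv.piCongrLeft (fun _ : ι => ℝ) e)
    (volume_measurePreserving_piCongrLeft (fun _ : ι => ℝ) e) ?_ (PL_pi _)
  intro a b x y
  ext i
  obtain ⟨j, rfl⟩ := e.surjective i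
  simp [MeasurableEquiv.piCongrLeft_apply_apply]

theorem Eg.int68 {Φ : (ι → ℝ) → ℝ} (h : Eg Φ) : Integrable Φ (gv ι) := by
  classical
  obtain ⟨C, c, -, -, h3⟩ := h.bd
  exact ((int_exp c).const_mul C).mono' h.cont.aestronglyMeasurable (.of_forall h3)

theorem pdf68 (y : ι → ℝ) : ∏ j, gaussianPDFReal 0 1 (y j) =
    exp (Fintype.card ι * log (√(2 * π))⁻¹ - (∑ j, y j ^ 2) / 2) := by
  have hc : (0 : ℝ) < (√(2 * π))⁻¹ := by positivity
  have h1 : ∀ j, gaussianPDFReal 0 1 (y j) = exp (log (√(2 * π))⁻¹ - y j ^ 2 / 2) := fun j => by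
    rw [gaussianPDFReal, sub_eq_add_neg (log _), exp_add, exp_log hc]
    simp [neg_div]
  simp_rw [h1]
  rw [← exp_sum, Finset.sum_sub_distrib, Finset.sum_const, Finset.card_univ, nsmul_eq_mul,
    Finset.sum_div]

theorem lint68 {a : (ι → ℝ) → ℝ} (hm : Measurable a) (hi : Integrable (fun g => exp (a g)) (gv ι)) :
    ∫⁻ y, ENNReal.ofReal
      (exp (Fintype.card ι * log (√(2 * π))⁻¹ - (∑ j, y j ^ 2) / 2 + a y)) =
      ENNReal.ofReal (∫ g, exp (a g) ∂gv ι) := by
  rw [ofReal_integral_eq_lintegral_ofReal hi (.of_forall fun _ => (exp_pos _).le),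
    show gv ι = _ from T157.Conc.gv_eq_withDensity, lintegral_withDensity_eq_lintegral_mul _ (by fun_prop) (by fun_prop)]
  refine lintegral_congr fun y => ?_
  rw [Pi.mul_apply, pdf68, ← ENNReal.ofReal_mul (exp_pos _).le, ← exp_add]

/-- strong Prékopa–Leindler inequality for the standard Gaussian -/
theorem spl {a b c : (ι → ℝ) → ℝ} (ha : Measurable a) (hb : Measurable b) (hc : Measurable c)
    (ia : Integrable (fun g => exp (a g)) (gv ι)) (ib : Integrable (fun g => exp (b g)) (gv ι))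
    (ic : Integrable (fun g => exp (c g)) (gv ι))
    (H : ∀ x y, (a x + b y) / 2 - (∑ i, (x i - y i) ^ 2) / 8 ≤
      c ((1 / 2 : ℝ) • x + (1 / 2 : ℝ) • y)) :
    (∫ g, exp (a g) ∂gv ι) * ∫ g, exp (b g) ∂gv ι ≤ (∫ g, exp (c g) ∂gv ι) ^ 2 := by
  have key := pl_vol68 ι (1 / 2) (by norm_num) (by norm_num)
    (fun y => ENNReal.ofReal
      (exp (Fintype.card ι * log (√(2 * π))⁻¹ - (∑ j, y j ^ 2) / 2 + a y)))
    (fun y => ENNReal.ofReal
      (exp (Fintype.card ι * log (√(2 * π))⁻¹ - (∑ j, y j ^ 2) / 2 + b y)))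
    (fun y => ENNReal.ofReal
      (exp (Fintype.card ι * log (√(2 * π))⁻¹ - (∑ j, y j ^ 2) / 2 + c y)))
    (by fun_prop) (by fun_prop) (by fun_prop) ?_
  · rw [lint68 ha ia, lint68 hb ib, lint68 hc ic] at key
    have pa : 0 ≤ ∫ g, exp (a g) ∂gv ι := integral_nonneg fun _ => (exp_pos _).le
    have pb : 0 ≤ ∫ g, exp (b g) ∂gv ι := integral_nonneg fun _ => (exp_pos _).le
    have pc : 0 ≤ ∫ g, exp (c g) ∂gv ι := integral_nonneg fun _ => (exp_pos _).le
    rw [show (1 : ℝ) - 1 / 2 = 1 / 2 by norm_num,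
      ← ENNReal.mul_rpow_of_nonneg _ _ (by norm_num), ← ENNReal.ofReal_mul pa,
      ENNReal.ofReal_rpow_of_nonneg (mul_nonneg pa pb) (by norm_num),
      ENNReal.ofReal_le_ofReal_iff pc, ← sqrt_eq_rpow] at key
    exact (sqrt_le_left pc).1 key
  · intro x y
    rw [show (1 : ℝ) - 1 / 2 = 1 / 2 by norm_num,
      ← ENNReal.mul_rpow_of_nonneg _ _ (by norm_num), ← ENNReal.ofReal_mul (exp_pos _).le,
      ENNReal.ofReal_rpow_of_nonneg (by positivity) (by norm_num), ← exp_add, ← exp_mul]
    refine ENNReal.ofReal_le_ofReal (exp_le_exp.2 ?_)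
    have e : ∑ j, ((1 / 2 : ℝ) • x + (1 / 2 : ℝ) • y) j ^ 2 =
        (∑ j, x j ^ 2) / 2 + (∑ j, y j ^ 2) / 2 - (∑ i, (x i - y i) ^ 2) / 4 := by
      simp only [Finset.sum_div, ← Finset.sum_add_distrib, ← Finset.sum_sub_distrib]
      refine Finset.sum_congr rfl fun j _ => ?_
      simp only [Pi.add_apply, Pi.smul_apply, smul_eq_mul]
      ring
    rw [e]
    linarith [H x y]

theorem lg_of_lip68 {f : (ι → ℝ) → ℝ} {K : ℝ}
    (hf : ∀ g g', (f g - f g') ^ 2 ≤ K ^ 2 * ∑ i, (g i - g' i) ^ 2) : Lg f := by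
  have h1 : ∀ g g', |f g - f g'| ≤ |K| * Fintype.card ι * ‖g - g'‖ := fun g g' => by
    refine abs_le_of_sq_le_sq' ?_ (by positivity) |> abs_le.2
    refine (hf g g').trans ?_
    have h2 : ∑ i, (g i - g' i) ^ 2 ≤ (Fintype.card ι * ‖g - g'‖) ^ 2 := by
      have h3 : ∑ i, (g i - g' i) ^ 2 ≤ (∑ i, |g i - g' i|) ^ 2 := by
        simpa only [sq_abs] using
          Finset.sum_sq_le_sq_sum_of_nonneg (s := Finset.univ) (f := fun i => |g i - g' i|)
            fun _ _ => abs_nonneg _
      refine h3.trans (pow_le_pow_left₀ (by positivity) ?_ 2)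
      refine (Finset.sum_le_sum fun i _ => norm_le_pi_norm (g - g') i).trans (le_of_eq ?_)
      simp
    rw [mul_assoc, mul_pow, sq_abs]
    exact mul_le_mul_of_nonneg_left h2 (sq_nonneg _)
  have hl : LipschitzWith (Real.toNNReal (|K| * Fintype.card ι)) f :=
    LipschitzWith.of_dist_le' fun x y => by rw [Real.dist_eq, dist_eq_norm]; exact h1 x y
  refine Lg.of hl.continuous |f 0| (|K| * Fintype.card ι) fun z => ?_
  have h2 := h1 z 0
  rw [sub_zero] at h2
  have h3 := abs_add_le (f 0) (f z - f 0)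
  rw [add_sub_cancel] at h3
  linarith

theorem concStmt : ConcStmt := by
  intro ι _ U f K hU lU hf t
  have lf := lg_of_lip68 hf
  have eU : Eg fun g => exp (-U g) := by simpa using lU.exp (-1)
  have eP : Eg fun g => exp (t * f g) := lf.exp t
  have eM : Eg fun g => exp (-t * f g) := lf.exp (-t)
  have mU : Measurable U := lU.eg.cont.measurable
  have mf : Measurable f := lf.eg.cont.measurable
  have Zp : 0 < ∫ g, exp (-U g) ∂gv ι := integral_exp_pos (Eg.int68 eU)
  have key := spl (a := fun g => -U g + t * f g - t ^ 2 * K ^ 2) (b := fun g => -U g + -t * f g)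
    (c := fun g => -U g) (by fun_prop) (by fun_prop) (by fun_prop)
    (by simpa only [sub_eq_add_neg, exp_add] using Eg.int68 ((eU.mul eP).mul_const _))
    (by simpa only [exp_add] using Eg.int68 (eU.mul eM)) (Eg.int68 eU) ?_
  · set Z := ∫ g, exp (-U g) ∂gv ι
    set μ := lE U f with hμ
    have e1 : ∫ g, exp (-U g + t * f g - t ^ 2 * K ^ 2) ∂gv ι =
        exp (t * μ - t ^ 2 * K ^ 2) * ∫ g, exp (-U g) * exp (t * (f g - μ)) ∂gv ι := by
      rw [← integral_const_mul]
      refine integral_congr_ae (.of_forall fun g => ?_)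
      simp only [← exp_add]
      congr 1
      ring
    have e2 : exp (-(t * μ)) * Z ≤ ∫ g, exp (-U g + -t * f g) ∂gv ι := by
      have i1 := Eg.int68 eU
      have i2 := Eg.int68 (eU.mul lf.eg)
      have e3 : ∫ g, exp (-U g) * f g ∂gv ι = μ * Z := by
        rw [hμ, lE, div_mul_cancel₀ _ Zp.ne']
      have e4 : exp (-(t * μ)) * Z = ∫ g, exp (-(t * μ)) *
          ((1 + t * μ) * exp (-U g) - t * (exp (-U g) * f g)) ∂gv ι := by
        rw [integral_const_mul, integral_sub (i1.const_mul _) (i2.const_mul _), integral_const_mul,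
          integral_const_mul, e3]
        ring
      rw [e4]
      refine integral_mono (((i1.const_mul _).sub (i2.const_mul _)).const_mul _)
        (by simpa only [exp_add] using Eg.int68 (eU.mul eM)) fun g => ?_
      have h5 := add_one_le_exp (t * μ - t * f g)
      have h6 : exp (-U g + -t * f g) = exp (-(t * μ)) * (exp (-U g) * exp (t * μ - t * f g)) := by
        simp only [← exp_add]
        congr 1
        ring
      simp only
      rw [h6]
      refine mul_le_mul_of_nonneg_left ?_ (exp_pos _).le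
      nlinarith [exp_pos (-U g)]
    have pI : 0 ≤ ∫ g, exp (-U g) * exp (t * (f g - μ)) ∂gv ι :=
      integral_nonneg fun _ => by positivity
    rw [e1] at key
    have h7 := (mul_le_mul_of_nonneg_left e2 (mul_nonneg (exp_pos _).le pI)).trans key
    rw [lE, div_le_iff₀ Zp]
    set I := ∫ g, exp (-U g) * exp (t * (f g - μ)) ∂gv ι
    have h8 : exp (t * μ - t ^ 2 * K ^ 2) * exp (-(t * μ)) * exp (t ^ 2 * K ^ 2) = 1 := by
      simp only [← exp_add]
      rw [← exp_zero]
      congr 1
      ring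
    have h9 := mul_le_mul_of_nonneg_left h7 (exp_pos (t ^ 2 * K ^ 2)).le
    have h10 : I * Z ≤ (exp (t ^ 2 * K ^ 2) * Z) * Z := by
      calc I * Z = exp (t * μ - t ^ 2 * K ^ 2) * exp (-(t * μ)) * exp (t ^ 2 * K ^ 2) * (I * Z) := by
            rw [h8, one_mul]
        _ = _ := by ring
        _ ≤ _ := h9
        _ = _ := by ring
    exact le_of_mul_le_mul_right h10 Zp
  · intro x y
    have h1 := hU.2 (mem_univ x) (mem_univ y) (show (0 : ℝ) ≤ 1 / 2 by norm_num)
      (show (0 : ℝ) ≤ 1 / 2 by norm_num) (by norm_num)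
    simp only [smul_eq_mul] at h1
    have h2 := hf x y
    set S := ∑ i, (x i - y i) ^ 2
    have hS : 0 ≤ S := Finset.sum_nonneg fun _ _ => sq_nonneg _
    have h3 : t * (f x - f y) ≤ t ^ 2 * K ^ 2 + S / 4 := by
      refine (le_abs_self _).trans (abs_le_of_sq_le_sq' ?_ (by positivity) |> abs_le.2)
      nlinarith [mul_le_mul_of_nonneg_left h2 (sq_nonneg t), sq_nonneg (t ^ 2 * K ^ 2 - S / 4)]
    linarith

end Crest.Agent.T156.Cas

end
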