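import Crest.Agent.T156.CasDef_88

/-!
# Row 156: symmetries of the cascade and the planted representation (helper84)
-/

set_option autoImplicit false
set_option linter.unusedSectionVars false
set_option linter.unusedVariables false

noncomputable section

namespace Crest.Agent.T156.Cas

open MeasureTheory Real Set Filter Topology
open Crest.Agent.T157.E Crest.Agent.T157.Casc Crest.Agent.T157.SL Crest.Agent.T157.Casc.C

namespace Sy84

variable {Ω : Type} [Fintype Ω]

lemma map_sum {ι κ α : Type} [Fintype ι] [Fintype κ] [MeasurableSpace α]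
    (A : (ι → ℝ) × (κ → ℝ) → α) (hA : Measurable A) :
    (gv (ι ⊕ κ)).map (fun g => A (fun i => g (.inl i), fun i => g (.inr i))) =
      ((gv ι).prod (gv κ)).map A := by
  have h := measurePreserving_sumPiEquivProdPi (X := fun _ : ι ⊕ κ => ℝ)
    (fun _ => ProbabilityTheory.gaussianReal 0 1)
  rw [← h.map_eq, Measure.map_map hA h.measurable]
  rfl

lemma map_congr {α β γ : Type} [MeasurableSpace α] [MeasurableSpace β] [MeasurableSpace γ]
    {μ : Measure α} {c : β → γ} {f g : α → β} (hc : Measurable c) (hf : Measurable f)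
    (hg : Measurable g) (H : μ.map f = μ.map g) : μ.map (c ∘ f) = μ.map (c ∘ g) := by
  rw [← Measure.map_map hc hf, ← Measure.map_map hc hg, H]

lemma cov_co {l : Lv Ω} {τ : Ω → Ω} (hl : ∀ x y, l.cov (τ x) (τ y) = l.cov x y) :
    l.cov = (coLv τ l).cov := by
  funext x y; rw [coLv_cov, hl]

lemma step_law (l : Lv Ω) (τ : Ω → Ω) (hl : ∀ x y, l.cov (τ x) (τ y) = l.cov x y)
    {κ α : Type} [Fintype κ] [MeasurableSpace α] (A A' : (Ω → ℝ) × (κ → ℝ) → α)
    (hA : Measurable A) (hA' : Measurable A')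
    (H : ∀ z : Ω → ℝ, (gv κ).map (fun g => A (fun y => z (τ y), g)) =
      (gv κ).map fun g => A' (z, g)) (h : Ω → ℝ) :
    ((gv l.ι).prod (gv κ)).map (fun p => A ((fun y => h (τ y)) + l.fld p.1, p.2)) =
      ((gv l.ι).prod (gv κ)).map fun p => A' (h + l.fld p.1, p.2) := by
  have hf := (cont_fld l).measurable
  have m1 : Measurable fun p : (l.ι → ℝ) × (κ → ℝ) =>
      A ((fun y => h (τ y)) + l.fld p.1, p.2) :=
    hA.comp (((hf.comp measurable_fst).const_add _).prodMk measurable_snd)
  have m2 : Measurable fun p : (l.ι → ℝ) × (κ → ℝ) => A' (h + l.fld p.1, p.2) :=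
    hA'.comp (((hf.comp measurable_fst).const_add _).prodMk measurable_snd)
  ext S hS
  rw [Measure.map_apply m1 hS, Measure.map_apply m2 hS, Measure.prod_apply (m1 hS),
    Measure.prod_apply (m2 hS)]
  have m3 : Measurable fun p : (Ω → ℝ) × (κ → ℝ) => A ((fun y => h (τ y)) + p.1, p.2) :=
    hA.comp ((measurable_fst.const_add _).prodMk measurable_snd)
  have hφ := measurable_measure_prodMk_left (ν := gv κ) (m3 hS)
  have e1 := lintegral_map (μ := gv l.ι) hφ hf
  have e2 := lintegral_map (μ := gv (coLv τ l).ι) hφ (cont_fld (coLv τ l)).measurable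
  rw [map_fld_eq (cov_co hl), e2] at e1
  refine e1.symm.trans (lintegral_congr fun g => ?_)
  have := congrArg (fun μ : Measure α => μ S) (H (h + l.fld g))
  exact (Measure.map_apply (hA.comp (measurable_const.prodMk measurable_id)) hS).symm.trans
    (this.trans (Measure.map_apply (hA'.comp (measurable_const.prodMk measurable_id)) hS))

/-- prepend a state -/
def cons1 (h : Ω → ℝ) (p : ℕ → Ω → ℝ) : ℕ → Ω → ℝ
  | 0 => h
  | j + 1 => p j

lemma meas_cons1 (h : Ω → ℝ) : Measurable (cons1 h) :=
  measurable_pi_lambda _ fun j => by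
    cases j with
    | zero => exact measurable_const
    | succ j => exact measurable_pi_apply j

lemma meas_re (τ : Ω → Ω) : Measurable fun (p : ℕ → Ω → ℝ) (j : ℕ) (y : Ω) => p j (τ y) :=
  measurable_pi_lambda _ fun j => measurable_pi_lambda _ fun y =>
    (measurable_pi_apply (τ y)).comp (measurable_pi_apply j)

lemma meas_reT {κ : Type} (τ : Ω → Ω) :
    Measurable fun (p : κ → ℕ → Ω → ℝ) (a : κ) (j : ℕ) (y : Ω) => p a j (τ y) :=
  measurable_pi_lambda _ fun a => (meas_re τ).comp (measurable_pi_apply a)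

lemma meas_adv (l : Lv Ω) {κ : Type} : Measurable fun q : (Ω → ℝ) × (l.ι ⊕ κ → ℝ) =>
    ((q.1 + l.fld fun i => q.2 (.inl i), fun i => q.2 (.inr i)) : (Ω → ℝ) × (κ → ℝ)) :=
  (measurable_fst.add ((cont_fld l).measurable.comp (measurable_pi_lambda _ fun i =>
    (measurable_pi_apply _).comp measurable_snd))).prodMk
    (measurable_pi_lambda _ fun i => (measurable_pi_apply _).comp measurable_snd)

lemma meas_st : ∀ L : List (Lv Ω),
    Measurable fun q : (Ω → ℝ) × (NI L → ℝ) => fun j => st L j q.1 q.2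
  | [] => measurable_pi_lambda _ fun j => by cases j <;> exact measurable_fst
  | l :: L => measurable_pi_lambda _ fun j => by
      cases j with
      | zero => exact measurable_fst
      | succ j => exact (measurable_pi_apply j).comp ((meas_st L).comp (meas_adv l))

lemma law_st (τ : Ω → Ω) : ∀ L : List (Lv Ω), (∀ l ∈ L, ∀ x y, l.cov (τ x) (τ y) = l.cov x y) →
    ∀ h : Ω → ℝ, (gv (NI L)).map (fun g j => st L j (fun y => h (τ y)) g) =
      (gv (NI L)).map fun g j y => st L j h g (τ y)
  | [], _, h => by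
      congr 1
      funext g j
      cases j <;> rfl
  | l :: L, hL, h => by
      have ih := law_st τ L fun l' hl => hL l' (List.mem_cons_of_mem _ hl)
      have hf := (cont_fld l).measurable
      have hA := (meas_cons1 fun y => h (τ y)).comp (meas_st L)
      have hA' := (meas_cons1 fun y => h (τ y)).comp ((meas_re τ).comp (meas_st L))
      have key := step_law l τ (hL l List.mem_cons_self) _ _ hA hA' (fun z =>
        map_congr (meas_cons1 _) ((meas_st L).comp (measurable_const.prodMk measurable_id))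
          ((meas_re τ).comp ((meas_st L).comp (measurable_const.prodMk measurable_id))) (ih z)) h
      have key' := (map_sum _ (hA.comp (((hf.comp measurable_fst).const_add _).prodMk
        measurable_snd))).trans (key.trans (map_sum _ (hA'.comp
          (((hf.comp measurable_fst).const_add _).prodMk measurable_snd))).symm)
      refine Eq.trans ?_ (key'.trans ?_) <;> congr 1 <;> funext g j <;> cases j <;> rfl

lemma meas_stT : ∀ (s : Sh) (L : List (Lv Ω)),
    Measurable fun q : (Ω → ℝ) × (NT s L → ℝ) => stT s L q.1 q.2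
  | .one, L => measurable_pi_lambda _ fun _ => meas_st L
  | .step s, [] => meas_stT s []
  | .step s, l :: L => measurable_pi_lambda _ fun a => measurable_pi_lambda _ fun j => by
      cases j with
      | zero => exact measurable_fst
      | succ j =>
        exact (measurable_pi_apply j).comp ((measurable_pi_apply a).comp
          ((meas_stT s L).comp (meas_adv l)))
  | .split s t, L => measurable_pi_lambda _ fun a => by
      cases a with
      | inl a =>
        exact (measurable_pi_apply a).comp ((meas_stT s L).comp (measurable_fst.prodMk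
          (measurable_pi_lambda _ fun i => (measurable_pi_apply _).comp measurable_snd)))
      | inr a =>
        exact (measurable_pi_apply a).comp ((meas_stT t L).comp (measurable_fst.prodMk
          (measurable_pi_lambda _ fun i => (measurable_pi_apply _).comp measurable_snd)))

lemma meas_stT' (s : Sh) (L : List (Lv Ω)) (h : Ω → ℝ) : Measurable (stT s L h) :=
  (meas_stT s L).comp (measurable_const.prodMk measurable_id)

lemma meas_elim {α β γ : Type} [MeasurableSpace γ] :
    Measurable fun q : (α → γ) × (β → γ) => Sum.elim q.1 q.2 :=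
  measurable_pi_lambda _ fun a => by
    cases a with
    | inl a => exact (measurable_pi_apply a).comp measurable_fst
    | inr a => exact (measurable_pi_apply a).comp measurable_snd

lemma law_stT (τ : Ω → Ω) : ∀ (s : Sh) (L : List (Lv Ω)),
    (∀ l ∈ L, ∀ x y, l.cov (τ x) (τ y) = l.cov x y) →
    ∀ h : Ω → ℝ, (gv (NT s L)).map (stT s L fun y => h (τ y)) =
      (gv (NT s L)).map fun g a j y => stT s L h g a j (τ y)
  | .one, L, hL, h => by
      have hc : Measurable fun (p : ℕ → Ω → ℝ) (_ : Unit) => p :=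
        measurable_pi_lambda _ fun _ => measurable_id
      exact map_congr hc ((meas_st L).comp (measurable_const.prodMk measurable_id))
        ((meas_re τ).comp ((meas_st L).comp (measurable_const.prodMk measurable_id)))
        (law_st τ L hL h)
  | .step s, [], hL, h => law_stT τ s [] hL h
  | .step s, l :: L, hL, h => by
      have ih := law_stT τ s L fun l' hl => hL l' (List.mem_cons_of_mem _ hl)
      have hf := (cont_fld l).measurable
      have hc : Measurable fun (p : s.Lf → ℕ → Ω → ℝ) (a : s.Lf) =>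
          cons1 (fun y => h (τ y)) (p a) :=
        measurable_pi_lambda _ fun a => (meas_cons1 _).comp (measurable_pi_apply a)
      have hA := hc.comp (meas_stT s L)
      have hA' := hc.comp ((meas_reT τ).comp (meas_stT s L))
      have key := step_law l τ (hL l List.mem_cons_self) _ _ hA hA' (fun z =>
        map_congr hc (meas_stT' s L _) ((meas_reT τ).comp (meas_stT' s L _)) (ih z)) h
      have key' := (map_sum _ (hA.comp (((hf.comp measurable_fst).const_add _).prodMk
        measurable_snd))).trans (key.trans (map_sum _ (hA'.comp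
          (((hf.comp measurable_fst).const_add _).prodMk measurable_snd))).symm)
      refine Eq.trans ?_ (key'.trans ?_) <;> congr 1 <;> funext g a j <;> cases j <;> rfl
  | .split s t, L, hL, h => by
      have h1 := law_stT τ s L hL h
      have h2 := law_stT τ t L hL h
      have a1 := meas_stT' s L fun y => h (τ y)
      have a2 := meas_stT' t L fun y => h (τ y)
      have b1 := (meas_reT τ).comp (meas_stT' s L h)
      have b2 := (meas_reT τ).comp (meas_stT' t L h)
      have key := (Measure.map_prod_map (gv (NT s L)) (gv (NT t L)) a1 a2).symm.trans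
        ((congrArg₂ Measure.prod h1 h2).trans (Measure.map_prod_map _ _ b1 b2))
      have key' := (map_sum _ (meas_elim.comp (a1.prodMap a2))).trans
        ((map_congr meas_elim (a1.prodMap a2) (b1.prodMap b2) key).trans
          (map_sum _ (meas_elim.comp (b1.prodMap b2))).symm)
      refine Eq.trans ?_ (key'.trans ?_) <;> congr 1 <;> funext g a <;> cases a <;> rfl

/-! ### invariance of the value and of the node law -/

lemma rel_sym {l : Lv Ω} {τ : Ω → Ω} (hl : ∀ x y, l.cov (τ x) (τ y) = l.cov x y) :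
    Rel (fun (h : Ω → ℝ) y => h (τ y)) 1 l l :=
  ⟨mul_one _, fun h G hG => int_fld_eq (cov_co hl) (G := fun f => G ((fun y => h (τ y)) + f))
    (hG.comp (measurable_const_add _))⟩

lemma fa_sym {τ : Ω → Ω} : ∀ L : List (Lv Ω), (∀ l ∈ L, ∀ x y, l.cov (τ x) (τ y) = l.cov x y) →
    List.Forall₂ (Rel (fun (h : Ω → ℝ) y => h (τ y)) 1) L L
  | [], _ => .nil
  | l :: L, hL => .cons (rel_sym (hL l List.mem_cons_self))
      (fa_sym L fun l' hl => hL l' (List.mem_cons_of_mem _ hl))

lemma sum_sym {w : Ω → ℝ} {τ : Equiv.Perm Ω} (hτ : ∀ x, w (τ x) = w x) (z : Ω → ℝ) :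
    ∑ x, w x * exp (z (τ x)) = ∑ x, w x * exp (z x) := by
  rw [← Equiv.sum_comp τ fun x => w x * exp (z x)]
  simp only [hτ]

lemma X_nil_sym {w : Ω → ℝ} {τ : Equiv.Perm Ω} (hτ : ∀ x, w (τ x) = w x) (z : Ω → ℝ) :
    X w [] (fun y => z (τ y)) = 1 * X w [] z + 0 := by
  simp only [X, sum_sym hτ, one_mul, add_zero]

lemma X_sym {w : Ω → ℝ} (hw : Wt w) {τ : Equiv.Perm Ω} (hτ : ∀ x, w (τ x) = w x)
    {L : List (Lv Ω)} (hL : ∀ l ∈ L, ∀ x y, l.cov (τ x) (τ y) = l.cov x y) (z : Ω → ℝ) :
    X w L (fun y => z (τ y)) = X w L z := by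
  simpa using X_transfer hw hw one_ne_zero (X_nil_sym hτ) (fa_sym L hL) z

lemma P_sym {w : Ω → ℝ} (hw : Wt w) {τ : Equiv.Perm Ω} (hτ : ∀ x, w (τ x) = w x)
    {L : List (Lv Ω)} (hL : ∀ l ∈ L, ∀ x y, l.cov (τ x) (τ y) = l.cov x y) (z : Ω → ℝ) (x : Ω) :
    P w L (fun y => z (τ y)) x = P w L z (τ x) := by
  have := P_transfer hw hw one_ne_zero (X_nil_sym hτ) (fa_sym L hL) z x
  rw [List.append_nil] at this
  rw [this, P_eq_node w L L.length z, List.drop_length]
  congr 1
  funext h'
  simp only [P, prob, sum_sym hτ, hτ]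

/-! ### the potentials as functions of the path -/

/-- the potential of one leaf -/
def U1 (w : Ω → ℝ) (L : List (Lv Ω)) (x : Ω) (p : ℕ → Ω → ℝ) : ℝ :=
  ∑ j ∈ Finset.range L.length, dm L 0 (j + 1) * X w (L.drop (j + 1)) (p (j + 1)) - p L.length x

/-- a leaf -/
def lf0 : ∀ s : Sh, s.Lf
  | .one => ()
  | .step s => lf0 s
  | .split s _ => .inl (lf0 s)

/-- the potential of a tree -/
def UP (w : Ω → ℝ) : (s : Sh) → List (Lv Ω) → (s.Lf → Ω) → (s.Lf → ℕ → Ω → ℝ) → ℝ
  | .one, L, x, p => U1 w L (x ()) (p ())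
  | .step s, [], x, p => UP w s [] x p + (s.br - 1) * X w [] (p (lf0 s) 0)
  | .step s, l :: L, x, p => UP w s L x (fun a j => p a (j + 1)) +
      (s.br * ex L 0 - l.m) * X w L (p (lf0 s) 1)
  | .split s t, L, x, p => UP w s L (fun a => x (.inl a)) (fun a => p (.inl a)) +
      UP w t L (fun a => x (.inr a)) fun a => p (.inr a)

lemma stT_zero : ∀ (s : Sh) (L : List (Lv Ω)) (h : Ω → ℝ) (g : NT s L → ℝ) (a : s.Lf),
    stT s L h g a 0 = h
  | .one, L, h, g, _ => by cases L <;> rfl
  | .step s, [], h, g, a => stT_zero s [] h g a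
  | .step _, _ :: _, _, _, _ => rfl
  | .split s _, L, h, _, .inl a => stT_zero s L h _ a
  | .split _ t, L, h, _, .inr a => stT_zero t L h _ a

lemma UT_eq (w : Ω → ℝ) : ∀ (s : Sh) (L : List (Lv Ω)) (h : Ω → ℝ) (x : s.Lf → Ω)
    (g : NT s L → ℝ), UT w s L h x g = UP w s L x (stT s L h g)
  | .one, _, _, _, _ => rfl
  | .step s, [], h, x, g => by
      change UT w s [] h x g + _ = UP w s [] x (stT s [] h g) + _ * X w [] (stT s [] h g (lf0 s) 0)
      rw [UT_eq w s, stT_zero]
  | .step s, l :: L, h, x, g => by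
      change UT w s L _ x _ + _ = UP w s L x (stT s L _ _) + _ * X w L (stT s L _ _ (lf0 s) 0)
      rw [UT_eq w s, stT_zero]
  | .split s t, L, h, x, g => by
      change UT w s L _ _ _ + UT w t L _ _ _ = UP w s L _ (stT s L _ _) + UP w t L _ (stT t L _ _)
      rw [UT_eq w s, UT_eq w t]

lemma meas_U1 {w : Ω → ℝ} (hw : Wt w) (L : List (Lv Ω)) (x : Ω) : Measurable (U1 w L x) :=
  (Finset.measurable_sum _ fun j _ => ((lp_X hw _).meas.comp
    (measurable_pi_apply (j + 1))).const_mul _).sub
    ((measurable_pi_apply x).comp (measurable_pi_apply L.length))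

lemma meas_UP {w : Ω → ℝ} (hw : Wt w) : ∀ (s : Sh) (L : List (Lv Ω)) (x : s.Lf → Ω),
    Measurable (UP w s L x)
  | .one, L, x => (meas_U1 hw L (x ())).comp (measurable_pi_apply ())
  | .step s, [], x => (meas_UP hw s [] x).add (((lp_X hw _).meas.comp
      ((measurable_pi_apply 0).comp (measurable_pi_apply (lf0 s)))).const_mul _)
  | .step s, _ :: L, x => ((meas_UP hw s L x).comp (measurable_pi_lambda _ fun a =>
      measurable_pi_lambda _ fun j => (measurable_pi_apply (j + 1)).comp
        (measurable_pi_apply a))).add (((lp_X hw _).meas.comp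
      ((measurable_pi_apply 1).comp (measurable_pi_apply (lf0 s)))).const_mul _)
  | .split s t, L, _ => ((meas_UP hw s L _).comp (measurable_pi_lambda _ fun a =>
      measurable_pi_apply (Sum.inl a))).add ((meas_UP hw t L _).comp
      (measurable_pi_lambda _ fun a => measurable_pi_apply (Sum.inr a)))

lemma U1_sym {w : Ω → ℝ} (hw : Wt w) {τ : Equiv.Perm Ω} (hτ : ∀ x, w (τ x) = w x)
    {L : List (Lv Ω)} (hL : ∀ l ∈ L, ∀ x y, l.cov (τ x) (τ y) = l.cov x y) (x : Ω)
    (p : ℕ → Ω → ℝ) : U1 w L x (fun j y => p j (τ y)) = U1 w L (τ x) p := by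
  simp only [U1, fun j => X_sym hw hτ fun l hl => hL l (List.mem_of_mem_drop (i := j) hl)]

lemma UP_sym {w : Ω → ℝ} (hw : Wt w) {τ : Equiv.Perm Ω} (hτ : ∀ x, w (τ x) = w x) :
    ∀ (s : Sh) (L : List (Lv Ω)), (∀ l ∈ L, ∀ x y, l.cov (τ x) (τ y) = l.cov x y) →
    ∀ (x : s.Lf → Ω) (p : s.Lf → ℕ → Ω → ℝ),
      UP w s L x (fun a j y => p a j (τ y)) = UP w s L (fun a => τ (x a)) p
  | .one, L, hL, x, p => U1_sym hw hτ hL _ _
  | .step s, [], hL, x, p =>
      congrArg₂ (· + ·) (UP_sym hw hτ s [] hL x p)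
        (congrArg (_ * ·) (X_sym hw hτ hL (p (lf0 s) 0)))
  | .step s, l :: L, hL, x, p => by
      have hL' : ∀ l' ∈ L, ∀ x y, l'.cov (τ x) (τ y) = l'.cov x y :=
        fun l' hl => hL l' (List.mem_cons_of_mem _ hl)
      exact congrArg₂ (· + ·) (UP_sym hw hτ s L hL' x fun a j => p a (j + 1))
        (congrArg (_ * ·) (X_sym hw hτ hL' (p (lf0 s) 1)))
  | .split s t, L, hL, x, p => by
      change UP w s L _ (fun a j y => p (.inl a) j (τ y)) +
        UP w t L _ (fun a j y => p (.inr a) j (τ y)) = UP w s L _ _ + UP w t L _ _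
      rw [UP_sym hw hτ s L hL _ fun a => p (.inl a), UP_sym hw hτ t L hL _ fun a => p (.inr a)]

lemma sym_symm {w : Ω → ℝ} {L : List (Lv Ω)} {h : Ω → ℝ} {τ : Equiv.Perm Ω} (H : Sym w L h τ) :
    Sym w L h τ.symm :=
  ⟨fun x => by rw [← H.w, τ.apply_symm_apply], fun x => by rw [← H.h, τ.apply_symm_apply],
    fun l hl x y => by rw [← H.cov l hl, τ.apply_symm_apply, τ.apply_symm_apply]⟩

lemma int_tree {w : Ω → ℝ} {L : List (Lv Ω)} {h : Ω → ℝ} {τ : Equiv.Perm Ω} (H : Sym w L h τ)
    (s : Sh) {G : (s.Lf → ℕ → Ω → ℝ) → ℝ} (hG : Measurable G) :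
    ∫ g, G (stT s L h g) ∂gv (NT s L) =
      ∫ g, G (fun a j y => stT s L h g a j (τ y)) ∂gv (NT s L) := by
  have := law_stT τ s L H.cov h
  rw [show (fun y => h (τ y)) = h from funext H.h] at this
  rw [← integral_map (meas_stT' s L h).aemeasurable hG.aestronglyMeasurable, this]
  exact integral_map ((meas_reT τ).comp (meas_stT' s L h)).aemeasurable hG.aestronglyMeasurable

lemma int_pot {w : Ω → ℝ} (hw : Wt w) {L : List (Lv Ω)} {h : Ω → ℝ} {τ : Equiv.Perm Ω}
    (H : Sym w L h τ) (s : Sh) (x : s.Lf → Ω) {G : ℝ × (s.Lf → ℕ → Ω → ℝ) → ℝ}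
    (hG : Measurable G) :
    ∫ g, G (UT w s L h (fun a => τ (x a)) g, stT s L h g) ∂gv (NT s L) =
      ∫ g, G (UT w s L h x g, fun a j y => stT s L h g a j (τ.symm y)) ∂gv (NT s L) := by
  have H' := sym_symm H
  simp only [UT_eq]
  rw [int_tree H' s (G := fun p => G (UP w s L (fun a => τ (x a)) p, p))
    (hG.comp ((meas_UP hw s L _).prodMk measurable_id))]
  simp only [UP_sym hw H'.w s L H'.cov, Equiv.symm_apply_apply]

lemma lE_tree {w : Ω → ℝ} (hw : Wt w) {L : List (Lv Ω)} {h : Ω → ℝ} {τ : Equiv.Perm Ω}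
    (H : Sym w L h τ) (s : Sh) (x : s.Lf → Ω) {F : (s.Lf → ℕ → Ω → ℝ) → ℝ} (hF : Measurable F) :
    lE (UT w s L h fun a => τ (x a)) (fun g => F (stT s L h g)) =
      lE (UT w s L h x) fun g => F fun a j y => stT s L h g a j (τ.symm y) := by
  rw [lE, lE, int_pot hw H s x (G := fun q => exp (-q.1) * F q.2)
      (measurable_fst.neg.exp.mul (hF.comp measurable_snd)),
    int_pot hw H s x (G := fun q => exp (-q.1)) measurable_fst.neg.exp]

end Sy84

open Sy84 in
theorem symStmt : SymStmt := by
  intro Ω _ w hw L h τ H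
  have hd : ∀ j, ∀ l ∈ L.drop j, ∀ x y, l.cov (τ x) (τ y) = l.cov x y :=
    fun j l hl => H.cov l (List.mem_of_mem_drop hl)
  refine ⟨fun j z => X_sym hw H.w (hd j) z, fun j z x => P_sym hw H.w (hd j) z x,
    fun x F hF => lE_tree hw H .one (fun _ => x) (F := fun p => F (p ()))
      (hF.comp (measurable_pi_apply ())), fun s x => ⟨?_, fun F hF => lE_tree hw H s x hF⟩⟩
  simp only [PT, denT, H.w]
  exact int_pot hw H s x (G := fun q => (∏ a, w (x a)) * exp (-q.1 - s.br * ex L 0 * X w L h))
    ((measurable_fst.neg.sub_const _).exp.const_mul _)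

theorem plantStmt : PlantStmt := by
  intro hPe hS Ω _ w hw L h T x₀ hT htr F hF hEg hinv
  rw [(hPe Ω w hw).2.2.1 L h _ fun _ => hEg, ← one_mul (lE (U w L h x₀) _), ← sum_P hw L h,
    Finset.sum_mul]
  refine Finset.sum_congr rfl fun x _ => ?_
  by_cases hx : w x = 0
  · simp [P_eq_zero hx]
  · obtain ⟨τ, hτ, rfl⟩ := htr x hx
    rw [(hS Ω w hw L h τ (hT τ hτ)).2.2.1 x₀ F hF]
    simp only [hinv τ hτ]

end Crest.Agent.T156.Cas

end
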