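import Crest.Agent.T156.Fin_26
import Crest.Agent.T156.CaTrf_56
import Crest.Agent.T156.CaConc_68
import Crest.Agent.T156.CaSym_84
import Crest.Agent.T156.CaLc_44
import Crest.Agent.T156.CaPe_45
import Crest.Agent.T156.SgnCas_69

/-!
# Row 156: the side conditions of the flow in `n` for cascades (helper26)

`V a = X w (rt l a :: L) h`, `E a = tE (rt l a) (X w L) (X w L) h`.  The planted law is log-concave,
so the root value is sub-Gaussian under the tilted law: `root_conc`, `root_tay`.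
-/

set_option autoImplicit false
set_option linter.unusedSectionVars false

noncomputable section

namespace Crest.Agent.T156.Cas.Flow26

open MeasureTheory Real Set Filter Topology
open Crest.Agent.T157.E Crest.Agent.T157.Casc Crest.Agent.T157.SL

variable {Ω : Type} [Fintype Ω] {w : Ω → ℝ} {F : (Ω → ℝ) → ℝ}

/-- moment generating function of the root value under the tilted law -/
theorem mgf_eq (hF : Lg F) (l : Lv Ω) (h : Ω → ℝ) (s t c : ℝ) :
    tE (rt l s) F (fun u => exp ((t - s) * (F u - c))) h =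
      exp (t * step (rt l t) F h - s * step (rt l s) F h - (t - s) * c) := by
  have e : ∀ g, exp (s * F (h + (rt l s).fld g)) * exp ((t - s) * (F (h + (rt l s).fld g) - c)) =
      exp (-((t - s) * c)) * exp (t * F (h + (rt l t).fld g)) := fun g => by
    rw [← exp_add, ← exp_add]; congr 1
    show s * F (h + l.fld g) + (t - s) * (F (h + l.fld g) - c) = -((t - s) * c) + t * F (h + l.fld g)
    ring
  rw [tE.eq_def]
  simp only [e]
  rw [integral_const_mul, ← Trf.exp_step' hF (rt l s), ← Trf.exp_step' hF (rt l t), ← exp_add,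
    ← exp_sub]
  congr 1
  ring

/-- `a ↦ a V a` lies above its tangents -/
theorem tan (hF : Lg F) (l : Lv Ω) (h : Ω → ℝ) (s t : ℝ) :
    s * step (rt l s) F h + (t - s) * tE (rt l s) F F h ≤ t * step (rt l t) F h := by
  have j := Trf.jensen hF hF (t - s) (rt l s) h
  have e := mgf_eq hF l h s t 0
  simp only [sub_zero, mul_zero] at e
  rw [e] at j
  linarith [exp_le_exp.1 j]

theorem step_le_tE (hF : Lg F) (l : Lv Ω) (h : Ω → ℝ) {s : ℝ} (hs : 0 ≤ s) :
    step (rt l s) F h ≤ tE (rt l s) F F h := by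
  rcases hs.eq_or_lt with rfl | hs
  · simp [step, tE]
  · exact le_of_mul_le_mul_left (by linarith [tan hF l h s 0]) hs

/-- the value is monotone in the tilt -/
theorem step_tilt (hF : Lg F) (l : Lv Ω) (h : Ω → ℝ) {s t : ℝ} (hs : 0 ≤ s) (hst : s ≤ t) :
    step (rt l s) F h ≤ step (rt l t) F h := by
  rcases hst.eq_or_lt with rfl | hst
  · exact le_rfl
  · have h1 := mul_le_mul_of_nonneg_left (step_le_tE hF l h hs) (sub_pos.2 hst).le
    exact le_of_mul_le_mul_left (by linarith [tan hF l h s t]) (hs.trans_lt hst)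

theorem abs_fld_le (l : Lv Ω) (δ : l.ι → ℝ) (x : Ω) {c : ℝ} (hc : l.cov x x ≤ c) :
    |l.fld δ x| ≤ √(c * ∑ i, δ i ^ 2) := by
  refine abs_le_sqrt ?_
  refine (Finset.sum_mul_sq_le_sq_mul_sq _ _ _).trans ?_
  refine mul_le_mul_of_nonneg_right ?_ (Finset.sum_nonneg fun _ _ => sq_nonneg _)
  simpa only [Lv.cov, sq] using hc

/-- **the root value is sub-Gaussian under the tilted law** (planted log-concavity) -/
theorem root_conc (hw : Wt w) {l : Lv Ω} {L : List (Lv Ω)} {h : Ω → ℝ} {a c : ℝ}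
    (hL : Mono 0 (rt l a :: L)) {T : Set (Equiv.Perm Ω)} {x₀ : Ω}
    (hT : ∀ τ ∈ T, Sym w (rt l a :: L) h τ) (htr : ∀ x, w x ≠ 0 → ∃ τ ∈ T, τ x₀ = x)
    (hc0 : 0 ≤ c) (hc : ∀ x, w x ≠ 0 → l.cov x x ≤ c) (t : ℝ) :
    tE (rt l a) (X w L) (fun u => exp (t * (X w L u - tE (rt l a) (X w L) (X w L) h))) h ≤
      exp (t ^ 2 * c) := by
  set L' := rt l a :: L with hL'
  have hX := lg_X hw L
  have pl : ∀ φ : ℝ → ℝ, Continuous φ → (Eg fun z => φ (X w L z)) →
      tE (rt l a) (X w L) (fun u => φ (X w L u)) h =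
        lE (U w L' h x₀) fun g => φ (X w L (st L' 1 h g)) := by
    intro φ hφ eφ
    have h1 := plantStmt peStmt symStmt Ω w hw L' h T x₀ hT htr (fun p => φ (X w L (p 1)))
      ((hφ.comp hX.eg.cont).measurable.comp (measurable_pi_apply 1))
      ((peStmt Ω w hw).2.1 L' h 1 _ eφ) (fun τ hτ p => by
        have hs := hT τ hτ
        have : X w L (fun y => p 1 (τ.symm y)) = X w L (p 1) :=
          Trf.X_sym (τ := τ.symm) hw (fun x => by rw [← hs.w (τ.symm x), Equiv.apply_symm_apply]) L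
            (fun l' hl' x y => by
              rw [← hs.cov l' (List.mem_cons_of_mem _ hl') (τ.symm x) (τ.symm y),
                Equiv.apply_symm_apply, Equiv.apply_symm_apply]) _
        simp only [this])
    rw [← h1, Pe.pE_node1 hw eφ L' 1 h]
    simp only [hL', node, node_zero]
  have m := pl id continuous_id hX.eg
  simp only [id] at m
  have ee : Eg fun z => exp (t * (X w L z - tE (rt l a) (X w L) (X w L) h)) := by
    have := (hX.exp t).mul_const (exp (-(t * tE (rt l a) (X w L) (X w L) h)))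
    refine this.of_le (by have := hX.eg.cont; fun_prop) fun z => le_of_eq ?_
    rw [← exp_add]; congr 2; ring
  rw [pl (fun r => exp (t * (r - tE (rt l a) (X w L) (X w L) h))) (by fun_prop) ee]
  have cv : ConvexOn ℝ univ (U w L' h x₀) := by
    refine ⟨convex_univ, fun u _ v _ p q hp hq hpq => ?_⟩
    have := (convexOn_U hw hL x₀).2 (mem_univ (h, u)) (mem_univ (h, v)) hp hq hpq
    simp only [Prod.smul_mk, Prod.mk_add_mk, ← add_smul, hpq, one_smul] at this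
    exact this
  have := concStmt (NI L') (U w L' h x₀) (fun g => X w L (st L' 1 h g)) √c cv
    ((peStmt Ω w hw).1 L' h x₀) (fun g g' => by
      have e : ∀ g : NI L' → ℝ, st L' 1 h g = h + l.fld fun i => g (.inl i) := fun g => by
        simp only [hL', st]; cases L <;> rfl
      rw [e, e, sq_sqrt hc0]
      have b := abs_X_sub_le hw L (z := h + l.fld fun i => g' (.inl i))
        (z' := h + l.fld fun i => g (.inl i))
        (c := √(c * ∑ i, (g (.inl i) - g' (.inl i)) ^ 2)) fun x hx => by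
          have := abs_fld_le l (fun i => g (.inl i) - g' (.inl i)) x (hc x hx)
          convert this using 2
          simp only [Pi.add_apply, Lv.fld, mul_sub, Finset.sum_sub_distrib]
          ring
      have s0 : 0 ≤ ∑ i : l.ι, (g (.inl i) - g' (.inl i)) ^ 2 :=
        Finset.sum_nonneg fun _ _ => sq_nonneg _
      have b2 := sq_le_sq' (abs_le.1 b).1 (abs_le.1 b).2
      rw [sq_sqrt (mul_nonneg hc0 s0)] at b2
      refine b2.trans (mul_le_mul_of_nonneg_left ?_ hc0)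
      have : ∑ i : NI L', (g i - g' i) ^ 2 = ∑ i : l.ι, (g (.inl i) - g' (.inl i)) ^ 2 +
          ∑ i : NI L, (g (.inr i) - g' (.inr i)) ^ 2 := Fintype.sum_sum_type _
      rw [this]
      exact le_add_of_nonneg_right (Finset.sum_nonneg fun _ _ => sq_nonneg _)) t
  rw [← m, sq_sqrt hc0] at this
  exact this

/-- **Taylor form**: `0 ≤ a₁ V a₁ - a V a - (a₁ - a) E a ≤ c (a₁ - a)²` for EVERY real `a₁` -/
theorem root_tay (hw : Wt w) {l : Lv Ω} {L : List (Lv Ω)} {h : Ω → ℝ} {a c : ℝ}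
    (hL : Mono 0 (rt l a :: L)) {T : Set (Equiv.Perm Ω)} {x₀ : Ω}
    (hT : ∀ τ ∈ T, Sym w (rt l a :: L) h τ) (htr : ∀ x, w x ≠ 0 → ∃ τ ∈ T, τ x₀ = x)
    (hc0 : 0 ≤ c) (hc : ∀ x, w x ≠ 0 → l.cov x x ≤ c) (a₁ : ℝ) :
    0 ≤ a₁ * X w (rt l a₁ :: L) h - a * X w (rt l a :: L) h -
        (a₁ - a) * tE (rt l a) (X w L) (X w L) h ∧
      a₁ * X w (rt l a₁ :: L) h - a * X w (rt l a :: L) h -
        (a₁ - a) * tE (rt l a) (X w L) (X w L) h ≤ (a₁ - a) ^ 2 * c := by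
  have h1 := root_conc hw hL hT htr hc0 hc (a₁ - a)
  rw [mgf_eq (lg_X hw L)] at h1
  have h2 := tan (lg_X hw L) l h a a₁
  exact ⟨by simp only [X]; linarith, exp_le_exp.1 h1⟩

/-- `V a ≤ E a ≤ V a + a c` -/
theorem root_mean (hw : Wt w) {l : Lv Ω} {L : List (Lv Ω)} {h : Ω → ℝ} {a c : ℝ} (ha : 0 < a)
    (hL : Mono 0 (rt l a :: L)) {T : Set (Equiv.Perm Ω)} {x₀ : Ω}
    (hT : ∀ τ ∈ T, Sym w (rt l a :: L) h τ) (htr : ∀ x, w x ≠ 0 → ∃ τ ∈ T, τ x₀ = x)
    (hc0 : 0 ≤ c) (hc : ∀ x, w x ≠ 0 → l.cov x x ≤ c) :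
    X w (rt l a :: L) h ≤ tE (rt l a) (X w L) (X w L) h ∧
      tE (rt l a) (X w L) (X w L) h ≤ X w (rt l a :: L) h + a * c := by
  refine ⟨step_le_tE (lg_X hw L) l h ha.le, le_of_mul_le_mul_left ?_ ha⟩
  have := (root_tay hw hL hT htr hc0 hc 0).2
  nlinarith

/-! ### crude two-sided bounds for the value -/

theorem X_le_cons (hw : Wt w) (l : Lv Ω) {L : List (Lv Ω)} (hl : 0 ≤ l.m) (hL : ∀ l ∈ L, 0 ≤ l.m)
    (h : Ω → ℝ) : X w L h ≤ X w (l :: L) h := by
  have hX := lg_X hw L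
  refine le_trans ?_ (step_tilt hX l h le_rfl hl)
  have e : step (rt l 0) (X w L) h = ∫ g, X w L (h + l.fld g) ∂gv l.ι := by simp [step]; rfl
  rw [e]
  have i1 : ∀ x, Integrable (fun g => l.fld g x) (gv l.ι) := fun x => by
    simpa using (Eg.coord x).int l 0
  have i0 : ∀ x, ∫ g, l.fld g x ∂gv l.ι = 0 := fun x => by
    simp only [Lv.fld]
    rw [integral_finsetSum _ fun i _ => (Crest.Agent.R339.Guerra.integrable_coord i).const_mul _]
    simp [integral_const_mul, Crest.Agent.R339.Guerra.integral_coord]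
  have i2 : Integrable (fun g => ∑ x, P w L h x * l.fld g x) (gv l.ι) :=
    integrable_finsetSum _ fun x _ => (i1 x).const_mul _
  have h1 := integral_mono ((integrable_const (X w L h)).add i2) (hX.eg.int l h)
    fun g => X_add_ge hw L hL h (l.fld g)
  simp only [Pi.add_apply] at h1
  rw [integral_add (integrable_const _) i2,
    integral_finsetSum _ fun x _ => (i1 x).const_mul _] at h1
  simpa [integral_const_mul, i0] using h1

theorem X_nil_le (hw : Wt w) (h : Ω → ℝ) : ∀ L : List (Lv Ω), (∀ l ∈ L, 0 ≤ l.m) →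
    X w [] h ≤ X w L h
  | [], _ => le_rfl
  | l :: L, hL => (X_nil_le hw h L fun l' h' => hL l' (by simp [h'])).trans
      (X_le_cons hw l (hL l (by simp)) (fun l' h' => hL l' (by simp [h'])) h)

/-- annealed bound: `c l` bounds the variance of the level `l` -/
theorem X_le_ann (hw : Wt w) (c : Lv Ω → ℝ) : ∀ L : List (Lv Ω),
    (∀ l ∈ L, 0 ≤ l.m ∧ l.m ≤ 1 ∧ ∀ x, w x ≠ 0 → l.cov x x ≤ c l) →
    ∀ h, X w L h ≤ X w [] h + (L.map c).sum / 2
  | [], _, h => by simp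
  | l :: L, hL, h => by
    obtain ⟨h0, h1, h2⟩ := hL l (by simp)
    have ih := X_le_ann hw c L fun l' h' => hL l' (by simp [h'])
    have e : (fun z => X w [] z + (L.map c).sum / 2) = fun z => X w [] (z + fun _ => (L.map c).sum / 2) :=
      funext fun z => (X_add_const hw [] z _).symm
    have g : Lg fun z => X w [] z + (L.map c).sum / 2 := e ▸ (lg_X hw []).shift _
    have a1 : X w (l :: L) h ≤ step l (fun z => X w [] z + (L.map c).sum / 2) h :=
      step_mono (lg_X hw L) g h0 ih h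
    have a2 := step_tilt g l h h0 h1
    have a3 : step (rt l 1) (fun z => X w [] z + (L.map c).sum / 2) h =
        X w [rt l 1] (h + fun _ => (L.map c).sum / 2) := by
      rw [e]
      simp only [X, step, add_right_comm]
    have a4 := C.X_annealed hw (l := rt l 1) rfl (h + fun _ => (L.map c).sum / 2)
    have a5 := X_le_add hw [] (z := h) (c := (L.map c).sum / 2 + c l / 2)
      (z' := (h + fun _ => (L.map c).sum / 2) + fun x => (rt l 1).cov x x / 2) fun x hx => by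
        have : (rt l 1).cov x x ≤ c l := h2 x hx
        simp only [Pi.add_apply]
        linarith
    have a6 : step l (fun z => X w [] z + (L.map c).sum / 2) h =
      step (rt l l.m) (fun z => X w [] z + (L.map c).sum / 2) h := rfl
    simp only [List.map_cons, List.sum_cons]
    linarith

/-! ### the flow in Taylor form -/

open Crest.Agent.T156.Soft.Fin26

/-- one tilt, one step -/
theorem flow_one' {V V' E : ℝ → ℝ} {n M s κ e : ℝ} (hn : 1 ≤ n) (hs : 0 < s)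
    (hE : |E (s * (n + 1) ^ (-(1 : ℝ) / 6))| ≤ M * n)
    (hT : |s * n ^ (-(1 : ℝ) / 6) * V (s * n ^ (-(1 : ℝ) / 6)) -
        s * (n + 1) ^ (-(1 : ℝ) / 6) * V (s * (n + 1) ^ (-(1 : ℝ) / 6)) -
        (s * n ^ (-(1 : ℝ) / 6) - s * (n + 1) ^ (-(1 : ℝ) / 6)) * E (s * (n + 1) ^ (-(1 : ℝ) / 6))| ≤
      M * n * (s * n ^ (-(1 : ℝ) / 6) - s * (n + 1) ^ (-(1 : ℝ) / 6)) ^ 2)
    (hf : |V' (s * (n + 1) ^ (-(1 : ℝ) / 6)) - V (s * (n + 1) ^ (-(1 : ℝ) / 6)) -
      E (s * (n + 1) ^ (-(1 : ℝ) / 6)) / (6 * n) - κ| ≤ e) :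
    |(n + 1) ^ (-(1 : ℝ) / 6) * V' (s * (n + 1) ^ (-(1 : ℝ) / 6)) -
      n ^ (-(1 : ℝ) / 6) * V (s * n ^ (-(1 : ℝ) / 6)) - (n + 1) ^ (-(1 : ℝ) / 6) * κ| ≤
      n ^ (-(1 : ℝ) / 6) * (e + M * (1 + s * n ^ (-(1 : ℝ) / 6)) / n) := by
  obtain ⟨θ, hτ, h0, h1, h2⟩ := tau_step hn
  have hn0 : 0 < n := by linarith
  have ht' : 0 < (n + 1) ^ (-(1 : ℝ) / 6) := by positivity
  generalize (n + 1) ^ (-(1 : ℝ) / 6) = t at *
  generalize n ^ (-(1 : ℝ) / 6) = τ at *
  subst hτ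
  have hM : 0 ≤ M := nonneg_of_mul_nonneg_left ((abs_nonneg _).trans hE) hn0
  have he : 0 ≤ e := (abs_nonneg _).trans hf
  set x := V' (s * t) - V (s * t) - E (s * t) / (6 * n) - κ with hx
  set y := s * (t * (1 + θ)) * V (s * (t * (1 + θ))) - s * t * V (s * t) -
    (s * (t * (1 + θ)) - s * t) * E (s * t) with hy
  have key : t * V' (s * t) - t * (1 + θ) * V (s * (t * (1 + θ))) - t * κ =
      t * x - y / s + t * ((1 / (6 * n) - θ) * E (s * t)) := by
    rw [hx, hy]; field_simp; ring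
  rw [key]
  have b1 : |t * x| ≤ t * e := by rw [abs_mul, abs_of_pos ht']; gcongr
  have hθ : θ ≤ 1 / n := h1.trans (one_div_le_one_div_of_le hn0 (by linarith))
  have b2 : |y / s| ≤ t * (M * (s * t) / n) := by
    rw [abs_div, abs_of_pos hs, div_le_iff₀ hs]
    refine hT.trans ?_
    have e1 : M * n * (s * (t * (1 + θ)) - s * t) ^ 2 = M * n * (s * t) ^ 2 * θ ^ 2 := by ring
    have e2 : t * (M * (s * t) / n) * s = M * n * (s * t) ^ 2 * (1 / n) ^ 2 := by field_simp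
    rw [e1, e2]
    gcongr
  have b3 : |t * ((1 / (6 * n) - θ) * E (s * t))| ≤ t * (M / n) := by
    rw [abs_mul, abs_of_pos ht', abs_mul, abs_of_nonneg (by linarith : 0 ≤ 1 / (6 * n) - θ)]
    have e2 : M / n = 1 / n ^ 2 * (M * n) := by field_simp
    rw [e2]
    gcongr
  have b4 : |t * x - y / s + t * ((1 / (6 * n) - θ) * E (s * t))| ≤
      t * (e + M * (1 + s * t) / n) := by
    have e3 : t * (e + M * (1 + s * t) / n) = t * e + t * (M * (s * t) / n) + t * (M / n) := by ring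
    have := abs_add_le (t * x - y / s) (t * ((1 / (6 * n) - θ) * E (s * t)))
    have := abs_sub (t * x) (y / s)
    linarith
  refine b4.trans ?_
  have : t ≤ t * (1 + θ) := by nlinarith
  gcongr

/-- the flow for the sizes `n ≤ m < n'` and the tilts `a ∈ [a₀, a₁]`, Taylor form -/
structure FlowT (V E : ℕ → ℝ → ℝ) (κ : ℕ → ℝ) (n n' : ℕ) (a₀ a₁ M e : ℝ) : Prop where
  bd : ∀ m, n ≤ m → m < n' → ∀ a ∈ Icc a₀ a₁, |E m a| ≤ M * m
  tay : ∀ m, n ≤ m → m < n' → ∀ a ∈ Icc a₀ a₁, ∀ a' ∈ Icc a₀ a₁,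
    |a * V m a - a' * V m a' - (a - a') * E m a'| ≤ M * m * (a - a') ^ 2
  flow : ∀ m, n ≤ m → m < n' → ∀ a ∈ Icc a₀ a₁,
    |V (m + 1) a - V m a - E m a / (6 * m) - κ m| ≤ e

theorem flowT_step {V E : ℕ → ℝ → ℝ} {κ : ℕ → ℝ} {n n' : ℕ} {a₀ a₁ M e : ℝ}
    (h : FlowT V E κ n n' a₀ a₁ M e) (hn : 1 ≤ n) {s₁ s : ℝ} (hs₁ : 0 < s₁) (hs : s₁ ≤ s)
    (h0 : a₀ ≤ s₁ * (n' : ℝ) ^ (-(1 : ℝ) / 6)) (h1 : s * (n : ℝ) ^ (-(1 : ℝ) / 6) ≤ a₁)
    {m : ℕ} (hm : n ≤ m) (hm' : m < n') :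
    |sc V (m + 1) s₁ s - sc V m s₁ s| ≤ 2 * ((n : ℝ) ^ (-(1 : ℝ) / 6) * (e + M * (1 + a₁) / n)) := by
  have hn1 : (1 : ℝ) ≤ n := by exact_mod_cast hn
  have hmn : (n : ℝ) ≤ m := by exact_mod_cast hm
  have hmn' : (m : ℝ) + 1 ≤ n' := by exact_mod_cast hm'
  have hm1 : (1 : ℝ) ≤ m := by linarith
  have t1 : (m : ℝ) ^ (-(1 : ℝ) / 6) ≤ (n : ℝ) ^ (-(1 : ℝ) / 6) :=
    Real.rpow_le_rpow_of_nonpos (by linarith) hmn (by norm_num)
  have t2 : (n' : ℝ) ^ (-(1 : ℝ) / 6) ≤ ((m : ℝ) + 1) ^ (-(1 : ℝ) / 6) :=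
    Real.rpow_le_rpow_of_nonpos (by linarith) hmn' (by norm_num)
  have t3 : ((m : ℝ) + 1) ^ (-(1 : ℝ) / 6) ≤ (m : ℝ) ^ (-(1 : ℝ) / 6) :=
    Real.rpow_le_rpow_of_nonpos (by linarith) (by linarith) (by norm_num)
  have t4 : 0 < ((m : ℝ) + 1) ^ (-(1 : ℝ) / 6) := by positivity
  have one : ∀ u, s₁ ≤ u → u ≤ s →
      |((m : ℝ) + 1) ^ (-(1 : ℝ) / 6) * V (m + 1) (u * ((m : ℝ) + 1) ^ (-(1 : ℝ) / 6)) -
        (m : ℝ) ^ (-(1 : ℝ) / 6) * V m (u * (m : ℝ) ^ (-(1 : ℝ) / 6)) -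
        ((m : ℝ) + 1) ^ (-(1 : ℝ) / 6) * κ m| ≤
      (n : ℝ) ^ (-(1 : ℝ) / 6) * (e + M * (1 + a₁) / n) := by
    intro u hu hu'
    have hu0 : 0 < u := by linarith
    have l0 : a₀ ≤ u * ((m : ℝ) + 1) ^ (-(1 : ℝ) / 6) := h0.trans (by gcongr)
    have l1 : u * (m : ℝ) ^ (-(1 : ℝ) / 6) ≤ a₁ := le_trans (by gcongr; linarith) h1
    have l2 : u * ((m : ℝ) + 1) ^ (-(1 : ℝ) / 6) ≤ a₁ := le_trans (by gcongr) l1
    have l3 : a₀ ≤ u * (m : ℝ) ^ (-(1 : ℝ) / 6) := l0.trans (by gcongr)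
    have hE := h.bd m hm hm' _ ⟨l0, l2⟩
    have hf := h.flow m hm hm' _ ⟨l0, l2⟩
    have hM : 0 ≤ M := nonneg_of_mul_nonneg_left ((abs_nonneg _).trans hE) (by linarith)
    have he : 0 ≤ e := (abs_nonneg _).trans hf
    have ha : 0 ≤ a₁ := le_trans (by positivity) l1
    refine (flow_one' (V := V m) (V' := V (m + 1)) (E := E m) hm1 hu0 hE
      (h.tay m hm hm' _ ⟨l3, l1⟩ _ ⟨l0, l2⟩) hf).trans ?_
    gcongr
  have o1 := abs_le.1 (one s hs le_rfl)
  have o2 := abs_le.1 (one s₁ le_rfl hs)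
  unfold sc
  push_cast
  rw [abs_le]
  constructor <;> linarith [o1.1, o1.2, o2.1, o2.2]

/-- the flow, telescoped over `n ≤ m ≤ n' ≤ 2 n` -/
theorem flowT_tele {V E : ℕ → ℝ → ℝ} {κ : ℕ → ℝ} {n n' : ℕ} {a₀ a₁ M e : ℝ}
    (h : FlowT V E κ n n' a₀ a₁ M e) (hn : 1 ≤ n) (hn' : n' ≤ 2 * n) (hM : 0 ≤ M) (he : 0 ≤ e)
    (ha : 0 ≤ a₁) {s₁ s : ℝ} (hs₁ : 0 < s₁) (hs : s₁ ≤ s)
    (h0 : a₀ ≤ s₁ * (n' : ℝ) ^ (-(1 : ℝ) / 6)) (h1 : s * (n : ℝ) ^ (-(1 : ℝ) / 6) ≤ a₁)
    {m : ℕ} (hm : n ≤ m) (hm' : m ≤ n') :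
    |sc V m s₁ s - sc V n s₁ s| ≤ 2 * ((n : ℝ) ^ (-(1 : ℝ) / 6) * (n * e + M * (1 + a₁))) := by
  have hn0 : (0 : ℝ) < n := by exact_mod_cast hn
  set b := 2 * ((n : ℝ) ^ (-(1 : ℝ) / 6) * (e + M * (1 + a₁) / n)) with hb
  have hb0 : 0 ≤ b := by positivity
  have key : ∀ i : ℕ, n + i ≤ n' → |sc V (n + i) s₁ s - sc V n s₁ s| ≤ i * b := by
    intro i
    induction i with
    | zero => simp
    | succ i ih =>
      intro hi
      have h2 := flowT_step h hn hs₁ hs h0 h1 (m := n + i) (by omega) (by omega)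
      have h3 := ih (by omega)
      have h4 := abs_sub_le (sc V (n + i + 1) s₁ s) (sc V (n + i) s₁ s) (sc V n s₁ s)
      rw [← add_assoc]
      push_cast
      linarith
  obtain ⟨i, rfl⟩ := Nat.exists_eq_add_of_le hm
  refine (key i hm').trans ?_
  have hi : (i : ℝ) ≤ n := by exact_mod_cast (by omega : i ≤ n)
  calc (i : ℝ) * b ≤ n * b := by gcongr
    _ = _ := by rw [hb]; field_simp

/-- a model with a root level `l`, whose side conditions hold with the constant `B` on `[a₀, a₁]`: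
monotone tilts, a transitive family of symmetries, total variance and entropy at most `B` -/
structure Good (w : Ω → ℝ) (l : Lv Ω) (L : List (Lv Ω)) (h : Ω → ℝ) (a₁ B : ℝ) : Prop where
  wt : Wt w
  mono : Mono a₁ L
  sym : ∃ (T : Set (Equiv.Perm Ω)) (x₀ : Ω), (∀ τ ∈ T, Sym w (l :: L) h τ) ∧
    ∀ x, w x ≠ 0 → ∃ τ ∈ T, τ x₀ = x
  var : ∃ c : Lv Ω → ℝ, 0 ≤ c l ∧ (∀ l' ∈ l :: L, ∀ x, w x ≠ 0 → l'.cov x x ≤ c l') ∧
    |X w [] h| + 2 * c l + |(L.map c).sum| ≤ B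

theorem Good.side {l : Lv Ω} {L : List (Lv Ω)} {h : Ω → ℝ} {a₁ B : ℝ} (H : Good w l L h a₁ B)
    {a' : ℝ} (h0 : 0 < a') (h1 : a' ≤ a₁) :
    |tE (rt l a') (X w L) (X w L) h| ≤ B ∧ ∀ a,
      |a * X w (rt l a :: L) h - a' * X w (rt l a' :: L) h -
        (a - a') * tE (rt l a') (X w L) (X w L) h| ≤ B * (a - a') ^ 2 := by
  obtain ⟨T, x₀, hT, htr⟩ := H.sym
  obtain ⟨c, hc0, hc, hB⟩ := H.var
  have hm : Mono a' L := Trf.mono_le H.mono h1
  have hL : Mono 0 (rt l a' :: L) := ⟨h0.le, hm⟩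
  have hT' : ∀ τ ∈ T, Sym w (rt l a' :: L) h τ := fun τ hτ =>
    ⟨(hT τ hτ).w, (hT τ hτ).h, fun l' hl' => by
      rcases List.mem_cons.1 hl' with rfl | hl'
      · exact (hT τ hτ).cov l (by simp)
      · exact (hT τ hτ).cov l' (by simp [hl'])⟩
  have hcl := hc l (by simp)
  have le1 : ∀ {L : List (Lv Ω)} {m : ℝ}, Mono m L → m ≤ 1 ∧ ∀ l ∈ L, l.m ≤ 1 := by
    intro L
    induction L with
    | nil => exact fun h => ⟨h, by simp⟩
    | cons l L ih =>
      intro m h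
      obtain ⟨i1, i2⟩ := ih h.2
      exact ⟨h.1.trans i1, by simpa using ⟨i1, i2⟩⟩
  have b0 := abs_nonneg (X w [] h)
  have b1 := abs_nonneg (L.map c).sum
  refine ⟨?_, fun a => ?_⟩
  · obtain ⟨m1, m2⟩ := root_mean H.wt h0 hL hT' htr hc0 hcl
    have m3 := X_nil_le H.wt h _ (hL.nn le_rfl)
    have m4 : X w (rt l a' :: L) h ≤ X w [] h + (c l + (L.map c).sum) / 2 := by
      have a1 := step_mono (l := rt l a') (lg_X H.wt L) ((lg_X H.wt []).shift
        fun _ => (L.map c).sum / 2) h0.le (fun z => by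
          have := X_le_ann H.wt c L (fun l' h' => ⟨hm.nn h0.le l' h', (le1 hm).2 l' h',
            hc l' (by simp [h'])⟩) z
          rwa [← X_add_const H.wt] at this) h
      have a2 := X_le_ann H.wt (fun _ => c l) [rt l a'] (by
        simpa using ⟨h0.le, (le1 hm).1, hcl⟩) (h + fun _ => (L.map c).sum / 2)
      have a3 := X_add_const H.wt [] h ((L.map c).sum / 2)
      have a4 : step (rt l a') (fun z => X w [] (z + fun _ => (L.map c).sum / 2)) h =
          X w [rt l a'] (h + fun _ => (L.map c).sum / 2) := by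
        simp only [X, step, add_right_comm]
      simp only [List.map_cons, List.map_nil, List.sum_cons, List.sum_nil, add_zero] at a2
      have a5 : X w [] (h + fun _ => (L.map c).sum / 2) = X w [] h + (L.map c).sum / 2 := a3
      have a6 : X w (rt l a' :: L) h = step (rt l a') (X w L) h := rfl
      linarith
    have m5 : a' * c l ≤ c l := mul_le_of_le_one_left hc0 (le1 hm).1
    rw [abs_le]
    constructor <;> linarith [le_abs_self (X w [] h), neg_abs_le (X w [] h),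
      le_abs_self (L.map c).sum]
  · obtain ⟨t1, t2⟩ := root_tay H.wt hL hT' htr hc0 hcl a
    rw [abs_of_nonneg t1]
    refine t2.trans ?_
    rw [mul_comm]
    exact mul_le_mul_of_nonneg_right (by linarith) (sq_nonneg _)

/-- **the flow for a sequence of cascades**: only the flow equation itself is left -/
theorem flowT_of_good {Ω : ℕ → Type} [∀ m, Fintype (Ω m)] {w : ∀ m, Ω m → ℝ} {l : ∀ m, Lv (Ω m)}
    {L : ∀ m, List (Lv (Ω m))} {h : ∀ m, Ω m → ℝ} {κ : ℕ → ℝ} {n n' : ℕ} {a₀ a₁ M e : ℝ}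
    (ha : 0 < a₀) (H : ∀ m, n ≤ m → m < n' → Good (w m) (l m) (L m) (h m) a₁ (M * m))
    (hf : ∀ m, n ≤ m → m < n' → ∀ a ∈ Icc a₀ a₁,
      |X (w (m + 1)) (rt (l (m + 1)) a :: L (m + 1)) (h (m + 1)) - X (w m) (rt (l m) a :: L m) (h m) -
        tE (rt (l m) a) (X (w m) (L m)) (X (w m) (L m)) (h m) / (6 * m) - κ m| ≤ e) :
    FlowT (fun m a => X (w m) (rt (l m) a :: L m) (h m))
      (fun m a => tE (rt (l m) a) (X (w m) (L m)) (X (w m) (L m)) (h m)) κ n n' a₀ a₁ M e where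
  bd m h1 h2 _ ha' := ((H m h1 h2).side (ha.trans_le ha'.1) ha'.2).1
  tay m h1 h2 a _ _ ha' := ((H m h1 h2).side (ha.trans_le ha'.1) ha'.2).2 a
  flow := hf

/-- the cube: levels that depend on the overlap only; `c l'` bounds the variance of `l'` -/
theorem good_cube {n : ℕ} {l : Lv (Cube n)} {L : List (Lv (Cube n))} {a₁ B : ℝ} (hm : Mono a₁ L)
    (ho : ∀ l' ∈ l :: L, OvLv l') (c : Lv (Cube n) → ℝ) (hc : ∀ l' ∈ l :: L, ∀ x, l'.cov x x ≤ c l')
    (hB : n + 2 * c l + |(L.map c).sum| ≤ B) : Good (fun _ => 1) l L 0 a₁ B where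
  wt := ⟨fun _ => zero_le_one, by simp⟩
  mono := hm
  sym := ⟨TS n, fun _ => true, sym_act₀ ho, fun x _ => TS_trans _ x⟩
  var := ⟨c, le_trans (Finset.sum_nonneg fun _ _ => mul_self_nonneg _) (hc l (by simp) fun _ => true),
    fun l' h' x _ => hc l' h' x, by
      refine le_trans ?_ hB
      have e : X (fun _ : Cube n => (1 : ℝ)) [] 0 = n * log 2 := by simp [X]
      have h2 : log 2 ≤ 1 := by linarith [log_le_sub_one_of_pos (show (0 : ℝ) < 2 by norm_num)]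
      have h3 : 0 ≤ log 2 := log_nonneg (by norm_num)
      rw [e, abs_of_nonneg (by positivity)]
      nlinarith [Nat.cast_nonneg (α := ℝ) n]⟩

end Crest.Agent.T156.Cas.Flow26

end
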