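import Crest.Agent.T156.AltDef_88
import Crest.Agent.T156.Ann_56
import Crest.Agent.T156.FlowC_26
import Crest.Agent.T156.Clo_5

/-!
# Row 156, ALT route: the top (helper88)
-/

set_option autoImplicit false
set_option linter.unusedSectionVars false

noncomputable section

namespace Crest.Agent.T156.Alt

open MeasureTheory Real Set Filter Topology
open Crest.Agent.T157.E Crest.Agent.T157.Casc Crest.Agent.T157.SL
open Crest.Agent.T157.G1 (ov fl FL)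
open Crest.Agent.T156.Cas

namespace Top88

/-- `W` from the curve -/
theorem W_bd {Ω : Type} [Fintype Ω] {w : Ω → ℝ} (hw : Wt w) (l : Lv Ω) (L : List (Lv Ω))
    (h : Ω → ℝ) {e a a' u B : ℝ} (e0 : 0 < e) (hu : 1 ≤ u) (ha : e / 2 ≤ a) (haa : a ≤ a')
    (ha' : a' ≤ 2 * u * e)
    (hB : ∀ v ∈ Icc 1 (4 * u), e * (X w (rt l (v * e) :: L) h - X w (rt l (1 * e) :: L) h) ≤ B) :
    (a' - a) * Wd w l L h a a' ≤ 12 * (u * B) := by
  have ue : 0 < u * e := by positivity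
  have a0 : 0 < a := by linarith
  have k1 := W_le hw l L h (a₁ := 4 * u * e) a0 haa (by linarith)
  have b1 := hB (4 * u) ⟨by linarith, le_rfl⟩
  have b2 := hB 2 ⟨by norm_num, by linarith⟩
  have b0 := hB 1 ⟨le_rfl, by linarith⟩
  rw [sub_self, mul_zero] at b0
  rw [one_mul] at b1 b2
  have t1 := Flow26.tan (lg_X hw L) l h e (2 * e)
  have t2 := Flow26.tan (lg_X hw L) l h e a
  have m1 := X_rt_mono hw l L h (a := a) (a' := 4 * u * e) (by linarith)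
  have m2 := X_rt_mono hw l L h (a := e) (a' := 2 * e) (by linarith)
  have m3 := Flow26.step_le_tE (lg_X hw L) l h e0.le
  change e * X w (rt l e :: L) h + _ ≤ 2 * e * X w (rt l (2 * e) :: L) h at t1
  change e * X w (rt l e :: L) h + _ ≤ a * X w (rt l a :: L) h at t2
  change X w (rt l e :: L) h ≤ _ at m3
  have W0 := Wd_nonneg hw l L h haa
  unfold Wd at *
  set V1 := X w (rt l e :: L) h
  set V2 := X w (rt l (2 * e) :: L) h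
  set V4 := X w (rt l (4 * u * e) :: L) h
  set Va := X w (rt l a :: L) h
  set E1 := tE (rt l e) (X w L) (X w L) h
  set W := tE (rt l a') (X w L) (X w L) h - tE (rt l a) (X w L) (X w L) h
  have q : 4 * u * e / (4 * u * e - a') ≤ 2 := by
    rw [div_le_iff₀ (by linarith)]; linarith
  have k2 : W ≤ 2 * (V4 - Va) := k1.trans (mul_le_mul_of_nonneg_right q (by linarith))
  have k3 : e * (E1 - V1) ≤ 2 * B := by nlinarith
  have k4 : e * (V1 - Va) ≤ 2 * B := by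
    rcases le_total e a with c | c
    · have := X_rt_mono hw l L h c
      have : e * (V1 - Va) ≤ 0 := mul_nonpos_of_nonneg_of_nonpos e0.le (by linarith)
      linarith
    · have c1 : a * (V1 - Va) ≤ a * (E1 - V1) := by
        have : (e - a) * (E1 - V1) ≤ a * (E1 - V1) :=
          mul_le_mul_of_nonneg_right (by linarith) (by linarith)
        nlinarith
      have c2 := le_of_mul_le_mul_left c1 a0
      exact (mul_le_mul_of_nonneg_left c2 e0.le).trans k3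
  have k5 : e * W ≤ 6 * B := by nlinarith [mul_le_mul_of_nonneg_left k2 e0.le]
  calc (a' - a) * W ≤ 2 * u * e * W := mul_le_mul_of_nonneg_right (by linarith) W0
    _ = 2 * u * (e * W) := by ring
    _ ≤ 2 * u * (6 * B) := mul_le_mul_of_nonneg_left k5 (by linarith)
    _ = _ := by ring

theorem mono_ofFn (m : ℕ) : ∀ (N : ℕ) (g f : ℕ → ℝ) (x : ℝ), Monotone g → (∀ k, g k ≤ 1) →
    x ≤ g 0 → Mono x (FL m 1 (List.ofFn fun k : Fin N => (g k, f k)))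
  | 0, g, _, _, _, h1, h0 => by simpa [FL, Mono] using h0.trans (h1 0)
  | N + 1, g, f, x, hg, h1, h0 => by
    rw [List.ofFn_succ]
    exact ⟨h0, mono_ofFn m N (fun k => g (k + 1)) (fun k => f (k + 1)) (g 0)
      (fun _ _ h => hg (Nat.succ_le_succ h)) (fun k => h1 _) (hg (Nat.zero_le _))⟩

theorem sum_ofFn (m N : ℕ) (g f : ℕ → ℝ) (F : Lv (Cube m) → ℝ) :
    ((FL m 1 (List.ofFn fun k : Fin N => (g k, f k))).map F).sum =
      ∑ k ∈ Finset.range N, F (fl m 1 (g k, f k)) := by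
  rw [FL, List.map_map, List.map_ofFn, List.sum_ofFn]
  exact Fin.sum_univ_eq_sum_range (fun k => F (fl m 1 (g k, f k))) N

/-- small perturbations above the root -/
structure Sm (m : ℕ) (x S : ℝ) (N : List (Lv (Cube m))) : Prop where
  ov : ∀ k ∈ N, OvLv k
  mono : Mono x N
  sum : (N.map fun k => (1 - k.m) * k.cov (fun _ => true) fun _ => true).sum ≤ 2 * (1 - x) * S

theorem Sm.up {m : ℕ} {x S v : ℝ} {N : List (Lv (Cube m))} (h : Sm m x S N) (hx : x < 1)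
    (hv : v ∈ Icc x 1) : Sm m x S (upT N x v) where
  ov k hk := by
    obtain ⟨l, hl, rfl⟩ := List.mem_map.1 hk
    exact h.ov l hl
  mono := Trf.mono_le (mono_upT hx hv.2 h.mono) hv.1
  sum := by
    refine le_trans ?_ h.sum
    rw [upT, List.map_map]
    refine List.sum_le_sum fun l hl => ?_
    exact mul_le_mul_of_nonneg_right
      (sub_le_sub_left (Ann56.le_upm hx hv.1 (Ann56.mono_mem h.mono l hl).2) 1)
      (Finset.sum_nonneg fun _ _ => mul_self_nonneg _)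

theorem ov1 {m : ℕ} (hm : 0 < m) (x : Cube m) : ov x x = 1 := by
  have hn' : (m : ℝ) ≠ 0 := Nat.cast_ne_zero.2 hm.ne'
  simp [ov, dotProduct, Link33.sv_sq, hn']

variable {p : Pm} {Λ : ℝ}

theorem H_step (h : P0 Λ p) {τ y : ℝ} (hm : p.Mem τ y) {k : ℕ} (hk : k < p.N) :
    0 ≤ p.H τ y (k + 1) - p.H τ y k := by
  rcases lt_or_ge k p.j0 with c | c
  · simp [Pm.H, c.le, Nat.succ_le_of_lt c]
  · exact sub_nonneg.2 ((h.2.2.2.2.2.2.2.2 τ y hm).2.2.2.1 k c hk).le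

theorem H_zero (p : Pm) (τ y : ℝ) : p.H τ y 0 = 0 := by simp [Pm.H]

theorem up_mono (h : P0 Λ p) (τ y : ℝ) (m : ℕ) : Mono (p.zz p.j0) (p.up τ y m) :=
  mono_ofFn m p.N (fun k => p.zz (max k p.j0)) (fun k => p.H τ y (k + 1) - p.H τ y k) _
    (fun _ _ c => h.2.2.1 (max_le_max_right _ c)) (fun _ => h.2.2.2.1 _) (by simp)

theorem up_ov (p : Pm) (τ y : ℝ) (m : ℕ) : ∀ k ∈ p.up τ y m, OvLv k := fun k hk => by
  obtain ⟨t, -, rfl⟩ := List.mem_map.1 hk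
  exact ovLv_fl _ _ _

theorem up_sum (h : P0 Λ p) {τ y : ℝ} (hy : p.Mem τ y) {m : ℕ} (hm : 0 < m) :
    ((p.up τ y m).map fun k => k.cov (fun _ => true) fun _ => true).sum = m * p.H τ y p.N := by
  refine (sum_ofFn m p.N (fun k => p.zz (max k p.j0)) (fun k => p.H τ y (k + 1) - p.H τ y k)
    _).trans ?_
  rw [← sub_zero (p.H τ y p.N), ← H_zero p τ y, ← Finset.sum_range_sub, Finset.mul_sum]
  refine Finset.sum_congr rfl fun k hk => ?_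
  rw [Link33.cov_fl m 1 _ _ _ hm (H_step h hy (Finset.mem_range.1 hk)), ov1 hm]
  ring

theorem up_sum' (h : P0 Λ p) (z0 : 0 ≤ p.zz p.j0) {τ y : ℝ} (hy : p.Mem τ y) {m : ℕ}
    (hm : 0 < m) :
    ((p.up τ y m).map fun k => (1 - k.m) * k.cov (fun _ => true) fun _ => true).sum ≤
      m * p.H τ y (p.J + p.I) := by
  refine (sum_ofFn m p.N (fun k => p.zz (max k p.j0)) (fun k => p.H τ y (k + 1) - p.H τ y k)
    _).trans_le ?_
  have hj := h.2.2.2.2.2.2.2.1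
  rw [← sub_zero (p.H τ y (p.J + p.I)), ← H_zero p τ y, ← Finset.sum_range_sub, Finset.mul_sum,
    Pm.N, Finset.sum_range_add]
  have e : ∑ k ∈ Finset.range p.Nr, (1 - (fl m 1 (p.zz (max (p.J + p.I + k) p.j0),
      p.H τ y (p.J + p.I + k + 1) - p.H τ y (p.J + p.I + k))).m) * (fl m 1
      (p.zz (max (p.J + p.I + k) p.j0), p.H τ y (p.J + p.I + k + 1) - p.H τ y (p.J + p.I + k))).cov
      (fun _ => true) (fun _ => true) = 0 := Finset.sum_eq_zero fun k _ => by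
    have : p.zz (max (p.J + p.I + k) p.j0) = 1 := by
      rw [max_eq_left (by omega), Pm.zz, if_neg (by omega), if_neg (by omega)]
    simp only [this, sub_self, zero_mul]
  rw [e, add_zero]
  refine Finset.sum_le_sum fun k hk => ?_
  have hk' : k < p.N := (Finset.mem_range.1 hk).trans_le (Nat.le_add_right _ _)
  have s0 := H_step h hy hk'
  rw [Link33.cov_fl m 1 _ _ _ hm s0, ov1 hm]
  have z1 : 0 ≤ p.zz (max k p.j0) := z0.trans (h.2.2.1 (le_max_right _ _))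
  have : 0 ≤ (m : ℝ) * (p.H τ y (k + 1) - p.H τ y k) := by positivity
  show (1 - p.zz (max k p.j0)) * _ ≤ _
  nlinarith

/-- the curve of a member -/
def cv (p : Pm) (τ y : ℝ) (m : ℕ) : ℝ → ℝ :=
  crv m 1 (fun _ => 1) (p.root τ y m 0) (p.up τ y m) 0

def τ0 (p : Pm) : ℝ := p.μ0 / (p.κ * p.r ^ 2)
def ts (p : Pm) : ℝ := 1 - p.b (τ0 p) p.r / p.β ^ 2
def S0 (p : Pm) (Λ : ℝ) : ℝ := 2 * p.n * (Λ * p.μ0) * p.β ^ 2

/-- the class of curves -/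
def G (p : Pm) (Λ : ℝ) : Set (ℝ → ℝ) := {f | ∃ m : ℕ, p.n ≤ m ∧ m ≤ 2 * p.n ∧
  (f = Soft.Ln m p.β 1 ∨ (∃ N, Sm m (p.zz p.j0) (S0 p Λ) N ∧
    f = crv m 1 (fun _ => 1) (wl m p.β (1 - ts p) 0) N 0) ∨ ∃ τ y, p.Mem τ y ∧ f = cv p τ y m)}

theorem sc_bd {n m : ℕ} (hn : 1 ≤ n) (h1 : n ≤ m) (h2 : m ≤ 2 * n) :
    0 < (m : ℝ) ^ (-(1 : ℝ) / 6) ∧ (m : ℝ) ^ (-(1 : ℝ) / 6) ≤ (n : ℝ) ^ (-(1 : ℝ) / 6) ∧
      (n : ℝ) ^ (-(1 : ℝ) / 6) ≤ 2 * (m : ℝ) ^ (-(1 : ℝ) / 6) := by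
  have n0 : (0 : ℝ) < n := by exact_mod_cast hn
  have a1 : (n : ℝ) ≤ m := by exact_mod_cast h1
  have a2 : (m : ℝ) ≤ 2 * n := by exact_mod_cast h2
  have m0 : (0 : ℝ) < m := by linarith
  refine ⟨by positivity, rpow_le_rpow_of_nonpos n0 a1 (by norm_num), ?_⟩
  have b1 := rpow_le_rpow_of_nonpos (z := -(1 : ℝ) / 6) m0 a2 (by norm_num)
  rw [mul_rpow (by norm_num) n0.le] at b1
  have b2 : (2 : ℝ) ^ (-(1 : ℝ)) ≤ 2 ^ (-(1 : ℝ) / 6) :=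
    rpow_le_rpow_of_exponent_le (by norm_num) (by norm_num)
  rw [rpow_neg_one] at b2
  have b3 : 0 < (n : ℝ) ^ (-(1 : ℝ) / 6) := by positivity
  nlinarith

/-- the numerical side conditions -/
structure Num (p : Pm) (Λ δ ε : ℝ) (Jd : ℕ) : Prop where
  hβ : 1 < p.β
  hn : 1 ≤ p.n
  s1 : 1 ≤ p.s
  hc : 0 ≤ p.c
  L1 : 1 ≤ Λ
  d0 : 0 ≤ δ
  hJ : 1 ≤ 2 ^ Jd * (p.n : ℝ) ^ (-(1 : ℝ) / 6)
  h1 : (p.n : ℝ) ^ (-(1 : ℝ) / 6) * (p.zz p.j0 * S0 p Λ) ≤ ε * p.s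
  h2 : (p.n : ℝ) ^ (-(1 : ℝ) / 6) * (Jd * √(S0 p Λ)) ≤ ε
  h3 : δ ≤ ε
  h4 : (p.n : ℝ) ^ (-(1 : ℝ) / 6) * (1 + p.β ^ 2 + Λ) ≤ ε

variable {δ ε u B : ℝ} {Jd : ℕ}

theorem Num.pos (h : Num p Λ δ ε Jd) : 0 < p.κ ∧ 0 < p.r ∧ 0 < p.μ0 ∧
    (p.n : ℝ) ^ (-(1 : ℝ) / 6) ≤ p.amax := by
  have n1 : (1 : ℝ) ≤ p.n := by exact_mod_cast h.hn
  have s1 := h.s1
  refine ⟨by unfold Pm.κ; positivity, by unfold Pm.r; positivity, by unfold Pm.μ0; positivity, ?_⟩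
  exact (rpow_le_rpow_of_exponent_le n1 (by linarith [h.hc])).trans
    (le_mul_of_one_le_left (by positivity) s1)

theorem mem0 (h : Num p Λ δ ε Jd) (h0 : P0 Λ p) :
    p.Mem (τ0 p) p.r ∧ p.μ (τ0 p) p.r = p.μ0 ∧ p.Mem 1 p.ye := by
  obtain ⟨k0, r0, -, -⟩ := h.pos
  have e : τ0 p * p.κ * p.r ^ 2 = p.μ0 := by unfold τ0; field_simp
  exact ⟨Or.inl ⟨rfl, e.ge, (div_le_one (by positivity)).2 h0.1⟩, e, Or.inr ⟨rfl, h0.2.1, le_rfl⟩⟩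

theorem wb (h : Num p Λ δ ε Jd) (hu : 1 ≤ u) (B0 : 0 ≤ B)
    (hB : ∀ g ∈ G p Λ, ∀ v ∈ Icc 1 (4 * u), g v ≤ B) {a a' : ℝ} (ha : p.amin ≤ a) (haa : a ≤ a')
    (ha' : a' ≤ u * (p.n : ℝ) ^ (-(1 : ℝ) / 6)) : p.WB a a' √(12 * (u * B)) := by
  intro τ y hy m m1 m2
  obtain ⟨e0, e1, e2⟩ := sc_bd h.hn m1 m2
  rw [sq_sqrt (by positivity)]
  refine W_bd Link33.wt1 _ _ _ e0 hu (le_trans (by unfold Pm.amin; linarith) ha) haa
    (ha'.trans (by nlinarith)) fun v hv => hB (cv p τ y m) ⟨m, m1, m2, Or.inr (Or.inr ⟨τ, y, hy, rfl⟩)⟩ v hv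

theorem s5 (h : Num p Λ δ ε Jd) : p.s ≤ p.s ^ 5 ∧ 1 ≤ p.s ^ 5 ∧ 0 ≤ ε :=
  ⟨le_self_pow₀ h.s1 (by norm_num), one_le_pow₀ h.s1, h.d0.trans h.h3⟩

/-- START -/
theorem start (h : Num p Λ δ ε Jd) (h0 : P0 Λ p) (hu : 1 ≤ u)
    (hu' : u * (p.n : ℝ) ^ (-(1 : ℝ) / 6) ≤ p.amax) (B0 : 0 ≤ B)
    (hB : ∀ g ∈ G p Λ, ∀ v ∈ Icc 1 (4 * u), g v ≤ B) {m : ℕ} (m1 : p.n ≤ m) (m2 : m ≤ 2 * p.n)
    {N : List (Lv (Cube m))} (hN : Sm m (p.zz p.j0) (S0 p Λ) N) :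
    |Soft.Ln m p.β 1 u - crv m 1 (fun _ => 1) (wl m p.β (1 - ts p) 0) N 0 u| ≤
      2 * (ε * (√(12 * (u * B)) + p.s ^ 5)) := by
  obtain ⟨e0, e1, e2⟩ := sc_bd h.hn m1 m2
  obtain ⟨k0, r0, u0, am⟩ := h.pos
  obtain ⟨M0, Mμ, -⟩ := mem0 h h0
  obtain ⟨b0, b1, b2, -⟩ := h0.2.2.2.2.2.2.2.2 _ _ M0
  obtain ⟨c1, c2, ε0⟩ := s5 h
  have hβ := h.hβ
  have β2 : 1 ≤ p.β ^ 2 := one_le_pow₀ hβ.le
  have mp : 0 < m := by have := h.hn; omega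
  have x1 := h0.2.2.2.2.1
  have x2 := h0.2.2.2.2.2.2.1
  have ue : u * (m : ℝ) ^ (-(1 : ℝ) / 6) ≤ p.amax :=
    (mul_le_mul_of_nonneg_left e1 (by linarith)).trans hu'
  have t0 : 0 ≤ ts p := sub_nonneg.2 ((div_le_one (by positivity)).2 b1)
  have t1 : ts p ≤ 1 := sub_le_self _ (by positivity)
  have t2 : ts p ≤ Λ * p.μ0 := Mμ ▸ b2
  have mn : (m : ℝ) ≤ 2 * p.n := by exact_mod_cast m2
  have hS1 : ts p * (p.β ^ 2 * m / 4) ≤ S0 p Λ / 4 := by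
    have := mul_le_mul t2 mn (by positivity) (t0.trans t2)
    unfold S0
    nlinarith
  have S00 : 0 ≤ S0 p Λ := by
    have : 0 ≤ ts p * (p.β ^ 2 * m / 4) := by positivity
    linarith
  have hx1 : p.zz p.j0 < 1 := by linarith
  have sW : Sm m (p.zz p.j0) (S0 p Λ) [wl m p.β (ts p) (p.zz p.j0)] := by
    refine ⟨fun k hk => ?_, ⟨le_rfl, hx1.le⟩, ?_⟩
    · rw [List.mem_singleton.1 hk]; exact ovLv_wl _ _ _ _
    · simp only [List.map_cons, List.map_nil, List.sum_cons, List.sum_nil, add_zero]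
      rw [Link33.cov_wl m p.β _ _ _ _ mp t0, ov1 mp]
      have := mul_le_mul_of_nonneg_left hS1 (show 0 ≤ 1 - p.zz p.j0 by linarith)
      have := mul_nonneg S00 (show 0 ≤ 1 - p.zz p.j0 by linarith)
      nlinarith
  have hBs : ∀ N', Sm m (p.zz p.j0) (S0 p Λ) N' → ∀ v ∈ Icc (p.zz p.j0) 1,
      crv m 1 (fun _ => 1) (wl m p.β (1 - ts p) 0) (upT N' (p.zz p.j0) v) 0 (4 * u) ≤ B :=
    fun N' hN' v hv => hB _ ⟨m, m1, m2, Or.inr (Or.inl ⟨_, hN'.up hx1 hv, rfl⟩)⟩ _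
      ⟨by linarith, le_rfl⟩
  have k := start_sk mp p.β 0 (fun _ => true) (lam := 4) (J := Jd) (u := p.zz p.j0) hN.ov one_pos hu
    (by norm_num) (by linarith) hx1 ⟨le_rfl, hx1.le⟩ t0 t1 hN.mono (by
      have := mul_le_mul_of_nonneg_left (show (p.n : ℝ) ^ (-(1 : ℝ) / 6) ≤
        p.zz p.j0 - u * (m : ℝ) ^ (-(1 : ℝ) / 6) by linarith) (show (0 : ℝ) ≤ 2 ^ Jd by positivity)
      have := h.hJ
      have : 0 < u * (m : ℝ) ^ (-(1 : ℝ) / 6) := by positivity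
      linarith) hN.sum (by linarith) (hBs N hN) (hBs _ sW)
  rw [upT_self _ hx1] at k
  refine k.trans ?_
  have q1 : √(6 * (4 / (4 - 1) * (u * B)) * S0 p Λ) ≤ √(12 * (u * B)) * √(S0 p Λ) := by
    rw [← sqrt_mul (by positivity)]
    refine sqrt_le_sqrt (mul_le_mul_of_nonneg_right ?_ S00)
    have : 0 ≤ u * B := by positivity
    linarith
  have x0 : 0 ≤ p.zz p.j0 := by linarith
  have q2 : (m : ℝ) ^ (-(1 : ℝ) / 6) * (p.zz p.j0 * S0 p Λ +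
      2 * (Jd * √(6 * (4 / (4 - 1) * (u * B)) * S0 p Λ))) ≤ (p.n : ℝ) ^ (-(1 : ℝ) / 6) *
      (p.zz p.j0 * S0 p Λ + 2 * (Jd * (√(12 * (u * B)) * √(S0 p Λ)))) := by gcongr
  have q3 := mul_le_mul_of_nonneg_left h.h2 (sqrt_nonneg (12 * (u * B)))
  have q4 := h.h1
  have q5 := mul_le_mul_of_nonneg_left c1 ε0
  have q6 : 0 ≤ ε * p.s ^ 5 := by positivity
  nlinarith

/-- members against SK of the same size -/
theorem memb (h : Num p Λ δ ε Jd) (h0 : P0 Λ p) (r1 : R1 δ p) (hu : 1 ≤ u)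
    (hu' : u * (p.n : ℝ) ^ (-(1 : ℝ) / 6) ≤ p.amax) (B0 : 0 ≤ B)
    (hB : ∀ g ∈ G p Λ, ∀ v ∈ Icc 1 (4 * u), g v ≤ B) {m : ℕ} (m1 : p.n ≤ m) (m2 : m ≤ 2 * p.n)
    {τ y : ℝ} (hy : p.Mem τ y) :
    |cv p τ y m u - Soft.Ln m p.β 1 u| ≤ 5 * (ε * (√(12 * (u * B)) + p.s ^ 5)) := by
  obtain ⟨e0, e1, e2⟩ := sc_bd h.hn m1 m2
  obtain ⟨k0, r0, u0, am⟩ := h.pos
  obtain ⟨M0, Mμ, -⟩ := mem0 h h0
  obtain ⟨c1, c2, ε0⟩ := s5 h
  have n0 : (0 : ℝ) < p.n := by exact_mod_cast h.hn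
  have mp : 0 < m := by have := h.hn; omega
  have x1 := h0.2.2.2.2.1
  have x2 := h0.2.2.2.2.2.2.1
  have x0 : 0 ≤ p.zz p.j0 := by
    have : 0 < (p.n : ℝ) ^ (-(1 : ℝ) / 6) := by positivity
    linarith
  have sU : Sm m (p.zz p.j0) (S0 p Λ) (p.up (τ0 p) p.r m) := by
    refine ⟨up_ov p _ _ m, up_mono h0 _ _ m, (up_sum' h0 x0 M0 mp).trans ?_⟩
    have a1 := (h0.2.2.2.2.2.2.2.2 _ _ M0).2.2.2.2.1
    rw [Mμ] at a1
    have mn : (m : ℝ) ≤ 2 * p.n := by exact_mod_cast m2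
    have L1 := h.L1
    have a2 : (m : ℝ) * p.H (τ0 p) p.r (p.J + p.I) ≤ 2 * p.n * (Λ * p.μ0) :=
      (mul_le_mul_of_nonneg_left a1 (by positivity)).trans
        (mul_le_mul_of_nonneg_right mn (by positivity))
    have a3 : 2 * p.n * (Λ * p.μ0) ≤ S0 p Λ :=
      le_mul_of_one_le_right (by positivity) (one_le_pow₀ h.hβ.le)
    have a4 : 0 ≤ 2 * p.n * (Λ * p.μ0) := by positivity
    nlinarith
  have k1 := start h h0 hu hu' B0 hB m1 m2 sU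
  rw [ts, sub_sub_cancel] at k1
  have ue := mul_le_mul_of_nonneg_left e1 (show 0 ≤ u by linarith)
  have a1 : p.amin ≤ 1 * (m : ℝ) ^ (-(1 : ℝ) / 6) := by unfold Pm.amin; linarith
  have a2 : 1 * (m : ℝ) ^ (-(1 : ℝ) / 6) ≤ u * (m : ℝ) ^ (-(1 : ℝ) / 6) :=
    mul_le_mul_of_nonneg_right hu e0.le
  have k2 := r1 _ _ _ a1 a2 (ue.trans hu') (sqrt_nonneg _) (wb h hu B0 hB a1 a2 ue) m m1 m2
    _ _ τ y M0 hy
  have k3 : |cv p τ y m u - cv p (τ0 p) p.r m u| ≤ ε * (√(12 * (u * B)) + p.s ^ 5) := by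
    have e : cv p τ y m u - cv p (τ0 p) p.r m u = (m : ℝ) ^ (-(1 : ℝ) / 6) *
        (p.V τ y m (u * (m : ℝ) ^ (-(1 : ℝ) / 6)) - p.V τ y m (1 * (m : ℝ) ^ (-(1 : ℝ) / 6)) -
          (p.V (τ0 p) p.r m (u * (m : ℝ) ^ (-(1 : ℝ) / 6)) -
            p.V (τ0 p) p.r m (1 * (m : ℝ) ^ (-(1 : ℝ) / 6)))) := (mul_sub _ _ _).symm
    rw [e, abs_mul, abs_of_pos e0]
    have d0 := h.d0
    refine (mul_le_mul e1 k2 (abs_nonneg _) (by positivity)).trans ?_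
    have e' : (p.n : ℝ) ^ (-(1 : ℝ) / 6) * (p.n : ℝ) ^ ((1 : ℝ) / 6) = 1 := by
      rw [← rpow_add n0]; norm_num
    calc _ = ((p.n : ℝ) ^ (-(1 : ℝ) / 6) * (p.n : ℝ) ^ ((1 : ℝ) / 6)) *
          (δ * (√(12 * (u * B)) + p.s ^ 5)) := by ring
      _ ≤ _ := by rw [e', one_mul]; exact mul_le_mul_of_nonneg_right h.h3 (by positivity)
  have k0 : 0 ≤ ε * (√(12 * (u * B)) + p.s ^ 5) := by positivity
  change |Soft.Ln m p.β 1 u - cv p (τ0 p) p.r m u| ≤ _ at k1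
  rw [abs_le] at k1 k3 ⊢
  constructor <;> linarith [k1.1, k1.2, k3.1, k3.2]

/-- the flow in the size -/
theorem flow (h : Num p Λ δ ε Jd) (h0 : P0 Λ p) (r2 : R2 δ p) (hu : 1 ≤ u)
    (hu' : u * (p.n : ℝ) ^ (-(1 : ℝ) / 6) ≤ p.amax) (B0 : 0 ≤ B)
    (hB : ∀ g ∈ G p Λ, ∀ v ∈ Icc 1 (4 * u), g v ≤ B) {m : ℕ} (m1 : p.n ≤ m) (m2 : m ≤ 2 * p.n) :
    |cv p 1 p.ye m u - cv p 1 p.ye p.n u| ≤ 6 * (ε * (√(12 * (u * B)) + p.s ^ 5)) := by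
  obtain ⟨k0, r0, u0, am⟩ := h.pos
  obtain ⟨-, -, M1⟩ := mem0 h h0
  obtain ⟨c1, c2, ε0⟩ := s5 h
  obtain ⟨b0, b1, -, -, -, b2⟩ := h0.2.2.2.2.2.2.2.2 _ _ M1
  have n0 : (0 : ℝ) < p.n := by exact_mod_cast h.hn
  have x1 := h0.2.2.2.2.1
  have x2 := h0.2.2.2.2.2.2.1
  have hβ := h.hβ
  have L1 := h.L1
  have d0 := h.d0
  have e0 : 0 < (p.n : ℝ) ^ (-(1 : ℝ) / 6) := by positivity
  have F := Flow26.flowT_of_good (Ω := fun m => Cube m) (w := fun _ _ => 1)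
    (l := fun m => p.root 1 p.ye m 0) (L := fun m => p.up 1 p.ye m) (h := fun _ => 0)
    (κ := fun m => p.T m p.amin) (n := p.n) (n' := 2 * p.n) (a₀ := p.amin)
    (a₁ := u * (p.n : ℝ) ^ (-(1 : ℝ) / 6)) (M := 1 + p.β ^ 2 + Λ)
    (e := δ * (p.n : ℝ) ^ (-(5 : ℝ) / 6) * (√(12 * (u * B)) + p.s ^ 5))
    (by unfold Pm.amin; positivity) (fun m m1 _ => by
      have mp : 0 < m := by have := h.hn; omega
      have ho : ∀ l' ∈ p.root 1 p.ye m 0 :: p.up 1 p.ye m, OvLv l' := fun l' hl' => by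
        rcases List.mem_cons.1 hl' with rfl | hl'
        · exact ovLv_wl _ _ _ _
        · exact up_ov p _ _ m l' hl'
      refine Flow26.good_cube (Trf.mono_le (up_mono h0 _ _ m) (by linarith)) ho
        (fun l' => l'.cov (fun _ => true) fun _ => true)
        (fun l' hl' x => (ov_diag (ho l' hl') _ x).le) ?_
      have H0 : 0 ≤ (m : ℝ) * p.H 1 p.ye p.N := by
        rw [← up_sum h0 M1 mp]
        exact List.sum_nonneg fun t ht => by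
          obtain ⟨l, -, rfl⟩ := List.mem_map.1 ht
          exact Finset.sum_nonneg fun _ _ => mul_self_nonneg _
      rw [up_sum h0 M1 mp, abs_of_nonneg H0, Link33.cov_wl m p.β _ _ _ _ mp (by positivity), ov1 mp]
      have m0 : (0 : ℝ) ≤ m := by positivity
      have a1 := mul_le_mul_of_nonneg_left b1 m0
      have a2 := mul_le_mul_of_nonneg_left b2 m0
      have e : 2 * (p.b 1 p.ye / p.β ^ 2 * (p.β ^ 2 * m / 2 * 1 ^ 2)) = m * p.b 1 p.ye := by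
        field_simp
      rw [e]
      linarith)
    (fun m m1 m2 a ha => r2 p.amin a _ le_rfl ha.1 (ha.2.trans hu') (sqrt_nonneg _)
      (wb h hu B0 hB le_rfl ha.1 ha.2) m m1 m2)
  have k := Flow26.flowT_tele F h.hn le_rfl (by positivity) (by positivity) (by positivity) one_pos hu
    (by
      have := (sc_bd h.hn (show p.n ≤ 2 * p.n by omega) le_rfl).2.2
      unfold Pm.amin
      linarith) le_rfl m1 m2
  refine le_trans k ?_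
  have e' : (p.n : ℝ) ^ (-(1 : ℝ) / 6) * (p.n * (p.n : ℝ) ^ (-(5 : ℝ) / 6)) = 1 := by
    rw [mul_left_comm, ← rpow_add n0, show -(1 : ℝ) / 6 + -5 / 6 = -1 by norm_num, rpow_neg_one,
      mul_inv_cancel₀ n0.ne']
  have q1 : (p.n : ℝ) ^ (-(1 : ℝ) / 6) * (p.n * (δ * (p.n : ℝ) ^ (-(5 : ℝ) / 6) *
      (√(12 * (u * B)) + p.s ^ 5))) ≤ ε * (√(12 * (u * B)) + p.s ^ 5) := by
    calc _ = ((p.n : ℝ) ^ (-(1 : ℝ) / 6) * (p.n * (p.n : ℝ) ^ (-(5 : ℝ) / 6))) *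
          (δ * (√(12 * (u * B)) + p.s ^ 5)) := by ring
      _ ≤ _ := by rw [e', one_mul]; exact mul_le_mul_of_nonneg_right h.h3 (by positivity)
  have q2 : (p.n : ℝ) ^ (-(1 : ℝ) / 6) * ((1 + p.β ^ 2 + Λ) *
      (1 + u * (p.n : ℝ) ^ (-(1 : ℝ) / 6))) ≤ ε * 2 := by
    rw [← mul_assoc]
    exact mul_le_mul h.h4 (by linarith) (by positivity) ε0
  have q3 : ε * 1 ≤ ε * (√(12 * (u * B)) + p.s ^ 5) :=
    mul_le_mul_of_nonneg_left (by linarith [sqrt_nonneg (12 * (u * B))]) ε0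
  rw [mul_add ((p.n : ℝ) ^ (-(1 : ℝ) / 6))]
  linarith

/-- **the comparison** -/
theorem core (h : Num p Λ δ ε Jd) (h0 : P0 Λ p) (r1 : R1 δ p) (r2 : R2 δ p) (hu : 1 ≤ u)
    (hu' : u * (p.n : ℝ) ^ (-(1 : ℝ) / 6) ≤ p.amax) (B0 : 0 ≤ B)
    (hB : ∀ g ∈ G p Λ, ∀ v ∈ Icc 1 (4 * u), g v ≤ B) : ∀ f ∈ G p Λ,
    |f u - Soft.Ln p.n p.β 1 u| ≤ 21 * (ε * (√(12 * (u * B)) + p.s ^ 5)) := by
  rintro f ⟨m, m1, m2, hf⟩
  obtain ⟨-, -, M1⟩ := mem0 h h0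
  obtain ⟨c1, c2, ε0⟩ := s5 h
  have k0 : 0 ≤ ε * (√(12 * (u * B)) + p.s ^ 5) := by positivity
  have k1 := abs_le.1 (memb h h0 r1 hu hu' B0 hB m1 m2 M1)
  have k2 := abs_le.1 (memb h h0 r1 hu hu' B0 hB le_rfl (by omega) M1)
  have k3 := abs_le.1 (flow h h0 r2 hu hu' B0 hB m1 m2)
  rcases hf with rfl | ⟨N, hN, rfl⟩ | ⟨τ, y, hy, rfl⟩
  · rw [abs_le]; constructor <;> linarith [k1.1, k1.2, k2.1, k2.2, k3.1, k3.2]
  · have k4 := abs_le.1 (start h h0 hu hu' B0 hB m1 m2 hN)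
    rw [abs_le]; constructor <;> linarith [k1.1, k1.2, k2.1, k2.2, k3.1, k3.2, k4.1, k4.2]
  · have k4 := abs_le.1 (memb h h0 r1 hu hu' B0 hB m1 m2 hy)
    rw [abs_le]; constructor <;> linarith [k1.1, k1.2, k2.1, k2.2, k3.1, k3.2, k4.1, k4.2]

theorem crv_triv {m n : ℕ} (hm : 0 < m) (h2 : m ≤ 2 * n) (β : ℝ) {d u : ℝ} (d0 : 0 ≤ d) (d1 : d ≤ 1)
    (N : List (Lv (Cube m))) (hu : 1 ≤ u) :
    crv m 1 (fun _ => 1) (wl m β d 0) N 0 u ≤ β ^ 2 * u * (n : ℝ) ^ (1 : ℝ) := by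
  have mn : (m : ℝ) ≤ 2 * n := by exact_mod_cast h2
  have k := crv_le' Link33.wt1 hm (wl m β d 0) N 0 (c := β ^ 2 * n) (by positivity) (fun x => by
    rw [Link33.cov_wl m β _ _ _ _ hm d0, ov1 hm]
    have : 0 ≤ β ^ 2 * m := by positivity
    have := mul_le_mul_of_nonneg_left mn (sq_nonneg β)
    nlinarith) hu
  rw [rpow_one]
  have : 0 ≤ β ^ 2 * n := by positivity
  nlinarith

theorem G_triv (h : Num p Λ δ ε Jd) (h0 : P0 Λ p) (hu : 1 ≤ u) :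
    ∀ f ∈ G p Λ, f u ≤ p.β ^ 2 * u * (p.n : ℝ) ^ (1 : ℝ) := by
  rintro f ⟨m, m1, m2, hf⟩
  have mp : 0 < m := by have := h.hn; omega
  have hβ := h.hβ
  have hb : ∀ τ y, p.Mem τ y → 0 ≤ p.b τ y / p.β ^ 2 ∧ p.b τ y / p.β ^ 2 ≤ 1 := fun τ y hy => by
    obtain ⟨b0, b1, -⟩ := h0.2.2.2.2.2.2.2.2 _ _ hy
    exact ⟨by positivity, (div_le_one (by positivity)).2 b1⟩
  rcases hf with rfl | ⟨N, -, rfl⟩ | ⟨τ, y, hy, rfl⟩
  · rw [Ln_eq_crv mp p.β 0 one_ne_zero (by linarith)]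
    exact crv_triv mp m2 _ zero_le_one le_rfl _ hu
  · rw [ts, sub_sub_cancel]
    exact crv_triv mp m2 _ (hb _ _ (mem0 h h0).1).1 (hb _ _ (mem0 h h0).1).2 _ hu
  · exact crv_triv mp m2 _ (hb _ _ hy).1 (hb _ _ hy).2 _ hu

theorem num {c' : ℝ} (hβ : 1 < p.β) (hn : 1 ≤ p.n) (s1 : 1 ≤ p.s) (c0 : 0 < p.c) (c1 : p.c ≤ 1 / 6)
    (hl : log p.n ≤ (p.n : ℝ) ^ (p.c / 4)) (h0 : P0 ((p.n : ℝ) ^ (p.c / 2)) p) :
    ∃ Jd, Num p ((p.n : ℝ) ^ (p.c / 2)) ((p.n : ℝ) ^ (-c'))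
      ((4 * p.β ^ 2 + 2) * (p.n : ℝ) ^ (-min c' (p.c / 2))) Jd := by
  have n1 : (1 : ℝ) ≤ p.n := by exact_mod_cast hn
  have n0 : (0 : ℝ) < p.n := by linarith
  have β2 : 1 ≤ p.β ^ 2 := one_le_pow₀ hβ.le
  obtain ⟨Jd, j1, j2⟩ := exists_J (d := (p.n : ℝ) ^ (-(1 : ℝ) / 6)) (by positivity)
    (rpow_le_one_of_one_le_of_nonpos n1 (by norm_num))
  have L1 : 1 ≤ (p.n : ℝ) ^ (p.c / 2) := one_le_rpow n1 (by linarith)
  have m1 : (p.n : ℝ) ^ (-(p.c / 2)) ≤ (p.n : ℝ) ^ (-min c' (p.c / 2)) :=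
    rpow_le_rpow_of_exponent_le n1 (neg_le_neg (min_le_right _ _))
  have m2 : (p.n : ℝ) ^ (-c') ≤ (p.n : ℝ) ^ (-min c' (p.c / 2)) :=
    rpow_le_rpow_of_exponent_le n1 (neg_le_neg (min_le_left _ _))
  have p0 : 0 < (p.n : ℝ) ^ (-(p.c / 2)) := by positivity
  set ε := (p.n : ℝ) ^ (-min c' (p.c / 2)) with hε
  have ε0 : 0 < ε := by positivity
  have S1 : S0 p ((p.n : ℝ) ^ (p.c / 2)) = 2 * p.β ^ 2 * (p.n : ℝ) ^ (1 / 3 - 3 * p.c / 2) := by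
    have : (p.n : ℝ) ^ (1 : ℝ) * ((p.n : ℝ) ^ (p.c / 2) * (p.n : ℝ) ^ (-(2 / 3) - 2 * p.c)) =
        (p.n : ℝ) ^ (1 / 3 - 3 * p.c / 2) := by
      rw [← rpow_add n0, ← rpow_add n0]; congr 1; ring
    rw [rpow_one] at this
    rw [S0, Pm.μ0, ← this]; ring
  refine ⟨Jd, hβ, hn, s1, c0.le, L1, by positivity, j1, ?_, ?_, by nlinarith, ?_⟩
  · have e : (p.n : ℝ) ^ (-(1 : ℝ) / 6) * ((p.n : ℝ) ^ (p.c / 2) * ((p.n : ℝ) ^ (p.c / 7 - 1 / 6) *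
        (p.n : ℝ) ^ (1 / 3 - 3 * p.c / 2))) ≤ (p.n : ℝ) ^ (-(p.c / 2)) := by
      rw [← rpow_add n0, ← rpow_add n0, ← rpow_add n0]
      exact rpow_le_rpow_of_exponent_le n1 (by linarith)
    have z := h0.2.2.2.2.2.1
    rw [S1]
    calc _ ≤ (p.n : ℝ) ^ (-(1 : ℝ) / 6) * ((p.n : ℝ) ^ (p.c / 2) * p.r *
          (2 * p.β ^ 2 * (p.n : ℝ) ^ (1 / 3 - 3 * p.c / 2))) := by gcongr
      _ = 2 * p.β ^ 2 * ((p.n : ℝ) ^ (-(1 : ℝ) / 6) * ((p.n : ℝ) ^ (p.c / 2) *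
          ((p.n : ℝ) ^ (p.c / 7 - 1 / 6) * (p.n : ℝ) ^ (1 / 3 - 3 * p.c / 2)))) * p.s := by
        rw [Pm.r]; ring
      _ ≤ (4 * p.β ^ 2 + 2) * ε * p.s := by
        refine mul_le_mul_of_nonneg_right (mul_le_mul (by linarith) (e.trans m1) (by positivity)
          (by positivity)) (by linarith)
  · have a1 : √(S0 p ((p.n : ℝ) ^ (p.c / 2))) ≤ 2 * p.β * (p.n : ℝ) ^ (1 / 6 - 3 * p.c / 4) := by
      rw [S1]
      refine sqrt_le_iff.2 ⟨by positivity, ?_⟩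
      have : ((p.n : ℝ) ^ (1 / 6 - 3 * p.c / 4)) ^ 2 = (p.n : ℝ) ^ (1 / 3 - 3 * p.c / 2) := by
        rw [sq, ← rpow_add n0]; congr 1; ring
      rw [mul_pow, this, mul_pow]
      have : 0 < p.β ^ 2 * (p.n : ℝ) ^ (1 / 3 - 3 * p.c / 2) := by positivity
      nlinarith
    have a2 : (Jd : ℝ) ≤ 2 * (p.n : ℝ) ^ (p.c / 4) := by
      rw [log_inv, log_rpow n0] at j2
      have := one_le_rpow n1 (show 0 ≤ p.c / 4 by linarith)
      have := log_nonneg n1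
      linarith
    have e : (p.n : ℝ) ^ (-(1 : ℝ) / 6) * ((p.n : ℝ) ^ (p.c / 4) *
        (p.n : ℝ) ^ (1 / 6 - 3 * p.c / 4)) = (p.n : ℝ) ^ (-(p.c / 2)) := by
      rw [← rpow_add n0, ← rpow_add n0]; congr 1; ring
    calc _ ≤ (p.n : ℝ) ^ (-(1 : ℝ) / 6) * (2 * (p.n : ℝ) ^ (p.c / 4) *
          (2 * p.β * (p.n : ℝ) ^ (1 / 6 - 3 * p.c / 4))) := by gcongr
      _ = 4 * p.β * ((p.n : ℝ) ^ (-(1 : ℝ) / 6) * ((p.n : ℝ) ^ (p.c / 4) *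
          (p.n : ℝ) ^ (1 / 6 - 3 * p.c / 4))) := by ring
      _ ≤ _ := by
        rw [e]
        exact mul_le_mul (by nlinarith) m1 p0.le (by positivity)
  · have e : (p.n : ℝ) ^ (-(1 : ℝ) / 6) * (p.n : ℝ) ^ (p.c / 2) ≤ (p.n : ℝ) ^ (-(p.c / 2)) := by
      rw [← rpow_add n0]
      exact rpow_le_rpow_of_exponent_le n1 (by linarith)
    calc _ ≤ (p.n : ℝ) ^ (-(1 : ℝ) / 6) * ((2 + p.β ^ 2) * (p.n : ℝ) ^ (p.c / 2)) :=
          mul_le_mul_of_nonneg_left (by nlinarith) (by positivity)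
      _ = (2 + p.β ^ 2) * ((p.n : ℝ) ^ (-(1 : ℝ) / 6) * (p.n : ℝ) ^ (p.c / 2)) := by ring
      _ ≤ _ := mul_le_mul (by linarith) (e.trans m1) (by positivity) (by positivity)

end Top88

open Top88

/-- **the top** -/
theorem topS : TopS := by
  intro hbase β hβ hP hR1 hR2 ⟨c₀, hc₀, hlow⟩
  obtain ⟨c0, C0, c00, C01, K0, hK⟩ := hbase β hβ
  obtain ⟨A, ⟨⟨a1, a2⟩, a3⟩, A1⟩ := ((((hP c0 C0 c00 C01).and (hR1 c0 C0 c00 C01)).and
    (hR2 c0 C0 c00 C01)).and (eventually_ge_atTop 1)).exists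
  obtain ⟨c, ⟨⟨⟨b1, c1, c10, b2⟩, c2, c20, b3⟩, cp⟩, cl⟩ := ((((a1.and a2).and a3).and
    self_mem_nhdsWithin).and (nhdsWithin_le_nhds (Iic_mem_nhds
      (show (0 : ℝ) < 1 / 6 by norm_num)))).exists
  replace cp : 0 < c := cp
  replace cl : c ≤ 1 / 6 := cl
  set c' := min c1 c2 with hc'
  have c'0 : 0 < c' := lt_min c10 c20
  set c'' := min c' (c / 2) with hc''
  have c''0 : 0 < c'' := lt_min c'0 (by linarith)
  obtain ⟨J, hJ⟩ := exists_nat_ge ((1 + 1 / 19) / c'')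
  rw [div_le_iff₀' c''0] at hJ
  have e1 : ∀ᶠ n : ℕ in atTop, log n ≤ (n : ℝ) ^ (c / 4) := by
    have := (isLittleO_log_rpow_atTop (show 0 < c / 4 by linarith)).bound one_pos
    filter_upwards [tendsto_natCast_atTop_atTop.eventually this] with n hn
    rw [one_mul, Real.norm_eq_abs, Real.norm_eq_abs, abs_of_nonneg (by positivity : 0 ≤ (n : ℝ) ^ (c / 4))] at hn
    exact (le_abs_self _).trans hn
  have e2 : ∀ᶠ n : ℕ in atTop, (4 : ℝ) ^ J ≤ (n : ℝ) ^ (c / 14) :=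
    ((tendsto_rpow_atTop (show 0 < c / 14 by linarith)).comp
      tendsto_natCast_atTop_atTop).eventually_ge_atTop _
  obtain ⟨n₀, hn₀⟩ := eventually_atTop.1 ((((b1 (c / 2) (by linarith)).and (b2.and b3)).and
    (e1.and e2)).and ((eventually_ge_atTop 1).and (eventually_ge_atTop K0)))
  refine Soft.key_of_cls' (s₁ := 1) (l := 4) (A := β ^ 2) (r := 1)
    (D := 21 * (4 * β ^ 2 + 2) * (6 * 4 ^ J + 1)) (c := c'') (k := 1 / 19) (C' := 5) (J := J)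
    (n₀ := n₀) (q := 5) ⟨le_rfl, by norm_num, c''0, by norm_num, zero_le_one, by norm_num, hJ,
      fun n hn s hs => ?_, fun n n' hn h1 h2 s hs => ?_⟩ (by simpa using c''0) hc₀ hlow
  · have np : 0 < n := (hn₀ n hn).2.1
    show Soft.Ln n β 1 s ≤ _
    rw [Ln_eq_crv np β 0 one_ne_zero (by linarith)]
    exact crv_triv np (by omega) _ zero_le_one le_rfl _ hs
  obtain ⟨⟨⟨q0, q1, q2⟩, q3, q4⟩, n1, nK⟩ := hn₀ n hn
  have n1' : (1 : ℝ) ≤ n := by exact_mod_cast n1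
  obtain ⟨Jb, z, hz⟩ := hK (n ^ A) (nK.trans (Nat.le_self_pow (by omega) n))
  set p : Pm := ⟨β, n, A, c, s, Jb, z⟩ with hp
  have ok : p.Ok c0 C0 := ⟨by simpa [hp, Pm.v] using hz, hs.1, hs.2⟩
  have h0 := q0 p rfl rfl rfl rfl ok
  obtain ⟨Jd, hN⟩ := num (p := p) (c' := c') hβ n1 hs.1 cp cl q3 h0
  have r1 : R1 ((n : ℝ) ^ (-c')) p := fun a a' Q i1 i2 i3 i4 i5 m i6 i7 τ y τ' y' i8 i9 =>
    (q1 p rfl rfl rfl rfl ok a a' Q i1 i2 i3 i4 i5 m i6 i7 τ y τ' y' i8 i9).trans (by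
      have := rpow_le_rpow_of_exponent_le n1' (neg_le_neg (min_le_left c1 c2))
      have := hs.1
      have : 0 ≤ p.s := by show 0 ≤ s; linarith
      gcongr)
  have r2 : R2 ((n : ℝ) ^ (-c')) p := fun a a' Q i1 i2 i3 i4 i5 m i6 i7 =>
    (q2 p rfl rfl rfl rfl ok a a' Q i1 i2 i3 i4 i5 m i6 i7).trans (by
      have := rpow_le_rpow_of_exponent_le n1' (neg_le_neg (min_le_right c1 c2))
      have := hs.1
      have : 0 ≤ p.s := by show 0 ≤ s; linarith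
      gcongr)
  refine ⟨G p ((n : ℝ) ^ (c / 2)), ⟨n', h1, h2, Or.inl rfl⟩,
    fun f hf u hu => G_triv hN h0 hu.1 f hf, fun u hu B B0 hB f hf => ?_⟩
  have s0 : 0 < s := by linarith [hs.1]
  have u0 : 0 < u := by linarith [hu.1]
  have k := core hN h0 r1 r2 hu.1 (by
    show u * (n : ℝ) ^ (-(1 : ℝ) / 6) ≤ s * (n : ℝ) ^ (c / 14 - 1 / 6)
    rw [show c / 14 - 1 / 6 = c / 14 + -(1 : ℝ) / 6 by ring, rpow_add (by linarith), ← mul_assoc]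
    refine mul_le_mul_of_nonneg_right (hu.2.trans ?_) (by positivity)
    rw [mul_comm]
    exact mul_le_mul_of_nonneg_left q4 s0.le) B0 hB f hf
  refine k.trans ?_
  have a1 : √(12 * (u * B)) ≤ 6 * u + B := sqrt_le_iff.2 ⟨by positivity, by
    nlinarith [sq_nonneg (6 * u - B), mul_nonneg u0.le B0, sq_nonneg u, sq_nonneg B]⟩
  have a2 : s ≤ s ^ 5 := le_self_pow₀ hs.1 (by norm_num)
  have a3 : s ^ (5 : ℝ) = s ^ 5 := by exact_mod_cast rpow_natCast s 5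
  have a4 : (0 : ℝ) ≤ 4 ^ J := by positivity
  have a5 : √(12 * (u * B)) + s ^ 5 ≤ (6 * 4 ^ J + 1) * (B + s ^ 5) := by
    have := mul_le_mul_of_nonneg_left a2 a4
    have := mul_nonneg a4 B0
    have := hu.2
    nlinarith
  rw [a3]
  calc _ ≤ 21 * ((4 * β ^ 2 + 2) * (n : ℝ) ^ (-c'') * ((6 * 4 ^ J + 1) * (B + s ^ 5))) :=
        mul_le_mul_of_nonneg_left (mul_le_mul_of_nonneg_left a5 (by positivity)) (by norm_num)
    _ = _ := by ring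

end Crest.Agent.T156.Alt

end
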