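import Mathlib

/-!
# Row 156, Plefka leaf: linear algebra of the ancestor term (helper93)

Soft (resolvent) projections in stages.  `chain θ G N` is a contraction `R`, continuous in the
data, with `R (G k) Rᵀ ≤ θ k / 2` for every stage `k < N`; the Frobenius norm lost by `A ↦ R A Rᵀ`
is at most `4 |A|op ∑ tr (W k A)`, where `W k` is positive, depends on the stages `≤ k` only and
has trace `≤ tr (G k) / θ k` (`≤ 1` for a rank one stage).
-/

set_option autoImplicit false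
set_option linter.unusedSectionVars false

noncomputable section

namespace Crest.Agent.T156.Anc93

open Matrix Finset
open scoped MatrixOrder

variable {ι : Type*} [Fintype ι] [DecidableEq ι]

/-- squared Frobenius norm -/
def fro (A : Matrix ι ι ℝ) : ℝ := ∑ i, ∑ j, A i j ^ 2

/-- symmetric positive semidefinite -/
def Ps (G : Matrix ι ι ℝ) : Prop := Gᵀ = G ∧ ∀ v, 0 ≤ v ⬝ᵥ G *ᵥ v

/-- `G ≤ θ` as quadratic forms -/
def Le (G : Matrix ι ι ℝ) (θ : ℝ) : Prop := ∀ v, v ⬝ᵥ G *ᵥ v ≤ θ * (v ⬝ᵥ v)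

/-- contraction -/
def Con (R : Matrix ι ι ℝ) : Prop := ∀ v, (R *ᵥ v) ⬝ᵥ (R *ᵥ v) ≤ v ⬝ᵥ v

/-- `0 ≤ T ≤ 1` -/
def Ctr (T : Matrix ι ι ℝ) : Prop := Ps T ∧ Ps (1 - T)

variable {A B C G R T W : Matrix ι ι ℝ} {θ lam : ℝ}

theorem dot_nonneg (v : ι → ℝ) : 0 ≤ v ⬝ᵥ v := sum_nonneg fun i _ => mul_self_nonneg (v i)

theorem dot_cs (u v : ι → ℝ) : (u ⬝ᵥ v) ^ 2 ≤ (u ⬝ᵥ u) * (v ⬝ᵥ v) := by
  have := sum_mul_sq_le_sq_mul_sq univ u v
  simpa only [dotProduct, sq] using this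

theorem dot_tr (R : Matrix ι ι ℝ) (u v : ι → ℝ) : u ⬝ᵥ R *ᵥ v = (Rᵀ *ᵥ u) ⬝ᵥ v := by
  rw [dotProduct_mulVec, mulVec_transpose]

theorem qf_conj (R G : Matrix ι ι ℝ) (v : ι → ℝ) :
    v ⬝ᵥ (R * G * Rᵀ) *ᵥ v = (Rᵀ *ᵥ v) ⬝ᵥ G *ᵥ (Rᵀ *ᵥ v) := by
  rw [← mulVec_mulVec, ← mulVec_mulVec, dot_tr]

theorem qf_conj' (R G : Matrix ι ι ℝ) (v : ι → ℝ) :
    v ⬝ᵥ (Rᵀ * G * R) *ᵥ v = (R *ᵥ v) ⬝ᵥ G *ᵥ (R *ᵥ v) := by
  have := qf_conj Rᵀ G v
  rwa [transpose_transpose] at this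

theorem qf_gram (R : Matrix ι ι ℝ) (v : ι → ℝ) : v ⬝ᵥ (Rᵀ * R) *ᵥ v = (R *ᵥ v) ⬝ᵥ (R *ᵥ v) := by
  rw [← mulVec_mulVec, dot_tr, transpose_transpose]

theorem fro_nonneg (A : Matrix ι ι ℝ) : 0 ≤ fro A :=
  sum_nonneg fun _ _ => sum_nonneg fun _ _ => sq_nonneg _

theorem fro_transpose (A : Matrix ι ι ℝ) : fro Aᵀ = fro A := by
  simp only [fro, transpose_apply]
  exact sum_comm

theorem fro_eq (A : Matrix ι ι ℝ) : fro A = trace (A * Aᵀ) := by
  simp only [fro, trace, Matrix.diag, mul_apply, transpose_apply, sq]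

theorem fro_eq' (A : Matrix ι ι ℝ) : fro A = trace (Aᵀ * A) := by
  rw [fro_eq, trace_mul_comm]

theorem trace_conj (B A : Matrix ι ι ℝ) : trace (B * A * Bᵀ) = ∑ i, B i ⬝ᵥ A *ᵥ B i := by
  simp only [trace, Matrix.diag, mul_apply, transpose_apply, dotProduct, mulVec, sum_mul, mul_sum]
  refine sum_congr rfl fun i _ => ?_
  rw [sum_comm]
  exact sum_congr rfl fun j _ => sum_congr rfl fun k _ => by ring

theorem fro_rows (B : Matrix ι ι ℝ) : fro B = ∑ i, B i ⬝ᵥ B i := by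
  simp only [fro, dotProduct, sq]

theorem Ps.psd (h : Ps W) : W.PosSemidef :=
  .of_dotProduct_mulVec_nonneg (by rw [IsHermitian, conjTranspose_eq_transpose_of_trivial, h.1])
    fun x => by simpa using h.2 x

theorem ps_of_psd (h : W.PosSemidef) : Ps W :=
  ⟨by have := h.1; rwa [IsHermitian, conjTranspose_eq_transpose_of_trivial] at this,
    fun v => by simpa using h.dotProduct_mulVec_nonneg v⟩

theorem Ps.exists_sq (h : Ps W) : ∃ B : Matrix ι ι ℝ, W = Bᵀ * B := by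
  obtain ⟨B, hB⟩ := CStarAlgebra.nonneg_iff_eq_star_mul_self.mp h.psd.nonneg
  exact ⟨B, by rw [hB, star_eq_conjTranspose, conjTranspose_eq_transpose_of_trivial]⟩

theorem ps_one : Ps (1 : Matrix ι ι ℝ) := ⟨transpose_one, fun v => by simpa using dot_nonneg v⟩

theorem ps_zero : Ps (0 : Matrix ι ι ℝ) := ⟨transpose_zero, fun v => by simp⟩

theorem ps_gram (R : Matrix ι ι ℝ) : Ps (Rᵀ * R) :=
  ⟨by rw [transpose_mul, transpose_transpose], fun v => by rw [qf_gram]; exact dot_nonneg _⟩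

theorem Ps.add (h : Ps A) (h' : Ps B) : Ps (A + B) :=
  ⟨by rw [transpose_add, h.1, h'.1], fun v => by
    rw [add_mulVec, dotProduct_add]; exact add_nonneg (h.2 v) (h'.2 v)⟩

theorem Ps.smul (h : Ps A) {c : ℝ} (hc : 0 ≤ c) : Ps (c • A) :=
  ⟨by rw [transpose_smul, h.1], fun v => by
    rw [smul_mulVec, dotProduct_smul]; exact mul_nonneg hc (h.2 v)⟩

theorem ps_sum {κ : Type*} (s : Finset κ) {G : κ → Matrix ι ι ℝ} (h : ∀ k ∈ s, Ps (G k)) :
    Ps (∑ k ∈ s, G k) :=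
  sum_induction G Ps (fun _ _ => Ps.add) ps_zero h

theorem qf_vec (u v : ι → ℝ) : v ⬝ᵥ vecMulVec u u *ᵥ v = (v ⬝ᵥ u) ^ 2 := by
  simp only [dotProduct, mulVec, vecMulVec_apply, sq, sum_mul, mul_sum]
  exact sum_congr rfl fun i _ => sum_congr rfl fun j _ => by ring

theorem ps_vec (u : ι → ℝ) : Ps (vecMulVec u u) :=
  ⟨by ext i j; simp [vecMulVec_apply, mul_comm], fun v => by rw [qf_vec]; exact sq_nonneg _⟩

theorem Ps.conj (h : Ps G) (R : Matrix ι ι ℝ) : Ps (R * G * Rᵀ) :=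
  ⟨by rw [transpose_mul, transpose_mul, transpose_transpose, h.1, Matrix.mul_assoc],
    fun v => by rw [qf_conj]; exact h.2 _⟩

theorem Ps.conj' (h : Ps G) (R : Matrix ι ι ℝ) : Ps (Rᵀ * G * R) := by
  have := h.conj Rᵀ
  rwa [transpose_transpose] at this

theorem Ps.sq (h : Gᵀ = G) : Ps (G * G) := by
  have := ps_gram G
  rwa [h] at this

theorem Le.mono (h : Le G θ) {θ' : ℝ} (h' : θ ≤ θ') : Le G θ' := fun v =>
  (h v).trans (mul_le_mul_of_nonneg_right h' (dot_nonneg v))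

theorem Le.add {θ' : ℝ} (h : Le A θ) (h' : Le B θ') : Le (A + B) (θ + θ') := fun v => by
  rw [add_mulVec, dotProduct_add, add_mul]
  exact add_le_add (h v) (h' v)

theorem Le.smul (h : Le A θ) {c : ℝ} (hc : 0 ≤ c) : Le (c • A) (c * θ) := fun v => by
  rw [smul_mulVec, dotProduct_smul, smul_eq_mul, mul_assoc]
  exact mul_le_mul_of_nonneg_left (h v) hc

theorem le_sum {κ : Type*} (s : Finset κ) {G : κ → Matrix ι ι ℝ} {θ : κ → ℝ}
    (h : ∀ k ∈ s, Le (G k) (θ k)) : Le (∑ k ∈ s, G k) (∑ k ∈ s, θ k) := fun v => by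
  rw [sum_mulVec, dotProduct_sum, sum_mul]
  exact sum_le_sum fun k hk => h k hk v

/-- monotonicity of `A ↦ tr (W A)` for positive `W` -/
theorem tr_mono (hW : Ps W) (h : ∀ v, v ⬝ᵥ A *ᵥ v ≤ v ⬝ᵥ B *ᵥ v) :
    trace (W * A) ≤ trace (W * B) := by
  obtain ⟨C, rfl⟩ := hW.exists_sq
  rw [Matrix.mul_assoc, trace_mul_comm, Matrix.mul_assoc Cᵀ, trace_mul_comm Cᵀ, trace_conj,
    trace_conj]
  exact sum_le_sum fun i _ => h _

theorem tr_le (hW : Ps W) (h : Le A θ) : trace (W * A) ≤ θ * trace W := by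
  have := tr_mono (A := A) (B := θ • (1 : Matrix ι ι ℝ)) hW fun v => by
    simpa [smul_mulVec] using h v
  simpa using this

theorem tr_nonneg (hW : Ps W) (h : ∀ v, 0 ≤ v ⬝ᵥ A *ᵥ v) : 0 ≤ trace (W * A) := by
  have := tr_mono (A := 0) (B := A) hW fun v => by simpa using h v
  simpa using this

theorem Ps.trace_nonneg (hW : Ps W) : 0 ≤ trace W := by
  simpa using tr_nonneg hW ps_one.2

/-- the ancestor term: `tr (C G Cᵀ) ≤ θ |C|²` -/
theorem anc_le (h : Le G θ) (C : Matrix ι ι ℝ) : trace (C * G * Cᵀ) ≤ θ * fro C := by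
  rw [trace_conj, fro_rows, mul_sum]
  exact sum_le_sum fun i _ => h _

theorem anc_le' (h : Le G θ) (C : Matrix ι ι ℝ) : trace (Cᵀ * G * C) ≤ θ * fro C := by
  have := anc_le h Cᵀ
  rwa [transpose_transpose, fro_transpose] at this

theorem mulVec_sq_le (A : Matrix ι ι ℝ) (v : ι → ℝ) :
    (A *ᵥ v) ⬝ᵥ (A *ᵥ v) ≤ fro A * (v ⬝ᵥ v) := by
  rw [fro_rows, sum_mul]
  exact sum_le_sum fun i _ => (pow_two _).symm.le.trans (dot_cs (A i) v)

theorem bil_sq_le (A : Matrix ι ι ℝ) (u v : ι → ℝ) :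
    (u ⬝ᵥ A *ᵥ v) ^ 2 ≤ fro A * ((u ⬝ᵥ u) * (v ⬝ᵥ v)) := by
  refine (dot_cs _ _).trans ?_
  nlinarith [mul_le_mul_of_nonneg_left (mulVec_sq_le A v) (dot_nonneg u)]

/-- operator norm `≤` Frobenius norm -/
theorem le_fro (A : Matrix ι ι ℝ) : Le A √(fro A) := fun v => by
  refine (abs_le_of_sq_le_sq' ?_ (mul_nonneg (Real.sqrt_nonneg _) (dot_nonneg v))).2
  rw [mul_pow, Real.sq_sqrt (fro_nonneg A), sq (v ⬝ᵥ v)]
  exact bil_sq_le A v v

/-- Cauchy–Schwarz for a positive form -/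
theorem Ps.cs (h : Ps A) (u v : ι → ℝ) :
    (u ⬝ᵥ A *ᵥ v) ^ 2 ≤ (u ⬝ᵥ A *ᵥ u) * (v ⬝ᵥ A *ᵥ v) := by
  obtain ⟨C, rfl⟩ := h.exists_sq
  rw [qf_gram, qf_gram, ← mulVec_mulVec, dot_tr, transpose_transpose]
  exact dot_cs _ _

/-- `A² ≤ lam A` -/
theorem Ps.sq_le (h : Ps A) (hl : Le A lam) (h0 : 0 ≤ lam) (v : ι → ℝ) :
    (A *ᵥ v) ⬝ᵥ (A *ᵥ v) ≤ lam * (v ⬝ᵥ A *ᵥ v) := by
  have h1 := h.cs (A *ᵥ v) v
  have h2 := hl (A *ᵥ v)
  have h3 := h.2 v
  rcases (dot_nonneg (A *ᵥ v)).eq_or_lt with e | e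
  · rw [← e]; exact mul_nonneg h0 h3
  · by_contra hc
    push Not at hc
    nlinarith [mul_le_mul_of_nonneg_right h2 h3]

theorem Ps.le_trace (h : Ps A) : Le A (trace A) := fun v => by
  obtain ⟨C, rfl⟩ := h.exists_sq
  rw [qf_gram, ← fro_eq']
  exact mulVec_sq_le C v

theorem con_one : Con (1 : Matrix ι ι ℝ) := fun v => by simp

theorem Con.mul (h : Con T) (h' : Con R) : Con (T * R) := fun v => by
  rw [← mulVec_mulVec]
  exact (h _).trans (h' v)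

theorem Con.tr (h : Con R) : Con Rᵀ := fun v => by
  have h1 : (Rᵀ *ᵥ v) ⬝ᵥ (Rᵀ *ᵥ v) = v ⬝ᵥ R *ᵥ (Rᵀ *ᵥ v) := (dot_tr R v _).symm
  have h2 := dot_cs v (R *ᵥ (Rᵀ *ᵥ v))
  have h3 := h (Rᵀ *ᵥ v)
  have h4 := dot_nonneg v
  rw [← h1] at h2
  rcases (dot_nonneg (Rᵀ *ᵥ v)).eq_or_lt with e | e
  · rw [← e]; exact h4
  · by_contra hc
    push Not at hc
    nlinarith [mul_le_mul_of_nonneg_left h3 h4]

theorem Con.gram (h : Con R) : Le (Rᵀ * R) 1 := fun v => by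
  rw [qf_gram, one_mul]; exact h v

theorem Con.entry (h : Con R) (i j : ι) : |R i j| ≤ 1 := by
  have h1 := h (Pi.single j 1)
  have h2 : (R *ᵥ Pi.single j 1) i * (R *ᵥ Pi.single j 1) i ≤
      (R *ᵥ Pi.single j 1) ⬝ᵥ (R *ᵥ Pi.single j 1) :=
    single_le_sum (f := fun k => (R *ᵥ Pi.single j 1) k * (R *ᵥ Pi.single j 1) k)
      (fun k _ => mul_self_nonneg _) (mem_univ i)
  simp only [mulVec_single_one, col_apply, dotProduct_single, Pi.single_eq_same, mul_one] at h1 h2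
  exact abs_le_one_iff_mul_self_le_one.2 (h2.trans h1)

theorem Ctr.le (h : Ctr T) : Le T 1 := fun v => by
  have := h.2.2 v
  rw [sub_mulVec, one_mulVec, dotProduct_sub] at this
  linarith

theorem Ctr.compl (h : Ctr T) : Ctr (1 - T) := ⟨h.2, by simpa using h.1⟩

theorem con_of_le (h : Ps W) (h1 : Le W 1) : Con W := fun v => by
  have := h.sq_le h1 zero_le_one v
  have := h1 v
  linarith

theorem Ctr.con (h : Ctr T) : Con T := con_of_le h.1 h.le

theorem Le.conj (h : Le G θ) (h0 : 0 ≤ θ) (hR : Con R) : Le (R * G * Rᵀ) θ := fun v => by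
  rw [qf_conj]
  exact (h _).trans (mul_le_mul_of_nonneg_left (hR.tr v) h0)

theorem Le.conj' (h : Le G θ) (h0 : 0 ≤ θ) (hR : Con R) : Le (Rᵀ * G * R) θ := by
  have := h.conj h0 hR.tr
  rwa [transpose_transpose] at this

theorem trace_conj_le (hR : Con R) (hG : Ps G) : trace (R * G * Rᵀ) ≤ trace G := by
  rw [Matrix.mul_assoc, trace_mul_comm, Matrix.mul_assoc]
  simpa using tr_le hG hR.gram

theorem trace_conj_le' (hR : Con R) (hG : Ps G) : trace (Rᵀ * G * R) ≤ trace G := by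
  have := trace_conj_le hR.tr hG
  rwa [transpose_transpose] at this

theorem fro_mul_eq (R C : Matrix ι ι ℝ) : fro (R * C) = trace (Cᵀ * (Rᵀ * R) * C) := by
  rw [fro_eq', transpose_mul]
  simp only [Matrix.mul_assoc]

theorem fro_mul_le (hR : Con R) (C : Matrix ι ι ℝ) : fro (R * C) ≤ fro C := by
  rw [fro_mul_eq]
  simpa using anc_le' hR.gram C

theorem fro_mul_le' (hR : Con R) (C : Matrix ι ι ℝ) : fro (C * R) ≤ fro C := by
  rw [← fro_transpose, transpose_mul, ← fro_transpose C]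
  exact fro_mul_le hR.tr _

theorem fro_conj_le (hR : Con R) (A : Matrix ι ι ℝ) : fro (R * A * Rᵀ) ≤ fro A :=
  (fro_mul_le' hR.tr _).trans (fro_mul_le hR A)

theorem loss_left (T C : Matrix ι ι ℝ) :
    fro C - 2 * trace (Cᵀ * (1 - T) * C) ≤ fro (T * C) := by
  have e1 := trace_conj Cᵀ (1 - T)
  have e2 := trace_conj Cᵀ (Tᵀ * T)
  rw [transpose_transpose] at e1 e2
  rw [fro_mul_eq, e1, e2, ← fro_transpose C, fro_rows, mul_sum, ← sum_sub_distrib]
  refine sum_le_sum fun i _ => ?_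
  rw [qf_gram, sub_mulVec, one_mulVec, dotProduct_sub]
  have := dot_nonneg (Cᵀ i - T *ᵥ Cᵀ i)
  rw [sub_dotProduct, dotProduct_sub, dotProduct_sub, dotProduct_comm (T *ᵥ Cᵀ i) (Cᵀ i)] at this
  linarith

/-- one stage loses at most `4 |B|op tr ((1 - T) B)` -/
theorem loss_step (hT : Ctr T) (hB : Ps B) (hl : Le B lam) (h0 : 0 ≤ lam) :
    fro B - 4 * lam * trace ((1 - T) * B) ≤ fro (T * B * Tᵀ) := by
  have h1 := loss_left T B
  have h2 := loss_left T (B * Tᵀ)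
  have h3 : fro (B * Tᵀ) = fro (T * B) := by
    rw [← fro_transpose, transpose_mul, transpose_transpose, hB.1]
  have h4 : trace ((B * Tᵀ)ᵀ * (1 - T) * (B * Tᵀ)) ≤ trace (Bᵀ * (1 - T) * B) := by
    have := trace_conj_le hT.con (hT.2.conj' B)
    rw [transpose_mul, transpose_transpose]
    simpa only [Matrix.mul_assoc] using this
  have h5 : trace (Bᵀ * (1 - T) * B) ≤ lam * trace ((1 - T) * B) := by
    have := tr_mono (A := B * Bᵀ) (B := lam • B) hT.2 fun v => by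
      rw [hB.1, ← mulVec_mulVec, dot_tr, hB.1, smul_mulVec, dotProduct_smul]
      exact hB.sq_le hl h0 v
    rw [Matrix.mul_smul, trace_smul, smul_eq_mul] at this
    rw [Matrix.mul_assoc, trace_mul_comm, Matrix.mul_assoc]
    exact this
  rw [Matrix.mul_assoc]
  linarith

/-! ### the resolvent stage -/

/-- `θ (θ + G)⁻¹` -/
def res (θ : ℝ) (G : Matrix ι ι ℝ) : Matrix ι ι ℝ := θ • (θ • (1 : Matrix ι ι ℝ) + G)⁻¹

theorem det_ne (h0 : 0 < θ) (hG : Ps G) : IsUnit (θ • (1 : Matrix ι ι ℝ) + G).det := by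
  rw [← isUnit_iff_isUnit_det]
  refine PosDef.isUnit (.of_dotProduct_mulVec_pos ((ps_one.smul h0.le).add hG).psd.1 fun x hx => ?_)
  have h1 : 0 < x ⬝ᵥ x := (dot_nonneg x).lt_of_ne fun e => hx (dotProduct_self_eq_zero.1 e.symm)
  have := hG.2 x
  simp only [star_trivial, add_mulVec, smul_mulVec, one_mulVec, dotProduct_add, dotProduct_smul,
    smul_eq_mul]
  positivity

theorem res_tr (hG : Gᵀ = G) : (res θ G)ᵀ = res θ G := by
  rw [res, transpose_smul, transpose_nonsing_inv, transpose_add, transpose_smul, transpose_one, hG]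

theorem res_vec (h0 : 0 < θ) (hG : Ps G) (v : ι → ℝ) :
    ∃ u : ι → ℝ, v = θ • u + G *ᵥ u ∧ res θ G *ᵥ v = θ • u := by
  refine ⟨(θ • (1 : Matrix ι ι ℝ) + G)⁻¹ *ᵥ v, ?_, by rw [res, smul_mulVec]⟩
  have : (θ • (1 : Matrix ι ι ℝ) + G) *ᵥ ((θ • (1 : Matrix ι ι ℝ) + G)⁻¹ *ᵥ v) = v := by
    rw [mulVec_mulVec, mul_nonsing_inv _ (det_ne h0 hG), one_mulVec]
  rw [add_mulVec, smul_mulVec, one_mulVec] at this
  exact this.symm

theorem res_ctr (h0 : 0 < θ) (hG : Ps G) : Ctr (res θ G) := by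
  refine ⟨⟨res_tr hG.1, fun v => ?_⟩, by rw [transpose_sub, transpose_one, res_tr hG.1], fun v => ?_⟩
  · obtain ⟨u, hv, hu⟩ := res_vec h0 hG v
    rw [hu, hv]
    have := hG.2 u
    have := dot_nonneg u
    simp only [add_dotProduct, smul_dotProduct, dotProduct_smul, smul_eq_mul,
      dotProduct_comm (G *ᵥ u) u]
    positivity
  · obtain ⟨u, hv, hu⟩ := res_vec h0 hG v
    rw [sub_mulVec, one_mulVec, hu, hv, add_sub_cancel_left]
    have := hG.2 u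
    have := dot_nonneg (G *ᵥ u)
    simp only [add_dotProduct, smul_dotProduct, smul_eq_mul]
    positivity

theorem res_le (h0 : 0 < θ) (hG : Ps G) : Le (res θ G * G * (res θ G)ᵀ) (θ / 2) := fun v => by
  obtain ⟨u, hv, hu⟩ := res_vec h0 hG v
  rw [qf_conj, res_tr hG.1, hu, hv]
  have h1 := hG.2 u
  have h2 := dot_nonneg (G *ᵥ u)
  have h3 := dot_nonneg u
  simp only [add_dotProduct, dotProduct_add, smul_dotProduct, dotProduct_smul, mulVec_smul,
    smul_eq_mul, dotProduct_comm (G *ᵥ u) u]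
  have : 0 ≤ θ / 2 * (θ * (θ * u ⬝ᵥ u) + G *ᵥ u ⬝ᵥ G *ᵥ u) := by positivity
  nlinarith

/-- spectral counting -/
theorem res_trace (h0 : 0 < θ) (hG : Ps G) : trace (1 - res θ G) ≤ trace G / θ := by
  have := tr_mono (A := 1 - res θ G) (B := θ⁻¹ • G) ps_one fun v => by
    obtain ⟨u, hv, hu⟩ := res_vec h0 hG v
    rw [sub_mulVec, one_mulVec, hu, smul_mulVec, hv, add_sub_cancel_left]
    have h1 := hG.2 u
    have h2 := dot_nonneg (G *ᵥ u)
    have h3 := hG.2 (G *ᵥ u)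
    have h4 : u ⬝ᵥ G *ᵥ G *ᵥ u = G *ᵥ u ⬝ᵥ G *ᵥ u := by rw [dot_tr, hG.1]
    simp only [add_dotProduct, dotProduct_add, smul_dotProduct, dotProduct_smul, mulVec_smul,
      mulVec_add, smul_eq_mul, h4]
    rw [le_inv_mul_iff₀ h0]
    nlinarith [mul_nonneg h0.le h2]
  rw [Matrix.one_mul, Matrix.one_mul, trace_smul, smul_eq_mul] at this
  rwa [div_eq_inv_mul]

theorem vec_mul_vec (u : ι → ℝ) :
    vecMulVec u u * vecMulVec u u = (u ⬝ᵥ u) • vecMulVec u u := by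
  ext i j
  simp only [mul_apply, vecMulVec_apply, Matrix.smul_apply, smul_eq_mul, dotProduct, sum_mul]
  exact sum_congr rfl fun k _ => by ring

theorem res_rank_one (h0 : 0 < θ) (u : ι → ℝ) :
    res θ (vecMulVec u u) = 1 - (θ + u ⬝ᵥ u)⁻¹ • vecMulVec u u := by
  have hp : 0 < θ + u ⬝ᵥ u := add_pos_of_pos_of_nonneg h0 (dot_nonneg u)
  have : (θ • (1 : Matrix ι ι ℝ) + vecMulVec u u) *
      (θ⁻¹ • (1 - (θ + u ⬝ᵥ u)⁻¹ • vecMulVec u u)) = 1 := by
    rw [Matrix.mul_smul, Matrix.mul_sub, Matrix.mul_one, Matrix.mul_smul, Matrix.add_mul,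
      Matrix.smul_mul, Matrix.one_mul, vec_mul_vec, ← add_smul, smul_smul,
      inv_mul_cancel₀ hp.ne', one_smul, add_sub_cancel_right, smul_smul, inv_mul_cancel₀ h0.ne',
      one_smul]
  rw [res, inv_eq_right_inv this, smul_smul, mul_inv_cancel₀ h0.ne', one_smul]

theorem res_trace_one (h0 : 0 < θ) (u : ι → ℝ) : trace (1 - res θ (vecMulVec u u)) ≤ 1 := by
  have hp : 0 < θ + u ⬝ᵥ u := add_pos_of_pos_of_nonneg h0 (dot_nonneg u)
  rw [res_rank_one h0, sub_sub_cancel, trace_smul, trace_vecMulVec, smul_eq_mul,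
    inv_mul_le_iff₀ hp]
  linarith

theorem conj_vec (R : Matrix ι ι ℝ) (u : ι → ℝ) :
    R * vecMulVec u u * Rᵀ = vecMulVec (R *ᵥ u) (R *ᵥ u) := by
  rw [mul_vecMulVec, vecMulVec_mul, vecMul_transpose]

/-- a killed vector -/
theorem le_vec {u : ι → ℝ} (h : Le (R * vecMulVec u u * Rᵀ) θ) (h0 : 0 ≤ θ) :
    (R *ᵥ u) ⬝ᵥ (R *ᵥ u) ≤ θ := by
  have h1 := h (R *ᵥ u)
  rw [conj_vec, qf_vec] at h1
  rcases (dot_nonneg (R *ᵥ u)).eq_or_lt with e | e
  · rw [← e]; exact h0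
  · by_contra hc
    push Not at hc
    nlinarith

/-- a stage with `G = H²` (count `|H|² / θ²`) bounds `H` -/
theorem le_of_sq {H : Matrix ι ι ℝ} (hH : Hᵀ = H) (hR : Con R) (h0 : 0 ≤ θ)
    (h : Le (R * (H * H) * Rᵀ) (θ ^ 2)) : Le (R * H * Rᵀ) θ := fun v => by
  have h1 := h v
  rw [qf_conj, ← mulVec_mulVec, dot_tr, hH] at h1
  rw [qf_conj]
  have h2 := dot_cs (Rᵀ *ᵥ v) (H *ᵥ Rᵀ *ᵥ v)
  have h3 := hR.tr v
  have h4 := dot_nonneg v
  refine (abs_le_of_sq_le_sq' ?_ (mul_nonneg h0 h4)).2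
  refine h2.trans ?_
  calc _ ≤ (v ⬝ᵥ v) * (θ ^ 2 * (v ⬝ᵥ v)) := mul_le_mul h3 h1 (dot_nonneg _) h4
    _ = _ := by ring

theorem continuous_res {X : Type*} [TopologicalSpace X] (h0 : 0 < θ) {G : X → Matrix ι ι ℝ}
    (hc : Continuous G) (hG : ∀ x, Ps (G x)) : Continuous fun x => res θ (G x) := by
  refine Continuous.const_smul (continuous_iff_continuousAt.2 fun x => ?_) θ
  have h1 : ContinuousAt (fun x => θ • (1 : Matrix ι ι ℝ) + G x) x :=
    (continuous_const.add hc).continuousAt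
  refine ContinuousAt.comp (f := fun x => θ • (1 : Matrix ι ι ℝ) + G x)
    (continuousAt_matrix_inv _ ?_) h1
  obtain ⟨u, hu⟩ := det_ne h0 (hG x)
  rw [← hu]
  exact NormedRing.inverse_continuousAt u

/-! ### the chain of stages (oldest first) -/

/-- the contraction after `k` stages -/
def chain (θ : ℕ → ℝ) (G : ℕ → Matrix ι ι ℝ) : ℕ → Matrix ι ι ℝ
  | 0 => 1
  | k + 1 => res (θ k) (chain θ G k * G k * (chain θ G k)ᵀ) * chain θ G k

/-- the weight removed at stage `k` -/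
def wt (θ : ℕ → ℝ) (G : ℕ → Matrix ι ι ℝ) (k : ℕ) : Matrix ι ι ℝ :=
  (chain θ G k)ᵀ * (1 - res (θ k) (chain θ G k * G k * (chain θ G k)ᵀ)) * chain θ G k

section chain
variable {t : ℕ → ℝ} {H : ℕ → Matrix ι ι ℝ}

theorem chain_congr {t' : ℕ → ℝ} {H' : ℕ → Matrix ι ι ℝ} : ∀ k, (∀ j < k, t j = t' j ∧ H j = H' j) →
    chain t H k = chain t' H' k
  | 0, _ => rfl
  | k + 1, h => by
    rw [chain, chain, chain_congr k fun j hj => h j (hj.trans k.lt_succ_self),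
      (h k k.lt_succ_self).1, (h k k.lt_succ_self).2]

theorem wt_congr {t' : ℕ → ℝ} {H' : ℕ → Matrix ι ι ℝ} (k : ℕ)
    (h : ∀ j ≤ k, t j = t' j ∧ H j = H' j) : wt t H k = wt t' H' k := by
  rw [wt, wt, chain_congr k fun j hj => h j hj.le, (h k le_rfl).1, (h k le_rfl).2]

theorem chain_con (ht : ∀ k, 0 < t k) (hH : ∀ k, Ps (H k)) : ∀ k, Con (chain t H k)
  | 0 => con_one
  | k + 1 => (res_ctr (ht k) ((hH k).conj _)).con.mul (chain_con ht hH k)

theorem chain_le (ht : ∀ k, 0 < t k) (hH : ∀ k, Ps (H k)) {k : ℕ} :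
    ∀ N, k < N → Le (chain t H N * H k * (chain t H N)ᵀ) (t k / 2)
  | 0, h => absurd h (Nat.not_lt_zero _)
  | N + 1, h => by
    have e : chain t H (N + 1) * H k * (chain t H (N + 1))ᵀ =
        res (t N) (chain t H N * H N * (chain t H N)ᵀ) * (chain t H N * H k * (chain t H N)ᵀ) *
          (res (t N) (chain t H N * H N * (chain t H N)ᵀ))ᵀ := by
      rw [chain, transpose_mul]
      simp only [Matrix.mul_assoc]
    rw [e]
    rcases (Nat.lt_succ_iff.1 h).eq_or_lt with rfl | h'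
    · exact res_le (ht k) ((hH k).conj _)
    · exact (chain_le ht hH N h').conj (half_pos (ht k)).le (res_ctr (ht N) ((hH N).conj _)).con

theorem wt_ps (ht : ∀ k, 0 < t k) (hH : ∀ k, Ps (H k)) (k : ℕ) : Ps (wt t H k) :=
  (res_ctr (ht k) ((hH k).conj _)).2.conj' _

theorem wt_con (ht : ∀ k, 0 < t k) (hH : ∀ k, Ps (H k)) (k : ℕ) : Con (wt t H k) :=
  ((chain_con ht hH k).tr.mul (res_ctr (ht k) ((hH k).conj _)).compl.con).mul (chain_con ht hH k)

theorem wt_trace (ht : ∀ k, 0 < t k) (hH : ∀ k, Ps (H k)) (k : ℕ) :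
    trace (wt t H k) ≤ trace (H k) / t k :=
  (trace_conj_le' (chain_con ht hH k) (res_ctr (ht k) ((hH k).conj _)).2).trans
    ((res_trace (ht k) ((hH k).conj _)).trans
      (div_le_div_of_nonneg_right (trace_conj_le (chain_con ht hH k) (hH k)) (ht k).le))

/-- sharper count: the trace AFTER the earlier stages -/
theorem wt_trace' (ht : ∀ k, 0 < t k) (hH : ∀ k, Ps (H k)) (k : ℕ) :
    trace (wt t H k) ≤ trace (chain t H k * H k * (chain t H k)ᵀ) / t k :=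
  (trace_conj_le' (chain_con ht hH k) (res_ctr (ht k) ((hH k).conj _)).2).trans
    (res_trace (ht k) ((hH k).conj _))

theorem wt_trace_one (ht : ∀ k, 0 < t k) (hH : ∀ k, Ps (H k)) (k : ℕ) {u : ι → ℝ}
    (hu : H k = vecMulVec u u) : trace (wt t H k) ≤ 1 := by
  refine (trace_conj_le' (chain_con ht hH k) (res_ctr (ht k) ((hH k).conj _)).2).trans ?_
  rw [hu, conj_vec]
  exact res_trace_one (ht k) _

theorem chain_kill (ht : ∀ k, 0 < t k) (hH : ∀ k, Ps (H k)) {k N : ℕ} (h : k < N) {u : ι → ℝ}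
    (hu : H k = vecMulVec u u) : (chain t H N *ᵥ u) ⬝ᵥ (chain t H N *ᵥ u) ≤ t k / 2 :=
  le_vec (hu ▸ chain_le ht hH N h) (half_pos (ht k)).le

/-- **loss** -/
theorem chain_loss (ht : ∀ k, 0 < t k) (hH : ∀ k, Ps (H k)) (hA : Ps A) (hl : Le A lam)
    (h0 : 0 ≤ lam) : ∀ N, fro A - 4 * lam * ∑ k ∈ range N, trace (wt t H k * A) ≤
      fro (chain t H N * A * (chain t H N)ᵀ)
  | 0 => by simp [chain]
  | N + 1 => by
    have h1 := chain_loss ht hH hA hl h0 N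
    have h2 := loss_step (res_ctr (ht N) ((hH N).conj (chain t H N))) (hA.conj (chain t H N))
      (hl.conj h0 (chain_con ht hH N)) h0
    have e1 : trace (wt t H N * A) = trace ((1 - res (t N) (chain t H N * H N * (chain t H N)ᵀ)) *
        (chain t H N * A * (chain t H N)ᵀ)) := by
      rw [wt, Matrix.mul_assoc, Matrix.mul_assoc, trace_mul_comm]
      simp only [Matrix.mul_assoc]
    have e2 : chain t H (N + 1) * A * (chain t H (N + 1))ᵀ =
        res (t N) (chain t H N * H N * (chain t H N)ᵀ) * (chain t H N * A * (chain t H N)ᵀ) *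
          (res (t N) (chain t H N * H N * (chain t H N)ᵀ))ᵀ := by
      rw [chain, transpose_mul]
      simp only [Matrix.mul_assoc]
    rw [sum_range_succ, e1, e2]
    linarith

/-- **loss, Young form**: `(1 - g) |A|² - 4 X² / g ≤ |R A Rᵀ|²` -/
theorem chain_young (ht : ∀ k, 0 < t k) (hH : ∀ k, Ps (H k)) (hA : Ps A) {g : ℝ} (hg : 0 < g)
    (N : ℕ) : (1 - g) * fro A - 4 * (∑ k ∈ range N, trace (wt t H k * A)) ^ 2 / g ≤
      fro (chain t H N * A * (chain t H N)ᵀ) := by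
  have h1 := chain_loss ht hH hA (le_fro A) (Real.sqrt_nonneg _) N
  set X := ∑ k ∈ range N, trace (wt t H k * A)
  have h2 := Real.sq_sqrt (fro_nonneg A)
  have h3 : 4 * √(fro A) * X ≤ g * fro A + 4 * X ^ 2 / g := by
    rw [← sub_le_iff_le_add', le_div_iff₀ hg]
    have h4 : (g * √(fro A) - 2 * X) ^ 2 = g ^ 2 * fro A - 4 * g * √(fro A) * X + 4 * X ^ 2 := by
      rw [sub_sq, mul_pow, h2]; ring
    nlinarith [sq_nonneg (g * √(fro A) - 2 * X)]
  linarith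

theorem continuous_chain {X : Type*} [TopologicalSpace X] (ht : ∀ k, 0 < t k)
    {H : X → ℕ → Matrix ι ι ℝ} (hc : ∀ k, Continuous fun x => H x k) (hH : ∀ x k, Ps (H x k)) :
    ∀ k, Continuous fun x => chain t (H x) k
  | 0 => continuous_const
  | k + 1 => (continuous_res (ht k) (((continuous_chain ht hc hH k).matrix_mul (hc k)).matrix_mul
      (continuous_chain ht hc hH k).matrix_transpose) fun x => (hH x k).conj _).matrix_mul
      (continuous_chain ht hc hH k)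

theorem continuous_wt {X : Type*} [TopologicalSpace X] (ht : ∀ k, 0 < t k)
    {H : X → ℕ → Matrix ι ι ℝ} (hc : ∀ k, Continuous fun x => H x k) (hH : ∀ x k, Ps (H x k))
    (k : ℕ) : Continuous fun x => wt t (H x) k :=
  ((continuous_chain ht hc hH k).matrix_transpose.matrix_mul (continuous_const.sub
    (continuous_res (ht k) (((continuous_chain ht hc hH k).matrix_mul (hc k)).matrix_mul
      (continuous_chain ht hc hH k).matrix_transpose) fun x => (hH x k).conj _))).matrix_mul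
    (continuous_chain ht hc hH k)

end chain

/-! ### the test matrix of the Bessel step -/

/-- `B = Rᵀ (R A Rᵀ) R` -/
def bes (R A : Matrix ι ι ℝ) : Matrix ι ι ℝ := Rᵀ * (R * A * Rᵀ) * R

theorem bes_ps (hA : Ps A) (R : Matrix ι ι ℝ) : Ps (bes R A) := (hA.conj R).conj' R

theorem bes_trace (hA : Aᵀ = A) (R : Matrix ι ι ℝ) : trace (bes R A * A) = fro (R * A * Rᵀ) := by
  rw [fro_eq, transpose_mul, transpose_mul, transpose_transpose, hA, bes, Matrix.mul_assoc,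
    Matrix.mul_assoc, trace_mul_comm]
  simp only [Matrix.mul_assoc]

theorem bes_fro (hR : Con R) (A : Matrix ι ι ℝ) : fro (bes R A) ≤ fro (R * A * Rᵀ) :=
  (fro_mul_le' hR _).trans (fro_mul_le hR.tr _)

theorem bes_anc (hR : Con R) (hA : Aᵀ = A) (h : Le (R * G * Rᵀ) θ) (h0 : 0 ≤ θ) :
    trace (bes R A * G * bes R A) ≤ θ * fro (R * A * Rᵀ) := by
  have h1 := anc_le h (Rᵀ * (R * A * Rᵀ))
  have h2 := fro_mul_le hR.tr (R * A * Rᵀ)
  have h3 : trace (bes R A * G * bes R A) =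
      trace (Rᵀ * (R * A * Rᵀ) * (R * G * Rᵀ) * (Rᵀ * (R * A * Rᵀ))ᵀ) := by
    rw [bes, transpose_mul, transpose_mul, transpose_mul, transpose_transpose, hA]
    simp only [Matrix.mul_assoc]
  rw [h3]
  exact h1.trans (mul_le_mul_of_nonneg_left h2 h0)

theorem bes_vec (hR : Con R) (A : Matrix ι ι ℝ) (m : ι → ℝ) :
    (bes R A *ᵥ m) ⬝ᵥ (bes R A *ᵥ m) ≤ fro (R * A * Rᵀ) * ((R *ᵥ m) ⬝ᵥ (R *ᵥ m)) := by
  rw [bes, ← mulVec_mulVec, ← mulVec_mulVec]
  exact (hR.tr _).trans (mulVec_sq_le _ _)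

/-! ### a sum of positive cells (84) -/

theorem le_cells {κ : Type*} [DecidableEq κ] (s : Finset κ) {G : κ → Matrix ι ι ℝ}
    (hG : ∀ k ∈ s, Ps (G k)) {τ : ℝ} (h0 : 0 ≤ τ) (hτ : ∀ k ∈ s, Le (G k) τ) :
    Le (∑ k ∈ s, G k) (τ + √(∑ k ∈ s, ∑ l ∈ s.erase k, trace (G k * G l))) := fun v => by
  choose! V hV using fun k (hk : k ∈ s) => (hG k hk).exists_sq
  set h := √(∑ k ∈ s, ∑ l ∈ s.erase k, trace (G k * G l)) with hh
  have hh0 : 0 ≤ h := Real.sqrt_nonneg _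
  set a : κ → ℝ := fun k => v ⬝ᵥ G k *ᵥ v with ha
  have ha0 : ∀ k ∈ s, 0 ≤ a k := fun k hk => (hG k hk).2 v
  have hS : v ⬝ᵥ (∑ k ∈ s, G k) *ᵥ v = ∑ k ∈ s, a k := by rw [sum_mulVec, dotProduct_sum]
  have hS0 : 0 ≤ ∑ k ∈ s, a k := sum_nonneg ha0
  have hc : ∀ k ∈ s, ∀ l ∈ s, ((G k *ᵥ v) ⬝ᵥ (G l *ᵥ v)) ^ 2 ≤ trace (G k * G l) * (a k * a l) := by
    intro k hk l hl
    have h1 := bil_sq_le (V k * (V l)ᵀ) (V k *ᵥ v) (V l *ᵥ v)
    have e1 : fro (V k * (V l)ᵀ) = trace (G k * G l) := by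
      rw [fro_eq', transpose_mul, transpose_transpose, hV k hk, hV l hl, Matrix.mul_assoc,
        trace_mul_comm]
      simp only [Matrix.mul_assoc]
    have e2 : (V k *ᵥ v) ⬝ᵥ (V k * (V l)ᵀ) *ᵥ (V l *ᵥ v) = (G k *ᵥ v) ⬝ᵥ (G l *ᵥ v) := by
      rw [← mulVec_mulVec, dot_tr, mulVec_mulVec, mulVec_mulVec, ← hV k hk, ← hV l hl]
    rw [e1, e2, ← qf_gram, ← qf_gram, ← hV k hk, ← hV l hl] at h1
    exact h1
  have ht : ∀ k ∈ s, ∀ l ∈ s, 0 ≤ trace (G k * G l) := fun k hk l hl =>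
    tr_nonneg (hG k hk) (hG l hl).2
  have hoff : ∑ k ∈ s, ∑ l ∈ s.erase k, (G k *ᵥ v) ⬝ᵥ (G l *ᵥ v) ≤ h * ∑ k ∈ s, a k := by
    rw [sum_sigma']
    have h1 := sum_sq_le_sum_mul_sum_of_sq_le_mul (s.sigma fun k => s.erase k)
      (r := fun p => (G p.1 *ᵥ v) ⬝ᵥ (G p.2 *ᵥ v)) (f := fun p => trace (G p.1 * G p.2))
      (g := fun p => a p.1 * a p.2)
      (fun p hp => ht _ (mem_sigma.1 hp).1 _ (mem_of_mem_erase (mem_sigma.1 hp).2))
      (fun p hp => mul_nonneg (ha0 _ (mem_sigma.1 hp).1)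
        (ha0 _ (mem_of_mem_erase (mem_sigma.1 hp).2)))
      (fun p hp => hc _ (mem_sigma.1 hp).1 _ (mem_of_mem_erase (mem_sigma.1 hp).2))
    have h2 : ∑ p ∈ s.sigma fun k => s.erase k, a p.1 * a p.2 ≤ (∑ k ∈ s, a k) ^ 2 := by
      rw [← sum_sigma' s (fun k => s.erase k) fun k l => a k * a l, sq, sum_mul_sum]
      exact sum_le_sum fun k hk => sum_le_sum_of_subset_of_nonneg (erase_subset _ _)
        fun l hl _ => mul_nonneg (ha0 k hk) (ha0 l hl)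
    have h3 : ∑ p ∈ s.sigma fun k => s.erase k, trace (G p.1 * G p.2) = h ^ 2 := by
      rw [hh, Real.sq_sqrt (sum_nonneg fun k hk => sum_nonneg fun l hl =>
        ht k hk l (mem_of_mem_erase hl)), sum_sigma']
    rw [h3] at h1
    refine (abs_le_of_sq_le_sq' ?_ (mul_nonneg hh0 hS0)).2
    rw [mul_pow]
    exact h1.trans (mul_le_mul_of_nonneg_left h2 (sq_nonneg h))
  have hdiag : ∑ k ∈ s, (G k *ᵥ v) ⬝ᵥ (G k *ᵥ v) ≤ τ * ∑ k ∈ s, a k := by
    rw [mul_sum]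
    exact sum_le_sum fun k hk => (hG k hk).sq_le (hτ k hk) h0 v
  have hsq : ((∑ k ∈ s, G k) *ᵥ v) ⬝ᵥ ((∑ k ∈ s, G k) *ᵥ v) ≤ (τ + h) * ∑ k ∈ s, a k := by
    rw [sum_mulVec, sum_dotProduct, add_mul]
    refine le_trans (le_of_eq ?_) (add_le_add hdiag hoff)
    rw [← sum_add_distrib]
    refine sum_congr rfl fun k hk => ?_
    rw [dotProduct_sum, add_sum_erase s (fun l => (G k *ᵥ v) ⬝ᵥ (G l *ᵥ v)) hk]
  have h1 := dot_cs v ((∑ k ∈ s, G k) *ᵥ v)
  rw [hS] at h1 ⊢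
  have h4 := dot_nonneg v
  rcases hS0.eq_or_lt with e | e
  · rw [← e]; positivity
  · by_contra hcon
    push Not at hcon
    nlinarith [mul_le_mul_of_nonneg_left hsq h4]

end Crest.Agent.T156.Anc93

end
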