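import Crest.Agent.T156.AltReg_29
import Crest.Agent.T156.GrDef_62

/-!
# Row 156, ALT route: parameters and exponents of the graded family (helper29)
-/

set_option autoImplicit false

noncomputable section

namespace Crest.Agent.T156.Alt

open Real Set Filter Topology Pre29

/-! ### the shape `gS` -/

namespace Gr29

variable {σ σ' t t' k : ℝ}

theorem gS_le (σ t : ℝ) : gS σ t ≤ t := sub_le_self _ (sq_nonneg _)

theorem gS_zero (hσ : 0 ≤ σ) : gS σ 0 = 0 := gS_lo (by simpa using hσ)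

/-- `min t (σ √t) ≤ gS σ t ≤ 2 min t (σ √t)` -/
theorem gS_bds (hσ : 0 ≤ σ) (ht : 0 ≤ t) :
    min t (σ * √t) ≤ gS σ t ∧ gS σ t ≤ 2 * min t (σ * √t) := by
  have h0 := sqrt_nonneg t
  have h1 := sq_sqrt ht
  rcases le_total √t σ with h | h
  · rw [gS_lo h, min_eq_left (by nlinarith)]
    exact ⟨le_rfl, by linarith⟩
  · rw [gS_hi ht h, min_eq_right (by nlinarith)]
    exact ⟨by nlinarith, by nlinarith⟩

theorem gS_nn (hσ : 0 ≤ σ) (ht : 0 ≤ t) : 0 ≤ gS σ t :=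
  (le_min ht (mul_nonneg hσ (sqrt_nonneg t))).trans (gS_bds hσ ht).1

theorem gS_pos (hσ : 0 < σ) (ht : 0 < t) : 0 < gS σ t :=
  (lt_min ht (mul_pos hσ (sqrt_pos.2 ht))).trans_le (gS_bds hσ.le ht.le).1

theorem gS_le' (hσ : 0 ≤ σ) (ht : 0 ≤ t) : gS σ t ≤ 2 * σ * √t := by
  linarith [(gS_bds hσ ht).2, min_le_right t (σ * √t)]

/-- `1`-Lipschitz from above -/
theorem gS_lip (σ : ℝ) (h : t ≤ t') : gS σ t' - gS σ t ≤ t' - t := by
  have h1 : max 0 (√t - σ) ≤ max 0 (√t' - σ) :=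
    max_le_max le_rfl (sub_le_sub_right (sqrt_le_sqrt h) σ)
  have h2 := pow_le_pow_left₀ (le_max_left _ _) h1 2
  rw [gS, gS]
  linarith

theorem gS_mono (hσ : 0 ≤ σ) : Monotone (gS σ) := by
  intro t t' h
  have h0 := sqrt_le_sqrt h
  rcases le_total √t' σ with a | a
  · rw [gS_lo a, gS_lo (h0.trans a)]
    exact h
  rcases le_total t' 0 with b | b
  · rw [gS_lo ((sqrt_eq_zero'.2 b).le.trans hσ),
      gS_lo ((sqrt_eq_zero'.2 (h.trans b)).le.trans hσ)]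
    exact h
  rw [gS_hi b a]
  rcases le_total √t σ with c | c
  · rw [gS_lo c]
    rcases le_total t 0 with d | d
    · nlinarith
    · nlinarith [sq_sqrt d, sqrt_nonneg t]
  · rcases le_total t 0 with d | d
    · have := gS_le σ t
      nlinarith
    · rw [gS_hi d c]
      nlinarith

theorem gS_abs (hσ : 0 ≤ σ) (t t' : ℝ) : |gS σ t' - gS σ t| ≤ |t' - t| := by
  rcases le_total t t' with h | h
  · rw [abs_of_nonneg (sub_nonneg.2 (gS_mono hσ h)), abs_of_nonneg (sub_nonneg.2 h)]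
    exact gS_lip σ h
  · rw [abs_sub_comm, abs_sub_comm t', abs_of_nonneg (sub_nonneg.2 (gS_mono hσ h)),
      abs_of_nonneg (sub_nonneg.2 h)]
    exact gS_lip σ h

/-- monotone in the grade -/
theorem gS_mono' (h : σ ≤ σ') (t : ℝ) : gS σ t ≤ gS σ' t := by
  have h1 : max 0 (√t - σ') ≤ max 0 (√t - σ) := max_le_max le_rfl (sub_le_sub_left h _)
  have h2 := pow_le_pow_left₀ (le_max_left _ _) h1 2
  rw [gS, gS]
  linarith

/-- sublinear in the level -/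
theorem gS_mul (hσ : 0 ≤ σ) (hk : 1 ≤ k) (t : ℝ) : gS σ (k * t) ≤ k * gS σ t := by
  have k0 : 0 ≤ k := by linarith
  have k1 : 1 ≤ √k := by simpa using sqrt_le_sqrt hk
  have h1 : √k * max 0 (√t - σ) ≤ max 0 (√(k * t) - σ) := by
    rw [sqrt_mul k0, mul_max_of_nonneg _ _ (sqrt_nonneg k), mul_zero]
    exact max_le_max le_rfl (by nlinarith)
  have h2 := pow_le_pow_left₀ (mul_nonneg (sqrt_nonneg k) (le_max_left _ _)) h1 2
  rw [mul_pow, sq_sqrt k0] at h2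
  rw [gS, gS]
  linarith

/-- sublinear in the grade -/
theorem gS_mul' (hσ : 0 ≤ σ) (hk : 1 ≤ k) (ht : 0 ≤ t) : gS (k * σ) t ≤ k * gS σ t := by
  have h0 := sqrt_nonneg t
  have h1 := sq_sqrt ht
  rcases le_total √t σ with a | a
  · rw [gS_lo a]
    nlinarith [gS_le (k * σ) t]
  rw [gS_hi ht a]
  have h2 : 0 ≤ k * σ := by positivity
  rcases le_total √t (k * σ) with b | b
  · rw [gS_lo b]
    nlinarith [mul_le_mul_of_nonneg_right b h0, mul_le_mul_of_nonneg_left a h2]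
  · rw [gS_hi ht b]
    nlinarith [mul_nonneg h2 hσ]

/-- the slope above the knee -/
theorem gS_lip' (σ : ℝ) (ht : 0 ≤ t) (h : t ≤ t') :
    gS σ t' - gS σ t ≤ 2 * σ * (√t' - √t) := by
  have h0 := sqrt_le_sqrt h
  have h1 := sq_sqrt ht
  have h2 := sq_sqrt (ht.trans h)
  have h3 := sqrt_nonneg t
  rcases le_total √t' σ with a | a
  · rw [gS_lo a, gS_lo (h0.trans a)]
    nlinarith
  rw [gS_hi (ht.trans h) a]
  rcases le_total √t σ with c | c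
  · rw [gS_lo c]
    nlinarith [sq_nonneg (σ - √t)]
  · rw [gS_hi ht c]
    linarith

/-- the clipped level -/
def xc (p : Pm) (t : ℝ) : ℝ := max p.r (min t p.ye)

theorem msG_eq (p : Pm) (σ t : ℝ) : p.msG σ t = p.κ * xc p t * gS σ (xc p t) := rfl

theorem xc_mono (p : Pm) : Monotone (xc p) := fun _ _ h =>
  max_le_max le_rfl (min_le_min_right _ h)

theorem r_le_xc (p : Pm) (t : ℝ) : p.r ≤ xc p t := le_max_left _ _

theorem xc_lo {p : Pm} (h : t ≤ p.r) : xc p t = p.r :=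
  max_eq_left ((min_le_left _ _).trans h)

theorem xc_mid {p : Pm} (h1 : p.r ≤ t) (h2 : t ≤ p.ye) : xc p t = t := by
  rw [xc, min_eq_left h2, max_eq_right h1]

theorem oct_mem {p : Pm} (h : p.OctR σ σ') : p.MemG σ ∧ p.MemG σ' :=
  ⟨⟨h.1, h.2.1.trans h.2.2.2⟩, h.1.trans h.2.1, h.2.2.2⟩

end Gr29

open Gr29

namespace Reg

variable {β c0 C0 : ℝ} {A : ℕ} {c η K : ℝ} {p : Pm} (H : Reg β c0 C0 A c η K p)
include H

theorem rp0 (x : ℝ) : 0 < (p.n : ℝ) ^ x := rp_pos H.n1 _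

theorem lg_two : 0 ≤ logb p.n 2 ∧ logb p.n 2 ≤ η := H.lg_num (by norm_num) (by norm_num)

/-! ### `am`, `jf`, `y1` -/

theorem am0 : 0 < p.am := mul_pos H.s0 (H.rp0 _)

theorem lg_am : logb p.n p.am = logb p.n p.s + c / 100 - 1 / 6 := by
  rw [Pm.am, logb_mul H.s0.ne' (H.rp0 _).ne', H.lg_rp, Pm.ga, H.hc]
  ring

theorem jf_bds : p.s * (p.n : ℝ) ^ (c / 13 - 1 / 6) ≤ p.jf * p.v ∧
    p.jf * p.v ≤ p.s * (p.n : ℝ) ^ (c / 13 - 1 / 6) + p.v := by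
  have h0 := div_pos (mul_pos H.s0 (H.rp0 (p.c / 13 - 1 / 6))) H.v0
  have h1 := Nat.le_ceil (p.s * (p.n : ℝ) ^ (p.c / 13 - 1 / 6) / p.v)
  have h2 := (Nat.ceil_lt_add_one h0.le).le
  rw [div_le_iff₀ H.v0] at h1
  rw [div_add_one H.v0.ne', le_div_iff₀ H.v0] at h2
  rw [← H.hc]
  exact ⟨h1, h2⟩

theorem jf_pos : 0 < p.jf := Nat.ceil_pos.2 (div_pos (mul_pos H.s0 (H.rp0 _)) H.v0)

theorem jfv0 : 0 < p.jf * p.v := mul_pos (Nat.cast_pos.2 H.jf_pos) H.v0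

theorem lg_jf : logb p.n p.s + c / 13 - 1 / 6 ≤ logb p.n (p.jf * p.v) ∧
    logb p.n (p.jf * p.v) ≤ logb p.n p.s + c / 13 - 1 / 6 + η := by
  have a0 := mul_pos H.s0 (H.rp0 (c / 13 - 1 / 6))
  have e : logb p.n (p.s * (p.n : ℝ) ^ (c / 13 - 1 / 6)) = logb p.n p.s + c / 13 - 1 / 6 := by
    rw [logb_mul H.s0.ne' (H.rp0 _).ne', H.lg_rp]
    ring
  have hA : (2 : ℝ) ≤ A := by exact_mod_cast H.A2
  have a1 : p.v ≤ p.s * (p.n : ℝ) ^ (c / 13 - 1 / 6) := H.le_of_lg H.v0 a0 (by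
    linarith [H.lg_v_le, H.η_le, H.c_le, H.c_pos, H.lg_s.1])
  have a2 := H.lg_mono H.jfv0 (y := 2 * (p.s * (p.n : ℝ) ^ (c / 13 - 1 / 6)))
    (by linarith [H.jf_bds.2])
  rw [logb_mul two_ne_zero a0.ne', e] at a2
  exact ⟨e.ge.trans (H.lg_mono a0 H.jf_bds.1), by linarith [H.lg_two.2]⟩

theorem y1_pos : 0 < p.y1 := H.r0.trans_le (le_max_left _ _)

theorem lg_y1 : logb p.n p.y1 = max (logb p.n p.r) (6 / 25 * c - 1 / 6) := by
  rw [Pm.y1, lg_max H.N1 H.r0 (H.rp0 _), H.lg_rp, H.hc]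

/-! ### the static scales of a mass `μ` -/

section static

variable {μ : ℝ} (hμ : 0 < μ)
include hμ

theorem mu'0 : 0 < p.mu' μ := mul_pos hμ (H.rp0 _)

theorem lg_mu' : logb p.n (p.mu' μ) = logb p.n μ + 1 / 3 := by
  rw [Pm.mu', logb_mul hμ.ne' (H.rp0 _).ne', H.lg_rp]

theorem la0 : 0 < p.la μ :=
  mul_pos (H.rp0 _) (lt_min (rpow_pos_of_pos (H.mu'0 hμ) _) (rpow_pos_of_pos (H.mu'0 hμ) _))

theorem lg_la : logb p.n (p.la μ) = -(1 / 6) - c / 2 +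
    min (-(logb p.n μ + 1 / 3) / 3) (-(logb p.n μ + 1 / 3) / 2) := by
  have a := H.mu'0 hμ
  rw [Pm.la, logb_mul (H.rp0 _).ne' (lt_min (rpow_pos_of_pos a _) (rpow_pos_of_pos a _)).ne',
    H.lg_rp, lg_min H.N1 (rpow_pos_of_pos a _) (rpow_pos_of_pos a _),
    logb_rpow_eq_mul_logb_of_pos a, logb_rpow_eq_mul_logb_of_pos a, H.lg_mu' hμ, H.hc]
  congr 2 <;> ring

omit hμ in
theorem Vc0 : 0 < p.Vc μ := mul_pos (H.rp0 _) (one_pos.trans_le (le_max_left _ _))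

theorem lg_Vc : logb p.n (p.Vc μ) = -(1 / 6) + 3 * c / 4 +
    max 0 (-(logb p.n μ + 1 / 3) / 3) := by
  have a := H.mu'0 hμ
  rw [Pm.Vc, logb_mul (H.rp0 _).ne' (one_pos.trans_le (le_max_left _ _)).ne',
    H.lg_rp, lg_max H.N1 one_pos (rpow_pos_of_pos a _), logb_one,
    logb_rpow_eq_mul_logb_of_pos a, H.lg_mu' hμ, H.hc]
  congr 2
  ring

theorem u20 : 0 < p.u2 μ := div_pos (H.rp0 _) (mul_pos (mul_pos H.N0 hμ) H.Vc0)

theorem lg_u2 : logb p.n (p.u2 μ) = c / 2 - 1 - logb p.n μ - logb p.n (p.Vc μ) := by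
  rw [Pm.u2, logb_div (H.rp0 _).ne' (mul_pos (mul_pos H.N0 hμ) H.Vc0).ne',
    logb_mul (mul_pos H.N0 hμ).ne' H.Vc0.ne', logb_mul H.N0.ne' hμ.ne', H.lg_rp, H.lg_n, H.hc]
  ring

end static

/-! ### the grade -/

theorem sg00 : 0 < p.sg0 := div_pos H.μ00 (mul_pos (mul_pos H.κ0 H.ye0) (sqrt_pos.2 H.ye0))

theorem sg10 : 0 < p.sg1 := sqrt_pos.2 (by linarith [H.ye0])

theorem lg_sg0 : logb p.n p.sg0 = -(2 / 3) + 7 * c / 2 := by
  have := H.μ00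
  have := H.κ0
  have := H.ye0
  rw [Pm.sg0]
  lg_norm
  rw [H.lg_μ0, H.lg_κ, H.lg_ye]
  ring

theorem lg_sg1 : -(3 * c / 2) ≤ logb p.n p.sg1 ∧ logb p.n p.sg1 ≤ η / 2 - 3 * c / 2 := by
  have := H.ye0
  rw [Pm.sg1]
  lg_norm
  rw [H.lg_ye]
  exact ⟨by linarith [H.lg_two.1], by linarith [H.lg_two.2]⟩

theorem sg0_le : p.sg0 ≤ p.sg1 := H.le_of_lg H.sg00 H.sg10 (by
  linarith [H.lg_sg0, H.lg_sg1.1, H.c_le])

theorem memG0 : p.MemG p.sg0 := ⟨le_rfl, H.sg0_le⟩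
theorem memG1 : p.MemG p.sg1 := ⟨H.sg0_le, le_rfl⟩

theorem xc0 (t : ℝ) : 0 < xc p t := H.r0.trans_le (r_le_xc p t)

theorem xc_le (t : ℝ) : xc p t ≤ p.ye := max_le H.r_le_ye (min_le_right _ _)

theorem xc_hi {t : ℝ} (h : p.ye ≤ t) : xc p t = p.ye := by
  rw [xc, min_eq_right h, max_eq_right H.r_le_ye]

theorem xc_mul {t k : ℝ} (hk : 1 ≤ k) : xc p (k * t) ≤ k * xc p t := by
  have h0 := H.xc0 t
  have h1 : xc p t ≤ k * xc p t := le_mul_of_one_le_left h0.le hk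
  refine max_le ((r_le_xc p t).trans h1) ?_
  rcases le_total t p.ye with h | h
  · exact (min_le_left _ _).trans (mul_le_mul_of_nonneg_left
      ((min_eq_left h).ge.trans (le_max_right _ _)) (by linarith))
  · exact (min_le_right _ _).trans ((H.xc_hi h).ge.trans h1)

theorem lg_xc (t : ℝ) : logb p.n p.r ≤ logb p.n (xc p t) ∧ logb p.n (xc p t) ≤ -(3 * c) :=
  ⟨H.lg_mono H.r0 (r_le_xc p t), (H.lg_mono (H.xc0 t) (H.xc_le t)).trans_eq H.lg_ye⟩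

theorem lg_xc' {t : ℝ} (ht : 0 < t) :
    logb p.n (xc p t) = max (logb p.n p.r) (min (logb p.n t) (-(3 * c))) := by
  rw [xc, lg_max H.N1 H.r0 (lt_min ht H.ye0), lg_min H.N1 ht H.ye0, H.lg_ye]

omit H in
theorem msG_lo (σ : ℝ) {t : ℝ} (h : t ≤ p.r) : p.msG σ t = p.epsG σ := by
  rw [msG_eq, xc_lo h, Pm.epsG]

theorem msG_hi (σ : ℝ) {t : ℝ} (h : p.ye ≤ t) : p.msG σ t = p.muG σ := by
  rw [msG_eq, H.xc_hi h, Pm.muG]

theorem msG_zero (σ : ℝ) : p.msG σ 0 = p.epsG σ := msG_lo σ H.r0.le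

theorem msG_one (σ : ℝ) : p.msG σ 1 = p.muG σ := H.msG_hi σ H.ye1

theorem msG_le_sq (σ t : ℝ) : p.msG σ t ≤ p.κ * xc p t ^ 2 := by
  rw [msG_eq, sq, ← mul_assoc]
  exact mul_le_mul_of_nonneg_left (gS_le _ _) (mul_pos H.κ0 (H.xc0 t)).le

/-- monotone in the grade -/
theorem msG_gr {σ σ' : ℝ} (h : σ ≤ σ') (t : ℝ) : p.msG σ t ≤ p.msG σ' t :=
  mul_le_mul_of_nonneg_left (gS_mono' h _) (mul_pos H.κ0 (H.xc0 t)).le

theorem muG_gr {σ σ' : ℝ} (h : σ ≤ σ') : p.muG σ ≤ p.muG σ' := by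
  rw [← H.msG_one, ← H.msG_one]
  exact H.msG_gr h 1

theorem muG_le (σ : ℝ) : p.muG σ ≤ p.κ ^ 7 := by
  rw [← H.msG_one]
  refine (H.msG_le_sq σ 1).trans_eq ?_
  rw [H.xc_hi H.ye1, Pm.ye]
  ring

theorem muG_le_κ (σ : ℝ) : p.muG σ ≤ p.κ :=
  (H.muG_le σ).trans (pow_le_of_le_one H.κ0.le H.κ1 (by norm_num))

theorem muG_log (σ : ℝ) : p.muG σ * log p.n ≤ 1 := by
  have a : p.κ * (p.n : ℝ) ^ η ≤ 1 := H.le_of_lg (mul_pos H.κ0 H.Λ0) one_pos (by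
    rw [logb_mul H.κ0.ne' H.Λ0.ne', H.lg_κ, H.lg_rp, logb_one]
    linarith [H.η_le])
  exact (mul_le_mul (H.muG_le_κ σ) H.log_le (by linarith [H.log1]) H.κ0.le).trans a

section grade

variable {σ : ℝ} (hσ : 0 < σ)
include hσ

theorem msG0 (t : ℝ) : 0 < p.msG σ t :=
  mul_pos (mul_pos H.κ0 (H.xc0 t)) (gS_pos hσ (H.xc0 t))

theorem muG0 : 0 < p.muG σ := H.msG_one σ ▸ H.msG0 hσ 1

theorem epsG0 : 0 < p.epsG σ := H.msG_zero σ ▸ H.msG0 hσ 0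

theorem msG_mono : Monotone (p.msG σ) := fun t t' h =>
  mul_le_mul (mul_le_mul_of_nonneg_left (xc_mono p h) H.κ0.le) (gS_mono hσ.le (xc_mono p h))
    (gS_nn hσ.le (H.xc0 t).le) (mul_pos H.κ0 (H.xc0 t')).le

theorem msG_le (t : ℝ) : p.msG σ t ≤ p.muG σ := by
  rcases le_total t 1 with h | h
  · exact (H.msG_mono hσ h).trans_eq (H.msG_one σ)
  · exact (H.msG_hi σ (H.ye1.trans h)).le

theorem epsG_le (t : ℝ) : p.epsG σ ≤ p.msG σ t := by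
  rcases le_total 0 t with h | h
  · exact (H.msG_zero σ).ge.trans (H.msG_mono hσ h)
  · exact (msG_lo σ (h.trans H.r0.le)).ge

/-- doubling -/
theorem msG_mul {k : ℝ} (hk : 1 ≤ k) (t : ℝ) : p.msG σ (k * t) ≤ k ^ 2 * p.msG σ t := by
  have a1 := H.xc_mul (t := t) hk
  have a2 := (gS_mono hσ.le a1).trans (gS_mul hσ.le hk _)
  have a3 := mul_le_mul (mul_le_mul_of_nonneg_left a1 H.κ0.le) a2 (gS_nn hσ.le (H.xc0 _).le)
    (mul_nonneg H.κ0.le ((H.xc0 _).le.trans a1))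
  rw [msG_eq, msG_eq]
  exact a3.trans_eq (by ring)

theorem msG_two (t : ℝ) : p.msG σ (2 * t) ≤ 4 * p.msG σ t :=
  (H.msG_mul hσ one_le_two t).trans_eq (by norm_num)

/-- comparison along an octave -/
theorem msG_oct {σ' k : ℝ} (hk : 1 ≤ k) (h : σ' ≤ k * σ) (t : ℝ) :
    p.msG σ' t ≤ k * p.msG σ t := by
  have a := mul_le_mul_of_nonneg_left ((gS_mono' h _).trans (gS_mul' hσ.le hk (H.xc0 t).le))
    (mul_pos H.κ0 (H.xc0 t)).le
  rw [msG_eq, msG_eq]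
  exact a.trans_eq (by ring)

theorem muG_oct {σ' k : ℝ} (hk : 1 ≤ k) (h : σ' ≤ k * σ) : p.muG σ' ≤ k * p.muG σ := by
  rw [← H.msG_one, ← H.msG_one]
  exact H.msG_oct hσ hk h 1

theorem msG_bds (t : ℝ) : p.κ * xc p t * min (xc p t) (σ * √(xc p t)) ≤ p.msG σ t ∧
    p.msG σ t ≤ 2 * (p.κ * xc p t * min (xc p t) (σ * √(xc p t))) := by
  have a := gS_bds hσ.le (H.xc0 t).le
  have b := (mul_pos H.κ0 (H.xc0 t)).le
  exact ⟨mul_le_mul_of_nonneg_left a.1 b, (mul_le_mul_of_nonneg_left a.2 b).trans_eq (by ring)⟩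

/-- the exponent of the mass: `-c + X + min X (Σ + X / 2)` up to `η` -/
theorem lg_msG (t : ℝ) :
    -c + logb p.n (xc p t) + min (logb p.n (xc p t)) (logb p.n σ + logb p.n (xc p t) / 2) ≤
      logb p.n (p.msG σ t) ∧ logb p.n (p.msG σ t) ≤ η +
    (-c + logb p.n (xc p t) + min (logb p.n (xc p t)) (logb p.n σ + logb p.n (xc p t) / 2)) := by
  have x0 := H.xc0 t
  have a1 := mul_pos hσ (sqrt_pos.2 x0)
  have a0 := mul_pos (mul_pos H.κ0 x0) (lt_min x0 a1)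
  have e : logb p.n (p.κ * xc p t * min (xc p t) (σ * √(xc p t))) = -c + logb p.n (xc p t) +
      min (logb p.n (xc p t)) (logb p.n σ + logb p.n (xc p t) / 2) := by
    rw [logb_mul (mul_pos H.κ0 x0).ne' (lt_min x0 a1).ne', logb_mul H.κ0.ne' x0.ne', H.lg_κ,
      lg_min H.N1 x0 a1, logb_mul hσ.ne' (sqrt_pos.2 x0).ne', lg_sqrt _ x0.le]
  have b := H.lg_mono (H.msG0 hσ t) (H.msG_bds hσ t).2
  rw [logb_mul two_ne_zero a0.ne', e] at b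
  exact ⟨e.ge.trans (H.lg_mono a0 (H.msG_bds hσ t).1), by linarith [H.lg_two.2]⟩

theorem lg_muG : -(4 * c) + min (-(3 * c)) (logb p.n σ - 3 * c / 2) ≤ logb p.n (p.muG σ) ∧
    logb p.n (p.muG σ) ≤ η + (-(4 * c) + min (-(3 * c)) (logb p.n σ - 3 * c / 2)) := by
  have a := H.lg_msG hσ 1
  rw [H.msG_one, H.xc_hi H.ye1, H.lg_ye, show logb p.n σ + -(3 * c) / 2 = logb p.n σ - 3 * c / 2 by
    ring] at a
  exact ⟨by linarith [a.1], by linarith [a.2]⟩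

theorem lg_epsG :
    -c + logb p.n p.r + min (logb p.n p.r) (logb p.n σ + logb p.n p.r / 2) ≤ logb p.n (p.epsG σ) ∧
    logb p.n (p.epsG σ) ≤
      η + (-c + logb p.n p.r + min (logb p.n p.r) (logb p.n σ + logb p.n p.r / 2)) := by
  have a := H.lg_msG hσ 0
  rwa [H.msG_zero, xc_lo H.r0.le] at a

end grade

section mem

variable {σ : ℝ} (M : p.MemG σ)
include M

theorem σ0 : 0 < σ := H.sg00.trans_le M.1

theorem lg_σ : -(2 / 3) + 7 * c / 2 ≤ logb p.n σ ∧ logb p.n σ ≤ η / 2 - 3 * c / 2 :=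
  ⟨H.lg_sg0.ge.trans (H.lg_mono H.sg00 M.1), (H.lg_mono (H.σ0 M) M.2).trans H.lg_sg1.2⟩

theorem σ1 : σ ≤ 1 := H.le_of_lg (H.σ0 M) one_pos (by
  rw [logb_one]
  linarith [(H.lg_σ M).2, H.η_le, H.c_pos])

theorem lg_muG' : -(2 / 3) - 2 * c ≤ logb p.n (p.muG σ) ∧ logb p.n (p.muG σ) ≤ -(7 * c) := by
  refine ⟨le_trans ?_ (H.lg_muG (H.σ0 M)).1, ?_⟩
  · have : -(2 / 3) + 2 * c ≤ min (-(3 * c)) (logb p.n σ - 3 * c / 2) :=
      le_min (by linarith [H.c_le]) (by linarith [(H.lg_σ M).1])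
    linarith
  · refine (H.lg_mono (H.muG0 (H.σ0 M)) (H.muG_le σ)).trans_eq ?_
    rw [logb_pow, H.lg_κ]
    push_cast
    ring

theorem μ0_le_muG : p.μ0 ≤ p.muG σ :=
  H.le_of_lg H.μ00 (H.muG0 (H.σ0 M)) (H.lg_μ0.le.trans (H.lg_muG' M).1)

theorem lg_epsG' : -(11 / 12) ≤ logb p.n (p.epsG σ) := by
  refine le_trans ?_ (H.lg_epsG (H.σ0 M)).1
  have a := H.lg_r
  have b := H.lg_s.1
  have := H.c_pos
  have : -(3 / 4) + 3 * c ≤ min (logb p.n p.r) (logb p.n σ + logb p.n p.r / 2) :=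
    le_min (by linarith [H.c_le]) (by linarith [(H.lg_σ M).1])
  linarith

theorem epsG_ge : (p.n : ℝ) ^ (-(11 : ℝ) / 12) ≤ p.epsG σ :=
  H.le_of_lg (H.rp0 _) (H.epsG0 (H.σ0 M)) (by rw [H.lg_rp]; linarith [H.lg_epsG' M])

theorem msG_ge (t : ℝ) : (p.n : ℝ) ^ (-(1 : ℝ)) ≤ p.msG σ t :=
  ((rp_le H.n1 (by norm_num)).trans (H.epsG_ge M)).trans (H.epsG_le (H.σ0 M) t)

theorem msG_ge' (t : ℝ) : (p.n : ℝ)⁻¹ ≤ p.msG σ t := by
  rw [← rpow_neg_one]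
  exact H.msG_ge M t

end mem

theorem muG_sg0 : p.muG p.sg0 ≤ 2 * p.μ0 := by
  have a := mul_le_mul_of_nonneg_left (gS_le' H.sg00.le H.ye0.le) (mul_pos H.κ0 H.ye0).le
  refine a.trans_eq ?_
  have := H.κ0
  have := H.ye0
  have := sqrt_pos.2 H.ye0
  rw [Pm.sg0]
  field_simp

/-- one octave: masses are comparable -/
theorem oct {σ σ' : ℝ} (h : p.OctR σ σ') (t : ℝ) :
    p.msG σ t ≤ p.msG σ' t ∧ p.msG σ' t ≤ 2 * p.msG σ t :=
  ⟨H.msG_gr h.2.1 t, H.msG_oct (H.sg00.trans_le h.1) one_le_two h.2.2.1 t⟩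

theorem oct_mu {σ σ' : ℝ} (h : p.OctR σ σ') : p.muG σ ≤ p.muG σ' ∧ p.muG σ' ≤ 2 * p.muG σ := by
  rw [← H.msG_one, ← H.msG_one]
  exact H.oct h 1

/-! ### the mass `mt μ` of the plateau grid -/

theorem mt_mono {μ μ' : ℝ} (h : μ ≤ μ') : p.mt μ ≤ p.mt μ' :=
  min_le_min (div_le_div_of_nonneg_right h (pow_pos H.κ0 3).le) (max_le_max h le_rfl)

theorem mt_mul {μ k : ℝ} (hk : 1 ≤ k) : p.mt (k * μ) ≤ k * p.mt μ := by
  have k0 : 0 ≤ k := by linarith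
  rw [Pm.mt, Pm.mt, mul_min_of_nonneg _ _ k0, mul_max_of_nonneg _ _ k0, mul_div_assoc]
  exact min_le_min le_rfl (max_le_max le_rfl
    (le_mul_of_one_le_left (mul_pos H.κ0 (H.rp0 _)).le hk))

theorem mt_oct {μ μ' k : ℝ} (hk : 1 ≤ k) (h : μ' ≤ k * μ) : p.mt μ' ≤ k * p.mt μ :=
  (H.mt_mono h).trans (H.mt_mul hk)

theorem le_mt {μ : ℝ} (hμ : 0 ≤ μ) : μ ≤ p.mt μ := Pm.le_mt H.κ0 H.κ1 hμ

theorem mt0 {μ : ℝ} (hμ : 0 < μ) : 0 < p.mt μ := hμ.trans_le (H.le_mt hμ.le)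

theorem lg_mt {μ : ℝ} (hμ : 0 < μ) : logb p.n (p.mt μ) =
    min (logb p.n μ + 3 * c) (max (logb p.n μ) (-c - 1 / 3)) := by
  have a := mul_pos H.κ0 (H.rp0 (-(1 : ℝ) / 3))
  have b := pow_pos H.κ0 3
  rw [Pm.mt, lg_min H.N1 (div_pos hμ b) (hμ.trans_le (le_max_left _ _)), lg_max H.N1 hμ a,
    logb_div hμ.ne' b.ne', logb_pow, logb_mul H.κ0.ne' (H.rp0 _).ne', H.lg_κ, H.lg_rp]
  congr 1
  · push_cast
    ring
  · congr 1
    ring

theorem lg_mt' {μ : ℝ} (hμ : 0 < μ) : logb p.n μ ≤ logb p.n (p.mt μ) ∧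
    logb p.n (p.mt μ) ≤ logb p.n μ + 3 * c :=
  ⟨H.lg_mono hμ (H.le_mt hμ.le), (H.lg_mt hμ).le.trans (min_le_left _ _)⟩

theorem mt_le_κ {μ : ℝ} (h : μ ≤ p.κ) : p.mt μ ≤ p.κ :=
  (Pm.mt_le' μ).trans (max_le h (mul_le_of_le_one_right H.κ0.le
    (rpow_le_one_of_one_le_of_nonpos H.N1.le (by norm_num))))

theorem mtG_mem {σ : ℝ} (M : p.MemG σ) : p.μ0 ≤ p.mt (p.muG σ) ∧ p.mt (p.muG σ) ≤ p.κ :=
  ⟨(H.μ0_le_muG M).trans (H.le_mt (H.muG0 (H.σ0 M)).le), H.mt_le_κ (H.muG_le_κ σ)⟩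

theorem oct_mt {σ σ' : ℝ} (h : p.OctR σ σ') : p.mt (p.muG σ) ≤ p.mt (p.muG σ') ∧
    p.mt (p.muG σ') ≤ 2 * p.mt (p.muG σ) :=
  ⟨H.mt_mono (H.oct_mu h).1, H.mt_oct one_le_two (H.oct_mu h).2⟩

/-- the amplitude at `mt μ`: four regimes -/
theorem lg_la_mt {μ : ℝ} (hμ : 0 < μ) :
    (logb p.n μ + 1 / 3 ≤ -(4 * c) →
      logb p.n (p.la (p.mt μ)) = -(1 / 6) - 3 * c / 2 - (logb p.n μ + 1 / 3) / 3) ∧
    (-(4 * c) ≤ logb p.n μ + 1 / 3 → logb p.n μ + 1 / 3 ≤ -c →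
      logb p.n (p.la (p.mt μ)) = -(1 / 6) - c / 6) ∧
    (-c ≤ logb p.n μ + 1 / 3 → logb p.n μ + 1 / 3 ≤ 0 →
      logb p.n (p.la (p.mt μ)) = -(1 / 6) - c / 2 - (logb p.n μ + 1 / 3) / 3) ∧
    (0 ≤ logb p.n μ + 1 / 3 →
      logb p.n (p.la (p.mt μ)) = -(1 / 6) - c / 2 - (logb p.n μ + 1 / 3) / 2) := by
  rw [H.lg_la (H.mt0 hμ), H.lg_mt hμ]
  have := H.c_pos
  generalize logb p.n μ = U
  refine ⟨fun a => ?_, fun a b => ?_, fun a b => ?_, fun a => ?_⟩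
  · rw [max_eq_right (by linarith), min_eq_left (a := U + 3 * c) (by linarith),
      min_eq_left (by linarith)]
    ring
  · rw [max_eq_right (by linarith), min_eq_right (a := U + 3 * c) (by linarith),
      min_eq_left (by linarith)]
    ring
  · rw [max_eq_left (by linarith), min_eq_right (a := U + 3 * c) (by linarith),
      min_eq_left (by linarith)]
    ring
  · rw [max_eq_left (by linarith), min_eq_right (a := U + 3 * c) (by linarith),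
      min_eq_right (by linarith)]
    ring

/-- a bound in all regimes -/
theorem lg_la_mt_le {μ : ℝ} (hμ : 0 < μ) :
    logb p.n (p.la (p.mt μ)) ≤ -(1 / 6) - c / 2 - (logb p.n μ + 1 / 3) / 3 := by
  rw [H.lg_la (H.mt0 hμ)]
  linarith [min_le_left (-(logb p.n (p.mt μ) + 1 / 3) / 3) (-(logb p.n (p.mt μ) + 1 / 3) / 2),
    (H.lg_mt' hμ).1]

end Reg

end Crest.Agent.T156.Alt

end
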