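import Crest.Agent.T156.MemP_37
import Crest.Agent.T156.AltPG_3
import Crest.Agent.T156.GrReg_29

/-!
# Row 156: the graded path and its switches are members of the class (helper37)
-/

set_option autoImplicit false

noncomputable section

namespace Crest.Agent.T156.Alt

open Real Set Filter Topology
open Crest.Agent.R164.GC Crest.Agent.R339.B Crest.Agent.R339.Var Crest.Agent.T157.Pf
open Crest.Agent.T156.Pr.Spr41 (ec)
open Mem37 Plt13

variable {K c0 C0 η : ℝ} {p : Pm}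

theorem NbK.slope (N : NbK K c0 C0 p) (hx : p.xs ≤ 1 - 1 / K) {ν : ℝ} (h0 : p.μ0 ≤ ν)
    (h1 : ν ≤ p.κ) {x x' : ℝ} (a : x ≤ x') (b : x' ≤ p.xs) :
    |p.rF ν x' - p.rF ν x| ≤ 2 * (x' - x) / log p.n := by
  obtain ⟨n, -, l2⟩ := N.la ν h0 h1
  obtain ⟨K0, K2, K3⟩ := N.K3
  have l := N.l1
  obtain ⟨c, d⟩ := n.rF_sub_lo a b
  have dx := sub_nonneg.2 a
  have iK : 0 < 1 / K := by positivity
  have iK1 : 1 / K ≤ 1 := (div_le_one K0).2 N.K1
  have e : 1 / K ≤ √(1 - x') := le_sqrt_of_sq_le (by nlinarith)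
  have f : 1 / K * (1 / K) ≤ (1 - x') * √(1 - x') := mul_le_mul (by linarith) e iK.le (by linarith)
  have g : p.la ν * (x' - x) / ((1 - x') * √(1 - x')) ≤ (x' - x) / log p.n := by
    refine (div_le_div_of_nonneg_left (mul_nonneg n.lp.le dx) (by positivity) f).trans ?_
    rw [div_le_div_iff₀ (by positivity) (by linarith)]
    have : p.la ν * log p.n ≤ 1 / K * (1 / K) := by
      rw [div_mul_div_comm, one_mul, le_div_iff₀ (by positivity)]; nlinarith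
    nlinarith
  have i : 0 ≤ (x' - x) / log p.n := div_nonneg dx (by linarith)
  have j : 3 / (2 * log p.n) * (x' - x) = 3 / 2 * ((x' - x) / log p.n) := by
    field_simp
  rw [mul_div_assoc, abs_le]
  constructor <;> linarith

theorem NbK.zero (N : NbK K c0 C0 p) (hx : 1 / K ≤ p.xs) {ν : ℝ} (h0 : p.μ0 ≤ ν) (h1 : ν ≤ p.κ)
    {x : ℝ} (a : x ≤ 1 / (2 * K)) : p.rF ν x = 0 := by
  obtain ⟨n, l1, -⟩ := N.la ν h0 h1
  have K0 := N.K3.1
  have b : log p.n * u0 p ν ≤ 1 / (2 * K) := by rw [le_div_iff₀ (by positivity)]; linarith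
  have c : 1 / K = 1 / (2 * K) + 1 / (2 * K) := by field_simp; norm_num
  exact n.rF_zero (a.trans (one_div_le_one_div_of_le two_pos (by linarith [N.K1]))) (by linarith)

/-- static plateau data read at two masses `ν`, `ν'` on the grid of `ν` -/
theorem plE_two (N : NbK K c0 C0 p) (hK : 18252 ≤ K) (hx : 1 / K ≤ p.xs ∧ p.xs ≤ 1 - 1 / K)
    {ν ν' μ μ' θ t : ℝ} (h0 : p.μ0 ≤ ν) (h1 : ν ≤ p.κ) (h0' : p.μ0 ≤ ν') (h1' : ν' ≤ p.κ)
    (c : Cp p ν ν') {P0 Q : Pl} (H : p.PlOk ν P0) (eI : Q.I = P0.I) (ex : Q.x = P0.x)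
    (eg : Q.γ = 0) (er : ∀ x, Q.rs x = (1 - t) * p.rF ν x + t * p.rF ν' x)
    (eh : ∀ x, Q.hs x = (1 - t) * (μ * p.rF ν x) + t * (μ' * p.rF ν' x)) (t0 : 0 ≤ t)
    (t1 : t ≤ 1) (θ0 : 0 ≤ θ) (θ1 : θ ≤ p.κ) (m0 : θ / K ≤ μ) (m1 : μ ≤ θ) (m0' : θ / K ≤ μ')
    (m1' : μ' ≤ θ) : PlE K θ p Q (dn p ν) (u0 p ν) ((p.n : ℝ) ^ (-(2 : ℝ))) := by
  obtain ⟨n, -, -⟩ := N.la ν h0 h1
  obtain ⟨n', -, -⟩ := N.la ν' h0' h1'
  obtain ⟨K0, K2, K3⟩ := N.K3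
  have l := N.l1
  have v := n.v0
  have s : 0 ≤ 1 - t := sub_nonneg.2 t1
  have μ0 : 0 ≤ μ := (div_nonneg θ0 K0.le).trans m0
  have μ0' : 0 ≤ μ' := (div_nonneg θ0 K0.le).trans m0'
  refine ⟨eg.ge, eg ▸ zero_le_one, ex ▸ H.x0, fun i _ => ex ▸ H.xm (Nat.lt_succ_self i),
    by rw [eI, ex]; exact (x_lt n H le_rfl).le, ?_, fun x a => ?_, fun x x' a b => ?_,
    fun i hi => ?_, ?_, fun i hi => ?_, n.den0, fun x x' a b d e => ?_,
    by rw [eI, ex]; exact H.e2⟩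
  · rw [eI]; exact (I_le n H).trans (mul_le_mul_of_nonneg_right (by linarith) (by linarith))
  · rw [er, eh, N.zero hx.1 h0 h1 a, N.zero hx.1 h0' h1' a]; constructor <;> ring
  · have a1 := N.slope hx.2 h0 h1 a b
    have a2 := N.slope hx.2 h0' h1' a b
    have i : 0 ≤ (x' - x) / log p.n := div_nonneg (sub_nonneg.2 a) (by linarith)
    rw [mul_div_assoc] at a1 a2
    rw [er, er, eh, eh, mul_div_assoc, mul_div_assoc]
    set d := (x' - x) / log p.n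
    set A := p.rF ν x' - p.rF ν x with hA
    set B := p.rF ν' x' - p.rF ν' x with hB
    have e1 : (1 - t) * p.rF ν x' + t * p.rF ν' x' - ((1 - t) * p.rF ν x + t * p.rF ν' x) =
        (1 - t) * A + t * B := by rw [hA, hB]; ring
    have e2 : (1 - t) * (μ * p.rF ν x') + t * (μ' * p.rF ν' x') -
        ((1 - t) * (μ * p.rF ν x) + t * (μ' * p.rF ν' x)) = (1 - t) * (μ * A) + t * (μ' * B) := by
      rw [hA, hB]; ring
    have b1 : |μ * A| ≤ θ * (2 * d) := by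
      rw [abs_mul, abs_of_nonneg μ0]; exact mul_le_mul m1 a1 (abs_nonneg _) θ0
    have b2 : |μ' * B| ≤ θ * (2 * d) := by
      rw [abs_mul, abs_of_nonneg μ0']; exact mul_le_mul m1' a2 (abs_nonneg _) θ0
    have cv : ∀ {X Y Z : ℝ}, |X| ≤ Z → |Y| ≤ Z → |(1 - t) * X + t * Y| ≤ Z := fun hX hY => by
      refine (abs_add_le _ _).trans ?_
      rw [abs_mul, abs_mul, abs_of_nonneg s, abs_of_nonneg t0]
      nlinarith [mul_le_mul_of_nonneg_left hX s, mul_le_mul_of_nonneg_left hY t0]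
    rw [e1, e2]
    exact ⟨(cv a1 a2).trans (mul_le_mul_of_nonneg_right (by linarith) i),
      (cv b1 b2).trans (by nlinarith [mul_nonneg θ0 i])⟩
  · rw [eI] at hi
    obtain ⟨a1, a2⟩ := H.st i hi
    rw [H.rs] at a1 a2
    obtain ⟨b1, b2⟩ := step_cp n n' c H hi
    rw [eg, zero_mul, zero_add, ex, er, er, eh, eh]
    set A := p.rF ν (P0.x (i + 1)) - p.rF ν (P0.x i) with hA
    set B := p.rF ν' (P0.x (i + 1)) - p.rF ν' (P0.x i) with hB
    have e1 : (1 - t) * p.rF ν (P0.x (i + 1)) + t * p.rF ν' (P0.x (i + 1)) -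
        ((1 - t) * p.rF ν (P0.x i) + t * p.rF ν' (P0.x i)) = (1 - t) * A + t * B := by
      rw [hA, hB]; ring
    have e2 : (1 - t) * (μ * p.rF ν (P0.x (i + 1))) + t * (μ' * p.rF ν' (P0.x (i + 1))) -
        ((1 - t) * (μ * p.rF ν (P0.x i)) + t * (μ' * p.rF ν' (P0.x i))) =
        μ * ((1 - t) * A) + μ' * (t * B) := by rw [hA, hB]; ring
    rw [e1, e2]
    have vK : p.v / K ≤ p.v / 18252 := div_le_div_of_nonneg_left v.le (by norm_num) hK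
    have Kv := mul_le_mul_of_nonneg_right hK v.le
    have A0 : 0 ≤ (1 - t) * A := mul_nonneg s (by linarith)
    have B0 : 0 ≤ t * B := mul_nonneg t0 (by linarith)
    have Kθ : θ ≤ K * θ := le_mul_of_one_le_left θ0 N.K1
    refine ⟨?_, ?_, by linarith, ?_, ?_⟩
    · nlinarith [mul_le_mul_of_nonneg_left (show p.v / K ≤ A by linarith) s,
        mul_le_mul_of_nonneg_left (show p.v / K ≤ B by linarith) t0]
    · nlinarith [mul_le_mul_of_nonneg_left (show A ≤ K * p.v by linarith) s,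
        mul_le_mul_of_nonneg_left (show B ≤ K * p.v by linarith) t0]
    · nlinarith [mul_le_mul_of_nonneg_right m0 A0, mul_le_mul_of_nonneg_right m0' B0]
    · nlinarith [mul_le_mul_of_nonneg_right (m1.trans Kθ) A0,
        mul_le_mul_of_nonneg_right (m1'.trans Kθ) B0]
  · rw [eI, ex, eh]
    have a1 := (abs_le.1 (n.abs_rF_log H.e1)).2
    have a2 := (abs_le.1 (n'.abs_rF_log H.e1)).2
    have k : p.κ ≤ 1 := by nlinarith [N.κl, N.κ0]
    have b1 : μ * p.rF ν (P0.x P0.I) ≤ K * log p.n := by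
      nlinarith [mul_le_mul_of_nonneg_left a1 μ0, mul_le_mul_of_nonneg_right
        (show 6 * μ ≤ K by linarith) (show 0 ≤ log p.n by linarith)]
    have b2 : μ' * p.rF ν' (P0.x P0.I) ≤ K * log p.n := by
      nlinarith [mul_le_mul_of_nonneg_left a2 μ0', mul_le_mul_of_nonneg_right
        (show 6 * μ' ≤ K by linarith) (show 0 ≤ log p.n by linarith)]
    nlinarith [mul_le_mul_of_nonneg_left b1 s, mul_le_mul_of_nonneg_left b2 t0]
  · rw [eI] at hi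
    obtain ⟨a, b⟩ := x_plat n H hi
    rw [ex]
    exact ⟨(div_le_div_of_nonneg_left v.le (by norm_num) (by linarith)).trans a,
      b.trans (mul_le_mul_of_nonneg_right (by linarith) v.le)⟩
  · obtain ⟨f, g⟩ := n.dens a b d e
    exact ⟨f.trans (mul_le_mul_of_nonneg_right (by linarith) (n.den0 _).le),
      g.trans (mul_le_mul_of_nonneg_right (by linarith) (n.den0 _).le)⟩

/-- the list half for the graded path, any static plateau -/
theorem slE_gst {C C' σ : ℝ} (N : NbK K c0 C0 p) (hB : Pr.Base (p.β ^ 2) c0 C0 η p.v p.J p.z)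
    (hC : 1 ≤ C) (hC' : 1 ≤ C') (CK : C ≤ K) (CK' : C' ≤ K) (G : P1G C p) (O : GpO C' p)
    (hσ : p.MemG σ) {Q : Pl} (hg : Q.γ = 0) :
    SlE K c0 C0 η (2 * p.ye) p Q (p.omG σ) (p.bG σ) (p.msG σ) ∧ p.msG σ 1 = p.muG σ := by
  obtain ⟨⟨σ0, κ0, r0, ry, k8, yJ⟩, ⟨om, -, -, -⟩, ⟨-, b2, -, b4⟩, cr, -, gp,
    mm, m2, m3, m4, -, m6, m7, m8⟩ := G σ hσ
  obtain ⟨⟨-, jr, -, a1, a2, -⟩, -⟩ := O
  obtain ⟨K0, K2, K3⟩ := N.K3
  have v := hB.v_pos
  have y1 : p.ye ≤ 1 := by nlinarith [N.ye, N.K1]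
  have e1 := m4 1 y1
  have eL : p.lO Q (p.omG σ) = p.lG σ := if_pos hg
  have om' : Pr.Om p.v (2 * p.ye) (1 / 2) (p.omG σ) :=
    ⟨om.zero, om.nn, om.supp, fun j => (om.lip j).trans (mul_le_mul_of_nonneg_right k8 v.le)⟩
  have eJ : p.sO Q (p.omG σ) (p.Jp Q) = p.J * p.v := by
    unfold Pm.sO
    split_ifs with a
    · rw [le_antisymm a J_le, om'.sig_eq yJ]
    · rw [hg, Nat.sub_self]; simp
  have ε0 : 0 < p.epsG σ := (rpow_pos_of_pos N.n0 _).trans_le m6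
  have iC : 1 / K ≤ 1 / C' := one_div_le_one_div_of_le (by linarith) CK'
  have β0 : 0 < p.β ^ 2 := by linarith [N.β1]
  refine ⟨⟨hB, om', yJ, jr, mm, fun t _ => m2 t _ le_rfl, m6.trans (m3 0).1,
    fun t => e1 ▸ (m3 t).2, e1 ▸ m8, fun t ht => (e1.trans (m4 t ht).symm).le, ?_, b2.trans N.βK,
    ⟨iC.trans a1, by linarith⟩, fun t ht => ?_, fun t h0 h1 s0 h2 h3 => ?_⟩, e1⟩
  · have a := mul_le_mul CK m8 (ε0.le.trans ((m3 0).1.trans (m3 0).2)) K0.le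
    exact (div_le_div_iff_of_pos_right β0).1 (by linarith [N.κβ])
  · rw [eJ] at ht
    obtain ⟨a, b, -⟩ := cr t ht
    have m := ε0.le.trans (m3 t).1
    rw [eL]
    exact ⟨(div_le_div_of_nonneg_left m (by linarith) CK).trans a,
      b.trans (mul_le_mul_of_nonneg_right CK m)⟩
  · rw [eL]
    exact (gp t h0 h1 s0 h2 h3).trans (mul_le_mul_of_nonneg_right CK
      (div_nonneg (ε0.le.trans (m3 t).1) (h0.trans (le_max_left _ _))))

theorem ev_reg37 {β c : ℝ} {A : ℕ} (hβ : 1 < β) (h0 : 0 < c0) (h1 : 1 ≤ C0) (hA : 2 ≤ A)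
    (hc : 0 < c) (hc' : c ≤ 1 / 200) :
    ∀ᶠ n : ℕ in atTop, All β c0 C0 A c n (Reg β c0 C0 A c c 1) := by
  filter_upwards [eventually_ge_atTop 3, Pre29.ev_K 1 hc, Pre29.ev_log hc, Pre29.ev_K (β ^ 2) hc,
    Pre29.ev_K C0 hc, Pre29.ev_K (1 / c0) hc, Pre29.ev_K A hc, Pre29.ev_K 1000 hc] with n a1 a2 a3
    a4 a5 a6 a7 a8 p b1 b2 b3 b4 b5
  subst b2
  exact ⟨b1, b3, b4, b5, hβ, h0, h1, hA, hc, hc', hc, le_rfl, a1, a2, a3, a4, a5, a6, a7, a8⟩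

set_option maxHeartbeats 1000000 in
/-- the numbers -/
theorem ev_nbK {β c : ℝ} {A : ℕ} (hβ : 1 < β) (h0 : 0 < c0) (h1 : 1 ≤ C0) (hA : 2 ≤ A)
    (hc : 0 < c) (hc' : c ≤ 1 / 200) (K1 : 1 ≤ K) (cK : 1 ≤ c0 * K) (CK : C0 ≤ K)
    (βK : β ^ 2 ≤ K) : ∀ᶠ n : ℕ in atTop, All β c0 C0 A c n (NbK K c0 C0) := by
  obtain ⟨K', c2, -, F⟩ := fin_nm hβ c0 C0 h0 h1
  have K0 : 0 < K := by linarith
  have β1 : 1 < β ^ 2 := by nlinarith
  have K3 : 1 ≤ 8 * K ^ 3 := by linarith [one_le_pow₀ (n := 3) K1]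
  have iβ : 0 < 1 - 1 / β ^ 2 := sub_pos.2 ((div_lt_one (by linarith)).2 β1)
  filter_upwards [P037.ev_nm hβ h0 K3 hA hc hc' one_pos, ev_Big K' one_pos,
    ev_le_log (8 * K ^ 3) one_pos, ev_le_rpow (2 * K + 1 + A) (show (0 : ℝ) < 1 / 2 by norm_num),
    ev_log_le (show (0 : ℝ) < 1 / 2 by norm_num),
    ev_le_rpow (3 * β ^ 2) one_pos,
    ev_le_rpow (2 / c0) (show 0 < c / 13 - c / 100 by linarith), ev_log_le hc,
    ev_rpow_le (div_pos iβ K0) hc, ev_log_le (show (0 : ℝ) < 1 / 60 by norm_num),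
    ev_rpow_le (show 0 < 1 / (2 * K ^ 2) by positivity) (show (0 : ℝ) < 1 / 60 by norm_num)]
    with n e1 e2 e3 e4 e5 e6 e7 e8 e9 e10 e11 p b1 b2 b3 b4 ok
  have N := e1.2 p b1 b2 b3 b4 ok.s1 ok.s2
  subst b1 b2 b3 b4
  have n1 : (1 : ℝ) ≤ p.n := N.n1
  have n0 : (0 : ℝ) < p.n := one_pos.trans_le n1
  have v := ok.base.v_pos
  have mono : ∀ {a b : ℝ}, a ≤ b → (p.n : ℝ) ^ a ≤ (p.n : ℝ) ^ b := fun h =>
    rpow_le_rpow_of_exponent_le n1 h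
  have pos : ∀ a : ℝ, 0 < (p.n : ℝ) ^ a := fun a => rpow_pos_of_pos n0 a
  have l0 : 0 ≤ log (p.n : ℝ) := log_nonneg n1
  have X : Ctx p.β c0 C0 K' 1 p := ⟨rfl, ok, h0, h1, hA, hc, hc', one_pos, e2⟩
  rw [one_mul] at e3
  rw [rpow_one] at e6
  have jf : p.s * (p.n : ℝ) ^ (p.c / 13 - 1 / 6) ≤ p.jf * p.v := by
    have := Nat.le_ceil (p.s * (p.n : ℝ) ^ (p.c / 13 - 1 / 6) / p.v)
    rwa [div_le_iff₀ v] at this
  have κ1 : p.κ ≤ 1 := X.κ_le_one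
  refine ⟨K1, cK, CK, βK, β1, e3, by omega, ?_, ?_, N.vr, by linarith [N.r1], ?_, N.kp, ?_, ?_, ?_,
    fun μ a b => ⟨(F p X).2 μ a b, ?_⟩⟩
  · have a : (p.n : ℝ) = (p.n : ℝ) ^ ((1 : ℝ) / 2) * (p.n : ℝ) ^ ((1 : ℝ) / 2) := by
      rw [← rpow_add n0]; norm_num
    have b : 1 ≤ (p.n : ℝ) ^ ((1 : ℝ) / 2) := one_le_rpow n1 (by norm_num)
    have c := mul_le_mul_of_nonneg_right e4 (pos (1 / 2)).le
    have d := mul_le_mul_of_nonneg_left e5 (show (0 : ℝ) ≤ K + p.A by positivity)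
    have e := mul_le_mul_of_nonneg_left b (show (0 : ℝ) ≤ K + 1 by positivity)
    linarith
  · have a : 3 * p.v ≤ (p.n : ℝ) ^ (-(1 : ℝ)) := by
      unfold Pm.v
      rw [rpow_neg_one, ← mul_div_assoc, div_le_iff₀ (by positivity), ← div_eq_inv_mul,
        le_div_iff₀ n0]
      calc 3 * p.β ^ 2 * p.n ≤ p.n * p.n := mul_le_mul_of_nonneg_right e6 n0.le
        _ = (p.n : ℝ) ^ 2 := by ring
        _ ≤ (p.n : ℝ) ^ p.A := pow_le_pow_right₀ n1 hA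
    have b : (p.n : ℝ) ^ (-(1 : ℝ)) ≤ p.s * (p.n : ℝ) ^ (p.c / 13 - 1 / 6) :=
      (mono (by linarith)).trans (le_mul_of_one_le_left (pos _).le ok.s1)
    have c : (3 : ℝ) ≤ p.jf := le_of_mul_le_mul_right (a.trans (b.trans jf)) v
    exact_mod_cast c
  · refine le_trans ?_ (mul_le_mul_of_nonneg_left jf h0.le)
    have e : p.s * (p.n : ℝ) ^ (p.c / 13 - 1 / 6) = p.am * (p.n : ℝ) ^ (p.c / 13 - p.c / 100) := by
      unfold Pm.am Pm.ga
      rw [mul_assoc, ← rpow_add n0]; congr 2; ring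
    have a0 : 0 ≤ p.am := mul_nonneg (by linarith [ok.s1]) (pos _).le
    rw [div_le_iff₀ h0] at e7
    rw [e]
    nlinarith [mul_le_mul_of_nonneg_left e7 a0]
  · refine (mul_le_mul_of_nonneg_left e8 N.kp.le).trans (le_of_eq ?_)
    unfold Pm.κ
    rw [← rpow_add n0]; simp
  · have : p.κ ≤ (1 - 1 / p.β ^ 2) / K := e9
    rw [le_div_iff₀ K0] at this
    linarith
  · have a := X.ye_le_κ
    have b : K ^ 2 ≤ K ^ 3 := pow_le_pow_right₀ K1 (by norm_num)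
    nlinarith [N.k1, N.kp, X.ye_pos, mul_le_mul b a X.ye_pos.le (by positivity : 0 ≤ K ^ 3)]
  · have nm := (F p X).2 μ a b
    have m1 : (p.n : ℝ) ^ (-(1 / 3) - 2 * p.c) ≤ p.mu' μ := by
      refine le_trans (le_of_eq ?_) (mul_le_mul_of_nonneg_right a (pos _).le)
      unfold Pm.μ0
      rw [← rpow_add n0]; congr 1; ring
    have m2 : p.la μ ≤ (p.n : ℝ) ^ (-(1 / 20 : ℝ)) := by
      refine (mul_le_mul_of_nonneg_left ((min_le_left _ _).trans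
        (rpow_le_rpow_of_nonpos (pos _) m1 (by norm_num))) (pos _).le).trans ?_
      rw [← rpow_mul n0.le, ← rpow_add n0]
      exact mono (by linarith)
    have m3 : u0 p μ ≤ (p.n : ℝ) ^ (-(1 / 30 : ℝ)) := by
      refine (rpow_le_rpow nm.lp.le m2 (by norm_num)).trans ?_
      rw [← rpow_mul n0.le]
      exact mono (by norm_num)
    have m4 : log p.n * u0 p μ ≤ 1 / (2 * K ^ 2) := by
      refine (mul_le_mul e10 m3 nm.u0p.le (pos _).le).trans (le_trans ?_ e11)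
      rw [← rpow_add n0]
      exact mono (by norm_num)
    rw [le_div_iff₀ (by positivity)] at m4
    have m5 := mul_le_mul_of_nonneg_left nm.l_le_u0 l0
    have m6 := mul_nonneg l0 nm.u0p.le
    have b : K ≤ K ^ 2 := by nlinarith
    constructor
    · nlinarith [mul_le_mul_of_nonneg_right b m6]
    · nlinarith [mul_le_mul_of_nonneg_left m5 (by positivity : 0 ≤ K ^ 2)]

/-- the scales of the models of the graded path -/
def Pm.scG (p : Pm) (K σ σ' : ℝ) (Q : Pl) : Sc :=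
  p.scl Q (p.omG σ') (8 * K ^ 2) p.jf (p.msG σ') (dn p (p.mt (p.muG σ))) (p.g2P Q)
    (u0 p (p.mt (p.muG σ))) ((p.n : ℝ) ^ (-(2 : ℝ)))

/-- all the data of one member -/
structure GrD (K c0 C0 η : ℝ) (p : Pm) (σ σ' : ℝ) (Q : Pl) : Prop where
  nb : NbK K c0 C0 p
  sl : SlE K c0 C0 η (2 * p.ye) p Q (p.omG σ') (p.bG σ') (p.msG σ')
  top : p.msG σ' 1 = p.muG σ'
  pl : PlE K (p.msG σ' 1) p Q (dn p (p.mt (p.muG σ))) (u0 p (p.mt (p.muG σ)))
    ((p.n : ℝ) ^ (-(2 : ℝ)))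

theorem GrD.memD {σ σ' : ℝ} {Q : Pl} (h : GrD K c0 C0 η p σ σ' Q) :
    MemD K c0 C0 η (2 * p.ye) p Q (p.omG σ') p.jf (p.bG σ') 0 (p.msG σ')
      (dn p (p.mt (p.muG σ))) (p.g2P Q) (u0 p (p.mt (p.muG σ))) ((p.n : ℝ) ^ (-(2 : ℝ))) :=
  h.sl.memD h.nb h.pl

theorem GrD.cl {σ σ' : ℝ} {Q : Pl} (h : GrD K c0 C0 η p σ σ' Q) :
    Cl (p.scG K σ σ' Q) (p.gst Q σ') ∧ Cei (p.scG K σ σ' Q) (p.gst Q σ') :=
  h.sl.cl h.nb h.pl

/-- membership along an octave and along a switch -/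
def GrM (K : ℝ) (p : Pm) : Prop := ∃ c0 C0 η : ℝ, ∀ σ σ', p.OctR σ σ' → ∀ P, p.PlG (p.muG σ) P →
  GrD K c0 C0 η p σ σ' P ∧ ∀ P', p.PlG (p.muG σ') P' → ∀ t ∈ Icc (0 : ℝ) 1,
    GrD K c0 C0 η p σ σ' (P.mix P' t)

/-- **membership of the graded path** -/
theorem grM {β : ℝ} (hβ : 1 < β) : Cst β GrM := by
  intro c0 C0 h0 h1
  obtain ⟨C, hC, G⟩ := p1G β hβ c0 C0 h0 h1
  obtain ⟨C', hC', O⟩ := gpO β hβ c0 C0 h0 h1
  obtain ⟨K, hK⟩ : ∃ K, K = C + C' + C0 + β ^ 2 + 1 / c0 + 18252 := ⟨_, rfl⟩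
  have q1 : 0 < 1 / c0 := by positivity
  have q2 : 0 ≤ β ^ 2 := sq_nonneg _
  have cK : 1 ≤ c0 * K := by
    have : 1 / c0 ≤ K := by linarith
    rwa [div_le_iff₀' h0] at this
  refine ⟨K, by linarith, fun A hA c hc hc' => ?_⟩
  filter_upwards [G A hA c hc hc', O A hA c hc hc', ev_reg37 hβ h0 h1 hA hc hc',
    ev_nbK (K := K) hβ h0 h1 hA hc hc' (by linarith) cK (by linarith) (by linarith)]
    with n a1 a2 a3 a4 p b1 b2 b3 b4 ok
  have G := a1 p b1 b2 b3 b4 ok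
  have O := a2 p b1 b2 b3 b4 ok
  have R := a3 p b1 b2 b3 b4 ok
  have N := a4 p b1 b2 b3 b4 ok
  refine ⟨c0, C0, C0 / (p.n : ℝ) ^ p.A, fun σ σ' o P hP => ?_⟩
  obtain ⟨M, M'⟩ := Gr29.oct_mem o
  have S := fun (Q : Pl) (hg : Q.γ = 0) =>
    slE_gst N ok.base hC hC' (by linarith) (by linarith) G O M' hg
  obtain ⟨S0, e⟩ := S P hP.g
  obtain ⟨u1, u2⟩ := R.oct_mu o
  obtain ⟨w1, w2⟩ := R.oct_mt o
  obtain ⟨x1, x2⟩ := R.mtG_mem M
  obtain ⟨y1, y2⟩ := R.mtG_mem M'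
  have p1 := R.μ00.trans_le x1
  have p2 := R.μ00.trans_le y1
  have θ0 : 0 < p.muG σ' := R.μ00.trans_le (R.μ0_le_muG M')
  have θK : p.muG σ' / K ≤ p.muG σ := by
    rw [div_le_iff₀ (by linarith)]; nlinarith
  refine ⟨⟨N, S0, e, ?_⟩, fun P' hP' t ht => ⟨N, (S _ rfl).1, e, ?_⟩⟩
  · rw [e]
    exact plE_two (t := 0) (μ' := p.muG σ) N (by linarith) S0.atom x1 x2 x1 x2
      (cp_of N.n0 p1 p1 (by linarith) (by linarith)) hP.ok rfl rfl hP.g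
      (fun x => by rw [hP.rs]; ring) (fun x => by rw [hP.hs]; ring) le_rfl zero_le_one θ0.le
      (e ▸ S0.msκ) θK u1 θK u1
  · rw [e]
    exact plE_two (t := t) N (by linarith) S0.atom x1 x2 y1 y2
      (cp_of N.n0 p1 p2 (by linarith) (by linarith)) hP.ok rfl rfl rfl
      (fun x => by simp only [Pl.mix, hP.rs, hP'.rs]) (fun x => by simp only [Pl.mix, hP.hs, hP'.hs])
      ht.1 ht.2 θ0.le (e ▸ S0.msκ) θK u1 (θK.trans u1) le_rfl

end Crest.Agent.T156.Alt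

end
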