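import Crest.Agent.T156.PlM_13
import Crest.Agent.T156.GrMem_37

/-!
# Row 156, ALT: the plateau data of the graded members and their sizes (helper13)
-/

set_option autoImplicit false
set_option linter.unusedSectionVars false

noncomputable section

namespace Crest.Agent.T156.Alt

open Real Set
open Mem37 Plt13

/-- the plateau data of a member of an octave or of a switch -/
def Pm.PlX (p : Pm) (σ σ' : ℝ) (Q : Pl) : Prop := ∃ (P P' : Pl) (t : ℝ), t ∈ Icc (0 : ℝ) 1 ∧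
  p.PlG (p.muG σ) P ∧ (P' = P ∨ p.PlG (p.muG σ') P') ∧ Q = P.mix P' t

namespace Plt13

theorem mix_zero13 {P : Pl} (h : P.γ = 0) (P' : Pl) : P.mix P' 0 = P := by
  cases P; simp only [Pl.mix] at *; simp [h]

theorem plX_self {p : Pm} {σ : ℝ} (σ' : ℝ) {P : Pl} (h : p.PlG (p.muG σ) P) : p.PlX σ σ' P :=
  ⟨P, P, 0, ⟨le_rfl, zero_le_one⟩, h, Or.inl rfl, (mix_zero13 h.g P).symm⟩

theorem plX_mix {p : Pm} {σ σ' t : ℝ} {P P' : Pl} (h : p.PlG (p.muG σ) P)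
    (h' : p.PlG (p.muG σ') P') (ht : t ∈ Icc (0 : ℝ) 1) : p.PlX σ σ' (P.mix P' t) :=
  ⟨P, P', t, ht, h, Or.inr h', rfl⟩

/-- **sizes of static plateau data** with grid mass `ν` and field mass `θ` -/
structure XK (K θ ν : ℝ) (p : Pm) (Q : Pl) : Prop where
  g0 : Q.γ = 0
  nm : Nm p ν
  θ0 : 0 ≤ θ
  x0 : Q.x 0 = p.xs
  xm : StrictMono Q.x
  e1 : (p.n : ℝ) ^ (-(3 : ℝ)) ≤ 1 - Q.x Q.I
  e2 : 1 - Q.x Q.I ≤ (p.n : ℝ) ^ (-(2 : ℝ))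
  shg : Shg p ν Q.x Q.I
  mesh : ∀ i < Q.I, Q.x (i + 1) - Q.x i ≤ 624 * p.n * p.v
  rsE : ∀ x, p.xs ≤ x → x < 1 → |Q.rs x| ≤ 8 * env p ν x
  hsE : ∀ x, p.xs ≤ x → x < 1 → |Q.hs x| ≤ 8 * θ * env p ν x
  rsB : ∀ x, x < 1 → -(2 * u0 p ν) ≤ Q.rs x ∧ Q.rs x ≤ 4 * (p.la ν / √(1 - x))
  hsB : ∀ x, x < 1 → -(2 * θ * u0 p ν) ≤ Q.hs x ∧ Q.hs x ≤ 4 * θ * (p.la ν / √(1 - x))
  off : ∀ x, x + 2 * log p.n * u0 p ν ≤ p.xs → 0 ≤ Q.rs x ∧ 0 ≤ Q.hs x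
  zero : ∀ x, x ≤ 1 / 2 → x + 2 * log p.n * u0 p ν ≤ p.xs → Q.rs x = 0 ∧ Q.hs x = 0
  rsL : ∀ x, x ≤ Q.x Q.I → |Q.rs x| ≤ 6 * log p.n
  hsL : ∀ x, x ≤ Q.x Q.I → |Q.hs x| ≤ 6 * θ * log p.n
  r2 : ∑ k ∈ Finset.Ioc p.jf (p.Jp Q), (p.zP Q k - p.zP Q (k - 1)) * Q.rs (p.xP Q k) ^ 2 ≤
    5 * (406 + 8 * K) * (p.la ν ^ 2 * log p.n)
  g2 : p.g2P Q ≤ 5 * (406 + 8 * K) * (θ ^ 2 * (p.la ν ^ 2 * log p.n))

theorem Nm.rF_off {p : Pm} {ν x : ℝ} (h : Nm p ν) (h2 : x + log p.n * u0 p ν ≤ p.xs) :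
    0 ≤ p.rF ν x := by
  have L := mul_nonneg (show 0 ≤ log (p.n : ℝ) by linarith [h.l1]) h.u0p.le
  unfold Pm.rF
  rw [rB_eq, Rs13.r1_zero h.lp (by linarith [h.l1]) h2, zero_add]
  exact (h.top_bd (by linarith [h.xs1])).1

theorem cvx_bd {t a b lo hi : ℝ} (t0 : 0 ≤ t) (t1 : t ≤ 1) (ha : lo ≤ a ∧ a ≤ hi)
    (hb : lo ≤ b ∧ b ≤ hi) : lo ≤ (1 - t) * a + t * b ∧ (1 - t) * a + t * b ≤ hi := by
  have s := sub_nonneg.2 t1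
  constructor
  · linarith [mul_le_mul_of_nonneg_left ha.1 s, mul_le_mul_of_nonneg_left hb.1 t0]
  · linarith [mul_le_mul_of_nonneg_left ha.2 s, mul_le_mul_of_nonneg_left hb.2 t0]

theorem mul_bd {m θ a lo hi : ℝ} (m0 : 0 ≤ m) (m1 : m ≤ θ) (l0 : 0 ≤ lo) (h0 : 0 ≤ hi)
    (ha : -lo ≤ a ∧ a ≤ hi) : -(θ * lo) ≤ m * a ∧ m * a ≤ θ * hi := by
  constructor
  · linarith [mul_le_mul_of_nonneg_left ha.1 m0, mul_le_mul_of_nonneg_right m1 l0]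
  · linarith [mul_le_mul_of_nonneg_left ha.2 m0, mul_le_mul_of_nonneg_right m1 h0]

theorem xk_mix {c0 C0 η Y K θ μ μ' t : ℝ} {p : Pm} {P P' : Pl} {om : ℕ → ℝ}
    (G : Geo c0 C0 η Y p (P.mix P' t) om) (h : Nm p (p.mt μ)) (h' : Nm p (p.mt μ'))
    (c : Cp p (p.mt μ) (p.mt μ')) (H : p.PlG μ P) (H' : p.PlG μ' P') (t0 : 0 ≤ t) (t1 : t ≤ 1)
    (K0 : 0 < K) (kx : 1 / K ≤ 1 - p.xs) (μ0 : 0 ≤ μ) (μ0' : 0 ≤ μ') (a2 : μ ≤ θ) (b2 : μ' ≤ θ)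
    (hj : p.jf < p.J) : XK K θ (p.mt μ) p (P.mix P' t) := by
  have O := H.ok
  have L : 0 ≤ log (p.n : ℝ) := by linarith [h.l1]
  have E : ∀ x, p.xs ≤ x → x < 1 →
      (-(8 * env p (p.mt μ) x) ≤ p.rF (p.mt μ) x ∧ p.rF (p.mt μ) x ≤ 8 * env p (p.mt μ) x) ∧
      (-(8 * env p (p.mt μ) x) ≤ p.rF (p.mt μ') x ∧ p.rF (p.mt μ') x ≤ 8 * env p (p.mt μ) x) :=
    fun x a b => ⟨abs_le.1 ((h.abs_rF_env a b).trans (by linarith [h.env_nn x])),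
      abs_le.1 (abs_rF_cp h h' c a b)⟩
  have B : ∀ x, x < 1 → (-(2 * u0 p (p.mt μ)) ≤ p.rF (p.mt μ) x ∧
      p.rF (p.mt μ) x ≤ 4 * (p.la (p.mt μ) / √(1 - x))) ∧
      (-(2 * u0 p (p.mt μ)) ≤ p.rF (p.mt μ') x ∧
      p.rF (p.mt μ') x ≤ 4 * (p.la (p.mt μ) / √(1 - x))) := fun x a =>
    ⟨⟨by linarith [(h.rF_bd a).1, h.u0p], by
      linarith [(h.rF_bd a).2.2, div_nonneg h.lp.le (sqrt_nonneg (1 - x))]⟩, rF_bd_cp h h' c a⟩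
  have Lg : ∀ x, x ≤ P.x P.I → (-(6 * log p.n) ≤ p.rF (p.mt μ) x ∧ p.rF (p.mt μ) x ≤ 6 * log p.n) ∧
      (-(6 * log p.n) ≤ p.rF (p.mt μ') x ∧ p.rF (p.mt μ') x ≤ 6 * log p.n) := fun x hx => by
    have e : (p.n : ℝ) ^ (-(3 : ℝ)) ≤ 1 - x := by linarith [show _ ≤ 1 - P.x P.I from O.e1]
    exact ⟨abs_le.1 (h.abs_rF_log e), abs_le.1 (h'.abs_rF_log e)⟩
  have s0 := sub_nonneg.2 t1
  refine ⟨rfl, h, μ0.trans a2, O.x0, O.xm, O.e1, O.e2, by have := shg_of h O; exact this,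
    fun i hi => x_mesh h O hi, fun x a b => ?_, fun x a b => ?_, fun x a => ?_, fun x a => ?_,
    fun x a => ?_, fun x a b => ?_, fun x a => ?_, fun x a => ?_,
    r2_mix G h h' c H H' t0 t1 K0 kx hj, g2_mix G h h' c H H' t0 t1 K0 kx μ0 μ0' a2 b2 hj⟩
  · rw [mixG_rs H H', abs_le]; exact cvx_bd t0 t1 (E x a b).1 (E x a b).2
  · have e : 0 ≤ 8 * env p (p.mt μ) x := by linarith [h.env_nn x]
    rw [mixG_hs H H', abs_le, show 8 * θ * env p (p.mt μ) x = θ * (8 * env p (p.mt μ) x) by ring]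
    exact cvx_bd t0 t1 (mul_bd μ0 a2 e e (E x a b).1) (mul_bd μ0' b2 e e (E x a b).2)
  · rw [mixG_rs H H']; exact cvx_bd t0 t1 (B x a).1 (B x a).2
  · have e : 0 ≤ 2 * u0 p (p.mt μ) := by linarith [h.u0p]
    have e' : 0 ≤ 4 * (p.la (p.mt μ) / √(1 - x)) := by
      linarith [div_nonneg h.lp.le (sqrt_nonneg (1 - x))]
    have := cvx_bd t0 t1 (mul_bd μ0 a2 e e' (B x a).1) (mul_bd μ0' b2 e e' (B x a).2)
    rw [mixG_hs H H']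
    constructor <;> linarith [this.1, this.2]
  · have a1 := h.rF_off (x := x) (by linarith [mul_nonneg L h.u0p.le])
    have a2 := h'.rF_off (x := x) (by linarith [mul_le_mul_of_nonneg_left c.u1 L])
    rw [mixG_rs H H', mixG_hs H H']
    constructor <;> positivity
  · rw [mixG_rs H H', mixG_hs H H', h.rF_zero a (by linarith [mul_nonneg L h.u0p.le]),
      rF_zero_cp h h' c a b]
    simp
  · rw [mixG_rs H H', abs_le]; exact cvx_bd t0 t1 (Lg x a).1 (Lg x a).2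
  · have e : 0 ≤ 6 * log (p.n : ℝ) := by linarith
    rw [mixG_hs H H', abs_le, show 6 * θ * log (p.n : ℝ) = θ * (6 * log p.n) by ring]
    exact cvx_bd t0 t1 (mul_bd μ0 a2 e e (Lg x a).1) (mul_bd μ0' b2 e e (Lg x a).2)

/-- **the kit for graded members** -/
theorem xk_of {β c0 C0 c η K c0' C0' η' K' σ σ' : ℝ} {A : ℕ} {p : Pm} {Q : Pl}
    (R : Reg β c0 C0 A c η K p) (o : p.OctR σ σ') (D : GrD K' c0' C0' η' p σ σ' Q)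
    (X : p.PlX σ σ' Q) : XK K' (p.muG σ') (p.mt (p.muG σ)) p Q := by
  obtain ⟨P, P', t, ht, H, H', rfl⟩ := X
  obtain ⟨M, M'⟩ := Gr29.oct_mem o
  obtain ⟨u1, u2⟩ := R.oct_mu o
  have m0 := R.muG0 (R.σ0 M)
  have N := (D.nb.la _ (R.mtG_mem M).1 (R.mtG_mem M).2).1
  have N' := (D.nb.la _ (R.mtG_mem M').1 (R.mtG_mem M').2).1
  have E := D.memD
  have K0 := E.K0
  have kx : 1 / K' ≤ 1 - p.xs := by linarith [E.atom.2]
  have hj : p.jf < p.J := by have := E.jlJ; omega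
  rcases H' with rfl | H'
  · exact xk_mix E.geo N N (mt_cp R.N0 R.κ0 m0 le_rfl (by linarith)) H H ht.1 ht.2 K0 kx m0.le
      m0.le u1 u1 hj
  · exact xk_mix E.geo N N' (mt_cp R.N0 R.κ0 m0 u1 (by linarith)) H H' ht.1 ht.2 K0 kx m0.le
      (m0.le.trans u1) u1 le_rfl hj

end Plt13

/-- membership together with the form of the plateau data -/
theorem GrM.of_plX {K : ℝ} {p : Pm} (h : GrM K p) : ∃ c0 C0 η : ℝ, ∀ σ σ' Q, p.OctR σ σ' →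
    p.PlX σ σ' Q → GrD K c0 C0 η p σ σ' Q := by
  obtain ⟨c0, C0, η, h⟩ := h
  refine ⟨c0, C0, η, fun σ σ' Q o ⟨P, P', t, ht, H, H', e⟩ => ?_⟩
  rcases H' with rfl | H'
  · have : P'.mix P' t = P' := by
      have g := H.g
      cases P'; simp only [Pl.mix] at *
      congr 1
      · funext x; ring
      · funext x; ring
      · exact g.symm
    rw [e, this]; exact (h σ σ' o P' H).1
  · rw [e]; exact (h σ σ' o P H).2 P' H' t ht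

end Crest.Agent.T156.Alt

end
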