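import Crest.Agent.T156.SRDef_19

/-!
# Row 156, SR: the terminal statement with inflated margins and the output (helper19)

`Y₀ = Y / E^{K²}`; the adaptive stage ends at `D ≍ E¹⁰ max (n^{-1/3}, Y / E^K)`.
-/

set_option autoImplicit false

noncomputable section

namespace Crest.Agent.T156.Alt.Sr

open MeasureTheory Real Finset Filter

/-- the deflated size -/
def Yd (K : ℕ) (E Y : ℝ) : ℝ := Y / E ^ (K ^ 2)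

/-- the unit of mass of the terminal range -/
def nuY (K : ℕ) (E : ℝ) (S : Sc) (Y : ℝ) : ℝ := max (nu S) (Y / E ^ K)

/-- the two cuts below the upper end of the plateau: `r₁` for the sizes, `r₂` for the costs -/
structure Tp (K : ℕ) (E : ℝ) (S : Sc) (M : Md) (lm Y r₁ r₂ : ℝ) : Prop where
  a1 : (S.n : ℝ) ^ ((4 : ℝ) / 25) ≤ S.n * max S.θ (nu S) * r₁
  a2 : r₁ ≤ (S.n : ℝ) ^ (-(101 : ℝ) / 200)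
  a3 : E ^ K * r₁ ≤ r₂
  a4 : r₂ ≤ Yd K E Y
  a5 : r₂ * S.g2 ≤ (S.n : ℝ) ^ (-(137 : ℝ) / 100)
  a6 : r₂ * S.θ ≤ (S.n : ℝ) ^ (-(1 : ℝ) / 2)
  dn : ∀ x, M.xs S ≤ x → r₁ ≤ 1 - x → lm ≤ S.den x * min (x - M.xs S + S.u0) (1 - x)
  dt : ∀ x, M.xs S ≤ x → r₁ ≤ 1 - x →
    (S.n : ℝ) ^ ((1 : ℝ) / 8) ≤ S.n * max S.θ (nu S) * (S.den x * (1 - x) ^ 2)
  dq : ∀ x, M.xs S ≤ x → r₁ ≤ 1 - x →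
    (S.n : ℝ) ^ ((39 : ℝ) / 100) ≤ S.n * max S.θ (nu S) * (S.den x * (1 - x) ^ ((3 : ℝ) / 2))
  dy : ∀ x, M.xs S ≤ x → r₁ ≤ 1 - x → E ^ (K ^ 2) * √Y * (S.n : ℝ) ^ (-(21 : ℝ) / 200) ≤
    S.n * max S.θ (nu S) * (S.den x * (1 - x) ^ ((3 : ℝ) / 2)) * nuY K E S Y ^ 2
  c1 : S.θ ≤ (S.n : ℝ) ^ (-(21 : ℝ) / 200) ∨ ∀ k, S.J ≤ k → k ≤ S.Jp → r₁ ≤ 1 - M.z (k - 1) →
    M.ck k - M.ck S.J ≤ (S.n : ℝ) ^ (-(21 : ℝ) / 400)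
  up : ∀ x, M.xs S ≤ x → r₂ ≤ 16 * (1 - x) →
    S.den x ≤ (S.n : ℝ) ^ ((8 : ℝ) / 11) * max S.θ (nuY K E S Y)
  c2 : ∀ k, S.J ≤ k → k ≤ S.Jp → r₂ ≤ 1 - M.z (k - 1) →
    M.ck k - M.ck S.J ≤ (S.n : ℝ) ^ ((3 : ℝ) / 10) * max S.θ (nuY K E S Y)

/-- extra hypotheses on the member, read only by the terminal statement -/
structure SX (K : ℕ) (E : ℝ) (S : Sc) (M : Md) (l lm Ys Y : ℝ) : Prop where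
  big : SH (E ^ K) S M l Ys (Yd K E Y)
  vh : VH (E ^ K) S M l lm (Yd K E Y)
  u0 : S.w3 1 ≤ lm * S.u0
  ml : ∀ t, M.s S.jl ≤ t → E ^ (60 * K) * S.ms t ≤ t ^ 2
  sub : ∀ t t', 0 ≤ t → t ≤ t' → S.ms t' ≤ S.ms t + t' ^ 2
  g5 : S.g2 ≤ E ^ K * S.θ * nu S ^ 2
  g3 : ∀ t, Ys ≤ t → t ≤ S.C → t * S.g2 ≤ E ^ K * S.θ * S.ms t * Yd K E Y
  rev : ∃ k₁, S.Jp ≤ k₁ ∧ k₁ ≤ M.N ∧ 1 / S.C ≤ ((k₁ : ℝ) - S.Jp) * S.v ∧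
    ∀ k, S.Jp ≤ k → k < k₁ → S.v / S.C ≤ M.s (k + 1) - M.s k
  HJ : M.H S.Jp ≤ 1
  w2 : (S.n : ℝ) ^ (-(251 : ℝ) / 500) ≤ lm * max S.θ (nu S)
  dt : ∀ x, M.xs S ≤ x → (S.n : ℝ) ^ (-(1 : ℝ) / 2) / E ^ (K ^ 2) ≤ 1 - x →
    (S.n : ℝ) ^ ((1 : ℝ) / 7) ≤ S.n * max S.θ (nu S) * (S.den x * (1 - x) ^ 2)
  dn : ∀ x, M.xs S ≤ x → (S.n : ℝ) ^ (-(1 : ℝ) / 2) / E ^ (K ^ 2) ≤ 1 - x →
    lm ≤ S.den x * min (x - M.xs S + S.u0) (1 - x)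
  sm : E ^ (K ^ 3) ≤ S.n
  jl3 : E ^ (10 * K) * M.s S.jl ^ 3 ≤ nu S
  ue2 : S.ue ≤ 1 / S.n
  rt5 : ∀ t, Ys ≤ t → t ≤ S.C → M.s S.jl ^ 5 ≤ S.ms t * Yd K E Y
  gs : ∀ t, l ≤ t → S.gr t ^ 2 ≤ t * S.ms t * Yd K E Y
  zJ : M.z (S.Jp - 1) < 1
  gm : ∀ t, M.s S.jl < t → t ≤ S.C → S.θ * S.gr t ^ 2 ≤ E ^ K * S.ms t * S.g2
  dl : ∀ x, M.xs S ≤ x → S.ue ≤ 1 - x → 1 - x ≤ (S.n : ℝ) ^ (-(1 : ℝ) / 2) →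
    1 ≤ S.den x
  jl4 : (S.n : ℝ) ^ ((1 : ℝ) / 140) * M.s S.jl ^ 3 ≤ nu S
  fl2 : M.s S.Jp - M.s S.J ≤ nu S
  dq : ∀ x, M.xs S ≤ x → (S.n : ℝ) ^ (-(1 : ℝ) / 2) / E ^ (K ^ 2) ≤ 1 - x →
    (S.n : ℝ) ^ ((39 : ℝ) / 100) ≤ S.n * max S.θ (nu S) * (S.den x * (1 - x) ^ ((3 : ℝ) / 2))
  g6 : ∀ t, Ys ≤ t → t ≤ S.C → t * nu S ^ 2 / (S.n : ℝ) ^ ((1 : ℝ) / 100) ≤ S.ms t * Yd K E Y
  d0 : (S.n : ℝ) ^ ((1 : ℝ) / 7) ≤ S.n * max S.θ (nu S) * (lm * S.u0)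
  fa : ∀ x x', M.xs S ≤ x → x ≤ x' → x' < 1 → S.den x ≤ E ^ K * (1 + S.den x')
  lm2 : (S.n : ℝ) ^ (-(18 : ℝ) / 25) ≤ lm ^ 2 * max S.θ (nu S)
  g7 : ∀ t, Ys ≤ t → t ≤ S.C → t * (S.n : ℝ) ^ ((1 : ℝ) / 6) ≤
    ((S.n : ℝ) ^ ((5 : ℝ) / 6) * (S.ms t * Yd K E Y)) ^ 2
  u3 : S.θ * S.u0 ^ 3 ≤ E ^ (2 * K) * nu S ^ 2 ∧ ∀ t, Ys ≤ t → t ≤ S.C →
    t * (S.θ * S.u0 ^ 3) ≤ E ^ (2 * K) * (S.ms t * Yd K E Y)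
  top : ∃ r₁ r₂, Tp K E S M lm Y r₁ r₂
  w4 : 1 ≤ S.n * max S.θ (nu S) * lm * Yd K E Y ^ ((7 : ℝ) / 6)
  gd : (∀ x, M.xs S ≤ x → x < 1 → lm ^ 2 ≤ S.den x ^ 2 * (x - M.xs S + S.u0) ^ 3) ∨
    (S.n : ℝ) ^ ((3 : ℝ) / 5) ≤ S.n * max S.θ (nu S) * lm

/-- **(T)** with the margin `K` -/
def Term (K : ℕ) : Prop := CL fun E _ S M m a => ∀ l lm Ys Y c D, SH E S M l Ys Y →
  SX K E S M l lm Ys Y → VarH E S M m a Y → Ax E S M Y c → 2 * E ^ 10 * nuY K E S Y ≤ D →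
  D ≤ 3 * E ^ 10 * nuY K E S Y → ∀ u N, E ^ 8 * nuY K E S Y ≤ u → u ≤ 1 / E →
    KC E S M Y c D u N → N.Phi S m a ≤ 2 * (E ^ 100 * Y) → N.Phi S m a ≤ E ^ 99 * Y

def TermS2 : Prop := ∃ K, 1 ≤ K ∧ Term K

/-- **linear range**, no a priori bound (helper34) -/
def LinS2 : Prop := SR fun E _ S M m a Y c D => E * S.θ ≤ 1 → ∀ u N, 1 / E ≤ u → u ≤ 2 / E →
  KC E S M Y c D u N → N.Phi S m a ≤ E ^ 99 * Y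

/-- **SR** with the margin `K` -/
def Out (K : ℕ) : Prop := CL fun E _ S M m a => ∀ l lm Ys Y, SH E S M l Ys Y →
  SX K E S M l lm Ys Y → VarH E S M m a Y → M.Phi S m a ≤ 2 * (E ^ 100 * Y)

def SrS2 : Prop := ∃ K, 1 ≤ K ∧ Out K

/-- glue -/
def SrG2 : Prop := ClkS → InvS → DblS → MovS → LinS2 → ∀ K, 1 ≤ K → Term K → Out K

end Crest.Agent.T156.Alt.Sr

end
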