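import Crest.Agent.T156.AltFam_88
import Crest.Agent.T156.AltReg_29

/-!
# Row 156 (helper82): the tested stage is a chain of octaves and switches of the plateau data
-/

set_option autoImplicit false

noncomputable section

namespace Crest.Agent.T156.Alt

open Real Set Filter Topology

/-- the labels of `P`, the static data mixed between `P` and `P'` -/
def Pl.mix (P P' : Pl) (t : ℝ) : Pl :=
  ⟨P.I, P.x, fun x => (1 - t) * P.hs x + t * P'.hs x, fun x => (1 - t) * P.rs x + t * P'.rs x, 0⟩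

/-- an octave of the tested stage -/
structure Oct (p : Pm) (y0 y : ℝ) : Prop where
  lo : p.y1 ≤ y0
  le : y0 ≤ y
  two : y ≤ 2 * y0
  hi : y ≤ p.ye

/-- **the tested core**: one octave, plateau data fixed -/
def OctS (δ : ℝ) (p : Pm) : Prop := ∀ y0 y P, Oct p y0 y → p.PlOk (p.μ 1 y0) P →
  Go δ p (p.tst P y0) (p.tst P y)

/-- the static field is switched on the old grid -/
def SwA (δ : ℝ) (p : Pm) : Prop := ∀ y0 y P P', Oct p y0 y → p.PlOk (p.μ 1 y0) P →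
  p.PlOk (p.μ 1 y) P' → Go δ p (p.tst P y) (p.tst (P.mix P' 1) y)

/-- the grid is switched -/
def SwB (δ : ℝ) (p : Pm) : Prop := ∀ y0 y P P', Oct p y0 y → p.PlOk (p.μ 1 y0) P →
  p.PlOk (p.μ 1 y) P' → Go δ p (p.tst (P.mix P' 1) y) (p.tst P' y)

theorem Stage.mono82 {n : ℕ} {s γ C δ δ' : ℝ} {M₀ : Md} {T : Set Md} (hs : 0 ≤ s) (h : δ ≤ δ')
    (H : Stage n s γ C δ M₀ T) : Stage n s γ C δ' M₀ T :=
  ⟨H.mem, H.leg, fun a a' Q w hQ hW m h1 h2 M hM => (H.lnk a a' Q w hQ hW m h1 h2 M hM).trans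
    (by gcongr)⟩

theorem Go.mono82 {δ δ' : ℝ} {p : Pm} {M₀ M₁ : Md} (hs : 0 ≤ p.s) (h : δ ≤ δ')
    (H : Go δ p M₀ M₁) : Go δ' p M₀ M₁ :=
  H.imp fun _ H => ⟨H.1.mono82 hs h, H.2⟩

theorem Go.trans82 {δ δ' : ℝ} {p : Pm} {M₀ M₁ M₂ : Md} (hs : 0 ≤ p.s) (_h : 0 ≤ δ) (h' : 0 ≤ δ')
    (H : Go δ p M₀ M₁) (H' : Go δ' p M₁ M₂) : Go (δ + δ') p M₀ M₂ := by
  obtain ⟨T, H, h1⟩ := H
  obtain ⟨T', H', h2⟩ := H'
  refine ⟨T ∪ T', ⟨Or.inl H.mem, fun M hM => hM.elim (H.leg M) (H'.leg M), ?_⟩, Or.inr h2⟩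
  intro a a' Q w hQ hW m m1 m2 M hM
  have a1 := H.lnk a a' Q w hQ (fun M hM => hW M (Or.inl hM)) m m1 m2
  have a2 := H'.lnk a a' Q w hQ (fun M hM => hW M (Or.inr hM)) m m1 m2
  have e : 0 ≤ (p.n : ℝ) ^ ((1 : ℝ) / 6) * (Q * p.s ^ 2 + p.s ^ 5) := by positivity
  rcases hM with hM | hM
  · refine (a1 M hM).trans ?_
    rw [mul_assoc, mul_assoc]
    exact mul_le_mul_of_nonneg_right (by linarith) e
  · have b1 := abs_le.1 (a1 M₁ h1)
    have b2 := abs_le.1 (a2 M hM)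
    rw [abs_le, add_mul, add_mul]
    constructor <;> linarith [b1.1, b1.2, b2.1, b2.2]

/-- the chain of octaves -/
theorem test_chain {g d δ : ℝ} {p : Pm} (hs : 0 ≤ p.s) (hδ : 0 ≤ δ) (hκ : 0 < p.κ) (h1 : 0 < p.y1)
    (he : p.ye ≤ 1) (hE : PlEx g d p) (hO : OctS δ p) (hA : SwA δ p) (hB : SwB δ p) {P : Pl}
    (hP : p.PlOk (p.μ 1 p.y1) P) : ∀ i : ℕ, ∀ P', p.PlOk (p.μ 1 (min (2 ^ i * p.y1) p.ye)) P' →
      Go ((3 * i + 2) * δ) p (p.tst P p.y1) (p.tst P' (min (2 ^ i * p.y1) p.ye))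
  | 0, P', hP' => by
    have e : min (2 ^ 0 * p.y1) p.ye = p.y1 := by rw [pow_zero, one_mul, min_eq_left hE.2.2.2]
    rw [e] at hP' ⊢
    have o : Oct p p.y1 p.y1 := ⟨le_rfl, le_rfl, by linarith, hE.2.2.2⟩
    exact ((hA _ _ P P' o hP hP').trans82 hs hδ hδ (hB _ _ P P' o hP hP')).mono82 hs
      (by push_cast; linarith)
  | i + 1, P', hP' => by
    have p1 : (1 : ℝ) ≤ 2 ^ i := one_le_pow₀ one_le_two
    set y0 := min (2 ^ i * p.y1) p.ye with hy0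
    have l0 : p.y1 ≤ y0 := le_min (by nlinarith) hE.2.2.2
    have l1 : y0 ≤ p.ye := min_le_right _ _
    have o : Oct p y0 (min (2 ^ (i + 1) * p.y1) p.ye) := by
      refine ⟨l0, min_le_min_right _ (by rw [pow_succ]; nlinarith), ?_, min_le_right _ _⟩
      rcases le_total (2 ^ i * p.y1) p.ye with h | h
      · rw [hy0, min_eq_left h]
        exact (min_le_left _ _).trans (by rw [pow_succ]; linarith)
      · rw [hy0, min_eq_right h]
        exact (min_le_right _ _).trans (by linarith [hE.2.2.2])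
    obtain ⟨P₀, h₀⟩ := hE.1 (p.μ 1 y0) (hE.2.2.1.trans (by unfold Pm.μ; gcongr))
      (by
        have : y0 ^ 2 ≤ 1 := pow_le_one₀ (by linarith) (l1.trans he)
        unfold Pm.μ; nlinarith)
    have hi : (0 : ℝ) ≤ (3 * i + 2) * δ := by positivity
    exact ((((test_chain hs hδ hκ h1 he hE hO hA hB hP i P₀ h₀).trans82 hs hi hδ
      (hO _ _ P₀ o h₀)).trans82 hs (by linarith) hδ (hA _ _ P₀ P' o h₀ hP')).trans82 hs
      (by linarith) hδ (hB _ _ P₀ P' o h₀ hP')).mono82 hs (by push_cast; linarith)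

/-- **the tested stage from its octaves** -/
theorem testS_of {β g : ℝ} (hβ : 1 < β) (hE : Gain β (PlEx g)) (hO : Gain β OctS)
    (hA : Gain β SwA) (hB : Gain β SwB) : Gain β TestS := by
  have mO : Mo fun δ p => 0 ≤ p.s → OctS δ p := fun x x' p _ h H hs y0 y P o hP =>
    (H hs y0 y P o hP).mono82 hs h
  have mA : Mo fun δ p => 0 ≤ p.s → SwA δ p := fun x x' p _ h H hs y0 y P P' o hP hP' =>
    (H hs y0 y P P' o hP hP').mono82 hs h
  have mB : Mo fun δ p => 0 ≤ p.s → SwB δ p := fun x x' p _ h H hs y0 y P P' o hP hP' =>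
    (H hs y0 y P P' o hP hP').mono82 hs h
  have mE : Mo (PlEx g) := fun _ _ _ _ _ H => H
  have k1 := (hO.mono fun _ p _ _ H (_ : 0 ≤ p.s) => H).sml 3 mO
  have k2 := (hA.mono fun _ p _ _ H (_ : 0 ≤ p.s) => H).sml 3 mA
  have k3 := (hB.mono fun _ p _ _ H (_ : 0 ≤ p.s) => H).sml 3 mB
  have k4 := hE.sml 3 mE
  refine Sml.gain (Sml.glue' hβ (((k1.and k2).and k3).and k4) 2 one_pos 1 ?_)
  intro c0 C0 A c η _ _ _ _
  refine ⟨1, fun p H _ _ _ ⟨⟨⟨hO, hA⟩, hB⟩, hE⟩ P P' hP hP' => ?_⟩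
  have hs := H.s0.le
  have h1 : 0 < p.y1 := H.r0.trans_le (le_max_left _ _)
  set Λ := (p.n : ℝ) ^ η with hΛ
  have hΛ0 : 0 < Λ := H.Λ0
  set i := ⌈2 * log (p.n : ℝ)⌉₊ with hi
  have hl := H.log1
  have hi1 : 2 * log (p.n : ℝ) ≤ i := Nat.le_ceil _
  have hi2 : (i : ℝ) ≤ 2 * log p.n + 1 := (Nat.ceil_lt_add_one (by linarith)).le
  have h2 : (p.n : ℝ) ≤ 2 ^ i := by
    have h3 : (1 : ℝ) / 2 ≤ log 2 := by linarith [log_two_gt_d9]
    rw [← log_le_log_iff H.N0 (by positivity), log_pow]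
    nlinarith
  have h4 : 1 ≤ p.n * p.y1 := by
    refine le_trans ?_ (mul_le_mul_of_nonneg_left (le_max_left _ _) H.N0.le)
    have := H.r0
    have := H.N0
    refine H.le_of_lg one_pos (by positivity) ?_
    rw [logb_mul H.N0.ne' H.r0.ne', H.lg_n, H.lg_r, logb_one]
    linarith [H.lg_s.1, H.c_pos]
  have e : min (2 ^ i * p.y1) p.ye = p.ye := min_eq_right (H.ye1.trans (h4.trans (by gcongr)))
  have := test_chain hs (by positivity) H.κ0 h1 H.ye1 hE (hO hs) (hA hs) (hB hs) hP i P'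
    (by rw [e]; exact hP')
  rw [e] at this
  refine this.mono82 hs ?_
  have h5 : log (p.n : ℝ) ≤ Λ := H.log_le
  have h6 : 1000 ≤ Λ := H.num_le
  have h7 : (3 * i + 2 : ℝ) ≤ Λ ^ 2 := by nlinarith
  calc (3 * i + 2 : ℝ) * Λ⁻¹ ^ 3 ≤ Λ ^ 2 * Λ⁻¹ ^ 3 := by gcongr
    _ = Λ⁻¹ := by field_simp

end Crest.Agent.T156.Alt

end
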