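import Crest.Agent.T156.AltMem_37
import Crest.Agent.T156.AltP0_37
import Crest.Agent.T156.PlO_13

/-!
# Row 156: membership from sloped data `SlE` and plateau data `PlE` (helper37)
-/

set_option autoImplicit false

noncomputable section

namespace Crest.Agent.T156.Alt

open Real Set Filter Topology
open Crest.Agent.R164.GC Crest.Agent.R339.B Crest.Agent.R339.Var Crest.Agent.T157.Pf
open Crest.Agent.T156.Pr.Spr41 (ec)
open Mem37

/-- `∑ dz G²` above the first mark -/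
def Pm.g2P (p : Pm) (P : Pl) : ℝ :=
  ∑ k ∈ Finset.Ioc p.jf (p.Jp P), (p.zP P k - p.zP P (k - 1)) * P.hs (p.xP P k) ^ 2

/-- plateau data with field amplitude `θ` -/
structure PlE (K θ : ℝ) (p : Pm) (P : Pl) (den : ℝ → ℝ) (u0 ue : ℝ) : Prop where
  g0 : 0 ≤ P.γ
  g1 : P.γ ≤ 1
  x0 : P.x 0 = p.xs
  xm : ∀ i < P.I, P.x i < P.x (i + 1)
  x1 : P.x P.I ≤ 1
  card : P.I * p.v ≤ K * log p.n
  z0 : ∀ x, x ≤ 1 / (2 * K) → P.rs x = 0 ∧ P.hs x = 0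
  sl : ∀ x x', x ≤ x' → x' ≤ p.xs → |P.rs x' - P.rs x| ≤ K * (x' - x) / log p.n ∧
    |P.hs x' - P.hs x| ≤ K * θ * (x' - x) / log p.n
  pc : ∀ i < P.I, p.v / K ≤ P.γ * (p.lsp P.γ (P.x (i + 1)) - p.lsp P.γ (P.x i)) +
      (P.rs (P.x (i + 1)) - P.rs (P.x i)) ∧
    P.γ * (p.lsp P.γ (P.x (i + 1)) - p.lsp P.γ (P.x i)) + (P.rs (P.x (i + 1)) - P.rs (P.x i)) ≤
      K * p.v ∧
    0 ≤ P.rs (P.x (i + 1)) - P.rs (P.x i) ∧
    θ / K * (P.rs (P.x (i + 1)) - P.rs (P.x i)) ≤ P.hs (P.x (i + 1)) - P.hs (P.x i) ∧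
    P.hs (P.x (i + 1)) - P.hs (P.x i) ≤ K * θ * (P.rs (P.x (i + 1)) - P.rs (P.x i))
  hN : P.hs (P.x P.I) ≤ K * log p.n
  plat : ∀ i < P.I, p.v / K ≤ (P.x (i + 1) - P.x i) * den (P.x i) ∧
    (P.x (i + 1) - P.x i) * den (P.x i) ≤ K * p.v
  den0 : ∀ x, 0 < den x
  dens : ∀ x x', p.xs ≤ x → x ≤ x' → x' < 1 → x' - x ≤ min (x - p.xs + u0) (1 - x') →
    den x ≤ K * den x' ∧ den x' ≤ K * den x
  last : 1 - P.x P.I ≤ ue

/-- numbers -/
structure NbK (K c0 C0 : ℝ) (p : Pm) : Prop where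
  K1 : 1 ≤ K
  cK : 1 ≤ c0 * K
  CK : C0 ≤ K
  βK : p.β ^ 2 ≤ K
  β1 : 1 < p.β ^ 2
  lg : 8 * K ^ 3 ≤ log p.n
  A1 : 1 ≤ p.A
  big : K + (K + p.A) * log p.n + 1 ≤ p.n
  jf3 : 3 ≤ p.jf
  vr : p.v ≤ p.r
  rK : 32 * K ^ 3 * p.r ≤ 1
  am : 2 * p.am ≤ c0 * (p.jf * p.v)
  κ0 : 0 < p.κ
  κl : p.κ * log p.n ≤ 1
  κβ : K * p.κ ≤ 1 - 1 / p.β ^ 2
  ye : 8 * K ^ 2 * p.ye ≤ 1
  la : ∀ μ, p.μ0 ≤ μ → μ ≤ p.κ → Plt13.Nm p μ ∧ 2 * K * (log p.n * Plt13.u0 p μ) ≤ 1 ∧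
    K ^ 2 * (log p.n * p.la μ) ≤ 1

/-- data of the sloped part and of the reference list -/
structure SlE (K c0 C0 η Y : ℝ) (p : Pm) (P : Pl) (om : ℕ → ℝ) (b : ℝ) (ms : ℝ → ℝ) : Prop where
  base : Pr.Base (p.β ^ 2) c0 C0 η p.v p.J p.z
  hom : Pr.Om p.v Y (1 / 2) om
  hY : Y ≤ p.J * p.v
  jr : p.jf * p.v ≤ p.r
  msm : Monotone ms
  ms2 : ∀ t, 0 ≤ t → ms (2 * t) ≤ 4 * ms t
  ms0 : (p.n : ℝ) ^ (-(1 : ℝ)) ≤ ms 0
  ms1 : ∀ t, ms t ≤ ms 1
  msκ : ms 1 ≤ p.κ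
  fl : ∀ t, p.ye ≤ t → ms 1 ≤ ms t
  b0 : 1 ≤ b
  bK : b ≤ K
  atom : 1 / K ≤ p.xs ∧ p.xs ≤ 1 - 1 / K
  crit : ∀ t ∈ Icc 0 (p.sO P om (p.Jp P)), ms t / K ≤ ec b (p.lO P om) t ∧
    ec b (p.lO P om) t ≤ K * ms t
  gpp : ∀ t, 0 ≤ t → t < p.J * p.v → ∀ s0, 0 < s0 → s0 ≤ p.r →
    |Pr.NN (p.lO P om) t - 2 * lvr 1 (p.lO P om) t * Pr.AA (p.lO P om) t| ≤
      K * (ms t / max t s0)

variable {K c0 C0 η Y : ℝ} {p : Pm} {P : Pl} {om : ℕ → ℝ} {b : ℝ} {ms den : ℝ → ℝ} {u0 ue : ℝ}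

theorem NbK.K3 (N : NbK K c0 C0 p) : 0 < K ∧ K ≤ K ^ 2 ∧ K ^ 2 ≤ K ^ 3 := by
  have := N.K1
  exact ⟨by linarith, by nlinarith, pow_le_pow_right₀ this (by norm_num)⟩

theorem NbK.l1 (N : NbK K c0 C0 p) : 8 ≤ log p.n := by
  obtain ⟨a, b, c⟩ := N.K3
  linarith [N.lg, N.K1]

theorem NbK.n0 (N : NbK K c0 C0 p) : (0 : ℝ) < p.n := by
  have a := N.K3.1
  have b := N.l1
  have c : 0 ≤ (K + p.A) * log p.n := by positivity
  linarith [N.big]

theorem NbK.jfJ (N : NbK K c0 C0 p) (hB : Pr.Base (p.β ^ 2) c0 C0 η p.v p.J p.z)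
    (jr : p.jf * p.v ≤ p.r) : p.jf + 1 < p.J ∧ 0 < p.r ∧ p.v ≤ 1 := by
  obtain ⟨a, b, c⟩ := N.K3
  have v := hB.v_pos
  have r : 0 < p.r := v.trans_le N.vr
  have K1 := N.K1
  have e : 32 * K * p.r ≤ 1 := by nlinarith [N.rK]
  have f : 2 * p.r < c0 := by
    by_contra hc
    nlinarith [N.cK, mul_le_mul_of_nonneg_right (not_lt.1 hc) a.le]
  have g : ((p.jf : ℝ) + 1) * p.v < p.J * p.v := by linarith [hB.lo, N.vr]
  refine ⟨by exact_mod_cast lt_of_mul_lt_mul_right g v.le, r, by nlinarith [N.vr]⟩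

theorem SlE.geo (S : SlE K c0 C0 η Y p P om b ms) (N : NbK K c0 C0 p) {θ : ℝ}
    (D : PlE K θ p P den u0 ue) : Geo c0 C0 η Y p P om :=
  ⟨S.base, S.hom, S.hY, by have := (N.jfJ S.base S.jr).1; omega, D.g0, D.x0, D.xm, D.x1⟩

/-- increments of the static data on the sloped part -/
theorem SlE.sl (S : SlE K c0 C0 η Y p P om b ms) (N : NbK K c0 C0 p)
    (D : PlE K (ms 1) p P den u0 ue) {k : ℕ} (h0 : 1 ≤ k) (hk : k < p.J) :
    |P.rs (p.z k) - P.rs (p.z (k - 1))| ≤ p.v / (8 * K) ∧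
      |P.hs (p.z k) - P.hs (p.z (k - 1))| ≤ ms (p.sO P om k) * p.v / (8 * K) := by
  obtain ⟨K0, K2, K3⟩ := N.K3
  have G := S.geo N D
  have v := G.v0
  have l := N.l1
  have zm : p.z (k - 1) ≤ p.z k := S.base.lab.mono (Nat.sub_le _ _)
  obtain ⟨a, c⟩ := D.sl _ _ zm (S.base.lab.mono (show k ≤ p.J - 1 by omega))
  have dz : p.z k - p.z (k - 1) ≤ K * p.v := by
    have := (S.base.slo (k - 1) (by omega)).2
    unfold Pr.dm at this
    rw [show k - 1 + 1 = k by omega] at this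
    exact this.trans (mul_le_mul_of_nonneg_right N.CK v.le)
  have e : K * (p.z k - p.z (k - 1)) / log p.n ≤ p.v / (8 * K) := by
    rw [div_le_div_iff₀ (by linarith) (by positivity)]
    have := mul_le_mul_of_nonneg_left dz (show 0 ≤ 8 * K ^ 2 by positivity)
    nlinarith [mul_le_mul_of_nonneg_left N.lg v.le]
  have mp : 0 < ms 0 := (rpow_pos_of_pos N.n0 _).trans_le S.ms0
  have m := mp.trans_le (S.msm (G.sP_nn k))
  refine ⟨a.trans e, ?_⟩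
  rcases le_or_gt (p.z k) (1 / (2 * K)) with f | f
  · rw [(D.z0 _ f).2, (D.z0 _ (zm.trans f)).2, sub_zero, abs_zero]; positivity
  · have g1 := (G.z_inc (Nat.zero_le k) hk).2
    have g2 := (G.s_inc (Nat.zero_le k) hk.le).1
    rw [G.sP_zero] at g2
    have k1 : (1 : ℝ) ≤ k := by exact_mod_cast h0
    have C00 : 0 ≤ C0 := by nlinarith [S.base.z0, S.base.lab.pos]
    have g3 : p.z k ≤ 2 * K * (k * p.v) := by
      have x1 := mul_le_mul_of_nonneg_right N.CK (show 0 ≤ (k : ℝ) * p.v by positivity)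
      have x2 := mul_le_mul_of_nonneg_left (mul_le_mul_of_nonneg_right k1 v.le) C00
      push_cast at g1
      nlinarith [S.base.z0]
    rw [div_lt_iff₀ (by positivity)] at f
    have g4 : p.ye ≤ p.sO P om k := by
      push_cast at g2
      have x1 := mul_le_mul_of_nonneg_right g3 (show 0 ≤ 2 * K by positivity)
      have x2 : 8 * K ^ 2 * p.ye ≤ 8 * K ^ 2 * p.sO P om k := by nlinarith [N.ye]
      exact le_of_mul_le_mul_left x2 (by positivity)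
    refine c.trans ?_
    have x := mul_le_mul (S.fl _ g4) e (by
      exact div_nonneg (mul_nonneg K0.le (by linarith)) (by linarith)) m.le
    calc K * ms 1 * (p.z k - p.z (k - 1)) / log p.n =
          ms 1 * (K * (p.z k - p.z (k - 1)) / log p.n) := by ring
      _ ≤ _ := x
      _ = _ := by ring

theorem SlE.memD (S : SlE K c0 C0 η Y p P om b ms) (N : NbK K c0 C0 p)
    (D : PlE K (ms 1) p P den u0 ue) :
    MemD K c0 C0 η Y p P om p.jf b 0 ms den (p.g2P P) u0 ue := by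
  obtain ⟨K0, K2, K3⟩ := N.K3
  have K1 := N.K1
  have G := S.geo N D
  have v := G.v0
  have l := N.l1
  obtain ⟨jJ, r, v1⟩ := N.jfJ S.base S.jr
  have A : (1 : ℝ) ≤ p.A := by exact_mod_cast N.A1
  have n0 := N.n0
  have mp : 0 < ms 0 := (rpow_pos_of_pos n0 _).trans_le S.ms0
  have m1 : 0 < ms 1 := mp.trans_le (S.ms1 0)
  have c00 : 0 < c0 := by nlinarith [N.cK]
  obtain ⟨z1, z2⟩ := G.z_inc (Nat.zero_le p.jf) (show p.jf < p.J by omega)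
  have j3 : (3 : ℝ) ≤ p.jf := by exact_mod_cast N.jf3
  have s1 : 0 < p.sO P om p.jf ∧ p.sO P om p.jf ≤ p.r := by
    rw [sP_lo (by omega)]
    exact ⟨lt_of_lt_of_le (by positivity) (S.hom.sig_ge v le_rfl _), (S.hom.sig_le _).trans S.jr⟩
  have e8 : p.v / (8 * K) ≤ K * p.v := by
    rw [div_le_iff₀ (by positivity)]; nlinarith
  refine ⟨G, K1, N.cK, N.CK, N.βK, N.β1.le, by linarith, N.A1, v1, D.g1, ?_,
    le_trans (by norm_num) N.jf3, le_rfl, jJ, ?_, ?_, S.msm, S.ms2, S.ms0, S.ms1, ?_, ?_, S.b0,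
    le_rfl, by rw [add_zero]; exact S.bK, mul_nonneg K0.le (mp.trans_le (S.msm s1.1.le)).le, S.atom,
    by rw [add_zero]; exact S.crit, fun t h0 h1 => S.gpp t h0 h1 _ s1.1 s1.2, D.z0,
    fun k h1 h2 => ?_, fun i hi => ?_, D.hN.trans ?_, le_rfl, D.plat, D.den0, D.dens, D.last⟩
  · have vn : p.v * (p.n : ℝ) ^ p.A = p.β ^ 2 := div_mul_cancel₀ _ (pow_pos n0 _).ne'
    have a : (p.Nr : ℝ) * p.v ≤ p.A * log p.n + p.v := by
      have := mul_le_mul_of_nonneg_right (Nat.ceil_lt_add_one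
        (show 0 ≤ p.A * log p.n / p.v by positivity)).le v.le
      rwa [add_mul, div_mul_cancel₀ _ v.ne', one_mul] at this
    refine le_of_mul_le_mul_right ?_ v
    rw [pow_succ, show (p.n : ℝ) ^ p.A * p.n * p.v = p.v * (p.n : ℝ) ^ p.A * p.n by ring, vn]
    unfold Pm.NP
    push_cast
    nlinarith [S.base.hi, N.βK, D.card, N.big, N.β1]
  · push_cast at z1
    nlinarith [N.am, S.base.lab.pos]
  · push_cast at z2
    have a : p.z p.jf ≤ 2 * K * p.r := by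
      have x1 := mul_le_mul_of_nonneg_right N.CK (show 0 ≤ p.jf * p.v + p.v by positivity)
      have x2 := mul_le_mul_of_nonneg_left (add_le_add S.jr N.vr) K0.le
      nlinarith [S.base.z0]
    rw [le_div_iff₀ (by positivity)]
    nlinarith [N.rK, mul_le_mul_of_nonneg_right a (show 0 ≤ 16 * K ^ 2 by positivity)]
  · exact (mul_le_mul_of_nonneg_right S.msκ (by linarith)).trans N.κl
  · have a := mul_le_mul_of_nonneg_left N.lg N.κ0.le
    have b := mul_le_mul_of_nonneg_left S.msκ K0.le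
    nlinarith [N.κl, N.κ0]
  · obtain ⟨a, c⟩ := S.sl N D (k := k) (by omega) h2
    have m := mp.trans_le (S.msm (G.sP_nn k))
    have d : ms (p.sO P om k) * p.v / (8 * K) ≤ ms (p.sO P om k) * p.v / (4 * K) :=
      div_le_div_of_nonneg_left (by positivity) (by positivity) (by linarith)
    exact ⟨(abs_le.1 a).1, (abs_le.1 a).2.trans e8, by linarith [(abs_le.1 c).1]⟩
  · obtain ⟨a, b, c, d, -⟩ := D.pc i hi
    exact ⟨a, b, c, d⟩
  · rw [mul_assoc]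
    exact mul_le_mul_of_nonneg_left (le_mul_of_one_le_left (by linarith) A) K0.le

/-- **membership and ceiling** -/
theorem SlE.cl (S : SlE K c0 C0 η Y p P om b ms) (N : NbK K c0 C0 p)
    (D : PlE K (ms 1) p P den u0 ue) :
    Cl (p.scl P om (8 * K ^ 2) p.jf ms den (p.g2P P) u0 ue) (p.famO P om p.jf b 0 0) ∧
      Cei (p.scl P om (8 * K ^ 2) p.jf ms den (p.g2P P) u0 ue) (p.famO P om p.jf b 0 0) := by
  have M := S.memD N D
  obtain ⟨K0, K2, K3⟩ := N.K3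
  have v := M.geo.v0
  refine ⟨M.cl, M.cei' N.jf3 (S.fl _ ?_) (fun k h1 h2 => ?_) fun i hi => (D.pc i hi).2.2.2.2⟩
  · have a : 8 * K ^ 2 * p.ye ≤ 8 * K ^ 2 * c0 := by nlinarith [N.ye, N.cK, N.K1]
    exact (le_of_mul_le_mul_left a (by positivity)).trans S.base.lo
  · refine (abs_le.1 (S.sl N D (k := k) (by omega) h2).2).2.trans ?_
    have m := M.msp (M.geo.sP_nn k)
    rw [div_le_iff₀ (by positivity)]
    nlinarith [mul_pos m v, N.K1]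

end Crest.Agent.T156.Alt

end
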