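import Crest.Agent.T156.SRDef_19
import Crest.Agent.T156.MemP_37

/-!
# Row 156, SR: the hypotheses `SH`, `VH` for the concrete family, class level (helper66)
-/

set_option autoImplicit false

noncomputable section

namespace Crest.Agent.T156.Alt

open Real Set Finset
open Mem37

/-- `∑ dz rs²` above the first mark -/
def Pm.r2P (p : Pm) (P : Pl) : ℝ :=
  ∑ k ∈ Finset.Ioc p.jf (p.Jp P), (p.zP P k - p.zP P (k - 1)) * P.rs (p.xP P k) ^ 2

/-- the numbers of `SH` for a member `famO P om jf b 0 0`; `s = sO jf` -/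
structure ShN (E C : ℝ) (p : Pm) (P : Pl) (s b : ℝ) (ms den : ℝ → ℝ) (g2 u0 ue l Ys Y : ℝ) :
    Prop where
  b1 : 1 + 2 / E ≤ b
  th1 : 2 * ms 1 * log p.n ≤ 1
  flat : P.γ ^ 2 ≤ Y
  mesh : ∀ i < P.I, P.x (i + 1) - P.x i ≤ 1 / (p.n : ℝ) ^ 2
  last : 1 - P.x P.I ≤ 1 / (p.n : ℝ) ^ 2
  dj : den p.xs ≤ C
  u0 : 0 < u0 ∧ u0 ^ 3 ≤ Y
  ue : ue ≤ Y
  ckT : 1 + P.rs (P.x P.I) ≤ E
  ck : p.r2P P ≤ Y
  g2 : g2 ≤ E * ms 1 ^ 2 * Y
  rt : E ^ 10 * (p.n : ℝ) ^ (-(1 : ℝ) / 6) ≤ s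
  jl : s ≤ l
  l3 : l ^ 3 ≤ Y
  lY : s ≤ Ys
  star : ∀ t, Ys ≤ t → t ≤ C → E ^ 30 * (p.n : ℝ) ^ (-(1 : ℝ) / 3) ≤ ms t
  Y0 : (p.n : ℝ) ^ (-(1 : ℝ) / 2) ≤ Y
  Y1 : E ^ 200 * Y ≤ (p.n : ℝ) ^ (-(1 : ℝ) / 10)
  Y2 : min Ys 1 * (p.n : ℝ) ^ (-(1 : ℝ) / 3) ≤ Y
  Y3 : min Ys 1 * s ^ 5 ≤ Y ^ 2
  vs : C * p.n * p.v ≤ s
  slo : ∀ i ≤ P.I, P.γ * p.lsp P.γ (P.x i) ≤ P.x i - p.xs

/-- the additional numbers of `VH` -/
structure VhN (E C : ℝ) (p : Pm) (ms den : ℝ → ℝ) (u0 l lm Y : ℝ) : Prop where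
  wl : E ^ 39 * (1 / (p.n * l * ms l)) ≤ l ^ 3
  bas : ∀ t, l ≤ t → t ≤ C → t ^ 3 * (1 / (p.n * t * ms t)) ^ 2 ≤ Y ^ 3
  lm0 : 0 < lm
  w1 : 1 / (p.n * 1 * ms 1) ≤ Y * lm
  dn : ∀ x, p.xs ≤ x → x ≤ 1 - Y → lm ≤ den x * min (x - p.xs + u0) (1 - x)
  dj : 1 / C ≤ den p.xs

namespace MemD

variable {K c0 C0 η Y₀ : ℝ} {p : Pm} {P : Pl} {om : ℕ → ℝ} {b : ℝ} {ms den : ℝ → ℝ}
  {g2 u0 ue : ℝ} (h : MemD K c0 C0 η Y₀ p P om p.jf b 0 ms den g2 u0 ue)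
include h

omit h in
theorem z66 {k : ℕ} (hk : p.jf ≤ k) : (p.famO P om p.jf b 0 0).z k = p.zP P k :=
  congrArg (p.zP P) (max_eq_left hk)

omit h in
theorem dx66 {k : ℕ} (hk : p.jf < k) :
    (p.famO P om p.jf b 0 0).dx k = p.zP P k - p.zP P (k - 1) := by
  rw [Md.dx, z66 hk.le, z66 (by omega)]

theorem xs66 (C : ℝ) :
    (p.famO P om p.jf b 0 0).xs (p.scl P om C p.jf ms den g2 u0 ue) = p.xs := by
  have := h.jlJ
  show (p.famO P om p.jf b 0 0).z (p.J - 1) = _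
  rw [z66 (by omega), zP_lo (by omega)]; rfl

omit h in
theorem sq66 (C : ℝ) (f : ℕ → ℝ) :
    (p.famO P om p.jf b 0 0).sq (p.scl P om C p.jf ms den g2 u0 ue) f =
      ∑ k ∈ Finset.Ioc p.jf (p.Jp P), (p.zP P k - p.zP P (k - 1)) * f k ^ 2 :=
  Finset.sum_congr rfl fun k hk => by rw [dx66 (Finset.mem_Ioc.1 hk).1]

omit h in
theorem ck66 (C : ℝ) : (p.famO P om p.jf b 0 0).sq (p.scl P om C p.jf ms den g2 u0 ue)
    (fun k => (p.famO P om p.jf b 0 0).ck k - (p.famO P om p.jf b 0 0).q k) = p.r2P P := by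
  rw [sq66, Pm.r2P]
  refine Finset.sum_congr rfl fun k _ => ?_
  congr 2
  show p.qO P om k + P.rs (p.xP P k) - p.qO P om k = _
  ring

theorem dx_mid66 {i : ℕ} (hi : i < P.I) :
    (p.famO P om p.jf b 0 0).dx (p.J + i) = P.x (i + 1) - P.x i := by
  have := h.jlJ
  rw [dx66 (by omega), h.geo.zP_x hi.le, ← h.geo.zP_x (i := i + 1) hi]
  rfl

/-- **`SH` for the family** -/
theorem sh {E l Ys Y : ℝ}
    (hc : Cei (p.scl P om (8 * K ^ 2) p.jf ms den g2 u0 ue) (p.famO P om p.jf b 0 0))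
    (hθ : ∀ k, p.jf < k → k ≤ p.Jp P → 1 / (2 * K) < p.xP P k → ms 1 ≤ ms (p.sO P om k))
    (N : ShN E (8 * K ^ 2) p P (p.sO P om p.jf) b ms den g2 u0 ue l Ys Y) :
    Sr.SH E (p.scl P om (8 * K ^ 2) p.jf ms den g2 u0 ue) (p.famO P om p.jf b 0 0) l Ys Y := by
  have jJ := h.jlJ
  have JJ := J_le (p := p) (P := P)
  have K0 := h.K0
  have n0 := h.n0
  have m1 : 0 < ms 1 := h.msp zero_le_one
  have d : ∀ k, (p.famO P om p.jf b 0 0).d k = b := fun k => by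
    show (if k ≤ p.jf then b else b + 0) = b
    split_ifs <;> simp
  have nu0 : 0 < (p.n : ℝ) ^ (-(1 : ℝ) / 3) := rpow_pos_of_pos n0 _
  refine
    { F1 := rfl, cei := hc, jj := rfl, Hjl := ?_, noW := (d 0).trans (d _).symm
      b1 := (d 0).symm ▸ N.b1, th1 := N.th1, flat := ?_, slo := fun k h1 h2 => ?_
      mesh := fun k h1 h2 => ?_, dj := (h.xs66 _).symm ▸ N.dj, u0 := N.u0, ue := N.ue, ckT := ?_
      ck := (ck66 _).trans_le N.ck, gr := fun t ht => ?_, G2 := ?_, g2 := N.g2, rt := N.rt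
      jl := N.jl, l3 := N.l3, lY := N.lY, star := N.star, Y0 := N.Y0, Y1 := N.Y1, Y2 := N.Y2
      Y3 := N.Y3, Hj1 := ?_ }
  · show p.HO P om (b + 0) p.jf + 0 = 0
    rw [H_lo le_rfl, add_zero]
  · show (p.sO P om (p.Jp P) - p.sO P om p.J) ^ 2 ≤ Y
    rw [h.geo.sP_Jp, h.geo.sP_J, add_sub_cancel_left]
    obtain ⟨a, c⟩ := h.geo.lsp_mem (i := P.I) le_rfl
    exact (pow_le_pow_left₀ (mul_nonneg h.geo.g0 a) (mul_le_of_le_one_right h.geo.g0 c) 2).trans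
      N.flat
  · obtain ⟨i, rfl⟩ := Nat.exists_eq_add_of_le (show p.J ≤ k from h1)
    have hi : i ≤ P.I := by change p.J + i ≤ p.J + P.I at h2; omega
    show p.sO P om (p.J + i) - p.sO P om p.J ≤ (p.famO P om p.jf b 0 0).z (p.J + i - 1) -
      (p.famO P om p.jf b 0 0).z (p.J - 1)
    rw [z66 (by omega), z66 (by omega), h.geo.zP_x hi, zP_lo (by omega), h.geo.sP_J,
      h.geo.sP_hi (Nat.le_add_right _ _), h.geo.xP_x hi,
      show p.J + i - p.Jp P = 0 from Nat.sub_eq_zero_of_le (Nat.add_le_add_left hi _)]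
    have := N.slo i hi
    simp only [Nat.cast_zero, zero_mul, add_zero, add_sub_cancel_left]
    exact this
  · obtain ⟨i, rfl⟩ := Nat.exists_eq_add_of_le (show p.J ≤ k from h1)
    have hi : i ≤ P.I := by change p.J + i ≤ p.J + P.I at h2; omega
    rcases hi.eq_or_lt with e | e
    · rw [dx66 (by omega), h.geo.zP_x hi, zP_hi (by rw [e]; exact le_rfl), e]
      exact N.last
    · rw [h.dx_mid66 e]; exact N.mesh i e
  · show p.qO P om (p.Jp P) + P.rs (p.xP P (p.Jp P)) ≤ E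
    rw [h.geo.xP_top le_rfl]
    have := Pp.Ode3.Gam_le_one (p.lO P om) (p.sO P om (p.Jp P))
    exact le_trans (add_le_add_left this _) N.ckT
  · show (if t ≤ p.sO P om p.jf then _ else (0 : ℝ)) ≤ _
    have ht' : p.sO P om p.jf < t := ht
    rw [if_neg (not_le.2 ht')]
    exact mul_nonneg nu0.le ((h.geo.sP_nn _).trans ht'.le)
  · rw [sq66]
    have e : ∀ k ∈ Finset.Ioc p.jf (p.Jp P), (p.zP P k - p.zP P (k - 1)) *
        ((p.famO P om p.jf b 0 0).G k / (ms (p.sO P om k) + (p.n : ℝ) ^ (-(1 : ℝ) / 3))) ^ 2 ≤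
        (p.zP P k - p.zP P (k - 1)) * P.hs (p.xP P k) ^ 2 / ms 1 ^ 2 := fun k hk => by
      obtain ⟨k1, k2⟩ := Finset.mem_Ioc.1 hk
      rw [h.G_hi k1, mul_div_assoc, div_pow]
      refine mul_le_mul_of_nonneg_left ?_ (sub_nonneg.2 (h.geo.zP_mono (Nat.sub_le _ _)))
      rcases le_or_gt (p.xP P k) (1 / (2 * K)) with f | f
      · rw [(h.z0 _ f).2]; simp
      · exact div_le_div_of_nonneg_left (sq_nonneg _) (by positivity)
          (pow_le_pow_left₀ m1.le (by linarith [hθ k k1 k2 f]) 2)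
    refine (Finset.sum_le_sum e).trans ?_
    rw [← Finset.sum_div, div_le_iff₀ (by positivity)]
    linarith [h.Gtp, N.g2]
  · show p.v ≤ p.HO P om (b + 0) (p.jf + 1) + 0
    rw [H_hi (Nat.lt_succ_self _), (h.low0 le_rfl).2, add_zero, add_zero]
    have a := (h.inc le_rfl (h.geo.sP_nn (p.jf + 1)) (h.geo.sP_mono (by omega))).1.1
    rw [h.mk0, sub_zero, sub_zero] at a
    refine le_trans ?_ a
    have c := h.geo.sP_mono (Nat.le_succ p.jf)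
    have m0 := h.ms0
    rw [rpow_neg_one, inv_le_iff_one_le_mul₀ n0] at m0
    have v := h.geo.v0
    have e : K * p.n * p.v ≤ p.sO P om (p.jf + 1) :=
      le_trans (by have := h.KC; gcongr) (N.vs.trans c)
    rw [div_mul_eq_mul_div, le_div_iff₀ K0]
    have f := mul_le_mul_of_nonneg_left e (h.msp le_rfl).le
    nlinarith [mul_le_mul_of_nonneg_left m0 (mul_pos v K0).le]

/-- **`VH` for the family** -/
theorem vh {E l lm Ys Y : ℝ}
    (N : ShN E (8 * K ^ 2) p P (p.sO P om p.jf) b ms den g2 u0 ue l Ys Y)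
    (V : VhN E (8 * K ^ 2) p ms den u0 l lm Y) :
    Sr.VH E (p.scl P om (8 * K ^ 2) p.jf ms den g2 u0 ue) (p.famO P om p.jf b 0 0) l lm Y :=
  { jj := rfl, jl := N.jl, l3 := N.l3, wl := V.wl, bas := V.bas, ue := N.ue, u0 := N.u0
    lm0 := V.lm0, w1 := V.w1, den := by rw [h.xs66]; exact V.dn
    dj := by rw [h.xs66]; exact ⟨V.dj, N.dj⟩
    ck := (ck66 _).trans_le N.ck, Y0 := N.Y0, Y1 := N.Y1 }

end MemD

/-- the mass is maximal where the static marks live -/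
theorem SlE.top66 {K c0 C0 η Y : ℝ} {p : Pm} {P : Pl} {om : ℕ → ℝ} {b : ℝ} {ms den : ℝ → ℝ}
    {u0 ue θ : ℝ} (S : SlE K c0 C0 η Y p P om b ms) (N : NbK K c0 C0 p)
    (D : PlE K θ p P den u0 ue) (k : ℕ) (_ : p.jf < k) (_ : k ≤ p.Jp P)
    (f : 1 / (2 * K) < p.xP P k) : ms 1 ≤ ms (p.sO P om k) := by
  obtain ⟨K0, K2, K3⟩ := N.K3
  have G := S.geo N D
  have v := G.v0
  refine S.fl _ ?_
  rcases lt_or_ge k p.J with hk | hk
  · have f' : 1 / (2 * K) < p.z k := f.trans_le ((G.xP_le k).trans_eq (zP_lo hk))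
    have g1 := (G.z_inc (Nat.zero_le k) hk).2
    have g2 := (G.s_inc (Nat.zero_le k) hk.le).1
    rw [G.sP_zero] at g2
    have k1 : (1 : ℝ) ≤ k := by exact_mod_cast (show 1 ≤ k by omega)
    have C00 : 0 ≤ C0 := by nlinarith [S.base.z0, S.base.lab.pos]
    have g3 : p.z k ≤ 2 * K * (k * p.v) := by
      have x1 := mul_le_mul_of_nonneg_right N.CK (show 0 ≤ (k : ℝ) * p.v by positivity)
      have x2 := mul_le_mul_of_nonneg_left (mul_le_mul_of_nonneg_right k1 v.le) C00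
      push_cast at g1
      nlinarith [S.base.z0]
    rw [div_lt_iff₀ (by positivity)] at f'
    push_cast at g2
    have x1 := mul_le_mul_of_nonneg_right g3 (show 0 ≤ 2 * K by positivity)
    have x2 : 8 * K ^ 2 * p.ye ≤ 8 * K ^ 2 * p.sO P om k := by nlinarith [N.ye]
    exact le_of_mul_le_mul_left x2 (by positivity)
  · have a : 8 * K ^ 2 * p.ye ≤ 8 * K ^ 2 * c0 := by nlinarith [N.ye, N.cK, N.K1]
    exact ((le_of_mul_le_mul_left a (by positivity)).trans S.base.lo).trans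
      (G.sP_J ▸ G.sP_mono hk)

end Crest.Agent.T156.Alt

end
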