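import Mathlib

/-!
# Row 156, SR: the capped deposit (helper64)

`cap f lam` is the largest minorant of `f` with increments `≤ lam k`.  For monotone `f` and a
monotone reference `q` the error `f - cap f lam` is small in `L²` in terms of `∑ (f - q)²`.
-/

set_option autoImplicit false

noncomputable section

namespace Crest.Agent.T156.Cap64

open Finset

/-- largest minorant of `f` with increments `≤ lam k` -/
def cap (f lam : ℕ → ℝ) : ℕ → ℝ
  | 0 => f 0
  | k + 1 => min (f (k + 1)) (cap f lam k + lam k)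

variable {f g lam q : ℕ → ℝ}

theorem cap_zero : cap f lam 0 = f 0 := rfl

theorem cap_succ (k : ℕ) : cap f lam (k + 1) = min (f (k + 1)) (cap f lam k + lam k) := rfl

theorem cap_le : ∀ k, cap f lam k ≤ f k
  | 0 => le_rfl
  | _ + 1 => min_le_left _ _

theorem cap_inc (k : ℕ) : cap f lam (k + 1) - cap f lam k ≤ lam k := by
  have := min_le_right (f (k + 1)) (cap f lam k + lam k)
  rw [cap_succ]; linarith

theorem cap_step {k : ℕ} (hf : f k ≤ f (k + 1)) (hl : 0 ≤ lam k) :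
    cap f lam k ≤ cap f lam (k + 1) :=
  le_min ((cap_le k).trans hf) (le_add_of_nonneg_right hl)

theorem cap_mono (hf : Monotone f) (hl : ∀ k, 0 ≤ lam k) : Monotone (cap f lam) :=
  monotone_nat_of_le_succ fun k => cap_step (hf k.le_succ) (hl k)

/-- every minorant with increments `≤ lam` lies below the cap -/
theorem le_cap {N : ℕ} (h : ∀ k ≤ N, g k ≤ f k) (hg : ∀ k < N, g (k + 1) - g k ≤ lam k) :
    ∀ k ≤ N, g k ≤ cap f lam k
  | 0, hk => h 0 hk
  | k + 1, hk => le_min (h _ hk) (by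
      have := le_cap h hg k (Nat.le_of_succ_le hk)
      have := hg k hk
      linarith)

theorem cap_nonneg (hf : ∀ k, 0 ≤ f k) (hl : ∀ k, 0 ≤ lam k) (k : ℕ) : 0 ≤ cap f lam k :=
  le_cap (g := fun _ => 0) (N := k) (fun i _ => hf i) (fun i _ => by simpa using hl i) k le_rfl

/-- no cap where the increments of `f` are allowed -/
theorem cap_eq {N : ℕ} (h : ∀ k < N, f (k + 1) - f k ≤ lam k) (k : ℕ) (hk : k ≤ N) :
    cap f lam k = f k :=
  le_antisymm (cap_le k) (le_cap (fun _ _ => le_rfl) h k hk)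

/-- restart: a large step allowance resets the cap -/
theorem cap_reset {k : ℕ} (h : f (k + 1) ≤ cap f lam k + lam k) : cap f lam (k + 1) = f (k + 1) :=
  min_eq_left h

theorem cap_le_add {N : ℕ} {ε : ℝ} (h : ∀ k ≤ N, f k ≤ g k + ε) :
    ∀ k ≤ N, cap f lam k ≤ cap g lam k + ε
  | 0, hk => h 0 hk
  | k + 1, hk => by
      have h1 := cap_le_add h k (Nat.le_of_succ_le hk)
      have h2 := h _ hk
      rw [cap_succ, cap_succ, ← min_add_add_right]
      exact min_le_min h2 (by linarith)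

/-- the cap is `1`-Lipschitz in the sup norm -/
theorem cap_lip {N : ℕ} {ε : ℝ} (h : ∀ k ≤ N, |f k - g k| ≤ ε) (k : ℕ) (hk : k ≤ N) :
    |cap f lam k - cap g lam k| ≤ ε := by
  have h1 := cap_le_add (lam := lam) (f := f) (g := g) (ε := ε)
    (fun k hk => by have := (abs_le.1 (h k hk)).2; linarith) k hk
  have h2 := cap_le_add (lam := lam) (f := g) (g := f) (ε := ε)
    (fun k hk => by have := (abs_le.1 (h k hk)).1; linarith) k hk
  exact abs_le.2 ⟨by linarith, by linarith⟩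

theorem cap_congr {N : ℕ} (h : ∀ k ≤ N, f k = g k) (k : ℕ) (hk : k ≤ N) :
    cap f lam k = cap g lam k := by
  have := cap_lip (lam := lam) (f := f) (g := g) (ε := 0) (fun k hk => by simp [h k hk]) k hk
  exact sub_eq_zero.1 (abs_nonpos_iff.1 this)

/-- the cap is continuous in the data -/
theorem continuous_cap {X : Type*} [TopologicalSpace X] {F : X → ℕ → ℝ}
    (hF : ∀ k, Continuous fun x => F x k) : ∀ k, Continuous fun x => cap (F x) lam k
  | 0 => hF 0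
  | k + 1 => (hF (k + 1)).min ((continuous_cap hF k).add continuous_const)

/-- lower envelope of `cap f lam - q` from the index `a` on -/
theorem cap_lower {G : ℕ → ℝ} {a b : ℕ} (ha : -G a ≤ cap f lam a - q a)
    (hD : ∀ k, a < k → k ≤ b → -G k ≤ f k - q k)
    (hG : ∀ k, a ≤ k → k < b → G k - G (k + 1) ≤ lam k - (q (k + 1) - q k)) (k : ℕ) (h1 : a ≤ k)
    (h2 : k ≤ b) : -G k ≤ cap f lam k - q k := by
  induction h1 with
  | refl => exact ha
  | @step k h ih =>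
    have h3 := ih (Nat.le_of_succ_le h2)
    have h4 := hD (k + 1) (Nat.lt_succ_of_le h) h2
    have h5 := hG k h h2
    have : q (k + 1) - G (k + 1) ≤ cap f lam (k + 1) := le_min (by linarith) (by linarith)
    show -G (k + 1) ≤ cap f lam (k + 1) - q (k + 1)
    linarith

/-! ### the potential -/

/-- potential in `c = cap - q` and `e = f - cap` -/
def P (c e : ℝ) : ℝ := 2 * c ^ 3 + 2 * c ^ 2 * e + c * e ^ 2 + e ^ 3 / 6

theorem P_jump (c e j : ℝ) (hj : 0 ≤ j) : P c e ≤ P c (e + j) := by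
  have : P c (e + j) - P c e = j * (2 * (c + (e + j / 2) / 2) ^ 2 + j ^ 2 / 24) := by
    unfold P; ring
  have h : 0 ≤ j * (2 * (c + (e + j / 2) / 2) ^ 2 + j ^ 2 / 24) := by positivity
  linarith

theorem P_drift (c e d : ℝ) (he : 0 ≤ e) (hd : 0 ≤ d) :
    P c (e + d) + d * e ^ 2 / 4 ≤ P (c + d) e := by
  have : P (c + d) e - P c (e + d) - d * e ^ 2 / 4 =
      d * ((2 * c + d + (e + d / 2) / 2) ^ 2 + e * d / 4 + 13 * d ^ 2 / 48) := by
    unfold P; ring
  have h : 0 ≤ d * ((2 * c + d + (e + d / 2) / 2) ^ 2 + e * d / 4 + 13 * d ^ 2 / 48) := by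
    positivity
  linarith

theorem P_ref (c e t : ℝ) (ht : 0 ≤ t) :
    P (c + t) e - t * (32 * (c + e) ^ 2 + 35 * e ^ 2 + 16 * t ^ 2) ≤ P c e := by
  have : P c e - P (c + t) e + t * (32 * (c + e) ^ 2 + 35 * e ^ 2 + 16 * t ^ 2) =
      t * (32 * (c + e) ^ 2 + 35 * e ^ 2 + 16 * t ^ 2 -
        (6 * c ^ 2 + 6 * c * t + 2 * t ^ 2 + 4 * c * e + 2 * t * e + e ^ 2)) := by
    unfold P; ring
  have h : 0 ≤ 32 * (c + e) ^ 2 + 35 * e ^ 2 + 16 * t ^ 2 -
      (6 * c ^ 2 + 6 * c * t + 2 * t ^ 2 + 4 * c * e + 2 * t * e + e ^ 2) := by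
    nlinarith [sq_nonneg (c + 2 * e), sq_nonneg (c - t), sq_nonneg (t - e), sq_nonneg (c + e),
      sq_nonneg c, sq_nonneg e, sq_nonneg t]
  nlinarith [mul_nonneg ht h]

theorem P_le (c e : ℝ) (he : 0 ≤ e) : P c e ≤ 2 * (c + e) ^ 3 := by
  have h := P_drift c 0 e le_rfl he
  simp only [zero_add] at h
  have : P (c + e) 0 = 2 * (c + e) ^ 3 := by unfold P; ring
  nlinarith

theorem le_P (c e : ℝ) (he : 0 ≤ e) : 2 * c ^ 3 ≤ P c e := by
  have h := P_jump c 0 e he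
  have : P c 0 = 2 * c ^ 3 := by unfold P; ring
  rw [zero_add] at h
  linarith

/-- the error of the cap -/
def err (f lam : ℕ → ℝ) (k : ℕ) : ℝ := f k - cap f lam k

theorem err_nonneg (k : ℕ) : 0 ≤ err f lam k := sub_nonneg.2 (cap_le k)

theorem step {k : ℕ} (hf : f k ≤ f (k + 1)) (hl : 0 ≤ lam k) (hq : q k ≤ q (k + 1)) :
    (lam k / 4 - 35 * (q (k + 1) - q k)) * err f lam (k + 1) ^ 2 ≤
      P (cap f lam (k + 1) - q (k + 1)) (err f lam (k + 1)) - P (cap f lam k - q k) (err f lam k) +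
      (q (k + 1) - q k) * (32 * (f (k + 1) - q (k + 1)) ^ 2 + 16 * (q (k + 1) - q k) ^ 2) := by
  set c := cap f lam k - q k
  set e := err f lam k with he
  set e' := err f lam (k + 1) with he'
  set d := cap f lam (k + 1) - cap f lam k with hd
  set t := q (k + 1) - q k with ht
  have d0 : 0 ≤ d := sub_nonneg.2 (cap_step hf hl)
  have e0 : 0 ≤ e' := err_nonneg _
  have h1 := P_jump c e (f (k + 1) - f k) (sub_nonneg.2 hf)
  have e1 : e + (f (k + 1) - f k) = e' + d := by simp only [he, he', hd, err]; ring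
  rw [e1] at h1
  have h2 := P_drift c e' d e0 d0
  have h3 := P_ref (cap f lam (k + 1) - q (k + 1)) e' t (sub_nonneg.2 hq)
  have e2 : cap f lam (k + 1) - q (k + 1) + t = c + d := by simp only [c, hd, ht]; ring
  have e3 : cap f lam (k + 1) - q (k + 1) + e' = f (k + 1) - q (k + 1) := by
    simp only [he', err]; ring
  rw [e2, e3] at h3
  have h4 : lam k * e' ^ 2 = d * e' ^ 2 := by
    rcases le_total (f (k + 1)) (cap f lam k + lam k) with h | h
    · have : e' = 0 := by simp only [he', err, cap_reset h, sub_self]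
      simp [this]
    · have : d = lam k := by simp only [hd, cap_succ, min_eq_right h]; ring
      rw [this]
  nlinarith

/-- **energy bound** on any window -/
theorem energy {a b : ℕ} (hab : a ≤ b) (hf : ∀ k, a ≤ k → k < b → f k ≤ f (k + 1))
    (hl : ∀ k, a ≤ k → k < b → 0 ≤ lam k) (hq : ∀ k, a ≤ k → k < b → q k ≤ q (k + 1)) :
    ∑ k ∈ Ico a b, (lam k / 4 - 35 * (q (k + 1) - q k)) * err f lam (k + 1) ^ 2 ≤
      2 * (f b - q b) ^ 3 - 2 * (cap f lam a - q a) ^ 3 + ∑ k ∈ Ico a b,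
      (q (k + 1) - q k) * (32 * (f (k + 1) - q (k + 1)) ^ 2 + 16 * (q (k + 1) - q k) ^ 2) := by
  have h := sum_le_sum fun k (hk : k ∈ Ico a b) => step (f := f) (lam := lam) (q := q)
    (hf k (mem_Ico.1 hk).1 (mem_Ico.1 hk).2) (hl k (mem_Ico.1 hk).1 (mem_Ico.1 hk).2)
    (hq k (mem_Ico.1 hk).1 (mem_Ico.1 hk).2)
  rw [sum_add_distrib, sum_Ico_sub (fun k => P (cap f lam k - q k) (err f lam k)) hab] at h
  have h1 := P_le (cap f lam b - q b) (err f lam b) (err_nonneg b)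
  have h2 := le_P (cap f lam a - q a) (err f lam a) (err_nonneg a)
  have e : cap f lam b - q b + err f lam b = f b - q b := by simp only [err]; ring
  rw [e] at h1
  linarith

/-- **sloped part**: weights `w (k+1)` of the nodes `a < k + 1 ≤ b`, `dq ≤ C w`, `Λ w ≤ lam` -/
theorem base {a b : ℕ} (hab : a ≤ b) {w : ℕ → ℝ} {C Λ v U G : ℝ} (hC : 0 ≤ C) (hΛ : 280 * C ≤ Λ)
    (hf : ∀ k, a ≤ k → k < b → f k ≤ f (k + 1)) (hw : ∀ k, a < k → k ≤ b → 0 ≤ w k ∧ w k ≤ v)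
    (hl : ∀ k, a ≤ k → k < b → Λ * w (k + 1) ≤ lam k)
    (hq : ∀ k, a ≤ k → k < b → q k ≤ q (k + 1) ∧ q (k + 1) - q k ≤ C * w (k + 1))
    (hU : f b - q b ≤ U) (hG : -G ≤ cap f lam a - q a) :
    Λ / 8 * ∑ k ∈ Ioc a b, w k * err f lam k ^ 2 ≤ 2 * U ^ 3 + 2 * G ^ 3 +
      32 * C * ∑ k ∈ Ioc a b, w k * (f k - q k) ^ 2 + 16 * C ^ 3 * v ^ 2 * ∑ k ∈ Ioc a b, w k := by
  have hΛ0 : 0 ≤ Λ := le_trans (by positivity) hΛ
  have sh : ∀ F : ℕ → ℝ, ∑ k ∈ Ioc a b, F k = ∑ k ∈ Ico a b, F (k + 1) := fun F => by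
    rw [Finset.sum_Ico_add' F a b 1, Finset.Ico_add_one_add_one_eq_Ioc]
  have h := energy (f := f) (lam := lam) (q := q) hab hf (fun k h1 h2 =>
    (mul_nonneg hΛ0 (hw (k + 1) (Nat.lt_succ_of_le h1) h2).1).trans (hl k h1 h2))
    fun k h1 h2 => (hq k h1 h2).1
  have h1 : (f b - q b) ^ 3 ≤ U ^ 3 := (Odd.strictMono_pow (by decide : Odd 3)).monotone hU
  have h2 : (-G) ^ 3 ≤ (cap f lam a - q a) ^ 3 :=
    (Odd.strictMono_pow (by decide : Odd 3)).monotone hG
  have h3 : Λ / 8 * ∑ k ∈ Ico a b, w (k + 1) * err f lam (k + 1) ^ 2 ≤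
      ∑ k ∈ Ico a b, (lam k / 4 - 35 * (q (k + 1) - q k)) * err f lam (k + 1) ^ 2 := by
    rw [mul_sum]
    refine sum_le_sum fun k hk => ?_
    obtain ⟨k1, k2⟩ := mem_Ico.1 hk
    have w0 := (hw (k + 1) (Nat.lt_succ_of_le k1) k2).1
    have := hl k k1 k2
    have := (hq k k1 k2).2
    have := mul_le_mul_of_nonneg_right hΛ w0
    rw [← mul_assoc]
    exact mul_le_mul_of_nonneg_right (by linarith) (sq_nonneg _)
  have h4 : ∑ k ∈ Ico a b, (q (k + 1) - q k) * (32 * (f (k + 1) - q (k + 1)) ^ 2 +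
      16 * (q (k + 1) - q k) ^ 2) ≤ 32 * C * ∑ k ∈ Ico a b, w (k + 1) * (f (k + 1) - q (k + 1)) ^ 2 +
      16 * C ^ 3 * v ^ 2 * ∑ k ∈ Ico a b, w (k + 1) := by
    rw [mul_sum, mul_sum, ← sum_add_distrib]
    refine sum_le_sum fun k hk => ?_
    obtain ⟨k1, k2⟩ := mem_Ico.1 hk
    obtain ⟨w0, w1⟩ := hw (k + 1) (Nat.lt_succ_of_le k1) k2
    obtain ⟨q0, q1⟩ := hq k k1 k2
    have q2 : q (k + 1) - q k ≤ C * v := q1.trans (mul_le_mul_of_nonneg_left w1 hC)
    have q3 : (q (k + 1) - q k) ^ 2 ≤ (C * v) ^ 2 := pow_le_pow_left₀ (sub_nonneg.2 q0) q2 2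
    calc _ ≤ C * w (k + 1) * (32 * (f (k + 1) - q (k + 1)) ^ 2 + 16 * (C * v) ^ 2) :=
          mul_le_mul q1 (by linarith) (by positivity) (mul_nonneg hC w0)
      _ = _ := by ring
  rw [sh, sh, sh]
  have : (-G) ^ 3 = -G ^ 3 := by ring
  linarith

/-- **one shell of the plateau** (`q` constant): `δ w ≤ lam` -/
theorem shell {a b : ℕ} (hab : a ≤ b) {w : ℕ → ℝ} {δ U G : ℝ} (hδ : 0 ≤ δ)
    (hf : ∀ k, a ≤ k → k < b → f k ≤ f (k + 1)) (hw : ∀ k, a < k → k ≤ b → 0 ≤ w k)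
    (hl : ∀ k, a ≤ k → k < b → δ * w (k + 1) ≤ lam k) (hq : ∀ k, a ≤ k → k < b → q (k + 1) = q k)
    (hU : f b - q b ≤ U) (hG : -G ≤ cap f lam a - q a) :
    δ * ∑ k ∈ Ioc a b, w k * err f lam k ^ 2 ≤ 16 * (U ^ 3 + G ^ 3) := by
  have h := base (f := f) (lam := lam) (q := q) hab (w := w) (C := 0) (Λ := δ)
    (v := ∑ k ∈ Ioc a b, w k) le_rfl (by simpa using hδ) hf (fun k h1 h2 => ⟨hw k h1 h2,
      single_le_sum (f := w) (fun i hi => hw i (mem_Ioc.1 hi).1 (mem_Ioc.1 hi).2)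
        (mem_Ioc.2 ⟨h1, h2⟩)⟩) hl (fun k h1 h2 => by simp [hq k h1 h2]) hU hG
  simp only [mul_zero, zero_mul, add_zero, ne_eq, OfNat.ofNat_ne_zero, not_false_eq_true,
    zero_pow] at h
  linarith

end Crest.Agent.T156.Cap64

end
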