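import Crest.Agent.T156.LpR_43
import Crest.Agent.T156.LpB_12

/-!
# Row 156: `L^p` bound for the overlap of a pair split at a node (helper43)
-/

set_option autoImplicit false
set_option linter.unusedSectionVars false

noncomputable section

namespace Crest.Agent.T156.Cas.LpR43

open MeasureTheory Real Set Filter Topology
open Crest.Agent.T157.E Crest.Agent.T157.Casc Crest.Agent.T157.SL
open Sy41 Lp12

variable {Ω : Type} [Fintype Ω] {w : Ω → ℝ}

/-! ### adapted weights -/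

theorem EE_wt (hw : Wt w) (L : List (Lv Ω)) (h : Ω → ℝ) {a : ℕ} {G F B : Pth Ω → ℝ} (hG : EP G)
    (aG : Lp12.Ad a G) (G0 : ∀ p, 0 ≤ G p) (hF : EP F) (hB : EP B) (H : ∀ p, CE w L a F p ≤ B p) :
    EE w L h (fun p => G p * F p) ≤ EE w L h fun p => G p * B p :=
  EE_le_CE hw L h a (hG.mul hF) (hG.mul hB) fun p => by
    rw [CE_mul L aG]; exact mul_le_mul_of_nonneg_left (H p) (G0 p)

/-- ratio form: `E (X / (D + ε))^n ≤ K c^n` -/
theorem EE_ratio (hw : Wt w) (L : List (Lv Ω)) (h : Ω → ℝ) {a n : ℕ} {X D : Pth Ω → ℝ} (hX : EP X)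
    (hD : EP D) (aD : Lp12.Ad a D) (D0 : ∀ p, 0 ≤ D p) {K c ε : ℝ} (hK : 0 ≤ K) (hc : 0 ≤ c)
    (hε : 0 < ε) (H : ∀ p, CE w L a (fun q => X q ^ n) p ≤ K * (c * D p) ^ n) :
    EE w L h (fun p => (X p / (D p + ε)) ^ n) ≤ K * c ^ n := by
  have e1 : EP fun p => (max (D p) 0 + ε)⁻¹ :=
    hD.comp_lin (φ := fun t => (max t 0 + ε)⁻¹)
      (Continuous.inv₀ (by fun_prop) fun t => by positivity) (a := ε⁻¹) (b := 0) fun t => by
        rw [abs_of_pos (by positivity), zero_mul, add_zero]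
        exact inv_anti₀ hε (le_add_of_nonneg_left (le_max_right _ _))
  simp only [max_eq_left (D0 _)] at e1
  have e : (fun p => (X p / (D p + ε)) ^ n) = fun p => (D p + ε)⁻¹ ^ n * X p ^ n := by
    funext p; rw [div_eq_inv_mul, mul_pow]
  rw [e]
  refine (EE_le_CE hw L h a ((e1.pow n).mul (hX.pow n)) (EP.const (K * c ^ n)) fun p => ?_).trans_eq
    (EE_const hw _ L h)
  have := D0 p
  rw [CE_mul L (aD.comp fun t => (t + ε)⁻¹ ^ n)]
  refine (mul_le_mul_of_nonneg_left (H p) (by positivity)).trans ?_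
  rw [mul_left_comm, ← mul_pow]
  gcongr
  rw [mul_left_comm]
  refine mul_le_of_le_one_right hc ?_
  rw [inv_mul_le_iff₀ (by positivity)]
  linarith

/-! ### separable functions of two states -/

/-- finite sums of products -/
def Sep (Ψ : (Ω → ℝ) → (Ω → ℝ) → ℝ) : Prop := ∃ (κ : Type) (_ : Fintype κ)
  (a b : κ → (Ω → ℝ) → ℝ), (∀ k, Eg (a k)) ∧ (∀ k, Eg (b k)) ∧ ∀ z z', Ψ z z' = ∑ k, a k z * b k z'

section sep
variable {Ψ Ψ' : (Ω → ℝ) → (Ω → ℝ) → ℝ}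

theorem Sep.of {κ : Type} [Fintype κ] {a b : κ → (Ω → ℝ) → ℝ} (ha : ∀ k, Eg (a k))
    (hb : ∀ k, Eg (b k)) : Sep fun z z' => ∑ k, a k z * b k z' :=
  ⟨κ, inferInstance, a, b, ha, hb, fun _ _ => rfl⟩

theorem Sep.const (c : ℝ) : Sep fun (_ _ : Ω → ℝ) => c :=
  ⟨Unit, inferInstance, fun _ _ => c, fun _ _ => 1, fun _ => Eg.const _, fun _ => Eg.const _,
    fun _ _ => by simp⟩

theorem Sep.add (h : Sep Ψ) (h' : Sep Ψ') : Sep fun z z' => Ψ z z' + Ψ' z z' := by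
  obtain ⟨κ, _, a, b, ha, hb, e⟩ := h
  obtain ⟨κ', _, a', b', ha', hb', e'⟩ := h'
  refine ⟨κ ⊕ κ', inferInstance, Sum.elim a a', Sum.elim b b', ?_, ?_, fun z z' => ?_⟩
  · rintro (k | k); exacts [ha k, ha' k]
  · rintro (k | k); exacts [hb k, hb' k]
  · simp [e, e']

theorem Sep.mul (h : Sep Ψ) (h' : Sep Ψ') : Sep fun z z' => Ψ z z' * Ψ' z z' := by
  obtain ⟨κ, _, a, b, ha, hb, e⟩ := h
  obtain ⟨κ', _, a', b', ha', hb', e'⟩ := h'
  refine ⟨κ × κ', inferInstance, fun k z => a k.1 z * a' k.2 z, fun k z => b k.1 z * b' k.2 z,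
    fun k => (ha _).mul (ha' _), fun k => (hb _).mul (hb' _), fun z z' => ?_⟩
  beta_reduce
  rw [e, e', Finset.sum_mul_sum, Fintype.sum_prod_type]
  exact Finset.sum_congr rfl fun _ _ => Finset.sum_congr rfl fun _ _ => by ring

theorem Sep.pow (h : Sep Ψ) : ∀ n : ℕ, Sep fun z z' => Ψ z z' ^ n
  | 0 => by simpa using Sep.const 1
  | n + 1 => by simpa only [pow_succ] using (h.pow n).mul h

theorem Sep.right (h : Sep Ψ) (z : Ω → ℝ) : Eg (Ψ z) := by
  obtain ⟨κ, _, a, b, -, hb, e⟩ := h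
  rw [funext (e z)]
  exact Eg.sum _ fun k _ => (hb k).const_mul _

/-- expectation over two branches started at `z` -/
def TT2 (w : Ω → ℝ) (N : List (Lv Ω)) (c c' : ℕ) (Ψ : (Ω → ℝ) → (Ω → ℝ) → ℝ) (z : Ω → ℝ) : ℝ :=
  node w N c (fun u => node w N c' (Ψ u) z) z

theorem Sep.eg_in (h : Sep Ψ) (hw : Wt w) (N : List (Lv Ω)) (c' : ℕ) (z : Ω → ℝ) :
    Eg fun u => node w N c' (Ψ u) z := by
  obtain ⟨κ, _, a, b, ha, hb, e⟩ := h
  simp only [fun u => funext (e u), node_sep hw _ hb]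
  exact Eg.sum _ fun k _ => (ha k).mul_const _

theorem TT2_sep (hw : Wt w) {κ : Type} [Fintype κ] {a b : κ → (Ω → ℝ) → ℝ} (ha : ∀ k, Eg (a k))
    (hb : ∀ k, Eg (b k)) (N : List (Lv Ω)) (c c' : ℕ) (z : Ω → ℝ) :
    TT2 w N c c' (fun u u' => ∑ k, a k u * b k u') z = ∑ k, node w N c (a k) z * node w N c' (b k) z := by
  simp only [TT2, node_sep hw _ hb]
  simp only [mul_comm (a _ _), node_sep hw _ ha]
  simp only [mul_comm]

theorem Sep.eg_TT2 (h : Sep Ψ) (hw : Wt w) (N : List (Lv Ω)) (c c' : ℕ) : Eg (TT2 w N c c' Ψ) := by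
  obtain ⟨κ, _, a, b, ha, hb, e⟩ := h
  rw [show Ψ = fun u u' => ∑ k, a k u * b k u' from funext fun u => funext (e u),
    funext (TT2_sep hw ha hb N c c')]
  exact Eg.sum _ fun k _ => ((ha k).node hw N c).mul ((hb k).node hw N c')

theorem Sep.swap (h : Sep Ψ) (hw : Wt w) (N : List (Lv Ω)) (c c' : ℕ) (z : Ω → ℝ) :
    TT2 w N c c' Ψ z = TT2 w N c' c (fun u u' => Ψ u' u) z := by
  obtain ⟨κ, _, a, b, ha, hb, e⟩ := h
  rw [show Ψ = fun u u' => ∑ k, a k u * b k u' from funext fun u => funext (e u),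
    TT2_sep hw ha hb]
  simp only [mul_comm (a _ _), TT2_sep hw hb ha]
  simp only [mul_comm]

end sep

theorem add_pow_le_w {A B : ℝ} (hA : 0 < A) (hB : 0 < B) (u v : ℝ) (n : ℕ) :
    (u + v) ^ (2 * n) ≤ (A + B) ^ (2 * n) * (A / (A + B) / A ^ (2 * n)) * u ^ (2 * n) +
      (A + B) ^ (2 * n) * (B / (A + B) / B ^ (2 * n)) * v ^ (2 * n) := by
  have h := (even_two_mul n).convexOn_pow (𝕜 := ℝ) |>.2 (mem_univ (u / A)) (mem_univ (v / B))
    (by positivity : 0 ≤ A / (A + B)) (by positivity : 0 ≤ B / (A + B)) (by field_simp)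
  simp only [smul_eq_mul] at h
  have e : u + v = (A + B) * (A / (A + B) * (u / A) + B / (A + B) * (v / B)) := by field_simp
  rw [e, mul_pow]
  refine (mul_le_mul_of_nonneg_left h (by positivity)).trans_eq ?_
  simp only [div_pow]
  ring

theorem mink_fin {A B x y d : ℝ} {k : ℕ} (hA : 0 < A) (hB : 0 < B) (hx : x ≤ A ^ k) (hy : y ≤ B ^ k)
    (h : d ≤ (A + B) ^ k * (A / (A + B) / A ^ k) * x + (A + B) ^ k * (B / (A + B) / B ^ k) * y) :
    d ≤ (A + B) ^ k := by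
  refine h.trans ((add_le_add (mul_le_mul_of_nonneg_left hx (by positivity))
    (mul_le_mul_of_nonneg_left hy (by positivity))).trans_eq ?_)
  field_simp

/-- `(m¹_c · m²_{c'} - q)^{2n}` -/
def Ps (w : Ω → ℝ) (L : List (Lv Ω)) (l₀ : Lv Ω) (q : ℝ) (n c c' : ℕ) (u u' : Ω → ℝ) : ℝ :=
  (∑ i, mv w (L.drop c) l₀ u i * mv w (L.drop c') l₀ u' i + -q) ^ (2 * n)

theorem sep_Ps (hw : Wt w) (L : List (Lv Ω)) (l₀ : Lv Ω) (q : ℝ) (n c c' : ℕ) :
    Sep (Ps w L l₀ q n c c') :=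
  ((Sep.of (eg_mv hw (L.drop c) l₀) (eg_mv hw (L.drop c') l₀)).add (Sep.const _)).pow _

/-- its mean for a pair split at the node `j` -/
def DD (w : Ω → ℝ) (L : List (Lv Ω)) (l₀ : Lv Ω) (h : Ω → ℝ) (q : ℝ) (n j c c' : ℕ) : ℝ :=
  node w L j (TT2 w (L.drop j) (c - j) (c' - j) (Ps w L l₀ q n c c')) h

theorem DD_swap (hw : Wt w) (L : List (Lv Ω)) (l₀ : Lv Ω) (h : Ω → ℝ) (q : ℝ) (n j c c' : ℕ) :
    DD w L l₀ h q n j c c' = DD w L l₀ h q n j c' c := by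
  unfold DD
  congr 1
  funext z
  rw [(sep_Ps hw L l₀ q n c c').swap hw]
  congr 1
  funext u u'
  simp only [Ps, mul_comm]

theorem rr_pow_mono (hw : Wt w) (L : List (Lv Ω)) (l₀ : Lv Ω) (h : Ω → ℝ) (n : ℕ) {c c' : ℕ}
    (hc : c ≤ c') : node w L c (fun z => rr w (L.drop c) l₀ z ^ n) h ≤
      node w L c' (fun z => rr w (L.drop c') l₀ z ^ n) h := by
  have r0 : ∀ (N : List (Lv Ω)) z, 0 ≤ rr w N l₀ z := fun _ _ =>
    Finset.sum_nonneg fun _ _ => sq_nonneg _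
  rw [← node_tower L hc]
  refine node_mono hw ((eg_rr hw _ l₀).pow n) (((eg_rr hw _ l₀).pow n).node hw _ _) (fun z => ?_) _ _ h
  refine le_trans (pow_le_pow_left₀ (r0 _ z) ?_ n) (node_pow_le hw (eg_rr hw _ l₀) (r0 _) _ _ z n)
  rw [← sub_nonneg, ← node_incr' hw L l₀ hc]
  exact node_nonneg w (fun z => Finset.sum_nonneg fun i _ => sq_nonneg _) _ _ _

/-- start of the chain: both branches at the node `c` -/
theorem DD_base (hw : Wt w) (L : List (Lv Ω)) (l₀ : Lv Ω) (h : Ω → ℝ) (q : ℝ) (n : ℕ) {j c : ℕ}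
    (hjc : j ≤ c) : DD w L l₀ h q n j c c ≤ EE w L h fun p => (|rr w (L.drop c) l₀ (p c) - q| +
      2 * ∑ i, (mv w (L.drop c) l₀ (p c) i - mv w (L.drop j) l₀ (p j) i) ^ 2) ^ (2 * n) := by
  set G : (Ω → ℝ) → (Ω → ℝ) → ℝ := fun z u => (|rr w (L.drop c) l₀ u - q| +
    2 * ∑ i, (mv w (L.drop c) l₀ u i - mv w (L.drop j) l₀ z i) ^ 2) ^ (2 * n) with hG
  have eG : ∀ z, Eg (G z) := fun z => (((eg_rr hw _ l₀).sub (Eg.const q)).abs.add
    ((Eg.sum _ fun i _ => ((eg_mv hw _ l₀ i).sub (Eg.const _)).pow 2).const_mul 2)).pow _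
  have pG : EP fun p => G (p j) (p c) := (((EP.state (eg_rr hw _ l₀) c).sub (EP.const q)).abs.add
    ((ep_sq fun i => (ep_mv hw _ l₀ c i).sub (ep_mv hw _ l₀ j i)).const_mul 2)).pow _
  have hs := sep_Ps hw L l₀ q n c c
  rw [DD, ← EE_node hw, EE_tower hw j L h fun p => G (p j) (p c)]
  refine EE_mono hw L h (EP.state (hs.eg_TT2 hw _ _ _) j) (ep_CE hw L j pG) fun p => ?_
  rw [CE_node hw L hjc (Lp12.Ad.state le_rfl fun z => z) G]
  generalize p j = z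
  have key : ∀ u u', Ps w L l₀ q n c c u u' ≤ 1 / 2 * G z u + 1 / 2 * G z u' := fun u u' => by
    have h1 := (even_two_mul n).convexOn_pow (𝕜 := ℝ) |>.2
      (mem_univ (|rr w (L.drop c) l₀ u - q| +
        2 * ∑ i, (mv w (L.drop c) l₀ u i - mv w (L.drop j) l₀ z i) ^ 2))
      (mem_univ (|rr w (L.drop c) l₀ u' - q| +
        2 * ∑ i, (mv w (L.drop c) l₀ u' i - mv w (L.drop j) l₀ z i) ^ 2))
      (by norm_num : (0 : ℝ) ≤ 1 / 2) (by norm_num : (0 : ℝ) ≤ 1 / 2) (by norm_num)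
    simp only [smul_eq_mul] at h1
    refine le_trans ?_ h1
    rw [Ps, ← (even_two_mul n).pow_abs]
    refine pow_le_pow_left₀ (abs_nonneg _) ?_ _
    simp only [rr]
    generalize mv w (L.drop c) l₀ u = a
    generalize mv w (L.drop c) l₀ u' = b
    generalize mv w (L.drop j) l₀ z = m
    have h2 : ∑ i, a i * b i = (∑ i, a i ^ 2 + ∑ i, b i ^ 2 - ∑ i, (a i - b i) ^ 2) / 2 := by
      rw [← Finset.sum_add_distrib, ← Finset.sum_sub_distrib, Finset.sum_div]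
      exact Finset.sum_congr rfl fun _ _ => by ring
    have h3 : ∑ i, (a i - b i) ^ 2 ≤ 2 * ∑ i, (a i - m i) ^ 2 + 2 * ∑ i, (b i - m i) ^ 2 := by
      rw [Finset.mul_sum, Finset.mul_sum, ← Finset.sum_add_distrib]
      exact Finset.sum_le_sum fun i _ => by nlinarith [sq_nonneg (a i + b i - 2 * m i)]
    have h4 : 0 ≤ ∑ i, (a i - b i) ^ 2 := Finset.sum_nonneg fun _ _ => sq_nonneg _
    rw [h2, abs_le]
    constructor <;> linarith [le_abs_self (∑ i, a i ^ 2 - q), neg_abs_le (∑ i, a i ^ 2 - q),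
      le_abs_self (∑ i, b i ^ 2 - q), neg_abs_le (∑ i, b i ^ 2 - q)]
  set c0 := node w (L.drop j) (c - j) (G z) z with hc0
  have k2 : ∀ u, node w (L.drop j) (c - j) (Ps w L l₀ q n c c u) z ≤ 1 / 2 * G z u + 1 / 2 * c0 :=
    fun u => by
      have := node_le2 hw (hs.right u) (Eg.const (G z u)) (eG z) (key u) (L.drop j) (c - j) z
      rwa [node_const hw] at this
  have := node_le2 hw (hs.eg_in hw (L.drop j) (c - j) z) (eG z) (Eg.const c0) k2 (L.drop j) (c - j) z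
  rw [node_const hw] at this
  exact this.trans_eq (by rw [← hc0]; ring)

section pair
variable (hw : Wt w) {L : List (Lv Ω)} (hL : Mono 0 L) (l₀ : Lv Ω) {τ : ℕ → ℝ}
  (hτ : ∀ k (hk : k < L.length), Dom L[k] l₀ (τ k))
include hw hL hτ

/-- one branch, fixed direction: from the node `c` to the leaf -/
theorem one_leaf {j c : ℕ} {θ : ℝ} (H : Win L τ j c θ) (v : l₀.ι → ℝ) (q : ℝ) (n : ℕ) {A B : ℝ}
    (hA : 0 < A) (hB : 0 < B) (z : Ω → ℝ) :
    Pf w (L.drop j) z (fun s => (l₀.fld v s + -q) ^ (2 * n)) ≤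
      (A + B) ^ (2 * n) * (A / (A + B) / A ^ (2 * n)) * node w (L.drop j) (c - j)
        (fun u => (∑ i, v i * mv w (L.drop c) l₀ u i + -q) ^ (2 * n)) z +
      (A + B) ^ (2 * n) * (B / (A + B) / B ^ (2 * n)) * (cK n * (θ * ∑ i, v i ^ 2) ^ n) := by
  have h1 := node_sum_P hw (fun s => (l₀.fld v s + -q) ^ (2 * n)) (L.drop j) (c - j) z
  rw [List.drop_drop, Nat.add_sub_cancel' H.le] at h1
  rw [Pf, ← h1]
  refine (node_le2 hw (Hess87.eg_Pf hw (L.drop c) _)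
    (((Eg.sum _ fun i _ => (eg_mv hw (L.drop c) l₀ i).const_mul (v i)).add (Eg.const _)).pow _)
    (eg_Mk hw (L.drop c) (l₀.fld v) n) (fun u => ?_) _ _ z).trans
    (add_le_add le_rfl (mul_le_mul_of_nonneg_left (er_Mk hw hL l₀ hτ H v n z) (by positivity)))
  have e : ∑ i, v i * mv w (L.drop c) l₀ u i = Pf w (L.drop c) u (l₀.fld v) := by
    simp only [Pf_fld, mul_comm]
  rw [e, Mk]
  generalize Pf w (L.drop c) u (l₀.fld v) = m
  have h2 : ∀ s, (l₀.fld v s + -q) ^ (2 * n) ≤ _ := fun s =>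
    (congrArg (· ^ (2 * n)) (by ring : l₀.fld v s + -q = (m + -q) + (l₀.fld v s - m))).trans_le
      (add_pow_le_w hA hB _ _ n)
  refine (Finset.sum_le_sum fun s _ => mul_le_mul_of_nonneg_left (h2 s)
    (P_nonneg hw _ u s)).trans_eq ?_
  simp only [mul_add, Finset.sum_add_distrib, ← Finset.sum_mul, sum_P hw, one_mul, Pf,
    mul_left_comm (P w _ u _) (_ * _), ← Finset.mul_sum]

/-- one branch, fixed direction: from the node `c` to the node `c'` -/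
theorem one_step {j c c' : ℕ} {θ : ℝ} (H : Win L τ j c θ) (hc : c ≤ c') (v : l₀.ι → ℝ) (q : ℝ)
    (n : ℕ) {A B : ℝ} (hA : 0 < A) (hB : 0 < B) (z : Ω → ℝ) :
    node w (L.drop j) (c' - j) (fun u => (∑ i, v i * mv w (L.drop c') l₀ u i + -q) ^ (2 * n)) z ≤
      (A + B) ^ (2 * n) * (A / (A + B) / A ^ (2 * n)) * node w (L.drop j) (c - j)
        (fun u => (∑ i, v i * mv w (L.drop c) l₀ u i + -q) ^ (2 * n)) z +
      (A + B) ^ (2 * n) * (B / (A + B) / B ^ (2 * n)) * (cK n * (θ * ∑ i, v i ^ 2) ^ n) := by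
  refine le_trans ?_ (one_leaf hw hL l₀ hτ H v q n hA hB z)
  have h1 := node_sum_P hw (fun s => (l₀.fld v s + -q) ^ (2 * n)) (L.drop j) (c' - j) z
  rw [List.drop_drop, Nat.add_sub_cancel' (H.le.trans hc)] at h1
  rw [Pf, ← h1]
  refine node_mono hw
    (((Eg.sum _ fun i _ => (eg_mv hw (L.drop c') l₀ i).const_mul (v i)).add (Eg.const _)).pow _)
    (Hess87.eg_Pf hw (L.drop c') _) (fun u => ?_) _ _ z
  have e : ∑ i, v i * mv w (L.drop c') l₀ u i + -q =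
      ∑ s, P w (L.drop c') u s * (l₀.fld v s + -q) := by
    simp only [mul_add, Finset.sum_add_distrib, ← Finset.sum_mul, sum_P hw, one_mul]
    congr 1
    simpa only [mul_comm, Pf] using (Pf_fld (w := w) (L.drop c') l₀ u v).symm
  rw [e]
  exact Real.pow_arith_mean_le_arith_mean_pow_of_even Finset.univ _ _
    (fun s _ => P_nonneg hw _ u s) (sum_P hw _ u) (even_two_mul n)

theorem DD_step {j c c' c'' : ℕ} {θ : ℝ} (hjc : j ≤ c) (H : Win L τ j c' θ) (hc : c' ≤ c'')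
    (h : Ω → ℝ) (q : ℝ) (n : ℕ) {A B : ℝ} (hA : 0 < A) (hB : 0 < B)
    (h1 : DD w L l₀ h q n j c c' ≤ A ^ (2 * n))
    (h2 : cK n * θ ^ n * node w L c (fun z => rr w (L.drop c) l₀ z ^ n) h ≤ B ^ (2 * n)) :
    DD w L l₀ h q n j c c'' ≤ (A + B) ^ (2 * n) := by
  refine mink_fin hA hB h1 h2 ?_
  have s1 := sep_Ps hw L l₀ q n c c'
  have s2 := sep_Ps hw L l₀ q n c c''
  have er := ((eg_rr hw (L.drop c) l₀).pow n).const_mul (cK n * θ ^ n)
  rw [← congrFun (node_const_mul w _ _ L c) h, ← node_tower L hjc]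
  refine node_le2 hw (s2.eg_TT2 hw _ _ _) (s1.eg_TT2 hw _ _ _) (er.node hw _ _) (fun z => ?_) L j h
  refine node_le2 hw (s2.eg_in hw _ _ z) (s1.eg_in hw _ _ z) er (fun u => ?_) _ _ z
  refine (one_step hw hL l₀ hτ H hc (mv w (L.drop c) l₀ u) q n hA hB z).trans_eq ?_
  rw [mul_pow θ, ← mul_assoc (cK n)]
  rfl

theorem DD_leaf {j c : ℕ} {θ Λ : ℝ} (H : Win L τ j c θ) (hΛ : ∀ x, l₀.cov x x ≤ Λ) (h : Ω → ℝ)
    (q : ℝ) (n : ℕ) {A B : ℝ} (hA : 0 < A) (hB : 0 < B)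
    (h1 : DD w L l₀ h q n j c c ≤ A ^ (2 * n)) (h2 : cK n * (θ * Λ) ^ n ≤ B ^ (2 * n)) :
    pi2 w L j (fun x y => (l₀.cov x y - q) ^ (2 * n)) h ≤ (A + B + B) ^ (2 * n) := by
  have hθ := H.pos hL l₀ hτ
  have hK := cK_pos n
  have s1 := sep_Ps hw L l₀ q n c c
  have nA : ∀ x, ∑ i, l₀.A x i ^ 2 ≤ Λ := fun x => by simpa only [Lv.cov, sq] using hΛ x
  have nm : ∀ u, ∑ i, mv w (L.drop c) l₀ u i ^ 2 ≤ Λ := fun u => by
    refine le_trans ?_ (sum_P_le hw (L.drop c) u (f := fun x => ∑ i, l₀.A x i ^ 2) fun x _ => nA x)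
    simp only [Finset.mul_sum]
    rw [Finset.sum_comm]
    exact Finset.sum_le_sum fun i _ => Real.pow_arith_mean_le_arith_mean_pow_of_even Finset.univ _ _
      (fun s _ => P_nonneg hw _ u s) (sum_P hw _ u) even_two
  have bd : ∀ v : l₀.ι → ℝ, ∑ i, v i ^ 2 ≤ Λ → cK n * (θ * ∑ i, v i ^ 2) ^ n ≤ B ^ (2 * n) :=
    fun v hv => le_trans (by gcongr) h2
  -- leaf on the first branch, node `c` on the second
  set Φ : (Ω → ℝ) → Ω → ℝ := fun u s => (l₀.fld (mv w (L.drop c) l₀ u) s + -q) ^ (2 * n) with hΦ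
  have eΦ : ∀ s, Eg fun u => Φ u s := fun s =>
    ((eg_fld l₀ (eg_mv hw _ l₀) s).add (Eg.const _)).pow _
  have e1 : ∀ z, node w (L.drop j) (c - j) (fun u => Pf w (L.drop j) z (Φ u)) z =
      ∑ s, P w (L.drop j) z s * node w (L.drop j) (c - j) (fun u => Φ u s) z := fun z =>
    node_sep hw _ eΦ _ _ z
  have g1 : Eg fun z => ∑ s, P w (L.drop j) z s * node w (L.drop j) (c - j) (fun u => Φ u s) z :=
    Eg.sum _ fun s _ => (eg_P hw _ s).mul ((eΦ s).node hw _ _)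
  have m1 : node w L j (fun z => ∑ s, P w (L.drop j) z s *
      node w (L.drop j) (c - j) (fun u => Φ u s) z) h ≤ (A + B) ^ (2 * n) := by
    refine mink_fin hA hB h1 le_rfl ?_
    have := node_le2 hw g1 (s1.eg_TT2 hw (L.drop j) (c - j) (c - j)) (Eg.const (B ^ (2 * n)))
      (a := (A + B) ^ (2 * n) * (A / (A + B) / A ^ (2 * n)))
      (b := (A + B) ^ (2 * n) * (B / (A + B) / B ^ (2 * n))) (fun z => ?_) L j h
    · rwa [node_const hw] at this
    have := node_le2 hw (Eg.sum Finset.univ fun s _ => (eΦ s).const_mul (P w (L.drop j) z s))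
      (s1.eg_in hw (L.drop j) (c - j) z) (Eg.const (B ^ (2 * n))) (fun u =>
        (one_leaf hw hL l₀ hτ H (mv w (L.drop c) l₀ u) q n hA hB z).trans (add_le_add le_rfl
          (mul_le_mul_of_nonneg_left (bd _ (nm u)) (by positivity)))) (L.drop j) (c - j) z
    rw [node_const hw] at this
    exact (e1 z).symm.trans_le this
  have hAB : 0 < A + B := by positivity
  refine mink_fin hAB hB m1 le_rfl ?_
  have := node_le2 hw (Φ := fun z => qf (P w (L.drop j) z) fun x y => (l₀.cov x y - q) ^ (2 * n))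
    (Eg.sum _ fun x _ => Eg.sum _ fun y _ => ((eg_P hw _ x).mul (eg_P hw _ y)).mul_const _) g1
    (Eg.const (B ^ (2 * n))) (a := (A + B + B) ^ (2 * n) * ((A + B) / (A + B + B) / (A + B) ^ (2 * n)))
    (b := (A + B + B) ^ (2 * n) * (B / (A + B + B) / B ^ (2 * n))) (fun z => ?_) L j h
  · rwa [node_const hw] at this
  have k : ∀ x, Pf w (L.drop j) z (fun y => (l₀.cov x y - q) ^ (2 * n)) ≤ _ := fun x =>
    (one_leaf hw hL l₀ hτ H (l₀.A x) q n hAB hB z).trans' (le_of_eq (by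
      simp only [Lv.fld, Lv.cov, sub_eq_add_neg, mul_comm])) |>.trans (add_le_add le_rfl
        (mul_le_mul_of_nonneg_left (bd _ (nA x)) (by positivity)))
  refine le_trans (le_of_eq ?_) ((Finset.sum_le_sum fun x (_ : x ∈ Finset.univ) =>
    mul_le_mul_of_nonneg_left (k x) (P_nonneg hw (L.drop j) z x)).trans_eq ?_)
  · simp only [qf, Pf, Finset.mul_sum, mul_assoc]
  · simp only [mul_add, Finset.sum_add_distrib, ← Finset.sum_mul, sum_P hw, one_mul,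
      mul_left_comm (P w _ z _) (_ * _), ← Finset.mul_sum, hΦ, Lv.fld]

theorem DD_chain {j : ℕ} {c : ℕ → ℕ} (hc : Monotone c) (hj : j ≤ c 0) {θ B : ℕ → ℝ} (h : Ω → ℝ)
    (q : ℝ) (n : ℕ) {A : ℝ} (hA : 0 < A) (hB : ∀ l, 0 < B l)
    (h1 : DD w L l₀ h q n j (c 0) (c 0) ≤ A ^ (2 * n)) : ∀ K : ℕ,
    (∀ l < K, Win L τ j (c l) (θ l)) → (∀ l < K, cK n * θ l ^ n *
      node w L (c (l + 1)) (fun z => rr w (L.drop (c (l + 1))) l₀ z ^ n) h ≤ B l ^ (2 * n)) →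
    DD w L l₀ h q n j (c K) (c K) ≤ (A + 2 * ∑ l ∈ Finset.range K, B l) ^ (2 * n)
  | 0, _, _ => by simpa using h1
  | K + 1, H, h2 => by
    have ih := DD_chain hc hj h q n hA hB h1 K (fun l hl => H l (by omega))
      fun l hl => h2 l (by omega)
    have HK := H K (by omega)
    have hθ := HK.pos hL l₀ hτ
    have hK := cK_pos n
    have p : 0 < A + 2 * ∑ l ∈ Finset.range K, B l :=
      add_pos_of_pos_of_nonneg hA (mul_nonneg two_pos.le (Finset.sum_nonneg fun l _ => (hB l).le))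
    have cK' := hc K.le_succ
    have s1 := DD_step hw hL l₀ hτ HK.le HK cK' h q n p (hB K) ih
      ((mul_le_mul_of_nonneg_left (rr_pow_mono hw L l₀ h n cK') (by positivity)).trans
        (h2 K (by omega)))
    rw [DD_swap hw] at s1
    have s2 := DD_step hw hL l₀ hτ (HK.le.trans cK') HK cK' h q n (add_pos p (hB K)) (hB K) s1
      (h2 K (by omega))
    rw [Finset.sum_range_succ]
    exact s2.trans_eq (by congr 1; ring)

/-- **overlap of a pair split at `j`**: `c 0 ≤ … ≤ c K` are nodes after `j`, each with a window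
after `j` -/
theorem pair_Lp {j : ℕ} {c : ℕ → ℕ} (hc : Monotone c) (K : ℕ) {θ B : ℕ → ℝ} {Λ : ℝ}
    (hΛ : ∀ x, l₀.cov x x ≤ Λ) (H : ∀ l ≤ K, Win L τ j (c l) (θ l)) (h : Ω → ℝ) (q : ℝ) (n : ℕ)
    {A : ℝ} (hA : 0 < A) (hB : ∀ l, 0 < B l)
    (h1 : EE w L h (fun p => (|rr w (L.drop (c 0)) l₀ (p (c 0)) - q| + 2 * ∑ i,
      (mv w (L.drop (c 0)) l₀ (p (c 0)) i - mv w (L.drop j) l₀ (p j) i) ^ 2) ^ (2 * n)) ≤
      A ^ (2 * n))
    (h2 : ∀ l < K, cK n * θ l ^ n *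
      node w L (c (l + 1)) (fun z => rr w (L.drop (c (l + 1))) l₀ z ^ n) h ≤ B l ^ (2 * n))
    (h3 : cK n * (θ K * Λ) ^ n ≤ B K ^ (2 * n)) :
    pi2 w L j (fun x y => (l₀.cov x y - q) ^ (2 * n)) h ≤
      (A + 2 * ∑ l ∈ Finset.range (K + 1), B l) ^ (2 * n) := by
  have hj := (H 0 (Nat.zero_le K)).le
  have s1 := DD_chain hw hL l₀ hτ hc hj h q n hA hB ((DD_base hw L l₀ h q n hj).trans h1) K
    (fun l hl => H l hl.le) h2
  have p : 0 < A + 2 * ∑ l ∈ Finset.range K, B l :=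
    add_pos_of_pos_of_nonneg hA (mul_nonneg two_pos.le (Finset.sum_nonneg fun l _ => (hB l).le))
  rw [Finset.sum_range_succ]
  exact (DD_leaf hw hL l₀ hτ (H K le_rfl) hΛ h q n p (hB K) s1 h3).trans_eq (by congr 1; ring)

/-- the same from `Mo` bounds -/
theorem pair_Mo {j : ℕ} {c : ℕ → ℕ} (hc : Monotone c) (K : ℕ) {θ ρ : ℕ → ℝ} {Λ C : ℝ}
    (hΛ : ∀ x, l₀.cov x x ≤ Λ) (H : ∀ l ≤ K, Win L τ j (c l) (θ l)) (h : Ω → ℝ) (q : ℝ) (n : ℕ)
    (hC : 0 < C) (hC' : cK n ≤ C ^ (2 * n)) {A A' : ℝ}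
    (h0 : Mo w L h (2 * n) (fun p => rr w (L.drop (c 0)) l₀ (p (c 0)) - q) A)
    (h1 : Mo w L h (2 * n) (fun p => ∑ i,
      (mv w (L.drop (c 0)) l₀ (p (c 0)) i - mv w (L.drop j) l₀ (p j) i) ^ 2) A')
    (h2 : ∀ l < K, Mo w L h n (fun p => rr w (L.drop (c (l + 1))) l₀ (p (c (l + 1)))) (ρ l))
    (h3 : Λ ≤ ρ K) (hΛ0 : 0 ≤ Λ) :
    pi2 w L j (fun x y => (l₀.cov x y - q) ^ (2 * n)) h ≤
      (A + 2 * A' + 2 * C * ∑ l ∈ Finset.range (K + 1), √(θ l * ρ l)) ^ (2 * n) := by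
  refine le_pow_of_forall fun ε hε => ?_
  have hK := cK_pos n
  set δ := ε / (2 * K + 3) with hδ
  have δ0 : 0 < δ := by positivity
  have m := (h0.abs.add hw (h1.const_mul' two_pos.le)).le
  simp only [(even_two_mul n).pow_abs] at m
  have hb : ∀ l ≤ K, 0 ≤ ρ l → cK n * (θ l * ρ l) ^ n ≤ (C * √(θ l * ρ l) + δ) ^ (2 * n) :=
    fun l hl h0 => by
      have := (H l hl).pos hL l₀ hτ
      refine le_trans ?_ (pow_le_pow_left₀ (by positivity) (le_add_of_nonneg_right δ0.le) _)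
      rw [mul_pow C, pow_mul (√_), sq_sqrt (by positivity)]
      gcongr
  have := pair_Lp hw hL l₀ hτ hc K (B := fun l => C * √(θ l * ρ l) + δ) hΛ H h q n
    (A := A + 2 * A' + δ) (by linarith [h0.nn, h1.nn]) (fun l => by positivity)
    (m.trans (pow_le_pow_left₀ (by linarith [h0.nn, h1.nn]) (by linarith) _)) (fun l hl => ?_) ?_
  · refine this.trans_eq ?_
    congr 1
    rw [Finset.sum_add_distrib, ← Finset.mul_sum, Finset.sum_const, Finset.card_range, nsmul_eq_mul,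
      hδ]
    push_cast
    field_simp
    ring
  · have p := (H l hl.le).pos hL l₀ hτ
    have m2 := (h2 l hl).le
    have r0 : ∀ z, 0 ≤ rr w (L.drop (c (l + 1))) l₀ z := fun _ =>
      Finset.sum_nonneg fun _ _ => sq_nonneg _
    simp only [abs_of_nonneg (r0 _)] at m2
    rw [EE_node hw fun z => rr w (L.drop (c (l + 1))) l₀ z ^ n] at m2
    refine le_trans ?_ (hb l hl.le (h2 l hl).nn)
    rw [mul_pow, ← mul_assoc]
    gcongr
  · have p := (H K le_rfl).pos hL l₀ hτ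
    refine le_trans ?_ (hb K le_rfl (hΛ0.trans h3))
    gcongr

end pair

end Crest.Agent.T156.Cas.LpR43

end
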