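import Mathlib

/-!
Row 156, block (Q), frame-free leaves of `docs/T156_57.md`, section 7:
Garsia's lemma over a positive linear functional (F2), persistence of deviations and cubic
telescoping (F1), the square-root recursion (F3).
-/

namespace Crest.Agent.T156.Qf24

open Finset

/-! ### positive linear functionals on a class of functions -/

/-- `E` is additive, homogeneous and monotone on the class `C`, an algebra of functions -/
structure PF {X : Type*} (C : (X → ℝ) → Prop) (E : (X → ℝ) → ℝ) : Prop where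
  const : ∀ c, C fun _ => c
  add : ∀ {F G}, C F → C G → C fun x => F x + G x
  mul : ∀ {F G}, C F → C G → C fun x => F x * G x
  E_add : ∀ {F G}, C F → C G → E (fun x => F x + G x) = E F + E G
  E_cmul : ∀ (c : ℝ) {F}, C F → E (fun x => c * F x) = c * E F
  E_mono : ∀ {F G}, C F → C G → (∀ x, F x ≤ G x) → E F ≤ E G

section PF
variable {X : Type*} {C : (X → ℝ) → Prop} {E : (X → ℝ) → ℝ}

theorem PF.cmul (h : PF C E) (c : ℝ) {F : X → ℝ} (hF : C F) : C fun x => c * F x :=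
  h.mul (h.const c) hF

theorem PF.sub (h : PF C E) {F G : X → ℝ} (hF : C F) (hG : C G) : C fun x => F x - G x := by
  have := h.add hF (h.cmul (-1) hG)
  simpa [sub_eq_add_neg] using this

theorem PF.pow (h : PF C E) {F : X → ℝ} (hF : C F) : ∀ k : ℕ, C fun x => F x ^ k
  | 0 => by simpa using h.const 1
  | k + 1 => by simpa [pow_succ] using h.mul (h.pow hF k) hF

theorem PF.sum (h : PF C E) {κ : Type*} (s : Finset κ) {F : κ → X → ℝ} (hF : ∀ i ∈ s, C (F i)) :
    C fun x => ∑ i ∈ s, F i x := by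
  classical
  induction s using Finset.induction_on with
  | empty => simpa using h.const 0
  | insert a s ha ih =>
    simp only [Finset.sum_insert ha]
    exact h.add (hF a (mem_insert_self _ _)) (ih fun i hi => hF i (mem_insert_of_mem hi))

theorem PF.E_zero (h : PF C E) : E (fun _ => 0) = 0 := by
  simpa using h.E_cmul 0 (h.const 0)

theorem PF.E_sub (h : PF C E) {F G : X → ℝ} (hF : C F) (hG : C G) :
    E (fun x => F x - G x) = E F - E G := by
  have := h.E_add hF (h.cmul (-1) hG)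
  rw [h.E_cmul (-1) hG] at this
  simpa [sub_eq_add_neg] using this

theorem PF.E_sum (h : PF C E) {κ : Type*} (s : Finset κ) {F : κ → X → ℝ}
    (hF : ∀ i ∈ s, C (F i)) : E (fun x => ∑ i ∈ s, F i x) = ∑ i ∈ s, E (F i) := by
  classical
  induction s using Finset.induction_on with
  | empty => simpa using h.E_zero
  | insert a s ha ih =>
    simp only [Finset.sum_insert ha]
    rw [h.E_add (hF a (mem_insert_self _ _)) (h.sum s fun i hi => hF i (mem_insert_of_mem hi)),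
      ih fun i hi => hF i (mem_insert_of_mem hi)]

theorem PF.E_nonneg (h : PF C E) {F : X → ℝ} (hF : C F) (h0 : ∀ x, 0 ≤ F x) : 0 ≤ E F := by
  simpa [h.E_zero] using h.E_mono (h.const 0) hF h0

end PF

/-- Young's inequality with natural exponents -/
theorem young {a b : ℝ} (ha : 0 ≤ a) (hb : 0 ≤ b) :
    ∀ k : ℕ, ((k : ℝ) + 1) * a * b ^ k ≤ a ^ (k + 1) + k * b ^ (k + 1)
  | 0 => by simp
  | k + 1 => by
    have ih := mul_le_mul_of_nonneg_right (young ha hb k) hb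
    have h2 : 0 ≤ (a - b) * (a ^ (k + 1) - b ^ (k + 1)) := by
      rcases le_total a b with h | h
      · exact mul_nonneg_of_nonpos_of_nonpos (by linarith)
          (by linarith [pow_le_pow_left₀ ha h (k + 1)])
      · exact mul_nonneg (by linarith) (by linarith [pow_le_pow_left₀ hb h (k + 1)])
    push_cast
    simp only [pow_succ] at *
    nlinarith

/-- the pointwise inequality behind Garsia's lemma -/
theorem garsia_pt (S : ℕ → ℝ) (N k : ℕ) (hk : 1 ≤ k) (h0 : S 0 = 0) (hS : ∀ i ≤ N, 0 ≤ S i) :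
    S N ^ (k + 1) ≤
      ((k : ℝ) + 1) * ∑ i ∈ range N, (S (i + 1) ^ k - S i ^ k) * (S N - S i) := by
  have tel := Finset.sum_range_sub
    (fun i => ((k : ℝ) + 1) * S N * S i ^ k - k * S i ^ (k + 1)) N
  have e0 : ((k : ℝ) + 1) * S N * S 0 ^ k - k * S 0 ^ (k + 1) = 0 := by
    rw [h0, zero_pow (by omega), zero_pow (by omega)]; ring
  have e1 : ((k : ℝ) + 1) * S N * S N ^ k - k * S N ^ (k + 1) = S N ^ (k + 1) := by ring
  simp only [e0, e1, sub_zero] at tel
  rw [← tel, Finset.mul_sum]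
  refine Finset.sum_le_sum fun i hi => ?_
  have hi := Finset.mem_range.1 hi
  have := young (hS i hi.le) (hS (i + 1) hi) k
  simp only [pow_succ] at *
  nlinarith

section garsia
variable {X : Type*} {C : (X → ℝ) → Prop} {E : (X → ℝ) → ℝ}

/-- **Garsia's lemma**, raw form: only the test functions `S (i+1)^k - S i^k` are used.
`V` is any function of the class above all `w i ^ (k+1)` (`W^(k+1)` or `∑ i, w i ^ (k+1)`). -/
theorem garsia (h : PF C E) (S w : ℕ → X → ℝ) (V : X → ℝ) (N k : ℕ) (hk : 1 ≤ k)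
    (hS : ∀ i ≤ N, C (S i)) (hw : ∀ i < N, C (w i)) (hV : C V) (h0 : ∀ x, S 0 x = 0)
    (mono : ∀ i < N, ∀ x, S i x ≤ S (i + 1) x)
    (V0 : ∀ x, 0 ≤ V x) (wV : ∀ i < N, ∀ x, w i x ^ (k + 1) ≤ V x)
    (H : ∀ i < N, E (fun x => (S (i + 1) x ^ k - S i x ^ k) * (S N x - S i x)) ≤
      E fun x => (S (i + 1) x ^ k - S i x ^ k) * w i x) :
    E (fun x => S N x ^ (k + 1)) ≤ ((k : ℝ) + 1) ^ (k + 1) * E V := by
  have S0 : ∀ x, ∀ i ≤ N, 0 ≤ S i x := fun x i => by
    induction i with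
    | zero => exact fun _ => (h0 x).ge
    | succ i ih => exact fun hi => (ih (by omega)).trans (mono i hi x)
  have cG : ∀ i ∈ range N, C fun x => S (i + 1) x ^ k - S i x ^ k := fun i hi =>
    have hi := Finset.mem_range.1 hi
    h.sub (h.pow (hS _ hi) k) (h.pow (hS _ hi.le) k)
  have c1 : ∀ i ∈ range N, C fun x => (S (i + 1) x ^ k - S i x ^ k) * (S N x - S i x) :=
    fun i hi => h.mul (cG i hi) (h.sub (hS N le_rfl) (hS i (Finset.mem_range.1 hi).le))
  have c2 : ∀ i ∈ range N, C fun x => (S (i + 1) x ^ k - S i x ^ k) * w i x :=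
    fun i hi => h.mul (cG i hi) (hw i (Finset.mem_range.1 hi))
  have cN := h.pow (hS N le_rfl) (k + 1)
  have s1 := h.E_mono cN (h.cmul ((k : ℝ) + 1) (h.sum _ c1)) fun x =>
    garsia_pt (fun i => S i x) N k hk (h0 x) (S0 x)
  rw [h.E_cmul _ (h.sum _ c1), h.E_sum _ c1] at s1
  have s2 := Finset.sum_le_sum fun i (hi : i ∈ range N) => H i (Finset.mem_range.1 hi)
  rw [← h.E_sum _ c2] at s2
  have s3 := h.E_mono (h.cmul (((k : ℝ) + 1) ^ 2) (h.sum _ c2))
    (h.add (h.cmul (((k : ℝ) + 1) ^ (k + 1)) hV) (h.cmul k cN)) fun x => by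
      set u := V x ^ (((k + 1 : ℕ) : ℝ)⁻¹) with hu
      have u0 : 0 ≤ u := Real.rpow_nonneg (V0 x) _
      have uV : u ^ (k + 1) = V x := Real.rpow_inv_natCast_pow (V0 x) (by omega)
      have t1 : ∑ i ∈ range N, (S (i + 1) x ^ k - S i x ^ k) * w i x ≤
          ∑ i ∈ range N, (S (i + 1) x ^ k - S i x ^ k) * u := by
        refine Finset.sum_le_sum fun i hi => ?_
        have hi := Finset.mem_range.1 hi
        refine mul_le_mul_of_nonneg_left ?_
          (sub_nonneg.2 (pow_le_pow_left₀ (S0 x i hi.le) (mono i hi x) k))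
        exact le_of_pow_le_pow_left₀ (n := k + 1) (by omega) u0 (uV ▸ wV i hi x)
      rw [← Finset.sum_mul, Finset.sum_range_sub (fun i => S i x ^ k), h0 x,
        zero_pow (by omega), sub_zero] at t1
      have t2 := young (a := ((k : ℝ) + 1) * u) (by positivity) (S0 x N le_rfl) k
      rw [mul_pow, uV] at t2
      have t3 := mul_le_mul_of_nonneg_left t1 (show 0 ≤ ((k : ℝ) + 1) ^ 2 by positivity)
      nlinarith
  rw [h.E_cmul _ (h.sum _ c2), h.E_add (h.cmul _ hV) (h.cmul _ cN), h.E_cmul _ hV,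
    h.E_cmul _ cN] at s3
  have k0 : (0 : ℝ) ≤ (k : ℝ) + 1 := by positivity
  have s4 := mul_le_mul_of_nonneg_left
    (s1.trans (mul_le_mul_of_nonneg_left s2 k0)) k0
  nlinarith

/-- **Garsia's lemma** with an adaptedness predicate: `A i` = functions known at step `i`. -/
theorem garsia_ad (h : PF C E) (A : ℕ → (X → ℝ) → Prop) (S : ℕ → X → ℝ) (W : X → ℝ) (N k : ℕ)
    (hk : 1 ≤ k) (hS : ∀ i ≤ N, C (S i)) (hW : C W) (h0 : ∀ x, S 0 x = 0)
    (mono : ∀ i < N, ∀ x, S i x ≤ S (i + 1) x) (W0 : ∀ x, 0 ≤ W x)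
    (hA : ∀ i < N, A (i + 1) fun x => S (i + 1) x ^ k - S i x ^ k)
    (H : ∀ i < N, ∀ G, A (i + 1) G → (∀ x, 0 ≤ G x) →
      E (fun x => G x * (S N x - S i x)) ≤ E fun x => G x * W x) :
    E (fun x => S N x ^ (k + 1)) ≤ ((k : ℝ) + 1) ^ (k + 1) * E fun x => W x ^ (k + 1) := by
  have S0 : ∀ x, ∀ i ≤ N, 0 ≤ S i x := fun x i => by
    induction i with
    | zero => exact fun _ => (h0 x).ge
    | succ i ih => exact fun hi => (ih (by omega)).trans (mono i hi x)
  exact garsia h S (fun _ => W) _ N k hk hS (fun _ _ => hW) (h.pow hW _) h0 mono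
    (fun x => pow_nonneg (W0 x) _) (fun _ _ _ => le_rfl) fun i hi =>
      H i hi _ (hA i hi) fun x => sub_nonneg.2 (pow_le_pow_left₀ (S0 x i hi.le) (mono i hi x) k)

/-- squared distance of two vectors -/
def d2 {ι : Type*} [Fintype ι] (a b : ι → ℝ) : ℝ := ∑ c, (a c - b c) ^ 2

theorem d2_nonneg {ι : Type*} [Fintype ι] (a b : ι → ℝ) : 0 ≤ d2 a b :=
  Finset.sum_nonneg fun _ _ => sq_nonneg _

theorem d2_le {ι : Type*} [Fintype ι] (a b z : ι → ℝ) : d2 a b ≤ 2 * d2 a z + 2 * d2 b z := by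
  simp only [d2, Finset.mul_sum, ← Finset.sum_add_distrib]
  exact Finset.sum_le_sum fun c _ => by nlinarith [sq_nonneg (a c + b c - 2 * z c)]

/-- **quadratic variation of a vector martingale in `L^(k+1)`**.  `A i` is an increasing family of
algebras containing the coordinates of `m i`; `orth` is the orthogonality of increments, in the
form `E[G |m j - m i|²] = E[G (r j - r i)]` for `G` known at step `i`.  No maximal inequality. -/
theorem garsia_qv {ι : Type*} [Fintype ι] (h : PF C E) (A : ℕ → (X → ℝ) → Prop)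
    (m : ℕ → X → ι → ℝ) (r : ℕ → X → ℝ) (N k : ℕ) (hk : 1 ≤ k)
    (AC : ∀ i ≤ N, ∀ G, A i G → C G) (Amono : ∀ i < N, ∀ G, A i G → A (i + 1) G)
    (Aconst : ∀ i ≤ N, ∀ c : ℝ, A i fun _ => c)
    (Aadd : ∀ i ≤ N, ∀ F G, A i F → A i G → A i fun x => F x + G x)
    (Amul : ∀ i ≤ N, ∀ F G, A i F → A i G → A i fun x => F x * G x)
    (Am : ∀ i ≤ N, ∀ c, A i fun x => m i x c) (hr : ∀ i ≤ N, C (r i))
    (orth : ∀ i j, i ≤ j → j ≤ N → ∀ G, A i G → (∀ x, 0 ≤ G x) →
      E (fun x => G x * d2 (m j x) (m i x)) = E fun x => G x * (r j x - r i x))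
    (z : X → ι → ℝ) (V : X → ℝ) (hV : C V) (V0 : ∀ x, 0 ≤ V x)
    (zV : ∀ i ≤ N, ∀ x, d2 (m i x) (z x) ^ (k + 1) ≤ V x) :
    E (fun x => (∑ i ∈ range N, d2 (m (i + 1) x) (m i x)) ^ (k + 1)) ≤
      (8 * ((k : ℝ) + 1)) ^ (k + 1) * E V := by
  have pA : ∀ i ≤ N, PF (A i) fun _ => 0 := fun i hi =>
    ⟨Aconst i hi, fun hF hG => Aadd i hi _ _ hF hG, fun hF hG => Amul i hi _ _ hF hG,
      fun _ _ => by simp, fun _ _ _ => by simp, fun _ _ _ => le_rfl⟩
  have Aup : ∀ j ≤ N, ∀ i ≤ j, ∀ G, A i G → A j G := fun j => by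
    induction j with
    | zero => intro _ i hi G hG; obtain rfl : i = 0 := by omega
              exact hG
    | succ j ih =>
      intro hj i hi G hG
      rcases Nat.lt_or_ge j i with h1 | h1
      · obtain rfl : i = j + 1 := by omega
        exact hG
      · exact Amono j hj G (ih (by omega) i h1 G hG)
  have Ad : ∀ l ≤ N, ∀ i ≤ l, ∀ j ≤ l, A l fun x => d2 (m j x) (m i x) := fun l hl i hi j hj =>
    (pA l hl).sum univ fun c _ => (pA l hl).pow ((pA l hl).sub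
      (Aup l hl j hj _ (Am j (hj.trans hl) c)) (Aup l hl i hi _ (Am i (hi.trans hl) c))) 2
  have AS : ∀ l ≤ N, ∀ i ≤ l, A l fun x => ∑ t ∈ range i, d2 (m (t + 1) x) (m t x) :=
    fun l hl i hi => (pA l hl).sum _ fun t ht =>
      have ht := Finset.mem_range.1 ht
      Ad l hl t (by omega) (t + 1) (by omega)
  have Cd : ∀ i ≤ N, ∀ j ≤ N, C fun x => d2 (m j x) (m i x) := fun i hi j hj =>
    AC N le_rfl _ (Ad N le_rfl i hi j hj)
  have key := garsia h (fun i x => ∑ t ∈ range i, d2 (m (t + 1) x) (m t x))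
    (fun i x => d2 (m (i + 1) x) (m i x) + d2 (m N x) (m (i + 1) x))
    (fun x => 8 ^ (k + 1) * V x) N k hk (fun i hi => AC N le_rfl _ (AS N le_rfl i hi))
    (fun i hi => h.add (Cd i hi.le (i + 1) hi) (Cd (i + 1) hi N le_rfl)) (h.cmul _ hV)
    (fun x => by simp)
    (fun i _ x => by rw [Finset.sum_range_succ]; linarith [d2_nonneg (m (i + 1) x) (m i x)])
    (fun x => mul_nonneg (by positivity) (V0 x))
    (fun i hi x => by
      set u := V x ^ (((k + 1 : ℕ) : ℝ)⁻¹) with hu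
      have u0 : 0 ≤ u := Real.rpow_nonneg (V0 x) _
      have uV : u ^ (k + 1) = V x := Real.rpow_inv_natCast_pow (V0 x) (by omega)
      have hb : ∀ j ≤ N, d2 (m j x) (z x) ≤ u := fun j hj =>
        le_of_pow_le_pow_left₀ (n := k + 1) (by omega) u0 (uV ▸ zV j hj x)
      rw [← uV, ← mul_pow]
      refine pow_le_pow_left₀ (add_nonneg (d2_nonneg _ _) (d2_nonneg _ _)) ?_ _
      linarith [d2_le (m (i + 1) x) (m i x) (z x), d2_le (m N x) (m (i + 1) x) (z x),
        hb i hi.le, hb (i + 1) hi, hb N le_rfl])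
    (fun i hi => by
      set G : X → ℝ := fun x => (∑ t ∈ range (i + 1), d2 (m (t + 1) x) (m t x)) ^ k -
        (∑ t ∈ range i, d2 (m (t + 1) x) (m t x)) ^ k with hG
      have GA : A (i + 1) G := (pA (i + 1) hi).sub
        ((pA (i + 1) hi).pow (AS (i + 1) hi (i + 1) le_rfl) k)
        ((pA (i + 1) hi).pow (AS (i + 1) hi i (by omega)) k)
      have GC : C G := AC _ hi _ GA
      have G0 : ∀ x, 0 ≤ G x := fun x => sub_nonneg.2 (pow_le_pow_left₀
        (Finset.sum_nonneg fun _ _ => d2_nonneg _ _)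
        (by rw [Finset.sum_range_succ]; linarith [d2_nonneg (m (i + 1) x) (m i x)]) k)
      have step : ∀ j, i + 1 ≤ j → j ≤ N →
          E (fun x => G x * (∑ t ∈ range j, d2 (m (t + 1) x) (m t x) -
            ∑ t ∈ range i, d2 (m (t + 1) x) (m t x))) =
          E (fun x => G x * d2 (m (i + 1) x) (m i x)) +
            E fun x => G x * (r j x - r (i + 1) x) := by
        intro j hj
        induction j, hj using Nat.le_induction with
        | base =>
          intro _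
          simp [Finset.sum_range_succ, h.E_zero]
        | succ j hj ih =>
          intro hN
          have cS : ∀ l ≤ N, C fun x => ∑ t ∈ range l, d2 (m (t + 1) x) (m t x) := fun l hl =>
            AC N le_rfl _ (AS N le_rfl l hl)
          have e1 := h.E_add (h.mul GC (h.sub (cS j (by omega)) (cS i hi.le)))
            (h.mul GC (Cd j (by omega) (j + 1) hN))
          have e2 := h.E_add (h.mul GC (h.sub (hr j (by omega)) (hr (i + 1) hi)))
            (h.mul GC (h.sub (hr (j + 1) hN) (hr j (by omega))))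
          have e3 := orth j (j + 1) (by omega) hN G (Aup j (by omega) (i + 1) hj G GA) G0
          have f1 : (fun x => G x * (∑ t ∈ range (j + 1), d2 (m (t + 1) x) (m t x) -
              ∑ t ∈ range i, d2 (m (t + 1) x) (m t x))) = fun x =>
              G x * (∑ t ∈ range j, d2 (m (t + 1) x) (m t x) -
              ∑ t ∈ range i, d2 (m (t + 1) x) (m t x)) + G x * d2 (m (j + 1) x) (m j x) := by
            funext x; rw [Finset.sum_range_succ]; ring
          have f2 : (fun x => G x * (r (j + 1) x - r (i + 1) x)) = fun x =>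
              G x * (r j x - r (i + 1) x) + G x * (r (j + 1) x - r j x) := by
            funext x; ring
          rw [f1, f2, e1, e2, ih (by omega), e3]; ring
      have e4 := h.E_add (h.mul GC (Cd i hi.le (i + 1) hi)) (h.mul GC (Cd (i + 1) hi N le_rfl))
      have e5 := orth (i + 1) N hi le_rfl G GA G0
      have := step N hi le_rfl
      simp only [hG] at this e4 e5
      simp only [mul_add]
      rw [this, e4, e5])
  rw [h.E_cmul _ hV] at key
  rw [mul_pow]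
  linarith

end garsia

/-! ### F3: the square-root recursion -/

theorem sqrt_rec (L : ℕ → ℝ) (J : ℕ) {A B : ℝ} (hA : 1 ≤ A) (hB : 1 ≤ B)
    (step : ∀ i < J, L i ≤ A * (1 + √(L (i + 1)))) (top : L J ≤ B) :
    L 0 ≤ 4 * A ^ 2 * B ^ (((2 : ℝ) ^ J)⁻¹) := by
  have key : ∀ t ≤ J, L (J - t) ≤ 4 * A ^ 2 * B ^ (((2 : ℝ) ^ t)⁻¹) := by
    intro t
    induction t with
    | zero =>
      intro _
      simp only [Nat.sub_zero, pow_zero, inv_one, Real.rpow_one]
      have : 1 ≤ 4 * A ^ 2 := by nlinarith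
      nlinarith
    | succ t ih =>
      intro ht
      have h1 := ih (by omega)
      have h2 := step (J - (t + 1)) (by omega)
      rw [show J - (t + 1) + 1 = J - t by omega] at h2
      set c := B ^ (((2 : ℝ) ^ (t + 1))⁻¹) with hc
      have c1 : 1 ≤ c := Real.one_le_rpow hB (by positivity)
      have c2 : B ^ (((2 : ℝ) ^ t)⁻¹) = c ^ 2 := by
        rw [hc, ← Real.rpow_natCast (B ^ _) 2, ← Real.rpow_mul (by linarith)]
        congr 1
        push_cast
        field_simp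
        ring
      have h3 : √(L (J - t)) ≤ 2 * A * c := by
        rw [Real.sqrt_le_left (by positivity)]
        rw [c2] at h1; nlinarith
      have h4 : 1 ≤ 2 * A * c := by nlinarith
      calc L (J - (t + 1)) ≤ A * (1 + √(L (J - t))) := h2
        _ ≤ A * (2 * A * c + 2 * A * c) := by gcongr
        _ = 4 * A ^ 2 * c := by ring
  simpa using key J le_rfl

/-! ### F1: one-sided Lipschitz sequences -/

section F1
variable {f : ℕ → ℝ} {κ : ℝ} {lo hi : ℕ}

/-- `f` does not fall faster than `κ` per step on `[lo, hi]` -/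
def Sl (f : ℕ → ℝ) (κ : ℝ) (lo hi : ℕ) : Prop := ∀ j, lo ≤ j → j < hi → f j - κ ≤ f (j + 1)

theorem Sl.le (h : Sl f κ lo hi) {i j : ℕ} (hi' : lo ≤ i) (hij : i ≤ j) (hj : j ≤ hi) :
    f i - κ * ((j : ℝ) - i) ≤ f j := by
  induction j, hij using Nat.le_induction with
  | base => simp
  | succ j hij ih =>
    have := ih (by omega)
    have := h j (by omega) (by omega)
    push_cast
    linarith

theorem Sl.le' (h : Sl f κ lo hi) (hκ : 0 ≤ κ) {i j U : ℕ} (hi' : lo ≤ i) (hij : i ≤ j)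
    (hj : j ≤ hi) (hU : j ≤ i + U) : f i - κ * U ≤ f j := by
  have h1 := h.le hi' hij hj
  have : (j : ℝ) ≤ i + U := by exact_mod_cast hU
  nlinarith

theorem sl_of {r q : ℕ → ℝ} (hr : ∀ j, lo ≤ j → j < hi → r j ≤ r (j + 1))
    (hq : ∀ j, lo ≤ j → j < hi → q (j + 1) ≤ q j + κ) : Sl (fun j => r j - q j) κ lo hi :=
  fun j h1 h2 => by have := hr j h1 h2; have := hq j h1 h2; simp only; linarith

/-- upper bound by an average over a later window -/
theorem Sl.le_avg (h : Sl f κ lo hi) (hκ : 0 ≤ κ) {j U : ℕ} (hj : lo ≤ j) (J : Finset ℕ)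
    (d : ℕ → ℝ) (hd : ∀ i ∈ J, 0 ≤ d i) (hJ : ∀ i ∈ J, j ≤ i ∧ i ≤ hi ∧ i ≤ j + U) :
    (∑ i ∈ J, d i) * (f j - κ * U) ≤ ∑ i ∈ J, d i * f i := by
  rw [Finset.sum_mul]
  exact Finset.sum_le_sum fun i hi => mul_le_mul_of_nonneg_left
    (h.le' hκ hj (hJ i hi).1 (hJ i hi).2.1 (hJ i hi).2.2) (hd i hi)

/-- lower bound by an average over an earlier window -/
theorem Sl.avg_le (h : Sl f κ lo hi) (hκ : 0 ≤ κ) {j U : ℕ} (hj : j ≤ hi) (J : Finset ℕ)
    (d : ℕ → ℝ) (hd : ∀ i ∈ J, 0 ≤ d i) (hJ : ∀ i ∈ J, lo ≤ i ∧ i ≤ j ∧ j ≤ i + U) :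
    ∑ i ∈ J, d i * f i ≤ (∑ i ∈ J, d i) * (f j + κ * U) := by
  rw [Finset.sum_mul]
  exact Finset.sum_le_sum fun i hi => mul_le_mul_of_nonneg_left
    (by linarith [h.le' hκ (hJ i hi).1 (hJ i hi).2.1 hj (hJ i hi).2.2]) (hd i hi)

/-- (D0), window form: `D f_j² ≤ 2 D (κU)² + 2 (∑_{J₁} d f² + ∑_{J₂} d f²)` when both neighbouring
windows have mass at least `D` -/
theorem Sl.sq_le_win (h : Sl f κ lo hi) (hκ : 0 ≤ κ) {j U : ℕ} (hj : lo ≤ j) (hj' : j ≤ hi)
    (J₁ J₂ : Finset ℕ) (d : ℕ → ℝ) (hd₁ : ∀ i ∈ J₁, 0 ≤ d i) (hd₂ : ∀ i ∈ J₂, 0 ≤ d i)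
    (h₁ : ∀ i ∈ J₁, lo ≤ i ∧ i ≤ j ∧ j ≤ i + U) (h₂ : ∀ i ∈ J₂, j ≤ i ∧ i ≤ hi ∧ i ≤ j + U)
    {D : ℝ} (hD : 0 ≤ D) (D₁ : D ≤ ∑ i ∈ J₁, d i) (D₂ : D ≤ ∑ i ∈ J₂, d i) :
    D * f j ^ 2 ≤ 4 * D * (κ * U) ^ 2 +
      4 * (∑ i ∈ J₁, d i * f i ^ 2 + ∑ i ∈ J₂, d i * f i ^ 2) := by
  have e0 : 0 ≤ κ * U := by positivity
  have s₁ : 0 ≤ ∑ i ∈ J₁, d i * f i ^ 2 :=
    Finset.sum_nonneg fun i hi => mul_nonneg (hd₁ i hi) (sq_nonneg _)
  have s₂ : 0 ≤ ∑ i ∈ J₂, d i * f i ^ 2 :=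
    Finset.sum_nonneg fun i hi => mul_nonneg (hd₂ i hi) (sq_nonneg _)
  by_cases c1 : 2 * (κ * U) < f j
  · have : (∑ i ∈ J₂, d i) * f j ^ 2 ≤ 4 * ∑ i ∈ J₂, d i * f i ^ 2 := by
      rw [Finset.sum_mul, Finset.mul_sum]
      refine Finset.sum_le_sum fun i hi => ?_
      have := h.le' hκ hj (h₂ i hi).1 (h₂ i hi).2.1 (h₂ i hi).2.2
      have : f j ^ 2 ≤ 4 * f i ^ 2 := by nlinarith
      nlinarith [hd₂ i hi]
    nlinarith [mul_le_mul_of_nonneg_right D₂ (sq_nonneg (f j)), mul_nonneg hD (sq_nonneg (κ * U))]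
  by_cases c2 : f j < -(2 * (κ * U))
  · have : (∑ i ∈ J₁, d i) * f j ^ 2 ≤ 4 * ∑ i ∈ J₁, d i * f i ^ 2 := by
      rw [Finset.sum_mul, Finset.mul_sum]
      refine Finset.sum_le_sum fun i hi => ?_
      have := h.le' hκ (h₁ i hi).1 (h₁ i hi).2.1 hj' (h₁ i hi).2.2
      have : f j ^ 2 ≤ 4 * f i ^ 2 := by nlinarith
      nlinarith [hd₁ i hi]
    nlinarith [mul_le_mul_of_nonneg_right D₁ (sq_nonneg (f j)), mul_nonneg hD (sq_nonneg (κ * U))]
  have : f j ^ 2 ≤ 4 * (κ * U) ^ 2 := by nlinarith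
  nlinarith [mul_le_mul_of_nonneg_left this hD]

/-- a deviation persists: `(t+1) f_j² ≤ 4 ∑ f²` as long as `2 κ t ≤ |f j|` -/
theorem Sl.persist (h : Sl f κ lo hi) (hκ : 0 ≤ κ) {j t : ℕ} (hj : lo + t ≤ j) (hj' : j + t ≤ hi)
    (ht : 2 * (κ * t) ≤ |f j|) : ((t : ℝ) + 1) * f j ^ 2 ≤ 4 * ∑ i ∈ Icc lo hi, f i ^ 2 := by
  have e0 : 0 ≤ κ * t := by positivity
  rcases le_total 0 (f j) with c | c
  · rw [abs_of_nonneg c] at ht
    have s1 : ∑ _i ∈ Icc j (j + t), f j ^ 2 ≤ ∑ i ∈ Icc j (j + t), 4 * f i ^ 2 :=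
      Finset.sum_le_sum fun i hi => by
        have hi := Finset.mem_Icc.1 hi
        have := h.le' hκ (U := t) (show lo ≤ j by omega) hi.1 (by omega) hi.2
        nlinarith
    rw [Finset.sum_const, Nat.card_Icc, show j + t + 1 - j = t + 1 by omega, nsmul_eq_mul,
      ← Finset.mul_sum] at s1
    have s2 : ∑ i ∈ Icc j (j + t), f i ^ 2 ≤ ∑ i ∈ Icc lo hi, f i ^ 2 :=
      Finset.sum_le_sum_of_subset_of_nonneg (Finset.Icc_subset_Icc (by omega) hj')
        fun _ _ _ => sq_nonneg _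
    push_cast at s1
    linarith
  · rw [abs_of_nonpos c] at ht
    have s1 : ∑ _i ∈ Icc (j - t) j, f j ^ 2 ≤ ∑ i ∈ Icc (j - t) j, 4 * f i ^ 2 :=
      Finset.sum_le_sum fun i hi => by
        have hi := Finset.mem_Icc.1 hi
        have := h.le' hκ (U := t) (show lo ≤ i by omega) hi.2 (by omega) (by omega)
        nlinarith
    rw [Finset.sum_const, Nat.card_Icc, show j + 1 - (j - t) = t + 1 by omega, nsmul_eq_mul,
      ← Finset.mul_sum] at s1
    have s2 : ∑ i ∈ Icc (j - t) j, f i ^ 2 ≤ ∑ i ∈ Icc lo hi, f i ^ 2 :=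
      Finset.sum_le_sum_of_subset_of_nonneg (Finset.Icc_subset_Icc (by omega) (by omega))
        fun _ _ _ => sq_nonneg _
    push_cast at s1
    linarith

/-- (D0), sup form: `|f j|³ ≤ (8κ + 4|f j|/(M+1)) ∑ f²` at distance `M` from the ends -/
theorem Sl.cube_le (h : Sl f κ lo hi) (hκ : 0 ≤ κ) {j M : ℕ} (hj : lo + M ≤ j) (hj' : j + M ≤ hi) :
    |f j| ^ 3 ≤ (8 * κ + 4 * |f j| / (M + 1)) * ∑ i ∈ Icc lo hi, f i ^ 2 := by
  set S := ∑ i ∈ Icc lo hi, f i ^ 2 with hS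
  have S0 : 0 ≤ S := Finset.sum_nonneg fun _ _ => sq_nonneg _
  have a0 := abs_nonneg (f j)
  have e3 : |f j| ^ 3 = |f j| * f j ^ 2 := by rw [← sq_abs]; ring
  have M0 : (0 : ℝ) < M + 1 := by positivity
  by_cases c : 2 * (κ * M) ≤ |f j|
  · have h1 := h.persist hκ hj hj' c
    have h2 : f j ^ 2 ≤ 4 * S / (M + 1) := by rw [le_div_iff₀ M0]; linarith
    have h3 := mul_le_mul_of_nonneg_left h2 a0
    have h4 : |f j| * (4 * S / (M + 1)) = 4 * |f j| / (M + 1) * S := by ring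
    nlinarith [mul_nonneg hκ S0]
  · push Not at c
    have κ0 : 0 < κ := by
      rcases hκ.eq_or_lt with h0 | h0
      · rw [← h0] at c; simp at c; linarith
      · exact h0
    set t := ⌊|f j| / (2 * κ)⌋₊ with ht
    have t1 : (t : ℝ) ≤ |f j| / (2 * κ) := Nat.floor_le (by positivity)
    have t2 : |f j| / (2 * κ) < t + 1 := Nat.lt_floor_add_one _
    rw [le_div_iff₀ (by positivity)] at t1
    rw [div_lt_iff₀ (by positivity)] at t2
    have t3 : t ≤ M := by
      have : (t : ℝ) < M := by nlinarith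
      exact_mod_cast this.le
    have h1 := h.persist hκ (t := t) (j := j) (by omega) (by omega) (by linarith)
    have h2 : |f j| * f j ^ 2 ≤ (t + 1) * (2 * κ) * f j ^ 2 :=
      mul_le_mul_of_nonneg_right t2.le (sq_nonneg _)
    have h3 := mul_le_mul_of_nonneg_left h1 (show 0 ≤ 2 * κ by positivity)
    have h4 : 0 ≤ 4 * |f j| / (M + 1) * S := by positivity
    nlinarith

theorem Sl.cube_le' (h : Sl f κ lo hi) (hκ : 0 ≤ κ) {j M : ℕ} (hj : lo + M ≤ j) (hj' : j + M ≤ hi)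
    {F : ℝ} (hF : |f j| ≤ F) :
    |f j| ^ 3 ≤ (8 * κ + 4 * F / (M + 1)) * ∑ i ∈ Icc lo hi, f i ^ 2 := by
  refine (h.cube_le hκ hj hj').trans (mul_le_mul_of_nonneg_right ?_
    (Finset.sum_nonneg fun _ _ => sq_nonneg _))
  gcongr

/-- the cubic inequalities for one increment `x → y` that falls by at most `e` -/
theorem inc_pt {x y e : ℝ} (he : 0 ≤ e) (hxy : x - e ≤ y) :
    |y - x| ^ 3 ≤ 4 * (y ^ 3 - x ^ 3) + 8 * e * (x ^ 2 + y ^ 2) ∧
      3 * (y ^ 2 * max (y - x) 0) ≤ 4 * (y ^ 3 - x ^ 3) + 6 * e * (x ^ 2 + y ^ 2) := by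
  have e2 := mul_nonneg he (add_nonneg (sq_nonneg x) (sq_nonneg y))
  rcases le_total x y with h | h
  · rw [abs_of_nonneg (sub_nonneg.2 h), max_eq_left (sub_nonneg.2 h)]
    constructor
    · nlinarith [mul_nonneg (sub_nonneg.2 h) (sq_nonneg (x + y))]
    · nlinarith [mul_nonneg (sub_nonneg.2 h) (sq_nonneg (2 * x + y))]
  · rw [abs_of_nonpos (sub_nonpos.2 h), max_eq_right (sub_nonpos.2 h)]
    have k : x ^ 3 - y ^ 3 ≤ 3 / 2 * e * (x ^ 2 + y ^ 2) := by
      have h1 : x ^ 3 - y ^ 3 = (x - y) * (x ^ 2 + x * y + y ^ 2) := by ring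
      have h2 : x ^ 2 + x * y + y ^ 2 ≤ 3 / 2 * (x ^ 2 + y ^ 2) := by nlinarith [sq_nonneg (x - y)]
      have h3 : 0 ≤ x ^ 2 + x * y + y ^ 2 := by nlinarith [sq_nonneg (x + y)]
      nlinarith [mul_le_mul (show x - y ≤ e by linarith) h2 h3 he]
    have k2 : (x - y) * (x - y) ^ 2 ≤ e * (2 * (x ^ 2 + y ^ 2)) :=
      mul_le_mul (by linarith) (by nlinarith [sq_nonneg (x + y)]) (sq_nonneg _) he
    constructor
    · nlinarith
    · nlinarith

/-- a third node: `c² B` against the two increments -/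
theorem third_pt {a b c B e : ℝ} (hB : B ≤ b - a + e) :
    3 * (c ^ 2 * B) ≤ 3 * e * c ^ 2 + 6 * (b ^ 2 * max (b - a) 0) + 4 * |c - b| ^ 3 +
      2 * |b - a| ^ 3 := by
  set p := max (b - a) 0 with hp
  have p0 : 0 ≤ p := le_max_right _ _
  have p1 : b - a ≤ p := le_max_left _ _
  have p2 : p ^ 3 ≤ |b - a| ^ 3 :=
    pow_le_pow_left₀ p0 (max_le (le_abs_self _) (abs_nonneg _)) 3
  set g := |c - b| with hg
  have g0 : 0 ≤ g := abs_nonneg _
  have g2 : g ^ 2 = (c - b) ^ 2 := sq_abs _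
  have y1 : 3 * (g ^ 2 * p) ≤ p ^ 3 + 2 * g ^ 3 := by
    have := young p0 g0 2
    norm_num at this
    nlinarith
  have c1 : c ^ 2 * B ≤ c ^ 2 * p + e * c ^ 2 := by nlinarith [sq_nonneg c]
  have c2 : c ^ 2 * p ≤ 2 * (b ^ 2 * p) + 2 * (g ^ 2 * p) := by
    rw [g2]; nlinarith [mul_nonneg p0 (sq_nonneg (c - 2 * b))]
  linarith

theorem tel_shift (g : ℕ → ℝ) {A B : ℕ} (hAB : A ≤ B) (U : ℕ) {G : ℝ}
    (hG : ∀ y, A ≤ y → y < B + U → |g y| ≤ G) :
    ∑ y ∈ Ico A B, (g (y + U) - g y) ≤ 2 * U * G := by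
  have e1 := Finset.sum_Ico_consecutive g (show A ≤ A + U by omega) (show A + U ≤ B + U by omega)
  have e2 := Finset.sum_Ico_consecutive g hAB (show B ≤ B + U by omega)
  have e3 := Finset.sum_Ico_add' g A B U
  have b1 : ∑ y ∈ Ico B (B + U), g y ≤ ∑ _y ∈ Ico B (B + U), G :=
    Finset.sum_le_sum fun y hy => have hy := Finset.mem_Ico.1 hy
      (le_abs_self _).trans (hG y (by omega) hy.2)
  have b2 : ∑ _y ∈ Ico A (A + U), -G ≤ ∑ y ∈ Ico A (A + U), g y :=
    Finset.sum_le_sum fun y hy => have hy := Finset.mem_Ico.1 hy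
      (abs_le.1 (hG y hy.1 (by omega))).1
  simp only [Finset.sum_const, Nat.card_Ico, Nat.add_sub_cancel_left, nsmul_eq_mul] at b1 b2
  rw [Finset.sum_sub_distrib, e3]
  linarith

theorem sum_shift_le (g : ℕ → ℝ) (h0 : ∀ i, 0 ≤ g i) {A B U : ℕ} (hA : lo ≤ A + U)
    (hB : B + U ≤ hi + 1) : ∑ y ∈ Ico A B, g (y + U) ≤ ∑ i ∈ Icc lo hi, g i := by
  rw [Finset.sum_Ico_add' g A B U]
  exact Finset.sum_le_sum_of_subset_of_nonneg (fun i hi => by
    simp only [Finset.mem_Ico, Finset.mem_Icc] at *; omega) fun i _ _ => h0 i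

/-- **(D1), increments**: cubes of increments over at most `U` steps, and `f² (Δf)₊` -/
theorem Sl.inc_sum (h : Sl f κ lo hi) (hκ : 0 ≤ κ) {F : ℝ}
    (hF : ∀ j, lo ≤ j → j ≤ hi → |f j| ≤ F) {A B a b U M : ℕ} (hab : a ≤ b) (hU : b ≤ a + U)
    (hA : lo + M ≤ A + a) (hB : B + b + M ≤ hi) :
    ∑ y ∈ Ico A B, |f (y + b) - f (y + a)| ^ 3 ≤
        U * (80 * κ + 32 * F / (M + 1)) * ∑ i ∈ Icc lo hi, f i ^ 2 ∧
      ∑ y ∈ Ico A B, f (y + b) ^ 2 * max (f (y + b) - f (y + a)) 0 ≤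
        U * (26 * κ + 11 * F / (M + 1)) * ∑ i ∈ Icc lo hi, f i ^ 2 := by
  set S := ∑ i ∈ Icc lo hi, f i ^ 2 with hS
  have S0 : 0 ≤ S := Finset.sum_nonneg fun _ _ => sq_nonneg _
  rcases le_or_gt A B with hAB | hAB
  swap
  · rw [Finset.Ico_eq_empty_of_le hAB.le]
    simp only [Finset.sum_empty]
    rcases le_or_gt lo hi with c | c
    · have F0 : 0 ≤ F := (abs_nonneg _).trans (hF lo le_rfl c)
      constructor <;> positivity
    · simp [hS, Finset.Icc_eq_empty_of_lt c]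
  have F0 : 0 ≤ F := (abs_nonneg _).trans (hF lo le_rfl (by omega))
  obtain ⟨t, rfl⟩ := Nat.exists_eq_add_of_le hab
  set G := (8 * κ + 4 * F / (M + 1)) * S with hG
  have G0 : 0 ≤ G := by positivity
  have t1 := tel_shift (fun y => f (y + a) ^ 3) hAB t (G := G) fun y h1 h2 => by
    rw [abs_pow]
    exact h.cube_le' hκ (by omega) (by omega) (hF _ (by omega) (by omega))
  simp only [show ∀ y, y + t + a = y + (a + t) from fun y => by omega] at t1
  have tU : (t : ℝ) ≤ U := by exact_mod_cast (show t ≤ U by omega)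
  have t2 : 2 * t * G ≤ 2 * (U * G) := by nlinarith
  have e0 : 0 ≤ κ * U := by positivity
  have pt := fun y (hy : y ∈ Ico A B) => inc_pt e0 (h.le' hκ (i := y + a) (j := y + (a + t))
    (U := U) (by have := Finset.mem_Ico.1 hy; omega) (by omega)
    (by have := Finset.mem_Ico.1 hy; omega) (by omega))
  have s1 := Finset.sum_le_sum fun y hy => (pt y hy).1
  have s2 := Finset.sum_le_sum fun y hy => (pt y hy).2
  have u0 := sum_shift_le (lo := lo) (hi := hi) (fun i => f i ^ 2) (fun _ => sq_nonneg _)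
    (A := A) (B := B) (U := a) (by omega) (by omega)
  have u1 := sum_shift_le (lo := lo) (hi := hi) (fun i => f i ^ 2) (fun _ => sq_nonneg _)
    (A := A) (B := B) (U := a + t) (by omega) (by omega)
  simp only [Finset.sum_add_distrib, ← Finset.mul_sum] at s1 s2
  have v := mul_le_mul_of_nonneg_left (add_le_add u0 u1) e0
  have w1 : 0 ≤ κ * U * S := by positivity
  have w2 : 0 ≤ U * (F / (M + 1)) * S := by positivity
  have eG : U * G = 8 * (κ * U * S) + 4 * (U * (F / (M + 1)) * S) := by rw [hG]; ring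
  have eR : U * (80 * κ + 32 * F / (M + 1)) * S =
      80 * (κ * U * S) + 32 * (U * (F / (M + 1)) * S) := by ring
  have eR' : U * (26 * κ + 11 * F / (M + 1)) * S =
      26 * (κ * U * S) + 11 * (U * (F / (M + 1)) * S) := by ring
  rw [eR, eR']
  constructor <;> nlinarith

/-- **(D1) cubic telescoping**, three offsets: `a ≤ b ≤ a + U`, `|c - b| ≤ U`.  No additive error. -/
theorem cubic_tel {r q : ℕ → ℝ} (hκ : 0 ≤ κ) (hr : ∀ j, lo ≤ j → j < hi → r j ≤ r (j + 1))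
    (hq : ∀ j, lo ≤ j → j < hi → q (j + 1) ≤ q j + κ) {F : ℝ}
    (hF : ∀ j, lo ≤ j → j ≤ hi → |r j - q j| ≤ F) {A B a b c U M : ℕ} (hab : a ≤ b)
    (hU : b ≤ a + U) (hc : c ≤ b + U) (hc' : b ≤ c + U) (hA : lo + M ≤ A + a)
    (hA' : lo + M ≤ A + c) (hB : B + b + M ≤ hi) (hB' : B + c + M ≤ hi) :
    ∑ y ∈ Ico A B, (r (y + c) - q (y + c)) ^ 2 * (r (y + b) - r (y + a)) ≤
      U * (213 * κ + 86 * F / (M + 1)) * ∑ i ∈ Icc lo hi, (r i - q i) ^ 2 := by
  have h := sl_of hr hq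
  set f : ℕ → ℝ := fun j => r j - q j with hf
  obtain ⟨i1, i2⟩ := h.inc_sum hκ hF hab hU hA hB
  have i3 : ∑ y ∈ Ico A B, |f (y + c) - f (y + b)| ^ 3 ≤
      U * (80 * κ + 32 * F / (M + 1)) * ∑ i ∈ Icc lo hi, f i ^ 2 := by
    rcases le_total b c with k | k
    · exact (h.inc_sum hκ hF k hc (by omega) hB').1
    · simp only [abs_sub_comm (f (_ + c))]
      exact (h.inc_sum hκ hF k hc' hA' hB).1
  have hq0 : Sl (fun j => -q j) κ lo hi := fun j h1 h2 => by
    have := hq j h1 h2; simp only; linarith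
  have pt : ∀ y ∈ Ico A B, 3 * (f (y + c) ^ 2 * (r (y + b) - r (y + a))) ≤
      3 * (κ * U) * f (y + c) ^ 2 + 6 * (f (y + b) ^ 2 * max (f (y + b) - f (y + a)) 0) +
        4 * |f (y + c) - f (y + b)| ^ 3 + 2 * |f (y + b) - f (y + a)| ^ 3 := fun y hy => by
    have hy := Finset.mem_Ico.1 hy
    refine third_pt ?_
    have := hq0.le' hκ (i := y + a) (j := y + b) (U := U) (by omega) (by omega) (by omega)
      (by omega)
    simp only [hf] at this ⊢
    linarith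
  have sm := Finset.sum_le_sum pt
  have u2 := sum_shift_le (lo := lo) (hi := hi) (fun i => f i ^ 2) (fun _ => sq_nonneg _)
    (A := A) (B := B) (U := c) (by omega) (by omega)
  simp only [Finset.sum_add_distrib, ← Finset.mul_sum] at sm
  have v := mul_le_mul_of_nonneg_left u2 (show 0 ≤ κ * U by positivity)
  change ∑ y ∈ Ico A B, f (y + c) ^ 2 * (r (y + b) - r (y + a)) ≤
    U * (213 * κ + 86 * F / (M + 1)) * ∑ i ∈ Icc lo hi, f i ^ 2
  set S := ∑ i ∈ Icc lo hi, f i ^ 2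
  have eR : U * (213 * κ + 86 * F / (M + 1)) * S = κ * U * S +
    2 * (U * (26 * κ + 11 * F / (M + 1)) * S) + 2 * (U * (80 * κ + 32 * F / (M + 1)) * S) := by
    ring
  rw [eR]
  linarith

/-- (D1), look-back indices -/
theorem cubic_tel' {r q : ℕ → ℝ} (hκ : 0 ≤ κ) (hr : ∀ j, lo ≤ j → j < hi → r j ≤ r (j + 1))
    (hq : ∀ j, lo ≤ j → j < hi → q (j + 1) ≤ q j + κ) {F : ℝ}
    (hF : ∀ j, lo ≤ j → j ≤ hi → |r j - q j| ≤ F) {a b U M : ℕ} (hab : a ≤ b)
    (ha : lo + M + 2 * U ≤ a) (hb : b + M ≤ hi) :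
    ∑ y ∈ Ico a b, (r y - q y) ^ 2 * (r (y - U) - r (y - 2 * U)) ≤
      U * (213 * κ + 86 * F / (M + 1)) * ∑ i ∈ Icc lo hi, (r i - q i) ^ 2 := by
  obtain ⟨A, rfl⟩ : ∃ A, a = A + 2 * U := ⟨a - 2 * U, by omega⟩
  obtain ⟨B, rfl⟩ : ∃ B, b = B + 2 * U := ⟨b - 2 * U, by omega⟩
  have := cubic_tel hκ hr hq hF (A := A) (B := B) (a := 0) (b := U) (c := 2 * U) (U := U) (M := M)
    (by omega) (by omega) (by omega) (by omega) (by omega) (by omega) (by omega) hb
  rw [← Finset.sum_Ico_add' _ A B (2 * U)]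
  simpa only [show ∀ y, y + 2 * U - U = y + U from fun y => by omega, Nat.add_sub_cancel,
    add_zero] using this

/-- from counting measure to comparable weights -/
theorem wsum_le (s t : Finset ℕ) (g g' d : ℕ → ℝ) {d₀ d₁ K : ℝ} (h₀ : 0 < d₀) (h₁ : 0 ≤ d₁)
    (hK : 0 ≤ K) (g0 : ∀ i ∈ s, 0 ≤ g i) (g0' : ∀ i ∈ t, 0 ≤ g' i) (hs : ∀ i ∈ s, d i ≤ d₁)
    (ht : ∀ i ∈ t, d₀ ≤ d i) (h : ∑ i ∈ s, g i ≤ K * ∑ i ∈ t, g' i) :
    ∑ i ∈ s, d i * g i ≤ d₁ / d₀ * K * ∑ i ∈ t, d i * g' i := by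
  have a1 : ∑ i ∈ s, d i * g i ≤ d₁ * ∑ i ∈ s, g i := by
    rw [Finset.mul_sum]
    exact Finset.sum_le_sum fun i hi => mul_le_mul_of_nonneg_right (hs i hi) (g0 i hi)
  have a2 : d₀ * ∑ i ∈ t, g' i ≤ ∑ i ∈ t, d i * g' i := by
    rw [Finset.mul_sum]
    exact Finset.sum_le_sum fun i hi => mul_le_mul_of_nonneg_right (ht i hi) (g0' i hi)
  calc _ ≤ d₁ * (K * ∑ i ∈ t, g' i) := a1.trans (mul_le_mul_of_nonneg_left h h₁)
    _ = d₁ / d₀ * K * (d₀ * ∑ i ∈ t, g' i) := by field_simp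
    _ ≤ _ := mul_le_mul_of_nonneg_left a2 (by positivity)

end F1

end Crest.Agent.T156.Qf24
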