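import Crest.Agent.T156.QDef_57
import Crest.Agent.T156.Qf_24

/-!
Row 156, block Q: from the leaves of `QDef_57` to the block statements (W), (A), (B), (Q3).
-/

set_option autoImplicit false

noncomputable section

namespace Crest.Agent.T156.Q57.Blk24

open MeasureTheory Real Finset

section basic
variable {α : Type} [MeasurableSpace α]

theorem bm_const (c : ℝ) : Bm fun _ : α => c := ⟨measurable_const, |c|, fun _ => le_rfl⟩

theorem bm_add {X Y : α → ℝ} (hX : Bm X) (hY : Bm Y) : Bm fun a => X a + Y a := by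
  obtain ⟨m1, C1, h1⟩ := hX
  obtain ⟨m2, C2, h2⟩ := hY
  exact ⟨m1.add m2, C1 + C2, fun a => (abs_add_le _ _).trans (add_le_add (h1 a) (h2 a))⟩

theorem bm_mul {X Y : α → ℝ} (hX : Bm X) (hY : Bm Y) : Bm fun a => X a * Y a := by
  obtain ⟨m1, C1, h1⟩ := hX
  obtain ⟨m2, C2, h2⟩ := hY
  exact ⟨m1.mul m2, C1 * C2, fun a => by
    rw [abs_mul]; exact mul_le_mul (h1 a) (h2 a) (abs_nonneg _) ((abs_nonneg _).trans (h1 a))⟩

theorem bm_abs {X : α → ℝ} (hX : Bm X) : Bm fun a => |X a| := by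
  obtain ⟨m1, C1, h1⟩ := hX
  exact ⟨m1.abs, C1, fun a => by rw [abs_abs]; exact h1 a⟩

theorem bm_int (μ : Measure α) [IsProbabilityMeasure μ] {X : α → ℝ} (hX : Bm X) :
    Integrable X μ := by
  obtain ⟨m1, C1, h1⟩ := hX
  exact Integrable.of_bound m1.aestronglyMeasurable C1 (Filter.Eventually.of_forall h1)

/-- the integral is a positive functional on bounded measurable functions -/
theorem pf (μ : Measure α) [IsProbabilityMeasure μ] :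
    Qf24.PF (Bm (α := α)) fun X => ∫ a, X a ∂μ :=
  ⟨bm_const, bm_add, bm_mul, fun hF hG => integral_add (bm_int μ hF) (bm_int μ hG),
    fun c _ _ => integral_const_mul c _,
    fun hF hG h => integral_mono (bm_int μ hF) (bm_int μ hG) h⟩

theorem bm_sub {X Y : α → ℝ} (hX : Bm X) (hY : Bm Y) : Bm fun a => X a - Y a := by
  simpa [sub_eq_add_neg] using bm_add hX (bm_mul (bm_const (-1)) hY)

theorem bm_pow {X : α → ℝ} (hX : Bm X) : ∀ k : ℕ, Bm fun a => X a ^ k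
  | 0 => by simpa using bm_const (α := α) 1
  | k + 1 => by simpa [pow_succ] using bm_mul (bm_pow hX k) hX

theorem bm_sum {κ : Type*} (s : Finset κ) {X : κ → α → ℝ} (h : ∀ k ∈ s, Bm (X k)) :
    Bm fun a => ∑ k ∈ s, X k a := by
  classical
  induction s using Finset.induction_on with
  | empty => simpa using bm_const (α := α) 0
  | insert b s hb ih =>
    simp only [Finset.sum_insert hb]
    exact bm_add (h b (mem_insert_self _ _)) (ih fun i hi => h i (mem_insert_of_mem hi))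

variable {μ : Measure α} {p : ℕ} {X Y : α → ℝ} {c c' : ℝ}

theorem nb_le (h : Nb μ p X c) (hc : c ≤ c') : Nb μ p X c' :=
  ⟨h.1.trans hc, h.2.trans (pow_le_pow_left₀ h.1 hc p)⟩

theorem nb_cmul (h : Nb μ p X c) {t : ℝ} (ht : 0 ≤ t) : Nb μ p (fun a => t * X a) (t * c) := by
  refine ⟨mul_nonneg ht h.1, ?_⟩
  simp only [abs_mul, mul_pow, abs_of_nonneg ht, integral_const_mul]
  exact mul_le_mul_of_nonneg_left h.2 (pow_nonneg ht _)

theorem nb_mono [IsProbabilityMeasure μ] (hX : Bm X) (hY : Bm Y) (e : ∀ a, |X a| ≤ |Y a|)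
    (h : Nb μ p Y c) : Nb μ p X c :=
  ⟨h.1, (integral_mono (bm_int μ (bm_pow (bm_abs hX) p)) (bm_int μ (bm_pow (bm_abs hY) p))
    fun a => pow_le_pow_left₀ (abs_nonneg _) (e a) p).trans h.2⟩

theorem nb_pred [IsProbabilityMeasure μ] (hX : Bm X) (h : Nb μ (p + 1) X c) : Nb μ p X c := by
  refine ⟨h.1, ?_⟩
  have i1 := bm_pow (bm_abs hX) p
  have i2 := bm_pow (bm_abs hX) (p + 1)
  have key : ∀ d : ℝ, c ≤ d → 0 < d → ∫ a, |X a| ^ p ∂μ ≤ d ^ p := fun d hd d0 => by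
    have h1 := (pf μ).E_mono (bm_mul (bm_const (((p : ℝ) + 1) * d)) i1)
      (bm_add (bm_const (d ^ (p + 1))) (bm_mul (bm_const (p : ℝ)) i2))
      fun a => Qf24.young d0.le (abs_nonneg (X a)) p
    rw [integral_add (bm_int μ (bm_const _)) (bm_int μ (bm_mul (bm_const (p : ℝ)) i2))] at h1
    simp only [integral_const_mul, integral_const, probReal_univ, one_smul] at h1
    have h2 := mul_le_mul_of_nonneg_left (nb_le h hd).2 (Nat.cast_nonneg (α := ℝ) p)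
    have h3 : ((p : ℝ) + 1) * d * ∫ a, |X a| ^ p ∂μ ≤ ((p : ℝ) + 1) * d * d ^ p := by
      rw [pow_succ] at h1 h2; nlinarith
    exact le_of_mul_le_mul_left h3 (by positivity)
  have lim : Filter.Tendsto (fun d : ℝ => d ^ p) (nhdsWithin c (Set.Ioi c)) (nhds (c ^ p)) :=
    ((continuous_pow p).tendsto c).mono_left nhdsWithin_le_nhds
  exact ge_of_tendsto lim (eventually_nhdsWithin_of_forall fun d hd =>
    key d (le_of_lt hd) (h.1.trans_lt hd))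

/-- Lyapunov -/
theorem nb_lyap [IsProbabilityMeasure μ] (hX : Bm X) {q : ℕ} (hq : q ≤ p) (h : Nb μ p X c) :
    Nb μ q X c := by
  induction p, hq using Nat.le_induction with
  | base => exact h
  | succ p _ ih => exact ih (nb_pred hX h)

theorem nb_add (hNb : NbS) [IsProbabilityMeasure μ] (hp : 1 ≤ p) (hX : Bm X) (hY : Bm Y)
    (h : Nb μ p X c) (h' : Nb μ p Y c') : Nb μ p (fun a => X a + Y a) (c + c') := by
  have := (hNb α μ p hp).1 Bool univ (fun b => if b then X else Y) (fun b => if b then c else c')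
    (fun b _ => by cases b <;> simpa) (fun b _ => by cases b <;> simpa)
  simpa using this

/-- greedy cover by windows, for any monotone subadditive notion of bound -/
theorem cover_gen {β : Type} (Bd : (β → ℝ) → ℝ → Prop) (Cl : (β → ℝ) → Prop)
    (X : ℕ → β → ℝ) (G : ℕ → ℝ) (N : ℕ → ℕ) (U b1 : ℕ) (X0 : ∀ y a, 0 ≤ X y a)
    (G0 : ∀ y, 0 ≤ G y) (cl : ∀ a b, Cl fun x => ∑ y ∈ Ico a b, X y x)
    (mono : ∀ F F' c c', Cl F → Cl F' → (∀ x, 0 ≤ F x ∧ F x ≤ F' x) → c ≤ c' → Bd F' c → Bd F c')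
    (add : ∀ F F' c c', Cl F → Cl F' → Bd F c → Bd F' c' → Bd (fun x => F x + F' x) (c + c'))
    (zero : ∀ c, 0 ≤ c → Bd (fun _ => 0) c) : ∀ (d b0 : ℕ), b1 ≤ b0 + d →
    (∀ j, b0 ≤ j → j < b1 → 1 ≤ N j ∧ N j ≤ U ∧
      Bd (fun x => ∑ y ∈ Ico j (j + N j), X y x) (∑ y ∈ Ico j (j + N j), G y)) →
    Bd (fun x => ∑ y ∈ Ico b0 b1, X y x) (∑ y ∈ Ico b0 (b1 + U), G y) := by
  intro d
  induction d with
  | zero =>
    intro b0 hb _
    rw [Finset.Ico_eq_empty_of_le (by omega)]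
    simpa using zero _ (Finset.sum_nonneg fun y _ => G0 y)
  | succ d ih =>
    intro b0 hb h
    rcases le_or_gt b1 b0 with k | k
    · exact ih b0 (by omega) h
    obtain ⟨n1, n2, n3⟩ := h b0 le_rfl k
    rcases le_or_gt b1 (b0 + N b0) with k2 | k2
    · exact mono _ _ _ _ (cl _ _) (cl _ _) (fun x => ⟨Finset.sum_nonneg fun y _ => X0 y x,
        Finset.sum_le_sum_of_subset_of_nonneg (Finset.Ico_subset_Ico le_rfl k2)
          fun y _ _ => X0 y x⟩)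
        (Finset.sum_le_sum_of_subset_of_nonneg (Finset.Ico_subset_Ico le_rfl (by omega))
          fun y _ _ => G0 y) n3
    · have := add _ _ _ _ (cl _ _) (cl _ _) n3
        (ih (b0 + N b0) (by omega) fun j h1 h2 => h j (by omega) h2)
      rw [Finset.sum_Ico_consecutive _ (by omega) (by omega)] at this
      simpa only [Finset.sum_Ico_consecutive _ (Nat.le_add_right b0 (N b0)) k2.le] using this

theorem cover_real (f G : ℕ → ℝ) (N : ℕ → ℕ) (U b0 b1 : ℕ) (f0 : ∀ y, 0 ≤ f y) (G0 : ∀ y, 0 ≤ G y)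
    (h : ∀ j, b0 ≤ j → j < b1 → 1 ≤ N j ∧ N j ≤ U ∧
      ∑ y ∈ Ico j (j + N j), f y ≤ ∑ y ∈ Ico j (j + N j), G y) :
    ∑ y ∈ Ico b0 b1, f y ≤ ∑ y ∈ Ico b0 (b1 + U), G y :=
  cover_gen (β := Unit) (fun F c => F () ≤ c) (fun _ => True) (fun y _ => f y) G N U b1
    (fun y _ => f0 y) G0 (fun _ _ => trivial)
    (fun _ _ _ _ _ _ h1 h2 h3 => ((h1 ()).2.trans h3).trans h2)
    (fun _ _ _ _ _ _ h1 h2 => add_le_add h1 h2) (fun _ h => h) b1 b0 (by omega) h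

theorem cover_nb (hNb : NbS) [IsProbabilityMeasure μ] (hp : 1 ≤ p) (X : ℕ → α → ℝ) (G : ℕ → ℝ)
    (N : ℕ → ℕ) (U b0 b1 : ℕ) (bX : ∀ y, Bm (X y)) (X0 : ∀ y a, 0 ≤ X y a) (G0 : ∀ y, 0 ≤ G y)
    (h : ∀ j, b0 ≤ j → j < b1 → 1 ≤ N j ∧ N j ≤ U ∧
      Nb μ p (fun x => ∑ y ∈ Ico j (j + N j), X y x) (∑ y ∈ Ico j (j + N j), G y)) :
    Nb μ p (fun x => ∑ y ∈ Ico b0 b1, X y x) (∑ y ∈ Ico b0 (b1 + U), G y) :=
  cover_gen (Nb μ p) Bm X G N U b1 X0 G0 (fun _ _ => bm_sum _ fun y _ => bX y)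
    (fun _ _ _ _ h1 h2 h3 h4 h5 => nb_le (nb_mono h1 h2 (fun a => by
      rw [abs_of_nonneg (h3 a).1]; exact (h3 a).2.trans (le_abs_self _)) h5) h4)
    (fun _ _ _ _ h1 h2 h3 h4 => nb_add hNb hp h1 h2 h3 h4)
    (fun c hc => ⟨hc, by
      simp only [abs_zero, zero_pow (show p ≠ 0 by omega), integral_zero]; positivity⟩)
    b1 b0 (by omega) h

end basic

section sys
variable {α ι : Type} [MeasurableSpace α] [Fintype ι] {S : Sys α ι}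

theorem rho_nonneg (j : ℕ) (a : α) : 0 ≤ S.rho j a := Finset.sum_nonneg fun _ _ => sq_nonneg _

theorem bm_rho (hS : S.Ok) (j : ℕ) : Bm (S.rho j) :=
  ⟨Finset.measurable_sum _ fun i _ => (hS.mm j i).pow_const 2, 1, fun a => by
    rw [abs_of_nonneg (rho_nonneg j a)]; exact hS.bd j a⟩

theorem aa_nonneg (hS : S.Ok) (j : ℕ) (a : α) : 0 ≤ S.aa j a := hS.psd j a _

theorem bm_aa (hS : S.Ok) (j : ℕ) : Bm (S.aa j) :=
  ⟨Finset.measurable_sum _ fun i _ => Finset.measurable_sum _ fun k _ =>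
    ((hS.mm j i).mul (hS.mm j k)).mul (hS.mA j i k), 1, fun a => by
    rw [abs_of_nonneg (aa_nonneg hS j a)]; exact (hS.bdB j a _).trans (hS.bd j a)⟩

theorem r_mono (hQ : QvS) (hS : S.Ok) (j : ℕ) : S.r j ≤ S.r (j + 1) := by
  have := (hQ α ι S hS).2.2 j (j + 1) (by omega)
  have h0 : 0 ≤ ∫ a, sq2 (S.m (j + 1) a - S.m j a) ∂S.μ :=
    integral_nonneg fun a => Finset.sum_nonneg fun _ _ => sq_nonneg _
  linarith

/-- (W) at one node -/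
theorem mom_node (hS : S.Ok) {p q j : ℕ} (hq : q ≤ p) {c M : ℝ}
    (h : Nb S.μ p (fun a => S.rho j a - c) M) : ∫ a, |S.rho j a - c| ^ q ∂S.μ ≤ M ^ q :=
  haveI := hS.prob
  (nb_lyap (bm_sub (bm_rho hS j) (bm_const c)) hq h).2

/-- (A) weighted sums of `mᵀ A m` in `L^p` -/
theorem a_sum (hNb : NbS) (hS : S.Ok) {p : ℕ} (hp : 1 ≤ p) (N : ℕ → ℕ) (U b0 b1 : ℕ)
    (u ub Gf G : ℕ → ℝ) (u0 : ∀ y, 0 ≤ u y) (G0 : ∀ y, 0 ≤ G y)
    (hN : ∀ j, b0 ≤ j → j < b1 → 1 ≤ N j ∧ N j ≤ U)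
    (hA : ∀ j, b0 ≤ j → j < b1 → Nb S.μ p (fun a => av j (N j) fun y => S.aa y a) (Gf j))
    (hu : ∀ j, b0 ≤ j → j < b1 → ∀ y ∈ Ico j (j + N j), u y ≤ ub j ∧ ub j * Gf j ≤ G y) :
    Nb S.μ p (fun a => ∑ y ∈ Ico b0 b1, u y * S.aa y a) (∑ y ∈ Ico b0 (b1 + U), G y) := by
  have := hS.prob
  refine cover_nb hNb hp (fun y a => u y * S.aa y a) G N U b0 b1
    (fun y => bm_mul (bm_const _) (bm_aa hS y)) (fun y a => mul_nonneg (u0 y) (aa_nonneg hS y a))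
    G0 fun j h1 h2 => ⟨(hN j h1 h2).1, (hN j h1 h2).2, ?_⟩
  have n1 := (hN j h1 h2).1
  have n0 : (0 : ℝ) < N j := by exact_mod_cast n1
  have ub0 : 0 ≤ ub j := (u0 j).trans (hu j h1 h2 j (Finset.mem_Ico.2 ⟨le_rfl, by omega⟩)).1
  have k := nb_cmul (hA j h1 h2) (t := ub j * N j) (by positivity)
  refine nb_le (nb_mono (bm_sum _ fun y _ => bm_mul (bm_const _) (bm_aa hS y))
    (bm_mul (bm_const _) ?_) (fun a => ?_) k) ?_
  · simp only [av, div_eq_mul_inv]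
    exact bm_mul (bm_sum _ fun y _ => bm_aa hS y) (bm_const _)
  · rw [abs_of_nonneg (Finset.sum_nonneg fun y _ => mul_nonneg (u0 y) (aa_nonneg hS y a))]
    refine le_trans ?_ (le_abs_self _)
    have : ub j * N j * av j (N j) (fun y => S.aa y a) = ∑ y ∈ Ico j (j + N j), ub j * S.aa y a := by
      rw [← Finset.mul_sum, av]; field_simp
    rw [this]
    exact Finset.sum_le_sum fun y hy =>
      mul_le_mul_of_nonneg_right (hu j h1 h2 y hy).1 (aa_nonneg hS y a)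
  · have := Finset.sum_le_sum fun y hy => (hu j h1 h2 y hy).2
    rw [Finset.sum_const, Nat.card_Ico, Nat.add_sub_cancel_left, nsmul_eq_mul] at this
    linarith

/-- (Q3) the joint bound, summed over a block -/
theorem q3_sum (hJ : JointS) (hS : S.Ok) {p q : ℕ} (hp : 1 ≤ p) (hq : q ≤ p) (N : ℕ → ℕ)
    (U b0 b1 : ℕ) (c M u ub Gf G : ℕ → ℝ) {lam : ℝ} (hl : 1 ≤ lam) (u0 : ∀ y, 0 ≤ u y)
    (G0 : ∀ y, 0 ≤ G y) (hN : ∀ j, b0 ≤ j → j < b1 → 1 ≤ N j ∧ N j ≤ U)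
    (hG : ∀ j, b0 ≤ j → j < b1 → 0 < Gf j ∧ 1 ≤ Gf j * lam ^ p)
    (hM : ∀ j, b0 ≤ j → j < b1 → ∀ y ∈ Ico j (j + N j),
      Nb S.μ p (fun a => S.rho y a - c y) (M j))
    (hA : ∀ j, b0 ≤ j → j < b1 → Nb S.μ p (fun a => av j (N j) fun y => S.aa y a) (Gf j))
    (hu : ∀ j, b0 ≤ j → j < b1 → ∀ y ∈ Ico j (j + N j),
      u y ≤ ub j ∧ ub j * (2 * (lam * M j) ^ q * Gf j) ≤ G y) :
    ∑ y ∈ Ico b0 b1, u y * ∫ a, |S.rho y a - c y| ^ q * S.aa y a ∂S.μ ≤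
      ∑ y ∈ Ico b0 (b1 + U), G y := by
  have f0 : ∀ y, 0 ≤ ∫ a, |S.rho y a - c y| ^ q * S.aa y a ∂S.μ := fun y =>
    integral_nonneg fun a => mul_nonneg (by positivity) (aa_nonneg hS y a)
  refine cover_real _ G N U b0 b1 (fun y => mul_nonneg (u0 y) (f0 y)) G0 fun j h1 h2 =>
    ⟨(hN j h1 h2).1, (hN j h1 h2).2, ?_⟩
  have n1 := (hN j h1 h2).1
  have n0 : (0 : ℝ) < N j := by exact_mod_cast n1
  have ub0 : 0 ≤ ub j := (u0 j).trans (hu j h1 h2 j (Finset.mem_Ico.2 ⟨le_rfl, by omega⟩)).1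
  have k := hJ α ι S hS p q j (N j) c (M j) (Gf j) lam n1 hq hp (hG j h1 h2).1 hl (hG j h1 h2).2
    (hM j h1 h2) (hA j h1 h2)
  rw [av, div_le_iff₀ n0] at k
  have s1 : ∑ y ∈ Ico j (j + N j), u y * ∫ a, |S.rho y a - c y| ^ q * S.aa y a ∂S.μ ≤
      ub j * ∑ y ∈ Ico j (j + N j), ∫ a, |S.rho y a - c y| ^ q * S.aa y a ∂S.μ := by
    rw [Finset.mul_sum]
    exact Finset.sum_le_sum fun y hy => mul_le_mul_of_nonneg_right (hu j h1 h2 y hy).1 (f0 y)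
  have s2 := Finset.sum_le_sum fun y hy => (hu j h1 h2 y hy).2
  rw [Finset.sum_const, Nat.card_Ico, Nat.add_sub_cancel_left, nsmul_eq_mul] at s2
  have s3 := mul_le_mul_of_nonneg_left k ub0
  nlinarith

/-- variance of a local functional of the overlaps whose gradient vanishes to order `k` -/
theorem var_loc (hS : S.Ok) (J : Finset ℕ) (g g' : ℕ → ℝ → ℝ) (c ψ : ℕ → ℝ) (k : ℕ)
    (hg : ∀ j t, HasDerivAt (g j) (g' j t) t) (hc : ∀ j, Continuous (g' j))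
    (hb : ∀ j ∈ J, ∀ t, 0 ≤ t → t ≤ 1 → |g' j t| ≤ ψ j * |t - c j| ^ k) :
    ∫ a, (∑ j ∈ J, S.dm j * g j (S.rho j a)) ^ 2 ∂S.μ -
      (∫ a, ∑ j ∈ J, S.dm j * g j (S.rho j a) ∂S.μ) ^ 2 ≤
    4 * ∑ j ∈ J, S.dm j * ψ j ^ 2 * ∫ a, |S.rho j a - c j| ^ (2 * k) * S.aa j a ∂S.μ := by
  have := hS.prob
  have h := hS.bl J g g' (fun t => t) (fun _ => 1) hg hc (fun t => hasDerivAt_id t)
    continuous_const
  refine h.trans ?_
  simp only [one_pow, one_mul]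
  have b2 : ∀ j, Bm fun a => |S.rho j a - c j| ^ (2 * k) * S.aa j a := fun j =>
    bm_mul (bm_pow (bm_abs (bm_sub (bm_rho hS j) (bm_const _))) _) (bm_aa hS j)
  have b1 : ∀ j, Bm fun a => g' j (S.rho j a) := fun j => by
    obtain ⟨C, hC⟩ := isCompact_Icc.exists_bound_of_continuousOn
      ((hc j).continuousOn (s := Set.Icc (0 : ℝ) 1))
    exact ⟨(hc j).measurable.comp (bm_rho hS j).1, C, fun a => hC _ ⟨rho_nonneg j a, hS.bd j a⟩⟩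
  rw [integral_const_mul]
  refine mul_le_mul_of_nonneg_left ?_ (by norm_num)
  simp only [← integral_const_mul]
  rw [← integral_finsetSum _ fun j _ => bm_int S.μ (bm_mul (bm_const _) (b2 j))]
  refine integral_mono (bm_int _ (bm_sum _ fun j _ =>
    bm_mul (bm_const _) (bm_mul (bm_pow (b1 j) 2) (bm_aa hS j))))
    (bm_int _ (bm_sum _ fun j _ => bm_mul (bm_const _) (b2 j))) fun a => ?_
  refine Finset.sum_le_sum fun j hj => ?_
  have e1 := pow_le_pow_left₀ (abs_nonneg _) (hb j hj _ (rho_nonneg j a) (hS.bd j a)) 2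
  rw [sq_abs, mul_pow, ← pow_mul, mul_comm k 2] at e1
  have := mul_le_mul_of_nonneg_left (mul_le_mul_of_nonneg_right e1 (aa_nonneg hS j a)) (hS.dm0 j)
  linarith

/-- the power case -/
theorem var_pow (hS : S.Ok) (J : Finset ℕ) (c φ : ℕ → ℝ) (k : ℕ) :
    ∫ a, (∑ j ∈ J, S.dm j * (φ j * (S.rho j a - c j) ^ (k + 1))) ^ 2 ∂S.μ -
      (∫ a, ∑ j ∈ J, S.dm j * (φ j * (S.rho j a - c j) ^ (k + 1)) ∂S.μ) ^ 2 ≤
    4 * ((k : ℝ) + 1) ^ 2 *
      ∑ j ∈ J, S.dm j * φ j ^ 2 * ∫ a, |S.rho j a - c j| ^ (2 * k) * S.aa j a ∂S.μ := by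
  have h := var_loc hS J (fun j t => φ j * (t - c j) ^ (k + 1))
    (fun j t => φ j * (((k + 1 : ℕ) : ℝ) * (t - c j) ^ k)) c (fun j => |φ j| * (k + 1)) k
    (fun j t => by
      simpa using (((hasDerivAt_id t).sub_const (c j)).pow (k + 1)).const_mul (φ j))
    (fun j => by fun_prop)
    (fun j _ t _ _ => by
      rw [abs_mul, abs_mul, abs_pow, Nat.abs_cast]
      push_cast
      exact le_of_eq (by ring))
  refine h.trans (le_of_eq ?_)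
  rw [mul_assoc, Finset.mul_sum _ _ (((k : ℝ) + 1) ^ 2)]
  congr 1
  exact Finset.sum_congr rfl fun j _ => by rw [mul_pow, sq_abs]; ring

/-- what a block delivers: windows `N`, tolerance `τ`, on the nodes `[a0, a1]` -/
structure Out (S : Sys α ι) (p a0 a1 U : ℕ) (v A G Tt Tm l0 : ℝ) (c τ : ℕ → ℝ) (N : ℕ → ℕ) :
    Prop where
  v0 : 0 < v
  A0 : 0 ≤ A
  G0 : 0 < G
  N1 : ∀ j, 1 ≤ N j ∧ N j ≤ U
  Nv : ∀ j, N j * v ≤ τ j
  lo : ∀ j, l0 ≤ τ j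
  near : ∀ j, ∀ y ∈ Ico j (j + N j), τ y ≤ 2 * τ j ∧ τ j ≤ 2 * τ y
  sum2 : ∑ j ∈ Icc a0 a1, τ j ^ 2 ≤ Tt
  sup : ∀ j, a0 ≤ j → j ≤ a1 → τ j ≤ Tm
  loc : ∀ j, a0 ≤ j → j ≤ a1 → Nb S.μ p (fun a => S.rho j a - c j) (A * τ j)
  ric : ∀ j, a0 ≤ j → j ≤ a1 → Nb S.μ p (fun a => av j (N j) fun y => S.aa y a) G

namespace Out

variable {p a0 a1 U : ℕ} {v A G Tt Tm l0 : ℝ} {c τ : ℕ → ℝ} {N : ℕ → ℕ}

theorem tau0 (h : Out S p a0 a1 U v A G Tt Tm l0 c τ N) (j : ℕ) : 0 ≤ τ j :=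
  le_trans (mul_nonneg (Nat.cast_nonneg _) h.v0.le) (h.Nv j)

theorem sum_pow (h : Out S p a0 a1 U v A G Tt Tm l0 c τ N) (q : ℕ) {b0 b1 : ℕ} (h0 : a0 ≤ b0)
    (h1 : b1 ≤ a1 + 1) (hT : 0 ≤ Tm) : ∑ y ∈ Ico b0 b1, τ y ^ (q + 2) ≤ Tm ^ q * Tt := by
  calc ∑ y ∈ Ico b0 b1, τ y ^ (q + 2) ≤ ∑ y ∈ Ico b0 b1, Tm ^ q * τ y ^ 2 :=
        Finset.sum_le_sum fun y hy => by
          have hy := Finset.mem_Ico.1 hy
          rw [pow_add]
          exact mul_le_mul_of_nonneg_right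
            (pow_le_pow_left₀ (h.tau0 y) (h.sup y (by omega) (by omega)) q) (sq_nonneg _)
    _ ≤ Tm ^ q * ∑ y ∈ Icc a0 a1, τ y ^ 2 := by
        rw [← Finset.mul_sum]
        exact mul_le_mul_of_nonneg_left (Finset.sum_le_sum_of_subset_of_nonneg (fun y hy => by
          simp only [Finset.mem_Ico, Finset.mem_Icc] at *; omega) fun _ _ _ => sq_nonneg _)
          (pow_nonneg hT _)
    _ ≤ _ := mul_le_mul_of_nonneg_left h.sum2 (pow_nonneg hT _)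

/-- **(W)** -/
theorem W (h : Out S p a0 a1 U v A G Tt Tm l0 c τ N) (hS : S.Ok) {q b0 b1 : ℕ} (hq : q + 2 ≤ p)
    (h0 : a0 ≤ b0) (h1 : b1 ≤ a1 + 1) (hT : 0 ≤ Tm) (u : ℕ → ℝ) {Dm : ℝ} (hD : 0 ≤ Dm)
    (hu : ∀ y ∈ Ico b0 b1, u y ≤ Dm) :
    ∑ y ∈ Ico b0 b1, u y * ∫ a, |S.rho y a - c y| ^ (q + 2) ∂S.μ ≤
      Dm * A ^ (q + 2) * (Tm ^ q * Tt) := by
  calc _ ≤ ∑ y ∈ Ico b0 b1, Dm * A ^ (q + 2) * τ y ^ (q + 2) := Finset.sum_le_sum fun y hy => by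
        have hy' := Finset.mem_Ico.1 hy
        have := mom_node hS hq (h.loc y (by omega) (by omega))
        rw [mul_assoc, ← mul_pow]
        exact mul_le_mul (hu y hy) this (integral_nonneg fun a => by positivity) hD
    _ ≤ _ := by
        rw [← Finset.mul_sum]
        exact mul_le_mul_of_nonneg_left (h.sum_pow q h0 h1 hT)
          (mul_nonneg hD (pow_nonneg h.A0 _))

/-- **(A)** on any interval; `U'` bounds the windows -/
theorem Asum (h : Out S p a0 a1 U v A G Tt Tm l0 c τ N) (hNb : NbS) (hS : S.Ok) (hp : 1 ≤ p)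
    {b0 b1 U' : ℕ} (h0 : a0 ≤ b0) (h01 : b0 ≤ b1) (h1 : b1 ≤ a1 + 1)
    (hU : ∀ j, b0 ≤ j → j < b1 → N j ≤ U') (u : ℕ → ℝ) (u0 : ∀ y, 0 ≤ u y) {Dm : ℝ} (hD : 0 ≤ Dm)
    (hu : ∀ y ∈ Ico b0 (b1 + U'), u y ≤ Dm) :
    Nb S.μ p (fun a => ∑ y ∈ Ico b0 b1, u y * S.aa y a) (((b1 : ℝ) - b0 + U') * (Dm * G)) := by
  have := a_sum hNb hS hp N U' b0 b1 u (fun _ => Dm) (fun _ => G) (fun _ => Dm * G) u0
    (fun _ => mul_nonneg hD h.G0.le) (fun j a b => ⟨(h.N1 j).1, hU j a b⟩)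
    (fun j a b => h.ric j (by omega) (by omega)) fun j a b y hy =>
      ⟨hu y (by have := hU j a b; simp only [Finset.mem_Ico] at *; omega), le_rfl⟩
  rw [Finset.sum_const, Nat.card_Ico, nsmul_eq_mul, Nat.cast_sub (by omega)] at this
  push_cast at this
  convert this using 2
  ring

theorem N_le (h : Out S p a0 a1 U v A G Tt Tm l0 c τ N) {U' : ℕ} (hU : Tm ≤ U' * v) (j : ℕ)
    (h0 : a0 ≤ j) (h1 : j ≤ a1) : N j ≤ U' := by
  have := ((h.Nv j).trans (h.sup j h0 h1)).trans hU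
  exact_mod_cast le_of_mul_le_mul_right this h.v0

/-- **(Q3)** -/
theorem Q3 (h : Out S p a0 a1 U v A G Tt Tm l0 c τ N) (hJ : JointS) (hS : S.Ok) {q b0 b1 : ℕ}
    (hq : q + 2 ≤ p) (h0 : a0 ≤ b0) (h1 : b1 + U ≤ a1 + 1) (hT : 0 ≤ Tm) {lam : ℝ} (hl : 1 ≤ lam)
    (hG : 1 ≤ G * lam ^ p) (u : ℕ → ℝ) (u0 : ∀ y, 0 ≤ u y) {Dm : ℝ} (hD : 0 ≤ Dm)
    (hu : ∀ y ∈ Ico b0 (b1 + U), u y ≤ Dm) :
    ∑ y ∈ Ico b0 b1, u y * ∫ a, |S.rho y a - c y| ^ (q + 2) * S.aa y a ∂S.μ ≤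
      2 * Dm * G * (4 * lam * A) ^ (q + 2) * (Tm ^ q * Tt) := by
  have A0 := h.A0
  have G0 := h.G0
  have l0' : 0 ≤ lam := by linarith
  have k := q3_sum hJ hS (p := p) (q := q + 2) (by omega) hq N U b0 b1 c (fun j => A * (2 * τ j)) u
    (fun _ => Dm) (fun _ => G) (fun y => 2 * Dm * G * (4 * lam * A) ^ (q + 2) * τ y ^ (q + 2)) hl u0
    (fun y => by have := h.tau0 y; positivity) (fun j _ _ => h.N1 j) (fun _ _ _ => ⟨G0, hG⟩)
    (fun j a b y hy => nb_le (h.loc y (by simp only [Finset.mem_Ico] at hy; omega)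
      (by have := (h.N1 j).2; simp only [Finset.mem_Ico] at hy; omega))
      (mul_le_mul_of_nonneg_left (h.near j y hy).1 A0))
    (fun j a b => h.ric j (by omega) (by have := (h.N1 j).1; have := (h.N1 j).2; omega))
    fun j a b y hy => ⟨hu y (by have := (h.N1 j).2; simp only [Finset.mem_Ico] at *; omega), by
      have t0 := h.tau0 j
      have e : lam * (A * (2 * τ j)) ≤ 4 * lam * A * τ y := by
        have := mul_le_mul_of_nonneg_left (h.near j y hy).2 (mul_nonneg l0' A0)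
        nlinarith
      have e2 := pow_le_pow_left₀ (by positivity) e (q + 2)
      rw [mul_pow (4 * lam * A)] at e2
      have := mul_le_mul_of_nonneg_left e2 (show 0 ≤ 2 * Dm * G by positivity)
      linarith⟩
  refine k.trans ?_
  rw [← Finset.mul_sum]
  exact mul_le_mul_of_nonneg_left (h.sum_pow q h0 h1 hT) (by positivity)

/-- **(Q3), variance form**: `g_j' (t) = O(|t - c_j|^(k+1))` -/
theorem var (h : Out S p a0 a1 U v A G Tt Tm l0 c τ N) (hJ : JointS) (hS : S.Ok) {k b0 b1 : ℕ}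
    (hq : 2 * k + 2 ≤ p) (h0 : a0 ≤ b0) (h1 : b1 + U ≤ a1 + 1) (hT : 0 ≤ Tm) {lam : ℝ}
    (hl : 1 ≤ lam) (hG : 1 ≤ G * lam ^ p) (g g' : ℕ → ℝ → ℝ) (ψ : ℕ → ℝ)
    (hg : ∀ j t, HasDerivAt (g j) (g' j t) t) (hc : ∀ j, Continuous (g' j))
    (hb : ∀ j ∈ Ico b0 b1, ∀ t, 0 ≤ t → t ≤ 1 → |g' j t| ≤ ψ j * |t - c j| ^ (k + 1))
    {Dm : ℝ} (hD : 0 ≤ Dm) (hu : ∀ y ∈ Ico b0 (b1 + U), S.dm y * ψ y ^ 2 ≤ Dm) :
    ∫ a, (∑ j ∈ Ico b0 b1, S.dm j * g j (S.rho j a)) ^ 2 ∂S.μ -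
      (∫ a, ∑ j ∈ Ico b0 b1, S.dm j * g j (S.rho j a) ∂S.μ) ^ 2 ≤
    8 * Dm * G * (4 * lam * A) ^ (2 * k + 2) * (Tm ^ (2 * k) * Tt) := by
  have k1 := var_loc hS (Ico b0 b1) g g' c ψ (k + 1) hg hc hb
  have k2 := h.Q3 hJ hS hq h0 h1 hT hl hG (fun y => S.dm y * ψ y ^ 2)
    (fun y => mul_nonneg (hS.dm0 y) (sq_nonneg _)) hD hu
  rw [show 2 * (k + 1) = 2 * k + 2 by ring] at k1
  linarith

end Out

/-- **(B)** `L^(2p)` fluctuation of window functionals, on any interval -/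
theorem B_sum (hNb : NbS) (hB : BlpS) (i : ℕ) : ∃ C : ℝ, 1 ≤ C ∧
    ∀ (α ι : Type) [MeasurableSpace α] [Fintype ι] (S : Sys α ι) (a0 a1 U : ℕ)
      (v A G Tt Tm l0 : ℝ) (c τ : ℕ → ℝ) (N : ℕ → ℕ), S.Ok →
      Out S (2 ^ i) a0 a1 U v A G Tt Tm l0 c τ N → ∀ (b0 b1 U' : ℕ), a0 ≤ b0 → b0 ≤ b1 →
      b1 ≤ a1 + 1 → (∀ j, b0 ≤ j → j < b1 → N j ≤ U') → ∀ (φ : ℕ → ℝ) (Dm : ℝ), 0 ≤ Dm →
      (∀ y ∈ Ico b0 (b1 + U'), S.dm y * φ y ^ 2 ≤ Dm) →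
      Nb S.μ (2 * 2 ^ i) (fun a => ∑ j ∈ Ico b0 b1, S.dm j * (φ j * (S.rho j a - S.r j)))
        (C * √(((b1 : ℝ) - b0 + U') * (Dm * G))) := by
  obtain ⟨C, C1, hC⟩ := hB i
  refine ⟨C, C1, fun α ι _ _ S a0 a1 U v A G Tt Tm l0 c τ N hS h b0 b1 U' h0 h01 h1 hU φ Dm hD hu =>
    hC α ι S hS _ φ _ ?_⟩
  simpa only [mul_assoc] using h.Asum hNb hS Nat.one_le_two_pow h0 h01 h1 hU
    (fun y => S.dm y * φ y ^ 2) (fun y => mul_nonneg (hS.dm0 y) (sq_nonneg _)) hD hu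

/-! ### the bulk block -/

/-- windows of clock length `τ`, at most `2 ^ L` nodes -/
def Nw (L : ℕ) (v : ℝ) (τ : ℕ → ℝ) (j : ℕ) : ℕ := min ⌊τ j / v⌋₊ (2 ^ L)

section Nw
variable {L : ℕ} {v : ℝ} {τ : ℕ → ℝ}

theorem fl_ge (hv : 0 < v) {t : ℝ} (ht : 16 * v ≤ t) : 15 / 16 * t ≤ ⌊t / v⌋₊ * v := by
  have h1 := Nat.lt_floor_add_one (t / v)
  rw [div_lt_iff₀ hv] at h1
  linarith

theorem fl_le (hv : 0 < v) {t : ℝ} (ht : 0 ≤ t) : ⌊t / v⌋₊ * v ≤ t := by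
  have h1 := Nat.floor_le (div_nonneg ht hv.le)
  rwa [le_div_iff₀ hv] at h1

theorem Nw_v (hv : 0 < v) {j : ℕ} (ht : 0 ≤ τ j) : Nw L v τ j * v ≤ τ j :=
  le_trans (mul_le_mul_of_nonneg_right (by exact_mod_cast min_le_left _ _) hv.le) (fl_le hv ht)

theorem Nw_ge (hv : 0 < v) {j : ℕ} (ht : 16 * v ≤ τ j) {x : ℝ} (h1 : x ≤ 15 / 16 * τ j)
    (h2 : x ≤ 2 ^ L * v) : x ≤ Nw L v τ j * v := by
  unfold Nw
  rcases min_choice ⌊τ j / v⌋₊ (2 ^ L) with e | e <;> rw [e]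
  · exact h1.trans (fl_ge hv ht)
  · exact_mod_cast h2

theorem Nw_one (hv : 0 < v) {j : ℕ} (ht : 16 * v ≤ τ j) : 1 ≤ Nw L v τ j := by
  have h := Nw_ge (L := L) hv ht (x := 1 * v) (by linarith)
    (mul_le_mul_of_nonneg_right (one_le_pow₀ (by norm_num)) hv.le)
  exact_mod_cast le_of_mul_le_mul_right h hv

theorem Nw_two (hv : 0 < v) {i j : ℕ} (hi : 0 ≤ τ i) (ht : 16 * v ≤ τ j)
    (h : τ i ≤ 15 / 8 * τ j) : Nw L v τ i ≤ 2 * Nw L v τ j := by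
  have h1 := Nw_v (L := L) hv hi
  have h2 : (Nw L v τ i : ℝ) ≤ 2 ^ L := by exact_mod_cast min_le_right _ _
  have h3 := Nw_ge (L := L) hv ht (x := Nw L v τ i / 2 * v) (by linarith)
    (mul_le_mul_of_nonneg_right (by linarith [Nat.cast_nonneg (α := ℝ) (Nw L v τ i)]) hv.le)
  have h4 := le_of_mul_le_mul_right h3 hv
  have : (Nw L v τ i : ℝ) ≤ 2 * Nw L v τ j := by linarith
  exact_mod_cast this

theorem lip_near (hv : 0 < v) (lip : ∀ i j : ℕ, |τ i - τ j| ≤ |(i : ℝ) - j| * v / 16) {i j M : ℕ}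
    (h1 : i ≤ j + M) (h2 : j ≤ i + M) : |τ i - τ j| ≤ M * v / 16 := by
  refine (lip i j).trans ?_
  have a1 : (i : ℝ) ≤ j + M := by exact_mod_cast h1
  have a2 : (j : ℝ) ≤ i + M := by exact_mod_cast h2
  have : |(i : ℝ) - j| ≤ M := abs_le.2 ⟨by linarith, by linarith⟩
  gcongr

end Nw

/-- the data of a bulk block -/
structure Blk (S : Sys α ι) (L j0 j1 H Q : ℕ) (v l2 l3 K l0 δ Sg : ℝ) (c : ℕ → ℝ) : Prop where
  v0 : 0 < v
  l20 : 0 < l2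
  l30 : 0 < l3
  K2 : 2 ≤ K
  clk : ∀ i j, i ≤ j → 0 ≤ c j - c i ∧ c j - c i ≤ (j - i : ℝ) * v
  c02 : ∀ j, 0 ≤ c j ∧ c j ≤ 2
  cK : ∀ j, j0 ≤ j → j ≤ j1 → c j ≤ K * (2 ^ L * v)
  H0 : H ≤ j0
  crude : ∀ j, j0 ≤ j → j ≤ j1 → |S.r j - c j| ≤ H * v
  HK : (H : ℝ) ≤ K * 2 ^ L
  HQ : H * v ≤ 2 ^ Q * l0
  l16 : 16 * v ≤ l0
  lU : l0 ≤ 2 * (2 ^ L * v)
  T4 : 2 * (((L : ℝ) + 2) ^ 2 * l2) ≤ l0 ^ 2
  δ0 : 0 < δ
  dm : ∀ y, j0 ≤ y + 2 ^ L → y < j1 + 2 ^ L → δ ≤ S.dm y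
  T3 : 4 * v * (((L : ℝ) + 2) ^ 2 * l3) ≤ δ * l0 ^ 3
  rms : ∑ j ∈ Icc (j0 - H) (j1 + H), (S.r j - c j) ^ 2 ≤ Sg

theorem Blk.win {L j0 j1 H Q : ℕ} {v l2 l3 K l0 δ Sg : ℝ} {c τ : ℕ → ℝ}
    (h : Blk S L j0 j1 H Q v l2 l3 K l0 δ Sg c) (lo : ∀ j, l0 ≤ τ j)
    (loc : ∀ j, j0 ≤ j → j ≤ j1 → |S.r j - c j| ≤ τ j)
    (lip : ∀ i j : ℕ, |τ i - τ j| ≤ |(i : ℝ) - j| * v / 16) :
    S.Win L v l2 l3 K j0 j1 (Nw L v τ) τ c fun _ => δ := by
  have hv := h.v0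
  have K2 := h.K2
  have t16 : ∀ j, 16 * v ≤ τ j := fun j => h.l16.trans (lo j)
  have t0 : ∀ j, 0 ≤ τ j := fun j => by linarith [t16 j]
  have l00 : 0 ≤ l0 := by linarith [h.l16]
  have Nv : ∀ j, Nw L v τ j * v ≤ τ j := fun j => Nw_v hv (t0 j)
  have Nl : ∀ j, l0 / 2 ≤ Nw L v τ j * v := fun j =>
    Nw_ge hv (t16 j) (by linarith [lo j]) (by linarith [h.lU])
  have NU : ∀ j, Nw L v τ j ≤ 2 ^ L := fun j => min_le_right _ _
  refine ⟨hv, by linarith, h.l20, h.l30, fun j => Nw_one hv (t16 j), NU, h.clk, h.c02, Nv, loc,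
    fun i j _ _ _ _ h1 h2 => ?_, fun i j _ _ h1 _ => ?_, fun j h1 h2 => ?_, fun j _ _ => ?_,
    fun j h1 h2 => Or.inr ⟨h.δ0, fun y a b => h.dm y (by have := NU j; omega)
      (by have := NU j; omega), ?_⟩⟩
  · have k := abs_le.1 (lip_near hv lip h1 h2)
    push_cast at k
    have := Nv j
    have := t0 j
    exact ⟨Nw_two hv (t0 i) (t16 j) (by linarith [k.2]), Nw_two hv (t0 j) (t16 i) (by linarith [k.1]),
      by nlinarith [k.2]⟩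
  · have a1 : (i : ℝ) + Nw L v τ j ≤ j := by exact_mod_cast h1
    have n0 : (0 : ℝ) ≤ Nw L v τ j := Nat.cast_nonneg _
    have k := (abs_le.1 (lip i j)).2
    rw [abs_of_nonpos (by linarith)] at k
    have e1 := mul_le_mul_of_nonneg_right k n0
    have e2 := mul_le_mul_of_nonneg_left (Nv j) (show 0 ≤ (j : ℝ) - i by linarith)
    have e3 := mul_le_mul_of_nonneg_left (show (Nw L v τ j : ℝ) ≤ j - i by linarith) (t0 j)
    have e4 : 0 ≤ τ j * ((j : ℝ) - i) := mul_nonneg (t0 j) (by linarith)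
    nlinarith
  · have e1 := mul_le_mul_of_nonneg_right (h.cK j h1 h2) (Nat.cast_nonneg (α := ℝ) (Nw L v τ j))
    have e2 := mul_le_mul_of_nonneg_left (Nv j) (show 0 ≤ K * 2 ^ L by positivity)
    nlinarith
  · have := mul_le_mul (lo j) (Nl j) (by linarith) (t0 j)
    nlinarith [h.T4]
  · have e1 : l0 / 2 * (l0 * (l0 / 2)) ≤ Nw L v τ j * v * (τ j * (Nw L v τ j * v)) :=
      mul_le_mul (Nl j) (mul_le_mul (lo j) (Nl j) (by linarith) (t0 j)) (by positivity)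
        (by positivity)
    have e2 := mul_le_mul_of_nonneg_left e1 h.δ0.le
    have e3 := h.T3
    refine le_of_mul_le_mul_left ?_ hv
    nlinarith

/-- **the bulk block**: RMS location gives all outputs -/
theorem blk_out (hSy : SyncS) (hT : TolS) (hQ : QvS) (i : ℕ) (K : ℝ) (hi : 1 ≤ i) :
    ∃ C : ℝ, 1 ≤ C ∧ ∀ (α ι : Type) [MeasurableSpace α] [Fintype ι] (S : Sys α ι)
      (L J j0 j1 H Q : ℕ) (v l2 l3 l0 δ Sg e P Z Tm : ℝ) (c : ℕ → ℝ), S.Ok →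
      S.Good L v l2 l3 (e ^ 2 ^ i) j0 j1 → Blk S L j0 j1 H Q v l2 l3 K l0 δ Sg c → 0 ≤ e → e ≤ v →
      e ≤ l3 → 1 ≤ P → (2 : ℝ) ^ (L + 3) ≤ P ^ 2 ^ i → 1 ≤ Z → 4 / v ≤ Z ^ 2 ^ J → 0 ≤ Tm →
      (l0 + H * v ≤ Tm ∨
        2 * K * v * (C * ((j1 + 1 - j0 : ℕ) * l0 ^ 2 + (Q + 1) * Sg)) ≤ Tm ^ 3) →
      ∃ τ : ℕ → ℝ, (∀ i j : ℕ, |τ i - τ j| ≤ |(i : ℝ) - j| * v / 16) ∧
        (∀ j, j0 ≤ j → j ≤ j1 → |S.r j - c j| ≤ τ j) ∧
        Out S (2 ^ i) (j0 + (J + 1) * (8 * 2 ^ L)) (j1 - (J + 1) * (8 * 2 ^ L)) (2 ^ L) v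
          (C * P * Z) (C * P ^ 2 * Z * (((L : ℝ) + 2) ^ 2 * l3))
          (C * ((j1 + 1 - j0 : ℕ) * l0 ^ 2 + (Q + 1) * Sg)) Tm l0 c τ (Nw L v τ) := by
  obtain ⟨C1, hC1, H1⟩ := hSy i K hi
  obtain ⟨C2, hC2, H2⟩ := hT
  refine ⟨max (C1 * (2 * |K| + 1)) C2, le_max_of_le_left (by nlinarith [abs_nonneg K]), ?_⟩
  intro α ι _ _ S L J j0 j1 H Q v l2 l3 l0 δ Sg e P Z Tm c hS hG h e0 ev e3 P1 hP Z1 hZ T0 hTm
  set C := max (C1 * (2 * |K| + 1)) C2 with hC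
  have hv := h.v0
  have K2 := h.K2
  have aK : |K| = K := abs_of_nonneg (by linarith)
  have c1 : C1 * (2 * K) ≤ C := le_max_of_le_left (by rw [aK]; nlinarith)
  have c1' : C1 ≤ C := le_trans (by nlinarith) c1
  have c2 : C2 ≤ C := le_max_right _ _
  obtain ⟨τ, t1, t2, t3, t4⟩ := H2 S.r c v l0 j0 j1 H Q hv h.l16 (r_mono hQ hS)
    (fun j => by simpa using (h.clk j (j + 1) (by omega)).2) h.H0 h.crude h.HQ
  have W := h.win (fun j => (t1 j).1) t2 t3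
  have t16 : ∀ j, 16 * v ≤ τ j := fun j => h.l16.trans (t1 j).1
  have t0 : ∀ j, 0 ≤ τ j := fun j => by linarith [t16 j]
  have S0 : 0 ≤ ∑ j ∈ Icc (j0 - H) (j1 + H), (S.r j - c j) ^ 2 :=
    Finset.sum_nonneg fun _ _ => sq_nonneg _
  have t5 : ∑ j ∈ Icc j0 j1, τ j ^ 2 ≤ C * ((j1 + 1 - j0 : ℕ) * l0 ^ 2 + (Q + 1) * Sg) := by
    refine t4.trans (mul_le_mul c2 ?_ (by positivity) (by linarith))
    have := h.rms
    gcongr
  have U1 : 1 ≤ 2 ^ L := Nat.one_le_two_pow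
  have mg : 8 * 2 ^ L ≤ (J + 1) * (8 * 2 ^ L) := Nat.le_mul_of_pos_left _ (by omega)
  have tup : ∀ j, τ j ≤ (2 + K) * (2 ^ L * v) := fun j => by
    have := (t1 j).2
    have := h.lU
    have := mul_le_mul_of_nonneg_right h.HK hv.le
    nlinarith
  have l30 := h.l30
  have main := fun j (a : j0 + (J + 1) * (8 * 2 ^ L) ≤ j) (b : j ≤ j1 - (J + 1) * (8 * 2 ^ L)) =>
    H1 α ι S L J j0 j1 v l2 l3 e P Z _ τ c _ hS hG W e0 ev e3 P1 hP Z1 hZ j a (by omega)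
  refine ⟨τ, t3, t2, hv, by positivity, by positivity, fun j => ⟨W.N1 j, W.NU j⟩, W.Nv,
    fun j => (t1 j).1, fun j y hy => ?_, ?_, fun j a b => ?_, fun j a b => ?_, fun j a b => ?_⟩
  · have hy := Finset.mem_Ico.1 hy
    have k := abs_le.1 (lip_near hv t3 (i := y) (j := j) (M := Nw L v τ j) (by omega) (by omega))
    have := W.Nv j
    have := t0 j
    constructor <;> linarith [k.1, k.2]
  · exact (Finset.sum_le_sum_of_subset_of_nonneg (Finset.Icc_subset_Icc (by omega) (by omega))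
      fun _ _ _ => sq_nonneg _).trans t5
  · rcases hTm with k | k
    · exact (t1 j).2.trans k
    have sl : Qf24.Sl τ (v / 16) j0 j1 := fun y _ _ => by
      have := (abs_le.1 (lip_near hv t3 (i := y) (j := y + 1) (M := 1) (by omega) (by omega))).2
      push_cast at this
      linarith
    have cb := sl.cube_le' (by positivity) (j := j) (M := 8 * 2 ^ L) (by omega) (by omega)
      (F := (2 + K) * (2 ^ L * v)) (by rw [abs_of_nonneg (t0 j)]; exact tup j)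
    rw [abs_of_nonneg (t0 j)] at cb
    have q1 : 4 * ((2 + K) * (2 ^ L * v)) / (((8 * 2 ^ L : ℕ) : ℝ) + 1) ≤ (2 + K) * v / 2 := by
      rw [div_le_iff₀ (by positivity)]
      push_cast
      have : 0 ≤ (2 + K) * v := by positivity
      nlinarith
    have q2 : 8 * (v / 16) + 4 * ((2 + K) * (2 ^ L * v)) / (((8 * 2 ^ L : ℕ) : ℝ) + 1) ≤
        2 * K * v := by nlinarith
    have q3 := mul_le_mul q2 t5 (Finset.sum_nonneg fun _ _ => sq_nonneg _) (by positivity)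
    exact le_of_pow_le_pow_left₀ (n := 3) (by norm_num) T0 ((cb.trans q3).trans k)
  · refine nb_le (main j a b).1 ?_
    have := t0 j
    gcongr
  · refine nb_le (main j a b).2 ?_
    have n0 : 0 < (Nw L v τ j : ℝ) * v := by
      have : (1 : ℝ) ≤ Nw L v τ j := by exact_mod_cast W.N1 j
      positivity
    have r1 : τ j / (2 * K) ≤ Nw L v τ j * v := Nw_ge hv (t16 j)
      (by rw [div_le_iff₀ (by positivity)]; nlinarith [t0 j])
      (by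
        rw [div_le_iff₀ (by positivity)]
        have : 0 ≤ 2 ^ L * v := by positivity
        nlinarith [tup j])
    have r2 : τ j / (Nw L v τ j * v) ≤ 2 * K := by
      rw [div_le_iff₀ n0]
      rw [div_le_iff₀ (by positivity)] at r1
      linarith
    calc C1 * P ^ 2 * Z * (((L : ℝ) + 2) ^ 2 * l3 * (τ j / (Nw L v τ j * v)))
        ≤ C1 * P ^ 2 * Z * (((L : ℝ) + 2) ^ 2 * l3 * (2 * K)) := by gcongr
      _ = C1 * (2 * K) * (P ^ 2 * Z * (((L : ℝ) + 2) ^ 2 * l3)) := by ring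
      _ ≤ C * (P ^ 2 * Z * (((L : ℝ) + 2) ^ 2 * l3)) := by gcongr
      _ = _ := by ring

end sys

end Crest.Agent.T156.Q57.Blk24
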