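import Crest.Agent.T156.CaDyad_41
import Crest.Agent.T156.CaPe_45
import Crest.Agent.T156.CaSym_84

/-!
# Row 156: soft synchronisation, the sandwich between two windows
-/

set_option autoImplicit false
set_option linter.unusedSectionVars false

noncomputable section

namespace Crest.Agent.T156.Cas.Sy41

open MeasureTheory Real Set Filter Topology
open Crest.Agent.T157.E Crest.Agent.T157.Casc Crest.Agent.T157.SL

variable {Ω : Type} [Fintype Ω] {w : Ω → ℝ}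

/-- `mᵀ C m` -/
def Vq (w : Ω → ℝ) (L : List (Lv Ω)) (l₀ : Lv Ω) (z : Ω → ℝ) : ℝ :=
  Cb w L z (l₀.fld (mv w L l₀ z)) (l₀.fld (mv w L l₀ z))

/-- `tr A²` -/
def trA2 (w : Ω → ℝ) (L : List (Lv Ω)) (l₀ : Lv Ω) (z : Ω → ℝ) : ℝ :=
  ∑ i, ∑ k, Hb w L z (fun x => l₀.A x i) (fun x => l₀.A x k) ^ 2

/-- `tr C²` -/
def trC2 (w : Ω → ℝ) (L : List (Lv Ω)) (l₀ : Lv Ω) (z : Ω → ℝ) : ℝ :=
  ∑ i, ∑ k, Cb w L z (fun x => l₀.A x i) (fun x => l₀.A x k) ^ 2

theorem eg_Vq (hw : Wt w) (L : List (Lv Ω)) (l₀ : Lv Ω) : Eg (Vq w L l₀) :=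
  eg_Cb hw L (eg_fld l₀ (eg_mv hw L l₀)) (eg_fld l₀ (eg_mv hw L l₀))

theorem eg_trA2 (hw : Wt w) (L : List (Lv Ω)) (l₀ : Lv Ω) : Eg (trA2 w L l₀) :=
  Eg.sum _ fun _ _ => Eg.sum _ fun _ _ => (Hess87.eg_Hb hw L _ _).pow 2

theorem eg_trC2 (hw : Wt w) (L : List (Lv Ω)) (l₀ : Lv Ω) : Eg (trC2 w L l₀) :=
  Eg.sum _ fun _ _ => Eg.sum _ fun _ _ => (Hess87.eg_Cb hw L _ _).pow 2

theorem Vq_nonneg (hw : Wt w) (L : List (Lv Ω)) (l₀ : Lv Ω) (z : Ω → ℝ) : 0 ≤ Vq w L l₀ z :=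
  Hess87.Cb_nonneg hw L z _

theorem Vq_le (hw : Wt w) {L : List (Lv Ω)} {x : ℝ} (hL : Mono x L) (l₀ : Lv Ω) (z : Ω → ℝ) :
    x * Vq w L l₀ z ≤ mAm w L l₀ z := (Hess87.sandwich hw _ L x z hL).1

theorem Pf_fld2 (L : List (Lv Ω)) (l₀ : Lv Ω) (z : Ω → ℝ) (v v' : l₀.ι → ℝ) :
    Pf w L z (fun x => l₀.fld v x * l₀.fld v' x) =
      ∑ i, ∑ k, v i * v' k * Pf w L z fun x => l₀.A x i * l₀.A x k := by
  simp only [Pf, Lv.fld, Finset.sum_mul_sum]
  simp only [Finset.mul_sum]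
  rw [Finset.sum_comm]
  refine Finset.sum_congr rfl fun i _ => Finset.sum_comm.trans ?_
  exact Finset.sum_congr rfl fun _ _ => Finset.sum_congr rfl fun _ _ => by ring

theorem Cb_A (L : List (Lv Ω)) (l₀ : Lv Ω) (z : Ω → ℝ) (i k : l₀.ι) :
    Cb w L z (fun x => l₀.A x i) (fun x => l₀.A x k) =
      Pf w L z (fun x => l₀.A x i * l₀.A x k) - mv w L l₀ z i * mv w L l₀ z k := rfl

theorem Cb_fld (L : List (Lv Ω)) (l₀ : Lv Ω) (z : Ω → ℝ) (v v' : l₀.ι → ℝ) :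
    Cb w L z (l₀.fld v) (l₀.fld v') =
      ∑ i, ∑ k, v i * v' k * Cb w L z (fun x => l₀.A x i) fun x => l₀.A x k := by
  rw [Cb, Pf_fld2, Pf_fld, Pf_fld, Finset.sum_mul_sum]
  simp only [Cb_A, ← Finset.sum_sub_distrib]
  exact Finset.sum_congr rfl fun _ _ => Finset.sum_congr rfl fun _ _ => by ring

theorem Cb_cen (hw : Wt w) (L : List (Lv Ω)) (l₀ : Lv Ω) (z : Ω → ℝ) (i k : l₀.ι) :
    Cb w L z (fun x => l₀.A x i) (fun x => l₀.A x k) =
      ∑ y, P w L z y * ((l₀.A y i - mv w L l₀ z i) * (l₀.A y k - mv w L l₀ z k)) := by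
  have e : ∀ y, P w L z y * ((l₀.A y i - mv w L l₀ z i) * (l₀.A y k - mv w L l₀ z k)) =
      P w L z y * (l₀.A y i * l₀.A y k) - mv w L l₀ z k * (P w L z y * l₀.A y i) -
        mv w L l₀ z i * (P w L z y * l₀.A y k) + mv w L l₀ z i * mv w L l₀ z k * P w L z y :=
    fun y => by ring
  simp only [e, Finset.sum_add_distrib, Finset.sum_sub_distrib, ← Finset.mul_sum, sum_P hw, Cb_A]
  simp only [mv, Pf]
  ring

theorem tr_mul (hw : Wt w) (L : List (Lv Ω)) (l₀ : Lv Ω) (z : Ω → ℝ) (M : l₀.ι → l₀.ι → ℝ) :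
    ∑ i, ∑ k, M i k * Cb w L z (fun x => l₀.A x i) (fun x => l₀.A x k) = ∑ y, P w L z y *
      ∑ i, ∑ k, (l₀.A y i - mv w L l₀ z i) * (l₀.A y k - mv w L l₀ z k) * M i k := by
  simp only [Cb_cen hw, Finset.mul_sum]
  refine (Finset.sum_congr rfl fun i _ => Finset.sum_comm).trans (Finset.sum_comm.trans ?_)
  exact Finset.sum_congr rfl fun _ _ => Finset.sum_congr rfl fun _ _ =>
    Finset.sum_congr rfl fun _ _ => by ring

/-- `x² tr C² ≤ tr A²` -/
theorem trC2_le (hw : Wt w) {L : List (Lv Ω)} {x : ℝ} (hx : 0 ≤ x) (hL : Mono x L) (l₀ : Lv Ω)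
    (z : Ω → ℝ) : x ^ 2 * trC2 w L l₀ z ≤ trA2 w L l₀ z := by
  have h1 : x * trC2 w L l₀ z ≤ ∑ i, ∑ k, Hb w L z (fun x => l₀.A x i) (fun x => l₀.A x k) *
      Cb w L z (fun x => l₀.A x i) (fun x => l₀.A x k) := by
    simp only [trC2, sq]
    rw [tr_mul hw, tr_mul hw, Finset.mul_sum]
    refine Finset.sum_le_sum fun y _ => ?_
    rw [mul_left_comm, ← Cb_fld, ← Hb_fld]
    exact mul_le_mul_of_nonneg_left (Hess87.sandwich hw _ L x z hL).1 (P_nonneg hw L z y)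
  have h2 : 2 * x * ∑ i, ∑ k, Hb w L z (fun x => l₀.A x i) (fun x => l₀.A x k) *
      Cb w L z (fun x => l₀.A x i) (fun x => l₀.A x k) ≤ trA2 w L l₀ z + x ^ 2 * trC2 w L l₀ z := by
    simp only [trA2, trC2, Finset.mul_sum, ← Finset.sum_add_distrib]
    refine Finset.sum_le_sum fun i _ => Finset.sum_le_sum fun k _ => ?_
    nlinarith [sq_nonneg (Hb w L z (fun x => l₀.A x i) (fun x => l₀.A x k) -
      x * Cb w L z (fun x => l₀.A x i) (fun x => l₀.A x k))]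
  nlinarith [mul_le_mul_of_nonneg_left h1 hx]

theorem qf_sq (hw : Wt w) (L : List (Lv Ω)) (l₀ : Lv Ω) (z : Ω → ℝ) (q : ℝ) :
    qf (P w L z) (fun x y => (l₀.cov x y - q) ^ 2) =
      trC2 w L l₀ z + 2 * Vq w L l₀ z + (rr w L l₀ z - q) ^ 2 := by
  have e : (fun x y => (l₀.cov x y - q) ^ 2) = fun x y =>
      (∑ i, ∑ k, (l₀.A x i * l₀.A x k) * (l₀.A y i * l₀.A y k)) - 2 * q * l₀.cov x y + q ^ 2 := by
    funext x y
    rw [sub_sq, sq (l₀.cov x y)]
    congr 2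
    · simp only [Lv.cov, Finset.sum_mul_sum]
      exact Finset.sum_congr rfl fun _ _ => Finset.sum_congr rfl fun _ _ => by ring
    · ring
  rw [e, qf_add, qf_sub, qf_const (sum_P hw L z), qf_const_mul, ← rr_eq, qf_sum]
  simp only [qf_sum, qf_mul]
  have e2 : trC2 w L l₀ z + 2 * Vq w L l₀ z + rr w L l₀ z ^ 2 =
      ∑ i, ∑ k, (∑ x, P w L z x * (l₀.A x i * l₀.A x k)) * ∑ x, P w L z x * (l₀.A x i * l₀.A x k) := by
    simp only [trC2, Vq, Cb_fld, rr, sq, Finset.sum_mul_sum _ _ (fun i => mv w L l₀ z i * mv w L l₀ z i),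
      Finset.mul_sum _ _ (2 : ℝ), ← Finset.sum_add_distrib, Cb_A, Pf]
    exact Finset.sum_congr rfl fun _ _ => Finset.sum_congr rfl fun _ _ => by ring
  rw [← e2]; ring

/-- `E (R - q)² = E tr C² + 2 E mᵀ C m + E (r - q)²` -/
theorem pi2_sq (hw : Wt w) (L : List (Lv Ω)) (l₀ : Lv Ω) (h : Ω → ℝ) (j : ℕ) (q : ℝ) :
    pi2 w L j (fun x y => (l₀.cov x y - q) ^ 2) h = node w L j (trC2 w (L.drop j) l₀) h +
      2 * node w L j (Vq w (L.drop j) l₀) h +
      node w L j (fun z => (rr w (L.drop j) l₀ z - q) ^ 2) h := by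
  simp only [pi2, qf_sq hw]
  rw [node_add hw ((eg_trC2 hw _ l₀).add ((eg_Vq hw _ l₀).const_mul 2))
    (((eg_rr hw _ l₀).sub (Eg.const q)).pow 2),
    node_add hw (eg_trC2 hw _ l₀) ((eg_Vq hw _ l₀).const_mul 2), node_const_mul]

/-! ### the path law -/

theorem pE_mono (hw : Wt w) (L : List (Lv Ω)) (h : Ω → ℝ) {F G : (NI L → ℝ) → ℝ} (hF : Eg F)
    (hG : Eg G) (e : ∀ g, F g ≤ G g) : pE w L h (fun g _ => F g) ≤ pE w L h fun g _ => G g :=
  integral_mono (Pe.int_pE hw L h fun _ => hF) (Pe.int_pE hw L h fun _ => hG) fun g =>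
    Finset.sum_le_sum fun x _ => mul_le_mul_of_nonneg_left (e g) (Pe.den_nonneg hw L h g x)

theorem pE_add (hw : Wt w) (L : List (Lv Ω)) (h : Ω → ℝ) {F G : (NI L → ℝ) → ℝ} (hF : Eg F)
    (hG : Eg G) : pE w L h (fun g _ => F g + G g) =
      pE w L h (fun g _ => F g) + pE w L h fun g _ => G g := by
  simp only [pE, mul_add, Finset.sum_add_distrib]
  exact integral_add (Pe.int_pE hw L h fun _ => hF) (Pe.int_pE hw L h fun _ => hG)

theorem pE_const (hw : Wt w) (L : List (Lv Ω)) (h : Ω → ℝ) (c : ℝ) :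
    pE w L h (fun _ _ => c) = c := by
  simpa using Pe.pE_node1 hw (Eg.const c) L 0 h

theorem pE_sq_sub (hw : Wt w) (L : List (Lv Ω)) (h : Ω → ℝ) {F : (NI L → ℝ) → ℝ} (hF : Eg F)
    (q : ℝ) : pE w L h (fun g _ => (F g - q) ^ 2) =
      (pE w L h (fun g _ => F g ^ 2) - pE w L h (fun g _ => F g) ^ 2) +
        (pE w L h (fun g _ => F g) - q) ^ 2 := by
  have e : ∀ g, (F g - q) ^ 2 = F g ^ 2 + (-(2 * q)) * F g + q ^ 2 := fun g => by ring
  simp only [e]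
  rw [pE_add hw L h ((hF.pow 2).add (hF.const_mul _)) (Eg.const _),
    pE_add hw L h (hF.pow 2) (hF.const_mul _), Pe.pE_const_mul, pE_const hw]
  ring

theorem node_sep (hw : Wt w) {κ : Type} [Fintype κ] (a : κ → ℝ) {b : κ → (Ω → ℝ) → ℝ}
    (hb : ∀ k, Eg (b k)) (L : List (Lv Ω)) (d : ℕ) (z : Ω → ℝ) :
    node w L d (fun z' => ∑ k, a k * b k z') z = ∑ k, a k * node w L d (b k) z := by
  rw [node_sum hw _ fun k _ => (hb k).const_mul _]
  simp only [node_const_mul]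

/-- two times: a separable function is integrated conditionally -/
theorem pE_sep_le (hw : Wt w) (L : List (Lv Ω)) (h : Ω → ℝ) {κ : Type} [Fintype κ]
    {a b : κ → (Ω → ℝ) → ℝ} (ha : ∀ k, Eg (a k)) (hb : ∀ k, Eg (b k)) (i d : ℕ)
    {Φ : (Ω → ℝ) → ℝ} (hΦ : Eg Φ)
    (e : ∀ z, node w (L.drop i) d (fun z' => ∑ k, a k z * b k z') z ≤ Φ z) :
    pE w L h (fun g _ => ∑ k, a k (st L i h g) * b k (st L (i + d) h g)) ≤ node w L i Φ h := by
  have := pE_sum peStmt hw L h Finset.univ (fun _ => 1)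
    fun k => (Pe.eg_st L h i (ha k)).mul (Pe.eg_st L h (i + d) (hb k))
  simp only [one_mul, Pe.pE_two hw d (ha _) (hb _)] at this
  have e2 := fun k => (ha k).mul ((hb k).node hw (L.drop i) d)
  rw [this, ← congrFun (node_sum hw _ (fun k _ => e2 k) L i) h]
  exact node_mono hw (Eg.sum _ fun k _ => e2 k) hΦ (fun z => by
    rw [← node_sep hw _ hb]; exact e z) L i h

theorem node_var_le (hw : Wt w) (L : List (Lv Ω)) (d : ℕ) (z f : Ω → ℝ) :
    node w L d (fun z' => (Pf w (L.drop d) z' f - Pf w L z f) ^ 2) z ≤ Cb w L z f f := by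
  have e1 := Hess87.eg_Pf hw (L.drop d) f
  have e2 := Hess87.eg_Pf hw (L.drop d) fun x => f x * f x
  have h1 := node_le2 hw ((e1.sub (Eg.const (Pf w L z f))).pow 2) (e2.add (Eg.const (Pf w L z f ^ 2)))
    e1 (a := 1) (b := -(2 * Pf w L z f)) (fun z' => by
      have := Hess87.Cb_nonneg hw (L.drop d) z' f
      simp only [Cb] at this
      nlinarith) L d z
  rw [node_add hw e2 (Eg.const _), node_const hw] at h1
  have h2 : ∀ f, node w L d (fun z => Pf w (L.drop d) z f) z = Pf w L z f := fun f =>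
    node_sum_P hw f L d z
  simp only [h2] at h1
  simp only [Cb]
  nlinarith

/-- `m_j · (m_k - m_j)` along the path -/
def xi (w : Ω → ℝ) (L : List (Lv Ω)) (l₀ : Lv Ω) (h : Ω → ℝ) (j k : ℕ) (g : NI L → ℝ) : ℝ :=
  ∑ i, mv w (L.drop j) l₀ (st L j h g) i *
    (mv w (L.drop k) l₀ (st L k h g) i - mv w (L.drop j) l₀ (st L j h g) i)

theorem eg_xi (hw : Wt w) (L : List (Lv Ω)) (l₀ : Lv Ω) (h : Ω → ℝ) (j k : ℕ) :
    Eg (xi w L l₀ h j k) := Eg.sum _ fun i _ => (Pe.eg_st L h j (eg_mv hw _ l₀ i)).mul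
      ((Pe.eg_st L h k (eg_mv hw _ l₀ i)).sub (Pe.eg_st L h j (eg_mv hw _ l₀ i)))

theorem xi_le (L : List (Lv Ω)) (l₀ : Lv Ω) (h : Ω → ℝ) (j k : ℕ) (g : NI L → ℝ) :
    rr w (L.drop j) l₀ (st L j h g) + 2 * xi w L l₀ h j k g ≤ rr w (L.drop k) l₀ (st L k h g) := by
  simp only [rr, xi, Finset.mul_sum, ← Finset.sum_add_distrib]
  refine Finset.sum_le_sum fun i _ => ?_
  nlinarith [sq_nonneg (mv w (L.drop k) l₀ (st L k h g) i - mv w (L.drop j) l₀ (st L j h g) i)]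

theorem pE_xi_sq (hw : Wt w) (L : List (Lv Ω)) (l₀ : Lv Ω) (h : Ω → ℝ) {j k : ℕ} (hjk : j ≤ k) :
    pE w L h (fun g _ => xi w L l₀ h j k g ^ 2) ≤ node w L j (Vq w (L.drop j) l₀) h := by
  obtain ⟨d, rfl⟩ := Nat.exists_eq_add_of_le hjk
  set α : Option l₀.ι → (Ω → ℝ) → ℝ := fun o z =>
    o.elim (-rr w (L.drop j) l₀ z) (mv w (L.drop j) l₀ z) with hα
  set β : Option l₀.ι → (Ω → ℝ) → ℝ := fun o z => o.elim 1 (mv w (L.drop (j + d)) l₀ z) with hβ
  have eα : ∀ o, Eg (α o) := fun o => by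
    cases o
    exacts [(eg_rr hw _ l₀).neg, eg_mv hw _ l₀ _]
  have eβ : ∀ o, Eg (β o) := fun o => by
    cases o
    exacts [Eg.const 1, eg_mv hw _ l₀ _]
  have e : ∀ z z', ∑ p : Option l₀.ι × Option l₀.ι, α p.1 z * α p.2 z * (β p.1 z' * β p.2 z') =
      (∑ i, mv w (L.drop j) l₀ z i * (mv w (L.drop (j + d)) l₀ z' i - mv w (L.drop j) l₀ z i)) ^ 2 := by
    intro z z'
    have : ∑ i, mv w (L.drop j) l₀ z i * (mv w (L.drop (j + d)) l₀ z' i - mv w (L.drop j) l₀ z i) =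
        ∑ o, α o z * β o z' := by
      simp only [Fintype.sum_option, hα, hβ, Option.elim, rr, mul_sub, Finset.sum_sub_distrib, sq]
      ring
    rw [this, sq, Finset.sum_mul_sum, Fintype.sum_prod_type]
    exact Finset.sum_congr rfl fun _ _ => Finset.sum_congr rfl fun _ _ => by ring
  have key := pE_sep_le hw L h (κ := Option l₀.ι × Option l₀.ι)
    (fun p => (eα p.1).mul (eα p.2)) (fun p => (eβ p.1).mul (eβ p.2)) j d (eg_Vq hw (L.drop j) l₀)
    fun z => by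
      simp only [e]
      have := node_var_le hw (L.drop j) d z (l₀.fld (mv w (L.drop j) l₀ z))
      simp only [Pf_fld, List.drop_drop, ← Finset.sum_sub_distrib, ← sub_mul] at this
      simpa only [mul_comm, Vq] using this
  simpa only [e, xi] using key

theorem jensen_sq {s : Finset ℕ} {c : ℕ → ℝ} (hc : ∀ k, 0 ≤ c k) (h1 : ∑ k ∈ s, c k = 1)
    (x : ℕ → ℝ) : (∑ k ∈ s, c k * x k) ^ 2 ≤ ∑ k ∈ s, c k * x k ^ 2 := by
  set m := ∑ k ∈ s, c k * x k with hm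
  have : 0 ≤ ∑ k ∈ s, c k * (x k - m) ^ 2 :=
    Finset.sum_nonneg fun k _ => mul_nonneg (hc k) (sq_nonneg _)
  have e : ∀ k, c k * (x k - m) ^ 2 = c k * x k ^ 2 - 2 * m * (c k * x k) + m ^ 2 * c k :=
    fun k => by ring
  simp only [e, Finset.sum_add_distrib, Finset.sum_sub_distrib, ← Finset.mul_sum, h1, ← hm] at this
  linarith

/-- **sandwich** (41 #6985, 85 #7053): the node `j` lies between a window `φ` above and a window
`φ'` below. -/
theorem sand (hw : Wt w) {L : List (Lv Ω)} (hL : Mono 0 L) (h : Ω → ℝ) {T : Set (Equiv.Perm Ω)}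
    (hT : ∀ τ ∈ T, Sym w L h τ) (htr : ∀ x y, w x ≠ 0 → w y ≠ 0 → ∃ τ ∈ T, τ x = y) (l₀ : Lv Ω)
    (h₀ : ∀ τ ∈ T, ∀ x y, l₀.cov (τ x) (τ y) = l₀.cov x y) (j : ℕ) {φ φ' : ℕ → ℝ} {b : ℝ}
    (hφ : ∀ k, 0 ≤ φ k ∧ φ k ≤ b) (hφ' : ∀ k, 0 ≤ φ' k ∧ φ' k ≤ b)
    (h1 : ∑ k ∈ Finset.range L.length, dm L 0 (k + 1) * φ (k + 1) = 1)
    (h1' : ∑ k ∈ Finset.range L.length, dm L 0 (k + 1) * φ' (k + 1) = 1)
    (hs : ∀ k < j, φ k = 0) (hs' : ∀ k, j < k → φ' k = 0) (q : ℝ) :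
    node w L j (fun z => (rr w (L.drop j) l₀ z - q) ^ 2) h ≤
      8 * ∑ k ∈ Finset.range L.length, dm L 0 (k + 1) * (φ (k + 1) ^ 2 + φ' (k + 1) ^ 2) *
        node w L (k + 1) (mAm w (L.drop (k + 1)) l₀) h +
      2 * (∑ k ∈ Finset.range L.length, dm L 0 (k + 1) * φ (k + 1) * rho w L l₀ h (k + 1) - q) ^ 2 +
      2 * (∑ k ∈ Finset.range L.length, dm L 0 (k + 1) * φ' (k + 1) * rho w L l₀ h (k + 1) - q) ^ 2 +
      8 * node w L j (Vq w (L.drop j) l₀) h +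
      8 * ∑ k ∈ Finset.range L.length, dm L 0 (k + 1) * φ' (k + 1) *
        node w L (k + 1) (Vq w (L.drop (k + 1)) l₀) h := by
  have er := fun k => eg_rr hw (L.drop k) l₀
  have v1 := sync_ov peStmt symStmt plantStmt hw hL h hT htr l₀ h₀ hφ
  have v2 := sync_ov peStmt symStmt plantStmt hw hL h hT htr l₀ h₀ hφ'
  have m1 := pE_nsum peStmt hw L h (fun j => dm L 0 j * φ j) er
  have m2 := pE_nsum peStmt hw L h (fun j => dm L 0 j * φ' j) er
  have e1 := eg_nsum peStmt hw L h (fun j => dm L 0 j * φ j) er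
  have e2 := eg_nsum peStmt hw L h (fun j => dm L 0 j * φ' j) er
  have s1 := pE_sq_sub hw L h e1 q
  have s2 := pE_sq_sub hw L h e2 q
  set F := nsum L h (fun j => dm L 0 j * φ j) fun j => rr w (L.drop j) l₀ with hF
  set F' := nsum L h (fun j => dm L 0 j * φ' j) fun j => rr w (L.drop j) l₀ with hF'
  have c1 : ∀ k, 0 ≤ dm L 0 (k + 1) * φ (k + 1) := fun k => mul_nonneg (dm_nonneg hL _) (hφ _).1
  have c2 : ∀ k, 0 ≤ dm L 0 (k + 1) * φ' (k + 1) := fun k => mul_nonneg (dm_nonneg hL _) (hφ' _).1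
  have x1 := fun k => (eg_xi hw L l₀ h j (k + 1)).pow 2
  have x2 := fun k => (eg_xi hw L l₀ h (k + 1) j).pow 2
  have y1 := Eg.sum (Finset.range L.length) fun k _ => (x1 k).const_mul (dm L 0 (k + 1) * φ (k + 1))
  have y2 := Eg.sum (Finset.range L.length) fun k _ => (x2 k).const_mul (dm L 0 (k + 1) * φ' (k + 1))
  have z1 := (e1.sub (Eg.const q)).pow 2
  have z2 := (e2.sub (Eg.const q)).pow 2
  have b1 : pE w L h (fun g _ => ∑ k ∈ Finset.range L.length, dm L 0 (k + 1) * φ (k + 1) *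
      xi w L l₀ h j (k + 1) g ^ 2) ≤ node w L j (Vq w (L.drop j) l₀) h := by
    rw [pE_sum peStmt hw L h _ _ x1, ← one_mul (node w L j _ h), ← h1, Finset.sum_mul]
    refine Finset.sum_le_sum fun k _ => ?_
    rcases lt_or_ge (k + 1) j with hk | hk
    · simp [hs _ hk]
    · exact mul_le_mul_of_nonneg_left (pE_xi_sq hw L l₀ h hk) (c1 k)
  have b2 : pE w L h (fun g _ => ∑ k ∈ Finset.range L.length, dm L 0 (k + 1) * φ' (k + 1) *
      xi w L l₀ h (k + 1) j g ^ 2) ≤ ∑ k ∈ Finset.range L.length, dm L 0 (k + 1) * φ' (k + 1) *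
        node w L (k + 1) (Vq w (L.drop (k + 1)) l₀) h := by
    rw [pE_sum peStmt hw L h _ _ x2]
    refine Finset.sum_le_sum fun k _ => ?_
    rcases lt_or_ge j (k + 1) with hk | hk
    · simp [hs' _ hk]
    · exact mul_le_mul_of_nonneg_left (pE_xi_sq hw L l₀ h hk) (c2 k)
  have key := pE_mono hw L h (Pe.eg_st L h j (((er j).sub (Eg.const q)).pow 2))
    (((z1.const_mul 2).add (z2.const_mul 2)).add ((y1.const_mul 8).add (y2.const_mul 8))) fun g => by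
      have j1 := jensen_sq c1 h1 fun k => xi w L l₀ h j (k + 1) g
      have j2 := jensen_sq c2 h1' fun k => xi w L l₀ h (k + 1) j g
      have u1 : rr w (L.drop j) l₀ (st L j h g) + 2 * ∑ k ∈ Finset.range L.length,
          dm L 0 (k + 1) * φ (k + 1) * xi w L l₀ h j (k + 1) g ≤ F g := by
        rw [← one_mul (rr w _ l₀ _), ← h1, Finset.sum_mul, Finset.mul_sum, ← Finset.sum_add_distrib]
        refine Finset.sum_le_sum fun k _ => ?_
        rw [mul_left_comm, ← mul_add]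
        exact mul_le_mul_of_nonneg_left (xi_le L l₀ h j (k + 1) g) (c1 k)
      have u2 : F' g + 2 * ∑ k ∈ Finset.range L.length,
          dm L 0 (k + 1) * φ' (k + 1) * xi w L l₀ h (k + 1) j g ≤
            rr w (L.drop j) l₀ (st L j h g) := by
        rw [← one_mul (rr w _ l₀ _), ← h1', Finset.sum_mul, Finset.mul_sum, hF', nsum,
          ← Finset.sum_add_distrib]
        refine Finset.sum_le_sum fun k _ => ?_
        rw [mul_left_comm, ← mul_add]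
        exact mul_le_mul_of_nonneg_left (xi_le L l₀ h (k + 1) j g) (c2 k)
      generalize ∑ k ∈ Finset.range L.length,
        dm L 0 (k + 1) * φ (k + 1) * xi w L l₀ h j (k + 1) g = ξ at j1 u1
      generalize ∑ k ∈ Finset.range L.length,
        dm L 0 (k + 1) * φ' (k + 1) * xi w L l₀ h (k + 1) j g = ξ' at j2 u2
      rcases le_total q (rr w (L.drop j) l₀ (st L j h g)) with hq | hq
      · have := pow_le_pow_left₀ (sub_nonneg.2 hq) (show _ ≤ F g - q - 2 * ξ by linarith) 2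
        nlinarith [sq_nonneg (F g - q + 2 * ξ), sq_nonneg (F' g - q), sq_nonneg ξ']
      · have := pow_le_pow_left₀ (sub_nonneg.2 hq) (show _ ≤ q - F' g - 2 * ξ' by linarith) 2
        nlinarith [sq_nonneg (q - F' g + 2 * ξ'), sq_nonneg (F g - q), sq_nonneg ξ]
  rw [Pe.pE_node1 hw (((er j).sub (Eg.const q)).pow 2),
    pE_add hw L h ((z1.const_mul 2).add (z2.const_mul 2)) ((y1.const_mul 8).add (y2.const_mul 8)),
    pE_add hw L h (z1.const_mul 2) (z2.const_mul 2), pE_add hw L h (y1.const_mul 8) (y2.const_mul 8),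
    Pe.pE_const_mul, Pe.pE_const_mul, Pe.pE_const_mul, Pe.pE_const_mul, s1, s2] at key
  rw [m1] at key v1
  rw [m2] at key v2
  simp only [mul_add, add_mul, Finset.sum_add_distrib, rho]
  linarith

end Crest.Agent.T156.Cas.Sy41

end
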