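import Crest.Agent.T156.Lp_12
import Crest.Agent.T156.CaSand_41

/-!
# Row 156: conditional moments along adapted directions (helper43)

(ER) moments of `η · (m_k - m_j)` and of `η · σ - η · m_j`, (AV) moments of `ηᵀ A_y η`, for a
direction `η` known at the node `a`.
-/

set_option autoImplicit false
set_option linter.unusedSectionVars false

noncomputable section

namespace Crest.Agent.T156.Cas.LpR43

open MeasureTheory Real Set Filter Topology
open Crest.Agent.T157.E Crest.Agent.T157.Casc Crest.Agent.T157.SL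
open Sy41 Lp12

variable {Ω : Type}

/-- `∑_{a ≤ k < b} x_k τ_k` -/
def Sw (L : List (Lv Ω)) (τ : ℕ → ℝ) (a b : ℕ) : ℝ := ∑ k ∈ Finset.Ico a b, ex L k * τ k

/-- a window `[b, j)` after the node `a` with `1 / (x_b S (b, j)) ≤ θ` -/
def Win (L : List (Lv Ω)) (τ : ℕ → ℝ) (a j : ℕ) (θ : ℝ) : Prop :=
  j ≤ L.length ∧ ∃ b, a ≤ b ∧ b ≤ j ∧ 1 ≤ θ * (ex L b * Sw L τ b j)

theorem Win.le {L : List (Lv Ω)} {τ : ℕ → ℝ} {a j : ℕ} {θ : ℝ} (h : Win L τ a j θ) : a ≤ j := by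
  obtain ⟨-, b, h1, h2, -⟩ := h
  exact h1.trans h2

theorem Win.anti {L : List (Lv Ω)} {τ : ℕ → ℝ} {a a' j : ℕ} {θ : ℝ} (h : Win L τ a j θ)
    (ha : a' ≤ a) : Win L τ a' j θ := by
  obtain ⟨h0, b, h1, h2⟩ := h
  exact ⟨h0, b, ha.trans h1, h2⟩

/-- the constant of the moment bounds -/
def cK (n : ℕ) : ℝ := 2 * exp 1 * (2 * n).factorial * 2 ^ n

theorem cK_pos (n : ℕ) : 0 < cK n := by unfold cK; positivity

theorem one_le_cK (n : ℕ) : 1 ≤ cK n := by
  have h1 : (1 : ℝ) ≤ (2 * n).factorial := by exact_mod_cast (2 * n).factorial_pos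
  have h2 : (1 : ℝ) ≤ 2 ^ n := one_le_pow₀ one_le_two
  have h3 : 1 ≤ 2 * exp 1 := by linarith [Real.add_one_le_exp 1]
  exact one_le_mul_of_one_le_of_one_le (one_le_mul_of_one_le_of_one_le h3 h1) h2

theorem mono_mem : ∀ {L : List (Lv Ω)} {m0 : ℝ}, Mono m0 L → ∀ l ∈ L, m0 ≤ l.m
  | [], _, _ => by simp
  | l :: L, m0, h => fun k hk => by
    rcases List.mem_cons.1 hk with rfl | hk
    exacts [h.1, h.1.trans (mono_mem h.2 k hk)]

theorem ex_nonneg {L : List (Lv Ω)} (hL : Mono 0 L) (k : ℕ) : 0 ≤ ex L k := by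
  have := dm_nonneg (mono_drop k hL) 0
  simpa [dm, exP, T157.Casc.ex] using this

theorem tangent_pow {x c : ℝ} (hx : 0 ≤ x) (hc : 0 ≤ c) :
    ∀ n : ℕ, c ^ (n + 1) + (n + 1) * c ^ n * (x - c) ≤ x ^ (n + 1)
  | 0 => by simp
  | n + 1 => by
    have ih := mul_le_mul_of_nonneg_left (tangent_pow hx hc n) hx
    have h1 : 0 ≤ (n + 1 : ℝ) * c ^ n * (x - c) ^ 2 := by positivity
    push_cast
    simp only [pow_succ] at ih h1 ⊢
    nlinarith

variable [Fintype Ω] {w : Ω → ℝ}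

/-- Jensen at a node -/
theorem node_pow_le (hw : Wt w) {Φ : (Ω → ℝ) → ℝ} (hΦ : Eg Φ) (h0 : ∀ z, 0 ≤ Φ z)
    (L : List (Lv Ω)) (j : ℕ) (z : Ω → ℝ) :
    ∀ n : ℕ, node w L j Φ z ^ n ≤ node w L j (fun y => Φ y ^ n) z
  | 0 => by simp [node_const hw]
  | n + 1 => by
    set c := node w L j Φ z with hc
    have c0 : 0 ≤ c := node_nonneg w h0 L j z
    have e1 := (hΦ.sub (Eg.const c)).const_mul ((n + 1) * c ^ n)
    have := node_mono hw ((Eg.const (c ^ (n + 1))).add e1) (hΦ.pow (n + 1))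
      (fun y => tangent_pow (h0 y) c0 n) L j z
    rw [node_add hw (Eg.const _) e1, node_const_mul, node_sub hw hΦ (Eg.const _)] at this
    simpa only [node_const hw, ← hc, sub_self, mul_zero, add_zero] using this

/-- centred moment of order `2 n` of the leaf -/
def Mk (w : Ω → ℝ) (N : List (Lv Ω)) (f : Ω → ℝ) (n : ℕ) (z : Ω → ℝ) : ℝ :=
  Pf w N z fun s => (f s - Pf w N z f) ^ (2 * n)

theorem eg_Mk (hw : Wt w) (N : List (Lv Ω)) (f : Ω → ℝ) (n : ℕ) : Eg (Mk w N f n) :=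
  Sy41.eg_Pf hw N (u := fun z s => (f s - Pf w N z f) ^ (2 * n)) fun _ =>
    ((Eg.const _).sub (Hess87.eg_Pf hw N f)).pow _

theorem Cb_eq (hw : Wt w) (N : List (Lv Ω)) (z f : Ω → ℝ) :
    Cb w N z f f = ∑ s, P w N z s * (f s - Pf w N z f) ^ 2 := by
  set c := Pf w N z f with hc
  have e : ∀ s, P w N z s * (f s - c) ^ 2 =
      P w N z s * (f s * f s) - 2 * c * (P w N z s * f s) + c ^ 2 * P w N z s := fun s => by ring
  simp only [e, Finset.sum_add_distrib, Finset.sum_sub_distrib, ← Finset.mul_sum, sum_P hw]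
  change Pf w N z (fun x => f x * f x) - c * c = Pf w N z (fun x => f x * f x) - 2 * c * c + _
  ring

theorem Cb_pow_le (hw : Wt w) (N : List (Lv Ω)) (z f : Ω → ℝ) (n : ℕ) :
    Cb w N z f f ^ n ≤ Mk w N f n z := by
  rw [Cb_eq hw]
  simpa only [Mk, Pf, pow_mul] using Real.pow_arith_mean_le_arith_mean_pow Finset.univ (P w N z)
    (fun s => (f s - Pf w N z f) ^ 2) (fun s _ => P_nonneg hw N z s) (sum_P hw N z)
    (fun s _ => sq_nonneg _) n

theorem incr_pow_le (hw : Wt w) (N : List (Lv Ω)) (d : ℕ) (z f : Ω → ℝ) (n : ℕ) :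
    node w N d (fun z' => (Pf w (N.drop d) z' f - Pf w N z f) ^ (2 * n)) z ≤ Mk w N f n z := by
  set c := Pf w N z f with hc
  refine (node_mono hw (((Hess87.eg_Pf hw _ f).sub (Eg.const c)).pow _)
    (Hess87.eg_Pf hw (N.drop d) fun s => (f s - c) ^ (2 * n)) (fun z' => ?_) N d z).trans_eq
    (node_sum_P hw _ N d z)
  have e : Pf w (N.drop d) z' f - c = ∑ s, P w (N.drop d) z' s * (f s - c) := by
    simp only [mul_sub, Finset.sum_sub_distrib, ← Finset.sum_mul, sum_P hw, one_mul, Pf]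
  rw [e]
  exact Real.pow_arith_mean_le_arith_mean_pow_of_even Finset.univ _ _
    (fun s _ => P_nonneg hw _ z' s) (sum_P hw _ z') (even_two_mul n)

section er
variable (hw : Wt w) {L : List (Lv Ω)} (hL : Mono 0 L) (l₀ : Lv Ω) {τ : ℕ → ℝ}
  (hτ : ∀ k (hk : k < L.length), Dom L[k] l₀ (τ k))
include hw hL hτ

omit hw in
theorem Sw_nonneg {a b : ℕ} (hb : b ≤ L.length) : 0 ≤ Sw L τ a b :=
  Finset.sum_nonneg fun k hk =>
    mul_nonneg (ex_nonneg hL k) (hτ k ((Finset.mem_Ico.1 hk).2.trans_le hb)).1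

omit hw in
theorem Win.pos {a j : ℕ} {θ : ℝ} (H : Win L τ a j θ) : 0 < θ := by
  obtain ⟨hj, b, -, -, h⟩ := H
  have := mul_nonneg (ex_nonneg hL b) (Sw_nonneg hL l₀ hτ (a := b) hj)
  by_contra k
  nlinarith [mul_nonneg (neg_nonneg.2 (not_lt.1 k)) this]

/-- **(ER), exponential form** -/
theorem er_exp {a j : ℕ} {θ : ℝ} (H : Win L τ a j θ) (v : l₀.ι → ℝ) (t : ℝ) (z : Ω → ℝ) :
    node w (L.drop a) (j - a) (fun y => Pf w (L.drop j) y fun s =>
      exp (t * (l₀.fld v s - Pf w (L.drop j) y (l₀.fld v)))) z ≤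
      exp (2 * (θ * ∑ i, v i ^ 2) * t ^ 2) := by
  have hθ := H.pos hL l₀ hτ
  obtain ⟨hJ, b, hab, hb, h1⟩ := H
  rcases (Finset.sum_nonneg fun i _ => sq_nonneg (v i) : 0 ≤ ∑ i, v i ^ 2).eq_or_lt with h0 | h0
  · have hv : v = 0 := funext fun i => pow_eq_zero_iff two_ne_zero |>.1
      ((Finset.sum_eq_zero_iff_of_nonneg fun i _ => sq_nonneg (v i)).1 h0.symm i (Finset.mem_univ i))
    subst hv
    simp [Pf, Lv.fld, sum_P hw, node_const hw]
  set s := ∑ i, v i ^ 2 with hs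
  set S := Sw L τ b j with hSd
  set x := ex L b with hx
  have x0 : 0 ≤ x := ex_nonneg hL b
  have S0 : 0 ≤ S := Sw_nonneg hL l₀ hτ hJ
  have xS : 0 < x * S := by
    by_contra k
    nlinarith [mul_nonneg hθ.le (neg_nonneg.2 (not_lt.1 k))]
  have xp : 0 < x := x0.lt_of_ne fun e => by simp [← e] at xS
  have Sp : 0 < S := S0.lt_of_ne fun e => by simp [← e] at xS
  have hN : (L.drop b).take (j - b) ++ L.drop j = L.drop b := by
    conv_rhs => rw [← List.take_append_drop (j - b) (L.drop b), List.drop_drop,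
      Nat.add_sub_cancel' hb]
  have hlen : ((L.drop b).take (j - b)).length = j - b := by
    simp only [List.length_take, List.length_drop]; omega
  have hm := mono_drop_ex b hL
  have nn : ∀ l ∈ (L.drop b).take (j - b) ++ L.drop j, x ≤ l.m := by rw [hN]; exact mono_mem hm
  have e2 : ERic43.SS ((L.drop b).take (j - b)) (fun k => √(τ (b + k)) / √s) = S / s := by
    rw [ERic43.SS, hlen, hSd, Sw, Finset.sum_Ico_eq_sum_range, Finset.sum_div]
    refine Finset.sum_congr rfl fun k hk => ?_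
    have hk := Finset.mem_range.1 hk
    have : ex ((L.drop b).take (j - b)) k = ex L (b + k) := by
      simp only [T157.Casc.ex, List.getElem?_take, if_pos hk, List.getElem?_drop]
    rw [this, div_pow, sq_sqrt (hτ (b + k) (by omega)).1, sq_sqrt h0.le, mul_div_assoc]
  rw [← node_tower' L hab hb]
  refine node_le hw ((ERic43.eg_leaf hw _ _ t).node hw _ _) (fun y => ?_) _ _ z
  have key := (eRicStmt Ω w hw ((L.drop b).take (j - b)) (L.drop j) x (l₀.fld v)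
    (fun k => √(τ (b + k)) / √s) xp ((Hess87.mono_le_one hm).trans one_le_two)
    (fun l hl => nn l (List.mem_append_left _ hl))
    (fun l hl => (half_le_self x0).trans (nn l (List.mem_append_right _ hl))) (fun k hk => by
      have hk' : b + k < L.length := by omega
      have e : ((L.drop b).take (j - b))[k] = L[b + k] := by simp
      rw [e]
      obtain ⟨η, κ, h1, h2⟩ := (hτ _ hk').2 fun i => 0 + (√s)⁻¹ * v i
      refine ⟨η, κ, fun x => ?_, h2.trans (le_of_eq ?_)⟩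
      · rw [h1, fld_lin]; simp [Lv.fld, div_eq_mul_inv, mul_assoc]
      · simp only [zero_add, mul_pow, ← Finset.mul_sum, inv_pow, sq_sqrt h0.le]
        exact inv_mul_cancel₀ h0.ne') (by rw [e2]; positivity) t y).1
  rw [hN, hlen, e2] at key
  refine key.trans (exp_le_exp.2 ?_)
  rw [div_le_iff₀ (by positivity)]
  have : 2 * (θ * s) * t ^ 2 * (x * (S / s)) = 2 * t ^ 2 * (θ * (x * S)) := by field_simp
  rw [this]
  exact le_mul_of_one_le_right (by positivity) h1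

/-- **(ER), moments of the leaf** -/
theorem er_Mk {a j : ℕ} {θ : ℝ} (H : Win L τ a j θ) (v : l₀.ι → ℝ) (n : ℕ) (z : Ω → ℝ) :
    node w (L.drop a) (j - a) (Mk w (L.drop j) (l₀.fld v) n) z ≤
      cK n * (θ * ∑ i, v i ^ 2) ^ n := by
  have hθ := H.pos hL l₀ hτ
  rcases (Finset.sum_nonneg fun i _ => sq_nonneg (v i) : 0 ≤ ∑ i, v i ^ 2).eq_or_lt with h0 | h0
  · have hv : v = 0 := funext fun i => pow_eq_zero_iff two_ne_zero |>.1
      ((Finset.sum_eq_zero_iff_of_nonneg fun i _ => sq_nonneg (v i)).1 h0.symm i (Finset.mem_univ i))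
    subst hv
    refine node_le hw (eg_Mk hw _ _ n) (fun y => ?_) _ _ z
    cases n with
    | zero => simpa [Mk, Pf, sum_P hw] using one_le_cK 0
    | succ n => simp [Mk, Pf, Lv.fld]
  set u := 2 * (θ * ∑ i, v i ^ 2) with hu
  have hv : 0 < u := by positivity
  have p := sqrt_pos.2 hv
  set t := (√u)⁻¹ with ht
  have e1 : u * t ^ 2 = 1 := by rw [ht, inv_pow, sq_sqrt hv.le, mul_inv_cancel₀ hv.ne']
  have h1 := er_exp hw hL l₀ hτ H v t z
  have h2 := er_exp hw hL l₀ hτ H v (-t) z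
  rw [neg_sq] at h2
  rw [← hu, e1] at h1 h2
  have g1 := ERic43.eg_leaf hw (L.drop j) (l₀.fld v) t
  have g2 := ERic43.eg_leaf hw (L.drop j) (l₀.fld v) (-t)
  have h3 := node_mono hw (eg_Mk hw (L.drop j) (l₀.fld v) n)
    ((g1.add g2).const_mul ((2 * n).factorial * u ^ n)) (fun y => by
      simp only [Mk, Pf, ← Finset.sum_add_distrib, Finset.mul_sum, ← mul_add]
      refine Finset.sum_le_sum fun s _ => ?_
      rw [mul_left_comm]
      refine mul_le_mul_of_nonneg_left ?_ (P_nonneg hw _ y s)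
      generalize l₀.fld v s - ∑ x, P w (L.drop j) y x * l₀.fld v x = Y
      have h4 := ERic43.pow_le_cosh (t * Y) n
      have e2 : Y ^ (2 * n) = u ^ n * (t * Y) ^ (2 * n) := by
        rw [mul_pow t, pow_mul t, ← mul_assoc, ← mul_pow, e1, one_pow, one_mul]
      rw [e2, neg_mul, mul_comm _ (u ^ n), mul_assoc]
      exact mul_le_mul_of_nonneg_left h4 (by positivity)) (L.drop a) (j - a) z
  rw [node_const_mul, node_add hw g1 g2] at h3
  refine h3.trans ((mul_le_mul_of_nonneg_left (add_le_add h1 h2) (by positivity)).trans_eq ?_)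
  rw [hu, cK, mul_pow]
  ring

/-- (ER) for the leaf, adapted direction -/
theorem CE_Mk {a j : ℕ} {θ : ℝ} (H : Win L τ a j θ) {η : Pth Ω → l₀.ι → ℝ} (aη : Ad a η) (n : ℕ)
    (p : Pth Ω) : CE w L a (fun q => Mk w (L.drop j) (l₀.fld (η q)) n (q j)) p ≤
      cK n * (θ * ∑ i, η p i ^ 2) ^ n := by
  rw [CE_node hw L H.le aη fun v z => Mk w (L.drop j) (l₀.fld v) n z]
  exact er_Mk hw hL l₀ hτ H _ n _

end er

/-- `η · (m_k - m_j)` along the path -/
def Yi (w : Ω → ℝ) (L : List (Lv Ω)) (l₀ : Lv Ω) (η : Pth Ω → l₀.ι → ℝ) (j k : ℕ) (p : Pth Ω) : ℝ :=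
  ∑ i, η p i * (mv w (L.drop k) l₀ (p k) i - mv w (L.drop j) l₀ (p j) i)

theorem ep_mv (hw : Wt w) (L : List (Lv Ω)) (l₀ : Lv Ω) (j : ℕ) (i : l₀.ι) :
    EP fun p : Pth Ω => mv w L l₀ (p j) i := EP.state (eg_mv hw L l₀ i) j

theorem ep_Yi (hw : Wt w) (L : List (Lv Ω)) (l₀ : Lv Ω) {η : Pth Ω → l₀.ι → ℝ}
    (hη : ∀ i, EP fun p => η p i) (j k : ℕ) : EP (Yi w L l₀ η j k) :=
  EP.sum _ fun i _ => (hη i).mul ((ep_mv hw _ l₀ k i).sub (ep_mv hw _ l₀ j i))

theorem ep_fld (l₀ : Lv Ω) {η : Pth Ω → l₀.ι → ℝ} (hη : ∀ i, EP fun p => η p i) (s : Ω) :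
    EP fun p => l₀.fld (η p) s := EP.sum _ fun i _ => (hη i).const_mul _

theorem ep_Pf (hw : Wt w) (N : List (Lv Ω)) (j : ℕ) {u : Pth Ω → Ω → ℝ}
    (hu : ∀ s, EP fun p => u p s) : EP fun p => Pf w N (p j) (u p) :=
  EP.sum _ fun s _ => (EP.state (eg_P hw N s) j).mul (hu s)

theorem ep_Mk (hw : Wt w) (N : List (Lv Ω)) (j : ℕ) {u : Pth Ω → Ω → ℝ}
    (hu : ∀ s, EP fun p => u p s) (n : ℕ) : EP fun p => Mk w N (u p) n (p j) :=
  ep_Pf hw N j fun s => ((hu s).sub (ep_Pf hw N j hu)).pow _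

theorem ep_Bq (hw : Wt w) (N : List (Lv Ω)) (l₀ : Lv Ω) (j : ℕ) {η : Pth Ω → l₀.ι → ℝ}
    (hη : ∀ i, EP fun p => η p i) : EP fun p => Bq w N l₀ (p j) (η p) :=
  EP.sum _ fun x _ => EP.sum _ fun y _ =>
    ((ep_fld l₀ hη x).mul (ep_fld l₀ hη y)).mul (EP.state (eg_Hs hw N x y) j)

theorem ep_sq {ι : Type} [Fintype ι] {η : Pth Ω → ι → ℝ} (hη : ∀ i, EP fun p => η p i) :
    EP fun p => ∑ i, η p i ^ 2 := EP.sum _ fun i _ => (hη i).pow 2

/-- the Hessian is a mixture of conditional variances -/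
theorem Hb_mix (hw : Wt w) (f : Ω → ℝ) : ∀ (L : List (Lv Ω)) (z : Ω → ℝ), Hb w L z f f =
    ∑ j ∈ Finset.range (L.length + 1), dm L 0 j * node w L j (fun y => Cb w (L.drop j) y f f) z
  | [], z => by simp [Hess87.Hb_nil, dm, exP, T157.Casc.ex]
  | l :: L, z => by
    have hX := lg_X hw L
    have eN := fun j => (Hess87.eg_Cb hw (L.drop j) f f).node hw L j
    have hc := Hess87.Cb_cons hw l L z f f
    rw [Hess87.Hb_cons hw, funext (Hb_mix hw f L), tE_sum hX _ fun j _ => (eN j).const_mul _,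
      List.length_cons, Finset.sum_range_succ' _ (L.length + 1), Finset.sum_range_succ',
      Finset.sum_range_succ' _ L.length]
    simp only [tE_const_mul, node_cons, List.drop_succ_cons, node_zero, List.drop_zero,
      dm_cons_succ]
    have e1 : ∀ j, dm L l.m (j + 1) = dm L 0 (j + 1) := fun _ => rfl
    have e2 : dm L l.m 0 = dm L 0 0 - l.m := by simp [dm, exP]
    have e3 : dm (l :: L) 0 0 = l.m := by simp [dm, exP, T157.Casc.ex]
    simp only [e1, e2, e3, hc]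
    ring

/-- `κ = x_y θ_y + ∑_{j > y} dm_j θ_j` -/
def kap (L : List (Lv Ω)) (θ : ℕ → ℝ) (y : ℕ) : ℝ :=
  ex L y * θ y + ∑ j ∈ Finset.Ioc y L.length, dm L 0 j * θ j

omit [Fintype Ω] in
theorem dm_drop (L : List (Lv Ω)) (y j : ℕ) : dm (L.drop y) 0 (j + 1) = dm L 0 (y + (j + 1)) := by
  simp only [dm, exP, T157.Casc.ex, List.getElem?_drop, ← add_assoc]
  rfl

omit [Fintype Ω] in
theorem dm_drop_zero (L : List (Lv Ω)) (y : ℕ) : dm (L.drop y) 0 0 = ex L y := by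
  simp [dm, exP, T157.Casc.ex]

omit [Fintype Ω] in
theorem kap_eq (L : List (Lv Ω)) (θ : ℕ → ℝ) (y : ℕ) : kap L θ y =
    ∑ j ∈ Finset.range ((L.drop y).length + 1), dm (L.drop y) 0 j * θ (y + j) := by
  rw [Finset.sum_range_succ', kap, add_comm, dm_drop_zero, List.length_drop, add_zero,
    ← Finset.Ico_add_one_add_one_eq_Ioc, Finset.sum_Ico_eq_sum_range, Nat.add_sub_add_right]
  simp only [dm_drop, add_assoc, add_comm 1]

section av
variable (hw : Wt w) {L : List (Lv Ω)} (hL : Mono 0 L) (l₀ : Lv Ω) {τ : ℕ → ℝ}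
  (hτ : ∀ k (hk : k < L.length), Dom L[k] l₀ (τ k))
include hw hL hτ

/-- **(ER)**: `E[(η · (m_k - m_j))^{2n} | 𝓕_a] ≤ c_n (θ |η|²)^n` -/
theorem CE_Yi {a j k : ℕ} {θ : ℝ} (H : Win L τ a j θ) (hjk : j ≤ k) {η : Pth Ω → l₀.ι → ℝ}
    (aη : Ad a η) (n : ℕ) (p : Pth Ω) :
    CE w L a (fun q => Yi w L l₀ η j k q ^ (2 * n)) p ≤ cK n * (θ * ∑ i, η p i ^ 2) ^ n := by
  have e : CE w L a (fun q => Yi w L l₀ η j k q ^ (2 * n)) p =
      CE w L a (fun q => Yi w L l₀ (fun _ => η p) j k q ^ (2 * n)) p := by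
    simp only [CE, Yi, aη.cat]
  have hc : ∀ i, EP fun _ : Pth Ω => η p i := fun i => EP.const _
  rw [e, ← CE_CE hw L H.le]
  refine (CE_mono hw L a (ep_CE hw L j ((ep_Yi hw L l₀ hc j k).pow _))
    (ep_Mk hw (L.drop j) j (ep_fld l₀ hc) n) (fun q => ?_) p).trans
    (CE_Mk hw hL l₀ hτ H (Ad.const a (η p)) n p)
  have h1 := CE_node hw L hjk (Ad.state le_rfl fun z => z)
    (fun z z' => (Pf w (L.drop k) z' (l₀.fld (η p)) - Pf w (L.drop j) z (l₀.fld (η p))) ^ (2 * n)) q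
  have h2 := incr_pow_le hw (L.drop j) (k - j) (q j) (l₀.fld (η p)) n
  rw [List.drop_drop, Nat.add_sub_cancel' hjk] at h2
  refine le_trans (le_of_eq ?_) (h1.trans_le h2)
  simp only [Yi, Pf_fld, ← Finset.sum_sub_distrib, ← sub_mul, mul_comm (η p _)]

omit hw hτ in
theorem ex_mono {b y : ℕ} (hb : b ≤ y) : ex L b ≤ ex L y := by
  have h4 := mono_drop_ex b hL
  rcases le_or_gt L.length y with e | hy'
  · exact (Hess87.mono_le_one h4).trans_eq (by simp [T157.Casc.ex, e])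
  · have h5 : ex L y = L[y].m := by simp [T157.Casc.ex, hy']
    rw [h5]
    exact mono_mem h4 _ (List.mem_drop_iff_getElem.2 ⟨y - b, by omega, by congr 1; omega⟩)

omit hw in
theorem kap_pos {a y : ℕ} {θ : ℕ → ℝ} (θ0 : ∀ j, 0 ≤ θ j) (Hy : Win L τ a y (θ y)) :
    0 < kap L θ y := by
  obtain ⟨hy, b, -, hb, h1⟩ := id Hy
  have h2 : 0 < ex L b := (ex_nonneg hL b).lt_of_ne fun e => by norm_num [← e] at h1
  exact add_pos_of_pos_of_nonneg (mul_pos (h2.trans_le (ex_mono hL hb)) (Hy.pos hL l₀ hτ))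
    (Finset.sum_nonneg fun j _ => mul_nonneg (dm_nonneg hL j) (θ0 j))

omit hw hL hτ in
theorem mix_pow {R : Finset ℕ} {μ θ N M : ℕ → ℝ} {κ : ℝ} (μ0 : ∀ j, 0 ≤ μ j) (θ0 : ∀ j, 0 ≤ θ j)
    (N0 : ∀ j, 0 ≤ N j) (hθ : ∀ j ∈ R, μ j ≠ 0 → 0 < θ j) (eκ : κ = ∑ j ∈ R, μ j * θ j)
    (κp : 0 < κ) (n : ℕ) (hM : ∀ j, N j ^ n ≤ M j) :
    (∑ j ∈ R, μ j * N j) ^ n ≤ ∑ j ∈ R, κ ^ n * (μ j * θ j / κ) / θ j ^ n * M j := by
  have h1 := Real.pow_arith_mean_le_arith_mean_pow R (fun j => μ j * θ j / κ) (fun j => N j / θ j)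
    (fun j _ => div_nonneg (mul_nonneg (μ0 j) (θ0 _)) κp.le)
    (by rw [← Finset.sum_div, ← eκ, div_self κp.ne']) (fun j _ => div_nonneg (N0 j) (θ0 _)) n
  have h2 : ∑ j ∈ R, μ j * N j = κ * ∑ j ∈ R, μ j * θ j / κ * (N j / θ j) := by
    rw [Finset.mul_sum]
    refine Finset.sum_congr rfl fun j hj => ?_
    by_cases h : μ j = 0
    · simp [h]
    · have := (hθ j hj h).ne'
      field_simp
  rw [h2, mul_pow]
  refine (mul_le_mul_of_nonneg_left h1 (by positivity)).trans ?_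
  rw [Finset.mul_sum]
  refine Finset.sum_le_sum fun j _ => ?_
  have h4 := μ0 j
  have h5 := θ0 j
  have h6 := mul_le_mul_of_nonneg_left (hM j)
    (by positivity : 0 ≤ κ ^ n * (μ j * θ j / κ) / θ j ^ n)
  refine le_trans (le_of_eq ?_) h6
  rw [div_pow]
  ring

/-- **(AV)** for a fixed direction -/
theorem av_node {a y : ℕ} {θ : ℕ → ℝ} (θ0 : ∀ j, 0 ≤ θ j) (Hy : Win L τ a y (θ y))
    (Hj : ∀ j, y < j → j ≤ L.length → dm L 0 j ≠ 0 → Win L τ a j (θ j)) (v : l₀.ι → ℝ) (n : ℕ)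
    (z : Ω → ℝ) : node w (L.drop a) (y - a) (fun u => Bq w (L.drop y) l₀ u v ^ n) z ≤
      cK n * (kap L θ y * ∑ i, v i ^ 2) ^ n := by
  have μ0 : ∀ j, 0 ≤ dm (L.drop y) 0 j := dm_nonneg (mono_drop y hL)
  have HW : ∀ j ∈ Finset.range ((L.drop y).length + 1), dm (L.drop y) 0 j ≠ 0 →
      Win L τ a (y + j) (θ (y + j)) := fun j hj h => by
    cases j with
    | zero => exact Hy
    | succ j =>
      have := Finset.mem_range.1 hj
      rw [List.length_drop] at this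
      rw [dm_drop] at h
      exact Hj _ (by omega) (by omega) h
  have eκ := kap_eq L θ y
  have κp := kap_pos hL l₀ hτ θ0 Hy
  generalize kap L θ y = κ at eκ κp
  have hR := Hb_mix hw (l₀.fld v) (L.drop y)
  generalize Finset.range ((L.drop y).length + 1) = R at eκ HW hR
  have eV := fun j => Hess87.eg_Cb hw ((L.drop y).drop j) (l₀.fld v) (l₀.fld v)
  have V0 := fun j u => Hess87.Cb_nonneg hw ((L.drop y).drop j) u (l₀.fld v)
  have eK := fun j => eg_Mk hw ((L.drop y).drop j) (l₀.fld v) n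
  have eM := fun j => ((eK j).node hw (L.drop y) j).const_mul
    (κ ^ n * (dm (L.drop y) 0 j * θ (y + j) / κ) / θ (y + j) ^ n)
  refine (node_mono hw ((Hess87.eg_Hb hw (L.drop y) _ _).pow n) (Eg.sum R fun j _ => eM j)
    (fun u => ?_) _ _ z).trans ?_
  · rw [hR]
    exact mix_pow μ0 (fun j => θ0 (y + j)) (fun j => node_nonneg w (V0 j) _ j u)
      (fun j hj h => (HW j hj h).pos hL l₀ hτ) eκ κp n fun j =>
        (node_pow_le hw (eV j) (V0 j) _ j u n).trans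
          (node_mono hw ((eV j).pow n) (eK j) (fun y => Cb_pow_le hw _ y _ n) _ j u)
  · rw [node_sum hw R fun j _ => eM j]
    simp only [node_const_mul]
    refine (Finset.sum_le_sum (g := fun j => dm (L.drop y) 0 j * θ (y + j) / κ *
      (cK n * (κ * ∑ i, v i ^ 2) ^ n)) fun j hj => ?_).trans_eq ?_
    · by_cases h : dm (L.drop y) 0 j = 0
      · simp [h]
      · have hW := HW j hj h
        have p := hW.pos hL l₀ hτ
        have h7 := er_Mk hw hL l₀ hτ hW v n z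
        have h8 := node_tower' (w := w) L Hy.le (Nat.le_add_right y j)
          (Mk w (L.drop (y + j)) (l₀.fld v) n)
        rw [Nat.add_sub_cancel_left] at h8
        have h4 := μ0 j
        rw [List.drop_drop, h8]
        refine (mul_le_mul_of_nonneg_left h7 (by positivity)).trans_eq ?_
        rw [mul_pow, mul_pow]
        field_simp
    · rw [← Finset.sum_mul, ← Finset.sum_div, ← eκ, div_self κp.ne', one_mul]

/-- **(AV)**: `E[(ηᵀ A_y η)^n | 𝓕_a] ≤ c_n (κ |η|²)^n` -/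
theorem CE_Bq {a y : ℕ} {θ : ℕ → ℝ} (θ0 : ∀ j, 0 ≤ θ j) (Hy : Win L τ a y (θ y))
    (Hj : ∀ j, y < j → j ≤ L.length → dm L 0 j ≠ 0 → Win L τ a j (θ j))
    {η : Pth Ω → l₀.ι → ℝ} (aη : Ad a η) (n : ℕ) (p : Pth Ω) :
    CE w L a (fun q => Bq w (L.drop y) l₀ (q y) (η q) ^ n) p ≤
      cK n * (kap L θ y * ∑ i, η p i ^ 2) ^ n := by
  rw [CE_node hw L Hy.le aη fun v z => Bq w (L.drop y) l₀ z v ^ n]
  exact av_node hw hL l₀ hτ θ0 Hy Hj _ n _

end av

end Crest.Agent.T156.Cas.LpR43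

end
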