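import Crest.Agent.T156.CasDef_88

/-!
# Row 156: Cramér–Rao budget and the Riccati bound for cascades (helper63)

`budStmt : BudStmt`, `ricStmt : RicStmt`.
-/

set_option autoImplicit false
set_option linter.unusedSectionVars false

noncomputable section

namespace Crest.Agent.T156.Cas

open MeasureTheory Real Set
open Crest.Agent.T157.E Crest.Agent.T157.Casc Crest.Agent.T157.SL

namespace Ric63

variable {Ω : Type} [Fintype Ω]

lemma fld_bd (l : Lv Ω) : ∃ B : ℝ, 0 ≤ B ∧ ∀ g, ‖l.fld g‖ ≤ B * ‖g‖ := by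
  classical
  obtain ⟨B, h0, hB⟩ := (l.cst_okD univ).toOkC.sh_bd
  exact ⟨B, h0, fun g => hB 0 g trivial⟩

lemma eg_fld {Φ : (Ω → ℝ) → ℝ} (h : Eg Φ) (l : Lv Ω) (z : Ω → ℝ) :
    Eg fun g : l.ι → ℝ => Φ (z + l.fld g) := by
  obtain ⟨B, h0, hB⟩ := fld_bd l
  obtain ⟨C, c, h1, h2, h3⟩ := h.bd
  refine ⟨h.cont_fld l z, C * exp (c * ‖z‖), c * B, by positivity, by positivity, fun g => ?_⟩
  refine (h3 _).trans ?_
  rw [mul_assoc, ← exp_add]
  refine mul_le_mul_of_nonneg_left (exp_le_exp.2 ?_) h1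
  have := mul_le_mul_of_nonneg_left ((norm_add_le z _).trans (add_le_add le_rfl (hB g))) h2
  linarith

lemma lg_fld {F : (Ω → ℝ) → ℝ} (h : Lg F) (l : Lv Ω) (z : Ω → ℝ) :
    Lg fun g : l.ι → ℝ => F (z + l.fld g) := by
  obtain ⟨B, h0, hB⟩ := fld_bd l
  obtain ⟨C, c, -, h2, h3⟩ := h.bd
  refine Lg.of (h.eg.cont_fld l z) (C + c * ‖z‖) (c * B) fun g =>
    (h3 (0, z + l.fld g) trivial).trans ?_
  have := mul_le_mul_of_nonneg_left ((norm_add_le z _).trans (add_le_add le_rfl (hB g))) h2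
  simp only
  linarith

lemma gr_fld {Φ : (Ω → ℝ) → ℝ} {Ψ : Ω → (Ω → ℝ) → ℝ} (h : Gr Φ Ψ) (l : Lv Ω) (z : Ω → ℝ) :
    Gr (fun g : l.ι → ℝ => Φ (z + l.fld g)) fun i g => ∑ y, Ψ y (z + l.fld g) * l.A y i := by
  refine ⟨eg_fld h.eg l z, fun i => Eg.sum _ fun y _ => (eg_fld (h.eg' y) l z).mul_const _,
    fun g => ?_⟩
  let T : (l.ι → ℝ) →L[ℝ] (Ω → ℝ) :=
    ContinuousLinearMap.pi fun x => Crest.Agent.R339.Guerra.dual (l.A x)
  have hT : ∀ g, l.fld g = T g := fun g => by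
    funext x; simp [T, Lv.fld]
  have h1 : HasFDerivAt (fun g : l.ι → ℝ => z + l.fld g) T g := by
    simp only [hT]; exact T.hasFDerivAt.const_add z
  refine ((h.fd _).comp g h1).congr_fderiv (ContinuousLinearMap.ext fun v => ?_)
  simp only [ContinuousLinearMap.comp_apply, Crest.Agent.R339.Guerra.dual_apply, T,
    ContinuousLinearMap.pi_apply, Finset.mul_sum, Finset.sum_mul]
  rw [Finset.sum_comm]
  exact Finset.sum_congr rfl fun _ _ => Finset.sum_congr rfl fun _ _ => by ring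

open Classical in
/-- the level whose energy is the noise itself -/
def l0 (ι : Type) [Fintype ι] (m : ℝ) : Lv ι := ⟨ι, fun x i => if x = i then 1 else 0, m⟩

lemma l0_fld {ι : Type} [Fintype ι] (m : ℝ) (g : ι → ℝ) : 0 + (l0 ι m).fld g = g := by
  funext x
  simp only [Lv.fld, l0, Pi.add_apply, Pi.zero_apply, zero_add, ite_mul, one_mul, zero_mul]
  rw [Finset.sum_eq_single x]
  · simp
  · intro b _ hb; simp [hb.symm]
  · simp

lemma tE_l0 (l : Lv Ω) (F Φ : (Ω → ℝ) → ℝ) (z : Ω → ℝ) :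
    tE (l0 l.ι l.m) (fun g => F (z + l.fld g)) (fun g => Φ (z + l.fld g)) 0 = tE l F Φ z := by
  have e : ∀ g : (l0 l.ι l.m).ι → ℝ, 0 + (l0 l.ι l.m).fld g = g := l0_fld l.m
  simp only [tE, e]
  rfl

lemma gr_coord {ι : Type} [Fintype ι] (η : ι → ℝ) :
    Gr (fun g : ι → ℝ => ∑ i, η i * g i) fun i _ => η i :=
  ⟨Eg.sum _ fun i _ => (Eg.coord i).const_mul _, fun _ => Eg.const _, fun g => by
    have e : (fun g : ι → ℝ => ∑ i, η i * g i) = Crest.Agent.R339.Guerra.dual η := by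
      funext g; simp
    rw [e]; exact (Crest.Agent.R339.Guerra.dual η).hasFDerivAt⟩

lemma tE_var {F Φ : (Ω → ℝ) → ℝ} (hF : Lg F) (h : Eg Φ) (l : Lv Ω) (z : Ω → ℝ) (c : ℝ) :
    tE l F (fun z => (Φ z - c) ^ 2) z =
      tE l F (fun z => Φ z ^ 2) z - 2 * c * tE l F Φ z + c ^ 2 := by
  have e : (fun z => (Φ z - c) ^ 2) = fun z => (Φ z ^ 2 - 2 * c * Φ z) + c ^ 2 := by
    funext z; ring
  rw [e, tE_add hF ((h.pow 2).sub (h.const_mul _)) (Eg.const _), tE_sub hF (h.pow 2)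
    (h.const_mul _), tE_const_mul, tE_const hF]

lemma var_nonneg {F Φ : (Ω → ℝ) → ℝ} (hF : Lg F) (h : Eg Φ) (l : Lv Ω) (z : Ω → ℝ) :
    0 ≤ tE l F (fun z => Φ z ^ 2) z - tE l F Φ z ^ 2 := by
  have h1 := tE_var hF h l z (tE l F Φ z)
  have h2 := tE_nonneg l F (Φ := fun z' => (Φ z' - tE l F Φ z) ^ 2) (fun _ => sq_nonneg _) z
  nlinarith

lemma tE_cs {F Φ Φ' : (Ω → ℝ) → ℝ} (hF : Lg F) (h : Eg Φ) (h' : Eg Φ') (l : Lv Ω) (z : Ω → ℝ) :
    tE l F (fun z => Φ z * Φ' z) z ^ 2 ≤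
      tE l F (fun z => Φ z ^ 2) z * tE l F (fun z => Φ' z ^ 2) z := by
  have key : ∀ t : ℝ, 0 ≤ tE l F (fun z => Φ z ^ 2) z * (t * t) +
      2 * tE l F (fun z => Φ z * Φ' z) z * t + tE l F (fun z => Φ' z ^ 2) z := fun t => by
    have h2 := tE_nonneg l F (Φ := fun z => (t * Φ z + Φ' z) ^ 2) (fun _ => sq_nonneg _) z
    have e : (fun z => (t * Φ z + Φ' z) ^ 2) =
        fun z => (t * t * Φ z ^ 2 + 2 * t * (Φ z * Φ' z)) + Φ' z ^ 2 := by funext z; ring
    rw [e, tE_add hF (((h.pow 2).const_mul _).add ((h.mul h').const_mul _)) (h'.pow 2),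
      tE_add hF ((h.pow 2).const_mul _) ((h.mul h').const_mul _), tE_const_mul,
      tE_const_mul] at h2
    linarith
  have := discrim_le_zero key
  rw [discrim] at this
  linarith

/-- the score identity -/
lemma score {ι : Type} [Fintype ι] {F Θ : (ι → ℝ) → ℝ} {F₁ Θ₁ : ι → (ι → ℝ) → ℝ} (hF : Lg F)
    (h1 : Gr F F₁) (hΘ : Gr Θ Θ₁) (m : ℝ) (η : ι → ℝ) :
    tE (l0 ι m) F (fun g => (∑ i, η i * g i - m * ∑ i, η i * F₁ i g) * Θ g) 0 =
      tE (l0 ι m) F (fun g => ∑ i, η i * Θ₁ i g) 0 := by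
  classical
  have e0 : ∀ g : (l0 ι m).ι → ℝ, 0 + (l0 ι m).fld g = g := l0_fld m
  have st : ∀ i, tE (l0 ι m) F (fun g => g i * Θ g) 0 =
      tE (l0 ι m) F (fun z => Θ₁ i z + m * (Θ z * F₁ i z)) 0 := fun i => by
    have h := stein_tE hΘ h1 hF (l0 ι m) 0 i
    have e1 : ∑ y, (l0 ι m).A y i * tE (l0 ι m) F (fun z => Θ₁ y z + (l0 ι m).m * (Θ z * F₁ y z)) 0 =
        tE (l0 ι m) F (fun z => Θ₁ i z + m * (Θ z * F₁ i z)) 0 := by
      rw [Finset.sum_eq_single i]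
      · simp [l0]
      · intro b _ hb; simp [l0, hb]
      · simp
    rw [← e1, ← h, tE]
    congr 2
    funext g
    rw [e0 g]; ring
  have e : (fun g => (∑ i, η i * g i - m * ∑ i, η i * F₁ i g) * Θ g) =
      fun g => ∑ i, η i * (g i * Θ g - m * (Θ g * F₁ i g)) := by
    funext g
    rw [Finset.mul_sum, ← Finset.sum_sub_distrib, Finset.sum_mul]
    exact Finset.sum_congr rfl fun _ _ => by ring
  rw [e, tE_sum hF _ fun i _ => (((Eg.coord i).mul hΘ.eg).sub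
      ((hΘ.eg.mul (h1.eg' i)).const_mul _)).const_mul _,
    tE_sum hF _ fun i _ => (hΘ.eg' i).const_mul _]
  refine Finset.sum_congr rfl fun i _ => ?_
  rw [tE_const_mul, tE_const_mul, tE_sub hF ((Eg.coord i).mul hΘ.eg)
    ((hΘ.eg.mul (h1.eg' i)).const_mul _), st i,
    tE_add hF (hΘ.eg' i) ((hΘ.eg.mul (h1.eg' i)).const_mul _)]
  ring

/-- Cramér–Rao in the noise space -/
lemma cr0 {ι : Type} [Fintype ι] {F Θ : (ι → ℝ) → ℝ} {F₁ Θ₁ : ι → (ι → ℝ) → ℝ}
    {F₂ : ι → ι → (ι → ℝ) → ℝ} (hF : Lg F) (h1 : Gr F F₁) (h2 : ∀ i, Gr (F₁ i) (F₂ i))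
    (hΘ : Gr Θ Θ₁) (m : ℝ) (η : ι → ℝ) :
    tE (l0 ι m) F (fun g => ∑ i, η i * Θ₁ i g) 0 ^ 2 ≤
      (∑ i, η i ^ 2 - m * tE (l0 ι m) F (fun g => ∑ j, η j * ∑ i, η i * F₂ i j g) 0) *
        (tE (l0 ι m) F (fun g => Θ g ^ 2) 0 - tE (l0 ι m) F Θ 0 ^ 2) := by
  set c := tE (l0 ι m) F Θ 0 with hc
  have hs : Gr (fun g => ∑ i, η i * g i - m * ∑ i, η i * F₁ i g)
      fun j g => η j - m * ∑ i, η i * F₂ i j g := by
    have := (gr_coord η).add ((Gr.sum Finset.univ fun i _ => (h2 i).const_mul (η i)).const_mul (-m))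
    simpa only [neg_mul, ← sub_eq_add_neg] using this
  have hΘ' : Gr (fun g => Θ g - c) Θ₁ := by
    simpa only [← sub_eq_add_neg, add_zero] using hΘ.add (Gr.const (-c))
  have a1 := score hF h1 hΘ' m η
  have a2 := score hF h1 hs m η
  have a3 := tE_cs hF hs.eg hΘ'.eg (l0 ι m) 0
  have e2 : Eg fun g => ∑ j, η j * ∑ i, η i * F₂ i j g :=
    Eg.sum _ fun j _ => (Eg.sum _ fun i _ => ((h2 i).eg' j).const_mul _).const_mul _
  have e : (fun g => ∑ j, η j * (η j - m * ∑ i, η i * F₂ i j g)) =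
      fun g => ∑ i, η i ^ 2 - m * ∑ j, η j * ∑ i, η i * F₂ i j g := by
    funext g
    rw [Finset.mul_sum, ← Finset.sum_sub_distrib]
    exact Finset.sum_congr rfl fun _ _ => by ring
  rw [e, tE_sub hF (Eg.const _) (e2.const_mul _), tE_const hF, tE_const_mul] at a2
  simp only [← sq] at a2
  rw [a1, a2, tE_var hF hΘ.eg, ← hc] at a3
  calc _ ≤ _ := a3
    _ = _ := by ring

lemma lin_sum {ι : Type} [Fintype ι] (A : Ω → ι → ℝ) (d : Ω → ℝ) (η : ι → ℝ) :
    ∑ y, d y * ∑ i, A y i * η i = ∑ i, η i * ∑ y, d y * A y i := by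
  simp only [Finset.mul_sum]
  rw [Finset.sum_comm]
  exact Finset.sum_congr rfl fun _ _ => Finset.sum_congr rfl fun _ _ => by ring

lemma quad {ι : Type} [Fintype ι] (A : Ω → ι → ℝ) (H : Ω → Ω → ℝ) (η : ι → ℝ) :
    ∑ x, ∑ y, (∑ i, A x i * η i) * (∑ j, A y j * η j) * H x y =
      ∑ j, η j * ∑ i, η i * ∑ y', (∑ y, A y i * H y y') * A y' j := by
  have e1 : ∀ j, ∑ i, η i * ∑ y', (∑ y, A y i * H y y') * A y' j =
      ∑ y', (∑ y, H y y' * ∑ i, A y i * η i) * A y' j := fun j => by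
    have e2 : ∀ y', ∑ y, H y y' * ∑ i, A y i * η i = ∑ i, η i * ∑ y, H y y' * A y i :=
      fun y' => lin_sum A _ η
    simp only [e2]
    simp only [Finset.sum_mul, Finset.mul_sum]
    rw [Finset.sum_comm]
    exact Finset.sum_congr rfl fun _ _ => Finset.sum_congr rfl fun _ _ =>
      Finset.sum_congr rfl fun _ _ => by ring
  simp only [e1]
  rw [← lin_sum, Finset.sum_comm]
  refine Finset.sum_congr rfl fun y _ => ?_
  rw [Finset.sum_mul]
  exact Finset.sum_congr rfl fun _ _ => by ring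

/-- Cramér–Rao at one level of a cascade -/
lemma cr {w : Ω → ℝ} (hw : Wt w) (l : Lv Ω) (L : List (Lv Ω)) (h : Ω → ℝ) {Φ : (Ω → ℝ) → ℝ}
    {Ψ : Ω → (Ω → ℝ) → ℝ} (hΦ : Gr Φ Ψ) (η : l.ι → ℝ) :
    tE l (X w L) (fun z => ∑ y, Ψ y z * l.fld η y) h ^ 2 ≤
      (∑ i, η i ^ 2 - l.m * tE l (X w L) (fun z => Hb w L z (l.fld η) (l.fld η)) h) *
        (tE l (X w L) (fun z => Φ z ^ 2) h - tE l (X w L) Φ h ^ 2) := by
  have h2 : ∀ i, Gr (fun g : l.ι → ℝ => ∑ y, P w L (h + l.fld g) y * l.A y i)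
      fun j g => ∑ y', (∑ y, l.A y i * Hs w L (h + l.fld g) y y') * l.A y' j := fun i => by
    have := gr_fld (Gr.sum Finset.univ fun y _ => (gr_P hw L y).const_mul (l.A y i)) l h
    simpa only [mul_comm (l.A _ i) (P w L _ _)] using this
  have := cr0 (lg_fld (lg_X hw L) l h) (gr_fld (gr_X hw L) l h) h2 (gr_fld hΦ l h) l.m η
  rw [← tE_l0 l, ← tE_l0 l, ← tE_l0 l, ← tE_l0 l]
  convert this using 5 with g g
  · exact lin_sum l.A _ η
  · exact funext fun g => quad l.A _ η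

variable {w : Ω → ℝ}

lemma eg_Hb (hw : Wt w) (L : List (Lv Ω)) (f f' : Ω → ℝ) : Eg fun z => Hb w L z f f' :=
  Eg.sum _ fun x _ => Eg.sum _ fun y _ => (eg_Hs hw L x y).const_mul _

lemma gr_Pf (hw : Wt w) (L : List (Lv Ω)) (f : Ω → ℝ) :
    Gr (fun z => Pf w L z f) fun y z => ∑ x, f x * Hs w L z x y := by
  have := Gr.sum Finset.univ fun x _ => (gr_P hw L x).const_mul (f x)
  simpa only [Pf, mul_comm (f _) (P w L _ _)] using this

lemma Pf_cons (hw : Wt w) (l : Lv Ω) (L : List (Lv Ω)) (h f : Ω → ℝ) :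
    Pf w (l :: L) h f = tE l (X w L) (fun z => Pf w L z f) h := by
  simp only [Pf, P]
  rw [tE_sum (lg_X hw L) _ fun x _ => (eg_P hw L x).mul_const _]
  simp only [tE_mul_const]

lemma Hb_cons (hw : Wt w) (l : Lv Ω) (L : List (Lv Ω)) (h f : Ω → ℝ) :
    Hb w (l :: L) h f f = tE l (X w L) (fun z => Hb w L z f f) h + l.m *
      (tE l (X w L) (fun z => Pf w L z f ^ 2) h - tE l (X w L) (fun z => Pf w L z f) h ^ 2) := by
  have hX := lg_X hw L
  have e0 : ∀ x y, Eg fun z => f x * f y * (Hs w L z x y + l.m * (P w L z x * P w L z y)) :=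
    fun x y => ((eg_Hs hw L x y).add (((eg_P hw L x).mul (eg_P hw L y)).const_mul _)).const_mul _
  have sq : ∀ p : Ω → ℝ, (∑ x, p x * f x) ^ 2 = ∑ x, ∑ y, f x * f y * (p x * p y) := fun p => by
    rw [pow_two, Finset.sum_mul_sum]
    exact Finset.sum_congr rfl fun _ _ => Finset.sum_congr rfl fun _ _ => by ring
  have e1 : tE l (X w L) (fun z => Hb w L z f f) h +
      l.m * tE l (X w L) (fun z => Pf w L z f ^ 2) h = ∑ x, ∑ y, f x * f y *
        tE l (X w L) (fun z => Hs w L z x y + l.m * (P w L z x * P w L z y)) h := by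
    rw [← tE_const_mul, ← tE_add hX (eg_Hb hw L f f) (((gr_Pf hw L f).eg.pow 2).const_mul _)]
    simp only [← tE_const_mul]
    simp only [← tE_sum hX _ fun y _ => e0 _ y]
    rw [← tE_sum hX _ fun x _ => Eg.sum _ fun y _ => e0 x y]
    congr 1
    funext z
    simp only [Hb, Pf, sq, Finset.mul_sum, ← Finset.sum_add_distrib]
    exact Finset.sum_congr rfl fun _ _ => Finset.sum_congr rfl fun _ _ => by ring
  rw [mul_sub, ← add_sub_assoc, e1, ← Pf_cons hw, Pf, sq]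
  simp only [Hb, Hs, Finset.mul_sum, ← Finset.sum_sub_distrib]
  exact Finset.sum_congr rfl fun _ _ => Finset.sum_congr rfl fun _ _ => by ring

lemma Hb_nil (hw : Wt w) (h f : Ω → ℝ) : 0 ≤ Hb w [] h f f := by
  classical
  have e : Hb w [] h f f = ∑ x, P w [] h x * (f x - Pf w [] h f) ^ 2 := by
    have h1 := sum_P hw [] h
    have e1 : Hb w [] h f f = ∑ x, P w [] h x * f x ^ 2 - Pf w [] h f ^ 2 := by
      simp only [Hb, Hs, Pf, mul_sub, Finset.sum_sub_distrib, mul_ite, mul_zero,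
        Finset.sum_ite_eq, Finset.mem_univ, if_true, pow_two, Finset.sum_mul_sum]
      congr 1
      · exact Finset.sum_congr rfl fun _ _ => by ring
      · exact Finset.sum_congr rfl fun _ _ => Finset.sum_congr rfl fun _ _ => by ring
    have e2 : ∑ x, P w [] h x * (f x - Pf w [] h f) ^ 2 = ∑ x, P w [] h x * f x ^ 2 -
        2 * Pf w [] h f * (∑ x, P w [] h x * f x) + Pf w [] h f ^ 2 * ∑ x, P w [] h x := by
      simp only [Finset.mul_sum, ← Finset.sum_sub_distrib, ← Finset.sum_add_distrib]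
      exact Finset.sum_congr rfl fun _ _ => by ring
    have e3 : ∑ x, P w [] h x * f x = Pf w [] h f := rfl
    rw [e1, e2, h1, e3]
    ring
  rw [e]
  exact Finset.sum_nonneg fun x _ => mul_nonneg (P_nonneg hw _ _ _) (sq_nonneg _)

lemma Hb_nonneg (hw : Wt w) (f : Ω → ℝ) : ∀ L : List (Lv Ω), (∀ l ∈ L, 0 ≤ l.m) →
    ∀ h, 0 ≤ Hb w L h f f
  | [], _, h => Hb_nil hw h f
  | l :: L, hL, h => by
    rw [Hb_cons hw]
    exact add_nonneg (tE_nonneg _ _ (Hb_nonneg hw f L fun k hk => hL k (by simp [hk])) _)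
      (mul_nonneg (hL l (by simp)) (var_nonneg (lg_X hw L) (gr_Pf hw L f).eg l h))

lemma sum_Hs_row (hw : Wt w) (x : Ω) : ∀ (L : List (Lv Ω)) (h : Ω → ℝ), ∑ y, Hs w L h x y = 0
  | [], h => by
    classical
    simp only [Hs, Finset.sum_sub_distrib, ← Finset.mul_sum, sum_P hw, mul_one]
    rw [Finset.sum_eq_single x]
    · simp
    · intro b _ hb; simp [hb.symm]
    · simp
  | l :: L, h => by
    simp only [Hs, Finset.sum_sub_distrib, ← Finset.mul_sum, sum_P hw, mul_one]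
    rw [← tE_sum (lg_X hw L) _ fun y _ =>
      (eg_Hs hw L x y).add (((eg_P hw L x).mul (eg_P hw L y)).const_mul _)]
    simp only [Finset.sum_add_distrib, ← Finset.mul_sum, sum_P hw, sum_Hs_row hw x L, mul_one,
      zero_add, tE_const_mul, P, sub_self]

lemma Hb_aff (hH : HessStmt) (hw : Wt w) (L : List (Lv Ω)) (hL : ∀ l ∈ L, 0 ≤ l.m)
    (h f : Ω → ℝ) (c κ : ℝ) :
    Hb w L h (fun x => c * f x + κ) (fun x => c * f x + κ) = c ^ 2 * Hb w L h f f := by
  have a : ∀ u v : Ω → ℝ, Hb w L h u (fun x => c * v x + κ) = c * Hb w L h u v := fun u v => by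
    simp only [Hb, Finset.mul_sum]
    refine Finset.sum_congr rfl fun x _ => ?_
    have := sum_Hs_row hw x L h
    calc _ = ∑ y, c * (u x * v y * Hs w L h x y) + u x * κ * ∑ y, Hs w L h x y := by
          rw [Finset.mul_sum, ← Finset.sum_add_distrib]
          exact Finset.sum_congr rfl fun _ _ => by ring
      _ = _ := by rw [this, mul_zero, add_zero]
  rw [a, ((hH Ω w hw).2.2 L h _ f hL).1, a]
  ring

lemma ric1 (hw : Wt w) (l : Lv Ω) (L : List (Lv Ω)) (h : Ω → ℝ) (η : l.ι → ℝ) (hm : 0 ≤ l.m) :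
    tE l (X w L) (fun z => Hb w L z (l.fld η) (l.fld η)) h *
        (∑ i, η i ^ 2 + l.m * Hb w (l :: L) h (l.fld η) (l.fld η)) ≤
      Hb w (l :: L) h (l.fld η) (l.fld η) * ∑ i, η i ^ 2 := by
  have h1 := cr hw l L h (gr_Pf hw L (l.fld η)) η
  have e : (fun z => ∑ y, (∑ x, l.fld η x * Hs w L z x y) * l.fld η y) =
      fun z => Hb w L z (l.fld η) (l.fld η) := by
    funext z
    simp only [Hb, Finset.sum_mul]
    rw [Finset.sum_comm]
    exact Finset.sum_congr rfl fun _ _ => Finset.sum_congr rfl fun _ _ => by ring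
  rw [e] at h1
  rw [Hb_cons hw]
  have := mul_le_mul_of_nonneg_left h1 hm
  nlinarith

lemma ric2 (hH : HessStmt) (hw : Wt w) (L : List (Lv Ω)) (f : Ω → ℝ) :
    ∀ (M : List (Lv Ω)) (h : Ω → ℝ) (c : ℕ → ℝ), (∀ l ∈ M ++ L, 0 ≤ l.m) →
    (∀ j (hj : j < M.length), ∃ (η : M[j].ι → ℝ) (κ : ℝ),
      (∀ x, M[j].fld η x = c j * f x + κ) ∧ ∑ i, η i ^ 2 ≤ 1) →
    node w (M ++ L) M.length (fun z => Hb w L z f f) h *
        (1 + (∑ j ∈ Finset.range M.length, ex M j * c j ^ 2) * Hb w (M ++ L) h f f) ≤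
      Hb w (M ++ L) h f f
  | [], h, c, _, _ => by simp
  | l :: M, h, c, hm, hc => by
    have hm' : ∀ k ∈ M ++ L, 0 ≤ k.m := fun k hk => hm k (List.mem_cons_of_mem _ hk)
    have hl : 0 ≤ l.m := hm l (by simp)
    have ih := fun z => ric2 hH hw L f M z (fun j => c (j + 1)) hm'
      fun j hj => hc (j + 1) (Nat.succ_lt_succ hj)
    have hX := lg_X hw (M ++ L)
    set τ := ∑ j ∈ Finset.range M.length, ex M j * c (j + 1) ^ 2 with hτ
    have hτ0 : 0 ≤ τ := Finset.sum_nonneg fun j hj => mul_nonneg (by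
      have hj' := Finset.mem_range.1 hj
      have : ex M j = M[j].m := by simp [ex, List.getElem?_eq_getElem hj']
      rw [this]
      exact hm' _ (List.mem_append_left _ (List.getElem_mem hj'))) (sq_nonneg _)
    obtain ⟨η, κ, hη, hN⟩ := hc 0 (Nat.succ_pos _)
    change l.ι → ℝ at η
    have hη' : l.fld η = fun x => c 0 * f x + κ := funext hη
    have hN' : ∑ i, η i ^ 2 ≤ 1 := hN
    have r1 := ric1 hw l (M ++ L) h η hl
    simp only [hη', Hb_aff hH hw _ hm', tE_const_mul] at r1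
    rw [Hb_aff hH hw (l :: (M ++ L)) hm] at r1
    set a := Hb w (l :: (M ++ L)) h f f with ha
    set b := tE l (X w (M ++ L)) (fun z => Hb w (M ++ L) z f f) h with hb
    have hb0 : 0 ≤ b := tE_nonneg _ _ (Hb_nonneg hw f _ hm') _
    have hab : b ≤ a := by
      rw [ha, Hb_cons hw]
      exact le_add_of_nonneg_right (mul_nonneg hl (var_nonneg hX (gr_Pf hw _ f).eg l h))
    have r2 : b * (1 + l.m * c 0 ^ 2 * a) ≤ a := by
      rcases (sq_nonneg (c 0)).eq_or_lt with h0 | h0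
      · rw [← h0]; simpa using hab
      · have h3 : b * (∑ i, η i ^ 2 + l.m * (c 0 ^ 2 * a)) ≤ a * ∑ i, η i ^ 2 :=
          le_of_mul_le_mul_left (by linarith) h0
        nlinarith [mul_le_mul_of_nonneg_left hN' (sub_nonneg.2 hab)]
    have hD : 0 < 1 + τ * b := by positivity
    have eN := (eg_Hb hw L f f).node hw (M ++ L) M.length
    have r3 : tE l (X w (M ++ L)) (fun z => node w (M ++ L) M.length (fun z => Hb w L z f f) z *
        (1 + τ * b) ^ 2) h ≤ tE l (X w (M ++ L)) (fun z => τ * b ^ 2 + Hb w (M ++ L) z f f) h :=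
      tE_mono hX (eN.mul_const _) ((Eg.const _).add (eg_Hb hw _ f f)) (fun z => by
        have i1 := ih z
        have i2 := Hb_nonneg hw f _ hm' z
        have i3 : 0 < 1 + τ * Hb w (M ++ L) z f f := by positivity
        refine le_of_mul_le_mul_right ?_ i3
        have i4 := mul_le_mul_of_nonneg_right i1 (sq_nonneg (1 + τ * b))
        nlinarith [mul_nonneg hτ0 (sq_nonneg (b - Hb w (M ++ L) z f f))]) l h
    rw [tE_mul_const, tE_add hX (Eg.const _) (eg_Hb hw _ f f), tE_const hX, ← hb] at r3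
    change tE l (X w (M ++ L)) (node w (M ++ L) M.length fun z => Hb w L z f f) h *
      (1 + (∑ j ∈ Finset.range (M.length + 1), ex (l :: M) j * c j ^ 2) * a) ≤ a
    rw [Finset.sum_range_succ']
    change _ * (1 + (τ + l.m * c 0 ^ 2) * a) ≤ a
    set B := tE l (X w (M ++ L)) (node w (M ++ L) M.length fun z => Hb w L z f f) h
    have r4 : B * (1 + τ * b) ≤ b := le_of_mul_le_mul_right (by nlinarith) hD
    have ha0 : 0 ≤ a := hb0.trans hab
    have hE : 0 ≤ 1 + (τ + l.m * c 0 ^ 2) * a := by positivity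
    refine le_of_mul_le_mul_right ?_ hD
    nlinarith [mul_le_mul_of_nonneg_right r4 hE]

end Ric63

open Ric63 in
theorem budStmt : BudStmt := by
  intro Ω _ w hw l L h Φ Ψ hm hL hΦ
  set a : l.ι → ℝ := fun i => tE l (X w L) (fun z => ∑ y, Ψ y z * l.A y i) h with ha
  have h1 := cr hw l L h hΦ a
  have e : tE l (X w L) (fun z => ∑ y, Ψ y z * l.fld a y) h = ∑ i, a i ^ 2 := by
    simp only [Lv.fld, lin_sum]
    rw [tE_sum (lg_X hw L) _ fun i _ =>
      (Eg.sum _ fun y _ => (hΦ.eg' y).mul_const _).const_mul _]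
    simp only [tE_const_mul, pow_two]
    rfl
  have h2 := var_nonneg (lg_X hw L) hΦ.eg l h
  have h3 := mul_nonneg hm (tE_nonneg l (X w L) (Hb_nonneg hw (l.fld a) L hL) h)
  have h4 : 0 ≤ ∑ i, a i ^ 2 := Finset.sum_nonneg fun _ _ => sq_nonneg _
  rw [e] at h1
  change ∑ i, a i ^ 2 ≤ _
  rcases h4.eq_or_lt with h0 | h0
  · rwa [← h0]
  · refine le_of_mul_le_mul_left ?_ h0
    nlinarith [mul_nonneg h3 h2]

theorem ricStmt : RicStmt := fun hH _ _ _ hw =>
  ⟨fun l L h η hm _ => Ric63.ric1 hw l L h η hm,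
    fun M L h f c hm hc => Ric63.ric2 hH hw L f M h c hm hc⟩

end Crest.Agent.T156.Cas

end
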