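import Crest.Agent.T156.CaSync_41
import Crest.Agent.T156.CaHess_87
import Crest.Agent.T156.CaRic_63

/-!
# Row 156: soft synchronisation, dyadic Riccati bound for `E mᵀ A m`
-/

set_option autoImplicit false
set_option linter.unusedSectionVars false

noncomputable section

namespace Crest.Agent.T156.Cas.Sy41

open MeasureTheory Real Set Filter Topology
open Crest.Agent.T157.E Crest.Agent.T157.Casc Crest.Agent.T157.SL

variable {Ω : Type} [Fintype Ω] {w : Ω → ℝ}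

/-- the level `l` carries the field of `l₀` with variance `τ` -/
def Dom (l l₀ : Lv Ω) (τ : ℝ) : Prop := 0 ≤ τ ∧ ∀ v : l₀.ι → ℝ, ∃ (η : l.ι → ℝ) (κ : ℝ),
  (∀ x, l.fld η x = √τ * l₀.fld v x + κ) ∧ ∑ i, η i ^ 2 ≤ ∑ i, v i ^ 2

omit [Fintype Ω] in
theorem dom_zero (l l₀ : Lv Ω) : Dom l l₀ 0 := ⟨le_rfl, fun v => ⟨0, 0, fun x => by simp [Lv.fld],
  by simpa using Finset.sum_nonneg fun i _ => sq_nonneg (v i)⟩⟩

omit [Fintype Ω] in
theorem dom_lv (l₀ : Lv Ω) {τ : ℝ} (hτ : 0 ≤ τ) (m : ℝ) : Dom (lv l₀ τ m) l₀ τ :=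
  ⟨hτ, fun v => ⟨v, 0, fun x => by simp only [Lv.fld, Finset.mul_sum, mul_assoc, add_zero], le_rfl⟩⟩

omit [Fintype Ω] in
theorem mono_drop : ∀ (j : ℕ) {L : List (Lv Ω)}, Mono 0 L → Mono 0 (L.drop j)
  | 0, _, h => h
  | _ + 1, [], h => h
  | j + 1, _ :: _, h => mono_drop j (mono_le h.1 h.2)

omit [Fintype Ω] in
theorem mono_drop_ex : ∀ (j : ℕ) {L : List (Lv Ω)}, Mono 0 L → Mono (ex L j) (L.drop j)
  | 0, [], _ => le_rfl
  | 0, _ :: _, h => ⟨le_rfl, h.2⟩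
  | _ + 1, [], _ => le_rfl
  | j + 1, _ :: _, h => mono_drop_ex j (mono_le h.1 h.2)

theorem sum4 {α β γ δ : Type} [Fintype α] [Fintype β] [Fintype γ] [Fintype δ]
    (F : α → β → γ → δ → ℝ) : ∑ a, ∑ b, ∑ c, ∑ d, F a b c d = ∑ c, ∑ d, ∑ a, ∑ b, F a b c d :=
  calc _ = ∑ a, ∑ c, ∑ b, ∑ d, F a b c d := Finset.sum_congr rfl fun _ _ => Finset.sum_comm
    _ = ∑ c, ∑ a, ∑ b, ∑ d, F a b c d := Finset.sum_comm
    _ = ∑ c, ∑ a, ∑ d, ∑ b, F a b c d :=
      Finset.sum_congr rfl fun _ _ => Finset.sum_congr rfl fun _ _ => Finset.sum_comm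
    _ = _ := Finset.sum_congr rfl fun _ _ => Finset.sum_comm

/-- `vᵀ A v` -/
def Bq (w : Ω → ℝ) (L : List (Lv Ω)) (l₀ : Lv Ω) (z : Ω → ℝ) (v : l₀.ι → ℝ) : ℝ :=
  Hb w L z (l₀.fld v) (l₀.fld v)

theorem Hb_fld (L : List (Lv Ω)) (l₀ : Lv Ω) (z : Ω → ℝ) (v v' : l₀.ι → ℝ) :
    Hb w L z (l₀.fld v) (l₀.fld v') =
      ∑ i, ∑ k, v i * v' k * Hb w L z (fun x => l₀.A x i) fun x => l₀.A x k := by
  simp only [Hb, Lv.fld, Finset.sum_mul_sum]
  simp only [Finset.sum_mul, Finset.mul_sum]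
  rw [sum4]
  refine Finset.sum_congr rfl fun _ _ => Finset.sum_congr rfl fun _ _ =>
    Finset.sum_congr rfl fun _ _ => Finset.sum_congr rfl fun _ _ => by ring

theorem Hb_lin (L : List (Lv Ω)) (z f g : Ω → ℝ) (c : ℝ) :
    Hb w L z (fun x => f x + c * g x) (fun x => f x + c * g x) =
      Hb w L z f f + c * (Hb w L z f g + Hb w L z g f) + c ^ 2 * Hb w L z g g := by
  simp only [Hb, Finset.mul_sum, ← Finset.sum_add_distrib]
  exact Finset.sum_congr rfl fun _ _ => Finset.sum_congr rfl fun _ _ => by ring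

omit [Fintype Ω] in
theorem fld_lin (l₀ : Lv Ω) (a b : l₀.ι → ℝ) (c : ℝ) :
    l₀.fld (fun i => a i + c * b i) = fun x => l₀.fld a x + c * l₀.fld b x := by
  funext x
  simp only [Lv.fld, Finset.mul_sum, ← Finset.sum_add_distrib]
  exact Finset.sum_congr rfl fun _ _ => by ring

theorem Bq_add (hw : Wt w) {L : List (Lv Ω)} (hL : ∀ l ∈ L, 0 ≤ l.m) (l₀ : Lv Ω) (z : Ω → ℝ)
    (a b : l₀.ι → ℝ) {θ : ℝ} (hθ : 0 < θ) :
    Bq w L l₀ z (fun i => a i + b i) ≤ (1 + 1 / θ) * Bq w L l₀ z a + (1 + θ) * Bq w L l₀ z b := by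
  have h1 := Hb_lin (w := w) L z (l₀.fld a) (l₀.fld b) 1
  have h2 := Hess87.Hb_nonneg hw (fun x => l₀.fld a x + (-θ) * l₀.fld b x) L z hL
  rw [Hb_lin] at h2
  rw [← fld_lin] at h1
  simp only [one_mul] at h1
  simp only [Bq, h1]
  have h3 := div_nonneg h2 hθ.le
  have e : ∀ A S B : ℝ, (A + -θ * S + (-θ) ^ 2 * B) / θ = 1 / θ * A - S + θ * B := fun A S B => by
    field_simp; ring
  rw [e] at h3
  linarith

theorem Bq_le (hw : Wt w) {L : List (Lv Ω)} (hL : Mono 0 L) (l₀ : Lv Ω) {Λ : ℝ}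
    (hΛ : ∀ x v, l₀.fld v x ^ 2 ≤ Λ * ∑ i, v i ^ 2) (z : Ω → ℝ) (v : l₀.ι → ℝ) :
    Bq w L l₀ z v ≤ Λ * ∑ i, v i ^ 2 := by
  refine (Hess87.sandwich hw _ L 0 z hL).2.trans ?_
  have := sum_P_le hw L z (f := fun x => l₀.fld v x * l₀.fld v x) (c := Λ * ∑ i, v i ^ 2)
    fun x _ => by simpa only [sq] using hΛ x v
  simp only [Cb, Pf] at this ⊢
  nlinarith [mul_self_nonneg (∑ x, P w L z x * l₀.fld v x)]

theorem eg_Bq (hw : Wt w) (L : List (Lv Ω)) (l₀ : Lv Ω) {v : (Ω → ℝ) → l₀.ι → ℝ}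
    (hv : ∀ i, Eg fun z => v z i) : Eg fun z => Bq w L l₀ z (v z) :=
  eg_Hb hw L (eg_fld l₀ hv) (eg_fld l₀ hv)

/-- Riccati on the block of levels `[t, J)` -/
theorem ric_blk (hw : Wt w) {L : List (Lv Ω)} (hL : Mono 0 L) (l₀ : Lv Ω) {τ : ℕ → ℝ}
    (hτ : ∀ k (hk : k < L.length), Dom L[k] l₀ (τ k)) {t J : ℕ} (ht : t ≤ J) (hJ : J ≤ L.length)
    (hS : 0 < ∑ k ∈ Finset.Ico t J, ex L k * τ k) (z : Ω → ℝ) (v : l₀.ι → ℝ) :
    node w (L.drop t) (J - t) (fun z' => Bq w (L.drop J) l₀ z' v) z ≤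
      (∑ i, v i ^ 2) / ∑ k ∈ Finset.Ico t J, ex L k * τ k := by
  set S := ∑ k ∈ Finset.Ico t J, ex L k * τ k with hSd
  rcases (Finset.sum_nonneg fun i _ => sq_nonneg (v i) : 0 ≤ ∑ i, v i ^ 2).eq_or_lt with h0 | h0
  · have hv : v = 0 := funext fun i => pow_eq_zero_iff two_ne_zero |>.1
      ((Finset.sum_eq_zero_iff_of_nonneg fun i _ => sq_nonneg (v i)).1 h0.symm i (Finset.mem_univ i))
    subst hv
    simp [Bq, Hb, Lv.fld, node_const hw]
  set s := ∑ i, v i ^ 2 with hs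
  have hN : (L.drop t).take (J - t) ++ L.drop J = L.drop t := by
    conv_rhs => rw [← List.take_append_drop (J - t) (L.drop t), List.drop_drop,
      Nat.add_sub_cancel' ht]
  have hlen : ((L.drop t).take (J - t)).length = J - t := by
    simp only [List.length_take, List.length_drop]; omega
  have nn : ∀ l ∈ L.drop t, 0 ≤ l.m := (mono_drop t hL).nn le_rfl
  have key := (ricStmt hessStmt Ω w hw).2 ((L.drop t).take (J - t)) (L.drop J) z (l₀.fld v)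
    (fun j => √(τ (t + j)) / √s) (by rw [hN]; exact nn) fun j hj => by
      have hj' : t + j < L.length := by omega
      have e : ((L.drop t).take (J - t))[j] = L[t + j] := by simp
      rw [e]
      obtain ⟨η, κ, h1, h2⟩ := (hτ _ hj').2 fun i => 0 + (√s)⁻¹ * v i
      refine ⟨η, κ, fun x => ?_, h2.trans (le_of_eq ?_)⟩
      · rw [h1, fld_lin]; simp [Lv.fld, div_eq_mul_inv, mul_assoc]
      · simp only [zero_add, mul_pow, ← Finset.mul_sum, inv_pow, sq_sqrt h0.le]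
        exact inv_mul_cancel₀ h0.ne'
  have e2 : ∑ j ∈ Finset.range (J - t), ex ((L.drop t).take (J - t)) j * (√(τ (t + j)) / √s) ^ 2 =
      S / s := by
    rw [hSd, Finset.sum_Ico_eq_sum_range, Finset.sum_div]
    refine Finset.sum_congr rfl fun j hj => ?_
    have hj := Finset.mem_range.1 hj
    have : ex ((L.drop t).take (J - t)) j = ex L (t + j) := by
      simp only [ex, List.getElem?_take, if_pos hj, List.getElem?_drop]
    rw [this, div_pow, sq_sqrt (hτ (t + j) (by omega)).1, sq_sqrt h0.le, mul_div_assoc]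
  rw [hN, hlen, e2] at key
  have ha := Hess87.Hb_nonneg hw (l₀.fld v) _ z nn
  have hc : 0 < S / s := div_pos hS h0
  simp only [Bq]
  set a := Hb w (L.drop t) z (l₀.fld v) (l₀.fld v)
  set a' := node w (L.drop t) (J - t) (fun z => Hb w (L.drop J) z (l₀.fld v) (l₀.fld v)) z
  rw [← inv_div S s]
  generalize S / s = c at key hc
  by_contra hh
  have h1 := mul_lt_mul_of_pos_right (not_le.1 hh) (by positivity : 0 < 1 + c * a)
  have e : c⁻¹ * (1 + c * a) = c⁻¹ + a := by field_simp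
  linarith [inv_pos.2 hc]

theorem node_quad (hw : Wt w) {ι : Type} [Fintype ι] {m : (Ω → ℝ) → ι → ℝ}
    (hm : ∀ i, Eg fun z => m z i) {H : ι → ι → (Ω → ℝ) → ℝ} (hH : ∀ i k, Eg (H i k))
    (L : List (Lv Ω)) (j : ℕ) (v : ι → ℝ) (z : Ω → ℝ) :
    node w L j (fun z' => ∑ i, ∑ k, (m z' i - v i) * (m z' k - v k) * H i k z') z =
      ∑ i, ∑ k, (node w L j (fun z' => m z' i * m z' k * H i k z') z -
        v i * node w L j (fun z' => m z' k * H i k z') z -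
        v k * node w L j (fun z' => m z' i * H i k z') z + v i * v k * node w L j (H i k) z) := by
  have e0 := fun i k => (((hm i).sub (Eg.const (v i))).mul ((hm k).sub (Eg.const (v k)))).mul (hH i k)
  rw [node_sum hw _ fun i _ => Eg.sum _ fun k _ => e0 i k]
  refine Finset.sum_congr rfl fun i _ => ?_
  rw [node_sum hw _ fun k _ => e0 i k]
  refine Finset.sum_congr rfl fun k _ => ?_
  have e1 := ((hm i).mul (hm k)).mul (hH i k)
  have e2 := ((hm k).mul (hH i k)).const_mul (v i)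
  have e3 := ((hm i).mul (hH i k)).const_mul (v k)
  have e : (fun z' => (m z' i - v i) * (m z' k - v k) * H i k z') = fun z' =>
      m z' i * m z' k * H i k z' - v i * (m z' k * H i k z') - v k * (m z' i * H i k z') +
        v i * v k * H i k z' := by funext z'; ring
  rw [e, node_add hw ((e1.sub e2).sub e3) ((hH i k).const_mul _), node_sub hw (e1.sub e2) e3,
    node_sub hw e1 e2]
  simp only [node_const_mul]

theorem node_le2 (hw : Wt w) {Φ A B : (Ω → ℝ) → ℝ} (hΦ : Eg Φ) (hA : Eg A) (hB : Eg B) {a b : ℝ}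
    (e : ∀ z, Φ z ≤ a * A z + b * B z) (L : List (Lv Ω)) (j : ℕ) (z : Ω → ℝ) :
    node w L j Φ z ≤ a * node w L j A z + b * node w L j B z := by
  have := node_mono hw hΦ ((hA.const_mul a).add (hB.const_mul b)) e L j z
  rwa [node_add hw (hA.const_mul a) (hB.const_mul b), node_const_mul, node_const_mul] at this

/-- `E [(m_J - v)ᵀ A_J (m_J - v) | F_t]` -/
def Gq (w : Ω → ℝ) (L : List (Lv Ω)) (l₀ : Lv Ω) (J t : ℕ) (v : l₀.ι → ℝ) (z : Ω → ℝ) : ℝ :=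
  node w (L.drop t) (J - t)
    (fun z' => Bq w (L.drop J) l₀ z' fun i => mv w (L.drop J) l₀ z' i - v i) z

theorem eg_Gq (hw : Wt w) (L : List (Lv Ω)) (l₀ : Lv Ω) (J t : ℕ) {v : (Ω → ℝ) → l₀.ι → ℝ}
    (hv : ∀ i, Eg fun z => v z i) : Eg fun z => Gq w L l₀ J t (v z) z := by
  have hm := eg_mv hw (L.drop J) l₀
  have hH := fun i k => Hess87.eg_Hb hw (L.drop J) (fun x => l₀.A x i) fun x => l₀.A x k
  simp only [Gq, Bq, Hb_fld, node_quad hw hm hH]
  exact Eg.sum _ fun i _ => Eg.sum _ fun k _ =>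
    ((((((hm i).mul (hm k)).mul (hH i k)).node hw _ _).sub
      ((hv i).mul (((hm k).mul (hH i k)).node hw _ _))).sub
      ((hv k).mul (((hm i).mul (hH i k)).node hw _ _))).add
      (((hv i).mul (hv k)).mul ((hH i k).node hw _ _))

theorem node_mv (hw : Wt w) (L : List (Lv Ω)) (l₀ : Lv Ω) (j : ℕ) (z : Ω → ℝ) (i : l₀.ι) :
    node w L j (fun z' => mv w (L.drop j) l₀ z' i) z = mv w L l₀ z i := node_sum_P hw _ L j z

theorem node_incr (hw : Wt w) (L : List (Lv Ω)) (l₀ : Lv Ω) (j : ℕ) (z : Ω → ℝ) :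
    node w L j (fun z' => ∑ i, (mv w (L.drop j) l₀ z' i - mv w L l₀ z i) ^ 2) z =
      node w L j (rr w (L.drop j) l₀) z - rr w L l₀ z := by
  have hm := eg_mv hw (L.drop j) l₀
  have e : (fun z' => ∑ i, (mv w (L.drop j) l₀ z' i - mv w L l₀ z i) ^ 2) = fun z' =>
      rr w (L.drop j) l₀ z' - ∑ i, 2 * mv w L l₀ z i * mv w (L.drop j) l₀ z' i + rr w L l₀ z := by
    funext z'
    simp only [rr, ← Finset.sum_sub_distrib, ← Finset.sum_add_distrib]
    exact Finset.sum_congr rfl fun _ _ => by ring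
  have e1 := Eg.sum Finset.univ fun i _ => (hm i).const_mul (2 * mv w L l₀ z i)
  rw [e, node_add hw ((eg_rr hw _ l₀).sub e1) (Eg.const _), node_sub hw (eg_rr hw _ l₀) e1,
    node_sum hw _ fun i _ => (hm i).const_mul _]
  simp only [node_const_mul, node_const hw, node_mv hw, rr, mul_assoc, ← Finset.mul_sum, ← sq]
  ring

theorem node_tower (L : List (Lv Ω)) {t J : ℕ} (h : t ≤ J) (Φ : (Ω → ℝ) → ℝ) :
    node w L t (node w (L.drop t) (J - t) Φ) = node w L J Φ := by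
  rw [node_node, Nat.sub_add_cancel h]

theorem node_tower' (L : List (Lv Ω)) {t t' J : ℕ} (h : t ≤ t') (h' : t' ≤ J) (Φ : (Ω → ℝ) → ℝ) :
    node w (L.drop t) (t' - t) (node w (L.drop t') (J - t') Φ) = node w (L.drop t) (J - t) Φ := by
  have := node_node w Φ (J - t') (L.drop t) (t' - t)
  rwa [List.drop_drop, Nat.add_sub_cancel' h, show J - t' + (t' - t) = J - t by omega] at this

theorem Gq_tower (L : List (Lv Ω)) (l₀ : Lv Ω) {t t' J : ℕ} (h : t ≤ t') (h' : t' ≤ J)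
    (v : l₀.ι → ℝ) (z : Ω → ℝ) :
    Gq w L l₀ J t v z = node w (L.drop t) (t' - t) (Gq w L l₀ J t' v) z :=
  (congrFun (node_tower' L h h' _) z).symm

/-- the mean overlap at the node `t` -/
def rho (w : Ω → ℝ) (L : List (Lv Ω)) (l₀ : Lv Ω) (h : Ω → ℝ) (t : ℕ) : ℝ :=
  node w L t (rr w (L.drop t) l₀) h

theorem rho_eq (L : List (Lv Ω)) (l₀ : Lv Ω) (h : Ω → ℝ) (t : ℕ) :
    rho w L l₀ h t = pi2 w L t l₀.cov h := by
  rw [rho, funext (rr_eq (L.drop t) l₀)]; rfl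

theorem node_incr' (hw : Wt w) (L : List (Lv Ω)) (l₀ : Lv Ω) {t J : ℕ} (ht : t ≤ J) (z : Ω → ℝ) :
    node w (L.drop t) (J - t) (fun z' => ∑ i, (mv w (L.drop J) l₀ z' i -
      mv w (L.drop t) l₀ z i) ^ 2) z =
      node w (L.drop t) (J - t) (rr w (L.drop J) l₀) z - rr w (L.drop t) l₀ z := by
  have := node_incr hw (L.drop t) l₀ (J - t) z
  rwa [List.drop_drop, Nat.add_sub_cancel' ht] at this

theorem rho_sub (hw : Wt w) (L : List (Lv Ω)) (l₀ : Lv Ω) {t J : ℕ} (ht : t ≤ J) (h : Ω → ℝ) :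
    node w L t (fun z => node w (L.drop t) (J - t) (rr w (L.drop J) l₀) z - rr w (L.drop t) l₀ z) h =
      rho w L l₀ h J - rho w L l₀ h t := by
  rw [node_sub hw ((eg_rr hw _ l₀).node hw _ _) (eg_rr hw _ l₀), node_tower L ht]; rfl

theorem rho_mono (hw : Wt w) (L : List (Lv Ω)) (l₀ : Lv Ω) (h : Ω → ℝ) :
    Monotone (rho w L l₀ h) := fun t J ht => by
  rw [← sub_nonneg, ← rho_sub hw L l₀ ht]
  refine node_nonneg w (fun z => ?_) L t h
  rw [← node_incr' hw L l₀ ht]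
  exact node_nonneg w (fun z => Finset.sum_nonneg fun i _ => sq_nonneg _) _ _ _

section dyad
variable (hw : Wt w) {L : List (Lv Ω)} (hL : Mono 0 L) (l₀ : Lv Ω) {τ : ℕ → ℝ}
  (hτ : ∀ k (hk : k < L.length), Dom L[k] l₀ (τ k)) {J : ℕ} (hJ : J ≤ L.length)
include hw hL hτ hJ

theorem Gq_step {t : ℕ} (ht : t ≤ J) (hS : 0 < ∑ k ∈ Finset.Ico t J, ex L k * τ k)
    (v v' : l₀.ι → ℝ) {θ : ℝ} (hθ : 0 < θ) (z : Ω → ℝ) :
    Gq w L l₀ J t v z ≤ (1 + 1 / θ) * Gq w L l₀ J t v' z +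
      (1 + θ) / (∑ k ∈ Finset.Ico t J, ex L k * τ k) * ∑ i, (v' i - v i) ^ 2 := by
  have hm := eg_mv hw (L.drop J) l₀
  have e := fun v : l₀.ι → ℝ => eg_Bq hw (L.drop J) l₀ fun i => (hm i).sub (Eg.const (v i))
  have e' := eg_Bq hw (L.drop J) l₀ fun i => Eg.const (v' i - v i)
  refine (node_mono hw (e v) (((e v').const_mul (1 + 1 / θ)).add (e'.const_mul (1 + θ)))
    (fun z' => ?_) _ _ z).trans ?_
  · have := Bq_add hw ((mono_drop J hL).nn le_rfl) l₀ z' (fun i => mv w (L.drop J) l₀ z' i - v' i)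
      (fun i => v' i - v i) hθ
    simpa only [sub_add_sub_cancel] using this
  · rw [node_add hw ((e v').const_mul _) (e'.const_mul _), node_const_mul, node_const_mul]
    refine add_le_add le_rfl ?_
    rw [div_mul_eq_mul_div, mul_div_assoc]
    exact mul_le_mul_of_nonneg_left (ric_blk hw hL l₀ hτ ht hJ hS z _) (by positivity)

/-- `E (m_J - m_t)ᵀ A_J (m_J - m_t)` -/
def eq (w : Ω → ℝ) (L : List (Lv Ω)) (l₀ : Lv Ω) (h : Ω → ℝ) (J t : ℕ) : ℝ :=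
  node w L t (fun z => Gq w L l₀ J t (mv w (L.drop t) l₀ z) z) h

theorem eq_step (h : Ω → ℝ) {t t' : ℕ} (ht : t ≤ t') (ht' : t' ≤ J)
    (hS : 0 < ∑ k ∈ Finset.Ico t' J, ex L k * τ k) {θ : ℝ} (hθ : 0 < θ) :
    eq w L l₀ h J t ≤ (1 + 1 / θ) * eq w L l₀ h J t' +
      (1 + θ) / (∑ k ∈ Finset.Ico t' J, ex L k * τ k) * (rho w L l₀ h t' - rho w L l₀ h t) := by
  have hm := eg_mv hw (L.drop t') l₀
  have e1 := eg_Gq hw L l₀ J t' hm
  have e2 := (eg_rr hw (L.drop t') l₀).node hw (L.drop t) (t' - t)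
  have e5 : eq w L l₀ h J t' = node w L t (node w (L.drop t) (t' - t)
      fun z => Gq w L l₀ J t' (mv w (L.drop t') l₀ z) z) h := by rw [node_tower L ht]; rfl
  rw [← rho_sub hw L l₀ ht, e5]
  refine node_le2 hw (eg_Gq hw L l₀ J t (eg_mv hw _ l₀)) (e1.node hw _ _)
    (e2.sub (eg_rr hw _ l₀)) (fun z => ?_) L t h
  have e3 := Eg.sum Finset.univ fun i _ => ((hm i).sub (Eg.const (mv w (L.drop t) l₀ z i))).pow 2
  rw [Gq_tower L l₀ ht ht', ← node_incr' hw L l₀ ht]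
  exact node_le2 hw (eg_Gq hw L l₀ J t' (v := fun _ => mv w (L.drop t) l₀ z) fun _ => Eg.const _)
    e1 e3 (fun z' => Gq_step hw hL l₀ hτ hJ ht' hS _ _ hθ z') _ _ _

omit hτ hJ in
theorem eq_last {Λ : ℝ} (hΛ : ∀ x v, l₀.fld v x ^ 2 ≤ Λ * ∑ i, v i ^ 2) (h : Ω → ℝ) {t : ℕ}
    (ht : t ≤ J) : eq w L l₀ h J t ≤ Λ * (rho w L l₀ h J - rho w L l₀ h t) := by
  have hm := eg_mv hw (L.drop J) l₀
  rw [← rho_sub hw L l₀ ht, ← congrFun (node_const_mul w _ _ L t)]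
  refine node_mono hw (eg_Gq hw L l₀ J t (eg_mv hw _ l₀))
    ((((eg_rr hw _ l₀).node hw _ _).sub (eg_rr hw _ l₀)).const_mul _) (fun z => ?_) L t h
  rw [← node_incr' hw L l₀ ht, ← congrFun (node_const_mul w _ _ _ _)]
  exact node_mono hw (eg_Bq hw _ l₀ fun i => (hm i).sub (Eg.const _))
    ((Eg.sum _ fun i _ => ((hm i).sub (Eg.const _)).pow 2).const_mul _)
    (fun z' => Bq_le hw (mono_drop J hL) l₀ hΛ z' _) _ _ _

theorem eq_dyad {Λ : ℝ} (hΛ : ∀ x v, l₀.fld v x ^ 2 ≤ Λ * ∑ i, v i ^ 2) (h : Ω → ℝ) :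
    ∀ (K : ℕ) (t : ℕ → ℕ), Monotone t → t K ≤ J → 0 < ∑ k ∈ Finset.Ico (t K) J, ex L k * τ k →
    eq w L l₀ h J (t 0) ≤ (K + 1) * (∑ i ∈ Finset.range K,
      (rho w L l₀ h (t (i + 1)) - rho w L l₀ h (t i)) / ∑ k ∈ Finset.Ico (t (i + 1)) J, ex L k * τ k +
        Λ * (rho w L l₀ h J - rho w L l₀ h (t K)))
  | 0, t, _, hK, _ => by simpa using eq_last hw hL l₀ hΛ h hK
  | K + 1, t, ht, hK, hS => by
    have ih := eq_dyad hΛ h K (fun i => t (i + 1)) (fun _ _ h => ht (by omega)) hK hS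
    have h1 : t 1 ≤ t (K + 1) := ht (by omega)
    have hS' : 0 < ∑ k ∈ Finset.Ico (t 1) J, ex L k * τ k :=
      hS.trans_le (Finset.sum_le_sum_of_subset_of_nonneg (Finset.Ico_subset_Ico_left h1)
        fun k hk _ => mul_nonneg (by simpa using mono_ex (mono_drop k hL) |>.trans_eq (by
          simp [ex])) (hτ k ((Finset.mem_Ico.1 hk).2.trans_le hJ)).1)
    have hθ : (0 : ℝ) < K + 1 := by positivity
    refine (eq_step hw hL l₀ hτ hJ h (ht (Nat.zero_le 1)) (h1.trans hK) hS' hθ).trans ?_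
    rw [Finset.sum_range_succ']
    refine (add_le_add (mul_le_mul_of_nonneg_left ih (by positivity)) le_rfl).trans (le_of_eq ?_)
    push_cast
    field_simp
    ring

/-- **dyadic Riccati** (41 #6985 (2)): with `S t = ∑_{k ∈ [t, J)} x_k τ_k`,
`E mᵀ A m ≤ (K + 2) (ρ(t₀)/S(t₀) + ∑ (ρ(t_{i+1}) - ρ(t_i))/S(t_{i+1}) + Λ (ρ(J) - ρ(t_K)))` -/
theorem dyad {Λ : ℝ} (hΛ : ∀ x v, l₀.fld v x ^ 2 ≤ Λ * ∑ i, v i ^ 2) (h : Ω → ℝ) (K : ℕ)
    {t : ℕ → ℕ} (ht : Monotone t) (hK : t K ≤ J) (hS : 0 < ∑ k ∈ Finset.Ico (t K) J, ex L k * τ k) :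
    node w L J (mAm w (L.drop J) l₀) h ≤ (K + 2) *
      (rho w L l₀ h (t 0) / ∑ k ∈ Finset.Ico (t 0) J, ex L k * τ k + ∑ i ∈ Finset.range K,
      (rho w L l₀ h (t (i + 1)) - rho w L l₀ h (t i)) / ∑ k ∈ Finset.Ico (t (i + 1)) J, ex L k * τ k +
        Λ * (rho w L l₀ h J - rho w L l₀ h (t K))) := by
  have ih := eq_dyad hw hL l₀ hτ hJ hΛ h K t ht hK hS
  have h1 : t 0 ≤ t K := ht (Nat.zero_le K)
  have hS' : 0 < ∑ k ∈ Finset.Ico (t 0) J, ex L k * τ k :=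
    hS.trans_le (Finset.sum_le_sum_of_subset_of_nonneg (Finset.Ico_subset_Ico_left h1)
      fun k hk _ => mul_nonneg (by simpa using mono_ex (mono_drop k hL) |>.trans_eq (by
        simp [ex])) (hτ k ((Finset.mem_Ico.1 hk).2.trans_le hJ)).1)
  have hθ : (0 : ℝ) < K + 1 := by positivity
  have e1 := eg_Gq hw L l₀ J (t 0) (eg_mv hw (L.drop (t 0)) l₀)
  have h2 : node w L J (mAm w (L.drop J) l₀) h ≤ (1 + 1 / (K + 1)) * eq w L l₀ h J (t 0) +
      (1 + (K + 1)) / (∑ k ∈ Finset.Ico (t 0) J, ex L k * τ k) * rho w L l₀ h (t 0) := by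
    rw [← node_tower L (h1.trans hK), eq, rho]
    refine node_le2 hw ((eg_mAm hw _ l₀).node hw _ _) e1 (eg_rr hw _ l₀) (fun z => ?_) _ _ _
    have := Gq_step hw hL l₀ hτ hJ (h1.trans hK) hS' 0 (mv w (L.drop (t 0)) l₀ z) hθ z
    simp only [Gq, Pi.zero_apply, sub_zero] at this ⊢
    exact this
  refine h2.trans ((add_le_add (mul_le_mul_of_nonneg_left ih (by positivity)) le_rfl).trans
    (le_of_eq ?_))
  field_simp
  ring

end dyad

end Crest.Agent.T156.Cas.Sy41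

end
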