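import Crest.Agent.T156.QDef_57
import Crest.Agent.T156.CaDyad_41

/-!
# Row 156, block Q: the cascade instance of `Q57.Sys` (definitions and leaves; helper57)
-/

set_option autoImplicit false

noncomputable section

namespace Crest.Agent.T156.Cas

open MeasureTheory Real Finset
open Crest.Agent.T157.E Crest.Agent.T157.Casc Crest.Agent.T157.SL

/-- path law, node means, node Hessians and label weights of a cascade -/
def sysC {Ω : Type} [Fintype Ω] (w : Ω → ℝ) (L : List (Lv Ω)) (h : Ω → ℝ) (l₀ : Lv Ω) :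
    Q57.Sys (NI L → ℝ) l₀.ι where
  μ := (gv (NI L)).withDensity fun g => ENNReal.ofReal (∑ x, den w L h g x)
  m j g := Sy41.mv w (L.drop j) l₀ (st L j h g)
  A j g i k := Hb w (L.drop j) (st L j h g) (fun x => l₀.A x i) fun x => l₀.A x k
  dm j := if 1 ≤ j ∧ j ≤ L.length then dm L 0 j else 0

/-- (C1) the exact structure holds, and integrals are `pE` -/
def InstS : Prop := ∀ (Ω : Type) [Fintype Ω] (w : Ω → ℝ), Wt w → ∀ (L : List (Lv Ω)) (h : Ω → ℝ)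
  (l₀ : Lv Ω) (T : Set (Equiv.Perm Ω)), Mono 0 L → (∀ τ ∈ T, Sym w L h τ) →
  (∀ x y, w x ≠ 0 → w y ≠ 0 → ∃ τ ∈ T, τ x = y) →
  (∀ τ ∈ T, ∀ x y, l₀.cov (τ x) (τ y) = l₀.cov x y) → (∀ x, l₀.cov x x ≤ 1) →
  (sysC w L h l₀).Ok ∧
  ∀ F : (NI L → ℝ) → ℝ, ∫ g, F g ∂(sysC w L h l₀).μ = pE w L h fun g _ => F g

/-- Riccati weight of the window `[t, y)` -/
def SW {Ω : Type} (L : List (Lv Ω)) (τ : ℕ → ℝ) (t y : ℕ) : ℝ := ∑ k ∈ Ico t y, ex L k * τ k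

/-- (C2)-(C4) the pathwise Riccati bounds off a small set.  Levels `k ∈ [j0, j1)` have tilt `≥ x`
and weight `≥ v / w3`; nodes up to `j2` have labels `≤ K x`; a node `j > j2` uses its own window
`[t' j, j)`. -/
def GoodS : Prop := ∀ p : ℕ, ∃ C : ℝ, 1 ≤ C ∧ ∀ (Ω : Type) [Fintype Ω] (w : Ω → ℝ), Wt w →
  ∀ (L : List (Lv Ω)) (h : Ω → ℝ) (l₀ : Lv Ω) (τ : ℕ → ℝ) (t' : ℕ → ℕ) (LL j0 j1 j2 : ℕ)
    (x v w3 K lam : ℝ), Mono 0 L → (∀ y, l₀.cov y y ≤ 1) →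
    (∀ k (hk : k < L.length), Sy41.Dom L[k] l₀ (τ k)) → 0 < x → 0 < v → 4 * v ≤ w3 → 1 ≤ K →
    1 ≤ lam → j1 ≤ j2 → j2 ≤ L.length →
    (∀ k, j0 ≤ k → k < j1 → x ≤ ex L k ∧ v ≤ w3 * (ex L k * τ k)) → ex L j2 ≤ K * x →
    (∀ j, j2 < j → j ≤ L.length → j1 ≤ t' j ∧ t' j < j ∧ (0 < dm L 0 j → 0 < SW L τ (t' j) j)) →
    ∑ j ∈ Ioc j2 L.length, dm L 0 j / (ex L (t' j) * SW L τ (t' j) j) ≤ K * w3 / (2 ^ LL * v) →
    (sysC w L h l₀).Good LL v (lam * w3 / x) (lam * K * w3)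
      (C * ((LL + 2) * (j1 + 1) ^ 2) / lam ^ p) j0 j1

end Crest.Agent.T156.Cas
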