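import Crest.Agent.T156.QSys_98
import Crest.Agent.T156.QIn_57

/-!
# Row 156, block Q: `InstS` (helper98)
-/

set_option autoImplicit false

noncomputable section

namespace Crest.Agent.T156.Cas

open MeasureTheory
open Crest.Agent.T157.E Crest.Agent.T157.Casc Crest.Agent.T157.SL

theorem QSys98.sysC_eq {Ω : Type} [Fintype Ω] (w : Ω → ℝ) (L : List (Lv Ω)) (h : Ω → ℝ)
    (l₀ : Lv Ω) : sysC w L h l₀ = QSys98.qsys w L l₀ h id := by
  have e : (fun j => if 1 ≤ j ∧ j ≤ L.length then dm L 0 j else 0) = fun j => cf .one L () j := by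
    funext j
    split_ifs with hj
    · exact (QSys98.qsys_dm w L l₀ h id (j := j) hj.1).symm
    · rcases Nat.eq_zero_or_pos j with rfl | h0
      · rfl
      · exact (QSys98.cf_zero L (by omega)).symm
  unfold sysC
  rw [e]
  rfl

theorem instS : InstS := fun _ _ w hw L h l₀ _ hL hT htr h₀ h1 => by
  rw [QSys98.sysC_eq]
  exact ⟨QSys98.qsys_ok hw hL h hT htr l₀ h₀ h1 strictMono_id, QSys98.int_mu hw L h⟩

end Crest.Agent.T156.Cas
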