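import Crest.Agent.T156.QGood_74
import Crest.Agent.T156.QInst_98
import Crest.Agent.T156.LpR_43

/-!
# Row 156, block Q: `GoodS` (helper74)
-/

set_option autoImplicit false
set_option maxHeartbeats 400000

noncomputable section

namespace Crest.Agent.T156.Cas

open MeasureTheory Real Finset
open Crest.Agent.T157.E Crest.Agent.T157.Casc Crest.Agent.T157.SL
open Crest.Agent.T156.Cas.Sy41 Crest.Agent.T156.Q57 Crest.Agent.T156.Cas.QSys98
open Crest.Agent.T156.Cas.Lp12

namespace GoodC74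

variable {Ω : Type} [Fintype Ω] {w : Ω → ℝ}

/-- the system with the label weights removed (no symmetry is needed for `Ok`) -/
def sys0 (w : Ω → ℝ) (L : List (Lv Ω)) (h : Ω → ℝ) (l₀ : Lv Ω) : Sys (NI L → ℝ) l₀.ι :=
  { qsys w L l₀ h id with dm := fun _ => 0 }

theorem sys0_B (L : List (Lv Ω)) (h : Ω → ℝ) (l₀ : Lv Ω) (j : ℕ) (g : NI L → ℝ) (z : l₀.ι → ℝ) :
    (sys0 w L h l₀).B j g z = Bq w (L.drop j) l₀ (st L j h g) z := qsys_B w L l₀ h id j g z

theorem sys0_ok (hw : Wt w) {L : List (Lv Ω)} (hL : Mono 0 L) (h : Ω → ℝ) (l₀ : Lv Ω)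
    (h1 : ∀ x, l₀.cov x x ≤ 1) : (sys0 w L h l₀).Ok where
  prob := prob_mu hw L h
  mm := fun j i => (Pe.eg_st L h j (eg_mv hw _ l₀ i)).cont.measurable
  mA := fun j i k => (Pe.eg_st L h j (Hess87.eg_Hb hw _ _ _)).cont.measurable
  bd := fun j g => Q33.rr_le hw _ h1 _
  psd := fun j g z => by
    rw [sys0_B]
    exact Hess87.Hb_nonneg hw _ _ _ ((Sy41.mono_drop _ hL).nn le_rfl)
  bdB := fun j g z => by
    rw [sys0_B]
    have := Bq_le hw (Sy41.mono_drop j hL) l₀ (Q33.fld_sq_le' h1) (st L j h g) z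
    rwa [one_mul] at this
  dm0 := fun _ => le_rfl
  mart := fun t j htj φ hφ => by
    have eG : ∀ i, Eg fun g => φ (fun k => (qsys w L l₀ h id).m (min k t) g) i := fun i =>
      eg_path hw L l₀ h id (fun k => min k t) ((continuous_apply i).comp hφ)
    have aG : ∀ i, LpR43.Ad L t fun g => φ (fun k => (qsys w L l₀ h id).m (min k t) g) i :=
      fun i => (LpR43.Ad.pi fun k => LpR43.Ad.st L (min_le_right k t) h
        (mv w (L.drop (min k t)) l₀)).comp fun p => φ p i
    have em : ∀ j i, Eg fun g => (qsys w L l₀ h id).m j g i := fun j i =>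
      Pe.eg_st L h j (eg_mv hw _ l₀ i)
    show ∫ a, dt (φ fun k => (qsys w L l₀ h id).m (min k t) a)
      ((qsys w L l₀ h id).m j a - (qsys w L l₀ h id).m t a) ∂mu w L h = 0
    simp only [dt, Pi.sub_apply, mul_sub]
    rw [integral_finsetSum _ fun i _ => integrable_mu hw L h
      (((eG i).mul (em j i)).sub ((eG i).mul (em t i)))]
    refine Finset.sum_eq_zero fun i _ => ?_
    rw [integral_sub (integrable_mu hw L h ((eG i).mul (em j i)))
      (integrable_mu hw L h ((eG i).mul (em t i))), int_mu hw, int_mu hw, sub_eq_zero]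
    exact mart hw L l₀ h htj (eG i) (aG i) i
  bl := fun J g g' Ψ Ψ' _ _ _ _ => by
    have := prob_mu hw L h
    have e : (sys0 w L h l₀).μ = mu w L h := rfl
    have e' : ∀ j, (sys0 w L h l₀).dm j = 0 := fun _ => rfl
    simp [e, e']

/-- the pieces as functions of the path -/
def pcP (w : Ω → ℝ) (L : List (Lv Ω)) (l₀ : Lv Ω) (LL k y : ℕ) (p : Pth Ω) : l₀.ι → ℝ :=
  if k ≤ LL then mv w (L.drop (y - 2 ^ k / 2)) l₀ (p (y - 2 ^ k / 2)) -
    mv w (L.drop (y - 2 ^ k)) l₀ (p (y - 2 ^ k))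
  else mv w (L.drop (y - 2 ^ LL)) l₀ (p (y - 2 ^ LL))

theorem pc_eq (L : List (Lv Ω)) (h : Ω → ℝ) (l₀ : Lv Ω) (LL k y : ℕ) (g : NI L → ℝ) :
    (sys0 w L h l₀).pc LL k y g = pcP w L l₀ LL k y fun j => st L j h g := rfl

theorem ep_pcP (hw : Wt w) (L : List (Lv Ω)) (l₀ : Lv Ω) (LL k y : ℕ) (i : l₀.ι) :
    EP fun p => pcP w L l₀ LL k y p i := by
  unfold pcP
  split_ifs
  · exact (LpR43.ep_mv hw _ l₀ _ i).sub (LpR43.ep_mv hw _ l₀ _ i)
  · exact LpR43.ep_mv hw _ l₀ _ i

theorem ad_pcP (L : List (Lv Ω)) (l₀ : Lv Ω) {LL k : ℕ} (hk : k ≤ LL + 1) (y : ℕ) :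
    Ad (y - 2 ^ k / 2) (pcP w L l₀ LL k y) := fun p q H => by
  unfold pcP
  split_ifs with h1
  · rw [H _ le_rfl, H (y - 2 ^ k) (Nat.sub_le_sub_left (Nat.div_le_self _ _) _)]
  · obtain rfl : k = LL + 1 := by omega
    rw [H (y - 2 ^ LL) (by rw [pow_succ, Nat.mul_div_cancel _ two_pos])]

/-- ratio moments from conditional moments -/
theorem ratio (hw : Wt w) (L : List (Lv Ω)) (h : Ω → ℝ) {ι : Type} [Fintype ι]
    {η : Pth Ω → ι → ℝ} (hη : ∀ i, EP fun p => η p i) {a : ℕ} (aη : Ad a η) {F : Pth Ω → ℝ}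
    (hF : EP F) {n : ℕ} {c θ u ε : ℝ} (hc : 0 ≤ c) (hθ : 0 ≤ θ) (hu : 0 < u) (hε : 0 < ε)
    (H : ∀ p, CE w L a (fun q => F q ^ n) p ≤ c * (θ * ∑ i, η p i ^ 2) ^ n) :
    ∫ g, (F (fun j => st L j h g) / (sq2 (η fun j => st L j h g) / u + ε)) ^ n ∂mu w L h ≤
      c * (θ * u) ^ n := by
  have s0 : ∀ p, 0 ≤ sq2 (η p) := fun p => Good74.sq2_nonneg _
  have eH : EP fun p => (1 / (sq2 (η p) / u + ε)) ^ n := by
    have := (LpR43.ep_sq hη).comp_lin (φ := fun t => (1 / (|t| / u + ε)) ^ n)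
      (Continuous.pow (continuous_const.div (by fun_prop) fun t => by positivity) n)
      (a := (1 / ε) ^ n) (b := 0) fun t => by
        rw [zero_mul, add_zero, abs_of_nonneg (by positivity)]
        exact pow_le_pow_left₀ (by positivity)
          (one_div_le_one_div_of_le hε (le_add_of_nonneg_left (by positivity))) n
    refine (congrArg EP (funext fun p => ?_)).mp this
    rw [abs_of_nonneg (show 0 ≤ ∑ i, η p i ^ 2 from s0 p)]
    rfl
  have aH : Ad a fun p => (1 / (sq2 (η p) / u + ε)) ^ n :=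
    aη.comp fun z => (1 / (sq2 z / u + ε)) ^ n
  have e : ∀ p : Pth Ω, (F p / (sq2 (η p) / u + ε)) ^ n =
      (1 / (sq2 (η p) / u + ε)) ^ n * F p ^ n := fun p => by rw [← mul_pow]; congr 1; ring
  simp only [e]
  rw [int_EE hw L h (eH.mul (hF.pow n)), EE_tower hw a, funext (CE_mul L aH _)]
  refine EE_le hw L h (eH.mul (ep_CE hw L a (hF.pow n))) fun p => ?_
  have h0 := s0 p
  refine (mul_le_mul_of_nonneg_left (H p) (by positivity)).trans ?_
  rw [mul_left_comm, ← mul_pow]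
  refine mul_le_mul_of_nonneg_left (pow_le_pow_left₀ (by positivity) ?_ n) hc
  show 1 / (sq2 (η p) / u + ε) * (θ * sq2 (η p)) ≤ θ * u
  rw [one_div_mul_eq_div, div_le_iff₀ (by positivity)]
  have : θ * u * (sq2 (η p) / u + ε) = θ * sq2 (η p) + θ * u * ε := by field_simp
  rw [this]
  exact le_add_of_nonneg_right (by positivity)

/-- a pathwise bound gives ratio moments -/
theorem ratio_triv {α : Type} [MeasurableSpace α] (μ : Measure α) [IsProbabilityMeasure μ]
    {X D : α → ℝ} {c ε : ℝ} (hc : 0 ≤ c) (hε : 0 < ε) (X0 : ∀ a, 0 ≤ X a) (D0 : ∀ a, 0 ≤ D a)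
    (H : ∀ a, X a ≤ c * D a) (n : ℕ) : ∫ a, (X a / (D a + ε)) ^ n ∂μ ≤ c ^ n := by
  have hp : ∀ a, 0 < D a + ε := fun a => add_pos_of_nonneg_of_pos (D0 a) hε
  refine (integral_mono_of_nonneg (ae_of_all _ fun a => pow_nonneg (div_nonneg (X0 a) (hp a).le) n)
    (integrable_const (c ^ n)) (ae_of_all _ fun a => ?_)).trans (by simp)
  refine pow_le_pow_left₀ (div_nonneg (X0 a) (hp a).le) ?_ n
  rw [div_le_iff₀ (hp a)]
  nlinarith [H a, mul_nonneg hc hε.le]

omit [Fintype Ω] in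
theorem sum_dm_Ioc (L : List (Lv Ω)) {a b : ℕ} (hab : a ≤ b) :
    ∑ j ∈ Ioc a b, dm L 0 j = ex L b - ex L a := by
  induction b, hab using Nat.le_induction with
  | base => simp
  | succ b hb ih =>
    rw [Finset.sum_Ioc_succ_top hb, ih]
    simp only [dm, exP]
    ring

theorem cK_le {n : ℕ} (hn : n ≠ 0) {t t' : ℝ} (h0 : 0 ≤ t) (h : t ≤ 4 * t') :
    LpR43.cK n * t ^ n ≤ (4 * LpR43.cK n * t') ^ n := by
  have h1 := LpR43.one_le_cK n
  calc LpR43.cK n * t ^ n ≤ LpR43.cK n ^ n * (4 * t') ^ n :=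
        mul_le_mul (le_self_pow₀ h1 hn) (pow_le_pow_left₀ h0 h n) (by positivity) (by positivity)
    _ = _ := by rw [← mul_pow]; congr 1; ring

end GoodC74

open GoodC74 in
/-- **(C2)-(C4)** -/
theorem goodS : GoodS := fun p => by
  have hK1 := LpR43.one_le_cK p
  refine ⟨2 * (4 * LpR43.cK p) ^ p, by
    have := one_le_pow₀ (show 1 ≤ 4 * LpR43.cK p by linarith) (n := p); linarith, ?_⟩
  intro Ω _ w hw L h l₀ τ t' LL j0 j1 j2 x v w3 K lam hL h1 hτ hx hv hw3 hK hlam h12 h2L hlev htop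
    hwin hsum
  have ok := sys0_ok hw hL h l₀ h1
  have hw0 : 0 < w3 := by linarith
  set c0 := 4 * LpR43.cK p with hc0
  have c0p : 0 < c0 := by positivity
  have hprob := ok.prob
  -- the window of a piece
  have hWin : ∀ k, 1 ≤ k → k ≤ LL + 1 → ∀ y, j0 + 2 ^ LL ≤ y → y ≤ j1 → ∀ j, y ≤ j → j ≤ L.length →
      LpR43.Win L τ (y - 2 ^ k / 2) j (2 * w3 / (x * (2 ^ k * v))) ∧ x ≤ ex L (y - 2 ^ k / 2) := by
    intro k hk1 hk y hy0 hy1 j hyj hj
    obtain ⟨k, rfl⟩ : ∃ k', k = k' + 1 := ⟨k - 1, by omega⟩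
    have e2 : 2 ^ (k + 1) / 2 = 2 ^ k := by rw [pow_succ, Nat.mul_div_cancel _ two_pos]
    rw [e2]
    have hle : 2 ^ k ≤ 2 ^ LL := Nat.pow_le_pow_right two_pos (by omega)
    have hpos : 0 < 2 ^ k := by positivity
    have hxa := (hlev (y - 2 ^ k) (by omega) (by omega)).1
    refine ⟨⟨hj, y - 2 ^ k, le_rfl, by omega, ?_⟩, hxa⟩
    have a1 : (2 ^ k : ℝ) * (v / w3) ≤ LpR43.Sw L τ (y - 2 ^ k) y := by
      have := Finset.card_nsmul_le_sum (Ico (y - 2 ^ k) y) (fun i => ex L i * τ i) (v / w3)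
        fun i hi => by
          have hi' := mem_Ico.1 hi
          rw [div_le_iff₀ hw0, mul_comm]
          exact (hlev i (by omega) (by omega)).2
      rw [Nat.card_Ico, show y - (y - 2 ^ k) = 2 ^ k by omega, nsmul_eq_mul] at this
      exact_mod_cast this
    have a2 : LpR43.Sw L τ (y - 2 ^ k) y ≤ LpR43.Sw L τ (y - 2 ^ k) j := by
      have := LpR43.Sw_nonneg hL l₀ hτ (a := y) hj
      unfold LpR43.Sw at this ⊢
      rw [← Finset.sum_Ico_consecutive _ (by omega : y - 2 ^ k ≤ y) hyj]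
      linarith
    have a3 : x * ((2 ^ k : ℝ) * (v / w3)) ≤ ex L (y - 2 ^ k) * LpR43.Sw L τ (y - 2 ^ k) j :=
      mul_le_mul hxa (a1.trans a2) (by positivity) (hx.le.trans hxa)
    refine le_trans (le_of_eq ?_) (mul_le_mul_of_nonneg_left a3 (by positivity))
    rw [pow_succ]
    field_simp
  have hx1 : ∀ y, j0 + 2 ^ LL ≤ y → y ≤ j1 → x ≤ 1 := fun y h3 h4 => by
    have hpos : 0 < 2 ^ LL := by positivity
    exact ((hlev j0 le_rfl (by omega)).1.trans (LpR43.ex_mono hL (show j0 ≤ L.length by omega))).trans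
      (by simp [T157.Casc.ex])
  have mom : (sys0 w L h l₀).Mom LL v (c0 * (w3 / x)) (c0 * (K * w3)) p j0 j1 := by
    constructor
    · intro k hk y hy0 hy1 ε hε
      rcases eq_or_ne p 0 with rfl | hp
      · simp
      rcases Nat.eq_zero_or_pos k with rfl | hk1
      · refine ratio_triv _ (by positivity) hε (fun a => ok.psd _ _ _)
          (Good74.D_nonneg _ _ hv.le _ _) (fun a => (ok.bdB _ _ _).trans ?_) p
        have s0 := Good74.sq2_nonneg ((sys0 w L h l₀).pc LL 0 y a)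
        unfold Sys.D
        rw [pow_zero, one_mul, ← mul_div_assoc, le_div_iff₀ hv, mul_comm]
        refine mul_le_mul_of_nonneg_right ?_ s0
        nlinarith [mul_le_mul hK (le_refl w3) hw0.le (by linarith : (0:ℝ) ≤ K)]
      set θ0 := 2 * w3 / (x * (2 ^ k * v)) with hθ0
      have θ0p : 0 < θ0 := by positivity
      let θ : ℕ → ℝ := fun j => if j ≤ j2 then θ0 else
        if j ≤ L.length then 1 / (ex L (t' j) * SW L τ (t' j) j) else 0
      have θn : ∀ j, 0 ≤ θ j := fun j => by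
        simp only [θ]
        split_ifs with a1 a2
        · exact θ0p.le
        · exact one_div_nonneg.2 (mul_nonneg (LpR43.ex_nonneg hL _) (LpR43.Sw_nonneg hL l₀ hτ a2))
        · exact le_rfl
      have θy : θ y = θ0 := if_pos (by omega)
      have Hy : LpR43.Win L τ (y - 2 ^ k / 2) y (θ y) := by
        rw [θy]; exact (hWin k hk1 hk y hy0 hy1 y le_rfl (by omega)).1
      have Hj : ∀ j, y < j → j ≤ L.length → dm L 0 j ≠ 0 →
          LpR43.Win L τ (y - 2 ^ k / 2) j (θ j) := fun j a1 a2 a3 => by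
        by_cases a4 : j ≤ j2
        · rw [show θ j = θ0 from if_pos a4]; exact (hWin k hk1 hk y hy0 hy1 j a1.le a2).1
        · obtain ⟨b1, b2, b3⟩ := hwin j (by omega) a2
          have b4 := b3 ((dm_nonneg hL j).lt_of_ne a3.symm)
          have b5 : 0 < ex L (t' j) := hx.trans_le ((hWin k hk1 hk y hy0 hy1 j a1.le a2).2.trans
            (LpR43.ex_mono hL ((Nat.sub_le _ _).trans (hy1.trans b1))))
          refine ⟨a2, t' j, (Nat.sub_le _ _).trans (hy1.trans b1), b2.le, le_of_eq ?_⟩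
          simp only [θ, if_neg a4, if_pos a2]
          exact (one_div_mul_cancel (mul_pos b5 b4).ne').symm
      have hkap : LpR43.kap L θ y * (2 ^ k * v) ≤ 4 * (K * w3) := by
        have e1 : LpR43.kap L θ y = θ0 * ex L j2 +
            ∑ j ∈ Ioc j2 L.length, dm L 0 j / (ex L (t' j) * SW L τ (t' j) j) := by
          unfold LpR43.kap
          rw [← Finset.sum_Ioc_consecutive _ (by omega : y ≤ j2) h2L, θy,
            Finset.sum_congr rfl fun j hj => show dm L 0 j * θ j = dm L 0 j * θ0 by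
              rw [show θ j = θ0 from if_pos (mem_Ioc.1 hj).2],
            ← Finset.sum_mul, sum_dm_Ioc L (by omega : y ≤ j2),
            Finset.sum_congr rfl fun j hj => show dm L 0 j * θ j =
              dm L 0 j / (ex L (t' j) * SW L τ (t' j) j) by
              simp only [θ, if_neg (not_le.2 (mem_Ioc.1 hj).1), if_pos (mem_Ioc.1 hj).2]
              ring]
          ring
        have e2 : θ0 * ex L j2 * (2 ^ k * v) ≤ 2 * (K * w3) := by
          have : θ0 * (K * x) * (2 ^ k * v) = 2 * (K * w3) := by rw [hθ0]; field_simp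
          rw [← this]
          gcongr
        have e3 : K * w3 / (2 ^ LL * v) * (2 ^ k * v) ≤ 2 * (K * w3) := by
          have a1 : (2 : ℝ) ^ k ≤ 2 ^ (LL + 1) := pow_le_pow_right₀ one_le_two hk
          have : K * w3 / (2 ^ LL * v) * (2 ^ (LL + 1) * v) = 2 * (K * w3) := by
            rw [pow_succ]; field_simp
          rw [← this]
          gcongr
        have e4 := mul_le_mul_of_nonneg_right hsum (by positivity : (0:ℝ) ≤ 2 ^ k * v)
        rw [e1, add_mul]
        linarith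
      have kp := LpR43.kap_pos hL l₀ hτ θn Hy
      have R := ratio hw L h (ep_pcP hw L l₀ LL k y) (ad_pcP L l₀ hk y)
        (LpR43.ep_Bq hw (L.drop y) l₀ y (ep_pcP hw L l₀ LL k y)) (LpR43.cK_pos p).le kp.le
        (by positivity : (0:ℝ) < 2 ^ k * v) hε
        (LpR43.CE_Bq hw hL l₀ hτ θn Hy Hj (ad_pcP L l₀ hk y) p)
      simp only [sys0_B]
      exact R.trans (cK_le hp (by positivity) hkap)
    · intro k hk y hy0 y' hy' hy1 ε hε
      rcases eq_or_ne p 0 with rfl | hp
      · simp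
      have x1 := hx1 y hy0 (by omega)
      rcases Nat.eq_zero_or_pos k with rfl | hk1
      · refine ratio_triv _ (by positivity) hε (fun a => sq_nonneg _)
          (Good74.D_nonneg _ _ hv.le _ _) (fun a => (Good74.dt_sq_le _ _).trans ?_) p
        have s0 := Good74.sq2_nonneg ((sys0 w L h l₀).pc LL 0 y a)
        have b1 := ok.bd y' a
        have b2 := ok.bd y a
        unfold Sys.rho at b1 b2
        have b3 := Good74.sq2_sub_le ((sys0 w L h l₀).m y' a) ((sys0 w L h l₀).m y a)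
        unfold Sys.D
        rw [pow_zero, one_mul, ← mul_div_assoc, le_div_iff₀ hv, mul_assoc, mul_comm]
        refine mul_le_mul_of_nonneg_right ?_ s0
        have b4 : w3 ≤ w3 / x := le_div_self hw0.le hx x1
        nlinarith
      have Hy := (hWin k hk1 hk y hy0 (by omega) y le_rfl (by omega)).1
      have R := ratio hw L h (ep_pcP hw L l₀ LL k y) (ad_pcP L l₀ hk y)
        ((LpR43.ep_Yi hw L l₀ (ep_pcP hw L l₀ LL k y) y y').pow 2) (LpR43.cK_pos p).le
        (by positivity : (0:ℝ) ≤ 2 * w3 / (x * (2 ^ k * v)))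
        (by positivity : (0:ℝ) < 2 ^ k * v) hε (n := p) fun q => by
          simpa only [← pow_mul] using LpR43.CE_Yi hw hL l₀ hτ Hy hy' (ad_pcP L l₀ hk y) p q
      refine R.trans (cK_le hp (by positivity) ?_)
      have : 2 * w3 / (x * (2 ^ k * v)) * (2 ^ k * v) = 2 * (w3 / x) := by field_simp
      rw [this]
      have : 0 < w3 / x := by positivity
      linarith
  have G := good_of_mom ok (lam := lam / c0)
    (η := 2 * c0 ^ p * ((LL + 2) * (j1 + 1) ^ 2) / lam ^ p) hv.le (by positivity) (by positivity)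
    (by positivity) mom (le_of_eq (by rw [div_pow]; field_simp))
  have e1 : lam / c0 * (c0 * (w3 / x)) = lam * w3 / x := by field_simp
  have e2 : lam / c0 * (c0 * (K * w3)) = lam * K * w3 := by field_simp
  rw [e1, e2] at G
  exact ⟨G.ex⟩

end Crest.Agent.T156.Cas
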