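import Crest.Agent.T156.QDef_57

/-!
# Row 156, block Q: Brascamp–Lieb for powers (`BlpS`) (helper56)
-/

set_option autoImplicit false

noncomputable section

namespace Crest.Agent.T156.Q57

open MeasureTheory Real Finset

namespace Blp56

variable {α : Type} [MeasurableSpace α] {X Y : α → ℝ}

theorem bm_const (c : ℝ) : Bm fun _ : α => c := ⟨measurable_const, |c|, fun _ => le_rfl⟩

theorem bm_add (h : Bm X) (h' : Bm Y) : Bm fun a => X a + Y a := by
  obtain ⟨m, C, b⟩ := h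
  obtain ⟨m', C', b'⟩ := h'
  exact ⟨m.add m', C + C', fun a => (abs_add_le _ _).trans (add_le_add (b a) (b' a))⟩

theorem bm_mul (h : Bm X) (h' : Bm Y) : Bm fun a => X a * Y a := by
  obtain ⟨m, C, b⟩ := h
  obtain ⟨m', C', b'⟩ := h'
  exact ⟨m.mul m', C * C', fun a => by
    rw [abs_mul]; exact mul_le_mul (b a) (b' a) (abs_nonneg _) ((abs_nonneg _).trans (b a))⟩

theorem bm_sub (h : Bm X) (h' : Bm Y) : Bm fun a => X a - Y a := by
  simpa [sub_eq_add_neg] using bm_add h (bm_mul (bm_const (-1)) h')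

theorem bm_pow (h : Bm X) : ∀ k : ℕ, Bm fun a => X a ^ k
  | 0 => by simpa using bm_const 1
  | k + 1 => by simpa [pow_succ] using bm_mul (bm_pow h k) h

theorem bm_abs (h : Bm X) : Bm fun a => |X a| := by
  obtain ⟨m, C, b⟩ := h
  exact ⟨continuous_abs.measurable.comp m, C, fun a => by simpa using b a⟩

theorem bm_sum {κ : Type} (s : Finset κ) {X : κ → α → ℝ} (h : ∀ k ∈ s, Bm (X k)) :
    Bm fun a => ∑ k ∈ s, X k a := by
  classical
  induction s using Finset.induction_on with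
  | empty => simpa using bm_const 0
  | insert k s hk ih =>
    simpa [Finset.sum_insert hk] using bm_add (h k (by simp)) (ih fun j hj => h j (by simp [hj]))

theorem bm_int (h : Bm X) (μ : Measure α) [IsProbabilityMeasure μ] : Integrable X μ := by
  obtain ⟨m, C, b⟩ := h
  exact Integrable.of_bound m.aestronglyMeasurable C (.of_forall b)

theorem sq_int (h : Bm X) (μ : Measure α) [IsProbabilityMeasure μ] :
    (∫ a, X a ∂μ) ^ 2 ≤ ∫ a, X a ^ 2 ∂μ := by
  set c := ∫ a, X a ∂μ with hc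
  have p : 0 ≤ ∫ a, (X a ^ 2 + (-(2 * c) * X a + c ^ 2)) ∂μ :=
    integral_nonneg fun a => (sq_nonneg (X a - c)).trans_eq (by ring)
  rw [integral_add (bm_int (bm_pow h 2) μ) (bm_int (bm_add (bm_mul (bm_const _) h) (bm_const _)) μ),
    integral_add (bm_int (bm_mul (bm_const _) h) μ) (integrable_const _), integral_const_mul,
    ← hc] at p
  simp only [integral_const, probReal_univ, smul_eq_mul, one_mul] at p
  linarith

theorem nb_half (h : Bm X) (μ : Measure α) [IsProbabilityMeasure μ] {p : ℕ} {c : ℝ}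
    (H : Nb μ (2 * p) X c) : Nb μ p X c := by
  refine ⟨H.1, (abs_le_of_sq_le_sq' ((sq_int (bm_pow (bm_abs h) p) μ).trans ?_)
    (pow_nonneg H.1 p)).2⟩
  simpa only [← pow_mul, mul_comm p 2] using H.2

theorem young {x y : ℝ} (hx : 0 ≤ x) (hy : 0 ≤ y) (k : ℕ) :
    x ^ k * y ≤ x ^ (k + 1) / 2 + (2 * y) ^ (k + 1) / 2 := by
  rcases le_total (2 * y) x with h | h
  · have := mul_le_mul_of_nonneg_left h (pow_nonneg hx k)
    have p : 0 ≤ (2 * y) ^ (k + 1) := by positivity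
    rw [pow_succ x]; linarith
  · have := mul_le_mul_of_nonneg_right (pow_le_pow_left₀ hx h k) hy
    have p : 0 ≤ x ^ (k + 1) := by positivity
    rw [pow_succ (2 * y)]; linarith

variable {ι : Type} [Fintype ι] {S : Sys α ι}

theorem bm_rho (H : S.Ok) (j : ℕ) : Bm (S.rho j) :=
  ⟨Finset.measurable_sum _ fun i _ => (H.mm j i).pow_const 2, 1, fun a => by
    rw [abs_of_nonneg (Finset.sum_nonneg fun _ _ => sq_nonneg _)]; exact H.bd j a⟩

theorem bm_aa (H : S.Ok) (j : ℕ) : Bm (S.aa j) :=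
  ⟨Finset.measurable_sum _ fun i _ => Finset.measurable_sum _ fun k _ =>
    ((H.mm j i).mul (H.mm j k)).mul (H.mA j i k), 1, fun a => by
    rw [Sys.aa, abs_of_nonneg (H.psd j a _)]; exact (H.bdB j a _).trans (H.bd j a)⟩

theorem key (H : S.Ok) (J : Finset ℕ) (φ : ℕ → ℝ) {γ : ℝ} (k : ℕ)
    (h : Nb S.μ (k + 1) (fun a => ∑ j ∈ J, S.dm j * (φ j ^ 2 * S.aa j a)) γ) :
    ∫ a, (∑ j ∈ J, S.dm j * (φ j * (S.rho j a - S.r j))) ^ (2 * (k + 1)) ∂S.μ ≤
      2 * (∫ a, (∑ j ∈ J, S.dm j * (φ j * (S.rho j a - S.r j))) ^ (k + 1) ∂S.μ) ^ 2 +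
        (8 * (k + 1) ^ 2) ^ (k + 1) * γ ^ (k + 1) := by
  have := H.prob
  have b := H.bl J (fun j t => φ j * (t - S.r j)) (fun j _ => φ j) (fun t => t ^ (k + 1))
    (fun t => (k + 1) * t ^ k)
    (fun j t => by simpa using ((hasDerivAt_id t).sub_const (S.r j)).const_mul (φ j))
    (fun _ => continuous_const) (fun t => by simpa using hasDerivAt_pow (k + 1) t) (by fun_prop)
  set F : α → ℝ := fun a => ∑ j ∈ J, S.dm j * (φ j * (S.rho j a - S.r j)) with hF
  set G : α → ℝ := fun a => ∑ j ∈ J, S.dm j * (φ j ^ 2 * S.aa j a) with hG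
  have bF : Bm F := bm_sum J fun j _ =>
    bm_mul (bm_const _) (bm_mul (bm_const _) (bm_sub (bm_rho H j) (bm_const _)))
  have bG : Bm G := bm_sum J fun j _ => bm_mul (bm_const _) (bm_mul (bm_const _) (bm_aa H j))
  have G0 : ∀ a, 0 ≤ G a := fun a => Finset.sum_nonneg fun j _ =>
    mul_nonneg (H.dm0 j) (mul_nonneg (sq_nonneg _) (H.psd j a _))
  have i1 := bm_int (bm_pow bF (2 * (k + 1))) S.μ
  have i2 := bm_int (bm_pow (bm_abs bG) (k + 1)) S.μ
  have c : ∫ a, (((k : ℝ) + 1) * F a ^ k) ^ 2 * (4 * G a) ∂S.μ ≤ ∫ a, (F a ^ (2 * (k + 1)) / 2 +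
      (8 * ((k : ℝ) + 1) ^ 2) ^ (k + 1) / 2 * |G a| ^ (k + 1)) ∂S.μ :=
    integral_mono (bm_int (bm_mul (bm_pow (bm_mul (bm_const _) (bm_pow bF k)) 2)
      (bm_mul (bm_const _) bG)) _) ((i1.div_const 2).add (i2.const_mul _)) fun a => by
      have y := young (sq_nonneg (F a)) (y := 4 * ((k : ℝ) + 1) ^ 2 * G a)
        (mul_nonneg (by positivity) (G0 a)) k
      rw [show 2 * (4 * ((k : ℝ) + 1) ^ 2 * G a) = 8 * ((k : ℝ) + 1) ^ 2 * G a by ring, mul_pow,
        ← pow_mul, ← pow_mul] at y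
      simp only [abs_of_nonneg (G0 a)]
      refine le_of_eq_of_le (by ring) (y.trans_eq (by ring))
  rw [integral_add (i1.div_const 2) (i2.const_mul _), integral_div, integral_const_mul] at c
  have d := mul_le_mul_of_nonneg_left h.2
    (show 0 ≤ (8 * ((k : ℝ) + 1) ^ 2) ^ (k + 1) / 2 by positivity)
  have e : ∀ a, (F a ^ (k + 1)) ^ 2 = F a ^ (2 * (k + 1)) := fun a => by ring
  have b' : ∫ a, (F a ^ (k + 1)) ^ 2 ∂S.μ - (∫ a, F a ^ (k + 1) ∂S.μ) ^ 2 ≤
      ∫ a, (((k : ℝ) + 1) * F a ^ k) ^ 2 * (4 * G a) ∂S.μ := b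
  simp only [e] at b'
  linarith

theorem mean_zero (H : S.Ok) (J : Finset ℕ) (φ : ℕ → ℝ) :
    ∫ a, ∑ j ∈ J, S.dm j * (φ j * (S.rho j a - S.r j)) ∂S.μ = 0 := by
  have := H.prob
  rw [integral_finsetSum _ fun j _ => bm_int
    (bm_mul (bm_const _) (bm_mul (bm_const _) (bm_sub (bm_rho H j) (bm_const _)))) _]
  refine Finset.sum_eq_zero fun j _ => ?_
  rw [integral_const_mul, integral_const_mul,
    integral_sub (bm_int (bm_rho H j) _) (integrable_const _)]
  simp [Sys.r]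

end Blp56

open Blp56

/-- **(BLp)** -/
theorem blpS : BlpS := by
  intro i
  induction i with
  | zero =>
    refine ⟨3, by norm_num, fun α ι _ _ S H J φ γ h => ⟨by positivity, ?_⟩⟩
    have k := key H J φ 0 h
    simp only [zero_add, pow_one, mean_zero H, Nat.cast_zero] at k
    simp only [pow_zero, mul_one, sq_abs, mul_pow, sq_sqrt h.1] at k ⊢
    linarith [h.1]
  | succ i ih =>
    obtain ⟨C, h1, hC⟩ := ih
    obtain ⟨k, hk⟩ : ∃ k, 2 ^ (i + 1) = k + 1 := ⟨_, (Nat.succ_pred_eq_of_pos (by positivity)).symm⟩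
    refine ⟨2 * C + 8 * (k + 1) ^ 2, by nlinarith [sq_nonneg ((k : ℝ) + 1)],
      fun α ι _ _ S H J φ γ h => ⟨by positivity, ?_⟩⟩
    have := H.prob
    have bG : Bm fun a => ∑ j ∈ J, S.dm j * (φ j ^ 2 * S.aa j a) :=
      bm_sum J fun j _ => bm_mul (bm_const _) (bm_mul (bm_const _) (bm_aa H j))
    have a1 := (hC α ι S H J φ γ (nb_half bG S.μ (by rwa [← pow_succ']))).2
    rw [← pow_succ', hk] at a1
    rw [hk] at h ⊢
    have a2 := key H J φ k h
    have ev : Even (k + 1) := hk ▸ (by rw [pow_succ']; exact even_two_mul _)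
    simp only [ev.pow_abs] at a1
    simp only [(even_two_mul (k + 1)).pow_abs]
    have a3 := pow_le_pow_left₀ (integral_nonneg fun a => ev.pow_nonneg _) a1 2
    have g : √γ ^ (2 * (k + 1)) = γ ^ (k + 1) := by rw [pow_mul, sq_sqrt h.1]
    rw [← pow_mul, mul_comm (k + 1) 2, mul_pow, g] at a3
    rw [mul_pow, g]
    have q1 : 2 * C ^ (2 * (k + 1)) ≤ (2 * C) ^ (2 * (k + 1)) := by
      rw [mul_pow]
      exact mul_le_mul_of_nonneg_right (le_self_pow₀ one_le_two (by omega)) (by positivity)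
    have q2 : (8 * ((k : ℝ) + 1) ^ 2) ^ (k + 1) ≤ (8 * ((k : ℝ) + 1) ^ 2) ^ (2 * (k + 1)) :=
      pow_le_pow_right₀ (by nlinarith [sq_nonneg (k : ℝ), Nat.cast_nonneg (α := ℝ) k]) (by omega)
    have q3 := pow_add_pow_le (x := 2 * C) (y := 8 * ((k : ℝ) + 1) ^ 2) (by linarith)
      (by positivity) (show 2 * (k + 1) ≠ 0 by omega)
    have q4 := mul_le_mul_of_nonneg_right ((add_le_add q1 q2).trans q3) (pow_nonneg h.1 (k + 1))
    linarith

end Crest.Agent.T156.Q57

end
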