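import Crest.Agent.T156.QDef_57

/-!
# Row 156, block Q (helper89): the leaves `NbS`, `GarS`, `JointS`, `QvS` of `QDef_57`
-/

set_option autoImplicit false

noncomputable section

namespace Crest.Agent.T156.Q57.N89

open MeasureTheory Real Finset Filter Topology

section bm
variable {α : Type} [MeasurableSpace α] {X Y : α → ℝ}

theorem bm_const (c : ℝ) : Bm fun _ : α => c := ⟨measurable_const, |c|, fun _ => le_rfl⟩

theorem bm_add (h : Bm X) (h' : Bm Y) : Bm fun a => X a + Y a := by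
  obtain ⟨m, C, hC⟩ := h
  obtain ⟨m', C', hC'⟩ := h'
  exact ⟨m.add m', C + C', fun a => (abs_add_le _ _).trans (add_le_add (hC a) (hC' a))⟩

theorem bm_mul (h : Bm X) (h' : Bm Y) : Bm fun a => X a * Y a := by
  obtain ⟨m, C, hC⟩ := h
  obtain ⟨m', C', hC'⟩ := h'
  refine ⟨m.mul m', C * C', fun a => ?_⟩
  rw [abs_mul]
  exact mul_le_mul (hC a) (hC' a) (abs_nonneg _) ((abs_nonneg _).trans (hC a))

theorem bm_neg (h : Bm X) : Bm fun a => -X a := by
  obtain ⟨m, C, hC⟩ := h
  exact ⟨m.neg, C, fun a => by rw [abs_neg]; exact hC a⟩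

theorem bm_sub (h : Bm X) (h' : Bm Y) : Bm fun a => X a - Y a := by
  simpa only [sub_eq_add_neg] using bm_add h (bm_neg h')

theorem bm_abs (h : Bm X) : Bm fun a => |X a| := by
  obtain ⟨m, C, hC⟩ := h
  exact ⟨m.abs, C, fun a => by rw [abs_abs]; exact hC a⟩

theorem bm_pow (h : Bm X) : ∀ k : ℕ, Bm fun a => X a ^ k
  | 0 => by simpa using bm_const (α := α) 1
  | k + 1 => by simpa only [pow_succ] using bm_mul (bm_pow h k) h

theorem bm_cmul (c : ℝ) (h : Bm X) : Bm fun a => c * X a := bm_mul (bm_const c) h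

theorem bm_div (h : Bm X) (c : ℝ) : Bm fun a => X a / c := by
  simpa only [div_eq_mul_inv] using bm_mul h (bm_const c⁻¹)

theorem bm_max (h : Bm X) (h' : Bm Y) : Bm fun a => max (X a) (Y a) := by
  obtain ⟨m, C, hC⟩ := h
  obtain ⟨m', C', hC'⟩ := h'
  refine ⟨m.max m', max C C', fun a => ?_⟩
  show |max (X a) (Y a)| ≤ max C C'
  rcases le_total (X a) (Y a) with h | h
  · rw [max_eq_right h]; exact (hC' a).trans (le_max_right _ _)
  · rw [max_eq_left h]; exact (hC a).trans (le_max_left _ _)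

theorem bm_sum {κ : Type*} (s : Finset κ) {X : κ → α → ℝ} (h : ∀ k ∈ s, Bm (X k)) :
    Bm fun a => ∑ k ∈ s, X k a := by
  classical
  induction s using Finset.induction_on with
  | empty => simpa using bm_const (α := α) 0
  | insert k s hk ih =>
    simp only [Finset.sum_insert hk]
    exact bm_add (h k (mem_insert_self _ _)) (ih fun j hj => h j (mem_insert_of_mem hj))

theorem bm_sqrt (h : Bm X) : Bm fun a => √(X a) := by
  obtain ⟨m, C, hC⟩ := h
  refine ⟨m.sqrt, √C, fun a => ?_⟩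
  rw [abs_of_nonneg (sqrt_nonneg _)]
  exact sqrt_le_sqrt ((le_abs_self _).trans (hC a))

theorem bm_ind {B : Set α} (hB : MeasurableSet B) (h : Bm X) : Bm (B.indicator X) := by
  obtain ⟨m, C, hC⟩ := h
  refine ⟨m.indicator hB, max C 0, fun a => ?_⟩
  by_cases ha : a ∈ B
  · rw [Set.indicator_of_mem ha]; exact (hC a).trans (le_max_left _ _)
  · rw [Set.indicator_of_notMem ha, abs_zero]; exact le_max_right _ _

theorem bm_int (μ : Measure α) [IsFiniteMeasure μ] (h : Bm X) : Integrable X μ := by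
  obtain ⟨m, C, hC⟩ := h
  exact Integrable.of_bound m.aestronglyMeasurable C (ae_of_all _ hC)

end bm

theorem amgm (p : ℕ) {t u : ℝ} (ht : 0 ≤ t) (hu : 0 ≤ u) :
    (p + 1) * (t * u ^ p) ≤ p * u ^ (p + 1) + t ^ (p + 1) := by
  have h := pow_add_mul_le_add_pow (a := u) (b := t - u) hu (by linarith) (p + 1)
  rw [add_sub_cancel, Nat.add_sub_cancel] at h
  push_cast at h
  have e : u ^ (p + 1) = u ^ p * u := pow_succ u p
  nlinarith

section nb
variable {α : Type} [MeasurableSpace α] {μ : Measure α} [IsProbabilityMeasure μ] {p : ℕ}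
  {X Y : α → ℝ} {c d : ℝ}

omit [IsProbabilityMeasure μ] in
theorem nb_le (h : Nb μ p X c) (hc : c ≤ d) : Nb μ p X d :=
  ⟨h.1.trans hc, h.2.trans (pow_le_pow_left₀ h.1 hc p)⟩

omit [IsProbabilityMeasure μ] in
theorem nb_of_pos (hc : 0 ≤ c) (h : ∀ e, 0 < e → Nb μ p X (c + e)) : Nb μ p X c := by
  refine ⟨hc, ?_⟩
  have t : Tendsto (fun e : ℝ => (c + e) ^ p) (𝓝[>] 0) (𝓝 (c ^ p)) := by
    have : Continuous fun e : ℝ => (c + e) ^ p := by fun_prop
    simpa using (this.tendsto 0).mono_left nhdsWithin_le_nhds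
  exact ge_of_tendsto t (eventually_nhdsWithin_of_forall fun e he => (h e he).2)

theorem nb_mono (hX : Bm X) (hY : Bm Y) (h : ∀ a, |X a| ≤ |Y a|) (hc : Nb μ p Y c) :
    Nb μ p X c :=
  ⟨hc.1, (integral_mono (bm_int μ (bm_pow (bm_abs hX) p)) (bm_int μ (bm_pow (bm_abs hY) p))
    fun a => pow_le_pow_left₀ (abs_nonneg _) (h a) p).trans hc.2⟩

theorem nb_const (p : ℕ) (hc : |c| ≤ d) : Nb μ p (fun _ => c) d :=
  ⟨(abs_nonneg _).trans hc, by simpa using pow_le_pow_left₀ (abs_nonneg _) hc p⟩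

theorem nb_bdd (p : ℕ) (hX : Bm X) (hd : 0 ≤ d) (h : ∀ a, |X a| ≤ d) : Nb μ p X d :=
  nb_mono hX (bm_const d) (fun a => (h a).trans (le_abs_self d)) (nb_const p (abs_of_nonneg hd).le)

omit [IsProbabilityMeasure μ] in
theorem nb_cmul (k : ℝ) (h : Nb μ p X c) : Nb μ p (fun a => k * X a) (|k| * c) := by
  refine ⟨mul_nonneg (abs_nonneg _) h.1, ?_⟩
  simp only [abs_mul, mul_pow]
  rw [integral_const_mul]
  exact mul_le_mul_of_nonneg_left h.2 (by positivity)

theorem nb_add (hX : Bm X) (hY : Bm Y) (h : Nb μ p X c) (h' : Nb μ p Y d) :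
    Nb μ p (fun a => X a + Y a) (c + d) := by
  have key : ∀ c d : ℝ, 0 < c → 0 < d → Nb μ p X c → Nb μ p Y d →
      Nb μ p (fun a => X a + Y a) (c + d) := by
    intro c d hc hd h h'
    have hs : 0 < c + d := by positivity
    refine ⟨hs.le, ?_⟩
    have pt : ∀ a, |X a + Y a| ^ p ≤ (c + d) ^ p * (c / (c + d) / c ^ p) * |X a| ^ p +
        (c + d) ^ p * (d / (c + d) / d ^ p) * |Y a| ^ p := by
      intro a
      have m1 : |X a| / c ∈ Set.Ici (0 : ℝ) := Set.mem_Ici.2 (by positivity)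
      have m2 : |Y a| / d ∈ Set.Ici (0 : ℝ) := Set.mem_Ici.2 (by positivity)
      have w1 : 0 ≤ c / (c + d) := by positivity
      have w2 : 0 ≤ d / (c + d) := by positivity
      have w3 : c / (c + d) + d / (c + d) = 1 := by field_simp
      have cv := (convexOn_pow (𝕜 := ℝ) p).2 m1 m2 w1 w2 w3
      simp only [smul_eq_mul] at cv
      have e : c / (c + d) * (|X a| / c) + d / (c + d) * (|Y a| / d) = (|X a| + |Y a|) / (c + d) := by
        field_simp
      rw [e, div_pow, div_le_iff₀ (by positivity), div_pow, div_pow] at cv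
      refine (pow_le_pow_left₀ (abs_nonneg _) (abs_add_le _ _) p).trans (cv.trans_eq ?_)
      ring
    have i1 := bm_int μ (bm_pow (bm_abs hX) p)
    have i2 := bm_int μ (bm_pow (bm_abs hY) p)
    refine (integral_mono (bm_int μ (bm_pow (bm_abs (bm_add hX hY)) p))
      ((i1.const_mul _).add (i2.const_mul _)) pt).trans ?_
    simp only [Pi.add_apply]
    rw [integral_add (i1.const_mul _) (i2.const_mul _), integral_const_mul, integral_const_mul]
    refine (add_le_add (mul_le_mul_of_nonneg_left h.2 (by positivity))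
      (mul_le_mul_of_nonneg_left h'.2 (by positivity))).trans_eq ?_
    field_simp
  refine nb_of_pos (add_nonneg h.1 h'.1) fun e he => ?_
  have := key (c + e / 2) (d + e / 2) (by linarith [h.1]) (by linarith [h'.1])
    (nb_le h (by linarith)) (nb_le h' (by linarith))
  exact nb_le this (by linarith)

theorem nb_sum {κ : Type*} (s : Finset κ) {X : κ → α → ℝ} {c : κ → ℝ} (hX : ∀ k ∈ s, Bm (X k))
    (h : ∀ k ∈ s, Nb μ p (X k) (c k)) : Nb μ p (fun a => ∑ k ∈ s, X k a) (∑ k ∈ s, c k) := by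
  classical
  induction s using Finset.induction_on with
  | empty => simpa using nb_const (μ := μ) (c := 0) (d := 0) p (by simp)
  | insert k s hk ih =>
    simp only [Finset.sum_insert hk]
    exact nb_add (hX k (mem_insert_self _ _)) (bm_sum s fun j hj => hX j (mem_insert_of_mem hj))
      (h k (mem_insert_self _ _))
      (ih (fun j hj => hX j (mem_insert_of_mem hj)) fun j hj => h j (mem_insert_of_mem hj))

theorem nb_succ (hX : Bm X) (h : Nb μ (p + 1) X c) : Nb μ p X c := by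
  refine nb_of_pos h.1 fun e he => ?_
  have h' := nb_le h (show c ≤ c + e by linarith)
  have hc : 0 < c + e := by linarith [h.1]
  generalize c + e = t at h' hc
  refine ⟨hc.le, ?_⟩
  have i1 := bm_int μ (bm_pow (bm_abs hX) (p + 1))
  have i0 := bm_int μ (bm_pow (bm_abs hX) p)
  have := integral_mono ((i0.const_mul t).const_mul ((p : ℝ) + 1))
    ((i1.const_mul p).add (integrable_const (t ^ (p + 1)))) fun a => amgm p hc.le (abs_nonneg (X a))
  simp only [Pi.add_apply] at this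
  rw [integral_add (i1.const_mul _) (integrable_const _), integral_const_mul, integral_const_mul,
    integral_const_mul, integral_const] at this
  simp only [probReal_univ, smul_eq_mul, one_mul] at this
  have h2 := mul_le_mul_of_nonneg_left h'.2 (Nat.cast_nonneg (α := ℝ) p)
  have h3 : ((p : ℝ) + 1) * t * ∫ a, |X a| ^ p ∂μ ≤ ((p : ℝ) + 1) * t * t ^ p := by
    rw [pow_succ] at h2 this
    nlinarith
  exact le_of_mul_le_mul_left h3 (by positivity)

theorem nb_exp (hX : Bm X) {q : ℕ} (hpq : p ≤ q) (h : Nb μ q X c) : Nb μ p X c := by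
  induction q, hpq using Nat.le_induction with
  | base => exact h
  | succ q _ ih => exact ih (nb_succ hX h)

theorem nb_l1 (hp : 1 ≤ p) (hX : Bm X) (h : Nb μ p X c) : ∫ a, |X a| ∂μ ≤ c := by
  simpa using (nb_exp hX hp h).2

theorem nb_sqrt2 (hX : Bm X) (h : Nb μ p X c) : Nb μ (2 * p) (fun a => √(X a)) (√c) := by
  refine ⟨sqrt_nonneg _, ?_⟩
  rw [pow_mul, sq_sqrt h.1]
  refine (integral_mono (bm_int μ (bm_pow (bm_abs (bm_sqrt hX)) _))
    (bm_int μ (bm_pow (bm_abs hX) p)) fun a => ?_).trans h.2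
  show |√(X a)| ^ (2 * p) ≤ |X a| ^ p
  rw [pow_mul, sq_abs]
  refine pow_le_pow_left₀ (sq_nonneg _) ?_ p
  rw [← sq_sqrt (abs_nonneg (X a))]
  exact pow_le_pow_left₀ (sqrt_nonneg _) (sqrt_le_sqrt (le_abs_self _)) 2

theorem nb_sqrt (hX : Bm X) (h : Nb μ p X c) : Nb μ p (fun a => √(X a)) (√c) :=
  nb_exp (bm_sqrt hX) (by omega) (nb_sqrt2 hX h)

omit [IsProbabilityMeasure μ] in
theorem nb_sq (h : Nb μ (2 * p) X c) : Nb μ p (fun a => X a ^ 2) (c ^ 2) := by
  refine ⟨sq_nonneg _, ?_⟩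
  simpa only [abs_pow, ← pow_mul] using h.2

theorem nb_bad (hp : 1 ≤ p) {B : Set α} {M e : ℝ} (hB : MeasurableSet B) (hX : Bm X) (hY : Bm Y)
    (hM : 0 ≤ M) (he : 0 ≤ e) (hμ : μ.real B ≤ e ^ p) (h1 : ∀ a, |X a| ≤ M)
    (h2 : ∀ a, a ∉ B → |X a| ≤ |Y a|) (h : Nb μ p Y c) : Nb μ p X (c + M * e) := by
  have hI : Bm (B.indicator fun _ : α => M) := bm_ind hB (bm_const M)
  have n2 : Nb μ p (B.indicator fun _ : α => M) (M * e) := by
    refine ⟨by positivity, ?_⟩
    have : (fun a => |B.indicator (fun _ : α => M) a| ^ p) = B.indicator fun _ => M ^ p := by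
      funext a
      by_cases ha : a ∈ B
      · simp [Set.indicator_of_mem ha, abs_of_nonneg hM]
      · simp [Set.indicator_of_notMem ha, show p ≠ 0 by omega]
    rw [this, integral_indicator_const _ hB, smul_eq_mul, mul_pow, mul_comm]
    exact mul_le_mul_of_nonneg_left hμ (by positivity)
  have n1 : Nb μ p (fun a => |Y a|) c := ⟨h.1, by simpa only [abs_abs] using h.2⟩
  refine nb_mono hX (bm_add (bm_abs hY) hI) (fun a => ?_) (nb_add (bm_abs hY) hI n1 n2)
  refine le_trans ?_ (le_abs_self _)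
  by_cases ha : a ∈ B
  · rw [Set.indicator_of_mem ha]; linarith [h1 a, abs_nonneg (Y a)]
  · rw [Set.indicator_of_notMem ha, add_zero]; exact h2 a ha

/-- the maximum of `n` variables costs `n ^ (1 / p)` -/
theorem nb_dom {κ : Type*} (s : Finset κ) {Z : κ → α → ℝ} {P : ℝ} (hX : Bm X)
    (hZ : ∀ k ∈ s, Bm (Z k)) (hP : 0 ≤ P) (hc : 0 ≤ c) (hs : (s.card : ℝ) ≤ P ^ p)
    (hd : ∀ a, ∃ k ∈ s, |X a| ≤ |Z k a|) (h : ∀ k ∈ s, Nb μ p (Z k) c) : Nb μ p X (P * c) := by
  refine ⟨by positivity, ?_⟩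
  have i : ∀ k ∈ s, Integrable (fun a => |Z k a| ^ p) μ := fun k hk =>
    bm_int μ (bm_pow (bm_abs (hZ k hk)) p)
  refine (integral_mono (bm_int μ (bm_pow (bm_abs hX) p)) (integrable_finset_sum s i)
    fun a => ?_).trans ?_
  · obtain ⟨k, hk, h1⟩ := hd a
    exact (pow_le_pow_left₀ (abs_nonneg _) h1 p).trans
      (Finset.single_le_sum (f := fun k => |Z k a| ^ p) (fun _ _ => by positivity) hk)
  · rw [integral_finset_sum s i, mul_pow]
    refine (Finset.sum_le_sum fun k hk => (h k hk).2).trans ?_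
    rw [Finset.sum_const, nsmul_eq_mul]
    exact mul_le_mul_of_nonneg_right hs (by positivity)

end nb

theorem nbS : NbS := fun _ _ _ _ _ hp =>
  ⟨fun _ s _ _ hX h => nb_sum s hX h, fun _ _ _ hX hY h hc => nb_mono hX hY h hc,
    fun _ _ hX h => nb_exp hX (by omega) h, fun _ _ hX h => nb_sqrt hX h,
    fun _ _ hX h => nb_l1 hp hX h,
    fun _ _ _ _ _ _ hB hX hY hM he hμ h1 h2 h => nb_bad hp hB hX hY hM he hμ h1 h2 h⟩

theorem gar_pt (p n : ℕ) (hp : 1 ≤ p) (S : ℕ → ℝ) (h0 : S 0 = 0) (hm : ∀ i, S i ≤ S (i + 1)) :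
    S n ^ (p + 1) ≤ (p + 1) * ∑ i ∈ range n, (S (i + 1) ^ p - S i ^ p) * (S n - S i) := by
  have nn : ∀ i, 0 ≤ S i := fun i => h0 ▸ monotone_nat_of_le_succ hm (Nat.zero_le i)
  have t := Finset.sum_range_sub (fun i => (p + 1) * S n * S i ^ p - p * S i ^ (p + 1)) n
  have e : S n ^ (p + 1) = ((p + 1) * S n * S n ^ p - p * S n ^ (p + 1)) -
      ((p + 1) * S n * S 0 ^ p - p * S 0 ^ (p + 1)) := by
    rw [h0, zero_pow (by omega), zero_pow (by omega)]
    ring
  rw [e, ← t, Finset.mul_sum]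
  refine Finset.sum_le_sum fun i _ => ?_
  have := amgm p (nn i) (nn (i + 1))
  have e2 : S i ^ (p + 1) = S i ^ p * S i := pow_succ _ _
  nlinarith

theorem garS : GarS := by
  intro α _ μ _ p n S W c hS hW h0 hm hG hp hc
  have nn : ∀ i a, 0 ≤ S i a := fun i a =>
    h0 a ▸ monotone_nat_of_le_succ (f := fun i => S i a) (fun i => hm i a) (Nat.zero_le i)
  have hc0 := hc.1
  refine ⟨by positivity, ?_⟩
  have bG : ∀ i, Bm fun a => S (i + 1) a ^ p - S i a ^ p := fun i =>
    bm_sub (bm_pow (hS _) p) (bm_pow (hS _) p)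
  have i1 : ∀ i ∈ range n, Integrable (fun a => (S (i + 1) a ^ p - S i a ^ p) * (S n a - S i a)) μ :=
    fun i _ => bm_int μ (bm_mul (bG i) (bm_sub (hS n) (hS i)))
  have i2 : ∀ i ∈ range n, Integrable (fun a => (S (i + 1) a ^ p - S i a ^ p) * W a) μ :=
    fun i _ => bm_int μ (bm_mul (bG i) hW)
  have iS := bm_int μ (bm_pow (bm_abs (hS n)) (p + 1))
  have iW := bm_int μ (bm_pow (bm_abs hW) (p + 1))
  have a1 : ∫ a, |S n a| ^ (p + 1) ∂μ ≤
      (p + 1) * ∑ i ∈ range n, ∫ a, (S (i + 1) a ^ p - S i a ^ p) * (S n a - S i a) ∂μ := by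
    rw [← integral_finset_sum _ i1, ← integral_const_mul]
    refine integral_mono iS ((integrable_finset_sum _ i1).const_mul _) fun a => ?_
    show |S n a| ^ (p + 1) ≤ _
    rw [abs_of_nonneg (nn n a)]
    exact gar_pt p n hp (fun i => S i a) (h0 a) fun i => hm i a
  have a2 : (p + 1) * ∑ i ∈ range n, ∫ a, (S (i + 1) a ^ p - S i a ^ p) * W a ∂μ ≤
      1 / 2 * ∫ a, |S n a| ^ (p + 1) ∂μ +
        1 / 2 * (2 * ((p : ℝ) + 1)) ^ (p + 1) * ∫ a, |W a| ^ (p + 1) ∂μ := by
    rw [← integral_finset_sum _ i2, ← integral_const_mul, ← integral_const_mul,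
      ← integral_const_mul, ← integral_add (iS.const_mul _) (iW.const_mul _)]
    refine integral_mono ((integrable_finset_sum _ i2).const_mul _)
      ((iS.const_mul _).add (iW.const_mul _)) fun a => ?_
    show (p + 1 : ℝ) * ∑ i ∈ range n, (S (i + 1) a ^ p - S i a ^ p) * W a ≤
      1 / 2 * |S n a| ^ (p + 1) + 1 / 2 * (2 * ((p : ℝ) + 1)) ^ (p + 1) * |W a| ^ (p + 1)
    rw [← Finset.sum_mul, Finset.sum_range_sub (fun i => S i a ^ p) n, h0 a, zero_pow (by omega),
      sub_zero, abs_of_nonneg (nn n a)]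
    have s0 := nn n a
    have w0 := abs_nonneg (W a)
    have w1 := le_abs_self (W a)
    generalize S n a = s at s0 ⊢
    have sp : 0 ≤ s ^ p := by positivity
    have b1 : (p + 1 : ℝ) * (s ^ p * W a) ≤ (p + 1) * (s ^ p * |W a|) := by gcongr
    refine b1.trans ?_
    generalize |W a| = w at w0 ⊢
    rcases le_total (2 * ((p : ℝ) + 1) * w) s with h | h
    · have : 0 ≤ 1 / 2 * (2 * ((p : ℝ) + 1)) ^ (p + 1) * w ^ (p + 1) := by positivity
      have h2 := mul_le_mul_of_nonneg_left h sp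
      rw [pow_succ s]
      nlinarith
    · have : 0 ≤ 1 / 2 * s ^ (p + 1) := by positivity
      have h2 := pow_le_pow_left₀ s0 h p
      have h3 : (p + 1 : ℝ) * (s ^ p * w) ≤ (p + 1) * ((2 * ((p : ℝ) + 1) * w) ^ p * w) := by gcongr
      have h4 : (p + 1 : ℝ) * ((2 * ((p : ℝ) + 1) * w) ^ p * w) =
          1 / 2 * (2 * ((p : ℝ) + 1)) ^ (p + 1) * w ^ (p + 1) := by
        rw [mul_pow, pow_succ (2 * ((p : ℝ) + 1)), pow_succ w]
        ring
      linarith
  have a3 : (p + 1 : ℝ) * ∑ i ∈ range n, ∫ a, (S (i + 1) a ^ p - S i a ^ p) * (S n a - S i a) ∂μ ≤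
      (p + 1) * ∑ i ∈ range n, ∫ a, (S (i + 1) a ^ p - S i a ^ p) * W a ∂μ :=
    mul_le_mul_of_nonneg_left (Finset.sum_le_sum fun i hi => hG i (mem_range.1 hi)) (by positivity)
  have a4 := mul_le_mul_of_nonneg_left hc.2
    (show 0 ≤ 1 / 2 * (2 * ((p : ℝ) + 1)) ^ (p + 1) by positivity)
  rw [mul_pow]
  linarith

section sys
variable {α ι : Type} [MeasurableSpace α] [Fintype ι] {S : Sys α ι}

theorem sq2_nonneg (z : ι → ℝ) : 0 ≤ sq2 z := Finset.sum_nonneg fun _ _ => sq_nonneg _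

theorem sq2_sub (z z' : ι → ℝ) : sq2 (z - z') = sq2 z - sq2 z' - 2 * dt z' (z - z') := by
  simp only [sq2, dt, Finset.mul_sum, ← Finset.sum_sub_distrib, Pi.sub_apply]
  exact Finset.sum_congr rfl fun i _ => by ring

theorem sq2_tri (x y z : ι → ℝ) : sq2 (x - y) ≤ 2 * sq2 (x - z) + 2 * sq2 (y - z) := by
  simp only [sq2, Finset.mul_sum, ← Finset.sum_add_distrib, Pi.sub_apply]
  exact Finset.sum_le_sum fun i _ => by nlinarith [sq_nonneg (x i + y i - 2 * z i)]

theorem sq2_three (x y z : ι → ℝ) :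
    sq2 (x - z) = sq2 (y - z) + sq2 (x - y) + 2 * dt (y - z) (x - y) := by
  simp only [sq2, dt, Finset.mul_sum, ← Finset.sum_add_distrib, Pi.sub_apply]
  exact Finset.sum_congr rfl fun i _ => by ring

theorem bm_m (H : S.Ok) (j : ℕ) (i : ι) : Bm fun a => S.m j a i := by
  refine ⟨H.mm j i, 1, fun a => ?_⟩
  have h1 : S.m j a i ^ 2 ≤ 1 :=
    (Finset.single_le_sum (f := fun i => S.m j a i ^ 2) (fun _ _ => sq_nonneg _)
      (mem_univ i)).trans (H.bd j a)
  exact abs_le_one_iff_mul_self_le_one.2 (by nlinarith)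

theorem bm_sq2 {z : α → ι → ℝ} (h : ∀ i, Bm fun a => z a i) : Bm fun a => sq2 (z a) :=
  bm_sum _ fun i _ => bm_pow (h i) 2

theorem bm_dt {z z' : α → ι → ℝ} (h : ∀ i, Bm fun a => z a i) (h' : ∀ i, Bm fun a => z' a i) :
    Bm fun a => dt (z a) (z' a) := bm_sum _ fun i _ => bm_mul (h i) (h' i)

theorem bm_inc (H : S.Ok) (j k : ℕ) (i : ι) : Bm fun a => (S.m j a - S.m k a) i :=
  bm_sub (bm_m H j i) (bm_m H k i)

theorem bm_rho (H : S.Ok) (j : ℕ) : Bm (S.rho j) := bm_sq2 (bm_m H j)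

theorem aa_mem (H : S.Ok) (j : ℕ) (a : α) : 0 ≤ S.aa j a ∧ S.aa j a ≤ 1 :=
  ⟨H.psd j a _, (H.bdB j a _).trans (H.bd j a)⟩

theorem bm_aa (H : S.Ok) (j : ℕ) : Bm (S.aa j) := by
  refine ⟨?_, 1, fun a => abs_le.2 ⟨by linarith [(aa_mem H j a).1], (aa_mem H j a).2⟩⟩
  exact Finset.measurable_sum _ fun i _ => Finset.measurable_sum _ fun k _ =>
    ((H.mm j i).mul (H.mm j k)).mul (H.mA j i k)

theorem bm_av (j N : ℕ) {f : ℕ → α → ℝ} (h : ∀ y, Bm (f y)) : Bm fun a => av j N fun y => f y a :=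
  bm_div (bm_sum _ fun y _ => h y) _

theorem int_av (μ : Measure α) [IsFiniteMeasure μ] (j N : ℕ) {f : ℕ → α → ℝ} (h : ∀ y, Bm (f y)) :
    ∫ a, av j N (fun y => f y a) ∂μ = av j N fun y => ∫ a, f y a ∂μ := by
  simp only [av]
  rw [integral_div, integral_finset_sum _ fun y _ => bm_int μ (h y)]

theorem av_mono {j N : ℕ} {f g : ℕ → ℝ} (h : ∀ y ∈ Ico j (j + N), f y ≤ g y) :
    av j N f ≤ av j N g :=
  div_le_div_of_nonneg_right (Finset.sum_le_sum h) (Nat.cast_nonneg N)

theorem av_lin {j N : ℕ} (hN : 1 ≤ N) (k c : ℝ) (f : ℕ → ℝ) :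
    av j N (fun y => k * f y + c) = k * av j N f + c := by
  have : (N : ℝ) ≠ 0 := by positivity
  simp only [av, Finset.sum_add_distrib, ← Finset.mul_sum, Finset.sum_const, Nat.card_Ico,
    Nat.add_sub_cancel_left, nsmul_eq_mul]
  field_simp

/-- a weight known at `t` times a vector known at `t` is orthogonal to later increments -/
theorem orth (H : S.Ok) {t j : ℕ} (htj : t ≤ j) {G : (ℕ → ι → ℝ) → ℝ} (hG : Continuous G)
    {u u' : ℕ} (hu : u ≤ t) (hu' : u' ≤ t) (k : ℝ) :
    ∫ a, G (fun k => S.m (min k t) a) * dt (S.m u a - k • S.m u' a) (S.m j a - S.m t a) ∂S.μ = 0 := by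
  have := H.mart t j htj (fun p i => G p * (p u i - k * p u' i)) (by fun_prop)
  rw [← this]
  refine integral_congr_ae (ae_of_all _ fun a => ?_)
  simp only [dt, Finset.mul_sum, min_eq_left hu, min_eq_left hu', Pi.sub_apply, Pi.smul_apply,
    smul_eq_mul]
  exact Finset.sum_congr rfl fun i _ => by ring

theorem int_sq_inc (H : S.Ok) {i j : ℕ} (hij : i ≤ j) :
    ∫ a, sq2 (S.m j a - S.m i a) ∂S.μ = S.r j - S.r i := by
  haveI := H.prob
  have o := orth H hij (G := fun _ => 1) continuous_const le_rfl le_rfl 0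
  simp only [one_mul, zero_smul, sub_zero] at o
  simp only [sq2_sub]
  rw [integral_sub (bm_int _ (bm_sub (bm_sq2 (bm_m H j)) (bm_sq2 (bm_m H i))))
    (bm_int _ (bm_cmul 2 (bm_dt (bm_m H i) (bm_inc H j i)))), integral_const_mul, o,
    integral_sub (bm_int _ (bm_sq2 (bm_m H j))) (bm_int _ (bm_sq2 (bm_m H i)))]
  simp [Sys.r, Sys.rho]

/-- Jensen upwards -/
theorem up (H : S.Ok) {p j N : ℕ} {c X : ℝ} (hp : 2 ≤ p) (hN : 1 ≤ N)
    (h : Nb S.μ p (fun a => max (av j N (fun y => S.rho y a) - c) 0) X) :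
    Nb S.μ p (fun a => max (S.rho j a - c) 0) X := by
  haveI := H.prob
  refine ⟨h.1, le_trans ?_ h.2⟩
  have bs : Bm fun a => max (S.rho j a - c) 0 := bm_max (bm_sub (bm_rho H j) (bm_const c)) (bm_const 0)
  have bu : Bm fun a => max (av j N (fun y => S.rho y a) - c) 0 :=
    bm_max (bm_sub (bm_av j N (bm_rho H)) (bm_const c)) (bm_const 0)
  have bw : Bm fun a => (p : ℝ) * max (S.rho j a - c) 0 ^ (p - 1) := bm_cmul _ (bm_pow bs _)
  have bf : ∀ y, Bm fun a => (p : ℝ) * max (S.rho j a - c) 0 ^ (p - 1) * (S.rho y a - S.rho j a) :=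
    fun y => bm_mul bw (bm_sub (bm_rho H y) (bm_rho H j))
  have pos : ∀ y ∈ Ico j (j + N),
      0 ≤ ∫ a, (p : ℝ) * max (S.rho j a - c) 0 ^ (p - 1) * (S.rho y a - S.rho j a) ∂S.μ := by
    intro y hy
    have o := orth H (mem_Ico.1 hy).1
      (G := fun q => (p : ℝ) * max (sq2 (q j) - c) 0 ^ (p - 1)) (by unfold sq2; fun_prop)
      le_rfl le_rfl 0
    simp only [zero_smul, sub_zero, min_self] at o
    have i1 := bm_int S.μ (bm_cmul 2 (bm_mul bw (bm_dt (bm_m H j) (bm_inc H y j))))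
    have := integral_mono i1 (bm_int S.μ (bf y)) fun a => by
      have e := sq2_sub (S.m y a) (S.m j a)
      have e0 := sq2_nonneg (S.m y a - S.m j a)
      have w0 : 0 ≤ (p : ℝ) * max (S.rho j a - c) 0 ^ (p - 1) := by positivity
      have : 2 * dt (S.m j a) (S.m y a - S.m j a) ≤ S.rho y a - S.rho j a := by
        simp only [Sys.rho]; linarith
      have := mul_le_mul_of_nonneg_left this w0
      show 2 * (_ * _) ≤ _ * _
      linarith
    rw [integral_const_mul] at this
    refine le_trans (le_of_eq ?_) this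
    simp only [Sys.rho]
    rw [o, mul_zero]
  have p2 : 0 ≤ ∫ a, av j N (fun y =>
      (p : ℝ) * max (S.rho j a - c) 0 ^ (p - 1) * (S.rho y a - S.rho j a)) ∂S.μ := by
    rw [int_av _ j N bf]
    exact div_nonneg (Finset.sum_nonneg pos) (Nat.cast_nonneg N)
  have i0 := bm_int S.μ (bm_pow (bm_abs bs) p)
  have i2 := bm_int S.μ (bm_av j N bf)
  have := integral_mono (i0.add i2) (bm_int S.μ (bm_pow (bm_abs bu) p)) fun a => by
    show |max (S.rho j a - c) 0| ^ p + av j N (fun y =>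
      (p : ℝ) * max (S.rho j a - c) 0 ^ (p - 1) * (S.rho y a - S.rho j a)) ≤
      |max (av j N (fun y => S.rho y a) - c) 0| ^ p
    have e : av j N (fun y => (p : ℝ) * max (S.rho j a - c) 0 ^ (p - 1) * (S.rho y a - S.rho j a)) =
        (p : ℝ) * max (S.rho j a - c) 0 ^ (p - 1) * (av j N (fun y => S.rho y a) - S.rho j a) := by
      generalize (p : ℝ) * max (S.rho j a - c) 0 ^ (p - 1) = k
      have l := av_lin (j := j) hN k (-(k * S.rho j a)) fun y => S.rho y a
      have e2 : (fun y => k * (S.rho y a - S.rho j a)) =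
          fun y => k * S.rho y a + -(k * S.rho j a) := by
        funext y
        ring
      rw [e2, l]
      ring
    rw [e, abs_of_nonneg (le_max_right _ _), abs_of_nonneg (le_max_right _ _)]
    generalize av j N (fun y => S.rho y a) = R
    generalize S.rho j a = r
    have u0 : 0 ≤ max (R - c) 0 := le_max_right _ _
    have u1 : R - c ≤ max (R - c) 0 := le_max_left _ _
    rcases le_total (r - c) 0 with h | h
    · rw [max_eq_right h, zero_pow (by omega), zero_pow (by omega)]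
      simpa using pow_nonneg u0 p
    · rw [max_eq_left h]
      have t := pow_add_mul_le_add_pow (a := r - c) (b := max (R - c) 0 - (r - c)) h (by linarith) p
      rw [add_sub_cancel] at t
      have w0 : 0 ≤ (p : ℝ) * (r - c) ^ (p - 1) := by positivity
      have := mul_le_mul_of_nonneg_left (show R - r ≤ max (R - c) 0 - (r - c) by linarith) w0
      linarith
  simp only [Pi.add_apply] at this
  rw [integral_add i0 i2] at this
  linarith

/-- weighted orthogonality along a mesh -/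
theorem qv_w (H : S.Ok) (b h i : ℕ) {G : (ℕ → ι → ℝ) → ℝ} (hG : Continuous G) {g : α → ℝ}
    (hg : Bm g) (hGg : ∀ t, b + i * h ≤ t → ∀ a, G (fun k => S.m (min k t) a) = g a) :
    ∀ n, i ≤ n → ∫ a, g a * ∑ k ∈ Ico i n, sq2 (S.m (b + (k + 1) * h) a - S.m (b + k * h) a) ∂S.μ =
      ∫ a, g a * sq2 (S.m (b + n * h) a - S.m (b + i * h) a) ∂S.μ := by
  haveI := H.prob
  intro n hn
  induction n, hn using Nat.le_induction with
  | base => simp [sq2]
  | succ n hn ih =>
    have l1 : b + i * h ≤ b + n * h := by gcongr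
    have l2 : b + n * h ≤ b + (n + 1) * h := by gcongr; omega
    have o := orth H l2 hG le_rfl l1 1
    simp only [one_smul, hGg _ l1] at o
    have j1 := bm_int S.μ (bm_mul hg (bm_sum (Ico i n) fun k _ =>
      bm_sq2 (bm_inc H (b + (k + 1) * h) (b + k * h))))
    have j2 := bm_int S.μ (bm_mul hg (bm_sq2 (bm_inc H (b + (n + 1) * h) (b + n * h))))
    have j3 := bm_int S.μ (bm_mul hg (bm_sq2 (bm_inc H (b + n * h) (b + i * h))))
    have j4 := bm_int S.μ (bm_cmul 2 (bm_mul hg (bm_dt (bm_inc H (b + n * h) (b + i * h))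
      (bm_inc H (b + (n + 1) * h) (b + n * h)))))
    simp only [Finset.sum_Ico_succ_top hn, mul_add]
    rw [integral_add j1 j2, ih]
    have e : ∀ a, g a * sq2 (S.m (b + (n + 1) * h) a - S.m (b + i * h) a) =
        (g a * sq2 (S.m (b + n * h) a - S.m (b + i * h) a) +
          g a * sq2 (S.m (b + (n + 1) * h) a - S.m (b + n * h) a)) +
        2 * (g a * dt (S.m (b + n * h) a - S.m (b + i * h) a)
          (S.m (b + (n + 1) * h) a - S.m (b + n * h) a)) := fun a => by
      rw [sq2_three _ (S.m (b + n * h) a)]; ring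
    simp only [e]
    have j5 := bm_int S.μ (bm_add (bm_mul hg (bm_sq2 (bm_inc H (b + n * h) (b + i * h))))
      (bm_mul hg (bm_sq2 (bm_inc H (b + (n + 1) * h) (b + n * h)))))
    rw [integral_add j5 j4, integral_add j3 j2, integral_const_mul, o, mul_zero, add_zero]

/-- quadratic variation along a mesh -/
theorem qv (H : S.Ok) {p b h n : ℕ} {X P : ℝ} (hp : 2 ≤ p) (hP : 1 ≤ P) (hn : (n + 1 : ℝ) ≤ P ^ p)
    (hX : ∀ i ≤ n, Nb S.μ p (fun a => sq2 (S.m (b + i * h) a - S.m b a)) X) :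
    Nb S.μ p (fun a => ∑ i ∈ range n, sq2 (S.m (b + (i + 1) * h) a - S.m (b + i * h) a))
      (16 * p * P * X) := by
  haveI := H.prob
  obtain ⟨q, rfl⟩ : ∃ q, p = q + 1 := ⟨p - 1, by omega⟩
  set Z : ℕ → α → ℝ := fun i a => sq2 (S.m (b + i * h) a - S.m b a) with hZ
  have bZ : ∀ i, Bm (Z i) := fun i => bm_sq2 (bm_inc H _ _)
  have ne : (range (n + 1)).Nonempty := ⟨0, by simp⟩
  set Mx : α → ℝ := fun a => (range (n + 1)).sup' ne fun i => Z i a with hMx
  have leM : ∀ i ≤ n, ∀ a, Z i a ≤ Mx a := fun i hi a =>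
    Finset.le_sup' (fun i => Z i a) (mem_range.2 (by omega))
  have exM : ∀ a, ∃ k ∈ range (n + 1), |Mx a| ≤ |Z k a| := fun a => by
    obtain ⟨k, hk, e⟩ := Finset.exists_mem_eq_sup' ne fun i => Z i a
    exact ⟨k, hk, by rw [show Mx a = Z k a from e]⟩
  have bM : Bm Mx := by
    refine ⟨?_, 4, fun a => ?_⟩
    · have := Finset.measurable_sup' ne fun i _ => (bZ i).1
      convert this using 1
      funext a
      simp only [hMx, Finset.sup'_apply]
    · obtain ⟨k, _, e⟩ := exM a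
      refine e.trans ?_
      rw [abs_of_nonneg (sq2_nonneg _)]
      have t := sq2_tri (S.m (b + k * h) a) (S.m b a) 0
      have t1 := H.bd (b + k * h) a
      have t2 := H.bd b a
      simp only [sub_zero, Sys.rho] at t t1 t2
      linarith
  have X0 : 0 ≤ X := (hX 0 (Nat.zero_le n)).1
  have nM : Nb S.μ (q + 1) Mx (P * X) :=
    nb_dom (range (n + 1)) bM (fun k _ => bZ k) (by linarith) X0 (by simpa using hn) exM
      fun k hk => hX k (by have := mem_range.1 hk; omega)
  set T : ℕ → α → ℝ := fun i a =>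
    ∑ k ∈ range i, sq2 (S.m (b + (k + 1) * h) a - S.m (b + k * h) a) with hT
  have bT : ∀ i, Bm (T i) := fun i => bm_sum _ fun k _ => bm_sq2 (bm_inc H _ _)
  have mT : ∀ i a, T i a ≤ T (i + 1) a := fun i a => by
    simp only [hT, Finset.sum_range_succ]
    linarith [sq2_nonneg (S.m (b + (i + 1) * h) a - S.m (b + i * h) a)]
  have T0 : ∀ i a, 0 ≤ T i a := fun i a => Finset.sum_nonneg fun _ _ => sq2_nonneg _
  have g := garS α S.μ q n T (fun a => 8 * Mx a) (|8| * (P * X)) bT (bm_cmul 8 bM)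
    (fun a => by simp [hT]) mT (fun i hi => ?_) (by omega) (nb_cmul 8 nM)
  · refine nb_le g (le_of_eq ?_)
    rw [abs_of_pos (by norm_num : (0 : ℝ) < 8)]
    push_cast
    ring
  have bg : Bm fun a => T (i + 1) a ^ q - T i a ^ q := bm_sub (bm_pow (bT _) q) (bm_pow (bT _) q)
  have g0 : ∀ a, 0 ≤ T (i + 1) a ^ q - T i a ^ q := fun a =>
    sub_nonneg.2 (pow_le_pow_left₀ (T0 i a) (mT i a) q)
  have w := qv_w H b h (i + 1) (G := fun u =>
    (∑ k ∈ range (i + 1), sq2 (u (b + (k + 1) * h) - u (b + k * h))) ^ q -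
      (∑ k ∈ range i, sq2 (u (b + (k + 1) * h) - u (b + k * h))) ^ q)
    (by unfold sq2; fun_prop) bg (fun t ht a => ?_) n hi
  · have j1 := bm_int S.μ (bm_mul bg (bm_sq2 (bm_inc H (b + (i + 1) * h) (b + i * h))))
    have j2 := bm_int S.μ (bm_mul bg (bm_sum (Ico (i + 1) n) fun k _ =>
      bm_sq2 (bm_inc H (b + (k + 1) * h) (b + k * h))))
    have j3 := bm_int S.μ (bm_mul bg (bm_sq2 (bm_inc H (b + n * h) (b + (i + 1) * h))))
    have e : ∀ a, (T (i + 1) a ^ q - T i a ^ q) * (T n a - T i a) =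
        (T (i + 1) a ^ q - T i a ^ q) * sq2 (S.m (b + (i + 1) * h) a - S.m (b + i * h) a) +
        (T (i + 1) a ^ q - T i a ^ q) *
          ∑ k ∈ Ico (i + 1) n, sq2 (S.m (b + (k + 1) * h) a - S.m (b + k * h) a) := fun a => by
      have e1 := Finset.sum_Ico_eq_sub
        (fun k => sq2 (S.m (b + (k + 1) * h) a - S.m (b + k * h) a)) hi.le
      rw [Finset.sum_eq_sum_Ico_succ_bot hi] at e1
      rw [← mul_add, e1]
    simp only [e]
    rw [integral_add j1 j2, w, ← integral_add j1 j3]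
    refine integral_mono (j1.add j3) (bm_int _ (bm_mul bg (bm_cmul 8 bM))) fun a => ?_
    show _ * _ + _ * _ ≤ _ * _
    rw [← mul_add]
    refine mul_le_mul_of_nonneg_left ?_ (g0 a)
    have t1 := sq2_tri (S.m (b + (i + 1) * h) a) (S.m (b + i * h) a) (S.m b a)
    have t2 := sq2_tri (S.m (b + n * h) a) (S.m (b + (i + 1) * h) a) (S.m b a)
    have u1 := leM i hi.le a
    have u2 := leM (i + 1) hi a
    have u3 := leM n le_rfl a
    simp only [hZ] at u1 u2 u3
    linarith
  · have e : ∀ j ≤ i + 1, ∑ k ∈ range j,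
        sq2 (S.m (min (b + (k + 1) * h) t) a - S.m (min (b + k * h) t) a) = T j a := fun j hj =>
      Finset.sum_congr rfl fun k hk => by
        have hk' := mem_range.1 hk
        have l1 : (k + 1) * h ≤ (i + 1) * h := by gcongr; omega
        have l2 : k * h ≤ (i + 1) * h := by gcongr; omega
        rw [min_eq_left (by omega), min_eq_left (by omega)]
    show (∑ k ∈ range (i + 1), _) ^ q - (∑ k ∈ range i, _) ^ q = _
    rw [e (i + 1) le_rfl, e i (by omega)]

end sys

theorem qvS : QvS := fun _ _ _ _ _ H =>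
  ⟨fun _ _ _ _ _ _ hp hP hn hX => qv H hp hP hn hX, fun _ _ _ _ _ hp hN h => up H hp hN h,
    fun _ _ hij => int_sq_inc H hij⟩

theorem jointS : JointS := by
  intro α ι _ _ S H p q j N c M G lam hN hq hp hG hl hGl hM hA
  haveI := H.prob
  have M0 : 0 ≤ M := (hM j (mem_Ico.2 ⟨le_rfl, by omega⟩)).1
  have be : ∀ y, Bm fun a => |S.rho y a - c y| := fun y =>
    bm_abs (bm_sub (bm_rho H y) (bm_const _))
  have a1 : av j N (fun y => ∫ a, S.aa y a ∂S.μ) ≤ G := by
    rw [← int_av _ j N (bm_aa H)]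
    refine le_trans (integral_mono (bm_int _ (bm_av j N (bm_aa H)))
      (bm_int _ (bm_abs (bm_av j N (bm_aa H)))) fun a => le_abs_self _) ?_
    exact nb_l1 hp (bm_av j N (bm_aa H)) hA
  have key : ∀ M', M < M' → av j N (fun y => ∫ a, |S.rho y a - c y| ^ q * S.aa y a ∂S.μ) ≤
      2 * (lam * M') ^ q * G := by
    intro M' hM'
    have M1 : 0 < M' := M0.trans_lt hM'
    have T0 : 0 < lam * M' := by positivity
    have st : ∀ y ∈ Ico j (j + N), ∫ a, |S.rho y a - c y| ^ q * S.aa y a ∂S.μ ≤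
        (lam * M') ^ q * ∫ a, S.aa y a ∂S.μ + (lam * M') ^ q * G := by
      intro y hy
      have i1 := (bm_int S.μ (bm_aa H y)).const_mul ((lam * M') ^ q)
      have i2 := (bm_int S.μ (bm_pow (be y) p)).const_mul ((lam * M') ^ q / (lam * M') ^ p)
      have := integral_mono (bm_int S.μ (bm_mul (bm_pow (be y) q) (bm_aa H y))) (i1.add i2)
        fun a => by
          show |S.rho y a - c y| ^ q * S.aa y a ≤ (lam * M') ^ q * S.aa y a +
            (lam * M') ^ q / (lam * M') ^ p * |S.rho y a - c y| ^ p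
          obtain ⟨a0, a1⟩ := aa_mem H y a
          have e0 := abs_nonneg (S.rho y a - c y)
          generalize |S.rho y a - c y| = e at e0 ⊢
          generalize lam * M' = T at T0 ⊢
          rcases le_total e T with h | h
          · have h1 := mul_le_mul_of_nonneg_right (pow_le_pow_left₀ e0 h q) a0
            have : 0 ≤ T ^ q / T ^ p * e ^ p := by positivity
            linarith
          · have h1 : e ^ q * S.aa y a ≤ e ^ q := mul_le_of_le_one_right (by positivity) a1
            have h2 : (e / T) ^ q ≤ (e / T) ^ p :=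
              pow_le_pow_right₀ ((one_le_div T0).2 h) hq
            rw [div_pow, div_pow, div_le_iff₀ (by positivity)] at h2
            have h3 : e ^ p / T ^ p * T ^ q = T ^ q / T ^ p * e ^ p := by ring
            have : 0 ≤ T ^ q * S.aa y a := by positivity
            linarith
      simp only [Pi.add_apply] at this
      rw [integral_add i1 i2, integral_const_mul, integral_const_mul] at this
      refine this.trans (add_le_add le_rfl ?_)
      have n1 := (nb_le (hM y hy) hM'.le).2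
      refine (mul_le_mul_of_nonneg_left n1 (by positivity)).trans ?_
      have l0 : 0 < lam := by linarith
      have e : (lam * M') ^ q / (lam * M') ^ p * M' ^ p = (lam * M') ^ q * (1 / lam ^ p) := by
        rw [mul_pow lam M' p]
        field_simp
      rw [e]
      refine mul_le_mul_of_nonneg_left ?_ (by positivity)
      rw [div_le_iff₀ (by positivity)]
      exact hGl
    refine (av_mono st).trans ?_
    rw [av_lin hN]
    have := mul_le_mul_of_nonneg_left a1 (show 0 ≤ (lam * M') ^ q by positivity)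
    linarith
  have t : Tendsto (fun M' : ℝ => 2 * (lam * M') ^ q * G) (𝓝[>] M) (𝓝 (2 * (lam * M) ^ q * G)) := by
    have : Continuous fun M' : ℝ => 2 * (lam * M') ^ q * G := by fun_prop
    exact (this.tendsto M).mono_left nhdsWithin_le_nhds
  exact ge_of_tendsto t (eventually_nhdsWithin_of_forall fun e he => key e he)

end Crest.Agent.T156.Q57.N89

end
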