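import Crest.Agent.T156.QTwo_21
import Crest.Agent.T156.QNb_89
import Crest.Agent.T156.QBlp_56

/-!
# Row 156, block Q (helper21): `SyncS` closed, and the increment output (c)
-/

set_option autoImplicit false

noncomputable section

namespace Crest.Agent.T156.Q57

open MeasureTheory Finset Real Crest.Agent.T156.Q21

/-- **(Q2)**, unconditional -/
theorem syncS : SyncS := syncS_of N89.nbS N89.qvS blpS

/-- output (c): increments of the martingale, same prefix as `SyncS` -/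
def SyncC21 : Prop := ∀ (i : ℕ) (K : ℝ), 1 ≤ i → ∃ C : ℝ, 1 ≤ C ∧
  ∀ (α ι : Type) [MeasurableSpace α] [Fintype ι] (S : Sys α ι) (L J j0 j1 : ℕ) (v l2 l3 e P Z : ℝ)
    (N : ℕ → ℕ) (τ c g : ℕ → ℝ), S.Ok → S.Good L v l2 l3 (e ^ 2 ^ i) j0 j1 →
    S.Win L v l2 l3 K j0 j1 N τ c g → 0 ≤ e → e ≤ v → e ≤ l3 → 1 ≤ P → (2 : ℝ) ^ (L + 3) ≤ P ^ 2 ^ i →
    1 ≤ Z → 4 / v ≤ Z ^ 2 ^ J → ∀ j, j0 + (J + 1) * (8 * 2 ^ L) ≤ j → j + (J + 1) * (8 * 2 ^ L) ≤ j1 →
      ∀ j', j ≤ j' → j' ≤ j + 2 * N j →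
        Nb S.μ (2 ^ i) (fun a => sq2 (S.m j' a - S.m j a)) (C * P * Z * τ j)

theorem syncC21 : SyncC21 := by
  have hN := N89.nbS
  have hQ := N89.qvS
  intro i K hi
  obtain ⟨CB, CB1, hB⟩ := blpS i
  set B0 : ℝ := 16 * (2 ^ i : ℕ) * (16 * K * (2 * CB + K + 7) + K + 9) with hB0
  refine ⟨|(2 * CB + K + 7) * B0 * (6 + 2 * K)| + 4, by linarith [abs_nonneg ((2 * CB + K + 7) * B0 *
    (6 + 2 * K))], fun α ι _ _ S L J j0 j1 v l2 l3 e P Z N τ c g H hG W e0 ev e3 P1 hP Z1 hZ j h0 h1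
    j' h2 h3 => ?_⟩
  have := H.prob
  obtain ⟨Bad, mB, μB, hG⟩ := hG.ex
  have hp : 1 ≤ 2 ^ i := Nat.one_le_two_pow
  have hp2 : 2 ≤ 2 ^ i := by
    calc 2 = 2 ^ 1 := rfl
      _ ≤ 2 ^ i := Nat.pow_le_pow_right two_pos hi
  have pr : (1 : ℝ) ≤ (2 ^ i : ℕ) := by exact_mod_cast hp
  have dok := dat_ok (Bad := Bad) (L := L) (j1 := j1) (l2 := l2) (N := N) (c := c) hN H hp mB μB e0
    W.v0 W.l30.le
  have X : Ctx S (ns hN S.μ hp) Bad L j0 j1 v l2 l3 e K CB (16 * (2 ^ i : ℕ) * P) N τ c g := by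
    refine ⟨H, W, dok, fun t a b => dat_gd H W.v0 W.l20.le W.l30.le hG (W.N1 _) a b, ev, e3, CB1,
      by nlinarith, fun j => ?_, fun J φ γ h => ?_, fun b h n X hn hX => ?_⟩
    · refine nr_le hp ((hQ α ι S H).2.1 _ j (N j) (c j) _ hp2 (W.N1 j) ?_)
      have : (fun a => max ((dat S Bad L j1 v l2 l3 e N c).rb (j, true) a -
          (dat S Bad L j1 v l2 l3 e N c).γ (j, true)) 0) =
          fun a => max (av j (N j) (fun y => S.rho y a) - c j) 0 := funext fun a => by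
        rw [dat_rb]; rfl
      show Nb _ _ _ (nr S.μ _ _)
      rw [this]; exact nb_nr hp _
    · refine nr_le hp ((hN α S.μ _ hp).2.2.1 _ _ ?_ (hB α ι S H J φ γ (nb_of_le hp h)))
      exact (ns hN S.μ hp).c_sum _ fun y _ => (ns hN S.μ hp).c_cmul _ ((ns hN S.μ hp).c_cmul _
        ((ns hN S.μ hp).c_sub (dok.cρ y) (bm_const _)))
    · refine nr_le hp ((hQ α ι S H).1 _ b h n X P hp2 P1 (le_trans ?_ hP)
        fun i hi => nb_of_le hp (hX i hi))
      exact_mod_cast hn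
  have K1 := W.K1
  have t0 := X.τ0 j
  have a0 := abs_nonneg ((2 * CB + K + 7) * B0 * (6 + 2 * K))
  have PZ : 1 ≤ P * Z := by nlinarith
  refine nb_of_le hp ?_
  cases J with
  | zero =>
    have c4 := (ns hN S.μ hp).mono' (dok.cinc j j') (bm_const 4) fun a => by
      rw [abs_of_nonneg (Dat.inc0 _ _ _)]
      have : (dat S Bad L j1 v l2 l3 e N c).inc j j' a ≤ 2 * (S.rho j' a + S.rho j a) := by
        simp only [Dat.inc, Sys.rho, sq2, mul_sum, ← sum_add_distrib]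
        exact sum_le_sum fun k _ => by
          show (S.m j' a k - S.m j a k) ^ 2 ≤ _
          nlinarith [sq_nonneg (S.m j' a k + S.m j a k)]
      linarith [H.bd j a, H.bd j' a]
    refine (c4.trans ((ns hN S.μ hp).const 4 (by norm_num))).trans ?_
    rw [pow_zero, pow_one, div_le_iff₀ W.v0] at hZ
    have b1 := mul_le_mul_of_nonneg_left (X.v_le j) (zero_le_one.trans Z1)
    have b2 : 0 ≤ Z * τ j := by positivity
    have b3 : 1 ≤ (|(2 * CB + K + 7) * B0 * (6 + 2 * K)| + 4) * P := by nlinarith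
    nlinarith [mul_le_mul_of_nonneg_right b3 b2]
  | succ J =>
    have I := X.iter (B := B0 * P) (by rw [hB0]; ring) Z1 hZ J (Nat.le_succ J)
    rw [show J + 1 - J = 1 by omega, pow_one, ← mul_pow] at I
    have B1 : 1 ≤ B0 := by
      have a : 0 ≤ 16 * K * (2 * CB + K + 7) := by positivity
      nlinarith
    have BP : 1 ≤ B0 * P * Z := by nlinarith
    have hj : Rg L j0 j1 (J + 1) j := ⟨h0, h1⟩
    have NU := W.NU j
    have k := X.inc_le (one_le_pow₀ BP) I (i := j) (j := j') (hj.near (by omega) (by omega))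
      (hj.near (by omega) (by omega)) (d := 2 * N j) h2 h3
    rw [sqrt_sq (by positivity)] at k
    have t1 := X.τ_near hj (i := j') (by omega) (by omega)
    refine le_trans k ?_
    have b1 := mul_le_mul_of_nonneg_left (show 6 * τ j + 2 * τ j' ≤ (6 + 2 * K) * τ j by linarith)
      (show 0 ≤ (2 * CB + K + 7) * (B0 * P * Z) by positivity)
    have b2 := W.Nv j
    have b3 : 0 ≤ P * Z * τ j := by positivity
    have b4 := mul_le_mul_of_nonneg_right (le_abs_self ((2 * CB + K + 7) * B0 * (6 + 2 * K))) b3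
    have b5 := mul_le_mul_of_nonneg_right PZ t0.le
    push_cast
    nlinarith

end Crest.Agent.T156.Q57

end
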