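import Crest.Agent.T156.QInst_98
import Crest.Agent.T156.QGoodC_74
import Crest.Agent.T156.QSyn_21
import Crest.Agent.T156.QBlk_24
import Crest.Agent.T156.LpP_43

/-!
# Row 156, block Q on a cascade (helper98)

All auxiliary parameters of `SyncS` / `GoodS` are eliminated: one loss factor `lam` with
`1 / v, 2 ^ (LL + 3), j1 + 1 ≤ lam ^ r`.
-/

set_option autoImplicit false
set_option maxHeartbeats 400000

noncomputable section

namespace Crest.Agent.T156.Cas.QCas98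

open MeasureTheory Real Finset
open Crest.Agent.T157.E Crest.Agent.T157.Casc Crest.Agent.T157.SL
open Crest.Agent.T156.Cas.Sy41 Crest.Agent.T156.Q57 Crest.Agent.T156.Cas.Lp12

variable {Ω : Type}

/-- Riccati data of a block of levels `[j0, j1)` (the hypotheses of `GoodS`) -/
structure Ric (L : List (Lv Ω)) (τ : ℕ → ℝ) (t' : ℕ → ℕ) (LL j0 j1 j2 : ℕ) (x v w3 K : ℝ) :
    Prop where
  x0 : 0 < x
  v0 : 0 < v
  vw : 4 * v ≤ w3
  K1 : 1 ≤ K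
  j12 : j1 ≤ j2
  j2L : j2 ≤ L.length
  blk : ∀ k, j0 ≤ k → k < j1 → x ≤ ex L k ∧ v ≤ w3 * (ex L k * τ k)
  top : ex L j2 ≤ K * x
  up : ∀ j, j2 < j → j ≤ L.length → j1 ≤ t' j ∧ t' j < j ∧ (0 < dm L 0 j → 0 < SW L τ (t' j) j)
  sum : ∑ j ∈ Ioc j2 L.length, dm L 0 j / (ex L (t' j) * SW L τ (t' j) j) ≤ K * w3 / (2 ^ LL * v)

theorem Ric.sub {L : List (Lv Ω)} {τ : ℕ → ℝ} {t' : ℕ → ℕ} {LL j0 j1 j2 a0 a1 : ℕ} {x v w3 K : ℝ}
    (H : Ric L τ t' LL j0 j1 j2 x v w3 K) (h0 : j0 ≤ a0) (h1 : a1 ≤ j1) :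
    Ric L τ t' LL a0 a1 j2 x v w3 K :=
  ⟨H.x0, H.v0, H.vw, H.K1, h1.trans H.j12, H.j2L, fun k a b => H.blk k (h0.trans a) (b.trans_le h1),
    H.top, fun j a b => ⟨h1.trans (H.up j a b).1, (H.up j a b).2⟩, H.sum⟩

/-- a window inside the block -/
theorem Ric.win {L : List (Lv Ω)} {τ : ℕ → ℝ} {t' : ℕ → ℕ} {LL j0 j1 j2 : ℕ} {x v w3 K : ℝ}
    (H : Ric L τ t' LL j0 j1 j2 x v w3 K) {a b N : ℕ} (h0 : j0 ≤ a) (hN : 1 ≤ N) (h1 : a + N ≤ b)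
    (h2 : b ≤ j1) : LpR43.Win L τ a b (w3 / (x * (N * v))) := by
  refine ⟨h2.trans (H.j12.trans H.j2L), a, le_rfl, by omega, ?_⟩
  have v0 := H.v0
  have x0 := H.x0
  have w0 : 0 < w3 := by linarith [H.vw]
  have N0 : (0 : ℝ) < N := by exact_mod_cast hN
  have e1 : (N : ℝ) * v ≤ w3 * LpR43.Sw L τ a b := by
    have : ∑ _k ∈ Ico a b, v ≤ ∑ k ∈ Ico a b, w3 * (ex L k * τ k) :=
      sum_le_sum fun k hk => (H.blk k (h0.trans (mem_Ico.1 hk).1) ((mem_Ico.1 hk).2.trans_le h2)).2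
    rw [sum_const, Nat.card_Ico, nsmul_eq_mul, ← mul_sum] at this
    refine le_trans (mul_le_mul_of_nonneg_right ?_ v0.le) this
    exact_mod_cast (by omega : N ≤ b - a)
  have e2 := (H.blk a h0 (by omega)).1
  rw [div_mul_eq_mul_div, le_div_iff₀ (by positivity)]
  nlinarith [mul_le_mul e2 e1 (by positivity) (x0.le.trans e2)]

variable [Fintype Ω]

/-- a symmetric cascade whose levels see the features of `l₀` -/
structure Dat (w : Ω → ℝ) (L : List (Lv Ω)) (h : Ω → ℝ) (l₀ : Lv Ω) (τ : ℕ → ℝ) : Prop where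
  hw : Wt w
  mono : Mono 0 L
  sym : ∃ T : Set (Equiv.Perm Ω), (∀ σ ∈ T, Sym w L h σ) ∧
    (∀ x y, w x ≠ 0 → w y ≠ 0 → ∃ σ ∈ T, σ x = y) ∧ ∀ σ ∈ T, ∀ x y, l₀.cov (σ x) (σ y) = l₀.cov x y
  one : ∀ x, l₀.cov x x ≤ 1
  dom : ∀ k (hk : k < L.length), Dom L[k] l₀ (τ k)

variable {w : Ω → ℝ} {L : List (Lv Ω)} {h : Ω → ℝ} {l₀ : Lv Ω} {τ : ℕ → ℝ}

theorem Dat.ok (H : Dat w L h l₀ τ) : (sysC w L h l₀).Ok := by
  obtain ⟨T, a, b, c⟩ := H.sym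
  exact (instS Ω w H.hw L h l₀ T H.mono a b c H.one).1

section dict
variable (w L h l₀)

theorem sysC_mu : (sysC w L h l₀).μ = QSys98.mu w L h := rfl

theorem sysC_rho (j : ℕ) (g : NI L → ℝ) :
    (sysC w L h l₀).rho j g = rr w (L.drop j) l₀ (st L j h g) := rfl

theorem sysC_aa (j : ℕ) (g : NI L → ℝ) :
    (sysC w L h l₀).aa j g = mAm w (L.drop j) l₀ (st L j h g) := (Hb_fld _ l₀ _ _ _).symm

theorem sysC_dm {j : ℕ} (h1 : 1 ≤ j) (h2 : j ≤ L.length) : (sysC w L h l₀).dm j = dm L 0 j :=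
  if_pos ⟨h1, h2⟩

variable {w}

theorem sysC_r (hw : Wt w) (j : ℕ) : (sysC w L h l₀).r j = rho w L l₀ h j :=
  QSys98.int_node hw L h j (eg_rr hw _ l₀)

variable {L h l₀}

theorem mo_of_nb (hw : Wt w) {F : Pth Ω → ℝ} (hF : EP F) {k : ℕ} {B : ℝ}
    (H : Nb (QSys98.mu w L h) k (fun g => F fun j => st L j h g) B) : Mo w L h k F B :=
  ⟨hF, H.1, by rw [← QSys98.int_EE hw L h (hF.abs.pow k)]; exact H.2⟩

theorem nb_of_mo (hw : Wt w) {F : Pth Ω → ℝ} {k : ℕ} {B : ℝ} (H : Mo w L h k F B) :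
    Nb (QSys98.mu w L h) k (fun g => F fun j => st L j h g) B :=
  ⟨H.nn, (QSys98.int_EE hw L h (H.ep.abs.pow k)).trans_le H.le⟩

end dict

/-- overlap at the node `j` as a function of the path -/
def rP (w : Ω → ℝ) (L : List (Lv Ω)) (l₀ : Lv Ω) (j : ℕ) (p : Pth Ω) : ℝ := rr w (L.drop j) l₀ (p j)

/-- `mᵀ A m` at the node `j` -/
def aP (w : Ω → ℝ) (L : List (Lv Ω)) (l₀ : Lv Ω) (j : ℕ) (p : Pth Ω) : ℝ := mAm w (L.drop j) l₀ (p j)

/-- `|m_{j'} - m_j|²` -/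
def iP (w : Ω → ℝ) (L : List (Lv Ω)) (l₀ : Lv Ω) (j j' : ℕ) (p : Pth Ω) : ℝ :=
  ∑ i, (mv w (L.drop j') l₀ (p j') i - mv w (L.drop j) l₀ (p j) i) ^ 2

theorem ep_rP (hw : Wt w) (j : ℕ) : EP (rP w L l₀ j) := EP.state (eg_rr hw _ l₀) j

theorem ep_aP (hw : Wt w) (j : ℕ) : EP (aP w L l₀ j) := EP.state (eg_mAm hw _ l₀) j

theorem ep_iP (hw : Wt w) (j j' : ℕ) : EP (iP w L l₀ j j') :=
  LpR43.ep_sq fun i => (LpR43.ep_mv hw _ l₀ j' i).sub (LpR43.ep_mv hw _ l₀ j i)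

theorem ep_av {F : ℕ → Pth Ω → ℝ} (hF : ∀ y, EP (F y)) (b N : ℕ) :
    EP fun p => av b N fun y => F y p := by
  simp only [av, div_eq_inv_mul]
  exact (EP.sum _ fun y _ => hF y).const_mul _

/-- polynomial sizes -/
structure Pol (r LL j1 : ℕ) (v lam : ℝ) : Prop where
  v1 : 1 ≤ v * lam ^ r
  L1 : (2 : ℝ) ^ (LL + 3) ≤ lam ^ r
  j1 : (j1 : ℝ) + 1 ≤ lam ^ r

/-- **(Q2) on a cascade, any window system**, in the frame of `Q57` -/
theorem sync_sys (r i : ℕ) (K : ℝ) (hi : 1 ≤ i) (hr : r ≤ i) : ∃ C : ℝ, 1 ≤ C ∧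
    ∀ (Ω : Type) [Fintype Ω] (w : Ω → ℝ) (L : List (Lv Ω)) (h : Ω → ℝ) (l₀ : Lv Ω) (τ : ℕ → ℝ)
      (t' : ℕ → ℕ) (LL j0 j1 j2 : ℕ) (x v w3 lam : ℝ) (N : ℕ → ℕ) (tol c g : ℕ → ℝ),
      Dat w L h l₀ τ → Ric L τ t' LL j0 j1 j2 x v w3 K → C ≤ lam → Pol r LL j1 v lam →
      (sysC w L h l₀).Win LL v (lam * w3 / x) (lam * K * w3) K j0 j1 N tol c g →
      ∀ j, j0 + (r + 2) * (8 * 2 ^ LL) ≤ j → j + (r + 2) * (8 * 2 ^ LL) ≤ j1 →
        Nb (sysC w L h l₀).μ (2 ^ i) (fun a => (sysC w L h l₀).rho j a - c j) (lam ^ 3 * tol j) ∧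
        Nb (sysC w L h l₀).μ (2 ^ i) (fun a => av j (N j) fun y => (sysC w L h l₀).aa y a)
          (lam ^ 4 * (((LL : ℝ) + 2) ^ 2 * (lam * K * w3) * (tol j / (N j * v)))) ∧
        ∀ j', j ≤ j' → j' ≤ j + 2 * N j →
          Nb (sysC w L h l₀).μ (2 ^ i)
            (fun a => sq2 ((sysC w L h l₀).m j' a - (sysC w L h l₀).m j a)) (lam ^ 3 * tol j) := by
  obtain ⟨C1, C11, h1⟩ := syncS i K hi
  obtain ⟨C3, C31, h3⟩ := syncC21 i K hi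
  obtain ⟨C2, C21, h2⟩ := goodS (1 + r * 3 + r * 2 ^ i)
  refine ⟨max C1 (max C2 C3), le_max_of_le_left C11, ?_⟩
  intro Ω _ w L h l₀ τ t' LL j0 j1 j2 x v w3 lam N tol c g D R hC P W j hj hj'
  have := D.ok.prob
  have c1 : C1 ≤ lam := (le_max_left _ _).trans hC
  have c2 : C2 ≤ lam := ((le_max_left _ _).trans (le_max_right _ _)).trans hC
  have c3 : C3 ≤ lam := ((le_max_right _ _).trans (le_max_right _ _)).trans hC
  have l1 : 1 ≤ lam := C11.trans c1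
  have v0 := R.v0
  have K1 := R.K1
  have w0 : 0 < w3 := by linarith [R.vw]
  have G := h2 Ω w D.hw L h l₀ τ t' LL j0 j1 j2 x v w3 K lam D.mono D.one D.dom R.x0 R.v0 R.vw R.K1
    l1 R.j12 R.j2L R.blk R.top R.up R.sum
  set M := lam ^ r with hM
  have M8 : 8 ≤ M := by
    refine le_trans ?_ P.L1
    rw [pow_add]
    have : (1 : ℝ) ≤ 2 ^ LL := one_le_pow₀ one_le_two
    linarith
  have LM : (LL : ℝ) + 2 ≤ M := by
    refine le_trans ?_ P.L1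
    have : LL + 3 < 2 ^ (LL + 3) := Nat.lt_two_pow_self
    have : ((LL + 3 : ℕ) : ℝ) < ((2 ^ (LL + 3) : ℕ) : ℝ) := by exact_mod_cast this
    push_cast at this
    linarith
  have hη : C2 * ((LL + 2) * (j1 + 1) ^ 2) / lam ^ (1 + r * 3 + r * 2 ^ i) ≤ v ^ 2 ^ i := by
    rw [div_le_iff₀ (by positivity), pow_add, pow_add, pow_one, pow_mul, pow_mul, ← hM]
    have a1 : C2 * ((LL + 2) * (j1 + 1) ^ 2) ≤ lam * M ^ 3 := by
      have : ((LL : ℝ) + 2) * (j1 + 1) ^ 2 ≤ M * M ^ 2 :=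
        mul_le_mul LM (pow_le_pow_left₀ (by positivity) P.j1 2) (by positivity) (by positivity)
      calc _ ≤ lam * (M * M ^ 2) := mul_le_mul c2 this (by positivity) (by positivity)
        _ = _ := by ring
    have a2 : 1 ≤ v ^ 2 ^ i * M ^ 2 ^ i := by rw [← mul_pow]; exact one_le_pow₀ P.v1
    calc _ ≤ lam * M ^ 3 * 1 := by rwa [mul_one]
      _ ≤ lam * M ^ 3 * (v ^ 2 ^ i * M ^ 2 ^ i) := mul_le_mul_of_nonneg_left a2 (by positivity)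
      _ = _ := by ring
  have G' := G.mono v0.le le_rfl le_rfl hη
  have q1 : v ≤ lam * K * w3 := by
    have : 1 ≤ lam * K := one_le_mul_of_one_le_of_one_le l1 K1
    nlinarith [R.vw]
  have q2 : (2 : ℝ) ^ (LL + 3) ≤ lam ^ 2 ^ i :=
    P.L1.trans (pow_le_pow_right₀ l1 (hr.trans Nat.lt_two_pow_self.le))
  have q3 : 4 / v ≤ lam ^ 2 ^ (r + 1) := by
    have a1 : 4 / v ≤ M * M := by
      rw [div_le_iff₀ v0]
      nlinarith [P.v1]
    refine a1.trans ?_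
    rw [hM, ← pow_add]
    refine pow_le_pow_right₀ l1 ?_
    have : r < 2 ^ r := Nat.lt_two_pow_self
    rw [pow_succ]; omega
  have key := h1 _ _ (sysC w L h l₀) LL (r + 1) j0 j1 v _ _ v lam lam N tol c g D.ok G' W v0.le
    le_rfl q1 l1 q2 l1 q3 j hj hj'
  have key' := h3 _ _ (sysC w L h l₀) LL (r + 1) j0 j1 v _ _ v lam lam N tol c g D.ok G' W v0.le
    le_rfl q1 l1 q2 l1 q3 j hj hj'
  have t0 : 0 ≤ tol j := le_trans (by positivity) (W.Nv j)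
  have b0 : ∀ C ≤ lam, C * lam * lam ≤ lam ^ 3 := fun C hC => by
    nlinarith [mul_pos (zero_lt_one.trans_le l1) (zero_lt_one.trans_le l1)]
  have b2 : C1 * lam ^ 2 * lam ≤ lam ^ 4 := by
    have := mul_le_mul_of_nonneg_right (b0 C1 c1) (zero_le_one.trans l1)
    nlinarith
  exact ⟨Blk24.nb_le key.1 (mul_le_mul_of_nonneg_right (b0 C1 c1) t0),
    Blk24.nb_le key.2 (mul_le_mul_of_nonneg_right b2 (by positivity)), fun j' a b =>
    Blk24.nb_le (key' j' a b) (mul_le_mul_of_nonneg_right (b0 C3 c3) t0)⟩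

/-- the outputs in the path frame, on the nodes `[a0, a1]` -/
structure Syn (w : Ω → ℝ) (L : List (Lv Ω)) (h : Ω → ℝ) (l₀ : Lv Ω) (p a0 a1 : ℕ) (v A G : ℝ)
    (N : ℕ → ℕ) (tol c : ℕ → ℝ) : Prop where
  loc : ∀ j, a0 ≤ j → j ≤ a1 → Mo w L h p (fun q => rP w L l₀ j q - c j) (A * tol j)
  ric : ∀ j, a0 ≤ j → j ≤ a1 →
    Mo w L h p (fun q => av j (N j) fun y => aP w L l₀ y q) (G * (tol j / (N j * v)))
  inc : ∀ j j', a0 ≤ j → j ≤ a1 → j ≤ j' → j' ≤ j + 2 * N j →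
    Mo w L h p (iP w L l₀ j j') (A * tol j)

/-- **(Q2) on a cascade, any window system**, in the path frame -/
theorem sync_cas (r i : ℕ) (K : ℝ) (hi : 1 ≤ i) (hr : r ≤ i) : ∃ C : ℝ, 1 ≤ C ∧
    ∀ (Ω : Type) [Fintype Ω] (w : Ω → ℝ) (L : List (Lv Ω)) (h : Ω → ℝ) (l₀ : Lv Ω) (τ : ℕ → ℝ)
      (t' : ℕ → ℕ) (LL j0 j1 j2 a0 a1 : ℕ) (x v w3 lam : ℝ) (N : ℕ → ℕ) (tol c g : ℕ → ℝ),
      Dat w L h l₀ τ → Ric L τ t' LL j0 j1 j2 x v w3 K → C ≤ lam → Pol r LL j1 v lam →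
      (sysC w L h l₀).Win LL v (lam * w3 / x) (lam * K * w3) K j0 j1 N tol c g →
      j0 + (r + 2) * (8 * 2 ^ LL) ≤ a0 → a1 + (r + 2) * (8 * 2 ^ LL) ≤ j1 →
      Syn w L h l₀ (2 ^ i) a0 a1 v (lam ^ 3) (lam ^ 4 * (((LL : ℝ) + 2) ^ 2 * (lam * K * w3)))
        N tol c := by
  obtain ⟨C, C1, H⟩ := sync_sys r i K hi hr
  refine ⟨C, C1, ?_⟩
  intro Ω _ w L h l₀ τ t' LL j0 j1 j2 a0 a1 x v w3 lam N tol c g D R hC P W h0 h1
  have key := H Ω w L h l₀ τ t' LL j0 j1 j2 x v w3 lam N tol c g D R hC P W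
  refine ⟨fun j a b => mo_of_nb D.hw ((ep_rP D.hw j).sub (EP.const _))
    (key j (by omega) (by omega)).1, fun j a b => mo_of_nb D.hw (ep_av (ep_aP D.hw) _ _) ?_,
    fun j j' a b e e' => mo_of_nb D.hw (ep_iP D.hw j j') ((key j (by omega) (by omega)).2.2 j' e e')⟩
  have := (key j (by omega) (by omega)).2.1
  simp only [sysC_aa] at this
  rw [mul_assoc]
  exact this

/-! ### pairs -/

/-- data of the levels above the node `b`: nodes `u 0 = b ≤ u 1 ≤ … ≤ u k`, windows, overlaps -/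
structure Up (w : Ω → ℝ) (L : List (Lv Ω)) (h : Ω → ℝ) (l₀ : Lv Ω) (τ : ℕ → ℝ) (n b k : ℕ)
    (u : ℕ → ℕ) (θ ρ : ℕ → ℝ) : Prop where
  u0 : u 0 = b
  mono : Monotone u
  win : ∀ l, 1 ≤ l → l ≤ k → LpR43.Win L τ b (u l) (θ l)
  ov : ∀ l < k, Mo w L h n (rP w L l₀ (u (l + 1))) (ρ l)
  top : 1 ≤ ρ k

theorem mo_rP_mono (hw : Wt w) {n c c' : ℕ} {B : ℝ} (hc : c ≤ c') (H : Mo w L h n (rP w L l₀ c') B) :
    Mo w L h n (rP w L l₀ c) B := by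
  refine ⟨ep_rP hw c, H.nn, le_trans ?_ H.le⟩
  have e : ∀ c, EE w L h (fun p => |rP w L l₀ c p| ^ n) =
      node w L c (fun z => rr w (L.drop c) l₀ z ^ n) h := fun c => by
    rw [← EE_node hw]
    congr 1
    funext p
    rw [rP, abs_of_nonneg (show 0 ≤ rr w (L.drop c) l₀ (p c) from sum_nonneg fun _ _ => sq_nonneg _)]
  rw [e, e]
  exact LpR43.rr_pow_mono hw L l₀ h n hc

/-- **pairs split at `j`**: first window `[j, c₀)`, then the chain above `b ≥ c₀` -/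
theorem pair_up (D : Dat w L h l₀ τ) {n j c₀ b k : ℕ} {u : ℕ → ℕ} {θ ρ : ℕ → ℝ}
    (U : Up w L h l₀ τ n b k u θ ρ) {θ₀ C A A' q : ℝ} (hb : c₀ ≤ b) (W0 : LpR43.Win L τ j c₀ θ₀)
    (W1 : LpR43.Win L τ j b θ₀) (hC : 0 < C) (hC' : LpR43.cK n ≤ C ^ (2 * n))
    (h0 : Mo w L h (2 * n) (fun p => rP w L l₀ c₀ p - q) A)
    (h1 : Mo w L h (2 * n) (iP w L l₀ j c₀) A') :
    pi2 w L j (fun x y => (l₀.cov x y - q) ^ (2 * n)) h ≤
      (A + 2 * A' + 2 * C * (2 * √(θ₀ * ρ 0) + ∑ l ∈ range k, √(θ (l + 1) * ρ (l + 1)))) ^ (2 * n) := by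
  have hjb : j ≤ b := W1.le
  have key := LpR43.pair_Mo D.hw D.mono l₀ D.dom (j := j)
    (c := fun l => Nat.casesOn l c₀ u)
    (monotone_nat_of_le_succ fun l => by
      cases l with
      | zero => exact hb.trans U.u0.ge
      | succ l => exact U.mono (Nat.le_succ l)) (k + 1)
    (θ := fun l => Nat.casesOn l θ₀ fun l => Nat.casesOn l θ₀ fun l => θ (l + 1))
    (ρ := fun l => Nat.casesOn l (ρ 0) ρ) (Λ := 1) D.one
    (fun l hl => by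
      rcases l with _ | _ | l
      · exact W0
      · show LpR43.Win L τ j (u 0) θ₀
        rw [U.u0]; exact W1
      · exact (U.win (l + 1) (by omega) (by omega)).anti hjb) h q n hC hC' h0 h1
    (fun l hl => by
      rcases l with _ | l
      · show Mo w L h n (rP w L l₀ (u 0)) (ρ 0)
        rcases Nat.eq_zero_or_pos k with rfl | hk
        · refine (Mo.bdd D.hw (ep_rP D.hw _) fun p => ?_).mono U.top
          rw [rP, abs_of_nonneg (show 0 ≤ rr w _ l₀ _ from sum_nonneg fun _ _ => sq_nonneg _)]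
          exact Q33.rr_le D.hw _ D.one _
        · exact mo_rP_mono D.hw (U.mono (Nat.zero_le 1)) (U.ov 0 hk)
      · exact U.ov l (by omega)) U.top zero_le_one
  rw [sum_range_succ', sum_range_succ'] at key
  have key' : _ ≤ (A + 2 * A' + 2 * C * (∑ l ∈ range k, √(θ (l + 1) * ρ (l + 1)) + √(θ₀ * ρ 0) +
    √(θ₀ * ρ 0))) ^ (2 * n) := key
  refine key'.trans (le_of_eq ?_)
  congr 1
  ring

section syn
variable {p a0 a1 : ℕ} {v A G : ℝ} {N : ℕ → ℕ} {tol c : ℕ → ℝ}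

theorem Syn.node_pow (S : Syn w L h l₀ p a0 a1 v A G N tol c) (hw : Wt w) {q j : ℕ} (hq : q ≤ p)
    (h0 : a0 ≤ j) (h1 : j ≤ a1) :
    node w L j (fun z => |rr w (L.drop j) l₀ z - c j| ^ q) h ≤ (A * tol j) ^ q := by
  rw [← EE_node hw]
  exact ((S.loc j h0 h1).lyap hw hq).le

theorem Syn.ov (S : Syn w L h l₀ p a0 a1 v A G N tol c) (hw : Wt w) {q j j' : ℕ} (hq : q ≤ p)
    (h0 : a0 ≤ j) (h1 : j ≤ a1) (hj : j' ≤ j) :
    Mo w L h q (rP w L l₀ j') (|c j| + A * tol j) :=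
  mo_rP_mono hw hj (((Mo.const hw (c j)).add hw ((S.loc j h0 h1).lyap hw hq)).congr
    fun _ => by ring)

/-- **pairs split at a synchronised node** -/
theorem Syn.pair (S : Syn w L h l₀ p a0 a1 v A G N tol c) (D : Dat w L h l₀ τ) {t' : ℕ → ℕ}
    {LL j0 j1 j2 : ℕ} {x w3 K : ℝ} (R : Ric L τ t' LL j0 j1 j2 x v w3 K) {n j b k : ℕ} {u : ℕ → ℕ}
    {θ ρ : ℕ → ℝ} (U : Up w L h l₀ τ n b k u θ ρ) (hn : 2 * n ≤ p) (h0 : a0 ≤ j) (h0' : j0 ≤ j)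
    (hN : 1 ≤ N j) (h1 : j + N j ≤ a1) (h2 : j + N j ≤ b) (h3 : b ≤ j1) {C : ℝ} (hC : 0 < C)
    (hC' : LpR43.cK n ≤ C ^ (2 * n)) (q : ℝ) :
    pi2 w L j (fun x y => (l₀.cov x y - q) ^ (2 * n)) h ≤
      (A * tol (j + N j) + |c (j + N j) - q| + 2 * (A * tol j) + 2 * C *
        (2 * √(w3 / (x * (N j * v)) * ρ 0) + ∑ l ∈ range k, √(θ (l + 1) * ρ (l + 1)))) ^ (2 * n) :=
  pair_up D U h2 (R.win h0' hN le_rfl (h2.trans h3)) (R.win h0' hN h2 h3) hC hC'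
    ((((S.loc (j + N j) (by omega) h1).lyap D.hw hn).add D.hw
      (Mo.const D.hw (c (j + N j) - q))).congr fun _ => by ring)
    ((S.inc j (j + N j) h0 (by omega) (by omega) (by omega)).lyap D.hw hn)

end syn

/-! ### a uniform block with sup location -/

/-- nodes `[j0, j1]`: clock `c`, label density `≥ 1 / K`, location `l`, windows of `N` nodes -/
structure UB (w : Ω → ℝ) (L : List (Lv Ω)) (h : Ω → ℝ) (l₀ : Lv Ω) (LL j0 j1 N : ℕ)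
    (x v w3 K lam l : ℝ) (c : ℕ → ℝ) : Prop where
  j01 : 1 ≤ j0
  le : j0 ≤ j1
  N1 : 1 ≤ N
  NU : N ≤ 2 ^ LL
  Nv : N * v ≤ l
  clk : ∀ j, j0 ≤ j → j < j1 → c j ≤ c (j + 1) ∧ c (j + 1) ≤ c j + v
  c0 : 0 ≤ c j0
  c2 : c j1 ≤ 2
  old : c j1 * N ≤ K * l * 2 ^ LL
  loc : ∀ j, j0 ≤ j → j ≤ j1 → |rho w L l₀ h j - c j| ≤ l
  dm : ∀ j, j0 ≤ j → j ≤ j1 → v ≤ K * dm L 0 j
  T4 : ((LL : ℝ) + 2) ^ 2 * (lam * w3 / x) ≤ l * (N * v)
  T3 : 2 ≤ l ∨ ((LL : ℝ) + 2) ^ 2 * (lam * K * w3) * K ≤ l * (N * v) ^ 2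

/-- the clock frozen outside the block -/
def cl (j0 j1 : ℕ) (c : ℕ → ℝ) (j : ℕ) : ℝ := c (max j0 (min j j1))

theorem cl_eq {j0 j1 j : ℕ} (c : ℕ → ℝ) (h0 : j0 ≤ j) (h1 : j ≤ j1) : cl j0 j1 c j = c j := by
  rw [cl, min_eq_left h1, max_eq_right h0]

section ub
variable {LL j0 j1 j2 N : ℕ} {x v w3 K lam l : ℝ} {c : ℕ → ℝ} {t' : ℕ → ℕ}

theorem UB.inc (B : UB w L h l₀ LL j0 j1 N x v w3 K lam l c) {i : ℕ} (hi : j0 ≤ i) :
    ∀ d : ℕ, i + d ≤ j1 → c i ≤ c (i + d) ∧ c (i + d) ≤ c i + d * v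
  | 0, _ => by simp
  | d + 1, hd => by
    obtain ⟨a, b⟩ := B.inc hi d (by omega)
    obtain ⟨a', b'⟩ := B.clk (i + d) (by omega) (by omega)
    rw [← add_assoc]
    push_cast
    exact ⟨a.trans a', by linarith⟩

theorem UB.inc' (B : UB w L h l₀ LL j0 j1 N x v w3 K lam l c) {i j : ℕ} (hi : j0 ≤ i) (hij : i ≤ j)
    (hj : j ≤ j1) : c i ≤ c j ∧ c j ≤ c i + ((j : ℝ) - i) * v := by
  obtain ⟨d, rfl⟩ := Nat.exists_eq_add_of_le hij
  have := B.inc hi d hj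
  push_cast
  exact ⟨this.1, by linarith [this.2]⟩

theorem UB.win (B : UB w L h l₀ LL j0 j1 N x v w3 K lam l c) (hw : Wt w)
    (R : Ric L τ t' LL j0 j1 j2 x v w3 K) (hl : 0 < lam) {a0 a1 : ℕ} (h0 : j0 + 2 ^ LL ≤ a0)
    (h1 : a1 + 2 ^ LL ≤ j1) :
    (sysC w L h l₀).Win LL v (lam * w3 / x) (lam * K * w3) K a0 a1 (fun _ => N) (fun _ => l)
      (cl j0 j1 c) fun _ => v / K := by
  have v0 := R.v0
  have x0 := R.x0
  have K1 := R.K1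
  have w0 : 0 < w3 := by linarith [R.vw]
  have l0 : 0 ≤ l := le_trans (by positivity) B.Nv
  have le := B.le
  have NU := B.NU
  have hP : 0 < 2 ^ LL := Nat.two_pow_pos LL
  have hc : ∀ j, c j0 ≤ cl j0 j1 c j ∧ cl j0 j1 c j ≤ c j1 := fun j =>
    ⟨(B.inc' le_rfl (le_max_left _ _) (by omega)).1,
      (B.inc' (le_max_left _ _) (by omega) le_rfl).1⟩
  refine ⟨v0, K1, by positivity, by positivity, fun _ => B.N1, fun _ => B.NU, fun i j hij => ?_,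
    fun j => ⟨B.c0.trans (hc j).1, (hc j).2.trans B.c2⟩, fun _ => B.Nv, fun j a b => ?_,
    fun i j _ _ _ _ _ _ => ⟨by omega, by omega, by nlinarith⟩, fun i j _ _ a _ => ?_,
    fun j _ _ => ?_, fun _ _ _ => B.T4, fun j a b => ?_⟩
  · obtain ⟨a, b⟩ := B.inc' (i := max j0 (min i j1)) (j := max j0 (min j j1)) (le_max_left _ _)
      (by omega) (by omega)
    refine ⟨sub_nonneg.2 a, ?_⟩
    have : ((max j0 (min j j1) : ℕ) : ℝ) + i ≤ (max j0 (min i j1) : ℕ) + j := by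
      exact_mod_cast (by omega : max j0 (min j j1) + i ≤ max j0 (min i j1) + j)
    have := mul_le_mul_of_nonneg_right
      (show ((max j0 (min j j1) : ℕ) : ℝ) - (max j0 (min i j1) : ℕ) ≤ j - i by linarith) v0.le
    simp only [cl]
    linarith
  · rw [sysC_r L h l₀ hw, cl_eq c (by omega) (by omega)]
    exact B.loc j (by omega) (by omega)
  · have : (N : ℝ) ≤ j - i := by
      have : ((i + N : ℕ) : ℝ) ≤ j := by exact_mod_cast a
      push_cast at this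
      linarith
    have h2 : (0 : ℝ) ≤ N := Nat.cast_nonneg N
    nlinarith [mul_le_mul_of_nonneg_left this l0, mul_nonneg l0 (h2.trans this)]
  · exact (mul_le_mul_of_nonneg_right (hc j).2 (Nat.cast_nonneg N)).trans B.old
  · refine B.T3.imp id fun h3 => ⟨by positivity, fun y a' b' => ?_, ?_⟩
    · have j01 := B.j01
      have := R.j12.trans R.j2L
      rw [sysC_dm w L h l₀ (by omega) (by omega), div_le_iff₀ (by positivity), mul_comm]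
      exact B.dm y (by omega) (by omega)
    · rw [show v / K * N * (l * (N * v)) = l * (N * v) ^ 2 / K by ring, le_div_iff₀ (by positivity)]
      exact h3

end ub

/-- **(Q2) on a uniform block**: the path frame and 24's `Out` -/
theorem ub_out (r i : ℕ) (K : ℝ) (hi : 1 ≤ i) (hr : r ≤ i) : ∃ C : ℝ, 1 ≤ C ∧
    ∀ (Ω : Type) [Fintype Ω] (w : Ω → ℝ) (L : List (Lv Ω)) (h : Ω → ℝ) (l₀ : Lv Ω) (τ : ℕ → ℝ)
      (t' : ℕ → ℕ) (LL j0 j1 j2 N a0 a1 : ℕ) (x v w3 lam l : ℝ) (c : ℕ → ℝ),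
      Dat w L h l₀ τ → Ric L τ t' LL j0 j1 j2 x v w3 K → C ≤ lam → Pol r LL j1 v lam →
      UB w L h l₀ LL j0 j1 N x v w3 K lam l c →
      j0 + (r + 3) * (8 * 2 ^ LL) ≤ a0 → a1 + (r + 3) * (8 * 2 ^ LL) ≤ j1 →
      Syn w L h l₀ (2 ^ i) a0 a1 v (lam ^ 3) (lam ^ 4 * (((LL : ℝ) + 2) ^ 2 * (lam * K * w3)))
        (fun _ => N) (fun _ => l) c ∧
      Blk24.Out (sysC w L h l₀) (2 ^ i) a0 a1 N v (lam ^ 3)
        (lam ^ 4 * (((LL : ℝ) + 2) ^ 2 * (lam * K * w3)) * (l / (N * v)))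
        ((a1 + 1 - a0 : ℕ) * l ^ 2) l l c (fun _ => l) fun _ => N := by
  obtain ⟨C, C1, H⟩ := sync_cas r i K hi hr
  refine ⟨C, C1, ?_⟩
  intro Ω _ w L h l₀ τ t' LL j0 j1 j2 N a0 a1 x v w3 lam l c D R hC P B h0 h1
  have hP : 0 < 2 ^ LL := Nat.two_pow_pos LL
  have l1 : 0 < lam := by linarith
  have e : (r + 3) * (8 * 2 ^ LL) = (r + 2) * (8 * 2 ^ LL) + 8 * 2 ^ LL := by ring
  have S := H Ω w L h l₀ τ t' LL (j0 + 2 ^ LL) (j1 - 2 ^ LL) j2 a0 a1 x v w3 lam _ _ _ _ D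
    (R.sub (by omega) (by omega)) hC ⟨P.v1, P.L1, le_trans (by
      have : ((j1 - 2 ^ LL : ℕ) : ℝ) ≤ j1 := by exact_mod_cast Nat.sub_le _ _
      linarith) P.j1⟩ (B.win D.hw R l1 le_rfl (by omega)) (by omega) (by omega)
  have S' : Syn w L h l₀ (2 ^ i) a0 a1 v (lam ^ 3)
      (lam ^ 4 * (((LL : ℝ) + 2) ^ 2 * (lam * K * w3))) (fun _ => N) (fun _ => l) c :=
    ⟨fun j a b => by
      have := S.loc j a b
      rwa [cl_eq c (by omega) (by omega)] at this, S.ric, S.inc⟩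
  have v0 := R.v0
  have K1 := R.K1
  have w0 : 0 < w3 := by linarith [R.vw]
  have N0 : (0 : ℝ) < N := by exact_mod_cast B.N1
  have l0 : 0 < l := lt_of_lt_of_le (by positivity) B.Nv
  refine ⟨S', v0, by positivity, by positivity, fun _ => ⟨B.N1, le_rfl⟩, fun _ => B.Nv,
    fun _ => le_rfl, fun _ _ _ => ⟨by linarith, by linarith⟩, by simp, fun _ _ _ => le_rfl,
    fun j a b => nb_of_mo D.hw (S'.loc j a b), fun j a b => ?_⟩
  simp only [sysC_aa]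
  exact nb_of_mo D.hw (S'.ric j a b)

end Crest.Agent.T156.Cas.QCas98
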