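import Crest.Agent.T156.Gu_71
import Crest.Agent.T156.Cap_64
import Crest.Agent.T156.QClDef_98

/-!
# Row 156, SR = soft recursion: class, rule and statements (helper19)

Absolute units.  `M ∈ Cl S` is a member with a static plateau, `N = sh M u F` are the auxiliary
models.  Numbers: `θ = E⁻⁴`, `Λc = E⁸`, `K ≈ E²`, `T = E⁹⁹ Y`, `P = E¹⁰⁰ Y`,
`d₁ = E⁸ n^{-1/3}`, `D₁ ≍ E¹⁰ n^{-1/3}`, `m* = E³⁰ n^{-1/3}`.
-/

set_option autoImplicit false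

noncomputable section

namespace Crest.Agent.T156.Alt

open MeasureTheory Real Finset Filter
open Crest.Agent.T156.Alt.Gu71 (sh dep Dp Rem Fl eu co)

namespace Md

variable (M : Md) (S : Sc)

/-- label weight of the node `k ≥ 1` -/
def dx (k : ℕ) : ℝ := M.z k - M.z (k - 1)
/-- bottom of the plateau -/
def xs : ℝ := M.z (S.J - 1)
/-- `∑ dx f²` over the nodes `jl < k ≤ Jp` -/
def sq (f : ℕ → ℝ) : ℝ := ∑ k ∈ Ioc S.jl S.Jp, M.dx k * f k ^ 2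
/-- **the functional** `Φ = ∫ (rb - q)²` -/
def Phi (m : ℕ) (a : ℝ) : ℝ := M.sq S (M.del m a)
/-- the clock of `M` as a deposit, continued by the reference above `Jp` -/
def ct (k : ℕ) : ℝ :=
  if k ≤ S.jl then 0 else M.ck (min k S.Jp) + (M.q (min k M.N) - M.q (min k S.Jp))

end Md

namespace Sr

/-- `n^{-1/3}` -/
def nu (S : Sc) : ℝ := (S.n : ℝ) ^ (-(1 : ℝ) / 3)

/-- **hypotheses of SR** on the member: level `l`, level `Ys` above which the mass is `≥ m*`,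
size `Y` -/
structure SH (E : ℝ) (S : Sc) (M : Md) (l Ys Y : ℝ) : Prop where
  F1 : S.F = 1
  cei : Cei S M
  jj : S.j0 = S.jl
  Hjl : M.H S.jl = 0
  noW : M.d 0 = M.b
  b1 : 1 + 2 / E ≤ M.d 0
  th1 : 2 * S.θ * log S.n ≤ 1
  flat : (M.s S.Jp - M.s S.J) ^ 2 ≤ Y
  slo : ∀ k, S.J ≤ k → k ≤ S.Jp → M.s k - M.s S.J ≤ M.z (k - 1) - M.z (S.J - 1)
  mesh : ∀ k, S.J ≤ k → k ≤ S.Jp → M.dx k ≤ 1 / (S.n : ℝ) ^ 2
  dj : S.den (M.xs S) ≤ S.C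
  u0 : 0 < S.u0 ∧ S.u0 ^ 3 ≤ Y
  ue : S.ue ≤ Y
  ckT : M.ck S.Jp ≤ E
  ck : M.sq S (fun k => M.ck k - M.q k) ≤ Y
  gr : ∀ t, M.s S.jl < t → S.gr t ≤ nu S * t
  G2 : M.sq S (fun k => M.G k / (S.ms (M.s k) + nu S)) ≤ E * Y
  g2 : S.g2 ≤ E * S.θ ^ 2 * Y
  rt : E ^ 10 * (S.n : ℝ) ^ (-(1 : ℝ) / 6) ≤ M.s S.jl
  jl : M.s S.jl ≤ l
  l3 : l ^ 3 ≤ Y
  lY : M.s S.jl ≤ Ys
  star : ∀ t, Ys ≤ t → t ≤ S.C → E ^ 30 * nu S ≤ S.ms t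
  Y0 : (S.n : ℝ) ^ (-(1 : ℝ) / 2) ≤ Y
  Y1 : E ^ 200 * Y ≤ (S.n : ℝ) ^ (-(1 : ℝ) / 10)
  Y2 : min Ys 1 * nu S ≤ Y
  Y3 : min Ys 1 * M.s S.jl ^ 5 ≤ Y ^ 2
  Hj1 : S.v ≤ M.H (S.jl + 1)

/-- **(VAR)** as a property of the member: the floor of `M` is enough, no ceiling, no location -/
def VarH (E : ℝ) (S : Sc) (M : Md) (m : ℕ) (a Y : ℝ) : Prop :=
  ∀ L u F, 1 ≤ L → L ≤ E ^ 12 → 0 ≤ u → u ≤ M.d 0 → F 0 = 0 → Monotone F →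
    Fl (sh M u F) m a S.jl ≤ E ^ 4 * L ^ 3 * Y + E * (sh M u F).Phi S m a / L

/-- scale data for `VarH` (clock density `≍ 1` at the junction) -/
structure VH (E : ℝ) (S : Sc) (M : Md) (l lm Y : ℝ) : Prop where
  jj : S.j0 = S.jl
  jl : M.s S.jl ≤ l
  l3 : l ^ 3 ≤ Y
  wl : E ^ 39 * S.w3 l ≤ l ^ 3
  bas : ∀ t, l ≤ t → t ≤ S.C → t ^ 3 * S.w3 t ^ 2 ≤ Y ^ 3
  ue : S.ue ≤ Y
  u0 : 0 < S.u0 ∧ S.u0 ^ 3 ≤ Y
  lm0 : 0 < lm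
  w1 : S.w3 1 ≤ Y * lm
  den : ∀ x, M.xs S ≤ x → x ≤ 1 - Y → lm ≤ S.den x * min (x - M.xs S + S.u0) (1 - x)
  dj : 1 / S.C ≤ S.den (M.xs S) ∧ S.den (M.xs S) ≤ S.C
  ck : M.sq S (fun k => M.ck k - M.q k) ≤ Y
  Y0 : (S.n : ℝ) ^ (-(1 : ℝ) / 2) ≤ Y
  Y1 : E ^ 200 * Y ≤ (S.n : ℝ) ^ (-(1 : ℝ) / 10)

/-- the plateau shape of amplitude `√T` as a function of the label -/
def shp (T Y xs x : ℝ) : ℝ := √T / √(1 - x + Y) - √T / √(x - xs + T ^ ((1 : ℝ) / 3))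

/-- **deposit clock** -/
structure Ax (E : ℝ) (S : Sc) (M : Md) (Y : ℝ) (c : ℕ → ℝ) : Prop where
  lo : ∀ k, S.jl < k → M.z k ≤ 1 / (2 * S.C) → c k = M.q k
  inc : ∀ k, S.jl < k → k < S.Jp → (M.ck (k + 1) - M.ck k) / 2 ≤ c (k + 1) - c k
  bas : ∀ k, S.jl < k → k < S.J → c (k + 1) - c k ≤ M.ck (k + 1) - M.ck k
  pla : ∀ k, S.J ≤ k → k < S.Jp → shp (E ^ 99 * Y) Y (M.xs S) (M.z k) -
    shp (E ^ 99 * Y) Y (M.xs S) (M.z (k - 1)) ≤ c (k + 1) - c k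
  sq : M.sq S (fun k => c k - M.q k) ≤ E ^ 100 * Y
  nn : 0 ≤ c (S.jl + 1) ∧ c (S.jl + 1) ≤ M.s (S.jl + 1)
  le : ∀ k, S.jl < k → k ≤ S.Jp → c k ≤ E ^ 51

/-- accumulated adaptive deposit at the time `u ≤ D₁` -/
structure K0 (E : ℝ) (S : Sc) (M : Md) (Y : ℝ) (c : ℕ → ℝ) (u : ℝ) (F : ℕ → ℝ) : Prop where
  lo : ∀ k ≤ S.jl, F k = 0
  f0 : 0 ≤ F (S.jl + 1)
  f1 : F (S.jl + 1) ≤ 3 * E ^ 8 * u * M.s (S.jl + 1)
  flr : ∀ k, S.jl < k → k < S.Jp → u / E ^ 4 * (c (k + 1) - c k) / 2 ≤ F (k + 1) - F k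
  cei : ∀ k, S.jl < k → k < S.J → F (k + 1) - F k ≤ 3 * E ^ 8 * u * S.v
  top : ∀ k, S.Jp ≤ k → F k - u * M.ct S k = F S.Jp - u * M.ct S S.Jp
  le : F S.Jp ≤ u * E ^ 51
  res : M.sq S (fun k => F k - u * M.q k) ≤ 16 * u ^ 2 * (E ^ 100 * Y)

/-- **the class** at the time `u` -/
def KC (E : ℝ) (S : Sc) (M : Md) (Y : ℝ) (c : ℕ → ℝ) (D u : ℝ) (N : Md) : Prop :=
  0 ≤ u ∧ u ≤ M.d 0 ∧ ∃ F, K0 E S M Y c (min u D) F ∧
    N = sh M u fun k => F k + (u - min u D) * M.ct S k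

/-- the end of the adaptive stage -/
def Dr (E : ℝ) (S : Sc) (D : ℝ) : Prop :=
  2 * E ^ 10 * nu S ≤ D ∧ E ^ 100 * D ≤ (S.n : ℝ) ^ (-(1 : ℝ) / 20)

/-- step allowance of the cap -/
def lam (E : ℝ) (S : Sc) (M : Md) (k : ℕ) : ℝ :=
  if k < S.jl then 0 else if k = S.jl then E ^ 8 * M.s (S.jl + 1)
  else if k < S.J then E ^ 8 * S.v else 1

/-- capped mean overlap -/
def cp (E : ℝ) (S : Sc) (m : ℕ) (a : ℝ) (N : Md) : ℕ → ℝ :=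
  Cap64.cap (fun k => if k ≤ S.jl then 0 else N.rb m a k) (lam E S N)

open Classical in
/-- adaptive part of the deposit -/
def ph (E : ℝ) (S : Sc) (Y : ℝ) (m : ℕ) (a : ℝ) (N : Md) : ℕ → ℝ :=
  if N.Phi S m a ≤ 2 * (E ^ 100 * Y) then cp E S m a N else N.ct S

/-- **the rule** -/
def rul (E : ℝ) (S : Sc) (Y : ℝ) (c : ℕ → ℝ) (m : ℕ) (a : ℝ) (N : Md) (k : ℕ) : ℝ :=
  if k ≤ S.jl then 0 else 1 / E ^ 4 * c (min k S.Jp) + (1 - 1 / E ^ 4) * ph E S Y m a N (min k S.Jp) +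
    (N.ct S k - N.ct S (min k S.Jp))

/-- an admissible change of the marks at the time `u` -/
structure Mo (E : ℝ) (S : Sc) (M : Md) (Y : ℝ) (c : ℕ → ℝ) (u : ℝ) (G : ℕ → ℝ) : Prop where
  lo : ∀ k ≤ S.jl + 1, G k = 0
  hi : ∀ k, S.Jp ≤ k → G k = 0
  flr : ∀ k, S.jl < k → k < S.Jp → -(u / E ^ 4 * (c (k + 1) - c k) / 4) ≤ G (k + 1) - G k
  cei : ∀ k, S.jl < k → k < S.J → G (k + 1) - G k ≤ E ^ 8 * u * S.v
  res : M.sq S G ≤ u ^ 2 * (E ^ 100 * Y)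

/-- prefix: class, hypotheses of SR, clock, end of the adaptive stage -/
def SR (Q : ℝ → ℝ → Sc → Md → ℕ → ℝ → ℝ → (ℕ → ℝ) → ℝ → Prop) : Prop :=
  CL fun E Λ S M m a => ∀ l Ys Y c D, SH E S M l Ys Y → VarH E S M m a Y → Ax E S M Y c →
    Dr E S D → Q E Λ S M m a Y c D

/-! ### leaves -/

/-- the clock exists -/
def ClkS : Prop := CL fun E _ S M _ _ => ∀ l Ys Y, SH E S M l Ys Y → ∃ c, Ax E S M Y c

/-- **(VAR)** from the scale data -/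
def VarS : Prop := CL fun E _ S M m a => ∀ l lm Y, VH E S M l lm Y → VarH E S M m a Y

/-- the rule is legal and keeps the class -/
def InvS : Prop := SR fun E _ S M m a Y c D =>
  (∀ u F, Md67.Lg (sh M u F) m a → Dp (rul E S Y c m a (sh M u F)) (E ^ 51)) ∧
  (∀ u N, KC E S M Y c D u N → Md67.Lg N m a) ∧ KC E S M Y c D 0 M ∧
  (∀ u h N, 0 ≤ h → u + h ≤ D → KC E S M Y c D u N →
    KC E S M Y c D (u + h) (dep N (rul E S Y c m a N) h)) ∧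
  (∀ u h N, 0 ≤ h → D ≤ u → u + h ≤ M.d 0 → KC E S M Y c D u N →
    Dp (M.ct S) (E ^ 51) ∧ KC E S M Y c D (u + h) (dep N (M.ct S) h)) ∧
  ∀ (u h : ℝ) (i : ℕ) N G, 0 ≤ h → u ≤ i * h → u + i * h ≤ D → KC E S M Y c D u N →
    Mo E S M Y c u G →
    Md67.Lg (sh N 0 G) m a ∧ KC E S M Y c D (u + i * h) (co (rul E S Y c m a) h N (sh N 0 G) i)

/-- the remainder of Guerra's step -/
def RemS : Prop := SR fun E _ S M m a Y c D => ∀ u N, KC E S M Y c D u N →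
  N.Phi S m a ≤ 2 * (E ^ 100 * Y) → Rem N m a (rul E S Y c m a N) ≤ E ^ 93 * Y

/-- the two move inequalities combined with the double Guerra step, as a hypothesis on `N` -/
def Dbl (E : ℝ) (S : Sc) (M : Md) (m : ℕ) (a Y : ℝ) (c : ℕ → ℝ) (u : ℝ) (N : Md) (B X : ℝ) : Prop :=
  ∀ (A : Finset ℕ) (w : ℕ → ℝ) (ξ : ℕ → ℕ) (G : ℕ → ℝ), Mo E S M Y c u G →
    (∀ k ∈ A, S.jl < k ∧ k < S.Jp ∧ S.jl < ξ k ∧ ξ k < S.Jp ∧ 0 ≤ w k ∧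
      w k ≤ u / E ^ 4 * (c (k + 1) - c k) / 4) →
    (∀ j, G (j + 1) - G j = ∑ k ∈ A.filter (fun k => ξ k = j), w k - if j ∈ A then w j else 0) →
    ∃ r : ℕ → ℝ, Monotone r ∧ (∀ k, 0 ≤ r k ∧ r k ≤ 1) ∧ M.sq S (fun k => r k - M.q k) ≤ B ∧
      ∑ k ∈ A, w k * (M.z (ξ k) - M.z k) * N.rb m a (if k ≤ ξ k then k else k + 1) ≤
        ∑ k ∈ A, w k * (M.z (ξ k) - M.z k) * r (if ξ k ≤ k then ξ k else ξ k + 1) + X

/-- `Dbl` holds along the Euler path (`SrM_63`, `Gu_71.V_path`, `InvS`, `RemS`) -/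
def DblS : Prop := SR fun E _ S M m a Y c D => ∀ u h (i : ℕ) N B, 0 < h → h ≤ 1 / (S.n : ℝ) ^ 6 →
  u ≤ i * h → i * h ≤ 2 * E ^ 2 * u → u + i * h ≤ D → KC E S M Y c D u N →
  (∀ j < i, ∀ N', KC E S M Y c D (u + j * h) N' → N'.Phi S m a ≤ 2 * (E ^ 100 * Y)) →
  (∀ N', KC E S M Y c D (u + i * h) N' → N'.Phi S m a ≤ B) →
  Dbl E S M m a Y c u N B (4 * u * E ^ 95 * Y)

/-- **base and plateau moves** (frame-free in `N.rb`: monotone, in `[0, 1]`) -/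
def MovS : Prop := SR fun E Λ S M m a Y c _ => ∀ u N B, 0 < u → 0 < m → N.N = M.N → N.z = M.z →
  N.q = M.q → N.Phi S m a ≤ 2 * (E ^ 100 * Y) → E ^ 99 * Y ≤ B → B ≤ E ^ 100 * Y →
  Dbl E S M m a Y c u N B (4 * u * E ^ 95 * Y) → N.Phi S m a ≤ Λ * B

/-- **(T)**: the terminal range, with the a priori bound -/
def TermS : Prop := SR fun E _ S M m a Y c D => ∀ u N, E ^ 8 * nu S ≤ u → u ≤ 1 / E →
  KC E S M Y c D u N → N.Phi S m a ≤ 2 * (E ^ 100 * Y) → N.Phi S m a ≤ E ^ 99 * Y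

/-- **linear range and start**: mass `≥ 1 / E`; no a priori bound when the W variance is small -/
def LinS : Prop := ∃ e₁ : ℝ → ℝ, (∀ C, 0 < e₁ C ∧ e₁ C ≤ 1 / 4) ∧
  SR fun E _ S M m a Y c D => ∀ u N, 1 / E ≤ u → e₁ S.C ≤ M.d 0 - u → KC E S M Y c D u N →
    (N.Phi S m a ≤ 2 * (E ^ 100 * Y) ∨ M.d 0 - u ≤ 2 * e₁ S.C) → N.Phi S m a ≤ E ^ 99 * Y

/-- the scale of an auxiliary model: constant `C'`, mass `ms + u`, floor and ceiling loss `E⁹` -/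
def scU (E C' : ℝ) (S : Sc) (M : Md) (Y D u : ℝ) : Sc :=
  { S with
    C := C'
    ms := fun t => S.ms t + u
    F := E ^ 9
    gr := fun t => max (S.gr t) 0 + E ^ 37 * min u D * Y ^ ((1 : ℝ) / 3) +
      if t ≤ M.s S.jl then u * M.s S.jl else 0
    g2 := 3 * (E * (S.θ + nu S) ^ 2 * Y) + 48 * min u D ^ 2 * (E ^ 100 * Y) + 3 * u ^ 2 * Y }

/-- membership of the auxiliary models (for Q, E1 and L) -/
def MemS : Prop := ∃ f : ℝ → ℝ, (∀ C, C ≤ f C) ∧ SR fun E _ S M _ _ Y c D => ∀ u N, u ≤ 1 / E →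
  KC E S M Y c D u N → Cl (scU E (f S.C) S M Y D u) N

/-! ### the output -/

/-- **SR** -/
def SrS : Prop := CL fun E _ S M m a => ∀ l Ys Y, SH E S M l Ys Y → VarH E S M m a Y →
  M.Phi S m a ≤ 2 * (E ^ 100 * Y)

/-- glue -/
def RemG : Prop := InvS → RemS
def DblG : Prop := InvS → RemS → DblS
def SrG : Prop := ClkS → InvS → DblS → MovS → TermS → LinS → SrS

end Sr

end Crest.Agent.T156.Alt

end
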