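import Crest.Agent.T156.SrVS_79
import Crest.Agent.T156.SRDef_19

/-!
# Row 156, soft recursion, leaf (VAR): everything below the top window (helper79)
-/

set_option autoImplicit false
set_option linter.unusedSectionVars false

noncomputable section

namespace Crest.Agent.T156.Alt.V79

open Real Finset
open Crest.Agent.T156.Alt.Md67
open Crest.Agent.T156.Alt.Gu71 (sh)

variable {S : Sc} {M N : Md} {m : ℕ} {a lam L l Y Φ : ℝ}

theorem Vr_le (k : ℕ) : Vr N m a k ≤ N.E2 m a (fun R => R ^ 2) k := by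
  rw [Vr, E2_sq_expand]
  nlinarith [sq_nonneg (N.rb m a k)]

/-- **low levels and sloped part** -/
theorem Pair.below (P : Pair S M N m a lam) (V : Lev S M lam L l Y)
    (hΦ : Phi N m a M.q (Ioc S.jl S.Jp) ≤ Φ) :
    ∑ k ∈ range (S.jl + 1), N.dz m a k * N.E2 m a (fun R => R ^ 2) k +
      ∑ k ∈ Ioo S.jl (S.J / 2), N.dz m a k * Vr N m a k ≤
      lam ^ 18 * L ^ 2 * Y + lam ^ 5 * Φ / L := by
  obtain ⟨k1, h1, h2, h3⟩ := P.exists_k1 V
  have hl := P.l1000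
  have L1 := V.L1
  have Y0 := P.Y0 V
  have Φ0 := (Phi_nonneg P.lg _).trans hΦ
  have k8 : 8 * k1 ≤ S.J := by
    have : ((8 * k1 : ℕ) : ℝ) ≤ S.J := by
      push_cast; linarith [le_mul_of_one_le_left (Nat.cast_nonneg (α := ℝ) k1) L1]
    exact_mod_cast this
  obtain ⟨-, i1, -, -⟩ := P.vl V h1 (by omega)
  have a1 := P.low V h1 h2 h3 hΦ
  have a2 := P.slope V h1 hΦ
  rw [range_eq_Ico, ← sum_Ico_consecutive _ (Nat.zero_le (S.jl + 1)) (by omega : S.jl + 1 ≤ k1),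
    ← range_eq_Ico] at a1
  rw [← Ico_add_one_left_eq_Ioo, ← sum_Ico_consecutive _ (by omega : S.jl + 1 ≤ k1)
    (by omega : k1 ≤ S.J / 2)]
  have a3 : ∑ k ∈ Ico (S.jl + 1) k1, N.dz m a k * Vr N m a k ≤
      ∑ k ∈ Ico (S.jl + 1) k1, N.dz m a k * N.E2 m a (fun R => R ^ 2) k :=
    sum_le_sum fun k _ => mul_le_mul_of_nonneg_left (Vr_le k) (P.lg.dz_nonneg k)
  have p0 : 0 ≤ Φ / L := by positivity
  have b1 : lam ^ 17 * L ^ 1 * Y ≤ lam ^ 17 * L ^ 2 * Y := by gcongr; norm_num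
  have b2 : lam ^ 16 * L ^ 2 * Y ≤ lam ^ 17 * L ^ 2 * Y := by gcongr <;> linarith
  have b3 : 2 * (lam ^ 17 * L ^ 2 * Y) ≤ lam * (lam ^ 17 * L ^ 2 * Y) := by gcongr; linarith
  have b4 : lam ^ 3 * (Φ / L) ≤ lam ^ 4 * (Φ / L) := by gcongr <;> linarith
  have b5 : 2 * (lam ^ 4 * (Φ / L)) ≤ lam * (lam ^ 4 * (Φ / L)) := by gcongr; linarith
  rw [mul_div_assoc] at a1 a2 ⊢
  linarith

/-- the pair `(M, sh M u F)` -/
theorem pair_of {C η u : ℝ} {A : ℕ} {F : ℕ → ℝ} (H : RgC C A η (1000 * C ^ 6) S) (hη : 30 * η ≤ 1)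
    (h : Cl S M) (I : S.In m a) (hu : u ≤ M.d 0) (h0 : F 0 = 0) (hF : Monotone F) :
    Pair S M (sh M u F) m a ((S.n : ℝ) ^ η) := by
  have n1 : (1 : ℝ) ≤ S.n := H.N1.le
  refine ⟨h, I, Gu71.sh_lg (lg_cl h (by have := H.n3; omega) I) hu h0 hF, rfl, rfl,
    fun k e e' => (h.flr k e e').trans ?_, H.hC ▸ H.K_le, ?_, H.hA ▸ H.A2, ?_, H.Cθ h⟩
  · have := hF (Nat.le_succ k)
    simp only [sh]
    linarith
  · rw [← rpow_natCast, ← rpow_mul H.N0.le]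
    calc _ ≤ (S.n : ℝ) ^ (1 : ℝ) := rpow_le_rpow_of_exponent_le n1 (by push_cast; linarith)
      _ = _ := rpow_one _
  · have N0 : (0 : ℝ) < M.N := by exact_mod_cast Nat.zero_lt_of_lt h.i4
    have a1 := log_le_log N0 h.card
    rw [log_pow, H.hA] at a1
    push_cast at a1
    nlinarith [mul_le_mul (by linarith [H.A_le, H.Λ1] : (A : ℝ) + 1 ≤ 2 * (S.n : ℝ) ^ η) H.log_le
      (by linarith [H.log1]) (by linarith [H.Λ1])]

/-- the level data from `VH` -/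
theorem lev_of {E lm : ℝ} (h : Cl S M) (V : Sr.VH E S M l lm Y) (h1 : 1 ≤ lam) (h2 : lam ≤ E)
    (L1 : 1 ≤ L) (L2 : L ≤ E ^ 12) : Lev S M lam L l Y := by
  have E1 : 1 ≤ E := h1.trans h2
  have l0 : 0 < l := (h.s_pos (h.i0.trans h.i1)).trans_le V.jl
  have Y0 : 0 ≤ Y := (pow_pos l0 3).le.trans V.l3
  have e : (lam * L) ^ 3 ≤ E ^ 39 := by
    calc _ ≤ (E * E ^ 12) ^ 3 := by gcongr
      _ = _ := by ring
  have w0 : 0 ≤ S.w3 l := by
    have := h.ms_pos l0.le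
    have := h.F1
    unfold Sc.w3
    positivity
  refine ⟨L1, V.jj, V.jl, V.l3, (mul_le_mul_of_nonneg_right e w0).trans V.wl, V.bas,
    le_of_pow_le_pow_left₀ (n := 3) (by norm_num) zero_le_one ?_⟩
  rw [mul_pow, one_pow]
  calc _ ≤ E ^ 200 * Y := mul_le_mul (e.trans (pow_le_pow_right₀ E1 (by norm_num))) V.l3
        (by positivity) (by positivity)
    _ ≤ _ := V.Y1
    _ ≤ 1 := rpow_le_one_of_one_le_of_nonpos (by exact_mod_cast h.n1) (by norm_num)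

/-- `Phi` with the clock `M.q` is the functional of `SRDef_19` -/
theorem Phi_sh (G : Md67.Lg M m a) (u : ℝ) (F : ℕ → ℝ) :
    Phi (sh M u F) m a M.q (Ioc S.jl S.Jp) = (sh M u F).Phi S m a :=
  sum_congr rfl fun k hk => by
    rw [Gu71.sh_dz, dz_up G.toLeg (Nat.zero_lt_of_lt (mem_Ioc.1 hk).1)]; rfl

end Crest.Agent.T156.Alt.V79

end
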