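import Crest.Agent.T156.SrV_17
import Crest.Agent.T156.SrVB_79

/-!
# Row 156, soft recursion, leaf (VAR): the top part and the wrapper (helper17)
-/

set_option autoImplicit false

noncomputable section

namespace Crest.Agent.T156.Alt.V17

open Real Finset Filter
open Crest.Agent.T156.Alt.Md67 Crest.Agent.T156.Alt.C33 Crest.Agent.T156.Alt.V79
open Crest.Agent.T156.Alt.Sr (VH VarH VarS)

/-- the data at a fixed size: base `M`, model `N` on the same grid with at least the marks of `M` -/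
structure HV (E L : ℝ) (S : Sc) (M N : Md) (m : ℕ) (a l lm Y : ℝ) : Prop where
  F : Fn S M m a
  V : VH E S M l lm Y
  G : Lg N m a
  eN : N.N = M.N
  ez : N.z = M.z
  dH : ∀ j, M.H (j + 1) - M.H j ≤ N.H (j + 1) - N.H j
  E1 : 1 ≤ E
  L1 : 1 ≤ L
  LE : L ≤ E ^ 12
  A3 : 3 ≤ S.A
  big : 10 ^ 10 * S.C ^ 26 ≤ S.n
  sml : (12 * S.C ^ 4) ^ 3 * (S.n : ℝ) ^ (-(1 : ℝ) / 10) ≤ 1

variable {S : Sc} {M N : Md} {m : ℕ} {a E L l lm Y : ℝ}

theorem ms_mul (F : Fn S M m a) {k t : ℝ} (hk : 1 ≤ k) (ht : 0 ≤ t) :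
    S.ms (k * t) ≤ 4 * k ^ 2 * S.ms t := by
  obtain ⟨r, h1, h2⟩ := exists_nat_pow_near hk one_lt_two
  refine (F.msm (mul_le_mul_of_nonneg_right h2.le ht)).trans ((F.ms_pow ht _).trans
    (mul_le_mul_of_nonneg_right ?_ (F.ms_pos ht).le))
  rw [pow_succ', show (4 : ℝ) ^ r = (2 ^ r) ^ 2 by rw [← pow_mul, mul_comm, pow_mul]; norm_num]
  gcongr

theorem Vr_le4 (G : Lg N m a) (k : ℕ) : Vr N m a k ≤ 4 := E2_le (fun r hr => by
  have := rb_nonneg (M := N) (a := a) G.m0 k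
  have := rb_le_one (M := N) (a := a) G.m0 k
  nlinarith [(abs_le.1 hr).1, (abs_le.1 hr).2]) k

namespace HV

variable (H : HV E L S M N m a l lm Y)
include H

theorem Y0 : 0 < Y := lt_of_lt_of_le (by have := H.F.n1; positivity) H.V.Y0

theorem Yn : Y ≤ (S.n : ℝ) ^ (-(1 : ℝ) / 10) :=
  (le_mul_of_one_le_left H.Y0.le (one_le_pow₀ H.E1)).trans H.V.Y1

theorem Y1 : Y ≤ 1 := H.Yn.trans (rpow_le_one_of_one_le_of_nonpos H.F.n1 (by norm_num))

theorem l0 : 0 < l := by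
  have i0 := H.F.i0
  have i1 := H.F.i1
  have i2 := H.F.i2
  refine lt_of_lt_of_le ?_ H.V.jl
  exact ((H.F.s_nonneg 0).trans_lt (H.F.s_lt (by omega))).trans_le (H.F.sm (by omega))

theorem l_sml : 12 * S.C ^ 4 * l ≤ 1 := by
  have C0 := H.F.C0
  refine (pow_le_pow_iff_left₀ (by have := H.l0; positivity) zero_le_one three_ne_zero).1 ?_
  rw [mul_pow, one_pow]
  exact (mul_le_mul_of_nonneg_left (H.V.l3.trans H.Yn) (by positivity)).trans H.sml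

theorem l1 : l ≤ 1 := by nlinarith [H.l_sml, one_le_pow₀ (n := 4) H.F.C1, H.l0]

theorem j4 : S.jl ≤ S.J / 4 := by
  have i2 := H.F.i2
  have C0 := H.F.C0
  have v0 := H.F.v0
  have a1 := (H.F.s_mem (k := S.jl) (by omega)).1.trans (mul_le_mul_of_nonneg_left H.V.jl C0.le)
  have a2 : (4 * S.jl : ℝ) * (3 * S.C ^ 3 * S.v) ≤ S.J * (3 * S.C ^ 3 * S.v) := by
    nlinarith [H.l_sml, H.F.J_lo, mul_le_mul_of_nonneg_left a1 (by positivity : 0 ≤ 12 * S.C ^ 3)]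
  have a3 : 4 * S.jl ≤ S.J := by exact_mod_cast le_of_mul_le_mul_right a2 (by positivity)
  omega

theorem w3_ge {t : ℝ} (h0 : 0 < t) (h1 : t ≤ 1) : 1 ≤ S.n * S.w3 t := by
  have n1 := H.F.n1
  have p := H.F.ms_pos h0.le
  rw [Sc.w3, ← mul_div_assoc, le_div_iff₀ (by positivity), one_mul, mul_assoc]
  exact mul_le_mul_of_nonneg_left ((mul_le_one₀ h1 p.le (H.F.ms_le_one t)).trans H.F.F1)
    (by positivity)

theorem L_le : L ≤ S.n := by
  have l0 := H.l0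
  have w := H.F.w3_pos l0
  have a1 : L ≤ E ^ 39 := H.LE.trans (pow_le_pow_right₀ H.E1 (by norm_num))
  have a2 : L * S.w3 l ≤ 1 := (mul_le_mul_of_nonneg_right a1 w.le).trans
    (H.V.wl.trans (pow_le_one₀ l0.le H.l1))
  exact le_of_mul_le_mul_right (a2.trans (H.w3_ge l0 H.l1)) w

theorem lm_ge : 1 ≤ S.n * lm := (H.w3_ge one_pos le_rfl).trans (mul_le_mul_of_nonneg_left
  (H.V.w1.trans (mul_le_of_le_one_left H.V.lm0.le H.Y1)) (Nat.cast_nonneg _))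

theorem v3 : S.v * (S.n : ℝ) ^ 3 ≤ S.C :=
  (mul_le_mul_of_nonneg_left (pow_le_pow_right₀ H.F.n1 H.A3) H.F.v0.le).trans H.F.v2

theorem J16 : 16 ≤ S.J := by
  by_contra h
  have j : (S.J : ℝ) ≤ 16 := by exact_mod_cast (by omega : S.J ≤ 16)
  have C1 := H.F.C1
  have v0 := H.F.v0
  have n1 := H.F.n1
  have a1 : S.v * S.n ≤ S.C := H.F.vn
  have a2 : S.C ^ 4 ≤ S.C ^ 26 := pow_le_pow_right₀ C1 (by norm_num)
  have a3 : 1 ≤ 48 * S.C ^ 3 * S.v := by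
    nlinarith [H.F.J_lo, mul_le_mul_of_nonneg_right j (by positivity : 0 ≤ S.C ^ 3 * S.v)]
  nlinarith [H.big, mul_le_mul_of_nonneg_right a3 (by positivity : (0 : ℝ) ≤ S.n),
    mul_le_mul_of_nonneg_left a1 (by positivity : 0 ≤ 48 * S.C ^ 3), pow_pos (by linarith : 0 < S.C) 26]

theorem th : TH S M N m (900 * S.C ^ 9) L Y lm (S.ms 1 / (900 * S.C ^ 9 * S.F)) M.ck := by
  have F := H.F
  have C1 := F.C1
  have C0 := F.C0
  have F1 := F.F1
  have F0 := F.F0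
  have v0 := F.v0
  have n1 := F.n1
  have nm := F.nm
  have j4 := H.j4
  have i1 := F.i1
  have J := H.J16
  have p := F.ms_pos zero_le_one
  have c9 : S.C ≤ S.C ^ 9 := le_self_pow₀ C1 (by norm_num)
  have CK : S.C ≤ 900 * S.C ^ 9 := by linarith
  have y : 1 / (S.ms 1 / (900 * S.C ^ 9 * S.F) * m) ≤ 900 * S.C ^ 9 * S.w3 1 := by
    calc _ ≤ 1 / (S.ms 1 / (900 * S.C ^ 9 * S.F) * S.n) := by gcongr
      _ = _ := by rw [Sc.w3]; field_simp
  refine ⟨H.eN, H.ez, ⟨a, H.G.toLeg⟩, C1.trans CK, H.L1, H.Y0, i1.trans j4,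
    ⟨(one_div_le_one_div_of_le C0 CK).trans H.V.dj.1, H.V.dj.2.trans CK⟩, H.V.den, H.V.ue,
    by positivity, fun j j1 j2 => le_trans ?_ ((F.flr j (j4.trans j1) j2).trans (H.dH j)),
    fun j j1 j2 => (F.ckm j (by omega) j2).2.trans (mul_le_mul_of_nonneg_right CK v0.le), ?_,
    y.trans (mul_le_mul_of_nonneg_left H.V.w1 (by positivity)), ?_, ?_, ?_⟩
  · have a1 := (F.s_mem (k := S.J / 4) (by omega)).1
    have a3 : (S.J : ℝ) ≤ 5 * (S.J / 4 : ℕ) := by exact_mod_cast (by omega : S.J ≤ 5 * (S.J / 4))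
    have a2 : 1 ≤ 15 * S.C ^ 4 * M.s j := by
      nlinarith [F.J_lo, mul_le_mul_of_nonneg_left (a1.trans (mul_le_mul_of_nonneg_left (F.sm j1)
        C0.le)) (by positivity : 0 ≤ 15 * S.C ^ 3),
        mul_le_mul_of_nonneg_right a3 (by positivity : 0 ≤ 3 * S.C ^ 3 * S.v)]
    have a4 := (F.msm a2).trans (ms_mul F (k := 15 * S.C ^ 4)
      (by linarith [one_le_pow₀ (n := 4) C1]) (F.s_nonneg j))
    calc _ ≤ 4 * (15 * S.C ^ 4) ^ 2 * S.ms (M.s j) / (900 * S.C ^ 9 * S.F) * S.v := by gcongr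
      _ = _ := by field_simp; ring
  · have a1 : (m : ℝ) ≤ 2 * S.n := by exact_mod_cast F.m2
    have a2 : S.v * m ≤ 2 * S.C := by nlinarith [F.vn, mul_le_mul_of_nonneg_left a1 v0.le]
    rw [mul_assoc, div_mul_eq_mul_div, div_le_one (by positivity)]
    nlinarith [mul_le_mul (F.ms_le_one 1) a2 (by positivity) zero_le_one,
      mul_le_mul_of_nonneg_left F1 (by positivity : 0 ≤ 900 * S.C ^ 9)]
  · refine (pow_le_pow_left₀ (by positivity) y 2).trans ?_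
    rw [mul_pow]
    have := H.V.bas 1 H.l1 C1
    rw [one_pow, one_mul] at this
    exact mul_le_mul_of_nonneg_left this (by positivity)
  · refine le_of_mul_le_mul_left (le_trans ?_ H.lm_ge) (by positivity)
    refine le_of_mul_le_mul_right ?_ (by positivity : (0 : ℝ) < S.n)
    calc _ ≤ S.n * (9600 * S.C ^ 7 * (900 * S.C ^ 9) ^ 2 * S.n * S.v) * S.n := by
          have := H.L_le; gcongr
      _ = 9600 * 900 ^ 2 * S.C ^ 25 * (S.v * S.n ^ 3) := by ring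
      _ ≤ 9600 * 900 ^ 2 * S.C ^ 25 * S.C := mul_le_mul_of_nonneg_left H.v3 (by positivity)
      _ ≤ _ := by nlinarith [H.big, pow_pos C0 26]
  · refine le_trans ?_ H.V.Y0
    have a1 : S.C ≤ S.n := by nlinarith [H.big, le_self_pow₀ C1 (show 26 ≠ 0 by norm_num)]
    have a2 : S.v * S.n ≤ 1 := by
      refine le_of_mul_le_mul_right ?_ (by positivity : (0 : ℝ) < S.n)
      nlinarith [H.v3, mul_le_mul_of_nonneg_left n1 (by positivity : 0 ≤ S.v * S.n ^ 2)]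
    have a3 : S.v ≤ (S.n : ℝ)⁻¹ := by rw [← one_div, le_div_iff₀ (by positivity)]; exact a2
    have a4 : (S.n : ℝ)⁻¹ ≤ (S.n : ℝ) ^ (-(1 : ℝ) / 2) := by
      rw [← rpow_neg_one]
      exact rpow_le_rpow_of_exponent_le n1 (by norm_num)
    have a5 : S.v ≤ 1 := a3.trans (inv_le_one_of_one_le₀ n1)
    nlinarith

/-- the number of blocks -/
theorem cnt : 1 + log (1 + 900 * S.C ^ 9 / lm) + log (1 + 1 / Y) ≤ 5 * log S.n := by
  have n1 := H.F.n1
  have C1 := H.F.C1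
  have lm0 := H.V.lm0
  have Y0 := H.Y0
  have n3 : (3 : ℝ) ≤ S.n := by exact_mod_cast H.F.n3
  have l1 : 1 ≤ log S.n := by
    rw [le_log_iff_exp_le (by positivity)]
    linarith [exp_one_lt_d9]
  have e : log ((S.n : ℝ) ^ 2) = 2 * log S.n := by rw [log_pow]; norm_num
  have a1 : log (1 + 900 * S.C ^ 9 / lm) ≤ log ((S.n : ℝ) ^ 2) := by
    refine log_le_log (by positivity) ?_
    have b1 : 900 * S.C ^ 9 / lm ≤ 900 * S.C ^ 9 * S.n := by
      rw [div_le_iff₀ lm0, mul_assoc]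
      exact le_mul_of_one_le_right (by positivity) H.lm_ge
    have b2 : S.C ^ 9 ≤ S.C ^ 26 := pow_le_pow_right₀ C1 (by norm_num)
    have b3 : 900 * S.C ^ 9 + 1 ≤ S.n := by linarith [H.big, one_le_pow₀ (n := 26) C1]
    nlinarith
  have a2 : log (1 + 1 / Y) ≤ log ((S.n : ℝ) ^ 2) := by
    refine log_le_log (by positivity) ?_
    have b1 : (S.n : ℝ)⁻¹ ≤ Y := by
      refine le_trans ?_ H.V.Y0
      rw [← rpow_neg_one]
      exact rpow_le_rpow_of_exponent_le n1 (by norm_num)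
    have b2 : 1 / Y ≤ S.n := by
      rw [one_div]; exact inv_le_of_inv_le₀ (by positivity) b1
    nlinarith
  linarith

theorem Phi_le {T : Finset ℕ} (hT : ∀ k ∈ T, S.jl < k ∧ k ≤ S.Jp) :
    Phi N m a M.ck T ≤ Phi N m a M.ck (Ioc S.jl S.Jp) :=
  Phi_mono H.G fun k hk => mem_Ioc.2 (hT k hk)

/-- **the top part** -/
theorem top {Lg Φ : ℝ} (hL : ((Nat.log 2 M.N : ℝ) + 2) * (Nat.log 2 M.N + 13) ≤ Lg)
    (hΦ : Phi N m a M.ck (Ioc S.jl S.Jp) ≤ Φ) :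
    ∑ k ∈ Icc (S.J / 2) N.N, N.dz m a k * Vr N m a k ≤
      5 * K2 S.C (900 * S.C ^ 9) * log S.n * (4000 * K2 S.C (900 * S.C ^ 9) ^ 5 * Lg ^ 2 * L ^ 2 * Y +
        26 * K2 S.C (900 * S.C ^ 9) * Φ / L) + 16 * S.C * Y := by
  obtain ⟨ke, h1, h2, h3, h4⟩ := top_cov' H.th H.F
  set K := K2 S.C (900 * S.C ^ 9) with hK
  have C1 := H.F.C1
  have K1 : 1 ≤ K := by
    have a1 := one_le_pow₀ (n := 3) (show 1 ≤ 30 * S.C ^ 5 by linarith [one_le_pow₀ (n := 5) C1])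
    have a2 := one_le_pow₀ (n := 4) (one_le_mul_of_one_le_of_one_le C1
      (show 1 ≤ 900 * S.C ^ 9 by linarith [one_le_pow₀ (n := 9) C1]))
    rw [hK, K2]
    nlinarith
  have J := H.J16
  have j4 := H.j4
  have i4 := H.F.i4
  have Y0 := H.Y0
  have L1 := H.L1
  have Φ0 : 0 ≤ Φ := (Phi_nonneg H.G _).trans hΦ
  have p : ∀ k, 0 ≤ N.dz m a k * Vr N m a k := fun k => mul_nonneg (H.G.dz_nonneg k) (Vr_nonneg k)
  have s1 := (h4.mono (fun _ _ q => q) (mul_le_mul_of_nonneg_left H.cnt (by linarith))).sum p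
    (c := 4000 * K ^ 4 * Lg ^ 2 * L * (K * L * Y) + 26 * K * Φ / L) (by positivity)
    fun k n ⟨⟨q1, q2⟩, δ, x, ω, q⟩ => q.bound H.G H.F.v0 K1 L1 (le_trans (by
      have : (Nat.log 2 n : ℝ) ≤ Nat.log 2 M.N := by exact_mod_cast Nat.log_mono_right (by omega)
      gcongr) hL) ((H.Phi_le fun j hj => by have := mem_Ico.1 hj; omega).trans hΦ)
  have s2 : ∑ k ∈ Ioc (ke - 1) N.N, N.dz m a k * Vr N m a k ≤ 16 * S.C * Y := by
    refine (sum_le_sum fun k _ => mul_le_mul_of_nonneg_left (Vr_le4 H.G k) (H.G.dz_nonneg k)).trans ?_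
    rw [← sum_mul, sum_dz H.G.toLeg (by rw [H.eN]; omega), H.G.zN, H.ez]
    linarith
  have e : Icc (S.J / 2) N.N = Ico (S.J / 2) ke ∪ Ioc (ke - 1) N.N := by
    ext k; simp only [mem_Icc, mem_union, mem_Ico, mem_Ioc, H.eN]; omega
  rw [e]
  refine (sum_union_inter.symm.ge.trans' (le_add_of_nonneg_right (sum_nonneg fun k _ => p k))).trans
    (add_le_add (s1.trans (le_of_eq (by ring))) s2)

end HV

theorem Phi_tri (G : Lg N m a) (c c' : ℕ → ℝ) (T : Finset ℕ) : Phi N m a c T ≤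
    2 * Phi N m a c' T + 2 * ∑ k ∈ T, N.dz m a k * (c k - c' k) ^ 2 := by
  rw [Phi, Phi, mul_sum, mul_sum, ← sum_add_distrib]
  refine sum_le_sum fun k _ => ?_
  have : (N.rb m a k - c k) ^ 2 ≤ 2 * (N.rb m a k - c' k) ^ 2 + 2 * (c k - c' k) ^ 2 := by
    nlinarith [sq_nonneg (N.rb m a k - c' k + (c k - c' k))]
  nlinarith [mul_le_mul_of_nonneg_left this (G.dz_nonneg k)]

theorem fin_arith {K C lg lam L Y Φ : ℝ} (hK : 20000 * K ^ 6 ≤ lam) (K1 : 1 ≤ K) (hC : 16 * C ≤ lam)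
    (l0 : 0 ≤ lg) (l1 : lg ≤ lam) (L1 : 1 ≤ L) (Y0 : 0 ≤ Y) (Φ0 : 0 ≤ Φ) :
    lam ^ 18 * L ^ 2 * Y + lam ^ 5 * Φ / L + (5 * K * lg * (4000 * K ^ 5 * (lam ^ 5) ^ 2 * L ^ 2 * Y +
      26 * K * (2 * Φ + 2 * Y) / L) + 16 * C * Y) ≤ lam ^ 19 * L ^ 3 * Y + lam ^ 6 * Φ / L := by
  have k2 : K ^ 2 ≤ K ^ 6 := pow_le_pow_right₀ K1 (by norm_num)
  have k6 : 1 ≤ K ^ 6 := one_le_pow₀ K1
  have m4 : 4 ≤ lam := by linarith
  have m1 : 1 ≤ lam := by linarith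
  have p0 : 0 ≤ Φ / L := by positivity
  have y1 : Y / L ≤ Y := div_le_self Y0 L1
  have y0 : 0 ≤ Y / L := by positivity
  have L3 : 1 ≤ L ^ 3 := one_le_pow₀ L1
  have L2 : L ^ 2 ≤ L ^ 3 := pow_le_pow_right₀ L1 (by norm_num)
  set Z := lam ^ 18 * L ^ 3 * Y with hZ
  have z : ∀ i ≤ 18, lam ^ i * 1 * Y ≤ Z := fun i hi => by rw [hZ]; gcongr
  have a1 : lam ^ 18 * L ^ 2 * Y ≤ Z := by rw [hZ]; gcongr
  have a2 : 20000 * K ^ 6 * lg * lam ^ 10 * L ^ 2 * Y ≤ Z := by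
    calc _ ≤ lam * lam * lam ^ 10 * L ^ 3 * Y := by gcongr
      _ = lam ^ 12 * L ^ 3 * Y := by ring
      _ ≤ _ := by rw [hZ]; gcongr; norm_num
  have a3 : 260 * K ^ 2 * lg ≤ lam ^ 2 := by
    rw [sq lam]; exact mul_le_mul (by linarith) l1 l0 (by linarith)
  have a4 : 260 * K ^ 2 * lg * (Y / L) ≤ Z :=
    (mul_le_mul a3 y1 y0 (by positivity)).trans (by simpa using z 2 (by norm_num))
  have a5 : 260 * K ^ 2 * lg * (Φ / L) ≤ lam ^ 5 * (Φ / L) :=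
    mul_le_mul_of_nonneg_right (a3.trans (pow_le_pow_right₀ m1 (by norm_num))) p0
  have a6 : 16 * C * Y ≤ Z :=
    (mul_le_mul_of_nonneg_right hC Y0).trans (by simpa using z 1 (by norm_num))
  have a7 : 4 * Z ≤ lam * Z := mul_le_mul_of_nonneg_right m4 (by positivity)
  have a8 : 2 * (lam ^ 5 * (Φ / L)) ≤ lam * (lam ^ 5 * (Φ / L)) :=
    mul_le_mul_of_nonneg_right (by linarith) (by positivity)
  have e1 : 5 * K * lg * (4000 * K ^ 5 * (lam ^ 5) ^ 2 * L ^ 2 * Y + 26 * K * (2 * Φ + 2 * Y) / L) =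
      20000 * K ^ 6 * lg * lam ^ 10 * L ^ 2 * Y + 260 * K ^ 2 * lg * (Φ / L) +
        260 * K ^ 2 * lg * (Y / L) := by ring
  have e2 : lam ^ 19 * L ^ 3 * Y + lam ^ 6 * Φ / L = lam * Z + lam * (lam ^ 5 * (Φ / L)) := by
    rw [hZ]; ring
  rw [e1, e2, mul_div_assoc]
  linarith

/-- **(VAR) at a fixed size**, pair form -/
theorem var_pair {lam : ℝ} (H : HV E L S M N m a l lm Y) (P : Pair S M N m a lam) (hE : lam ≤ E)
    (hK : 20000 * K2 S.C (900 * S.C ^ 9) ^ 6 ≤ lam) (hl : log S.n ≤ lam) :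
    Gu71.Fl N m a S.jl ≤ lam ^ 19 * L ^ 3 * Y + lam ^ 6 * Phi N m a M.q (Ioc S.jl S.Jp) / L := by
  have C1 := H.F.C1
  have J := H.J16
  have j4 := H.j4
  have i3 := H.F.i3
  have i4 := H.F.i4
  have K1 : 1 ≤ K2 S.C (900 * S.C ^ 9) := by
    have a1 := one_le_pow₀ (n := 3) (show 1 ≤ 30 * S.C ^ 5 by linarith [one_le_pow₀ (n := 5) C1])
    have a2 := one_le_pow₀ (n := 4) (one_le_mul_of_one_le_of_one_le C1
      (show 1 ≤ 900 * S.C ^ 9 by linarith [one_le_pow₀ (n := 9) C1]))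
    rw [K2]
    nlinarith
  have a1 := P.below (lev_of H.F.toCl H.V (by linarith [P.l1000]) hE H.L1 H.LE) le_rfl
  have a0 : ∑ k ∈ Ioc S.jl S.Jp, N.dz m a k * (M.ck k - M.q k) ^ 2 ≤ Y :=
    le_of_eq_of_le (sum_congr rfl fun k hk => by
      rw [P.dz_eq (Nat.zero_lt_of_lt (mem_Ioc.1 hk).1)]; rfl) H.V.ck
  have a2 := H.top (P.lg_log (by omega) le_rfl) ((Phi_tri H.G M.ck M.q _).trans
    (add_le_add_right (mul_le_mul_of_nonneg_left a0 zero_le_two) _))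
  have e : Ioc S.jl N.N = Ioo S.jl (S.J / 2) ∪ Icc (S.J / 2) N.N := by
    ext k; simp only [mem_Icc, mem_union, mem_Ioo, mem_Ioc, H.eN]; omega
  have a3 := fin_arith hK K1 (show 16 * S.C ≤ lam by linarith [P.Cp (i := 1) (by norm_num)])
    (log_nonneg H.F.n1) hl H.L1 H.Y0.le (Phi_nonneg (c := M.q) H.G (Ioc S.jl S.Jp))
  rw [Gu71.Fl, e, sum_union (disjoint_left.2 fun k h h' => by
    simp only [mem_Icc, mem_Ioo] at h h'; omega)]
  simp only [Vr] at a1 a2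
  linarith

/-- **(VAR)** -/
theorem varS : VarS := by
  intro C
  filter_upwards [eventually_ge_atTop 3] with A hA ε hε _ _
  have hη : 0 < min (ε / 19) (1 / 30) := lt_min (by positivity) (by norm_num)
  filter_upwards [ev_rgc C (by omega : 2 ≤ A) hη (1000 * C ^ 6),
    Pre29.ev_K (20000 * K2 C (900 * C ^ 9) ^ 6) hη,
    tendsto_natCast_atTop_atTop.eventually_ge_atTop (10 ^ 10 * C ^ 26),
    Pre29.ev_K ((12 * C ^ 4) ^ 3) (show (0 : ℝ) < 1 / 10 by norm_num)]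
    with n h1 h2 h3 h4 S M e1 e2 e3 h m a I l lm Y V L u F L1 L2 _ hu h0 hF
  have R := h1 S e1 e2 e3
  subst e1 e2 e3
  have n1 : (1 : ℝ) ≤ S.n := R.N1.le
  have P := pair_of R (by linarith [min_le_right (ε / 19) (1 / 30)]) h I hu h0 hF
  set lam := (S.n : ℝ) ^ min (ε / 19) (1 / 30) with hlam
  have E1 : 1 ≤ (S.n : ℝ) ^ ε := one_le_rpow n1 hε.le
  have l19 : lam ^ 19 ≤ (S.n : ℝ) ^ ε := by
    rw [hlam, ← rpow_natCast, ← rpow_mul R.N0.le]
    exact rpow_le_rpow_of_exponent_le n1 (by push_cast; linarith [min_le_left (ε / 19) (1 / 30)])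
  have l1 : 1 ≤ lam := R.Λ1
  have H : HV ((S.n : ℝ) ^ ε) L S M (Gu71.sh M u F) m a l lm Y :=
    ⟨P.fn, V, P.lg, rfl, rfl, fun j => by
      have := hF (Nat.le_succ j)
      simp only [Gu71.sh]
      linarith, E1, L1, L2, hA, h3, by
      rw [neg_div, rpow_neg R.N0.le, mul_inv_le_iff₀ (R.rp0 _), one_mul]; exact h4⟩
  have key := var_pair H P ((le_self_pow₀ l1 (by norm_num)).trans l19) h2 R.log_le
  rw [Phi_sh (lg_cl h (by have := R.n3; omega) I)] at key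
  have Φ0 : 0 ≤ (Gu71.sh M u F).Phi S m a := by
    rw [← Phi_sh (lg_cl h (by have := R.n3; omega) I)]; exact Phi_nonneg P.lg _
  have Y0 := H.Y0
  refine key.trans (add_le_add ?_ ?_)
  · have := l19.trans (le_self_pow₀ E1 (show 4 ≠ 0 by norm_num))
    gcongr
  · have := (pow_le_pow_right₀ l1 (show 6 ≤ 19 by norm_num)).trans l19
    gcongr

end Crest.Agent.T156.Alt.V17

end
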