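import Crest.Agent.T156.SrPA_66
import Crest.Agent.T156.SrH_66
import Crest.Agent.T156.SRDef2_19
import Crest.Agent.T156.SrW_17
import Crest.Agent.T156.PlX_13
import Crest.Agent.T156.ClReg_29

/-!
# Row 156: `SH`, `VH`, `SX` and the output of SR on the graded path and its switches (helper66)
-/

set_option autoImplicit false
set_option linter.unusedSectionVars false

noncomputable section

namespace Crest.Agent.T156.Alt

open Real Set Filter Topology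
open Plt13 Mem37 Pre29

namespace Sp66

theorem dt_lo {V l u : ℝ} (hV : 0 < V) (hl : 0 < l) (hu : 0 < u) :
    min l (V * √u) / 4 ≤ dt V l u * (u * √u) := by
  have s := sqrt_pos.2 hu
  have e : dt V l u * (u * √u) = l * (V * √u) / (2 * (V * √u + l)) := by unfold dt; field_simp
  have b : 0 < V * √u := by positivity
  rw [e, div_le_div_iff₀ (by norm_num) (by positivity)]
  rcases le_total l (V * √u) with h | h
  · rw [min_eq_left h]; nlinarith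
  · rw [min_eq_right h]; nlinarith

theorem dt_hi {V l u : ℝ} (hV : 0 < V) (hl : 0 < l) (hu : 0 < u) : dt V l u ≤ V / (2 * u) := by
  have s := sqrt_pos.2 hu
  unfold dt
  rw [div_le_div_iff₀ (by positivity) (by positivity)]
  nlinarith [mul_pos (mul_pos hV hu) (mul_pos hV s)]

theorem dt_mono {V l u u' : ℝ} (hV : 0 < V) (hl : 0 < l) (hu : 0 < u') (h : u' ≤ u) :
    dt V l u ≤ dt V l u' := by
  have s := sqrt_pos.2 hu
  have := hu.trans_le h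
  unfold dt
  gcongr

theorem ft_sq {V l u : ℝ} (hV : 0 < V) (hl : 0 < l) (hu : 0 < u) :
    ft V l u ≤ 2 * √(V * (l / √u)) := by
  have s := sqrt_pos.2 hu
  have y : 0 < l / (V * √u) := by positivity
  have a : log (1 + l / (V * √u)) ≤ log ((1 + √(l / (V * √u))) ^ 2) :=
    log_le_log (by positivity) (by nlinarith [sq_sqrt y.le, sqrt_nonneg (l / (V * √u))])
  have b := log_le_sub_one_of_pos (x := 1 + √(l / (V * √u))) (by positivity)
  have e : √(V * (l / √u)) = V * √(l / (V * √u)) := by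
    rw [show V * (l / √u) = V ^ 2 * (l / (V * √u)) by field_simp, sqrt_mul (sq_nonneg _),
      sqrt_sq hV.le]
  rw [log_pow] at a
  push_cast at a
  unfold ft
  rw [e]
  nlinarith

variable {p : Pm} {μ x : ℝ} (h : Nm p μ)
include h

theorem db_xs : db (p.la μ) (u0 p μ) = 1 / 2 := by
  have a := h.fb_u0
  have b := h.u0p
  have s := sqrt_pos.2 b
  unfold fb at a
  rw [div_eq_iff s.ne'] at a
  rw [db, a]; field_simp

theorem db_le (h0 : p.xs ≤ x) : db (p.la μ) (x - p.xs + u0 p μ) ≤ 1 / 2 := by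
  have b := h.u0p
  have l := h.lp
  have e : u0 p μ ≤ x - p.xs + u0 p μ := by linarith
  rw [← db_xs h]
  unfold db
  gcongr

theorem dn_far {x' : ℝ} (h0 : p.xs ≤ x) (h1 : x ≤ x') (h2 : x' < 1) :
    dn p μ x ≤ 1 + dn p μ x' := by
  have a := db_le h h0
  have b := db_pos h.lp (show 0 < x' - p.xs + u0 p μ by linarith [h.u0p])
  have c := dt_mono h.Vp h.lp (show 0 < 1 - x' by linarith) (show 1 - x' ≤ 1 - x by linarith)
  have d := dt_mono one_pos h.sp (show 0 < 1 - x' by linarith) (show 1 - x' ≤ 1 - x by linarith)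
  unfold dn
  rw [den_eq h0 (by linarith), den_eq (h0.trans h1) h2]
  linarith

theorem dn_up (h0 : p.xs ≤ x) (h1 : x < 1) : dn p μ x ≤ 2 / (1 - x) := by
  have u : 0 < 1 - x := by linarith
  have a := db_le h h0
  have b := (dt_hi h.Vp h.lp u).trans (div_le_div_of_nonneg_right h.V1 (by positivity))
  have c := dt_hi one_pos h.sp u
  have d : 1 ≤ 1 / (1 - x) := (one_le_div u).2 (by linarith [h.x0])
  have e : 1 / (2 * (1 - x)) = 1 / (1 - x) / 2 := by field_simp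
  unfold dn
  rw [den_eq h0 h1, show 2 / (1 - x) = 2 * (1 / (1 - x)) by ring]
  linarith

theorem env_le (h0 : p.xs ≤ x) (h1 : x < 1) : env p μ x ≤
    u0 p μ + 2 * √(p.Vc μ * (p.la μ / √(1 - x))) + √(p.u2 μ) / √(1 - x) := by
  have a : fb (p.la μ) (x - p.xs + u0 p μ) ≤ u0 p μ := by
    refine le_trans ?_ h.fb_u0.le
    exact div_le_div_of_nonneg_left h.lp.le (sqrt_pos.2 h.u0p) (sqrt_le_sqrt (by linarith))
  have b := ft_sq h.Vp h.lp (show 0 < 1 - x by linarith)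
  have c := ft_le one_pos h.sp.le (1 - x)
  unfold env
  linarith

theorem dn_ge (h0 : p.xs ≤ x) (h1 : x < 1) : db (p.la μ) (x - p.xs + u0 p μ) ≤ dn p μ x ∧
    dt (p.Vc μ) (p.la μ) (1 - x) ≤ dn p μ x ∧ dt 1 (√(p.u2 μ)) (1 - x) ≤ dn p μ x := by
  have a := db_pos h.lp (show 0 < x - p.xs + u0 p μ by linarith [h.u0p])
  have b := dt_nn h.Vp h.lp.le (u := 1 - x) (by linarith)
  have c := dt_nn one_pos h.sp.le (u := 1 - x) (by linarith)
  unfold dn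
  rw [den_eq h0 h1]
  exact ⟨by linarith, by linarith, by linarith⟩

theorem dn_top (h0 : p.xs ≤ x) (h1 : x < 1) : p.la μ / 4 ≤ dn p μ x * (1 - x) := by
  have u : 0 < 1 - x := by linarith
  have s := sqrt_pos.2 u
  have s1 : √(1 - x) ≤ 1 := sqrt_le_one.2 (by linarith [h.x0])
  have a := dt_lo h.Vp h.lp u
  have b : p.la μ * √(1 - x) ≤ min (p.la μ) (p.Vc μ * √(1 - x)) :=
    le_min (mul_le_of_le_one_right h.lp.le s1) (mul_le_mul_of_nonneg_right h.lV s.le)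
  have c := mul_le_mul_of_nonneg_right (dn_ge h h0 h1).2.1 (mul_pos u s).le
  exact le_of_mul_le_mul_right (by linarith) s

theorem dn_min (h0 : p.xs ≤ x) (h1 : x < 1) :
    p.la μ / 4 ≤ dn p μ x * min (x - p.xs + u0 p μ) (1 - x) := by
  rcases min_choice (x - p.xs + u0 p μ) (1 - x) with e | e <;> rw [e]
  · have A : 0 < x - p.xs + u0 p μ := by linarith [h.u0p]
    have s := sqrt_pos.2 A
    have s2 : √(x - p.xs + u0 p μ) ≤ 2 := by
      rw [sqrt_le_left (by norm_num)]; linarith [h.u0_le, h.x0]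
    refine le_trans ?_ (mul_le_mul_of_nonneg_right (dn_ge h h0 h1).1 A.le)
    have e : db (p.la μ) (x - p.xs + u0 p μ) * (x - p.xs + u0 p μ) =
        p.la μ / (2 * √(x - p.xs + u0 p μ)) := by unfold db; field_simp
    rw [e]
    exact div_le_div_of_nonneg_left h.lp.le (by positivity) (by linarith)
  · exact dn_top h h0 h1

theorem dn_end (h0 : p.xs ≤ x) (h1 : x < 1) :
    min (√(p.u2 μ)) (√(1 - x)) / 4 ≤ dn p μ x * ((1 - x) * √(1 - x)) := by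
  have u : 0 < 1 - x := by linarith
  have a := dt_lo one_pos h.sp u
  rw [one_mul] at a
  exact a.trans (mul_le_mul_of_nonneg_right (dn_ge h h0 h1).2.2 (mul_pos u (sqrt_pos.2 u)).le)

theorem dn_cube (h0 : p.xs ≤ x) (h1 : x < 1) :
    (p.la μ / 4) ^ 2 ≤ dn p μ x ^ 2 * (x - p.xs + u0 p μ) ^ 3 := by
  have A : 0 < x - p.xs + u0 p μ := by linarith [h.u0p]
  have s := sqrt_pos.2 A
  have a := pow_le_pow_left₀ (db_pos h.lp A).le (dn_ge h h0 h1).1 2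
  have e : db (p.la μ) (x - p.xs + u0 p μ) ^ 2 * (x - p.xs + u0 p μ) ^ 3 = (p.la μ / 2) ^ 2 := by
    unfold db
    rw [div_pow, mul_pow, mul_pow, sq_sqrt A.le]; field_simp
  have := mul_le_mul_of_nonneg_right a (pow_pos A 3).le
  nlinarith [sq_nonneg (p.la μ)]

theorem dn_xs {K : ℝ} (K0 : 0 < K) (hx : p.xs ≤ 1 - 1 / K) :
    1 / 2 ≤ dn p μ p.xs ∧ dn p μ p.xs ≤ 1 / 2 + K := by
  have u : 0 < 1 - p.xs := by linarith [h.xs1]
  have e : db (p.la μ) (p.xs - p.xs + u0 p μ) = 1 / 2 := by rw [sub_self, zero_add, db_xs h]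
  refine ⟨e ▸ (dn_ge h le_rfl h.xs1).1, ?_⟩
  have a := dt_hi h.Vp h.lp u
  have b := dt_hi one_pos h.sp u
  have c : 1 / (2 * (1 - p.xs)) ≤ K / 2 := by
    rw [div_le_div_iff₀ (by positivity) two_pos]
    have := mul_le_mul_of_nonneg_left (show 1 / K ≤ 1 - p.xs by linarith) K0.le
    rw [mul_one_div_cancel K0.ne'] at this
    linarith
  have d : p.Vc μ / (2 * (1 - p.xs)) ≤ 1 / (2 * (1 - p.xs)) :=
    div_le_div_of_nonneg_right h.V1 (by positivity)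
  unfold dn
  rw [den_eq le_rfl h.xs1, e]
  linarith

end Sp66

open Sp66

/-- the scale of `scG` with an explicit bound `g2` -/
def Pm.g2H (p : Pm) (K σ σ' : ℝ) : ℝ :=
  5 * (406 + 8 * K) * (p.muG σ' ^ 2 * (p.laG σ ^ 2 * log p.n))
def Pm.scH (p : Pm) (K σ σ' : ℝ) (Q : Pl) : Sc :=
  p.scl Q (p.omG σ') (8 * K ^ 2) p.jf (p.msG σ') (dn p (p.mt (p.muG σ))) (p.g2H K σ σ')
    (u0 p (p.mt (p.muG σ))) ((p.n : ℝ) ^ (-(2 : ℝ)))

/-- all that is used about one member -/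
structure Gd66 (β c0 C0 : ℝ) (A : ℕ) (c η K' ε K c0' C0' η' : ℝ) (p : Pm) (σ σ' : ℝ) (Q : Pl) :
    Prop where
  R : Reg β c0 C0 A c η K' p
  O : p.OctR σ σ'
  D : GrD K c0' C0' η' p σ σ' Q
  X : p.PlX σ σ' Q
  hη : 100 * η ≤ ε
  hε : 1000 * ε ≤ c
  hc : c ≤ 1 / 1000
  A4 : 4 ≤ A
  CK : 8 * K ^ 2 ≤ (p.n : ℝ) ^ η
  BK : 5 * (406 + 8 * K) ≤ (p.n : ℝ) ^ η
  b1 : 1 + 2 / (p.n : ℝ) ^ η ≤ p.bG σ'

namespace Gd66

variable {β c0 C0 : ℝ} {A : ℕ} {c η K' ε K c0' C0' η' : ℝ} {p : Pm} {σ σ' : ℝ} {Q : Pl}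
  (G : Gd66 β c0 C0 A c η K' ε K c0' C0' η' p σ σ' Q) {E Y : ℝ}
include G

theorem xk : XK K (p.muG σ') (p.mt (p.muG σ)) p Q := xk_of G.R G.O G.D G.X
theorem M0 : p.MemG σ := (Gr29.oct_mem G.O).1
theorem M : p.MemG σ' := (Gr29.oct_mem G.O).2
theorem C1 : 1 ≤ 8 * K ^ 2 := by nlinarith [G.D.nb.K1]
theorem B0 : 0 < 5 * (406 + 8 * K) := by linarith [G.D.nb.K1]

theorem md : MemD K c0' C0' η' (2 * p.ye) p Q (p.omG σ') p.jf (p.bG σ') 0 (p.msG σ')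
    (dn p (p.mt (p.muG σ))) (p.g2H K σ σ') (u0 p (p.mt (p.muG σ))) ((p.n : ℝ) ^ (-(2 : ℝ))) :=
  { G.D.memD with Gtp := G.D.memD.Gtp.trans G.xk.g2 }

theorem sj : p.rj / 2 ≤ p.sO Q (p.omG σ') p.jf ∧ p.sO Q (p.omG σ') p.jf ≤ 3 * p.rj := by
  have h := G.D.memD
  have H := G.R
  obtain ⟨a, b⟩ := h.geo.s_inc (Nat.zero_le p.jf) (by have := h.jlJ; omega)
  obtain ⟨d, e⟩ := H.jf_bds
  rw [h.geo.sP_zero] at a b
  rw [← H.hc] at d e
  have f : p.v ≤ p.rj := H.le_of_lg H.v0 H.rj0 (by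
    have : (4 : ℝ) ≤ A := by exact_mod_cast G.A4
    rw [H.lg_v, H.lg_rj]; linarith [H.lg_β.2, H.lg_s.1, H.η_le, H.c_le, H.c_pos])
  unfold Pm.rj at *
  push_cast at a b
  constructor <;> linarith

theorem la_sq : 5 * (406 + 8 * K) * (p.laG σ ^ 2 * log p.n) ≤ p.Y0G ε σ' := by
  have H := G.R
  have b3 := (H.lg_low G.O (H.rp0 ε)).2.2.1
  have l := H.laG0 G.M0
  have g : 0 < log (p.n : ℝ) := by linarith [H.log1]
  have B := G.B0
  have B1 := H.lg_le B G.BK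
  generalize 5 * (406 + 8 * K) = B' at *
  refine H.le_of_lg (by positivity) (H.Y0G0 G.M) ?_
  lg_norm; rw [H.lg_Y0G G.M]; linarith [H.lg_log.2, G.hη, H.η_pos]

/-- the numbers of `SH` -/
theorem shN (E1 : (p.n : ℝ) ^ (2 * η) ≤ E) (E2 : E ≤ (p.n : ℝ) ^ (ε / 100)) (Y1 : p.Y0G ε σ' ≤ Y)
    (Y2 : Y ≤ (p.n : ℝ) ^ ε * p.PhG ((p.n : ℝ) ^ ε) σ') :
    ShN E (8 * K ^ 2) p Q (p.sO Q (p.omG σ') p.jf) (p.bG σ') (p.msG σ') (dn p (p.mt (p.muG σ)))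
      (p.g2H K σ σ') (u0 p (p.mt (p.muG σ))) ((p.n : ℝ) ^ (-(2 : ℝ))) (p.lSR ε σ')
      (p.YsG ε σ' (8 * K ^ 2)) Y := by
  have H := G.R
  have X := G.xk
  have η0 := H.η_pos
  have c0 := H.c_pos
  have hη := G.hη
  have hε := G.hε
  have n0 := H.N0
  have K1 := G.D.nb.K1
  have C1 := G.C1
  have E0 : 0 < E := (H.rp0 _).trans_le E1
  have e1 := H.lg_mono (H.rp0 _) E1
  have e2 := (H.lg_mono E0 E2).trans_eq (H.lg_rp _)
  rw [H.lg_rp] at e1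
  have Λ : (p.n : ℝ) ^ η ≤ E := (rp_le H.n1 (by linarith)).trans E1
  have y0 := H.Y0G0 (ε := ε) G.M
  have Y0 := y0.trans_le Y1
  obtain ⟨s1, s2⟩ := G.sj
  obtain ⟨s0, s3, s4⟩ := H.lg_sj s1 s2
  obtain ⟨p1, p2⟩ := H.lg_PhG_bds (by linarith) hε G.M (H.E1G hη hε) le_rfl
  have yl : (p.n : ℝ) ^ (-(1 : ℝ) / 2) ≤ Y := le_trans (H.le_of_lg (H.rp0 _) y0 (by
    rw [H.lg_rp, H.lg_Y0G G.M]; linarith)) Y1
  have θ := H.muG_pos G.M
  have g : 0 < log (p.n : ℝ) := by linarith [H.log1]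
  have A4 : (4 : ℝ) ≤ A := by exact_mod_cast G.A4
  have v := H.v0
  have la := G.la_sq
  have l2 := pow_pos (H.laG0 G.M0) 2
  have n2 : (p.n : ℝ) ^ (-(2 : ℝ)) = 1 / (p.n : ℝ) ^ 2 := by rw [rpow_neg n0.le]; norm_num
  refine
    { b1 := le_trans (by have := H.Λ0; gcongr) G.b1, th1 := ?_
      flat := by rw [X.g0]; simpa using Y0.le
      mesh := fun i hi => (X.mesh i hi).trans ?_, last := n2 ▸ X.e2
      dj := (dn_xs X.nm (by linarith) G.D.sl.atom.2).2.trans (by nlinarith)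
      u0 := ⟨X.nm.u0p, ?_⟩, ue := (rp_le H.n1 (by norm_num)).trans yl, ckT := ?_
      ck := X.r2.trans (la.trans Y1), g2 := ?_, rt := ?_
      jl := (H.sj_lt_l G.O hη hε s1 s2).le, l3 := (H.lSR_cube G.M).trans_le Y1
      lY := H.sj_le_Ys G.O hη hε s1 s2 (by linarith)
      star := fun t a b => H.star66 G.O hη hε E0 E2 a b, Y0 := yl, Y1 := ?_
      Y2 := (H.Y2_66 G.O hη hε (by linarith)).trans Y1
      Y3 := (H.Y3_66 G.O hη hε (by linarith) s1 s2).trans (pow_le_pow_left₀ y0.le Y1 2)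
      vs := ?_, slo := fun i _ => by
        rw [X.g0, zero_mul, ← X.x0]; exact sub_nonneg.2 (X.xm.monotone (Nat.zero_le i)) }
  · rw [H.msG_one]
    refine H.le_of_lg (by positivity) one_pos ?_
    lg_norm; linarith [H.lg_two.2, H.lg_log.2, (H.lg_muG' G.M).2]
  · refine H.le_of_lg (by positivity) (by positivity) ?_
    lg_norm; rw [H.lg_n, H.lg_v]
    linarith [(H.lg_num (x := 624) (by norm_num) (by norm_num)).2, H.lg_β.2, G.hc]
  · rw [X.nm.u0_cube]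
    refine le_trans ?_ (la.trans Y1)
    have := le_mul_of_one_le_right l2.le H.log1
    exact this.trans (le_mul_of_one_le_left (by positivity) (by linarith))
  · have a := (abs_le.1 (X.rsL _ le_rfl)).2
    have b : 7 * log (p.n : ℝ) ≤ E := H.le_of_lg (by positivity) E0 (by
      lg_norm; linarith [(H.lg_num (x := 7) (by norm_num) (by norm_num)).2, H.lg_log.2])
    linarith [H.log1]
  · rw [H.msG_one]
    have a := mul_le_mul_of_nonneg_left (la.trans Y1) (sq_nonneg (p.muG σ'))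
    have b := le_mul_of_one_le_left (mul_pos (pow_pos θ 2) Y0).le (H.Λ1.trans Λ)
    unfold Pm.g2H
    linarith
  · refine H.le_of_lg (by positivity) s0 ?_
    lg_norm; rw [H.lg_n]; linarith [H.lg_s.1]
  · have a := H.lg_mono Y0 Y2
    rw [logb_mul (H.rp0 _).ne' (H.PhG0 G.M (H.rp0 _)).ne', H.lg_rp] at a
    refine H.le_of_lg (by positivity) (H.rp0 _) ?_
    lg_norm; rw [H.lg_n]; linarith
  · have a := H.lg_le (by linarith) G.CK
    generalize 8 * K ^ 2 = C at *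
    have C0 : 0 < C := by linarith
    refine H.le_of_lg (by positivity) s0 ?_
    lg_norm; rw [H.lg_n, H.lg_v]; linarith [H.lg_s.1, H.lg_β.2, G.hc]

/-- the numbers of `VH` -/
theorem vhN (E0 : 0 < E) (E2 : E ≤ (p.n : ℝ) ^ (ε / 100)) :
    VhN E (8 * K ^ 2) p (p.msG σ') (dn p (p.mt (p.muG σ))) (u0 p (p.mt (p.muG σ))) (p.lSR ε σ')
      (p.laG σ / 4) (p.Y0G ε σ') :=
  have H := G.R
  { wl := H.wl66 G.O G.hη G.hε E0 E2
    bas := fun _ a b => H.bas66 G.O G.hη G.hε (by linarith [G.C1]) G.CK a b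
    lm0 := by linarith [H.laG0 G.M0]
    w1 := H.msG_one σ' ▸ (H.w1_66 G.O G.hη G.hε).1
    dn := fun _ a b => dn_min G.xk.nm a (by linarith [H.Y0G0 (ε := ε) G.M])
    dj := le_trans (one_div_le_one_div_of_le two_pos (by nlinarith [G.D.nb.K1]))
      (dn_xs G.xk.nm (by linarith [G.D.nb.K1]) G.D.sl.atom.2).1 }

theorem sh (E1 : (p.n : ℝ) ^ (2 * η) ≤ E) (E2 : E ≤ (p.n : ℝ) ^ (ε / 100)) (Y1 : p.Y0G ε σ' ≤ Y)
    (Y2 : Y ≤ (p.n : ℝ) ^ ε * p.PhG ((p.n : ℝ) ^ ε) σ') :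
    Sr.SH E (p.scH K σ σ' Q) (p.gst Q σ') (p.lSR ε σ') (p.YsG ε σ' (8 * K ^ 2)) Y :=
  G.md.sh ⟨G.D.cl.2.up, G.D.cl.2.bot⟩ (G.D.sl.top66 G.D.nb G.D.pl) (G.shN E1 E2 Y1 Y2)

theorem Y0_le : p.Y0G ε σ' ≤ (p.n : ℝ) ^ ε * p.PhG ((p.n : ℝ) ^ ε) σ' :=
  mul_le_mul_of_nonneg_right (rp_le G.R.n1 (by linarith [G.hη, G.R.η_pos]))
    (G.R.PhG0 G.M (G.R.rp0 _)).le

theorem vh (E1 : (p.n : ℝ) ^ (2 * η) ≤ E) (E2 : E ≤ (p.n : ℝ) ^ (ε / 100)) :
    Sr.VH E (p.scH K σ σ' Q) (p.gst Q σ') (p.lSR ε σ') (p.laG σ / 4) (p.Y0G ε σ') :=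
  G.md.vh (G.shN E1 E2 le_rfl G.Y0_le) (G.vhN ((G.R.rp0 _).trans_le E1) E2)

theorem xs_eq : (p.gst Q σ').xs (p.scH K σ σ' Q) = p.xs := G.md.xs66 _

theorem θ_eq : (p.scH K σ σ' Q).θ = p.muG σ' := G.R.msG_one σ'

theorem gr_zero {t : ℝ} (ht : p.sO Q (p.omG σ') p.jf < t) : (p.scH K σ σ' Q).gr t = 0 :=
  if_neg (not_le.2 ht)

/-- the end of the plateau, in exponents -/
theorem lg_end {x : ℝ} (h0 : p.xs ≤ x) (h1 : (p.n : ℝ) ^ (-(1 : ℝ) / 2 - ε) ≤ 1 - x) :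
    0 < 1 - x ∧ -(1 : ℝ) / 2 - ε ≤ logb p.n (1 - x) ∧ -(7 / 12) - c ≤
      logb p.n (max (p.muG σ') ((p.n : ℝ) ^ (-(1 : ℝ) / 3))) +
        logb p.n (dn p (p.mt (p.muG σ)) x) + 3 / 2 * logb p.n (1 - x) := by
  have H := G.R
  have N := G.xk.nm
  have u : 0 < 1 - x := (H.rp0 _).trans_le h1
  have a := H.lg_mono (H.rp0 _) h1
  have s := sqrt_pos.2 u
  have m := lt_min N.sp s
  have d := N.den0 x
  have b := H.lg_mono (by positivity) (dn_end N h0 (by linarith))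
  have e := H.u2_66 G.O G.hη G.hε
  have m2 := H.lg_mono (H.rp0 (-(1 : ℝ) / 3)) (le_max_right (p.muG σ') _)
  rw [H.lg_rp] at a m2
  rw [logb_div m.ne' four_ne_zero, lg_min H.N1 N.sp s, lg_sqrt _ N.u2p.le, logb_mul d.ne'
    (mul_pos u s).ne', logb_mul u.ne' s.ne', lg_sqrt _ u.le] at b
  have f := (H.lg_num (x := 4) (by norm_num) (by norm_num)).2
  have := G.hη; have := G.hε; have := H.η_pos
  refine ⟨u, a, ?_⟩
  rcases min_choice (logb p.n (p.u2 (p.mt (p.muG σ))) / 2) (logb p.n (1 - x) / 2) with k | k <;>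
    linarith

theorem HJ : (p.gst Q σ').H (p.Jp Q) ≤ 1 := by
  have h := G.D.memD
  have H := G.R
  have K1 := h.K1
  have θ := H.muG_pos G.M
  show p.HO Q (p.omG σ') (p.bG σ' + 0) (p.Jp Q) + 0 ≤ 1
  rw [MemD.H_hi (by have := h.jlJ; have := J_le (p := p) (P := Q); omega), add_zero,
    h.geo.xP_top le_rfl]
  have a := (h.inc le_rfl (h.geo.sP_nn (p.Jp Q)) le_rfl).1.2
  rw [h.mk0, sub_zero, sub_zero] at a
  have b := (abs_le.1 (G.xk.hsL _ le_rfl)).2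
  have d : K * p.msG σ' (p.sO Q (p.omG σ') (p.Jp Q)) * p.sO Q (p.omG σ') (p.Jp Q) ≤
      K * p.muG σ' * (K + 1) := mul_le_mul (mul_le_mul_of_nonneg_left (H.msG_le (H.σ0 G.M) _)
        (by linarith)) h.sT (h.geo.sP_nn _) (by positivity)
  have e := mul_le_mul_of_nonneg_left (show K * (K + 1) ≤ (p.n : ℝ) ^ η by nlinarith [G.CK]) θ.le
  have f := mul_le_mul_of_nonneg_left H.log_le θ.le
  have Λ := H.Λ0
  have g : 7 * (p.muG σ' * (p.n : ℝ) ^ η) ≤ 1 := H.le_of_lg (by positivity) one_pos (by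
    have := H.N0
    lg_norm; rw [H.lg_n]
    linarith [(H.lg_num (x := 7) (by norm_num) (by norm_num)).2, (H.lg_muG' G.M).2, H.η_le, H.c_pos])
  linarith

theorem rev : 1 / (8 * K ^ 2) ≤ (((p.NP Q : ℕ) : ℝ) - (p.Jp Q : ℕ)) * p.v := by
  have H := G.R
  have a : p.A * log p.n / p.v ≤ p.Nr := Nat.le_ceil _
  have A1 : (1 : ℝ) ≤ p.A := by exact_mod_cast G.D.nb.A1
  rw [div_le_iff₀ H.v0] at a
  rw [NP_eq]; push_cast
  have b : 1 / (8 * K ^ 2) ≤ 1 := (div_le_one (by linarith [G.C1])).2 G.C1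
  nlinarith [H.log1]

theorem g6 {t : ℝ} (h3 : p.YsG ε σ' (8 * K ^ 2) ≤ t) (h4 : t ≤ 8 * K ^ 2) :
    t * ((p.n : ℝ) ^ (-(1 : ℝ) / 3)) ^ 2 / (p.n : ℝ) ^ ((1 : ℝ) / 100) ≤
      p.msG σ' t * p.Y0G ε σ' := by
  have H := G.R
  have M := G.M
  obtain ⟨a, b⟩ := H.above G.O G.hη G.hε h3 h4
  have b1 := (H.lg_low G.O (H.rp0 ε)).1
  have y := H.Y0G0 (ε := ε) M
  have y0 := H.yG0 (σ := σ') (H.rp0 ε)
  have t0 := y0.trans_le b
  have m := H.msG_pos M t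
  have m1 := (H.lg_msG66 M t).1
  obtain ⟨y1, y2, -, -⟩ := H.lg_yS M (H.rp0 ε)
  have u0 := (H.lg_yG M (H.rp0 ε)).1.1.trans (H.lg_mono y0 b)
  have u := (H.lg_mono t0 h4).trans (H.lg_le (by linarith [G.C1]) G.CK)
  rw [H.lg_flat M (H.rp0 ε), not_le] at a
  rw [H.lg_rp] at y1 y2 a
  have := H.η_pos; have := H.N0; have := G.hη; have := G.hε; have := G.hc
  refine H.le_of_lg (by positivity) (by positivity) ?_
  lg_norm; rw [H.lg_Y0G M, H.lg_n]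
  rcases H.lg_Tc_cases (σ := σ') t0 with ⟨t1, t2⟩ | ⟨t1, t2, t3⟩ | ⟨t1, t2, -⟩ <;>
    rcases m1 with m1 | m1 <;> linarith

/-- the static scales in exponents; `W = lg (mt μ) + 1/3`, `X = lg max(θ, ν)` -/
theorem tab : ∃ W : ℝ, -(1 / 3) - 2 * c ≤ W ∧
    0 ≤ logb p.n (max (p.muG σ') ((p.n : ℝ) ^ (-(1 : ℝ) / 3))) + 1 / 3 ∧
    logb p.n (p.muG σ') ≤ logb p.n (max (p.muG σ') ((p.n : ℝ) ^ (-(1 : ℝ) / 3))) ∧
    logb p.n (max (p.muG σ') ((p.n : ℝ) ^ (-(1 : ℝ) / 3))) ≤ -(7 * c) ∧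
    ((W ≤ 0 ∧ logb p.n (max (p.muG σ') ((p.n : ℝ) ^ (-(1 : ℝ) / 3))) + 1 / 3 ≤ η ∧
      logb p.n (p.laG σ) = -(1 / 6) - c / 2 - W / 3 ∧
      logb p.n (p.Vc (p.mt (p.muG σ))) = -(1 / 6) + 3 * c / 4 - W / 3 ∧
      logb p.n (p.u2 (p.mt (p.muG σ))) = -(1 / 2) - c / 4 - 2 * W / 3) ∨
    (W ≤ logb p.n (max (p.muG σ') ((p.n : ℝ) ^ (-(1 : ℝ) / 3))) + 1 / 3 ∧
      logb p.n (max (p.muG σ') ((p.n : ℝ) ^ (-(1 : ℝ) / 3))) + 1 / 3 ≤ W + η ∧ 0 ≤ W ∧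
      logb p.n (p.laG σ) = -(1 / 6) - c / 2 - W / 2 ∧
      logb p.n (p.Vc (p.mt (p.muG σ))) = -(1 / 6) + 3 * c / 4 ∧
      logb p.n (p.u2 (p.mt (p.muG σ))) = -(1 / 2) - c / 4 - W)) := by
  have H := G.R
  have θ := H.muG_pos G.M
  have μ := H.mt0 (H.muG_pos G.M0)
  obtain ⟨-, o1, o2⟩ := H.lg_la_oct G.O
  have a := (H.lg_mt (H.muG_pos G.M0)).le.trans (min_le_right _ _)
  have b := (H.lg_mt' (H.muG_pos G.M0)).1
  have d := (H.lg_muG' G.M0).1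
  have e := (H.lg_muG' G.M).2
  have := H.c_pos; have := H.η_pos; have := G.hc
  rw [lg_max H.N1 θ (H.rp0 _), H.lg_rp, Pm.laG, H.lg_la μ, H.lg_u2 μ, H.lg_Vc μ]
  have m1 := le_max_left (logb p.n (p.muG σ')) (-(1 : ℝ) / 3)
  have m2 := le_max_right (logb p.n (p.muG σ')) (-(1 : ℝ) / 3)
  refine ⟨logb p.n (p.mt (p.muG σ)) + 1 / 3, by linarith, by linarith, m1,
    max_le e (by linarith), ?_⟩
  rcases le_total (logb p.n (p.mt (p.muG σ)) + 1 / 3) 0 with k | k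
  · rw [min_eq_left (by linarith), max_eq_right (a := 0) (by linarith)]
    refine .inl ⟨k, ?_, by ring, by ring, by ring⟩
    rcases max_choice (logb p.n (p.muG σ')) (-(1 : ℝ) / 3) with j | j <;> linarith
  · rw [min_eq_right (by linarith), max_eq_left (a := 0) (by linarith)]
    refine .inr ⟨?_, ?_, k, by ring, by ring, by ring⟩
    · rcases le_max_iff.1 a with j | j <;> linarith
    · rcases max_choice (logb p.n (p.muG σ')) (-(1 : ℝ) / 3) with j | j <;> linarith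

theorem d0 : (p.n : ℝ) ^ ((1 : ℝ) / 7) ≤ p.n * max (p.muG σ') ((p.n : ℝ) ^ (-(1 : ℝ) / 3)) *
      (p.laG σ / 4 * p.laG σ ^ ((2 : ℝ) / 3)) ∧ (p.n : ℝ) ^ (-(18 : ℝ) / 25) ≤
      (p.laG σ / 4) ^ 2 * max (p.muG σ') ((p.n : ℝ) ^ (-(1 : ℝ) / 3)) := by
  have H := G.R
  have l := H.laG0 G.M0
  have mx := (H.muG_pos G.M).trans_le (le_max_left _ ((p.n : ℝ) ^ (-(1 : ℝ) / 3)))
  obtain ⟨W, a, b, -, -, t⟩ := G.tab
  have d := (H.lg_num (x := 4) (by norm_num) (by norm_num)).2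
  have := H.N0; have := G.hc; have := H.η_le
  generalize max (p.muG σ') ((p.n : ℝ) ^ (-(1 : ℝ) / 3)) = X at *
  constructor <;> refine H.le_of_lg (by positivity) (by positivity) ?_ <;> lg_norm <;>
    rw [H.lg_n] <;> rcases t with ⟨t1, t2, t3, -⟩ | ⟨t1, t2, t3, t4, -⟩ <;> linarith

theorem w4 : 1 ≤ p.n * max (p.muG σ') ((p.n : ℝ) ^ (-(1 : ℝ) / 3)) * (p.laG σ / 4) *
    p.Y0G ε σ' ^ ((7 : ℝ) / 6) := by
  have H := G.R
  have l := H.laG0 G.M0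
  have mx := (H.muG_pos G.M).trans_le (le_max_left _ ((p.n : ℝ) ^ (-(1 : ℝ) / 3)))
  obtain ⟨W, a, b, x1, x2, t⟩ := G.tab
  have d := (H.lg_num (x := 4) (by norm_num) (by norm_num)).2
  have y := H.Y0G0 (ε := ε) G.M
  obtain ⟨b1, -, b3, -⟩ := H.lg_low G.O (H.rp0 ε)
  obtain ⟨y1, y2, -, -⟩ := H.lg_yS G.M (H.rp0 ε)
  have u := (H.lg_muG66 G.M).1
  rw [H.lg_rp] at y1 y2
  have := H.N0; have := G.hc; have := H.η_pos; have := G.hη; have := G.hε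
  generalize max (p.muG σ') ((p.n : ℝ) ^ (-(1 : ℝ) / 3)) = X at *
  refine H.le_of_lg one_pos (by positivity) ?_
  lg_norm; rw [H.lg_n, H.lg_Y0G G.M]
  rcases t with ⟨t1, t2, t3, -⟩ | ⟨t1, t2, t3, t4, -⟩ <;> rcases u with u | u <;> linarith

theorem g7 {t : ℝ} (h3 : p.YsG ε σ' (8 * K ^ 2) ≤ t) (h4 : t ≤ 8 * K ^ 2) :
    t * (p.n : ℝ) ^ ((1 : ℝ) / 6) ≤
      ((p.n : ℝ) ^ ((5 : ℝ) / 6) * (p.msG σ' t * p.Y0G ε σ')) ^ 2 := by
  have H := G.R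
  have M := G.M
  obtain ⟨a, b⟩ := H.above G.O G.hη G.hε h3 h4
  have b1 := (H.lg_low G.O (H.rp0 ε)).1
  have y := H.Y0G0 (ε := ε) M
  have y0 := H.yG0 (σ := σ') (H.rp0 ε)
  have t0 := y0.trans_le b
  have m := H.msG_pos M t
  have m1 := (H.lg_msG66 M t).1
  obtain ⟨y1, y2, -, -⟩ := H.lg_yS M (H.rp0 ε)
  have u0 := (H.lg_yG M (H.rp0 ε)).1.1.trans (H.lg_mono y0 b)
  have u := (H.lg_mono t0 h4).trans (H.lg_le (by linarith [G.C1]) G.CK)
  have f := H.lg_mono (H.rp0 _) (H.thick_of_yS M (H.rp0 _) a ((le_max_left _ _).trans b))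
  rw [logb_mul m.ne' (H.rp0 _).ne', H.lg_rp, H.lg_rp] at f
  rw [H.lg_flat M (H.rp0 ε), not_le] at a
  obtain ⟨-, v2, v3⟩ := H.lg_muG66 M
  rw [H.lg_rp] at y1 y2 a
  have := H.η_pos; have := H.N0; have := G.hη; have := G.hε; have := G.hc
  refine H.le_of_lg (by positivity) (by positivity) ?_
  lg_norm; rw [H.lg_Y0G M, H.lg_n]
  rcases H.lg_Tc_cases (σ := σ') t0 with ⟨t1, t2⟩ | ⟨t1, t2, t3⟩ | ⟨t1, t2, -⟩ <;>
    rcases m1 with m1 | m1 <;> linarith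

/-- the clock on the plateau -/
theorem ck_le {j : ℕ} (h1 : p.J ≤ j) (h2 : j ≤ p.Jp Q) {w : ℝ} (w0 : 0 < w)
    (hw : w ≤ 1 - (p.gst Q σ').z (j - 1)) {Z : ℝ} (Z0 : 0 < Z)
    (z1 : 2 / 3 * logb p.n (p.laG σ) + η ≤ logb p.n Z)
    (z2 : (logb p.n (p.Vc (p.mt (p.muG σ))) + logb p.n (p.laG σ) - logb p.n w / 2) / 2 + η ≤
      logb p.n Z)
    (z3 : (logb p.n (p.u2 (p.mt (p.muG σ))) - logb p.n w) / 2 + η ≤ logb p.n Z) :
    (p.gst Q σ').ck j - (p.gst Q σ').ck p.J ≤ Z := by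
  have H := G.R
  have h := G.D.memD
  have X := G.xk
  have N := X.nm
  have jJ := h.jlJ
  obtain ⟨i, rfl⟩ := Nat.exists_eq_add_of_le h1
  have hi : i ≤ Q.I := by change p.J + i ≤ p.J + Q.I at h2; omega
  change w ≤ 1 - (p.famO Q (p.omG σ') p.jf (p.bG σ') 0 0).z (p.J + i - 1) at hw
  rw [MemD.z66 (by omega), h.geo.zP_x hi] at hw
  have e : p.sO Q (p.omG σ') (p.J + i) = p.sO Q (p.omG σ') p.J := by
    rw [h.geo.sP_hi (Nat.le_add_right _ _), h.geo.sP_J, X.g0, Nat.sub_eq_zero_of_le h2]; simp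
  have x0 := h.geo.xP_x (Nat.zero_le Q.I)
  change p.qO Q (p.omG σ') (p.J + i) + Q.rs (p.xP Q (p.J + i)) -
    (p.qO Q (p.omG σ') p.J + Q.rs (p.xP Q p.J)) ≤ Z
  rw [add_zero, X.x0] at x0
  rw [Pm.qO, Pm.qO, e, h.geo.xP_x hi, x0]
  have x1 := h.geo.xs_le hi
  have x2 : Q.x i < 1 := by linarith
  have a := (abs_le.1 (X.rsE _ x1 x2)).2
  have b := (X.rsB _ N.xs1).1
  have d := env_le N x1 x2
  have u : 0 < 1 - Q.x i := by linarith
  have u1 := H.lg_mono w0 hw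
  have l := N.lp; have V := N.Vp; have u2 := N.u2p
  have k := (H.lg_num (x := 48) (by norm_num) (by norm_num)).2
  generalize 1 - Q.x i = y at *
  have f1 : 48 * u0 p (p.mt (p.muG σ)) ≤ Z := H.le_of_lg (by have := N.u0p; positivity) Z0 (by
    unfold u0 Pm.laG at *; lg_norm; linarith)
  have f2 : 48 * √(p.Vc (p.mt (p.muG σ)) * (p.la (p.mt (p.muG σ)) / √y)) ≤ Z :=
    H.le_of_lg (by positivity) Z0 (by unfold Pm.laG at *; lg_norm; linarith)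
  have f3 : 48 * (√(p.u2 (p.mt (p.muG σ))) / √y) ≤ Z :=
    H.le_of_lg (by positivity) Z0 (by lg_norm; linarith)
  linarith

set_option maxHeartbeats 1600000 in
/-- the two cuts of the top -/
theorem tp {k : ℕ} (_ : 1 ≤ k) (one : 1 ≤ E) (E2 : E ^ k ≤ (p.n : ℝ) ^ (ε / 100))
    (E3 : E ^ (k ^ 2) ≤ (p.n : ℝ) ^ ε) :
    Sr.Tp k E (p.scH K σ σ' Q) (p.gst Q σ') (p.laG σ / 4) (E ^ (k ^ 2) * p.Y0G ε σ')
      (min ((p.n : ℝ) ^ (-(101 : ℝ) / 200)) ((p.n : ℝ) ^ (-(107 : ℝ) / 150) /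
        max (p.muG σ') ((p.n : ℝ) ^ (-(1 : ℝ) / 3)) / E ^ k))
      ((p.n : ℝ) ^ (-(107 : ℝ) / 150) / max (p.muG σ') ((p.n : ℝ) ^ (-(1 : ℝ) / 3))) := by
  have H := G.R
  have X := G.xk
  have N := X.nm
  have η0 := H.η_pos
  have hη := G.hη
  have hε := G.hε
  have hc := G.hc
  have n0 := H.N0
  have E0 : 0 < E := by linarith
  have F0 : 0 < E ^ k := pow_pos E0 k
  have F1 : 0 < E ^ (k ^ 2) := pow_pos E0 _
  have eY : Sr.Yd k E (E ^ (k ^ 2) * p.Y0G ε σ') = p.Y0G ε σ' := mul_div_cancel_left₀ _ F1.ne'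
  have e0 := H.lg_nn (one_le_pow₀ (n := k) one)
  have e1 := (H.lg_mono F0 E2).trans_eq (H.lg_rp _)
  have e2 := (H.lg_mono F1 E3).trans_eq (H.lg_rp _)
  have e3 := H.lg_mono F0 (pow_le_pow_right₀ one (show k ≤ k ^ 2 from Nat.le_self_pow two_ne_zero k))
  have θ := H.muG_pos G.M
  have y0 := H.Y0G0 (ε := ε) G.M
  have y1 := H.lg_Y0G (ε := ε) G.M
  have y2 := (H.lg_low G.O (H.rp0 ε)).2.2.1
  have l0 := H.laG0 G.M0
  have g : 0 < log (p.n : ℝ) := by linarith [H.log1]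
  have mx := θ.trans_le (le_max_left _ ((p.n : ℝ) ^ (-(1 : ℝ) / 3)))
  obtain ⟨W, W0, X0, X1, X2, t⟩ := G.tab
  have d4 := (H.lg_num (x := 4) (by norm_num) (by norm_num)).2
  have eθ := G.θ_eq
  have en : Sr.nu (p.scH K σ σ' Q) = (p.n : ℝ) ^ (-(1 : ℝ) / 3) := rfl
  have ν0 : 0 < Sr.nuY k E (p.scH K σ σ' Q) (E ^ (k ^ 2) * p.Y0G ε σ') :=
    (H.rp0 _).trans_le (le_max_left _ _)
  have ν1 := H.lg_mono (y := Sr.nuY k E (p.scH K σ σ' Q) (E ^ (k ^ 2) * p.Y0G ε σ'))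
    (H.rp0 (-(1 : ℝ) / 3)) (le_max_left _ _)
  have ν2 := H.lg_mono (y := Sr.nuY k E (p.scH K σ σ' Q) (E ^ (k ^ 2) * p.Y0G ε σ'))
    (div_pos (mul_pos F1 y0) F0) (le_max_right _ _)
  have ν3 : max (p.muG σ') ((p.n : ℝ) ^ (-(1 : ℝ) / 3)) ≤
      max (p.muG σ') (Sr.nuY k E (p.scH K σ σ' Q) (E ^ (k ^ 2) * p.Y0G ε σ')) :=
    max_le_max le_rfl (le_max_left _ _)
  have ν4 := mx.trans_le ν3
  have ν5 := H.lg_mono mx ν3
  have ν6 := H.lg_mono ν0 (le_max_right (p.muG σ') _)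
  rw [H.lg_rp] at ν1
  rw [logb_div (mul_pos F1 y0).ne' F0.ne', logb_mul F1.ne' y0.ne'] at ν2
  have r2 : 0 < (p.n : ℝ) ^ (-(107 : ℝ) / 150) / max (p.muG σ') ((p.n : ℝ) ^ (-(1 : ℝ) / 3)) :=
    div_pos (H.rp0 _) mx
  have q2 := logb_div (b := p.n) (H.rp0 (-(107 : ℝ) / 150)).ne' mx.ne'
  have q3 := logb_div (b := p.n) r2.ne' F0.ne'
  have r1 := lt_min (H.rp0 (-(101 : ℝ) / 200)) (div_pos r2 F0)
  have q1 := lg_min H.N1 (H.rp0 (-(101 : ℝ) / 200)) (div_pos r2 F0)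
  rw [H.lg_rp] at q1 q2
  rw [q3, q2] at q1
  have a2 := min_le_left ((p.n : ℝ) ^ (-(101 : ℝ) / 200)) ((p.n : ℝ) ^ (-(107 : ℝ) / 150) /
    max (p.muG σ') ((p.n : ℝ) ^ (-(1 : ℝ) / 3)) / E ^ k)
  have a3 := (le_div_iff₀' F0).1 (min_le_right ((p.n : ℝ) ^ (-(101 : ℝ) / 200))
    ((p.n : ℝ) ^ (-(107 : ℝ) / 150) / max (p.muG σ') ((p.n : ℝ) ^ (-(1 : ℝ) / 3)) / E ^ k))
  generalize min ((p.n : ℝ) ^ (-(101 : ℝ) / 200)) ((p.n : ℝ) ^ (-(107 : ℝ) / 150) /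
    max (p.muG σ') ((p.n : ℝ) ^ (-(1 : ℝ) / 3)) / E ^ k) = r₁ at *
  generalize (p.n : ℝ) ^ (-(107 : ℝ) / 150) / max (p.muG σ') ((p.n : ℝ) ^ (-(1 : ℝ) / 3)) = r₂ at *
  have q4 : -(101 : ℝ) / 200 ≤ logb p.n r₁ ∨ logb p.n r₂ - ε / 100 ≤ logb p.n r₁ := by
    rw [q1, q2]
    rcases min_choice (-(101 : ℝ) / 200) (-(107 : ℝ) / 150 - logb p.n
      (max (p.muG σ') ((p.n : ℝ) ^ (-(1 : ℝ) / 3))) - logb p.n (E ^ k)) with j | j <;> rw [j]
    · exact .inl le_rfl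
    · exact .inr (by linarith)
  have key : ∀ x, p.xs ≤ x → r₁ ≤ 1 - x → 0 < 1 - x ∧ 0 < dn p (p.mt (p.muG σ)) x ∧
      logb p.n r₁ ≤ logb p.n (1 - x) ∧
      (logb p.n (p.u2 (p.mt (p.muG σ))) / 2 - η ≤
        logb p.n (dn p (p.mt (p.muG σ)) x) + 3 / 2 * logb p.n (1 - x) ∨
      logb p.n (1 - x) / 2 - η ≤
        logb p.n (dn p (p.mt (p.muG σ)) x) + 3 / 2 * logb p.n (1 - x)) := fun x a b => by
    have u := r1.trans_le b
    have s := sqrt_pos.2 u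
    have m := lt_min N.sp s
    have d := N.den0 x
    have f := H.lg_mono (by positivity) (dn_end N a (by linarith))
    rw [logb_div m.ne' four_ne_zero, lg_min H.N1 N.sp s, lg_sqrt _ N.u2p.le, logb_mul d.ne'
      (mul_pos u s).ne', logb_mul u.ne' s.ne', lg_sqrt _ u.le] at f
    refine ⟨u, d, H.lg_mono r1 b, ?_⟩
    rcases min_choice (logb p.n (p.u2 (p.mt (p.muG σ))) / 2) (logb p.n (1 - x) / 2) with j | j
    · exact .inl (by linarith)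
    · exact .inr (by linarith)
  refine ⟨?_, a2, a3, ?_, ?_, ?_, fun x a b => ?_, fun x a b => ?_, fun x a b => ?_,
    fun x a b => ?_, ?_, fun x a b => ?_, fun j a b d => ?_⟩
  · rw [eθ, en]
    change (p.n : ℝ) ^ _ ≤ p.n * _ * _
    refine H.le_of_lg (by positivity) (by positivity) ?_
    lg_norm; rw [H.lg_n]; rcases q4 with j | j <;> linarith
  · rw [eY]
    refine H.le_of_lg r2 y0 ?_
    rcases t with ⟨t1, t2, t3, -⟩ | ⟨t1, t2, t3, t4, -⟩ <;> linarith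
  · have a := H.th_la G.O hη hε
    have B := G.B0
    have B1 := H.lg_le B G.BK
    change r₂ * (5 * (406 + 8 * K) * (p.muG σ' ^ 2 * (p.laG σ ^ 2 * log p.n))) ≤ (p.n : ℝ) ^ _
    generalize 5 * (406 + 8 * K) = B' at *
    refine H.le_of_lg (by positivity) (by positivity) ?_
    lg_norm; rw [H.lg_n]; linarith [H.lg_log.2]
  · rw [eθ]
    change _ ≤ (p.n : ℝ) ^ _
    refine H.le_of_lg (by positivity) (by positivity) ?_
    lg_norm; rw [H.lg_n]; linarith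
  · rw [G.xs_eq] at a ⊢
    exact dn_min N a (by linarith)
  · rw [G.xs_eq] at a
    obtain ⟨u, d, u1, u2⟩ := key x a b
    rw [eθ, en]
    change (p.n : ℝ) ^ _ ≤ p.n * _ * (dn p _ x * _)
    generalize 1 - x = w at *
    refine H.le_of_lg (by positivity) (by positivity) ?_
    lg_norm; rw [H.lg_n]
    rcases t with ⟨t1, t2, -, -, t3⟩ | ⟨t1, t2, t3, -, -, t4⟩ <;> rcases u2 with u2 | u2 <;>
      rcases q4 with j | j <;> linarith
  · rw [G.xs_eq] at a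
    obtain ⟨u, d, u1, u2⟩ := key x a b
    rw [eθ, en]
    change (p.n : ℝ) ^ _ ≤ p.n * _ * (dn p _ x * _)
    generalize 1 - x = w at *
    refine H.le_of_lg (by positivity) (by positivity) ?_
    lg_norm; rw [H.lg_n]
    rcases t with ⟨t1, t2, -, -, t3⟩ | ⟨t1, t2, t3, -, -, t4⟩ <;> rcases u2 with u2 | u2 <;>
      rcases q4 with j | j <;> linarith
  · rw [G.xs_eq] at a
    obtain ⟨u, d, u1, u2⟩ := key x a b
    rw [eθ, en]
    change _ * (p.n : ℝ) ^ _ ≤ p.n * _ * (dn p _ x * _) * _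
    generalize 1 - x = w at *
    generalize Sr.nuY k E (p.scH K σ σ' Q) (E ^ (k ^ 2) * p.Y0G ε σ') = Z at *
    generalize E ^ (k ^ 2) = F at *
    refine H.le_of_lg (by positivity) (by positivity) ?_
    lg_norm; rw [H.lg_n]
    rcases t with ⟨t1, t2, -, -, t3⟩ | ⟨t1, t2, t3, -, -, t4⟩ <;> rcases u2 with u2 | u2 <;>
      rcases q4 with j | j <;> linarith
  · rw [eθ]
    rcases le_total (p.muG σ') ((p.n : ℝ) ^ (-(21 : ℝ) / 200)) with i | i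
    · exact .inl i
    have i1 := H.lg_mono (H.rp0 _) i
    rw [H.lg_rp] at i1
    refine .inr fun j a b d => G.ck_le a b r1 d (Z := (p.n : ℝ) ^ (-(21 : ℝ) / 400)) (H.rp0 _)
      ?_ ?_ ?_ <;> rw [H.lg_rp] <;>
      rcases t with ⟨t1, t2, t3, t4, t5⟩ | ⟨t1, t2, t3, t4, t5, t6⟩ <;> rcases q4 with j | j <;>
      linarith
  · rw [G.xs_eq] at a
    have u : 0 < 1 - x := by linarith
    have u1 := H.lg_mono r2 b
    rw [eθ]
    refine (dn_up N a (by linarith)).trans ?_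
    change _ ≤ (p.n : ℝ) ^ _ * _
    generalize 1 - x = w at *
    refine H.le_of_lg (by positivity) (by positivity) ?_
    revert u1; lg_norm; rw [H.lg_n]; intro u1
    linarith [H.lg_two.2, (H.lg_num (x := 16) (by norm_num) (by norm_num)).2]
  · rw [eθ]
    refine G.ck_le a b r2 d (Z := (p.n : ℝ) ^ ((3 : ℝ) / 10) * _) (mul_pos (H.rp0 _) ν4)
      ?_ ?_ ?_ <;>
      rw [logb_mul (H.rp0 _).ne' ν4.ne', H.lg_rp] <;>
      rcases t with ⟨t1, t2, t3, t4, t5⟩ | ⟨t1, t2, t3, t4, t5, t6⟩ <;> linarith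

/-- **`SX` on the graded path** -/
theorem sx {k : ℕ} (hk : 1 ≤ k) (E1 : (p.n : ℝ) ^ (2 * η) ≤ E)
    (E2 : E ^ k ≤ (p.n : ℝ) ^ (ε / 100)) (E3 : E ^ (k ^ 2) ≤ (p.n : ℝ) ^ ε)
    (E4 : E ^ (k ^ 3) ≤ p.n) :
    Sr.SX k E (p.scH K σ σ' Q) (p.gst Q σ') (p.lSR ε σ') (p.laG σ / 4) (p.YsG ε σ' (8 * K ^ 2))
      (E ^ (k ^ 2) * p.Y0G ε σ') := by
  have H := G.R
  have h := G.D.memD
  have X := G.xk
  have η0 := H.η_pos
  have hη := G.hη
  have hε := G.hε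
  have hc := G.hc
  have n0 := H.N0
  have C1 := G.C1
  have one : 1 ≤ E := (one_le_rpow H.N1.le (by linarith)).trans E1
  have E0 : 0 < E := by linarith
  have Ek : E ≤ E ^ k := le_self_pow₀ one (by omega)
  have F0 : 0 < E ^ k := pow_pos E0 k
  have eY : Sr.Yd k E (E ^ (k ^ 2) * p.Y0G ε σ') = p.Y0G ε σ' :=
    mul_div_cancel_left₀ _ (pow_pos E0 _).ne'
  obtain ⟨s1, s2⟩ := G.sj
  obtain ⟨s0, s3, s4⟩ := H.lg_sj s1 s2
  have θ := H.muG_pos G.M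
  have y0 := H.Y0G0 (ε := ε) G.M
  have l0 := H.laG0 G.M0
  have g : 0 < log (p.n : ℝ) := by linarith [H.log1]
  have mx := θ.trans_le (le_max_left _ ((p.n : ℝ) ^ (-(1 : ℝ) / 3)))
  have w2 := H.w2_66 G.O hη hε
  have cut : ∀ {x : ℝ}, (p.n : ℝ) ^ (-(1 : ℝ) / 2) / E ^ (k ^ 2) ≤ 1 - x →
      (p.n : ℝ) ^ (-(1 : ℝ) / 2 - ε) ≤ 1 - x := fun a => le_trans (by
    rw [rpow_sub n0]; exact div_le_div_of_nonneg_left (H.rp0 _).le (pow_pos E0 _) E3) a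
  have jJ := h.jlJ
  have JJ := J_le (p := p) (P := Q)
  refine
    { big := eY.symm ▸ G.sh (E1.trans Ek) E2 le_rfl G.Y0_le
      vh := eY.symm ▸ G.vh (E1.trans Ek) E2
      u0 := (H.msG_one σ' ▸ (H.w1_66 G.O hη hε).2 :
        1 / (p.n * 1 * p.msG σ' 1) ≤ p.laG σ / 4 * p.laG σ ^ ((2 : ℝ) / 3))
      ml := fun t ht => by rw [pow_mul']; exact H.ml66 G.O hη hε F0 E2 (s1.trans ht)
      sub := fun t t' a b => H.sub66 a b (H.σ0 G.M), g5 := ?_, g3 := fun t a b => ?_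
      rev := ⟨p.NP Q, Nat.le_add_right _ _, le_rfl, G.rev, fun j a _ =>
        (div_le_self H.v0.le C1).trans (h.geo.ds_hi a).ge⟩
      HJ := G.HJ, w2 := G.θ_eq.symm ▸ (rp_le H.n1 (by linarith)).trans w2
      dt := fun x a b => ?_
      dn := fun x a b => by
        rw [G.xs_eq] at a ⊢
        exact dn_min X.nm a (by linarith [(G.lg_end a (cut b)).1])
      sm := E4, jl3 := ?_
      ue2 := (rp_le H.n1 (by norm_num : -(2 : ℝ) ≤ -1)).trans_eq (by rw [rpow_neg_one, one_div]; rfl)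
      rt5 := fun t a b => eY.symm ▸ H.rt5_66 G.O hη hε (by linarith) G.CK s1 s2 a b
      gs := fun t a => ?_, zJ := ?_, gm := fun t a _ => ?_, dl := fun x a b d => ?_, jl4 := ?_
      fl2 := ?_, dq := fun x a b => ?_, g6 := fun t a b => eY.symm ▸ G.g6 a b
      d0 := G.θ_eq.symm ▸ G.d0.1, lm2 := G.θ_eq.symm ▸ G.d0.2
      fa := fun x x' a b d => by
        rw [G.xs_eq] at a
        exact (dn_far X.nm a b d).trans (le_mul_of_one_le_left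
          (by linarith [X.nm.den0 x']) (one.trans Ek))
      g7 := fun t a b => eY.symm ▸ G.g7 a b
      u3 := by
        have F : 1 ≤ E ^ (2 * k) := one_le_pow₀ one
        rw [G.θ_eq, eY]
        change p.muG σ' * u0 p _ ^ 3 ≤ _ * ((p.n : ℝ) ^ (-(1 : ℝ) / 3)) ^ 2 ∧
          ∀ t, _ → _ → t * (p.muG σ' * u0 p _ ^ 3) ≤ _ * (p.msG σ' t * _)
        rw [X.nm.u0_cube]
        refine ⟨le_trans (H.le_of_lg (mul_pos θ (pow_pos l0 2)) (by positivity) ?_)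
          (le_mul_of_one_le_left (sq_nonneg _) F), fun t a b => ?_⟩
        · change logb p.n (p.muG σ' * p.laG σ ^ 2) ≤ _
          lg_norm; rw [H.lg_n]; linarith [H.th_la G.O hη hε]
        · have d := H.g3_66 G.O hη hε one_pos H.Λ1 (by linarith) G.CK a b
          have t0 : 0 ≤ t := s0.le.trans ((H.sj_le_Ys G.O hη hε s1 s2 (by linarith)).trans a)
          have e := mul_le_mul_of_nonneg_left H.log1
            (show 0 ≤ t * (p.muG σ' ^ 2 * p.laG σ ^ 2) by positivity)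
          refine le_trans (le_of_mul_le_mul_left ?_ θ)
            (le_mul_of_one_le_left (mul_pos (H.msG_pos G.M t) y0).le F)
          change _ * (t * (_ * p.laG σ ^ 2)) ≤ _
          linarith
      w4 := G.θ_eq.symm ▸ eY.symm ▸ G.w4
      gd := .inl fun x a b => by
        rw [G.xs_eq] at a ⊢
        exact dn_cube X.nm a b
      top := ⟨_, _, G.tp hk one E2 E3⟩ }
  · rw [G.θ_eq]
    have a := H.th_la G.O hη hε
    have B := G.B0
    have B1 := H.lg_le B G.BK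
    have F1 := H.lg_nn (one.trans Ek)
    change 5 * (406 + 8 * K) * (p.muG σ' ^ 2 * (p.laG σ ^ 2 * log p.n)) ≤
      _ * ((p.n : ℝ) ^ (-(1 : ℝ) / 3)) ^ 2
    generalize 5 * (406 + 8 * K) = B' at *
    generalize E ^ k = F at *
    refine H.le_of_lg (by positivity) (by positivity) ?_
    lg_norm; rw [H.lg_n]; linarith [H.lg_log.2]
  · rw [G.θ_eq, eY]
    refine (H.g3_66 G.O hη hε G.B0 G.BK (by linarith) G.CK a b).trans ?_
    have m := H.msG_pos G.M t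
    have := le_mul_of_one_le_left (mul_pos (mul_pos θ m) y0).le (one.trans Ek)
    change _ ≤ _ * p.msG σ' t * _
    linarith
  · rw [G.xs_eq] at a
    obtain ⟨u, u1, u2⟩ := G.lg_end a (cut b)
    have d := X.nm.den0 x
    rw [G.θ_eq]
    change (p.n : ℝ) ^ _ ≤ p.n * max _ ((p.n : ℝ) ^ (-(1 : ℝ) / 3)) * (dn p _ x * _)
    generalize 1 - x = w at *
    refine H.le_of_lg (by positivity) (by positivity) ?_
    lg_norm; rw [H.lg_n]; linarith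
  · have e := (H.lg_mono F0 E2).trans_eq (H.lg_rp _)
    rw [pow_mul']
    change _ * p.sO Q (p.omG σ') p.jf ^ 3 ≤ (p.n : ℝ) ^ (-(1 : ℝ) / 3)
    generalize E ^ k = F at *
    refine H.le_of_lg (by positivity) (by positivity) ?_
    lg_norm; rw [H.lg_n]; linarith [H.lg_s.2]
  · have b := (H.sj_lt_l G.O hη hε s1 s2).trans_le a
    rw [G.gr_zero b, eY, zero_pow two_ne_zero]
    exact (mul_pos (mul_pos (s0.trans b) (H.msG_pos G.M t)) y0).le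
  · change (p.famO Q (p.omG σ') p.jf (p.bG σ') 0 0).z (p.J + Q.I - 1) < 1
    rw [MemD.z66 (by omega), h.geo.zP_x le_rfl]
    linarith [X.e1, H.rp0 (-(3 : ℝ))]
  · rw [G.gr_zero a, zero_pow two_ne_zero, mul_zero]
    refine mul_nonneg (mul_pos F0 (H.msG_pos G.M t)).le (le_trans ?_ G.md.Gtp)
    exact Finset.sum_nonneg fun j _ =>
      mul_nonneg (sub_nonneg.2 (h.geo.zP_mono (Nat.sub_le _ _))) (sq_nonneg _)
  · rw [G.xs_eq] at a
    have u : 0 < 1 - x := (H.rp0 _).trans_le b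
    have e := (dn_top X.nm a (by linarith)).trans
      (mul_le_mul_of_nonneg_left d (X.nm.den0 x).le)
    have f : (p.n : ℝ) ^ (-(1 : ℝ) / 2) ≤ p.laG σ / 4 := by
      have m1 : logb p.n (max (p.muG σ') ((p.n : ℝ) ^ (-(1 : ℝ) / 3))) ≤ -c := by
        rw [lg_max H.N1 θ (H.rp0 _), H.lg_rp]
        exact max_le (by linarith [(H.lg_muG' G.M).2]) (by linarith)
      have m2 := H.lg_mono (H.rp0 _) w2
      rw [logb_mul (by positivity) mx.ne', H.lg_rp] at m2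
      exact H.le_of_lg (H.rp0 _) (by positivity) (by rw [H.lg_rp]; linarith)
    exact le_of_mul_le_mul_right (by rw [one_mul]; exact f.trans e) (H.rp0 (-(1 : ℝ) / 2))
  · change (p.n : ℝ) ^ _ * p.sO Q (p.omG σ') p.jf ^ 3 ≤ (p.n : ℝ) ^ (-(1 : ℝ) / 3)
    refine H.le_of_lg (by positivity) (by positivity) ?_
    lg_norm; rw [H.lg_n]; linarith [H.lg_s.2]
  · change p.sO Q (p.omG σ') (p.Jp Q) - p.sO Q (p.omG σ') p.J ≤ _
    rw [h.geo.sP_Jp, h.geo.sP_J, X.g0, zero_mul, add_zero, sub_self]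
    exact (H.rp0 _).le
  · rw [G.xs_eq] at a
    obtain ⟨u, u1, u2⟩ := G.lg_end a (cut b)
    have d := X.nm.den0 x
    rw [G.θ_eq]
    change (p.n : ℝ) ^ _ ≤ p.n * max _ ((p.n : ℝ) ^ (-(1 : ℝ) / 3)) * (dn p _ x * _)
    generalize 1 - x = w at *
    refine H.le_of_lg (by positivity) (by positivity) ?_
    lg_norm; rw [H.lg_n]; linarith

end Gd66

/-- a power of `Λ` is free in `Sml` -/
theorem Sml.pw66 {β : ℝ} {R : ℝ → Pm → Prop} {k : ℕ} (hk : 0 < k)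
    (H : Sml β fun Λ p => R (Λ ^ k) p) : Sml β R := by
  intro c0 C0 h0 h1
  have k0 : (0 : ℝ) < k := by exact_mod_cast hk
  have t : Tendsto (fun η : ℝ => η / k) (𝓝[>] 0) (𝓝[>] 0) :=
    tendsto_nhdsWithin_iff.2 ⟨by
      simpa using (tendsto_nhdsWithin_of_tendsto_nhds (s := Ioi (0 : ℝ))
        (tendsto_id (x := 𝓝 (0 : ℝ)))).div_const (k : ℝ), ev_pos.mono fun η h => div_pos h k0⟩
  filter_upwards [H c0 C0 h0 h1] with A H
  filter_upwards [H] with c H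
  filter_upwards [t.eventually H] with η H
  filter_upwards [H] with n H p b1 b2 b3 b4 b5
  have := H p b1 b2 b3 b4 b5
  rwa [rp_pow, div_mul_cancel₀ _ k0.ne'] at this

/-- glue with a class statement read at the margin `E = Λ²` -/
theorem Sml.glueE {β : ℝ} {Q R : ℝ → Pm → Prop} {X : CP} (hβ : 1 < β) (G : Cst β Q) (L : CL X)
    (C' : ℝ) (h : ∀ C : ℝ, 1 ≤ C → Thr β fun _ _ Λ p => Q C p →
      CLat X C' p.A p.n (Λ ^ 2) Λ → R Λ p) : Sml β R := by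
  intro c0 C0 h0 h1
  obtain ⟨C, hC, G⟩ := G c0 C0 h0 h1
  filter_upwards [Sml.of_thr (P := fun Λ p => Q C p → CLat X C' p.A p.n (Λ ^ 2) Λ → R Λ p) hβ
    (h C hC) c0 C0 h0 h1, eventually_ge_atTop 2, L C'] with A h hA L
  filter_upwards [h, ev_pos, ev_le (by norm_num : (0 : ℝ) < 1 / 200)] with c h hc hc'
  filter_upwards [h, ev_pos] with η h hη
  filter_upwards [h, G A hA c hc hc', L (η * (2 : ℕ)) (by positivity) η hη] with n h G L p b1 b2 b3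
    b4 b5
  refine h p b1 b2 b3 b4 b5 (G p b1 b2 b3 b4 b5) ?_
  rw [b2, b3, rp_pow]
  exact L

/-- **the output of SR on the graded path and its switches** -/
def SrPG (K Λ : ℝ) (p : Pm) : Prop := ∀ c0 C0 η σ σ' Q, p.OctR σ σ' → GrD K c0 C0 η p σ σ' Q →
  p.PlX σ σ' Q → ∀ m a, (p.scG K σ σ' Q).In m a →
    (p.gst Q σ').Phi (p.scG K σ σ' Q) m a ≤ Λ * p.PhG Λ σ'

theorem srP {β : ℝ} (hβ : 1 < β) (hS : Sr.SrS2) (K : ℝ) : Sml β (SrPG K) := by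
  obtain ⟨k, hk, hO⟩ := hS
  have k1 : (1 : ℝ) ≤ k := by exact_mod_cast hk
  have k2 : (k : ℝ) ≤ (k : ℝ) ^ 3 ∧ (k : ℝ) ^ 2 ≤ (k : ℝ) ^ 3 :=
    ⟨le_self_pow₀ k1 (by norm_num), pow_le_pow_right₀ k1 (by norm_num)⟩
  have β1 : 0 < β ^ 2 - 1 := by nlinarith
  refine Sml.pw66 (k := 1000 * k ^ 3) (by positivity) (Sml.glueE hβ (p1G β hβ)
    (CL.and hO V17.varS) (8 * K ^ 2) fun C hC c0 C0 h0 h1 => ⟨4, fun A hA => ⟨1 / 1000, by norm_num,
      fun c hc c' => ⟨c / (10 ^ 6 * (k : ℝ) ^ 3), by positivity, fun η hη η0 =>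
        ⟨max (8 * K ^ 2) (max (5 * (406 + 8 * K)) ((2 + β ^ 2 * C) / (β ^ 2 - 1))),
          fun p H P L c0' C0' η' σ σ' Q O D X m a hm => ?_⟩⟩⟩⟩)
  rw [le_div_iff₀ (by positivity)] at hη
  have M := (Gr29.oct_mem O).2
  have Λ := H.Λ0
  obtain ⟨ε, e⟩ : ∃ ε, ε = η * (1000 * (k : ℝ) ^ 3) := ⟨_, rfl⟩
  have a1 := mul_le_mul_of_nonneg_left (k1.trans k2.1) η0.le
  have a2 := mul_le_mul_of_nonneg_left k2.1 η0.le
  have a3 := mul_le_mul_of_nonneg_left k2.2 η0.le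
  have b1 : 1 + 2 / (p.n : ℝ) ^ η ≤ p.bG σ' := by
    have a := (P σ' M).2.2.1.2.2.2
    have b : p.muG σ' * (p.n : ℝ) ^ η ≤ 1 := H.le_of_lg (mul_pos (H.muG_pos M) Λ) one_pos (by
      rw [logb_mul (H.muG_pos M).ne' Λ.ne', H.lg_rp, logb_one]
      linarith [(H.lg_muG' M).2, H.η_le])
    have d := ((le_max_right _ _).trans (le_max_right _ _)).trans H.K_le
    rw [div_le_iff₀ β1] at d
    rw [H.hβ, sub_le_comm, le_div_iff₀ (by positivity)] at a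
    rw [← sub_nonneg, show p.bG σ' - (1 + 2 / (p.n : ℝ) ^ η) =
      ((p.bG σ' - 1) * (p.n : ℝ) ^ η - 2) / (p.n : ℝ) ^ η by field_simp; ring]
    refine div_nonneg ?_ Λ.le
    nlinarith [mul_le_mul_of_nonneg_right a Λ.le,
      mul_le_mul_of_nonneg_left b (show 0 ≤ β ^ 2 * C by positivity)]
  have G : Gd66 β c0 C0 A c η _ ε K c0' C0' η' p σ σ' Q :=
    ⟨H, O, D, X, by linarith, by linarith, hc, hA, (le_max_left _ _).trans H.K_le,
      ((le_max_left _ _).trans (le_max_right _ _)).trans H.K_le, b1⟩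
  have pw : ∀ (j : ℕ) (x : ℝ), 2 * η * j ≤ x → (((p.n : ℝ) ^ η) ^ 2) ^ j ≤ (p.n : ℝ) ^ x :=
    fun j x h => by
      rw [rp_pow, rp_pow]; exact rp_le H.n1 (by push_cast; linarith)
  have E1 : (p.n : ℝ) ^ (2 * η) ≤ ((p.n : ℝ) ^ η) ^ 2 := by
    rw [rp_pow]; exact rp_le H.n1 (by push_cast; linarith)
  have Ek := pw k (ε / 100) (by linarith)
  have E2 : ((p.n : ℝ) ^ η) ^ 2 ≤ (p.n : ℝ) ^ (ε / 100) :=
    (pow_one _).ge.trans (pw 1 _ (by push_cast; linarith))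
  have F0 : 0 < ((p.n : ℝ) ^ η) ^ 2 := by positivity
  have one : 1 ≤ ((p.n : ℝ) ^ η) ^ 2 := one_le_pow₀ H.Λ1
  have ph := H.PhG0 M (H.rp0 ε)
  have y0 := H.Y0G0 (ε := ε) M
  have Y1 : p.Y0G ε σ' ≤ (((p.n : ℝ) ^ η) ^ 2) ^ (k ^ 2) * p.Y0G ε σ' :=
    le_mul_of_one_le_left y0.le (one_le_pow₀ one)
  have Y3 : 2 * ((((p.n : ℝ) ^ η) ^ 2) ^ 100 * ((((p.n : ℝ) ^ η) ^ 2) ^ (k ^ 2) * p.Y0G ε σ')) ≤
      (p.n : ℝ) ^ ε * p.PhG ((p.n : ℝ) ^ ε) σ' := by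
    have := H.N0
    refine H.le_of_lg (by positivity) (by positivity) ?_
    lg_norm; rw [H.lg_n, H.lg_Y0G M]; push_cast; linarith [H.lg_two.2]
  have Y2 : (((p.n : ℝ) ^ η) ^ 2) ^ (k ^ 2) * p.Y0G ε σ' ≤
      (p.n : ℝ) ^ ε * p.PhG ((p.n : ℝ) ^ ε) σ' := by
    have := le_mul_of_one_le_left (y0.le.trans Y1) (one_le_pow₀ (n := 100) one)
    linarith
  obtain ⟨o, v⟩ := L _ _ rfl rfl rfl G.md.cl m a ⟨hm.m1, hm.m2, hm.a1, hm.a2⟩
  have r := o _ _ _ _ (G.sh E1 E2 Y1 Y2)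
    (G.sx hk E1 Ek (pw _ _ (by push_cast; linarith))
      ((pw _ 1 (by push_cast; linarith)).trans_eq (rpow_one _)))
    (fun L u F a b d e f g => (v _ _ _ (G.vh E1 E2) L u F a b d e f g).trans (by gcongr))
  rw [rp_pow, show η * ((1000 * k ^ 3 : ℕ) : ℝ) = ε by rw [e]; push_cast; ring]
  exact r.trans Y3

end Crest.Agent.T156.Alt

end
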