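import Crest.Agent.T156.R1Loc_77
import Crest.Agent.T156.SrP_66

/-!
# Row 156 (helper77): glue for the leaves of `LocG`
-/

set_option autoImplicit false
set_option linter.unusedSectionVars false

noncomputable section

namespace Crest.Agent.T156.Alt.R77

open Real Finset Filter Topology Pre29

/-- **glue**: a class statement `Z` is read at the margin `n ^ (e c)` and the loss `n ^ η` -/
theorem OnG.cl' {X Y : Dt} {Z : CP} {β e c1 : ℝ} (hβ : 1 < β) (L : CL Z) (hY : OnG Y β)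
    (he : 0 < e) (hc1 : 0 < c1) (j A0 : ℕ) (f : ℝ → ℝ)
    (h : ∀ (K c0 C0 : ℝ) (A : ℕ) (c η K' c0' C0' η' : ℝ) (p : Pm) (σ t : ℝ) (Q : Pl),
      Gd66 β c0 C0 A c η K' (c / 1000) K c0' C0' η' p σ t Q → c ≤ c1 → A0 ≤ A → j * η ≤ c →
      f K ≤ (p.n : ℝ) ^ η → (∀ m a, (p.scG K σ t Q).In m a →
        Z ((p.n : ℝ) ^ (e * c)) ((p.n : ℝ) ^ η) (p.scG K σ t Q) (p.gst Q t) m a) →
      Y p σ t (p.scG K σ t Q) (p.gst Q t) → X p σ t (p.scG K σ t Q) (p.gst Q t)) : OnG X β := by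
  intro K k
  have β1 : 0 < β ^ 2 - 1 := by nlinarith
  refine Sml.glueCL hβ (p1G β hβ) (hY K k) L (fun _ => 8 * K ^ 2) (fun c => e * c)
    (fun c hc => mul_pos he hc) fun C hC c0 C0 h0 h1 => ⟨max 4 A0, fun A hA => ⟨min (1 / 1000) c1,
      by positivity, fun c hc c' => ⟨c / (10 ^ 5 + j), by positivity, fun η hη η0 =>
        ⟨max (max (f K) (8 * K ^ 2)) (max (5 * (406 + 8 * K)) ((2 + β ^ 2 * C) / (β ^ 2 - 1))),
          fun p H P y L c0' C0' η' σ t Q O D X => ?_⟩⟩⟩⟩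
  rw [le_div_iff₀ (by positivity)] at hη
  have M := (Gr29.oct_mem O).2
  have Λ := H.Λ0
  have j0 : 0 ≤ η * j := by positivity
  have b1 : 1 + 2 / (p.n : ℝ) ^ η ≤ p.bG t := by
    have a := (P t M).2.2.1.2.2.2
    have b : p.muG t * (p.n : ℝ) ^ η ≤ 1 := H.le_of_lg (mul_pos (H.muG_pos M) Λ) one_pos (by
      rw [logb_mul (H.muG_pos M).ne' Λ.ne', H.lg_rp, logb_one]
      linarith [(H.lg_muG' M).2, H.η_le])
    have d := ((le_max_right _ _).trans (le_max_right _ _)).trans H.K_le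
    rw [div_le_iff₀ β1] at d
    rw [H.hβ, sub_le_comm, le_div_iff₀ (by positivity)] at a
    rw [← sub_nonneg, show p.bG t - (1 + 2 / (p.n : ℝ) ^ η) =
      ((p.bG t - 1) * (p.n : ℝ) ^ η - 2) / (p.n : ℝ) ^ η by field_simp; ring]
    refine div_nonneg ?_ Λ.le
    nlinarith [mul_le_mul_of_nonneg_right a Λ.le,
      mul_le_mul_of_nonneg_left b (show 0 ≤ β ^ 2 * C by positivity)]
  refine h K c0 C0 A c η _ c0' C0' η' p σ t Q
    ⟨H, O, D, X, by linarith, by linarith, hc.trans (min_le_left _ _), (le_max_left _ _).trans hA,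
      ((le_max_right _ _).trans (le_max_left _ _)).trans H.K_le,
      ((le_max_left _ _).trans (le_max_right _ _)).trans H.K_le, b1⟩ (hc.trans (min_le_right _ _))
    ((le_max_right _ _).trans hA)
    (by linarith) (((le_max_left _ _).trans (le_max_left _ _)).trans H.K_le) (fun m a hm => ?_)
    (y c0' C0' η' σ t Q O D X)
  have := L _ _ rfl rfl rfl D.cl.1 m a hm
  rwa [H.hc] at this

theorem OnG.cl {X Y : Dt} {Z : CP} {β e : ℝ} (hβ : 1 < β) (L : CL Z) (hY : OnG Y β) (he : 0 < e)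
    (j A0 : ℕ) (f : ℝ → ℝ)
    (h : ∀ (K c0 C0 : ℝ) (A : ℕ) (c η K' c0' C0' η' : ℝ) (p : Pm) (σ t : ℝ) (Q : Pl),
      Gd66 β c0 C0 A c η K' (c / 1000) K c0' C0' η' p σ t Q → A0 ≤ A → j * η ≤ c →
      f K ≤ (p.n : ℝ) ^ η → (∀ m a, (p.scG K σ t Q).In m a →
        Z ((p.n : ℝ) ^ (e * c)) ((p.n : ℝ) ^ η) (p.scG K σ t Q) (p.gst Q t) m a) →
      Y p σ t (p.scG K σ t Q) (p.gst Q t) → X p σ t (p.scG K σ t Q) (p.gst Q t)) : OnG X β :=
  OnG.cl' hβ L hY he one_pos j A0 f fun K c0 C0 A c η K' c0' C0' η' p σ t Q a _ =>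
    h K c0 C0 A c η K' c0' C0' η' p σ t Q a

theorem OnG.triv (β : ℝ) : OnG (fun _ _ _ _ _ => True) β := fun _ _ =>
  Sml.triv.mono fun _ _ _ _ _ _ _ _ _ _ _ _ => trivial

/-- **glue** without a class statement -/
theorem OnG.imp {X Y : Dt} {β : ℝ} (hβ : 1 < β) (hY : OnG Y β) (j A0 : ℕ) (f : ℝ → ℝ)
    (h : ∀ (K c0 C0 : ℝ) (A : ℕ) (c η K' c0' C0' η' : ℝ) (p : Pm) (σ t : ℝ) (Q : Pl),
      Gd66 β c0 C0 A c η K' (c / 1000) K c0' C0' η' p σ t Q → A0 ≤ A → j * η ≤ c →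
      f K ≤ (p.n : ℝ) ^ η →
      Y p σ t (p.scG K σ t Q) (p.gst Q t) → X p σ t (p.scG K σ t Q) (p.gst Q t)) : OnG X β :=
  OnG.cl hβ CL.triv hY one_pos j A0 f fun K c0 C0 A c η K' c0' C0' η' p σ t Q a b d e _ =>
    h K c0 C0 A c η K' c0' C0' η' p σ t Q a b d e

/-- `LK.tot` from the output of SR -/
theorem totG {β : ℝ} (hβ : 1 < β) (hS : Sr.SrS2) : OnG Totx β := fun K _ =>
  (srP hβ hS K).glue' hβ 0 one_pos 4000 fun c0 C0 A c η _ _ _ _ =>
    ⟨1, fun p R _ _ e h c0' C0' η' σ t Q O D X m a hm => by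
      have M := (Gr29.oct_mem O).2
      have c0 := R.c_pos
      push_cast at e
      refine (h c0' C0' η' σ t Q O D X m a hm).trans ?_
      unfold Pm.PhN
      rw [R.hc]
      exact mul_le_mul (rp_le R.n1 (by linarith))
        (R.PhG_mono M R.Λ0 (rp_le R.n1 (by linarith))) (R.PhG0 M R.Λ0).le (R.rp0 _).le⟩

/-- **`LocG`** -/
theorem locG_of {β : ℝ} (hβ : 1 < β) (hS : Sr.SrS2) (h1 : OnG KNx β) (h2 : OnG NRx β)
    (h3 : OnG NXx β) (h4 : OnG Blkx β) (h5 : OnG Topx β) (h6 : OnG Upx β) : LocG β :=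
  locG_of' (totG hβ hS) h1 h2 h3 h4 h5 h6

end Crest.Agent.T156.Alt.R77

end
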