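import Crest.Agent.T156.PlEx_13

/-!
# Row 156, ALT: the majorant `F` of the static marks on shell grids (helper13)
-/

set_option autoImplicit false
set_option linter.unusedSectionVars false

noncomputable section

namespace Crest.Agent.T156.Alt.Plt13

open Real Set Finset

/-- envelope of the static marks on `[xs, 1)` -/
def env (p : Pm) (μ x : ℝ) : ℝ :=
  fb (p.la μ) (x - p.xs + u0 p μ) + ft (p.Vc μ) (p.la μ) (1 - x) + ft 1 (√(p.u2 μ)) (1 - x)

/-- `D = 1 - xs + u₀` -/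
def DD (p : Pm) (μ : ℝ) : ℝ := 1 - p.xs + u0 p μ

/-- `√(A u) / D` -/
def gg (p : Pm) (μ x : ℝ) : ℝ := √((x - p.xs + u0 p μ) * (1 - x)) / DD p μ

/-- **the majorant** -/
def FF (p : Pm) (μ x : ℝ) : ℝ := 32000 * log p.n * p.la μ * gg p μ x

/-- a grid whose cells lie in shells -/
structure Shg (p : Pm) (μ : ℝ) (x : ℕ → ℝ) (N : ℕ) : Prop where
  lo : p.xs ≤ x 0
  mono : ∀ i < N, x i ≤ x (i + 1)
  hi : (p.n : ℝ) ^ (-(3 : ℝ)) ≤ 1 - x N
  sh : ∀ i < N, x (i + 1) - x i ≤ min (x i - p.xs + u0 p μ) (1 - x (i + 1))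

theorem ft_sq_le {V l u : ℝ} (hV : 0 < V) (hl : 0 < l) (hu : 0 < u) :
    ft V l u ^ 2 ≤ 32 * l * √u * dt V l u := by
  obtain ⟨s, hs, rfl⟩ : ∃ s, 0 < s ∧ u = s ^ 2 := ⟨√u, sqrt_pos.2 hu, (sq_sqrt hu.le).symm⟩
  have a := log_sq_le (t := l / (V * s)) (by positivity)
  unfold ft dt
  rw [sqrt_sq hs.le]
  have e : 32 * l * s * (l * V / (2 * s ^ 2 * (V * s + l))) = 16 * l ^ 2 * V / (s * (V * s + l)) := by
    field_simp; ring
  rw [e, le_div_iff₀ (by positivity)]
  have e2 : (V * log (1 + l / (V * s))) ^ 2 * (s * (V * s + l)) =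
      log (1 + l / (V * s)) ^ 2 * (1 + l / (V * s)) * (V ^ 3 * s ^ 2) := by field_simp
  have e3 : 16 * l ^ 2 * V = 16 * (l / (V * s)) ^ 2 * (V ^ 3 * s ^ 2) := by field_simp
  rw [e2, e3]
  exact mul_le_mul_of_nonneg_right a (by positivity)

theorem fb_sq {l A : ℝ} (hA : 0 < A) : fb l A ^ 2 = 2 * l * √A * db l A := by
  obtain ⟨s, hs, rfl⟩ : ∃ s, 0 < s ∧ A = s ^ 2 := ⟨√A, sqrt_pos.2 hA, (sq_sqrt hA.le).symm⟩
  unfold fb db
  rw [sqrt_sq hs.le]
  field_simp

namespace Nm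

variable {p : Pm} {μ : ℝ} (h : Nm p μ)
include h

theorem D_pos : 0 < DD p μ := by unfold DD; linarith [h.xs1, h.u0p]
theorem D_le : DD p μ ≤ 2 := by unfold DD; linarith [h.x0, h.u0_le]
theorem gg_nn (x : ℝ) : 0 ≤ gg p μ x := div_nonneg (sqrt_nonneg _) h.D_pos.le
theorem KK_nn : 0 ≤ 32000 * log p.n * p.la μ :=
  mul_nonneg (mul_nonneg (by norm_num) (by linarith [h.l1])) h.lp.le
theorem FF_nn (x : ℝ) : 0 ≤ FF p μ x := mul_nonneg h.KK_nn (h.gg_nn x)

theorem gg_le (x : ℝ) : gg p μ x ≤ 1 / 2 := by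
  unfold gg
  rw [div_le_iff₀ h.D_pos, sqrt_le_left (by linarith [h.D_pos])]
  unfold DD
  nlinarith [sq_nonneg (x - p.xs + u0 p μ - (1 - x))]

/-- `F ≤ C la log n` -/
theorem FF_le (x : ℝ) : FF p μ x ≤ 16000 * log p.n * p.la μ := by
  have := mul_le_mul_of_nonneg_left (h.gg_le x) h.KK_nn
  unfold FF; linarith

theorem gg_top {x : ℝ} (h1 : x ≤ 1) : gg p μ x ≤ √((1 - x) / DD p μ) := by
  have D := h.D_pos
  unfold gg
  rw [div_le_iff₀ D]
  refine sqrt_le_iff.2 ⟨by positivity, ?_⟩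
  rw [mul_pow, sq_sqrt (div_nonneg (by linarith) D.le)]
  have : (1 - x) / DD p μ * DD p μ ^ 2 = DD p μ * (1 - x) := by field_simp
  rw [this]
  exact mul_le_mul_of_nonneg_right (by unfold DD; linarith) (by linarith)

theorem gg_bot {x : ℝ} (h0 : p.xs ≤ x) : gg p μ x ≤ √((x - p.xs + u0 p μ) / DD p μ) := by
  have D := h.D_pos
  have A : 0 ≤ x - p.xs + u0 p μ := by linarith [h.u0p]
  unfold gg
  rw [div_le_iff₀ D]
  refine sqrt_le_iff.2 ⟨by positivity, ?_⟩
  rw [mul_pow, sq_sqrt (div_nonneg A D.le)]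
  have : (x - p.xs + u0 p μ) / DD p μ * DD p μ ^ 2 = (x - p.xs + u0 p μ) * DD p μ := by field_simp
  rw [this]
  exact mul_le_mul_of_nonneg_left (by unfold DD; linarith [h.u0p]) A

theorem sqrt_le_gg {a b x : ℝ} (ha : 0 ≤ a) (hab : a ≤ b) (e : a + b = DD p μ)
    (e' : a * b = (x - p.xs + u0 p μ) * (1 - x)) : √a ≤ 2 * gg p μ x := by
  have D := h.D_pos
  have D2 := h.D_le
  unfold gg
  rw [← e', ← mul_div_assoc, le_div_iff₀ D]
  have q : (√a * DD p μ) ^ 2 ≤ (2 * √(a * b)) ^ 2 := by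
    rw [mul_pow, mul_pow, sq_sqrt ha, sq_sqrt (mul_nonneg ha (ha.trans hab))]
    have : DD p μ ^ 2 ≤ 4 * b := by nlinarith
    nlinarith [mul_le_mul_of_nonneg_left this ha]
  exact (pow_le_pow_iff_left₀ (by positivity) (by positivity) two_ne_zero).1 q

theorem env_nn (x : ℝ) : 0 ≤ env p μ x :=
  add_nonneg (add_nonneg (div_nonneg h.lp.le (sqrt_nonneg _)) (ft_nn h.Vp h.lp.le _))
    (ft_nn one_pos h.sp.le _)

theorem abs_rF_env {x : ℝ} (h0 : p.xs ≤ x) (hx : x < 1) : |p.rF μ x| ≤ env p μ x :=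
  h.abs_rF_hi h0 hx

/-- on a shell the envelope at most doubles -/
theorem env_shell {x x' : ℝ} (h0 : p.xs ≤ x) (h1 : x ≤ x') (h2 : x' < 1) (hs : x' - x ≤ 1 - x') :
    env p μ x' ≤ 2 * env p μ x := by
  have pA : 0 < x - p.xs + u0 p μ := by linarith [h.u0p]
  have a : fb (p.la μ) (x' - p.xs + u0 p μ) ≤ fb (p.la μ) (x - p.xs + u0 p μ) :=
    div_le_div_of_nonneg_left h.lp.le (sqrt_pos.2 pA) (sqrt_le_sqrt (by linarith))
  have a0 : 0 ≤ fb (p.la μ) (x - p.xs + u0 p μ) := div_nonneg h.lp.le (sqrt_nonneg _)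
  have b := ft_shell h.Vp h.lp.le (u' := 1 - x') (u := 1 - x) (by linarith) (by linarith) (by linarith)
  have c := ft_shell one_pos h.sp.le (u' := 1 - x') (u := 1 - x) (by linarith) (by linarith)
    (by linarith)
  unfold env; linarith

/-- **the local ratio** -/
theorem env_sq_le {x : ℝ} (h0 : p.xs ≤ x) (h1 : x < 1) :
    env p μ x ^ 2 ≤ 408 * p.la μ * gg p μ x * dn p μ x := by
  have pA : 0 < x - p.xs + u0 p μ := by linarith [h.u0p]
  have pu : 0 < 1 - x := by linarith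
  have lp := h.lp
  have g0 := h.gg_nn x
  set A := x - p.xs + u0 p μ with hA
  set u := 1 - x with hu
  set l := p.la μ with hl
  set g := gg p μ x with hg
  have d1 := (db_pos lp pA).le
  have d2 := dt_nn h.Vp lp.le pu
  have d3 := dt_nn one_pos h.sp.le pu
  have e : dn p μ x = db l A + dt (p.Vc μ) l u + dt 1 (√(p.u2 μ)) u := by
    unfold dn; rw [den_eq h0 h1, add_zero]
  have s3 : env p μ x ^ 2 ≤ 3 * (fb l A ^ 2 + ft (p.Vc μ) l u ^ 2 + ft 1 (√(p.u2 μ)) u ^ 2) := by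
    unfold env
    rw [← hA, ← hu, ← hl]
    nlinarith [sq_nonneg (fb l A - ft (p.Vc μ) l u), sq_nonneg (fb l A - ft 1 (√(p.u2 μ)) u),
      sq_nonneg (ft (p.Vc μ) l u - ft 1 (√(p.u2 μ)) u)]
  have lg : 0 ≤ l * g := mul_nonneg lp.le g0
  rw [e]
  rcases le_total A u with c | c
  · have s := h.sqrt_le_gg (x := x) pA.le c (by unfold DD; ring) rfl
    have f1 := fb_sq (l := l) pA
    have m : l / √u ≤ fb l A := div_le_div_of_nonneg_left lp.le (sqrt_pos.2 pA) (sqrt_le_sqrt c)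
    have f2 : ft (p.Vc μ) l u ^ 2 ≤ fb l A ^ 2 :=
      pow_le_pow_left₀ (ft_nn h.Vp lp.le u) ((ft_le h.Vp lp.le u).trans m) 2
    have f3 : ft 1 (√(p.u2 μ)) u ^ 2 ≤ fb l A ^ 2 :=
      pow_le_pow_left₀ (ft_nn one_pos h.sp.le u) ((ft_le one_pos h.sp.le u).trans
        ((div_le_div_of_nonneg_right h.u2l (sqrt_nonneg u)).trans m)) 2
    have f4 : fb l A ^ 2 ≤ 4 * (l * g * db l A) := by
      rw [f1]; nlinarith [mul_le_mul_of_nonneg_left s (mul_nonneg lp.le d1)]
    nlinarith [mul_nonneg lg d1, mul_nonneg lg d2, mul_nonneg lg d3]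
  · have s := h.sqrt_le_gg (x := x) pu.le c (by unfold DD; ring) (mul_comm _ _)
    have f2 := ft_sq_le h.Vp lp pu
    have f3 := ft_sq_le one_pos h.sp pu
    have f2' : ft (p.Vc μ) l u ^ 2 ≤ 64 * (l * g * dt (p.Vc μ) l u) := by
      nlinarith [mul_le_mul_of_nonneg_left s (mul_nonneg lp.le d2)]
    have f3' : ft 1 (√(p.u2 μ)) u ^ 2 ≤ 64 * (l * g * dt 1 (√(p.u2 μ)) u) := by
      have := mul_le_mul h.u2l s (sqrt_nonneg _) lp.le
      nlinarith [mul_le_mul_of_nonneg_left this d3]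
    have f1 : fb l A ^ 2 ≤ 8 * (l * g * dt (p.Vc μ) l u) := by
      have D := h.D_pos
      have su := sqrt_pos.2 pu
      have u1 : √u ≤ 1 := sqrt_le_one.2 (by linarith [h.x0])
      have k1 : u / A ≤ 2 * g := by
        have : u ≤ √(A * u) := le_sqrt_of_sq_le (by nlinarith)
        have e' : DD p μ = A + u := by unfold DD; ring
        rw [hg]; unfold gg
        rw [← hA, ← hu, ← mul_div_assoc, div_le_div_iff₀ pA D, e']
        nlinarith
      have k2 : l / (4 * u) ≤ dt (p.Vc μ) l u := by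
        unfold dt
        rw [div_le_div_iff₀ (by positivity) (by have := h.Vp; positivity)]
        have : p.Vc μ * √u + l ≤ 2 * p.Vc μ := by nlinarith [h.lV, h.Vp]
        nlinarith [mul_le_mul_of_nonneg_left this (mul_nonneg lp.le pu.le)]
      have e1 : fb l A ^ 2 = 4 * l * (u / A) * (l / (4 * u)) := by
        unfold fb; rw [div_pow, sq_sqrt pA.le]; field_simp
      rw [e1]
      have := mul_le_mul k1 k2 (by positivity) (by positivity)
      nlinarith [mul_le_mul_of_nonneg_left this lp.le]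
    nlinarith [mul_nonneg lg d1, mul_nonneg lg d2, mul_nonneg lg d3]

theorem gg_up {x x' : ℝ} (h0 : p.xs ≤ x) (h1 : x ≤ x') (h2 : x' ≤ 1)
    (h4 : x' - p.xs + u0 p μ ≤ 4 * (x - p.xs + u0 p μ)) : gg p μ x' ≤ 2 * gg p μ x := by
  have pA : 0 < x - p.xs + u0 p μ := by linarith [h.u0p]
  unfold gg
  rw [← mul_div_assoc]
  refine div_le_div_of_nonneg_right (sqrt_le_iff.2 ⟨by positivity, ?_⟩) h.D_pos.le
  rw [mul_pow, sq_sqrt (mul_nonneg pA.le (by linarith))]
  nlinarith [mul_le_mul h4 (show 1 - x' ≤ 1 - x by linarith) (by linarith) (by linarith)]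

/-- the rise of `rF` is at least that of the bottom part -/
theorem rise_ge {a b : ℝ} (ha : p.xs ≤ a) (hab : a ≤ b) (hb : b < 1) :
    fb (p.la μ) (a - p.xs + u0 p μ) - fb (p.la μ) (b - p.xs + u0 p μ) ≤ p.rF μ b - p.rF μ a := by
  rw [h.rF_hi ha, h.rF_hi (ha.trans hab)]
  linarith [(h.top_mono hab hb).1]

/-- **slope at least `la / 8`** -/
theorem slope_ge {a b : ℝ} (ha : p.xs ≤ a) (hab : a ≤ b) (hb : b < 1) :
    p.la μ / 8 * (b - a) ≤ p.rF μ b - p.rF μ a := by
  have pA : 0 < a - p.xs + u0 p μ := by linarith [h.u0p]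
  have i := (Rs13.inv_sqrt_sub h.lp.le pA (u' := b - p.xs + u0 p μ) (by linarith)).1
  have pB : 0 < b - p.xs + u0 p μ := by linarith
  have B2 : b - p.xs + u0 p μ ≤ 2 := by linarith [h.u0_le, h.x0]
  have s := sqrt_pos.2 pB
  have s2 : √(b - p.xs + u0 p μ) ≤ 2 := by rw [sqrt_le_left (by norm_num)]; linarith
  have j : p.la μ * (b - a) / 8 ≤ p.la μ * (b - a) /
      (2 * ((b - p.xs + u0 p μ) * √(b - p.xs + u0 p μ))) :=
    div_le_div_of_nonneg_left (mul_nonneg h.lp.le (by linarith)) (by positivity) (by nlinarith)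
  rw [show b - p.xs + u0 p μ - (a - p.xs + u0 p μ) = b - a by ring] at i
  have r := h.rise_ge ha hab hb
  unfold fb at r
  linarith

theorem monoOn : MonotoneOn (p.rF μ) (Set.Ico p.xs 1) := fun _ ha _ hb hab =>
  h.clw.le ha.1 hab hb.2

/-- total rise -/
theorem rise_le {a b : ℝ} (ha : a < 1) (hb : (p.n : ℝ) ^ (-(3 : ℝ)) ≤ 1 - b) :
    p.rF μ b - p.rF μ a ≤ 7 * log p.n := by
  linarith [(abs_le.1 (h.abs_rF_log hb)).2, (h.rF_bd ha).1, h.u0_le, h.l1]

end Nm

namespace Shg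

variable {p : Pm} {μ : ℝ} {x : ℕ → ℝ} {N : ℕ} (G : Shg p μ x N)
include G

theorem le {i j : ℕ} (hij : i ≤ j) (hj : j ≤ N) : x i ≤ x j := by
  induction j, hij using Nat.le_induction with
  | base => exact le_rfl
  | succ j _ ih => exact (ih (by omega)).trans (G.mono j (by omega))

theorem ge {i : ℕ} (hi : i ≤ N) : p.xs ≤ x i := G.lo.trans (G.le (Nat.zero_le i) hi)

theorem top {i : ℕ} (hi : i ≤ N) : (p.n : ℝ) ^ (-(3 : ℝ)) ≤ 1 - x i := by
  linarith [G.hi, G.le hi le_rfl]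

theorem lt (h : Nm p μ) {i : ℕ} (hi : i ≤ N) : x i < 1 := by
  linarith [G.top hi, rpow_pos_of_pos h.np (-(3 : ℝ))]

/-- **total second moment of the envelope** -/
theorem sum_env (h : Nm p μ) : ∑ i ∈ range N, (x (i + 1) - x i) * env p μ (x i) ^ 2 ≤
    400 * (p.la μ ^ 2 * log p.n) := by
  have pA : 0 < x 0 - p.xs + u0 p μ := by linarith [G.lo, h.u0p]
  have pu : ∀ i < N, 0 < 1 - x i := fun i hi => by linarith [G.lt h hi.le]
  have a := sum_fb_two (l := p.la μ) (fun i => x i - p.xs + u0 p μ) N pA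
    (fun i hi => by linarith [G.mono i hi])
    (fun i hi => by linarith [(le_min_iff.1 (G.sh i hi)).1])
  have b := sum_ft_two h.Vp h.lp (fun i => 1 - x i) N (by linarith [G.lo, h.x0])
    pu (fun i hi => by linarith [G.mono i hi]) (fun i hi => by linarith [G.lt h (i := i + 1) hi])
  have c := sum_ft_two one_pos h.sp (fun i => 1 - x i) N (by linarith [G.lo, h.x0])
    pu (fun i hi => by linarith [G.mono i hi]) (fun i hi => by linarith [G.lt h (i := i + 1) hi])
  have np := h.np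
  have n2 := h.n2
  have L2 : ∀ t : ℝ, 0 < t → t ≤ 2 * p.n → log t ≤ 2 * log p.n := fun t t0 t1 => by
    have := log_le_log t0 (show t ≤ (p.n : ℝ) ^ 2 by nlinarith)
    rwa [log_pow] at this
  have nu : 1 ≤ u0 p μ * p.n := by
    have := h.nl.trans h.l_le_u0
    rwa [div_le_iff₀ np] at this
  have nl : 1 ≤ p.la μ * p.n := by have := h.nl; rwa [div_le_iff₀ np] at this
  have ns : 1 ≤ √(p.u2 μ) * p.n := by have := h.ns; rwa [div_le_iff₀ np] at this
  have a' : log ((x N - p.xs + u0 p μ) / (x 0 - p.xs + u0 p μ)) ≤ 2 * log p.n := by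
    refine L2 _ (div_pos (by linarith [G.ge le_rfl, h.u0p]) pA) ?_
    rw [div_le_iff₀ pA]
    nlinarith [h.x0, h.u0_le, G.lt h le_rfl, mul_nonneg np.le (sub_nonneg.2 G.lo)]
  have b' : log (1 + p.Vc μ / p.la μ) ≤ 2 * log p.n := by
    have : p.Vc μ / p.la μ ≤ p.n := by rw [div_le_iff₀ h.lp]; nlinarith [h.V1]
    exact L2 _ (by have := div_pos h.Vp h.lp; linarith) (by linarith)
  have c' : log (1 + 1 / √(p.u2 μ)) ≤ 2 * log p.n := by
    have : 1 / √(p.u2 μ) ≤ p.n := by rw [div_le_iff₀ h.sp]; nlinarith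
    exact L2 _ (by have := one_div_pos.2 h.sp; linarith) (by linarith)
  have s : ∑ i ∈ range N, (x (i + 1) - x i) * env p μ (x i) ^ 2 ≤ 3 *
      (∑ i ∈ range N, ((x (i + 1) - p.xs + u0 p μ) - (x i - p.xs + u0 p μ)) *
          fb (p.la μ) (x i - p.xs + u0 p μ) ^ 2 +
        ∑ i ∈ range N, ((1 - x i) - (1 - x (i + 1))) * ft (p.Vc μ) (p.la μ) (1 - x i) ^ 2 +
        ∑ i ∈ range N, ((1 - x i) - (1 - x (i + 1))) * ft 1 (√(p.u2 μ)) (1 - x i) ^ 2) := by
    rw [← sum_add_distrib, ← sum_add_distrib, mul_sum]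
    refine sum_le_sum fun i hi => ?_
    have d := sub_nonneg.2 (G.mono i (mem_range.1 hi))
    have q : ∀ a b c : ℝ, (a + b + c) ^ 2 ≤ 3 * (a ^ 2 + b ^ 2 + c ^ 2) := fun a b c => by
      nlinarith [sq_nonneg (a - b), sq_nonneg (a - c), sq_nonneg (b - c)]
    refine (mul_le_mul_of_nonneg_left (q _ _ _) d).trans (le_of_eq ?_)
    ring
  have q := sq_nonneg (p.la μ)
  have r : √(p.u2 μ) ^ 2 ≤ p.la μ ^ 2 := pow_le_pow_left₀ h.sp.le h.u2l 2
  have l0 : 0 ≤ log (p.n : ℝ) := by linarith [h.l1]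
  have a2 := mul_le_mul_of_nonneg_left a' q
  have b2 := mul_le_mul_of_nonneg_left b' q
  have c2 := mul_le_mul r c' (log_nonneg (le_add_of_nonneg_right (one_div_pos.2 h.sp).le)) q
  have z := mul_nonneg q l0
  linarith

/-- one cell -/
theorem cell (h : Nm p μ) {i : ℕ} (hi : i < N) : (x (i + 1) - x i) * env p μ (x i) ^ 2 ≤
    15912 * p.la μ * gg p μ (x i) * (p.rF μ (x (i + 1)) - p.rF μ (x i)) := by
  have a := h.env_sq_le (G.ge hi.le) (G.lt h hi.le)
  have b := (h.clw.slope _ _ (G.ge hi.le) (G.mono i hi) (G.lt h hi) (G.sh i hi)).1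
  have c := mul_le_mul_of_nonneg_left a (sub_nonneg.2 (G.mono i hi))
  have d := mul_le_mul_of_nonneg_left b (mul_nonneg h.lp.le (h.gg_nn (x i)))
  linarith

/-- **the majorant** -/
theorem maj (h : Nm p μ) {j k : ℕ} (hjk : j ≤ k) (hk : k ≤ N) :
    ∑ i ∈ Finset.Ico j k, (x (i + 1) - x i) * env p μ (x i) ^ 2 ≤
      FF p μ (x j) * (p.rF μ (x k) - p.rF μ (x j)) := by
  have hj : j ≤ N := hjk.trans hk
  have pA : 0 < x j - p.xs + u0 p μ := by linarith [G.ge hj, h.u0p]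
  have r0 : 0 ≤ p.rF μ (x k) - p.rF μ (x j) :=
    sub_nonneg.2 (h.clw.le (G.ge hj) (G.le hjk hk) (G.lt h hk))
  have lg := mul_nonneg h.lp.le (h.gg_nn (x j))
  have l1 := h.l1
  have z := mul_nonneg lg r0
  have w := mul_le_mul_of_nonneg_right l1 z
  rcases le_total (x k - p.xs + u0 p μ) (4 * (x j - p.xs + u0 p μ)) with c | c
  · have s : ∑ i ∈ Finset.Ico j k, (x (i + 1) - x i) * env p μ (x i) ^ 2 ≤ ∑ i ∈ Finset.Ico j k,
        31824 * (p.la μ * gg p μ (x j)) * (p.rF μ (x (i + 1)) - p.rF μ (x i)) := by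
      refine sum_le_sum fun i hi => ?_
      have m := Finset.mem_Ico.1 hi
      have iN : i < N := by omega
      have g := h.gg_up (G.ge hj) (G.le m.1 iN.le) (G.lt h iN.le).le
        (by linarith [G.le m.2.le hk])
      have d : 0 ≤ p.rF μ (x (i + 1)) - p.rF μ (x i) :=
        sub_nonneg.2 (h.clw.le (G.ge iN.le) (G.mono i iN) (G.lt h iN))
      have := mul_le_mul_of_nonneg_right (mul_le_mul_of_nonneg_left g h.lp.le) d
      linarith [G.cell h iN]
    rw [← mul_sum, Finset.sum_Ico_sub (fun i => p.rF μ (x i)) hjk] at s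
    unfold FF
    linarith
  · have s : ∑ i ∈ Finset.Ico j k, (x (i + 1) - x i) * env p μ (x i) ^ 2 ≤
        ∑ i ∈ range N, (x (i + 1) - x i) * env p μ (x i) ^ 2 :=
      sum_le_sum_of_subset_of_nonneg (fun i hi => by
        have := Finset.mem_Ico.1 hi
        exact mem_range.2 (by omega)) fun i hi _ =>
          mul_nonneg (sub_nonneg.2 (G.mono i (mem_range.1 hi))) (sq_nonneg _)
    have t := G.sum_env h
    have sA := sqrt_pos.2 pA
    have a := h.rise_ge (G.ge hj) (G.le hjk hk) (G.lt h hk)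
    have b : fb (p.la μ) (x k - p.xs + u0 p μ) ≤ p.la μ / (2 * √(x j - p.xs + u0 p μ)) :=
      div_le_div_of_nonneg_left h.lp.le (by positivity) (le_sqrt_of_sq_le (by
        rw [mul_pow, sq_sqrt pA.le]; linarith))
    have e : fb (p.la μ) (x j - p.xs + u0 p μ) = 2 * (p.la μ / (2 * √(x j - p.xs + u0 p μ))) := by
      unfold fb; field_simp
    have d : p.la μ / (2 * √(x j - p.xs + u0 p μ)) ≤ p.rF μ (x k) - p.rF μ (x j) := by linarith
    rw [div_le_iff₀ (by positivity)] at d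
    have g := h.sqrt_le_gg (x := x j) (b := 1 - x j) pA.le
      (by linarith [G.lt h hk, h.u0_le, G.le hjk hk, h.u0p, G.ge hj]) (by unfold DD; ring) rfl
    have d' : p.la μ ≤ 4 * (gg p μ (x j) * (p.rF μ (x k) - p.rF μ (x j))) := by
      nlinarith [mul_le_mul_of_nonneg_left g r0]
    have := mul_le_mul_of_nonneg_left d' (mul_nonneg h.lp.le (by linarith : (0:ℝ) ≤ log p.n))
    unfold FF
    nlinarith

/-- **the majorant, cells shifted by one** (adjacent weights comparable) -/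
theorem maj' (h : Nm p μ) {κ : ℝ} (hκ : 0 ≤ κ)
    (hc : ∀ i, i + 1 < N → x (i + 2) - x (i + 1) ≤ κ * (x (i + 1) - x i)) {j k : ℕ} (hjk : j ≤ k)
    (hk : k < N) : ∑ i ∈ Finset.Ioc j k, (x (i + 1) - x i) * env p μ (x i) ^ 2 ≤
      4 * κ * FF p μ (x j) * (p.rF μ (x k) - p.rF μ (x j)) := by
  have e : ∑ i ∈ Finset.Ioc j k, (x (i + 1) - x i) * env p μ (x i) ^ 2 =
      ∑ i ∈ Finset.Ico j k, (x (i + 2) - x (i + 1)) * env p μ (x (i + 1)) ^ 2 := by
    rw [← Finset.Ico_add_one_add_one_eq_Ioc, ← Finset.sum_Ico_add']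
  have s : ∑ i ∈ Finset.Ico j k, (x (i + 2) - x (i + 1)) * env p μ (x (i + 1)) ^ 2 ≤
      ∑ i ∈ Finset.Ico j k, 4 * κ * ((x (i + 1) - x i) * env p μ (x i) ^ 2) := by
    refine sum_le_sum fun i hi => ?_
    have m := Finset.mem_Ico.1 hi
    have iN : i < N := by omega
    have a := pow_le_pow_left₀ (h.env_nn _) (h.env_shell (G.ge iN.le) (G.mono i iN) (G.lt h iN)
      (le_min_iff.1 (G.sh i iN)).2) 2
    have b := mul_le_mul (hc i (by omega)) a (sq_nonneg _)
      (mul_nonneg hκ (sub_nonneg.2 (G.mono i iN)))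
    linarith
  rw [← mul_sum] at s
  have t := mul_le_mul_of_nonneg_left (G.maj h hjk hk.le) (by positivity : 0 ≤ 4 * κ)
  rw [e]
  linarith

theorem sum_dgg (h : Nm p μ) : ∑ i ∈ range N,
    (gg p μ (x (i + 1)) - gg p μ (x i)) ^ 2 / (x (i + 1) - x i) ≤ 7 * log p.n / DD p μ := by
  have D := h.D_pos
  have key := tele_le (fun i => (gg p μ (x (i + 1)) - gg p μ (x i)) ^ 2 / (x (i + 1) - x i))
    (fun i => (2 * log (x i - p.xs + u0 p μ) - log (1 - x i)) / DD p μ) N fun i hi => by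
      have pA : 0 < x i - p.xs + u0 p μ := by linarith [G.ge hi.le, h.u0p]
      have pu' : 0 < 1 - x (i + 1) := by linarith [G.lt h (i := i + 1) hi]
      have sh := le_min_iff.1 (G.sh i hi)
      rcases (G.mono i hi).eq_or_lt with c | c
      · simp [← c]
      obtain ⟨d, d0, e⟩ : ∃ d, 0 < d ∧ x (i + 1) = x i + d := ⟨_, sub_pos.2 c, by ring⟩
      obtain ⟨A, hA⟩ : ∃ A, A = x i - p.xs + u0 p μ := ⟨_, rfl⟩
      obtain ⟨u, hu⟩ : ∃ u, u = 1 - x i := ⟨_, rfl⟩
      have eD : DD p μ = A + u := by unfold DD; rw [hA, hu]; ring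
      have e1 : x (i + 1) - p.xs + u0 p μ = A + d := by rw [e, hA]; ring
      have e2 : 1 - x (i + 1) = u - d := by rw [e, hu]; ring
      have e3 : x (i + 1) - x i = d := by rw [e]; ring
      unfold gg
      rw [e3, e2] at sh
      rw [e2] at pu'
      rw [e1, e2, e3, ← hA, ← hu, eD]
      rw [← hA] at pA sh
      have pu : 0 < u := by linarith
      have la := log_le_sub_one_of_pos (x := A / (A + d)) (by positivity)
      have lu := log_le_sub_one_of_pos (x := (u - d) / u) (by positivity)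
      rw [log_div pA.ne' (by positivity)] at la
      rw [log_div pu'.ne' pu.ne'] at lu
      have f1 : A / (A + d) - 1 = -(d / (A + d)) := by field_simp; ring
      have f2 : (u - d) / u - 1 = -(d / u) := by field_simp; ring
      have f3 : d / A ≤ 2 * (d / (A + d)) := by
        rw [← mul_div_assoc, div_le_div_iff₀ pA (by positivity)]; nlinarith [sh.1]
      have s0 := sqrt_pos.2 (mul_pos pA pu)
      have s1 := sqrt_pos.2 (mul_pos (add_pos pA d0) pu')
      set a := √(A * u) with ha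
      set b := √((A + d) * (u - d)) with hb
      have a2 : a ^ 2 = A * u := sq_sqrt (by positivity)
      have b2 : b ^ 2 = (A + d) * (u - d) := sq_sqrt (by positivity)
      have g1 : (b - a) * (b + a) = d * (u - d - A) := by nlinarith
      have g2 : (b - a) ^ 2 * (A * u) ≤ d ^ 2 * (A + u) ^ 2 := by
        have t1 : ((b - a) * (b + a)) ^ 2 ≤ d ^ 2 * (A + u) ^ 2 := by
          rw [g1, mul_pow]
          exact mul_le_mul_of_nonneg_left (by nlinarith) (sq_nonneg d)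
        have t2 : A * u ≤ (b + a) ^ 2 := by nlinarith
        nlinarith [mul_le_mul_of_nonneg_left t2 (sq_nonneg (b - a))]
      have g3 : (b / (A + u) - a / (A + u)) ^ 2 / d ≤ (d / A + d / u) / (A + u) := by
        rw [← sub_div, div_pow, div_div, div_le_div_iff₀ (by positivity) (by positivity)]
        have : (d / A + d / u) * ((A + u) ^ 2 * d) = d ^ 2 * (A + u) ^ 2 / (A * u) * (A + u) := by
          field_simp; ring
        rw [this]
        refine mul_le_mul_of_nonneg_right ?_ (by positivity)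
        rw [le_div_iff₀ (by positivity)]
        exact g2
      refine g3.trans ?_
      rw [← sub_div]
      exact div_le_div_of_nonneg_right (by linarith) (by positivity)
  refine key.trans ?_
  rw [← sub_div]
  refine div_le_div_of_nonneg_right ?_ D.le
  have np := h.np
  have a : log (x N - p.xs + u0 p μ) ≤ log p.n :=
    log_le_log (by linarith [G.ge le_rfl, h.u0p]) (by linarith [G.lt h le_rfl, h.x0, h.u0_le, h.n2])
  have b : log (1 / (p.n : ℝ)) ≤ log (x 0 - p.xs + u0 p μ) :=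
    log_le_log (by positivity) (by linarith [G.lo, h.nl, h.l_le_u0])
  rw [one_div, log_inv] at b
  have c : log ((p.n : ℝ) ^ (-(3 : ℝ))) ≤ log (1 - x N) := log_le_log (by positivity) G.hi
  rw [log_rpow np] at c
  have d : log (1 - x 0) ≤ 0 := log_nonpos (by linarith [G.lt h (Nat.zero_le N)])
    (by linarith [G.lo, h.x0])
  linarith

/-- **the `H¹` norm of the majorant** -/
theorem sum_dFF (h : Nm p μ) : ∑ i ∈ range N,
    (FF p μ (x (i + 1)) - FF p μ (x i)) ^ 2 / (x (i + 1) - x i) ≤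
      (32000 * log p.n * p.la μ) ^ 2 * (7 * log p.n / DD p μ) := by
  refine le_trans (le_of_eq ?_) (mul_le_mul_of_nonneg_left (G.sum_dgg h) (sq_nonneg _))
  rw [mul_sum]
  refine sum_congr rfl fun i _ => ?_
  unfold FF
  rw [← mul_sub, mul_pow, mul_div_assoc]

end Shg

/-- static plateau data are a shell grid -/
theorem shg_of {p : Pm} {μ : ℝ} {P : Pl} (h : Nm p μ) (H : p.PlOk μ P) : Shg p μ P.x P.I :=
  ⟨H.x0.ge, fun i _ => H.xm.monotone (Nat.le_succ i), H.e1, fun _ hi => x_shell h H hi⟩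

/-- adjacent weights are comparable -/
theorem x_adj {p : Pm} {μ : ℝ} {P : Pl} (h : Nm p μ) (H : p.PlOk μ P) (i : ℕ) (hi : i + 1 < P.I) :
    P.x (i + 2) - P.x (i + 1) ≤ 18252 * (P.x (i + 1) - P.x i) := by
  have a := (x_plat h H hi).2
  have b := (x_plat h H (i := i) (by omega)).1
  have c := (h.dens (x_ge h H i) (H.xm.monotone (Nat.le_succ i)) (x_lt h H hi.le)
    (x_shell h H (by omega))).1
  have d := h.den0 (P.x i)
  have e : 0 ≤ P.x (i + 2) - P.x (i + 1) := sub_nonneg.2 (H.xm.monotone (Nat.le_succ (i + 1)))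
  have f := mul_le_mul_of_nonneg_left c e
  have g : (P.x (i + 2) - P.x (i + 1)) * dn p μ (P.x i) ≤
      18252 * (P.x (i + 1) - P.x i) * dn p μ (P.x i) := by
    have : P.x (i + 1 + 1) = P.x (i + 2) := rfl
    rw [this] at a
    simp only [Nat.succ_eq_add_one] at f
    linarith
  exact le_of_mul_le_mul_right g d

end Crest.Agent.T156.Alt.Plt13

end
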