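import Crest.Agent.T156.SprDef_59

/-!
# Row 156, stage C: the membership inputs (helper41)
-/

set_option autoImplicit false

noncomputable section

namespace Crest.Agent.T156.Alt

open Set

/-- `M` lies in the class with the scales of `p`, `P` at the end of the path -/
def MemC (C : ℝ) (p : Pm) (P : Pl) (M : Md) : Prop :=
  ∃ S : Sc, Cl S M ∧ S.C = C ∧ S.n = p.n ∧ S.A = p.A ∧ S.v = p.v ∧ S.amax = p.am ∧
    S.ms = p.ms 1 p.ye ∧ S.j0 = p.jf ∧ S.jl = p.jf ∧ S.J = p.J ∧ S.Jp = p.Jp P ∧ S.F = 1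

/-- membership along the segment `C1` -/
def Mem1 (g C : ℝ) (p : Pm) : Prop :=
  ∀ P, p.PlOk p.μe P → ∀ t ∈ Icc (0 : ℝ) 1, MemC C p P (p.c1M g P t)

/-- membership along the segments `C2` -/
def Mem2 (g C : ℝ) (p : Pm) : Prop :=
  ∀ α α' P, 0 < α → α ≤ 1 → α / 2 ≤ α' → α' ≤ α → p.AlOk g α P → MemC C p P (p.alM g P α')

end Crest.Agent.T156.Alt

end
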