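import Crest.Agent.T156.KnQ_72
import Crest.Agent.T156.GrMem_37

/-!
# Row 156: the plateau fields of `R62.KN` on the graded path (helper72)
-/

set_option autoImplicit false
set_option linter.unusedSectionVars false

noncomputable section

namespace Crest.Agent.T156.Alt.Kn72

open Real Finset Plt13 R62 Mem37

variable {β c0 C0 c0' C0' η' : ℝ} {A : ℕ} {c η K K' : ℝ} {p : Pm} {σ σ' : ℝ} {Q : Pl}

/-- the mass at which the plateau of the octave is read -/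
abbrev nu (p : Pm) (σ : ℝ) : ℝ := p.mt (p.muG σ)

theorem z_xs (G : GrD K c0' C0' η' p σ σ' Q) :
    (p.gst Q σ').z ((p.scG K σ σ' Q).J - 1) = p.xs := by
  have a : p.jf + 1 < p.J := G.cl.1.i2
  change p.zP Q (max (p.J - 1) p.jf) = _
  rw [max_eq_left (by omega), zP_lo (by omega)]; rfl

theorem jj : (p.scG K σ σ' Q).j0 = (p.scG K σ σ' Q).jl := rfl

/-- **`KN.flat`** -/
theorem flat (G : GrD K c0' C0' η' p σ σ' Q) (hg : Q.γ = 0) :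
    ∀ k, (p.scG K σ σ' Q).J ≤ k → k ≤ (p.scG K σ σ' Q).Jp →
      (p.gst Q σ').s k = (p.gst Q σ').s (p.scG K σ σ' Q).J := fun k a b => by
  have g := G.memD.geo
  change p.sO Q _ k = p.sO Q _ p.J
  rw [g.sP_hi a, g.sP_J, hg, Nat.sub_eq_zero_of_le (show k ≤ p.Jp Q from b)]; simp

/-- **the static density on the graded path** -/
theorem sd_gst (H : Reg β c0 C0 A c η K' p) (o : p.OctR σ σ') (G : GrD K c0' C0' η' p σ σ' Q) :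
    SD (p.scG K σ σ' Q) (p.gst Q σ') (p.la (nu p σ)) (p.Vc (nu p σ)) (p.u2 (nu p σ)) := by
  obtain ⟨x1, x2⟩ := H.mtG_mem (Gr29.oct_mem o).1
  obtain ⟨nm, a, -⟩ := G.nb.la _ x1 x2
  obtain ⟨k0, k1, k2⟩ := G.nb.K3
  have k3 := G.nb.K1
  have u := nm.u0p
  refine ⟨G.cl.1, ⟨nm.u2p, nm.u2l, nm.lV, nm.V1⟩, by rw [z_xs G]; rfl, rfl, ?_, ?_⟩
  · change 4 ≤ 8 * K ^ 2
    linarith
  · change 8 * K ^ 2 * u0 p (nu p σ) ≤ 1
    have b := mul_le_mul_of_nonneg_right G.nb.lg u.le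
    have d : log p.n * u0 p (nu p σ) ≤ 2 * K * (log p.n * u0 p (nu p σ)) :=
      le_mul_of_one_le_left (mul_nonneg (by linarith [G.nb.l1]) u.le) (by linarith)
    nlinarith [mul_le_mul_of_nonneg_right k2 u.le]

section lg

variable (H : Reg β c0 C0 A c η K' p) (o : p.OctR σ σ')
include H o

theorem nu0 : 0 < nu p σ := H.mt0 (H.muG0 (H.σ0 (Gr29.oct_mem o).1))

theorem lg_nu : -(2 / 3) - 2 * c ≤ logb p.n (nu p σ) ∧ logb p.n (nu p σ) ≤ -c := by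
  obtain ⟨x1, x2⟩ := H.mtG_mem (Gr29.oct_mem o).1
  exact ⟨H.lg_μ0 ▸ H.lg_mono H.μ00 x1, H.lg_κ ▸ H.lg_mono (nu0 H o) x2⟩

/-- the exponent of the end length -/
theorem lg_u2 : logb p.n (p.u2 (nu p σ)) = -(5 / 6) - c / 4 - logb p.n (nu p σ) -
    max 0 (-(logb p.n (nu p σ) + 1 / 3) / 3) := by
  rw [H.lg_u2 (nu0 H o), H.lg_Vc (nu0 H o)]; ring

theorem lg_u2_bds : -(5 / 6) ≤ logb p.n (p.u2 (nu p σ)) ∧
    logb p.n (p.u2 (nu p σ)) ≤ -(1 / 4) := by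
  obtain ⟨a, b⟩ := lg_nu H o
  have := H.c_pos
  have := H.c_le
  rw [lg_u2 H o]
  rcases max_cases 0 (-(logb p.n (nu p σ) + 1 / 3) / 3) with ⟨e, _⟩ | ⟨e, _⟩ <;> rw [e] <;>
    constructor <;> linarith

/-- `θ u₂ ≤ 2 n^{-5/6 - c/4}` -/
theorem lg_θu2 : logb p.n (p.muG σ') + logb p.n (p.u2 (nu p σ)) ≤ -(5 / 6) - c / 4 + η := by
  obtain ⟨M, M'⟩ := Gr29.oct_mem o
  have m := H.muG0 (H.σ0 M)
  have a := H.lg_mono (H.muG0 (H.σ0 M')) (H.oct_mu o).2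
  rw [logb_mul two_ne_zero m.ne'] at a
  have b := (H.lg_mt' m).1
  rw [lg_u2 H o]
  linarith [H.lg_two.2, le_max_left 0 (-(logb p.n (nu p σ) + 1 / 3) / 3)]

theorem lg_w3 (G : GrD K c0' C0' η' p σ σ' Q) :
    0 < (p.scG K σ σ' Q).w3 1 ∧
      logb p.n ((p.scG K σ σ' Q).w3 1) = -1 - logb p.n (p.muG σ') := by
  have m := H.muG0 (H.σ0 (Gr29.oct_mem o).2)
  have e : (p.scG K σ σ' Q).w3 1 = 1 / (p.n * p.muG σ') := by
    change 1 / (p.n * 1 * p.msG σ' 1) = _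
    rw [mul_one, G.top]
  have N := H.N0
  rw [e]
  refine ⟨by positivity, ?_⟩
  rw [logb_div one_ne_zero (by positivity), logb_one, logb_mul N.ne' m.ne', H.lg_n]; ring

/-- hypothesis of `SD.fine` -/
theorem n_fine {E : ℝ} (E0 : 0 < E) (hE : E ≤ p.n ^ c) :
    4 * (E * (p.scG K σ σ' Q).v) ≤ √(p.u2 (nu p σ)) := by
  change 4 * (E * p.v) ≤ _
  have v := H.v0
  have u := H.u20 (nu0 H o)
  have a := H.lg_mono E0 hE
  rw [H.lg_rp] at a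
  have b := H.lg_v_le
  have A2 : (2 : ℝ) ≤ A := by exact_mod_cast H.A2
  refine H.le_of_lg (by positivity) (sqrt_pos.2 u) ?_
  rw [logb_mul (by norm_num) (by positivity), logb_mul E0.ne' v.ne', lg_sqrt _ u.le]
  linarith [(lg_u2_bds H o).1, (H.lg_num (x := 4) (by norm_num) (by norm_num)).2, H.η_le, H.c_le]

/-- hypothesis of `SD.wpl` -/
theorem n_wpl (G : GrD K c0' C0' η' p σ σ' Q) {E Λ₀ : ℝ} (E0 : 0 < E) (hE : E ≤ p.n ^ c)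
    (L0 : 0 < Λ₀) (hL : Λ₀ ≤ 1 / p.κ ^ 2) :
    64 * (E * Λ₀ ^ 2 * (p.scG K σ σ' Q).w3 1) ≤ p.u2 (nu p σ) := by
  obtain ⟨w0, w1⟩ := lg_w3 H o G
  obtain ⟨M, -⟩ := Gr29.oct_mem o
  have m := H.muG0 (H.σ0 M)
  have k := H.κ0
  have a := H.lg_mono E0 hE
  rw [H.lg_rp] at a
  have b := H.lg_mono L0 hL
  rw [logb_div one_ne_zero (by positivity), logb_one, logb_pow, H.lg_κ] at b
  have d := H.lg_mono m (H.oct_mu o).1
  have e := (H.lg_mt' m).2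
  obtain ⟨f, -⟩ := lg_nu H o
  refine H.le_of_lg (by positivity) (H.u20 (nu0 H o)) ?_
  rw [logb_mul (by norm_num) (by positivity), logb_mul (by positivity) w0.ne',
    logb_mul E0.ne' (by positivity), logb_pow, w1, lg_u2 H o]
  push_cast at b ⊢
  have g := (H.lg_num (x := 64) (by norm_num) (by norm_num)).2
  rcases max_cases 0 (-(logb p.n (nu p σ) + 1 / 3) / 3) with ⟨q, _⟩ | ⟨q, _⟩ <;> rw [q] <;>
    linarith [H.η_le, H.c_le, H.c_pos]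

/-- `KN.ue`, `KN.u1P.1` for `u1 = u2` -/
theorem n_ue : 8 * (p.scG K σ σ' Q).ue ≤ p.u2 (nu p σ) ∧ (p.scG K σ σ' Q).v ≤ p.u2 (nu p σ) := by
  have u := H.u20 (nu0 H o)
  have A2 : (2 : ℝ) ≤ A := by exact_mod_cast H.A2
  have r := H.rp0 (-(2 : ℝ))
  have b := (lg_u2_bds H o).1
  constructor
  · change 8 * (p.n : ℝ) ^ (-(2 : ℝ)) ≤ _
    refine H.le_of_lg (by positivity) u ?_
    rw [logb_mul (by norm_num) r.ne', H.lg_rp]
    linarith [(H.lg_num (x := 8) (by norm_num) (by norm_num)).2, H.η_le, H.c_le]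
  · change p.v ≤ _
    exact H.le_of_lg H.v0 u (by linarith [H.lg_v_le, H.η_le, H.c_le])

/-- hypothesis of `SD.fin` -/
theorem n_fin (G : GrD K c0' C0' η' p σ σ' Q) :
    2 * (p.scG K σ σ' Q).C * p.u2 (nu p σ) ≤ 1 := by
  have h := sd_gst H o G
  have a := h.nu.u2_sq
  rw [← h.u0_cube] at a
  have b := h.u0p
  have d := h.u0_le
  have e : (p.scG K σ σ' Q).u0 ^ 3 ≤ (p.scG K σ σ' Q).u0 / 2 := by
    nlinarith [mul_le_mul_of_nonneg_left d b.le, mul_le_mul_of_nonneg_left d (mul_pos b b).le]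
  nlinarith [h.uC, h.C4, mul_le_mul_of_nonneg_left (a.trans e) (by linarith [h.C4] :
    0 ≤ (p.scG K σ σ' Q).C)]

end lg

/-- **all pointwise plateau fields of `KN` at `u1 = u2`** -/
theorem fields (H : Reg β c0 C0 A c η K' p) (o : p.OctR σ σ') (G : GrD K c0' C0' η' p σ σ' Q)
    {S : Sc} {M : Md} (hS : S = p.scG K σ σ' Q) (hM : M = p.gst Q σ') {E l Λ₀ Λ₁ Λ₂ Pt Vt u1 : ℝ}
    (hu : u1 = p.u2 (nu p σ)) (E0 : 0 < E) (hE : E ≤ p.n ^ c) (hl : 2 * S.u0 ≤ l)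
    (hP : p.la (nu p σ) ^ 2 ≤ Pt) (hP' : √Pt ≤ Λ₂ * p.la (nu p σ))
    (hVt : Vt ≤ Λ₂ * p.Vc (nu p σ)) (h1 : 0 ≤ Λ₁) (h0 : 1 + Λ₁ + 12 * S.C * Λ₂ ≤ Λ₀)
    (L0 : 0 < Λ₀) (hL : Λ₀ ≤ 1 / p.κ ^ 2) :
    (0 < S.u0 ∧ S.u0 ^ 3 ≤ Pt) ∧
    (1 / S.C ≤ S.den (M.z (S.J - 1)) ∧ S.den (M.z (S.J - 1)) ≤ S.C) ∧ ls S M S.J ≤ l ∧
    8 * S.ue ≤ u1 ∧ (S.v ≤ u1 ∧ u1 ≤ Pt) ∧
    (∀ k, S.J ≤ k → k < S.Jp → E * S.v ≤ ls S M k) ∧
    (∀ k ∈ pl S M (u1 / 4), tau S M Λ₁ Pt Vt k ≤ Λ₀ * ls S M k) ∧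
    (∀ k ∈ pl S M (u1 / 4), E * Λ₀ ^ 2 * S.w3 1 ≤ ls S M k ^ 2 * min (dl S M k) (du M k)) ∧
    ∀ k ∈ pl S M (u1 / 4), du M k ≤ u1 → 1 / S.C ≤ ls S M k := by
  subst hS hM hu
  have h := sd_gst H o G
  exact ⟨⟨h.u0p, h.u0_cube.le.trans hP⟩, h.dj, h.lsJ.trans hl, (n_ue H o).1,
    ⟨(n_ue H o).2, h.nu.u2_sq.trans hP⟩, h.fine (n_fine H o E0 hE),
    h.cap ((sq_nonneg _).trans hP) hP' hVt h1 h0, h.wpl le_rfl (n_wpl H o G E0 hE L0 hL),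
    h.fin le_rfl (n_fin H o G)⟩

end Crest.Agent.T156.Alt.Kn72

end
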