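import Crest.Agent.T156.NRb_67

/-!
# Row 156, R1: the lines `i`, `j` of `NR` from the line `b` (helper67)
-/

set_option autoImplicit false

noncomputable section

namespace Crest.Agent.T156.Alt.Nr67

open Real Set

variable {β c0 C0 : ℝ} {A : ℕ} {c η K : ℝ} {p : Pm} {σ Λ X Y l t : ℝ}

/-- the factors that turn `ms P / t ≤ Y` into `i` and `j`, below `n^{-5c}` -/
theorem fac_lo (H : Reg β c0 C0 A c η K p) (hη : 2 * η ≤ c) (M : p.MemG σ) (hr : p.r ≤ t)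
    (ht : t ≤ (p.n : ℝ) ^ (-(5 * c))) (Λ0 : 0 < Λ) (hΛ : Λ ≤ (p.n : ℝ) ^ (5 / 2 * c)) :
    p.muG σ * Λ * t ^ 2 ≤ p.msG σ t ∧ Λ * p.msG σ t ≤ p.muG σ := by
  have t0 := H.r0.trans_le hr
  have m0 := H.muG_pos M
  have m1 := H.msG_pos M t
  have c0 := H.c_pos
  have a4 := H.lg_mono t0 ht
  have a5 := H.lg_mono Λ0 hΛ
  rw [H.lg_rp] at a4 a5
  have h : t ≤ p.ye := H.le_of_lg t0 H.ye0 (by rw [H.lg_ye]; linarith)
  obtain ⟨a1, b1, b2⟩ := H.lg_msG66 M t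
  obtain ⟨b3, a2, a3⟩ := H.lg_muG66 M
  rw [Reg.Tc_mid hr h] at a1 b1 b2
  constructor <;> refine H.le_of_lg (by positivity) (by positivity) ?_ <;> lg_norm
  · rcases a1 with a1 | a1 <;> linarith
  · rcases b3 with b3 | b3 <;> linarith

theorem b_weak {m : ℝ} (hm : 0 ≤ m) (hX : 0 ≤ X) (t0 : 0 < t) (h : m * X * max t l ^ 3 / t ^ 4 ≤ Y) :
    m * X / t ≤ Y := by
  refine le_trans ?_ h
  calc m * X / t = m * X * t ^ 3 / t ^ 4 := by field_simp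
    _ ≤ _ := by gcongr; exact le_max_left _ _

/-- **`i` and `j` below `n^{-5c}` follow from `b`** -/
theorem ij_lo (H : Reg β c0 C0 A c η K p) (hη : 2 * η ≤ c) (M : p.MemG σ) (hr : p.r ≤ t)
    (ht : t ≤ (p.n : ℝ) ^ (-(5 * c))) (Λ0 : 0 < Λ) (hΛ : Λ ≤ (p.n : ℝ) ^ (5 / 2 * c)) (hX : 0 ≤ X)
    (h : p.msG σ t * X * max t l ^ 3 / t ^ 4 ≤ Y) :
    p.muG σ * Λ * (t * X) ≤ Y ∧ Λ * p.msG σ t ^ 2 * X / t ≤ p.muG σ * Y := by
  have t0 := H.r0.trans_le hr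
  have m0 := H.muG_pos M
  have m1 := H.msG_pos M t
  have h' := b_weak m1.le hX t0 h
  obtain ⟨f1, f2⟩ := fac_lo H hη M hr ht Λ0 hΛ
  constructor
  · refine le_trans ?_ h'
    calc p.muG σ * Λ * (t * X) = p.muG σ * Λ * t ^ 2 * X / t := by field_simp
      _ ≤ _ := by gcongr
  · calc Λ * p.msG σ t ^ 2 * X / t = Λ * p.msG σ t * (p.msG σ t * X / t) := by ring
      _ ≤ _ := mul_le_mul f2 h' (by positivity) m0.le

/-- **`b`, `i` and `j` at any level `t ∈ [l, T]` from ONE line** -/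
theorem bij_hi (H : Reg β c0 C0 A c η K p) (M : p.MemG σ) {T : ℝ} (hr : p.r ≤ t) (hl : l ≤ t)
    (hT : t ≤ T) (T1 : 1 ≤ T) (Λ1 : 1 ≤ Λ) (hX : 0 ≤ X)
    (h : Λ * T ^ 2 * (p.msG σ t * X / t) ≤ Y) :
    p.msG σ t * X * max t l ^ 3 / t ^ 4 ≤ Y ∧ p.muG σ * Λ * (t * X) ≤ Y ∧
      Λ * p.msG σ t ^ 2 * X / t ≤ p.muG σ * Y := by
  have t0 := H.r0.trans_le hr
  have m0 := H.muG_pos M
  have m1 := H.msG_pos M t
  have T2 : 1 ≤ T ^ 2 := one_le_pow₀ T1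
  have z0 : 0 ≤ p.msG σ t * X / t := by positivity
  have h1 : Λ * (p.msG σ t * X / t) ≤ Y :=
    (mul_le_mul_of_nonneg_right (le_mul_of_one_le_right (by positivity) T2) z0).trans h
  have mm : p.msG σ t ≤ p.muG σ := H.msG_le (H.sgG_pos M) t
  refine ⟨?_, ?_, ?_⟩
  · rw [max_eq_left hl]
    refine le_trans ?_ ((le_mul_of_one_le_left z0 Λ1).trans h1)
    exact le_of_eq (by field_simp)
  · have f : p.muG σ * t ^ 2 ≤ T ^ 2 * p.msG σ t := by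
      rcases le_total p.ye t with k | k
      · rw [H.msG_top k, mul_comm]; gcongr
      refine le_trans ?_ (le_mul_of_one_le_left m1.le T2)
      obtain ⟨a1, -, -⟩ := H.lg_msG66 M t
      obtain ⟨-, a2, a3⟩ := H.lg_muG66 M
      have a4 := H.lg_mono t0 k
      rw [Reg.Tc_mid hr k] at a1
      rw [H.lg_ye] at a4
      refine H.le_of_lg (by positivity) m1 ?_
      lg_norm
      rcases a1 with a1 | a1 <;> linarith [H.η_le, H.c_pos]
    refine le_trans ?_ h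
    calc p.muG σ * Λ * (t * X) = Λ * (p.muG σ * t ^ 2 * X / t) := by field_simp
      _ ≤ Λ * (T ^ 2 * p.msG σ t * X / t) := by gcongr
      _ = _ := by ring
  · calc Λ * p.msG σ t ^ 2 * X / t = p.msG σ t * (Λ * (p.msG σ t * X / t)) := by ring
      _ ≤ _ := mul_le_mul mm h1 (by positivity) m0.le

end Crest.Agent.T156.Alt.Nr67

end
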