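import Crest.Agent.T156.SrNB_66

/-!
# Row 156, R1: the lines `k`, `l5` of `NR` for free numbers (helper67)
-/

set_option autoImplicit false

noncomputable section

namespace Crest.Agent.T156.Alt.Nr67

open Real Set

variable {β c0 C0 : ℝ} {A : ℕ} {c η K : ℝ} {p : Pm} {σ E ε δ l l0 t : ℝ}

/-- line `l5` -/
theorem l5 (H : Reg β c0 C0 A c η K p) (hη : η ≤ ε) (hε : 1000 * ε ≤ c) (M : p.MemG σ) (E1 : 1 ≤ E)
    (E2 : E ≤ (p.n : ℝ) ^ ε) (hl : 0 < l) (hΦ : l ^ 3 ≤ (p.n : ℝ) ^ ε * p.PhG E σ)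
    (hδ : (p.n : ℝ) ^ (-c) ≤ δ) :
    p.muG σ * l ^ 5 ≤ δ * ((p.n : ℝ) ^ (-(5 : ℝ) / 6) * p.s ^ 5) := by
  have h1 := H.lg_thetaG hη hε M E1 E2 (by positivity) hΦ
  have h2 := H.lg_mono (H.rp0 _) hδ
  have := (H.rp0 _).trans_le hδ
  have := H.muG_pos M
  have := H.s0
  have := H.N0
  rw [H.lg_rp] at h2
  refine H.le_of_lg (by positivity) (by positivity) ?_
  revert h1
  lg_norm
  rw [H.lg_n]
  intro h1
  linarith

/-- line `k` -/
theorem k (H : Reg β c0 C0 A c η K p) (M : p.MemG σ) (hl : 0 < l) (ly : l ≤ p.ye) (hr : p.r ≤ t)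
    (hlt : l ≤ (p.n : ℝ) ^ (5 * c) * t) (E1 : 1 ≤ E) (ht : t ^ 2 ≤ E) :
    t * max t l * p.muG σ ≤ E * p.msG σ t := by
  have t0 := H.r0.trans_le hr
  have m0 := H.muG_pos M
  have m1 := H.msG_pos M t
  have := H.N0
  rcases le_total p.ye t with h | h
  · rw [max_eq_left (ly.trans h), H.msG_top h, ← sq]
    exact mul_le_mul_of_nonneg_right ht m0.le
  have h1 : max t l ≤ (p.n : ℝ) ^ (5 * c) * t := max_le (le_mul_of_one_le_left t0.le
    (one_le_rpow H.N1.le (by linarith [H.c_pos]))) hlt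
  refine (mul_le_mul_of_nonneg_right (mul_le_mul_of_nonneg_left h1 t0.le) m0.le).trans
    (le_trans ?_ (le_mul_of_one_le_left m1.le E1))
  have a1 := (H.lg_msG66 M t).1
  obtain ⟨-, a2, a3⟩ := H.lg_muG66 M
  have a4 := H.lg_mono t0 h
  rw [Reg.Tc_mid hr h] at a1
  rw [H.lg_ye] at a4
  refine H.le_of_lg (by positivity) m1 ?_
  lg_norm
  rw [H.lg_n]
  rcases a1 with a1 | a1 <;> linarith [H.η_le, H.c_pos]

end Crest.Agent.T156.Alt.Nr67

end
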