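import Crest.Agent.T156.Kkt_28
import Crest.Agent.T156.CaVar_6
import Crest.Agent.T156.CaTilt_43
import Crest.Agent.T156.CaHess_87

/-!
# Row 156: the finite-`n` Parisi problem in the cascade frame (helper28, after 85's #7053)

A block of `K` levels with free tilts `x` between a prefix `M` and a suffix `N`.  The value is
jointly convex in (state, tilts); at a minimiser of `X - ∑ x_k t_k` over the ordered simplex the
two-replica overlaps satisfy the KKT inequalities at every node with mass.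
-/

set_option autoImplicit false
set_option linter.unusedSectionVars false

noncomputable section

namespace Crest.Agent.T156.Cas

open MeasureTheory Real Set Filter Topology
open Crest.Agent.T157.E Crest.Agent.T157.Casc Crest.Agent.T157.SL
open Crest.Agent.T156.Kkt Var6

namespace Kkt28

variable {Ω : Type} [Fintype Ω] {w : Ω → ℝ} {K : ℕ}

/-! ### splitting a level, monotonicity of the overlap -/

theorem tE_split (hw : Wt w) {l l1 l2 : Lv Ω} (h1 : l.m = l1.m) (h2 : l1.m = l2.m)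
    (hc : ∀ x y, l.cov x y = l1.cov x y + l2.cov x y) (L : List (Lv Ω)) {Φ : (Ω → ℝ) → ℝ}
    (hΦ : Eg Φ) : tE l (X w L) Φ = tE l1 (X w (l2 :: L)) (tE l2 (X w L) Φ) := by
  have hs : C.Same l (C.addLv l1 l2) :=
    ⟨h1, by funext x y; exact (hc x y).trans (C.addLv_cov l1 l2 x y).symm⟩
  rw [hs.tE (C.lp_X hw L).meas hΦ.cont.measurable]
  funext h
  rw [C.tE_addLv h2 (C.lp_X hw L) h ((lg_X hw L).int hΦ (C.addLv l1 l2) h), C.X_cons]

theorem P_split (hw : Wt w) {l l1 l2 : Lv Ω} (h1 : l.m = l1.m) (h2 : l1.m = l2.m)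
    (hc : ∀ x y, l.cov x y = l1.cov x y + l2.cov x y) (L : List (Lv Ω)) :
    P w (l :: L) = P w (l1 :: l2 :: L) := by
  funext z x
  exact congrFun (tE_split hw h1 h2 hc L (eg_P hw L x)) z

theorem pi2_split_lo (hw : Wt w) {l l1 l2 : Lv Ω} (h1 : l.m = l1.m) (h2 : l1.m = l2.m)
    (hc : ∀ x y, l.cov x y = l1.cov x y + l2.cov x y) (L : List (Lv Ω)) (κ : Ω → Ω → ℝ) :
    ∀ M : List (Lv Ω), pi2 w (M ++ l :: L) M.length κ = pi2 w (M ++ l1 :: l2 :: L) M.length κ
  | [] => by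
    funext z
    simp only [List.nil_append, List.length_nil, pi2_zero, P_split hw h1 h2 hc L]
  | k :: M => by
    funext z
    rw [List.cons_append, List.cons_append, List.length_cons, pi2_cons, pi2_cons,
      pi2_split_lo hw h1 h2 hc L κ M, C.X_append_congr w (C.X_split hw h1 h2 hc L) M]

theorem pi2_split_hi (hw : Wt w) {l l1 l2 : Lv Ω} (h1 : l.m = l1.m) (h2 : l1.m = l2.m)
    (hc : ∀ x y, l.cov x y = l1.cov x y + l2.cov x y) (L : List (Lv Ω)) (κ : Ω → Ω → ℝ) (j : ℕ) :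
    ∀ M : List (Lv Ω),
      pi2 w (M ++ l :: L) (M.length + j + 1) κ = pi2 w (M ++ l1 :: l2 :: L) (M.length + j + 2) κ
  | [] => by
    funext z
    simp only [List.nil_append, List.length_nil, zero_add]
    exact congrFun (tE_split hw h1 h2 hc L (eg_pi2 hw L j κ)) z
  | k :: M => by
    funext z
    rw [List.cons_append, List.cons_append, List.length_cons,
      show M.length + 1 + j + 1 = M.length + j + 1 + 1 by omega,
      show M.length + 1 + j + 2 = M.length + j + 2 + 1 by omega, pi2_cons, pi2_cons,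
      pi2_split_hi hw h1 h2 hc L κ j M, C.X_append_congr w (C.X_split hw h1 h2 hc L) M]

theorem qf_cov (L : List (Lv Ω)) (κ : Lv Ω) (z : Ω → ℝ) : qf (P w L z) κ.cov =
    ∑ i, Pf w L z (fun x => κ.A x i) * Pf w L z fun x => κ.A x i := by
  simp only [qf, Lv.cov, Pf, Finset.sum_mul_sum]
  simp only [Finset.mul_sum]
  refine (Finset.sum_congr rfl fun x _ => Finset.sum_comm).trans (Finset.sum_comm.trans ?_)
  exact Finset.sum_congr rfl fun i _ => Finset.sum_congr rfl fun x _ =>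
    Finset.sum_congr rfl fun y _ => by ring

theorem pi2_cov_nonneg (L : List (Lv Ω)) (j : ℕ) (κ : Lv Ω) (z : Ω → ℝ) :
    0 ≤ pi2 w L j κ.cov z :=
  node_nonneg w (fun z => by
    rw [qf_cov]; exact Finset.sum_nonneg fun i _ => mul_self_nonneg _) L j z

/-- the overlap of two replicas increases with the number of shared levels -/
theorem pi2_succ (hw : Wt w) (κ : Lv Ω) : ∀ (L : List (Lv Ω)) (j : ℕ) (z : Ω → ℝ),
    pi2 w L j κ.cov z ≤ pi2 w L (j + 1) κ.cov z
  | [], j, z => by cases j <;> simp [pi2, node]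
  | l :: L, 0, z => by
    have e : pi2 w L 0 κ.cov = fun z => ∑ i,
        Pf w L z (fun x => κ.A x i) * Pf w L z fun x => κ.A x i := by
      funext z; rw [pi2_zero, qf_cov]
    rw [pi2_cons, pi2_zero, qf_cov, e, tE_sum (lg_X hw L) _ fun i _ =>
      (Hess87.eg_Pf hw L _).mul (Hess87.eg_Pf hw L _)]
    exact Finset.sum_le_sum fun i _ => sub_nonneg.1 (Hess87.V_nonneg hw l L z _)
  | l :: L, j + 1, z => by
    rw [pi2_cons, pi2_cons]
    exact tE_mono (lg_X hw L) (eg_pi2 hw L j _) (eg_pi2 hw L (j + 1) _) (pi2_succ hw κ L j) l z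

theorem pi2_mono (hw : Wt w) (κ : Lv Ω) (L : List (Lv Ω)) (z : Ω → ℝ) :
    Monotone fun j => pi2 w L j κ.cov z := monotone_nat_of_le_succ fun j => pi2_succ hw κ L j z

theorem lv_cov (l : Lv Ω) {v : ℝ} (hv : 0 ≤ v) (m : ℝ) (x y : Ω) :
    (lv l v m).cov x y = v * l.cov x y := by
  simp only [Lv.cov, Finset.mul_sum]
  refine Finset.sum_congr rfl fun i _ => ?_
  rw [show √v * l.A x i * (√v * l.A y i) = √v * √v * (l.A x i * l.A y i) by ring,
    mul_self_sqrt hv]

/-- the overlap inside a level lies between the overlaps at its two ends -/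
theorem pi2_inside (hw : Wt w) (κ l : Lv Ω) (M L : List (Lv Ω)) (m : ℝ) {ρ : ℝ}
    (hρ : ρ ∈ Icc (0 : ℝ) 1) (z : Ω → ℝ) :
    pi2 w (M ++ tm l m :: L) M.length κ.cov z ≤
        pi2 w (M ++ lv l ρ m :: lv l (1 - ρ) m :: L) (M.length + 1) κ.cov z ∧
      pi2 w (M ++ lv l ρ m :: lv l (1 - ρ) m :: L) (M.length + 1) κ.cov z ≤
        pi2 w (M ++ tm l m :: L) (M.length + 1) κ.cov z := by
  have hc : ∀ x y, (tm l m).cov x y = (lv l ρ m).cov x y + (lv l (1 - ρ) m).cov x y := by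
    intro x y
    rw [lv_cov l hρ.1, lv_cov l (sub_nonneg.2 hρ.2)]
    change l.cov x y = _
    ring
  constructor
  · rw [pi2_split_lo hw (l := tm l m) (l1 := lv l ρ m) (l2 := lv l (1 - ρ) m) rfl rfl hc]
    exact pi2_succ hw κ _ _ z
  · have := pi2_split_hi hw (l := tm l m) (l1 := lv l ρ m) (l2 := lv l (1 - ρ) m) rfl rfl hc L
      κ.cov 0 M
    rw [add_zero] at this
    rw [this]
    exact pi2_succ hw κ _ _ z

theorem int_inside (hw : Wt w) (κ l : Lv Ω) (M L : List (Lv Ω)) (m : ℝ) (z : Ω → ℝ) :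
    pi2 w (M ++ tm l m :: L) M.length κ.cov z ≤ ∫ ρ in (0 : ℝ)..1,
        pi2 w (M ++ lv l ρ m :: lv l (1 - ρ) m :: L) (M.length + 1) κ.cov z ∧
      ∫ ρ in (0 : ℝ)..1, pi2 w (M ++ lv l ρ m :: lv l (1 - ρ) m :: L) (M.length + 1) κ.cov z ≤
        pi2 w (M ++ tm l m :: L) (M.length + 1) κ.cov z := by
  have hi : IntervalIntegrable (fun ρ =>
      pi2 w (M ++ lv l ρ m :: lv l (1 - ρ) m :: L) (M.length + 1) κ.cov z) volume 0 1 :=
    ContinuousOn.intervalIntegrable_of_Icc zero_le_one (cont_rho hw M L l m m _ _ z)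
  constructor
  · simpa using intervalIntegral.integral_mono_on zero_le_one intervalIntegrable_const hi
      fun ρ hρ => (pi2_inside hw κ l M L m hρ z).1
  · simpa using intervalIntegral.integral_mono_on zero_le_one hi intervalIntegrable_const
      fun ρ hρ => (pi2_inside hw κ l M L m hρ z).2

/-! ### a block of levels with free tilts -/

/-- the block -/
def blk (l : Fin K → Lv Ω) (x : Fin K → ℝ) : List (Lv Ω) := List.ofFn fun k => tm (l k) (x k)

/-- prefix, block, suffix -/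
def LL (M N : List (Lv Ω)) (l : Fin K → Lv Ω) (x : Fin K → ℝ) : List (Lv Ω) := M ++ blk l x ++ N

/-- the same list with level `k` of the block cut at the fraction `ρ` of its variance -/
def spl (M N : List (Lv Ω)) (l : Fin K → Lv Ω) (x : Fin K → ℝ) (k : Fin K) (ρ : ℝ) :
    List (Lv Ω) := (M ++ (blk l x).take k) ++
      lv (l k) ρ (x k) :: lv (l k) (1 - ρ) (x k) :: ((blk l x).drop (k + 1) ++ N)

theorem blk_length (l : Fin K → Lv Ω) (x : Fin K → ℝ) : (blk l x).length = K := by simp [blk]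

theorem pre_length (M : List (Lv Ω)) (l : Fin K → Lv Ω) (x : Fin K → ℝ) (k : Fin K) :
    (M ++ (blk l x).take k).length = M.length + k := by
  simp [blk]

theorem blk_update (l : Fin K → Lv Ω) (x : Fin K → ℝ) (k : Fin K) (s : ℝ) :
    blk l (Function.update x k s) = (blk l x).take k ++ tm (l k) s :: (blk l x).drop (k + 1) := by
  have h1 : blk l (Function.update x k s) = (blk l x).set k (tm (l k) s) := by
    refine List.ext_getElem (by simp [blk]) fun i h1 h2 => ?_
    simp only [blk, List.getElem_ofFn, List.getElem_set]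
    split_ifs with h
    · obtain rfl : i = k.val := h.symm
      simp
    · rw [Function.update_of_ne fun e => h (by rw [← e])]
  rw [h1, List.set_eq_take_append_cons_drop, if_pos (by simp [blk])]

theorem LL_update (M N : List (Lv Ω)) (l : Fin K → Lv Ω) (x : Fin K → ℝ) (k : Fin K) (s : ℝ) :
    LL M N l (Function.update x k s) =
      (M ++ (blk l x).take k) ++ tm (l k) s :: ((blk l x).drop (k + 1) ++ N) := by
  simp [LL, blk_update]

theorem LL_at (M N : List (Lv Ω)) (l : Fin K → Lv Ω) (x : Fin K → ℝ) (k : Fin K) :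
    LL M N l x = (M ++ (blk l x).take k) ++ tm (l k) (x k) :: ((blk l x).drop (k + 1) ++ N) := by
  rw [← LL_update, Function.update_eq_self]

/-- **joint convexity in (state, tilts of the block)** -/
theorem conv_LL (hw : Wt w) {M N : List (Lv Ω)} (hM : ∀ l ∈ M, 0 ≤ l.m) (hN : ∀ l ∈ N, 0 ≤ l.m)
    (l : Fin K → Lv Ω) {x y : Fin K → ℝ} (hx : ∀ k, 0 ≤ x k) (hy : ∀ k, 0 ≤ y k) {a b : ℝ}
    (ha : 0 ≤ a) (hb : 0 ≤ b) (hab : a + b = 1) (u v : Ω → ℝ) :
    X w (LL M N l (a • x + b • y)) (a • u + b • v) ≤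
      a * X w (LL M N l x) u + b * X w (LL M N l y) v := by
  set T : List (Lv Ω × ℝ) := M.map (fun k => (k, 0)) ++
    (List.ofFn fun k => (tm (l k) (x k), y k - x k)) ++ N.map fun k => (k, 0) with hT
  have e : ∀ t, tl T t = LL M N l fun k => x k + t * (y k - x k) := fun t => by
    simp [hT, tl, LL, blk, List.map_ofFn, Function.comp_def]
  have hpos : ∀ t, (∀ k, 0 ≤ x k + t * (y k - x k)) → ∀ p ∈ T, 0 ≤ p.1.m + t * p.2 := by
    intro t ht p hp
    simp only [hT, List.mem_append, List.mem_map, List.mem_ofFn] at hp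
    rcases hp with (⟨k, hk, rfl⟩ | ⟨k, rfl⟩) | ⟨k, hk, rfl⟩
    · simpa using hM k hk
    · exact ht k
    · simpa using hN k hk
  have := Tilt43.tl_conv hw (s := 0) (t := 1) ha hb hab T (hpos 0 (by simpa using hx))
    (hpos 1 (by simpa using hy)) u v
  rw [e, e, e] at this
  have e1 : (fun k => x k + (a * 0 + b * 1) * (y k - x k)) = a • x + b • y := by
    funext k
    simp only [Pi.add_apply, Pi.smul_apply, smul_eq_mul]
    rw [show a = 1 - b by linarith]; ring
  simpa only [e1, zero_mul, add_zero, one_mul, add_sub_cancel] using this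

/-- the objective `X - ∑ x_k t_k` -/
def Gp (w : Ω → ℝ) (M N : List (Lv Ω)) (l : Fin K → Lv Ω) (h : Ω → ℝ) (t : Fin K → ℝ)
    (x : Fin K → ℝ) : ℝ := X w (LL M N l x) h - ∑ k, x k * t k

/-- overlap (kernel `κ`) of two replicas sharing the prefix and `k` levels of the block -/
def rr (w : Ω → ℝ) (M N : List (Lv Ω)) (l : Fin K → Lv Ω) (h : Ω → ℝ) (κ : Ω → Ω → ℝ)
    (x : Fin K → ℝ) (k : ℕ) : ℝ := pi2 w (LL M N l x) (M.length + k) κ h

/-- its average over the inside of level `k` -/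
def rb (w : Ω → ℝ) (M N : List (Lv Ω)) (l : Fin K → Lv Ω) (h : Ω → ℝ) (κ : Ω → Ω → ℝ)
    (x : Fin K → ℝ) : ℕ → ℝ :=
  ez fun k : Fin K => ∫ ρ in (0 : ℝ)..1, pi2 w (spl M N l x k ρ) (M.length + k + 1) κ h

theorem convex_Gp (hw : Wt w) {M N : List (Lv Ω)} (hM : ∀ l ∈ M, 0 ≤ l.m) (hN : ∀ l ∈ N, 0 ≤ l.m)
    (l : Fin K → Lv Ω) (h : Ω → ℝ) (t : Fin K → ℝ) :
    ConvexOn ℝ {x | ∀ k, 0 ≤ x k} (Gp w M N l h t) := by
  refine ⟨fun x hx y hy a b ha hb _ k => ?_, fun x hx y hy a b ha hb hab => ?_⟩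
  · have := hx k; have := hy k
    simp only [Pi.add_apply, Pi.smul_apply, smul_eq_mul]; positivity
  · have h1 := conv_LL hw hM hN l hx hy ha hb hab h h
    rw [← add_smul, hab, one_smul] at h1
    have h2 : ∑ k, (a • x + b • y) k * t k = a * ∑ k, x k * t k + b * ∑ k, y k * t k := by
      simp only [Finset.mul_sum, ← Finset.sum_add_distrib, Pi.add_apply, Pi.smul_apply,
        smul_eq_mul]
      exact Finset.sum_congr rfl fun k _ => by ring
    simp only [Gp, smul_eq_mul, h2]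
    linarith

theorem deriv_X (hw : Wt w) (M N : List (Lv Ω)) (l : Fin K → Lv Ω) (h : Ω → ℝ) (x : Fin K → ℝ)
    (k : Fin K) : HasDerivAt (fun s => X w (LL M N l (Function.update x k s)) h)
      (rb w M N l h (l k).cov x k / 2) (x k) := by
  have := tder1 hw (M ++ (blk l x).take k) ((blk l x).drop (k + 1) ++ N) (l k) (x k) h
  simp only [lv_one, pre_length] at this
  simpa only [LL_update, rb, ez_fin, spl] using this

theorem deriv_Gp (hw : Wt w) (M N : List (Lv Ω)) (l : Fin K → Lv Ω) (h : Ω → ℝ)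
    (t x : Fin K → ℝ) (k : Fin K) : HasDerivAt (fun s => Gp w M N l h t (Function.update x k s))
      (rb w M N l h (l k).cov x k / 2 - t k) (x k) := by
  refine (deriv_X hw M N l h x k).fun_sub ?_
  have e : ∀ s, ∑ j, Function.update x k s j * t j =
      s * t k + ∑ j ∈ Finset.univ.erase k, x j * t j := fun s => by
    rw [← Finset.add_sum_erase _ _ (Finset.mem_univ k), Function.update_self]
    congr 1
    exact Finset.sum_congr rfl fun j hj => by
      rw [Function.update_of_ne (Finset.ne_of_mem_erase hj)]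
  simp only [e]
  simpa using (hasDerivAt_id (x k)).mul_const (t k)

theorem rr_le_rb (hw : Wt w) (M N : List (Lv Ω)) (l : Fin K → Lv Ω) (h : Ω → ℝ) (κ : Lv Ω)
    (x : Fin K → ℝ) {k : ℕ} (hk : k < K) :
    rr w M N l h κ.cov x k ≤ rb w M N l h κ.cov x k ∧
      rb w M N l h κ.cov x k ≤ rr w M N l h κ.cov x (k + 1) := by
  have := int_inside hw κ (l ⟨k, hk⟩) (M ++ (blk l x).take (⟨k, hk⟩ : Fin K))
    ((blk l x).drop ((⟨k, hk⟩ : Fin K) + 1) ++ N) (x ⟨k, hk⟩) h
  rw [← LL_at, pre_length] at this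
  simpa only [rr, rb, ez, dif_pos hk, spl, add_assoc] using this

theorem rb_smul (M N : List (Lv Ω)) (l : Fin K → Lv Ω) (h : Ω → ℝ) (κ : Ω → Ω → ℝ) (c : ℝ)
    (x : Fin K → ℝ) (k : ℕ) :
    rb w M N l h (fun a b => c * κ a b) x k = c * rb w M N l h κ x k := by
  simp only [rb, ez, pi2_const_mul, intervalIntegral.integral_const_mul]
  split_ifs <;> simp

theorem exists_min_Gp (hw : Wt w) {M N : List (Lv Ω)} (hM : ∀ l ∈ M, 0 ≤ l.m)
    (hN : ∀ l ∈ N, 0 ≤ l.m) (l : Fin K → Lv Ω) (h : Ω → ℝ) (t : Fin K → ℝ) {lo hi : ℝ}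
    (hlo : 0 < lo) (hlh : lo ≤ hi) :
    ∃ x ∈ Simp K lo hi, ∀ y ∈ Simp K lo hi, Gp w M N l h t x ≤ Gp w M N l h t y :=
  exists_min (convex_Gp hw hM hN l h t) hlo hlh

/-- **KKT**, arbitrary levels and arbitrary linear term -/
theorem kkt_Gp (hw : Wt w) {M N : List (Lv Ω)} (hM : ∀ l ∈ M, 0 ≤ l.m) (hN : ∀ l ∈ N, 0 ≤ l.m)
    (l : Fin K → Lv Ω) (h : Ω → ℝ) (t : Fin K → ℝ) {lo hi : ℝ} (hlo : 0 < lo) {x : Fin K → ℝ}
    (hx : x ∈ Simp K lo hi) (hm : ∀ y ∈ Simp K lo hi, Gp w M N l h t x ≤ Gp w M N l h t y)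
    {k : ℕ} (hk : k ≤ K) (hmass : xe lo hi x k < xe lo hi x (k + 1)) :
    (∀ j ≤ k, 0 ≤ ∑ i ∈ Finset.Ico j k,
      ez (fun i => rb w M N l h (l i).cov x i / 2 - t i) i) ∧
    ∀ j, k ≤ j → j ≤ K → ∑ i ∈ Finset.Ico k j,
      ez (fun i => rb w M N l h (l i).cov x i / 2 - t i) i ≤ 0 :=
  kkt (convex_Gp hw hM hN l h t) hlo hx hm (deriv_Gp hw M N l h t x) hk hmass

/-- **the linear grid**: all levels have covariance `c κ`, `t k = c (k + 1/2) η / 2` -/
theorem grid_Gp (hw : Wt w) {M N : List (Lv Ω)} (hM : ∀ l ∈ M, 0 ≤ l.m) (hN : ∀ l ∈ N, 0 ≤ l.m)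
    (l : Fin K → Lv Ω) (h : Ω → ℝ) (κ : Lv Ω) {c η : ℝ} (hc : 0 < c) (hη : 0 ≤ η)
    (hl : ∀ k a b, (l k).cov a b = c * κ.cov a b) {t : Fin K → ℝ}
    (ht : ∀ k, t k = c / 2 * ((k + 1 / 2) * η)) {lo hi : ℝ} (hlo : 0 < lo) {x : Fin K → ℝ}
    (hx : x ∈ Simp K lo hi) (hm : ∀ y ∈ Simp K lo hi, Gp w M N l h t x ≤ Gp w M N l h t y)
    {k : ℕ} (hk : k ≤ K) (hmass : xe lo hi x k < xe lo hi x (k + 1)) :
    Grid K k η (rr w M N l h κ.cov x) (rb w M N l h κ.cov x) := by
  obtain ⟨h1, h2⟩ := kkt_Gp hw hM hN l h t hlo hx hm hk hmass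
  have e : ∀ a b, b ≤ K → ∑ i ∈ Finset.Ico a b,
      ez (fun i => rb w M N l h (l i).cov x i / 2 - t i) i =
      c / 2 * ∑ i ∈ Finset.Ico a b, (rb w M N l h κ.cov x i - (i + 1 / 2) * η) := by
    intro a b hb
    rw [Finset.mul_sum]
    refine Finset.sum_congr rfl fun i hi => ?_
    have hi' : i < K := (Finset.mem_Ico.1 hi).2.trans_le hb
    have : (l ⟨i, hi'⟩).cov = fun a b => c * κ.cov a b := by funext a b; exact hl _ a b
    rw [ez, dif_pos hi', this, rb_smul, ht]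
    ring
  have hc2 : 0 < c / 2 := by positivity
  refine ⟨hk, hη, pi2_cov_nonneg _ _ κ h, fun i hi => (rr_le_rb hw M N l h κ x hi).1,
    fun i hi => (rr_le_rb hw M N l h κ x hi).2, fun j hj => ?_, fun j hj hj' => ?_⟩
  · have := h1 j hj
    rw [e j k hk] at this
    exact (mul_nonneg_iff_of_pos_left hc2).1 this
  · have := h2 j hj hj'
    rw [e k j hj'] at this
    by_contra hcon
    exact absurd this (not_le.2 (mul_pos hc2 (not_le.1 hcon)))

end Kkt28

end Crest.Agent.T156.Cas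

end
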