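import Crest.Agent.T156.DnA_41
import Crest.Agent.T156.CaKkt_28
import Crest.Agent.T156.Mov_21

/-!
# Row 156: the Guerra remainder at a minimiser of the finite-volume Parisi problem
-/

set_option autoImplicit false
set_option linter.unusedSectionVars false

noncomputable section

namespace Crest.Agent.T156.Cas.Sy41

open MeasureTheory Real Set Filter Topology
open Crest.Agent.T157.E Crest.Agent.T157.Casc Crest.Agent.T157.SL
open Crest.Agent.T156.Kkt

variable {Ω : Type} [Fintype Ω] {w : Ω → ℝ}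

omit [Fintype Ω] in
theorem mono_of_ex : ∀ {L : List (Lv Ω)} {m0 : ℝ}, m0 ≤ ex L 0 → Monotone (ex L) → Mono m0 L
  | [], _, h, _ => h
  | _ :: _, _, h, h' => ⟨h, mono_of_ex (h' (Nat.zero_le 1)) fun _ _ hij => h' (Nat.succ_le_succ hij)⟩

theorem mAm_le_rr (hw : Wt w) {L : List (Lv Ω)} (hL : Mono 0 L) {l₀ : Lv Ω}
    (h1 : ∀ x, l₀.cov x x ≤ 1) (h : Ω → ℝ) (j : ℕ) :
    node w L j (mAm w (L.drop j) l₀) h ≤ rho w L l₀ h j :=
  node_mono hw (eg_mAm hw _ l₀) (eg_rr hw _ l₀) (fun z => by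
    have := Bq_le hw (mono_drop j hL) l₀ (fld_sq_le h1) z (mv w (L.drop j) l₀ z)
    rw [one_mul] at this
    exact this) L j h

theorem mAm_le (hw : Wt w) {L : List (Lv Ω)} (hL : Mono 0 L) {l₀ : Lv Ω}
    (h1 : ∀ x, l₀.cov x x ≤ 1) (h : Ω → ℝ) {τ a η : ℝ} (hτ : 0 < τ) (ha : 0 < a) (hη : 0 ≤ η)
    (hD : ∀ k (hk : k + 1 < L.length), Dom L[k + 1] l₀ τ) (hx : ∀ k, a ≤ ex L k) {j : ℕ}
    (hj : 1 ≤ j) (hjL : j + 1 ≤ L.length) (h0 : rho w L l₀ h (j + 1) ≤ (j + 1 / 2) * η)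
    (hr : ∀ i, rho w L l₀ h (j + 1) - rho w L l₀ h (j - i + 1) ≤ (2 * i + 1) * η) (D : ℕ) :
    node w L (j + 1) (mAm w (L.drop (j + 1)) l₀) h ≤
      (D + 2) * ((9 * D + 2) * (η / (a * τ)) + 3 * (max (j / 2 ^ D) 1 : ℕ) * η) := by
  set u : ℕ → ℕ := fun i => max (j / 2 ^ i) 1 with hu
  have u1 : ∀ i, 1 ≤ u i := fun i => le_max_right _ _
  have uj : ∀ i, u i ≤ j := fun i => max_le (Nat.div_le_self _ _) hj
  have u3 : ∀ i, u i ≤ 3 * u (i + 1) := fun i => by
    simp only [hu, pow_succ, ← Nat.div_div_eq_div_mul]; omega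
  have ua : Antitone u := fun i i' h => max_le_max
    (Nat.div_le_div_left (Nat.pow_le_pow_right two_pos h) (by positivity)) le_rfl
  set τ' : ℕ → ℝ := fun k => if k = 0 then 0 else τ with hτ'
  have hS : ∀ i, a * τ * u i ≤ ∑ k ∈ Finset.Ico (j - u i + 1) (j + 1), ex L k * τ' k := fun i => by
    have := Finset.card_nsmul_le_sum (Finset.Ico (j - u i + 1) (j + 1)) (fun k => ex L k * τ' k)
      (a * τ) fun k hk => by
        rw [hτ']
        simp only [if_neg (show k ≠ 0 by have := (Finset.mem_Ico.1 hk).1; omega)]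
        exact mul_le_mul_of_nonneg_right (hx k) hτ.le
    rwa [Nat.card_Ico, show j + 1 - (j - u i + 1) = u i by have := uj i; omega, nsmul_eq_mul,
      mul_comm] at this
  have up : ∀ i, (0 : ℝ) < a * τ * u i := fun i => by
    have : (0 : ℝ) < u i := by exact_mod_cast u1 i
    positivity
  have r3 : ∀ i, rho w L l₀ h (j + 1) - rho w L l₀ h (j - u i + 1) ≤ 3 * u i * η := fun i => by
    have : (1 : ℝ) ≤ u i := by exact_mod_cast u1 i
    nlinarith [hr (u i)]
  refine (dyad hw hL l₀ (τ := τ') (fun k hk => ?_) hjL (fld_sq_le h1) h D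
    (t := fun i => j - u i + 1) (fun i i' h => by have := ua h; dsimp only; omega) (by omega)
    ((up D).trans_le (hS D))).trans (mul_le_mul_of_nonneg_left ?_ (by positivity))
  · cases k with
    | zero => exact dom_zero _ _
    | succ k => exact hD k hk
  have t1 : rho w L l₀ h (j - u 0 + 1) / ∑ k ∈ Finset.Ico (j - u 0 + 1) (j + 1), ex L k * τ' k ≤
      2 * (η / (a * τ)) := by
    have e : u 0 = j := by simp [hu, hj]
    have j1 : (1 : ℝ) ≤ j := by exact_mod_cast hj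
    refine (div_le_div₀ (show 0 ≤ 2 * j * η by positivity)
      ((rho_mono hw L l₀ h (by omega)).trans (h0.trans (by nlinarith))) (up 0) (hS 0)).trans_eq ?_
    rw [e]; field_simp
  have t2 : ∀ i ∈ Finset.range D, (rho w L l₀ h (j - u (i + 1) + 1) - rho w L l₀ h (j - u i + 1)) /
      ∑ k ∈ Finset.Ico (j - u (i + 1) + 1) (j + 1), ex L k * τ' k ≤ 9 * (η / (a * τ)) := fun i _ => by
    have e1 : (u i : ℝ) ≤ 3 * u (i + 1) := by exact_mod_cast u3 i
    have e2 := rho_mono hw L l₀ h (show j - u (i + 1) + 1 ≤ j + 1 by omega)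
    have e3 : (0 : ℝ) < u (i + 1) := by exact_mod_cast u1 (i + 1)
    refine (div_le_div₀ (show 0 ≤ 9 * u (i + 1) * η by positivity)
      (by nlinarith [r3 i]) (up (i + 1)) (hS (i + 1))).trans_eq ?_
    field_simp
  have t3 := Finset.sum_le_card_nsmul _ _ _ t2
  rw [Finset.card_range, nsmul_eq_mul] at t3
  linarith [r3 D]

variable {K : ℕ}

/-- equal slices -/
def gl (x : Fin K → ℝ) : List (ℝ × ℝ × ℝ) := List.ofFn fun k => (x k, 0, 1 / (K : ℝ))

/-- the interpolating cascade -/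
def Ld (lW l₀ : Lv Ω) (c a d : ℝ) (x : Fin K → ℝ) : List (Lv Ω) :=
  gL [] [] lW (lv l₀ c 0) a 1 (gl x) d

omit [Fintype Ω] in
theorem Ld_eq (lW l₀ : Lv Ω) (c a d : ℝ) (x : Fin K → ℝ) : Ld lW l₀ c a d x =
    lv lW (1 - d) a :: List.ofFn fun k => lv (lv l₀ c 0) (0 + 1 / K * d) (x k) := by
  simp only [Ld, gL, gl, gF_ofFn, List.nil_append, List.append_nil]

theorem Ld_LL (lW l₀ : Lv Ω) (c a d : ℝ) (x : Fin K → ℝ) : Ld lW l₀ c a d x =
    Kkt28.LL [lv lW (1 - d) a] [] (fun _ => lv (lv l₀ c 0) (0 + 1 / K * d) 0) x := by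
  simp only [Ld_eq, Kkt28.LL, Kkt28.blk, List.append_nil, List.singleton_append]

omit [Fintype Ω] in
theorem ex_Ld (lW l₀ : Lv Ω) (c a d : ℝ) (x : Fin K → ℝ) : ex (Ld lW l₀ c a d x) = xe a 1 x := by
  funext j
  rw [Ld_eq]
  cases j with
  | zero => rfl
  | succ j =>
    simp only [ex, xe, List.getElem?_cons_succ, List.getElem?_ofFn]
    split_ifs <;> rfl

/-- the finite-volume Parisi functional -/
def Gd (w : Ω → ℝ) (lW l₀ : Lv Ω) (c a : ℝ) (h : Ω → ℝ) (d : ℝ) (x : Fin K → ℝ) : ℝ :=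
  X w (Ld lW l₀ c a d x) h - d * (c / 4 * gc (gl x))

theorem gc_gl (hK : 0 < K) (x : Fin K → ℝ) :
    gc (gl x) = ∑ k : Fin K, x k * ((2 * (k : ℕ) + 1) / (K : ℝ) ^ 2) := by
  have : (K : ℝ) ≠ 0 := by positivity
  rw [gl, gc_ofFn, mul_one_div_cancel this]
  simp [div_eq_mul_inv]

theorem Gd_Gp (hK : 0 < K) (lW l₀ : Lv Ω) (c a : ℝ) (h : Ω → ℝ) (d : ℝ) :
    Gd (K := K) w lW l₀ c a h d = Kkt28.Gp w [lv lW (1 - d) a] []
      (fun _ => lv (lv l₀ c 0) (0 + 1 / K * d) 0) h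
      fun k => (0 + 1 / K * d) * c / 2 * (((k : ℕ) + 1 / 2) * (1 / K)) := by
  funext x
  rw [Gd, Kkt28.Gp, Ld_LL, gc_gl hK, Finset.mul_sum, Finset.mul_sum]
  congr 1
  exact Finset.sum_congr rfl fun k _ => by ring

/-- symmetric data -/
structure Dat (w h : Ω → ℝ) (lW l₀ : Lv Ω) (c : ℝ) (T : Set (Equiv.Perm Ω)) : Prop where
  wt : Wt w
  pos : 0 < c
  cW : ∀ x y, lW.cov x y = c / 2 * l₀.cov x y ^ 2
  diag : ∀ x, l₀.cov x x = 1
  abs : ∀ x y, |l₀.cov x y| ≤ 1
  sw : ∀ τ ∈ T, ∀ x, w (τ x) = w x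
  sh : ∀ τ ∈ T, ∀ x, h (τ x) = h x
  sc : ∀ τ ∈ T, ∀ x y, l₀.cov (τ x) (τ y) = l₀.cov x y
  tr : ∀ x y, w x ≠ 0 → w y ≠ 0 → ∃ τ ∈ T, τ x = y

theorem sum_le_of {μ F : ℕ → ℝ} (hμ : ∀ k, 0 ≤ μ k) (S : Finset ℕ) (h1 : ∑ k ∈ S, μ k ≤ 1) {c : ℝ}
    (hc : 0 ≤ c) (H : ∀ k, μ k ≠ 0 → F k ≤ c) : ∑ k ∈ S, μ k * F k ≤ c := by
  refine le_trans (Finset.sum_le_sum fun k _ => ?_)
    ((Finset.sum_mul S μ c).symm.trans_le (mul_le_of_le_one_left hc h1))
  by_cases h0 : μ k = 0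
  · simp [h0]
  · exact mul_le_mul_of_nonneg_left (H k h0) (hμ k)

theorem gR_min {h : Ω → ℝ} {lW l₀ : Lv Ω} {c : ℝ} {T : Set (Equiv.Perm Ω)} (H : Dat w h lW l₀ c T)
    {a d v : ℝ} (ha : 0 < a) (ha1 : a ≤ 1) (hd : 0 < d) (hd1 : d ≤ 1) (hv : 0 < v) (hK : 0 < K)
    (hcK : c ≤ K) {D : ℕ} (hcD : c ≤ 2 ^ D) {x : Fin K → ℝ} (hx : x ∈ Simp K a 1)
    (hm : ∀ y ∈ Simp K a 1, Gd w lW l₀ c a h d x ≤ Gd w lW l₀ c a h d y) :
    gR w [] [] lW (lv l₀ c 0) a 1 (gl x) l₀.cov h d ≤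
      (6 / (c * a ^ 2) + 18 * (9 * (D + 2) ^ 2 / (a * c)) * (1 / a + (1 / v + 1) * log (1 + c))) / d +
        (6 / (K * a ^ 2) + 4 * (v + 1 / K) ^ 2) := by
  have hw := H.wt
  have hc := H.pos
  have K0 : (0 : ℝ) < K := by exact_mod_cast hK
  have h1 : ∀ x, l₀.cov x x ≤ 1 := fun x => (H.diag x).le
  set L := Ld lW l₀ c a d x with hLd
  have hex : ex L = xe a 1 x := ex_Ld lW l₀ c a d x
  have xm := xe_mono hx ha1
  have hL : Mono 0 L := mono_of_ex (by rw [hex]; exact ha.le) (by rw [hex]; exact xm)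
  have xa : ∀ k, a ≤ ex L k := fun k => by rw [hex]; exact xm (Nat.zero_le k)
  have len : L.length = K + 1 := by simp [hLd, Ld_eq]
  have get : ∀ k (hk : k + 1 < L.length), L[k + 1] =
      lv (lv l₀ c 0) (0 + 1 / K * d) (x ⟨k, by omega⟩) := fun k hk => by simp [hLd, Ld_eq]
  have v0 : 0 < 0 + 1 / (K : ℝ) * d := by positivity
  have hT : ∀ τ ∈ T, Sym w L h τ := fun τ hτ => ⟨H.sw τ hτ, H.sh τ hτ, fun l hl x y => by
    rw [hLd, Ld_eq, List.mem_cons, List.mem_ofFn] at hl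
    rcases hl with rfl | ⟨k, rfl⟩
    · rw [Kkt28.lv_cov _ (by linarith), Kkt28.lv_cov _ (by linarith), H.cW, H.cW, H.sc τ hτ]
    · simp only [Kkt28.lv_cov _ v0.le, Kkt28.lv_cov _ hc.le, H.sc τ hτ]⟩
  have μ0 : ∀ k, 0 ≤ dm L 0 (k + 1) := fun k => dm_nonneg hL _
  have μK : ∀ k, dm L 0 (k + 1) ≠ 0 → k ≤ K := fun k hk => by
    by_contra hh; exact hk (dm_eq_zero L (by omega))
  have μ1 : ∀ S : Finset ℕ, ∑ k ∈ S, dm L 0 (k + 1) ≤ 1 := fun S => by
    refine (Finset.sum_le_sum_of_subset_of_nonneg (Finset.subset_range_sup_succ S)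
      fun k _ _ => μ0 k).trans ?_
    simp only [dm, exP]
    rw [Finset.sum_range_sub (ex L)]
    linarith [xa 0, Hess87.mono_le_one (mono_drop_ex (S.sup id).succ hL)]
  have r1 : ∀ k, rho w L l₀ h k ≤ 1 := fun k => node_le hw (eg_rr hw _ l₀) (rr_le_one hw _ h1) L k h
  have grid : ∀ k, dm L 0 (k + 1) ≠ 0 → ∃ rb, Grid K k (1 / K) (fun i => rho w L l₀ h (i + 1)) rb :=
    fun k hk => by
    rw [Gd_Gp hK] at hm
    have := Kkt28.grid_Gp hw (by simpa using ha.le) (by simp) _ h l₀ (mul_pos v0 hc)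
      (by positivity : (0 : ℝ) ≤ 1 / K)
      (fun _ a b => by rw [Kkt28.lv_cov _ v0.le, Kkt28.lv_cov _ hc.le, mul_assoc]) (fun _ => rfl)
      ha hx hm (μK k hk) (by
        have := (μ0 k).lt_of_ne' hk
        simp only [dm, exP, hex] at this
        linarith)
    have e : (fun i => rho w L l₀ h (i + 1)) = Kkt28.rr w [lv lW (1 - d) a] []
        (fun _ => lv (lv l₀ c 0) (0 + 1 / K * d) 0) h l₀.cov x := funext fun i => by
      rw [rho_eq, Kkt28.rr, ← Ld_LL, List.length_singleton, add_comm]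
    exact ⟨_, e ▸ this⟩
  have gqj : ∀ j ≤ K, gq (gl x) j = j * (1 / K) := fun j hj => by rw [gl, gq_ofFn, min_eq_left hj]
  have gq0 : ∀ j, 0 ≤ gq (gl x) j ∧ gq (gl x) j ≤ 1 := fun j => by
    have : ((min j K : ℕ) : ℝ) ≤ K := by exact_mod_cast min_le_right j K
    rw [gl, gq_ofFn]
    exact ⟨by positivity, by rw [mul_one_div, div_le_one K0]; exact this⟩
  -- the terminal node
  have top : dm L 0 (K + 1) ≠ 0 → node w L (K + 1) (trC2 w (L.drop (K + 1)) l₀) h ≤ 1 / K ∧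
      node w L (K + 1) (Vq w (L.drop (K + 1)) l₀) h ≤ 1 / K := fun hk => by
    obtain ⟨rb, G⟩ := grid K hk
    have e := pi2_sq hw L l₀ h (K + 1) 1
    have e1 := pi2_mono hw L (K + 1) (K := fun x y => (l₀.cov x y - 1) ^ 2)
      (K' := fun x y => 2 - 2 * l₀.cov x y) (fun x y => by nlinarith [abs_le.1 (H.abs x y)]) h
    rw [pi2_sub hw, pi2_const hw, pi2_const_mul, ← rho_eq] at e1
    have e2 := G.le_r
    have e3 : ((K : ℝ) - 1 / 2) * (1 / K) = 1 - 1 / K / 2 := by field_simp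
    have n1 := node_nonneg w (Φ := trC2 w (L.drop (K + 1)) l₀)
      (fun z => Finset.sum_nonneg fun _ _ => Finset.sum_nonneg fun _ _ => sq_nonneg _) L (K + 1) h
    have n2 := node_nonneg w (Vq_nonneg hw (L.drop (K + 1)) l₀) L (K + 1) h
    have n3 := node_nonneg w (Φ := fun z => (rr w (L.drop (K + 1)) l₀ z - 1) ^ 2)
      (fun z => sq_nonneg _) L (K + 1) h
    constructor <;> linarith
  set β := 1 / (a * c * d) with hβ
  have β0 : 0 < β := by positivity
  have ad : a * d ≤ 1 := mul_le_one₀ ha1 hd.le hd1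
  have cβ : 1 / c ≤ β := one_div_le_one_div_of_le (by positivity) (by nlinarith)
  have Kβ : 1 / (K : ℝ) ≤ β := (one_div_le_one_div_of_le hc hcK).trans cβ
  set α := 9 * ((D : ℝ) + 2) ^ 2 * β with hα
  have D0 : (0 : ℝ) ≤ D := Nat.cast_nonneg D
  have βα : β ≤ α := le_mul_of_one_le_left β0.le (by nlinarith)
  have hA : ∀ k, dm L 0 (k + 1) ≠ 0 → node w L (k + 1) (mAm w (L.drop (k + 1)) l₀) h ≤ α := by
    intro k hk
    obtain ⟨rb, G⟩ := grid k hk
    rcases (μK k hk).eq_or_lt with rfl | hkK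
    · refine le_trans (node_mono hw (eg_mAm hw _ l₀) (eg_Vq hw _ l₀) (fun z =>
        (Hess87.sandwich hw _ _ 0 z (mono_drop _ hL)).2) L _ h) ((top hk).2.trans (Kβ.trans βα))
    rcases Nat.eq_zero_or_pos k with rfl | hk0
    · have := G.r_le hkK
      simp only [Nat.cast_zero] at this
      linarith [mAm_le_rr hw hL h1 h (0 + 1)]
    refine (mAm_le hw hL h1 h (mul_pos v0 hc) ha (by positivity) (fun k hk => ?_) xa hk0 (by omega)
      (G.r_le hkK) (G.sub_below hkK) D).trans ?_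
    · rw [get k hk]
      refine ⟨by positivity, fun v => ⟨v, 0, fun x => ?_, le_rfl⟩⟩
      simp only [Lv.fld, Finset.mul_sum, sqrt_mul v0.le, mul_assoc, add_zero]
    · have e1 : 1 / (K : ℝ) / (a * ((0 + 1 / K * d) * c)) = β := by rw [hβ]; field_simp; ring
      have e2 : ((max (k / 2 ^ D) 1 : ℕ) : ℝ) * (1 / K) ≤ β := by
        rcases le_total (k / 2 ^ D) 1 with h2 | h2
        · rw [max_eq_right h2]; simpa using Kβ
        · rw [max_eq_left h2]
          have k1 : (k : ℝ) ≤ K := by exact_mod_cast hkK.le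
          refine le_trans ?_ ((one_div_le_one_div_of_le hc hcD).trans cβ)
          refine (mul_le_mul_of_nonneg_right Nat.cast_div_le (by positivity)).trans ?_
          push_cast
          rw [div_mul_div_comm, div_le_div_iff₀ (by positivity) (by positivity)]
          nlinarith [show (0 : ℝ) < 2 ^ D by positivity]
      rw [e1, hα]
      nlinarith [mul_le_mul_of_nonneg_left e2 (show (0 : ℝ) ≤ D + 2 by positivity),
        mul_nonneg D0 β0.le]
  have hV : ∀ k, dm L 0 (k + 1) ≠ 0 → node w L (k + 1) (Vq w (L.drop (k + 1)) l₀) h ≤ α / a := by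
    intro k hk
    rw [le_div_iff₀ ha, mul_comm, ← congrFun (node_const_mul w _ _ L _) h]
    exact le_trans (node_mono hw ((eg_Vq hw _ l₀).const_mul _) (eg_mAm hw _ l₀) (fun z =>
      Vq_le hw (mono_le (xa _) (mono_drop_ex _ hL)) l₀ z) L _ h) (hA k hk)
  have hC : ∀ k, dm L 0 (k + 1) ≠ 0 → node w L (k + 1) (trC2 w (L.drop (k + 1)) l₀) h ≤
      6 / (c * a ^ 2) / d + 6 / (K * a ^ 2) := by
    intro k hk
    obtain ⟨rb, G⟩ := grid k hk
    have a2 : a ^ 2 ≤ 1 := pow_le_one₀ ha.le ha1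
    rcases (μK k hk).eq_or_lt with rfl | hkK
    · refine (top hk).1.trans (le_add_of_nonneg_of_le (by positivity) ?_)
      exact div_le_div₀ (by norm_num) (by norm_num) (by positivity) (by nlinarith)
    have e1 := trA2_node hw hL h1 (s := √((0 + 1 / K * d) * c)) (m := x ⟨k, hkK⟩) (j := k + 1)
      (B := fun y i => √(0 + 1 / K * d) * (√c * l₀.A y i))
      (fun y i => by rw [sqrt_mul v0.le, mul_assoc])
      (by rw [List.drop_eq_getElem_cons (by omega), get k (by omega)]) h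
    rw [sq_sqrt (by positivity)] at e1
    have e2 : rho w L l₀ h (k + 1 + 1) - rho w L l₀ h (k + 1) ≤ 3 * (1 / K) := by
      by_cases h2 : k + 2 * 1 ≤ K
      · have := G.sub_above 1 h2
        simp only [Nat.cast_one] at this
        linarith
      · have := G.le_r
        have e : (k : ℝ) = K - 1 := by rw [show K = k + 1 by omega]; push_cast; ring
        have e' : ((K : ℝ) - 1 - 1 / 2) * (1 / K) = 1 - 3 / 2 * (1 / K) := by field_simp; ring
        rw [e, e'] at this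
        linarith [r1 (k + 1 + 1), show (0 : ℝ) < 1 / K by positivity]
    have e3 : a ^ 2 * node w L (k + 1) (trC2 w (L.drop (k + 1)) l₀) h ≤
        node w L (k + 1) (trA2 w (L.drop (k + 1)) l₀) h := by
      rw [← congrFun (node_const_mul w _ _ L _) h]
      exact node_mono hw ((eg_trC2 hw _ l₀).const_mul _) (eg_trA2 hw _ l₀) (fun z =>
        trC2_le hw ha.le (mono_le (xa _) (mono_drop_ex _ hL)) l₀ z) L _ h
    have s0 : 0 < (0 + 1 / (K : ℝ) * d) * c := by positivity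
    have e4 := (mul_le_mul_of_nonneg_left e3 s0.le).trans
      (e1.trans (mul_le_mul_of_nonneg_left e2 (by positivity)))
    rw [← mul_assoc, ← le_div_iff₀' (by positivity)] at e4
    refine e4.trans_eq ?_
    field_simp
    ring
  -- windows
  set m := ⌈v * K⌉₊ with hm'
  have m0 : 0 < m := Nat.ceil_pos.2 (by positivity)
  have m1 : (m : ℝ) * (1 / K) ≤ v + 1 / K := by
    have := (Nat.ceil_lt_add_one (show 0 ≤ v * K by positivity)).le
    rw [mul_one_div, div_le_iff₀ K0]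
    refine this.trans_eq ?_
    field_simp
  have α0 : 0 < α := β0.trans_le βα
  have W := win (μ := fun k => dm L 0 (k + 1)) (e := fun j => node w L (j + 1)
    (fun z => (rr w (L.drop (j + 1)) l₀ z - gq (gl x) j) ^ 2) h) μ0 μ1
    (fun j => node_le hw (((eg_rr hw _ l₀).sub (Eg.const _)).pow 2) (fun z => by
      have := rr_nonneg (w := w) (L.drop (j + 1)) l₀ z
      have := rr_le_one hw (L.drop (j + 1)) h1 z
      nlinarith [gq0 j]) L _ h) α0 (γ := 4 * (v + 1 / K) ^ 2 + 16 * (α / a)) (by positivity)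
    m (K / m + 1) fun b i hi hk => sand_win hw hL h hT H.tr l₀ H.sc _
      (fun k hk => (Finset.mem_Ico.1 hk).1) (fun k hk => by have := (Finset.mem_Ico.1 hk).2; omega)
      (Finset.mem_Ico.2 ⟨le_rfl, by omega⟩) (Finset.mem_Ico.2 ⟨by omega, by omega⟩) hk hA hV
      fun k hk' h0 => by
        obtain ⟨rb, G⟩ := grid k h0
        have k1 : m * b ≤ k ∧ k < m * b + m := by
          simp only [Finset.mem_union, Finset.mem_Ico] at hk'; omega
        have k2 : ((m * b + i : ℕ) : ℝ) + 1 ≤ k + m := by exact_mod_cast (by omega)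
        have k3 : (k : ℝ) + 1 ≤ (m * b + i : ℕ) + m := by exact_mod_cast (by omega)
        have k4 : rho w L l₀ h (k + 1) ≤ (k + 1 / 2) * (1 / K) := by
          rcases (μK k h0).eq_or_lt with rfl | hkK
          · refine (r1 _).trans ?_
            rw [mul_one_div, le_div_iff₀ K0]; linarith
          · exact G.r_le hkK
        have k5 := G.le_r
        have k6 : (0 : ℝ) < 1 / K := by positivity
        rw [gqj _ (μK _ hk), abs_le]
        constructor <;> nlinarith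
  have hB : ((K / m + 1 : ℕ) : ℝ) ≤ 1 / v + 1 := by
    push_cast
    refine add_le_add (Nat.cast_div_le.trans ?_) le_rfl
    rw [div_le_div_iff₀ (by exact_mod_cast m0) hv]
    linarith [Nat.le_ceil (v * K)]
  have hlog : log (1 + 1 / α) ≤ log (1 + c) := by
    refine Real.log_le_log (by positivity) (add_le_add le_rfl ?_)
    exact (one_div_le_one_div_of_le (by positivity) (cβ.trans βα)).trans_eq (one_div_one_div c)
  have l0 : 0 ≤ log (1 + 1 / α) := Real.log_nonneg (le_add_of_nonneg_right (by positivity))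
  have W1 := (Finset.sum_le_sum_of_subset_of_nonneg (Finset.range_mono
    (show K + 1 ≤ m * (K / m + 1) from Nat.lt_mul_div_succ K m0)) fun k _ _ =>
      mul_nonneg (μ0 k) (node_nonneg w (fun z => sq_nonneg _) L _ h)).trans W
  have W2 := sum_le_of μ0 (Finset.range (K + 1)) (μ1 _) (by positivity) hC
  have W3 := sum_le_of μ0 (Finset.range (K + 1)) (μ1 _) (by positivity) hV
  have e : gR w [] [] lW (lv l₀ c 0) a 1 (gl x) l₀.cov h d = ∑ j ∈ Finset.range (K + 1),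
      dm L 0 (j + 1) * pi2 w L (j + 1) (fun y z => (l₀.cov y z - gq (gl x) j) ^ 2) h := by
    simp only [gR, gl, List.length_ofFn, List.length_nil, add_zero, zero_add, add_comm 1]
    refine Finset.sum_congr rfl fun j _ => ?_
    have e0 : dm L 0 (j + 1) = dm (gF (lv l₀ c 0) (gl x) d ++ []) a j := dm_cons_succ _ _ _ _
    rw [e0]
    rfl
  have W4 : 18 * α * (K / m + 1 : ℕ) * log (1 + 1 / α) ≤ 18 * α * (1 / v + 1) * log (1 + c) := by
    gcongr
  have e5 : (6 / (c * a ^ 2) + 18 * (9 * (D + 2) ^ 2 / (a * c)) *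
      (1 / a + (1 / v + 1) * log (1 + c))) / d =
      6 / (c * a ^ 2) / d + 18 * (α / a) + 18 * α * (1 / v + 1) * log (1 + c) := by
    rw [hα, hβ]; field_simp; ring
  rw [e, e5]
  simp only [pi2_sq hw, mul_add, Finset.sum_add_distrib, mul_left_comm _ (2 : ℝ), ← Finset.mul_sum]
  linarith

theorem X_zero (w : Ω → ℝ) : ∀ L : List (Lv Ω), (∀ l ∈ L, ∀ x i, l.A x i = 0) → X w L = X w []
  | [], _ => rfl
  | l :: L, h => by
    rw [C.X_cons, C.step_of_zero (h l (by simp)), X_zero w L fun l hl => h l (by simp [hl])]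

/-- **soft Parisi bound with a rate** (85 #7053), abstract form -/
theorem dn_abs {h : Ω → ℝ} {lW l₀ : Lv Ω} {c : ℝ} {T : Set (Equiv.Perm Ω)} (H : Dat w h lW l₀ c T)
    {a v : ℝ} (ha : 0 < a) (ha1 : a ≤ 1) (hv : 0 < v) (hK : 0 < K) (hcK : c ≤ K) {D : ℕ}
    (hcD : c ≤ 2 ^ D) : ∃ x ∈ Simp K a 1,
    X w (List.ofFn fun k => lv (lv l₀ c 0) (1 / K) (x k)) h -
      c / 4 * ∑ k : Fin K, x k * ((2 * (k : ℕ) + 1) / (K : ℝ) ^ 2) ≤ X w [lv lW 1 a] h + 1 +
      c / 4 * ((6 / (c * a ^ 2) + 18 * (9 * (D + 2) ^ 2 / (a * c)) *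
        (1 / a + (1 / v + 1) * log (1 + c))) * log (1 + c) +
        (6 / (K * a ^ 2) + 4 * (v + 1 / K) ^ 2)) := by
  have hw := H.wt
  have hc := H.pos
  have K0 : (0 : ℝ) < K := by exact_mod_cast hK
  have cF : ∀ x y, (lv l₀ c 0).cov x y = c * l₀.cov x y := Kkt28.lv_cov _ hc.le _
  choose m hm1 hm2 using fun d : ℝ => show ∃ x ∈ Simp K a 1, ∀ y ∈ Simp K a 1,
      Gd w lW l₀ c a h d x ≤ Gd w lW l₀ c a h d y by
    rw [Gd_Gp hK]
    exact Kkt28.exists_min_Gp hw (by simpa using ha.le) (by simp) _ h _ ha ha1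
  have l0 : 0 ≤ log (1 + c) := Real.log_nonneg (by linarith)
  set P := 6 / (c * a ^ 2) + 18 * (9 * (D + 2) ^ 2 / (a * c)) *
    (1 / a + (1 / v + 1) * log (1 + c)) with hP
  set Q := 6 / (K * a ^ 2) + 4 * (v + 1 / K) ^ 2 with hQ
  have Q0 : 0 ≤ Q := by positivity
  have lip : ∀ x ∈ Simp K a 1, ∀ d e, 0 ≤ e → e ≤ d → d ≤ 1 →
      Gd w lW l₀ c a h d x - Gd w lW l₀ c a h e x ∈ Icc 0 (c * (d - e)) := by
    intro x hx d e he hed hd
    have := gue_lip hw [] [] a 1 (ℓ := gl x) hc.le H.diag H.cW cF h hed hd (B := 4)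
      (fun p hp => by
        obtain ⟨k, rfl⟩ := List.mem_ofFn.1 hp
        exact ⟨by positivity, by positivity⟩)
      (fun d => (mono_of_ex (L := Ld lW l₀ c a d x) (m0 := 0) (by rw [ex_Ld]; exact ha.le)
        (by rw [ex_Ld]; exact xe_mono hx ha1)).2)
      fun j y z => by
        have : ((min j K : ℕ) : ℝ) ≤ K := by exact_mod_cast min_le_right j K
        have h1 : 0 ≤ gq (gl x) j := by rw [gl, gq_ofFn]; positivity
        have h2 : gq (gl x) j ≤ 1 := by rw [gl, gq_ofFn, mul_one_div, div_le_one K0]; exact this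
        nlinarith [abs_le.1 (H.abs y z)]
    refine ⟨this.1, this.2.trans ?_⟩
    nlinarith [mul_nonneg (mul_nonneg hc.le ha.le) (sub_nonneg.2 hed)]
  set d0 := 1 / (1 + c) with hd0
  have d00 : 0 < d0 := by positivity
  have d01 : d0 ≤ 1 := by rw [hd0, div_le_one (by positivity)]; linarith
  have env := envelope (G := Gd w lW l₀ c a h) (S := Simp K a 1) (m := m) (a := d0) (b := 1) (C := c)
    (D := fun d => c / 4 * gR w [] [] lW (lv l₀ c 0) a 1 (gl (m d)) l₀.cov h d)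
    (B := fun d => c / 4 * (P * log d + Q * d)) (B' := fun d => c / 4 * (P / d + Q))
    (fun d _ => ⟨hm1 d, hm2 d⟩) (fun x hx d hd e he => by
      rcases le_total e d with h1 | h1
      · rw [abs_of_nonneg (sub_nonneg.2 h1)]
        exact (lip x hx d e (d00.le.trans he.1) h1 hd.2).2
      · have := (lip x hx e d (d00.le.trans hd.1) h1 he.2).1
        nlinarith [abs_nonneg (d - e)])
    (fun d hd => (gue hw [] [] a 1 H.diag H.cW cF h hd.2 fun p hp => by
      obtain ⟨k, rfl⟩ := List.mem_ofFn.1 hp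
      have := d00.trans_le hd.1
      exact Or.inr (by positivity)).hasDerivWithinAt)
    (continuousOn_const.mul ((continuousOn_const.mul (continuousOn_id.log fun d hd =>
      (d00.trans_le hd.1).ne')).add (continuousOn_const.mul continuousOn_id)))
    (fun d hd => ((((Real.hasDerivAt_log (d00.trans_le hd.1).ne').const_mul P).add
      ((hasDerivAt_id d).const_mul Q)).const_mul (c / 4)).hasDerivWithinAt.congr_deriv (by
        rw [mul_one, div_eq_mul_inv P]))
    (fun d hd => mul_le_mul_of_nonneg_left (gR_min H ha ha1 (d00.trans_le hd.1) hd.2.le hv hK hcK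
      hcD (hm1 d) (hm2 d)) (by positivity)) 1 ⟨d01, le_rfl⟩
  refine ⟨m 1, hm1 1, ?_⟩
  have h1 := (lip _ (hm1 d0) d0 0 le_rfl d00.le d01).2
  have h2 : c * (d0 - 0) ≤ 1 := by
    rw [sub_zero, hd0, mul_one_div, div_le_one (by positivity)]; linarith
  have h3 : Gd w lW l₀ c a h 0 (m d0) = X w [lv lW 1 a] h := by
    rw [Gd, Ld_eq, zero_mul, sub_zero, sub_zero, C.X_cons, C.X_cons, X_zero w _ fun l hl => by
      obtain ⟨k, rfl⟩ := List.mem_ofFn.1 hl
      simp]
  have h4 : Gd w lW l₀ c a h 1 (m 1) = X w (List.ofFn fun k => lv (lv l₀ c 0) (1 / K) (m 1 k)) h -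
      c / 4 * ∑ k : Fin K, m 1 k * ((2 * (k : ℕ) + 1) / (K : ℝ) ^ 2) := by
    rw [Gd, Ld_eq, gc_gl hK, C.X_cons, C.step_of_zero (by simp), zero_add, mul_one, one_mul]
  have h5 : log d0 = -log (1 + c) := by rw [hd0, one_div, Real.log_inv]
  rw [h5, Real.log_one] at env
  nlinarith [mul_nonneg hc.le (mul_nonneg Q0 d00.le)]

end Crest.Agent.T156.Cas.Sy41

end
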