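import Crest.Agent.T156.QClDef_98
import Crest.Agent.T156.MdDic_67
import Crest.Agent.T156.POde_3

/-!
# Row 156, block Q on the class `Cl`: scale facts, Riccati data, upper chains (helper33)
-/

set_option autoImplicit false
set_option linter.unusedSectionVars false

noncomputable section

namespace Crest.Agent.T156.Alt.C33

open MeasureTheory Real Finset Filter
open Crest.Agent.T157.E Crest.Agent.T157.Casc Crest.Agent.T157.SL Crest.Agent.T157.Pf
open Crest.Agent.T156.Cas Crest.Agent.T156.Cas.Lp12 Crest.Agent.T156.Alt.Md67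

variable {S : Sc} {M : Md} {m : ℕ} {a : ℝ}

/-! ### the cascade data -/

theorem tau_succ (k : ℕ) : M.τ m (k + 1) = (M.H (k + 1) - M.H k) * m := by
  rw [Md.τ, if_neg k.succ_ne_zero, Nat.add_sub_cancel]

theorem tau_eq {k : ℕ} (hk : k < (M.L m a).length) : M.τ m k = dh M k * m := by
  cases k with
  | zero => rw [Md.τ, if_pos rfl, dh]
  | succ k => rw [tau_succ, dh_succ (by rw [len_L] at hk; omega)]

theorem dat (G : Lg M m a) : QCas98.Dat (fun _ => 1) (M.L m a) 0 (Q33.sl m) (M.τ m) :=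
  ⟨G.dt.wt, G.monoL, ⟨_, G.sym, Q33.ts_trans, Q33.ts_cov (Q33.sl_cov G.m0)⟩, G.dt.diag,
    fun k hk => by rw [tau_eq hk]; exact G.dt.dom k hk⟩

theorem dt (G : Lg M m a) : Q33.Dt (fun _ => 1) (M.L m a) (Q33.sl m) (M.τ m) 1 :=
  ⟨G.dt.wt, G.monoL, (dat G).dom, G.dt.diag⟩

theorem SW_eq {x : ℝ} (h : M.Leg x) (u i : ℕ) : SW (M.L m a) (M.τ m) (u + 1) (i + 1) =
    ∑ k ∈ Ico u i, M.z k * ((M.H (k + 1) - M.H k) * m) := by
  rw [SW, ← sum_Ico_add']
  exact sum_congr rfl fun k _ => by rw [ex_succ h, tau_succ]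

/-! ### scale facts -/

/-- a member of the class with a fine mesh -/
structure Fn (S : Sc) (M : Md) (m : ℕ) (a : ℝ) : Prop extends Cl S M, S.In m a where
  n3 : 3 ≤ S.n
  A1 : 1 ≤ S.A
  fine : S.C * S.v ≤ M.z 0

/-- the mesh is fine for large sizes -/
theorem ev_fn (C : ℝ) {A : ℕ} (hA : 2 ≤ A) : ∀ᶠ n : ℕ in atTop, ∀ (S : Sc) (M : Md), S.C = C →
    S.A = A → S.n = n → Cl S M → ∀ m a, S.In m a → Fn S M m a := by
  filter_upwards [eventually_ge_atTop 3,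
    tendsto_natCast_atTop_atTop.eventually_ge_atTop (C ^ 2)] with n h3 hC S M e1 e2 e3 H m a I
  subst e1 e2 e3
  refine ⟨H, I, h3, by omega, ?_⟩
  have n1 : (1 : ℝ) ≤ S.n := by exact_mod_cast (by omega : 1 ≤ S.n)
  have C1 := H.C1
  have v0 : 0 < S.v := by
    have := (one_div_pos.2 (by linarith : 0 < S.C)).trans_le H.v1
    exact pos_of_mul_pos_left this (by positivity)
  have b1 : S.v * (S.n : ℝ) ^ 2 ≤ S.C :=
    (mul_le_mul_of_nonneg_left (pow_le_pow_right₀ n1 hA) v0.le).trans H.v2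
  have b2 : S.C * S.v ≤ (S.n : ℝ)⁻¹ := by
    rw [← one_div, le_div_iff₀ (by positivity)]
    refine le_of_mul_le_mul_right ?_ (by positivity : (0 : ℝ) < S.n)
    nlinarith [mul_le_mul_of_nonneg_left b1 (by linarith : 0 ≤ S.C)]
  have b3 : (S.n : ℝ)⁻¹ ≤ (S.n : ℝ) ^ (-(1 : ℝ) / 6) := by
    rw [← rpow_neg_one]
    exact rpow_le_rpow_of_exponent_le n1 (by norm_num)
  linarith [I.a1, I.a2, H.leg.z0]

namespace Fn

variable (F : Fn S M m a)
include F

theorem n1 : (1 : ℝ) ≤ S.n := by exact_mod_cast (by have := F.n3; omega : 1 ≤ S.n)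

theorem C0 : 0 < S.C := zero_lt_one.trans_le F.C1

theorem lg : Lg M m a := lg_cl F.toCl (by have := F.n3; omega) F.toIn

theorem nm : (S.n : ℝ) ≤ m := by exact_mod_cast F.m1

theorem v0 : 0 < S.v := by
  have := (one_div_pos.2 F.C0).trans_le F.v1
  have n1 := F.n1
  exact pos_of_mul_pos_left this (by positivity)

theorem vn : S.v * S.n ≤ S.C :=
  (mul_le_mul_of_nonneg_left (le_self_pow₀ F.n1 (by have := F.A1; omega)) F.v0.le).trans F.v2

theorem s_nonneg (k : ℕ) : 0 ≤ M.s k := F.s0.ge.trans (F.sm (Nat.zero_le k))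

theorem ms_pos {t : ℝ} (ht : 0 ≤ t) : 0 < S.ms t :=
  (lt_of_lt_of_le (by have := F.n1; positivity) F.ms0).trans_le (F.msm ht)

theorem ms_le_one (t : ℝ) : S.ms t ≤ 1 := by
  have l1 : 1 ≤ log S.n := by
    rw [le_log_iff_exp_le (zero_lt_one.trans_le F.n1)]
    have : (3 : ℝ) ≤ S.n := by exact_mod_cast F.n3
    linarith [exp_one_lt_d9]
  have := (F.ms_pos le_rfl).trans_le (F.ms1 0)
  nlinarith [F.ms1 t, F.msθ]

theorem ms_pow {t : ℝ} (ht : 0 ≤ t) : ∀ r : ℕ, S.ms (2 ^ r * t) ≤ 4 ^ r * S.ms t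
  | 0 => by simp
  | r + 1 => by
    have := F.ms2 (2 ^ r * t) (by positivity)
    have := ms_pow ht r
    rw [pow_succ', mul_assoc, pow_succ', mul_assoc]
    linarith

theorem F0 : 0 < S.F := zero_lt_one.trans_le F.F1

theorem w3_pos {t : ℝ} (ht : 0 < t) : 0 < S.w3 t := by
  have := F.F0
  have := F.ms_pos ht.le
  have := F.n1
  unfold Sc.w3
  positivity

theorem s_mem : ∀ {k : ℕ}, k ≤ S.J → k * S.v ≤ S.C * M.s k ∧ M.s k ≤ S.C * (k * S.v)
  | 0, _ => by simp [F.s0]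
  | k + 1, hk => by
    obtain ⟨h1, h2⟩ := s_mem (k := k) (by omega)
    obtain ⟨h3, h4⟩ := F.ss k hk
    rw [div_le_iff₀' F.C0] at h3
    push_cast
    constructor <;> nlinarith

theorem s_lt {k : ℕ} (hk : k < S.J) : M.s k < M.s (k + 1) := by
  linarith [(F.ss k hk).1, div_pos F.v0 F.C0]

theorem z_eq {k : ℕ} (h0 : S.j0 ≤ k) (hk : k < S.J) : lvr 1 M.lr (M.s k) = M.z k :=
  F.lv k h0 _ le_rfl (F.s_lt hk)

theorem z_pos (k : ℕ) : 0 < M.z k :=
  ((mul_pos F.C0 F.v0).trans_le F.fine).trans_le (F.leg.zm (Nat.zero_le k))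

theorem s_le_z {k : ℕ} (h0 : S.j0 ≤ k) (hk : k < S.J) : M.s k ≤ 2 * S.C * M.z k := by
  have h := (F.lip 0 _ le_rfl (F.s_nonneg k) ((F.s_lt hk).trans_le (F.sm hk))).1
  rw [F.z_eq h0 hk, sub_zero] at h
  have h1 := Pp.Ode3.lvr_pos F.ok.1 0
  have h2 := F.fine.trans (F.leg.zm (Nat.zero_le k))
  have : M.s k / S.C ≤ 2 * M.z k := by linarith
  rw [div_le_iff₀ F.C0] at this
  linarith

/-- `z k ≍ k v` on the sloped part, lower bound -/
theorem z_lo {k : ℕ} (h0 : S.j0 ≤ k) (hk : k < S.J) : k * S.v ≤ 2 * S.C ^ 2 * M.z k := by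
  nlinarith [(F.s_mem hk.le).1, mul_le_mul_of_nonneg_left (F.s_le_z h0 hk) F.C0.le]

theorem z_le_s {k : ℕ} (h0 : S.j0 ≤ k) (hk : k < S.J) : M.z k ≤ S.C * (M.s k + 2 * S.v) := by
  have h := (F.lip 0 _ le_rfl (F.s_nonneg k) ((F.s_lt hk).trans_le (F.sm hk))).2
  rw [F.z_eq h0 hk, sub_zero] at h
  linarith [F.lv0]

/-- `z k ≍ k v` on the sloped part, upper bound -/
theorem z_hi {k : ℕ} (h0 : S.j0 ≤ k) (hk : k < S.J) : M.z k ≤ 3 * S.C ^ 2 * (k * S.v) := by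
  have k1 : (1 : ℝ) ≤ k := by exact_mod_cast F.i0.trans h0
  have a1 : S.v ≤ k * S.v := le_mul_of_one_le_left F.v0.le k1
  have a2 : k * S.v ≤ S.C * (k * S.v) := le_mul_of_one_le_left (F.v0.le.trans a1) F.C1
  have a3 : M.s k + 2 * S.v ≤ 3 * (S.C * (k * S.v)) := by linarith [(F.s_mem hk.le).2]
  nlinarith [F.z_le_s h0 hk, mul_le_mul_of_nonneg_left a3 F.C0.le]

theorem z_top {k : ℕ} (hk : S.J ≤ k + 1) : 1 ≤ S.C * M.z k := by
  have := F.atom.1.trans (F.leg.zm (by omega : S.J - 1 ≤ k))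
  rwa [div_le_iff₀' F.C0] at this

/-- the sloped part has macroscopic length -/
theorem J_lo : 1 ≤ 3 * S.C ^ 3 * (S.J * S.v) := by
  have i1 := F.i1
  have i2 := F.i2
  have h1 := F.z_top (k := S.J - 1) (by omega)
  have h2 := F.z_hi (k := S.J - 1) (by omega) (by omega)
  have h3 : ((S.J - 1 : ℕ) : ℝ) * S.v ≤ S.J * S.v :=
    mul_le_mul_of_nonneg_right (by exact_mod_cast Nat.sub_le _ _) F.v0.le
  have C0 := F.C0
  calc 1 ≤ S.C * (3 * S.C ^ 2 * (S.J * S.v)) := h1.trans (mul_le_mul_of_nonneg_left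
        (h2.trans (mul_le_mul_of_nonneg_left h3 (by positivity))) C0.le)
    _ = _ := by ring

/-- times against tilts, plateau included -/
theorem s_le_z' {k : ℕ} (h0 : S.j0 ≤ k) (hk : k ≤ S.Jp) : M.s k ≤ 2 * S.C ^ 2 * M.z k := by
  have z0 := mul_pos F.C0 (F.z_pos k)
  have C1 := F.C1
  rcases lt_or_ge k S.J with h | h
  · nlinarith [F.s_le_z h0 h]
  · nlinarith [F.z_top (k := k) (by omega), (F.sm hk).trans F.sT]

/-- floor of the Riccati rates -/
theorem tau_lo {k : ℕ} (h0 : S.jl ≤ k) (hk : k < S.Jp) {μ : ℝ} (hμ : μ ≤ S.ms (M.s k) / S.F) :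
    μ * S.v / S.C * S.n ≤ (M.H (k + 1) - M.H k) * m := by
  have := F.n1
  have := F.F0
  have := F.C0
  refine mul_le_mul (le_trans ?_ (F.flr k h0 hk)) F.nm (by positivity) (dH_nonneg F.leg k)
  exact (div_le_div_of_nonneg_right (mul_le_mul_of_nonneg_right hμ F.v0.le) F.C0.le).trans_eq
    (by field_simp)

/-- **a window `[u, i')` below the node `i`** -/
theorem win_lo {u i' i : ℕ} (h0 : S.jl ≤ u) (h1 : u ≤ i') (h2 : i' ≤ S.Jp) (h3 : i' ≤ i) {x μ : ℝ}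
    (hx0 : 0 ≤ x) (hx : x ≤ M.z u) (hμ0 : 0 ≤ μ) (hμ : μ ≤ S.ms (M.s u) / S.F) :
    x ^ 2 * (((i' : ℝ) - u) * S.v) * (μ * S.n) / S.C ≤
      ex (M.L m a) (u + 1) * SW (M.L m a) (M.τ m) (u + 1) (i + 1) := by
  have n1 := F.n1
  have v0 := F.v0
  have C0 := F.C0
  rw [ex_succ F.leg, SW_eq F.leg]
  have a1 : ∑ _k ∈ Ico u i', x * (μ * S.v / S.C * S.n) ≤
      ∑ k ∈ Ico u i, M.z k * ((M.H (k + 1) - M.H k) * m) := by
    refine le_trans (sum_le_sum fun k hk => ?_) (sum_le_sum_of_subset_of_nonneg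
      (Ico_subset_Ico_right h3) fun k _ _ => mul_nonneg (F.z_pos k).le
        (mul_nonneg (dH_nonneg F.leg k) (Nat.cast_nonneg m)))
    obtain ⟨k1, k2⟩ := mem_Ico.1 hk
    exact mul_le_mul (hx.trans (F.leg.zm k1))
      (F.tau_lo (h0.trans k1) (k2.trans_le h2) (hμ.trans (div_le_div_of_nonneg_right (F.msm (F.sm k1)) F.F0.le))) (by positivity)
      (F.z_pos k).le
  rw [sum_const, Nat.card_Ico, nsmul_eq_mul, Nat.cast_sub h1] at a1
  have a2 : (0 : ℝ) ≤ (i' : ℝ) - u := sub_nonneg.2 (by exact_mod_cast h1)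
  calc _ = x * (((i' : ℝ) - u) * (x * (μ * S.v / S.C * S.n))) := by ring
    _ ≤ _ := mul_le_mul hx a1 (by positivity) (F.z_pos u).le

/-- the dyadic window below `i'` on the sloped part -/
theorem win_half {i' i : ℕ} (h0 : 2 * S.jl ≤ i') (h2 : i' ≤ S.J) (h3 : i' ≤ i) {μ : ℝ}
    (hμ0 : 0 ≤ μ) (hμ : μ ≤ S.ms (M.s (i' / 2)) / S.F) :
    (i' * S.v) ^ 3 * (μ * S.n) / (72 * S.C ^ 5) ≤
      ex (M.L m a) (i' / 2 + 1) * SW (M.L m a) (M.τ m) (i' / 2 + 1) (i + 1) := by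
  have n1 := F.n1
  have v0 := F.v0
  have C0 := F.C0
  have i0 := F.i0
  have i1 := F.i1
  have e1 : (i' : ℝ) ≤ 3 * (i' / 2 : ℕ) := by exact_mod_cast (by omega : i' ≤ 3 * (i' / 2))
  have e2 : 2 * ((i' / 2 : ℕ) : ℝ) ≤ i' := by exact_mod_cast (by omega : 2 * (i' / 2) ≤ i')
  have hz := F.z_lo (k := i' / 2) (by omega) (by omega)
  refine le_trans ?_ (F.win_lo (x := i' * S.v / (6 * S.C ^ 2)) (by omega) (by omega)
    (h2.trans F.i3) h3 (by positivity) ?_ hμ0 hμ)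
  · calc _ = (i' * S.v / (6 * S.C ^ 2)) ^ 2 * ((i' / 2 : ℝ) * S.v) * (μ * S.n) / S.C := by
          field_simp; ring
      _ ≤ _ := by gcongr; linarith
  · rw [div_le_iff₀ (by positivity)]
    nlinarith [mul_le_mul_of_nonneg_right e1 v0.le]

section blk
variable {K t : ℝ} {k0 k1 r : ℕ} (B : QB K S M t k0 k1) (hr : K ≤ 2 ^ r)
include B

theorem t_le_s (hK : 1 ≤ K) {k : ℕ} (hk : k0 ≤ k) : t ≤ K * M.s k :=
  B.lo.trans (mul_le_mul_of_nonneg_left (F.sm hk) (zero_le_one.trans hK))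

theorem t_le (hK : 1 ≤ K) : t ≤ K * S.C :=
  (F.t_le_s B hK (B.k01.trans B.k1p)).trans
    (mul_le_mul_of_nonneg_left F.sT (zero_le_one.trans hK))

theorem t_le_z (hK : 1 ≤ K) {k : ℕ} (hk : k0 ≤ k) : t ≤ 2 * K * S.C ^ 2 * M.z k := by
  have := mul_le_mul_of_nonneg_left ((F.s_le_z' (F.i1.trans B.k0l) (B.k01.trans B.k1p)).trans
    (mul_le_mul_of_nonneg_left (F.leg.zm hk) (by positivity))) (zero_le_one.trans hK)
  linarith [B.lo]

theorem t_le_kv (hK : 1 ≤ K) {k : ℕ} (hk : k0 ≤ k) (hJ : k ≤ S.J) : t ≤ K * S.C * (k * S.v) := by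
  have := mul_le_mul_of_nonneg_left (F.s_mem hJ).2 (zero_le_one.trans hK)
  linarith [F.t_le_s B hK hk]

theorem kv_le_t (hJ : k1 < S.J) : k1 * S.v ≤ 2 * K * S.C ^ 2 * t := by
  have := mul_le_mul_of_nonneg_left B.hi (by positivity : 0 ≤ 2 * S.C ^ 2)
  linarith [F.z_lo (F.i1.trans (B.k0l.trans B.k01)) hJ]

include hr

theorem ms_le {k : ℕ} (hk : k0 ≤ k) : S.ms t / S.F / 4 ^ r ≤ S.ms (M.s k) / S.F := by
  rw [div_right_comm]
  refine div_le_div_of_nonneg_right ?_ F.F0.le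
  rw [div_le_iff₀' (by positivity)]
  exact (F.msm (B.lo.trans ((mul_le_mul_of_nonneg_right hr (F.s_nonneg _)).trans
    (mul_le_mul_of_nonneg_left (F.sm hk) (by positivity))))).trans (F.ms_pow (F.s_nonneg k) r)

end blk

end Fn

theorem sum_cube {a : ℕ} (ha : 1 ≤ a) : ∀ b : ℕ, a ≤ b →
    ∑ i ∈ Ioc a b, 1 / (i : ℝ) ^ 3 ≤ 1 / (a : ℝ) ^ 2 - 1 / (b : ℝ) ^ 2 := by
  intro b hb
  induction b, hb using Nat.le_induction with
  | base => simp
  | succ b hb ih =>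
    rw [sum_Ioc_succ_top hb]
    have b1 : (1 : ℝ) ≤ b := by exact_mod_cast ha.trans hb
    have : 1 / ((b : ℝ) + 1) ^ 3 ≤ 1 / (b : ℝ) ^ 2 - 1 / ((b : ℝ) + 1) ^ 2 := by
      rw [div_sub_div _ _ (by positivity) (by positivity), div_le_div_iff₀ (by positivity)
        (by positivity)]
      nlinarith [mul_pos (by positivity : (0 : ℝ) < b) (by positivity : (0 : ℝ) < (b + 1) ^ 2),
        mul_pos (by positivity : (0 : ℝ) < b ^ 2) (by positivity : (0 : ℝ) < (b + 1) ^ 2)]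
    push_cast
    linarith

theorem mon {K C R c X : ℝ} {i j : ℕ} (hK : 1 ≤ K) (hC : 1 ≤ C) (hR : 1 ≤ R)
    (hX : 2016 * K ^ 3 * C ^ 14 * R ≤ X) (hc : c ≤ 2016) (hi : i ≤ 3) (hj : j ≤ 14) :
    c * K ^ i * C ^ j * R ≤ X ∧ c * K ^ i * C ^ j ≤ X := by
  have a : c * K ^ i * C ^ j ≤ 2016 * K ^ 3 * C ^ 14 := by gcongr
  exact ⟨(mul_le_mul_of_nonneg_right a (by positivity)).trans hX,
    a.trans ((le_mul_of_one_le_right (by positivity) hR).trans hX)⟩

namespace Fn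

variable (F : Fn S M m a) {K t X : ℝ} {k0 k1 r : ℕ} (B : QB K S M t k0 k1) (hK : 1 ≤ K)
  (hr : K ≤ 2 ^ r) (hX : 2016 * K ^ 3 * S.C ^ 14 * 4 ^ r ≤ X)
include F B hK hr

/-- the weights above a low block against their windows -/
theorem sum_up (ht : t ≤ 1) (hJ : 2 * k1 < S.J) :
    ∑ i ∈ Ioc (2 * k1) M.N, M.dz m a i / (ex (M.L m a) (min i S.J / 2 + 1) *
      SW (M.L m a) (M.τ m) (min i S.J / 2 + 1) (i + 1)) ≤
      2016 * K ^ 2 * S.C ^ 14 * 4 ^ r * (S.w3 t / t) := by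
  have n1 := F.n1
  have v0 := F.v0
  have C0 := F.C0
  have C1 := F.C1
  have t0 := B.t0
  have m0 := F.ms_pos t0.le
  have f0 := F.F0
  have i0 := F.i0
  have i1 := F.i1
  have b0 := B.k0l
  have b1 := B.k01
  set D := 72 * S.C ^ 5 / (S.ms t / S.F / 4 ^ r * S.n) with hD
  have term : ∀ i ∈ Ioc (2 * k1) M.N, M.dz m a i / (ex (M.L m a) (min i S.J / 2 + 1) *
      SW (M.L m a) (M.τ m) (min i S.J / 2 + 1) (i + 1)) ≤
      D * (S.C / S.v ^ 2 * (1 / (i : ℝ) ^ 3) + 27 * S.C ^ 9 * M.dz m a i) := by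
    intro i hi
    have hi := (mem_Ioc.1 hi).1
    have d0 := F.lg.dz_nonneg i
    have p0 : (0 : ℝ) < (min i S.J : ℕ) := by exact_mod_cast (by omega : 0 < min i S.J)
    have q0 : (0 : ℝ) < i := by exact_mod_cast (by omega : 0 < i)
    have w := F.win_half (i' := min i S.J) (i := i) (by omega) (min_le_right _ _)
      (min_le_left _ _) (by positivity) (F.ms_le B hr (by omega))
    refine (div_le_div_of_nonneg_left d0 (by positivity) w).trans ?_
    rw [show ∀ y : ℝ, M.dz m a i / (y * (S.ms t / S.F / 4 ^ r * S.n) / (72 * S.C ^ 5)) =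
      D * (M.dz m a i / y) from fun y => by rw [hD]; field_simp]
    refine mul_le_mul_of_nonneg_left ?_ (by positivity)
    rcases lt_or_ge i S.J with h | h
    · rw [min_eq_left h.le]
      have e : M.dz m a i ≤ S.C * S.v := by
        obtain ⟨k, rfl⟩ : ∃ k, i = k + 1 := ⟨i - 1, by omega⟩
        rw [dz_succ F.leg]
        exact (F.zs k (by omega) h).2
      have : M.dz m a i / (i * S.v) ^ 3 ≤ S.C / S.v ^ 2 * (1 / (i : ℝ) ^ 3) :=
        (div_le_div_of_nonneg_right e (by positivity)).trans_eq (by field_simp)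
      have : 0 ≤ 27 * S.C ^ 9 * M.dz m a i := by positivity
      linarith
    · rw [min_eq_right h] at p0 ⊢
      have : M.dz m a i / (S.J * S.v) ^ 3 ≤ 27 * S.C ^ 9 * M.dz m a i := by
        rw [div_le_iff₀ (by positivity)]
        have := mul_le_mul_of_nonneg_left (one_le_pow₀ (n := 3) F.J_lo) d0
        linarith [show M.dz m a i * (3 * S.C ^ 3 * (S.J * S.v)) ^ 3 =
          27 * S.C ^ 9 * M.dz m a i * (S.J * S.v) ^ 3 by ring]
      have : 0 ≤ S.C / S.v ^ 2 * (1 / (i : ℝ) ^ 3) := by positivity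
      linarith
  refine (sum_le_sum term).trans ?_
  rw [← mul_sum, sum_add_distrib, ← mul_sum, ← mul_sum]
  have k0' : (0 : ℝ) < k1 := by exact_mod_cast (by omega : 0 < k1)
  have s1 : ∑ i ∈ Ioc (2 * k1) M.N, 1 / (i : ℝ) ^ 3 ≤ 1 / (k1 : ℝ) ^ 2 := by
    have := sum_cube (a := 2 * k1) (by omega) M.N (by have := F.i3; have := F.i4; omega)
    have e1 : 1 / ((2 * k1 : ℕ) : ℝ) ^ 2 ≤ 1 / (k1 : ℝ) ^ 2 := by
      push_cast; gcongr; linarith
    have : 0 ≤ 1 / (M.N : ℝ) ^ 2 := by positivity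
    linarith
  have s2 : ∑ i ∈ Ioc (2 * k1) M.N, M.dz m a i ≤ 1 / t ^ 2 := by
    have := F.lg.sum_dz_le (Ioc (2 * k1) M.N)
    have e : 1 ≤ 1 / t ^ 2 := one_le_one_div (by positivity) (pow_le_one₀ t0.le ht)
    linarith [F.lg.a0]
  have s3 : S.C / S.v ^ 2 * (1 / (k1 : ℝ) ^ 2) ≤ K ^ 2 * S.C ^ 9 * (1 / t ^ 2) := by
    have e := pow_le_pow_left₀ t0.le (F.t_le_kv B hK b1 (by omega)) 2
    have e3 : S.C ^ 3 ≤ S.C ^ 9 := pow_le_pow_right₀ C1 (by norm_num)
    calc _ = S.C / (k1 * S.v) ^ 2 := by field_simp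
      _ ≤ K ^ 2 * S.C ^ 3 * (1 / t ^ 2) := by
          rw [mul_one_div, div_le_div_iff₀ (by positivity) (by positivity)]
          nlinarith [mul_le_mul_of_nonneg_left e C0.le]
      _ ≤ _ := by gcongr
  have s4 : 27 * S.C ^ 9 * (1 / t ^ 2) ≤ 27 * (K ^ 2 * S.C ^ 9 * (1 / t ^ 2)) := by
    have := le_mul_of_one_le_left (by positivity : 0 ≤ S.C ^ 9 * (1 / t ^ 2))
      (one_le_pow₀ (n := 2) hK)
    linarith
  calc _ ≤ D * (S.C / S.v ^ 2 * (1 / (k1 : ℝ) ^ 2) + 27 * S.C ^ 9 * (1 / t ^ 2)) := by gcongr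
    _ ≤ D * (28 * (K ^ 2 * S.C ^ 9 * (1 / t ^ 2))) :=
        mul_le_mul_of_nonneg_left (by linarith) (by positivity)
    _ = _ := by rw [hD, Sc.w3]; field_simp; ring

include hX

theorem X1 : 1 ≤ X := by
  simpa using (mon (c := 1) (i := 0) (j := 0) hK F.C1 (one_le_pow₀ (by norm_num)) hX
    (by norm_num) (by norm_num) (by norm_num)).2

/-- a block of a low level lies in the lower half of the sloped part -/
theorem lowJ (ht : X * t < 1) : 2 * k1 < S.J := by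
  have t0 := B.t0
  have C0 := F.C0
  have R1 : (1 : ℝ) ≤ 4 ^ r := one_le_pow₀ (by norm_num)
  have h1 : k1 < S.J := by
    by_contra h
    have a1 := F.z_top (k := k1) (by omega)
    have a2 := (mon (c := 1) (i := 1) (j := 1) hK F.C1 R1 hX (by norm_num) (by norm_num)
      (by norm_num)).2
    nlinarith [mul_le_mul_of_nonneg_left B.hi C0.le, mul_le_mul_of_nonneg_right a2 t0.le]
  by_contra h
  have a0 : (S.J : ℝ) ≤ 2 * k1 := by exact_mod_cast not_lt.1 h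
  have a1 : S.J * S.v ≤ 2 * (2 * K * S.C ^ 2 * t) := by
    nlinarith [mul_le_mul_of_nonneg_right a0 F.v0.le, F.kv_le_t B h1]
  have a2 := (mon (c := 12) (i := 1) (j := 5) hK F.C1 R1 hX (by norm_num) (by norm_num)
    (by norm_num)).2
  nlinarith [F.J_lo, mul_le_mul_of_nonneg_left a1 (by positivity : 0 ≤ 3 * S.C ^ 3),
    mul_le_mul_of_nonneg_right a2 t0.le]

/-- **Riccati data of a block** -/
theorem ric {LL : ℕ} (hL : 2 ^ LL * (16 * K * S.v) ≤ t) : ∃ (t' : ℕ → ℕ) (j2 : ℕ),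
    QCas98.Ric (M.L m a) (M.τ m) t' LL (k0 + 1) (k1 + 1) j2 (t / X) (16 * K * S.v) (X * S.w3 t)
      (X ^ 2) := by
  have n1 := F.n1
  have v0 := F.v0
  have C0 := F.C0
  have t0 := B.t0
  have m0 := F.ms_pos t0.le
  have f0 := F.F0
  have w0 := F.w3_pos t0
  have X1 := F.X1 B hK hr hX
  have R1 : (1 : ℝ) ≤ 4 ^ r := one_le_pow₀ (by norm_num)
  have i3 := F.i3
  have i4 := F.i4
  have b2 := B.k1p
  have vw : 4 * (16 * K * S.v) ≤ X * S.w3 t := by
    rw [Sc.w3, ← mul_div_assoc, le_div_iff₀ (by positivity)]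
    refine le_trans ?_ (le_mul_of_one_le_right (by positivity) F.F1)
    refine le_trans ?_ (mon (c := 64) (i := 2) (j := 2) hK F.C1 R1 hX (by norm_num) (by norm_num)
      (by norm_num)).2
    calc _ = 64 * K * (S.v * S.n * t * S.ms t) := by ring
      _ ≤ 64 * K * (S.C * (K * S.C) * 1) := by
          gcongr
          exacts [F.vn, F.t_le B hK, F.ms_le_one t]
      _ = _ := by ring
  have blk : ∀ k, k0 + 1 ≤ k → k < k1 + 1 → t / X ≤ ex (M.L m a) k ∧
      16 * K * S.v ≤ X * S.w3 t * (ex (M.L m a) k * M.τ m k) := by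
    intro k h0 h1
    obtain ⟨k, rfl⟩ : ∃ j, k = j + 1 := ⟨k - 1, by omega⟩
    rw [ex_succ F.leg, tau_succ]
    have z0 := F.z_pos k
    have e := F.t_le_z B hK (k := k) (by omega)
    refine ⟨?_, ?_⟩
    · rw [div_le_iff₀' (by positivity)]
      refine e.trans (mul_le_mul_of_nonneg_right ?_ z0.le)
      simpa using (mon (c := 2) (i := 1) (j := 2) hK F.C1 R1 hX (by norm_num) (by norm_num)
        (by norm_num)).2
    · have e1 := F.tau_lo (k := k) (by have := B.k0l; omega) (by omega)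
        (F.ms_le B hr (k := k) (by omega))
      have e2 := (mon (c := 32) (i := 2) (j := 3) hK F.C1 R1 hX (by norm_num) (by norm_num)
        (by norm_num)).1
      have e3 : t / (2 * K * S.C ^ 2) ≤ M.z k := by rwa [div_le_iff₀' (by positivity)]
      calc 16 * K * S.v = 32 * K ^ 2 * S.C ^ 3 * 4 ^ r * S.w3 t *
            (t / (2 * K * S.C ^ 2) * (S.ms t / S.F / 4 ^ r * S.v / S.C * S.n)) := by
            rw [Sc.w3]; field_simp; ring
        _ ≤ _ := by gcongr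
  have tx : X ^ 2 * (t / X) = X * t := by field_simp
  rcases le_or_gt 1 (X * t) with ht | ht
  · refine ⟨fun _ => 0, M.N + 1, by positivity, by positivity, vw, one_le_pow₀ X1, by omega,
      len_L.ge, blk, by rw [ex_ge le_rfl, tx]; exact ht, fun j h h' => ?_, ?_⟩
    · rw [len_L] at h'; omega
    · rw [len_L, Ioc_self, sum_empty]; positivity
  have hJ := F.lowJ B hK hr hX ht
  have i0 := F.i0
  have i1 := F.i1
  have b0 := B.k0l
  have b1 := B.k01
  refine ⟨fun j => min (j - 1) S.J / 2 + 1, 2 * k1 + 1, by positivity, by positivity, vw,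
    one_le_pow₀ X1, by omega, by rw [len_L]; omega, blk, ?_, fun j h h' => ?_, ?_⟩
  · rw [ex_succ F.leg, tx]
    have e1 := F.z_hi (k := 2 * k1) (by omega) hJ
    have e2 := mul_le_mul_of_nonneg_left (F.kv_le_t B (by omega)) (by positivity : 0 ≤ 6 * S.C ^ 2)
    have e3 := mul_le_mul_of_nonneg_right (mon (c := 12) (i := 1) (j := 4) hK F.C1 R1 hX
      (by norm_num) (by norm_num) (by norm_num)).2 t0.le
    push_cast at e1
    nlinarith
  · obtain ⟨i, rfl⟩ : ∃ i, j = i + 1 := ⟨j - 1, by omega⟩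
    refine ⟨by simp only [Nat.add_sub_cancel]; omega, by simp only [Nat.add_sub_cancel]; omega,
      fun _ => ?_⟩
    simp only [Nat.add_sub_cancel]
    have p0 : (0 : ℝ) < (min i S.J : ℕ) := by exact_mod_cast (by omega : 0 < min i S.J)
    have w := F.win_half (i' := min i S.J) (i := i) (by omega) (min_le_right _ _)
      (min_le_left _ _) (by positivity) (F.ms_le B hr (by omega))
    refine pos_of_mul_pos_right (lt_of_lt_of_le (by positivity) w) ?_
    rw [ex_succ F.leg]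
    exact (F.z_pos _).le
  · rw [len_L, ← map_add_right_Ioc, sum_map]
    simp only [addRightEmbedding_apply, Nat.add_sub_cancel, dm_succ]
    refine (F.sum_up B hK hr (by nlinarith) hJ).trans ?_
    have e1 := (mon (c := 2016) (i := 2) (j := 14) hK F.C1 R1 hX le_rfl (by norm_num) le_rfl).1
    have e2 : X ≤ X ^ 3 := le_self_pow₀ X1 (by norm_num)
    calc _ ≤ X ^ 3 * (S.w3 t / (2 ^ LL * (16 * K * S.v))) := by gcongr; linarith
      _ = _ := by ring

end Fn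

namespace Fn

variable (F : Fn S M m a) {K t X : ℝ} {b r : ℕ} (B : QB K S M t b b) (hK : 1 ≤ K)
  (hr : K ≤ 2 ^ r) (hX : 2016 * K ^ 3 * S.C ^ 14 * 4 ^ r ≤ X)
include F B hK hr hX

/-- dyadic windows above a node -/
theorem win_dy {l : ℕ} (hl : 2 ^ (l + 1) * b ≤ S.J) :
    LpR43.Win (M.L m a) (M.τ m) (b + 1) (2 ^ (l + 1) * b + 1)
      (X * 4 * S.w3 t / (t ^ 2 * 8 ^ (l + 1))) := by
  have n1 := F.n1
  have v0 := F.v0
  have C0 := F.C0
  have t0 := B.t0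
  have m0 := F.ms_pos t0.le
  have f0 := F.F0
  have i0 := F.i0
  have i1 := F.i1
  have i3 := F.i3
  have i4 := F.i4
  have b0 := B.k0l
  have u1 : b ≤ 2 ^ l * b := Nat.le_mul_of_pos_left b (by positivity)
  have u2 : 2 ^ (l + 1) * b = 2 * (2 ^ l * b) := by ring
  refine ⟨by rw [len_L]; omega, 2 ^ l * b + 1, by omega, by omega, ?_⟩
  have hz := F.z_lo (k := 2 ^ l * b) (by omega) (by omega)
  have w := F.win_lo (u := 2 ^ l * b) (i' := 2 ^ (l + 1) * b) (i := 2 ^ (l + 1) * b)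
    (x := (2 ^ l * b : ℕ) * S.v / (2 * S.C ^ 2)) (μ := S.ms t / S.F / 4 ^ r) (by omega) (by omega)
    (by omega) le_rfl (by positivity) (by rwa [div_le_iff₀' (by positivity)]) (by positivity)
    (F.ms_le B hr u1)
  have e1 : t / (K * S.C) ≤ b * S.v := by
    rw [div_le_iff₀' (by positivity)]
    exact F.t_le_kv B hK le_rfl (by omega)
  have e2 := (mon (c := 8) (i := 3) (j := 8) hK F.C1 (one_le_pow₀ (by norm_num)) hX (by norm_num)
    le_rfl (by norm_num)).1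
  have w0 := F.w3_pos t0
  have X0 := zero_lt_one.trans_le (F.X1 B hK hr hX)
  have e8 : (8 : ℝ) ^ (l + 1) = 8 * (2 ^ l) ^ 3 := by
    rw [pow_succ', ← pow_mul, mul_comm l, pow_mul]; norm_num
  refine le_trans ?_ (mul_le_mul_of_nonneg_left w (by positivity))
  calc (1 : ℝ) = 8 * K ^ 3 * S.C ^ 8 * 4 ^ r * 4 * S.w3 t / (t ^ 2 * 8 ^ (l + 1)) *
        ((2 ^ l) ^ 3 * (t / (K * S.C)) ^ 3 * (S.ms t / S.F / 4 ^ r * S.n) / (4 * S.C ^ 5)) := by
        rw [Sc.w3, e8]; field_simp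
    _ ≤ X * 4 * S.w3 t / (t ^ 2 * 8 ^ (l + 1)) *
        ((2 ^ l) ^ 3 * (b * S.v) ^ 3 * (S.ms t / S.F / 4 ^ r * S.n) / (4 * S.C ^ 5)) := by gcongr
    _ = _ := by
        congr 1
        push_cast
        field_simp
        ring

/-- **the chain of the levels above a node** -/
theorem up {Λ : ℝ} {p : ℕ} (hΛ : 1 ≤ Λ)
    (h : ∀ k, b ≤ k → k ≤ S.Jp → M.Mo m a p (M.rP m a k) (Λ * max (M.z k) t)) :
    ∃ (k : ℕ) (u : ℕ → ℕ) (θ ρ : ℕ → ℝ),
      QCas98.Up (fun _ => 1) (M.L m a) 0 (Q33.sl m) (M.τ m) p (b + 1) k u θ ρ ∧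
      ρ 0 ≤ 2 * X * Λ * t ∧
      ∑ l ∈ range k, √(θ (l + 1) * ρ (l + 1)) ≤ 2 * X * √(Λ * S.w3 t / t) := by
  have v0 := F.v0
  have C0 := F.C0
  have t0 := B.t0
  have w0 := F.w3_pos t0
  have X1 := F.X1 B hK hr hX
  have R1 : (1 : ℝ) ≤ 4 ^ r := one_le_pow₀ (by norm_num)
  have i0 := F.i0
  have i1 := F.i1
  have i3 := F.i3
  have b0 := B.k0l
  have ex1 : ∃ l, S.J ≤ 2 ^ (l + 1) * b := ⟨S.J, (Nat.lt_two_pow_self.le.trans
    (Nat.pow_le_pow_right two_pos (Nat.le_succ _))).trans (Nat.le_mul_of_pos_right _ (by omega))⟩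
  have lt1 : ∀ l < Nat.find ex1, 2 ^ (l + 1) * b < S.J := fun l hl => not_le.1 (Nat.find_min ex1 hl)
  have p1 : ∀ l : ℕ, (1 : ℝ) ≤ 2 ^ l := fun l => one_le_pow₀ one_le_two
  have mL : ∀ l : ℕ, X * 2 ^ l * t ≤ Λ * (X * 2 ^ l * t) := fun l =>
    le_mul_of_one_le_left (by positivity) hΛ
  refine ⟨Nat.find ex1, fun l => 2 ^ l * b + 1, fun l => X * 4 * S.w3 t / (t ^ 2 * 8 ^ l),
    fun l => Λ * (X * 2 ^ l * t), ⟨by simp, fun l l' hl => Nat.succ_le_succ
      (Nat.mul_le_mul_right b (Nat.pow_le_pow_right two_pos hl)), fun l h1 h2 => ?_,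
      fun l hl => ?_, le_trans ?_ (mL _)⟩, ?_, ?_⟩
  · obtain ⟨l, rfl⟩ : ∃ j, l = j + 1 := ⟨l - 1, by omega⟩
    exact F.win_dy B hK hr hX (lt1 l h2).le
  · have u1 : b ≤ 2 ^ (l + 1) * b := Nat.le_mul_of_pos_left b (by positivity)
    have u2 := lt1 l hl
    refine (h _ u1 (by omega)).mono (mul_le_mul_of_nonneg_left (max_le ?_ ?_) (by positivity))
    · have e1 := F.z_hi (k := 2 ^ (l + 1) * b) (by omega) u2
      have e2 := F.kv_le_t B (by omega)
      have e3 := (mon (c := 12) (i := 1) (j := 4) hK F.C1 R1 hX (by norm_num) (by norm_num)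
        (by norm_num)).2
      calc _ ≤ 3 * S.C ^ 2 * (2 ^ (l + 1) * (b * S.v)) := e1.trans_eq (by push_cast; ring)
        _ ≤ 3 * S.C ^ 2 * (2 ^ (l + 1) * (2 * K * S.C ^ 2 * t)) := by gcongr
        _ = 12 * K ^ 1 * S.C ^ 4 * 2 ^ l * t := by ring
        _ ≤ _ := by gcongr
    · exact le_mul_of_one_le_left t0.le (one_le_mul_of_one_le_of_one_le X1 (p1 l))
  · rcases lt_or_ge b S.J with hb | hb
    · have e0 : (S.J : ℝ) ≤ 2 ^ (Nat.find ex1 + 1) * b := by exact_mod_cast Nat.find_spec ex1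
      have e2 := F.kv_le_t B hb
      have e3 := (mon (c := 12) (i := 1) (j := 5) hK F.C1 R1 hX (by norm_num) (by norm_num)
        (by norm_num)).2
      calc 1 ≤ 3 * S.C ^ 3 * (2 ^ (Nat.find ex1 + 1) * b * S.v) := F.J_lo.trans (by gcongr)
        _ = 3 * S.C ^ 3 * (2 ^ (Nat.find ex1 + 1) * (b * S.v)) := by ring
        _ ≤ 3 * S.C ^ 3 * (2 ^ (Nat.find ex1 + 1) * (2 * K * S.C ^ 2 * t)) := by gcongr
        _ = 12 * K ^ 1 * S.C ^ 5 * 2 ^ Nat.find ex1 * t := by ring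
        _ ≤ _ := by gcongr
    · have e3 := (mon (c := 1) (i := 1) (j := 1) hK F.C1 R1 hX (by norm_num) (by norm_num)
        (by norm_num)).2
      calc 1 ≤ S.C * (K * t) := (F.z_top (by omega)).trans (mul_le_mul_of_nonneg_left B.hi C0.le)
        _ = 1 * K ^ 1 * S.C ^ 1 * 1 * t := by ring
        _ ≤ _ := by gcongr; exact p1 _
  · have : 0 ≤ X * Λ * t := by positivity
    simp only [pow_zero, mul_one]
    linarith
  · have e : ∀ l : ℕ, √(X * 4 * S.w3 t / (t ^ 2 * 8 ^ (l + 1)) * (Λ * (X * 2 ^ (l + 1) * t))) =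
        X * √(Λ * S.w3 t / t) * (1 / 2) ^ l := fun l => by
      have e8 : (8 : ℝ) ^ (l + 1) = 8 * (2 ^ l) ^ 3 := by
        rw [pow_succ', ← pow_mul, mul_comm l, pow_mul]; norm_num
      rw [sqrt_eq_iff_mul_self_eq (by positivity) (by positivity), e8, one_div, inv_pow,
        show ∀ x y z : ℝ, x * y * z * (x * y * z) = x * x * (y * y) * (z * z) from
          fun _ _ _ => by ring, mul_self_sqrt (by positivity)]
      field_simp
      ring
    simp only [e]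
    rw [← mul_sum]
    calc _ ≤ X * √(Λ * S.w3 t / t) * 2 := by gcongr; exact sum_geometric_two_le _
      _ = _ := by ring

end Fn

/-! ### the leaves of `QClDef_98` -/

theorem qDatS : QDatS := fun _ _ _ _ hm h0 ha h => dat (lg_of h hm h0 ha)

theorem qRicS : QRicS := fun K C hK => by
  obtain ⟨r, hr⟩ := pow_unbounded_of_one_lt K (one_lt_two (α := ℝ))
  refine ⟨max 1 (2016 * K ^ 3 * C ^ 14 * 4 ^ r), le_max_left _ _, fun A hA => ?_⟩
  filter_upwards [ev_fn C hA] with n H S M e1 e2 e3 h m a I t k0 k1 B LL hL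
  exact (H S M e1 e2 e3 h m a I).ric B hK hr.le (e1 ▸ le_max_right _ _) hL

theorem qUpS : QUpS := fun K C hK => by
  obtain ⟨r, hr⟩ := pow_unbounded_of_one_lt K (one_lt_two (α := ℝ))
  refine ⟨2 * max 1 (2016 * K ^ 3 * C ^ 14 * 4 ^ r),
    by linarith [le_max_left 1 (2016 * K ^ 3 * C ^ 14 * 4 ^ r)], fun A hA => ?_⟩
  filter_upwards [ev_fn C hA] with n H S M e1 e2 e3 h m a I t Λ p b B hΛ hM
  exact (H S M e1 e2 e3 h m a I).up B hK hr.le (e1 ▸ le_max_right _ _) hΛ hM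

end Crest.Agent.T156.Alt.C33

end
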