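import Crest.Agent.T156.SegB_56
import Crest.Agent.T156.AltCl_88

/-!
# Row 156: the segment lemma for the abstract models `Md` (helper56)
-/

set_option autoImplicit false
set_option linter.unusedSectionVars false

noncomputable section

namespace Crest.Agent.T156.Alt

open MeasureTheory Real Set Filter Topology
open Crest.Agent.T157.E Crest.Agent.T157.Casc Crest.Agent.T157.SL
open Crest.Agent.T157.G1 (ov fl FL)
open Crest.Agent.T156.Cas Crest.Agent.T156.Cas.Lp12 Crest.Agent.T156.Cas.Sy41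
open Crest.Agent.T156.Cas.Q33 Crest.Agent.T156.Cas.Seg56

namespace Md

variable (M : Md) (m : ℕ) (a : ℝ)

/-- the path functional `∑_{k ∈ S} dz_k G_k (ρ_k)` -/
def PF (S : Finset ℕ) (G : ℕ → ℝ → ℝ) (p : Pth (Cube m)) : ℝ :=
  ∑ k ∈ S, M.dz m a k * G k (M.rh m a k (p (k + 1)))

/-- variance under the path law -/
def Var (F : Pth (Cube m) → ℝ) : ℝ := Vr (fun _ => 1) (M.L m a) 0 F

/-- pair fluctuation `E (R - ρ_k)² = tr C² + 2 V` at the node `k` -/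
def pf (k : ℕ) : ℝ := tc (fun _ => 1) (M.L m a) (sl m) 0 (k + 1) +
  2 * vv (fun _ => 1) (M.L m a) (sl m) 0 (k + 1)

/-- `V (a') - V (a)` -/
def DV (a' : ℝ) : ℝ := M.V m a' - M.V m a

end Md

namespace Sg56

variable {M : Md} {m : ℕ} {a a' x : ℝ}

theorem len_up (M : Md) (m : ℕ) : (M.up m).length = M.N := by simp [Md.up, Md.Mu]

theorem up_get (M : Md) (m k : ℕ) (hk : k < (M.up m).length) :
    (M.up m)[k] = mxL m 1 (M.z k, M.d (k + 1) - M.d k, M.H (k + 1) - M.H k) := by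
  simp [Md.up, Md.Mu]

theorem mono_aux {Ω : Type} : ∀ (U : List (Lv Ω)) (z : ℕ → ℝ) (c : ℝ), Monotone z →
    (∀ k, z k ≤ 1) → c ≤ z 0 → (∀ k (hk : k < U.length), U[k].m = z k) → Mono c U
  | [], z, _, _, h1, h0, _ => h0.trans (h1 0)
  | l :: U, z, c, hz, h1, h0, h => by
    have e : l.m = z 0 := h 0 (by simp)
    exact ⟨e ▸ h0, mono_aux U (fun k => z (k + 1)) _ (fun _ _ k => hz (by omega)) (fun k => h1 _)
      (e ▸ hz (Nat.zero_le 1)) fun k hk => h (k + 1) (by simpa using hk)⟩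

theorem mono_L (H : M.Leg x) (m : ℕ) (h0 : 0 ≤ a) (h1 : a ≤ x) : Mono 0 (M.L m a) :=
  ⟨h0, mono_aux (M.up m) M.z a H.zm H.z1 (h1.trans H.z0) fun k hk => by rw [up_get]; rfl⟩

theorem sl_eq (hm : 0 < m) : (sl m).cov = ov := by funext u v; exact sl_cov hm u v

theorem rh_eq (hm : 0 < m) (k : ℕ) (h : Cube m → ℝ) :
    M.rh m a k h = rr (fun _ => 1) ((M.L m a).drop (k + 1)) (sl m) h := by
  rw [rr_eq, sl_eq hm, Md.rh]

/-- `PF` is `FS` with shifted indices -/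
theorem PF_eq (hm : 0 < m) (S : Finset ℕ) (G : ℕ → ℝ → ℝ) :
    M.PF m a S G = FS (fun _ => 1) (M.L m a) (sl m) (S.map (addRightEmbedding 1))
      fun j => G (j - 1) := by
  funext p
  rw [FS, Finset.sum_map]
  exact Finset.sum_congr rfl fun k _ => by rw [rh_eq hm]; rfl

theorem ep_PF (hm : 0 < m) (S : Finset ℕ) {G : ℕ → ℝ → ℝ} (hG : ∀ k, Continuous (G k)) :
    EP (M.PF m a S G) := by
  rw [PF_eq hm]; exact ep_FS Link33.wt1 _ _ _ fun j => hG _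

theorem pf_nonneg (k : ℕ) : 0 ≤ M.pf m a k :=
  add_nonneg (tc_nonneg _ _ _ _) (mul_nonneg zero_le_two (vv_nonneg Link33.wt1 _ _ _ _))

/-- `E (R - q)² = E (ρ - q)² + pf` -/
theorem E2_sq (hm : 0 < m) (k : ℕ) (q : ℝ) : M.E2 m a (fun r => (r - q) ^ 2) k =
    node (fun _ => 1) (M.L m a) (k + 1) (fun h => (M.rh m a k h - q) ^ 2) 0 + M.pf m a k := by
  have := pi2_sq Link33.wt1 (M.L m a) (sl m) 0 (k + 1) q
  simp only [sl_cov hm] at this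
  simp only [Md.E2, this, rh_eq hm, Md.pf, tc, vv]
  ring

end Sg56

open Sg56

/-- a segment of models: same tilts, same root, `d` and `H` affine in `t ∈ [0, 1]` -/
structure MS (F : ℝ → Md) (d' H' : ℕ → ℝ) (x : ℝ) : Prop where
  N : ∀ t ∈ Icc (0 : ℝ) 1, (F t).N = (F 0).N
  z : ∀ t ∈ Icc (0 : ℝ) 1, ∀ k < (F 0).N, (F t).z k = (F 0).z k
  d : ∀ t ∈ Icc (0 : ℝ) 1, ∀ k ≤ (F 0).N, (F t).d k = (F 0).d k + t * d' k
  H : ∀ t ∈ Icc (0 : ℝ) 1, ∀ k ≤ (F 0).N, (F t).H k = (F 0).H k + t * H' k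
  d0 : d' 0 = 0
  leg : ∀ t ∈ Icc (0 : ℝ) 1, (F t).Leg x

/-- the budgets of one member, for the velocity `(d', H')`: a set `S` of nodes in `sd` form around
any reference `q`, the other nodes absolutely -/
structure BM (M : Md) (m : ℕ) (a a' : ℝ) (d' H' : ℕ → ℝ) (Q V₂ V₁ B A : ℝ) : Prop where
  W : (a' - a) * M.W m a a' ≤ Q ^ 2
  V2 : 0 ≤ V₂
  V1 : 0 ≤ V₁
  ex : ∃ (S : Finset ℕ) (q c : ℕ → ℝ), S ⊆ Finset.Icc 1 M.N ∧ ∀ s ∈ Icc a a',
    M.Var m s (M.PF m s S fun k r => d' k * (r - q k) ^ 2) ≤ V₂ ^ 2 ∧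
    M.Var m s (M.PF m s S fun k r => (d' k * q k + H' k) * r) ≤ V₁ ^ 2 ∧
    ∑ k ∈ S, M.dz m s k * (|d' k| * M.pf m s k) ≤ B ∧
    ∑ k ∈ Finset.Icc 1 M.N \ S, M.dz m s k *
      |d' k / 2 * M.E2 m s (fun r => r ^ 2) k + H' k * M.rb m s k - c k| ≤ A

variable {F : ℝ → Md} {d' H' : ℕ → ℝ} {x a a' Q : ℝ} {m : ℕ}

theorem BM.budV {M : Md} {V₂ V₁ B A : ℝ} (H : BM M m a a' d' H' Q V₂ V₁ B A) (hm : 0 < m)
    (hL : M.Leg x) (h0 : 0 ≤ a) (h1 : a' ≤ x) :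
    BudV (fun _ => 1) (M.root m 0) (M.up m) 0 (sl m) a a' (fun j => d' (j - 1))
      (fun j => H' (j - 1)) Q V₂ V₁ B A := by
  obtain ⟨S, q, c, hS, hb⟩ := H.ex
  have eI : Finset.Icc 2 ((M.up m).length + 1) = (Finset.Icc 1 M.N).map (addRightEmbedding 1) := by
    rw [len_up, Finset.map_add_right_Icc]
  refine ⟨H.W, H.V2, H.V1, fun s hs => mono_L hL m (h0.trans hs.1) (hs.2.trans h1),
    S.map (addRightEmbedding 1), fun j => q (j - 1), fun j => c (j - 1),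
    eI ▸ Finset.map_subset_map.2 hS, fun s hs => ?_⟩
  obtain ⟨k1, k2, k3, k4⟩ := hb s hs
  rw [Md.Var, PF_eq hm] at k1 k2
  refine ⟨k1, k2, ?_, ?_⟩
  · rw [Finset.sum_map]; exact k3
  · rw [eI, ← Finset.map_sdiff, Finset.sum_map]
    refine le_of_eq_of_le (Finset.sum_congr rfl fun k _ => ?_) k4
    rw [sl_eq hm, pi2_add Link33.wt1, pi2_const_mul, pi2_const_mul]
    rfl

theorem MS.H0 (H : MS F d' H' x) : H' 0 = 0 := by
  have h1 := H.H 1 ⟨zero_le_one, le_rfl⟩ 0 (Nat.zero_le _)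
  rw [(H.leg 1 ⟨zero_le_one, le_rfl⟩).H0, (H.leg 0 ⟨le_rfl, zero_le_one⟩).H0] at h1
  linarith

theorem MS.root (H : MS F d' H' x) (m : ℕ) {t : ℝ} (ht : t ∈ Icc (0 : ℝ) 1) :
    (F t).root m 0 = (F 0).root m 0 := by
  rw [Md.root, Md.root, H.d t ht 0 (Nat.zero_le _), H.d0, mul_zero, add_zero]

theorem MS.cs (H : MS F d' H' x) (hm : 0 < m) : CS (fun t => (F t).up m) (F 0).N
    (fun k => d' (k + 1) - d' k) fun k => H' (k + 1) - H' k := by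
  refine ⟨fun t ht => (len_up _ m).trans (H.N t ht), (F 0).z, fun k => (F 0).d (k + 1) - (F 0).d k,
    fun k => (F 0).H (k + 1) - (F 0).H k, fun t ht k hk => ?_⟩
  have hk' : k < (F 0).N := by rwa [len_up, H.N t ht] at hk
  rw [up_get]
  refine ⟨H.z t ht k hk', fun u v => ?_⟩
  rw [mxL_cov hm 1 (sub_nonneg.2 ((H.leg t ht).dm k.le_succ))
    (sub_nonneg.2 ((H.leg t ht).Hm k.le_succ))]
  simp only [H.d t ht k hk'.le, H.d t ht (k + 1) hk', H.H t ht k hk'.le, H.H t ht (k + 1) hk']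
  ring

/-- the exact velocity of `V (a') - V (a)` is `-(m / 2) (PD a' - PD a)` -/
def Md.PD (M : Md) (m : ℕ) (d' H' : ℕ → ℝ) (s : ℝ) : ℝ := ∑ k ∈ Finset.Icc 1 M.N,
  M.dz m s k * (d' k / 2 * M.E2 m s (fun r => r ^ 2) k + H' k * M.rb m s k)

theorem PD_eq (M : Md) (hm : 0 < m) (d' H' : ℕ → ℝ) (s : ℝ) :
    PS (fun _ => 1) (M.root m 0) (M.up m) 0 (Finset.Icc 2 (M.N + 1))
      (fun j u v => d' (j - 1) / 2 * (sl m).cov u v ^ 2 + H' (j - 1) * (sl m).cov u v) s =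
      M.PD m d' H' s := by
  rw [PS, show Finset.Icc 2 (M.N + 1) = (Finset.Icc 1 M.N).map (addRightEmbedding 1) by
    rw [Finset.map_add_right_Icc], Finset.sum_map]
  refine Finset.sum_congr rfl fun k _ => ?_
  rw [sl_eq hm, pi2_add Link33.wt1, pi2_const_mul, pi2_const_mul]
  rfl

/-- **segment of models, any bound of the velocity** -/
theorem MS.of_PD (H : MS F d' H' x) (hm : 0 < m) {e : ℝ} {g : ℝ → ℝ}
    (hb : ∀ t ∈ Ioo (0 : ℝ) 1, |(F t).PD m d' H' a' - (F t).PD m d' H' a| ≤ 2 * g t)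
    (hi : IntegrableOn g (Icc 0 1)) (he : ∫ t in (0 : ℝ)..1, g t ≤ e) {t : ℝ}
    (ht : t ∈ Icc (0 : ℝ) 1) : |(F t).DV m a a' - (F 0).DV m a a'| ≤ m * e := by
  have e1 : acc (fun k => d' (k + 1) - d' k) = fun j => d' (j - 1) := by
    funext j; rw [acc, Finset.sum_range_sub, H.d0, sub_zero]
  have e2 : acc (fun k => H' (k + 1) - H' k) = fun j => H' (j - 1) := by
    funext j; rw [acc, Finset.sum_range_sub, H.H0, sub_zero]
  have := (H.cs hm).cl hm ((F 0).root m 0) (sl_cov hm) (a := a) (a' := a') (fun t ht => by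
    have ht' := Ioo_subset_Icc_self ht
    rw [e1, e2, ← H.root m ht', ← H.N t ht', PD_eq _ hm, PD_eq _ hm]
    exact hb t ht) hi he ht
  rw [Chain26.Cl] at this
  simp only [Chain26.Vv] at this
  rw [Md.DV, Md.DV, Md.V, Md.V, Md.V, Md.V, Md.L_eq, Md.L_eq, Md.L_eq, Md.L_eq, H.root m ht]
  exact this

theorem BM.le {M : Md} {V₂ V₁ B A : ℝ} (H : BM M m a a' d' H' Q V₂ V₁ B A) (hm : 0 < m)
    (hL : M.Leg x) (h0 : 0 ≤ a) (haa : a ≤ a') (h1 : a' ≤ x) (hQ : 0 ≤ Q) :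
    |M.PD m d' H' a' - M.PD m d' H' a| ≤ 2 * (Q * (V₂ / 4 + V₁ / 2) + B / 2 + A) := by
  have k := (H.budV hm hL h0 h1).le Link33.wt1 haa hQ
  rwa [len_up, PD_eq _ hm, PD_eq _ hm] at k

/-- **segment of models** -/
theorem MS.seg (H : MS F d' H' x) (hm : 0 < m) (h0 : 0 ≤ a) (haa : a ≤ a') (h1 : a' ≤ x)
    (hQ : 0 ≤ Q) {V₂ V₁ B A g : ℝ → ℝ} {e : ℝ}
    (hb : ∀ t ∈ Ioo (0 : ℝ) 1, BM (F t) m a a' d' H' Q (V₂ t) (V₁ t) (B t) (A t))
    (hg : ∀ t ∈ Ioo (0 : ℝ) 1, Q * (V₂ t / 4 + V₁ t / 2) + B t / 2 + A t ≤ g t)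
    (hi : IntegrableOn g (Icc 0 1)) (he : ∫ t in (0 : ℝ)..1, g t ≤ e) {t : ℝ}
    (ht : t ∈ Icc (0 : ℝ) 1) : |(F t).DV m a a' - (F 0).DV m a a'| ≤ m * e :=
  H.of_PD hm (fun t ht => ((hb t ht).le hm (H.leg t (Ioo_subset_Icc_self ht)) h0 haa h1 hQ).trans
    (mul_le_mul_of_nonneg_left (hg t ht) zero_le_two)) hi he ht

/-- constant budgets -/
theorem MS.seg_const (H : MS F d' H' x) (hm : 0 < m) (h0 : 0 ≤ a) (haa : a ≤ a') (h1 : a' ≤ x)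
    (hQ : 0 ≤ Q) {V₂ V₁ B A : ℝ}
    (hb : ∀ t ∈ Ioo (0 : ℝ) 1, BM (F t) m a a' d' H' Q V₂ V₁ B A) {t : ℝ}
    (ht : t ∈ Icc (0 : ℝ) 1) :
    |(F t).DV m a a' - (F 0).DV m a a'| ≤ m * (Q * (V₂ / 4 + V₁ / 2) + B / 2 + A) :=
  H.seg hm h0 haa h1 hQ (V₂ := fun _ => V₂) (V₁ := fun _ => V₁) (B := fun _ => B)
    (A := fun _ => A) (g := fun _ => Q * (V₂ / 4 + V₁ / 2) + B / 2 + A) hb (fun _ _ => le_rfl)
    continuousOn_const.integrableOn_Icc (by simp) ht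

end Crest.Agent.T156.Alt

end
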