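import Crest.Agent.T156.NRb_67
import Crest.Agent.T156.R1Def_82

/-!
# Row 156, R1: `NR` at `Λ₂ = max Λ (θ Φ² n / s⁶)` from the lines at `Λ` (helper67)
-/

set_option autoImplicit false

noncomputable section

namespace Crest.Agent.T156.Alt.Nr67

open Real Set
open Crest.Agent.T156.Alt.R62 Crest.Agent.T156.Alt.R82

/-- `NR` without the line `n` (line `e` with a factor `2` on its first term) -/
structure NR0 (E δ : ℝ) (p : Pm) (S : Sc) (M : Md) (l Φ : ℝ) (P : ℝ → ℝ) (l0 Λ Pt u1 V4 : ℝ) :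
    Prop where
  l3 : l ^ 3 = Φ
  r0 : p.r ≤ l0
  jl : 8 * M.s S.jl ≤ l0
  l0l : l0 ≤ l
  ly : l ≤ δ * p.ye
  w0 : ∀ t, l0 / 8 ≤ t → t ≤ S.C → S.w3 t ≤ t ^ 3
  P0 : ∀ t, 0 ≤ P t ∧ P t ≤ Φ
  Plo : ∀ t, t ≤ l → P t = Φ
  L1 : 1 ≤ Λ
  Pt0 : 0 ≤ u1 ∧ u1 ≤ Pt ∧ Pt ≤ Φ ∧ u1 ≤ V4
  a : S.ms l0 * Φ ≤ δ * n5 p
  b : ∀ t, l0 ≤ t → t ≤ T0 S M → S.ms t * P t * max t l ^ 3 / t ^ 4 ≤ δ ^ 2 * n4 p
  c : S.θ * Λ * (Pt + V4 + p.r ^ 4) ≤ δ ^ 2 * n4 p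
  d : S.θ * V4 ≤ δ * n5 p
  e : 2 * (l ^ 2 / (p.n * l0 ^ 3)) + Λ / p.n ≤ δ * n5 p
  f : ∀ t, l0 ≤ t → t ≤ T0 S M → S.ms t * p.r ^ 4 * max t l / t ^ 3 ≤ δ ^ 2 * n4 p
  i : ∀ t, l0 ≤ t → t ≤ T0 S M → S.θ * Λ * (t * P t) ≤ δ ^ 2 * n4 p
  j : ∀ t, l0 ≤ t → t ≤ T0 S M → Λ * S.ms t ^ 2 * P t / t ≤ S.θ * (δ ^ 2 * n4 p)
  k : ∀ t, l0 ≤ t → t ≤ T0 S M → t * max t l * S.θ ≤ E * S.ms t
  l5 : S.θ * l ^ 5 ≤ δ * n5 p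

/-- the constant of `NR` -/
def L2 (p : Pm) (θ Φ Λ : ℝ) : ℝ := max Λ (θ * Φ ^ 2 * p.n / p.s ^ 6)

theorem le_L2 (p : Pm) (θ Φ Λ : ℝ) : Λ ≤ L2 p θ Φ Λ := le_max_left _ _

variable {β c0 C0 : ℝ} {A : ℕ} {c η K : ℝ} {p : Pm} {σ E E' ε δ l Φ l0 Λ Pt u1 V4 : ℝ} {P : ℝ → ℝ}
  {S : Sc} {M : Md}

theorem n45 (H : Reg β c0 C0 A c η K p) (δ : ℝ) :
    (δ * n5 p) ^ 2 * p.n / p.s ^ 6 = δ ^ 2 * n4 p := by
  have := H.s0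
  have h0 := H.N0
  have e : ((p.n : ℝ) ^ (-(5 : ℝ) / 6)) ^ 2 * p.n = (p.n : ℝ) ^ (-(2 : ℝ) / 3) := by
    rw [← rpow_natCast, ← rpow_mul h0.le, ← rpow_add_one h0.ne']
    norm_num
  rw [n5, n4, ← e]
  field_simp

/-- **the lift** -/
theorem NR0.lift (h : NR0 E δ p S M l Φ P l0 Λ Pt u1 V4) (H : Reg β c0 C0 A c η K p) (hη : η ≤ ε)
    (hε : 1000 * ε ≤ c) (G : p.MemG σ) (E1 : 1 ≤ E') (E2 : E' ≤ (p.n : ℝ) ^ ε)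
    (hΦ : Φ ≤ (p.n : ℝ) ^ ε * p.PhG E' σ) (hδ : (p.n : ℝ) ^ (-(c / 100)) ≤ δ) (hδ1 : δ ≤ 1 / 3)
    (hθ : S.θ = p.muG σ) (hm : ∀ t, S.ms t = p.msG σ t) (hT : T0 S M * p.ye ≤ 1)
    (hΛ : (p.n : ℝ) ^ (10 * ε) ≤ Λ) : NR E δ p S M l Φ P l0 (L2 p S.θ Φ Λ) Pt u1 V4 := by
  have s0 := H.s0
  have N0 := H.N0
  have y0 := H.ye0
  have y1 := H.ye1
  have r0 := H.r0
  have rl := h.r0.trans h.l0l
  have l0' := r0.trans_le rl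
  have Φ0 : 0 < Φ := h.l3 ▸ pow_pos l0' 3
  have θ0 : 0 < S.θ := hθ ▸ H.muG_pos G
  have δ0 := (H.rp0 _).trans_le hδ
  have D0 : 0 < δ * n5 p := by unfold n5; positivity
  have hn : S.θ * Φ ^ 2 ≤ L2 p S.θ Φ Λ * p.s ^ 6 / p.n := by
    rw [le_div_iff₀ N0, ← div_le_iff₀ (by positivity)]
    exact le_max_right _ _
  have he : 0 ≤ l ^ 2 / (p.n * l0 ^ 3) := by have := r0.trans_le h.r0; positivity
  rcases le_total (S.θ * Φ ^ 2 * p.n / p.s ^ 6) Λ with hB | hB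
  · have e : L2 p S.θ Φ Λ = Λ := max_eq_left hB
    rw [e] at hn ⊢
    exact { h with e := by linarith [h.e], n := hn }
  have e : L2 p S.θ Φ Λ = S.θ * Φ ^ 2 * p.n / p.s ^ 6 := max_eq_right hB
  rcases dich H hη hε G E1 E2 Φ0 hΦ hδ with hd | ⟨d1, d2⟩
  · have e' : L2 p S.θ Φ Λ = Λ := max_eq_left (by rw [hθ]; exact hd.trans hΛ)
    rw [e'] at hn ⊢
    exact { h with e := by linarith [h.e], n := hn }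
  rw [← hθ] at d1
  change 3 * (S.θ ^ 2 * Φ ^ 3) ≤ p.ye * (δ * n5 p) ^ 2 at d1
  change ∀ t, p.r ≤ t → p.msG σ t ^ 2 * Φ ^ 3 / t ≤ (δ * n5 p) ^ 2 at d2
  have l3 : l ≤ 1 / 3 := h.ly.trans (by nlinarith)
  have key : ∀ X, S.θ ^ 2 * Φ ^ 2 * X ≤ (δ * n5 p) ^ 2 →
      S.θ * L2 p S.θ Φ Λ * X ≤ δ ^ 2 * n4 p := fun X hX => by
    rw [e, ← n45 H]
    calc S.θ * (S.θ * Φ ^ 2 * p.n / p.s ^ 6) * X = S.θ ^ 2 * Φ ^ 2 * X * p.n / p.s ^ 6 := by ring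
      _ ≤ _ := by gcongr
  have t6 : S.θ * Φ ^ 2 ≤ δ * n5 p / 3 := by
    calc S.θ * Φ ^ 2 = S.θ * l ^ 5 * l := by rw [← h.l3]; ring
      _ ≤ δ * n5 p * (1 / 3) := mul_le_mul h.l5 l3 l0'.le D0.le
      _ = _ := by ring
  have q0 : 0 < S.θ ^ 2 * Φ ^ 2 := by positivity
  have d3 : S.θ ^ 2 * Φ ^ 2 * Φ ≤ (δ * n5 p) ^ 2 / 3 := by
    have : p.ye * (δ * n5 p) ^ 2 ≤ (δ * n5 p) ^ 2 := mul_le_of_le_one_left (by positivity) y1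
    linarith
  refine { h with L1 := h.L1.trans (le_L2 ..), n := hn, c := key _ ?_, e := ?_
                  i := fun t a b => key _ ?_, j := fun t a b => ?_ }
  · have a1 : S.θ ^ 2 * Φ ^ 2 * Pt ≤ S.θ ^ 2 * Φ ^ 2 * Φ := by gcongr; exact h.Pt0.2.2.1
    have a2 : p.r ^ 4 ≤ Φ := by
      calc p.r ^ 4 ≤ l ^ 4 := by gcongr
        _ = Φ * l := by rw [← h.l3]; ring
        _ ≤ Φ := mul_le_of_le_one_right Φ0.le (by linarith)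
    have a3 : S.θ ^ 2 * Φ ^ 2 * p.r ^ 4 ≤ S.θ ^ 2 * Φ ^ 2 * Φ := by gcongr
    have V0 : 0 ≤ V4 := h.Pt0.1.trans h.Pt0.2.2.2
    have a4 : S.θ * Φ ^ 2 * (S.θ * V4) ≤ δ * n5 p / 3 * (δ * n5 p) :=
      mul_le_mul t6 h.d (by positivity) (by positivity)
    linarith
  · have a1 : L2 p S.θ Φ Λ / p.n ≤ S.θ * Φ ^ 2 := by
      rw [e, div_le_iff₀ N0]
      exact div_le_self (by positivity) (one_le_pow₀ H.ok.s1)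
    have a2 : 0 ≤ Λ / p.n := by have := h.L1; positivity
    linarith [h.e]
  · have t0 := (r0.trans_le h.r0).trans_le a
    have a1 : t * p.ye ≤ 1 := (mul_le_mul_of_nonneg_right b y0.le).trans hT
    have a2 : S.θ ^ 2 * Φ ^ 2 * (t * P t) ≤ S.θ ^ 2 * Φ ^ 2 * (t * Φ) := by
      gcongr; exact (h.P0 t).2
    have a3 : t * (3 * (S.θ ^ 2 * Φ ^ 3)) ≤ t * (p.ye * (δ * n5 p) ^ 2) := by gcongr
    have a4 : t * p.ye * (δ * n5 p) ^ 2 ≤ (δ * n5 p) ^ 2 :=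
      mul_le_of_le_one_left (by positivity) a1
    have a5 : 0 ≤ t * (S.θ ^ 2 * Φ ^ 3) := by positivity
    linarith
  · have t0 := (r0.trans_le h.r0).trans_le a
    have a1 := d2 t (h.r0.trans a)
    rw [← hm] at a1
    rw [e, ← n45 H]
    calc S.θ * Φ ^ 2 * p.n / p.s ^ 6 * S.ms t ^ 2 * P t / t
        ≤ S.θ * Φ ^ 2 * p.n / p.s ^ 6 * S.ms t ^ 2 * Φ / t := by gcongr; exact (h.P0 t).2
      _ = S.θ * (S.ms t ^ 2 * Φ ^ 3 / t * p.n / p.s ^ 6) := by ring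
      _ ≤ _ := by gcongr

end Crest.Agent.T156.Alt.Nr67

end
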