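import Crest.Agent.T156.R1Loc_77
import Crest.Agent.T156.LDef_69
import Crest.Agent.T156.NRn_44
import Crest.Agent.T156.PlX_13
import Crest.Agent.T156.Mem2_28

/-!
# Row 156 (helper4): the leaf `Topx` of `LocG` from the outputs of block (L)
-/

set_option autoImplicit false
set_option linter.unusedSectionVars false

noncomputable section

namespace Crest.Agent.T156.Alt.Tp4

open Real Finset
open Crest.Agent.T156.Alt.L69 (mf GS GP Pla LO)
open Crest.Agent.T156.Alt.R62 (lw sb pl ls T0)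
open Crest.Agent.T156.Alt.R77 (Dt OnG Topx)

section cl

variable {S : Sc} {M : Md} {m : ℕ} {a : ℝ}

/-- the top sum -/
def Tp (S : Sc) (M : Md) (m : ℕ) (a t : ℝ) : ℝ :=
  ∑ k ∈ sb S M t S.C ∪ Icc S.J S.Jp, lw M k * M.del m a k ^ 2

/-- the window of length `ℓ` below the corner, and the plateau -/
def Wn (S : Sc) (M : Md) (m : ℕ) (a ℓ : ℝ) : ℝ :=
  ∑ k ∈ (Ioc S.jl S.Jp).filter fun k => M.s S.J ≤ M.s k + ℓ, lw M k * M.del m a k ^ 2

theorem dx_nn (c : Cl S M) (k : ℕ) : 0 ≤ lw M k := sub_nonneg.2 (c.leg.zm (Nat.sub_le k 1))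

theorem term_nn (c : Cl S M) (f : ℕ → ℝ) (k : ℕ) : 0 ≤ lw M k * f k ^ 2 :=
  mul_nonneg (dx_nn c k) (sq_nonneg _)

theorem mem_sb {t t' : ℝ} {k : ℕ} :
    k ∈ sb S M t t' ↔ (S.jl < k ∧ k < S.J) ∧ t ≤ M.s k ∧ M.s k ≤ t' := by
  rw [sb, mem_filter, mem_Ioo]

theorem sb_sub (c : Cl S M) (t t' : ℝ) : sb S M t t' ⊆ (M.blk S t t').filter (· < S.J) :=
  fun k hk => by
    have i1 := c.i1
    have i3 := c.i3
    obtain ⟨⟨a, b⟩, d⟩ := mem_sb.1 hk
    exact mem_filter.2 ⟨mem_filter.2 ⟨mem_Ioc.2 ⟨by omega, by omega⟩, d⟩, b⟩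

theorem top_le (c : Cl S M) (t : ℝ) : Tp S M m a t ≤
    ∑ k ∈ sb S M t S.C, lw M k * M.del m a k ^ 2 + Pla M S m a 2 := by
  have h := sum_union_inter (s₁ := sb S M t S.C) (s₂ := Icc S.J S.Jp)
    (f := fun k => lw M k * M.del m a k ^ 2)
  have h1 := sum_nonneg fun k (_ : k ∈ sb S M t S.C ∩ Icc S.J S.Jp) => term_nn c (M.del m a) k
  have e : Pla M S m a 2 = ∑ k ∈ Icc S.J S.Jp, lw M k * M.del m a k ^ 2 :=
    sum_congr rfl fun k _ => by rw [sq_abs]; rfl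
  rw [e, Tp]
  linarith

theorem mass1 (c : Cl S M) : ∑ k ∈ Ioc S.jl S.Jp, lw M k ≤ 1 := by
  have e : ∀ j, S.jl ≤ j → ∑ k ∈ Ioc S.jl j, lw M k = M.z j - M.z S.jl := fun j h => by
    induction j, h using Nat.le_induction with
    | base => simp
    | succ j h ih => rw [sum_Ioc_succ_top h, ih, lw, Nat.add_sub_cancel]; ring
  have i2 := c.i2
  have i3 := c.i3
  rw [e _ (by omega)]
  linarith [c.leg.z1 S.Jp, c.z_pos S.jl]

theorem sJ3 (h : Cl S M) : 1 ≤ 3 * S.C ^ 3 * M.s S.J := by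
  have a := h.atom.1
  have i0 := h.i0
  have i1 := h.i1
  have i2 := h.i2
  have C0 := h.C0
  have b := (h.z_s (k := S.J - 1) (by omega) (by omega)).2
  have d := (h.ss 0 (by omega)).1
  have e : M.s (0 + 1) ≤ M.s S.J := h.sm (by omega)
  have f : M.s (S.J - 1) ≤ M.s S.J := h.sm (Nat.sub_le _ _)
  have s0 := h.s_nn S.J
  rw [h.s0, div_le_iff₀ C0] at d
  rw [div_le_iff₀ C0] at a
  have g : S.v ≤ S.C * M.s S.J := by nlinarith
  have g' : M.s S.J ≤ S.C * M.s S.J := le_mul_of_one_le_left s0 h.C1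
  have k : M.z (S.J - 1) ≤ S.C * (3 * (S.C * M.s S.J)) :=
    b.trans (mul_le_mul_of_nonneg_left (by linarith) C0.le)
  linarith [mul_le_mul_of_nonneg_right k C0.le]

/-- from `LO` -/
theorem tp_LO (c : Cl S M) {Λ t0 u En t B : ℝ} (h : LO Λ S M m a t0 u En) (hΛ : 0 ≤ Λ)
    (h0 : t0 ≤ t) (h1 : t ≤ S.C) (e1 : min (√(S.C * En)) (En / mf S t) ≤ B)
    (e2 : min (En ^ ((3 : ℝ) / 5)) (En / S.θ) ≤ B) (e3 : u ≤ B)
    (e4 : GS M S t S.C + GP M S ≤ B) (e5 : (M.s S.Jp - M.s S.J) ^ 2 ≤ B)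
    (e6 : 1 / (S.n : ℝ) ^ 2 ≤ B) : Tp S M m a t ≤ 7 * Λ * B := by
  have a1 := (sum_le_sum_of_subset_of_nonneg (sb_sub c t S.C) fun k _ _ =>
    term_nn c (M.del m a) k).trans (h.two t S.C h0 h1)
  have a2 := h.pla
  have a3 := top_le (m := m) (a := a) c t
  have b := mul_le_mul_of_nonneg_left (show min (√(S.C * En)) (En / mf S t) + GS M S t S.C +
    1 / (S.n : ℝ) ^ 2 + (min (En ^ ((3 : ℝ) / 5)) (En / S.θ) + u + GP M S +
      (M.s S.Jp - M.s S.J) ^ 2 + 1 / (S.n : ℝ) ^ 2) ≤ 7 * B by linarith) hΛ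
  linarith

/-- from a sup bound below the window and an `L²` bound on the window -/
theorem tp_W (c : Cl S M) {t ℓ D : ℝ} (hℓ : 0 ≤ ℓ)
    (hD : ∀ k, S.jl < k → k < S.J → t ≤ M.s k → M.s k + ℓ ≤ M.s S.J → |M.del m a k| ≤ D) :
    Tp S M m a t ≤ D ^ 2 + Wn S M m a ℓ := by
  have i2 := c.i2
  have i3 := c.i3
  set A := (sb S M t S.C).filter fun k => M.s k + ℓ ≤ M.s S.J
  set W := (Ioc S.jl S.Jp).filter fun k => M.s S.J ≤ M.s k + ℓ
  have h := sum_union_inter (s₁ := A) (s₂ := W) (f := fun k => lw M k * M.del m a k ^ 2)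
  have h1 := sum_nonneg fun k (_ : k ∈ A ∩ W) => term_nn c (M.del m a) k
  have h2 := sum_le_sum_of_subset_of_nonneg (f := fun k => lw M k * M.del m a k ^ 2)
    (show sb S M t S.C ∪ Icc S.J S.Jp ⊆ A ∪ W from fun k hk => by
      rcases mem_union.1 hk with e | e
      · rcases le_total (M.s k + ℓ) (M.s S.J) with r | r
        · exact mem_union_left _ (mem_filter.2 ⟨e, r⟩)
        · have := (mem_sb.1 e).1
          exact mem_union_right _ (mem_filter.2 ⟨mem_Ioc.2 ⟨this.1, by omega⟩, r⟩)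
      · have := mem_Icc.1 e
        exact mem_union_right _ (mem_filter.2 ⟨mem_Ioc.2 ⟨by omega, this.2⟩,
          by linarith [c.sm this.1]⟩)) fun k _ _ => term_nn c _ k
  have h3 : ∑ k ∈ A, lw M k * M.del m a k ^ 2 ≤ ∑ k ∈ A, lw M k * D ^ 2 :=
    sum_le_sum fun k hk => by
      obtain ⟨e, r⟩ := mem_filter.1 hk
      obtain ⟨⟨a1, a2⟩, a3, -⟩ := mem_sb.1 e
      refine mul_le_mul_of_nonneg_left ?_ (dx_nn c k)
      rw [← sq_abs]
      exact pow_le_pow_left₀ (abs_nonneg _) (hD k a1 a2 a3 r) 2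
  have h4 : ∑ k ∈ A, lw M k ≤ 1 := (sum_le_sum_of_subset_of_nonneg (fun k hk => by
    have := (mem_sb.1 (mem_filter.1 hk).1).1
    exact mem_Ioc.2 ⟨this.1, by omega⟩) fun k _ _ => dx_nn c k).trans (mass1 c)
  rw [← sum_mul] at h3
  have h5 := mul_le_mul_of_nonneg_right h4 (sq_nonneg D)
  unfold Tp Wn
  linarith

end cl

/-- **the budget** of one piece of the top zone -/
def Bt (p : Pm) (σ t : ℝ) : ℝ := (p.n : ℝ) ^ (3 / 5 * p.c) * (p.sM t * p.laG σ) ^ 2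

/-- **input, energy form** (`TL1`, `TL2x`) -/
def InE (p : Pm) (σ t : ℝ) (S : Sc) (M : Md) (m : ℕ) (a : ℝ) : Prop := ∃ Λ t0 u En,
  LO Λ S M m a t0 u En ∧ 0 ≤ Λ ∧ Λ ≤ (p.n : ℝ) ^ (p.c / 100) ∧ t0 ≤ T0 S M / 4 ∧ u ≤ Bt p σ t ∧
    (En ≤ p.muG t * Bt p σ t ∨ (√(S.C * En) ≤ Bt p σ t ∧ En ^ ((3 : ℝ) / 5) ≤ Bt p σ t))

/-- **input, pointwise form** (`TL2x` sup location and `TLp`, `TLq`) -/
def InW (p : Pm) (σ t : ℝ) (S : Sc) (M : Md) (m : ℕ) (a : ℝ) : Prop := ∃ ℓ D, 0 ≤ ℓ ∧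
  (∀ k, S.jl < k → k < S.J → T0 S M / 4 ≤ M.s k → M.s k + ℓ ≤ M.s S.J → |M.del m a k| ≤ D) ∧
  D ^ 2 ≤ (p.n : ℝ) ^ (p.c / 100) * Bt p σ t ∧ Wn S M m a ℓ ≤ (p.n : ℝ) ^ (p.c / 100) * Bt p σ t

/-- **what block (L) has to deliver** -/
def Tpx : Dt := fun p σ t S M => ∀ m a, S.In m a → M.Phi S m a ≤ p.PhN t →
  p.PtN σ t < p.PhN t → InE p σ t S M m a ∨ InW p σ t S M m a

section g

variable {β c0 C0 : ℝ} {A : ℕ} {c η K K' c0' C0' η' : ℝ} {p : Pm} {σ t : ℝ} {Q : Pl}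

open Plt13 Mem37 L69 in
theorem G_le (G : GrD K' c0' C0' η' p σ t Q) (x y : ℝ) :
    GS (p.gst Q t) (p.scG K' σ t Q) x y + GP (p.gst Q t) (p.scG K' σ t Q) ≤ p.g2P Q := by
  have h := G.memD
  have jJ := h.jlJ
  have JJ := J_le (p := p) (P := Q)
  have zm := G.cl.1.leg.zm
  have a : GS (p.gst Q t) (p.scG K' σ t Q) x y ≤
      ∑ k ∈ Ioo p.jf p.J, dx (p.gst Q t) k * (p.gst Q t).G k ^ 2 :=
    sum_le_sum_of_subset_of_nonneg (filter_subset _ _) fun k _ _ =>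
      mul_nonneg (sub_nonneg.2 (zm (Nat.sub_le k 1))) (sq_nonneg _)
  have b : ∑ k ∈ Ioo p.jf p.J, dx (p.gst Q t) k * (p.gst Q t).G k ^ 2 +
      ∑ k ∈ Icc p.J (p.Jp Q), dx (p.gst Q t) k * (p.gst Q t).G k ^ 2 = p.g2P Q := by
    rw [← sum_union (disjoint_left.2 fun k x y => by
      have := (mem_Ioo.1 x).2; have := (mem_Icc.1 y).1; omega)]
    refine sum_congr (by ext k; simp only [mem_union, mem_Ioo, mem_Icc, mem_Ioc]; omega)
      fun k hk => ?_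
    have k1 := (mem_Ioc.1 hk).1
    have e : (p.gst Q t).G k = Q.hs (p.xP Q k) := h.G_hi k1
    rw [e]
    change (p.zP Q (max k p.jf) - p.zP Q (max (k - 1) p.jf)) * _ = _
    rw [max_eq_left k1.le, max_eq_left (by omega)]
  exact (add_le_add a le_rfl).trans b.le

theorem la_ge {ν : ℝ} (N : Plt13.Nm p ν) : (p.n : ℝ) ^ (-(1 / 2 : ℝ)) ≤ p.la ν := by
  refine le_trans (le_sqrt_of_sq_le ?_) N.u2l
  rw [← rpow_natCast, ← rpow_mul N.np.le]
  refine le_trans (le_of_eq ?_) N.u2n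
  rw [one_div (p.n : ℝ), ← rpow_neg_one]; norm_num

variable (X : Nr44.Cx β c0 C0 A c η K p σ t)
include X

theorem C_le (G : GrD K' c0' C0' η' p σ t Q) : 8 * K' ^ 2 ≤ (p.n : ℝ) ^ η := by
  linarith [G.nb.K3.2.2, G.nb.lg, X.H.log_le]

theorem Bt0 : 0 < Bt p σ t := mul_pos (X.H.rp0 _) (pow_pos (mul_pos X.sM0 X.la0) 2)

theorem lg_Bt : logb p.n (Bt p σ t) =
    3 / 5 * c + 2 * logb p.n (p.sM t) + 2 * logb p.n (p.laG σ) := by
  have := X.la0; have := X.sM0; have := X.H.N0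
  rw [Bt]; lg_norm; rw [X.H.lg_n, X.H.hc]; ring

theorem Pt_eq (h : p.PtN σ t < p.PhN t) :
    p.PtN σ t = (p.n : ℝ) ^ (5 / 8 * p.c) * (p.sM t * p.laG σ) ^ 2 := by
  rw [Pm.PtN] at h ⊢
  exact min_eq_right (le_of_lt ((min_lt_iff.1 h).resolve_left (lt_irrefl _)))

theorem out (h : p.PtN σ t < p.PhN t) : 7 * (p.n : ℝ) ^ (p.c / 100) * Bt p σ t ≤ p.PtN σ t := by
  have := Bt0 X; have := X.H.N0; have := X.la0; have := X.sM0
  rw [Pt_eq X h]
  refine X.H.le_of_lg (by positivity) (by positivity) ?_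
  rw [X.lg_Pt2, logb_mul (by positivity) (by positivity), logb_mul (by positivity) (by positivity),
    lg_Bt X, X.H.lg_rp, X.H.hc]
  linarith [(X.H.lg_num (x := 7) (by norm_num) (by norm_num)).2, X.hη, X.H.c_pos]

theorem ye_T (G : GrD K' c0' C0' η' p σ t Q) : p.ye ≤ T0 (p.scG K' σ t Q) (p.gst Q t) / 4 := by
  have a := sJ3 G.cl.1
  have b := C_le X G
  have C0 := G.cl.1.C0
  have e : (p.scG K' σ t Q).C = 8 * K' ^ 2 := rfl
  rw [← e] at b
  rw [T0]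
  generalize (p.scG K' σ t Q).C = C at a b C0
  have y := X.H.ye0
  have d : 192 * C ^ 3 * p.ye ≤ 1 := by
    refine X.H.le_of_lg (by positivity) one_pos ?_
    have := X.H.lg_le C0 b
    have := (X.H.lg_num (x := 192) (by norm_num) (by norm_num)).2
    lg_norm
    linarith [X.H.lg_ye, X.hη, X.H.c_pos]
  refine le_of_mul_le_mul_left ?_ (show 0 < 192 * C ^ 3 by positivity)
  linarith

theorem G_Bt (G : GrD K' c0' C0' η' p σ t Q) (P : p.PlX σ t Q)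
    (hK : 5 * (406 + 8 * K') ≤ (p.n : ℝ) ^ η) (x y : ℝ) :
    GS (p.gst Q t) (p.scG K' σ t Q) x y + GP (p.gst Q t) (p.scG K' σ t Q) ≤ Bt p σ t := by
  have x := Plt13.xk_of X.H X.o G P
  refine ((G_le G _ _).trans x.g2).trans ?_
  have K1 := G.nb.K1
  have B0 : 0 < 5 * (406 + 8 * K') := by linarith
  have := X.θ0; have l := X.la0
  have l0 : 0 < log p.n := by linarith [X.H.log1]
  change 5 * (406 + 8 * K') * (p.muG t ^ 2 * (p.laG σ ^ 2 * log p.n)) ≤ _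
  refine X.H.le_of_lg (by positivity) (Bt0 X) ?_
  have := X.H.lg_le B0 hK
  rw [lg_Bt X, logb_mul B0.ne' (by positivity)]
  generalize logb p.n (5 * (406 + 8 * K')) = b at this ⊢
  lg_norm
  linarith [X.H.lg_log.2, (X.H.lg_muG' X.Mt).2, X.lg_sM.1, X.hη, X.H.c_pos]

theorem n_Bt (G : GrD K' c0' C0' η' p σ t Q) (P : p.PlX σ t Q) :
    1 / (p.n : ℝ) ^ 2 ≤ Bt p σ t := by
  have a := X.H.lg_mono (X.H.rp0 _) (la_ge (Plt13.xk_of X.H X.o G P).nm)
  have := X.H.N0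
  refine X.H.le_of_lg (by positivity) (Bt0 X) ?_
  rw [X.H.lg_rp] at a
  change _ ≤ logb p.n (p.laG σ) at a
  rw [lg_Bt X]
  lg_norm
  linarith [X.H.lg_n, X.lg_sM.1, X.H.c_pos]

/-- **`Topx` from `Tpx`, one datum** -/
theorem top_pt (G : GrD K' c0' C0' η' p σ t Q) (P : p.PlX σ t Q)
    (hK : 5 * (406 + 8 * K') ≤ (p.n : ℝ) ^ η)
    (h : Tpx p σ t (p.scG K' σ t Q) (p.gst Q t)) : Topx p σ t (p.scG K' σ t Q) (p.gst Q t) := by
  intro m a hm h1 h2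
  have c := G.cl.1
  have B0 := Bt0 X
  have o := out X h2
  have N := X.H.rp0 (p.c / 100)
  rcases h m a hm h1 h2 with ⟨Λ, t0, u, En, L, l0, l1, t1, u1, e⟩ | ⟨ℓ, D, l0, d, d1, w⟩
  · have y := ye_T X G
    have f : mf (p.scG K' σ t Q) (T0 (p.scG K' σ t Q) (p.gst Q t) / 4) = p.muG t := by
      change p.msG t _ / 1 = _
      rw [div_one, X.H.msG_hi t y]
    have hθ : (p.scG K' σ t Q).θ = p.muG t := G.top
    have tC : T0 (p.scG K' σ t Q) (p.gst Q t) / 4 ≤ (p.scG K' σ t Q).C := by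
      have := (c.sm c.i3).trans c.sT
      have := c.C0
      rw [T0]; linarith
    have q : En ≤ p.muG t * Bt p σ t → En / p.muG t ≤ Bt p σ t := fun e => by
      rwa [div_le_iff₀' X.θ0]
    refine (tp_LO c L l0 t1 tC (B := Bt p σ t) ?_ ?_ u1 (G_Bt X G P hK _ _) ?_
      (n_Bt X G P)).trans (le_trans ?_ o)
    · rw [f]; exact e.elim (fun e => (min_le_right _ _).trans (q e)) fun e =>
        (min_le_left _ _).trans e.1
    · rw [hθ]; exact e.elim (fun e => (min_le_right _ _).trans (q e)) fun e =>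
        (min_le_left _ _).trans e.2
    · rw [Kn72.flat G (Plt13.xk_of X.H X.o G P).g0 _ c.i3 le_rfl, sub_self]
      simpa using B0.le
    · exact mul_le_mul_of_nonneg_right (by linarith) B0.le
  · refine (tp_W c l0 d).trans (le_trans ?_ o)
    nlinarith [mul_pos N B0]

end g

/-- **`Topx`** -/
theorem topG {β : ℝ} (hβ : 1 < β) (h : OnG Tpx β) : OnG Topx β := fun K k =>
  (h K k).glue' hβ 0 (show (0 : ℝ) < 1 / 2000 by norm_num) 10000 fun c0 C0 A c η _ _ _ _ =>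
    ⟨5 * (406 + 8 * K), fun p R _ hc e h c0' C0' η' σ t Q O D P =>
      top_pt ⟨R, hc, by exact_mod_cast e, O⟩ D P R.K_le (h c0' C0' η' σ t Q O D P)⟩

end Crest.Agent.T156.Alt.Tp4

end
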