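import Crest.Agent.T156.HyD_77
import Crest.Agent.T156.R1Tp_4
import Crest.Agent.T156.R1LocB_77

/-!
# Row 156 (helper39): the passes of the a priori top energy on the graded path
-/

set_option autoImplicit false

noncomputable section

namespace Crest.Agent.T156.Alt.Ap39

open Real Finset
open Crest.Agent.T156.Alt.L69
open Crest.Agent.T156.Alt.L63 (Hy TL2y)
open Crest.Agent.T156.Alt.R77 (Dt OnG)

/-- the top energy read by `Ap.top` -/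
abbrev Top (S : Sc) (M : Md) (m : ℕ) (a : ℝ) : ℝ := M.En S m a M.q 2 (M.s S.J / 2) S.C

section cl

variable {S : Sc} {M : Md} {m : ℕ} {a : ℝ}

theorem term_nn (c : Cl S M) (f : ℕ → ℝ) (k : ℕ) : 0 ≤ (M.z k - M.z (k - 1)) * |f k| ^ 2 :=
  mul_nonneg (sub_nonneg.2 (c.leg.zm (Nat.sub_le k 1))) (sq_nonneg _)

theorem En_Phi (c : Cl S M) (jj : S.j0 = S.jl) (t t' : ℝ) :
    M.En S m a M.q 2 t t' ≤ M.Phi S m a := by
  rw [Md.En, Md.blk, jj]
  exact (sum_le_sum_of_subset_of_nonneg (filter_subset _ _) fun k _ _ =>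
    term_nn c (fun k => M.rb m a k - M.q k) k).trans_eq
      (sum_congr rfl fun k _ => by rw [sq_abs]; rfl)

theorem top_LO (c : Cl S M) {Λ t0 u En B : ℝ} (h : LO Λ S M m a t0 u En) (hΛ : 0 ≤ Λ)
    (h0 : t0 ≤ M.s S.J / 2) (e1 : En / mf S (M.s S.J / 2) ≤ B) (e2 : En / S.θ ≤ B) (e3 : u ≤ B)
    (e4 : GS M S (M.s S.J / 2) S.C + GP M S ≤ B) (e5 : (M.s S.Jp - M.s S.J) ^ 2 ≤ B)
    (e6 : 1 / (S.n : ℝ) ^ 2 ≤ B) : Top S M m a ≤ 7 * Λ * B := by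
  have h1 : M.s S.J / 2 ≤ S.C := by linarith [c.s_le_C c.i3, c.s_nn S.J]
  have a1 := h.two _ S.C h0 h1
  have a2 := h.pla
  have a3 : Top S M m a ≤ ∑ k ∈ (M.blk S (M.s S.J / 2) S.C).filter (· < S.J),
      dx M k * M.del m a k ^ 2 + Pla M S m a 2 := by
    rw [Top, Md.En, ← sum_filter_add_sum_filter_not _ (· < S.J)]
    refine add_le_add (le_of_eq (sum_congr rfl fun k _ => by rw [sq_abs]; rfl)) ?_
    exact sum_le_sum_of_subset_of_nonneg (fun k hk => by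
      obtain ⟨h, h'⟩ := mem_filter.1 hk
      exact mem_Icc.2 ⟨not_lt.1 h', (mem_Ioc.1 (mem_filter.1 h).1).2⟩)
      fun k _ _ => term_nn c (fun k => M.rb m a k - M.q k) k
  have b := mul_le_mul_of_nonneg_left (show min (√(S.C * En)) (En / mf S (M.s S.J / 2)) +
    GS M S (M.s S.J / 2) S.C + 1 / (S.n : ℝ) ^ 2 + (min (En ^ ((3 : ℝ) / 5)) (En / S.θ) + u +
      GP M S + (M.s S.Jp - M.s S.J) ^ 2 + 1 / (S.n : ℝ) ^ 2) ≤ 7 * B by
    linarith [min_le_right (√(S.C * En)) (En / mf S (M.s S.J / 2)),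
      min_le_right (En ^ ((3 : ℝ) / 5)) (En / S.θ), sq_nonneg (M.s S.Jp - M.s S.J)]) hΛ
  linarith

end cl

/-- some instance of `Hy` whose output is at most `NL y` -/
def HyX (p : Pm) (σ t : ℝ) (S : Sc) (M : Md) (m : ℕ) (a y : ℝ) : Prop :=
  ∃ G1 u1 u2 j γ Lc ηc τ l0 l X Xp Vt Lg Lp X2 X3 X4 G0 η N g t1 tu ℓ En p0,
    Hy p.EL S M m a G1 u1 u2 j γ Lc ηc τ l0 l X Xp Vt Lg Lp X2 X3 X4 G0 η N g t1 tu ℓ En p0 ∧
      u2 ≤ p.NL σ t y / p.muG t ∧ En + t1 * p0 ^ 2 ≤ 2 * (p.nc (1 / 50) * p.NL σ t y)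

/-- **the input**: one pass for every admissible `y` -/
def PsY (R : Pm → ℝ → ℝ → Prop) : Dt := fun p σ t S M => ∀ m a, S.In m a →
  M.Phi S m a ≤ p.PhN t → R p σ t →
  ∀ y, p.XloL σ t ≤ y → y ≤ p.PhN t → Top S M m a ≤ y → HyX p σ t S M m a y

/-- **the output**: `Ap.top` at `XpL` -/
def ApT (R : Pm → ℝ → ℝ → Prop) : Dt := fun p σ t S M => ∀ m a, S.In m a →
  M.Phi S m a ≤ p.PhN t → R p σ t →
  p.XloL σ t ≤ p.XpL σ t ∧ p.XpL σ t ≤ p.PhN t ∧ Top S M m a ≤ p.XpL σ t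

section g

variable {β c0 C0 : ℝ} {A : ℕ} {c η K K' c0' C0' η' : ℝ} {p : Pm} {σ t y : ℝ} {Q : Pl}
  (X : Nr44.Cx β c0 C0 A c η K p σ t)
include X

theorem nc0 (e : ℝ) : 0 < p.nc e := X.H.rp0 _
theorem lg_nc (e : ℝ) : logb p.n (p.nc e) = e * c := by rw [Pm.nc, X.H.lg_rp, X.H.hc]
theorem Bu0 : 0 < p.BuL σ t := mul_pos (nc0 X _) (pow_pos (mul_pos X.sM0 X.la0) 2)

theorem lg_Bu : logb p.n (p.BuL σ t) =
    21 / 40 * c + 2 * logb p.n (p.sM t) + 2 * logb p.n (p.laG σ) := by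
  have := X.la0; have := X.sM0; have := nc0 X (21 / 40)
  rw [Pm.BuL]; lg_norm; rw [lg_nc X]; ring

theorem Xlo0 : 0 < p.XloL σ t := lt_min X.Ph0 (div_pos (mul_pos (nc0 X _) (Bu0 X)) X.θ0)

theorem Bu_le (hy : 0 ≤ y) : p.BuL σ t ≤ p.NL σ t y := le_add_of_nonneg_right
  (mul_nonneg (mul_pos (nc0 X _) X.θ0).le (rpow_nonneg hy _))

theorem Xlo_nx (hy : 0 ≤ y) : p.XloL σ t ≤ p.nxL σ t y := min_le_min le_rfl
  (div_le_div_of_nonneg_right (mul_le_mul_of_nonneg_left (Bu_le X hy) (nc0 X _).le) X.θ0.le)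

theorem Bt_le : Tp4.Bt p σ t ≤ p.BuL σ t / p.muG t := by
  have := Bu0 X; have := X.θ0
  refine X.H.le_of_lg (Tp4.Bt0 X) (by positivity) ?_
  rw [logb_div (by positivity) (by positivity), Tp4.lg_Bt X, lg_Bu X]
  linarith [(X.H.lg_muG' X.Mt).2, X.H.c_pos]

/-- the last shell of the table -/
theorem uL_le (hy : 0 ≤ y) : p.uL t ≤ p.NL σ t y / p.muG t := by
  refine le_trans ?_ (div_le_div_of_nonneg_right (Bu_le X hy) X.θ0.le)
  have := Bu0 X; have θ0 := X.θ0; have N0 := X.H.N0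
  have x0 : 0 < p.xM t := one_pos.trans_le (le_max_left _ _)
  have a := X.H.lg_mono (by positivity) (le_max_right 1 (p.muG t * (p.n : ℝ) ^ ((1 : ℝ) / 3)))
  have b := (Kn72.lg_nu X.H X.o).2
  refine X.H.le_of_lg (div_pos (X.H.rp0 _) x0) (by positivity) ?_
  rw [logb_mul θ0.ne' (X.H.rp0 _).ne', X.H.lg_rp] at a
  rw [Pm.uL, logb_div (X.H.rp0 _).ne' x0.ne', logb_div (by positivity) θ0.ne', X.H.lg_rp, lg_Bu X,
    Pm.xM]
  have := X.lg_sM.1; have := X.hc; have := X.H.c_pos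
  rcases X.lg_pl with ⟨_, _, -⟩ | ⟨_, _, -⟩ <;> linarith

/-- the output energy of the table -/
theorem en_le (hy : 0 ≤ y) :
    p.EnL σ t y + p.t1L * p.p0L σ t y ^ 2 ≤ 2 * (p.nc (1 / 50) * p.NL σ t y) := by
  have N := (Bu0 X).trans_le (Bu_le X hy)
  have c0 := X.H.c_pos
  have a : p.nc (1 / 100) ≤ p.nc (1 / 50) := Pre29.rp_le X.H.n1 (by rw [X.H.hc]; linarith)
  have b : p.nc (1 / 100) ^ 2 = p.nc (1 / 50) := by
    rw [Pm.nc, Pre29.rp_pow, Pm.nc]; congr 1; push_cast; ring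
  have d : p.t1L ≤ 1 := div_le_one_of_le₀ (one_le_pow₀ (one_le_rpow X.H.N1.le (by
    rw [X.H.hc]; linarith))) (pow_pos (nc0 X _) 3).le
  rw [Pm.EnL, Pm.p0L, mul_pow, sq_sqrt N.le, b]
  nlinarith [mul_le_mul_of_nonneg_right a N.le,
    mul_le_mul_of_nonneg_right d (mul_pos (nc0 X (1 / 50)) N).le]

/-- **one pass** -/
theorem pass (G : GrD K' c0' C0' η' p σ t Q) (P : p.PlX σ t Q)
    (hK : 5 * (406 + 8 * K') ≤ (p.n : ℝ) ^ η) {m : ℕ} {a t0 u En : ℝ} (hy : 0 ≤ y)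
    (h : (p.gst Q t).Phi (p.scG K' σ t Q) m a ≤ p.PhN t)
    (L : LO ((p.n : ℝ) ^ η) (p.scG K' σ t Q) (p.gst Q t) m a t0 u En)
    (h0 : t0 ≤ (p.gst Q t).s (p.scG K' σ t Q).J / 2) (hu : u ≤ p.NL σ t y / p.muG t)
    (hE : En ≤ 2 * (p.nc (1 / 50) * p.NL σ t y)) :
    Top (p.scG K' σ t Q) (p.gst Q t) m a ≤ p.nxL σ t y := by
  have c := G.cl.1
  refine le_min ((En_Phi c rfl _ _).trans h) ?_
  have θ0 := X.θ0
  have N := (Bu0 X).trans_le (Bu_le X hy)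
  have n1 : 1 ≤ p.nc (1 / 50) := one_le_rpow X.H.N1.le (by rw [X.H.hc]; linarith [X.H.c_pos])
  have n0 := nc0 X (1 / 50)
  have Λ0 := X.H.Λ0
  have y1 := Tp4.ye_T X G
  have f : mf (p.scG K' σ t Q) ((p.gst Q t).s (p.scG K' σ t Q).J / 2) = p.muG t := by
    change p.msG t _ / 1 = _
    rw [div_one, X.H.msG_hi t (by rw [R62.T0] at y1; linarith [X.H.ye0])]
  have hθ : (p.scG K' σ t Q).θ = p.muG t := G.top
  have b0 : p.NL σ t y / p.muG t ≤ 2 * (p.nc (1 / 50) * p.NL σ t y) / p.muG t :=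
    div_le_div_of_nonneg_right (by nlinarith) θ0.le
  have b1 := (Bt_le X).trans ((div_le_div_of_nonneg_right (Bu_le X hy) θ0.le).trans b0)
  refine (top_LO c L Λ0.le h0 (B := 2 * (p.nc (1 / 50) * p.NL σ t y) / p.muG t) ?_ ?_
    (hu.trans b0) ((Tp4.G_Bt X G P hK _ _).trans b1) ?_ ((Tp4.n_Bt X G P).trans b1)).trans ?_
  · rw [f]; exact div_le_div_of_nonneg_right hE θ0.le
  · rw [hθ]; exact div_le_div_of_nonneg_right hE θ0.le
  · rw [Kn72.flat G (Plt13.xk_of X.H X.o G P).g0 _ c.i3 le_rfl, sub_self, zero_pow two_ne_zero]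
    positivity
  · have e : 14 * ((p.n : ℝ) ^ η * p.nc (1 / 50)) ≤ p.nc (1 / 40) :=
      X.H.le_of_lg (by positivity) (nc0 X _) (by
        rw [logb_mul (by norm_num) (by positivity), logb_mul Λ0.ne' n0.ne', X.H.lg_rp, lg_nc X,
          lg_nc X]
        linarith [(X.H.lg_num (x := 14) (by norm_num) (by norm_num)).2, X.hη, X.H.η_pos])
    calc _ = 14 * ((p.n : ℝ) ^ η * p.nc (1 / 50)) * p.NL σ t y / p.muG t := by ring
      _ ≤ _ := by gcongr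

end g

/-- **the three passes** -/
theorem apT_of {β : ℝ} {R : Pm → ℝ → ℝ → Prop} (hβ : 1 < β) (T : TL2y) (h : OnG (PsY R) β) :
    OnG (ApT R) β := by
  refine OnG.cl' hβ T h (e := 1 / 100000) (c1 := 1 / 2000) (by norm_num) (by norm_num) (10 ^ 6) 0
    (fun _ => 1) fun K c0 C0 A c η K' c0' C0' η' p σ t Q G hc _ hη _ L Y m a hm h1 h2 => ?_
  have η0 := G.R.η_pos
  push_cast at hη
  have X : Nr44.Cx β c0 C0 A c η K' p σ t := ⟨G.R, hc, by linarith, G.O⟩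
  have E4 : 4 ≤ p.EL := le_trans (by linarith [G.R.num_le])
    (Pre29.rp_le G.R.n1 (show η ≤ 1 / 100000 * p.c by rw [G.R.hc]; linarith))
  have step : ∀ y, p.XloL σ t ≤ y → y ≤ p.PhN t → Top (p.scG K σ t Q) (p.gst Q t) m a ≤ y →
      Top (p.scG K σ t Q) (p.gst Q t) m a ≤ p.nxL σ t y := fun y a1 a2 a3 => by
    obtain ⟨G1, u1, u2, j, γ, Lc, ηc, τ, l0, l, X', Xp, Vt, Lg, Lp, X2, X3, X4, G0, η1, N, g, t1, tu,
      ℓ, En, p0, H, b1, b2⟩ := Y m a hm h1 h2 y a1 a2 a3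
    have O := (L m a hm G1 u1 u2 j γ Lc ηc τ l0 l X' Xp Vt Lg Lp X2 X3 X4 G0 η1 N g t1 tu ℓ En p0
      (by rw [← G.R.hc]; exact H)).1
    refine pass X G.D G.X G.BK ((Xlo0 X).le.trans a1) h1 O ?_ b1 b2
    have s0 := G.D.cl.1.s_nn (p.scG K σ t Q).J
    rcases le_total t1 0 with d | d
    · linarith
    · linarith [H.lt.t1b, H.lt.tu1, mul_le_mul_of_nonneg_right E4 d]
  have x0 := (Xlo0 X).le
  have a1 := step _ (min_le_left _ _) le_rfl ((En_Phi G.D.cl.1 rfl _ _).trans h1)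
  have a2 := Xlo_nx X X.Ph0.le
  exact ⟨Xlo_nx X (x0.trans a2), min_le_left _ _, step _ a2 (min_le_left _ _) a1⟩

/-- `Hy` at the last pass, in any regime `R` -/
theorem hyx_gen {β : ℝ} {R : Pm → ℝ → ℝ → Prop} (hβ : 1 < β) (T : TL2y)
    (h : OnG (fun p σ t S M => R p σ t → ∀ m a, S.In m a → M.Phi S m a ≤ p.PhN t →
      ∀ y, p.XloL σ t ≤ y → y ≤ p.PhN t → Top S M m a ≤ y → R77.HyAt p σ t S M m a y) β) :
    OnG (fun p σ t S M => R p σ t → ∀ m a, S.In m a → M.Phi S m a ≤ p.PhN t →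
      R77.HyAt p σ t S M m a (p.XpL σ t)) β := by
  have P : OnG (PsY R) β := OnG.cl' hβ CL.triv h (c1 := 1 / 2000) one_pos (by norm_num) (10 ^ 6) 0
    (fun _ => 1) fun K c0 C0 A c η K' c0' C0' η' p σ t Q G hc _ hη _ _ Y m a hm h1 h2 y a1 a2 a3 => by
      have η0 := G.R.η_pos
      push_cast at hη
      have X : Nr44.Cx β c0 C0 A c η K' p σ t := ⟨G.R, hc, by linarith, G.O⟩
      have y0 := (Xlo0 X).le.trans a1
      exact ⟨_, _, _, _, _, _, _, _, _, _, _, _, _, _, _, _, _, _, _, _, _, _, _, _, _, _, _,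
        Y h2 m a hm h1 y a1 a2 a3, uL_le X y0, en_le X y0⟩
  exact fun K k => (((apT_of hβ T P).and h) K k).mono
    fun _ _ e c0 C0 η σ t Q o G X h2 m a hm h1 =>
      have ⟨a1, a2, a3⟩ := (e c0 C0 η σ t Q o G X).1 m a hm h1 h2
      (e c0 C0 η σ t Q o G X).2 h2 m a hm h1 _ a1 a2 a3

/-- **`Hy` at the last pass** -/
theorem hyx_of {β : ℝ} (hβ : 1 < β) (T : TL2y) (h : OnG R77.HyY β) : OnG R77.Hyx β := by
  first
  | exact hyx_gen (R := fun p _ t => p.Need t) hβ T h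
  | exact fun K k => (hyx_gen (R := fun p _ t => p.Need t ∧ p.Need2 t) hβ T (fun K k =>
      (h K k).mono fun _ _ e c0 C0 η σ t Q o G X r => e c0 C0 η σ t Q o G X r.1 r.2) K k).mono
        fun _ _ e c0 C0 η σ t Q o G X a b => e c0 C0 η σ t Q o G X ⟨a, b⟩

end Crest.Agent.T156.Alt.Ap39

end
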