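import Crest.Agent.T156.CaTayB_38

/-!
# Row 156 (helper38): Taylor expansion of the value and of the two-replica laws
-/

set_option autoImplicit false
set_option linter.unusedSectionVars false

noncomputable section

namespace Crest.Agent.T156.Cas

open MeasureTheory Real Set Filter Topology
open Crest.Agent.T157.E Crest.Agent.T157.Casc Crest.Agent.T157.SL

variable {Ω : Type}

/-- a functional on two leaves sharing `j` levels -/
def twoF (j : ℕ) (Q : Ω → Ω → ℝ) (Λ : Fn Ω) : ℝ :=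
  Λ (Sh.two j) fun x => Q (x (Sh.twoL j)) (x (Sh.twoR j))

/-- summed against the tilts -/
def pairF (M : List (Lv Ω)) (Q : ℕ → Ω → Ω → ℝ) (Λ : Fn Ω) : ℝ :=
  ∑ j ∈ Finset.range (M.length + 1), dm M 0 j * twoF j (Q j) Λ

theorem pairF_at (L : List (TL Ω)) (t u : ℝ) (Q : ℕ → Ω → Ω → ℝ) :
    pairF (atL L t) Q = pairF (atL L u) Q := by
  funext Λ
  simp only [pairF, Sp38.len_at, Sp38.dm_at t u]

namespace Tay38

theorem two_ne (j : ℕ) : Sh.twoL j ≠ Sh.twoR j := emb_ne .one () j ()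

theorem prs_two (j : ℕ) (G : (Sh.two j).Lf → (Sh.two j).Lf → ℝ) :
    prs (Sh.two j) G = G (Sh.twoL j) (Sh.twoR j) + G (Sh.twoR j) (Sh.twoL j) := by
  simp only [prs, Wt87.sum_two, two_ne, (two_ne j).symm, if_true, if_false, zero_add, add_zero]

theorem Lin.pairF {R : (ℝ → ℝ) → ℝ → Prop} (H : Lin R) (M : List (Lv Ω)) (Q : ℕ → Ω → Ω → ℝ)
    {Λ : ℝ → Fn Ω} {Λ' : Fn Ω} (h : ∀ s F, R (fun t => Λ t s F) (Λ' s F)) :
    R (fun t => pairF M Q (Λ t)) (pairF M Q Λ') :=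
  H.sum _ fun _ _ => H.smul _ (h _ _)

end Tay38

variable [Fintype Ω] {w : Ω → ℝ}

theorem twoF_TEf (hw : Wt w) (j : ℕ) (Q : Ω → Ω → ℝ) (M : List (Lv Ω)) (h : Ω → ℝ) :
    twoF j Q (TEf w M h) = pi2 w M j Q h := Wt87.tX_two hw Q j M h

/-- the moments of the kernels against the tilts -/
def mom0 (w : Ω → ℝ) (M : List (Lv Ω)) (h : Ω → ℝ) (T : ℕ → Ω → Ω → ℝ) (p : ℕ) : ℝ :=
  ∑ j ∈ Finset.range (M.length + 1), dm M 0 j * pi2 w M j (fun x y => T j x y ^ p) h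

theorem momT_one (M : List (Lv Ω)) (h : Ω → ℝ) (T : ℕ → Ω → Ω → ℝ) (p : ℕ) :
    momT w M h T p .one = mom0 w M h T p := by
  have : ∀ G, prs .one G = 0 := fun G => by
    rw [prs, Wt87.sum_one, Wt87.sum_one]
    exact if_pos rfl
  rw [momT, Nv, this, zero_add, mom0]

theorem momT_two (M : List (Lv Ω)) (h : Ω → ℝ) (T : ℕ → Ω → Ω → ℝ) (p : ℕ) {j : ℕ}
    (hj : j ≤ M.length) : momT w M h T p (Sh.two j) =
      2 * pi2 w M j (fun x y => T j x y ^ p) h + mom0 w M h T p := by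
  rw [momT, Nv, Tay38.prs_two, Wt87.shr_comm _ (Sh.twoR j), Wt87.shr_two, min_eq_left hj, mom0]
  ring

variable {M : List (Lv Ω)} {S T : ℕ → Ω → Ω → ℝ}

/-- derivatives of a two-replica law, test kernel of degree `m` -/
theorem abs_twoF_iter_le (hw : Wt w) (hM : Mono 0 M) (hST : ∀ j x y, |S j x y| ≤ T j x y)
    (h : Ω → ℝ) (k m q : ℕ) (hq : m + k = q + 1) {j : ℕ} (hj : j ≤ M.length) {Q : Ω → Ω → ℝ}
    {B : ℝ} (hB : 0 ≤ B) (hQ : ∀ x y, |Q x y| ≤ B * T j x y ^ m) :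
    |twoF j Q ((Dop M S)^[k] (TEf w M h))| ≤ cTay k q 2 *
      (B * (2 * pi2 w M j (fun x y => T j x y ^ (q + 1)) h + mom0 w M h T (q + 1))) := by
  have hT : ∀ j x y, 0 ≤ T j x y := fun j x y => (abs_nonneg _).trans (hST j x y)
  have := abs_Dop_iter_deg hw hM hST h k m q hq (Sh.two j)
    (F := fun x => Q (x (Sh.twoL j)) (x (Sh.twoR j))) hB fun x => (hQ _ _).trans (by
      refine mul_le_mul_of_nonneg_left (pow_le_pow_left₀ (hT _ _ _) ?_ m) hB
      rw [Dv, Tay38.prs_two, Wt87.shr_two, min_eq_left hj]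
      exact le_add_of_nonneg_right (hT _ _ _))
  rwa [Wt87.card_two, momT_two M h T _ hj] at this

/-- the same, summed against the tilts -/
theorem abs_pairF_iter_le (hw : Wt w) (hM : Mono 0 M) (hST : ∀ j x y, |S j x y| ≤ T j x y)
    (h : Ω → ℝ) (k m q : ℕ) (hq : m + k = q + 1) {Q : ℕ → Ω → Ω → ℝ} {B : ℝ} (hB : 0 ≤ B)
    (hQ : ∀ j x y, |Q j x y| ≤ B * T j x y ^ m) :
    |pairF M Q ((Dop M S)^[k] (TEf w M h))| ≤ 3 * cTay k q 2 * B * mom0 w M h T (q + 1) := by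
  have hT : ∀ j x y, 0 ≤ T j x y := fun j x y => (abs_nonneg _).trans (hST j x y)
  have h0 : 0 ≤ mom0 w M h T (q + 1) :=
    Tay38.N0_nonneg hM fun j => pi2_nonneg hw M j (fun x y => pow_nonneg (hT j x y) _) h
  have h1 : ∑ j ∈ Finset.range (M.length + 1), dm M 0 j ≤ 1 := Tay38.sum_dm_one hM 0 _
  have hc := mul_nonneg (cTay_nonneg k q 2) hB
  have h3 : ∀ j ∈ Finset.range (M.length + 1),
      |dm M 0 j * twoF j (Q j) ((Dop M S)^[k] (TEf w M h))| ≤ dm M 0 j * (cTay k q 2 *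
        (B * (2 * pi2 w M j (fun x y => T j x y ^ (q + 1)) h + mom0 w M h T (q + 1)))) :=
    fun j hj => by
      rw [abs_mul, abs_of_nonneg (dm_nonneg hM j)]
      exact mul_le_mul_of_nonneg_left (abs_twoF_iter_le hw hM hST h k m q hq
        (Nat.lt_succ_iff.1 (Finset.mem_range.1 hj)) hB (hQ j)) (dm_nonneg hM j)
  refine (Finset.abs_sum_le_sum_abs _ _).trans ((Finset.sum_le_sum h3).trans ?_)
  have e : ∀ j, dm M 0 j * (cTay k q 2 * (B * (2 * pi2 w M j (fun x y => T j x y ^ (q + 1)) h +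
      mom0 w M h T (q + 1)))) = cTay k q 2 * B * 2 *
        (dm M 0 j * pi2 w M j (fun x y => T j x y ^ (q + 1)) h) +
      dm M 0 j * (cTay k q 2 * B * mom0 w M h T (q + 1)) := fun j => by ring
  simp only [e, Finset.sum_add_distrib, ← Finset.mul_sum, ← Finset.sum_mul]
  have h2 := mul_le_mul_of_nonneg_right h1 (mul_nonneg hc h0)
  change _ * mom0 w M h T (q + 1) + _ ≤ _
  linarith

variable {L : List (TL Ω)} {c : ℝ}

theorem hasDerivAt_X_pairF (hw : Wt w) {I : Set ℝ} (hI : IsOpen I) (hL : ∀ l ∈ L, l.C1 I)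
    {u : ℝ} (hu : u ∈ I) (hS : Sacc L u = S) (hc : ∀ y, S L.length y y = c) (h : Ω → ℝ) (t₀ : ℝ) :
    HasDerivAt (fun t => X w (atL L t) h) (c - pairF (atL L t₀) S (TEf w (atL L u) h)) u := by
  refine (hasDerivAt_X hw hI hL hu (b := fun _ => h) (b' := 0)
    fun x => hasDerivAt_const u (h x)).congr_deriv ?_
  rw [DX, pair_eq_sum hw, hS, pairF_at L t₀ u, pairF]
  simp only [hc, Pi.zero_apply, zero_add, ← Finset.sum_mul, sum_P hw, one_mul, twoF_TEf hw]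

theorem hasDerivAt_pairF_iter (hw : Wt w) {I : Set ℝ} (hI : IsOpen I) (hL : ∀ l ∈ L, l.C1 I)
    {u : ℝ} (hu : u ∈ I) (hS : Sacc L u = S) (hc : ∀ y, S L.length y y = c) (h : Ω → ℝ) (t₀ : ℝ)
    (k : ℕ) (M : List (Lv Ω)) (Q : ℕ → Ω → Ω → ℝ) :
    HasDerivAt (fun t => pairF M Q ((Dop (atL L t₀) S)^[k] (TEf w (atL L t) h)))
      (pairF M Q ((Dop (atL L t₀) S)^[k + 1] (TEf w (atL L u) h))) u :=
  (Tay38.lin_der u).pairF M Q (hasDerivAt_Dop_iter hw hI hL hu hS hc h t₀ k)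

theorem continuousOn_pairF_iter (hw : Wt w) {I : Set ℝ} (hL : ∀ l ∈ L, l.OkC I)
    (M M' : List (Lv Ω)) (S Q : ℕ → Ω → Ω → ℝ) (h : Ω → ℝ) (k : ℕ) :
    ContinuousOn (fun t => pairF M' Q ((Dop M S)^[k] (TEf w (atL L t) h))) I :=
  (Tay38.lin_cont I).pairF M' Q (Λ' := fun _ _ => 0) (continuousOn_Dop_iter hw hL M S h k)

/-- **Taylor's formula for a test functional** `∑_j dm_j pi2_j (Q j)` -/
theorem taylor_pairF (hw : Wt w) {a b : ℝ} (hab : a < b) (hC : ∀ l ∈ L, l.OkC (Icc a b))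
    (hL : ∀ l ∈ L, l.C1 (Ioo a b)) (hS : ∀ t ∈ Ioo a b, Sacc L t = S)
    (hc : ∀ y, S L.length y y = c) (h : Ω → ℝ) (k : ℕ) (Q : ℕ → Ω → Ω → ℝ) :
    ∃ θ ∈ Ioo a b, pairF (atL L b) Q (TEf w (atL L b) h) =
      ∑ i ∈ Finset.range (k + 1),
        pairF (atL L a) Q ((Dop (atL L a) S)^[i] (TEf w (atL L a) h)) * (b - a) ^ i / i.factorial +
      pairF (atL L θ) Q ((Dop (atL L θ) S)^[k + 1] (TEf w (atL L θ) h)) * (b - a) ^ (k + 1) /
        (k + 1).factorial := by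
  obtain ⟨θ, hθ, e⟩ := Tay38.taylor_seq hab
    (fun i t => pairF (atL L a) Q ((Dop (atL L a) S)^[i] (TEf w (atL L t) h))) k
    (fun i _ => continuousOn_pairF_iter hw hC _ _ S Q h i)
    fun i _ t ht => hasDerivAt_pairF_iter hw isOpen_Ioo hL ht (hS t ht) hc h a i _ Q
  exact ⟨θ, hθ, by rw [Dop_at L θ a, pairF_at L θ a, pairF_at L b a]; exact e⟩

/-- **Taylor's formula for the value** -/
theorem taylor_X (hw : Wt w) {a b : ℝ} (hab : a < b) (hC : ∀ l ∈ L, l.OkC (Icc a b))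
    (hL : ∀ l ∈ L, l.C1 (Ioo a b)) (hS : ∀ t ∈ Ioo a b, Sacc L t = S)
    (hc : ∀ y, S L.length y y = c) (h : Ω → ℝ) (k : ℕ) :
    ∃ θ ∈ Ioo a b, X w (atL L b) h = X w (atL L a) h + c * (b - a) -
      ∑ i ∈ Finset.range (k + 1), pairF (atL L a) S ((Dop (atL L a) S)^[i] (TEf w (atL L a) h)) *
        (b - a) ^ (i + 1) / (i + 1).factorial -
      pairF (atL L θ) S ((Dop (atL L θ) S)^[k + 1] (TEf w (atL L θ) h)) * (b - a) ^ (k + 2) /
        (k + 2).factorial := by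
  obtain ⟨θ, hθ, e⟩ := Tay38.taylor_seq hab
    (fun i t => Nat.casesOn i (c * t - X w (atL L t) h) fun i =>
      pairF (atL L a) S ((Dop (atL L a) S)^[i] (TEf w (atL L t) h))) (k + 1)
    (fun i _ => by
      cases i with
      | zero => exact (continuousOn_const.mul continuousOn_id).sub
                  (continuousOn_X hw hC (b := fun _ => h) fun _ => continuousOn_const)
      | succ i => exact continuousOn_pairF_iter hw hC _ _ S S h i)
    fun i _ t ht => by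
      cases i with
      | zero =>
        refine (((hasDerivAt_id t).const_mul c).fun_sub
          (hasDerivAt_X_pairF hw isOpen_Ioo hL ht (hS t ht) hc h a)).congr_deriv ?_
        simp
      | succ i => exact hasDerivAt_pairF_iter hw isOpen_Ioo hL ht (hS t ht) hc h a i _ S
  refine ⟨θ, hθ, ?_⟩
  rw [Finset.sum_range_succ'] at e
  rw [Dop_at L θ a, pairF_at L θ a]
  simp only [pow_zero, Nat.factorial_zero, Nat.cast_one, mul_one, div_one] at e
  change c * b - X w (atL L b) h = _ + (c * a - X w (atL L a) h) + _ at e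
  linarith

theorem mono_at (t u : ℝ) : ∀ (L : List (TL Ω)) (m0 : ℝ), Mono m0 (atL L t) → Mono m0 (atL L u)
  | [], _, h => h
  | _ :: L, _, h => ⟨h.1, mono_at t u L _ h.2⟩

/-- **the value up to order `k + 1`, remainder `C sup_θ ∫ T^(k+2)`** -/
theorem taylor_X_le (hw : Wt w) {a b : ℝ} (hab : a < b) (hC : ∀ l ∈ L, l.OkC (Icc a b))
    (hL : ∀ l ∈ L, l.C1 (Ioo a b)) (hS : ∀ t ∈ Ioo a b, Sacc L t = S)
    (hc : ∀ y, S L.length y y = c) (hM : Mono 0 (atL L a)) (hST : ∀ j x y, |S j x y| ≤ T j x y)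
    (h : Ω → ℝ) (k : ℕ) {E : ℝ} (hE : ∀ θ ∈ Ioo a b, mom0 w (atL L θ) h T (k + 2) ≤ E) :
    |X w (atL L b) h - (X w (atL L a) h + c * (b - a) -
      ∑ i ∈ Finset.range (k + 1), pairF (atL L a) S ((Dop (atL L a) S)^[i] (TEf w (atL L a) h)) *
        (b - a) ^ (i + 1) / (i + 1).factorial)| ≤
      3 * cTay (k + 1) (k + 1) 2 * E * (b - a) ^ (k + 2) / (k + 2).factorial := by
  obtain ⟨θ, hθ, e⟩ := taylor_X hw hab hC hL hS hc h k
  have h1 := abs_pairF_iter_le hw (mono_at a θ L 0 hM) hST h (k + 1) 1 (k + 1) (by ring)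
    (Q := S) zero_le_one fun j x y => by simpa using hST j x y
  have h2 := cTay_nonneg (k + 1) (k + 1) 2
  have h3 := (sub_pos.2 hab).le
  rw [e, sub_sub_cancel_left, abs_neg, abs_div, abs_mul, abs_of_nonneg (pow_nonneg h3 _),
    Nat.abs_cast]
  rw [mul_one] at h1
  gcongr
  exact h1.trans (mul_le_mul_of_nonneg_left (hE θ hθ) (by positivity))

/-- **a tree expectation up to order `k`**, test function of degree `m` -/
theorem taylor_TE_le (hw : Wt w) {a b : ℝ} (hab : a < b) (hC : ∀ l ∈ L, l.OkC (Icc a b))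
    (hL : ∀ l ∈ L, l.C1 (Ioo a b)) (hS : ∀ t ∈ Ioo a b, Sacc L t = S)
    (hc : ∀ y, S L.length y y = c) (hM : Mono 0 (atL L a)) (hST : ∀ j x y, |S j x y| ≤ T j x y)
    (h : Ω → ℝ) (k m : ℕ) (s : Sh) {F : (s.Lf → Ω) → ℝ} {B E : ℝ} (hB : 0 ≤ B)
    (hF : ∀ x, |F x| ≤ B * Dv L.length T s x ^ m)
    (hE : ∀ θ ∈ Ioo a b, momT w (atL L θ) h T (m + k + 1) s ≤ E) :
    |TE w s (atL L b) h F - ∑ i ∈ Finset.range (k + 1),
        (Dop (atL L a) S)^[i] (TEf w (atL L a) h) s F * (b - a) ^ i / i.factorial| ≤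
      cTay (k + 1) (m + k) (Fintype.card s.Lf) * (B * E) * (b - a) ^ (k + 1) /
        (k + 1).factorial := by
  obtain ⟨θ, hθ, e⟩ := taylor_TE hw hab hC hL hS hc h k s F
  have h1 := abs_Dop_iter_deg hw (mono_at a θ L 0 hM) hST h (k + 1) m (m + k) rfl s (F := F) hB
    (by rwa [Sp38.len_at])
  have h2 := cTay_nonneg (k + 1) (m + k) (Fintype.card s.Lf)
  have h3 := (sub_pos.2 hab).le
  rw [e, add_sub_cancel_left, abs_div, abs_mul, abs_of_nonneg (pow_nonneg h3 _), Nat.abs_cast]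
  gcongr
  exact h1.trans (mul_le_mul_of_nonneg_left (mul_le_mul_of_nonneg_left (hE θ hθ) hB) h2)

/-- **a test functional up to order `k`**, test kernels of degree `m` -/
theorem taylor_pairF_le (hw : Wt w) {a b : ℝ} (hab : a < b) (hC : ∀ l ∈ L, l.OkC (Icc a b))
    (hL : ∀ l ∈ L, l.C1 (Ioo a b)) (hS : ∀ t ∈ Ioo a b, Sacc L t = S)
    (hc : ∀ y, S L.length y y = c) (hM : Mono 0 (atL L a)) (hST : ∀ j x y, |S j x y| ≤ T j x y)
    (h : Ω → ℝ) (k m : ℕ) {Q : ℕ → Ω → Ω → ℝ} {B E : ℝ} (hB : 0 ≤ B)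
    (hQ : ∀ j x y, |Q j x y| ≤ B * T j x y ^ m)
    (hE : ∀ θ ∈ Ioo a b, mom0 w (atL L θ) h T (m + k + 1) ≤ E) :
    |pairF (atL L b) Q (TEf w (atL L b) h) - ∑ i ∈ Finset.range (k + 1),
        pairF (atL L a) Q ((Dop (atL L a) S)^[i] (TEf w (atL L a) h)) * (b - a) ^ i / i.factorial| ≤
      3 * cTay (k + 1) (m + k) 2 * B * E * (b - a) ^ (k + 1) / (k + 1).factorial := by
  obtain ⟨θ, hθ, e⟩ := taylor_pairF hw hab hC hL hS hc h k Q
  have h1 := abs_pairF_iter_le hw (mono_at a θ L 0 hM) hST h (k + 1) m (m + k) rfl hB hQ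
  have h2 := cTay_nonneg (k + 1) (m + k) 2
  have h3 := (sub_pos.2 hab).le
  rw [e, add_sub_cancel_left, abs_div, abs_mul, abs_of_nonneg (pow_nonneg h3 _), Nat.abs_cast]
  gcongr
  exact h1.trans (mul_le_mul_of_nonneg_left (hE θ hθ) (by positivity))

end Crest.Agent.T156.Cas

end
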