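import Crest.Agent.T156.OneP_23
import Crest.Agent.T156.CaTayC_38

/-!
# Row 156: a priori tails at a node of label weight zero (helper7)

The cavity identity at order zero, tested against bins of the overlap.
-/

set_option autoImplicit false
set_option linter.unusedSectionVars false

noncomputable section

namespace Crest.Agent.T156.Cas.Apt7

open MeasureTheory Real Set Filter Topology
open Crest.Agent.T157.E Crest.Agent.T157.Casc Crest.Agent.T157.SL
open Crest.Agent.T157.G1 (ov fl)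
open Crest.ProbabilityR.SpinGlassDynamics (spin)

section gen

variable {Ω : Type} [Fintype Ω] {w : Ω → ℝ}

/-- conditional variance of a kernel, seen from a state -/
def cv (w : Ω → ℝ) (L : List (Lv Ω)) (K : Ω → Ω → ℝ) (z : Ω → ℝ) : ℝ :=
  qf (P w L z) (fun x y => K x y ^ 2) - qf (P w L z) K ^ 2

/-- `E (K - E[K | node])²` for two replicas split at `j` -/
def pv (w : Ω → ℝ) (L : List (Lv Ω)) (j : ℕ) (K : Ω → Ω → ℝ) (h : Ω → ℝ) : ℝ :=
  node w L j (cv w (L.drop j) K) h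

theorem eg_cv (hw : Wt w) (L : List (Lv Ω)) (K : Ω → Ω → ℝ) : Eg (cv w L K) :=
  (eg_qf hw L _).sub ((eg_qf hw L K).pow 2)

theorem cv_eq (hw : Wt w) (L : List (Lv Ω)) (K : Ω → Ω → ℝ) (z : Ω → ℝ) :
    pi2 w L 0 (fun x y => (K x y - qf (P w L z) K) ^ 2) z = cv w L K z := by
  have e : (fun x y => (K x y - qf (P w L z) K) ^ 2) = fun x y =>
      (K x y ^ 2 - 2 * qf (P w L z) K * K x y) + qf (P w L z) K ^ 2 := by
    funext x y; ring
  rw [e, pi2_add hw, pi2_sub hw, pi2_const_mul, pi2_const hw, Tay38.pi2_zero38, Tay38.pi2_zero38,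
    cv]
  ring

theorem cv_nonneg (hw : Wt w) (L : List (Lv Ω)) (K : Ω → Ω → ℝ) (z : Ω → ℝ) : 0 ≤ cv w L K z := by
  rw [← cv_eq hw]
  exact pi2_nonneg hw L 0 (fun _ _ => sq_nonneg _) z

theorem pv_nonneg (hw : Wt w) (L : List (Lv Ω)) (j : ℕ) (K : Ω → Ω → ℝ) (h : Ω → ℝ) :
    0 ≤ pv w L j K h := by
  have := node_mono hw (Eg.const 0) (eg_cv hw (L.drop j) K) (cv_nonneg hw _ K) L j h
  rwa [node_const hw] at this

theorem four_zero (hw : Wt w) (K : Ω → Ω → ℝ) (s : Sh) (L : List (Lv Ω)) (h : Ω → ℝ)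
    {a b c d : s.Lf} (hab : a ≠ b) (hcd : c ≠ d) (h1 : s.shr a b L.length = 0)
    (h2 : s.shr c d L.length = 0) :
    TE w s L h (fun x => (K (x c) (x d) - K (x a) (x b)) ^ 2) ≤ 4 * pv w L 0 K h := by
  have e1 := Tay38.TE_pair hw (fun x y => (K x y - qf (P w L h) K) ^ 2) s L h a b hab
  have e2 := Tay38.TE_pair hw (fun x y => (K x y - qf (P w L h) K) ^ 2) s L h c d hcd
  rw [h1, cv_eq hw] at e1
  rw [h2, cv_eq hw] at e2
  have e3 : pv w L 0 K h = cv w L K h := by cases L <;> rfl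
  refine (Law.TE_mono hw s L h (G := fun x => 2 * (K (x a) (x b) - qf (P w L h) K) ^ 2 +
    2 * (K (x c) (x d) - qf (P w L h) K) ^ 2) fun x => ?_).trans ?_
  · nlinarith [sq_nonneg (K (x a) (x b) + K (x c) (x d) - 2 * qf (P w L h) K)]
  · rw [Law.TE_add hw, Law.TE_const_mul hw, Law.TE_const_mul hw, e1, e2, e3]
    linarith

/-- two pairs split at the same node -/
theorem four (hw : Wt w) (K : Ω → Ω → ℝ) : ∀ (s : Sh) (L : List (Lv Ω)) (h : Ω → ℝ) (j : ℕ)
    (a b c d : s.Lf), a ≠ b → c ≠ d → s.shr a b L.length = j → s.shr c d L.length = j →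
    s.shr a c j = j →
    TE w s L h (fun x => (K (x c) (x d) - K (x a) (x b)) ^ 2) ≤ 4 * pv w L j K h
  | s, L, h, 0, _, _, _, _, hab, hcd, h1, h2, _ => four_zero hw K s L h hab hcd h1 h2
  | .one, _, _, _ + 1, _, _, _, _, hab, _, _, _, _ => (hab rfl).elim
  | .step _, [], _, _ + 1, _, _, _, _, _, _, h1, _, _ => (Nat.succ_ne_zero _ h1.symm).elim
  | .step s, l :: L, h, j + 1, a, b, c, d, hab, hcd, h1, h2, h3 => by
      refine (Law.TE_step hw s l L h _).trans_le ?_
      refine (tE_mono (lg_X hw L) (Law.eg_TE hw s L _)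
        ((((eg_cv hw (L.drop j) K).node hw L j)).const_mul 4) (fun z => four hw K s L z j a b c d
          hab hcd (Nat.succ_injective h1) (Nat.succ_injective h2) (Nat.succ_injective h3))
        l h).trans_eq ?_
      exact tE_const_mul l _ _ 4 h
  | .split s t, L, h, j + 1, .inl a, .inl b, .inl c, .inl d, hab, hcd, h1, h2, h3 => by
      refine (Law.TE_split hw s t L h _).trans_le (le_trans (le_of_eq ?_)
        (four hw K s L h (j + 1) a b c d (fun e => hab (congrArg _ e)) (fun e => hcd (congrArg _ e))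
          h1 h2 h3))
      congr 1
      funext x
      exact Law.TE_const hw t L h ((K (x c) (x d) - K (x a) (x b)) ^ 2)
  | .split s t, L, h, j + 1, .inr a, .inr b, .inr c, .inr d, hab, hcd, h1, h2, h3 => by
      refine (Law.TE_split hw s t L h _).trans_le (le_trans (le_of_eq ?_)
        (four hw K t L h (j + 1) a b c d (fun e => hab (congrArg _ e)) (fun e => hcd (congrArg _ e))
          h1 h2 h3))
      exact Law.TE_const hw s L h (TE w t L h fun x => (K (x c) (x d) - K (x a) (x b)) ^ 2)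
  | .split _ _, _, _, _ + 1, .inl _, .inr _, _, _, _, _, h1, _, _ =>
      (Nat.succ_ne_zero _ h1.symm).elim
  | .split _ _, _, _, _ + 1, .inr _, .inl _, _, _, _, _, h1, _, _ =>
      (Nat.succ_ne_zero _ h1.symm).elim
  | .split _ _, _, _, _ + 1, .inl _, .inl _, .inr _, _, _, _, _, _, h3 =>
      (Nat.succ_ne_zero _ h3.symm).elim
  | .split _ _, _, _, _ + 1, .inr _, .inr _, .inl _, _, _, _, _, _, h3 =>
      (Nat.succ_ne_zero _ h3.symm).elim
  | .split _ _, _, _, _ + 1, .inl _, .inl _, .inl _, .inr _, _, _, _, h2, _ =>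
      (Nat.succ_ne_zero _ h2.symm).elim
  | .split _ _, _, _, _ + 1, .inr _, .inr _, .inr _, .inl _, _, _, _, h2, _ =>
      (Nat.succ_ne_zero _ h2.symm).elim

omit [Fintype Ω]

variable {M : List (Lv Ω)}

theorem dm_drop (M : List (Lv Ω)) (j i : ℕ) : dm (M.drop j) 0 (i + 1) = dm M 0 (i + 1 + j) := by
  have hex : ∀ i, ex (M.drop j) i = ex M (i + j) := fun i => by
    simp only [ex, List.getElem?_drop, add_comm j]
  rw [dm, dm, hex, show i + 1 + j = i + j + 1 by omega]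
  simp only [exP, hex]

/-- monotonicity of the total variation, case by case -/
theorem sg_mono_w (hM : Mono 0 M) (s : Sh) {Φ Ψ : GT s → ℝ}
    (H0 : ∀ a b, b ≠ a → Φ (.g0 s M.length a b) ≤ Ψ (.g0 s M.length a b))
    (H1 : ∀ a j b, j ≤ M.length → Φ (.g1 s a j b) ≤ Ψ (.g1 s a j b))
    (H1' : ∀ a j b, j ≤ M.length → Φ (.g1' s a j b) ≤ Ψ (.g1' s a j b))
    (H2 : ∀ a j b k, j ≤ M.length → k ≤ M.length → Φ (.g2 s a j b k) ≤ Ψ (.g2 s a j b k))
    (H3 : ∀ a j i, i + j ≤ M.length → (i = 0 ∨ dm M 0 (i + j) ≠ 0) →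
      Φ (.g3 s a j i) ≤ Ψ (.g3 s a j i)) : sg 1 M s Φ ≤ sg 1 M s Ψ := by
  have r : ∀ {j n}, j ∈ Finset.range (n + 1) → j ≤ n := fun h =>
    Nat.lt_succ_iff.1 (Finset.mem_range.1 h)
  simp only [sg, one_mul]
  refine add_le_add (add_le_add (Finset.sum_le_sum fun a _ => Finset.sum_le_sum fun b hb =>
    H0 a b (Finset.ne_of_mem_erase hb)) (Finset.sum_le_sum fun a _ => Finset.sum_le_sum fun j hj =>
      mul_le_mul_of_nonneg_left (add_le_add (Finset.sum_le_sum fun b _ => H1 a j b (r hj))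
        (Finset.sum_le_sum fun b _ => H1' a j b (r hj))) (cw_nonneg s hM a j)))
    (Finset.sum_le_sum fun a _ => Finset.sum_le_sum fun j hj => mul_le_mul_of_nonneg_left
      (add_le_add (Finset.sum_le_sum fun b _ => Finset.sum_le_sum fun k hk =>
        mul_le_mul_of_nonneg_left (H2 a j b k (r hj) (r hk)) (cw_nonneg s hM b k))
        (Finset.sum_le_sum fun i hi => ?_)) (cw_nonneg s hM a j))
  have hi' : i + j ≤ M.length := by have := r hi; have := r hj; omega
  have h0 := dm_nonneg (Cav22.mono_drop j hM) i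
  rcases i with _ | i
  · exact mul_le_mul_of_nonneg_left (H3 a j 0 hi' (.inl rfl)) h0
  · by_cases e : dm M 0 (i + 1 + j) = 0
    · rw [dm_drop, e, zero_mul, zero_mul]
    · exact mul_le_mul_of_nonneg_left (H3 a j _ hi' (.inr e)) h0

theorem shr_two_all (s : ℕ) (a b : (Sh.two s).Lf) : (Sh.two s).shr a b s = s := by
  rcases Wt87.two_cases s a with rfl | rfl <;> rcases Wt87.two_cases s b with rfl | rfl
  · exact Wt87.shr_self _ _ _
  · rw [Wt87.shr_two, min_self]
  · rw [Wt87.shr_comm, Wt87.shr_two, min_self]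
  · exact Wt87.shr_self _ _ _

theorem shr_two_cases (s : ℕ) (a b : (Sh.two s).Lf) (j : ℕ) :
    (Sh.two s).shr a b j = j ∨ (Sh.two s).shr a b j = s := by
  rcases Wt87.two_cases s a with rfl | rfl <;> rcases Wt87.two_cases s b with rfl | rfl
  · exact .inl (Wt87.shr_self _ _ _)
  · rw [Wt87.shr_two]; omega
  · rw [Wt87.shr_comm, Wt87.shr_two]; omega
  · exact .inl (Wt87.shr_self _ _ _)

/-- **weights of one edge on a pair split at `s`** -/
theorem sg_level (hM : Mono 0 M) {s : ℕ} (hs : s ≤ M.length) {F : ℕ → ℝ} (hF : ∀ j, 0 ≤ F j) :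
    sg 1 M (Sh.two s) (fun τ => F τ.j) ≤
      40 * (2 * F s + ∑ j ∈ Finset.range (M.length + 1), dm M 0 j * F j) := by
  have hN : Nv M F (Sh.two s) = 2 * F s + ∑ j ∈ Finset.range (M.length + 1), dm M 0 j * F j := by
    rw [Nv, Tay38.prs_two, Wt87.shr_comm _ (Sh.twoR s), Wt87.shr_two, min_eq_left hs]
    ring
  have h0 := Tay38.N0_nonneg hM hF
  have hc := Tay38.sum_cw_level hM hF (Sh.two s)
  have h1 := sum_cw (Sh.two s) M
  have hd := fun j hj => Tay38.sum_dm_le hM hF (Sh.two s) (j := j) hj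
  rw [Wt87.card_two] at hc h1
  rw [← hN]
  set N := Nv M F (Sh.two s)
  have hFs : 2 * F s ≤ N := by rw [hN]; linarith
  have hs0 := hF s
  have e : ∀ a b j, F ((Sh.two s).shr a b j) ≤ F j + F s := fun a b j => by
    rcases shr_two_cases s a b j with e | e <;> rw [e]
    · linarith
    · linarith [hF j]
  have em : ∀ j k, F (min j k) ≤ F j + F k := fun j k => by
    rcases min_cases j k with ⟨e, -⟩ | ⟨e, -⟩ <;> rw [e]
    · linarith [hF k]
    · linarith [hF j]
  have aff : ∀ (X : (Sh.two s).Lf → ℕ → ℝ) (α β : ℝ), 0 ≤ β →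
      (∀ a j, j ≤ M.length → X a j ≤ α + β * F j) →
      ∑ a, ∑ j ∈ Finset.range (M.length + 1), cw (Sh.two s) M a j * X a j ≤ 2 * α + 2 * β * N :=
    fun X α β hβ hX => by
      refine (Finset.sum_le_sum fun a _ => Finset.sum_le_sum fun j hj => mul_le_mul_of_nonneg_left
        (hX a j (Nat.lt_succ_iff.1 (Finset.mem_range.1 hj))) (cw_nonneg _ hM a j)).trans ?_
      simp only [mul_add, Finset.sum_add_distrib, ← Finset.sum_mul, mul_left_comm _ β,
        ← Finset.mul_sum, h1]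
      have := mul_le_mul_of_nonneg_left hc hβ
      push_cast at this ⊢
      linarith
  have b0 : ∑ a, ∑ b ∈ Finset.univ.erase a, F (GT.g0 (Sh.two s) M.length a b).j ≤ 2 * N := by
    refine (Finset.sum_le_sum (g := fun _ => N) fun a _ => ?_).trans (by
      simp [Wt87.card_two])
    refine (Finset.sum_le_sum (g := fun _ => F s) fun b hb => le_of_eq ?_).trans ?_
    · have hb' := Finset.ne_of_mem_erase hb
      show F ((Sh.two s).shr a b M.length) = F s
      rcases Wt87.two_cases s a with rfl | rfl <;> rcases Wt87.two_cases s b with rfl | rfl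
      · exact (hb' rfl).elim
      · rw [Wt87.shr_two, min_eq_left hs]
      · rw [Wt87.shr_comm, Wt87.shr_two, min_eq_left hs]
      · exact (hb' rfl).elim
    · rw [Finset.sum_const, Finset.card_erase_of_mem (Finset.mem_univ a), Finset.card_univ,
        Wt87.card_two]
      simp only [nsmul_eq_mul]
      push_cast
      linarith
  have b1 := aff (fun a j => ∑ b, F (GT.g1 (Sh.two s) a j b).j + ∑ b, F (GT.g1' (Sh.two s) a j b).j)
    (4 * F s) 4 (by norm_num) fun a j _ => by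
      simp only [Wt87.sum_two, GT.g1, GT.g1']
      linarith [e (Sh.twoL s) a j, e (Sh.twoR s) a j, e a (Sh.twoL s) j, e a (Sh.twoR s) j]
  have b2 := aff (fun a j => ∑ b, ∑ k ∈ Finset.range (M.length + 1), cw (Sh.two s) M b k *
      F (GT.g2 (Sh.two s) a j b k).j + ∑ i ∈ Finset.range (M.length - j + 1),
        dm (M.drop j) 0 i * F (GT.g3 (Sh.two s) a j i).j) (2 * F s + 3 * N) 3 (by norm_num)
    fun a j hj => by
      have c1 := aff (fun b k => F (GT.g2 (Sh.two s) a j b k).j) (F j + F s) 1 zero_le_one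
        fun b k _ => by
          have := e a b (min j k)
          have := em j k
          simp only [GT.g2]
          linarith
      have c2 : ∑ i ∈ Finset.range (M.length - j + 1),
        dm (M.drop j) 0 i * F (GT.g3 (Sh.two s) a j i).j ≤ F j + N := hd j hj
      linarith
  simp only [sg, one_mul]
  linarith

/-- only the terms whose pair, if split at `s`, is split at the node of the old pair matter -/
theorem sg_mono_two (hM : Mono 0 M) {s : ℕ} (h0 : dm M 0 s = 0) {Φ Ψ : GT (Sh.two s) → ℝ}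
    (H : ∀ τ : GT (Sh.two s), τ.Mem _ M.length →
      (τ.j = s → τ.sh.shr (τ.e (Sh.twoL s)) τ.p s = s) → Φ τ ≤ Ψ τ) :
    sg 1 M (Sh.two s) Φ ≤ sg 1 M (Sh.two s) Ψ := by
  refine sg_mono_w hM _ (fun a b hb => H _ (.g0 hb) fun _ => shr_two_all s _ _)
    (fun a j b hj => H _ (.g1 a b hj) fun _ => (Wt87.shr_emb _ _ _ _ _ _).trans (shr_two_all s _ _))
    (fun a j b hj => H _ (.g1' a b hj) fun e => ?_)
    (fun a j b k hj hk => H _ (.g2 a b hj hk) fun e => ?_)
    fun a j i hi hw => H _ (.g3 a hi) fun e => ?_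
  · have h1 : s ≤ j := e.ge.trans (Wt87.shr_le _ a b j)
    exact (Wt87.shr_nw _ _ _ _ _).trans (by rw [min_eq_right h1]; exact shr_two_all s _ _)
  · have h1 : s ≤ j := (e.ge.trans (Wt87.shr_le _ a b (min j k))).trans (min_le_left _ _)
    exact (Wt87.shr_nw _ _ _ _ _).trans (by
      rw [min_eq_right h1]; exact (Wt87.shr_emb _ _ _ _ _ _).trans (shr_two_all s _ _))
  · have e' : i + j = s := e
    have h1 : j = s := by
      rcases hw with hw | hw
      · omega
      · exact (hw (e' ▸ h0)).elim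
    exact (Wt87.shr_emb _ _ _ _ _ _).trans ((Wt87.shr_nw _ _ _ _ _).trans (by
      rw [h1, min_self]; exact shr_two_all s _ _))

theorem abs_le_pow {u δ : ℝ} (hδ : 0 < δ) (p : ℕ) : |u| ≤ δ + |u| ^ (p + 1) / δ ^ p := by
  rcases le_total |u| δ with h | h
  · exact h.trans (le_add_of_nonneg_right (by positivity))
  · have : |u| ≤ |u| ^ (p + 1) / δ ^ p := by
      rw [le_div_iff₀ (by positivity), pow_succ']
      exact mul_le_mul_of_nonneg_left (pow_le_pow_left₀ hδ.le h p) (abs_nonneg u)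
    linarith

/-- a family of bins: tests `g i` around `r i = qq i s`, references `qq i` equal to `q` on the
nodes that carry weight -/
structure Bins {ι : Type} (M : List (Lv Ω)) (s : ℕ) (q : ℕ → ℝ) (I : Finset ι) (qq : ι → ℕ → ℝ)
    (g : ι → ℝ → ℝ) (wd : ℝ) : Prop where
  wd0 : 0 ≤ wd
  mem : ∀ i ∈ I, ∀ j ≤ M.length, qq i j ∈ Icc (0 : ℝ) 1
  eq : ∀ i ∈ I, ∀ j ≤ M.length, dm M 0 j ≠ 0 → qq i j = q j
  g0 : ∀ i ∈ I, ∀ u, 0 ≤ g i u
  g1 : ∀ u, ∑ i ∈ I, g i u ≤ 1
  supp : ∀ i ∈ I, ∀ u, g i u ≠ 0 → |u - qq i s| ≤ wd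

variable [Fintype Ω]

/-- **one edge against the bins** -/
theorem edge_bins (hw : Wt w) (hM : Mono 0 M) {s : ℕ} (hs : s < M.length) (h0 : dm M 0 s = 0)
    {K : Ω → Ω → ℝ} (hK : ∀ x y, |K x y| ≤ 1) {ι : Type} {q : ℕ → ℝ} {I : Finset ι}
    {qq : ι → ℕ → ℝ} {g : ι → ℝ → ℝ} {wd δ : ℝ} (B : Bins M s q I qq g wd) (hδ : 0 < δ) (p : ℕ)
    (h : Ω → ℝ) :
    ∑ i ∈ I, sg 1 M (Sh.two s) (fun τ => TE w τ.sh M h
        (τ.ev (fun j x y => |K x y - qq i j|) (pr2 s fun x y => g i (K x y)))) ≤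
      16 * (δ + wd) * ∑ i ∈ I, pi2 w M s (fun x y => g i (K x y)) h +
      40 * (8 * pv w M s K h / δ + (∑ j ∈ Finset.range (M.length + 1),
        dm M 0 j * pi2 w M j (fun x y => |K x y - q j| ^ (p + 1)) h) / δ ^ p) := by
  classical
  set F : ℕ → ℝ := fun j => if j = s then 4 * pv w M s K h / δ else if dm M 0 j = 0 then 2 else
    pi2 w M j (fun x y => |K x y - q j| ^ (p + 1)) h / δ ^ p with hF
  have hpv := pv_nonneg hw M s K h
  have hpi : ∀ j, 0 ≤ pi2 w M j (fun x y => |K x y - q j| ^ (p + 1)) h := fun j =>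
    pi2_nonneg hw M j (fun _ _ => by positivity) h
  have hF0 : ∀ j, 0 ≤ F j := fun j => by
    have := hpi j
    simp only [hF]
    split_ifs <;> positivity
  set T : (τ : GT (Sh.two s)) → (τ.sh.Lf → Ω) → ℝ := fun τ x =>
    if τ.j = s then (K (x τ.p) (x τ.q) - K (x (τ.e (Sh.twoL s))) (x (τ.e (Sh.twoR s)))) ^ 2 / δ
    else if dm M 0 τ.j = 0 then 2 else |K (x τ.p) (x τ.q) - q τ.j| ^ (p + 1) / δ ^ p with hT
  have hT0 : ∀ τ x, 0 ≤ T τ x := fun τ x => by
    simp only [hT]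
    split_ifs <;> positivity
  have key : ∀ τ : GT (Sh.two s), τ.Mem _ M.length →
      (τ.j = s → τ.sh.shr (τ.e (Sh.twoL s)) τ.p s = s) →
      ∑ i ∈ I, TE w τ.sh M h (τ.ev (fun j x y => |K x y - qq i j|) (pr2 s fun x y => g i (K x y))) ≤
        (δ + wd) * ∑ i ∈ I, pi2 w M s (fun x y => g i (K x y)) h + F τ.j := fun τ hτ hsm => by
    have e1 : ∀ i, pi2 w M s (fun x y => g i (K x y)) h =
        TE w τ.sh M h fun x => g i (K (x (τ.e (Sh.twoL s))) (x (τ.e (Sh.twoR s)))) := fun i =>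
      (Wt87.tX_two hw _ s M h).symm.trans (hτ.TE_e hw M h (pr2 s fun x y => g i (K x y))).symm
    have e2 : TE w τ.sh M h (T τ) ≤ F τ.j := by
      simp only [hT, hF]
      split_ifs with c1 c2
      · have hne : τ.e (Sh.twoL s) ≠ τ.e (Sh.twoR s) := fun e => by
          have := hτ.shr_e (Sh.twoL s) (Sh.twoR s) M.length
          rw [e, Wt87.shr_self, Wt87.shr_two] at this
          omega
        have := four hw K τ.sh M h s _ _ _ _ hne hτ.ne
          (by rw [hτ.shr_e, Wt87.shr_two, min_eq_left hs.le]) (hτ.shr.trans c1) (hsm c1)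
        simp only [div_eq_mul_inv, Law.TE_mul_const hw]
        exact mul_le_mul_of_nonneg_right this (by positivity)
      · exact (Law.TE_const hw _ _ _ _).le
      · simp only [div_eq_mul_inv, Law.TE_mul_const hw]
        rw [hτ.TE_pair hw h fun x y => |K x y - q τ.j| ^ (p + 1)]
    simp only [e1]
    rw [← Law.TE_sum hw, ← Law.TE_sum hw, ← Law.TE_const_mul hw]
    refine le_trans ?_ (add_le_add le_rfl e2)
    rw [← Law.TE_add hw]
    refine Law.TE_mono hw _ _ _ fun x => ?_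
    set u := K (x (τ.e (Sh.twoL s))) (x (τ.e (Sh.twoR s)))
    have pt : ∀ i ∈ I, g i u * |K (x τ.p) (x τ.q) - qq i τ.j| ≤ g i u * (δ + wd + T τ x) :=
      fun i hi => by
        by_cases hg : g i u = 0
        · rw [hg, zero_mul, zero_mul]
        refine mul_le_mul_of_nonneg_left ?_ (B.g0 i hi u)
        have hw0 := B.wd0
        simp only [hT]
        split_ifs with c1 c2
        · have h1 := B.supp i hi u hg
          have h2 := abs_le_pow (u := K (x τ.p) (x τ.q) - u) hδ 1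
          rw [pow_one, sq_abs] at h2
          have h3 := abs_add_le (K (x τ.p) (x τ.q) - u) (u - qq i s)
          rw [c1]
          rw [sub_add_sub_cancel] at h3
          linarith
        · have h1 := B.mem i hi _ hτ.le
          have h2 := abs_le.1 (hK (x τ.p) (x τ.q))
          have : |K (x τ.p) (x τ.q) - qq i τ.j| ≤ 2 :=
            abs_le.2 ⟨by linarith [h1.2], by linarith [h1.1]⟩
          linarith
        · rw [B.eq i hi _ hτ.le c2]
          linarith [abs_le_pow (u := K (x τ.p) (x τ.q) - q τ.j) hδ p]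
    refine (Finset.sum_le_sum pt).trans ?_
    rw [← Finset.sum_mul]
    have := mul_le_mul_of_nonneg_right (B.g1 u) (hT0 τ x)
    linarith
  rw [← sg_sum]
  refine (sg_mono_two hM h0 key).trans ?_
  rw [sg_add, sg_const, Wt87.card_two]
  have h1 := sg_level hM hs.le hF0
  have h2 : ∑ j ∈ Finset.range (M.length + 1), dm M 0 j * F j =
      (∑ j ∈ Finset.range (M.length + 1),
        dm M 0 j * pi2 w M j (fun x y => |K x y - q j| ^ (p + 1)) h) / δ ^ p := by
    rw [Finset.sum_div]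
    refine Finset.sum_congr rfl fun j _ => ?_
    simp only [hF]
    split_ifs with c1 c2
    · rw [c1, h0, zero_mul, zero_mul, zero_div]
    · rw [c2, zero_mul, zero_mul, zero_div]
    · ring
  have h3 : F s = 4 * pv w M s K h / δ := if_pos rfl
  rw [h2, h3] at h1
  push_cast
  have h4 : 2 * (4 * pv w M s K h / δ) = 8 * pv w M s K h / δ := by ring
  linarith

theorem jensen_abs {κ : Type} [Fintype κ] {p f : κ → ℝ} (h0 : ∀ x, 0 ≤ p x) (h1 : ∑ x, p x = 1)
    (a : ℝ) (k : ℕ) : |∑ x, p x * f x - a| ^ k ≤ ∑ x, p x * |f x - a| ^ k := by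
  refine le_trans (pow_le_pow_left₀ (abs_nonneg _) ?_ k) (Real.pow_arith_mean_le_arith_mean_pow
    Finset.univ p (fun x => |f x - a|) (fun x _ => h0 x) h1 (fun x _ => abs_nonneg _) k)
  rw [show ∑ x, p x * f x - a = ∑ x, p x * (f x - a) by
    simp only [mul_sub, Finset.sum_sub_distrib, ← Finset.sum_mul, h1, one_mul]]
  refine (Finset.abs_sum_le_sum_abs _ _).trans_eq (Finset.sum_congr rfl fun x _ => ?_)
  rw [abs_mul, abs_of_nonneg (h0 x)]

theorem jensen_two {p p' : Ω → ℝ} (h0 : ∀ x, 0 ≤ p x) (h1 : ∑ x, p x = 1) (h0' : ∀ x, 0 ≤ p' x)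
    (h1' : ∑ x, p' x = 1) (K : Ω → Ω → ℝ) (a : ℝ) (k : ℕ) :
    |∑ x, p' x * ∑ y, p y * K x y - a| ^ k ≤ ∑ x, p' x * ∑ y, p y * |K x y - a| ^ k :=
  (jensen_abs h0' h1' a k).trans (Finset.sum_le_sum fun x _ =>
    mul_le_mul_of_nonneg_left (jensen_abs h0 h1 a k) (h0' x))

theorem qf_eq (p : Ω → ℝ) (K : Ω → Ω → ℝ) : qf p K = ∑ x, p x * ∑ y, p y * K x y := by
  simp only [qf, Finset.mul_sum, mul_assoc]

/-- lower tail, from one state to a later state -/
theorem low_pt (hw : Wt w) {K : Ω → Ω → ℝ} (hs : ∀ x y, K x y = K y x) (hK : ∀ c, 0 ≤ qf c K)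
    {p : Ω → ℝ} (h0 : ∀ x, 0 ≤ p x) (h1 : ∑ x, p x = 1) (N : List (Lv Ω)) (z : Ω → ℝ) {a e : ℝ}
    (he : 0 < e) (k : ℕ) {χ : ℝ → ℝ} (hχ : ∀ u, χ u ≤ 1) (hχ0 : ∀ u, a - 2 * e ≤ u → χ u ≤ 0) :
    qf (P w N z) (fun x y => χ (K x y)) ≤ 1 / e ^ 2 * cv w N K z + ((3 / e) ^ k *
      ∑ x, P w N z x * ∑ y, p y * |K x y - a| ^ k + (3 / e) ^ k * qf p fun x y => |K x y - a| ^ k) := by
  have h0' := P_nonneg hw N z
  have h1' := sum_P hw N z
  have j1 := jensen_two h0 h1 h0' h1' K a k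
  have j2 := jensen_two h0 h1 h0 h1 K a k
  rw [← qf_eq, ← qf_eq] at j2
  have hc := cv_nonneg hw N K z
  have n1 := (pow_nonneg (abs_nonneg _) k).trans j1
  have n2 := (pow_nonneg (abs_nonneg _) k).trans j2
  rcases le_or_gt (a - e) (qf (P w N z) K) with h | h
  · refine le_trans ?_ (le_add_of_nonneg_right (by positivity))
    rw [← cv_eq hw, Tay38.pi2_zero38, ← qf_const_mul]
    refine qf_mono h0' fun x y => ?_
    rcases le_or_gt (a - 2 * e) (K x y) with h2 | h2
    · exact (hχ0 _ h2).trans (by positivity)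
    · refine (hχ _).trans ?_
      rw [one_div, inv_mul_eq_div, one_le_div (by positivity)]
      nlinarith
  · refine le_trans ?_ (le_add_of_nonneg_left (by positivity))
    have h2 : qf (P w N z) (fun x y => χ (K x y)) ≤ 1 :=
      (qf_mono h0' fun x y => hχ _).trans_eq (qf_const h1' 1)
    have h3 := hK fun x => P w N z x - p x
    have h4 : qf (fun x => P w N z x - p x) K =
        qf (P w N z) K - 2 * (∑ x, P w N z x * ∑ y, p y * K x y) + qf p K := by
      have : ∑ x, ∑ y, p x * P w N z y * K x y = ∑ x, ∑ y, P w N z x * p y * K x y :=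
        Finset.sum_comm.trans (Finset.sum_congr rfl fun x _ => Finset.sum_congr rfl fun y _ => by
          rw [hs y x]; ring)
      simp only [qf, sub_mul, mul_sub, Finset.sum_sub_distrib, this, Finset.mul_sum, ← mul_assoc,
        two_mul, Finset.sum_add_distrib, add_mul]
      ring
    set Y := ∑ x, P w N z x * ∑ y, p y * K x y
    have h5 : ∀ u : ℝ, e / 3 ≤ u → 1 ≤ (3 / e) ^ k * u ^ k := fun u hu => by
      rw [← mul_pow]
      refine one_le_pow₀ ?_
      rw [div_mul_eq_mul_div, one_le_div he]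
      linarith
    have h6 : (0 : ℝ) ≤ (3 / e) ^ k := by positivity
    rcases le_or_gt (e / 3) |Y - a| with h7 | h7
    · have := (h5 _ h7).trans (mul_le_mul_of_nonneg_left j1 h6)
      have := mul_nonneg h6 n2
      linarith
    · have h8 : e / 3 ≤ |qf p K - a| := by
        have := (abs_lt.1 h7).1
        exact le_trans (by linarith) (le_abs_self _)
      have := (h5 _ h8).trans (mul_le_mul_of_nonneg_left j2 h6)
      have := mul_nonneg h6 n1
      linarith

/-- **lower tail at the split `s` from the moments at an earlier split `j`** -/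
theorem low_tail (hw : Wt w) {K : Ω → Ω → ℝ} (hs : ∀ x y, K x y = K y x) (hK : ∀ c, 0 ≤ qf c K)
    (L : List (Lv Ω)) (h : Ω → ℝ) {j s : ℕ} (hjs : j ≤ s) {a e : ℝ} (he : 0 < e) (k : ℕ)
    {χ : ℝ → ℝ} (hχ : ∀ u, χ u ≤ 1) (hχ0 : ∀ u, a - 2 * e ≤ u → χ u ≤ 0) :
    pi2 w L s (fun x y => χ (K x y)) h ≤
      pv w L s K h / e ^ 2 + 2 * (3 / e) ^ k * pi2 w L j (fun x y => |K x y - a| ^ k) h := by
  obtain ⟨i, rfl⟩ := Nat.exists_eq_add_of_le hjs
  have e1 := eg_qf hw (L.drop (j + i)) fun x y => χ (K x y)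
  have e2 := eg_cv hw (L.drop (j + i)) K
  have e3 := eg_qf hw (L.drop j) fun x y => |K x y - a| ^ k
  have nn : ∀ Φ, node w L (j + i) Φ = node w L j (node w (L.drop j) i Φ) := fun Φ => by
    rw [node_node, add_comm]
  rw [pi2, pv, pi2, nn, nn, div_eq_inv_mul, ← congrFun (node_const_mul _ _ _ _ _) h,
    ← congrFun (node_const_mul _ _ _ _ _) h, ← congrFun (node_add hw
      ((e2.node hw _ _).const_mul _) (e3.const_mul _) _ _) h]
  refine node_mono hw (e1.node hw _ _) (((e2.node hw _ _).const_mul _).add (e3.const_mul _))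
    (fun z => ?_) L j h
  have e4 : Eg fun z' => ∑ x, P w (L.drop (j + i)) z' x *
      ∑ y, P w (L.drop j) z y * |K x y - a| ^ k :=
    Eg.sum _ fun x _ => (eg_P hw _ x).mul_const _
  refine (node_mono hw e1 ((e2.const_mul _).add ((e4.const_mul _).add (Eg.const _)))
    (fun z' => low_pt hw hs hK (P_nonneg hw (L.drop j) z) (sum_P hw _ z) _ z' he k hχ hχ0)
    (L.drop j) i z).trans_eq ?_
  rw [node_add hw (e2.const_mul _) ((e4.const_mul _).add (Eg.const _)),
    node_add hw (e4.const_mul _) (Eg.const _), node_const hw, node_const_mul, node_const_mul]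
  have := node_sum_P hw (fun x => ∑ y, P w (L.drop j) z y * |K x y - a| ^ k) (L.drop j) i z
  rw [List.drop_drop] at this
  simp only [this, ← qf_eq]
  ring

end gen

variable {n : ℕ} {β : ℝ} {M : List (ℝ × ℝ × ℝ)} {q : ℕ → ℝ}

/-- `Γ_s` of the site cascade -/
def Gs (n : ℕ) (β : ℝ) (M : List (ℝ × ℝ × ℝ)) (q : ℕ → ℝ) (s : ℕ) : ℝ :=
  pi2 (fun _ => 1) (opS n β M q) s (fun a b => spin a * spin b) 0

/-- `E f (R)` at the split `s` of the `n`-system -/
def Er (n : ℕ) (β : ℝ) (M : List (ℝ × ℝ × ℝ)) (s : ℕ) (f : ℝ → ℝ) : ℝ :=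
  pi2 (fun _ => 1) (M.map (mxL n β)) s (fun x y => f (ov x y)) 0

/-- the constant of one step -/
def cE (n : ℕ) (β : ℝ) (M : List (ℝ × ℝ × ℝ)) : ℝ :=
  3 * oTau n β M M.length * exp (216 * oTau n β M M.length)

theorem abs_ee_ov (a b : Bool) (x y : Cube n) : |spin a * spin b - ov x y| ≤ 2 := by
  refine (abs_sub _ _).trans ?_
  rw [OneP.abs_spin2]
  linarith [abs_ov_le x y]

/-- **(Sym) with a Lipschitz test** -/
theorem sym_test (hn : 0 < n) (H : OOk M q) (s : ℕ) {g : ℝ → ℝ} {Lg : ℝ}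
    (hg : ∀ u v, |g u - g v| ≤ Lg * |u - v|) :
    |TE (fun _ => 1) (Sh.two s) (op n β M q 1) 0 (pr2 s fun x y =>
      g (ov x.1 y.1) * (spin x.2 * spin y.2 - ov x.1 y.1))| ≤ 4 * Lg / n := by
  have h1 := sym_one (β := β) hn H (Sh.two s) (fun r => g (r (Sh.twoL s) (Sh.twoR s)))
    (Sh.twoL s) (Sh.twoR s)
  have hL : 0 ≤ Lg := by
    have := (abs_nonneg _).trans (hg 1 0)
    simpa using this
  have hn' : (0 : ℝ) < n := Nat.cast_pos.2 hn
  rw [← sub_zero (TE _ _ _ _ _), ← h1, ← Law.TE_sub wt_one90]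
  refine (abs_TE_le' wt_one90 _ _ _ (F' := fun _ => 4 * Lg / n) fun x => ?_).trans_eq
    (Law.TE_const wt_one90 _ _ _ _)
  simp only [pr2]
  set a := x (Sh.twoL s)
  set b := x (Sh.twoR s)
  have h2 := abs_ee_ov a.2 b.2 a.1 b.1
  have h3 : |ov a.1 b.1 - ov1 a b| ≤ 2 / n := by
    have : ov a.1 b.1 - ov1 a b = -(spin a.2 * spin b.2 - ov a.1 b.1) / (n + 1) := by
      rw [ov1]; field_simp; ring
    rw [this, abs_div, abs_neg, abs_of_pos (by positivity : (0 : ℝ) < n + 1)]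
    exact div_le_div₀ zero_le_two h2 hn' (by linarith)
  rw [← sub_mul, abs_mul]
  calc _ ≤ Lg * (2 / n) * 2 := mul_le_mul ((hg _ _).trans (mul_le_mul_of_nonneg_left h3 hL)) h2
        (abs_nonneg _) (by positivity)
    _ = _ := by ring

/-- **the cavity identity at order zero, tested** -/
theorem zero_test (hn : 0 < n) (H : OOk M q) (hM : Mono 0 (M.map (mxL n β))) (s : ℕ) {g : ℝ → ℝ}
    {Lg : ℝ} (hg0 : ∀ u, 0 ≤ g u) (hg : ∀ u v, |g u - g v| ≤ Lg * |u - v|) :
    |Gs n β M q s * Er n β M s g - Er n β M s fun u => g u * u| ≤ 4 * Lg / n +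
      cE n β M * sg 1 (M.map (mxL n β)) (Sh.two s) fun τ => TE (fun _ => 1) τ.sh (M.map (mxL n β)) 0
        (τ.ev (fun j x y => |ov x y - q j|) (pr2 s fun x y => g (ov x y))) := by
  set F : ((Sh.two s).Lf → Cube n × Bool) → ℝ := pr2 s fun x y =>
    g (ov x.1 y.1) * (spin x.2 * spin y.2 - ov x.1 y.1) with hF
  set R := sg 1 (M.map (mxL n β)) (Sh.two s) fun τ => TE (fun _ => 1) τ.sh (M.map (mxL n β)) 0
    (τ.ev (fun j x y => |ov x y - q j|) (pr2 s fun x y => g (ov x y)))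
  have h1 := taylor_ipl wt_one90 (opL n β M q) 0 (iD_op_diag hn H) (Sh.two s) F
    ⟨zero_le_one, le_rfl⟩ 0
  have h2 : iDn (fun _ => 1) (opL n β M q) 0 0 (Sh.two s) F 0 =
      Gs n β M q s * Er n β M s g - Er n β M s fun u => g u * u := by
    rw [hF, iDn_pr2 wt_one90]
    have a1 := pi2_op_zero (β := β) hn H 0 0 s (fun x y => g (ov x y)) fun a b => spin a * spin b
    have a2 := pi2_op_zero (β := β) hn H 0 0 s (fun x y => g (ov x y) * ov x y) fun _ _ => 1
    rw [Law.ad_zero] at a1 a2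
    rw [pi2_const wt_one90] at a2
    simp only [mul_one] at a2
    simp only [mul_sub, pi2_sub wt_one90]
    rw [Gs, Er, Er, mul_comm, ← a1, ← a2]
    rfl
  have h3 : ∀ θ ∈ Icc (0 : ℝ) 1, |iDn (fun _ => 1) (opL n β M q) 0 1 (Sh.two s) F θ| ≤
      cE n β M * R := fun θ hθ => by
    refine (abs_iDn_op_le hn H hM hθ (N := 4) (by rw [Wt87.card_two])
      (G := pr2 s fun x y => 2 * g (ov x y)) fun x => ?_).trans ?_
    · simp only [hF, pr2]
      rw [abs_mul, abs_of_nonneg (hg0 _), mul_comm]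
      exact mul_le_mul_of_nonneg_right (abs_ee_ov _ _ _ _) (hg0 _)
    · rw [cE, mul_comm (3 * _), mul_assoc]
      refine mul_le_mul (le_of_eq (by congr 1; push_cast; ring)) ?_ ?_ (exp_pos _).le
      · rw [← sg_const_mul]
        refine sg_mono zero_le_one hM _ fun τ _ => ?_
        rw [← Law.TE_const_mul wt_one90]
        refine Law.TE_mono wt_one90 _ _ _ fun x => ?_
        simp only [GT.ev, pr2, oU]
        have := mul_le_mul_of_nonneg_right (H.oTau_le n β τ.j).2 (mul_nonneg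
          (hg0 (ov (x (τ.e (Sh.twoL s))) (x (τ.e (Sh.twoR s)))))
          (abs_nonneg (ov (x τ.p) (x τ.q) - q τ.j)))
        linarith
      · refine sg_nonneg zero_le_one hM _ fun τ _ => ?_
        refine (Law.TE_const wt_one90 _ _ _ 0).symm.trans_le (Law.TE_mono wt_one90 _ _ _ fun x => ?_)
        have := (H.oTau_le n β τ.j).1
        have := hg0 (ov (x (τ.e (Sh.twoL s))) (x (τ.e (Sh.twoR s))))
        simp only [GT.ev, pr2]
        positivity
  have h4 := intervalIntegral.norm_integral_le_of_norm_le_const (a := 0) (b := 1)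
    (f := fun t => iDn (fun _ => 1) (opL n β M q) 0 1 (Sh.two s) F t) (C := cE n β M * R)
    fun t ht => h3 t (by rw [uIoc_of_le zero_le_one] at ht; exact ⟨ht.1.le, ht.2⟩)
  have h5 := sym_test (β := β) hn H s hg
  simp only [zero_add, Finset.range_one, Finset.sum_singleton, pow_zero, mul_one,
    Nat.factorial_zero, Nat.cast_one, div_one, h2] at h1
  rw [sub_zero, abs_one, mul_one, Real.norm_eq_abs] at h4
  rw [← hF, op, h1] at h5
  rw [abs_le] at h4 h5 ⊢
  constructor <;> linarith [h4.1, h4.2, h5.1, h5.2]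

/-- the tails on the right of **apt** -/
def tl (n : ℕ) (β : ℝ) (M : List (ℝ × ℝ × ℝ)) (q : ℕ → ℝ) (s p : ℕ) (δ : ℝ) : ℝ :=
  8 * pv (fun _ => 1) (M.map (mxL n β)) s ov 0 / δ + (∑ j ∈ Finset.range (M.length + 1),
    dm (M.map (mxL n β)) 0 j * Er n β M j fun u => |u - q j| ^ (p + 1)) / δ ^ p

theorem cE_nonneg (H : OOk M q) : 0 ≤ cE n β M := by
  have := (H.oTau_le n β M.length).1
  rw [cE]; positivity

/-- **(APT)**, bins -/
theorem apt (hn : 0 < n) (hM : Mono 0 (M.map (mxL n β))) {s : ℕ} (hs : s < M.length)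
    (h0 : dm (M.map (mxL n β)) 0 s = 0) {ι : Type} {I : Finset ι} {qq : ι → ℕ → ℝ}
    {g : ι → ℝ → ℝ} {wd δ Lg : ℝ} (H : OOk M q) (HI : ∀ i ∈ I, OOk M (qq i))
    (B : Bins (M.map (mxL n β)) s q I qq g wd)
    (hg : ∀ i ∈ I, ∀ u v, |g i u - g i v| ≤ Lg * |u - v|) (hδ : 0 < δ) (p : ℕ) :
    ∑ i ∈ I, (|Gs n β M (qq i) s - qq i s| - wd - 16 * cE n β M * (δ + wd)) * Er n β M s (g i) ≤
      40 * cE n β M * tl n β M q s p δ + I.card * (4 * Lg / n) := by
  have h1 := edge_bins wt_one90 hM (by rwa [List.length_map]) h0 (K := ov) abs_ov_le B hδ p 0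
  have hc := cE_nonneg (n := n) (β := β) H
  have h2 : ∀ i ∈ I, (|Gs n β M (qq i) s - qq i s| - wd) * Er n β M s (g i) ≤ 4 * Lg / n +
      cE n β M * sg 1 (M.map (mxL n β)) (Sh.two s) fun τ => TE (fun _ => 1) τ.sh (M.map (mxL n β)) 0
        (τ.ev (fun j x y => |ov x y - qq i j|) (pr2 s fun x y => g i (ov x y))) := fun i hi => by
    refine le_trans ?_ (zero_test hn (HI i hi) hM s (B.g0 i hi) (hg i hi))
    have e0 : 0 ≤ Er n β M s (g i) := pi2_nonneg wt_one90 _ _ (fun _ _ => B.g0 i hi _) _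
    have e1 : Er n β M s (fun u => g i u * u) =
        qq i s * Er n β M s (g i) + Er n β M s fun u => g i u * (u - qq i s) := by
      rw [Er, Er, Er, ← pi2_const_mul, ← pi2_add wt_one90]
      congr 1
      funext x y
      ring
    have pt : ∀ u, |g i u * (u - qq i s)| ≤ wd * g i u := fun u => by
      by_cases e : g i u = 0
      · rw [e, zero_mul, abs_zero, mul_zero]
      · rw [abs_mul, abs_of_nonneg (B.g0 i hi u), mul_comm]
        exact mul_le_mul_of_nonneg_right (B.supp i hi u e) (B.g0 i hi u)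
    have e2 : |Er n β M s fun u => g i u * (u - qq i s)| ≤ wd * Er n β M s (g i) := by
      rw [Er, Er, ← pi2_const_mul, ← Wt87.tX_two wt_one90, ← Wt87.tX_two wt_one90]
      exact abs_TE_le' wt_one90 _ _ _ fun x => pt _
    rw [e1, show ∀ a b c d : ℝ, a * b - (c * b + d) = (a - c) * b - d from fun _ _ _ _ => by ring]
    have := abs_sub_abs_le_abs_sub ((Gs n β M (qq i) s - qq i s) * Er n β M s (g i))
      (Er n β M s fun u => g i u * (u - qq i s))
    rw [abs_mul, abs_of_nonneg e0] at this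
    linarith
  have h3 := Finset.sum_le_sum h2
  rw [Finset.sum_add_distrib, Finset.sum_const, nsmul_eq_mul, ← Finset.mul_sum] at h3
  have h4 := mul_le_mul_of_nonneg_left h1 hc
  rw [List.length_map] at h4
  simp only [sub_mul _ (16 * cE n β M * (δ + wd)), Finset.sum_sub_distrib, ← Finset.mul_sum]
  simp only [tl, Er] at h3 ⊢
  linarith

/-! ### hats on a grid -/

/-- the hat of half-width `d` at `r` -/
def hat (d r u : ℝ) : ℝ := max 0 (1 - |u - r| / d)

theorem hat_nonneg (d r u : ℝ) : 0 ≤ hat d r u := le_max_left _ _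

theorem hat_lip {d : ℝ} (hd : 0 < d) (r u v : ℝ) : |hat d r u - hat d r v| ≤ 1 / d * |u - v| := by
  rw [hat, hat, max_comm 0, max_comm 0]
  refine (abs_max_sub_max_le_abs _ _ _).trans ?_
  rw [sub_sub_sub_cancel_left, ← sub_div, abs_div, abs_of_pos hd, one_div, ← div_eq_inv_mul]
  refine div_le_div_of_nonneg_right ((abs_abs_sub_abs_le_abs_sub _ _).trans_eq ?_) hd.le
  rw [sub_sub_sub_cancel_right, abs_sub_comm]

theorem hat_supp {d : ℝ} (hd : 0 < d) {r u : ℝ} (h : hat d r u ≠ 0) : |u - r| < d := by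
  by_contra hc
  refine h (max_eq_left ?_)
  rw [sub_nonpos, one_le_div hd]
  exact not_lt.1 hc

theorem hat_two {d : ℝ} (hd : 0 < d) (u : ℝ) :
    hat d (⌊u / d⌋ * d) u + hat d ((⌊u / d⌋ + 1 : ℤ) * d) u = 1 := by
  have h1 := (le_div_iff₀ hd).1 (Int.floor_le (u / d))
  have h2 := (div_lt_iff₀ hd).1 (Int.lt_floor_add_one (u / d))
  push_cast
  rw [hat, hat, abs_of_nonneg (by linarith), abs_of_nonpos (by linarith), max_eq_right, max_eq_right]
  · field_simp; ring
  · rw [sub_nonneg, div_le_one hd]; linarith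
  · rw [sub_nonneg, div_le_one hd]; linarith

theorem hat_zero {d : ℝ} (hd : 0 < d) (u : ℝ) {k : ℤ} (h1 : k ≠ ⌊u / d⌋) (h2 : k ≠ ⌊u / d⌋ + 1) :
    hat d (k * d) u = 0 := by
  by_contra hc
  have h := abs_lt.1 (hat_supp hd hc)
  have h3 : (k : ℝ) - 1 < u / d := by rw [lt_div_iff₀ hd]; linarith [h.1]
  have h4 : u / d < k + 1 := by rw [div_lt_iff₀ hd]; linarith [h.2]
  have h5 : k - 1 ≤ ⌊u / d⌋ := Int.le_floor.2 (by push_cast; exact h3.le)
  have h6 : ⌊u / d⌋ < k + 1 := Int.floor_lt.2 (by push_cast; exact h4)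
  omega

theorem sum_le_of_ne {I J : Finset ℤ} {f : ℤ → ℝ} (h0 : ∀ k, 0 ≤ f k)
    (h : ∀ k ∈ I, f k ≠ 0 → k ∈ J) : ∑ k ∈ I, f k ≤ ∑ k ∈ J, f k := by
  classical
  rw [← Finset.sum_filter_ne_zero I]
  exact Finset.sum_le_sum_of_subset_of_nonneg
    (fun k hk => h k (Finset.mem_filter.1 hk).1 (Finset.mem_filter.1 hk).2) fun k _ _ => h0 k

theorem sum_hat_le {d : ℝ} (hd : 0 < d) (I : Finset ℤ) (u : ℝ) :
    ∑ k ∈ I, hat d (k * d) u ≤ 1 := by
  classical
  rw [← hat_two hd u, ← Finset.sum_pair (f := fun k : ℤ => hat d (k * d) u)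
    (show ⌊u / d⌋ ≠ ⌊u / d⌋ + 1 by omega)]
  refine sum_le_of_ne (fun k => hat_nonneg _ _ _) fun k _ hk => ?_
  by_contra hc
  simp only [Finset.mem_insert, Finset.mem_singleton, not_or] at hc
  exact hk (hat_zero hd u hc.1 hc.2)

theorem one_le_sum_hat {d : ℝ} (hd : 0 < d) {I : Finset ℤ} {u : ℝ}
    (h : ∀ k : ℤ, |u - k * d| < d → k ∈ I) : 1 ≤ ∑ k ∈ I, hat d (k * d) u := by
  classical
  rw [← hat_two hd u, ← Finset.sum_pair (f := fun k : ℤ => hat d (k * d) u)
    (show ⌊u / d⌋ ≠ ⌊u / d⌋ + 1 by omega)]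
  exact sum_le_of_ne (fun k => hat_nonneg _ _ _) fun k _ hk => h k (hat_supp hd hk)

/-- the reference with the value `r` on the nodes `k0 ≤ j < K` -/
def qr (K k0 : ℕ) (q : ℕ → ℝ) (r : ℝ) (j : ℕ) : ℝ := if k0 ≤ j ∧ j < K then r else q j

theorem ook_qr (H : OOk M q) {k0 : ℕ} {r : ℝ} (h1 : q k0 ≤ r) (h2 : r ≤ 1) :
    OOk M (qr M.length (k0 + 1) q r) := by
  refine ⟨H.nn, ?_, fun j hj => ?_, ?_⟩
  · rw [qr, if_neg (by omega)]; exact H.q0
  · simp only [qr]
    split_ifs with c1 c2 c2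
    · exact le_rfl
    · rw [show j + 1 = M.length by omega, H.top]; exact h2
    · rw [show j = k0 by omega]; exact h1
    · exact H.mono j hj
  · rw [qr, if_neg (by omega), H.top]

/-- **(APT)**: the nodes `k0 < j < K` carry no weight, `s` is one of them; the site overlap at
`s` for the reference value `r` is far from `r` unless `r` is near `c`.  With `d = 1 / D`, for
every `χ ≤ 1` vanishing near `c` and below `q k0 - d`. -/
theorem apt_tail (hn : 0 < n) (hM : Mono 0 (M.map (mxL n β))) (H : OOk M q) {k0 s : ℕ}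
    (hk : k0 < s) (hs : s < M.length)
    (h0 : ∀ j, k0 < j → j < M.length → dm (M.map (mxL n β)) 0 j = 0) {c θ ξ ε δ : ℝ} {D : ℕ}
    (hD : 0 < D) (hθ : 0 ≤ θ)
    (hsl : ∀ r, q k0 ≤ r → r ≤ 1 → θ * |r - c| - ξ ≤ |Gs n β M (qr M.length (k0 + 1) q r) s - r|)
    (hδ : 0 < δ) (p : ℕ) {χ : ℝ → ℝ} (hχ : ∀ u, χ u ≤ 1)
    (hχ0 : ∀ u, u ≤ 1 → (|u - c| ≤ ε ∨ u < q k0 - 1 / D) → χ u ≤ 0) {γ : ℝ} (hγ0 : 0 ≤ γ)
    (hγ : γ ≤ θ * (ε - 3 / D) - ξ - 3 / D - 16 * cE n β M * (δ + 3 / D)) :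
    γ * Er n β M s χ ≤ 40 * cE n β M * tl n β M q s p δ + 4 * (D + 3) * D / n := by
  classical
  have hD' : (0 : ℝ) < D := Nat.cast_pos.2 hD
  rw [show (3 : ℝ) / D = 3 * (1 / D) by ring] at hγ
  set d : ℝ := 1 / D with hd'
  have hd : 0 < d := by positivity
  have hq0 := H.mem (hk.trans hs).le
  set r : ℤ → ℝ := fun k => max (k * d) (q k0) with hr
  set I : Finset ℤ := (Finset.Icc (-2 : ℤ) D).filter fun k =>
    q k0 - 2 * d ≤ k * d ∧ ε - 3 * d ≤ |r k - c|
  have hI : ∀ k ∈ I, (q k0 ≤ r k ∧ r k ≤ 1) ∧ ε - 3 * d ≤ |r k - c| := fun k hk => by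
    obtain ⟨h1, h2⟩ := Finset.mem_filter.1 hk
    refine ⟨⟨le_max_right _ _, max_le ?_ hq0.2⟩, h2.2⟩
    have : (k : ℝ) ≤ D := by exact_mod_cast (Finset.mem_Icc.1 h1).2
    rw [hd', mul_one_div, div_le_one hD']
    exact this
  have hn3 : ∀ (k : ℤ) u, q k0 - 2 * d ≤ k * d → |u - k * d| < d → |u - r k| ≤ 3 * d :=
    fun k u h1 h2 => by
      have h3 := abs_lt.1 h2
      have h4 : k * d ≤ r k := le_max_left _ _
      have h5 : r k ≤ k * d + 2 * d := max_le (by linarith) (by linarith)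
      exact abs_le.2 ⟨by linarith [h3.1], by linarith [h3.2]⟩
  have hq : ∀ r, qr M.length (k0 + 1) q r s = r := fun r => if_pos ⟨hk, hs⟩
  have hO : ∀ k ∈ I, OOk M (qr M.length (k0 + 1) q (r k)) := fun k hk' =>
    ook_qr H (hI k hk').1.1 (hI k hk').1.2
  have B : Bins (M.map (mxL n β)) s q I (fun k => qr M.length (k0 + 1) q (r k))
      (fun k => hat d (k * d)) (3 * d) :=
    ⟨by positivity, fun k hk' j hj => (hO k hk').mem (by rwa [List.length_map] at hj),
      fun k _ j _ hj => if_neg fun e => hj (h0 j e.1 e.2), fun k _ u => hat_nonneg _ _ _,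
      sum_hat_le hd I, fun k hk' u hu => by
        rw [hq]; exact hn3 k u (Finset.mem_filter.1 hk').2.1 (hat_supp hd hu)⟩
  have h1 := apt hn hM hs (h0 s hk hs) H hO B (fun k _ => hat_lip hd _) hδ p
  have h2 : γ * Er n β M s χ ≤ ∑ k ∈ I, γ * Er n β M s (hat d (k * d)) := by
    rw [← Finset.mul_sum]
    refine mul_le_mul_of_nonneg_left ?_ hγ0
    simp only [Er]
    rw [← pi2_sum wt_one90]
    refine pi2_mono wt_one90 _ _ (fun x y => ?_) _
    have hu := (abs_le.1 (abs_ov_le x y)).2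
    by_cases e : |ov x y - c| ≤ ε ∨ ov x y < q k0 - d
    · exact (hχ0 _ hu e).trans (Finset.sum_nonneg fun k _ => hat_nonneg _ _ _)
    · push Not at e
      refine (hχ _).trans (one_le_sum_hat hd fun k hk' => ?_)
      have h3 := abs_lt.1 hk'
      have h5 : (-2 : ℝ) * d < k * d := by linarith [hq0.1]
      have h6 : (k : ℝ) * d < (D + 1) * d := by
        rw [add_mul, hd', mul_one_div_cancel hD'.ne', ← hd']; linarith
      have h7 := abs_sub_le (ov x y) (r k) c
      have h8 := hn3 k _ (by linarith) hk'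
      refine Finset.mem_filter.2 ⟨Finset.mem_Icc.2 ⟨?_, ?_⟩, by linarith, by linarith⟩
      · exact_mod_cast (lt_of_mul_lt_mul_right h5 hd.le).le
      · have : (k : ℝ) < D + 1 := lt_of_mul_lt_mul_right h6 hd.le
        have : k < D + 1 := by exact_mod_cast this
        omega
  refine h2.trans ((Finset.sum_le_sum fun k hk' => ?_).trans (h1.trans (add_le_add le_rfl ?_)))
  · refine mul_le_mul_of_nonneg_right ?_ (pi2_nonneg wt_one90 _ _ (fun _ _ => hat_nonneg _ _ _) _)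
    have h3 := hsl _ (hI k hk').1.1 (hI k hk').1.2
    have h4 := mul_le_mul_of_nonneg_left (hI k hk').2 hθ
    simp only [hq]
    linarith
  · have h3 : (I.card : ℝ) ≤ D + 3 := by
      have := Finset.card_filter_le (Finset.Icc (-2 : ℤ) D)
        fun k => q k0 - 2 * d ≤ k * d ∧ ε - 3 * d ≤ |r k - c|
      rw [Int.card_Icc] at this
      have : I.card ≤ D + 3 := this.trans (by omega)
      exact_mod_cast this
    rw [hd', one_div_one_div]
    calc _ ≤ (D + 3) * (4 * D / n : ℝ) := mul_le_mul_of_nonneg_right h3 (by positivity)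
      _ = _ := by ring

theorem ov_comm (x y : Cube n) : ov x y = ov y x := by rw [ov, ov, dotProduct_comm]

theorem qf_ov (c : Cube n → ℝ) : 0 ≤ qf c ov := by
  have : qf c ov = (∑ i, (∑ x, c x * sv x i) ^ 2) / n := by
    simp only [qf, ov, dotProduct, sq, Finset.sum_mul_sum, Finset.sum_div]
    symm
    rw [Finset.sum_comm]
    refine Finset.sum_congr rfl fun x _ => ?_
    rw [Finset.sum_comm]
    refine Finset.sum_congr rfl fun y _ => ?_
    rw [Finset.mul_sum]
    exact Finset.sum_congr rfl fun i _ => by ring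
  rw [this]
  positivity

/-- the label moments -/
def mo (n : ℕ) (β : ℝ) (M : List (ℝ × ℝ × ℝ)) (q : ℕ → ℝ) (k : ℕ) : ℝ :=
  ∑ j ∈ Finset.range (M.length + 1), dm (M.map (mxL n β)) 0 j * Er n β M j fun u => |u - q j| ^ k

/-- lower tail at `s` from a set `J` of earlier nodes with `q j ≥ a` -/
theorem low_avg (hM : Mono 0 (M.map (mxL n β))) {s : ℕ} (hs : s ≤ M.length) {J : Finset ℕ}
    {a e : ℝ} (hJ : ∀ j ∈ J, j ≤ s ∧ a ≤ q j) (he : 0 < e) (k : ℕ) {χ : ℝ → ℝ} (hχ : ∀ u, χ u ≤ 1)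
    (hχ0 : ∀ u, a - 2 * e ≤ u → χ u ≤ 0) :
    (∑ j ∈ J, dm (M.map (mxL n β)) 0 j) * Er n β M s χ ≤
      pv (fun _ => 1) (M.map (mxL n β)) s ov 0 / e ^ 2 + 2 * (3 / e) ^ k * mo n β M q k := by
  have hp := pv_nonneg wt_one90 (M.map (mxL n β)) s ov 0
  have hsub : J ⊆ Finset.range (M.length + 1) := fun j hj =>
    Finset.mem_range.2 (Nat.lt_succ_of_le ((hJ j hj).1.trans hs))
  have h1 : ∑ j ∈ J, dm (M.map (mxL n β)) 0 j ≤ 1 := by
    refine (Finset.sum_le_sum_of_subset_of_nonneg hsub fun j _ _ => dm_nonneg hM j).trans ?_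
    rw [sum_dm, sub_zero]
    exact Tay38.ex_le_one hM _
  have h2 : ∑ j ∈ J, dm (M.map (mxL n β)) 0 j * Er n β M j (fun u => |u - q j| ^ k) ≤
      mo n β M q k := Finset.sum_le_sum_of_subset_of_nonneg hsub fun j _ _ =>
    mul_nonneg (dm_nonneg hM j) (pi2_nonneg wt_one90 _ _ (fun _ _ => by positivity) _)
  rw [Finset.sum_mul]
  refine (Finset.sum_le_sum fun j hj => mul_le_mul_of_nonneg_left (low_tail wt_one90 ov_comm qf_ov
    (M.map (mxL n β)) 0 (hJ j hj).1 (a := q j) he k hχ fun u hu =>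
      hχ0 u (by linarith [(hJ j hj).2])) (dm_nonneg hM j)).trans ?_
  simp only [mul_add, Finset.sum_add_distrib, ← Finset.sum_mul, mul_left_comm _ (2 * (3 / e) ^ k),
    ← Finset.mul_sum]
  exact add_le_add (mul_le_of_le_one_left (by positivity) h1)
    (mul_le_mul_of_nonneg_left h2 (by positivity))

/-- **(APT), both tails**: `J` is a set of nodes below `s` of mass at least `μ`, with
`q j ≥ q k0 - 1 / (2 D)` -/
theorem apt_full (hn : 0 < n) (hM : Mono 0 (M.map (mxL n β))) (H : OOk M q) {k0 s : ℕ}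
    (hk : k0 < s) (hs : s < M.length)
    (h0 : ∀ j, k0 < j → j < M.length → dm (M.map (mxL n β)) 0 j = 0) {c θ ξ ε δ : ℝ} {D : ℕ}
    (hD : 0 < D) (hθ : 0 ≤ θ)
    (hsl : ∀ r, q k0 ≤ r → r ≤ 1 → θ * |r - c| - ξ ≤ |Gs n β M (qr M.length (k0 + 1) q r) s - r|)
    (hδ : 0 < δ) (p : ℕ) {γ : ℝ} (hγ0 : 0 < γ)
    (hγ : γ ≤ θ * (ε - 3 / D) - ξ - 3 / D - 16 * cE n β M * (δ + 3 / D)) {J : Finset ℕ} {μ : ℝ}
    (hμ : 0 < μ) (hJ : ∀ j ∈ J, j ≤ s ∧ q k0 - 1 / (2 * D) ≤ q j)
    (hJμ : μ ≤ ∑ j ∈ J, dm (M.map (mxL n β)) 0 j) {χ : ℝ → ℝ} (hχ : ∀ u, χ u ≤ 1)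
    (hχ0 : ∀ u, |u - c| ≤ ε → χ u ≤ 0) :
    Er n β M s χ ≤ (40 * cE n β M * (8 * pv (fun _ => 1) (M.map (mxL n β)) s ov 0 / δ +
        mo n β M q (p + 1) / δ ^ p) + 4 * (D + 3) * D / n) / γ +
      (16 * D ^ 2 * pv (fun _ => 1) (M.map (mxL n β)) s ov 0 +
        2 * (12 * D) ^ (p + 1) * mo n β M q (p + 1)) / μ := by
  classical
  have hD' : (0 : ℝ) < D := Nat.cast_pos.2 hD
  have h1 := apt_tail hn hM H hk hs h0 hD hθ hsl hδ p
    (χ := fun u => if u < q k0 - 1 / D then 0 else χ u) (fun u => by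
      split_ifs; exacts [zero_le_one, hχ u]) (fun u _ hu => by
      split_ifs with c1
      · exact le_rfl
      · exact hχ0 u (hu.resolve_right c1)) hγ0.le hγ
  have h2 := low_avg (q := q) hM hs.le hJ (e := 1 / (4 * D)) (by positivity) (p + 1)
    (χ := fun u => if u < q k0 - 1 / D then 1 else 0) (fun u => by
      split_ifs; exacts [le_rfl, zero_le_one]) fun u hu => by
      rw [if_neg]
      have : (1 : ℝ) / D = 1 / (2 * D) + 2 * (1 / (4 * D)) := by field_simp; ring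
      linarith
  have h3 : Er n β M s χ ≤ Er n β M s (fun u => if u < q k0 - 1 / D then 0 else χ u) +
      Er n β M s fun u => if u < q k0 - 1 / D then 1 else 0 := by
    simp only [Er]
    rw [← pi2_add wt_one90]
    refine pi2_mono wt_one90 _ _ (fun x y => ?_) _
    split_ifs
    · rw [zero_add]; exact hχ _
    · rw [add_zero]
  have h4 : 0 ≤ Er n β M s fun u => if u < q k0 - 1 / D then 1 else 0 :=
    pi2_nonneg wt_one90 _ _ (fun _ _ => by beta_reduce; split_ifs; exacts [zero_le_one, le_rfl]) _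
  refine h3.trans (add_le_add ?_ ?_)
  · rw [le_div_iff₀ hγ0, mul_comm]
    exact h1
  · rw [le_div_iff₀ hμ, mul_comm]
    refine ((mul_le_mul_of_nonneg_right hJμ h4).trans h2).trans_eq ?_
    rw [show (3 : ℝ) / (1 / (4 * D)) = 12 * D by field_simp; ring]
    field_simp
    ring

end Crest.Agent.T156.Cas.Apt7
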