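import Crest.Agent.T156.CaLc_44

/-!
# Row 156, cascade frame: transport up to constants, increments (helper44)

`Tr`: two lists of levels whose covariances agree along a bijection up to additive constants have
the same values (up to an explicit constant), node laws and pair laws.
`inc`: a cascade `base + s · increment`; derivative and convexity in `s`.
-/

set_option autoImplicit false
set_option linter.unusedSectionVars false

noncomputable section

namespace Crest.Agent.T156.Cas.Ass44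

open MeasureTheory Real Set Filter Topology
open Crest.Agent.T157.E Crest.Agent.T157.Casc Crest.Agent.T157.SL
open Crest.Agent.T157.Casc.C (addLv coLv Same Lp)

variable {Ω Ω' α : Type} [Fintype Ω] [Fintype Ω'] {w : Ω → ℝ} {w' : Ω' → ℝ}

/-- same tilt, same covariance along `e` up to the constant `c ≥ 0` -/
structure Tc (e : Ω → Ω') (c : ℝ) (l : Lv Ω) (l' : Lv Ω') : Prop where
  m : l.m = l'.m
  nn : 0 ≤ c
  cov : ∀ x y, l.cov x y = l'.cov (e x) (e y) + c

/-- constant level -/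
abbrev kl (Ω : Type) (c m : ℝ) : Lv Ω := ⟨Unit, fun _ _ => √c, m⟩

/-- invariance under constant shifts of the state -/
def Inv (Φ : (Ω → ℝ) → ℝ) : Prop := ∀ z c, Φ (z + fun _ => c) = Φ z

section one
variable {e : Ω → Ω'} {c : ℝ} {l : Lv Ω} {l' : Lv Ω'} {F Φ : (Ω → ℝ) → ℝ} {F' : (Ω' → ℝ) → ℝ}

lemma Tc.same (H : Tc e c l l') : Same l (addLv (coLv e l') (kl Ω c l'.m)) :=
  ⟨H.m, by
    funext x y
    rw [C.addLv_cov, C.coLv_cov, H.cov]
    simp [Lv.cov, mul_self_sqrt H.nn]⟩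

lemma step_kl (hc : 0 ≤ c) (m : ℝ) (hF : ∀ z c, F (z + fun _ => c) = F z + c) :
    step (kl Ω c m) F = fun z => F z + m * c / 2 := by
  funext z
  rw [C.step_of_const (l := kl Ω c m) (a := fun _ => √c) (fun _ => rfl) hF]
  simp [mul_self_sqrt hc]

lemma fld_kl (c m : ℝ) (g : Unit → ℝ) : (kl Ω c m).fld g = fun _ => √c * g () := by
  funext x; simp [Lv.fld]

lemma tE_kl (c m : ℝ) (hF : Lp F) (hΦ : Inv Φ) : tE (kl Ω c m) F Φ = Φ := by
  funext z
  rw [← C.tE_one hF (kl Ω c m) (Φ z) z]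
  exact tE_congr _ _ _ fun g => by rw [fld_kl, hΦ]

lemma Tc.step (H : Tc e c l l') (hF : Lp F) (hF' : Lp F')
    (hc : ∀ z c, F (z + fun _ => c) = F z + c) {k : ℝ} (hk : ∀ h, F (fun x => h (e x)) = F' h + k)
    (h : Ω' → ℝ) : step l F (fun x => h (e x)) = step l' F' h + (k + l.m * c / 2) := by
  rw [H.same.step hF, C.step_addLv (l := coLv e l') (l' := kl Ω c l'.m) rfl hF, step_kl H.nn _ hc, H.m]
  have := (C.rel_co e l').step (F := fun z => F z + l'.m * c / 2) (c := k + l'.m * c / 2)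
    one_ne_zero (hF.meas.add_const _) hF' (fun h => by rw [hk]; ring) h
  rw [one_mul] at this
  exact this

lemma Tc.tE (H : Tc e c l l') (hF : Lp F) (hG : Lg F)
    (hc : ∀ z c, F (z + fun _ => c) = F z + c) {k : ℝ} (hk : ∀ h, F (fun x => h (e x)) = F' h + k)
    (hΦ : Eg Φ) (hI : Inv Φ) (h : Ω' → ℝ) :
    tE l F Φ (fun x => h (e x)) = tE l' F' (fun h' => Φ fun x => h' (e x)) h := by
  rw [H.same.tE hF.meas hΦ.cont.measurable,
    C.tE_addLv (l := coLv e l') (l' := kl Ω c l'.m) rfl hF _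
      (hG.int hΦ (addLv (coLv e l') (kl Ω c l'.m)) _), step_kl H.nn _ hc,
    tE_kl _ _ hF hI]
  exact (C.rel_co e l').tE (F := fun z => F z + l'.m * c / 2) (k := 1) (c := k + l'.m * c / 2)
    (hF.meas.add_const _) (fun h => by rw [hk]; ring) hΦ.cont.measurable h

lemma Inv.tE (hI : Inv Φ) (l : Lv Ω) (hc : ∀ z c, F (z + fun _ => c) = F z + c) :
    Inv (tE l F Φ) := fun z c => by
  simp only [T157.Casc.tE, add_right_comm z _, hc, hI _ c, mul_add, exp_add,
    mul_right_comm _ (exp (l.m * c)), integral_mul_const]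
  rw [mul_div_mul_right _ _ (exp_pos _).ne']

end one

lemma inv_node (hw : Wt w) {Φ : (Ω → ℝ) → ℝ} (hI : Inv Φ) :
    ∀ (L : List (Lv Ω)) (j : ℕ), Inv (node w L j Φ)
  | L, 0 => by rwa [C.node_zero]
  | [], _ + 1 => by rwa [C.node_nil]
  | l :: L, j + 1 => by
    rw [C.node_cons]; exact (inv_node hw hI L j).tE l (C.X_add_const hw L)

lemma inv_P (hw : Wt w) (x : Ω) : ∀ L : List (Lv Ω), Inv fun z => P w L z x
  | [] => fun z c => by
    simp only [P, prob, Pi.add_apply, exp_add, ← mul_assoc, ← Finset.sum_mul]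
    rw [mul_div_mul_right _ _ (exp_pos _).ne']
  | l :: L => (inv_P hw x L).tE l (C.X_add_const hw L)

lemma inv_qf (hw : Wt w) (L : List (Lv Ω)) (K : Ω → Ω → ℝ) : Inv fun z => qf (P w L z) K :=
  fun z c => by
    have : P w L (z + fun _ => c) = P w L z := funext fun x => inv_P hw x L z c
    simp only [this]

/-- two families of levels related by `Tc` -/
def Tr (e : Ω → Ω') (ℓ : List α) (c : α → ℝ) (f : α → Lv Ω) (f' : α → Lv Ω') : Prop :=
  ∀ p ∈ ℓ, Tc e (c p) (f p) (f' p)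

section tr
variable {c : α → ℝ} {f : α → Lv Ω} {f' : α → Lv Ω'}

/-- values; `e` is any map, `w'` the push-forward weight -/
theorem X_tr (hw : Wt w) {e : Ω → Ω'} : ∀ {ℓ : List α}, Tr e ℓ c f f' → ∀ h : Ω' → ℝ,
    X w (ℓ.map f) (fun x => h (e x)) =
      X (C.push e w) (ℓ.map f') h + (ℓ.map fun p => (f p).m * c p / 2).sum
  | [], _, h => by simpa using C.X_nil_co e w h
  | p :: ℓ, H, h => by
    have := (H p List.mem_cons_self).step (C.lp_X hw _) (C.lp_X (C.wt_push e hw) _)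
      (C.X_add_const hw _) (X_tr hw fun q hq => H q (List.mem_cons_of_mem _ hq)) h
    rw [List.map_cons, List.map_cons, List.map_cons, List.sum_cons, C.X_cons, C.X_cons, this]
    ring

theorem node_tr (hw : Wt w) {e : Ω → Ω'} {Φ : (Ω → ℝ) → ℝ} (hΦ : Eg Φ) (hI : Inv Φ) :
    ∀ {ℓ : List α}, Tr e ℓ c f f' → ∀ (j : ℕ) (h : Ω' → ℝ),
    node w (ℓ.map f) j Φ (fun x => h (e x)) =
      node (C.push e w) (ℓ.map f') j (fun h' => Φ fun x => h' (e x)) h
  | _, _, 0, h => by simp
  | [], _, _ + 1, h => by simp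
  | p :: ℓ, H, j + 1, h => by
    have H' : Tr e ℓ c f f' := fun q hq => H q (List.mem_cons_of_mem _ hq)
    rw [List.map_cons, List.map_cons, C.node_cons, C.node_cons,
      (H p List.mem_cons_self).tE (C.lp_X hw _) (lg_X hw _) (C.X_add_const hw _) (X_tr hw H')
        (hΦ.node hw _ j) (inv_node hw hI _ j) h]
    congr 1
    funext h'
    exact node_tr hw hΦ hI H' j h'

lemma Tr.drop {e : Ω → Ω'} {ℓ : List α} (H : Tr e ℓ c f f') (j : ℕ) : Tr e (ℓ.drop j) c f f' :=
  fun p hp => H p (List.mem_of_mem_drop hp)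

theorem P_tr (hw : Wt w) (e : Ω ≃ Ω') {ℓ : List α} (H : Tr e ℓ c f f') (h : Ω' → ℝ) (x : Ω) :
    P w (ℓ.map f) (fun x => h (e x)) x = P (fun y => w (e.symm y)) (ℓ.map f') h (e x) := by
  rw [C.P_eq_node w _ (ℓ.map f).length, C.P_eq_node _ (ℓ.map f') (ℓ.map f').length,
    List.drop_length, List.drop_length, node_tr hw (eg_P hw [] x) (inv_P hw x []) H, C.push_equiv,
    List.length_map, List.length_map]
  congr 1
  funext h'
  simp only [P, prob, Equiv.symm_apply_apply]
  rw [← e.sum_comp fun y => w (e.symm y) * exp (h' y)]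
  simp only [Equiv.symm_apply_apply]

theorem pi2_tr (hw : Wt w) (e : Ω ≃ Ω') {ℓ : List α} (H : Tr e ℓ c f f') (j : ℕ)
    (K : Ω' → Ω' → ℝ) (h : Ω' → ℝ) :
    pi2 w (ℓ.map f) j (fun x y => K (e x) (e y)) (fun x => h (e x)) =
      pi2 (fun y => w (e.symm y)) (ℓ.map f') j K h := by
  rw [pi2, pi2, node_tr hw (eg_qf hw _ _) (inv_qf hw _ _) H, C.push_equiv]
  congr 1
  funext h'
  rw [← List.map_drop, ← List.map_drop]
  simp only [qf, P_tr hw e (H.drop j)]
  rw [← e.sum_comp]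
  exact Finset.sum_congr rfl fun x _ => e.sum_comp fun y =>
    P (fun y => w (e.symm y)) ((ℓ.drop j).map f') h' (e x) *
      P (fun y => w (e.symm y)) ((ℓ.drop j).map f') h' y * K (e x) y

omit [Fintype Ω] [Fintype Ω'] in
lemma ex_map {ℓ : List α} (H : ∀ p ∈ ℓ, (f p).m = (f' p).m) (j : ℕ) :
    ex (ℓ.map f) j = ex (ℓ.map f') j := by
  simp only [ex, List.getElem?_map]
  cases h : ℓ[j]? with
  | none => rfl
  | some p => exact H p (List.mem_of_getElem? h)

omit [Fintype Ω] [Fintype Ω'] in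
lemma dm_map {ℓ : List α} (H : ∀ p ∈ ℓ, (f p).m = (f' p).m) (m0 : ℝ) (j : ℕ) :
    dm (ℓ.map f) m0 j = dm (ℓ.map f') m0 j := by
  cases j <;> simp only [dm, exP, ex_map H]

end tr

/-! ### increments -/

/-- amplitude multiplied by `s` -/
abbrev sc (s : ℝ) (l : Lv Ω) : Lv Ω := ⟨l.ι, fun x i => s * l.A x i, l.m⟩

omit [Fintype Ω] in
lemma cov_sc (s : ℝ) (l : Lv Ω) (x y : Ω) : (sc s l).cov x y = s ^ 2 * l.cov x y := by
  simp only [Lv.cov, Finset.mul_sum]
  exact Finset.sum_congr rfl fun i _ => by ring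

/-- `base + s · increment`, tilts of the base -/
def inc (ℓ : List α) (b k : α → Lv Ω) (s : ℝ) : List (Lv Ω) :=
  ℓ.map fun p => addLv (b p) (sc s (k p))

/-- the moving level -/
def incT (b k : Lv Ω) : TL Ω :=
  @TL.mk Ω (b.ι ⊕ k.ι) inferInstance (fun s x => Sum.elim (b.A x) fun i => s * k.A x i)
    (fun _ x => Sum.elim 0 (k.A x)) b.m

omit [Fintype Ω] in
lemma atL_inc (ℓ : List α) (b k : α → Lv Ω) (s : ℝ) :
    atL (ℓ.map fun p => incT (b p) (k p)) s = inc ℓ b k s := by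
  simp only [atL, inc, List.map_map]
  rfl

omit [Fintype Ω] in
lemma incT_S (b k : Lv Ω) (s : ℝ) (x y : Ω) : (incT b k).S s x y = s * k.cov x y := by
  show ∑ i : b.ι ⊕ k.ι, Sum.elim (0 : b.ι → ℝ) (k.A x) i * Sum.elim (b.A y) (fun i => s * k.A y i) i = _
  rw [Fintype.sum_sum_type, Lv.cov, Finset.mul_sum]
  simp only [Sum.elim_inl, Sum.elim_inr, Pi.zero_apply, zero_mul, Finset.sum_const_zero, zero_add]
  exact Finset.sum_congr rfl fun i _ => by ring

omit [Fintype Ω] in
lemma incT_c1 (b k : Lv Ω) : (incT b k).C1 univ :=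
  ⟨fun t _ x i => by
    rcases i with i | i
    · exact hasDerivAt_const _ _
    · exact (hasDerivAt_mul_const (k.A x i)), fun _ _ => continuousOn_const⟩

omit [Fintype Ω] in
lemma Sacc_inc (ℓ : List α) (b k : α → Lv Ω) (s : ℝ) (j : ℕ) :
    Sacc (ℓ.map fun p => incT (b p) (k p)) s j = fun x y => s * cacc (ℓ.map k) j x y := by
  funext x y
  simp only [Sacc, cacc, ← List.map_take, List.map_map, ← List.sum_map_mul_left]
  congr 2
  funext p
  exact incT_S _ _ _ _ _

/-- **derivative in the amplitude of the increment** -/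
theorem inc_der (hw : Wt w) (ℓ : List α) (b k : α → Lv Ω) (h : Ω → ℝ) (s : ℝ) :
    HasDerivAt (fun s => X w (inc ℓ b k s) h)
      (s * (Pf w (inc ℓ b k s) h (fun x => cacc (ℓ.map k) ℓ.length x x) -
        ∑ j ∈ Finset.range (ℓ.length + 1), dm (ℓ.map b) 0 j *
          pi2 w (inc ℓ b k s) j (cacc (ℓ.map k) j) h)) s := by
  have := hasDerivAt_X hw isOpen_univ (L := ℓ.map fun p => incT (b p) (k p))
    (fun l hl => by obtain ⟨p, -, rfl⟩ := List.mem_map.1 hl; exact incT_c1 _ _) (mem_univ s)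
    (b := fun _ => h) (b' := 0) fun x => hasDerivAt_const _ _
  simp only [atL_inc] at this
  refine this.congr_deriv ?_
  have e : ∀ j, dm (inc ℓ b k s) 0 j = dm (ℓ.map b) 0 j := fun j =>
    dm_map (f := fun p => addLv (b p) (sc s (k p))) (f' := b) (fun _ _ => rfl) 0 j
  have el : (inc ℓ b k s).length = ℓ.length := List.length_map _
  rw [DX, atL_inc, pair_eq_sum hw, el, mul_sub, Pf, Finset.mul_sum, Finset.mul_sum,
    List.length_map]
  simp only [Sacc_inc, pi2_const_mul, e, Pi.zero_apply, zero_add]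
  congr 1 <;> exact Finset.sum_congr rfl fun _ _ => by ring

/-- joint convexity in (state, amplitude of the increment) -/
theorem inc_convex (hw : Wt w) {ℓ : List α} {b : α → Lv Ω} (hb : ∀ p ∈ ℓ, 0 ≤ (b p).m)
    (k : α → Lv Ω) : ConvexOn ℝ univ fun p : (Ω → ℝ) × ℝ => X w (inc ℓ b k p.2) p.1 := by
  have := ampStmt Ω w hw (ℓ.map fun p => incT (b p) (k p)) fun l hl => by
    obtain ⟨p, hp, rfl⟩ := List.mem_map.1 hl
    refine ⟨hb p hp, fun t x i => ?_⟩
    rcases i with i | i <;> simp [incT]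
  simpa only [atL_inc] using this

theorem inc_zero (hw : Wt w) (ℓ : List α) (b k : α → Lv Ω) (h : Ω → ℝ) :
    X w (inc ℓ b k 0) h = X w (ℓ.map b) h := by
  have := X_tr hw (e := Equiv.refl Ω) (ℓ := ℓ) (c := fun _ => 0)
    (f := fun p => addLv (b p) (sc 0 (k p))) (f' := b)
    (fun p _ => ⟨rfl, le_rfl, fun x y => by rw [C.addLv_cov, cov_sc]; simp⟩) h
  rw [C.push_equiv] at this
  simpa [inc] using this

end Crest.Agent.T156.Cas.Ass44

end
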