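import Crest.Agent.T156.AssA_44
import Crest.Agent.T156.CaLink_33
import Crest.Agent.T156.SgnCas_69

/-!
# Row 156: the Aizenman–Sims–Starr split `V (n+1) - V n = A - B` in the cascade frame (helper44)

Levels are described by their covariances: tilt `m`, W-variance `d`, field variance `f`.
-/

set_option autoImplicit false
set_option linter.unusedSectionVars false

noncomputable section

namespace Crest.Agent.T156.Cas.Ass44

open MeasureTheory Real Set Filter Topology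
open Crest.Agent.T157.E Crest.Agent.T157.Casc Crest.Agent.T157.SL
open Crest.Agent.T157.Casc.C (addLv coLv Same Lp)
open Crest.Agent.T157.G1 (ov)
open Crest.ProbabilityR.SpinGlassDynamics (spin)

variable {α : Type} {n : ℕ}

/-- an SK level: tilt `m`, W-variance `d`, field variance `f` per site -/
structure Qd (n : ℕ) (β m d f : ℝ) (l : Lv (Cube n)) : Prop where
  m : l.m = m
  cov : ∀ x y, l.cov x y = d * (β ^ 2 * n / 2 * ov x y ^ 2) + f * (n * ov x y)

/-- the cavity site is `0` -/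
def rowE (n : ℕ) : Cube (n + 1) ≃ Cube n × Bool where
  toFun x := (fun i => x i.succ, x 0)
  invFun p := Fin.cons p.2 p.1
  left_inv x := Fin.cons_self_tail x
  right_inv _ := rfl

lemma ov_row (x y : Cube (n + 1)) : ((n : ℝ) + 1) * ov x y =
    n * ov (rowE n x).1 (rowE n y).1 + spin (rowE n x).2 * spin (rowE n y).2 := by
  have h := dot_eq x y
  rw [Nat.cast_succ, Fin.sum_univ_succ] at h
  rw [← h, ← dot_eq, add_comm]
  rfl

lemma wt_one {Ω : Type} [Fintype Ω] [Nonempty Ω] : Wt fun _ : Ω => (1 : ℝ) :=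
  ⟨fun _ => zero_le_one, by simp [Fintype.card_pos]⟩

/-- data of the split: `L1` on `n + 1` sites, `L0` on `n` sites, the common base `b`, the
increments `y` (no spin) and `z` (cavity field times cavity spin) -/
structure Ass (n : ℕ) (β : ℝ) (ℓ : List α) (m d f : α → ℝ) (L1 : α → Lv (Cube (n + 1)))
    (L0 b y : α → Lv (Cube n)) (z : α → Lv (Cube n × Bool)) : Prop where
  nn : ∀ p ∈ ℓ, 0 ≤ d p
  q1 : ∀ p ∈ ℓ, Qd (n + 1) β (m p) (d p) (f p) (L1 p)
  q0 : ∀ p ∈ ℓ, Qd n β (m p) (d p) (f p) (L0 p)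
  qb : ∀ p ∈ ℓ, Qd n β (m p) (d p * (n / (n + 1))) (f p) (b p)
  cy : ∀ p ∈ ℓ, ∀ u v, (y p).cov u v = d p * (β ^ 2 * (n / (n + 1)) / 2 * ov u v ^ 2)
  cz : ∀ p ∈ ℓ, ∀ u v, (z p).cov u v =
    spin u.2 * spin v.2 * (d p * (β ^ 2 * (n / (n + 1)) * ov u.1 v.1) + f p)

/-- the system `A (s)` on `Cube n × Bool` -/
def sA (ℓ : List α) (b : α → Lv (Cube n)) (z : α → Lv (Cube n × Bool)) (s : ℝ) :
    List (Lv (Cube n × Bool)) := inc ℓ (fun p => coLv Prod.fst (b p)) z s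

/-- partial sums -/
def ps (ℓ : List α) (d : α → ℝ) (j : ℕ) : ℝ := ((ℓ.take j).map d).sum

lemma cacc_eq {Ω : Type} {ℓ : List α} {k : α → Lv Ω} {d f : α → ℝ} {x y : Ω} {A B : ℝ}
    (H : ∀ p ∈ ℓ, (k p).cov x y = d p * A + f p * B) (j : ℕ) :
    cacc (ℓ.map k) j x y = ps ℓ d j * A + ps ℓ f j * B := by
  rw [cacc, ps, ps, ← List.sum_map_mul_right, ← List.sum_map_mul_right, ← List.sum_map_add,
    ← List.map_take, List.map_map]
  exact congrArg List.sum (List.map_congr_left fun p hp => H p (List.mem_of_mem_take hp))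

/-- exchange of two sites -/
def swp (i j : Fin n) : Cube n ≃ Cube n := Equiv.arrowCongr (Equiv.swap i j) (Equiv.refl Bool)

lemma sv_swp (i j : Fin n) (x : Cube n) (k : Fin n) : sv (swp i j x) k = sv x (Equiv.swap i j k) := by
  simp [swp, sv, Equiv.arrowCongr_apply]

lemma ov_swp (i j : Fin n) (x y : Cube n) : ov (swp i j x) (swp i j y) = ov x y := by
  unfold ov dotProduct
  simp only [sv_swp]
  rw [Equiv.sum_comp (Equiv.swap i j) fun k => sv x k * sv y k]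

/-- **site symmetry** of the pair laws -/
theorem pi2_site {ℓ : List α} {L : α → Lv (Cube n)} (hL : ∀ p ∈ ℓ, OvLv (L p)) (i : Fin n)
    (φ : ℝ → ℝ) (j : ℕ) :
    pi2 (fun _ => 1) (ℓ.map L) j (fun x y => sv x i * sv y i * φ (ov x y)) 0 =
      pi2 (fun _ => 1) (ℓ.map L) j (fun x y => ov x y * φ (ov x y)) 0 := by
  have hn : (n : ℝ) ≠ 0 := Nat.cast_ne_zero.2 i.pos.ne'
  have h1 : ∀ k, pi2 (fun _ => 1) (ℓ.map L) j (fun x y => sv x k * sv y k * φ (ov x y)) 0 =
      pi2 (fun _ => 1) (ℓ.map L) j (fun x y => sv x i * sv y i * φ (ov x y)) 0 := fun k => by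
    have := pi2_tr wt_one (swp i k) (ℓ := ℓ) (c := fun _ => 0) (f := L) (f' := L)
      (fun p hp => ⟨rfl, le_rfl, fun x y => by
        obtain ⟨ψ, hψ⟩ := hL p hp
        rw [hψ, hψ, ov_swp, add_zero]⟩) j (fun x y => sv x i * sv y i * φ (ov x y)) 0
    simp only [sv_swp, ov_swp, Equiv.swap_apply_left] at this
    exact this
  have h2 := pi2_sum wt_one (ℓ.map L) j Finset.univ
    (fun k x y => sv x k * sv y k * φ (ov x y)) (0 : Cube n → ℝ)
  simp only [h1, ← Finset.sum_mul, dot_eq, Finset.sum_const, Finset.card_univ, Fintype.card_fin,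
    nsmul_eq_mul, mul_assoc (n : ℝ), pi2_const_mul] at h2
  exact (mul_left_cancel₀ hn h2).symm

lemma Qd.ov {β m d f : ℝ} {l : Lv (Cube n)} (H : Qd n β m d f l) : OvLv l :=
  ⟨fun r => d * (β ^ 2 * n / 2 * r ^ 2) + f * (n * r), H.cov⟩

lemma Pf_const {Ω : Type} [Fintype Ω] {w : Ω → ℝ} (hw : Wt w) (L : List (Lv Ω)) (h : Ω → ℝ)
    (c : ℝ) : Pf w L h (fun _ => c) = c := by rw [Pf, ← Finset.sum_mul, sum_P hw, one_mul]

lemma ov_one (hn : 0 < n) (x : Cube n) : ov x x = 1 := by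
  have hn' : (n : ℝ) ≠ 0 := Nat.cast_ne_zero.2 hn.ne'
  simp [ov, dotProduct, Link33.sv_sq, hn']

namespace Ass

variable {β : ℝ} {ℓ : List α} {m d f : α → ℝ} {L1 : α → Lv (Cube (n + 1))}
  {L0 b y : α → Lv (Cube n)} {z : α → Lv (Cube n × Bool)} (H : Ass n β ℓ m d f L1 L0 b y z)
include H

theorem trA : Tr (rowE n) ℓ (fun p => d p * (β ^ 2 / (2 * (n + 1)))) L1
    fun p => addLv (coLv Prod.fst (b p)) (sc 1 (z p)) := fun p hp =>
  ⟨(H.q1 p hp).m.trans (H.qb p hp).m.symm, mul_nonneg (H.nn p hp) (by positivity), fun u v => by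
    have h := ov_row u v
    have h1 := spin_mul_self (rowE n u).2
    have h2 := spin_mul_self (rowE n v).2
    have hn : (n : ℝ) + 1 ≠ 0 := by positivity
    rw [C.addLv_cov, C.coLv_cov, cov_sc, (H.q1 p hp).cov, (H.qb p hp).cov, H.cz p hp,
      Nat.cast_succ, eq_div_of_mul_eq hn ((mul_comm _ _).trans h)]
    field_simp
    linear_combination d p * β ^ 2 * (spin (rowE n u).2 * spin (rowE n u).2 * h2 + h1)⟩

theorem trB : Tr (Equiv.refl (Cube n)) ℓ (fun _ => 0) L0 fun p => addLv (b p) (sc 1 (y p)) :=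
  fun p hp => ⟨(H.q0 p hp).m.trans (H.qb p hp).m.symm, le_rfl, fun u v => by
    have hn : (n : ℝ) + 1 ≠ 0 := by positivity
    rw [C.addLv_cov, cov_sc, (H.q0 p hp).cov, (H.qb p hp).cov, H.cy p hp]
    simp only [Equiv.refl_apply]
    field_simp
    ring⟩

/-- `V (n+1) = A (1) + const` -/
theorem valA : X (fun _ => 1) (ℓ.map L1) 0 = X (fun _ => 1) (sA ℓ b z 1) 0 +
    β ^ 2 / (4 * (n + 1)) * (ℓ.map fun p => m p * d p).sum := by
  have := X_tr wt_one H.trA 0
  rw [C.push_equiv] at this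
  refine this.trans (congrArg _ ?_)
  rw [← List.sum_map_mul_left]
  refine congrArg List.sum (List.map_congr_left fun p hp => ?_)
  rw [(H.q1 p hp).m]
  field_simp
  norm_num

/-- `V n = B (1)` -/
theorem valB : X (fun _ => 1) (ℓ.map L0) 0 = X (fun _ => 1) (inc ℓ b y 1) 0 := by
  have := X_tr wt_one H.trB 0
  rw [C.push_equiv] at this
  exact this.trans (by simp [inc])

omit H in
/-- `A (0) = base + log 2` -/
theorem valA0 : X (fun _ => 1) (sA ℓ b z 0) 0 = X (fun _ => 1) (ℓ.map b) 0 + log 2 := by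
  have h1 := X_tr (w := fun _ : Cube n × Bool => (1 : ℝ)) wt_one (e := Prod.fst) (ℓ := ℓ)
    (c := fun _ => 0) (f := fun p => coLv Prod.fst (b p)) (f' := b)
    (fun p _ => ⟨rfl, le_rfl, fun _ _ => (add_zero _).symm⟩) 0
  have h2 : C.push Prod.fst (fun _ : Cube n × Bool => (1 : ℝ)) =
      fun _ => 1 * exp (log 2) := by
    funext u
    rw [exp_log two_pos, C.push, Fintype.sum_prod_type, Finset.sum_eq_single u] <;> simp +contextual
  rw [h2, X_mul_exp (fun _ => 1) fun _ => log 2, C.X_add_const wt_one] at h1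
  rw [sA, inc_zero wt_one]
  exact h1.trans (by simp)

omit H in
/-- `B (0) = base` -/
theorem valB0 : X (fun _ => 1) (inc ℓ b y 0) 0 = X (fun _ => 1) (ℓ.map b) 0 :=
  inc_zero wt_one ℓ b y 0

/-- **the split**: `V (n+1) - V n = [A 1 - A 0] - [B 1 - B 0] + log 2 + const` -/
theorem split : X (fun _ => 1) (ℓ.map L1) 0 - X (fun _ => 1) (ℓ.map L0) 0 =
    (X (fun _ => 1) (sA ℓ b z 1) 0 - X (fun _ => 1) (sA ℓ b z 0) 0) -
      (X (fun _ => 1) (inc ℓ b y 1) 0 - X (fun _ => 1) (inc ℓ b y 0) 0) + log 2 +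
      β ^ 2 / (4 * (n + 1)) * (ℓ.map fun p => m p * d p).sum := by
  rw [H.valA, H.valB, valA0, valB0]
  ring

theorem pi2A (j : ℕ) (K : Cube n × Bool → Cube n × Bool → ℝ) :
    pi2 (fun _ => 1) (sA ℓ b z 1) j K 0 =
      pi2 (fun _ => 1) (ℓ.map L1) j (fun u v => K (rowE n u) (rowE n v)) 0 :=
  (pi2_tr wt_one (rowE n) H.trA j K 0).symm

theorem pi2B (j : ℕ) (K : Cube n → Cube n → ℝ) :
    pi2 (fun _ => 1) (inc ℓ b y 1) j K 0 = pi2 (fun _ => 1) (ℓ.map L0) j K 0 :=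
  (pi2_tr wt_one (Equiv.refl _) H.trB j K 0).symm

theorem dm_b (j : ℕ) : dm (ℓ.map b) 0 j = dm (ℓ.map L0) 0 j :=
  dm_map (fun p hp => (H.qb p hp).m.trans (H.q0 p hp).m.symm) 0 j

theorem dm_1 (j : ℕ) : dm (ℓ.map L1) 0 j = dm (ℓ.map L0) 0 j :=
  dm_map (fun p hp => (H.q1 p hp).m.trans (H.q0 p hp).m.symm) 0 j

/-- derivative of `A` at any amplitude -/
theorem derA (hn : 0 < n) (s : ℝ) : HasDerivAt (fun s => X (fun _ => 1) (sA ℓ b z s) 0)
    (s * (ps ℓ d ℓ.length * (β ^ 2 * (n / (n + 1))) + ps ℓ f ℓ.length -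
      ∑ j ∈ Finset.range (ℓ.length + 1), dm (ℓ.map L0) 0 j *
        (ps ℓ d j * (β ^ 2 * (n / (n + 1))) * pi2 (fun _ => 1) (sA ℓ b z s) j
            (fun u v => spin u.2 * spin v.2 * ov u.1 v.1) 0 +
          ps ℓ f j * pi2 (fun _ => 1) (sA ℓ b z s) j (fun u v => spin u.2 * spin v.2) 0))) s := by
  refine (inc_der wt_one ℓ (fun p => coLv Prod.fst (b p)) z 0 s).congr_deriv ?_
  have e : ∀ j, cacc (ℓ.map z) j = fun u v =>
      ps ℓ d j * (β ^ 2 * (n / (n + 1))) * (spin u.2 * spin v.2 * ov u.1 v.1) +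
        ps ℓ f j * (spin u.2 * spin v.2) := fun j => by
    funext u v
    rw [cacc_eq (d := d) (f := f) (A := β ^ 2 * (n / (n + 1)) * (spin u.2 * spin v.2 * ov u.1 v.1))
      (B := spin u.2 * spin v.2) (fun p hp => by rw [H.cz p hp]; ring) j]
    ring
  have e2 : ∀ j, dm (ℓ.map fun p => coLv (Ω := Cube n × Bool) Prod.fst (b p)) 0 j =
      dm (ℓ.map L0) 0 j := fun j =>
    dm_map (f := fun p => coLv (Ω := Cube n × Bool) Prod.fst (b p))
      (fun p hp => (H.qb p hp).m.trans (H.q0 p hp).m.symm) 0 j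
  simp only [e, e2, spin_mul_self, ov_one hn, mul_one, Pf_const wt_one, pi2_add wt_one,
    pi2_const_mul, sA]

/-- derivative of `B` at any amplitude -/
theorem derB (hn : 0 < n) (s : ℝ) : HasDerivAt (fun s => X (fun _ => 1) (inc ℓ b y s) 0)
    (s * (β ^ 2 * (n / (n + 1)) / 2 * (ps ℓ d ℓ.length -
      ∑ j ∈ Finset.range (ℓ.length + 1), dm (ℓ.map L0) 0 j *
        (ps ℓ d j * pi2 (fun _ => 1) (inc ℓ b y s) j (fun u v => ov u v ^ 2) 0)))) s := by
  refine (inc_der wt_one ℓ b y 0 s).congr_deriv ?_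
  have e : ∀ j, cacc (ℓ.map y) j = fun u v =>
      β ^ 2 * (n / (n + 1)) / 2 * (ps ℓ d j * ov u v ^ 2) := fun j => by
    funext u v
    rw [cacc_eq (d := d) (f := fun _ => 0) (A := β ^ 2 * (n / (n + 1)) / 2 * ov u v ^ 2)
      (B := 0) (fun p hp => by rw [H.cy p hp]; ring) j]
    ring
  simp only [e, H.dm_b, ov_one hn, one_pow, mul_one, Pf_const wt_one, pi2_const_mul]
  rw [mul_sub (β ^ 2 * (n / (n + 1)) / 2), Finset.mul_sum]
  simp only [mul_left_comm _ (β ^ 2 * (n / (n + 1)) / 2)]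

/-- the cavity spin against a function of the full overlap -/
theorem pi2A_site (j : ℕ) (φ : ℝ → ℝ) :
    pi2 (fun _ => 1) (sA ℓ b z 1) j (fun u v => spin u.2 * spin v.2 *
      φ ((n * ov u.1 v.1 + spin u.2 * spin v.2) / (n + 1))) 0 =
    pi2 (fun _ => 1) (ℓ.map L1) j (fun u v => ov u v * φ (ov u v)) 0 := by
  have hn : (n : ℝ) + 1 ≠ 0 := by positivity
  rw [H.pi2A, ← pi2_site (fun p hp => (H.q1 p hp).ov) 0 φ j]
  simp only [← ov_row, mul_div_cancel_left₀ _ hn]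
  rfl

theorem pi2A_one (j : ℕ) : pi2 (fun _ => 1) (sA ℓ b z 1) j (fun u v => spin u.2 * spin v.2) 0 =
    pi2 (fun _ => 1) (ℓ.map L1) j ov 0 := by
  simpa using H.pi2A_site j fun _ => 1

theorem pi2A_ov (j : ℕ) : n / (n + 1) * pi2 (fun _ => 1) (sA ℓ b z 1) j
      (fun u v => spin u.2 * spin v.2 * ov u.1 v.1) 0 =
    pi2 (fun _ => 1) (ℓ.map L1) j (fun u v => ov u v ^ 2) 0 - 1 / (n + 1) := by
  have hn : (n : ℝ) + 1 ≠ 0 := by positivity
  have h := H.pi2A_site j id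
  have e : (fun u v : Cube n × Bool => spin u.2 * spin v.2 *
      id ((n * ov u.1 v.1 + spin u.2 * spin v.2) / (n + 1))) =
      fun u v => n / (n + 1) * (spin u.2 * spin v.2 * ov u.1 v.1) + 1 / (n + 1) := by
    funext u v
    have h1 := spin_mul_self u.2
    have h2 := spin_mul_self v.2
    simp only [id]
    field_simp
    linear_combination spin u.2 * spin u.2 * h2 + h1
  rw [e, pi2_add wt_one, pi2_const_mul, pi2_const wt_one] at h
  simp only [id, ← sq] at h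
  linarith

/-- derivative of `A` at amplitude one, in the system of `n + 1` sites -/
theorem derA_one (hn : 0 < n) : HasDerivAt (fun s => X (fun _ => 1) (sA ℓ b z s) 0)
    (ps ℓ d ℓ.length * (β ^ 2 * (n / (n + 1))) + ps ℓ f ℓ.length -
      ∑ j ∈ Finset.range (ℓ.length + 1), dm (ℓ.map L0) 0 j *
        (ps ℓ d j * β ^ 2 *
            (pi2 (fun _ => 1) (ℓ.map L1) j (fun u v => ov u v ^ 2) 0 - 1 / (n + 1)) +
          ps ℓ f j * pi2 (fun _ => 1) (ℓ.map L1) j ov 0)) 1 := by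
  refine (H.derA hn 1).congr_deriv ?_
  simp only [one_mul, H.pi2A_one, ← H.pi2A_ov, mul_assoc]

/-- derivative of `B` at amplitude one, in the system of `n` sites -/
theorem derB_one (hn : 0 < n) : HasDerivAt (fun s => X (fun _ => 1) (inc ℓ b y s) 0)
    (β ^ 2 * (n / (n + 1)) / 2 * (ps ℓ d ℓ.length -
      ∑ j ∈ Finset.range (ℓ.length + 1), dm (ℓ.map L0) 0 j *
        (ps ℓ d j * pi2 (fun _ => 1) (ℓ.map L0) j (fun u v => ov u v ^ 2) 0))) 1 := by
  refine (H.derB hn 1).congr_deriv ?_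
  simp only [one_mul, H.pi2B]

theorem convA (hm : ∀ p ∈ ℓ, 0 ≤ m p) :
    ConvexOn ℝ univ fun s => X (fun _ => 1) (sA ℓ b z s) 0 :=
  lc_comp (inc_convex wt_one (b := fun p => coLv (Ω := Cube n × Bool) Prod.fst (b p))
    (fun p hp => (hm p hp).trans_eq (H.qb p hp).m.symm) z)
    (φ := fun s : ℝ => ((0 : Cube n × Bool → ℝ), s)) fun _ _ _ _ => by simp

theorem convB (hm : ∀ p ∈ ℓ, 0 ≤ m p) :
    ConvexOn ℝ univ fun s => X (fun _ => 1) (inc ℓ b y s) 0 :=
  lc_comp (inc_convex wt_one (fun p hp => (hm p hp).trans_eq (H.qb p hp).m.symm) y)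
    (φ := fun s : ℝ => ((0 : Cube n → ℝ), s)) fun _ _ _ _ => by simp

end Ass

/-! ### a realisation -/

/-- the standard SK level -/
def skl (n : ℕ) (β m d f : ℝ) : Lv (Cube n) := addLv (wl n β d m) (T157.G1.fl n 1 (m, f))

lemma qd_skl (hn : 0 < n) (β m : ℝ) {d f : ℝ} (hd : 0 ≤ d) (hf : 0 ≤ f) :
    Qd n β m d f (skl n β m d f) :=
  ⟨rfl, fun x y => by
    rw [skl, C.addLv_cov, Link33.cov_wl n β d m x y hn hd, Link33.cov_fl n 1 (m, f) x y hn hf]
    ring⟩

/-- the cavity level: covariance `ε ε' (c R + f)` -/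
def cvl (n : ℕ) (c f : ℝ) : Lv (Cube n × Bool) :=
  ⟨Fin n ⊕ Unit, fun u => Sum.elim (fun i => spin u.2 * (√(c / n) * sv u.1 i))
    fun _ => spin u.2 * √f, 0⟩

lemma cov_cvl (hn : 0 < n) {c f : ℝ} (hc : 0 ≤ c) (hf : 0 ≤ f) (u v : Cube n × Bool) :
    (cvl n c f).cov u v = spin u.2 * spin v.2 * (c * ov u.1 v.1 + f) := by
  have hn' : (0 : ℝ) < n := Nat.cast_pos.2 hn
  have h1 := mul_self_sqrt (div_nonneg hc hn'.le)
  have h2 := mul_self_sqrt hf
  have h3 : ∑ i, spin u.2 * (√(c / n) * sv u.1 i) * (spin v.2 * (√(c / n) * sv v.1 i)) =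
      spin u.2 * spin v.2 * (c / n) * ∑ i, sv u.1 i * sv v.1 i := by
    rw [Finset.mul_sum]
    exact Finset.sum_congr rfl fun i _ => by
      linear_combination spin u.2 * spin v.2 * sv u.1 i * sv v.1 i * h1
  show ∑ i : Fin n ⊕ Unit, _ = _
  rw [Fintype.sum_sum_type]
  simp only [cvl, Sum.elim_inl, Sum.elim_inr, h3, dot_eq, Finset.univ_unique, Finset.sum_singleton]
  field_simp
  linear_combination spin u.2 * spin v.2 * h2

/-- the split exists for all nonnegative variances -/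
theorem ass_std (hn : 0 < n) (β : ℝ) {ℓ : List α} {m d f : α → ℝ} {L1 : α → Lv (Cube (n + 1))}
    {L0 : α → Lv (Cube n)} (hd : ∀ p ∈ ℓ, 0 ≤ d p) (hf : ∀ p ∈ ℓ, 0 ≤ f p)
    (q1 : ∀ p ∈ ℓ, Qd (n + 1) β (m p) (d p) (f p) (L1 p))
    (q0 : ∀ p ∈ ℓ, Qd n β (m p) (d p) (f p) (L0 p)) :
    Ass n β ℓ m d f L1 L0 (fun p => skl n β (m p) (d p * (n / (n + 1))) (f p))
      (fun p => wl n β (d p / (n + 1)) 0)
      fun p => cvl n (d p * (β ^ 2 * (n / (n + 1)))) (f p) :=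
  ⟨hd, q1, q0, fun p hp => qd_skl hn β _ (mul_nonneg (hd p hp) (by positivity)) (hf p hp),
    fun p hp u v => by
      rw [Link33.cov_wl n β _ 0 u v hn (div_nonneg (hd p hp) (by positivity))]
      ring,
    fun p hp u v => by
      rw [cov_cvl hn (mul_nonneg (hd p hp) (by positivity)) (hf p hp)]
      ring⟩

end Crest.Agent.T156.Cas.Ass44

end
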