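import Mathlib

/-!
# Discrete Boué–Dupuis (helper27), part A: one-dimensional tools
-/

set_option autoImplicit false
open MeasureTheory ProbabilityTheory Real
open scoped NNReal

namespace Crest.Agent.T156.Bd

/-- standard Gaussian on the line -/
noncomputable abbrev gam : Measure ℝ := gaussianReal 0 1

/-- tilted heat step of amplitude `s` -/
noncomputable def T (x s : ℝ) (f : ℝ → ℝ) (a : ℝ) : ℝ :=
  (1 / x) * log (∫ g, exp (x * f (a + s * g)) ∂gam)

/-- Lipschitz in elementary form -/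
def Lip (L : ℝ) (f : ℝ → ℝ) : Prop := ∀ u w, |f u - f w| ≤ L * |u - w|

lemma Lip.nonneg {L : ℝ} {f : ℝ → ℝ} (h : Lip L f) : 0 ≤ L := by
  have := h 1 0
  simp at this
  exact le_trans (abs_nonneg _) this

lemma Lip.continuous {L : ℝ} {f : ℝ → ℝ} (h : Lip L f) : Continuous f := by
  have : LipschitzWith (Real.toNNReal L) f := by
    refine LipschitzWith.of_dist_le_mul fun u w => ?_
    rw [Real.dist_eq, Real.dist_eq, Real.coe_toNNReal _ h.nonneg]
    exact h u w
  exact this.continuous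

lemma int_exp_abs (m : ℝ) (v : ℝ≥0) (c : ℝ) :
    Integrable (fun g => exp (c * |g|)) (gaussianReal m v) := by
  refine ((integrable_exp_mul_gaussianReal (μ := m) (v := v) c).add
    (integrable_exp_mul_gaussianReal (μ := m) (v := v) (-c))).mono' (by fun_prop) ?_
  refine Filter.Eventually.of_forall fun g => ?_
  simp only [Real.norm_eq_abs, abs_exp, Pi.add_apply]
  rcases abs_cases g with h | h
  · rw [h.1]; linarith [exp_pos (-c * g)]
  · rw [h.1]
    have : c * -g = -c * g := by ring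
    rw [this]; linarith [exp_pos (c * g)]

/-- continuous functions with a bound `A exp (c|g|)` are integrable -/
lemma int_of_le {m : ℝ} {v : ℝ≥0} {φ : ℝ → ℝ} (hφ : Measurable φ) (A c : ℝ)
    (h : ∀ g, |φ g| ≤ A * exp (c * |g|)) : Integrable φ (gaussianReal m v) :=
  ((int_exp_abs m v c).const_mul A).mono' hφ.aestronglyMeasurable
    (Filter.Eventually.of_forall fun g => by simpa using h g)

lemma int_exp_of_le {m : ℝ} {v : ℝ≥0} {Y : ℝ → ℝ} (hY : Measurable Y) (A c : ℝ)
    (h : ∀ g, |Y g| ≤ A + c * |g|) : Integrable (fun g => exp (Y g)) (gaussianReal m v) := by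
  refine int_of_le (by fun_prop) (exp A) c fun g => ?_
  rw [abs_exp, ← exp_add]
  exact exp_le_exp.2 (le_trans (le_abs_self _) (h g))

lemma int_of_lin {m : ℝ} {v : ℝ≥0} {Y : ℝ → ℝ} (hY : Measurable Y) (A c : ℝ)
    (h : ∀ g, |Y g| ≤ A + c * |g|) : Integrable Y (gaussianReal m v) := by
  refine int_of_le hY (exp A) c fun g => ?_
  rw [← exp_add]
  have := add_one_le_exp (A + c * |g|)
  linarith [h g]

lemma Lip.lin {L : ℝ} {f : ℝ → ℝ} (h : Lip L f) (x a s g : ℝ) :
    |x * f (a + s * g)| ≤ |x| * |f a| + (|x| * L * |s|) * |g| := by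
  have h1 := h (a + s * g) a
  have h2 : |a + s * g - a| = |s| * |g| := by rw [← abs_mul]; congr 1; ring
  rw [h2] at h1
  have h3 : |f (a + s * g)| ≤ |f a| + L * (|s| * |g|) := by
    have := abs_sub_abs_le_abs_sub (f (a + s * g)) (f a)
    linarith
  rw [abs_mul]
  nlinarith [abs_nonneg x]

lemma Lip.intExp {L : ℝ} {f : ℝ → ℝ} (h : Lip L f) (x a s : ℝ) (m : ℝ) (v : ℝ≥0) :
    Integrable (fun g => exp (x * f (a + s * g))) (gaussianReal m v) := by
  have := h.continuous
  exact int_exp_of_le (by fun_prop) _ _ (h.lin x a s)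

lemma Lip.int {L : ℝ} {f : ℝ → ℝ} (h : Lip L f) (a s : ℝ) :
    Integrable (fun g => f (a + s * g)) gam := by
  have := h.continuous
  refine int_of_lin (by fun_prop) (|1| * |f a|) (|1| * L * |s|) fun g => ?_
  simpa using h.lin 1 a s g

lemma int_exp_pos {Ω : Type*} [MeasurableSpace Ω] {μ : Measure Ω} [IsProbabilityMeasure μ]
    {Y : Ω → ℝ} (h : Integrable (fun g => exp (Y g)) μ) : 0 < ∫ g, exp (Y g) ∂μ :=
  integral_exp_pos h

/-- Jensen -/
lemma jensen {Ω : Type*} [MeasurableSpace Ω] {μ : Measure Ω} [IsProbabilityMeasure μ]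
    {Y : Ω → ℝ} (hY : Integrable Y μ) (h : Integrable (fun g => exp (Y g)) μ) :
    ∫ g, Y g ∂μ ≤ log (∫ g, exp (Y g) ∂μ) := by
  rw [le_log_iff_exp_le (int_exp_pos h)]
  set m := ∫ g, Y g ∂μ
  have h1 : ∫ g, exp m * (1 + (Y g - m)) ∂μ ≤ ∫ g, exp (Y g) ∂μ := by
    refine integral_mono (((integrable_const _).add (hY.sub (integrable_const _))).const_mul _) h
      fun g => ?_
    have := add_one_le_exp (Y g - m)
    have h2 : exp (Y g) = exp m * exp (Y g - m) := by rw [← exp_add]; congr 1; ring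
    simp only [h2]
    exact mul_le_mul_of_nonneg_left (by linarith) (exp_pos m).le
  have i1 : Integrable (fun g => Y g - m) μ := hY.sub (integrable_const _)
  rw [integral_const_mul, integral_add (integrable_const _) i1,
    integral_sub hY (integrable_const _)] at h1
  simpa [m] using h1

lemma exp_le_quad (y : ℝ) : exp y ≤ 1 + y + y ^ 2 * exp |y| := by
  have h1 : exp y * (1 - y) ≤ 1 := by
    have := add_one_le_exp (-y)
    have h2 : exp y * exp (-y) = 1 := by rw [← exp_add]; simp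
    nlinarith [exp_pos y]
  -- exp y - 1 ≤ y exp y, and y (exp y - 1) ≤ y^2 exp |y|
  have h2 : y * (exp y - 1) ≤ y ^ 2 * exp |y| := by
    rcases abs_cases y with h | h
    · rw [h.1]; nlinarith [h.2]
    · have h3 := add_one_le_exp y
      have h4 : 1 ≤ exp |y| := one_le_exp (abs_nonneg y)
      nlinarith [h.2, sq_nonneg y]
  nlinarith

/-- reverse Jensen with a remainder -/
lemma jensen_up {Ω : Type*} [MeasurableSpace Ω] {μ : Measure Ω} [IsProbabilityMeasure μ]
    {Y R : Ω → ℝ} (hY : Integrable Y μ) (h : Integrable (fun g => exp (Y g)) μ)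
    (hR : Integrable R μ) (hb : ∀ g, Y g ^ 2 * exp |Y g| ≤ R g) :
    log (∫ g, exp (Y g) ∂μ) ≤ ∫ g, Y g ∂μ + ∫ g, R g ∂μ := by
  have h1 := log_le_sub_one_of_pos (int_exp_pos h)
  have h2 : ∫ g, exp (Y g) ∂μ ≤ ∫ g, (1 + Y g + R g) ∂μ :=
    integral_mono h (((integrable_const _).add hY).add hR) fun g => by
      have := exp_le_quad (Y g)
      have := hb g
      simp only
      linarith
  have i1 : Integrable (fun g => 1 + Y g) μ := (integrable_const _).add hY
  rw [integral_add i1 hR, integral_add (integrable_const _) hY] at h2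
  simp at h2
  linarith

/-- bounded case -/
lemma jensen_bdd {Ω : Type*} [MeasurableSpace Ω] {μ : Measure Ω} [IsProbabilityMeasure μ]
    {Y : Ω → ℝ} (hY : AEStronglyMeasurable Y μ) {B : ℝ} (hb : ∀ g, |Y g| ≤ B) :
    |log (∫ g, exp (Y g) ∂μ) - ∫ g, Y g ∂μ| ≤ 3 * B ^ 2 ∧ |log (∫ g, exp (Y g) ∂μ)| ≤ B := by
  have hi : Integrable Y μ :=
    (integrable_const B).mono' hY (Filter.Eventually.of_forall fun g => by simpa using hb g)
  have he : Integrable (fun g => exp (Y g)) μ :=
    (integrable_const (exp B)).mono' (continuous_exp.comp_aestronglyMeasurable hY)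
      (Filter.Eventually.of_forall fun g => by
        simpa using le_trans (le_abs_self _) (hb g))
  have h1 := jensen hi he
  have h2 : log (∫ g, exp (Y g) ∂μ) ≤ B := by
    rw [log_le_iff_le_exp (int_exp_pos he)]
    have : ∫ g, exp (Y g) ∂μ ≤ ∫ _g, exp B ∂μ :=
      integral_mono he (integrable_const _) fun g => exp_le_exp.2 (le_trans (le_abs_self _) (hb g))
    simpa using this
  have h3 : -B ≤ ∫ g, Y g ∂μ := by
    have : ∫ _g, -B ∂μ ≤ ∫ g, Y g ∂μ :=
      integral_mono (integrable_const _) hi fun g => (abs_le.1 (hb g)).1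
    simpa using this
  refine ⟨?_, abs_le.2 ⟨by linarith, h2⟩⟩
  rw [abs_of_nonneg (by linarith)]
  rcases le_total B 1 with hB | hB
  · have h4 := jensen_up (R := fun _ => 3 * B ^ 2) hi he (integrable_const _) fun g => by
      have a1 : exp |Y g| ≤ 3 := by
        have := exp_le_exp.2 (le_trans (hb g) hB)
        have := exp_one_lt_d9
        linarith
      have a2 : Y g ^ 2 ≤ B ^ 2 := by
        rw [← sq_abs]; exact pow_le_pow_left₀ (abs_nonneg _) (hb g) 2
      nlinarith [sq_nonneg (Y g), exp_pos |Y g|]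
    simp at h4
    linarith
  · nlinarith

/-- Cameron–Martin on the line -/
lemma cm (φ : ℝ → ℝ) (c : ℝ) :
    ∫ g, φ g ∂gam = ∫ g, φ (g + c) * exp (-(c * g) - c ^ 2 / 2) ∂gam := by
  rw [integral_gaussianReal_eq_integral_smul one_ne_zero,
    integral_gaussianReal_eq_integral_smul one_ne_zero,
    ← integral_add_right_eq_self (fun x => gaussianPDFReal 0 1 x • φ x) c]
  congr 1
  funext g
  simp only [smul_eq_mul, gaussianPDFReal, NNReal.coe_one, mul_one, sub_zero]
  have : exp (-(g + c) ^ 2 / 2) = exp (-g ^ 2 / 2) * exp (-(c * g) - c ^ 2 / 2) := by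
    rw [← exp_add]; congr 1; ring
  rw [this]; ring

lemma exp_T {L : ℝ} {f : ℝ → ℝ} (h : Lip L f) {x : ℝ} (hx : x ≠ 0) (s a : ℝ) :
    exp (x * T x s f a) = ∫ g, exp (x * f (a + s * g)) ∂gam := by
  unfold T
  rw [← mul_assoc, mul_one_div_cancel hx, one_mul, exp_log (int_exp_pos (h.intExp x a s _ _))]

lemma mul_T {x : ℝ} (hx : x ≠ 0) (f : ℝ → ℝ) (s a : ℝ) :
    x * T x s f a = log (∫ g, exp (x * f (a + s * g)) ∂gam) := by
  unfold T
  rw [← mul_assoc, mul_one_div_cancel hx, one_mul]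

lemma T_zero {x : ℝ} (hx : x ≠ 0) (f : ℝ → ℝ) : T x 0 f = f := by
  funext a
  simp [T, hx]

lemma map_mul (s : ℝ) : gam.map (fun g => s * g) = gaussianReal 0 (NNReal.mk (s ^ 2) (sq_nonneg s)) := by
  have := gaussianReal_map_const_mul (μ := 0) (v := 1) s
  simpa using this

/-- semigroup property -/
lemma T_T {L : ℝ} {f : ℝ → ℝ} (h : Lip L f) {x : ℝ} (hx : x ≠ 0) {s s' r : ℝ}
    (hr : r ^ 2 = s ^ 2 + s' ^ 2) : T x s (T x s' f) = T x r f := by
  funext a
  have hc := h.continuous
  have e1 : ∀ t : ℝ, ∀ b : ℝ, ∫ g, exp (x * f (b + t * g)) ∂gam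
      = ∫ z, exp (x * f (b + z)) ∂(gaussianReal 0 (NNReal.mk (t ^ 2) (sq_nonneg t))) := by
    intro t b
    rw [← map_mul, integral_map (by fun_prop) (by fun_prop)]
  conv_lhs => unfold T
  conv_rhs => unfold T
  congr 2
  have e2 : ∀ g, exp (x * ((1 / x) * log (∫ g', exp (x * f (a + s * g + s' * g')) ∂gam)))
      = ∫ z, exp (x * f (a + s * g + z)) ∂(gaussianReal 0 (NNReal.mk (s' ^ 2) (sq_nonneg s'))) := by
    intro g
    rw [← e1]; exact exp_T h hx s' _
  simp only [e2]
  have e3 : gaussianReal 0 (NNReal.mk (r ^ 2) (sq_nonneg r))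
      = (gaussianReal 0 (NNReal.mk (s ^ 2) (sq_nonneg s))) ∗ (gaussianReal 0 (NNReal.mk (s' ^ 2) (sq_nonneg s'))) := by
    rw [gaussianReal_conv_gaussianReal]
    congr 1
    · simp
    · ext; simp [hr]
  have hi : Integrable (fun z => exp (x * f (a + z))) (gaussianReal 0 (NNReal.mk (r ^ 2) (sq_nonneg r))) := by
    simpa using h.intExp x a 1 0 (NNReal.mk (r ^ 2) (sq_nonneg r))
  rw [e1 r a]
  rw [e3] at hi ⊢
  rw [integral_conv hi, ← map_mul s, integral_map (by fun_prop)]
  · simp only [add_assoc]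
  · apply StronglyMeasurable.aestronglyMeasurable
    apply StronglyMeasurable.integral_prod_right
    apply Continuous.stronglyMeasurable
    unfold Function.uncurry
    fun_prop

end Crest.Agent.T156.Bd
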