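import Crest.Agent.T156.BdA_27

/-!
# Discrete Boué–Dupuis (helper27), part B: one step estimates
-/

set_option autoImplicit false
open MeasureTheory ProbabilityTheory Real
open scoped NNReal

namespace Crest.Agent.T156.Bd

lemma T_mono {L L' : ℝ} {f k : ℝ → ℝ} (hf : Lip L f) (hk : Lip L' k) {x : ℝ} (hx : x ≠ 0)
    {c : ℝ} (h : ∀ u, f u ≤ k u + c) (s a : ℝ) : T x s f a ≤ T x s k a + c := by
  have e : ∫ g, exp (x * k (a + s * g)) * exp (x * c) ∂gam = exp (x * (T x s k a + c)) := by
    rw [integral_mul_const, ← exp_T hk hx, ← exp_add]; congr 1; ring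
  rcases lt_or_gt_of_ne hx with hx' | hx'
  · have : exp (x * (T x s k a + c)) ≤ exp (x * T x s f a) := by
      rw [← e, exp_T hf hx]
      refine integral_mono ((hk.intExp x a s _ _).mul_const _) (hf.intExp x a s _ _) fun g => ?_
      simp only [← exp_add]
      exact exp_le_exp.2 (by nlinarith [h (a + s * g)])
    have := exp_le_exp.1 this
    nlinarith
  · have : exp (x * T x s f a) ≤ exp (x * (T x s k a + c)) := by
      rw [← e, exp_T hf hx]
      refine integral_mono (hf.intExp x a s _ _) ((hk.intExp x a s _ _).mul_const _) fun g => ?_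
      simp only [← exp_add]
      exact exp_le_exp.2 (by nlinarith [h (a + s * g)])
    have := exp_le_exp.1 this
    nlinarith

/-- Lipschitz with a measurable first order expansion -/
def Reg (L Λ : ℝ) (f : ℝ → ℝ) : Prop :=
  Lip L f ∧ ∃ p : ℝ → ℝ, Measurable p ∧ (∀ b, |p b| ≤ L) ∧
    ∀ b z, |f (b + z) - f b - p b * z| ≤ Λ * z ^ 2

/-- pointwise version -/
def PReg (L Λ : ℝ) (u : ℝ → ℝ) : Prop :=
  Lip L u ∧ ∀ a, ∃ q, |q| ≤ L ∧ ∀ z, |u (a + z) - u a - q * z| ≤ Λ * z ^ 2

lemma T_diff {L : ℝ} {f : ℝ → ℝ} (hf : Lip L f) {x : ℝ} (hx : x ≠ 0) (s a z : ℝ) :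
    x * (T x s f (a + z) - T x s f a) =
      log (∫ g, exp (x * (f (a + s * g + z) - f (a + s * g)))
        ∂(gam.tilted fun g => x * f (a + s * g))) := by
  rw [integral_exp_tilted, log_div, mul_sub, mul_T hx, mul_T hx]
  · congr 3
    funext g
    simp only [Pi.add_apply]
    congr 1
    have : a + z + s * g = a + s * g + z := by ring
    rw [this]; ring
  · apply ne_of_gt
    have := int_exp_pos (hf.intExp x (a + z) s 0 1)
    refine lt_of_lt_of_eq this ?_
    congr 1
    funext g
    simp only [Pi.add_apply]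
    congr 1
    have : a + z + s * g = a + s * g + z := by ring
    rw [this]; ring
  · exact ne_of_gt (int_exp_pos (hf.intExp x a s 0 1))

lemma T_lip {L : ℝ} {f : ℝ → ℝ} (hf : Lip L f) {x : ℝ} (hx : x ≠ 0) (s : ℝ) :
    Lip L (T x s f) := by
  intro u w
  have hc := hf.continuous
  have : IsProbabilityMeasure (gam.tilted fun g => x * f (w + s * g)) :=
    isProbabilityMeasure_tilted (hf.intExp x w s 0 1)
  have h1 := T_diff hf hx s w (u - w)
  have h2 := (jensen_bdd (μ := gam.tilted fun g => x * f (w + s * g))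
    (Y := fun g => x * (f (w + s * g + (u - w)) - f (w + s * g))) (by fun_prop)
    (B := |x| * (L * |u - w|)) fun g => by
      rw [abs_mul]
      refine mul_le_mul_of_nonneg_left ?_ (abs_nonneg x)
      simpa using hf (w + s * g + (u - w)) (w + s * g)).2
  rw [← h1, abs_mul] at h2
  have := le_of_mul_le_mul_left h2 (abs_pos.2 hx)
  simpa using this

lemma T_reg {L Λ : ℝ} {f : ℝ → ℝ} (hf : Reg L Λ f) {x : ℝ} (hx : x ≠ 0) (s : ℝ) :
    PReg L (Λ + 3 * |x| * L ^ 2) (T x s f) := by
  obtain ⟨hL, p, hpm, hpb, hp⟩ := hf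
  refine ⟨T_lip hL hx s, fun a => ?_⟩
  have hc := hL.continuous
  set μ := gam.tilted fun g => x * f (a + s * g) with hμ
  have : IsProbabilityMeasure μ := isProbabilityMeasure_tilted (hL.intExp x a s 0 1)
  have ip : Integrable (fun g => p (a + s * g)) μ :=
    (integrable_const L).mono' (by fun_prop : Measurable fun g => p (a + s * g)).aestronglyMeasurable
      (Filter.Eventually.of_forall fun g => by simpa using hpb _)
  refine ⟨∫ g, p (a + s * g) ∂μ, ?_, fun z => ?_⟩
  · have := norm_integral_le_of_norm_le_const (μ := μ) (f := fun g => p (a + s * g)) (C := L)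
      (Filter.Eventually.of_forall fun g => by simpa using hpb _)
    simpa using this
  · have hb : ∀ g, |f (a + s * g + z) - f (a + s * g)| ≤ L * |z| := fun g => by
      simpa using hL (a + s * g + z) (a + s * g)
    have h1 := T_diff hL hx s a z
    have h2 := (jensen_bdd (μ := μ)
      (Y := fun g => x * (f (a + s * g + z) - f (a + s * g))) (by fun_prop)
      (B := |x| * (L * |z|)) fun g => by
        rw [abs_mul]
        exact mul_le_mul_of_nonneg_left (hb g) (abs_nonneg x)).1
    rw [← h1, integral_const_mul, ← mul_sub, abs_mul] at h2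
    have h3 : |T x s f (a + z) - T x s f a - ∫ g, (f (a + s * g + z) - f (a + s * g)) ∂μ|
        ≤ 3 * |x| * L ^ 2 * z ^ 2 := by
      apply le_of_mul_le_mul_left _ (abs_pos.2 hx)
      refine h2.trans (le_of_eq ?_)
      rw [mul_pow, mul_pow, sq_abs z]; ring
    have id : Integrable (fun g => f (a + s * g + z) - f (a + s * g)) μ :=
      (integrable_const (L * |z|)).mono' (by fun_prop)
        (Filter.Eventually.of_forall fun g => by simpa using hb g)
    have h4 : |∫ g, (f (a + s * g + z) - f (a + s * g)) ∂μ - (∫ g, p (a + s * g) ∂μ) * z|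
        ≤ Λ * z ^ 2 := by
      rw [← integral_mul_const, ← integral_sub id (ip.mul_const z)]
      have := norm_integral_le_of_norm_le_const (μ := μ)
        (f := fun g => f (a + s * g + z) - f (a + s * g) - p (a + s * g) * z) (C := Λ * z ^ 2)
        (Filter.Eventually.of_forall fun g => by simpa using hp _ _)
      simpa using this
    have := abs_add_le (T x s f (a + z) - T x s f a - ∫ g, (f (a + s * g + z) - f (a + s * g)) ∂μ)
      (∫ g, (f (a + s * g + z) - f (a + s * g)) ∂μ - (∫ g, p (a + s * g) ∂μ) * z)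
    have e : T x s f (a + z) - T x s f a - (∫ g, p (a + s * g) ∂μ) * z =
      (T x s f (a + z) - T x s f a - ∫ g, (f (a + s * g + z) - f (a + s * g)) ∂μ) +
      (∫ g, (f (a + s * g + z) - f (a + s * g)) ∂μ - (∫ g, p (a + s * g) ∂μ) * z) := by ring
    rw [e]; nlinarith

lemma mul_T_cm {x : ℝ} (hx : x ≠ 0) (f : ℝ → ℝ) (s a c : ℝ) :
    x * T x s f a =
      log (∫ g, exp (x * f (a + s * c + s * g) - c * g - c ^ 2 / 2) ∂gam) := by
  rw [mul_T hx, cm _ c]
  congr 2
  funext g
  rw [← exp_add]
  have : a + s * (g + c) = a + s * c + s * g := by ring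
  rw [this]; congr 1; ring

lemma int_Y {L : ℝ} {f : ℝ → ℝ} (hf : Lip L f) (x s a c : ℝ) :
    Integrable (fun g => x * f (a + s * c + s * g) - c * g - c ^ 2 / 2) gam ∧
    Integrable (fun g => exp (x * f (a + s * c + s * g) - c * g - c ^ 2 / 2)) gam ∧
    ∫ g, (x * f (a + s * c + s * g) - c * g - c ^ 2 / 2) ∂gam
      = x * ∫ g, f (a + s * c + s * g) ∂gam - c ^ 2 / 2 := by
  have hc := hf.continuous
  have hb : ∀ g, |x * f (a + s * c + s * g) - c * g - c ^ 2 / 2| ≤
      (|x| * |f (a + s * c)| + c ^ 2 / 2) + (|x| * L * |s| + |c|) * |g| := by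
    intro g
    have h1 := hf.lin x (a + s * c) s g
    have h2 : |c * g| = |c| * |g| := abs_mul _ _
    have h3 := abs_le.1 h1
    have h4 := abs_le.1 h2.le
    rw [abs_le]; constructor <;> nlinarith [sq_nonneg c]
  have i1 : Integrable (fun g => x * f (a + s * c + s * g)) gam := (hf.int _ s).const_mul x
  have i2 : Integrable (fun g : ℝ => c * g) gam :=
    int_of_lin (by fun_prop) 0 |c| fun g => by simp [abs_mul]
  have i3 : Integrable (fun g => x * f (a + s * c + s * g) - c * g) gam := i1.sub i2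
  refine ⟨int_of_lin (by fun_prop) _ _ hb, int_exp_of_le (by fun_prop) _ _ hb, ?_⟩
  rw [integral_sub i3 (integrable_const _), integral_sub i1 i2, integral_const_mul,
    integral_const_mul, integral_id_gaussianReal]
  simp

/-- exact half of the step -/
lemma step_lo {L : ℝ} {f : ℝ → ℝ} (hf : Lip L f) {x : ℝ} (hx : x ≠ 0) (s a c : ℝ) :
    x * ∫ g, f (a + s * c + s * g) ∂gam - c ^ 2 / 2 ≤ x * T x s f a := by
  obtain ⟨i1, i2, e⟩ := int_Y hf x s a c
  rw [mul_T_cm hx f s a c, ← e]
  exact jensen i1 i2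

/-- approximate half of the step -/
lemma step_up (x L Λ : ℝ) (hx : x ≠ 0) : ∃ K : ℝ, 0 ≤ K ∧ ∀ (f : ℝ → ℝ) (a q s : ℝ), Lip L f →
    |q| ≤ L → (∀ z, |f (a + z) - f a - q * z| ≤ Λ * z ^ 2) → 0 ≤ s → s ≤ 1 →
    x * T x s f a ≤ x * ∫ g, f (a + s * (x * s * q) + s * g) ∂gam - (x * s * q) ^ 2 / 2
      + K * s ^ 4 := by
  set M := |x| * L
  set R : ℝ → ℝ := fun g => x ^ 2 * Λ ^ 2 * 24 * exp ((1 + 2 * M) * M) * exp ((1 + 2 * M) * |g|)
  have iR : Integrable R gam := (int_exp_abs 0 1 _).const_mul _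
  refine ⟨∫ g, R g ∂gam, integral_nonneg fun g => by positivity, ?_⟩
  intro f a q s hf hq hz hs0 hs1
  have hL := hf.nonneg
  have hM : 0 ≤ M := by positivity
  set c := x * s * q with hcdef
  have hc : |c| ≤ M := by
    rw [hcdef, abs_mul, abs_mul, abs_of_nonneg hs0]
    have : s * |q| ≤ L := by nlinarith [abs_nonneg q]
    rw [mul_assoc]
    exact mul_le_mul_of_nonneg_left this (abs_nonneg x)
  obtain ⟨i1, i2, e⟩ := int_Y hf x s a c
  set k := x * f a + c ^ 2 / 2
  have eY : ∀ g, x * f (a + s * c + s * g) - c * g - c ^ 2 / 2 - k =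
      x * (f (a + s * (g + c)) - f a - q * (s * (g + c))) := by
    intro g
    have : a + s * c + s * g = a + s * (g + c) := by ring
    rw [this]; simp only [k, hcdef]; ring
  have i1' : Integrable (fun g => x * f (a + s * c + s * g) - c * g - c ^ 2 / 2 - k) gam :=
    i1.sub (integrable_const k)
  have i2' : Integrable (fun g => exp (x * f (a + s * c + s * g) - c * g - c ^ 2 / 2 - k)) gam := by
    simp only [sub_eq_add_neg _ k, exp_add]
    exact i2.mul_const _
  have h := jensen_up (R := fun g => R g * s ^ 4) i1' i2' (iR.mul_const _) fun g => by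
    rw [eY g]
    set z := s * (g + c)
    set X := f (a + z) - f a - q * z
    set t := |g| + M
    have ht : 0 ≤ t := by positivity
    have hgc : |g + c| ≤ t := (abs_add_le _ _).trans (by simp only [t]; linarith)
    have hz1 : |z| ≤ s * t := by
      simp only [z]; rw [abs_mul, abs_of_nonneg hs0]
      exact mul_le_mul_of_nonneg_left hgc hs0
    have hX1 : |X| ≤ |Λ| * (s * t) ^ 2 := by
      refine (hz z).trans ?_
      have : z ^ 2 ≤ (s * t) ^ 2 := by
        rw [← sq_abs]; exact pow_le_pow_left₀ (abs_nonneg _) hz1 2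
      calc Λ * z ^ 2 ≤ |Λ| * z ^ 2 := mul_le_mul_of_nonneg_right (le_abs_self _) (sq_nonneg _)
        _ ≤ _ := mul_le_mul_of_nonneg_left this (abs_nonneg _)
    have hX2 : |X| ≤ 2 * L * t := by
      have a1 : |f (a + z) - f a| ≤ L * |z| := by simpa using hf (a + z) a
      have a2 : |q * z| ≤ L * |z| := by
        rw [abs_mul]; exact mul_le_mul_of_nonneg_right hq (abs_nonneg _)
      have a3 : |X| ≤ |f (a + z) - f a| + |q * z| := abs_sub _ _
      have a4 : |z| ≤ t := hz1.trans (by nlinarith)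
      nlinarith
    have b1 : (x * X) ^ 2 ≤ x ^ 2 * Λ ^ 2 * s ^ 4 * t ^ 4 := by
      have : X ^ 2 ≤ (|Λ| * (s * t) ^ 2) ^ 2 := by
        rw [← sq_abs]; exact pow_le_pow_left₀ (abs_nonneg _) hX1 2
      rw [mul_pow, sq_abs] at this
      calc (x * X) ^ 2 = x ^ 2 * X ^ 2 := by ring
        _ ≤ x ^ 2 * (Λ ^ 2 * ((s * t) ^ 2) ^ 2) := mul_le_mul_of_nonneg_left this (sq_nonneg _)
        _ = _ := by ring
    have b2 : exp |x * X| ≤ exp (2 * M * t) := by
      rw [exp_le_exp, abs_mul]
      calc |x| * |X| ≤ |x| * (2 * L * t) := mul_le_mul_of_nonneg_left hX2 (abs_nonneg _)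
        _ = _ := by simp only [M]; ring
    have b3 : t ^ 4 ≤ 24 * exp t := by
      have := Real.pow_div_factorial_le_exp t ht 4
      have e4 : ((Nat.factorial 4 : ℕ) : ℝ) = 24 := by norm_num [Nat.factorial]
      rw [e4, div_le_iff₀ (by norm_num)] at this
      linarith
    calc (x * X) ^ 2 * exp |x * X| ≤ (x ^ 2 * Λ ^ 2 * s ^ 4 * (24 * exp t)) * exp (2 * M * t) := by
          refine mul_le_mul (b1.trans ?_) b2 (exp_pos _).le (by positivity)
          exact mul_le_mul_of_nonneg_left b3 (by positivity)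
      _ = R g * s ^ 4 := by
          simp only [R]
          have : exp t * exp (2 * M * t) = exp ((1 + 2 * M) * M) * exp ((1 + 2 * M) * |g|) := by
            rw [← exp_add, ← exp_add]; congr 1; simp only [t]; ring
          linear_combination (x ^ 2 * Λ ^ 2 * s ^ 4 * 24) * this
  rw [integral_sub i1 (integrable_const k), e, integral_mul_const] at h
  have e2 : log (∫ g, exp (x * f (a + s * c + s * g) - c * g - c ^ 2 / 2 - k) ∂gam)
      = x * T x s f a - k := by
    rw [mul_T_cm hx f s a c]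
    simp only [sub_eq_add_neg _ k, exp_add]
    rw [integral_mul_const, log_mul (ne_of_gt (int_exp_pos i2)) (exp_pos _).ne', log_exp]
  rw [e2] at h
  simp at h
  linarith

end Crest.Agent.T156.Bd
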