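import Crest.Agent.T156.BdB_27

/-!
# Discrete Boué–Dupuis (helper27), part C: the three function inequality on the line
-/

set_option autoImplicit false
open MeasureTheory ProbabilityTheory Real
open scoped NNReal

namespace Crest.Agent.T156.Bd

/-- three function inequality with a defect -/
def Tri (θ η : ℝ) (f f₀ f₁ : ℝ → ℝ) : Prop :=
  ∀ a b, f ((1 - θ) * a + θ * b) ≤ (1 - θ) * f₀ a + θ * f₁ b + η

lemma Tri.int {θ η L : ℝ} {f f₀ f₁ : ℝ → ℝ} (h : Tri θ η f f₀ f₁) (hf : Lip L f) (h0 : Lip L f₀)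
    (h1 : Lip L f₁) (a b s : ℝ) :
    ∫ g, f ((1 - θ) * a + θ * b + s * g) ∂gam ≤
      (1 - θ) * ∫ g, f₀ (a + s * g) ∂gam + θ * ∫ g, f₁ (b + s * g) ∂gam + η := by
  have i0 : Integrable (fun g => (1 - θ) * f₀ (a + s * g)) gam := (h0.int a s).const_mul _
  have i1 : Integrable (fun g => θ * f₁ (b + s * g)) gam := (h1.int b s).const_mul _
  have i2 : Integrable (fun g => (1 - θ) * f₀ (a + s * g) + θ * f₁ (b + s * g)) gam := i0.add i1
  have : ∫ g, f ((1 - θ) * a + θ * b + s * g) ∂gam ≤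
      ∫ g, ((1 - θ) * f₀ (a + s * g) + θ * f₁ (b + s * g) + η) ∂gam := by
    refine integral_mono (hf.int _ s) (i2.add (integrable_const _)) fun g => ?_
    have := h (a + s * g) (b + s * g)
    have e : (1 - θ) * (a + s * g) + θ * (b + s * g) = (1 - θ) * a + θ * b + s * g := by ring
    rw [e] at this
    exact this
  rw [integral_add i2 (integrable_const _), integral_add i0 i1, integral_const_mul,
    integral_const_mul] at this
  simpa using this

/-- one step, both signs -/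
lemma tri_step {θ x₀ x₁ : ℝ} (hθ0 : 0 ≤ θ) (hθ1 : θ ≤ 1)
    (hx : (0 < x₀ ∧ 0 < x₁) ∨ (x₀ < 0 ∧ x₁ < 0)) (L Λ : ℝ) :
    ∃ K : ℝ, 0 ≤ K ∧ ∀ (f f₀ f₁ : ℝ → ℝ) (η s : ℝ), PReg L Λ f → PReg L Λ f₀ → PReg L Λ f₁ →
      Tri θ η f f₀ f₁ → 0 ≤ s → s ≤ 1 →
      Tri θ (η + K * s ^ 4) (T ((1 - θ) * x₀ + θ * x₁) s f) (T x₀ s f₀) (T x₁ s f₁) := by
  set x := (1 - θ) * x₀ + θ * x₁ with hxdef
  rcases hx with ⟨p0, p1⟩ | ⟨p0, p1⟩
  · have px : 0 < x := by
      rcases eq_or_lt_of_le hθ0 with h | h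
      · rw [hxdef, ← h]; simpa using p0
      · have := mul_pos h p1
        have := mul_nonneg (sub_nonneg.2 hθ1) p0.le
        linarith
    obtain ⟨K, hK, hs⟩ := step_up x L Λ px.ne'
    refine ⟨K / x, by positivity, fun f f₀ f₁ η s hf h0 h1 ht s0 s1 a b => ?_⟩
    obtain ⟨q, hq, hz⟩ := hf.2 ((1 - θ) * a + θ * b)
    have u := hs f _ q s hf.1 hq hz s0 s1
    have l0 := step_lo h0.1 p0.ne' s a (x₀ * s * q)
    have l1 := step_lo h1.1 p1.ne' s b (x₁ * s * q)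
    have m := ht.int hf.1 h0.1 h1.1 (a + s * (x₀ * s * q)) (b + s * (x₁ * s * q)) s
    have e : (1 - θ) * (a + s * (x₀ * s * q)) + θ * (b + s * (x₁ * s * q))
        = (1 - θ) * a + θ * b + s * (x * s * q) := by rw [hxdef]; ring
    rw [e] at m
    set I := ∫ g, f ((1 - θ) * a + θ * b + s * (x * s * q) + s * g) ∂gam
    set I₀ := ∫ g, f₀ (a + s * (x₀ * s * q) + s * g) ∂gam
    set I₁ := ∫ g, f₁ (b + s * (x₁ * s * q) + s * g) ∂gam
    have u' : T x s f ((1 - θ) * a + θ * b) ≤ I - x * (s * q) ^ 2 / 2 + K / x * s ^ 4 := by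
      apply le_of_mul_le_mul_left _ px
      refine u.trans (le_of_eq ?_)
      field_simp
    have l0' : I₀ - x₀ * (s * q) ^ 2 / 2 ≤ T x₀ s f₀ a := by
      apply le_of_mul_le_mul_left _ p0
      refine (le_of_eq ?_).trans l0
      ring
    have l1' : I₁ - x₁ * (s * q) ^ 2 / 2 ≤ T x₁ s f₁ b := by
      apply le_of_mul_le_mul_left _ p1
      refine (le_of_eq ?_).trans l1
      ring
    have a0 := mul_le_mul_of_nonneg_left l0' (sub_nonneg.2 hθ1)
    have a1 := mul_le_mul_of_nonneg_left l1' hθ0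
    have e2 : x * (s * q) ^ 2 / 2 = (1 - θ) * (x₀ * (s * q) ^ 2 / 2) + θ * (x₁ * (s * q) ^ 2 / 2) := by
      rw [hxdef]; ring
    linarith
  · have px : x < 0 := by
      rcases eq_or_lt_of_le hθ0 with h | h
      · rw [hxdef, ← h]; simpa using p0
      · have := mul_pos h (neg_pos.2 p1)
        have := mul_nonneg (sub_nonneg.2 hθ1) (neg_pos.2 p0).le
        linarith
    obtain ⟨K₀, hK₀, hs₀⟩ := step_up x₀ L Λ p0.ne
    obtain ⟨K₁, hK₁, hs₁⟩ := step_up x₁ L Λ p1.ne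
    have n0 : 0 < -x₀ := neg_pos.2 p0
    have n1 : 0 < -x₁ := neg_pos.2 p1
    have nx : 0 < -x := neg_pos.2 px
    refine ⟨K₀ / (-x₀) + K₁ / (-x₁), by positivity, fun f f₀ f₁ η s hf h0 h1 ht s0 s1 a b => ?_⟩
    obtain ⟨q₀, hq₀, hz₀⟩ := h0.2 a
    obtain ⟨q₁, hq₁, hz₁⟩ := h1.2 b
    have u0 := hs₀ f₀ a q₀ s h0.1 hq₀ hz₀ s0 s1
    have u1 := hs₁ f₁ b q₁ s h1.1 hq₁ hz₁ s0 s1
    set c := (1 - θ) * (x₀ * s * q₀) + θ * (x₁ * s * q₁) with hc
    have l := step_lo hf.1 px.ne s ((1 - θ) * a + θ * b) c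
    have m := ht.int hf.1 h0.1 h1.1 (a + s * (x₀ * s * q₀)) (b + s * (x₁ * s * q₁)) s
    have e : (1 - θ) * (a + s * (x₀ * s * q₀)) + θ * (b + s * (x₁ * s * q₁))
        = (1 - θ) * a + θ * b + s * c := by rw [hc]; ring
    rw [e] at m
    set I := ∫ g, f ((1 - θ) * a + θ * b + s * c + s * g) ∂gam
    set I₀ := ∫ g, f₀ (a + s * (x₀ * s * q₀) + s * g) ∂gam
    set I₁ := ∫ g, f₁ (b + s * (x₁ * s * q₁) + s * g) ∂gam
    have l' : T x s f ((1 - θ) * a + θ * b) ≤ I + c ^ 2 / (2 * -x) := by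
      apply le_of_mul_le_mul_left _ nx
      have : -x * (I + c ^ 2 / (2 * -x)) = -(x * I - c ^ 2 / 2) := by
        have := px.ne; field_simp; ring
      rw [this]; linarith
    have u0' : I₀ + -x₀ * (s * q₀) ^ 2 / 2 - K₀ / (-x₀) * s ^ 4 ≤ T x₀ s f₀ a := by
      apply le_of_mul_le_mul_left _ n0
      have : -x₀ * (I₀ + -x₀ * (s * q₀) ^ 2 / 2 - K₀ / (-x₀) * s ^ 4)
          = -(x₀ * I₀ - (x₀ * s * q₀) ^ 2 / 2 + K₀ * s ^ 4) := by
        have := p0.ne; field_simp; ring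
      rw [this]; linarith
    have u1' : I₁ + -x₁ * (s * q₁) ^ 2 / 2 - K₁ / (-x₁) * s ^ 4 ≤ T x₁ s f₁ b := by
      apply le_of_mul_le_mul_left _ n1
      have : -x₁ * (I₁ + -x₁ * (s * q₁) ^ 2 / 2 - K₁ / (-x₁) * s ^ 4)
          = -(x₁ * I₁ - (x₁ * s * q₁) ^ 2 / 2 + K₁ * s ^ 4) := by
        have := p1.ne; field_simp; ring
      rw [this]; linarith
    have pers : c ^ 2 / (2 * -x) ≤
        (1 - θ) * (-x₀ * (s * q₀) ^ 2 / 2) + θ * (-x₁ * (s * q₁) ^ 2 / 2) := by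
      rw [div_le_iff₀ (by positivity)]
      have w0 : 0 ≤ (1 - θ) * -x₀ := mul_nonneg (sub_nonneg.2 hθ1) n0.le
      have w1 : 0 ≤ θ * -x₁ := mul_nonneg hθ0 n1.le
      have key : ((1 - θ) * (-x₀ * (s * q₀) ^ 2 / 2) + θ * (-x₁ * (s * q₁) ^ 2 / 2)) * (2 * -x)
          - c ^ 2 = ((1 - θ) * -x₀) * (θ * -x₁) * (s * q₀ - s * q₁) ^ 2 := by
        rw [hc, hxdef]; ring
      have := mul_nonneg (mul_nonneg w0 w1) (sq_nonneg (s * q₀ - s * q₁))
      linarith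
    have a0 := mul_le_mul_of_nonneg_left u0' (sub_nonneg.2 hθ1)
    have a1 := mul_le_mul_of_nonneg_left u1' hθ0
    have k0 : 0 ≤ K₀ / (-x₀) * s ^ 4 := by positivity
    have k1 : 0 ≤ K₁ / (-x₁) * s ^ 4 := by positivity
    have b0 := mul_nonneg hθ0 k0
    have b1 := mul_nonneg (sub_nonneg.2 hθ1) k1
    nlinarith

lemma comb_ne {θ x₀ x₁ : ℝ} (hθ0 : 0 ≤ θ) (hθ1 : θ ≤ 1)
    (hx : (0 < x₀ ∧ 0 < x₁) ∨ (x₀ < 0 ∧ x₁ < 0)) :
    (1 - θ) * x₀ + θ * x₁ ≠ 0 ∧ x₀ ≠ 0 ∧ x₁ ≠ 0 := by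
  rcases hx with ⟨p0, p1⟩ | ⟨p0, p1⟩
  · refine ⟨ne_of_gt ?_, p0.ne', p1.ne'⟩
    rcases eq_or_lt_of_le hθ0 with h | h
    · rw [← h]; simpa using p0
    · have := mul_pos h p1
      have := mul_nonneg (sub_nonneg.2 hθ1) p0.le
      linarith
  · refine ⟨ne_of_lt ?_, p0.ne, p1.ne⟩
    rcases eq_or_lt_of_le hθ0 with h | h
    · rw [← h]; simpa using p0
    · have := mul_pos h (neg_pos.2 p1)
      have := mul_nonneg (sub_nonneg.2 hθ1) (neg_pos.2 p0).le
      linarith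

lemma PReg.mono {L Λ Λ' : ℝ} {u : ℝ → ℝ} (h : PReg L Λ u) (hl : Λ ≤ Λ') : PReg L Λ' u :=
  ⟨h.1, fun a => by
    obtain ⟨q, hq, hz⟩ := h.2 a
    exact ⟨q, hq, fun z => (hz z).trans (mul_le_mul_of_nonneg_right hl (sq_nonneg z))⟩⟩

/-- the inequality for regular functions -/
lemma tri_reg {θ x₀ x₁ : ℝ} (hθ0 : 0 ≤ θ) (hθ1 : θ ≤ 1)
    (hx : (0 < x₀ ∧ 0 < x₁) ∨ (x₀ < 0 ∧ x₁ < 0)) {L Λ : ℝ} {f f₀ f₁ : ℝ → ℝ}
    (hf : Reg L Λ f) (h0 : Reg L Λ f₀) (h1 : Reg L Λ f₁) (ht : Tri θ 0 f f₀ f₁) :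
    Tri θ 0 (T ((1 - θ) * x₀ + θ * x₁) 1 f) (T x₀ 1 f₀) (T x₁ 1 f₁) := by
  obtain ⟨nx, n0, n1⟩ := comb_ne hθ0 hθ1 hx
  set x := (1 - θ) * x₀ + θ * x₁ with hxdef
  obtain ⟨K, hK, hs⟩ := tri_step hθ0 hθ1 hx L (Λ + 3 * (|x| + |x₀| + |x₁|) * L ^ 2)
  have main : ∀ s : ℝ, 0 ≤ s → s ≤ 1 → ∀ k : ℕ,
      Tri θ (k * (K * s ^ 4)) (T x (√k * s) f) (T x₀ (√k * s) f₀) (T x₁ (√k * s) f₁) := by
    intro s s0 s1 k
    induction k with
    | zero => simpa [T_zero nx, T_zero n0, T_zero n1] using ht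
    | succ k ih =>
      have hr : (√((k + 1 : ℕ) : ℝ) * s) ^ 2 = s ^ 2 + (√k * s) ^ 2 := by
        rw [mul_pow, mul_pow, sq_sqrt (by positivity), sq_sqrt (by positivity)]
        push_cast; ring
      have a := abs_nonneg x
      have a0 := abs_nonneg x₀
      have a1 := abs_nonneg x₁
      have := hs _ _ _ _ s ((T_reg hf nx (√k * s)).mono (by nlinarith [sq_nonneg L]))
        ((T_reg h0 n0 (√k * s)).mono (by nlinarith [sq_nonneg L]))
        ((T_reg h1 n1 (√k * s)).mono (by nlinarith [sq_nonneg L])) ih s0 s1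
      rw [T_T hf.1 nx hr, T_T h0.1 n0 hr, T_T h1.1 n1 hr] at this
      convert this using 1
      push_cast; ring
  intro a b
  rw [add_zero]
  refine le_of_forall_pos_le_add fun ε hε => ?_
  obtain ⟨N, hN⟩ := exists_nat_gt (K / ε)
  have hN0 : (0 : ℝ) < N := lt_of_le_of_lt (by positivity) hN
  have hN1 : (1 : ℝ) ≤ N := by exact_mod_cast (Nat.cast_pos.1 hN0)
  have sq : 0 < √(N : ℝ) := sqrt_pos.2 hN0
  have := main (1 / √N) (by positivity) (by
    rw [div_le_one sq]; exact one_le_sqrt.2 hN1) N a b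
  rw [mul_one_div_cancel sq.ne'] at this
  refine this.trans (add_le_add_right ?_ _)
  have e : (1 / √(N : ℝ)) ^ 4 = 1 / N ^ 2 := by
    rw [div_pow, one_pow, show (4 : ℕ) = 2 * 2 from rfl, pow_mul, sq_sqrt hN0.le]
  rw [e]
  rw [div_lt_iff₀ hε] at hN
  have : (N : ℝ) * (K * (1 / N ^ 2)) = K / N := by field_simp
  rw [this, div_le_iff₀ hN0]
  linarith

/-- box smoothing -/
noncomputable def sm (ε : ℝ) (f : ℝ → ℝ) (a : ℝ) : ℝ := (1 / ε) * ∫ t in (0 : ℝ)..ε, f (a + t)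

lemma sm_sub {L ε : ℝ} (hε : 0 < ε) {f k : ℝ → ℝ} (hf : Continuous f) (hk : Continuous k)
    (h : ∀ t ∈ Set.Icc 0 ε, |f t - k t| ≤ L) :
    |(1 / ε) * (∫ t in (0 : ℝ)..ε, f t) - (1 / ε) * ∫ t in (0 : ℝ)..ε, k t| ≤ L := by
  rw [← mul_sub, ← intervalIntegral.integral_sub (hf.intervalIntegrable _ _)
    (hk.intervalIntegrable _ _), abs_mul, abs_of_pos (by positivity : 0 < 1 / ε)]
  have := intervalIntegral.norm_integral_le_of_norm_le_const (a := 0) (b := ε) (C := L)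
    (f := fun t => f t - k t) fun t ht => by
      rw [Set.uIoc_of_le hε.le] at ht
      exact h t ⟨ht.1.le, ht.2⟩
  rw [Real.norm_eq_abs, sub_zero, abs_of_pos hε] at this
  rw [one_div, inv_mul_le_iff₀ hε]
  linarith

lemma sm_close {L ε : ℝ} (hε : 0 < ε) {f : ℝ → ℝ} (hf : Lip L f) (a : ℝ) :
    |sm ε f a - f a| ≤ L * ε := by
  have hc := hf.continuous
  have := sm_sub (L := L * ε) hε (f := fun t => f (a + t)) (k := fun _ => f a) (by fun_prop)
    continuous_const fun t ht => by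
      refine (hf _ _).trans (mul_le_mul_of_nonneg_left ?_ hf.nonneg)
      rw [add_sub_cancel_left, abs_of_nonneg ht.1]; exact ht.2
  have e : (1 / ε) * ∫ _t in (0 : ℝ)..ε, f a = f a := by
    simp; field_simp
  rw [e] at this
  exact this

lemma prim_bd {L : ℝ} {f : ℝ → ℝ} (hf : Lip L f) (u z : ℝ) :
    |(∫ t in u..(u + z), f t) - f u * z| ≤ L * z ^ 2 := by
  have hc := hf.continuous
  have e : f u * z = ∫ _t in u..(u + z), f u := by simp [mul_comm]
  rw [e, ← intervalIntegral.integral_sub (hc.intervalIntegrable _ _)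
    (continuous_const.intervalIntegrable _ _)]
  have := intervalIntegral.norm_integral_le_of_norm_le_const (a := u) (b := u + z) (C := L * |z|)
    (f := fun t => f t - f u) fun t ht => by
      refine (hf _ _).trans (mul_le_mul_of_nonneg_left ?_ hf.nonneg)
      have := Set.abs_sub_left_of_mem_uIcc (Set.uIoc_subset_uIcc ht)
      simpa using this
  rw [Real.norm_eq_abs, add_sub_cancel_left, mul_assoc, abs_mul_abs_self] at this
  rw [sq]; exact this

lemma sm_reg {L ε : ℝ} (hε : 0 < ε) {f : ℝ → ℝ} (hf : Lip L f) : Reg L (2 * L / ε) (sm ε f) := by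
  have hc := hf.continuous
  refine ⟨fun u w => sm_sub hε (by fun_prop) (by fun_prop) fun t _ => by
    simpa using hf (u + t) (w + t), fun b => (f (b + ε) - f b) / ε, by fun_prop, fun b => ?_,
    fun b z => ?_⟩
  · rw [abs_div, abs_of_pos hε, div_le_iff₀ hε]
    simpa [abs_of_pos hε] using hf (b + ε) b
  · have e1 : ∀ a, sm ε f a = (1 / ε) * ∫ t in a..(a + ε), f t := by
      intro a
      unfold sm
      rw [intervalIntegral.integral_comp_add_left]; simp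
    have ii : ∀ a b : ℝ, IntervalIntegrable f volume a b := fun a b => hc.intervalIntegrable a b
    have e2 : (∫ t in (b + z)..(b + z + ε), f t) - (∫ t in b..(b + ε), f t)
        = (∫ t in (b + ε)..(b + ε + z), f t) - ∫ t in b..(b + z), f t := by
      have a1 := intervalIntegral.integral_add_adjacent_intervals (ii b (b + z)) (ii (b + z) (b + z + ε))
      have a2 := intervalIntegral.integral_add_adjacent_intervals (ii b (b + ε)) (ii (b + ε) (b + ε + z))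
      have : b + z + ε = b + ε + z := by ring
      rw [this] at a1 ⊢
      linarith
    have p1 := abs_le.1 (prim_bd hf (b + ε) z)
    have p2 := abs_le.1 (prim_bd hf b z)
    have e3 : sm ε f (b + z) - sm ε f b - (f (b + ε) - f b) / ε * z = (1 / ε) *
        (((∫ t in (b + ε)..(b + ε + z), f t) - f (b + ε) * z) - ((∫ t in b..(b + z), f t) - f b * z)) := by
      rw [e1, e1, ← mul_sub, e2]; ring
    rw [e3, abs_mul, abs_of_pos (by positivity : 0 < 1 / ε)]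
    have : 2 * L / ε * z ^ 2 = 1 / ε * (2 * L * z ^ 2) := by ring
    rw [this]
    refine mul_le_mul_of_nonneg_left (abs_le.2 ⟨?_, ?_⟩) (by positivity) <;> linarith

lemma sm_tri {L ε θ : ℝ} (hε : 0 < ε) {f f₀ f₁ : ℝ → ℝ} (hf : Lip L f) (h0 : Lip L f₀)
    (h1 : Lip L f₁) (ht : Tri θ 0 f f₀ f₁) : Tri θ 0 (sm ε f) (sm ε f₀) (sm ε f₁) := by
  intro a b
  have c := hf.continuous
  have c0 := h0.continuous
  have c1 := h1.continuous
  have : ∫ t in (0 : ℝ)..ε, f ((1 - θ) * a + θ * b + t) ≤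
      ∫ t in (0 : ℝ)..ε, ((1 - θ) * f₀ (a + t) + θ * f₁ (b + t)) := by
    refine intervalIntegral.integral_mono_on hε.le (Continuous.intervalIntegrable (by fun_prop) _ _)
      (Continuous.intervalIntegrable (by fun_prop) _ _) fun t _ => ?_
    have := ht (a + t) (b + t)
    have e : (1 - θ) * (a + t) + θ * (b + t) = (1 - θ) * a + θ * b + t := by ring
    rw [e] at this
    linarith
  rw [intervalIntegral.integral_add (Continuous.intervalIntegrable (by fun_prop) _ _)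
    (Continuous.intervalIntegrable (by fun_prop) _ _), intervalIntegral.integral_const_mul,
    intervalIntegral.integral_const_mul] at this
  have := mul_le_mul_of_nonneg_left this (by positivity : 0 ≤ 1 / ε)
  unfold sm
  linarith

/-- **three function inequality on the line** -/
theorem tri_one {θ x₀ x₁ : ℝ} (hθ0 : 0 ≤ θ) (hθ1 : θ ≤ 1)
    (hx : (0 < x₀ ∧ 0 < x₁) ∨ (x₀ < 0 ∧ x₁ < 0)) {L : ℝ} {f f₀ f₁ : ℝ → ℝ}
    (hf : Lip L f) (h0 : Lip L f₀) (h1 : Lip L f₁) (ht : Tri θ 0 f f₀ f₁) :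
    Tri θ 0 (T ((1 - θ) * x₀ + θ * x₁) 1 f) (T x₀ 1 f₀) (T x₁ 1 f₁) := by
  obtain ⟨nx, n0, n1⟩ := comb_ne hθ0 hθ1 hx
  intro a b
  rw [add_zero]
  refine le_of_forall_pos_le_add fun δ hδ => ?_
  have hL := hf.nonneg
  set ε := δ / (2 * L + 1) with hεdef
  have hε : 0 < ε := by positivity
  have := tri_reg hθ0 hθ1 hx (sm_reg hε hf) (sm_reg hε h0) (sm_reg hε h1) (sm_tri hε hf h0 h1 ht) a b
  have m := T_mono hf (sm_reg hε hf).1 nx (c := L * ε)
    (fun u => by linarith [(abs_le.1 (sm_close hε hf u)).1]) 1 ((1 - θ) * a + θ * b)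
  have m0 := T_mono (sm_reg hε h0).1 h0 n0 (c := L * ε)
    (fun u => by linarith [(abs_le.1 (sm_close hε h0 u)).2]) 1 a
  have m1 := T_mono (sm_reg hε h1).1 h1 n1 (c := L * ε)
    (fun u => by linarith [(abs_le.1 (sm_close hε h1 u)).2]) 1 b
  have a0 := mul_le_mul_of_nonneg_left m0 (sub_nonneg.2 hθ1)
  have a1 := mul_le_mul_of_nonneg_left m1 hθ0
  have : (2 * L + 1) * ε = δ := by rw [hεdef]; field_simp
  nlinarith

end Crest.Agent.T156.Bd
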