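import Crest.Agent.T156.BdS2_75

/-!
# Row 156, block (L): the slow error at the end of the bulk (helper75)
-/

set_option autoImplicit false
set_option linter.unusedSectionVars false

noncomputable section

namespace Crest.Agent.T156.Alt.B75

open Real Finset
open Crest.Agent.T156.Alt.E61 Crest.Agent.T156.Alt.Mp9 Crest.Agent.T156.Alt.Sz9
open Crest.Agent.T156.Alt.L69 (LN cr cl mf uw)
open Crest.Agent.T156.Alt.G89

/-- the slope of the label clock at the end of the bulk -/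
def cmB (S : Sc) (Λ Lg X2 : ℝ) : ℝ := 11250 * S.C ^ 8 * Λ ^ 3 * Ug S Lg 1 ^ 2 + Λ * X2

variable {S : Sc} {M : Md} {m : ℕ} {a T E Λ l0 l V X Lg X2 X3 G0 t Q : ℝ} {η : ℝ → ℝ} {u v : ℕ}

theorem Ug_cube (c : Cl S M) (g0 : 0 ≤ Lg) (t0 : 0 < t) :
    Ug S Lg t ^ 3 = (Lg * cr S t) ^ 2 * S.w3 t := by
  have := Tn15.cr1 S t
  rw [Ug, Nd22.U, w1, mul_pow, Tn15.cub3 (Tn15.w30 c t0).le,
    Tn15.rp_pow (by positivity) 3 2 (by norm_num)]

/-- sizes on the top levels -/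
theorem Ug_top (c : Cl S M) (g1 : 1 ≤ Lg) (Q1 : 1 ≤ Q) (h : 1 ≤ Q * t) :
    Ug S Lg t ≤ 3 * Q ^ 2 * Ug S Lg 1 := by
  have Q0 : 0 < Q := by linarith
  have t0 : 0 < t := (mul_pos_iff_of_pos_left Q0).1 (by linarith)
  have c1 := Tn15.cr1 S t
  have c2 := Tn15.cr1 S 1
  have a1 : cr S t ≤ 2 * Q * cr S 1 := by
    rcases le_total t 1 with e | e
    · have := mul_le_mul_of_nonneg_left (Tn15.crt_mono c t0 e) Q0.le
      nlinarith
    · have := crt_mul c one_pos e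
      rw [mul_one, mul_one] at this
      have b : cr S t ≤ 2 * cr S 1 := le_of_mul_le_mul_right (by linarith) t0
      nlinarith
  have m0 := c.ms_pos t0.le
  have m1 := c.ms_pos zero_le_one
  have n0 := c.N0
  have a2 : S.w3 t ≤ 4 * Q ^ 3 * S.w3 1 := by
    have b := mul_le_mul h ((c.msm h).trans (c.ms_mul t0.le Q1)) m1.le (by positivity)
    unfold Sc.w3
    rw [← mul_div_assoc, div_le_div_iff₀ (by positivity) (by positivity)]
    have := mul_le_mul_of_nonneg_left b (mul_pos (Tn15.F0 c) n0).le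
    linarith
  have u1 := Ug_nn c g1 one_pos
  refine Tn15.le3 (by positivity) ?_
  rw [mul_pow, Ug_cube c (by linarith) t0, Ug_cube c (by linarith) one_pos]
  have w0 := Tn15.w30 c t0
  have w1 := Tn15.w30 c one_pos
  have q : Q ^ 5 ≤ Q ^ 6 := pow_le_pow_right₀ Q1 (by norm_num)
  calc _ ≤ (Lg * (2 * Q * cr S 1)) ^ 2 * (4 * Q ^ 3 * S.w3 1) := by gcongr
    _ = 16 * Q ^ 5 * ((Lg * cr S 1) ^ 2 * S.w3 1) := by ring
    _ ≤ _ := mul_le_mul_of_nonneg_right (by nlinarith [pow_pos Q0 6]) (by positivity)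

theorem eta_top (ηa : Antitone η) (η2 : ∀ t, 0 < t → η t ≤ 16 * η (2 * t)) (η0 : 0 ≤ η 1)
    (Q1 : 1 ≤ Q) (h : 1 ≤ Q * t) : η t ≤ 16 * Q ^ 4 * η 1 := by
  have t0 : 0 < t := (mul_pos_iff_of_pos_left (show 0 < Q by linarith)).1 (by linarith)
  have k : ∀ i : ℕ, η t ≤ 16 ^ i * η (2 ^ i * t) := fun i => by
    induction i with
    | zero => simp
    | succ i ih =>
      have := mul_le_mul_of_nonneg_left (η2 (2 ^ i * t) (by positivity))
        (show (0 : ℝ) ≤ 16 ^ i by positivity)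
      rw [pow_succ, pow_succ', mul_assoc 2]
      linarith
  obtain ⟨i, h1, h2⟩ := exists_nat_pow_near Q1 one_lt_two
  have a1 := ηa (h.trans (mul_le_mul_of_nonneg_right h2.le t0.le))
  have a2 : (16 : ℝ) ^ (i + 1) ≤ 16 * Q ^ 4 := by
    have := pow_le_pow_left₀ (by positivity) h1 4
    rw [← pow_mul, mul_comm, pow_mul] at this
    norm_num at this
    rw [pow_succ']; linarith
  exact (k (i + 1)).trans ((mul_le_mul_of_nonneg_left a1 (by positivity)).trans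
    (mul_le_mul_of_nonneg_right a2 η0))

theorem sJ_top (c : Cl S M) (me : 8 * S.C ^ 2 * S.v ≤ M.s S.J) (h : M.s S.J ≤ 4 * t) :
    1 ≤ 5 * S.C ^ 2 * t := by
  have i1 := c.i1
  have i2 := c.i2
  have C1 := c.C1
  have C0 := c.C0
  have a1 := (div_le_iff₀' C0).1 (c.atom.1.trans (c.z_s (k := S.J - 1) (by omega) (by omega)).2)
  have a2 := mul_le_mul_of_nonneg_left (c.sm (Nat.sub_le S.J 1)) (sq_nonneg S.C)
  have a3 := mul_le_mul_of_nonneg_left h (sq_nonneg S.C)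
  have a4 := mul_le_mul_of_nonneg_right (one_le_pow₀ (n := 2) C1) (c.s_nn S.J)
  linarith

theorem cmB_nn (Λ0 : 0 ≤ Λ) (X0 : 0 ≤ X2) : 0 ≤ cmB S Λ Lg X2 := by unfold cmB; positivity

/-- the hypothesis `hcm` of `Bd.resB` -/
theorem hcm (c : Cl S M) (g1 : 1 ≤ Lg) (Λ0 : 0 ≤ Λ) (me : 8 * S.C ^ 2 * S.v ≤ M.s S.J)
    (h : M.s S.J ≤ 4 * sb M m a (v + 1)) (y : ℕ) (_ : u < y) (_ : y ≤ v)
    (hy : sb M m a (v + 1) ≤ M.s y) : cc2 M S m a Λ Lg X2 y ≤ cmB S Λ Lg X2 := by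
  have q := sJ_top c me (show _ ≤ 4 * M.s y by linarith)
  have C2 : 1 ≤ S.C ^ 2 := one_le_pow₀ c.C1
  have a1 := pow_le_pow_left₀ (Ug_nn c g1 ((mul_pos_iff_of_pos_left (show 0 < 5 * S.C ^ 2 by
    linarith)).1 (by linarith))) (Ug_top c g1 (by linarith) q) 2
  have a2 := mul_le_mul_of_nonneg_left a1 (show 0 ≤ 2 * Λ ^ 3 by positivity)
  have a3 := ccB_Ug (M := M) (S := S) (m := m) (a := a) (Lg := Lg) Λ0 y
  unfold cc2 cmB
  linarith

/-- **the slow error at the end of the bulk** -/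
theorem be_le (A : At S M m a T) (N : LN E S M l0 l V X Lg X2 X3 G0 η) (E1 : 1 ≤ E) (Λ1 : 1 ≤ Λ)
    (me : 8 * S.C ^ 2 * S.v ≤ M.s S.J) (hv : S.v ≤ 1 / S.n) (h : M.s S.J ≤ 4 * M.s v) (hJ : v ≤ S.J)
    (hl : l ≤ M.s v) {g w : ℝ} (g0 : 0 ≤ g) (w0 : 0 ≤ w) :
    0 ≤ enB M Λ η v + 1 / (m + 1) + S.C * S.v + onB M S Λ Lg v * g + cmB S Λ Lg X2 * w ∧
    enB M Λ η v + 1 / (m + 1) + S.C * S.v + onB M S Λ Lg v * g + cmB S Λ Lg X2 * w ≤
      11250 * S.C ^ 8 * Λ ^ 3 * (η 1 + Ug S Lg 1 ^ 2 * (g + w) + X2 * w) := by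
  have c := A.cl
  have C1 := c.C1
  have C0 := c.C0
  have v0 := v_pos c
  have n0 := c.N0
  have Λ0 : 0 ≤ Λ := by linarith
  have E0 : 0 ≤ E := by linarith
  have g1 : 1 ≤ Lg := (one_le_mul_of_one_le_of_one_le E1 (one_le_pow₀ c.F1)).trans N.Lg0
  have C2 : 1 ≤ S.C ^ 2 := one_le_pow₀ C1
  have q := sJ_top c me h
  have s0 : 0 < M.s v := (mul_pos_iff_of_pos_left (show 0 < 5 * S.C ^ 2 by linarith)).1 (by linarith)
  have l0' := (l0_nn c N E0).trans N.l0l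
  have l1 : l ≤ 1 := (le_mul_of_one_le_left l0' E1).trans N.l1
  have X0 := X2_nn c N E0
  have n1 : 1 / (S.n : ℝ) ≤ η 1 := by
    refine le_trans (le_add_of_nonneg_left ?_) (N.ηb 1 l1 C1)
    have := X3_nn c N E0
    have := G0_nn c N E0
    have := uw_nn (Lg := Lg) c one_pos
    have : 0 ≤ min (S.ms 1 / 1) 1 := le_min (div_pos (c.ms_pos zero_le_one) one_pos).le zero_le_one
    positivity
  have η0 : 0 ≤ η 1 := le_trans (by positivity) n1
  have a1 := mul_le_mul_of_nonneg_left (eta_top N.ηa N.η2 η0 (by linarith) q) Λ0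
  have a2 : (S.n : ℝ) ≤ m := by exact_mod_cast A.mem.m1
  have a3 := one_div_le_one_div_of_le n0 (show (S.n : ℝ) ≤ m + 1 by linarith)
  have a4 := mul_le_mul_of_nonneg_left (hv.trans n1) C0.le
  have a5 := mul_le_mul_of_nonneg_right (mul_le_mul_of_nonneg_left
    (pow_le_pow_left₀ (Ug_nn c g1 s0) (Ug_top c g1 (by linarith) q) 2) Λ0) g0
  have k1 : S.C ≤ S.C ^ 8 * Λ ^ 3 := (le_self_pow₀ C1 (by norm_num)).trans
    (le_mul_of_one_le_right (by positivity) (one_le_pow₀ Λ1))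
  have k2 : S.C ^ 8 * Λ ≤ S.C ^ 8 * Λ ^ 3 :=
    mul_le_mul_of_nonneg_left (le_self_pow₀ Λ1 three_ne_zero) (by positivity)
  have k3 : Λ ≤ S.C ^ 8 * Λ := le_mul_of_one_le_left Λ0 (one_le_pow₀ C1)
  have b1 := mul_le_mul_of_nonneg_right k1 η0
  have b2 := mul_le_mul_of_nonneg_right k2 η0
  have b3 := mul_le_mul_of_nonneg_right C1 η0
  have y0 : 0 ≤ Ug S Lg 1 ^ 2 * g := by positivity
  have b4 := mul_le_mul_of_nonneg_right k2 y0
  have b5 := mul_le_mul_of_nonneg_right (k3.trans k2) (mul_nonneg X0 w0)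
  have b6 : 0 ≤ S.C ^ 8 * Λ ^ 3 * (X2 * w) := by positivity
  have b7 : 0 ≤ S.C ^ 8 * Λ ^ 3 * (Ug S Lg 1 ^ 2 * g) := by positivity
  have e0 := mul_nonneg Λ0 (eta_nn c N E0 s0 hl (c.s_le_C (hJ.trans c.i3)))
  have e1 := mul_nonneg (cmB_nn (S := S) (Lg := Lg) Λ0 X0) w0
  refine ⟨?_, ?_⟩
  · unfold enB onB; positivity
  · unfold enB onB cmB; linarith

end Crest.Agent.T156.Alt.B75

end
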