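import Crest.Agent.T156.ClResB_27
import Crest.Agent.T156.Abel_33

/-!
Row 156, block (L) (helper9): the node part of the source against the bulk cost.
-/

set_option autoImplicit false

noncomputable section

namespace Crest.Agent.T156.Alt.Mp9

open MeasureTheory Set Real
open Crest.Agent.T156.Pp.Area50 Crest.Agent.T156.Spl27 Crest.Agent.T156.Zb9
open Crest.Agent.T156.Cut8 (LB int_split int_mono int_le_const int_sub_le)
open Crest.Agent.T156.Alt.L69

variable {S : Sc} {M : Md} {m : ℕ} {a T G1 : ℝ}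

theorem ref_ex9 {s : ℕ → ℝ} {i j : ℕ} {t : ℝ} (hij : i ≤ j) (h1 : s i ≤ t) (h2 : t < s j) :
    ∃ k, i ≤ k ∧ k < j ∧ s k ≤ t ∧ t < s (k + 1) := by
  induction j, hij using Nat.le_induction with
  | base => exact absurd h1 (not_le.2 h2)
  | succ j ij ih =>
    rcases lt_or_ge t (s j) with c | c
    · obtain ⟨k, p, q, r⟩ := ih c
      exact ⟨k, p, by omega, r⟩
    · exact ⟨j, ij, j.lt_succ_self, c, h2⟩

/-- time integrals over the cells of the mean profile -/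
theorem At.int_mean9 (A : At S M m a T) {F : ℝ → ℝ} {w : ℕ → ℝ} (lF : LB T F) {i j : ℕ}
    (hij : i ≤ j) (hj : j ≤ S.Jp)
    (h : ∀ k t, i ≤ k → k < j → Cell (sb M m a) (S.Jp + 1) (k + 1) t → F t ≤ w k) :
    ∫ t in sb M m a (i + 1)..sb M m a (j + 1), F t ≤
      ∑ k ∈ Finset.Ico i j, (sb M m a (k + 2) - sb M m a (k + 1)) * w k := by
  induction j, hij using Nat.le_induction with
  | base => simp
  | succ j ij ih =>
    rw [int_split lF (A.sb_mem (k := i) (by omega)) (A.sb_mem (k := j) (by omega)) (A.sb_mem hj),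
      Finset.sum_Ico_succ_top ij]
    exact add_le_add (ih (by omega) fun k t a b => h k t a (by omega)) (int_le_const lF
      (A.sb_mem (k := j) (by omega)).1 (A.sb_mono (Nat.le_succ _)) (A.sb_mem hj).2
      fun t p q => h j t ij j.lt_succ_self ⟨by omega, fun _ => p.le, fun _ => q⟩)

/-- **S1**: a function of the reference time read along the mean profile -/
theorem At.int_nb9 (A : At S M m a T) (E : CeiG S M G1) (HJ : M.H S.Jp ≤ S.C) {l Λ0 K t t' : ℝ}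
    {φ : ℝ → ℝ} (l0 : 0 < l) (L1 : 1 ≤ Λ0) (c : Cru Λ0 S M m a l) (W : Ab33.Wf S.C l K φ)
    {u k : ℕ} (hj : M.s S.jl ≤ t) (hl : l ≤ t) (h0 : S.jl < u) (h1 : t ≤ M.s u) (uk : u ≤ k)
    (h2 : k < S.J) (h3 : M.s k ≤ t') (h4 : 4 * S.C ^ 4 * t ≤ t') (h5 : 12 * S.C ^ 7 * t < 1) :
    ∫ r in sb M m a (u + 1)..sb M m a (k + 1), nb M S m a (fun y => φ (M.s y)) r ≤
      32 * S.C ^ 5 * (K + 1) * Λ0 * ∑ y ∈ (Finset.Ioo S.jl S.J).filter
        fun y => t ≤ M.s y ∧ M.s y ≤ t', dx M y * (cr S (M.s y) * φ (M.s y)) :=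
  (A.int_mean9 (LB_stp _ _ _ _) uk (h2.le.trans A.cl.i3) fun _ _ _ _ cy =>
    (A.nb_cell _ cy).le).trans (Ab33.abel_cru A E HJ l0 L1 c W hj hl h0 h1 h2 h3 h4 h5)

/-- crude size of the residual in the sloped part -/
theorem At.abs_G9 (A : At S M m a T) (E : CeiG S M G1) {k : ℕ} (h1 : S.jl < k) (h2 : k ≤ S.J) :
    |M.G k| ≤ 2 * S.C ^ 2 * (S.F * S.ms (M.s k) * M.s k) := by
  have h := A.cl
  have kp := h2.trans h.i3
  obtain ⟨p1, p2⟩ := A.Mf_sl le_rfl (h.sm kp) 0 _ le_rfl (h.s_nn k) le_rfl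
  have z : Rig.Mf M.b (lh M T) 0 = 0 := by
    show (0 : ℝ) - M.b * Pp.Ode3.Gam (lh M T) 0 = 0
    rw [Pp.Ode3.Gam_zero (L0.ap_of_ok A.okh.1)]; ring
  rw [A.Mf_node h1 kp, z] at p1 p2
  have q := Ab33.H_le h E h1 h2
  have C0 := h.C0
  have x0 := mul_nonneg (h.ms_pos (h.s_nn k)).le (h.s_nn k)
  have r0 : 0 ≤ S.ms 0 / S.C * (M.s k - 0) :=
    mul_nonneg (div_pos (h.ms_pos le_rfl) C0).le (by linarith [h.s_nn k])
  have r1 : S.C ≤ 2 * S.C ^ 2 * S.F := by nlinarith [h.C1, h.F1, mul_le_mul h.C1 h.F1 zero_le_one C0.le]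
  have r2 := mul_le_mul_of_nonneg_right r1 x0
  exact abs_le.2 ⟨by linarith [h.H_nn k], by linarith⟩

theorem cB_nn9 (h : Cl S M) (η : ℝ → ℝ) (t t' : ℝ) : 0 ≤ cB M S η t t' :=
  Finset.sum_nonneg fun k _ => by
    have := div_pos (h.ms_pos (h.s_nn k)) (show 0 < S.F by linarith [h.F1])
    have := Ab33.cr_one S (M.s k)
    refine mul_nonneg (sub_nonneg.2 (h.leg.zm (Nat.sub_le k 1))) ?_
    unfold mf; positivity

/-- the mesh error against `1 / n` -/
theorem meB_le9 (A : At S M m a T) {K x : ℝ} (hv : (204 + 48 * K) * S.C ^ 3 * S.F * S.v ≤ 1 / S.n)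
    (hx : 1 / (S.n : ℝ) ≤ x) : meB S m K ≤ 15 * x := by
  have a1 : (S.n : ℝ) ≤ m := by exact_mod_cast A.mem.m1
  have a2 := one_div_le_one_div_of_le A.cl.N0 (show (S.n : ℝ) ≤ m + 1 by linarith)
  unfold meB
  linarith [show (14 : ℝ) / (m + 1) = 14 * (1 / (m + 1)) by ring]

/-- crude location above `l` from the one above `l0` -/
theorem cru_of_cl9 (h : Cl S M) {lam l0 l V : ℝ} (l00 : 0 < l0) (hl : l0 ≤ l) (L0 : 0 ≤ lam)
    (hV : V ≤ cr S l * l) (c : ∀ k ≤ S.Jp, M.rb m a k ≤ lam * L69.cl S V (max (M.z k) l0)) :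
    Cru (2 * lam) S M m a l := fun k hk => by
  have p := Ab33.cc_mono h (lt_max_of_lt_right l00) (max_le_max (le_refl (M.z k)) hl)
  have q := Ab33.cc_mono h (l00.trans_le hl) (le_max_right (M.z k) l)
  have := mul_le_mul_of_nonneg_left (show L69.cl S V (max (M.z k) l0) ≤
    2 * (cr S (max (M.z k) l) * max (M.z k) l) by unfold L69.cl; linarith) L0
  linarith [c k hk]

namespace Bd
variable {Gn : ℕ → Prop} {u v k : ℕ} {en on c al om Ga : ℕ → ℝ} {l0 ka th ε t0 t' : ℝ} {η : ℝ → ℝ}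
  (B : Bd S M m a T Gn u v en on c al om Ga l0 ka th ε) (ce : CeiG S M G1)
include B ce

/-- the residual part -/
theorem intG9 (uk : u ≤ k) (kv : k ≤ v) (hj : M.s (S.jl + 1) ≤ t0) (h1 : t0 ≤ M.s u)
    (h3 : sb M m a (k + 1) ≤ t') :
    ∫ t in sb M m a (u + 1)..sb M m a (k + 1),
      min (|g2 M S t| ^ ((4 : ℝ) / 3)) (g2 M S t ^ 2 / mm M S m a t) ≤
      384 * S.C ^ 7 * cB M S η t0 t' + (max (t0 - sb M m a (u + 1)) 0 + S.C * S.v) *
        (1536 * S.C ^ 9 * (S.F ^ 3 * S.ms t0 * t0 ^ 2)) := by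
  classical
  have A := B.A
  have h := A.cl
  have C0 := h.C0
  have C1 := h.C1
  have F0 : 0 < S.F := by linarith [h.F1]
  have v0 := h.v0
  have vJ := B.vJ
  have i1 := h.i1
  have i3 := h.i3
  have t00 : 0 < t0 := (h.s_pos (Nat.succ_pos _)).trans_le hj
  have m0 := h.ms_pos t00.le
  have mA := A.sb_mem (k := u) (by omega)
  have mB := A.sb_mem (k := k) (by omega)
  have AB := A.sb_mono (Nat.succ_le_succ uk)
  have BJ := (A.sb_mono (Nat.succ_le_succ kv)).trans_lt B.hJ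
  have c0 := cB_nn9 h η t0 t'
  have ex : ∃ i, t0 ≤ M.s i := ⟨u, h1⟩
  obtain ⟨i, i2, i4, i5⟩ : ∃ i, t0 ≤ M.s i ∧ i ≤ u ∧ ∀ j < i, M.s j < t0 :=
    ⟨_, Nat.find_spec ex, Nat.find_min' ex h1, fun j hj => not_le.1 (Nat.find_min ex hj)⟩
  have ji : S.jl < i := lt_of_not_ge fun d => by
    have := (h.ss S.jl (by have := h.i2; omega)).1
    linarith [h.sm d, div_pos v0 C0]
  have si : M.s i ≤ t0 + S.C * S.v := by
    obtain ⟨i, rfl⟩ : ∃ j, i = j + 1 := ⟨i - 1, by omega⟩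
    linarith [(h.ss i (by omega)).2, i5 i i.lt_succ_self]
  have P0 : 0 ≤ 1536 * S.C ^ 9 * (S.F ^ 3 * S.ms t0 * t0 ^ 2) := by positivity
  have low : ∀ t, sb M m a (u + 1) < t → t < M.s i →
      min (|g2 M S t| ^ ((4 : ℝ) / 3)) (g2 M S t ^ 2 / mm M S m a t) ≤
        1536 * S.C ^ 9 * (S.F ^ 3 * S.ms t0 * t0 ^ 2) := fun t p q => by
    have a1 : S.ms t0 / (384 * S.C ^ 5 * S.F) ≤ mm M S m a t :=
      ((div_le_div_of_nonneg_right (h.msm h1) A.K_pos.le).trans (A.mn_le (y := u)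
        ⟨by omega, fun _ => le_rfl, fun _ => A.sb_lt B.hu.le (by omega)⟩)).trans (A.mm_mono p.le)
    have a2 : |g2 M S t| ≤ 2 * S.C ^ 2 * (S.F * S.ms t0 * t0) := by
      unfold g2
      split_ifs with d
      · have b0 := h.s_nn (S.jl + 1)
        have b1 := h.ms_pos b0
        have b2 : S.C ≤ 2 * S.C ^ 2 * S.F := by
          nlinarith [h.F1, mul_le_mul C1 h.F1 zero_le_one C0.le]
        rw [abs_of_nonneg (by positivity)]
        calc _ ≤ 2 * S.C ^ 2 * S.F * S.ms t0 * t0 := by have := h.msm hj; gcongr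
          _ = _ := by ring
      · obtain ⟨j, j1, j2, j3, j4⟩ := ref_ex9 (show S.jl + 1 ≤ i from ji) (not_lt.1 d) q
        rw [A.gt_cell (by omega) (by omega) j3 j4]
        have b1 := (i5 j j2).le
        have := h.msm b1
        have := h.s_nn j
        exact (A.abs_G9 ce j1 (by omega)).trans (by gcongr)
    refine (min_le_right _ _).trans ((div_le_div₀ (sq_nonneg _) (sq_le_sq' (by linarith [abs_le.1 a2])
      (abs_le.1 a2).2) (div_pos m0 A.K_pos) a1).trans_eq ?_)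
    field_simp; ring
  have nn : ∀ t, 0 ≤ t → 0 ≤ min (|g2 M S t| ^ ((4 : ℝ) / 3)) (g2 M S t ^ 2 / mm M S m a t) :=
    fun t ht => le_min (by positivity) (div_nonneg (sq_nonneg _) (A.mm_pos ht).le)
  have mx1 := le_max_left (t0 - sb M m a (u + 1)) 0
  have mx2 := le_max_right (t0 - sb M m a (u + 1)) 0
  have Cv := mul_pos C0 v0
  rcases le_or_gt (sb M m a (k + 1)) (M.s i) with d | d
  · refine (int_le_const B.LB_min2 mA.1 AB mB.2 fun t p q => low t p (q.trans_le d)).trans ?_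
    have := mul_le_mul_of_nonneg_right (show sb M m a (k + 1) - sb M m a (u + 1) ≤
      max (t0 - sb M m a (u + 1)) 0 + S.C * S.v by linarith) P0
    have : 0 ≤ 384 * S.C ^ 7 * cB M S η t0 t' := by positivity
    linarith
  obtain ⟨j, j1, j2, j3, j4⟩ := ref_ex9 (show i ≤ S.J by omega) d.le BJ
  have x1 := le_max_left (sb M m a (u + 1)) (M.s i)
  have x2 := le_max_right (sb M m a (u + 1)) (M.s i)
  have x3 : max (sb M m a (u + 1)) (M.s i) ≤ sb M m a (k + 1) := max_le AB d.le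
  rw [int_split B.LB_min2 mA ⟨mA.1.trans x1, x3.trans mB.2⟩ mB, add_comm]
  refine add_le_add ?_ ((int_le_const B.LB_min2 mA.1 x1 (x3.trans mB.2) fun t p q => low t p
    ((lt_max_iff.1 q).resolve_left (not_lt.2 p.le))).trans (mul_le_mul_of_nonneg_right ?_ P0))
  · refine (int_sub_le B.LB_min2 (h.s_nn i) x2 x3 j4.le
      ((h.sm (show j + 1 ≤ S.Jp by omega)).trans A.t2) fun t p _ => nn t ((h.s_nn i).trans p.le)).trans
      ((A.int_ref B.LB_min2 (w := fun y => 384 * S.C ^ 5 *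
        min (|M.G y| ^ ((4 : ℝ) / 3)) (M.G y ^ 2 / mf S (M.s y))) (by omega) (by omega)
        fun y t p q r s => ?_).trans ?_)
    · have b0 := h.s_nn y
      have b1 := h.ms_pos b0
      have b2 : 1 ≤ 384 * S.C ^ 5 := by linarith [one_le_pow₀ (n := 5) C1]
      rw [g2, if_neg (not_lt.2 ((h.sm (show S.jl + 1 ≤ y by omega)).trans r.le)),
        A.gt_cell (by omega) (by omega) r.le s, mul_min_of_nonneg _ _ (by linarith)]
      refine min_le_min (le_mul_of_one_le_left (by positivity) b2) ((div_le_div_of_nonneg_left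
        (sq_nonneg _) (div_pos b1 A.K_pos) ((div_le_div_of_nonneg_right (h.msm r.le)
          A.K_pos.le).trans (A.mm_ge t))).trans_eq ?_)
      unfold mf; field_simp
    · rw [cB, Finset.mul_sum]
      refine (Finset.sum_le_sum fun y hy => ?_).trans (Finset.sum_le_sum_of_subset_of_nonneg
        (fun y hy => ?_) fun y _ _ => ?_)
      · obtain ⟨y1, y2⟩ := Finset.mem_Ico.1 hy
        obtain ⟨y, rfl⟩ : ∃ x, y = x + 1 := ⟨y - 1, by omega⟩
        have b0 := div_pos (h.ms_pos (h.s_nn (y + 1))) F0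
        have b1 := (h.zs y (by omega) (by omega)).1
        have b2 := (h.ss (y + 1) (by omega)).2
        rw [div_le_iff₀ C0] at b1
        have b3 : M.s (y + 1 + 1) - M.s (y + 1) ≤ S.C ^ 2 * dx M (y + 1) := by
          have := mul_le_mul_of_nonneg_left b1 C0.le
          simp only [dx, Nat.add_sub_cancel]; linarith
        have b4 : 0 ≤ dx M (y + 1) := sub_nonneg.2 (h.leg.zm (Nat.sub_le _ 1))
        have b5 := Ab33.cr_one S (M.s (y + 1))
        have b6 : 0 ≤ min (|M.G (y + 1)| ^ ((4 : ℝ) / 3)) (M.G (y + 1) ^ 2 / mf S (M.s (y + 1))) :=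
          le_min (by positivity) (div_nonneg (sq_nonneg _) b0.le)
        have b7 : 0 ≤ cr S (M.s (y + 1)) * (η (M.s (y + 1)) ^ 2 / mf S (M.s (y + 1))) :=
          mul_nonneg (by linarith) (div_nonneg (sq_nonneg _) b0.le)
        have b8 := mul_le_mul_of_nonneg_right b3 (mul_nonneg (by positivity : 0 ≤ 384 * S.C ^ 5) b6)
        have b9 : 0 ≤ 384 * S.C ^ 7 * (dx M (y + 1) *
          (cr S (M.s (y + 1)) * (η (M.s (y + 1)) ^ 2 / mf S (M.s (y + 1))))) := by positivity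
        linarith
      · obtain ⟨y1, y2⟩ := Finset.mem_Ico.1 hy
        exact Finset.mem_filter.2 ⟨Finset.mem_Ioo.2 ⟨by omega, by omega⟩, i2.trans (h.sm y1),
          ((h.sm (show y ≤ j by omega)).trans j3).trans h3⟩
      · have := div_pos (h.ms_pos (h.s_nn y)) F0
        have := Ab33.cr_one S (M.s y)
        refine mul_nonneg (by positivity)
          (mul_nonneg (sub_nonneg.2 (h.leg.zm (Nat.sub_le y 1))) ?_)
        unfold mf; positivity
  · rcases le_total (sb M m a (u + 1)) (M.s i) with e | e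
    · rw [max_eq_right e]; linarith
    · rw [max_eq_left e]; linarith

/-- **the node part of the source** -/
theorem intN9 (HJ : M.H S.Jp ≤ S.C) {l Λ0 Λ K θ W : ℝ} (l00 : 0 < l) (L0 : 1 ≤ Λ0) (L1 : 1 ≤ Λ)
    (K0 : 0 ≤ K) (θ0 : 0 < θ) (cru : Cru Λ0 S M m a l) (ηa : Antitone η)
    (η2 : ∀ t, 0 < t → η t ≤ 16 * η (2 * t))
    (hal : ∀ y, u ≤ y → y < k → 0 ≤ al y ∧ al y ≤ Λ * η (M.s y) ∧ meB S m K ≤ Λ * η (M.s y))
    (uk : u ≤ k) (kv : k ≤ v) (hj : M.s (S.jl + 1) ≤ t0) (hl : l ≤ t0) (h1 : t0 ≤ M.s u)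
    (h2 : M.s k ≤ t') (h3 : sb M m a (k + 1) ≤ t') (h4 : 4 * S.C ^ 4 * t0 ≤ t')
    (h5 : 12 * S.C ^ 7 * t0 < 1) (hW : 2 * 10 ^ 15 * S.C ^ 32 * (Λ ^ 2 * Λ0) ≤ θ ^ 2 * W) :
    ∫ t in sb M m a (u + 1)..sb M m a (k + 1), fN M S m a al K θ t ≤ W * (cB M S η t0 t' +
      S.F ^ 3 * S.ms t0 * t0 ^ 2 * max (t0 - sb M m a (u + 1)) 0 + S.F ^ 3 * S.v) := by
  have A := B.A
  have h := A.cl
  have C0 := h.C0
  have C1 := h.C1
  have F0 : 0 < S.F := by linarith [h.F1]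
  have v0 := h.v0
  have vJ := B.vJ
  have i3 := h.i3
  have t00 := l00.trans_le hl
  have m0 := h.ms_pos t00.le
  have mA := A.sb_mem (k := u) (by omega)
  have mB := A.sb_mem (k := k) (by omega)
  have c0 := cB_nn9 h η t0 t'
  have p1 := B.intG9 ce (η := η) uk kv hj h1 h3
  have p2 := A.int_mean9 (B.LB_aN K) (w := fun y => 3763584 * S.C ^ 7 * Λ ^ 2 *
    (η (M.s y) ^ 2 / mf S (M.s y))) uk (by omega) fun y t a1 a2 cy => by
      obtain ⟨b1, b2, b3⟩ := hal y a1 a2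
      have b4 : 0 ≤ meB S m K := by unfold meB; positivity
      have b5 := h.ms_pos (h.s_nn y)
      have b6 := mul_le_mul_of_nonneg_right C1 (b4.trans b3)
      have b7 := mul_le_mul_of_nonneg_left b2 C0.le
      rw [aN, A.nb_cell al cy]
      refine (div_le_div₀ (sq_nonneg _) (pow_le_pow_left₀ (by positivity)
        (show _ ≤ 99 * (S.C * (Λ * η (M.s y))) by linarith) 2) (A.mn_pos y) (A.mn_le cy)).trans_eq ?_
      unfold mn mf; field_simp; ring
  have p3 := Ab33.abel_cB A ce HJ l00 L0 cru ηa η2 ((h.sm (Nat.le_succ _)).trans hj) hl B.hu h1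
    (kv.trans_lt vJ) h2 h4 h5
  simp only [mul_left_comm _ (3763584 * S.C ^ 7 * Λ ^ 2), ← Finset.mul_sum] at p2
  have p4 := p2.trans (mul_le_mul_of_nonneg_left p3 (by positivity))
  have e : ∫ t in sb M m a (u + 1)..sb M m a (k + 1), fN M S m a al K θ t = 2 / θ ^ 2 *
      (2 * (∫ t in sb M m a (u + 1)..sb M m a (k + 1), aN M S m a al K t ^ 2 / mm M S m a t) +
        ∫ t in sb M m a (u + 1)..sb M m a (k + 1),
          min (|g2 M S t| ^ ((4 : ℝ) / 3)) (g2 M S t ^ 2 / mm M S m a t)) := by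
    unfold fN
    rw [intervalIntegral.integral_const_mul, intervalIntegral.integral_add
      (((B.LB_aN K).ii mA mB).const_mul 2) (B.LB_min2.ii mA mB), intervalIntegral.integral_const_mul]
  rw [e, div_mul_eq_mul_div, div_le_iff₀ (by positivity), mul_comm _ (θ ^ 2), ← mul_assoc]
  have x0 : 0 ≤ S.F ^ 3 * S.ms t0 * t0 ^ 2 * max (t0 - sb M m a (u + 1)) 0 :=
    mul_nonneg (by positivity) (le_max_right _ _)
  have x1 : 0 ≤ S.F ^ 3 * S.v := by positivity
  refine le_trans ?_ (mul_le_mul_of_nonneg_right hW (by positivity))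
  have Q1 : 1 ≤ Λ ^ 2 * Λ0 := one_le_mul_of_one_le_of_one_le (one_le_pow₀ L1) L0
  have Q : ∀ i ≤ 32, S.C ^ i ≤ S.C ^ 32 * (Λ ^ 2 * Λ0) := fun i hi =>
    (pow_le_pow_right₀ C1 hi).trans (le_mul_of_one_le_right (by positivity) Q1)
  have q1 := mul_le_mul_of_nonneg_right (Q 7 (by norm_num)) c0
  have q2 := mul_le_mul_of_nonneg_right (Q 9 (by norm_num)) x0
  have q3 := mul_le_mul_of_nonneg_right (Q 10 (by norm_num)) x1
  have q4 : S.ms t0 * t0 ^ 2 ≤ 1 := mul_le_one₀ ((h.ms1 t0).trans B.θ1) (sq_nonneg _)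
    (pow_le_one₀ t00.le (by nlinarith [one_le_pow₀ (n := 7) C1]))
  have q5 := mul_le_mul_of_nonneg_left q4 (by positivity : 0 ≤ S.C ^ 10 * (S.F ^ 3 * S.v))
  have q6 := mul_le_mul_of_nonneg_right (pow_le_pow_right₀ C1 (show 12 ≤ 32 by norm_num))
    (by positivity : 0 ≤ Λ ^ 2 * Λ0 * cB M S η t0 t')
  have q7 : 0 ≤ S.C ^ 32 * (Λ ^ 2 * Λ0) * cB M S η t0 t' := by positivity
  have q8 : 0 ≤ S.C ^ 32 * (Λ ^ 2 * Λ0) * (S.F ^ 3 * S.v) := by positivity
  have q9 := mul_nonneg (by positivity : 0 ≤ S.C ^ 32 * (Λ ^ 2 * Λ0)) x0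
  linarith

end Bd

end Crest.Agent.T156.Alt.Mp9

end
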