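import Crest.Agent.T156.ClTopB_27

/-!
Row 156, ALT, text (L) (helper27): node sums for the clock and for the residual part of the source.
-/

set_option autoImplicit false

noncomputable section

namespace Crest.Agent.T156.Alt.Mp9

open MeasureTheory Set Real
open Crest.Agent.R164.GC Crest.Agent.R339.B Crest.Agent.R339.Var Crest.Agent.T157.Pf
open Crest.Agent.T156.Pp.Area50 Crest.Agent.T156.Spl27 Crest.Agent.T156.Zb9
open Crest.Agent.T156.Cut8 (LB Res Fr Cont Jf int_split int_mono int_le_const int_sub_le abs_int_le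
  int_zero)
open Crest.Agent.T156.Gap27 (yN HN Cons resN gl NumM HLip xi)

namespace At
variable {S : Sc} {M : Md} {m : ℕ} {a T : ℝ}

theorem step_dx (A : At S M m a T) {k : ℕ} (h0 : S.j0 < k) (hk : k < S.J) (i : ℕ) (hi : i < S.J) :
    M.s (i + 1) - M.s i ≤ S.C ^ 2 * (M.z k - M.z (k - 1)) := by
  obtain ⟨k, rfl⟩ : ∃ j, k = j + 1 := ⟨k - 1, by omega⟩
  have p := (A.cl.zs k (by omega) hk).1
  have q := (A.cl.ss i hi).2
  rw [div_le_iff₀ A.c_pos] at p
  rw [Nat.add_sub_cancel]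
  nlinarith [mul_le_mul_of_nonneg_left p A.c_pos.le]

theorem cc_low (A : At S M m a T) (c : ℕ → ℝ) {u : ℕ} (v : ℕ) (hu : S.j0 ≤ u) {t : ℝ}
    (h : t < M.s u) : cc M S c u v t = 0 := by
  obtain ⟨k, ck⟩ := exists_Cell A.uh t
  have := ck.lt A.uh (Nat.succ_pos u) (by rwa [A.sh_succ hu])
  rw [cc, ck.stp A.uh, cut, if_neg (by omega)]

/-- crude size of the residual at low levels -/
theorem G_low (A : At S M m a T) {G1 t0 : ℝ} (E : CeiG S M G1) {k : ℕ} (h1 : S.jl < k) (hk : k < S.J)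
    (h : M.s k ≤ t0) (hv : S.C * S.v ≤ t0) : |M.G k| ≤ 4 * S.C ^ 3 * S.F * S.ms t0 * t0 := by
  have C0 := A.c_pos
  have C1 := A.cl.C1
  have F1 := A.cl.F1
  have v0 := v_pos A.cl
  have k0 := s_nn A.cl k
  have kp : k ≤ S.Jp := hk.le.trans A.cl.i3
  have a1 := A.H_abs E h1 hk
  have a2 := A.Mf_node h1 kp
  obtain ⟨a3, a4⟩ := A.Mf_sl le_rfl (A.cl.sm kp) 0 (M.s k) le_rfl k0 le_rfl
  have m0 : Rig.Mf M.b (lh M T) 0 = 0 := by
    show 0 - M.b * Pr.Gam (lh M T) 0 = 0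
    rw [show Pr.Gam (lh M T) 0 = 0 from Pp.Ode3.Gam_zero (ap_of_ok A.okh.1)]; ring
  have sk : M.s k < M.s S.J := (s_lt A.cl hk).trans_le (A.cl.sm hk)
  have z := A.zh_le' k0 sk
  rw [A.lvh_node (by have := A.cl.i1; omega) hk] at z
  have z0 : 0 < M.z k := A.a_pos.trans_le (A.xb_mono (Nat.zero_le (k + 1)))
  have H0 : 0 ≤ M.H k := A.cl.leg.H0 ▸ A.cl.leg.Hm (Nat.zero_le k)
  have mk := A.ms_pos k0
  have m1 := A.cl.msm h
  have t1 : 0 ≤ t0 := k0.trans h
  have n0 : 0 ≤ S.ms 0 / S.C * (M.s k - 0) := by have := A.ms_pos le_rfl; rw [sub_zero]; positivity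
  have j1 := (A.cl.sm h1.le).trans h
  have c2 : 1 ≤ S.C ^ 2 := one_le_pow₀ C1
  have b1 : M.s S.jl + S.C * M.z k ≤ 4 * S.C ^ 2 * t0 := by
    nlinarith [mul_le_mul_of_nonneg_left z C0.le, mul_le_mul_of_nonneg_left h (sq_nonneg S.C),
      mul_le_mul_of_nonneg_right c2 t1, mul_le_mul_of_nonneg_left hv C0.le,
      mul_le_mul_of_nonneg_right C1 (mul_nonneg C0.le t1)]
  have b2 : S.C * S.F * S.ms (M.s k) * (M.s S.jl + S.C * M.z k) ≤
      S.C * S.F * S.ms t0 * (4 * S.C ^ 2 * t0) :=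
    mul_le_mul (mul_le_mul_of_nonneg_left m1 (by positivity)) b1
      (by have := s_nn A.cl S.jl; positivity) (by have := mk.trans_le m1; positivity)
  have b3 : S.C * S.ms (M.s k) * (M.s k - 0) ≤ S.C * S.ms t0 * t0 :=
    mul_le_mul (mul_le_mul_of_nonneg_left m1 C0.le) (by linarith) (by linarith)
      (by have := mk.trans_le m1; positivity)
  have b4 : S.C * S.ms t0 * t0 ≤ 4 * S.C ^ 3 * S.F * S.ms t0 * t0 := by
    have : 1 ≤ 4 * S.C ^ 2 * S.F := by nlinarith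
    have := mul_le_mul_of_nonneg_right this (show 0 ≤ S.C * S.ms t0 * t0 by
      have := mk.trans_le m1; positivity)
    linarith
  exact abs_le.2 ⟨by linarith, by linarith⟩

end At

namespace Bd
variable {S : Sc} {M : Md} {m : ℕ} {a T : ℝ} {Gn : ℕ → Prop} {u v : ℕ}
  {en on c al om Ga : ℕ → ℝ} {l0 ka th ε : ℝ}
  (B : Bd S M m a T Gn u v en on c al om Ga l0 ka th ε)
include B

open Classical in
/-- **the clock** -/
theorem int_pw {p q : ℝ} (p0 : 0 ≤ p) (pq : p ≤ q) (hq : q < M.s S.J) :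
    ∫ t in p..q, pw M S c u v l0 t ^ 2 ≤ 2 * l0 ^ 2 * (q - p) + 2 * S.C ^ 6 *
      ∑ y ∈ (Finset.Ioc u v).filter fun y => M.s y ≤ q + S.C * S.v,
        (M.z y - M.z (y - 1)) * c y ^ 2 := by
  have A := B.A
  have i1 := A.cl.i1
  have i3 := A.cl.i3
  have hu := B.hu
  have vJ := B.vJ
  have zm := A.cl.leg.zm
  have qT : q ≤ T := (hq.le.trans (A.cl.sm i3)).trans A.t2
  have mp : p ∈ Icc 0 T := ⟨p0, pq.trans qT⟩
  have mq : q ∈ Icc 0 T := ⟨p0.trans pq, qT⟩
  have lc : LB T (cc M S c u v) := LB_stp _ _ _ _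
  have a1 := int_mono B.LB_pw.sq ((LB.const (2 * l0 ^ 2)).add ((LB.const (2 * S.C ^ 4)).mul lc.sq))
    p0 pq qT fun t _ _ => by unfold pw; nlinarith [sq_nonneg (l0 - S.C ^ 2 * cc M S c u v t)]
  rw [intervalIntegral.integral_add ((LB.const _).ii mp mq) (((LB.const _).mul lc.sq).ii mp mq),
    intervalIntegral.integral_const, intervalIntegral.integral_const_mul, smul_eq_mul] at a1
  have s0 : 0 ≤ ∑ y ∈ (Finset.Ioc u v).filter fun y => M.s y ≤ q + S.C * S.v,
      (M.z y - M.z (y - 1)) * c y ^ 2 :=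
    Finset.sum_nonneg fun y _ => mul_nonneg (sub_nonneg.2 (zm (Nat.sub_le _ _))) (sq_nonneg _)
  have key : ∫ t in p..q, cc M S c u v t ^ 2 ≤ S.C ^ 2 *
      ∑ y ∈ (Finset.Ioc u v).filter fun y => M.s y ≤ q + S.C * S.v,
        (M.z y - M.z (y - 1)) * c y ^ 2 := by
    rcases le_or_gt q (M.s u) with h | h
    · rw [int_zero pq fun t _ b => by rw [A.cc_low c v (by omega) (b.trans_le h)]; ring]
      positivity
    · obtain ⟨j, j1, j2, j3, j4⟩ := A.exists_ref h.le hq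
      have jT : M.s (j + 1) ≤ T := (A.cl.sm (show j + 1 ≤ S.Jp by omega)).trans A.t2
      have uT : M.s u ∈ Icc 0 T := ⟨s_nn A.cl u, h.le.trans qT⟩
      have b1 := int_sub_le lc.sq le_rfl p0 pq j4.le jT fun _ _ _ => sq_nonneg _
      rw [int_split lc.sq ⟨le_rfl, uT.1.trans uT.2⟩ uT ⟨s_nn A.cl _, jT⟩,
        int_zero uT.1 fun t _ b => by rw [A.cc_low c v (by omega) b]; ring, zero_add] at b1
      have b2 := A.int_ref lc.sq (w := fun k => cut c u v (k + 1) ^ 2) (i := u) (j := j + 1)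
        (by omega) (by omega) fun k t a b c1 c2 => by
          rw [A.cc_cell c u v (by omega) (by omega) c1.le c2]
      refine (b1.trans b2).trans ?_
      rw [Finset.mul_sum, Finset.sum_filter]
      refine le_trans (Finset.sum_le_sum (g := fun k => (fun y => if u < y ∧ y ≤ v then
        S.C ^ 2 * ((M.z y - M.z (y - 1)) * c y ^ 2) else 0) (k + 1)) fun k hk => ?_) ?_
      · rw [Finset.mem_Ico] at hk
        simp only [cut]
        split_ifs with e
        · linarith [mul_le_mul_of_nonneg_right (A.step_dx (k := k + 1) (by omega) (by omega) k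
            (by omega)) (sq_nonneg (c (k + 1)))]
        · simp
      · rw [Finset.sum_Ico_add' (fun y => if u < y ∧ y ≤ v then
          S.C ^ 2 * ((M.z y - M.z (y - 1)) * c y ^ 2) else 0) u (j + 1) 1, ← Finset.sum_filter,
          ← Finset.sum_filter]
        refine Finset.sum_le_sum_of_subset_of_nonneg (fun y hy => ?_) fun y _ _ =>
          mul_nonneg (sq_nonneg _) (mul_nonneg (sub_nonneg.2 (zm (Nat.sub_le _ _))) (sq_nonneg _))
        simp only [Finset.mem_filter, Finset.mem_Ico, Finset.mem_Ioc] at hy ⊢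
        exact ⟨hy.2, by linarith [A.cl.sm (show y ≤ j + 1 by omega), (A.cl.ss j j2).2]⟩
  linarith [mul_le_mul_of_nonneg_left key (show 0 ≤ 2 * S.C ^ 4 by positivity)]

/-- the label clock lost below the first node -/
theorem lost : ∃ r, 0 ≤ r ∧
    Om M c u v (lvr 1 (lh M T) (sb M m a (u + 1))) - Om M c u v (M.z u) ≤ r ∧
    r ^ 2 ≤ sb M m a (u + 1) *
      (2 * (∫ t in (0 : ℝ)..sb M m a (u + 1), pw M S c u v l0 t ^ 2) + S.v) := by
  have A := B.A
  have i1 := A.cl.i1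
  have hu := B.hu
  have uJ := B.uv.trans B.vJ
  have A0 := B.A_pos
  have v0 := v_pos A.cl
  have AJ := (A.sb_mono (Nat.succ_le_succ B.uv.le)).trans_lt B.hJ
  have AT := (B.mem (u + 1) (Nat.succ_le_succ B.uv.le)).2
  have I0 : 0 ≤ ∫ t in (0 : ℝ)..sb M m a (u + 1), pw M S c u v l0 t ^ 2 :=
    intervalIntegral.integral_nonneg A0.le fun _ _ => sq_nonneg _
  rw [← A.lvh_node (k := u) (by omega) uJ]
  rcases le_total (sb M m a (u + 1)) (M.s u) with h | h
  · exact ⟨0, le_rfl, sub_nonpos.2 (Om_mono M B.c0 u v (Sc48.lvr_mono A.okh.1.1 h)), by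
      rw [sq, zero_mul]; positivity⟩
  · have u0 := s_nn A.cl u
    have a1 := B.o2 u0 h AJ
    have a2 := Gap27.sq_int_le B.LB_pw le_rfl A0.le AT
    have a3 := int_sub_le B.LB_pw.abs le_rfl u0 h le_rfl AT fun _ _ _ => abs_nonneg _
    have a4 := int_mono B.LB_pw B.LB_pw.abs u0 h AT fun t _ _ => le_abs_self _
    have a5 : 0 ≤ ∫ t in (0 : ℝ)..sb M m a (u + 1), |pw M S c u v l0 t| :=
      intervalIntegral.integral_nonneg A0.le fun _ _ => abs_nonneg _
    have a6 := mul_le_mul_of_nonneg_right (B.me.trans h) v0.le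
    refine ⟨_ + S.C * S.v, add_nonneg a5 (mul_pos A.c_pos v0).le,
      by linarith [mul_nonneg B.l00 (sub_nonneg.2 h)], ?_⟩
    nlinarith [sq_nonneg ((∫ t in (0 : ℝ)..sb M m a (u + 1), |pw M S c u v l0 t|) - S.C * S.v),
      mul_pos A0 v0]

theorem mm_low {t0 t : ℝ} (h0 : t0 ≤ M.s u) (h : sb M m a (u + 1) ≤ t) :
    S.ms t0 / (384 * S.C ^ 5 * S.F) ≤ mm M S m a t :=
  ((div_le_div_of_nonneg_right (B.A.cl.msm h0) B.A.K_pos.le).trans
    (B.A.mn_le (B.A.cell B.hu.le (B.uv.trans B.vp).le))).trans (B.A.mm_mono h)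

open Classical in
/-- **the residual part of the source** -/
theorem int_min2 {G1 t0 q : ℝ} (E : CeiG S M G1) (h0 : M.s (S.jl + 1) ≤ t0) (h1 : t0 ≤ M.s u)
    (hv : S.C * S.v ≤ t0) (pq : sb M m a (u + 1) ≤ q) (hq : q < M.s S.J) :
    ∫ t in sb M m a (u + 1)..q, min (|g2 M S t| ^ ((4 : ℝ) / 3)) (g2 M S t ^ 2 / mm M S m a t) ≤
      384 * S.C ^ 7 * ∑ k ∈ (Finset.Ioo S.jl S.J).filter fun k => t0 ≤ M.s k ∧ M.s k ≤ q,
        (M.z k - M.z (k - 1)) * min (|M.G k| ^ ((4 : ℝ) / 3)) (M.G k ^ 2 / (S.ms (M.s k) / S.F)) +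
      (max (t0 - sb M m a (u + 1)) 0 + S.C * S.v) *
        (6144 * S.C ^ 11 * S.F ^ 3 * S.ms t0 * t0 ^ 2) := by
  have A := B.A
  have C0 := A.c_pos
  have C1 := A.cl.C1
  have F0 : 0 < S.F := by linarith [A.cl.F1]
  have v0 := v_pos A.cl
  have i1 := A.cl.i1
  have i3 := A.cl.i3
  have uJ := B.uv.trans B.vJ
  have zm := A.cl.leg.zm
  have A0 := B.A_pos
  have qT : q ≤ T := (hq.le.trans (A.cl.sm i3)).trans A.t2
  have t1 : 0 ≤ t0 := (s_nn A.cl _).trans h0
  have m0 := A.ms_pos t1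
  have lf := B.LB_min2
  have nn : ∀ t, 0 ≤ t → 0 ≤ min (|g2 M S t| ^ ((4 : ℝ) / 3)) (g2 M S t ^ 2 / mm M S m a t) :=
    fun t h => le_min (by positivity) (div_nonneg (sq_nonneg _) (A.mm_pos h).le)
  obtain ⟨i, p1, p2, p3, p4⟩ := A.exists_ref h0 (h1.trans_lt ((s_lt A.cl uJ).trans_le (A.cl.sm uJ)))
  have si := (A.cl.ss i p2).2
  set Γ := 6144 * S.C ^ 11 * S.F ^ 3 * S.ms t0 * t0 ^ 2 with hΓ
  have Γ0 : 0 ≤ Γ := by positivity
  have low : ∀ t, sb M m a (u + 1) < t → t < M.s (i + 1) →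
      min (|g2 M S t| ^ ((4 : ℝ) / 3)) (g2 M S t ^ 2 / mm M S m a t) ≤ Γ := fun t a1 a2 => by
    have g : |g2 M S t| ≤ 4 * S.C ^ 3 * S.F * S.ms t0 * t0 := by
      unfold g2
      split_ifs with e
      · have s0 := s_nn A.cl (S.jl + 1)
        have := A.ms_pos s0
        rw [abs_of_nonneg (by positivity)]
        refine mul_le_mul (mul_le_mul ?_ (A.cl.msm h0) this.le (by positivity)) h0 s0
          (by positivity)
        have c3 : S.C ≤ S.C ^ 3 := le_self_pow₀ C1 (by norm_num)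
        linarith [mul_le_mul_of_nonneg_left A.cl.F1 (pow_pos C0 3).le]
      · obtain ⟨k, q1, q2, q3, q4⟩ := A.exists_ref (not_lt.1 e) a2
        rw [A.gt_cell (by omega) (by omega) q3 q4]
        exact A.G_low E q1 (by omega) ((A.cl.sm (by omega)).trans p3) hv
    refine (min_le_right _ _).trans ((div_le_div₀ (by positivity)
      ((sq_abs _).symm.trans_le (pow_le_pow_left₀ (abs_nonneg _) g 2)) (by positivity)
      (B.mm_low h1 a1.le)).trans_eq ?_)
    rw [hΓ]; field_simp; ring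
  have s0 : 0 ≤ ∑ k ∈ (Finset.Ioo S.jl S.J).filter fun k => t0 ≤ M.s k ∧ M.s k ≤ q,
      (M.z k - M.z (k - 1)) * min (|M.G k| ^ ((4 : ℝ) / 3)) (M.G k ^ 2 / (S.ms (M.s k) / S.F)) :=
    Finset.sum_nonneg fun k _ => mul_nonneg (sub_nonneg.2 (zm (Nat.sub_le _ _))) (le_min
      (by positivity) (by have := A.ms_pos (s_nn A.cl k); positivity))
  have mx := le_max_left (t0 - sb M m a (u + 1)) 0
  have mx0 := le_max_right (t0 - sb M m a (u + 1)) 0
  rcases le_or_gt q (M.s (i + 1)) with h | h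
  · have a1 := int_le_const lf A0.le pq qT fun t a b => low t a (b.trans_le h)
    have a2 := mul_le_mul_of_nonneg_right (show q - sb M m a (u + 1) ≤
      max (t0 - sb M m a (u + 1)) 0 + S.C * S.v by linarith) Γ0
    have : 0 ≤ 384 * S.C ^ 7 := by positivity
    linarith [mul_nonneg this s0]
  · obtain ⟨j, j1, j2, j3, j4⟩ := A.exists_ref h.le hq
    have jT : M.s (j + 1) ≤ T := (A.cl.sm (show j + 1 ≤ S.Jp by omega)).trans A.t2
    have b2 := A.int_ref lf (w := fun k => 384 * S.C ^ 5 *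
      min (|M.G k| ^ ((4 : ℝ) / 3)) (M.G k ^ 2 / (S.ms (M.s k) / S.F))) (i := i + 1) (j := j + 1)
      (by omega) (by omega) fun k t a b c1 c2 => by
        have mk := A.ms_pos (s_nn A.cl k)
        have c5 : 1 ≤ 384 * S.C ^ 5 := by linarith [one_le_pow₀ C1 (n := 5)]
        rw [g2, if_neg (not_lt.2 ((A.cl.sm (by omega)).trans c1.le)),
          A.gt_cell (by omega) (by omega) c1.le c2, mul_min_of_nonneg _ _ (by positivity)]
        refine min_le_min (le_mul_of_one_le_left (by positivity) c5) ((div_le_div_of_nonneg_left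
          (sq_nonneg _) (by positivity) ((div_le_div_of_nonneg_right (A.cl.msm c1.le)
            A.K_pos.le).trans (A.mm_ge t))).trans_eq ?_)
        field_simp
    have b3 : ∑ k ∈ Finset.Ico (i + 1) (j + 1), (M.s (k + 1) - M.s k) * (384 * S.C ^ 5 *
        min (|M.G k| ^ ((4 : ℝ) / 3)) (M.G k ^ 2 / (S.ms (M.s k) / S.F))) ≤ 384 * S.C ^ 7 *
        ∑ k ∈ (Finset.Ioo S.jl S.J).filter fun k => t0 ≤ M.s k ∧ M.s k ≤ q,
        (M.z k - M.z (k - 1)) * min (|M.G k| ^ ((4 : ℝ) / 3)) (M.G k ^ 2 / (S.ms (M.s k) / S.F)) := by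
      have n1 : ∀ k, 0 ≤ min (|M.G k| ^ ((4 : ℝ) / 3)) (M.G k ^ 2 / (S.ms (M.s k) / S.F)) :=
        fun k => le_min (by positivity) (by have := A.ms_pos (s_nn A.cl k); positivity)
      rw [Finset.mul_sum]
      refine le_trans (Finset.sum_le_sum fun k hk => ?_)
        (Finset.sum_le_sum_of_subset_of_nonneg (fun y hy => ?_) fun y _ _ =>
          mul_nonneg (by positivity) (mul_nonneg (sub_nonneg.2 (zm (Nat.sub_le _ _))) (n1 y)))
      · rw [Finset.mem_Ico] at hk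
        linarith [mul_le_mul_of_nonneg_right (A.step_dx (k := k) (by omega) (by omega) k (by omega))
          (mul_nonneg (show 0 ≤ 384 * S.C ^ 5 by positivity) (n1 k))]
      · simp only [Finset.mem_filter, Finset.mem_Ico, Finset.mem_Ioo] at hy ⊢
        exact ⟨by omega, p4.le.trans (A.cl.sm hy.1), (A.cl.sm (by omega)).trans j3⟩
    have i0 := s_nn A.cl (i + 1)
    rcases le_total (M.s (i + 1)) (sb M m a (u + 1)) with e | e
    · have := int_sub_le lf i0 e pq j4.le jT fun t a _ => nn t (i0.trans a.le)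
      linarith [mul_nonneg (add_nonneg mx0 (mul_pos C0 v0).le) Γ0]
    · have a1 := int_le_const lf A0.le e (h.le.trans qT) low
      have a2 := mul_le_mul_of_nonneg_right (show M.s (i + 1) - sb M m a (u + 1) ≤
        max (t0 - sb M m a (u + 1)) 0 + S.C * S.v by linarith) Γ0
      have a3 := int_sub_le lf i0 le_rfl h.le j4.le jT fun t a _ => nn t (i0.trans a.le)
      rw [int_split lf ⟨A0.le, pq.trans qT⟩ ⟨i0, h.le.trans qT⟩ ⟨A0.le.trans pq, qT⟩]
      linarith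

end Bd

end Crest.Agent.T156.Alt.Mp9

end
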