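import Crest.Agent.T156.BdE_75
import Crest.Agent.T156.ClSum_27
import Crest.Agent.T156.LInt_31

/-!
# Row 156, block (L): the bulk `Bk` from the three sums (helper75)
-/

set_option autoImplicit false

noncomputable section

namespace Crest.Agent.T156.Alt.B75

open MeasureTheory Set Real
open Crest.Agent.R164.GC Crest.Agent.R339.B Crest.Agent.R339.Var Crest.Agent.T157.Pf
open Crest.Agent.T156.Gap27 (HLip)
open Crest.Agent.T156.Alt.Mp9 Crest.Agent.T156.Alt.L69 Crest.Agent.T156.Alt.C74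
open Crest.Agent.T156.Alt.L31

/-- the clock density of the bulk -/
def omK (S : Sc) (M : Md) (m : ℕ) (a W : ℝ) (p : Pa) (Gn : ℕ → Prop) (u v : ℕ) : ℝ → ℝ :=
  pw2 M S m a Gn (cc2 M S m a W p.Lg p.X2) u v (2602 * (W * p.X2)) (2 * W ^ 4 / p.Lg)
/-- the source of the bulk -/
def fK (S : Sc) (M : Md) (m : ℕ) (a W ε K θ0 : ℝ) (p : Pa) (Gn : ℕ → Prop) (u v : ℕ) : ℝ → ℝ :=
  fB M S m a Gn u v (alB M W p.η) ε K θ0
/-- the bulk data -/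
def BdK (S : Sc) (M : Md) (m : ℕ) (a W ε : ℝ) (p : Pa) (Gn : ℕ → Prop) (u v : ℕ) : Prop :=
  Bd S M m a (2 * S.C) Gn u v (enB M W p.η) (onB M S W p.Lg) (cc2 M S m a W p.Lg p.X2)
    (alB M W p.η) (omB M S W p.Lg) (GaB M S ε) (2602 * (W * p.X2)) (2 * W ^ 4 / p.Lg) (W / p.Lg) ε

variable {S : Sc} {M : Md} {m : ℕ} {a E lam W W' ε K θ0 : ℝ} {p : Pa} {Gn : ℕ → Prop} {V0 u v : ℕ}

theorem at_of (c : Cl S M) (hm : S.In m a) (H : Hx E lam S M m a p) : At S M m a (2 * S.C) :=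
  ⟨c, hm, by linarith [c.b1, H.ln.HJ], by linarith [c.sT, c.C0]⟩

theorem bdK (c : Cl S M) (hm : S.In m a) (H : Hx E lam S M m a p) (G : Ng E W S M m a p Gn V0)
    (W1 : 1 ≤ W) (θ1 : S.θ ≤ 1) (ε0 : 0 < ε) (ε1 : ε ≤ 1)
    (hE : (1536 * S.C ^ 7 * W ^ 4) ^ 6 * S.F ^ 3 ≤ ε ^ 6 * E) (hu : Vs M p Gn u)
    (hv : Ve S M m a Gn V0 v) (uv : u < v) : BdK S M m a W ε p Gn u v :=
  bd_of2 (at_of c hm H) H.ce H.ln G.ng (le_max_left _ _) W1 θ1 ε0 ε1 hE hu.2 uv hv.2.1 hu.1 hv.1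
    hv.2.2.2.2

/-- **the bulk** from the three sums -/
theorem bk_of (H : Hx E lam S M m a p) (G : Ng E W S M m a p Gn V0) (W1 : 1 ≤ W)
    (hu : Vs M p Gn u) (hv : Ve S M m a Gn V0 v) (B : BdK S M m a W ε p Gn u v)
    (hE : 4 * S.C ^ 2 ≤ E) (vn : S.v ≤ 1 / S.n) (K0 : 0 ≤ K) (hA : HLip Pr.AA (2 * S.C) K)
    (hN : HLip Pr.NN (2 * S.C) K) (h0 : 0 < θ0) (h1 : θ0 ≤ 1)
    (hε : (17 + 24 * K + 96 * S.C ^ 2) * ε + (24 * K * ε) ^ 2 / θ0 ≤ θ0)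
    (hW : 11250 * S.C ^ 8 * W ^ 3 ≤ W')
    (hr : ∀ t0 t' Y, p.l ≤ t0 → t0 ≤ M.s u → 12 * S.C ^ 7 * t0 < 1 → sb M m a (u + 1) ≤ t' →
      L4 S p.V p.X t0 (min (2 * t') S.C) Y → 0 ≤ Y →
      2 * (∫ t in (0 : ℝ)..sb M m a (u + 1),
        pw M S (cc2 M S m a W p.Lg p.X2) u v (2602 * (W * p.X2)) t ^ 2) + S.v ≤
      W' * (t' * p.X2 ^ 2 + Y + 1 / (S.n : ℝ) ^ 3 +
        if 1 ≤ 16 * S.C ^ 5 * t' then p.N + cB M S p.η t0 S.C else 0))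
    (hF : ∀ k t0 t', u ≤ k → k ≤ v → Gn k → p.l ≤ t0 → t0 ≤ M.s u →
      4 * S.C ^ 4 * t0 ≤ t' → 12 * S.C ^ 7 * t0 < 1 → M.s k ≤ t' → sb M m a (k + 1) ≤ t' →
      ∫ r in sb M m a (u + 1)..sb M m a (k + 1), fK S M m a W ε K θ0 p Gn u v r ≤
        W' * (cB M S p.η t0 t' + S.F ^ 3 * S.ms t0 * t0 ^ 2 * max (t0 - sb M m a (u + 1)) 0 +
          1 / (S.n : ℝ) ^ 3) +
        ∫ r in sb M m a (u + 1)..sb M m a (k + 1), HH M S m a (2 * S.C) r * uu M S m a (2 * S.C) r)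
    (hΩ : ∀ k t0 t' Y, u ≤ k → k ≤ v → Gn k → p.l ≤ t0 → t0 ≤ M.s u →
      12 * S.C ^ 7 * t0 < 1 → sb M m a (k + 1) ≤ t' → L4 S p.V p.X t0 (min (2 * t') S.C) Y →
      0 ≤ Y → ∫ r in sb M m a (u + 1)..sb M m a (k + 1), omK S M m a W p Gn u v r ^ 2 ≤
        W' * (t' * p.X2 ^ 2 + Y + 1 / (S.n : ℝ) ^ 3 +
          if 1 ≤ 16 * S.C ^ 5 * t' then p.N + cB M S p.η t0 S.C else 0) +
        θ0 ^ 2 * ∫ r in sb M m a (u + 1)..sb M m a (k + 1), uu M S m a (2 * S.C) r ^ 4) :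
    ∃ r1 r2 β, Bk W' θ0 S M m a p Gn u v r1 r2 (omK S M m a W p Gn u v) β
      (fK S M m a W ε K θ0 p Gn u v) := by
  unfold BdK at B
  have A := B.A
  have c := A.cl
  have N := H.ln
  have C1 := c.C1
  have C2 : 1 ≤ S.C ^ 2 := one_le_pow₀ C1
  have W0 : 0 ≤ W := by linarith
  have E1 : 1 ≤ E := by linarith
  have X0 := X2_nn c N (by linarith)
  have g1 : 1 ≤ p.Lg := (one_le_mul_of_one_le_of_one_le E1 (one_le_pow₀ c.F1)).trans N.Lg0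
  have uJ := B.uv.trans B.vJ
  have me := B.me.trans (c.sm uJ.le)
  have sj := c.s_pos (c.i0.trans c.i1)
  have l00 : 0 < p.l0 := (mul_pos (by linarith) sj).trans_le N.l0s
  have lo : max p.l (2 * p.l0) ≤ M.s u := by linarith [hu.2, le_max_right p.l (2 * p.l0)]
  have lu := (le_max_left _ _).trans lo
  obtain ⟨r1, r2, β, R, e1, e2, e3, e4⟩ := B.resB K0 hA hN h0 h1 hε (cmB_nn W0 X0)
    (hcm c g1 W0 me hv.2.2.2.1)
  obtain ⟨r, r0, q1, q2⟩ := B.lost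
  have b := be_le (v := v) A N E1 W1 me vn hv.2.2.1 B.vJ.le (lu.trans (c.sm B.uv.le))
    (abs_nonneg (L0.Gd (lb M S m a (2 * S.C)) (sb M m a (v + 1))))
    (abs_nonneg (uu M S m a (2 * S.C) (sb M m a (v + 1))))
  rw [← e2] at b
  have ρ1 := rho_le (V := p.V) A W0 X0 N.V0 W1 l00 (N.l0l.trans lu) (c.i1.trans B.hu.le) uJ B.me
    fun k hk => G.cru k (by have := c.J_lt; omega)
  have A0 := B.A_pos
  have h8 : 0 ≤ S.C ^ 8 * W ^ 3 := by positivity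
  refine ⟨r1, r2, β, B.LB_fB K θ0, R, e1 v B.uv.le le_rfl B.gv, ⟨b.1, b.2.trans
    (mul_le_mul_of_nonneg_right hW ?_)⟩, ⟨r, r0, fun t0 t' Y a1 a2 a3 a4 a5 a6 => ?_,
    e3 _ fun i i1 i2 gi => ?_⟩, fun t a1 a2 a3 => ?_, fun t t0 => ?_, hF, hΩ⟩
  · exact (mul_nonneg_iff_of_pos_left (by positivity)).1 (b.1.trans b.2)
  · refine q2.trans ?_
    rw [mul_comm W', mul_assoc]
    exact mul_le_mul_of_nonneg_left (hr t0 t' Y a1 a2 a3 a4 a5 a6) A0.le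
  · have a1 := ab_of A G.ng W1 (by linarith) X0 lo hv.2.1 hu.1 i i1 i2 gi
    have a2 : 2602 * S.C ^ 3 * W ^ 2 * W ≤ W' := by
      have := mul_le_mul_of_nonneg_right (pow_le_pow_right₀ C1 (show 3 ≤ 8 by norm_num))
        (pow_nonneg W0 3)
      linarith
    have a3 : 0 ≤ rh S M m a p u := by
      have := c.s_nn u
      unfold rh; positivity
    have a4 : _ ≤ W' * rh S M m a p u := ρ1.trans (mul_le_mul_of_nonneg_right a2 a3)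
    linarith
  · have a4 : M.s (S.jl + 1) ≤ t := by
      have p1 := (c.ss S.jl c.jl_lt).2
      have p2 := mul_le_mul_of_nonneg_left (v_le c) c.C0.le
      have p3 := mul_le_mul_of_nonneg_right hE sj.le
      have p4 := mul_le_mul_of_nonneg_right C2 sj.le
      linarith [N.l0s, N.l0l]
    obtain ⟨n1, n2⟩ := e4 t a1.le a2 a4
    have := A.mm_pos ((A0.trans a1).le)
    have := B.ε0
    exact ⟨_, _, _, by positivity, n1, n2⟩
  · have := A.mm_pos t0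
    exact add_nonneg (B.fN_nn K θ0 t0) (by positivity)

end Crest.Agent.T156.Alt.B75

end
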