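import Crest.Agent.T156.BdS_75

/-!
# Row 156, block (L): the bulk data with the clock of the absolute form (helper75)
-/

set_option autoImplicit false
set_option linter.unusedSectionVars false

noncomputable section

namespace Crest.Agent.T156.Alt.B75

open Real Finset
open Crest.Agent.T156.Alt.E61 Crest.Agent.T156.Alt.Mp9 Crest.Agent.T156.Alt.Sz9
open Crest.Agent.T156.Alt.L69 (LN cr cl mf uw)
open Crest.Agent.T156.Alt.G89
open Crest.Agent.T156.Cut8 (LB int_split int_mono)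

/-- slope of the label clock of the absolute form -/
def cc2 (M : Md) (S : Sc) (m : ℕ) (a Λ Lg X2 : ℝ) (y : ℕ) : ℝ := ccB M S m a Λ Lg y + Λ * X2
/-- the low part of the absolute form -/
def rho (M : Md) (S : Sc) (m : ℕ) (a Λ X2 : ℝ) (u : ℕ) : ℝ :=
  Λ * X2 * (2602 * sb M m a (u + 1) + 2600 * (S.C * S.v) + M.z u) +
    Λ * ∑ k ∈ range (u + 1), M.dz m a k * u4 M m a k ^ 2

variable {S : Sc} {M : Md} {m : ℕ} {a T E Λ G1 l0 l V X Lg X2 X3 G0 lo τ1 ε B : ℝ} {η : ℝ → ℝ}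
  {Gn : ℕ → Prop} {V0 u v : ℕ}

theorem Om_cc2 (c : Cl S M) {i k : ℕ} (hi : u ≤ i) (h : i ≤ k) (hk : k ≤ v) :
    Om M (cc2 M S m a Λ Lg X2) u v (M.z k) - Om M (cc2 M S m a Λ Lg X2) u v (M.z i) =
      ∑ y ∈ Ioc i k, (M.z y - M.z (y - 1)) * ccB M S m a Λ Lg y + Λ * X2 * (M.z k - M.z i) := by
  rw [Om_eq c _ hi h hk, ← At.sum_dz M h, mul_sum, ← sum_add_distrib]
  exact sum_congr rfl fun y _ => by rw [cc2]; ring

/-- **`Bd` from `NG`** with the clock of the absolute form -/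
theorem bd_of2 (A : At S M m a T) (ce : CeiG S M G1) (N : LN E S M l0 l V X Lg X2 X3 G0 η)
    (G : NG E Λ S M m a T lo Lg X2 τ1 η Gn V0) (hl : l ≤ lo) (Λ1 : 1 ≤ Λ) (θ1 : S.θ ≤ 1)
    (ε0 : 0 < ε) (ε1 : ε ≤ 1) (hE : (1536 * S.C ^ 7 * Λ ^ 4) ^ 6 * S.F ^ 3 ≤ ε ^ 6 * E)
    (hu : 9 / 8 * lo ≤ M.s u) (uv : u < v) (hv : v ≤ V0) (gu : Gn u) (gv : Gn v)
    (hJ : sb M m a (v + 1) < M.s S.J) :
    Bd S M m a T Gn u v (enB M Λ η) (onB M S Λ Lg) (cc2 M S m a Λ Lg X2) (alB M Λ η)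
      (omB M S Λ Lg) (GaB M S ε) (2602 * (Λ * X2)) (2 * Λ ^ 4 / Lg) (Λ / Lg) ε := by
  have D := bd_of A ce N G hl Λ1 θ1 ε0 ε1 hE hu uv hv gu gv hJ
  have c := A.cl
  have hV := G.hV
  have i3 := c.i3
  have C1 := c.C1
  have C0 := c.C0
  have Λ0 : 0 ≤ Λ := by linarith
  set K := 1536 * S.C ^ 7 * Λ ^ 4 with hK
  have k1 : 1536 * (S.C ^ 5 * Λ ^ 3) ≤ K := by
    rw [hK, mul_assoc]
    exact mul_le_mul_of_nonneg_left (mul_le_mul (pow_le_pow_right₀ C1 (by norm_num))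
      (pow_le_pow_right₀ Λ1 (by norm_num)) (by positivity) (by positivity)) (by norm_num)
  have k2 : S.C ^ 5 * Λ ≤ S.C ^ 5 * Λ ^ 3 :=
    mul_le_mul_of_nonneg_left (le_self_pow₀ Λ1 three_ne_zero) (by positivity)
  have k3 : 1 ≤ S.C ^ 5 * Λ := one_le_mul_of_one_le_of_one_le (one_le_pow₀ C1) Λ1
  have K1 : 1536 ≤ K := by linarith
  have E0 : 0 < E := (mul_pos_iff_of_pos_left (pow_pos ε0 6)).1 (lt_of_lt_of_le (by
    have := c.F1; positivity) hE)
  have KE : 1536 * K ≤ ε * E := by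
    have a1 : K ^ 2 ≤ K ^ 6 * S.F ^ 3 := (pow_le_pow_right₀ (by linarith) (by norm_num)).trans
      (le_mul_of_one_le_right (by positivity) (one_le_pow₀ c.F1))
    have a2 := (a1.trans hE).trans
      (mul_le_mul_of_nonneg_right (pow_le_of_le_one ε0.le ε1 (by norm_num)) E0.le)
    nlinarith
  have g1 : 1 ≤ Lg := by
    linarith [mul_le_of_le_one_left E0.le ε1,
      (le_mul_of_one_le_right E0.le (one_le_pow₀ (n := 2) c.F1)).trans N.Lg0]
  have l0' : 0 < l := (mul_pos E0 (c.s_pos (c.i0.trans c.i1))).trans_le (N.l0s.trans N.l0l)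
  have sm : ∀ (x κ : ℝ) (y : ℕ), 0 ≤ x → E * x ≤ mf S (M.s y) → 384 * S.C ^ 5 * κ ≤ 1536 * K →
      κ * x ≤ ε * mn M S y := fun x κ y x0 h1 h2 => by
    rw [mn_eq, ← mul_div_assoc, le_div_iff₀ (by positivity)]
    calc κ * x * (384 * S.C ^ 5) = 384 * S.C ^ 5 * κ * x := by ring
      _ ≤ ε * E * x := mul_le_mul_of_nonneg_right (h2.trans KE) x0
      _ ≤ _ := by rw [mul_assoc]; exact mul_le_mul_of_nonneg_left h1 ε0.le
  have X20 := X2_nn c N E0.le
  have x0 := mul_nonneg Λ0 X20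
  have x1 : ∀ y, u ≤ y → 2602 * Λ * X2 ≤ ε * mn M S y := fun y h =>
    sm X2 _ y X20 (N.th3.trans (Tn15.mf_mono c (by linarith [c.sm h]))) (by linarith)
  refine ⟨A, D.up, D.sub, θ1, D.hu, uv, D.vJ, gu, gv, hJ, D.lo, D.me, ε0.le, ε1, D.th0, D.th1,
    by positivity, by linarith [x1 u le_rfl], D.ka0, D.ka1, fun y => add_nonneg (ccB_nn Λ0 y) x0,
    fun y h1 h2 => ?_, fun i k h1 h2 h3 gi gk => ?_, D.gap, D.nd⟩
  · have s1 := c.sm h1.le
    have a1 := ccB_uw (m := m) (a := a) c g1 Λ0 (show 0 < M.s y by linarith)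
    have a2 := sm _ (4 * Λ ^ 3) y (sq_nonneg _) (N.th2 _ (by linarith) (c.s_le_C (by omega)))
      (by linarith)
    unfold cc2
    linarith [x1 y h1.le]
  · have a1 := D.e1 i k h1 h2 h3 gi gk
    rw [Om_eq c _ h1 h2 h3] at a1
    have a2 := mul_nonneg x0 (sub_nonneg.2 (c.leg.zm h2))
    have a3 := mul_nonneg x0 (ds_nn A h2)
    rw [Om_cc2 c h1 h2 h3]
    unfold ds at a3
    linarith

/-- **the absolute form** at the good nodes of the bulk -/
theorem ab_of (A : At S M m a T) (G : NG E Λ S M m a T lo Lg X2 τ1 η Gn V0) (Λ1 : 1 ≤ Λ)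
    (g0 : 0 < Lg) (X0 : 0 ≤ X2) (h0 : lo ≤ M.s u) (hv : v ≤ V0) (gu : Gn u) (i : ℕ) (h1 : u ≤ i)
    (h2 : i ≤ v) (gi : Gn i) :
    |res M S m a T i| ≤ enB M Λ η i + onB M S Λ Lg i * |L0.Gd (lb M S m a T) (sb M m a (i + 1))| +
      rho M S m a Λ X2 u + (2602 * (Λ * X2) * (sb M m a (i + 1) - sb M m a (u + 1)) +
        2 * Λ ^ 4 / Lg * (∫ r in sb M m a (u + 1)..sb M m a (i + 1), gB M m a Gn u v r ^ 2) +
        (Om M (cc2 M S m a Λ Lg X2) u v (M.z i) - Om M (cc2 M S m a Λ Lg X2) u v (M.z u))) := by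
  have c := A.cl
  have hV := G.hV
  have Λ0 : 0 ≤ Λ := by linarith
  have a1 := G.ab i (h0.trans (c.sm h1)) (h2.trans hv) gi
  have a2 := clock A G Λ1 g0 h0 hv le_rfl gu i h1 h2 gi
  have a3 : ∑ k ∈ range i, M.dz m a k * u4 M m a k ^ 2 ≤
      ∑ k ∈ range (u + 1), M.dz m a k * u4 M m a k ^ 2 +
        ∑ y ∈ Ioc u i, (M.z y - M.z (y - 1)) * u4 M m a y ^ 2 := by
    rw [← sum_congr rfl (s₁ := Ioc u i) (f := fun y => M.dz m a y * u4 M m a y ^ 2) fun y hy => by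
        rw [Md67.dz_up c.leg (by have := (mem_Ioc.1 hy).1; omega)],
      ← sum_union (disjoint_left.2 fun y p q => by
        have := mem_range.1 p; have := (mem_Ioc.1 q).1; omega)]
    exact sum_le_sum_of_subset_of_nonneg (fun y hy => by
      have := mem_range.1 hy
      simp only [mem_union, mem_range, mem_Ioc]; omega) fun y _ _ =>
      mul_nonneg ((lg A).dz_nonneg y) (sq_nonneg _)
  have a4 : pb M m a (S.C * S.v) i ≤ 2602 * sb M m a (i + 1) + 2600 * (S.C * S.v) + M.z i := by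
    have b1 := min_le_right 1 (2600 * (sb M m a (i + 1) + S.C * S.v))
    have b2 := A.rb_le_sb (k := i) (by have := c.J_lt; omega)
    unfold pb; linarith
  have a5 := mul_le_mul_of_nonneg_left a4 (mul_nonneg Λ0 X0)
  have a6 := mul_le_mul_of_nonneg_left a3 Λ0
  rw [Om_cc2 c le_rfl h1 h2]
  unfold gd at a1
  unfold enB onB rho
  linarith

theorem crt_mul (c : Cl S M) {t k : ℝ} (t0 : 0 < t) (k1 : 1 ≤ k) :
    cr S (k * t) * (k * t) ≤ 2 * k * (cr S t * t) := by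
  have k0 : 0 < k := by linarith
  have c1 := Tn15.cr1 S t
  refine Tn15.le3 (by positivity) ?_
  rw [Tn15.crt3 c (mul_pos k0 t0), mul_pow (2 * k), Tn15.crt3 c t0]
  have a1 := mul_le_mul_of_nonneg_left (c.ms_mul t0.le k1)
    (show 0 ≤ S.F * (k * t) by have := Tn15.F0 c; positivity)
  have k3 : 0 ≤ k ^ 3 := by positivity
  have r1 := mul_le_mul_of_nonneg_left (le_max_left (t ^ 3) (S.F * S.ms t * t)) k3
  have r2 := mul_le_mul_of_nonneg_left (le_max_right (t ^ 3) (S.F * S.ms t * t)) k3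
  have r3 : 0 ≤ k ^ 3 * t ^ 3 := by positivity
  exact max_le (by linarith) (by linarith)

theorem rho_nn (A : At S M m a T) (Λ0 : 0 ≤ Λ) (X0 : 0 ≤ X2) (hu : u ≤ S.Jp) :
    0 ≤ rho M S m a Λ X2 u := by
  have := (A.sb_mem hu).1
  have := A.cl.z_pos u
  have := A.cl.C0
  have := v_pos A.cl
  exact add_nonneg (by positivity) (mul_nonneg Λ0 (sum_nonneg fun y _ =>
    mul_nonneg ((lg A).dz_nonneg y) (sq_nonneg _)))

/-- **the low part is `L31.rh`** up to the constant, from the crude size below `u` -/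
theorem rho_le (A : At S M m a T) (Λ0 : 0 ≤ Λ) (X0 : 0 ≤ X2) (V0' : 0 ≤ V) (B1 : 1 ≤ B)
    (l00 : 0 < l0) (hl : l0 ≤ M.s u) (hj : S.j0 ≤ u) (hJ : u < S.J)
    (me : 8 * S.C ^ 2 * S.v ≤ M.s u)
    (cru : ∀ k ≤ u, u4 M m a k ≤ B * cl S V (max (M.z k) l0)) :
    rho M S m a Λ X2 u ≤ 2602 * S.C ^ 3 * B ^ 2 * Λ *
      ((sb M m a (u + 1) + M.s u) * X2 + M.s u * cl S V (M.s u) ^ 2) := by
  have c := A.cl
  have C1 := c.C1
  have C0 := c.C0
  have v0 := v_pos c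
  have s0 : 0 < M.s u := l00.trans_le hl
  have sb0 := (A.sb_mem (k := u) (hJ.le.trans c.i3)).1
  have cv : 8 * (S.C * S.v) ≤ M.s u := by nlinarith [mul_pos C0 v0]
  have sC : M.s u ≤ S.C * M.s u := le_mul_of_one_le_left s0.le C1
  have zu : M.z u ≤ 2 * S.C * M.s u := by linarith [(c.z_s hj hJ).2]
  have q0 : 0 ≤ cl S V (M.s u) :=
    add_nonneg (mul_nonneg (zero_le_one.trans (Tn15.cr1 S _)) s0.le) V0'
  have cw : ∀ k ≤ u, cl S V (max (M.z k) l0) ≤ 4 * S.C * cl S V (M.s u) := fun k hk => by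
    have b1 := Tn15.crt_mono c (l00.trans_le (le_max_right (M.z k) l0))
      (max_le ((c.leg.zm hk).trans zu) (show l0 ≤ 2 * S.C * M.s u by linarith))
    have b2 := crt_mul c s0 (show 1 ≤ 2 * S.C by linarith)
    have b3 := mul_le_mul_of_nonneg_right C1 V0'
    unfold cl
    linarith
  have a1 : ∑ k ∈ range (u + 1), M.dz m a k * u4 M m a k ^ 2 ≤
      2 * S.C * M.s u * (B * (4 * S.C * cl S V (M.s u))) ^ 2 := by
    refine (sum_le_sum fun k hk => mul_le_mul_of_nonneg_left (pow_le_pow_left₀ (u4_nn k)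
      ((cru k (Nat.lt_succ_iff.1 (mem_range.1 hk))).trans (mul_le_mul_of_nonneg_left
        (cw k (Nat.lt_succ_iff.1 (mem_range.1 hk))) (by linarith))) 2) ((lg A).dz_nonneg k)).trans ?_
    rw [← sum_mul, Md67.sum_dz_range c.leg]
    exact mul_le_mul_of_nonneg_right (by linarith [(lg A).a0]) (sq_nonneg _)
  have k1 : S.C ≤ S.C ^ 3 * B ^ 2 := (le_self_pow₀ C1 three_ne_zero).trans
    (le_mul_of_one_le_right (by positivity) (one_le_pow₀ B1))
  have a2 : 2602 * sb M m a (u + 1) + 2600 * (S.C * S.v) + M.z u ≤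
      2602 * S.C ^ 3 * B ^ 2 * (sb M m a (u + 1) + M.s u) := by
    have := mul_le_mul_of_nonneg_right k1 s0.le
    have := mul_le_mul_of_nonneg_right (C1.trans k1) sb0
    linarith
  have a3 := mul_le_mul_of_nonneg_left a2 (mul_nonneg Λ0 X0)
  have a4 := mul_le_mul_of_nonneg_left a1 Λ0
  have a5 : 0 ≤ S.C ^ 3 * B ^ 2 * Λ * (M.s u * cl S V (M.s u) ^ 2) := by positivity
  unfold rho
  linarith

end Crest.Agent.T156.Alt.B75

end
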