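import Crest.Agent.T156.NetD_27

/-!
Row 156 (helper31): node data with a time clock; the slow error at the last node.
-/

set_option autoImplicit false

noncomputable section

namespace Crest.Agent.T156.Gap27

open MeasureTheory Set
open Crest.Agent.R164.GC Crest.Agent.R339.B Crest.Agent.R339.Var Crest.Agent.T157.Pf
open Crest.Agent.T156.L0 Crest.Agent.T156.Cut8 Crest.Agent.T156.Pp.Area50

variable {lb lh : List (ℝ × ℝ)} {T C b θ : ℝ}

/-- a smaller slow error at the end point -/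
theorem setEnd {A B b0 : ℝ} {dz ρ H r1 r2 ω β ξ : ℝ → ℝ} (R : Res T dz ρ H r1 r2 ω β ξ A B)
    (h0 : 0 ≤ b0) (h : ∀ s, A ≤ s → s < B → |r2 B - r2 s| ≤ (∫ u in s..B, ω u) + β s + b0) :
    Res T dz ρ H r1 r2 ω (fun t => if t = B then b0 else β t) ξ A B where
  lH := R.lH
  lω := R.lω
  lξ := R.lξ
  eq := R.eq
  ω_nn := R.ω_nn
  H_nn := R.H_nn
  ξ_nn := R.ξ_nn
  pair := fun t a c => by simp only [if_neg c.ne]; exact R.pair t a c
  slow := fun s t a st c => by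
    by_cases e : t = B
    · subst e
      rcases st.eq_or_lt with e | e
      · subst e; simp [h0]
      · simp only [if_neg e.ne, if_true]; exact h s a e
    · have e' : s ≠ B := (st.trans_lt (lt_of_le_of_ne c e)).ne
      simp only [if_neg e, if_neg e']; exact R.slow s t a st c

/-- `Nodes` with the source clock `Lt (σ) + Ω (x)` -/
structure Nodes5 (lb lh : List (ℝ × ℝ)) (b : ℝ) (x σ h en on : ℕ → ℝ) (Gn : ℕ → Prop) (J u v : ℕ)
    (δ : ℝ) (Lt Ω ϖ Gm Dz jh D η ω lam : ℝ → ℝ) : Prop where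
  uv : u ≤ v
  vJ : v ≤ J
  gu : Gn u
  gv : Gn v
  hm : Up h J
  Lm : ∀ s t, σ u ≤ s → s ≤ t → t ≤ σ v → Lt s ≤ Lt t
  δ0 : 0 ≤ δ
  Ωm : Monotone Ω
  str : ∀ k, u ≤ k → k ≤ v → Gn k → k < J → σ k < σ (k + 1)
  e1 : ∀ i j, u ≤ i → i ≤ j → j ≤ v → Gn i → Gn j → |resN lb b σ h j - resN lb b σ h i| ≤
    en i + on i * |Gd lb (σ i)| + (en j + on j * |Gd lb (σ j)|) +
      (Lt (σ j) - Lt (σ i) + (Ω (x j) - Ω (x i)))
  gap : ∀ i j, Cons Gn u v i j → ∀ t, σ i ≤ t → t ≤ σ j → σ j - σ i ≤ Gm t ∧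
    x j - x i + (lvr 1 lh (σ j) - lvr 1 lh (σ i)) ≤ Dz t ∧ (∀ s ∈ Icc (σ i) (σ j), |Gd lh s| ≤ jh t) ∧
    (h j - h i) / b ≤ D t ∧ 0 ≤ en i ∧ 0 ≤ en j ∧ 0 ≤ on i ∧ on i ≤ ω t ∧ on j ≤ ω t ∧
    en i + en j + (Lt (σ j) - Lt (σ i) + (Ω (x j) - Ω (x i))) + δ ≤ η t
  o1 : ∀ t, σ u ≤ t → t ≤ σ v → 0 ≤ lam t ∧
    |Ω (lvr 1 lb t) - Ω (lvr 1 lh t)| ≤ lam t * |lvr 1 lb t - lvr 1 lh t|
  o2 : ∀ s t, σ u ≤ s → s ≤ t → t ≤ σ v →
    Lt t - Lt s + (Ω (lvr 1 lh t) - Ω (lvr 1 lh s)) ≤ (∫ r in s..t, ϖ r) + δ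

/-- **`Res` from node data**, time clock, node value of `β` at the end -/
theorem res_nodes5 (hC : 0 ≤ C) (hA : HLip Pr.AA T C) (hN : HLip Pr.NN T C) {x σ h en on : ℕ → ℝ}
    {J u v : ℕ} (Db : Zb9.Dat x σ J T) (hh : Pr.Ok lh) (eh : TT lh = T) (hθ : 0 < θ) (b0 : 0 < b)
    {Gn : ℕ → Prop} {δ : ℝ} {Lt Ω ϖ Gm Dz jh D η ω lam m Mx f ζ : ℝ → ℝ}
    (hlb : lb = Zb9.zl x σ J T)
    (N : Nodes5 lb lh b x σ h en on Gn J u v δ Lt Ω ϖ Gm Dz jh D η ω lam)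
    (lϖ : LB T ϖ) (lm : LB T m) (lM : LB T Mx) (lf : LB T f)
    (nn : ∀ t, σ u < t → t < σ v → 0 ≤ ϖ t ∧ 0 ≤ m t ∧ 0 ≤ f t ∧ 0 ≤ ζ t ∧ m t ≤ Mx t)
    (fl : ∀ t, σ u < t → t < σ v → m t * (lvr 1 lb t - lvr 1 lh t) ^ 2 -
      ζ t * |lvr 1 lb t - lvr 1 lh t| ≤ yN lh b σ h J t * (lvr 1 lb t - lvr 1 lh t))
    (num : ∀ t, σ u < t → t < σ v → ∃ A0 A1 A2, NumM θ (m t) (f t) A0 A1 A2 ∧
      cA0 C Gm Dz jh D η ω t + ζ t + cA1 C Gm ω lam t * |lvr 1 lb t - lvr 1 lh t| + cA2 C Gm ω t *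
          (|Sc48.Jf lh lb T t| + ∫ s in (0 : ℝ)..T, |Sc48.Jf lh lb T s|) ≤
        A0 + A1 * |lvr 1 lb t - lvr 1 lh t| +
          A2 * (|Sc48.Jf lh lb T t| + ∫ s in (0 : ℝ)..T, |Sc48.Jf lh lb T s|)) :
    ∃ r1 r2 β : ℝ → ℝ, Res T (fun t => lvr 1 lb t - lvr 1 lh t)
      (fun t => Pr.Gam lb t - Pr.Gam lh t) (HN lb lh b σ h J m Mx) r1 r2 ϖ β
      (fun t => xi θ (m t) (f t) (∫ s in (0 : ℝ)..T, |Sc48.Jf lh lb T s|)
        (lvr 1 lb t - lvr 1 lh t) (Sc48.Jf lh lb T t)) (σ u) (σ v) ∧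
      (∀ k, u ≤ k → k ≤ v → Gn k → r2 (σ k) = resN lb b σ h k) ∧
      β (σ v) = en v + δ + on v * |Gd lb (σ v)| +
        lam (σ v) * |lvr 1 lb (σ v) - lvr 1 lh (σ v)| ∧
      (∀ ρ, (∀ i, u ≤ i → i ≤ v → Gn i → |resN lb b σ h i| ≤ en i + on i * |Gd lb (σ i)| + ρ +
          (Lt (σ i) - Lt (σ u) + (Ω (x i) - Ω (lvr 1 lh (σ u))))) →
        ∀ t, σ u ≤ t → t ≤ σ v → |r2 t| ≤ (∫ r in σ u..t, ϖ r) + ρ + β t) ∧
      ∀ t, σ u ≤ t → t ≤ σ v → |r1 t| + β t ≤ cA0 C Gm Dz jh D η ω t +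
        |HN lb lh b σ h J m Mx t - yN lh b σ h J t| +
        cA1 C Gm ω lam t * |lvr 1 lb t - lvr 1 lh t| + cA2 C Gm ω t *
          (|Sc48.Jf lh lb T t| + ∫ s in (0 : ℝ)..T, |Sc48.Jf lh lb T s|) := by
  have ob : Pr.Ok lb := hlb ▸ Db.ok
  have eb : TT lb = T := hlb ▸ Db.tt
  have hT : 0 ≤ T := (Db.mem le_rfl).1.trans (Db.mem le_rfl).2
  have mb := Sc48.lvr_mono ob.1
  have cn : ∀ k, u ≤ k → k ≤ v → Gn k → Zb9.Cell σ J k (σ k) := fun k a c g =>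
    Zb9.cell_node (c.trans N.vJ) (N.str k a c g)
  have zx : ∀ k, u ≤ k → k ≤ v → Gn k → lvr 1 lb (σ k) = x k := fun k a c g => by
    rw [hlb]; exact Db.lv_cell (Db.nn (c.trans N.vJ)) (cn k a c g)
  have hx : ∀ k, u ≤ k → k ≤ v → Gn k → stp h σ J (σ k) = h k := fun k a c g =>
    (cn k a c g).stp Db.us h
  obtain ⟨I, M, mI, xI, hI⟩ := exists_net (σ := σ) N.uv N.gu N.gv
  set r : ℝ → ℝ := fun s => Pr.Gam lb s - s / b + stp h σ J s / b with hr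
  have rn : ∀ k, u ≤ k → k ≤ v → Gn k → r (σ k) = resN lb b σ h k := fun k a c g => by
    simp only [hr, resN, hx k a c g]
  have ld : LB T fun t => lvr 1 lb t - lvr 1 lh t :=
    (LB.of_mono mb).sub (LB.of_mono (Sc48.lvr_mono hh.1))
  have lJ : LB T (Sc48.Jf lh lb T) := .of_cont (ld.tail (right_mem_Icc.mpr hT))
  have l4 : LB T fun t => (lvr 1 lb t - lvr 1 lh t) ^ 4 := by simpa [← pow_mul] using ld.sq.sq
  have lG : LB T (Pr.Gam lh) := .of_cont (eh ▸ Pp.Ode3.Gam_cont (L0.ap_of_ok hh))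
  have su : ∀ k, u ≤ k → k ≤ v → σ u ≤ σ k := fun k a c => Db.us.le a (c.trans N.vJ)
  have sv : ∀ k, k ≤ v → σ k ≤ σ v := fun k c => Db.us.le c N.vJ
  have G : ∀ t, σ u ≤ t → t ≤ σ v → GapD lb lh T b (stp h σ J) r t (σ (I t)) (σ (M t)) (Gm t)
      (Dz t) (jh t) (D t) (η t) (ω t) := fun t a c => by
    obtain ⟨K, p, q⟩ := hI t a c
    obtain ⟨g1, g2, g3, g4, g5, g5', g6, g7, g8, g9⟩ := N.gap _ _ K t p q
    have iv := K.ij.trans K.jv
    have uj := K.ui.trans K.ij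
    have s0 : σ (I t) ≤ σ (M t) := p.trans q
    have x0 : x (I t) ≤ x (M t) := Db.ux.le K.ij (K.jv.trans N.vJ)
    have o0 := N.Ωm x0
    have o1 := N.Lm _ _ (su _ K.ui iv) s0 (sv _ K.jv)
    have δ0 := N.δ0
    refine ⟨Db.nn (iv.trans N.vJ), p, q, (Db.mem (K.jv.trans N.vJ)).2, g1, g6.trans g7,
      by linarith, by rw [zx _ K.ui iv K.gi, zx _ uj K.jv K.gj]; exact g2, g3, fun s hs => ?_,
      by simp only [hr, sub_self, abs_zero]; linarith,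
      by simp only [hr, sub_self, abs_zero]; linarith, ?_⟩
    · have a1 := stp_mono σ N.hm hs.1
      have a2 := stp_mono σ N.hm hs.2
      rw [hx _ uj K.jv K.gj] at a2
      rw [← sub_div, abs_of_nonneg (div_nonneg (sub_nonneg.2 a1) b0.le), hx _ K.ui iv K.gi]
      exact (div_le_div_of_nonneg_right (by linarith) b0.le).trans g4
    · rw [rn _ K.ui iv K.gi, rn _ uj K.jv K.gj]
      have := N.e1 _ _ K.ui K.ij K.jv K.gi K.gj
      nlinarith [mul_le_mul_of_nonneg_right g7 (abs_nonneg (Gd lb (σ (I t)))),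
        mul_le_mul_of_nonneg_right g8 (abs_nonneg (Gd lb (σ (M t))))]
  have B := fun t (a : σ u ≤ t) (c : t ≤ σ v) =>
    bound_diff (lam := lam t) hC hA hN ob hh eb eh b0.ne' (G t a c)
  have uv := su v N.uv le_rfl
  have Iv : I (σ v) = v := le_antisymm ((hI _ uv le_rfl).1.ij.trans (hI _ uv le_rfl).1.jv)
    (xI _ v N.uv le_rfl N.gv le_rfl)
  obtain ⟨-, -, -, -, v5, -, v6, v7, -, v9⟩ :=
    N.gap v v ⟨N.uv, le_rfl, le_rfl, N.gv, N.gv, fun _ a b => by omega⟩ (σ v) le_rfl le_rfl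
  simp only [sub_self, add_zero] at v9
  have δ0 := N.δ0
  have key : ∀ s t, σ u ≤ s → s ≤ t → t ≤ σ v → |r (σ (I t)) - r (σ (I s))| ≤ (∫ q in s..t, ϖ q) +
      (η s + ω s * |Gd lb (σ (I s))| + lam s * |lvr 1 lb s - lvr 1 lh s|) +
      (en (I t) + on (I t) * |Gd lb (σ (I t))| + lam t * |lvr 1 lb t - lvr 1 lh t|) := by
    intro s t a st c
    obtain ⟨K, p, q⟩ := hI s a (st.trans c)
    obtain ⟨K', p', q'⟩ := hI t (a.trans st) c
    obtain ⟨-, -, -, -, g5, g5', -, g7, -, g9⟩ := N.gap _ _ K s p q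
    have iv := K.ij.trans K.jv
    have iv' := K'.ij.trans K'.jv
    have e := N.e1 _ _ K.ui (mI s t a st) iv' K.gi K'.gi
    rw [rn _ K.ui iv K.gi, rn _ K'.ui iv' K'.gi]
    have a1 : Ω (x (I t)) ≤ Ω (lvr 1 lb t) := N.Ωm (zx _ K'.ui iv' K'.gi ▸ mb p')
    have a2 : Ω (lvr 1 lb s) ≤ Ω (x (M s)) := N.Ωm (zx _ (K.ui.trans K.ij) K.jv K.gj ▸ mb q)
    have a3 := abs_le.1 (N.o1 s a (st.trans c)).2
    have a4 := abs_le.1 (N.o1 t (a.trans st) c).2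
    have a5 := N.o2 s t a st c
    have a6 := N.Lm _ _ (su _ K'.ui iv') p' c
    have a7 := N.Lm _ _ a q (sv _ K.jv)
    nlinarith [mul_le_mul_of_nonneg_right g7 (abs_nonneg (Gd lb (σ (I s)))), a3.1, a4.2]
  have nd : ∀ t, σ u ≤ t → t ≤ σ v → en (I t) + δ ≤ η t ∧
      on (I t) * |Gd lb (σ (I t))| ≤ ω t * |Gd lb (σ (I t))| := fun t a c => by
    obtain ⟨K', p', q'⟩ := hI t a c
    obtain ⟨-, -, -, -, k5, k5', -, k7, -, k9⟩ := N.gap _ _ K' t p' q'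
    have a8 := N.Ωm (Db.ux.le K'.ij (K'.jv.trans N.vJ))
    have a9 := N.Lm _ _ (su _ K'.ui (K'.ij.trans K'.jv)) (p'.trans q') (sv _ K'.jv)
    exact ⟨by linarith, mul_le_mul_of_nonneg_right k7 (abs_nonneg _)⟩
  have R : Res T (fun t => lvr 1 lb t - lvr 1 lh t)
      (fun t => Pr.Gam lb t - Pr.Gam lh t) (HN lb lh b σ h J m Mx)
      (fun t => Pr.Gam lb t - Pr.Gam lh t + yN lh b σ h J t - r (σ (I t)) +
        (HN lb lh b σ h J m Mx t - yN lh b σ h J t)) (fun t => r (σ (I t))) ϖ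
      (fun t => η t + ω t * |Gd lb (σ (I t))| + lam t * |lvr 1 lb t - lvr 1 lh t|)
      (fun t => xi θ (m t) (f t) (∫ s in (0 : ℝ)..T, |Sc48.Jf lh lb T s|)
        (lvr 1 lb t - lvr 1 lh t) (Sc48.Jf lh lb T t)) (σ u) (σ v) := by
    refine Zb9.res_two (ζ := ζ) (y := yN lh b σ h J)
      (r1 := fun t => Pr.Gam lb t - Pr.Gam lh t + yN lh b σ h J t - r (σ (I t)))
      ((Sc48.lvr_meas lb).sub (Sc48.lvr_meas lh)) lm lM ld
      (((LB.of_mono (stp_mono σ N.hm)).sub ((LB.of_cont continuousOn_id).sub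
        ((LB.const b).mul lG))).div b) lϖ
      ((LB.const θ).mul ((((((LB.const 2).mul l4).add (((LB.const 2).mul lm).mul ld.sq)).add
        lJ.sq).add (LB.const _)).add lf)) (fun t _ _ => by ring) (fun t a c => (nn t a c).1)
      (fun s t a st c => ?_) (fun t a c => ⟨(nn t a c).2.1, (nn t a c).2.2.2.2⟩)
      (fun t a c => (nn t a c).2.2.2.1) fl
      (fun t a c => xi_nn hθ.le (nn t a c).2.1 (nn t a c).2.2.1) (fun t a c => ?_)
    · have := key s t a st c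
      have := nd t (a.trans st) c
      linarith
    · have k := B t a.le c.le
      have g := G t a.le c.le
      obtain ⟨A0, A1, A2, n1, n2⟩ := num t a c
      refine xi_mix hθ (add_nonneg (add_nonneg (add_nonneg g.η0 (mul_nonneg g.ω0 (abs_nonneg _)))
        (mul_nonneg (N.o1 t a.le c.le).1 (abs_nonneg _))) (nn t a c).2.2.2.1) ?_ n1
      simp only [cA0, cA1, cA2, yN] at *
      linarith
  have le : ∀ t, σ u ≤ t → t ≤ σ v → en (I t) + δ + on (I t) * |Gd lb (σ (I t))| +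
      lam t * |lvr 1 lb t - lvr 1 lh t| ≤ (if t = σ v then en v + δ + on v * |Gd lb (σ v)| +
        lam (σ v) * |lvr 1 lb (σ v) - lvr 1 lh (σ v)| else
        η t + ω t * |Gd lb (σ (I t))| + lam t * |lvr 1 lb t - lvr 1 lh t|) ∧
      (if t = σ v then en v + δ + on v * |Gd lb (σ v)| +
        lam (σ v) * |lvr 1 lb (σ v) - lvr 1 lh (σ v)| else
        η t + ω t * |Gd lb (σ (I t))| + lam t * |lvr 1 lb t - lvr 1 lh t|) ≤
        η t + ω t * |Gd lb (σ (I t))| + lam t * |lvr 1 lb t - lvr 1 lh t| := fun t a c => by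
    have := nd t a c
    split_ifs with e
    · subst e
      rw [Iv] at this ⊢
      exact ⟨le_rfl, by linarith⟩
    · exact ⟨by linarith, le_rfl⟩
  refine ⟨_, _, _, setEnd (b0 := en v + δ + on v * |Gd lb (σ v)| +
    lam (σ v) * |lvr 1 lb (σ v) - lvr 1 lh (σ v)|) R ?_ fun s a c => ?_, fun k a c g => ?_,
    if_pos rfl, fun ρ hρ t a c => ?_, fun t a c => ?_⟩
  · have := (N.o1 _ uv le_rfl).1
    positivity
  · have := key s (σ v) a c.le le_rfl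
    rw [Iv] at this
    simp only [Iv]
    linarith
  · obtain ⟨K, p, q⟩ := hI (σ k) (su k a c) (sv k c)
    have e : σ (I (σ k)) = σ k :=
      le_antisymm p (Db.us.le (xI _ k a c g le_rfl) ((K.ij.trans K.jv).trans N.vJ))
    simp only [e]
    exact rn k a c g
  · obtain ⟨K', p', q'⟩ := hI t a c
    have iv' := K'.ij.trans K'.jv
    have e := hρ _ K'.ui iv' K'.gi
    simp only [rn _ K'.ui iv' K'.gi]
    have a1 : Ω (x (I t)) ≤ Ω (lvr 1 lb t) := N.Ωm (zx _ K'.ui iv' K'.gi ▸ mb p')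
    have a4 := abs_le.1 (N.o1 t a c).2
    have a5 := N.o2 (σ u) t le_rfl a c
    have a6 := N.Lm _ _ (su _ K'.ui iv') p' c
    have := (le t a c).1
    linarith [a4.2]
  · have := B t a c
    have := abs_add_le (Pr.Gam lb t - Pr.Gam lh t + yN lh b σ h J t - r (σ (I t)))
      (HN lb lh b σ h J m Mx t - yN lh b σ h J t)
    have := (le t a c).2
    simp only [cA0, cA1, cA2, HN, yN] at *
    linarith

end Crest.Agent.T156.Gap27

end
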