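import Crest.Agent.T156.ClRes_27
import Crest.Agent.T156.NetE_31

/-!
Row 156, ALT, text (L) (helper27): the node data `Gap27.Nodes` from the bulk data `Bd`.
-/

set_option autoImplicit false

noncomputable section

namespace Crest.Agent.T156.Alt.Mp9

open MeasureTheory Set Real
open Crest.Agent.R164.GC Crest.Agent.R339.B Crest.Agent.R339.Var Crest.Agent.T157.Pf
open Crest.Agent.T156.Pp.Area50 Crest.Agent.T156.Spl27 Crest.Agent.T156.Zb9
open Crest.Agent.T156.Cut8 (LB Res int_split int_mono int_le_const int_sub_le abs_int_le)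
open Crest.Agent.T156.Gap27 (yN HN Nodes5 Cons resN betN gl NumM HLip cA0 cA1 cA2 xi)

theorem Om_low {M : Md} (hz : Monotone M.z) (c : ℕ → ℝ) (u v : ℕ) {x y : ℝ} (hx : x ≤ M.z u)
    (hy : y ≤ M.z u) : Om M c u v x = Om M c u v y :=
  Finset.sum_congr rfl fun k hk => by
    have h : M.z u ≤ M.z (k - 1) := hz (by have := (Finset.mem_Ioc.1 hk).1; omega)
    unfold Pp.Area50.cl
    rw [max_eq_left ((min_le_left _ _).trans (hx.trans h)),
      max_eq_left ((min_le_left _ _).trans (hy.trans h))]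

theorem cons_of {Gn : ℕ → Prop} {u v i k : ℕ} (n : Nx Gn u v i k) :
    Cons (fun j => Gn (j - 1)) (u + 1) (v + 1) (i + 1) (k + 1) :=
  ⟨by have := n.1; omega, by have := n.2.1; omega, by have := n.2.2.1; omega, n.2.2.2.1,
    n.2.2.2.2.1, fun j a b => n.2.2.2.2.2 (j - 1) (by omega) (by omega)⟩

theorem nx_of {Gn : ℕ → Prop} {u v i k : ℕ} (n : Cons (fun j => Gn (j - 1)) (u + 1) (v + 1) i k) :
    ∃ i' k', i = i' + 1 ∧ k = k' + 1 ∧ Nx Gn u v i' k' := by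
  obtain ⟨n1, n2, n3, n4, n5, n6⟩ := n
  obtain ⟨i, rfl⟩ : ∃ j, i = j + 1 := ⟨i - 1, by omega⟩
  obtain ⟨k, rfl⟩ : ∃ j, k = j + 1 := ⟨k - 1, by omega⟩
  exact ⟨i, k, rfl, rfl, by omega, by omega, by omega, n4, n5,
    fun j a b => by simpa using n6 (j + 1) (by omega) (by omega)⟩

/-- the level functions of the node data -/
def DzB (M : Md) (S : Sc) (m : ℕ) (a : ℝ) (Gn : ℕ → Prop) (u v : ℕ) (th t : ℝ) : ℝ :=
  2 * (S.C * S.v) + (th + S.C) * gB M m a Gn u v t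
def jhB (M : Md) (S : Sc) (m : ℕ) (a T : ℝ) (Gn : ℕ → Prop) (u v : ℕ) (t : ℝ) : ℝ :=
  13 * S.C * nb M S m a (jn M S) t + 12 * S.C * gB M m a Gn u v t +
    12 * S.C ^ 2 * |uu M S m a T t| + 16 * S.C ^ 3 * S.v
def DB (M : Md) (S : Sc) (m : ℕ) (a : ℝ) (Gn : ℕ → Prop) (u v : ℕ) (th t : ℝ) : ℝ :=
  4 * Mx M S m a t * (S.C * S.v + th * gB M m a Gn u v t)
def ηB (M : Md) (S : Sc) (m : ℕ) (a : ℝ) (Gn : ℕ → Prop) (u v : ℕ) (al : ℕ → ℝ) (l0 ka th ε t : ℝ) :
    ℝ := nb M S m a al t + 2 / (m + 1) + S.C * S.v + l0 * gB M m a Gn u v t +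
  ka * gB M m a Gn u v t ^ 3 +
  4 * (ε * mm M S m a t) * (S.C * S.v + th * gB M m a Gn u v t)
/-- the time clock -/
def LtB (M : Md) (m : ℕ) (a : ℝ) (Gn : ℕ → Prop) (u v : ℕ) (l0 ka t : ℝ) : ℝ :=
  l0 * t + ka * ∫ r in (0 : ℝ)..t, gB M m a Gn u v r ^ 2
/-- the slope of the label clock, free at the end point -/
def laB (M : Md) (S : Sc) (m : ℕ) (a : ℝ) (v : ℕ) (ε cm t : ℝ) : ℝ :=
  if t = sb M m a (v + 1) then cm else ε * mm M S m a t
/-- mesh error -/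
def meB (S : Sc) (m : ℕ) (K : ℝ) : ℝ := 14 / (m + 1) + (204 + 48 * K) * S.C ^ 3 * S.F * S.v
/-- node error -/
def aN (M : Md) (S : Sc) (m : ℕ) (a : ℝ) (al : ℕ → ℝ) (K t : ℝ) : ℝ :=
  98 * S.C * nb M S m a al t + meB S m K
/-- the part of the source carried by the nodes and by the residual -/
def fN (M : Md) (S : Sc) (m : ℕ) (a : ℝ) (al : ℕ → ℝ) (K θ t : ℝ) : ℝ :=
  2 / θ ^ 2 * (2 * (aN M S m a al K t ^ 2 / mm M S m a t) +
    min (|g2 M S t| ^ ((4 : ℝ) / 3)) (g2 M S t ^ 2 / mm M S m a t))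
/-- **the source** -/
def fB (M : Md) (S : Sc) (m : ℕ) (a : ℝ) (Gn : ℕ → Prop) (u v : ℕ) (al : ℕ → ℝ) (ε K θ t : ℝ) : ℝ :=
  fN M S m a al K θ t + 4 * ((200 + 48 * K) * S.C * ε) ^ 2 / θ ^ 2 *
    (mm M S m a t * gB M m a Gn u v t ^ 2)

theorem NumM_mono {θ m f f' A0 A1 A2 : ℝ} (h : NumM θ m f A0 A1 A2) (hf : f ≤ f') :
    NumM θ m f' A0 A1 A2 := by
  obtain ⟨a0, g, f1, lam, p1, p2, p3, p4, p5, p6, p7, p8⟩ := h
  exact ⟨a0, g, f1, lam, p1, p2, p3, p4, p5, p6, p7, p8.trans hf⟩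

set_option maxHeartbeats 800000 in
theorem coef_num {K C F v al w g μ ε j l0 ka X th θ d e : ℝ} (ka1 : ka ≤ 1) (K0 : 0 ≤ K) (C1 : 1 ≤ C) (F1 : 1 ≤ F)
    (v0 : 0 < v) (al0 : 0 ≤ al) (w0 : 0 ≤ w) (hg : 384 * C ^ 5 * F * g ^ 2 ≤ ε ^ 2 * μ)
    (w1 : w ≤ ε * μ) (d2 : w * j ≤ al) (μ0 : 0 < μ) (μ1 : μ ≤ 1) (ε0 : 0 ≤ ε) (ε1 : ε ≤ 1)
    (g0 : 0 ≤ g) (j2 : j ^ 2 ≤ 384 * C ^ 5 * F * μ) (l1 : l0 ≤ ε * μ)
    (mx : X = 384 * C ^ 7 * F ^ 2 * μ) (mx1 : X ≤ C ^ 2 * F) (th3 : 1536 * C * th ≤ 1)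
    (th0 : 0 ≤ th) (th1 : 1536 * C ^ 7 * F ^ 2 * th ≤ ε) (θ1 : θ ≤ 1) (d0 : 0 ≤ d)
    (K1 : 384 ≤ 384 * C ^ 5 * F) :
    7 * (al + e + C * v + l0 * g + ka * g ^ 3 + 4 * (ε * μ) * (C * v + th * g)) +
      2 * (4 * X * (C * v + th * g)) +
      (7 * w + 2 * g ^ 2) * (13 * C * j + 12 * C * g + 12 * C ^ 2 * d + 16 * C ^ 3 * v +
        (2 + 3 * K * g) * (2 * (C * v) + (th + C) * g)) + C ^ 2 * θ * v ≤
      98 * C * al + (7 * e + (204 + 48 * K) * C ^ 3 * F * v) + (200 + 48 * K) * C * ε * (μ * g) +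
        96 * C ^ 2 * (ε * μ) * d ∧
    (7 * w + 2 * g ^ 2) * (2 + 3 * K * g) + ε * μ ≤ (17 + 24 * K) * (ε * μ) ∧
    3 * K * (7 * w + 2 * g ^ 2) ≤ 24 * K * (ε * μ) := by
  have C0 : 0 < C := by linarith
  obtain ⟨x, hx⟩ : ∃ x, x = ε * μ := ⟨_, rfl⟩
  have e1 : (200 + 48 * K) * C * ε * (μ * g) = (200 + 48 * K) * (C * (x * g)) := by rw [hx]; ring
  have a2 := mul_le_mul_of_nonneg_right th1 (mul_nonneg μ0.le g0)
  have a3 : ε * (μ * g) = x * g := by rw [hx]; ring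
  have a4 : ε ^ 2 * μ = ε * x := by rw [hx]; ring
  have a5 : ε * x * μ = x ^ 2 := by rw [hx]; ring
  have x0 : 0 ≤ x := by rw [hx]; positivity
  have x1 : x ≤ 1 := hx ▸ mul_le_one₀ ε1 μ0.le μ1
  rw [e1, ← hx]
  rw [← hx] at w1 l1
  rw [a4] at hg
  have g2 : 384 * g ^ 2 ≤ x := by
    linarith [mul_le_mul_of_nonneg_right K1 (sq_nonneg g), mul_le_mul_of_nonneg_right ε1 x0]
  have g1 : g ≤ 1 := by nlinarith
  have gj : g * j ≤ x := by
    refine abs_le_of_sq_le_sq' ?_ x0 |>.2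
    linarith [mul_le_mul_of_nonneg_right hg μ0.le, mul_le_mul_of_nonneg_left j2 (sq_nonneg g)]
  have W : 7 * w + 2 * g ^ 2 ≤ 8 * x := by linarith
  have k1 : 2 + 3 * K * g ≤ 2 + 3 * K := by linarith [mul_le_mul_of_nonneg_left g1 K0]
  have k0 : 0 ≤ 2 + 3 * K * g := by positivity
  have k2 := mul_le_mul W k1 k0 (by positivity)
  refine ⟨?_, by linarith, by linarith [mul_le_mul_of_nonneg_left W K0]⟩
  have c3 : C ^ 3 ≤ C ^ 3 * F := le_mul_of_one_le_right (by positivity) F1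
  have c2 : C ^ 2 ≤ C ^ 3 := pow_le_pow_right₀ C1 (by norm_num)
  have c1 : C ≤ C ^ 2 := by nlinarith
  have cv : C * v ≤ C ^ 3 * F * v := mul_le_mul_of_nonneg_right (by linarith) v0.le
  have cv2 : C ^ 2 * θ * v ≤ C ^ 3 * F * v := mul_le_mul_of_nonneg_right
    (by linarith [mul_le_mul_of_nonneg_left θ1 (pow_pos C0 2).le]) v0.le
  have cv3 : C ^ 3 * v ≤ C ^ 3 * F * v := mul_le_mul_of_nonneg_right c3 v0.le
  have xg : 0 ≤ x * g := mul_nonneg x0 g0
  have cx : x * g ≤ C * (x * g) := le_mul_of_one_le_left xg C1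
  have th2 : th ≤ 1 := by nlinarith
  have p1 : l0 * g ≤ x * g := mul_le_mul_of_nonneg_right l1 g0
  have p2 : x * (C * v + th * g) ≤ C ^ 3 * F * v + x * g := by
    linarith [mul_le_mul_of_nonneg_right x1 (mul_pos C0 v0).le, mul_le_mul_of_nonneg_right th2 xg]
  have p3 : 4 * X * (C * v + th * g) ≤ 4 * (C ^ 3 * F * v) + x * g := by
    have a1 := mul_le_mul_of_nonneg_right mx1 (mul_pos C0 v0).le
    have a6 : X * (th * g) = 384 * C ^ 7 * F ^ 2 * th * (μ * g) := by rw [mx]; ring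
    linarith
  have p4 : (7 * w + 2 * g ^ 2) * j ≤ 7 * al + 2 * (x * g) := by
    linarith [mul_le_mul_of_nonneg_left gj g0]
  have p5 := mul_le_mul_of_nonneg_right W (show 0 ≤ 12 * C * g + 12 * C ^ 2 * d by positivity)
  have p6 := mul_le_mul (W.trans (show 8 * x ≤ 8 by linarith)) cv3 (by positivity) (by norm_num)
  have a1 : 2 * (C * v) + (th + C) * g ≤ 2 * (C ^ 3 * F * v) + 2 * C * g := by
    linarith [mul_le_mul_of_nonneg_right (th2.trans C1) g0]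
  have p7 := mul_le_mul k2 a1 (by positivity) (by positivity)
  have p7' := mul_le_mul_of_nonneg_right x1 (show 0 ≤ (2 + 3 * K) * (C ^ 3 * F * v) by positivity)
  have p8 := mul_le_mul_of_nonneg_left p4 (show 0 ≤ 13 * C by positivity)
  have p9 : al ≤ C * al := le_mul_of_one_le_left al0 C1
  have p10 := mul_le_mul_of_nonneg_right ka1 (pow_nonneg g0 3)
  have p11 := mul_le_mul_of_nonneg_right g2 g0
  linarith

namespace Bd
variable {S : Sc} {M : Md} {m : ℕ} {a T : ℝ} {Gn : ℕ → Prop} {u v : ℕ}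
  {en on c al om Ga : ℕ → ℝ} {l0 ka th ε : ℝ}
  (B : Bd S M m a T Gn u v en on c al om Ga l0 ka th ε)
include B

theorem vp : v < S.Jp := B.vJ.trans_le B.A.cl.i3

theorem t_nn {t : ℝ} (h : sb M m a (u + 1) ≤ t) : 0 ≤ t :=
  (B.A.sb_mem (B.uv.trans B.vp).le).1.trans h

theorem cell {i k : ℕ} {t : ℝ} (n : Nx Gn u v i k) (h1 : sb M m a (i + 1) ≤ t)
    (h2 : t ≤ sb M m a (k + 1)) : ∃ y, i ≤ y ∧ y ≤ k ∧ Cell (sb M m a) (S.Jp + 1) (y + 1) t :=
  B.A.cell_in (by have := n.1; have := n.2.1; have := B.hu; omega) (n.2.2.1.trans_lt B.vp) n.2.1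
    h1 h2

theorem nx {t : ℝ} (h1 : sb M m a (u + 1) ≤ t) (h2 : t ≤ sb M m a (v + 1)) :
    ∃ i k, Nx Gn u v i k ∧ sb M m a (i + 1) ≤ t ∧ t ≤ sb M m a (k + 1) :=
  exists_nx (σ := fun j => sb M m a (j + 1)) B.uv.le B.gu B.gv h1 h2

theorem mm1 (t : ℝ) : mm M S m a t ≤ 1 := (B.A.mm_le t).trans B.θ1

theorem K1 : 384 ≤ 384 * S.C ^ 5 * S.F := by
  nlinarith [one_le_pow₀ B.A.cl.C1 (n := 5), B.A.cl.F1]

/-- all local sizes at a time of the bulk -/
theorem loc {t : ℝ} (h1 : sb M m a (u + 1) ≤ t) (h2 : t ≤ sb M m a (v + 1)) :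
    ∃ y, u ≤ y ∧ y ≤ v ∧ Cell (sb M m a) (S.Jp + 1) (y + 1) t ∧ 0 ≤ al y ∧ 0 ≤ om y ∧
      gB M m a Gn u v t ≤ Ga y ∧
      384 * S.C ^ 5 * S.F * gB M m a Gn u v t ^ 2 ≤ ε ^ 2 * mm M S m a t := by
  obtain ⟨i, k, n, p, q⟩ := B.nx h1 h2
  obtain ⟨y, y1, y2, cy⟩ := B.cell n p q
  obtain ⟨-, g2, g3, g4, g5⟩ := B.gap i k n
  obtain ⟨r1, r2, r3, -⟩ := g5 y y1 y2
  have uy := n.1.trans y1
  have yv := y2.trans n.2.2.1
  have g : gB M m a Gn u v t ≤ Ga y := Gap27.gl_le (by linarith) fun i' k' K p' q' => by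
    obtain ⟨i', k', rfl, rfl, n'⟩ := nx_of K
    obtain ⟨y', a1, a2, cy'⟩ := B.cell n' p' q'
    have e : Ga y' = Ga y := (B.A.nb_cell Ga cy').symm.trans (B.A.nb_cell Ga cy)
    exact e ▸ ((B.gap _ _ n').2.2.2.2 y' a1 a2).1
  refine ⟨y, uy, yv, cy, by linarith, g4.trans r3, g, ?_⟩
  exact (mul_le_mul_of_nonneg_left (pow_le_pow_left₀ (Gap27.gl_nn t) g 2) B.A.K_pos.le).trans
    ((B.nd y uy yv).2.2.trans (mul_le_mul_of_nonneg_left (B.A.mn_le cy) (sq_nonneg ε)))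

theorem th_le : 1536 * S.C * th ≤ 1 := by
  have C1 := B.A.cl.C1
  have p := one_le_pow₀ C1 (n := 6)
  have q := one_le_pow₀ B.A.cl.F1 (n := 2)
  have r : 1 ≤ S.C ^ 6 * S.F ^ 2 := by nlinarith
  have := mul_le_mul_of_nonneg_left r (show 0 ≤ 1536 * S.C * th by have := B.th0; positivity)
  linarith [B.th1, B.ε1, show 1536 * S.C * th * (S.C ^ 6 * S.F ^ 2) = 1536 * S.C ^ 7 * S.F ^ 2 * th
    by ring]

/-- the mass of the level doubles at most on a gap -/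
theorem dbl {i k : ℕ} {t : ℝ} (n : Nx Gn u v i k) (h1 : sb M m a (i + 1) ≤ t)
    (h2 : t ≤ sb M m a (k + 1)) :
    S.ms (lev M S m a (sb M m a (k + 1))) ≤ 4 * S.ms (lev M S m a t) := by
  have A := B.A
  have C0 := A.c_pos
  obtain ⟨n1, n2, n3, -⟩ := id n
  have hu := B.hu
  have vJ := B.vJ
  have i1 := A.cl.i1
  have a1 := (A.sb_mono (Nat.succ_le_succ n1)).trans h1
  obtain ⟨y, y1, y2, cy⟩ := B.cell n h1 h2
  obtain ⟨-, -, -, -, -, -, -, g⟩ := B.loc a1 (h2.trans (A.sb_mono (Nat.succ_le_succ n3)))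
  have d := Gap27.le_gl (σ := sb M m a) (cons_of n) h1 h2
  change _ ≤ gB M m a Gn u v t at d
  have z := (B.gap i k n).1
  have sk : M.s k < M.s S.J := (s_lt A.cl (by omega)).trans_le (A.cl.sm (by omega))
  have l1 := (A.sl sk _ _ (s_nn A.cl i) (A.cl.sm n2) le_rfl).1
  rw [A.lvh_node (by omega) (by omega), A.lvh_node (by omega) (by omega), one_div_mul_eq_div,
    sub_le_iff_le_add, div_le_iff₀ C0] at l1
  have e1 := A.lev_cell cy
  have e2 := A.lev_cell (A.cell (k := k) (by omega) (by have := A.cl.i3; omega))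
  have s1 : M.s i ≤ lev M S m a t := (A.cl.sm y1).trans (e1 ▸ le_max_right _ _)
  have s2 := (B.me.trans (A.cl.sm n1)).trans s1
  have s3 : t ≤ lev M S m a t := At.le_lev t
  have t0 := B.t_nn a1
  have th := B.th_le
  have d0 : 0 ≤ sb M m a (k + 1) - sb M m a (i + 1) := by linarith
  have v0 := v_pos A.cl
  set g' := gB M m a Gn u v t
  set L := lev M S m a t
  have k1 : lev M S m a (sb M m a (k + 1)) ≤ 5 / 4 * L + g' := by
    rw [e2]
    refine max_le (by linarith) ?_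
    nlinarith [mul_le_mul_of_nonneg_right th d0, mul_le_mul_of_nonneg_right z C0.le]
  rcases le_total g' (3 / 4 * L) with h | h
  · exact (A.cl.msm (by linarith)).trans (A.cl.ms2 L (by linarith))
  · have a2 := B.sub L (5 / 4 * L + g') (by linarith) (by linarith)
    have a3 : mm M S m a t ≤ S.ms L := div_le_self (A.ms_pos (by linarith)).le (by linarith [B.K1])
    have a4 : ε ^ 2 ≤ 1 := pow_le_one₀ B.ε0 B.ε1
    have a5 := mul_le_mul_of_nonneg_right B.K1 (sq_nonneg g')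
    have a6 := mul_le_mul a4 a3 (A.mm_pos t0).le zero_le_one
    have a7 : (5 / 4 * L + g') ^ 2 ≤ (8 / 3 * g') ^ 2 := pow_le_pow_left₀ (by linarith) (by linarith) 2
    linarith [A.cl.msm k1, A.ms_pos (show 0 ≤ L by linarith)]

theorem mm_dbl {i k : ℕ} {t : ℝ} (n : Nx Gn u v i k) (h1 : sb M m a (i + 1) ≤ t)
    (h2 : t ≤ sb M m a (k + 1)) : mm M S m a (sb M m a (k + 1)) ≤ 4 * mm M S m a t := by
  rw [mm, mm, ← mul_div_assoc]
  exact div_le_div_of_nonneg_right (B.dbl n h1 h2) B.A.K_pos.le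

theorem cut_le (k : ℕ) : cut c u v k ≤ ε * mn M S k := by
  unfold cut
  split_ifs with h
  · exact B.c1 k h.1 h.2
  · exact mul_nonneg B.ε0 (B.A.mn_pos k).le

theorem mn1 (k : ℕ) : mn M S k ≤ 1 :=
  (div_le_self (B.A.ms_pos (s_nn B.A.cl k)).le (by linarith [B.K1])).trans
    ((B.A.cl.ms1 _).trans B.θ1)

/-- the reference node of a time, for the label clock -/
theorem ref {t : ℝ} (t0 : 0 ≤ t) (ht : t < M.s S.J) : ∃ i, S.jl < i ∧ i < S.J ∧
    Om M c u v (lvr 1 (lh M T) t) = Om M c u v (M.z i) ∧ t < M.s (i + 1) ∧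
    ((M.s i ≤ t ∧ lvr 1 (lh M T) t = M.z i) ∨ (i = S.jl + 1 ∧ lvr 1 (lh M T) t ≤ M.z i)) := by
  have A := B.A
  have i1 := A.cl.i1
  rcases le_or_gt (M.s (S.jl + 1)) t with h | h
  · obtain ⟨i, p1, p2, p3, p4⟩ := A.exists_ref h ht
    have e : lvr 1 (lh M T) t = M.z i := by rw [A.lvh' t0, A.cl.lv i (by omega) t p3 p4]
    exact ⟨i, p1, p2, by rw [e], p4, .inl ⟨p3, e⟩⟩
  · have z := Sc48.lvr_mono A.okh.1.1 h.le
    rw [A.lvh_node (by omega) A.cl.i2] at z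
    have z' := A.cl.leg.zm (show S.jl + 1 ≤ u from B.hu)
    exact ⟨_, Nat.lt_succ_self _, A.cl.i2, Om_low A.cl.leg.zm c u v (z.trans z') z',
      h.trans_le (A.cl.sm (Nat.le_succ _)), .inr ⟨rfl, z⟩⟩

theorem o1 {t : ℝ} (h1 : sb M m a (u + 1) ≤ t) (h2 : t ≤ sb M m a (v + 1)) :
    |Om M c u v (lvr 1 (lb M S m a T) t) - Om M c u v (lvr 1 (lh M T) t)| ≤
      ε * mm M S m a t * |uu M S m a T t| := by
  have A := B.A
  have zm := A.cl.leg.zm
  have t0 := B.t_nn h1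
  obtain ⟨y, y1, y2, cy, -⟩ := B.loc h1 h2
  obtain ⟨i, p1, p2, p3, p4, p5⟩ := B.ref t0 (h2.trans_lt B.hJ)
  have L0 := mul_nonneg B.ε0 (A.mm_pos t0).le
  have mo := Om_mono M B.c0 u v
  rw [p3, uu, A.lvb_cell cy]
  rcases le_total i y with h | h
  · have z : lvr 1 (lh M T) t ≤ M.z i := p5.elim (fun e => e.2.le) (fun e => e.2)
    rw [abs_of_nonneg (sub_nonneg.2 (mo (zm h))), abs_of_nonneg (by linarith [zm h])]
    exact (Om_le zm h fun k _ b => (B.cut_le k).trans (mul_le_mul_of_nonneg_left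
      ((A.mn_mono b).trans (A.mn_le cy)) B.ε0)).trans (mul_le_mul_of_nonneg_left (by linarith) L0)
  · rcases p5 with e | e
    · rw [e.2, abs_sub_comm, abs_sub_comm (M.z y), abs_of_nonneg (sub_nonneg.2 (mo (zm h))),
        abs_of_nonneg (by linarith [zm h])]
      exact Om_le zm h fun k _ b => (B.cut_le k).trans (mul_le_mul_of_nonneg_left
        ((div_le_div_of_nonneg_right (A.cl.msm ((A.cl.sm b).trans e.1)) A.K_pos.le).trans
          (A.mm_ge t)) B.ε0)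
    · have : i = y := by have := B.hu; omega
      rw [this, sub_self, abs_zero]
      positivity

theorem LB_pw : LB T (pw M S c u v l0) := (LB.const l0).add ((LB.const _).mul (LB_stp _ _ _ _))

theorem cc_nn (t : ℝ) : 0 ≤ cc M S c u v t := by
  obtain ⟨k, ck⟩ := exists_Cell B.A.uh t
  rw [cc, ck.stp B.A.uh]
  exact cut_nn B.c0 u v k

theorem pw_nn (t : ℝ) : 0 ≤ pw M S c u v l0 t := by
  have := B.cc_nn t
  have := B.l00
  unfold pw
  positivity

theorem o2 {s t : ℝ} (s0 : 0 ≤ s) (st : s ≤ t) (ht : t < M.s S.J) :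
    l0 * (t - s) + (Om M c u v (lvr 1 (lh M T) t) - Om M c u v (lvr 1 (lh M T) s)) ≤
      (∫ r in s..t, pw M S c u v l0 r) + S.C * S.v := by
  have A := B.A
  have zm := A.cl.leg.zm
  have C0 := A.c_pos
  have v0 := v_pos A.cl
  have i1 := A.cl.i1
  have i3 := A.cl.i3
  have tT : t ≤ T := (ht.le.trans (A.cl.sm i3)).trans A.t2
  have lc : LB T (cc M S c u v) := LB_stp _ _ _ _
  obtain ⟨i, p1, p2, p3, p4, -⟩ := B.ref s0 (st.trans_lt ht)
  obtain ⟨j, q1, q2, q3, -, q5⟩ := B.ref (s0.trans st) ht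
  have e : ∫ r in s..t, pw M S c u v l0 r = (t - s) * l0 + S.C ^ 2 * ∫ r in s..t, cc M S c u v r := by
    unfold pw
    rw [intervalIntegral.integral_add ((LB.const l0).ii ⟨s0, st.trans tT⟩ ⟨s0.trans st, tT⟩)
      (((LB.const _).mul lc).ii ⟨s0, st.trans tT⟩ ⟨s0.trans st, tT⟩)]
    simp
  have n0 : 0 ≤ ∫ r in s..t, cc M S c u v r := intervalIntegral.integral_nonneg st fun r _ => B.cc_nn r
  rw [e, p3, q3]
  rcases le_or_gt j i with h | h
  · nlinarith [Om_mono M B.c0 u v (zm h), mul_pos C0 v0, mul_nonneg (sq_nonneg S.C) n0]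
  · have sj : M.s j ≤ t := q5.elim (fun e => e.1) (fun e => by omega)
    have a1 := A.int_ref (F := fun r => (-1) * cc M S c u v r) (w := fun k => -cut c u v (k + 1))
      ((LB.const _).mul lc) (i := i + 1) (j := j) h (by omega) fun k r a b c1 c2 => by
        rw [A.cc_cell c u v (by omega) (by omega) c1.le c2]; linarith
    rw [intervalIntegral.integral_const_mul] at a1
    have a2 := int_sub_le lc s0 p4.le (A.cl.sm h) sj tT fun r _ _ => B.cc_nn r
    have a3 : ∑ k ∈ Finset.Ico (i + 1) j, cut c u v (k + 1) * (M.z (k + 1) - M.z k) ≤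
        -S.C ^ 2 * ∑ k ∈ Finset.Ico (i + 1) j, (M.s (k + 1) - M.s k) * -cut c u v (k + 1) := by
      rw [Finset.mul_sum]
      refine Finset.sum_le_sum fun k hk => ?_
      rw [Finset.mem_Ico] at hk
      have b1 := (A.cl.zs k (by omega) (by omega)).2
      have b2 := (A.cl.ss k (by omega)).1
      rw [div_le_iff₀ C0] at b2
      nlinarith [mul_le_mul_of_nonneg_left (b1.trans (mul_le_mul_of_nonneg_left b2 C0.le))
        (cut_nn B.c0 u v (k + 1))]
    have a4 := Om_sub zm c u v h.le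
    rw [Finset.sum_eq_sum_Ico_succ_bot h] at a4
    have a5 : cut c u v (i + 1) * (M.z (i + 1) - M.z i) ≤ 1 * (S.C * S.v) :=
      mul_le_mul ((B.cut_le _).trans (mul_le_one₀ B.ε1 (A.mn_pos _).le (B.mn1 _)))
        (A.cl.zs i (by omega) (by omega)).2 (sub_nonneg.2 (zm (Nat.le_succ i))) zero_le_one
    nlinarith [mul_le_mul_of_nonneg_left (a2.trans' (show -∑ k ∈ Finset.Ico (i + 1) j,
      (M.s (k + 1) - M.s k) * -cut c u v (k + 1) ≤ _ by linarith)) (sq_nonneg S.C)]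

theorem t_le {t : ℝ} (h : t ≤ sb M m a (v + 1)) : t ≤ T := h.trans (B.A.sb_mem B.vp.le).2

omit B in
theorem LB_gB : LB T (gB M m a Gn u v) := Gap27.LB_gl T

theorem LB_pw2 : LB T (pw2 M S m a Gn c u v l0 ka) := B.LB_pw.add ((LB.const ka).mul LB_gB.sq)

theorem pw2_nn (t : ℝ) : 0 ≤ pw2 M S m a Gn c u v l0 ka t :=
  add_nonneg (B.pw_nn t) (mul_nonneg B.ka0 (sq_nonneg _))

theorem Lt_sub {s t : ℝ} (s0 : 0 ≤ s) (s1 : s ≤ T) (t0 : 0 ≤ t) (t1 : t ≤ T) :
    LtB M m a Gn u v l0 ka t - LtB M m a Gn u v l0 ka s =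
      l0 * (t - s) + ka * ∫ r in s..t, gB M m a Gn u v r ^ 2 := by
  have _ := B.ka0
  rw [LtB, LtB, int_split LB_gB.sq (b := s) ⟨le_rfl, s0.trans s1⟩ ⟨s0, s1⟩ ⟨t0, t1⟩]
  ring

/-- the label clock at the end point -/
theorem o1e {cm : ℝ} (cm0 : 0 ≤ cm)
    (hcm : ∀ y, u < y → y ≤ v → sb M m a (v + 1) ≤ M.s y → c y ≤ cm) :
    |Om M c u v (lvr 1 (lb M S m a T) (sb M m a (v + 1))) -
      Om M c u v (lvr 1 (lh M T) (sb M m a (v + 1)))| ≤
      cm * |lvr 1 (lb M S m a T) (sb M m a (v + 1)) - lvr 1 (lh M T) (sb M m a (v + 1))| := by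
  have A := B.A
  have zm := A.cl.leg.zm
  have hu := B.hu
  have uv := B.uv
  obtain ⟨i, p1, p2, p3, p4, p5⟩ := B.ref (A.sb_mem B.vp.le).1 B.hJ
  have mo := Om_mono M B.c0 u v
  rw [p3, A.lvb_node (by omega) B.vp.le]
  rcases le_total i v with h | h
  · have z : lvr 1 (lh M T) (sb M m a (v + 1)) ≤ M.z i := p5.elim (fun e => e.2.le) (fun e => e.2)
    rw [abs_of_nonneg (sub_nonneg.2 (mo (zm h))), abs_of_nonneg (by linarith [zm h])]
    refine (Om_le zm h fun k b _ => ?_).trans (mul_le_mul_of_nonneg_left (by linarith) cm0)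
    unfold cut
    split_ifs with e
    · exact hcm k e.1 e.2 (p4.le.trans (A.cl.sm b))
    · exact cm0
  · have := Om_le zm (c := c) (u := u) (v := v) h (L := 0) fun k b _ => by
      unfold cut; rw [if_neg (by omega)]
    rw [abs_sub_comm, abs_of_nonneg (sub_nonneg.2 (mo (zm h)))]
    exact this.trans (by rw [zero_mul]; positivity)

/-- **the node data** -/
theorem nodes {cm : ℝ} (cm0 : 0 ≤ cm)
    (hcm : ∀ y, u < y → y ≤ v → sb M m a (v + 1) ≤ M.s y → c y ≤ cm) : Nodes5 (lb M S m a T) (lh M T) M.b (xb M a) (sb M m a) (hb M)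
    (fun j => en (j - 1) + 1 / (m + 1)) (fun j => on (j - 1)) (fun j => Gn (j - 1)) (S.Jp + 1)
    (u + 1) (v + 1) (S.C * S.v) (LtB M m a Gn u v l0 ka) (Om M c u v)
    (pw2 M S m a Gn c u v l0 ka) (gB M m a Gn u v)
    (DzB M S m a Gn u v th) (jhB M S m a T Gn u v) (DB M S m a Gn u v th)
    (ηB M S m a Gn u v al l0 ka th ε) (nb M S m a om) (laB M S m a v ε cm) where
  uv := Nat.succ_le_succ B.uv.le
  vJ := Nat.succ_le_succ B.vp.le
  gu := B.gu
  gv := B.gv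
  hm := up_of_mono B.A.hb_mono _
  Lm := fun s t h1 h2 h3 => by
    have := B.Lt_sub (B.t_nn h1) (B.t_le (h2.trans h3)) ((B.t_nn h1).trans h2) (B.t_le h3)
    have := mul_nonneg B.ka0 (intervalIntegral.integral_nonneg (μ := volume) h2
      fun r _ => sq_nonneg (gB M m a Gn u v r))
    linarith [mul_nonneg B.l00 (sub_nonneg.2 h2)]
  δ0 := (mul_pos B.A.c_pos (v_pos B.A.cl)).le
  Ωm := Om_mono M B.c0 u v
  str := fun k h1 _ _ h3 => by
    obtain ⟨k, rfl⟩ : ∃ j, k = j + 1 := ⟨k - 1, by omega⟩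
    exact B.A.sb_lt (by have := B.hu; omega) (by omega)
  e1 := fun i k h1 h2 h3 g1 g2 => by
    have A := B.A
    have hu := B.hu
    have vp := B.vp
    obtain ⟨i, rfl⟩ : ∃ j, i = j + 1 := ⟨i - 1, by omega⟩
    obtain ⟨k, rfl⟩ : ∃ j, k = j + 1 := ⟨k - 1, by omega⟩
    have p := abs_le.1 (B.e1 i k (by omega) (by omega) (by omega) g1 g2)
    obtain ⟨r1, r2⟩ := rb_mem (M := M) (a := a) A.m_pos i
    obtain ⟨r3, r4⟩ := rb_mem (M := M) (a := a) A.m_pos k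
    have m0 : (0 : ℝ) < m + 1 := by positivity
    have s1 := div_nonneg r1 m0.le
    have s2 := div_le_div_of_nonneg_right r2 m0.le
    have s3 := div_nonneg r3 m0.le
    have s4 := div_le_div_of_nonneg_right r4 m0.le
    have mi := A.sb_mem (k := i) (by omega)
    have mk := A.sb_mem (k := k) (by omega)
    rw [A.resN_eq (by omega) (by omega), A.resN_eq (by omega) (by omega),
      B.Lt_sub mi.1 mi.2 mk.1 mk.2]
    simp only [Nat.add_sub_cancel, xb]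
    exact abs_le.2 ⟨by linarith [p.1], by linarith [p.2]⟩
  gap := fun i k K t h1 h2 => by
    have A := B.A
    have C0 := A.c_pos
    have hu := B.hu
    have vJ := B.vJ
    have i1 := A.cl.i1
    have d := Gap27.le_gl (σ := sb M m a) K h1 h2
    obtain ⟨i, k, rfl, rfl, n⟩ := nx_of (id K)
    change _ ≤ gB M m a Gn u v t at d
    obtain ⟨n1, n2, n3, -⟩ := id n
    obtain ⟨y, y1, y2, cy⟩ := B.cell n h1 h2
    obtain ⟨g1, g2, g3, g4, g5⟩ := B.gap i k n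
    obtain ⟨r1, r2, r3, r4⟩ := g5 y y1 y2
    have kJ := (A.sb_mono (Nat.succ_le_succ n3)).trans_lt B.hJ
    have i0 := (A.sb_mem (k := i) (by have := B.vp; omega)).1
    have p := (A.sl kJ _ _ i0 (h1.trans h2) le_rfl).2
    have q := mul_le_mul_of_nonneg_left d C0.le
    have q' := mul_le_mul_of_nonneg_left d B.th0
    have m0 : (0 : ℝ) ≤ 1 / (m + 1) := by positivity
    have e : (2 : ℝ) / (m + 1) = 1 / (m + 1) + 1 / (m + 1) := by ring
    have t0 := i0.trans h1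
    have z0 := sub_nonneg.2 (A.cl.leg.zm n2)
    have z1 : M.z k - M.z i ≤ S.C * S.v + th * gB M m a Gn u v t := by linarith
    have ck := A.cell (k := k) (by omega) (by have := B.vp; omega)
    have F0 : 0 < S.F := by linarith [A.cl.F1]
    simp only [Nat.add_sub_cancel, xb, hb, DzB, jhB, DB, ηB, A.nb_cell _ cy]
    refine ⟨d, by linarith, fun s hs => A.gd_near cy (by omega) (by omega) t0 (h2.trans_lt kJ)
      (i0.trans hs.1) (hs.2.trans_lt kJ) (abs_le.2 ⟨by linarith [hs.1], by linarith [hs.2]⟩)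
      (B.me.trans (A.cl.sm (n1.trans y1))),
      (div_le_self (sub_nonneg.2 (A.cl.leg.Hm n2)) A.b_mem.1).trans
        ((A.h_up B.up (by omega) n2 (by omega)).trans ?_), by linarith,
      by linarith, g4, r3, r4, ?_⟩
    · have a1 := (A.cl.msm (show M.s k ≤ lev M S m a (sb M m a (k + 1)) from
        A.lev_cell ck ▸ le_max_right _ _)).trans (B.dbl n h1 h2)
      have a2 := mul_le_mul_of_nonneg_left a1 (show 0 ≤ S.C ^ 2 * S.F by positivity)
      refine mul_le_mul (a2.trans_eq (by rw [Mx]; ring)) z1 z0 ?_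
      have := A.ms_pos (t0.trans (At.le_lev (M := M) (S := S) (m := m) (a := a) t))
      unfold Mx
      positivity
    · have a1 := Om_le A.cl.leg.zm (c := c) (u := u) (v := v) n2 (L := 4 * (ε * mm M S m a t))
        fun j _ b => (B.cut_le j).trans (by
          nlinarith [mul_le_mul_of_nonneg_left (((A.mn_mono b).trans (A.mn_le ck)).trans
            (B.mm_dbl n h1 h2)) B.ε0])
      have a2 := mul_le_mul_of_nonneg_left z1 (show 0 ≤ 4 * (ε * mm M S m a t) by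
        have := B.ε0; have := A.mm_pos t0; positivity)
      have mi := A.sb_mem (k := i) (by have := B.vp; omega)
      have mk := A.sb_mem (k := k) (by have := B.vp; omega)
      have d0 := sub_nonneg.2 (h1.trans h2)
      have a3 := int_le_const (K := gB M m a Gn u v t ^ 2) (Gap27.LB_gl (σ := sb M m a)
        (Gn := fun j => Gn (j - 1)) (u := u + 1) (v := v + 1) T).sq mi.1 (h1.trans h2) mk.2
        fun r b1 b2 => pow_le_pow_left₀ (Gap27.gl_nn r)
          ((Gap27.gl_in A.ub (Nat.succ_le_succ B.vp.le) K b1 b2).trans d) 2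
      have a4 := mul_le_mul_of_nonneg_left (a3.trans (mul_le_mul_of_nonneg_right d (sq_nonneg _)))
        B.ka0
      rw [B.Lt_sub mi.1 mi.2 mk.1 mk.2]
      unfold gB at *
      linarith [mul_le_mul_of_nonneg_left d B.l00]
  o1 := fun t h1 h2 => by
    unfold laB
    split_ifs with e
    · exact ⟨cm0, e ▸ B.o1e cm0 hcm⟩
    · exact ⟨mul_nonneg B.ε0 (B.A.mm_pos (B.t_nn h1)).le, B.o1 h1 h2⟩
  o2 := fun s t h1 h2 h3 => by
    have s0 := B.t_nn h1
    have tT := B.t_le h3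
    have ms : s ∈ Icc 0 T := ⟨s0, h2.trans tT⟩
    have mt : t ∈ Icc 0 T := ⟨s0.trans h2, tT⟩
    have := B.o2 s0 h2 (h3.trans_lt B.hJ)
    rw [B.Lt_sub ms.1 ms.2 mt.1 mt.2]
    unfold pw2
    rw [intervalIntegral.integral_add (B.LB_pw.ii ms mt) (((LB.const ka).mul LB_gB.sq).ii ms mt),
      intervalIntegral.integral_const_mul]
    linarith

/-- the coefficients of the fast part -/
theorem coef {K t : ℝ} (K0 : 0 ≤ K) (h1 : sb M m a (u + 1) ≤ t) (h2 : t ≤ sb M m a (v + 1)) :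
    cA0 K (gB M m a Gn u v) (DzB M S m a Gn u v th) (jhB M S m a T Gn u v) (DB M S m a Gn u v th)
        (ηB M S m a Gn u v al l0 ka th ε) (nb M S m a om) t + S.C ^ 2 * S.θ * S.v ≤
      aN M S m a al K t + (200 + 48 * K) * S.C * ε * (mm M S m a t * gB M m a Gn u v t) +
        96 * S.C ^ 2 * (ε * mm M S m a t) * |uu M S m a T t| ∧
    cA1 K (gB M m a Gn u v) (nb M S m a om) (fun t => ε * mm M S m a t) t ≤
      (17 + 24 * K) * (ε * mm M S m a t) ∧
    cA2 K (gB M m a Gn u v) (nb M S m a om) t ≤ 24 * K * (ε * mm M S m a t) := by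
  have A := B.A
  have C0 := A.c_pos
  have C1 := A.cl.C1
  have F1 := A.cl.F1
  have v0 := v_pos A.cl
  have t0 := B.t_nn h1
  obtain ⟨y, y1, y2, cy, al0, om0, -, hg⟩ := B.loc h1 h2
  obtain ⟨d1, d2, -⟩ := B.nd y y1 y2
  have mn := A.mn_le cy
  have μ0 := A.mm_pos t0
  have μ1 := B.mm1 t
  have ε0 := B.ε0
  have ε1 := B.ε1
  have g0 : 0 ≤ gB M m a Gn u v t := Gap27.gl_nn t
  have sy : 0 < M.s y := lt_of_lt_of_le (by positivity) (B.me.trans (A.cl.sm y1))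
  have my := A.ms_pos sy.le
  have j0 : 0 ≤ jn M S y := le_min (by positivity) sy.le
  have j2 : jn M S y ^ 2 ≤ 384 * S.C ^ 5 * S.F * mm M S m a t := by
    have a1 := mul_le_mul (min_le_left (S.ms (M.s y) / M.s y) (M.s y))
      (min_le_right (S.ms (M.s y) / M.s y) (M.s y)) j0 (by positivity)
    rw [div_mul_cancel₀ _ sy.ne'] at a1
    rw [Mp9.mn, div_le_iff₀ A.K_pos] at mn
    rw [sq]
    exact a1.trans (by linarith)
  have l1 := B.l01.trans (mul_le_mul_of_nonneg_left ((A.mn_mono y1).trans mn) ε0)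
  have mx : Mx M S m a t = 384 * S.C ^ 7 * S.F ^ 2 * mm M S m a t := by
    rw [Mx, mm]; field_simp
  have mx1 : Mx M S m a t ≤ S.C ^ 2 * S.F :=
    mul_le_of_le_one_right (by positivity) ((A.cl.ms1 _).trans B.θ1)
  have th := B.th_le
  have th0 := B.th0
  have th1 := B.th1
  have θ1 := B.θ1
  simp only [cA0, cA1, cA2, DzB, jhB, DB, ηB, aN, meB, A.nb_cell _ cy]
  rw [show (14 : ℝ) / (m + 1) = 7 * (2 / (m + 1)) by ring]
  exact coef_num B.ka1 K0 C1 F1 v0 al0 om0 hg (d1.trans (mul_le_mul_of_nonneg_left mn ε0)) d2 μ0 μ1 ε0 ε1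
    g0 j2 l1 mx mx1 th th0 th1 θ1 (abs_nonneg _) B.K1

theorem mm_le_Mx {t : ℝ} (t0 : 0 ≤ t) : mm M S m a t ≤ Mx M S m a t := by
  have p := B.A.ms_pos (t0.trans (At.le_lev (M := M) (S := S) (m := m) (a := a) t))
  have q : 1 ≤ S.C ^ 2 * S.F := by nlinarith [one_le_pow₀ B.A.cl.C1 (n := 2), B.A.cl.F1]
  exact (div_le_self p.le (by linarith [B.K1])).trans (le_mul_of_one_le_left p.le q)

theorem LB_Mx : LB T (Mx M S m a) := (LB.const _).mul (.of_mono (B.A.cl.msm.comp B.A.lev_mono))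

omit B in
theorem LB_g2 : LB T (g2 M S) := by
  have := LB_ite (T := T) (p := fun t => t < M.s (S.jl + 1)) measurableSet_Iio
    (LB.const (S.C * S.ms (M.s (S.jl + 1)) * M.s (S.jl + 1))) (LB_gt T M S)
  refine (congrArg (LB T) (funext fun t => ?_)).mp this
  unfold g2
  split_ifs <;> rfl

theorem LB_min2 : LB T fun t => min (|g2 M S t| ^ ((4 : ℝ) / 3)) (g2 M S t ^ 2 / mm M S m a t) :=
  LB_min (LB_comp LB_g2 (φ := fun x => |x| ^ ((4 : ℝ) / 3))
    (continuous_abs.rpow_const fun _ => .inr (by norm_num))) (LB_g2.sq.mul B.A.LB_inv)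

theorem LB_aN (K : ℝ) : LB T fun t => aN M S m a al K t ^ 2 / mm M S m a t :=
  (((LB.const _).mul (LB_stp _ _ _ _)).add (LB.const _)).sq.mul B.A.LB_inv

theorem LB_fN (K θ : ℝ) : LB T (fN M S m a al K θ) :=
  (LB.const _).mul (((LB.const 2).mul (B.LB_aN K)).add B.LB_min2)

theorem LB_fB (K θ : ℝ) : LB T (fB M S m a Gn u v al ε K θ) :=
  (B.LB_fN K θ).add ((LB.const _).mul (B.A.LB_mm.mul (Gap27.LB_gl T).sq))

theorem fN_nn (K θ : ℝ) {t : ℝ} (t0 : 0 ≤ t) : 0 ≤ fN M S m a al K θ t := by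
  have := B.A.mm_pos t0
  have : 0 ≤ min (|g2 M S t| ^ ((4 : ℝ) / 3)) (g2 M S t ^ 2 / mm M S m a t) :=
    le_min (by positivity) (by positivity)
  unfold fN
  positivity

theorem ζ_nn (t : ℝ) : 0 ≤ S.C ^ 2 * S.θ * S.v + |g2 M S t| := by
  have := (B.A.ms_pos le_rfl).le.trans (B.A.cl.ms1 0)
  have := v_pos B.A.cl
  positivity

theorem fl {t : ℝ} (h1 : sb M m a (u + 1) ≤ t) (h2 : t ≤ sb M m a (v + 1)) :
    mm M S m a t * uu M S m a T t ^ 2 - (S.C ^ 2 * S.θ * S.v + |g2 M S t|) * |uu M S m a T t| ≤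
      yN (lh M T) M.b (sb M m a) (hb M) (S.Jp + 1) t * uu M S m a T t ∧ (M.s (S.jl + 1) ≤ t →
    |HN (lb M S m a T) (lh M T) M.b (sb M m a) (hb M) (S.Jp + 1) (mm M S m a) (Mx M S m a) t -
      yN (lh M T) M.b (sb M m a) (hb M) (S.Jp + 1) t| ≤ S.C ^ 2 * S.θ * S.v + |g2 M S t|) := by
  have A := B.A
  have t0 := B.t_nn h1
  obtain ⟨y, y1, y2, cy, -⟩ := B.loc h1 h2
  have me := B.me.trans (A.cl.sm y1)
  rcases lt_or_ge t (M.s (S.jl + 1)) with h | h
  · refine ⟨le_trans ?_ (A.fl_low (y2.trans_lt B.vJ) cy t0 h (B.lo.trans (A.cl.sm y1)) me),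
      fun c => absurd h (not_lt.2 c)⟩
    have := (B.A.ms_pos le_rfl).le.trans (B.A.cl.ms1 0)
    have := v_pos B.A.cl
    have p : 0 ≤ S.C ^ 2 * S.θ * S.v := by positivity
    rw [g2, if_pos h]
    nlinarith [mul_le_mul_of_nonneg_right (le_abs_self (S.C * S.ms (M.s (S.jl + 1)) *
      M.s (S.jl + 1))) (abs_nonneg (uu M S m a T t)), mul_nonneg p (abs_nonneg (uu M S m a T t))]
  · obtain ⟨p, q⟩ := A.fl3 B.up (B.hu.trans_le y1) (y2.trans_lt B.vJ) cy h (h2.trans_lt B.hJ)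
      (me.trans (A.lev_cell cy ▸ le_max_right _ _))
    have z := B.ζ_nn t
    rw [g2, if_neg (not_lt.2 h)] at z ⊢
    refine ⟨p, fun _ => two_near (u := uu M S m a T t) z (B.mm_le_Mx t0) (fun c => ?_)
      (fun c => ?_) q⟩
    · rcases c.eq_or_lt with e | e
      · rw [← e] at q ⊢
        simpa using (abs_le.1 q).1
      · rw [abs_of_pos e] at p
        exact le_of_mul_le_mul_right (by linarith) e
    · rcases c.eq_or_lt with e | e
      · rw [e] at q ⊢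
        simpa using (abs_le.1 q).2
      · rw [abs_of_neg e] at p
        exact le_of_mul_le_mul_right (a := -uu M S m a T t) (by linarith) (by linarith)

/-- the numbers of the pairing -/
theorem num {K θ t : ℝ} (K0 : 0 ≤ K) (hθ : 0 < θ) (θ1 : θ ≤ 1)
    (hε : (17 + 24 * K + 96 * S.C ^ 2) * ε + (24 * K * ε) ^ 2 / θ ≤ θ)
    (h1 : sb M m a (u + 1) ≤ t) (h2 : t ≤ sb M m a (v + 1)) :
    NumM θ (mm M S m a t) (fB M S m a Gn u v al ε K θ t) (aN M S m a al K t +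
      (200 + 48 * K) * S.C * ε * (mm M S m a t * gB M m a Gn u v t) + |g2 M S t|)
      ((17 + 24 * K + 96 * S.C ^ 2) * (ε * mm M S m a t)) (24 * K * (ε * mm M S m a t)) := by
  have A := B.A
  obtain ⟨y, -, -, cy, al0, -⟩ := B.loc h1 h2
  have μ0 := A.mm_pos (B.t_nn h1)
  have μ1 := B.mm1 t
  have C0 := A.c_pos
  have F0 : 0 < S.F := by linarith [A.cl.F1]
  have v0 := v_pos A.cl
  have ε0 := B.ε0
  have g0 : 0 ≤ gB M m a Gn u v t := Gap27.gl_nn t
  have a0 : 0 ≤ aN M S m a al K t := by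
    rw [aN, meB, A.nb_cell _ cy]; positivity
  refine NumM_mono (Gap27.numM_of (α := aN M S m a al K t + (200 + 48 * K) * S.C * ε *
    (mm M S m a t * gB M m a Gn u v t)) (g := g2 M S t) hθ θ1 μ0 (by positivity) le_rfl ?_) ?_
  · have a1 : (24 * K * (ε * mm M S m a t)) ^ 2 / θ ≤ (24 * K * ε) ^ 2 / θ * mm M S m a t := by
      rw [div_mul_eq_mul_div]
      refine div_le_div_of_nonneg_right ?_ hθ.le
      nlinarith [mul_le_mul_of_nonneg_left μ1 (mul_nonneg (sq_nonneg (24 * K * ε)) μ0.le)]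
    linarith [mul_le_mul_of_nonneg_right hε μ0.le]
  · rw [fB, fN]
    set x := aN M S m a al K t
    set κ := (200 + 48 * K) * S.C * ε
    set g := gB M m a Gn u v t
    set μ := mm M S m a t
    have a1 : (x + κ * (μ * g)) ^ 2 / μ ≤ 2 * (x ^ 2 / μ) + 2 * κ ^ 2 * (μ * g ^ 2) := by
      rw [div_le_iff₀ μ0, add_mul, mul_assoc 2, div_mul_cancel₀ _ μ0.ne']
      nlinarith [sq_nonneg (x - κ * (μ * g))]
    have a2 := mul_le_mul_of_nonneg_left a1 (show 0 ≤ 2 / θ ^ 2 by positivity)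
    have e : 4 * κ ^ 2 / θ ^ 2 * (μ * g ^ 2) = 2 / θ ^ 2 * (2 * κ ^ 2 * (μ * g ^ 2)) := by ring
    rw [e]
    linarith

/-- **the residual data of the bulk** -/
theorem resB {K θ cm : ℝ} (K0 : 0 ≤ K) (hA : HLip Pr.AA T K) (hN : HLip Pr.NN T K) (hθ : 0 < θ)
    (θ1 : θ ≤ 1) (hε : (17 + 24 * K + 96 * S.C ^ 2) * ε + (24 * K * ε) ^ 2 / θ ≤ θ) (cm0 : 0 ≤ cm)
    (hcm : ∀ y, u < y → y ≤ v → sb M m a (v + 1) ≤ M.s y → c y ≤ cm) :
    ∃ r1 r2 β : ℝ → ℝ, Res T (fun t => lvr 1 (lb M S m a T) t - lvr 1 (lh M T) t)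
      (fun t => Pr.Gam (lb M S m a T) t - Pr.Gam (lh M T) t)
      (HN (lb M S m a T) (lh M T) M.b (sb M m a) (hb M) (S.Jp + 1) (mm M S m a) (Mx M S m a))
      r1 r2 (pw2 M S m a Gn c u v l0 ka) β
      (fun t => xi θ (mm M S m a t) (fB M S m a Gn u v al ε K θ t)
        (∫ s in (0 : ℝ)..T, |Sc48.Jf (lh M T) (lb M S m a T) T s|)
        (lvr 1 (lb M S m a T) t - lvr 1 (lh M T) t) (Sc48.Jf (lh M T) (lb M S m a T) T t))
      (sb M m a (u + 1)) (sb M m a (v + 1)) ∧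
      (∀ k, u ≤ k → k ≤ v → Gn k →
        r2 (sb M m a (k + 1)) = resN (lb M S m a T) M.b (sb M m a) (hb M) (k + 1)) ∧
      β (sb M m a (v + 1)) = en v + 1 / (m + 1) + S.C * S.v +
        on v * |L0.Gd (lb M S m a T) (sb M m a (v + 1))| + cm * |uu M S m a T (sb M m a (v + 1))| ∧
      (∀ ρ, (∀ i, u ≤ i → i ≤ v → Gn i → |res M S m a T i| ≤
          en i + on i * |L0.Gd (lb M S m a T) (sb M m a (i + 1))| + ρ +
          (l0 * (sb M m a (i + 1) - sb M m a (u + 1)) +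
            ka * (∫ r in sb M m a (u + 1)..sb M m a (i + 1), gB M m a Gn u v r ^ 2) +
            (Om M c u v (M.z i) - Om M c u v (lvr 1 (lh M T) (sb M m a (u + 1)))))) →
        ∀ t, sb M m a (u + 1) ≤ t → t ≤ sb M m a (v + 1) →
          |r2 t| ≤ (∫ r in sb M m a (u + 1)..t, pw2 M S m a Gn c u v l0 ka r) + ρ + β t) ∧
      ∀ t, sb M m a (u + 1) ≤ t → t < sb M m a (v + 1) → M.s (S.jl + 1) ≤ t →
        NumM θ (mm M S m a t) (fB M S m a Gn u v al ε K θ t) (aN M S m a al K t +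
          (200 + 48 * K) * S.C * ε * (mm M S m a t * gB M m a Gn u v t) + |g2 M S t|)
          ((17 + 24 * K + 96 * S.C ^ 2) * (ε * mm M S m a t)) (24 * K * (ε * mm M S m a t)) ∧
        |r1 t| + β t ≤ aN M S m a al K t +
          (200 + 48 * K) * S.C * ε * (mm M S m a t * gB M m a Gn u v t) + |g2 M S t| +
          (17 + 24 * K + 96 * S.C ^ 2) * (ε * mm M S m a t) * |uu M S m a T t| +
          24 * K * (ε * mm M S m a t) * (|Sc48.Jf (lh M T) (lb M S m a T) T t| +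
            ∫ s in (0 : ℝ)..T, |Sc48.Jf (lh M T) (lb M S m a T) T s|) := by
  have A := B.A
  have hT : 0 ≤ T := (s_nn A.cl _).trans A.t2
  have ι0 : ∀ t, 0 ≤ |Sc48.Jf (lh M T) (lb M S m a T) T t| +
      ∫ s in (0 : ℝ)..T, |Sc48.Jf (lh M T) (lb M S m a T) T s| := fun t =>
    add_nonneg (abs_nonneg _) (intervalIntegral.integral_nonneg hT fun _ _ => abs_nonneg _)
  have e1 : ∀ t, t < sb M m a (v + 1) → cA1 K (gB M m a Gn u v) (nb M S m a om)
      (laB M S m a v ε cm) t = cA1 K (gB M m a Gn u v) (nb M S m a om)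
        (fun t => ε * mm M S m a t) t := fun t h => by simp only [cA1, laB, if_neg h.ne]
  obtain ⟨r1, r2, β, R, nd, be, ab, bd⟩ := Gap27.res_nodes5 (lb := lb M S m a T)
    (m := mm M S m a) (Mx := Mx M S m a)
    (f := fB M S m a Gn u v al ε K θ) (ζ := fun t => S.C ^ 2 * S.θ * S.v + |g2 M S t|) K0 hA hN
    A.datB A.okh.1 A.okh.2 hθ (by linarith [A.b_mem.1]) rfl (B.nodes cm0 hcm) B.LB_pw2 A.LB_mm
    B.LB_Mx (B.LB_fB K θ) (fun t a _ => by
      have t0 := B.t_nn a.le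
      have := A.mm_pos t0
      exact ⟨B.pw2_nn t, this.le, add_nonneg (B.fN_nn K θ t0) (by positivity), B.ζ_nn t,
        B.mm_le_Mx t0⟩) (fun t a c => (B.fl a.le c.le).1) (fun t h1 h2 => by
      obtain ⟨p1, p2, p3⟩ := B.coef K0 h1.le h2.le
      refine ⟨_, _, _, B.num K0 hθ θ1 hε h1.le h2.le, ?_⟩
      have a1 := mul_le_mul_of_nonneg_right p2 (abs_nonneg (uu M S m a T t))
      have a2 := mul_le_mul_of_nonneg_right p3 (ι0 t)
      rw [e1 t h2]
      simp only [uu] at a1 p1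
      linarith)
  have hu := B.hu
  have vp := B.vp
  have uv := B.uv
  refine ⟨r1, r2, β, R, fun k a c g => nd (k + 1) (by omega) (by omega) g, ?_,
    fun ρ h => ab ρ fun i a c g => ?_, fun t h1 h2 h3 => ⟨B.num K0 hθ θ1 hε h1 h2.le, ?_⟩⟩
  · rw [be]
    simp only [Nat.add_sub_cancel, laB, if_true, uu]
  · obtain ⟨i, rfl⟩ : ∃ j, i = j + 1 := ⟨i - 1, by omega⟩
    have p := h i (by omega) (by omega) g
    obtain ⟨r1, r2⟩ := rb_mem (M := M) (a := _) A.m_pos i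
    have m0 : (0 : ℝ) < m + 1 := by positivity
    have mi := A.sb_mem (k := i) (by omega)
    have mu := A.sb_mem (k := u) (by omega)
    rw [A.resN_eq (by omega) (by omega), B.Lt_sub mu.1 mu.2 mi.1 mi.2]
    simp only [Nat.add_sub_cancel, xb]
    refine (abs_add_le _ _).trans ?_
    rw [abs_of_nonneg (div_nonneg r1 m0.le)]
    linarith [div_le_div_of_nonneg_right r2 m0.le]
  · obtain ⟨p1, p2, p3⟩ := B.coef K0 h1 h2.le
    have q := (B.fl h1 h2.le).2 h3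
    have a1 := mul_le_mul_of_nonneg_right p2 (abs_nonneg (uu M S m a T t))
    have a2 := mul_le_mul_of_nonneg_right p3 (ι0 t)
    have := bd t h1 h2.le
    rw [e1 t h2] at this
    simp only [uu] at a1 p1 ⊢
    linarith

end Bd

end Crest.Agent.T156.Alt.Mp9

end
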