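import Crest.Agent.T156.NRo_44
import Crest.Agent.T156.TermN_15

/-!
# Row 156 (helper79): the leaf `Blkx`, reduction to exponent lines
-/

set_option autoImplicit false
set_option linter.unusedSectionVars false

noncomputable section

namespace Crest.Agent.T156.Alt.Bk79

open Real Finset
open Crest.Agent.T156.Alt.L69 (mf GS LO bs uw)
open Crest.Agent.T156.Alt.R62 (lw sb T0)
open Crest.Agent.T156.Alt.Tn15 (W)
open Crest.Agent.T156.Alt.Nr44 (Cx)

section cls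

variable {S : Sc} {M : Md} {m : ℕ} {a : ℝ}

theorem mem {t t' : ℝ} {k : ℕ} :
    k ∈ sb S M t t' ↔ (S.jl < k ∧ k < S.J) ∧ t ≤ M.s k ∧ M.s k ≤ t' := by
  rw [sb, mem_filter, mem_Ioo]

theorem lw0 (c : Cl S M) (k : ℕ) : 0 ≤ lw M k := sub_nonneg.2 (c.leg.zm (Nat.sub_le k 1))

/-- label weight of a time window -/
theorem wt (c : Cl S M) {t t' : ℝ} (h : t ≤ t') :
    ∑ k ∈ sb S M t t', lw M k ≤ S.C ^ 2 * (t' - t) + S.C * S.v := by
  have C0 := c.C0
  have v0 := c.v0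
  have i1 := c.i1
  rcases (sb S M t t').eq_empty_or_nonempty with e | ne
  · rw [e, sum_empty]; have := sub_nonneg.2 h; positivity
  obtain ⟨⟨a1, a2⟩, a3, -⟩ := mem.1 ((sb S M t t').min'_mem ne)
  obtain ⟨⟨b1, b2⟩, -, b3⟩ := mem.1 ((sb S M t t').max'_mem ne)
  have ab := (sb S M t t').min'_le _ ((sb S M t t').max'_mem ne)
  set i := (sb S M t t').min' ne
  set j := (sb S M t t').max' ne
  have k1 : ∀ k ∈ sb S M t t', lw M k ≤ S.C * S.v := fun k hk => by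
    obtain ⟨⟨d1, d2⟩, -⟩ := mem.1 hk
    have := (c.zs (k - 1) (by omega) (by omega)).2
    rwa [show k - 1 + 1 = k by omega] at this
  have k2 : ((sb S M t t').card : ℝ) ≤ (j : ℝ) - i + 1 := by
    have := card_le_card (show sb S M t t' ⊆ Icc i j from fun k hk =>
      mem_Icc.2 ⟨min'_le _ k hk, le_max' _ k hk⟩)
    rw [Nat.card_Icc] at this
    have e : ((j + 1 - i : ℕ) : ℝ) = (j : ℝ) - i + 1 := by
      rw [Nat.cast_sub (by omega)]; push_cast; ring
    rw [← e]; exact_mod_cast this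
  have k3 : ∀ q, i ≤ q → q ≤ j → ((q : ℝ) - i) * (S.v / S.C) ≤ M.s q - M.s i := by
    intro q hq
    induction q, hq using Nat.le_induction with
    | base => intro _; simp
    | succ q hq ih =>
      intro hj
      have := (c.ss q (by omega)).1
      have := ih (by omega)
      push_cast; linarith
  have k4 := k3 j ab le_rfl
  have k5 : ((j : ℝ) - i) * S.v ≤ S.C * (t' - t) := by
    rw [← mul_div_assoc, div_le_iff₀ C0] at k4
    nlinarith
  have k6 := (sum_le_card_nsmul _ _ _ k1).trans_eq (nsmul_eq_mul _ _)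
  have k7 := mul_le_mul_of_nonneg_right k2 (mul_pos C0 v0).le
  have k8 := mul_le_mul_of_nonneg_left k5 C0.le
  linarith

/-- a block from a sup bound -/
theorem sup (c : Cl S M) {x D : ℝ} (hv : S.v ≤ x)
    (hD : ∀ k, S.jl < k → k < S.J → x / 4 ≤ M.s k → M.s k ≤ 8 * x → |M.del m a k| ≤ D) :
    ∑ k ∈ sb S M (x / 4) (8 * x), lw M k * M.del m a k ^ 2 ≤ 9 * S.C ^ 2 * x * D ^ 2 := by
  have x0 := c.v0.trans_le hv
  have C1 := c.C1
  have w : ∑ k ∈ sb S M (x / 4) (8 * x), lw M k ≤ 9 * S.C ^ 2 * x := by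
    have a1 : S.C * S.v ≤ S.C ^ 2 * x := by
      nlinarith [mul_le_mul_of_nonneg_left hv c.C0.le, mul_pos c.C0 x0]
    have := mul_pos (pow_pos c.C0 2) x0
    linarith [wt c (show x / 4 ≤ 8 * x by linarith)]
  refine le_trans (sum_le_sum fun k hk => ?_) ((sum_mul _ _ _).symm.trans_le
    (mul_le_mul_of_nonneg_right w (sq_nonneg D)))
  obtain ⟨⟨a1, a2⟩, a3, a4⟩ := mem.1 hk
  refine mul_le_mul_of_nonneg_left ?_ (lw0 c k)
  rw [← sq_abs]
  exact pow_le_pow_left₀ (abs_nonneg _) (hD k a1 a2 a3 a4) 2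

/-- a block from `LO.two` -/
theorem two (c : Cl S M) {Λ t0 u En t t' : ℝ} (h : LO Λ S M m a t0 u En) (h0 : t0 ≤ t)
    (h1 : t ≤ t') : ∑ k ∈ sb S M t t', lw M k * M.del m a k ^ 2 ≤
      Λ * (min (√(t' * En)) (En / mf S t) + GS M S t t' + 1 / (S.n : ℝ) ^ 2) := by
  refine (sum_le_sum_of_subset_of_nonneg (fun k hk => ?_) fun k _ _ =>
    mul_nonneg (lw0 c k) (sq_nonneg _)).trans (h.two t t' h0 h1)
  have i1 := c.i1
  have i3 := c.i3
  obtain ⟨⟨b1, b2⟩, d⟩ := mem.1 hk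
  rw [mem_filter, Md.blk, mem_filter, mem_Ioc]
  exact ⟨⟨⟨by omega, by omega⟩, d⟩, b2⟩

/-- the local size decreases with the level -/
theorem bs_anti (c : Cl S M) {Lg X2 g g' y r : ℝ} {η : ℝ → ℝ} (hη : η r ≤ η y) (η0 : 0 ≤ η r + g)
    (hg : g ≤ g') (X0 : 0 ≤ X2) (y0 : 0 < y) (h : y ≤ r) :
    bs S Lg X2 g η r ≤ bs S Lg X2 g' η y := by
  have m0 := Tn15.mf0 c y0.le
  have m1 := Tn15.mf_mono c h
  have w0 := Tn15.W0 c (y0.trans_le h)
  have w1 := Tn15.W_anti c y0 h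
  have e : ∀ t, uw S Lg t = Lg ^ 2 * W S t := fun t => by rw [uw, W, mul_assoc]
  rw [bs, bs, e, e]
  refine add_le_add (div_le_div₀ (by linarith) (by linarith) m0 m1) ?_
  gcongr

theorem ms4 (c : Cl S M) {x : ℝ} (x0 : 0 ≤ x) : S.ms x ≤ 16 * S.ms (x / 4) := by
  have a1 := c.ms2 (x / 2) (by linarith)
  have a2 := c.ms2 (x / 4) (by linarith)
  rw [show 2 * (x / 2) = x by ring] at a1
  rw [show 2 * (x / 4) = x / 2 by ring] at a2
  linarith

end cls

variable {β c0 C0 : ℝ} {A : ℕ} {c η K : ℝ} {p : Pm} {σ t x : ℝ}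

/-- the three lines below `PbN`; `y` = exponent of (energy of the block) / `x` -/
structure L3 (p : Pm) (t x y : ℝ) : Prop where
  a : y + logb p.n (p.msG t x) ≤ -(p.c / 2000) - 2 / 3 + 4 * logb p.n p.s
  b : y + 2 * logb p.n (p.msG t x) + 8 / 25 * p.c + logb p.n (p.sM t) - logb p.n (p.muG t) ≤
    -(p.c / 2000) - 2 / 3 + 4 * logb p.n p.s
  d : y + 2 * logb p.n x + 8 / 25 * p.c + logb p.n (p.sM t) + logb p.n (p.muG t) ≤
    -(p.c / 2000) - 2 / 3 + 4 * logb p.n p.s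

theorem L3.mono {y y' : ℝ} (h : L3 p t x y) (hy : y' ≤ y) : L3 p t x y' :=
  ⟨by linarith [h.a], by linarith [h.b], by linarith [h.d]⟩

theorem pb_of (X : Cx β c0 C0 A c η K p σ t) (x0 : 0 < x) {Y y : ℝ}
    (hY : Y ≤ x * (p.n : ℝ) ^ y) (h : L3 p t x y) : Y ≤ p.PbN t x := by
  refine hY.trans (X.H.le_of_lg (mul_pos x0 (X.H.rp0 _)) (X.Pb0 x0) ?_)
  obtain ⟨h1, h2, h3⟩ := h
  rw [X.H.hc] at h1 h2 h3
  rw [X.lg_Pb' x0, logb_mul x0.ne' (X.H.rp0 _).ne', X.H.lg_rp]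
  rcases max_choice 0 (8 / 25 * c + logb p.n (p.sM t) + max (logb p.n (p.msG t x) -
    logb p.n (p.muG t)) (logb p.n (p.muG t) + 2 * logb p.n x - logb p.n (p.msG t x))) with e | e <;>
    rw [e]
  · linarith
  · rcases max_choice (logb p.n (p.msG t x) - logb p.n (p.muG t))
      (logb p.n (p.muG t) + 2 * logb p.n x - logb p.n (p.msG t x)) with e | e <;> rw [e] <;>
      linarith

/-- the thick case -/
theorem thick (h : p.PN t x < p.PhN t) : (p.n : ℝ) ^ (p.c / 2000) * p.lN t < x ∧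
    p.PN t x = p.PbN t x ∧ p.PbN t x < p.PhN t := by
  have q : (p.n : ℝ) ^ (p.c / 2000) * p.lN t < x := by
    by_contra q
    exact h.ne (Cx.P_lo (not_lt.1 q))
  have e : p.PN t x = min (p.PhN t) (p.PbN t x) := if_neg (not_le.2 q)
  rw [e] at h ⊢
  have b := (min_lt_iff.1 h).resolve_left (lt_irrefl _)
  exact ⟨q, min_eq_right b.le, b⟩

end Crest.Agent.T156.Alt.Bk79

end
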