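import Crest.Agent.T156.HyA_4

/-!
# Row 156 (helper79): the leaf `Blkx`, the linear lines
-/

set_option autoImplicit false

noncomputable section

namespace Crest.Agent.T156.Alt.Bk79

open Crest.Agent.T156.Alt.Ln97 (M12)
open Crest.Agent.T156.Alt.Hl4 (Ms)

/-- exponents at a thick level: `u` level, `m` mass, `z = lg sM`, `y = max 0 (μ + 1/3)`;
`B` = exponent allowed for the location -/
structure Ft (s c η μ φ u m z L y χ2 χ3 γ B : ℝ) : Prop where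
  c0 : 0 < c
  c1 : c ≤ 1 / 10000
  η0 : 0 < η
  η1 : 100000 * η ≤ c
  s0 : 0 ≤ s
  L1 : L ≤ c / 1000
  φ1 : φ ≤ -(1 / 3) + s + c
  χ2l : χ2 ≤ -(61 / 180) + 7 / 10 * s + c
  χ3l : χ3 ≤ -(101 / 200) + η ∨ χ3 ≤ χ2 + 2 / 3 * φ + η ∨ χ3 ≤ 3 / 2 * χ2 + η
  y0 : 0 ≤ y
  y1 : μ + 1 / 3 ≤ y
  γl : γ ≤ 5 * c - 1 / 3 - y / 2 + η ∨ (2 * γ ≤ c - 2 / 3 + φ / 2 + 1 / 6 - y / 2 + 4 * c) ∨
    γ ≤ χ2 + η
  ms : Ms c η μ u m
  u1 : u ≤ η
  μ1 : μ ≤ -(6 * c)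
  μ0 : -(1 / 3) - 4 * c ≤ μ
  z1 : z ≤ s
  m0 : -(1 / 3) - 11 * c ≤ m
  t1 : -(1 / 3) - 7 / 500 * c ≤ m ∨ -(10 * c) ≤ u
  hB : -(c / 2000) - 2 / 3 + 4 * s - c / 1000 - m ≤ 2 * B ∨
    -(c / 2000) - 2 / 3 + 4 * s - c / 1000 - (2 * m + 8 / 25 * c + z - μ) ≤ 2 * B ∨
    -(c / 2000) - 2 / 3 + 4 * s - c / 1000 - (2 * u + 8 / 25 * c + z + μ) ≤ 2 * B

variable {s c η μ φ u m z L y χ2 χ3 γ B : ℝ}

set_option hygiene false in
macro "ft79" : tactic => `(tactic| (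
  obtain ⟨c0, c1, η0, η1, s0, L1, φ1, χ2l, χ3l, y0, y1, γl, ⟨lo, a1, a2, a3⟩, u1, μ1, μ0, z1, m0,
    t1, hB⟩ := h
  rcases hB with hB | hB | hB <;>
  first | linarith | (rcases lo with ⟨_, lo | lo⟩ | ⟨_, lo⟩ <;>
    first | linarith | (rcases t1 with t1 | t1 <;> linarith))))

set_option hygiene false in
macro "ft79g" : tactic => `(tactic| (
  obtain ⟨c0, c1, η0, η1, s0, L1, φ1, χ2l, χ3l, y0, y1, γl, ⟨lo, a1, a2, a3⟩, u1, μ1, μ0, z1, m0,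
    t1, hB⟩ := h
  rcases γl with γl | γl | γl <;> rcases hB with hB | hB | hB <;>
  first | linarith | (rcases lo with ⟨_, lo | lo⟩ | ⟨_, lo⟩ <;>
    first | linarith | (rcases t1 with t1 | t1 <;> linarith))))

namespace Ft

variable (h : Ft s c η μ φ u m z L y χ2 χ3 γ B)
include h

theorem h1 : 6 * L - (1 + (u - η) + (m - η)) ≤ B + m - 2 * η := by ft79
theorem h2 : 4 * L - 2 / 3 - (u - η) ≤ B + m - 2 * η := by ft79
theorem h3 : 5 / 2 * L - (1 + (m - η)) / 2 - (1 + (u - η) + (m - η)) / 3 ≤ B + m - 2 * η := by ft79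
theorem h4 : (L - (1 + (m - η))) / 2 + χ2 / 2 ≤ B + m - 2 * η := by ft79
theorem h5 : γ + 2 * L - (1 + (u - η) + (m - η)) / 3 ≤ B + m - 2 * η := by ft79g
theorem h6 : γ + χ2 / 2 ≤ B + m - 2 * η := by ft79g
theorem h7 : χ2 + 2 * L - (1 + (u - η) + (m - η)) / 3 ≤ B + m - 2 * η := by ft79
theorem h8 : 3 / 2 * χ2 + η ≤ B + m - 2 * η := by ft79
theorem h10 : -(101 / 200) + η ≤ B + m - 2 * η := by ft79
theorem h9 : χ3 ≤ B + m - 2 * η := by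
  have a := h.h8
  have b := h.h10
  have := h.χ2l; have := h.φ1; have := h.c1; have := h.η1; have := h.s0
  rcases h.χ3l with e | e | e
  · linarith
  · clear a b; ft79
  · linarith
theorem h11 : η - (1 + (m - η)) ≤ B + m - 2 * η := by ft79
theorem h12 : η - (1 + (m - η)) / 7 + 6 / 7 * (3 * (φ / 3) - (1 + (u - η) + (m - η)) / 3) ≤
    B + m - 2 * η := by ft79
theorem k2 : χ2 ≤ B + (m - η) / 2 := by ft79
theorem k3 : 4 * L - 2 / 3 * (1 + (u - η) + (m - η)) ≤ B + (m - η) / 2 := by ft79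

theorem m12 : M12 η L (φ / 3) χ2 χ3 γ (u - η) (m - η) (B + m - 2 * η) :=
  ⟨h.h1, h.h2, h.h3, h.h4, h.h5, h.h6, h.h7, by linarith [h.h8, h.η0], h.h9,
    by linarith [h.h10, h.η0], h.h11, h.h12⟩

end Ft

end Crest.Agent.T156.Alt.Bk79

end
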