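import Crest.Agent.T156.TermN_15

/-!
# Row 156, block (L): the bulk numbers `LN` for `V = X^{1/3}`, `l0 ≤ l` (helper97)
-/

set_option autoImplicit false
set_option linter.unusedSectionVars false

noncomputable section

namespace Crest.Agent.T156.Alt.Ln97

open Real Finset
open Crest.Agent.T156.Alt.L69 Crest.Agent.T156.Alt.Tn15

/-- the residual size at the level `t` -/
def e2 (S : Sc) (Lg ν X X2 X3 G0 t : ℝ) : ℝ := e0 S Lg ν X2 X3 G0 t +
  (8 * P S t + (8 * P S t) ^ ((1 : ℝ) / 7) * (2 * W S t * X) ^ ((6 : ℝ) / 7))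
def eta (S : Sc) (l Lg ν X X2 X3 G0 t : ℝ) : ℝ := e2 S Lg ν X X2 X3 G0 (max t l)

/-- the lines of `LN` in monomial form; `y = max t x`, `x = X^{1/3}` -/
structure FX (E : ℝ) (S : Sc) (M : Md) (l0 l x X Lg ν X2 X3 G0 : ℝ) : Prop where
  cl : Cl S M
  HJ : M.H S.Jp ≤ S.C
  l0s : E * M.s S.jl ≤ l0
  l00 : 0 < l0
  l0w : S.w3 l0 ≤ l0 ^ 3
  l0l : l0 ≤ l
  l1 : E * l ≤ 1
  sub : ∀ t t', 0 ≤ t → t ≤ t' → S.ms t' ≤ S.ms t + t' ^ 2
  c1 : ∀ t, l0 ≤ t → S.F * S.ms t ≤ t ^ 2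
  x0 : 0 < x
  x3 : x ^ 3 = X
  X1 : E * X ≤ 1
  xl : x ≤ l
  Lg0 : E * S.F ^ 2 ≤ Lg
  Lgp : 0 < Lg
  Lg1 : Lg ≤ S.n
  Lg2 : E * x ≤ Lg * l
  X43 : E * x ^ 4 ≤ mf S l
  G04 : E * G0 ^ 4 ≤ mf S l ^ 3
  ν0 : 0 < ν
  ν1 : S.F ^ 4 ≤ (S.n : ℝ) ^ 2 * ν ^ 3
  a2 : 4 * l0 * max l0 x ^ 2 ≤ X2
  b2 : ∀ t, l0 ≤ t → t ≤ S.C → 4 * t * max t x ^ 2 ≤ X2 ∨
    (8 * max t x ^ 2 * W S t ^ 2 / t ≤ X2 ∧
      2 ^ 13 * (max t x ^ 2 * W S t ^ 2 / t) ^ 3 * X ^ 4 ≤ X2 ^ 7)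
  a3 : 16 * l0 * max l0 x ^ 4 ≤ X3
  b3 : ∀ t, l0 ≤ t → t ≤ S.C → 16 * t * max t x ^ 4 ≤ X3 ∨
    (32 * max t x ^ 4 * W S t ^ 3 / t ^ 2 ≤ X3 ∧
      2 ^ 23 * max t x ^ 16 * W S t ^ 9 * X ^ 6 / t ^ 8 ≤ X3 ^ 7)
  ga : 4 * l0 * max l0 x ^ 2 ≤ G0
  gb : ∀ t, l0 ≤ t → t ≤ l → 8 * max t x ^ 3 / t * gg S t ≤ G0 ^ 2
  t2 : ∀ t, l ≤ t → t ≤ S.C → E * (Lg ^ 2 * W S t) ^ 2 ≤ mf S t
  t3 : E * X2 ≤ mf S l

section

variable {E l0 l x X Lg ν X2 X3 G0 t t' : ℝ} {S : Sc} {M : Md}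
  (h : FX E S M l0 l x X Lg ν X2 X3 G0)
include h

theorem FX.X0 : 0 < X := h.x3 ▸ pow_pos h.x0 3
theorem FX.rx : X ^ ((1 : ℝ) / 3) = x := by
  rw [← h.x3, ← rpow_natCast, ← rpow_mul h.x0.le]; norm_num
theorem FX.lp : 0 < l := h.l00.trans_le h.l0l
theorem FX.y0 (t : ℝ) : 0 < max t x := lt_max_of_lt_right h.x0
theorem FX.X20 : 0 < X2 := lt_of_lt_of_le (by have := h.l00; have := h.y0 l0; positivity) h.a2
theorem FX.X30 : 0 < X3 := lt_of_lt_of_le (by have := h.l00; have := h.y0 l0; positivity) h.a3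
theorem FX.G00 : 0 < G0 := lt_of_lt_of_le (by have := h.l00; have := h.y0 l0; positivity) h.ga

theorem FX.cr_one (ht : l0 ≤ t) : cr S t = 1 := by
  have t0 := h.l00.trans_le ht
  exact max_eq_left (rpow_le_one (div_pos (mul_pos (F0 h.cl) (h.cl.ms_pos t0.le))
    (by positivity)).le ((div_le_one (by positivity)).2 (h.c1 t ht)) (by norm_num))

theorem FX.W_eq (ht : l0 ≤ t) : W S t = S.w3 t ^ ((1 : ℝ) / 3) := by rw [W, h.cr_one ht, one_mul]
theorem FX.P_eq (ht : l0 ≤ t) : P S t = gg S t := by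
  rw [P_cr h.cl (h.l00.trans_le ht), h.cr_one ht, one_pow, one_mul]

theorem FX.cl_bd (ht : l0 ≤ t) : 0 < L69.cl S x t ∧ L69.cl S x t ≤ 2 * max t x ∧
    0 < ws S x t ∧ ws S x t ≤ 2 * max t x / t * W S t := by
  have t0 := h.l00.trans_le ht
  have x0 := h.x0
  have w := W0 h.cl t0
  have d : L69.cl S x t ≤ 2 * max t x := by
    rw [L69.cl, h.cr_one ht]; linarith [le_max_left t x, le_max_right t x]
  have d0 : 0 < L69.cl S x t := by rw [L69.cl, h.cr_one ht]; linarith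
  rw [ws, ← h.W_eq ht]
  exact ⟨d0, d, by positivity, by gcongr⟩

theorem FX.e2_anti (ht : l ≤ t) (h' : t ≤ t') :
    e2 S Lg ν X X2 X3 G0 t' ≤ e2 S Lg ν X X2 X3 G0 t := by
  have t0 := h.lp.trans_le ht
  have := W0 h.cl (t0.trans_le h')
  have := Tn15.P0 h.cl (t0.trans_le h')
  have := Tn15.P0 h.cl t0
  have := W_anti h.cl t0 h'
  have := P_anti h.cl t0 h'
  have := h.Lgp
  have := h.G00
  have := h.X20
  have := h.ν0
  have := h.X0
  unfold e2 e0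
  gcongr

theorem FX.eta_anti : Antitone (eta S l Lg ν X X2 X3 G0) := fun _ _ a =>
  h.e2_anti (le_max_right _ _) (max_le_max_right _ a)

omit h in
theorem eta_eq (ht : l ≤ t) : eta S l Lg ν X X2 X3 G0 t = e2 S Lg ν X X2 X3 G0 t := by
  rw [eta, max_eq_left ht]

theorem FX.e2_two (ht : l ≤ t) : e2 S Lg ν X X2 X3 G0 t ≤ 16 * e2 S Lg ν X X2 X3 G0 (2 * t) := by
  have t0 := h.lp.trans_le ht
  have w := W0 h.cl (show 0 < 2 * t by linarith)
  have q := Tn15.P0 h.cl (show 0 < 2 * t by linarith)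
  have w' := W0 h.cl t0
  have q' := Tn15.P0 h.cl t0
  have L := h.Lgp
  have := h.G00
  have := h.X20
  have := h.X30
  have := h.ν0
  have := h.X0
  have := h.cl.N0
  have hw := W_two h.cl t0
  have hp := P_two h.cl t0
  have k1 : e0 S Lg ν X2 X3 G0 t ≤ Lg ^ 6 * (2 * W S (2 * t)) ^ 3 + Lg ^ 4 * (ν / t) +
      (√(Lg * (4 * P S (2 * t))) + G0 + X2) * (Lg ^ 2 * (2 * W S (2 * t)) + √X2) + X3 + 1 / S.n := by
    unfold e0
    gcongr
  have k2 : (8 * P S t) ^ ((1 : ℝ) / 7) * (2 * W S t * X) ^ ((6 : ℝ) / 7) ≤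
      4 * ((8 * P S (2 * t)) ^ ((1 : ℝ) / 7) * (2 * W S (2 * t) * X) ^ ((6 : ℝ) / 7)) := by
    calc _ ≤ (4 * (8 * P S (2 * t))) ^ ((1 : ℝ) / 7) * (4 * (2 * W S (2 * t) * X)) ^ ((6 : ℝ) / 7) := by
          exact mul_le_mul (rpow_le_rpow (by positivity) (by linarith) (by norm_num))
            (rpow_le_rpow (by positivity) (by nlinarith) (by norm_num)) (by positivity)
            (by positivity)
      _ = (4 ^ ((1 : ℝ) / 7) * 4 ^ ((6 : ℝ) / 7)) * ((8 * P S (2 * t)) ^ ((1 : ℝ) / 7) *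
          (2 * W S (2 * t) * X) ^ ((6 : ℝ) / 7)) := by
          rw [mul_rpow (by norm_num) (by positivity), mul_rpow (x := 4) (by norm_num) (by positivity)]
          ring
      _ = _ := by rw [← rpow_add (by norm_num)]; norm_num
  have s : √(Lg * (4 * P S (2 * t))) = 2 * √(Lg * P S (2 * t)) := by
    rw [mul_left_comm, sqrt_mul (by norm_num), show (4 : ℝ) = 2 ^ 2 by norm_num,
      sqrt_sq zero_le_two]
  have a : ν / t = 2 * (ν / (2 * t)) := by field_simp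
  have b : (2 * √(Lg * P S (2 * t)) + G0 + X2) * (Lg ^ 2 * (2 * W S (2 * t)) + √X2) ≤
      (2 * (√(Lg * P S (2 * t)) + G0 + X2)) * (2 * (Lg ^ 2 * W S (2 * t) + √X2)) :=
    mul_le_mul (by linarith) (by linarith [sqrt_nonneg X2]) (by positivity) (by positivity)
  have p1 : 0 ≤ Lg ^ 6 * W S (2 * t) ^ 3 := by positivity
  have p2 : 0 ≤ Lg ^ 4 * (ν / (2 * t)) := by positivity
  have p3 : 0 ≤ (√(Lg * P S (2 * t)) + G0 + X2) * (Lg ^ 2 * W S (2 * t) + √X2) := by positivity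
  have p4 : 0 ≤ 1 / (S.n : ℝ) := by positivity
  have p5 : 0 ≤ (8 * P S (2 * t)) ^ ((1 : ℝ) / 7) * (2 * W S (2 * t) * X) ^ ((6 : ℝ) / 7) := by
    positivity
  rw [s, a] at k1
  rw [e2, e2, e0.eq_1 S Lg ν X2 X3 G0 (2 * t)]
  nlinarith

theorem FX.eta_two (t : ℝ) : eta S l Lg ν X X2 X3 G0 t ≤ 16 * eta S l Lg ν X X2 X3 G0 (2 * t) :=
  (h.e2_two (le_max_right t l)).trans (mul_le_mul_of_nonneg_left (h.e2_anti (le_max_right _ _)
    (max_le (by linarith [le_max_left t l]) (by linarith [le_max_right t l, h.lp]))) (by norm_num))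

theorem FX.e0_pos (ht : 0 < t) : 0 < e0 S Lg ν X2 X3 G0 t := by
  have := W0 h.cl ht
  have := h.Lgp
  have := h.G00
  have := h.X20
  have := h.X30
  have := h.ν0
  have := h.cl.N0
  rw [e0]; positivity

theorem FX.ex_pos (ht : 0 < t) :
    0 < 8 * P S t + (8 * P S t) ^ ((1 : ℝ) / 7) * (2 * W S t * X) ^ ((6 : ℝ) / 7) := by
  have := W0 h.cl ht
  have := Tn15.P0 h.cl ht
  have := h.X0
  positivity

theorem FX.eta_pos (t : ℝ) : 0 < eta S l Lg ν X X2 X3 G0 t :=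
  add_pos (h.e0_pos (h.lp.trans_le (le_max_right t l))) (h.ex_pos (h.lp.trans_le (le_max_right t l)))

/-- the residual size from twelve monomials -/
theorem FX.e2_le {B : ℝ} (h1 : Lg ^ 6 * W S t ^ 3 ≤ B) (h2 : Lg ^ 4 * (ν / t) ≤ B)
    (h3 : √(Lg * P S t) * (Lg ^ 2 * W S t) ≤ B) (h4 : √(Lg * P S t) * √X2 ≤ B)
    (h5 : G0 * (Lg ^ 2 * W S t) ≤ B) (h6 : G0 * √X2 ≤ B) (h7 : X2 * (Lg ^ 2 * W S t) ≤ B)
    (h8 : X2 * √X2 ≤ B) (h9 : X3 ≤ B) (h10 : 1 / (S.n : ℝ) ≤ B) (h11 : 8 * P S t ≤ B)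
    (h12 : (8 * P S t) ^ ((1 : ℝ) / 7) * (2 * W S t * X) ^ ((6 : ℝ) / 7) ≤ B) :
    e2 S Lg ν X X2 X3 G0 t ≤ 12 * B := by
  rw [e2, e0]
  nlinarith

/-- **the bulk numbers**, any residual size above `e2` -/
theorem FX.ln' {η : ℝ → ℝ} (ηa : Antitone η) (η2 : ∀ t, 0 < t → η t ≤ 16 * η (2 * t))
    (lo : ∀ t, l ≤ t → t ≤ S.C → e2 S Lg ν X X2 X3 G0 t ≤ η t)
    (t1 : ∀ t, l ≤ t → t ≤ S.C → E * η t ≤ mf S t ^ ((3 : ℝ) / 2))
    (t4 : ∀ t, l ≤ t → t ≤ S.C → E * η t ≤ mf S t * t) :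
    LN E S M l0 l (X ^ ((1 : ℝ) / 3)) X Lg X2 X3 G0 η := by
  have l0p := h.l00
  have lp := h.lp
  have x0 := h.x0
  have X0 := h.X0
  have L0 := h.Lgp
  have Y0 := h.X20
  have Z0 := h.X30
  have G := h.G00
  rw [h.rx]
  obtain ⟨c0, c1, -⟩ := h.cl_bd le_rfl
  have q2 : l0 * L69.cl S x l0 ^ 2 ≤ 4 * l0 * max l0 x ^ 2 :=
    (mul_le_mul_of_nonneg_left (pow_le_pow_left₀ c0.le c1 2) l0p.le).trans_eq (by ring)
  refine ⟨h.HJ, h.l0s, h.l0w, h.l0l, h.l1, h.sub, x0.le, X0, h.X1, h.Lg0, h.Lg1,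
    by rw [h.cr_one h.l0l, one_mul]; exact h.Lg2, ?_, h.G04, q2.trans h.a2, fun t a b => ?_,
    ((mul_le_mul_of_nonneg_left (pow_le_pow_left₀ c0.le c1 4) l0p.le).trans_eq (by ring)).trans h.a3,
    fun t a b => ?_, q2.trans h.ga, fun t a b => ?_, ηa, η2, fun t a b => ?_,
    fun t t' a b c => ?_, t1, fun t a b => ?_, h.t3, t4⟩
  · rw [← h.x3, ← rpow_natCast, ← rpow_mul x0.le, show ((3 : ℕ) : ℝ) * (4 / 3) = (4 : ℕ) by norm_num,
      rpow_natCast]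
    exact h.X43
  · obtain ⟨d0, d1, s0, s1⟩ := h.cl_bd a
    have t0 := l0p.trans_le a
    have y0 := h.y0 t
    have w0 := W0 h.cl t0
    rcases h.b2 t a b with k | ⟨k1, k2⟩
    · exact (min_le_left _ _).trans (((mul_le_mul_of_nonneg_left (pow_le_pow_left₀ d0.le d1 2)
        t0.le).trans_eq (by ring)).trans k)
    have u : t * ws S x t ^ 2 ≤ 4 * (max t x ^ 2 * W S t ^ 2 / t) :=
      (mul_le_mul_of_nonneg_left (pow_le_pow_left₀ s0.le s1 2) t0.le).trans_eq (by field_simp; ring)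
    have r0 : 0 ≤ 4 * (max t x ^ 2 * W S t ^ 2 / t) := by positivity
    have := geo (p := 3 / 7) (q := 4 / 7) (Y := X2 / 2) (by positivity) (by positivity) u
      (min_le_left X (L69.cl S x t ^ 3)) (by norm_num) (by norm_num)
      (le_of_pow_le_pow_left₀ (n := 7) (by norm_num) (by positivity) (by
        rw [mul_pow, rp_pow r0 7 3 (by norm_num), rp_pow X0.le 7 4 (by norm_num)]
        linarith))
    refine (min_le_right _ _).trans ?_
    rw [mul_assoc, mul_div_assoc] at k1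
    linarith
  · obtain ⟨d0, d1, s0, s1⟩ := h.cl_bd a
    have t0 := l0p.trans_le a
    have y0 := h.y0 t
    have w0 := W0 h.cl t0
    have m0 : 0 ≤ min X (L69.cl S x t ^ 3) := by positivity
    refine (mul_le_mul_of_nonneg_right ((min_le_right _ _).trans d1)
      (le_min (by positivity) (by positivity))).trans ?_
    rcases h.b3 t a b with k | ⟨k1, k2⟩
    · refine (mul_le_mul_of_nonneg_left ((min_le_left _ _).trans (mul_le_mul_of_nonneg_left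
        (pow_le_pow_left₀ d0.le d1 3) t0.le)) (by positivity)).trans (le_trans (le_of_eq ?_) k)
      ring
    refine (mul_le_mul_of_nonneg_left (min_le_right _ _) (by positivity)).trans ?_
    have u : t * ws S x t ^ 3 ≤ 8 * max t x ^ 3 * W S t ^ 3 / t ^ 2 :=
      (mul_le_mul_of_nonneg_left (pow_le_pow_left₀ s0.le s1 3) t0.le).trans_eq (by field_simp; ring)
    have u' : ws S x t * min X (L69.cl S x t ^ 3) ≤ 2 * max t x / t * W S t * X :=
      mul_le_mul s1 (min_le_left _ _) m0 (by positivity)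
    have := geo (p := 1 / 7) (q := 6 / 7) (Y := X3 / (4 * max t x)) (by positivity)
      (mul_nonneg s0.le m0) u u' (by norm_num) (by norm_num)
      (le_of_pow_le_pow_left₀ (n := 7) (by norm_num) (by positivity) (by
        rw [mul_pow, rp_pow (by positivity) 7 1 (by norm_num), rp_pow (by positivity) 7 6 (by norm_num),
          div_pow X3, le_div_iff₀ (by positivity)]
        refine le_trans (le_of_eq ?_) k2
        field_simp
        norm_num))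
    have a1 := mul_le_mul_of_nonneg_left this (show 0 ≤ 2 * max t x by positivity)
    have a2 := mul_le_mul_of_nonneg_left u (show 0 ≤ 2 * max t x by positivity)
    have a3 : 2 * max t x * (X3 / (4 * max t x)) = X3 / 2 := by field_simp; ring
    have a4 : 2 * max t x * (8 * max t x ^ 3 * W S t ^ 3 / t ^ 2) =
        32 * max t x ^ 4 * W S t ^ 3 / t ^ 2 / 2 := by field_simp; ring
    rw [mul_add]
    linarith
  · obtain ⟨d0, d1, -⟩ := h.cl_bd a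
    have t0 := l0p.trans_le a
    have g0 := gg0 h.cl t0.le
    refine le_trans ?_ (h.gb t a b)
    calc _ ≤ (2 * max t x) ^ 3 / t * gg S t := by gcongr
      _ = _ := by ring
  · have t0 := lp.trans_le a
    have w0 := W0 h.cl t0
    have a1 := mul_le_mul_of_nonneg_left (par_le h.cl h.ν0 h.ν1 t0) (pow_pos L0 4).le
    have a3 : (√(Lg * cr S t * gg S t) + G0 + X2) * (Lg ^ 2 * W S t + √X2) ≤
        (√(Lg * P S t) + G0 + X2) * (Lg ^ 2 * W S t + √X2) := by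
      rw [mul_assoc Lg]
      gcongr
      exact crg_le h.cl t0
    refine le_trans ?_ (lo t a b)
    rw [e2, e0, uw, mul_assoc (Lg ^ 2), ← W]
    linarith [h.ex_pos t0]
  · have t0 := lp.trans_le a
    have t0' := t0.trans_le b
    obtain ⟨d0, -, s0, s1⟩ := h.cl_bd (h.l0l.trans (a.trans b))
    rw [max_eq_left (h.xl.trans (a.trans b)), mul_div_assoc, div_self t0'.ne', mul_one] at s1
    have m0 : 0 ≤ min X (L69.cl S x t' ^ 3) := by positivity
    have u : t' * ws S x t' ^ 3 ≤ 8 * P S t := by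
      have := mul_le_mul_of_nonneg_left (pow_le_pow_left₀ s0.le s1 3) t0'.le
      have := P_anti h.cl t0 b
      rw [P] at this
      linarith
    have u' : ws S x t' * min X (L69.cl S x t' ^ 3) ≤ 2 * W S t * X :=
      mul_le_mul (s1.trans (by linarith [W_anti h.cl t0 b])) (min_le_left _ _) m0
        (by linarith [W0 h.cl t0])
    refine le_trans ?_ (lo t a (b.trans c))
    have := geo (p := 1 / 7) (q := 6 / 7) (by positivity) (mul_nonneg s0.le m0) u u' (by norm_num)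
      (by norm_num) le_rfl
    rw [e2]
    linarith [h.e0_pos t0]
  · rw [uw, mul_assoc (Lg ^ 2), ← W]
    exact h.t2 t a b

/-- **the bulk numbers** with the canonical residual size -/
theorem FX.ln (t1 : ∀ t, l ≤ t → t ≤ S.C → E * e2 S Lg ν X X2 X3 G0 t ≤ mf S t ^ ((3 : ℝ) / 2))
    (t4 : ∀ t, l ≤ t → t ≤ S.C → E * e2 S Lg ν X X2 X3 G0 t ≤ mf S t * t) :
    LN E S M l0 l (X ^ ((1 : ℝ) / 3)) X Lg X2 X3 G0 (eta S l Lg ν X X2 X3 G0) :=
  h.ln' h.eta_anti (fun t _ => h.eta_two t) (fun _ a _ => (eta_eq a).ge)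
    (fun t a b => by rw [eta_eq a]; exact t1 t a b) fun t a b => by rw [eta_eq a]; exact t4 t a b

end

end Crest.Agent.T156.Alt.Ln97

end
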