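import Crest.Agent.T156.NuB_87
import Crest.Agent.T156.One_15

/-!
# Row 156 (helper94): the site column of the cavity table, on split matrices

One odd cluster above a cut costs the site variance of the cut (`par1M`, `SF_odd`); terms of the
Taylor expansion with such a cluster at the lowest edge, or with one more branch below every edge,
are bounded by single-edge moments (`avm_good`); three edges: all but the exception (`good_three`).
-/

set_option autoImplicit false
set_option linter.unusedSectionVars false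

noncomputable section

namespace Crest.Agent.T156.Cas

open MeasureTheory Real Set Filter Topology
open Crest.Agent.T157.E Crest.Agent.T157.Casc Crest.Agent.T157.SL Crest.Agent.T157.Casc.C
open Crest.Agent.R339.B Crest.Agent.R339.Var Crest.Agent.T157
open Crest.ProbabilityR.SpinGlassDynamics (spin)
open Nu87 One15

namespace Site94

variable {r K : ℕ} {L : List (Lv Bool)} {ℓ : List (ℝ × ℝ)} {σ : SM r}

/-- degree of the cluster of `a` above the cut `j` -/
def bdM (σ : SM r) (k : Fin r → ℕ) (a : Fin r) (j : ℕ) : ℕ := ∑ c, if j < σ a c then k c else 0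

/-- the parity constant -/
def cP (r : ℕ) (s : ℝ) : ℝ := 16 * exp (1 / 2 + √s) * r ^ 2

theorem cP_nonneg (r : ℕ) (s : ℝ) : 0 ≤ cP r s := by unfold cP; positivity

theorem one_le_cP (a : Fin r) (s : ℝ) : 1 ≤ cP r s := by
  have h1 : (1 : ℝ) ≤ r := by exact_mod_cast a.pos
  have h2 : 1 ≤ exp (1 / 2 + √s) := one_le_exp (by positivity)
  have h3 : (1 : ℝ) ≤ r ^ 2 := one_le_pow₀ h1
  unfold cP
  nlinarith [mul_le_mul h2 h3 zero_le_one (by positivity)]

theorem cP_mono (r : ℕ) {s t : ℝ} (h : s ≤ t) : cP r s ≤ cP r t := by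
  unfold cP
  gcongr

theorem TM_mo {s : Sh} (e : Fin r ≃ s.Lf) (L : List (Lv Bool)) (z : Bool → ℝ) (k : Fin r → ℕ) :
    TM (fun _ => 1) L z (sm s e L.length) (mo k) =
      TE (fun _ => 1) s L z (mo fun c => k (e.symm c)) := by
  rw [TM_sm w1 s L z e.injective]
  congr 1
  funext x
  exact Fintype.prod_equiv e _ _ fun a => by simp

theorem bd_eq {s : Sh} (e : Fin r ≃ s.Lf) (k : Fin r → ℕ) (a : Fin r) {j : ℕ} (hj : j < K) :
    bd s (fun c => k (e.symm c)) (e a) j = bdM (sm s e K) k a j := by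
  refine (Fintype.sum_equiv e _ _ fun c => ?_).symm
  have := Wt87.shr_min s (e a) (e c) (j + 1) K
  rw [min_eq_left (show j + 1 ≤ K from hj)] at this
  simp only [sm, Equiv.symm_apply_apply]
  exact if_congr (by omega) rfl rfl

theorem lt_of_odd (hσ : Rz K σ) {k : Fin r → ℕ} {a : Fin r} {j : ℕ} (h : Odd (bdM σ k a j)) :
    j < K := by
  by_contra hj
  rw [bdM, Finset.sum_eq_zero fun c _ => if_neg (by have := hσ.le a c; omega)] at h
  exact absurd h (by decide)

theorem abs_TM_mo (hσ : Rz L.length σ) (z : Bool → ℝ) (k : Fin r → ℕ) :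
    |TM (fun _ => 1) L z σ (mo k)| ≤ 1 := by
  obtain ⟨s, e, rfl⟩ := hσ
  rw [TM_mo]
  exact abs_TE_mo _ _ _ _

theorem TM_mo_odd (H : List.Forall₂ (Rk1 spin) L ℓ) (hσ : Rz L.length σ) {k : Fin r → ℕ}
    (hk : Odd (∑ a, k a)) : TM (fun _ => 1) L 0 σ (mo k) = 0 := by
  obtain ⟨s, e, rfl⟩ := hσ
  rw [TM_mo]
  exact TE_mo_odd (fl_of H) s (by rwa [e.symm.sum_comp k])

/-- **(PAR)**: two odd branches that split at `j` -/
theorem parM (H : List.Forall₂ (Rk1 spin) L ℓ) (hM : Mono 0 L) (hσ : Rz L.length σ)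
    (k : Fin r → ℕ) {a b : Fin r} {j : ℕ} (hab : σ a b = j) (ha : Odd (bdM σ k a j))
    (hb : Odd (bdM σ k b j)) {s : ℝ} (hp : 0 < s) (hs : TT (ℓ.take j) ≤ s) :
    |TM (fun _ => 1) L 0 σ (mo k)| ≤ cP r s * s := by
  have hj := lt_of_odd hσ ha
  obtain ⟨t, e, rfl⟩ := hσ
  rw [← bd_eq e k _ hj] at ha hb
  have h0 := Wt87.shr_min t (e a) (e b) j L.length
  have h1 := Wt87.shr_min t (e a) (e b) (j + 1) L.length
  rw [min_eq_left hj.le] at h0
  rw [min_eq_left (show j + 1 ≤ L.length from hj)] at h1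
  simp only [sm] at hab
  rw [TM_mo]
  exact par2 H hM t _ (N := r) (by rw [← Fintype.card_congr e, Fintype.card_fin])
    (by omega) (by omega) ha hb hp hs

theorem TT_take_succ : ∀ {ℓ : List (ℝ × ℝ)}, (∀ p ∈ ℓ, 0 ≤ p.2) → ∀ i,
    TT (ℓ.take i) ≤ TT (ℓ.take (i + 1))
  | [], _, _ => by simp
  | p :: ℓ, h, 0 => by simpa [TT] using h p (by simp)
  | p :: ℓ, h, i + 1 => by
      rw [List.take_succ_cons, List.take_succ_cons, One15.TT_cons, One15.TT_cons]
      linarith [TT_take_succ (fun q hq => h q (List.mem_cons_of_mem _ hq)) i]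

theorem even_level (hσ : Rz K σ) (k : Fin r → ℕ) (a : Fin r) {j : ℕ} (hj : j < K)
    (h : ∀ b, σ a b = j → ¬Odd (bdM σ k b j)) : Even (∑ c, if σ a c = j then k c else 0) := by
  classical
  rw [← Finset.sum_filter, ← Finset.sum_fiberwise_of_maps_to
    (g := fun c => Finset.univ.filter fun d => j < σ c d)
    (fun c hc => Finset.mem_image_of_mem _ hc)]
  refine Finset.even_sum _ fun C hC => ?_
  obtain ⟨b, hb, rfl⟩ := Finset.mem_image.1 hC
  have hb' := (Finset.mem_filter.1 hb).2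
  have := Nat.not_odd_iff_even.1 (h b hb')
  rw [bdM, ← Finset.sum_filter] at this
  refine Eq.mpr (congrArg (fun S => Even (∑ c ∈ S, k c)) ?_) this
  ext c
  simp only [Finset.mem_filter, Finset.mem_univ, true_and, Finset.ext_iff]
  refine ⟨fun hc => (hc.2 c).1 (by rw [hσ.self]; exact hj), fun hc => ⟨?_, fun d => ?_⟩⟩
  · have h1 := hσ.ultra a b c
    have h2 := hσ.ultra a c b
    rw [hσ.comm c b] at h2
    omega
  · have h1 := hσ.ultra b c d
    have h2 := hσ.ultra c b d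
    rw [hσ.comm c b] at h2
    omega

/-- **one odd cluster above the cut `j` costs the site variance at `j`** -/
theorem par1M (H : List.Forall₂ (Rk1 spin) L ℓ) (hM : Mono 0 L) (hσ : Rz L.length σ)
    (k : Fin r → ℕ) (a : Fin r) {s : ℝ} (hp : 0 < s) : ∀ j : ℕ, Odd (bdM σ k a j) →
    TT (ℓ.take j) ≤ s → |TM (fun _ => 1) L 0 σ (mo k)| ≤ cP r s * s := by
  intro j
  induction j with
  | zero =>
    intro ha hs
    by_cases hb : ∃ b, σ a b = 0 ∧ Odd (bdM σ k b 0)
    · obtain ⟨b, h1, h2⟩ := hb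
      exact parM H hM hσ k h1 ha h2 hp hs
    · have h1 := even_level hσ k a (lt_of_odd hσ ha) fun b h1 h2 => hb ⟨b, h1, h2⟩
      have h2 := ha.add_even h1
      rw [bdM, ← Finset.sum_add_distrib, Finset.sum_congr rfl (g := k) fun c _ => by
        split_ifs <;> omega] at h2
      rw [TM_mo_odd H hσ h2, abs_zero]
      exact mul_nonneg (cP_nonneg _ _) hp.le
  | succ j ih =>
    intro ha hs
    by_cases hb : ∃ b, σ a b = j + 1 ∧ Odd (bdM σ k b (j + 1))
    · obtain ⟨b, h1, h2⟩ := hb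
      exact parM H hM hσ k h1 ha h2 hp hs
    · have h1 := even_level hσ k a (lt_of_odd hσ ha) fun b h1 h2 => hb ⟨b, h1, h2⟩
      have h2 := ha.add_even h1
      rw [bdM, ← Finset.sum_add_distrib, Finset.sum_congr rfl
        (g := fun c => if j < σ a c then k c else 0) fun c _ => by split_ifs <;> omega] at h2
      exact ih h2 ((TT_take_succ (nn_of H) j).trans hs)

/-! ### products of edges -/

section edges
variable {ι : Type} [DecidableEq ι]

/-- `η = ε ε' - q_j` (`oE` of `OneP_23`) -/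
def et (q : ℕ → ℝ) (j : ℕ) (a b : Bool) : ℝ := spin a * spin b - q j

/-- the degrees of a multigraph -/
def dg (p p' : ι → Fin r) (A : Finset ι) : Fin r → ℕ :=
  ∑ e ∈ A, (Pi.single (p e) 1 + Pi.single (p' e) 1)

/-- the pair `(b, c)` has exactly one end in the cluster of `a` above the cut `j` -/
def Crs (σ : SM r) (a : Fin r) (j : ℕ) (b c : Fin r) : Prop := ¬(j < σ a b ↔ j < σ a c)

instance (σ : SM r) (a : Fin r) (j : ℕ) (b c : Fin r) : Decidable (Crs σ a j b c) := by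
  unfold Crs; infer_instance

/-- some cluster above the cut `j` is crossed by an odd number of edges of `B` -/
def OddAt (σ : SM r) (p p' : ι → Fin r) (B : Finset ι) (j : ℕ) : Prop :=
  ∃ a, Odd (B.filter fun e => Crs σ a j (p e) (p' e)).card

theorem Crs.le (hσ : Rz K σ) {a b c : Fin r} {j : ℕ} (h : Crs σ a j b c) : σ b c ≤ j := by
  have h1 := hσ.ultra a b c
  have h2 := hσ.ultra a c b
  rw [hσ.comm c b] at h2
  unfold Crs at h
  omega

theorem mo_dg (p p' : ι → Fin r) (A : Finset ι) (x : Fin r → Bool) :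
    mo (dg p p' A) x = ∏ e ∈ A, spin (x (p e)) * spin (x (p' e)) := by
  induction A using Finset.induction_on with
  | empty => simp [dg, mo]
  | insert e A he ih =>
    rw [dg, Finset.sum_insert he, mo_add, mo_add, mo_single, mo_single, Finset.prod_insert he, ← ih]
    rfl

theorem bdM_add (σ : SM r) (k k' : Fin r → ℕ) (a : Fin r) (j : ℕ) :
    bdM σ (k + k') a j = bdM σ k a j + bdM σ k' a j := by
  rw [bdM, bdM, bdM, ← Finset.sum_add_distrib]
  exact Finset.sum_congr rfl fun c _ => by split_ifs <;> rfl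

theorem bdM_single (σ : SM r) (b a : Fin r) (j : ℕ) :
    bdM σ (Pi.single b 1) a j = if j < σ a b then 1 else 0 := by
  rw [bdM, Finset.sum_eq_single b (fun c _ hc => by simp [hc]) (by simp)]
  simp

theorem bdM_dg (σ : SM r) (p p' : ι → Fin r) (a : Fin r) (j : ℕ) (A : Finset ι) :
    bdM σ (dg p p' A) a j % 2 = (A.filter fun e => Crs σ a j (p e) (p' e)).card % 2 := by
  induction A using Finset.induction_on with
  | empty => simp [dg, bdM]
  | insert e A he ih =>
    rw [dg, Finset.sum_insert he, bdM_add, bdM_add, bdM_single, bdM_single, Finset.filter_insert]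
    change (_ + bdM σ (dg p p' A) a j) % 2 = _
    by_cases hc : Crs σ a j (p e) (p' e)
    · rw [if_pos hc, Finset.card_insert_of_notMem fun h => he (Finset.mem_filter.1 h).1]
      unfold Crs at hc
      split_ifs <;> omega
    · rw [if_neg hc]
      unfold Crs at hc
      split_ifs <;> omega

/-- the site factor of a family of edges, each with its own reference -/
def SF (L : List (Lv Bool)) (q : ι → ℕ → ℝ) (p p' : ι → Fin r) (B : Finset ι) (σ : SM r) : ℝ :=
  TM (fun _ => 1) L 0 σ fun x => ∏ e ∈ B, ed (et (q e)) (p e) (p' e) x σ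

theorem SF_eq (L : List (Lv Bool)) (q : ι → ℕ → ℝ) (p p' : ι → Fin r) (B : Finset ι) (σ : SM r) :
    SF L q p p' B σ = ∑ A ∈ B.powerset, (∏ e ∈ B \ A, -q e (σ (p e) (p' e))) *
      TM (fun _ => 1) L 0 σ (mo (dg p p' A)) := by
  simp only [SF, ← TM_mul, ← TM_sum]
  refine congrArg _ (funext fun x => ?_)
  simp only [ed, et, sub_eq_add_neg, Finset.prod_add, mo_dg, mul_comm]

variable {q : ι → ℕ → ℝ} {p p' : ι → Fin r} {B : Finset ι}

theorem SF_le {c : ℝ} (h : ∀ A ⊆ B, |∏ e ∈ B \ A, -q e (σ (p e) (p' e))| *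
    |TM (fun _ => 1) L 0 σ (mo (dg p p' A))| ≤ c) : |SF L q p p' B σ| ≤ 2 ^ B.card * c := by
  rw [SF_eq]
  refine (Finset.abs_sum_le_sum_abs _ _).trans ((Finset.sum_le_card_nsmul _ _ c fun A hA => ?_).trans_eq
    (by simp))
  rw [abs_mul]
  exact h A (Finset.mem_powerset.1 hA)

theorem abs_q_le (h1 : ∀ e ∈ B, |q e (σ (p e) (p' e))| ≤ 1) (A : Finset ι) :
    |∏ e ∈ B \ A, -q e (σ (p e) (p' e))| ≤ 1 := by
  rw [Finset.abs_prod]
  exact Finset.prod_le_one (fun _ _ => abs_nonneg _) fun e he => by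
    rw [abs_neg]; exact h1 e (Finset.mem_sdiff.1 he).1

/-- the crude bound -/
theorem abs_SF_le (hσ : Rz L.length σ) (h1 : ∀ e ∈ B, |q e (σ (p e) (p' e))| ≤ 1) :
    |SF L q p p' B σ| ≤ 2 ^ B.card := by
  simpa using SF_le (c := 1) fun A _ =>
    mul_le_one₀ (abs_q_le h1 A) (abs_nonneg _) (abs_TM_mo hσ 0 _)

/-- **an odd cluster above the cut `j` costs `s`** -/
theorem SF_odd (H : List.Forall₂ (Rk1 spin) L ℓ) (hM : Mono 0 L) (hσ : Rz L.length σ)
    (h1 : ∀ e ∈ B, |q e (σ (p e) (p' e))| ≤ 1) {j : ℕ} (ho : OddAt σ p p' B j) {s : ℝ} (hp : 0 < s)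
    (hs : TT (ℓ.take j) ≤ s) (hq : ∀ e ∈ B, σ (p e) (p' e) ≤ j → |q e (σ (p e) (p' e))| ≤ s) :
    |SF L q p p' B σ| ≤ 2 ^ B.card * (cP r s * s) := by
  obtain ⟨a, ha⟩ := ho
  refine SF_le fun A hA => ?_
  by_cases hc : ∃ e ∈ B \ A, Crs σ a j (p e) (p' e)
  · obtain ⟨e, he, hc⟩ := hc
    refine (mul_le_of_le_one_right (abs_nonneg _) (abs_TM_mo hσ 0 _)).trans ?_
    rw [← Finset.mul_prod_erase _ _ he, abs_mul, abs_neg, Finset.abs_prod]
    refine (mul_le_of_le_one_right (abs_nonneg _) (Finset.prod_le_one (fun _ _ => abs_nonneg _)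
      fun e he => ?_)).trans ((hq e (Finset.mem_sdiff.1 he).1 (hc.le hσ)).trans
        (le_mul_of_one_le_left hp.le (one_le_cP a s)))
    rw [abs_neg]
    exact h1 e (Finset.mem_sdiff.1 (Finset.mem_of_mem_erase he)).1
  · refine (mul_le_of_le_one_left (abs_nonneg _) (abs_q_le h1 A)).trans
      (par1M H hM hσ _ a hp j ?_ hs)
    rw [Nat.odd_iff, bdM_dg, ← Nat.odd_iff]
    convert ha using 2
    ext e
    simp only [Finset.mem_filter]
    exact ⟨fun h => ⟨hA h.1, h.2⟩, fun h => ⟨by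
      by_contra h'
      exact hc ⟨e, Finset.mem_sdiff.2 ⟨h.1, h'⟩, h.2⟩, h.2⟩⟩

end edges

/-! ### terms of the expansion -/

section law
variable {Ω Ω' ι ι' : Type} [Fintype Ω] [DecidableEq ι] {w : Ω → ℝ} {M : List (Lv Ω')}
  {Lb : List (Lv Ω)} {h : Ω → ℝ}

theorem abs_avm_le (hM : Mono 0 M) {f g : SM (r + 1) → ℝ}
    (e : ∀ σ, Rz M.length σ → |f σ| ≤ g σ) : |avm M r f| ≤ avm M r g := by
  have h1 := avm_mono hM r fun σ hσ => (abs_le.1 (e σ hσ)).2
  have h2 := avm_mono hM r (φ := fun σ => -1 * g σ) (ψ := f) fun σ hσ => by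
    linarith [(abs_le.1 (e σ hσ)).1]
  rw [avm_mul] at h2
  rw [abs_le]
  constructor <;> linarith

/-- a replica leaves the branches of both `a` and `b` not later than `c (σ a b)` -/
def Out (c : ℕ → ℕ) (σ : SM r) (a b : Fin r) : Prop :=
  ∃ d, σ a d ≤ c (σ a b) ∧ σ b d ≤ c (σ a b)

instance (c : ℕ → ℕ) (σ : SM r) (a b : Fin r) : Decidable (Out c σ a b) := by
  unfold Out; infer_instance

theorem ex_top {j : ℕ} (hj : M.length ≤ j) : ex M j = 1 := by
  simp [Casc.ex, List.getElem?_eq_none hj]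

theorem avm_third (hM : Mono 0 M) (c : ℕ → ℕ) {D : ℕ → ℝ} (hD : ∀ j, 0 ≤ D j) {a b : Fin (r + 1)}
    (hab : a ≠ b) (d : Fin (r + 1)) :
    avm M r (fun σ => if σ a d ≤ c (σ a b) ∧ σ b d ≤ c (σ a b) then D (σ a b) else 0) ≤
      ∑ j ∈ Finset.range (M.length + 1), dm M 0 j * (ex M (c j) * D j) := by
  by_cases hd : d = a ∨ d = b
  · rw [← avm_pair M (fun j => ex M (c j) * D j) r hab]
    refine avm_mono hM r fun σ hσ => ?_
    split_ifs with h1
    · rw [ex_top (by rcases hd with rfl | rfl; exacts [hσ.self d ▸ h1.1, hσ.self d ▸ h1.2]), one_mul]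
    · exact mul_nonneg (Nu87.ex_nonneg hM _) (hD _)
  · rw [not_or] at hd
    refine (avm_inj M 2 (fun σ => if σ 1 0 ≤ c (σ 1 2) ∧ σ 2 0 ≤ c (σ 1 2) then D (σ 1 2) else 0) r
      ![d, a, b] fun i j h => ?_).trans_le ?_
    · fin_cases i <;> fin_cases j
      exacts [rfl, absurd h hd.1, absurd h hd.2, absurd h.symm hd.1, rfl, absurd h hab,
        absurd h.symm hd.2, absurd h.symm hab, rfl]
    · rw [← avm_pair M (fun j => ex M (c j) * D j) 1 (a := 0) (b := 1) (by decide), avm]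
      refine avm_mono hM 1 fun σ hσ => ?_
      rw [div_le_iff₀ (by positivity)]
      refine (Ws_mono hM hσ (hσ.ncm fun σ => if σ 1 0 ≤ c (σ 1 2) ∧ σ 2 0 ≤ c (σ 1 2) then
        D (σ 1 2) else 0) (G' := fun _ j => D (σ 0 1) * if j ≤ c (σ 0 1) then 1 else 0)
        (fun _ _ _ _ => rfl) fun a j hj => ?_).trans ?_
      · change (if min j (σ 0 a) ≤ c (σ 0 1) ∧ min j (σ 1 a) ≤ c (σ 0 1) then D (σ 0 1) else 0) ≤ _
        split_ifs with h1 h2
        · rw [mul_one]
        · have h3 := hσ.self a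
          fin_cases a
          · exact absurd (le_of_eq_of_le (min_eq_left (hj.trans_eq h3.symm)).symm h1.1) h2
          · exact absurd (le_of_eq_of_le (min_eq_left (hj.trans_eq h3.symm)).symm h1.2) h2
        · rw [mul_one]; exact hD _
        · rw [mul_zero]
      · rw [Ws_mul]
        have := mul_le_mul_of_nonneg_left (Ws_low hM σ (c (σ 0 1))) (hD (σ 0 1))
        push_cast at this ⊢
        linarith

/-- **one more branch costs the tilt** -/
theorem avm_out (hM : Mono 0 M) (c : ℕ → ℕ) {D : ℕ → ℝ} (hD : ∀ j, 0 ≤ D j) {a b : Fin (r + 1)}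
    (hab : a ≠ b) : avm M r (fun σ => if Out c σ a b then D (σ a b) else 0) ≤
      (r + 1) * ∑ j ∈ Finset.range (M.length + 1), dm M 0 j * (ex M (c j) * D j) := by
  refine (avm_mono hM r (ψ := fun σ => ∑ d,
    if σ a d ≤ c (σ a b) ∧ σ b d ≤ c (σ a b) then D (σ a b) else 0) fun σ _ => ?_).trans ?_
  · have h0 : ∀ d ∈ Finset.univ, 0 ≤
        if σ a d ≤ c (σ a b) ∧ σ b d ≤ c (σ a b) then D (σ a b) else 0 := fun d _ => by
      split_ifs
      exacts [hD _, le_rfl]
    split_ifs with h1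
    · obtain ⟨d, hd⟩ := h1
      exact (if_pos hd).symm.trans_le (Finset.single_le_sum h0 (Finset.mem_univ d))
    · exact Finset.sum_nonneg h0
  · rw [avm_sum]
    exact (Finset.sum_le_card_nsmul _ _ _ fun d _ => avm_third hM c hD hab d).trans_eq (by simp)

theorem prod_le_sum_pow {B : Finset ι'} (hB : B.Nonempty) (u : ι' → ℝ) :
    |∏ e ∈ B, u e| ≤ ∑ e ∈ B, |u e| ^ B.card := by
  obtain ⟨e, he, hm⟩ := B.exists_max_image (fun e => |u e|) hB
  rw [Finset.abs_prod]
  refine (Finset.prod_le_prod (fun _ _ => abs_nonneg _) hm).trans ?_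
  rw [Finset.prod_const]
  exact Finset.single_le_sum (f := fun e => |u e| ^ B.card) (fun _ _ => by positivity) he

/-- the bulk factor of a family of edges -/
def BF (w : Ω → ℝ) (Lb : List (Lv Ω)) (h : Ω → ℝ) (U : ι' → ℕ → Ω → Ω → ℝ) (t t' : ι' → Fin r)
    (B : Finset ι') (σ : SM r) : ℝ := TM w Lb h σ fun x => ∏ e ∈ B, ed (U e) (t e) (t' e) x σ

/-- the moment of one edge at the label `j` -/
def mom (w : Ω → ℝ) (Lb : List (Lv Ω)) (h : Ω → ℝ) (U : ℕ → Ω → Ω → ℝ) (n j : ℕ) : ℝ :=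
  pi2 w Lb j (fun x y => |U j x y| ^ n) h

variable {U : ι' → ℕ → Ω → Ω → ℝ} {B' : Finset ι'}

theorem abs_BF_le (hw : Wt w) (hσ : Rz Lb.length σ) {t t' : ι' → Fin r} (hB : B'.Nonempty)
    (ht : ∀ e ∈ B', t e ≠ t' e) :
    |BF w Lb h U t t' B' σ| ≤ ∑ e ∈ B', mom w Lb h (U e) B'.card (σ (t e) (t' e)) := by
  have e1 : ∑ e ∈ B', mom w Lb h (U e) B'.card (σ (t e) (t' e)) =
      TM w Lb h σ fun x => ∑ e ∈ B', |ed (U e) (t e) (t' e) x σ| ^ B'.card := by
    rw [TM_sum]
    exact Finset.sum_congr rfl fun e he => (TM_pair hw hσ (ht e he) _).symm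
  have h1 := TM_mono (h := h) hw hσ fun x =>
    (abs_le.1 (prod_le_sum_pow hB fun e => ed (U e) (t e) (t' e) x σ)).2
  have h2 := TM_mono (h := h) hw hσ
    (F := fun x => -1 * ∑ e ∈ B', |ed (U e) (t e) (t' e) x σ| ^ B'.card) fun x => by
      simpa using (abs_le.1 (prod_le_sum_pow hB fun e => ed (U e) (t e) (t' e) x σ)).1
  rw [TM_mul] at h2
  rw [e1, abs_le, BF]
  constructor <;> linarith

theorem mom_nonneg (hw : Wt w) (U : ℕ → Ω → Ω → ℝ) (n j : ℕ) : 0 ≤ mom w Lb h U n j :=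
  pi2_nonneg hw Lb j (fun _ _ => by positivity) h

/-- AM–GM: the coefficient may be bounded edge by edge -/
theorem avm_amgm (hw : Wt w) (hM : Mono 0 M) (hl : Lb.length = M.length)
    {t t' : ι' → Fin (r + 1)} (hB : B'.Nonempty) (ht : ∀ e ∈ B', t e ≠ t' e)
    {C : SM (r + 1) → ℝ} {φ : ι' → SM (r + 1) → ℝ}
    (hC : ∀ σ, Rz M.length σ → ∀ e ∈ B', |C σ| ≤ φ e σ) :
    |avm M r fun σ => BF w Lb h U t t' B' σ * C σ| ≤
      ∑ e ∈ B', avm M r fun σ => φ e σ * mom w Lb h (U e) B'.card (σ (t e) (t' e)) := by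
  rw [← avm_sum]
  refine abs_avm_le hM fun σ hσ => ?_
  rw [abs_mul]
  refine (mul_le_mul_of_nonneg_right (abs_BF_le hw (hl ▸ hσ) hB ht) (abs_nonneg _)).trans ?_
  rw [Finset.sum_mul]
  exact Finset.sum_le_sum fun e he => (mul_comm _ _).trans_le
    (mul_le_mul_of_nonneg_right (hC σ hσ e he) (mom_nonneg hw _ _ _))

/-- an odd cluster at a cut below all bulk edges, or one more branch below every bulk edge -/
def Good (c : ℕ → ℕ) (p p' : ι → Fin r) (B : Finset ι) (t t' : ι' → Fin r) (B' : Finset ι')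
    (σ : SM r) : Prop :=
  (∃ j, OddAt σ p p' B j ∧ ∀ e ∈ B', j ≤ σ (t e) (t' e)) ∨ ∀ e ∈ B', Out c σ (t e) (t' e)

/-- a size of the labels: tilt, site variance and references -/
structure Sz (M : List (Lv Ω')) (ℓ : List (ℝ × ℝ)) (c : ℕ → ℕ) (q : ι → ℕ → ℝ) (s : ℕ → ℝ)
    (S : ℝ) : Prop where
  pos : ∀ j, 0 < s j
  mono : Monotone s
  top : ∀ j, s j ≤ S
  var : ∀ j, TT (ℓ.take j) ≤ s j
  tilt : ∀ j, ex M (c j) ≤ s j
  ref : ∀ e j, |q e j| ≤ s j
  one : ∀ e j, |q e j| ≤ 1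

/-- **the good terms gain one power of the size** -/
theorem avm_good (hw : Wt w) (hM : Mono 0 M) (hl : Lb.length = M.length)
    (H : List.Forall₂ (Rk1 spin) L ℓ) (hL : Mono 0 L) (hl' : L.length = M.length) {c : ℕ → ℕ}
    {q : ι → ℕ → ℝ} {s : ℕ → ℝ} {S : ℝ} (hs : Sz M ℓ c q s S) {p p' : ι → Fin (r + 1)}
    {B : Finset ι} {t t' : ι' → Fin (r + 1)} (hB : B'.Nonempty) (ht : ∀ e ∈ B', t e ≠ t' e)
    {χ : SM (r + 1) → ℝ} (h1 : ∀ σ, |χ σ| ≤ 1)
    (hχ : ∀ σ, Rz M.length σ → χ σ ≠ 0 → Good c p p' B t t' B' σ) :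
    |avm M r fun σ => BF w Lb h U t t' B' σ * (χ σ * SF L q p p' B σ)| ≤
      2 ^ B.card * (cP (r + 1) S + (r + 1)) * ∑ e ∈ B', ∑ j ∈ Finset.range (M.length + 1),
        dm M 0 j * (s j * mom w Lb h (U e) B'.card j) := by
  refine (avm_amgm hw hM hl hB ht (φ := fun e σ => 2 ^ B.card * (cP (r + 1) S * s (σ (t e) (t' e)) +
    if Out c σ (t e) (t' e) then 1 else 0)) fun σ hσ e he => ?_).trans ?_
  · have h0 := mul_nonneg (cP_nonneg (r + 1) S) (hs.pos (σ (t e) (t' e))).le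
    have h2 : (0 : ℝ) ≤ if Out c σ (t e) (t' e) then 1 else 0 := by positivity
    by_cases h3 : χ σ = 0
    · rw [h3, zero_mul, abs_zero]
      positivity
    rw [abs_mul]
    refine (mul_le_of_le_one_left (abs_nonneg _) (h1 σ)).trans ?_
    rcases hχ σ hσ h3 with ⟨j, ho, hj⟩ | ho
    · refine (SF_odd H hL (hl' ▸ hσ) (fun e _ => hs.one e _) ho (hs.pos j) (hs.var j)
        fun e _ he => (hs.ref e _).trans (hs.mono he)).trans
        (mul_le_mul_of_nonneg_left (le_add_of_le_of_nonneg ?_ h2) (by positivity))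
      exact mul_le_mul (cP_mono _ (hs.top j)) (hs.mono (hj e he)) (hs.pos j).le (cP_nonneg _ _)
    · refine (abs_SF_le (hl' ▸ hσ) fun e _ => hs.one e _).trans
        (le_mul_of_one_le_right (by positivity) ?_)
      rw [if_pos (ho e he)]
      linarith
  · rw [Finset.mul_sum]
    refine Finset.sum_le_sum fun e he => ?_
    have h2 := avm_out hM c (fun j => mom_nonneg (Lb := Lb) (h := h) hw (U e) B'.card j) (ht e he)
    have h3 := avm_pair M (fun j => s j * mom w Lb h (U e) B'.card j) r (ht e he)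
    have h4 : ∑ j ∈ Finset.range (M.length + 1), dm M 0 j * (ex M (c j) * mom w Lb h (U e) B'.card j)
        ≤ ∑ j ∈ Finset.range (M.length + 1), dm M 0 j * (s j * mom w Lb h (U e) B'.card j) :=
      Finset.sum_le_sum fun j _ => mul_le_mul_of_nonneg_left
        (mul_le_mul_of_nonneg_right (hs.tilt j) (mom_nonneg hw _ _ _)) (dm_nonneg hM j)
    simp only [mul_assoc, add_mul, avm_mul, avm_add, ite_mul, one_mul, zero_mul]
    rw [h3]
    refine mul_le_mul_of_nonneg_left (add_le_add le_rfl (h2.trans ?_)) (by positivity)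
    rw [← add_one_mul]
    exact mul_le_mul_of_nonneg_left h4 (by positivity)

/-! ### classification -/

/-- at least three clusters above the cut `m` -/
def Tri (σ : SM r) (m : ℕ) : Prop := ∃ x y z, σ x y ≤ m ∧ σ x z ≤ m ∧ σ y z ≤ m

theorem Tri.out (hσ : Rz K σ) {m : ℕ} (h : Tri σ m) {c : ℕ → ℕ} {a b : Fin r}
    (hm : m ≤ c (σ a b)) : Out c σ a b := by
  obtain ⟨x, y, z, h1, h2, h3⟩ := h
  have u : ∀ a x y, min (σ a x) (σ a y) ≤ σ x y := fun a x y => hσ.comm x a ▸ hσ.ultra x a y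
  by_contra h
  have v : ∀ d, c (σ a b) < σ a d ∨ c (σ a b) < σ b d := fun d => by
    by_contra h'
    exact h ⟨d, by omega, by omega⟩
  have := v x; have := v y; have := v z
  have := u a x y; have := u a x z; have := u a y z
  have := u b x y; have := u b x z; have := u b y z
  omega

/-- two clusters only: a pair is split at `σ a b`, or above the cut -/
theorem two_cl (hσ : Rz K σ) {m : ℕ} (h : ¬Tri σ m) {a b : Fin r} (hab : σ a b ≤ m) (x y : Fin r) :
    σ x y = σ a b ∧ Crs σ a (σ a b) x y ∨ m < σ x y ∧ ¬Crs σ a (σ a b) x y := by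
  have u : ∀ a x y, min (σ a x) (σ a y) ≤ σ x y := fun a x y => hσ.comm x a ▸ hσ.ultra x a y
  have v : ∀ d, m < σ a d ∨ m < σ b d := fun d => by
    by_contra h'
    exact h ⟨a, b, d, hab, by omega, by omega⟩
  have := v x; have := v y
  have := u a x y; have := u b x y; have := hσ.ultra a x y; have := hσ.ultra a b x
  have := hσ.ultra a b y; have := hσ.ultra a x b; have := hσ.ultra a y b
  have := hσ.ultra a y x; have := hσ.comm x b; have := hσ.comm y b; have := hσ.comm y x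
  unfold Crs
  omega

/-- **a term is good, or there are two clusters and an even number of site edges between them** -/
theorem good_or (hσ : Rz K σ) {c : ℕ → ℕ} (hc : Monotone c) (hc' : ∀ j, j ≤ c j)
    (p p' : ι → Fin r) (B : Finset ι) {t t' : ι' → Fin r} {e₀ : ι'}
    (h0 : ∀ e ∈ B', σ (t e₀) (t' e₀) ≤ σ (t e) (t' e)) : Good c p p' B t t' B' σ ∨
      ¬Tri σ (c (σ (t e₀) (t' e₀))) ∧
        Even (B.filter fun e => σ (p e) (p' e) = σ (t e₀) (t' e₀)).card := by
  by_cases h1 : Tri σ (c (σ (t e₀) (t' e₀)))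
  · exact .inl (.inr fun e he => h1.out hσ (hc (h0 e he)))
  rw [Finset.filter_congr (q := fun e => Crs σ (t e₀) (σ (t e₀) (t' e₀)) (p e) (p' e)) fun e _ => by
    have := hc' (σ (t e₀) (t' e₀))
    rcases two_cl hσ h1 this (p e) (p' e) with h | h
    · exact iff_of_true h.1 h.2
    · exact iff_of_false (by omega) h.2]
  exact (Nat.even_or_odd _).symm.imp (fun h => .inl ⟨_, ⟨_, h⟩, h0⟩) fun h => ⟨h1, h⟩

/-- the exception: two clusters, a double edge between them, the third edge above the cut -/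
def Exc (c : ℕ → ℕ) (p p' : Fin 3 → Fin r) (σ : SM r) : Prop :=
  ∃ i₀ i₁ i₂, i₀ ≠ i₁ ∧ i₂ ≠ i₀ ∧ i₂ ≠ i₁ ∧ σ (p i₁) (p' i₁) = σ (p i₀) (p' i₀) ∧
    c (σ (p i₀) (p' i₀)) < σ (p i₂) (p' i₂) ∧ ¬Tri σ (c (σ (p i₀) (p' i₀)))

theorem good_three (hσ : Rz K σ) {c : ℕ → ℕ} (hc : Monotone c) (hc' : ∀ j, j ≤ c j)
    {p p' : Fin 3 → Fin r} (h : ¬Exc c p p' σ) : Good c p p' Finset.univ p p' Finset.univ σ := by
  obtain ⟨i, -, hi⟩ := Finset.univ.exists_min_image (fun e => σ (p e) (p' e)) Finset.univ_nonempty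
  refine (good_or hσ hc hc' p p' _ hi).resolve_right fun ⟨h1, h2⟩ => h ?_
  have v : ∀ e, σ (p e) (p' e) = σ (p i) (p' i) ∨ c (σ (p i) (p' i)) < σ (p e) (p' e) := fun e =>
    (two_cl hσ h1 (hc' _) (p e) (p' e)).imp And.left And.left
  have key : ∀ i : Fin 3, ∃ i₁ i₂, i ≠ i₁ ∧ i₂ ≠ i ∧ i₂ ≠ i₁ ∧
      (Finset.univ : Finset (Fin 3)) = {i, i₁, i₂} := by decide
  obtain ⟨i₁, i₂, n1, n2, n3, e⟩ := key i
  have := hc' (σ (p i) (p' i))
  rw [Finset.card_filter, e, Finset.sum_insert (by simp [n1, n2.symm]),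
    Finset.sum_pair n3.symm, if_pos rfl, Nat.even_iff] at h2
  rcases v i₁ with v1 | v1 <;> rcases v i₂ with v2 | v2
  · rw [if_pos v1, if_pos v2] at h2; omega
  · exact ⟨i, i₁, i₂, n1, n2, n3, v1, v2, h1⟩
  · exact ⟨i, i₂, i₁, n2.symm, n1.symm, n3.symm, v2, v1, h1⟩
  · rw [if_neg (by omega), if_neg (by omega)] at h2; omega

open Classical in
/-- **three edges**: everything but the exception gains one power of the size -/
theorem u3 (hw : Wt w) (hM : Mono 0 M) (hl : Lb.length = M.length)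
    (H : List.Forall₂ (Rk1 spin) L ℓ) (hL : Mono 0 L) (hl' : L.length = M.length) {c : ℕ → ℕ}
    (hc : Monotone c) (hc' : ∀ j, j ≤ c j) {q : Fin 3 → ℕ → ℝ} {s : ℕ → ℝ} {S : ℝ}
    (hs : Sz M ℓ c q s S) {p p' : Fin 3 → Fin (r + 1)} (hp : ∀ e, p e ≠ p' e)
    (U : Fin 3 → ℕ → Ω → Ω → ℝ) :
    |(avm M r fun σ => BF w Lb h U p p' Finset.univ σ * SF L q p p' Finset.univ σ) -
      avm M r fun σ => if Exc c p p' σ then
        BF w Lb h U p p' Finset.univ σ * SF L q p p' Finset.univ σ else 0| ≤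
      8 * (cP (r + 1) S + (r + 1)) * ∑ e, ∑ j ∈ Finset.range (M.length + 1),
        dm M 0 j * (s j * mom w Lb h (U e) 3 j) := by
  have := avm_good (h := h) (U := U) hw hM hl H hL hl' hs (p := p) (p' := p') (B := Finset.univ)
    Finset.univ_nonempty (fun e _ => hp e) (χ := fun σ => if Exc c p p' σ then 0 else 1)
    (fun σ => by split_ifs <;> simp) fun σ hσ h => good_three hσ hc hc' fun h' => h (if_pos h')
  rw [← avm_sub]
  simp only [Finset.card_univ, Fintype.card_fin] at this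
  refine (congrArg abs (avm_congr M r fun σ _ => ?_)).trans_le (this.trans_eq (by norm_num))
  split_ifs <;> simp

end law

end Site94

end Crest.Agent.T156.Cas

end
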