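import Crest.Agent.T156.EDef_91
import Crest.Agent.T156.Site_94

/-!
# Row 156 (helper6): the site factor of a pattern with two different levels
-/

set_option autoImplicit false
set_option linter.unusedSectionVars false

noncomputable section

namespace Crest.Agent.T156.Cas.E91

open MeasureTheory Real Set Filter Topology
open Crest.Agent.T157.E Crest.Agent.T157.Casc Crest.Agent.T157.SL
open Nu87 Site94

variable {Ω : Type} [Fintype Ω]

theorem Sf_eq_SF (D : Dat Ω) (c d e f : Fin 6) (τ : SM 6) : D.Sf c d e f τ =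
    SF D.T (fun _ : Fin 3 => D.q) ![4, c, e] ![5, d, f] Finset.univ τ := by
  simp only [Dat.Sf, SF, Fin.prod_univ_three]
  rfl

/-- an edge of another level does not cross both clusters of an edge at its level -/
theorem not_crs_both {r K : ℕ} {τ : SM r} (h : Rz K τ) {c d e f : Fin r} (hne : τ c d ≠ τ e f) :
    ¬Crs τ c (τ c d) e f ∨ ¬Crs τ d (τ c d) e f := by
  by_contra hc
  rw [not_or, not_not, not_not] at hc
  have h0 := hc.1.le h
  have h1 := h.ultra c e d
  have h2 := h.ultra c f d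
  have h3 := h.ultra e c f
  have h4 := h.ultra c d f
  have h5 := h.ultra f c e
  have h6 := h.ultra c d e
  have e1 := h.comm e d
  have e2 := h.comm f d
  have e3 := h.comm e c
  have e4 := h.comm f c
  have e5 := h.comm f e
  unfold Crs at hc
  omega

theorem sf_le (D : Dat Ω) {tb : ℝ} (hD : D.Ok tb) {j : ℕ} {τ : SM 6} (h : Rz D.K τ)
    (h45 : τ 4 5 = j) {c d e f : Fin 6} (hne : τ c d ≠ τ e f) :
    |D.Sf c d e f τ| ≤ 8 * D.gz j (τ c d) := by
  have hT : Rz D.T.length τ := Cav22.len_tilt hD.tilt ▸ h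
  have hq : ∀ a b, |D.q (τ a b)| ≤ 1 := fun a b => by
    obtain ⟨h0, h1⟩ := hD.q01 _ (h.le a b)
    rwa [abs_of_nonneg h0]
  have h8 : (2 : ℝ) ^ (Finset.univ : Finset (Fin 3)).card = 8 := by norm_num
  rw [Sf_eq_SF, Dat.gz, ← h8]
  split_ifs with hy
  swap
  · rw [mul_one]
    exact abs_SF_le hT fun _ _ => hq _ _
  have hK : τ c d < D.K := hy.trans_le (h45 ▸ h.le 4 5)
  have hq0 := (hD.q01 _ hK.le).1
  have hx := Nu87.ex_nonneg hD.mono (τ c d)
  have hP := Ker15.PB_nonneg 6 (hD.sg0 (τ c d))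
  refine SF_le fun A _ => ?_
  by_cases h1 : (1 : Fin 3) ∈ A
  · obtain ⟨a, ha, hc⟩ : ∃ a, ¬Crs τ a (τ c d) e f ∧ Crs τ a (τ c d) c d := by
      rcases not_crs_both h hne with h' | h'
      · exact ⟨c, h', by unfold Crs; rw [h.self]; omega⟩
      · exact ⟨d, h', by unfold Crs; rw [h.self, h.comm d c]; omega⟩
    have h2 : ¬Crs τ a (τ c d) 4 5 := fun h' => by have := h'.le h; omega
    have ho : Odd (bdM τ (dg ![4, c, e] ![5, d, f] A) a (τ c d)) := by
      rw [Nat.odd_iff, bdM_dg]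
      have : (A.filter fun i => Crs τ a (τ c d) ((![4, c, e] : Fin 3 → Fin 6) i)
          ((![5, d, f] : Fin 3 → Fin 6) i)) = {1} := by
        ext i
        rw [Finset.mem_filter, Finset.mem_singleton]
        refine ⟨fun hi => ?_, fun hi => hi ▸ ⟨h1, hc⟩⟩
        fin_cases i
        exacts [absurd hi.2 h2, rfl, absurd hi.2 ha]
      rw [this]
      rfl
    have h3 := par1M hD.r1.rk (Cav22.mono_tilt hD.tilt hD.mono) hT _ a (hD.sg0 (τ c d)) _ ho
      ((Ker15.tm_eq hD.r1.rk _).symm.trans_le (hD.sgt _))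
    refine (mul_le_of_le_one_left (abs_nonneg _) (abs_q_le (fun _ _ => hq _ _) A)).trans ?_
    have h4 : _ ≤ min 1 (Ker15.PB 6 (D.sg (τ c d))) := le_min (abs_TM_mo hT 0 _) h3
    unfold Dat.pz
    linarith
  · have he : (1 : Fin 3) ∈ Finset.univ \ A := by simpa using h1
    refine (mul_le_of_le_one_right (abs_nonneg _) (abs_TM_mo hT 0 _)).trans ?_
    rw [← Finset.mul_prod_erase _ _ he, abs_mul, abs_neg, Finset.abs_prod]
    refine (mul_le_of_le_one_right (abs_nonneg _) (Finset.prod_le_one (fun _ _ => abs_nonneg _)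
      fun i _ => by rw [abs_neg]; exact hq _ _)).trans ?_
    have h4 : 0 ≤ min 1 (Ker15.PB 6 (D.sg (τ c d))) := le_min zero_le_one hP
    have h5 : |D.q (τ c d)| = D.q (τ c d) := abs_of_nonneg hq0
    unfold Dat.pz
    change |D.q (τ c d)| ≤ _
    linarith

end Crest.Agent.T156.Cas.E91

end
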