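import Crest.Agent.T156.E1F_91
import Crest.Agent.T156.EcSite_6

/-!
# Row 156 (helper91): the first cavity equation without the tilt in the clock

The law of the grafts is invariant under merging the depths `i` and `i + 1` (`avc_mrg`).
-/

set_option autoImplicit false
set_option linter.unusedSectionVars false

noncomputable section

namespace Crest.Agent.T156.Cas.E91

open MeasureTheory Real Set Filter Topology
open Crest.Agent.T157.E Crest.Agent.T157.Casc Crest.Agent.T157.SL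
open Crest.Agent.T157.G1 (ov)
open Nu87 Site94

variable {Ω : Type} [Fintype Ω]

/-- the clock between two nodes, without the tilt -/
def Dat.clk2 (D : Dat Ω) (j j' : ℕ) : ℝ := D.N 2 * (Ker15.tm D.T j' - Ker15.tm D.T j +
  (D.q j' - D.q j)) + ∑ y ∈ Finset.Ioo j j', dm D.L 0 y * D.un y ^ 2

/-- the second moments below the node `j` -/
def Dat.low (D : Dat Ω) (j : ℕ) : ℝ := ∑ y ∈ Finset.range j, dm D.L 0 y * D.un y ^ 2

/-- the source, second form -/
def EeS2 : Prop := ∀ tb : ℝ, ∃ C : ℝ, 0 ≤ C ∧ ∀ (Ω : Type) [Fintype Ω] (D : Dat Ω), D.Ok tb →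
  ∀ c d e f : Fin 6, c ≠ d → e ≠ f → ∀ j < D.K, 0 ≤ D.VV j ∧
    |D.src c d e f j| ≤ C * (D.pz j * D.N 2 + D.low j) ∧
    ∀ j' < D.K, j < j' → dm D.L 0 j ≤ D.ms → dm D.L 0 j' ≤ D.ms → ∀ G, D.Gm j G →
      |D.src c d e f j' - D.src c d e f j| ≤ C * (D.clk2 j j' + D.VV j + D.ms + G * D.N 1)

/-- **(E1)**, second form -/
def E1S2 (p : Bool) : Prop := ∀ tb : ℝ, ∃ C : ℝ, 0 ≤ C ∧ ∀ (n : ℕ) (β : ℝ)
  (M : List (ℝ × ℝ × ℝ)) (q : ℕ → ℝ) (l0 : Lv (Cube n)) (un sg : ℕ → ℝ) (ms : ℝ), 0 < n →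
  OOk M q → (∀ x y, l0.cov x y = ov x y) → ∀ D : Dat (Cube n), D = opD n β M q l0 un sg ms →
  D.Ok tb → ∀ j < D.K, D.t j ≠ 0 → dm D.L 0 j ≤ D.ms → ∀ G, D.Gm j G →
    |D.res j| ≤ C * (D.eta0 (if p then D.N3p j else D.N 3) G j + (D.pz j * D.N 2 + D.low j)) ∧
    ∀ j' < D.K, j < j' → D.t j' ≠ 0 → dm D.L 0 j' ≤ D.ms → ∀ G', D.Gm j' G' →
      |D.res j' - D.res j| ≤ C * (D.eta0 (if p then D.N3p j else D.N 3) G j +
        D.eta0 (if p then D.N3p j' else D.N 3) G' j' + D.clk2 j j')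

/-! ### merging two depths -/

/-- the depth `i + 1` goes to `i` -/
def mg (i t : ℕ) : ℕ := if t = i + 1 then i else t

/-- the merged split matrix -/
def mrg {r : ℕ} (i : ℕ) (τ : SM r) : SM r := fun a b => mg i (τ a b)

theorem mg_min (i a b : ℕ) : mg i (min a b) = min (mg i a) (mg i b) := by
  unfold mg
  split_ifs <;> omega

theorem mg_mg (i a : ℕ) : mg i (mg i a) = mg i a := by
  unfold mg
  split_ifs <;> omega

section merge

variable {r K i : ℕ} {L : List (Lv Ω)}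

theorem rz_mrg {τ : SM (r + 1)} (h : Rz K τ) (hi : i + 1 < K) : Rz K (mrg i τ) := by
  refine rz_of_um ⟨fun a => ?_, fun a b => ?_, fun a b c => ?_⟩
  · rw [mrg, h.self]
    exact if_neg hi.ne'
  · rw [mrg, mrg, h.comm]
  · have := h.ultra a b c
    simp only [mrg, mg]
    split_ifs <;> omega

theorem mrg_gr (τ : SM r) (hi : i + 1 < K) (a : Fin r) (t : ℕ) :
    mrg i (gr K τ a t) = gr K (mrg i τ) a (mg i t) := by
  funext b c
  refine Fin.cases ?_ (fun b => ?_) b <;> refine Fin.cases ?_ (fun c => ?_) c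
  · exact if_neg hi.ne'
  · exact mg_min _ _ _
  · exact mg_min _ _ _
  · rfl

theorem mrg_mrg (τ : SM r) : mrg i (mrg i τ) = mrg i τ := by
  funext a b
  exact mg_mg _ _

theorem up1_mrg (hi : i + 1 < L.length) (ψ : SM (r + 2) → ℝ) (τ : SM (r + 1)) :
    up1 L (fun σ => ψ (mrg i σ)) (mrg i τ) = up1 L (fun σ => ψ (mrg i σ)) τ := by
  simp only [up1, Ws, mrg_gr _ hi, mrg_mrg]
  congr 2
  refine Finset.sum_congr rfl fun m _ => congrArg _ (Finset.sum_congr rfl fun a _ => ?_)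
  by_cases h : m = i
  · rw [h, show mg i (i + 1) = mg i i by simp [mg], sub_self, zero_div, zero_div]
  · rw [show cls (mrg i τ) a (m + 1) = cls τ a (m + 1) from congrArg Finset.card
      (Finset.filter_congr fun b _ => by simp only [mrg, mg]; split_ifs <;> omega)]

/-- **merge invariance** -/
theorem avc_mrg (hi : i + 1 < L.length) (σ : SM (r + 1)) : ∀ (k : ℕ) (ψ : SM (r + k + 1) → ℝ),
    avc L (mrg i σ) k (fun τ => ψ (mrg i τ)) = avc L σ k fun τ => ψ (mrg i τ)
  | 0, ψ => congrArg ψ (mrg_mrg σ)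
  | k + 1, ψ => by
      have e : up1 (r := r + k) L (fun τ => ψ (mrg i τ)) =
          fun τ => up1 (r := r + k) L (fun τ => ψ (mrg i τ)) (mrg i τ) :=
        funext fun τ => (up1_mrg hi ψ τ).symm
      exact (congrArg (avc L _ k) e).trans ((avc_mrg hi σ k _).trans (congrArg (avc L σ k) e).symm)

theorem mrg_tw (hi : i + 1 < K) : mrg i (tw K (i + 1)) = tw K i := by
  rw [tw, mrg_gr _ hi, tw]
  congr 1
  · funext a b
    exact if_neg hi.ne'
  · exact if_pos rfl

end merge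

variable {D : Dat Ω} {tb : ℝ} {c d e f : Fin 6} {τ τ' : SM 6} {i j j' y : ℕ}

theorem Sf_mrg (hD : D.Ok tb) (hτ : Rz D.K τ) (hi : i + 1 < D.K) (h45 : τ 4 5 = i ∨ τ 4 5 = i + 1)
    (h1 : τ c d ≠ i + 1) (h2 : τ e f ≠ i + 1) : |D.Sf c d e f τ - D.Sf c d e f (mrg i τ)| ≤
      576 * (Ker15.tm D.T (i + 1) - Ker15.tm D.T i) + 4 * (D.q (i + 1) - D.q i) := by
  have e0 : mrg i τ 4 5 = i := by
    simp only [mrg, mg]
    split_ifs <;> omega
  have e1 : mrg i τ c d = τ c d := if_neg h1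
  have e2 : mrg i τ e f = τ e f := if_neg h2
  have hr := rz_mrg hτ hi
  simp only [Dat.Sf, ed, e0, e1, e2]
  refine (abs_sub_le _ _ _).trans (add_le_add ((TM_move91 (i := i) hD hr hτ (by omega)
    (fun a b => ?_) fun x => abs_eta3 hD (hτ.le _ _) (hτ.le _ _) (hτ.le _ _) _ _ _ _ _ _).trans_eq
      (by ring)) ?_)
  · simp only [mrg, mg]
    split_ifs with h
    exacts [.inr ⟨rfl, h⟩, .inl rfl]
  · rw [← TM_sub]
    refine abs_TM91 One15.w1 (Cav22.len_tilt hD.tilt ▸ hr) fun x => ?_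
    have h3 := abs_eta2 hD (hτ.le c d) (hτ.le e f) (x c) (x d) (x e) (x f)
    have h4 := sub_nonneg.2 (hD.qm i (by omega))
    rw [mul_assoc, mul_assoc, ← sub_mul, abs_mul, Dat.eta, Dat.eta, sub_sub_sub_cancel_left,
      abs_sub_comm, mul_comm]
    refine mul_le_mul h3 ?_ (abs_nonneg _) (by norm_num)
    rcases h45 with h | h <;> rw [h]
    · rwa [sub_self, abs_zero]
    · exact (abs_of_nonneg h4).le

theorem mrg_cases {K : ℕ} (hτ : Rz K τ) (hy : y < i) (hi : i + 1 < K) (h1 : τ c d = y)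
    (h2 : τ e f = y) {a b : Fin 6} (ha : a = c ∨ a = d ∨ a = e ∨ a = f)
    (hb : b = c ∨ b = d ∨ b = e ∨ b = f) :
    (τ a b = i + 1 → ((τ c e = i + 1 ∨ τ c f = i + 1) ∧ i ≤ τ a c) ∨
      ((τ d e = i + 1 ∨ τ d f = i + 1) ∧ i ≤ τ a d)) ∧
    (τ a b = i → ¬((τ c e = i + 1 ∨ τ c f = i + 1) ∧ i ≤ τ a c) ∧
      ¬((τ d e = i + 1 ∨ τ d f = i + 1) ∧ i ≤ τ a d)) := by
  have s1 := hτ.self c
  have s2 := hτ.self d
  have s3 := hτ.self e
  have s4 := hτ.self f
  have s5 := hτ.comm c e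
  have s6 := hτ.comm c f
  have s7 := hτ.comm d e
  have s8 := hτ.comm d f
  have s9 := hτ.comm c d
  have s10 := hτ.comm e f
  have u1 := hτ.ultra c e d
  have u2 := hτ.ultra c f d
  have u3 := hτ.ultra e c f
  have u4 := hτ.ultra e d f
  rcases ha with h | h | h | h <;> rcases hb with h' | h' | h' | h' <;> rw [h, h'] <;> omega

theorem mrg_fin {p p' : Prop} [Decidable p] [Decidable p'] {x u u' : ℕ}
    (f1 : x = i + 1 → (p ∧ i ≤ u) ∨ (p' ∧ i ≤ u')) (f2 : x = i → ¬(p ∧ i ≤ u) ∧ ¬(p' ∧ i ≤ u')) :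
    (if p' ∧ (if p ∧ mg i x = i ∧ i ≤ u then i + 1 else mg i x) = i ∧
        (p ∧ mg i u' = i ∧ i ≤ u ∨ i ≤ u') then i + 1
      else if p ∧ mg i x = i ∧ i ≤ u then i + 1 else mg i x) = x := by
  unfold mg
  by_cases hp : p <;> by_cases hp' : p' <;> simp only [hp, hp', true_and, false_and, false_or,
    or_false, not_false_eq_true, and_true, if_false, imp_false] at f1 f2 ⊢ <;> split_ifs <;> omega

theorem Bf_mrg (hE : EdS) (hw : Wt D.w) (hτ : Rz D.K τ) (hy : y < i) (hi : i + 1 < D.K)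
    (h1 : τ c d = y) (h2 : τ e f = y) : |D.Bf c d e f τ - D.Bf c d e f (mrg i τ)| ≤
      2 * (D.t y ^ 2 * (D.lam3 y (i + 1) - D.lam3 y i)) := by
  have hi' : i < D.K := by omega
  have h0 := mul_nonneg (sq_nonneg (D.t y)) (sub_nonneg.2 (hE Ω D hw y i hy hi').1)
  have key : ∀ (p : Prop) [Decidable p] (o : Fin 6) (ρ : SM 6), Rz D.K ρ → ρ c d = y → ρ e f = y →
      Rz D.K (if p then lift i o ρ else ρ) ∧ (if p then lift i o ρ else ρ) c d = y ∧
      (if p then lift i o ρ else ρ) e f = y ∧ |D.Bf c d e f (if p then lift i o ρ else ρ) -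
        D.Bf c d e f ρ| ≤ D.t y ^ 2 * (D.lam3 y (i + 1) - D.lam3 y i) := fun p _ o ρ hρ a1 a2 => by
    split_ifs
    · exact ⟨rz_lift hρ hi' o, (if_neg (by omega)).trans a1, (if_neg (by omega)).trans a2,
        Bf_lift91 hE hw hρ hy hi' o a1 a2⟩
    · exact ⟨hρ, a1, a2, by rwa [sub_self, abs_zero]⟩
  obtain ⟨b1, b2, b3, b4⟩ := key (τ c e = i + 1 ∨ τ c f = i + 1) c _ (rz_mrg hτ hi)
    ((if_neg (by omega)).trans h1) ((if_neg (by omega)).trans h2)
  obtain ⟨b5, -, -, b6⟩ := key (τ d e = i + 1 ∨ τ d f = i + 1) d _ b1 b2 b3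
  rw [Bf_loc91 hw hτ b5 fun a b ha hb => ?_] at b6
  · linarith [abs_sub_le (D.Bf c d e f τ) (D.Bf c d e f
      (if τ c e = i + 1 ∨ τ c f = i + 1 then lift i c (mrg i τ) else mrg i τ))
      (D.Bf c d e f (mrg i τ))]
  obtain ⟨f1, f2⟩ := mrg_cases hτ hy hi h1 h2 ha hb
  have e1 : ∀ (p : Prop) [Decidable p] (o : Fin 6) (ρ : SM 6) (a b : Fin 6),
      (if p then lift i o ρ else ρ) a b = if p ∧ ρ a b = i ∧ i ≤ ρ a o then i + 1 else ρ a b :=
    fun p _ o ρ a b => by
      by_cases h : p <;> simp [h, lift]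
  have e2 : ∀ (p : Prop) [Decidable p] (x : ℕ),
      i ≤ (if p then i + 1 else x) ↔ p ∨ i ≤ x := fun p _ x => by
    by_cases h : p <;> simp [h]
  have e3 : ∀ x, i ≤ mg i x ↔ i ≤ x := fun x => by
    unfold mg
    split_ifs <;> omega
  simp only [e1, e2, mrg, e3]
  exact mrg_fin f1 f2

/-- the potential of the transport -/
def poE2 (D : Dat Ω) (tb : ℝ) (j i : ℕ) : ℝ :=
  tb ^ 2 * D.N 2 * (4608 * Ker15.tm D.T i + 32 * D.q i) +
    128 * ∑ y ∈ Finset.range j, dm D.L 0 y * (D.t y ^ 2 * D.lam3 y i)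

theorem step92 (hE : EdS) (hD : D.Ok tb) (hcd : c ≠ d) (hef : e ≠ f) (h1 : j ≤ i) (h2 : i < j')
    (h3 : j' < D.K) : |D.A (i + 1) (phE D c d e f j j') - D.A i (phE D c d e f j j')| ≤
      poE2 D tb j (i + 1) - poE2 D tb j i := by
  have hi : i < D.K := h2.trans h3
  have hi1 : i + 1 < D.K := by omega
  have hv := sub_nonneg.2 (hD.r1.tm_mono (Nat.le_succ i))
  have hq := sub_nonneg.2 (hD.qm i hi)
  set v := 576 * (Ker15.tm D.T (i + 1) - Ker15.tm D.T i) + 4 * (D.q (i + 1) - D.q i) with hvd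
  have hv0 : 0 ≤ v := by positivity
  have hl : ∀ y < j, 0 ≤ D.t y ^ 2 * (D.lam3 y (i + 1) - D.lam3 y i) := fun y hy =>
    mul_nonneg (sq_nonneg _) (sub_nonneg.2 (hE Ω D hD.wt y i (by omega) hi).1)
  have c4 := Br_le_N91 (p := fun y => y < j ∨ j' < y) hD.mono (a := tb ^ 2 * v) (by positivity)
  have c5 : Wp52.Br D.L (fun y => if y ∈ Finset.range j then
      D.t y ^ 2 * (D.lam3 y (i + 1) - D.lam3 y i) else 0) =
      ∑ y ∈ Finset.range j, dm D.L 0 y * (D.t y ^ 2 * D.lam3 y (i + 1)) -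
        ∑ y ∈ Finset.range j, dm D.L 0 y * (D.t y ^ 2 * D.lam3 y i) := by
    simp only [Wp52.Br, mul_ite, mul_zero, Finset.sum_ite_mem]
    rw [Finset.inter_eq_right.2 (Finset.range_subset_range.2 (by have : D.K = D.L.length := rfl; omega)),
      ← Finset.sum_sub_distrib]
    exact Finset.sum_congr rfl fun _ _ => by ring
  have c2 := fun (i' : ℕ) (hi' : i' = i ∨ i' = i + 1) => A_le91 (i := i') hD.mono (by omega)
    (g := fun y => (if y < j ∨ j' < y then tb ^ 2 * v * D.un y ^ 2 else 0) +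
      16 * if y ∈ Finset.range j then D.t y ^ 2 * (D.lam3 y (i + 1) - D.lam3 y i) else 0)
    (fun y => add_nonneg (by split_ifs <;> positivity) (mul_nonneg (by norm_num) (by
      split_ifs with h
      exacts [hl y (Finset.mem_range.1 h), le_rfl])))
    (by rw [if_neg (by omega), if_neg (by rw [Finset.mem_range]; omega)]; simp) hcd
    (ψ := fun τ => phE D c d e f j j' τ - phE D c d e f j j' (mrg i τ)) fun τ hτ h45 => by
      have g0 : 0 ≤ (if τ c d ∈ Finset.range j then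
          D.t (τ c d) ^ 2 * (D.lam3 (τ c d) (i + 1) - D.lam3 (τ c d) i) else 0) := by
        split_ifs with h
        exacts [hl _ (Finset.mem_range.1 h), le_rfl]
      by_cases k : τ c d = τ e f ∧ (τ c d < j ∨ (j' < τ c d ∧ τ c d ≤ τ c e))
      · have k' : mrg i τ c d = mrg i τ e f ∧ (mrg i τ c d < j ∨
            (j' < mrg i τ c d ∧ mrg i τ c d ≤ mrg i τ c e)) := by
          simp only [mrg, mg]
          split_ifs <;> omega
        have b1 := (abs_BS91 hD hτ hcd hef k.1).1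
        have b2 := Sf_mrg (c := c) (d := d) (e := e) (f := f) hD hτ hi1 (by omega) (by omega)
          (by omega)
        have b3 := abs_Sf91 (c := c) (d := d) (e := e) (f := f) hD (rz_mrg hτ hi1)
        have b4 : |D.Bf c d e f τ - D.Bf c d e f (mrg i τ)| ≤ 2 * (if τ c d ∈ Finset.range j then
            D.t (τ c d) ^ 2 * (D.lam3 (τ c d) (i + 1) - D.lam3 (τ c d) i) else 0) := by
          split_ifs with h
          · exact Bf_mrg hE hD.wt hτ (by have := Finset.mem_range.1 h; omega) hi1 rfl k.1.symm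
          · rw [Finset.mem_range] at h
            rw [Bf_loc91 hD.wt hτ (rz_mrg hτ hi1) fun a b ha hb => if_neg fun k2 => ?_, sub_self,
              abs_zero, mul_zero]
            have m : ∀ a, (a = c ∨ a = d ∨ a = e ∨ a = f) → j' < τ c a := fun a ha => by
              have s1 := hτ.self c
              have s2 := hτ.ultra c e f
              rcases ha with h | h | h | h <;> rw [h] <;> omega
            have s3 := hτ.ultra a c b
            rw [hτ.comm a c] at s3
            have := m a ha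
            have := m b hb
            omega
        simp only [phE, if_pos k, if_pos k', if_pos (show τ c d < j ∨ j' < τ c d by omega)]
        rw [show ∀ a b a' b' : ℝ, a * b - a' * b' = a * (b - b') + (a - a') * b' from
          fun _ _ _ _ => by ring]
        refine (abs_add_le _ _).trans (add_le_add ?_ ?_) <;> rw [abs_mul]
        · exact (mul_le_mul b1 b2 (abs_nonneg _) (by positivity)).trans_eq (by ring)
        · exact (mul_le_mul b4 b3 (abs_nonneg _) (by positivity)).trans_eq (by ring)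
      · have k' : ¬(mrg i τ c d = mrg i τ e f ∧ (mrg i τ c d < j ∨
            (j' < mrg i τ c d ∧ mrg i τ c d ≤ mrg i τ c e))) := by
          simp only [mrg, mg]
          split_ifs <;> omega
        simp only [phE, if_neg k, if_neg k', sub_self, abs_zero]
        exact add_nonneg (by split_ifs <;> positivity) (mul_nonneg (by norm_num) g0)
  have c6 := c2 i (.inl rfl)
  have c7 := c2 (i + 1) (.inr rfl)
  have c8 := avc_mrg (r := 1) (L := D.L) hi1 (tw D.K (i + 1)) 4 (phE D c d e f j j')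
  rw [mrg_tw hi1] at c8
  rw [Wp52.Br_add, Wp52.Br_mul, c5, Dat.A, avc_sub] at c6 c7
  rw [← c8] at c7
  rw [abs_sub_comm] at c6
  refine ((abs_sub_le _ _ _).trans (add_le_add c7 c6)).trans ?_
  rw [poE2, poE2]
  rw [hvd] at c4 ⊢
  linarith

/-- both edges above the test node: an odd cluster -/
theorem sf_hi (hD : D.Ok tb) (h : Rz D.K τ) (hK : j < D.K) (h45 : τ 4 5 = j) (h1 : j < τ c d)
    (h2 : j < τ e f) : |D.Sf c d e f τ| ≤ 8 * D.pz j := by
  have hT : Rz D.T.length τ := Cav22.len_tilt hD.tilt ▸ h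
  have hq : ∀ a b, |D.q (τ a b)| ≤ 1 := fun a b => by
    obtain ⟨h0, h1⟩ := hD.q01 _ (h.le a b)
    rwa [abs_of_nonneg h0]
  have h8 : (2 : ℝ) ^ (Finset.univ : Finset (Fin 3)).card = 8 := by norm_num
  rw [Sf_eq_SF, ← h8]
  have hq0 := (hD.q01 _ hK.le).1
  have hx := Nu87.ex_nonneg hD.mono j
  have hP := Ker15.PB_nonneg 6 (hD.sg0 j)
  refine SF_le fun A _ => ?_
  by_cases h0 : (0 : Fin 3) ∈ A
  · have hc : Crs τ 4 j 4 5 := by unfold Crs; rw [h.self]; omega
    have n1 : ¬Crs τ 4 j c d := fun h' => by have := h'.le h; omega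
    have n2 : ¬Crs τ 4 j e f := fun h' => by have := h'.le h; omega
    have ho : Odd (bdM τ (dg ![4, c, e] ![5, d, f] A) 4 j) := by
      rw [Nat.odd_iff, bdM_dg]
      have : (A.filter fun i => Crs τ 4 j ((![4, c, e] : Fin 3 → Fin 6) i)
          ((![5, d, f] : Fin 3 → Fin 6) i)) = {0} := by
        ext i
        rw [Finset.mem_filter, Finset.mem_singleton]
        refine ⟨fun hi => ?_, fun hi => hi ▸ ⟨h0, hc⟩⟩
        fin_cases i
        exacts [rfl, absurd hi.2 n1, absurd hi.2 n2]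
      rw [this]
      rfl
    have h3 := par1M hD.r1.rk (Cav22.mono_tilt hD.tilt hD.mono) hT _ 4 (hD.sg0 j) _ ho
      ((Ker15.tm_eq hD.r1.rk _).symm.trans_le (hD.sgt _))
    refine (mul_le_of_le_one_left (abs_nonneg _) (abs_q_le (fun _ _ => hq _ _) A)).trans ?_
    have h4 : _ ≤ min 1 (Ker15.PB 6 (D.sg j)) := le_min (abs_TM_mo hT 0 _) h3
    unfold Dat.pz
    linarith
  · have he : (0 : Fin 3) ∈ Finset.univ \ A := by simpa using h0
    refine (mul_le_of_le_one_right (abs_nonneg _) (abs_TM_mo hT 0 _)).trans ?_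
    rw [← Finset.mul_prod_erase _ _ he, abs_mul, abs_neg, Finset.abs_prod]
    refine (mul_le_of_le_one_right (abs_nonneg _) (Finset.prod_le_one (fun _ _ => abs_nonneg _)
      fun i _ => by rw [abs_neg]; exact hq _ _)).trans ?_
    have h4 : 0 ≤ min 1 (Ker15.PB 6 (D.sg j)) := le_min zero_le_one hP
    have h5 : |D.q j| = D.q j := abs_of_nonneg hq0
    unfold Dat.pz
    change |D.q (τ 4 5)| ≤ _
    rw [h45]
    linarith

/-- **the source**, second form -/
theorem eeS2_of (hE : EdS) (hI : EiS) : EeS2 := fun tb =>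
  ⟨4700 * tb ^ 2, by positivity, fun Ω _ D hD c d e f hcd hef j hj => by
    have hp : ∀ y < j, 0 ≤ pi2 D.w D.L y (fun x x' => D.l0.cov x x' ^ 2) D.h - D.lam3 y j :=
      fun y hy => sub_nonneg.2 ((hE Ω D hD.wt y j hy hj).1.trans (hE Ω D hD.wt y j hy hj).2.1)
    have hV : 0 ≤ D.VV j := Finset.sum_nonneg fun y hy => by
      split_ifs
      exacts [le_rfl, mul_nonneg (dm_nonneg hD.mono y) (hp y (Finset.mem_range.1 hy))]
    have hN := G6.N_nonneg hD
    have t0 := sq_nonneg tb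
    refine ⟨hV, ?_, fun j' hj' hjj m1 m2 G hG => ?_⟩
    · have hz := G6.pz_nonneg hD hj.le
      refine (A_le91 hD.mono hj.le (g := fun y =>
        (if j < y then 8 * tb ^ 2 * D.pz j * D.un y ^ 2 else 0) +
          8 * tb ^ 2 * if y ∈ Finset.range j then D.un y ^ 2 else 0)
        (fun y => by split_ifs <;> positivity) (by simp) hcd fun τ hτ h45 => ?_).trans ?_
      · simp only [Finset.mem_range]
        split_ifs with k1 k2 k3 k3
        · omega
        · rw [mul_zero, add_zero, abs_mul]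
          exact (mul_le_mul (abs_BS91 hD hτ hcd hef k1.1).1 (sf_hi hD hτ hj h45 k2 (k1.1 ▸ k2))
            (abs_nonneg _) (by positivity)).trans_eq (by ring)
        · rw [zero_add]
          exact (abs_BS91 hD hτ hcd hef k1.1).2
        · omega
        all_goals rw [abs_zero]; positivity
      · have b1 := Br_le_N91 (p := fun y => j < y) hD.mono (a := 8 * tb ^ 2 * D.pz j) (by positivity)
        have b2 : Wp52.Br D.L (fun y => if y ∈ Finset.range j then D.un y ^ 2 else 0) = D.low j := by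
          simp only [Wp52.Br, mul_ite, mul_zero, Finset.sum_ite_mem]
          rw [Finset.inter_eq_right.2 (Finset.range_subset_range.2
            (by have : D.K = D.L.length := rfl; omega)), Dat.low]
        have b3 : 0 ≤ D.low j :=
          Finset.sum_nonneg fun y _ => mul_nonneg (dm_nonneg hD.mono y) (sq_nonneg _)
        rw [Wp52.Br_add, Wp52.Br_mul, b2]
        nlinarith [mul_nonneg t0 (mul_nonneg hz (hN 2)), mul_nonneg t0 b3]
    have a1 := end91 hI hD hcd hef hjj hj' (.inl rfl) m1 m2 hG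
    have a2 := end91 hI hD hcd hef hjj hj' (.inr rfl) m1 m2 hG
    have a3 := tele91 (a := fun i => D.A i (phE D c d e f j j')) (Φ := poE2 D tb j) hjj.le
      fun i h1 h2 => step92 hE hD hcd hef h1 h2 hj'
    have x4 := hD.r1.tm_mono hjj.le
    have x5 := G6.q_le hD hjj.le hj'.le
    have x6 : ∑ y ∈ Finset.range j, dm D.L 0 y * (D.t y ^ 2 * D.lam3 y j') -
        ∑ y ∈ Finset.range j, dm D.L 0 y * (D.t y ^ 2 * D.lam3 y j) ≤ tb ^ 2 * D.VV j := by
      rw [← Finset.sum_sub_distrib, Dat.VV, Finset.mul_sum]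
      refine Finset.sum_le_sum fun y hy => ?_
      have hy' := Finset.mem_range.1 hy
      split_ifs with ht
      · simp [ht]
      · obtain ⟨i, rfl⟩ : ∃ i, j' = i + 1 := ⟨j' - 1, by omega⟩
        have b1 := (hE Ω D hD.wt y i (by omega) (by omega)).2.1
        have b2 := mul_nonneg (dm_nonneg hD.mono y) (hp y hy')
        have b3 := mul_le_mul_of_nonneg_right (Cond31.sq_t_le D hD y) b2
        have b4 := mul_le_mul_of_nonneg_left b1 (mul_nonneg (dm_nonneg hD.mono y) (sq_nonneg (D.t y)))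
        linarith
    have x8 : 0 ≤ ∑ y ∈ Finset.Ioo j j', dm D.L 0 y * D.un y ^ 2 :=
      Finset.sum_nonneg fun y _ => mul_nonneg (dm_nonneg hD.mono y) (sq_nonneg _)
    have x9 := mul_nonneg hG.1 (hN 1)
    have n0 := mul_nonneg t0 (hN 2)
    have y4 := mul_le_mul_of_nonneg_left x4 n0
    have y5 := mul_le_mul_of_nonneg_left x5 n0
    have y7 := mul_nonneg t0 x8
    have y8 := mul_nonneg t0 x9
    have y9 := mul_nonneg t0 hD.ms0
    have y10 := mul_nonneg t0 hV
    have a4 := abs_sub_le (D.src c d e f j') (D.A j' (phE D c d e f j j')) (D.src c d e f j)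
    have a5 := abs_sub_le (D.A j' (phE D c d e f j j')) (D.A j (phE D c d e f j j'))
      (D.src c d e f j)
    rw [abs_sub_comm] at a1
    simp only [poE2] at a3
    rw [Dat.clk2]
    linarith⟩

open G6 in
/-- **(E1)**, second form, from the leaves -/
theorem e1S2_of (p : Bool) (ha : EaS p) (hb : EbS) (hc : EcS) (he : EeS2) : E1S2 p := by
  intro tb
  obtain ⟨Ca, a0, ha⟩ := ha tb
  obtain ⟨Cb, b0, hb⟩ := hb tb
  obtain ⟨Cc, c0, hc⟩ := hc tb
  obtain ⟨Ce, e0, he⟩ := he tb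
  set C1 := Ca + 69120 * Cb + tb ^ 2 + 69120 * Cc with hC1
  have C0 : 0 ≤ C1 := by positivity
  refine ⟨C1 + 69120 * Ce, by positivity, fun n β M q l0 un sg ms hn hM hl D hD H => ?_⟩
  have h3 : ∀ j, 0 ≤ if p then D.N3p j else D.N 3 := fun j => by
    split_ifs
    exacts [N3p_nonneg H j, N_nonneg H 3]
  have key : ∀ j < D.K, D.t j ≠ 0 → dm D.L 0 j ≤ D.ms → ∀ G, D.Gm j G →
      |D.res j + Src D j / 2| ≤ C1 * D.eta0 (if p then D.N3p j else D.N 3) G j ∧
      D.VV j + D.ms + G * D.N 1 ≤ D.eta0 (if p then D.N3p j else D.N 3) G j ∧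
      0 ≤ D.eta0 (if p then D.N3p j else D.N 3) G j := fun j hj ht hm G hG => by
    have h1 := (ha n β M q l0 un sg ms hn hM hl D hD H j hj ht hm).2
    obtain ⟨hV, h2⟩ := hb _ D H j hj hm
    have x1 : 0 ≤ |D.kap j| * D.rt2 j := mul_nonneg (abs_nonneg _) (Cond31.rt2_nonneg D j)
    have x2 : 0 ≤ D.pz j * D.V j := mul_nonneg (pz_nonneg H hj.le) hV
    have x3 : 0 ≤ G * D.N 1 := mul_nonneg hG.1 (N_nonneg H 1)
    have x3' : 0 ≤ G * D.un j := mul_nonneg hG.1 (H.un0 j).1
    have x4 := (he _ D H 0 1 0 1 (by decide) (by decide) j hj).1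
    have x5 := ms_le_crude H (h3 j) j
    have x6 := H.ms0
    have h4 := abs_D2_le (mul_nonneg b0 (add_nonneg x2 x6)) h2
    have h5 := abs_D2_le (mul_nonneg c0 (mul_nonneg hG.1 (add_nonneg (H.un0 j).1 (N_nonneg H 1))))
      (hc _ D H j hj ht G hG)
    have h6 : |D.t j ^ 2 * D.rt2 j * D.kap j| ≤ tb ^ 2 * (|D.kap j| * D.rt2 j) := by
      rw [abs_mul, abs_of_nonneg (mul_nonneg (sq_nonneg _) (Cond31.rt2_nonneg D j)), mul_assoc,
        mul_comm (D.rt2 j)]
      exact mul_le_mul_of_nonneg_right (Cond31.sq_t_le D H j) x1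
    rw [W2_split] at h1
    generalize (if p then D.N3p j else D.N 3) = n3 at *
    have hE : D.eta0 n3 G j = |D.kap j| * D.rt2 j + D.pz j * D.V j + (G * D.un j + G * D.N 1) +
        D.VV j + D.crude n3 j := by rw [Dat.eta0]; ring
    have y0 : 0 ≤ D.eta0 n3 G j := by linarith
    have y1 := mul_le_mul_of_nonneg_left (show D.crude n3 j ≤ D.eta0 n3 G j by linarith) a0
    have y2 := mul_le_mul_of_nonneg_left
      (show D.pz j * D.V j + D.ms ≤ D.eta0 n3 G j by linarith) b0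
    have y3 := mul_le_mul_of_nonneg_left
      (show |D.kap j| * D.rt2 j ≤ D.eta0 n3 G j by linarith) (sq_nonneg tb)
    have y4 := mul_le_mul_of_nonneg_left
      (show G * (D.un j + D.N 1) ≤ D.eta0 n3 G j by linarith) c0
    have y5 := mul_nonneg b0 y0
    have y6 := mul_nonneg (sq_nonneg tb) y0
    have y7 := mul_nonneg c0 y0
    refine ⟨?_, by linarith, y0⟩
    rw [abs_le] at h1 h4 h5 h6 ⊢
    rw [hC1]
    constructor <;> linarith [h1.1, h1.2, h4.1, h4.2, h5.1, h5.2, h6.1, h6.2]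
  intro j hj ht hm G hG
  obtain ⟨k1, k2, k3⟩ := key j hj ht hm G hG
  have n2 : 0 ≤ D.pz j * D.N 2 + D.low j := add_nonneg (mul_nonneg (pz_nonneg H hj.le)
    (N_nonneg H 2)) (Finset.sum_nonneg fun y _ => mul_nonneg (dm_nonneg H.mono y) (sq_nonneg _))
  refine ⟨?_, fun j' hj' hjj ht' hm' G' hG' => ?_⟩
  · have h1 : |Src D j| ≤ _ := abs_D2_le (mul_nonneg e0 n2) fun c d e f hcd hef =>
      (he _ D H c d e f hcd hef j hj).2.1
    have y1 := mul_nonneg e0 k3
    have y2 := mul_nonneg C0 n2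
    have y3 := mul_nonneg e0 n2
    rw [abs_le] at h1 k1 ⊢
    constructor <;> linarith [h1.1, h1.2, k1.1, k1.2]
  · obtain ⟨l1, -, l3⟩ := key j' hj' ht' hm' G' hG'
    have z0 : 0 ≤ D.clk2 j j' := add_nonneg (mul_nonneg (N_nonneg H 2) (by
      linarith [H.r1.tm_mono hjj.le, q_le H hjj.le hj'.le])) (Finset.sum_nonneg fun y _ =>
        mul_nonneg (dm_nonneg H.mono y) (sq_nonneg _))
    have x4 := (he _ D H 0 1 0 1 (by decide) (by decide) j hj).1
    have x3 : 0 ≤ G * D.N 1 := mul_nonneg hG.1 (N_nonneg H 1)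
    have h1 := abs_D2_le (mul_nonneg e0 (by linarith [H.ms0])) fun c d e f hcd hef =>
      (he _ D H c d e f hcd hef j hj).2.2 j' hj' hjj hm hm' G hG
    rw [D2_sub] at h1
    change |Src D j' - Src D j| ≤ _ at h1
    have y1 := mul_le_mul_of_nonneg_left k2 e0
    have y2 := mul_nonneg C0 z0
    have y3 := mul_nonneg e0 z0
    have y4 := mul_nonneg e0 k3
    have y5 := mul_nonneg e0 l3
    rw [abs_le] at h1 k1 l1 ⊢
    constructor <;> linarith [h1.1, h1.2, k1.1, k1.2, l1.1, l1.2]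

/-- **(E1)**, second form -/
theorem e1S2 (p : Bool) : E1S2 p :=
  e1S2_of p (Ea38.eaS p) Eb31.ebS Ec52.ecS (eeS2_of Ed43.edS Eb31.eiS)

end Crest.Agent.T156.Cas.E91
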