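import Crest.Agent.T156.ClE1_61
import Crest.Agent.T156.E2_91

/-!
# Row 156 (helper61): (E1) on the class without the label clock; sizes of the majorant
-/

set_option autoImplicit false
set_option linter.unusedSectionVars false

noncomputable section

namespace Crest.Agent.T156.Alt.E61

open MeasureTheory Real Set Filter Topology
open Crest.Agent.T157.E Crest.Agent.T157.Casc Crest.Agent.T157.SL
open Crest.Agent.T157.G1 (ov)
open Crest.Agent.T156.Cas Crest.Agent.T156.Cas.Sy41 Crest.Agent.T156.Cas.Q33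
open Crest.Agent.T156.Alt.Md67 Crest.Agent.T156.Alt.Mp9

variable {S : Sc} {M : Md} {m : ℕ} {a T ms : ℝ} {u : ℕ → ℝ}

theorem clk2_le (A : At S M m a T) (hu : Mj M m a u) {i j : ℕ} (hij : i < j) (hj : j ≤ S.Jp) :
    (eD M m a u ms).clk2 (i + 1) (j + 1) ≤
      (1 + 2 * S.C) * Nu M m a u 2 * (sb M m a (j + 1) - sb M m a (i + 1)) +
        ∑ k ∈ Finset.Ioo i j, M.dz m a k * u k ^ 2 := by
  have G := lg A
  have j1 := hj.trans_lt A.cl.i4
  have e : ∑ y ∈ Finset.Ioo (i + 1) (j + 1), dm (eD M m a u ms).L 0 y * (eD M m a u ms).un y ^ 2 =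
      ∑ k ∈ Finset.Ioo i j, M.dz m a k * u k ^ 2 := by
    rw [← Finset.map_add_right_Ioo, Finset.sum_map]
    exact Finset.sum_congr rfl fun k hk => by
      have := (Finset.mem_Ioo.1 hk).2
      show M.dz m a k * (eD M m a u ms).un (k + 1) ^ 2 = _
      rw [eD_un (by omega)]
  have := mul_le_mul_of_nonneg_left (rb_sub A hij.le) (Nu_nn G hu 2)
  rw [E91.Dat.clk2, e, N_eq G (top_cl A.cl) two_ne_zero, tm_eq G j1, tm_eq G (hij.trans j1),
    eD_q j1, eD_q (hij.trans j1)]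
  linarith

theorem low_eq {j : ℕ} (hj : j < M.N) :
    (eD M m a u ms).low (j + 1) = ∑ k ∈ Finset.range j, M.dz m a k * u k ^ 2 := by
  rw [E91.Dat.low, Finset.sum_range_succ', show (eD M m a u ms).un 0 = 0 from rfl,
    zero_pow two_ne_zero, mul_zero, add_zero]
  exact Finset.sum_congr rfl fun k hk => by
    rw [eD_un ((Finset.mem_range.1 hk).trans hj)]; rfl

/-- **(E1) on the class**, no label clock -/
def E1C2 (p : Bool) : Prop := ∀ tb : ℝ, ∃ C : ℝ, 0 ≤ C ∧ ∀ (S : Sc) (M : Md) (m : ℕ) (a T : ℝ)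
  (u : ℕ → ℝ) (ms : ℝ), At S M m a T → M.b ≤ tb → Mj M m a u → 0 < ms → ∀ i G, Tn S M m a u ms i G →
    |res M S m a T i| ≤ C * (en M m a u ms (n3 p M m a u ms i) G i +
      4 * r2 M m a i * |L0.Gd (lb M S m a T) (sb M m a (i + 1))| +
      (pb M m a ms i * Nu M m a u 2 + ∑ k ∈ Finset.range i, M.dz m a k * u k ^ 2)) ∧
    ∀ j G', Tn S M m a u ms j G' → i < j → |res M S m a T j - res M S m a T i| ≤
      C * (en M m a u ms (n3 p M m a u ms i) G i +
        4 * r2 M m a i * |L0.Gd (lb M S m a T) (sb M m a (i + 1))| +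
        (en M m a u ms (n3 p M m a u ms j) G' j +
        4 * r2 M m a j * |L0.Gd (lb M S m a T) (sb M m a (j + 1))|) +
        ((1 + 2 * S.C) * Nu M m a u 2 * (sb M m a (j + 1) - sb M m a (i + 1)) +
        ∑ k ∈ Finset.Ioo i j, M.dz m a k * u k ^ 2))

theorem e1C2 (p : Bool) : E1C2 p := fun tb => by
  obtain ⟨C, C0, h⟩ := E91.e1S2 p tb
  refine ⟨C, C0, fun S M m a T u ms A hb hu h0 i G Ti => ?_⟩
  have L := lg A
  have t := top_cl A.cl
  have h3 : ∀ k, (if p then (eD M m a u ms).N3p (k + 1) else (eD M m a u ms).N 3) ≤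
      n3 p M m a u ms k := fun k => by
    cases p
    · exact (N_eq L t (by decide : 3 ≠ 0)).le
    · exact N3p_le L t hu h0 k
  have K : ∀ k ≤ S.Jp, k + 1 < (eD M m a u ms).K := fun k hk => by
    rw [eD_K]; exact Nat.succ_lt_succ (hk.trans_lt A.cl.i4)
  obtain ⟨h1, h2⟩ := h m 1 _ _ _ _ _ _ L.m0 ((rf_rb L.m0 a).ook L.toLeg) (sl_cov L.m0)
    (eD M m a u ms) rfl (eD_ok L t hu h0 hb) (i + 1) (K i Ti.hi) (t_ne A Ti.hi) Ti.dz G Ti.gm
  have ei := eta0_le (u := u) A h0 Ti.lo Ti.hi Ti.dz (h3 i) G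
  refine ⟨?_, fun j G' Tj hij => ?_⟩
  · have i1 := Ti.hi.trans_lt A.cl.i4
    rw [res_eq A Ti.hi, N_eq L t two_ne_zero, low_eq i1] at h1
    have := mul_le_mul_of_nonneg_right (pz_le (u := u) L h0 i1) (Nu_nn L hu 2)
    exact h1.trans (mul_le_mul_of_nonneg_left (by linarith) C0)
  · have := h2 (j + 1) (K j Tj.hi) (Nat.succ_lt_succ hij) (t_ne A Tj.hi) Tj.dz G' Tj.gm
    rw [res_eq A Ti.hi, res_eq A Tj.hi] at this
    have ej := eta0_le (u := u) A h0 Tj.lo Tj.hi Tj.dz (h3 j) G'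
    have ck := clk2_le (ms := ms) A hu hij Tj.hi
    exact this.trans (mul_le_mul_of_nonneg_left (by linarith) C0)

/-! ### signs -/

theorem N3_nn (G : Lg M m a) (hu : Mj M m a u) (h0 : 0 < ms) (j : ℕ) : 0 ≤ N3 M m a u ms j :=
  Finset.sum_nonneg fun k _ => mul_nonneg (G.dz_nonneg k) (mul_nonneg (by
    split_ifs
    exacts [pb_nn G h0 k, zero_le_one]) (pow_nonneg (hu.u0 k).1 3))

theorem n3_nn (p : Bool) (G : Lg M m a) (hu : Mj M m a u) (h0 : 0 < ms) (j : ℕ) :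
    0 ≤ n3 p M m a u ms j := by
  cases p
  exacts [Nu_nn G hu 3, N3_nn G hu h0 j]

theorem VVn_nn (G : Lg M m a) (j : ℕ) : 0 ≤ VVn M m a j := Finset.sum_nonneg fun k _ =>
  mul_nonneg (G.dz_nonneg k) (Eg33.vt_nonneg Link33.wt1 _ _ _ _ _)

theorem en_nn (L : Lg M m a) (hu : Mj M m a u) (h0 : 0 < ms) {n G : ℝ} (hn : 0 ≤ n) (hG : 0 ≤ G)
    (k : ℕ) : 0 ≤ en M m a u ms n G k := by
  have := r2_nn (M := M) (m := m) (a := a) k
  have := Vn_nn (M := M) (m := m) (a := a) k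
  have := pb_nn L h0 k
  have := VVn_nn L k
  have := (hu.u0 k).1
  have := Nu_nn L hu 1
  have := Nu_nn L hu 2
  have := Nu_nn L hu 4
  unfold en; positivity

/-- **the field `e1` of `At.nodes`** and the absolute form, with majorants `e`, `o` of the node
errors; `Ω` majorises the label part of the clock -/
theorem e1_nodes (p : Bool) (tb : ℝ) : ∃ C : ℝ, 0 ≤ C ∧ ∀ (S : Sc) (M : Md) (m : ℕ) (a T : ℝ)
    (u : ℕ → ℝ) (ms : ℝ), At S M m a T → M.b ≤ tb → Mj M m a u → 0 < ms →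
    ∀ (Gn : ℕ → Prop) (U V : ℕ) (e o : ℕ → ℝ) (l0 : ℝ) (Ω : ℝ → ℝ),
      (∀ k, U ≤ k → k ≤ V → Gn k → ∃ G, Tn S M m a u ms k G ∧
        C * en M m a u ms (n3 p M m a u ms k) G k ≤ e k ∧ 4 * C * r2 M m a k ≤ o k) →
      C * ((1 + 2 * S.C) * Nu M m a u 2) ≤ l0 →
      (∀ k, U < k → k ≤ V → C * (M.dz m a k * u k ^ 2) ≤ Ω (M.z k) - Ω (M.z (k - 1))) →
      (∀ k, U ≤ k → k ≤ V → Gn k → 0 ≤ e k ∧ 0 ≤ o k ∧ |res M S m a T k| ≤
        e k + o k * |L0.Gd (lb M S m a T) (sb M m a (k + 1))| +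
        C * (pb M m a ms k * Nu M m a u 2 + ∑ y ∈ Finset.range k, M.dz m a y * u y ^ 2)) ∧
      ∀ i k, U ≤ i → i ≤ k → k ≤ V → Gn i → Gn k → |res M S m a T k - res M S m a T i| ≤
        e i + o i * |L0.Gd (lb M S m a T) (sb M m a (i + 1))| +
        (e k + o k * |L0.Gd (lb M S m a T) (sb M m a (k + 1))|) +
        (l0 * (sb M m a (k + 1) - sb M m a (i + 1)) + (Ω (M.z k) - Ω (M.z i))) := by
  obtain ⟨C, C0, h⟩ := e1C2 p tb
  refine ⟨C, C0, fun S M m a T u ms A hb hu h0 Gn U V e o l0 Ω hn hl hΩ => ?_⟩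
  have L := lg A
  have nn : ∀ k, U ≤ k → k ≤ V → Gn k → 0 ≤ e k ∧ 0 ≤ o k := fun k h1 h2 g => by
    obtain ⟨G, t, a1, a2⟩ := hn k h1 h2 g
    exact ⟨(mul_nonneg C0 (en_nn L hu h0 (n3_nn p L hu h0 k) t.gm.1 k)).trans a1,
      (mul_nonneg (by positivity) (r2_nn k)).trans a2⟩
  refine ⟨fun k h1 h2 g => ⟨(nn k h1 h2 g).1, (nn k h1 h2 g).2, ?_⟩, fun i k h1 h2 h3 gi gk => ?_⟩
  · obtain ⟨G, t, a1, a2⟩ := hn k h1 h2 g
    have := (h S M m a T u ms A hb hu h0 k G t).1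
    have := mul_le_mul_of_nonneg_right a2 (abs_nonneg (L0.Gd (lb M S m a T) (sb M m a (k + 1))))
    linarith
  rcases h2.eq_or_lt with rfl | c
  · obtain ⟨a1, a2⟩ := nn i h1 h3 gi
    simp only [sub_self, abs_zero, mul_zero, add_zero]
    positivity
  obtain ⟨G, t, a1, a2⟩ := hn i h1 (h2.trans h3) gi
  obtain ⟨G', t', b1, b2⟩ := hn k (h1.trans h2) h3 gk
  have k0 := (h S M m a T u ms A hb hu h0 i G t).2 k G' t' c
  have k1 := mul_le_mul_of_nonneg_right a2 (abs_nonneg (L0.Gd (lb M S m a T) (sb M m a (i + 1))))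
  have k2 := mul_le_mul_of_nonneg_right b2 (abs_nonneg (L0.Gd (lb M S m a T) (sb M m a (k + 1))))
  have k3 := mul_le_mul_of_nonneg_right hl (sub_nonneg.2 (A.sb_mono (Nat.succ_le_succ h2)))
  have k4 : ∀ j, i ≤ j → j ≤ V →
      C * ∑ y ∈ Finset.Ioc i j, M.dz m a y * u y ^ 2 ≤ Ω (M.z j) - Ω (M.z i) := fun j hj => by
    induction j, hj using Nat.le_induction with
    | base => simp
    | succ j hj ih =>
      intro hV
      have := hΩ (j + 1) (by omega) hV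
      rw [Nat.add_sub_cancel] at this
      rw [Finset.sum_Ioc_succ_top hj, mul_add]
      linarith [ih (by omega)]
  have k5 : ∑ y ∈ Finset.Ioo i k, M.dz m a y * u y ^ 2 ≤ ∑ y ∈ Finset.Ioc i k, M.dz m a y * u y ^ 2 :=
    Finset.sum_le_sum_of_subset_of_nonneg Finset.Ioo_subset_Ioc_self fun y _ _ =>
      mul_nonneg (L.dz_nonneg y) (sq_nonneg _)
  have k6 := mul_le_mul_of_nonneg_left k5 C0
  linarith [k4 k h2 h3]

/-! ### the exact `L⁴` norm -/

/-- `‖R - rb k‖₄` -/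
def u4 (M : Md) (m : ℕ) (a : ℝ) (k : ℕ) : ℝ := √(√(M.E2 m a (fun r => (r - M.rb m a k) ^ 4) k))

/-- `E (R - rb k)²` -/
def U2 (M : Md) (m : ℕ) (a : ℝ) (k : ℕ) : ℝ := M.E2 m a (fun r => (r - M.rb m a k) ^ 2) k

theorem u4_nn (k : ℕ) : 0 ≤ u4 M m a k := sqrt_nonneg _

theorem u4_pow (k : ℕ) : u4 M m a k ^ 4 = M.E2 m a (fun r => (r - M.rb m a k) ^ 4) k := by
  rw [show u4 M m a k ^ 4 = (u4 M m a k ^ 2) ^ 2 by ring, u4, sq_sqrt (sqrt_nonneg _),
    sq_sqrt (E2_nonneg (fun _ _ => by positivity) k)]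

theorem u4_le {k : ℕ} {b : ℝ} (hb : 0 ≤ b)
    (h : M.E2 m a (fun r => (r - M.rb m a k) ^ 4) k ≤ b ^ 4) : u4 M m a k ≤ b :=
  le_of_pow_le_pow_left₀ (by decide : 4 ≠ 0) hb ((u4_pow k).trans_le h)

theorem mj_u4 (hm : 0 < m) : Mj M m a (u4 M m a) := by
  refine ⟨fun k => ⟨u4_nn k, u4_le zero_le_two (E2_le (fun r hr => ?_) k)⟩,
    fun k _ => (u4_pow k).ge⟩
  have := abs_le.1 hr
  have := rb_nonneg (M := M) (a := a) hm k
  have := rb_le_one (M := M) (a := a) hm k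
  rw [← Even.pow_abs (by decide)]
  exact pow_le_pow_left₀ (abs_nonneg _) (abs_le.2 ⟨by linarith, by linarith⟩) _

theorem U2_nn (k : ℕ) : 0 ≤ U2 M m a k := E2_nonneg (fun _ _ => sq_nonneg _) k

/-- Jensen -/
theorem E2_sq_le (f : ℝ → ℝ) (k : ℕ) : M.E2 m a f k ^ 2 ≤ M.E2 m a (fun r => f r ^ 2) k := by
  have h := E2_nonneg (M := M) (m := m) (a := a) (f := fun r => (f r - M.E2 m a f k) ^ 2)
    (fun _ _ => sq_nonneg _) k
  rw [show (fun r => (f r - M.E2 m a f k) ^ 2) =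
    fun r => (f r ^ 2 - 2 * M.E2 m a f k * f r) + M.E2 m a f k ^ 2 from funext fun r => by ring,
    E2_add, E2_sub, E2_mul, E2_const] at h
  nlinarith

theorem U2_le {k : ℕ} (hu : Mj M m a u) (hk : k < M.N) : U2 M m a k ≤ u k ^ 2 := by
  have := (E2_sq_le (M := M) (m := m) (a := a) (fun r => (r - M.rb m a k) ^ 2) k)
  simp only [← pow_mul] at this
  refine le_of_pow_le_pow_left₀ two_ne_zero (sq_nonneg _) ?_
  rw [← pow_mul]
  exact this.trans (hu.mom k hk)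

theorem U2_eq (hm : 0 < m) (k : ℕ) : U2 M m a k = r2 M m a k + Vn M m a k := by
  have := Eg33.V_eq Link33.wt1 (M.L m a) (sl m) 0 (k + 1) (M.rb m a k)
  simp only [sl_cov hm, ← rh_eq (sl_cov hm)] at this
  rw [U2, r2, Vn, ← this, Md.E2]; ring

theorem r2_le (hm : 0 < m) (k : ℕ) : r2 M m a k ≤ U2 M m a k := by
  rw [U2_eq hm]; exact le_add_of_nonneg_right (Vn_nn k)

theorem Vn_le (hm : 0 < m) (k : ℕ) : Vn M m a k ≤ U2 M m a k := by
  rw [U2_eq hm]; exact le_add_of_nonneg_left (r2_nn k)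

/-- any centre -/
theorem u4_le_c {k : ℕ} {b c : ℝ} (hb : 0 ≤ b)
    (h : M.E2 m a (fun r => (r - c) ^ 4) k ≤ b ^ 4) : |M.rb m a k - c| ≤ b ∧ u4 M m a k ≤ 2 * b := by
  have h1 := E2_sq_le (M := M) (m := m) (a := a) (fun r => (r - c) ^ 2) k
  simp only [← pow_mul] at h1
  have h2 : (M.rb m a k - c) ^ 4 ≤ b ^ 4 := by
    have := pow_le_pow_left₀ (sq_nonneg _) (sq_le_E2 (M := M) (m := m) (a := a) c k) 2
    rw [← pow_mul] at this
    exact this.trans (h1.trans h)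
  refine ⟨le_of_pow_le_pow_left₀ (by decide : 4 ≠ 0) hb (by rwa [Even.pow_abs (by decide)]),
    u4_le (by positivity) ?_⟩
  have h3 := E2_mono (M := M) (m := m) (a := a) (f := fun r => (r - M.rb m a k) ^ 4)
    (g := fun r => 8 * (r - c) ^ 4 + 8 * b ^ 4) (fun r _ => by
      have e : r - M.rb m a k = (r - c) - (M.rb m a k - c) := by ring
      rw [e]
      generalize r - c = x at *
      generalize M.rb m a k - c = y at *
      nlinarith [sq_nonneg (x ^ 2 - y ^ 2), sq_nonneg ((x + y) ^ 2), sq_nonneg (x + y),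
        mul_nonneg (sq_nonneg (x + y)) (sq_nonneg (x - y))]) k
  rw [E2_add, E2_mul, E2_const] at h3
  nlinarith

/-- Hölder between `L²` and `L⁶` -/
theorem u4_sq_le {k : ℕ} {b l : ℝ} (hb : 0 < b) (hl : 0 < l)
    (h : M.E2 m a (fun r => (r - M.rb m a k) ^ 6) k ≤ b ^ 6) :
    u4 M m a k ^ 2 ≤ l ^ 3 * U2 M m a k + b ^ 2 / l := by
  have A0 := U2_nn (M := M) (m := m) (a := a) k
  set R := l ^ 3 * U2 M m a k + b ^ 2 / l with hR
  have p1 : 0 < b ^ 2 / l := by positivity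
  have p2 : 0 ≤ l ^ 3 * U2 M m a k := by positivity
  have R0 : 0 < R := by linarith
  have s0 : 0 < l ^ 3 * R := by positivity
  have h3 := E2_mono (M := M) (m := m) (a := a) (f := fun r => (r - M.rb m a k) ^ 4)
    (g := fun r => l ^ 3 * R / 2 * (r - M.rb m a k) ^ 2 + 1 / (2 * (l ^ 3 * R)) * (r - M.rb m a k) ^ 6)
    (fun r _ => by
      generalize r - M.rb m a k = x
      generalize l ^ 3 * R = s at *
      have : s / 2 * x ^ 2 + 1 / (2 * s) * x ^ 6 - x ^ 4 = (s * x - x ^ 3) ^ 2 / (2 * s) := by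
        field_simp; ring
      have : 0 ≤ (s * x - x ^ 3) ^ 2 / (2 * s) := by positivity
      linarith) k
  rw [E2_add, E2_mul, E2_mul, ← u4_pow] at h3
  have q1 : l ^ 3 * R / 2 * U2 M m a k ≤ R ^ 2 / 2 := by nlinarith
  have q2 : b ^ 6 ≤ l ^ 3 * R * R ^ 2 := by
    have := pow_le_pow_left₀ p1.le (show b ^ 2 / l ≤ R by linarith) 3
    rw [div_pow, div_le_iff₀ (by positivity)] at this
    nlinarith
  have q3 : 1 / (2 * (l ^ 3 * R)) * M.E2 m a (fun r => (r - M.rb m a k) ^ 6) k ≤ R ^ 2 / 2 := by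
    rw [one_div_mul_eq_div, div_le_iff₀ (by positivity)]
    nlinarith
  refine le_of_pow_le_pow_left₀ two_ne_zero R0.le ?_
  change _ ≤ l ^ 3 * R / 2 * U2 M m a k + _ at h3
  rw [show (u4 M m a k ^ 2) ^ 2 = u4 M m a k ^ 4 by ring]
  linarith

/-! ### sums -/

theorem dz_hi (h : Cl S M) {k : ℕ} (hk : S.Jp < k) : M.dz m a k = 0 := by
  rw [dz_up h.leg (by omega), h.top k hk.le, h.top (k - 1) (by omega), sub_self]

theorem dz_low (h : Cl S M) {k : ℕ} (h0 : 0 < k) (hk : k ≤ S.j0) : M.dz m a k = 0 := by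
  rw [dz_up h.leg h0, h.low k hk, h.low (k - 1) (by omega), sub_self]

/-- only the root node and the nodes of `(j0, Jp]` carry weight -/
theorem sum_N (h : Cl S M) (g : ℕ → ℝ) : ∑ k ∈ Finset.range M.N, M.dz m a k * g k =
    M.dz m a 0 * g 0 + ∑ k ∈ Finset.Ioc S.j0 S.Jp, M.dz m a k * g k := by
  have i4 := h.i4
  rw [← Finset.sum_insert (f := fun k => M.dz m a k * g k) (by simp)]
  refine (Finset.sum_subset (fun k hk => ?_) fun k _ hk => ?_).symm
  · simp only [Finset.mem_insert, Finset.mem_Ioc, Finset.mem_range] at hk ⊢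
    omega
  · simp only [Finset.mem_insert, Finset.mem_Ioc, not_or, not_and_or, not_lt, not_le] at hk
    rcases hk.2 with c | c
    · rw [dz_low h (by omega) c, zero_mul]
    · rw [dz_hi h c, zero_mul]

theorem Nu_one_sq (G : Lg M m a) : Nu M m a u 1 ^ 2 ≤ Nu M m a u 2 := by
  have h := Finset.sum_mul_sq_le_sq_mul_sq (Finset.range M.N) (fun k => √(M.dz m a k))
    fun k => √(M.dz m a k) * u k
  simp only [mul_pow, sq_sqrt (G.dz_nonneg _), ← mul_assoc, mul_self_sqrt (G.dz_nonneg _)] at h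
  have h1 := G.sum_dz_le (Finset.range M.N)
  have h2 : 0 ≤ Nu M m a u 2 := Finset.sum_nonneg fun k _ => mul_nonneg (G.dz_nonneg k) (sq_nonneg _)
  simp only [Nu, pow_one]
  exact h.trans (mul_le_of_le_one_left h2 (by linarith [G.a0]))

theorem Nu_add_le (G : Lg M m a) (hu : Mj M m a u) {B : ℝ}
    (hB : ∀ k < M.N, M.dz m a k ≠ 0 → u k ≤ B) (i j : ℕ) :
    Nu M m a u (i + j) ≤ B ^ j * Nu M m a u i := by
  rw [Nu, Nu, Finset.mul_sum]
  refine Finset.sum_le_sum fun k hk => ?_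
  rcases eq_or_ne (M.dz m a k) 0 with e | e
  · simp [e]
  · have := mul_le_mul_of_nonneg_left (pow_le_pow_left₀ (hu.u0 k).1 (hB k (Finset.mem_range.1 hk) e) j)
      (mul_nonneg (G.dz_nonneg k) (pow_nonneg (hu.u0 k).1 i))
    rw [pow_add]
    linarith

theorem pb_le' (G : Lg M m a) {k : ℕ} (hk : k ≤ M.N) :
    pb M m a ms k ≤ 2600 * (M.b * M.rb m a k + M.H k + ms) + M.rb m a k + M.z k := by
  have h1 := min_le_right 1 (2600 * (sb M m a (k + 1) + ms))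
  have h2 : kp m * M.d k ≤ M.b :=
    (mul_le_of_le_one_left (d_nonneg G.toLeg k) (kp_mem m).2).trans (d_le_b G.toLeg hk)
  have h3 := mul_le_mul_of_nonneg_right h2 (rb_nonneg (M := M) (a := a) G.m0 k)
  simp only [pb, sb] at h1 ⊢
  linarith

/-- `N3` split at the test node -/
theorem N3_eq {j : ℕ} (hj : j ≤ M.N) : N3 M m a u ms j =
    ∑ k ∈ Finset.range j, M.dz m a k * (pb M m a ms k * u k ^ 3) +
      ∑ k ∈ Finset.Ico j M.N, M.dz m a k * u k ^ 3 := by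
  rw [N3, ← Finset.sum_range_add_sum_Ico _ hj]
  congr 1
  · exact Finset.sum_congr rfl fun k hk => by rw [if_pos (Finset.mem_range.1 hk)]
  · exact Finset.sum_congr rfl fun k hk => by
      rw [if_neg (not_lt.2 (Finset.mem_Ico.1 hk).1), one_mul]

/-- **layer cake**: `u ≤ α i + e i` for every `i < I`, `u ≤ 2 α I` -/
theorem cake {ι : Type} (s : Finset ι) {w u : ι → ℝ} {α B : ℕ → ℝ} {e : ℕ → ι → ℝ} {I : ℕ} {X : ℝ}
    (hw : ∀ k ∈ s, 0 ≤ w k) (h0 : ∀ k ∈ s, 0 ≤ u k) (hα : ∀ i, 0 < α i)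
    (hX : ∑ k ∈ s, w k ≤ X) (hu : ∀ k ∈ s, ∀ i < I, u k ≤ α i + e i k)
    (hI : ∀ k ∈ s, u k ≤ 2 * α I) (hB : ∀ i < I, ∑ k ∈ s, w k * e i k ^ 2 ≤ B i) (p : ℕ) :
    ∑ k ∈ s, w k * u k ^ p ≤
      (2 * α 0) ^ p * X + ∑ i ∈ Finset.range I, (2 * α (i + 1)) ^ p / α i ^ 2 * B i := by
  have c0 : ∀ i, 0 ≤ (2 * α (i + 1)) ^ p / α i ^ 2 := fun i => by
    have := hα (i + 1); positivity
  have key : ∀ k ∈ s, u k ^ p ≤
      (2 * α 0) ^ p + ∑ i ∈ Finset.range I, (2 * α (i + 1)) ^ p / α i ^ 2 * e i k ^ 2 := by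
    intro k hk
    have ex : ∃ i, u k ≤ 2 * α i := ⟨I, hI k hk⟩
    have n0 : 0 ≤ ∑ i ∈ Finset.range I, (2 * α (i + 1)) ^ p / α i ^ 2 * e i k ^ 2 :=
      Finset.sum_nonneg fun i _ => mul_nonneg (c0 i) (sq_nonneg _)
    have a1 := Nat.find_spec ex
    have a2 : Nat.find ex ≤ I := Nat.find_min' ex (hI k hk)
    rcases hj : Nat.find ex with _ | j
    · rw [hj] at a1
      exact (pow_le_pow_left₀ (h0 k hk) a1 p).trans (le_add_of_nonneg_right n0)
    · rw [hj] at a1 a2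
      have a3 := not_le.1 (Nat.find_min ex (show j < Nat.find ex by omega))
      have a4 := hu k hk j (by omega)
      have a5 : α j ^ 2 ≤ e j k ^ 2 := pow_le_pow_left₀ (hα j).le (by linarith) 2
      have a6 : (2 * α (j + 1)) ^ p ≤ (2 * α (j + 1)) ^ p / α j ^ 2 * e j k ^ 2 := by
        have := mul_le_mul_of_nonneg_left a5 (c0 j)
        rwa [div_mul_cancel₀ _ (pow_pos (hα j) 2).ne'] at this
      have a7 := Finset.single_le_sum (f := fun i => (2 * α (i + 1)) ^ p / α i ^ 2 * e i k ^ 2)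
        (fun i _ => mul_nonneg (c0 i) (sq_nonneg _)) (Finset.mem_range.2 (show j < I by omega))
      have a8 : 0 ≤ (2 * α 0) ^ p := by have := hα 0; positivity
      linarith [pow_le_pow_left₀ (h0 k hk) a1 p]
  refine (Finset.sum_le_sum fun k hk => mul_le_mul_of_nonneg_left (key k hk) (hw k hk)).trans ?_
  simp only [mul_add, Finset.sum_add_distrib, Finset.mul_sum]
  rw [← Finset.sum_mul, Finset.sum_comm, mul_comm]
  refine add_le_add (mul_le_mul_of_nonneg_left hX (by have := hα 0; positivity))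
    (Finset.sum_le_sum fun i hi => ?_)
  refine le_trans (le_of_eq ?_) (mul_le_mul_of_nonneg_left (hB i (Finset.mem_range.1 hi)) (c0 i))
  rw [Finset.mul_sum]
  exact Finset.sum_congr rfl fun _ _ => by ring

end Crest.Agent.T156.Alt.E61

end
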