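import Crest.Agent.T156.LDef_69
import Crest.Agent.T156.ClTh_9
import Crest.Agent.T156.ClE1b_61

/-!
# Row 156, block (L): the thick levels (TL2), statements of the pieces (helper63)

`TL2x` is `TL2` on the numbers `LT2`.  It follows from `TkA` (sup location from the `H⁻¹` size),
`TkE` (energy above one lower cut) and an elementary closing argument.  `TkA` follows from `NdT`
(good nodes).
-/

set_option autoImplicit false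

noncomputable section

namespace Crest.Agent.T156.Alt.L63

open MeasureTheory Real Finset
open Crest.Agent.T156.Alt.L69 Crest.Agent.T156.Alt.Mp9

/-- `|J t| + ∫ |J|` -/
abbrev Hq (S : Sc) (M : Md) (m : ℕ) (a t : ℝ) : ℝ :=
  Rig.Hp (lh M (2 * S.C)) (lb M S m a (2 * S.C)) t
/-- the tail integral -/
abbrev Jq (S : Sc) (M : Md) (m : ℕ) (a t : ℝ) : ℝ :=
  Sc48.Jf (lh M (2 * S.C)) (lb M S m a (2 * S.C)) (2 * S.C) t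
/-- `zb - zh` -/
abbrev uq (S : Sc) (M : Md) (m : ℕ) (a t : ℝ) : ℝ := uu M S m a (2 * S.C) t

/-- numbers of the thick zone `[l, tu]`: `g t` bounds the residual below the level `4 t` -/
structure LT2 (E : ℝ) (S : Sc) (M : Md) (l0 l X Xp Lg X2 X4 : ℝ) (g : ℝ → ℝ)
    (t1 tu ℓ N En p0 : ℝ) (η : ℝ → ℝ) : Prop where
  F1 : S.F = 1
  l2 : 2 * l0 ≤ l
  g0 : ∀ t, 0 ≤ g t
  g1 : ∀ t k, S.jl < k → k < S.J → l ≤ M.s k → M.s k ≤ 4 * t → M.s k + ℓ / 8 ≤ tu →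
    |M.G k| ≤ g t
  g2 : ∀ t, l ≤ t → t ≤ tu → E * g t ≤ S.ms t ^ ((3 : ℝ) / 2)
  gl : l ^ 3 * GS M S 0 (2 * l) ≤ En
  lX : E * X ^ ((1 : ℝ) / 3) ≤ l
  Lg3 : E * X ^ ((1 : ℝ) / 3) ≤ Lg * ℓ
  ml : ∀ t, l ≤ t → t ≤ S.C → E * √(S.ms t) ≤ t
  ℓ1 : E * √S.θ ≤ ℓ
  ℓ2 : E * ℓ ≤ tu
  tu1 : tu ≤ M.s S.J
  t1a : 2 * l ≤ t1
  t1b : E * t1 ≤ tu
  t1c : E * X ≤ t1 ^ 4
  x4 : L4 S (X ^ ((1 : ℝ) / 3)) X (t1 / 2) S.C X4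
  en : cB M S η (t1 / 2) S.C + X2 ^ 2 + X4 + N + l ^ 3 * X +
    (S.ms t1 * bs S Lg X2 (g t1) η t1) ^ 2 / t1 ≤ En
  pa : √(En / tu) + √En + ∑ k ∈ (Ioo S.jl S.J).filter fun k => l ≤ M.s k ∧ M.s k ≤ tu,
    dx M k * bs S Lg X2 (g (M.s k)) η (M.s k) ≤ p0
  pc : E * p0 ≤ l ∧ E * p0 ≤ ℓ

/-- the location at the top of the thick zone is finer than `ℓ` -/
def TP (E : ℝ) (S : Sc) (M : Md) (X Xp t1 tu ℓ En p0 : ℝ) : Prop :=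
  E * X ≤ ℓ ^ 3 ∨ (tu = M.s S.J ∧ E * Xp ≤ ℓ ^ 3) ∨ E * (En + t1 * p0 ^ 2) ≤ S.ms tu * ℓ ^ 3

/-- all the hypotheses of (TL2) -/
structure Hy (E : ℝ) (S : Sc) (M : Md) (m : ℕ) (a G1 u1 u2 j γ Lc ηc τ l0 l X Xp Vt Lg Lp X2 X3 X4
    G0 : ℝ) (η : ℝ → ℝ) (N : ℝ) (g : ℝ → ℝ) (t1 tu ℓ En p0 : ℝ) : Prop where
  ce : CeiG S M G1
  ln : LN E S M l0 l (X ^ ((1 : ℝ) / 3)) X Lg X2 X3 G0 η
  lp : LP E S M Xp Vt Lg Lp X2 X3 G0 G1 u1 u2 j γ Lc ηc τ η N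
  ap : Ap S M m a l0 X Xp Vt u1 j
  lt : LT2 E S M l0 l X Xp Lg X2 X4 g t1 tu ℓ N En p0 η
  jg : E * (j + γ) ≤ Lg * ℓ

/-- **(TL2x)** thick levels: sup location up to `tu - ℓ`, energy above the cut -/
def TL2x : Prop := CL fun E Λ S M m a =>
  ∀ G1 u1 u2 j γ Lc ηc τ l0 l X Xp Vt Lg Lp X2 X3 X4 G0 η N g t1 tu ℓ En p0,
  Hy E S M m a G1 u1 u2 j γ Lc ηc τ l0 l X Xp Vt Lg Lp X2 X3 X4 G0 η N g t1 tu ℓ En p0 →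
  TP E S M X Xp t1 tu ℓ En p0 →
    (∀ k, 2 * l ≤ M.s k → M.s k + ℓ ≤ tu →
      |M.del m a k| ≤ Λ * (p0 + bs S Lg X2 (g (M.s k)) η (M.s k))) ∧
    LO Λ S M m a (2 * t1) u2 (En + t1 * p0 ^ 2)

/-- **(TL2y)** the same below any located node, with the `H⁻¹` sizes; no `TP` -/
def TL2y : Prop := CL fun E Λ S M m a =>
  ∀ G1 u1 u2 j γ Lc ηc τ l0 l X Xp Vt Lg Lp X2 X3 X4 G0 η N g t1 tu ℓ En p0,
  Hy E S M m a G1 u1 u2 j γ Lc ηc τ l0 l X Xp Vt Lg Lp X2 X3 X4 G0 η N g t1 tu ℓ En p0 →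
    LO Λ S M m a (2 * t1) u2 (En + t1 * p0 ^ 2) ∧
    ∫ t in (0 : ℝ)..2 * S.C, |Jq S M m a t| ≤ Λ * p0 ∧
    ∫ t in 2 * t1..2 * S.C, Jq S M m a t ^ 2 ≤ Λ * (En + t1 * p0 ^ 2) ∧
    ∀ V, M.s V + ℓ / 4 ≤ tu → sb M m a (V + 1) + ℓ / 4 ≤ tu → tu / 16 ≤ sb M m a (V + 1) →
      ∀ t, 7 / 4 * l ≤ t → t + Λ * √S.θ ≤ sb M m a (V + 1) → Hq S M m a t ≤ Λ * p0 ∧
        ∀ t', l ≤ t' → t' ≤ tu → t' ≤ 2 * t → t ≤ 2 * t' →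
          |uq S M m a t| ≤ Λ * (p0 + bs S Lg X2 (g t') η t')

/-- **(A)** sup location from the `H⁻¹` size, below a located node `V` -/
def TkA : Prop := CL fun E Λ S M m a =>
  ∀ G1 u1 u2 j γ Lc ηc τ l0 l X Xp Vt Lg Lp X2 X3 X4 G0 η N g t1 tu ℓ En p0,
  Hy E S M m a G1 u1 u2 j γ Lc ηc τ l0 l X Xp Vt Lg Lp X2 X3 X4 G0 η N g t1 tu ℓ En p0 →
  ∀ p x y V, 3 / 2 * l ≤ x → M.s V + ℓ / 4 ≤ tu → sb M m a (V + 1) + ℓ / 4 ≤ tu →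
    y ≤ sb M m a (V + 1) → (∀ t, x ≤ t → t ≤ y → Hq S M m a t ≤ p) →
    ∀ t, x + Λ * √(S.ms t) ≤ t → t + Λ * √(S.ms t) ≤ y →
    ∀ t', l ≤ t' → t' ≤ tu → t' ≤ 2 * t → t ≤ 2 * t' →
      |uq S M m a t| ≤ Λ * (p + bs S Lg X2 (g t') η t')

/-- **(B)** the energy above one lower cut in `[t1, 2 t1]` -/
def TkE : Prop := CL fun E Λ S M m a =>
  ∀ G1 u1 u2 j γ Lc ηc τ l0 l X Xp Vt Lg Lp X2 X3 X4 G0 η N g t1 tu ℓ En p0,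
  Hy E S M m a G1 u1 u2 j γ Lc ηc τ l0 l X Xp Vt Lg Lp X2 X3 X4 G0 η N g t1 tu ℓ En p0 →
  ∀ D ε, (∀ t, t1 ≤ t → t ≤ 2 * t1 → |uq S M m a t| ≤ D ∧ Hq S M m a t ≤ D) →
    ∫ t in (0 : ℝ)..2 * t1, |Jq S M m a t| ≤ ε →
    ∫ t in 2 * t1..2 * S.C, Jq S M m a t ^ 2 ≤ Λ * (En + (S.ms t1 * D) ^ 2 / t1 + ε ^ 2) ∧
      LO Λ S M m a (2 * t1) u2 (En + (S.ms t1 * D) ^ 2 / t1 + ε ^ 2)

/-- good nodes on `[U, V]`, numbers read at the lower node -/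
structure Nt (E Λ : ℝ) (S : Sc) (M : Md) (m : ℕ) (a Lg X X2 : ℝ) (η : ℝ → ℝ) (Gn : ℕ → Prop)
    (U V : ℕ) : Prop where
  /-- (E1), difference form -/
  e1 : ∀ i k, U ≤ i → i ≤ k → k ≤ V → Gn i → Gn k →
    |res M S m a (2 * S.C) k - res M S m a (2 * S.C) i| ≤ Λ * (η (M.s i) + uw S Lg (M.s i) ^ 2 *
      (|L0.Gd (lb M S m a (2 * S.C)) (sb M m a (i + 1))| +
        |L0.Gd (lb M S m a (2 * S.C)) (sb M m a (k + 1))|) +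
      X2 * (sb M m a (k + 1) - sb M m a (i + 1)) +
      ∑ y ∈ Ioo i k, M.dz m a y * E61.u4 M m a y ^ 2)
  /-- sizes at good nodes and in the gaps -/
  u4 : ∀ i k y, Nx Gn U V i k → i ≤ y → y ≤ k →
    E61.u4 M m a y ≤ Λ * (uw S Lg (M.s i) + (sb M m a (k + 1) - sb M m a (i + 1)))
  gap : ∀ i k, Nx Gn U V i k →
    M.z k ≤ M.z i + (S.C * S.v + Λ / Lg * (sb M m a (k + 1) - sb M m a (i + 1)))
  /-- every long label window contains a good node -/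
  ex : ∀ p q, U ≤ p → p ≤ q → q ≤ V → Λ * (X ^ ((1 : ℝ) / 3) / Lg + S.v) ≤ M.z q - M.z p →
    ∃ i, p ≤ i ∧ i ≤ q ∧ Gn i
  /-- short gaps -/
  sh : ∀ i k, Nx Gn U V i k →
    E * (sb M m a (k + 1) - sb M m a (i + 1)) ^ 6 ≤ Λ * S.ms (M.s i) ^ 3

/-- **good nodes of the thick levels** -/
def NdT : Prop := CL fun E Λ S M m a =>
  ∀ G1 u1 u2 j γ Lc ηc τ l0 l X Xp Vt Lg Lp X2 X3 X4 G0 η N g t1 tu ℓ En p0,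
  Hy E S M m a G1 u1 u2 j γ Lc ηc τ l0 l X Xp Vt Lg Lp X2 X3 X4 G0 η N g t1 tu ℓ En p0 →
  ∃ Gn : ℕ → Prop, ∀ U V, 5 / 4 * l ≤ M.s U → M.s V + ℓ / 5 ≤ tu →
    Nt E Λ S M m a Lg X X2 η Gn U V

end Crest.Agent.T156.Alt.L63

end
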