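import Crest.Agent.T156.R1Gx_79
import Crest.Agent.T156.TL2D_63
import Crest.Agent.T156.SrNB_66

/-!
# Row 156 (helper38): the residual on the sloped nodes of the graded members, for `LT2`
-/

set_option autoImplicit false
set_option linter.unusedSectionVars false

noncomputable section

namespace Crest.Agent.T156.Alt.Lt38

open Real Finset Plt13 Mem37 R77 Gx79
open Crest.Agent.T156.Alt.L69 (GS dx)

variable {β c0 C0 c0' C0' η' : ℝ} {A : ℕ} {c η K K' : ℝ} {p : Pm} {σ σ' : ℝ} {Q : Pl}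

/-- the level below which the residual vanishes -/
def tz (K : ℝ) : ℝ := 1 / (6 * (8 * K ^ 2) ^ 3)

open Classical in
/-- the level-wise bound of the residual: `0` below `tz`, `gT` above -/
def gL (K gT t : ℝ) : ℝ := if 4 * t ≤ tz K then 0 else gT

theorem gL_nn {gT : ℝ} (h : 0 ≤ gT) (t : ℝ) : 0 ≤ gL K gT t := by
  unfold gL; split_ifs <;> simp [h]

theorem gL_le {gT : ℝ} (h : 0 ≤ gT) (t : ℝ) : gL K gT t ≤ gT := by
  unfold gL; split_ifs <;> simp [h]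

theorem gL_lo {gT t : ℝ} (h : 4 * t ≤ tz K) : gL K gT t = 0 := if_pos h

theorem G_lo (D : GrD K' c0' C0' η' p σ σ' Q) {k : ℕ} (hk : (p.scG K' σ σ' Q).jl < k)
    (hs : (p.gst Q σ').s k ≤ tz K') : (p.gst Q σ').G k = 0 :=
  glo D (L := 6 * (8 * K' ^ 2) ^ 3) le_rfl k hk hs

theorem GS_lo (D : GrD K' c0' C0' η' p σ σ' Q) {t t' : ℝ} (h : t' ≤ tz K') :
    GS (p.gst Q σ') (p.scG K' σ σ' Q) t t' = 0 :=
  sum_eq_zero fun k hk => by
    obtain ⟨a, b⟩ := mem_filter.1 hk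
    rw [G_lo D (mem_Ioo.1 a).1 (b.2.trans h)]
    ring

theorem xP_eq (D : GrD K' c0' C0' η' p σ σ' Q) {k : ℕ} (hk : p.jf < k) (hJ : k ≤ p.J) :
    p.xP Q k = (p.gst Q σ').z (k - 1) := by
  have i3 : p.J ≤ p.Jp Q := D.cl.1.i3
  rw [Pm.xP, min_eq_left (hJ.trans i3), gst_z p Q σ' (by omega)]

theorem xs_eq (D : GrD K' c0' C0' η' p σ σ' Q) : p.xs = (p.gst Q σ').z (p.J - 1) := by
  have i2 : p.jf + 1 < p.J := D.cl.1.i2
  rw [gst_z p Q σ' (by omega), Pm.zP, if_pos (by omega), Pm.xs]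

variable (H : Reg β c0 C0 A c η K p) (o : p.OctR σ σ') (D : GrD K' c0' C0' η' p σ σ' Q)
  (X : p.PlX σ σ' Q)
include H o D X

/-- all the sloped nodes -/
theorem G_all {k : ℕ} (hk : (p.scG K' σ σ' Q).jl < k) (hJ : k ≤ (p.scG K' σ σ' Q).J) :
    |(p.gst Q σ').G k| ≤ 2 * (p.muG σ' * u0 p (p.mt (p.muG σ))) +
      4 * (p.muG σ' * K' * p.laG σ) := by
  have Y := xk_of H o D X
  have E := D.memD
  change p.jf < k at hk
  change k ≤ p.J at hJ
  rw [G_hs _ _ _ hk]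
  refine hs_lo Y D.nb.K1 (by linarith [E.atom.2]) ?_
  rw [xP_eq D hk hJ, xs_eq D]
  exact D.cl.1.leg.zm (by omega)

/-- the sloped nodes below the window of the marks -/
theorem G_off {k : ℕ} (hk : (p.scG K' σ σ' Q).jl < k) (hJ : k < (p.scG K' σ σ' Q).J)
    (hw : (p.gst Q σ').s k + 2 * (8 * K' ^ 2) ^ 2 * (log p.n * u0 p (p.mt (p.muG σ))) ≤
      (p.gst Q σ').s (p.scG K' σ σ' Q).J) :
    |(p.gst Q σ').G k| ≤ 4 * (p.muG σ' * K' * p.laG σ) := by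
  have Y := xk_of H o D X
  have E := D.memD
  have cl := D.cl.1
  have h := Y.nm
  have K1 := D.nb.K1
  have K0 : 0 < K' := by linarith
  have a1 := (cl.s_tel hJ.le le_rfl).2
  have a2 := (cl.z_tel (i := k - 1) (j := (p.scG K' σ σ' Q).J - 1)
    (cl.i1.trans (by omega)) (by omega) (by omega)).1
  have C0' := cl.C0
  have eC : (p.scG K' σ σ' Q).C = 8 * K' ^ 2 := rfl
  have v0 := cl.v0
  have e1 : (((p.scG K' σ σ' Q).J - 1 : ℕ) : ℝ) - ((k - 1 : ℕ) : ℝ) =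
      ((p.scG K' σ σ' Q).J : ℝ) - k := by
    rw [Nat.cast_sub (by omega), Nat.cast_sub (by omega)]; ring
  rw [e1] at a2
  have lab : (p.gst Q σ').z (k - 1) + 2 * log p.n * u0 p (p.mt (p.muG σ)) ≤
      (p.gst Q σ').z ((p.scG K' σ σ' Q).J - 1) := by
    rw [← eC] at hw
    generalize (p.scG K' σ σ' Q).C = C at *
    generalize (p.scG K' σ σ' Q).v = v at *
    generalize ((p.scG K' σ σ' Q).J : ℝ) - k = d at *
    have e : d * (C * v) = C ^ 2 * (d * (v / C)) := by field_simp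
    have f : C ^ 2 * (2 * log p.n * u0 p (p.mt (p.muG σ))) ≤ C ^ 2 * (d * (v / C)) := by
      linarith
    have g := le_of_mul_le_mul_left f (by positivity)
    linarith
  change p.jf < k at hk
  change k < p.J at hJ
  change _ ≤ (p.gst Q σ').z (p.J - 1) at lab
  rw [← xs_eq D, ← xP_eq D hk hJ.le] at lab
  have L0 : 0 ≤ 2 * log p.n * u0 p (p.mt (p.muG σ)) := by
    have := h.u0p; have := h.l1; positivity
  have hx : p.xP Q k ≤ p.xs := by linarith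
  have b := (Y.hsB _ (hx.trans_lt h.xs1)).2
  have kx : 1 / K' ≤ 1 - p.xs := by linarith [E.atom.2]
  have iK : 0 < 1 / K' := by positivity
  have iK1 : 1 / K' ≤ 1 := (div_le_one K0).2 K1
  have e : 1 / K' ≤ √(1 - p.xP Q k) := le_sqrt_of_sq_le (by nlinarith)
  have f : p.la (p.mt (p.muG σ)) / √(1 - p.xP Q k) ≤ K' * p.la (p.mt (p.muG σ)) :=
    (div_le_div_of_nonneg_left h.lp.le iK e).trans_eq (by field_simp)
  have g := mul_le_mul_of_nonneg_left f Y.θ0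
  rw [G_hs _ _ _ hk, abs_of_nonneg (Y.off _ lab).2, Pm.laG]
  linarith

/-- **`LT2.g1`**, crude top value -/
theorem g1_all {gT l tu ℓ : ℝ}
    (hg : 2 * (p.muG σ' * u0 p (p.mt (p.muG σ))) + 4 * (p.muG σ' * K' * p.laG σ) ≤ gT) :
    ∀ t k, (p.scG K' σ σ' Q).jl < k → k < (p.scG K' σ σ' Q).J → l ≤ (p.gst Q σ').s k →
      (p.gst Q σ').s k ≤ 4 * t → (p.gst Q σ').s k + ℓ / 8 ≤ tu →
      |(p.gst Q σ').G k| ≤ gL K' gT t := fun t k a b _ d _ => by
  unfold gL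
  split_ifs with h
  · rw [G_lo D a (d.trans h), abs_zero]
  · exact (G_all H o D X a b.le).trans hg

/-- **`LT2.g1`**, `ℓ` longer than the window of the marks -/
theorem g1_off {gT l tu ℓ : ℝ} (hg : 4 * (p.muG σ' * K' * p.laG σ) ≤ gT)
    (hu : tu ≤ (p.gst Q σ').s (p.scG K' σ σ' Q).J)
    (hℓ : 16 * (8 * K' ^ 2) ^ 2 * (log p.n * u0 p (p.mt (p.muG σ))) ≤ ℓ) :
    ∀ t k, (p.scG K' σ σ' Q).jl < k → k < (p.scG K' σ σ' Q).J → l ≤ (p.gst Q σ').s k →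
      (p.gst Q σ').s k ≤ 4 * t → (p.gst Q σ').s k + ℓ / 8 ≤ tu →
      |(p.gst Q σ').G k| ≤ gL K' gT t := fun t k a b _ d e => by
  unfold gL
  split_ifs with h
  · rw [G_lo D a (d.trans h), abs_zero]
  · exact (G_off H o D X a b (by linarith)).trans hg

omit H o X in
/-- **`LT2.g1`**, low upper end: `g = 0` -/
theorem g1_zero {l tu ℓ : ℝ} (hu : tu ≤ tz K') (hℓ : 0 ≤ ℓ) :
    ∀ t k, (p.scG K' σ σ' Q).jl < k → k < (p.scG K' σ σ' Q).J → l ≤ (p.gst Q σ').s k →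
      (p.gst Q σ').s k ≤ 4 * t → (p.gst Q σ').s k + ℓ / 8 ≤ tu →
      |(p.gst Q σ').G k| ≤ (fun _ => (0 : ℝ)) t := fun t k a _ _ _ e => by
  rw [G_lo D a (by linarith), abs_zero]

omit X D in
/-- **`LT2.ml`** -/
theorem ml {E l t : ℝ} (hl : p.r ≤ l) (hE : E ^ 2 * p.κ ≤ 1) (E0 : 0 ≤ E) (ht : l ≤ t) :
    E * √(p.msG σ' t) ≤ t := by
  have r0 := H.r0
  have t0 : 0 ≤ t := by linarith
  have a := H.msG_le_sq σ' t
  have b : Gr29.xc p t ≤ t := max_le (hl.trans ht) (min_le_left _ _)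
  have b0 := (H.xc0 t).le
  have d : Gr29.xc p t ^ 2 ≤ t ^ 2 := pow_le_pow_left₀ b0 b 2
  rw [← sqrt_sq E0, ← sqrt_mul (sq_nonneg _)]
  refine sqrt_le_iff.2 ⟨t0, ?_⟩
  have e := mul_le_mul_of_nonneg_left (a.trans (mul_le_mul_of_nonneg_left d H.κ0.le))
    (sq_nonneg E)
  nlinarith [mul_le_mul_of_nonneg_right hE (sq_nonneg t)]

end Crest.Agent.T156.Alt.Lt38

end
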