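import Crest.Agent.T156.NbD_29

/-!
# Row 156 (helper29): the EXPLICIT numbers of block (L) on the graded path

`σ` = amplitude of the plateau data, `t` = amplitude of the member, `X = PhN t`, `x = lN t`,
`θ = muG t`, `ν = mt (muG σ)`.  `y` is the a priori energy `Xp` of the pass.
-/

set_option autoImplicit false

noncomputable section

namespace Crest.Agent.T156.Alt

open Real

namespace Pm

variable (p : Pm)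

/-- `n^{e c}` -/
def nc (e : ℝ) : ℝ := (p.n : ℝ) ^ (e * p.c)
/-- the smallness constant `E` of every statement of (L) -/
def EL : ℝ := p.nc (1 / 100000)
/-- `max 1 (θ n^{1/3})` -/
def xM (t : ℝ) : ℝ := max 1 (p.muG t * (p.n : ℝ) ^ ((1 : ℝ) / 3))
/-- `w3 1` -/
def wL (t : ℝ) : ℝ := 1 / (p.n * p.muG t)
/-- block (L) is used only here -/
def Need (t : ℝ) : Prop := p.κ ^ 4 ≤ p.muG t * (p.n : ℝ) ^ ((1 : ℝ) / 3)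
/-- second condition of use -/
def Need2 (t : ℝ) : Prop := p.s ≤ (p.n : ℝ) ^ ((7 : ℝ) / 200) ∨
  (p.n : ℝ) ^ ((1 : ℝ) / 20) ≤ p.muG t * (p.n : ℝ) ^ ((1 : ℝ) / 3)
/-- the top regime -/
def TopR (t : ℝ) : Prop := p.nc (-(23 / 40)) ≤ p.muG t * (p.n : ℝ) ^ ((1 : ℝ) / 3)

/-! bulk -/
def l0L (t : ℝ) : ℝ := max (p.EL ^ 2 * p.rj) (8 * p.lwG t)
def X2L (t : ℝ) : ℝ := p.nc (1 / 1000) * min (p.PhN t)
  (p.lN t ^ 2 * max (p.nc (1 / 100) * p.rj) ((p.n : ℝ) ^ (-(7 : ℝ) / 60)))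
def E2L (t : ℝ) : ℝ := max (p.nc (-(15 / 1000)))
  (p.nc (1 / 20) * p.X2L t * (p.n : ℝ) ^ ((1 : ℝ) / 3))
def yL (t : ℝ) : ℝ := max (p.yA (p.E2L t) t) (p.yB (p.E2L t))
/-- the first thick level -/
def ltL (t : ℝ) : ℝ := max (p.nc (1 / 3000) * p.lN t) (min (p.yL t) (p.κ ^ 10) / 8)
def LgL : ℝ := p.EL ^ 2
def X3L (t : ℝ) : ℝ := (p.n : ℝ) ^ (-(101 : ℝ) / 200) + p.X2L t ^ ((3 : ℝ) / 2)
def G0L (σ t : ℝ) : ℝ := p.nc 5 * (p.n : ℝ) ^ (-(1 : ℝ) / 3) / √(p.xM t) +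
  p.nc (1 / 100) * √(p.wL t * √(p.PhN t) / p.laG σ) + p.X2L t

/-! plateau (`Lp = 1`, `γ = 0`, `G1 = 0`, `u1 = u2 = uL`, `V2 = Vt = VL`) -/
def uL (t : ℝ) : ℝ := (p.n : ℝ) ^ (-(51 : ℝ) / 100) / p.xM t
def VL (σ t : ℝ) : ℝ := p.nc (1 / 100) * max (max ((p.wL t / p.uL t) ^ ((1 : ℝ) / 3)) √(p.muG t))
  (max √(p.PhN t) (p.Vc (p.mt (p.muG σ))))
/-- bound of `GS 0 C + GP` -/
def GaL (σ t : ℝ) : ℝ := p.EL * (p.muG t * p.laG σ) ^ 2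
def jL (σ t : ℝ) : ℝ := √(p.PhN t) + √(p.GaL σ t) + p.l0L t ^ 2
def LcL (t : ℝ) : ℝ := p.nc (1 / 50) * p.xM t ^ ((1 : ℝ) / 4)
def ucL (t : ℝ) : ℝ := p.LcL t ^ ((2 : ℝ) / 3) * p.wL t ^ ((1 : ℝ) / 3)
def ecL (σ t y : ℝ) : ℝ := p.ucL t ^ 3 + p.ucL t ^ 2 * (p.muG t + p.jL σ t + y ^ ((1 : ℝ) / 3)) +
  (√(p.LcL t * p.wL t) + p.G0L σ t + p.X2L t) * (p.ucL t + √(p.X2L t)) + p.X3L t + 1 / p.n
def tauL (σ t y : ℝ) : ℝ := y ^ ((1 : ℝ) / 3) / p.LcL t + p.ecL σ t y / p.muG t +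
  p.wL t ^ ((1 : ℝ) / 3)

/-! costs -/
/-- the budget -/
def BuL (σ t : ℝ) : ℝ := p.nc (21 / 40) * (p.sM t * p.laG σ) ^ 2
def NL (σ t y : ℝ) : ℝ := p.BuL σ t + p.nc (1 / 20) * p.muG t * y ^ ((4 : ℝ) / 3)
def EnL (σ t y : ℝ) : ℝ := p.nc (1 / 100) * p.NL σ t y
def p0L (σ t y : ℝ) : ℝ := p.nc (1 / 100) * √(p.NL σ t y)
/-- the energy of the next pass -/
def nxL (σ t y : ℝ) : ℝ := min (p.PhN t) (p.nc (1 / 40) * p.NL σ t y / p.muG t)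
/-- lower end of the admissible `y` -/
def XloL (σ t : ℝ) : ℝ := min (p.PhN t) (p.nc (1 / 40) * p.BuL σ t / p.muG t)
/-- the energy of the last pass -/
def XpL (σ t : ℝ) : ℝ := p.nxL σ t (p.nxL σ t (p.PhN t))

/-! thick zone -/
def t1L : ℝ := 1 / p.EL ^ 3
def X4L (σ t : ℝ) : ℝ := p.BuL σ t
def elL (t : ℝ) : ℝ := p.EL ^ 2 * (p.lN t + √(p.muG t))
open Classical in
def tuL (t sJ : ℝ) : ℝ := if p.TopR t then sJ else 1 / p.EL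

end Pm

end Crest.Agent.T156.Alt

end
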