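import Crest.Agent.T156.LT2a_38
import Crest.Agent.T156.LtD_29
import Crest.Agent.T156.NRn_44

/-!
# Row 156 (helper38): `LT2`, `jg`, `TP` on the numbers of `LtD_29` (all lines but `x4 en pa`)
-/

set_option autoImplicit false
set_option linter.unusedSectionVars false

noncomputable section

namespace Crest.Agent.T156.Alt.Lt38

open Real Finset
open Crest.Agent.T156.Alt.L69 (GS dx L4 cB bs)
open Crest.Agent.T156.Alt.L63 (LT2 TP)
open Crest.Agent.T156.Alt.Nr44 (Cx)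
open Crest.Agent.T156.Alt.Kn72 (nu)

theorem sJ3 {S : Sc} {M : Md} (c : Cl S M) : 1 ≤ 3 * S.C ^ 3 * M.s S.J := by
  have i2 := c.i2
  have i1 := c.i1
  have C0 := c.C0
  have C1 := c.C1
  have a1 := (c.z_s (k := S.J - 1) (by omega) (by omega)).2
  have a2 := (c.s_bds (k := S.J - 1) (by omega)).1
  have a3 : (1 : ℝ) ≤ (S.J - 1 : ℕ) := by exact_mod_cast (by omega : 1 ≤ S.J - 1)
  have a4 := mul_le_mul_of_nonneg_right a3 (div_pos c.v0 C0).le
  have a5 : S.v ≤ S.C * M.s (S.J - 1) := by rw [← div_le_iff₀' C0]; linarith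
  have a6 := c.atom.1
  have a7 : M.s (S.J - 1) ≤ M.s S.J := c.sm (by omega)
  have a8 := c.s_nn (S.J - 1)
  rw [div_le_iff₀ C0] at a6
  generalize M.s (S.J - 1) = s at *
  have b1 : M.z (S.J - 1) ≤ 3 * S.C ^ 2 * s := by
    nlinarith [mul_le_mul_of_nonneg_left a5 C0.le, mul_le_mul_of_nonneg_right C1 (mul_nonneg C0.le a8)]
  nlinarith [mul_le_mul_of_nonneg_right b1 C0.le,
    mul_le_mul_of_nonneg_left a7 (by positivity : 0 ≤ 3 * S.C ^ 3)]

variable {β c0 C0 c0' C0' η' : ℝ} {A : ℕ} {c η K K' : ℝ} {p : Pm} {σ t y : ℝ} {Q : Pl}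

section num

variable (X : Cx β c0 C0 A c η K p σ t) (hη : 1000000 * η ≤ c)
include X

theorem nc0 (e : ℝ) : 0 < p.nc e := X.H.rp0 _
theorem lg_nc (e : ℝ) : logb p.n (p.nc e) = e * c := by rw [Pm.nc, X.H.lg_rp, X.H.hc]
theorem E0 : 0 < p.EL := nc0 X _
theorem lg_E : logb p.n p.EL = c / 100000 := by rw [Pm.EL, lg_nc X]; ring
theorem lg_x : logb p.n (p.lN t) = logb p.n (p.PhN t) / 3 := by
  rw [Pm.lN, logb_rpow_eq_mul_logb_of_pos X.Ph0]; ring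
theorem lg_X : 3 * logb p.n p.r + c / 4000 ≤ logb p.n (p.PhN t) ∧
    logb p.n (p.PhN t) ≤ -(1 / 9) := by
  have h := X.hy
  have a := (X.H.lg_PhG_bds h.hη h.hε h.M h.E1 h.E2).2
  have b := (X.H.lg_PhG X.Mt (X.H.rp0 (p.c / 1000))).1.2.1
  rw [X.lg_Ph]
  constructor <;> linarith [X.H.c_pos]
theorem lg_θ : logb p.n (p.muG t) ≤ -(7 * c) := (X.H.lg_muG' X.Mt).2
theorem x1 : p.lN t ≤ 1 := X.H.le_of_lg X.lN0 one_pos (by
  rw [lg_x X, logb_one]; linarith [(lg_X X).2])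
theorem r_x : p.r ≤ p.lN t := X.H.le_of_lg X.H.r0 X.lN0 (by
  rw [lg_x X]; linarith [(lg_X X).1, X.H.c_pos])

theorem l0_x : p.l0L t ≤ p.lN t := by
  refine max_le (X.H.le_of_lg (mul_pos (pow_pos (E0 X) 2) X.H.rj0) X.lN0 ?_)
    ((le_max_right _ _).trans X.l0l)
  rw [logb_mul (pow_pos (E0 X) 2).ne' X.H.rj0.ne', logb_pow, lg_E X, X.H.lg_rj, lg_x X]
  push_cast
  linarith [(lg_X X).1, X.H.lg_r, X.H.c_pos]

theorem l00 : 0 < p.l0L t := lt_max_of_lt_left (mul_pos (pow_pos (E0 X) 2) X.H.rj0)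

theorem u0_x : Plt13.u0 p (p.mt (p.muG σ)) ≤ p.lN t := by
  have a : 0 < p.la (p.mt (p.muG σ)) := X.la0
  refine X.H.le_of_lg (rpow_pos_of_pos a _) X.lN0 ?_
  rw [Plt13.u0, logb_rpow_eq_mul_logb_of_pos a, lg_x X]
  have := X.lg_laΦ
  change c / 20000 + 2 * logb p.n (p.la (p.mt (p.muG σ))) ≤ _ at this
  linarith [X.H.c_pos]

/-- the amplitude of the marks where block (L) is used -/
theorem lg_la (nd : p.Need t) : logb p.n (p.laG σ) ≤ -(1 / 6) - c / 6 + η := by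
  have H := X.H
  have m := H.muG_pos X.Mσ
  have a := H.lg_mono (pow_pos H.κ0 4) nd
  rw [logb_pow, H.lg_κ, logb_mul X.θ0.ne' (H.rp0 _).ne', H.lg_rp] at a
  push_cast at a
  have b := H.lg_mono X.θ0 (H.oct_mu X.o).2
  rw [logb_mul two_ne_zero m.ne'] at b
  have d : logb p.n (nu p σ) = _ := H.lg_mt m
  have e : -c - 1 / 3 - η ≤ logb p.n (nu p σ) := by
    rw [d]
    exact le_min (by linarith [H.lg_two.2]) (le_max_of_le_right (by linarith [H.η_pos]))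
  have := H.c_pos; have := H.η_pos
  rcases X.lg_pl with ⟨_, _, _⟩ | ⟨_, _, _⟩ <;> linarith

include hη

theorem ηE : (p.n : ℝ) ^ η ≤ p.EL :=
  Pre29.rp_le X.H.n1 (by rw [X.H.hc]; linarith [X.H.η_pos])
theorem E2 : 1000 ≤ p.EL := X.H.num_le.trans (ηE X hη)
theorem E_nc : 2 * p.EL ≤ p.nc (1 / 3000) := X.H.le_of_lg (by linarith [E0 X]) (nc0 X _) (by
  rw [logb_mul two_ne_zero (E0 X).ne', lg_E X, lg_nc X]; linarith [X.H.lg_two.2, X.H.η_pos])

theorem Ex_l : 2 * (p.EL * p.lN t) ≤ p.ltL t :=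
  le_trans (by nlinarith [E_nc X hη, X.lN0]) (le_max_left _ _)
theorem x_l : p.lN t ≤ p.ltL t := by nlinarith [Ex_l X hη, E2 X hη, X.lN0]
theorem lt0 : 0 < p.ltL t := X.lN0.trans_le (x_l X hη)
theorem l2 : 2 * p.l0L t ≤ p.ltL t := by nlinarith [Ex_l X hη, E2 X hη, X.lN0, l0_x X]
theorem lX : p.EL * p.PhN t ^ ((1 : ℝ) / 3) ≤ p.ltL t := by
  change p.EL * p.lN t ≤ _
  nlinarith [Ex_l X hη, E0 X, X.lN0]

theorem t1a : 2 * p.ltL t ≤ p.t1L := by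
  have H := X.H
  have := E0 X; have := X.lN0; have := nc0 X (1 / 3000); have := H.κ0
  have c0 := H.c_pos; have := X.hc; have := H.η_pos
  have a : 2 * (p.nc (1 / 3000) * p.lN t) ≤ 1 / p.EL ^ 3 := by
    refine H.le_of_lg (by positivity) (by positivity) ?_
    lg_norm
    rw [lg_E X, lg_nc X, lg_x X]
    linarith [H.lg_two.2, (lg_X X).2]
  have b : p.κ ^ 10 ≤ 1 / p.EL ^ 3 := by
    refine H.le_of_lg (by positivity) (by positivity) ?_
    lg_norm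
    rw [lg_E X, H.lg_κ]
    linarith
  have d := min_le_right (p.yL t) (p.κ ^ 10)
  have e : 0 < p.κ ^ 10 := by positivity
  rw [Pm.ltL, Pm.t1L, mul_max_of_nonneg _ _ zero_le_two]
  exact max_le a (by linarith)

theorem t1c : p.EL * p.PhN t ≤ p.t1L ^ 4 := by
  have H := X.H
  have := E0 X; have := X.Ph0
  rw [Pm.t1L]
  refine H.le_of_lg (by positivity) (by positivity) ?_
  lg_norm
  rw [lg_E X]
  linarith [(lg_X X).2, X.hc, H.c_pos]

theorem t1b : p.EL * p.t1L ≤ 1 / p.EL := by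
  have a := E2 X hη
  rw [Pm.t1L, mul_one_div, div_le_div_iff₀ (by positivity) (by positivity)]
  nlinarith [mul_pos (E0 X) (E0 X)]

theorem el2 : p.EL * p.elL t ≤ 1 / p.EL := by
  have H := X.H
  have := E0 X; have := X.lN0; have := X.θ0
  have c0 := H.c_pos; have := X.hc; have := H.η_pos
  have a : 2 * (p.EL ^ 3 * p.lN t) ≤ 1 / p.EL := by
    refine H.le_of_lg (by positivity) (by positivity) ?_
    lg_norm
    rw [lg_E X, lg_x X]
    linarith [H.lg_two.2, (lg_X X).2]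
  have b : 2 * (p.EL ^ 3 * √(p.muG t)) ≤ 1 / p.EL := by
    refine H.le_of_lg (by positivity) (by positivity) ?_
    lg_norm
    rw [lg_E X]
    linarith [H.lg_two.2, lg_θ X]
  rw [Pm.elL]
  linarith

theorem x_el : p.EL ^ 2 * p.lN t ≤ p.elL t :=
  mul_le_mul_of_nonneg_left (le_add_of_nonneg_right (sqrt_nonneg _)) (sq_nonneg _)
theorem el0 : 0 < p.elL t := (mul_pos (pow_pos (E0 X) 2) X.lN0).trans_le (x_el X hη)

theorem el1 : p.EL * √(p.muG t) ≤ p.elL t := by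
  have a := E2 X hη
  have b := sqrt_nonneg (p.muG t)
  have d := X.lN0
  rw [Pm.elL]
  nlinarith [mul_nonneg (mul_nonneg (E0 X).le (by linarith : 0 ≤ p.EL - 1)) b,
    mul_pos (pow_pos (E0 X) 2) d]

theorem Ex_el : p.EL * p.lN t ≤ p.elL t := by
  have a := E2 X hη
  nlinarith [x_el X hη, mul_nonneg (mul_nonneg (E0 X).le (by linarith : 0 ≤ p.EL - 1)) X.lN0.le]

theorem Lg1 : 1 ≤ p.LgL := one_le_pow₀ (by linarith [E2 X hη])

theorem Lg3 : p.EL * p.PhN t ^ ((1 : ℝ) / 3) ≤ p.LgL * p.elL t :=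
  (Ex_el X hη).trans (le_mul_of_one_le_left (el0 X hη).le (Lg1 X hη))

/-- `E X ≤ ℓ³` -/
theorem tp1 : p.EL * p.PhN t ≤ p.elL t ^ 3 := by
  have a := E2 X hη
  have b := pow_le_pow_left₀ (mul_pos (E0 X) X.lN0).le (Ex_el X hη) 3
  rw [mul_pow, X.l3] at b
  refine le_trans (mul_le_mul_of_nonneg_right ?_ X.Ph0.le) b
  exact le_self_pow₀ (by linarith) three_ne_zero

/-- **`TP`** -/
theorem tp (S : Sc) (M : Md) (Xp t1 tu En p0 : ℝ) :
    TP p.EL S M (p.PhN t) Xp t1 tu (p.elL t) En p0 := .inl (tp1 X hη)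

theorem j_le : p.jL σ t ≤ 2 * (p.lN t + √(p.muG t)) := by
  have H := X.H
  have := E0 X; have x0 := X.lN0; have := X.θ0; have := X.la0; have := X.Ph0
  have c0 := H.c_pos; have := X.hc; have := H.η_pos
  have a : √(p.PhN t) ≤ p.lN t := by
    refine H.le_of_lg (by positivity) x0 ?_
    lg_norm
    rw [lg_x X]
    linarith [(lg_X X).2]
  have b : √(p.GaL σ t) ≤ √(p.muG t) := by
    refine sqrt_le_sqrt ?_
    rw [Pm.GaL]
    refine H.le_of_lg (by positivity) (by positivity) ?_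
    lg_norm
    rw [lg_E X]
    linarith [X.lg_θla]
  have d : p.l0L t ^ 2 ≤ p.lN t := by nlinarith [l0_x X, l00 X, x1 X]
  rw [Pm.jL]
  linarith [sqrt_nonneg (p.muG t)]

/-- **`Hy.jg`** -/
theorem jg : p.EL * (p.jL σ t + 0) ≤ p.LgL * p.elL t := by
  have a := E2 X hη
  have b := mul_le_mul_of_nonneg_left (j_le X hη) (E0 X).le
  have d : 0 ≤ p.lN t + √(p.muG t) := add_nonneg X.lN0.le (sqrt_nonneg _)
  refine le_trans ?_ (le_mul_of_one_le_left (el0 X hη).le (Lg1 X hη))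
  rw [Pm.elL, add_zero]
  nlinarith [mul_nonneg (mul_nonneg (E0 X).le (by linarith : 0 ≤ p.EL - 2)) d]

omit hη in
theorem Bu0 : 0 < p.BuL σ t := mul_pos (nc0 X _) (pow_pos (mul_pos X.sM0 X.la0) 2)

omit hη in
theorem NL0 (y0 : 0 ≤ y) : 0 < p.NL σ t y := by
  have := Bu0 X; have := nc0 X (1 / 20); have := X.θ0
  rw [Pm.NL]; positivity

/-- `E p0 ≤ x` -/
theorem p_x (nd : p.Need t) (y0 : 0 ≤ y) (hy : y ≤ p.PhN t) : p.EL * p.p0L σ t y ≤ p.lN t := by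
  have H := X.H
  have := E0 X; have x0 := X.lN0; have := X.θ0; have := X.la0; have := X.Ph0; have := X.sM0
  have := nc0 X (1 / 100); have := nc0 X (1 / 20); have := nc0 X (21 / 40)
  have c0 := H.c_pos; have := X.hc; have := H.η_pos
  have a : 2 * ((p.EL * p.nc (1 / 100)) ^ 2 * p.BuL σ t) ≤ p.lN t ^ 2 := by
    rw [Pm.BuL]
    refine H.le_of_lg (by positivity) (by positivity) ?_
    lg_norm
    rw [lg_E X, lg_x X, lg_nc X, lg_nc X]
    linarith [H.lg_two.2, (lg_X X).1, H.lg_r, lg_la X nd, X.lg_sM.2.1]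
  have b : 2 * ((p.EL * p.nc (1 / 100)) ^ 2 *
      (p.nc (1 / 20) * p.muG t * p.PhN t ^ ((4 : ℝ) / 3))) ≤ p.lN t ^ 2 := by
    refine H.le_of_lg (by positivity) (by positivity) ?_
    lg_norm
    rw [lg_E X, lg_x X, lg_nc X, lg_nc X]
    linarith [H.lg_two.2, (lg_X X).2, lg_θ X]
  have d : p.nc (1 / 20) * p.muG t * y ^ ((4 : ℝ) / 3) ≤
      p.nc (1 / 20) * p.muG t * p.PhN t ^ ((4 : ℝ) / 3) :=
    mul_le_mul_of_nonneg_left (rpow_le_rpow y0 hy (by norm_num)) (by positivity)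
  have e := mul_le_mul_of_nonneg_left d (sq_nonneg (p.EL * p.nc (1 / 100)))
  refine le_of_pow_le_pow_left₀ two_ne_zero x0.le ?_
  rw [Pm.p0L, ← mul_assoc, mul_pow, sq_sqrt (NL0 X y0).le, Pm.NL]
  linarith

theorem pc (nd : p.Need t) (y0 : 0 ≤ y) (hy : y ≤ p.PhN t) :
    p.EL * p.p0L σ t y ≤ p.ltL t ∧ p.EL * p.p0L σ t y ≤ p.elL t := by
  have a := p_x X hη nd y0 hy
  have b := E2 X hη
  exact ⟨a.trans (x_l X hη), by nlinarith [Ex_el X hη, X.lN0]⟩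

variable (G : GrD K' c0' C0' η' p σ t Q)
include G

omit hη in
theorem lg_C : 1 ≤ 8 * K' ^ 2 ∧ 0 ≤ logb p.n (8 * K' ^ 2) ∧ logb p.n (8 * K' ^ 2) ≤ η :=
  have a : 1 ≤ 8 * K' ^ 2 := G.cl.1.C1
  ⟨a, X.H.lg_cst a (by linarith [G.nb.K3.2.2, G.nb.lg, X.H.log_le])⟩

theorem CE : 24 * (8 * K' ^ 2) ^ 3 ≤ p.EL := by
  obtain ⟨a, -, b⟩ := lg_C X G
  generalize 8 * K' ^ 2 = C at *
  refine X.H.le_of_lg (by positivity) (E0 X) ?_
  lg_norm
  rw [lg_E X]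
  linarith [(X.H.lg_num (x := 24) (by norm_num) (by norm_num)).2, X.H.η_pos]

theorem E_tz : 4 * (1 / p.EL) ≤ tz K' := by
  have a := (lg_C X G).1
  rw [tz, mul_one_div, div_le_div_iff₀ (E0 X) (by positivity)]
  linarith [CE X hη G]

theorem E_sJ : 1 / p.EL ≤ (p.gst Q t).s (p.scG K' σ t Q).J := by
  have a := sJ3 G.cl.1
  have b := CE X hη G
  have d := G.cl.1.s_nn (p.scG K' σ t Q).J
  have e := (lg_C X G).1
  change 1 ≤ 3 * (8 * K' ^ 2) ^ 3 * _ at a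
  rw [div_le_iff₀ (E0 X)]
  nlinarith [mul_le_mul_of_nonneg_left b d, mul_nonneg d (by positivity : 0 ≤ (8 * K' ^ 2) ^ 3)]

theorem tu_bd : 1 / p.EL ≤ p.tuL t ((p.gst Q t).s (p.scG K' σ t Q).J) ∧
    p.tuL t ((p.gst Q t).s (p.scG K' σ t Q).J) ≤ (p.gst Q t).s (p.scG K' σ t Q).J := by
  rw [Pm.tuL]
  split_ifs
  · exact ⟨E_sJ X hη G, le_rfl⟩
  · exact ⟨le_rfl, E_sJ X hη G⟩

theorem l_tz : 2 * p.ltL t ≤ tz K' := by
  have a := E2 X hη
  have b := t1b X hη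
  have d : 0 < p.t1L := by rw [Pm.t1L]; positivity
  have e : 0 < 1 / p.EL := by positivity
  nlinarith [t1a X hη, E_tz X hη G]

/-- the window of the marks is shorter than `E² x` -/
theorem win : 16 * (8 * K' ^ 2) ^ 2 * (log p.n * Plt13.u0 p (p.mt (p.muG σ))) ≤
    p.EL ^ 2 * p.lN t := by
  obtain ⟨a, -, b⟩ := lg_C X G
  have l := X.H.log1
  have d : 16 * (8 * K' ^ 2) ^ 2 * log p.n ≤ p.EL ^ 2 := by
    have := E0 X
    generalize 8 * K' ^ 2 = C at *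
    refine X.H.le_of_lg (by positivity) (by positivity) ?_
    lg_norm
    rw [lg_E X]
    linarith [(X.H.lg_num (x := 16) (by norm_num) (by norm_num)).2, X.H.η_pos, X.H.lg_log.2]
  rw [← mul_assoc]
  exact mul_le_mul d (u0_x X) (rpow_pos_of_pos X.la0 _).le (sq_nonneg _)

omit hη in
theorem gT0 : 0 ≤ 4 * (p.muG t * K' * p.laG σ) := by
  have := X.θ0; have := X.la0; have := G.nb.K1
  positivity

/-- the top value of `g` in the top regime -/
theorem gT_top (h : p.TopR t) :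
    p.EL * (4 * (p.muG t * K' * p.laG σ)) ≤ p.muG t ^ ((3 : ℝ) / 2) := by
  have H := X.H
  have := E0 X; have := X.θ0; have := X.la0; have K1 := G.nb.K1
  have c0 := H.c_pos; have := X.hc; have := H.η_pos
  obtain ⟨a, -, b⟩ := lg_C X G
  have k : logb p.n K' ≤ η := (H.lg_mono (by linarith) (by nlinarith)).trans b
  have d := H.lg_mono (nc0 X _) h
  rw [lg_nc X, logb_mul X.θ0.ne' (H.rp0 _).ne', H.lg_rp] at d
  have e := X.lg_θν
  have K0 : 0 < K' := by linarith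
  refine H.le_of_lg (by positivity) (by positivity) ?_
  lg_norm
  rw [lg_E X]
  have n4 := (H.lg_num (x := 4) (by norm_num) (by norm_num)).2
  rcases X.lg_pl with ⟨_, _, _⟩ | ⟨_, _, _⟩ <;> linarith

theorem g2 (r : ℝ) (h : r ≤ p.tuL t ((p.gst Q t).s (p.scG K' σ t Q).J)) :
    p.EL * gL K' (4 * (p.muG t * K' * p.laG σ)) r ≤ p.msG t r ^ ((3 : ℝ) / 2) := by
  have H := X.H
  have m := (rpow_pos_of_pos (H.msG_pos X.Mt r) ((3 : ℝ) / 2)).le
  by_cases a : 4 * r ≤ tz K'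
  · rw [gL_lo a, mul_zero]; exact m
  by_cases b : p.TopR t
  · have d : p.ye ≤ 1 / p.EL := by
      have := E0 X
      refine H.le_of_lg H.ye0 (by positivity) ?_
      lg_norm
      rw [lg_E X, H.lg_ye]
      linarith [H.c_pos]
    rw [H.msG_hi t (by linarith [E_tz X hη G, not_le.1 a])]
    exact (mul_le_mul_of_nonneg_left (gL_le (gT0 X G) r) (E0 X).le).trans (gT_top X hη G b)
  · rw [Pm.tuL, if_neg b] at h
    exact absurd (by linarith [E_tz X hη G]) a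

/-- **`LT2` on the table, free `ℓ ∈ [elL, 1 / E²]`, `Lg ≥ 1` and sizes** -/
theorem lt2' (PX : p.PlX σ t Q) {Xp Lg X2 X4 ℓ N En p0 : ℝ} {ηf : ℝ → ℝ} (hL : 1 ≤ Lg)
    (h1 : p.elL t ≤ ℓ) (h2 : p.EL * ℓ ≤ 1 / p.EL) (En0 : 0 ≤ En) (hp : p.EL * p0 ≤ p.lN t)
    (x4 : L4 (p.scG K' σ t Q) (p.PhN t ^ ((1 : ℝ) / 3)) (p.PhN t) (p.t1L / 2)
      (p.scG K' σ t Q).C X4)
    (en : cB (p.gst Q t) (p.scG K' σ t Q) ηf (p.t1L / 2) (p.scG K' σ t Q).C + X2 ^ 2 + X4 + N +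
      p.ltL t ^ 3 * p.PhN t + ((p.scG K' σ t Q).ms p.t1L * bs (p.scG K' σ t Q) Lg X2
        (gL K' (4 * (p.muG t * K' * p.laG σ)) p.t1L) ηf p.t1L) ^ 2 / p.t1L ≤ En)
    (pa : √(En / p.tuL t ((p.gst Q t).s (p.scG K' σ t Q).J)) + √En +
      ∑ k ∈ (Ioo (p.scG K' σ t Q).jl (p.scG K' σ t Q).J).filter fun k =>
        p.ltL t ≤ (p.gst Q t).s k ∧
          (p.gst Q t).s k ≤ p.tuL t ((p.gst Q t).s (p.scG K' σ t Q).J),
      dx (p.gst Q t) k * bs (p.scG K' σ t Q) Lg X2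
        (gL K' (4 * (p.muG t * K' * p.laG σ)) ((p.gst Q t).s k)) ηf ((p.gst Q t).s k) ≤ p0) :
    LT2 p.EL (p.scG K' σ t Q) (p.gst Q t) (p.l0L t) (p.ltL t) (p.PhN t) Xp Lg X2 X4
      (gL K' (4 * (p.muG t * K' * p.laG σ))) p.t1L
      (p.tuL t ((p.gst Q t).s (p.scG K' σ t Q).J)) ℓ N En p0 ηf := by
  have H := X.H
  have hθ : (p.scG K' σ t Q).θ = p.muG t := G.top
  obtain ⟨u1, u2⟩ := tu_bd X hη G
  have e2 := E2 X hη
  have l0 := (el0 X hη).trans_le h1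
  have k : p.EL ^ 2 * p.κ ≤ 1 := by
    have := E0 X; have := H.κ0
    refine H.le_of_lg (by positivity) one_pos ?_
    lg_norm
    rw [lg_E X, H.lg_κ]
    linarith [H.c_pos]
  exact
    { F1 := rfl, l2 := l2 X hη, g0 := gL_nn (gT0 X G)
      g1 := g1_off H X.o G PX le_rfl u2 (((win X hη G).trans (x_el X hη)).trans h1)
      g2 := fun r _ b => g2 X hη G r b
      gl := by rw [GS_lo G (l_tz X hη G), mul_zero]; exact En0
      lX := lX X hη
      Lg3 := ((Ex_el X hη).trans h1).trans (le_mul_of_one_le_left l0.le hL)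
      ml := fun r a _ => ml H X.o ((r_x X).trans (x_l X hη)) k (E0 X).le a
      ℓ1 := hθ ▸ (el1 X hη).trans h1
      ℓ2 := h2.trans u1, tu1 := u2, t1a := t1a X hη, t1b := (t1b X hη).trans u1, t1c := t1c X hη
      x4 := x4, en := en, pa := pa
      pc := ⟨hp.trans (x_l X hη), by nlinarith [Ex_el X hη, X.lN0]⟩ }

/-- **`LT2` on the numbers of `LtD_29`** -/
theorem lt2 (PX : p.PlX σ t Q) (nd : p.Need t) (y0 : 0 ≤ y) (hy : y ≤ p.PhN t) {ηf : ℝ → ℝ}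
    (x4 : L4 (p.scG K' σ t Q) (p.PhN t ^ ((1 : ℝ) / 3)) (p.PhN t) (p.t1L / 2)
      (p.scG K' σ t Q).C (p.X4L σ t))
    (en : cB (p.gst Q t) (p.scG K' σ t Q) ηf (p.t1L / 2) (p.scG K' σ t Q).C + p.X2L t ^ 2 +
      p.X4L σ t + p.NL σ t y + p.ltL t ^ 3 * p.PhN t + ((p.scG K' σ t Q).ms p.t1L *
        bs (p.scG K' σ t Q) p.LgL (p.X2L t)
        (gL K' (4 * (p.muG t * K' * p.laG σ)) p.t1L) ηf p.t1L) ^ 2 / p.t1L ≤ p.EnL σ t y)
    (pa : √(p.EnL σ t y / p.tuL t ((p.gst Q t).s (p.scG K' σ t Q).J)) + √(p.EnL σ t y) +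
      ∑ k ∈ (Ioo (p.scG K' σ t Q).jl (p.scG K' σ t Q).J).filter fun k =>
        p.ltL t ≤ (p.gst Q t).s k ∧
          (p.gst Q t).s k ≤ p.tuL t ((p.gst Q t).s (p.scG K' σ t Q).J),
      dx (p.gst Q t) k * bs (p.scG K' σ t Q) p.LgL (p.X2L t)
        (gL K' (4 * (p.muG t * K' * p.laG σ)) ((p.gst Q t).s k)) ηf ((p.gst Q t).s k) ≤
        p.p0L σ t y) :
    LT2 p.EL (p.scG K' σ t Q) (p.gst Q t) (p.l0L t) (p.ltL t) (p.PhN t) y p.LgL (p.X2L t)
      (p.X4L σ t) (gL K' (4 * (p.muG t * K' * p.laG σ))) p.t1L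
      (p.tuL t ((p.gst Q t).s (p.scG K' σ t Q).J)) (p.elL t) (p.NL σ t y) (p.EnL σ t y)
      (p.p0L σ t y) ηf :=
  lt2' X hη G PX (Lg1 X hη) le_rfl (el2 X hη) (mul_pos (nc0 X _) (NL0 X y0)).le
    (p_x X hη nd y0 hy) x4 en pa

end num

end Crest.Agent.T156.Alt.Lt38

end
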