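import Crest.Agent.T156.NbT_44
import Crest.Agent.T156.LtD_29

/-!
# Row 156 (helper44): the dichotomies in the terms of `LtD_29`
-/

set_option autoImplicit false
set_option linter.unusedSectionVars false

noncomputable section

namespace Crest.Agent.T156.Alt.Nr44

open Real Set

section lin
variable {s c ε x μ φ u m z χ : ℝ}

set_option maxHeartbeats 1000000 in
theorem Hp.y1 (h : Hp s c ε x μ φ u m z) (hq : u ≤ -(10 * c)) (χ1 : χ ≤ c / 1000 + φ)
    (χ2 : χ ≤ c / 1000 + 2 / 3 * φ + (c / 100 + (s + c / 13 - 1 / 6))) :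
    χ + c / 20 ≤ -c + x + 3 / 2 * u := by hp44
set_option maxHeartbeats 1000000 in
theorem Hp.y1' (h : Hp s c ε x μ φ u m z) (hq : u ≤ -(10 * c)) (χ1 : χ ≤ c / 1000 + φ)
    (χ2 : χ ≤ c / 1000 + 2 / 3 * φ - 7 / 60) : χ + c / 20 ≤ -c + x + 3 / 2 * u := by hp44
set_option maxHeartbeats 1000000 in
theorem Hp.y2 (h : Hp s c ε x μ φ u m z) (hq : u ≤ -(10 * c)) (χ1 : χ ≤ c / 1000 + φ)
    (χ2 : χ ≤ c / 1000 + 2 / 3 * φ + (c / 100 + (s + c / 13 - 1 / 6))) :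
    χ + c / 20 ≤ -c + 2 * u := by hp44
set_option maxHeartbeats 1000000 in
theorem Hp.y2' (h : Hp s c ε x μ φ u m z) (hq : u ≤ -(10 * c)) (χ1 : χ ≤ c / 1000 + φ)
    (χ2 : χ ≤ c / 1000 + 2 / 3 * φ - 7 / 60) : χ + c / 20 ≤ -c + 2 * u := by hp44
set_option maxHeartbeats 1000000 in
theorem Hp.mid (h : Hp s c ε x μ φ u m z) (hq : μ ≤ -(1 / 3) - 23 / 40 * c) : u ≤ -(c / 10) := by
  hp44

end lin

namespace Cx

variable {β c0 C0 : ℝ} {A : ℕ} {c η K : ℝ} {p : Pm} {σ t x : ℝ}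
  (X : Cx β c0 C0 A c η K p σ t)
include X

theorem nc0 (e : ℝ) : 0 < p.nc e := X.H.rp0 _
theorem lg_nc (e : ℝ) : logb p.n (p.nc e) = e * c := by rw [Pm.nc, X.H.lg_rp, X.H.hc]

theorem lg_x : 0 < p.muG t * (p.n : ℝ) ^ ((1 : ℝ) / 3) ∧
    logb p.n (p.muG t * (p.n : ℝ) ^ ((1 : ℝ) / 3)) = logb p.n (p.muG t) + 1 / 3 :=
  ⟨mul_pos X.θ0 (X.H.rp0 _), by rw [logb_mul X.θ0.ne' (X.H.rp0 _).ne', X.H.lg_rp]⟩

theorem need_iff : p.Need t ↔ -(1 / 3) - 4 * c ≤ logb p.n (p.muG t) := by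
  rw [Pm.Need, ← logb_le_logb X.H.N1 (pow_pos X.H.κ0 4) X.lg_x.1, X.lg_x.2, logb_pow, X.H.lg_κ]
  push_cast
  constructor <;> intro <;> linarith

theorem topR_iff : p.TopR t ↔ -(1 / 3) - 23 / 40 * c ≤ logb p.n (p.muG t) := by
  rw [Pm.TopR, ← logb_le_logb X.H.N1 (X.nc0 _) X.lg_x.1, X.lg_x.2, X.lg_nc]
  constructor <;> intro <;> linarith

theorem X20 : 0 < p.X2L t := mul_pos (X.nc0 _) (lt_min X.Ph0 (mul_pos (pow_pos X.lN0 2)
  (lt_max_of_lt_right (X.H.rp0 _))))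

theorem lg_X2 : logb p.n (p.X2L t) = c / 1000 + min (logb p.n (p.PhN t))
    (2 / 3 * logb p.n (p.PhN t) + max (c / 100 + (logb p.n p.s + c / 13 - 1 / 6)) (-(7 / 60))) := by
  have H := X.H
  have a := mul_pos (X.nc0 (1 / 100)) H.rj0
  have b := H.rp0 (-(7 : ℝ) / 60)
  have d := lt_max_of_lt_left (c := (p.n : ℝ) ^ (-(7 : ℝ) / 60)) a
  have e := pow_pos X.lN0 2
  rw [Pm.X2L, logb_mul (X.nc0 _).ne' (lt_min X.Ph0 (mul_pos e d)).ne', lg_min H.N1 X.Ph0
    (mul_pos e d), logb_mul e.ne' d.ne', lg_max H.N1 a b, logb_mul (X.nc0 _).ne' H.rj0.ne',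
    X.lg_nc, X.lg_nc, H.lg_rp, H.lg_rj, logb_pow, lgl H X.hy]
  push_cast
  rw [show 1 / 1000 * c = c / 1000 by ring, show 1 / 100 * c = c / 100 by ring,
    show (-7 / 60 : ℝ) = -(7 / 60) by ring,
    show 2 * (logb p.n (p.PhN t) / 3) = 2 / 3 * logb p.n (p.PhN t) by ring]

theorem E20 : 0 < p.E2L t := lt_max_of_lt_left (X.nc0 _)

theorem lg_E2 : logb p.n (p.E2L t) =
    max (-(15 / 1000 * c)) (c / 20 + logb p.n (p.X2L t) + 1 / 3) := by
  have H := X.H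
  have a := mul_pos (X.nc0 (1 / 20)) X.X20
  rw [Pm.E2L, lg_max H.N1 (X.nc0 _) (mul_pos a (H.rp0 _)), logb_mul a.ne' (H.rp0 _).ne',
    logb_mul (X.nc0 _).ne' X.X20.ne', X.lg_nc, X.lg_nc, H.lg_rp]
  congr 1 <;> ring

/-- **T1** -/
theorem t1L (h0 : p.l0G t (p.lN t) ≤ x) (h1 : x ≤ (p.n : ℝ) ^ η) (h : p.PN t x < p.PhN t) :
    p.Need t ∧ 8 * p.ltL t ≤ x ∧ (¬p.TopR t → x ≤ p.nc (-(1 / 10))) := by
  have H := X.H
  have k := X.hp h0 h1 h
  obtain ⟨a1, a2, a3⟩ := X.t1 h0 h1 h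
  have x0 := (l00 H).trans_le h0
  have := X.hη; have := H.c_pos; have := H.η_pos
  refine ⟨X.need_iff.2 (a3.elim (fun _ => by linarith [k.a3]) fun b => b.2.1), ?_, fun b => ?_⟩
  · have b1 : 8 * (p.nc (1 / 3000) * p.lN t) ≤ x := by
      have := X.nc0 (1 / 3000); have := X.lN0
      refine H.le_of_lg (by positivity) x0 ?_
      lg_norm
      linarith [X.lg_nc (1 / 3000), lgl H X.hy,
        (H.lg_num (x := 8) (by norm_num) (by norm_num)).2]
    have b2 : min (p.yL t) (p.κ ^ 10) ≤ x := by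
      rcases le_total (-(10 * c)) (logb p.n x) with q | q
      · refine (min_le_right _ _).trans (H.le_of_lg (pow_pos H.κ0 _) x0 ?_)
        rw [logb_pow, H.lg_κ]; push_cast; linarith
      · have e := X.lg_X2
        have e1 := min_le_left (logb p.n (p.PhN t)) (2 / 3 * logb p.n (p.PhN t) +
          max (c / 100 + (logb p.n p.s + c / 13 - 1 / 6)) (-(7 / 60)))
        have e2 := min_le_right (logb p.n (p.PhN t)) (2 / 3 * logb p.n (p.PhN t) +
          max (c / 100 + (logb p.n p.s + c / 13 - 1 / 6)) (-(7 / 60)))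
        have y : logb p.n (p.X2L t) + c / 20 ≤ -c + logb p.n t + 3 / 2 * logb p.n x ∧
            logb p.n (p.X2L t) + c / 20 ≤ -c + 2 * logb p.n x := by
          rcases max_choice (c / 100 + (logb p.n p.s + c / 13 - 1 / 6)) (-(7 / 60)) with r | r <;>
            rw [r] at e e1 e2
          · exact ⟨k.y1 q (by linarith) (by linarith), k.y2 q (by linarith) (by linarith)⟩
          · exact ⟨k.y1' q (by linarith) (by linarith), k.y2' q (by linarith) (by linarith)⟩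
        rcases a3 with a3 | a3
        · have z : logb p.n (p.E2L t) ≤ 1 / 3 - c + logb p.n t + 3 / 2 * logb p.n x ∧
              logb p.n (p.E2L t) ≤ 1 / 3 - c + 2 * logb p.n x := by
            rw [X.lg_E2]
            exact ⟨max_le (by linarith [k.a2]) (by linarith [y.1]),
              max_le (by linarith [k.a1]) (by linarith [y.2])⟩
          refine (min_le_left _ _).trans (max_le (H.le_of_lg (H.yA_pos X.Mt X.E20) x0 ?_)
            (H.le_of_lg (H.yB_pos X.E20) x0 ?_))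
          · rw [H.lg_yA X.Mt X.E20]; linarith [z.1]
          · rw [H.lg_yB X.E20]; linarith [z.2]
        · refine (min_le_right _ _).trans (H.le_of_lg (pow_pos H.κ0 _) x0 ?_)
          rw [logb_pow, H.lg_κ]; push_cast; linarith [a3.1]
    rw [Pm.ltL, mul_max_of_nonneg _ _ (by norm_num : (0 : ℝ) ≤ 8)]
    exact max_le b1 (by linarith)
  · rw [X.topR_iff] at b
    refine H.le_of_lg x0 (X.nc0 _) ?_
    rw [X.lg_nc]; linarith [k.mid (not_le.1 b).le]

/-- **T2** -/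
theorem t2L (h : p.PtN σ t < p.PhN t) : p.TopR t ∧ p.Need t :=
  ⟨X.topR_iff.2 (X.t2 h).1, X.need_iff.2 (by linarith [(X.t2 h).1, X.H.c_pos])⟩

end Cx

end Crest.Agent.T156.Alt.Nr44

end
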