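import Crest.Agent.T156.BlkA_79
import Crest.Agent.T156.BlkB_79
import Crest.Agent.T156.NbU_44
import Crest.Agent.T156.LT2g_38
import Crest.Agent.T156.HyD_77
import Crest.Agent.T156.R1LocB_77

/-!
# Row 156 (helper79): the leaf `Blkx` from the sup location of the thick levels
-/

set_option autoImplicit false
set_option linter.unusedSectionVars false

noncomputable section

namespace Crest.Agent.T156.Alt.Bk79

open Real Finset
open Crest.Agent.T156.Alt.L69 (mf bs)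
open Crest.Agent.T156.Alt.R62 (lw sb T0)
open Crest.Agent.T156.Alt.Tn15 (W P e0)
open Crest.Agent.T156.Alt.Ln97 (e2 eta M12)
open Crest.Agent.T156.Alt.Nr44 (Cx Ex)
open Crest.Agent.T156.Alt.R77

theorem phi_up {s c ε x μ φ : ℝ} (h : Ex s c ε x μ φ) (q : -(1 / 3) - 4 * c ≤ μ) :
    φ ≤ -(1 / 3) + c / 100 ∨ φ ≤ 5 / 2 * s - 5 / 12 + c / 4 := by
  obtain ⟨c0, c1, e0, e1, s0, s1, x0, x1, m0, m1, m2, up⟩ := h
  rcases up with up | up | ⟨up, _, _⟩ | up | ⟨up, _⟩ | up | up | ⟨up, _, _⟩ | ⟨up, _⟩ | up |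
    ⟨up, _⟩ <;> first | exact .inl (by linarith) | exact .inr (by linarith)

set_option maxHeartbeats 1000000 in
theorem hp_nd {s c ε x μ φ u m z : ℝ} (h : Nr44.Hp s c ε x μ φ u m z) (hc : c ≤ 1 / 10000)
    (q : 7 / 200 ≤ s) : 1 / 20 ≤ μ + 1 / 3 := by hp44

section cls

variable {S : Sc} {M : Md} {l Lg ν X X2 X3 G0 y r : ℝ} (c : Cl S M) (l0 : 0 < l) (L0 : 0 < Lg)
  (ν0 : 0 < ν) (X0 : 0 < X) (Y0 : 0 < X2) (Z0 : 0 < X3) (G00 : 0 < G0)
include c l0 L0 ν0 X0 Y0 Z0 G00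

theorem eta_nn (r : ℝ) : 0 ≤ eta S l Lg ν X X2 X3 G0 r := by
  have t0 : 0 < max r l := lt_max_of_lt_right l0
  have := Tn15.W0 c t0
  have := Tn15.P0 c t0
  have := c.N0
  unfold eta e2 e0
  positivity

theorem eta_anti (h : y ≤ r) : eta S l Lg ν X X2 X3 G0 r ≤ eta S l Lg ν X X2 X3 G0 y := by
  have t0 : 0 < max y l := lt_max_of_lt_right l0
  have h' : max y l ≤ max r l := max_le_max_right _ h
  have := Tn15.W0 c (t0.trans_le h')
  have := Tn15.P0 c (t0.trans_le h')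
  have := Tn15.P0 c t0
  have := Tn15.W_anti c t0 h'
  have := Tn15.P_anti c t0 h'
  unfold eta e2 e0
  gcongr

end cls

section reg

variable {β c0 C0 : ℝ} {A : ℕ} {c η K : ℝ} {p : Pm} (H : Reg β c0 C0 A c η K p)
include H

theorem lg2 {a b : ℝ} (a0 : 0 < a) (b0 : 0 < b) :
    logb p.n (a + b) ≤ logb p.n a + η ∨ logb p.n (a + b) ≤ logb p.n b + η := by
  have n := H.lg_two.2
  rcases le_total a b with h | h
  · have e := H.lg_mono (by positivity) (show a + b ≤ 2 * b by linarith)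
    rw [logb_mul two_ne_zero b0.ne'] at e
    exact .inr (by linarith)
  · have e := H.lg_mono (by positivity) (show a + b ≤ 2 * a by linarith)
    rw [logb_mul two_ne_zero a0.ne'] at e
    exact .inl (by linarith)

theorem lg3 {a b d : ℝ} (a0 : 0 < a) (b0 : 0 < b) (d0 : 0 < d) :
    logb p.n (a + b + d) ≤ logb p.n a + η ∨ logb p.n (a + b + d) ≤ logb p.n b + η ∨
      logb p.n (a + b + d) ≤ logb p.n d + η := by
  have n := (H.lg_num (x := 3) (by norm_num) (by norm_num)).2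
  have k : ∀ z, 0 < z → a + b + d ≤ 3 * z → logb p.n (a + b + d) ≤ logb p.n z + η := fun z z0 h => by
    have e := H.lg_mono (by positivity) h
    rw [logb_mul three_ne_zero z0.ne'] at e
    linarith
  rcases le_total a b with h | h <;> rcases le_total a d with h' | h' <;>
    rcases le_total b d with h'' | h'' <;>
    first | exact .inl (k a a0 (by linarith)) | exact .inr (.inl (k b b0 (by linarith))) |
      exact .inr (.inr (k d d0 (by linarith)))

/-- the residual size in exponents, without `FX` -/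
theorem e2_lg {S : Sc} {M : Md} {Lg X X2 X3 G0 t b ξ : ℝ} (cl : Cl S M) (hn : S.n = p.n)
    (hF : S.F = 1) (t0 : 0 < t) (h1 : S.ms t ≤ t ^ 2) (L0 : 0 < Lg) (X0 : 0 < X) (Y0 : 0 < X2)
    (Z0 : 0 < X3) (G00 : 0 < G0) (eX : logb p.n X = 3 * ξ)
    (m : M12 η (logb p.n Lg) ξ (logb p.n X2) (logb p.n X3) (logb p.n G0) (logb p.n t)
      (logb p.n (S.ms t)) b) :
    e2 S Lg ((p.n : ℝ) ^ (-(2 : ℝ) / 3)) X X2 X3 G0 t ≤ (p.n : ℝ) ^ (b + η) := by
  obtain ⟨w, q, -⟩ := Ln97.lg_W H cl hn hF t0 h1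
  have := Tn15.W0 cl t0
  have := Tn15.P0 cl t0
  have n0 := H.N0
  have η0 := H.η_pos
  have n8 := H.lg_num (x := 8) (by norm_num) (by norm_num)
  have n2 := H.lg_num (x := 2) (by norm_num) (by norm_num)
  obtain ⟨h1, h2, h3, h4, h5, h6, h7, h8, h9, h10, h11, h12⟩ := m
  have k : ∀ y, 0 < y → logb p.n y ≤ b → y ≤ (p.n : ℝ) ^ b := fun y y0 a =>
    H.le_of_lg y0 (by positivity) (by rw [H.lg_rp]; exact a)
  have a1 : Lg ^ 6 * W S t ^ 3 ≤ _ := k _ (by positivity) (by lg_norm; linarith)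
  have a2 : Lg ^ 4 * ((p.n : ℝ) ^ (-(2 : ℝ) / 3) / t) ≤ _ :=
    k _ (by positivity) (by lg_norm; rw [H.lg_n]; linarith)
  have a3 : √(Lg * P S t) * (Lg ^ 2 * W S t) ≤ _ := k _ (by positivity) (by lg_norm; linarith)
  have a4 : √(Lg * P S t) * √X2 ≤ _ := k _ (by positivity) (by lg_norm; linarith)
  have a5 : G0 * (Lg ^ 2 * W S t) ≤ _ := k _ (by positivity) (by lg_norm; linarith)
  have a6 : G0 * √X2 ≤ _ := k _ (by positivity) (by lg_norm; linarith)
  have a7 : X2 * (Lg ^ 2 * W S t) ≤ _ := k _ (by positivity) (by lg_norm; linarith)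
  have a8 : X2 * √X2 ≤ _ := k _ (by positivity) (by lg_norm; linarith)
  have a9 : X3 ≤ _ := k _ Z0 h9
  have a10 : 1 / (p.n : ℝ) ≤ _ := k _ (by positivity) (by lg_norm; rw [H.lg_n]; linarith)
  have a11 : 8 * P S t ≤ _ := k _ (by positivity) (by lg_norm; linarith)
  have a12 : (8 * P S t) ^ ((1 : ℝ) / 7) * (2 * W S t * X) ^ ((6 : ℝ) / 7) ≤ _ :=
    k _ (by positivity) (by lg_norm; linarith)
  have e : 12 * (p.n : ℝ) ^ b ≤ (p.n : ℝ) ^ (b + η) := by
    rw [rpow_add n0, mul_comm]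
    exact mul_le_mul_of_nonneg_left (by linarith [H.num_le]) (by positivity)
  rw [e2, e0, hn]
  linarith [show (√(Lg * P S t) + G0 + X2) * (Lg ^ 2 * W S t + √X2) =
    √(Lg * P S t) * (Lg ^ 2 * W S t) + √(Lg * P S t) * √X2 + G0 * (Lg ^ 2 * W S t) + G0 * √X2 +
      X2 * (Lg ^ 2 * W S t) + X2 * √X2 by ring]

end reg

variable {β c0 C0 : ℝ} {A : ℕ} {c η K' : ℝ} {p : Pm} {σ t x : ℝ}
  (X : Cx β c0 C0 A c η K' p σ t)
include X

theorem xM0 : 0 < p.xM t := lt_max_of_lt_left one_pos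
theorem lg_xM : logb p.n (p.xM t) = max 0 (logb p.n (p.muG t) + 1 / 3) := by
  rw [Pm.xM, lg_max X.H.N1 one_pos X.lg_x.1, logb_one, X.lg_x.2]

theorem la_lo : -(1 / 6) - c / 2 - logb p.n (p.xM t) / 2 ≤ logb p.n (p.laG σ) := by
  have m := X.H.muG_pos X.Mσ
  have a : logb p.n (Kn72.nu p σ) ≤ _ := (X.H.lg_mt m).le.trans (min_le_right _ _)
  have b := X.H.lg_mono m (X.H.oct_mu X.o).1
  have c0 := X.H.c_pos
  rw [lg_xM X]
  have d1 := le_max_left 0 (logb p.n (p.muG t) + 1 / 3)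
  have d2 := le_max_right 0 (logb p.n (p.muG t) + 1 / 3)
  rcases X.lg_pl with ⟨_, _, _, _⟩ | ⟨_, _, _, _⟩
  · rcases le_max_iff.1 a with a | a <;> linarith
  · linarith

theorem X30 : 0 < p.X3L t := by
  have := X.X20; have := X.H.N0; have := X.lN0
  rw [Pm.X3L]; positivity

theorem G00 : 0 < p.G0L σ t := by
  have := X.X20; have := X.H.N0; have := xM0 X; have := X.nc0 5; have := X.nc0 (1 / 100)
  rw [Pm.G0L]; positivity

theorem lg_X3 : logb p.n (p.X3L t) ≤ -(101 / 200) + η ∨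
    logb p.n (p.X3L t) ≤ 3 / 2 * logb p.n (p.X2L t) + η := by
  refine (lg2 X.H (X.H.rp0 _) (rpow_pos_of_pos X.X20 _)).imp (fun h => h.trans ?_) fun h => h.trans ?_
  · rw [X.H.lg_rp]; linarith
  · rw [logb_rpow_eq_mul_logb_of_pos X.X20]

theorem lg_G0 (nd : -(1 / 3) - 4 * c ≤ logb p.n (p.muG t)) :
    logb p.n (p.G0L σ t) ≤ 5 * c - 1 / 3 - logb p.n (p.xM t) / 2 + η ∨
    2 * logb p.n (p.G0L σ t) ≤
      c - 2 / 3 + logb p.n (p.PhN t) / 2 + 1 / 6 - logb p.n (p.xM t) / 2 + 4 * c ∨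
    logb p.n (p.G0L σ t) ≤ logb p.n (p.X2L t) + η := by
  have H := X.H
  have := H.N0; have := xM0 X; have := X.nc0 5; have := X.nc0 (1 / 100); have := X.θ0
  have := X.Ph0; have := X.la0; have := X.hη; have := H.c_pos
  have w : 0 < p.wL t := by rw [Pm.wL]; positivity
  have w' : logb p.n (p.wL t) = -1 - logb p.n (p.muG t) := by
    rw [Pm.wL]; lg_norm; rw [H.lg_n]; ring
  have l := la_lo X
  have y : logb p.n (p.xM t) ≤ logb p.n (p.muG t) + 1 / 3 + 4 * c := by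
    rw [lg_xM X]; exact max_le (by linarith) (by linarith)
  have e1 : logb p.n (p.nc 5 * (p.n : ℝ) ^ (-(1 : ℝ) / 3) / √(p.xM t)) =
      5 * c - 1 / 3 - logb p.n (p.xM t) / 2 := by
    lg_norm; rw [H.lg_n, X.lg_nc]; ring
  have e2 : logb p.n (p.nc (1 / 100) * √(p.wL t * √(p.PhN t) / p.laG σ)) = 1 / 100 * c +
      (logb p.n (p.wL t) + logb p.n (p.PhN t) / 2 - logb p.n (p.laG σ)) / 2 := by
    lg_norm; rw [X.lg_nc]
  rw [Pm.G0L]
  rcases lg3 H (show 0 < p.nc 5 * (p.n : ℝ) ^ (-(1 : ℝ) / 3) / √(p.xM t) by positivity)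
    (show 0 < p.nc (1 / 100) * √(p.wL t * √(p.PhN t) / p.laG σ) by positivity) X.X20 with h | h | h
  · exact .inl (by linarith)
  · exact .inr (.inl (by linarith))
  · exact .inr (.inr h)

/-- the exponent allowed for the location at the level `x` -/
def bx (p : Pm) (t x : ℝ) : ℝ := (-(p.c / 2000) - 2 / 3 + 4 * logb p.n p.s - p.c / 1000 -
  max (logb p.n (p.msG t x)) (max (2 * logb p.n (p.msG t x) + 8 / 25 * p.c + logb p.n (p.sM t) -
    logb p.n (p.muG t)) (2 * logb p.n x + 8 / 25 * p.c + logb p.n (p.sM t) +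
      logb p.n (p.muG t)))) / 2

omit X in
theorem l3_bx : L3 p t x (2 * bx p t x + p.c / 1000) := by
  rw [bx]
  generalize hY : max (logb p.n (p.msG t x)) (max (2 * logb p.n (p.msG t x) + 8 / 25 * p.c +
    logb p.n (p.sM t) - logb p.n (p.muG t)) (2 * logb p.n x + 8 / 25 * p.c + logb p.n (p.sM t) +
      logb p.n (p.muG t))) = Y
  have a := hY ▸ le_max_left _ _
  have b := hY ▸ (le_max_left _ _).trans (le_max_right _ _)
  have d := hY ▸ (le_max_right _ _).trans (le_max_right _ _)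
  exact ⟨by linarith, by linarith, by linarith⟩

variable (hc : c ≤ 1 / 10000) (hη : 1000000 * η ≤ c) (h0 : p.l0G t (p.lN t) ≤ x)
  (h1 : x ≤ (p.n : ℝ) ^ η) (h : p.PN t x < p.PhN t)
include hc hη h0 h1 h

theorem ft : Ft (logb p.n p.s) c η (logb p.n (p.muG t)) (logb p.n (p.PhN t)) (logb p.n x)
    (logb p.n (p.msG t x)) (logb p.n (p.sM t)) (logb p.n p.LgL) (logb p.n (p.xM t))
    (logb p.n (p.X2L t)) (logb p.n (p.X3L t)) (logb p.n (p.G0L σ t)) (bx p t x) := by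
  have H := X.H
  have k := X.hp h0 h1 h
  have nd := X.need_iff.1 (X.t1L h0 h1 h).1
  obtain ⟨a1, a2, a3⟩ := X.t1 h0 h1 h
  have φ := phi_up k.ex nd
  have c0 := H.c_pos; have η0 := H.η_pos
  obtain ⟨s0, s1⟩ := H.lg_s
  have x0 := (Nr44.l00 H).trans_le h0
  refine ⟨c0, hc, η0, by linarith, s0, ?_, by rcases φ with φ | φ <;> linarith, ?_,
    (lg_X3 X).imp_right .inr, ?_, ?_, lg_G0 X nd, Hl4.ms_lg H X.Mt (Nr44.r0.trans h0),
    H.lg_le x0 h1, by linarith [Lt38.lg_θ X], nd, X.lg_sM.2.1, a2, a3.imp_right fun b => b.1, ?_⟩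
  · rw [Pm.LgL, logb_pow, Lt38.lg_E X]; push_cast; linarith
  · rw [X.lg_X2]
    have e := min_le_right (logb p.n (p.PhN t)) (2 / 3 * logb p.n (p.PhN t) +
      max (c / 100 + (logb p.n p.s + c / 13 - 1 / 6)) (-(7 / 60)))
    rcases max_choice (c / 100 + (logb p.n p.s + c / 13 - 1 / 6)) (-(7 / 60)) with r | r <;>
      rw [r] at e ⊢ <;> rcases φ with φ | φ <;> linarith
  · rw [lg_xM X]; exact le_max_left _ _
  · rw [lg_xM X]; exact le_max_right _ _
  · rw [bx, H.hc]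
    rcases max_choice (logb p.n (p.msG t x)) (max (2 * logb p.n (p.msG t x) + 8 / 25 * c +
      logb p.n (p.sM t) - logb p.n (p.muG t)) (2 * logb p.n x + 8 / 25 * c + logb p.n (p.sM t) +
        logb p.n (p.muG t))) with e | e <;> rw [e]
    · exact .inl (by linarith)
    · rcases max_choice (2 * logb p.n (p.msG t x) + 8 / 25 * c + logb p.n (p.sM t) -
        logb p.n (p.muG t)) (2 * logb p.n x + 8 / 25 * c + logb p.n (p.sM t) +
          logb p.n (p.muG t)) with e | e <;> rw [e]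
      · exact .inr (.inl (by linarith))
      · exact .inr (.inr (by linarith))

theorem need2 : p.Need2 t := by
  rcases le_total (logb p.n p.s) (7 / 200) with q | q
  · exact .inl (X.H.le_of_lg X.H.s0 (X.H.rp0 _) (by rw [X.H.lg_rp]; exact q))
  · exact .inr (X.H.le_of_lg (X.H.rp0 _) X.lg_x.1 (by
      rw [X.H.lg_rp, X.lg_x.2]; exact hp_nd (X.hp h0 h1 h) hc q))

/-- the value of `bx` at the top -/
theorem bx_ge : -(c / 2000) - 2 / 3 + 4 * logb p.n p.s - c / 1000 - (logb p.n (p.muG t) +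
    8 / 25 * c + logb p.n (p.sM t) + 2 * η) ≤ 2 * bx p t x := by
  have F := ft X hc hη h0 h1 h
  have := F.ms.u3; have := F.u1; have := X.lg_sM.1; have := F.c0; have := F.η0
  rcases F.hB with e | e | e <;> linarith

theorem p0_le {y : ℝ} (y0 : 0 ≤ y) (hy : y ≤ p.PhN t) : p.p0L σ t y ≤ (p.n : ℝ) ^ bx p t x := by
  have H := X.H
  have b := bx_ge X hc hη h0 h1 h
  have := X.nc0 (1 / 100); have := X.nc0 (1 / 20); have := X.nc0 (21 / 40); have := X.θ0
  have := X.Ph0; have := X.la0; have := X.sM0; have := H.c_pos; have := H.η_pos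
  have N : p.NL σ t y ≤ p.BuL σ t + p.nc (1 / 20) * p.muG t * p.PhN t ^ ((4 : ℝ) / 3) := by
    rw [Pm.NL]; gcongr
  have N0 := Lt38.NL0 X y0
  have e := H.lg_mono N0 N
  obtain ⟨z0, z1, z2⟩ := X.lg_sM
  have hy := X.hy
  have θ := H.lg_thetaG hy.hη hy.hε hy.M hy.E1 hy.E2 X.Ph0 hy.up
  have := X.lg_θla; have := Lt38.lg_θ X
  rw [Pm.p0L]
  refine H.le_of_lg (by positivity) (H.rp0 _) ?_
  rw [H.lg_rp]
  lg_norm
  rw [X.lg_nc]
  rcases lg2 H (Lt38.Bu0 X) (show 0 < p.nc (1 / 20) * p.muG t * p.PhN t ^ ((4 : ℝ) / 3) by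
    positivity) with d | d <;> replace d := e.trans d
  · have : logb p.n (p.BuL σ t) = 21 / 40 * c + 2 * (logb p.n (p.sM t) + logb p.n (p.laG σ)) := by
      rw [Pm.BuL]; lg_norm; rw [X.lg_nc]
    linarith
  · have : logb p.n (p.nc (1 / 20) * p.muG t * p.PhN t ^ ((4 : ℝ) / 3)) =
        1 / 20 * c + logb p.n (p.muG t) + 4 / 3 * logb p.n (p.PhN t) := by
      lg_norm; rw [X.lg_nc]
    linarith

variable {K c0' C0' η' : ℝ} {Q : Pl} (G : GrD K c0' C0' η' p σ t Q)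
include G

/-- the local size on the block -/
theorem bs_le {r : ℝ} (r1 : x / 4 ≤ r) (r2 : r ≤ 8 * x) :
    bs (p.scG K σ t Q) p.LgL (p.X2L t) (gG p σ t (p.scG K σ t Q) r) (etaL p σ t (p.scG K σ t Q)) r ≤
      4 * (p.n : ℝ) ^ bx p t x := by
  have H := X.H
  have cl := G.cl.1
  have F := ft X hc hη h0 h1 h
  have l8 := (X.t1L h0 h1 h).2.1
  have l0 := Lt38.lt0 X hη
  have x0 : 0 < x / 4 := by linarith
  have rx : p.r ≤ x / 4 := by linarith [Lt38.r_x X, Lt38.x_l X hη]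
  have L0 : 0 < p.LgL := one_pos.trans_le (Lt38.Lg1 X hη)
  have n0 := H.N0
  have K1 := G.nb.K1
  have := X.θ0; have := X.la0; have c0 := H.c_pos; have η0 := H.η_pos; have := X.X20
  have m0 : 0 < p.msG t (x / 4) := H.msG_pos X.Mt _
  have u := (Hl4.ms_lg H X.Mt rx).u1
  have e1 : logb p.n x - η ≤ logb p.n (x / 4) := by
    rw [logb_div (by linarith) (by norm_num)]
    linarith [(H.lg_num (x := 4) (by norm_num) (by norm_num)).2]
  have e2' : logb p.n (p.msG t x) - η ≤ logb p.n (p.msG t (x / 4)) := by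
    have a : p.msG t x ≤ 16 * p.msG t (x / 4) := ms4 cl (by linarith)
    have b := H.lg_mono (H.msG_pos X.Mt x) a
    rw [logb_mul (by norm_num) m0.ne'] at b
    linarith [(H.lg_num (x := 16) (by norm_num) (by norm_num)).2]
  have sq : p.msG t (x / 4) ≤ (x / 4) ^ 2 :=
    H.le_of_lg m0 (by positivity) (by rw [logb_pow]; push_cast; linarith)
  have mf1 : mf (p.scG K σ t Q) (x / 4) = p.msG t (x / 4) := div_one _
  obtain ⟨w, -, -⟩ := Ln97.lg_W H cl rfl rfl x0 sq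
  have w0 := Tn15.W0 cl x0
  change _ = -(1 + _ + logb p.n (p.msG t (x / 4))) / 3 at w
  obtain ⟨g, g0, g1, g2⟩ : ∃ g, 0 ≤ g ∧ gG p σ t (p.scG K σ t Q) r ≤ g ∧
      g ≤ (p.n : ℝ) ^ bx p t x * p.msG t (x / 4) := by
    rw [gG, kS_eq p (by linarith)]
    by_cases a : 32 * x ≤ Lt38.tz K
    · exact ⟨0, le_rfl, (Lt38.gL_lo (by linarith)).le, by positivity⟩
    · refine ⟨_, Lt38.gT0 X G, Lt38.gL_le (Lt38.gT0 X G) _, ?_⟩
      have E := Lt38.E_tz X hη G
      have E0 := Lt38.E0 X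
      have b : p.ye ≤ x / 4 := by
        refine le_trans (H.le_of_lg H.ye0 (show 0 < 1 / p.EL / 32 by positivity) ?_) (by linarith)
        lg_norm
        linarith [H.lg_ye, Lt38.lg_E X, (H.lg_num (x := 32) (by norm_num) (by norm_num)).2]
      rw [H.msG_top b]
      have k : logb p.n K ≤ η := (H.lg_mono (by linarith) (by nlinarith)).trans (Lt38.lg_C X G).2.2
      refine H.le_of_lg (by positivity) (by positivity) ?_
      lg_norm
      rw [H.lg_n]
      linarith [bx_ge X hc hη h0 h1 h, X.lg_θla, X.lg_sM.2.1, H.lg_s.1,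
        (H.lg_num (x := 4) (by norm_num) (by norm_num)).2]
  have gn : 0 ≤ gG p σ t (p.scG K σ t Q) r := by
    rw [gG, kS_eq p (by linarith)]; exact Lt38.gL_nn (Lt38.gT0 X G) _
  refine (bs_anti cl (eta_anti cl l0 L0 (H.rp0 _) X.Ph0 X.X20 (X30 X) (G00 X) r1)
    (add_nonneg (eta_nn cl l0 L0 (H.rp0 _) X.Ph0 X.X20 (X30 X) (G00 X) r) gn) g1 X.X20.le x0
    r1).trans ((one_mul _).symm.trans_le (Lt76.bs_le cl x0.le (by positivity) ?_ ?_ ?_ ?_))
  · rw [one_mul, mf1, Ln97.eta_eq (by linarith)]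
    refine (e2_lg H cl rfl rfl x0 sq L0 X.Ph0 X.X20 (X30 X) (G00 X) (by ring)
      (Hl4.m12_up F.m12 e1 e2')).trans (H.le_of_lg (by positivity) (by positivity) ?_)
    lg_norm
    rw [H.lg_n]
    linarith
  · rw [one_mul, mf1]; exact g2
  · rw [mf1]
    refine H.le_of_lg (by positivity) (by positivity) ?_
    lg_norm
    rw [H.lg_n]
    linarith [F.k2]
  · rw [mf1]
    refine H.le_of_lg (by positivity) (by positivity) ?_
    lg_norm
    rw [H.lg_n]
    linarith [F.k3]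

/-- **the block of a thick level** -/
theorem blk {m : ℕ} {a : ℝ} (hT : x ≤ T0 (p.scG K σ t Q) (p.gst Q t))
    (hs : ∀ k, 2 * p.ltL t ≤ (p.gst Q t).s k →
      (p.gst Q t).s k + p.elL t ≤ p.tuL t ((p.gst Q t).s (p.scG K σ t Q).J) →
      |(p.gst Q t).del m a k| ≤ p.EL * (p.p0L σ t (p.XpL σ t) + bs (p.scG K σ t Q) p.LgL (p.X2L t)
        (gG p σ t (p.scG K σ t Q) ((p.gst Q t).s k)) (etaL p σ t (p.scG K σ t Q))
        ((p.gst Q t).s k))) :
    ∑ k ∈ sb (p.scG K σ t Q) (p.gst Q t) (x / 4) (8 * x),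
      lw (p.gst Q t) k * (p.gst Q t).del m a k ^ 2 ≤ p.PN t x := by
  have H := X.H
  have cl := G.cl.1
  obtain ⟨-, l8, mid⟩ := X.t1L h0 h1 h
  have x0 := (Nr44.l00 H).trans_le h0
  have E0 := Lt38.E0 X
  have E2 := Lt38.E2 X hη
  have n0 := H.N0
  have c0 := H.c_pos; have η0 := H.η_pos
  have nx : ∀ y, 0 ≤ y → 0 ≤ p.nxL σ t y := fun y y0 => le_min X.Ph0.le
    (div_pos (mul_pos (X.nc0 _) (Lt38.NL0 X y0)) X.θ0).le
  have p0 := p0_le X hc hη h0 h1 h (y := p.XpL σ t) (nx _ (nx _ X.Ph0.le)) (min_le_left _ _)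
  have el : 2 * p.elL t ≤ 1 / p.EL := by nlinarith [Lt38.el2 X hη, Lt38.el0 X hη]
  have tu : 8 * x + p.elL t ≤ p.tuL t ((p.gst Q t).s (p.scG K σ t Q).J) := by
    rw [Pm.tuL]
    split_ifs with a
    · rw [T0] at hT
      linarith [Lt38.E_sJ X hη G]
    · have b : 16 * p.nc (-(1 / 10)) ≤ 1 / p.EL := by
        have := X.nc0 (-(1 / 10))
        refine H.le_of_lg (by positivity) (by positivity) ?_
        lg_norm
        linarith [X.lg_nc (-(1 / 10)), Lt38.lg_E X,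
          (H.lg_num (x := 16) (by norm_num) (by norm_num)).2]
      linarith [mid a]
  have hv : (p.scG K σ t Q).v ≤ x := by
    have A2 : (2 : ℝ) ≤ A := by exact_mod_cast H.A2
    change p.v ≤ x
    exact H.le_of_lg H.v0 x0 (by
      linarith [H.lg_v_le, H.lg_mono H.r0 (Nr44.r0.trans h0), H.lg_r, H.lg_s.1])
  rw [(thick h).2.1]
  refine pb_of X x0 ((sup cl (D := p.EL * (5 * (p.n : ℝ) ^ bx p t x)) hv
    fun k _ _ r1 r2 => (hs k (by linarith) (by linarith)).trans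
      (mul_le_mul_of_nonneg_left (by linarith [bs_le X hc hη h0 h1 h G r1 r2]) E0.le)).trans ?_)
    l3_bx
  have C := Lt38.lg_C X G
  have C0 := cl.C0
  have e : logb p.n (p.scG K σ t Q).C ≤ η := C.2.2
  refine H.le_of_lg (by positivity) (by positivity) ?_
  lg_norm
  rw [H.lg_n, H.hc]
  linarith [Lt38.lg_E X, (H.lg_num (x := 9) (by norm_num) (by norm_num)).2,
    (H.lg_num (x := 5) (by norm_num) (by norm_num)).2]

omit X hc hη h0 h1 h G in
/-- **the leaf `Blkx`** -/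
theorem blkG {β : ℝ} (hβ : 1 < β) (hS : OnG Supx β) : OnG Blkx β :=
  OnG.cl' hβ CL.triv hS one_pos (c1 := 1 / 10000) (by norm_num) 1000000 0 (fun _ => 0)
    fun K c0 C0 A c η K' c0' C0' η' p σ t Q G hc _ hη _ _ Y m a hm hΦ x x0 x1 h => by
      have hη' : 1000000 * η ≤ c := by exact_mod_cast hη
      have X : Cx β c0 C0 A c η K' p σ t :=
        ⟨G.R, by linarith, by linarith [G.R.η_pos], G.O⟩
      have h1 := (x1.trans (Cx.T0_le G.D)).trans G.CK
      exact blk X hc hη' x0 h1 h G.D x1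
        (Y (X.t1L x0 h1 h).1 (need2 X hc hη' x0 h1 h) m a hm hΦ)

end Crest.Agent.T156.Alt.Bk79

end
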