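import Crest.Agent.T156.ClZb_9
import Crest.Agent.T156.LDef_69
import Crest.Agent.T156.CutB_8
import Crest.Agent.T156.L0_49

/-!
# Row 156, block (L): elementary facts read by `GsS` and `BoK` (helper69)
-/

set_option autoImplicit false

noncomputable section

namespace Crest.Agent.T156.Alt.B69

open MeasureTheory Set Real
open Crest.Agent.R164.GC Crest.Agent.R339.B Crest.Agent.R339.Var Crest.Agent.T157.Pf
open Crest.Agent.T156.Cut8 (LB)
open Crest.Agent.T156.Alt.Mp9 Crest.Agent.T156.Alt.L69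

variable {S : Sc} {M : Md} {m : ℕ} {a T : ℝ}

theorem cr_one (S : Sc) (t : ℝ) : 1 ≤ cr S t := le_max_left _ _

theorem cr_cube (h : Cl S M) {t : ℝ} (t0 : 0 < t) :
    cr S t ^ 3 = max 1 (S.F * S.ms t / t ^ 2) := by
  have x0 : 0 ≤ S.F * S.ms t / t ^ 2 := by
    have := h.F1
    have := h.ms_pos t0.le
    positivity
  have e : ((S.F * S.ms t / t ^ 2) ^ ((1 : ℝ) / 3)) ^ 3 = S.F * S.ms t / t ^ 2 := by
    rw [← rpow_natCast, ← rpow_mul x0]; norm_num
  rw [cr, (pow_left_monotoneOn (n := 3)).map_max (Set.mem_ofPred.2 zero_le_one)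
    (Set.mem_ofPred.2 (rpow_nonneg x0 _)), one_pow, e]

theorem cc_cube (h : Cl S M) {t : ℝ} (t0 : 0 < t) :
    (cr S t * t) ^ 3 = max (t ^ 3) (S.F * S.ms t * t) := by
  rw [mul_pow, cr_cube h t0, max_mul_of_nonneg _ _ (pow_pos t0 3).le, one_mul]
  congr 1
  field_simp

theorem cc_mono (h : Cl S M) {t t' : ℝ} (t0 : 0 < t) (ht : t ≤ t') :
    cr S t * t ≤ cr S t' * t' := by
  have t1 := t0.trans_le ht
  have := cr_one S t'
  refine le_of_pow_le_pow_left₀ (by decide : 3 ≠ 0) (by positivity) ?_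
  rw [cc_cube h t0, cc_cube h t1]
  have := h.F1
  have := h.ms_pos t1.le
  have := h.msm ht
  gcongr

theorem cr_dbl (h : Cl S M) {t t' : ℝ} (t0 : 0 < t) (ht : t ≤ t') : cr S t' ≤ 2 * cr S t := by
  have t1 := t0.trans_le ht
  have := cr_one S t
  have F0 : 0 < S.F := by linarith [h.F1]
  refine le_of_pow_le_pow_left₀ (by decide : 3 ≠ 0) (by positivity) ?_
  rw [mul_pow, cr_cube h t0, cr_cube h t1]
  have a := h.ms_mul t0.le ((one_le_div t0).2 ht)
  rw [div_mul_cancel₀ _ t0.ne'] at a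
  have b : S.F * S.ms t' / t' ^ 2 ≤ 4 * (S.F * S.ms t / t ^ 2) := by
    refine (div_le_div_of_nonneg_right (mul_le_mul_of_nonneg_left a F0.le) (by positivity)).trans
      (le_of_eq ?_)
    field_simp
  have c1 := le_max_left 1 (S.F * S.ms t / t ^ 2)
  have c2 := le_max_right 1 (S.F * S.ms t / t ^ 2)
  exact max_le (by linarith) (by linarith)

theorem cc_ge (S : Sc) {t : ℝ} (ht : 0 ≤ t) : t ≤ cr S t * t :=
  le_mul_of_one_le_left ht (cr_one S t)

/-- `cr t * t ≤ 2 k cr l * l` on `[l, k l]` -/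
theorem cc_le (h : Cl S M) {l t k : ℝ} (l0 : 0 < l) (h1 : l ≤ t) (h2 : t ≤ k * l) :
    cr S t * t ≤ 2 * k * (cr S l * l) := by
  have a1 := cr_dbl h l0 h1
  have a2 := cr_one S l
  calc cr S t * t ≤ 2 * cr S l * (k * l) := mul_le_mul a1 h2 (by linarith) (by linarith)
    _ = _ := by ring

theorem uw_nn (h : Cl S M) (Lg : ℝ) {t : ℝ} (ht : 0 ≤ t) : 0 ≤ uw S Lg t := by
  have := h.F1
  have := h.ms_pos ht
  have := cr_one S t
  have : 0 ≤ S.w3 t := by unfold Sc.w3; positivity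
  unfold uw
  positivity

theorem mf_le (h : Cl S M) {t : ℝ} (ht : 0 ≤ t) : mf S t ≤ S.ms t :=
  div_le_self (h.ms_pos ht).le h.F1

theorem mf_pos (h : Cl S M) {t : ℝ} (ht : 0 ≤ t) : 0 < mf S t :=
  div_pos (h.ms_pos ht) (by linarith [h.F1])

section ln

variable {E l0 l V X Lg X2 X3 G0 : ℝ} {η : ℝ → ℝ}

theorem l0_pos (h : Cl S M) (N : LN E S M l0 l V X Lg X2 X3 G0 η) (E0 : 0 < E) : 0 < l0 :=
  (mul_pos E0 (h.s_pos (h.i0.trans h.i1))).trans_le N.l0s

theorem v_le (h : Cl S M) (N : LN E S M l0 l V X Lg X2 X3 G0 η) (E0 : 0 < E) :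
    E * S.v ≤ S.C * l0 := by
  have a1 := (h.s_bds (k := S.jl) h.jl_lt.le).1
  have a2 : (1 : ℝ) ≤ S.jl := by exact_mod_cast h.i0.trans h.i1
  have c := h.C0
  have v := h.v0
  have a3 : S.v / S.C ≤ M.s S.jl := le_trans (le_mul_of_one_le_left (by positivity) a2) a1
  rw [div_le_iff₀ c] at a3
  nlinarith [N.l0s, mul_le_mul_of_nonneg_left a3 E0.le, mul_le_mul_of_nonneg_left N.l0s c.le]

theorem nn3 (h : Cl S M) (N : LN E S M l0 l V X Lg X2 X3 G0 η) (E0 : 0 < E) :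
    0 ≤ X2 ∧ 0 ≤ X3 ∧ 0 ≤ G0 := by
  have := l0_pos h N E0
  exact ⟨le_trans (by positivity) N.x2a, le_trans (by positivity) N.x3a,
    le_trans (by positivity) N.g0a⟩

theorem l_le (N : LN E S M l0 l V X Lg X2 X3 G0 η) (E1 : 1 ≤ E) (l0 : 0 < l) : l ≤ 1 :=
  (le_mul_of_one_le_left l0.le E1).trans N.l1

theorem eta_pos (h : Cl S M) (N : LN E S M l0 l V X Lg X2 X3 G0 η) (E1 : 1 ≤ E) : 0 < η 1 := by
  have E0 : 0 < E := by linarith
  have l1 := (l0_pos h N E0).trans_le N.l0l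
  obtain ⟨a1, a2, a3⟩ := nn3 h N E0
  refine lt_of_lt_of_le ?_ (N.ηb 1 (l_le N E1 l1) h.C1)
  have := uw_nn h Lg zero_le_one
  have := h.N0
  have : 0 ≤ min (S.ms 1 / 1) 1 := le_min (by have := h.ms_pos zero_le_one; positivity) zero_le_one
  positivity

theorem tau_nn {Xp Vt Lp G1 u1 u2 j γ Lc ηc τ N' : ℝ} (h : Cl S M)
    (N : LN E S M l0 l V X Lg X2 X3 G0 η)
    (P : LP E S M Xp Vt Lg Lp X2 X3 G0 G1 u1 u2 j γ Lc ηc τ η N') (E1 : 1 ≤ E) (j0 : 0 ≤ j) :
    0 ≤ τ := by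
  have E0 : 0 < E := by linarith
  obtain ⟨a1, a2, a3⟩ := nn3 h N E0
  have F1 := h.F1
  have L0 : 0 < Lc := lt_of_lt_of_le (by positivity) (N.Lg0.trans P.Lc1.1)
  have w0 : 0 ≤ S.w3 1 := by have := h.ms_pos zero_le_one; unfold Sc.w3; positivity
  have x0 := P.Xp0.1
  have t0 := h.θ0
  have e0 : 0 ≤ ηc := le_trans (by positivity) (P.ηc1 _ rfl).1
  have := mf_pos h zero_le_one
  exact le_trans (by positivity) P.τ0

end ln

/-- the reference time of a node from the size of `u` at its time -/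
theorem s_le (A : At S M m a T) {k : ℕ} (h1 : S.jl ≤ k) (h2 : k < S.J) {U : ℝ}
    (hU : |uu M S m a T (sb M m a (k + 1))| ≤ U) :
    M.s k ≤ sb M m a (k + 1) + S.C * (U + S.C * S.v) := by
  have h := A.cl
  have kp := h2.le.trans h.i3
  have r0 := (A.sb_mem kp).1
  have c := h.C0
  have v := h.v0
  have U0 := (abs_nonneg _).trans hU
  rcases le_total (M.s k) (sb M m a (k + 1)) with c1 | c1
  · have : 0 ≤ S.C * (U + S.C * S.v) := by positivity
    linarith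
  · have a1 := (h.lip _ _ r0 c1 (h.s_lt h2 h2)).1
    rw [h.z_eq (h.i1.trans h1) h2, ← A.lvh' r0, ← A.lvb_node h1 kp] at a1
    have a2 := (abs_le.1 hU).2
    unfold uu at a2
    have a3 : (M.s k - sb M m a (k + 1)) / S.C ≤ U + S.C * S.v := by linarith
    rw [div_le_iff₀ c] at a3
    linarith

theorem lb_uu (A : At S M m a T) : LB T (uu M S m a T) :=
  (Cut8.LB.of_mono (Sc48.lvr_mono A.okb.1.1)).sub (Cut8.LB.of_mono (Sc48.lvr_mono A.okh.1.1))

/-- monotonicity of the integral of a nonnegative function in the interval -/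
theorem int_le {f : ℝ → ℝ} (hf : LB T f) {p q x y : ℝ} (h0 : 0 ≤ p) (h1 : p ≤ x) (h2 : x ≤ y)
    (h3 : y ≤ q) (h4 : q ≤ T) (hl : ∀ t, p < t → t < x → 0 ≤ f t)
    (hr : ∀ t, y < t → t < q → 0 ≤ f t) : ∫ t in x..y, f t ≤ ∫ t in p..q, f t := by
  have mp : p ∈ Icc 0 T := ⟨h0, by linarith⟩
  have mx : x ∈ Icc 0 T := ⟨by linarith, by linarith⟩
  have my : y ∈ Icc 0 T := ⟨by linarith, by linarith⟩
  have mq : q ∈ Icc 0 T := ⟨by linarith, h4⟩
  have a1 := intervalIntegral.integral_mono_on_of_le_Ioo h1 (intervalIntegrable_const (c := (0 : ℝ)))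
    (hf.ii mp mx) fun t ht => hl t ht.1 ht.2
  have a2 := intervalIntegral.integral_mono_on_of_le_Ioo h3 (intervalIntegrable_const (c := (0 : ℝ)))
    (hf.ii my mq) fun t ht => hr t ht.1 ht.2
  rw [← intervalIntegral.integral_add_adjacent_intervals (hf.ii mp mx) (hf.ii mx mq),
    ← intervalIntegral.integral_add_adjacent_intervals (hf.ii mx my) (hf.ii my mq)]
  simp only [intervalIntegral.integral_zero] at a1 a2
  linarith

theorem gd_le (A : At S M m a T) {k : ℕ} (h1 : S.jl ≤ k) (h2 : k ≤ S.Jp) :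
    |L0.Gd (lb M S m a T) (sb M m a (k + 1))| ≤ 4 * sb M m a (k + 1) + 2 * M.z k := by
  have mk := A.sb_mem h2
  have a1 := L0.Gd_le (L0.ap_of_ok A.okb.1) (t := sb M m a (k + 1)) (by rw [A.okb.2]; exact mk)
  have a2 := L0.Gd_ge A.okb.1.1 (sb M m a (k + 1))
  rw [A.lvb_node h1 h2] at a2
  exact abs_le.2 ⟨by linarith [mk.1], by linarith [A.cl.z_pos k]⟩

theorem sb_le' (A : At S M m a T) {k : ℕ} (hk : k ≤ M.N) :
    sb M m a (k + 1) ≤ S.C * M.rb m a k + M.H k := by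
  obtain ⟨d1, d2⟩ := d_mem A.cl hk
  obtain ⟨k0, k1⟩ := kp_mem m
  have r0 := (rb_mem (M := M) (a := a) A.m_pos k).1
  have u1 : kp m * M.d k * M.rb m a k ≤ S.C * M.rb m a k := mul_le_mul_of_nonneg_right
    ((mul_le_of_le_one_left (by linarith) k1).trans (d2.trans A.cl.b1)) r0
  simp only [sb]
  linarith

/-- an index window of the level `t` -/
theorem win (h : Cl S M) {t : ℝ} (hv : 16 * (S.C * S.v) ≤ t) (hj : M.s S.jl < t)
    (hJ : 2 * t ≤ M.s S.J) : ∃ p q : ℕ, S.jl < p ∧ p ≤ q ∧ 2 * q ≤ 3 * p ∧ q < S.J ∧ t ≤ M.s p ∧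
      M.s q ≤ 9 / 8 * t ∧ t < 16 * (S.C * S.v) * ((q : ℝ) - p + 1) := by
  have c := h.C0
  have v := h.v0
  have cv : 0 < S.C * S.v := by positivity
  have t0 : 0 < t := by linarith
  obtain ⟨k, k1, k2, k3, k4⟩ := h.exists_node t0.le (by linarith : t < M.s S.J)
  have k5 := (h.ss k k1).2
  set N := ⌊t / (16 * (S.C * S.v))⌋₊ with hN
  have n1 : (N : ℝ) ≤ t / (16 * (S.C * S.v)) := Nat.floor_le (by positivity)
  have n2 : t / (16 * (S.C * S.v)) < N + 1 := Nat.lt_floor_add_one _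
  rw [le_div_iff₀ (by positivity)] at n1
  rw [div_lt_iff₀ (by positivity)] at n2
  have p1 := (h.s_bds (k := k + 1) k1).2
  have p2 : 2 * N ≤ k + 1 := by
    have : ((2 * N : ℕ) : ℝ) * (S.C * S.v) ≤ ((k + 1 : ℕ) : ℝ) * (S.C * S.v) := by
      push_cast at p1 ⊢
      nlinarith [mul_nonneg (Nat.cast_nonneg (α := ℝ) N) cv.le]
    exact_mod_cast le_of_mul_le_mul_right this cv
  have qJ : k + 1 + N < S.J := by
    by_contra hc
    have a1 := (h.s_tel (i := k + 1) k1 le_rfl).2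
    have a2 : (S.J : ℝ) - (k + 1 : ℕ) ≤ N := by
      have : ((S.J : ℕ) : ℝ) ≤ ((k + 1 + N : ℕ) : ℝ) := by exact_mod_cast not_lt.1 hc
      push_cast at this ⊢
      linarith
    nlinarith [mul_le_mul_of_nonneg_right a2 cv.le]
  have q1 := (h.s_tel (i := k + 1) (j := k + 1 + N) (by omega) qJ.le).2
  refine ⟨k + 1, k + 1 + N, ?_, by omega, by omega, qJ, k3.le, ?_, ?_⟩
  · exact lt_of_not_ge fun hc => by linarith [h.sm hc]
  · push_cast at q1
    nlinarith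
  · push_cast
    nlinarith

end Crest.Agent.T156.Alt.B69

end
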