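import Crest.Agent.T156.ClRes_27
import Crest.Agent.T156.LDefX_64

/-!
# Row 156, block (L): the bulk output read by the upper cuts, statements (helper74)
-/

set_option autoImplicit false

noncomputable section

namespace Crest.Agent.T156.Alt.C74

open MeasureTheory Set Real
open Crest.Agent.R164.GC Crest.Agent.R339.B Crest.Agent.R339.Var Crest.Agent.T157.Pf
open Crest.Agent.T156.Cut8 (LB Res Jf)
open Crest.Agent.T156.Gap27 (HN NumM xi)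
open Crest.Agent.T156.Alt.Mp9 Crest.Agent.T156.Alt.L69

variable (M : Md) (S : Sc) (m : ℕ) (a T : ℝ)

/-- the clamped mark term -/
def HH : ℝ → ℝ := HN (lb M S m a T) (lh M T) M.b (sb M m a) (hb M) (S.Jp + 1) (mm M S m a) (Mx M S m a)
/-- `J` -/
def JJ : ℝ → ℝ := Jf T (lvr 1 (lh M T)) (lvr 1 (lb M S m a T))
/-- `∫ |J|` -/
def io : ℝ := ∫ r in (0 : ℝ)..T, |JJ M S m a T r|
/-- the root scale -/
def ts (l : ℝ) : ℝ := max l (√(S.F * S.ms l))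
/-- the root cost -/
def W0 (l : ℝ) : ℝ := l ^ 5 + S.ms l * l ^ 3

variable {M S m a T}

/-- **bulk output** on `[sb (u + 1), s]`: loss `L`, pairing constant `θ0`, global energy `Eg` -/
structure Bo (S : Sc) (M : Md) (m : ℕ) (a T θ0 L l X X2 Eg : ℝ) (η : ℝ → ℝ) (u : ℕ) (s ρ : ℝ)
    (r1 r2 ω β f : ℝ → ℝ) : Prop where
  ju : S.jl < u
  uJ : u < S.J
  su : l ≤ M.s u ∧ M.s u ≤ L * l
  s1 : 1 ≤ L * s ∧ s < M.s S.J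
  cru : sb M m a (u + 1) ≤ L * (cr S l * l)
  ru : |res M S m a T u| ≤ L * (S.F * S.ms l * l + l ^ 3) + S.ms l * sb M m a (u + 1) / L
  ρ0 : 0 ≤ ρ
  ρ1 : ∀ t Y, sb M m a (u + 1) < t → L * l ≤ t → L * t ≤ 1 → L4 S (cr S l * l) X l (4 * t) Y →
    ρ ≤ L * ((sb M m a (u + 1) + l) * X2 + l * (cr S l * l) ^ 2 + √(sb M m a (u + 1) * Y))
  lf : LB T f
  R : Res T (uu M S m a T) (fun t => Pr.Gam (lb M S m a T) t - Pr.Gam (lh M T) t) (HH M S m a T)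
    r1 r2 ω β (fun t => xi θ0 (mm M S m a t) (f t) (io M S m a T) (uu M S m a T t) (JJ M S m a T t))
    (sb M m a (u + 1)) s
  ab : ∀ t, sb M m a (u + 1) ≤ t → t ≤ s → |r2 t| ≤ (∫ r in sb M m a (u + 1)..t, ω r) + ρ + β t
  nm : ∀ t, sb M m a (u + 1) < t → t < s → l ≤ t → ∃ A0 A1 A2, 0 ≤ A1 ∧
    NumM θ0 (mm M S m a t) (f t) A0 A1 A2 ∧
    |r1 t| + β t ≤ A0 + A1 * |uu M S m a T t| + A2 * (|JJ M S m a T t| + io M S m a T)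
  hF : ∀ t, sb M m a (u + 1) < t → 2 * t ≤ s → L * l ≤ t → L * S.ms (4 * t) ≤ t ^ 2 →
    (∀ r, 0 ≤ r → r ≤ 7 * t / 4 → |uu M S m a T r| ≤ t / (8 * S.C)) →
    ∫ r in sb M m a (u + 1)..3 * t / 2, f r ≤ L * S.F ^ 12 * (W0 S l + cB M S η l (4 * t)) +
      ∫ r in sb M m a (u + 1)..2 * t, HH M S m a T r * uu M S m a T r
  hΩ : ∀ t Y, sb M m a (u + 1) < t → 2 * t ≤ s → L * l ≤ t → L * t ≤ 1 →
    L * S.ms (4 * t) ≤ t ^ 2 →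
    (∀ r, 0 ≤ r → r ≤ 7 * t / 4 → |uu M S m a T r| ≤ t / (8 * S.C)) →
    L4 S (cr S l * l) X l (4 * t) Y →
    ∫ r in sb M m a (u + 1)..3 * t / 2, ω r ^ 2 ≤ L * (W0 S l + t * X2 ^ 2 + Y) +
      θ0 ^ 2 * ∫ r in (0 : ℝ)..7 * t / 4, uu M S m a T r ^ 4
  gJ : ∫ r in (0 : ℝ)..T, JJ M S m a T r ^ 2 ≤ L * S.F ^ 12 * Eg
  gH : ∫ r in sb M m a (u + 1)..s, HH M S m a T r * uu M S m a T r ≤ L * S.F ^ 12 * Eg

/-- **(BoS)** the bulk output on the class -/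
def BoS : Prop := ∀ θ : ℝ → ℝ, (∀ C, 0 < θ C ∧ θ C ≤ 1) → CL fun E Λ S M m a =>
  ∀ G1 u1 u2 j γ Lc ηc τ l X Xp Vt V2 Lg Lp X2 X3 X4 G0 η N' N,
  CeiG S M G1 → LN E S M l l (cr S l * l) X Lg X2 X3 G0 η → L4 S (cr S l * l) X l S.C X4 →
  LP E S M Xp Vt Lg Lp X2 X3 G0 G1 u1 u2 j γ Lc ηc τ η N' →
  LC E S M Xp Vt V2 Lg Lp X2 G0 G1 u1 u2 j γ ηc τ η N → S.F ^ 40 ≤ E → Λ ^ 1000 ≤ E →
  Ap S M m a l X Xp Vt u1 j → Ap2 S M m a V2 u1 u2 →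
  ∃ u s ρ r1 r2 ω β f, Bo S M m a (2 * S.C) (θ S.C) Λ l X X2
    (l ^ 5 + S.ms l * l ^ 3 + cB M S η l S.C + X2 ^ 2 + X4 + N) η u s ρ r1 r2 ω β f

/-- **(RtN)** the root numbers from the local energy -/
def RtN : Prop := ∀ C : ℝ, ∃ K : ℝ, 1 ≤ K ∧ ∀ (S : Sc) (M : Md) (m : ℕ) (a G1 L l E1 ι : ℝ) (u : ℕ),
  At S M m a (2 * C) → S.C = C → CeiG S M G1 →
  (∀ t t', 0 ≤ t → t ≤ t' → S.ms t' ≤ S.ms t + t' ^ 2) → K ≤ L → 0 < l → S.jl < u → u < S.J →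
  M.s u ≤ L * l → sb M m a (u + 1) ≤ M.s S.J → sb M m a (u + 1) ≤ L * (cr S l * l) →
  |res M S m a (2 * C) u| ≤ L * (S.F * S.ms l * l + l ^ 3) + S.ms l * sb M m a (u + 1) / L →
  ∫ r in (0 : ℝ)..sb M m a (u + 1), JJ M S m a (2 * C) r ^ 2 ≤ E1 → io M S m a (2 * C) ≤ ι →
  (sb M m a (u + 1) + L * l) ^ 3 * ((sb M m a (u + 1) + L * l) ^ 2 + ts S l ^ 2 +
    S.ms (sb M m a (u + 1))) ≤ L ^ 60 * S.F ^ 10 * W0 S l + (E1 + sb M m a (u + 1) * ι ^ 2) / L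

end Crest.Agent.T156.Alt.C74

end
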