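import Crest.Agent.T156.Abel_33
import Crest.Agent.T156.TL1cD_74

/-!
# Row 156, block (L): from the node form of the bulk to the form read by the cuts (helper93)
-/

set_option autoImplicit false

noncomputable section

namespace Crest.Agent.T156.Alt.B93

open Real MeasureTheory Crest.Agent.T156.Alt.Mp9 Crest.Agent.T156.Cut8 Crest.Agent.T156.Alt.L69
open Crest.Agent.T156.Alt.C74 Crest.Agent.T156.Gap27

variable {S : Sc} {M : Md} {m : ℕ} {a T : ℝ}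

theorem W0_nn' (h : Cl S M) {l : ℝ} (l0 : 0 < l) : 0 ≤ W0 S l := by
  have := h.ms_pos l0.le
  unfold W0; positivity

theorem lb_u (A : At S M m a T) : LB T (uu M S m a T) :=
  (LB.of_mono (Sc48.lvr_mono A.okb.1.1)).sub (LB.of_mono (Sc48.lvr_mono A.okh.1.1))

theorem numM_nn {θ μ f A0 A1 A2 : ℝ} (θ0 : 0 < θ) (h : NumM θ μ f A0 A1 A2) : 0 ≤ f := by
  obtain ⟨a0, g, f1, lam, -, p2, -, p4, -, -, -, p8⟩ := h
  have : 0 ≤ f1 := le_of_mul_le_mul_left (a := θ ^ 2 * μ)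
    (by linarith [sq_nonneg a0]) (by positivity)
  linarith [show 0 ≤ lam ^ 4 by positivity]

/-- the reference time of a node from the location -/
theorem s_le (A : At S M m a T) {k : ℕ} {t : ℝ} (h1 : S.jl ≤ k) (h2 : k < S.J)
    (h3 : sb M m a (k + 1) < M.s S.J) (h4 : sb M m a (k + 1) ≤ 7 * t / 4)
    (hv : S.C ^ 2 * S.v ≤ t)
    (loc : ∀ r, 0 ≤ r → r ≤ 7 * t / 4 → |uu M S m a T r| ≤ t / (8 * S.C)) : M.s k ≤ 4 * t := by
  have kp := h2.le.trans A.cl.i3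
  have x0 := (A.sb_mem kp).1
  have C0 := A.c_pos
  have d := A.dist_le (A.cell h1 kp) (A.cl.i1.trans h1) h2 x0 h3
  have e := mul_le_mul_of_nonneg_left (loc _ x0 h4) C0.le
  rw [show S.C * (t / (8 * S.C)) = t / 8 by field_simp] at e
  have f := neg_abs_le (sb M m a (k + 1) - M.s k)
  rw [mul_add] at d
  linarith [show S.C * (S.C * S.v) = S.C ^ 2 * S.v by ring]

/-- a good node in the window `[3 t / 2, 7 t / 4]` -/
theorem window (A : At S M m a T) {Gn : ℕ → Prop} {u v : ℕ} {t L : ℝ} (ju : S.jl < u) (uv : u ≤ v)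
    (vJ : v < S.J) (gu : Gn u) (gv : Gn v) (hJ : sb M m a (v + 1) < M.s S.J)
    (sh : ∀ i k, Nx Gn u v i k → 16 * (sb M m a (k + 1) - sb M m a (i + 1)) ^ 2 ≤ L * S.ms (M.s i))
    (L0 : 0 ≤ L) (h1 : sb M m a (u + 1) < t) (h2 : 2 * t ≤ sb M m a (v + 1))
    (h3 : L * S.ms (4 * t) ≤ t ^ 2) (hv : S.C ^ 2 * S.v ≤ t)
    (loc : ∀ r, 0 ≤ r → r ≤ 7 * t / 4 → |uu M S m a T r| ≤ t / (8 * S.C)) :
    ∃ k, u ≤ k ∧ k ≤ v ∧ Gn k ∧ 3 * t / 2 ≤ sb M m a (k + 1) ∧ sb M m a (k + 1) ≤ 7 * t / 4 ∧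
      M.s k ≤ 4 * t := by
  have x0 := (A.sb_mem (uv.trans (vJ.le.trans A.cl.i3))).1
  have t0 : 0 < t := x0.trans_lt h1
  obtain ⟨i, k, n, p1, p2⟩ := exists_nx (σ := fun j => sb M m a (j + 1)) (t := 3 * t / 2) uv gu gv
    (by linarith) (by linarith)
  have q := sh i k n
  obtain ⟨n1, n2, n3, -, n5, -⟩ := n
  have lt : ∀ j, j ≤ v → sb M m a (j + 1) < M.s S.J := fun j h =>
    (A.sb_mono (Nat.succ_le_succ h)).trans_lt hJ
  have a1 := s_le A (k := i) (by omega) (by omega) (lt i (by omega)) (by linarith) hv loc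
  have a2 := q.trans ((mul_le_mul_of_nonneg_left (A.cl.msm a1) L0).trans h3)
  have a3 : sb M m a (k + 1) - sb M m a (i + 1) ≤ t / 4 :=
    le_of_sq_le_sq (by linarith) (by positivity)
  exact ⟨k, by omega, n3, n5, p2, by linarith,
    s_le A (by omega) (by omega) (lt k n3) (by linarith) hv loc⟩

theorem n_le (h : Cl S M) {l : ℝ} (l0 : 0 < l) (l1 : l ≤ 1) (hw : S.w3 l ≤ l ^ 3) :
    1 / (S.n : ℝ) ^ 3 ≤ W0 S l ∧ 1 / (S.n : ℝ) ^ 3 ≤ l ^ 2 * (cr S l * l) ^ 3 := by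
  have n1 : (1 : ℝ) ≤ S.n := by exact_mod_cast h.n1
  have m0 := h.ms_pos l0.le
  have F1 := h.F1
  unfold Sc.w3 at hw
  rw [div_le_iff₀ (by positivity)] at hw
  have a1 : 1 / (S.n : ℝ) ^ 3 ≤ S.ms l * l ^ 4 := by
    rw [div_le_iff₀ (by positivity)]
    have := mul_le_mul_of_nonneg_left (le_self_pow₀ n1 three_ne_zero)
      (show 0 ≤ S.ms l * l ^ 4 by positivity)
    linarith
  have a2 : S.ms l * l ^ 4 ≤ S.ms l * l ^ 3 :=
    mul_le_mul_of_nonneg_left (pow_le_pow_of_le_one l0.le l1 (by norm_num)) m0.le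
  have a3 : S.ms l * l ≤ (cr S l * l) ^ 3 := by
    rw [Ab33.cc_cube h l0]
    exact le_max_of_le_right (by nlinarith [mul_pos m0 l0])
  refine ⟨?_, ?_⟩
  · unfold W0
    linarith [pow_pos l0 5]
  · linarith [mul_le_mul_of_nonneg_left a3 (sq_nonneg l)]

theorem cc_mul (h : Cl S M) {l t R : ℝ} (l0 : 0 < l) (h1 : l ≤ t) (h2 : t ≤ R * l) :
    cr S t * t ≤ 2 * R * (cr S l * l) := by
  have := mul_le_mul (Ab33.cr_dbl h l0 h1) h2 (by linarith) (by linarith [Ab33.cr_one S l])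
  linarith

theorem lcc (h : Cl S M) {l : ℝ} (l0 : 0 < l) :
    l * (cr S l * l) ^ 2 ≤ S.F * S.ms l * l + l ^ 3 := by
  have c := Ab33.cc_cube h l0
  have c1 : l ≤ cr S l * l := le_mul_of_one_le_left l0.le (Ab33.cr_one S l)
  have m0 := h.ms_pos l0.le
  have F1 := h.F1
  have := mul_le_mul_of_nonneg_right c1 (sq_nonneg (cr S l * l))
  have : max (l ^ 3) (S.F * S.ms l * l) ≤ S.F * S.ms l * l + l ^ 3 :=
    max_le (le_add_of_nonneg_left (by positivity)) (le_add_of_nonneg_right (by positivity))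
  linarith

theorem gd_le (A : At S M m a T) {k : ℕ} (h1 : S.jl ≤ k) (h2 : k < S.J) :
    |L0.Gd (lb M S m a T) (sb M m a (k + 1))| ≤ 4 * sb M m a (k + 1) + 6 * S.C ^ 2 * M.s k := by
  have kp := h2.le.trans A.cl.i3
  have mx := A.sb_mem kp
  have p1 := L0.Gd_le (L0.ap_of_ok A.okb.1) (A.okb.2.symm ▸ mx)
  have p2 := L0.Gd_ge A.okb.1.1 (sb M m a (k + 1))
  rw [A.lvb_node h1 kp] at p2
  have p3 := Ab33.z_le A.cl h1 h2
  have p4 : 0 ≤ S.C ^ 2 * M.s k := mul_nonneg (sq_nonneg _) (A.cl.s_nn k)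
  exact abs_le.2 ⟨by linarith [mx.1], by linarith⟩

theorem L4_mono {V X t0 t1 t1' Y : ℝ} (h : L4 S V X t0 t1 Y) (h1 : t1' ≤ t1) : L4 S V X t0 t1' Y :=
  fun t p q => h t p (q.trans h1)

theorem L4_nn (h : Cl S M) {V X t0 t1 Y : ℝ} (H : L4 S V X t0 t1 Y) (t00 : 0 < t0) (h1 : t0 ≤ t1)
    (V0 : 0 ≤ V) (X0 : 0 ≤ X) : 0 ≤ Y := by
  have c0 : 0 ≤ cl S V t0 := by
    have := Ab33.cr_one S t0
    unfold cl; positivity
  have w0 : 0 ≤ ws S V t0 := by
    have n1 : (1 : ℝ) ≤ S.n := by exact_mod_cast h.n1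
    have m0 := h.ms_pos t00.le
    have F1 := h.F1
    unfold ws Sc.w3; positivity
  have : 0 ≤ min X (cl S V t0 ^ 3) := le_min X0 (by positivity)
  exact le_trans (by positivity) (H t0 le_rfl h1)

theorem three_sq {r P Q x y z : ℝ} (P0 : 0 ≤ P) (x0 : 0 ≤ x) (y0 : 0 ≤ y) (z0 : 0 ≤ z)
    (hQ : Q ≤ P ^ 2) (h : r ^ 2 ≤ Q * (x ^ 2 + y + z ^ 2)) : r ≤ P * (x + z + √y) := by
  have e := sq_sqrt y0
  have s0 := sqrt_nonneg y
  refine le_of_sq_le_sq (h.trans ?_) (by positivity)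
  rw [mul_pow]
  refine mul_le_mul hQ ?_ (by positivity) (sq_nonneg _)
  nlinarith [mul_nonneg x0 z0, mul_nonneg x0 s0, mul_nonneg z0 s0]

theorem cl_big (K : ℝ → ℝ) : CL fun _ Λ S _ _ _ => K S.C ≤ Λ ∧ S.θ ≤ 1 := fun C => by
  filter_upwards [Filter.eventually_ge_atTop 2] with A hA ε _ η hη
  filter_upwards [ev_rgc C hA hη (K C)] with n H S M b1 b2 b3 h m a _
  have R := H S b1 b2 b3
  subst b1 b3
  exact ⟨R.K_le, by nlinarith [h.msθ, R.log1, h.θ0]⟩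

theorem pw_le {Λ W E : ℝ} (L1 : 1 ≤ Λ) (W1 : 1 ≤ W) (h1 : Λ ^ 1000 ≤ E) (h2 : W ^ 1000 ≤ E) :
    (Λ * W ^ 10) ^ 14 ≤ E := by
  rcases le_total Λ W with c | c
  · refine le_trans ?_ ((pow_le_pow_right₀ W1 (show 11 * 14 ≤ 1000 by norm_num)).trans h2)
    rw [pow_mul, pow_succ' W 10]
    gcongr
  · refine le_trans ?_ ((pow_le_pow_right₀ L1 (show 11 * 14 ≤ 1000 by norm_num)).trans h1)
    rw [pow_mul, pow_succ' Λ 10]
    gcongr

/-- the context of the root -/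
structure Cx (E W R L lam : ℝ) (S : Sc) (M : Md) (m : ℕ) (a G1 l X Lg X2 X3 G0 : ℝ) (η : ℝ → ℝ)
    (u : ℕ) : Prop where
  A : At S M m a (2 * S.C)
  ce : CeiG S M G1
  ln : LN E S M l l (cr S l * l) X Lg X2 X3 G0 η
  θ1 : S.θ ≤ 1
  F2 : S.F ^ 40 ≤ E
  l1 : 1 ≤ lam
  lW : lam ≤ W
  R1 : 1 ≤ R
  hL : 100 * S.C ^ 7 * R ^ 3 * W ≤ L
  LE : L ^ 14 ≤ E
  cru : ∀ k ≤ S.Jp, M.rb m a k ≤ lam * cl S (cr S l * l) (max (M.z k) l)
  s0 : l < M.s u
  s1 : M.s u ≤ R * l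
  uJ : u < S.J

namespace Cx
variable {E W R L lam G1 l X Lg X2 X3 G0 : ℝ} {η : ℝ → ℝ} {u : ℕ}
  (Z : Cx E W R L lam S M m a G1 l X Lg X2 X3 G0 η u)
include Z

theorem W1 : 1 ≤ W := Z.l1.trans Z.lW

theorem cst {i j : ℕ} (hi : i ≤ 7) (hj : j ≤ 3) : 100 * (S.C ^ i * R ^ j * W) ≤ L := by
  have C1 := Z.A.cl.C1
  have R1 := Z.R1
  have W1 := Z.W1
  refine le_trans ?_ Z.hL
  rw [mul_assoc 100, mul_assoc 100]
  gcongr

theorem L1 : 100 ≤ L := by
  have := Z.cst (i := 0) (j := 0) (by norm_num) (by norm_num)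
  have := Z.W1
  simp only [pow_zero, one_mul] at *
  linarith

theorem cC {i : ℕ} (hi : i ≤ 7) : 100 * S.C ^ i ≤ L := by
  have := Z.cst (i := i) (j := 0) hi (by norm_num)
  rw [pow_zero, mul_one] at this
  linarith [le_mul_of_one_le_right (pow_pos Z.A.c_pos i).le Z.W1]

theorem L2 : L ^ 2 ≤ E := (pow_le_pow_right₀ (by linarith [Z.L1]) (by norm_num)).trans Z.LE

theorem LE1 : L ≤ E := (le_self_pow₀ (by linarith [Z.L1]) two_ne_zero).trans Z.L2

theorem E1 : 1 ≤ E := by linarith [Z.L1, Z.LE1]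

theorem jl_le : L * M.s S.jl ≤ l :=
  (mul_le_mul_of_nonneg_right Z.LE1 (Z.A.cl.s_nn _)).trans Z.ln.l0s

theorem v_le' : 100 * (S.C ^ 2 * S.v) ≤ l := by
  have h := Z.A.cl
  have a := mul_le_mul_of_nonneg_left (Ab33.v_le h (h.i0.trans h.i1) (by have := h.i2; omega))
    (sq_nonneg S.C)
  have b := mul_le_mul_of_nonneg_right (Z.cC (i := 3) (by norm_num)) (h.s_nn S.jl)
  have c : 0 ≤ S.C ^ 3 * M.s S.jl := mul_nonneg (pow_pos h.C0 3).le (h.s_nn _)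
  linarith [Z.jl_le]

theorem v_le : S.C ^ 2 * S.v ≤ l := by
  linarith [Z.v_le', mul_pos (pow_pos Z.A.c_pos 2) Z.A.cl.v0]

theorem l0 : 0 < l := lt_of_lt_of_le (mul_pos (pow_pos Z.A.c_pos 2) Z.A.cl.v0) Z.v_le

theorem Ll : L * l ≤ 1 := (mul_le_mul_of_nonneg_right Z.LE1 Z.l0.le).trans Z.ln.l1

theorem l_le : l ≤ 1 := by nlinarith [Z.Ll, Z.L1, Z.l0]

theorem ju : S.jl < u := lt_of_not_ge fun c => by
  have := Z.A.cl.sm c
  nlinarith [Z.jl_le, Z.s0, Z.L1, Z.A.cl.s_nn S.jl]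

theorem sC : M.s u ≤ S.C := (Z.A.cl.sm (Z.uJ.le.trans Z.A.cl.i3)).trans Z.A.cl.sT

theorem cc0 : l ≤ cr S l * l := le_mul_of_one_le_left Z.l0.le (Ab33.cr_one S l)

theorem x0 : 0 ≤ sb M m a (u + 1) := (Z.A.sb_mem (Z.uJ.le.trans Z.A.cl.i3)).1

theorem X20 : 0 ≤ X2 := le_trans (mul_nonneg Z.l0.le (sq_nonneg _)) Z.ln.x2a

theorem sb_le : sb M m a (u + 1) ≤ 32 * (S.C ^ 3 * R * W) * (cr S l * l) := by
  have h := Z.A.cl
  have l0 := Z.l0
  have l1 := Z.l1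
  have c : Cru (2 * lam) S M m a l := fun k hk => (Z.cru k hk).trans (by
    have := Ab33.cc_mono h l0 (le_max_right (M.z k) l)
    unfold cl
    nlinarith)
  have a1 := Ab33.sb_le Z.A Z.ce Z.ln.HJ (Ab33.cg_cru h l0 (by linarith) c) Z.ju Z.uJ Z.s0.le
  have a2 := cc_mul h l0 Z.s0.le Z.s1
  have C0 := h.C0
  have R1 := Z.R1
  have c0 := l0.trans_le Z.cc0
  calc _ ≤ _ := a1
    _ ≤ 8 * S.C ^ 3 * (2 * W * (2 * R * (cr S l * l))) := by
        have := Ab33.cr_one S (M.s u)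
        have := h.s_nn u
        have := Z.lW
        have := Z.W1
        gcongr
    _ = _ := by ring

theorem cru' : sb M m a (u + 1) ≤ L * (cr S l * l) := Z.sb_le.trans (by
  have := Z.cst (i := 3) (j := 1) (by norm_num) (by norm_num)
  rw [pow_one] at this
  have : 0 ≤ S.C ^ 3 * R * W := by
    have := Z.A.c_pos
    have := Z.R1
    have := Z.W1
    positivity
  exact mul_le_mul_of_nonneg_right (by linarith) (Z.l0.le.trans Z.cc0))

theorem x_small : 16 * S.C ^ 5 * sb M m a (u + 1) < 1 := by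
  have h := Z.A.cl
  have l0 := Z.l0
  have F1 := h.F1
  have L1 := Z.L1
  have a1 : (cr S l * l) ^ 3 ≤ S.F * l := by
    rw [Ab33.cc_cube h l0]
    refine max_le ((pow_le_of_le_one l0.le Z.l_le three_ne_zero).trans
      (le_mul_of_one_le_left l0.le F1)) (mul_le_mul_of_nonneg_right
        (mul_le_of_le_one_right (by linarith) ((h.ms1 l).trans Z.θ1)) l0.le)
  have a2 : L ^ 7 * S.F ≤ E := by
    refine le_of_sq_le_sq ?_ (by linarith [Z.E1])
    rw [mul_pow, ← pow_mul, sq E]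
    exact mul_le_mul Z.LE ((pow_le_pow_right₀ F1 (by norm_num)).trans Z.F2) (by positivity)
      (by linarith [Z.E1])
  have a3 : 16 * S.C ^ 5 * sb M m a (u + 1) ≤ L ^ 2 * (cr S l * l) := by
    have := mul_le_mul (show 16 * S.C ^ 5 ≤ L by
      linarith [Z.cC (i := 5) (by norm_num), pow_pos h.C0 5]) Z.cru' Z.x0 (by linarith)
    linarith
  refine a3.trans_lt (lt_of_pow_lt_pow_left₀ 3 zero_le_one ?_)
  have a4 := (mul_le_mul_of_nonneg_right a2 l0.le).trans Z.ln.l1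
  have a5 := mul_le_mul_of_nonneg_left a1 (show 0 ≤ L ^ 6 by positivity)
  have a6 := mul_lt_mul_of_pos_right (show 1 < L by linarith)
    (show 0 < L ^ 6 * (S.F * l) by positivity)
  linarith [show (L ^ 2 * (cr S l * l)) ^ 3 = L ^ 6 * (cr S l * l) ^ 3 by ring]

theorem low : M.s u * cl S (cr S l * l) (M.s u) ^ 2 ≤ 9 * R ^ 3 * (l * (cr S l * l) ^ 2) := by
  have h := Z.A.cl
  have l0 := Z.l0
  have a2 := cc_mul h l0 Z.s0.le Z.s1
  have c0 := l0.trans_le Z.cc0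
  have R1 := Z.R1
  have a1 : cl S (cr S l * l) (M.s u) ≤ 3 * R * (cr S l * l) := by
    unfold cl
    nlinarith
  have a0 : 0 ≤ cl S (cr S l * l) (M.s u) := by
    have := Ab33.cr_one S (M.s u)
    have := h.s_nn u
    unfold cl; positivity
  have := mul_le_mul Z.s1 (pow_le_pow_left₀ a0 a1 2) (sq_nonneg _) (by positivity)
  linarith

theorem ru {x : ℝ} (hx : x ≤ W * (η (M.s u) + uw S Lg (M.s u) ^ 2 *
    |L0.Gd (lb M S m a (2 * S.C)) (sb M m a (u + 1))| + ((sb M m a (u + 1) + M.s u) * X2 +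
      M.s u * cl S (cr S l * l) (M.s u) ^ 2))) :
    x ≤ L * (S.F * S.ms l * l + l ^ 3) + S.ms l * sb M m a (u + 1) / L := by
  have h := Z.A.cl
  have l0 := Z.l0
  have F1 := h.F1
  have E1 := Z.E1
  have R1 := Z.R1
  have W1 := Z.W1
  have L1 := Z.L1
  have C1 := h.C1
  have x0 := Z.x0
  have m0 := h.ms_pos l0.le
  have mf : ∀ t, 0 ≤ t → mf S t ≤ S.ms t := fun t t0 => div_le_self (h.ms_pos t0).le F1
  have lC : l ≤ S.C := Z.l_le.trans C1
  have e0 : 0 ≤ η l := by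
    linarith [Z.ln.η2 l l0, Z.ln.ηa (show l ≤ 2 * l by linarith)]
  have a1 : η (M.s u) ≤ S.ms l * l := (Z.ln.ηa Z.s0.le).trans
    ((le_mul_of_one_le_left e0 E1).trans ((Z.ln.th4 l le_rfl lC).trans
      (mul_le_mul_of_nonneg_right (mf l l0.le) l0.le)))
  have a2 : E * uw S Lg (M.s u) ^ 2 ≤ 4 * R ^ 2 * S.ms l :=
    (Z.ln.th2 _ Z.s0.le Z.sC).trans ((mf _ (h.s_nn u)).trans ((h.msm Z.s1).trans
      (h.ms_mul l0.le R1)))
  have a3 := gd_le Z.A Z.ju.le Z.uJ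
  have a4 : E * X2 ≤ S.ms l := Z.ln.th3.trans (mf l l0.le)
  have a5 := Z.low
  have a6 := lcc h l0
  have s1 := Z.s1
  have s0 := h.s_nn u
  have X0 := Z.X20
  have L2 := Z.L2
  have k1 := Z.cst (i := 2) (j := 3) (by norm_num) le_rfl
  have k2 := Z.cst (i := 0) (j := 2) (by norm_num) (by norm_num)
  rw [pow_zero, one_mul] at k2
  have g0 := abs_nonneg (L0.Gd (lb M S m a (2 * S.C)) (sb M m a (u + 1)))
  generalize uw S Lg (M.s u) ^ 2 = w at *
  generalize |L0.Gd (lb M S m a (2 * S.C)) (sb M m a (u + 1))| = g at *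
  generalize sb M m a (u + 1) = y at *
  generalize M.s u * cl S (cr S l * l) (M.s u) ^ 2 = q at *
  generalize l * (cr S l * l) ^ 2 = q' at *
  generalize S.ms l = μ at *
  obtain ⟨D, hD⟩ : ∃ D, D = S.F * μ * l + l ^ 3 := ⟨_, rfl⟩
  rw [← hD] at a6 ⊢
  have d1 : μ * l ≤ D := by
    rw [hD]; nlinarith [mul_pos m0 l0, pow_pos l0 3]
  have c2 : 1 ≤ S.C ^ 2 := one_le_pow₀ C1
  have r2 : 1 ≤ R ^ 2 := one_le_pow₀ R1
  have r3 : R ≤ R ^ 3 := le_self_pow₀ R1 three_ne_zero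
  have E0 : 0 < E := by linarith
  have b1 : E * (w * g) ≤ 4 * R ^ 2 * μ * (4 * y + 6 * S.C ^ 2 * (R * l)) := by
    rw [← mul_assoc]
    exact mul_le_mul a2 (a3.trans (by gcongr)) g0 (by positivity)
  have b2 : E * ((y + M.s u) * X2) ≤ (y + R * l) * μ := by
    rw [mul_left_comm]
    exact mul_le_mul (by linarith) a4 (by positivity) (by positivity)
  have b3 : E * (w * g + (y + M.s u) * X2) ≤ 17 * R ^ 2 * (μ * y) +
      E * (25 * (S.C ^ 2 * R ^ 3) * D) := by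
    have t1 := mul_le_mul_of_nonneg_right r2 (mul_nonneg m0.le x0)
    have t2 : R * (μ * l) ≤ S.C ^ 2 * R ^ 3 * D :=
      mul_le_mul (r3.trans (le_mul_of_one_le_left (by positivity) c2)) d1 (by positivity)
        (by positivity)
    have t3 := mul_le_mul_of_nonneg_left d1 (show 0 ≤ S.C ^ 2 * R ^ 3 by positivity)
    have t4 := mul_le_mul_of_nonneg_right E1
      (show 0 ≤ 25 * (S.C ^ 2 * R ^ 3) * D by have := (mul_pos m0 l0).le.trans d1; positivity)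
    linarith
  have b4 : W * (17 * R ^ 2 * (μ * y)) ≤ E * (μ * y / L) := by
    rw [← mul_div_assoc, le_div_iff₀ (by linarith)]
    have t1 : W * (17 * R ^ 2) * L ≤ E := by
      have := mul_le_mul_of_nonneg_right k2 (show 0 ≤ L by linarith)
      nlinarith [show 0 ≤ R ^ 2 * W * L by positivity]
    linarith [mul_le_mul_of_nonneg_right t1 (mul_nonneg m0.le x0)]
  have b5 : W * (w * g + (y + M.s u) * X2) ≤ μ * y / L + W * (25 * (S.C ^ 2 * R ^ 3) * D) := by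
    refine le_of_mul_le_mul_left ?_ E0
    linarith [mul_le_mul_of_nonneg_left b3 (show 0 ≤ W by linarith)]
  have D0 : 0 ≤ D := (mul_pos m0 l0).le.trans d1
  have b6 : η (M.s u) + q ≤ 10 * (S.C ^ 2 * R ^ 3) * D := by
    have t1 : 1 ≤ S.C ^ 2 * R ^ 3 := one_le_mul_of_one_le_of_one_le c2 (R1.trans r3)
    have t2 : R ^ 3 ≤ S.C ^ 2 * R ^ 3 := le_mul_of_one_le_left (by positivity) c2
    have t3 := mul_le_mul_of_nonneg_left a6 (show 0 ≤ R ^ 3 by positivity)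
    linarith [mul_le_mul_of_nonneg_right t1 D0, mul_le_mul_of_nonneg_right t2 D0]
  have b7 := mul_le_mul_of_nonneg_left b6 (show 0 ≤ W by linarith)
  have b8 := mul_le_mul_of_nonneg_right k1 D0
  have b9 : 0 ≤ S.C ^ 2 * R ^ 3 * W * D := by positivity
  linarith

theorem rho {r Y : ℝ} (Y0 : 0 ≤ Y) (hr : r ^ 2 ≤ W * sb M m a (u + 1) *
    (sb M m a (u + 1) * X2 ^ 2 + Y + 1 / (S.n : ℝ) ^ 3)) :
    W * ((sb M m a (u + 1) + M.s u) * X2 + M.s u * cl S (cr S l * l) (M.s u) ^ 2) + r ≤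
      L * ((sb M m a (u + 1) + l) * X2 + l * (cr S l * l) ^ 2 + √(sb M m a (u + 1) * Y)) := by
  have h := Z.A.cl
  have l0 := Z.l0
  have R1 := Z.R1
  have W1 := Z.W1
  have C1 := h.C1
  have x0 := Z.x0
  have X0 := Z.X20
  have a1 := (n_le h l0 Z.l_le Z.ln.l0w).2
  have a2 := Z.sb_le
  have a5 := Z.low
  have s1 := Z.s1
  have c0 := l0.trans_le Z.cc0
  have k1 := Z.cst (i := 3) (j := 3) (by norm_num) le_rfl
  have c3 : 1 ≤ S.C ^ 3 := one_le_pow₀ C1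
  have r3 : R ≤ R ^ 3 := le_self_pow₀ R1 three_ne_zero
  generalize M.s u * cl S (cr S l * l) (M.s u) ^ 2 = q at *
  generalize sb M m a (u + 1) = y at *
  generalize cr S l * l = c at *
  obtain ⟨P, hP⟩ : ∃ P, P = S.C ^ 3 * R ^ 3 * W := ⟨_, rfl⟩
  have p1 : S.C ^ 3 * R * W ≤ P := by rw [hP]; gcongr
  have p2 : R ^ 3 * W ≤ P := by
    rw [hP, mul_assoc]; exact le_mul_of_one_le_left (by positivity) c3
  have p3 : R * W ≤ P := le_trans (by gcongr) p2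
  have p4 : W ≤ P := (le_mul_of_one_le_left (by linarith) R1).trans p3
  have P1 : 1 ≤ P := W1.trans p4
  rw [← hP] at k1
  have b1 : y * (1 / (S.n : ℝ) ^ 3) ≤ 32 * P * (l * c ^ 2) ^ 2 := by
    have := mul_le_mul (a2.trans (show _ ≤ 32 * P * c by gcongr)) a1 (by positivity)
      (by positivity)
    linarith
  have b2 : r ≤ 6 * P * (y * X2 + l * c ^ 2 + √(y * Y)) := by
    refine three_sq (Q := W * (32 * P)) (by positivity) (by positivity) (by positivity)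
      (by positivity) (by nlinarith) (hr.trans ?_)
    rw [mul_assoc W, mul_assoc W]
    refine mul_le_mul_of_nonneg_left ?_ (by linarith)
    have := mul_le_mul_of_nonneg_right (show 1 ≤ 32 * P by linarith)
      (show 0 ≤ (y * X2) ^ 2 + y * Y by positivity)
    linarith
  have b3 : W * ((y + M.s u) * X2) ≤ P * ((y + l) * X2) := by
    have t1 := mul_le_mul_of_nonneg_right p4 x0
    have t2 := mul_le_mul_of_nonneg_right p3 l0.le
    have t3 := mul_le_mul_of_nonneg_left s1 (show 0 ≤ W by linarith)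
    rw [← mul_assoc, ← mul_assoc]
    exact mul_le_mul_of_nonneg_right (by linarith) X0
  have b4 : W * q ≤ 9 * P * (l * c ^ 2) := by
    have t1 := mul_le_mul_of_nonneg_left a5 (show 0 ≤ W by linarith)
    have t2 := mul_le_mul_of_nonneg_right p2 (show 0 ≤ l * c ^ 2 by positivity)
    linarith
  have b5 := mul_le_mul_of_nonneg_right k1
    (show 0 ≤ (y + l) * X2 + l * c ^ 2 + √(y * Y) by positivity)
  have b6 : 0 ≤ P * (y * X2) := by positivity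
  have b7 : 0 ≤ P * (l * X2) := by positivity
  have b8 : 0 ≤ P * (l * c ^ 2) := by positivity
  have b9 : 0 ≤ P * √(y * Y) := by positivity
  linarith

theorem win {Gn : ℕ → Prop} {v : ℕ} {t : ℝ} (uv : u ≤ v) (vJ : v < S.J) (gu : Gn u) (gv : Gn v)
    (hJ : sb M m a (v + 1) < M.s S.J)
    (sh : ∀ i k, Nx Gn u v i k → (sb M m a (k + 1) - sb M m a (i + 1)) ^ 2 ≤ W * S.ms (M.s i))
    (h1 : sb M m a (u + 1) < t) (h2 : 2 * t ≤ sb M m a (v + 1)) (h3 : L * l ≤ t)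
    (h4 : L * S.ms (4 * t) ≤ t ^ 2)
    (loc : ∀ r, 0 ≤ r → r ≤ 7 * t / 4 → |uu M S m a (2 * S.C) r| ≤ t / (8 * S.C)) :
    ∃ k, u ≤ k ∧ k ≤ v ∧ Gn k ∧ 3 * t / 2 ≤ sb M m a (k + 1) ∧ sb M m a (k + 1) ≤ 7 * t / 4 ∧
      M.s k ≤ 4 * t := by
  have k0 := Z.cst (i := 0) (j := 0) (by norm_num) (by norm_num)
  simp only [pow_zero, one_mul] at k0
  have L1 := Z.L1
  refine window Z.A Z.ju uv vJ gu gv hJ (fun i k n => ?_) (by linarith) h1 h2 h4
    (Z.v_le.trans ((le_mul_of_one_le_left Z.l0.le (by linarith)).trans h3)) loc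
  have m0 := (Z.A.cl.ms_pos (Z.A.cl.s_nn i)).le
  linarith [sh i k n, mul_le_mul_of_nonneg_right k0 m0,
    mul_nonneg (show 0 ≤ W by linarith [Z.W1]) m0]

theorem hF {f : ℝ → ℝ} {s x t : ℝ} (lf : LB (2 * S.C) f) (lH : LB (2 * S.C) (HH M S m a (2 * S.C)))
    (H0 : ∀ r, sb M m a (u + 1) < r → r < s →
      0 ≤ HH M S m a (2 * S.C) r * uu M S m a (2 * S.C) r)
    (f0 : ∀ r, sb M m a (u + 1) < r → r < s → l ≤ r → 0 ≤ f r) (sT : s ≤ 2 * S.C)
    (h1 : sb M m a (u + 1) < t) (h2 : 2 * t ≤ s) (h3 : L * l ≤ t) (x1 : 3 * t / 2 ≤ x)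
    (x2 : x ≤ 7 * t / 4)
    (H : 4 * S.C ^ 4 * l ≤ 4 * t → 12 * S.C ^ 7 * l < 1 → ∫ r in sb M m a (u + 1)..x, f r ≤
      W * (cB M S η l (4 * t) + S.F ^ 3 * S.ms l * l ^ 2 * max (l - sb M m a (u + 1)) 0 +
        1 / (S.n : ℝ) ^ 3) +
      ∫ r in sb M m a (u + 1)..x, HH M S m a (2 * S.C) r * uu M S m a (2 * S.C) r) :
    ∫ r in sb M m a (u + 1)..3 * t / 2, f r ≤ L * S.F ^ 12 * (W0 S l + cB M S η l (4 * t)) +
      ∫ r in sb M m a (u + 1)..2 * t, HH M S m a (2 * S.C) r * uu M S m a (2 * S.C) r := by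
  have h := Z.A.cl
  have l0 := Z.l0
  have x0 := Z.x0
  have L1 := Z.L1
  have F1 := h.F1
  have t0 : 0 < t := x0.trans_lt h1
  have lt : l ≤ t := (le_mul_of_one_le_left l0.le (by linarith)).trans h3
  have c4 := mul_le_mul_of_nonneg_right (Z.cC (i := 4) (by norm_num)) l0.le
  have c7 := mul_le_mul_of_nonneg_right (Z.cC (i := 7) le_rfl) l0.le
  have q := H (by linarith [mul_pos (pow_pos h.C0 4) l0])
    (by linarith [mul_pos (pow_pos h.C0 7) l0, Z.Ll])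
  have a1 : ∫ r in sb M m a (u + 1)..3 * t / 2, f r ≤ ∫ r in sb M m a (u + 1)..x, f r := by
    rw [int_split lf (b := 3 * t / 2) (c := x) ⟨x0, by linarith⟩ ⟨by linarith, by linarith⟩
      ⟨by linarith, by linarith⟩]
    refine le_add_of_nonneg_right (le_trans (by simp) (int_mono (LB.const 0) lf (by linarith) x1
      (by linarith) fun r p q => f0 r (by linarith) (by linarith) (by linarith)))
  have a2 := int_sub_le (lH.mul (lb_u Z.A)) x0 le_rfl (show _ ≤ x by linarith)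
    (show x ≤ 2 * t by linarith) (by linarith) fun r p q => H0 r p (q.trans_le h2)
  have m0 := h.ms_pos l0.le
  have w0 := W0_nn' h l0
  have cb : 0 ≤ cB M S η l (4 * t) := Finset.sum_nonneg fun k _ =>
    mul_nonneg (sub_nonneg.2 (h.leg.zm (Nat.sub_le k 1))) (by
      have := Ab33.cr_one S (M.s k)
      have : 0 < mf S (M.s k) := div_pos (h.ms_pos (h.s_nn k)) (by linarith)
      exact add_nonneg (by positivity) (le_min (by positivity) (by positivity)))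
  have f12 : 1 ≤ S.F ^ 12 := one_le_pow₀ F1
  have a3 : S.F ^ 3 * S.ms l * l ^ 2 * max (l - sb M m a (u + 1)) 0 ≤ S.F ^ 12 * W0 S l := by
    have t1 := mul_le_mul_of_nonneg_left (max_le (show l - sb M m a (u + 1) ≤ l by linarith) l0.le)
      (show 0 ≤ S.F ^ 3 * S.ms l * l ^ 2 by positivity)
    have t2 := mul_le_mul (pow_le_pow_right₀ F1 (show 3 ≤ 12 by norm_num))
      (show S.ms l * l ^ 3 ≤ W0 S l from le_add_of_nonneg_left (by positivity)) (by positivity)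
      (by positivity)
    linarith
  have a4 := (n_le h l0 Z.l_le Z.ln.l0w).1
  have k0 := Z.cst (i := 0) (j := 0) (by norm_num) (by norm_num)
  simp only [pow_zero, one_mul] at k0
  have W1 := Z.W1
  have a5 : cB M S η l (4 * t) + S.F ^ 3 * S.ms l * l ^ 2 * max (l - sb M m a (u + 1)) 0 +
      1 / (S.n : ℝ) ^ 3 ≤ 2 * (S.F ^ 12 * (W0 S l + cB M S η l (4 * t))) := by
    linarith [mul_le_mul_of_nonneg_right f12 w0, mul_le_mul_of_nonneg_right f12 cb]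
  have a6 := mul_le_mul_of_nonneg_left a5 (show 0 ≤ W by linarith)
  have a7 := mul_le_mul_of_nonneg_right (show 2 * W ≤ L by linarith)
    (show 0 ≤ S.F ^ 12 * (W0 S l + cB M S η l (4 * t)) by positivity)
  linarith

theorem hΩ {ω : ℝ → ℝ} {θ0 x t Y : ℝ} (lω : LB (2 * S.C) ω) (h1 : sb M m a (u + 1) < t)
    (h2 : t ≤ S.C) (Y0 : 0 ≤ Y) (x1 : 3 * t / 2 ≤ x) (x2 : x ≤ 7 * t / 4)
    (H : ∫ r in sb M m a (u + 1)..x, ω r ^ 2 ≤ W * (2 * t * X2 ^ 2 + Y + 1 / (S.n : ℝ) ^ 3) +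
      θ0 ^ 2 * ∫ r in sb M m a (u + 1)..x, uu M S m a (2 * S.C) r ^ 4) :
    ∫ r in sb M m a (u + 1)..3 * t / 2, ω r ^ 2 ≤ L * (W0 S l + t * X2 ^ 2 + Y) +
      θ0 ^ 2 * ∫ r in (0 : ℝ)..7 * t / 4, uu M S m a (2 * S.C) r ^ 4 := by
  have h := Z.A.cl
  have x0 := Z.x0
  have t0 : 0 < t := x0.trans_lt h1
  have a1 := int_sub_le lω.sq x0 le_rfl (show _ ≤ 3 * t / 2 by linarith) x1 (by linarith)
    fun _ _ _ => sq_nonneg _
  have l4 : LB (2 * S.C) fun r => uu M S m a (2 * S.C) r ^ 4 := by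
    simpa only [← pow_mul] using (lb_u Z.A).sq.sq
  have a2 := mul_le_mul_of_nonneg_left (int_sub_le l4 le_rfl x0 (show _ ≤ x by linarith) x2
    (by linarith) fun _ _ _ => by positivity) (sq_nonneg θ0)
  have a4 := (n_le h Z.l0 Z.l_le Z.ln.l0w).1
  have w0 := W0_nn' h Z.l0
  have k0 := Z.cst (i := 0) (j := 0) (by norm_num) (by norm_num)
  simp only [pow_zero, one_mul] at k0
  have W1 := Z.W1
  have p0 : 0 ≤ t * X2 ^ 2 := by positivity
  have a6 := mul_le_mul_of_nonneg_left (show 2 * t * X2 ^ 2 + Y + 1 / (S.n : ℝ) ^ 3 ≤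
    2 * (W0 S l + t * X2 ^ 2 + Y) by linarith) (show 0 ≤ W by linarith)
  have a7 := mul_le_mul_of_nonneg_right (show 2 * W ≤ L by linarith)
    (show 0 ≤ W0 S l + t * X2 ^ 2 + Y by positivity)
  linarith

end Cx

end Crest.Agent.T156.Alt.B93

end
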