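import Crest.Agent.T156.LInt_31

/-!
# Row 156, block (L): the frame of (TL1x) and (BoS), statements (helper25)
-/

set_option autoImplicit false

noncomputable section

namespace Crest.Agent.T156.Alt.L31

open MeasureTheory Set Real
open Crest.Agent.T156.Alt.Mp9 Crest.Agent.T156.Alt.L69 Crest.Agent.T156.Alt.C74

/-- the global energy -/
def Eg (S : Sc) (M : Md) (p : Pa) (X4 : ℝ) : ℝ :=
  p.l ^ 5 + S.ms p.l * p.l ^ 3 + cB M S p.η p.l S.C + p.X2 ^ 2 + X4 + p.N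

/-- the hypotheses of (TL1x) -/
structure H0 (E : ℝ) (S : Sc) (M : Md) (m : ℕ) (a : ℝ) (p : Pa) (X4 : ℝ) : Prop where
  l0 : p.l0 = p.l
  V : p.V = cr S p.l * p.l
  ce : CeiG S M p.G1
  ln : LN E S M p.l0 p.l p.V p.X p.Lg p.X2 p.X3 p.G0 p.η
  l4 : L4 S p.V p.X p.l S.C X4
  lp : LP E S M p.Xp p.Vt p.Lg p.Lp p.X2 p.X3 p.G0 p.G1 p.u1 p.u2 p.j p.γ p.Lc p.ηc p.τ p.η p.N'
  lc : LC E S M p.Xp p.Vt p.V2 p.Lg p.Lp p.X2 p.G0 p.G1 p.u1 p.u2 p.j p.γ p.ηc p.τ p.η p.N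
  F40 : S.F ^ 40 ≤ E
  ap : Ap S M m a p.l0 p.X p.Xp p.Vt p.u1 p.j
  ap2 : Ap2 S M m a p.V2 p.u1 p.u2

/-- **(FrA)** the frame: crude location, net, first node -/
def FrA : Prop := CL fun E Λ S M m a => ∀ p X4, H0 E S M m a p X4 → Λ ^ 1000 ≤ E →
  Hx E Λ S M m a p ∧ ∃ Gn V0 u, Ng E (Λ ^ 31) S M m a p Gn V0 ∧ Vs M p Gn u ∧ M.s u ≤ 3 * p.l ∧
    ∀ v, Ve S M m a Gn V0 v → u < v

/-- **(FrK)** the frame with the energy -/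
def FrK (k : ℕ) : Prop := CL fun E Λ S M m a => ∀ p X4, H0 E S M m a p X4 → Λ ^ k ≤ E →
  ∃ Gn V0 u v, Hx E Λ S M m a p ∧ Ng E (Λ ^ 31) S M m a p Gn V0 ∧ Vs M p Gn u ∧
    M.s u ≤ 4 * p.l ∧ Ve S M m a Gn V0 v ∧ u < v ∧
    ∫ r in (0 : ℝ)..2 * S.C, JJ M S m a (2 * S.C) r ^ 2 ≤ Λ ^ k * S.F ^ 12 * Eg S M p X4 ∧
    ∫ r in sb M m a (u + 1)..sb M m a (v + 1), HH M S m a (2 * S.C) r * uu M S m a (2 * S.C) r ≤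
      Λ ^ k * S.F ^ 12 * Eg S M p X4 ∧
    LO (Λ ^ k * S.F ^ 12) S M m a p.l p.u2 (Eg S M p X4)

end Crest.Agent.T156.Alt.L31

end
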