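import Crest.Agent.T156.BoA_93
import Crest.Agent.T156.LInt_31
import Crest.Agent.T156.BdS2_75

/-!
# Row 156, block (L): (BoK) (helper93)
-/

set_option autoImplicit false

noncomputable section

namespace Crest.Agent.T156.Alt.L31

open Real MeasureTheory Crest.Agent.T156.Alt.Mp9 Crest.Agent.T156.Cut8 Crest.Agent.T156.Alt.L69
open Crest.Agent.T156.Alt.C74 Crest.Agent.T156.Alt.B93

theorem boK : BoK := (cl_big fun C => 20000000 * C ^ 10).mono fun E Λ S M m a E1 Λ1 h In hb => by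
  obtain ⟨hΛ, θ1⟩ := hb
  rintro ⟨G1, u1, u2, j, γ, Lc, ηc, τ, l0, l, V, X, Xp, Vt, V2, Lg, Lp, X2, X3, G0, N', N, η⟩
    lam W θ0 Gn V0 u v r1 r2 ω β f Eg H e1 e2 lW WE ΛE G hs su he uv B gJ gH
  dsimp only at e1 e2 su ⊢
  subst e1 e2
  have ln := H.ln
  have ce := H.ce
  have cru := H.cru
  have ng := G.ng
  have cr4 := G.cru
  dsimp only at ln ce cru ng cr4
  have C1 := h.C1
  have C0 := h.C0
  have F1 := h.F1
  have W1 := H.l1.trans lW
  have A : At S M m a (2 * S.C) := ⟨h, In, by linarith [h.b1, ln.HJ], by linarith [h.sT]⟩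
  obtain ⟨gu, s0⟩ := hs
  obtain ⟨gv, vV, -, v1, v2⟩ := he
  dsimp only at s0
  have hV := ng.hV
  have vJ : v < S.J := by omega
  have i3 := h.i3
  have l00 : 0 < l0 := (mul_pos (by linarith) (h.s_pos (h.i0.trans h.i1))).trans_le ln.l0s
  have lo : max l0 (2 * l0) = 2 * l0 := max_eq_right (by linarith)
  have s0' : l0 < M.s u := by rw [lo] at s0; linarith
  have c3 : 1 ≤ S.C ^ 3 := one_le_pow₀ C1
  have wle : W ≤ 2602 * S.C ^ 3 * W ^ 2 * W := le_mul_of_one_le_left (by linarith)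
    (one_le_mul_of_one_le_of_one_le (by linarith) (one_le_pow₀ W1))
  have hL : 100 * S.C ^ 7 * 4 ^ 3 * (2602 * S.C ^ 3 * W ^ 2 * W) ≤ Λ * W ^ 10 := by
    have a1 := mul_le_mul hΛ (pow_le_pow_right₀ W1 (show 3 ≤ 10 by norm_num)) (by positivity)
      (by linarith)
    linarith [show 0 ≤ S.C ^ 10 * W ^ 3 by positivity]
  have Z' : Cx E (2602 * S.C ^ 3 * W ^ 2 * W) 4 (Λ * W ^ 10) lam S M m a G1 l0 X Lg X2 X3 G0 η u :=
    ⟨A, ce, ln, θ1, H.F40, H.l1, lW.trans wle, by norm_num, hL, pw_le Λ1 W1 ΛE WE, cru, s0', su,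
      by omega⟩
  have Z : Cx E W 4 (Λ * W ^ 10) lam S M m a G1 l0 X Lg X2 X3 G0 η u :=
    { Z' with lW := lW, hL := le_trans (by gcongr) hL }
  have WL : W ≤ Λ * W ^ 10 := by
    have := Z.cst (i := 0) (j := 0) (by norm_num) (by norm_num)
    simp only [pow_zero, one_mul] at this
    linarith
  generalize Λ * W ^ 10 = L at *
  have L1 := Z.L1
  have x0 := Z.x0
  have X0 := Z.X20
  have cc0 := l00.trans_le Z.cc0
  have c7 : 12 * S.C ^ 7 * l0 < 1 := by
    linarith [mul_le_mul_of_nonneg_right (Z.cC (i := 7) le_rfl) l00.le, mul_pos (pow_pos C0 7) l00,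
      Z.Ll]
  have sT := (A.sb_mem (vJ.le.trans i3)).2
  have g1 : 1 ≤ Lg := (one_le_mul_of_one_le_of_one_le E1 (one_le_pow₀ F1)).trans ln.Lg0
  have rh0 : 0 ≤ (sb M m a (u + 1) + M.s u) * X2 + M.s u * cl S (cr S l0 * l0) (M.s u) ^ 2 := by
    have := h.s_nn u
    positivity
  have sh : ∀ i k, Nx Gn u v i k →
      (sb M m a (k + 1) - sb M m a (i + 1)) ^ 2 ≤ W * S.ms (M.s i) := fun i k n => by
    have q := ng.sh u i k ⟨n.1, n.2.1, n.2.2.1.trans vV, n.2.2.2⟩ (s0.trans (h.sm n.1))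
    have m0 := h.ms_pos (h.s_nn i)
    have a1 : mf S (M.s i) ≤ W * S.ms (M.s i) :=
      (div_le_self m0.le F1).trans (le_mul_of_one_le_left m0.le W1)
    refine le_of_pow_le_pow_left₀ three_ne_zero (by positivity) ?_
    rw [← pow_mul]
    exact ((le_mul_of_one_le_left (by positivity) E1).trans q).trans
      (pow_le_pow_left₀ (div_pos m0 (by linarith)).le a1 3)
  have Eg0 : 0 ≤ S.F ^ 12 * Eg := by
    have := (intervalIntegral.integral_nonneg (by linarith) fun _ _ => sq_nonneg _).trans gJ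
    rw [mul_assoc] at this
    exact (mul_nonneg_iff_of_pos_left (by linarith)).1 this
  have WE' : W * S.F ^ 12 * Eg ≤ L * S.F ^ 12 * Eg := by
    rw [mul_assoc, mul_assoc]; exact mul_le_mul_of_nonneg_right WL Eg0
  obtain ⟨r, r0, hr, ab⟩ := B.ab
  refine ⟨W * ((sb M m a (u + 1) + M.s u) * X2 + M.s u * cl S (cr S l0 * l0) (M.s u) ^ 2) + r,
    Z.ju, Z.uJ, ⟨s0'.le, su.trans (mul_le_mul_of_nonneg_right (by linarith) l00.le)⟩, ⟨?_, v2⟩,
    Z.cru', Z'.ru ?_, by positivity, fun t Y t1 t2 _ t4 => ?_, B.lf, B.R, ab, B.nm,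
    fun t t1 t2 t3 t4 loc => ?_, fun t Y t1 t2 t3 t4 t5 loc t6 => ?_, gJ.trans WE', gH.trans WE'⟩
  · have a1 := Ab33.sJ_ge h
    have a2 := mul_le_mul_of_nonneg_left v1 (show 0 ≤ 3 * S.C ^ 3 by positivity)
    have a3 := (A.sb_mem (vJ.le.trans i3)).1
    linarith [mul_le_mul_of_nonneg_right (Z.cC (i := 3) (by norm_num)) a3,
      mul_nonneg (pow_pos C0 3).le a3]
  · have a1 := B75.ab_of A ng W1 (by linarith) X0 (by rw [lo] at s0 ⊢; linarith) le_rfl gu u le_rfl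
      (by omega) gu
    simp only [sub_self, mul_zero, intervalIntegral.integral_same, add_zero, B75.enB,
      B75.onB] at a1
    have a2 := B75.rho_le A (Λ := W) (by linarith) X0 cc0.le W1 l00 s0'.le (h.i1.trans Z.ju.le) Z.uJ
      (by linarith [Z.v_le', mul_pos (pow_pos C0 2) h.v0])
      fun k hk => cr4 k (by have := Z.uJ; have := h.i4; omega)
    have sp := l00.trans s0'
    have a3 := pow_le_pow_left₀ (B75.Ug_nn h g1 sp) (B75.Ug_le h g1 sp) 2
    have e0 : 0 ≤ η (M.s u) := by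
      linarith [ln.η2 _ sp, ln.ηa (show M.s u ≤ 2 * M.s u by linarith)]
    have g0 := abs_nonneg (L0.Gd (lb M S m a (2 * S.C)) (sb M m a (u + 1)))
    have a4 := mul_le_mul_of_nonneg_right (mul_le_mul wle a3 (sq_nonneg _) (by positivity)) g0
    linarith [mul_le_mul_of_nonneg_right wle e0]
  · have lt : l0 ≤ t := (le_mul_of_one_le_left l00.le (by linarith)).trans t2
    have Y0 := L4_nn h t4 l00 (by linarith) cc0.le ln.X0.le
    have q := hr l0 _ Y le_rfl s0'.le c7 le_rfl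
      (L4_mono t4 ((min_le_left _ _).trans (by linarith))) Y0
    rw [if_neg (not_le.2 Z.x_small), add_zero] at q
    exact Z.rho Y0 q
  · obtain ⟨k, k1, k2, k3, k4, k5, k6⟩ := Z.win uv.le vJ gu gv v2 sh t1 t2 t3 t4 loc
    exact Z.hF B.lf B.R.lH B.R.H_nn (fun r p _ _ => B.f0 r (x0.trans p.le)) sT t1 t2 t3 k4 k5
      fun p q => B.hF k l0 (4 * t) k1 k2 k3 le_rfl s0'.le p q k6 (by linarith)
  · obtain ⟨k, k1, k2, k3, k4, k5, -⟩ := Z.win uv.le vJ gu gv v2 sh t1 t2 t3 t5 loc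
    have t0 : 0 < t := x0.trans_lt t1
    have lt : l0 ≤ t := (le_mul_of_one_le_left l00.le (by linarith)).trans t3
    have Y0 := L4_nn h t6 l00 (by linarith) cc0.le ln.X0.le
    have q := B.hΩ k l0 (2 * t) Y k1 k2 k3 le_rfl s0'.le c7 (by linarith)
      (L4_mono t6 ((min_le_left _ _).trans (by linarith))) Y0
    rw [if_neg (not_le.2 (by
      linarith [mul_le_mul_of_nonneg_right (Z.cC (i := 5) (by norm_num)) t0.le,
        mul_pos (pow_pos C0 5) t0])), add_zero] at q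
    exact Z.hΩ B.R.lω t1 (by linarith) Y0 k4 k5 q

end Crest.Agent.T156.Alt.L31

end
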