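import Crest.Agent.T156.QClS_98

/-!
# Row 156, block Q on the class `Cl`: the centred (cone) form at one node (helper98)
-/

set_option autoImplicit false
set_option maxHeartbeats 400000

noncomputable section

namespace Crest.Agent.T156.Alt.QS98

open Real Finset Filter
open Crest.Agent.T156.Alt.Md67 Crest.Agent.T156.Alt.C33

/-- the cone of windows centred at the node `j` -/
def cone (S : Sc) (l : ℝ) (j i : ℕ) : ℝ := l + |(i : ℝ) - j| * S.v

theorem cone_self (S : Sc) (l : ℝ) (j : ℕ) : cone S l j j = l := by simp [cone]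

/-- a node `j` of a block; the mean overlap stays in the cone of slope `κ` -/
structure Cone (K κ : ℝ) (S : Sc) (M : Md) (m : ℕ) (a t l : ℝ) (k0 k1 j : ℕ) : Prop where
  blk : QB K S M t k0 k1
  crude : Crude κ S M m a t k0
  l0 : 0 < l
  wl : S.w3 t ≤ κ * min l t ^ 3
  fine : S.w3 t ≤ S.n * l ^ 3
  loc : ∀ i, k0 ≤ i → i ≤ k1 → |M.rb m a i - M.rb m a j| ≤ κ * cone S l j i
  den : ∀ k y : ℕ, k0 ≤ k → k ≤ k1 → S.J ≤ y → y < k1 → |(y : ℝ) - k| * S.v ≤ cone S l j k →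
    1 ≤ κ * cone S l j k ∨
      S.w3 t * S.v ≤ K * M.dz m a y * (κ * (cone S l j k * min (cone S l j k) t ^ 2))

theorem Cone.qh {K κ : ℝ} {S : Sc} {M : Md} {m : ℕ} {a t l : ℝ} {k0 k1 j : ℕ}
    (H : Cone K κ S M m a t l k0 k1 j) (hK : 1 ≤ K) (h : Cl S M) (I : S.In m a) :
    QH' K κ S M m a t k0 k1 (fun _ => M.rb m a j) (cone S l j) := by
  have v0 := h.v0
  have l0 := H.l0
  have t0 := H.blk.t0
  have k1 := H.crude.1
  have ge : ∀ i, l ≤ cone S l j i := fun i => le_add_of_nonneg_right (by positivity)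
  have m0 : 0 < min l t := lt_min l0 t0
  refine ⟨H.blk, H.crude, rb_nonneg (h.n1.trans I.m1) j, fun _ _ _ => ⟨le_rfl, by
    nlinarith⟩, fun k _ _ => ?_, fun k _ _ => H.wl.trans ?_, fun k _ _ => H.fine.trans ?_, H.loc,
    H.den⟩
  · have e := abs_abs_sub_abs_le_abs_sub (((k + 1 : ℕ) : ℝ) - j) ((k : ℝ) - j)
    rw [show ((k + 1 : ℕ) : ℝ) - j - ((k : ℝ) - j) = 1 by push_cast; ring, abs_one] at e
    rw [cone, cone, add_sub_add_left_eq_sub, ← sub_mul, abs_mul, abs_of_pos v0]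
    gcongr
    exact e.trans hK
  · have := ge k
    have : 0 < cone S l j k := l0.trans_le this
    rw [pow_succ' _ 2]
    gcongr
    exact (min_le_left _ _).trans (ge k)
  · have := ge k
    gcongr

/-- **centred synchronisation**: no location input -/
def QConeS : Prop := ∀ (K : ℝ) (p : ℕ), 1 ≤ K → CL fun _ Λ S M m a =>
  ∀ κ t l k0 k1 j, Cone K κ S M m a t l k0 k1 j →
    QO K (Λ * κ) p S M m a t k0 k1 (fun _ => M.rb m a j) (cone S l j) ∧ (Inn K S t k0 k1 j →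
      M.Mo m a p (fun q => M.rP m a j q - M.rb m a j) (Λ * κ * l) ∧
      M.E2 m a (fun R => (R - M.rb m a j) ^ (2 * p)) j ≤ (Λ * κ * l) ^ (2 * p))

theorem qConeS : QConeS := fun K p hK =>
  (qSyncS' K p hK).mono fun _ Λ S M m a _ _ h I H κ t l k0 k1 j C => by
    have O := H κ t k0 k1 _ _ (C.qh hK h I)
    refine ⟨O, fun hj => ?_⟩
    have e1 := O.node j hj
    have e2 := O.pair j hj
    rw [cone_self] at e1 e2
    exact ⟨e1, e2⟩

/-- the standard block `[j - j/3, j + j/3]` of a sloped node, level `s j` -/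
theorem std_blk {S : Sc} {M : Md} {m : ℕ} {a : ℝ} (F : Fn S M m a) {j : ℕ} (h0 : 2 * S.jl ≤ j)
    (h3 : 3 ≤ j) (hJ : j + j / 3 < S.J) (hw : S.w3 (M.s j) ≤ M.s j ^ 3) :
    QB (6 * S.C ^ 3) S M (M.s j) (j - j / 3) (j + j / 3) ∧
      Inn (6 * S.C ^ 3) S (M.s j) (j - j / 3) (j + j / 3) j := by
  have C1 := F.C1
  have v0 := F.v0
  have c2 : S.C ^ 2 ≤ S.C ^ 3 := pow_le_pow_right₀ C1 (by norm_num)
  have c1 : S.C ≤ S.C ^ 3 := le_self_pow₀ C1 (by norm_num)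
  obtain ⟨a1, a2⟩ := F.s_mem (k := j) (by omega)
  obtain ⟨b1, -⟩ := F.s_mem (k := j - j / 3) (by omega)
  have e1 : (j : ℝ) ≤ 2 * ((j - j / 3 : ℕ) : ℝ) := by exact_mod_cast (by omega : j ≤ 2 * (j - j / 3))
  have e2 : ((j + j / 3 : ℕ) : ℝ) ≤ 2 * j := by exact_mod_cast (by omega : j + j / 3 ≤ 2 * j)
  have e3 : (j : ℝ) ≤ 6 * ((j / 3 : ℕ) : ℝ) := by exact_mod_cast (by omega : j ≤ 6 * (j / 3))
  have s0 := F.s_nonneg (j - j / 3)
  have s1 : 0 < M.s j := F.toCl.s_pos (by omega)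
  have i1 : M.s j / (6 * S.C ^ 3) ≤ ((j / 3 : ℕ) : ℝ) * S.v := by
    rw [div_le_iff₀ (by positivity)]
    calc _ ≤ S.C ^ 3 * (6 * ((j / 3 : ℕ) : ℝ) * S.v) := a2.trans (by gcongr)
      _ = _ := by ring
  refine ⟨⟨s1, by omega, by omega, by have := F.i3; omega, ?_, ?_, hw⟩, ?_, ?_⟩
  · calc _ ≤ S.C * (2 * ((j - j / 3 : ℕ) : ℝ) * S.v) := a2.trans (by gcongr)
      _ = 2 * S.C * (((j - j / 3 : ℕ) : ℝ) * S.v) := by ring
      _ ≤ 2 * S.C * (S.C * M.s (j - j / 3)) := by gcongr _ * ?_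
      _ ≤ _ := by nlinarith [mul_le_mul_of_nonneg_right c2 s0]
  · calc _ ≤ 3 * S.C ^ 2 * (2 * j * S.v) :=
          (F.z_hi (by have := F.i1; omega) hJ).trans (by gcongr)
      _ = 6 * S.C ^ 2 * (j * S.v) := by ring
      _ ≤ 6 * S.C ^ 2 * (S.C * M.s j) := by gcongr _ * ?_
      _ = _ := by ring
  · rw [Nat.cast_sub (Nat.div_le_self _ _), sub_sub_cancel]; exact i1
  · rw [Nat.cast_add, add_sub_cancel_left]; exact i1

end Crest.Agent.T156.Alt.QS98

end
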