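import Crest.Agent.T156.SzD_9
import Crest.Agent.T156.QCone_98
import Crest.Agent.T156.ClReg_29

/-!
# Row 156, block (L): the pointwise sizes `SzL`, `SzP` (helper33)
-/

set_option autoImplicit false

noncomputable section

namespace Crest.Agent.T156.Alt.Sz9

namespace P33

open Real Finset Filter
open Crest.Agent.T156.Alt.E61 Crest.Agent.T156.Alt.C33 Crest.Agent.T156.Alt.QS98 Pre29

variable {E l0 : ℝ} {S : Sc} {M : Md} {m : ℕ} {a : ℝ} {cf : ℝ → ℝ}

theorem w3_pos (h : Cl S M) {t : ℝ} (ht : 0 < t) : 0 < S.w3 t := by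
  have := h.F1
  have := h.ms_pos ht.le
  have := h.N0
  unfold Sc.w3
  positivity

theorem w3_anti (h : Cl S M) {t T : ℝ} (ht : 0 < t) (hT : t ≤ T) : S.w3 T ≤ S.w3 t := by
  have := h.ms_pos ht.le
  have := h.N0
  have := h.msm hT
  have := ht.trans_le hT
  have := h.F1
  unfold Sc.w3
  gcongr

theorem jl_le (h : Cl S M) (hE : 1 ≤ E) (c : Cf E S M m a l0 cf) : M.s S.jl ≤ l0 :=
  (le_mul_of_one_le_left (h.s_nn _) hE).trans c.l0s

theorem l0_pos (h : Cl S M) (hE : 1 ≤ E) (c : Cf E S M m a l0 cf) : 0 < l0 :=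
  (h.s_pos (h.i0.trans h.i1)).trans_le (jl_le h hE c)

theorem w3_le (h : Cl S M) (hE : 1 ≤ E) (c : Cf E S M m a l0 cf) {t : ℝ} (ht : l0 ≤ t) :
    S.w3 t ≤ t ^ 3 :=
  (w3_anti h (l0_pos h hE c) ht).trans
    (c.l0w.trans (pow_le_pow_left₀ (l0_pos h hE c).le ht 3))

/-- the crude location in the form read by Q -/
theorem crude (c : Cf E S M m a l0 cf) (l0p : 0 < l0) {t κ : ℝ} (ht : l0 ≤ t) (hκ : cf t ≤ κ * t)
    (k0 : ℕ) : Crude (2 * κ) S M m a t k0 := by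
  have t0 := l0p.trans_le ht
  have k1 : 1 ≤ κ := le_of_mul_le_mul_right (by linarith [c.ge t ht]) t0
  refine ⟨by linarith, fun k _ hk => (c.cru k hk).trans ?_⟩
  rcases le_total (max (M.z k) l0) t with b | b
  · have := c.mono _ _ (le_max_right _ _) b
    have := mul_le_mul_of_nonneg_left (le_max_right (M.z k) t) (show 0 ≤ 2 * κ by linarith)
    nlinarith
  · have d := c.dbl _ _ ht b
    have e : cf t / t ≤ κ := (div_le_iff₀ t0).2 hκ
    rw [div_le_iff₀ (t0.trans_le b)] at d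
    exact d.trans (mul_le_mul (by linarith) (max_le_max le_rfl ht) (t0.trans_le b).le
      (by linarith))

end P33

open P33 Real Finset Filter
open Crest.Agent.T156.Alt.E61 Crest.Agent.T156.Alt.C33 Crest.Agent.T156.Alt.QS98 Pre29

namespace P33

/-- **(e)** -/
theorem szL : SzL := by
  unfold SzL
  refine CL.glue (QS98.qLowS 2) fun C => ⟨2, fun A _ ε η hε hη =>
    ⟨1, η / 2, 4, one_pos, half_pos hη, fun S M m a G h _ H l0 cf c k hk => ?_⟩⟩
  have E1 : 1 ≤ (S.n : ℝ) ^ ε := one_le_rpow G.N1.le hε.le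
  have l0p := l0_pos h E1 c
  have ht : l0 ≤ max (M.z k) l0 := le_max_right _ _
  have t0 := l0p.trans_le ht
  have c0 := t0.trans_le (c.ge _ ht)
  have q := (H _ _ t0 ((jl_le h E1 c).trans ht) (w3_le h E1 c ht)
    (crude c l0p ht (div_mul_cancel₀ _ t0.ne').ge _) k hk.le).2
  rw [max_eq_right (le_max_left _ _), mul_assoc, mul_assoc, div_mul_cancel₀ _ t0.ne'] at q
  have L0 := G.rp0 (η / 2)
  have u := (u4_le_c (M := M) (m := m) (a := a) (k := k) (c := 0)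
    (b := (S.n : ℝ) ^ (η / 2) * (2 * cf (max (M.z k) l0))) (by positivity)
    (by simpa only [sub_zero] using q)).2
  have e : (S.n : ℝ) ^ η = (S.n : ℝ) ^ (η / 2) * (S.n : ℝ) ^ (η / 2) := by
    rw [← rpow_add G.N0, add_halves]
  rw [e]
  nlinarith [mul_le_mul_of_nonneg_right G.K_le (mul_pos L0 c0).le]

/-- the cone of a standard block -/
theorem cone_std {E l0 : ℝ} {S : Sc} {M : Md} {m : ℕ} {a : ℝ} {cf : ℝ → ℝ} (F : Fn S M m a)
    (E1 : 1 ≤ E) (hE : 3 * S.C ^ 2 ≤ E) (c : Cf E S M m a l0 cf) {k : ℕ} {κ e : ℝ}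
    (h1 : l0 ≤ M.s k) (h2 : k + k / 3 < S.J) (h3 : cf (M.s k) ≤ κ * M.s k) (h4 : κ ≤ S.n)
    (e0 : 0 ≤ e) (he : ∀ i, k - k / 3 ≤ i → i ≤ k + k / 3 →
      |M.rb m a i - M.rb m a k| ≤ e + κ * S.v * |(i : ℝ) - k|) :
    Cone (6 * S.C ^ 3) (2 * κ) S M m a (M.s k) ((κ ^ ((2 : ℝ) / 3) * w1 S (M.s k) + e) / κ)
      (k - k / 3) (k + k / 3) k ∧ Inn (6 * S.C ^ 3) S (M.s k) (k - k / 3) (k + k / 3) k := by
  have h := F.toCl
  have l0p := l0_pos h E1 c
  have t0 := l0p.trans_le h1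
  have C0 := h.C0
  have v0 := h.v0
  have k1 : 1 ≤ κ := le_of_mul_le_mul_right (by linarith [c.ge _ h1]) t0
  have k0 : 0 < κ := by linarith
  have jk : 3 * S.jl ≤ k := by
    have a1 := (h.s_bds h.jl_lt.le).1
    have a2 := (h.s_bds (k := k) (by omega)).2
    have a3 := mul_le_mul hE a1 (by positivity) (by linarith)
    have a4 : 3 * S.C ^ 2 * (S.jl * (S.v / S.C)) = 3 * S.jl * (S.C * S.v) := by field_simp
    have a5 : (3 * S.jl : ℝ) ≤ k :=
      le_of_mul_le_mul_right (by linarith [c.l0s]) (mul_pos C0 v0)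
    exact_mod_cast a5
  have j1 := h.i0.trans h.i1
  have w := w3_le h E1 c h1
  have w0 := w3_pos h t0
  obtain ⟨B, I⟩ := std_blk F (j := k) (by omega) (by omega) h2 w
  have p0 : 0 < κ ^ ((2 : ℝ) / 3) * w1 S (M.s k) := by unfold w1; positivity
  have p3 : (κ ^ ((2 : ℝ) / 3) * w1 S (M.s k)) ^ 3 = κ ^ 2 * S.w3 (M.s k) := by
    unfold w1
    rw [mul_pow, ← rpow_natCast, ← rpow_natCast (S.w3 _ ^ _), ← rpow_mul k0.le, ← rpow_mul w0.le]
    norm_num
  obtain ⟨l, hl⟩ : ∃ l, l = (κ ^ ((2 : ℝ) / 3) * w1 S (M.s k) + e) / κ := ⟨_, rfl⟩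
  rw [← hl]
  have kl : κ * l = κ ^ ((2 : ℝ) / 3) * w1 S (M.s k) + e := by rw [hl]; field_simp
  have lp : 0 < l := by rw [hl]; positivity
  have l3 : S.w3 (M.s k) ≤ κ * l ^ 3 := by
    have := pow_le_pow_left₀ p0.le (show _ ≤ κ * l by linarith) 3
    rw [p3] at this
    refine le_of_mul_le_mul_left ?_ (show 0 < κ ^ 2 by positivity)
    linarith
  refine ⟨⟨B, crude c l0p h1 h3 _, lp, ?_, l3.trans (by gcongr), fun i b d => ?_,
    fun _ y _ _ b d => by omega⟩, I⟩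
  · rcases le_total l (M.s k) with b | b
    · rw [min_eq_left b]
      nlinarith [mul_pos k0 (pow_pos lp 3)]
    · rw [min_eq_right b]
      nlinarith [mul_le_mul_of_nonneg_right k1 (pow_pos t0 3).le]
  · refine (he i b d).trans ?_
    have : 0 ≤ κ * S.v * |(i : ℝ) - k| := by positivity
    unfold cone
    nlinarith

/-- **(b)** -/
theorem szP : SzP := by
  intro C
  have hK : 1 ≤ 6 * max C 1 ^ 3 := by linarith [one_le_pow₀ (n := 3) (le_max_right C 1)]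
  filter_upwards [qConeS _ 2 hK C, eventually_ge_atTop 2] with A H hA ε hε η hη
  filter_upwards [H 1 one_pos _ (half_pos hη), ev_fn C hA, ev_K (3 * C ^ 2) hε,
    ev_K 2 (half_pos hη)] with n H F e1 e2 S M b1 b2 b3 h m a I l0 cf c k κ h1 h2 h3 h4
  replace F := F S M b1 b2 b3 h m a I
  replace H := H S M b1 b2 b3 h m a I
  subst b1 b3
  rw [max_eq_left h.C1] at H
  have E1 : 1 ≤ (S.n : ℝ) ^ ε := one_le_rpow F.n1 hε.le
  have e0 := @Env96.ev_nonneg (M.rb m a) (κ * S.v) (k - k / 3) (k + k / 3) k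
  obtain ⟨Co, In⟩ := cone_std F E1 e1 c h1 h2 h3 h4 e0 fun i b d => Env96.cone b d
  have k1 := Co.crude.1
  have lp := Co.l0
  have L0 : 0 < (S.n : ℝ) ^ (η / 2) := by linarith
  have u := u4_le (M := M) (m := m) (a := a) (k := k) (by positivity)
    ((H _ _ _ _ _ _ Co).2 In).2
  have e : (S.n : ℝ) ^ η = (S.n : ℝ) ^ (η / 2) * (S.n : ℝ) ^ (η / 2) := by
    rw [← rpow_add h.N0, add_halves]
  have k0 : 0 < κ := by linarith
  have p0 := mul_pos k0 lp
  rw [mul_div_cancel₀ _ k0.ne'] at p0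
  rw [mul_assoc, mul_assoc, mul_div_cancel₀ _ k0.ne'] at u
  rw [e]
  nlinarith [mul_le_mul_of_nonneg_right e2 (mul_pos L0 p0).le]

end P33

end Crest.Agent.T156.Alt.Sz9

end
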