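import Crest.Agent.T156.ClE1u_49
import Crest.Agent.T156.SzLP_33
import Crest.Agent.T156.ClTh_9

/-!
# Row 156, block (L): path sizes at a good node of the sloped part (helper49)
-/

set_option autoImplicit false
set_option linter.unusedSectionVars false

noncomputable section

namespace Crest.Agent.T156.Alt.Sz9

open Real Finset Filter
open Crest.Agent.T156.Alt.E61 Crest.Agent.T156.Alt.Mp9

/-- `SzN` on the whole sloped part -/
def SzN' : Prop := CL fun E Λ S M m a => ∀ G1 l0 cf G0, CeiG S M G1 → M.H S.Jp ≤ S.C →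
  Cf E S M m a l0 cf → l0 * cf l0 ^ 2 ≤ G0 →
  ∑ k ∈ Icc S.J S.Jp, M.dz m a k * Cost41.aM M m a k ≤ G0 ^ 2 →
  ∀ j V κ, 2 * l0 ≤ M.s j → j + 1 < S.J → j + 1 ≤ V → cf (M.s j) ≤ κ * M.s j →
    (∀ t, l0 ≤ t → t ≤ M.s j → cf t ^ 3 / t * (S.F / (S.n * S.ms t)) ≤
      G0 ^ 2 + κ * (S.F / (S.n * S.ms (M.s j)))) →
    Gd M m a κ (j - j / 3) V j →
    ∃ G, Tn S M m a (u4 M m a) (S.C * S.v) j G ∧
      G ≤ Λ * (√(κ * (S.F / (S.n * S.ms (M.s j)))) + G0) ∧
      pb M m a (S.C * S.v) j * Vn M m a j + VVn M m a j ≤ Λ * (κ ^ 2 * S.w3 (M.s j))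

namespace N49

open Crest.Agent.T156.Alt.E49 Crest.Agent.T156.Alt.C33 Crest.Agent.T156.Alt.Md67
open Crest.Agent.T156.Alt.Cost41 (aM)

variable {E l0 : ℝ} {S : Sc} {M : Md} {m : ℕ} {a : ℝ} {cf : ℝ → ℝ} {K : ℕ}

theorem cf_sc (c : Cf E S M m a l0 cf) (l0p : 0 < l0) {t t' α : ℝ} (ht : l0 ≤ t) (ht' : l0 ≤ t')
    (hα : 1 ≤ α) (h : t' ≤ α * t) : cf t' ≤ 2 * α * cf t := by
  have t0 := l0p.trans_le ht
  have a1 : t ≤ α * t := le_mul_of_one_le_left t0.le hα
  have a2 := c.dbl t _ ht a1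
  rw [div_le_iff₀ (by positivity)] at a2
  refine (c.mono _ _ ht' h).trans (a2.trans (le_of_eq ?_))
  field_simp

theorem cf_pos (c : Cf E S M m a l0 cf) (l0p : 0 < l0) {t : ℝ} (ht : l0 ≤ t) : 0 < cf t :=
  (l0p.trans_le ht).trans_le (c.ge t ht)

/-- the constant of the parity size -/
def Dp (C : ℝ) : ℝ := 2600 * (C + 64 * C ^ 4 + 1) + 3

section fn
variable (F : Fn S M m a)
include F

theorem at_fn : At S M m a (max (M.b + M.H S.Jp) (M.s S.Jp)) :=
  ⟨F.toCl, F.toIn, le_max_left _ _, le_max_right _ _⟩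

theorem s_pos {i : ℕ} (h0 : 1 ≤ i) (hi : i ≤ S.J) : S.v ≤ S.C * M.s i :=
  (le_mul_of_one_le_left F.v0.le (Nat.one_le_cast.2 h0)).trans (F.s_mem hi).1

theorem s_lev {i j c : ℕ} (hi : i ≤ S.J) (hj : j ≤ S.J) (h : j ≤ c * i) :
    M.s j ≤ c * S.C ^ 2 * M.s i := by
  have a1 : (j : ℝ) ≤ c * i := by exact_mod_cast h
  have a2 := mul_le_mul_of_nonneg_left (F.s_mem hi).1
    (mul_nonneg F.C0.le (Nat.cast_nonneg c : (0 : ℝ) ≤ c))
  have a3 := mul_le_mul_of_nonneg_left (mul_le_mul_of_nonneg_right a1 F.v0.le) F.C0.le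
  linarith [(F.s_mem hj).2]

theorem gg_lev {t t' β : ℝ} (h0 : 0 < t) (h0' : 0 ≤ t') (β1 : 1 ≤ β) (h : t' ≤ β * t) :
    gg S t ≤ 4 * β ^ 2 * gg S t' := by
  have a1 := gg_quad F h0 (le_mul_of_one_le_left h0.le β1)
  have a2 := mul_le_mul_of_nonneg_left (gg_anti F h0' h) (by positivity : 0 ≤ 4 * (β * t) ^ 2)
  refine le_of_mul_le_mul_right ((a1.trans a2).trans (le_of_eq (by ring))) (pow_pos h0 2)

theorem z_le {i j : ℕ} (h0 : S.j0 ≤ j) (hj : j < S.J) (h : j ≤ 2 * i) (hi : i ≤ S.J) :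
    M.z j ≤ 6 * S.C ^ 3 * M.s i := by
  have a1 : (j : ℝ) ≤ 2 * i := by exact_mod_cast h
  have C0 := F.C0
  have a2 := mul_le_mul_of_nonneg_left (mul_le_mul_of_nonneg_right a1 F.v0.le)
    (by positivity : 0 ≤ 3 * S.C ^ 2)
  have a3 := mul_le_mul_of_nonneg_left (F.s_mem hi).1 (by positivity : 0 ≤ 6 * S.C ^ 2)
  linarith [F.z_hi h0 hj]

theorem w3_eq {t : ℝ} (h0 : 0 < t) : gg S t = t * S.w3 t := by
  have := F.ms_pos h0.le; have := F.n1
  unfold gg Sc.w3; field_simp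

variable (c : Cf E S M m a l0 cf) (E1 : 1 ≤ E)
include c E1

theorem cf_z {i j : ℕ} (h0 : S.j0 ≤ j) (hj : j < S.J) (h : j ≤ 2 * i) (hi : i ≤ S.J)
    (hl : l0 ≤ M.s i) : cf (max (M.z j) l0) ≤ 12 * S.C ^ 3 * cf (M.s i) := by
  have l0p := P33.l0_pos F.toCl E1 c
  have c1 : 1 ≤ 6 * S.C ^ 3 := by linarith [one_le_pow₀ (n := 3) F.C1]
  exact (cf_sc c l0p hl (le_max_right _ _) c1 (max_le (z_le F h0 hj h hi)
    (hl.trans (le_mul_of_one_le_left (l0p.le.trans hl) c1)))).trans_eq (by ring)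

theorem F_le : S.F ≤ S.n := by
  have l0p := P33.l0_pos F.toCl E1 c
  have l1 : l0 ≤ 1 := (le_mul_of_one_le_left l0p.le E1).trans c.l1
  have m0 := F.ms_pos l0p.le
  have n1 := F.n1
  have := c.l0w.trans (pow_le_one₀ l0p.le l1)
  rw [Sc.w3, div_le_one (by positivity), mul_assoc] at this
  exact this.trans (mul_le_of_le_one_right (by positivity)
    (mul_le_one₀ l1 m0.le (F.ms_le_one l0)))

theorem pb_cf {G1 : ℝ} (ce : CeiG S M G1) {k : ℕ} (hk : k < S.J) :
    pb M m a (S.C * S.v) k ≤ Dp S.C * cf (max (M.z k) l0) := by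
  have G := F.lg
  have C1 := F.C1; have C0 := F.C0; have F0 := F.F0
  have i1 := F.i1; have i3 := F.i3; have i4 := F.i4
  have l0p := P33.l0_pos F.toCl E1 c
  have jl := P33.jl_le F.toCl E1 c
  set t := max (M.z k) l0 with ht
  have t1 : l0 ≤ t := le_max_right _ _
  have t2 : M.z k ≤ t := le_max_left _ _
  have t0 := l0p.trans_le t1
  have tc := c.ge t t1
  have c0 := t0.trans_le tc
  rcases le_total 1 (cf t) with h | h
  · refine (pb_le G k).trans (le_trans ?_ (le_mul_of_one_le_right (by unfold Dp; positivity) h))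
    unfold Dp
    linarith [(by positivity : 0 ≤ 2600 * (S.C + 64 * S.C ^ 4 + 1))]
  have tt : l0 ≤ 2 * S.C * t := t1.trans (le_mul_of_one_le_left t0.le (by linarith))
  have mT := F.ms_pos (l0p.le.trans tt)
  have hH : M.H k ≤ S.C * S.F * S.ms (2 * S.C * t) * (2 * S.C * t) := by
    rcases le_or_gt k S.jl with q | q
    · refine (F.leg.Hm (show k ≤ S.jl + 1 by omega)).trans (ce.bot.trans ?_)
      have := F.msm (jl.trans tt)
      have := jl.trans tt
      have := F.s_nonneg S.jl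
      gcongr
    · refine ((at_fn F).H_abs ce q hk).trans ?_
      have := F.msm ((F.s_le_z (by omega) hk).trans (mul_le_mul_of_nonneg_left t2 (by positivity)))
      have : M.s S.jl + S.C * M.z k ≤ 2 * S.C * t := by
        nlinarith [mul_le_mul_of_nonneg_left t2 C0.le]
      have := add_nonneg (F.s_nonneg S.jl) (mul_nonneg C0.le (F.z_pos k).le)
      gcongr
  have a1 := mul_le_mul_of_nonneg_left (c.fl _ tt) C0.le
  have a2 := pow_le_pow_left₀ (cf_pos c l0p tt).le (cf_sc c l0p t1 tt (by linarith) le_rfl) 3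
  have a3 : cf t ^ 3 ≤ cf t := pow_le_of_le_one c0.le h (by norm_num)
  have a4 : M.H k ≤ 64 * S.C ^ 4 * cf t := by
    have := mul_le_mul_of_nonneg_left a2 C0.le
    have := mul_le_mul_of_nonneg_left a3 (by positivity : 0 ≤ 64 * S.C ^ 4)
    linarith
  have a5 := c.cru k (by omega)
  have a6 := mul_le_mul F.b1 a5 (rb_nonneg G.m0 k) C0.le
  have a7 := F.fine.trans (F.leg.zm (Nat.zero_le k))
  have := pb_le' (ms := S.C * S.v) G (k := k) (by omega)
  unfold Dp
  linarith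

end fn

/-- the constant of the weak input -/
def DG (C : ℝ) : ℝ := (6912 * C ^ 9 * Dp C) ^ 2 +
  (2 * C ^ 2 * (3456 * C ^ 10 * Dp C ^ 2 + 1536 * C ^ 10) + 18)

/-- the constant of the node variances -/
def DV (C : ℝ) : ℝ := 24 * C ^ 4 * Dp C * (256 * C ^ 9 + 4 * C + 2 * (49152 * C ^ 12 + 384 * C ^ 9 +
  2 * C)) + 5 * C ^ 5 * (786432 * C ^ 13 + 1)

section big
variable (B : Big S M m a K) (c : Cf E S M m a l0 cf) (hE : 4 * S.C ^ 2 ≤ E) {j : ℕ} {κ : ℝ}
  (h1 : 2 * l0 ≤ M.s j) (h2 : j + 1 < S.J) (h3 : cf (M.s j) ≤ κ * M.s j)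
include B c hE

theorem E1 : 1 ≤ E := by linarith [one_le_pow₀ (n := 2) B.C1]

theorem v_l0 : 4 * (S.C * S.v) ≤ l0 := by
  have a1 := s_pos B.toFn (B.i0.trans B.i1) (show S.jl ≤ S.J by have := B.i2; omega)
  have a2 := mul_le_mul_of_nonneg_right hE (B.s_nonneg S.jl)
  linarith [c.l0s, mul_le_mul_of_nonneg_left a1 B.C0.le]

include h1 in
theorem j_lo (h2 : j ≤ S.J) : 8 * S.jl ≤ j := by
  have i2 := B.i2
  have a1 := (B.s_mem (k := S.jl) (by omega)).1
  have a2 := (B.s_mem (k := j) (by omega)).2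
  have a3 := mul_le_mul_of_nonneg_right hE (B.s_nonneg S.jl)
  have a4 := mul_le_mul_of_nonneg_left a1 B.C0.le
  have : (8 * S.jl : ℝ) * (S.C * S.v) ≤ j * (S.C * S.v) := by linarith [c.l0s]
  exact_mod_cast le_of_mul_le_mul_right this (mul_pos B.C0 B.v0)

include h1 h2 h3

theorem κ1 : 1 ≤ κ := by
  have l0p := P33.l0_pos B.toCl (E1 B c hE) c
  exact le_of_mul_le_mul_right (by linarith [c.ge (M.s j) (by linarith)])
    (show 0 < M.s j by linarith)

/-- **the weak input** -/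
theorem gm_node {G1 G0 Λ' Λ : ℝ} (ce : CeiG S M G1) (hH : M.H S.Jp ≤ S.C)
    (g0 : l0 * cf l0 ^ 2 ≤ G0) (hP : ∑ k ∈ Icc S.J S.Jp, M.dz m a k * aM M m a k ≤ G0 ^ 2)
    (h4 : ∀ t, l0 ≤ t → t ≤ M.s j → cf t ^ 3 / t * gg S t ≤ G0 ^ 2 + κ * gg S (M.s j))
    (Λ1 : 1 ≤ Λ') (hu : ∀ k < M.N, u4 M m a k ≤ Λ' * cf (max (M.z k) l0)) (Λ0 : 0 ≤ Λ)
    (hΛ : 9 * DG S.C * ((K : ℝ) + 2) ^ 4 * Λ' ^ 2 ≤ Λ ^ 2) :
    (eD M m a (u4 M m a) (S.C * S.v)).Gm (j + 1) (Λ * (√(κ * gg S (M.s j)) + G0)) := by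
  have F := B.toFn
  have G := F.lg
  have C1 := F.C1; have C0 := F.C0; have v0 := F.v0
  have i0 := F.i0; have i1 := F.i1; have i2 := F.i2; have i3 := F.i3; have i4 := F.i4
  have e1 := E1 B c hE
  have l0p := P33.l0_pos F.toCl e1 c
  have l1 : l0 ≤ 1 := (le_mul_of_one_le_left l0p.le e1).trans c.l1
  have vl := v_l0 B c hE
  have k1 := κ1 B c hE h1 h2 h3
  have ms0 : 0 < S.C * S.v := by positivity
  have D0 : 0 < Dp S.C := by unfold Dp; positivity
  have c0 := cf_pos c l0p le_rfl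
  have G00 : 0 ≤ G0 := le_trans (by positivity) g0
  have gj0 := gg_pos F (F.s_nonneg j)
  classical
  have ex : ∃ k, l0 ≤ M.s k := ⟨j, by linarith⟩
  set k1' := Nat.find ex with hk1
  have q1 : l0 ≤ M.s k1' := Nat.find_spec ex
  have q2 : S.jl < k1' := by
    refine not_le.1 fun h => ?_
    have a1 := mul_le_mul_of_nonneg_right hE (F.s_nonneg S.jl)
    have a2 := q1.trans (F.sm h)
    nlinarith [c.l0s, one_le_pow₀ (n := 2) C1]
  have q0 : k1' ≤ j := Nat.find_min' ex (by linarith)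
  have q3 : M.s k1' ≤ 2 * l0 - S.C * S.v := by
    have a1 := not_le.1 (Nat.find_min ex (show k1' - 1 < k1' by omega))
    have a2 := (F.ss (k1' - 1) (by omega)).2
    rw [Nat.sub_add_cancel (by omega)] at a2
    linarith
  have q4 : k1' < j := lt_of_le_of_ne q0 fun e => by rw [e] at q3; linarith
  have q5 : M.z k1' ≤ 12 * S.C ^ 3 * l0 := by
    have := z_le F (i := k1') (j := k1') (by omega) (by omega) (by omega) (by omega)
    have := mul_le_mul_of_nonneg_left (show M.s k1' ≤ 2 * l0 by linarith)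
      (by positivity : 0 ≤ 6 * S.C ^ 3)
    linarith
  have c12 : 1 ≤ 12 * S.C ^ 3 := by linarith [one_le_pow₀ (n := 3) C1]
  have q6 : ∀ k ≤ k1', cf (max (M.z k) l0) ≤ 24 * S.C ^ 3 * cf l0 := fun k hk =>
    (cf_sc c l0p le_rfl (le_max_right _ _) c12 (max_le ((G.zm hk).trans q5)
      (le_mul_of_one_le_left l0p.le c12))).trans_eq (by ring)
  set Q := G0 ^ 2 + κ * gg S (M.s j) with hQ
  have Q0 : 0 ≤ Q := by positivity
  have Q1 : κ * gg S (M.s j) ≤ Q := le_add_of_nonneg_left (sq_nonneg _)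
  have Q2 : G0 ^ 2 ≤ Q := le_add_of_nonneg_right (by positivity)
  set DA := 3456 * S.C ^ 10 * Dp S.C ^ 2 + 1536 * S.C ^ 10 with hDA
  have g9 : ∀ k, 0 ≤ gj M m a (S.C * S.v) j k ^ 2 ∧ gj M m a (S.C * S.v) j k ^ 2 ≤ 9 := fun k =>
    ⟨sq_nonneg _, by nlinarith [gj_mem F ms0 j k]⟩
  have ym : Monotone fun k => cf (max (M.z k) l0) := fun i k h =>
    c.mono _ _ (le_max_right _ _) (max_le_max_right _ (G.zm h))
  have sl := slope_sum F (B.kb (F_le F c e1) hH) q2.le (b := S.J - 1) (by omega) (by omega) ym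
    (cf_pos c l0p (le_max_right _ _)) (fun k _ hk => c.cru k (by omega)) g9
    (A := DA * Q) (by positivity) fun i p q => by
      have si : l0 ≤ M.s i := q1.trans (F.sm p)
      have s0 := l0p.trans_le si
      have ci := cf_pos c l0p si
      have gi := gg_pos F s0.le
      have sz := F.s_le_z (k := i) (by omega) (by omega)
      have y1 := cf_z F c e1 (i := i) (j := i) (by omega) (by omega) (by omega) (by omega) si
      have z0 := F.z_pos i
      unfold gj
      split_ifs with h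
      · have p1 := (pb_cf F c e1 ce (k := i + 1) (by omega)).trans (mul_le_mul_of_nonneg_left
          (cf_z F c e1 (i := i) (by omega) (by omega) (by omega) (by omega) si) D0.le)
        have p2 := h4 _ si (F.sm (by omega))
        rw [div_mul_eq_mul_div, div_le_iff₀ s0] at p2
        have p3 := pow_le_pow_left₀ (pb_nn G ms0 _) p1 2
        calc _ ≤ (Dp S.C * (12 * S.C ^ 3 * cf (M.s i))) ^ 2 * (12 * S.C ^ 3 * cf (M.s i)) *
              gg S (M.s i) := by gcongr; exact (cf_pos c l0p (le_max_right _ _)).le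
          _ = 1728 * S.C ^ 9 * Dp S.C ^ 2 * (cf (M.s i) ^ 3 * gg S (M.s i)) := by ring
          _ ≤ 1728 * S.C ^ 9 * Dp S.C ^ 2 * (Q * (2 * S.C * M.z i)) := mul_le_mul_of_nonneg_left
              (p2.trans (mul_le_mul_of_nonneg_left sz Q0)) (by positivity)
          _ = 3456 * S.C ^ 10 * Dp S.C ^ 2 * Q * M.z i := by ring
          _ ≤ _ := by gcongr; rw [hDA]; exact le_add_of_nonneg_right (by positivity)
      · have c2 : 1 ≤ 2 * S.C ^ 2 := by linarith [one_le_pow₀ (n := 2) C1]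
        have p1 : M.s j ≤ 2 * S.C ^ 2 * M.s i := by
          exact_mod_cast s_lev F (i := i) (j := j) (c := 2) (by omega) (by omega) (by omega)
        have p2 := gg_lev F s0 (F.s_nonneg j) c2 p1
        have p3 : cf (M.s i) ≤ 4 * S.C ^ 2 * κ * M.s i := by
          rcases le_total (M.s i) (M.s j) with r | r
          · have := mul_le_mul_of_nonneg_left p1 (zero_le_one.trans k1)
            have := c.mono _ _ si r
            linarith [(by positivity : 0 ≤ S.C ^ 2 * κ * M.s i)]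
          · have a1 := c.dbl _ _ (by linarith) r
            have a2 : cf (M.s j) / M.s j ≤ κ := (div_le_iff₀ (by linarith)).2 h3
            rw [div_le_iff₀ s0] at a1
            have a3 := mul_le_mul_of_nonneg_right a2 s0.le
            have a4 := mul_le_mul_of_nonneg_right c2 (by positivity : 0 ≤ κ * M.s i)
            linarith
        calc _ ≤ 1 ^ 2 * (12 * S.C ^ 3 * (4 * S.C ^ 2 * κ * (2 * S.C * M.z i))) *
              (4 * (2 * S.C ^ 2) ^ 2 * gg S (M.s j)) := by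
              gcongr
              exact y1.trans (mul_le_mul_of_nonneg_left (p3.trans
                (mul_le_mul_of_nonneg_left sz (by positivity))) (by positivity))
          _ = 1536 * S.C ^ 10 * (κ * gg S (M.s j)) * M.z i := by ring
          _ ≤ _ := by gcongr; rw [hDA]; exact le_add_of_nonneg_left (by positivity)
  have lg : log (cf (max (M.z (S.J - 1)) l0) / cf (max (M.z k1') l0)) ≤ K := by
    have p0 := cf_pos c l0p (le_max_right (M.z k1') l0)
    refine log_le_K (div_pos (cf_pos c l0p (le_max_right _ _)) p0) ?_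
    rw [div_le_iff₀ p0]
    refine (cf_sc c l0p (le_max_right _ _) (le_max_right _ _) F.n1 ?_).trans
      (mul_le_mul_of_nonneg_right B.n2 p0.le)
    refine (max_le (G.z1 _) l1).trans (B.z0'.trans (mul_le_mul_of_nonneg_left
      ((G.zm (Nat.zero_le k1')).trans (le_max_left _ _)) (zero_le_one.trans F.n1)))
  have hi : ∑ k ∈ Ico (k1' + 1) M.N, M.dz m a k * gj M m a (S.C * S.v) j k ^ 2 * aM M m a k ≤
      ((K : ℝ) + 2) ^ 3 * ((2 * S.C ^ 2 * DA + 18) * Q) := by
    rw [← sum_Ico_consecutive _ (show k1' + 1 ≤ S.J by omega) (show S.J ≤ M.N by omega),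
      ← sum_Ico_consecutive _ (show S.J ≤ S.Jp + 1 by omega) (show S.Jp + 1 ≤ M.N by omega),
      sum_eq_zero (s := Ico (S.Jp + 1) M.N) fun k hk => by
        rw [dz_hi F.toCl (mem_Ico.1 hk).1, zero_mul, zero_mul], add_zero,
      show Ico (k1' + 1) S.J = Ioc k1' (S.J - 1) by
        ext k; simp only [mem_Ico, mem_Ioc]; omega]
    have a1 : ∑ k ∈ Ico S.J (S.Jp + 1), M.dz m a k * gj M m a (S.C * S.v) j k ^ 2 * aM M m a k ≤
        9 * Q := by
      refine le_trans ?_ (mul_le_mul_of_nonneg_left (hP.trans Q2) (by norm_num))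
      rw [mul_sum]
      refine sum_le_sum fun k _ => ?_
      linarith [mul_le_mul_of_nonneg_right (g9 k).2
        (mul_nonneg (G.dz_nonneg k) (Cost41.aM_nonneg G k))]
    have a2 : S.C * S.v ≤ Q :=
      ((B.v_gg (F.s_nonneg j)).trans (le_mul_of_one_le_left gj0.le k1)).trans Q1
    have K0 : (0 : ℝ) ≤ K := Nat.cast_nonneg K
    have a3 : ((K : ℝ) + 2) * (2 * (1 + K) * (S.C ^ 2 * (DA * Q) * (1 + log (cf (max (M.z (S.J - 1))
        l0) / cf (max (M.z k1') l0)))) + 9 * (S.C * S.v)) ≤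
        (K + 2) * (2 * (K + 2) * (S.C ^ 2 * (DA * Q) * (K + 2)) + 9 * Q) := by
      have : 0 ≤ 1 + log (cf (max (M.z (S.J - 1)) l0) / cf (max (M.z k1') l0)) := by
        linarith [log_nonneg ((one_le_div (cf_pos c l0p (le_max_right (M.z k1') l0))).2
          (ym (show k1' ≤ S.J - 1 by omega)))]
      exact mul_le_mul_of_nonneg_left (add_le_add (mul_le_mul (by linarith)
        (mul_le_mul_of_nonneg_left (by linarith) (by positivity)) (by positivity) (by positivity))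
        (by linarith)) (by positivity)
    have a4 : (K : ℝ) + 2 ≤ (K + 2) ^ 3 := le_self_pow₀ (by linarith) (by norm_num)
    have a5 := mul_le_mul_of_nonneg_right a4 Q0
    have a6 := mul_le_mul_of_nonneg_right (show (1 : ℝ) ≤ (K + 2) ^ 3 by linarith) Q0
    linarith only [sl, a1, a3, a5, a6]
  refine gm_split G (top_cl F.toCl) (mj_u4 G.m0) ms0 (F.z_pos 0) (k1 := k1') (by omega)
    (g := gj M m a (S.C * S.v) j) (fun k _ => (gj_mem F ms0 j k).1) (fun k _ => le_rfl) q5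
    (γ := Dp S.C * (24 * S.C ^ 3 * cf l0)) (υ := Λ' * (24 * S.C ^ 3 * cf l0))
    (fun k hk => ⟨?_, (hu k (by omega)).trans
      (mul_le_mul_of_nonneg_left (q6 k hk) (by linarith))⟩) (by positivity) ?_
  · rw [gj, if_pos (by omega)]
    exact (pb_cf F c e1 ce (by omega)).trans (mul_le_mul_of_nonneg_left (q6 k hk) D0.le)
  have K0 : (0 : ℝ) ≤ K := Nat.cast_nonneg K
  have lo : (12 * S.C ^ 3 * l0 * (Dp S.C * (24 * S.C ^ 3 * cf l0)) *
      (Λ' * (24 * S.C ^ 3 * cf l0))) ^ 2 ≤ (6912 * S.C ^ 9 * Dp S.C) ^ 2 * Λ' ^ 2 * Q := by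
    calc _ = (6912 * S.C ^ 9 * Dp S.C) ^ 2 * Λ' ^ 2 * (l0 * cf l0 ^ 2) ^ 2 := by ring
      _ ≤ _ := by
        gcongr
        exact (pow_le_pow_left₀ (by positivity) g0 2).trans Q2
  have L2 : 1 ≤ Λ' ^ 2 := one_le_pow₀ Λ1
  have k3 : (1 : ℝ) ≤ (K + 2) ^ 3 := one_le_pow₀ (by linarith)
  have b1 : (6912 * S.C ^ 9 * Dp S.C) ^ 2 * Λ' ^ 2 * Q + ((K : ℝ) + 2) ^ 3 *
      ((2 * S.C ^ 2 * DA + 18) * Q) ≤ (K + 2) ^ 3 * (DG S.C * Λ' ^ 2 * Q) := by
    have a1 := le_mul_of_one_le_left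
      (by positivity : 0 ≤ (6912 * S.C ^ 9 * Dp S.C) ^ 2 * Λ' ^ 2 * Q) k3
    have a2 := le_mul_of_one_le_left
      (by positivity : 0 ≤ ((K : ℝ) + 2) ^ 3 * ((2 * S.C ^ 2 * DA + 18) * Q)) L2
    rw [DG, ← hDA]
    linarith only [a1, a2]
  have b2 : Q ≤ (√(κ * gg S (M.s j)) + G0) ^ 2 := by
    rw [add_sq, sq_sqrt (by positivity), hQ]
    linarith only [(by positivity : 0 ≤ 2 * √(κ * gg S (M.s j)) * G0)]
  have DG0 : 0 ≤ DG S.C := by unfold DG; positivity
  refine (mul_le_mul (show _ ≤ 9 * ((K : ℝ) + 2) by linarith [B.log_z0])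
    ((add_le_add lo hi).trans b1) (add_nonneg (sq_nonneg _) (sum_nonneg fun k _ => mul_nonneg
      (mul_nonneg (G.dz_nonneg k) (sq_nonneg _)) (Cost41.aM_nonneg G k))) (by positivity)).trans ?_
  rw [mul_pow]
  exact le_trans (le_of_eq (by ring)) (mul_le_mul hΛ b2 Q0 (sq_nonneg _))

/-- **the node variances** -/
theorem vn_node {G1 : ℝ} (ce : CeiG S M G1) (hH : M.H S.Jp ≤ S.C) {V : ℕ} (hV : j + 1 ≤ V)
    (hg : Gd M m a κ (j - j / 3) V j) :
    pb M m a (S.C * S.v) j * Vn M m a j + VVn M m a j ≤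
      DV S.C * ((K : ℝ) + 2) ^ 2 * (κ ^ 2 * S.w3 (M.s j)) := by
  have F := B.toFn
  have G := F.lg
  have C1 := F.C1; have C0 := F.C0; have v0 := F.v0
  have i0 := F.i0; have i1 := F.i1; have i2 := F.i2; have i3 := F.i3; have i4 := F.i4
  have e1 := E1 B c hE
  have l0p := P33.l0_pos F.toCl e1 c
  have k1 := κ1 B c hE h1 h2 h3
  have j8 := j_lo B c hE h1 (by omega)
  have kb := B.kb (F_le F c e1) hH
  have D0 : 0 < Dp S.C := by unfold Dp; positivity
  have s0 : 0 < M.s j := by linarith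
  have sC : M.s j ≤ S.C := (F.sm (by omega)).trans F.sT
  have w0 := F.w3_pos s0
  have we := w3_eq F s0
  have hv := B.v_w3 s0 sC
  set w := S.w3 (M.s j) with hw
  have K0 : (0 : ℝ) ≤ K := Nat.cast_nonneg K
  have z0 := F.z_pos j
  have vz : ∀ i, S.v / M.z i ^ 2 ≤ w := fun i => by
    rw [div_le_iff₀' (pow_pos (F.z_pos i) 2)]
    exact hv.trans (mul_le_mul_of_nonneg_right
      (pow_le_pow_left₀ (F.z_pos 0).le (G.zm (Nat.zero_le i)) 2) w0.le)
  have cj : cf (max (M.z j) l0) ≤ 12 * S.C ^ 3 * (κ * M.s j) :=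
    (cf_z F c e1 (i := j) (by omega) (by omega) (by omega) (by omega) (by linarith)).trans
      (mul_le_mul_of_nonneg_left h3 (by positivity))
  have rj := (c.cru j (by omega)).trans cj
  have lev : ∀ i n : ℕ, S.jl ≤ i → i ≤ j → 1 ≤ n → j ≤ n * i →
      gg S (M.s i) ≤ 4 * (n * S.C ^ 2) ^ 2 * (M.s j * w) ∧ M.s j ≤ 2 * n * S.C ^ 3 * M.z i :=
    fun i n p q r t => by
      have a1 := s_lev F (i := i) (j := j) (by omega) (by omega) t
      have n1 : (1 : ℝ) ≤ n := Nat.one_le_cast.2 r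
      have si : 0 < M.s i := by
        have := s_pos F (i := i) (by omega) (by omega)
        exact (pos_iff_pos_of_mul_pos (v0.trans_le this)).1 C0
      refine ⟨we ▸ gg_lev F si s0.le (one_le_mul_of_one_le_of_one_le n1 (one_le_pow₀ C1)) a1, ?_⟩
      have := mul_le_mul_of_nonneg_left (F.s_le_z (k := i) (by omega) (by omega))
        (by positivity : 0 ≤ n * S.C ^ 2)
      linarith
  have vv : VVn M m a j ≤ 5 * S.C ^ 5 * (K + 2) ^ 2 * ((786432 * S.C ^ 13 + 1) * (κ ^ 2 * w)) := by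
    refine (VVn_slope F kb (by omega) (by omega)).trans (mul_le_mul_of_nonneg_left ?_
      (by positivity))
    obtain ⟨a1, a2⟩ := lev (j / 4) 8 (by omega) (by omega) (by norm_num) (by omega)
    have x0 := F.z_pos (j / 4)
    have a3 := mul_le_mul a1 rj (rb_nonneg G.m0 j) (by positivity)
    have a4 := pow_le_pow_left₀ s0.le a2 2
    have a5 : gg S (M.s (j / 4)) * M.rb m a j / M.z (j / 4) ^ 2 ≤ 786432 * S.C ^ 13 * (κ * w) := by
      rw [div_le_iff₀ (by positivity)]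
      have := mul_le_mul_of_nonneg_left a4 (by positivity : 0 ≤ 3072 * S.C ^ 7 * (κ * w))
      push_cast at a3 this
      linarith only [a3, this]
    have a6 : κ * w ≤ κ ^ 2 * w := mul_le_mul_of_nonneg_right (le_self_pow₀ k1 two_ne_zero) w0.le
    have a7 : w ≤ κ ^ 2 * w := le_mul_of_one_le_left w0.le (one_le_pow₀ k1)
    have a8 := mul_le_mul_of_nonneg_left a6 (by positivity : 0 ≤ 786432 * S.C ^ 13)
    rw [add_div]
    linarith only [a5, a7, a8, vz (j / 4)]
  obtain ⟨u1, u2⟩ := lev (j - j / 3) 2 (by omega) (by omega) (by norm_num) (by omega)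
  have σ0 := mul_pos (m0 F) (sg_pos F (j - j / 3))
  have hr : S.v / (m * sg S M (j - j / 3)) ≤ 64 * S.C ^ 8 * w := by
    refine (rate F _).trans ?_
    rw [div_le_iff₀ (F.z_pos _)]
    have a1 := mul_le_mul_of_nonneg_left u1 C0.le
    have a2 := mul_le_mul_of_nonneg_left u2 (by positivity : 0 ≤ 16 * S.C ^ 5 * w)
    push_cast at a1 a2
    linarith only [a1, a2]
  have κ0 : 0 ≤ κ := by linarith
  have vn := Vn_down F kb (U := j - j / 3) (k := j) (d := j / 3) (g := S.C * κ * S.v) (by omega)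
    (by omega) (by omega) (by omega) rj (fun t t1 t2 => by
      have a1 := hg.2 (j - t) (by omega) (by omega)
      have a2 := z_lip F (i := j - t) (j := j) (by omega) (by omega) (by omega)
      rw [Nat.cast_sub (by omega)] at a2
      linarith only [a1, mul_le_mul_of_nonneg_left a2 κ0]) (by omega) (by
      have a1 := hg.1 (j + 1) (by omega) hV
      have a2 := z_lip F (i := j) (j := j + 1) (by omega) (by omega) h2
      push_cast at a2
      linarith only [a1, mul_le_mul_of_nonneg_left a2 κ0])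
  set σ := m * sg S M (j - j / 3) with hσ
  set r := S.v / σ with hr'
  have d0 : (0 : ℝ) < (j / 3 : ℕ) := Nat.cast_pos.2 (by omega)
  have dv : M.s j ≤ 4 * S.C * ((j / 3 : ℕ) * S.v) := by
    have a1 : (j : ℝ) ≤ 4 * (j / 3 : ℕ) := by exact_mod_cast (by omega : j ≤ 4 * (j / 3))
    have a2 := mul_le_mul_of_nonneg_left (mul_le_mul_of_nonneg_right a1 v0.le) C0.le
    linarith only [a2, (F.s_mem (k := j) (by omega)).2]
  have z1 := G.z1 j
  have vw : S.v / M.z j ≤ w := (div_le_div_of_nonneg_left v0.le (by positivity)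
    (by rw [sq]; exact mul_le_of_le_one_left z0.le z1)).trans (vz j)
  have vw' : S.v ≤ w := (le_div_self v0.le z0 z1).trans vw
  have ag : aG σ K (j / 3) (12 * S.C ^ 3 * (κ * M.s j)) (S.C * κ * S.v) ≤
      (K + 2) ^ 2 * ((49152 * S.C ^ 12 + 384 * S.C ^ 9 + 2 * S.C) * (κ * w)) := by
    have a1 : 4 * (12 * S.C ^ 3 * (κ * M.s j)) / (σ * (j / 3 : ℕ)) ≤ 192 * S.C ^ 4 * κ * r := by
      rw [div_le_iff₀ (by positivity), hr', show 192 * S.C ^ 4 * κ * (S.v / σ) * (σ * (j / 3 : ℕ)) =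
        48 * S.C ^ 3 * κ * (4 * S.C * ((j / 3 : ℕ) * S.v)) by field_simp; ring]
      linarith only [mul_le_mul_of_nonneg_left dv (by positivity : 0 ≤ 48 * S.C ^ 3 * κ)]
    have a2 : 3 * K * (S.C * κ * S.v) / σ = 3 * K * S.C * κ * r := by rw [hr']; ring
    have a3 := mul_le_mul_of_nonneg_left hr (by positivity : 0 ≤ 192 * S.C ^ 4 * κ)
    have a4 := mul_le_mul_of_nonneg_left hr (by positivity : 0 ≤ 3 * K * S.C * κ)
    have a5 := mul_le_mul_of_nonneg_left vw' (by positivity : 0 ≤ S.C * κ)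
    rw [aG, a2, sq, mul_assoc ((K : ℝ) + 2)]
    refine mul_le_mul_of_nonneg_left ?_ (by positivity)
    have p1 : 0 ≤ S.C ^ 12 * (κ * w) := by positivity
    have p2 : 0 ≤ S.C ^ 9 * (κ * w) := by positivity
    have p3 : 0 ≤ S.C * (κ * w) := by positivity
    linarith only [a1, a3, a4, a5, p1, p2, p3, mul_nonneg K0 p1, mul_nonneg K0 p2, mul_nonneg K0 p3]
  have k2 : (1 : ℝ) ≤ (K + 2) ^ 2 := one_le_pow₀ (by linarith)
  have vn2 : Vn M m a j ≤ (K + 2) ^ 2 * ((256 * S.C ^ 9 + 4 * S.C + 2 * (49152 * S.C ^ 12 +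
      384 * S.C ^ 9 + 2 * S.C)) * (κ * w)) / M.z j := by
    refine vn.trans ?_
    rw [show (2 / (σ * M.z j) + 2 / M.z j ^ 2) * (S.C * κ * S.v) =
      (2 * S.C * κ * r + 2 * S.C * κ * (S.v / M.z j)) / M.z j by rw [hr']; field_simp,
      mul_div_assoc' (2 : ℝ) (aG _ _ _ _ _), ← add_div]
    refine div_le_div_of_nonneg_right ?_ z0.le
    have a3 := mul_le_mul_of_nonneg_left hr (by positivity : 0 ≤ 2 * S.C * κ)
    have a4 := mul_le_mul_of_nonneg_left vw (by positivity : 0 ≤ 2 * S.C * κ)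
    have a5 := le_mul_of_one_le_left (by positivity : 0 ≤ (256 * S.C ^ 9 + 4 * S.C) * (κ * w)) k2
    have p2 : 0 ≤ S.C ^ 9 * (κ * w) := by positivity
    have p3 : 0 ≤ S.C * (κ * w) := by positivity
    linarith only [a3, a4, a5, ag, p2, p3]
  have pj : pb M m a (S.C * S.v) j ≤ 24 * S.C ^ 4 * Dp S.C * κ * M.z j := by
    have a1 := mul_le_mul_of_nonneg_left (F.s_le_z (k := j) (by omega) (by omega))
      (by positivity : 0 ≤ Dp S.C * (12 * S.C ^ 3 * κ))
    linarith only [a1, (pb_cf F c e1 ce (k := j) (by omega)).trans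
      (mul_le_mul_of_nonneg_left cj D0.le)]
  refine (add_le_add (mul_le_mul pj vn2 (Vn_nn j) (by positivity)) vv).trans (le_of_eq ?_)
  rw [DV]
  field_simp

end big

end N49

open N49 Crest.Agent.T156.Alt.E49 in
theorem szN' : SzN' := by
  intro C
  filter_upwards [P33.szL C, eventually_ge_atTop 3] with A H hA ε hε η hη
  have h4 : 0 < η / 4 := by positivity
  filter_upwards [H ε hε _ h4, ev_big C (9 * DG C + DV C) hA (half_pos hη),
    Pre29.ev_K (4 * C ^ 2) hε] with n H hK hE S M b1 b2 b3 h m a I G1 l0 cf G0 ce hH c g0 hP j V κ h1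
    h2 hV h3 h4 hg
  obtain ⟨K, hK, B⟩ := hK
  replace B := B S M b1 b2 b3 h m a I
  replace H := H S M b1 b2 b3 h m a I l0 cf c
  subst b1 b3
  have n1 := B.n1
  have C0 := B.C0
  have K0 : (0 : ℝ) ≤ K := Nat.cast_nonneg K
  have D0 : 0 < Dp S.C := by unfold Dp; positivity
  have DG0 : 0 ≤ DG S.C := by unfold DG; positivity
  have DV0 : 0 ≤ DV S.C := by unfold DV; positivity
  have L1 : ∀ x : ℝ, 0 ≤ x → 1 ≤ (S.n : ℝ) ^ x := fun x hx => one_le_rpow n1 hx
  have e1 : ((S.n : ℝ) ^ (η / 4)) ^ 2 = (S.n : ℝ) ^ (η / 2) := by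
    rw [← rpow_natCast, ← rpow_mul (by positivity)]; congr 1; push_cast; ring
  have e2 : (S.n : ℝ) ^ (η / 2) * (S.n : ℝ) ^ (η / 2) = (S.n : ℝ) ^ η := by
    rw [← rpow_add (by positivity), add_halves]
  have j8 := j_lo B c hE h1 (by omega)
  have i0 := B.i0; have i1 := B.i1; have i3 := B.i3
  refine ⟨_, ⟨by omega, by omega, (dz_mem B.toFn (by omega) (by omega)).2,
    gm_node B c hE h1 h2 h3 ce hH g0 hP h4 (L1 _ (by positivity)) H (by positivity) ?_⟩, le_rfl,
    (vn_node B c hE h1 h2 h3 ce hH hV hg).trans (mul_le_mul_of_nonneg_right ?_ ?_)⟩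
  · rw [e1]
    refine le_trans (mul_le_mul_of_nonneg_right (le_trans ?_ hK) (by positivity))
      (e2.le.trans (le_self_pow₀ (L1 _ hη.le) two_ne_zero))
    gcongr; linarith
  · refine le_trans (le_trans ?_ hK) (rpow_le_rpow_of_exponent_le n1 (by linarith))
    exact mul_le_mul (by linarith) (pow_le_pow_right₀ (by linarith) (by norm_num)) (by positivity)
      (by positivity)
  · have := B.w3_pos (show 0 < M.s j by linarith [P33.l0_pos h (E1 B c hE) c])
    positivity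

theorem szN : SzN := fun C => by
  filter_upwards [szN' C, eventually_ge_atTop 3] with A H hA ε hε η hη
  filter_upwards [H ε hε η hη, Pre29.ev_K (4 * C ^ 2) hε, E49.ev_big C 0 hA hη] with n H hE hK S M
    b1 b2 b3 h m a I G1 l0 cf G0 ce hH c g0 hP j κ h1 h2 h3 _ h4 hg
  obtain ⟨K, _, B⟩ := hK
  have j3 := N49.j_lo (B S M b1 b2 b3 h m a I) c (b1 ▸ hE) h1 (by omega)
  have := h.i0
  have := h.i1
  exact H S M b1 b2 b3 h m a I G1 l0 cf G0 ce hH c g0 hP j _ κ h1 (by omega) (by omega) h3 h4 hg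

end Crest.Agent.T156.Alt.Sz9

end
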