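import Crest.Agent.T156.NdA_22
import Crest.Agent.T156.ClSzB_61
import Crest.Agent.T156.SzN_49

/-!
# Row 156, block (L): the errors of (E1) at good nodes, proof (helper22)
-/

set_option autoImplicit false
set_option linter.unusedSectionVars false

noncomputable section

namespace Crest.Agent.T156.Alt.Nd22

open Real Finset Filter
open Crest.Agent.T156.Alt.E61 Crest.Agent.T156.Alt.Mp9 Crest.Agent.T156.Alt.Sz9
open Crest.Agent.T156.Alt.L69 Crest.Agent.T156.Alt.C33 Pre29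
open Crest.Agent.T156.Alt.Md67 (Lg)

variable {S : Sc} {M : Md} {m : ℕ} {a : ℝ}

theorem mass (G : Lg M m a) {U : Finset ℕ} {x : ℝ} (x0 : 0 ≤ x) (h : ∀ k ∈ U, M.z k ≤ x) :
    ∑ k ∈ U, M.dz m a k ≤ x := by
  rcases U.eq_empty_or_nonempty with e | e
  · simp [e, x0]
  · refine (sum_le_sum_of_subset_of_nonneg (t := range (U.max' e + 1))
      (fun k hk => mem_range.2 (Nat.lt_succ_of_le (U.le_max' k hk)))
      fun k _ _ => G.dz_nonneg k).trans ?_
    rw [Md67.sum_dz_range G.toLeg]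
    linarith [h _ (U.max'_mem e), G.a0]

theorem sum_N (S : Sc) (M : Md) (g : ℕ → ℝ) :
    ∑ k ∈ range M.N, g k = ∑ k ∈ Bk S M, g k + ∑ k ∈ Tp S M, g k :=
  (sum_filter_add_sum_filter_not _ _ _).symm

theorem Bk_lt {k : ℕ} (h : k ∈ Bk S M) : k < S.J := by have := (mem_filter.1 h).2; omega

section cf
variable {E l0 lam : ℝ} {cf : ℝ → ℝ} (H : Cf E S M m a l0 cf) (F : Fn S M m a)
  (hE : 8 * S.C ^ 2 ≤ E)
include H F hE

theorem c_pos (k : ℕ) : 0 < cf (max (M.z k) l0) :=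
  ((H.pos F hE).trans_le (le_max_right _ _)).trans_le (H.ge _ (le_max_right _ _))

/-- a bulk sum from the sum above `l0` and a crude bound below -/
theorem bulk {g : ℕ → ℝ} {i : ℕ} {b : ℝ} (b0 : 0 ≤ b)
    (hg : ∀ k < S.J, g k ≤ b * cf (max (M.z k) l0) ^ i) :
    ∑ k ∈ Bk S M, M.dz m a k * g k ≤ ∑ k ∈ Bu S M l0, M.dz m a k * g k +
      3 * S.C ^ 2 * (6 * S.C ^ 2) ^ i * b * (l0 * cf l0 ^ i) := by
  have p := H.pos F hE
  have C1 := F.C1
  have c0 := p.trans_le (H.ge _ le_rfl)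
  have K1 : 1 ≤ 3 * S.C ^ 2 := by nlinarith
  rw [← sum_filter_add_sum_filter_not (Bk S M) fun k => l0 ≤ M.s k]
  refine add_le_add le_rfl ?_
  have hz : ∀ k ∈ (Bk S M).filter fun k => ¬ l0 ≤ M.s k, M.z k ≤ 3 * S.C ^ 2 * l0 := fun k hk =>
    H.z_low F hE (Bk_lt (mem_filter.1 hk).1) (not_le.1 (mem_filter.1 hk).2).le
  refine (sum_le_sum (g := fun k => M.dz m a k * (b * (2 * (3 * S.C ^ 2) * cf l0) ^ i))
    fun k hk => mul_le_mul_of_nonneg_left ((hg k (Bk_lt (mem_filter.1 hk).1)).trans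
      (mul_le_mul_of_nonneg_left (pow_le_pow_left₀ (c_pos H F hE k).le (H.le F hE le_rfl
        (le_max_right _ _) (max_le (hz k hk) (le_mul_of_one_le_left p.le K1)) K1) i) b0))
      (F.lg.dz_nonneg k)).trans ?_
  rw [← sum_mul]
  refine (mul_le_mul_of_nonneg_right (mass F.lg (by positivity) hz) (by positivity)).trans_eq ?_
  rw [show 2 * (3 * S.C ^ 2) * cf l0 = 6 * S.C ^ 2 * cf l0 by ring, mul_pow]; ring

theorem H_le {T G1 : ℝ} (A : At S M m a T) (Ce : CeiG S M G1) {k : ℕ} (hk : k < S.J) :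
    M.H k ≤ 32 * S.C ^ 4 * cf (max (M.z k) l0) ^ 3 := by
  have p := H.pos F hE
  have C1 := F.C1
  have F0 := F.F0
  have sl := H.sl F hE
  have z1 := le_max_left (M.z k) l0
  have t1 := le_max_right (M.z k) l0
  have f := H.fl _ t1
  generalize max (M.z k) l0 = τ at *
  have τ0 := p.trans_le t1
  have m0 := F.ms_pos τ0.le
  have q0 : 0 ≤ S.F * S.ms τ * τ := by positivity
  have c4 : S.C ≤ S.C ^ 4 := le_self_pow₀ C1 (by norm_num)
  refine le_trans ?_ (mul_le_mul_of_nonneg_left f (by positivity))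
  rcases le_or_gt k S.jl with c | c
  · have a1 := (F.leg.Hm (c.trans S.jl.le_succ)).trans Ce.bot
    have a2 := mul_le_mul (mul_le_mul_of_nonneg_left (F.msm (sl.trans t1))
      (by positivity : 0 ≤ S.C * S.F)) (sl.trans t1) (F.s_nonneg _) (by positivity)
    have a3 := mul_le_mul_of_nonneg_right c4 q0
    have a4 : 0 ≤ S.C ^ 4 * (S.F * S.ms τ * τ) := by positivity
    linarith
  · have a1 := A.H_abs Ce c hk
    have s1 : M.s k ≤ 2 * S.C * τ := (F.s_le_z (F.i1.trans c.le) hk).trans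
      (mul_le_mul_of_nonneg_left z1 (by positivity))
    have a2 : S.ms (M.s k) ≤ 16 * S.C ^ 2 * S.ms τ := by
      refine (F.msm s1).trans (le_of_mul_le_mul_right ?_ (pow_pos τ0 2))
      exact (E49.ms_quad F τ0 (le_mul_of_one_le_left τ0.le (by linarith))).trans_eq (by ring)
    have a3 : M.s S.jl + S.C * M.z k ≤ 2 * S.C * τ := by
      linarith [mul_le_mul_of_nonneg_left z1 F.C0.le, le_mul_of_one_le_left τ0.le C1]
    have z0 := F.z_pos k
    have s0 := F.s_nonneg S.jl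
    exact a1.trans ((mul_le_mul (mul_le_mul_of_nonneg_left a2 (by positivity : 0 ≤ S.C * S.F)) a3
      (by positivity) (by positivity)).trans_eq (by ring))

theorem pb_le3 (ms : ℝ) (k : ℕ) : pb M m a ms k ≤ 3 := by
  have := min_le_left 1 (2600 * (sb M m a (k + 1) + ms))
  have := F.leg.z1 k
  have := (rb_mem (M := M) (a := a) F.lg.m0 k).2
  unfold pb; linarith

theorem pb_le {T G1 : ℝ} (A : At S M m a T) (Ce : CeiG S M G1) (hl : 100000 * S.C ^ 4 ≤ lam)
    {k : ℕ} (hk : k < S.J) : pb M m a (S.C * S.v) k ≤ lam * min 1 (cf (max (M.z k) l0)) := by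
  have C1 := F.C1
  have c4 : 1 ≤ S.C ^ 4 := one_le_pow₀ C1
  have c0 := c_pos H F hE k
  rcases le_total 1 (cf (max (M.z k) l0)) with c | c
  · rw [min_eq_left c]; linarith [pb_le3 H F hE (S.C * S.v) k]
  rw [min_eq_right c]
  have a1 := pb_le' (ms := S.C * S.v) F.lg (hk.trans F.toCl.J_lt).le
  have a2 := H.cru k (hk.le.trans F.i3)
  have a3 := H_le H F hE A Ce hk
  have a4 := (le_max_left _ _).trans (H.ge _ (le_max_right (M.z k) l0))
  have a5 := (le_max_right _ _).trans (H.ge _ (le_max_right (M.z k) l0))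
  have a6 := mul_le_mul_of_nonneg_left ((H.v_le F hE).trans
    (mul_le_mul_of_nonneg_left a5 F.C0.le)) F.C0.le
  have a7 := mul_le_mul F.b1 a2 (rb_mem F.lg.m0 k).1 F.C0.le
  generalize cf (max (M.z k) l0) = x at *
  have b1 := mul_le_mul_of_nonneg_left (pow_le_of_le_one c0.le c (by norm_num : 3 ≠ 0))
    (by positivity : 0 ≤ 32 * S.C ^ 4)
  have b2 := mul_le_mul_of_nonneg_right (le_self_pow₀ C1 (by norm_num : 4 ≠ 0)) c0.le
  have b3 := mul_le_mul_of_nonneg_right (pow_le_pow_right₀ C1 (by norm_num : 2 ≤ 4)) c0.le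
  have b4 := mul_le_mul_of_nonneg_right c4 c0.le
  have b5 := mul_le_mul_of_nonneg_right hl c0.le
  linarith

end cf

theorem gd_mono (h : Cl S M) {κ κ' : ℝ} (hκ : κ ≤ κ') {U V j : ℕ} (g : Gd M m a κ U V j) :
    Gd M m a κ' U V j :=
  ⟨fun k p q => (g.1 k p q).trans (mul_le_mul_of_nonneg_right hκ (sub_nonneg.2 (h.leg.zm p))),
    fun k p q => (g.2 k p q).trans (mul_le_mul_of_nonneg_right hκ (sub_nonneg.2 (h.leg.zm q)))⟩

theorem U_nn (F : Fn S M m a) {κ t : ℝ} (k0 : 0 ≤ κ) (t0 : 0 < t) : 0 ≤ U S κ t := by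
  have := F.w3_pos t0
  unfold U w1; positivity

section core
variable {E l0 l V X Lg X2 X3 G0 L W3 G1 lam : ℝ} {η Y : ℝ → ℝ} (F : Fn S M m a)
  (N : LN E S M l0 l V X Lg X2 X3 G0 η) (I : NI L S M m a l0 V X2 G0 W3) (Ce : CeiG S M G1)
  (hE : 400 * S.C ^ 4 ≤ E) (hl : 100000 * S.C ^ 10 ≤ lam)
  (hu : ∀ k < M.N, u4 M m a k ≤ lam * (L * cl S V (max (M.z k) l0)))
include F hE

theorem E8 : 8 * S.C ^ 2 ≤ E := by
  nlinarith [pow_le_pow_right₀ F.C1 (by norm_num : 2 ≤ 4), one_le_pow₀ (n := 2) F.C1]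

theorem E1 : 1 ≤ E := by nlinarith [E8 F hE, one_le_pow₀ (n := 2) F.C1]

include N I hl hu

theorem n2_le (h2 : ∑ k ∈ Bu S M l0, M.dz m a k * u4 M m a k ^ 2 ≤ lam * (L ^ 3 * X2)) :
    Nu M m a (u4 M m a) 2 ≤ lam ^ 4 * L ^ 3 * X2 := by
  have L1 := I.L1
  have C1 := F.C1
  have c1 : 1 ≤ S.C ^ 10 := one_le_pow₀ C1
  have l1 : 1 ≤ lam := by linarith
  have X0 := X2_nn F N (E1 F hE)
  have b := bulk (cf_of F N (E1 F hE) L1 I.cru) F (E8 F hE) (g := fun k => u4 M m a k ^ 2) (i := 2)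
    (sq_nonneg lam) fun k hk => (pow_le_pow_left₀ (u4_nn k) (hu k (hk.trans F.toCl.J_lt)) 2).trans_eq
      (mul_pow _ _ _)
  have a1 := mul_le_mul (show 108 * S.C ^ 6 ≤ lam by
    linarith [pow_le_pow_right₀ C1 (by norm_num : 6 ≤ 10)]) N.x2a
    (mul_nonneg (l0_pos F N (E1 F hE)).le (sq_nonneg _)) (by positivity)
  have a2 := mul_le_mul_of_nonneg_left a1 (by positivity : 0 ≤ lam ^ 2 * L ^ 2)
  have a3 := mul_le_mul_of_nonneg_left (pw L1 X0 (by norm_num : 2 ≤ 3)) (by positivity : 0 ≤ lam ^ 3)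
  have a4 := pw L1 X0 (by norm_num : 1 ≤ 3)
  have y0 : 0 ≤ L ^ 3 * X2 := by positivity
  have a5 := pw l1 y0 (by norm_num : 1 ≤ 3)
  have a6 := pw l1 y0 (by norm_num : 0 ≤ 3)
  have a7 := mul_le_mul_of_nonneg_right (show 3 ≤ lam by linarith)
    (by positivity : 0 ≤ lam ^ 3 * (L ^ 3 * X2))
  have t := I.t2
  rw [Nu, sum_N S]
  simp only [pow_one, pow_zero, one_mul] at a4 a5 a6
  linarith

theorem b3_le (h3 : ∑ k ∈ Bu S M l0, M.dz m a k *
      (min 1 (L * cl S V (max (M.z k) l0)) * u4 M m a k ^ 3) ≤ lam * (L ^ 5 * X3)) :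
    ∑ k ∈ Bk S M, M.dz m a k * (min 1 (L * cl S V (max (M.z k) l0)) * u4 M m a k ^ 3) ≤
      2 * (lam ^ 4 * L ^ 5 * X3) := by
  have L1 := I.L1
  have C1 := F.C1
  have c1 : 1 ≤ S.C ^ 10 := one_le_pow₀ C1
  have l1 : 1 ≤ lam := by linarith
  have X0 := X3_nn F N (E1 F hE)
  have H := cf_of F N (E1 F hE) L1 I.cru
  have b := bulk H F (E8 F hE)
    (g := fun k => min 1 (L * cl S V (max (M.z k) l0)) * u4 M m a k ^ 3) (i := 4)
    (b := lam ^ 3) (by positivity) fun k hk => (mul_le_mul (min_le_right _ _)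
      (pow_le_pow_left₀ (u4_nn k) (hu k (hk.trans F.toCl.J_lt)) 3) (pow_nonneg (u4_nn k) 3)
      (c_pos H F (E8 F hE) k).le).trans_eq (by ring)
  have a1 := mul_le_mul (show 3888 * S.C ^ 10 ≤ lam by linarith) N.x3a
    (mul_nonneg (l0_pos F N (E1 F hE)).le (by positivity)) (by positivity)
  have a2 := mul_le_mul_of_nonneg_left a1 (by positivity : 0 ≤ lam ^ 3 * L ^ 4)
  have a3 := mul_le_mul_of_nonneg_left (pw L1 X0 (by norm_num : 4 ≤ 5)) (by positivity : 0 ≤ lam ^ 4)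
  have a5 := pw l1 (by positivity : 0 ≤ L ^ 5 * X3) (by norm_num : 1 ≤ 4)
  rw [pow_one] at a5
  linarith

include Ce

theorem n34_le {j : ℕ} {y : ℝ}
    (h3 : ∑ k ∈ Bk S M, M.dz m a k * (min 1 (L * cl S V (max (M.z k) l0)) * u4 M m a k ^ 3) ≤
      2 * (lam ^ 4 * L ^ 5 * X3)) (y0 : 0 ≤ y)
    (hy : j + j / 3 < S.J → ∑ k ∈ Bu S M (M.s j), M.dz m a k * u4 M m a k ^ 3 ≤ lam * L ^ 4 * y) :
    N3 M m a (u4 M m a) (S.C * S.v) j ≤ 2 * (lam ^ 5 * L ^ 5 * X3) + lam * L ^ 4 * y + 3 * W3 ∧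
      Nu M m a (u4 M m a) 4 ≤ 4 * (lam ^ 5 * L ^ 5 * X3) + 2 * W3 := by
  have L1 := I.L1
  have C1 := F.C1
  have c1 : 1 ≤ S.C ^ 10 := one_le_pow₀ C1
  have l1 : 1 ≤ lam := by linarith
  have H := cf_of F N (E1 F hE) L1 I.cru
  have G := F.lg
  have A : At S M m a (2 * S.C) := ⟨F.toCl, F.toIn, by linarith [F.b1, N.HJ], by linarith [F.sT]⟩
  have mj := mj_u4 (M := M) (a := a) G.m0
  have u3 : ∀ k, 0 ≤ u4 M m a k ^ 3 := fun k => pow_nonneg (u4_nn k) 3
  have m0 : ∀ k, 0 ≤ min 1 (L * cl S V (max (M.z k) l0)) := fun k =>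
    le_min zero_le_one (c_pos H F (E8 F hE) k).le
  have t := I.t3
  have q := mul_le_mul_of_nonneg_left h3 (by positivity : 0 ≤ lam)
  have tp : ∀ (c : ℝ) (g : ℕ → ℝ), 0 ≤ c → (∀ k, g k ≤ c) →
      ∑ k ∈ Tp S M, M.dz m a k * (g k * u4 M m a k ^ 3) ≤ c * W3 := fun c g c0 hg => by
    refine le_trans ?_ (mul_le_mul_of_nonneg_left t c0)
    rw [mul_sum]
    exact sum_le_sum fun k _ => (mul_le_mul_of_nonneg_left
      (mul_le_mul_of_nonneg_right (hg k) (u3 k)) (G.dz_nonneg k)).trans_eq (by ring)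
  constructor
  · have b1 := tp 3 (fun k => if k < j then pb M m a (S.C * S.v) k else 1) (by norm_num) fun k => by
      split_ifs
      exacts [pb_le3 H F (E8 F hE) _ k, by norm_num]
    have b2 : ∑ k ∈ (Bk S M).filter (j ≤ ·), M.dz m a k * u4 M m a k ^ 3 ≤ lam * L ^ 4 * y := by
      by_cases c : j + j / 3 < S.J
      · exact (sum_le_sum_of_subset_of_nonneg (fun k hk => mem_filter.2
          ⟨(mem_filter.1 hk).1, F.sm (mem_filter.1 hk).2⟩)
          fun k _ _ => mul_nonneg (G.dz_nonneg k) (u3 k)).trans (hy c)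
      · rw [filter_false_of_mem fun k hk => by have := (mem_filter.1 hk).2; omega, sum_empty]
        positivity
    rw [sum_filter] at b2
    have b3 : ∑ k ∈ Bk S M, M.dz m a k *
        ((if k < j then pb M m a (S.C * S.v) k else 1) * u4 M m a k ^ 3) ≤
        lam * ∑ k ∈ Bk S M, M.dz m a k * (min 1 (L * cl S V (max (M.z k) l0)) * u4 M m a k ^ 3) +
          ∑ k ∈ Bk S M, if j ≤ k then M.dz m a k * u4 M m a k ^ 3 else 0 := by
      rw [mul_sum, ← sum_add_distrib]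
      refine sum_le_sum fun k hk => ?_
      have d0 := G.dz_nonneg k
      rcases lt_or_ge k j with c | c
      · rw [if_pos c, if_neg (not_le.2 c), add_zero]
        exact (mul_le_mul_of_nonneg_left (mul_le_mul_of_nonneg_right (pb_le (lam := lam) H F (E8 F hE) A Ce
          (by linarith [pow_le_pow_right₀ C1 (by norm_num : 4 ≤ 10)]) (Bk_lt hk)) (u3 k))
          d0).trans_eq (by ring)
      · rw [if_neg (not_lt.2 c), if_pos c, one_mul]
        have := m0 k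
        have := u3 k
        exact le_add_of_nonneg_left (by positivity)
    rw [N3, sum_N S]
    linarith
  · have e : ∀ k, u4 M m a k ^ 4 = u4 M m a k * u4 M m a k ^ 3 := fun k => by ring
    have b1 := tp 2 (u4 M m a) (by norm_num) fun k => (mj.u0 k).2
    have b3 : ∑ k ∈ Bk S M, M.dz m a k * (u4 M m a k * u4 M m a k ^ 3) ≤ 2 * (lam *
        ∑ k ∈ Bk S M, M.dz m a k * (min 1 (L * cl S V (max (M.z k) l0)) * u4 M m a k ^ 3)) := by
      rw [mul_sum, mul_sum]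
      refine sum_le_sum fun k hk => ?_
      have p : u4 M m a k ≤ 2 * lam * min 1 (L * cl S V (max (M.z k) l0)) := by
        have p1 := hu k ((Bk_lt hk).trans F.toCl.J_lt)
        have p2 := (mj.u0 k).2
        rw [mul_min_of_nonneg _ _ (by positivity)]
        exact le_min (by linarith) (by linarith [(u4_nn k).trans p1])
      exact (mul_le_mul_of_nonneg_left (mul_le_mul_of_nonneg_right p (u3 k))
        (G.dz_nonneg k)).trans_eq (by ring)
    rw [Nu, sum_N S]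
    simp only [e]
    linarith

end core

/-! ### the error in the numbers of `LN` and `LP` -/

section use
variable {E l0 l V X Lg X2 X3 G0 W3 B κ t : ℝ} {η : ℝ → ℝ} (F : Fn S M m a)
  (N : LN E S M l0 l V X Lg X2 X3 G0 η) (E1 : 1 ≤ E)
include F N E1

theorem Lg1 : 1 ≤ Lg :=
  (E1.trans (le_mul_of_one_le_right (by linarith) (one_le_pow₀ F.F1))).trans N.Lg0

theorem U_le (B1 : 1 ≤ B) (t0 : 0 < t) (k0 : 0 ≤ κ) (hκ : κ ≤ B * (Lg ^ 2 * cr S t)) :
    U S κ t ≤ B * uw S Lg t := by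
  have g1 := Lg1 F N E1
  have c1 := cr1 S t
  have w0 := F.w3_pos t0
  have q : 1 ≤ B * (Lg ^ 2 * cr S t) :=
    one_le_mul_of_one_le_of_one_le B1 (one_le_mul_of_one_le_of_one_le (one_le_pow₀ g1) c1)
  have p := (rpow_le_rpow k0 hκ (by norm_num : (0 : ℝ) ≤ 2 / 3)).trans
    (rpow_le_self_of_one_le q (by norm_num))
  exact (mul_le_mul_of_nonneg_right p (rpow_nonneg w0.le _)).trans_eq (by unfold uw; ring)

/-- bulk nodes -/
theorem ee_le (B1 : 1 ≤ B) (h1 : l ≤ t) (h2 : t ≤ S.C) (k0 : 0 ≤ κ) (hκ : κ ≤ B * (Lg * cr S t))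
    (W0 : 0 ≤ W3) : ee S X2 X3 G0 W3 κ t (η t) ≤ 2 * B ^ 2 * (η t + W3) := by
  have g1 := Lg1 F N E1
  have c1 := cr1 S t
  have t0 := (l0_pos F N E1).trans_le (N.l0l.trans h1)
  have w0 := F.w3_pos t0
  have X20 := X2_nn F N E1
  have X30 := X3_nn F N E1
  have G00 := G0_nn F N E1
  have n1 := F.n1
  have m0 := F.ms_pos t0.le
  have gp : 0 < gg S t := E49.gg_pos F t0.le
  have b := N.ηb t h1 h2
  have u0 : 0 ≤ uw S Lg t := by unfold uw; positivity
  have u1 := U_le F N E1 B1 t0 k0 (hκ.trans (mul_le_mul_of_nonneg_left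
    (mul_le_mul_of_nonneg_right (le_self_pow₀ g1 two_ne_zero) (by linarith)) (by linarith)))
  have U0 := U_nn F k0 t0
  have u3 : U S κ t ^ 3 ≤ B ^ 2 * uw S Lg t ^ 3 := by
    have e : U S κ t ^ 3 = κ ^ 2 * S.w3 t := by
      unfold U w1
      rw [mul_pow, cb3 w0.le, ← rpow_natCast, ← rpow_mul k0]; norm_num
    have a1 : (Lg * cr S t) ^ 2 ≤ (Lg ^ 2 * cr S t) ^ 3 :=
      (pow_le_pow_left₀ (by positivity)
        (mul_le_mul_of_nonneg_right (le_self_pow₀ g1 two_ne_zero) (by linarith)) 2).trans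
        (pow_le_pow_right₀ (one_le_mul_of_one_le_of_one_le (one_le_pow₀ g1) c1) (by norm_num))
    rw [e, uw, mul_pow (Lg ^ 2 * cr S t), cb3 w0.le, ← mul_assoc]
    refine mul_le_mul_of_nonneg_right ((pow_le_pow_left₀ k0 hκ 2).trans ?_) w0.le
    rw [mul_pow]
    exact mul_le_mul_of_nonneg_left a1 (sq_nonneg B)
  have s1 : √(κ * gg S t) ≤ B * √(Lg * cr S t * gg S t) := by
    rw [← sqrt_sq (by linarith : 0 ≤ B), ← sqrt_mul (sq_nonneg B)]
    refine sqrt_le_sqrt ((mul_le_mul_of_nonneg_right (hκ.trans (mul_le_mul_of_nonneg_right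
      (le_self_pow₀ B1 two_ne_zero) (by positivity))) gp.le).trans_eq (by ring))
  have s2 := mul_le_mul (show √(κ * gg S t) + G0 + X2 ≤ B * (√(Lg * cr S t * gg S t) + G0 + X2) by
      linarith [le_mul_of_one_le_left G00 B1, le_mul_of_one_le_left X20 B1])
    (show U S κ t + √X2 ≤ B * (uw S Lg t + √X2) by
      linarith [le_mul_of_one_le_left (sqrt_nonneg X2) B1]) (by positivity) (by positivity)
  have r0 : 0 ≤ uw S Lg t ^ 2 * min (S.ms t / t) t :=
    mul_nonneg (sq_nonneg _) (le_min (by positivity) t0.le)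
  have B2 : 1 ≤ B ^ 2 := one_le_pow₀ B1
  have r1 : 0 ≤ (√(Lg * cr S t * gg S t) + G0 + X2) * (uw S Lg t + √X2) := by positivity
  have r2 : 0 ≤ uw S Lg t ^ 3 := by positivity
  have r3 : 0 ≤ X3 + 1 / (S.n : ℝ) := by positivity
  have r4 := mul_le_mul_of_nonneg_left b (sq_nonneg B)
  have r5 := le_mul_of_one_le_left r3 B2
  have r6 := le_mul_of_one_le_left W0 B2
  have r7 := le_mul_of_one_le_left (show 0 ≤ η t by linarith) B2
  have r8 := mul_nonneg (sq_nonneg B) r0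
  unfold ee
  linarith

end use

/-- nodes of the top window: the error at the level `1` -/
theorem ee_top (F : Fn S M m a) {X2 X3 G0 W3 κ y : ℝ} {j : ℕ} (h0 : S.jl ≤ j) (h1 : j < S.J)
    (h : S.J ≤ 8 * j) (k0 : 0 ≤ κ) (X20 : 0 ≤ X2) (X30 : 0 ≤ X3) (G00 : 0 ≤ G0) (W0 : 0 ≤ W3)
    (y0 : 0 ≤ y) : U S κ (M.s j) ≤ 48 * S.C ^ 4 * U S κ 1 ∧
      ee S X2 X3 G0 W3 κ (M.s j) y ≤ (48 * S.C ^ 4) ^ 3 * ee S X2 X3 G0 W3 κ 1 y := by
  have C0 := F.C0
  have n1 := F.n1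
  have Q1 : 1 ≤ 48 * S.C ^ 4 := by linarith [one_le_pow₀ (n := 4) F.C1]
  have g1 := E49.gg_top F h0 h1 h
  have z1 := (E49.z_top F h0 h1 h).2
  have s0 : 0 < M.s j := F.toCl.s_pos (F.i0.trans (F.i1.trans h0))
  have gp := E49.gg_pos F zero_le_one
  have w0 := F.w3_pos s0
  have w1' := F.w3_pos one_pos
  have e : ∀ t, 0 < t → S.w3 t * t = E49.gg S t := fun t ht => by
    have := F.ms_pos ht.le
    unfold Sc.w3 E49.gg; field_simp
  have w2 : S.w3 (M.s j) ≤ (48 * S.C ^ 4) ^ 3 * S.w3 1 := by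
    have a1 := mul_le_mul_of_nonneg_left z1 w0.le
    have a2 := mul_le_mul_of_nonneg_left g1 (by positivity : 0 ≤ 24 * S.C ^ 4)
    have a3 := e 1 one_pos
    have a4 : 0 ≤ S.C ^ 12 * E49.gg S 1 := by positivity
    rw [← e _ s0] at a2
    rw [mul_one] at a3
    rw [a3]
    linarith
  have u1 : U S κ (M.s j) ≤ 48 * S.C ^ 4 * U S κ 1 := by
    have : w1 S (M.s j) ≤ 48 * S.C ^ 4 * w1 S 1 := by
      refine le_of_pow_le_pow_left₀ (by norm_num : 3 ≠ 0) (by unfold w1; positivity) ?_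
      rwa [mul_pow, w1, w1, cb3 w0.le, cb3 w1'.le]
    exact (mul_le_mul_of_nonneg_left this (rpow_nonneg k0 _)).trans_eq (by unfold U; ring)
  have s1 : √(κ * gg S (M.s j)) ≤ 48 * S.C ^ 4 * √(κ * gg S 1) := by
    rw [← sqrt_sq (by linarith : 0 ≤ 48 * S.C ^ 4), ← sqrt_mul (sq_nonneg _)]
    exact sqrt_le_sqrt ((mul_le_mul_of_nonneg_left g1 k0).trans_eq (by unfold E49.gg gg; ring))
  refine ⟨u1, ?_⟩
  have U0 := U_nn F k0 s0
  have U1 := U_nn F k0 one_pos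
  generalize 48 * S.C ^ 4 = Q at *
  have s2 := mul_le_mul (show √(κ * gg S (M.s j)) + G0 + X2 ≤ Q * (√(κ * gg S 1) + G0 + X2) by
      linarith [le_mul_of_one_le_left G00 Q1, le_mul_of_one_le_left X20 Q1])
    (show U S κ (M.s j) + √X2 ≤ Q * (U S κ 1 + √X2) by
      linarith [le_mul_of_one_le_left (sqrt_nonneg X2) Q1]) (by positivity) (by positivity)
  have r1 := pw Q1 (x := (√(κ * gg S 1) + G0 + X2) * (U S κ 1 + √X2)) (by positivity)
    (by norm_num : 2 ≤ 3)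
  have r2 := pow_le_pow_left₀ U0 u1 3
  have r3 := le_mul_of_one_le_left (show 0 ≤ X3 + W3 + y + 1 / (S.n : ℝ) by positivity)
    (one_le_pow₀ (n := 3) Q1)
  unfold ee
  linarith

set_option maxHeartbeats 800000 in
/-- **(NodeS)** -/
theorem nodeS : NodeS := by
  intro C
  obtain ⟨CE, E0, HE⟩ := e1C2 true C
  filter_upwards [P33.szL C, P33.szP' C, szB' C, szN' C, eventually_ge_atTop 2]
    with A H1 H2 H3 H4 hA ε hε η' hη
  have h8 : 0 < η' / 8 := by positivity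
  filter_upwards [H1 ε hε _ h8, H2 ε hε _ h8, H3 ε hε _ h8, H4 ε hε _ h8, ev_fn C hA,
    ev_K (400 * C ^ 4) hε, ev_K (100000 * C ^ 10 * (1 + CE)) h8,
    tendsto_natCast_atTop_atTop.eventually_ge_atTop (C ^ 2)]
    with n H1 H2 H3 H4 F hE hl hn S M b1 b2 b3 h m a In G1 l0 l V X Lg X2 X3 G0 η L W3 Ce N R hX hL I
  replace F := F S M b1 b2 b3 h m a In
  replace H1 := H1 S M b1 b2 b3 h m a In
  replace H2 := H2 S M b1 b2 b3 h m a In
  replace H3 := H3 S M b1 b2 b3 h m a In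
  replace H4 := H4 S M b1 b2 b3 h m a In
  subst b1 b3
  rw [show (S.n : ℝ) ^ η' = ((S.n : ℝ) ^ (η' / 8)) ^ 8 by rw [rp_pow]; congr 1; push_cast; ring]
  generalize (S.n : ℝ) ^ (η' / 8) = lam at *
  generalize (S.n : ℝ) ^ ε = E at *
  have C1 := F.C1
  have C0 := F.C0
  have v0 := F.v0
  have n1 := F.n1
  have L1 := I.L1
  have c1 : 1 ≤ S.C ^ 10 := one_le_pow₀ C1
  have c2 : S.C * CE ≤ S.C ^ 10 * CE :=
    mul_le_mul_of_nonneg_right (le_self_pow₀ C1 (by norm_num)) E0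
  have c3 : CE ≤ S.C * CE := le_mul_of_one_le_left E0 C1
  have hl' : 100000 * S.C ^ 10 ≤ lam := by linarith
  have hl2 : 4 * (S.C * CE) ≤ lam := by linarith
  have l1 : 1 ≤ lam := by linarith
  have e1 := E1 F hE
  have H := cf_of F N e1 L1 I.cru
  have p := l0_pos F N e1
  obtain ⟨Y, hY, sn⟩ := sn_of F N e1 L1 hX
  obtain ⟨s2, s3, sy⟩ := H3 _ _ _ _ _ _ H sn
  have hu := H1 _ _ H
  have n2 := n2_le F N I hE hl' hu s2
  have b3 := b3_le F N I hE hl' hu s3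
  have X20 := X2_nn F N e1
  have X30 := X3_nn F N e1
  have G00 := G0_nn F N e1
  have G := F.lg
  have mj := mj_u4 (M := M) (a := a) G.m0
  have W0 : 0 ≤ W3 := (sum_nonneg fun k _ => mul_nonneg (G.dz_nonneg k)
    (pow_nonneg (u4_nn k) 3)).trans I.t3
  have A0 : At S M m a (2 * S.C) := ⟨h, In, by linarith [F.b1, N.HJ], by linarith [F.sT]⟩
  have ms1 : S.C * S.v ≤ 1 / S.n := by
    have a1 : S.v * (S.n : ℝ) ^ 2 ≤ S.C :=
      (mul_le_mul_of_nonneg_left (pow_le_pow_right₀ n1 (b2 ▸ hA)) v0.le).trans h.v2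
    rw [le_div_iff₀ (by positivity)]
    refine le_of_mul_le_mul_right ?_ (by positivity : (0 : ℝ) < S.n)
    linarith [mul_le_mul_of_nonneg_left a1 C0.le]
  have hk : 20 * S.C ^ 2 * S.F * L ^ 3 ≤ Lg := by
    have a1 : 20 * S.C ^ 2 * L ^ 3 ≤ E := le_of_pow_le_pow_left₀ two_ne_zero (by linarith)
      ((le_of_eq (by ring)).trans ((mul_le_mul hE hL (by positivity) (by linarith)).trans_eq
        (sq E).symm))
    have a2 := mul_le_mul a1 (le_self_pow₀ F.F1 two_ne_zero) F.F0.le (by linarith)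
    linarith [N.Lg0]
  have pw8 : ∀ {x : ℝ} (i : ℕ), 0 ≤ x → i ≤ 8 → lam ^ i * x ≤ lam ^ 8 * x :=
    fun i h1 h2 => pw l1 h1 h2
  have nd : ∀ j κ y, Go L S M m a l0 l V Lg η j κ y → 0 ≤ U S κ (M.s j) ∧
      0 ≤ ee S X2 X3 G0 W3 κ (M.s j) y ∧ u4 M m a j ≤ lam * U S κ (M.s j) ∧
      ∃ G, Tn S M m a (u4 M m a) (S.C * S.v) j G ∧
        en M m a (u4 M m a) (S.C * S.v) (n3 true M m a (u4 M m a) (S.C * S.v) j) G j ≤
          lam ^ 7 * L ^ 5 * ee S X2 X3 G0 W3 κ (M.s j) y ∧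
        G ≤ lam * (√(κ * gg S (M.s j)) + 2 * L ^ 2 * G0) := fun j κ y g => by
    have jJ : j < S.J := by have := g.hi; omega
    have s1 : l0 ≤ M.s j := N.l0l.trans g.lo
    have s0 := p.trans_le s1
    have sC : M.s j ≤ S.C := h.s_le_C (jJ.le.trans h.i3)
    have k0 : 0 < κ := lt_of_lt_of_le (by have := F.F0; positivity) (hk.trans g.k2)
    have j3 := P33.jl3 h (by linarith [E8 F hE, sq_nonneg S.C]) H s1 jJ.le
    have i0 := h.i0
    have i1 := h.i1
    have hi := g.hi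
    have U0 := U_nn F k0.le s0
    have y0 := g.y0
    have uj := H2 _ _ H R j κ 0 s1 jJ g.k1 g.k3 (ev_good A0 k0.le (by omega) (by omega) (by omega)
      (by omega) g.gd).le (by rw [add_zero]; exact g.top)
    rw [add_zero] at uj
    obtain ⟨G', T', g1, g2⟩ := H4 G1 l0 _ (2 * L ^ 2 * G0) Ce N.HJ H
      (by
        have := mul_le_mul_of_nonneg_left N.g0a (sq_nonneg L)
        have : 0 ≤ L ^ 2 * G0 := by positivity
        linarith)
      (I.pa.trans (by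
        have := pw L1 (sq_nonneg G0) (by norm_num : 1 ≤ 4)
        have : 0 ≤ L ^ 4 * G0 ^ 2 := by positivity
        linarith))
      j (min (j + j / 3) (S.J - 1)) κ g.lo2 hi (by omega) g.k1
      (side F N e1 L1 (hk.trans g.k2) sC) (gd_mono h (div_le_self k0.le C1) g.gd)
    obtain ⟨q3, q4⟩ := n34_le (j := j) F N I Ce hE hl' hu b3 y0 fun c => (sy _ s1 sC).trans (by
      rw [hY _ g.lo, mul_assoc]
      exact mul_le_mul_of_nonneg_left (mul_le_mul_of_nonneg_left (g.y1 c) (by positivity))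
        (by positivity))
    rw [← P33.cube k0 (F.w3_pos s0)] at g2
    refine ⟨U0, by unfold ee; positivity, uj, G', T', le_trans (le_of_eq ?_)
      (en_num (r := r2 M m a j) (by linarith) L1 (by positivity) ms1 ?_ U0 (sqrt_nonneg _) G00
        (sqrt_nonneg _) (sq_sqrt X20) X30 W0 y0 g2 g1 (u4_nn j) uj (Nu_nn G mj 1) (Nu_one_sq G) n2
        q3 q4), g1⟩
    · simp only [en, n3, if_true]; ring
    · refine (E49.r2_le_u G.m0 mj (jJ.trans h.J_lt)).trans ?_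
      nlinarith [mj.u0 j]
  have ne : ∀ j κ y, Go L S M m a l0 l V Lg η j κ y → ∀ x : ℝ,
      ∃ G, Tn S M m a (u4 M m a) (S.C * S.v) j G ∧
        CE * (en M m a (u4 M m a) (S.C * S.v) (n3 true M m a (u4 M m a) (S.C * S.v) j) G j +
          4 * r2 M m a j * |x|) ≤ lam ^ 8 * L ^ 5 * ee S X2 X3 G0 W3 κ (M.s j) y +
            lam ^ 8 * U S κ (M.s j) ^ 2 * |x| := fun j κ y g x => by
    obtain ⟨U0, e0, uj, G', T', q, -⟩ := nd j κ y g
    refine ⟨G', T', ?_⟩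
    have a1 := (mul_le_mul_of_nonneg_left q E0).trans
      (mul_le_mul_of_nonneg_right (show CE ≤ lam by linarith) (by positivity))
    have a2 := (E49.r2_le_u G.m0 mj (show j < M.N by have := g.hi; have := h.J_lt; omega)).trans
      (pow_le_pow_left₀ (u4_nn j) uj 2)
    have a3 := mul_le_mul_of_nonneg_right (mul_le_mul (show 4 * CE ≤ lam by linarith) a2
      (r2_nn j) (by positivity)) (abs_nonneg x)
    have a4 := pw8 (x := U S κ (M.s j) ^ 2 * |x|) 3 (by positivity) (by norm_num)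
    linarith
  have l8 : CE ≤ lam ^ 8 := (show CE ≤ lam by linarith).trans (le_self_pow₀ l1 (by norm_num))
  have y0 : 0 ≤ L ^ 3 * X2 := by positivity
  have su : ∀ s : Finset ℕ, CE * ∑ k ∈ s, M.dz m a k * u4 M m a k ^ 2 ≤
      lam ^ 8 * ∑ k ∈ s, M.dz m a k * u4 M m a k ^ 2 := fun s => mul_le_mul_of_nonneg_right l8
    (sum_nonneg fun k _ => mul_nonneg (G.dz_nonneg k) (sq_nonneg _))
  have n5 : (1 + 2 * S.C) * CE * Nu M m a (u4 M m a) 2 ≤ lam ^ 8 * (L ^ 3 * X2) := by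
    have a1 := mul_le_mul (show (1 + 2 * S.C) * CE ≤ lam by linarith) n2 (Nu_nn G mj 2)
      (by positivity)
    linarith [pw8 5 y0 (by norm_num)]
  have m0 : 0 < S.C * S.v := by positivity
  refine ⟨by linarith [pw8 4 y0 (by norm_num)], fun k hk => (hu k hk).trans ?_,
    fun k κ e a1 a2 a3 a4 a5 a6 => ?_, fun j κ y g => ?_, fun T A i κ y g => ?_,
    fun T A i κ y k κ' y' g g' ik => ?_, fun j κ y g => ?_⟩
  · have := pw8 1 (c_pos H F (E8 F hE) k).le (by norm_num)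
    linarith
  · have q := H2 _ _ H R k κ e a1 a2 a3 a4 a5 a6
    have := pw8 1 (nonneg_of_mul_nonneg_right ((u4_nn k).trans q) (by linarith) |> fun e => e)
      (by norm_num)
    rw [pow_one] at this
    exact q.trans this
  · obtain ⟨U0, e0, uj, G', T', q, -⟩ := nd j κ y g
    have a1 := pw8 1 U0 (by norm_num)
    have a2 := pw8 (x := L ^ 5 * ee S X2 X3 G0 W3 κ (M.s j) y) 7 (by positivity) (by norm_num)
    exact ⟨by linarith, G', T', by linarith⟩
  · obtain ⟨G', T', q⟩ := ne i κ y g (L0.Gd (lb M S m a T) (sb M m a (i + 1)))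
    have r := (HE S M m a T _ _ A h.b1 mj m0 i G' T').1
    have p0 := pb_nn G m0 i
    have a1 : CE * Nu M m a (u4 M m a) 2 ≤ lam ^ 8 * (L ^ 3 * X2) :=
      (mul_le_mul_of_nonneg_right (by linarith) (Nu_nn G mj 2)).trans n5
    linarith [mul_le_mul_of_nonneg_left a1 p0, su (range i)]
  · obtain ⟨G', T', q⟩ := ne i κ y g (L0.Gd (lb M S m a T) (sb M m a (i + 1)))
    obtain ⟨G'', T'', q'⟩ := ne k κ' y' g' (L0.Gd (lb M S m a T) (sb M m a (k + 1)))
    have r := (HE S M m a T _ _ A h.b1 mj m0 i G' T').2 k G'' T'' ik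
    have D0 := sub_nonneg.2 (A.sb_mono (Nat.succ_le_succ ik.le))
    linarith [mul_le_mul_of_nonneg_right n5 D0, su (Ioo i k)]
  · obtain ⟨U0, e0, uj, G', T', q, q'⟩ := nd j κ y g
    have a2 := pw8 (x := L ^ 5 * ee S X2 X3 G0 W3 κ (M.s j) y) 7 (by positivity) (by norm_num)
    have s0 := sqrt_nonneg (κ * gg S (M.s j))
    have a3 := pw8 (x := L ^ 2 * (√(κ * gg S (M.s j)) + G0)) 2 (by positivity) (by norm_num)
    have a4 := mul_le_mul_of_nonneg_right (show 2 ≤ lam by linarith)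
      (by positivity : 0 ≤ lam * (L ^ 2 * (√(κ * gg S (M.s j)) + G0)))
    have a5 := mul_le_mul_of_nonneg_left (le_mul_of_one_le_left s0 (one_le_pow₀ (n := 2) L1))
      (by positivity : 0 ≤ lam)
    have a6 : 0 ≤ lam * (L ^ 2 * √(κ * gg S (M.s j))) := by positivity
    exact ⟨G', T', by linarith, by linarith⟩

end Crest.Agent.T156.Alt.Nd22

end
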