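import Crest.Agent.T156.TL0D_9
import Crest.Agent.T156.NdS_89
import Crest.Agent.T156.NdS_22

/-!
Row 156, block (L) (helper9): the frame of (TL1): crude location, sizes, net and root node.
-/

set_option autoImplicit false

noncomputable section

namespace Crest.Agent.T156.Alt.Sz9

open Real Finset
open Crest.Agent.T156.Alt.E61 Crest.Agent.T156.Alt.Mp9 Crest.Agent.T156.Alt.L69
open Crest.Agent.T156.Alt.G89 (NG Tau Ug NdS)
open Crest.Agent.T156.Alt.Nd22 (NI NO)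

/-- the root node -/
structure Rn (E Λ : ℝ) (S : Sc) (M : Md) (m : ℕ) (a T l X2 : ℝ) (Gn : ℕ → Prop) (V0 u : ℕ) :
    Prop where
  gu : Gn u
  ju : S.jl < u
  uJ : 8 * u ≤ 5 * S.J
  uV : u ≤ V0
  su : 3 * l ≤ M.s u ∧ M.s u ≤ 6 * S.C ^ 2 * l
  zu : M.z u ≤ 8 * S.C ^ 3 * l
  lo : 2 * M.s (S.jl + 1) ≤ M.s u
  me : 8 * S.C ^ 2 * S.v ≤ M.s u
  cru : sb M m a (u + 1) ≤ Λ * (cr S l * l)
  ru : |res M S m a T u| ≤ Λ * (S.F * S.ms l * l + l ^ 3) + Λ / E * (S.ms l * sb M m a (u + 1))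
  ρ : pb M m a (S.C * S.v) u * X2 + ∑ k ∈ range u, M.dz m a k * u4 M m a k ^ 2 ≤
    Λ * ((sb M m a (u + 1) + l) * X2 + l * (cr S l * l) ^ 2)

/-- **the frame of (TL1)** -/
def NgS : Prop := CL fun E Λ S M m a => ∀ G1 u1 u2 j γ Lc ηc τ l X Xp Vt Lg Lp X2 X3 G0 η N,
  CeiG S M G1 → LN E S M l l (cr S l * l) X Lg X2 X3 G0 η →
  LP E S M Xp Vt Lg Lp X2 X3 G0 G1 u1 u2 j γ Lc ηc τ η N → S.F ^ 40 ≤ E →
  Ap S M m a l X Xp Vt u1 j →
  At S M m a (2 * S.C) ∧ Cru Λ S M m a l ∧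
    (∀ k < M.N, u4 M m a k ≤ Λ * cc S (max (M.z k) l)) ∧ Nu M m a (u4 M m a) 2 ≤ Λ * X2 ∧
    (∃ W3, NI Λ S M m a l (cr S l * l) X2 G0 W3 ∧ W3 ≤ Λ * η S.C) ∧
    ∀ D1 τ1, Tau E S M m a (2 * S.C) Lg D1 τ1 η → ∃ Gn V0 u,
      NG E Λ S M m a (2 * S.C) (2 * l) Lg X2 τ1 η Gn V0 ∧ Rn E Λ S M m a (2 * S.C) l X2 Gn V0 u

variable {S : Sc} {M : Md} {m : ℕ} {a T E Λ Λ' lo l Lg X X2 X3 G0 G1 τ1 : ℝ} {η : ℝ → ℝ}
  {Gn : ℕ → Prop} {V0 u : ℕ}

/-- the form of `C74.Bo.ru` -/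
theorem Rn.ru' (R : Rn E Λ S M m a T l X2 Gn V0 u) (A : At S M m a T) (l0 : 0 < l) {L : ℝ}
    (L0 : 0 < L) (h1 : Λ ≤ L) (h2 : Λ * L ≤ E) (E0 : 0 < E) : |res M S m a T u| ≤
      L * (S.F * S.ms l * l + l ^ 3) + S.ms l * sb M m a (u + 1) / L := by
  have m0 := A.ms_pos l0.le
  have F0 : 0 ≤ S.F := by linarith [A.cl.F1]
  have s0 := (A.sb_mem (k := u) (by have := R.uJ; have := A.cl.i3; omega)).1
  refine R.ru.trans (add_le_add (mul_le_mul_of_nonneg_right h1 (by positivity)) ?_)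
  rw [div_eq_inv_mul _ L]
  refine mul_le_mul_of_nonneg_right ?_ (by positivity)
  rw [div_le_iff₀ E0, inv_mul_eq_div, le_div_iff₀ L0]
  exact h2

theorem Ug_nn (h : Cl S M) {t : ℝ} (g0 : 0 ≤ Lg) (t0 : 0 < t) : 0 ≤ Ug S Lg t := by
  have := P33.w3_pos h t0
  have := cr1 S t
  unfold Ug Nd22.U w1; positivity

theorem Ug_le (h : Cl S M) {t : ℝ} (g1 : 1 ≤ Lg) (t0 : 0 < t) : Ug S Lg t ≤ uw S Lg t := by
  have c1 := cr1 S t
  exact mul_le_mul_of_nonneg_right ((rpow_le_self_of_one_le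
    (one_le_mul_of_one_le_of_one_le g1 c1) (by norm_num)).trans (mul_le_mul_of_nonneg_right
      (le_self_pow₀ g1 two_ne_zero) (by linarith))) (rpow_nonneg (P33.w3_pos h t0).le _)

theorem NG_mono (N : NG E Λ S M m a T lo Lg X2 τ1 η Gn V0) (A : At S M m a T) (hΛ : Λ ≤ Λ')
    (lo0 : 0 < lo) (g0 : 0 < Lg) (τ0 : 0 ≤ τ1) (X0 : 0 ≤ X2) (η0 : ∀ k < S.J, 0 ≤ η (M.s k)) :
    NG E Λ' S M m a T lo Lg X2 τ1 η Gn V0 := by
  have G := lg A
  have hV := N.hV
  have d0 : ∀ {i k : ℕ}, i ≤ k → 0 ≤ G89.ds M m a i k := fun h =>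
    sub_nonneg.2 (A.sb_mono (Nat.succ_le_succ h))
  have g1 : ∀ i, 0 ≤ G89.gd M S m a T i := fun _ => abs_nonneg _
  have s0 : ∀ U : Finset ℕ, 0 ≤ ∑ y ∈ U, M.dz m a y * u4 M m a y ^ 2 := fun _ =>
    sum_nonneg fun y _ => mul_nonneg (G.dz_nonneg y) (sq_nonneg _)
  refine ⟨N.gV, hV, N.big, N.top.trans ?_, fun i k a1 a2 a3 a4 a5 => (N.e1 i k a1 a2 a3 a4 a5).trans ?_,
    fun i a1 a2 a3 => (N.ab i a1 a2 a3).trans ?_,
    fun U i k y a1 a2 a3 a4 => (N.u4 U i k y a1 a2 a3 a4).trans ?_,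
    fun i k a1 a2 a3 a4 a5 a6 => ?_, fun p q a1 a2 a3 a4 a5 => N.ex p q a1 a2 a3 a4
      ((mul_le_mul_of_nonneg_right hΛ (A.cl.s_nn p)).trans a5),
    fun p q D0 a1 a2 a3 a4 a5 => N.exs p q D0 a1 a2 a3 a4
      ((mul_le_mul_of_nonneg_right hΛ a3.le).trans a5), N.sh⟩
  · have := d0 (show V0 ≤ S.J - 1 by omega)
    gcongr
  · have := η0 i (by omega); have := η0 k (by omega); have := g1 i; have := g1 k
    have := d0 a2; have := s0 (Ioo i k)
    gcongr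
  · have := η0 i (by omega); have := g1 i; have := s0 (range i)
    have : 0 ≤ pb M m a (S.C * S.v) i := by
      have := (A.sb_mem (k := i) (by have := A.cl.i3; omega)).1
      have := (rb_mem (M := M) (a := a) A.m_pos i).1
      have := A.cl.z_pos i; have := A.cl.v0; have := A.c_pos
      unfold pb; positivity
    gcongr
  · have := d0 a1.2.1
    have := Ug_nn A.cl g0.le ((lo0.trans_le a2).trans_le (A.cl.sm a3))
    gcongr
  · have := d0 a2.le
    obtain ⟨b1, b2⟩ := N.lab i k a1 a2 a3 a4 a5 a6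
    exact ⟨b1.trans (by gcongr), b2.trans (by gcongr)⟩

theorem η_C (h : Cl S M) {l0 V : ℝ} (N : LN E S M l0 l V X Lg X2 X3 G0 η) (η0 : 0 ≤ η S.C) :
    η 1 ≤ 16 * S.C ^ 4 * η S.C := by
  have k : ∀ i : ℕ, η 1 ≤ 16 ^ i * η (2 ^ i) := fun i => by
    induction i with
    | zero => simp
    | succ i ih =>
      have := mul_le_mul_of_nonneg_left (N.η2 (2 ^ i) (by positivity)) (by positivity : (0 : ℝ) ≤ 16 ^ i)
      rw [pow_succ, pow_succ' (2 : ℝ)]; linarith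
  obtain ⟨i, h1, h2⟩ := exists_nat_pow_near h.C1 one_lt_two
  have h3 : (16 : ℝ) ^ (i + 1) ≤ 16 * S.C ^ 4 := by
    have := pow_le_pow_left₀ (by positivity) h1 4
    rw [← pow_mul, mul_comm i, pow_mul] at this
    rw [pow_succ']; norm_num at this ⊢; linarith
  exact ((k (i + 1)).trans (mul_le_mul_of_nonneg_left (N.ηa h2.le) (by positivity))).trans
    (mul_le_mul_of_nonneg_right h3 η0)

/-- **the root node** -/
theorem rn_of {L : ℝ} (A : At S M m a T) (ce : CeiG S M G1)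
    (N : LN E S M l l (cr S l * l) X Lg X2 X3 G0 η) (hF : S.F ^ 40 ≤ E) (θ1 : S.θ ≤ 1)
    (hL : 3000 * S.C ^ 9 ≤ L) (hE : L ^ 2 ≤ E) (cru : Cru L S M m a l)
    (hu : ∀ k < M.N, u4 M m a k ≤ L * cc S (max (M.z k) l))
    (B : NG E L S M m a T (2 * l) Lg X2 τ1 η Gn V0) :
    ∃ u, Rn E (L ^ 7) S M m a T l X2 Gn V0 u := by
  have h := A.cl
  have C1 := h.C1
  have C0 := h.C0
  have v0 := h.v0
  have F1 := h.F1
  have Ci : ∀ i ≤ 9, 3000 * S.C ^ i ≤ L := fun i hi =>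
    (mul_le_mul_of_nonneg_left (pow_le_pow_right₀ C1 hi) (by norm_num)).trans hL
  have Lb : 3000 ≤ L := by simpa using Ci 0 (by norm_num)
  have L1 : 1 ≤ L := by linarith
  have L0 : 0 < L := by linarith
  have LE : L ≤ E := (le_self_pow₀ L1 two_ne_zero).trans hE
  have E0 : 0 < E := by linarith
  have j0 := h.s_pos (h.i0.trans h.i1)
  have jl : L * M.s S.jl ≤ l := (mul_le_mul_of_nonneg_right LE j0.le).trans N.l0s
  have l0 : 0 < l := (mul_pos L0 j0).trans_le jl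
  have Ll : L * l ≤ 1 := (mul_le_mul_of_nonneg_right LE l0.le).trans N.l1
  have l1 : l ≤ 1 := (le_mul_of_one_le_left l0.le L1).trans Ll
  have vl : 8 * S.C ^ 2 * S.v ≤ l := by
    have p := (s_lin9 h (show S.jl ≤ S.J by have := h.i2; omega)).1
    rw [div_le_iff₀ C0] at p
    have j1 : (1 : ℝ) ≤ S.jl := by exact_mod_cast h.i0.trans h.i1
    have a1 : S.v ≤ M.s S.jl * S.C := (le_mul_of_one_le_left v0.le j1).trans p
    have a2 := mul_le_mul_of_nonneg_left a1 (by positivity : 0 ≤ 8 * S.C ^ 2)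
    have a3 := mul_le_mul_of_nonneg_right (Ci 3 (by norm_num)) j0.le
    have : 0 ≤ S.C ^ 3 * M.s S.jl := by positivity
    linarith
  have C2 : S.C ≤ S.C ^ 2 := le_self_pow₀ C1 two_ne_zero
  have Cv : S.C * S.v ≤ S.C ^ 2 * S.v := mul_le_mul_of_nonneg_right C2 v0.le
  have vC : S.v ≤ S.C * S.v := le_mul_of_one_le_left v0.le C1
  have lC : l ≤ S.C * l := le_mul_of_one_le_left l0.le C1
  obtain ⟨p, p1, p2⟩ : ∃ p : ℕ, 3 * S.C * l ≤ p * S.v ∧ p * S.v ≤ 4 * S.C * l := by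
    refine ⟨⌈3 * S.C * l / S.v⌉₊, (div_le_iff₀ v0).1 (Nat.le_ceil _), ?_⟩
    have := mul_le_mul_of_nonneg_right
      (Nat.ceil_lt_add_one (by positivity : 0 ≤ 3 * S.C * l / S.v)).le v0.le
    rw [add_mul, div_mul_cancel₀ _ v0.ne'] at this
    linarith
  have su : ∀ (y : ℕ) (x : ℝ), y ≤ S.J → (y : ℝ) ≤ x * p → 0 ≤ x → M.s y ≤ 4 * x * S.C ^ 2 * l :=
    fun y x a b x0 => by
      have a1 := mul_le_mul_of_nonneg_right b v0.le
      have a2 := mul_le_mul_of_nonneg_left p2 x0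
      have := mul_le_mul_of_nonneg_left (show y * S.v ≤ x * (4 * S.C * l) by linarith) C0.le
      linarith [(s_lin9 h a).2]
  have C3 : S.C * l ≤ S.C ^ 3 * l := mul_le_mul_of_nonneg_right (le_self_pow₀ C1 three_ne_zero) l0.le
  have i1 := h.i1
  have i2 := h.i2
  have hJ : 3 * p < S.J := by
    by_contra c
    have a0 := su (S.J - 1) 3 (by omega) (by exact_mod_cast (show S.J - 1 ≤ 3 * p by omega))
      (by norm_num)
    have a1 := h.atom.1.trans (h.z_s (k := S.J - 1) (by omega) (by omega)).2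
    rw [div_le_iff₀ C0] at a1
    have a2 := mul_le_mul_of_nonneg_left (show M.s (S.J - 1) + 2 * S.v ≤ 12 * S.C ^ 2 * l + l by
      linarith) (sq_nonneg S.C)
    have a3 := mul_le_mul_of_nonneg_right (Ci 4 (by norm_num)) l0.le
    have a4 := mul_le_mul_of_nonneg_right (Ci 2 (by norm_num)) l0.le
    linarith
  have sp : 3 * l ≤ M.s p := by
    refine le_trans ?_ (s_lin9 h (show p ≤ S.J by omega)).1
    rw [le_div_iff₀ C0]; linarith
  have g2 : L ^ 2 ≤ Lg := hE.trans ((le_mul_of_one_le_right E0.le (one_le_pow₀ F1)).trans N.Lg0)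
  have g1 : 1 ≤ Lg := (one_le_pow₀ L1).trans g2
  obtain ⟨u, u1, u2, gu⟩ := B.ex p (p + p / 2) (by linarith) (by omega) (by omega) (by omega) (by
    have a1 : (p : ℝ) ≤ 2 * (((p + p / 2 : ℕ) : ℝ) - p + 1) := by
      have : ((p : ℕ) : ℝ) ≤ ((2 * (p / 2) + 2 : ℕ) : ℝ) := by exact_mod_cast (by omega)
      push_cast at this ⊢; linarith
    have a2 := mul_le_mul_of_nonneg_left a1 (by positivity : 0 ≤ Lg * S.v)
    have a3 := mul_le_mul_of_nonneg_left (s_lin9 h (show p ≤ S.J by omega)).2 L0.le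
    have a4 : 2 * (L * S.C) ≤ Lg := by
      have := mul_le_mul_of_nonneg_left (Ci 1 (by norm_num)) L0.le
      have := mul_pos L0 C0
      linarith [sq L, pow_one S.C]
    have a5 := mul_le_mul_of_nonneg_right a4 (by positivity : 0 ≤ p * S.v)
    linarith)
  have uJ : u < S.J := by omega
  have s1 := sp.trans (h.sm u1)
  have s2 : M.s u ≤ 6 * S.C ^ 2 * l := (su u (3 / 2) uJ.le (by
    have : ((2 * u : ℕ) : ℝ) ≤ ((3 * p : ℕ) : ℝ) := by exact_mod_cast (by omega)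
    push_cast at this; linarith) (by norm_num)).trans_eq (by ring)
  have jl' : 2 * M.s S.jl ≤ l := le_trans (mul_le_mul_of_nonneg_right (by linarith) j0.le) jl
  have ju : S.jl < u := lt_of_not_ge fun c => by linarith [h.sm c]
  have zu : M.z u ≤ 8 * S.C ^ 3 * l := by
    have := mul_le_mul_of_nonneg_left (show M.s u + 2 * S.v ≤ 6 * S.C ^ 2 * l + l by linarith) C0.le
    linarith [(h.z_s (k := u) (by omega) uJ).2]
  have uV := B.big u gu (by omega)
  have c0 := l0.trans_le (cc_ge S l0.le)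
  have m0 := h.ms_pos l0.le
  have m1 := (h.ms1 l).trans θ1
  have y0 : 0 ≤ S.F * S.ms l * l := by positivity
  have c3 : S.F * S.ms l * l ≤ cc S l ^ 3 := by rw [cc_cube h l0]; exact le_max_right _ _
  have c4 : cc S l ^ 3 ≤ S.F * S.ms l * l + l ^ 3 := by
    rw [cc_cube h l0]
    exact max_le (le_add_of_nonneg_left y0) (le_add_of_nonneg_right (by positivity))
  have c1 : cc S l ≤ 1 := le_of_pow_le_pow_left₀ three_ne_zero zero_le_one (by
    rw [cc_cube h l0, one_pow]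
    refine max_le (pow_le_one₀ l0.le l1) ?_
    have := mul_le_mul_of_nonneg_right ((le_self_pow₀ F1 (by norm_num)).trans hF) l0.le
    have := mul_le_mul_of_nonneg_left m1 (by positivity : 0 ≤ S.F * l)
    linarith [N.l1])
  have C30 : 1 ≤ S.C ^ 3 := one_le_pow₀ C1
  have cw : ∀ k ≤ u, cc S (max (M.z k) l) ≤ L * cc S l := fun k hk =>
    (cc_mul h l0 (le_max_right (M.z k) l) (K := 8 * S.C ^ 3) (max_le ((h.leg.zm hk).trans zu)
      (le_mul_of_one_le_left l0.le (by linarith)))).trans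
      (mul_le_mul_of_nonneg_right (by linarith [Ci 3 (by norm_num)]) c0.le)
  have mu : S.ms (M.s u) ≤ 144 * S.C ^ 4 * S.ms l := ((h.msm s2).trans (h.ms_mul l0.le
    (k := 6 * S.C ^ 2) (by linarith))).trans_eq (by ring)
  have sb0 := (A.sb_mem (k := u) (uJ.le.trans h.i3)).1
  have P : ∀ i j : ℕ, i < j → 3000 * L ^ i ≤ L ^ j := fun i j hi =>
    (mul_le_mul_of_nonneg_right Lb (by positivity)).trans
      ((pow_succ' L i).ge.trans (pow_le_pow_right₀ L1 hi))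
  have lw : ∑ k ∈ range u, M.dz m a k * u4 M m a k ^ 2 ≤ L ^ 5 * (l * cc S l ^ 2) :=
    (low_sum9 (lg A) (f := fun k => u4 M m a k ^ 2) (b := (L * (L * cc S l)) ^ 2) (sq_nonneg _)
      (zu.trans (mul_le_mul_of_nonneg_right (show _ ≤ L by linarith [Ci 3 (by norm_num)]) l0.le))
      fun k hk => pow_le_pow_left₀ (u4_nn k) ((hu k (by have := h.J_lt; omega)).trans
        (mul_le_mul_of_nonneg_left (cw k hk.le) L0.le)) 2).trans_eq (by ring)
  have pbu : pb M m a (S.C * S.v) u ≤ L * (sb M m a (u + 1) + l) := by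
    have a1 := min_le_right 1 (2600 * (sb M m a (u + 1) + S.C * S.v))
    have a2 := A.rb_le_sb (k := u) (by have := h.J_lt; omega)
    have a3 := mul_le_mul_of_nonneg_right Lb sb0
    have a4 := mul_le_mul_of_nonneg_right (Ci 3 (by norm_num)) l0.le
    unfold pb; linarith
  have X0 : 0 ≤ X2 := le_trans (by positivity) N.x2a
  have pX := mul_le_mul_of_nonneg_right pbu X0
  refine ⟨u, gu, ju, by omega, uV, ⟨s1, s2⟩, zu, ?_, by linarith, ?_, ?_, ?_⟩
  · linarith [(h.ss S.jl (by omega)).2]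
  · have a1 := (cru u (uJ.le.trans h.i3)).trans (mul_le_mul_of_nonneg_left (cw u le_rfl) L0.le)
    have a2 : M.s S.jl + S.C * M.z u ≤ 9 * S.C ^ 4 * l := by
      have := mul_le_mul_of_nonneg_left zu C0.le
      have := mul_le_mul_of_nonneg_right (one_le_pow₀ (n := 4) C1) l0.le
      linarith
    have a3 : M.H u ≤ L * cc S l := by
      have := h.z_pos u
      calc _ ≤ _ := A.H_abs ce ju uJ
        _ ≤ S.C * S.F * (144 * S.C ^ 4 * S.ms l) * (9 * S.C ^ 4 * l) := by gcongr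
        _ = 1296 * S.C ^ 9 * (S.F * S.ms l * l) := by ring
        _ ≤ _ := mul_le_mul (by linarith [pow_pos C0 9])
          (c3.trans (pow_le_of_le_one c0.le c1 three_ne_zero)) y0 L0.le
    have a4 := mul_le_mul (show S.C ≤ L by linarith [Ci 1 (by norm_num), pow_one S.C]) a1
      (rb_mem A.m_pos u).1 L0.le
    have a5 := mul_le_mul_of_nonneg_right (P 3 7 (by norm_num)) c0.le
    have a6 := mul_le_mul_of_nonneg_right (P 1 7 (by norm_num)) c0.le
    have a7 := sb_le' A (k := u) (by have := h.J_lt; omega)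
    show _ ≤ L ^ 7 * cc S l
    linarith [mul_pos (pow_pos L0 7) c0]
  · have lC' := l1.trans C1
    have fl : mf S l ≤ S.ms l := div_le_self m0.le F1
    have yl : S.ms l * l ≤ S.F * S.ms l * l :=
      mul_le_mul_of_nonneg_right (le_mul_of_one_le_left m0.le F1) l0.le
    have ml := mul_pos m0 l0
    have ms0 := mul_nonneg m0.le sb0
    have iE : 0 < E⁻¹ := inv_pos.2 E0
    have iE1 : E⁻¹ ≤ 1 := inv_le_one_of_one_le₀ (L1.trans LE)
    have a1 : η (M.s u) ≤ E⁻¹ * (S.ms l * l) := (N.ηa (by linarith)).trans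
      ((le_inv_mul_iff₀ E0).2 ((N.th4 l le_rfl lC').trans (mul_le_mul_of_nonneg_right fl l0.le)))
    have t0 : 0 < M.s u := by linarith
    have a2 : Ug S Lg (M.s u) ^ 2 ≤ E⁻¹ * (144 * S.C ^ 4 * S.ms l) :=
      (pow_le_pow_left₀ (Ug_nn h (by linarith) t0) (Ug_le h g1 t0) 2).trans
        ((le_inv_mul_iff₀ E0).2 (((N.th2 _ (by linarith) (h.s_le_C (uJ.le.trans h.i3))).trans
          (div_le_self (h.ms_pos t0.le).le F1)).trans mu))
    have a3 : G89.gd M S m a T u ≤ 16 * S.C ^ 3 * (sb M m a (u + 1) + l) := by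
      have := mul_le_mul_of_nonneg_right C30 sb0
      exact (abs_Gd_le A ju.le (uJ.le.trans h.i3)).trans (by linarith)
    have a4 : Ug S Lg (M.s u) ^ 2 * G89.gd M S m a T u ≤
        L * (E⁻¹ * (S.ms l * (sb M m a (u + 1) + l))) := by
      refine (mul_le_mul a2 a3 (abs_nonneg _) (by positivity)).trans ?_
      have := mul_le_mul_of_nonneg_right (show 2304 * S.C ^ 7 ≤ L by
        linarith [Ci 7 (by norm_num), pow_pos C0 7])
        (by positivity : 0 ≤ E⁻¹ * (S.ms l * (sb M m a (u + 1) + l)))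
      linarith
    have a5 : L * (sb M m a (u + 1) + l) * X2 ≤ L * (E⁻¹ * (S.ms l * (sb M m a (u + 1) + l))) := by
      have := mul_le_mul_of_nonneg_left ((le_inv_mul_iff₀ E0).2 (N.th3.trans fl))
        (by positivity : 0 ≤ L * (sb M m a (u + 1) + l))
      linarith
    have a6 : l * cc S l ^ 2 ≤ S.F * S.ms l * l + l ^ 3 := le_trans (by
      rw [pow_succ' _ 2]; exact mul_le_mul_of_nonneg_right (cc_ge S l0.le) (sq_nonneg _)) c4
    have a7 : E⁻¹ * (S.ms l * l) ≤ S.F * S.ms l * l + l ^ 3 :=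
      ((mul_le_of_le_one_left ml.le iE1).trans yl).trans (le_add_of_nonneg_right (by positivity))
    obtain ⟨Y, eY⟩ : ∃ Y, Y = S.F * S.ms l * l + l ^ 3 := ⟨_, rfl⟩
    obtain ⟨Z, eZ⟩ : ∃ Z, Z = E⁻¹ * (S.ms l * sb M m a (u + 1)) := ⟨_, rfl⟩
    have Y0 : 0 ≤ Y := by rw [eY]; positivity
    have Z0 : 0 ≤ Z := by rw [eZ]; positivity
    have e : E⁻¹ * (S.ms l * (sb M m a (u + 1) + l)) ≤ Z + Y := by rw [eZ, eY]; linarith
    rw [← eY] at a6 a7 ⊢
    rw [div_eq_mul_inv, mul_assoc, ← eZ]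
    have b1 := mul_le_mul_of_nonneg_left (a1.trans a7) L0.le
    have b2 := mul_le_mul_of_nonneg_left (a4.trans (mul_le_mul_of_nonneg_left e L0.le)) L0.le
    have b3 := mul_le_mul_of_nonneg_left (add_le_add ((pX.trans a5).trans
      (mul_le_mul_of_nonneg_left e L0.le)) (lw.trans (mul_le_mul_of_nonneg_left a6 (by positivity))))
      L0.le
    have b4 := mul_le_mul_of_nonneg_right (P 1 7 (by norm_num)) Y0
    have b5 := mul_le_mul_of_nonneg_right (P 2 7 (by norm_num)) Y0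
    have b6 := mul_le_mul_of_nonneg_right (P 6 7 (by norm_num)) Y0
    have b7 := mul_le_mul_of_nonneg_right (P 2 7 (by norm_num)) Z0
    have b8 := mul_nonneg (pow_pos L0 7).le Y0
    have b9 := mul_nonneg (pow_pos L0 7).le Z0
    linarith [B.ab u (by linarith) uV gu]
  · have a1 := mul_le_mul_of_nonneg_right (le_self_pow₀ L1 (show 7 ≠ 0 by norm_num))
      (by positivity : 0 ≤ (sb M m a (u + 1) + l) * X2)
    have a2 := mul_le_mul_of_nonneg_right (pow_le_pow_right₀ L1 (show 5 ≤ 7 by norm_num))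
      (by positivity : 0 ≤ l * cc S l ^ 2)
    show _ ≤ L ^ 7 * (_ + l * cc S l ^ 2)
    linarith

theorem Rn.mono (R : Rn E Λ S M m a T l X2 Gn V0 u) (A : At S M m a T) (hΛ : Λ ≤ Λ') (l0 : 0 < l)
    (E0 : 0 < E) (X0 : 0 ≤ X2) : Rn E Λ' S M m a T l X2 Gn V0 u := by
  have m0 := A.ms_pos l0.le
  have F0 : 0 ≤ S.F := by linarith [A.cl.F1]
  have s0 := (A.sb_mem (k := u) (by have := R.uJ; have := A.cl.i3; omega)).1
  have c0 : 0 ≤ cr S l := by linarith [cr1 S l]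
  exact ⟨R.gu, R.ju, R.uJ, R.uV, R.su, R.zu, R.lo, R.me, R.cru.trans (by gcongr),
    R.ru.trans (by gcongr), R.ρ.trans (by gcongr)⟩

theorem Cru_mono (h : Cru Λ S M m a l) (hΛ : Λ ≤ Λ') (l0 : 0 ≤ l) : Cru Λ' S M m a l := fun k hk =>
  (h k hk).trans (mul_le_mul_of_nonneg_right hΛ
    (mul_nonneg (by linarith [cr1 S (max (M.z k) l)]) (le_max_of_le_right l0)))

theorem X3_η (h : Cl S M) {l0 V t : ℝ} (N : LN E S M l0 l V X Lg X2 X3 G0 η) (t0 : 0 < t)
    (h1 : l ≤ t) (h2 : t ≤ S.C) (G00 : 0 ≤ G0) (X0 : 0 ≤ X2) : X3 ≤ η t := by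
  have c1 := cr1 S t
  have w0 := rpow_nonneg (P33.w3_pos h t0).le ((1 : ℝ) / 3)
  have U0 : 0 ≤ uw S Lg t := by unfold uw; positivity
  have a1 : 0 ≤ uw S Lg t ^ 2 * min (S.ms t / t) t :=
    mul_nonneg (sq_nonneg _) (le_min (div_pos (h.ms_pos t0.le) t0).le t0.le)
  have a2 : 0 ≤ (√(Lg * cr S t * gg S t) + G0 + X2) * (uw S Lg t + √X2) := by positivity
  have a3 : 0 ≤ uw S Lg t ^ 3 := by positivity
  have a4 : (0 : ℝ) ≤ 1 / S.n := by positivity
  linarith [N.ηb t h1 h2]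

/-- **(NgS)** -/
theorem ngS_of (hT : SzT9) (hN : NdS) : NgS := by
  refine (((tl0_of hT).and hT).and (Nd22.nodeS.and hN)).glue fun C => ⟨2, fun A _ ε η hε hη =>
    ⟨ε, min (ε / 200) (η / 231), 3000 * C ^ 9, hε, by positivity,
      fun S M m a R h I ⟨⟨p1, p2⟩, p3, p4⟩ G1 u1 u2 j γ Lc ηc τ l X Xp Vt Lg Lp X2 X3 G0 η' N
        a1 a2 a3 a4 a5 => ?_⟩⟩
  obtain rfl := R.hC
  have n1 := h.n1
  have hL := R.K_le
  have θ1 := R.θ1 h
  have hE : ((S.n : ℝ) ^ min (ε / 200) (η / 231)) ^ 200 ≤ (S.n : ℝ) ^ ε := by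
    rw [Pre29.rp_pow]
    exact Pre29.rp_le n1 (by push_cast; linarith [min_le_left (ε / 200) (η / 231)])
  have hΛ : ((S.n : ℝ) ^ min (ε / 200) (η / 231)) ^ 231 ≤ (S.n : ℝ) ^ η := by
    rw [Pre29.rp_pow]
    exact Pre29.rp_le n1 (by push_cast; linarith [min_le_right (ε / 200) (η / 231)])
  generalize (S.n : ℝ) ^ min (ε / 200) (η / 231) = L at *
  generalize (S.n : ℝ) ^ ε = E at *
  generalize (S.n : ℝ) ^ η = Λ at *
  have C1 := h.C1
  have C0 := h.C0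
  have C9 : S.C ^ 4 ≤ S.C ^ 9 := pow_le_pow_right₀ C1 (by norm_num)
  have C4 : 1 ≤ S.C ^ 4 := one_le_pow₀ C1
  have L1 : 1 ≤ L := by linarith
  have L0 : 0 < L := by linarith
  have P : ∀ {i j : ℕ}, i ≤ j → L ^ i ≤ L ^ j := fun h => pow_le_pow_right₀ L1 h
  have Q : ∀ {i : ℕ}, i ≤ 231 → L ^ i ≤ Λ := fun h => (P h).trans hΛ
  have E1 : 1 ≤ E := (one_le_pow₀ L1).trans hE
  have At' : At S M m a (2 * S.C) := ⟨h, I, by linarith [h.b1, a2.HJ], by linarith [h.sT]⟩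
  have l0 : 0 < l := (mul_pos (by linarith) (h.s_pos (h.i0.trans h.i1))).trans_le a2.l0s
  have lC : l ≤ S.C := ((le_mul_of_one_le_left l0.le E1).trans a2.l1).trans C1
  have G00 : 0 ≤ G0 := le_trans (by positivity) a2.g0a
  have X20 : 0 ≤ X2 := le_trans (by positivity) a2.x2a
  have X30 : 0 ≤ X3 := le_trans (by positivity) a2.x3a
  have e1 := X3_η h a2 C0 lC le_rfl G00 X20
  have η0 := X30.trans e1
  have e2 := η_C h a2 η0
  have cru := p1 G1 u1 u2 j γ Lc ηc τ l X Xp Vt Lg Lp X2 X3 G0 η' N a1 a2 a3 a4 a5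
  obtain ⟨t2, t3, pa⟩ := p2 G1 u1 u2 j γ Lc ηc τ l X Xp Vt Lg Lp X2 X3 G0 η' N a1 a2 a3 a5
  have ni : ∀ L', L ≤ L' → NI L' S M m a l (cr S l * l) X2 G0 (L * (X3 + η' 1)) := fun L' hL' =>
    ⟨L1.trans hL', fun k hk => (Cru_mono cru hL' l0.le k hk).trans (mul_le_mul_of_nonneg_left
      (le_add_of_nonneg_right a2.V0) (by linarith)), t2.trans (by gcongr), t3, pa.trans (by gcongr)⟩
  have W3 : L * (X3 + η' 1) ≤ L ^ 2 * η' S.C := by
    have := mul_le_mul_of_nonneg_right (show 16 * S.C ^ 4 + 1 ≤ L by linarith) η0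
    rw [sq, mul_assoc]
    exact mul_le_mul_of_nonneg_left (by linarith) L0.le
  have L2 : L ≤ L ^ 2 := le_self_pow₀ L1 two_ne_zero
  have O := p3 G1 l l _ X Lg X2 X3 G0 η' L _ a1 a2 a3.rev a5.all
    ((P (by norm_num)).trans hE) (ni L le_rfl)
  have hu : ∀ k < M.N, u4 M m a k ≤ L ^ 3 * cc S (max (M.z k) l) := fun k hk => by
    have c1 := cc_mono h l0 (le_max_right (M.z k) l)
    have c0 := (l0.trans_le (cc_ge S l0.le)).trans_le c1
    have := mul_le_mul_of_nonneg_right (show 2 ≤ L by linarith) (mul_pos (mul_pos L0 L0) c0).le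
    have := mul_le_mul_of_nonneg_left (show cl S (cr S l * l) (max (M.z k) l) ≤
      2 * cc S (max (M.z k) l) by unfold cl; unfold cc at c1 ⊢; linarith) (mul_pos L0 L0).le
    linarith [O.cru k hk]
  have hu' : ∀ L', L ^ 3 ≤ L' → ∀ k < M.N, u4 M m a k ≤ L' * cc S (max (M.z k) l) :=
    fun L' hL' k hk => (hu k hk).trans (mul_le_mul_of_nonneg_right hL'
      ((le_max_of_le_right l0.le).trans (cc_ge S (le_max_of_le_right l0.le))))
  have LΛ : L ≤ Λ := by simpa using Q (i := 1) (by norm_num)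
  refine ⟨At', Cru_mono cru LΛ l0.le, hu' _ (Q (by norm_num)), O.n2.trans
    (mul_le_mul_of_nonneg_right ((pow_succ' L 3).ge.trans (Q (by norm_num))) X20),
    ⟨_, ni Λ LΛ, W3.trans (mul_le_mul_of_nonneg_right (Q (by norm_num)) η0)⟩, fun D1 τ1 hτ => ?_⟩
  obtain ⟨Gn, V0, B⟩ := p4 G1 l l _ X Lg X2 X3 G0 η' (L ^ 2) _ _ D1 τ1 a1 a2 a3.rev a5.all le_rfl
    (by rw [← pow_mul]; exact hE) (ni _ L2) W3 At' le_rfl hτ
  rw [max_eq_right (by linarith : l ≤ 2 * l), show L * (L ^ 2) ^ 16 = L ^ 33 by ring] at B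
  have L33 : L ≤ L ^ 33 := le_self_pow₀ L1 (by norm_num)
  obtain ⟨u, U⟩ := rn_of At' a1 a2 a4 θ1 (hL.trans L33)
    (by rw [← pow_mul]; exact (P (by norm_num)).trans hE) (Cru_mono cru L33 l0.le)
    (hu' _ (P (by norm_num))) B
  have i0 := h.i0; have i1 := h.i1; have i2 := h.i2
  exact ⟨Gn, V0, u, NG_mono B At' (Q (by norm_num)) (by linarith)
    (lt_of_lt_of_le (by have := h.F1; positivity) a2.Lg0)
    (le_trans (rpow_nonneg (P33.w3_pos h (h.s_pos (k := S.J - 1) (by omega))).le _)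
      (hτ.t1 (S.J - 1) (by omega) (by omega)).2) X20
    fun k hk => η0.trans (a2.ηa (h.s_le_C (hk.le.trans h.i3))),
    U.mono At' (by rw [← pow_mul]; exact hΛ) l0 (by linarith) X20⟩

end Crest.Agent.T156.Alt.Sz9

end
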