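import Crest.Agent.T156.TxV_83
import Crest.Agent.T156.LInt_31

/-!
# Row 156, block (L): the last node of the bulk on the class (helper83)
-/

set_option autoImplicit false

noncomputable section

namespace Crest.Agent.T156.Alt.L31

open Real
open Crest.Agent.T156.Alt.Mp9 Crest.Agent.T156.Alt.L69 Crest.Agent.T156.Alt.Ve83

/-- the label margin of `Ng` -/
def t1 (S : Sc) (p : Pa) : ℝ := S.F * (p.τ + (p.η 1 + G89.Ug S p.Lg 1 ^ 2 * p.γ) / mf S 1)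

/-- the frame of the top window -/
structure Tw (E : ℝ) (S : Sc) (M : Md) (m : ℕ) (a : ℝ) (p : Pa) : Prop where
  at' : At S M m a (2 * S.C)
  l0 : 0 < p.l0
  l1 : p.l ≤ 1
  jl : 2 * M.s S.jl ≤ M.s S.J
  lo : 8 * max p.l (2 * p.l0) ≤ M.s S.J
  v1 : 64 * (S.C * S.v) ≤ M.s S.J
  EL : E ≤ p.Lg
  τ0 : 0 < p.τ
  γ0 : 0 ≤ p.γ
  η0 : 0 < p.η 1
  t0 : 0 ≤ t1 S p
  t1 : E * t1 S p ≤ 3 * S.F
  w1 : Sz9.w1 S 1 ≤ p.τ
  n1 : 1 / (S.n : ℝ) ≤ p.Xp
  gj : 0 ≤ p.j ∧ Gam S M ≤ p.j ^ 2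
  gN : Gam S M ≤ S.θ * p.N
  D1 : 16 * DD S M p.Xp p.γ ≤ M.s S.J
  loc : ∀ k, 3 / 4 * M.s S.J ≤ M.s k → k ≤ S.J → |sb M m a (k + 1) - M.s k| ≤ DD S M p.Xp p.γ

variable {E lam K : ℝ} {S : Sc} {M : Md} {m : ℕ} {a : ℝ} {p : Pa} {Gn : ℕ → Prop} {V0 : ℕ}

theorem tw_of (h : Cl S M) (hm : S.In m a) (θ1 : S.θ ≤ 1) (vn : S.v ≤ 1 / S.n)
    (hE : (2000 * S.C ^ 6) ^ 3 ≤ E) (H : Hx E lam S M m a p) : Tw E S M m a p := by
  have C0 := h.C0
  have C1 := h.C1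
  have F1 := h.F1
  have n0 := h.N0
  have N := H.ln
  have A : At S M m a (2 * S.C) := ⟨h, hm, by linarith [h.b1, N.HJ], by linarith [h.sT]⟩
  have c6 : S.C ^ 3 ≤ S.C ^ 6 := pow_le_pow_right₀ C1 (by norm_num)
  have c3 : 1 ≤ S.C ^ 3 := one_le_pow₀ C1
  have QE : 2000 * S.C ^ 6 ≤ E := (le_self_pow₀ (by linarith) (by norm_num)).trans hE
  have E1 : 1 ≤ E := by linarith
  have s0 : 0 < M.s S.jl := h.s_pos (h.i0.trans h.i1)
  have l0 : M.s S.jl ≤ p.l0 := (le_mul_of_one_le_left s0.le E1).trans N.l0s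
  have l1 := N.l0l
  have l2 : p.l ≤ 1 := (le_mul_of_one_le_left (by linarith) E1).trans N.l1
  have l3 : 16 * p.l ≤ M.s S.J := by
    refine le_of_mul_le_mul_left ?_ (show 0 < 3 * S.C ^ 3 by positivity)
    linarith [Ab33.sJ_ge h, N.l1, mul_le_mul_of_nonneg_right (show 48 * S.C ^ 3 ≤ E by linarith)
      (show 0 ≤ p.l by linarith)]
  have jl : 2 * M.s S.jl ≤ M.s S.J := by linarith
  obtain ⟨d1, v1, lc⟩ := loc_of A θ1 vn hE jl H.lp H.ap
  have EL : E ≤ p.Lg := (le_mul_of_one_le_right (by linarith) (one_le_pow₀ F1)).trans N.Lg0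
  have τ0 := tau_nn h H.lp
  have γ0 : 0 ≤ p.γ := (sub_nonneg.2 (h.sm h.i3)).trans H.lp.γ0
  have gj := Gam_j h H.ap
  have m0 : 0 < mf S 1 := div_pos (h.ms_pos zero_le_one) (by linarith)
  have c1 : 1 ≤ cr S 1 := le_max_left _ _
  have w0 : 0 ≤ S.w3 1 ^ ((1 : ℝ) / 3) := by
    have := h.ms_pos zero_le_one
    unfold Sc.w3; positivity
  have U0 : 0 ≤ G89.Ug S p.Lg 1 := by
    have : 0 ≤ p.Lg := by linarith
    unfold G89.Ug Nd22.U Sz9.w1; positivity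
  have U1 : G89.Ug S p.Lg 1 ≤ uw S p.Lg 1 := mul_le_mul_of_nonneg_right ((rpow_le_self_of_one_le
    (one_le_mul_of_one_le_of_one_le (E1.trans EL) c1) (by norm_num)).trans
      (mul_le_mul_of_nonneg_right (le_self_pow₀ (E1.trans EL) two_ne_zero) (by linarith))) w0
  have η0 : 0 < p.η 1 := by
    have a1 := N.ηc 1 1 l2 le_rfl C1
    have a2 : 0 < ws S p.V 1 := by
      have := N.V0
      have := h.ms_pos zero_le_one
      unfold ws cl Sc.w3; positivity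
    have a3 : 0 ≤ min p.X (cl S p.V 1 ^ 3) := le_min N.X0.le (by
      have := N.V0
      unfold cl; positivity)
    exact lt_of_lt_of_le (by positivity) a1
  have a1 : E * p.τ ≤ 1 := by linarith [H.lp.j1, mul_nonneg (show 0 ≤ E by linarith) gj.1]
  have a2 : E * (p.η 1 / mf S 1) ≤ 1 := by
    rw [← mul_div_assoc, div_le_one m0]; linarith [N.th4 1 l2 C1]
  have a3 : E * (G89.Ug S p.Lg 1 ^ 2 * p.γ / mf S 1) ≤ 1 := by
    rw [← mul_div_assoc, div_le_one m0]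
    have b1 := (mul_le_mul_of_nonneg_left (pow_le_pow_left₀ U0 U1 2)
      (show 0 ≤ E by linarith)).trans (N.th2 1 l2 C1)
    have b2 : p.γ ≤ 1 := (le_mul_of_one_le_left γ0 E1).trans H.lp.γ1
    linarith [mul_le_mul b1 b2 γ0 m0.le]
  refine ⟨A, by linarith, l2, jl, ?_, v1, EL, τ0, γ0, η0, by unfold t1; positivity, ?_,
    w1_le h H.lp, n_le h θ1 H.lp, gj, Gam_N h v1 H.lc, d1, lc⟩
  · linarith [max_le (show p.l ≤ 2 * p.l by linarith) (show 2 * p.l0 ≤ 2 * p.l by linarith)]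
  · unfold t1
    rw [add_div]
    linarith [mul_le_mul_of_nonneg_left (add_le_add a1 (add_le_add a2 a3))
      (show 0 ≤ S.F by linarith)]

theorem ve_of (W : Tw E S M m a p) (hE : (2000 * S.C ^ 6) ^ 3 ≤ E) (K1 : 1 ≤ K) (KE : K ^ 3 ≤ E)
    (FE : S.F ^ 3 ≤ E) (G : Ng E K S M m a p Gn V0) :
    ∃ v, VE S M m a K p.Lg (t1 S p) Gn V0 v ∧ Ve S M m a Gn V0 v := by
  have h := W.at'.cl
  have C0 := h.C0
  have C1 := h.C1
  have F1 := h.F1
  have c6 : 1 ≤ S.C ^ 6 := one_le_pow₀ C1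
  have s0 := h.s_nn S.J
  have E1 : 1 ≤ E := (one_le_pow₀ K1).trans KE
  have a1 : 2000 * S.C ^ 6 * K * S.F ≤ E := by
    refine le_of_pow_le_pow_left₀ (n := 3) (by norm_num) (by linarith) ?_
    rw [mul_pow, mul_pow, pow_succ E, pow_two E]
    exact mul_le_mul (mul_le_mul hE KE (by positivity) (by linarith)) FE (by positivity)
      (by positivity)
  have a2 : 2000 * S.C ^ 6 * K ≤ p.Lg :=
    (le_mul_of_one_le_right (by positivity) F1).trans (a1.trans W.EL)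
  have L0 : 0 < p.Lg := by linarith [W.EL]
  have a3 : S.C * K ≤ S.C ^ 6 * K :=
    mul_le_mul_of_nonneg_right (le_self_pow₀ C1 (by norm_num)) (by linarith)
  have a4 : 2000 * S.C ^ 6 * (K / p.Lg) ≤ 1 := by rw [← mul_div_assoc, div_le_one L0]; exact a2
  have a5 : 2000 * S.C ^ 6 * (K * t1 S p) ≤ 3 := by
    refine le_of_mul_le_mul_left ?_ (show 0 < S.F by linarith)
    linarith [mul_le_mul_of_nonneg_right a1 W.t0, W.t1]
  have a6 : S.C ^ 5 * (K * t1 S p) ≤ S.C ^ 6 * (K * t1 S p) := mul_le_mul_of_nonneg_right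
    (pow_le_pow_right₀ C1 (by norm_num)) (mul_nonneg (by linarith) W.t0)
  obtain ⟨v, hv⟩ := ve W.at' G.ng (by linarith) L0 W.t0 W.jl (by linarith [W.lo]) W.v1
    (by nlinarith) (by
      refine le_of_mul_le_mul_left ?_ (show 0 < 3 * S.C ^ 3 by positivity)
      have := Ab33.sJ_ge h
      change _ * (16 * (_ * (K * t1 S p + _))) ≤ _
      linarith) (D := DD S M p.Xp p.γ) (by
        have := W.D1
        have := (abs_nonneg _).trans (W.loc S.J (by linarith) le_rfl)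
        linarith) fun k a b => W.loc k a b.le
  exact ⟨v, hv, hv.gn, hv.le, by linarith [hv.s1], by linarith [hv.t1], hv.t2⟩

/-- **(VeS)** -/
def VeS : Prop := CL fun E _ S M m a => ∀ p lam K Gn V0, Hx E lam S M m a p → lam ≤ K →
  K ^ 1000 ≤ E → Ng E K S M m a p Gn V0 →
  Tw E S M m a p ∧ ∃ v, VE S M m a K p.Lg (t1 S p) Gn V0 v ∧ Ve S M m a Gn V0 v

theorem vn_of {C η K : ℝ} {A : ℕ} (G : RgC C A η K S) (h : Cl S M) : S.v ≤ 1 / S.n := by
  have n0 := h.N0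
  have a1 : S.v * (S.n : ℝ) ^ 2 ≤ S.v * (S.n : ℝ) ^ S.A := mul_le_mul_of_nonneg_left
    (pow_le_pow_right₀ G.N1.le (G.hA ▸ G.A2)) h.v0.le
  have a2 : S.C ≤ S.n := by
    linarith [G.C_log, G.hC, h.C0, log_le_sub_one_of_pos n0]
  rw [le_div_iff₀ n0]
  exact le_of_mul_le_mul_right (by linarith [h.v2]) n0

theorem veS : VeS := CL.intro (fun _ _ _ _ _ _ _ _ _ h => h) 0 1 1 fun C A ε η _ _ =>
  ⟨(2000 * C ^ 6) ^ 3, fun S M m a G _ b1 _ h hm p lam K Gn V0 H b2 b3 N => by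
    have hE : (2000 * S.C ^ 6) ^ 3 ≤ (S.n : ℝ) ^ ε := by
      rw [G.hC]
      exact G.K_le.trans (rpow_le_rpow_of_exponent_le G.N1.le (by simpa using b1))
    have K1 : 1 ≤ K := H.l1.trans b2
    have W := tw_of h hm (G.θ1 h) (vn_of G h) hE H
    exact ⟨W, ve_of W hE K1 ((pow_le_pow_right₀ K1 (by norm_num)).trans b3)
      ((pow_le_pow_right₀ h.F1 (by norm_num)).trans H.F40) N⟩⟩

end Crest.Agent.T156.Alt.L31

end
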