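import Crest.Agent.T156.BoD_25
import Crest.Agent.T156.TxW_83
import Crest.Agent.T156.NgS_9
import Crest.Agent.T156.BoK_93

/-!
# Row 156, block (L): the frame of (TL1x) and (BoS) (helper25)
-/

set_option autoImplicit false

noncomputable section

namespace Crest.Agent.T156.Alt.L31

open MeasureTheory Set Real
open Crest.Agent.T156.Alt.Mp9 Crest.Agent.T156.Alt.L69 Crest.Agent.T156.Alt.C74

variable {E lam K K' θ0 X4 : ℝ} {S : Sc} {M : Md} {m : ℕ} {a : ℝ} {p : Pa} {Gn : ℕ → Prop}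
  {V0 u v : ℕ} {r1 r2 ω β f : ℝ → ℝ}

theorem cB_nn25 (h : Cl S M) (η : ℝ → ℝ) (t t' : ℝ) : 0 ≤ cB M S η t t' :=
  Finset.sum_nonneg fun k _ => mul_nonneg (L25.dx_nn h k) (add_nonneg
    (mul_nonneg (zero_le_one.trans (Ab33.cr_one S _))
      (div_nonneg (sq_nonneg _) (L25.mf_pos' h (h.s_nn k)).le))
    (le_min (by positivity) (div_nonneg (sq_nonneg _) (L25.mf_pos' h (h.s_nn k)).le)))

theorem cl_nn25 (S : Sc) {V t : ℝ} (V0 : 0 ≤ V) (t0 : 0 ≤ t) : 0 ≤ cl S V t := by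
  have := Ab33.cr_one S t
  unfold cl; positivity

/-- the signs -/
theorem sg25 (W : Tw E S M m a p) (H : Hx E lam S M m a p) : 0 < p.l ∧ 0 ≤ p.X2 ∧ 0 ≤ p.N ∧
    0 ≤ p.u2 ∧ 0 ≤ p.η S.C := by
  have h := W.at'.cl
  have l0 := W.l0
  have X0 : 0 ≤ p.X2 := le_trans (by positivity) H.ln.x2a
  have G0 : 0 ≤ p.G0 := le_trans (by positivity) H.ln.g0a
  have X3 : 0 ≤ p.X3 := le_trans (by positivity) H.ln.x3a
  have := W.τ0
  have := H.lp.u0
  have := h.θ0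
  exact ⟨l0.trans_le H.ln.l0l, X0, le_trans (by positivity) H.lc.c3,
    by linarith [H.lp.u1a, H.lp.u1b.1, h.last, h.leg.z1 (S.Jp - 1)],
    X3.trans (Sz9.X3_η h H.ln h.C0 (W.l1.trans h.C1) le_rfl G0 X0)⟩

/-- the loss of the net goes up -/
theorem Ng.mono (W : Tw E S M m a p) (H : Hx E lam S M m a p) (E0 : 0 < E) (hK : K ≤ K')
    (G : Ng E K S M m a p Gn V0) : Ng E K' S M m a p Gn V0 := by
  have h := W.at'.cl
  obtain ⟨l0, X0, -, -, eC⟩ := sg25 W H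
  exact ⟨Sz9.NG_mono G.ng W.at' hK (l0.trans_le (le_max_left _ _)) (E0.trans_le W.EL) W.t0 X0
    fun k hk => eC.trans (H.ln.ηa (h.s_le_C (hk.le.trans h.i3))),
    G.n2.trans (mul_le_mul_of_nonneg_right hK X0),
    fun k hk => (G.cru k hk).trans (mul_le_mul_of_nonneg_right hK
      (cl_nn25 S H.ln.V0 (W.l0.le.trans (le_max_right _ _))))⟩

/-- the loss of the bulk goes up -/
theorem Bk.mono (W : Tw E S M m a p) (H : Hx E lam S M m a p) (uJ : u ≤ S.Jp) (hK : K ≤ K')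
    (B : Bk K θ0 S M m a p Gn u v r1 r2 ω β f) : Bk K' θ0 S M m a p Gn u v r1 r2 ω β f := by
  have h := W.at'.cl
  obtain ⟨l0, X0, N0, -, -⟩ := sg25 W H
  have A0 := (W.at'.sb_mem uJ).1
  have η0 := W.η0
  have n0 := h.N0
  have F1 := h.F1
  have i0 : ∀ t0 t' : ℝ, 0 ≤ if 1 ≤ 16 * S.C ^ 5 * t' then p.N + cB M S p.η t0 S.C else 0 :=
    fun t0 t' => by
      split_ifs
      · exact add_nonneg N0 (cB_nn25 h _ _ _)
      · exact le_rfl
  obtain ⟨r, r0, b1, b2⟩ := B.ab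
  refine ⟨B.lf, B.R, B.r2s, ⟨B.be.1, B.be.2.trans (mul_le_mul_of_nonneg_right hK ?_)⟩,
    ⟨r, r0, fun t0 t' Y a1 a2 a3 a4 a5 a6 => (b1 t0 t' Y a1 a2 a3 a4 a5 a6).trans ?_,
      fun t a1 a2 => (b2 t a1 a2).trans ?_⟩, B.nm, B.f0,
    fun k t0 t' a1 a2 a3 a4 a5 a6 a7 a8 a9 => (B.hF k t0 t' a1 a2 a3 a4 a5 a6 a7 a8 a9).trans ?_,
    fun k t0 t' Y a1 a2 a3 a4 a5 a6 a7 a8 a9 =>
      (B.hΩ k t0 t' Y a1 a2 a3 a4 a5 a6 a7 a8 a9).trans ?_⟩
  · unfold bE; positivity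
  · have := i0 t0 t'
    have := A0.trans a4
    exact mul_le_mul_of_nonneg_right (mul_le_mul_of_nonneg_right hK A0) (by positivity)
  · have : 0 ≤ rh S M m a p u := by
      have := h.s_nn u
      unfold rh; positivity
    linarith [mul_le_mul_of_nonneg_right hK this]
  · have := cB_nn25 h p.η t0 t'
    have := h.ms_pos (l0.le.trans a4)
    have : 0 ≤ max (t0 - sb M m a (u + 1)) 0 := le_max_right _ _
    exact add_le_add_left (mul_le_mul_of_nonneg_right hK (by positivity)) _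
  · have := i0 t0 t'
    have := (A0.trans (W.at'.sb_mono (Nat.succ_le_succ a1))).trans a7
    exact add_le_add_left (mul_le_mul_of_nonneg_right hK (by positivity)) _

theorem Eg_nn25 (W : Tw E S M m a p) (H : Hx E lam S M m a p) (l4 : L4 S p.V p.X p.l S.C X4) :
    0 ≤ Eg S M p X4 := by
  have h := W.at'.cl
  obtain ⟨l0, X0, N0, -, -⟩ := sg25 W H
  have := B93.L4_nn h l4 l0 (W.l1.trans h.C1) H.ln.V0 H.ln.X0.le
  have := cB_nn25 h p.η p.l S.C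
  have := h.ms_pos l0.le
  unfold Eg; positivity

/-- **the first node** -/
theorem first25 (W : Tw E S M m a p) (H : Hx E lam S M m a p) (e : p.l0 = p.l) (K0 : 0 ≤ K)
    (h1 : 4 * S.C ^ 2 ≤ E) (h2 : 6 * S.C * K ≤ E) (G : Ng E K S M m a p Gn V0) :
    ∃ u, Vs M p Gn u ∧ M.s u ≤ 3 * p.l ∧ ∀ v, Ve S M m a Gn V0 v → u < v := by
  have h := W.at'.cl
  have C0 := h.C0
  have v0 := h.v0
  have l0 := (sg25 W H).1
  have lo : max p.l (2 * p.l0) = 2 * p.l := by rw [e]; exact max_eq_right (by linarith)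
  have sJ : 16 * p.l ≤ M.s S.J := by linarith [W.lo]
  have w0 : 0 < S.C * S.v := mul_pos C0 v0
  have vl : 4 * (S.C * S.v) ≤ p.l := by
    have j1 : (1 : ℝ) ≤ S.jl := by exact_mod_cast h.i0.trans h.i1
    have a1 := (h.s_bds (show S.jl ≤ S.J by have := h.i2; omega)).1
    have a2 : S.v / S.C ≤ M.s S.jl := (le_mul_of_one_le_left (by positivity) j1).trans a1
    have a3 := mul_le_mul h1 a2 (by positivity) (le_trans (by positivity) h1)
    rw [show 4 * S.C ^ 2 * (S.v / S.C) = 4 * (S.C * S.v) by field_simp] at a3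
    exact a3.trans (H.ln.l0s.trans H.ln.l0l)
  have ex : ∃ k, 9 / 4 * p.l ≤ M.s k := ⟨S.J, by linarith⟩
  classical
  have p1 : 9 / 4 * p.l ≤ M.s (Nat.find ex) := Nat.find_spec ex
  have pJ : Nat.find ex ≤ S.J := Nat.find_min' ex (by linarith)
  have pm : ∀ k < Nat.find ex, M.s k < 9 / 4 * p.l := fun k hk => not_le.1 (Nat.find_min ex hk)
  generalize Nat.find ex = q at p1 pJ pm
  have q1 : 1 ≤ q := Nat.pos_of_ne_zero fun c => by rw [c, h.s0] at p1; linarith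
  have p2 : M.s q ≤ 9 / 4 * p.l + S.C * S.v := by
    have a1 := (h.ss (q - 1) (by omega)).2
    rw [show q - 1 + 1 = q by omega] at a1
    linarith [pm (q - 1) (by omega)]
  obtain ⟨d, d1, d2⟩ : ∃ d : ℕ, d * (S.C * S.v) ≤ p.l / 2 ∧ p.l / 2 ≤ (d + 1) * (S.C * S.v) :=
    ⟨⌊p.l / 2 / (S.C * S.v)⌋₊, (le_div_iff₀ w0).1 (Nat.floor_le (by positivity)),
      (div_le_iff₀ w0).1 (Nat.lt_floor_add_one _).le⟩
  have dq : 2 * d ≤ q := by
    have : (2 * d : ℝ) ≤ q := le_of_mul_le_mul_right (by linarith [(h.s_bds pJ).2]) w0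
    exact_mod_cast this
  have up : ∀ y, q ≤ y → y ≤ q + d → y ≤ S.J → M.s y ≤ 3 * p.l := fun y a1 a2 a3 => by
    have b1 := (h.s_tel a1 a3).2
    have b2 : (y : ℝ) ≤ q + d := by exact_mod_cast a2
    linarith [mul_le_mul_of_nonneg_right (show (y : ℝ) - q ≤ d by linarith) w0.le]
  have dJ : q + d < S.J := lt_of_not_ge fun c => by linarith [up S.J pJ c le_rfl]
  obtain ⟨u, u1, u2, gu⟩ := G.ng.ex q (q + d) (by linarith) (by omega) dJ (by omega) (by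
    refine le_of_mul_le_mul_left ?_ (show 0 < 2 * S.C by positivity)
    have b1 := mul_le_mul_of_nonneg_left (up q le_rfl (by omega) pJ)
      (show 0 ≤ 2 * S.C * K by positivity)
    have b2 := mul_le_mul_of_nonneg_right (h2.trans W.EL) l0.le
    have b3 := mul_le_mul_of_nonneg_left d2 (le_trans (by positivity) (h2.trans W.EL))
    push_cast
    linarith)
  have su := up u u1 u2 (by omega)
  exact ⟨u, ⟨gu, by linarith [h.sm u1]⟩, su,
    fun v hv => lt_of_not_ge fun c => by linarith [h.sm c, hv.2.2.1]⟩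

theorem cl_tw25 : CL fun _ Λ S _ _ _ => (2000 * S.C ^ 6) ^ 3 ≤ Λ ∧ S.θ ≤ 1 ∧ S.v ≤ 1 / S.n :=
  fun C => by
  filter_upwards [Filter.eventually_ge_atTop 2] with A hA ε _ η hη
  filter_upwards [ev_rgc C hA hη ((2000 * C ^ 6) ^ 3)] with n H S M b1 b2 b3 h m a _
  have R := H S b1 b2 b3
  subst b1 b3
  exact ⟨R.K_le, R.θ1 h, vn_of R h⟩

/-- the frame of the top window under `Hx` -/
theorem twS25 : CL fun E Λ S M m a => (2000 * S.C ^ 6) ^ 3 ≤ Λ ∧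
    ∀ p lam, Λ ≤ E → Hx E lam S M m a p → Tw E S M m a p :=
  cl_tw25.mono fun _ _ _ _ _ _ _ _ h In c =>
    ⟨c.1, fun _ _ hE H => tw_of h In c.2.1 c.2.2 (c.1.trans hE) H⟩

/-- **(FrA)** -/
theorem frA_of (h0 : TL0) (hN : NgX) : FrA := ((h0.and hN).and twS25).mono
  fun E Λ S M m a E1 Λ1 h _ ⟨⟨c1, c2⟩, c3, c4⟩ p X4 H hE => by
    have P : ∀ {i : ℕ}, i ≤ 1000 → Λ ^ i ≤ E := fun hi => (pow_le_pow_right₀ Λ1 hi).trans hE
    have C1 := h.C1
    have ln := H.ln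
    have ap := H.ap
    rw [H.l0, H.V] at ln
    rw [H.l0] at ap
    have cr1 := c1 _ _ _ _ _ _ _ _ _ _ _ _ _ _ _ _ _ _ _ H.ce ln H.lp H.F40 ap
    have X : Hx E Λ S M m a p := ⟨H.ce, H.ln, H.lp, H.lc, H.F40, H.ap, H.ap2, Λ1, hE, H.V.le,
      fun k hk => (cr1 k hk).trans (by
        rw [H.l0]
        exact mul_le_mul_of_nonneg_left (le_add_of_nonneg_right H.ln.V0) (by linarith))⟩
    have W := c4 p Λ (by simpa using P (i := 1) (by norm_num)) X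
    obtain ⟨Gn, V0, G⟩ := c2 p Λ X
    rw [← pow_succ'] at G
    have c6 : S.C ^ 2 ≤ S.C ^ 6 := pow_le_pow_right₀ C1 (by norm_num)
    have c7 : S.C ≤ S.C ^ 2 := le_self_pow₀ C1 two_ne_zero
    have c8 : 2000 * S.C ^ 6 ≤ Λ := (le_self_pow₀ (by linarith) (by norm_num)).trans c3
    have L31 : 0 ≤ Λ ^ 31 := by positivity
    obtain ⟨u, U⟩ := first25 W X H.l0 L31
      (by linarith [P (i := 1) (by norm_num), pow_one Λ])
      ((mul_le_mul_of_nonneg_right (show 6 * S.C ≤ Λ by linarith) L31).trans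
        ((pow_succ' Λ 31).ge.trans (P (by norm_num)))) G
    exact ⟨X, Gn, V0, u, G, U⟩

/-- **(TL1x)** -/
theorem tl1x_of {k : ℕ} (hF : FrK k) : TL1x := by
  refine (hF.and twS25).glue fun C => ⟨2, fun A _ ε η hε hη =>
    ⟨ε, min ε η / (k + 1), 1, hε, by positivity, fun S M m a R h I ⟨c1, _, c4⟩
      G1 u1 u2 j γ Lc ηc τ l X Xp Vt V2 Lg Lp X2 X3 X4 G0 η' N' N a1 a2 a3 a4 a5 a6 a7 a8 => ?_⟩⟩
  have n1 := h.n1
  have L1 := R.Λ1
  have e : ((S.n : ℝ) ^ (min ε η / (k + 1))) ^ (k + 1) = (S.n : ℝ) ^ min ε η := by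
    rw [Pre29.rp_pow]; congr 1; push_cast; field_simp
  have hE := e.trans_le (Pre29.rp_le n1 (min_le_left ε η))
  have hΛ := e.trans_le (Pre29.rp_le n1 (min_le_right ε η))
  clear e
  generalize (S.n : ℝ) ^ (min ε η / (k + 1)) = L at *
  generalize (S.n : ℝ) ^ ε = E at *
  generalize (S.n : ℝ) ^ η = Λ at *
  have k1 : L ^ k ≤ L ^ (k + 1) := pow_le_pow_right₀ L1 (by omega)
  obtain ⟨Gn, V0, u, v, X', -, -, -, -, -, -, -, O⟩ := c1
    ⟨G1, u1, u2, j, γ, Lc, ηc, τ, l, l, cr S l * l, X, Xp, Vt, V2, Lg, Lp, X2, X3, G0, N', N, η'⟩ X4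
    ⟨rfl, rfl, a1, a2, a3, a4, a5, a6, a7, a8⟩ (k1.trans hE)
  have W := c4 _ _ ((le_self_pow₀ L1 (by omega)).trans hE) X'
  obtain ⟨l0, -, -, u0, -⟩ := sg25 W X'
  have e0 := Eg_nn25 W X' a3
  have F1 := h.F1
  exact L25.lo_scale h O l0.le (by positivity) le_rfl
    ((mul_one _).trans_le (mul_le_mul_of_nonneg_right (k1.trans hΛ) (by positivity))) e0
    (one_mul _).ge e0 (one_mul _).ge u0

/-- **(BoS)** -/
theorem boS_of {k : ℕ} (hF : FrK k) (hB : BuS) : BoS := by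
  intro θ hθ
  refine (((hF.and (hB θ hθ)).and boK).and twS25).glue fun C => ⟨2, fun A _ ε η hε hη =>
    ⟨ε, η / ((k + 931) * 10 + 1 : ℕ), 1, hε, by positivity, fun S M m a R h I ⟨⟨⟨c1, c2⟩, c3⟩, _, c4⟩
      G1 u1 u2 j γ Lc ηc τ l X Xp Vt V2 Lg Lp X2 X3 X4 G0 η' N' N a1 a2 a3 a4 a5 a6 hE a7 a8 => ?_⟩⟩
  have L1 := R.Λ1
  have e : ((S.n : ℝ) ^ (η / ((k + 931) * 10 + 1 : ℕ))) ^ ((k + 931) * 10 + 1) = (S.n : ℝ) ^ η := by
    rw [Pre29.rp_pow, div_mul_cancel₀ _ (by positivity)]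
  generalize (S.n : ℝ) ^ (η / ((k + 931) * 10 + 1 : ℕ)) = L at *
  generalize (S.n : ℝ) ^ ε = E at *
  rw [← e] at hE ⊢
  rw [← pow_mul] at hE
  have P : ∀ {i : ℕ}, i ≤ ((k + 931) * 10 + 1) * 1000 → L ^ i ≤ E :=
    fun hi => (pow_le_pow_right₀ L1 hi).trans hE
  have Q : ∀ {i : ℕ}, i ≤ k + 931 → L ^ i ≤ L ^ (k + 931) := fun hi => pow_le_pow_right₀ L1 hi
  obtain ⟨Gn, V0, u, v, X', G, hs, su, he, uv, gJ, gH, -⟩ := c1
    ⟨G1, u1, u2, j, γ, Lc, ηc, τ, l, l, cr S l * l, X, Xp, Vt, V2, Lg, Lp, X2, X3, G0, N', N, η'⟩ X4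
    ⟨rfl, rfl, a1, a2, a3, a4, a5, a6, a7, a8⟩ (P (by omega))
  have LE : L ≤ E := (pow_one L).ge.trans (P (by omega))
  have W := c4 _ _ LE X'
  obtain ⟨r1, r2, ω, β, f, B⟩ := c2 _ L (L ^ 31) Gn V0 X' (le_self_pow₀ L1 (by norm_num))
    ((pow_mul L 31 1000).ge.trans (P (by omega))) G u v hs he uv
  rw [← pow_mul, ← pow_succ'] at B
  have e0 := Eg_nn25 W X' a3
  have F1 := h.F1
  have g : L ^ k * S.F ^ 12 * _ ≤ L ^ (k + 931) * S.F ^ 12 * _ := mul_le_mul_of_nonneg_right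
    (mul_le_mul_of_nonneg_right (Q (by omega)) (by positivity)) e0
  have hV := G.ng.hV
  have vV := he.2.1
  have i3 := h.i3
  obtain ⟨ρ, O⟩ := c3 _ L (L ^ (k + 931)) _ Gn V0 u v r1 r2 ω β f _ X' rfl rfl
    (le_self_pow₀ L1 (by omega)) ((pow_mul L _ 1000).ge.trans (P (by omega))) (P (by omega))
    (G.mono W X' (by linarith) (Q (by omega))) hs su he uv
    (B.mono W X' (by omega) (Q (by omega))) (gJ.trans g) (gH.trans g)
  rw [← pow_mul, ← pow_succ'] at O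
  exact ⟨u, _, ρ, r1, r2, ω, β, f, O⟩

end Crest.Agent.T156.Alt.L31

end
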