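import Crest.Agent.Lib.PrekopaLeindler

/-!
# Row 156: Brascamp–Lieb in finite form (Prékopa–Leindler with a state dependent shift)
-/

set_option autoImplicit false
set_option linter.unusedSectionVars false
open MeasureTheory ProbabilityTheory Filter Topology Set
open scoped ENNReal NNReal RealInnerProductSpace
open Crest.Agent.Lib.PrekopaLeindler

namespace Crest.Agent.T156.Mor

section Core
variable {E : Type*} [AddCommGroup E] [Module ℝ E] [MeasurableSpace E] {μ : Measure E}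

theorem int_mul_bdd {U g : E → ℝ} (hU : Integrable (fun w => Real.exp (-U w)) μ)
    (hg : Measurable g) {C : ℝ} (hC : ∀ w, g w ≤ C) :
    Integrable (fun w => Real.exp (-U w + g w)) μ := by
  have h1 : Integrable (fun w => Real.exp (g w) * Real.exp (-U w)) μ := by
    refine hU.bdd_mul (c := Real.exp C) (by fun_prop) (Eventually.of_forall fun w => ?_)
    rw [Real.norm_eq_abs, abs_of_pos (Real.exp_pos _)]
    exact Real.exp_le_exp.2 (hC w)
  refine h1.congr (Eventually.of_forall fun w => ?_)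
  simp only
  rw [← Real.exp_add, add_comm]

theorem tilt_exp {U g : E → ℝ} :
    ∫ w, Real.exp (g w) ∂(μ.tilted fun w => -U w) =
      (∫ w, Real.exp (-U w + g w) ∂μ) / ∫ w, Real.exp (-U w) ∂μ := by
  rw [integral_tilted, ← integral_div]
  refine integral_congr_ae (Eventually.of_forall fun w => ?_)
  simp only [smul_eq_mul]
  rw [Real.exp_add]; ring

/-- one value of the interpolation parameter -/
theorem core_t [NeZero μ] (hμ : PL E μ) {U X f : E → ℝ} (hUm : Measurable U) (hXm : Measurable X)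
    (hfm : Measurable f) (hU : Integrable (fun w => Real.exp (-U w)) μ) {C C' : ℝ}
    (hf : ∀ w, |f w| ≤ C) (hX : ∀ w, X w ≤ C') {t : ℝ} (ht0 : 0 < t) (ht1 : t < 1)
    (H : ∀ x y, U ((1 - t) • x + t • y) - t * f ((1 - t) • x + t • y) ≤
      (1 - t) * U x + t * (U y - X y)) :
    (∫ w, Real.exp (X w) ∂(μ.tilted fun w => -U w)) ^ t ≤
      ∫ w, Real.exp (t * f w) ∂(μ.tilted fun w => -U w) := by
  have hI := int_mul_bdd hU hXm hX
  have hJ : Integrable (fun w => Real.exp (-U w + t * f w)) μ :=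
    int_mul_bdd (g := fun w => t * f w) hU (by fun_prop) (C := t * C)
      fun w => mul_le_mul_of_nonneg_left (le_of_abs_le (hf w)) ht0.le
  have hZ : 0 < ∫ w, Real.exp (-U w) ∂μ := integral_exp_pos hU
  have hI0 : 0 ≤ ∫ w, Real.exp (-U w + X w) ∂μ := integral_nonneg fun w => (Real.exp_pos _).le
  have hJ0 : 0 ≤ ∫ w, Real.exp (-U w + t * f w) ∂μ := integral_nonneg fun w => (Real.exp_pos _).le
  have key := hμ t ht0 ht1 (fun w => ENNReal.ofReal (Real.exp (-U w)))
    (fun w => ENNReal.ofReal (Real.exp (-U w + X w)))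
    (fun w => ENNReal.ofReal (Real.exp (-U w + t * f w))) (by fun_prop) (by fun_prop)
    (by fun_prop) ?_
  · rw [← ofReal_integral_eq_lintegral_ofReal hU (Eventually.of_forall fun w => (Real.exp_pos _).le),
      ← ofReal_integral_eq_lintegral_ofReal hI (Eventually.of_forall fun w => (Real.exp_pos _).le),
      ← ofReal_integral_eq_lintegral_ofReal hJ (Eventually.of_forall fun w => (Real.exp_pos _).le),
      ENNReal.ofReal_rpow_of_nonneg hZ.le (by linarith), ENNReal.ofReal_rpow_of_nonneg hI0 ht0.le,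
      ← ENNReal.ofReal_mul (Real.rpow_nonneg hZ.le _), ENNReal.ofReal_le_ofReal_iff hJ0] at key
    rw [tilt_exp, tilt_exp, Real.div_rpow hI0 hZ.le, le_div_iff₀ hZ]
    rw [Real.rpow_sub hZ, Real.rpow_one] at key
    calc _ = (∫ w, Real.exp (-U w) ∂μ) / (∫ w, Real.exp (-U w) ∂μ) ^ t *
          (∫ w, Real.exp (-U w + X w) ∂μ) ^ t := by ring
      _ ≤ _ := key
  · intro x y
    rw [ENNReal.ofReal_rpow_of_nonneg (Real.exp_pos _).le (by linarith),
      ENNReal.ofReal_rpow_of_nonneg (Real.exp_pos _).le ht0.le,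
      ← ENNReal.ofReal_mul (Real.rpow_nonneg (Real.exp_pos _).le _), ← Real.exp_mul, ← Real.exp_mul,
      ← Real.exp_add]
    refine ENNReal.ofReal_le_ofReal (Real.exp_le_exp.2 ?_)
    have := H x y
    linarith

end Core

section Prob
variable {Ω : Type*} [MeasurableSpace Ω] {ν : Measure Ω} [IsProbabilityMeasure ν]

theorem int_bdd {f : Ω → ℝ} (hfm : Measurable f) {C : ℝ} (hf : ∀ w, |f w| ≤ C) :
    Integrable f ν :=
  Integrable.of_bound hfm.aestronglyMeasurable C (Eventually.of_forall fun w => hf w)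

theorem abs_int_le {f : Ω → ℝ} {C : ℝ} (hf : ∀ w, |f w| ≤ C) : |∫ w, f w ∂ν| ≤ C := by
  have := norm_integral_le_of_norm_le_const (μ := ν) (f := f) (C := C)
    (Eventually.of_forall fun w => hf w)
  simpa using this

theorem mgf_small {f : Ω → ℝ} (hfm : Measurable f) {C : ℝ} (hf : ∀ w, |f w| ≤ C) {t : ℝ}
    (ht0 : 0 < t) (ht : t * (2 * C) ≤ 1) :
    ∫ w, Real.exp (t * f w) ∂ν ≤ Real.exp (t * ∫ w, f w ∂ν + t ^ 2 * (2 * C) ^ 2) := by
  set m := ∫ w, f w ∂ν with hm
  have hmC : |m| ≤ C := abs_int_le hf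
  have hb : ∀ w, |t * (f w - m)| ≤ t * (2 * C) := fun w => by
    rw [abs_mul, abs_of_pos ht0]
    refine mul_le_mul_of_nonneg_left ?_ ht0.le
    have := abs_sub (f w) m
    linarith [hf w]
  have hp : ∀ w, Real.exp (t * f w) ≤
      Real.exp (t * m) * (1 + t * (f w - m) + t ^ 2 * (2 * C) ^ 2) := fun w => by
    have h1 := Real.abs_exp_sub_one_sub_id_le ((hb w).trans ht)
    have h2 : (t * (f w - m)) ^ 2 ≤ (t * (2 * C)) ^ 2 := by
      rw [← sq_abs]
      exact pow_le_pow_left₀ (abs_nonneg _) (hb w) 2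
    have h3 : Real.exp (t * f w) = Real.exp (t * m) * Real.exp (t * (f w - m)) := by
      rw [← Real.exp_add]; ring_nf
    rw [h3]
    refine mul_le_mul_of_nonneg_left ?_ (Real.exp_pos _).le
    have := le_of_abs_le h1
    nlinarith
  have hfi : Integrable f ν := int_bdd hfm hf
  have hi2 : Integrable (fun w => Real.exp (t * m) * (1 + t * (f w - m) + t ^ 2 * (2 * C) ^ 2)) ν :=
    (((integrable_const _).add ((hfi.sub (integrable_const _)).const_mul t)).add
      (integrable_const _)).const_mul _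
  calc _ ≤ ∫ w, Real.exp (t * m) * (1 + t * (f w - m) + t ^ 2 * (2 * C) ^ 2) ∂ν :=
        integral_mono_of_nonneg (Eventually.of_forall fun w => (Real.exp_pos _).le) hi2
          (Eventually.of_forall hp)
    _ = Real.exp (t * m) * (1 + t ^ 2 * (2 * C) ^ 2) := by
        rw [integral_const_mul, integral_add, integral_add, integral_const_mul, integral_sub]
        · simp [hm]
        · exact hfi
        · exact integrable_const _
        · exact integrable_const _
        · exact (hfi.sub (integrable_const _)).const_mul t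
        · exact (integrable_const _).add ((hfi.sub (integrable_const _)).const_mul t)
        · exact integrable_const _
    _ ≤ _ := by
        rw [Real.exp_add]
        refine mul_le_mul_of_nonneg_left ?_ (Real.exp_pos _).le
        linarith [Real.add_one_le_exp (t ^ 2 * (2 * C) ^ 2)]

theorem le_exp_of_pow {f : Ω → ℝ} (hfm : Measurable f) {C : ℝ} (hf : ∀ w, |f w| ≤ C) {a : ℝ}
    (ha : 0 ≤ a) (H : ∀ t : ℝ, 0 < t → t < 1 → a ^ t ≤ ∫ w, Real.exp (t * f w) ∂ν) :
    a ≤ Real.exp (∫ w, f w ∂ν) := by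
  rcases ha.eq_or_lt with rfl | ha
  · exact (Real.exp_pos _).le
  have hC : 0 ≤ C := (abs_nonneg _).trans (abs_int_le (ν := ν) hf)
  rw [← Real.log_le_iff_le_exp ha]
  refine le_of_forall_pos_le_add fun δ hδ => ?_
  set t : ℝ := min (1 / (2 * C + 2)) (δ / ((2 * C) ^ 2 + 1)) with htd
  have ht0 : 0 < t := lt_min (by positivity) (by positivity)
  have h1 : t ≤ 1 / (2 * C + 2) := min_le_left _ _
  have h2 : t ≤ δ / ((2 * C) ^ 2 + 1) := min_le_right _ _
  rw [le_div_iff₀ (by positivity)] at h1 h2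
  have h3 := (H t ht0 (by nlinarith)).trans (mgf_small hfm hf ht0 (by nlinarith))
  rw [Real.rpow_def_of_pos ha, Real.exp_le_exp] at h3
  have h4 : t * Real.log a ≤ t * (∫ w, f w ∂ν + δ) := by nlinarith
  exact le_of_mul_le_mul_left h4 ht0

/-- from the exponential inequality to the variance bound -/
theorem var_of_exp {f : Ω → ℝ} (hfm : Measurable f) {C : ℝ} (hf : ∀ w, |f w| ≤ C)
    {R : ℝ → Ω → ℝ} (hRm : ∀ e, Measurable (R e)) {K : ℝ}
    (hR : ∀ e, 0 < e → ∀ w, 0 ≤ R e w ∧ R e w ≤ K * e ^ 2) {B : ℝ}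
    (hB : ∀ δ, 0 < δ → ∀ᶠ e in 𝓝[>] (0 : ℝ), ∫ w, R e w ∂ν ≤ (B / 2 + δ) * e ^ 2)
    (H : ∀ᶠ e in 𝓝[>] (0 : ℝ),
      ∫ w, Real.exp (e * f w - R e w) ∂ν ≤ Real.exp (e * ∫ w, f w ∂ν)) :
    ∫ w, (f w - ∫ w', f w' ∂ν) ^ 2 ∂ν ≤ B := by
  set m := ∫ w, f w ∂ν with hm
  have hmC : |m| ≤ C := abs_int_le hf
  have hC : 0 ≤ C := (abs_nonneg _).trans hmC
  have hK : 0 ≤ K := by
    obtain ⟨w⟩ : Nonempty Ω := nonempty_of_isProbabilityMeasure ν
    have := hR 1 one_pos w
    linarith [this.1, this.2]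
  have hg : ∀ w, |f w - m| ≤ 2 * C := fun w => by
    have := abs_sub (f w) m
    linarith [hf w]
  have hfi : Integrable f ν := int_bdd hfm hf
  have hg2 : Integrable (fun w => (f w - m) ^ 2) ν :=
    int_bdd (by fun_prop) (C := (2 * C) ^ 2) fun w => by
      rw [abs_pow]; exact pow_le_pow_left₀ (abs_nonneg _) (hg w) 2
  set L : ℝ := 2 * C * K + (2 * C + K) ^ 3 with hL
  have hL0 : 0 ≤ L := by positivity
  refine le_of_forall_pos_le_add fun δ hδ => ?_
  have hsm : ∀ᶠ e in 𝓝[>] (0 : ℝ), e < min (1 / (2 * C + K + 1)) (δ / 4 / (L + 1)) :=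
    nhdsWithin_le_nhds (Iio_mem_nhds (lt_min (by positivity) (by positivity)))
  obtain ⟨e, ⟨⟨h1, h2⟩, h3⟩, he⟩ :=
    ((((hB (δ / 4) (by positivity)).and H).and hsm).and self_mem_nhdsWithin).exists
  have he : 0 < e := he
  have h4 : e < 1 / (2 * C + K + 1) := h3.trans_le (min_le_left _ _)
  have h5 : e < δ / 4 / (L + 1) := h3.trans_le (min_le_right _ _)
  rw [lt_div_iff₀ (by positivity)] at h4 h5
  have he1 : e ≤ 1 := by nlinarith
  have hRi : Integrable (R e) ν := int_bdd (hRm e) (C := K * e ^ 2) fun w => by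
    rw [abs_of_nonneg (hR e he w).1]; exact (hR e he w).2
  have hp : ∀ w, Real.exp (e * m) *
      (1 + e * (f w - m) - R e w + e ^ 2 / 2 * (f w - m) ^ 2 - L * e ^ 3) ≤
      Real.exp (e * f w - R e w) := fun w => by
    obtain ⟨r0, r1⟩ := hR e he w
    set g := f w - m with hgd
    set r := R e w
    have hgb := hg w
    have hy : |e * g - r| ≤ e * (2 * C + K) := by
      have a1 : |e * g| ≤ e * (2 * C) := by
        rw [abs_mul, abs_of_pos he]; exact mul_le_mul_of_nonneg_left hgb he.le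
      have a2 : |r| ≤ e * K := by
        rw [abs_of_nonneg r0]
        have : K * e ^ 2 ≤ e * K := by nlinarith [mul_nonneg hK he.le]
        linarith
      have := abs_sub (e * g) r
      linarith
    have hy1 : |e * g - r| ≤ 1 := by nlinarith
    have hb := Real.exp_bound hy1 (n := 3) (by norm_num)
    simp only [Finset.sum_range_succ, Finset.range_zero, Finset.sum_empty, Nat.factorial] at hb
    have hc : |e * g - r| ^ 3 ≤ (e * (2 * C + K)) ^ 3 := pow_le_pow_left₀ (abs_nonneg _) hy 3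
    have hb2 := neg_le_of_abs_le hb
    norm_num at hb2
    have hq : e ^ 2 * g ^ 2 - 2 * (2 * C * K) * e ^ 3 ≤ (e * g - r) ^ 2 := by
      have b1 : g * r ≤ 2 * C * (K * e ^ 2) :=
        (mul_le_mul_of_nonneg_right (le_of_abs_le hgb) r0).trans
          (mul_le_mul_of_nonneg_left r1 (by positivity))
      nlinarith [mul_le_mul_of_nonneg_left b1 he.le, sq_nonneg r]
    have h3' : Real.exp (e * f w - r) = Real.exp (e * m) * Real.exp (e * g - r) := by
      rw [← Real.exp_add, hgd]; ring_nf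
    rw [h3']
    refine mul_le_mul_of_nonneg_left ?_ (Real.exp_pos _).le
    have hn : 0 ≤ |e * g - r| ^ 3 := by positivity
    have : (e * (2 * C + K)) ^ 3 = (2 * C + K) ^ 3 * e ^ 3 := by ring
    rw [hL]
    nlinarith
  have hi1 : Integrable (fun w => Real.exp (e * f w - R e w)) ν :=
    int_bdd (by have := hRm e; fun_prop) (C := Real.exp (e * C)) fun w => by
      rw [abs_of_pos (Real.exp_pos _)]
      refine Real.exp_le_exp.2 ?_
      have := mul_le_mul_of_nonneg_left (le_of_abs_le (hf w)) he.le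
      linarith [(hR e he w).1]
  have hi0 : Integrable (fun w => e * (f w - m)) ν := (hfi.sub (integrable_const _)).const_mul e
  have hi2 : Integrable (fun w => 1 + e * (f w - m)) ν := (integrable_const _).add hi0
  have hi3 : Integrable (fun w => 1 + e * (f w - m) - R e w) ν := hi2.sub hRi
  have hi4 : Integrable (fun w => 1 + e * (f w - m) - R e w + e ^ 2 / 2 * (f w - m) ^ 2) ν :=
    hi3.add (hg2.const_mul _)
  have hi5 : Integrable (fun w => Real.exp (e * m) *
      (1 + e * (f w - m) - R e w + e ^ 2 / 2 * (f w - m) ^ 2 - L * e ^ 3)) ν :=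
    (hi4.sub (integrable_const (L * e ^ 3))).const_mul (Real.exp (e * m))
  have hI := (integral_mono hi5 hi1 hp).trans h2
  rw [integral_const_mul, integral_sub hi4 (integrable_const _), integral_add hi3 (hg2.const_mul _),
    integral_sub hi2 hRi, integral_add (integrable_const _) hi0,
    integral_const_mul, integral_const_mul,
    integral_sub hfi (integrable_const _)] at hI
  simp only [integral_const, probReal_univ, smul_eq_mul, one_mul, ← hm, sub_self, mul_zero,
    add_zero] at hI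
  have hI2 : 1 - ∫ w, R e w ∂ν + e ^ 2 / 2 * ∫ w, (f w - m) ^ 2 ∂ν - L * e ^ 3 ≤ 1 := by
    have hx := Real.exp_pos (e * m)
    by_contra hcon
    rw [not_le] at hcon
    nlinarith
  have he2 : 0 < e ^ 2 := by positivity
  have h6 : e ^ 2 / 2 * ∫ w, (f w - m) ^ 2 ∂ν ≤ e ^ 2 / 2 * (B + δ) := by
    have : L * e ^ 3 ≤ δ / 4 * e ^ 2 := by
      have : L * e ≤ δ / 4 := by nlinarith
      nlinarith
    nlinarith
  exact le_of_mul_le_mul_left h6 (by positivity)

/-- dominated convergence for the Taylor remainder -/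
theorem rem_of_tendsto {R : ℝ → Ω → ℝ} (hRm : ∀ e, Measurable (R e)) {K : ℝ}
    (hR : ∀ e, 0 < e → ∀ w, 0 ≤ R e w ∧ R e w ≤ K * e ^ 2) {b : Ω → ℝ}
    (hb : ∀ w, Tendsto (fun e => R e w / e ^ 2) (𝓝[>] 0) (𝓝 (b w / 2))) :
    ∀ δ, 0 < δ → ∀ᶠ e in 𝓝[>] (0 : ℝ), ∫ w, R e w ∂ν ≤ ((∫ w, b w ∂ν) / 2 + δ) * e ^ 2 := by
  intro δ hδ
  have h := tendsto_integral_filter_of_dominated_convergence (μ := ν) (l := 𝓝[>] (0 : ℝ))
    (F := fun e w => R e w / e ^ 2) (f := fun w => b w / 2) (fun _ => K)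
    (Eventually.of_forall fun e => ((hRm e).div_const _).aestronglyMeasurable)
    (by
      filter_upwards [self_mem_nhdsWithin] with e he
      refine Eventually.of_forall fun w => ?_
      have he : 0 < e := he
      obtain ⟨r0, r1⟩ := hR e he w
      rw [Real.norm_eq_abs, abs_of_nonneg (by positivity), div_le_iff₀ (by positivity)]
      exact r1)
    (integrable_const _) (Eventually.of_forall hb)
  rw [integral_div] at h
  filter_upwards [h.eventually (Iio_mem_nhds (lt_add_of_pos_right _ hδ)), self_mem_nhdsWithin]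
    with e h1 he
  have he : 0 < e := he
  rw [integral_div, div_lt_iff₀ (by positivity)] at h1
  exact h1.le

end Prob

/-- second order Taylor remainder of a function with Lipschitz derivative -/
theorem taylor2 {g g' : ℝ → ℝ} (hg : ∀ s, HasDerivAt g (g' s) s) {b : ℝ}
    (hb : HasDerivAt g' b 0) :
    Tendsto (fun e => (g (-e) - g 0 + e * g' 0) / e ^ 2) (𝓝[>] 0) (𝓝 (b / 2)) := by
  have h1 : ∀ e : ℝ, HasDerivAt (fun e => g (-e) - g 0 + e * g' 0) (g' 0 - g' (-e)) e := fun e => by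
    have := (((hg (-e)).comp e (hasDerivAt_neg e)).sub_const (g 0)).add
      ((hasDerivAt_id e).mul_const (g' 0))
    refine this.congr_deriv ?_
    ring
  have h2 : ∀ e : ℝ, HasDerivAt (fun e : ℝ => e ^ 2) (2 * e) e := fun e => by
    simpa using hasDerivAt_pow 2 e
  refine HasDerivAt.lhopital_zero_nhdsGT (Eventually.of_forall h1) (Eventually.of_forall h2) ?_ ?_ ?_ ?_
  · filter_upwards [self_mem_nhdsWithin] with e he
    have he : 0 < e := he
    positivity
  · have := (h1 0).continuousAt.tendsto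
    simp only [neg_zero, sub_self, zero_mul, add_zero] at this
    exact this.mono_left nhdsWithin_le_nhds
  · have := (h2 0).continuousAt.tendsto
    simp only [ne_eq, OfNat.ofNat_ne_zero, not_false_eq_true, zero_pow] at this
    exact this.mono_left nhdsWithin_le_nhds
  · have h3 : HasDerivAt (fun e : ℝ => g' 0 - g' (-e)) b 0 := by
      have h0 : HasDerivAt g' b (-0) := by simpa using hb
      have := (h0.comp (0 : ℝ) (hasDerivAt_neg 0)).const_sub (g' 0)
      refine this.congr_deriv ?_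
      ring
    have h4 := (hasDerivAt_iff_tendsto_slope_zero.1 h3).mono_left (nhdsGT_le_nhdsNE 0)
    refine (h4.div_const 2).congr' ?_
    filter_upwards [self_mem_nhdsWithin] with e he
    have he : 0 < e := he
    simp only [zero_add, neg_zero, sub_self, sub_zero, smul_eq_mul]
    field_simp

theorem taylor_bd {g g' : ℝ → ℝ} (hg : ∀ s, HasDerivAt g (g' s) s) {K : ℝ} (hK0 : 0 ≤ K)
    (hK : ∀ s, s ≤ 0 → g' 0 - g' s ≤ K * (-s)) {e : ℝ} (he : 0 < e) :
    g (-e) - g 0 + e * g' 0 ≤ K * e ^ 2 := by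
  obtain ⟨c, hc, h⟩ := exists_hasDerivAt_eq_slope g g' (show -e < 0 by linarith)
    (fun s _ => (hg s).continuousAt.continuousWithinAt) (fun s _ => hg s)
  have h1 := hK c hc.2.le
  rw [eq_div_iff (by linarith)] at h
  have h2 : K * (-c) ≤ K * e := mul_le_mul_of_nonneg_left (by linarith [hc.1]) hK0
  nlinarith

section Main
variable {E : Type*} [AddCommGroup E] [Module ℝ E] [MeasurableSpace E] {μ : Measure E}
  {F : Type*} [NormedAddCommGroup F] [InnerProductSpace ℝ F] {κ : Type*} [Fintype κ]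

/-- the planted potential `U0 + ∑ D_k Φ_k(·, 0)` -/
def pot (U0 : E → ℝ) (D : κ → ℝ) (Φ : κ → E → F → ℝ) (w : E) : ℝ := U0 w + ∑ k, D k * Φ k w 0

/-- the Taylor remainder of `Φ_k(w, ·)` at `0` in the direction `-u_k(w)` -/
noncomputable def rem (D : κ → ℝ) (Φ : κ → E → F → ℝ) (m u : κ → E → F) (e : ℝ) (w : E) : ℝ :=
  ∑ k, D k * (Φ k w (-(e • u k w)) - Φ k w 0 + e * ⟪m k w, u k w⟫)

theorem rem_nonneg {D : κ → ℝ} (hD : ∀ k, 0 ≤ D k) {Φ : κ → E → F → ℝ} {m u : κ → E → F}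
    (hm : ∀ k w v, Φ k w 0 + ⟪m k w, v⟫ ≤ Φ k w v) (e : ℝ) (w : E) : 0 ≤ rem D Φ m u e w := by
  refine Finset.sum_nonneg fun k _ => mul_nonneg (hD k) ?_
  have := hm k w (-(e • u k w))
  rw [inner_neg_right, inner_smul_right] at this
  linarith

/-- **Brascamp–Lieb, exponential form.** -/
theorem bl_exp [NeZero μ] (hμ : PL E μ) {U0 : E → ℝ} (hU0 : ConvexOn ℝ univ U0) {D : κ → ℝ}
    (hD : ∀ k, 0 ≤ D k) {Φ : κ → E → F → ℝ}
    (hΦ : ∀ k, ConvexOn ℝ univ fun p : E × F => Φ k p.1 p.2) {m u : κ → E → F}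
    (hm : ∀ k w v, Φ k w 0 + ⟪m k w, v⟫ ≤ Φ k w v) {f : κ → E → ℝ}
    (hf : ∀ k y z, f k y + ⟪m k z - m k y, u k y⟫ ≤ f k z)
    (hPm : Measurable (pot U0 D Φ)) (hP : Integrable (fun w => Real.exp (-pot U0 D Φ w)) μ)
    (hfm : Measurable fun w => ∑ k, D k * f k w) {C : ℝ} (hC : ∀ w, |∑ k, D k * f k w| ≤ C)
    {e : ℝ} (he : 0 ≤ e) (hRm : Measurable (rem D Φ m u e)) :
    ∫ w, Real.exp (e * (∑ k, D k * f k w) - rem D Φ m u e w) ∂(μ.tilted fun w => -pot U0 D Φ w) ≤
      Real.exp (e * ∫ w, ∑ k, D k * f k w ∂(μ.tilted fun w => -pot U0 D Φ w)) := by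
  have : IsProbabilityMeasure (μ.tilted fun w => -pot U0 D Φ w) := isProbabilityMeasure_tilted hP
  have hC' : ∀ w, |e * ∑ k, D k * f k w| ≤ e * C := fun w => by
    rw [abs_mul, abs_of_nonneg he]; exact mul_le_mul_of_nonneg_left (hC w) he
  rw [← integral_const_mul]
  refine le_exp_of_pow (f := fun w => e * ∑ k, D k * f k w) (hfm.const_mul e) hC'
    (integral_nonneg fun w => (Real.exp_pos _).le) fun t ht0 ht1 => ?_
  refine core_t (X := fun w => e * (∑ k, D k * f k w) - rem D Φ m u e w) hμ hPm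
    ((hfm.const_mul e).sub hRm) (hfm.const_mul e) hP hC' (C' := e * C)
    (fun w => ?_) ht0 ht1 fun x y => ?_
  · linarith [le_of_abs_le (hC' w), rem_nonneg (u := u) hD hm e w]
  set z := (1 - t) • x + t • y with hz
  have h0 := hU0.2 (mem_univ x) (mem_univ y) (show (0 : ℝ) ≤ 1 - t by linarith) ht0.le (by ring)
  have hk : ∀ k, D k * Φ k z 0 - t * (e * (D k * f k z)) ≤ (1 - t) * (D k * Φ k x 0) +
      t * (D k * Φ k y 0 - (e * (D k * f k y) -
        D k * (Φ k y (-(e • u k y)) - Φ k y 0 + e * ⟪m k y, u k y⟫))) := fun k => by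
    have h1 := (hΦ k).2 (mem_univ (x, (0 : F))) (mem_univ (y, -(e • u k y)))
      (show (0 : ℝ) ≤ 1 - t by linarith) ht0.le (by ring)
    simp only [Prod.smul_mk, Prod.mk_add_mk, smul_zero, zero_add, smul_eq_mul] at h1
    have h2 := hm k z (t • -(e • u k y))
    rw [inner_smul_right, inner_neg_right, inner_smul_right] at h2
    have h3 := hf k y z
    rw [inner_sub_left] at h3
    have h4 := mul_le_mul_of_nonneg_left h3 (mul_nonneg ht0.le he)
    have h5 : Φ k z 0 - t * (e * f k z) ≤ (1 - t) * Φ k x 0 +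
        t * (Φ k y 0 - (e * f k y - (Φ k y (-(e • u k y)) - Φ k y 0 + e * ⟪m k y, u k y⟫))) := by
      rw [← hz] at h1
      nlinarith
    have h6 := mul_le_mul_of_nonneg_left h5 (hD k)
    nlinarith
  have hs := Finset.sum_le_sum fun k (_ : k ∈ Finset.univ) => hk k
  simp only [Finset.sum_add_distrib, Finset.sum_sub_distrib, ← Finset.mul_sum] at hs
  simp only [pot, rem, smul_eq_mul] at h0 ⊢
  rw [← hz] at h0
  nlinarith

/-- **Brascamp–Lieb, variance form**: the remainder is `O(e²)` and asymptotically `e² b / 2`. -/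
theorem bl_var [NeZero μ] (hμ : PL E μ) {U0 : E → ℝ} (hU0 : ConvexOn ℝ univ U0) {D : κ → ℝ}
    (hD : ∀ k, 0 ≤ D k) {Φ : κ → E → F → ℝ}
    (hΦ : ∀ k, ConvexOn ℝ univ fun p : E × F => Φ k p.1 p.2) {m u : κ → E → F}
    (hm : ∀ k w v, Φ k w 0 + ⟪m k w, v⟫ ≤ Φ k w v) {f : κ → E → ℝ}
    (hf : ∀ k y z, f k y + ⟪m k z - m k y, u k y⟫ ≤ f k z)
    (hPm : Measurable (pot U0 D Φ)) (hP : Integrable (fun w => Real.exp (-pot U0 D Φ w)) μ)
    (hfm : Measurable fun w => ∑ k, D k * f k w) {C : ℝ} (hC : ∀ w, |∑ k, D k * f k w| ≤ C)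
    (hRm : ∀ e, Measurable (rem D Φ m u e)) {K : ℝ}
    (hK : ∀ e, 0 < e → ∀ w, rem D Φ m u e w ≤ K * e ^ 2) {b : E → ℝ}
    (hb : ∀ w, Tendsto (fun e => rem D Φ m u e w / e ^ 2) (𝓝[>] 0) (𝓝 (b w / 2))) :
    ∫ w, (∑ k, D k * f k w - ∫ w', ∑ k, D k * f k w' ∂(μ.tilted fun w => -pot U0 D Φ w)) ^ 2
        ∂(μ.tilted fun w => -pot U0 D Φ w) ≤ ∫ w, b w ∂(μ.tilted fun w => -pot U0 D Φ w) := by
  have : IsProbabilityMeasure (μ.tilted fun w => -pot U0 D Φ w) := isProbabilityMeasure_tilted hP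
  have hR : ∀ e, 0 < e → ∀ w, 0 ≤ rem D Φ m u e w ∧ rem D Φ m u e w ≤ K * e ^ 2 :=
    fun e he w => ⟨rem_nonneg hD hm e w, hK e he w⟩
  refine var_of_exp hfm hC hRm hR (rem_of_tendsto hRm hR hb) ?_
  filter_upwards [self_mem_nhdsWithin] with e he
  exact bl_exp hμ hU0 hD hΦ hm hf hPm hP hfm hC (le_of_lt he) (hRm e)

/-- **Brascamp–Lieb, C² form**: `g' k w s` is the derivative of `s ↦ Φ_k(w, s u_k(w))`, it is
`K`-Lipschitz at `0` and has the derivative `b k w = u_kᵀ A_k u_k` at `0`. -/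
theorem bl_var_c2 [NeZero μ] (hμ : PL E μ) {U0 : E → ℝ} (hU0 : ConvexOn ℝ univ U0) {D : κ → ℝ}
    (hD : ∀ k, 0 ≤ D k) {Φ : κ → E → F → ℝ}
    (hΦ : ∀ k, ConvexOn ℝ univ fun p : E × F => Φ k p.1 p.2) {m u : κ → E → F}
    (hm : ∀ k w v, Φ k w 0 + ⟪m k w, v⟫ ≤ Φ k w v) {f : κ → E → ℝ}
    (hf : ∀ k y z, f k y + ⟪m k z - m k y, u k y⟫ ≤ f k z)
    (hPm : Measurable (pot U0 D Φ)) (hP : Integrable (fun w => Real.exp (-pot U0 D Φ w)) μ)
    (hfm : Measurable fun w => ∑ k, D k * f k w) {C : ℝ} (hC : ∀ w, |∑ k, D k * f k w| ≤ C)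
    (hRm : ∀ e, Measurable (rem D Φ m u e)) {g' : κ → E → ℝ → ℝ}
    (hg : ∀ k w s, HasDerivAt (fun s : ℝ => Φ k w (s • u k w)) (g' k w s) s)
    (hg0 : ∀ k w, g' k w 0 = ⟪m k w, u k w⟫) {K : ℝ} (hK0 : 0 ≤ K)
    (hK : ∀ k w s, s ≤ 0 → g' k w 0 - g' k w s ≤ K * (-s)) {b : κ → E → ℝ}
    (hb : ∀ k w, HasDerivAt (g' k w) (b k w) 0) :
    ∫ w, (∑ k, D k * f k w - ∫ w', ∑ k, D k * f k w' ∂(μ.tilted fun w => -pot U0 D Φ w)) ^ 2
        ∂(μ.tilted fun w => -pot U0 D Φ w) ≤
      ∫ w, ∑ k, D k * b k w ∂(μ.tilted fun w => -pot U0 D Φ w) := by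
  refine bl_var hμ hU0 hD hΦ hm hf hPm hP hfm hC hRm (K := ∑ k, D k * K) (fun e he w => ?_)
    fun w => ?_
  · rw [rem, Finset.sum_mul]
    refine Finset.sum_le_sum fun k _ => ?_
    rw [mul_assoc]
    refine mul_le_mul_of_nonneg_left ?_ (hD k)
    have := taylor_bd (hg k w) hK0 (hK k w) he
    simpa only [neg_smul, zero_smul, hg0] using this
  · simp only [rem, Finset.sum_div]
    refine tendsto_finsetSum _ fun k _ => ?_
    have := (taylor2 (hg k w) (hb k w)).const_mul (D k)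
    simpa only [neg_smul, zero_smul, hg0, mul_div_assoc] using this

end Main

end Crest.Agent.T156.Mor
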