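import Crest.Agent.T156.CaLc_44
import Crest.Agent.T156.CaConc_68
import Crest.Agent.T156.Mor_41

/-!
# Row 156: soft synchronisation, Brascamp–Lieb part

Under the path law of a symmetric cascade, `∑ dm_j f_j` has variance at most
`∑ dm_j E u_jᵀ A_j u_j` for convex functions `f_j` of the node laws with gradients `u_j`.
-/

set_option autoImplicit false
set_option linter.unusedSectionVars false

noncomputable section

namespace Crest.Agent.T156.Cas.Sy41

open MeasureTheory Real Set Filter Topology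
open Crest.Agent.T157.E Crest.Agent.T157.Casc Crest.Agent.T157.SL
open scoped RealInnerProductSpace

section lc
variable {ι : Type} [Fintype ι] {U f : (ι → ℝ) → ℝ}

theorem lE_tilt (U f : (ι → ℝ) → ℝ) : lE U f = ∫ g, f g ∂((gv ι).tilted fun g => -U g) := by
  rw [integral_tilted, lE, ← integral_div]
  refine integral_congr_ae (.of_forall fun g => ?_)
  simp only [smul_eq_mul]; ring

theorem eg_expU (hU : Lg U) : Eg fun g => exp (-U g) := by simpa using hU.exp (-1)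

theorem lC_eq (hU : Lg U) (hf : Measurable f) {C : ℝ} (hC : ∀ g, |f g| ≤ C) :
    lC U f f = ∫ g, (f g - ∫ g', f g' ∂((gv ι).tilted fun g => -U g)) ^ 2
      ∂((gv ι).tilted fun g => -U g) := by
  have : IsProbabilityMeasure ((gv ι).tilted fun g => -U g) :=
    isProbabilityMeasure_tilted (Eg.int68 (eg_expU hU))
  have i1 := Mor.int_bdd (ν := (gv ι).tilted fun g => -U g) hf hC
  have i2 : Integrable (fun g => f g * f g) ((gv ι).tilted fun g => -U g) :=
    Mor.int_bdd (hf.mul hf) (C := C * C) fun g => by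
      rw [abs_mul]; exact mul_self_le_mul_self (abs_nonneg _) (hC g)
  rw [lC, lE_tilt, lE_tilt]
  set c := ∫ g', f g' ∂((gv ι).tilted fun g => -U g) with hc
  have e : ∀ g, (f g - c) ^ 2 = f g * f g - 2 * c * f g + c ^ 2 := fun g => by ring
  simp only [e]
  have i3 : Integrable (fun g => f g * f g - 2 * c * f g) ((gv ι).tilted fun g => -U g) :=
    i2.sub (i1.const_mul _)
  rw [integral_add i3 (integrable_const _), integral_sub i2 (i1.const_mul _),
    integral_const_mul, integral_const, ← hc]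
  simp only [probReal_univ, smul_eq_mul]; ring

theorem lE_sum (hU : Lg U) {κ : Type*} (s : Finset κ) (c : κ → ℝ) {Φ : κ → (ι → ℝ) → ℝ}
    (h : ∀ k, Eg (Φ k)) : lE U (fun g => ∑ k ∈ s, c k * Φ k g) = ∑ k ∈ s, c k * lE U (Φ k) := by
  simp only [lE, Finset.mul_sum, mul_left_comm _ (c _)]
  rw [integral_finsetSum _ fun k _ => (Eg.int68 ((eg_expU hU).mul (h k))).const_mul _,
    Finset.sum_div]
  simp only [integral_const_mul, mul_div_assoc]

end lc

variable {Ω : Type} [Fintype Ω] {w : Ω → ℝ}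

theorem eg_Pf (hw : Wt w) (L : List (Lv Ω)) {u : (Ω → ℝ) → Ω → ℝ} (hu : ∀ x, Eg fun z => u z x) :
    Eg fun z => Pf w L z (u z) := Eg.sum _ fun x _ => (eg_P hw L x).mul (hu x)

theorem eg_Hb (hw : Wt w) (L : List (Lv Ω)) {u u' : (Ω → ℝ) → Ω → ℝ} (hu : ∀ x, Eg fun z => u z x)
    (hu' : ∀ x, Eg fun z => u' z x) : Eg fun z => Hb w L z (u z) (u' z) :=
  Eg.sum _ fun x _ => Eg.sum _ fun y _ => ((hu x).mul (hu' y)).mul (eg_Hs hw L x y)

theorem eg_Cb (hw : Wt w) (L : List (Lv Ω)) {u u' : (Ω → ℝ) → Ω → ℝ} (hu : ∀ x, Eg fun z => u z x)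
    (hu' : ∀ x, Eg fun z => u' z x) : Eg fun z => Cb w L z (u z) (u' z) :=
  (eg_Pf hw L fun x => (hu x).mul (hu' x)).sub ((eg_Pf hw L hu).mul (eg_Pf hw L hu'))

theorem der_Pf (hw : Wt w) (L : List (Lv Ω)) (z f : Ω → ℝ) :
    HasDerivAt (fun s : ℝ => ∑ x, P w L (z + s • f) x * f x) (Hb w L z f f) 0 := by
  have := (Gr.sum Finset.univ fun x _ => (gr_P hw L x).const_mul (f x)).line z f 0
  simp only [zero_smul, add_zero, mul_comm (f _) (P w L _ _)] at this
  refine this.congr_deriv ?_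
  simp only [Hb, Finset.sum_mul]
  exact Finset.sum_comm.trans (Finset.sum_congr rfl fun x _ => Finset.sum_congr rfl fun y _ => by
    ring)

omit [Fintype Ω] in
theorem st_aff (L : List (Lv Ω)) (j : ℕ) (h : Ω → ℝ) {a b : ℝ} (hab : a + b = 1)
    (g g' : NI L → ℝ) : st L j h (a • g + b • g') = a • st L j h g + b • st L j h g' := by
  rw [← st_lin, ← add_smul, hab, one_smul]

/-- **Brascamp–Lieb under the planted law of one leaf** -/
theorem sync_lE (hPe : PeStmt) (hw : Wt w) {L : List (Lv Ω)} (hL : Mono 0 L) (h : Ω → ℝ) (x₀ : Ω)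
    {f : ℕ → (Ω → ℝ) → ℝ} {u : ℕ → (Ω → ℝ) → Ω → ℝ}
    (hf : ∀ j z z', f j z + ∑ x, (P w (L.drop j) z' x - P w (L.drop j) z x) * u j z x ≤ f j z')
    (hfc : ∀ j, Continuous (f j)) (huc : ∀ j x, Continuous fun z => u j z x) {C M : ℝ}
    (hC : ∀ j z, |f j z| ≤ C) (hM : ∀ j z x, u j z x ^ 2 ≤ M) :
    lC (U w L h x₀)
      (fun g => ∑ j ∈ Finset.range L.length, dm L 0 (j + 1) * f (j + 1) (st L (j + 1) h g))
      (fun g => ∑ j ∈ Finset.range L.length, dm L 0 (j + 1) * f (j + 1) (st L (j + 1) h g)) ≤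
    lE (U w L h x₀) fun g => ∑ j ∈ Finset.range L.length, dm L 0 (j + 1) *
      Hb w (L.drop (j + 1)) (st L (j + 1) h g) (u (j + 1) (st L (j + 1) h g))
        (u (j + 1) (st L (j + 1) h g)) := by
  obtain ⟨lU, eS, -⟩ := hPe Ω w hw
  have cS : ∀ j, Continuous fun g : NI L → ℝ => st L j h g := fun j =>
    continuous_pi fun x => (eS L h j _ (Eg.coord x)).cont
  have nn : ∀ j, ∀ l ∈ L.drop j, 0 ≤ l.m := fun j l hl =>
    hL.nn le_rfl l (List.mem_of_mem_drop hl)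
  have mo : ∀ (j : ℕ) {L : List (Lv Ω)}, Mono 0 L → Mono 0 (L.drop j) := fun j => by
    induction j with
    | zero => exact fun h => h
    | succ j ih =>
      intro L hL
      cases L with
      | nil => exact hL
      | cons l L => exact ih (mono_le hL.1 hL.2)
  set D : Fin L.length → ℝ := fun k => dm L 0 (k + 1) with hD
  set Φ : Fin L.length → (NI L → ℝ) → EuclideanSpace ℝ Ω → ℝ :=
    fun k g v => X w (L.drop (k + 1)) (st L (k + 1) h g + v.ofLp) with hΦ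
  set m : Fin L.length → (NI L → ℝ) → EuclideanSpace ℝ Ω :=
    fun k g => WithLp.toLp 2 (P w (L.drop (k + 1)) (st L (k + 1) h g)) with hm
  set u' : Fin L.length → (NI L → ℝ) → EuclideanSpace ℝ Ω :=
    fun k g => WithLp.toLp 2 (u (k + 1) (st L (k + 1) h g)) with hu'
  have inn : ∀ a b : EuclideanSpace ℝ Ω, ⟪a, b⟫ = ∑ x, a.ofLp x * b.ofLp x := fun a b => by
    simp [PiLp.inner_apply, mul_comm]
  have hpot : Mor.pot (fun g => -st L L.length h g x₀) D Φ = U w L h x₀ := by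
    funext g
    simp only [Mor.pot, U, Ph, hD, hΦ, WithLp.ofLp_zero, add_zero]
    rw [Finset.sum_range]; ring
  have hrem : ∀ e g, Mor.rem D Φ m u' e g = ∑ k : Fin L.length, D k *
      (X w (L.drop (k + 1)) (st L (k + 1) h g + (-e) • u (k + 1) (st L (k + 1) h g)) -
        X w (L.drop (k + 1)) (st L (k + 1) h g) + e * ∑ x,
          P w (L.drop (k + 1)) (st L (k + 1) h g) x * u (k + 1) (st L (k + 1) h g) x) := by
    intro e g
    simp only [Mor.rem, hΦ, hm, hu', inn, WithLp.ofLp_zero, add_zero, neg_smul]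
    rfl
  have hD0 : ∀ k, 0 ≤ D k := fun k => dm_nonneg hL _
  have cF : Continuous fun g : NI L → ℝ =>
      ∑ k : Fin L.length, D k * f (k + 1) (st L (k + 1) h g) :=
    continuous_finsetSum _ fun k _ => continuous_const.mul ((hfc _).comp (cS _))
  have bF : ∀ g : NI L → ℝ, |∑ k : Fin L.length, D k * f (k + 1) (st L (k + 1) h g)| ≤
      ∑ k, D k * C := fun g => (Finset.abs_sum_le_sum_abs _ _).trans <|
    Finset.sum_le_sum fun k _ => by
      rw [abs_mul, abs_of_nonneg (hD0 k)]; exact mul_le_mul_of_nonneg_left (hC _ _) (hD0 k)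
  have key := Mor.bl_var (μ := gv (NI L)) (Soft.lc_PL_pi _) (U0 := fun g => -st L L.length h g x₀)
    ?_ hD0 (Φ := Φ) ?_ (m := m) (u := u') ?_ (f := fun k g => f (k + 1) (st L (k + 1) h g)) ?_
    (by rw [hpot]; exact (lU L h x₀).eg.cont.measurable)
    (by rw [hpot]; exact Eg.int68 (eg_expU (lU L h x₀))) cF.measurable bF ?_
    (K := ∑ k, D k * M) ?_ (b := fun g => ∑ k : Fin L.length, D k *
      Hb w (L.drop (k + 1)) (st L (k + 1) h g) (u (k + 1) (st L (k + 1) h g))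
        (u (k + 1) (st L (k + 1) h g))) ?_
  · rw [hpot] at key
    simp only [Finset.sum_range]
    rw [lC_eq (lU L h x₀) cF.measurable bF, lE_tilt]
    exact key
  · refine ⟨convex_univ, fun g _ g' _ a b _ _ hab => le_of_eq ?_⟩
    simp only [st_aff L _ h hab, Pi.add_apply, Pi.smul_apply, smul_eq_mul]; ring
  · refine fun k => ⟨convex_univ, fun p _ p' _ a b ha hb hab => ?_⟩
    refine le_trans (le_of_eq ?_) ((convexOn_X hw (nn (k + 1))).2 (mem_univ _) (mem_univ _) ha hb hab)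
    simp only [hΦ, Prod.fst_add, Prod.smul_fst, Prod.snd_add, Prod.smul_snd, st_aff L _ h hab,
      WithLp.ofLp_add, WithLp.ofLp_smul, smul_add]
    congr 1; abel
  · intro k g v
    simpa only [hΦ, hm, inn, WithLp.ofLp_zero, add_zero] using X_add_ge hw _ (nn (k + 1)) _ v.ofLp
  · intro k g g'
    simpa only [hm, hu', inn, WithLp.ofLp_sub, Pi.sub_apply] using hf (k + 1) _ _
  · intro e
    rw [funext (hrem e)]
    refine Continuous.measurable (continuous_finsetSum _ fun k _ => continuous_const.mul ?_)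
    have c1 := (lg_X hw (L.drop (k + 1))).eg.cont
    have c2 : Continuous fun g : NI L → ℝ => u (k + 1) (st L (k + 1) h g) :=
      continuous_pi fun x => (huc _ x).comp (cS _)
    refine ((c1.comp ((cS _).add (c2.const_smul (-e)))).sub (c1.comp (cS _))).add
      (continuous_const.mul (continuous_finsetSum _ fun x _ =>
        ((eg_P hw _ x).cont.comp (cS _)).mul ((huc _ x).comp (cS _))))
  · intro e _ g
    rw [hrem, Finset.sum_mul]
    refine Finset.sum_le_sum fun k _ => ?_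
    rw [mul_assoc]
    refine mul_le_mul_of_nonneg_left ?_ (hD0 k)
    have := X_add_le_sq hw (mo (k + 1) hL) (st L (k + 1) h g)
      (f := (-e) • u (k + 1) (st L (k + 1) h g)) (M := M * e ^ 2) fun x _ => by
        have := hM (k + 1) (st L (k + 1) h g) x
        simp only [Pi.smul_apply, smul_eq_mul, mul_pow, neg_sq]
        nlinarith [sq_nonneg e]
    simp only [Pi.smul_apply, smul_eq_mul, mul_left_comm _ (-e), ← Finset.mul_sum] at this
    linarith
  · intro g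
    simp only [hrem, Finset.sum_div]
    refine tendsto_finsetSum _ fun k _ => ?_
    have := (Mor.taylor2 ((gr_X hw (L.drop (k + 1))).line (st L (k + 1) h g)
      (u (k + 1) (st L (k + 1) h g))) (der_Pf hw _ _ _)).const_mul (D k)
    simpa only [zero_smul, add_zero, mul_div_assoc] using this

/-- a sum of functions of the nodes -/
def nsum (L : List (Lv Ω)) (h : Ω → ℝ) (c : ℕ → ℝ) (f : ℕ → (Ω → ℝ) → ℝ) (g : NI L → ℝ) : ℝ :=
  ∑ j ∈ Finset.range L.length, c (j + 1) * f (j + 1) (st L (j + 1) h g)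

theorem eg_nsum (hPe : PeStmt) (hw : Wt w) (L : List (Lv Ω)) (h : Ω → ℝ) (c : ℕ → ℝ)
    {f : ℕ → (Ω → ℝ) → ℝ} (hf : ∀ j, Eg (f j)) : Eg (nsum L h c f) :=
  Eg.sum _ fun j _ => ((hPe Ω w hw).2.1 L h _ _ (hf (j + 1))).const_mul _

theorem pE_st (hPe : PeStmt) (hw : Wt w) (L : List (Lv Ω)) (h : Ω → ℝ) (j : ℕ)
    {Φ : (Ω → ℝ) → ℝ} (hΦ : Eg Φ) : pE w L h (fun g _ => Φ (st L j h g)) = node w L j Φ h := by
  rw [(hPe Ω w hw).2.2.2.2.2.1 L h j (fun _ => Φ) fun _ => hΦ]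
  simp only [← Finset.sum_mul, sum_P hw, one_mul]

theorem pE_sum (hPe : PeStmt) (hw : Wt w) (L : List (Lv Ω)) (h : Ω → ℝ) {κ : Type*} (s : Finset κ)
    (c : κ → ℝ) {Φ : κ → (NI L → ℝ) → ℝ} (hΦ : ∀ k, Eg (Φ k)) :
    pE w L h (fun g _ => ∑ k ∈ s, c k * Φ k g) = ∑ k ∈ s, c k * pE w L h fun g _ => Φ k g := by
  obtain ⟨lU, -, dis, -⟩ := hPe Ω w hw
  rw [dis L h _ fun _ => Eg.sum s fun k _ => (hΦ k).const_mul _]
  simp only [lE_sum (lU L h _) s c hΦ, dis L h _ fun _ => hΦ _, Finset.mul_sum]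
  exact Finset.sum_comm.trans (Finset.sum_congr rfl fun x _ => Finset.sum_congr rfl fun y _ => by
    ring)

theorem pE_nsum (hPe : PeStmt) (hw : Wt w) (L : List (Lv Ω)) (h : Ω → ℝ) (c : ℕ → ℝ)
    {f : ℕ → (Ω → ℝ) → ℝ} (hf : ∀ j, Eg (f j)) : pE w L h (fun g _ => nsum L h c f g) =
      ∑ j ∈ Finset.range L.length, c (j + 1) * node w L (j + 1) (f (j + 1)) h := by
  simp only [nsum]
  rw [pE_sum hPe hw L h _ (fun j => c (j + 1)) fun j => (hPe Ω w hw).2.1 L h _ _ (hf (j + 1))]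
  simp only [pE_st hPe hw L h _ (hf _)]

/-- **Brascamp–Lieb under the path law** -/
theorem sync (hPe : PeStmt) (hSy : SymStmt) (hPl : PlantStmt) (hw : Wt w) {L : List (Lv Ω)}
    (hL : Mono 0 L) (h : Ω → ℝ) {T : Set (Equiv.Perm Ω)} (hT : ∀ τ ∈ T, Sym w L h τ)
    (htr : ∀ x y, w x ≠ 0 → w y ≠ 0 → ∃ τ ∈ T, τ x = y)
    {f : ℕ → (Ω → ℝ) → ℝ} {u : ℕ → (Ω → ℝ) → Ω → ℝ}
    (hf : ∀ j z z', f j z + ∑ x, (P w (L.drop j) z' x - P w (L.drop j) z x) * u j z x ≤ f j z')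
    (hfc : ∀ j, Continuous (f j)) (huc : ∀ j x, Continuous fun z => u j z x) {C M : ℝ}
    (hC : ∀ j z, |f j z| ≤ C) (hM : ∀ j z x, u j z x ^ 2 ≤ M)
    (hinv : ∀ τ ∈ T, ∀ j z, f j (fun y => z (τ.symm y)) = f j z) :
    pE w L h (fun g _ => nsum L h (dm L 0) f g ^ 2) - pE w L h (fun g _ => nsum L h (dm L 0) f g) ^ 2
      ≤ ∑ j ∈ Finset.range L.length, dm L 0 (j + 1) * node w L (j + 1)
        (fun z => Hb w (L.drop (j + 1)) z (u (j + 1) z) (u (j + 1) z)) h := by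
  have ef : ∀ j, Eg (f j) := fun j => Eg.of_bdd (hfc j) C (hC j)
  have eu : ∀ j x, Eg fun z => u j z x := fun j x =>
    Eg.of_bdd (huc j x) √M fun z => abs_le_sqrt (hM j z x)
  have eB : ∀ j, Eg fun z => Hb w (L.drop j) z (u j z) (u j z) := fun j => eg_Hb hw _ (eu j) (eu j)
  have eF := eg_nsum hPe hw L h (dm L 0) ef
  rw [← pE_nsum hPe hw L h (dm L 0) eB]
  obtain ⟨-, -, dis, -⟩ := hPe Ω w hw
  set c := pE w L h fun g _ => nsum L h (dm L 0) f g with hc
  have pl : ∀ x, w x ≠ 0 → c = lE (U w L h x) (nsum L h (dm L 0) f) := fun x hx =>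
    hPl hPe hSy Ω w hw L h T x hT (fun y hy => htr x y hx hy)
      (fun p => ∑ j ∈ Finset.range L.length, dm L 0 (j + 1) * f (j + 1) (p (j + 1)))
      (Finset.measurable_sum _ fun j _ => ((hfc _).measurable.comp (measurable_pi_apply _)).const_mul _)
      eF fun τ hτ p => by simp only [hinv τ hτ]
  have e1 : c ^ 2 = ∑ x, P w L h x * c ^ 2 := by rw [← Finset.sum_mul, sum_P hw, one_mul]
  rw [e1, dis L h _ fun _ => eF.pow 2, dis L h _ fun _ => eg_nsum hPe hw L h _ eB,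
    ← Finset.sum_sub_distrib]
  refine Finset.sum_le_sum fun x _ => ?_
  by_cases hx : w x = 0
  · simp [P_eq_zero hx]
  rw [← mul_sub]
  refine mul_le_mul_of_nonneg_left ?_ (P_nonneg hw L h x)
  have := sync_lE hPe hw hL h x hf hfc huc hC hM
  rw [pl x hx]
  simp only [sq]
  exact this

/-! ### overlaps -/

/-- the mean of the features of `l₀` at a node -/
def mv (w : Ω → ℝ) (L : List (Lv Ω)) (l₀ : Lv Ω) (z : Ω → ℝ) (i : l₀.ι) : ℝ :=
  Pf w L z fun x => l₀.A x i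

/-- its squared length, the conditional mean overlap of two replicas split at the node -/
def rr (w : Ω → ℝ) (L : List (Lv Ω)) (l₀ : Lv Ω) (z : Ω → ℝ) : ℝ := ∑ i, mv w L l₀ z i ^ 2

/-- `mᵀ A m` -/
def mAm (w : Ω → ℝ) (L : List (Lv Ω)) (l₀ : Lv Ω) (z : Ω → ℝ) : ℝ :=
  Hb w L z (l₀.fld (mv w L l₀ z)) (l₀.fld (mv w L l₀ z))

theorem rr_eq (L : List (Lv Ω)) (l₀ : Lv Ω) (z : Ω → ℝ) : rr w L l₀ z = qf (P w L z) l₀.cov := by
  have := qf_sum Finset.univ (P w L z) fun i x y => l₀.A x i * l₀.A y i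
  simp only [qf_mul] at this
  simp only [rr, mv, Pf, sq]
  exact this.symm

theorem Pf_fld (L : List (Lv Ω)) (l₀ : Lv Ω) (z : Ω → ℝ) (v : l₀.ι → ℝ) :
    Pf w L z (l₀.fld v) = ∑ i, mv w L l₀ z i * v i := by
  simp only [Pf, mv, Lv.fld, Finset.mul_sum, Finset.sum_mul]
  exact Finset.sum_comm.trans (Finset.sum_congr rfl fun x _ => Finset.sum_congr rfl fun y _ => by
    ring)

theorem eg_mv (hw : Wt w) (L : List (Lv Ω)) (l₀ : Lv Ω) (i : l₀.ι) : Eg fun z => mv w L l₀ z i :=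
  eg_Pf hw L fun _ => Eg.const _

theorem eg_rr (hw : Wt w) (L : List (Lv Ω)) (l₀ : Lv Ω) : Eg (rr w L l₀) :=
  Eg.sum _ fun i _ => (eg_mv hw L l₀ i).pow 2

omit [Fintype Ω] in
theorem eg_fld [Fintype Ω] (l₀ : Lv Ω) {v : (Ω → ℝ) → l₀.ι → ℝ} (hv : ∀ i, Eg fun z => v z i) (x : Ω) :
    Eg fun z => l₀.fld (v z) x := Eg.sum _ fun i _ => (hv i).const_mul _

theorem eg_mAm (hw : Wt w) (L : List (Lv Ω)) (l₀ : Lv Ω) : Eg (mAm w L l₀) :=
  eg_Hb hw L (eg_fld l₀ (eg_mv hw L l₀)) (eg_fld l₀ (eg_mv hw L l₀))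

theorem abs_mv_le (hw : Wt w) (L : List (Lv Ω)) (l₀ : Lv Ω) (z : Ω → ℝ) (i : l₀.ι) :
    |mv w L l₀ z i| ≤ ∑ x, |l₀.A x i| :=
  (Finset.abs_sum_le_sum_abs _ _).trans (Finset.sum_le_sum fun x _ => by
    rw [abs_mul, abs_of_nonneg (P_nonneg hw L z x)]
    exact mul_le_of_le_one_left (abs_nonneg _) (P_le_one hw L z x))

theorem Hb_smul (L : List (Lv Ω)) (z f : Ω → ℝ) (c : ℝ) :
    Hb w L z (fun x => c * f x) (fun x => c * f x) = c ^ 2 * Hb w L z f f := by
  simp only [Hb, Finset.mul_sum]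
  exact Finset.sum_congr rfl fun x _ => Finset.sum_congr rfl fun y _ => by ring

/-- **window variance** (41 #6985 (1)): `Var (∑ dm φ r) ≤ 4 ∑ dm φ² E mᵀ A m` -/
theorem sync_ov (hPe : PeStmt) (hSy : SymStmt) (hPl : PlantStmt) (hw : Wt w) {L : List (Lv Ω)}
    (hL : Mono 0 L) (h : Ω → ℝ) {T : Set (Equiv.Perm Ω)} (hT : ∀ τ ∈ T, Sym w L h τ)
    (htr : ∀ x y, w x ≠ 0 → w y ≠ 0 → ∃ τ ∈ T, τ x = y) (l₀ : Lv Ω)
    (h₀ : ∀ τ ∈ T, ∀ x y, l₀.cov (τ x) (τ y) = l₀.cov x y) {φ : ℕ → ℝ} {b : ℝ}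
    (hφ : ∀ j, 0 ≤ φ j ∧ φ j ≤ b) :
    pE w L h (fun g _ => nsum L h (fun j => dm L 0 j * φ j) (fun j => rr w (L.drop j) l₀) g ^ 2) -
      pE w L h (fun g _ => nsum L h (fun j => dm L 0 j * φ j) (fun j => rr w (L.drop j) l₀) g) ^ 2
      ≤ 4 * ∑ j ∈ Finset.range L.length, dm L 0 (j + 1) * φ (j + 1) ^ 2 *
        node w L (j + 1) (mAm w (L.drop (j + 1)) l₀) h := by
  have hb : 0 ≤ b := (hφ 0).1.trans (hφ 0).2
  have key := sync hPe hSy hPl hw hL h hT htr (f := fun j z => φ j * rr w (L.drop j) l₀ z)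
    (u := fun j z x => 2 * φ j * l₀.fld (mv w (L.drop j) l₀ z) x) ?_
    (fun j => ((eg_rr hw _ l₀).const_mul _).cont)
    (fun j x => ((eg_fld l₀ (eg_mv hw _ l₀) x).const_mul _).cont)
    (C := b * ∑ i, (∑ x, |l₀.A x i|) ^ 2)
    (M := (2 * b * ∑ i, (∑ x, |l₀.A x i|) * ∑ x, |l₀.A x i|) ^ 2) ?_ ?_ ?_
  · simp only [nsum, mul_assoc, Hb_smul] at key ⊢
    refine key.trans (le_of_eq ?_)
    rw [Finset.mul_sum]
    refine Finset.sum_congr rfl fun j _ => ?_
    rw [node_const_mul, node_const_mul]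
    unfold mAm
    ring
  · intro j z z'
    have e : ∑ x, (P w (L.drop j) z' x - P w (L.drop j) z x) *
        (2 * φ j * l₀.fld (mv w (L.drop j) l₀ z) x) = 2 * φ j *
        ∑ i, (mv w (L.drop j) l₀ z' i - mv w (L.drop j) l₀ z i) * mv w (L.drop j) l₀ z i := by
      simp only [sub_mul, Finset.sum_sub_distrib, ← Pf_fld, Pf, mul_left_comm _ (2 * φ j),
        ← Finset.mul_sum, mul_sub]
    rw [e, rr, rr, mul_comm 2, mul_assoc, ← mul_add, Finset.mul_sum _ _ 2, ← Finset.sum_add_distrib]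
    refine mul_le_mul_of_nonneg_left (Finset.sum_le_sum fun i _ => ?_) (hφ j).1
    nlinarith [sq_nonneg (mv w (L.drop j) l₀ z' i - mv w (L.drop j) l₀ z i)]
  · intro j z
    rw [abs_mul, abs_of_nonneg (hφ j).1, abs_of_nonneg (Finset.sum_nonneg fun i _ => sq_nonneg _)]
    refine mul_le_mul (hφ j).2 (Finset.sum_le_sum fun i _ => ?_)
      (Finset.sum_nonneg fun i _ => sq_nonneg _) hb
    exact sq_le_sq' (abs_le.1 (abs_mv_le hw _ l₀ z i)).1 (abs_le.1 (abs_mv_le hw _ l₀ z i)).2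
  · intro j z x
    refine sq_le_sq' (abs_le.1 ?_).1 (abs_le.1 ?_).2 <;>
    · rw [abs_mul, abs_of_nonneg (mul_nonneg zero_le_two (hφ j).1)]
      refine mul_le_mul (by linarith [(hφ j).2]) ((Finset.abs_sum_le_sum_abs _ _).trans
        (Finset.sum_le_sum fun i _ => ?_)) (abs_nonneg _) (by positivity)
      rw [abs_mul]
      exact mul_le_mul (Finset.single_le_sum (f := fun x => |l₀.A x i|) (fun _ _ => abs_nonneg _)
        (Finset.mem_univ x)) (abs_mv_le hw _ l₀ z i) (abs_nonneg _) (by positivity)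
  · intro τ hτ j z
    rw [rr_eq, rr_eq]
    congr 1
    have e := fun x => (hSy Ω w hw L h τ (hT τ hτ)).2.1 j (fun y => z (τ.symm y)) x
    simp only [Equiv.symm_apply_apply] at e
    simp only [qf, e]
    rw [← Equiv.sum_comp τ]
    refine Finset.sum_congr rfl fun x _ => ?_
    rw [← Equiv.sum_comp τ]
    simp only [h₀ τ hτ]

end Crest.Agent.T156.Cas.Sy41

end
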