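import Crest.Agent.T156.CaIso_87

/-!
# Row 156: split matrices and their exchangeable law (helper87)

`Ws` is the shape-free (edge) form of the node weights, `gr` grafts a new replica (index `0`) on a
split matrix, `avm M r` is the law of the split matrix of `r + 1` replicas.
-/

set_option autoImplicit false
set_option linter.unusedSectionVars false

noncomputable section

namespace Crest.Agent.T156.Cas

open MeasureTheory Real Set Filter Topology
open Crest.Agent.T157.E Crest.Agent.T157.Casc Crest.Agent.T157.SL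
open Wt87

variable {Ω : Type}

/-- the size of the class of `a` at depth `j` -/
def cls {κ : Type} [Fintype κ] (σ : κ → κ → ℕ) (a : κ) (j : ℕ) : ℕ :=
  (Finset.univ.filter fun b => j ≤ σ a b).card

/-- the node weights in edge form, for a split matrix -/
def Ws {κ : Type} [Fintype κ] (L : List (Lv Ω)) (σ : κ → κ → ℕ) (G : κ → ℕ → ℝ) : ℝ :=
  ∑ a, G a L.length +
    ∑ j ∈ Finset.range L.length, ex L j * ∑ a, (G a j - G a (j + 1)) / cls σ a (j + 1)

/-- split matrices of `r` replicas -/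
abbrev SM (r : ℕ) : Type := Fin r → Fin r → ℕ

/-- a new replica (index `0`) grafted on the path of `a` after `j` levels -/
def gr {r : ℕ} (K : ℕ) (σ : SM r) (a : Fin r) (j : ℕ) : SM (r + 1) :=
  Fin.cons (Fin.cons K fun b => min j (σ b a)) fun b => Fin.cons (min j (σ b a)) (σ b)

/-- the split matrix of labelled leaves -/
def sm {κ : Type} (s : Sh) (e : κ → s.Lf) (K : ℕ) : κ → κ → ℕ := fun a b => s.shr (e a) (e b) K

/-- the law of the split matrix of `r + 1` replicas -/
def avm (L : List (Lv Ω)) : (r : ℕ) → (SM (r + 1) → ℝ) → ℝ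
  | 0, φ => φ fun _ _ => L.length
  | r + 1, φ => avm L r fun σ => Ws L σ (fun a j => φ (gr L.length σ a j)) / (r + 1)

namespace Nu87

/-- split matrices of trees -/
def Rz {r : ℕ} (K : ℕ) (σ : SM r) : Prop :=
  ∃ (s : Sh) (e : Fin r ≃ s.Lf), σ = sm s e K

section ws
variable {κ κ' : Type} [Fintype κ] [Fintype κ']

theorem Ws_equiv (L : List (Lv Ω)) (e : κ ≃ κ') (σ : κ' → κ' → ℕ) (G : κ' → ℕ → ℝ) :
    Ws L σ G = Ws L (fun a b => σ (e a) (e b)) fun a => G (e a) := by
  have hc : ∀ a j, cls (fun a b => σ (e a) (e b)) a j = cls σ (e a) j := fun a j =>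
    Finset.card_equiv e (by simp)
  simp only [Ws, hc]
  rw [← e.sum_comp]
  congr 1
  exact Finset.sum_congr rfl fun j _ => by rw [← e.sum_comp]

theorem Ws_cons (l : Lv Ω) (L : List (Lv Ω)) (σ : κ → κ → ℕ) {G : κ → ℕ → ℝ} (a₀ : κ)
    (h0 : ∀ a, G a 0 = G a₀ 0) (h1 : ∀ a, G a 1 = G a₀ 1) :
    Ws (l :: L) (fun a b => σ a b + 1) G =
      Ws L σ (fun a j => G a (j + 1)) + l.m * (G a₀ 0 - G a₀ 1) := by
  have hc : ∀ a j, cls (fun a b => σ a b + 1) a (j + 1) = cls σ a j := fun a j => by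
    simp only [cls, Nat.add_le_add_iff_right]
  have hc0 : ∀ a, cls σ a 0 = Fintype.card κ := fun a => by simp [cls]
  have hk : (Fintype.card κ : ℝ) ≠ 0 := by
    have : Nonempty κ := ⟨a₀⟩
    exact_mod_cast Fintype.card_ne_zero
  simp only [Ws, List.length_cons, Finset.sum_range_succ' _ L.length, hc, hc0, ex_cons_succ,
    zero_add, h0, h1, Finset.sum_const, Finset.card_univ, nsmul_eq_mul]
  rw [mul_div_cancel₀ _ hk, add_assoc]
  rfl

theorem Ws_sum (L : List (Lv Ω)) (σ : κ ⊕ κ' → κ ⊕ κ' → ℕ) (G : κ ⊕ κ' → ℕ → ℝ)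
    (h : ∀ a b, σ (.inl a) (.inr b) = 0) (h' : ∀ a b, σ (.inr b) (.inl a) = 0) :
    Ws L σ G = Ws L (fun a b => σ (.inl a) (.inl b)) (fun a => G (.inl a)) +
      Ws L (fun a b => σ (.inr a) (.inr b)) fun a => G (.inr a) := by
  have c1 : ∀ a j, cls σ (.inl a) (j + 1) = cls (fun a b => σ (.inl a) (.inl b)) a (j + 1) :=
    fun a j => by simp only [cls, Finset.card_filter, Fintype.sum_sum_type, h]; simp
  have c2 : ∀ a j, cls σ (.inr a) (j + 1) = cls (fun a b => σ (.inr a) (.inr b)) a (j + 1) :=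
    fun a j => by simp only [cls, Finset.card_filter, Fintype.sum_sum_type, h']; simp
  simp only [Ws, Fintype.sum_sum_type, c1, c2, mul_add, Finset.sum_add_distrib]
  ring

theorem Ws_congr (L : List (Lv Ω)) (σ : κ → κ → ℕ) {G G' : κ → ℕ → ℝ}
    (e : ∀ a j, j ≤ L.length → G a j = G' a j) : Ws L σ G = Ws L σ G' := by
  simp only [Ws, e _ _ le_rfl]
  congr 1
  refine Finset.sum_congr rfl fun j hj => ?_
  have := Finset.mem_range.1 hj
  simp only [e _ j this.le, e _ (j + 1) this]

theorem Ws_const (L : List (Lv Ω)) (σ : κ → κ → ℕ) (c : ℝ) :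
    Ws L σ (fun _ _ => c) = Fintype.card κ * c := by simp [Ws]

theorem Ws_add (L : List (Lv Ω)) (σ : κ → κ → ℕ) (G G' : κ → ℕ → ℝ) :
    Ws L σ (fun a j => G a j + G' a j) = Ws L σ G + Ws L σ G' := by
  simp only [Ws, add_sub_add_comm, add_div, mul_add, Finset.sum_add_distrib]
  ring

theorem Ws_mul (L : List (Lv Ω)) (σ : κ → κ → ℕ) (c : ℝ) (G : κ → ℕ → ℝ) :
    Ws L σ (fun a j => c * G a j) = c * Ws L σ G := by
  simp only [Ws, ← mul_sub, mul_div_assoc, mul_add, Finset.mul_sum, mul_left_comm c]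

theorem Ws_div (L : List (Lv Ω)) (σ : κ → κ → ℕ) (c : ℝ) (G : κ → ℕ → ℝ) :
    Ws L σ (fun a j => G a j / c) = Ws L σ G / c := by
  simp only [div_eq_inv_mul (G _ _), Ws_mul, div_eq_inv_mul (Ws L σ G)]

theorem Ws_sub (L : List (Lv Ω)) (σ : κ → κ → ℕ) (G G' : κ → ℕ → ℝ) :
    Ws L σ (fun a j => G a j - G' a j) = Ws L σ G - Ws L σ G' := by
  have := Ws_add L σ G fun a j => -1 * G' a j
  rw [Ws_mul] at this
  simpa only [neg_one_mul, ← sub_eq_add_neg] using this

theorem Ws_fsum (L : List (Lv Ω)) (σ : κ → κ → ℕ) {α : Type*} (A : Finset α)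
    (G : α → κ → ℕ → ℝ) : Ws L σ (fun a j => ∑ i ∈ A, G i a j) = ∑ i ∈ A, Ws L σ (G i) := by
  classical
  induction A using Finset.induction_on with
  | empty => simpa using Ws_const L σ 0
  | insert i A hi ih => simp only [Finset.sum_insert hi, Ws_add, ih]

theorem Ws_comm (L : List (Lv Ω)) (σ : κ → κ → ℕ) (σ' : κ' → κ' → ℕ) (T : κ → ℕ → κ' → ℕ → ℝ) :
    Ws L σ (fun a j => Ws L σ' (T a j)) = Ws L σ' fun b k => Ws L σ fun a j => T a j b k := by
  conv_lhs => simp only [Ws.eq_1 L σ']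
  simp only [Ws_add, Ws_fsum, Ws_mul, Ws_div, Ws_sub]
  rfl

theorem hasDerivAt_Ws (L : List (Lv Ω)) (σ : κ → κ → ℕ) {G : ℝ → κ → ℕ → ℝ} {G' : κ → ℕ → ℝ}
    {u : ℝ} (h : ∀ a j, HasDerivAt (fun t => G t a j) (G' a j) u) :
    HasDerivAt (fun t => Ws L σ (G t)) (Ws L σ G') u :=
  (HasDerivAt.fun_sum fun a _ => h a _).fun_add (HasDerivAt.fun_sum fun j _ =>
    (HasDerivAt.fun_sum fun a _ => ((h a j).fun_sub (h a (j + 1))).div_const _).const_mul _)

theorem continuousOn_Ws (L : List (Lv Ω)) (σ : κ → κ → ℕ) {G : ℝ → κ → ℕ → ℝ} {I : Set ℝ}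
    (h : ∀ a j, ContinuousOn (fun t => G t a j) I) : ContinuousOn (fun t => Ws L σ (G t)) I :=
  (continuousOn_finsetSum _ fun a _ => h a _).add (continuousOn_finsetSum _ fun j _ =>
    continuousOn_const.mul (continuousOn_finsetSum _ fun a _ =>
      ((h a j).sub (h a (j + 1))).div_const _))

end ws

/-- **edge form of the node weights** -/
theorem Wn_eq_Ws : ∀ (L : List (Lv Ω)) (s : Sh) {G : s.Lf → ℕ → ℝ}, NC s G →
    Wn s L G = Ws L (fun a b => s.shr a b L.length) G
  | [], s, G, h => by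
      rw [Wn_nil s fun a => NC.zero h a s.fst]
      simp [Ws, fun a => NC.zero h a s.fst]
  | l :: L, .one, G, _ => (Wn_one_cons l L G).trans
      ((congrArg₂ (· + ·) (Wn_eq_Ws L .one fun _ _ _ _ => rfl) rfl).trans
        (Ws_cons l L _ (G := G) () (fun _ => rfl) fun _ => rfl).symm)
  | l :: L, .step s, G, h => (Wn_step_cons s l L G).trans
      ((congrArg₂ (· + ·) (Wn_eq_Ws L s (NC.step h)) rfl).trans
        (Ws_cons l L _ (G := G) s.fst (fun a => NC.zero h a _)
          fun a => NC.zero (NC.step h) a _).symm)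
  | l :: L, .split s t, G, h => (Wn_split s t _ (NC.zero h _ _)).trans
      ((congrArg₂ (· + ·) (Wn_eq_Ws (l :: L) s (NC.inl h)) (Wn_eq_Ws (l :: L) t (NC.inr h))).trans
        (Ws_sum (l :: L) (fun a b => (Sh.split s t).shr a b (l :: L).length) G (fun _ _ => rfl)
          fun _ _ => rfl).symm)

variable {r K : ℕ}

@[simp] theorem gr_00 (σ : SM r) (a : Fin r) (j : ℕ) : gr K σ a j 0 0 = K := rfl
@[simp] theorem gr_0s (σ : SM r) (a : Fin r) (j : ℕ) (b : Fin r) :
    gr K σ a j 0 b.succ = min j (σ b a) := rfl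
@[simp] theorem gr_s0 (σ : SM r) (a : Fin r) (j : ℕ) (b : Fin r) :
    gr K σ a j b.succ 0 = min j (σ b a) := rfl
@[simp] theorem gr_ss (σ : SM r) (a : Fin r) (j : ℕ) (b c : Fin r) :
    gr K σ a j b.succ c.succ = σ b c := rfl

/-- the labelling of a graft -/
def grE {s : Sh} (e : Fin r ≃ s.Lf) (a : s.Lf) (j : ℕ) : Fin (r + 1) ≃ (s.graft a j).Lf :=
  Equiv.ofBijective (Fin.cons (s.nw a j) fun b => s.emb a j (e b)) (by
    refine (Fintype.bijective_iff_surjective_and_card _).2 ⟨fun c => ?_, ?_⟩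
    · rcases graft_cases s a j c with ⟨b, rfl⟩ | rfl
      · exact ⟨(e.symm b).succ, by simp⟩
      · exact ⟨0, rfl⟩
    · rw [card_graft, ← Fintype.card_congr e]; simp)

theorem grE_zero {s : Sh} (e : Fin r ≃ s.Lf) (a : s.Lf) (j : ℕ) : grE e a j 0 = s.nw a j := rfl

theorem grE_succ {s : Sh} (e : Fin r ≃ s.Lf) (a : s.Lf) (j : ℕ) (b : Fin r) :
    grE e a j b.succ = s.emb a j (e b) := rfl

theorem sm_gr {s : Sh} (e : Fin r ≃ s.Lf) (a : Fin r) (j : ℕ) :
    sm (s.graft (e a) j) (grE e (e a) j) K = gr K (sm s e K) a j := by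
  funext b c
  refine Fin.cases ?_ (fun b => ?_) b <;> refine Fin.cases ?_ (fun c => ?_) c
  · exact shr_self _ _ _
  · exact (shr_nw' s _ j _ K).trans (shr_min s _ _ j K)
  · exact (shr_nw s _ j _ K).trans (shr_min s _ _ j K)
  · exact shr_emb s _ j _ _ K

theorem Rz.gr {σ : SM r} (h : Rz K σ) (a : Fin r) (j : ℕ) : Rz K (gr K σ a j) := by
  obtain ⟨s, e, rfl⟩ := h
  exact ⟨_, grE e (e a) j, (sm_gr e a j).symm⟩

theorem rz_one (K : ℕ) : Rz K (fun _ _ : Fin 1 => K) :=
  ⟨.one, (Equiv.ofUnique (Fin 1) Unit :), rfl⟩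

theorem Rz.perm {σ : SM r} (h : Rz K σ) (μ : Equiv.Perm (Fin r)) :
    Rz K fun a b => σ (μ a) (μ b) := by
  obtain ⟨s, e, rfl⟩ := h
  exact ⟨s, μ.trans e, rfl⟩

theorem Rz.self {σ : SM r} (h : Rz K σ) (a : Fin r) : σ a a = K := by
  obtain ⟨s, e, rfl⟩ := h
  exact shr_self _ _ _

theorem Rz.comm {σ : SM r} (h : Rz K σ) (a b : Fin r) : σ a b = σ b a := by
  obtain ⟨s, e, rfl⟩ := h
  exact shr_comm _ _ _ _

theorem Rz.le {σ : SM r} (h : Rz K σ) (a b : Fin r) : σ a b ≤ K := by
  obtain ⟨s, e, rfl⟩ := h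
  exact shr_le _ _ _ _

theorem Rz.ultra {σ : SM r} (h : Rz K σ) (a b c : Fin r) : min (σ a b) (σ b c) ≤ σ a c := by
  obtain ⟨s, e, rfl⟩ := h
  exact shr_ultra _ _ _ _ _

/-- node consistency for matrices -/
def NCm (σ : SM r) (G : Fin r → ℕ → ℝ) : Prop := ∀ a b j, j ≤ σ a b → G a j = G b j

theorem Rz.gr_eq {σ : SM r} (h : Rz K σ) {a b : Fin r} {j : ℕ} (e : j ≤ σ a b) :
    Cas.gr K σ a j = Cas.gr K σ b j := by
  have : ∀ c, min j (σ c a) = min j (σ c b) := fun c => by
    have h1 := h.ultra c a b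
    have h2 := h.ultra c b a
    rw [h.comm b a] at h2
    omega
  simp only [Cas.gr, this]

theorem Rz.ncm {σ : SM r} (h : Rz K σ) (φ : SM (r + 1) → ℝ) :
    NCm σ fun a j => φ (Cas.gr K σ a j) := fun _ _ _ e => congrArg φ (h.gr_eq e)

theorem Ws_sm (L : List (Lv Ω)) {s : Sh} (e : Fin r ≃ s.Lf) {G : s.Lf → ℕ → ℝ} (h : NC s G) :
    Ws L (sm s e L.length) (fun a => G (e a)) = Wn s L G :=
  ((Wn_eq_Ws L s h).trans (Ws_equiv L e _ G)).symm

theorem Ws_eq_Wn (L : List (Lv Ω)) {s : Sh} (e : Fin r ≃ s.Lf) {G : Fin r → ℕ → ℝ}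
    (h : NCm (sm s e L.length) G) :
    Ws L (sm s e L.length) G = Wn s L fun a j => G (e.symm a) (min j L.length) := by
  rw [← Ws_sm L e]
  · exact Ws_congr L _ fun a j hj => by simp [min_eq_left hj]
  · intro a b j hj
    refine h _ _ _ ?_
    have := shr_min s a b j L.length
    have h2 := shr_min s a b L.length j
    simp only [sm, Equiv.apply_symm_apply]
    rw [min_comm, this, hj] at h2
    omega

theorem Ws_mono {L : List (Lv Ω)} (hL : Mono 0 L) {σ : SM r} (h : Rz L.length σ)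
    {G G' : Fin r → ℕ → ℝ} (hG : NCm σ G) (hG' : NCm σ G')
    (e : ∀ a j, j ≤ L.length → G a j ≤ G' a j) : Ws L σ G ≤ Ws L σ G' := by
  obtain ⟨s, e', rfl⟩ := h
  rw [Ws_eq_Wn L e' hG, Ws_eq_Wn L e' hG']
  exact Wn_mono s hL fun a j _ => e _ _ (min_le_right _ _)

/-- weights of a grafted matrix -/
theorem Ws_gr (L : List (Lv Ω)) {σ : SM r} (h : Rz L.length σ) (a : Fin r) {j : ℕ}
    (hj : j ≤ L.length) {G : Fin (r + 1) → ℕ → ℝ} (hG : NCm (gr L.length σ a j) G) :
    Ws L (gr L.length σ a j) G = Ws L σ (fun b => G b.succ) +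
      ∑ i ∈ Finset.range (L.length - j + 1), dm (L.drop j) 0 i * G 0 (i + j) := by
  obtain ⟨s, e, rfl⟩ := h
  rw [← sm_gr] at hG ⊢
  have nc : NC (s.graft (e a) j) fun c k => G ((grE e (e a) j).symm c) (min k L.length) :=
    fun b c k hk => hG _ _ _ (by
      have h2 := shr_min _ b c L.length k
      simp only [sm, Equiv.apply_symm_apply]
      rw [min_comm, shr_min, hk] at h2
      omega)
  rw [Ws_eq_Wn L _ hG, Wn_graft' L s (e a) hj nc, ← Ws_sm L e (NC.emb nc)]
  congr 1
  · exact Ws_congr L _ fun b k hk => by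
      rw [← grE_succ, Equiv.symm_apply_apply, min_eq_left hk]
  · refine Finset.sum_congr rfl fun i hi => ?_
    have := Finset.mem_range.1 hi
    rw [← grE_zero e, Equiv.symm_apply_apply, min_eq_left (by omega)]

/-! ### the law of the split matrix -/

theorem avm_congr (L : List (Lv Ω)) : ∀ (r : ℕ) {φ ψ : SM (r + 1) → ℝ},
    (∀ σ, Rz L.length σ → φ σ = ψ σ) → avm L r φ = avm L r ψ
  | 0, _, _, h => h _ (rz_one _)
  | r + 1, _, _, h => avm_congr L r fun σ hσ => by simp only [fun a j => h _ (hσ.gr a j)]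

theorem avm_add (L : List (Lv Ω)) : ∀ (r : ℕ) (φ ψ : SM (r + 1) → ℝ),
    avm L r (fun σ => φ σ + ψ σ) = avm L r φ + avm L r ψ
  | 0, _, _ => rfl
  | r + 1, _, _ => by simp only [avm, Ws_add, add_div, avm_add L r]

theorem avm_mul (L : List (Lv Ω)) (c : ℝ) : ∀ (r : ℕ) (φ : SM (r + 1) → ℝ),
    avm L r (fun σ => c * φ σ) = c * avm L r φ
  | 0, _ => rfl
  | r + 1, _ => by simp only [avm, Ws_mul, mul_div_assoc, avm_mul L c r]

theorem avm_sub (L : List (Lv Ω)) (r : ℕ) (φ ψ : SM (r + 1) → ℝ) :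
    avm L r (fun σ => φ σ - ψ σ) = avm L r φ - avm L r ψ := by
  have := avm_add L r φ fun σ => -1 * ψ σ
  rw [avm_mul] at this
  simpa only [neg_one_mul, ← sub_eq_add_neg] using this

theorem avm_const (L : List (Lv Ω)) (c : ℝ) : ∀ r : ℕ, avm L r (fun _ => c) = c
  | 0 => rfl
  | r + 1 => by
      have : ((r : ℝ) + 1) ≠ 0 := by positivity
      simp only [avm, Ws_const, Fintype.card_fin, Nat.cast_add, Nat.cast_one,
        mul_div_cancel_left₀ c this, avm_const L c r]

theorem avm_sum (L : List (Lv Ω)) (r : ℕ) {α : Type*} (A : Finset α) (φ : α → SM (r + 1) → ℝ) :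
    avm L r (fun σ => ∑ i ∈ A, φ i σ) = ∑ i ∈ A, avm L r (φ i) := by
  classical
  induction A using Finset.induction_on with
  | empty => simpa using avm_const L 0 r
  | insert i A hi ih => simp only [Finset.sum_insert hi, avm_add, ih]

theorem avm_mono {L : List (Lv Ω)} (hL : Mono 0 L) : ∀ (r : ℕ) {φ ψ : SM (r + 1) → ℝ},
    (∀ σ, Rz L.length σ → φ σ ≤ ψ σ) → avm L r φ ≤ avm L r ψ
  | 0, _, _, h => h _ (rz_one _)
  | r + 1, φ, ψ, h => avm_mono hL r fun σ hσ => div_le_div_of_nonneg_right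
      (Ws_mono hL hσ (hσ.ncm φ) (hσ.ncm ψ) fun a j _ => h _ (hσ.gr a j)) (by positivity)

theorem avm_succ (L : List (Lv Ω)) (r : ℕ) (φ : SM (r + 2) → ℝ) :
    avm L r (fun σ => Ws L σ fun a j => φ (gr L.length σ a j)) = (r + 1) * avm L (r + 1) φ := by
  have : ((r : ℝ) + 1) ≠ 0 := by positivity
  rw [avm, ← avm_mul]
  simp only [mul_div_cancel₀ _ this]

theorem avm_tail (L : List (Lv Ω)) (r : ℕ) (φ : SM (r + 1) → ℝ) :
    avm L (r + 1) (fun σ => φ fun a b => σ a.succ b.succ) = avm L r φ := by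
  have : ((r : ℝ) + 1) ≠ 0 := by positivity
  simp only [avm, gr_ss, Ws_const, Fintype.card_fin, Nat.cast_add, Nat.cast_one,
    mul_div_cancel_left₀ _ this]

theorem hasDerivAt_avm (L : List (Lv Ω)) {u : ℝ} : ∀ (r : ℕ) {φ : ℝ → SM (r + 1) → ℝ}
    {φ' : SM (r + 1) → ℝ}, (∀ σ, Rz L.length σ → HasDerivAt (fun t => φ t σ) (φ' σ) u) →
    HasDerivAt (fun t => avm L r (φ t)) (avm L r φ') u
  | 0, _, _, h => h _ (rz_one _)
  | r + 1, _, _, h => hasDerivAt_avm L r fun σ hσ =>
      (hasDerivAt_Ws L σ fun a j => h _ (hσ.gr a j)).div_const _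

theorem continuousOn_avm (L : List (Lv Ω)) {I : Set ℝ} : ∀ (r : ℕ) {φ : ℝ → SM (r + 1) → ℝ},
    (∀ σ, Rz L.length σ → ContinuousOn (fun t => φ t σ) I) →
    ContinuousOn (fun t => avm L r (φ t)) I
  | 0, _, h => h _ (rz_one _)
  | r + 1, _, h => continuousOn_avm L r fun σ hσ =>
      (continuousOn_Ws L σ fun a j => h _ (hσ.gr a j)).div_const _

theorem avm_tilt {Ω' : Type} {L : List (Lv Ω)} {L' : List (Lv Ω')} (hl : L.length = L'.length)
    (H : ∀ j, ex L j = ex L' j) : ∀ (r : ℕ) (φ : SM (r + 1) → ℝ), avm L r φ = avm L' r φ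
  | 0, _ => by simp only [avm, hl]
  | r + 1, _ => by simp only [avm, Ws, hl, H, avm_tilt hl H r]

/-- exchangeability for one permutation -/
def Exch (L : List (Lv Ω)) (r : ℕ) (μ : Fin (r + 1) → Fin (r + 1)) : Prop :=
  ∀ φ : SM (r + 1) → ℝ, avm L r (fun σ => φ fun a b => σ (μ a) (μ b)) = avm L r φ

theorem Exch.comp {L : List (Lv Ω)} {μ μ' : Fin (r + 1) → Fin (r + 1)} (h : Exch L r μ)
    (h' : Exch L r μ') : Exch L r fun a => μ (μ' a) := fun φ =>
  (h fun σ => φ fun a b => σ (μ' a) (μ' b)).trans (h' φ)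

theorem exch_tail {L : List (Lv Ω)} (ρ : Equiv.Perm (Fin (r + 1))) (h : Exch L r ρ) :
    Exch L (r + 1) (Fin.cons 0 fun a => (ρ a).succ) := fun φ => by
  refine Eq.trans (avm_congr L r fun σ _ => ?_)
    (h fun σ => Ws L σ (fun a j => φ (gr L.length σ a j)) / (r + 1))
  rw [Ws_equiv L ρ]
  congr 2
  funext a j
  refine congrArg φ (funext fun b => funext fun c => ?_)
  refine Fin.cases ?_ (fun b => ?_) b <;> refine Fin.cases ?_ (fun c => ?_) c <;> rfl

theorem swap_0 : Equiv.swap (0 : Fin (r + 2)) 1 0 = Fin.succ 0 := Equiv.swap_apply_left _ _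
theorem swap_1 : Equiv.swap (0 : Fin (r + 2)) 1 (Fin.succ 0) = 0 := Equiv.swap_apply_right _ _
theorem swap_2 (b : Fin r) : Equiv.swap (0 : Fin (r + 2)) 1 b.succ.succ = b.succ.succ :=
  Equiv.swap_apply_of_ne_of_ne (Fin.succ_ne_zero _) fun h =>
    Fin.succ_ne_zero _ (Fin.succ_injective _ h)

theorem exch_swap (L : List (Lv Ω)) : ∀ r : ℕ, Exch L (r + 1) (Equiv.swap 0 1)
  | 0 => fun φ => by
      simp only [avm]
      congr 2
      funext a j
      congr 1
      funext b c
      fin_cases b <;> fin_cases c <;> rfl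
  | r + 1 => fun φ => by
      refine avm_congr L r fun σ hσ => ?_
      simp only [Ws_div]
      congr 2
      have e1 : ∀ (ψ : SM (r + 3) → ℝ) (a : Fin (r + 1)) (j : ℕ), j ≤ L.length →
          (Ws L (gr L.length σ a j) fun c k => ψ (gr L.length (gr L.length σ a j) c k)) = _ :=
        fun ψ a j hj => Ws_gr L hσ a hj ((hσ.gr a j).ncm ψ)
      rw [Ws_congr L σ (e1 φ), Ws_congr L σ (e1 fun τ => φ fun a b =>
        τ (Equiv.swap 0 1 a) (Equiv.swap 0 1 b)), Ws_add, Ws_add, Ws_comm]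
      congr 1
      · congr 1
        funext b k
        congr 1
        funext a j
        refine congrArg φ (funext fun c => funext fun d => ?_)
        refine Fin.cases ?_ (fun c => Fin.cases ?_ (fun c => ?_) c) c <;>
          refine Fin.cases ?_ (fun d => Fin.cases ?_ (fun d => ?_) d) d <;>
          simp only [swap_0, swap_1, swap_2, gr_00, gr_0s, gr_s0, gr_ss]
        all_goals rw [hσ.comm a b]; omega
      · congr 1
        funext a j
        refine Finset.sum_congr rfl fun i _ => ?_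
        congr 1
        refine congrArg φ (funext fun c => funext fun d => ?_)
        refine Fin.cases ?_ (fun c => Fin.cases ?_ (fun c => ?_) c) c <;>
          refine Fin.cases ?_ (fun d => Fin.cases ?_ (fun d => ?_) d) d <;>
          simp only [swap_0, swap_1, swap_2, gr_00, gr_0s, gr_s0, gr_ss]
        all_goals omega

/-- **the law of the split matrix is exchangeable** -/
theorem exch (L : List (Lv Ω)) : ∀ (r : ℕ) (μ : Equiv.Perm (Fin (r + 1))), Exch L r μ
  | 0, _ => fun _ => rfl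
  | r + 1, μ => by
      obtain ⟨⟨p, ρ⟩, rfl⟩ := Equiv.Perm.decomposeFin.symm.surjective μ
      have hs : Exch L (r + 1) (Equiv.swap 0 p) := by
        refine Fin.cases (fun φ => by simp) (fun q => ?_) p
        have h1 := exch_tail _ (exch L r (Equiv.swap 0 q))
        convert (h1.comp (exch_swap L r)).comp h1 using 1
        funext a
        refine Fin.cases ?_ (fun a => ?_) a
        · simp
        · by_cases ha : a = q
          · subst ha
            simp only [Fin.cons_succ, Equiv.swap_apply_right, swap_1, Fin.cons_zero]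
          · rw [Equiv.swap_apply_of_ne_of_ne (Fin.succ_ne_zero _)
              fun h => ha (Fin.succ_injective _ h), Fin.cons_succ]
            obtain ⟨b, hb⟩ := Fin.exists_succ_eq.2 (show Equiv.swap 0 q a ≠ 0 from fun h =>
              ha (by rw [Equiv.swap_apply_eq_iff, Equiv.swap_apply_left] at h; exact h))
            rw [← hb, swap_2, Fin.cons_succ, hb, Equiv.swap_apply_self]
      convert hs.comp (exch_tail ρ (exch L r ρ)) using 1
      funext a
      refine Fin.cases ?_ (fun a => ?_) a <;> simp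

/-- any injection of labels preserves the law -/
theorem avm_inj (L : List (Lv Ω)) (r : ℕ) (φ : SM (r + 1) → ℝ) : ∀ (r' : ℕ)
    (ι : Fin (r + 1) → Fin (r' + 1)), Function.Injective ι →
    avm L r' (fun σ => φ fun a b => σ (ι a) (ι b)) = avm L r φ := by
  intro r'
  induction r' with
  | zero =>
    intro ι hι
    obtain rfl : r = 0 := by simpa using Fintype.card_le_of_injective ι hι
    rfl
  | succ r' ih =>
    intro ι hι
    by_cases hs : Function.Surjective ι
    · obtain rfl : r = r' + 1 := by simpa using Fintype.card_of_bijective ⟨hι, hs⟩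
      exact exch L _ (Equiv.ofBijective ι ⟨hι, hs⟩) φ
    · obtain ⟨p, hp⟩ := not_forall.1 hs
      have h0 : ∀ a, Equiv.swap 0 p (ι a) ≠ 0 := fun a h =>
        hp ⟨a, by rw [Equiv.swap_apply_eq_iff, Equiv.swap_apply_left] at h; exact h⟩
      choose ι' hι' using fun a => Fin.exists_succ_eq.2 (h0 a)
      rw [← exch L _ (Equiv.swap 0 p), ← ih ι' fun a b h => hι ((Equiv.swap 0 p).injective
        (by rw [← hι', ← hι', h])), ← avm_tail L r']
      simp only [hι']

theorem abel_dm (L : List (Lv Ω)) (g : ℕ → ℝ) : ∀ n : ℕ,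
    ex L n * g n + ∑ j ∈ Finset.range n, ex L j * (g j - g (j + 1)) =
      ∑ j ∈ Finset.range (n + 1), dm L 0 j * g j
  | 0 => by simp [dm, exP]
  | n + 1 => by
      rw [Finset.sum_range_succ _ (n + 1), ← abel_dm L g n, Finset.sum_range_succ]
      simp only [dm, exP]
      ring

/-- **Ghirlanda–Guerra weights**: the split level of the new replica and the replica `b` -/
theorem Ws_gg (L : List (Lv Ω)) {σ : SM r} (h : Rz L.length σ) (b : Fin r) (g : ℕ → ℝ) :
    Ws L σ (fun a j => g (min j (σ b a))) =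
      ∑ j ∈ Finset.range (L.length + 1), dm L 0 j * g j + ∑ c ∈ Finset.univ.erase b, g (σ b c) := by
  have e1 : ∀ j ∈ Finset.range L.length,
      ex L j * ∑ a, (g (min j (σ b a)) - g (min (j + 1) (σ b a))) / cls σ a (j + 1) =
        ex L j * (g j - g (j + 1)) := fun j hj => by
    have hj' := Finset.mem_range.1 hj
    have hc : (cls σ b (j + 1) : ℝ) ≠ 0 := by
      exact_mod_cast Finset.card_ne_zero.2 ⟨b, by simp [h.self]; omega⟩
    congr 1
    rw [← Finset.sum_filter_add_sum_filter_not _ fun a => j + 1 ≤ σ b a,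
      Finset.sum_eq_zero (s := Finset.univ.filter fun a => ¬j + 1 ≤ σ b a) fun a ha => by
        have := (Finset.mem_filter.1 ha).2
        rw [show min j (σ b a) = min (j + 1) (σ b a) by omega, sub_self, zero_div],
      add_zero, Finset.sum_congr rfl (g := fun _ => (g j - g (j + 1)) / cls σ b (j + 1)) fun a ha => by
        have ha' := (Finset.mem_filter.1 ha).2
        rw [min_eq_left (by omega), min_eq_left ha']
        refine congrArg (fun n : ℕ => (g j - g (j + 1)) / n) (congrArg Finset.card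
          (Finset.filter_congr fun c _ => ?_))
        have h1 := h.ultra b a c
        have h2 := h.ultra a b c
        rw [h.comm a b] at h2
        omega,
      Finset.sum_const, nsmul_eq_mul]
    exact mul_div_cancel₀ _ hc
  rw [Ws, Finset.sum_congr rfl e1, ← abel_dm, ex_length, one_mul,
    ← Finset.add_sum_erase _ _ (Finset.mem_univ b)]
  simp only [fun a => min_eq_right (h.le b a), h.self, min_self]
  ring

theorem ex_nonneg {L : List (Lv Ω)} (hL : Mono 0 L) (j : ℕ) : 0 ≤ ex L j := by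
  have := sum_dm L 0 j
  rw [sub_zero] at this
  rw [← this]
  exact Finset.sum_nonneg fun i _ => dm_nonneg hL i

/-- total weight of the nodes of depth at most `j₁` -/
theorem Ws_low {L : List (Lv Ω)} (hL : Mono 0 L) (σ : SM r) (j₁ : ℕ) :
    Ws L σ (fun _ j => if j ≤ j₁ then 1 else 0) ≤ r * ex L j₁ := by
  rcases le_or_gt L.length j₁ with h | h
  · rw [Ws_congr L σ (G' := fun _ _ => 1) fun a j hj => if_pos (hj.trans h), Ws_const,
      show ex L j₁ = 1 by simp [ex, List.getElem?_eq_none h], Fintype.card_fin]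
  · rw [Ws, Finset.sum_eq_single j₁ (fun j _ hj => by
      rcases lt_or_gt_of_ne hj with h' | h'
      · simp [h'.le, Nat.succ_le_of_lt h']
      · simp [not_le.2 h', not_le.2 (Nat.lt_succ_of_lt h')]) fun h' => absurd (Finset.mem_range.2 h) h']
    simp only [not_le.2 h, if_false, Finset.sum_const_zero, zero_add, le_refl, if_true,
      Nat.not_succ_le_self, sub_zero]
    rw [mul_comm]
    refine mul_le_mul_of_nonneg_right ?_ (ex_nonneg hL _)
    refine (Finset.sum_le_card_nsmul _ _ 1 fun a _ => ?_).trans (by simp)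
    rw [one_div]
    exact Nat.cast_inv_le_one _

/-- `r + 1` replicas in `r + 1` different clusters above depth `j₁` -/
theorem avm_low {L : List (Lv Ω)} (hL : Mono 0 L) (j₁ : ℕ) : ∀ r : ℕ,
    avm L r (fun σ => if ∀ a b, a ≠ b → σ a b ≤ j₁ then 1 else 0) ≤ ex L j₁ ^ r
  | 0 => by
      rw [avm]
      split_ifs <;> simp
  | r + 1 => by
      refine le_trans (avm_mono hL r (ψ := fun σ => ex L j₁ *
        if ∀ a b, a ≠ b → σ a b ≤ j₁ then 1 else 0) fun σ hσ => ?_) ?_
      · rw [div_le_iff₀ (by positivity)]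
        refine (Ws_mono hL hσ (hσ.ncm fun σ => if ∀ a b, a ≠ b → σ a b ≤ j₁ then 1 else 0)
          (G' := fun _ j => (if ∀ a b, a ≠ b → σ a b ≤ j₁ then 1 else 0) * if j ≤ j₁ then 1 else 0)
          (fun _ _ _ _ => rfl) fun a j hj => ?_).trans ?_
        · split_ifs with h1 h2 h3 <;> try norm_num
          · have := h1 0 a.succ (Fin.succ_ne_zero a).symm
            rw [gr_0s, hσ.self] at this
            omega
          · exact h2 fun b c hbc => h1 b.succ c.succ fun h => hbc (Fin.succ_injective _ h)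
          · exact h2 fun b c hbc => h1 b.succ c.succ fun h => hbc (Fin.succ_injective _ h)
        · rw [Ws_mul]
          have := Ws_low hL σ j₁
          push_cast at this
          split_ifs <;> nlinarith
      · rw [avm_mul, pow_succ']
        exact mul_le_mul_of_nonneg_left (avm_low hL j₁ r) (ex_nonneg hL _)

/-- the split level of two replicas has the law `dm` -/
theorem avm_pair (L : List (Lv Ω)) (g : ℕ → ℝ) (r : ℕ) {a b : Fin (r + 1)} (hab : a ≠ b) :
    avm L r (fun σ => g (σ a b)) = ∑ j ∈ Finset.range (L.length + 1), dm L 0 j * g j := by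
  refine (avm_inj L 1 (fun σ => g (σ 0 1)) r ![a, b] ?_).trans ?_
  · intro i j h
    fin_cases i <;> fin_cases j
    exacts [rfl, absurd h hab, absurd h.symm hab, rfl]
  · have := Ws_gg L (rz_one L.length) 0 g
    simp only [avm, Nat.cast_zero, zero_add, div_one]
    rw [Finset.sum_eq_zero (s := Finset.univ.erase 0) (fun c hc => absurd (Subsingleton.elim c 0)
      (Finset.ne_of_mem_erase hc)), add_zero] at this
    exact this

end Nu87

end Crest.Agent.T156.Cas

end
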