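import Crest.Agent.T156.Br_55
import Crest.Agent.T156.EDef_91

/-!
# Row 156: 38's word `T2` in 91's normal form (helper55)
-/

set_option autoImplicit false
set_option linter.all false

noncomputable section

namespace Crest.Agent.T156.Cas.Br55

open MeasureTheory Real Set Filter Topology
open Crest.Agent.T157.E Crest.Agent.T157.Casc Crest.Agent.T157.SL
open Crest.Agent.T157.G1 (ov)
open Nu87 E91

theorem cf_eq (r : ℕ) (a b : Fin (r + 3)) : Br55.cf r a b = E91.cf r a b := by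
  unfold Br55.cf E91.cf
  by_cases hab : a = b
  · subst hab
    split_ifs <;> first | rfl | omega
  · have : a.val ≠ b.val := fun h => hab (Fin.ext h)
    split_ifs <;> first | rfl | omega

variable {n : ℕ} {β : ℝ} {M : List (ℝ × ℝ × ℝ)} {q : ℕ → ℝ} {l0 : Lv (Cube n)}

theorem opD_K (un sg : ℕ → ℝ) (ms : ℝ) : (opD n β M q l0 un sg ms).K = M.length :=
  List.length_map _

theorem opD_U0 (hl : ∀ x y, l0.cov x y = ov x y) (un sg : ℕ → ℝ) (ms : ℝ) :
    (opD n β M q l0 un sg ms).U0 = oU q := by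
  funext y x x'
  simp only [Dat.U0, opD, hl, oU]

theorem opD_U (hl : ∀ x y, l0.cov x y = ov x y) (un sg : ℕ → ℝ) (ms : ℝ) :
    (opD n β M q l0 un sg ms).U = oUb n β M q true := by
  funext y x x'
  rw [Dat.U, opD_U0 hl]
  rfl

theorem opD_eta (un sg : ℕ → ℝ) (ms : ℝ) : (opD n β M q l0 un sg ms).eta = oE q := rfl

theorem opD_res (un sg : ℕ → ℝ) (ms : ℝ) (j : ℕ) :
    (opD n β M q l0 un sg ms).res j = E38.rj n β M q j := rfl

theorem tE2_eq (hl : ∀ x y, l0.cov x y = ov x y) (un sg : ℕ → ℝ) (ms : ℝ) (χ : ℕ → ℕ → ℝ) (j : ℕ)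
    (c d e f : Fin 6) : tE2 n β M q χ j c d e f = (opD n β M q l0 un sg ms).A j fun τ =>
      χ (τ c d) (τ e f) * ((opD n β M q l0 un sg ms).Bf c d e f τ *
        (opD n β M q l0 un sg ms).Sf c d e f τ) := by
  simp only [Dat.A, Dat.Bf, Dat.Sf, opD_K, opD_U hl, opD_eta]
  rfl

/-- **the bridge** -/
theorem T2_D2 (hn : 0 < n) (H : OOk M q) (hl : ∀ x y, l0.cov x y = ov x y) (un sg : ℕ → ℝ) (ms : ℝ)
    (χ : ℕ → ℕ → ℝ) {j : ℕ} (hj : j ≤ M.length) :
    E38.T2 n β M q χ j = E91.D2 fun c d e f => (opD n β M q l0 un sg ms).A j fun τ =>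
      χ (τ c d) (τ e f) * ((opD n β M q l0 un sg ms).Bf c d e f τ *
        (opD n β M q l0 un sg ms).Sf c d e f τ) := by
  rw [T2_edge hn H χ hj, E91.D2]
  simp only [← tE2_eq hl, cf_eq]
  simp only [← Finset.sum_product', Finset.univ_product_univ]
  refine Fintype.sum_equiv ⟨fun p => (p.2.2.1, p.2.2.2, p.1, p.2.1),
    fun p => (p.2.2.1, p.2.2.2, p.1, p.2.1), fun _ => rfl, fun _ => rfl⟩ _ _ fun p => ?_
  simp only [Equiv.coe_fn_mk, mul_comm (E91.cf 3 _ _)]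

theorem T2_W2 (hn : 0 < n) (H : OOk M q) (hl : ∀ x y, l0.cov x y = ov x y) (un sg : ℕ → ℝ) (ms : ℝ)
    {j : ℕ} (hj : j ≤ M.length) :
    E38.T2 n β M q (fun _ _ => 1) j = (opD n β M q l0 un sg ms).W2 j := by
  rw [T2_D2 hn H hl un sg ms _ hj]
  simp only [one_mul]
  rfl

theorem opW_W2 (hn : 0 < n) (H : OOk M q) (hl : ∀ x y, l0.cov x y = ov x y) (un sg : ℕ → ℝ) (ms : ℝ)
    {j : ℕ} (hj : j ≤ M.length) :
    opW n β M q [true, true] (Sh.two j) (pr2 j fun _ _ => 1) (pr2 j (oE q j)) =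
      (opD n β M q l0 un sg ms).W2 j := (E38.T2_one j).symm.trans (T2_W2 hn H hl un sg ms hj)

theorem T2_cA_D2 (hn : 0 < n) (H : OOk M q) (hl : ∀ x y, l0.cov x y = ov x y) (un sg : ℕ → ℝ)
    (ms : ℝ) {j : ℕ} (hj : j ≤ M.length) :
    E38.T2 n β M q (E38.cA j) j = E91.D2 fun c d e f => (opD n β M q l0 un sg ms).A j fun τ =>
      if τ c d = j ∧ τ e f = j then (opD n β M q l0 un sg ms).Bf c d e f τ *
        (opD n β M q l0 un sg ms).Sf c d e f τ else 0 := by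
  simp only [T2_D2 hn H hl un sg ms _ hj, E38.cA, ite_mul, one_mul, zero_mul]

theorem T2_cB_D2 (hn : 0 < n) (H : OOk M q) (hl : ∀ x y, l0.cov x y = ov x y) (un sg : ℕ → ℝ)
    (ms : ℝ) {j : ℕ} (hj : j ≤ M.length) :
    E38.T2 n β M q E38.cB j = E91.D2 fun c d e f => (opD n β M q l0 un sg ms).A j fun τ =>
      if τ c d ≠ τ e f then (opD n β M q l0 un sg ms).Bf c d e f τ *
        (opD n β M q l0 un sg ms).Sf c d e f τ else 0 := by
  simp only [T2_D2 hn H hl un sg ms _ hj, E38.cB, ite_mul, one_mul, zero_mul, ite_not]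

theorem T2_cC_D2 (hn : 0 < n) (H : OOk M q) (hl : ∀ x y, l0.cov x y = ov x y) (un sg : ℕ → ℝ)
    (ms : ℝ) {j : ℕ} (hj : j ≤ M.length) :
    E38.T2 n β M q (E38.cC j) j = E91.D2 fun c d e f => (opD n β M q l0 un sg ms).src c d e f j := by
  simp only [T2_D2 hn H hl un sg ms _ hj, E38.cC, ite_mul, one_mul, zero_mul, Dat.src]

/-- the site number in the `Dop` frame -/
theorem kap_Dop {Ω : Type} [Fintype Ω] (D : Dat Ω) (ht : D.L.map Lv.m = D.T.map Lv.m) {j : ℕ}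
    (h0 : 0 < j) (hj : j < D.K) :
    D.kap j = twoF j (D.eta j) (Dop D.T (Mul55.cut (· = j) D.eta)
      (Dop D.T (Mul55.cut (· = j) D.eta) (TEf (fun _ => 1) D.T 0))) := by
  have hl : D.L.length = D.T.length := by simpa using congrArg List.length ht
  have hm : Mul55.cut (· = j) D.eta ∈ Mul55.Ok Bool D.T.length :=
    ⟨by simp [Mul55.cut, h0.ne], 0, fun y => by
      have : D.T.length ≠ j := by rw [← hl]; exact hj.ne'
      simp [Mul55.cut, this]⟩
  have h1 := twoF_nuc wt_one90 D.T 0 (j := j) (hl ▸ hj.le) D.eta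
    (U := [Mul55.cut (· = j) D.eta, Mul55.cut (· = j) D.eta]) (by simp [hm])
  refine Eq.trans ?_ h1.symm
  refine Eq.trans ?_ (nuc_two D.T 0 _ _ _ _).symm
  rw [Dat.kap, E91.D2]
  simp only [cf_eq]
  simp only [← Finset.sum_product', Finset.univ_product_univ]
  refine Fintype.sum_equiv ⟨fun p => (p.2.2.1, p.2.2.2, p.1, p.2.1),
    fun p => (p.2.2.1, p.2.2.2, p.1, p.2.1), fun _ => rfl, fun _ => rfl⟩ _ _ fun p => ?_
  simp only [Equiv.coe_fn_mk, mul_comm (E91.cf 3 _ _)]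
  congr 1
  rw [Dat.A, nuc, avc_tilt hl (Cav22.ex_tilt ht), Dat.K, hl]
  congr 1
  funext τ
  simp only [Dat.Sf, RF.re, DrW_nil, ed, Mul55.cut]
  rw [show old 4 (0 : Fin 2) = 4 from rfl, show old 4 (1 : Fin 2) = 5 from rfl]
  by_cases h2 : τ p.1.succ.succ p.2.1.succ.succ = j <;> by_cases h3 : τ p.2.2.1 p.2.2.2 = j <;>
    simp [h2, h3, TM]

end Crest.Agent.T156.Cas.Br55
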