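import Crest.Agent.T156.OnePB_23

/-!
# Row 156 (helper38): the normal form of the word `η ⊗ α α` of (E1)
-/

set_option autoImplicit false
set_option linter.unusedSectionVars false

noncomputable section

namespace Crest.Agent.T156.Cas.E38

open MeasureTheory Real Set Filter Topology
open Crest.Agent.T157.E Crest.Agent.T157.Casc Crest.Agent.T157.SL

/-- `r_j = Γ_j - q_j` -/
def rj (n : ℕ) (β : ℝ) (M : List (ℝ × ℝ × ℝ)) (q : ℕ → ℝ) (j : ℕ) : ℝ :=
  pi2 (fun _ => 1) (opS n β M q) j (oE q j) 0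

/-- the word `η ⊗ α α` on the pair split at `j`, weighted by a function of its two levels -/
def T2 (n : ℕ) (β : ℝ) (M : List (ℝ × ℝ × ℝ)) (q : ℕ → ℝ) (χ : ℕ → ℕ → ℝ) (j : ℕ) : ℝ :=
  sg (-1) (M.map (mxL n β)) (Sh.two j) fun τ => sg (-1) (M.map (mxL n β)) τ.sh fun τ' =>
    χ τ.j τ'.j * (TE (fun _ => 1) τ'.sh (M.map (mxL n β)) 0
        (τ'.ev (oUb n β M q true) (τ.ev (oUb n β M q true) fun _ => 1)) *
      TE (fun _ => 1) τ'.sh (opS n β M q) 0 (τ'.ev (oE q) (τ.ev (oE q) (pr2 j (oE q j)))))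

/-- both edges at the level `j` -/
def cA (j y y' : ℕ) : ℝ := if y = j ∧ y' = j then 1 else 0

/-- different levels -/
def cB (y y' : ℕ) : ℝ := if y = y' then 0 else 1

/-- the same level, not `j` -/
def cC (j y y' : ℕ) : ℝ := if y = y' ∧ y ≠ j then 1 else 0

/-- indicator of a level -/
def lv1 (y i : ℕ) : ℝ := if i = y then 1 else 0

variable {n : ℕ} {β : ℝ} {M : List (ℝ × ℝ × ℝ)} {q : ℕ → ℝ}

theorem T2_one (j : ℕ) : T2 n β M q (fun _ _ => 1) j =
    opW n β M q [true, true] (Sh.two j) (pr2 j fun _ _ => 1) (pr2 j (oE q j)) := by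
  simp only [T2, one_mul]
  rfl

theorem T2_add (χ χ' : ℕ → ℕ → ℝ) (j : ℕ) :
    T2 n β M q (fun y y' => χ y y' + χ' y y') j = T2 n β M q χ j + T2 n β M q χ' j := by
  simp only [T2, add_mul, sg_add]

theorem T2_mul (c : ℝ) (χ : ℕ → ℕ → ℝ) (j : ℕ) :
    T2 n β M q (fun y y' => c * χ y y') j = c * T2 n β M q χ j := by
  simp only [T2, mul_assoc c, sg_const_mul]

theorem T2_sum {α : Type*} (A : Finset α) (χ : α → ℕ → ℕ → ℝ) (j : ℕ) :
    T2 n β M q (fun y y' => ∑ i ∈ A, χ i y y') j = ∑ i ∈ A, T2 n β M q (χ i) j := by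
  simp only [T2, Finset.sum_mul, sg_sum]

theorem T2_congr {χ χ' : ℕ → ℕ → ℝ} (h : ∀ y ≤ M.length, ∀ y' ≤ M.length, χ y y' = χ' y y')
    (j : ℕ) : T2 n β M q χ j = T2 n β M q χ' j :=
  sg_congr _ _ _ fun τ hτ => sg_congr _ _ _ fun τ' hτ' => by
    rw [h _ (by simpa using hτ.le) _ (by simpa using hτ'.le)]

theorem T2_split (j : ℕ) : T2 n β M q (fun _ _ => 1) j =
    T2 n β M q (cA j) j + T2 n β M q cB j + T2 n β M q (cC j) j := by
  rw [← T2_add, ← T2_add]
  refine T2_congr (fun y _ y' _ => ?_) j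
  unfold cA cB cC
  split_ifs <;> first | (exfalso; omega) | norm_num

theorem T2_cA (j : ℕ) : T2 n β M q (cA j) j = T2 n β M q (fun y y' => lv1 j y * lv1 j y') j :=
  T2_congr (fun y _ y' _ => by unfold cA lv1; split_ifs <;> first | (exfalso; omega) | norm_num) j

theorem T2_cC (j : ℕ) : T2 n β M q (cC j) j = ∑ i ∈ (Finset.range (M.length + 1)).erase j,
    T2 n β M q (fun y y' => lv1 i y * lv1 i y') j := by
  rw [← T2_sum]
  refine T2_congr (fun y hy y' _ => ?_) j
  simp only [cC, lv1, ite_mul, one_mul, zero_mul, Finset.sum_ite_eq, Finset.mem_erase,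
    Finset.mem_range]
  split_ifs <;> first | (exfalso; omega) | rfl

/-- the same word, written with the derivative operators at `θ = 0` -/
theorem T2_Dop (hn : 0 < n) (H : OOk M q) (φ ψ : ℕ → ℝ) (j : ℕ) :
    T2 n β M q (fun y y' => φ y * ψ y') j = twoF j (fun x y => oE q j x.2 y.2)
      (Dop (op n β M q 0) (fun i x y => φ i * oLt n β M q true i x y)
        (Dop (op n β M q 0) (fun i x y => ψ i * oLt n β M q true i x y)
          (TEf (fun _ => 1) (op n β M q 0) 0))) := by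
  simp only [twoF, Dop_eq_sg, T2, sg_tilt (-1) (tilt_op (n := n) (β := β) (M := M) (q := q) 0)]
  congr 1
  funext τ
  congr 1
  funext τ'
  rw [← TE_op_zero hn H, Law.ad_zero, ← Law.TE_const_mul wt_one90]
  refine congrArg (TE _ _ _ _) (funext fun x => ?_)
  simp only [tens, GT.ev, pr2, oLt, oZs]
  ring

end Crest.Agent.T156.Cas.E38

end
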