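import Crest.Agent.T156.NuB_87

/-!
# Row 156: the replica law given the split matrix of the first replicas (helper87)

`nuc w L h σ k F`: the base replicas have the split matrix `σ`, and `k` further replicas are grafted.
-/

set_option autoImplicit false
set_option linter.unusedSectionVars false

noncomputable section

namespace Crest.Agent.T156.Cas

open MeasureTheory Real Set Filter Topology
open Crest.Agent.T157.E Crest.Agent.T157.Casc Crest.Agent.T157.SL
open Wt87 Law Nu87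

variable {Ω : Type} [Fintype Ω] {w : Ω → ℝ} {r : ℕ}

/-- one grafted replica -/
def up1 (L : List (Lv Ω)) (φ : SM (r + 2) → ℝ) (τ : SM (r + 1)) : ℝ :=
  Ws L τ (fun a j => φ (gr L.length τ a j)) / (r + 1)

/-- `k` replicas (the indices `< k`) grafted on the split matrix `σ` -/
def avc (L : List (Lv Ω)) (σ : SM (r + 1)) : (k : ℕ) → (SM (r + k + 1) → ℝ) → ℝ
  | 0, φ => φ σ
  | k + 1, φ => avc L σ k (up1 (r := r + k) L φ)

/-- **the conditional replica law** -/
def nuc (w : Ω → ℝ) (L : List (Lv Ω)) (h : Ω → ℝ) (σ : SM (r + 1)) (k : ℕ)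
    (F : RF Ω (r + k + 1)) : ℝ :=
  avc L σ k fun τ => TM w L h τ fun x => F x τ

/-- the place of the base replicas -/
def old (k : ℕ) (a : Fin (r + 1)) : Fin (r + k + 1) := ⟨a + k, by omega⟩

/-- two replicas split after `j` levels -/
def tw (K j : ℕ) : SM 2 := gr K (fun _ _ : Fin 1 => K) 0 j

namespace Nu87

variable {L : List (Lv Ω)} {τ : SM (r + 1)}

theorem avm_up (φ : SM (r + 2) → ℝ) : avm L (r + 1) φ = avm L r (up1 L φ) := rfl

theorem up1_congr (hτ : Rz L.length τ) {φ ψ : SM (r + 2) → ℝ}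
    (e : ∀ σ, Rz L.length σ → φ σ = ψ σ) : up1 L φ τ = up1 L ψ τ := by
  simp only [up1, fun a j => e _ (hτ.gr a j)]

theorem up1_add (φ ψ : SM (r + 2) → ℝ) :
    up1 L (fun σ => φ σ + ψ σ) = fun τ => up1 L φ τ + up1 L ψ τ := by
  funext τ; simp only [up1, Ws_add, add_div]

theorem up1_mul (c : ℝ) (φ : SM (r + 2) → ℝ) :
    up1 L (fun σ => c * φ σ) = fun τ => c * up1 L φ τ := by
  funext τ; simp only [up1, Ws_mul, mul_div_assoc]

theorem up1_sub (φ ψ : SM (r + 2) → ℝ) :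
    up1 L (fun σ => φ σ - ψ σ) = fun τ => up1 L φ τ - up1 L ψ τ := by
  funext τ; simp only [up1, Ws_sub, sub_div]

theorem up1_tail (φ : SM (r + 1) → ℝ) :
    up1 L (fun σ => φ fun a b => σ a.succ b.succ) = φ := by
  have : ((r : ℝ) + 1) ≠ 0 := by positivity
  funext τ
  simp only [up1, gr_ss, Ws_const, Fintype.card_fin, Nat.cast_add, Nat.cast_one,
    mul_div_cancel_left₀ _ this]

theorem up1_const (c : ℝ) : up1 (r := r) L (fun _ => c) = fun _ => c := up1_tail fun _ => c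

theorem up1_mono (hL : Mono 0 L) (hτ : Rz L.length τ) {φ ψ : SM (r + 2) → ℝ}
    (e : ∀ σ, Rz L.length σ → φ σ ≤ ψ σ) : up1 L φ τ ≤ up1 L ψ τ :=
  div_le_div_of_nonneg_right (Ws_mono hL hτ (hτ.ncm φ) (hτ.ncm ψ) fun a j _ => e _ (hτ.gr a j))
    (by positivity)

theorem Ws_eq_up1 (φ : SM (r + 2) → ℝ) :
    Ws L τ (fun a j => φ (gr L.length τ a j)) = (r + 1) * up1 L φ τ := by
  have : ((r : ℝ) + 1) ≠ 0 := by positivity
  rw [up1, mul_div_cancel₀ _ this]

theorem up1_perm (ρ : Equiv.Perm (Fin (r + 1))) (φ : SM (r + 2) → ℝ) :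
    up1 L (fun σ => φ fun a b => σ ((Fin.cons 0 fun a => (ρ a).succ : Fin (r + 2) → Fin (r + 2)) a)
      ((Fin.cons 0 fun a => (ρ a).succ : Fin (r + 2) → Fin (r + 2)) b)) τ =
      up1 L φ fun a b => τ (ρ a) (ρ b) := by
  rw [up1, up1, Ws_equiv L ρ]
  congr 2
  funext a j
  refine congrArg φ (funext fun b => funext fun c => ?_)
  refine Fin.cases ?_ (fun b => ?_) b <;> refine Fin.cases ?_ (fun c => ?_) c <;> rfl

/-- two grafts commute -/
theorem up1_swap (hσ : Rz L.length τ) (φ : SM (r + 3) → ℝ) :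
    up1 L (up1 L fun σ => φ fun a b => σ (Equiv.swap 0 1 a) (Equiv.swap 0 1 b)) τ =
      up1 L (up1 L φ) τ := by
  simp only [up1, Ws_div]
  congr 2
  have e1 : ∀ (ψ : SM (r + 3) → ℝ) (a : Fin (r + 1)) (j : ℕ), j ≤ L.length →
      (Ws L (gr L.length τ a j) fun c k => ψ (gr L.length (gr L.length τ a j) c k)) = _ :=
    fun ψ a j hj => Ws_gr L hσ a hj ((hσ.gr a j).ncm ψ)
  rw [Ws_congr L τ (e1 φ), Ws_congr L τ (e1 fun σ => φ fun a b =>
    σ (Equiv.swap 0 1 a) (Equiv.swap 0 1 b)), Ws_add, Ws_add, Ws_comm]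
  congr 1
  · congr 1
    funext b k
    congr 1
    funext a j
    refine congrArg φ (funext fun c => funext fun d => ?_)
    refine Fin.cases ?_ (fun c => Fin.cases ?_ (fun c => ?_) c) c <;>
      refine Fin.cases ?_ (fun d => Fin.cases ?_ (fun d => ?_) d) d <;>
      simp only [swap_0, swap_1, swap_2, gr_00, gr_0s, gr_s0, gr_ss]
    all_goals rw [hσ.comm a b]; omega
  · congr 1
    funext a j
    refine Finset.sum_congr rfl fun i _ => ?_
    congr 1
    refine congrArg φ (funext fun c => funext fun d => ?_)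
    refine Fin.cases ?_ (fun c => Fin.cases ?_ (fun c => ?_) c) c <;>
      refine Fin.cases ?_ (fun d => Fin.cases ?_ (fun d => ?_) d) d <;>
      simp only [swap_0, swap_1, swap_2, gr_00, gr_0s, gr_s0, gr_ss]
    all_goals omega

variable {σ : SM (r + 1)}

theorem old_zero (a : Fin (r + 1)) : old 0 a = a := rfl

theorem old_succ (k : ℕ) (a : Fin (r + 1)) : old (k + 1) a = (old k a).succ := rfl

theorem old_inj (k : ℕ) : Function.Injective (old (r := r) k) := fun a b e =>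
  Fin.ext (by have := congrArg Fin.val e; simp only [old] at this; omega)

/-- congruence: only realisable matrices extending `σ` count -/
theorem avc_congr' (hσ : Rz L.length σ) : ∀ (k : ℕ) {φ ψ : SM (r + k + 1) → ℝ},
    (∀ τ, Rz L.length τ → (∀ a b, τ (old k a) (old k b) = σ a b) → φ τ = ψ τ) →
    avc L σ k φ = avc L σ k ψ
  | 0, _, _, e => e σ hσ fun _ _ => rfl
  | k + 1, _, _, e => avc_congr' hσ k fun τ hτ h => by
      simp only [up1, fun a j => e _ (hτ.gr a j) h]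

theorem avc_congr (hσ : Rz L.length σ) (k : ℕ) {φ ψ : SM (r + k + 1) → ℝ}
    (e : ∀ τ, Rz L.length τ → φ τ = ψ τ) : avc L σ k φ = avc L σ k ψ :=
  avc_congr' hσ k fun τ hτ _ => e τ hτ

theorem avc_add : ∀ (k : ℕ) (φ ψ : SM (r + k + 1) → ℝ),
    avc L σ k (fun τ => φ τ + ψ τ) = avc L σ k φ + avc L σ k ψ
  | 0, _, _ => rfl
  | k + 1, φ, ψ => (congrArg (avc L σ k) (up1_add φ ψ)).trans (avc_add k _ _)

theorem avc_sub : ∀ (k : ℕ) (φ ψ : SM (r + k + 1) → ℝ),
    avc L σ k (fun τ => φ τ - ψ τ) = avc L σ k φ - avc L σ k ψ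
  | 0, _, _ => rfl
  | k + 1, φ, ψ => (congrArg (avc L σ k) (up1_sub φ ψ)).trans (avc_sub k _ _)

theorem avc_mul (c : ℝ) : ∀ (k : ℕ) (φ : SM (r + k + 1) → ℝ),
    avc L σ k (fun τ => c * φ τ) = c * avc L σ k φ
  | 0, _ => rfl
  | k + 1, φ => (congrArg (avc L σ k) (up1_mul c φ)).trans (avc_mul c k _)

theorem avc_const (c : ℝ) : ∀ k : ℕ, avc L σ k (fun _ => c) = c
  | 0 => rfl
  | k + 1 => (congrArg (avc L σ k) (up1_const c)).trans (avc_const c k)

theorem avc_sum (k : ℕ) {α : Type*} (A : Finset α) (φ : α → SM (r + k + 1) → ℝ) :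
    avc L σ k (fun τ => ∑ i ∈ A, φ i τ) = ∑ i ∈ A, avc L σ k (φ i) := by
  classical
  induction A using Finset.induction_on with
  | empty => simpa using avc_const (L := L) (σ := σ) 0 k
  | insert i A hi ih => simp only [Finset.sum_insert hi, avc_add, ih]

theorem avc_mono' (hL : Mono 0 L) (hσ : Rz L.length σ) : ∀ (k : ℕ) {φ ψ : SM (r + k + 1) → ℝ},
    (∀ τ, Rz L.length τ → (∀ a b, τ (old k a) (old k b) = σ a b) → φ τ ≤ ψ τ) →
    avc L σ k φ ≤ avc L σ k ψ
  | 0, _, _, e => e σ hσ fun _ _ => rfl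
  | k + 1, φ, ψ, e => avc_mono' hL hσ k fun τ hτ h => div_le_div_of_nonneg_right
      (Ws_mono hL hτ (hτ.ncm φ) (hτ.ncm ψ) fun a j _ => e _ (hτ.gr a j) h) (by positivity)

theorem avc_mono (hL : Mono 0 L) (hσ : Rz L.length σ) (k : ℕ) {φ ψ : SM (r + k + 1) → ℝ}
    (e : ∀ τ, Rz L.length τ → φ τ ≤ ψ τ) : avc L σ k φ ≤ avc L σ k ψ :=
  avc_mono' hL hσ k fun τ hτ _ => e τ hτ

theorem avc_tail (k : ℕ) (φ : SM (r + k + 1) → ℝ) :
    avc L σ (k + 1) (fun τ => φ fun a b => τ a.succ b.succ) = avc L σ k φ :=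
  congrArg (avc L σ k) (up1_tail φ)

/-- functions of the base matrix -/
theorem avc_old (hσ : Rz L.length σ) (k : ℕ) (φ : SM (r + 1) → ℝ) :
    avc L σ k (fun τ => φ fun a b => τ (old k a) (old k b)) = φ σ :=
  (avc_congr' hσ k fun _ _ h => congrArg φ (funext fun a => funext fun b => h a b)).trans
    (avc_const _ k)

/-- disintegration -/
theorem avm_avc : ∀ (k : ℕ) (φ : SM (r + k + 1) → ℝ),
    avm L (r + k) φ = avm L r fun σ => avc L σ k φ
  | 0, _ => rfl
  | k + 1, φ => avm_avc k (up1 (r := r + k) L φ)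

theorem avm_one (φ : SM 2 → ℝ) :
    avm L 1 φ = ∑ j ∈ Finset.range (L.length + 1), dm L 0 j * φ (tw L.length j) := by
  rw [← avm_pair L (fun j => φ (tw L.length j)) 1 (a := 0) (b := 1) (by decide)]
  refine avm_congr L 1 fun σ hσ => congrArg φ (funext fun a => funext fun b => ?_)
  have h1 := hσ.le 0 1
  fin_cases a <;> fin_cases b
  · exact hσ.self 0
  · exact (min_eq_left h1).symm
  · exact (hσ.comm 1 0).trans (min_eq_left h1).symm
  · exact hσ.self 1

theorem rz_tw (K j : ℕ) : Rz K (tw K j) := (rz_one K).gr 0 j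

theorem tw_01 {K j : ℕ} (hj : j ≤ K) : tw K j 0 1 = j := min_eq_left hj

theorem hasDerivAt_avc (hσ : Rz L.length σ) {u : ℝ} : ∀ (k : ℕ) {φ : ℝ → SM (r + k + 1) → ℝ}
    {φ' : SM (r + k + 1) → ℝ}, (∀ τ, Rz L.length τ → HasDerivAt (fun t => φ t τ) (φ' τ) u) →
    HasDerivAt (fun t => avc L σ k (φ t)) (avc L σ k φ') u
  | 0, _, _, h => h _ hσ
  | k + 1, _, _, h => hasDerivAt_avc hσ k fun τ hτ =>
      (hasDerivAt_Ws L τ fun a j => h _ (hτ.gr a j)).div_const _

theorem continuousOn_avc (hσ : Rz L.length σ) {I : Set ℝ} : ∀ (k : ℕ)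
    {φ : ℝ → SM (r + k + 1) → ℝ}, (∀ τ, Rz L.length τ → ContinuousOn (fun t => φ t τ) I) →
    ContinuousOn (fun t => avc L σ k (φ t)) I
  | 0, _, h => h _ hσ
  | k + 1, _, h => continuousOn_avc hσ k fun τ hτ =>
      (continuousOn_Ws L τ fun a j => h _ (hτ.gr a j)).div_const _

theorem avc_tilt {Ω' : Type} [Fintype Ω'] {L' : List (Lv Ω')} (hl : L.length = L'.length)
    (H : ∀ j, ex L j = ex L' j) : ∀ (k : ℕ) (φ : SM (r + k + 1) → ℝ), avc L σ k φ = avc L' σ k φ
  | 0, _ => rfl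
  | k + 1, φ => (avc_tilt hl H k _).trans (congrArg (avc L' σ k) (by
      funext τ; simp only [up1, Ws, hl, H]))

/-- **the grafted replicas are exchangeable** -/
theorem avc_perm (hσ : Rz L.length σ) : ∀ (k : ℕ) (μ : Equiv.Perm (Fin (r + k + 1))),
    (∀ a, μ (old k a) = old k a) → ∀ φ : SM (r + k + 1) → ℝ,
    avc L σ k (fun τ => φ fun a b => τ (μ a) (μ b)) = avc L σ k φ
  | 0, μ, h, φ => congrArg φ (funext fun a => funext fun b => congrArg₂ σ (h a) (h b))
  | k + 1, μ, h, φ => by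
      have tl : ∀ ρ : Equiv.Perm (Fin (r + k + 1)), (∀ a, ρ (old k a) = old k a) →
          ∀ ψ : SM (r + k + 2) → ℝ, avc L σ (k + 1) (fun τ => ψ fun a b =>
            τ ((Fin.cons 0 fun a => (ρ a).succ : Fin (r + k + 2) → Fin (r + k + 2)) a)
              ((Fin.cons 0 fun a => (ρ a).succ : Fin (r + k + 2) → Fin (r + k + 2)) b)) =
            avc L σ (k + 1) ψ := fun ρ hρ ψ =>
        (congrArg (avc L σ k) (funext fun _ => up1_perm ρ ψ)).trans
          (avc_perm hσ k ρ hρ (up1 (r := r + k) L ψ))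
      obtain ⟨⟨p, ρ⟩, rfl⟩ :=
        (Equiv.Perm.decomposeFin (n := r + k + 1)).symm.surjective μ
      have hp : ∀ a, p ≠ (old k a).succ := fun a e => Fin.succ_ne_zero (old k a)
        ((Equiv.Perm.decomposeFin.symm (p, ρ)).injective ((h a).trans (by simp [e]; rfl)))
      have hρ : ∀ a, ρ (old k a) = old k a := fun a => by
        have h1 : Equiv.swap 0 p (ρ (old k a)).succ = (old k a).succ := by
          simpa [old_succ] using h a
        rw [Equiv.swap_apply_eq_iff, Equiv.swap_apply_of_ne_of_ne (Fin.succ_ne_zero _)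
          (hp a).symm] at h1
        exact Fin.succ_injective _ h1
      have hs : ∀ ψ : SM (r + k + 2) → ℝ, avc L σ (k + 1) (fun τ => ψ fun a b =>
          τ (Equiv.swap 0 p a) (Equiv.swap 0 p b)) = avc L σ (k + 1) ψ := by
        revert hp
        refine Fin.cases (fun _ ψ => by simp only [Equiv.swap_self]; rfl) (fun q hq ψ => ?_) p
        have hq' : ∀ a, q ≠ old k a := fun a e => hq a (by rw [e])
        obtain ⟨k, rfl⟩ : ∃ k', k = k' + 1 := Nat.exists_eq_succ_of_ne_zero fun e => by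
          subst e; exact hq' q rfl
        have h1 := tl (Equiv.swap 0 q) fun a =>
          Equiv.swap_apply_of_ne_of_ne (Fin.succ_ne_zero (old k a)) (hq' a).symm
        have h2 : ∀ ψ : SM (r + k + 3) → ℝ, avc L σ (k + 2) (fun τ => ψ fun a b =>
            τ (Equiv.swap 0 1 a) (Equiv.swap 0 1 b)) = avc L σ (k + 2) ψ := fun ψ =>
          avc_congr hσ k fun τ hτ => up1_swap hτ ψ
        have e : ∀ a : Fin (r + (k + 1) + 2), Equiv.swap 0 q.succ a =
            (Fin.cons 0 fun a => (Equiv.swap 0 q a).succ : Fin (r + (k + 1) + 2) → Fin _)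
              (Equiv.swap (0 : Fin (r + k + 1 + 2)) 1 ((Fin.cons 0 fun a =>
                (Equiv.swap 0 q a).succ : Fin (r + (k + 1) + 2) → Fin _) a)) := fun a => by
          refine Fin.cases ?_ (fun a => ?_) a
          · simp
          · by_cases ha : a = q
            · subst ha
              simp only [Fin.cons_succ, Equiv.swap_apply_right, swap_1, Fin.cons_zero]
            · rw [Equiv.swap_apply_of_ne_of_ne (Fin.succ_ne_zero _)
                fun h => ha (Fin.succ_injective _ h), Fin.cons_succ]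
              obtain ⟨b, hb⟩ := Fin.exists_succ_eq.2 (show Equiv.swap 0 q a ≠ 0 from fun h =>
                ha (by rw [Equiv.swap_apply_eq_iff, Equiv.swap_apply_left] at h; exact h))
              rw [← hb, swap_2, Fin.cons_succ, hb, Equiv.swap_apply_self]
        simp only [e]
        generalize (Fin.cons 0 fun a => (Equiv.swap 0 q a).succ :
          Fin (r + (k + 1) + 2) → Fin (r + (k + 1) + 2)) = c at h1 ⊢
        exact ((h1 fun τ => ψ fun a b => τ (Equiv.swap (0 : Fin (r + k + 1 + 2)) 1 (c a))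
          (Equiv.swap (0 : Fin (r + k + 1 + 2)) 1 (c b))).trans
            (h2 fun τ => ψ fun a b => τ (c a) (c b))).trans (h1 ψ)
      rw [← tl ρ hρ φ, ← hs]
      congr 1
      funext τ
      refine congrArg φ (funext fun a => funext fun b => congrArg₂ τ ?_ ?_)
      · refine Fin.cases ?_ (fun a => ?_) a <;> simp
      · refine Fin.cases ?_ (fun a => ?_) b <;> simp

/-- any injection of labels that keeps the base replicas preserves the law -/
theorem avc_inj (hσ : Rz L.length σ) (k : ℕ) (φ : SM (r + k + 1) → ℝ) : ∀ (k' : ℕ)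
    (ι : Fin (r + k + 1) → Fin (r + k' + 1)), Function.Injective ι →
    (∀ a, ι (old k a) = old k' a) →
    avc L σ k' (fun τ => φ fun a b => τ (ι a) (ι b)) = avc L σ k φ := by
  intro k'
  induction k' with
  | zero =>
    intro ι hι h
    obtain rfl : k = 0 := by simpa using Fintype.card_le_of_injective ι hι
    exact congrArg φ (funext fun a => funext fun b => congrArg₂ σ (h a) (h b))
  | succ k' ih =>
    intro ι hι h
    by_cases hs : Function.Surjective ι
    · obtain rfl : k = k' + 1 := by simpa using Fintype.card_of_bijective ⟨hι, hs⟩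
      exact avc_perm hσ _ (Equiv.ofBijective ι ⟨hι, hs⟩) h φ
    · obtain ⟨p, hp⟩ := not_forall.1 hs
      have h0 : ∀ a, Equiv.swap 0 p (ι a) ≠ 0 := fun a h =>
        hp ⟨a, by rw [Equiv.swap_apply_eq_iff, Equiv.swap_apply_left] at h; exact h⟩
      have hf : ∀ a, Equiv.swap 0 p (old (k' + 1) a) = old (k' + 1) a := fun a =>
        Equiv.swap_apply_of_ne_of_ne (Fin.succ_ne_zero (old k' a)) fun e => hp ⟨_, (h a).trans e⟩
      choose ι' hι' using fun a => (Fin.exists_succ_eq (n := r + k' + 1)).2 (h0 a)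
      rw [← avc_perm hσ _ (Equiv.swap 0 p) hf, ← ih ι' (fun a b h => hι ((Equiv.swap 0 p).injective
        (by rw [← hι', ← hι', h]))) fun a => Fin.succ_injective _ (by
          rw [hι', h, hf, old_succ]), ← avc_tail k']
      simp only [hι']

theorem avc_at (L : List (TL Ω)) (t u : ℝ) (k : ℕ) (φ : SM (r + k + 1) → ℝ) :
    avc (atL L t) σ k φ = avc (atL L u) σ k φ :=
  avc_tilt ((Sp38.len_at L t).trans (Sp38.len_at L u).symm) (Sp38.ex_at t u L) k φ

/-- Gronwall for a logarithmic derivative -/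
theorem gron {f : ℝ → ℝ} {a b C : ℝ} (hab : a ≤ b) (hcont : ContinuousOn f (Icc a b))
    (hd : ∀ t ∈ Ioo a b, ∃ d, HasDerivAt f d t ∧ |d| ≤ C * f t) :
    f b ≤ exp (C * (b - a)) * f a ∧ f a ≤ exp (C * (b - a)) * f b := by
  have key : ∀ ε : ℝ, (∀ d v : ℝ, |d| ≤ C * v → 0 ≤ ε * (d + ε * C * v)) →
      0 ≤ ε * (exp (ε * C * b) * f b - exp (ε * C * a) * f a) := by
    intro ε hε
    rcases hab.eq_or_lt with rfl | hab
    · simp
    choose! d hd1 hd2 using hd
    obtain ⟨θ, hθ, e⟩ := exists_hasDerivAt_eq_slope (fun t => exp (ε * C * t) * f t)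
      (fun t => exp (ε * C * t) * (ε * C) * f t + exp (ε * C * t) * d t) hab
      ((by fun_prop : ContinuousOn (fun t => exp (ε * C * t)) _).mul hcont) fun t ht => by
        simpa using (((hasDerivAt_id t).const_mul (ε * C)).exp).fun_mul (hd1 t ht)
    rw [eq_div_iff (sub_pos.2 hab).ne'] at e
    rw [← e]
    have := mul_nonneg (mul_nonneg (hε _ _ (hd2 θ hθ)) (exp_pos (ε * C * θ)).le) (sub_pos.2 hab).le
    linarith
  have k1 := key (-1) fun d v hd => by linarith [(abs_le.1 hd).2]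
  have k2 := key 1 fun d v hd => by linarith [(abs_le.1 hd).1]
  have e1 : exp (-1 * C * a) = exp (-1 * C * b) * exp (C * (b - a)) := by
    rw [← exp_add]; congr 1; ring
  have e2 : exp (1 * C * b) = exp (1 * C * a) * exp (C * (b - a)) := by
    rw [← exp_add]; congr 1; ring
  rw [e1] at k1
  rw [e2] at k2
  exact ⟨le_of_mul_le_mul_left (by linarith) (exp_pos (-1 * C * b)),
    le_of_mul_le_mul_left (by linarith) (exp_pos (1 * C * a))⟩

end Nu87

variable {L : List (Lv Ω)} {h : Ω → ℝ} {σ : SM (r + 1)} {k : ℕ}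

theorem nuc_zero (F : RF Ω (r + 1)) : nuc w L h σ 0 F = TM w L h σ fun x => F x σ := rfl

theorem nuc_congr' (hσ : Rz L.length σ) {F G : RF Ω (r + k + 1)} (e : ∀ x τ, Rz L.length τ →
    (∀ a b, τ (old k a) (old k b) = σ a b) → F x τ = G x τ) :
    nuc w L h σ k F = nuc w L h σ k G :=
  avc_congr' hσ k fun τ hτ h => by simp only [fun x => e x τ hτ h]

theorem nuc_congr (hσ : Rz L.length σ) {F G : RF Ω (r + k + 1)}
    (e : ∀ x τ, Rz L.length τ → F x τ = G x τ) : nuc w L h σ k F = nuc w L h σ k G :=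
  nuc_congr' hσ fun x τ hτ _ => e x τ hτ

theorem nuc_add (F G : RF Ω (r + k + 1)) :
    nuc w L h σ k (fun x τ => F x τ + G x τ) = nuc w L h σ k F + nuc w L h σ k G := by
  simp only [nuc, TM_add, avc_add]

theorem nuc_sub (F G : RF Ω (r + k + 1)) :
    nuc w L h σ k (fun x τ => F x τ - G x τ) = nuc w L h σ k F - nuc w L h σ k G := by
  simp only [nuc, TM_sub, avc_sub]

theorem nuc_mul (c : ℝ) (F : RF Ω (r + k + 1)) :
    nuc w L h σ k (fun x τ => c * F x τ) = c * nuc w L h σ k F := by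
  simp only [nuc, TM_mul, avc_mul]

theorem nuc_sum {α : Type*} (A : Finset α) (F : α → RF Ω (r + k + 1)) :
    nuc w L h σ k (fun x τ => ∑ i ∈ A, F i x τ) = ∑ i ∈ A, nuc w L h σ k (F i) := by
  simp only [nuc, TM_sum, avc_sum]

theorem nuc_mat (hw : Wt w) (hσ : Rz L.length σ) (φ : SM (r + k + 1) → ℝ) :
    nuc w L h σ k (fun _ τ => φ τ) = avc L σ k φ :=
  avc_congr hσ k fun _ hτ => TM_const hw hτ _

theorem nuc_const (hw : Wt w) (hσ : Rz L.length σ) (c : ℝ) : nuc w L h σ k (fun _ _ => c) = c :=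
  (nuc_mat hw hσ fun _ => c).trans (avc_const c k)

theorem nuc_mono' (hw : Wt w) (hL : Mono 0 L) (hσ : Rz L.length σ) {F G : RF Ω (r + k + 1)}
    (e : ∀ x τ, Rz L.length τ → (∀ a b, τ (old k a) (old k b) = σ a b) → F x τ ≤ G x τ) :
    nuc w L h σ k F ≤ nuc w L h σ k G :=
  avc_mono' hL hσ k fun τ hτ h => TM_mono hw hτ fun x => e x τ hτ h

theorem nuc_mono (hw : Wt w) (hL : Mono 0 L) (hσ : Rz L.length σ) {F G : RF Ω (r + k + 1)}
    (e : ∀ x τ, Rz L.length τ → F x τ ≤ G x τ) : nuc w L h σ k F ≤ nuc w L h σ k G :=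
  nuc_mono' hw hL hσ fun x τ hτ _ => e x τ hτ

theorem abs_nuc_le' (hw : Wt w) (hL : Mono 0 L) (hσ : Rz L.length σ) {F G : RF Ω (r + k + 1)}
    (e : ∀ x τ, Rz L.length τ → (∀ a b, τ (old k a) (old k b) = σ a b) → |F x τ| ≤ G x τ) :
    |nuc w L h σ k F| ≤ nuc w L h σ k G := by
  have h1 := nuc_mono' (h := h) hw hL hσ fun x τ hτ h => (abs_le.1 (e x τ hτ h)).2
  have h2 := nuc_mono' (h := h) hw hL hσ (F := fun x τ => -1 * G x τ) (G := F) fun x τ hτ h => by
    linarith [(abs_le.1 (e x τ hτ h)).1]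
  rw [nuc_mul] at h2
  rw [abs_le]
  constructor <;> linarith

theorem abs_nuc_le (hw : Wt w) (hL : Mono 0 L) (hσ : Rz L.length σ) {F G : RF Ω (r + k + 1)}
    (e : ∀ x τ, Rz L.length τ → |F x τ| ≤ G x τ) : |nuc w L h σ k F| ≤ nuc w L h σ k G :=
  abs_nuc_le' hw hL hσ fun x τ hτ _ => e x τ hτ

/-- **consistency and exchangeability** given the base -/
theorem nuc_re (hw : Wt w) (hσ : Rz L.length σ) {k' : ℕ} (F : RF Ω (r + k + 1))
    {ι : Fin (r + k + 1) → Fin (r + k' + 1)} (hι : Function.Injective ι)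
    (ho : ∀ a, ι (old k a) = old k' a) : nuc w L h σ k' (F.re ι) = nuc w L h σ k F :=
  (avc_congr hσ k' fun τ hτ => TM_inj hw hτ hι fun x => F x fun a b => τ (ι a) (ι b)).trans
    (avc_inj hσ k (fun τ => TM w L h τ fun x => F x τ) k' ι hι ho)

theorem nuc_old (hw : Wt w) (hσ : Rz L.length σ) (F : RF Ω (r + 1)) :
    nuc w L h σ k (F.re (old k)) = TM w L h σ fun x => F x σ :=
  nuc_re (k := 0) hw hσ F (old_inj k) fun _ => rfl

/-- disintegration -/
theorem nu_nuc (F : RF Ω (r + k + 1)) :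
    nu w L h (r + k) F = avm L r fun σ => nuc w L h σ k F := avm_avc k _

theorem nu_tw (F : RF Ω (1 + k + 1)) : nu w L h (1 + k) F =
    ∑ j ∈ Finset.range (L.length + 1), dm L 0 j * nuc w L h (tw L.length j) k F :=
  (nu_nuc F).trans (avm_one _)

theorem nuc_tw_zero (hw : Wt w) {j : ℕ} (hj : j ≤ L.length) (S : ℕ → Ω → Ω → ℝ) :
    nuc (r := 1) w L h (tw L.length j) 0 (ed S 0 1) = pi2 w L j (S j) h := by
  have := TM_pair (h := h) hw (rz_tw L.length j) (a := 0) (b := 1) (by decide) (S j)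
  rw [tw_01 hj] at this
  rw [← this, nuc_zero]
  simp only [ed, tw_01 hj]

theorem nuc_ed (hw : Wt w) (hσ : Rz L.length σ) (S : ℕ → Ω → Ω → ℝ) {a b : Fin (r + k + 1)}
    (hab : a ≠ b) : nuc w L h σ k (ed S a b) =
      avc L σ k fun τ => pi2 w L (τ a b) (S (τ a b)) h :=
  avc_congr hσ k fun τ hτ => TM_pair hw hτ hab (S (τ a b))

/-- product systems -/
theorem nuc_prd {Ω₁ Ω₂ : Type} [Fintype Ω₁] [Fintype Ω₂] {w₁ : Ω₁ → ℝ} {w₂ : Ω₂ → ℝ} (h₁ : Wt w₁)
    (h₂ : Wt w₂) {L : List (Lv (Ω₁ × Ω₂))} {T : List (Lv Ω₁ × Lv Ω₂)} (H : List.Forall₂ Prd L T)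
    (hσ : Rz L.length σ) (G₁ : RF Ω₁ (r + k + 1)) (G₂ : RF Ω₂ (r + k + 1)) (z₁ : Ω₁ → ℝ)
    (z₂ : Ω₂ → ℝ) :
    nuc (pw2 w₁ w₂) L (ad z₁ z₂) σ k
        (fun x τ => G₁ (fun a => (x a).1) τ * G₂ (fun a => (x a).2) τ) =
      avc L σ k fun τ =>
        TM w₁ (T.map Prod.fst) z₁ τ (G₁ · τ) * TM w₂ (T.map Prod.snd) z₂ τ (G₂ · τ) :=
  avc_congr hσ k fun τ hτ => TM_prd h₁ h₂ H hτ (G₁ · τ) (G₂ · τ) z₁ z₂

theorem dM_eq (hw : Wt w) (hσ : Rz L.length σ) {S : ℕ → Ω → Ω → ℝ} {c : ℝ}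
    (hc : ∀ y, S L.length y y = c) (F : RF Ω (r + 1)) :
    dM w L h S σ (fun x => F x σ) = nuc w L h σ 2 (Dr S F) := by
  have e1 := nuc_old (h := h) (k := 2) hw hσ
    fun x τ => F x τ * ∑ a, ∑ b ∈ Finset.univ.erase a, ed S a b x τ
  have e2 := nuc_re (h := h) (k := 1) (k' := 2) hw hσ (fun x τ => RF.re F Fin.succ x τ *
    ∑ b : Fin (r + 1), (ed S b.succ 0 x τ + ed S 0 b.succ x τ)) (Fin.succ_injective (r + 2))
    fun _ => rfl
  have e3 := nuc_old (h := h) (k := 1) hw hσ F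
  have e4 : TM w L h σ (fun x => F x σ * ∑ a, ∑ b, ed S a b x σ) =
      TM w L h σ (fun x => F x σ * ∑ a, ∑ b ∈ Finset.univ.erase a, ed S a b x σ) +
        (r + 1) * c * TM w L h σ fun x => F x σ := by
    rw [← TM_mul, ← TM_add]
    refine congrArg _ (funext fun x => ?_)
    simp only [fun a => (Finset.add_sum_erase _ (fun b => ed S a b x σ) (Finset.mem_univ a)).symm,
      Finset.sum_add_distrib]
    simp only [ed, hσ.self, hc, Finset.sum_const, Finset.card_univ, Fintype.card_fin, nsmul_eq_mul]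
    push_cast; ring
  have e5 : nuc w L h σ 1 (fun x τ => RF.re F Fin.succ x τ *
      (∑ b : Fin (r + 1), (ed S b.succ 0 x τ + ed S 0 b.succ x τ) + ed S 0 0 x τ)) =
      nuc w L h σ 1 (fun x τ => RF.re F Fin.succ x τ *
        ∑ b : Fin (r + 1), (ed S b.succ 0 x τ + ed S 0 b.succ x τ)) +
          c * TM w L h σ fun x => F x σ := by
    rw [← e3, ← nuc_mul, ← nuc_add]
    refine nuc_congr hσ fun x τ hτ => ?_
    have : ed S 0 0 x τ = c := by simp only [ed, hτ.self, hc]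
    rw [this, mul_add, mul_comm c]
    rfl
  have e6 := Ws_eq_up1 (L := L) (τ := σ) fun τ => TM w L h τ fun x => RF.re F Fin.succ x τ *
      (∑ b : Fin (r + 1), (ed S b.succ 0 x τ + ed S 0 b.succ x τ) + ed S 0 0 x τ)
  have e7 := Ws_eq_up1 (L := L) (τ := σ) fun τ => Ws L τ fun c k =>
    TM w L h (gr L.length τ c k) fun x => RF.re F (fun b => b.succ.succ) x (gr L.length τ c k) *
      ed S 0 1 x (gr L.length τ c k)
  have e8 := congrArg (up1 L · σ) (funext fun τ : SM (r + 2) => Ws_eq_up1 (L := L) (τ := τ) fun τ =>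
    TM w L h τ fun x => RF.re F (fun b => b.succ.succ) x τ * ed S 0 1 x τ)
  simp only [up1_mul] at e8
  refine (congrArg₂ (· + ·) (congrArg₂ (· - ·) (e4.trans (congrArg (· + _) e1.symm))
    (e6.trans (congrArg (_ * ·) (e5.trans (congrArg (· + _) e2.symm)))))
    (e7.trans (congrArg (_ * ·) e8))).trans ?_
  have e9 := nuc_mul (w := w) (L := L) (h := h) (σ := σ) (k := 2) ((r + 1) * (r + 2)) fun x τ =>
    RF.re F (fun b => b.succ.succ) x τ * ed S 0 1 x τ
  refine ((show ∀ a b c d e f : ℝ, a + b * c * d - b * (e + c * d) + b * ((((r + 1 : ℕ) : ℝ) + 1) * f)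
    = a - b * e + b * (r + 2) * f from fun _ _ _ _ _ _ => by push_cast; ring) _ _ _ _ _ _).trans ?_
  refine (congrArg₂ (· + ·) ((congrArg (_ - ·) (nuc_mul _ _).symm).trans (nuc_sub _ _).symm)
    e9.symm).trans ((nuc_add _ _).symm.trans (congrArg _ ?_))
  funext x τ
  exact (show ∀ f A B C p q : ℝ, f * A - p * (f * B) + q * (f * C) = f * (A - p * B + q * C) from
    fun _ _ _ _ _ _ => by ring) _ _ _ _ _ _

section path
variable {L : List (TL Ω)} {S : ℕ → Ω → Ω → ℝ} {c : ℝ}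

/-- **(G) given the base** -/
theorem hasDerivAt_nuc (hw : Wt w) {I : Set ℝ} (hI : IsOpen I) (hL : ∀ l ∈ L, l.C1 I) {u : ℝ}
    (hu : u ∈ I) (hS : Sacc L u = S) (hc : ∀ y, S L.length y y = c) (hσ : Rz L.length σ)
    (h : Ω → ℝ) (k : ℕ) (F : RF Ω (r + k + 1)) :
    HasDerivAt (fun t => nuc w (atL L t) h σ k F)
      (nuc w (atL L u) h σ (k + 2) (Dr (r := r + k) S F)) u := by
  have hl := Sp38.len_at L u
  rw [show (fun t => nuc w (atL L t) h σ k F) = _ from funext fun t => avc_at L t u k _]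
  refine hasDerivAt_avc (hl ▸ hσ) k fun τ hτ => ?_
  have := hasDerivAt_TM hw hI hL hu (hl ▸ hτ) h fun x => F x τ
  rwa [hS, dM_eq hw hτ (c := c) (by rwa [hl])] at this

theorem continuousOn_nuc (hw : Wt w) {I : Set ℝ} (hL : ∀ l ∈ L, l.OkC I) (hσ : Rz L.length σ)
    (h : Ω → ℝ) (k : ℕ) (F : RF Ω (r + k + 1)) :
    ContinuousOn (fun t => nuc w (atL L t) h σ k F) I := by
  have hl := Sp38.len_at L 0
  rw [show (fun t => nuc w (atL L t) h σ k F) = _ from funext fun t => avc_at L t 0 k _]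
  exact continuousOn_avc (hl ▸ hσ) k fun τ hτ => continuousOn_TM hw hL (hl ▸ hτ) h _

/-- **Taylor's formula given the base** -/
theorem taylor_nuc (hw : Wt w) {a b : ℝ} (hab : a < b) (hC : ∀ l ∈ L, l.OkC (Icc a b))
    (hL : ∀ l ∈ L, l.C1 (Ioo a b)) (hS : ∀ t ∈ Ioo a b, Sacc L t = S)
    (hc : ∀ y, S L.length y y = c) (hσ : Rz L.length σ) (h : Ω → ℝ) (k : ℕ) (F : RF Ω (r + 1)) :
    ∃ θ ∈ Ioo a b, nuc w (atL L b) h σ 0 F =
      ∑ i ∈ Finset.range (k + 1),
        nuc w (atL L a) h σ (2 * i) (Dn S F i) * (b - a) ^ i / i.factorial +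
      nuc w (atL L θ) h σ (2 * (k + 1)) (Dn S F (k + 1)) * (b - a) ^ (k + 1) / (k + 1).factorial :=
  Tay38.taylor_seq hab (fun i t => nuc w (atL L t) h σ (2 * i) (Dn S F i)) k
    (fun _ _ => continuousOn_nuc hw hC hσ h _ _)
    fun i _ t ht => hasDerivAt_nuc hw isOpen_Ioo hL ht (hS t ht) hc hσ h (2 * i) (Dn S F i)

/-- **comparison along a path** given the base -/
theorem nuc_cmp (hw : Wt w) {a b κ : ℝ} (hab : a ≤ b)
    (hC : ∀ l ∈ L, l.OkC (Icc a b)) (hL : ∀ l ∈ L, l.C1 (Ioo a b)) (hM : ∀ t, Mono 0 (atL L t))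
    (hc : ∀ t ∈ Ioo a b, ∃ c, ∀ y, Sacc L t L.length y y = c)
    (hS : ∀ t ∈ Ioo a b, ∀ j ≤ L.length, ∀ x y, |Sacc L t j x y| ≤ κ) (hσ : Rz L.length σ)
    (h : Ω → ℝ) (k : ℕ) {F : RF Ω (r + k + 1)} (hF : ∀ x τ, 0 ≤ F x τ) :
    nuc w (atL L b) h σ k F ≤ exp (4 * ((r + k : ℕ) + 1) ^ 2 * κ * (b - a)) *
      nuc w (atL L a) h σ k F ∧
    nuc w (atL L a) h σ k F ≤ exp (4 * ((r + k : ℕ) + 1) ^ 2 * κ * (b - a)) *
      nuc w (atL L b) h σ k F := by
  refine gron hab (continuousOn_nuc hw hC hσ h k F) fun t ht => ?_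
  obtain ⟨c, hc⟩ := hc t ht
  have hl := Sp38.len_at L t
  refine ⟨_, hasDerivAt_nuc hw isOpen_Ioo hL ht rfl hc hσ h k F, ?_⟩
  rw [← nuc_re (k' := k + 2) hw (hl ▸ hσ) F (ι := fun b => b.succ.succ)
    ((Fin.succ_injective _).comp (Fin.succ_injective _)) fun _ => rfl, ← nuc_mul]
  exact abs_nuc_le hw (hM t) (hl ▸ hσ) fun x τ hτ => (abs_Dr_le (r := r + k) (hS t ht) F x
    (hl ▸ hτ)).trans_eq (congrArg _ (abs_of_nonneg (hF _ _)))

end path

end Crest.Agent.T156.Cas

end
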