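import Crest.Agent.T156.ClSum_27
import Crest.Agent.T156.BdF_9
import Crest.Agent.T156.BdS2_75
import Crest.Agent.T156.TL1cD_74

/-!
# Row 156, block (L): the integral clauses of the bulk in node form (helper74)
-/

set_option autoImplicit false
set_option linter.unusedSectionVars false

noncomputable section

namespace Crest.Agent.T156.Alt.B74

open MeasureTheory Set Real
open Crest.Agent.R164.GC Crest.Agent.R339.B Crest.Agent.R339.Var Crest.Agent.T157.Pf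
open Crest.Agent.T156.Cut8 (LB int_mono)
open Crest.Agent.T156.Alt.Mp9 Crest.Agent.T156.Alt.L69 Crest.Agent.T156.Alt.C74
open Crest.Agent.T156.Alt.B75

variable {S : Sc} {M : Md} {m : ℕ} {a E Λ G1 l0 l V X Lg X2 X3 G0 ε K θ W lam ka th k0 N Lq : ℝ}
  {η : ℝ → ℝ} {Gn : ℕ → Prop} {u v : ℕ} {en on c al om Ga : ℕ → ℝ}

/-- the mesh -/
theorem mesh (h : Cl S M) (A5 : 5 ≤ S.A) (hF : S.F ^ 2 ≤ S.n) :
    S.F ^ 3 * S.v ≤ S.C * (1 / (S.n : ℝ) ^ 3) := by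
  have n0 := h.N0
  have n1 : (1 : ℝ) ≤ S.n := Nat.one_le_cast.2 h.n1
  have v0 := v_pos h
  have F1 := h.F1
  have a1 : S.F ^ 3 ≤ (S.n : ℝ) ^ 2 := (pow_le_pow_right₀ F1 (show 3 ≤ 2 * 2 by norm_num)).trans
    (by rw [pow_mul]; exact pow_le_pow_left₀ (sq_nonneg _) hF 2)
  have a2 : S.v * (S.n : ℝ) ^ 5 ≤ S.C :=
    (mul_le_mul_of_nonneg_left (pow_le_pow_right₀ n1 A5) v0.le).trans h.v2
  rw [mul_one_div, le_div_iff₀ (by positivity)]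
  calc S.F ^ 3 * S.v * (S.n : ℝ) ^ 3 ≤ (S.n : ℝ) ^ 2 * S.v * (S.n : ℝ) ^ 3 := by gcongr
    _ = S.v * (S.n : ℝ) ^ 5 := by ring
    _ ≤ S.C := a2

theorem v_mesh (h : Cl S M) (A5 : 5 ≤ S.A) : S.v ≤ S.C * (1 / (S.n : ℝ) ^ 3) := by
  have n0 := h.N0
  have n1 : (1 : ℝ) ≤ S.n := Nat.one_le_cast.2 h.n1
  rw [mul_one_div, le_div_iff₀ (by positivity)]
  exact (mul_le_mul_of_nonneg_left (pow_le_pow_right₀ n1 (by omega)) (v_pos h).le).trans h.v2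

theorem n_eta (h : Cl S M) (L : LN E S M l0 l V X Lg X2 X3 G0 η) (E0 : 0 ≤ E) {t : ℝ} (t0 : 0 < t)
    (h1 : l ≤ t) (h2 : t ≤ S.C) : 1 / (S.n : ℝ) ≤ η t := by
  have a := L.ηb t h1 h2
  have := X2_nn h L E0
  have := X3_nn h L E0
  have := G0_nn h L E0
  have := uw_nn (Lg := Lg) h t0
  have : 0 ≤ min (S.ms t / t) t := le_min (div_pos (h.ms_pos t0.le) t0).le t0.le
  have : 0 ≤ uw S Lg t ^ 3 + uw S Lg t ^ 2 * min (S.ms t / t) t +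
    (√(Lg * cr S t * L69.gg S t) + G0 + X2) * (uw S Lg t + √X2) + X3 := by positivity
  linarith

theorem num_F {I I1 I2 I3 κ C v W x y : ℝ} (C1 : 1 ≤ C) (v0 : 0 ≤ v) (v1 : v ≤ 1) (x0 : 0 ≤ x)
    (y0 : 0 ≤ y) (I20 : 0 ≤ I2) (κ1 : κ * (2048 * C ^ 2) ≤ 1) (hv : v ≤ C * y) {w : ℝ}
    (hw : w ≤ C * y) (hW : 4 * C ^ 4 ≤ W)
    (h : I ≤ I1 + κ * (2048 * C ^ 2 * I2 + 2048 * C ^ 4 * v ^ 2 * (2 * C)))
    (h1 : I1 ≤ W / (2 * C) * (x + w)) (h2 : I2 ≤ I3) : I ≤ W * (x + y) + I3 := by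
  have C0 : 0 < C := by linarith
  have W0 : 0 ≤ W := le_trans (by positivity) hW
  have a1 := mul_le_mul_of_nonneg_right κ1 I20
  have a2 := mul_le_mul_of_nonneg_right κ1 (show 0 ≤ 2 * C ^ 3 * v ^ 2 by positivity)
  have a3 : v ^ 2 ≤ C * y := by nlinarith
  have a4 := mul_le_mul_of_nonneg_left a3 (show 0 ≤ 2 * C ^ 3 by positivity)
  have a5 := mul_le_mul_of_nonneg_right hW y0
  have a6 : W / (2 * C) ≤ W := div_le_self W0 (by linarith)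
  have a7 := mul_le_mul_of_nonneg_right a6 x0
  have a8 := mul_le_mul_of_nonneg_left hw (show 0 ≤ W / (2 * C) by positivity)
  have a9 : W / (2 * C) * (C * y) = W * y / 2 := by field_simp
  nlinarith

/-- **`Bk.hF`** -/
theorem hF_of (B : Bd S M m a (2 * S.C) Gn u v en on c (alB M Λ η) om Ga k0 ka th ε)
    (ce : CeiG S M G1) (L : LN E S M l0 l V X Lg X2 X3 G0 η) (A5 : 5 ≤ S.A)
    (hE : 2 * S.C ^ 2 ≤ E) (Λ1 : 1 ≤ Λ) (l1 : 1 ≤ lam) (K0 : 0 ≤ K) (θ0 : 0 < θ) (θ1 : θ ≤ 1)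
    (Vl : V ≤ cr S l * l) (cru : ∀ k ≤ S.Jp, M.rb m a k ≤ lam * cl S V (max (M.z k) l0))
    (lH : LB (2 * S.C) (HH M S m a (2 * S.C)))
    (hε : 8192 * ((200 + 48 * K) * S.C ^ 2 * ε) ^ 2 ≤ θ ^ 2)
    (hW : 10 ^ 16 * S.C ^ 41 * ((218 + 48 * K) ^ 2 * Λ ^ 2 * lam) ≤ θ ^ 2 * W)
    (k : ℕ) (t0 t' : ℝ) (uk : u ≤ k) (kv : k ≤ v) (gk : Gn k) (hl : l ≤ t0) (h1 : t0 ≤ M.s u)
    (h4 : 4 * S.C ^ 4 * t0 ≤ t') (h5 : 12 * S.C ^ 7 * t0 < 1) (h2 : M.s k ≤ t')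
    (h3 : sb M m a (k + 1) ≤ t') :
    ∫ r in sb M m a (u + 1)..sb M m a (k + 1), fB M S m a Gn u v (alB M Λ η) ε K θ r ≤
      W * (cB M S η t0 t' + S.F ^ 3 * S.ms t0 * t0 ^ 2 * max (t0 - sb M m a (u + 1)) 0 +
        1 / (S.n : ℝ) ^ 3) + ∫ r in sb M m a (u + 1)..sb M m a (k + 1),
        HH M S m a (2 * S.C) r * uu M S m a (2 * S.C) r := by
  have A := B.A
  have h := A.cl
  have C1 := h.C1
  have C0 := h.C0
  have F1 := h.F1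
  have n0 := h.N0
  have n1 : (1 : ℝ) ≤ S.n := Nat.one_le_cast.2 h.n1
  have v0 := v_pos h
  have vJ := B.vJ
  have i3 := h.i3
  have i2 := h.i2
  have C2 : 1 ≤ S.C ^ 2 := one_le_pow₀ C1
  have E1 : 1 ≤ E := by linarith
  have vl := v_le h
  have j0 : 0 < M.s S.jl := (pos_iff_pos_of_mul_pos (v0.trans_le vl)).1 C0
  have l00 : 0 < l0 := lt_of_lt_of_le (mul_pos (by linarith) j0) L.l0s
  have lp : 0 < l := l00.trans_le L.l0l
  have hj : M.s (S.jl + 1) ≤ t0 := by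
    have b1 := (h.ss S.jl (by omega)).2
    have b2 := mul_le_mul_of_nonneg_left vl C0.le
    have b3 := mul_le_mul_of_nonneg_right hE j0.le
    have b4 := mul_le_mul_of_nonneg_right C2 j0.le
    linarith [L.l0s, L.l0l]
  have Fn : S.F ^ 2 ≤ S.n :=
    ((le_mul_of_one_le_left (sq_nonneg _) E1).trans L.Lg0).trans L.Lg1
  have mv := mesh h A5 Fn
  have C4 : 1 ≤ S.C ^ 4 := one_le_pow₀ C1
  have k1 : (218 : ℝ) ≤ 218 + 48 * K := by linarith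
  have k2 : 218 + 48 * K ≤ (218 + 48 * K) * S.C ^ 4 := le_mul_of_one_le_right (by linarith) C4
  have k3 : (218 + 48 * K) * S.C ^ 4 ≤ (218 + 48 * K) * S.C ^ 4 * Λ :=
    le_mul_of_one_le_right (by linarith) Λ1
  have me : meB S m K ≤ (218 + 48 * K) * S.C ^ 4 * Λ * (1 / (S.n : ℝ)) := by
    have b1 : (14 : ℝ) / (m + 1) ≤ 14 * (1 / (S.n : ℝ)) := by
      rw [mul_one_div]
      exact div_le_div_of_nonneg_left (by norm_num) n0
        (by linarith [(Nat.cast_le.2 A.mem.m1 : (S.n : ℝ) ≤ m)])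
    have b2 : S.F * S.v ≤ S.C * (1 / (S.n : ℝ)) :=
      ((mul_le_mul_of_nonneg_right (le_self_pow₀ F1 three_ne_zero) v0.le).trans mv).trans
        (mul_le_mul_of_nonneg_left (one_div_le_one_div_of_le n0 (le_self_pow₀ n1 three_ne_zero))
          C0.le)
    have b3 := mul_le_mul_of_nonneg_left b2 (show 0 ≤ (204 + 48 * K) * S.C ^ 3 by positivity)
    have b4 := mul_le_mul_of_nonneg_right k3 (show 0 ≤ 1 / (S.n : ℝ) by positivity)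
    have b5 := mul_le_mul_of_nonneg_right C4 (show 0 ≤ 14 * (1 / (S.n : ℝ)) by positivity)
    unfold meB
    linarith
  have W1 : 10 ^ 16 * S.C ^ 41 ≤ W := by
    have b1 : 1 ≤ (218 + 48 * K) ^ 2 * Λ ^ 2 * lam := one_le_mul_of_one_le_of_one_le
      (one_le_mul_of_one_le_of_one_le (one_le_pow₀ (by linarith)) (one_le_pow₀ Λ1)) l1
    have b2 := (le_mul_of_one_le_right (by positivity) b1).trans hW
    have b3 : 0 < W := (pos_iff_pos_of_mul_pos (lt_of_lt_of_le (by positivity) b2)).1 (by positivity)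
    exact b2.trans (mul_le_of_le_one_left b3.le (pow_le_one₀ θ0.le θ1))
  have hN := B.intN9 ce L.HJ (Λ := (218 + 48 * K) * S.C ^ 4 * Λ) (W := W / (2 * S.C)) lp
    (show 1 ≤ 2 * lam by linarith) (by linarith) K0 θ0
    (cru_of_cl9 h l00 L.l0l (by linarith) Vl cru) L.ηa L.η2 (fun y y1 y2 => by
      have b1 : l ≤ M.s y := (hl.trans h1).trans (h.sm y1)
      have b2 := n_eta h L (by linarith) (lp.trans_le b1) b1
        ((h.sm (show y ≤ S.Jp by omega)).trans h.sT)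
      have b3 : 0 ≤ η (M.s y) := le_trans (by positivity) b2
      refine ⟨by unfold alB; positivity, mul_le_mul_of_nonneg_right
        (mul_le_mul_of_nonneg_right (by linarith) (by linarith)) b3,
        me.trans (mul_le_mul_of_nonneg_left b2 (by linarith))⟩)
    uk kv hj hl h1 h2 h3 h4 h5 (by
      rw [← mul_div_assoc, le_div_iff₀ (by positivity)]
      refine le_trans ?_ hW
      have : 0 ≤ S.C ^ 41 * ((218 + 48 * K) ^ 2 * Λ ^ 2 * lam) := by positivity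
      linarith [show 2 * 10 ^ 15 * S.C ^ 32 * (((218 + 48 * K) * S.C ^ 4 * Λ) ^ 2 * (2 * lam)) *
        (2 * S.C) = 8 * 10 ^ 15 * (S.C ^ 41 * ((218 + 48 * K) ^ 2 * Λ ^ 2 * lam)) by ring])
  have p0 := B.A_pos
  have pq := A.sb_mono (Nat.succ_le_succ uk)
  have qT := (B.mem (k + 1) (Nat.succ_le_succ kv)).2
  have t00 : 0 ≤ t0 := lp.le.trans hl
  refine num_F C1 v0.le ?_ ?_ (by positivity) ?_ ?_ (v_mesh h A5) mv ?_
    (B.intF K θ le_rfl uk kv B.gu gk) hN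
    (int_mono (A.LB_mm.mul A.LB_uu'.sq) (lH.mul A.LB_uu') p0.le pq qT fun r r1 _ =>
      B.mass (p0.le.trans r1.le))
  · have b1 := B.me.trans ((h.sm (show u ≤ S.Jp by omega)).trans h.sT)
    have b2 : S.C ≤ S.C ^ 2 := le_self_pow₀ C1 two_ne_zero
    by_contra b3
    linarith [mul_le_mul_of_nonneg_left (not_le.1 b3).le (sq_nonneg S.C)]
  · have := cB_nn9 h η t0 t'
    have := A.ms_pos t00
    positivity
  · exact intervalIntegral.integral_nonneg pq fun r r1 =>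
      mul_nonneg (A.mm_pos (p0.le.trans r1.1)).le (sq_nonneg _)
  · rw [div_mul_eq_mul_div, div_le_one (by positivity)]
    linarith [show 4 * ((200 + 48 * K) * S.C * ε) ^ 2 * (2048 * S.C ^ 2) =
      8192 * ((200 + 48 * K) * S.C ^ 2 * ε) ^ 2 by ring]
  · have : S.C ^ 4 ≤ S.C ^ 41 := pow_le_pow_right₀ C1 (by norm_num)
    linarith

/-- the square of the clock density -/
theorem pw_le (B : Bd S M m a (2 * S.C) Gn u v en on (cc2 M S m a Λ Lg X2) al om Ga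
      (2602 * (Λ * X2)) ka th ε) {p q t0 t' Q : ℝ} (p0 : 0 ≤ p) (pq : p ≤ q) (hq : q < M.s S.J)
    (h0 : t0 ≤ M.s u) (h3 : q ≤ t')
    (hQ : ∑ y ∈ (Finset.range S.J).filter fun y => t0 ≤ M.s y ∧ M.s y ≤ 2 * t',
      M.dz m a y * min (E61.u4 M m a y ^ 2) (2 * Λ ^ 2 * G89.Ug S Lg (M.s y) ^ 2) ^ 2 ≤ Q) :
    ∫ t in p..q, pw M S (cc2 M S m a Λ Lg X2) u v (2602 * (Λ * X2)) t ^ 2 ≤
      Λ ^ 2 * (2 * 10 ^ 7 * S.C ^ 7 * (t' * X2 ^ 2) + 4 * S.C ^ 6 * Q) := by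
  have A := B.A
  have h := A.cl
  have C1 := h.C1
  have C0 := h.C0
  have v0 := v_pos h
  have vJ := B.vJ
  have hu := B.hu
  have i1 := h.i1
  have t0' : 0 ≤ t' := (p0.trans pq).trans h3
  have cv : S.v ≤ S.C * S.v := le_mul_of_one_le_left v0.le C1
  have cv2 : S.C * S.v ≤ S.C ^ 2 * S.v :=
    mul_le_mul_of_nonneg_right (le_self_pow₀ C1 two_ne_zero) v0.le
  have me := B.me
  set U := (Finset.Ioc u v).filter fun y => M.s y ≤ q + S.C * S.v with hU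
  have mem : ∀ y ∈ U, u < y ∧ y ≤ v ∧ M.s y ≤ 2 * t' ∧ S.v ≤ t' := fun y hy => by
    rw [hU, Finset.mem_filter, Finset.mem_Ioc] at hy
    have := h.sm hy.1.1.le
    exact ⟨hy.1.1, hy.1.2, by linarith [hy.2], by linarith [hy.2]⟩
  have a1 : ∑ y ∈ U, (M.z y - M.z (y - 1)) ≤ 4 * S.C * t' := by
    rcases U.eq_empty_or_nonempty with e | e
    · rw [e, Finset.sum_empty]; positivity
    · obtain ⟨b1, b2, b3, b4⟩ := mem _ (U.max'_mem e)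
      refine (Finset.sum_le_sum_of_subset_of_nonneg (t := Finset.Ioc u (U.max' e))
        (fun y hy => Finset.mem_Ioc.2 ⟨(mem y hy).1, U.le_max' y hy⟩) fun y _ _ =>
          A.dz_nn y).trans ?_
      rw [At.sum_dz M b1.le]
      have b5 := (h.z_s (k := U.max' e) (by omega) (by omega)).2
      have b6 := mul_le_mul_of_nonneg_left (show M.s (U.max' e) + 2 * S.v ≤ 4 * t' by linarith)
        C0.le
      linarith [(E61.lg A).z_nonneg u]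
  have a2 : ∑ y ∈ U, (M.z y - M.z (y - 1)) *
      min (E61.u4 M m a y ^ 2) (2 * Λ ^ 2 * G89.Ug S Lg (M.s y) ^ 2) ^ 2 ≤ Q := by
    refine le_trans ?_ hQ
    rw [Finset.sum_congr rfl fun y hy => by
      rw [← Md67.dz_up (m := m) (a := a) h.leg (show 0 < y by have := (mem y hy).1; omega)]]
    refine Finset.sum_le_sum_of_subset_of_nonneg (fun y hy => ?_) fun y _ _ =>
      mul_nonneg ((E61.lg A).dz_nonneg y) (sq_nonneg _)
    obtain ⟨b1, b2, b3, -⟩ := mem y hy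
    exact Finset.mem_filter.2 ⟨Finset.mem_range.2 (by omega), h0.trans (h.sm b1.le), b3⟩
  have a3 : ∑ y ∈ U, (M.z y - M.z (y - 1)) * cc2 M S m a Λ Lg X2 y ^ 2 ≤
      2 * Λ ^ 2 * Q + 2 * (Λ * X2) ^ 2 * (4 * S.C * t') := by
    refine le_trans ?_ (add_le_add (mul_le_mul_of_nonneg_left a2 (by positivity))
      (mul_le_mul_of_nonneg_left a1 (by positivity)))
    rw [Finset.mul_sum, Finset.mul_sum, ← Finset.sum_add_distrib]
    refine Finset.sum_le_sum fun y _ => ?_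
    unfold cc2 ccB
    generalize min (E61.u4 M m a y ^ 2) (2 * Λ ^ 2 * G89.Ug S Lg (M.s y) ^ 2) = g
    linarith [mul_nonneg (A.dz_nn y) (sq_nonneg (Λ * g - Λ * X2))]
  have a4 := B.int_pw p0 pq hq
  have a5 := mul_le_mul_of_nonneg_left a3 (show 0 ≤ 2 * S.C ^ 6 by positivity)
  have a6 := mul_le_mul_of_nonneg_left (show q - p ≤ t' by linarith)
    (show 0 ≤ 2 * (2602 * (Λ * X2)) ^ 2 by positivity)
  have a7 := mul_le_mul_of_nonneg_right (one_le_pow₀ C1 : 1 ≤ S.C ^ 7)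
    (show 0 ≤ Λ ^ 2 * (t' * X2 ^ 2) by positivity)
  have a8 : 0 ≤ S.C ^ 7 * (Λ ^ 2 * (t' * X2 ^ 2)) := by positivity
  linarith

theorem num_W {I C Λ Lq W x Y Z y e : ℝ} (C1 : 1 ≤ C) (Λ1 : 1 ≤ Λ) (L1 : 1 ≤ Lq) (x0 : 0 ≤ x)
    (Y0 : 0 ≤ Y) (Z0 : 0 ≤ Z) (y0 : 0 ≤ y) (hW : 10 ^ 8 * C ^ 10 * (Λ ^ 2 * Lq) ≤ W)
    (h : I ≤ Λ ^ 2 * (2 * 10 ^ 7 * C ^ 7 * x + 4 * C ^ 6 * (Lq * (Y + Z))))
    (he : e ≤ 2 ^ 18 * C ^ 10 * y) : 2 * I + e ≤ W * (x + Y + y + Z) := by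
  have C0 : 0 < C := by linarith
  have b1 : 1 ≤ Λ ^ 2 := one_le_pow₀ Λ1
  have b2 : Λ ^ 2 ≤ Λ ^ 2 * Lq := le_mul_of_one_le_right (by positivity) L1
  have c7 : C ^ 7 ≤ C ^ 10 := pow_le_pow_right₀ C1 (by norm_num)
  have c6 : C ^ 6 ≤ C ^ 10 := pow_le_pow_right₀ C1 (by norm_num)
  have a1 : C ^ 7 * Λ ^ 2 ≤ C ^ 10 * (Λ ^ 2 * Lq) :=
    mul_le_mul c7 b2 (by positivity) (by positivity)
  have a2 : C ^ 6 * (Λ ^ 2 * Lq) ≤ C ^ 10 * (Λ ^ 2 * Lq) :=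
    mul_le_mul_of_nonneg_right c6 (by positivity)
  have a3 : C ^ 10 ≤ C ^ 10 * (Λ ^ 2 * Lq) := le_mul_of_one_le_right (by positivity) (b1.trans b2)
  have a0 : 0 ≤ C ^ 10 * (Λ ^ 2 * Lq) := by positivity
  have d1 := mul_le_mul_of_nonneg_right (show 4 * 10 ^ 7 * (C ^ 7 * Λ ^ 2) ≤ W by linarith) x0
  have d2 := mul_le_mul_of_nonneg_right (show 8 * (C ^ 6 * (Λ ^ 2 * Lq)) ≤ W by linarith)
    (add_nonneg Y0 Z0)
  have d3 := mul_le_mul_of_nonneg_right (show 2 ^ 18 * C ^ 10 ≤ W by linarith) y0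
  linarith

section clock

variable (B : Bd S M m a (2 * S.C) Gn u v en on (cc2 M S m a Λ Lg X2) al om Ga
    (2602 * (Λ * X2)) ka th ε) (A5 : 5 ≤ S.A) (Λ1 : 1 ≤ Λ) (L1 : 1 ≤ Lq) (N0 : 0 ≤ N)
  (hW : 10 ^ 8 * S.C ^ 10 * (Λ ^ 2 * Lq) ≤ W)
  (hQ : ∀ t0 t1 Y, l ≤ t0 → 12 * S.C ^ 7 * t0 < 1 → L4 S V X t0 (min t1 S.C) Y → 0 ≤ Y →
    ∑ y ∈ (Finset.range S.J).filter fun y => t0 ≤ M.s y ∧ M.s y ≤ t1,
      M.dz m a y * min (E61.u4 M m a y ^ 2) (2 * Λ ^ 2 * G89.Ug S Lg (M.s y) ^ 2) ^ 2 ≤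
      Lq * (Y + if 1 ≤ 8 * S.C ^ 5 * t1 then N + cB M S η t0 S.C else 0))
include B A5 Λ1 L1 N0 hW hQ

theorem pw_W {p q t0 t' Y e : ℝ} (p0 : 0 ≤ p) (pq : p ≤ q) (hq : q < M.s S.J) (hl : l ≤ t0)
    (h1 : t0 ≤ M.s u) (h5 : 12 * S.C ^ 7 * t0 < 1) (h3 : q ≤ t')
    (h4 : L4 S V X t0 (min (2 * t') S.C) Y) (Y0 : 0 ≤ Y)
    (he : e ≤ 2 ^ 18 * S.C ^ 10 * (1 / (S.n : ℝ) ^ 3)) :
    2 * (∫ t in p..q, pw M S (cc2 M S m a Λ Lg X2) u v (2602 * (Λ * X2)) t ^ 2) + e ≤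
      W * (t' * X2 ^ 2 + Y + 1 / (S.n : ℝ) ^ 3 +
        if 1 ≤ 16 * S.C ^ 5 * t' then N + cB M S η t0 S.C else 0) := by
  have q := hQ t0 (2 * t') Y hl h5 h4 Y0
  rw [show 8 * S.C ^ 5 * (2 * t') = 16 * S.C ^ 5 * t' by ring] at q
  refine num_W B.A.cl.C1 Λ1 L1 (mul_nonneg ((p0.trans pq).trans h3) (sq_nonneg _)) Y0 ?_
    (by positivity) hW (pw_le B p0 pq hq h1 h3 q) he
  split_ifs
  · exact add_nonneg N0 (cB_nn9 B.A.cl η _ _)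
  · exact le_rfl

/-- **`Bk.hΩ`** -/
theorem hΩ_of (hka : 2 ^ 16 * S.C ^ 4 * ka ^ 2 ≤ θ ^ 2) (k : ℕ) (t0 t' Y : ℝ) (uk : u ≤ k)
    (kv : k ≤ v) (gk : Gn k) (hl : l ≤ t0) (h1 : t0 ≤ M.s u) (h5 : 12 * S.C ^ 7 * t0 < 1)
    (h3 : sb M m a (k + 1) ≤ t') (h4 : L4 S V X t0 (min (2 * t') S.C) Y) (Y0 : 0 ≤ Y) :
    ∫ r in sb M m a (u + 1)..sb M m a (k + 1),
      pw2 M S m a Gn (cc2 M S m a Λ Lg X2) u v (2602 * (Λ * X2)) ka r ^ 2 ≤
      W * (t' * X2 ^ 2 + Y + 1 / (S.n : ℝ) ^ 3 +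
        if 1 ≤ 16 * S.C ^ 5 * t' then N + cB M S η t0 S.C else 0) +
      θ ^ 2 * ∫ r in sb M m a (u + 1)..sb M m a (k + 1), uu M S m a (2 * S.C) r ^ 4 := by
  have A := B.A
  have h := A.cl
  have C1 := h.C1
  have C0 := h.C0
  have v0 := v_pos h
  have vJ := B.vJ
  have i3 := h.i3
  have pq := A.sb_mono (Nat.succ_le_succ uk)
  have v1 : S.v ≤ 1 := by
    have b1 := B.me.trans ((h.sm (show u ≤ S.Jp by omega)).trans h.sT)
    have b2 : S.C ≤ S.C ^ 2 := le_self_pow₀ C1 two_ne_zero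
    by_contra b3
    linarith [mul_le_mul_of_nonneg_left (not_le.1 b3).le (sq_nonneg S.C)]
  have a1 : ka ^ 2 * S.v ^ 4 ≤ S.C * (1 / (S.n : ℝ) ^ 3) :=
    ((mul_le_of_le_one_left (by positivity) (pow_le_one₀ B.ka0 B.ka1)).trans
      (pow_le_of_le_one v0.le v1 four_ne_zero)).trans (v_mesh h A5)
  have a2 := mul_le_mul_of_nonneg_left a1 (show 0 ≤ 2 ^ 18 * S.C ^ 9 by positivity)
  have a3 := pw_W B A5 Λ1 L1 N0 hW hQ (e := 2 ^ 18 * S.C ^ 9 * (ka ^ 2 * S.v ^ 4)) B.A_pos.le pq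
    ((A.sb_mono (Nat.succ_le_succ kv)).trans_lt B.hJ) hl h1 h5 h3 h4 Y0 (by linarith)
  have a4 := B.intW le_rfl uk kv B.gu gk
  have a5 := mul_le_mul_of_nonneg_right hka (intervalIntegral.integral_nonneg (μ := volume)
    (f := fun r => uu M S m a (2 * S.C) r ^ 4) pq fun r _ => by positivity)
  linarith

/-- **the `r ^ 2` clause of `Bk.ab`** -/
theorem lost_of : ∃ r, 0 ≤ r ∧
    Om M (cc2 M S m a Λ Lg X2) u v (lvr 1 (lh M (2 * S.C)) (sb M m a (u + 1))) -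
      Om M (cc2 M S m a Λ Lg X2) u v (M.z u) ≤ r ∧
    ∀ t0 t' Y, l ≤ t0 → t0 ≤ M.s u → 12 * S.C ^ 7 * t0 < 1 → sb M m a (u + 1) ≤ t' →
      L4 S V X t0 (min (2 * t') S.C) Y → 0 ≤ Y →
      r ^ 2 ≤ W * sb M m a (u + 1) * (t' * X2 ^ 2 + Y + 1 / (S.n : ℝ) ^ 3 +
        if 1 ≤ 16 * S.C ^ 5 * t' then N + cB M S η t0 S.C else 0) := by
  obtain ⟨r, r0, r1, r2⟩ := B.lost
  refine ⟨r, r0, r1, fun t0 t' Y hl h1 h5 h3 h4 Y0 => r2.trans ?_⟩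
  have h := B.A.cl
  have C0 := h.C0
  have n0 := h.N0
  rw [mul_comm W, mul_assoc]
  refine mul_le_mul_of_nonneg_left (pw_W B A5 Λ1 L1 N0 hW hQ le_rfl B.A_pos.le
    ((B.A.sb_mono (Nat.succ_le_succ B.uv.le)).trans_lt B.hJ) hl h1 h5 h3 h4 Y0
    ((v_mesh h A5).trans (mul_le_mul_of_nonneg_right ?_ (by positivity)))) B.A_pos.le
  have : S.C ≤ S.C ^ 10 := le_self_pow₀ h.C1 (by norm_num)
  linarith

end clock

end Crest.Agent.T156.Alt.B74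

end
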