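import Crest.Agent.T156.Q4A_49
import Crest.Agent.T156.LInt_31

/-!
# Row 156, block (L): the square of the label clock (helper49)
-/

set_option autoImplicit false

noncomputable section

namespace Crest.Agent.T156.Alt.L31

open Real Crest.Agent.T156.Alt.L69

/-- **(Q4S')** -/
def Q4S' : Prop := CL fun E Λ S M m a => ∀ p lam K t0 t1 Y, Hx E lam S M m a p → 1 ≤ K →
  p.l ≤ t0 → L4 S p.V p.X t0 (min t1 S.C) Y → 0 ≤ Y →
  ∑ y ∈ (Finset.range S.J).filter fun y => t0 ≤ M.s y ∧ M.s y ≤ t1,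
    M.dz m a y * min (E61.u4 M m a y ^ 2) (K * G89.Ug S p.Lg (M.s y) ^ 2) ^ 2 ≤
    Λ * lam ^ 5 * K ^ 2 * (Y + if 1 ≤ 8 * S.C ^ 5 * t1 then p.N else 0) ∧ 0 ≤ p.N

theorem q4S' : Q4S' := fun C => (V49.q4 C).mono fun _ H ε hε η hη => (H ε hε η hη).mono
  fun _ H S M b1 b2 b3 h m a I _ lam K t0 t1 Y x K1 ht l4 Y0 =>
    H S M b1 b2 b3 h m a I _ _ _ _ _ _ _ _ _ _ _ _ _ _ _ _ _ _ _ _ _ _ _ lam K t0 t1 Y x.ln x.lp x.lc
      x.ap.all x.l1 x.cru K1 (x.ln.l0l.trans ht) l4 Y0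

end Crest.Agent.T156.Alt.L31

end
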