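import Crest.Agent.T156.BdK_75
import Crest.Agent.T156.BuH_74
import Crest.Agent.T156.Q4S_49

/-!
# Row 156, block (L): **(BuS)** (helper75)
-/

set_option autoImplicit false

noncomputable section

namespace Crest.Agent.T156.Alt.B75

open MeasureTheory Set Real
open Crest.Agent.R164.GC Crest.Agent.R339.B Crest.Agent.R339.Var Crest.Agent.T157.Pf
open Crest.Agent.T156.Gap27 (HLip)
open Crest.Agent.T156.Alt.Mp9 Crest.Agent.T156.Alt.L69 Crest.Agent.T156.Alt.C74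
open Crest.Agent.T156.Alt.L31

variable {S : Sc} {M : Md} {m : ℕ} {a E lam W L Λ K θ0 : ℝ} {p : Pa} {Gn : ℕ → Prop} {V0 u v : ℕ}

theorem eps_num {C ε : ℝ} (C1 : 1 ≤ C) (K1 : 1 ≤ K) (h0 : 0 < θ0) (h1 : θ0 ≤ 1)
    (e : ε * (10 ^ 5 * (K * C ^ 2)) = θ0) : 0 < ε ∧ ε ≤ 1 ∧
    (17 + 24 * K + 96 * C ^ 2) * ε + (24 * K * ε) ^ 2 / θ0 ≤ θ0 ∧
    8192 * ((200 + 48 * K) * C ^ 2 * ε) ^ 2 ≤ θ0 ^ 2 := by
  have C2 : 1 ≤ C ^ 2 := one_le_pow₀ C1
  have a1 : K ≤ K * C ^ 2 := le_mul_of_one_le_right (by linarith) C2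
  have a2 : C ^ 2 ≤ K * C ^ 2 := le_mul_of_one_le_left (by linarith) K1
  have ε0 : 0 < ε := (mul_pos_iff_of_pos_right (show 0 < 10 ^ 5 * (K * C ^ 2) by linarith)).1
    (by linarith)
  have b0 := mul_le_mul_of_nonneg_left (K1.trans a1) ε0.le
  have b1 := mul_le_mul_of_nonneg_left a1 ε0.le
  have b2 := mul_le_mul_of_nonneg_left a2 ε0.le
  refine ⟨ε0, by linarith, ?_, ?_⟩
  · have : (24 * K * ε) ^ 2 / θ0 ≤ θ0 / 2 := by
      rw [div_le_iff₀ h0]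
      have := pow_le_pow_left₀ (by positivity) (show 24 * K * ε ≤ θ0 / 2 by linarith) 2
      nlinarith
    linarith
  · have := pow_le_pow_left₀ (by positivity)
      (show (200 + 48 * K) * C ^ 2 * ε ≤ θ0 / 100 by linarith) 2
    nlinarith

theorem bk_num (c : Cl S M) (hm : S.In m a) (H : Hx E lam S M m a p) (lW : lam ≤ W)
    (WE : W ^ 1000 ≤ E) (G : Ng E W S M m a p Gn V0) (hu : Vs M p Gn u) (hv : Ve S M m a Gn V0 v)
    (uv : u < v) (A5 : 5 ≤ S.A) (θ1 : S.θ ≤ 1) (vn : S.v ≤ 1 / S.n) (K1 : 1 ≤ K)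
    (hA : HLip Pr.AA (2 * S.C) K) (hN : HLip Pr.NN (2 * S.C) K) (h0 : 0 < θ0) (h1 : θ0 ≤ 1)
    (hL : 10 ^ 21 * S.C ^ 41 * K ^ 2 ≤ θ0 ^ 2 * L) (LE : L ^ 18 ≤ E) (LΛ : L ^ 2 ≤ Λ)
    (N0 : 0 ≤ p.N)
    (hQ : ∀ t0 t1 Y, p.l ≤ t0 → L4 S p.V p.X t0 (min t1 S.C) Y → 0 ≤ Y →
      ∑ y ∈ (Finset.range S.J).filter fun y => t0 ≤ M.s y ∧ M.s y ≤ t1,
        M.dz m a y * min (E61.u4 M m a y ^ 2) (2 * W ^ 2 * G89.Ug S p.Lg (M.s y) ^ 2) ^ 2 ≤
        L * lam ^ 5 * (2 * W ^ 2) ^ 2 * (Y + if 1 ≤ 8 * S.C ^ 5 * t1 then p.N else 0)) :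
    ∃ r1 r2 ω β f, Bk (Λ * W ^ 30) θ0 S M m a p Gn u v r1 r2 ω β f := by
  have C1 := c.C1
  have C0 := c.C0
  have F1 := c.F1
  have l1 := H.l1
  have W1 : 1 ≤ W := l1.trans lW
  have K2 : 1 ≤ K ^ 2 := one_le_pow₀ K1
  have t2 : θ0 ^ 2 ≤ 1 := pow_le_one₀ h0.le h1
  have x1 : ∀ i, i ≤ 41 → S.C ^ i ≤ S.C ^ 41 * K ^ 2 := fun i h =>
    (pow_le_pow_right₀ C1 h).trans (le_mul_of_one_le_right (by positivity) K2)
  have L0 : 0 < L := (mul_pos_iff_of_pos_left (pow_pos h0 2)).1 (lt_of_lt_of_le (by positivity) hL)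
  have tL : θ0 ^ 2 * L ≤ L := mul_le_of_le_one_left L0.le t2
  have x2 : ∀ i, i ≤ 41 → 10 ^ 21 * S.C ^ i ≤ θ0 ^ 2 * L := fun i h => by linarith [x1 i h]
  have L1 : 1 ≤ L := by linarith [x2 0 (by norm_num), pow_zero S.C]
  have LE' : L ≤ E := (le_self_pow₀ L1 (by norm_num)).trans LE
  have LΛ' : L ≤ Λ := (le_self_pow₀ L1 (by norm_num)).trans LΛ
  have E1 : 1 ≤ E := L1.trans LE'
  have pW : ∀ i, i ≤ 30 → L * W ^ i ≤ Λ * W ^ 30 := fun i h =>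
    mul_le_mul LΛ' (pow_le_pow_right₀ W1 h) (by positivity) (by linarith)
  obtain ⟨ε, e⟩ : ∃ ε, ε * (10 ^ 5 * (K * S.C ^ 2)) = θ0 :=
    ⟨_, div_mul_cancel₀ _ (by positivity)⟩
  obtain ⟨ε0, ε1, hε, hε2⟩ := eps_num C1 K1 h0 h1 e
  have hE : (1536 * S.C ^ 7 * W ^ 4) ^ 6 * S.F ^ 3 ≤ ε ^ 6 * E := by
    have a1 : 1536 * S.C ^ 7 ≤ ε * L := by
      refine le_of_mul_le_mul_right ?_ (show 0 < 10 ^ 5 * (K * S.C ^ 2) by positivity)
      rw [mul_right_comm ε, e]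
      have b1 := mul_le_mul (pow_le_pow_right₀ C1 (show 9 ≤ 41 by norm_num))
        (le_self_pow₀ K1 two_ne_zero) (by positivity) (by positivity)
      have b2 := mul_le_mul_of_nonneg_right (pow_le_of_le_one h0.le h1 two_ne_zero) L0.le
      have b3 : 0 ≤ S.C ^ 41 * K ^ 2 := by positivity
      linarith
    have a2 : L ^ 6 * W ^ 24 * S.F ^ 3 ≤ E := by
      refine Tn15.le3 (by linarith) ?_
      have b1 := (pow_le_pow_right₀ W1 (show 72 ≤ 1000 by norm_num)).trans WE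
      have b2 := (pow_le_pow_right₀ F1 (show 9 ≤ 40 by norm_num)).trans H.F40
      calc _ = L ^ 18 * W ^ 72 * S.F ^ 9 := by ring
        _ ≤ E * E * E := by gcongr
        _ = _ := by ring
    calc _ ≤ (ε * L * W ^ 4) ^ 6 * S.F ^ 3 := by gcongr
      _ = ε ^ 6 * (L ^ 6 * W ^ 24 * S.F ^ 3) := by ring
      _ ≤ _ := by gcongr
  have B := bdK c hm H G W1 θ1 ε0 ε1 hE hu hv uv
  have B' := B
  unfold BdK at B'
  have A := B'.A
  have C2 := x2 2 (by norm_num)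
  have q1 : 1 ≤ L * lam ^ 5 * (2 * W ^ 2) ^ 2 := one_le_mul_of_one_le_of_one_le
    (one_le_mul_of_one_le_of_one_le L1 (one_le_pow₀ l1))
    (one_le_pow₀ (by linarith [one_le_pow₀ (n := 2) W1]))
  have q2 : 10 ^ 8 * S.C ^ 10 * (W ^ 2 * (L * lam ^ 5 * (2 * W ^ 2) ^ 2)) ≤ Λ * W ^ 30 :=
    calc _ = 4 * 10 ^ 8 * S.C ^ 10 * L * (lam ^ 5 * W ^ 6) := by ring
      _ ≤ L * L * (W ^ 5 * W ^ 25) := by
        gcongr
        · linarith [x2 10 (by norm_num), pow_pos C0 10]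
        · norm_num
      _ = L ^ 2 * W ^ 30 := by ring
      _ ≤ _ := by gcongr
  have q3 := fun t0 t1 Y (a1 : p.l ≤ t0) (_ : 12 * S.C ^ 7 * t0 < 1) a3 a4 =>
    (hQ t0 t1 Y a1 a3 a4).trans (mul_le_mul_of_nonneg_left (show _ ≤ Y +
      if 1 ≤ 8 * S.C ^ 5 * t1 then p.N + cB M S p.η t0 S.C else 0 by
        split_ifs
        · linarith [cB_nn9 c p.η t0 S.C]
        · exact le_rfl) (zero_le_one.trans q1))
  obtain ⟨_, _, _, R, -⟩ := B'.resB (cm := 1) (by linarith) hA hN h0 h1 hε zero_le_one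
    fun y a1 a2 _ => (B'.c1 y a1 a2).trans (mul_le_one₀ ε1 (A.mn_pos y).le (B'.mn1 y))
  obtain ⟨r1, r2, β, h⟩ := bk_of (W' := Λ * W ^ 30) H G W1 hu hv B (by linarith [sq_nonneg S.C]) vn
    (by linarith) hA hN h0 h1 hε (le_trans (mul_le_mul_of_nonneg_right
      (by linarith [x2 8 (by norm_num), pow_pos C0 8]) (by positivity)) (pW 3 (by norm_num)))
    (fun t0 t' Y a1 a2 a3 a4 a5 a6 => B74.pw_W B' A5 W1 q1 N0 q2 q3 le_rfl B'.A_pos.le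
      ((A.sb_mono (Nat.succ_le_succ uv.le)).trans_lt B'.hJ) a1 a2 a3 a4 a5 a6
      ((B74.v_mesh c A5).trans (mul_le_mul_of_nonneg_right
        (by linarith [le_self_pow₀ C1 (show 10 ≠ 0 by norm_num)]) (by positivity))))
    (B74.hF_of B' H.ce H.ln A5 (by linarith [sq_nonneg S.C]) W1 l1 (by linarith) h0 h1 H.Vl H.cru
      R.lH hε2 (calc
        _ ≤ 10 ^ 16 * S.C ^ 41 * ((266 * K) ^ 2 * W ^ 2 * W) := by gcongr; linarith
        _ = 70756 * 10 ^ 16 * (S.C ^ 41 * K ^ 2) * W ^ 3 := by ring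
        _ ≤ θ0 ^ 2 * L * W ^ 3 := mul_le_mul_of_nonneg_right
          (by linarith [mul_pos (pow_pos C0 41) (show 0 < K ^ 2 by linarith)]) (by positivity)
        _ ≤ _ := by rw [mul_assoc]; exact mul_le_mul_of_nonneg_left (pW 3 (by norm_num)) (by positivity)))
    (B74.hΩ_of B' A5 W1 q1 N0 q2 q3 (by
      have b1 : E ≤ p.Lg := (le_mul_of_one_le_right (by linarith) (one_le_pow₀ F1)).trans H.ln.Lg0
      have b2 := (pow_le_pow_right₀ W1 (show 8 ≤ 1000 by norm_num)).trans WE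
      have b3 : 0 < p.Lg := by linarith
      rw [div_pow, ← mul_div_assoc, div_le_iff₀ (by positivity)]
      calc _ = 2 ^ 18 * S.C ^ 4 * W ^ 8 := by ring
        _ ≤ θ0 ^ 2 * L * W ^ 8 := mul_le_mul_of_nonneg_right
          (by linarith [x2 4 (by norm_num), pow_pos C0 4]) (by positivity)
        _ ≤ θ0 ^ 2 * p.Lg * p.Lg := by gcongr <;> linarith
        _ = _ := by ring))
  exact ⟨r1, r2, _, β, _, h⟩

end Crest.Agent.T156.Alt.B75

namespace Crest.Agent.T156.Alt.L31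

open Real

/-- **(BuS)** -/
theorem buS75 : BuS := fun θ hθ => q4S'.glue fun C => ⟨5, fun A hA ε η hε hη => by
  obtain ⟨K, K1, hK⟩ := Gap27.hlip (2 * C)
  obtain ⟨h0, h1⟩ := hθ C
  refine ⟨ε, min (ε / 18) (η / 2), max C (10 ^ 21 * C ^ 41 * K ^ 2 / θ C ^ 2), hε, by positivity,
    fun S M m a R c hm q p lam W Gn V0 H lW WE G u v hu hv uv => ?_⟩
  obtain rfl := R.hC
  have A5 : 5 ≤ S.A := R.hA ▸ hA
  obtain ⟨-, -, hA, hN, -⟩ := hK _ le_rfl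
  have W1 := H.l1.trans lW
  have k1 : 1 ≤ 2 * W ^ 2 := by linarith [one_le_pow₀ (n := 2) W1]
  refine B75.bk_num (L := (S.n : ℝ) ^ min (ε / 18) (η / 2)) c hm H lW WE G hu hv uv A5
    (by nlinarith [c.msθ, R.log1, c.θ0]) ?_ K1 hA hN h0 h1
    ((div_le_iff₀' (by positivity)).1 ((le_max_right _ _).trans R.K_le)) ?_ ?_ ?_
    fun t0 t1 Y a1 a2 a3 => (q p lam _ t0 t1 Y H k1 a1 a2 a3).1
  · have a1 : S.C ≤ S.n := ((le_max_left _ _).trans R.K_log).trans (log_le_self R.N0.le)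
    have n0 := R.N0
    refine (B74.v_mesh c A5).trans ?_
    rw [mul_one_div, div_le_div_iff₀ (by positivity) n0, one_mul]
    nlinarith [R.N1, mul_pos n0 n0]
  · rw [Pre29.rp_pow]; exact Pre29.rp_le R.n1 (by push_cast; linarith [min_le_left (ε / 18) (η / 2)])
  · rw [Pre29.rp_pow]; exact Pre29.rp_le R.n1 (by push_cast; linarith [min_le_right (ε / 18) (η / 2)])
  · exact (q p lam 1 (max p.l (S.C + 1)) 0 0 H le_rfl (le_max_left _ _) (fun t a1 a2 => absurd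
      ((le_max_right _ _).trans (a1.trans (a2.trans (min_le_right _ _)))) (by linarith)) le_rfl).2⟩

end Crest.Agent.T156.Alt.L31

end
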