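import Crest.Agent.T156.BdK_75
import Crest.Agent.T156.BuH_74
import Crest.Agent.T156.Q4S_49
import Crest.Agent.T156.GapB_27

/-!
# Row 156, block (L): the bulk (BuS) (helper27)
-/

set_option autoImplicit false

noncomputable section

namespace Crest.Agent.T156.Alt.Bu27

open MeasureTheory Set Real Filter
open Crest.Agent.R164.GC Crest.Agent.R339.B Crest.Agent.R339.Var Crest.Agent.T157.Pf
open Crest.Agent.T156.Gap27 (HLip)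
open Crest.Agent.T156.Alt.Mp9 Crest.Agent.T156.Alt.L69 Crest.Agent.T156.Alt.C74
open Crest.Agent.T156.Alt.L31 Crest.Agent.T156.Alt.B75 Crest.Agent.T156.Alt.B74

/-- the gap parameter -/
def ep (C K θ : ℝ) : ℝ := θ / (200 * ((218 + 48 * K) * C ^ 2))

theorem ep_num {C K θ : ℝ} (C1 : 1 ≤ C) (K0 : 0 ≤ K) (h0 : 0 < θ) (h1 : θ ≤ 1) :
    0 < ep C K θ ∧ ep C K θ ≤ 1 ∧
    (17 + 24 * K + 96 * C ^ 2) * ep C K θ + (24 * K * ep C K θ) ^ 2 / θ ≤ θ ∧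
    8192 * ((200 + 48 * K) * C ^ 2 * ep C K θ) ^ 2 ≤ θ ^ 2 := by
  have C2 : 1 ≤ C ^ 2 := one_le_pow₀ C1
  have e0 : 0 < ep C K θ := by unfold ep; positivity
  have e1 : 200 * ((218 + 48 * K) * C ^ 2) * ep C K θ = θ := by unfold ep; field_simp
  generalize ep C K θ = e at e0 e1
  have k1 := mul_le_mul_of_nonneg_left C2 (mul_nonneg K0 e0.le)
  have k2 := mul_le_mul_of_nonneg_left C2 e0.le
  have k3 := mul_nonneg K0 e0.le
  have a1 : 24 * K * e ≤ θ / 2 := by linarith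
  have a2 : (200 + 48 * K) * C ^ 2 * e ≤ θ / 200 := by linarith
  have a3 := pow_le_pow_left₀ (by positivity) a1 2
  have a4 := pow_le_pow_left₀ (by positivity) a2 2
  have a5 : (24 * K * e) ^ 2 / θ ≤ θ / 4 := by
    rw [div_le_iff₀ h0]; linarith
  have a6 := sq_nonneg θ
  refine ⟨e0, by linarith, by linarith, by linarith⟩

theorem three_le {D x y E : ℝ} (x0 : 0 ≤ x) (y0 : 0 ≤ y) (E0 : 0 ≤ E) (hD : D ^ 2 ≤ E)
    (hx : x ^ 4 ≤ E) (hy : y ^ 4 ≤ E) : D * x * y ≤ E := by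
  have a : (D * x * y) ^ 4 ≤ E ^ 4 := by
    have := pow_le_pow_left₀ (sq_nonneg D) hD 2
    calc (D * x * y) ^ 4 = (D ^ 2) ^ 2 * x ^ 4 * y ^ 4 := by ring
      _ ≤ E ^ 2 * E * E := by gcongr
      _ = E ^ 4 := by ring
  exact le_of_pow_le_pow_left₀ (by norm_num) E0 a

/-- constants below the margin and below the root of the loss -/
theorem cl_two (K1 K2 : ℝ → ℝ) {P R : CP} (H : CL P)
    (h : ∀ E Λ S M m a, 1 ≤ E → 1 ≤ Λ → Cl S M → S.In m a → K1 S.C ≤ E → K2 S.C ≤ Λ → 5 ≤ S.A →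
      S.θ ≤ 1 → P E Λ S M m a → R E (Λ ^ 2) S M m a) : CL R := by
  intro C
  filter_upwards [H C, eventually_ge_atTop 5] with A H hA ε hε η hη
  have η2 : 0 < η / 2 := by positivity
  filter_upwards [H ε hε _ η2, ev_rgc C (show 2 ≤ A by omega) η2 (K2 C),
    ev_rgc C (show 2 ≤ A by omega) hε (K1 C), ev_one_le] with n H G1 G2 hn S M b1 b2 b3 c m a I
  have R1 := G1 S b1 b2 b3
  have R2 := G2 S b1 b2 b3
  have e : (n : ℝ) ^ η = ((n : ℝ) ^ (η / 2)) ^ 2 := by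
    rw [← rpow_natCast, ← rpow_mul (by linarith)]; norm_num
  rw [e]
  have q := H S M b1 b2 b3 c m a I
  subst b1 b3
  exact h _ _ S M m a (one_le_rpow hn hε.le) (one_le_rpow hn η2.le) c I R2.K_le R1.K_le
    (by omega) (by nlinarith [c.msθ, R1.log1, c.θ0]) q

variable {S : Sc} {M : Md} {m : ℕ} {a E Λ lam W K θ : ℝ} {p : Pa} {Gn : ℕ → Prop} {V0 u v : ℕ}

/-- **the bulk** at fixed numbers -/
theorem bu_at (c : Cl S M) (I : S.In m a) (H : Hx E lam S M m a p) (G : Ng E W S M m a p Gn V0)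
    (lW : lam ≤ W) (WE : W ^ 1000 ≤ E) (hu : Vs M p Gn u) (hv : Ve S M m a Gn V0 v) (uv : u < v)
    (A5 : 5 ≤ S.A) (θ1 : S.θ ≤ 1) (K0 : 0 ≤ K) (hA : HLip Pr.AA (2 * S.C) K)
    (hN : HLip Pr.NN (2 * S.C) K) (h0 : 0 < θ) (h1 : θ ≤ 1) (Λ1 : 1 ≤ Λ)
    (e1 : ((1536 * S.C ^ 7) ^ 6 / ep S.C K θ ^ 6) ^ 2 ≤ E) (e2 : 2 ^ 18 * S.C ^ 4 / θ ^ 2 ≤ E)
    (e3 : 10 ^ 16 * S.C ^ 41 * (218 + 48 * K) ^ 2 / θ ^ 2 ≤ Λ)
    (hQ : ∀ t0 t1 Y, p.l ≤ t0 → L4 S p.V p.X t0 (min t1 S.C) Y → 0 ≤ Y →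
      ∑ y ∈ (Finset.range S.J).filter fun y => t0 ≤ M.s y ∧ M.s y ≤ t1,
        M.dz m a y * min (E61.u4 M m a y ^ 2) (2 * W ^ 2 * G89.Ug S p.Lg (M.s y) ^ 2) ^ 2 ≤
        Λ * lam ^ 5 * (2 * W ^ 2) ^ 2 * (Y + if 1 ≤ 8 * S.C ^ 5 * t1 then p.N else 0))
    (N0 : 0 ≤ p.N) : ∃ r1 r2 ω β f, Bk (Λ ^ 2 * W ^ 30) θ S M m a p Gn u v r1 r2 ω β f := by
  have C1 := c.C1
  have C0 := c.C0
  have l1 := H.l1
  have W1 : 1 ≤ W := l1.trans lW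
  have W0 : 0 < W := by linarith
  have N := H.ln
  obtain ⟨ε0, ε1, ε2, ε3⟩ := ep_num C1 K0 h0 h1
  have E1 : 1 ≤ E := (one_le_pow₀ W1).trans WE
  have t2 : θ ^ 2 ≤ 1 := pow_le_one₀ h0.le h1
  have t0 : 0 < θ ^ 2 := by positivity
  rw [div_le_iff₀ t0] at e2 e3
  have wp : ∀ i j : ℕ, i ≤ j → W ^ i ≤ W ^ j := fun i j h => pow_le_pow_right₀ W1 h
  have cp : ∀ i j : ℕ, i ≤ j → S.C ^ i ≤ S.C ^ j := fun i j h => pow_le_pow_right₀ C1 h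
  have hE : (1536 * S.C ^ 7 * W ^ 4) ^ 6 * S.F ^ 3 ≤ ep S.C K θ ^ 6 * E := by
    have F0 : 0 ≤ S.F := by linarith [c.F1]
    have b := three_le (x := W ^ 24) (y := S.F ^ 3) (by positivity) (by positivity) (by linarith) e1
      (by rw [← pow_mul]; exact (wp _ _ (by norm_num)).trans WE)
      (by rw [← pow_mul]; exact (pow_le_pow_right₀ c.F1 (by norm_num)).trans H.F40)
    have b2 := mul_le_mul_of_nonneg_left b (pow_pos ε0 6).le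
    refine le_trans (le_of_eq ?_) b2
    field_simp
  have B := bdK c I H G W1 θ1 ε0 ε1 hE hu hv uv
  have E4 : 4 * S.C ^ 2 ≤ E := by
    have := mul_le_mul_of_nonneg_left t2 (show 0 ≤ E by linarith)
    linarith [cp 2 4 (by norm_num), pow_pos C0 4]
  have EL : E ≤ p.Lg := (le_mul_of_one_le_right (by linarith) (one_le_pow₀ c.F1)).trans N.Lg0
  have n0 := c.N0
  have n1 : (1 : ℝ) ≤ S.n := Nat.one_le_cast.2 c.n1
  have vm := v_mesh c A5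
  have vn : S.v ≤ 1 / S.n := by
    have b1 : S.C ≤ (S.n : ℝ) ^ 2 := by
      have := pow_le_pow_right₀ n1 (show 1 ≤ 2 by norm_num)
      linarith [cp 1 2 (by norm_num), N.Lg1]
    refine vm.trans ((mul_le_mul_of_nonneg_right b1 (by positivity)).trans_eq ?_)
    field_simp
  have g1 : 1 ≤ p.Lg := E1.trans EL
  have k2 : 1 ≤ (218 + 48 * K) ^ 2 := one_le_pow₀ (by linarith)
  have L0 : 0 < Λ := by linarith
  have e4 : 10 ^ 16 * S.C ^ 41 ≤ Λ := by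
    have := mul_le_mul_of_nonneg_left t2 L0.le
    have := mul_le_mul_of_nonneg_left k2 (show 0 ≤ 10 ^ 16 * S.C ^ 41 by positivity)
    linarith
  have LL : Λ ≤ Λ ^ 2 := le_self_pow₀ Λ1 two_ne_zero
  have hW : 11250 * S.C ^ 8 * W ^ 3 ≤ Λ ^ 2 * W ^ 30 :=
    mul_le_mul (by linarith [cp 8 41 (by norm_num), pow_pos C0 41]) (wp _ _ (by norm_num))
      (by positivity) (by positivity)
  have l5 : lam ^ 5 ≤ W ^ 5 := pow_le_pow_left₀ (by linarith) lW 5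
  have Q1 : 1 ≤ Λ * W ^ 5 * (2 * W ^ 2) ^ 2 := one_le_mul_of_one_le_of_one_le
    (one_le_mul_of_one_le_of_one_le Λ1 (one_le_pow₀ W1))
    (one_le_pow₀ (by linarith [one_le_pow₀ (n := 2) W1]))
  have hQ' : ∀ t0 t1 Y, p.l ≤ t0 → 12 * S.C ^ 7 * t0 < 1 → L4 S p.V p.X t0 (min t1 S.C) Y → 0 ≤ Y →
      ∑ y ∈ (Finset.range S.J).filter fun y => t0 ≤ M.s y ∧ M.s y ≤ t1,
        M.dz m a y * min (E61.u4 M m a y ^ 2) (2 * W ^ 2 * G89.Ug S p.Lg (M.s y) ^ 2) ^ 2 ≤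
        Λ * W ^ 5 * (2 * W ^ 2) ^ 2 *
          (Y + if 1 ≤ 8 * S.C ^ 5 * t1 then p.N + cB M S p.η t0 S.C else 0) :=
    fun t0 t1 Y b1 _ b3 b4 => (hQ t0 t1 Y b1 b3 b4).trans (by
      have := cB_nn9 c p.η t0 S.C
      refine mul_le_mul (by gcongr) ?_ ?_ (by positivity) <;> split_ifs <;> linarith)
  have hW2 : 10 ^ 8 * S.C ^ 10 * (W ^ 2 * (Λ * W ^ 5 * (2 * W ^ 2) ^ 2)) ≤ Λ ^ 2 * W ^ 30 := by
    have b1 : 4 * 10 ^ 8 * S.C ^ 10 ≤ Λ := by linarith [cp 10 41 (by norm_num), pow_pos C0 41]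
    calc _ = 4 * 10 ^ 8 * S.C ^ 10 * Λ * W ^ 11 := by ring
      _ ≤ Λ * Λ * W ^ 30 := by gcongr; norm_num
      _ = _ := by ring
  have hW3 : 10 ^ 16 * S.C ^ 41 * ((218 + 48 * K) ^ 2 * W ^ 2 * lam) ≤ θ ^ 2 * (Λ ^ 2 * W ^ 30) := by
    calc _ = 10 ^ 16 * S.C ^ 41 * (218 + 48 * K) ^ 2 * (W ^ 2 * lam) := by ring
      _ ≤ Λ * θ ^ 2 * (W ^ 2 * W) := by gcongr
      _ = θ ^ 2 * (Λ * W ^ 3) := by ring
      _ ≤ _ := by gcongr; norm_num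
  have hka : 2 ^ 16 * S.C ^ 4 * (2 * W ^ 4 / p.Lg) ^ 2 ≤ θ ^ 2 := by
    rw [div_pow, ← mul_div_assoc, div_le_iff₀ (by positivity)]
    calc _ = 2 ^ 18 * S.C ^ 4 * W ^ 8 := by ring
      _ ≤ E * θ ^ 2 * E := mul_le_mul e2 ((wp _ _ (by norm_num)).trans WE) (by positivity)
        (by positivity)
      _ = θ ^ 2 * E ^ 2 := by ring
      _ ≤ _ := by gcongr
  have B' := B
  unfold BdK at B'
  have A := B'.A
  have me := B'.me.trans (c.sm (B'.uv.trans B'.vJ).le)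
  obtain ⟨_, _, _, R, -⟩ := B'.resB K0 hA hN h0 h1 ε2 (cmB_nn W0.le (X2_nn c N (by linarith)))
    (hcm c g1 W0.le me hv.2.2.2.1)
  have AJ : sb M m a (u + 1) < M.s S.J :=
    (A.sb_mono (Nat.succ_le_succ uv.le)).trans_lt hv.2.2.2.2
  obtain ⟨r1, r2, β, b⟩ := bk_of H G W1 hu hv B E4 vn K0 hA hN h0 h1 ε2 hW
    (fun t0 t' Y a1 a2 a3 a4 a5 a6 => pw_W B' A5 W1 Q1 N0 hW2 hQ' le_rfl B'.A_pos.le AJ a1 a2 a3 a4
      a5 a6 (vm.trans (mul_le_mul_of_nonneg_right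
        (by linarith [cp 1 10 (by norm_num), pow_pos C0 10]) (by positivity))))
    (hF_of B' H.ce N A5 (by linarith [pow_pos C0 2]) W1 l1 K0 h0 h1 H.Vl H.cru R.lH ε3 hW3)
    (hΩ_of B' A5 W1 Q1 N0 hW2 hQ' hka)
  exact ⟨r1, r2, _, β, _, b⟩

end Crest.Agent.T156.Alt.Bu27

namespace Crest.Agent.T156.Alt.L31

open Crest.Agent.T156.Alt.Bu27

/-- **(BuS)** -/
theorem buS27 : BuS := fun θ hθ => by
  choose K K1 hK using fun C : ℝ => Gap27.hlip (2 * C)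
  refine cl_two (fun C => max (((1536 * C ^ 7) ^ 6 / ep C (K C) (θ C) ^ 6) ^ 2)
    (2 ^ 18 * C ^ 4 / θ C ^ 2)) (fun C => 10 ^ 16 * C ^ 41 * (218 + 48 * K C) ^ 2 / θ C ^ 2) q4S'
    fun E Λ S M m a _ Λ1 c I e1 e3 A5 θ1 q p lam W Gn V0 H lW WE G u v hu hv uv => ?_
  have W1 : 1 ≤ W := H.l1.trans lW
  have K2 : 1 ≤ 2 * W ^ 2 := by linarith [one_le_pow₀ (n := 2) W1]
  obtain ⟨-, -, hA, hN, -⟩ := hK S.C _ le_rfl
  refine bu_at c I H G lW WE hu hv uv A5 θ1 (by linarith [K1 S.C]) hA hN (hθ _).1 (hθ _).2 Λ1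
    ((le_max_left _ _).trans e1) ((le_max_right _ _).trans e1) e3
    (fun t0 t1 Y b1 b2 b3 => (q p lam _ t0 t1 Y H K2 b1 b2 b3).1)
    (q p lam 1 p.l (p.l - 1) 0 H le_rfl le_rfl
      (fun t b1 b2 => absurd (b1.trans (b2.trans (min_le_left _ _))) (by linarith)) le_rfl).2

end Crest.Agent.T156.Alt.L31

end
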