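import Crest.Agent.T156.LInt_31
import Crest.Agent.T156.BdF_9
import Crest.Agent.T156.BdE_75
import Crest.Agent.T156.ClSum_27
import Crest.Agent.T156.Q4S_49

/-!
Row 156, block (L) (helper9): the bulk data `Bk` from the net of good nodes.
-/

set_option autoImplicit false

noncomputable section

namespace Crest.Agent.T156.Alt.L31

open MeasureTheory Set Real
open Crest.Agent.R164.GC Crest.Agent.R339.B Crest.Agent.R339.Var Crest.Agent.T157.Pf
open Crest.Agent.T156.Cut8 (LB int_mono)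
open Crest.Agent.T156.Gap27 (HLip)
open Crest.Agent.T156.Alt.Mp9 Crest.Agent.T156.Alt.L69 Crest.Agent.T156.Alt.C74

variable {S : Sc} {M : Md} {m : ℕ} {a T : ℝ} {Gn : ℕ → Prop} {u v V0 : ℕ}

/-- the square of the clock from the capped quartic sum -/
theorem pw9 {en on c al om Ga g : ℕ → ℝ} {k0 ka th ε Λ X2 Q t0 t' x y : ℝ}
    (B : Bd S M m a T Gn u v en on c al om Ga (k0 * (Λ * X2)) ka th ε) (h1 : t0 ≤ M.s u)
    (h0 : 0 ≤ x) (hxy : x ≤ y) (hs : y < M.s S.J) (h2 : y ≤ t') (hc : ∀ j, c j = Λ * g j + Λ * X2)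
    (hQ : ∑ j ∈ (Finset.range S.J).filter fun j => t0 ≤ M.s j ∧ M.s j ≤ 2 * t',
      M.dz m a j * g j ^ 2 ≤ Q) :
    ∫ r in x..y, pw M S c u v (k0 * (Λ * X2)) r ^ 2 ≤
      Λ ^ 2 * ((2 * k0 ^ 2 + 16 * S.C ^ 7) * (t' * X2 ^ 2) + 4 * S.C ^ 6 * Q) := by
  classical
  have A := B.A
  have h := A.cl
  have C0 := h.C0
  have C1 := h.C1
  have v0 := h.v0
  have hu := B.hu
  have vJ := B.vJ
  have i1 := h.i1
  have t0' : 0 ≤ t' := (h0.trans hxy).trans h2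
  have a4 := B.int_pw h0 hxy hs
  have d0 : ∀ j, 0 ≤ M.z j - M.z (j - 1) := fun j => sub_nonneg.2 (h.leg.zm (Nat.sub_le _ _))
  set U := (Finset.Ioc u v).filter fun j => M.s j ≤ y + S.C * S.v with hU
  have mU : ∀ j ∈ U, u < j ∧ j ≤ v ∧ S.C * S.v ≤ t' ∧ M.s j ≤ 2 * t' := fun j hj => by
    rw [hU, Finset.mem_filter, Finset.mem_Ioc] at hj
    obtain ⟨⟨p1, p2⟩, p3⟩ := hj
    have := B.me.trans (h.sm p1.le)
    have := mul_le_mul_of_nonneg_right C1 (mul_pos C0 v0).le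
    exact ⟨p1, p2, by linarith, by linarith⟩
  have a1 : ∑ j ∈ U, (M.z j - M.z (j - 1)) * g j ^ 2 ≤ Q := by
    refine le_trans ?_ hQ
    rw [Finset.sum_congr rfl fun j hj => show (M.z j - M.z (j - 1)) * g j ^ 2 =
      M.dz m a j * g j ^ 2 by rw [Md67.dz_up h.leg (by have := mU j hj; omega)]]
    refine Finset.sum_le_sum_of_subset_of_nonneg (fun j hj => ?_)
      fun j _ _ => mul_nonneg ((E61.lg A).dz_nonneg j) (sq_nonneg _)
    obtain ⟨p1, p2, -, p5⟩ := mU j hj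
    exact Finset.mem_filter.2 ⟨Finset.mem_range.2 (by omega), h1.trans (h.sm p1.le), p5⟩
  have a2 : ∑ j ∈ U, (M.z j - M.z (j - 1)) ≤ 4 * S.C * t' := by
    rcases U.eq_empty_or_nonempty with e | e
    · rw [e, Finset.sum_empty]; positivity
    · obtain ⟨p1, p2, p4, p5⟩ := mU _ (U.max'_mem e)
      have q1 : ∑ j ∈ U, (M.z j - M.z (j - 1)) ≤
          ∑ j ∈ Finset.Ioc u (U.max' e), (M.z j - M.z (j - 1)) :=
        Finset.sum_le_sum_of_subset_of_nonneg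
          (fun j hj => Finset.mem_Ioc.2 ⟨(mU j hj).1, U.le_max' j hj⟩) fun j _ _ => d0 j
      have q2 := At.sum_dz M p1.le
      have q3 := (h.z_s (k := U.max' e) (by omega) (by omega)).2
      have q4 : S.v ≤ t' := (le_mul_of_one_le_left v0.le C1).trans p4
      have q5 := h.z_pos u
      have q6 := mul_le_mul_of_nonneg_left
        (show M.s (U.max' e) + 2 * S.v ≤ 4 * t' by linarith) C0.le
      linarith
  have a3 : ∑ j ∈ U, (M.z j - M.z (j - 1)) * c j ^ 2 ≤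
      2 * Λ ^ 2 * ∑ j ∈ U, (M.z j - M.z (j - 1)) * g j ^ 2 +
      2 * (Λ * X2) ^ 2 * ∑ j ∈ U, (M.z j - M.z (j - 1)) := by
    rw [Finset.mul_sum, Finset.mul_sum, ← Finset.sum_add_distrib]
    refine Finset.sum_le_sum fun j _ => ?_
    have := mul_le_mul_of_nonneg_left (show c j ^ 2 ≤ 2 * Λ ^ 2 * g j ^ 2 + 2 * (Λ * X2) ^ 2 by
      rw [hc]; nlinarith [sq_nonneg (Λ * g j - Λ * X2)]) (d0 j)
    linarith
  have a5 := mul_le_mul_of_nonneg_left a1 (show 0 ≤ 2 * Λ ^ 2 by positivity)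
  have a6 := mul_le_mul_of_nonneg_left a2 (show 0 ≤ 2 * (Λ * X2) ^ 2 by positivity)
  have a7 := mul_le_mul_of_nonneg_left (a3.trans (add_le_add a5 a6))
    (show 0 ≤ 2 * S.C ^ 6 by positivity)
  have a8 := mul_le_mul_of_nonneg_left (show y - x ≤ t' by linarith)
    (show 0 ≤ 2 * (k0 * (Λ * X2)) ^ 2 by positivity)
  linarith

set_option maxHeartbeats 1600000 in
/-- **the bulk data** -/
theorem bk9 {E lam W K θ ε L Q W' : ℝ} {p : Pa} (A : At S M m a (2 * S.C))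
    (H : Hx E lam S M m a p) (hW : lam ≤ W) (G : Ng E W S M m a p Gn V0) (su : Vs M p Gn u)
    (ev : Ve S M m a Gn V0 v) (uv : u < v) (K0 : 0 ≤ K) (hA : HLip Pr.AA (2 * S.C) K)
    (hN : HLip Pr.NN (2 * S.C) K) (θ0 : 0 < θ) (θ1 : θ ≤ 1) (ε0 : 0 < ε) (ε1 : ε ≤ 1)
    (hε : (17 + 24 * K + 96 * S.C ^ 2) * ε + (24 * K * ε) ^ 2 / θ ≤ θ)
    (hε2 : 8192 * ((200 + 48 * K) * S.C ^ 2 * ε) ^ 2 ≤ θ ^ 2) (th1 : S.θ ≤ 1)
    (hv : S.v * (S.n : ℝ) ^ 4 ≤ S.C) (hL : 10 ^ 19 * ((1 + K) * S.C ^ 32) ≤ θ ^ 2 * L)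
    (hx : (1536 * S.C ^ 7) ^ 6 ≤ ε ^ 6 * L) (LE : L * W ^ 24 * S.F ^ 3 ≤ E) (Q1 : 1 ≤ Q)
    (w1 : L ^ 2 * W ^ 3 ≤ W') (w2 : L * W ^ 2 * Q ≤ W')
    (hQ : ∀ t0 t1 Y, p.l ≤ t0 → 12 * S.C ^ 7 * t0 < 1 → L4 S p.V p.X t0 (min t1 S.C) Y → 0 ≤ Y →
      ∑ y ∈ (Finset.range S.J).filter fun y => t0 ≤ M.s y ∧ M.s y ≤ t1,
        M.dz m a y * min (E61.u4 M m a y ^ 2) (2 * W ^ 2 * G89.Ug S p.Lg (M.s y) ^ 2) ^ 2 ≤
        Q * (Y + if 1 ≤ 8 * S.C ^ 5 * t1 then p.N + cB M S p.η t0 S.C else 0)) :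
    ∃ r1 r2 ω β f, Bk W' θ S M m a p Gn u v r1 r2 ω β f := by
  have h := A.cl
  have N := H.ln
  have C1 := h.C1
  have C0 := h.C0
  have F1 := h.F1
  have v0 := h.v0
  have n0 := h.N0
  have l1 := H.l1
  have W1 : 1 ≤ W := l1.trans hW
  have W0 : 0 < W := by linarith
  have θ2 : θ ^ 2 ≤ 1 := pow_le_one₀ θ0.le θ1
  have Ci : ∀ i ≤ 32, 10 ^ 19 * S.C ^ i ≤ θ ^ 2 * L := fun i hi => le_trans
    (mul_le_mul_of_nonneg_left ((pow_le_pow_right₀ C1 hi).trans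
      (le_mul_of_one_le_left (by positivity) (by linarith))) (by norm_num)) hL
  have Lp : 0 < L := (mul_pos_iff_of_pos_left (pow_pos θ0 2)).1
    (lt_of_lt_of_le (by positivity) (Ci 0 (by norm_num)))
  have θL : θ ^ 2 * L ≤ L := mul_le_of_le_one_left Lp.le θ2
  have Cj : ∀ i ≤ 32, 10 ^ 19 * S.C ^ i ≤ L := fun i hi => (Ci i hi).trans θL
  have L1 : 1 ≤ L := by have := Cj 0 (by norm_num); norm_num at this; linarith
  have LW : L * W ^ 24 ≤ E := (le_mul_of_one_le_right (by positivity) (one_le_pow₀ F1)).trans LE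
  have L2 : L ≤ E := (le_mul_of_one_le_right Lp.le (one_le_pow₀ W1)).trans LW
  have E1 : 1 ≤ E := L1.trans L2
  have E0 : 0 < E := by linarith
  have EL : E ≤ p.Lg := (le_mul_of_one_le_right E0.le (one_le_pow₀ F1)).trans N.Lg0
  have g1 : 1 ≤ p.Lg := E1.trans EL
  have g0 : 0 < p.Lg := by linarith
  have j0 := h.s_pos (h.i0.trans h.i1)
  have l00 : 0 < p.l0 := (mul_pos E0 j0).trans_le N.l0s
  have l0 : 0 < p.l := l00.trans_le N.l0l
  have X0 := B75.X2_nn h N E0.le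
  have ml := le_max_left p.l (2 * p.l0)
  have mu : max p.l (2 * p.l0) ≤ M.s u := by linarith [su.2]
  have lu := ml.trans mu
  have B := B75.bd_of2 A H.ce N G.ng ml W1 th1 ε0 ε1 (by
    have a1 := mul_le_mul_of_nonneg_right hx (by positivity : 0 ≤ W ^ 24 * S.F ^ 3)
    have a2 := mul_le_mul_of_nonneg_left LE (pow_pos ε0 6).le
    linarith) su.2 uv ev.2.1 su.1 ev.1 ev.2.2.2.2
  have vJ := B.vJ
  have hu := B.hu
  have i1 := h.i1
  have i2 := h.i2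
  have i3 := h.i3
  have me : 8 * S.C ^ 2 * S.v ≤ M.s S.J := B.me.trans (h.sm (by omega))
  obtain ⟨r1, r2, β, R, nd, be, ab, nm⟩ := B.resB K0 hA hN θ0 θ1 hε (B75.cmB_nn W0.le X0)
    (B75.hcm h g1 W0.le me ev.2.2.2.1)
  have jl : M.s (S.jl + 1) ≤ p.l := by
    have a1 := mul_le_mul_of_nonneg_left (B75.v_le h) C0.le
    have a2 := mul_le_mul_of_nonneg_right ((Cj 2 (by norm_num)).trans L2) j0.le
    have a3 := mul_le_mul_of_nonneg_right (one_le_pow₀ (n := 2) C1) j0.le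
    linarith [(h.ss S.jl (by omega)).2, N.l0s, N.l0l]
  obtain ⟨ν, eν⟩ : ∃ ν, ν = 1 / (S.n : ℝ) := ⟨_, rfl⟩
  have ν0 : 0 < ν := by rw [eν]; positivity
  have nν : ∀ {x : ℝ}, x ≤ S.n → x * ν ≤ 1 := fun hx => by
    rw [eν, mul_one_div, div_le_one n0]; exact hx
  have e3 : 1 / (S.n : ℝ) ^ 3 = ν ^ 3 := by rw [eν, one_div_pow]
  have v4 : S.v ≤ S.C * ν ^ 4 := by
    rw [eν, one_div_pow, mul_one_div, le_div_iff₀ (by positivity)]; exact hv
  have En : E ≤ S.n := EL.trans N.Lg1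
  have F3 : S.F ^ 3 * ν ≤ 1 := nν (((le_mul_of_one_le_left (by positivity)
    (one_le_mul_of_one_le_of_one_le L1 (one_le_pow₀ W1))).trans LE).trans En)
  have Lν : L * ν ≤ 1 := nν (L2.trans En)
  have ν1 : ν ≤ 1 := (le_mul_of_one_le_left ν0.le L1).trans Lν
  have v3 : S.v ≤ ν ^ 3 := by
    have a1 := mul_le_mul_of_nonneg_right (show S.C ≤ L by
      linarith [Cj 1 (by norm_num), pow_one S.C]) ν0.le
    linarith [mul_le_mul_of_nonneg_right (a1.trans Lν) (pow_pos ν0 3).le]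
  have ν3 : ν ^ 3 ≤ ν := pow_le_of_le_one ν0.le ν1 three_ne_zero
  have vF : S.F ^ 3 * S.v ≤ S.C * ν ^ 3 := by
    have a1 := mul_le_mul_of_nonneg_left v4 (by positivity : 0 ≤ S.F ^ 3)
    linarith [mul_le_mul_of_nonneg_left F3 (by positivity : 0 ≤ S.C * ν ^ 3)]
  have vm : (204 + 48 * K) * S.C ^ 3 * S.F * S.v ≤ 1 / S.n := by
    have a1 : S.F * S.v ≤ S.C * ν ^ 3 :=
      (mul_le_mul_of_nonneg_right (le_self_pow₀ F1 three_ne_zero) v0.le).trans vF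
    have a2 := mul_le_mul_of_nonneg_left a1 (by positivity : 0 ≤ (204 + 48 * K) * S.C ^ 3)
    have a3 : (204 + 48 * K) * S.C ^ 4 ≤ L := by
      have := mul_le_mul_of_nonneg_left (pow_le_pow_right₀ C1 (show 4 ≤ 32 by norm_num))
        (by positivity : 0 ≤ 204 + 48 * K)
      have := mul_nonneg K0 (pow_pos C0 32).le
      linarith [pow_pos C0 32]
    have a4 := mul_le_mul_of_nonneg_right a3 (pow_pos ν0 3).le
    have a5 := mul_le_mul_of_nonneg_right Lν (pow_pos ν0 2).le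
    rw [← eν]
    linarith [pow_le_of_le_one ν0.le ν1 two_ne_zero]
  have P3 : L * W ^ 3 ≤ W' :=
    (mul_le_mul_of_nonneg_right (le_self_pow₀ L1 two_ne_zero) (by positivity)).trans w1
  have P2 : L * W ^ 2 ≤ W' := (le_mul_of_one_le_right (by positivity) Q1).trans w2
  have P0 : L ≤ W' := (le_mul_of_one_le_right Lp.le (one_le_pow₀ W1)).trans P2
  have N0 : 0 ≤ p.N := by
    have := H.lp.Xp0.1
    have := h.θ0
    have := Tn15.w30 h one_pos
    have : 0 ≤ p.j := le_trans (by positivity) H.ap.j0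
    exact le_trans (by positivity) H.lc.c9
  have mA := A.sb_mem (k := u) (by omega)
  have sJ : ∀ k ≤ v, sb M m a (k + 1) < M.s S.J := fun k hk =>
    (A.sb_mono (Nat.succ_le_succ hk)).trans_lt B.hJ
  have key : ∀ x y t0 t' Y, 0 ≤ x → x ≤ y → y < M.s S.J → y ≤ t' → p.l ≤ t0 → t0 ≤ M.s u →
      12 * S.C ^ 7 * t0 < 1 → L4 S p.V p.X t0 (min (2 * t') S.C) Y → 0 ≤ Y →
      2 * (∫ r in x..y, pw M S (B75.cc2 M S m a W p.Lg p.X2) u v (2602 * (W * p.X2)) r ^ 2) +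
        L * ν ^ 3 ≤ W' * (t' * p.X2 ^ 2 + Y + 1 / (S.n : ℝ) ^ 3 +
        if 1 ≤ 16 * S.C ^ 5 * t' then p.N + cB M S p.η t0 S.C else 0) := by
    intro x y t0 t' Y b0 b1 b2 b3 b4 b5 b6 b7 b8
    have a1 := hQ t0 (2 * t') Y b4 b6 b7 b8
    rw [show 8 * S.C ^ 5 * (2 * t') = 16 * S.C ^ 5 * t' by ring] at a1
    have a2 := pw9 B b5 b0 b1 b2 b3 (fun _ => rfl) a1
    have a3 : 0 ≤ (if 1 ≤ 16 * S.C ^ 5 * t' then p.N + cB M S p.η t0 S.C else 0) := by
      split_ifs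
      exacts [add_nonneg N0 (cB_nn9 h _ _ _), le_rfl]
    rw [e3]
    generalize (if 1 ≤ 16 * S.C ^ 5 * t' then p.N + cB M S p.η t0 S.C else 0) = I at *
    have t1 : 0 ≤ t' * p.X2 ^ 2 := mul_nonneg ((b0.trans b1).trans b3) (sq_nonneg _)
    have a4 := mul_le_mul_of_nonneg_right (show 2 * (2 * 2602 ^ 2 + 16 * S.C ^ 7) ≤ L by
      linarith [Cj 7 (by norm_num), one_le_pow₀ (n := 7) C1]) (by positivity : 0 ≤ W ^ 2 * (t' * p.X2 ^ 2))
    have a5 := mul_le_mul_of_nonneg_right (show 8 * S.C ^ 6 ≤ L by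
      linarith [Cj 6 (by norm_num), pow_pos C0 6]) (by positivity : 0 ≤ W ^ 2 * Q * (Y + I))
    linarith [mul_le_mul_of_nonneg_right P2 t1, mul_le_mul_of_nonneg_right w2 (add_nonneg b8 a3),
      mul_le_mul_of_nonneg_right P0 (pow_pos ν0 3).le]
  have η0 : ∀ y, u ≤ y → y ≤ v → 1 / (S.n : ℝ) ≤ p.η (M.s y) := fun y b1 b2 => by
    have t0 := l0.trans_le (lu.trans (h.sm b1))
    have a1 := N.ηb _ (lu.trans (h.sm b1)) (h.s_le_C (by omega))
    have := B75.X3_nn h N E0.le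
    have := B75.G0_nn h N E0.le
    have U0 := B75.uw_nn (Lg := p.Lg) h t0
    have a2 : 0 ≤ uw S p.Lg (M.s y) ^ 2 * min (S.ms (M.s y) / M.s y) (M.s y) :=
      mul_nonneg (sq_nonneg _) (le_min (div_pos (h.ms_pos t0.le) t0).le t0.le)
    have a3 : 0 ≤ (√(p.Lg * cr S (M.s y) * gg S (M.s y)) + p.G0 + p.X2) *
      (uw S p.Lg (M.s y) + √p.X2) := by positivity
    linarith [pow_nonneg U0 3]
  obtain ⟨r, r0, rl, rs⟩ := B.lost
  refine ⟨r1, r2, _, β, _, B.LB_fB K θ, R, nd v uv.le le_rfl ev.1, ?_, ⟨r, r0,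
    fun t0 t' Y b1 b2 b3 b4 b5 b6 => ?_, ab _ fun i b1 b2 gi => ?_⟩, fun t b1 b2 b3 => ?_,
    fun t ht => ?_, fun k t0 t' b1 b2 gk b3 b4 b5 b6 b7 b8 => ?_,
    fun k t0 t' Y b1 b2 gk b3 b4 b5 b6 b7 b8 => ?_⟩
  · rw [be]
    obtain ⟨a1, a2⟩ := B75.be_le A N E1 W1 me (by rw [← eν]; exact v3.trans ν3) ev.2.2.1 vJ.le
      (lu.trans (h.sm uv.le)) (abs_nonneg (L0.Gd (lb M S m a (2 * S.C)) (sb M m a (v + 1))))
      (abs_nonneg (uu M S m a (2 * S.C) (sb M m a (v + 1))))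
    refine ⟨a1, a2.trans (mul_le_mul_of_nonneg_right (le_trans (mul_le_mul_of_nonneg_right
      (by linarith [Cj 8 (by norm_num), pow_pos C0 8]) (by positivity)) P3) ?_)⟩
    exact nonneg_of_mul_nonneg_right (a1.trans a2) (by positivity)
  · have a1 := key 0 _ t0 t' Y le_rfl mA.1 (sJ u uv.le) b4 b1 b2 b3 b5 b6
    have a2 := mul_le_mul_of_nonneg_right L1 (pow_pos ν0 3).le
    rw [mul_right_comm, mul_comm _ (sb M m a (u + 1))]
    exact rs.trans (mul_le_mul_of_nonneg_left (by linarith) mA.1)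
  · have a1 := B75.ab_of A G.ng W1 g0 X0 mu ev.2.1 su.1 i b1 b2 gi
    have a2 := B75.rho_le A W0.le X0 N.V0 W1 l00 (N.l0l.trans lu) (by omega) (by omega) B.me
      fun k hk => G.cru k (by have := h.J_lt; omega)
    have a3 : 0 ≤ rh S M m a p u := by
      have := h.s_nn u
      have := mA.1
      unfold rh; positivity
    have a4 := mul_le_mul_of_nonneg_right (le_trans (mul_le_mul_of_nonneg_right
      (show 2602 * S.C ^ 3 ≤ L by linarith [Cj 3 (by norm_num), pow_pos C0 3]) (by positivity)) P3) a3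
    unfold rh at a3 a4 ⊢
    linarith
  · obtain ⟨a1, a2⟩ := nm t b1.le b2 (jl.trans b3)
    have := A.mm_pos (mA.1.trans b1.le)
    exact ⟨_, _, _, by positivity, a1, a2⟩
  · have := A.mm_pos ht
    exact add_nonneg (B.fN_nn K θ ht) (by positivity)
  · have mB := A.sb_mem (k := k) (by omega)
    have AB := A.sb_mono (Nat.succ_le_succ b1)
    have a1 := B.intF K θ le_rfl b1 b2 su.1 gk
    have a2 := B.intN9 H.ce (η := p.η) (W := L * W ^ 3) (Λ := 17 * W) N.HJ l0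
      (show 1 ≤ 2 * lam by linarith) (by linarith) K0 θ0
      (cru_of_cl9 h l00 N.l0l (by linarith) H.Vl H.cru) N.ηa N.η2 (fun y c1 c2 => by
        have c3 := η0 y c1 (by omega)
        have c4 : 0 ≤ p.η (M.s y) := le_trans (by positivity) c3
        exact ⟨mul_nonneg (by positivity) c4, le_rfl, (meB_le9 A vm c3).trans
          (mul_le_mul_of_nonneg_right (by linarith) c4)⟩) b1 b2 (jl.trans b3) b3 b4 b7 b8 b5 b6 (by
        have c1 := mul_le_mul_of_nonneg_left hW (by positivity : 0 ≤ S.C ^ 32 * W ^ 2)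
        have c2 := mul_le_mul_of_nonneg_right (Ci 32 le_rfl) (pow_pos W0 3).le
        have : 0 ≤ S.C ^ 32 * W ^ 3 := by positivity
        linarith)
    have lu' := A.LB_uu'
    have a3 := int_mono (A.LB_mm.mul lu'.sq) (R.lH.mul lu') mA.1 AB mB.2
      fun t c _ => B.mass (mA.1.trans c.le)
    have a4 : 0 ≤ ∫ t in sb M m a (u + 1)..sb M m a (k + 1),
        mm M S m a t * uu M S m a (2 * S.C) t ^ 2 := intervalIntegral.integral_nonneg AB
      fun t c => mul_nonneg (A.mm_pos (mA.1.trans c.1)).le (sq_nonneg _)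
    have a5 : 4 * ((200 + 48 * K) * S.C * ε) ^ 2 / θ ^ 2 * (2048 * S.C ^ 2) ≤ 1 := by
      rw [div_mul_eq_mul_div, div_le_one (by positivity)]; linarith
    have a6 := mul_le_mul_of_nonneg_right a5 a4
    have a7 := mul_le_mul_of_nonneg_right a5 (by positivity : 0 ≤ 2 * S.C ^ 3 * S.v ^ 2)
    have a8 : S.v ^ 2 ≤ ν ^ 3 :=
      (pow_le_of_le_one v0.le (v3.trans (ν3.trans ν1)) two_ne_zero).trans v3
    have a9 := mul_le_mul_of_nonneg_left a8 (by positivity : 0 ≤ 2 * S.C ^ 3)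
    have c0 := cB_nn9 h p.η t0 t'
    have x0 : 0 ≤ S.F ^ 3 * S.ms t0 * t0 ^ 2 * max (t0 - sb M m a (u + 1)) 0 := by
      have := h.ms_pos (l0.le.trans b3)
      exact mul_nonneg (by positivity) (le_max_right _ _)
    have c1 := mul_le_mul_of_nonneg_left vF (by positivity : 0 ≤ L * W ^ 3)
    have c2 := mul_le_mul_of_nonneg_right P3 (add_nonneg c0 x0)
    have c3 := mul_le_mul_of_nonneg_right w1 (pow_pos ν0 3).le
    have c4 := mul_le_mul_of_nonneg_right (show 3 * S.C ^ 3 ≤ L by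
      linarith [Cj 3 (by norm_num), pow_pos C0 3]) (by positivity : 0 ≤ L * W ^ 3 * ν ^ 3)
    have c5 := mul_le_mul_of_nonneg_right (le_self_pow₀ C1 three_ne_zero)
      (by positivity : 0 ≤ L * W ^ 3 * ν ^ 3)
    have c6 := mul_le_mul_of_nonneg_right (one_le_mul_of_one_le_of_one_le L1 (one_le_pow₀ (n := 3) W1))
      (by positivity : 0 ≤ S.C ^ 3 * ν ^ 3)
    rw [e3]
    unfold HH
    linarith
  · have a1 := B.intW le_rfl b1 b2 su.1 gk
    have AB := A.sb_mono (Nat.succ_le_succ b1)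
    have a2 := key _ _ t0 t' Y mA.1 AB (sJ k b2) b6 b3 b4 b5 b7 b8
    have a3 : 0 ≤ ∫ t in sb M m a (u + 1)..sb M m a (k + 1), uu M S m a (2 * S.C) t ^ 4 :=
      intervalIntegral.integral_nonneg AB fun t _ => by positivity
    have a4 : 2 * (2 * W ^ 4 / p.Lg) ^ 2 * (32768 * S.C ^ 4) ≤ θ ^ 2 := by
      rw [div_pow, mul_right_comm, ← mul_div_assoc, div_le_iff₀ (by positivity)]
      have c1 := mul_le_mul_of_nonneg_right (Ci 4 (by norm_num)) (pow_pos W0 8).le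
      have c2 : L * W ^ 8 ≤ p.Lg ^ 2 := ((mul_le_mul_of_nonneg_left (pow_le_pow_right₀ W1
        (by norm_num)) Lp.le).trans (LW.trans EL)).trans (le_self_pow₀ g1 two_ne_zero)
      have c3 := mul_le_mul_of_nonneg_left c2 (sq_nonneg θ)
      have : 0 ≤ S.C ^ 4 * W ^ 8 := by positivity
      linarith
    have a5 := mul_le_mul_of_nonneg_right a4 a3
    have a6 := mul_le_mul_of_nonneg_right (a4.trans θ2) (by positivity : 0 ≤ 4 * S.C ^ 5 * S.v ^ 4)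
    have a7 : S.v ^ 4 ≤ ν ^ 3 :=
      (pow_le_of_le_one v0.le (v3.trans (ν3.trans ν1)) four_ne_zero).trans v3
    have a8 := mul_le_mul (show 4 * S.C ^ 5 ≤ L by linarith [Cj 5 (by norm_num), pow_pos C0 5]) a7
      (by positivity) Lp.le
    linarith

theorem three9 {x y z E : ℝ} (x0 : 0 ≤ x) (y0 : 0 ≤ y) (z0 : 0 ≤ z) (h1 : x ^ 3 ≤ E)
    (h2 : y ^ 3 ≤ E) (h3 : z ^ 3 ≤ E) : x * y * z ≤ E := by
  have E0 : 0 ≤ E := le_trans (by positivity) h1
  refine le_of_pow_le_pow_left₀ three_ne_zero E0 ?_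
  rw [mul_pow, mul_pow, pow_succ E, sq]
  gcongr

/-- **(BuS)** -/
theorem buS9 : BuS := fun θ hθ => by
  refine q4S'.glue fun C => ?_
  obtain ⟨K, K1, hK⟩ := Gap27.hlip (2 * C)
  refine ⟨4, fun A hA ε η hε hη => ⟨ε, min (ε / 3) (η / 3), 10 ^ 19 * ((1 + K) * C ^ 32) / θ C ^ 2 +
    (1536 * C ^ 7) ^ 6 / (θ C / (10 ^ 5 * ((1 + K) * C ^ 2))) ^ 6, hε, by positivity,
    fun S M m a R h I q p lam W Gn V0 H hW WE G u v su ev uv => ?_⟩⟩
  obtain rfl := R.hC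
  obtain ⟨θ0, θ1⟩ := hθ S.C
  have n1 := h.n1
  have hL := R.K_le
  have th1 := R.θ1 h
  have hE : ((S.n : ℝ) ^ min (ε / 3) (η / 3)) ^ 3 ≤ (S.n : ℝ) ^ ε := by
    rw [Pre29.rp_pow]
    exact Pre29.rp_le n1 (by push_cast; linarith [min_le_left (ε / 3) (η / 3)])
  have hΛ : ((S.n : ℝ) ^ min (ε / 3) (η / 3)) ^ 3 ≤ (S.n : ℝ) ^ η := by
    rw [Pre29.rp_pow]
    exact Pre29.rp_le n1 (by push_cast; linarith [min_le_right (ε / 3) (η / 3)])
  have hv : S.v * (S.n : ℝ) ^ 4 ≤ S.C := le_trans (mul_le_mul_of_nonneg_left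
    (pow_le_pow_right₀ (by exact_mod_cast n1) (R.hA ▸ hA)) h.v0.le) h.v2
  generalize (S.n : ℝ) ^ min (ε / 3) (η / 3) = L at *
  generalize (S.n : ℝ) ^ ε = E at *
  generalize (S.n : ℝ) ^ η = Λ at *
  generalize θ S.C = t at *
  have C1 := h.C1
  have C0 := h.C0
  have F1 := h.F1
  have l1 := H.l1
  have W1 : 1 ≤ W := l1.trans hW
  have C2 : 1 ≤ S.C ^ 2 := one_le_pow₀ C1
  obtain ⟨D, eD⟩ : ∃ D, D = (1 + K) * S.C ^ 2 := ⟨_, rfl⟩
  have D1 : 1 + K ≤ D := eD ▸ le_mul_of_one_le_right (by linarith) C2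
  have D2 : S.C ^ 2 ≤ D := eD ▸ le_mul_of_one_le_left (by linarith) (by linarith)
  rw [← eD] at hL
  obtain ⟨e, ee⟩ : ∃ e, e = t / (10 ^ 5 * D) := ⟨_, rfl⟩
  have D0 : 0 < D := by linarith
  have e0 : 0 < e := by rw [ee]; positivity
  have e1 : 10 ^ 5 * (D * e) = t := by rw [ee]; field_simp
  rw [← ee] at hL
  have y1 : 0 ≤ 10 ^ 19 * ((1 + K) * S.C ^ 32) / t ^ 2 := by positivity
  have y2 : 0 ≤ (1536 * S.C ^ 7) ^ 6 / e ^ 6 := by positivity
  have h1 := (div_le_iff₀' (pow_pos θ0 2)).1 ((le_add_of_nonneg_right y2).trans hL)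
  have h2 := (div_le_iff₀' (pow_pos e0 6)).1 ((le_add_of_nonneg_left y1).trans hL)
  have L4' : 4 ≤ L := by
    have a1 : 1 ≤ (1 + K) * S.C ^ 32 :=
      one_le_mul_of_one_le_of_one_le (by linarith) (one_le_pow₀ C1)
    have a2 : 0 < L := (mul_pos_iff_of_pos_left (pow_pos θ0 2)).1 (by linarith)
    linarith [mul_le_of_le_one_left a2.le (pow_le_one₀ (n := 2) θ0.le θ1)]
  have L1 : 1 ≤ L := by linarith
  have a1 := mul_le_mul_of_nonneg_right D1 e0.le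
  have a2 := mul_le_mul_of_nonneg_right D2 e0.le
  have a3 := mul_pos D0 e0
  have a4 : 0 ≤ K * e := by positivity
  have Pw : ∀ {i : ℕ}, i ≤ 30 → L ^ 3 * W ^ i ≤ Λ * W ^ 30 := fun hi =>
    mul_le_mul hΛ (pow_le_pow_right₀ W1 hi) (by positivity) (le_trans (by positivity) hΛ)
  refine bk9 (L := L) (ε := e) (Q := L * lam ^ 5 * (2 * W ^ 2) ^ 2)
    ⟨h, I, by linarith [h.b1, H.ln.HJ], by linarith [h.sT]⟩ H hW G su ev uv (by linarith)
    (hK _ le_rfl).2.2.1 (hK _ le_rfl).2.2.2.1 θ0 θ1 e0 (by linarith) ?_ ?_ th1 hv h1 h2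
    (three9 (by linarith) (by positivity) (by positivity) hE ?_ ?_)
    (one_le_mul_of_one_le_of_one_le (one_le_mul_of_one_le_of_one_le L1 (one_le_pow₀ l1))
      (one_le_pow₀ (by linarith [one_le_pow₀ (n := 2) W1])))
    (le_trans (mul_le_mul_of_nonneg_right (pow_le_pow_right₀ L1 (by norm_num)) (by positivity))
      (Pw (by norm_num))) (le_trans ?_ (Pw (i := 11) (by norm_num))) fun t0 t1 Y b1 _ b3 b4 => ?_
  · have b1 : (24 * K * e) ^ 2 / t ≤ t / 4 := by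
      rw [div_le_iff₀ θ0]
      linarith [pow_le_pow_left₀ (by positivity) (show 24 * K * e ≤ t / 2 by linarith) 2]
    linarith
  · have b1 := mul_le_mul_of_nonneg_right (show (200 + 48 * K) * S.C ^ 2 ≤ 200 * D by
      rw [eD]; linarith [mul_nonneg (show 0 ≤ K by linarith) (sq_nonneg S.C)]) e0.le
    linarith [pow_le_pow_left₀ (by positivity) (show (200 + 48 * K) * S.C ^ 2 * e ≤ t / 100 by
      linarith) 2, sq_nonneg t]
  · rw [← pow_mul]; exact (pow_le_pow_right₀ W1 (by norm_num)).trans WE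
  · rw [← pow_mul]; exact (pow_le_pow_right₀ F1 (by norm_num)).trans H.F40
  · have b1 := mul_le_mul (pow_le_pow_left₀ (by linarith) hW 5) L4' (by norm_num) (by positivity)
    linarith [mul_le_mul_of_nonneg_left b1 (by positivity : 0 ≤ L ^ 2 * W ^ 6)]
  · refine (q p lam _ t0 t1 Y H (by linarith [one_le_pow₀ (n := 2) W1]) b1 b3 b4).1.trans
      (mul_le_mul_of_nonneg_left ?_ (by positivity))
    split_ifs
    · linarith [cB_nn9 h p.η t0 S.C]
    · exact le_rfl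

end Crest.Agent.T156.Alt.L31

end
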