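import Crest.Agent.T156.TkED_94
import Crest.Agent.T156.Lag_8

/-!
# Row 156, block (L): kit for (BwS) (helper14)
-/

set_option autoImplicit false

noncomputable section

namespace Crest.Agent.T156.Cut8

open MeasureTheory Set

/-- the bulk data from a continuation above `s` -/
theorem lb_core {T θ W a' s A c0 : ℝ} {zh zb ρ H m r1 r2 ω β f : ℝ → ℝ} {Q : ℝ → ℝ → Prop}
    (R : Res T (fun t => zb t - zh t) ρ H r1 r2 ω β (fun t => Gap27.xi θ (m t) (f t)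
      (∫ u in (0 : ℝ)..T, |Jf T zh zb u|) (zb t - zh t) (Jf T zh zb t)) A s) (lf : LB T f)
    (hF : ∫ t in A..s, f t ≤ W + ∫ t in A..s, H t * (zb t - zh t))
    (hΩ : ∫ t in A..s, ω t ^ 2 ≤ W + θ ^ 2 * ∫ t in A..s, (zb t - zh t) ^ 4)
    (nm : ∀ t, A < t → t < s → ∃ A0 A1 A2, 0 ≤ A1 ∧ Gap27.NumM θ (m t) (f t) A0 A1 A2 ∧
      |r1 t| + β t ≤ A0 + A1 * |zb t - zh t| +
        A2 * (|Jf T zh zb t| + ∫ u in (0 : ℝ)..T, |Jf T zh zb u|)) (e : r2 s = c0)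
    (hC : ∀ A' E, A ≤ A' → A' ≤ a' → (∫ t in A'..T, Jf T zh zb t ^ 2) +
      (∫ t in (0 : ℝ)..A', |Jf T zh zb t|) ^ 2 ≤ E →
      Cont T (fun t => zb t - zh t) ρ c0 (β s) A' s (θ * E + W) (Q E)) :
    Lb T θ W zh zb ρ H m A a' s Q r1 r2 ω β f :=
  ⟨R, lf, hF, hΩ, nm, fun A' E a b c => by
    obtain ⟨Z, z0, q, x⟩ := hC A' E a b c _ _ _ _ _ _ (R.sub a le_rfl) e rfl
    exact ⟨Z, z0, q, x.extA.mono (by linarith)⟩⟩

end Crest.Agent.T156.Cut8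

namespace Crest.Agent.T156.Alt.L63.Cx

open Real
open Crest.Agent.T156.Alt.L69 Crest.Agent.T156.Alt.Mp9

variable {E L : ℝ} {S : Sc} {M : Md} {m : ℕ} {a G1 u1 u2 j γ Lc ηc τ l0 l X Xp Vt Lg Lp X2 X3 X4
  G0 : ℝ} {η : ℝ → ℝ} {N : ℝ} {g : ℝ → ℝ} {t1 tu ℓ En p0 : ℝ}
  (H : Cx E L S M m a G1 u1 u2 j γ Lc ηc τ l0 l X Xp Vt Lg Lp X2 X3 X4 G0 η N g t1 tu ℓ En p0)
include H

/-- the sources of the bulk and of the continuation -/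
theorem src14 : 0 ≤ N ∧ 0 ≤ X4 ∧ 0 ≤ cB M S η (t1 / 2) S.C ∧ 0 ≤ 1 / (S.n : ℝ) ^ 3 ∧
    N + X2 ^ 2 + X4 + cB M S η (t1 / 2) S.C + 1 / (S.n : ℝ) ^ 3 ≤ 2 * En := by
  have t0 := H.t10
  have c0 : 0 ≤ cB M S η (t1 / 2) S.C := Finset.sum_nonneg fun k _ => by
    have := mf_pos H.cl (H.cl.s_nn k)
    have := cr1 S (M.s k)
    have : 0 ≤ min (|M.G k| ^ ((4 : ℝ) / 3)) (M.G k ^ 2 / mf S (M.s k)) :=
      le_min (by positivity) (by positivity)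
    exact mul_nonneg (dx_nn H.cl k) (by positivity)
  have x0 : 0 ≤ X4 := by
    have := H.w30 t0
    have c := t0.trans_le (H.cl_ge t0.le)
    have : 0 ≤ ws S (X ^ ((1 : ℝ) / 3)) t1 := by unfold ws; positivity
    have : 0 ≤ min X (L69.cl S (X ^ ((1 : ℝ) / 3)) t1 ^ 3) := le_min H.ln.X0.le (by positivity)
    exact le_trans (by positivity) (H.lt.x4 t1 (by linarith) (H.t11.trans H.cl.C1))
  have n0 : 0 ≤ N := by
    have := GP_nn H.cl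
    have := GS_nn H.cl (1 / (8 * S.C ^ 2)) S.C
    have := H.cl.θ0
    exact le_trans (by positivity) H.lp.c2
  have a2 : 0 ≤ l ^ 3 * X := (mul_pos (pow_pos H.l0' 3) H.ln.X0).le
  have a3 : 0 ≤ (S.ms t1 * bs S Lg X2 (g t1) η t1) ^ 2 / t1 := by positivity
  have a4 : 1 / (S.n : ℝ) ^ 3 ≤ En := by
    rw [← one_div_pow]
    exact (pow_le_pow_of_le_one H.μ0.le (H.μ1.trans H.l1) (by norm_num)).trans H.μEn
  have := H.cl.N0
  exact ⟨n0, x0, c0, by positivity, by linarith [H.lt.en]⟩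

theorem Et14 : E * t1 ≤ M.s S.J := H.lt.t1b.trans H.lt.tu1

theorem num14 : l ≤ t1 / 2 ∧ 4 * S.C ^ 4 * (t1 / 2) ≤ S.C ∧ 12 * S.C ^ 7 * (t1 / 2) < 1 ∧
    E * (t1 / 2) ≤ S.C ∧ 1000 * t1 ≤ M.s S.J ∧ M.s S.J ≤ S.C := by
  have t0 := H.t10
  have C0 := H.cl.C0
  have sC := H.cl.s_le_C H.cl.i3
  have a := H.Et14.trans sC
  have b1 : 2 * S.C ^ 4 * t1 ≤ S.C := H.dv (H.KE 4 (by norm_num)) t0.le a
  have b2 : 12 * S.C ^ 8 * t1 ≤ S.C := H.dv (H.KE 8 (by norm_num)) t0.le a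
  have b3 : 12 * S.C ^ 7 * t1 ≤ 1 := le_of_mul_le_mul_left (by linarith) C0
  have b4 : 0 < S.C ^ 7 * t1 := by positivity
  have b5 : 0 ≤ E * t1 := mul_nonneg (by linarith [H.E1]) t0.le
  exact ⟨by linarith [H.lt.t1a], by linarith, by linarith, by linarith,
    H.t1u.trans H.lt.tu1, sC⟩

end Crest.Agent.T156.Alt.L63.Cx

end
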