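import Crest.Agent.T156.BwA_14
import Crest.Agent.T156.LInt_31
import Crest.Agent.T156.NgS_9

/-!
# Row 156, block (L): (BwS) at fixed numbers (helper14)
-/

set_option autoImplicit false

noncomputable section

namespace Crest.Agent.T156.Alt.L63.Cx

open MeasureTheory Set Real
open Crest.Agent.R164.GC Crest.Agent.R339.B Crest.Agent.R339.Var Crest.Agent.T157.Pf
open Crest.Agent.T156.Cut8 (Lb Cont)
open Crest.Agent.T156.Gap27 (resN)
open Crest.Agent.T156.Alt.L69 Crest.Agent.T156.Alt.Mp9 Crest.Agent.T156.Alt.C74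
open Crest.Agent.T156.Alt.L31

variable {E L : ℝ} {S : Sc} {M : Md} {m : ℕ} {a G1 u1 u2 j γ Lc ηc τ l0 l X Xp Vt Lg Lp X2 X3 X4
  G0 : ℝ} {η : ℝ → ℝ} {N : ℝ} {g : ℝ → ℝ} {t1 tu ℓ En p0 : ℝ}
  (H : Cx E L S M m a G1 u1 u2 j γ Lc ηc τ l0 l X Xp Vt Lg Lp X2 X3 X4 G0 η N g t1 tu ℓ En p0)
include H

/-- the loss of the net goes up -/
theorem ng14 {W W' V V2 N' N'' : ℝ} {Gn : ℕ → Prop} {V0 : ℕ} (V0' : 0 ≤ V) (hW : W ≤ W')
    (G : Ng E W S M m a ⟨G1, u1, u2, j, γ, Lc, ηc, τ, l0, l, V, X, Xp, Vt, V2, Lg, Lp, X2, X3, G0,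
      N', N'', η⟩ Gn V0) :
    Ng E W' S M m a ⟨G1, u1, u2, j, γ, Lc, ηc, τ, l0, l, V, X, Xp, Vt, V2, Lg, Lp, X2, X3, G0,
      N', N'', η⟩ Gn V0 := by
  have τ0 : 0 ≤ τ := by
    by_contra c
    have := (Odd.pow_neg (by decide : Odd 3) (not_le.1 c))
    linarith [H.lp.tw, H.w30 one_pos]
  have e1 := H.μ0.le.trans (H.μη H.l1 H.cl.C1)
  have γ0 : 0 ≤ γ := (sub_nonneg.2 (H.cl.sm H.cl.i3)).trans H.lp.γ0
  have m1 := mf_pos H.cl zero_le_one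
  have F1 := H.cl.F1
  have g0 : 0 < Lg := lt_of_lt_of_le (by have := H.E1; positivity) H.ln.Lg0
  have eC := H.μ0.le.trans (H.μη (H.l1.trans H.cl.C1) le_rfl)
  refine ⟨Sz9.NG_mono G.ng H.A hW (H.l0'.trans_le (le_max_left _ _)) g0 (by positivity) H.X20
    fun k hk => eC.trans (H.ln.ηa (H.cl.s_le_C (hk.le.trans H.cl.i3))),
    G.n2.trans (mul_le_mul_of_nonneg_right hW H.X20),
    fun k hk => (G.cru k hk).trans (mul_le_mul_of_nonneg_right hW ?_)⟩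
  have := cr1 S (max (M.z k) l0)
  have : 0 ≤ max (M.z k) l0 := H.l00.le.trans (le_max_right _ _)
  unfold L69.cl
  positivity

/-- the gains in the form read by (TkE) -/
theorem qt14 {s Z Λ E' Y N' : ℝ} (Z0 : 0 ≤ Z) (hΛ : 2 * Z ≤ Λ) (E0 : 0 ≤ E') (Y0 : 0 ≤ Y)
    (hN : N' ≤ 2 * En) (q : L25.QT S M m a (2 * S.C) s (Z * u2) Z E' N' Y) :
    L25.QT S M m a (2 * S.C) s (Λ * u2) Λ E' (E' + En) Y := by
  obtain ⟨Q, q1, q2, q3, q4, q5, q6⟩ := q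
  have u0 : 0 ≤ u2 := by linarith [H.lp.u1a, H.lp.u1b.1, H.cl.last, H.cl.leg.z1 (S.Jp - 1)]
  have e0 := H.En0
  have p1 : Z * (Y + N') ≤ Λ * (Y + (E' + En)) :=
    calc Z * (Y + N') ≤ Z * (2 * (Y + (E' + En))) := mul_le_mul_of_nonneg_left (by linarith) Z0
      _ = 2 * Z * (Y + (E' + En)) := by ring
      _ ≤ _ := mul_le_mul_of_nonneg_right hΛ (by linarith)
  have p2 : Z * (E' + Y + N') ≤ Λ * (E' + Y + (E' + En)) :=
    calc Z * (E' + Y + N') ≤ Z * (2 * (E' + Y + (E' + En))) :=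
          mul_le_mul_of_nonneg_left (by linarith) Z0
      _ = 2 * Z * (E' + Y + (E' + En)) := by ring
      _ ≤ _ := mul_le_mul_of_nonneg_right hΛ (by linarith)
  exact ⟨Q, q1, q2, q3.trans (mul_le_mul_of_nonneg_right (by linarith) u0), q4.trans p1,
    q5.trans p1, q6.trans p2⟩

/-- **one bulk with its continuation** -/
theorem lb14 {K Z Λ θ0 V2 N' : ℝ} {p : Pa} {Gn : ℕ → Prop} {V0 u v : ℕ} {r1 r2 ω β f : ℝ → ℝ}
    (hp : p = ⟨G1, u1, u2, j, γ, Lc, ηc, τ, l0, l, X ^ ((1 : ℝ) / 3), X, Xp, Vt, V2, Lg, Lp, X2,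
      X3, G0, N', N, η⟩) (K0 : 0 ≤ K) (KZ : K ≤ Z) (hΛ : 2 * S.C * Z ≤ Λ)
    (V : Ve S M m a Gn V0 v) (hV : V0 + 1 < S.J) (uv : u < v) (su : t1 ≤ M.s u)
    (hA : t1 ≤ sb M m a (u + 1)) (hs : 2 * t1 ≤ sb M m a (v + 1))
    (B : Bk K θ0 S M m a p Gn u v r1 r2 ω β f)
    (hT : ∀ A A0 En βs, 0 ≤ A → A ≤ sb M m a (v + 1) → 0 ≤ A0 →
      8 * A0 ≤ M.s S.J → (∫ t in A0..2 * S.C, JJ M S m a (2 * S.C) t ^ 2) +
        (∫ t in (0 : ℝ)..A0, |JJ M S m a (2 * S.C) t|) ^ 2 ≤ En → 0 ≤ βs →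
      βs ≤ K * bE S M m a p (sb M m a (v + 1)) →
      Cont (2 * S.C) (uu M S m a (2 * S.C)) (rq S M m a)
        (resN (lb M S m a (2 * S.C)) M.b (sb M m a) (hb M) (v + 1)) βs A (sb M m a (v + 1))
        (θ0 * En + Z * S.F ^ 10 * Nn S M p X4 (t1 / 2))
        (L25.QT S M m a (2 * S.C) (sb M m a (v + 1)) (Z * p.u2) (Z * S.F) En
          (S.F ^ 10 * Nn S M p X4 (t1 / 2)))) :
    Lb (2 * S.C) θ0 (Λ * En) (lvr 1 (lh M (2 * S.C))) (lvr 1 (lb M S m a (2 * S.C)))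
      (fun t => Pr.Gam (lb M S m a (2 * S.C)) t - Pr.Gam (lh M (2 * S.C)) t)
      (HH M S m a (2 * S.C)) (mm M S m a) (sb M m a (u + 1)) (3 / 2 * t1) (sb M m a (v + 1))
      (fun E' Y => L25.QT S M m a (2 * S.C) (sb M m a (v + 1)) (Λ * u2) Λ E' (E' + En) Y)
      r1 r2 ω β f := by
  subst hp
  obtain ⟨s1, s2, s3, s4, s5⟩ := H.src14
  obtain ⟨n1, n2, n3, n4, n5, n6⟩ := H.num14
  obtain ⟨v1, v2, v3, v4, v5⟩ := V
  have t0 := H.t10
  have C1 := H.cl.C1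
  have e0 := H.En0
  have F1 := H.lt.F1
  have x2 := sq_nonneg X2
  have Z0 := K0.trans KZ
  have svC : M.s v ≤ S.C := H.cl.s_le_C (le_trans (by omega) H.cl.i3)
  have k1 : ∀ y, y ≤ S.C * (2 * En) → Z * y ≤ Λ * En := fun y hy =>
    calc Z * y ≤ Z * (S.C * (2 * En)) := mul_le_mul_of_nonneg_left hy Z0
      _ = 2 * S.C * Z * En := by ring
      _ ≤ _ := mul_le_mul_of_nonneg_right hΛ e0
  have k2 : ∀ y, 0 ≤ y → y ≤ S.C * (2 * En) → K * y ≤ Λ * En := fun y y0 hy =>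
    (mul_le_mul_of_nonneg_right KZ y0).trans (k1 y hy)
  have k3 : 2 * En ≤ S.C * (2 * En) := le_mul_of_one_le_left (by linarith) C1
  refine Cut8.lb_core B.R B.lf ?_ ?_ (fun t p q => B.nm t p q (by
    show l ≤ t; linarith)) B.r2s fun A' E' a1 a2 a3 => ?_
  · have := B.hF v (t1 / 2) S.C uv.le le_rfl v1 n1 (by linarith) n2 n3 svC (by linarith)
    rw [max_eq_right (by linarith), mul_zero, add_zero] at this
    exact this.trans (add_le_add_left (k2 _ (by positivity) (by dsimp only; linarith)) _)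
  · have := B.hΩ v (t1 / 2) S.C X4 uv.le le_rfl v1 n1 (by linarith) n3 (by linarith)
      (by rw [min_eq_right (by linarith)]; exact H.lt.x4) s2
    refine this.trans (add_le_add_left (k2 _ ?_ ?_) _)
    · dsimp only
      split_ifs <;> positivity
    · have b := mul_le_mul_of_nonneg_left s5 H.cl.C0.le
      have c : ∀ y : ℝ, 0 ≤ y → y ≤ S.C * y := fun y hy => le_mul_of_one_le_left hy C1
      dsimp only
      split_ifs <;> linarith [c _ s1, c _ s2, c _ s3, c _ s4, mul_nonneg H.cl.C0.le s1,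
        mul_nonneg H.cl.C0.le s3]
  · have E0 : 0 ≤ E' := le_trans (add_nonneg (intervalIntegral.integral_nonneg (by linarith)
      fun _ _ => sq_nonneg _) (sq_nonneg _)) a3
    have hN : Nn S M ⟨G1, u1, u2, j, γ, Lc, ηc, τ, l0, l, X ^ ((1 : ℝ) / 3), X, Xp, Vt, V2, Lg, Lp,
      X2, X3, G0, N', N, η⟩ X4 (t1 / 2) ≤ 2 * En := s5
    have := hT A' A' E' _ (by linarith) (by linarith) (by linarith) (by linarith) a3 B.be.1 B.be.2
    rw [F1, one_pow, mul_one, one_mul] at this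
    exact this.mono (by linarith [k1 _ (hN.trans k3)]) fun Y Y0 q =>
      H.qt14 Z0 (le_trans (by nlinarith) hΛ) E0 Y0 hN q

/-- the end of the bulk is a sloped node -/
theorem zs14 {Gn : ℕ → Prop} {V0 v : ℕ} (V : Ve S M m a Gn V0 v) (hV : V0 + 1 < S.J) {t : ℝ}
    (ht : t < sb M m a (v + 1)) : lvr 1 (lb M S m a (2 * S.C)) t ≤ M.z (S.J - 1) := by
  obtain ⟨-, v2, v3, -⟩ := V
  refine L25.zs_of H.A (le_of_not_ge fun c => ?_) (by omega) ht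
  linarith [H.cl.sm c, H.jl_l0, H.lt.l2, H.lt.t1a, H.num14.2.2.2.2.1, H.t10, H.l00]

end Crest.Agent.T156.Alt.L63.Cx

end
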