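import Crest.Agent.T156.NdS_89

/-!
# Row 156, block (L): good nodes of the net at every level (helper95)
-/

set_option autoImplicit false

noncomputable section

namespace Crest.Agent.T156.Alt.L31

open Real

variable {E : ℝ} {S : Sc} {M : Md} {m : ℕ} {a : ℝ}

/-- an index window inside the time window `[t, 9 t / 8]` -/
theorem win95 (h : Cl S M) {t : ℝ} (h0 : M.s S.jl ≤ t) (hv : 32 * S.C ^ 3 * S.v ≤ t)
    (hJ : 2 * t ≤ M.s S.J) : ∃ i k, S.jl < i ∧ i ≤ k ∧ k < S.J ∧ 2 * k ≤ 3 * i ∧ t ≤ M.s i ∧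
      M.s k ≤ 9 / 8 * t ∧ t ≤ 16 * S.C ^ 3 * (((k : ℝ) - i) * S.v) := by
  have C0 := h.C0
  have C1 := h.C1
  have v0 := h.v0
  have t0 : 0 < t := lt_of_lt_of_le (by positivity) hv
  obtain ⟨w, hw⟩ : ∃ w, w = t / (8 * S.C ^ 2) := ⟨_, rfl⟩
  have w1 : 8 * S.C ^ 2 * w = t := by rw [hw]; field_simp
  have w0 : 0 < w := by rw [hw]; positivity
  have C2 : 1 ≤ S.C ^ 2 := one_le_pow₀ C1
  have w2 : 8 * w ≤ t := by nlinarith
  have w3 : 4 * (S.C * S.v) ≤ w := by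
    refine le_of_mul_le_mul_left ?_ (show 0 < 8 * S.C ^ 2 by positivity)
    nlinarith
  obtain ⟨i, i1, i2, i3, -⟩ := h.exists_node t0.le (by linarith)
  obtain ⟨k, k1, k2, -, k3⟩ := h.exists_node (t := t + w) (by linarith) (by linarith)
  have i4 := (h.ss i i1).2
  have ik : i + 1 ≤ k := by
    by_contra c
    have := h.sm (show k ≤ i by omega)
    nlinarith [mul_pos C0 v0]
  have ji : S.jl < i + 1 := by
    by_contra c
    have := h.sm (not_lt.1 c)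
    linarith
  obtain ⟨a1, a2⟩ := h.s_tel ik k1.le
  have a3 := (h.s_bds (k := i + 1) (by omega)).2
  refine ⟨i + 1, k, ji, ik, k1, ?_, i3.le, by linarith, ?_⟩
  · have b1 : ((k : ℝ) - (i + 1 : ℕ)) * S.v ≤ S.C * w := by
      have := mul_le_mul_of_nonneg_left (show ((k : ℝ) - (i + 1 : ℕ)) * (S.v / S.C) ≤ w by
        linarith) C0.le
      rwa [show S.C * (((k : ℝ) - (i + 1 : ℕ)) * (S.v / S.C)) = ((k : ℝ) - (i + 1 : ℕ)) * S.v by
        field_simp] at this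
    have b2 : 8 * (S.C * w) ≤ ((i + 1 : ℕ) : ℝ) * S.v := by
      refine le_of_mul_le_mul_left ?_ C0
      nlinarith
    have b3 : (2 * k : ℝ) ≤ 3 * ((i + 1 : ℕ) : ℝ) := by
      refine le_of_mul_le_mul_right ?_ v0
      nlinarith [mul_pos C0 w0]
    exact_mod_cast b3
  · have b1 : w / 2 ≤ ((k : ℝ) - (i + 1 : ℕ)) * (S.C * S.v) := by linarith
    nlinarith [mul_le_mul_of_nonneg_left b1 (show 0 ≤ 16 * S.C ^ 2 by positivity)]

/-- a good node of the net in `[t, 9 t / 8]` -/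
theorem ng_gs {W T lo Lg X2 τ1 t : ℝ} {η : ℝ → ℝ} {Gn : ℕ → Prop} {V0 : ℕ} (h : Cl S M)
    (G : G89.NG E W S M m a T lo Lg X2 τ1 η Gn V0) (W0 : 0 ≤ W) (hL : 18 * S.C ^ 3 * W ≤ Lg)
    (h1 : lo ≤ t) (h0 : M.s S.jl ≤ t) (hv : 32 * S.C ^ 3 * S.v ≤ t)
    (hJ : 2 * S.C ^ 2 * t ≤ M.s S.J) : ∃ u, Gn u ∧ S.jl < u ∧ 8 * u ≤ 5 * S.J ∧ u ≤ V0 ∧
      t ≤ M.s u ∧ M.s u ≤ 9 / 8 * t := by
  have C0 := h.C0
  have v0 := h.v0
  have C2 : 1 ≤ S.C ^ 2 := one_le_pow₀ h.C1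
  have t0 : 0 < t := lt_of_lt_of_le (by positivity) hv
  have L0 : 0 ≤ Lg := le_trans (by positivity) hL
  obtain ⟨i, k, b1, b2, b3, b4, b5, b6, b7⟩ := win95 h h0 hv (by nlinarith)
  obtain ⟨u, u1, u2, u3⟩ := G.ex i k (h1.trans b5) b2 b3 b4 (by
    have y0 : 0 ≤ ((k : ℝ) - i) * S.v := mul_nonneg (sub_nonneg.2 (by exact_mod_cast b2)) v0.le
    have e1 := mul_le_mul_of_nonneg_left ((h.sm b2).trans b6) W0
    have e2 := mul_le_mul_of_nonneg_left b7 W0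
    have e3 := mul_le_mul_of_nonneg_right hL y0
    nlinarith [mul_nonneg L0 v0.le])
  have s1 := (h.sm u2).trans b6
  have e : 8 * u ≤ 5 * S.J := by
    have a1 := (h.s_bds (k := u) (by omega)).1
    have a2 := (h.s_bds (k := S.J) le_rfl).2
    have a3 : (u : ℝ) * S.v ≤ S.C * (9 / 8 * t) := by
      have := mul_le_mul_of_nonneg_left (a1.trans s1) C0.le
      rwa [show S.C * (u * (S.v / S.C)) = u * S.v by field_simp] at this
    have a4 : (8 * u : ℝ) ≤ 5 * S.J := by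
      refine le_of_mul_le_mul_right ?_ (mul_pos C0 v0)
      nlinarith [mul_le_mul_of_nonneg_left a3 C0.le, mul_pos (pow_pos C0 2) t0]
    exact_mod_cast a4
  exact ⟨u, u3, by omega, e, G.big u u3 e, b5.trans (h.sm u1), s1⟩

end Crest.Agent.T156.Alt.L31

end
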