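import Crest.Agent.T156.BwB_14
import Crest.Agent.T156.GsK_95

/-!
# Row 156, block (L): (BwS) from the net, the bulk and the continuation (helper14)
-/

set_option autoImplicit false

noncomputable section

namespace Crest.Agent.T156.Alt.L63

open MeasureTheory Set Real
open Crest.Agent.T156.Alt.L69 Crest.Agent.T156.Alt.Mp9 Crest.Agent.T156.Alt.C74
open Crest.Agent.T156.Alt.L31

namespace Cx

variable {E L : ℝ} {S : Sc} {M : Md} {m : ℕ} {a G1 u1 u2 j γ Lc ηc τ l0 l X Xp Vt Lg Lp X2 X3 X4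
  G0 : ℝ} {η : ℝ → ℝ} {N : ℝ} {g : ℝ → ℝ} {t1 tu ℓ En p0 : ℝ}
  (H : Cx E L S M m a G1 u1 u2 j γ Lc ηc τ l0 l X Xp Vt Lg Lp X2 X3 X4 G0 η N g t1 tu ℓ En p0)
include H

/-- crude location -/
theorem cru14 (k : ℕ) : M.rb m a k ≤ L * L69.cl S (X ^ ((1 : ℝ) / 3)) (max (M.z k) l0) := by
  have h := H.cl
  have C0 := h.C0
  have C1 := h.C1
  have L1 := H.L1
  have R0 := H.R0
  have z0 := h.z_pos k
  have m1 := le_max_left (M.z k) l0
  have m2 := le_max_right (M.z k) l0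
  have a1 : max (M.z k) l0 + X ^ ((1 : ℝ) / 3) ≤ L69.cl S (X ^ ((1 : ℝ) / 3)) (max (M.z k) l0) := by
    have := le_mul_of_one_le_left (z0.le.trans m1) (cr1 S (max (M.z k) l0))
    unfold L69.cl; linarith
  refine le_trans ?_ (mul_le_mul (H.KL (c := 3) 1 (by norm_num)) a1 (by positivity) (by linarith))
  rw [pow_one]
  have b0 := mul_le_mul_of_nonneg_left m1 C0.le
  have b1 := mul_pos C0 R0
  have b2 := mul_pos C0 z0
  rcases le_total (2 * S.C * M.z k) 1 with c | c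
  · have a2 := Sz9.start H.A H.ap.all R0 H.R3.ge
      ((H.dv (by linarith [H.CE]) R0.le H.lt.lX).trans H.l1) c
    have a3 := (h.s_bds h.jl_lt.le).1
    have a4 : (1 : ℝ) ≤ S.jl := by exact_mod_cast h.i0.trans h.i1
    rw [← mul_div_assoc, div_le_iff₀ C0] at a3
    have a5 : 2 * S.C ^ 2 * M.s S.jl ≤ l0 := H.dv (H.KE 2 (by norm_num)) H.jl0.le H.ln.l0s
    have a6 : S.v ≤ M.s S.jl * S.C := (le_mul_of_one_le_left h.v0.le a4).trans a3
    have a7 : 2 * (S.C * S.v) ≤ max (M.z k) l0 := by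
      linarith [mul_le_mul_of_nonneg_left a6 C0.le]
    linarith [mul_le_mul_of_nonneg_left a7 C0.le, le_mul_of_one_le_left R0.le C1]
  · linarith [(rb_mem (M := M) (a := a) H.A.m_pos k).2]

theorem hx14 (hE : L ^ 1000 ≤ E) : Hx E L S M m a ⟨G1, u1, u2, j, γ, Lc, ηc, τ, l0, l,
    X ^ ((1 : ℝ) / 3), X, Xp, Vt, Vt, Lg, Lp, X2, X3, G0, N, N, η⟩ :=
  ⟨H.ce, H.ln, H.lp, H.lp.lc, by rw [H.lt.F1, one_pow]; exact H.E1, H.ap, H.ap.ap2 _, H.L1, hE,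
    le_trans (by simpa using H.dv H.E1 H.R0.le H.lt.lX)
      (le_mul_of_one_le_left H.l0'.le (cr1 S l)), fun k _ => H.cru14 k⟩

/-- a good node just above each time of `[5 t1 / 4, 3 t1 / 2]` -/
theorem nd14 {W τ1 : ℝ} {Gn : ℕ → Prop} {V0 : ℕ} (W1 : 1 ≤ W) (hW : L * W ≤ E)
    (G : G89.NG E W S M m a (2 * S.C) (max l (2 * l0)) Lg X2 τ1 η Gn V0) {x : ℝ}
    (x1 : 5 / 4 * t1 ≤ x) (x2 : x ≤ 3 / 2 * t1) : ∃ u, Gn u ∧ t1 ≤ M.s u ∧ x ≤ sb M m a (u + 1) ∧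
      sb M m a (u + 1) < 2 * t1 ∧ E * (sb M m a (u + 1) - x) ≤ 2 * t1 := by
  have t0 := H.t10
  have l0' := H.l0'
  have C0 := H.cl.C0
  have ta := H.lt.t1a
  have E1 := H.E1
  rw [max_eq_left H.lt.l2] at G
  have hL : 18 * S.C ^ 3 * W ≤ Lg := by
    have := H.ln.Lg0
    rw [H.lt.F1, one_pow, mul_one] at this
    exact ((mul_le_mul_of_nonneg_right (H.KL 3 (by norm_num)) (by linarith)).trans hW).trans this
  have hv : 32 * S.C ^ 3 * S.v ≤ l :=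
    (H.dv (H.KE 3 (by norm_num)) H.cl.v0.le H.vμ).trans H.μ1
  have hJ : 8 * S.C ^ 2 * t1 ≤ M.s S.J := H.dv (H.KE 2 (by norm_num)) t0.le H.Et14
  have h4 : 8 * S.C ^ 3 * t1 ≤ S.C := (H.dv (H.KE 3 (by norm_num)) t0.le H.Et14).trans
    H.num14.2.2.2.2.2
  have h5 : 2 * t1 ≤ 1 / (4 * S.C ^ 2) := by
    rw [le_div_iff₀ (by positivity)]
    exact le_of_mul_le_mul_left (by linarith) C0
  have c2 : 0 < S.C ^ 2 * t1 := by positivity
  have j1 : M.s S.jl ≤ l := by linarith [H.jl_l0, H.lt.l2, H.l00]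
  obtain ⟨u, u1, -, -, u4, u5, u6⟩ := ng_gs (t := t1) H.cl G (by linarith) hL (by linarith)
    (by linarith) (by linarith) (by linarith)
  obtain ⟨w, w1, -, -, w4, w5, w6⟩ := ng_gs (t := 8 / 5 * t1) H.cl G (by linarith) hL (by linarith)
    (by linarith) (by linarith) (by linarith)
  have b := fun k (h1 : t1 ≤ M.s k) (h2 : M.s k ≤ 2 * t1) =>
    H.dsb_cr (k := k) (by linarith) (by linarith [H.t1u, H.ℓu, H.ℓ0])
  have uw : u ≤ w := le_of_not_ge fun c => by linarith [H.cl.sm c]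
  obtain ⟨i, k, nx, p1, p2⟩ := exists_nx (σ := fun y => sb M m a (y + 1)) uw u1 w1 (t := x)
    (by linarith [(b u u5 (by linarith)).2 (by linarith)])
    (by linarith [(b w (by linarith) (by linarith)).1])
  obtain ⟨q1, q2, q3, q4, q5, q6⟩ := nx
  have si := H.cl.sm q1
  have si' := H.cl.sm (q2.trans q3)
  have sh := G.sh u i k ⟨q1, q2, q3.trans w4, q4, q5, q6⟩ (by linarith)
  have iC : M.s i ≤ S.C := by linarith [H.num14.2.2.2.2.1, H.num14.2.2.2.2.2]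
  have m0 := H.cl.ms_pos (H.cl.s_nn i)
  have d0 : 0 ≤ G89.ds M m a i k := sub_nonneg.2 (p1.trans p2)
  have d1 : G89.ds M m a i k ≤ √(S.ms (M.s i)) := le_of_pow_le_pow_left₀ (n := 6) (by norm_num)
    (sqrt_nonneg _) (by
      rw [show √(S.ms (M.s i)) ^ 6 = (√(S.ms (M.s i)) ^ 2) ^ 3 by ring, sq_sqrt m0.le, ← H.mf_eq]
      exact (le_mul_of_one_le_left (by positivity) E1).trans sh)
  have d2 := (mul_le_mul_of_nonneg_left d1 (by linarith)).trans (H.lt.ml _ (by linarith) iC)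
  have d3 : E * (sb M m a (k + 1) - x) ≤ E * G89.ds M m a i k :=
    mul_le_mul_of_nonneg_left (sub_le_sub_left p1 _) (by linarith)
  refine ⟨k, q5, by linarith [H.cl.sm q2], p2, ?_, by linarith⟩
  linarith [H.A.sb_mono (Nat.succ_le_succ q3), (b w (by linarith) (by linarith)).2 (by linarith)]

/-- **(BwS) at fixed numbers** -/
theorem bw14 {θ0 Λ W K Z : ℝ} (hW : L ≤ W) (hK : L * W ≤ K) (hZ : K ≤ Z)
    (hE : K ^ 1000 ≤ E) (hΛ : L * Z ≤ Λ)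
    (N1 : ∀ p, Hx E L S M m a p → ∃ Gn V0, Ng E W S M m a p Gn V0)
    (B1 : ∀ p Gn V0, Hx E L S M m a p → Ng E W S M m a p Gn V0 →
      ∀ u v, Vs M p Gn u → Ve S M m a Gn V0 v → u < v →
      ∃ r1 r2 ω β f, Bk K θ0 S M m a p Gn u v r1 r2 ω β f)
    (T1 : ∀ p Gn V0, Hx E L S M m a p → E * (t1 / 2) ≤ S.C → L4 S p.V p.X (t1 / 2) S.C X4 →
      Ng E K S M m a p Gn V0 →
      ∃ v, Ve S M m a Gn V0 v ∧ ∀ A A0 En βs, 0 ≤ A → A ≤ sb M m a (v + 1) → 0 ≤ A0 →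
      8 * A0 ≤ M.s S.J → (∫ t in A0..2 * S.C, JJ M S m a (2 * S.C) t ^ 2) +
        (∫ t in (0 : ℝ)..A0, |JJ M S m a (2 * S.C) t|) ^ 2 ≤ En → 0 ≤ βs →
      βs ≤ K * bE S M m a p (sb M m a (v + 1)) →
      Cut8.Cont (2 * S.C) (uu M S m a (2 * S.C)) (rq S M m a)
        (Gap27.resN (lb M S m a (2 * S.C)) M.b (sb M m a) (hb M) (v + 1)) βs A (sb M m a (v + 1))
        (θ0 * En + Z * S.F ^ 10 * Nn S M p X4 (t1 / 2))
        (L25.QT S M m a (2 * S.C) (sb M m a (v + 1)) (Z * p.u2) (Z * S.F) En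
          (S.F ^ 10 * Nn S M p X4 (t1 / 2)))) :
    ∃ s, Bw E Λ θ0 S M m a t1 u2 En s := by
  have L1 := H.L1
  have W1 := L1.trans hW
  have WK : W ≤ K := (le_mul_of_one_le_left (by linarith) L1).trans hK
  have K1 := W1.trans WK
  have KE : K ≤ E := (le_self_pow₀ K1 (by norm_num)).trans hE
  have X := H.hx14 ((pow_le_pow_left₀ (by linarith) (hW.trans WK) 1000).trans hE)
  obtain ⟨Gn, V0, G⟩ := N1 _ X
  obtain ⟨n1, -, -, n4, n5, -⟩ := H.num14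
  obtain ⟨v, V, hT⟩ := T1 _ Gn V0 X n4 H.lt.x4 (H.ng14 H.R0.le WK G)
  have t0 := H.t10
  have hs : 2 * t1 ≤ sb M m a (v + 1) := by linarith [V.2.2.2.1]
  refine ⟨sb M m a (v + 1), hs, V.2.2.2.2, fun t ht => H.zs14 V G.ng.hV ht, fun x x1 x2 => ?_⟩
  obtain ⟨u, u1, u2, u3, u4, u5⟩ := H.nd14 W1 (hK.trans KE) G.ng x1 x2
  have uv : u < v := lt_of_not_ge fun c => by linarith [H.A.sb_mono (Nat.succ_le_succ c)]
  obtain ⟨r1, r2, ω, β, f, B⟩ := B1 _ Gn V0 X G u v ⟨u1, by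
    show 9 / 8 * max l (2 * l0) ≤ _
    rw [max_eq_left H.lt.l2]; linarith [H.l0']⟩ V uv
  exact ⟨_, r1, r2, ω, β, f, u3, u5, H.lb14 rfl (by linarith) hZ (le_trans (mul_le_mul_of_nonneg_right
    (by simpa using H.KL (c := 2) 1 (by norm_num)) (by linarith)) hΛ) V G.ng.hV uv u2
    (by linarith) hs B hT⟩

end Cx

/-- **(BwS)** -/
theorem bwS_of (hN : NgX) (hB : BuS) (hT : TxS) : BwS := fun θ hθ => by
  refine CL.mono (P := fun E Λ S M m a => ∀ Λ', Λ ≤ Λ' →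
    ∀ G1 u1 u2 j γ Lc ηc τ l0 l X Xp Vt Lg Lp X2 X3 X4 G0 η N g t1 tu ℓ En p0,
    Hy E S M m a G1 u1 u2 j γ Lc ηc τ l0 l X Xp Vt Lg Lp X2 X3 X4 G0 η N g t1 tu ℓ En p0 →
    ∃ s, Bw E Λ' (θ S.C) S M m a t1 u2 En s) ?_ fun _ _ _ _ _ _ _ _ _ _ H => H _ le_rfl
  refine ((CL.and hN (hB θ hθ)).and hT).glue'
    (fun _ _ _ _ _ _ _ _ h2 H Λ' h3 => H Λ' (h2.trans h3)) 2 (i := 1) le_rfl 931000 931002
    fun C A ε η hε hη => ⟨max (10 ^ 9 * C ^ 13) (1 / θ C), fun S M m a R hA h1 h2 c I q Λ hΛ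
      G1 u1 u2 j γ Lc ηc τ l0 l X Xp Vt Lg Lp X2 X3 X4 G0 η' N g t1 tu ℓ En p0 Y => ?_⟩
  obtain rfl := R.hC
  rw [pow_one] at *
  have n1 : 1 ≤ S.n := c.n1
  have n0 := c.N0
  have LE : ((S.n : ℝ) ^ η) ^ 931000 ≤ (S.n : ℝ) ^ ε := by
    rw [Pre29.rp_pow]; exact Pre29.rp_le n1 (by push_cast at h1 ⊢; linarith)
  have L1 := R.Λ1
  have k1 := (le_max_left _ _).trans R.K_le
  have k2 := (le_max_right _ _).trans R.K_le
  have lg := R.log_le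
  have b1 : S.v * (S.n : ℝ) ^ 2 ≤ S.C := le_trans (mul_le_mul_of_nonneg_left
    (pow_le_pow_right₀ (by exact_mod_cast n1) (R.hA ▸ R.A2)) c.v0.le) c.v2
  generalize (S.n : ℝ) ^ η = L at *
  generalize (S.n : ℝ) ^ ε = E at *
  have H : Cx E L S M m a G1 u1 u2 j γ Lc ηc τ l0 l X Xp Vt Lg Lp X2 X3 X4 G0 η' N g t1 tu ℓ En p0 :=
    ⟨Y, c, I, k1, (pow_le_pow_right₀ L1 (by norm_num)).trans LE, lg, R.C_log, by
      rwa [one_div_pow, mul_one_div, le_div_iff₀ (by positivity)]⟩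
  obtain ⟨⟨q1, q2⟩, q3⟩ := q
  have θ0 := (hθ S.C).1
  have hL : 1 ≤ L * θ S.C := (div_le_iff₀ θ0).1 k2
  have pw : ∀ {i k : ℕ}, i ≤ k → L ^ i ≤ L ^ k := fun h => pow_le_pow_right₀ L1 h
  have e1 : L * L ^ 30 = L ^ 31 := by ring
  have e2 : L * (L ^ 31) ^ 30 = L ^ 931 := by ring
  have e3 : (L ^ 931) ^ 1000 = L ^ 931000 := by rw [← pow_mul]
  have l1 : ∀ {k : ℕ}, k ≠ 0 → L ≤ L ^ k := fun h => le_self_pow₀ L1 h
  have K1 : 1 ≤ L ^ 931 := one_le_pow₀ L1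
  refine H.bw14 (W := L ^ 31) (K := L ^ 931) (Z := L * (L ^ 931) ^ _) (l1 (by norm_num))
    ((pow_succ' L 31).symm.trans_le (pw (by norm_num))) ?_ (e3.trans_le LE) ?_
    (fun p x => e1 ▸ q1 p L x)
    (fun p Gn V0 x y => e2 ▸ q2 p L _ Gn V0 x (l1 (by norm_num))
      (((pow_mul L 31 1000).symm.trans_le (pw (by norm_num))).trans LE) y)
    fun p Gn V0 x y z w => q3 p L _ _ _ _ Gn V0 x (l1 (by norm_num)) (e3.trans_le LE)
      (hL.trans (mul_le_mul_of_nonneg_right (l1 (by norm_num)) θ0.le)) y z w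
  · exact (le_self_pow₀ K1 (by norm_num)).trans (le_mul_of_one_le_left (by positivity) L1)
  · refine le_trans ?_ hΛ
    rw [← pow_mul, ← pow_succ', ← pow_succ']
    exact pw (by norm_num)

end Crest.Agent.T156.Alt.L63

end
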