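import Crest.Agent.T156.C1Mem_3

/-!
Row 156 (helper3): the class is monotone in its constant; field segments between members with
different constants.
-/

set_option autoImplicit false

noncomputable section

namespace Crest.Agent.T156.Alt

open Real Set Filter Topology
open Crest.Agent.R164.GC Crest.Agent.R339.B Crest.Agent.R339.Var Crest.Agent.T157.Pf
open Mem37

/-- **the constant of the class may be increased** -/
theorem Cl.monoC {S : Sc} {M : Md} (h : Cl S M) {C' : ℝ} (hC : S.C ≤ C') (gr' : ℝ → ℝ) (g2' : ℝ)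
    (hg : ∀ t, S.gr t ≤ gr' t)
    (hG : ∑ k ∈ Finset.Icc 1 S.Jp, (M.z k - M.z (k - 1)) * M.G k ^ 2 ≤ g2') :
    Cl { S with C := C', gr := gr', g2 := g2' } M := by
  have C1 := h.C1
  have C0 : 0 < S.C := by linarith
  have up : ∀ {x : ℝ}, 0 ≤ x → S.C * x ≤ C' * x := fun hx => mul_le_mul_of_nonneg_right hC hx
  have dn : ∀ {x : ℝ}, 0 ≤ x → x / C' ≤ x / S.C := fun hx => div_le_div_of_nonneg_left hx C0 hC
  have n0 : (0 : ℝ) < S.n := by
    rcases (Nat.cast_nonneg (α := ℝ) S.n).eq_or_lt with e | e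
    · have a := h.card
      have b := h.i4
      rw [← e, zero_pow (Nat.succ_ne_zero _)] at a
      have : (0 : ℝ) < M.N := by exact_mod_cast (Nat.zero_le _).trans_lt b
      linarith
    · exact e
  have v0 : 0 < S.v := by
    have := (one_div_pos.2 C0).trans_le h.v1
    exact (mul_pos_iff_of_pos_right (pow_pos n0 _)).1 this
  have m0 : ∀ {t : ℝ}, 0 ≤ t → 0 ≤ S.ms t := fun ht =>
    ((rpow_pos_of_pos n0 _).le.trans h.ms0).trans (h.msm ht)
  have s0 : ∀ k, 0 ≤ M.s k := fun k => h.s0 ▸ h.sm (Nat.zero_le k)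
  have i2 : 1 / (2 * C') ≤ 1 / (2 * S.C) := one_div_le_one_div_of_le (by linarith) (by linarith)
  have n1 : (1 : ℝ) ≤ S.n := by exact_mod_cast (Nat.cast_pos.1 n0)
  exact { h with
    C1 := C1.trans hC
    v1 := (dn zero_le_one).trans h.v1
    v2 := h.v2.trans hC
    b1 := h.b1.trans hC
    wmk := ⟨h.wmk.1, h.wmk.2.trans (up (m0 (s0 _)))⟩
    HN := h.HN.trans (mul_le_mul_of_nonneg_right (up (Nat.cast_nonneg _)) (log_nonneg n1))
    sT := h.sT.trans hC
    lip := fun t t' a b c => by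
      obtain ⟨d, e⟩ := h.lip t t' a b c
      exact ⟨le_trans (sub_le_sub (dn (sub_nonneg.2 b)) (up v0.le)) d,
        e.trans (up (by linarith))⟩
    lv0 := h.lv0.trans (up v0.le)
    zs := fun k a b => ⟨(dn v0.le).trans (h.zs k a b).1, (h.zs k a b).2.trans (up v0.le)⟩
    ss := fun k a => ⟨(dn v0.le).trans (h.ss k a).1, (h.ss k a).2.trans (up v0.le)⟩
    sr := fun k a b => ⟨(h.sr k a b).1, (h.sr k a b).2.trans (up v0.le)⟩
    atom := ⟨(dn zero_le_one).trans h.atom.1,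
      h.atom.2.trans (sub_le_sub_left (dn zero_le_one) 1)⟩
    crit := fun t ht => ⟨(dn (m0 ht.1)).trans (h.crit t ht).1, (h.crit t ht).2.trans (up (m0 ht.1))⟩
    gpp := fun t a b => (h.gpp t a b).trans (up (div_nonneg (m0 a) (le_max_of_le_left a)))
    ckm := fun k a b => ⟨(dn v0.le).trans (h.ckm k a b).1, (h.ckm k a b).2.trans (up v0.le)⟩
    ckq := fun k a => h.ckq k (a.trans i2)
    flr := fun k a b => le_trans (div_le_div_of_nonneg_left (mul_nonneg (m0 (s0 k)) v0.le)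
      (mul_pos C0 (zero_lt_one.trans_le h.F1)) (up (zero_le_one.trans h.F1))) (h.flr k a b)
    Glo := fun k a => (h.Glo k a).trans (mul_le_mul_of_nonneg_right (up (m0 (s0 _))) (s0 _))
    Gmi := fun k a b => (h.Gmi k a (b.trans i2)).trans (hg _)
    Gtp := (Finset.sum_le_sum_of_subset_of_nonneg (Finset.filter_subset _ _) fun k _ _ =>
      mul_nonneg (sub_nonneg.2 (h.leg.zm (Nat.sub_le _ _))) (sq_nonneg _)).trans hG
    plat := fun k a b => ⟨(dn v0.le).trans (h.plat k a b).1, (h.plat k a b).2.trans (up v0.le)⟩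
    dens := fun x x' a b c d => ⟨(h.dens x x' a b c d).1.trans (up (h.den0 _).le),
      (h.dens x x' a b c d).2.trans (up (h.den0 _).le)⟩ }

namespace MemD

variable {K c0 C0 η Y : ℝ} {p : Pm} {P : Pl} {om : ℕ → ℝ} {jl : ℕ} {b₁ be : ℝ}
  {ms den : ℝ → ℝ} {g2 u0 ue : ℝ} (h : MemD K c0 C0 η Y p P om jl b₁ be ms den g2 u0 ue)
include h

/-- the whole residual sum -/
theorem Gall : ∑ k ∈ Finset.Icc 1 (p.Jp P), ((p.famO P om jl b₁ be 0).z k -
    (p.famO P om jl b₁ be 0).z (k - 1)) * (p.famO P om jl b₁ be 0).G k ^ 2 ≤ g2 := by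
  refine le_trans (le_of_eq ?_) h.Gtp
  symm
  refine Finset.sum_subset_zero_on_sdiff (fun k hk => ?_) (fun k hk => ?_) fun k hk => ?_
  · obtain ⟨a, b⟩ := Finset.mem_Ioc.1 hk
    exact Finset.mem_Icc.2 ⟨by omega, b⟩
  · obtain ⟨a, b⟩ := Finset.mem_sdiff.1 hk
    have c : k ≤ jl := by
      by_contra hc
      exact b (Finset.mem_Ioc.2 ⟨not_le.1 hc, (Finset.mem_Icc.1 a).2⟩)
    show (p.zP P (max k jl) - p.zP P (max (k - 1) jl)) * _ = 0
    rw [max_eq_right c, max_eq_right (by omega), sub_self, zero_mul]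
  · have a := (Finset.mem_Ioc.1 hk).1
    rw [h.G_hi a]
    show _ = (p.zP P (max k jl) - p.zP P (max (k - 1) jl)) * _
    rw [max_eq_left a.le, max_eq_left (by omega)]

/-- membership with any larger constant -/
theorem clC {C : ℝ} (hC : 8 * K ^ 2 ≤ C) :
    Cl (p.scl P om C jl ms den g2 u0 ue) (p.famO P om jl b₁ be 0) :=
  h.cl.monoC hC (p.scl P om C jl ms den g2 u0 ue).gr g2 (fun t => by
    show (if t ≤ p.sO P om jl then _ else _) ≤ if t ≤ p.sO P om jl then _ else _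
    split_ifs
    · exact mul_le_mul_of_nonneg_right (mul_le_mul_of_nonneg_right hC
        (h.msp (h.geo.sP_nn jl)).le) (h.geo.sP_nn jl)
    · exact le_rfl) h.Gall

theorem ceiC {C C' : ℝ} (hC : C ≤ C')
    (c : Cei (p.scl P om C jl ms den g2 u0 ue) (p.famO P om jl b₁ be 0)) :
    Cei (p.scl P om C' jl ms den g2 u0 ue) (p.famO P om jl b₁ be 0) := by
  have a : ∀ k, C * 1 * ms (p.sO P om k) ≤ C' * 1 * ms (p.sO P om k) := fun k =>
    mul_le_mul_of_nonneg_right (by linarith) (h.msp (h.geo.sP_nn k)).le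
  exact ⟨fun k h1 h2 => (c.up k h1 h2).trans (mul_le_mul_of_nonneg_right (a k) h.geo.v0.le),
    c.bot.trans (mul_le_mul_of_nonneg_right (a jl) (h.geo.sP_nn jl))⟩

end MemD

namespace C1Mem3

variable {K K' c0 C0 η Y c0' C0' η' Y' : ℝ} {p : Pm} {P P' : Pl} {om : ℕ → ℝ} {b : ℝ}
  {ms den den' : ℝ → ℝ} {g2 u0 ue g2' u0' ue' : ℝ}

/-- two members on one grid with their own constants -/
structure TwoC (K K' c0 C0 η Y c0' C0' η' Y' D : ℝ) (p : Pm) (P P' : Pl) (om : ℕ → ℝ) (b : ℝ)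
    (ms den den' : ℝ → ℝ) (g2 u0 ue g2' u0' ue' : ℝ) : Prop where
  h0 : MemD K c0 C0 η Y p P om p.jf b 0 ms den g2 u0 ue
  h1 : MemD K' c0' C0' η' Y' p P' om p.jf b 0 ms den' g2' u0' ue'
  hI : P'.I = P.I
  mJ : ms 1 ≤ ms (p.J * p.v)
  D0 : 0 ≤ D
  D1 : D ≤ 1
  lo : ∀ k ≤ p.J, |p.dH P P' om (b + 0) k| ≤ D * p.sO P om k
  al : ∀ k, |p.dH P P' om (b + 0) k| ≤ D

namespace TwoC

open Two (dH_lo dH_hi inc)

variable {D : ℝ}
  (h : TwoC K K' c0 C0 η Y c0' C0' η' Y' D p P P' om b ms den den' g2 u0 ue g2' u0' ue')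
include h

theorem Jp_eq : p.Jp P' = p.Jp P := by unfold Pm.Jp; rw [h.hI]

theorem ms_eq (k : ℕ) : ms (p.sO P' om k) = ms (p.sO P om k) := by
  rcases le_total k p.J with a | a
  · rw [sP_lo a, sP_lo a]
  · have a0 := h.h0.msm (h.h0.geo.sP_J ▸ h.h0.geo.sP_mono a)
    have a1 := h.h1.msm (h.h1.geo.sP_J ▸ h.h1.geo.sP_mono a)
    linarith [h.mJ, h.h0.ms1 (p.sO P om k), h.h0.ms1 (p.sO P' om k)]

/-- **membership of the segment** -/
theorem cl {C : ℝ} (hC : 8 * K ^ 2 ≤ C) (hC' : 8 * K' ^ 2 ≤ C) {t : ℝ} (ht : t ∈ Icc (0 : ℝ) 1) :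
    Cl (p.sgS P om C D ms den g2 u0 ue) (p.sgM P P' om b t) := by
  have c := h.h0.clC hC
  have c' := h.h1.clC hC'
  have t0 := ht.1
  have t1 := sub_nonneg.2 ht.2
  have tD : ∀ {k : ℕ} {x : ℝ}, |p.dH P P' om (b + 0) k| ≤ x → |t * p.dH P P' om (b + 0) k| ≤ x :=
    fun hx => by
      rw [abs_mul, abs_of_nonneg t0]
      exact (mul_le_of_le_one_left (abs_nonneg _) ht.2).trans hx
  have eG : ∀ k, (p.famO P om p.jf b 0 0).d k * (p.famO P om p.jf b 0 0).q k +
      (p.HO P om (b + 0) k + t * p.dH P P' om (b + 0) k) - (p.famO P om p.jf b 0 0).s k =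
      (p.famO P om p.jf b 0 0).G k + t * p.dH P P' om (b + 0) k := fun k => by
    show _ = (p.famO P om p.jf b 0 0).d k * (p.famO P om p.jf b 0 0).q k +
      (p.HO P om (b + 0) k + 0) - (p.famO P om p.jf b 0 0).s k + _
    ring
  refine c.withH (fun k => p.HO P om (b + 0) k + t * p.dH P P' om (b + 0) k) _ _ ?_
    (monotone_nat_of_le_succ fun k => ?_) ?_ (fun k h1 h2 => ?_) (fun k hk => ?_)
    (fun k h1 h2 => ?_) ?_ (fun k h1 _ => ?_)
  · show p.HO P om (b + 0) 0 + t * p.dH P P' om (b + 0) 0 = 0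
    rw [MemD.H_lo (Nat.zero_le _), dH_lo (Nat.zero_le _)]; ring
  · rcases lt_or_ge k (p.Jp P) with a | a
    · have e := inc (P' := P') (om := om) (b := b) t a
      have a0 := mul_nonneg t1 (sub_nonneg.2 (h.h0.H_mono (Nat.le_succ k)))
      have a1 := mul_nonneg t0 (sub_nonneg.2 (h.h1.H_mono (Nat.le_succ k)))
      simp only [Nat.succ_eq_add_one] at a0 a1
      linarith
    · rw [dH_hi a, dH_hi (a.trans (Nat.le_succ k))]
      linarith [h.h0.H_mono (Nat.le_succ k)]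
  · show p.HO P om (b + 0) (p.NP P) + t * p.dH P P' om (b + 0) (p.NP P) ≤ C * p.A * log p.n
    have A : (1 : ℝ) ≤ p.A := by exact_mod_cast h.h0.A1
    have a := one_le_mul_of_one_le_of_one_le A h.h0.lg
    have a' := mul_le_mul_of_nonneg_right hC (zero_le_one.trans a)
    linarith [HN_le h.h0, (abs_le.1 (tD (h.al (p.NP P)))).2, h.D1]
  · change p.jf ≤ k at h1
    change k < p.Jp P at h2
    show ms (p.sO P om k) * p.v / (C * 1) ≤ _
    rw [inc t h2]
    have f0 : ms (p.sO P om k) * p.v / (C * 1) ≤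
        p.HO P om (b + 0) (k + 1) + 0 - (p.HO P om (b + 0) k + 0) := c.flr k h1 h2
    have f1 : ms (p.sO P' om k) * p.v / (C * 1) ≤
        p.HO P' om (b + 0) (k + 1) + 0 - (p.HO P' om (b + 0) k + 0) :=
      c'.flr k h1 (h.Jp_eq ▸ h2 : k < p.Jp P')
    rw [h.ms_eq] at f1
    linarith [mul_le_mul_of_nonneg_left f0 t1, mul_le_mul_of_nonneg_left f1 t0]
  · rw [eG, dH_lo hk, mul_zero, add_zero]
    exact c.Glo k hk
  · rw [eG]
    have kJ : k ≤ p.J := by
      by_contra hc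
      have a := c.leg.zm (show p.J - 1 ≤ k by omega)
      have b' := c.atom.1
      have C0' : 0 < C := zero_lt_one.trans_le c.C1
      have d : 1 / (2 * C) < 1 / C := one_div_lt_one_div_of_lt C0' (by linarith)
      exact absurd ((b'.trans a).trans h2) (not_le.2 d)
    exact (abs_add_le _ _).trans (add_le_add (c.Gmi k h1 h2) (tD (h.lo k kJ)))
  · have z := c.leg.zm
    refine (Finset.sum_le_sum_of_subset_of_nonneg (Finset.filter_subset _ _) fun k _ _ =>
      mul_nonneg (sub_nonneg.2 (z (Nat.sub_le _ _))) (sq_nonneg _)).trans ?_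
    have s1 : ∑ k ∈ Finset.Icc 1 (p.Jp P),
        ((p.famO P om p.jf b 0 0).z k - (p.famO P om p.jf b 0 0).z (k - 1)) ≤ 1 := by
      have e : ∀ n : ℕ, ∑ k ∈ Finset.Icc 1 n, ((p.famO P om p.jf b 0 0).z k -
          (p.famO P om p.jf b 0 0).z (k - 1)) =
          (p.famO P om p.jf b 0 0).z n - (p.famO P om p.jf b 0 0).z 0 := fun n => by
        induction n with
        | zero => simp
        | succ n ih => rw [Finset.sum_Icc_succ_top (by omega), ih, Nat.add_sub_cancel]; ring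
      rw [e]
      have a : 0 < (p.famO P om p.jf b 0 0).z 0 := h.h0.geo.lab.pos.trans_le
        (h.h0.geo.zP_mono (Nat.zero_le _))
      linarith [c.leg.z1 (p.Jp P)]
    have s2 := h.h0.Gall
    have s3 := mul_le_of_le_one_left (sq_nonneg D) s1
    rw [Finset.sum_mul] at s3
    refine le_trans (Finset.sum_le_sum (g := fun k =>
      2 * (((p.famO P om p.jf b 0 0).z k - (p.famO P om p.jf b 0 0).z (k - 1)) *
        (p.famO P om p.jf b 0 0).G k ^ 2) +
      2 * (((p.famO P om p.jf b 0 0).z k - (p.famO P om p.jf b 0 0).z (k - 1)) * D ^ 2))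
      fun k _ => ?_) ?_
    rotate_left
    · rw [Finset.sum_add_distrib, ← Finset.mul_sum, ← Finset.mul_sum]
      exact add_le_add (mul_le_mul_of_nonneg_left s2 zero_le_two)
        (mul_le_mul_of_nonneg_left s3 zero_le_two)
    · rw [eG]
      have a := sq_le_sq' (abs_le.1 (tD (h.al k))).1 (abs_le.1 (tD (h.al k))).2
      have w := sub_nonneg.2 (z (Nat.sub_le k 1))
      have := mul_le_mul_of_nonneg_left (show ((p.famO P om p.jf b 0 0).G k +
        t * p.dH P P' om (b + 0) k) ^ 2 ≤ 2 * (p.famO P om p.jf b 0 0).G k ^ 2 + 2 * D ^ 2 by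
          nlinarith [sq_nonneg ((p.famO P om p.jf b 0 0).G k - t * p.dH P P' om (b + 0) k)]) w
      linarith
  · change p.Jp P ≤ k at h1
    show p.HO P om (b + 0) k + t * p.dH P P' om (b + 0) k - (p.HO P om (b + 0) k + 0) =
      p.HO P om (b + 0) (p.Jp P) + t * p.dH P P' om (b + 0) (p.Jp P) -
        (p.HO P om (b + 0) (p.Jp P) + 0)
    rw [dH_hi h1]; ring

/-- the ceiling of the segment -/
theorem cei {C : ℝ} (c0' : Cei (p.scl P om C p.jf ms den g2 u0 ue) (p.famO P om p.jf b 0 0))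
    (c1' : Cei (p.scl P' om C p.jf ms den' g2' u0' ue') (p.famO P' om p.jf b 0 0)) {t : ℝ}
    (ht : t ∈ Icc (0 : ℝ) 1) : Cei (p.sgS P om C D ms den g2 u0 ue) (p.sgM P P' om b t) := by
  have t0 := ht.1
  have t1 := sub_nonneg.2 ht.2
  have jJ := h.h0.jlJ
  have JJ := J_le (p := p) (P := P)
  refine ⟨fun k h1 h2 => ?_, ?_⟩
  · have a0 : p.HO P om (b + 0) (k + 1) + 0 - (p.HO P om (b + 0) k + 0) ≤
        C * 1 * ms (p.sO P om k) * p.v := c0'.up k h1 h2
    have a1 : p.HO P' om (b + 0) (k + 1) + 0 - (p.HO P' om (b + 0) k + 0) ≤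
        C * 1 * ms (p.sO P' om k) * p.v := c1'.up k h1 (h.Jp_eq ▸ h2 : k < p.Jp P')
    rw [h.ms_eq] at a1
    show p.HO P om (b + 0) (k + 1) + t * p.dH P P' om (b + 0) (k + 1) -
      (p.HO P om (b + 0) k + t * p.dH P P' om (b + 0) k) ≤ C * 1 * ms (p.sO P om k) * p.v
    rw [inc t h2]
    linarith [mul_le_mul_of_nonneg_left a0 t1, mul_le_mul_of_nonneg_left a1 t0]
  · have a0 : p.HO P om (b + 0) (p.jf + 1) + 0 ≤
        C * 1 * ms (p.sO P om p.jf) * p.sO P om p.jf := c0'.bot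
    have a1 : p.HO P' om (b + 0) (p.jf + 1) + 0 ≤
        C * 1 * ms (p.sO P' om p.jf) * p.sO P' om p.jf := c1'.bot
    rw [sP_lo (P := P') (by omega), ← sP_lo (P := P) (by omega)] at a1
    show p.HO P om (b + 0) (p.jf + 1) + t * p.dH P P' om (b + 0) (p.jf + 1) ≤
      C * 1 * ms (p.sO P om p.jf) * p.sO P om p.jf
    unfold Pm.dH
    rw [min_eq_left (by omega)]
    linarith [mul_le_mul_of_nonneg_left a0 t1, mul_le_mul_of_nonneg_left a1 t0]

end TwoC

end C1Mem3

end Crest.Agent.T156.Alt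

end
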