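import Crest.Agent.T156.FamSq_28
import Crest.Agent.T156.AltGp_3

/-!
# Row 156, ALT route (helper28): `crit` and `gpp` at `τ = 1` for every plateau of slope
`γ ≤ n^{-7/20}`
-/

set_option autoImplicit false

noncomputable section

namespace Crest.Agent.T156.Alt

open MeasureTheory Real Set Filter Topology
open Crest.Agent.R164.GC Crest.Agent.R339.B Crest.Agent.R339.Var Crest.Agent.T157.Pf
open Crest.Agent.T156.Pr Crest.Agent.T156.Pr.Spr41 Crest.Agent.T156.Ker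

theorem ms_mono28 (p : Pm) {τ : ℝ} (y : ℝ) (hl : 0 ≤ τ * p.κ) (hr : 0 ≤ p.r) :
    Monotone (p.ms τ y) := fun _ _ h => mul_le_mul_of_nonneg_left
  (pow_le_pow_left₀ (le_max_of_le_left hr) (max_le_max_left _ (min_le_min_right _ h)) 2) hl

/-- the facts about the reference list -/
structure CrF (C : ℝ) (p : Pm) (P : Pl) (y : ℝ) : Prop where
  b1 : 1 ≤ p.b 1 y
  b2 : p.b 1 y ≤ p.β ^ 2
  sT : p.sO P (p.om 1 y) (p.Jp P) ≤ C
  γJ : P.γ ≤ p.J * p.v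
  γN : P.γ ≤ p.Nr * p.v
  γe : C * P.γ ≤ p.κ * p.r ^ 2
  tr : SpT C (p.J * p.v) P.γ (p.l 1 y) (p.lO P (p.om 1 y))
  crit : ∀ t ∈ Icc 0 (p.sO P (p.om 1 y) (p.Jp P)),
    p.ms 1 y t / C ≤ 1 - p.b 1 y * GG (p.lO P (p.om 1 y)) t ∧
      1 - p.b 1 y * GG (p.lO P (p.om 1 y)) t ≤ C * p.ms 1 y t
  gpp : ∀ s0, 0 < s0 → s0 ≤ p.r → ∀ t, 0 ≤ t → t < p.J * p.v →
    |NN (p.lO P (p.om 1 y)) t - 2 * lvr 1 (p.lO P (p.om 1 y)) t * AA (p.lO P (p.om 1 y)) t| ≤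
      C * (p.ms 1 y t / max t s0)

theorem SpT.mono {C C' T g : ℝ} {l l2 : List (ℝ × ℝ)} (h : SpT C T g l l2) (hC : C ≤ C')
    (g0 : 0 ≤ g) : SpT C' T g l l2 := by
  have a : C * g ≤ C' * g := mul_le_mul_of_nonneg_right hC g0
  have m : ∀ t, 0 ≤ t → C * min t 1 * g ≤ C' * min t 1 * g := fun t ht => by
    have := le_min ht zero_le_one
    gcongr
  have c : ∀ b, 0 ≤ b → b * C * g ≤ b * C' * g := fun b hb => by gcongr
  have N := h.near
  exact ⟨⟨fun t x j b y => (N.dk t x j b y).trans a, N.chi.trans a, N.k4.trans a,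
    fun t x b c => (N.gam t x b c).trans (m t x), fun t x b c => (N.gg t x b c).trans a,
    fun t x b c => (N.aa t x b c).trans a, fun t x b c => (N.nn t x b c).trans (m t x),
    fun t x b c => (N.n4 t x b c).trans a, fun t x b c => (N.bb t x b c).trans (m t x)⟩,
    fun b hb t ht => (h.lo b hb t ht).trans (c b hb),
    fun b hb t ht => (h.mid b hb t ht).trans (c b hb),
    fun t x y => (h.gpp t x y).trans (by linarith),
    fun b ms C1 K hb h1 hK mm mt sm => h.crit b ms C1 K hb h1 hK mm mt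
      ((mul_le_mul_of_nonneg_left (c b hb) (by linarith)).trans sm)⟩

def CrS (C : ℝ) (p : Pm) : Prop := ∀ (c0 C0 η Y : ℝ) (P : Pl) (y : ℝ), p.r ≤ y → y ≤ p.ye →
  Mem37.Geo c0 C0 η Y p P (p.om 1 y) → P.γ ≤ (p.n : ℝ) ^ (-(7 / 20 : ℝ)) → CrF C p P y

theorem crS (β : ℝ) (hβ : 1 < β) : Cst β CrS := by
  intro c0 C0 hc0 hC0
  have hb : 1 < β ^ 2 := one_lt_pow₀ hβ (by norm_num)
  obtain ⟨C1, c1, H1⟩ := p1 β hβ c0 C0 hc0 hC0
  obtain ⟨C2, c2, H2⟩ := gp β hβ c0 C0 hc0 hC0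
  obtain ⟨C3, c3, H3⟩ := spO (β ^ 2 + 1)
  obtain ⟨C4, -, H4⟩ := gpO β hβ c0 C0 hc0 hC0
  obtain ⟨K, hK⟩ : ∃ K, K = C1 + C2 + β ^ 2 := ⟨_, rfl⟩
  have K1 : 1 ≤ K := by linarith
  obtain ⟨C, hC⟩ : ∃ C, C = 8 * K + C3 := ⟨_, rfl⟩
  have d0 : 0 < min (1 / 8) ((1 - 1 / β ^ 2) / C1) := by
    have : 1 / β ^ 2 < 1 := (div_lt_one (by linarith)).2 hb
    exact lt_min (by norm_num) (div_pos (by linarith) (by linarith))
  refine ⟨C, by linarith, fun A hA c hc hc' => ?_⟩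
  filter_upwards [H1 A hA c hc hc', H2 A hA c hc hc', H4 A hA c hc hc',
    PP3.ev_small β c0 C0 hA hc hc' d0, ev_spr (C + 2 * K * (β ^ 2 * C3)) c hc',
    PP3.ev_rpow (show (0:ℝ) < 7 / 20 by norm_num) (lt_min hc0 one_pos), eventually_ge_atTop 3]
    with n h1 h2 h4 hS h5 h6 h7 p e1 e2 e3 e4 hp c0' C0' η Y P y y1 y2 G hγ
  have mem : p.Mem 1 y := Or.inr ⟨rfl, y1, y2⟩
  have S := hS p e1 e2 e3 e4 hp
  obtain ⟨k0, r0, -, -, -, -, yd, -⟩ := PP3.mem_facts S hp.s1 mem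
  obtain ⟨-, -, ⟨a1, a2⟩, a3, -⟩ := h1 p e1 e2 e3 e4 hp 1 y mem
  obtain ⟨-, a4⟩ := h2 p e1 e2 e3 e4 hp 1 y zero_le_one le_rfl (by linarith) y2
  obtain ⟨⟨-, -, -, -, -, a5⟩, -⟩ := h4 p e1 e2 e3 e4 hp
  have a6 := h5 p e2 e4 hp.s1
  rw [← e2] at h6 h7
  clear h1 h2 h4 hS h5
  subst e1
  have g0 := G.g0
  have v0 := G.v0
  have l0 : 0 ≤ 1 * p.κ := by linarith
  have y0 : 0 < y := by linarith
  have gc := (hγ.trans h6).trans (min_le_left _ _)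
  have g1 := (hγ.trans h6).trans (min_le_right _ _)
  have γJ := gc.trans hp.base.lo
  have γN := g1.trans (p.one_le_Nr v0 (by omega) h7)
  have T := H3 _ _ _ _ p P _ G γN (by linarith [hp.base.hi])
  have μ0 : 0 ≤ p.μ 1 y := by unfold Pm.μ; positivity
  have μ1 : C1 * p.μ 1 y ≤ 1 - 1 / p.β ^ 2 := by
    have x1 := S.κ.trans (min_le_right _ _)
    have x2 : y ^ 2 ≤ 1 := pow_le_one₀ y0.le (yd.trans ((min_le_left _ _).trans (by norm_num)))
    have x3 : p.μ 1 y ≤ p.κ := by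
      unfold Pm.μ; rw [one_mul]; exact mul_le_of_le_one_right k0.le x2
    rw [le_div_iff₀ (by linarith)] at x1
    nlinarith only [x1, x3, c1]
  have b1 : 1 ≤ p.b 1 y := by
    have : 1 / p.β ^ 2 ≤ p.b 1 y / p.β ^ 2 := by linarith
    rwa [div_le_div_iff_of_pos_right (by linarith)] at this
  have b2 : p.b 1 y ≤ p.β ^ 2 := by
    have := div_nonneg μ0 (show 0 ≤ C1 by linarith)
    rw [← div_le_one (by linarith)]; linarith
  have m0 : p.ms 1 y 0 = p.κ * p.r ^ 2 := by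
    unfold Pm.ms; rw [one_mul, min_eq_left y0.le, max_eq_left r0.le]
  have mm := ms_mono28 p y l0 r0.le
  have mn : ∀ t, 0 ≤ t → 0 ≤ p.ms 1 y t := fun t ht =>
    le_trans (by rw [m0]; positivity) (mm ht)
  have x0 : 0 ≤ 2 * K * (p.β ^ 2 * C3) := by positivity
  have x1 : (C + 2 * K * (p.β ^ 2 * C3)) * P.γ ≤ p.κ * p.r ^ 2 :=
    (mul_le_mul_of_nonneg_left hγ (by linarith)).trans a6
  have sm : 2 * K * (p.b 1 y * C3 * P.γ) ≤ p.ms 1 y 0 := by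
    have x2 : 2 * K * (p.b 1 y * C3 * P.γ) ≤ 2 * K * (p.β ^ 2 * C3 * P.γ) := by gcongr
    have x3 : 0 ≤ C * P.γ := mul_nonneg (by linarith) g0
    rw [m0]; linarith
  have key := fun (s0 : ℝ) (s1 : 0 < s0) (s2 : s0 ≤ p.r) => T.cl (b := p.b 1 y) (C1 := K) (t0 := s0)
    (ms := p.ms 1 y) c3 g0 b1 K1 mm (fun t _ => PP3.ms_two p l0 r0.le y0.le le_rfl) γJ
    (by linarith [hp.base.hi]) s1 (by linarith) G.sP_Jp_le sm
    (fun t ht => ⟨le_trans (div_le_div_of_nonneg_left (mn t ht.1) (by linarith) (by linarith))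
      (a3 t ht).1, (a3 t ht).2.trans (mul_le_mul_of_nonneg_right (by linarith) (mn t ht.1))⟩)
    (fun t t0 t1 => ((a4 t t0 t1).2 mem s0 s1 s2).trans (mul_le_mul_of_nonneg_right (by linarith)
      (div_nonneg (mn t t0) (le_max_of_le_left t0))))
  refine ⟨b1, b2, by linarith [G.sP_Jp_le, hp.base.hi], γJ, γN, by linarith [mul_nonneg x0 g0],
    T.mono (by linarith) g0, fun t ht => ?_, fun s0 s1 s2 t t0 t1 => ?_⟩
  · obtain ⟨u1, u2⟩ := (key p.r r0 le_rfl).1 t ht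
    exact ⟨le_trans (div_le_div_of_nonneg_left (mn t ht.1) (by linarith) (by linarith)) u1,
      u2.trans (mul_le_mul_of_nonneg_right (by linarith) (mn t ht.1))⟩
  · exact ((key s0 s1 s2).2 t t0 t1).trans (mul_le_mul_of_nonneg_right (by linarith)
      (div_nonneg (mn t t0) (le_max_of_le_left t0)))

end Crest.Agent.T156.Alt

end
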