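import Crest.Agent.T156.AltMem_37
import Crest.Agent.T156.FamSr_28
import Crest.Agent.T156.SprDef_59

/-!
Row 156 (helper3): membership of field segments between two members with the same grid, and of
the models `c1M` of stage C1.
-/

set_option autoImplicit false

noncomputable section

namespace Crest.Agent.T156.Alt

open Real Set Filter Topology
open Crest.Agent.R164.GC Crest.Agent.R339.B Crest.Agent.R339.Var Crest.Agent.T157.Pf
open Crest.Agent.T156.Pr.Spr41 (ec Near)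
open Mem37

/-- the difference of the marks, frozen above `Jp` -/
def Pm.dH (p : Pm) (P P' : Pl) (om : ℕ → ℝ) (b : ℝ) (k : ℕ) : ℝ :=
  p.HO P' om b (min k (p.Jp P)) - p.HO P om b (min k (p.Jp P))

/-- the field segment: reference of `P`, marks moved towards those of `P'` -/
def Pm.sgM (p : Pm) (P P' : Pl) (om : ℕ → ℝ) (b t : ℝ) : Md :=
  p.famO P om p.jf b 0 fun k => t * p.dH P P' om (b + 0) k

/-- its scales: residual `D s` below, `D` everywhere -/
def Pm.sgS (p : Pm) (P : Pl) (om : ℕ → ℝ) (C D : ℝ) (ms den : ℝ → ℝ) (g2 u0 ue : ℝ) : Sc :=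
  { p.scl P om C p.jf ms den g2 u0 ue with
    gr := fun s => (p.scl P om C p.jf ms den g2 u0 ue).gr s + D * s, g2 := 2 * g2 + 2 * D ^ 2 }

theorem c1M_eq (p : Pm) (g : ℝ) (P : Pl) (t : ℝ) :
    p.c1M g P t = p.sgM P (p.alP g P 1) (p.om 1 p.ye) (p.b 1 p.ye) t := by
  unfold Pm.c1M Pm.sgM
  rw [Pm.fam_eq]
  congr 1
  funext k
  show t * ((p.HO (p.alP g P 1) (p.om 1 p.ye) (p.b 1 p.ye + 0) (min k (p.Jp P)) + 0) -
    (p.HO P (p.om 1 p.ye) (p.b 1 p.ye + 0) (min k (p.Jp P)) + 0)) = _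
  rw [add_zero (p.HO _ _ _ _), add_zero (p.HO _ _ _ _)]
  rfl

namespace C1Mem3

variable {K c0 C0 η Y : ℝ} {p : Pm} {P P' : Pl} {om : ℕ → ℝ} {b : ℝ}
  {ms den den' : ℝ → ℝ} {g2 u0 ue g2' u0' ue' : ℝ}

theorem HN_le {jl : ℕ} {be : ℝ} (h : MemD K c0 C0 η Y p P om jl b be ms den g2 u0 ue) :
    p.HO P om (b + be) (p.NP P) + p.A * log p.n ≤ 8 * K ^ 2 * p.A * log p.n := by
  have jf := h.jfl
  have jJ := h.jlJ
  have JJ := J_le (p := p) (P := P)
  have Nr := h.Nr_bd
  have K1 := h.K1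
  have JN : p.Jp P < p.NP P := by rw [NP_eq]; omega
  have A : (1 : ℝ) ≤ p.A := by exact_mod_cast h.A1
  rw [MemD.H_hi (by omega), h.geo.xP_top JN.le]
  have a : Pr.Spr41.mk (b + be) (p.lO P om) (p.sO P om (p.NP P)) ≤ p.sO P om (p.NP P) := by
    have := mul_nonneg (show 0 ≤ b + be by linarith [h.b0, h.be0])
      (Gam_nn (p.lO P om) (p.sO P om (p.NP P)))
    unfold Pr.Spr41.mk; linarith
  have b' : 1 ≤ p.A * log p.n := one_le_mul_of_one_le_of_one_le A h.lg
  have c := mul_le_mul_of_nonneg_right (show 2 * K + 4 ≤ 8 * K ^ 2 by nlinarith)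
    (zero_le_one.trans b')
  have d := mul_le_mul_of_nonneg_left b' (show 0 ≤ K + 2 by linarith)
  linarith [h.geo.sP_N, h.sT, Nr.2, h.v1, h.hN]

/-- two members on one grid, and the size of the difference of their marks -/
structure Two (K c0 C0 η Y D : ℝ) (p : Pm) (P P' : Pl) (om : ℕ → ℝ) (b : ℝ)
    (ms den den' : ℝ → ℝ) (g2 u0 ue g2' u0' ue' : ℝ) : Prop where
  h0 : MemD K c0 C0 η Y p P om p.jf b 0 ms den g2 u0 ue
  h1 : MemD K c0 C0 η Y p P' om p.jf b 0 ms den' g2' u0' ue'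
  hI : P'.I = P.I
  mJ : ms 1 ≤ ms (p.J * p.v)
  D0 : 0 ≤ D
  D1 : D ≤ 1
  lo : ∀ k ≤ p.J, |p.dH P P' om (b + 0) k| ≤ D * p.sO P om k
  al : ∀ k, |p.dH P P' om (b + 0) k| ≤ D

namespace Two

variable {D : ℝ} (h : Two K c0 C0 η Y D p P P' om b ms den den' g2 u0 ue g2' u0' ue')
include h

theorem Jp_eq : p.Jp P' = p.Jp P := by unfold Pm.Jp; rw [h.hI]

theorem ms_eq (k : ℕ) : ms (p.sO P' om k) = ms (p.sO P om k) := by
  rcases le_total k p.J with a | a
  · rw [sP_lo a, sP_lo a]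
  · have a0 := h.h0.msm (h.h0.geo.sP_J ▸ h.h0.geo.sP_mono a)
    have a1 := h.h1.msm (h.h1.geo.sP_J ▸ h.h1.geo.sP_mono a)
    linarith [h.mJ, h.h0.ms1 (p.sO P om k), h.h0.ms1 (p.sO P' om k)]

omit h in
theorem dH_lo {k : ℕ} (hk : k ≤ p.jf) : p.dH P P' om (b + 0) k = 0 := by
  unfold Pm.dH
  rw [MemD.H_lo ((min_le_left _ _).trans hk), MemD.H_lo ((min_le_left _ _).trans hk), sub_self]

omit h in
theorem dH_hi {k : ℕ} (hk : p.Jp P ≤ k) :
    p.dH P P' om (b + 0) k = p.dH P P' om (b + 0) (p.Jp P) := by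
  unfold Pm.dH; rw [min_eq_right hk, min_self]

omit h in
theorem inc (t : ℝ) {k : ℕ} (hk : k < p.Jp P) :
    p.HO P om (b + 0) (k + 1) + t * p.dH P P' om (b + 0) (k + 1) -
      (p.HO P om (b + 0) k + t * p.dH P P' om (b + 0) k) =
    (1 - t) * (p.HO P om (b + 0) (k + 1) - p.HO P om (b + 0) k) +
      t * (p.HO P' om (b + 0) (k + 1) - p.HO P' om (b + 0) k) := by
  unfold Pm.dH; rw [min_eq_left hk.le, min_eq_left (show k + 1 ≤ p.Jp P from hk)]; ring

/-- **membership of the segment** -/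
theorem cl {t : ℝ} (ht : t ∈ Icc (0 : ℝ) 1) :
    Cl (p.sgS P om (8 * K ^ 2) D ms den g2 u0 ue) (p.sgM P P' om b t) := by
  have c := h.h0.cl
  have t0 := ht.1
  have t1 := sub_nonneg.2 ht.2
  have tD : ∀ {k : ℕ} {x : ℝ}, |p.dH P P' om (b + 0) k| ≤ x → |t * p.dH P P' om (b + 0) k| ≤ x :=
    fun hx => by
      rw [abs_mul, abs_of_nonneg t0]
      exact (mul_le_of_le_one_left (abs_nonneg _) ht.2).trans hx
  have eG : ∀ k, (p.famO P om p.jf b 0 0).d k * (p.famO P om p.jf b 0 0).q k +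
      (p.HO P om (b + 0) k + t * p.dH P P' om (b + 0) k) - (p.famO P om p.jf b 0 0).s k =
      (p.famO P om p.jf b 0 0).G k + t * p.dH P P' om (b + 0) k := fun k => by
    show _ = (p.famO P om p.jf b 0 0).d k * (p.famO P om p.jf b 0 0).q k +
      (p.HO P om (b + 0) k + 0) - (p.famO P om p.jf b 0 0).s k + _
    ring
  refine c.withH (fun k => p.HO P om (b + 0) k + t * p.dH P P' om (b + 0) k) _ _ ?_
    (monotone_nat_of_le_succ fun k => ?_) ?_ (fun k h1 h2 => ?_) (fun k hk => ?_)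
    (fun k h1 h2 => ?_) ?_ (fun k h1 _ => ?_)
  · show p.HO P om (b + 0) 0 + t * p.dH P P' om (b + 0) 0 = 0
    rw [MemD.H_lo (Nat.zero_le _), dH_lo (Nat.zero_le _)]; ring
  · rcases lt_or_ge k (p.Jp P) with a | a
    · have e := inc (P' := P') (om := om) (b := b) t a
      have a0 := mul_nonneg t1 (sub_nonneg.2 (h.h0.H_mono (Nat.le_succ k)))
      have a1 := mul_nonneg t0 (sub_nonneg.2 (h.h1.H_mono (Nat.le_succ k)))
      simp only [Nat.succ_eq_add_one] at a0 a1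
      linarith
    · rw [dH_hi a, dH_hi (a.trans (Nat.le_succ k))]
      linarith [h.h0.H_mono (Nat.le_succ k)]
  · show p.HO P om (b + 0) (p.NP P) + t * p.dH P P' om (b + 0) (p.NP P) ≤
      8 * K ^ 2 * p.A * log p.n
    have A : (1 : ℝ) ≤ p.A := by exact_mod_cast h.h0.A1
    have a := one_le_mul_of_one_le_of_one_le A h.h0.lg
    linarith [HN_le h.h0, (abs_le.1 (tD (h.al (p.NP P)))).2, h.D1]
  · change p.jf ≤ k at h1
    change k < p.Jp P at h2
    show ms (p.sO P om k) * p.v / (8 * K ^ 2 * 1) ≤ _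
    rw [mul_one, inc t h2]
    have a0 := mul_le_mul_of_nonneg_left (h.h0.flr h1 h2) t1
    have a1 := mul_le_mul_of_nonneg_left (h.h1.flr h1 (h.Jp_eq ▸ h2)) t0
    rw [h.ms_eq] at a1
    linarith
  · rw [eG, dH_lo hk, mul_zero, add_zero]
    exact c.Glo k hk
  · rw [eG]
    have kJ : k ≤ p.J := by
      by_contra hc
      have a := c.leg.zm (show p.J - 1 ≤ k by omega)
      have b' := c.atom.1
      have C0' : 0 < 8 * K ^ 2 := by have := h.h0.K0; positivity
      have d : 1 / (2 * (8 * K ^ 2)) < 1 / (8 * K ^ 2) :=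
        one_div_lt_one_div_of_lt C0' (by linarith)
      exact absurd ((b'.trans a).trans h2) (not_le.2 d)
    exact (abs_add_le _ _).trans (add_le_add (c.Gmi k h1 h2) (tD (h.lo k kJ)))
  · have z := c.leg.zm
    have s1 : ∑ k ∈ (Finset.Icc 1 (p.Jp P)).filter fun k =>
        1 / (2 * (8 * K ^ 2)) < (p.famO P om p.jf b 0 0).z k,
        ((p.famO P om p.jf b 0 0).z k - (p.famO P om p.jf b 0 0).z (k - 1)) ≤ 1 := by
      refine (Finset.sum_le_sum_of_subset_of_nonneg (Finset.filter_subset _ _) fun k _ _ =>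
        sub_nonneg.2 (z (Nat.sub_le _ _))).trans ?_
      have e : ∀ n : ℕ, ∑ k ∈ Finset.Icc 1 n, ((p.famO P om p.jf b 0 0).z k -
          (p.famO P om p.jf b 0 0).z (k - 1)) =
          (p.famO P om p.jf b 0 0).z n - (p.famO P om p.jf b 0 0).z 0 := fun n => by
        induction n with
        | zero => simp
        | succ n ih => rw [Finset.sum_Icc_succ_top (by omega), ih, Nat.add_sub_cancel]; ring
      rw [e]
      have a : 0 < (p.famO P om p.jf b 0 0).z 0 := h.h0.geo.lab.pos.trans_le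
        (h.h0.geo.zP_mono (Nat.zero_le _))
      linarith [c.leg.z1 (p.Jp P)]
    have s2 : ∑ k ∈ (Finset.Icc 1 (p.Jp P)).filter fun k =>
        1 / (2 * (8 * K ^ 2)) < (p.famO P om p.jf b 0 0).z k,
        ((p.famO P om p.jf b 0 0).z k - (p.famO P om p.jf b 0 0).z (k - 1)) *
          (p.famO P om p.jf b 0 0).G k ^ 2 ≤ g2 := c.Gtp
    have s3 := mul_le_of_le_one_left (sq_nonneg D) s1
    rw [Finset.sum_mul] at s3
    refine le_trans (Finset.sum_le_sum (g := fun k =>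
      2 * (((p.famO P om p.jf b 0 0).z k - (p.famO P om p.jf b 0 0).z (k - 1)) *
        (p.famO P om p.jf b 0 0).G k ^ 2) +
      2 * (((p.famO P om p.jf b 0 0).z k - (p.famO P om p.jf b 0 0).z (k - 1)) * D ^ 2))
      fun k _ => ?_) ?_
    rotate_left
    · rw [Finset.sum_add_distrib, ← Finset.mul_sum, ← Finset.mul_sum]
      exact add_le_add (mul_le_mul_of_nonneg_left s2 zero_le_two)
        (mul_le_mul_of_nonneg_left s3 zero_le_two)
    · rw [eG]
      have a := sq_le_sq' (abs_le.1 (tD (h.al k))).1 (abs_le.1 (tD (h.al k))).2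
      have w := sub_nonneg.2 (z (Nat.sub_le k 1))
      have := mul_le_mul_of_nonneg_left (show ((p.famO P om p.jf b 0 0).G k +
        t * p.dH P P' om (b + 0) k) ^ 2 ≤ 2 * (p.famO P om p.jf b 0 0).G k ^ 2 + 2 * D ^ 2 by
          nlinarith [sq_nonneg ((p.famO P om p.jf b 0 0).G k - t * p.dH P P' om (b + 0) k)]) w
      linarith
  · change p.Jp P ≤ k at h1
    show p.HO P om (b + 0) k + t * p.dH P P' om (b + 0) k - (p.HO P om (b + 0) k + 0) =
      p.HO P om (b + 0) (p.Jp P) + t * p.dH P P' om (b + 0) (p.Jp P) -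
        (p.HO P om (b + 0) (p.Jp P) + 0)
    rw [dH_hi h1]; ring

/-- the ceiling of the segment -/
theorem cei {C : ℝ} (c0' : Cei (p.scl P om C p.jf ms den g2 u0 ue) (p.famO P om p.jf b 0 0))
    (c1' : Cei (p.scl P' om C p.jf ms den' g2' u0' ue') (p.famO P' om p.jf b 0 0)) {t : ℝ}
    (ht : t ∈ Icc (0 : ℝ) 1) : Cei (p.sgS P om C D ms den g2 u0 ue) (p.sgM P P' om b t) := by
  have t0 := ht.1
  have t1 := sub_nonneg.2 ht.2
  have jJ := h.h0.jlJ
  have JJ := J_le (p := p) (P := P)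
  refine ⟨fun k h1 h2 => ?_, ?_⟩
  · have a0 : p.HO P om (b + 0) (k + 1) + 0 - (p.HO P om (b + 0) k + 0) ≤
        C * 1 * ms (p.sO P om k) * p.v := c0'.up k h1 h2
    have a1 : p.HO P' om (b + 0) (k + 1) + 0 - (p.HO P' om (b + 0) k + 0) ≤
        C * 1 * ms (p.sO P' om k) * p.v := c1'.up k h1 (h.Jp_eq ▸ h2 : k < p.Jp P')
    rw [h.ms_eq] at a1
    show p.HO P om (b + 0) (k + 1) + t * p.dH P P' om (b + 0) (k + 1) -
      (p.HO P om (b + 0) k + t * p.dH P P' om (b + 0) k) ≤ C * 1 * ms (p.sO P om k) * p.v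
    rw [inc t h2]
    linarith [mul_le_mul_of_nonneg_left a0 t1, mul_le_mul_of_nonneg_left a1 t0]
  · have a0 : p.HO P om (b + 0) (p.jf + 1) + 0 ≤
        C * 1 * ms (p.sO P om p.jf) * p.sO P om p.jf := c0'.bot
    have a1 : p.HO P' om (b + 0) (p.jf + 1) + 0 ≤
        C * 1 * ms (p.sO P' om p.jf) * p.sO P' om p.jf := c1'.bot
    rw [sP_lo (P := P') (by omega), ← sP_lo (P := P) (by omega)] at a1
    show p.HO P om (b + 0) (p.jf + 1) + t * p.dH P P' om (b + 0) (p.jf + 1) ≤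
      C * 1 * ms (p.sO P om p.jf) * p.sO P om p.jf
    unfold Pm.dH
    rw [min_eq_left (by omega)]
    linarith [mul_le_mul_of_nonneg_left a0 t1, mul_le_mul_of_nonneg_left a1 t0]

end Two

/-- the marks with and without the spread -/
theorem dH_spr {C : ℝ} (g0 : Geo c0 C0 η Y p P om) (g1 : Geo c0 C0 η Y p P' om) (hγ : P.γ = 0)
    (hI : P'.I = P.I) (hx : P'.x = P.x) (hh : P'.hs = P.hs) (hN : P'.γ ≤ p.Nr * p.v)
    (N : Near C P'.γ (Pr.lo p.z p.v om (p.J + p.Nr)) (p.lO P' om)) (hC : 0 ≤ C) (hb : 0 ≤ b) :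
    (∀ k ≤ p.J, |p.dH P P' om b k| ≤ b * C * P'.γ * p.sO P om k) ∧
      ∀ k, |p.dH P P' om b k| ≤ (b * C + 1 + b) * P'.γ := by
  have γ0 := g1.g0
  have JJ := J_le (p := p) (P := P)
  have eJ : p.Jp P' = p.Jp P := by unfold Pm.Jp; rw [hI]
  have ex : ∀ k, p.xP P' k = p.xP P k := fun k => by
    unfold Pm.xP Pm.zP; rw [eJ, hx]
  have el : p.lO P om = Pr.lo p.z p.v om (p.J + p.Nr) := if_pos hγ
  have e : ∀ k ≤ p.Jp P, p.jf < k → p.dH P P' om b k =
      Pr.Spr41.mk b (p.lO P' om) (p.sO P' om k) -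
        Pr.Spr41.mk b (Pr.lo p.z p.v om (p.J + p.Nr)) (p.sO P om k) := fun k h1 h2 => by
    unfold Pm.dH
    rw [min_eq_left h1, MemD.H_hi h2, MemD.H_hi h2, ex, hh, el]; ring
  have z : ∀ k ≤ p.jf, p.dH P P' om b k = 0 := fun k hk => by
    unfold Pm.dH
    rw [MemD.H_lo ((min_le_left _ _).trans hk), MemD.H_lo ((min_le_left _ _).trans hk), sub_self]
  have bC : 0 ≤ b * C * P'.γ := by positivity
  have lo : ∀ k ≤ p.J, |p.dH P P' om b k| ≤ b * C * P'.γ * min (p.sO P om k) 1 := fun k hk => by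
    have s0 := g0.sP_nn k
    rcases le_or_gt k p.jf with a | a
    · rw [z k a, abs_zero]; exact mul_nonneg bC (le_min s0 zero_le_one)
    · have es : p.sO P' om k = p.sO P om k := by rw [sP_lo hk, sP_lo hk]
      rw [e k (hk.trans JJ) a, es]
      refine (N.mk' hb s0 ?_ ?_).trans (le_of_eq (by ring))
      · rw [← el]; exact g0.sP_le_tt ((hk.trans JJ).trans (Nat.le_add_right _ _))
      · rw [← es]; exact g1.sP_le_tt ((hk.trans J_le).trans (Nat.le_add_right _ _))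
  have mid : ∀ k ≤ p.Jp P, |p.dH P P' om b k| ≤ (b * C + 1 + b) * P'.γ := fun k hk => by
    have x0 : 0 ≤ (1 + b) * P'.γ := by positivity
    rcases le_total k p.J with a | a
    · linarith [lo k a, mul_le_of_le_one_right bC (min_le_right (p.sO P om k) 1)]
    rcases le_or_gt k p.jf with a' | a'
    · rw [z k a', abs_zero]; linarith
    have s0 : p.sO P om k = p.J * p.v := le_antisymm
      ((g0.sP_mono hk).trans (by linarith [g0.sP_Jp_le])) (g0.sP_J ▸ g0.sP_mono a)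
    have s1 : p.J * p.v ≤ p.sO P' om k := g1.sP_J ▸ g1.sP_mono a
    have s2 : p.sO P' om k ≤ p.J * p.v + P'.γ := (g1.sP_mono (eJ ▸ hk)).trans g1.sP_Jp_le
    rw [e k hk a', s0]
    have q := (N.plat (g1.spr hN) g1.ok hb s1 s2).2.2.2
    have q1 := mul_le_of_le_one_right bC (min_le_right (p.J * p.v) 1)
    have q2 := mul_le_mul_of_nonneg_left (show p.sO P' om k - p.J * p.v ≤ P'.γ by linarith)
      (show 0 ≤ 1 + b by linarith)
    linarith
  refine ⟨fun k hk => (lo k hk).trans (mul_le_mul_of_nonneg_left (min_le_left _ _) bC),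
    fun k => ?_⟩
  have := mid (min k (p.Jp P)) (min_le_right _ _)
  unfold Pm.dH at this ⊢
  rwa [min_assoc, min_self] at this

end C1Mem3

end Crest.Agent.T156.Alt

end
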