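import Crest.Agent.T156.QOne_33

/-!
# Row 156, leaf E-g of docs/T156_91E.md: the quantities `V`, `Gm`, `VV` (helper33)
-/

set_option autoImplicit false
set_option linter.unusedSectionVars false

noncomputable section

namespace Crest.Agent.T156.Cas.Eg33

open MeasureTheory Real Set Filter Topology
open Crest.Agent.T157.E Crest.Agent.T157.Casc Crest.Agent.T157.SL
open Crest.Agent.T156.Cas.Sy41 Crest.Agent.T156.Cas.Q33

variable {Ω : Type} [Fintype Ω] {w : Ω → ℝ}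

/-! ### `V_j` -/

theorem V_eq (hw : Wt w) (L : List (Lv Ω)) (l₀ : Lv Ω) (h : Ω → ℝ) (j : ℕ) (q : ℝ) :
    pi2 w L j (fun x y => (l₀.cov x y - q) ^ 2) h -
      node w L j (fun z => (rr w (L.drop j) l₀ z - q) ^ 2) h =
      tc w L l₀ h j + 2 * vv w L l₀ h j := by
  rw [pi2_sq hw, tc, vv]; ring

theorem V_le (hw : Wt w) {L : List (Lv Ω)} (hL : Mono 0 L) (l₀ : Lv Ω) (h : Ω → ℝ) {j : ℕ} {x : ℝ}
    (h0 : 0 < x) (hx : x ≤ ex L j) : tc w L l₀ h j + 2 * vv w L l₀ h j ≤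
      ta w L l₀ h j / x ^ 2 + 2 * (aa w L l₀ h j / x) := by
  have h1 := tc_le hw hL l₀ h h0.le hx
  have h2 := vv_le hw hL l₀ h hx
  rw [← le_div_iff₀' (by positivity)] at h1
  rw [← le_div_iff₀' h0] at h2
  linarith

/-! ### `Gm` -/

theorem pE_mono' (hw : Wt w) (L : List (Lv Ω)) (h : Ω → ℝ) {F G : (NI L → ℝ) → Ω → ℝ}
    (hF : ∀ x, Eg fun g => F g x) (hG : ∀ x, Eg fun g => G g x) (e : ∀ g x, F g x ≤ G g x) :
    pE w L h F ≤ pE w L h G :=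
  integral_mono (Pe.int_pE hw L h hF) (Pe.int_pE hw L h hG) fun g =>
    Finset.sum_le_sum fun x _ => mul_le_mul_of_nonneg_left (e g x) (Pe.den_nonneg hw L h g x)

theorem pE_add' (hw : Wt w) (L : List (Lv Ω)) (h : Ω → ℝ) {F G : (NI L → ℝ) → Ω → ℝ}
    (hF : ∀ x, Eg fun g => F g x) (hG : ∀ x, Eg fun g => G g x) :
    pE w L h (fun g x => F g x + G g x) = pE w L h F + pE w L h G := by
  simp only [pE, mul_add, Finset.sum_add_distrib]
  exact integral_add (Pe.int_pE hw L h hF) (Pe.int_pE hw L h hG)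

theorem pE_sum' (hw : Wt w) (L : List (Lv Ω)) (h : Ω → ℝ) {κ : Type*} (s : Finset κ)
    {F : κ → (NI L → ℝ) → Ω → ℝ} (hF : ∀ k x, Eg fun g => F k g x) :
    pE w L h (fun g x => ∑ k ∈ s, F k g x) = ∑ k ∈ s, pE w L h (F k) := by
  classical
  induction s using Finset.induction_on with
  | empty => simpa using pE_const hw L h 0
  | insert k s hk ih =>
    simp only [Finset.sum_insert hk]
    rw [pE_add' hw L h (hF k) fun x => Eg.sum _ fun k _ => hF k x, ih]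

/-- `m_j · s` along the path -/
def ms (w : Ω → ℝ) (L : List (Lv Ω)) (l₀ : Lv Ω) (h : Ω → ℝ) (j : ℕ) (g : NI L → ℝ) (x : Ω) : ℝ :=
  l₀.fld (mv w (L.drop j) l₀ (st L j h g)) x

/-- `|m_j|²` along the path -/
def rs (w : Ω → ℝ) (L : List (Lv Ω)) (l₀ : Lv Ω) (h : Ω → ℝ) (j : ℕ) (g : NI L → ℝ) : ℝ :=
  rr w (L.drop j) l₀ (st L j h g)

theorem ms_eq (L : List (Lv Ω)) (l₀ : Lv Ω) (h : Ω → ℝ) (j : ℕ) (g : NI L → ℝ) (x : Ω) :
    ms w L l₀ h j g x = ∑ y, P w (L.drop j) (st L j h g) y * l₀.cov x y := by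
  simp only [ms, Lv.fld, mv, Pf, Lv.cov, Finset.mul_sum]
  exact Finset.sum_comm.trans (Finset.sum_congr rfl fun _ _ => Finset.sum_congr rfl fun _ _ => by
    ring)

theorem eg_ms (hw : Wt w) (L : List (Lv Ω)) (l₀ : Lv Ω) (h : Ω → ℝ) (j : ℕ) (x : Ω) :
    Eg fun g => ms w L l₀ h j g x := Pe.eg_st L h j (eg_fld l₀ (eg_mv hw _ l₀) x)

theorem eg_rs (hw : Wt w) (L : List (Lv Ω)) (l₀ : Lv Ω) (h : Ω → ℝ) (j : ℕ) :
    Eg (rs w L l₀ h j) := Pe.eg_st L h j (eg_rr hw _ l₀)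

theorem pE_rs (hw : Wt w) (L : List (Lv Ω)) (l₀ : Lv Ω) (h : Ω → ℝ) (j : ℕ) :
    pE w L h (fun g _ => rs w L l₀ h j g) = rho w L l₀ h j := Pe.pE_node1 hw (eg_rr hw _ l₀) L j h

theorem Cb_cen1 (hw : Wt w) (L : List (Lv Ω)) (z f : Ω → ℝ) :
    ∑ x, P w L z x * (f x - Pf w L z f) ^ 2 = Cb w L z f f := by
  have e : ∀ x, P w L z x * (f x - Pf w L z f) ^ 2 = P w L z x * (f x * f x) -
      2 * Pf w L z f * (P w L z x * f x) + Pf w L z f ^ 2 * P w L z x := fun x => by ring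
  simp only [e, Finset.sum_add_distrib, Finset.sum_sub_distrib, ← Finset.mul_sum, sum_P hw]
  simp only [Cb, Pf]
  ring

/-- `E (m_j · (s - m_j))² = E V_j` -/
theorem pE_pi (hw : Wt w) (L : List (Lv Ω)) (l₀ : Lv Ω) (h : Ω → ℝ) (j : ℕ) :
    pE w L h (fun g x => (ms w L l₀ h j g x - rs w L l₀ h j g) ^ 2) = vv w L l₀ h j := by
  have := Pe.pE_node hw (fun x z => (l₀.fld (mv w (L.drop j) l₀ z) x - rr w (L.drop j) l₀ z) ^ 2)
    (fun x => ((eg_fld l₀ (eg_mv hw _ l₀) x).sub (eg_rr hw _ l₀)).pow 2) L j h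
  refine this.trans ?_
  unfold vv
  congr 1
  funext z
  rw [Vq, ← Cb_cen1 hw, Pf_fld]
  simp only [rr, sq]

/-- weighted Cauchy–Schwarz -/
theorem wcs {S : Finset ℕ} {c a ω : ℕ → ℝ} (hc : ∀ j ∈ S, |c j| ≤ a j) (hω : ∀ j ∈ S, 0 < ω j)
    (u : ℕ → ℝ) : (∑ j ∈ S, c j * u j) ^ 2 ≤ (∑ j ∈ S, a j * ω j) * ∑ j ∈ S, a j / ω j * u j ^ 2 := by
  refine Finset.sum_sq_le_sum_mul_sum_of_sq_le_mul S
    (fun j hj => mul_nonneg ((abs_nonneg _).trans (hc j hj)) (hω j hj).le)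
    (fun j hj => mul_nonneg (div_nonneg ((abs_nonneg _).trans (hc j hj)) (hω j hj).le)
      (sq_nonneg _)) fun j hj => ?_
  have h1 := (hω j hj).ne'
  have h2 : c j ^ 2 ≤ a j ^ 2 := sq_le_sq' (abs_le.1 (hc j hj)).1 (abs_le.1 (hc j hj)).2
  calc (c j * u j) ^ 2 = c j ^ 2 * u j ^ 2 := by ring
    _ ≤ a j ^ 2 * u j ^ 2 := mul_le_mul_of_nonneg_right h2 (sq_nonneg _)
    _ = _ := by field_simp

/-- the `π` part, any positive weights `ω` (constant on levels: Minkowski over the levels) -/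
theorem pi_sum (hw : Wt w) (L : List (Lv Ω)) (l₀ : Lv Ω) (h : Ω → ℝ) {S : Finset ℕ}
    {c a ω : ℕ → ℝ} (hc : ∀ j ∈ S, |c j| ≤ a j) (hω : ∀ j ∈ S, 0 < ω j) :
    pE w L h (fun g x => (∑ j ∈ S, c j * (ms w L l₀ h j g x - rs w L l₀ h j g)) ^ 2) ≤
      (∑ j ∈ S, a j * ω j) * ∑ j ∈ S, a j / ω j * vv w L l₀ h j := by
  have e := fun j x => (eg_ms hw L l₀ h j x).sub (eg_rs hw L l₀ h j)
  refine (pE_mono' hw L h (fun x => (Eg.sum _ fun j _ => (e j x).const_mul _).pow 2)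
    (fun x => (Eg.sum _ fun j _ => ((e j x).pow 2).const_mul _).const_mul _)
    fun g x => wcs hc hω _).trans (le_of_eq ?_)
  rw [Pe.pE_const_mul, pE_sum' hw L h S fun j x => ((e j x).pow 2).const_mul _]
  simp only [Pe.pE_const_mul, pE_pi hw]

theorem sum_ind {N : ℕ} {S : Finset ℕ} (hS : ∀ j ∈ S, 1 ≤ j ∧ j ≤ N) (F : ℕ → ℝ) :
    ∑ j ∈ Finset.range N, (if j + 1 ∈ S then F (j + 1) else 0) = ∑ j ∈ S, F j := by
  rw [Finset.range_eq_Ico, Finset.sum_Ico_add' (fun j => if j ∈ S then F j else 0) 0 N 1,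
    Finset.sum_ite_mem]
  congr 1
  refine Finset.inter_eq_right.2 fun j hj => ?_
  have := hS j hj
  rw [Finset.mem_Ico]; omega

section sym
variable (hw : Wt w) {L : List (Lv Ω)} (hL : Mono 0 L) (h : Ω → ℝ) {T : Set (Equiv.Perm Ω)}
  (hT : ∀ τ ∈ T, Sym w L h τ) (htr : ∀ x y, w x ≠ 0 → w y ≠ 0 → ∃ τ ∈ T, τ x = y) {l₀ : Lv Ω}
  (h₀ : ∀ τ ∈ T, ∀ x y, l₀.cov (τ x) (τ y) = l₀.cov x y) {S : Finset ℕ}
  (hS : ∀ j ∈ S, 1 ≤ j ∧ j ≤ L.length)
include hw hL hT htr h₀ hS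

/-- **Gm, path form**: any reference `r` -/
theorem gm_rs (φ r : ℕ → ℝ) :
    pE w L h (fun g _ => (∑ j ∈ S, dm L 0 j * φ j * (rs w L l₀ h j g - r j)) ^ 2) ≤
      4 * ∑ j ∈ S, dm L 0 j * φ j ^ 2 * aa w L l₀ h j +
        (∑ j ∈ S, dm L 0 j * φ j * (rho w L l₀ h j - r j)) ^ 2 := by
  set ψ : ℕ → ℝ := fun j => if j ∈ S then φ j else 0 with hψ
  have e1 : ∀ g, ∑ j ∈ S, dm L 0 j * φ j * (rs w L l₀ h j g - r j) =
      lin w L l₀ h ψ g - ∑ j ∈ S, dm L 0 j * φ j * r j := fun g => by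
    simp only [mul_sub, Finset.sum_sub_distrib, lin, nsum, hψ, mul_ite, ite_mul, mul_zero, zero_mul]
    rw [sum_ind hS fun j => dm L 0 j * φ j * rr w (L.drop j) l₀ (st L j h g)]; rfl
  have e2 := var_lin hw hL h hT htr h₀ ψ
  simp only [e1]
  rw [pE_sq_sub hw L h (eg_lin hw L l₀ h ψ)]
  refine add_le_add (e2.trans (le_of_eq ?_)) (le_of_eq ?_)
  · simp only [hψ, ite_pow, mul_ite, ite_mul, mul_zero, zero_mul, ne_eq, OfNat.ofNat_ne_zero,
      not_false_eq_true, zero_pow]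
    rw [sum_ind hS fun j => dm L 0 j * φ j ^ 2 * aa w L l₀ h j]
  · rw [pE_lin hw]
    simp only [hψ, mul_ite, ite_mul, mul_zero, zero_mul, mul_sub, Finset.sum_sub_distrib]
    rw [sum_ind hS fun j => dm L 0 j * φ j * rho w L l₀ h j]

/-- **Gm, leaf form** -/
theorem gm_ms (φ r : ℕ → ℝ) {a ω : ℕ → ℝ} (hc : ∀ j ∈ S, dm L 0 j * |φ j| ≤ a j)
    (hω : ∀ j ∈ S, 0 < ω j) :
    pE w L h (fun g x => (∑ j ∈ S, dm L 0 j * φ j * (ms w L l₀ h j g x - r j)) ^ 2) ≤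
      8 * ∑ j ∈ S, dm L 0 j * φ j ^ 2 * aa w L l₀ h j +
        2 * (∑ j ∈ S, dm L 0 j * φ j * (rho w L l₀ h j - r j)) ^ 2 +
        2 * ((∑ j ∈ S, a j * ω j) * ∑ j ∈ S, a j / ω j * vv w L l₀ h j) := by
  have e1 := gm_rs hw hL h hT htr h₀ hS φ r
  have e2 := pi_sum hw L l₀ h (c := fun j => dm L 0 j * φ j) (a := a) (fun j hj => by
    rw [abs_mul, abs_of_nonneg (dm_nonneg hL j)]; exact hc j hj) hω
  have g1 : Eg fun g => (∑ j ∈ S, dm L 0 j * φ j * (rs w L l₀ h j g - r j)) ^ 2 :=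
    (Eg.sum _ fun j _ => ((eg_rs hw L l₀ h j).sub (Eg.const _)).const_mul _).pow 2
  have g2 : ∀ x, Eg fun g => (∑ j ∈ S, dm L 0 j * φ j *
      (ms w L l₀ h j g x - rs w L l₀ h j g)) ^ 2 := fun x =>
    (Eg.sum _ fun j _ => ((eg_ms hw L l₀ h j x).sub (eg_rs hw L l₀ h j)).const_mul _).pow 2
  refine (pE_mono' hw L h (fun x => (Eg.sum _ fun j _ =>
    ((eg_ms hw L l₀ h j x).sub (Eg.const _)).const_mul _).pow 2)
    (fun x => (g1.const_mul 2).add ((g2 x).const_mul 2)) fun g x => ?_).trans ?_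
  · have e : ∑ j ∈ S, dm L 0 j * φ j * (ms w L l₀ h j g x - r j) =
        ∑ j ∈ S, dm L 0 j * φ j * (rs w L l₀ h j g - r j) +
          ∑ j ∈ S, dm L 0 j * φ j * (ms w L l₀ h j g x - rs w L l₀ h j g) := by
      rw [← Finset.sum_add_distrib]
      exact Finset.sum_congr rfl fun _ _ => by ring
    rw [e]
    exact add_sq_le.trans (le_of_eq (mul_add _ _ _))
  · rw [pE_add' hw L h (fun _ => g1.const_mul 2) fun x => (g2 x).const_mul 2, Pe.pE_const_mul,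
      Pe.pE_const_mul]
    linarith

omit hw hT htr h₀ hS in
theorem sup_aa (hw : Wt w) {φ g : ℕ → ℝ} (hφ : ∀ j ∈ S, |φ j| ≤ g j) :
    ∑ j ∈ S, dm L 0 j * φ j ^ 2 * aa w L l₀ h j ≤ ∑ j ∈ S, dm L 0 j * g j ^ 2 * aa w L l₀ h j :=
  Finset.sum_le_sum fun j hj => mul_le_mul_of_nonneg_right (mul_le_mul_of_nonneg_left
    (sq_le_sq' (abs_le.1 (hφ j hj)).1 (abs_le.1 (hφ j hj)).2) (dm_nonneg hL j))
    (aa_nonneg hw hL l₀ h j)

/-- centred, `|φ| ≤ g` -/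
theorem gm_rs_sup {φ g : ℕ → ℝ} (hφ : ∀ j ∈ S, |φ j| ≤ g j) :
    pE w L h (fun p _ => (∑ j ∈ S, dm L 0 j * φ j * (rs w L l₀ h j p - rho w L l₀ h j)) ^ 2) ≤
      4 * ∑ j ∈ S, dm L 0 j * g j ^ 2 * aa w L l₀ h j := by
  have := gm_rs hw hL h hT htr h₀ hS φ (rho w L l₀ h)
  simp only [sub_self, mul_zero, Finset.sum_const_zero] at this
  linarith [sup_aa hL h (l₀ := l₀) hw hφ]

theorem gm_ms_sup {φ g ω : ℕ → ℝ} (hφ : ∀ j ∈ S, |φ j| ≤ g j) (hω : ∀ j ∈ S, 0 < ω j) :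
    pE w L h (fun p x => (∑ j ∈ S, dm L 0 j * φ j * (ms w L l₀ h j p x - rho w L l₀ h j)) ^ 2) ≤
      8 * ∑ j ∈ S, dm L 0 j * g j ^ 2 * aa w L l₀ h j +
        2 * ((∑ j ∈ S, dm L 0 j * g j * ω j) * ∑ j ∈ S, dm L 0 j * g j / ω j * vv w L l₀ h j) := by
  have := gm_ms hw hL h hT htr h₀ hS φ (rho w L l₀ h) (a := fun j => dm L 0 j * g j)
    (fun j hj => mul_le_mul_of_nonneg_left (hφ j hj) (dm_nonneg hL j)) hω
  simp only [sub_self, mul_zero, Finset.sum_const_zero] at this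
  linarith [sup_aa hL h (l₀ := l₀) hw hφ]

end sym

/-- the hypothesis `Gm` of (2b): leaf form and node form -/
def GmB (w : Ω → ℝ) (L : List (Lv Ω)) (h : Ω → ℝ) (U : ℕ → Ω → Ω → ℝ) (S : Finset ℕ) (g : ℕ → ℝ)
    (G : ℝ) : Prop := ∀ φ : ℕ → ℝ, (∀ y, |φ y| ≤ g y) →
  pE w L h (fun p x => (∑ y ∈ S, dm L 0 y * φ y * Pf w (L.drop y) (st L y h p) (U y x)) ^ 2) ≤
    G ^ 2 ∧
  pE w L h (fun p _ => (∑ y ∈ S, dm L 0 y * φ y * qf (P w (L.drop y) (st L y h p)) (U y)) ^ 2) ≤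
    G ^ 2

/-- **Gm** for centred kernels `U y = c y (cov - r y)` -/
theorem gmB (hw : Wt w) {L : List (Lv Ω)} (hL : Mono 0 L) (h : Ω → ℝ) {T : Set (Equiv.Perm Ω)}
    (hT : ∀ τ ∈ T, Sym w L h τ) (htr : ∀ x y, w x ≠ 0 → w y ≠ 0 → ∃ τ ∈ T, τ x = y) {l₀ : Lv Ω}
    (h₀ : ∀ τ ∈ T, ∀ x y, l₀.cov (τ x) (τ y) = l₀.cov x y) {S : Finset ℕ} {U : ℕ → Ω → Ω → ℝ}
    {c r g ω : ℕ → ℝ} (hU : ∀ y ∈ S, ∀ x x', U y x x' = c y * (l₀.cov x x' - r y))
    (hS : ∀ y ∈ S, g y * |c y| = 0 ∨ (1 ≤ y ∧ y ≤ L.length ∧ c y * (rho w L l₀ h y - r y) = 0))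
    (hω : ∀ y ∈ S, 0 < ω y) {G : ℝ}
    (hG : 8 * ∑ y ∈ S, dm L 0 y * (g y * |c y|) ^ 2 * aa w L l₀ h y +
      2 * ((∑ y ∈ S, dm L 0 y * (g y * |c y|) * ω y) *
        ∑ y ∈ S, dm L 0 y * (g y * |c y|) / ω y * vv w L l₀ h y) ≤ G ^ 2) : GmB w L h U S g G := by
  classical
  intro φ hφ
  set S' := S.filter fun y => g y * |c y| ≠ 0 with hS'
  have m1 : ∀ y ∈ S', y ∈ S ∧ 1 ≤ y ∧ y ≤ L.length ∧ c y * (rho w L l₀ h y - r y) = 0 :=
    fun y hy => by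
      obtain ⟨h1, h2⟩ := Finset.mem_filter.1 hy
      exact ⟨h1, (hS y h1).resolve_left h2⟩
  have b1 : ∀ y, |φ y * c y| ≤ g y * |c y| := fun y => by
    rw [abs_mul]; exact mul_le_mul_of_nonneg_right (hφ y) (abs_nonneg _)
  have e0 : ∀ F : ℕ → ℝ, ∑ y ∈ S, dm L 0 y * φ y * (c y * (F y - r y)) =
      ∑ y ∈ S', dm L 0 y * (φ y * c y) * (F y - rho w L l₀ h y) := fun F => by
    rw [hS', Finset.sum_filter]
    refine Finset.sum_congr rfl fun y hy => ?_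
    split_ifs with k
    · have := (m1 y (Finset.mem_filter.2 ⟨hy, k⟩)).2.2.2
      linear_combination dm L 0 y * φ y * this
    · have : φ y * c y = 0 := abs_nonpos_iff.1 ((b1 y).trans_eq (not_not.1 k))
      linear_combination dm L 0 y * (F y - r y) * this
  have e1 : ∀ p x, ∑ y ∈ S, dm L 0 y * φ y * Pf w (L.drop y) (st L y h p) (U y x) =
      ∑ y ∈ S', dm L 0 y * (φ y * c y) * (ms w L l₀ h y p x - rho w L l₀ h y) := fun p x => by
    rw [← e0]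
    refine Finset.sum_congr rfl fun y hy => ?_
    simp only [Pf, hU y hy, ms_eq, mul_left_comm _ (c y), mul_sub, Finset.sum_sub_distrib,
      ← Finset.mul_sum, ← Finset.sum_mul, sum_P hw, one_mul]
  have e2 : ∀ p, ∑ y ∈ S, dm L 0 y * φ y * qf (P w (L.drop y) (st L y h p)) (U y) =
      ∑ y ∈ S', dm L 0 y * (φ y * c y) * (rs w L l₀ h y p - rho w L l₀ h y) := fun p => by
    rw [← e0]
    refine Finset.sum_congr rfl fun y hy => ?_
    rw [show U y = fun x x' => c y * (l₀.cov x x' - r y) from funext fun x => funext (hU y hy x),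
      qf_const_mul, qf_sub, qf_const (sum_P hw _ _), rs, rr_eq]
  have f : ∀ F : ℕ → ℝ → ℝ, (∀ y, F y 0 = 0) →
      ∑ y ∈ S', F y (g y * |c y|) = ∑ y ∈ S, F y (g y * |c y|) := fun F hF =>
    Finset.sum_filter_of_ne fun y _ k e => k (by rw [e, hF])
  have f1 := f (fun y t => dm L 0 y * t ^ 2 * aa w L l₀ h y) fun y => by simp
  have f2 := f (fun y t => dm L 0 y * t * ω y) fun y => by simp
  have f3 := f (fun y t => dm L 0 y * t / ω y * vv w L l₀ h y) fun y => by simp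
  have k1 := gm_ms_sup hw hL h hT htr h₀ (fun y hy => ⟨(m1 y hy).2.1, (m1 y hy).2.2.1⟩)
    (fun y _ => b1 y) fun y hy => hω y (m1 y hy).1
  have k2 := gm_rs_sup hw hL h hT htr h₀ (fun y hy => ⟨(m1 y hy).2.1, (m1 y hy).2.2.1⟩)
    fun y _ => b1 y
  beta_reduce at f1 f2 f3
  rw [f1, f2, f3] at k1
  rw [f1] at k2
  have g0 : ∀ y, 0 ≤ dm L 0 y * (g y * |c y|) := fun y =>
    mul_nonneg (dm_nonneg hL y) ((abs_nonneg _).trans (b1 y))
  have p1 : 0 ≤ ∑ y ∈ S, dm L 0 y * (g y * |c y|) ^ 2 * aa w L l₀ h y :=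
    Finset.sum_nonneg fun y _ => mul_nonneg (mul_nonneg (dm_nonneg hL y) (sq_nonneg _))
      (aa_nonneg hw hL l₀ h y)
  have p2 : 0 ≤ (∑ y ∈ S, dm L 0 y * (g y * |c y|) * ω y) *
      ∑ y ∈ S, dm L 0 y * (g y * |c y|) / ω y * vv w L l₀ h y :=
    mul_nonneg (Finset.sum_nonneg fun y hy => mul_nonneg (g0 y) (hω y hy).le)
      (Finset.sum_nonneg fun y hy => mul_nonneg (div_nonneg (g0 y) (hω y hy).le)
        (vv_nonneg hw l₀ h L y))
  simp only [e1, e2]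
  exact ⟨k1.trans hG, k2.trans (by linarith)⟩

/-! ### `VV` -/

/-- `E [Cov_j (f, f') | F_y]` -/
def Cf (w : Ω → ℝ) (L : List (Lv Ω)) (y j : ℕ) (f f' z : Ω → ℝ) : ℝ :=
  node w (L.drop y) (j - y) (fun u => Cb w (L.drop j) u f f') z

/-- the matrix `E [C_j | F_y]` -/
def Cc (w : Ω → ℝ) (L : List (Lv Ω)) (l₀ : Lv Ω) (y j : ℕ) (z : Ω → ℝ) (i k : l₀.ι) : ℝ :=
  Cf w L y j (fun x => l₀.A x i) (fun x => l₀.A x k) z

/-- `E [(s² · (s¹ - m¹_j))² | F_y]` for two replicas split at the node `y ≤ j` -/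
def vz (w : Ω → ℝ) (L : List (Lv Ω)) (l₀ : Lv Ω) (y j : ℕ) (z : Ω → ℝ) : ℝ :=
  ∑ x, P w (L.drop y) z x * Cf w L y j (fun x' => l₀.cov x' x) (fun x' => l₀.cov x' x) z

/-- its mean -/
def vt (w : Ω → ℝ) (L : List (Lv Ω)) (l₀ : Lv Ω) (h : Ω → ℝ) (y j : ℕ) : ℝ :=
  node w L y (vz w L l₀ y j) h

section vv
variable (hw : Wt w) (L : List (Lv Ω)) (l₀ : Lv Ω)
include hw

theorem eg_Cf (y j : ℕ) (f f' : Ω → ℝ) : Eg (Cf w L y j f f') :=
  (Hess87.eg_Cb hw _ f f').node hw _ _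

theorem eg_vz (y j : ℕ) : Eg (vz w L l₀ y j) :=
  Eg.sum _ fun x _ => (eg_P hw _ x).mul (eg_Cf hw L y j _ _)

theorem Cf_nonneg (y j : ℕ) (f z : Ω → ℝ) : 0 ≤ Cf w L y j f f z :=
  node_nonneg w (fun u => Hess87.Cb_nonneg hw _ u f) _ _ _

theorem vz_nonneg (y j : ℕ) (z : Ω → ℝ) : 0 ≤ vz w L l₀ y j z :=
  Finset.sum_nonneg fun x _ => mul_nonneg (P_nonneg hw _ z x) (Cf_nonneg hw L y j _ z)

theorem vt_nonneg (h : Ω → ℝ) (y j : ℕ) : 0 ≤ vt w L l₀ h y j :=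
  node_nonneg w (vz_nonneg hw L l₀ y j) L y h

theorem node_Pf {y j : ℕ} (hj : y ≤ j) (f z : Ω → ℝ) :
    node w (L.drop y) (j - y) (fun u => Pf w (L.drop j) u f) z = Pf w (L.drop y) z f := by
  have := node_sum_P hw f (L.drop y) (j - y) z
  rwa [List.drop_drop, Nat.add_sub_cancel' hj] at this

theorem sq_node {φ : (Ω → ℝ) → ℝ} (hφ : Eg φ) (N : List (Lv Ω)) (j : ℕ) (z : Ω → ℝ) :
    node w N j φ z ^ 2 ≤ node w N j (fun u => φ u ^ 2) z := by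
  have := node_mono hw ((hφ.const_mul (2 * node w N j φ z)).sub (Eg.const (node w N j φ z ^ 2)))
    (hφ.pow 2) (fun u => by nlinarith [sq_nonneg (φ u - node w N j φ z)]) N j z
  rw [node_sub hw (hφ.const_mul _) (Eg.const _), node_const_mul, node_const hw] at this
  beta_reduce at this
  linarith

theorem Cf_eq {y j : ℕ} (hj : y ≤ j) (f f' z : Ω → ℝ) : Cf w L y j f f' z =
    Pf w (L.drop y) z (fun x => f x * f' x) -
      node w (L.drop y) (j - y) (fun u => Pf w (L.drop j) u f * Pf w (L.drop j) u f') z := by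
  simp only [Cf, Cb]
  rw [node_sub hw (Hess87.eg_Pf hw _ _) ((Hess87.eg_Pf hw _ _).mul (Hess87.eg_Pf hw _ _))]
  simp only [node_Pf hw L hj]

omit hw in
theorem Cf_self (y : ℕ) (f f' z : Ω → ℝ) : Cf w L y y f f' z = Cb w (L.drop y) z f f' := by
  simp [Cf]

omit hw in
theorem Cf_tower {y i j : ℕ} (hi : y ≤ i) (hj : i ≤ j) (f f' z : Ω → ℝ) :
    Cf w L y j f f' z = node w (L.drop y) (i - y) (Cf w L i j f f') z :=
  (congrFun (node_tower' L hi hj _) z).symm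

/-- the conditional covariance decreases along the path -/
theorem Cf_anti {y i j : ℕ} (hi : y ≤ i) (hj : i ≤ j) (f z : Ω → ℝ) :
    Cf w L y j f f z ≤ Cf w L y i f f z := by
  rw [Cf_tower L hi hj]
  refine node_mono hw (eg_Cf hw L i j f f) (Hess87.eg_Cb hw _ f f) (fun u => ?_) _ _ z
  have := sq_node hw (Hess87.eg_Pf hw (L.drop j) f) (L.drop i) (j - i) u
  rw [node_Pf hw L hj] at this
  rw [Cf_eq hw L hj, Cb]
  simp only [sq] at this
  linarith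

theorem Cf_fld (y j : ℕ) (v v' : l₀.ι → ℝ) (z : Ω → ℝ) :
    Cf w L y j (l₀.fld v) (l₀.fld v') z = ∑ i, ∑ k, v i * v' k * Cc w L l₀ y j z i k := by
  simp only [Cf, Cc, Cb_fld]
  rw [node_sum hw _ fun i _ => Eg.sum _ fun k _ => (Hess87.eg_Cb hw _ _ _).const_mul _]
  refine Finset.sum_congr rfl fun i _ => ?_
  rw [node_sum hw _ fun k _ => (Hess87.eg_Cb hw _ _ _).const_mul _]
  simp only [node_const_mul]

theorem vz_eq (y j : ℕ) (z : Ω → ℝ) : vz w L l₀ y j z =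
    ∑ i, ∑ k, Pf w (L.drop y) z (fun x => l₀.A x i * l₀.A x k) * Cc w L l₀ y j z i k := by
  have e : ∀ x, (fun x' => l₀.cov x' x) = l₀.fld (l₀.A x) := fun x => rfl
  simp only [vz, e, Cf_fld hw, Pf, Finset.mul_sum, Finset.sum_mul]
  refine Finset.sum_comm.trans (Finset.sum_congr rfl fun i _ => Finset.sum_comm.trans ?_)
  exact Finset.sum_congr rfl fun _ _ => Finset.sum_congr rfl fun _ _ => by ring

theorem vz_anti {y i j : ℕ} (hi : y ≤ i) (hj : i ≤ j) (z : Ω → ℝ) :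
    vz w L l₀ y j z ≤ vz w L l₀ y i z := Finset.sum_le_sum fun x _ =>
  mul_le_mul_of_nonneg_left (Cf_anti hw L hi hj _ z) (P_nonneg hw _ z x)

theorem vz_self (y : ℕ) (z : Ω → ℝ) :
    vz w L l₀ y y z = trC2 w (L.drop y) l₀ z + Vq w (L.drop y) l₀ z := by
  rw [vz_eq hw]
  simp only [Cc, Cf_self, trC2, Vq, Cb_fld, ← Finset.sum_add_distrib]
  refine Finset.sum_congr rfl fun i _ => Finset.sum_congr rfl fun k _ => ?_
  rw [Cb_A]; ring

/-- **near**: `y` in the level of `j` -/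
theorem vt_near (h : Ω → ℝ) {y j : ℕ} (hj : y ≤ j) :
    vt w L l₀ h y j ≤ tc w L l₀ h y + vv w L l₀ h y := by
  have := node_le2 hw (eg_vz hw L l₀ y j) (eg_trC2 hw (L.drop y) l₀) (eg_Vq hw (L.drop y) l₀)
    (a := 1) (b := 1) (fun z => by
      rw [one_mul, one_mul, ← vz_self hw]; exact vz_anti hw L l₀ le_rfl hj z) L y h
  rwa [one_mul, one_mul] at this

/-- a positive form against `E [C_j | F_y]` -/
theorem tr_Cc_nonneg (y j : ℕ) (z : Ω → ℝ) {M : l₀.ι → l₀.ι → ℝ}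
    (hM : ∀ v : l₀.ι → ℝ, 0 ≤ ∑ i, ∑ k, v i * v k * M i k) :
    0 ≤ ∑ i, ∑ k, M i k * Cc w L l₀ y j z i k := by
  have := node_nonneg w (Φ := fun u => ∑ i, ∑ k, M i k *
    Cb w (L.drop j) u (fun x => l₀.A x i) fun x => l₀.A x k) (fun u => by
      rw [tr_mul hw]
      exact Finset.sum_nonneg fun x _ => mul_nonneg (P_nonneg hw _ u x) (hM _))
    (L.drop y) (j - y) z
  rw [node_sum hw _ fun i _ => Eg.sum _ fun k _ => (Hess87.eg_Cb hw _ _ _).const_mul _] at this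
  refine this.trans_eq (Finset.sum_congr rfl fun i _ => ?_)
  rw [node_sum hw _ fun k _ => (Hess87.eg_Cb hw _ _ _).const_mul _]
  simp only [node_const_mul, Cc, Cf]

/-- `tr (E_y C_j)² ≤ E_y tr C_i²` for `y ≤ i ≤ j` -/
theorem tr_Cc_sq {y i j : ℕ} (hi : y ≤ i) (hj : i ≤ j) (z : Ω → ℝ) :
    ∑ a, ∑ b, Cc w L l₀ y j z a b ^ 2 ≤ node w (L.drop y) (i - y) (trC2 w (L.drop i) l₀) z := by
  have h1 := tr_Cc_nonneg hw L l₀ y j z (M := fun a b => Cc w L l₀ y i z a b - Cc w L l₀ y j z a b)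
    fun v => by
      simp only [mul_sub, Finset.sum_sub_distrib, ← Cf_fld hw]
      exact sub_nonneg.2 (Cf_anti hw L hi hj _ z)
  have h2 : 0 ≤ ∑ a, ∑ b, (Cc w L l₀ y i z a b - Cc w L l₀ y j z a b) ^ 2 :=
    Finset.sum_nonneg fun _ _ => Finset.sum_nonneg fun _ _ => sq_nonneg _
  have h3 : ∑ a, ∑ b, Cc w L l₀ y i z a b ^ 2 ≤
      node w (L.drop y) (i - y) (trC2 w (L.drop i) l₀) z := by
    unfold trC2
    rw [node_sum hw _ fun a _ => Eg.sum _ fun b _ => (Hess87.eg_Cb hw _ _ _).pow 2]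
    refine Finset.sum_le_sum fun a _ => ?_
    rw [node_sum hw _ fun b _ => (Hess87.eg_Cb hw _ _ _).pow 2]
    exact Finset.sum_le_sum fun b _ => sq_node hw (Hess87.eg_Cb hw _ _ _) _ _ z
  have e : ∑ a, ∑ b, Cc w L l₀ y i z a b ^ 2 = ∑ a, ∑ b, Cc w L l₀ y j z a b ^ 2 +
      2 * ∑ a, ∑ b, (Cc w L l₀ y i z a b - Cc w L l₀ y j z a b) * Cc w L l₀ y j z a b +
      ∑ a, ∑ b, (Cc w L l₀ y i z a b - Cc w L l₀ y j z a b) ^ 2 := by
    simp only [Finset.mul_sum, ← Finset.sum_add_distrib]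
    exact Finset.sum_congr rfl fun _ _ => Finset.sum_congr rfl fun _ _ => by ring
  linarith

/-- the split `tr (N_y E_y C_j) = tr (E_y C_j)² + E_y m_jᵀ (E_y C_j) m_j` -/
theorem vz_split {y j : ℕ} (hj : y ≤ j) (z : Ω → ℝ) : vz w L l₀ y j z =
    ∑ a, ∑ b, Cc w L l₀ y j z a b ^ 2 + node w (L.drop y) (j - y) (fun u =>
      Cf w L y j (l₀.fld (mv w (L.drop j) l₀ u)) (l₀.fld (mv w (L.drop j) l₀ u)) z) z := by
  have hm := eg_mv hw (L.drop j) l₀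
  simp only [vz_eq hw, Cf_fld hw]
  rw [node_sum hw _ fun a _ => Eg.sum _ fun b _ => ((hm a).mul (hm b)).mul_const _,
    ← Finset.sum_add_distrib]
  refine Finset.sum_congr rfl fun a _ => ?_
  rw [node_sum hw _ fun b _ => ((hm a).mul (hm b)).mul_const _, ← Finset.sum_add_distrib]
  refine Finset.sum_congr rfl fun b _ => ?_
  simp only [mul_comm _ (Cc w L l₀ y j z a b), node_const_mul]
  rw [sq, ← mul_add]
  congr 1
  rw [Cc, Cf_eq hw L hj]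
  simp only [mv, Pf]
  ring

end vv

variable {L : List (Lv Ω)} {l₀ : Lv Ω} {τ : ℕ → ℝ} {Λ : ℝ}

/-- Riccati for the covariance of a frozen direction -/
theorem Cf_ric (H : Dt w L l₀ τ Λ) {y t j : ℕ} (ht : y ≤ t) (htj : t ≤ j) (hj : j ≤ L.length)
    {x S : ℝ} (hx : 0 < x) (hx' : x ≤ ex L j) (hS : 0 < S)
    (hS' : S ≤ ∑ k ∈ Finset.Ico t j, ex L k * τ k) (v : l₀.ι → ℝ) (z : Ω → ℝ) :
    Cf w L y j (l₀.fld v) (l₀.fld v) z ≤ (∑ i, v i ^ 2) / (x * S) := by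
  have hw := H.wt
  rw [Cf_tower L ht htj]
  have := node_mono hw (eg_Cf hw L t j (l₀.fld v) (l₀.fld v)) (Eg.const ((∑ i, v i ^ 2) / (x * S)))
    (fun u => ?_) (L.drop y) (t - y) z
  · rwa [node_const hw] at this
  have h1 := ric_blk hw H.mono l₀ H.dom htj hj (hS.trans_le hS') u v
  have h2 := node_mono hw ((Hess87.eg_Cb hw (L.drop j) (l₀.fld v) (l₀.fld v)).const_mul x)
    (eg_Bq hw (L.drop j) l₀ fun i => Eg.const (v i))
    (fun u' => (Hess87.sandwich hw _ _ x u' (mono_le hx' (mono_drop_ex j H.mono))).1)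
    (L.drop t) (j - t) u
  rw [node_const_mul] at h2
  rw [le_div_iff₀ (by positivity)]
  have h3 := (h2.trans h1).trans (div_le_div_of_nonneg_left
    (Finset.sum_nonneg fun _ _ => sq_nonneg _) hS hS')
  rw [le_div_iff₀ hS] at h3
  unfold Cf
  linarith

/-- **far**: Riccati on `[t, j)`, `tr C²` at any node `i ∈ [y, j]` -/
theorem vt_far (H : Dt w L l₀ τ Λ) (h : Ω → ℝ) {y t i j : ℕ} (ht : y ≤ t) (htj : t ≤ j)
    (hi : y ≤ i) (hij : i ≤ j) (hj : j ≤ L.length) {x S : ℝ} (hx : 0 < x) (hx' : x ≤ ex L j)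
    (hS : 0 < S) (hS' : S ≤ ∑ k ∈ Finset.Ico t j, ex L k * τ k) :
    vt w L l₀ h y j ≤ tc w L l₀ h i + rho w L l₀ h j / (x * S) := by
  have hw := H.wt
  have hm := eg_mv hw (L.drop j) l₀
  have := node_le2 hw (eg_vz hw L l₀ y j) ((eg_trC2 hw (L.drop i) l₀).node hw (L.drop y) (i - y))
    ((eg_rr hw (L.drop j) l₀).node hw (L.drop y) (j - y)) (a := 1) (b := 1 / (x * S))
    (fun z => ?_) L y h
  · rwa [one_mul, node_tower L hi, node_tower L (ht.trans htj), one_div_mul_eq_div] at this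
  rw [vz_split hw L l₀ (ht.trans htj), one_mul, ← congrFun (node_const_mul w _ _ _ _)]
  refine add_le_add (tr_Cc_sq hw L l₀ hi hij z) (node_mono hw ?_ ((eg_rr hw _ l₀).const_mul _)
    (fun u => ?_) _ _ z)
  · simp only [Cf_fld hw]
    exact Eg.sum _ fun a _ => Eg.sum _ fun b _ => ((hm a).mul (hm b)).mul_const _
  · rw [one_div_mul_eq_div]
    exact Cf_ric H ht htj hj hx hx' hS hS' _ z

/-- **VV**: weights `c y ≥ 0`, total `≤ X` below `t`; averaging weights `c` on `[t, j)` of mass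
`≥ M` -/
theorem vv_sum (H : Dt w L l₀ τ Λ) (h : Ω → ℝ) {b t j : ℕ} (hb : b ≤ t) (htj : t ≤ j)
    (hj : j ≤ L.length) {x S X M : ℝ} (hx : 0 < x) (hx' : x ≤ ex L j) (hS : 0 < S)
    (hS' : S ≤ ∑ k ∈ Finset.Ico t j, ex L k * τ k) {c : ℕ → ℝ} (hc : ∀ y, 0 ≤ c y)
    (hX : ∑ y ∈ Finset.Ico b t, c y ≤ X) (hM : 0 < M) (hM' : M ≤ ∑ y ∈ Finset.Ico t j, c y) :
    ∑ y ∈ Finset.Ico b j, c y * vt w L l₀ h y j ≤ X * (rho w L l₀ h j / (x * S)) +
      (1 + X / M) * ∑ y ∈ Finset.Ico t j, c y * tc w L l₀ h y +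
        ∑ y ∈ Finset.Ico t j, c y * vv w L l₀ h y := by
  have hw := H.wt
  set Tc := ∑ y ∈ Finset.Ico t j, c y * tc w L l₀ h y with hTc
  set R := rho w L l₀ h j / (x * S) with hR
  have R0 : 0 ≤ R := div_nonneg (rho_nonneg l₀ h L j) (by positivity)
  have T0 : 0 ≤ Tc := Finset.sum_nonneg fun y _ => mul_nonneg (hc y) (tc_nonneg l₀ h L y)
  have far : ∀ y ∈ Finset.Ico b t, vt w L l₀ h y j ≤ Tc / M + R := fun y hy => by
    have hy := (Finset.mem_Ico.1 hy).2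
    rcases le_or_gt (vt w L l₀ h y j) R with h1 | h1
    · exact h1.trans (le_add_of_nonneg_left (by positivity))
    rw [← sub_le_iff_le_add, le_div_iff₀ hM]
    refine (mul_le_mul_of_nonneg_left hM' (by linarith)).trans ?_
    rw [Finset.mul_sum]
    refine Finset.sum_le_sum fun i hi => ?_
    obtain ⟨h2, h3⟩ := Finset.mem_Ico.1 hi
    rw [mul_comm]
    exact mul_le_mul_of_nonneg_left (sub_le_iff_le_add.2
      (vt_far H h hy.le htj (hy.le.trans h2) h3.le hj hx hx' hS hS')) (hc i)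
  have h1 : ∑ y ∈ Finset.Ico b t, c y * vt w L l₀ h y j ≤ X * (Tc / M + R) :=
    (Finset.sum_le_sum fun y hy => mul_le_mul_of_nonneg_left (far y hy) (hc y)).trans (by
      rw [← Finset.sum_mul]; exact mul_le_mul_of_nonneg_right hX (by positivity))
  have h2 : ∑ y ∈ Finset.Ico t j, c y * vt w L l₀ h y j ≤
      Tc + ∑ y ∈ Finset.Ico t j, c y * vv w L l₀ h y := by
    rw [hTc, ← Finset.sum_add_distrib]
    exact Finset.sum_le_sum fun y hy => by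
      rw [← mul_add]
      exact mul_le_mul_of_nonneg_left (vt_near hw L l₀ h (Finset.mem_Ico.1 hy).2.le) (hc y)
  rw [← Finset.sum_Ico_consecutive _ hb htj]
  have e : X * (Tc / M + R) = X * R + X / M * Tc := by ring
  linarith

end Crest.Agent.T156.Cas.Eg33

end
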