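import Crest.Agent.T156.WfC_99
import Crest.Agent.T156.NuC_87
import Crest.Agent.T156.Eg_33

/-!
# Row 156 (helper99): one edge in weak form, usable forms

`sg_gm` (hypothesis `GmB`, bounded invariant coefficient), `cf_site2` (site kernels
`u_j f f' + v_j`), and the product forms `abs_Dop_prd`, `abs_nuc_Dr`, `abs_nu_Dr`.
-/

set_option autoImplicit false
set_option linter.unusedSectionVars false

noncomputable section

namespace Crest.Agent.T156.Cas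

open MeasureTheory Real Set Filter Topology
open Crest.Agent.T157.E Crest.Agent.T157.Casc Crest.Agent.T157.SL

namespace Wf99

open Wt87 Eg33

variable {Ω Θ : Type} [Fintype Ω] {w : Ω → ℝ}

/-- site kernels `u_j f f' + v_j` -/
theorem cf_site2 (hw : Wt w) (s : Sh) (L : List (Lv Ω)) (h : Ω → ℝ) {f : Ω → ℝ}
    (hf : ∀ y, |f y| ≤ 1) {ξ : (s.Lf → Ω) → ℝ} {A : ℝ} (hξ : ∀ x, |ξ x| ≤ A) {n : ℕ}
    {u v : ℕ → ℝ} {B V B' V' : ℝ} (hu : BV n B V u) (hv : BV n B' V' v) :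
    Cf n ((B + B') * A) ((V + V' + 3 * (B + B')) * A) fun τ : GT s =>
      TE w τ.sh L h (τ.ev (fun j x y => u j * (f x * f y) + v j) ξ) := by
  have h1 := ((cf_lev s hu).mul (cf_site hw s L h hf hξ n)).add
    ((cf_lev s hv).mul (cf_site hw s L h (f := fun _ => 1) (fun _ => by simp) hξ n))
  have e : (fun τ : GT s => TE w τ.sh L h (τ.ev (fun j x y => u j * (f x * f y) + v j) ξ)) =
      fun τ => u τ.j * TE w τ.sh L h (τ.ev (fun _ x y => f x * f y) ξ) +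
        v τ.j * TE w τ.sh L h (τ.ev (fun _ _ _ => 1 * 1) ξ) := by
    funext τ
    rw [← Law.TE_const_mul hw, ← Law.TE_const_mul hw, ← Law.TE_add hw]
    congr 1
    funext x
    simp only [GT.ev]
    ring
  rw [e]
  exact h1.mono (le_of_eq (by ring)) (le_of_eq (by ring))

theorem gq_mem {s : Sh} {n : ℕ} {c : GT s → ℝ} (I : Inv n c) (a : s.Lf) {j k : ℕ} (hj : j ≤ n)
    (hk : k ≤ n) : ∃ τ : GT s, τ.Mem s n ∧ τ.j = k ∧ c (gq s a j k) = c τ := by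
  rcases le_total k j with e | e
  · refine ⟨_, .g2 a a hj hk, ?_, (I.i2 a j a k e hj (shr_self _ _ _)).symm⟩
    show s.shr a a (min j k) = k
    rw [shr_self, min_eq_right e]
  · obtain ⟨i, rfl⟩ : ∃ i, k = i + j := ⟨k - j, by omega⟩
    exact ⟨_, .g3 a hk, rfl, rfl⟩

theorem wk_gm (hw : Wt w) (s : Sh) (a : s.Lf) (L : List (Lv Ω)) (h : Ω → ℝ)
    (F : (s.Lf → Ω) → ℝ) {S : Finset ℕ} {g c : ℕ → ℝ} {Y : ℕ → Ω → (Ω → ℝ) → ℝ}
    (hY : ∀ j x, Eg (Y j x)) {B A Γ : ℝ} (hB : 0 ≤ B) (hA : 0 ≤ A) (hΓ : 0 ≤ Γ)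
    (hg : ∀ j, 0 ≤ g j) (hS : ∀ j ≤ L.length, j ∉ S → g j = 0)
    (hc : ∀ j ≤ L.length, |c j| ≤ B * g j) (HA : TE w s L h (fun x => F x ^ 2) ≤ A ^ 2)
    (H : ∀ φ : ℕ → ℝ, (∀ y, |φ y| ≤ g y) → pE w L h (fun p x =>
      (∑ y ∈ S, dm L 0 y * φ y * Y y x (st L y h p)) ^ 2) ≤ Γ ^ 2) :
    Wk L (B * (A * Γ)) fun j => c j *
      tX w s L h fun g x => F x * Y j (x a) (stT s L h g a j) := fun m hm => by
  have h1 := abs_path_le hw s a L h F S (fun y => dm L 0 y * if y < m then c y / B else 0) hY hA hΓ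
    HA (H _ fun y => by
      split_ifs with e
      · rw [abs_div, abs_of_nonneg hB]
        exact div_le_of_le_mul₀ hB (hg y) ((hc y (by omega)).trans_eq (mul_comm _ _))
      · rw [abs_zero]; exact hg y)
  refine le_of_eq_of_le ?_ (mul_le_mul_of_nonneg_left h1 hB)
  rw [← abs_of_nonneg hB, ← abs_mul, abs_of_nonneg hB, Finset.mul_sum]
  congr 1
  have z : ∀ j ≤ L.length, B * g j = 0 → c j = 0 := fun j hj e =>
    abs_nonpos_iff.1 ((hc j hj).trans_eq e)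
  rw [← Finset.sum_subset (Finset.inter_subset_left (s₁ := Finset.range m) (s₂ := S)),
    ← Finset.sum_subset (Finset.inter_subset_right (s₁ := Finset.range m) (s₂ := S))]
  · refine Finset.sum_congr rfl fun y hy => ?_
    have hy' := Finset.mem_range.1 (Finset.mem_inter.1 hy).1
    rw [if_pos hy']
    rcases hB.eq_or_lt with e | e
    · have := z y (by omega) (by rw [← e, zero_mul])
      simp [this]
    · field_simp
  · intro y hy hy'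
    rw [if_neg fun e => hy' (Finset.mem_inter.2 ⟨Finset.mem_range.2 e, hy⟩)]
    simp
  · intro y hy hy'
    have := Finset.mem_range.1 hy
    have := z y (by omega)
      (by rw [hS y (by omega) fun e => hy' (Finset.mem_inter.2 ⟨hy, e⟩), mul_zero])
    simp [this]

/-- **one edge in weak form**, bounded invariant coefficient, hypothesis `GmB` -/
theorem sg_gm (hw : Wt w) {s : Sh} {M : List (Lv Θ)} (hM : Mono 0 M) {L : List (Lv Ω)}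
    (e : M.map Lv.m = L.map Lv.m) (h : Ω → ℝ) {K : ℕ → Ω → Ω → ℝ}
    (hK : ∀ j x y, K j x y = K j y x) (F : (s.Lf → Ω) → ℝ) {c : GT s → ℝ} (I : Inv L.length c)
    {S : Finset ℕ} {g : ℕ → ℝ} {B A Γ α : ℝ} (hB : 0 ≤ B) (hA : 0 ≤ A) (hΓ : 0 ≤ Γ) (hα : 0 ≤ α)
    (hg : ∀ j, 0 ≤ g j) (hS : ∀ j ≤ L.length, j ∉ S → g j = 0)
    (hc : ∀ τ : GT s, τ.Mem s L.length → |c τ| ≤ B * g τ.j)
    (HA : TE w s L h (fun x => F x ^ 2) ≤ A ^ 2) (H : GmB w L h K S g Γ)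
    (HO : ∀ τ : GT s, τ.Mem s L.length → Old s L.length τ.j →
      |c τ * TE w τ.sh L h (τ.ev K F)| ≤ α) :
    |sg (-1) M s fun τ => c τ * TE w τ.sh L h (τ.ev K F)| ≤
      (Fintype.card s.Lf : ℝ) ^ 2 * (14 * (B * (A * Γ)) + 9 * α) := by
  have cq : ∀ a {j k}, j ≤ L.length → k ≤ L.length → |c (gq s a j k)| ≤ B * g k :=
    fun a j k hj hk => by
      obtain ⟨τ, h1, h2, h3⟩ := gq_mem I a hj hk
      rw [h3, ← h2]
      exact hc τ h1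
  have y1 : ∀ j x, Eg fun z => Pf w (L.drop j) z (K j x) := fun j x => eg_Pf hw _ _
  rw [sg_tilt _ e]
  refine sg_weak (Cav22.mono_tilt e hM) (I.mul (inv_TE hw s L h hK F _)) hα HO (fun b => ?_)
    (fun a j hj => ?_) fun a => ?_
  · simp only [g1_eq hw, shr_self]
    exact wk_gm hw s b L h F y1 hB hA hΓ hg hS (fun j hj => (hc _ (.g1 b b hj)).trans_eq
      (congrArg (fun k => B * g k) (shr_self s b j))) HA fun φ hφ => (H φ hφ).1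
  · refine (wk_gm hw (s.graft a j) (s.nw a j) L h (fun x => F fun c => x (s.emb a j c)) y1 hB hA hΓ
      hg hS (fun k hk => cq a hj hk) ((TE_emb hw s a j L h fun x => F x ^ 2).trans_le HA)
      fun φ hφ => (H φ hφ).1).congr fun k _ => congrArg _ ?_
    refine Eq.trans ?_ ((g1_eq hw (s.graft a j) (s.nw a j) k (s.nw a j) L h (fun _ => K k)
      fun x => F fun c => x (s.emb a j c)))
    rfl
  · simp only [gq_eq hw s a le_rfl]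
    exact wk_gm hw s a L h F (Y := fun j _ z => qf (P w (L.drop j) z) (K j))
      (fun j _ => eg_qf hw _ _) hB hA hΓ hg hS (fun j hj => cq a hj hj) HA fun φ hφ => (H φ hφ).2

/-- `GmB` with `g = 1` gives the hypotheses of `sg_wf` -/
theorem G12_of_gmB {L : List (Lv Ω)} {h : Ω → ℝ} {K : ℕ → Ω → Ω → ℝ} {Γ : ℝ}
    (H : GmB w L h K (Finset.range (L.length + 1)) (fun _ => 1) Γ) {m : ℕ} (hm : m ≤ L.length + 1) :
    G1 w L h K m ≤ Γ ^ 2 ∧ G2 w L h K m ≤ Γ ^ 2 := by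
  have h1 := H (fun y => if y < m then 1 else 0) fun y => by split_ifs <;> simp
  have e : ∀ Y : ℕ → ℝ, ∑ y ∈ Finset.range (L.length + 1),
      dm L 0 y * (if y < m then 1 else 0) * Y y = ∑ y ∈ Finset.range m, dm L 0 y * Y y := fun Y => by
    simp only [mul_ite, mul_one, mul_zero, ite_mul, zero_mul]
    rw [← Finset.sum_filter]
    congr 1
    ext k
    simp only [Finset.mem_filter, Finset.mem_range]
    omega
  simp only [e] at h1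
  exact h1

section prd

variable {Ω₁ Ω₂ : Type} [Fintype Ω₁] [Fintype Ω₂] {w₁ : Ω₁ → ℝ} {w₂ : Ω₂ → ℝ}
  {L : List (Lv (Ω₁ × Ω₂))} {T : List (Lv Ω₁ × Lv Ω₂)}

theorem tilt_prd (H : List.Forall₂ Prd L T) : L.map Lv.m = (T.map Prod.fst).map Lv.m := by
  induction H with
  | nil => rfl
  | cons h _ ih => simp only [List.map_cons, ih, h.1]

/-- the last edge of a word on a product system -/
theorem Dop_prd (h₁ : Wt w₁) (h₂ : Wt w₂) (H : List.Forall₂ Prd L T) (M : List (Lv (Ω₁ × Ω₂)))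
    (K : ℕ → Ω₁ → Ω₁ → ℝ) (Z : ℕ → Ω₂ → Ω₂ → ℝ) (z₁ : Ω₁ → ℝ) (z₂ : Ω₂ → ℝ) (s : Sh)
    (G : (s.Lf → Ω₁) → ℝ) (ξ : (s.Lf → Ω₂) → ℝ) :
    Dop M (fun j x y => K j x.1 y.1 * Z j x.2 y.2) (TEf (pw2 w₁ w₂) L (ad z₁ z₂)) s (tens G ξ) =
      sg (-1) M s fun τ => TE w₂ τ.sh (T.map Prod.snd) z₂ (τ.ev Z ξ) *
        TE w₁ τ.sh (T.map Prod.fst) z₁ (τ.ev K G) := by
  rw [Dop_eq_sg]
  congr 1
  funext τ
  rw [GT.ev_tens, mul_comm]
  exact Law.TE_prd h₁ h₂ τ.sh H _ _ z₁ z₂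

/-- **the last edge of a word in weak form** -/
theorem abs_Dop_prd (h₁ : Wt w₁) (h₂ : Wt w₂) (H : List.Forall₂ Prd L T)
    {M : List (Lv (Ω₁ × Ω₂))} (hM : Mono 0 M) (e : M.map Lv.m = L.map Lv.m)
    {K : ℕ → Ω₁ → Ω₁ → ℝ} {Z : ℕ → Ω₂ → Ω₂ → ℝ} (hK : ∀ j x y, K j x y = K j y x)
    (hZ : ∀ j x y, Z j x y = Z j y x) (z₁ : Ω₁ → ℝ) (z₂ : Ω₂ → ℝ) (s : Sh)
    (G : (s.Lf → Ω₁) → ℝ) (ξ : (s.Lf → Ω₂) → ℝ) {S : Finset ℕ} {g : ℕ → ℝ} {B A Γ α : ℝ}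
    (hB : 0 ≤ B) (hA : 0 ≤ A) (hΓ : 0 ≤ Γ) (hα : 0 ≤ α) (hg : ∀ j, 0 ≤ g j)
    (hS : ∀ j ≤ L.length, j ∉ S → g j = 0)
    (hc : ∀ τ : GT s, τ.Mem s L.length →
      |TE w₂ τ.sh (T.map Prod.snd) z₂ (τ.ev Z ξ)| ≤ B * g τ.j)
    (HA : TE w₁ s (T.map Prod.fst) z₁ (fun x => G x ^ 2) ≤ A ^ 2)
    (HG : GmB w₁ (T.map Prod.fst) z₁ K S g Γ)
    (HO : ∀ τ : GT s, τ.Mem s L.length → Old s L.length τ.j →
      B * g τ.j * |TE w₁ τ.sh (T.map Prod.fst) z₁ (τ.ev K G)| ≤ α) :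
    |Dop M (fun j x y => K j x.1 y.1 * Z j x.2 y.2) (TEf (pw2 w₁ w₂) L (ad z₁ z₂)) s (tens G ξ)| ≤
      (Fintype.card s.Lf : ℝ) ^ 2 * (14 * (B * (A * Γ)) + 9 * α) := by
  have hl : L.length = (T.map Prod.fst).length := by rw [List.length_map, H.length_eq]
  rw [Dop_prd h₁ h₂ H]
  rw [hl] at hS hc HO
  refine sg_gm h₁ hM (e.trans (tilt_prd H)) z₁ hK G (inv_TE h₂ s _ z₂ hZ ξ _) hB hA hΓ hα hg hS hc
    HA HG fun τ hτ ho => le_trans ?_ (HO τ hτ ho)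
  rw [abs_mul]
  exact mul_le_mul_of_nonneg_right (hc τ hτ) (abs_nonneg _)

variable {r : ℕ}

/-- the conditional replica law of `Dr` as a graft sum -/
theorem nuc_Dr_eq (hw : Wt w) {L : List (Lv Ω)} (h : Ω → ℝ) {s : Sh} (e : Fin (r + 1) ≃ s.Lf)
    {S : ℕ → Ω → Ω → ℝ} {c : ℝ} (hc : ∀ y, S L.length y y = c) (F : RF Ω (r + 1)) :
    nuc w L h (sm s e L.length) 2 (Dr S F) =
      Dop L S (TEf w L h) s fun x => F (fun a => x (e a)) (sm s e L.length) := by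
  rw [← dM_eq hw ⟨s, e, rfl⟩ hc, ← Nu87.dT_eq_dM hw e S fun x => F x (sm s e L.length),
    dT_eq_sg hw s L h hc, Dop_eq_sg]
  rfl

/-- **one more edge in weak form, split-matrix frame** (Hölder at the old levels) -/
theorem abs_nuc_Dr (h₁ : Wt w₁) (h₂ : Wt w₂) (H : List.Forall₂ Prd L T) (hL : Mono 0 L)
    {K : ℕ → Ω₁ → Ω₁ → ℝ} {Z : ℕ → Ω₂ → Ω₂ → ℝ} (hK : ∀ j x y, K j x y = K j y x)
    (hZ : ∀ j x y, Z j x y = Z j y x) {c : ℝ}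
    (hc : ∀ y : Ω₁ × Ω₂, K L.length y.1 y.1 * Z L.length y.2 y.2 = c) (z₁ : Ω₁ → ℝ) (z₂ : Ω₂ → ℝ)
    {σ : SM (r + 1)} (hσ : Nu87.Rz L.length σ) (G : RF Ω₁ (r + 1)) (ξ : RF Ω₂ (r + 1))
    {S : Finset ℕ} {g : ℕ → ℝ} {B A Γ α p q : ℝ} (hpq : p.HolderConjugate q)
    (hA : 0 ≤ A) (hΓ : 0 ≤ Γ) (hα : 0 ≤ α) (hS : ∀ j ≤ L.length, j ∉ S → g j = 0)
    (hξ : ∀ x, |ξ x σ| ≤ B) (hg : ∀ j x y, |Z j x y| ≤ g j)
    (HA : TM w₁ (T.map Prod.fst) z₁ σ (fun x => G x σ ^ 2) ≤ A ^ 2)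
    (HG : GmB w₁ (T.map Prod.fst) z₁ K S g Γ)
    (HO : ∀ a b, a ≠ b → B * g (σ a b) *
      (TM w₁ (T.map Prod.fst) z₁ σ (fun x => |G x σ| ^ p) ^ (1 / p) *
        pi2 w₁ (T.map Prod.fst) (σ a b) (fun x y => |K (σ a b) x y| ^ q) z₁ ^ (1 / q)) ≤ α) :
    |nuc (pw2 w₁ w₂) L (ad z₁ z₂) σ 2 (Dr (fun j x y => K j x.1 y.1 * Z j x.2 y.2)
        fun x τ => G (fun a => (x a).1) τ * ξ (fun a => (x a).2) τ)| ≤
      ((r : ℝ) + 1) ^ 2 * (14 * (B * (A * Γ)) + 9 * α) := by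
  obtain ⟨s, e, rfl⟩ := hσ
  have hl : L.length = (T.map Prod.fst).length := by rw [List.length_map, H.length_eq]
  obtain ⟨y, -⟩ := Finset.exists_ne_zero_of_sum_ne_zero h₂.pos.ne'
  have hB : 0 ≤ B := (abs_nonneg _).trans (hξ fun _ => y)
  have g0 : ∀ j, 0 ≤ g j := fun j => (abs_nonneg _).trans (hg j y y)
  have tm : ∀ F : (Fin (r + 1) → Ω₁) → ℝ, TM w₁ (T.map Prod.fst) z₁ (sm s e L.length) F =
      TE w₁ s (T.map Prod.fst) z₁ fun x => F fun a => x (e a) := fun F => by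
    rw [hl]; exact Nu87.TM_sm h₁ s _ z₁ e.injective F
  have hN : (Fintype.card s.Lf : ℝ) = r + 1 := by
    rw [← Fintype.card_congr e, Fintype.card_fin]; push_cast; rfl
  rw [nuc_Dr_eq (Law.wt_pw2 h₁ h₂) _ e hc, ← hN]
  simp only [tm] at HA HO
  refine abs_Dop_prd h₁ h₂ H hL rfl hK hZ z₁ z₂ s
    (fun x => G (fun a => x (e a)) (sm s e L.length))
    (fun x => ξ (fun a => x (e a)) (sm s e L.length)) hB hA hΓ hα g0 hS (fun τ _ => ?_) HA HG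
    fun τ hτ ho => ?_
  · refine (abs_TE_le' h₂ _ _ z₂ (F' := fun _ => B * g τ.j) fun x => ?_).trans
      (Law.TE_const h₂ _ _ z₂ _).le
    rw [GT.ev, abs_mul]
    exact mul_le_mul (hξ _) (hg _ _ _) (abs_nonneg _) hB
  · obtain ⟨a, b, hab, h1⟩ := ho
    have h2 := HO (e.symm a) (e.symm b) fun h => hab (e.symm.injective h)
    have h3 : sm s e L.length (e.symm a) (e.symm b) = τ.j := by
      rw [sm, e.apply_symm_apply, e.apply_symm_apply, h1]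
    rw [h3] at h2
    exact (mul_le_mul_of_nonneg_left (abs_ev_le h₁ (hl ▸ hτ) z₁ hpq K _)
      (mul_nonneg hB (g0 _))).trans h2

/-- the same, averaged over the base -/
theorem abs_nu_Dr (h₁ : Wt w₁) (h₂ : Wt w₂) (H : List.Forall₂ Prd L T) (hL : Mono 0 L)
    {K : ℕ → Ω₁ → Ω₁ → ℝ} {Z : ℕ → Ω₂ → Ω₂ → ℝ} (hK : ∀ j x y, K j x y = K j y x)
    (hZ : ∀ j x y, Z j x y = Z j y x) {c : ℝ}
    (hc : ∀ y : Ω₁ × Ω₂, K L.length y.1 y.1 * Z L.length y.2 y.2 = c) (z₁ : Ω₁ → ℝ) (z₂ : Ω₂ → ℝ)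
    (G : RF Ω₁ (r + 1)) (ξ : RF Ω₂ (r + 1)) {S : Finset ℕ} {g : ℕ → ℝ} {Γ p q : ℝ}
    {B A α : SM (r + 1) → ℝ} (hpq : p.HolderConjugate q) (hA : ∀ σ, 0 ≤ A σ) (hΓ : 0 ≤ Γ)
    (hα : ∀ σ, 0 ≤ α σ) (hS : ∀ j ≤ L.length, j ∉ S → g j = 0)
    (hξ : ∀ σ, Nu87.Rz L.length σ → ∀ x, |ξ x σ| ≤ B σ) (hg : ∀ j x y, |Z j x y| ≤ g j)
    (HA : ∀ σ, Nu87.Rz L.length σ → TM w₁ (T.map Prod.fst) z₁ σ (fun x => G x σ ^ 2) ≤ A σ ^ 2)
    (HG : GmB w₁ (T.map Prod.fst) z₁ K S g Γ)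
    (HO : ∀ σ, Nu87.Rz L.length σ → ∀ a b, a ≠ b → B σ * g (σ a b) *
      (TM w₁ (T.map Prod.fst) z₁ σ (fun x => |G x σ| ^ p) ^ (1 / p) *
        pi2 w₁ (T.map Prod.fst) (σ a b) (fun x y => |K (σ a b) x y| ^ q) z₁ ^ (1 / q)) ≤ α σ) :
    |nu (pw2 w₁ w₂) L (ad z₁ z₂) (r + 2) (Dr (fun j x y => K j x.1 y.1 * Z j x.2 y.2)
        fun x τ => G (fun a => (x a).1) τ * ξ (fun a => (x a).2) τ)| ≤
      avm L r fun σ => ((r : ℝ) + 1) ^ 2 * (14 * (B σ * (A σ * Γ)) + 9 * α σ) := by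
  have key := fun σ (hσ : Nu87.Rz L.length σ) => abs_le.1 (abs_nuc_Dr h₁ h₂ H hL hK hZ hc z₁ z₂ hσ
    G ξ hpq (hA σ) hΓ (hα σ) hS (hξ σ hσ) hg (HA σ hσ) HG (HO σ hσ))
  rw [nu_nuc (k := 2), abs_le]
  refine ⟨?_, Nu87.avm_mono hL r fun σ hσ => (key σ hσ).2⟩
  rw [← neg_one_mul, ← Nu87.avm_mul]
  exact Nu87.avm_mono hL r fun σ hσ => by rw [neg_one_mul]; exact (key σ hσ).1

end prd

end Wf99

end Crest.Agent.T156.Cas

end
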