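import Crest.Agent.T156.CDef_40
import Crest.Agent.T156.Wf_99
import Crest.Agent.T156.Ker_15

/-!
# Row 156, block C (helper55): one upper letter in weak form, on the data of `CDef_40`

`DV` = bounded, variation weighted by a clock off finitely many levels; `abel` = summation by parts
on tails; `path_cen / path_env` = one path of any shape; `sg_core` = the signed graft sum off the
old labels; `cv_site` = the site coefficient is admissible; `aU_cen / aU_env` = the letter `aU`.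
-/

set_option autoImplicit false
set_option linter.all false

noncomputable section

namespace Crest.Agent.T156.Cas.Cw55

open MeasureTheory Real Set Filter Topology
open Crest.Agent.T157.E Crest.Agent.T157.Casc Crest.Agent.T157.SL
open Crest.ProbabilityR.SpinGlassDynamics (spin)
open Wf99 Wt87

/-! ### numbers -/

/-- bounded by `B` on `(j0, K)`, increments at most `B d` off `r` levels -/
structure DV (d : ℕ → ℝ) (j0 K : ℕ) (B : ℝ) (r : ℕ) (c : ℕ → ℝ) : Prop where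
  nn : 0 ≤ B
  bd : ∀ t, j0 < t → t < K → |c t| ≤ B
  var : ∃ T : Finset ℕ, T.card ≤ r ∧
    ∀ t, j0 + 1 < t → t < K → t ∉ T → |c t - c (t - 1)| ≤ B * d t

section num
variable {d : ℕ → ℝ} {j0 K : ℕ} {B B' : ℝ} {r r' : ℕ} {c c' : ℕ → ℝ}

theorem DV.mono (hd : ∀ t, j0 + 1 < t → t < K → 0 ≤ d t) (h : DV d j0 K B r c) (hB : B ≤ B')
    (hr : r ≤ r') : DV d j0 K B' r' c := by
  obtain ⟨T, h1, h2⟩ := h.var
  exact ⟨h.nn.trans hB, fun t a b => (h.bd t a b).trans hB, T, h1.trans hr, fun t a b e =>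
    (h2 t a b e).trans (mul_le_mul_of_nonneg_right hB (hd t a b))⟩

theorem DV.up (h : DV d j0 K B r c) {j1 : ℕ} (hj : j0 ≤ j1) : DV d j1 K B r c := by
  obtain ⟨T, h1, h2⟩ := h.var
  exact ⟨h.nn, fun t a b => h.bd t (by omega) b, T, h1, fun t a b e => h2 t (by omega) b e⟩

theorem DV.congr (h : DV d j0 K B r c) (e : ∀ t, j0 < t → t < K → c' t = c t) :
    DV d j0 K B r c' := by
  obtain ⟨T, h1, h2⟩ := h.var
  exact ⟨h.nn, fun t a b => e t a b ▸ h.bd t a b, T, h1, fun t a b x => by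
    rw [e t (by omega) b, e (t - 1) (by omega) (by omega)]; exact h2 t a b x⟩

theorem DV.add (h : DV d j0 K B r c) (h' : DV d j0 K B' r' c') :
    DV d j0 K (B + B') (r + r') fun t => c t + c' t := by
  obtain ⟨T, h1, h2⟩ := h.var
  obtain ⟨T', h1', h2'⟩ := h'.var
  refine ⟨add_nonneg h.nn h'.nn, fun t a b => (abs_add_le _ _).trans
    (add_le_add (h.bd t a b) (h'.bd t a b)), T ∪ T', (Finset.card_union_le _ _).trans
      (add_le_add h1 h1'), fun t a b e => ?_⟩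
  rw [Finset.mem_union, not_or] at e
  rw [add_sub_add_comm, add_mul]
  exact (abs_add_le _ _).trans (add_le_add (h2 t a b e.1) (h2' t a b e.2))

theorem DV.mul (h : DV d j0 K B r c) (h' : DV d j0 K B' r' c') :
    DV d j0 K (2 * (B * B')) (r + r') fun t => c t * c' t := by
  obtain ⟨T, h1, h2⟩ := h.var
  obtain ⟨T', h1', h2'⟩ := h'.var
  have p := mul_nonneg h.nn h'.nn
  refine ⟨by linarith, fun t a b => ?_, T ∪ T', (Finset.card_union_le _ _).trans
      (add_le_add h1 h1'), fun t a b e => ?_⟩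
  · rw [abs_mul]
    linarith [mul_le_mul (h.bd t a b) (h'.bd t a b) (abs_nonneg _) h.nn]
  rw [Finset.mem_union, not_or] at e
  rw [show c t * c' t - c (t - 1) * c' (t - 1) =
    (c t - c (t - 1)) * c' t + c (t - 1) * (c' t - c' (t - 1)) by ring]
  refine (abs_add_le _ _).trans ?_
  rw [abs_mul, abs_mul]
  have x1 := mul_le_mul (h2 t a b e.1) (h'.bd t (by omega) b) (abs_nonneg _)
    ((abs_nonneg _).trans (h2 t a b e.1))
  have x2 := mul_le_mul (h.bd (t - 1) (by omega) (by omega)) (h2' t a b e.2) (abs_nonneg _) h.nn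
  linarith

theorem DV.smul (h : DV d j0 K B r c) (a : ℝ) : DV d j0 K (|a| * B) r fun t => a * c t := by
  obtain ⟨T, h1, h2⟩ := h.var
  refine ⟨mul_nonneg (abs_nonneg _) h.nn, fun t x y => ?_, T, h1, fun t x y e => ?_⟩
  · rw [abs_mul]; exact mul_le_mul_of_nonneg_left (h.bd t x y) (abs_nonneg _)
  · rw [← mul_sub, abs_mul, mul_assoc]
    exact mul_le_mul_of_nonneg_left (h2 t x y e) (abs_nonneg _)

theorem dv_const (hd : ∀ t, j0 + 1 < t → t < K → 0 ≤ d t) (a : ℝ) :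
    DV d j0 K |a| 0 fun _ => a :=
  ⟨abs_nonneg _, fun _ _ _ => le_rfl, ∅, le_rfl, fun t x y _ => by
    rw [sub_self, abs_zero]; exact mul_nonneg (abs_nonneg _) (hd t x y)⟩

/-- the indicator of the levels above `j0` off `T` -/
def off (j0 : ℕ) (T : Finset ℕ) (t : ℕ) : ℝ := if j0 < t ∧ t ∉ T then 1 else 0

theorem dv_off (hd : ∀ t, j0 + 1 < t → t < K → 0 ≤ d t) (T : Finset ℕ) :
    DV d j0 K 1 (2 * T.card) (off j0 T) := by
  refine ⟨zero_le_one, fun t _ _ => by unfold off; split_ifs <;> simp, T ∪ T.image (· + 1),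
    (Finset.card_union_le _ _).trans (by have := Finset.card_image_le (s := T) (f := (· + 1)); omega),
    fun t x y e => ?_⟩
  rw [Finset.mem_union, not_or] at e
  have e2 : t - 1 ∉ T := fun h => e.2 (Finset.mem_image.2 ⟨_, h, by omega⟩)
  rw [off, off, if_pos ⟨by omega, e.1⟩, if_pos ⟨by omega, e2⟩, sub_self, abs_zero, one_mul]
  exact hd t x y

/-- the indicator of an interval -/
theorem dv_Ico (hd : ∀ t, j0 + 1 < t → t < K → 0 ≤ d t) (a b : ℕ) :
    DV d j0 K 1 2 fun t => if a ≤ t ∧ t < b then 1 else 0 := by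
  refine ⟨zero_le_one, fun t _ _ => by split_ifs <;> simp, {a, b}, Finset.card_le_two,
    fun t x y e => ?_⟩
  simp only [Finset.mem_insert, Finset.mem_singleton, not_or] at e
  have : (a ≤ t ∧ t < b) ↔ (a ≤ t - 1 ∧ t - 1 < b) := by omega
  simp only [this, sub_self, abs_zero, one_mul]
  exact hd t x y

theorem abel_eq (Y c : ℕ → ℝ) (a K : ℕ) : ∀ m, a + 1 ≤ m → m ≤ K →
    ∑ t ∈ Finset.Ico a m, c t * Y t = c a * ∑ t ∈ Finset.Ico a K, Y t -
      c (m - 1) * ∑ t ∈ Finset.Ico m K, Y t +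
      ∑ t ∈ Finset.Ico (a + 1) m, (c t - c (t - 1)) * ∑ u ∈ Finset.Ico t K, Y u := by
  intro m h1
  induction m, h1 using Nat.le_induction with
  | base =>
    intro h2
    rw [Finset.sum_eq_sum_Ico_succ_bot (by omega : a < K) Y]
    simp
    ring
  | succ m h ih =>
    intro h2
    rw [Finset.sum_Ico_succ_top (by omega), Finset.sum_Ico_succ_top h, ih (by omega),
      Finset.sum_eq_sum_Ico_succ_bot (by omega : m < K) Y, Nat.add_sub_cancel]
    ring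

/-- the weak size -/
def fz (d F : ℕ → ℝ) (j0 K : ℕ) : ℝ := F (j0 + 1) + ∑ t ∈ Finset.Ioo j0 K, d t * F t

/-- **summation by parts on tails** -/
theorem abel (hd : ∀ t, j0 < t → t < K → 0 ≤ d t) (h : DV d j0 K B r c) {Y F : ℕ → ℝ} {ε : ℝ}
    (hε : 0 ≤ ε) (F0 : ∀ j, 0 ≤ F j) (Fa : ∀ j, F (j + 1) ≤ F j)
    (hY : ∀ j, j0 < j → j ≤ K → |∑ t ∈ Finset.Ico j K, Y t| ≤ F j + ε) {m : ℕ} (hm : m ≤ K) :
    |∑ t ∈ Finset.Ico (j0 + 1) m, c t * Y t| ≤
      2 * B * ((r + 1) * fz d F j0 K + (K + 1) * ε) := by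
  obtain ⟨T, h1, h2⟩ := h.var
  have B0 := h.nn
  have an : Antitone F := antitone_nat_of_succ_le Fa
  have s0 : 0 ≤ ∑ t ∈ Finset.Ioo j0 K, d t * F t := Finset.sum_nonneg fun t ht =>
    mul_nonneg (hd t (Finset.mem_Ioo.1 ht).1 (Finset.mem_Ioo.1 ht).2) (F0 t)
  have f0 := F0 (j0 + 1)
  rcases le_or_gt m (j0 + 1) with e | e
  · rw [Finset.Ico_eq_empty (by omega), Finset.sum_empty, abs_zero, fz]
    positivity
  rw [abel_eq Y c _ K m e hm]
  have x1 : |c (j0 + 1) * ∑ t ∈ Finset.Ico (j0 + 1) K, Y t| ≤ B * (F (j0 + 1) + ε) := by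
    rw [abs_mul]
    exact mul_le_mul (h.bd _ (by omega) (by omega)) (hY _ (by omega) (by omega)) (abs_nonneg _) B0
  have x2 : |c (m - 1) * ∑ t ∈ Finset.Ico m K, Y t| ≤ B * (F (j0 + 1) + ε) := by
    rw [abs_mul]
    exact mul_le_mul (h.bd _ (by omega) (by omega)) ((hY _ (by omega) hm).trans
      (add_le_add (an e.le) le_rfl)) (abs_nonneg _) B0
  have x3 : |∑ t ∈ Finset.Ico (j0 + 1 + 1) m, (c t - c (t - 1)) * ∑ u ∈ Finset.Ico t K, Y u| ≤
      ∑ t ∈ Finset.Ico (j0 + 1 + 1) m, ((if t ∈ T then 2 * B * F (j0 + 1) else 0) +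
        B * (d t * F t) + 2 * B * ε) := by
    refine (Finset.abs_sum_le_sum_abs _ _).trans (Finset.sum_le_sum fun t ht => ?_)
    have ht' := Finset.mem_Ico.1 ht
    have y1 : |c t - c (t - 1)| ≤ 2 * B := (abs_sub _ _).trans (by
      linarith [h.bd t (by omega) (by omega), h.bd (t - 1) (by omega) (by omega)])
    have y2 := hY t (by omega) (by omega)
    have y3 := mul_nonneg B0 (mul_nonneg (hd t (by omega) (by omega)) (F0 t))
    rw [abs_mul]
    refine (mul_le_mul_of_nonneg_left y2 (abs_nonneg _)).trans ?_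
    rw [mul_add]
    refine add_le_add ?_ (mul_le_mul_of_nonneg_right y1 hε)
    split_ifs with x
    · linarith [mul_le_mul y1 (an (by omega : j0 + 1 ≤ t)) (F0 t) (by linarith)]
    · linarith [mul_le_mul_of_nonneg_right (h2 t (by omega) (by omega) x) (F0 t)]
  simp only [Finset.sum_add_distrib, ← Finset.mul_sum, Finset.sum_const, nsmul_eq_mul] at x3
  have x4 : ∑ t ∈ Finset.Ico (j0 + 1 + 1) m, (if t ∈ T then 2 * B * F (j0 + 1) else 0) ≤
      r * (2 * B * F (j0 + 1)) := by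
    rw [← Finset.sum_filter, Finset.sum_const, nsmul_eq_mul]
    refine mul_le_mul_of_nonneg_right (Nat.cast_le.2 (le_trans (Finset.card_le_card
      fun t ht => (Finset.mem_filter.1 ht).2) h1)) (by positivity)
  have x5 : ∑ t ∈ Finset.Ico (j0 + 1 + 1) m, d t * F t ≤ ∑ t ∈ Finset.Ioo j0 K, d t * F t :=
    Finset.sum_le_sum_of_subset_of_nonneg (fun t ht => by
      rw [Finset.mem_Ico] at ht; rw [Finset.mem_Ioo]; omega) fun t ht _ =>
      mul_nonneg (hd t (Finset.mem_Ioo.1 ht).1 (Finset.mem_Ioo.1 ht).2) (F0 t)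
  have x6 : ((Finset.Ico (j0 + 1 + 1) m).card : ℝ) ≤ K := by
    rw [Nat.card_Ico]; exact_mod_cast (by omega)
  have x7 := mul_le_mul_of_nonneg_right x6 (by positivity : 0 ≤ 2 * B * ε)
  have x8 := mul_le_mul_of_nonneg_left x5 B0
  have x9 : 0 ≤ B * (r * ∑ t ∈ Finset.Ioo j0 K, d t * F t) := by positivity
  have x10 := mul_nonneg B0 s0
  refine (abs_add_le _ _).trans ((add_le_add (abs_sub _ _) x3).trans ?_)
  rw [fz]
  nlinarith

end num

/-! ### one path of a shape -/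

variable {Ω Θ : Type} [Fintype Ω] {w : Ω → ℝ}

theorem egP_sum {Y : ℕ → Ω → (Ω → ℝ) → ℝ} (hY : ∀ j x, Eg (Y j x)) (S : Finset ℕ) (μ : ℕ → ℝ)
    (y : Ω) {κ : Type} (a : κ) : EgP fun p : Pa κ Ω => ∑ j ∈ S, μ j * Y j y (p a j) :=
  .sum _ fun j _ => (EgP.const _).mul (.state (hY j y) a j)

theorem tX_marg (hw : Wt w) (s : Sh) (a : s.Lf) (L : List (Lv Ω)) (h : Ω → ℝ)
    {φ : (ℕ → Ω → ℝ) → Ω → ℝ} (hφ : ∀ y, EgP fun p : Pa Unit Ω => φ (p ()) y) :
    tX w s L h (fun g x => φ (stT s L h g a) (x a)) =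
      pE w L h fun g x => φ (fun j => st L j h g) x :=
  (tF_marg hw s a L h (fun p y => φ (p ()) y) hφ).trans (Tr.tX_one w L h _)

theorem sum_tX (hw : Wt w) (s : Sh) (a : s.Lf) (L : List (Lv Ω)) (h : Ω → ℝ)
    {G : (NT s L → ℝ) → (s.Lf → Ω) → ℝ} (hG : ∀ x, Eg fun g => G g x) (S : Finset ℕ) (μ : ℕ → ℝ)
    {Y : ℕ → Ω → (Ω → ℝ) → ℝ} (hY : ∀ j x, Eg (Y j x)) :
    ∑ j ∈ S, μ j * tX w s L h (fun g x => G g x * Y j (x a) (stT s L h g a j)) =
      tX w s L h fun g x => G g x * ∑ j ∈ S, μ j * Y j (x a) (stT s L h g a j) := by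
  have e1 : ∀ j x, Eg fun g => Y j x (stT s L h g a j) := fun j x =>
    Sp38.eg_node s L h (hY j x) a j
  simp only [← Sd.tX_const_mul]
  rw [← Sd.tX_sum hw s L h S fun j _ x => ((hG x).mul (e1 j (x a))).const_mul _]
  simp only [mul_left_comm (μ _), ← Finset.mul_sum]

/-- a tail in `L²` -/
theorem tail_cen (hw : Wt w) (s : Sh) (a : s.Lf) (L : List (Lv Ω)) (h : Ω → ℝ)
    {G : (NT s L → ℝ) → (s.Lf → Ω) → ℝ} (hG : ∀ x, Eg fun g => G g x) (S : Finset ℕ) (μ : ℕ → ℝ)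
    {Y : ℕ → Ω → (Ω → ℝ) → ℝ} (hY : ∀ j x, Eg (Y j x)) {A Γ : ℝ} (hA : 0 ≤ A) (hΓ : 0 ≤ Γ)
    (HA : tX w s L h (fun g x => G g x ^ 2) ≤ A ^ 2)
    (HΓ : pE w L h (fun g x => (∑ j ∈ S, μ j * Y j x (st L j h g)) ^ 2) ≤ Γ ^ 2) :
    |∑ j ∈ S, μ j * tX w s L h fun g x => G g x * Y j (x a) (stT s L h g a j)| ≤ A * Γ := by
  rw [sum_tX hw s a L h hG S μ hY]
  refine tX_cs hw s L h hG (fun x => (egP_sum hY S μ (x a) a).stT L h) hA hΓ HA
    (le_of_eq_of_le ?_ HΓ)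
  exact tX_marg hw s a L h (φ := fun p y => (∑ j ∈ S, μ j * Y j y (p j)) ^ 2) fun y => by
    simpa only [sq] using (egP_sum hY S μ y ()).mul (egP_sum hY S μ y ())

theorem egP_exc {κ : Type} {Φ : Pa κ Ω → ℝ} (h : EgP Φ) (c : ℝ) :
    EgP fun p => max (|Φ p| - c) 0 := fun ι _ p hp => by
  have h1 := ((h ι p hp).abs).sub (Eg.const c)
  have e : (fun g => max (|Φ (p g)| - c) 0) =
      fun g => 1 / 2 * ((|Φ (p g)| - c) + |(|Φ (p g)| - c)|) := by
    funext g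
    rcases le_total (|Φ (p g)| - c) 0 with x | x
    · rw [max_eq_right x, abs_of_nonpos x]; ring
    · rw [max_eq_left x, abs_of_nonneg x]; ring
  rw [e]
  exact (h1.add h1.abs).const_mul _

/-- a tail with an envelope -/
theorem tail_env (hw : Wt w) (s : Sh) (a : s.Lf) (L : List (Lv Ω)) (h : Ω → ℝ)
    {G : (NT s L → ℝ) → (s.Lf → Ω) → ℝ} (hG : ∀ x, Eg fun g => G g x) (S : Finset ℕ) (μ : ℕ → ℝ)
    {Y : ℕ → Ω → (Ω → ℝ) → ℝ} (hY : ∀ j x, Eg (Y j x)) {A A' F ε : ℝ} (hF : 0 ≤ F) (hA' : 0 ≤ A')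
    (HA : tX w s L h (fun g x => |G g x|) ≤ A) (HA' : ∀ g x, |G g x| ≤ A')
    (HF : pE w L h (fun g x => max (|∑ j ∈ S, μ j * Y j x (st L j h g)| - F) 0) ≤ ε) :
    |∑ j ∈ S, μ j * tX w s L h fun g x => G g x * Y j (x a) (stT s L h g a j)| ≤
      A * F + A' * ε := by
  rw [sum_tX hw s a L h hG S μ hY]
  have e1 := fun x : s.Lf → Ω => (egP_sum hY S μ (x a) a).stT L h
  have e2 := fun x : s.Lf → Ω => (egP_exc (egP_sum hY S μ (x a) a) F).stT L h
  have e3 := tX_marg hw s a L h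
    (φ := fun p y => max (|∑ j ∈ S, μ j * Y j y (p j)| - F) 0) fun y =>
      egP_exc (egP_sum hY S μ y ()) F
  have key : ∀ σ : ℝ, |σ| ≤ 1 → tX w s L h (fun g x => σ * (G g x *
      ∑ j ∈ S, μ j * Y j (x a) (stT s L h g a j))) ≤ A * F + A' * ε := fun σ hσ => by
    refine (Sd.tX_mono hw s L h (fun x => ((hG x).mul (e1 x)).const_mul σ)
      (fun x => ((hG x).abs.const_mul F).add ((e2 x).const_mul A')) fun g x => ?_).trans ?_
    · set Z := ∑ j ∈ S, μ j * Y j (x a) (stT s L h g a j)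
      have y1 : σ * (G g x * Z) ≤ |G g x| * |Z| := (le_abs_self _).trans (by
        rw [abs_mul, abs_mul]
        exact mul_le_of_le_one_left (by positivity) hσ)
      have y2 : |Z| ≤ F + max (|Z| - F) 0 := by linarith [le_max_left (|Z| - F) 0]
      have y3 := mul_le_mul_of_nonneg_left y2 (abs_nonneg (G g x))
      have y4 := mul_le_mul_of_nonneg_right (HA' g x) (le_max_right (|Z| - F) 0)
      show _ ≤ F * |G g x| + A' * max (|Z| - F) 0
      linarith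
    · rw [Sd.tX_add hw s L h (fun x => (hG x).abs.const_mul F) fun x => (e2 x).const_mul A',
        Sd.tX_const_mul, Sd.tX_const_mul, e3, mul_comm F]
      exact add_le_add (mul_le_mul_of_nonneg_right HA hF) (mul_le_mul_of_nonneg_left HF hA')
  have k1 := key 1 (by simp)
  have k2 := key (-1) (by simp)
  rw [Sd.tX_const_mul] at k1 k2
  exact abs_le.2 ⟨by linarith, by linarith⟩

/-! ### the signed graft sum off the old labels -/

/-- admissible coefficients of a graft sum -/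
structure CV {s : Sh} (d : ℕ → ℝ) (j0 K : ℕ) (B : ℝ) (r : ℕ) (c : GT s → ℝ) : Prop where
  inv : Inv K c
  v1 : ∀ b, DV d j0 K B r fun j => c (.g1 s b j b)
  v2 : ∀ a j, j ≤ K → DV d j0 K B r fun k => c (Wf99.gq s a j k)
  v3 : ∀ a, DV d j0 K B r fun j => c (Wf99.gq s a j j)

section cv
variable {s : Sh} {d : ℕ → ℝ} {j0 K : ℕ} {B B' : ℝ} {r r' : ℕ} {c c' : GT s → ℝ}

theorem CV.mono (hd : ∀ t, j0 + 1 < t → t < K → 0 ≤ d t) (h : CV d j0 K B r c) (hB : B ≤ B')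
    (hr : r ≤ r') : CV d j0 K B' r' c :=
  ⟨h.inv, fun b => (h.v1 b).mono hd hB hr, fun a j x => (h.v2 a j x).mono hd hB hr,
    fun a => (h.v3 a).mono hd hB hr⟩

theorem CV.up (h : CV d j0 K B r c) {j1 : ℕ} (hj : j0 ≤ j1) : CV d j1 K B r c :=
  ⟨h.inv, fun b => (h.v1 b).up hj, fun a j x => (h.v2 a j x).up hj, fun a => (h.v3 a).up hj⟩

theorem CV.add (h : CV d j0 K B r c) (h' : CV d j0 K B' r' c') :
    CV d j0 K (B + B') (r + r') fun τ => c τ + c' τ :=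
  ⟨h.inv.comp₂ h'.inv (· + ·), fun b => (h.v1 b).add (h'.v1 b),
    fun a j x => (h.v2 a j x).add (h'.v2 a j x), fun a => (h.v3 a).add (h'.v3 a)⟩

theorem CV.mul (h : CV d j0 K B r c) (h' : CV d j0 K B' r' c') :
    CV d j0 K (2 * (B * B')) (r + r') fun τ => c τ * c' τ :=
  ⟨h.inv.mul h'.inv, fun b => (h.v1 b).mul (h'.v1 b),
    fun a j x => (h.v2 a j x).mul (h'.v2 a j x), fun a => (h.v3 a).mul (h'.v3 a)⟩

theorem cv_lev (s : Sh) {φ : ℕ → ℝ} (h : DV d j0 K B r φ) : CV d j0 K B r fun τ : GT s => φ τ.j :=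
  ⟨inv_lev s K φ, fun b => h.congr fun k _ _ => congrArg φ (shr_self s b k), fun _ _ _ => h,
    fun _ => h⟩

end cv

theorem wk_of {M : List (Lv Θ)} (h0 : dm M 0 M.length = 0) {d : ℕ → ℝ} {j0 : ℕ} {B : ℝ} {r : ℕ}
    {c T F : ℕ → ℝ} {ε : ℝ} (hd : ∀ t, j0 < t → t < M.length → 0 ≤ d t)
    (h : DV d j0 M.length B r c) (hc : ∀ t ≤ j0, c t = 0) (hε : 0 ≤ ε) (F0 : ∀ j, 0 ≤ F j)
    (Fa : ∀ j, F (j + 1) ≤ F j) (hY : ∀ j, j0 < j → j ≤ M.length →
      |∑ t ∈ Finset.Ico j M.length, dm M 0 t * T t| ≤ F j + ε) :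
    Wk M (2 * B * ((r + 1) * fz d F j0 M.length + (M.length + 1) * ε)) fun k => c k * T k :=
  fun m hm => by
    refine le_of_eq_of_le (congrArg _ ?_) (abel hd h hε F0 Fa hY (min_le_right m M.length))
    simp only [mul_left_comm (dm M 0 _)]
    refine (Finset.sum_subset (fun t ht => ?_) fun t ht ht' => ?_).symm
    · rw [Finset.mem_Ico] at ht; rw [Finset.mem_range]; omega
    · rw [Finset.mem_Ico] at ht'; rw [Finset.mem_range] at ht
      rcases le_or_gt t j0 with e | e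
      · rw [hc t e, zero_mul]
      · rw [show t = M.length by omega, h0, zero_mul, mul_zero]

/-- **the graft sum off the old labels**: `φ` vanishes up to `j0` and at the old labels -/
theorem sg_core {s : Sh} {M : List (Lv Θ)} (hM : Mono 0 M) (h0 : dm M 0 M.length = 0)
    {d : ℕ → ℝ} {j0 : ℕ} {B B' : ℝ} {r r' : ℕ} {φ F : ℕ → ℝ} {c Φ : GT s → ℝ} {ε : ℝ}
    (hd : ∀ t, j0 < t → t < M.length → 0 ≤ d t) (hφ : DV d j0 M.length B' r' φ)
    (z1 : ∀ t ≤ j0, φ t = 0) (z2 : ∀ t, Old s M.length t → φ t = 0)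
    (hc : CV d j0 M.length B r c) (I : Inv M.length Φ) (hε : 0 ≤ ε) (F0 : ∀ j, 0 ≤ F j)
    (Fa : ∀ j, F (j + 1) ≤ F j)
    (W1 : ∀ b j, j0 < j → j ≤ M.length →
      |∑ t ∈ Finset.Ico j M.length, dm M 0 t * Φ (.g1 s b t b)| ≤ F j + ε)
    (W2 : ∀ a i, i ≤ M.length → ∀ j, j0 < j → j ≤ M.length →
      |∑ t ∈ Finset.Ico j M.length, dm M 0 t * Φ (Wf99.gq s a i t)| ≤ F j + ε)
    (W3 : ∀ a j, j0 < j → j ≤ M.length →
      |∑ t ∈ Finset.Ico j M.length, dm M 0 t * Φ (Wf99.gq s a t t)| ≤ F j + ε) :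
    |sg (-1) M s fun τ => φ τ.j * c τ * Φ τ| ≤ 56 * (Fintype.card s.Lf : ℝ) ^ 2 * (B' * B) *
      (((r' + r : ℕ) + 1) * fz d F j0 M.length + (M.length + 1) * ε) := by
  have C := (cv_lev s hφ).mul hc
  refine (sg_weak hM (C.inv.mul I) le_rfl (fun τ _ ho => by rw [z2 _ ho]; simp)
    (fun b => wk_of h0 hd (C.v1 b) (fun t ht => ?_) hε F0 Fa (W1 b))
    (fun a j hj => wk_of h0 hd (C.v2 a j hj) (fun t ht => ?_) hε F0 Fa (W2 a j hj))
    fun a => wk_of h0 hd (C.v3 a) (fun t ht => ?_) hε F0 Fa (W3 a)).trans_eq (by ring)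
  · show φ (s.shr b b t) * _ = 0
    rw [shr_self, z1 t ht, zero_mul]
  · show φ t * _ = 0
    rw [z1 t ht, zero_mul]
  · show φ t * _ = 0
    rw [z1 t ht, zero_mul]

/-- the three families of terms are path functionals -/
theorem three (hw : Wt w) (s : Sh) (L : List (Lv Ω)) (h : Ω → ℝ) (K : ℕ → Ω → Ω → ℝ)
    (G : (s.Lf → Ω) → ℝ) (a : s.Lf) :
    (∀ t, TE w (GT.g1 s a t a).sh L h ((GT.g1 s a t a).ev K G) = tX w s L h fun g x =>
      G x * Pf w (L.drop t) (stT s L h g a t) (K t (x a))) ∧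
    (∀ i t, TE w (Wf99.gq s a i t).sh L h ((Wf99.gq s a i t).ev K G) = tX w (s.graft a i) L h fun g x =>
      G (fun c => x (s.emb a i c)) * Pf w (L.drop t) (stT (s.graft a i) L h g (s.nw a i) t)
        (K t (x (s.nw a i)))) ∧
    ∀ t, TE w (Wf99.gq s a t t).sh L h ((Wf99.gq s a t t).ev K G) = tX w s L h fun g x =>
      G x * qf (P w (L.drop t) (stT s L h g a t)) (K t) :=
  ⟨fun t => by rw [g1_eq hw, shr_self],
    fun i t => Eq.trans rfl (g1_eq hw (s.graft a i) (s.nw a i) t (s.nw a i) L h (fun _ => K t)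
      fun x => G fun c => x (s.emb a i c)),
    fun t => gq_eq hw s a le_rfl L h K G⟩

/-- **one edge off the old labels, `L²` tails** -/
theorem sg_cen (hw : Wt w) {s : Sh} {L : List (Lv Ω)} (hM : Mono 0 L) (h0 : dm L 0 L.length = 0)
    (h : Ω → ℝ) {K : ℕ → Ω → Ω → ℝ} (hK : ∀ j x y, K j x y = K j y x) (G : (s.Lf → Ω) → ℝ)
    {d : ℕ → ℝ} {j0 : ℕ} {B B' A : ℝ} {r r' : ℕ} {φ f : ℕ → ℝ} {c : GT s → ℝ}
    (hd : ∀ t, j0 < t → t < L.length → 0 ≤ d t) (hφ : DV d j0 L.length B' r' φ)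
    (z1 : ∀ t ≤ j0, φ t = 0) (z2 : ∀ t, Old s L.length t → φ t = 0)
    (hc : CV d j0 L.length B r c) (hA : 0 ≤ A) (HA : TE w s L h (fun x => G x ^ 2) ≤ A ^ 2)
    (f0 : ∀ j, 0 ≤ f j) (fa : ∀ j, f (j + 1) ≤ f j)
    (H1 : ∀ j, j0 < j → j ≤ L.length → pE w L h (fun g x => (∑ t ∈ Finset.Ico j L.length,
      dm L 0 t * Pf w (L.drop t) (st L t h g) (K t x)) ^ 2) ≤ f j ^ 2)
    (H2 : ∀ j, j0 < j → j ≤ L.length → pE w L h (fun g _ => (∑ t ∈ Finset.Ico j L.length,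
      dm L 0 t * qf (P w (L.drop t) (st L t h g)) (K t)) ^ 2) ≤ f j ^ 2) :
    |sg (-1) L s fun τ => φ τ.j * c τ * TE w τ.sh L h (τ.ev K G)| ≤
      56 * (Fintype.card s.Lf : ℝ) ^ 2 * (B' * B) * (((r' + r : ℕ) + 1) *
        (A * fz d f j0 L.length)) := by
  have y1 : ∀ j x, Eg fun z => Pf w (L.drop j) z (K j x) := fun j x => eg_Pf hw _ _
  refine (sg_core (F := fun j => A * f j) (ε := 0) hM h0 hd hφ z1 z2 hc (inv_TE hw s L h hK G _)
    le_rfl (fun j => mul_nonneg hA (f0 j)) (fun j => mul_le_mul_of_nonneg_left (fa j) hA)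
    (fun b j x y => ?_) (fun a i _ j x y => ?_) fun a j x y => ?_).trans_eq ?_
  · simp only [(three hw s L h K G b).1, add_zero]
    exact tail_cen hw s b L h (G := fun _ x => G x) (fun _ => Eg.const _) _ _ y1 hA (f0 j) HA
      (H1 j x y)
  · simp only [(three hw s L h K G a).2.1, add_zero]
    exact tail_cen hw (s.graft a i) (s.nw a i) L h (G := fun _ x => G fun c => x (s.emb a i c))
      (fun _ => Eg.const _) _ _ y1 hA (f0 j) ((TE_emb hw s a i L h fun x => G x ^ 2).trans_le HA)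
      (H1 j x y)
  · simp only [(three hw s L h K G a).2.2, add_zero]
    exact tail_cen hw s a L h (G := fun _ x => G x) (fun _ => Eg.const _) _ _
      (Y := fun j _ z => qf (P w (L.drop j) z) (K j)) (fun j _ => eg_qf hw _ _) hA (f0 j) HA
      (H2 j x y)
  · simp only [fz, mul_left_comm (d _) A, ← Finset.mul_sum]
    ring

/-- **one edge off the old labels, envelopes** -/
theorem sg_env (hw : Wt w) {s : Sh} {L : List (Lv Ω)} (hM : Mono 0 L) (h0 : dm L 0 L.length = 0)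
    (h : Ω → ℝ) {K : ℕ → Ω → Ω → ℝ} (hK : ∀ j x y, K j x y = K j y x) (G : (s.Lf → Ω) → ℝ)
    {d : ℕ → ℝ} {j0 : ℕ} {B B' A A' ε : ℝ} {r r' : ℕ} {φ F : ℕ → ℝ} {c : GT s → ℝ}
    (hd : ∀ t, j0 < t → t < L.length → 0 ≤ d t) (hφ : DV d j0 L.length B' r' φ)
    (z1 : ∀ t ≤ j0, φ t = 0) (z2 : ∀ t, Old s L.length t → φ t = 0)
    (hc : CV d j0 L.length B r c) (HA : TE w s L h (fun x => |G x|) ≤ A) (HA' : ∀ x, |G x| ≤ A')
    (hε : 0 ≤ ε) (F0 : ∀ j, 0 ≤ F j) (Fa : ∀ j, F (j + 1) ≤ F j)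
    (H1 : ∀ j, j0 < j → j ≤ L.length → pE w L h (fun g x => max (|∑ t ∈ Finset.Ico j L.length,
      dm L 0 t * Pf w (L.drop t) (st L t h g) (K t x)| - F j) 0) ≤ ε)
    (H2 : ∀ j, j0 < j → j ≤ L.length → pE w L h (fun g _ => max (|∑ t ∈ Finset.Ico j L.length,
      dm L 0 t * qf (P w (L.drop t) (st L t h g)) (K t)| - F j) 0) ≤ ε) :
    |sg (-1) L s fun τ => φ τ.j * c τ * TE w τ.sh L h (τ.ev K G)| ≤
      56 * (Fintype.card s.Lf : ℝ) ^ 2 * (B' * B) * (((r' + r : ℕ) + 1) *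
        (A * fz d F j0 L.length) + (L.length + 1) * (A' * ε)) := by
  have y1 : ∀ j x, Eg fun z => Pf w (L.drop j) z (K j x) := fun j x => eg_Pf hw _ _
  obtain ⟨y, -⟩ := Finset.exists_ne_zero_of_sum_ne_zero hw.pos.ne'
  have hA' : 0 ≤ A' := (abs_nonneg _).trans (HA' fun _ => y)
  have hA : 0 ≤ A := (Sd.tX_nonneg hw s L h fun _ _ => abs_nonneg _).trans HA
  refine (sg_core (F := fun j => A * F j) (ε := A' * ε) hM h0 hd hφ z1 z2 hc
    (inv_TE hw s L h hK G _) (mul_nonneg hA' hε) (fun j => mul_nonneg hA (F0 j))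
    (fun j => mul_le_mul_of_nonneg_left (Fa j) hA)
    (fun b j x y => ?_) (fun a i _ j x y => ?_) fun a j x y => ?_).trans_eq ?_
  · simp only [(three hw s L h K G b).1]
    exact tail_env hw s b L h (G := fun _ x => G x) (fun _ => Eg.const _) _ _ y1 (F0 j) hA' HA
      (fun _ x => HA' x) (H1 j x y)
  · simp only [(three hw s L h K G a).2.1]
    exact tail_env hw (s.graft a i) (s.nw a i) L h (G := fun _ x => G fun c => x (s.emb a i c))
      (fun _ => Eg.const _) _ _ y1 (F0 j) hA' ((TE_emb hw s a i L h fun x => |G x|).trans_le HA)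
      (fun _ x => HA' _) (H1 j x y)
  · simp only [(three hw s L h K G a).2.2]
    exact tail_env hw s a L h (G := fun _ x => G x) (fun _ => Eg.const _) _ _
      (Y := fun j _ z => qf (P w (L.drop j) z) (K j)) (fun j _ => eg_qf hw _ _) (F0 j) hA' HA
      (fun _ x => HA' x) (H2 j x y)
  · simp only [fz, mul_left_comm (d _) A, ← Finset.mul_sum]
    ring

/-! ### the site coefficient -/

/-- **moving a graft by one level costs the variance of the level** -/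
theorem graft_mv (hw : Wt w) {L : List (Lv Ω)} (hM : Mono 0 L) (s : Sh) (a : s.Lf) {j : ℕ}
    (hj : j < L.length) (h : Ω → ℝ) {F : (s.Lf → Ω) → Ω → ℝ} {b v : ℝ} (hF : ∀ x y, |F x y| ≤ b)
    (hv : ∀ x y, |Ker15.cv L j x y| ≤ v) :
    |TE w (s.graft a (j + 1)) L h (fun x => F (fun c => x (s.emb a (j + 1) c)) (x (s.nw a (j + 1)))) -
      TE w (s.graft a j) L h (fun x => F (fun c => x (s.emb a j c)) (x (s.nw a j)))| ≤
      2 * ((Fintype.card s.Lf : ℝ) + 1) ^ 2 * (b * v) := by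
  have inj : ∀ k, Function.Injective fun o : Option s.Lf => o.elim (s.nw a k) (s.emb a k) :=
    fun k o o' e => by
      cases o <;> cases o'
      · rfl
      · exact absurd e.symm (Tay38.emb_ne _ _ _ _)
      · exact absurd e (Tay38.emb_ne _ _ _ _)
      · exact congrArg some (Tay38.emb_inj _ _ _ e)
  have := Ker15.move1 (κ := Option s.Lf) hw hM hj (s := fun b => s.graft a (j + b.toNat))
    (e := fun b o => o.elim (s.nw a (j + b.toNat)) (s.emb a (j + b.toNat))) (fun b => inj _)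
    (fun o o' => by
      have m : ∀ c, s.shr c a (min (j + 1) L.length) = s.shr c a (min j L.length) ∨
          (s.shr c a (min j L.length) = j ∧ s.shr c a (min (j + 1) L.length) = j + 1) := fun c => by
        rw [shr_min, shr_min]; omega
      cases o <;> cases o' <;> simp only [sm, Option.elim, Bool.toNat_true, Bool.toNat_false,
        add_zero, shr_self, shr_nw, shr_nw', shr_emb, m, true_or])
    (N := Fintype.card s.Lf + 1) (by omega) (by simp) h (F := fun x => F (fun c => x (some c)) (x none))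
    (fun x => hF _ _) hv
  simpa using this

/-- the tree expectation of a fixed symmetric kernel is an admissible coefficient -/
theorem cv_TE (hw : Wt w) {L : List (Lv Ω)} (hM : Mono 0 L) (s : Sh) (h : Ω → ℝ)
    {k : Ω → Ω → ℝ} (hk : ∀ x y, k x y = k y x) (k1 : ∀ x y, |k x y| ≤ 1)
    {ξ : (s.Lf → Ω) → ℝ} {b : ℝ} (hξ : ∀ x, |ξ x| ≤ b) {d : ℕ → ℝ} {j0 : ℕ}
    (hv : ∀ t, j0 + 1 < t → t < L.length → ∀ x y, |Ker15.cv L (t - 1) x y| ≤ d t) :
    CV d j0 L.length (4 * ((Fintype.card s.Lf : ℝ) + 2) ^ 2 * b) 0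
      fun τ : GT s => TE w τ.sh L h (τ.ev (fun _ => k) ξ) := by
  obtain ⟨y, -⟩ := Finset.exists_ne_zero_of_sum_ne_zero hw.pos.ne'
  have b0 : 0 ≤ b := (abs_nonneg _).trans (hξ fun _ => y)
  have I := inv_TE hw s L h (K := fun _ => k) (fun _ => hk) ξ L.length
  have N0 : (0 : ℝ) ≤ Fintype.card s.Lf := Nat.cast_nonneg _
  have bd : ∀ τ : GT s, |TE w τ.sh L h (τ.ev (fun _ => k) ξ)| ≤
      4 * ((Fintype.card s.Lf : ℝ) + 2) ^ 2 * b := fun τ =>
    ((abs_TE_le' hw _ L h (F' := fun _ => b * 1) fun x => Ker15.abs_ev τ hξ k1 x).trans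
      (Law.TE_const hw _ L h _).le).trans (by nlinarith [mul_nonneg b0 N0, mul_nonneg b0 (mul_nonneg N0 N0)])
  have pr : ∀ (x : s.Lf → Ω) y y', |ξ x * k y y'| ≤ b := fun x y y' => by
    rw [abs_mul]; exact (mul_le_of_le_one_right (abs_nonneg _) (k1 _ _)).trans (hξ x)
  have d0 : ∀ t, j0 + 1 < t → t < L.length → 0 ≤ b * d t := fun t x z =>
    mul_nonneg b0 ((abs_nonneg _).trans (hv t x z y y))
  have m2 : ∀ a i t, j0 + 1 < t + 1 → t + 1 < L.length →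
      |TE w (Wf99.gq s a i (t + 1)).sh L h ((Wf99.gq s a i (t + 1)).ev (fun _ => k) ξ) -
        TE w (Wf99.gq s a i t).sh L h ((Wf99.gq s a i t).ev (fun _ => k) ξ)| ≤
        2 * ((Fintype.card s.Lf : ℝ) + 2) ^ 2 * (b * d (t + 1)) := fun a i t x z => by
    have := graft_mv hw hM (s.graft a i) (s.nw a i) (by omega : t < L.length) h
      (F := fun x y => ξ (fun c => x (s.emb a i c)) * k (x (s.nw a i)) y) (fun _ _ => pr _ _ _)
      (hv _ x z)
    rw [card_graft, Nat.cast_add_one, add_assoc, one_add_one_eq_two] at this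
    exact this
  refine ⟨I, fun a => ⟨by positivity, fun _ _ _ => bd _, ∅, le_rfl, fun t x z _ => ?_⟩,
    fun a i _ => ⟨by positivity, fun _ _ _ => bd _, ∅, le_rfl, fun t x z _ => ?_⟩,
    fun a => ⟨by positivity, fun _ _ _ => bd _, ∅, le_rfl, fun t x z _ => ?_⟩⟩ <;>
    obtain ⟨t, rfl⟩ : ∃ u, t = u + 1 := ⟨t - 1, by omega⟩ <;> have e := d0 _ x z <;>
    rw [Nat.add_sub_cancel]
  · refine (graft_mv hw hM s a (by omega : t < L.length) h (F := fun x y => ξ x * k (x a) y)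
      (fun _ _ => pr _ _ _) (hv _ x z)).trans ?_
    nlinarith [mul_nonneg e N0, mul_nonneg e (mul_nonneg N0 N0)]
  · refine (m2 a i t x z).trans ?_
    nlinarith [mul_nonneg e N0, mul_nonneg e (mul_nonneg N0 N0)]
  · have h1 := m2 a (t + 1) t x z
    have h2 := graft_mv hw hM (s.graft a t) (s.emb a t a) (by omega : t < L.length) h
      (F := fun x y => ξ (fun c => x (s.emb a t c)) * k y (x (s.nw a t))) (fun _ _ => pr _ _ _)
      (hv _ x z)
    rw [card_graft, Nat.cast_add_one, add_assoc, one_add_one_eq_two] at h2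
    have h3 := I.i2 a (t + 1) a t (by omega) (by omega) (shr_self _ _ _)
    have h4 := I.i2 a t a t le_rfl (by omega) (shr_self _ _ _)
    beta_reduce at h3 h4
    rw [← h3] at h1
    rw [← h4]
    refine (abs_sub_le _ _ _).trans ((add_le_add h1 h2).trans_eq (by ring))

/-- site kernels `u_t ε ε' + v_t` -/
theorem cv_site {L : List (Lv Bool)} (hM : Mono 0 L) (s : Sh) (h : Bool → ℝ)
    {ξ : (s.Lf → Bool) → ℝ} {b : ℝ} (hξ : ∀ x, |ξ x| ≤ b) {d : ℕ → ℝ} {j0 : ℕ}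
    (hv : ∀ t, j0 + 1 < t → t < L.length → ∀ x y, |Ker15.cv L (t - 1) x y| ≤ d t)
    {u v : ℕ → ℝ} {B B' : ℝ} {r r' : ℕ} (hu : DV d j0 L.length B r u)
    (hv' : DV d j0 L.length B' r' v) :
    CV d j0 L.length (8 * ((Fintype.card s.Lf : ℝ) + 2) ^ 2 * ((B + B') * b)) (r + r')
      fun τ : GT s => TE (fun _ => 1) τ.sh L h
        (τ.ev (fun t x y => u t * (spin x * spin y) + v t) ξ) := by
  have h1 := ((cv_lev s hu).mul (cv_TE wt_one90 hM s h (k := fun x y => spin x * spin y)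
    (fun _ _ => mul_comm _ _) (fun x y => (OneP.abs_spin2 x y).le) hξ hv)).add
    ((cv_lev s hv').mul (cv_TE wt_one90 hM s h (k := fun _ _ => 1) (fun _ _ => rfl)
      (fun _ _ => abs_one.le) hξ hv))
  have e : (fun τ : GT s => TE (fun _ => 1) τ.sh L h
      (τ.ev (fun t x y => u t * (spin x * spin y) + v t) ξ)) = fun τ =>
      u τ.j * TE (fun _ => 1) τ.sh L h (τ.ev (fun _ x y => spin x * spin y) ξ) +
        v τ.j * TE (fun _ => 1) τ.sh L h (τ.ev (fun _ _ _ => 1) ξ) := by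
    funext τ
    rw [← Law.TE_const_mul wt_one90, ← Law.TE_const_mul wt_one90, ← Law.TE_add wt_one90]
    congr 1
    funext x
    simp only [GT.ev]
    ring
  rw [e]
  convert h1 using 1
  · ring
  · rfl

/-! ### the data of `CDef_40` -/

section cd
open C40 OneP Mul55

variable {D : CD} {τ0 : ℝ}

theorem fs_eq (D : CD) (F : ℕ → ℝ) (j : ℕ) : D.fs F j = fz D.dv F j D.K := rfl

theorem lenB (D : CD) : D.B.length = D.K := List.length_map _

theorem acc_step (M : List (ℝ × ℝ × ℝ)) (f : ℝ × ℝ × ℝ → ℝ) (hf : ∀ p ∈ M, 0 ≤ f p) (j : ℕ) :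
    ((M.take j).map f).sum ≤ ((M.take (j + 1)).map f).sum := by
  rw [List.take_add_one, List.map_append, List.sum_append]
  refine le_add_of_nonneg_right (List.sum_nonneg fun x hx => ?_)
  obtain ⟨p, hp, rfl⟩ := List.mem_map.1 hx
  exact hf p (List.mem_of_getElem? (by simpa using hp))

theorem tau_step (H : OOk D.M D.q) (j : ℕ) : D.τ j ≤ D.τ (j + 1) :=
  mul_le_mul_of_nonneg_left (acc_step D.M _ (fun p hp => (H.nn p hp).1) j) (sq_nonneg _)

theorem h_step (H : OOk D.M D.q) (j : ℕ) : fAcc D.M j ≤ fAcc D.M (j + 1) :=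
  acc_step D.M _ (fun p hp => (H.nn p hp).2) j

theorem tq_step (H : OOk D.M D.q) {j : ℕ} (hj : j < D.K) :
    D.τ j * D.q j ≤ D.τ (j + 1) * D.q (j + 1) :=
  mul_le_mul (tau_step H j) (H.mono j hj) (H.mem hj.le).1 (H.oTau_le _ _ _).1

/-- the three increments dominated by the clock -/
theorem dv_dom (H : OOk D.M D.q) (hM : Mono 0 D.B) {t : ℕ} (h1 : D.J + 1 < t) (h2 : t ≤ D.K) :
    |D.sig t - D.sig (t - 1)| ≤ D.dv t ∧ |D.τ t - D.τ (t - 1)| ≤ D.dv t ∧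
      |D.τ t * D.q t - D.τ (t - 1) * D.q (t - 1)| ≤ D.dv t ∧
      D.dx (t - 1) + D.dx t ≤ D.dv t := by
  obtain ⟨t, rfl⟩ : ∃ u, t = u + 1 := ⟨t - 1, by omega⟩
  have a1 := tau_step H t
  have a2 := h_step H t
  have a3 := tq_step H (by omega : t < D.K)
  have a4 := dm_nonneg hM t
  have a5 := dm_nonneg hM (t + 1)
  rw [CD.dv, if_neg (by omega)]
  simp only [Nat.add_sub_cancel, CD.sig, CD.dx] at *
  refine ⟨?_, ?_, ?_, ?_⟩
  · rw [abs_of_nonneg (by linarith)]; linarith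
  · rw [abs_of_nonneg (by linarith)]; linarith
  · rw [abs_of_nonneg (by linarith)]; linarith
  · linarith

theorem X_nonneg (H : D.Ok τ0) : 0 ≤ D.X := (ex_nn H.mono _).trans H.x1

theorem dv_nonneg (H : D.Ok τ0) {t : ℕ} (h2 : t ≤ D.K) : 0 ≤ D.dv t := by
  rcases le_or_gt t (D.J + 1) with e | e
  · rw [CD.dv, if_pos e]; exact (X_nonneg H).trans (H.eX t)
  · exact (abs_nonneg _).trans (dv_dom H.ook H.mono e h2).1

theorem tm_S (H : OOk D.M D.q) {j : ℕ} (hj : j ≤ D.K) : Ker15.tm D.S j = D.sig j :=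
  (Ker15.tm_eq (C.forall₂_sl spin (opV_nn H)) j).trans (opV_acc hj)

theorem r1_S (H : OOk D.M D.q) : Ker15.R1 D.S := Ker15.r1_of (C.forall₂_sl spin (opV_nn H))

theorem monoS (hM : Mono 0 D.B) : Mono 0 D.S := Cav22.mono_tilt tilt_opS.symm hM

theorem cv_S (H : OOk D.M D.q) (hM : Mono 0 D.B) {t : ℕ} (h1 : D.J + 1 < t) (h2 : t ≤ D.K)
    (x y : Bool) : |Ker15.cv D.S (t - 1) x y| ≤ D.dv t := by
  rw [Ker15.cv, (r1_S H).cacc, (r1_S H).cacc, ← sub_mul, abs_mul, abs_spin2, mul_one,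
    show t - 1 + 1 = t by omega, tm_S H h2, tm_S H (by omega)]
  exact (dv_dom H hM h1 h2).1

theorem dv_tau (H : D.Ok τ0) {j0 : ℕ} (hj : D.J ≤ j0) : DV D.dv j0 D.K (τ0 + 1) 0 D.τ := by
  have t0 := (H.ook.oTau_le D.n D.β D.K).1.trans H.tau
  refine ⟨by linarith, fun t _ _ => ?_, ∅, le_rfl, fun t a b _ => ?_⟩
  · have := H.ook.oTau_le D.n D.β t
    rw [abs_of_nonneg this.1]; linarith [this.2, H.tau]
  · have := dv_nonneg H b.le
    nlinarith [(dv_dom H.ook H.mono (by omega) b.le).2.1]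

theorem dv_tq (H : D.Ok τ0) {j0 : ℕ} (hj : D.J ≤ j0) :
    DV D.dv j0 D.K (τ0 + 1) 0 fun t => D.τ t * D.q t := by
  have t0 := (H.ook.oTau_le D.n D.β D.K).1.trans H.tau
  refine ⟨by linarith, fun t _ b => ?_, ∅, le_rfl, fun t a b _ => ?_⟩
  · have := H.ook.oTau_le D.n D.β t
    have q := H.ook.mem b.le
    rw [abs_of_nonneg (mul_nonneg this.1 q.1)]
    nlinarith [this.2, H.tau, q.2, this.1]
  · have := dv_nonneg H b.le
    nlinarith [(dv_dom H.ook H.mono (by omega) b.le).2.2.1]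

/-- the site coefficient `τ_t / 2 E (η ξ)` of the letter `aU` -/
def cU (D : CD) (z : Bool → ℝ) {s : Sh} (ξ : (s.Lf → Bool) → ℝ) (τ : GT s) : ℝ :=
  D.τ τ.j / 2 * TE (fun _ => 1) τ.sh D.S z (τ.ev (oE D.q) ξ)

/-- **the site coefficient of `aU` is admissible** -/
theorem cv_cU (H : D.Ok τ0) {j0 : ℕ} (hj : D.J ≤ j0) (z : Bool → ℝ) (s : Sh)
    {ξ : (s.Lf → Bool) → ℝ} {b : ℝ} (hξ : ∀ x, |ξ x| ≤ b) :
    CV D.dv j0 D.K (8 * ((Fintype.card s.Lf : ℝ) + 2) ^ 2 * ((τ0 + 1) * b)) 0 (cU D z ξ) := by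
  have l : D.S.length = D.K := opS_length
  have h1 := cv_site (monoS H.mono) s z hξ (d := D.dv) (j0 := j0)
    (fun t a b => cv_S H.ook H.mono (by omega) (by omega))
    (l ▸ (dv_tau H hj).smul (1 / 2)) (l ▸ (dv_tq H hj).smul (-(1 / 2)))
  rw [l] at h1
  convert h1 using 1
  · rw [abs_neg, abs_of_pos (by norm_num : (0 : ℝ) < 1 / 2)]; ring
  · funext τ
    rw [cU, ← Law.TE_const_mul wt_one90]
    congr 1
    funext x
    simp only [GT.ev, oE]
    ring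

theorem tail_eq (D : CD) {j : ℕ} (hj : D.J < j) : D.tail j = Finset.Ico j D.K := by
  rw [CD.tail, max_eq_left (by omega)]

/-- the centred kernel -/
def Uc (D : CD) (t : ℕ) (x y : Cube D.n) : ℝ := oU D.q t x y - D.del t

theorem Pf_Uc (D : CD) (L : List (Lv (Cube D.n))) (z : Cube D.n → ℝ) (t : ℕ) (x : Cube D.n) :
    Pf (fun _ => 1) L z (Uc D t x) = Pf (fun _ => 1) L z (oU D.q t x) - D.del t := by
  simp only [Pf, Uc, mul_sub, Finset.sum_sub_distrib, ← Finset.sum_mul, sum_P wt_one90, one_mul]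

theorem qf_Uc (D : CD) (L : List (Lv (Cube D.n))) (z : Cube D.n → ℝ) (t : ℕ) :
    qf (P (fun _ => 1) L z) (Uc D t) = qf (P (fun _ => 1) L z) (oU D.q t) - D.del t := by
  simp only [qf, Uc, mul_sub, Finset.sum_sub_distrib, ← Finset.sum_mul, ← Finset.mul_sum,
    sum_P wt_one90, one_mul, mul_one]

theorem oU_comm (q : ℕ → ℝ) {n : ℕ} (t : ℕ) (x y : Cube n) : oU q t x y = oU q t y x := by
  rw [oU, oU, Crest.Agent.T157.G1.ov, Crest.Agent.T157.G1.ov, dotProduct_comm]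

/-- the weighted letter `φ · aU` -/
def phU (D : CD) (φ : ℕ → ℝ) : (ℕ → Cube D.n → Cube D.n → ℝ) × SK :=
  (fun t x y => φ t * oUb D.n D.β D.M D.q true t x y, oZs D.q true)

/-- its mean part, a site kernel -/
def phS (D : CD) (φ : ℕ → ℝ) : SK := fun t a b => φ t * (D.τ t / 2 * D.del t * oE D.q t a b)

theorem wB_phU (D : CD) (φ : ℕ → ℝ) (s : Sh) (G : (s.Lf → Cube D.n) → ℝ)
    (ξ : (s.Lf → Bool) → ℝ) : wB (-1) D.B (oB D.n D.β D.M D.q []) [phU D φ] s G ξ =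
      sg (-1) D.B s fun τ => φ τ.j * cU D 0 ξ τ * TE (fun _ => 1) τ.sh D.B 0 (τ.ev (oU D.q) G) := by
  rw [wB]
  congr 1
  funext τ
  have : τ.ev (phU D φ).1 G = fun x => φ τ.j * (D.τ τ.j / 2) * τ.ev (oU D.q) G x := by
    funext x
    simp only [GT.ev, phU, oUb]
    ring
  rw [wB, oB, this, Law.TE_const_mul wt_one90, cU]
  show _ * TE _ _ _ _ (τ.ev (oE D.q) ξ) = _
  ring

theorem oB_phS (D : CD) (φ : ℕ → ℝ) (s : Sh) (G : (s.Lf → Cube D.n) → ℝ)
    (ξ : (s.Lf → Bool) → ℝ) : oB D.n D.β D.M D.q [phS D φ] s G ξ =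
      sg (-1) D.B s fun τ => φ τ.j * cU D 0 ξ τ * (D.del τ.j * TE (fun _ => 1) s D.B 0 G) := by
  rw [oB, WdO_cons, Dop_eq_sg, sg_tilt _ tilt_opS, ← sg_const_mul]
  congr 1
  funext τ
  have : τ.ev (phS D φ) ξ = fun x => φ τ.j * (D.τ τ.j / 2 * D.del τ.j) * τ.ev (oE D.q) ξ x := by
    funext x
    simp only [GT.ev, phS]
    ring
  show _ * TE _ _ _ _ _ = _
  rw [this, Law.TE_const_mul wt_one90, cU]
  ring

/-- the letter minus its mean part is the letter with the centred kernel -/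
theorem wB_sub (D : CD) (φ : ℕ → ℝ) (s : Sh) (G : (s.Lf → Cube D.n) → ℝ)
    (ξ : (s.Lf → Bool) → ℝ) : wB (-1) D.B (oB D.n D.β D.M D.q []) [phU D φ] s G ξ -
      oB D.n D.β D.M D.q [phS D φ] s G ξ =
      sg (-1) D.B s fun τ => φ τ.j * cU D 0 ξ τ * TE (fun _ => 1) τ.sh D.B 0 (τ.ev (Uc D) G) := by
  rw [wB_phU, oB_phS, ← sg_sub]
  refine sg_congr _ _ _ fun τ hτ => ?_
  rw [← mul_sub, ← hτ.TE_e wt_one90 D.B 0 G, ← Law.TE_const_mul wt_one90, ← Law.TE_sub wt_one90]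
  congr 2
  funext x
  simp only [GT.ev, Uc]
  ring

/-- the constant -/
def cK (τ0 : ℝ) (N r : ℕ) : ℝ := 448 * N ^ 2 * (N + 2) ^ 2 * (τ0 + 1) * (r + 1)

/-- **any admissible coefficient, centred** -/
theorem sg_cenD (H : D.Ok τ0) {j0 : ℕ} (hj : D.J ≤ j0) {s : Sh} (G : (s.Lf → Cube D.n) → ℝ)
    {B B' A : ℝ} {r r' : ℕ} {φ : ℕ → ℝ} {c : GT s → ℝ} (hφ : DV D.dv j0 D.K B' r' φ)
    (z1 : ∀ t ≤ j0, φ t = 0) (z2 : ∀ t, Old s D.K t → φ t = 0) (hc : CV D.dv j0 D.K B r c)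
    (hA : 0 ≤ A) (HA : TE (fun _ => 1) s D.B 0 (fun x => G x ^ 2) ≤ A ^ 2) :
    |sg (-1) D.B s fun τ => φ τ.j * c τ * TE (fun _ => 1) τ.sh D.B 0 (τ.ev (Uc D) G)| ≤
      56 * (Fintype.card s.Lf : ℝ) ^ 2 * (B' * B) * (((r' + r : ℕ) + 1) *
        (A * D.fs D.f0 j0)) := by
  have l := lenB D
  have := sg_cen wt_one90 H.mono (l ▸ H.top) 0 (K := Uc D)
    (fun t x y => by rw [Uc, Uc, oU_comm]) G (d := D.dv) (fun t _ b => dv_nonneg H (by omega))
    (l ▸ hφ) z1 (l ▸ z2) (l ▸ hc) hA HA (fun j => (H.wk0.nn j).2) (fun j => (H.wk0.anti j).2)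
    (fun j a _ => by
      simp only [Pf_Uc, l, ← tail_eq D (by omega : D.J < j)]; exact H.wk0.varL j)
    fun j a _ => by
      simp only [qf_Uc, l, ← tail_eq D (by omega : D.J < j)]; exact H.wk0.varN j
  rwa [l] at this

/-- **any admissible coefficient, envelopes** -/
theorem sg_envD (H : D.Ok τ0) {j0 : ℕ} (hj : D.J ≤ j0) {s : Sh} (G : (s.Lf → Cube D.n) → ℝ)
    {B B' A A' : ℝ} {r r' : ℕ} {φ : ℕ → ℝ} {c : GT s → ℝ} (hφ : DV D.dv j0 D.K B' r' φ)
    (z1 : ∀ t ≤ j0, φ t = 0) (z2 : ∀ t, Old s D.K t → φ t = 0) (hc : CV D.dv j0 D.K B r c)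
    (HA : TE (fun _ => 1) s D.B 0 (fun x => |G x|) ≤ A) (HA' : ∀ x, |G x| ≤ A') :
    |sg (-1) D.B s fun τ => φ τ.j * c τ * TE (fun _ => 1) τ.sh D.B 0 (τ.ev (oU D.q) G)| ≤
      56 * (Fintype.card s.Lf : ℝ) ^ 2 * (B' * B) * (((r' + r : ℕ) + 1) *
        (A * D.fs D.F0 j0) + (D.K + 1) * (A' * D.tl)) := by
  have l := lenB D
  have := sg_env wt_one90 H.mono (l ▸ H.top) 0 (K := oU D.q) (oU_comm D.q) G (d := D.dv)
    (fun t _ b => dv_nonneg H (by omega)) (l ▸ hφ) z1 (l ▸ z2) (l ▸ hc) HA HA' H.tl0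
    (fun j => (H.wk0.nn j).1) (fun j => (H.wk0.anti j).1)
    (fun j a _ => by simp only [l, ← tail_eq D (by omega : D.J < j)]; exact H.wk0.envL j)
    fun j a _ => by simp only [l, ← tail_eq D (by omega : D.J < j)]; exact H.wk0.envN j
  rwa [l] at this

/-- **(cen) the letter `φ · aU` innermost = its mean part + weak error** -/
theorem aU_cen (H : D.Ok τ0) {j0 : ℕ} (hj : D.J ≤ j0) {s : Sh} (G : (s.Lf → Cube D.n) → ℝ)
    {ξ : (s.Lf → Bool) → ℝ} {b B A : ℝ} {r : ℕ} {φ : ℕ → ℝ} (hφ : DV D.dv j0 D.K B r φ)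
    (z1 : ∀ t ≤ j0, φ t = 0) (z2 : ∀ t, Old s D.K t → φ t = 0) (hξ : ∀ x, |ξ x| ≤ b)
    (hA : 0 ≤ A) (HA : TE (fun _ => 1) s D.B 0 (fun x => G x ^ 2) ≤ A ^ 2) :
    |wB (-1) D.B (oB D.n D.β D.M D.q []) [phU D φ] s G ξ - oB D.n D.β D.M D.q [phS D φ] s G ξ| ≤
      cK τ0 (Fintype.card s.Lf) r * (B * b) * (A * D.fs D.f0 j0) := by
  rw [wB_sub]
  refine (sg_cenD H hj G hφ z1 z2 (cv_cU H hj 0 s hξ) hA HA).trans_eq ?_
  rw [cK, Nat.add_zero]
  ring

/-- **(env) the letter `φ · aU` innermost, envelopes** -/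
theorem aU_env (H : D.Ok τ0) {j0 : ℕ} (hj : D.J ≤ j0) {s : Sh} (G : (s.Lf → Cube D.n) → ℝ)
    {ξ : (s.Lf → Bool) → ℝ} {b B A A' : ℝ} {r : ℕ} {φ : ℕ → ℝ} (hφ : DV D.dv j0 D.K B r φ)
    (z1 : ∀ t ≤ j0, φ t = 0) (z2 : ∀ t, Old s D.K t → φ t = 0) (hξ : ∀ x, |ξ x| ≤ b)
    (HA : TE (fun _ => 1) s D.B 0 (fun x => |G x|) ≤ A) (HA' : ∀ x, |G x| ≤ A') :
    |wB (-1) D.B (oB D.n D.β D.M D.q []) [phU D φ] s G ξ| ≤
      cK τ0 (Fintype.card s.Lf) r * (B * b) * (A * D.fs D.F0 j0 + (D.K + 1) * (A' * D.tl)) := by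
  rw [wB_phU]
  have C := cv_cU H hj 0 s hξ
  refine (sg_envD H hj G hφ z1 z2 C HA HA').trans ?_
  have h1 := mul_nonneg hφ.nn (C.v1 s.fst).nn
  have h2 : 0 ≤ ((D.K : ℝ) + 1) * (A' * D.tl) := mul_nonneg (by positivity)
    (mul_nonneg ((abs_nonneg _).trans (HA' fun _ _ => true)) H.tl0)
  refine (mul_le_mul_of_nonneg_left (add_le_add le_rfl (le_mul_of_one_le_left h2
    (le_add_of_nonneg_left (Nat.cast_nonneg r)))) (by positivity)).trans_eq ?_
  rw [cK, Nat.add_zero]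
  ring

/-! ### one path, any weights -/

section path
variable {μ F f c : ℕ → ℝ} {j0 r m : ℕ} {B A A' : ℝ} {s : Sh}
  {G : (NT s D.B → ℝ) → (s.Lf → Cube D.n) → ℝ}

/-- `m_t · σ / n - q_t` as a function of the leaf and the state -/
def Yl (D : CD) (t : ℕ) (x : Cube D.n) (z : Cube D.n → ℝ) : ℝ :=
  Pf (fun _ => 1) (D.B.drop t) z (oU D.q t x)

/-- `ρ_t - q_t` as a function of the state -/
def Yn (D : CD) (t : ℕ) (z : Cube D.n → ℝ) : ℝ := qf (P (fun _ => 1) (D.B.drop t) z) (oU D.q t)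

theorem eg_Yl (D : CD) (t : ℕ) (x : Cube D.n) : Eg (Yl D t x) := eg_Pf wt_one90 _ _

theorem eg_Yn (D : CD) (t : ℕ) : Eg (Yn D t) := eg_qf wt_one90 _ _

theorem fz_mul (d f : ℕ → ℝ) (j K : ℕ) (A : ℝ) : fz d (fun j => A * f j) j K = A * fz d f j K := by
  simp only [fz, mul_left_comm (d _) A, ← Finset.mul_sum, mul_add]

/-- **one path, centred**: nodes and leaf -/
theorem path_cen (H : D.Ok τ0) (W : D.Wk μ F f) (hj : D.J ≤ j0) (a : s.Lf)
    (hG : ∀ x, Eg fun g => G g x) (hc : DV D.dv j0 D.K B r c) (hm : m ≤ D.K) (hA : 0 ≤ A)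
    (HA : tX (fun _ => 1) s D.B 0 (fun g x => G g x ^ 2) ≤ A ^ 2) :
    |∑ t ∈ Finset.Ico (j0 + 1) m, c t * (μ t * tX (fun _ => 1) s D.B 0 fun g x =>
        G g x * (Yn D t (stT s D.B 0 g a t) - D.del t))| ≤ 2 * B * ((r + 1) * (A * D.fs f j0)) ∧
    |∑ t ∈ Finset.Ico (j0 + 1) m, c t * (μ t * tX (fun _ => 1) s D.B 0 fun g x =>
        G g x * (Yl D t (x a) (stT s D.B 0 g a t) - D.del t))| ≤
      2 * B * ((r + 1) * (A * D.fs f j0)) := by
  constructor <;> refine (abel (F := fun j => A * f j) (ε := 0) (fun t _ b => dv_nonneg H b.le) hc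
    le_rfl (fun j => mul_nonneg hA (W.nn j).2) (fun j => mul_le_mul_of_nonneg_left (W.anti j).2 hA)
    (fun j x _ => ?_) hm).trans_eq (by rw [fz_mul, mul_zero, add_zero, fs_eq]) <;>
    rw [add_zero, ← tail_eq D (by omega : D.J < j)]
  · exact tail_cen wt_one90 s a D.B 0 hG _ μ (Y := fun t _ z => Yn D t z - D.del t)
      (fun t _ => (eg_Yn D t).sub (Eg.const _)) hA (W.nn j).2 HA (W.varN j)
  · exact tail_cen wt_one90 s a D.B 0 hG _ μ (Y := fun t x z => Yl D t x z - D.del t)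
      (fun t x => (eg_Yl D t x).sub (Eg.const _)) hA (W.nn j).2 HA (W.varL j)

/-- **one path, envelopes**: nodes and leaf -/
theorem path_env (H : D.Ok τ0) (W : D.Wk μ F f) (hj : D.J ≤ j0) (a : s.Lf)
    (hG : ∀ x, Eg fun g => G g x) (hc : DV D.dv j0 D.K B r c) (hm : m ≤ D.K)
    (HA : tX (fun _ => 1) s D.B 0 (fun g x => |G g x|) ≤ A) (HA' : ∀ g x, |G g x| ≤ A') :
    |∑ t ∈ Finset.Ico (j0 + 1) m, c t * (μ t * tX (fun _ => 1) s D.B 0 fun g x =>
        G g x * Yn D t (stT s D.B 0 g a t))| ≤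
      2 * B * ((r + 1) * (A * D.fs F j0) + (D.K + 1) * (A' * D.tl)) ∧
    |∑ t ∈ Finset.Ico (j0 + 1) m, c t * (μ t * tX (fun _ => 1) s D.B 0 fun g x =>
        G g x * Yl D t (x a) (stT s D.B 0 g a t))| ≤
      2 * B * ((r + 1) * (A * D.fs F j0) + (D.K + 1) * (A' * D.tl)) := by
  have hA' : 0 ≤ A' := (abs_nonneg _).trans (HA' 0 fun _ _ => true)
  have hA : 0 ≤ A := (Sd.tX_nonneg wt_one90 s D.B 0 fun _ _ => abs_nonneg _).trans HA
  constructor <;> refine (abel (F := fun j => A * F j) (ε := A' * D.tl)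
    (fun t _ b => dv_nonneg H b.le) hc (mul_nonneg hA' H.tl0) (fun j => mul_nonneg hA (W.nn j).1)
    (fun j => mul_le_mul_of_nonneg_left (W.anti j).1 hA)
    (fun j x _ => ?_) hm).trans_eq (by rw [fz_mul, fs_eq]) <;>
    rw [← tail_eq D (by omega : D.J < j)]
  · exact tail_env wt_one90 s a D.B 0 hG _ μ (Y := fun t _ z => Yn D t z)
      (fun t _ => eg_Yn D t) (W.nn j).1 hA' HA HA' (W.envN j)
  · exact tail_env wt_one90 s a D.B 0 hG _ μ (Y := Yl D) (eg_Yl D) (W.nn j).1 hA' HA HA' (W.envL j)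

/-- **the mean**: `|∑ c μ δ| ≲ fs F` -/
theorem mean_env (H : D.Ok τ0) (W : D.Wk μ F f) (hj : D.J ≤ j0) (hc : DV D.dv j0 D.K B r c)
    (hm : m ≤ D.K) : |∑ t ∈ Finset.Ico (j0 + 1) m, c t * (μ t * D.del t)| ≤
      2 * B * ((r + 1) * D.fs F j0 + (D.K + 1) * D.tl) := by
  have := (path_env (s := .one) (G := fun _ _ => 1) (A := 1) (A' := 1) H W hj ()
    (fun _ => Eg.const _) hc hm (by simpa using (Crv.tX_const wt_one90 _ D.B 0 1).le)
    fun _ _ => abs_one.le).1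
  simp only [one_mul] at this
  refine le_of_eq_of_le (congrArg _ (Finset.sum_congr rfl fun t _ => ?_)) this
  congr 2
  have e := tF_marg_node wt_one90 .one () D.B 0 t (Φ := fun _ z => Yn D t z) fun _ => eg_Yn D t
  simp only [← Finset.sum_mul, sum_P wt_one90, one_mul] at e
  refine Eq.trans ?_ e.symm
  have e2 : Yn D t = fun z => qf (P (fun _ => 1) (D.B.drop t) z) Crest.Agent.T157.G1.ov - D.q t := by
    funext z
    simp only [Yn, qf, oU, mul_sub, Finset.sum_sub_distrib, ← Finset.sum_mul, ← Finset.mul_sum,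
      sum_P wt_one90, one_mul, mul_one]
  rw [e2, node_sub wt_one90 (eg_qf wt_one90 _ _) (Eg.const _), node_const wt_one90]
  rfl

end path

/-! ### splitting off the old labels -/

/-- the old labels -/
def oldT (s : Sh) (K : ℕ) : Finset ℕ :=
  (Finset.univ.offDiag : Finset (s.Lf × s.Lf)).image fun p => s.shr p.1 p.2 K

theorem mem_oldT {s : Sh} {K t : ℕ} : t ∈ oldT s K ↔ Old s K t := by
  simp only [oldT, Old, Finset.mem_image, Finset.mem_offDiag, Finset.mem_univ, true_and,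
    Prod.exists]

theorem card_oldT (s : Sh) (K : ℕ) : (oldT s K).card ≤ Fintype.card s.Lf ^ 2 :=
  Finset.card_image_le.trans (by rw [Finset.offDiag_card, Finset.card_univ, sq]; omega)

theorem off_le {j0 : ℕ} (T : Finset ℕ) : ∀ t ≤ j0, off j0 T t = 0 := fun t h =>
  if_neg fun e => by omega

theorem off_old {s : Sh} {K : ℕ} (j0 : ℕ) {T : Finset ℕ} (hT : oldT s K ⊆ T) :
    ∀ t, Old s K t → off j0 T t = 0 := fun t h => if_neg fun e => e.2 (hT (mem_oldT.2 h))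

/-- one level -/
def one (t u : ℕ) : ℝ := if u = t then 1 else 0

theorem off_split (j0 : ℕ) (T : Finset ℕ) (u : ℕ) :
    off j0 ∅ u = off j0 T u + ∑ t ∈ T.filter (j0 < ·), one t u := by
  simp only [off, one, Finset.sum_ite_eq, Finset.mem_filter, Finset.notMem_empty]
  by_cases h : j0 < u <;> by_cases h' : u ∈ T <;> simp [h, h']

theorem lt_aU (D : CD) : lt D.n D.β D.M D.q D.cl C40.aU = phU D (off D.J ∅) := by
  refine Prod.ext ?_ rfl
  funext t x y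
  by_cases h : D.J < t <;> simp [lt, cut, phU, off, CD.cl, h, Nat.not_le.2, Nat.not_lt.1]

theorem Sd_eq (D : CD) : D.Sd = phS D (off D.J ∅) := by
  funext t a b
  by_cases h : D.J < t <;> simp [CD.Sd, phS, off, h]

theorem sg_split {s : Sh} (M : List (Lv Θ)) (j0 : ℕ) (T : Finset ℕ) (c Φ : GT s → ℝ) :
    sg (-1) M s (fun τ => off j0 ∅ τ.j * c τ * Φ τ) =
      sg (-1) M s (fun τ => off j0 T τ.j * c τ * Φ τ) +
        ∑ t ∈ T.filter (j0 < ·), sg (-1) M s fun τ => one t τ.j * c τ * Φ τ := by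
  rw [← sg_sum, ← sg_add]
  simp only [off_split j0 T, add_mul, Finset.sum_mul]

theorem wB_split (D : CD) (j0 : ℕ) (T : Finset ℕ) (s : Sh) (G : (s.Lf → Cube D.n) → ℝ)
    (ξ : (s.Lf → Bool) → ℝ) : wB (-1) D.B (oB D.n D.β D.M D.q []) [phU D (off j0 ∅)] s G ξ =
      wB (-1) D.B (oB D.n D.β D.M D.q []) [phU D (off j0 T)] s G ξ +
        ∑ t ∈ T.filter (j0 < ·), wB (-1) D.B (oB D.n D.β D.M D.q []) [phU D (one t)] s G ξ := by
  simp only [wB_phU, sg_split D.B j0 T]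

theorem oB_split (D : CD) (j0 : ℕ) (T : Finset ℕ) (s : Sh) (G : (s.Lf → Cube D.n) → ℝ)
    (ξ : (s.Lf → Bool) → ℝ) : oB D.n D.β D.M D.q [phS D (off j0 ∅)] s G ξ =
      oB D.n D.β D.M D.q [phS D (off j0 T)] s G ξ +
        ∑ t ∈ T.filter (j0 < ·), oB D.n D.β D.M D.q [phS D (one t)] s G ξ := by
  simp only [oB_phS, sg_split D.B j0 T]

/-- **`aU` innermost**: mean part + centred terms at the old labels + weak error -/
theorem aU_old (H : D.Ok τ0) {j0 : ℕ} (hj : D.J ≤ j0) (s : Sh) (G : (s.Lf → Cube D.n) → ℝ)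
    {ξ : (s.Lf → Bool) → ℝ} {b A : ℝ} (hξ : ∀ x, |ξ x| ≤ b) (hA : 0 ≤ A)
    (HA : TE (fun _ => 1) s D.B 0 (fun x => G x ^ 2) ≤ A ^ 2) {T : Finset ℕ}
    (hT : oldT s D.K ⊆ T) :
    |wB (-1) D.B (oB D.n D.β D.M D.q []) [phU D (off j0 ∅)] s G ξ -
      oB D.n D.β D.M D.q [phS D (off j0 ∅)] s G ξ -
      ∑ t ∈ T.filter (j0 < ·), sg (-1) D.B s fun τ =>
        one t τ.j * cU D 0 ξ τ * TE (fun _ => 1) τ.sh D.B 0 (τ.ev (Uc D) G)| ≤
      cK τ0 (Fintype.card s.Lf) (2 * T.card) * b * (A * D.fs D.f0 j0) := by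
  have := aU_cen H hj G (dv_off (fun t _ b => dv_nonneg H b.le) T) (off_le T) (off_old j0 hT) hξ
    hA HA
  rw [one_mul, wB_sub] at this
  rwa [wB_sub, sg_split D.B j0 T, add_sub_cancel_right]

end cd

end Crest.Agent.T156.Cas.Cw55

end
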