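import Crest.Agent.T156.C3D_94
import Crest.Agent.T156.CWk_55
import Crest.Agent.T156.SFReg_97

/-!
# Row 156, block C (helper94): a node that moves along a path, with the leaves grafted on it
-/

set_option autoImplicit false
set_option linter.all false

noncomputable section

namespace Crest.Agent.T156.Cas.C394

open Crest.Agent.T157.E Crest.Agent.T157.Casc Crest.Agent.T157.SL
open Nu87 Wp52 Cw55
open Ker15 (Mv)

variable {Ω : Type} [Fintype Ω] {M : List (Lv Ω)} {r m : ℕ}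

theorem Br_max (M : List (Lv Ω)) (g : ℕ → ℝ) {s : ℕ} (hs : s ≤ M.length) :
    ∑ i ∈ Finset.range (M.length - s + 1), dm (M.drop s) 0 i * g (i + s) =
      Br M fun k => g (max k s) := by
  have hex : ∀ i, ex (M.drop s) i = ex M (i + s) := fun i => by
    simp only [T157.Casc.ex, List.getElem?_drop, add_comm s]
  have h1 := sum_dm M 0 s
  have h2 : ∑ k ∈ Finset.range (s + 1), dm M 0 k * g (max k s) = (ex M s - 0) * g s := by
    rw [← h1, Finset.sum_mul]
    exact Finset.sum_congr rfl fun k hk => by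
      rw [max_eq_right (Nat.lt_succ_iff.1 (Finset.mem_range.1 hk))]
  rw [Finset.sum_range_succ', add_comm, Br, show M.length + 1 = s + 1 + (M.length - s) by omega,
    Finset.sum_range_add, h2]
  refine congrArg₂ (· + ·) (by simp [dm, exP, hex]) (Finset.sum_congr rfl fun i _ => ?_)
  rw [max_eq_left (by omega), show s + 1 + i = i + s + 1 by omega, show i + 1 + s = i + s + 1 by omega]
  simp only [dm, exP, hex, show i + 1 + s = i + s + 1 by omega]

/-- a new leaf goes to the old tree or to the last branch -/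
theorem Ws_gr' {σ : SM r} (h : Rz M.length σ) (a : Fin r) {s : ℕ} (hs : s ≤ M.length)
    {G : Fin (r + 1) → ℕ → ℝ} (hG : NCm (gr M.length σ a s) G) :
    Ws M (gr M.length σ a s) G = Ws M σ (fun b => G b.succ) + Br M fun k => G 0 (max k s) := by
  rw [Ws_gr M h a hs hG, Br_max M (G 0) hs]

/-- `t` is not a label on the path of `c` -/
def NO (σ : SM r) (c : Fin r) (t : ℕ) : Prop := ∀ y, y ≠ c → σ c y ≠ t

instance (σ : SM r) (c : Fin r) (t : ℕ) : Decidable (NO σ c t) := by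
  unfold NO; infer_instance

theorem Ws_lev (hM : Mono 0 M) {σ : SM r} (h : Rz M.length σ) {c : Fin r} {t : ℕ}
    (ht : t ≤ M.length) (hn : NO σ c t) {G : Fin r → ℕ → ℝ} (hG : NCm σ G) {B : ℝ}
    (hb : ∀ y i, |G y i| ≤ if min i (σ c y) = t then B else 0) : |Ws M σ G| ≤ B * dm M 0 t := by
  have nc : ∀ g : ℕ → ℝ, NCm σ fun y i => g (min i (σ c y)) := fun g a b j hj => by
    have h1 := h.ultra c a b
    have h2 := h.ultra c b a
    rw [h.comm b a] at h2
    exact congrArg g (by omega)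
  have e : ∀ B : ℝ, Ws M σ (fun y i => if min i (σ c y) = t then B else 0) = B * dm M 0 t :=
    fun B => by
      rw [Ws_gg M h c fun u => if u = t then B else 0, Finset.sum_eq_zero (s := Finset.univ.erase c)
        fun y hy => if_neg (hn y (Finset.ne_of_mem_erase hy)), add_zero]
      simp only [mul_ite, mul_zero, Finset.sum_ite_eq', Finset.mem_range, if_pos (Nat.lt_succ_of_le ht)]
      exact mul_comm _ _
  rw [abs_le, ← neg_mul, ← e, ← e]
  refine ⟨Ws_mono hM h (nc fun u => if u = t then -B else 0) hG fun y i _ => ?_,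
    Ws_mono hM h hG (nc fun u => if u = t then B else 0) fun y i _ => (abs_le.1 (hb y i)).2⟩
  have := (abs_le.1 (hb y i)).1
  split_ifs at this ⊢ <;> simpa using this

/-- a late leaf sits on the branch of the moving leaf, up to `dm t` -/
theorem step (hM : Mono 0 M) {σ : SM r} (h : Rz M.length σ) {c : Fin r} {t : ℕ}
    (ht : t ≤ M.length) (hn : NO σ c t) {G : Fin (r + 1) → ℕ → ℝ}
    (hG : NCm (gr M.length σ c t) G) {B : ℝ}
    (hb : ∀ y i, |G y i| ≤ if min i (gr M.length σ c t c.succ y) = t then B else 0) :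
    |Ws M (gr M.length σ c t) G - Br M fun k => G 0 (max k t)| ≤ B * dm M 0 t := by
  rw [Ws_gr' h c ht hG, add_sub_cancel_right]
  exact Ws_lev hM h ht hn (fun a b j hj => hG a.succ b.succ j hj) fun y i => hb y.succ i

theorem mv_gr {K t s s' : ℕ} {τ τ' : SM r} (H : Mv t τ τ') (y : Fin r)
    (hs : s' = s ∨ s = t ∧ s' = t + 1) : Mv t (gr K τ y s) (gr K τ' y s') := fun a b => by
  refine Fin.cases ?_ (fun a => ?_) a <;> refine Fin.cases ?_ (fun b => ?_) b
  · exact .inl rfl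
  · change min s' (τ' b y) = min s (τ b y) ∨ min s (τ b y) = t ∧ min s' (τ' b y) = t + 1
    have := H b y
    omega
  · change min s' (τ' a y) = min s (τ a y) ∨ min s (τ a y) = t ∧ min s' (τ' a y) = t + 1
    have := H a y
    omega
  · exact H a b

theorem abs_Br_le (hM : Mono 0 M) {g : ℕ → ℝ} {b : ℝ} (h : ∀ k, |g k| ≤ b) : |Br M g| ≤ b := by
  rw [abs_le, ← Site94.Br_const (M := M) b, ← neg_one_mul, ← Br_mul]
  exact ⟨Br_mono hM fun k _ => by linarith [(abs_le.1 (h k)).1],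
    Br_mono hM fun k _ => (abs_le.1 (h k)).2⟩

theorem Br_sub (g g' : ℕ → ℝ) : Br M g - Br M g' = Br M fun k => g k - g' k := by
  simp only [Br, mul_sub, Finset.sum_sub_distrib]

theorem abs_up1_le (hM : Mono 0 M) {τ : SM (r + 1)} (h : Rz M.length τ) {φ : SM (r + 2) → ℝ}
    {b : ℝ} (e : ∀ ρ, Rz M.length ρ → |φ ρ| ≤ b) : |up1 M φ τ| ≤ b := by
  have h1 := up1_mono hM h fun ρ hρ => (abs_le.1 (e ρ hρ)).2
  have h2 := up1_mono hM h fun ρ hρ => (abs_le.1 (e ρ hρ)).1
  rw [up1_const] at h1 h2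
  exact abs_le.2 ⟨h2, h1⟩

/-- bounded, and Lipschitz for node moves above `j` -/
structure Lip (K : ℕ) (d : ℕ → ℝ) (j : ℕ) (b : ℝ) (φ : SM r → ℝ) : Prop where
  bd : ∀ ρ, Rz K ρ → |φ ρ| ≤ b
  mv : ∀ t ρ ρ', j < t → t + 1 < K → Rz K ρ → Rz K ρ' → Mv t ρ ρ' → |φ ρ' - φ ρ| ≤ b * d (t + 1)

/-- families of matrices with one moving node -/
structure Fm (K : ℕ) (τ : ℕ → SM r) : Prop where
  rz : ∀ t, Rz K (τ t)
  mv : ∀ t, Mv t (τ t) (τ (t + 1))

theorem fm_gr {K : ℕ} {σ : SM r} (h : Rz K σ) (c : Fin r) : Fm K fun t => gr K σ c t :=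
  ⟨fun t => h.gr c t, fun _ => mv_gr (fun _ _ => .inl rfl) c (.inr ⟨rfl, rfl⟩)⟩

theorem Fm.gr {K : ℕ} {τ : ℕ → SM r} (h : Fm K τ) (y : Fin r) (k : ℕ) :
    Fm K fun t => gr K (τ t) y (max k t) :=
  ⟨fun t => (h.rz t).gr y _, fun t => mv_gr (h.mv t) y (by omega)⟩

variable {d : ℕ → ℝ} {j : ℕ} {b : ℝ}

theorem Fm.dv {K : ℕ} {τ : ℕ → SM r} (h : Fm K τ) {φ : SM r → ℝ} (H : Lip K d j b φ) :
    DV d j K b 0 fun t => φ (τ t) :=
  ⟨(abs_nonneg _).trans (H.bd _ (h.rz 0)), fun t _ _ => H.bd _ (h.rz t), ∅, le_rfl,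
    fun t h1 h2 _ => by
      obtain ⟨t, rfl⟩ : ∃ u, t = u + 1 := ⟨t - 1, by omega⟩
      exact H.mv t _ _ (by omega) h2 (h.rz t) (h.rz _) (h.mv t)⟩

theorem dv_Br (hM : Mono 0 M) {K : ℕ} {C : ℕ → ℕ → ℝ} (h : ∀ k, DV d j K b 0 (C k)) :
    DV d j K b 0 fun t => Br M fun k => C k t :=
  ⟨(h 0).nn, fun t h1 h2 => abs_Br_le hM fun k => (h k).bd t h1 h2, ∅, le_rfl, fun t h1 h2 _ => by
    rw [Br_sub]
    refine abs_Br_le hM fun k => ?_
    obtain ⟨T, h3, h4⟩ := (h k).var
    exact h4 t h1 h2 (by simp [Finset.card_eq_zero.1 (Nat.le_zero.1 h3)])⟩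

/-- along the path of `c`, `Φ` is a coefficient of bounded variation up to `dm` -/
def Lp (M : List (Lv Ω)) (σ : SM (m + 1)) (c : Fin (m + 1)) (d : ℕ → ℝ) (j : ℕ) (B : ℝ)
    (Φ : SM (m + 2) → ℝ) : Prop :=
  ∃ C, DV d j M.length B 0 C ∧ ∀ t, j < t → t < M.length → NO σ c t →
    |Φ (gr M.length σ c t) - C t| ≤ B * dm M 0 t

variable {σ : SM (m + 1)} {c : Fin (m + 1)}

theorem lp0 (hM : Mono 0 M) (h : Rz M.length σ) {φ : SM (m + 2) → ℝ}
    (H : Lip M.length d j b φ) : Lp M σ c d j b φ :=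
  ⟨_, (fm_gr h c).dv H, fun t _ _ _ => by
    rw [sub_self, abs_zero]
    exact mul_nonneg ((fm_gr h c).dv H).nn (dm_nonneg hM t)⟩

/-- the last leaf leaves the path of `c` at the same node as `e` -/
def lt1 (c e : Fin r) (φ : SM (r + 1) → ℝ) (ρ : SM (r + 1)) : ℝ :=
  if ρ c.succ 0 = ρ c.succ e.succ then φ ρ else 0

theorem abs_lt1 {K : ℕ} {φ : SM (r + 1) → ℝ} (H : ∀ ρ, Rz K ρ → |φ ρ| ≤ b) (c e : Fin r)
    {ρ : SM (r + 1)} (h : Rz K ρ) :
    |lt1 c e φ ρ| ≤ if ρ c.succ 0 = ρ c.succ e.succ then b else 0 := by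
  unfold lt1
  split_ifs
  exacts [H ρ h, abs_zero.le]

theorem gr_c0 {K : ℕ} (h : Rz K σ) {t : ℕ} (ht : t ≤ K) : gr K σ c t c.succ 0 = t := by
  change min t (σ c c) = t
  rw [h.self, min_eq_left ht]

theorem step1 (hM : Mono 0 M) (h : Rz M.length σ) {t : ℕ} (ht : t ≤ M.length) (hn : NO σ c t)
    {φ : SM (m + 3) → ℝ} (H : ∀ ρ, Rz M.length ρ → |φ ρ| ≤ b) :
    |up1 M (lt1 c.succ 0 φ) (gr M.length σ c t) - (1 / (m + 2)) *
      Br M fun k => φ (gr M.length (gr M.length σ c t) 0 (max k t))| ≤ b * dm M 0 t := by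
  have h1 := step hM h ht hn ((h.gr c t).ncm (lt1 c.succ 0 φ)) (B := b) fun y i =>
    (abs_lt1 H _ _ ((h.gr c t).gr y i)).trans_eq (if_congr (by
      change min i (gr M.length σ c t c.succ y) = gr M.length σ c t c.succ 0 ↔ _
      rw [gr_c0 h ht]) rfl rfl)
  have e : ∀ k, lt1 c.succ 0 φ (gr M.length (gr M.length σ c t) 0 (max k t)) =
      φ (gr M.length (gr M.length σ c t) 0 (max k t)) := fun k => if_pos (by
    change min (max k t) (gr M.length σ c t c.succ 0) = gr M.length σ c t c.succ 0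
    rw [gr_c0 h ht]
    omega)
  simp only [e] at h1
  have h2 : (0 : ℝ) < m + 2 := by positivity
  rw [up1, show ((m + 1 : ℕ) : ℝ) + 1 = m + 2 by push_cast; ring, one_div_mul_eq_div, ← sub_div,
    abs_div, abs_of_pos h2]
  exact (div_le_self (abs_nonneg _) (by linarith [(Nat.cast_nonneg m : (0 : ℝ) ≤ m)])).trans h1

theorem dv_div {K : ℕ} (hd : ∀ t, j + 1 < t → t < K → 0 ≤ d t) {C : ℕ → ℝ} (h : DV d j K b 0 C)
    (n : ℕ) : DV d j K b 0 fun t => 1 / ((n : ℝ) + 2) * C t :=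
  (h.smul _).mono hd (mul_le_of_le_one_left h.nn (by
    rw [abs_of_pos (by positivity), div_le_one (by positivity)]
    linarith [(Nat.cast_nonneg n : (0 : ℝ) ≤ n)])) le_rfl

theorem lp1 (hM : Mono 0 M) (hd : ∀ t, j + 1 < t → t < M.length → 0 ≤ d t) (h : Rz M.length σ)
    {φ : SM (m + 3) → ℝ} (H : Lip M.length d j b φ) : Lp M σ c d j b (up1 M (lt1 c.succ 0 φ)) :=
  ⟨_, dv_div hd (dv_Br hM fun k => ((fm_gr h c).gr 0 k).dv H) m,
    fun t _ h2 hn => step1 hM h h2.le hn H.bd⟩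

theorem lp2 (hM : Mono 0 M) (hd : ∀ t, j + 1 < t → t < M.length → 0 ≤ d t) (h : Rz M.length σ)
    {φ : SM (m + 4) → ℝ} (H : Lip M.length d j b φ) :
    Lp M σ c d j (b + b) (up1 M (lt1 c.succ 0 (up1 M (lt1 c.succ.succ (Fin.succ 0) φ)))) := by
  have b0 := ((((fm_gr h c).gr 0 0).gr 0 0).dv H).nn
  refine ⟨_, dv_div hd (dv_Br hM fun k => dv_div hd ((dv_Br hM fun k' =>
    (((fm_gr h c).gr 0 k).gr (Fin.succ 0) k').dv H).add (dv_Br hM fun k' =>
      (((fm_gr h c).gr 0 k).gr 0 (max k' k)).dv H)) (m + 1)) m, fun t _ h2 hn => ?_⟩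
  have h1 := step1 hM h h2.le hn (φ := up1 M (lt1 c.succ.succ (Fin.succ 0) φ)) (b := b)
    fun ρ hρ => abs_up1_le hM hρ fun ρ' h' => (abs_lt1 H.bd _ _ h').trans (by
      split_ifs
      exacts [le_rfl, b0])
  rw [add_mul]
  refine (abs_sub_le _ _ _).trans (add_le_add h1 ?_)
  rw [← mul_sub, Br_sub, abs_mul]
  refine (mul_le_of_le_one_left (abs_nonneg _) (by
    rw [abs_of_pos (by positivity), div_le_one (by positivity)]
    linarith [(Nat.cast_nonneg m : (0 : ℝ) ≤ m)])).trans ?_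
  rw [abs_le, ← Site94.Br_const (M := M) (b * _), ← neg_one_mul, ← Br_mul]
  suffices key : ∀ k ≤ M.length, |_| ≤ b * dm M 0 t from
    ⟨Br_mono hM fun k hk => by linarith [(abs_le.1 (key k hk)).1],
      Br_mono hM fun k hk => (abs_le.1 (key k hk)).2⟩
  intro k hk
  set τ := gr M.length σ c t with hτ
  have r1 : Rz M.length τ := h.gr c t
  have c0 : τ c.succ 0 = t := gr_c0 h h2.le
  have nc := (r1.gr 0 (max k t)).ncm (lt1 c.succ.succ (Fin.succ 0) φ)
  have h3 := step hM h h2.le hn (fun a b j hj => nc a.succ b.succ j hj) (B := b) fun y i =>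
    (abs_lt1 H.bd _ _ ((r1.gr 0 _).gr y.succ i)).trans_eq (if_congr (by
      change min i (τ c.succ y) = τ c.succ 0 ↔ _
      rw [c0]) rfl rfl)
  have e1 : ∀ k', lt1 c.succ.succ (Fin.succ 0) φ (gr M.length (gr M.length τ 0 (max k t))
      (Fin.succ 0) (max k' t)) = φ _ := fun k' => if_pos (by
    change min (max k' t) (τ c.succ 0) = τ c.succ 0
    omega)
  have e2 : ∀ k', lt1 c.succ.succ (Fin.succ 0) φ (gr M.length (gr M.length τ 0 (max k t)) 0
      (max k' (max k t))) = φ (gr M.length (gr M.length τ 0 (max k t)) 0 (max (max k' k) t)) :=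
    fun k' => by
      rw [max_assoc]
      exact if_pos (by
        change min (max k' (max k t)) (min (max k t) (τ c.succ 0)) = τ c.succ 0
        omega)
  simp only [e1] at h3
  have h4 : (0 : ℝ) < (m + 1 : ℕ) + 2 := by positivity
  rw [up1, Ws_gr' r1 0 (max_le hk h2.le) nc, show ((m + 1 + 1 : ℕ) : ℝ) + 1 = (m + 1 : ℕ) + 2 by
    push_cast; ring, one_div_mul_eq_div, ← sub_div, abs_div, abs_of_pos h4]
  simp only [e2, add_sub_add_right_eq_sub]
  exact (div_le_self (abs_nonneg _) (by linarith [(Nat.cast_nonneg (m + 1) : (0 : ℝ) ≤ _)])).trans h3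

/-- the last leaf leaves the path of `c` at a new node between `j` and `K` -/
def N0 (K j : ℕ) (c : Fin r) (ρ : SM (r + 1)) : Prop :=
  j < ρ c.succ 0 ∧ ρ c.succ 0 < K ∧ ∀ y, y ≠ c → ρ c.succ y.succ ≠ ρ c.succ 0

instance (K j : ℕ) (c : Fin r) (ρ : SM (r + 1)) : Decidable (N0 K j c ρ) := by
  unfold N0; infer_instance

/-- the labels on the path of `c` -/
def oT (σ : SM r) (c : Fin r) : Finset ℕ := (Finset.univ.erase c).image (σ c)

theorem mem_oT {σ : SM r} {c : Fin r} {t : ℕ} : t ∉ oT σ c ↔ NO σ c t := by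
  simp [oT, NO]

theorem Ws_N0 (h : Rz M.length σ) (P : SM (m + 2) → ℝ) :
    Ws M σ (fun y i => if N0 M.length j c (gr M.length σ y i) then P (gr M.length σ y i) else 0) =
      ∑ t ∈ Finset.Ico (j + 1) M.length, off j (oT σ c) t * (dm M 0 t * P (gr M.length σ c t)) := by
  set g : ℕ → ℝ := fun t => if j < t ∧ t < M.length ∧ NO σ c t then P (gr M.length σ c t) else 0
  rw [Ws_congr M σ (G' := fun y i => g (min i (σ c y))) fun y i hi => ?_, Ws_gg M h c g,
    Finset.sum_eq_zero (s := Finset.univ.erase c) fun y hy =>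
      if_neg fun e => e.2.2 y (Finset.ne_of_mem_erase hy) rfl, add_zero]
  · symm
    refine (Finset.sum_congr rfl fun t ht => ?_).trans (Finset.sum_subset (fun t ht => ?_)
      fun t _ ht => ?_)
    · have := Finset.mem_Ico.1 ht
      simp only [g, off, mem_oT, show j < t from this.1, this.2, true_and]
      split_ifs <;> simp
    · simp only [Finset.mem_Ico, Finset.mem_range] at ht ⊢
      omega
    · rw [Finset.mem_Ico] at ht
      simp only [g]
      rw [if_neg (by omega), mul_zero]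
  · refine if_ctx_congr Iff.rfl (fun e => congrArg P ?_) fun _ => rfl
    have e1 : min i (σ c y) = i := by
      by_cases hy : y = c
      · rw [hy, h.self, min_eq_left hi]
      · have := e.2.2 y hy
        change σ c y ≠ min i (σ c y) at this
        omega
    rw [e1]
    exact (h.gr_eq (by omega)).symm

/-- **weak sum over the moving node** -/
theorem core (hM : Mono 0 M) (hd : ∀ t, j + 1 < t → t < M.length → 0 ≤ d t) (h : Rz M.length σ)
    {Φ H : SM (m + 2) → ℝ} {B Θ β : ℝ} (hΦ : Lp M σ c d j B Φ) (hΘ : 0 ≤ Θ)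
    (hH : ∀ t, |H (gr M.length σ c t)| ≤ β)
    (W : ∀ B r C, DV d j M.length B r C → |∑ t ∈ Finset.Ico (j + 1) M.length,
      C t * (dm M 0 t * H (gr M.length σ c t))| ≤ B * ((r + 1) * Θ)) :
    |Ws M σ fun y i => if N0 M.length j c (gr M.length σ y i) then
      H (gr M.length σ y i) * Φ (gr M.length σ y i) else 0| ≤
      B * (2 * (2 * (m + 1) + 1) * Θ +
        β * ∑ t ∈ Finset.Ico (j + 1) M.length, dm M 0 t * dm M 0 t) := by
  obtain ⟨C, h1, h2⟩ := hΦ
  have h3 := W _ _ _ ((dv_off hd (oT σ c)).mul h1)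
  have h4 : ((oT σ c).card : ℝ) ≤ m + 1 := by
    exact_mod_cast Finset.card_image_le.trans ((Finset.card_le_univ _).trans_eq (Fintype.card_fin _))
  rw [Ws_N0 h fun ρ => H ρ * Φ ρ, mul_add]
  refine ((congrArg abs (add_sub_cancel _ _).symm).trans_le (abs_add_le _ _)).trans
    (add_le_add (h3.trans ?_) ?_)
  · push_cast
    nlinarith [mul_nonneg h1.nn hΘ]
  · rw [← Finset.sum_sub_distrib, Finset.mul_sum, Finset.mul_sum]
    refine (Finset.abs_sum_le_sum_abs _ _).trans (Finset.sum_le_sum fun t ht => ?_)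
    have h5 := Finset.mem_Ico.1 ht
    have h6 := dm_nonneg hM t
    have h7 := (abs_nonneg _).trans (hH t)
    unfold off
    split_ifs with e
    · have := mul_le_mul (hH t) (h2 t e.1 h5.2 (mem_oT.1 e.2)) (abs_nonneg _) h7
      rw [← abs_mul] at this
      refine le_of_eq_of_le ?_ ((mul_le_mul_of_nonneg_left this h6).trans_eq (by ring))
      rw [← abs_of_nonneg h6, ← abs_mul, abs_of_nonneg h6]
      congr 1
      ring
    · simpa using mul_nonneg h1.nn (mul_nonneg h7 (mul_nonneg h6 h6))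

end Crest.Agent.T156.Cas.C394

end
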