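import Crest.Agent.T156.C3D_94

/-!
# Row 156, block C (helper94): the exception of `[aU, aU, aU]`, replacement of late leaves
-/

set_option autoImplicit false
set_option linter.all false

noncomputable section

namespace Crest.Agent.T156.Cas.C394

open Crest.Agent.T157.E Crest.Agent.T157.Casc Crest.Agent.T157.SL
open C40 Nu87
open Ck32 (TB)

variable {r : ℕ}

/-- bulk factor, the first two edges at the level `j` -/
def Bj (D : CD) (σ : SM r) (j : ℕ) (a b a' b' c d : Fin r) : ℝ :=
  TB D σ fun x => oU D.q j (x a) (x b) * oU D.q j (x a') (x b') * oU D.q (σ c d) (x c) (x d)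

/-- a leaf that leaves the path of `c` at the node of `(c, d)` is replaced by `c` -/
def rp (σ : SM r) (c d x : Fin r) : Fin r := if σ c x = σ c d then c else x

/-- the cost of the replacement -/
def RepS : Prop := ∀ (r : ℕ) (a b a' b' c d : Fin (r + 1)), c ≠ d → Bd false fun D =>
  avm D.B r fun σ => if Xc D.J D.K σ a b a' b' c d then
    (Bk D σ a b a' b' c d - Bj D σ (σ c b) (rp σ c d a) b (rp σ c d a') b' c d) *
      Sk D σ a b a' b' c d else 0

/-- the main part -/
def MaiS : Prop := ∀ (r : ℕ) (a b a' b' c d : Fin (r + 1)), c ≠ d → Bd false fun D =>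
  avm D.B r fun σ => if Xc D.J D.K σ a b a' b' c d then
    Bj D σ (σ c b) (rp σ c d a) b (rp σ c d a') b' c d * Sk D σ a b a' b' c d else 0

end Crest.Agent.T156.Cas.C394

end
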