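import Crest.Agent.T156.C3A_94
import Crest.Agent.T156.C3E_94

/-!
# Row 156, block C (helper94): the exception of `[aU, aU, aU]`, main part
-/

set_option autoImplicit false
set_option linter.all false

noncomputable section

namespace Crest.Agent.T156.Cas.C394

open Crest.Agent.T157.E Crest.Agent.T157.Casc Crest.Agent.T157.SL
open Crest.ProbabilityR.SpinGlassDynamics (spin)
open C40 Nu87 Wp52 Cw55
open Ck32 (TB upF lenS)
open Ker15 (Mv)

variable {D : CD} {τ0 : ℝ} {r m N : ℕ}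

/-- site factor, the first two edges at the level `j` -/
def Sj (D : CD) (σ : SM r) (j : ℕ) (a b a' b' c d : Fin r) : ℝ :=
  D.τ j ^ 2 * (D.τ (σ c d) *
    Ck32.TS D σ fun x => oE D.q j (x a) (x b) * oE D.q j (x a') (x b') * oE D.q (σ c d) (x c) (x d))

/-- the constant of the site factor -/
def cS (τ0 : ℝ) (r : ℕ) : ℝ := τ0 ^ 2 * ((8 + 16 * (r + 1) ^ 2) * (τ0 + 1))

theorem lip_Sj (H : D.Ok τ0) {j : ℕ} (hJ : D.J ≤ j) (hj : j ≤ D.K) (a b a' b' c d : Fin r) :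
    Lip D.B.length D.dv j (cS τ0 r) fun σ : SM r => Sj D σ j a b a' b' c d := by
  set ξ : (Fin r → Bool) → ℝ := fun x => oE D.q j (x a) (x b) * oE D.q j (x a') (x b') with hξ
  have x4 : ∀ x, |ξ x| ≤ 4 := fun x =>
    (SF97.amul (abs_oE_le H.ook hj _ _) (abs_oE_le H.ook hj _ _)).trans_eq (by norm_num)
  have x4' : ∀ x, |ξ x * (spin (x c) * spin (x d))| ≤ 4 := fun x => by
    rw [abs_mul, OneP.abs_spin2, mul_one]; exact x4 x
  have e : ∀ σ : SM r, Sj D σ j a b a' b' c d = D.τ j ^ 2 *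
      (D.τ (σ c d) * Ck32.TS D σ (fun x => ξ x * (spin (x c) * spin (x d))) -
        D.τ (σ c d) * D.q (σ c d) * Ck32.TS D σ ξ) := fun σ => by
    rw [Sj, mul_assoc (D.τ _), ← mul_sub, Ck32.TS, Ck32.TS, Ck32.TS, ← TM_mul (c := D.q _), ← TM_sub]
    congr 3
    funext x
    simp only [hξ, oE]
    ring
  have t0 := H.tau0
  have um : ∀ {σ : SM r}, Rz D.B.length σ → Ker15.Um D.S.length σ := fun h =>
    SF97.um_of_rz (lenS (D := D) ▸ h)
  have t1 : ∀ i, |D.τ i| ≤ τ0 := fun i => (abs_of_nonneg (H.tau_mem i).1).trans_le (H.tau_mem i).2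
  have t2 : ∀ i ≤ D.K, |D.τ i * D.q i| ≤ τ0 := fun i hi =>
    (SF97.amul (t1 i) (Ck32.abs_q_le H (D.B_len ▸ hi))).trans_eq (mul_one _)
  have t3 : |D.τ j ^ 2| ≤ τ0 ^ 2 := by
    rw [abs_pow]; exact pow_le_pow_left₀ (abs_nonneg _) (t1 j) 2
  have r0 : (0 : ℝ) ≤ (r + 1) ^ 2 := by positivity
  refine ⟨fun ρ h => ?_, fun t ρ ρ' h1 h2 h h' mv => ?_⟩
  · rw [e]
    refine SF97.amul t3 ((abs_sub _ _).trans ((add_le_add
      (SF97.amul (t1 _) (SF97.abs_TM (um h) 0 x4'))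
      (SF97.amul (t2 _ (D.B_len ▸ h.le c d)) (SF97.abs_TM (um h) 0 x4))).trans ?_))
    nlinarith [mul_nonneg r0 t0]
  · rw [D.B_len] at h2
    have dv := dv_dom H.ook H.mono (t := t + 1) (by omega) h2.le
    have d0 := H.dv0 h2.le
    have v1 : SF97.vv D.S t ≤ D.dv (t + 1) := by
      rw [SF97.vv, tm_S H.ook h2.le, tm_S H.ook (by omega)]
      exact (le_abs_self _).trans dv.1
    have m1 : ∀ {F : (Fin r → Bool) → ℝ}, (∀ x, |F x| ≤ 4) →
        |Ck32.TS D ρ' F - Ck32.TS D ρ F| ≤ 8 * (r + 1) ^ 2 * D.dv (t + 1) := fun hF =>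
      (SF97.mvF (N := r + 1) (r1_S H.ook) (monoS H.mono) (by omega) (by omega)
        (by rw [lenS, D.B_len]; omega) (um h) (um h') mv 0 hF).trans (by push_cast; nlinarith)
    have m2 : ∀ f : ℕ → ℝ, |f (t + 1) - f t| ≤ D.dv (t + 1) →
        |f (ρ' c d) - f (ρ c d)| ≤ D.dv (t + 1) := fun f hf => by
      rcases mv c d with e | ⟨e, e'⟩
      · rw [e, sub_self, abs_zero]; exact d0
      · rw [e, e']; exact hf
    have k : ∀ {u u' v v' : ℝ}, |u| ≤ τ0 → |u' - u| ≤ D.dv (t + 1) → |v'| ≤ 4 →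
        |v' - v| ≤ 8 * (r + 1) ^ 2 * D.dv (t + 1) →
        |u' * v' - u * v| ≤ D.dv (t + 1) * 4 + τ0 * (8 * (r + 1) ^ 2 * D.dv (t + 1)) :=
      fun {u u' v v'} h1 h2 h3 h4 => by
        rw [show u' * v' - u * v = (u' - u) * v' + u * (v' - v) by ring]
        exact (abs_add_le _ _).trans (add_le_add (SF97.amul h2 h3) (SF97.amul h1 h4))
    rw [e, e, ← mul_sub, cS, mul_assoc (τ0 ^ 2), sub_sub_sub_comm]
    refine SF97.amul t3 ((abs_sub _ _).trans ((add_le_add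
      (k (t1 _) (m2 D.τ dv.2.1) (SF97.abs_TM (um h') 0 x4') (m1 x4'))
      (k (t2 _ (D.B_len ▸ h.le c d)) (m2 (fun i => D.τ i * D.q i) dv.2.2.1)
        (SF97.abs_TM (um h') 0 x4) (m1 x4))).trans ?_))
    nlinarith [mul_nonneg t0 d0, mul_nonneg r0 d0]

theorem cS_nonneg (H : D.Ok τ0) (r : ℕ) : 0 ≤ cS τ0 r := by
  have := H.tau0
  unfold cS
  positivity

theorem abs_Bj (H : D.Ok τ0) {σ : SM r} (h : Rz D.B.length σ) {j : ℕ} (hj : j ≤ D.K)
    (a b a' b' c d : Fin r) : |Bj D σ j a b a' b' c d| ≤ 8 :=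
  (Ck32.abs_TB_le h (G := fun _ => 8) fun x => (SF97.amul (SF97.amul (abs_oU_le H.ook hj _ _)
    (abs_oU_le H.ook hj _ _)) (abs_oU_le H.ook ((h.le c d).trans_eq D.B_len) _ _)).trans_eq
      (by norm_num)).trans_eq (TM_const wt_one90 h 8)

theorem Bj_inj {σ : SM N} (h : Rz D.B.length σ) {ι : Fin r → Fin N} (hι : Function.Injective ι)
    (j : ℕ) (a b a' b' c d : Fin r) : Bj D σ j (ι a) (ι b) (ι a') (ι b') (ι c) (ι d) =
      Bj D (fun x y => σ (ι x) (ι y)) j a b a' b' c d :=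
  TM_inj wt_one90 h hι fun x =>
    oU D.q j (x a) (x b) * oU D.q j (x a') (x b') * oU D.q (σ (ι c) (ι d)) (x c) (x d)

theorem Sj_inj {σ : SM N} (h : Rz D.B.length σ) {ι : Fin r → Fin N} (hι : Function.Injective ι)
    (j : ℕ) (a b a' b' c d : Fin r) : Sj D σ j (ι a) (ι b) (ι a') (ι b') (ι c) (ι d) =
      Sj D (fun x y => σ (ι x) (ι y)) j a b a' b' c d :=
  congrArg (fun u => D.τ j ^ 2 * (D.τ (σ (ι c) (ι d)) * u)) (TM_inj wt_one90 (lenS (D := D) ▸ h) hι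
    fun x => oE D.q j (x a) (x b) * oE D.q j (x a') (x b') * oE D.q (σ (ι c) (ι d)) (x c) (x d))

/-- the conditions on the base -/
def X0 (J : ℕ) (σ : SM r) (c b b' h h' : Fin r) : Prop :=
  J < σ c b ∧ σ c b < σ b b' ∧ σ c b < σ c h ∧ σ c b < σ c h'

instance (J : ℕ) (σ : SM r) (c b b' h h' : Fin r) : Decidable (X0 J σ c b b' h h') := by
  unfold X0; infer_instance

/-- the weak size at the level `j` -/
def Th (D : CD) (j : ℕ) : ℝ := 2 * (D.u 2 j * D.fs D.F0 j + (D.K + 1) * (4 * D.tl))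

theorem Th_nonneg (H : D.Ok τ0) (j : ℕ) : 0 ≤ Th D j := by
  have := D.u0 2 j
  have := H.fs0 H.F00 j
  have := H.tl0
  unfold Th
  positivity

theorem weak (T : TlS) (H : D.Ok τ0) {σ : SM (m + 1)} (hσ : Rz D.B.length σ)
    {c b b' h h' : Fin (m + 1)} (X : X0 D.J σ c b b' h h') (B : ℝ) (k : ℕ) (C : ℕ → ℝ)
    (hC : DV D.dv (σ c b) D.B.length B k C) :
    |∑ t ∈ Finset.Ico (σ c b + 1) D.B.length, C t * (dm D.B 0 t *
      Bj D (gr D.B.length σ c t) (σ c b) h.succ b.succ h'.succ b'.succ c.succ 0)| ≤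
      B * ((k + 1) * Th D (σ c b)) := by
  obtain ⟨x1, x2, x3, x4⟩ := X
  set j := σ c b with hj
  have jK : j ≤ D.K := D.B_len ▸ hσ.le c b
  have e1 : σ h b = j := by
    have := hσ.ultra c h b; have := hσ.ultra h c b; have := hσ.comm h c
    omega
  have e2 : σ h' b' = j := by
    have := hσ.ultra c h' b'; have := hσ.ultra h' c b'; have := hσ.comm h' c
    have := hσ.ultra c b b'; have := hσ.ultra c b' b; have := hσ.comm b' b
    omega
  have n1 : h ≠ b := fun e => by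
    rw [e] at x3; omega
  have n2 : h' ≠ b' := fun e => by
    have := hσ.le c h
    rw [e, hσ.self] at e2; omega
  have A : TB D σ (fun x => |oU D.q j (x h) (x b) * oU D.q j (x h') (x b')|) ≤ D.u 2 j := by
    have p1 := Ck32.TB_pow (D := D) hσ n1 2
    have p2 := Ck32.TB_pow (D := D) hσ n2 2
    rw [e1] at p1
    rw [e2] at p2
    refine (TM_mono wt_one90 hσ (G := fun x => 1 / 2 * (|oU D.q j (x h) (x b)| ^ 2 +
      |oU D.q j (x h') (x b')| ^ 2)) fun x => ?_).trans_eq ?_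
    · rw [abs_mul]
      nlinarith [sq_nonneg (|oU D.q j (x h) (x b)| - |oU D.q j (x h') (x b')|)]
    · rw [TM_mul, TM_add]
      unfold Ck32.TB at p1 p2
      rw [p1, p2]
      ring
  have u0 := D.u0 2 j
  rw [D.B_len] at hC
  have key := abel (Y := fun t => dm D.B 0 t *
      Bj D (gr D.B.length σ c t) j h.succ b.succ h'.succ b'.succ c.succ 0)
    (F := fun i => D.u 2 j * D.F0 i) (ε := 4 * D.tl) (fun t _ ht => H.dv0 ht.le) hC
    (by linarith [H.tl0]) (fun i => mul_nonneg u0 (H.F00 i))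
    (fun i => mul_le_mul_of_nonneg_left (H.wk0.anti i).1 u0) (fun i h1 _ => by
      have := T τ0 D H _ _ _ H.wk0 _ σ hσ c
        (fun x => oU D.q j (x h) (x b) * oU D.q j (x h') (x b')) _ 4 (fun x =>
          (SF97.amul (abs_oU_le H.ook jK _ _) (abs_oU_le H.ook jK _ _)).trans_eq (by norm_num)) A i
      rw [tail_eq D (by omega)] at this
      refine le_of_eq_of_le (congrArg _ (Finset.sum_congr rfl fun t ht => ?_)) this
      rw [Bj, gr_c0 hσ (D.B_len ▸ (Finset.mem_Ico.1 ht).2.le)]) le_rfl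
  rw [fz_mul, ← fs_eq] at key
  rw [show Finset.Ico (j + 1) D.B.length = Finset.Ico (j + 1) D.K by rw [D.B_len]]
  refine key.trans ?_
  have := mul_nonneg hC.nn (mul_nonneg (Nat.cast_nonneg (α := ℝ) k)
    (mul_nonneg (show (0 : ℝ) ≤ D.K + 1 by positivity) H.tl0))
  unfold Th
  nlinarith

/-- the outer sum -/
theorem outer (T : TlS) (H : D.Ok τ0) {f : SM (m + 2) → ℝ} {c b b' h h' : Fin (m + 1)} {B : ℝ}
    (hB : 0 ≤ B) (hf : ∀ σ, Rz D.B.length σ → ∃ Φ : SM (m + 2) → ℝ,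
      (X0 D.J σ c b b' h h' → Lp D.B σ c D.dv (σ c b) B Φ) ∧ ∀ y i, f (gr D.B.length σ y i) =
        if X0 D.J σ c b b' h h' ∧ N0 D.B.length (σ c b) c (gr D.B.length σ y i) then
          Bj D (gr D.B.length σ y i) (σ c b) h.succ b.succ h'.succ b'.succ c.succ 0 *
            Φ (gr D.B.length σ y i) else 0) :
    |avm D.B (m + 1) f| ≤ B * (20 * (2 * (m + 1) + 1) + 8) * D.E0 := by
  set G : ℕ → ℝ := fun j => B * (2 * (2 * (m + 1) + 1) * Th D j + 8 * D.I D.dx) with hG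
  have I0 := H.I0 fun j _ => H.dx0 j
  have G0 : ∀ j, 0 ≤ G j := fun j => by
    have := Th_nonneg H j
    positivity
  have key : ∀ σ, Rz D.B.length σ → |Ws D.B σ (fun y i => f (gr D.B.length σ y i)) / (m + 1)| ≤
      if c = b then 0 else upF D G (σ c b) := fun σ hσ => by
    obtain ⟨Φ, h1, h2⟩ := hf σ hσ
    by_cases X : X0 D.J σ c b b' h h'
    · have cb : c ≠ b := fun e => by
        have := X.2.2.1
        have := hσ.le c h
        rw [← e, hσ.self] at *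
        omega
      simp only [h2, X, true_and, if_neg cb, upF, if_pos X.1]
      rw [abs_div, abs_of_pos (by positivity : (0 : ℝ) < m + 1)]
      refine (div_le_self (abs_nonneg _) (by linarith [(Nat.cast_nonneg m : (0 : ℝ) ≤ m)])).trans
        ((core H.mono (fun t _ ht => H.dv0 (D.B_len ▸ ht.le)) hσ (h1 X) (Th_nonneg H _)
          (H := fun ρ => Bj D ρ (σ c b) h.succ b.succ h'.succ b'.succ c.succ 0)
          (fun t => abs_Bj H (hσ.gr c t) (D.B_len ▸ hσ.le c b) _ _ _ _ _ _)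
          (weak T H hσ X)).trans (mul_le_mul_of_nonneg_left (add_le_add le_rfl
            (mul_le_mul_of_nonneg_left ?_ (by norm_num))) hB))
      refine Finset.sum_le_sum_of_subset_of_nonneg (fun t ht => ?_) fun t _ _ =>
        mul_nonneg (H.dx0 t) (H.dx0 t)
      rw [Finset.mem_Ico, D.B_len] at ht
      exact CD.mem_up.2 ⟨by have := X.1; omega, ht.2⟩
    · simp only [h2, X, false_and, if_false, Ws_const, mul_zero, zero_div, abs_zero]
      split_ifs
      exacts [le_rfl, Ck32.upF_nonneg G0 _]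
  refine (Site94.abs_avm_le H.mono key).trans ?_
  have E0 := H.E00
  split_ifs with e
  · rw [avm_const]
    positivity
  · rw [avm_pair _ _ _ e, ← Br, Ck32.Br_upF H, hG, D.I_mul, D.I_add, D.I_mul, mul_assoc B]
    refine mul_le_mul_of_nonneg_left ?_ hB
    have h1 : D.I (Th D) ≤ 10 * D.E0 := by
      unfold Th
      rw [D.I_mul, D.I_add]
      have := H.I_le (a := fun _ => (D.K + 1) * (4 * D.tl)) (by have := H.tl0; positivity)
        fun _ _ => le_rfl
      linarith [H.uF_le, H.K1tl_le]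
    have h2 := H.I_le (a := fun _ => 8 * D.I D.dx) (by positivity) fun _ _ => le_rfl
    nlinarith [H.dx_le, (Nat.cast_nonneg m : (0 : ℝ) ≤ m)]

/-- the term with base `o`, free leaf `d` and late leaves `l`, `l'` -/
def Sm (D : CD) (σ : SM N) (o : Fin (m + 1) → Fin N) (d l l' a a' : Fin N)
    (c b b' h h' : Fin (m + 1)) : ℝ :=
  if (X0 D.J (fun x y => σ (o x) (o y)) c b b' h h' ∧ σ (o c) (o b) < σ (o c) d ∧
      σ (o c) d < D.B.length ∧ ∀ y, y ≠ c → σ (o c) (o y) ≠ σ (o c) d) ∧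
      σ (o c) l = σ (o c) d ∧ σ (o c) l' = σ (o c) d then
    Bj D σ (σ (o c) (o b)) (o h) (o b) (o h') (o b') (o c) d *
      Sj D σ (σ (o c) (o b)) a (o b) a' (o b') (o c) d else 0

theorem Sm_inj {σ : SM N} (hσ : Rz D.B.length σ) {ι : Fin r → Fin N} (hι : Function.Injective ι)
    (o : Fin (m + 1) → Fin r) (d l l' a a' : Fin r) (c b b' h h' : Fin (m + 1)) :
    Sm D σ (fun x => ι (o x)) (ι d) (ι l) (ι l') (ι a) (ι a') c b b' h h' =
      Sm D (fun x y => σ (ι x) (ι y)) o d l l' a a' c b b' h h' := by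
  unfold Sm
  rw [Bj_inj hσ hι, Sj_inj hσ hι]

theorem up1_if {Ω : Type} {M : List (Lv Ω)} {ρ : SM (r + 1)} {f ψ : SM (r + 2) → ℝ} {P : Prop}
    [Decidable P] {A : ℝ} (h : ∀ y i, f (gr M.length ρ y i) =
      if P then A * ψ (gr M.length ρ y i) else 0) :
    up1 M f ρ = if P then A * up1 M ψ ρ else 0 := by
  simp only [up1, h]
  split_ifs
  · rw [Ws_mul, mul_div_assoc]
  · rw [Ws_const, mul_zero, zero_div]

variable {c b b' h h' : Fin (m + 1)}

theorem lipX (H : D.Ok τ0) {σ : SM (m + 1)} (hσ : Rz D.B.length σ) (X : X0 D.J σ c b b' h h')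
    (a b₁ a' b₂ c₁ d : Fin r) :
    Lip D.B.length D.dv (σ c b) (cS τ0 r) fun ρ : SM r => Sj D ρ (σ c b) a b₁ a' b₂ c₁ d :=
  lip_Sj H X.1.le (D.B_len ▸ hσ.le c b) _ _ _ _ _ _

theorem can0 (T : TlS) (H : D.Ok τ0) (a a' : Fin (m + 2)) :
    |avm D.B (m + 1) fun ρ => Sm D ρ Fin.succ 0 0 0 a a' c b b' h h'| ≤
      cS τ0 (m + 2) * (20 * (2 * (m + 1) + 1) + 8) * D.E0 :=
  outer T H (cS_nonneg H _) fun σ hσ => ⟨fun ρ => Sj D ρ (σ c b) a b.succ a' b'.succ c.succ 0,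
    fun X => lp0 H.mono hσ (lipX H hσ X _ _ _ _ _ _), fun y i =>
      if_congr (and_iff_left ⟨rfl, rfl⟩) rfl rfl⟩

theorem Bj_gr {ρ : SM r} (hρ : Rz D.B.length ρ) (y : Fin r) (i j : ℕ) (a b a' b' c d : Fin r) :
    Bj D (gr D.B.length ρ y i) j a.succ b.succ a'.succ b'.succ c.succ d.succ =
      Bj D ρ j a b a' b' c d :=
  Bj_inj (hρ.gr y i) (Fin.succ_injective r) j a b a' b' c d

theorem ite2 {P Q R : Prop} [Decidable P] [Decidable Q] [Decidable R] (e : R ↔ P ∧ Q)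
    {A A' S : ℝ} (e' : A' = A) :
    (if R then A' * S else 0) = if P then A * (if Q then S else 0) else 0 := by
  rw [if_congr e rfl rfl, ite_and, e', mul_ite, mul_zero]

theorem can1 (T : TlS) (H : D.Ok τ0) (a a' : Fin (m + 3)) :
    |avm D.B (m + 2) fun ρ => Sm D ρ (fun x => x.succ.succ) (Fin.succ 0) 0 0 a a' c b b' h h'| ≤
      cS τ0 (m + 3) * (20 * (2 * (m + 1) + 1) + 8) * D.E0 := by
  refine outer T H (f := up1 D.B fun ρ =>
    Sm D ρ (fun x => x.succ.succ) (Fin.succ 0) 0 0 a a' c b b' h h') (c := c) (b := b) (b' := b')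
    (h := h) (h' := h') (cS_nonneg H _) fun σ hσ => ⟨up1 D.B (lt1 c.succ 0 fun ρ =>
      Sj D ρ (σ c b) a b.succ.succ a' b'.succ.succ c.succ.succ (Fin.succ 0)), fun X => lp1 H.mono
    (fun t _ ht => H.dv0 (D.B_len ▸ ht.le)) hσ (lipX H hσ X _ _ _ _ _ _), fun y i =>
      up1_if fun y' i' => ?_⟩
  exact ite2 (and_congr_right fun _ => and_self_iff) (Bj_gr (hσ.gr y i) y' i' _ _ _ _ _ _ _)

theorem can2 (T : TlS) (H : D.Ok τ0) (a a' : Fin (m + 4)) :
    |avm D.B (m + 3) fun ρ => Sm D ρ (fun x => x.succ.succ.succ) (Fin.succ (Fin.succ 0))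
      (Fin.succ 0) 0 a a' c b b' h h'| ≤
      (cS τ0 (m + 4) + cS τ0 (m + 4)) * (20 * (2 * (m + 1) + 1) + 8) * D.E0 := by
  refine outer T H (f := up1 D.B (up1 D.B fun ρ => Sm D ρ (fun x => x.succ.succ.succ)
    (Fin.succ (Fin.succ 0)) (Fin.succ 0) 0 a a' c b b' h h')) (c := c) (b := b) (b' := b')
    (h := h) (h' := h') (add_nonneg (cS_nonneg H _) (cS_nonneg H _)) fun σ hσ =>
    ⟨up1 D.B (lt1 c.succ 0 (up1 D.B (lt1 c.succ.succ (Fin.succ 0) fun ρ => Sj D ρ (σ c b) a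
      b.succ.succ.succ a' b'.succ.succ.succ c.succ.succ.succ (Fin.succ (Fin.succ 0))))),
      fun X => lp2 H.mono (fun t _ ht => H.dv0 (D.B_len ▸ ht.le)) hσ (lipX H hσ X _ _ _ _ _ _),
      fun y i => up1_if fun y' i' => ?_⟩
  refine (up1_if (P := _ ∧ _) fun y'' i'' => ?_).trans (ite2 Iff.rfl rfl)
  exact ite2 and_assoc.symm ((Bj_gr ((hσ.gr y i).gr y' i') y'' i'' _ _ _ _ _ _ _).trans
    (Bj_gr (hσ.gr y i) y' i' _ _ _ _ _ _ _))

end Crest.Agent.T156.Cas.C394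

end
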