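import Crest.Agent.T156.CDef_40

/-!
# Row 156, block C (helper31): the glue from the leaves to the heads
-/

set_option autoImplicit false

noncomputable section

namespace Crest.Agent.T156.Cas.C40

namespace Bd

variable {b : Bool} {g g' : CD → ℝ}

theorem congr (h : Bd b g) (e : ∀ (τ0 : ℝ) (D : CD), D.Ok τ0 → D.W.isSome = b → g' D = g D) :
    Bd b g' := fun τ0 => (h τ0).imp fun _ hC =>
  ⟨hC.1, fun D hD hb => by rw [e τ0 D hD hb]; exact hC.2 D hD hb⟩

theorem zero (b : Bool) : Bd b fun _ => 0 := fun _ => ⟨0, le_rfl, fun _ _ _ => by simp⟩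

theorem add (h : Bd b g) (h' : Bd b g') : Bd b fun D => g D + g' D := fun τ0 => by
  obtain ⟨C, h0, h1⟩ := h τ0
  obtain ⟨C', h0', h1'⟩ := h' τ0
  exact ⟨C + C', add_nonneg h0 h0', fun D hD hb => (abs_add_le _ _).trans
    ((add_le_add (h1 D hD hb) (h1' D hD hb)).trans_eq (add_mul _ _ _).symm)⟩

theorem const_mul (h : Bd b g) (c : ℝ) : Bd b fun D => c * g D := fun τ0 => by
  obtain ⟨C, h0, h1⟩ := h τ0
  exact ⟨|c| * C, mul_nonneg (abs_nonneg c) h0, fun D hD hb => by
    rw [abs_mul, mul_assoc]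
    exact mul_le_mul_of_nonneg_left (h1 D hD hb) (abs_nonneg c)⟩

theorem neg (h : Bd b g) : Bd b fun D => -g D :=
  (h.const_mul (-1)).congr fun _ _ _ _ => (neg_one_mul _).symm

theorem sub (h : Bd b g) (h' : Bd b g') : Bd b fun D => g D - g' D :=
  (h.add h'.neg).congr fun _ _ _ _ => sub_eq_add_neg _ _

theorem div_const (h : Bd b g) (c : ℝ) : Bd b fun D => g D / c :=
  (h.const_mul c⁻¹).congr fun _ _ _ _ => div_eq_inv_mul _ _

theorem sum {α : Type*} (A : Finset α) {g : α → CD → ℝ} (h : ∀ i ∈ A, Bd b (g i)) :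
    Bd b fun D => ∑ i ∈ A, g i D := by
  classical
  induction A using Finset.induction_on with
  | empty => exact (zero b).congr fun _ _ _ _ => Finset.sum_empty
  | insert a A ha ih =>
    exact ((h a (Finset.mem_insert_self _ _)).add
      (ih fun i hi => h i (Finset.mem_insert_of_mem hi))).congr fun _ _ _ _ => Finset.sum_insert ha

end Bd

namespace Gl31

/-- words of length `1 … 4` that are all small give a small sum -/
theorem bd_sumW {b : Bool} (c : List Lt → ℝ) {T : CD → List Lt → ℝ}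
    (h : ∀ f : List Lt, 1 ≤ f.length → f.length ≤ 4 → Bd b fun D => T D f) :
    Bd b fun D => sumW c (T D) :=
  Bd.sum _ fun k hk => Bd.sum _ fun f _ => ((h (List.ofFn f) (by simp)
    (by have := Finset.mem_range.1 hk; simp; omega)).const_mul _).div_const _

theorem sumW_add (c T T' : List Lt → ℝ) :
    sumW c (fun f => T f + T' f) = sumW c T + sumW c T' := by
  simp only [sumW, mul_add, add_div, Finset.sum_add_distrib]

theorem sumW_sub (c T T' : List Lt → ℝ) :
    sumW c (fun f => T f - T' f) = sumW c T - sumW c T' := by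
  simp only [sumW, mul_sub, sub_div, Finset.sum_sub_distrib]

/-- one word -/
def pt (w : List Lt) (m : ℝ) (f : List Lt) : ℝ := if f = w then m else 0

theorem sumW_pt (c : List Lt → ℝ) (w : List Lt) (m : ℝ) (h1 : 1 ≤ w.length) (h4 : w.length ≤ 4) :
    sumW c (pt w m) = c w * m / w.length.factorial := by
  obtain ⟨k, hk⟩ : ∃ k, w.length = k + 1 := ⟨w.length - 1, by omega⟩
  have e : List.ofFn (fun i : Fin (k + 1) => w.get (i.cast hk.symm)) = w := by
    refine List.ext_getElem (by simp [hk]) fun i _ _ => ?_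
    rw [List.getElem_ofFn]
    rfl
  rw [sumW, Finset.sum_eq_single k, Finset.sum_eq_single fun i => w.get (i.cast hk.symm)]
  · rw [e, pt, if_pos rfl, hk]
  · intro f _ hf
    rw [pt, if_neg fun h => hf (List.ofFn_injective (h.trans e.symm)), mul_zero, zero_div]
  · simp
  · intro j _ hj
    refine Finset.sum_eq_zero fun f _ => ?_
    rw [pt, if_neg fun h => hj (by have := congrArg List.length h; simp at this; omega), mul_zero,
      zero_div]
  · intro h
    exact absurd (Finset.mem_range.2 (by omega)) h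

/-- the main term of a word -/
def mn (D : CD) (f : List Lt) : ℝ :=
  pt [aL] (D.lam2 * D.Sh' / 2) f + pt [bL] (-(D.dd 1 0 * D.S1) / 4) f + pt [aU] D.f1' f +
  pt [bU] (-(D.dd 1 0 * D.Su) / 4) f + pt [aL, aL] (D.lam2 * D.S2 / 2) f +
  pt [aU, aU] (D.QM + D.LOC) f + pt [aL, aL, aL] (-(D.lam3 * D.S3)) f +
  pt [aU, aL, aL] (D.S2 * D.dmx) f + pt [aL, aU, aL] (D.S2 * D.dmx) f +
  pt [aL, aL, aU] (D.S2 * D.dmx) f + pt [aU, aU, aU] D.LOC3 f +
  pt [aL, aL, aL, aL] (D.k44 * D.S4 / 2) f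

/-- the words with a main term -/
def sp : List (List Lt) := [[aL], [bL], [aU], [bU], [aL, aL], [aU, aU], [aL, aL, aL],
  [aU, aL, aL], [aL, aU, aL], [aL, aL, aU], [aU, aU, aU], [aL, aL, aL, aL]]

theorem mn_zero (D : CD) {f : List Lt} (h : f ∉ sp) : mn D f = 0 := by
  simp only [sp, List.mem_cons, List.not_mem_nil, or_false, not_or] at h
  simp only [mn, pt, h, if_false, add_zero]

theorem sumW_mn (c : List Lt → ℝ) (D : CD) : sumW c (mn D) =
    c [aL] * (D.lam2 * D.Sh' / 2) + c [bL] * (-(D.dd 1 0 * D.S1) / 4) + c [aU] * D.f1' +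
    c [bU] * (-(D.dd 1 0 * D.Su) / 4) + c [aL, aL] * (D.lam2 * D.S2 / 2) / 2 +
    c [aU, aU] * (D.QM + D.LOC) / 2 + c [aL, aL, aL] * (-(D.lam3 * D.S3)) / 6 +
    (c [aU, aL, aL] + c [aL, aU, aL] + c [aL, aL, aU]) * (D.S2 * D.dmx) / 6 +
    c [aU, aU, aU] * D.LOC3 / 6 + c [aL, aL, aL, aL] * (D.k44 * D.S4 / 2) / 24 := by
  unfold mn
  simp only [sumW_add]
  rw [sumW_pt, sumW_pt, sumW_pt, sumW_pt, sumW_pt, sumW_pt, sumW_pt, sumW_pt, sumW_pt, sumW_pt,
    sumW_pt, sumW_pt] <;> try decide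
  simp only [List.length_cons, List.length_nil, Nat.factorial]
  push_cast
  ring

/-- the classes of words -/
def Cls (f : List Lt) : Prop := f ∈ sp ∨ (f ∉ sp ∧ ((Odd (f.count aL) ∧ f.count aL < f.length) ∨
  (deg f = 4 ∧ Even (f.count aL) ∧ (aU ∈ f ∨ bU ∈ f)) ∨ 5 ≤ deg f ∨ f.Perm [aL, aL, bL] ∨
  f.Perm [bL, bL] ∨ f.Perm [aU, bU] ∨ f.Perm [aU, bL]))

instance (f : List Lt) : Decidable (Cls f) := by unfold Cls; infer_instance

/-- the classes for the `U` part of the test -/
def ClsU (f : List Lt) : Prop := (deg f ≠ 2 ∨ f.count aL = 1) ∨ f = [bL] ∨ f = [aL, aL] ∨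
  f = [bU] ∨ f = [aU, aU]

instance (f : List Lt) : Decidable (ClsU f) := by unfold ClsU; infer_instance

theorem all_words {p : List Lt → Prop} (h1 : ∀ a, p [a]) (h2 : ∀ a b, p [a, b])
    (h3 : ∀ a b c, p [a, b, c]) (h4 : ∀ a b c d, p [a, b, c, d]) :
    ∀ f : List Lt, 1 ≤ f.length → f.length ≤ 4 → p f
  | [], h, _ => by simp at h
  | [a], _, _ => h1 a
  | [a, b], _, _ => h2 a b
  | [a, b, c], _, _ => h3 a b c
  | [a, b, c, d], _, _ => h4 a b c d
  | _ :: _ :: _ :: _ :: _ :: _, _, h => by simp at h; omega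

theorem cls : ∀ f : List Lt, 1 ≤ f.length → f.length ≤ 4 → Cls f :=
  all_words (by decide) (by decide) (by decide) (by decide)

theorem clsU : ∀ f : List Lt, 1 ≤ f.length → f.length ≤ 4 → ClsU f :=
  all_words (by decide) (by decide) (by decide) (by decide)

/-- **every word is its main term up to the error** -/
theorem word {b : Bool} (hE : ExS) (H : Lvs b) (f : List Lt) (h1 : 1 ≤ f.length)
    (h4 : f.length ≤ 4) : Bd b fun D => D.tw f - mn D f := by
  obtain ⟨yh, y2, y3, y4, lb, mx, q2, c3, ab, cro, cr4, cr5⟩ := H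
  have pm : ∀ {f' : List Lt} {m : CD → ℝ}, f.Perm f' → (∀ D, mn D f = m D) →
      (Bd b fun D => D.tw f' - m D) → Bd b fun D => D.tw f - mn D f := fun hp hm h =>
    h.congr fun τ0 D hD _ => by rw [((hE τ0 D hD).2.2.2 _ _ hp).1, hm]
  have p0 : ∀ {f' : List Lt}, f ∉ sp → f.Perm f' → (Bd b fun D => D.tw f') →
      Bd b fun D => D.tw f - mn D f := fun hn hp h =>
    pm hp (fun D => mn_zero D hn) (h.congr fun _ _ _ _ => sub_zero _)
  rcases cls f h1 h4 with h | ⟨hn, h | h | h | h | h | h | h⟩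
  · simp only [sp, List.mem_cons, List.not_mem_nil, or_false] at h
    rcases h with rfl | rfl | rfl | rfl | rfl | rfl | rfl | rfl | rfl | rfl | rfl | rfl
    · exact pm (.refl _) (fun D => by simp [mn, pt]) yh
    · exact pm (m := fun D => -(D.dd 1 0 * D.S1) / 4) (.refl _) (fun D => by simp [mn, pt])
        ((Bd.zero b).congr fun τ0 D hD _ => sub_eq_zero.2 (hE τ0 D hD).2.1)
    · exact pm (m := fun D => D.f1') (.refl _) (fun D => by simp [mn, pt])
        ((Bd.zero b).congr fun τ0 D hD _ => sub_eq_zero.2 (hE τ0 D hD).1)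
    · exact pm (m := fun D => -(D.dd 1 0 * D.Su) / 4) (.refl _) (fun D => by simp [mn, pt])
        ((Bd.zero b).congr fun τ0 D hD _ => sub_eq_zero.2 (hE τ0 D hD).2.2.1)
    · exact pm (.refl _) (fun D => by simp [mn, pt]) y2
    · exact pm (.refl _) (fun D => by simp [mn, pt]) q2
    · exact pm (m := fun D => -(D.lam3 * D.S3)) (.refl _) (fun D => by simp [mn, pt])
        (Bd.congr y3 fun _ _ _ _ => sub_neg_eq_add _ _)
    · exact pm (.refl _) (fun D => by simp [mn, pt]) mx
    · exact pm (by decide) (fun D => by simp [mn, pt]) mx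
    · exact pm (by decide) (fun D => by simp [mn, pt]) mx
    · exact pm (.refl _) (fun D => by simp [mn, pt]) c3
    · exact pm (.refl _) (fun D => by simp [mn, pt]) y4
  · exact p0 hn (.refl _) (cro f h4 h.1 h.2)
  · exact p0 hn (.refl _) (cr4 f h.1 h.2.1 h.2.2)
  · exact p0 hn (.refl _) (cr5 f h4 h)
  · exact p0 hn h lb.1
  · exact p0 hn h lb.2
  · exact p0 hn h ab.1
  · exact p0 hn h ab.2

theorem words {b : Bool} (hE : ExS) (H : Lvs b) (c : List Lt → ℝ) :
    Bd b fun D => sumW c D.tw - sumW c (mn D) :=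
  (bd_sumW c (T := fun D f => D.tw f - mn D f) (word hE H)).congr fun _ D _ _ =>
    (sumW_sub c D.tw (mn D)).symm

theorem sumW_one (D : CD) : sumW (fun _ => 1) (mn D) = D.main := by
  rw [sumW_mn]
  simp only [CD.main, CD.yh, CD.y2, CD.y3, CD.y4, CD.mx, CD.q2, CD.c3]
  ring

theorem sumW_lo (D : CD) : sumW (degC true) (mn D) =
    D.yh + 2 * D.y2 + 3 * D.y3 + 4 * D.y4 + 2 * D.mx := by
  rw [sumW_mn]
  simp [degC, Mul55.dg, CD.yh, CD.y2, CD.y3, CD.y4, CD.mx]
  ring

theorem sumW_up (D : CD) : sumW (degC false) (mn D) =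
    D.f1' + D.mx + 2 * D.q2 + D.LOC3 / 2 := by
  rw [sumW_mn]
  simp [degC, Mul55.dg, CD.mx, CD.q2]
  ring

end Gl31

open Gl31

/-- **glue, value** -/
theorem glueV : GlueV := fun hE hR H h3 =>
  ⟨((hR.1.sub (words hE H fun _ => 1)).sub (Bd.div_const h3 6)).congr fun _ D _ _ => by
      rw [sumW_one, CD.main, CD.c3]; ring,
    ((hR.2.1 true).sub (words hE H (degC true))).congr fun _ D _ _ => by rw [sumW_lo]; ring,
    (((hR.2.1 false).sub (words hE H (degC false))).sub (Bd.div_const h3 2)).congr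
      fun _ D _ _ => by rw [sumW_up]; ring⟩

/-- **glue, test** -/
theorem glueT : GlueT := fun hE hR H hc hl hu => by
  have hU : Bd true fun D => sumW (fun _ => 1) D.tU := bd_sumW _ (T := fun D => D.tU)
    fun f h1 h4 => by
      rcases clsU f h1 h4 with h | rfl | rfl | rfl | rfl
      exacts [hc f h1 h4 h, hl.1, hl.2, hu.1, hu.2]
  exact ((hR.2.2.add (words hE H fun _ => 1)).sub hU).congr fun _ D _ _ => by
    rw [sumW_one]; ring

end Crest.Agent.T156.Cas.C40

end
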