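import Crest.Agent.T156.C3B_94
import Crest.Agent.T156.CGl_31

/-!
# Row 156, block C (helper94): the exception of `[aU, aU, aU]`, all orders of the leaves
-/

set_option autoImplicit false
set_option linter.all false

noncomputable section

namespace Crest.Agent.T156.Cas.C394

open Crest.Agent.T157.E Crest.Agent.T157.Casc Crest.Agent.T157.SL
open C40 Nu87 Function

variable {D : CD} {r m k : ℕ}

theorem avm_Sm {ι : Fin (k + 1) → Fin (r + 1)} (hι : Injective ι) (o : Fin (m + 1) → Fin (k + 1))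
    (d l l' a a' : Fin (k + 1)) (c b b' h h' : Fin (m + 1)) :
    avm D.B r (fun σ => Sm D σ (fun x => ι (o x)) (ι d) (ι l) (ι l') (ι a) (ι a') c b b' h h') =
      avm D.B k fun ρ => Sm D ρ o d l l' a a' c b b' h h' :=
  (avm_congr _ _ fun _ hσ => Sm_inj hσ hι o d l l' a a' c b b' h h').trans
    (avm_inj D.B k (fun ρ => Sm D ρ o d l l' a a' c b b' h h') r ι hι)

section gen

variable {o : Fin (m + 1) → Fin (r + 1)} {d l l' a a' : Fin (r + 1)} {c b b' h h' : Fin (m + 1)}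

theorem gen1 (T : TlS) (ho : Injective o) (hd : d ∉ Set.range o) (hl : l ∉ Set.range o)
    (e : l ≠ d) (ha : a = l ∨ a = d ∨ a ∈ Set.range o) (ha' : a' = l ∨ a' = d ∨ a' ∈ Set.range o) :
    Bd false fun D => avm D.B r fun σ => Sm D σ o d l l a a' c b b' h h' := by
  have hι : Injective (Fin.cons l (Fin.cons d o) : Fin (m + 3) → Fin (r + 1)) := by
    simp only [Fin.cons_injective_iff, Fin.range_cons, Set.mem_insert_iff, not_or]
    exact ⟨⟨e, hl⟩, hd, ho⟩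
  simp only [← Set.mem_insert_iff, ← Fin.range_cons] at ha ha'
  obtain ⟨a, rfl⟩ := ha
  obtain ⟨a', rfl⟩ := ha'
  exact Bd.val fun τ0 => ⟨_, fun D H _ => (congrArg abs (avm_Sm hι (fun x => x.succ.succ)
    (Fin.succ 0) 0 0 a a' c b b' h h')).trans_le (can1 T H a a')⟩

theorem gen (T : TlS) (ho : Injective o) (hd : d ∉ Set.range o) (hl : l ∉ Set.range o)
    (hl' : l' ∉ Set.range o) (ha : a = l ∨ a ∈ Set.range o) (ha' : a' = l' ∨ a' ∈ Set.range o) :
    Bd false fun D => avm D.B r fun σ => Sm D σ o d l l' a a' c b b' h h' := by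
  by_cases e : l = d <;> by_cases e' : l' = d
  · subst e e'
    have hι : Injective (Fin.cons l' o : Fin (m + 2) → Fin (r + 1)) :=
      Fin.cons_injective_iff.2 ⟨hd, ho⟩
    simp only [← Set.mem_insert_iff, ← Fin.range_cons] at ha ha'
    obtain ⟨a, rfl⟩ := ha
    obtain ⟨a', rfl⟩ := ha'
    exact Bd.val fun τ0 => ⟨_, fun D H _ => (congrArg abs (avm_Sm hι Fin.succ 0 0 0 a a'
      c b b' h h')).trans_le (can0 T H a a')⟩
  · subst e
    refine (gen1 T ho hd hl' e' (.inr ha) (ha'.imp_right .inr)).congr fun _ D _ _ =>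
      congrArg _ (funext fun σ => if_congr (and_congr_right fun _ => ?_) rfl rfl)
    simp
  · subst e'
    refine (gen1 T ho hd hl e (ha.imp_right .inr) (.inr ha')).congr fun _ D _ _ =>
      congrArg _ (funext fun σ => if_congr (and_congr_right fun _ => ?_) rfl rfl)
    simp
  by_cases e'' : l' = l
  · subst e''
    exact gen1 T ho hd hl e (ha.imp_right .inr) (ha'.imp_right .inr)
  have hι : Injective (Fin.cons l' (Fin.cons l (Fin.cons d o)) : Fin (m + 4) → Fin (r + 1)) := by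
    simp only [Fin.cons_injective_iff, Fin.range_cons, Set.mem_insert_iff, not_or]
    exact ⟨⟨e'', e', hl'⟩, ⟨e, hl⟩, hd, ho⟩
  have h1 : a = l' ∨ a = l ∨ a = d ∨ a ∈ Set.range o := .inr (ha.imp_right .inr)
  have h2 : a' = l' ∨ a' = l ∨ a' = d ∨ a' ∈ Set.range o := ha'.imp_right fun h => .inr (.inr h)
  simp only [← Set.mem_insert_iff, ← Fin.range_cons] at h1 h2
  obtain ⟨a, rfl⟩ := h1
  obtain ⟨a', rfl⟩ := h2
  exact Bd.val fun τ0 => ⟨_, fun D H _ => (congrArg abs (avm_Sm hι (fun x => x.succ.succ.succ)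
    (Fin.succ (Fin.succ 0)) (Fin.succ 0) 0 a a' c b b' h h')).trans_le (can2 T H a a')⟩

end gen

/-- base `c, b, b', h, h'`, free leaf `d`, late leaves `l, l'` -/
def Cx (J K : ℕ) (σ : SM r) (b b' c d h h' l l' : Fin r) : Prop :=
  (X0 J σ c b b' h h' ∧ σ c b < σ c d ∧ σ c d < K ∧
    ∀ y ∈ ({c, b, b', h, h'} : Finset (Fin r)), y ≠ c → σ c y ≠ σ c d) ∧
    σ c l = σ c d ∧ σ c l' = σ c d

instance (J K : ℕ) (σ : SM r) (b b' c d h h' l l' : Fin r) :
    Decidable (Cx J K σ b b' c d h h' l l') := by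
  unfold Cx; infer_instance

theorem Cx.not_mem {J K : ℕ} {σ : SM r} {b b' c d h h' l l' x : Fin r} (hσ : Rz K σ)
    (H : Cx J K σ b b' c d h h' l l') (e : σ c x = σ c d) :
    x ∉ ({c, b, b', h, h'} : Finset (Fin r)) := fun hx => H.1.2.2.2 x hx (fun e' => by
  have := H.1.2.2.1
  rw [e', hσ.self] at e
  omega) e

/-- one pattern -/
def Sx (D : CD) (σ : SM r) (a b a' b' c d h h' l l' : Fin r) : ℝ :=
  if Cx D.J D.B.length σ b b' c d h h' l l' then
    Bj D σ (σ c b) h b h' b' c d * Sj D σ (σ c b) a b a' b' c d else 0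

theorem bd_Sx (T : TlS) {a b a' b' c d h h' l l' : Fin (r + 1)} (ha : a = l ∨ a = h)
    (ha' : a' = l' ∨ a' = h') :
    Bd false fun D => avm D.B r fun σ => Sx D σ a b a' b' c d h h' l l' := by
  set Bs : Finset (Fin (r + 1)) := {c, b, b', h, h'} with hB
  by_cases e : d ∈ Bs ∨ l ∈ Bs ∨ l' ∈ Bs
  · refine (Bd.zero _).congr fun _ D _ _ => (avm_congr _ _ fun σ hσ => if_neg fun H => ?_).trans
      (avm_const _ 0 r)
    rcases e with e | e | e
    exacts [H.not_mem hσ rfl e, H.not_mem hσ H.2.1 e, H.not_mem hσ H.2.2 e]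
  simp only [not_or] at e
  obtain ⟨m, hm⟩ : ∃ m, Bs.card = m + 1 :=
    ⟨Bs.card - 1, by have := Finset.card_pos.2 (⟨c, by simp [hB]⟩ : Bs.Nonempty); omega⟩
  obtain ⟨o, ho, hr⟩ : ∃ o : Fin (m + 1) → Fin (r + 1), Injective o ∧
      ∀ x, x ∈ Set.range o ↔ x ∈ Bs := ⟨Bs.orderEmbOfFin hm, (Bs.orderEmbOfFin hm).injective,
    fun x => by rw [Finset.range_orderEmbOfFin, Finset.mem_coe]⟩
  obtain ⟨c, rfl⟩ := (hr c).2 (by simp [hB])
  obtain ⟨b, rfl⟩ := (hr b).2 (by simp [hB])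
  obtain ⟨b', rfl⟩ := (hr b').2 (by simp [hB])
  obtain ⟨h, rfl⟩ := (hr h).2 (by simp [hB])
  obtain ⟨h', rfl⟩ := (hr h').2 (by simp [hB])
  refine (gen (c := c) (b := b) (b' := b') (h := h) (h' := h') T ho (mt (hr _).1 e.1)
    (mt (hr _).1 e.2.1) (mt (hr _).1 e.2.2) (ha.imp_right fun e => ⟨_, e.symm⟩)
    (ha'.imp_right fun e => ⟨_, e.symm⟩)).congr fun _ D _ _ =>
      congrArg _ (funext fun σ => if_congr (and_congr_left fun _ => and_congr_right fun _ =>
        and_congr_right fun _ => and_congr_right fun _ => ⟨fun H y hy =>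
          H _ ((hr _).1 ⟨y, rfl⟩) (ho.ne hy), fun H y hy e => ?_⟩) rfl rfl)
  obtain ⟨y, rfl⟩ := (hr y).2 hy
  exact H y fun e' => e (congrArg o e')

section pt

variable {J K : ℕ} {σ : SM r} {a b a' b' c d h h' l l' : Fin r}

theorem Xc.lev (hσ : Rz K σ) (X : Xc J K σ a b a' b' c d) : σ a b = σ c b ∧ σ a' b' = σ c b := by
  obtain ⟨x1, x2, x3, x4, x5, x6⟩ := X
  have := hσ.ultra c a b; have := hσ.ultra a c b; have := hσ.comm a c
  have := hσ.ultra a' a b; have := hσ.ultra a a' b; have := hσ.comm a a'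
  have := hσ.ultra a' b b'; have := hσ.ultra a' b' b; have := hσ.comm b b'
  omega

theorem xc_iff (hσ : Rz K σ)
    (e : σ c a = σ c d ∧ h = c ∧ l = a ∨ σ c a ≠ σ c d ∧ h = a ∧ l = d)
    (e' : σ c a' = σ c d ∧ h' = c ∧ l' = a' ∨ σ c a' ≠ σ c d ∧ h' = a' ∧ l' = d) :
    Xc J K σ a b a' b' c d ↔ Cx J K σ b b' c d h h' l l' := by
  have k : ∀ {a h l : Fin r}, σ c a = σ c d ∧ h = c ∧ l = a ∨ σ c a ≠ σ c d ∧ h = a ∧ l = d →
      σ c l = σ c d ∧ (h ≠ c → σ c h ≠ σ c d) ∧ ∀ j, j < σ c d → σ c d < K →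
        (j < σ c h ↔ j < σ c a) := fun e => by
    have := hσ.self c
    rcases e with ⟨e, rfl, rfl⟩ | ⟨e, rfl, rfl⟩
    exacts [⟨e, fun e => (e rfl).elim, fun _ _ _ => by omega⟩, ⟨rfl, fun _ => e, fun _ _ _ => .rfl⟩]
  obtain ⟨k1, k2, k3⟩ := k e
  obtain ⟨k4, k5, k6⟩ := k e'
  have ac := hσ.comm a c
  simp only [Cx, X0, Finset.mem_insert, Finset.mem_singleton, forall_eq_or_imp, forall_eq]
  refine ⟨fun X => ?_, fun ⟨⟨⟨x1, x2, x3, x4⟩, x5, x6, _⟩, _⟩ => ?_⟩
  · have e1 := (X.lev hσ).1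
    obtain ⟨x1, x2, x3, x4, x5, x6⟩ := X
    have e2 : σ c b < σ c d := by have := hσ.ultra c a d; omega
    have e3 : σ c b < σ c a' := by have := hσ.ultra c a a'; omega
    have e4 : σ c b' ≤ σ c b := by have := hσ.ultra c b' b; have := hσ.comm b b'; omega
    exact ⟨⟨⟨e1 ▸ x1, e1 ▸ x3, (k3 _ e2 x6).2 (by omega), (k6 _ e2 x6).2 e3⟩, e2, x6,
      fun e => (e rfl).elim, fun _ => e2.ne, fun _ => (e4.trans_lt e2).ne, k2, k5⟩, k1, k4⟩
  · have y3 := (k3 _ x5 x6).1 x3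
    have y4 := (k6 _ x5 x6).1 x4
    have e1 : σ a b = σ c b := by have := hσ.ultra c a b; have := hσ.ultra a c b; omega
    exact ⟨e1 ▸ x1, by have := hσ.ultra a c a'; omega, e1 ▸ x2, by omega,
      by have := hσ.ultra a c d; omega, x6⟩

theorem Sk_eq (hσ : Rz K σ) (X : Xc J K σ a b a' b' c d) :
    Sk D σ a b a' b' c d = Sj D σ (σ c b) a b a' b' c d := by
  obtain ⟨e1, e2⟩ := X.lev hσ
  have : Site94.SF D.S (fun _ => D.q) ![a, a', c] ![b, b', d] Finset.univ σ = Ck32.TS D σ fun x =>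
      oE D.q (σ a b) (x a) (x b) * oE D.q (σ a' b') (x a') (x b') * oE D.q (σ c d) (x c) (x d) :=
    congrArg _ (funext fun x => Fin.prod_univ_three _)
  rw [Sk, Sj, this, e1, e2]
  ring

theorem split4 (hσ : Rz D.B.length σ) : (if Xc D.J D.K σ a b a' b' c d then
    Bj D σ (σ c b) (rp σ c d a) b (rp σ c d a') b' c d * Sk D σ a b a' b' c d else 0) =
    Sx D σ a b a' b' c d c c a a' + Sx D σ a b a' b' c d c a' a d +
      (Sx D σ a b a' b' c d a c d a' + Sx D σ a b a' b' c d a a' d d) := by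
  rw [← D.B_len]
  have z : ∀ {h h' l l'}, ¬Cx D.J D.B.length σ b b' c d h h' l l' →
      Sx D σ a b a' b' c d h h' l l' = 0 := fun H => if_neg H
  by_cases e : σ c a = σ c d <;> by_cases e' : σ c a' = σ c d
  · rw [z (h' := a') fun H => H.not_mem hσ e' (by simp), z (h := a) fun H => H.not_mem hσ e (by simp),
      z (h := a) fun H => H.not_mem hσ e (by simp), rp, rp, if_pos e, if_pos e', add_zero, add_zero,
      add_zero]
    exact if_ctx_congr (xc_iff hσ (.inl ⟨e, rfl, rfl⟩) (.inl ⟨e', rfl, rfl⟩)) (fun X => by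
      rw [Sk_eq hσ ((xc_iff hσ (.inl ⟨e, rfl, rfl⟩) (.inl ⟨e', rfl, rfl⟩)).2 X)]) fun _ => rfl
  · rw [z (l' := a') fun H => e' H.2.2, z (l' := a') fun H => e' H.2.2,
      z (h := a) fun H => H.not_mem hσ e (by simp), rp, rp, if_pos e, if_neg e', add_zero, add_zero,
      zero_add]
    exact if_ctx_congr (xc_iff hσ (.inl ⟨e, rfl, rfl⟩) (.inr ⟨e', rfl, rfl⟩)) (fun X => by
      rw [Sk_eq hσ ((xc_iff hσ (.inl ⟨e, rfl, rfl⟩) (.inr ⟨e', rfl, rfl⟩)).2 X)]) fun _ => rfl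
  · rw [z (l := a) fun H => e H.2.1, z (l := a) fun H => e H.2.1,
      z (h' := a') fun H => H.not_mem hσ e' (by simp), rp, rp, if_neg e, if_pos e', add_zero,
      add_zero, zero_add]
    exact if_ctx_congr (xc_iff hσ (.inr ⟨e, rfl, rfl⟩) (.inl ⟨e', rfl, rfl⟩)) (fun X => by
      rw [Sk_eq hσ ((xc_iff hσ (.inr ⟨e, rfl, rfl⟩) (.inl ⟨e', rfl, rfl⟩)).2 X)]) fun _ => rfl
  · rw [z (l := a) fun H => e H.2.1, z (l := a) fun H => e H.2.1, z (l' := a') fun H => e' H.2.2,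
      rp, rp, if_neg e, if_neg e', add_zero, zero_add, zero_add]
    exact if_ctx_congr (xc_iff hσ (.inr ⟨e, rfl, rfl⟩) (.inr ⟨e', rfl, rfl⟩)) (fun X => by
      rw [Sk_eq hσ ((xc_iff hσ (.inr ⟨e, rfl, rfl⟩) (.inr ⟨e', rfl, rfl⟩)).2 X)]) fun _ => rfl

end pt

/-- **the main part of the exception** -/
theorem maiS (T : TlS) : MaiS := fun r a b a' b' c d _ =>
  (((bd_Sx T (h := c) (h' := c) (.inl rfl) (.inl rfl)).add
    (bd_Sx T (h := c) (l' := d) (.inl rfl) (.inr rfl))).add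
      ((bd_Sx T (h' := c) (l := d) (.inr rfl) (.inl rfl)).add
        (bd_Sx T (l := d) (l' := d) (.inr rfl) (.inr rfl)))).congr fun _ D _ _ => by
    rw [← avm_add, ← avm_add, ← avm_add]
    exact avm_congr _ _ fun σ hσ => split4 hσ

theorem excS_of (R : RepS) (M : MaiS) : ExcS := fun r a b a' b' c d e =>
  ((R r a b a' b' c d e).add (M r a b a' b' c d e)).congr fun _ D _ _ => by
    rw [← avm_add]
    refine avm_congr _ _ fun σ _ => ?_
    split_ifs
    exacts [by ring, (add_zero _).symm]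

end Crest.Agent.T156.Cas.C394

end
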