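import Crest.Agent.T156.CGl_31

/-!
# Row 156, block C: the error kit (helper54)

Every summand of `E0`, `E1` is nonnegative and at most `E0`, `E1`; calculus of `Bd`.
-/

set_option autoImplicit false
set_option linter.unusedSectionVars false

noncomputable section

namespace Crest.Agent.T156.Cas.C40

open MeasureTheory Real Set Filter Topology
open Crest.Agent.T157.E Crest.Agent.T157.Casc Crest.Agent.T157.SL
open Crest.Agent.T157.G1 (ov)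
open Mul55

theorem acc_succ54 {α : Type} (M : List α) (φ : α → ℝ) (h : ∀ p ∈ M, 0 ≤ φ p) (j : ℕ) :
    ((M.take j).map φ).sum ≤ ((M.take (j + 1)).map φ).sum := by
  rw [List.take_add_one, List.map_append, List.sum_append]
  refine le_add_of_nonneg_right (List.sum_nonneg fun x hx => ?_)
  obtain ⟨p, hp, rfl⟩ := List.mem_map.1 hx
  exact h p (List.mem_of_getElem? (Option.mem_toList.1 hp))

/-- `t ^ (p + 1) ≤ X ^ (p + 1) + (p + 1) c ^ p (t - X)₊` for `0 ≤ t ≤ c` -/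
theorem pow_le_env {t X c : ℝ} (ht : 0 ≤ t) (hc : t ≤ c) (hX : 0 ≤ X) : ∀ p : ℕ,
    t ^ (p + 1) ≤ X ^ (p + 1) + (p + 1) * c ^ p * max (t - X) 0
  | 0 => by simpa using sub_le_iff_le_add'.1 (le_max_left (t - X) 0)
  | p + 1 => by
      have h0 : 0 ≤ c := ht.trans hc
      rcases le_total t X with h | h
      · exact (pow_le_pow_left₀ ht h _).trans (le_add_of_nonneg_right (by positivity))
      · have ih := pow_le_env ht hc hX p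
        rw [max_eq_left (sub_nonneg.2 h)] at ih ⊢
        have h1 : X ^ (p + 1) ≤ c ^ (p + 1) := pow_le_pow_left₀ hX (h.trans hc) _
        have h2 : t * t ^ (p + 1) ≤ t * (X ^ (p + 1) + (p + 1) * c ^ p * (t - X)) :=
          mul_le_mul_of_nonneg_left ih ht
        have h3 : t * ((p + 1) * c ^ p * (t - X)) ≤ c * ((p + 1) * c ^ p * (t - X)) :=
          mul_le_mul_of_nonneg_right hc (mul_nonneg (by positivity) (sub_nonneg.2 h))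
        have h4 := mul_le_mul_of_nonneg_right h1 (sub_nonneg.2 h)
        push_cast
        rw [pow_succ' t (p + 1), pow_succ' X (p + 1)]
        rw [pow_succ' c p] at h4 ⊢
        nlinarith

namespace CD

variable {D : CD} {τ0 : ℝ}

theorem B_len (D : CD) : D.B.length = D.K := List.length_map _

theorem mem_up {j : ℕ} : j ∈ D.up ↔ D.J < j ∧ j < D.K := Finset.mem_Ioo

theorem mem_lo {j : ℕ} : j ∈ D.lo ↔ 1 ≤ j ∧ j ≤ D.J := Finset.mem_Icc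

theorem u0 (D : CD) (p j : ℕ) : 0 ≤ D.u p j := uM_nonneg p j

theorem g0 (D : CD) (j : ℕ) : 0 ≤ D.g j := rpow_nonneg (D.u0 3 j) _

theorem g_cube (D : CD) (j : ℕ) : D.g j ^ 3 = D.u 3 j := by
  rw [g, ← rpow_natCast, ← rpow_mul (D.u0 3 j)]
  norm_num

theorem v0 (D : CD) (y t : ℕ) : 0 ≤ D.v y t :=
  node_nonneg _ (fun z => Finset.sum_nonneg fun x _ =>
    mul_nonneg (P_nonneg wt_one90 _ z x) (Eg33.Cf_nonneg wt_one90 _ y t _ z)) _ _ _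

theorem Iw0 (D : CD) {a : ℕ → ℝ} (h : ∀ j ∈ D.up, 0 ≤ a j) : 0 ≤ D.Iw a :=
  Finset.sum_nonneg fun j hj => mul_nonneg (abs_nonneg _) (h j hj)

theorem Iw_mono (D : CD) {a b : ℕ → ℝ} (h : ∀ j ∈ D.up, a j ≤ b j) : D.Iw a ≤ D.Iw b :=
  Finset.sum_le_sum fun j hj => mul_le_mul_of_nonneg_left (h j hj) (abs_nonneg _)

theorem Iw_add (D : CD) (a b : ℕ → ℝ) : D.Iw (fun j => a j + b j) = D.Iw a + D.Iw b := by
  simp only [Iw, mul_add, Finset.sum_add_distrib]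

theorem Iw_mul (D : CD) (c : ℝ) (a : ℕ → ℝ) : D.Iw (fun j => c * a j) = c * D.Iw a := by
  simp only [Iw, Finset.mul_sum, mul_left_comm c]

theorem Iw_const (D : CD) (c : ℝ) : D.Iw (fun _ => c) = c * D.Iw fun _ => 1 := by
  simpa using D.Iw_mul c fun _ => 1

theorem I_add (D : CD) (a b : ℕ → ℝ) : D.I (fun j => a j + b j) = D.I a + D.I b := by
  simp only [I, mul_add, Finset.sum_add_distrib]

theorem I_mul (D : CD) (c : ℝ) (a : ℕ → ℝ) : D.I (fun j => c * a j) = c * D.I a := by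
  simp only [I, Finset.mul_sum, mul_left_comm c]

theorem abs_sum_om (D : CD) {a b : ℕ → ℝ} (h : ∀ j ∈ D.up, |a j| ≤ b j) :
    |∑ j ∈ D.up, D.om j * a j| ≤ D.Iw b :=
  (Finset.abs_sum_le_sum_abs _ _).trans (Finset.sum_le_sum fun j hj => by
    rw [abs_mul]; exact mul_le_mul_of_nonneg_left (h j hj) (abs_nonneg _))

theorem dd_val (h : D.W.isSome = false) (x y : ℝ) : D.dd x y = x := by
  unfold dd; cases hW : D.W <;> simp_all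

theorem dd_test (h : D.W.isSome = true) (x y : ℝ) : D.dd x y = y := by
  unfold dd; cases hW : D.W <;> simp_all

theorem wt0 (D : CD) : 0 ≤ D.wt := by
  have := D.Iw0 (a := fun _ => 1) fun _ _ => zero_le_one
  unfold wt dd; cases D.W <;> simp_all

theorem wt_val (h : D.W.isSome = false) : D.wt = 1 := dd_val h _ _

theorem wt_test (h : D.W.isSome = true) : D.wt = D.Iw fun _ => 1 := dd_test h _ _

theorem Err_val (h : D.W.isSome = false) :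
    D.Err = D.E0 + D.I fun j => D.e j * D.g j ^ 3 := by
  rw [Err, wt_val h, dd_val h, one_mul]

theorem Err_test (h : D.W.isSome = true) : D.Err = D.wt * D.E0 + D.E1 := by rw [Err, dd_test h]

namespace Wk

variable {μ F f : ℕ → ℝ}

theorem F_anti (h : D.Wk μ F f) : Antitone F := antitone_nat_of_succ_le fun j => (h.anti j).1

theorem f_anti (h : D.Wk μ F f) : Antitone f := antitone_nat_of_succ_le fun j => (h.anti j).2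

end Wk

namespace Wk2

variable {μ F f : ℕ → ℝ}

theorem F_anti (h : D.Wk2 μ F f) : Antitone F := antitone_nat_of_succ_le fun j => (h.anti j).1

theorem f_anti (h : D.Wk2 μ F f) : Antitone f := antitone_nat_of_succ_le fun j => (h.anti j).2

end Wk2

namespace Ok

variable (h : D.Ok τ0)
include h

theorem dx0 (j : ℕ) : 0 ≤ D.dx j := dm_nonneg h.mono j

theorem ex0 (j : ℕ) : 0 ≤ ex D.B j := by
  have := sum_dm D.B 0 j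
  rw [sub_zero] at this
  exact this ▸ Finset.sum_nonneg fun i _ => h.dx0 i

theorem X0 : 0 ≤ D.X := (h.ex0 _).trans h.x1

theorem e0 (j : ℕ) : 0 ≤ D.e j := h.X0.trans (h.eX j)

theorem e_mono : Monotone D.e := monotone_nat_of_le_succ h.emono

theorem tau_mem (j : ℕ) : 0 ≤ D.τ j ∧ D.τ j ≤ τ0 :=
  ⟨(h.ook.oTau_le _ _ j).1, (h.ook.oTau_le _ _ j).2.trans h.tau⟩

theorem tau0 : 0 ≤ τ0 := (h.tau_mem 0).1.trans (h.tau_mem 0).2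

theorem tau_mono : Monotone D.τ := monotone_nat_of_le_succ fun j =>
  mul_le_mul_of_nonneg_left (acc_succ54 D.M _ (fun p hp => (h.ook.nn p hp).1) j) (sq_nonneg _)

theorem fAcc_mono : Monotone (fAcc D.M) := monotone_nat_of_le_succ fun j =>
  acc_succ54 D.M _ (fun p hp => (h.ook.nn p hp).2) j

theorem fAcc0 (j : ℕ) : 0 ≤ fAcc D.M j := by
  simpa [fAcc] using h.fAcc_mono (Nat.zero_le j)

theorem sig_le {i j : ℕ} (hij : i ≤ j) (hj : j ≤ D.K) : D.sig i ≤ D.sig j :=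
  add_le_add (mul_le_mul (h.tau_mono hij) (h.ook.le hij hj) (h.ook.mem (hij.trans hj)).1
    (h.tau_mem j).1) (h.fAcc_mono hij)

theorem sig0 {j : ℕ} (hj : j ≤ D.K) : 0 ≤ D.sig j :=
  add_nonneg (mul_nonneg (h.tau_mem j).1 (h.ook.mem hj).1) (h.fAcc0 j)

theorem dv0 {j : ℕ} (hj : j ≤ D.K) : 0 ≤ D.dv j := by
  unfold dv
  split_ifs
  · exact h.e0 j
  · have h1 := h.sig_le (Nat.sub_le j 1) hj
    have h2 := h.tau_mono (Nat.sub_le j 1)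
    linarith [h.dx0 (j - 1), h.dx0 j]

theorem sum_dx (j : ℕ) : ∑ i ∈ Finset.range (j + 1), D.dx i = ex D.B j :=
  (sum_dm D.B 0 j).trans (sub_zero _)

theorem sum_dx_le {A : Finset ℕ} {j : ℕ} (hA : ∀ i ∈ A, i ≤ j) : ∑ i ∈ A, D.dx i ≤ ex D.B j :=
  (Finset.sum_le_sum_of_subset_of_nonneg (fun i hi => Finset.mem_range.2
    (Nat.lt_succ_of_le (hA i hi))) fun i _ _ => h.dx0 i).trans_eq (h.sum_dx j)

theorem sum_dx_one {A : Finset ℕ} (hA : ∀ i ∈ A, i ≤ D.K) : ∑ i ∈ A, D.dx i ≤ 1 := by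
  have := ex_length D.B
  rw [D.B_len] at this
  exact (h.sum_dx_le hA).trans_eq this

theorem sum_lo : ∑ i ∈ D.lo, D.dx i ≤ D.X := (h.sum_dx_le fun _ hi => (mem_lo.1 hi).2).trans h.x1

theorem dx1 {j : ℕ} (hj : j ≤ D.K) : D.dx j ≤ 1 := by
  simpa using h.sum_dx_one (A := {j}) (by simpa using hj)

theorem I0 {a : ℕ → ℝ} (ha : ∀ j ∈ D.up, 0 ≤ a j) : 0 ≤ D.I a :=
  Finset.sum_nonneg fun j hj => mul_nonneg (h.dx0 j) (ha j hj)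

theorem I_mono {a b : ℕ → ℝ} (ha : ∀ j ∈ D.up, a j ≤ b j) : D.I a ≤ D.I b :=
  Finset.sum_le_sum fun j hj => mul_le_mul_of_nonneg_left (ha j hj) (h.dx0 j)

theorem I_le {a : ℕ → ℝ} {c : ℝ} (hc : 0 ≤ c) (ha : ∀ j ∈ D.up, a j ≤ c) : D.I a ≤ c := by
  refine (h.I_mono ha).trans ?_
  rw [I, ← Finset.sum_mul]
  exact mul_le_of_le_one_left hc (h.sum_dx_one fun _ hi => (mem_up.1 hi).2.le)

theorem hi0 {a : ℕ → ℝ} (ha : ∀ j, 0 ≤ a j) (j : ℕ) : 0 ≤ D.hi a j :=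
  Finset.sum_nonneg fun t _ => mul_nonneg (h.dx0 t) (ha t)

theorem lw0 {a : ℕ → ℝ} (ha : ∀ j, 0 ≤ a j) (j : ℕ) : 0 ≤ D.lw a j :=
  Finset.sum_nonneg fun t _ => mul_nonneg (h.dx0 t) (ha t)

theorem sv0 {F : ℕ → ℝ} (hF : ∀ j, 0 ≤ F j) (j : ℕ) : 0 ≤ D.sv F j :=
  Finset.sum_nonneg fun t ht => mul_nonneg (h.dv0 (Finset.mem_Ioo.1 ht).2.le) (hF t)

theorem fs0 {F : ℕ → ℝ} (hF : ∀ j, 0 ≤ F j) (j : ℕ) : 0 ≤ D.fs F j := add_nonneg (hF _) (h.sv0 hF j)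

theorem F00 (j : ℕ) : 0 ≤ D.F0 j := (h.wk0.nn j).1
theorem f00 (j : ℕ) : 0 ≤ D.f0 j := (h.wk0.nn j).2
theorem F10 (j : ℕ) : 0 ≤ D.F1 j := (h.wk1.nn j).1
theorem G00 (j : ℕ) : 0 ≤ D.G0 j := (h.wg0.nn j).1
theorem f10 (j : ℕ) : 0 ≤ D.f1 j := (h.wk1.nn j).2

theorem N10 : 0 ≤ D.N1 := h.I0 fun j _ => D.g0 j
theorem N20 : 0 ≤ D.N2 := h.I0 fun _ _ => sq_nonneg _

theorem sv_low0 (A : Finset ℕ) (t : ℕ) : 0 ≤ ∑ y ∈ A, D.dx y * D.v y t :=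
  Finset.sum_nonneg fun y _ => mul_nonneg (h.dx0 y) (D.v0 y t)

theorem Lv10 : 0 ≤ D.Lv1 := h.sv_low0 _ _

theorem Lv20 : 0 ≤ D.Lv2 := add_nonneg (sqrt_nonneg _) (mul_nonneg h.X0
  (Finset.sum_nonneg fun y _ => mul_nonneg (h.dx0 y) (sqrt_nonneg _)))

/-- the three summands of `Lad0` -/
theorem Lad0_parts : 0 ≤ D.X ^ 2 * D.Lv1 ∧ 0 ≤ D.I (fun t => D.e t ^ 2 * D.v t t) ∧
    0 ≤ D.I fun t => D.e t * ∑ y ∈ Finset.Ico 1 t, D.dx y * D.v y t :=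
  ⟨mul_nonneg (sq_nonneg _) h.Lv10, h.I0 fun t _ => mul_nonneg (sq_nonneg _) (D.v0 t t),
    h.I0 fun t _ => mul_nonneg (h.e0 t) (h.sv_low0 _ _)⟩

theorem Lad00 : 0 ≤ D.Lad0 :=
  add_nonneg (add_nonneg h.Lad0_parts.1 h.Lad0_parts.2.1) h.Lad0_parts.2.2

theorem Lad10 : 0 ≤ D.Lad1 :=
  D.Iw0 fun t _ => add_nonneg (mul_nonneg (h.e0 t) (D.v0 t t)) (h.sv_low0 _ _)

theorem VF0 : 0 ≤ D.VF := add_nonneg (sq_nonneg _) (h.sv0 (fun _ => sq_nonneg _) _)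

theorem NLa0 : 0 ≤ D.NLa := D.Iw0 fun j _ =>
  mul_nonneg (add_nonneg (sqrt_nonneg _) (h.f00 j)) (add_nonneg (add_nonneg (h.f00 j)
    (h.sv0 h.f00 _)) (h.lw0 (fun t => mul_nonneg (h.e0 t) (sqrt_nonneg _)) j))

theorem TFa0 (a : ℕ → ℝ) {l A : ℕ → ℝ} (hl : ∀ j, 0 < l j) (hA : ∀ j, 0 ≤ A j) :
    0 ≤ D.TFa a l A := by
  have h1 : 0 ≤ log ((D.K : ℝ) + 2) :=
    log_nonneg (by linarith [(Nat.cast_nonneg D.K : (0 : ℝ) ≤ D.K)])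
  have h2 := h.I0 (a := fun t => a t ^ 2 * A t / l t + l t * A t) fun t _ => by
    have := hl t; have := hA t; positivity
  have h3 := h.sv0 h.f00 D.J
  exact add_nonneg (by positivity)
    (D.Iw0 fun j _ => mul_nonneg (h.f00 j) (add_nonneg (h.f00 j) h3))

theorem Z0 : 0 ≤ D.Z := by
  rcases h.nl with h1 | ⟨a, l, A, -, hl, -, hA, h1⟩
  exacts [h.NLa0.trans h1, (h.TFa0 a hl hA.1).trans h1]

/-- the summands of `A1` -/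
theorem A1_parts : 0 ≤ D.I (fun j => √(D.u 4 j) * D.fs D.F1 j) ∧ 0 ≤ √D.tl * D.fs D.F1 D.J ∧
    0 ≤ √D.tl * D.fs D.f1 D.J ∧ 0 ≤ √D.tl * D.Iw (fun j => D.e j * D.G0 j) ∧
    0 ≤ √D.tl * (D.wt * D.fs D.G0 D.J) :=
  ⟨h.I0 fun j _ => mul_nonneg (sqrt_nonneg _) (h.fs0 h.F10 j),
    mul_nonneg (sqrt_nonneg _) (h.fs0 h.F10 _), mul_nonneg (sqrt_nonneg _) (h.fs0 h.f10 _),
    mul_nonneg (sqrt_nonneg _) (D.Iw0 fun j _ => mul_nonneg (h.e0 j) (h.G00 j)),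
    mul_nonneg (sqrt_nonneg _) (mul_nonneg D.wt0 (h.fs0 h.G00 _))⟩

/-- every summand of `A1` is at most `Z` -/
theorem le_Z : D.I (fun j => √(D.u 4 j) * D.fs D.F1 j) ≤ D.Z ∧ √D.tl * D.fs D.F1 D.J ≤ D.Z ∧
    √D.tl * D.fs D.f1 D.J ≤ D.Z ∧ √D.tl * D.Iw (fun j => D.e j * D.G0 j) ≤ D.Z ∧
    √D.tl * (D.wt * D.fs D.G0 D.J) ≤ D.Z := by
  obtain ⟨h6, h7, h8, h9, h10⟩ := h.A1_parts
  have := h.zA
  rw [A1, mul_add √D.tl, mul_add √D.tl, mul_add √D.tl] at this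
  refine ⟨?_, ?_, ?_, ?_, ?_⟩ <;> linarith

theorem u4F_Z : D.I (fun j => √(D.u 4 j) * D.fs D.F1 j) ≤ D.Z := h.le_Z.1
theorem rF1_Z : √D.tl * D.fs D.F1 D.J ≤ D.Z := h.le_Z.2.1
theorem rf1_Z : √D.tl * D.fs D.f1 D.J ≤ D.Z := h.le_Z.2.2.1
theorem reG_Z : √D.tl * D.Iw (fun j => D.e j * D.G0 j) ≤ D.Z := h.le_Z.2.2.2.1
theorem rG_Z : √D.tl * (D.wt * D.fs D.G0 D.J) ≤ D.Z := h.le_Z.2.2.2.2

theorem Ktl_Z : ((D.K : ℝ) + 1) ^ 2 * D.tl ≤ D.Z := le_trans (le_add_of_nonneg_left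
  (D.Iw0 fun j _ => mul_nonneg (D.g0 j) (add_nonneg (mul_nonneg (abs_nonneg _) (D.g0 j))
    (h.I0 fun t _ => mul_nonneg (abs_nonneg _) (D.g0 t))))) h.stw

/-- the pieces of `Cub` and `T3` -/
theorem Cub_parts (j : ℕ) : 0 ≤ D.hi D.g j ∧ 0 ≤ D.e j * D.g j ^ 3 ∧
    0 ≤ D.hi (fun t => D.g t ^ 2) j ∧ 0 ≤ D.lw (fun t => D.e t * D.g t ^ 2) j ∧
    0 ≤ (D.g j + D.N1) * D.lw (fun t => D.e t * D.g t) j :=
  ⟨h.hi0 D.g0 j,
    mul_nonneg (h.e0 j) (pow_nonneg (D.g0 j) _), h.hi0 (fun _ => sq_nonneg _) j,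
    h.lw0 (fun t => mul_nonneg (h.e0 t) (sq_nonneg _)) j, mul_nonneg (add_nonneg (D.g0 j) h.N10)
      (h.lw0 (fun t => mul_nonneg (h.e0 t) (D.g0 t)) j)⟩

theorem Cub0 : 0 ≤ D.Cub := D.Iw0 fun j _ => by
  obtain ⟨h0, h1, h2, h3, h4⟩ := h.Cub_parts j
  have := D.g0 j
  have := h.e0 j
  positivity

theorem T30 : 0 ≤ D.T3 := h.I0 fun j _ => by
  obtain ⟨h0, h1, h2, h3, h4⟩ := h.Cub_parts j
  have := D.g0 j
  have := h.e0 j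
  positivity

theorem Ig30 : 0 ≤ D.I fun j => D.e j * D.g j ^ 3 := h.I0 fun j _ => (h.Cub_parts j).2.1

/-- all summands of `E0` are nonnegative -/
theorem E0_parts : 0 ≤ D.X ^ 6 ∧ 0 ≤ 1 / (D.n : ℝ) ∧ 0 ≤ ((D.K : ℝ) + 1) ^ 2 * D.tl ∧
    0 ≤ D.I D.dx ∧ 0 ≤ D.X ^ 4 * D.N1 ∧ 0 ≤ D.X ^ 3 * (D.N2 + D.N1 ^ 2) ∧
    0 ≤ D.I (fun j => D.u 4 j + D.u 5 j) ∧ 0 ≤ D.Lad0 ∧ 0 ≤ D.VF ∧
    0 ≤ D.I (fun j => D.u 2 j * D.fs D.F0 j) ∧ 0 ≤ D.Lv1 * D.fs D.F0 D.J ∧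
    0 ≤ D.Lv2 * D.fs D.f0 D.J ∧ 0 ≤ D.T3 :=
  ⟨pow_nonneg h.X0 _, by positivity, mul_nonneg (sq_nonneg _) h.tl0, h.I0 fun j _ => h.dx0 j,
    mul_nonneg (pow_nonneg h.X0 _) h.N10,
    mul_nonneg (pow_nonneg h.X0 _) (add_nonneg h.N20 (sq_nonneg _)),
    h.I0 fun j _ => add_nonneg (D.u0 _ _) (D.u0 _ _), h.Lad00,
    h.VF0, h.I0 fun j _ => mul_nonneg (D.u0 _ _) (h.fs0 h.F00 j),
    mul_nonneg h.Lv10 (h.fs0 h.F00 _), mul_nonneg h.Lv20 (h.fs0 h.f00 _), h.T30⟩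

/-- every summand of `E0` is at most `E0` -/
theorem le_E0 : D.X ^ 6 ≤ D.E0 ∧ 1 / (D.n : ℝ) ≤ D.E0 ∧ ((D.K : ℝ) + 1) ^ 2 * D.tl ≤ D.E0 ∧
    D.I D.dx ≤ D.E0 ∧ D.X ^ 4 * D.N1 ≤ D.E0 ∧ D.X ^ 3 * (D.N2 + D.N1 ^ 2) ≤ D.E0 ∧
    D.I (fun j => D.u 4 j + D.u 5 j) ≤ D.E0 ∧ D.Lad0 ≤ D.E0 ∧ D.VF ≤ D.E0 ∧
    D.I (fun j => D.u 2 j * D.fs D.F0 j) ≤ D.E0 ∧ D.Lv1 * D.fs D.F0 D.J ≤ D.E0 ∧
    D.Lv2 * D.fs D.f0 D.J ≤ D.E0 ∧ D.T3 ≤ D.E0 := by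
  obtain ⟨h1, h2, h3, h4, h5, h6, h7, h8, h9, h10, h11, h12, h13⟩ := h.E0_parts
  unfold E0
  refine ⟨?_, ?_, ?_, ?_, ?_, ?_, ?_, ?_, ?_, ?_, ?_, ?_, ?_⟩ <;> linarith

theorem X6_le : D.X ^ 6 ≤ D.E0 := h.le_E0.1
theorem n_le : 1 / (D.n : ℝ) ≤ D.E0 := h.le_E0.2.1
theorem Ktl_le : ((D.K : ℝ) + 1) ^ 2 * D.tl ≤ D.E0 := h.le_E0.2.2.1
theorem dx_le : D.I D.dx ≤ D.E0 := h.le_E0.2.2.2.1
theorem XN1_le : D.X ^ 4 * D.N1 ≤ D.E0 := h.le_E0.2.2.2.2.1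
theorem XN2_le : D.X ^ 3 * (D.N2 + D.N1 ^ 2) ≤ D.E0 := h.le_E0.2.2.2.2.2.1
theorem I45_le : D.I (fun j => D.u 4 j + D.u 5 j) ≤ D.E0 := h.le_E0.2.2.2.2.2.2.1
theorem Lad0_le : D.Lad0 ≤ D.E0 := h.le_E0.2.2.2.2.2.2.2.1
theorem VF_le : D.VF ≤ D.E0 := h.le_E0.2.2.2.2.2.2.2.2.1
theorem uF_le : D.I (fun j => D.u 2 j * D.fs D.F0 j) ≤ D.E0 := h.le_E0.2.2.2.2.2.2.2.2.2.1
theorem LvF_le : D.Lv1 * D.fs D.F0 D.J ≤ D.E0 := h.le_E0.2.2.2.2.2.2.2.2.2.2.1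
theorem Lvf_le : D.Lv2 * D.fs D.f0 D.J ≤ D.E0 := h.le_E0.2.2.2.2.2.2.2.2.2.2.2.1
theorem T3_le : D.T3 ≤ D.E0 := h.le_E0.2.2.2.2.2.2.2.2.2.2.2.2

theorem E00 : 0 ≤ D.E0 := h.E0_parts.1.trans h.X6_le

theorem K1tl_le : ((D.K : ℝ) + 1) * D.tl ≤ D.E0 := by
  refine le_trans (mul_le_mul_of_nonneg_right ?_ h.tl0) h.Ktl_le
  nlinarith [(Nat.cast_nonneg D.K : (0 : ℝ) ≤ D.K)]

theorem tl_le : D.tl ≤ D.E0 :=
  le_trans (le_mul_of_one_le_left h.tl0 (by linarith [(Nat.cast_nonneg D.K : (0 : ℝ) ≤ D.K)]))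
    h.K1tl_le

theorem Iu4_le : D.I (D.u 4) ≤ D.E0 :=
  (h.I_mono fun j _ => by linarith [D.u0 5 j]).trans h.I45_le
theorem Iu5_le : D.I (D.u 5) ≤ D.E0 :=
  (h.I_mono fun j _ => by linarith [D.u0 4 j]).trans h.I45_le

/-- the summands under `Iw` in `E1` -/
theorem Iw_parts (j : ℕ) : 0 ≤ D.dx j ∧ 0 ≤ D.X ^ 4 * D.g j ∧
    0 ≤ D.X ^ 3 * (D.g j ^ 2 + D.g j * D.N1) ∧ 0 ≤ D.u 4 j ∧ 0 ≤ D.u 5 j ∧
    0 ≤ D.u 2 j * D.fs D.F0 j ∧ 0 ≤ D.X ^ 3 * (D.e j * D.G0 j) :=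
  ⟨h.dx0 j, mul_nonneg (pow_nonneg h.X0 _) (D.g0 j),
    mul_nonneg (pow_nonneg h.X0 _) (add_nonneg (sq_nonneg _) (mul_nonneg (D.g0 j) h.N10)),
    D.u0 _ _, D.u0 _ _, mul_nonneg (D.u0 _ _) (h.fs0 h.F00 j),
    mul_nonneg (pow_nonneg h.X0 _) (mul_nonneg (h.e0 j) (h.G00 j))⟩

/-- all summands of `E1` are nonnegative -/
theorem E1_parts : 0 ≤ D.Iw (fun j => D.dx j + D.X ^ 4 * D.g j +
      D.X ^ 3 * (D.g j ^ 2 + D.g j * D.N1) + D.u 4 j + D.u 5 j + D.u 2 j * D.fs D.F0 j +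
      D.X ^ 3 * (D.e j * D.G0 j)) ∧ 0 ≤ D.Cub ∧ 0 ≤ D.Lad1 ∧
    0 ≤ D.I (fun j => D.u 2 j * D.fs D.F1 j) ∧ 0 ≤ (D.Lv1 + D.X ^ 3) * D.fs D.F1 D.J ∧
    0 ≤ D.X ^ 3 * (D.wt * D.sv D.G0 D.J) ∧ 0 ≤ D.Lv2 * D.fs D.f1 D.J ∧ 0 ≤ D.Z :=
  ⟨D.Iw0 fun j _ => by
      obtain ⟨h1, h2, h3, h4, h5, h6, h7⟩ := h.Iw_parts j
      linarith, h.Cub0, h.Lad10, h.I0 fun j _ => mul_nonneg (D.u0 _ _) (h.fs0 h.F10 j),
    mul_nonneg (add_nonneg h.Lv10 (pow_nonneg h.X0 _)) (h.fs0 h.F10 _),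
    mul_nonneg (pow_nonneg h.X0 _) (mul_nonneg D.wt0 (h.sv0 h.G00 _)),
    mul_nonneg h.Lv20 (h.fs0 h.f10 _), h.Z0⟩

/-- every summand of `E1` is at most `E1` -/
theorem le_E1 : D.Iw (fun j => D.dx j + D.X ^ 4 * D.g j +
      D.X ^ 3 * (D.g j ^ 2 + D.g j * D.N1) + D.u 4 j + D.u 5 j + D.u 2 j * D.fs D.F0 j +
      D.X ^ 3 * (D.e j * D.G0 j)) ≤ D.E1 ∧ D.Cub ≤ D.E1 ∧ D.Lad1 ≤ D.E1 ∧
    D.I (fun j => D.u 2 j * D.fs D.F1 j) ≤ D.E1 ∧ (D.Lv1 + D.X ^ 3) * D.fs D.F1 D.J ≤ D.E1 ∧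
    D.X ^ 3 * (D.wt * D.sv D.G0 D.J) ≤ D.E1 ∧ D.Lv2 * D.fs D.f1 D.J ≤ D.E1 ∧ D.Z ≤ D.E1 := by
  obtain ⟨h1, h2, h3, h4, h5, h6, h7, h8⟩ := h.E1_parts
  unfold E1
  refine ⟨?_, ?_, ?_, ?_, ?_, ?_, ?_, ?_⟩ <;> linarith

theorem E10 : 0 ≤ D.E1 := h.Z0.trans h.le_E1.2.2.2.2.2.2.2

/-- any function below the integrand of the first summand of `E1` -/
theorem Iw_le {a : ℕ → ℝ} (ha : ∀ j ∈ D.up, a j ≤ D.dx j + D.X ^ 4 * D.g j +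
    D.X ^ 3 * (D.g j ^ 2 + D.g j * D.N1) + D.u 4 j + D.u 5 j + D.u 2 j * D.fs D.F0 j +
    D.X ^ 3 * (D.e j * D.G0 j)) : D.Iw a ≤ D.E1 := (D.Iw_mono ha).trans h.le_E1.1

theorem Iwdx_le : D.Iw D.dx ≤ D.E1 := h.Iw_le fun j _ => by
  obtain ⟨h1, h2, h3, h4, h5, h6, h7⟩ := h.Iw_parts j; linarith
theorem IwXg_le : D.Iw (fun j => D.X ^ 4 * D.g j) ≤ D.E1 := h.Iw_le fun j _ => by
  obtain ⟨h1, h2, h3, h4, h5, h6, h7⟩ := h.Iw_parts j; linarith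
theorem IwXg2_le : D.Iw (fun j => D.X ^ 3 * (D.g j ^ 2 + D.g j * D.N1)) ≤ D.E1 :=
  h.Iw_le fun j _ => by obtain ⟨h1, h2, h3, h4, h5, h6, h7⟩ := h.Iw_parts j; linarith
theorem Iwu4_le : D.Iw (D.u 4) ≤ D.E1 := h.Iw_le fun j _ => by
  obtain ⟨h1, h2, h3, h4, h5, h6, h7⟩ := h.Iw_parts j; linarith
theorem Iwu5_le : D.Iw (D.u 5) ≤ D.E1 := h.Iw_le fun j _ => by
  obtain ⟨h1, h2, h3, h4, h5, h6, h7⟩ := h.Iw_parts j; linarith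
theorem IwuF_le : D.Iw (fun j => D.u 2 j * D.fs D.F0 j) ≤ D.E1 := h.Iw_le fun j _ => by
  obtain ⟨h1, h2, h3, h4, h5, h6, h7⟩ := h.Iw_parts j; linarith
theorem IwXeF_le : D.Iw (fun j => D.X ^ 3 * (D.e j * D.G0 j)) ≤ D.E1 := h.Iw_le fun j _ => by
  obtain ⟨h1, h2, h3, h4, h5, h6, h7⟩ := h.Iw_parts j; linarith
theorem Cub_le : D.Cub ≤ D.E1 := h.le_E1.2.1
theorem Lad1_le : D.Lad1 ≤ D.E1 := h.le_E1.2.2.1
theorem uF1_le : D.I (fun j => D.u 2 j * D.fs D.F1 j) ≤ D.E1 := h.le_E1.2.2.2.1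
theorem LvF1_le : (D.Lv1 + D.X ^ 3) * D.fs D.F1 D.J ≤ D.E1 := h.le_E1.2.2.2.2.1
theorem XF0_le : D.X ^ 3 * (D.wt * D.sv D.G0 D.J) ≤ D.E1 := h.le_E1.2.2.2.2.2.1
theorem Lvf1_le : D.Lv2 * D.fs D.f1 D.J ≤ D.E1 := h.le_E1.2.2.2.2.2.2.1
theorem Z_le : D.Z ≤ D.E1 := h.le_E1.2.2.2.2.2.2.2

theorem dd_E10 : 0 ≤ D.dd (D.I fun j => D.e j * D.g j ^ 3) D.E1 := by
  have := h.E10
  have := h.Ig30
  unfold dd; cases D.W <;> simp_all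

theorem wtE0_le : D.wt * D.E0 ≤ D.Err := le_add_of_nonneg_right h.dd_E10

theorem Err0 : 0 ≤ D.Err := (mul_nonneg D.wt0 h.E00).trans h.wtE0_le

theorem E0_le (hW : D.W.isSome = false) : D.E0 ≤ D.Err := by
  simpa [wt_val hW] using h.wtE0_le

theorem Ig3_le (hW : D.W.isSome = false) : D.I (fun j => D.e j * D.g j ^ 3) ≤ D.Err := by
  rw [Err_val hW]
  exact le_add_of_nonneg_left h.E00

theorem E1_le (hW : D.W.isSome = true) : D.E1 ≤ D.Err := by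
  rw [Err_test hW]
  exact le_add_of_nonneg_left (mul_nonneg D.wt0 h.E00)

/-- marked pair: a constant `≤ c E0` plus a function with `Iw ≤ c' E1` -/
theorem Iw_split (hW : D.W.isSome = true) {A c c' : ℝ} {a : ℕ → ℝ} (hc : 0 ≤ c) (hc' : 0 ≤ c')
    (hA : A ≤ c * D.E0) (ha : D.Iw a ≤ c' * D.E1) :
    D.Iw (fun j => a j + A) ≤ (c + c') * D.Err := by
  rw [D.Iw_add, D.Iw_const A, ← wt_test hW]
  have h1 := mul_le_mul_of_nonneg_right hA D.wt0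
  have h2 := mul_le_mul_of_nonneg_left h.wtE0_le hc
  have h3 := mul_le_mul_of_nonneg_left (h.E1_le hW) hc'
  nlinarith

/-- moments on LOW -/
theorem u_lo {j : ℕ} (hj : j ∈ D.lo) (p : ℕ) : D.u (p + 1) j ≤ D.X ^ (p + 1) + (p + 1) * D.tl := by
  have h1 := pi2_mono (Ω := Cube D.n) wt_one90 D.B j
    (K := fun x y => |oU D.q j x y| ^ (p + 1))
    (K' := fun x y => D.X ^ (p + 1) + (p + 1) * max (|ov x y| - D.X) 0) (fun x y => by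
      have := pow_le_env (abs_nonneg (ov x y)) (abs_ov_le x y) h.X0 p
      rw [one_pow, mul_one] at this
      rwa [oU, h.qlo j (mem_lo.1 hj).2, sub_zero]) 0
  rw [pi2_add wt_one90, pi2_const wt_one90, pi2_const_mul] at h1
  exact h1.trans (add_le_add le_rfl (mul_le_mul_of_nonneg_left (h.envL j hj) (by positivity)))

/-- moments on UP -/
theorem u_up {j : ℕ} (hj : j ∈ D.up) (p : ℕ) :
    D.u (p + 1) j ≤ D.e j ^ (p + 1) + (p + 1) * 2 ^ p * D.tl := by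
  have h1 := pi2_mono (Ω := Cube D.n) wt_one90 D.B j
    (K := fun x y => |oU D.q j x y| ^ (p + 1))
    (K' := fun x y => D.e j ^ (p + 1) + (p + 1) * 2 ^ p * max (|oU D.q j x y| - D.e j) 0)
    (fun x y => pow_le_env (abs_nonneg _) (abs_oU_le h.ook (mem_up.1 hj).2.le x y) (h.e0 j) p) 0
  rw [pi2_add wt_one90, pi2_const wt_one90, pi2_const_mul] at h1
  exact h1.trans (add_le_add le_rfl (mul_le_mul_of_nonneg_left (h.envU j hj) (by positivity)))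

theorem sum_u_lo (p : ℕ) :
    ∑ j ∈ D.lo, D.dx j * D.u (p + 1) j ≤ D.X ^ (p + 2) + (p + 1) * D.tl := by
  have h1 : 0 ≤ ((p : ℝ) + 1) * D.tl := mul_nonneg (by positivity) h.tl0
  have h2 := pow_nonneg h.X0 (p + 1)
  refine (Finset.sum_le_sum fun j hj =>
    mul_le_mul_of_nonneg_left (h.u_lo hj p) (h.dx0 j)).trans ?_
  rw [← Finset.sum_mul]
  refine (mul_le_mul_of_nonneg_right h.sum_lo (add_nonneg h2 h1)).trans ?_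
  rw [mul_add, ← pow_succ']
  exact add_le_add le_rfl (mul_le_of_le_one_left h1 h.X1)

/-- a sum over all nodes but the root -/
theorem sum_split {a : ℕ → ℝ} : ∑ j ∈ Finset.range (D.K + 1), (if j ≠ 0 then D.dx j * a j else 0) =
    ∑ j ∈ D.lo, D.dx j * a j + D.I a := by
  have hJ := h.cut
  rw [Finset.sum_range_succ, h.top, zero_mul, ite_self, add_zero, ← Finset.sum_filter, I,
    ← Finset.sum_union (Finset.disjoint_left.2 fun j h1 h2 => by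
      have := mem_lo.1 h1; have := mem_up.1 h2; omega)]
  refine Finset.sum_congr (Finset.ext fun j => ?_) fun _ _ => rfl
  simp only [Finset.mem_filter, Finset.mem_range, Finset.mem_union, mem_lo, mem_up]
  omega

end Ok

end CD

/-! ### calculus of `Bd` -/

namespace Bd

variable {b : Bool} {g g' : CD → ℝ}

theorem of_le (H : Bd b g') (e : ∀ τ0 D, CD.Ok D τ0 → D.W.isSome = b → |g D| ≤ |g' D|) : Bd b g :=
  fun τ0 => (H τ0).imp fun _ hC => ⟨hC.1, fun D h hW => (e τ0 D h hW).trans (hC.2 D h hW)⟩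

/-- a bounded factor -/
theorem bmul {c : CD → ℝ} (hc : ∀ τ0, ∃ A, ∀ D, CD.Ok D τ0 → D.W.isSome = b → |c D| ≤ A)
    (H : Bd b g) : Bd b fun D => c D * g D := fun τ0 => by
  obtain ⟨C, hC, h⟩ := H τ0
  obtain ⟨A, hA⟩ := hc τ0
  exact ⟨|A| * C, mul_nonneg (abs_nonneg _) hC, fun D h1 h2 => by
    rw [abs_mul, mul_assoc]
    exact mul_le_mul ((hA D h1 h2).trans (le_abs_self _)) (h D h1 h2) (abs_nonneg _) (abs_nonneg _)⟩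

theorem smul (c : ℝ) (H : Bd b g) : Bd b fun D => c * g D :=
  bmul (c := fun _ => c) (fun _ => ⟨|c|, fun _ _ _ => le_rfl⟩) H

/-- value direction -/
theorem val (H : ∀ τ0 : ℝ, ∃ C : ℝ, ∀ D : CD, D.Ok τ0 → D.W.isSome = false → |g D| ≤ C * D.E0) :
    Bd false g := fun τ0 => (H τ0).elim fun C hC => ⟨|C|, abs_nonneg _, fun D h hW =>
  (hC D h hW).trans (mul_le_mul (le_abs_self _) (h.E0_le hW) h.E00 (abs_nonneg _))⟩

/-- both directions, `C` may be any real -/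
theorem mk' (H : ∀ τ0 : ℝ, ∃ C : ℝ, ∀ D : CD, D.Ok τ0 → D.W.isSome = b → |g D| ≤ C * D.Err) :
    Bd b g := fun τ0 => (H τ0).elim fun C hC => ⟨|C|, abs_nonneg _, fun D h hW =>
  (hC D h hW).trans (mul_le_mul_of_nonneg_right (le_abs_self _) h.Err0)⟩

end Bd

end Crest.Agent.T156.Cas.C40

end
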