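import Crest.Agent.T156.CKit_32
import Crest.Agent.T156.CErr_54

/-!
# Row 156, block C (helper94): the word `[aU, aU, aU]` in the value direction, pieces
-/

set_option autoImplicit false
set_option linter.all false

noncomputable section

namespace Crest.Agent.T156.Cas.C394

open Crest.Agent.T157.E Crest.Agent.T157.Casc Crest.Agent.T157.SL
open C40 Nu87 Ck32

variable {r : ℕ}

/-- the exception: `(a, b)`, `(a', b')` join two clusters, `(c, d)` lies in the cluster of `a` -/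
def Xc (J K : ℕ) (σ : SM r) (a b a' b' c d : Fin r) : Prop :=
  J < σ a b ∧ σ a b < σ a a' ∧ σ a b < σ b b' ∧ σ a b < σ a c ∧ σ a b < σ a d ∧ σ c d < K

instance (J K : ℕ) (σ : SM r) (a b a' b' c d : Fin r) : Decidable (Xc J K σ a b a' b' c d) := by
  unfold Xc; infer_instance

/-- bulk factor -/
def Bk (D : CD) (σ : SM r) (a b a' b' c d : Fin r) : ℝ :=
  TB D σ fun x => ed (oU D.q) a b x σ * ed (oU D.q) a' b' x σ * ed (oU D.q) c d x σ

/-- site factor with the `τ` -/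
def Sk (D : CD) (σ : SM r) (a b a' b' c d : Fin r) : ℝ :=
  D.τ (σ a b) * D.τ (σ a' b') * D.τ (σ c d) *
    Site94.SF D.S (fun _ => D.q) ![a, a', c] ![b, b', d] Finset.univ σ

/-- the exception, graph by graph -/
def ExcS : Prop := ∀ (r : ℕ) (a b a' b' c d : Fin (r + 1)), c ≠ d → Bd false fun D =>
  avm D.B r fun σ => if Xc D.J D.K σ a b a' b' c d then
    Bk D σ a b a' b' c d * Sk D σ a b a' b' c d else 0

/-- everything else is good -/
def RedS : Prop := ExcS → Bd false fun D => D.tw [C40.aU, C40.aU, C40.aU]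

/-- a leaf `z` above the node of `(c, d)` may be replaced by `c` -/
def RlS : Prop := ∃ C : ℝ, 0 ≤ C ∧ ∀ (τ0 : ℝ) (D : CD), D.Ok τ0 → ∀ (r : ℕ) (σ : SM r),
  Rz D.B.length σ → ∀ (x y z y' c d : Fin r) (j t : ℕ), D.J < j → j < t → t < D.K → σ c d = t →
    t ≤ σ z c → σ x y = j → j < σ x c → σ c y' = j →
    |TB D σ fun ω => oU D.q j (ω x) (ω y) * (oU D.q j (ω z) (ω y') - oU D.q j (ω c) (ω y')) *
      oU D.q t (ω c) (ω d)| ≤ C * (D.e t * (D.v j t + D.v t t) + D.tl)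

/-- tail sums of an edge between `c` and a free leaf grafted on the path of `c` -/
def TlS : Prop := ∀ (τ0 : ℝ) (D : CD), D.Ok τ0 → ∀ μ F f : ℕ → ℝ, D.Wk μ F f →
  ∀ (r : ℕ) (σ : SM r), Rz D.B.length σ → ∀ (c : Fin r) (G : (Fin r → Cube D.n) → ℝ) (A b : ℝ),
    (∀ x, |G x| ≤ b) → TB D σ (fun x => |G x|) ≤ A → ∀ m : ℕ,
    |∑ t ∈ D.tail m, μ t * TB D (gr D.B.length σ c t) fun ω =>
      G (fun a => ω a.succ) * oU D.q t (ω c.succ) (ω 0)| ≤ A * F m + b * D.tl

end Crest.Agent.T156.Cas.C394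

end
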