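import Crest.Agent.T156.Com_6
import Crest.Agent.T156.OneP_23
import Crest.Agent.T156.CaTayC_38
import Crest.Agent.T156.Adj_55

/-!
# Row 156: the Taylor coefficients are symmetric multilinear forms (helper55)

`Lam w M h (S :: U) = pairF M S (WdO M U TEf)` is symmetric in all slots.  Abstract symmetric
multilinear forms on lists (`SM`): multinomial and binomial expansions, the scaling identity.
Tensor words `wB` at a factorised model: site letters act on the site factor.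
-/

set_option autoImplicit false
set_option linter.all false

noncomputable section

namespace Crest.Agent.T156.Cas.Mul55

open MeasureTheory Real Set Filter Topology
open Crest.Agent.T157.E Crest.Agent.T157.Casc Crest.Agent.T157.SL

/-! ### symmetric multilinear forms on lists -/

section abs
variable {V : Type*} [AddCommGroup V] [Module ℝ V]

/-- symmetric (on lists with entries in `P`) and linear in the head -/
structure SM (P : Submodule ℝ V) (Λ : List V → ℝ) : Prop where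
  perm : ∀ {U U' : List V}, U.Perm U' → (∀ S ∈ U, S ∈ P) → Λ U = Λ U'
  lin : ∀ (a b : ℝ) (A B : V) (U : List V), Λ ((a • A + b • B) :: U) = a * Λ (A :: U) + b * Λ (B :: U)

variable {P : Submodule ℝ V} {Λ : List V → ℝ}

theorem SM.add (H : SM P Λ) (A B : V) (U : List V) : Λ ((A + B) :: U) = Λ (A :: U) + Λ (B :: U) := by
  simpa using H.lin 1 1 A B U

theorem SM.smul (H : SM P Λ) (a : ℝ) (A : V) (U : List V) : Λ ((a • A) :: U) = a * Λ (A :: U) := by
  simpa using H.lin a 0 A A U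

theorem SM.zero (H : SM P Λ) (U : List V) : Λ (0 :: U) = 0 := by simpa using H.smul 0 0 U

theorem SM.sum (H : SM P Λ) {α : Type*} (T : Finset α) (S : α → V) (U : List V) :
    Λ ((∑ i ∈ T, S i) :: U) = ∑ i ∈ T, Λ (S i :: U) := by
  classical
  induction T using Finset.induction_on with
  | empty => simpa using H.zero U
  | insert a T ha ih => simp only [Finset.sum_insert ha, H.add, ih]

/-- freezing a tail -/
theorem SM.tail (H : SM P Λ) {W : List V} (hW : ∀ S ∈ W, S ∈ P) : SM P fun U => Λ (U ++ W) :=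
  ⟨fun p h => H.perm (p.append_right W) fun S hS => (List.mem_append.1 hS).elim (h S) (hW S),
    fun a b A B U => H.lin a b A B (U ++ W)⟩

theorem SM.cmul (H : SM P Λ) (c : ℝ) : SM P fun U => c * Λ U :=
  ⟨fun p h => by rw [H.perm p h], fun a b A B U => by rw [H.lin]; ring⟩

/-- a slot in the middle -/
theorem SM.mid (H : SM P Λ) {A : V} {U W : List V} (hA : A ∈ P) (hU : ∀ S ∈ U, S ∈ P)
    (hW : ∀ S ∈ W, S ∈ P) : Λ (U ++ A :: W) = Λ (A :: (U ++ W)) :=
  H.perm List.perm_middle fun S hS => by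
    rcases List.mem_append.1 hS with h | h
    · exact hU S h
    · rcases List.mem_cons.1 h with rfl | h
      exacts [hA, hW S h]

/-- **multinomial expansion** -/
theorem SM.expand (H : SM P Λ) {α : Type*} [Fintype α] {S : α → V} (hS : ∀ i, S i ∈ P) :
    ∀ (k : ℕ) {W : List V}, (∀ T ∈ W, T ∈ P) →
      Λ (List.replicate k (∑ i, S i) ++ W) = ∑ f : Fin k → α, Λ (List.ofFn (fun r => S (f r)) ++ W)
  | 0, W, _ => by simp
  | k + 1, W, hW => by
      have h0 : ∑ i, S i ∈ P := P.sum_mem fun i _ => hS i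
      have h1 : ∀ T ∈ List.replicate k (∑ i, S i), T ∈ P := fun T hT =>
        List.eq_of_mem_replicate hT ▸ h0
      have h2 : ∀ f : Fin k → α, ∀ T ∈ List.ofFn (fun r => S (f r)), T ∈ P := fun f T hT => by
        obtain ⟨r, rfl⟩ := List.mem_ofFn.1 hT
        exact hS _
      rw [List.replicate_succ, List.cons_append, H.sum,
        ← (Fin.consEquiv fun _ => α).sum_comp, Fintype.sum_prod_type]
      refine Finset.sum_congr rfl fun i _ => ?_
      rw [← H.mid (hS i) h1 hW, SM.expand H hS k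
        (fun T hT => (List.mem_cons.1 hT).elim (fun e => e ▸ hS i) (hW T))]
      refine Finset.sum_congr rfl fun f _ => ?_
      rw [H.mid (hS i) (h2 f) hW, List.ofFn_succ]
      rfl

theorem SM.expand₀ (H : SM P Λ) {α : Type*} [Fintype α] {S : α → V} (hS : ∀ i, S i ∈ P) (k : ℕ) :
    Λ (List.replicate k (∑ i, S i)) = ∑ f : Fin k → α, Λ (List.ofFn fun r => S (f r)) := by
  simpa using H.expand hS k (W := []) (by simp)

/-- **binomial expansion** -/
theorem SM.binom (H : SM P Λ) {A B : V} (hA : A ∈ P) (hB : B ∈ P) :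
    ∀ (k : ℕ) {W : List V}, (∀ T ∈ W, T ∈ P) → Λ (List.replicate k (A + B) ++ W) =
      ∑ j ∈ Finset.range (k + 1),
        (k.choose j : ℝ) * Λ (List.replicate j A ++ List.replicate (k - j) B ++ W)
  | 0, W, _ => by simp
  | k + 1, W, hW => by
      have r : ∀ {C : V}, C ∈ P → ∀ j, ∀ T ∈ List.replicate j C, T ∈ P := fun hC j T hT =>
        List.eq_of_mem_replicate hT ▸ hC
      have r2 : ∀ i j, ∀ T ∈ List.replicate i A ++ List.replicate j B, T ∈ P := fun i j T hT =>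
        (List.mem_append.1 hT).elim (r hA i T) (r hB j T)
      have c : ∀ {C : V}, C ∈ P → ∀ T ∈ C :: W, T ∈ P := fun hC T hT =>
        (List.mem_cons.1 hT).elim (fun e => e ▸ hC) (hW T)
      rw [List.replicate_succ, List.cons_append, H.add, ← H.mid hA (r (P.add_mem hA hB) k) hW,
        ← H.mid hB (r (P.add_mem hA hB) k) hW, SM.binom H hA hB k (c hA), SM.binom H hA hB k (c hB),
        Finset.sum_choose_succ_mul (fun i j => Λ (List.replicate i A ++ List.replicate j B ++ W)),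
        add_comm]
      congr 1
      · refine Finset.sum_congr rfl fun j hj => ?_
        rw [show k + 1 - j = k - j + 1 by have := Finset.mem_range.1 hj; omega,
          List.replicate_succ']
        simp
      · refine Finset.sum_congr rfl fun j _ => ?_
        rw [H.mid hA (r2 _ _) hW, List.replicate_succ]
        simp

/-- the slot that carries the weight may be any slot -/
theorem SM.slot (H : SM P Λ) {α : Type*} [Fintype α] {S : α → V} (hS : ∀ i, S i ∈ P) (c : α → ℝ)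
    {k : ℕ} (i j : Fin k) {W : List V} (hW : ∀ T ∈ W, T ∈ P) :
    ∑ f : Fin k → α, c (f i) * Λ (List.ofFn (fun r => S (f r)) ++ W) =
      ∑ f : Fin k → α, c (f j) * Λ (List.ofFn (fun r => S (f r)) ++ W) := by
  classical
  refine Fintype.sum_equiv ((Equiv.swap i j).arrowCongr (Equiv.refl α)) _ _ fun f => ?_
  simp only [Equiv.arrowCongr_apply, Equiv.coe_refl, Function.comp, id, Equiv.symm_swap,
    Equiv.swap_apply_right]
  congr 1
  refine (H.tail hW).perm ((Equiv.swap i j).ofFn_comp_perm fun r => S (f r)).symm fun T hT => ?_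
  obtain ⟨r, rfl⟩ := List.mem_ofFn.1 hT
  exact hS _

/-- **scaling**: the test direction `∑ c i • S i` multiplies every word by its total weight -/
theorem SM.scaling (H : SM P Λ) {α : Type*} [Fintype α] {S : α → V} (hS : ∀ i, S i ∈ P)
    (c : α → ℝ) (k : ℕ) {W : List V} (hW : ∀ T ∈ W, T ∈ P) :
    (k + 1 : ℝ) * Λ ((∑ i, c i • S i) :: List.replicate k (∑ i, S i) ++ W) =
      ∑ f : Fin (k + 1) → α, (∑ r, c (f r)) * Λ (List.ofFn (fun r => S (f r)) ++ W) := by
  have h0 : ∑ i, S i ∈ P := P.sum_mem fun i _ => hS i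
  have h1 : ∀ T ∈ List.replicate k (∑ i, S i), T ∈ P := fun T hT =>
    List.eq_of_mem_replicate hT ▸ h0
  have h2 : ∀ f : Fin k → α, ∀ T ∈ List.ofFn (fun r => S (f r)), T ∈ P := fun f T hT => by
    obtain ⟨r, rfl⟩ := List.mem_ofFn.1 hT
    exact hS _
  have e : Λ ((∑ i, c i • S i) :: List.replicate k (∑ i, S i) ++ W) =
      ∑ f : Fin (k + 1) → α, c (f 0) * Λ (List.ofFn (fun r => S (f r)) ++ W) := by
    rw [List.cons_append, H.sum, ← (Fin.consEquiv fun _ => α).sum_comp, Fintype.sum_prod_type]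
    refine Finset.sum_congr rfl fun i _ => ?_
    rw [H.smul, ← H.mid (hS i) h1 hW, H.expand hS k
      (fun T hT => (List.mem_cons.1 hT).elim (fun e => e ▸ hS i) (hW T)), Finset.mul_sum]
    refine Finset.sum_congr rfl fun f _ => ?_
    rw [H.mid (hS i) (h2 f) hW, List.ofFn_succ]
    rfl
  simp only [Finset.sum_mul]
  rw [e, Finset.sum_comm, Finset.sum_congr rfl fun r _ => H.slot hS c r 0 hW]
  simp

/-- the same with factorials: compare with `SM.expand` divided by `(k + 1)!` -/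
theorem SM.scaling' (H : SM P Λ) {α : Type*} [Fintype α] {S : α → V} (hS : ∀ i, S i ∈ P)
    (c : α → ℝ) (k : ℕ) :
    Λ ((∑ i, c i • S i) :: List.replicate k (∑ i, S i)) / k.factorial =
      ∑ f : Fin (k + 1) → α, (∑ r, c (f r)) * (Λ (List.ofFn fun r => S (f r)) / (k + 1).factorial) := by
  have := H.scaling hS c k (W := []) (by simp)
  simp only [List.append_nil] at this
  simp only [← mul_div_assoc, ← Finset.sum_div]
  rw [← this, Nat.factorial_succ]
  have : (k.factorial : ℝ) ≠ 0 := by positivity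
  push_cast
  field_simp

/-- two letters -/
theorem SM.scaling₂ (H : SM P Λ) {A B : V} (hA : A ∈ P) (hB : B ∈ P) (k : ℕ) {W : List V}
    (hW : ∀ T ∈ W, T ∈ P) : (k + 1 : ℝ) * Λ (A :: List.replicate k (A + B) ++ W) =
      ∑ j ∈ Finset.range (k + 2), j * (((k + 1).choose j : ℝ) *
        Λ (List.replicate j A ++ List.replicate (k + 1 - j) B ++ W)) := by
  have r : ∀ {C : V}, C ∈ P → ∀ j, ∀ T ∈ List.replicate j C, T ∈ P := fun hC j T hT =>
    List.eq_of_mem_replicate hT ▸ hC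
  rw [List.cons_append, ← H.mid hA (r (P.add_mem hA hB) k) hW, H.binom hA hB k
    (fun T hT => (List.mem_cons.1 hT).elim (fun e => e ▸ hA) (hW T)),
    Finset.sum_range_succ' _ (k + 1), Finset.mul_sum]
  simp only [Nat.cast_zero, zero_mul, add_zero]
  refine Finset.sum_congr rfl fun j _ => ?_
  rw [H.mid hA (fun T hT => (List.mem_append.1 hT).elim (r hA _ T) (r hB _ T)) hW,
    List.replicate_succ, Nat.add_sub_add_right, ← mul_assoc, ← mul_assoc]
  have : ((k + 1 : ℕ) : ℝ) * (k.choose j : ℝ) = ((k + 1).choose (j + 1) : ℝ) * ((j + 1 : ℕ) : ℝ) := by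
    exact_mod_cast Nat.add_one_mul_choose_eq k j
  push_cast at this ⊢
  rw [this]
  simp only [List.cons_append]
  ring

end abs

variable {Ω : Type}

/-- kernels that vanish at the root and have a constant diagonal at level `K` -/
def Ok (Ω : Type) (K : ℕ) : Submodule ℝ (ℕ → Ω → Ω → ℝ) where
  carrier := {S | S 0 = 0 ∧ ∃ c, ∀ y, S K y y = c}
  add_mem' := fun {S T} ⟨h, c, hc⟩ ⟨h', c', hc'⟩ =>
    ⟨by rw [Pi.add_apply, h, h', add_zero], c + c', fun y => by simp [hc, hc']⟩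
  zero_mem' := ⟨rfl, 0, fun _ => rfl⟩
  smul_mem' := fun a S ⟨h, c, hc⟩ => ⟨by rw [Pi.smul_apply, h, smul_zero], a * c, fun y => by
    simp [hc]⟩

theorem mem_Ok {K : ℕ} {S : ℕ → Ω → Ω → ℝ} : S ∈ Ok Ω K ↔ S 0 = 0 ∧ ∃ c, ∀ y, S K y y = c := Iff.rfl

/-- the part of a kernel on the levels in `I` -/
def cut (I : ℕ → Prop) [DecidablePred I] (S : ℕ → Ω → Ω → ℝ) : ℕ → Ω → Ω → ℝ :=
  fun j => if I j then S j else 0

theorem cut_mem {K : ℕ} (I : ℕ → Prop) [DecidablePred I] {S : ℕ → Ω → Ω → ℝ} (h : S ∈ Ok Ω K) :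
    cut I S ∈ Ok Ω K := by
  obtain ⟨h0, c, hc⟩ := h
  refine ⟨by simp [cut, h0], if I K then c else 0, fun y => ?_⟩
  unfold cut
  split_ifs
  exacts [hc y, rfl]

theorem cut_add (I : ℕ → Prop) [DecidablePred I] (S : ℕ → Ω → Ω → ℝ) :
    cut I S + cut (fun j => ¬I j) S = S := by
  funext j
  by_cases h : I j <;> simp [cut, h]

theorem fl_pairF (M : List (Lv Ω)) (Q : ℕ → Ω → Ω → ℝ) : FL (pairF M Q) :=
  fun _ H _ _ e => H.pairF M Q e

theorem pairF_lin {Λ : Fn Ω} (H : IsLin Λ) (M : List (Lv Ω)) (a b : ℝ) (S T : ℕ → Ω → Ω → ℝ) :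
    pairF M (a • S + b • T) Λ = a * pairF M S Λ + b * pairF M T Λ := by
  simp only [pairF, twoF, Pi.add_apply, Pi.smul_apply, smul_eq_mul, H _ a b, mul_add,
    Finset.sum_add_distrib, Finset.mul_sum, mul_left_comm _ a, mul_left_comm _ b]

theorem pairF_tilt {M M' : List (Lv Ω)} (H : M.map Lv.m = M'.map Lv.m) : pairF M = pairF M' := by
  funext Q Λ
  simp only [pairF, Sch6.len_congr H, Sch6.dm_congr H]

variable [Fintype Ω] {w : Ω → ℝ}

/-- the Taylor coefficients of the value (`-Lam`) and of pair tests -/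
def Lam (w : Ω → ℝ) (M : List (Lv Ω)) (h : Ω → ℝ) : List (ℕ → Ω → Ω → ℝ) → ℝ
  | [] => 0
  | S :: U => pairF M S (WdO M U (TEf w M h))

theorem Lam_cons (M : List (Lv Ω)) (h : Ω → ℝ) (S : ℕ → Ω → Ω → ℝ) (U : List (ℕ → Ω → Ω → ℝ)) :
    Lam w M h (S :: U) = pairF M S (WdO M U (TEf w M h)) := rfl

theorem Lam_iter (M : List (Lv Ω)) (h : Ω → ℝ) (Q S : ℕ → Ω → Ω → ℝ) (k : ℕ) :
    pairF M Q ((Dop M S)^[k] (TEf w M h)) = Lam w M h (Q :: List.replicate k S) := by
  rw [Lam_cons, WdO_replicate]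

theorem dT_const' (hw : Wt w) (s : Sh) (M : List (Lv Ω)) (h : Ω → ℝ) {S : ℕ → Ω → Ω → ℝ}
    (h0 : S 0 = 0) (v : ℝ) : dT w s M h S (fun _ => v) = 0 := by
  have h1 := Adj55.dT_const hw s M h (S := fun j x y => 1 / 2 * S j x y + 1 / 2 * S j y x)
    ⟨fun j x y => add_comm _ _, fun x y => by simp [h0]⟩ v
  rw [dT_eq_Dfu, (isLin_TEf hw M h).dfuS M _ _ S fun j x y => S j y x, Dfu_swap hw M h h0] at h1
  rw [dT_eq_Dfu]
  linarith

theorem B2_eq (hw : Wt w) (M : List (Lv Ω)) (h : Ω → ℝ) {S T : ℕ → Ω → Ω → ℝ}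
    (hS : S ∈ Ok Ω M.length) (hT : T ∈ Ok Ω M.length) :
    B2 w M h S T = -pairF M S (Dop M T (TEf w M h)) := by
  obtain ⟨-, c, hc⟩ := hS
  obtain ⟨h0, c', hc'⟩ := hT
  simp only [B2, hc, dT_const' hw .one M h h0, zero_sub, pairF, twoF, dT_eq_Dop hw _ M h hc']

theorem pairF_swap (hw : Wt w) (M : List (Lv Ω)) (h : Ω → ℝ) {S T : ℕ → Ω → Ω → ℝ}
    (hS : S ∈ Ok Ω M.length) (hT : T ∈ Ok Ω M.length) {U : List (ℕ → Ω → Ω → ℝ)}
    (hU : ∀ S ∈ U, S ∈ Ok Ω M.length) :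
    pairF M S (Dop M T (WdO M U (TEf w M h))) = pairF M T (Dop M S (WdO M U (TEf w M h))) := by
  refine sub_eq_zero.1 (pd_wordO hw h M (((fl_pairF M S).dop M T).sub ((fl_pairF M T).dop M S))
    (fun M' hM => ?_) hU)
  rw [← Sch6.len_congr hM] at hS hT
  have := B2_symm hw M' h hS.1 hT.1
  rw [B2_eq hw M' h hS hT, B2_eq hw M' h hT hS, pairF_tilt hM, Dop_tilt hM] at this
  linarith

/-- **the Taylor coefficients of the value are symmetric multilinear forms** -/
theorem sm_Lam (hw : Wt w) (M : List (Lv Ω)) (h : Ω → ℝ) : SM (Ok Ω M.length) (Lam w M h) := by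
  refine ⟨fun {U U'} p hU => ?_, fun a b A B U =>
    pairF_lin ((isLin_TEf hw M h).wdO M U) M a b A B⟩
  induction p with
  | nil => rfl
  | cons S p _ => rw [Lam_cons, Lam_cons, WdO_perm hw M h p fun T hT => hU T (by simp [hT])]
  | swap S T U =>
    exact pairF_swap hw M h (hU T (by simp)) (hU S (by simp)) fun T hT => hU T (by simp [hT])
  | trans p _ ih1 ih2 => exact (ih1 hU).trans (ih2 fun T hT => hU T (p.mem_iff.2 hT))

/-- the Taylor coefficients of any linear combination of tree expectations -/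
theorem sm_WdO (hw : Wt w) (M : List (Lv Ω)) (h : Ω → ℝ) {Φ : Fn Ω → ℝ} (hΦ : FL Φ) :
    SM (Ok Ω M.length) fun U => Φ (WdO M U (TEf w M h)) := by
  refine ⟨fun {U U'} p hU => by rw [WdO_perm hw M h p hU], fun a b A B U => ?_⟩
  rw [WdO_cons, WdO_cons, WdO_cons, ← hΦ.lin]
  congr 1
  funext s F
  exact ((isLin_TEf hw M h).wdO M U).dopS M a b A B s F

/-! ### tensor words at a factorised model -/

section tens
variable {S Θ : Type}

/-- the kernel `U ⊗ Z` -/
def ten (p : (ℕ → Ω → Ω → ℝ) × (ℕ → S → S → ℝ)) : ℕ → Ω × S → Ω × S → ℝ :=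
  fun j x y => p.1 j x.1 y.1 * p.2 j x.2 y.2

/-- a kernel of the site only -/
def snd' (Ω : Type) (Z : ℕ → S → S → ℝ) : ℕ → Ω × S → Ω × S → ℝ := fun j x y => Z j x.2 y.2

/-- a kernel of the bulk only -/
def fst' (S : Type) (U : ℕ → Ω → Ω → ℝ) : ℕ → Ω × S → Ω × S → ℝ := fun j x y => U j x.1 y.1

/-- graft sums along a word of tensors -/
def wB (ε : ℝ) (M : List (Lv Θ)) (B : (s : Sh) → ((s.Lf → Ω) → ℝ) → ((s.Lf → S) → ℝ) → ℝ) :
    List ((ℕ → Ω → Ω → ℝ) × (ℕ → S → S → ℝ)) →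
      (s : Sh) → ((s.Lf → Ω) → ℝ) → ((s.Lf → S) → ℝ) → ℝ
  | [], s, G, ξ => B s G ξ
  | p :: V, s, G, ξ => sg ε M s fun τ => wB ε M B V τ.sh (τ.ev p.1 G) (τ.ev p.2 ξ)

omit [Fintype Ω] in
theorem WdO_ten (M : List (Lv (Ω × S))) (E : Fn (Ω × S)) :
    ∀ (V : List ((ℕ → Ω → Ω → ℝ) × (ℕ → S → S → ℝ))) (s : Sh) (G : (s.Lf → Ω) → ℝ)
      (ξ : (s.Lf → S) → ℝ), WdO M (V.map ten) E s (tens G ξ) =
        wB (-1) M (fun s G ξ => E s (tens G ξ)) V s G ξ
  | [], _, _, _ => rfl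
  | p :: V, s, G, ξ => by
      rw [List.map_cons, WdO_cons, Dop_eq_sg, wB]
      congr 1
      funext τ
      rw [← WdO_ten M E V, ← GT.ev_tens]
      rfl

omit [Fintype Ω] in
theorem wB_tilt (ε : ℝ) {Θ' : Type} {M : List (Lv Θ)} {M' : List (Lv Θ')}
    (H : M.map Lv.m = M'.map Lv.m) (B : (s : Sh) → ((s.Lf → Ω) → ℝ) → ((s.Lf → S) → ℝ) → ℝ) :
    ∀ V, wB ε M B V = wB ε M' B V
  | [] => by funext s G ξ; rfl
  | p :: V => by funext s G ξ; simp only [wB, wB_tilt ε H B V, sg_tilt ε H]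

omit [Fintype Ω] in
theorem hasDerivAt_wB (ε : ℝ) (M : List (Lv Θ))
    {B : ℝ → (s : Sh) → ((s.Lf → Ω) → ℝ) → ((s.Lf → S) → ℝ) → ℝ}
    {B' : (s : Sh) → ((s.Lf → Ω) → ℝ) → ((s.Lf → S) → ℝ) → ℝ} {u : ℝ}
    (H : ∀ s G ξ, HasDerivAt (fun t => B t s G ξ) (B' s G ξ) u) :
    ∀ (V : List ((ℕ → Ω → Ω → ℝ) × (ℕ → S → S → ℝ))) (s : Sh) (G : (s.Lf → Ω) → ℝ)
      (ξ : (s.Lf → S) → ℝ), HasDerivAt (fun t => wB ε M (B t) V s G ξ) (wB ε M B' V s G ξ) u
  | [], s, G, ξ => H s G ξ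
  | p :: V, s, G, ξ => hasDerivAt_sg fun τ => hasDerivAt_wB ε M H V _ _ _

variable [Fintype S] {w₁ : Ω → ℝ} {w₂ : S → ℝ} {L : List (Lv (Ω × S))} {T : List (Lv Ω × Lv S)}

omit [Fintype Ω] [Fintype S] in
theorem tilt_prd (H : List.Forall₂ Prd L T) :
    L.map Lv.m = (T.map Prod.fst).map Lv.m ∧ L.map Lv.m = (T.map Prod.snd).map Lv.m := by
  induction H with
  | nil => exact ⟨rfl, rfl⟩
  | cons h _ ih => simp only [List.map_cons, ih.1.symm, ih.2.symm, ← h.1, ← h.2.1, and_self]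

/-- letters of the site and letters of the bulk act on their own factor -/
theorem WdO_prd (h₁ : Wt w₁) (h₂ : Wt w₂) (H : List.Forall₂ Prd L T) (z₁ : Ω → ℝ) (z₂ : S → ℝ) :
    ∀ (W : List (ℕ → S → S → ℝ)) (s : Sh) (G : (s.Lf → Ω) → ℝ) (ξ : (s.Lf → S) → ℝ),
      WdO L (W.map (snd' Ω)) (TEf (pw2 w₁ w₂) L (ad z₁ z₂)) s (tens G ξ) =
        TE w₁ s (T.map Prod.fst) z₁ G * WdO (T.map Prod.snd) W (TEf w₂ (T.map Prod.snd) z₂) s ξ
  | [], s, G, ξ => Law.TE_prd h₁ h₂ s H G ξ z₁ z₂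
  | Z :: W, s, G, ξ => by
      rw [List.map_cons, WdO_cons, WdO_cons, Dop_eq_sg, Dop_eq_sg, ← sg_const_mul,
        ← sg_tilt _ (tilt_prd H).2]
      refine sg_congr _ _ _ fun τ hτ => ?_
      rw [← hτ.TE_e h₁ _ z₁ G, ← WdO_prd h₁ h₂ H z₁ z₂ W]
      congr 1
      funext x
      simp only [GT.ev, tens, snd']
      ring

/-- **test directions**: site letters `W` inside a word of tensors differentiate the site factor -/
theorem WdO_test (h₁ : Wt w₁) (h₂ : Wt w₂) (H : List.Forall₂ Prd L T) (z₁ : Ω → ℝ) (z₂ : S → ℝ)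
    (V : List ((ℕ → Ω → Ω → ℝ) × (ℕ → S → S → ℝ))) (W : List (ℕ → S → S → ℝ)) (s : Sh)
    (G : (s.Lf → Ω) → ℝ) (ξ : (s.Lf → S) → ℝ) :
    WdO L (V.map ten ++ W.map (snd' Ω)) (TEf (pw2 w₁ w₂) L (ad z₁ z₂)) s (tens G ξ) =
      wB (-1) L (fun s G ξ => TE w₁ s (T.map Prod.fst) z₁ G *
        WdO (T.map Prod.snd) W (TEf w₂ (T.map Prod.snd) z₂) s ξ) V s G ξ := by
  rw [WdO_append, WdO_ten]
  simp only [WdO_prd h₁ h₂ H]

/-- the value form of a word of tensors with site letters `W` -/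
def lamB (M : List (Lv Θ)) (B : (s : Sh) → ((s.Lf → Ω) → ℝ) → ((s.Lf → S) → ℝ) → ℝ) :
    List ((ℕ → Ω → Ω → ℝ) × (ℕ → S → S → ℝ)) → ℝ
  | [] => 0
  | p :: V => ∑ j ∈ Finset.range (M.length + 1), dm M 0 j *
      wB (-1) M B V (Sh.two j) (pr2 j (p.1 j)) (pr2 j (p.2 j))

theorem Lam_ten (h₁ : Wt w₁) (h₂ : Wt w₂) (H : List.Forall₂ Prd L T) (z₁ : Ω → ℝ) (z₂ : S → ℝ)
    (p : (ℕ → Ω → Ω → ℝ) × (ℕ → S → S → ℝ)) (V : List ((ℕ → Ω → Ω → ℝ) × (ℕ → S → S → ℝ)))
    (W : List (ℕ → S → S → ℝ)) :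
    Lam (pw2 w₁ w₂) L (ad z₁ z₂) ((p :: V).map ten ++ W.map (snd' Ω)) =
      lamB L (fun s G ξ => TE w₁ s (T.map Prod.fst) z₁ G *
        WdO (T.map Prod.snd) W (TEf w₂ (T.map Prod.snd) z₂) s ξ) (p :: V) := by
  rw [List.map_cons, List.cons_append, Lam_cons, pairF, lamB]
  exact Finset.sum_congr rfl fun j _ => congrArg _
    (WdO_test h₁ h₂ H z₁ z₂ V W (Sh.two j) (pr2 j (p.1 j)) (pr2 j (p.2 j)))

/-- **TEST**: a site test `α` of the Taylor term `V` is the term `V` of the value with the site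
factor differentiated in the direction `α` -/
theorem Lam_test (h₁ : Wt w₁) (h₂ : Wt w₂) (H : List.Forall₂ Prd L T) (z₁ : Ω → ℝ) (z₂ : S → ℝ)
    {α : ℕ → S → S → ℝ} (hα : snd' Ω α ∈ Ok (Ω × S) L.length)
    (p : (ℕ → Ω → Ω → ℝ) × (ℕ → S → S → ℝ)) (V : List ((ℕ → Ω → Ω → ℝ) × (ℕ → S → S → ℝ)))
    (hV : ∀ q ∈ p :: V, ten q ∈ Ok (Ω × S) L.length) :
    Lam (pw2 w₁ w₂) L (ad z₁ z₂) (snd' Ω α :: (p :: V).map ten) =
      lamB L (fun s G ξ => TE w₁ s (T.map Prod.fst) z₁ G *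
        Dop (T.map Prod.snd) α (TEf w₂ (T.map Prod.snd) z₂) s ξ) (p :: V) := by
  rw [(sm_Lam (Law.wt_pw2 h₁ h₂) L _).perm (List.perm_append_singleton _ _).symm fun Q hQ => by
    rcases List.mem_cons.1 hQ with rfl | hQ
    · exact hα
    · obtain ⟨q, hq, rfl⟩ := List.mem_map.1 hQ
      exact hV q hq]
  exact Lam_ten h₁ h₂ H z₁ z₂ p V [α]

omit [Fintype Ω] [Fintype S] in
theorem hasDerivAt_lamB (M : List (Lv Θ))
    {B : ℝ → (s : Sh) → ((s.Lf → Ω) → ℝ) → ((s.Lf → S) → ℝ) → ℝ}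
    {B' : (s : Sh) → ((s.Lf → Ω) → ℝ) → ((s.Lf → S) → ℝ) → ℝ} {u : ℝ}
    (H : ∀ s G ξ, HasDerivAt (fun t => B t s G ξ) (B' s G ξ) u) :
    ∀ V, HasDerivAt (fun t => lamB M (B t) V) (lamB M B' V) u
  | [] => hasDerivAt_const _ _
  | _ :: V => HasDerivAt.fun_sum fun _ _ => (hasDerivAt_wB _ M H V _ _ _).const_mul _

end tens

/-! ### linear paths and the ONE path -/

omit [Fintype Ω] in
theorem Dop_itE {Θ : Type} {M : List (Lv Ω)} {M' : List (Lv Θ)} (H : M.map Lv.m = M'.map Lv.m)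
    (K : ℕ → Ω → Ω → ℝ) (E : Fn Ω) (k : ℕ) :
    itE (-1) M' K E k = WdO M (List.replicate k K) E := by
  rw [WdO_replicate, Dop_iter_eq, itE_tilt _ H]

theorem iDn_eq (L : List (IL Ω)) (h : Ω → ℝ) (k : ℕ) (s : Sh) (F : (s.Lf → Ω) → ℝ) (t : ℝ) :
    iDn w L h k s F t = WdO (ipl L t) (List.replicate k fun j x y => 1 / 2 * iD L j x y)
      (TEf w (ipl L t) h) s F := by
  rw [← Dop_itE (tilt_ipl L t)]
  rfl

theorem iW_eq (L : List (IL Ω)) (h : Ω → ℝ) (K : ℕ → Ω → Ω → ℝ) (k : ℕ) (t : ℝ) :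
    iW w L h K k t = Lam w (ipl L t) h (K :: List.replicate k fun j x y => 1 / 2 * iD L j x y) := by
  simp only [iW, iDn_eq, Lam_cons, pairF, ipl_length, dm_ipl]
  rfl

section op
variable {n : ℕ} {β : ℝ} {M : List (ℝ × ℝ × ℝ)} {q : ℕ → ℝ} {C : Type} [DecidableEq C]

/-- the letters of the path: the cell `a.1` of the splits, `η U` (`true`) or `U²` (`false`) -/
def lt (n : ℕ) (β : ℝ) (M : List (ℝ × ℝ × ℝ)) (q : ℕ → ℝ) (cl : ℕ → C) (a : C × Bool) :
    (ℕ → Cube n → Cube n → ℝ) × (ℕ → Bool → Bool → ℝ) :=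
  (cut (fun j => cl j = a.1) (oUb n β M q a.2), oZs q a.2)

/-- bulk expectation × site expectation -/
def oB (n : ℕ) (β : ℝ) (M : List (ℝ × ℝ × ℝ)) (q : ℕ → ℝ) (W : List (ℕ → Bool → Bool → ℝ)) :
    (s : Sh) → ((s.Lf → Cube n) → ℝ) → ((s.Lf → Bool) → ℝ) → ℝ := fun s G ξ =>
  TE (fun _ => 1) s (M.map (mxL n β)) 0 G *
    WdO (opS n β M q) W (TEf (fun _ => 1) (opS n β M q) 0) s ξ

/-- the forms at `θ = 0` -/
abbrev oL (n : ℕ) (β : ℝ) (M : List (ℝ × ℝ × ℝ)) (q : ℕ → ℝ) :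
    List (ℕ → Cube n × Bool → Cube n × Bool → ℝ) → ℝ := Lam (fun _ => 1) (op n β M q 0) 0

/-- the term of a word -/
def tm (n : ℕ) (β : ℝ) (M : List (ℝ × ℝ × ℝ)) (q : ℕ → ℝ) (cl : ℕ → C) (f : List (C × Bool)) : ℝ :=
  oL n β M q (f.map fun a => ten (lt n β M q cl a))

theorem sm_oL (θ : ℝ) :
    SM (Ok (Cube n × Bool) M.length) (Lam (fun _ => 1) (op n β M q θ) 0) := by
  have := sm_Lam wt_one90 (op n β M q θ) 0
  rwa [op_length] at this

theorem oUb_zero (b : Bool) : oUb n β M q b 0 = 0 := by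
  funext x y
  cases b <;> simp [oUb, oTau, OneP.dAcc_zero]

theorem oUb_diag (hn : 0 < n) (H : OOk M q) (b : Bool) (y : Cube n) :
    oUb n β M q b M.length y y = 0 := by
  have : oU q M.length y y = 0 := by rw [oU, ov_self hn, H.top, sub_self]
  cases b <;> simp [oUb, this]

theorem ten_mem {S : Type} {K : ℕ} {U : ℕ → Ω → Ω → ℝ} (h0 : U 0 = 0) (h1 : ∀ y, U K y y = 0)
    (Z : ℕ → S → S → ℝ) : ten (U, Z) ∈ Ok (Ω × S) K :=
  ⟨by funext x y; simp [ten, h0], 0, fun y => by simp [ten, h1]⟩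

theorem lt_mem (hn : 0 < n) (H : OOk M q) (cl : ℕ → C) (a : C × Bool) :
    ten (lt n β M q cl a) ∈ Ok (Cube n × Bool) M.length :=
  ten_mem (by simp [cut, oUb_zero]) (fun y => by
    unfold cut
    split_ifs
    exacts [oUb_diag hn H _ y, rfl]) _

theorem sum_lt [Fintype C] (cl : ℕ → C) (φ : C × Bool → ℝ) :
    ∑ a, φ a • ten (lt n β M q cl a) = fun j x y =>
      ∑ b, φ (cl j, b) * (oUb n β M q b j x.1 y.1 * oZs q b j x.2 y.2) := by
  funext j x y
  simp only [Finset.sum_apply, Pi.smul_apply, smul_eq_mul, ten, lt, cut, Fintype.sum_prod_type]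
  rw [Finset.sum_eq_single (cl j) (fun c _ hc => by simp [hc.symm]) (by simp)]
  simp

theorem sum_lt_one [Fintype C] (cl : ℕ → C) :
    ∑ a, ten (lt n β M q cl a) = tK (oUb n β M q) (oZs q) := by
  have := sum_lt (n := n) (β := β) (M := M) (q := q) cl fun _ => 1
  simp only [one_smul, one_mul] at this
  exact this

theorem oW_Lam (hn : 0 < n) (H : OOk M q) (K : ℕ → Cube n × Bool → Cube n × Bool → ℝ) (k : ℕ)
    (θ : ℝ) : oW n β M q K k θ = Lam (fun _ => 1) (op n β M q θ) 0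
      (K :: List.replicate k (tK (oUb n β M q) (oZs q))) := by
  simp only [oW, iW, iDn_op hn H, Dop_itE (tilt_op (q := q) θ), Lam_cons, pairF, op_length, opL_length,
    dm_opL, Cav22.dm_tilt (tilt_op (q := q) θ)]
  rfl

theorem tm_perm (hn : 0 < n) (H : OOk M q) (cl : ℕ → C) {f g : List (C × Bool)} (p : f.Perm g) :
    tm n β M q cl f = tm n β M q cl g :=
  (sm_oL 0).perm (p.map _) fun T hT => by
    obtain ⟨a, -, rfl⟩ := List.mem_map.1 hT
    exact lt_mem hn H cl a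

theorem oL_ten (hn : 0 < n) (H : OOk M q) (p : (ℕ → Cube n → Cube n → ℝ) × (ℕ → Bool → Bool → ℝ))
    (V : List ((ℕ → Cube n → Cube n → ℝ) × (ℕ → Bool → Bool → ℝ))) (W : List (ℕ → Bool → Bool → ℝ)) :
    oL n β M q ((p :: V).map ten ++ W.map (snd' (Cube n))) =
      lamB (M.map (mxL n β)) (oB n β M q W) (p :: V) := by
  have := Lam_ten wt_one90 wt_one90 (prd_op (β := β) hn H) 0 0 p V W
  rw [Law.pw2_one, Law.ad_zero, List.map_map, List.map_map] at this
  have e1 := OneP.oInc_map (bb n β ^ 2) 0 q M (mxL n β)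
  have e2 : ((oInc (bb n β ^ 2) 0 q M).map fun c => C.sl Crest.ProbabilityR.SpinGlassDynamics.spin
      (c.p.1, c.p.2.2 + c.u)) = opS n β M q := by rw [opS, opV, List.map_map]; rfl
  simp only [Function.comp_def, e1, e2] at this
  rw [oL, this, lamB, lamB, wB_tilt _ (tilt_op 0), op_length, List.length_map]
  simp only [Cav22.dm_tilt (tilt_op (q := q) 0)]
  rfl

/-- a term is weight × bulk expectation × site expectation -/
theorem tm_eq (hn : 0 < n) (H : OOk M q) (cl : ℕ → C) (f : List (C × Bool)) :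
    tm n β M q cl f = lamB (M.map (mxL n β)) (oB n β M q []) (f.map (lt n β M q cl)) := by
  cases f with
  | nil => rfl
  | cons a f =>
    have := oL_ten (β := β) hn H (lt n β M q cl a) (f.map (lt n β M q cl)) []
    simpa only [List.map_nil, List.append_nil, List.map_cons, List.map_map, Function.comp_def]

/-- the Taylor coefficients of **(val)** as sums over words -/
theorem oW_val [Fintype C] (hn : 0 < n) (H : OOk M q) (cl : ℕ → C) (k : ℕ) :
    oW n β M q (oD n β M q) k 0 = 2 * ∑ f : Fin (k + 1) → C × Bool, tm n β M q cl (List.ofFn f) := by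
  rw [oW_oD, oW_Lam hn H, ← List.replicate_succ, ← sum_lt_one cl,
    (sm_oL 0).expand₀ (lt_mem hn H cl)]
  simp only [tm, List.map_ofFn, Function.comp_def]

/-- any test kernel -/
theorem oW_words [Fintype C] (hn : 0 < n) (H : OOk M q) (cl : ℕ → C)
    {K : ℕ → Cube n × Bool → Cube n × Bool → ℝ} (hK : K ∈ Ok (Cube n × Bool) M.length) (k : ℕ) :
    oW n β M q K k 0 = ∑ f : Fin k → C × Bool,
      oL n β M q (K :: (List.ofFn f).map fun a => ten (lt n β M q cl a)) := by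
  have r : ∀ T ∈ List.replicate k (∑ a, ten (lt n β M q cl a)), T ∈ Ok (Cube n × Bool) M.length :=
    fun T hT => List.eq_of_mem_replicate hT ▸ Submodule.sum_mem _ fun a _ => lt_mem hn H cl a
  have := (sm_oL (n := n) (β := β) (q := q) 0).mid hK r (W := []) (by simp)
  rw [List.append_nil] at this
  rw [oW_Lam hn H, ← sum_lt_one cl, ← this, (sm_oL 0).expand (lt_mem hn H cl) k (by simpa using hK)]
  refine Finset.sum_congr rfl fun f _ => ?_
  rw [(sm_oL 0).mid hK (fun T hT => by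
    obtain ⟨r, rfl⟩ := List.mem_ofFn.1 hT
    exact lt_mem hn H cl _) (by simp), List.append_nil, List.map_ofFn]
  rfl

/-- the number of factors `U` of a letter -/
def dg (a : C × Bool) : ℕ := if a.2 then 1 else 2

/-- **SCALING**: the Taylor coefficients of `(amp τ φ)`, `φ` constant on cells -/
theorem oW_amp [Fintype C] (hn : 0 < n) (H : OOk M q) (cl : ℕ → C) (φ : C → ℝ) (k : ℕ) :
    oW n β M q (fun j x y => φ (cl j) * oTau n β M j *
        ((oE q j x.2 y.2 - oU q j x.1 y.1) * oU q j x.1 y.1)) k 0 / k.factorial =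
      2 * ∑ f : Fin (k + 1) → C × Bool, (∑ r, φ (f r).1 * dg (f r)) *
        (tm n β M q cl (List.ofFn f) / (k + 1).factorial) := by
  have := (sm_oL (n := n) (β := β) (q := q) 0).scaling' (lt_mem (β := β) hn H cl)
    (fun a => 2 * (φ a.1 * dg a)) k
  rw [sum_lt, sum_lt_one] at this
  simp only [← Finset.mul_sum, mul_assoc (2 : ℝ)] at this
  simp only [tm, List.map_ofFn, Function.comp_def]
  rw [oW_Lam hn H, ← this]
  congr 3
  funext j x y
  simp only [Fintype.sum_bool, oUb, oZs, dg]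
  norm_num
  ring

/-- **TEST**: the site part of a test acts on the site factors of the terms -/
theorem oW_test [Fintype C] (hn : 0 < n) (H : OOk M q) (cl : ℕ → C) {α : ℕ → Bool → Bool → ℝ}
    (hα : α ∈ Ok Bool M.length) (k : ℕ) :
    oW n β M q (snd' (Cube n) α) (k + 1) 0 = ∑ f : Fin (k + 1) → C × Bool,
      lamB (M.map (mxL n β)) (oB n β M q [α]) ((List.ofFn f).map (lt n β M q cl)) := by
  have hα' : snd' (Cube n) α ∈ Ok (Cube n × Bool) M.length := by
    obtain ⟨h0, c, hc⟩ := hα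
    exact ⟨by funext x y; simp [snd', h0], c, fun y => hc _⟩
  rw [oW_words hn H cl hα']
  refine Finset.sum_congr rfl fun f _ => ?_
  rw [List.ofFn_succ, List.map_cons, List.map_cons, ← oL_ten hn H]
  refine (sm_oL 0).perm ?_ fun T hT => ?_
  · simpa only [List.map_cons, List.map_map, Function.comp_def, List.map_nil] using
      (List.perm_append_singleton _ _).symm
  · rcases List.mem_cons.1 hT with rfl | hT
    · exact hα'
    · rcases List.mem_cons.1 hT with rfl | hT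
      · exact lt_mem hn H cl _
      · obtain ⟨a, -, rfl⟩ := List.mem_map.1 hT
        exact lt_mem hn H cl a

end op

end Crest.Agent.T156.Cas.Mul55

end
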