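import Crest.Agent.T156.CKit_32
import Crest.Agent.T156.CL3_76

/-!
# Row 156, block C: the frame of the cubic upper word in the test direction (helper43)
-/

set_option autoImplicit false
set_option linter.all false

noncomputable section

namespace Crest.Agent.T156.Cas.C3T43

open MeasureTheory Real Set Filter Topology
open Crest.Agent.T157.E Crest.Agent.T157.Casc Crest.Agent.T157.SL
open Crest.Agent.T157.G1 (ov)
open Mul55 C40 G90 Nu87 Ck32

theorem DG_tilt {Ω Ω' : Type} {L : List (Lv Ω)} {L' : List (Lv Ω')} (hl : L.length = L'.length)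
    (H : ∀ j, ex L j = ex L' j) (ε : ℝ) : DG ε L = DG ε L' := by
  funext Φ r σ E
  simp only [DG, Ws, hl, H]

theorem LamG_tilt {Ω Ω' : Type} {L : List (Lv Ω)} {L' : List (Lv Ω')} (hl : L.length = L'.length)
    (H : ∀ j, ex L j = ex L' j) (μ : ℕ → ℝ) (k : ℕ) (Φ : GF) : LamG L μ k Φ = LamG L' μ k Φ := by
  simp only [LamG, DG_tilt hl H, hl]

/-- indicator of a level -/
def i1 (u t : ℕ) : ℝ := if u = t then 1 else 0

section defs
variable (D : CD) {r : ℕ} (σ : SM r) (a b : Fin 3 → Fin r)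

/-- the factors `τ / 2` on the upper cell -/
def tf : ℝ := ∏ i, if D.J < σ (a i) (b i) then D.τ (σ (a i) (b i)) / 2 else 0

/-- the bulk factor -/
def Bk : ℝ := TB D σ fun x => ∏ i, oU D.q (σ (a i) (b i)) (x (a i)) (x (b i))

/-- the bulk factor minus the local term -/
def Dn : ℝ := Bk D σ a b -
  if (∀ i, σ (a i) (b i) = σ (a 0) (b 0)) ∧ σ (a 0) (b 0) < D.K then D.u3 (σ (a 0) (b 0)) else 0

/-- the site factor, marked pair `(p, p')` -/
def Sx (p p' : Fin r) : ℝ := Ck32.TS D σ fun x => oE D.q (σ p p') (x p) (x p') *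
  ∏ i, oE D.q (σ (a i) (b i)) (x (a i)) (x (b i))

end defs

variable {D : CD} {τ0 : ℝ} {r : ℕ}

theorem kU_eq (j : ℕ) (x y : Cube D.n) : (lt D.n D.β D.M D.q D.cl C40.aU).1 j x y =
    (if D.J < j then D.τ j / 2 else 0) * oU D.q j x y := by
  by_cases h : D.J < j
  · simp [lt, cut, CD.cl, h, oUb]
  · simp [lt, cut, CD.cl, h]

theorem lev_eq (t j : ℕ) (x y : Bool) :
    D.lev t j x y = i1 j t * oE D.q j x y := by
  simp only [CD.lev, i1, ite_mul, one_mul, zero_mul]

theorem loc_eq (σ : SM r) (a b : Fin 3 → Fin r) :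
    ∑ t ∈ D.up, D.τ t ^ 3 / 8 * D.u3 t * ∏ i, i1 (σ (a i) (b i)) t =
      tf D σ a b * (Bk D σ a b - Dn D σ a b) := by
  rw [Dn, sub_sub_cancel, tf]
  simp only [i1]
  by_cases h : ∀ i, σ (a i) (b i) = σ (a 0) (b 0)
  · simp only [h, forall_const, true_and, Fin.prod_univ_three, mul_ite, mul_one, mul_zero,
      Finset.sum_ite_eq, Finset.mem_Ioo]
    by_cases h1 : D.J < σ (a 0) (b 0) <;> by_cases h2 : σ (a 0) (b 0) < D.K <;>
      simp [h1, h2] <;> ring_nf <;> simp
  · rw [if_neg (c := _ ∧ _) fun h' => h h'.1, mul_zero]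
    refine Finset.sum_eq_zero fun t _ => ?_
    obtain ⟨i, hi⟩ := not_forall.1 h
    by_cases h0 : σ (a 0) (b 0) = t
    · rw [Finset.prod_eq_zero (Finset.mem_univ i) (if_neg (h0 ▸ hi)), mul_zero]
    · exact mul_eq_zero_of_right _ (Finset.prod_eq_zero (Finset.mem_univ 0) (if_neg h0))

/-- **the frame** -/
theorem frame3 (H : D.Ok τ0) (hW : D.W.isSome = true) {B : ℕ → ℝ}
    (h : ∀ k ≤ 6, ∀ a b : Fin 3 → Fin (1 + k + 1), (∀ i, a i ≠ b i) → ∀ j ∈ D.up,
      |avc D.B (tw D.B.length j) k fun σ =>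
        tf D σ a b * (Dn D σ a b * Sx D σ a b (old k 1) (old k 0))| ≤ B j) :
    |D.tw [C40.aU, C40.aU, C40.aU] - D.LOC3| ≤ cG 3 * D.Iw B := by
  set μ : ℕ → ℝ := fun j => if j ∈ D.up then D.om j else 0 with hμ
  have e1 := frame (D := D) μ (fun _ _ _ => 1, oE D.q)
    ([C40.aU, C40.aU, C40.aU].map (lt D.n D.β D.M D.q D.cl))
  replace e1 : D.tw [C40.aU, C40.aU, C40.aU] = _ := Eq.trans (by
    rw [CD.tw, CD.dd_test hW, sum_up H]
    simp only [← ite_zero_mul]
    rfl) e1
  have e2 : ∀ t, D.sL [D.lev t, D.lev t, D.lev t] = LamG D.B μ 3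
      (tmG (fun _ => 1) D.S 0 [D.lev t, D.lev t, D.lev t, oE D.q]) := fun t => by
    rw [sL_eq76, CD.dd_test hW, sum_up H, ← LamG_tilt lenS (Cav22.ex_tilt tilt_opS), ← lenS]
    simp only [← ite_zero_mul]
    exact Finset.sum_congr rfl fun j hj => congrArg _ ((rep_WdO D.S _ _
      [D.lev t, D.lev t, D.lev t] [oE D.q] (rep_TE wt_one90 D.S 0 _)).two
        (Nat.lt_succ_iff.1 (Finset.mem_range.1 hj)))
  rw [e1, CD.LOC3]
  simp only [e2, ← LamG_mul, ← LamG_sum, List.length_map, List.length_cons, List.length_nil,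
    zero_add, Nat.reduceAdd]
  rw [← LamG_sub]
  refine abs_LamG_le _ _ _ fun k hk N hN hO => ?_
  obtain ⟨e₀, e₁, e₂, rfl⟩ := List.length_eq_three.1 hN
  set a : Fin 3 → Fin (1 + k + 1) := ![e₀.1, e₁.1, e₂.1] with ha
  set b : Fin 3 → Fin (1 + k + 1) := ![e₀.2, e₁.2, e₂.2] with hb
  have hab : ∀ i, a i ≠ b i := fun i => by
    fin_cases i
    exacts [hO e₀ (by simp), hO e₁ (by simp), hO e₂ (by simp)]
  refine le_of_eq_of_le (congrArg abs (congrArg _ (funext fun σ => (?_ : _ =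
    tf D σ a b * (Dn D σ a b * Sx D σ a b (old k 1) (old k 0)))))) ?_
  · have f1 : TB D σ (eF (((List.map (lt D.n D.β D.M D.q D.cl) [C40.aU, C40.aU, C40.aU]).reverse ++
        [((fun _ _ _ => 1 : ℕ → Cube D.n → Cube D.n → ℝ), oE D.q)]).map Prod.fst) σ
        ([e₀, e₁, e₂] ++ [(old k 1, old k 0)])) = tf D σ a b * Bk D σ a b := by
      rw [Bk, TB, TB, ← TM_mul]
      refine congrArg _ (funext fun x => ?_)
      simp only [List.map_cons, List.map_nil, List.reverse_cons, List.reverse_nil, List.nil_append,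
        List.cons_append, eF, kU_eq, tf, Fin.prod_univ_three, ha, hb, Matrix.cons_val]
      ring
    have f2 : Ck32.TS D σ (eF (((List.map (lt D.n D.β D.M D.q D.cl) [C40.aU, C40.aU, C40.aU]).reverse ++
        [((fun _ _ _ => 1 : ℕ → Cube D.n → Cube D.n → ℝ), oE D.q)]).map Prod.snd) σ
        ([e₀, e₁, e₂] ++ [(old k 1, old k 0)])) = Sx D σ a b (old k 1) (old k 0) := by
      refine congrArg _ (funext fun x => ?_)
      simp only [List.map_cons, List.map_nil, List.reverse_cons, List.reverse_nil, List.nil_append,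
        List.cons_append, eF, lt, oZs, Fin.prod_univ_three, ha, hb, Matrix.cons_val]
      ring
    have f3 : ∀ t, tmG (fun _ => 1) D.S 0 [D.lev t, D.lev t, D.lev t, oE D.q] _ σ
        ([e₀, e₁, e₂] ++ [(old k 1, old k 0)]) =
        (∏ i, i1 (σ (a i) (b i)) t) * Sx D σ a b (old k 1) (old k 0) :=
      fun t => by
        rw [Sx, Ck32.TS, ← TM_mul]
        refine congrArg _ (funext fun x => ?_)
        simp only [List.nil_append, List.cons_append, eF, lev_eq, Fin.prod_univ_three, ha, hb,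
          Matrix.cons_val]
        ring
    simp only [f1, f2, f3, ← mul_assoc, ← Finset.sum_mul, loc_eq]
    ring
  · rw [avt, CD.Iw, sum_up H]
    refine (Finset.abs_sum_le_sum_abs _ _).trans (Finset.sum_le_sum fun j _ => ?_)
    simp only [hμ]
    split_ifs with hj
    · rw [abs_mul]
      exact mul_le_mul_of_nonneg_left (h k hk a b hab j hj) (abs_nonneg _)
    · simp

end Crest.Agent.T156.Cas.C3T43

end
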