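import Crest.Agent.T156.Eg_33
import Crest.Agent.T156.EDef_91

/-!
# Row 156, leaf E-g in the names of `EDef_91` (helper33)
-/

set_option autoImplicit false
set_option linter.unusedSectionVars false

noncomputable section

namespace Crest.Agent.T156.Cas.Eg33

open MeasureTheory Real Set Filter Topology
open Crest.Agent.T157.E Crest.Agent.T157.Casc Crest.Agent.T157.SL
open Crest.Agent.T156.Cas.Sy41 Crest.Agent.T156.Cas.Q33 Crest.Agent.T156.Cas.E91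
open Crest.Agent.T156.Cas.Nu87

variable {Ω : Type} [Fintype Ω] {w : Ω → ℝ}

theorem TE_twoLR (hw : Wt w) (K : Ω → Ω → ℝ) (j : ℕ) (L : List (Lv Ω)) (h : Ω → ℝ) :
    TE w (Sh.two j) L h (fun x => K (x (Sh.twoL j)) (x (Sh.twoR j))) = pi2 w L j K h := by
  have hne : Sh.twoL j ≠ Sh.twoR j := fun e => by
    have h1 := Wt87.shr_two j (j + 1)
    rw [e, Wt87.shr_self] at h1
    omega
  rw [TE_pair hw _ L h hne, Wt87.shr_two]
  rcases le_total j L.length with k | k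
  · rw [min_eq_left k]
  · rw [min_eq_right k, pi2, pi2, List.drop_length, List.drop_eq_nil_of_le k,
      ← node_tower L k, List.drop_length, node_nil]

/-- three leaves: one branch leaves at `y`, the other two split at `d + y` -/
theorem TE_three (hw : Wt w) (G : Ω → Ω → Ω → ℝ) (d : ℕ) : ∀ (y : ℕ) (L : List (Lv Ω)) (h : Ω → ℝ),
    TE w ((Sh.two y).graft (Sh.twoR y) (d + y)) L h (fun x =>
      G (x ((Sh.two y).emb (Sh.twoR y) (d + y) (Sh.twoL y)))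
        (x ((Sh.two y).emb (Sh.twoR y) (d + y) (Sh.twoR y)))
        (x ((Sh.two y).nw (Sh.twoR y) (d + y)))) =
      node w L y (fun z => ∑ x, P w (L.drop y) z x * pi2 w (L.drop y) d (G x) z) h
  | 0, L, h => by
    refine (Law.TE_split hw .one (Sh.two d) L h _).trans ((Law.TE_one hw L h _).trans ?_)
    rw [node_zero]
    exact Finset.sum_congr rfl fun x _ => congrArg _ (TE_twoLR hw (G x) d L h)
  | y + 1, [], h => by
    refine (Law.TE_step_nil w _ h _).trans ((TE_three hw G d y [] h).trans ?_)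
    simp only [node_nil, List.drop_nil]
  | y + 1, l :: L, h => by
    refine (Law.TE_step hw _ l L h _).trans ?_
    rw [node_cons]
    exact congrArg (fun F => tE l (X w L) F h) (funext fun z => TE_three hw G d y L z)

/-- the same for split matrices -/
theorem TM_three (hw : Wt w) (L : List (Lv Ω)) (h : Ω → ℝ) (G : Ω → Ω → Ω → ℝ) {y i : ℕ}
    (hi : y ≤ i) : TM w L h (gr L.length (tw L.length y) 0 i) (fun x => G (x 2) (x 1) (x 0)) =
      node w L y (fun z => ∑ x, P w (L.drop y) z x * pi2 w (L.drop y) (i - y) (G x) z) h := by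
  obtain ⟨d, rfl⟩ : ∃ d, i = d + y := ⟨i - y, by omega⟩
  let e₀ : Fin 1 ≃ Sh.one.Lf := (Equiv.ofUnique (Fin 1) Unit :)
  have h1 : tw L.length y = sm (Sh.one.graft (e₀ 0) y) (grE e₀ (e₀ 0) y) L.length :=
    (sm_gr e₀ 0 y).symm
  rw [h1, ← sm_gr, TM_sm hw _ L h (Equiv.injective _), Nat.add_sub_cancel]
  exact TE_three hw G d y L h

variable (D : Dat Ω)

theorem lam3_eq (hw : Wt D.w) {y i : ℕ} (hi : y ≤ i) :
    pi2 D.w D.L y (fun x x' => D.l0.cov x x' ^ 2) D.h - D.lam3 y i = vt D.w D.L D.l0 D.h y i := by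
  have e := TM_three hw D.L D.h (fun c b a => D.l0.cov a c * D.l0.cov b c) hi
  have g1 : ∀ f : Ω → ℝ, Eg fun u => Pf D.w (D.L.drop i) u f := Hess87.eg_Pf hw _
  rw [Dat.lam3, e, pi2, vt, ← congrFun (node_sub hw (eg_qf hw _ _) (Eg.sum _ fun x _ =>
    (eg_P hw _ x).mul (eg_pi2 hw _ _ _)) D.L y)]
  congr 1
  funext z
  simp only [vz, Cf_eq hw D.L hi, mul_sub, Finset.sum_sub_distrib]
  congr 1
  · simp only [qf, Pf, Finset.mul_sum]
    exact Finset.sum_comm.trans (Finset.sum_congr rfl fun _ _ => Finset.sum_congr rfl fun _ _ => by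
      ring)
  · refine Finset.sum_congr rfl fun x _ => ?_
    simp only [pi2, List.drop_drop, Nat.add_sub_cancel' hi, mul_comm (D.l0.cov _ x) (D.l0.cov _ x)]
    congr 2
    funext u
    exact qf_mul _ _ _

/-- the weights of the levels that carry a letter -/
def cw (y : ℕ) : ℝ := if D.t y = 0 then 0 else dm D.L 0 y

theorem cw_nonneg (hL : Mono 0 D.L) (y : ℕ) : 0 ≤ cw D y := by
  unfold cw
  split_ifs
  exacts [le_rfl, dm_nonneg hL y]

theorem cw_le (hL : Mono 0 D.L) (y : ℕ) : cw D y ≤ dm D.L 0 y := by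
  unfold cw
  split_ifs
  exacts [dm_nonneg hL y, le_rfl]

theorem VV_eq (hw : Wt D.w) (j : ℕ) :
    D.VV j = ∑ y ∈ Finset.Ico 0 j, cw D y * vt D.w D.L D.l0 D.h y j := by
  rw [Dat.VV, Finset.range_eq_Ico]
  refine Finset.sum_congr rfl fun y hy => ?_
  rw [lam3_eq D hw (Finset.mem_Ico.1 hy).2.le, cw, ite_mul, zero_mul]

theorem VV_nonneg (hw : Wt D.w) (hL : Mono 0 D.L) (j : ℕ) : 0 ≤ D.VV j := by
  rw [VV_eq D hw]
  exact Finset.sum_nonneg fun y _ => mul_nonneg (cw_nonneg D hL y) (vt_nonneg hw _ _ _ _ _)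

theorem V_eq' (hw : Wt D.w) (j : ℕ) :
    D.V j = tc D.w D.L D.l0 D.h j + 2 * vv D.w D.L D.l0 D.h j := V_eq hw D.L D.l0 D.h j (D.q j)

/-- **VV** -/
theorem VV_le {τ : ℕ → ℝ} {Λ : ℝ} (H : Dt D.w D.L D.l0 τ Λ) {t j : ℕ} (htj : t ≤ j) (hj : j ≤ D.K)
    {x S M : ℝ} (hx : 0 < x) (hx' : x ≤ ex D.L j) (hS : 0 < S)
    (hS' : S ≤ ∑ k ∈ Finset.Ico t j, ex D.L k * τ k) (hM : 0 < M)
    (hM' : M ≤ ∑ y ∈ Finset.Ico t j, cw D y) :
    D.VV j ≤ ex D.L t * (rho D.w D.L D.l0 D.h j / (x * S)) +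
      (1 + ex D.L t / M) * ∑ y ∈ Finset.Ico t j, dm D.L 0 y * tc D.w D.L D.l0 D.h y +
        ∑ y ∈ Finset.Ico t j, dm D.L 0 y * vv D.w D.L D.l0 D.h y := by
  have hX : ∑ y ∈ Finset.Ico 0 t, cw D y ≤ ex D.L t := by
    have := sum_dm D.L 0 t
    rw [Finset.sum_range_succ, sub_zero] at this
    have h2 := Finset.sum_le_sum (s := Finset.range t) fun y _ => cw_le D H.mono y
    rw [← Finset.range_eq_Ico]
    linarith [dm_nonneg H.mono t]
  rw [VV_eq D H.wt]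
  refine (vv_sum H D.h (Nat.zero_le t) htj hj hx hx' hS hS' (cw_nonneg D H.mono) hX hM hM').trans
    (add_le_add (add_le_add le_rfl (mul_le_mul_of_nonneg_left (Finset.sum_le_sum fun y _ => ?_) ?_))
      (Finset.sum_le_sum fun y _ => ?_))
  · exact mul_le_mul_of_nonneg_right (cw_le D H.mono y) (tc_nonneg _ _ _ _)
  · have := Q33.ex_nonneg H.mono t
    positivity
  · exact mul_le_mul_of_nonneg_right (cw_le D H.mono y) (vv_nonneg H.wt _ _ _ _)

/-- the levels that carry a letter -/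
def Sl : Finset ℕ := (Finset.range D.K).filter fun y => D.t y ≠ 0

variable {D} {tb : ℝ} (H : D.Ok tb) (h0 : D.t 0 = 0) {T : Set (Equiv.Perm Ω)}
  (hT : ∀ τ ∈ T, Sym D.w D.L D.h τ) (htr : ∀ x y, D.w x ≠ 0 → D.w y ≠ 0 → ∃ τ ∈ T, τ x = y)
  (h₀ : ∀ τ ∈ T, ∀ x y, D.l0.cov (τ x) (τ y) = D.l0.cov x y)
include H

theorem rho_eq_q {y : ℕ} (hy : y ∈ Sl D) : rho D.w D.L D.l0 D.h y = D.q y := by
  obtain ⟨h1, h2⟩ := Finset.mem_filter.1 hy
  have := H.cen y (Finset.mem_range.1 h1) h2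
  have e : ∀ z, qf (P D.w (D.L.drop y) z) (D.U0 y) = rr D.w (D.L.drop y) D.l0 z - D.q y := fun z => by
    rw [rr_eq, ← qf_const (sum_P H.wt (D.L.drop y) z) (D.q y), ← qf_sub]; rfl
  simp only [pi2, e] at this
  rw [node_sub H.wt (eg_rr H.wt _ _) (Eg.const _), node_const H.wt] at this
  exact sub_eq_zero.1 this

theorem I_eq {φ : ℕ → ℝ} (hφ : ∀ y, D.t y = 0 → φ y = 0) (F : ℕ → ℝ) :
    (D.I fun y => φ y * (F y - D.q y)) =
      ∑ y ∈ Sl D, dm D.L 0 y * φ y * (F y - rho D.w D.L D.l0 D.h y) := by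
  rw [Dat.I, Finset.sum_range_succ, H.top, zero_mul, add_zero, Sl, Finset.sum_filter]
  refine Finset.sum_congr rfl fun y hy => ?_
  split_ifs with k
  · rw [rho_eq_q H (Finset.mem_filter.2 ⟨hy, k⟩), mul_assoc]
  · rw [hφ y (not_not.1 k), zero_mul, mul_zero]

include h0 hT htr h₀

/-- **Gm**, any majorant `g` of `gz j` and any positive weights `ω` -/
theorem Gm_of {j : ℕ} {g ω : ℕ → ℝ} (hg : ∀ y ∈ Sl D, D.gz j y ≤ g y) (hω : ∀ y ∈ Sl D, 0 < ω y)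
    {G : ℝ} (G0 : 0 ≤ G) (hG : 8 * ∑ y ∈ Sl D, dm D.L 0 y * g y ^ 2 * aa D.w D.L D.l0 D.h y +
      2 * ((∑ y ∈ Sl D, dm D.L 0 y * g y * ω y) *
        ∑ y ∈ Sl D, dm D.L 0 y * g y / ω y * vv D.w D.L D.l0 D.h y) ≤ G ^ 2) : D.Gm j G := by
  refine ⟨G0, fun φ h1 h2 => ?_⟩
  have hS : ∀ y ∈ Sl D, 1 ≤ y ∧ y ≤ D.L.length := fun y hy => by
    obtain ⟨h3, h4⟩ := Finset.mem_filter.1 hy
    exact ⟨Nat.pos_of_ne_zero fun e => h4 (e ▸ h0), (Finset.mem_range.1 h3).le⟩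
  have b1 : ∀ y ∈ Sl D, |φ y| ≤ g y := fun y hy => (h1 y).trans (hg y hy)
  have k1 := gm_ms_sup H.wt H.mono D.h hT htr h₀ hS b1 hω
  have k2 := gm_rs_sup H.wt H.mono D.h hT htr h₀ hS b1
  have g0 : ∀ y ∈ Sl D, 0 ≤ dm D.L 0 y * g y := fun y hy =>
    mul_nonneg (dm_nonneg H.mono y) ((abs_nonneg _).trans (b1 y hy))
  have p1 : 0 ≤ ∑ y ∈ Sl D, dm D.L 0 y * g y ^ 2 * aa D.w D.L D.l0 D.h y :=
    Finset.sum_nonneg fun y _ => mul_nonneg (mul_nonneg (dm_nonneg H.mono y) (sq_nonneg _))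
      (aa_nonneg H.wt H.mono _ _ y)
  have p2 : 0 ≤ (∑ y ∈ Sl D, dm D.L 0 y * g y * ω y) *
      ∑ y ∈ Sl D, dm D.L 0 y * g y / ω y * vv D.w D.L D.l0 D.h y :=
    mul_nonneg (Finset.sum_nonneg fun y hy => mul_nonneg (g0 y hy) (hω y hy).le)
      (Finset.sum_nonneg fun y hy => mul_nonneg (div_nonneg (g0 y hy) (hω y hy).le)
        (vv_nonneg H.wt _ _ _ y))
  simp only [I_eq H h2]
  exact ⟨k2.trans (by linarith), k1.trans hG⟩

/-- **Gm level by level**: `lev y` is the level of the node `y`; on the level `s` the weight is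
`≤ g s`, the mass `≤ X s`, `∑ dm aa ≤ A s`, `∑ dm vv ≤ B s` -/
theorem Gm_lev {j : ℕ} {lev : ℕ → ℕ} {Lv' : Finset ℕ} (hl : ∀ y ∈ Sl D, lev y ∈ Lv')
    {g X A B : ℕ → ℝ} (hg : ∀ y ∈ Sl D, D.gz j y ≤ g (lev y)) (g0 : ∀ s ∈ Lv', 0 ≤ g s)
    (X0 : ∀ s ∈ Lv', 0 < X s) (B0 : ∀ s ∈ Lv', 0 < B s)
    (hX : ∀ s ∈ Lv', ∑ y ∈ Sl D with lev y = s, dm D.L 0 y ≤ X s)
    (hA : ∀ s ∈ Lv', ∑ y ∈ Sl D with lev y = s, dm D.L 0 y * aa D.w D.L D.l0 D.h y ≤ A s)
    (hB : ∀ s ∈ Lv', ∑ y ∈ Sl D with lev y = s, dm D.L 0 y * vv D.w D.L D.l0 D.h y ≤ B s)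
    {G : ℝ} (G0 : 0 ≤ G) (hG : 8 * ∑ s ∈ Lv', g s ^ 2 * A s +
      2 * (∑ s ∈ Lv', g s * √(X s * B s)) ^ 2 ≤ G ^ 2) : D.Gm j G := by
  have w0 : ∀ s ∈ Lv', 0 < √(B s / X s) := fun s hs => sqrt_pos.2 (div_pos (B0 s hs) (X0 s hs))
  have f : ∀ (F c E : ℕ → ℝ), (∀ s ∈ Lv', 0 ≤ c s) →
      (∀ s ∈ Lv', ∑ y ∈ Sl D with lev y = s, F y ≤ E s) →
      ∑ y ∈ Sl D, c (lev y) * F y ≤ ∑ s ∈ Lv', c s * E s := fun F c E hc hE => by
    rw [← Finset.sum_fiberwise_of_maps_to hl]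
    refine Finset.sum_le_sum fun s hs => le_trans (le_of_eq ?_)
      (mul_le_mul_of_nonneg_left (hE s hs) (hc s hs))
    rw [Finset.mul_sum]
    exact Finset.sum_congr rfl fun y hy => by rw [(Finset.mem_filter.1 hy).2]
  have f1 := f _ (fun s => g s ^ 2) _ (fun _ _ => sq_nonneg _) hA
  have f2 := f _ (fun s => g s * √(B s / X s)) _ (fun s hs => mul_nonneg (g0 s hs) (w0 s hs).le) hX
  have f3 := f _ (fun s => g s / √(B s / X s)) _ (fun s hs => div_nonneg (g0 s hs) (w0 s hs).le) hB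
  have e2 : ∑ s ∈ Lv', g s * √(B s / X s) * X s = ∑ s ∈ Lv', g s * √(X s * B s) :=
    Finset.sum_congr rfl fun s hs => by
      have h1 := X0 s hs
      rw [mul_assoc, show X s * B s = B s / X s * X s ^ 2 by field_simp,
        sqrt_mul' _ (sq_nonneg _), sqrt_sq h1.le]
  have e3 : ∑ s ∈ Lv', g s / √(B s / X s) * B s = ∑ s ∈ Lv', g s * √(X s * B s) :=
    Finset.sum_congr rfl fun s hs => by
      have h1 := X0 s hs
      have h2 := B0 s hs
      have h3 := w0 s hs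
      rw [div_mul_eq_mul_div, mul_div_assoc, eq_comm]
      congr 1
      rw [eq_div_iff h3.ne', ← sqrt_mul (by positivity),
        show X s * B s * (B s / X s) = B s ^ 2 by field_simp, sqrt_sq h2.le]
  rw [e2] at f2
  rw [e3] at f3
  refine Gm_of H h0 hT htr h₀ (ω := fun y => √(B (lev y) / X (lev y))) hg
    (fun y hy => w0 _ (hl y hy)) G0 (le_trans (add_le_add (mul_le_mul_of_nonneg_left
      (le_trans (le_of_eq (Finset.sum_congr rfl fun _ _ => by ring)) f1) (by norm_num))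
      (mul_le_mul_of_nonneg_left ?_ (by norm_num))) hG)
  rw [sq]
  refine mul_le_mul (le_trans (le_of_eq (Finset.sum_congr rfl fun _ _ => by ring)) f2)
    (le_trans (le_of_eq (Finset.sum_congr rfl fun _ _ => by ring)) f3)
    (Finset.sum_nonneg fun y hy => mul_nonneg (div_nonneg (mul_nonneg (dm_nonneg H.mono y)
      (g0 _ (hl y hy))) (w0 _ (hl y hy)).le) (vv_nonneg H.wt _ _ _ y))
    (Finset.sum_nonneg fun s hs => mul_nonneg (g0 s hs) (sqrt_nonneg _))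

end Crest.Agent.T156.Cas.Eg33

end
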