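import Crest.Agent.T156.Lin_23
import Crest.Agent.T156.CaLin_22

/-!
# Row 156: comparison along `ipl`, and the `B` term (helper23)

`ipl_cmp`: the laws of the leaves at two times of a linear path are comparable.
`bI`: kernels `k` switched on, constant kernels `v` switched off.
-/

set_option autoImplicit false
set_option linter.unusedSectionVars false

noncomputable section

namespace Crest.Agent.T156.Cas

open MeasureTheory Real Set Filter Topology
open Crest.Agent.T157.E Crest.Agent.T157.Casc Crest.Agent.T157.SL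
open Lin23

variable {Ω : Type}

/-- data of one level of the `B` path: bulk level, kernel, and the constant that replaces it -/
structure BL (Ω : Type) where
  b : Lv Ω
  k : Lv Ω
  v : ℝ

/-- covariance `b + t k + (1 - t) v` -/
def BL.il (c : BL Ω) : IL Ω := ⟨c.b, c.k, cLv Ω c.v 0⟩

/-- the `B` path -/
def bI (L : List (BL Ω)) (t : ℝ) : List (Lv Ω) := ipl (L.map BL.il) t

/-- centred accumulated kernel `∑_{i<j} (k_i - v_i)` -/
def bU (L : List (BL Ω)) (j : ℕ) (x y : Ω) : ℝ := ((L.take j).map fun c => c.k.cov x y - c.v).sum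

theorem cLv_cov23 {c : ℝ} (hc : 0 ≤ c) (m : ℝ) (x y : Ω) : (cLv Ω c m).cov x y = c := by
  simp [Lv.cov, mul_self_sqrt hc]

theorem BL.cov_at {c : BL Ω} (hv : 0 ≤ c.v) {t : ℝ} (ht : t ∈ Icc (0 : ℝ) 1) (x y : Ω) :
    (c.il.tl.at t).cov x y = c.b.cov x y + t * c.k.cov x y + (1 - t) * c.v := by
  rw [IL.cov_at _ ht]
  simp only [BL.il, cLv_cov23 hv]

theorem il_b (L : List (BL Ω)) : (L.map BL.il).map IL.b = L.map BL.b := by
  simp [Function.comp_def, BL.il]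

theorem iD_bI {L : List (BL Ω)} (hv : ∀ c ∈ L, 0 ≤ c.v) : iD (L.map BL.il) = bU L := by
  funext j x y
  rw [iD, bU, ← List.map_take, List.map_map]
  congr 1
  refine List.map_congr_left fun c hc => ?_
  simp only [Function.comp, IL.D, BL.il, cLv_cov23 (hv c (List.mem_of_mem_take hc))]

theorem bU_eq (x y : Ω) : ∀ (L : List (BL Ω)) (j : ℕ),
    bU L j x y = cacc (L.map BL.k) j x y - ((L.take j).map BL.v).sum
  | [], _ => by simp [bU, cacc]
  | _ :: _, 0 => by simp [bU, cacc]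
  | c :: L, j + 1 => by
    have := bU_eq x y L j
    simp only [bU, List.take_succ_cons, List.map_cons, List.sum_cons, Sd.cacc_cons] at this ⊢
    rw [this]
    ring

theorem bI_length (L : List (BL Ω)) (t : ℝ) : (bI L t).length = L.length := by
  rw [bI, ipl_length, List.length_map]

theorem dm_bI (L : List (BL Ω)) (t m0 : ℝ) (j : ℕ) : dm (bI L t) m0 j = dm (L.map BL.b) m0 j := by
  rw [bI, dm_ipl, il_b]

theorem mono_bI (L : List (BL Ω)) (t m0 : ℝ) : Mono m0 (bI L t) ↔ Mono m0 (L.map BL.b) := by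
  rw [bI, mono_ipl, il_b]

theorem sameC_bI {L : List (BL Ω)} (hv : ∀ c ∈ L, 0 ≤ c.v) :
    List.Forall₂ (fun l l' => ∃ c, SameC c l l') (bI L 0) (L.map BL.b) := by
  rw [bI, ipl_eq, List.map_map]
  refine Lin22.forall₂_map _ _ L fun c hc => ⟨c.v, rfl, fun x y => ?_⟩
  refine (BL.cov_at (hv c hc) ⟨le_rfl, zero_le_one⟩ x y).trans (by ring)

/-- transport at any time -/
theorem same_bI {L : List (BL Ω)} (hv : ∀ c ∈ L, 0 ≤ c.v) {t : ℝ} (ht : t ∈ Icc (0 : ℝ) 1)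
    (f : BL Ω → Lv Ω) (H : ∀ c ∈ L, (f c).m = c.b.m ∧ ∀ x y,
      (f c).cov x y = c.b.cov x y + t * c.k.cov x y + (1 - t) * c.v) :
    List.Forall₂ C.Same (bI L t) (L.map f) := by
  rw [bI, ipl_eq, List.map_map]
  exact Lin22.forall₂_map _ _ L fun c hc => ⟨(H c hc).1.symm, by
    funext x y; exact (BL.cov_at (hv c hc) ht x y).trans ((H c hc).2 x y).symm⟩

variable [Fintype Ω] {w : Ω → ℝ}

/-- **comparison** of the laws of the leaves at two times (bounded density) -/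
theorem ipl_cmp (hw : Wt w) (s : Sh) {L : List (IL Ω)} (hL : Mono 0 (L.map IL.b)) {κ : ℝ}
    (hκ : ∀ j y y', |iD L j y y'| ≤ κ) (h : Ω → ℝ) {F : (s.Lf → Ω) → ℝ} (hF : ∀ x, 0 ≤ F x)
    {t u : ℝ} (ht : t ∈ Icc (0 : ℝ) 1) (hu : u ∈ Icc (0 : ℝ) 1) :
    tX w s (ipl L t) h (fun _ x => F x) ≤
      exp ((2 * Fintype.card s.Lf ^ 2 + Fintype.card s.Lf) * κ * |t - u|) *
        tX w s (ipl L u) h fun _ x => F x := by
  refine gron (continuousOn_tX_ipl hw s L h F) (fun t ht => hasDerivAt_tX_ipl hw s L h F ht)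
    (fun t _ => ?_) ht hu
  rw [← Sd.tX_const_mul]
  refine abs_tX_le hw s _ h (fun x => Eg.const _) fun g x => ?_
  have := abs_Th_le hw s ((mono_ipl t L 0).2 hL) (S := fun j y y' => 1 / 2 * iD L j y y')
    (κ := 1 / 2 * κ) (fun j y y' => by
      rw [abs_mul, abs_of_pos one_half_pos]
      exact mul_le_mul_of_nonneg_left (hκ j y y') one_half_pos.le) h x (stT s (ipl L t) h g)
  rw [abs_mul, abs_of_nonneg (hF x), mul_comm]
  exact mul_le_mul_of_nonneg_right (this.trans_eq (by ring)) (hF x)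

/-- the same with a constant that does not depend on the times -/
theorem ipl_cmp' (hw : Wt w) (s : Sh) {L : List (IL Ω)} (hL : Mono 0 (L.map IL.b)) {κ : ℝ}
    (hκ : ∀ j y y', |iD L j y y'| ≤ κ) (h : Ω → ℝ) {F : (s.Lf → Ω) → ℝ} (hF : ∀ x, 0 ≤ F x)
    {t u : ℝ} (ht : t ∈ Icc (0 : ℝ) 1) (hu : u ∈ Icc (0 : ℝ) 1) :
    tX w s (ipl L t) h (fun _ x => F x) ≤
      exp ((2 * Fintype.card s.Lf ^ 2 + Fintype.card s.Lf) * κ) *
        tX w s (ipl L u) h fun _ x => F x := by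
  refine (ipl_cmp hw s hL hκ h hF ht hu).trans (mul_le_mul_of_nonneg_right (exp_le_exp.2 ?_)
    (Sd.tX_nonneg hw s _ h fun _ x => hF x))
  obtain ⟨y⟩ : Nonempty Ω := by
    by_contra hn
    have := hw.pos
    simp [not_nonempty_iff.1 hn] at this
  have h0 := (abs_nonneg _).trans (hκ 0 y y)
  exact mul_le_of_le_one_right (by positivity) (abs_le.2 ⟨by linarith [ht.1, hu.2], by
    linarith [ht.2, hu.1]⟩)

theorem cont_pi2_ipl (hw : Wt w) (L : List (IL Ω)) (j : ℕ) (Q : Ω → Ω → ℝ) (h : Ω → ℝ) :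
    ContinuousOn (fun t => pi2 w (ipl L t) j Q h) (Icc 0 1) :=
  (Var6.eg_pi2P hw Q _ (okC_ipl L) j).cont.comp
    (f := fun ρ : ℝ => ((ρ, h) : Pt Ω)) (by fun_prop) fun _ ht => ⟨ht, trivial⟩

open Classical in
theorem cont_P_ipl (hw : Wt w) (L : List (IL Ω)) (h : Ω → ℝ) (x : Ω) :
    ContinuousOn (fun t => P w (ipl L t) h x) (Icc 0 1) :=
  (eg_PP hw (okC_ipl L) x).cont.comp
    (f := fun ρ : ℝ => ((ρ, h) : Pt Ω)) (by fun_prop) fun _ ht => ⟨ht, trivial⟩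

theorem cont_iX (hw : Wt w) (L : List (IL Ω)) (h : Ω → ℝ) : ContinuousOn (iX w L h) (Icc 0 1) :=
  ((continuousOn_finsetSum _ fun x _ => (cont_P_ipl hw L h x).mul continuousOn_const).sub
    (continuousOn_finsetSum _ fun j _ =>
      continuousOn_const.mul (cont_pi2_ipl hw L j _ h))).div_const 2

theorem ipl_ftc (hw : Wt w) (L : List (IL Ω)) (h : Ω → ℝ) {t : ℝ} (ht : t ∈ Icc (0 : ℝ) 1) :
    X w (ipl L t) h - X w (ipl L 0) h = ∫ s in (0 : ℝ)..t, iX w L h s := by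
  have hs : Icc 0 t ⊆ Icc (0 : ℝ) 1 := Icc_subset_Icc_right ht.2
  refine (intervalIntegral.integral_eq_sub_of_hasDerivAt_of_le ht.1
    ((continuousOn_X_ipl hw L h).mono hs)
    (fun s hs' => hasDerivAt_X_ipl hw L h ⟨hs'.1, hs'.2.trans_le ht.2⟩) ?_).symm
  exact (((cont_iX hw L h).mono hs).mono (uIcc_of_le ht.1).le).intervalIntegrable

/-- the `B` path at `t = 0`: value -/
theorem bI_X0 (hw : Wt w) {L : List (BL Ω)} (hv : ∀ c ∈ L, 0 ≤ c.v) (h : Ω → ℝ) :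
    X w (bI L 0) h = X w (L.map BL.b) h + (L.map fun c => c.b.m * c.v / 2).sum := by
  have := Law.X_sameC hw (L.map fun c => (c.il.tl.at 0, c.b, c.v)) (fun q hq => by
      obtain ⟨c, hc, rfl⟩ := List.mem_map.1 hq
      exact ⟨rfl, fun x y => (BL.cov_at (hv c hc) ⟨le_rfl, zero_le_one⟩ x y).trans (by ring)⟩) h
  simp only [List.map_map, Function.comp_def] at this
  rw [bI, ipl_eq, List.map_map]
  exact this

/-- the `B` path at `t = 0`: laws -/
theorem bI_tX0 (hw : Wt w) {L : List (BL Ω)} (hv : ∀ c ∈ L, 0 ≤ c.v) (s : Sh)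
    (F : (s.Lf → Ω) → ℝ) (h : Ω → ℝ) :
    tX w s (bI L 0) h (fun _ x => F x) = tX w s (L.map BL.b) h fun _ x => F x :=
  Law.TE_sameC hw s (sameC_bI hv) F h

theorem bI_pi0 (hw : Wt w) {L : List (BL Ω)} (hv : ∀ c ∈ L, 0 ≤ c.v) (j : ℕ) (K : Ω → Ω → ℝ) :
    pi2 w (bI L 0) j K = pi2 w (L.map BL.b) j K := Law.pi2_sameC hw (sameC_bI hv) j K

theorem bI_P0 (hw : Wt w) {L : List (BL Ω)} (hv : ∀ c ∈ L, 0 ≤ c.v) :
    P w (bI L 0) = P w (L.map BL.b) := Law.P_sameC hw (sameC_bI hv)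

/-- first order of the `B` term, in the bulk system -/
def bX (w : Ω → ℝ) (L : List (BL Ω)) (M : List (Lv Ω)) (h : Ω → ℝ) : ℝ :=
  (Pf w M h (fun x => bU L L.length x x) -
    ∑ j ∈ Finset.range (L.length + 1), dm (L.map BL.b) 0 j * pi2 w M j (bU L j) h) / 2

theorem iX_bI {L : List (BL Ω)} (hv : ∀ c ∈ L, 0 ≤ c.v) (h : Ω → ℝ) (t : ℝ) :
    iX w (L.map BL.il) h t = bX w L (bI L t) h := by
  rw [iX, bX, iD_bI hv, il_b, List.length_map, bI]

theorem bX_zero (hw : Wt w) {L : List (BL Ω)} (hv : ∀ c ∈ L, 0 ≤ c.v) (h : Ω → ℝ) :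
    bX w L (bI L 0) h = bX w L (L.map BL.b) h := by
  simp only [bX, bI_pi0 hw hv, Pf, bI_P0 hw hv]

/-- **the `B` term**: value at time `t` -/
theorem bI_val (hw : Wt w) {L : List (BL Ω)} (hv : ∀ c ∈ L, 0 ≤ c.v) (h : Ω → ℝ) {t : ℝ}
    (ht : t ∈ Icc (0 : ℝ) 1) :
    X w (bI L t) h = X w (L.map BL.b) h + (L.map fun c => c.b.m * c.v / 2).sum +
      ∫ s in (0 : ℝ)..t, bX w L (bI L s) h := by
  have := ipl_ftc hw (L.map BL.il) h ht
  simp only [iX_bI hv] at this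
  rw [← bI_X0 hw hv, ← this, bI, bI]
  ring

/-- comparison with the bulk system -/
theorem bI_cmp (hw : Wt w) (s : Sh) {L : List (BL Ω)} (hv : ∀ c ∈ L, 0 ≤ c.v)
    (hL : Mono 0 (L.map BL.b)) {κ : ℝ} (hκ : ∀ j y y', |bU L j y y'| ≤ κ) (h : Ω → ℝ)
    {F : (s.Lf → Ω) → ℝ} (hF : ∀ x, 0 ≤ F x) {t : ℝ} (ht : t ∈ Icc (0 : ℝ) 1) :
    tX w s (bI L t) h (fun _ x => F x) ≤
      exp ((2 * Fintype.card s.Lf ^ 2 + Fintype.card s.Lf) * κ) *
        tX w s (L.map BL.b) h fun _ x => F x := by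
  rw [← bI_tX0 hw hv]
  exact ipl_cmp' hw s (by rwa [il_b]) (by rwa [iD_bI hv]) h hF ht ⟨le_rfl, zero_le_one⟩

end Crest.Agent.T156.Cas

end
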