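import Crest.Agent.T156.Cav_22
import Crest.Agent.T156.CavB_23
import Crest.Agent.T156.CaIso_87

/-!
# Row 156 (helper22): remainders of the cavity expansion and the expansion of the value
-/

set_option autoImplicit false
set_option linter.unusedSectionVars false

noncomputable section

namespace Crest.Agent.T156.Cas

open MeasureTheory Real Set Filter Topology
open Crest.Agent.T157.E Crest.Agent.T157.Casc Crest.Agent.T157.SL

variable {Ω S Θ : Type}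

theorem itE_const_mul (ε : ℝ) (M : List (Lv Θ)) (K : ℕ → Ω → Ω → ℝ) (E : Fn Ω) (c : ℝ) :
    ∀ (n : ℕ) (s : Sh) (F : (s.Lf → Ω) → ℝ),
      itE ε M K (fun s F => c * E s F) n s F = c * itE ε M K E n s F
  | 0, _, _ => rfl
  | n + 1, s, F => by simp only [itE, itE_const_mul ε M K E c n, sg_const_mul]

/-- the signed sum is dominated by the total variation -/
theorem abs_itE_le {M : List (Lv Θ)} (hM : Mono 0 M) {K K' : ℕ → Ω → Ω → ℝ}
    (hK : ∀ j ≤ M.length, ∀ x y, |K j x y| ≤ K' j x y) {E E' : Fn Ω} {N : ℕ}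
    (hE : ∀ s : Sh, Fintype.card s.Lf ≤ N → ∀ F F', (∀ x, |F x| ≤ F' x) → |E s F| ≤ E' s F') :
    ∀ (n : ℕ) (s : Sh) (F F' : (s.Lf → Ω) → ℝ), Fintype.card s.Lf + 2 * n ≤ N →
      (∀ x, |F x| ≤ F' x) → |itE (-1) M K E n s F| ≤ itE 1 M K' E' n s F'
  | 0, s, F, F', hs, hF => hE s (by omega) F F' hF
  | n + 1, s, F, F', hs, hF => abs_sg_le hM s fun τ hτ =>
      abs_itE_le hM hK hE n τ.sh _ _ (by have := hτ.card; omega) fun x => by
        rw [GT.ev, GT.ev, abs_mul]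
        exact mul_le_mul (hF _) (hK _ hτ.le _ _) (abs_nonneg _) ((abs_nonneg _).trans (hF _))

theorem itE_mono {M : List (Lv Θ)} (hM : Mono 0 M) {K K' : ℕ → Ω → Ω → ℝ}
    (hK : ∀ j ≤ M.length, ∀ x y, |K j x y| ≤ K' j x y) {E E' : Fn Ω} {N : ℕ}
    (hE : ∀ s : Sh, Fintype.card s.Lf ≤ N → ∀ F F', (∀ x, |F x| ≤ F' x) → E s F ≤ E' s F') :
    ∀ (n : ℕ) (s : Sh) (F F' : (s.Lf → Ω) → ℝ), Fintype.card s.Lf + 2 * n ≤ N →
      (∀ x, |F x| ≤ F' x) → itE 1 M K E n s F ≤ itE 1 M K' E' n s F'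
  | 0, s, F, F', hs, hF => hE s (by omega) F F' hF
  | n + 1, s, F, F', hs, hF => sg_mono zero_le_one hM s fun τ hτ =>
      itE_mono hM hK hE n τ.sh _ _ (by have := hτ.card; omega) fun x => by
        rw [GT.ev, GT.ev, abs_mul]
        exact mul_le_mul (hF _) (hK _ hτ.le _ _) (abs_nonneg _) ((abs_nonneg _).trans (hF _))

theorem itB_const (ε : ℝ) (M : List (Lv Θ)) (U : ℕ → Ω → Ω → ℝ) (ζ : ℝ) (E : Fn Ω) {E' : Fn S}
    (hE : ∀ s c, E' s (fun _ => c) = c) : ∀ (n : ℕ) (s : Sh) (G : (s.Lf → Ω) → ℝ) (A : ℝ),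
    itB ε M U (fun _ _ _ => ζ) (fun s G ξ => E s G * E' s ξ) n s G (fun _ => A) =
      A * ζ ^ n * itE ε M U E n s G
  | 0, s, G, A => by simp only [itB, itE, hE]; ring
  | n + 1, s, G, A => by
      have e : ∀ τ : GT s, τ.ev (fun _ _ _ => ζ) (fun _ : s.Lf → S => A) = fun _ => A * ζ :=
        fun _ => rfl
      simp only [itB, itE, e, itB_const ε M U ζ E hE n, sg_const_mul]
      ring

variable [Fintype Ω] [Fintype S] {w : Ω → ℝ}

theorem abs_TE_le' (hw : Wt w) (s : Sh) (M : List (Lv Ω)) (h : Ω → ℝ) {F F' : (s.Lf → Ω) → ℝ}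
    (H : ∀ x, |F x| ≤ F' x) : |TE w s M h F| ≤ TE w s M h F' :=
  (Law.abs_TE_le hw s M h F).trans (Law.TE_mono hw s M h H)

theorem GT.Mem.TE_pair (hw : Wt w) {s : Sh} {M : List (Lv Ω)} {τ : GT s} (H : τ.Mem s M.length)
    (h : Ω → ℝ) (K : Ω → Ω → ℝ) :
    TE w τ.sh M h (fun x => K (x τ.p) (x τ.q)) = pi2 w M τ.j K h := by
  rw [Cas.TE_pair hw _ _ _ H.ne, H.shr]

/-- **bound of the total variation by moments of the kernels** (supremum over the levels) -/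
theorem itE_le (hw : Wt w) {M₀ : List (Lv Θ)} (hM : Mono 0 M₀) {M : List (Lv Ω)}
    (hl : M₀.length = M.length) (h : Ω → ℝ) {K : ℕ → Ω → Ω → ℝ} (hK : ∀ j x y, 0 ≤ K j x y)
    {p : ℕ} {B b : ℝ} (hB0 : 0 ≤ B) (hb : 0 ≤ b)
    (hB : ∀ j ≤ M.length, pi2 w M j (fun x y => K j x y ^ p) h ≤ B) {N : ℕ} :
    ∀ (n : ℕ) (s : Sh) (F a d : (s.Lf → Ω) → ℝ), Fintype.card s.Lf + 2 * n ≤ N →
      (∀ x, 0 ≤ F x) → (∀ x, 0 ≤ a x) → (∀ x, 0 ≤ d x) →
      (∀ x δ, d x ≤ δ → F x * δ ^ n ≤ a x + b * δ ^ p) →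
      itE 1 M₀ K (TEf w M h) n s F ≤
        (4 * (N : ℝ) ^ 2) ^ n * (TE w s M h a + b * (TE w s M h (fun x => d x ^ p) + n * B))
  | 0, s, F, a, d, _, _, _, _, H => by
      simp only [pow_zero, mul_one, one_mul, Nat.cast_zero, zero_mul, add_zero] at H ⊢
      rw [← Law.TE_const_mul hw, ← Law.TE_add hw]
      exact Law.TE_mono hw s M h fun x => H x _ le_rfl
  | n + 1, s, F, a, d, hs, hF, ha, hd, H => by
      have h0 : ∀ {G : (s.Lf → Ω) → ℝ}, (∀ x, 0 ≤ G x) → 0 ≤ TE w s M h G := fun hG =>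
        (Law.TE_const hw s M h 0).symm.trans_le (Law.TE_mono hw s M h hG)
      have h1 := h0 ha
      have h2 := h0 fun x => pow_nonneg (hd x) p
      set R := TE w s M h a + b * (TE w s M h (fun x => d x ^ p) + (n + 1 : ℕ) * B) with hR
      refine (sg_mono (Ψ := fun _ => (4 * (N : ℝ) ^ 2) ^ n * R) zero_le_one hM s
        fun τ hτ => ?_).trans ?_
      · rw [hl] at hτ
        refine (itE_le hw hM hl h hK hB0 hb hB (N := N) n τ.sh (τ.ev K F)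
          (fun x => a fun c => x (τ.e c))
          (fun x => max (d fun c => x (τ.e c)) (K τ.j (x τ.p) (x τ.q)))
          (by have := hτ.card; omega) (fun x => mul_nonneg (hF _) (hK _ _ _)) (fun x => ha _)
          (fun x => (hd _).trans (le_max_left _ _)) fun x δ hδ => ?_).trans ?_
        · refine le_trans ?_ (H _ δ ((le_max_left _ _).trans hδ))
          have h3 : 0 ≤ δ := (hd _).trans ((le_max_left _ _).trans hδ)
          rw [GT.ev, mul_assoc, pow_succ']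
          exact mul_le_mul_of_nonneg_left (mul_le_mul_of_nonneg_right
            ((le_max_right _ _).trans hδ) (pow_nonneg h3 n)) (hF _)
        · have h3 : TE w τ.sh M h (fun x => max (d fun c => x (τ.e c)) (K τ.j (x τ.p) (x τ.q)) ^ p)
              ≤ TE w s M h (fun x => d x ^ p) + B := by
            refine (Law.TE_mono hw _ M h (G := fun x => (d fun c => x (τ.e c)) ^ p +
              K τ.j (x τ.p) (x τ.q) ^ p) fun x => ?_).trans ?_
            · rcases le_total (d fun c => x (τ.e c)) (K τ.j (x τ.p) (x τ.q)) with e | e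
              · rw [max_eq_right e]; exact le_add_of_nonneg_left (pow_nonneg (hd _) p)
              · rw [max_eq_left e]; exact le_add_of_nonneg_right (pow_nonneg (hK _ _ _) p)
            · rw [Law.TE_add hw, hτ.TE_e hw M h fun x => d x ^ p,
                hτ.TE_pair hw h fun x y => K τ.j x y ^ p]
              exact add_le_add le_rfl (hB _ hτ.le)
          rw [hτ.TE_e hw M h a, hR]
          push_cast
          exact mul_le_mul_of_nonneg_left (add_le_add le_rfl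
            (mul_le_mul_of_nonneg_left (by linarith) hb)) (by positivity)
      · rw [sg_const, pow_succ' (4 * (N : ℝ) ^ 2), mul_assoc (4 * (N : ℝ) ^ 2)]
        have h4 : (Fintype.card s.Lf : ℝ) ≤ N := by exact_mod_cast (by omega)
        have h5 : 0 ≤ R := by rw [hR]; positivity
        gcongr
        norm_num

/-- derivatives at time `t` against the total variation at time `u` -/
theorem abs_iDn_le (hw : Wt w) {L : List (IL Ω)} (hL : Mono 0 (L.map IL.b)) {κ : ℝ}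
    (hκ : ∀ j y y', |iD L j y y'| ≤ κ) (h : Ω → ℝ) {K : ℕ → Ω → Ω → ℝ}
    (hK : ∀ j ≤ L.length, ∀ x y, |1 / 2 * iD L j x y| ≤ K j x y) {t u : ℝ}
    (ht : t ∈ Icc (0 : ℝ) 1) (hu : u ∈ Icc (0 : ℝ) 1) {N n : ℕ} {s : Sh}
    (hs : Fintype.card s.Lf + 2 * n ≤ N) {F F' : (s.Lf → Ω) → ℝ} (hF : ∀ x, |F x| ≤ F' x) :
    |iDn w L h n s F t| ≤
      exp ((2 * N ^ 2 + N) * κ) * itE 1 (L.map IL.b) K (TEf w (ipl L u) h) n s F' := by
  rw [← itE_const_mul]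
  refine abs_itE_le hL (by simpa only [List.length_map] using hK) (fun s hs F F' hF => ?_) n s F F'
    hs hF
  have h0 : ∀ x, 0 ≤ F' x := fun x => (abs_nonneg _).trans (hF x)
  refine (abs_TE_le' hw s _ h hF).trans ((ipl_cmp' hw s hL hκ h h0 ht hu).trans ?_)
  obtain ⟨y, -⟩ := Finset.exists_ne_zero_of_sum_ne_zero hw.pos.ne'
  have h1 : 0 ≤ κ := (abs_nonneg _).trans (hκ 0 y y)
  have h2 : (Fintype.card s.Lf : ℝ) ≤ N := by exact_mod_cast hs
  have h3 : 0 ≤ TE w s (ipl L u) h F' :=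
    (Law.TE_const hw s _ h 0).symm.trans_le (Law.TE_mono hw s _ h h0)
  show _ * TE w s (ipl L u) h F' ≤ _ * TE w s (ipl L u) h F'
  gcongr

variable {w₁ : Ω → ℝ} {w₂ : S → ℝ}

/-- **the remainder of the cavity expansion** is bounded in the bulk system -/
theorem abs_iDn_cav_le (h₁ : Wt w₁) (h₂ : Wt w₂) (z : Lv S) {L : List (CL Ω S)}
    (hv : ∀ c ∈ L, 0 ≤ c.v) (hL : Mono 0 (L.map CL.b)) {κ ζ A : ℝ}
    (hκ : ∀ j y y', |cU L j y y'| ≤ κ) (hζ : ∀ e e', |z.cov e e'| ≤ ζ) {U : ℕ → Ω → Ω → ℝ}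
    (hU : ∀ j ≤ L.length, ∀ x y, |1 / 2 * cU L j x y| ≤ U j x y) (z₁ : Ω → ℝ) (z₂ : S → ℝ) {t : ℝ}
    (ht : t ∈ Icc (0 : ℝ) 1) {N n : ℕ} {s : Sh} (hs : Fintype.card s.Lf + 2 * n ≤ N)
    {G G' : (s.Lf → Ω) → ℝ} (hG : ∀ x, |G x| ≤ G' x) {ξ : (s.Lf → S) → ℝ} (hξ : ∀ x, |ξ x| ≤ A) :
    |iDn (pw2 w₁ w₂) (L.map (CL.il z)) (ad z₁ z₂) n s (tens G ξ) t| ≤
      exp ((2 * N ^ 2 + N) * (κ * ζ)) * (A * ζ ^ n *
        itE 1 (L.map CL.b) U (TEf w₁ (L.map CL.b) z₁) n s G') := by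
  have tl : ((L.map (CL.il z)).map IL.b).map Lv.m = (L.map CL.b).map Lv.m := by
    simp only [List.map_map]; rfl
  have mu : ∀ {a b c d : ℝ}, |a| ≤ c → |b| ≤ d → |a * b| ≤ c * d := fun h h' => by
    rw [abs_mul]
    exact mul_le_mul h h' (abs_nonneg _) ((abs_nonneg _).trans h)
  refine (abs_iDn_le (Law.wt_pw2 h₁ h₂) (Cav22.mono_tilt tl.symm hL) (κ := κ * ζ)
    (fun j y y' => by rw [iD_cav z hv]; exact mu (hκ _ _ _) (hζ _ _)) _
    (K := fun j x y => U j x.1 y.1 * ζ) (fun j hj x y => by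
      rw [iD_cav z hv, ← mul_assoc]
      exact mu (hU j (by simpa using hj) _ _) (hζ _ _)) ht ⟨le_rfl, zero_le_one⟩ hs
    (F' := tens G' fun _ => A) fun x => mu (hG _) (hξ _)).trans_eq ?_
  rw [itE_tilt 1 tl, itE_tens 1 _ U (fun _ _ _ => ζ),
    ← itB_const 1 _ U ζ _ (E' := TEf w₂ (L.map (CL.sl z)) z₂) fun s c => Law.TE_const h₂ s _ _ c]
  congr 2
  funext s G ξ
  exact TE_cav_zero h₁ h₂ z hv z₁ z₂ s G ξ

/-- **the cavity expansion with a remainder in the bulk system** -/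
theorem abs_taylor_cav_le (h₁ : Wt w₁) (h₂ : Wt w₂) (z : Lv S) {L : List (CL Ω S)}
    (hv : ∀ c ∈ L, 0 ≤ c.v) (hL : Mono 0 (L.map CL.b)) {c ζ₀ κ ζ A : ℝ}
    (hc : ∀ y, cU L L.length y y = c) (hz : ∀ e, z.cov e e = ζ₀)
    (hκ : ∀ j y y', |cU L j y y'| ≤ κ) (hζ : ∀ e e', |z.cov e e'| ≤ ζ) {U : ℕ → Ω → Ω → ℝ}
    (hU : ∀ j ≤ L.length, ∀ x y, |1 / 2 * cU L j x y| ≤ U j x y) (z₁ : Ω → ℝ) (z₂ : S → ℝ) {T : ℝ}
    (hT : T ∈ Icc (0 : ℝ) 1) {N J : ℕ} {s : Sh} (hs : Fintype.card s.Lf + 2 * (J + 1) ≤ N)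
    {G G' : (s.Lf → Ω) → ℝ} (hG : ∀ x, |G x| ≤ G' x) {ξ : (s.Lf → S) → ℝ} (hξ : ∀ x, |ξ x| ≤ A) :
    |TE (pw2 w₁ w₂) s (cav z L T) (ad z₁ z₂) (tens G ξ) -
      ∑ n ∈ Finset.range (J + 1), cavC w₁ w₂ z L z₁ z₂ n s G ξ * T ^ n / n.factorial| ≤
      exp ((2 * N ^ 2 + N) * (κ * ζ)) * (A * ζ ^ (J + 1) *
        itE 1 (L.map CL.b) U (TEf w₁ (L.map CL.b) z₁) (J + 1) s G') * T ^ (J + 1) / J.factorial := by
  simp only [← iDn_cav_zero h₁ h₂ z hv]
  exact Cav22.taylor_le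
    (f := fun n => iDn (pw2 w₁ w₂) (L.map (CL.il z)) (ad z₁ z₂) n s (tens G ξ))
    (fun n => continuousOn_iDn (Law.wt_pw2 h₁ h₂) _ _ n s _)
    (fun n _ ht => hasDerivAt_iDn (Law.wt_pw2 h₁ h₂) _ _ (c := c * ζ₀)
      (fun y => by rw [iD_cav z hv, List.length_map, hc, hz]) ht n s _) hT J fun t ht =>
    abs_iDn_cav_le h₁ h₂ z hv hL hκ hζ hU z₁ z₂ ⟨ht.1, ht.2.trans hT.2⟩ hs hG hξ

/-! ### pair sums and the value -/

/-- the pair function of a kernel -/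
def pr2 (j : ℕ) (K : Ω → Ω → ℝ) : ((Sh.two j).Lf → Ω) → ℝ := fun x => K (x (Sh.twoL j)) (x (Sh.twoR j))

/-- `n`-th derivative of `∑ dm_j pi2_j (K_j)` along the linear path -/
def iW (w : Ω → ℝ) (L : List (IL Ω)) (h : Ω → ℝ) (K : ℕ → Ω → Ω → ℝ) (n : ℕ) (t : ℝ) : ℝ :=
  ∑ j ∈ Finset.range (L.length + 1), dm (L.map IL.b) 0 j * iDn w L h n (Sh.two j) (pr2 j (K j)) t

theorem iDn_pr2 (hw : Wt w) (L : List (IL Ω)) (h : Ω → ℝ) (j : ℕ) (K : Ω → Ω → ℝ) (t : ℝ) :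
    iDn w L h 0 (Sh.two j) (pr2 j K) t = pi2 w (ipl L t) j K h := Wt87.tX_two hw K j _ h

theorem iW_zero (hw : Wt w) (L : List (IL Ω)) (h : Ω → ℝ) (K : ℕ → Ω → Ω → ℝ) (t : ℝ) :
    iW w L h K 0 t = ∑ j ∈ Finset.range (L.length + 1),
      dm (L.map IL.b) 0 j * pi2 w (ipl L t) j (K j) h := by
  simp only [iW, iDn_pr2 hw]

theorem hasDerivAt_iW (hw : Wt w) (L : List (IL Ω)) (h : Ω → ℝ) {c : ℝ}
    (hc : ∀ y, iD L L.length y y = c) (K : ℕ → Ω → Ω → ℝ) (n : ℕ) {t : ℝ} (ht : t ∈ Ioo (0 : ℝ) 1) :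
    HasDerivAt (iW w L h K n) (iW w L h K (n + 1) t) t :=
  HasDerivAt.fun_sum fun _ _ => (hasDerivAt_iDn hw L h hc ht n _ _).const_mul _

theorem continuousOn_iW (hw : Wt w) (L : List (IL Ω)) (h : Ω → ℝ) (K : ℕ → Ω → Ω → ℝ) (n : ℕ) :
    ContinuousOn (iW w L h K n) (Icc 0 1) :=
  continuousOn_finsetSum _ fun _ _ => continuousOn_const.mul (continuousOn_iDn hw L h n _ _)

theorem taylor_iW (hw : Wt w) (L : List (IL Ω)) (h : Ω → ℝ) {c : ℝ}
    (hc : ∀ y, iD L L.length y y = c) (K : ℕ → Ω → Ω → ℝ) {T : ℝ} (hT : T ∈ Icc (0 : ℝ) 1) (J : ℕ) :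
    iW w L h K 0 T = ∑ n ∈ Finset.range (J + 1), iW w L h K n 0 * T ^ n / n.factorial +
      ∫ t in (0 : ℝ)..T, iW w L h K (J + 1) t * (T - t) ^ J / J.factorial :=
  Cav22.taylor (continuousOn_iW hw L h K) (fun n _ ht => hasDerivAt_iW hw L h hc K n ht) hT J

theorem iX_eq (hw : Wt w) (L : List (IL Ω)) (h : Ω → ℝ) {c : ℝ}
    (hc : ∀ y, iD L L.length y y = c) (t : ℝ) : iX w L h t = (c - iW w L h (iD L) 0 t) / 2 := by
  simp only [iX, iW_zero hw, hc, Pf, ← Finset.sum_mul, sum_P hw, one_mul]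

/-- **Taylor expansion of the value** -/
theorem taylor_X_ipl (hw : Wt w) (L : List (IL Ω)) (h : Ω → ℝ) {c : ℝ}
    (hc : ∀ y, iD L L.length y y = c) {T : ℝ} (hT : T ∈ Icc (0 : ℝ) 1) (J : ℕ) :
    X w (ipl L T) h = X w (ipl L 0) h + c * T / 2 -
      (∑ n ∈ Finset.range J, iW w L h (iD L) n 0 * T ^ (n + 1) / (n + 1).factorial +
        ∫ t in (0 : ℝ)..T, iW w L h (iD L) J t * (T - t) ^ J / J.factorial) / 2 := by
  have := Cav22.taylor (f := fun n => Nat.casesOn n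
      (fun t => c * t - 2 * X w (ipl L t) h) fun n => iW w L h (iD L) n)
    (fun n => by
      cases n with
      | zero => exact (continuousOn_const.mul continuousOn_id).sub
                  (continuousOn_const.mul (continuousOn_X_ipl hw L h))
      | succ n => exact continuousOn_iW hw L h _ n)
    (fun n t ht => by
      cases n with
      | zero =>
        refine (((hasDerivAt_id' t).const_mul c).fun_sub
          ((hasDerivAt_X_ipl hw L h ht).const_mul 2)).congr_deriv ?_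
        rw [iX_eq hw L h hc]
        show _ = iW w L h (iD L) 0 t
        ring
      | succ n => exact hasDerivAt_iW hw L h hc _ n ht) hT J
  rw [Finset.sum_range_succ'] at this
  simp only [Nat.rec_zero, mul_zero, pow_zero, Nat.factorial_zero, Nat.cast_one] at this
  linarith

/-- total weight one: a bound for every level is a bound for the pair sum -/
theorem abs_iW_le {L : List (IL Ω)} (hL : Mono 0 (L.map IL.b)) {h : Ω → ℝ} {K : ℕ → Ω → Ω → ℝ}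
    {n : ℕ} {t : ℝ} {B : ℕ → ℝ}
    (hB : ∀ j ≤ L.length, |iDn w L h n (Sh.two j) (pr2 j (K j)) t| ≤ B j) :
    |iW w L h K n t| ≤ ∑ j ∈ Finset.range (L.length + 1), dm (L.map IL.b) 0 j * B j := by
  refine (Finset.abs_sum_le_sum_abs _ _).trans (Finset.sum_le_sum fun j hj => ?_)
  rw [abs_mul, abs_of_nonneg (dm_nonneg hL j)]
  exact mul_le_mul_of_nonneg_left (hB j (Nat.lt_succ_iff.1 (Finset.mem_range.1 hj)))
    (dm_nonneg hL j)

omit [Fintype Ω] [Fintype S] in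
theorem pr2_tens (j : ℕ) (U : Ω → Ω → ℝ) (Z : S → S → ℝ) :
    pr2 j (fun x y : Ω × S => U x.1 y.1 * Z x.2 y.2) = tens (pr2 j U) (pr2 j Z) := rfl

omit [Fintype Ω] [Fintype S] in
theorem dm_il (z : Lv S) (L : List (CL Ω S)) (j : ℕ) :
    dm ((L.map (CL.il z)).map IL.b) 0 j = dm (L.map CL.b) 0 j :=
  Cav22.dm_tilt (by simp only [List.map_map]; rfl) 0 j

/-- pair sums of product kernels at the decoupled endpoint -/
theorem iW_cav_zero (h₁ : Wt w₁) (h₂ : Wt w₂) (z : Lv S) {L : List (CL Ω S)}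
    (hv : ∀ c ∈ L, 0 ≤ c.v) (z₁ : Ω → ℝ) (z₂ : S → ℝ) (U : ℕ → Ω → Ω → ℝ) (Z : ℕ → S → S → ℝ)
    (n : ℕ) : iW (pw2 w₁ w₂) (L.map (CL.il z)) (ad z₁ z₂) (fun j x y => U j x.1 y.1 * Z j x.2 y.2) n 0 =
      ∑ j ∈ Finset.range (L.length + 1), dm (L.map CL.b) 0 j *
        cavC w₁ w₂ z L z₁ z₂ n (Sh.two j) (pr2 j (U j)) (pr2 j (Z j)) := by
  simp only [iW, pr2_tens, iDn_cav_zero h₁ h₂ z hv, dm_il, List.length_map]

/-- **the cavity expansion of the value** -/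
theorem taylor_X_cav (h₁ : Wt w₁) (h₂ : Wt w₂) (z : Lv S) {L : List (CL Ω S)}
    (hv : ∀ c ∈ L, 0 ≤ c.v) {c ζ : ℝ} (hc : ∀ y, cU L L.length y y = c) (hz : ∀ e, z.cov e e = ζ)
    (z₁ : Ω → ℝ) (z₂ : S → ℝ) {T : ℝ} (hT : T ∈ Icc (0 : ℝ) 1) (J : ℕ) :
    X (pw2 w₁ w₂) (cav z L T) (ad z₁ z₂) =
      X w₁ (L.map CL.b) z₁ + X w₂ (L.map (CL.sl z)) z₂ + c * ζ * T / 2 -
      (∑ n ∈ Finset.range J, (∑ j ∈ Finset.range (L.length + 1), dm (L.map CL.b) 0 j *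
          cavC w₁ w₂ z L z₁ z₂ n (Sh.two j) (pr2 j (cU L j)) (pr2 j z.cov)) *
          T ^ (n + 1) / (n + 1).factorial +
        ∫ t in (0 : ℝ)..T, iW (pw2 w₁ w₂) (L.map (CL.il z)) (ad z₁ z₂)
          (fun j x y => cU L j x.1 y.1 * z.cov x.2 y.2) J t * (T - t) ^ J / J.factorial) / 2 := by
  have e : iD (L.map (CL.il z)) = fun j x y => cU L j x.1 y.1 * z.cov x.2 y.2 := by
    funext j x y; exact iD_cav z hv j x y
  have := taylor_X_ipl (Law.wt_pw2 h₁ h₂) (L.map (CL.il z)) (ad z₁ z₂) (c := c * ζ)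
    (fun y => by rw [iD_cav z hv, List.length_map, hc, hz]) hT J
  rw [e] at this
  simp only [iW_cav_zero h₁ h₂ z hv z₁ z₂ (cU L) fun _ => z.cov] at this
  rw [← X_cav_zero h₁ h₂ z hv]
  exact this

end Crest.Agent.T156.Cas

end
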