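import Crest.Agent.T156.Ker_15
import Crest.Agent.T156.CavR_22
import Crest.Agent.T156.CaTayC_38

/-!
# Row 156 (helper38): lemma W for graft sums, with a fixed base shape

`Pot M i J V s` bounds the total weight of the grafts that create the split levels `J` and `V`
clusters above the cut `i`.
-/

set_option autoImplicit false
set_option linter.unusedSectionVars false

noncomputable section

namespace Crest.Agent.T156.Cas.Ws38

open MeasureTheory Real Set Filter Topology
open Crest.Agent.T157.E Crest.Agent.T157.Casc Crest.Agent.T157.SL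
open Wt87

variable {Θ : Type} {M : List (Lv Θ)} {K i V : ℕ} {J : Finset ℕ} {s : Sh}

/-- the split levels of a shape -/
def lab (K : ℕ) (s : Sh) : Finset ℕ := (Finset.univ : Finset s.Lf).offDiag.image fun p => s.shr p.1 p.2 K

/-- sets of leaves in different clusters above the cut `i` -/
def Sep (K i : ℕ) (s : Sh) (A : Finset s.Lf) : Prop := ∀ b ∈ A, ∀ c ∈ A, b ≠ c → s.shr b c K ≤ i

open Classical in
/-- the number of clusters above the cut `i` -/
def cl (K i : ℕ) (s : Sh) : ℕ := (Finset.univ.filter (Sep K i s)).sup Finset.card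

theorem mem_lab {v : ℕ} : v ∈ lab K s ↔ ∃ a b, a ≠ b ∧ s.shr a b K = v := by
  simp [lab]

theorem le_cl {A : Finset s.Lf} (h : Sep K i s A) : A.card ≤ cl K i s := by
  classical
  exact Finset.le_sup (f := Finset.card) (Finset.mem_filter.2 ⟨Finset.mem_univ A, h⟩)

theorem cl_le {m : ℕ} (h : ∀ A, Sep K i s A → A.card ≤ m) : cl K i s ≤ m := by
  classical
  exact Finset.sup_le fun A hA => h A (Finset.mem_filter.1 hA).2

theorem three_le_cl {a b c : s.Lf} (hi : i < K) (e1 : s.shr a b K ≤ i) (e2 : s.shr a c K ≤ i)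
    (e3 : s.shr b c K ≤ i) : 3 ≤ cl K i s := by
  have ne : ∀ {x y : s.Lf}, s.shr x y K ≤ i → x ≠ y := fun h e => by
    rw [e, shr_self] at h; omega
  refine (Finset.card_eq_three.2 ⟨a, b, c, ne e1, ne e2, ne e3, rfl⟩).ge.trans (le_cl ?_)
  simp only [Sep, Finset.mem_insert, Finset.mem_singleton]
  rintro x (rfl | rfl | rfl) y (rfl | rfl | rfl) hxy
  exacts [absurd rfl hxy, e1, e2, shr_comm _ _ _ _ ▸ e1, absurd rfl hxy, e3, shr_comm _ _ _ _ ▸ e2,
    shr_comm _ _ _ _ ▸ e3, absurd rfl hxy]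

theorem lab_graft (a : s.Lf) {j : ℕ} (hj : j ≤ K) : lab K (s.graft a j) = insert j (lab K s) := by
  have key : ∀ b, s.shr b a j ∈ insert j (lab K s) := fun b => by
    rcases Tay38.shr_cases s b a hj with e | ⟨h, e⟩ <;> rw [e]
    exacts [Finset.mem_insert_self _ _, Finset.mem_insert_of_mem (mem_lab.2 ⟨b, a, h, rfl⟩)]
  ext v
  constructor
  · intro h
    obtain ⟨b, c, hbc, rfl⟩ := mem_lab.1 h
    rcases graft_cases s a j b with ⟨b, rfl⟩ | rfl <;> rcases graft_cases s a j c with ⟨c, rfl⟩ | rfl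
    · exact Finset.mem_insert_of_mem (mem_lab.2 ⟨b, c, fun e => hbc (e ▸ rfl), (shr_emb _ _ _ _ _ _).symm⟩)
    · rw [shr_nw, min_eq_left hj]; exact key b
    · rw [shr_nw', min_eq_left hj]; exact key c
    · exact absurd rfl hbc
  · intro h
    rcases Finset.mem_insert.1 h with rfl | h
    · exact mem_lab.2 ⟨_, _, Tay38.emb_ne s a v a, by rw [shr_nw, min_eq_left hj, shr_self]⟩
    · obtain ⟨b, c, hbc, rfl⟩ := mem_lab.1 h
      exact mem_lab.2 ⟨_, _, (Tay38.emb_inj s a j).ne hbc, shr_emb _ _ _ _ _ _⟩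

theorem cl_graft (a : s.Lf) {j : ℕ} (hj : j ≤ K) :
    cl K i (s.graft a j) ≤ cl K i s + if j ≤ i then 1 else 0 := by
  refine cl_le fun A hA => ?_
  set B : Finset s.Lf := Finset.univ.filter fun b => s.emb a j b ∈ A with hB
  have mB : ∀ b, b ∈ B ↔ s.emb a j b ∈ A := fun b => by simp [hB]
  have hs : Sep K i s B := fun b hb c hc e =>
    shr_emb s a j b c K ▸ hA _ ((mB b).1 hb) _ ((mB c).1 hc) ((Tay38.emb_inj s a j).ne e)
  have hc : A.card = B.card + if s.nw a j ∈ A then 1 else 0 := by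
    have := sum_graft s a j fun b => if b ∈ A then 1 else 0
    rwa [← Finset.card_filter, ← Finset.card_filter, Finset.filter_mem_eq_inter,
      Finset.univ_inter] at this
  rw [hc]
  by_cases hn : s.nw a j ∈ A
  · by_cases hi : j ≤ i
    · rw [if_pos hn, if_pos hi]
      exact add_le_add (le_cl hs) le_rfl
    · have key : ∀ b ∈ B, b ≠ a ∧ s.shr b a K ≤ i := fun b hb => by
        have := hA _ ((mB b).1 hb) _ hn (Tay38.emb_ne s a j b)
        rw [shr_nw, min_eq_left hj] at this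
        rcases Tay38.shr_cases s b a hj with e | ⟨h, e⟩
        · omega
        · exact ⟨h, e ▸ this⟩
      rw [if_pos hn, if_neg hi, add_zero, ← Finset.card_insert_of_notMem fun h => (key a h).1 rfl]
      refine le_cl fun b hb c hc e => ?_
      rcases Finset.mem_insert.1 hb with rfl | hb <;> rcases Finset.mem_insert.1 hc with rfl | hc
      exacts [absurd rfl e, shr_comm _ _ _ _ ▸ (key c hc).2, (key b hb).2, hs b hb c hc e]
  · rw [if_neg hn]
    exact add_le_add (le_cl hs) (Nat.zero_le _)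

/-- the exponent of the potential -/
def xp (K i : ℕ) (J : Finset ℕ) (V : ℕ) (s : Sh) : ℕ :=
  V - cl K i s - ((J \ lab K s).filter (· ≤ i)).card

/-- the potential -/
def Pot (M : List (Lv Θ)) (i : ℕ) (J : Finset ℕ) (V : ℕ) (s : Sh) : ℝ :=
  ex M i ^ xp M.length i J V s * ∏ v ∈ J \ lab M.length s, dm M 0 v

theorem Pot_nonneg (hM : Mono 0 M) : 0 ≤ Pot M i J V s :=
  mul_nonneg (pow_nonneg (Nu87.ex_nonneg hM i) _) (Finset.prod_nonneg fun v _ => dm_nonneg hM v)

theorem Pot_eq_one (h1 : ∀ v ∈ J, v ∈ lab M.length s) (h2 : V ≤ cl M.length i s) :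
    Pot M i J V s = 1 := by
  rw [Pot, xp, Finset.sdiff_eq_empty_iff_subset.2 h1, Nat.sub_eq_zero_of_le h2]
  simp

theorem step (hM : Mono 0 M) {α : Type} (A : Finset α) {W : α → ℝ} (f : α → s.Lf) {lv : α → ℕ}
    {R : ℝ} (hW : ∀ x ∈ A, 0 ≤ W x) (hl : ∀ x ∈ A, lv x ≤ M.length) (h1 : ∑ x ∈ A, W x ≤ R)
    (h2 : ∑ x ∈ A, W x * (if lv x ≤ i then 1 else 0) ≤ R * ex M i)
    (h3 : ∀ v ∉ lab M.length s, ∑ x ∈ A, W x * (if lv x = v then 1 else 0) ≤ R * dm M 0 v) :
    ∑ x ∈ A, W x * Pot M i J V (s.graft (f x) (lv x)) ≤ (2 + J.card) * R * Pot M i J V s := by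
  set N := J \ lab M.length s with hN
  set e := xp M.length i J V s with he
  have x0 := Nu87.ex_nonneg hM i
  have x1 := Tay38.ex_le_one hM i
  have R0 : 0 ≤ R := (Finset.sum_nonneg hW).trans h1
  have p0 : ∀ B : Finset ℕ, 0 ≤ ∏ v ∈ B, dm M 0 v := fun B =>
    Finset.prod_nonneg fun v _ => dm_nonneg hM v
  have P0 : 0 ≤ Pot M i J V s := Pot_nonneg hM
  have key : ∀ (a : s.Lf) (j : ℕ), j ≤ M.length → Pot M i J V (s.graft a j) ≤ Pot M i J V s +
      (ex M i ^ (e - 1) * ∏ v ∈ N, dm M 0 v) * (if j ≤ i then 1 else 0) +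
      ∑ v ∈ N, (ex M i ^ e * ∏ u ∈ N.erase v, dm M 0 u) * if j = v then 1 else 0 := fun a j hj => by
    have n1 : 0 ≤ (ex M i ^ (e - 1) * ∏ v ∈ N, dm M 0 v) * (if j ≤ i then 1 else 0) :=
      mul_nonneg (mul_nonneg (pow_nonneg x0 _) (p0 _)) (by split_ifs <;> norm_num)
    have n2 : ∀ v ∈ N, 0 ≤ (ex M i ^ e * ∏ u ∈ N.erase v, dm M 0 u) * if j = v then 1 else 0 :=
      fun v _ => mul_nonneg (mul_nonneg (pow_nonneg x0 _) (p0 _)) (by split_ifs <;> norm_num)
    have c1 := cl_graft (K := M.length) (i := i) a hj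
    rw [Pot, xp, lab_graft a hj, Finset.sdiff_insert, ← hN]
    by_cases hv : j ∈ N
    · refine le_trans ?_ (le_add_of_nonneg_of_le (add_nonneg P0 n1) (Finset.single_le_sum n2 hv))
      rw [if_pos rfl, mul_one]
      refine mul_le_mul_of_nonneg_right (pow_le_pow_of_le_one x0 x1 ?_) (p0 _)
      rw [he, xp, ← hN, Finset.filter_erase, Finset.card_erase_eq_ite]
      have : j ∈ N.filter (· ≤ i) ↔ j ≤ i := by simp [hv]
      by_cases h : j ≤ i
      · have h' := Finset.card_pos.2 ⟨j, this.2 h⟩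
        rw [if_pos h] at c1
        rw [if_pos (this.2 h)]
        omega
      · rw [if_neg h] at c1
        rw [if_neg (mt this.1 h)]
        omega
    · rw [Finset.erase_eq_of_notMem hv]
      refine le_add_of_le_of_nonneg ?_ (Finset.sum_nonneg n2)
      split_ifs at c1 n1 ⊢ with h
      · refine le_add_of_nonneg_of_le P0 ?_
        rw [mul_one]
        refine mul_le_mul_of_nonneg_right (pow_le_pow_of_le_one x0 x1 ?_) (p0 _)
        rw [he, xp, ← hN]
        omega
      · refine le_add_of_le_of_nonneg ?_ n1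
        refine mul_le_mul_of_nonneg_right (pow_le_pow_of_le_one x0 x1 ?_) (p0 _)
        rw [xp, ← hN]
        omega
  refine (Finset.sum_le_sum fun x hx =>
    mul_le_mul_of_nonneg_left (key (f x) (lv x) (hl x hx)) (hW x hx)).trans ?_
  simp only [mul_add, Finset.sum_add_distrib, Finset.mul_sum, mul_left_comm (W _)]
  rw [Finset.sum_comm (s := A), ← Finset.sum_mul, ← Finset.mul_sum]
  have b1 := mul_le_mul_of_nonneg_right h1 P0
  have b2 := mul_le_mul_of_nonneg_left h2 (mul_nonneg (pow_nonneg x0 (e - 1)) (p0 N))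
  have b3 : ex M i ^ (e - 1) * ex M i * ∏ v ∈ N, dm M 0 v ≤ Pot M i J V s := by
    rw [← pow_succ]
    exact mul_le_mul_of_nonneg_right (pow_le_pow_of_le_one x0 x1 (by omega)) (p0 _)
  have b4 : ∑ v ∈ N, ∑ x ∈ A, (ex M i ^ e * ∏ u ∈ N.erase v, dm M 0 u) *
      (W x * if lv x = v then 1 else 0) ≤ J.card * (R * Pot M i J V s) := by
    refine (Finset.sum_le_card_nsmul _ _ (R * Pot M i J V s) fun v hv => ?_).trans ?_
    · rw [← Finset.mul_sum]
      refine (mul_le_mul_of_nonneg_left (h3 v (Finset.mem_sdiff.1 hv).2)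
        (mul_nonneg (pow_nonneg x0 _) (p0 _))).trans_eq ?_
      rw [Pot, ← hN, ← he, ← Finset.mul_prod_erase N _ hv]
      ring
    · rw [nsmul_eq_mul]
      exact mul_le_mul_of_nonneg_right (Nat.cast_le.2 (Finset.card_le_card Finset.sdiff_subset))
        (mul_nonneg R0 P0)
  nlinarith [mul_le_mul_of_nonneg_left b3 R0]

theorem step_cw (hM : Mono 0 M) (r : Sh) (e : r.Lf → s.Lf)
    (h : lab M.length r ⊆ lab M.length s) :
    ∑ a, ∑ j ∈ Finset.range (M.length + 1), cw r M a j * Pot M i J V (s.graft (e a) j) ≤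
      (2 + J.card) * Fintype.card r.Lf * Pot M i J V s := by
  rw [← Finset.sum_product']
  refine step hM _ (W := fun x : r.Lf × ℕ => cw r M x.1 x.2) (fun x => e x.1) (lv := Prod.snd)
    (fun x _ => cw_nonneg r hM _ _) (fun x hx => by simpa [Nat.lt_succ_iff] using hx)
    (by rw [Finset.sum_product']; exact (sum_cw r M).le) ?_ fun v hv => ?_
  · rw [Finset.sum_product' (f := fun a j => cw r M a j * if j ≤ i then 1 else 0),
      sum_cw_eq r M fun _ j => if j ≤ i then 1 else 0,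
      ← Nu87.Ws_sm M (Fintype.equivFin r.Lf).symm fun _ _ _ _ => rfl]
    exact Nu87.Ws_low hM _ i
  · rw [Finset.sum_product' (f := fun a j => cw r M a j * if j = v then 1 else 0)]
    refine (Tay38.sum_cw_level hM (g := fun j => if j = v then 1 else 0)
      (fun j => by split_ifs <;> norm_num) r).trans (mul_le_mul_of_nonneg_left ?_ (by positivity))
    rw [Nv, prs, Finset.sum_eq_zero fun a _ => Finset.sum_eq_zero fun b _ => ?_, zero_add]
    · simp only [mul_ite, mul_one, mul_zero, Finset.sum_ite_eq']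
      split_ifs
      exacts [le_rfl, dm_nonneg hM v]
    · split_ifs with h1 h2
      exacts [rfl, absurd (h (mem_lab.2 ⟨a, b, h1, h2⟩)) hv, rfl]

theorem step_dm (hM : Mono 0 M) (b : s.Lf) {j : ℕ} (hj : j ≤ M.length) (h : j ∈ lab M.length s) :
    ∑ k ∈ Finset.range (M.length - j + 1), dm (M.drop j) 0 k * Pot M i J V (s.graft b (k + j)) ≤
      (2 + J.card) * 1 * Pot M i J V s := by
  refine step hM _ (W := fun k => dm (M.drop j) 0 k) (fun _ => b) (lv := (· + j))
    (fun k _ => dm_nonneg (Cav22.mono_drop j hM) k)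
    (fun k hk => by have := Finset.mem_range.1 hk; omega) (Tay38.sum_dm_one hM _ _) ?_
    fun v hv => ?_
  · rw [sum_dm_drop M hj fun k => if k ≤ i then 1 else 0, one_mul]
    split_ifs with hi
    · have h1 := sum_dm M 0 i
      have h2 := sum_dm M 0 j
      rw [sub_zero] at h1 h2
      rw [mul_one, ← h1, ← h2, ← Finset.sum_range_add_sum_Ico _ (Nat.succ_le_succ hi)]
      refine add_le_add le_rfl ?_
      simp only [mul_ite, mul_one, mul_zero, ← Finset.sum_filter]
      exact Finset.sum_le_sum_of_subset_of_nonneg (fun k hk => by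
        simp only [Finset.mem_filter, Finset.mem_Ioc, Finset.mem_Ico] at hk ⊢; omega)
        fun k _ _ => dm_nonneg hM k
    · rw [mul_zero, zero_add, Finset.sum_eq_zero fun k hk => by
        rw [if_neg (by have := (Finset.mem_Ioc.1 hk).1; omega), mul_zero]]
      exact Nu87.ex_nonneg hM i
  · rw [sum_dm_drop M hj fun k => if k = v then 1 else 0, if_neg fun e : j = v => hv (e ▸ h)]
    simp only [mul_ite, mul_one, mul_zero, Finset.sum_ite_eq', zero_add, one_mul]
    split_ifs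
    exacts [le_rfl, dm_nonneg hM v]

theorem sum4 {α β γ δ : Type} (A : Finset α) (B : Finset β) (C : Finset γ) (D : Finset δ)
    (f : α → β → γ → δ → ℝ) : ∑ a ∈ A, ∑ b ∈ B, ∑ c ∈ C, ∑ d ∈ D, f a b c d =
      ∑ c ∈ C, ∑ d ∈ D, ∑ a ∈ A, ∑ b ∈ B, f a b c d :=
  (Finset.sum_congr rfl fun _ _ => Finset.sum_comm).trans (Finset.sum_comm.trans
    (Finset.sum_congr rfl fun _ _ => (Finset.sum_congr rfl fun _ _ => Finset.sum_comm).trans
      Finset.sum_comm))

/-- **one derivative** -/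
theorem sg_Pot (hM : Mono 0 M) {N : ℕ} (hN : Fintype.card s.Lf ≤ N) :
    sg 1 M s (fun τ => Pot M i J V τ.sh) ≤ 5 * (2 + J.card) ^ 2 * N ^ 2 * Pot M i J V s := by
  have r1 := Tay38.one_le_card s
  have rN : (Fintype.card s.Lf : ℝ) ≤ N := Nat.cast_le.2 hN
  set r : ℝ := ((Fintype.card s.Lf : ℕ) : ℝ) with hr
  set c : ℝ := 2 + J.card with hc
  have c1 : 2 ≤ c := le_add_of_nonneg_right (Nat.cast_nonneg _)
  have P0 : 0 ≤ Pot M i J V s := Pot_nonneg hM
  have lt : ∀ {j}, j ∈ Finset.range (M.length + 1) → j ≤ M.length := fun h =>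
    Nat.lt_succ_iff.1 (Finset.mem_range.1 h)
  have s1 := step_cw (i := i) (J := J) (V := V) hM s id subset_rfl
  have b0 : ∑ a : s.Lf, ∑ _b ∈ Finset.univ.erase a, Pot M i J V s ≤ r * (r * Pot M i J V s) := by
    refine (Finset.sum_le_card_nsmul _ _ (r * Pot M i J V s) fun a _ => ?_).trans_eq (by simp [hr])
    rw [Finset.sum_const, nsmul_eq_mul]
    exact mul_le_mul_of_nonneg_right (Nat.cast_le.2 (Finset.card_le_univ _)) P0
  have b2 : ∑ a, ∑ j ∈ Finset.range (M.length + 1), cw s M a j *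
      ∑ b, ∑ k ∈ Finset.range (M.length + 1), cw s M b k *
        Pot M i J V ((s.graft b k).graft (s.emb b k a) j) ≤ c * r * (c * r * Pot M i J V s) := by
    refine le_trans ?_ (mul_le_mul_of_nonneg_left s1 (by positivity))
    simp only [Finset.mul_sum]
    rw [sum4]
    refine Finset.sum_le_sum fun b _ => Finset.sum_le_sum fun k hk => ?_
    simp only [mul_left_comm _ (cw s M b k), ← Finset.mul_sum]
    exact mul_le_mul_of_nonneg_left (step_cw hM s (s.emb b k)
      (lab_graft b (lt hk) ▸ Finset.subset_insert _ _)) (cw_nonneg s hM b k)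
  have b3 : ∑ a, ∑ j ∈ Finset.range (M.length + 1), cw s M a j *
      ∑ k ∈ Finset.range (M.length - j + 1), dm (M.drop j) 0 k *
        Pot M i J V ((s.graft a j).graft (s.nw a j) (k + j)) ≤ c * (c * r * Pot M i J V s) := by
    refine le_trans ?_ (mul_le_mul_of_nonneg_left s1 (by positivity))
    simp only [Finset.mul_sum (a := c)]
    refine Finset.sum_le_sum fun a _ => Finset.sum_le_sum fun j hj => ?_
    rw [mul_left_comm]
    refine mul_le_mul_of_nonneg_left ?_ (cw_nonneg s hM a j)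
    exact (step_dm hM _ (lt hj) (lab_graft a (lt hj) ▸ Finset.mem_insert_self _ _)).trans_eq
      (by rw [mul_one]; rfl)
  have b1 : ∑ a, ∑ j ∈ Finset.range (M.length + 1), cw s M a j *
      (∑ _b : s.Lf, Pot M i J V (s.graft a j) + ∑ _b : s.Lf, Pot M i J V (s.graft a j)) ≤
      2 * r * (c * r * Pot M i J V s) := by
    refine le_trans (le_of_eq ?_) (mul_le_mul_of_nonneg_left s1 (by positivity))
    simp only [Finset.mul_sum, Finset.sum_const, Finset.card_univ, nsmul_eq_mul, ← hr, id]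
    exact Finset.sum_congr rfl fun a _ => Finset.sum_congr rfl fun j _ => by ring
  rw [sg, one_mul]
  simp only [mul_add _ (∑ _b, ∑ _k ∈ _, _), Finset.sum_add_distrib]
  refine (add_le_add (add_le_add b0 b1) (add_le_add b2 b3)).trans ?_
  have e1 : r ^ 2 ≤ N ^ 2 := by gcongr
  have e2 : r ≤ r ^ 2 := by nlinarith
  have e3 : (r ^ 2 + 2 * c * r ^ 2 + c ^ 2 * r ^ 2 + c ^ 2 * r) ≤ 5 * c ^ 2 * N ^ 2 := by
    nlinarith [mul_le_mul_of_nonneg_left e1 (sq_nonneg c), mul_le_mul_of_nonneg_left e2 (sq_nonneg c),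
      mul_le_mul_of_nonneg_right (show 1 + 2 * c ≤ 3 * c ^ 2 by nlinarith) (sq_nonneg r)]
  nlinarith [mul_le_mul_of_nonneg_right e3 P0]

theorem sg_Pot' (hM : Mono 0 M) (hN : Fintype.card s.Lf ≤ 6) (hJ : J.card ≤ 3) :
    sg 1 M s (fun τ => Pot M i J V τ.sh) ≤ 4500 * Pot M i J V s := by
  refine (sg_Pot hM hN).trans (mul_le_mul_of_nonneg_right ?_ (Pot_nonneg hM))
  have h1 : (J.card : ℝ) ≤ 3 := by exact_mod_cast hJ
  have h2 : (0 : ℝ) ≤ J.card := Nat.cast_nonneg _
  push_cast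
  nlinarith

theorem sg_Pot2 (hM : Mono 0 M) (hN : Fintype.card s.Lf ≤ 4) (hJ : J.card ≤ 3) :
    sg 1 M s (fun τ => sg 1 M τ.sh fun τ' => Pot M i J V τ'.sh) ≤ 4500 ^ 2 * Pot M i J V s := by
  refine (sg_mono zero_le_one hM s fun τ hτ => sg_Pot' hM (hτ.card.trans (by omega)) hJ).trans ?_
  rw [sg_const_mul]
  linarith [sg_Pot' (i := i) (V := V) hM (hN.trans (by norm_num)) hJ]

theorem sg_Pot3 (hM : Mono 0 M) (hN : Fintype.card s.Lf ≤ 2) (hJ : J.card ≤ 3) :
    sg 1 M s (fun τ => sg 1 M τ.sh fun τ' => sg 1 M τ'.sh fun τ'' => Pot M i J V τ''.sh) ≤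
      4500 ^ 3 * Pot M i J V s := by
  refine (sg_mono zero_le_one hM s fun τ hτ => sg_Pot2 hM (hτ.card.trans (by omega)) hJ).trans ?_
  rw [sg_const_mul]
  linarith [sg_Pot' (i := i) (V := V) hM (hN.trans (by norm_num)) hJ]

theorem lab_self {τ : GT s} (H : τ.Mem s K) : τ.j ∈ lab K τ.sh := mem_lab.2 ⟨_, _, H.ne, H.shr⟩

theorem e_inj {τ : GT s} (H : τ.Mem s K) : Function.Injective τ.e := by
  cases H with
  | g0 => exact Function.injective_id
  | g1 => exact Tay38.emb_inj _ _ _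
  | g1' => exact Tay38.emb_inj _ _ _
  | g2 => exact (Tay38.emb_inj _ _ _).comp (Tay38.emb_inj _ _ _)
  | g3 => exact (Tay38.emb_inj _ _ _).comp (Tay38.emb_inj _ _ _)

theorem lab_e {τ : GT s} (H : τ.Mem s K) {v : ℕ} (h : v ∈ lab K s) : v ∈ lab K τ.sh := by
  obtain ⟨a, b, hab, rfl⟩ := mem_lab.1 h
  exact mem_lab.2 ⟨_, _, (e_inj H).ne hab, H.shr_e a b K⟩

/-! ### the base is a pair split at `j` -/

/-- the tilts, and the node of the base -/
def I (M : List (Lv Θ)) (j : ℕ) (f : ℕ → ℝ) : ℝ :=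
  ∑ y ∈ Finset.range (M.length + 1), dm M 0 y * f y + f j

/-- its weights -/
def mu (M : List (Lv Θ)) (j y : ℕ) : ℝ := dm M 0 y + if y = j then 1 else 0

variable {j : ℕ}

theorem mu_nonneg (hM : Mono 0 M) (j y : ℕ) : 0 ≤ mu M j y :=
  add_nonneg (dm_nonneg hM y) (by split_ifs <;> norm_num)

theorem sum_mu (hj : j ≤ M.length) (f : ℕ → ℝ) :
    ∑ y ∈ Finset.range (M.length + 1), mu M j y * f y = I M j f := by
  simp [mu, I, add_mul, Finset.sum_add_distrib, hj]

theorem I_mono (hM : Mono 0 M) (hj : j ≤ M.length) {f g : ℕ → ℝ} (h : ∀ y ≤ M.length, f y ≤ g y) :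
    I M j f ≤ I M j g :=
  add_le_add (Finset.sum_le_sum fun y hy => mul_le_mul_of_nonneg_left
    (h y (Nat.lt_succ_iff.1 (Finset.mem_range.1 hy))) (dm_nonneg hM y)) (h j hj)

theorem I_nonneg (hM : Mono 0 M) {f : ℕ → ℝ} (h : ∀ y, 0 ≤ f y) : 0 ≤ I M j f :=
  add_nonneg (Tay38.N0_nonneg hM h) (h j)

theorem I_add (f g : ℕ → ℝ) : I M j (fun y => f y + g y) = I M j f + I M j g := by
  simp only [I, mul_add, Finset.sum_add_distrib]
  ring

theorem I_mul (c : ℝ) (f : ℕ → ℝ) : I M j (fun y => c * f y) = c * I M j f := by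
  simp only [I, mul_add, Finset.mul_sum, mul_left_comm c]

theorem I_mul' (c : ℝ) (f : ℕ → ℝ) : I M j (fun y => f y * c) = I M j f * c := by
  simp only [mul_comm _ c, I_mul]

theorem lab_two (hj : j ≤ K) : lab K (Sh.two j) = {j} := by
  refine (lab_graft (s := .one) () hj).trans ?_
  rw [Finset.eq_empty_of_forall_notMem (s := lab K .one) fun v hv => ?_]
  · rfl
  · obtain ⟨a, b, h, -⟩ := mem_lab.1 hv
    exact h rfl

theorem Pot_two (hM : Mono 0 M) (hj : j ≤ M.length) :
    Pot M i J 0 (Sh.two j) ≤ ∏ v ∈ J, mu M j v := by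
  rw [Pot, xp, Nat.zero_sub, Nat.zero_sub, pow_zero, one_mul, lab_two hj, Finset.sdiff_eq_filter,
    Finset.prod_filter]
  refine Finset.prod_le_prod (fun v _ => ?_) fun v _ => ?_
  · split_ifs
    exacts [zero_le_one, dm_nonneg hM v]
  · have := dm_nonneg hM v
    by_cases h : v = j <;> simp [mu, h]
    exact h ▸ this

theorem Pot_two3 (hM : Mono 0 M) (hj : j ≤ M.length) (hi : i < j) :
    Pot M i {i} 3 (Sh.two j) ≤ dm M 0 i * ex M i := by
  have h1 : cl M.length i (Sh.two j) ≤ 1 := by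
    have := cl_graft (s := .one) (i := i) () hj
    rw [if_neg hi.not_ge] at this
    exact this.trans (cl_le (s := .one) fun A _ => Finset.card_le_univ A)
  have h2 : ({i} : Finset ℕ) \ {j} = {i} := by
    ext v; simp only [Finset.mem_sdiff, Finset.mem_singleton]; omega
  rw [Pot, xp, lab_two hj, h2, Finset.prod_singleton, mul_comm, Finset.filter_singleton,
    if_pos le_rfl, Finset.card_singleton]
  refine mul_le_mul_of_nonneg_left ?_ (dm_nonneg hM i)
  exact (pow_le_pow_of_le_one (Nu87.ex_nonneg hM i) (Tay38.ex_le_one hM i)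
    (by omega : 1 ≤ _)).trans_eq (pow_one _)

theorem prod_ins {μ : ℕ → ℝ} (h : ∀ v, 0 ≤ μ v) (a : ℕ) (S : Finset ℕ) :
    ∏ v ∈ insert a S, μ v ≤ (∏ v ∈ S, μ v) * (μ a + if a ∈ S then 1 else 0) := by
  have := Finset.prod_nonneg fun v (_ : v ∈ S) => h v
  split_ifs with ha
  · rw [Finset.insert_eq_of_mem ha]
    nlinarith [mul_nonneg this (h a)]
  · rw [Finset.prod_insert ha, add_zero, mul_comm]

theorem le_sum_at {f : ℕ → ℝ} (h : ∀ y, 0 ≤ f y) {y n : ℕ} (hy : y ≤ n) :
    f y ≤ ∑ v ∈ Finset.range (n + 1), f v :=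
  Finset.single_le_sum (fun v _ => h v) (Finset.mem_range.2 (Nat.lt_succ_of_le hy))

/-- **one edge** -/
theorem W1 (hM : Mono 0 M) (hj : j ≤ M.length) {D : ℕ → ℝ} (hD : ∀ y, 0 ≤ D y)
    {Φ : GT (Sh.two j) → ℝ} (H : ∀ τ, τ.Mem _ M.length → |Φ τ| ≤ D τ.j) :
    |sg (-1) M (Sh.two j) Φ| ≤ 80 * I M j D := by
  refine (abs_sg_le hM _ H).trans ((Ker15.sg_lvl hM _ hD).trans ?_)
  rw [card_two, Nv, Tay38.prs_two, shr_comm _ (Sh.twoR j), shr_two, min_eq_left hj, I]
  have := Tay38.N0_nonneg hM hD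
  push_cast
  linarith

/-- **two edges** -/
theorem W2 (hM : Mono 0 M) (hj : j ≤ M.length) {D : ℕ → ℕ → ℝ} (hD : ∀ y y', 0 ≤ D y y')
    {Φ : (τ : GT (Sh.two j)) → GT τ.sh → ℝ}
    (H : ∀ τ, τ.Mem _ M.length → ∀ τ', τ'.Mem _ M.length → |Φ τ τ'| ≤ D τ.j τ'.j) :
    |sg (-1) M (Sh.two j) fun τ => sg (-1) M τ.sh (Φ τ)| ≤
      4500 ^ 2 * I M j fun y => I M j (D y) + D y y := by
  refine (abs_sg_le hM _ fun τ hτ => abs_sg_le hM _ (Ψ := fun τ' => ∑ y ∈ Finset.range (M.length + 1),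
    ∑ y' ∈ Finset.range (M.length + 1), D y y' * Pot M 0 (insert y' {y}) 0 τ'.sh)
    fun τ' hτ' => (H τ hτ τ' hτ').trans ?_).trans ?_
  · refine le_trans ?_ (le_sum_at (fun y => Finset.sum_nonneg fun y' _ =>
      mul_nonneg (hD _ _) (Pot_nonneg hM)) hτ.le)
    refine le_trans ?_ (le_sum_at (fun y' => mul_nonneg (hD _ _) (Pot_nonneg hM)) hτ'.le)
    rw [Pot_eq_one (by simp [lab_self hτ', lab_e hτ' (lab_self hτ)]) (Nat.zero_le _), mul_one]
  · simp only [sg_sum, sg_const_mul, ← sum_mu hj, Finset.mul_sum, mul_add]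
    refine Finset.sum_le_sum fun y hy => ?_
    refine (Finset.sum_le_sum (g := fun y' => 4500 ^ 2 * (mu M j y * (mu M j y' * D y y')) +
      if y' = y then 4500 ^ 2 * (mu M j y * D y y') else 0) fun y' _ => ?_).trans ?_
    · refine (mul_le_mul_of_nonneg_left ((sg_Pot2 hM (by rw [card_two]; norm_num)
        (Finset.card_le_two.trans (by norm_num))).trans (mul_le_mul_of_nonneg_left
        ((Pot_two hM hj).trans (prod_ins (mu_nonneg hM j) _ _)) (by norm_num))) (hD _ _)).trans_eq ?_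
      simp only [Finset.prod_singleton, Finset.mem_singleton]
      split_ifs <;> ring
    · rw [Finset.sum_add_distrib, Finset.sum_ite_eq', if_pos hy]

/-- the sum over the last label -/
def T3 (M : List (Lv Θ)) (j : ℕ) (D : ℕ → ℕ → ℕ → ℝ) (y y' : ℕ) : ℝ :=
  I M j (D y y') + D y y' y + D y y' y'

/-- **three edges**, with a gain for three clusters above the first edge -/
theorem W3 (hM : Mono 0 M) (hj : j ≤ M.length) {D : ℕ → ℕ → ℕ → ℝ} (hD : ∀ y y' y'', 0 ≤ D y y' y'')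
    {E : ℕ → ℝ} (hE : ∀ y, 0 ≤ E y) {Φ : (τ : GT (Sh.two j)) → (τ' : GT τ.sh) → GT τ'.sh → ℝ}
    (H : ∀ τ, τ.Mem _ M.length → ∀ τ', τ'.Mem _ M.length → ∀ τ'', τ''.Mem _ M.length →
      |Φ τ τ' τ''| ≤ D τ.j τ'.j τ''.j + if τ.j < j ∧ 3 ≤ cl M.length τ.j τ''.sh then E τ.j else 0) :
    |sg (-1) M (Sh.two j) fun τ => sg (-1) M τ.sh fun τ' => sg (-1) M τ'.sh (Φ τ τ')| ≤
      4500 ^ 3 * (I M j (fun y => I M j (T3 M j D y) + T3 M j D y y) +
        ∑ y ∈ Finset.range (M.length + 1), dm M 0 y * if y < j then ex M y * E y else 0) := by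
  have n1 : ∀ y, 0 ≤ if y < j then E y else 0 := fun y => by split_ifs; exacts [hE y, le_rfl]
  refine (abs_sg_le hM _ fun τ hτ => abs_sg_le hM _ fun τ' hτ' => abs_sg_le hM _
    (Ψ := fun τ'' => ∑ y ∈ Finset.range (M.length + 1), ∑ y' ∈ Finset.range (M.length + 1),
      ∑ y'' ∈ Finset.range (M.length + 1),
        D y y' y'' * Pot M 0 (insert y'' (insert y' {y})) 0 τ''.sh +
      ∑ y ∈ Finset.range (M.length + 1), (if y < j then E y else 0) * Pot M y {y} 3 τ''.sh)
    fun τ'' hτ'' => (H τ hτ τ' hτ' τ'' hτ'').trans (add_le_add ?_ ?_)).trans ?_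
  · refine le_trans ?_ (le_sum_at (fun y => Finset.sum_nonneg fun y' _ => Finset.sum_nonneg
      fun _ _ => mul_nonneg (hD _ _ _) (Pot_nonneg hM)) hτ.le)
    refine le_trans ?_ (le_sum_at (fun y' => Finset.sum_nonneg
      fun _ _ => mul_nonneg (hD _ _ _) (Pot_nonneg hM)) hτ'.le)
    refine le_trans ?_ (le_sum_at (fun y' => mul_nonneg (hD _ _ _) (Pot_nonneg hM)) hτ''.le)
    rw [Pot_eq_one (by simp [lab_self hτ'', lab_e hτ'' (lab_self hτ'),
      lab_e hτ'' (lab_e hτ' (lab_self hτ))]) (Nat.zero_le _), mul_one]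
  · refine le_trans ?_ (le_sum_at (fun y => mul_nonneg (n1 y) (Pot_nonneg hM)) hτ.le)
    split_ifs with h h' h'
    · rw [Pot_eq_one (by simp [lab_e hτ'' (lab_e hτ' (lab_self hτ))]) h.2, mul_one]
    · exact absurd h.1 h'
    · exact mul_nonneg (hE _) (Pot_nonneg hM)
    · rw [zero_mul]
  · simp only [sg_add, sg_sum, sg_const_mul, mul_add]
    refine add_le_add ?_ ?_
    · rw [← sum_mu hj, Finset.mul_sum]
      refine Finset.sum_le_sum fun y hy => ?_
      refine (Finset.sum_le_sum (g := fun y' => 4500 ^ 3 * (mu M j y * (mu M j y' * T3 M j D y y')) +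
        if y' = y then 4500 ^ 3 * (mu M j y * T3 M j D y y') else 0) fun y' hy' => ?_).trans ?_
      · refine (Finset.sum_le_sum (g := fun y'' => 4500 ^ 3 * (mu M j y *
          (mu M j y' + if y' = y then 1 else 0)) * (mu M j y'' * D y y' y'' +
            (if y'' = y then D y y' y'' else 0) + if y'' = y' then D y y' y'' else 0))
          fun y'' _ => ?_).trans ?_
        · refine (mul_le_mul_of_nonneg_left ((sg_Pot3 hM (card_two j).le
            Finset.card_le_three).trans (mul_le_mul_of_nonneg_left ((Pot_two hM hj).trans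
            ((prod_ins (mu_nonneg hM j) _ _).trans (mul_le_mul_of_nonneg_right
              (prod_ins (mu_nonneg hM j) _ _) (add_nonneg (mu_nonneg hM _ _)
                (by split_ifs <;> norm_num))))) (by norm_num))) (hD _ _ _)).trans ?_
          simp only [Finset.prod_singleton, Finset.mem_singleton, Finset.mem_insert]
          have h0 : 0 ≤ 4500 ^ 3 * (mu M j y * (mu M j y' + if y' = y then 1 else 0)) :=
            mul_nonneg (by norm_num) (mul_nonneg (mu_nonneg hM _ _) (add_nonneg (mu_nonneg hM _ _)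
              (by split_ifs <;> norm_num)))
          rw [mul_comm, ← mul_assoc, mul_assoc]
          refine mul_le_mul_of_nonneg_left ?_ h0
          have := hD y y' y''
          by_cases h1 : y'' = y <;> by_cases h2 : y'' = y' <;> simp only [h1, h2, if_true, if_false,
            or_true, true_or, or_false] at this ⊢ <;> (try split_ifs) <;> linarith
        · rw [← Finset.mul_sum, Finset.sum_add_distrib, Finset.sum_add_distrib, sum_mu hj,
            Finset.sum_ite_eq', Finset.sum_ite_eq', if_pos hy, if_pos hy', ← T3]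
          split_ifs <;> exact le_of_eq (by ring)
      · rw [Finset.sum_add_distrib, Finset.sum_ite_eq', if_pos hy, ← sum_mu hj]
        simp only [Finset.mul_sum, mul_add]
        exact le_rfl
    · rw [Finset.mul_sum]
      refine Finset.sum_le_sum fun y _ => ?_
      split_ifs with h
      · exact (mul_le_mul_of_nonneg_left ((sg_Pot3 hM (card_two j).le (by simp)).trans
          (mul_le_mul_of_nonneg_left (Pot_two3 hM hj h) (by norm_num))) (hE y)).trans_eq (by ring)
      · simp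

/-! ### Hölder on a tree -/

variable {Ω : Type} [Fintype Ω] {w : Ω → ℝ} {L : List (Lv Ω)} {h : Ω → ℝ}

/-- the fourth moment of `F` is at most `u ^ 4` -/
def Q4 (w : Ω → ℝ) (s : Sh) (L : List (Lv Ω)) (h : Ω → ℝ) (F : (s.Lf → Ω) → ℝ) (u : ℝ) : Prop :=
  0 ≤ u ∧ TE w s L h (fun x => F x ^ 4) ≤ u ^ 4

theorem Q4.one (hw : Wt w) : Q4 w s L h (fun _ => 1) 1 :=
  ⟨zero_le_one, (Law.TE_const hw s L h _).le⟩

theorem Q4.e (hw : Wt w) {τ : GT s} (H : τ.Mem s K) {F : (s.Lf → Ω) → ℝ} {u : ℝ}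
    (hF : Q4 w s L h F u) : Q4 w τ.sh L h (fun x => F fun c => x (τ.e c)) u :=
  ⟨hF.1, (H.TE_e hw L h fun x => F x ^ 4).trans_le hF.2⟩

theorem holder (hw : Wt w) {A B C D : (s.Lf → Ω) → ℝ} {a b c d : ℝ} (hA : Q4 w s L h A a)
    (hB : Q4 w s L h B b) (hC : Q4 w s L h C c) (hD : Q4 w s L h D d) :
    |TE w s L h fun x => A x * B x * C x * D x| ≤ a * b * c * d := by
  have key : ∀ ε : ℝ, 0 < ε → |TE w s L h fun x => A x * B x * C x * D x| ≤
      (a + ε) * (b + ε) * (c + ε) * (d + ε) := fun ε hε => by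
    have k : ∀ {F : (s.Lf → Ω) → ℝ} {u : ℝ}, Q4 w s L h F u → 0 < u + ε ∧
        TE w s L h (fun x => ((u + ε)⁻¹ * F x) ^ 4) ≤ 1 := fun {F u} hF => by
      have h0 : 0 < u + ε := by linarith [hF.1]
      refine ⟨h0, ?_⟩
      simp only [mul_pow, Law.TE_const_mul hw, inv_pow]
      rw [inv_mul_le_iff₀ (by positivity), mul_one]
      exact hF.2.trans (pow_le_pow_left₀ hF.1 (by linarith) 4)
    obtain ⟨a0, a1⟩ := k hA
    obtain ⟨b0, b1⟩ := k hB
    obtain ⟨c0, c1⟩ := k hC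
    obtain ⟨d0, d1⟩ := k hD
    refine (abs_TE_le' hw s L h (F' := fun x => (a + ε) * (b + ε) * (c + ε) * (d + ε) / 4 *
      (((a + ε)⁻¹ * A x) ^ 4 + ((b + ε)⁻¹ * B x) ^ 4 + ((c + ε)⁻¹ * C x) ^ 4 +
        ((d + ε)⁻¹ * D x) ^ 4)) fun x => ?_).trans ?_
    · have e : A x * B x * C x * D x = (a + ε) * (b + ε) * (c + ε) * (d + ε) *
          ((a + ε)⁻¹ * A x * ((b + ε)⁻¹ * B x) * ((c + ε)⁻¹ * C x) * ((d + ε)⁻¹ * D x)) := by
        field_simp
      rw [e, abs_mul, abs_of_pos (by positivity), div_mul_eq_mul_div, mul_div_assoc]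
      refine mul_le_mul_of_nonneg_left ?_ (by positivity)
      generalize (a + ε)⁻¹ * A x = p
      generalize (b + ε)⁻¹ * B x = q
      generalize (c + ε)⁻¹ * C x = r
      generalize (d + ε)⁻¹ * D x = t
      rw [abs_le]
      constructor <;> nlinarith [sq_nonneg (p ^ 2 - q ^ 2), sq_nonneg (r ^ 2 - t ^ 2),
        sq_nonneg (p * q - r * t), sq_nonneg (p * q + r * t)]
    · rw [Law.TE_const_mul hw, Law.TE_add hw, Law.TE_add hw, Law.TE_add hw]
      have : 0 < (a + ε) * (b + ε) * (c + ε) * (d + ε) := by positivity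
      nlinarith
  have hc : Tendsto (fun ε : ℝ => (a + ε) * (b + ε) * (c + ε) * (d + ε)) (𝓝[>] 0)
      (𝓝 ((a + 0) * (b + 0) * (c + 0) * (d + 0))) :=
    (Continuous.tendsto (by fun_prop) 0).mono_left nhdsWithin_le_nhds
  simp only [add_zero] at hc
  exact ge_of_tendsto hc (eventually_nhdsWithin_of_forall key)

end Crest.Agent.T156.Cas.Ws38

end
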