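import Crest.Agent.T156.CDef_40
import Crest.Agent.T156.EgB_33
import Crest.Agent.T156.Site_94
import Crest.Agent.T156.WSg_38
import Crest.Agent.T156.AltOne_23

/-!
# Row 156, block C (helper44): a double low edge on any tree

`bulk2`: two low edges between the same two clusters against the second moment of one edge;
`par`: parity on trees; `fin`: the bound of one term of the word `[aL, aL]`.
-/

set_option autoImplicit false
set_option linter.unusedSectionVars false

noncomputable section

namespace Crest.Agent.T156.Cas.Y44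

open MeasureTheory Real Set Filter Topology
open Crest.Agent.T157.E Crest.Agent.T157.Casc Crest.Agent.T157.SL Crest.Agent.T157.Casc.C
open Crest.Agent.R339 Crest.Agent.T157
open Crest.Agent.T157.G1 (ov)
open Crest.ProbabilityR.SpinGlassDynamics (spin)

/-! ### the bulk -/

section bulk

variable {Ω : Type} [Fintype Ω] {w : Ω → ℝ} {L : List (Lv Ω)} {h : Ω → ℝ} {R : Ω → Ω → ℝ}

/-- `E Var (R₁₂ | σ², path of 1 up to t)` -/
def vK (w : Ω → ℝ) (L : List (Lv Ω)) (h : Ω → ℝ) (R : Ω → Ω → ℝ) (y t : ℕ) : ℝ :=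
  node w L y (fun z => ∑ x, P w (L.drop y) z x *
    Eg33.Cf w L y t (fun x' => R x' x) (fun x' => R x' x) z) h

theorem iso {κ : Type} {K : ℕ} {σ : κ → κ → ℕ} (H : Ker15.Um K σ) {a b c : κ} (h : σ a c < σ a b) :
    σ b c = σ a c := by
  have h1 := H.ultra b a c
  have h2 := H.ultra a b c
  rw [H.comm b a] at h1
  omega

theorem three (hw : Wt w) (hR : ∀ x y, R x y = R y x) (s : Sh) {a b c : s.Lf} (hab : a ≠ b)
    (hac : a ≠ c) (hbc : b ≠ c) {y t : ℕ} (ht : s.shr a b L.length = t)
    (h1 : s.shr a c L.length = y) (h2 : s.shr b c L.length = y) (hy : y ≤ t) :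
    TE w s L h (fun x => R (x a) (x c) * R (x b) (x c)) =
      pi2 w L y (fun x x' => R x x' ^ 2) h - vK w L h R y t := by
  have e := Eg33.TM_three hw L h (fun c b a => R a c * R b c) hy
  have hK : t ≤ L.length := ht ▸ Wt87.shr_le _ _ _ _
  have inj : Function.Injective (![a, b, c] : Fin 3 → s.Lf) := by
    intro i j
    fin_cases i <;> fin_cases j <;> simp [hab, hac, hbc, hab.symm, hac.symm, hbc.symm]
  have m : sm s (![a, b, c] : Fin 3 → s.Lf) L.length = gr L.length (tw L.length y) 0 t := by
    have c1 := Wt87.shr_comm s b a L.length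
    have c2 := Wt87.shr_comm s c a L.length
    have c3 := Wt87.shr_comm s c b L.length
    have d := fun c => Wt87.shr_self s c L.length
    funext i j
    fin_cases i <;> fin_cases j
    · exact d a
    · show s.shr a b _ = min t L.length
      omega
    · show s.shr a c _ = min t (min y L.length)
      omega
    · show s.shr b a _ = min t L.length
      omega
    · exact d b
    · show s.shr b c _ = min y L.length
      omega
    · show s.shr c a _ = min t (min y L.length)
      omega
    · show s.shr c b _ = min y L.length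
      omega
    · exact d c
  rw [← m, Nu87.TM_sm hw s L h inj] at e
  have g1 : ∀ f : Ω → ℝ, Eg fun u => Pf w (L.drop t) u f := Hess87.eg_Pf hw _
  refine Eq.trans e ?_
  rw [eq_sub_iff_add_eq, ← eq_sub_iff_add_eq', pi2, vK,
    ← congrFun (node_sub hw (eg_qf hw _ _) (Eg.sum _ fun x _ =>
      (eg_P hw _ x).mul (eg_pi2 hw _ _ _)) L y)]
  congr 1
  funext z
  simp only [Eg33.Cf_eq hw L hy, mul_sub, Finset.sum_sub_distrib]
  congr 1
  · simp only [qf, Pf, Finset.mul_sum]
    exact Finset.sum_comm.trans (Finset.sum_congr rfl fun _ _ => Finset.sum_congr rfl fun _ _ => by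
      ring)
  · refine Finset.sum_congr rfl fun x _ => ?_
    simp only [pi2, List.drop_drop, Nat.add_sub_cancel' hy, mul_comm (R _ x) (R _ x)]
    congr 2
    funext u
    exact (qf_mul _ _ _).symm

theorem vK_nonneg (hw : Wt w) (y t : ℕ) : 0 ≤ vK w L h R y t :=
  node_nonneg w (fun z => Finset.sum_nonneg fun x _ =>
    mul_nonneg (P_nonneg hw _ z x) (Eg33.Cf_nonneg hw L y t _ z)) L y h

/-- the cost of moving one end inside its cluster -/
def vm (w : Ω → ℝ) (L : List (Lv Ω)) (h : Ω → ℝ) (R : Ω → Ω → ℝ) (s : Sh) (y : ℕ) (a b : s.Lf) :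
    ℝ := if a = b then 0 else vK w L h R y (s.shr a b L.length)

theorem sq3 (hw : Wt w) (hR : ∀ x y, R x y = R y x) (s : Sh) {a b c : s.Lf} (hac : a ≠ c)
    (hy : s.shr a c L.length < s.shr a b L.length) :
    TE w s L h (fun x => (R (x a) (x c) - R (x b) (x c)) ^ 2) =
      2 * vm w L h R s (s.shr a c L.length) a b := by
  unfold vm
  split_ifs with hab
  · subst hab
    simp only [sub_self, ne_eq, OfNat.ofNat_ne_zero, not_false_eq_true, zero_pow, mul_zero]
    exact Law.TE_const hw s L h 0
  have h2 : s.shr b c L.length = s.shr a c L.length := iso (Ker15.um_sm s id L.length) hy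
  have hbc : b ≠ c := fun e => hy.ne (by rw [e])
  have e1 := three hw hR (h := h) s hab hac hbc rfl rfl h2 hy.le
  have e2 := Cas.TE_pair hw s L h hac fun x y => R x y ^ 2
  have e3 := Cas.TE_pair hw s L h hbc fun x y => R x y ^ 2
  rw [h2] at e3
  have e4 : (fun x : s.Lf → Ω => (R (x a) (x c) - R (x b) (x c)) ^ 2) = fun x =>
      R (x a) (x c) ^ 2 + R (x b) (x c) ^ 2 - 2 * (R (x a) (x c) * R (x b) (x c)) :=
    funext fun x => by ring
  rw [e4, Law.TE_sub hw, Law.TE_add hw, Law.TE_const_mul hw, e1, e2, e3]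
  ring

/-- **two edges between the same two clusters** -/
theorem bulk2 (hw : Wt w) (hR : ∀ x y, R x y = R y x) (s : Sh) {p q p' q' : s.Lf} (hpq : p ≠ q)
    (h1 : s.shr p q L.length < s.shr p p' L.length)
    (h2 : s.shr p q L.length < s.shr q q' L.length) :
    s.shr p' q' L.length = s.shr p q L.length ∧
    |TE w s L h (fun x => R (x p) (x q) * R (x p') (x q')) -
        pi2 w L (s.shr p q L.length) (fun x x' => R x x' ^ 2) h| ≤
      2 * vm w L h R s (s.shr p q L.length) p p' + 2 * vm w L h R s (s.shr p q L.length) q q' := by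
  have U := Ker15.um_sm s id L.length
  have a1 : s.shr p' q L.length = s.shr p q L.length := iso U h1
  have a2 : s.shr q p' L.length = s.shr p q L.length := (Wt87.shr_comm _ _ _ _).trans a1
  have a3 : s.shr q' p' L.length = s.shr q p' L.length := iso U (a2.trans_lt h2)
  have a4 : s.shr p' q' L.length = s.shr p q L.length :=
    (Wt87.shr_comm _ _ _ _).trans (a3.trans a2)
  have hK : s.shr p q L.length < L.length := h1.trans_le (Wt87.shr_le _ _ _ _)
  have n1 : q ≠ p' := fun e => hK.ne (by rw [← a2, ← e, Wt87.shr_self])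
  have n2 : p' ≠ q' := fun e => hK.ne (by rw [← a4, ← e, Wt87.shr_self])
  refine ⟨a4, ?_⟩
  have e1 := sq3 hw hR (h := h) s hpq h1
  have e2 := sq3 hw hR (h := h) s n1 (a2.trans_lt h2)
  rw [a2] at e2
  have e3 := Cas.TE_pair hw s L h hpq fun x y => R x y ^ 2
  have e4 := Cas.TE_pair hw s L h n2 fun x y => R x y ^ 2
  rw [a4] at e4
  have e5 : TE w s L h (fun x => (R (x p) (x q) - R (x p') (x q')) ^ 2) =
      2 * pi2 w L (s.shr p q L.length) (fun x x' => R x x' ^ 2) h -
        2 * TE w s L h (fun x => R (x p) (x q) * R (x p') (x q')) := by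
    rw [show (fun x : s.Lf → Ω => (R (x p) (x q) - R (x p') (x q')) ^ 2) = fun x =>
      R (x p) (x q) ^ 2 + R (x p') (x q') ^ 2 - 2 * (R (x p) (x q) * R (x p') (x q')) from
        funext fun x => by ring, Law.TE_sub hw, Law.TE_add hw, Law.TE_const_mul hw, e3, e4]
    ring
  have e6 : 0 ≤ TE w s L h (fun x => (R (x p) (x q) - R (x p') (x q')) ^ 2) :=
    (Law.TE_const hw s L h 0).symm.trans_le (Law.TE_mono hw s L h fun x => sq_nonneg _)
  have e7 := Law.TE_mono hw s L h
    (F := fun x => (R (x p) (x q) - R (x p') (x q')) ^ 2)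
    (G := fun x => 2 * (R (x p) (x q) - R (x p') (x q)) ^ 2 +
      2 * (R (x q) (x p') - R (x q') (x p')) ^ 2) fun x => by
      rw [hR (x q) (x p'), hR (x q') (x p')]
      nlinarith [sq_nonneg (R (x p) (x q) - 2 * R (x p') (x q) + R (x p') (x q'))]
  rw [Law.TE_add hw, Law.TE_const_mul hw, Law.TE_const_mul hw, e1, e2] at e7
  rw [abs_le]
  constructor <;> linarith

/-- the crude bound -/
theorem bulk0 (hw : Wt w) (s : Sh) {p q p' q' : s.Lf} (hpq : p ≠ q) (hpq' : p' ≠ q') {A : ℝ}
    (h1 : pi2 w L (s.shr p q L.length) (fun x x' => R x x' ^ 2) h ≤ A)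
    (h2 : pi2 w L (s.shr p' q' L.length) (fun x x' => R x x' ^ 2) h ≤ A) :
    |TE w s L h fun x => R (x p) (x q) * R (x p') (x q')| ≤ A := by
  have e := abs_TE_le' hw s L h (F := fun x => R (x p) (x q) * R (x p') (x q'))
    (F' := fun x => 1 / 2 * R (x p) (x q) ^ 2 + 1 / 2 * R (x p') (x q') ^ 2) fun x => by
      rw [abs_le]
      constructor <;> nlinarith [sq_nonneg (R (x p) (x q) - R (x p') (x q')),
        sq_nonneg (R (x p) (x q) + R (x p') (x q'))]
  rw [Law.TE_add hw, Law.TE_const_mul hw, Law.TE_const_mul hw,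
    Cas.TE_pair hw s L h hpq fun x y => R x y ^ 2,
    Cas.TE_pair hw s L h hpq' fun x y => R x y ^ 2] at e
  linarith

end bulk

/-! ### parity on trees -/

section site

variable {L : List (Lv Bool)} {ℓ : List (ℝ × ℝ)}

/-- the parity constant -/
def cQ : ℝ := Site94.cP 8 2

theorem one_le_cQ : 1 ≤ cQ := Site94.one_le_cP (r := 8) 0 2

theorem abs_spins {κ ι : Type} [Fintype ι] (u : ι → κ) (x : κ → Bool) :
    |∏ i, spin (x (u i))| = 1 := by simp [Finset.abs_prod, One15.abs_spin]

/-- **one odd cluster above the cut `t`** -/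
theorem par {ι : Type} [Fintype ι] (H : List.Forall₂ (Rk1 spin) L ℓ) (hM : Mono 0 L) (s : Sh)
    (hN : Fintype.card s.Lf ≤ 8) (u : ι → s.Lf) (a : s.Lf) {t : ℕ}
    (ho : Odd (∑ i, if t < s.shr a (u i) L.length then 1 else 0)) {e : ℝ}
    (he : min 1 (Var.TT (ℓ.take t)) ≤ e) :
    |TE (fun _ => 1) s L 0 fun x => ∏ i, spin (x (u i))| ≤ cQ * e := by
  classical
  have t0 : 0 ≤ Var.TT (ℓ.take t) :=
    One15.TT_nonneg fun p hp => One15.nn_of H p (List.mem_of_mem_take hp)
  have q1 := one_le_cQ
  rcases le_total 1 (Var.TT (ℓ.take t)) with h1 | h1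
  · rw [min_eq_left h1] at he
    refine (One15.abs_TE_le One15.w1 s L 0 fun x => (abs_spins u x).le).trans ?_
    nlinarith
  rw [min_eq_right h1] at he
  set E := (Fintype.equivFin s.Lf).symm
  set k : Fin (Fintype.card s.Lf) → ℕ := fun c => ∑ i, if u i = E c then 1 else 0 with hk
  have e1 : (fun x : s.Lf → Bool => ∏ i, spin (x (u i))) = One15.mo fun c => k (E.symm c) := by
    funext x
    simp only [One15.mo, hk, Equiv.apply_symm_apply, ← Finset.prod_pow_eq_pow_sum]
    rw [Finset.prod_comm]
    refine Finset.prod_congr rfl fun i _ => ?_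
    simp [pow_ite]
  have e2 : Site94.bdM (sm s E L.length) k (E.symm a) t =
      ∑ i, if t < s.shr a (u i) L.length then 1 else 0 := by
    simp only [Site94.bdM, sm, Equiv.apply_symm_apply, hk]
    rw [E.sum_comp fun c => if t < s.shr a c L.length then ∑ i, if u i = c then 1 else 0 else 0]
    simp only [Finset.ite_sum_zero]
    rw [Finset.sum_comm]
    refine Finset.sum_congr rfl fun i _ => ?_
    rw [Finset.sum_eq_single (u i) (fun c _ hc => by simp [hc.symm]) (by simp)]
    simp
  refine le_trans (le_of_forall_pos_le_add fun δ hδ => ?_)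
    (mul_le_mul_of_nonneg_left he (by linarith))
  have h2 : 0 < min 1 (δ / cQ) := lt_min one_pos (by positivity)
  have h3 := Site94.par1M H hM ⟨s, E, rfl⟩ k (E.symm a) (s := Var.TT (ℓ.take t) + min 1 (δ / cQ))
    (by linarith) t (e2 ▸ ho) (by linarith)
  rw [Site94.TM_mo, ← e1] at h3
  have h4 : Site94.cP (Fintype.card s.Lf) (Var.TT (ℓ.take t) + min 1 (δ / cQ)) ≤ cQ := by
    refine (Site94.cP_mono _ (t := 2) (by linarith [min_le_left 1 (δ / cQ)])).trans ?_
    unfold cQ Site94.cP
    gcongr
  refine h3.trans ((mul_le_mul_of_nonneg_right h4 (by linarith)).trans ?_)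
  have h5 : cQ * min 1 (δ / cQ) ≤ δ :=
    (mul_le_mul_of_nonneg_left (min_le_right _ _) (by linarith)).trans_eq (by field_simp)
  linarith [mul_add cQ (Var.TT (ℓ.take t)) (min 1 (δ / cQ))]

/-- the base of the site function: nothing, or a marked pair split at `j > J` -/
def Bs (K J j : ℕ) (s : Sh) (ξ : (s.Lf → Bool) → ℝ) : Prop :=
  (ξ = fun _ => 1) ∨ ∃ a b c, s.shr a b K = j ∧ J < j ∧ |c| ≤ (1 : ℝ) ∧
    ξ = fun x => spin (x a) * spin (x b) - c

/-- the site function of two edges -/
def sf {κ : Type} (ξ : (κ → Bool) → ℝ) (p q p' q' : κ) : (κ → Bool) → ℝ :=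
  fun x => ξ x * (spin (x p) * spin (x q)) * (spin (x p') * spin (x q'))

theorem sf_sw {κ : Type} (ξ : (κ → Bool) → ℝ) (p q p' q' : κ) :
    sf ξ p q p' q' = sf ξ q p q' p' := funext fun x => by unfold sf; ring

theorem sf_sw' {κ : Type} (ξ : (κ → Bool) → ℝ) (p q p' q' : κ) :
    sf ξ p q p' q' = sf ξ p q q' p' := funext fun x => by unfold sf; ring

/-- `c` is in the cluster of `o` above the cut `t` -/
def id1 (s : Sh) (K t : ℕ) (o c : s.Lf) : ℕ := if t < s.shr o c K then 1 else 0

variable {J j : ℕ} {s : Sh} {ξ : (s.Lf → Bool) → ℝ} {p q p' q' : s.Lf}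

theorem site_crude (B : Bs L.length J j s ξ) (p q p' q' : s.Lf) :
    |TE (fun _ => 1) s L 0 (sf ξ p q p' q')| ≤ 2 := by
  refine One15.abs_TE_le One15.w1 s L 0 fun x => ?_
  simp only [sf, abs_mul, One15.abs_spin, mul_one]
  rcases B with rfl | ⟨a, b, c, -, -, hc, rfl⟩
  · norm_num
  · refine (abs_sub _ _).trans ?_
    rw [abs_mul, One15.abs_spin, One15.abs_spin]
    linarith

theorem site_le (H : List.Forall₂ (Rk1 spin) L ℓ) (hM : Mono 0 L) (hN : Fintype.card s.Lf ≤ 8)
    (B : Bs L.length J j s ξ) {t : ℕ} {e : ℝ} (he : min 1 (Var.TT (ℓ.take t)) ≤ e) (o : s.Lf)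
    (ho : Odd (id1 s L.length t o p + id1 s L.length t o q + id1 s L.length t o p' +
      id1 s L.length t o q'))
    (ho' : ∀ a b, s.shr a b L.length = j → J < j → ∃ o, Odd (id1 s L.length t o a +
      id1 s L.length t o b + id1 s L.length t o p + id1 s L.length t o q +
      id1 s L.length t o p' + id1 s L.length t o q')) :
    |TE (fun _ => 1) s L 0 (sf ξ p q p' q')| ≤ 2 * cQ * e := by
  have h1 := par H hM s hN ![p, q, p', q'] o (t := t) (by rw [Fin.sum_univ_four]; exact ho) he
  have h0 := (abs_nonneg _).trans h1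
  rcases B with rfl | ⟨a, b, c, hab, hj, hc, rfl⟩
  · rw [show sf (fun _ => 1) p q p' q' = fun x => ∏ i, spin (x (![p, q, p', q'] i)) from
      funext fun x => by rw [Fin.prod_univ_four]; simp [sf, mul_assoc]]
    linarith
  · obtain ⟨o', h2⟩ := ho' a b hab hj
    have h3 := par H hM s hN ![a, b, p, q, p', q'] o' (t := t)
      (by rw [Fin.sum_univ_six]; exact h2) he
    rw [show sf (fun x => spin (x a) * spin (x b) - c) p q p' q' = fun x =>
        ∏ i, spin (x (![a, b, p, q, p', q'] i)) - c * ∏ i, spin (x (![p, q, p', q'] i)) from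
      funext fun x => by rw [Fin.prod_univ_four, Fin.prod_univ_six]; simp [sf]; ring,
      Law.TE_sub One15.w1, Law.TE_const_mul One15.w1]
    refine (abs_sub _ _).trans ?_
    rw [abs_mul]
    nlinarith [mul_le_mul hc h1 (abs_nonneg _) zero_le_one]

/-- an odd cluster above the cut `J` -/
theorem site_J (H : List.Forall₂ (Rk1 spin) L ℓ) (hM : Mono 0 L) (hN : Fintype.card s.Lf ≤ 8)
    (B : Bs L.length J j s ξ) {e : ℝ} (he : min 1 (Var.TT (ℓ.take J)) ≤ e) (hJ : J < L.length)
    (h1 : s.shr p q L.length ≤ J) (h2 : s.shr p' q' L.length ≤ J)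
    (n1 : ¬(J < s.shr p p' L.length ∧ J < s.shr q q' L.length))
    (n2 : ¬(J < s.shr p q' L.length ∧ J < s.shr q p' L.length)) :
    |TE (fun _ => 1) s L 0 (sf ξ p q p' q')| ≤ 2 * cQ * e := by
  have U := Ker15.um_sm s id L.length
  have u := fun a b c => Wt87.shr_ultra s a b c L.length
  have c := fun a b => Wt87.shr_comm s a b L.length
  have d := fun a => Wt87.shr_self s a L.length
  obtain ⟨o, ho⟩ : ∃ o, Odd (id1 s L.length J o p + id1 s L.length J o q +
      id1 s L.length J o p' + id1 s L.length J o q') := by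
    by_cases h : J < s.shr p p' L.length ∨ J < s.shr p q' L.length
    · refine ⟨q, ?_⟩
      have := u p p' q; have := u p q' q; have := c q p; have := c q p'; have := c q q'
      have := d q
      simp only [id1, Nat.odd_iff]
      split_ifs <;> omega
    · refine ⟨p, ?_⟩
      have := d p
      simp only [id1, Nat.odd_iff]
      split_ifs <;> omega
  refine site_le H hM hN B he o ho fun a b hab hj => ⟨o, ?_⟩
  have := u o a b; have := u o b a; have := c a b
  have e : id1 s L.length J o a = id1 s L.length J o b := by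
    simp only [id1]
    split_ifs <;> omega
  rw [Nat.odd_iff] at ho ⊢
  omega

/-- two ends split at a node which is not the marked one -/
theorem site_t (H : List.Forall₂ (Rk1 spin) L ℓ) (hM : Mono 0 L) (hN : Fintype.card s.Lf ≤ 8)
    (B : Bs L.length J j s ξ) {e : ℝ} {t : ℕ} (he : min 1 (Var.TT (ℓ.take t)) ≤ e)
    (ht : s.shr p p' L.length = t) (hJ : J < t) (hK : t < L.length) (hj : t ≠ j)
    (h1 : s.shr p q L.length ≤ J) (h2 : J < s.shr q q' L.length) :
    |TE (fun _ => 1) s L 0 (sf ξ p q p' q')| ≤ 2 * cQ * e := by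
  have u := fun a b c => Wt87.shr_ultra s a b c L.length
  have c := fun a b => Wt87.shr_comm s a b L.length
  have d := fun a => Wt87.shr_self s a L.length
  have a1 : s.shr p q' L.length ≤ J := by have := u p q' q; have := c q q'; omega
  have a2 : s.shr p' q L.length ≤ J := by have := u p p' q; omega
  have a3 : s.shr p' q' L.length ≤ J := by have := u p p' q'; omega
  have k1 : id1 s L.length t p p + id1 s L.length t p q + id1 s L.length t p p' +
      id1 s L.length t p q' = 1 := by
    have := d p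
    simp only [id1]
    split_ifs <;> omega
  have k2 : id1 s L.length t p' p + id1 s L.length t p' q + id1 s L.length t p' p' +
      id1 s L.length t p' q' = 1 := by
    have := d p'; have := c p p'
    simp only [id1]
    split_ifs <;> omega
  refine site_le H hM hN B he p (by rw [k1]; exact odd_one) fun a b hab _ => ?_
  by_cases h : id1 s L.length t p a = id1 s L.length t p b
  · exact ⟨p, by rw [Nat.odd_iff]; omega⟩
  refine ⟨p', ?_⟩
  have e : id1 s L.length t p' a = id1 s L.length t p' b := by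
    have := u a p p'; have := u p a p'; have := u a p' b; have := u a b p'
    have := u b p p'; have := u p b p'; have := u b p' a; have := u b a p'
    have := c a p; have := c b p; have := c a p'; have := c b p'; have := c a b
    simp only [id1] at h ⊢
    split_ifs at h ⊢ <;> omega
  rw [Nat.odd_iff]
  omega

end site

end Crest.Agent.T156.Cas.Y44

end
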