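import Crest.Agent.T156.Sch_6
import Crest.Agent.T156.CaTay_38

/-!
# Row 156 (helper6): the derivatives of tree expectations commute

`Dfu M S` is the formal derivative for arbitrary kernels (`dT = Dfu (TEf)`), `WdF M l` a word of such
derivatives.  `pd_word`: a linear identity between tree expectations that holds for all cascades
with given tilts holds for all their formal derivatives.  `WdF_perm`, `WdO_perm`: words of
derivatives are invariant under permutations.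
-/

set_option autoImplicit false
set_option linter.unusedSectionVars false

noncomputable section

namespace Crest.Agent.T156.Cas

open MeasureTheory Real Set Filter Topology
open Crest.Agent.T157.E Crest.Agent.T157.Casc Crest.Agent.T157.SL
open Crest.Agent.T157.Casc.C (Same)
open Sch6 Tay38

variable {Ω : Type}

/-- the formal derivative in the direction of arbitrary kernels -/
def Dfu (M : List (Lv Ω)) (S : ℕ → Ω → Ω → ℝ) (Λ : Fn Ω) : Fn Ω := fun s F =>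
  Dop M S Λ s F + ∑ a, Λ s (fun x => F x * S M.length (x a) (x a)) -
    ∑ a, ∑ j ∈ Finset.range (M.length + 1), cw s M a j * Λ (s.graft a j) fun x =>
      F (fun c => x (s.emb a j c)) * S M.length (x (s.nw a j)) (x (s.nw a j))

/-- a word of derivatives -/
def WdF (M : List (Lv Ω)) (l : List (ℕ → Ω → Ω → ℝ)) (Λ : Fn Ω) : Fn Ω := l.foldr (Dfu M) Λ

/-- a word of derivatives, off-diagonal form -/
def WdO (M : List (Lv Ω)) (l : List (ℕ → Ω → Ω → ℝ)) (Λ : Fn Ω) : Fn Ω := l.foldr (Dop M) Λ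

/-- finite linear combinations of evaluations -/
def FL (Φ : Fn Ω → ℝ) : Prop := ∀ R : (ℝ → ℝ) → ℝ → Prop, Lin R → ∀ (Λ : ℝ → Fn Ω) (Λ' : Fn Ω),
  (∀ s F, R (fun t => Λ t s F) (Λ' s F)) → R (fun t => Φ (Λ t)) (Φ Λ')

/-- functionals that are linear in the test function -/
def IsLin (Λ : Fn Ω) : Prop := ∀ (s : Sh) (a b : ℝ) (F G : (s.Lf → Ω) → ℝ),
  Λ s (fun x => a * F x + b * G x) = a * Λ s F + b * Λ s G

/-- jointly continuous families of functionals -/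
def CFn {E : Type*} [TopologicalSpace E] (Λ : E → Fn Ω) : Prop :=
  ∀ (s : Sh) (F : E → (s.Lf → Ω) → ℝ), (∀ x, Continuous fun q => F q x) →
    Continuous fun q => Λ q s (F q)

theorem WdF_nil (M : List (Lv Ω)) (Λ : Fn Ω) : WdF M [] Λ = Λ := rfl

theorem WdF_cons (M : List (Lv Ω)) (S : ℕ → Ω → Ω → ℝ) (l : List (ℕ → Ω → Ω → ℝ)) (Λ : Fn Ω) :
    WdF M (S :: l) Λ = Dfu M S (WdF M l Λ) := rfl

theorem WdF_append (M : List (Lv Ω)) (l l' : List (ℕ → Ω → Ω → ℝ)) (Λ : Fn Ω) :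
    WdF M (l ++ l') Λ = WdF M l (WdF M l' Λ) := List.foldr_append

theorem WdO_nil (M : List (Lv Ω)) (Λ : Fn Ω) : WdO M [] Λ = Λ := rfl

theorem WdO_cons (M : List (Lv Ω)) (S : ℕ → Ω → Ω → ℝ) (l : List (ℕ → Ω → Ω → ℝ)) (Λ : Fn Ω) :
    WdO M (S :: l) Λ = Dop M S (WdO M l Λ) := rfl

theorem WdO_append (M : List (Lv Ω)) (l l' : List (ℕ → Ω → Ω → ℝ)) (Λ : Fn Ω) :
    WdO M (l ++ l') Λ = WdO M l (WdO M l' Λ) := List.foldr_append

theorem WdO_replicate (M : List (Lv Ω)) (S : ℕ → Ω → Ω → ℝ) (Λ : Fn Ω) :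
    ∀ k, WdO M (List.replicate k S) Λ = (Dop M S)^[k] Λ
  | 0 => rfl
  | k + 1 => by rw [List.replicate_succ, WdO_cons, WdO_replicate M S Λ k,
      Function.iterate_succ_apply']

theorem Dop_tilt {M M' : List (Lv Ω)} (H : M.map Lv.m = M'.map Lv.m) : Dop M = Dop M' := by
  funext S Λ s F
  simp only [Dop, Dop1, Dop2, Dop3, len_congr H, cw_congr _ H, dm_congr (drop_congr H _)]

theorem Dfu_tilt {M M' : List (Lv Ω)} (H : M.map Lv.m = M'.map Lv.m) : Dfu M = Dfu M' := by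
  funext S Λ s F
  simp only [Dfu, Dop_tilt H, len_congr H, cw_congr _ H]

theorem WdF_tilt {M M' : List (Lv Ω)} (H : M.map Lv.m = M'.map Lv.m) : WdF M = WdF M' := by
  funext l Λ
  rw [WdF, WdF, Dfu_tilt H]

theorem WdO_tilt {M M' : List (Lv Ω)} (H : M.map Lv.m = M'.map Lv.m) : WdO M = WdO M' := by
  funext l Λ
  rw [WdO, WdO, Dop_tilt H]

theorem Dop_congrS (M : List (Lv Ω)) {S S' : ℕ → Ω → Ω → ℝ} (H : ∀ j ≤ M.length, S j = S' j) :
    Dop M S = Dop M S' := by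
  funext Λ s F
  have e1 : ∀ (a b : s.Lf) j, j ≤ M.length → S (s.shr a b j) = S' (s.shr a b j) :=
    fun a b j hj => H _ ((shr_le s a b j).trans hj)
  simp only [Dop, Dop1, Dop2, Dop3, e1 _ _ _ le_rfl]
  congr 1
  · congr 1
    refine Finset.sum_congr rfl fun a _ => Finset.sum_congr rfl fun j hj => ?_
    simp only [e1 _ _ _ (Nat.lt_succ_iff.1 (Finset.mem_range.1 hj))]
  · refine Finset.sum_congr rfl fun a _ => Finset.sum_congr rfl fun j hj => ?_
    have hj' := Nat.lt_succ_iff.1 (Finset.mem_range.1 hj)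
    simp only [fun a b k => e1 a b (min j k) ((min_le_left _ _).trans hj')]
    congr 2
    refine Finset.sum_congr rfl fun i hi => ?_
    have := Finset.mem_range.1 hi
    rw [H (i + j) (by omega)]

theorem Dfu_congrS (M : List (Lv Ω)) {S S' : ℕ → Ω → Ω → ℝ} (H : ∀ j ≤ M.length, S j = S' j) :
    Dfu M S = Dfu M S' := by
  funext Λ s F
  simp only [Dfu, Dop_congrS M H, H _ le_rfl]

namespace FL

variable {Φ Ψ : Fn Ω → ℝ}

theorem ev (s : Sh) (F : (s.Lf → Ω) → ℝ) : FL fun Λ : Fn Ω => Λ s F := fun _ _ _ _ h => h s F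

theorem add (h : FL Φ) (h' : FL Ψ) : FL fun Λ => Φ Λ + Ψ Λ :=
  fun R H Λ Λ' e => H.add (h R H Λ Λ' e) (h' R H Λ Λ' e)

theorem sub (h : FL Φ) (h' : FL Ψ) : FL fun Λ => Φ Λ - Ψ Λ :=
  fun R H Λ Λ' e => H.sub (h R H Λ Λ' e) (h' R H Λ Λ' e)

theorem cmul (c : ℝ) (h : FL Φ) : FL fun Λ => c * Φ Λ :=
  fun R H Λ Λ' e => H.smul c (h R H Λ Λ' e)

theorem sum {α : Type*} (T : Finset α) {Φ : α → Fn Ω → ℝ} (h : ∀ i ∈ T, FL (Φ i)) :
    FL fun Λ => ∑ i ∈ T, Φ i Λ :=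
  fun R H Λ Λ' e => H.sum T fun i hi => h i hi R H Λ Λ' e

theorem dop (h : FL Φ) (M : List (Lv Ω)) (S : ℕ → Ω → Ω → ℝ) : FL fun Λ => Φ (Dop M S Λ) :=
  fun R H _ _ e => h R H _ _ (H.dop M S e)

theorem dfu (h : FL Φ) (M : List (Lv Ω)) (S : ℕ → Ω → Ω → ℝ) : FL fun Λ => Φ (Dfu M S Λ) :=
  fun R H _ _ e => h R H _ _ fun s F => H.sub (H.add (H.dop M S e s F) (H.sum _ fun _ _ => e _ _))
    (H.sum _ fun _ _ => H.sum _ fun _ _ => H.smul _ (e _ _))

theorem wd (M : List (Lv Ω)) : ∀ (l : List (ℕ → Ω → Ω → ℝ)) {Φ : Fn Ω → ℝ}, FL Φ →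
    FL fun Λ => Φ (WdF M l Λ)
  | [], _, h => h
  | S :: l, _, h => wd M l (h.dfu M S)

theorem wdO (M : List (Lv Ω)) : ∀ (l : List (ℕ → Ω → Ω → ℝ)) {Φ : Fn Ω → ℝ}, FL Φ →
    FL fun Λ => Φ (WdO M l Λ)
  | [], _, h => h
  | S :: l, _, h => wdO M l (h.dop M S)

theorem der (h : FL Φ) {Λ : ℝ → Fn Ω} {Λ' : Fn Ω} {u : ℝ}
    (e : ∀ s F, HasDerivAt (fun t => Λ t s F) (Λ' s F) u) :
    HasDerivAt (fun t => Φ (Λ t)) (Φ Λ') u := h _ (lin_der u) Λ Λ' e

theorem contOn (h : FL Φ) {Λ : ℝ → Fn Ω} {I : Set ℝ}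
    (e : ∀ s F, ContinuousOn (fun t => Λ t s F) I) : ContinuousOn (fun t => Φ (Λ t)) I :=
  h _ (lin_cont I) Λ (fun _ _ => 0) e

theorem lin (h : FL Φ) (a b : ℝ) (Λ Λ' : Fn Ω) :
    Φ (fun s F => a * Λ s F + b * Λ' s F) = a * Φ Λ + b * Φ Λ' := by
  have H : Lin fun f c => c = a * f 0 + b * f 1 :=
    ⟨by simp, fun h h' => by rw [h, h']; ring, fun c _ _ h => by rw [h]; ring⟩
  have := h _ H (fun t => if t = 0 then Λ else Λ') (fun s F => a * Λ s F + b * Λ' s F)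
    fun s F => by simp
  simpa using this

end FL

theorem IsLin.dopS {Λ : Fn Ω} (H : IsLin Λ) (M : List (Lv Ω)) (a b : ℝ) (S S' : ℕ → Ω → Ω → ℝ)
    (s : Sh) (F : (s.Lf → Ω) → ℝ) : Dop M (fun j x y => a * S j x y + b * S' j x y) Λ s F =
      a * Dop M S Λ s F + b * Dop M S' Λ s F := by
  have e : ∀ u v z : ℝ, u * (a * v + b * z) = a * (u * v) + b * (u * z) := fun u v z => by ring
  have e' : ∀ (p : Prop) [Decidable p] (u v : ℝ), (if p then 0 else a * u + b * v) =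
      a * (if p then 0 else u) + b * if p then 0 else v := fun p _ u v => by split_ifs <;> simp
  simp only [Dop, Dop1, Dop2, Dop3, e, H _ a b, e', Finset.sum_add_distrib, ← Finset.mul_sum,
    mul_add]
  ring

theorem IsLin.dfuS {Λ : Fn Ω} (H : IsLin Λ) (M : List (Lv Ω)) (a b : ℝ) (S S' : ℕ → Ω → Ω → ℝ)
    (s : Sh) (F : (s.Lf → Ω) → ℝ) : Dfu M (fun j x y => a * S j x y + b * S' j x y) Λ s F =
      a * Dfu M S Λ s F + b * Dfu M S' Λ s F := by
  have e : ∀ u v z : ℝ, u * (a * v + b * z) = a * (u * v) + b * (u * z) := fun u v z => by ring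
  simp only [Dfu, H.dopS, e, H _ a b, Finset.sum_add_distrib, ← Finset.mul_sum]
  ring

theorem IsLin.dop {Λ : Fn Ω} (H : IsLin Λ) (M : List (Lv Ω)) (S : ℕ → Ω → Ω → ℝ) :
    IsLin (Dop M S Λ) := fun s a b F G => by
  have e : ∀ u v z : ℝ, (a * v + b * z) * u = a * (v * u) + b * (z * u) := fun u v z => by ring
  have e' : ∀ (p : Prop) [Decidable p] (u v : ℝ), (if p then 0 else a * u + b * v) =
      a * (if p then 0 else u) + b * if p then 0 else v := fun p _ u v => by split_ifs <;> simp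
  simp only [Dop, Dop1, Dop2, Dop3, e, H _ a b, e', Finset.sum_add_distrib, ← Finset.mul_sum,
    mul_add, mul_left_comm _ a, mul_left_comm _ b]
  ring

theorem IsLin.dfu {Λ : Fn Ω} (H : IsLin Λ) (M : List (Lv Ω)) (S : ℕ → Ω → Ω → ℝ) :
    IsLin (Dfu M S Λ) := fun s a b F G => by
  have e : ∀ u v z : ℝ, (a * v + b * z) * u = a * (v * u) + b * (z * u) := fun u v z => by ring
  simp only [Dfu, H.dop M S s a b, e, H _ a b, Finset.sum_add_distrib, ← Finset.mul_sum, mul_add,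
    mul_left_comm _ a, mul_left_comm _ b]
  ring

theorem IsLin.wd {Λ : Fn Ω} (H : IsLin Λ) (M : List (Lv Ω)) :
    ∀ l : List (ℕ → Ω → Ω → ℝ), IsLin (WdF M l Λ)
  | [] => H
  | S :: l => (H.wd M l).dfu M S

theorem IsLin.wdO {Λ : Fn Ω} (H : IsLin Λ) (M : List (Lv Ω)) :
    ∀ l : List (ℕ → Ω → Ω → ℝ), IsLin (WdO M l Λ)
  | [] => H
  | S :: l => (H.wdO M l).dop M S

section cont
variable {E : Type*} [TopologicalSpace E] {Λ : E → Fn Ω}

theorem CFn.dop (H : CFn Λ) (M : List (Lv Ω)) {S : E → ℕ → Ω → Ω → ℝ}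
    (hS : ∀ j x y, Continuous fun q => S q j x y) : CFn fun q => Dop M (S q) (Λ q) := by
  intro s F hF
  refine ((continuous_finsetSum _ fun a _ => continuous_finsetSum _ fun b _ => ?_).sub
    (continuous_finsetSum _ fun a _ => continuous_finsetSum _ fun j _ => continuous_const.mul
      ((continuous_finsetSum _ fun b _ => ?_).add (continuous_finsetSum _ fun b _ => ?_)))).add
    (continuous_finsetSum _ fun a _ => continuous_finsetSum _ fun j _ => continuous_const.mul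
      ((continuous_finsetSum _ fun b _ => continuous_finsetSum _ fun k _ =>
        continuous_const.mul ?_).add
        (continuous_finsetSum _ fun i _ => continuous_const.mul ?_)))
  · split_ifs
    · exact continuous_const
    · exact H _ _ fun x => (hF _).mul (hS _ _ _)
  all_goals exact H _ _ fun x => (hF _).mul (hS _ _ _)

theorem CFn.dfu (H : CFn Λ) (M : List (Lv Ω)) {S : E → ℕ → Ω → Ω → ℝ}
    (hS : ∀ j x y, Continuous fun q => S q j x y) : CFn fun q => Dfu M (S q) (Λ q) :=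
  fun s F hF => ((H.dop M hS s F hF).add (continuous_finsetSum _ fun _ _ =>
    H _ _ fun _ => (hF _).mul (hS _ _ _))).sub (continuous_finsetSum _ fun _ _ =>
      continuous_finsetSum _ fun _ _ => continuous_const.mul
        (H _ _ fun _ => (hF _).mul (hS _ _ _)))

end cont

variable [Fintype Ω] {w : Ω → ℝ}

theorem dT_eq_Dfu (w : Ω → ℝ) (s : Sh) (M : List (Lv Ω)) (h : Ω → ℝ) (S : ℕ → Ω → Ω → ℝ)
    (F : (s.Lf → Ω) → ℝ) : dT w s M h S F = Dfu M S (TEf w M h) s F := by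
  have e1 : ∀ a b : s.Lf, tX w s M h (fun _ x => F x * S (s.shr a b M.length) (x a) (x b)) =
      (if a = b then 0 else TE w s M h fun x => F x * S (s.shr a b M.length) (x a) (x b)) +
        if a = b then TE w s M h (fun x => F x * S M.length (x a) (x a)) else 0 := fun a b => by
    split_ifs with hab
    · subst hab
      simp only [zero_add, Sp38.shr_self, TE]
    · rw [add_zero, TE]
  rw [dT]
  simp only [e1, Finset.sum_add_distrib, Finset.sum_ite_eq, Finset.mem_univ, if_true]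
  simp only [Dfu, Dop, Dop1, Dop2, Dop3, TEf, TE, mul_add, Finset.sum_add_distrib]
  ring

theorem isLin_TEf (hw : Wt w) (M : List (Lv Ω)) (h : Ω → ℝ) : IsLin (TEf w M h) :=
  fun s a b F G => tX_lin hw s M h a b F G

theorem TEf_same (hw : Wt w) {M M' : List (Lv Ω)} (H : List.Forall₂ Same M M') (h : Ω → ℝ) :
    TEf w M h = TEf w M' h := funext fun s => funext fun F => Law.TE_same hw s H F h

theorem Sch6.CF.cfn {E : Type*} [TopologicalSpace E] {h : Ω → ℝ} {M0 : List (Lv Ω)}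
    {M : E → List (Lv Ω)} (hw : Wt w) (H : CF w h M0 M) : CFn fun q => TEf w (M q) h :=
  fun s _ hF => H.tX hw s hF

theorem hasDerivAt_TEf (hw : Wt w) {I : Set ℝ} (hI : IsOpen I) {L : List (TL Ω)}
    (hL : ∀ l ∈ L, l.C1 I) {u : ℝ} (hu : u ∈ I) (h : Ω → ℝ) (s : Sh) (F : (s.Lf → Ω) → ℝ) :
    HasDerivAt (fun t => TEf w (atL L t) h s F)
      (Dfu (atL L u) (Sacc L u) (TEf w (atL L u) h) s F) u := by
  rw [← dT_eq_Dfu]
  exact hasDerivAt_tX_t hw hI hL hu s h F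

namespace Com6

theorem der_aug (hw : Wt w) (h : Ω → ℝ) (M : List (Lv Ω)) (S S' : ℕ → Ω → Ω → ℝ)
    (p v : ℝ × ℝ × ℝ) (t : ℝ) (s : Sh) (F : (s.Lf → Ω) → ℝ) :
    HasDerivAt (fun t : ℝ => TEf w (aug (p + t • v) M S S') h s F)
      (Dfu M (Sq S S' M.length v (p + t • v)) (TEf w (aug (p + t • v) M S S') h) s F) t := by
  have := hasDerivAt_TEf hw isOpen_univ (c1_aT p v M S S') (mem_univ t) h s F
  rw [show Sacc (aT (fun t => p + t • v) (fun _ => v) M S S') t = _ from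
    funext fun j => funext fun x => funext fun y => Sacc_aT _ _ t x y M S S' j] at this
  simp only [atL_aT] at this
  rwa [Dfu_tilt (m_aug _ M S S')] at this

theorem Dfu_e1 (M : List (Lv Ω)) {S S' : ℕ → Ω → Ω → ℝ} (h0 : S 0 = 0) (h0' : S' 0 = 0) (e : ℝ)
    {Λ : Fn Ω} (H : IsLin Λ) : Dfu M (Sq S S' M.length (0, 1, 0) (e, 0, 0)) Λ =
      fun s F => e * Dfu M S Λ s F + 0 * Λ s F := by
  funext s F
  rw [Dfu_congrS M (S' := fun j x y => e * 1 * S j x y + e * 0 * S' j x y)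
    fun j hj => Sq_zero h0 h0' _ _ _ _ hj, H.dfuS]
  ring

theorem Dfu_e2 (M : List (Lv Ω)) {S S' : ℕ → Ω → Ω → ℝ} (h0 : S 0 = 0) (h0' : S' 0 = 0) (e : ℝ)
    {Λ : Fn Ω} (H : IsLin Λ) : Dfu M (Sq S S' M.length (0, 0, 1) (e, 0, 0)) Λ =
      fun s F => e * Dfu M S' Λ s F + 0 * Λ s F := by
  funext s F
  rw [Dfu_congrS M (S' := fun j x y => e * 0 * S j x y + e * 1 * S' j x y)
    fun j hj => Sq_zero h0 h0' _ _ _ _ hj, H.dfuS]
  ring

/-- passage to the limit -/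
theorem lim0 (hw : Wt w) (h : Ω → ℝ) (M : List (Lv Ω)) (S S' : ℕ → Ω → Ω → ℝ) {Φ : Fn Ω → ℝ}
    (hΦ : FL Φ) (H : ∀ e : ℝ, e ≠ 0 → Φ (TEf w (aug (e, 0, 0) M S S') h) = 0) :
    Φ (TEf w M h) = 0 := by
  have cf : CF w h M fun e : ℝ => aug (e, 0, 0) M S S' :=
    ⟨fun q => m_aug _ M S S', fun s x => ((cf_aug hw h M S S').pt s x).comp (by fun_prop)⟩
  have hc := continuousOn_univ.1 (hΦ.contOn (I := univ)
    (Λ := fun e => TEf w (aug (e, 0, 0) M S S') h)
    fun s F => (cf.cfn hw s (fun _ => F) fun _ => continuous_const).continuousOn)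
  have := eq_of_ne hc continuous_const H
  rwa [show ((0, 0, 0) : ℝ × ℝ × ℝ) = 0 from rfl, TEf_same hw (same_aug M S S')] at this

theorem same_neg (e t : ℝ) : ∀ (M : List (Lv Ω)) {N : ℕ → Ω → Ω → ℝ},
    (∀ j x y, N j x y = -N j y x) →
    List.Forall₂ Same (aug (e, -t, 0) M N N) (aug (e, t, 0) M N N)
  | [], _, _ => .nil
  | l :: M, N, hN => .cons ⟨rfl, by
      classical
      funext x y
      show ∑ i : l.ι ⊕ Ω, _ = ∑ i : l.ι ⊕ Ω, _
      simp only [Fintype.sum_sum_type, Sum.elim_inl, Sum.elim_inr, kv, zero_mul, add_zero, add_mul,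
        mul_add, Finset.sum_add_distrib, mul_ite, ite_mul, mul_one, mul_zero, Finset.sum_ite_eq,
        Finset.mem_univ, if_true, neg_mul, mul_neg, neg_neg, neg_add, Finset.sum_neg_distrib]
      rw [hN 1 y x, hN 0 y x]
      ring⟩ (same_neg e t M fun j => hN (j + 1))

/-- antisymmetric kernels do not move anything -/
theorem Dfu_anti (hw : Wt w) (M : List (Lv Ω)) (h : Ω → ℝ) {N : ℕ → Ω → Ω → ℝ} (h0 : N 0 = 0)
    (hN : ∀ j x y, N j x y = -N j y x) (s : Sh) (F : (s.Lf → Ω) → ℝ) :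
    Dfu M N (TEf w M h) s F = 0 := by
  refine lim0 hw h M N N ((FL.ev s F).dfu M N) fun e he => ?_
  have p1 : ∀ t : ℝ, ((e, 0, 0) : ℝ × ℝ × ℝ) + t • ((0, 1, 0) : ℝ × ℝ × ℝ) = (e, t, 0) :=
    fun t => by simp
  have d1 := der_aug hw h M N N (e, 0, 0) (0, 1, 0) 0 s F
  simp only [p1] at d1
  rw [Dfu_e1 M h0 h0 e (isLin_TEf hw _ h)] at d1
  have d2 := HasDerivAt.comp (h₂ := fun t : ℝ => TEf w (aug (e, t, 0) M N N) h s F) (0 : ℝ)
    (by rw [neg_zero]; exact d1) (hasDerivAt_neg (0 : ℝ))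
  have e2 : ((fun t : ℝ => TEf w (aug (e, t, 0) M N N) h s F) ∘ Neg.neg) =
      fun t : ℝ => TEf w (aug (e, t, 0) M N N) h s F :=
    funext fun t => by simp only [Function.comp, TEf_same hw (same_neg e t M hN)]
  rw [e2] at d2
  have := d1.unique d2
  exact mul_left_cancel₀ he (by linarith)

end Com6

/-- only the symmetric part of the kernels matters -/
theorem Dfu_swap (hw : Wt w) (M : List (Lv Ω)) (h : Ω → ℝ) {S : ℕ → Ω → Ω → ℝ} (h0 : S 0 = 0) :
    Dfu M (fun j x y => S j y x) (TEf w M h) = Dfu M S (TEf w M h) := by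
  funext s F
  have := Com6.Dfu_anti hw M h (N := fun j x y => 1 * S j y x + -1 * S j x y)
    (by funext x y; simp [h0]) (fun j x y => by ring) s F
  rw [(isLin_TEf hw M h).dfuS] at this
  linarith

/-- **formal differentiation of an identity** -/
theorem pd_one (hw : Wt w) (h : Ω → ℝ) (M0 : List (Lv Ω)) {Φ : Fn Ω → ℝ} (hΦ : FL Φ)
    (H : ∀ M : List (Lv Ω), M.map Lv.m = M0.map Lv.m → Φ (TEf w M h) = 0)
    {S : ℕ → Ω → Ω → ℝ} (h0 : S 0 = 0) (M : List (Lv Ω)) (hM : M.map Lv.m = M0.map Lv.m) :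
    Φ (Dfu M0 S (TEf w M h)) = 0 := by
  rw [← Dfu_tilt hM]
  refine Com6.lim0 hw h M S S (hΦ.dfu M S) fun e he => ?_
  have d1 := hΦ.der (Com6.der_aug hw h M S S (e, 0, 0) (0, 1, 0) 0)
  simp only [fun q => H _ ((m_aug q M S S).trans hM), zero_smul, add_zero] at d1
  rw [Com6.Dfu_e1 M h0 h0 e (isLin_TEf hw _ h), hΦ.lin, zero_mul, add_zero] at d1
  exact (mul_eq_zero.1 (d1.unique (hasDerivAt_const _ _))).resolve_left he

theorem pd_word (hw : Wt w) (h : Ω → ℝ) (M0 : List (Lv Ω)) : ∀ (l : List (ℕ → Ω → Ω → ℝ))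
    {Φ : Fn Ω → ℝ}, FL Φ → (∀ M : List (Lv Ω), M.map Lv.m = M0.map Lv.m → Φ (TEf w M h) = 0) →
    (∀ S ∈ l, S 0 = 0) → ∀ M : List (Lv Ω), M.map Lv.m = M0.map Lv.m →
      Φ (WdF M0 l (TEf w M h)) = 0
  | [], _, _, H, _ => H
  | S :: l, _, hΦ, H, h0 => pd_word hw h M0 l (hΦ.dfu M0 S)
      (pd_one hw h M0 hΦ H (h0 S List.mem_cons_self)) fun T hT => h0 T (List.mem_cons_of_mem _ hT)

namespace Com6

theorem der2 (hw : Wt w) (h : Ω → ℝ) (M : List (Lv Ω)) (S S' : ℕ → Ω → Ω → ℝ)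
    (p v u : ℝ × ℝ × ℝ) (t : ℝ) (s : Sh) (F : (s.Lf → Ω) → ℝ) :
    HasDerivAt (fun t : ℝ =>
        Dfu M (Sq S S' M.length u (p + t • v)) (TEf w (aug (p + t • v) M S S') h) s F)
      (Dfu M (Sq S S' M.length u (p + t • v))
        (Dfu M (Sq S S' M.length v (p + t • v)) (TEf w (aug (p + t • v) M S S') h)) s F +
        Dfu M (Sq S S' M.length u v) (TEf w (aug (p + t • v) M S S') h) s F) t := by
  have key := fun T => ((FL.ev s F).dfu M T).der (der_aug hw h M S S' p v t)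
  simp only [Sq_line S S' M.length u, (isLin_TEf hw _ h).dfuS, ((isLin_TEf hw _ h).dfu M _).dfuS]
  refine (((key _).const_mul 1).add ((hasDerivAt_id t).mul (key _))).congr_deriv ?_
  simp only [id]
  ring

theorem comm_aug (hw : Wt w) (h : Ω → ℝ) (M : List (Lv Ω)) {S S' : ℕ → Ω → Ω → ℝ} (h0 : S 0 = 0)
    (h0' : S' 0 = 0) {e : ℝ} (he : e ≠ 0) (sh : Sh) (F : (sh.Lf → Ω) → ℝ) :
    Dfu M S (Dfu M S' (TEf w (aug (e, 0, 0) M S S') h)) sh F -
      Dfu M S' (Dfu M S (TEf w (aug (e, 0, 0) M S S') h)) sh F = 0 := by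
  have p1 : ∀ s t : ℝ, ((e, 0, t) : ℝ × ℝ × ℝ) + s • ((0, 1, 0) : ℝ × ℝ × ℝ) = (e, s, t) :=
    fun s t => by simp
  have p2 : ∀ s t : ℝ, ((e, s, 0) : ℝ × ℝ × ℝ) + t • ((0, 0, 1) : ℝ × ℝ × ℝ) = (e, s, t) :=
    fun s t => by simp
  have cf : CF w h M fun p : ℝ × ℝ => aug (e, p.1, p.2) M S S' :=
    ⟨fun q => m_aug _ M S S', fun s x => ((cf_aug hw h M S S').pt s x).comp (by fun_prop)⟩
  have cs : ∀ u j x y, Continuous fun p : ℝ × ℝ => Sq S S' M.length u (e, p.1, p.2) j x y :=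
    fun u j x y => (cont_Sq S S' _ u j x y).comp (by fun_prop)
  have cc := fun u v T => (((cf.cfn hw).dfu M (cs v)).dfu M (cs u) sh (fun _ => F)
    fun _ => continuous_const).add ((cf.cfn hw).dfu M (S := fun _ => T)
      (fun _ _ _ => continuous_const) sh (fun _ => F) fun _ => continuous_const)
  have key := schwarz (f := fun s t => TEf w (aug (e, s, t) M S S') h sh F)
    (f1 := fun s t => Dfu M (Sq S S' M.length (0, 1, 0) (e, s, t))
      (TEf w (aug (e, s, t) M S S') h) sh F)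
    (f2 := fun s t => Dfu M (Sq S S' M.length (0, 0, 1) (e, s, t))
      (TEf w (aug (e, s, t) M S S') h) sh F)
    (f12 := fun s t => Dfu M (Sq S S' M.length (0, 1, 0) (e, s, t))
      (Dfu M (Sq S S' M.length (0, 0, 1) (e, s, t)) (TEf w (aug (e, s, t) M S S') h)) sh F +
      Dfu M (Sq S S' M.length (0, 1, 0) (0, 0, 1)) (TEf w (aug (e, s, t) M S S') h) sh F)
    (f21 := fun s t => Dfu M (Sq S S' M.length (0, 0, 1) (e, s, t))
      (Dfu M (Sq S S' M.length (0, 1, 0) (e, s, t)) (TEf w (aug (e, s, t) M S S') h)) sh F +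
      Dfu M (Sq S S' M.length (0, 0, 1) (0, 1, 0)) (TEf w (aug (e, s, t) M S S') h) sh F)
    (fun s t => by simpa only [p1] using der_aug hw h M S S' (e, 0, t) (0, 1, 0) s sh F)
    (fun s t => by simpa only [p2] using der_aug hw h M S S' (e, s, 0) (0, 0, 1) t sh F)
    (fun s t => by simpa only [p2] using der2 hw h M S S' (e, s, 0) (0, 0, 1) (0, 1, 0) t sh F)
    (fun s t => by simpa only [p1] using der2 hw h M S S' (e, 0, t) (0, 1, 0) (0, 0, 1) s sh F)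
    (cc _ _ _) (cc _ _ _)
  have e1 : Sq S S' M.length (0, 0, 1) (0, 1, 0) =
      fun j x y => Sq S S' M.length (0, 1, 0) (0, 0, 1) j y x := by
    funext j x y
    simp only [Sq, mul_comm]
  have e2 := Dfu_swap hw (aug (e, 0, 0) M S S') h (S := Sq S S' M.length (0, 1, 0) (0, 0, 1))
    (by funext x y; simp [Sq])
  rw [Dfu_tilt (m_aug _ M S S'), ← e1] at e2
  have hl := isLin_TEf hw (aug (e, 0, 0) M S S') h
  rw [e2, add_left_inj, Dfu_e1 M h0 h0' e (hl.dfu M _), Dfu_e2 M h0 h0' e (hl.dfu M _),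
    Dfu_e1 M h0 h0' e hl, Dfu_e2 M h0 h0' e hl] at key
  simp only [((FL.ev sh F).dfu M _).lin] at key
  simp only [zero_mul, add_zero] at key
  exact sub_eq_zero.2 (mul_left_cancel₀ he (mul_left_cancel₀ he key))

end Com6

/-- **two derivatives commute**, for every shape and every test function -/
theorem Dfu_comm (hw : Wt w) (M : List (Lv Ω)) (h : Ω → ℝ) {S S' : ℕ → Ω → Ω → ℝ} (h0 : S 0 = 0)
    (h0' : S' 0 = 0) : Dfu M S (Dfu M S' (TEf w M h)) = Dfu M S' (Dfu M S (TEf w M h)) :=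
  funext fun s => funext fun F => sub_eq_zero.1 (Com6.lim0 hw h M S S'
    ((((FL.ev s F).dfu M S).dfu M S').sub (((FL.ev s F).dfu M S').dfu M S))
    fun _ he => Com6.comm_aug hw h M h0 h0' he s F)

/-- **words of derivatives are invariant under permutations** -/
theorem WdF_perm (hw : Wt w) (M : List (Lv Ω)) (h : Ω → ℝ) {l l' : List (ℕ → Ω → Ω → ℝ)}
    (p : l.Perm l') (h0 : ∀ S ∈ l, S 0 = 0) : WdF M l (TEf w M h) = WdF M l' (TEf w M h) := by
  induction p with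
  | nil => rfl
  | cons S _ ih => rw [WdF_cons, WdF_cons, ih fun T hT => h0 T (List.mem_cons_of_mem _ hT)]
  | swap S S' l =>
    refine funext fun s => funext fun F => sub_eq_zero.1 (pd_word hw h M l
      ((((FL.ev s F).dfu M S').dfu M S).sub (((FL.ev s F).dfu M S).dfu M S')) (fun M' hM => ?_)
      (fun T hT => h0 T (by simp [hT])) M rfl)
    rw [← Dfu_tilt hM, Dfu_comm hw M' h (h0 S' (by simp)) (h0 S (by simp)), sub_self]
  | trans p _ ih ih' => exact (ih h0).trans (ih' fun T hT => h0 T (p.mem_iff.2 hT))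

/-- the diagonal terms cancel in front of any word -/
theorem Dop_WdF (hw : Wt w) (M : List (Lv Ω)) (h : Ω → ℝ) {S : ℕ → Ω → Ω → ℝ} {c : ℝ}
    (hc : ∀ y, S M.length y y = c) {l : List (ℕ → Ω → Ω → ℝ)} (h0 : ∀ S ∈ l, S 0 = 0) :
    Dop M S (WdF M l (TEf w M h)) = Dfu M S (WdF M l (TEf w M h)) := by
  refine funext fun s => funext fun F => sub_eq_zero.1 (pd_word hw h M l
    (((FL.ev s F).dop M S).sub ((FL.ev s F).dfu M S)) (fun M' hM => ?_) h0 M rfl)
  rw [← Dfu_tilt hM, ← Dop_tilt hM, ← dT_eq_Dfu,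
    ← dT_eq_Dop hw s M' h (c := c) (by rwa [len_congr hM]), sub_self]

theorem WdO_eq (hw : Wt w) (M : List (Lv Ω)) (h : Ω → ℝ) : ∀ l : List (ℕ → Ω → Ω → ℝ),
    (∀ S ∈ l, S 0 = 0 ∧ ∃ c, ∀ y, S M.length y y = c) → WdO M l (TEf w M h) = WdF M l (TEf w M h)
  | [], _ => rfl
  | S :: l, H => by
      obtain ⟨c, hc⟩ := (H S List.mem_cons_self).2
      rw [WdO_cons, WdF_cons, WdO_eq hw M h l fun T hT => H T (List.mem_cons_of_mem _ hT),
        Dop_WdF hw M h hc fun T hT => (H T (List.mem_cons_of_mem _ hT)).1]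

theorem WdO_perm (hw : Wt w) (M : List (Lv Ω)) (h : Ω → ℝ) {l l' : List (ℕ → Ω → Ω → ℝ)}
    (p : l.Perm l') (H : ∀ S ∈ l, S 0 = 0 ∧ ∃ c, ∀ y, S M.length y y = c) :
    WdO M l (TEf w M h) = WdO M l' (TEf w M h) := by
  rw [WdO_eq hw M h l H, WdO_eq hw M h l' fun T hT => H T (p.mem_iff.2 hT),
    WdF_perm hw M h p fun T hT => (H T hT).1]

theorem Dop_comm (hw : Wt w) (M : List (Lv Ω)) (h : Ω → ℝ) {S S' : ℕ → Ω → Ω → ℝ} {c c' : ℝ}
    (h0 : S 0 = 0) (h0' : S' 0 = 0) (hc : ∀ y, S M.length y y = c) (hc' : ∀ y, S' M.length y y = c') :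
    Dop M S (Dop M S' (TEf w M h)) = Dop M S' (Dop M S (TEf w M h)) :=
  WdO_perm hw M h (List.Perm.swap S' S []) fun T hT => by
    rcases List.mem_cons.1 hT with rfl | hT
    · exact ⟨h0, c, hc⟩
    · rw [List.mem_singleton.1 hT]
      exact ⟨h0', c', hc'⟩

/-- `S'` commutes with the iterates of `S` -/
theorem Dop_iter_comm (hw : Wt w) (M : List (Lv Ω)) (h : Ω → ℝ) {S S' : ℕ → Ω → Ω → ℝ} {c c' : ℝ}
    (h0 : S 0 = 0) (h0' : S' 0 = 0) (hc : ∀ y, S M.length y y = c) (hc' : ∀ y, S' M.length y y = c')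
    (k : ℕ) : Dop M S' ((Dop M S)^[k] (TEf w M h)) = (Dop M S)^[k] (Dop M S' (TEf w M h)) := by
  have := WdO_perm hw M h (List.perm_append_singleton S' (List.replicate k S)).symm fun T hT => by
    rcases List.mem_cons.1 hT with rfl | hT
    · exact ⟨h0', c', hc'⟩
    · rw [List.eq_of_mem_replicate hT]
      exact ⟨h0, c, hc⟩
  rwa [WdO_cons, WdO_append, WdO_replicate, WdO_replicate] at this

theorem pd_wordO (hw : Wt w) (h : Ω → ℝ) (M : List (Lv Ω)) {l : List (ℕ → Ω → Ω → ℝ)}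
    {Φ : Fn Ω → ℝ} (hΦ : FL Φ)
    (H : ∀ M' : List (Lv Ω), M'.map Lv.m = M.map Lv.m → Φ (TEf w M' h) = 0)
    (hl : ∀ S ∈ l, S 0 = 0 ∧ ∃ c, ∀ y, S M.length y y = c) : Φ (WdO M l (TEf w M h)) = 0 := by
  rw [WdO_eq hw M h l hl]
  exact pd_word hw h M l hΦ H (fun S hS => (hl S hS).1) M rfl

/-- derivative of a word with frozen kernels: the new letter may be put anywhere -/
theorem hasDerivAt_WdF (hw : Wt w) {I : Set ℝ} (hI : IsOpen I) {L : List (TL Ω)}
    (hL : ∀ l ∈ L, l.C1 I) {u : ℝ} (hu : u ∈ I) (h : Ω → ℝ) (t₀ : ℝ) {l l' : List (ℕ → Ω → Ω → ℝ)}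
    (h0 : ∀ S ∈ l, S 0 = 0) (p : (Sacc L u :: l).Perm l') (s : Sh) (F : (s.Lf → Ω) → ℝ) :
    HasDerivAt (fun t => WdF (atL L t₀) l (TEf w (atL L t) h) s F)
      (WdF (atL L t₀) l' (TEf w (atL L u) h) s F) u := by
  have hS : Sacc L u 0 = 0 := by funext x y; exact Sp38.Sacc_zero' L u x y
  have := ((FL.ev s F).wd (atL L t₀) l).der (hasDerivAt_TEf hw hI hL hu h)
  rw [WdF_tilt (m_atL L t₀ u)] at this ⊢
  rw [← WdF_perm hw _ h ((List.perm_append_singleton _ l).trans p) fun T hT => by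
    rcases List.mem_append.1 hT with hT | hT
    · exact h0 T hT
    · rw [List.mem_singleton.1 hT, hS], WdF_append]
  exact this

theorem hasDerivAt_WdO (hw : Wt w) {I : Set ℝ} (hI : IsOpen I) {L : List (TL Ω)}
    (hL : ∀ l ∈ L, l.C1 I) {u : ℝ} (hu : u ∈ I) (h : Ω → ℝ) (t₀ : ℝ) {l l' : List (ℕ → Ω → Ω → ℝ)}
    (h0 : ∀ S ∈ l, S 0 = 0 ∧ ∃ c, ∀ y, S L.length y y = c) {c : ℝ}
    (hc : ∀ y, Sacc L u L.length y y = c) (p : (Sacc L u :: l).Perm l') (s : Sh)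
    (F : (s.Lf → Ω) → ℝ) :
    HasDerivAt (fun t => WdO (atL L t₀) l (TEf w (atL L t) h) s F)
      (WdO (atL L t₀) l' (TEf w (atL L u) h) s F) u := by
  have hS : Sacc L u 0 = 0 := by funext x y; exact Sp38.Sacc_zero' L u x y
  have e1 : ∀ t, WdO (atL L t₀) l (TEf w (atL L t) h) = WdF (atL L t₀) l (TEf w (atL L t) h) :=
    fun t => by
      rw [WdO_tilt (m_atL L t₀ t), WdF_tilt (m_atL L t₀ t)]
      exact WdO_eq hw _ h l (by simpa only [Sp38.len_at] using h0)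
  have e2 : WdO (atL L t₀) l' (TEf w (atL L u) h) = WdF (atL L t₀) l' (TEf w (atL L u) h) := by
    rw [WdO_tilt (m_atL L t₀ u), WdF_tilt (m_atL L t₀ u)]
    refine WdO_eq hw _ h l' fun T hT => ?_
    rw [Sp38.len_at]
    rcases List.mem_cons.1 (p.mem_iff.2 hT) with rfl | hT
    · exact ⟨hS, c, hc⟩
    · exact h0 T hT
  simp only [e1, e2]
  exact hasDerivAt_WdF hw hI hL hu h t₀ (fun T hT => (h0 T hT).1) p s F

end Crest.Agent.T156.Cas

end
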