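import Crest.Agent.T156.Gr_90
import Crest.Agent.T156.Ker_15
import Crest.Agent.T156.Clu_22
import Crest.Agent.T156.Leg_51

/-!
# Row 156: leaf overlaps against cluster overlaps (helper90)

Along low edges the leaves are replaced by fresh leaves at the roots of the clusters; the first
order vanishes by exchangeability.
-/

set_option autoImplicit false
set_option linter.unusedSectionVars false

noncomputable section

namespace Crest.Agent.T156.Cas.R90

open MeasureTheory Real Set Filter Topology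
open Crest.Agent.T157.E Crest.Agent.T157.Casc Crest.Agent.T157.SL
open Wt87 Nu87 W90 G90 Mul55 Ker15 Law

variable {Ω : Type} [Fintype Ω] {w : Ω → ℝ} {κ κ' ι : Type} [Fintype κ] [Fintype κ'] [Fintype ι]

open Classical in
/-- the law of the leaves given the split matrix, any finite labels -/
def TK (w : Ω → ℝ) (L : List (Lv Ω)) (h : Ω → ℝ) (σ : κ → κ → ℕ) (F : (κ → Ω) → ℝ) : ℝ :=
  ∑ y : κ → Ω, F y * Iso87.Q w (fun a z => if z = y a then 1 else 0) L σ Finset.univ h

variable {L : List (Lv Ω)} {h : Ω → ℝ} {σ : κ → κ → ℕ}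

theorem TK_sm (hw : Wt w) (s : Sh) {e : κ → s.Lf} (he : Function.Injective e) (F : (κ → Ω) → ℝ) :
    TK w L h (sm s e L.length) F = TE w s L h fun x => F fun a => x (e a) := by
  classical
  exact (TE_eq_Q hw s L h he F).symm

theorem TM_eq (hw : Wt w) {r : ℕ} {σ : SM r} (hσ : Rz L.length σ) (F : (Fin r → Ω) → ℝ) :
    TM w L h σ F = TK w L h σ F := by
  obtain ⟨s, e, rfl⟩ := hσ
  rw [TM_sm hw s L h e.injective, TK_sm hw s e.injective]

theorem um_rz {K r : ℕ} {σ : SM r} (hσ : Rz K σ) : Um K σ := ⟨hσ.self, hσ.comm, hσ.ultra⟩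

theorem TK_lin (a b : ℝ) (F G : (κ → Ω) → ℝ) :
    TK w L h σ (fun x => a * F x + b * G x) = a * TK w L h σ F + b * TK w L h σ G := by
  simp only [TK, add_mul, Finset.sum_add_distrib, mul_assoc, Finset.mul_sum]

theorem TK_add (F G : (κ → Ω) → ℝ) :
    TK w L h σ (fun x => F x + G x) = TK w L h σ F + TK w L h σ G := by
  simp only [TK, add_mul, Finset.sum_add_distrib]

theorem TK_sub (F G : (κ → Ω) → ℝ) :
    TK w L h σ (fun x => F x - G x) = TK w L h σ F - TK w L h σ G := by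
  simp only [TK, sub_mul, Finset.sum_sub_distrib]

theorem TK_mul (c : ℝ) (F : (κ → Ω) → ℝ) : TK w L h σ (fun x => c * F x) = c * TK w L h σ F := by
  simp only [TK, mul_assoc, Finset.mul_sum]

theorem TK_sum {α : Type*} (A : Finset α) (F : α → (κ → Ω) → ℝ) :
    TK w L h σ (fun x => ∑ i ∈ A, F i x) = ∑ i ∈ A, TK w L h σ (F i) := by
  simp only [TK, Finset.sum_mul]
  exact Finset.sum_comm

theorem TK_mono (hw : Wt w) (H : Um L.length σ) {F G : (κ → Ω) → ℝ} (e : ∀ x, F x ≤ G x) :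
    TK w L h σ F ≤ TK w L h σ G := by
  obtain ⟨s, e', -, he, rfl⟩ := H.lab
  rw [TK_sm hw s he, TK_sm hw s he]
  exact TE_mono hw s L h fun _ => e _

theorem TK_const (hw : Wt w) (H : Um L.length σ) (c : ℝ) : TK w L h σ (fun _ => c) = c := by
  obtain ⟨s, e', -, he, rfl⟩ := H.lab
  rw [TK_sm hw s he, TE_const hw]

theorem abs_TK_le (hw : Wt w) (H : Um L.length σ) {F G : (κ → Ω) → ℝ} (e : ∀ x, |F x| ≤ G x) :
    |TK w L h σ F| ≤ TK w L h σ G := by
  obtain ⟨s, e', -, he, rfl⟩ := H.lab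
  rw [TK_sm hw s he, TK_sm hw s he]
  exact abs_TE_le' hw s L h fun _ => e _

theorem TK_pair (hw : Wt w) (H : Um L.length σ) {a b : κ} (hab : a ≠ b) (Q : Ω → Ω → ℝ) :
    TK w L h σ (fun x => Q (x a) (x b)) = pi2 w L (σ a b) Q h := by
  obtain ⟨s, e', -, he, rfl⟩ := H.lab
  rw [TK_sm hw s he]
  exact TE_pair hw s L h (fun e => hab (he e)) Q

/-- only the matrix of the labels that are read counts -/
theorem TK_map (hw : Wt w) {σ' : κ' → κ' → ℕ} (H : Um L.length σ) (H' : Um L.length σ')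
    {φ : ι → κ} {φ' : ι → κ'} (hk : ∀ a b, φ a = φ b ↔ φ' a = φ' b)
    (hs : ∀ a b, φ a ≠ φ b → σ (φ a) (φ b) = σ' (φ' a) (φ' b)) (F : (ι → Ω) → ℝ) :
    TK w L h σ (fun y => F fun a => y (φ a)) = TK w L h σ' fun y => F fun a => y (φ' a) := by
  obtain ⟨s, e, -, he, rfl⟩ := H.lab
  obtain ⟨s', e', -, he', rfl⟩ := H'.lab
  rw [TK_sm hw s he, TK_sm hw s' he']
  have c : ∀ u : Set.range φ, φ u.2.choose = u := fun u => u.2.choose_spec
  have := TE_lab hw s s' L h (e := fun u : Set.range φ => e u)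
    (e' := fun u : Set.range φ => e' (φ' u.2.choose)) (he.comp Subtype.val_injective)
    (fun u v huv => Subtype.ext (by rw [← c u, ← c v]; exact (hk _ _).2 (he' huv)))
    (fun u v huv => by
      have := hs u.2.choose v.2.choose (by rw [c, c]; exact fun e => huv (Subtype.ext e))
      rwa [c, c] at this)
    fun y => F fun a => y ⟨φ a, a, rfl⟩
  exact this.trans (congrArg _ (funext fun x => congrArg F (funext fun a =>
    congrArg (fun u => x (e' u)) ((hk _ a).1 (c ⟨φ a, a, rfl⟩)))))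

open Classical in
/-- copies of the labels, split from their originals at the depths `c` -/
def lf (K : ℕ) (σ : κ → κ → ℕ) (β : κ' → κ) (c : κ' → ℕ) : κ' → κ' → ℕ :=
  fun u v => if u = v then K else min (σ (β u) (β v)) (min (c u) (c v))

theorem lf_ne {K : ℕ} (β : κ' → κ) (c : κ' → ℕ) {u v : κ'} (e : u ≠ v) :
    lf K σ β c u v = min (σ (β u) (β v)) (min (c u) (c v)) := if_neg e

theorem um_lf {K : ℕ} (H : Um K σ) (β : κ' → κ) (c : κ' → ℕ) : Um K (lf K σ β c) := by
  refine ⟨fun a => if_pos rfl, fun a b => ?_, fun a b d => ?_⟩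
  · by_cases e : a = b
    · rw [e]
    · rw [lf_ne β c e, lf_ne β c (Ne.symm e), H.comm (β a), min_comm (c a)]
  · have := H.ultra (β a) (β b) (β d)
    have := H.le (β a) (β b)
    have := H.le (β b) (β d)
    by_cases h1 : a = b
    · subst h1
      exact min_le_right _ _
    by_cases h2 : b = d
    · subst h2
      exact min_le_left _ _
    rw [lf_ne β c h1, lf_ne β c h2]
    unfold lf
    split_ifs <;> omega

/-- the ends of the edges -/
def en (p q : ι → κ) (u : ι × Bool) : κ := cond u.2 (p u.1) (q u.1)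

/-- the product along the edges, read on fresh leaves at the roots of the clusters above `i` -/
def BC (w : Ω → ℝ) (L : List (Lv Ω)) (h : Ω → ℝ) (i : ℕ) (σ : κ → κ → ℕ) (p q : ι → κ)
    (U : ι → Ω → Ω → ℝ) : ℝ :=
  TK w L h (lf L.length σ (en p q) fun _ => i + 1) fun y => ∏ t, U t (y (t, true)) (y (t, false))

/-- two clusters split at `j`, two leaves in each: (side, copy) -/
def q4 (K i j : ℕ) : Bool × Bool → Bool × Bool → ℕ :=
  lf K (fun a b : Bool => if a = b then K else j) Prod.fst fun _ => i + 1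

theorem um_q4 {K j : ℕ} (i : ℕ) (hj : j ≤ K) : Um K (q4 K i j) :=
  um_lf (σ := fun a b : Bool => if a = b then K else j) ⟨fun _ => if_pos rfl,
    fun a b => by cases a <;> cases b <;> rfl, fun a b c => by
      cases a <;> cases b <;> cases c <;> simp [hj]⟩ _ _

/-- `E (U - U')²` for two pairs of leaves in the same two clusters: twice the variance of the
kernel given the clusters -/
def VV (w : Ω → ℝ) (L : List (Lv Ω)) (h : Ω → ℝ) (i j : ℕ) (U : Ω → Ω → ℝ) : ℝ :=
  TK w L h (q4 L.length i j) fun y =>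
    (U (y (true, true)) (y (false, true)) - U (y (true, false)) (y (false, false))) ^ 2

theorem VV_nonneg (hw : Wt w) (i : ℕ) {j : ℕ} (hj : j ≤ L.length) (U : Ω → Ω → ℝ) :
    0 ≤ VV w L h i j U :=
  (TK_const hw (um_q4 i hj) 0).ge.trans (TK_mono hw (um_q4 i hj) fun _ => sq_nonneg _)

theorem taylor2 [DecidableEq ι] {x y : ι → ℝ} {a : ℝ} (ha : 0 ≤ a) (hx : ∀ t, |x t| ≤ a)
    (hy : ∀ t, |y t| ≤ a) (T : Finset ι) :
    a ^ 2 * |∏ t ∈ T, x t - ∏ t ∈ T, y t - ∑ t ∈ T, (x t - y t) * ∏ u ∈ T.erase t, y u| ≤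
      T.card ^ 2 * a ^ T.card * ∑ t ∈ T, (x t - y t) ^ 2 := by
  induction T using Finset.induction_on with
  | empty => simp
  | insert s T hs ih =>
    have e : ∑ t ∈ T, (x t - y t) * ∏ u ∈ (insert s T).erase t, y u =
        y s * ∑ t ∈ T, (x t - y t) * ∏ u ∈ T.erase t, y u := by
      rw [Finset.mul_sum]
      refine Finset.sum_congr rfl fun t ht => ?_
      rw [Finset.erase_insert_of_ne (show s ≠ t from fun e => hs (e ▸ ht)),
        Finset.prod_insert fun h => hs (Finset.mem_of_mem_erase h)]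
      ring
    set D := ∑ t ∈ T, (x t - y t) * ∏ u ∈ T.erase t, y u with hD
    set Q := ∑ t ∈ T, (x t - y t) ^ 2 with hQ
    have hQ0 : 0 ≤ Q := Finset.sum_nonneg fun _ _ => sq_nonneg _
    have h1 : a * |(x s - y s) * D| ≤ a ^ T.card * (T.card * ((x s - y s) ^ 2 + Q)) := by
      rw [hD, Finset.mul_sum]
      refine (mul_le_mul_of_nonneg_left (Finset.abs_sum_le_sum_abs _ _) ha).trans ?_
      rw [Finset.mul_sum, mul_left_comm, ← nsmul_eq_mul]
      refine Finset.sum_le_card_nsmul _ _ _ fun t ht => ?_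
      have h2 : a * |∏ u ∈ T.erase t, y u| ≤ a ^ T.card := by
        rw [Finset.abs_prod, ← Finset.card_erase_add_one ht, pow_succ', ← Finset.prod_const]
        exact mul_le_mul_of_nonneg_left
          (Finset.prod_le_prod (fun _ _ => abs_nonneg _) fun u _ => hy u) ha
      have h3 : (x t - y t) ^ 2 ≤ Q :=
        Finset.single_le_sum (f := fun t => (x t - y t) ^ 2) (fun _ _ => sq_nonneg _) ht
      have h4 : |x s - y s| * |x t - y t| ≤ (x s - y s) ^ 2 + Q := by
        nlinarith [sq_abs (x s - y s), sq_abs (x t - y t), sq_nonneg (|x s - y s| - |x t - y t|),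
          mul_nonneg (abs_nonneg (x s - y s)) (abs_nonneg (x t - y t))]
      calc _ = a * |∏ u ∈ T.erase t, y u| * (|x s - y s| * |x t - y t|) := by
            rw [abs_mul, abs_mul]; ring
        _ ≤ _ := mul_le_mul h2 h4 (by positivity) (by positivity)
    rw [Finset.prod_insert hs, Finset.prod_insert hs, Finset.sum_insert hs, Finset.sum_insert hs,
      Finset.erase_insert hs, e, Finset.card_insert_of_notMem hs,
      show x s * ∏ t ∈ T, x t - y s * ∏ t ∈ T, y t - ((x s - y s) * ∏ t ∈ T, y t + y s * D) =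
        x s * (∏ t ∈ T, x t - ∏ t ∈ T, y t - D) + (x s - y s) * D by ring]
    have h5 := abs_add_le (x s * (∏ t ∈ T, x t - ∏ t ∈ T, y t - D)) ((x s - y s) * D)
    rw [abs_mul (x s)] at h5
    have h6 := mul_le_mul_of_nonneg_right (hx s) (abs_nonneg (∏ t ∈ T, x t - ∏ t ∈ T, y t - D))
    have h7 := mul_le_mul_of_nonneg_left (h5.trans (add_le_add h6 le_rfl)) (sq_nonneg a)
    have h8 := mul_le_mul_of_nonneg_left ih ha
    have h9 := mul_le_mul_of_nonneg_left h1 ha
    have hp : 0 ≤ a ^ (T.card + 1) := by positivity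
    have hc : (0 : ℝ) ≤ T.card := by positivity
    have h10 : 0 ≤ a ^ (T.card + 1) * (T.card ^ 2 * (x s - y s) ^ 2 +
      (T.card + 1) * ((x s - y s) ^ 2 + Q)) := by positivity
    push_cast
    rw [pow_succ' a T.card] at h10 ⊢
    nlinarith

theorem taylor2' [DecidableEq ι] {x y : ι → ℝ} {b : ℝ} (hb : 1 ≤ b) (hx : ∀ t, |x t| ≤ b)
    (hy : ∀ t, |y t| ≤ b) :
    |∏ t, x t - ∏ t, y t - ∑ t, (x t - y t) * ∏ u ∈ Finset.univ.erase t, y u| ≤
      ∑ t, ((Fintype.card ι : ℝ) ^ 2 * (x t - y t) ^ 2 + 4 * Fintype.card ι ^ 3 * b ^ Fintype.card ι *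
        ((if 1 < |x t| then 1 else 0) + if 1 < |y t| then 1 else 0)) := by
  have n : ∀ t, (0 : ℝ) ≤ (if 1 < |x t| then 1 else 0) + if 1 < |y t| then 1 else 0 := fun t => by
    split_ifs <;> norm_num
  have hC : (0 : ℝ) ≤ 4 * Fintype.card ι ^ 3 * b ^ Fintype.card ι := by positivity
  rw [Finset.sum_add_distrib, ← Finset.mul_sum, ← Finset.mul_sum]
  by_cases H : ∀ t, |x t| ≤ 1 ∧ |y t| ≤ 1
  · have := taylor2 zero_le_one (fun t => (H t).1) (fun t => (H t).2) Finset.univ
    rw [one_pow, one_pow, one_mul, mul_one, Finset.card_univ] at this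
    exact this.trans (le_add_of_nonneg_right (mul_nonneg hC (Finset.sum_nonneg fun t _ => n t)))
  · obtain ⟨t, ht⟩ := not_forall.1 H
    have h1 : (1 : ℝ) ≤ ∑ t, ((if 1 < |x t| then 1 else 0) + if 1 < |y t| then 1 else 0) := by
      refine le_trans ?_ (Finset.single_le_sum (fun t _ => n t) (Finset.mem_univ t))
      split_ifs with h2 h3 h3 <;> try norm_num
      exact ht ⟨not_lt.1 h2, not_lt.1 h3⟩
    have h2 := taylor2 (zero_le_one.trans hb) hx hy Finset.univ
    have h3 : ∑ t, (x t - y t) ^ 2 ≤ Fintype.card ι * (4 * b ^ 2) := by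
      refine (Finset.sum_le_card_nsmul _ _ _ fun t _ => ?_).trans_eq (by rw [nsmul_eq_mul]; rfl)
      have := (abs_sub (x t) (y t)).trans (add_le_add (hx t) (hy t))
      nlinarith [sq_abs (x t - y t), abs_nonneg (x t - y t)]
    rw [Finset.card_univ] at h2
    have h4 := h2.trans (mul_le_mul_of_nonneg_left h3 (by positivity))
    have h5 := le_of_mul_le_mul_left (h4.trans_eq
      (by ring : _ = b ^ 2 * (4 * Fintype.card ι ^ 3 * b ^ Fintype.card ι))) (by positivity)
    refine h5.trans (le_add_of_nonneg_of_le (by positivity) (le_mul_of_one_le_right hC h1))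

/-- the error of one edge at level `j`: variance part and tail above the envelope `a` -/
def Er (w : Ω → ℝ) (L : List (Lv Ω)) (h : Ω → ℝ) (i d : ℕ) (b a : ℝ) (j : ℕ) (U : Ω → Ω → ℝ) : ℝ :=
  d ^ 2 * (VV w L h i j U / a ^ 2) +
    8 * d ^ 3 * b ^ d * pi2 w L j (fun x y => if a < |U x y| then 1 else 0) h

theorem pi2_nn (hw : Wt w) {j : ℕ} (hj : j ≤ L.length) {Q : Ω → Ω → ℝ} (hQ : ∀ x y, 0 ≤ Q x y) :
    0 ≤ pi2 w L j Q h := by
  have := TM_pair (h := h) hw (rz_tw L.length j) (a := 0) (b := 1) (by decide) Q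
  rw [tw_01 hj] at this
  rw [← this]
  exact (TM_const hw (rz_tw _ j) 0).ge.trans (TM_mono hw (rz_tw _ j) fun _ => hQ _ _)

theorem Er_nonneg (hw : Wt w) (i d : ℕ) {b : ℝ} (hb : 0 ≤ b) (a : ℝ) {j : ℕ} (hj : j ≤ L.length)
    (U : Ω → Ω → ℝ) : 0 ≤ Er w L h i d b a j U :=
  add_nonneg (mul_nonneg (by positivity) (div_nonneg (VV_nonneg hw i hj U) (sq_nonneg a)))
    (mul_nonneg (by positivity) (pi2_nn hw hj fun x y => by split_ifs <;> norm_num))

/-- **replacement of the leaves**, one tree -/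
theorem repl_TK (hw : Wt w) (H : Um L.length σ) {i : ℕ} (hi : i < L.length) {p q : ι → κ}
    (hl : ∀ t, σ (p t) (q t) ≤ i) {U : ι → Ω → Ω → ℝ} {a : ι → ℝ} {b : ℝ} (ha : ∀ t, 0 < a t)
    (hb : 1 ≤ b) (hU : ∀ t x y, |U t x y| ≤ b * a t) :
    |TK w L h σ (fun x => ∏ t, U t (x (p t)) (x (q t))) - BC w L h i σ p q U| ≤
      (∏ t, a t) * ∑ t, Er w L h i (Fintype.card ι) b (a t) (σ (p t) (q t)) (U t) := by
  classical
  have hpq : ∀ t, p t ≠ q t := fun t e => by
    have := hl t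
    rw [e, H.self] at this
    omega
  set τ := lf L.length σ (Sum.elim id (en p q)) (Sum.elim (fun _ => L.length) fun _ => i + 1)
    with hτ
  have Hτ : Um L.length τ := um_lf H _ _
  have t1 : ∀ a b, a ≠ b → τ (.inl a) (.inl b) = σ a b := fun a b e => by
    rw [hτ, lf_ne _ _ fun h => e (Sum.inl_injective h)]
    simp [H.le]
  have t2 : ∀ u v, u ≠ v → τ (.inr u) (.inr v) = min (σ (en p q u) (en p q v)) (i + 1) :=
    fun u v e => by
      rw [hτ, lf_ne _ _ fun h => e (Sum.inr_injective h)]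
      simp
  have t3 : ∀ a v, τ (.inl a) (.inr v) = min (σ a (en p q v)) (i + 1) := fun a v => by
    rw [hτ, lf_ne _ _ Sum.inl_ne_inr]
    simp only [Sum.elim_inl, Sum.elim_inr, id]
    omega
  have t4 : ∀ t, τ (.inr (t, true)) (.inr (t, false)) = σ (p t) (q t) := fun t =>
    (t2 _ _ (by simp)).trans (min_eq_left ((hl t).trans i.le_succ))
  have e1 := TK_map (h := h) hw H Hτ (φ := id) (φ' := Sum.inl) (by simp)
    (fun a b e => (t1 a b e).symm) fun x => ∏ t, U t (x (p t)) (x (q t))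
  have e2 := TK_map (h := h) hw (um_lf H (en p q) fun _ => i + 1) Hτ (φ := id) (φ' := Sum.inr)
    (by simp) (fun u v (e : u ≠ v) => by rw [t2 u v e, id, id, lf_ne _ _ e, min_self])
    fun y => ∏ t, U t (y (t, true)) (y (t, false))
  set X : (κ ⊕ ι × Bool → Ω) → ι → ℝ := fun z t => U t (z (.inl (p t))) (z (.inl (q t))) / a t
  set Y : (κ ⊕ ι × Bool → Ω) → ι → ℝ := fun z t =>
    U t (z (.inr (t, true))) (z (.inr (t, false))) / a t
  have hA : 0 < ∏ t, a t := Finset.prod_pos fun t _ => ha t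
  have e3 : ∀ t, TK w L h τ (fun z => (X z t - Y z t) * ∏ u ∈ Finset.univ.erase t, Y z u) = 0 :=
    fun t => by
      have inj : Function.Injective fun u : ι × Bool =>
          if u.1 = t then (Sum.inl (en p q u) : κ ⊕ ι × Bool) else .inr u := by
        rintro ⟨u, c⟩ ⟨v, d⟩ e
        by_cases h1 : u = t <;> by_cases h2 : v = t <;> simp only [h1, h2, if_true, if_false] at e
        · subst h1 h2
          replace e := Sum.inl_injective e
          cases c <;> cases d
          exacts [rfl, absurd e.symm (hpq _), absurd e (hpq _), rfl]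
        · exact absurd e Sum.inl_ne_inr
        · exact absurd e Sum.inr_ne_inl
        · exact Sum.inr_injective e
      have := TK_map (h := h) hw Hτ Hτ (φ' := Sum.inr)
        (fun u v => inj.eq_iff.trans Sum.inr_injective.eq_iff.symm) (fun u v e => by
          have e' : u ≠ v := fun h => e (by rw [h])
          rw [t2 u v e']
          split_ifs with h1 h2 h2
          · obtain ⟨u, c⟩ := u
            obtain ⟨v, d⟩ := v
            obtain rfl : u = t := h1
            obtain rfl : v = u := h2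
            have h3 := hl v
            have h4 := H.comm (q v) (p v)
            have h5 := hpq v
            cases c <;> cases d
            · exact absurd rfl e'
            · exact (t1 _ _ h5.symm).trans (min_eq_left (by show σ (q v) (p v) ≤ _; omega)).symm
            · exact (t1 _ _ h5).trans (min_eq_left (by show σ (p v) (q v) ≤ _; omega)).symm
            · exact absurd rfl e'
          · exact t3 _ _
          · rw [Hτ.comm, t3, H.comm]
          · exact t2 u v e')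
        fun y => U t (y (t, true)) (y (t, false)) / a t *
          ∏ u ∈ Finset.univ.erase t, U u (y (u, true)) (y (u, false)) / a u
      simp only [sub_mul, TK_sub]
      rw [sub_eq_zero]
      refine Eq.trans ?_ this
      congr 1
      funext z
      simp only [if_true]
      exact congrArg₂ (· * ·) rfl (Finset.prod_congr rfl fun u hu => by
        simp only [if_neg (Finset.ne_of_mem_erase hu)]
        rfl)
  have e4 : TK w L h σ (fun x => ∏ t, U t (x (p t)) (x (q t))) - BC w L h i σ p q U =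
      (∏ t, a t) * TK w L h τ fun z => ∏ t, X z t - ∏ t, Y z t -
        ∑ t, (X z t - Y z t) * ∏ u ∈ Finset.univ.erase t, Y z u := by
    rw [TK_sub, TK_sum, Finset.sum_eq_zero fun t _ => e3 t, sub_zero, TK_sub, mul_sub, ← TK_mul,
      ← TK_mul]
    simp only [X, Y, Finset.prod_div_distrib, mul_div_cancel₀ _ hA.ne']
    exact congrArg₂ (· - ·) e1 e2
  have bd : ∀ t x y, |U t x y / a t| ≤ b := fun t x y => by
    rw [abs_div, abs_of_pos (ha t), div_le_iff₀ (ha t)]
    exact hU t x y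
  have ti : ∀ t x y, (1 < |U t x y / a t|) = (a t < |U t x y|) := fun t x y => by
    rw [abs_div, abs_of_pos (ha t), one_lt_div (ha t)]
  rw [e4, abs_mul, abs_of_pos hA]
  refine mul_le_mul_of_nonneg_left ((abs_TK_le hw Hτ fun z =>
    taylor2' hb (fun t => bd t _ _) fun t => bd t _ _).trans (le_of_eq ?_)) hA.le
  rw [TK_sum]
  refine Finset.sum_congr rfl fun t _ => ?_
  have p1 := TK_pair (h := h) hw Hτ (a := .inl (p t)) (b := .inl (q t))
    (fun e => hpq t (Sum.inl_injective e)) fun x y => if a t < |U t x y| then (1 : ℝ) else 0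
  have p2 := TK_pair (h := h) hw Hτ (a := .inr (t, true)) (b := .inr (t, false)) (by simp)
    fun x y => if a t < |U t x y| then (1 : ℝ) else 0
  rw [t1 _ _ (hpq t)] at p1
  rw [t4] at p2
  have h3 := hl t
  have h4 := H.comm (q t) (p t)
  have h5 := H.self (p t)
  have h6 := H.self (q t)
  have p3 := TK_map (h := h) hw (um_q4 i (H.le (p t) (q t))) Hτ (φ := id)
    (φ' := fun u : Bool × Bool => cond u.2 (.inl (en p q (t, u.1))) (.inr (t, u.1)))
    (fun ⟨c, d⟩ ⟨c', d'⟩ => by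
      have := hpq t
      cases c <;> cases d <;> cases c' <;> cases d' <;> simp [en, this, this.symm])
    (fun ⟨c, d⟩ ⟨c', d'⟩ e => by
      rw [id, id, q4, lf_ne _ _ (show (c, d) ≠ (c', d') from e)]
      cases c <;> cases d <;> cases c' <;> cases d' <;> first
        | exact absurd rfl e
        | (simp only [cond, en]
           first
            | rw [t3] | rw [Hτ.comm, t3] | rw [t2 _ _ (by simp)] | rw [t1 _ _ (hpq t)]
            | rw [t1 _ _ (hpq t).symm]
           simp only [en, cond, reduceCtorEq, if_true, if_false]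
           omega))
    fun y => (U t (y (true, true)) (y (false, true)) - U t (y (true, false)) (y (false, false))) ^ 2
  rw [TK_add, TK_mul, TK_mul, TK_add, Er]
  simp only [ti, ← sub_div, div_pow, div_eq_inv_mul (_ ^ 2) (a t ^ 2), TK_mul]
  rw [p1, p2, VV, div_eq_inv_mul]
  refine congrArg₂ (· + ·) (congrArg _ (congrArg _ p3.symm)) (by ring)

/-! ### independent copies attached to the clusters -/

/-- every cluster above the cut `i` carries a vector of independent leaves -/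
def Lc (w : Ω → ℝ) (L : List (Lv Ω)) (h : Ω → ℝ) (i : ℕ) (ι : Type) [Fintype ι] : Fn (ι → Ω) :=
  fun s G => TK w L h (lf L.length (sm s (s.rep (i + 1)) L.length) Prod.fst
    fun _ : (s.cut (i + 1)).Lf × ι => i + 1) fun y => G fun a t => y (s.cl (i + 1) a, t)

theorem Lc_lin (i : ℕ) (s : Sh) (a b : ℝ) (F G : (s.Lf → ι → Ω) → ℝ) :
    Lc w L h i ι s (fun x => a * F x + b * G x) = a * Lc w L h i ι s F + b * Lc w L h i ι s G :=
  TK_lin _ _ _ _

theorem Lc_mul (i : ℕ) (s : Sh) (a : ℝ) (F : (s.Lf → ι → Ω) → ℝ) :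
    Lc w L h i ι s (fun x => a * F x) = a * Lc w L h i ι s F := TK_mul _ _

theorem Lc_sum (i : ℕ) (s : Sh) {α : Type*} (A : Finset α) (F : α → (s.Lf → ι → Ω) → ℝ) :
    Lc w L h i ι s (fun x => ∑ a ∈ A, F a x) = ∑ a ∈ A, Lc w L h i ι s (F a) := TK_sum _ _

theorem abs_Lc_le (hw : Wt w) (i : ℕ) (s : Sh) {F G : (s.Lf → ι → Ω) → ℝ} (e : ∀ x, |F x| ≤ G x) :
    |Lc w L h i ι s F| ≤ Lc w L h i ι s G := abs_TK_le hw (um_lf (um_sm _ _ _) _ _) fun _ => e _

theorem Lc_const (hw : Wt w) (i : ℕ) (s : Sh) (c : ℝ) : Lc w L h i ι s (fun _ => c) = c :=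
  TK_const hw (um_lf (um_sm _ _ _) _ _) c

theorem shr_cut {K i : ℕ} (hi : i < K) (s : Sh) (a b : s.Lf) :
    s.shr a b (i + 1) = min (s.shr a b K) (i + 1) := by
  have := shr_min s a b (i + 1) K
  rwa [min_eq_left (Nat.succ_le_of_lt hi), min_comm] at this

theorem lf_cl {K i : ℕ} (hi : i < K) (s : Sh) {a b : s.Lf} {t u : ι}
    (e : (s.cl (i + 1) a, t) ≠ (s.cl (i + 1) b, u)) :
    lf K (sm s (s.rep (i + 1)) K) Prod.fst (fun _ : (s.cut (i + 1)).Lf × ι => i + 1)
      (s.cl (i + 1) a, t) (s.cl (i + 1) b, u) = s.shr a b (i + 1) := by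
  rw [lf_ne _ _ e, min_self, sm, ← shr_cut hi, ← Clu22.shr_cl s (i + 1) _ _ _ le_rfl, Clu22.cl_rep,
    Clu22.cl_rep, Clu22.shr_cl s (i + 1) _ _ _ le_rfl]

theorem Lc_eq (hw : Wt w) {i : ℕ} (hi : i < L.length) (s : Sh) (φ : κ → s.Lf) (τ : κ → ι)
    {σ' : κ' → κ' → ℕ} (H' : Um L.length σ') (φ' : κ → κ')
    (hk : ∀ a b, (s.shr (φ a) (φ b) (i + 1) = i + 1 ∧ τ a = τ b) ↔ φ' a = φ' b)
    (hs : ∀ a b, φ' a ≠ φ' b → s.shr (φ a) (φ b) (i + 1) = σ' (φ' a) (φ' b)) (F : (κ → Ω) → ℝ) :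
    Lc w L h i ι s (fun y => F fun a => y (φ a) (τ a)) = TK w L h σ' fun y => F fun a => y (φ' a) :=
  have hk' : ∀ a b, (s.cl (i + 1) (φ a), τ a) = (s.cl (i + 1) (φ b), τ b) ↔ φ' a = φ' b :=
    fun a b => by rw [Prod.mk.injEq, Clu22.cl_eq_iff, hk]
  TK_map hw (um_lf (um_sm _ _ _) _ _) H' (φ := fun a => (s.cl (i + 1) (φ a), τ a)) hk'
    (fun a b e => (lf_cl hi s e).trans (hs a b fun e' => e ((hk' a b).2 e'))) F

/-- **only the clusters and the skeleton count** -/
theorem Lc_map (hw : Wt w) {i : ℕ} (hi : i < L.length) {s s' : Sh} (φ : κ → s.Lf) (φ' : κ → s'.Lf)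
    (H : ∀ a b, s.shr (φ a) (φ b) (i + 1) = s'.shr (φ' a) (φ' b) (i + 1))
    (F : (κ → ι → Ω) → ℝ) :
    Lc w L h i ι s (fun y => F fun a => y (φ a)) = Lc w L h i ι s' fun y => F fun a => y (φ' a) :=
  Lc_eq hw hi s (fun u : κ × ι => φ u.1) Prod.snd (um_lf (um_sm _ _ _) _ _)
    (fun u => (s'.cl (i + 1) (φ' u.1), u.2))
    (fun a b => by rw [Prod.mk.injEq, Clu22.cl_eq_iff, H])
    (fun a b e => (H _ _).trans (lf_cl hi s' e).symm) fun y => F fun a t => y (a, t)

theorem Lc_edges (hw : Wt w) {i : ℕ} (hi : i < L.length) (s : Sh) (e : κ → s.Lf) {p q : ι → κ}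
    (hl : ∀ t, s.shr (e (p t)) (e (q t)) L.length ≤ i) (U : ι → Ω → Ω → ℝ) :
    Lc w L h i ι s (fun y => ∏ t, U t (y (e (p t)) t) (y (e (q t)) t)) =
      BC w L h i (sm s e L.length) p q U :=
  Lc_eq hw hi s (fun u : ι × Bool => e (en p q u)) Prod.fst (um_lf (um_sm s e _) _ _) id
    (fun ⟨t, c⟩ ⟨u, d⟩ => ⟨fun ⟨h1, h2⟩ => by
      obtain rfl : t = u := h2
      have h3 := hl t
      have h4 := shr_comm s (e (q t)) (e (p t)) L.length
      rw [shr_cut hi] at h1
      cases c <;> cases d <;> first | rfl | (simp only [en, cond] at h1; omega),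
      fun h' => by
        obtain ⟨rfl, rfl⟩ := Prod.mk.inj h'
        exact ⟨shr_self _ _ _, rfl⟩⟩)
    (fun a b (e' : a ≠ b) => by rw [id, id, lf_ne _ _ e', min_self, shr_cut hi]; rfl)
    fun y => ∏ t, U t (y (t, true)) (y (t, false))

/-- the kernel `U` read on the copy `t` -/
def cp (t : ι) (U : ℕ → Ω → Ω → ℝ) : ℕ → (ι → Ω) → (ι → Ω) → ℝ := fun j y y' => U j (y t) (y' t)

/-! ### words -/

section words
variable {S Θ : Type} {r k : ℕ}

theorem eF_ofFn {A : Type} (σ : SM r) (x : Fin r → A) : ∀ {n : ℕ} (U : Fin n → ℕ → A → A → ℝ)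
    (e : Fin n → Fin r × Fin r), eF (List.ofFn U) σ (List.ofFn e) x =
      ∏ t, U t (σ (e t).1 (e t).2) (x (e t).1) (x (e t).2)
  | 0, _, _ => by simp [eF]
  | n + 1, U, e => by
      rw [List.ofFn_succ, List.ofFn_succ, eF, eF_ofFn σ x, Fin.prod_univ_succ, mul_comm]

theorem exists_ofFn {A : Type} {n : ℕ} {E : List A} (hE : E.length = n) :
    ∃ e : Fin n → A, E = List.ofFn e := by
  subst hE
  exact ⟨_, (List.ofFn_get E).symm⟩

open Classical in
/-- the graph functional of a functional on shapes -/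
def gOf {A : Type} (K : ℕ) (Λ : Fn A) (U : List (ℕ → A → A → ℝ)) : GF := fun _ σ E =>
  if H : Rz K σ then Λ H.choose fun x => eF U σ E fun a => x (H.choose_spec.choose a) else 0

theorem rep_gOf {A : Type} {K : ℕ} {Λ : Fn A} (hΛ : ∀ (r : ℕ) (s s' : Sh) (e : Fin r ≃ s.Lf)
    (e' : Fin r ≃ s'.Lf), sm s e K = sm s' e' K → ∀ F : (Fin r → A) → ℝ,
      Λ s (fun x => F fun a => x (e a)) = Λ s' fun x => F fun a => x (e' a))
    (U : List (ℕ → A → A → ℝ)) : Rep K Λ U (gOf K Λ U) := fun s r e E => by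
  have H : Rz K (sm s e K) := ⟨s, e, rfl⟩
  rw [gOf, dif_pos H]
  exact hΛ r _ _ e _ H.choose_spec.choose_spec _

/-- the bulk factor of a graph, read at the roots of the clusters -/
def BG (w : Ω → ℝ) (L : List (Lv Ω)) (h : Ω → ℝ) (i : ℕ) {n : ℕ} (U : Fin n → ℕ → Ω → Ω → ℝ) : GF :=
  gOf L.length (Lc w L h i (Fin n)) (List.ofFn fun t => cp t (U t))

theorem rep_BG (hw : Wt w) {i : ℕ} (hi : i < L.length) {n : ℕ} (U : Fin n → ℕ → Ω → Ω → ℝ) :
    Rep L.length (Lc w L h i (Fin n)) (List.ofFn fun t => cp t (U t)) (BG w L h i U) :=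
  rep_gOf (fun _ s s' e e' H F => Lc_map hw hi e e' (fun a b => by
    rw [shr_cut hi, shr_cut hi]
    exact congrArg (min · _) (congrFun (congrFun H a) b)) F) _

theorem BG_eq (hw : Wt w) {i : ℕ} (hi : i < L.length) {n : ℕ} (U : Fin n → ℕ → Ω → Ω → ℝ)
    {σ : SM r} (hσ : Rz L.length σ) {e : Fin n → Fin r × Fin r} (hl : ∀ t, σ (e t).1 (e t).2 ≤ i) :
    BG w L h i U r σ (List.ofFn e) = BC w L h i σ (fun t => (e t).1) (fun t => (e t).2)
      fun t => U t (σ (e t).1 (e t).2) := by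
  obtain ⟨s, e', rfl⟩ := hσ
  rw [← rep_BG hw hi, ← Lc_edges hw hi s e' hl]
  simp only [eF_ofFn]
  rfl

theorem BG_zero (hw : Wt w) {i : ℕ} (hi : i < L.length) {n : ℕ} {U : Fin n → ℕ → Ω → Ω → ℝ}
    {σ : SM r} (hσ : Rz L.length σ) {e : Fin n → Fin r × Fin r} {t : Fin n}
    (ht : U t (σ (e t).1 (e t).2) = 0) : BG w L h i U r σ (List.ofFn e) = 0 := by
  obtain ⟨s, e', rfl⟩ := hσ
  rw [← rep_BG hw hi, ← Lc_const (L := L) (h := h) (ι := Fin n) hw i s 0]
  simp only [eF_ofFn]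
  congr 1
  funext y
  exact Finset.prod_eq_zero (Finset.mem_univ t) (by rw [cp, ht]; rfl)

theorem tmG_ofFn {n : ℕ} (U : Fin n → ℕ → Ω → Ω → ℝ) (σ : SM r) (e : Fin n → Fin r × Fin r) :
    tmG w L h (List.ofFn U) r σ (List.ofFn e) =
      TM w L h σ fun x => ∏ t, U t (σ (e t).1 (e t).2) (x (e t).1) (x (e t).2) :=
  congrArg (TM w L h σ) (funext fun x => eF_ofFn σ x U e)

/-- one marked edge and `V` clusters -/
theorem avm_edge {M : List (Lv Θ)} (hM : Mono 0 M) {p q : Fin (r + 1)} (hpq : p ≠ q) (i V : ℕ)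
    {D : ℕ → ℝ} (hD : ∀ j, 0 ≤ D j) {φ : SM (r + 1) → ℝ}
    (H : ∀ σ, Rz M.length σ → φ σ ≠ 0 → |φ σ| ≤ D (σ p q) ∧ Cl σ i V) :
    |avm M r φ| ≤ 3 ^ r * (ex M i ^ (V - 2) * I1 M D) := by
  refine (avm_edges hM (p := fun _ : Fin 1 => p) (q := fun _ => q) (fun _ => hpq) (fun _ => i)
    (fun _ => V) (D := fun j => D (j 0)) (fun _ => hD _) H).trans (mul_le_mul (by norm_num) ?_
      (Finset.sum_nonneg fun j _ => mul_nonneg (mul_nonneg (pow_nonneg (ex_nonneg hM _) _)
        (Wl_nonneg hM j)) (hD _)) (by positivity))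
  refine le_trans ?_ (mul_le_mul_of_nonneg_left (sum_Wl_one hM (D := fun j => D (j 0))
    fun _ => hD _) (pow_nonneg (ex_nonneg hM _) _))
  rw [Finset.mul_sum]
  refine Finset.sum_le_sum fun j _ => ?_
  rw [mul_assoc]
  refine mul_le_mul_of_nonneg_right (pow_le_pow_of_le_one (ex_nonneg hM _) (ex_le_one hM _) ?_)
    (mul_nonneg (Wl_nonneg hM j) (hD _))
  have : lowc j i ≤ 1 := (Finset.card_filter_le _ _).trans (Finset.card_image_le.trans (by simp))
  omega

/-- the integrated error of a letter -/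
def EI (w : Ω → ℝ) (L : List (Lv Ω)) (h : Ω → ℝ) (i d : ℕ) (b a : ℝ) (U : ℕ → Ω → Ω → ℝ) : ℝ :=
  I1 L fun j => if j ≤ i then Er w L h i d b a j (U j) else 0

/-- **replacement, one graph** -/
theorem repl_avm (hw : Wt w) (hL : Mono 0 L) {i : ℕ} (hi : i < L.length) {n : ℕ}
    {U : Fin n → ℕ → Ω → Ω → ℝ} (h0 : ∀ t j, i < j → U t j = 0) {a : Fin n → ℝ} {b z : ℝ}
    (ha : ∀ t, 0 < a t) (hb : 1 ≤ b) (hU : ∀ t j x y, |U t j x y| ≤ b * a t) (hz : 0 ≤ z) (V : ℕ)
    {e : Fin n → Fin (r + 1) × Fin (r + 1)} (he : ∀ t, (e t).1 ≠ (e t).2) {c : SM (r + 1) → ℝ}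
    (hc : ∀ σ, Rz L.length σ → (∀ t, σ (e t).1 (e t).2 ≤ i) → |c σ| ≤ z ∧ (c σ ≠ 0 → Cl σ i V)) :
    |avm L r fun σ => tmG w L h (List.ofFn U) _ σ (List.ofFn e) * c σ -
        BG w L h i U _ σ (List.ofFn e) * c σ| ≤
      3 ^ r * (z * ex L i ^ (V - 2) * ((∏ t, a t) * ∑ t, EI w L h i n b (a t) (U t))) := by
  classical
  have hA : 0 < ∏ t, a t := Finset.prod_pos fun t _ => ha t
  set D : Fin n → ℕ → ℝ := fun t j => if j ≤ i then Er w L h i n b (a t) j (U t j) else 0 with hD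
  have D0 : ∀ t j, 0 ≤ D t j := fun t j => by
    simp only [hD]
    split_ifs with hj
    exacts [Er_nonneg hw i n (zero_le_one.trans hb) _ (hj.trans hi.le) _, le_rfl]
  refine (abs_avm_le hL (ψ := fun σ => z * (∏ t, a t) *
    ∑ t, if Cl σ i V then D t (σ (e t).1 (e t).2) else 0) fun σ hσ => ?_).trans ?_
  · have n0 : 0 ≤ z * (∏ t, a t) * ∑ t, if Cl σ i V then D t (σ (e t).1 (e t).2) else 0 :=
      mul_nonneg (by positivity) (Finset.sum_nonneg fun t _ => by
        split_ifs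
        exacts [D0 _ _, le_rfl])
    by_cases hl : ∀ t, σ (e t).1 (e t).2 ≤ i
    · by_cases hc0 : c σ = 0
      · rwa [hc0, mul_zero, mul_zero, sub_zero, abs_zero]
      have := repl_TK (h := h) hw (um_rz hσ) hi (p := fun t => (e t).1) (q := fun t => (e t).2) hl
        (U := fun t => U t (σ (e t).1 (e t).2)) ha hb fun t => hU t _
      rw [← sub_mul, abs_mul, tmG_ofFn, TM_eq hw hσ, BG_eq hw hi U hσ hl, mul_comm, mul_assoc]
      refine mul_le_mul (hc σ hσ hl).1 (this.trans (le_of_eq ?_)) (abs_nonneg _) hz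
      simp only [if_pos ((hc σ hσ hl).2 hc0), hD, if_pos (hl _), Fintype.card_fin]
    · obtain ⟨t, ht⟩ := not_forall.1 hl
      have h1 := h0 t _ (not_le.1 ht)
      rwa [BG_zero hw hi hσ h1, tmG_ofFn, show (fun x : Fin (r + 1) → Ω =>
        ∏ t, U t (σ (e t).1 (e t).2) (x (e t).1) (x (e t).2)) = fun _ => 0 from funext fun x =>
          Finset.prod_eq_zero (Finset.mem_univ t) (by rw [h1]; rfl), TM_const hw hσ, zero_mul,
        sub_zero, abs_zero]
  · rw [avm_mul, avm_sum]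
    refine (mul_le_mul_of_nonneg_left (Finset.sum_le_sum fun t _ => (le_abs_self _).trans
      (avm_edge hL (he t) i V (D0 t) fun σ _ h1 => ?_)) (by positivity)).trans (le_of_eq ?_)
    · split_ifs at h1 ⊢ with h2
      exacts [⟨(abs_of_nonneg (D0 _ _)).le, h2⟩, absurd rfl h1]
    · simp only [← Finset.mul_sum, EI, hD]
      ring

/-- all edges are low -/
def LowE (i : ℕ) (σ : SM r) (E : EL r) : Prop := ∀ e ∈ E, σ e.1 e.2 ≤ i

/-- **replacement, graph form**: `c` is any coefficient (site factor, indicators) -/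
theorem replG (hw : Wt w) (hL : Mono 0 L) {i : ℕ} (hi : i < L.length)
    {U : Fin (k + 1) → ℕ → Ω → Ω → ℝ} (h0 : ∀ t j, i < j → U t j = 0) {a : Fin (k + 1) → ℝ}
    {b z : ℝ} (ha : ∀ t, 0 < a t) (hb : 1 ≤ b) (hU : ∀ t j x y, |U t j x y| ≤ b * a t) (hz : 0 ≤ z)
    (V : ℕ) {c : GF} (hc : ∀ r σ E, Rz L.length σ → E.Ok → E.length = k + 1 → LowE i σ E →
      |c r σ E| ≤ z ∧ (c r σ E ≠ 0 → Cl σ i V)) :
    |LamG L (dm L 0) k (fun r σ E => tmG w L h (List.ofFn U) r σ E * c r σ E) -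
        LamG L (dm L 0) k fun r σ E => BG w L h i U r σ E * c r σ E| ≤
      cG k * (3 ^ (2 * k + 1) * (z * ex L i ^ (V - 2) *
        ((∏ t, a t) * ∑ t, EI w L h i (k + 1) b (a t) (U t)))) := by
  rw [← LamG_sub]
  refine abs_LamG_dm k _ fun r hr E hE hO => ?_
  obtain ⟨e, rfl⟩ := exists_ofFn hE
  refine (repl_avm hw hL hi h0 ha hb hU hz V (fun t => hO _ (List.mem_ofFn.2 ⟨t, rfl⟩))
    fun σ hσ hl => hc _ σ _ hσ hO hE fun e' he' => ?_).trans (mul_le_mul_of_nonneg_right
      (pow_le_pow_right₀ (by norm_num) hr) (mul_nonneg (mul_nonneg hz (pow_nonneg (ex_nonneg hL _) _))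
        (mul_nonneg (Finset.prod_pos fun t _ => ha t).le (Finset.sum_nonneg fun t _ =>
          I1_nonneg hL fun j => ?_))))
  · obtain ⟨t, rfl⟩ := List.mem_ofFn.1 he'
    exact hl t
  · split_ifs with hj
    exacts [Er_nonneg hw i _ (zero_le_one.trans hb) _ (hj.trans hi.le) _, le_rfl]

/-- with a gain: `|c| ≤ z`, and `|c| ≤ z'` when there are only two clusters -/
theorem replG3 (hw : Wt w) (hL : Mono 0 L) {i : ℕ} (hi : i < L.length)
    {U : Fin (k + 1) → ℕ → Ω → Ω → ℝ} (h0 : ∀ t j, i < j → U t j = 0) {a : Fin (k + 1) → ℝ}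
    {b z z' : ℝ} (ha : ∀ t, 0 < a t) (hb : 1 ≤ b) (hU : ∀ t j x y, |U t j x y| ≤ b * a t)
    (hz : 0 ≤ z) (hz' : 0 ≤ z') {c : GF}
    (hc : ∀ r σ E, Rz L.length σ → E.Ok → E.length = k + 1 → LowE i σ E →
      |c r σ E| ≤ z ∧ (¬Cl σ i 3 → |c r σ E| ≤ z')) :
    |LamG L (dm L 0) k (fun r σ E => tmG w L h (List.ofFn U) r σ E * c r σ E) -
        LamG L (dm L 0) k fun r σ E => BG w L h i U r σ E * c r σ E| ≤
      cG k * (3 ^ (2 * k + 1) * ((z * ex L i + z') *
        ((∏ t, a t) * ∑ t, EI w L h i (k + 1) b (a t) (U t)))) := by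
  classical
  have h1 := replG (h := h) hw hL hi h0 ha hb hU hz 3
    (c := fun r σ E => if Cl σ i 3 then c r σ E else 0) fun r σ E hσ hO hE hl => by
      split_ifs with h3
      exacts [⟨(hc r σ E hσ hO hE hl).1, fun _ => h3⟩, ⟨by simpa using hz, fun e => absurd rfl e⟩]
  have h2 := replG (h := h) hw hL hi h0 ha hb hU hz' 0
    (c := fun r σ E => if Cl σ i 3 then 0 else c r σ E) fun r σ E hσ hO hE hl => by
      split_ifs with h3
      exacts [⟨by simpa using hz', fun e => absurd rfl e⟩,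
        ⟨(hc r σ E hσ hO hE hl).2 h3, fun _ => cl_zero σ i⟩]
  have e : ∀ Φ : GF, LamG L (dm L 0) k (fun r σ E => Φ r σ E * c r σ E) =
      LamG L (dm L 0) k (fun r σ E => Φ r σ E * if Cl σ i 3 then c r σ E else 0) +
      LamG L (dm L 0) k fun r σ E => Φ r σ E * if Cl σ i 3 then 0 else c r σ E := fun Φ => by
    rw [← LamG_add]
    congr 1
    funext r σ E
    split_ifs <;> simp
  rw [e, e, add_sub_add_comm]
  refine (abs_add_le _ _).trans ((add_le_add h1 h2).trans (le_of_eq ?_))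
  norm_num
  ring

theorem lamB_rev {A : Type} (M : List (Lv Θ))
    {B : (s : Sh) → ((s.Lf → A) → ℝ) → ((s.Lf → S) → ℝ) → ℝ}
    {W : List ((ℕ → A → A → ℝ) × (ℕ → S → S → ℝ))} (hW : W.length = k + 1) {Φ : GF}
    (H : RepB M.length B W Φ) : lamB M B W.reverse = LamG M (dm M 0) k Φ := by
  rcases hr : W.reverse with _ | ⟨p, V⟩
  · simp [List.reverse_eq_nil_iff.1 hr] at hW
  · have e : V.reverse ++ [p] = W := by rw [← List.reverse_cons, ← hr, List.reverse_reverse]
    have : V.length = k := by simpa [← e] using hW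
    rw [lamB_eq M p V (e ▸ H), this]

/-- the true word in the graph frame -/
theorem lamB_TE (hw : Wt w) {Z : Fn S} (V : Fin (k + 1) → (ℕ → Ω → Ω → ℝ) × (ℕ → S → S → ℝ))
    {c : GF} (H : Rep L.length Z (List.ofFn fun t => (V t).2) c) :
    lamB L (fun s G ξ => TE w s L h G * Z s ξ) (List.ofFn V).reverse = LamG L (dm L 0) k
      fun r σ E => tmG w L h (List.ofFn fun t => (V t).1) r σ E * c r σ E :=
  lamB_rev L List.length_ofFn (repB_mul (by rw [List.map_ofFn]; exact rep_TE hw L h _)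
    (by rw [List.map_ofFn]; exact H))

/-- the cluster word in the graph frame -/
theorem lamB_Lc (hw : Wt w) {i : ℕ} (hi : i < L.length) {Z : Fn S}
    (V : Fin (k + 1) → (ℕ → Ω → Ω → ℝ) × (ℕ → S → S → ℝ)) {c : GF}
    (H : Rep L.length Z (List.ofFn fun t => (V t).2) c) :
    lamB L (fun s G ξ => Lc w L h i (Fin (k + 1)) s G * Z s ξ)
      (List.ofFn fun t => (cp t (V t).1, (V t).2)).reverse = LamG L (dm L 0) k
        fun r σ E => BG w L h i (fun t => (V t).1) r σ E * c r σ E :=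
  lamB_rev L List.length_ofFn (repB_mul (by rw [List.map_ofFn]; exact rep_BG hw hi _)
    (by rw [List.map_ofFn]; exact H))

end words

/-! ### legs: the cluster functional factors out -/

section legs
open Leg51
variable {A S Θ : Type}

/-- tensor product of functionals -/
def TP (Λ : Fn A) (Z : Fn S) : Fn (A × S) := fun s F => Λ s fun x => Z s fun ξ => F fun a => (x a, ξ a)

theorem TP_tens {Λ : Fn A} {Z : Fn S} (hΛ : ∀ s c F, Λ s (fun x => c * F x) = c * Λ s F)
    (hZ : ∀ s c F, Z s (fun x => c * F x) = c * Z s F) (s : Sh) (G : (s.Lf → A) → ℝ)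
    (ξ : (s.Lf → S) → ℝ) : TP Λ Z s (tens G ξ) = Λ s G * Z s ξ := by
  rw [mul_comm, ← hΛ]
  exact congrArg (Λ s) (funext fun x => (hZ s (G x) ξ).trans (mul_comm _ _))

theorem TP_lin {Λ : Fn A} {Z : Fn S}
    (hΛ : ∀ s a b F G, Λ s (fun x => a * F x + b * G x) = a * Λ s F + b * Λ s G)
    (hZ : ∀ s a b F G, Z s (fun x => a * F x + b * G x) = a * Z s F + b * Z s G) (s : Sh) (a b : ℝ)
    (F G : (s.Lf → A × S) → ℝ) :
    TP Λ Z s (fun x => a * F x + b * G x) = a * TP Λ Z s F + b * TP Λ Z s G := by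
  simp only [TP, hZ, hΛ]

theorem wB_tilt (ε : ℝ) {Θ' : Type} {M : List (Lv Θ)} {M' : List (Lv Θ')}
    (H : M.map Lv.m = M'.map Lv.m) (B : (s : Sh) → ((s.Lf → A) → ℝ) → ((s.Lf → S) → ℝ) → ℝ) :
    ∀ V, wB ε M B V = wB ε M' B V
  | [] => rfl
  | p :: V => by
      funext s G ξ
      simp only [wB, wB_tilt ε H B V, sg_tilt ε H]

/-- **legs on `Lc ⊗ Z`**: a leg `f ⊗ g` in the cluster of the mark `a` -/
theorem LW_TP (hw : Wt w) {i : ℕ} (hi : i < L.length) (ε : ℝ) {M : List (Lv Θ)} {Z : Fn S}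
    (hZ : ∀ s c F, Z s (fun x => c * F x) = c * Z s F) {μ : Type} :
    ∀ (W : List (μ × ((ι → Ω) → ℝ) × (S → ℝ))) (s : Sh) (e : μ → s.Lf)
      (G : (s.Lf → ι → Ω) → ℝ) (ξ : (s.Lf → S) → ℝ),
      LW ε i M (W.map fun p => (p.1, fun x => p.2.1 x.1 * p.2.2 x.2)) (cst (TP (Lc w L h i ι) Z))
          s e (tens G ξ) =
        Lc w L h i ι s (fun y => G y * (W.map fun p => p.2.1 (y (e p.1))).prod) *
          LW ε i M (W.map fun p => (p.1, p.2.2)) (cst Z) s e ξ
  | [], s, e, G, ξ => by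
      simp only [List.map_nil, List.prod_nil, mul_one]
      exact TP_tens (Lc_mul i) hZ s G ξ
  | p :: W, s, e, G, ξ => by
      have key : ∀ (s' : Sh) (e' : s.Lf → s'.Lf) (c : s'.Lf),
          (∀ a b, s'.shr (e' a) (e' b) (i + 1) = s.shr a b (i + 1)) →
          (∀ a, s'.shr (e' a) c (i + 1) = s.shr a (e p.1) (i + 1)) →
          LW ε i M (W.map fun p => (p.1, fun x => p.2.1 x.1 * p.2.2 x.2))
            (cst (TP (Lc w L h i ι) Z)) s' (fun x => e' (e x))
            (fun x => tens G ξ (fun b => x (e' b)) * (p.2.1 (x c).1 * p.2.2 (x c).2)) =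
          Lc w L h i ι s (fun y => G y * ((p :: W).map fun p => p.2.1 (y (e p.1))).prod) *
            LW ε i M (W.map fun p => (p.1, p.2.2)) (cst Z) s' (fun x => e' (e x))
              fun x => ξ (fun b => x (e' b)) * p.2.2 (x c) := fun s' e' c h1 h2 => by
        have := LW_TP hw hi ε (M := M) hZ W s' (fun x => e' (e x))
          (fun x => G (fun b => x (e' b)) * p.2.1 (x c)) fun x => ξ (fun b => x (e' b)) * p.2.2 (x c)
        refine Eq.trans (congrArg _ (funext fun x => ?_)) (this.trans (congrArg (· * _) ?_))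
        · simp only [tens]
          ring
        · have := Lc_map (h := h) (ι := ι) hw hi (s := s') (s' := s)
            (fun o : Option s.Lf => o.elim c e') (fun o => o.elim (e p.1) id) (fun a b => by
              cases a <;> cases b
              · exact (shr_self _ _ _).trans (shr_self _ _ _).symm
              · exact (shr_comm _ _ _ _).trans ((h2 _).trans (shr_comm _ _ _ _))
              · exact h2 _
              · exact h1 _ _)
            fun y => G (fun b => y (some b)) * p.2.1 (y none) *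
              (W.map fun p => p.2.1 (y (some (e p.1)))).prod
          refine this.trans (congrArg _ (funext fun y => ?_))
          rw [List.map_cons, List.prod_cons, mul_assoc]
          rfl
      simp only [List.map_cons (l := W) (f := fun p : μ × ((ι → Ω) → ℝ) × (S → ℝ) => (p.1, p.2.2)),
        List.map_cons (l := W) (f := fun p : μ × ((ι → Ω) → ℝ) × (S → ℝ) =>
          (p.1, fun x : (ι → Ω) × S => p.2.1 x.1 * p.2.2 x.2)), LW_cons, Leg51.Lg, Leg51.lg]
      rw [mul_add, mul_left_comm _ ε, Finset.mul_sum _ _ (Lc w L h i ι s _),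
        Finset.mul_sum _ _ (Lc w L h i ι s _)]
      refine congrArg₂ (· + ·) (Finset.sum_congr rfl fun b hb => key s id b (fun _ _ => rfl)
        fun a => shr_congr s (shr_comm s _ _ _ ▸ mem_cls.1 hb) a) (congrArg _
          (Finset.sum_congr rfl fun q hq => ?_))
      obtain ⟨h1, h2, -⟩ := mem_pos.1 hq
      rw [mul_left_comm]
      refine congrArg _ (key _ _ _ (fun a b => shr_emb _ _ _ _ _ _) fun a => ?_)
      rw [shr_nw, min_eq_right h2]
      exact shr_congr s (shr_comm s _ _ _ ▸ h1) a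

end legs

end Crest.Agent.T156.Cas.R90
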