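import Crest.Agent.T156.C3D_94
import Crest.Agent.T156.CY2A_44
import Crest.Agent.T156.Rp_90

/-!
# Row 156, block C (helper97): the piece `RlS` of `C3D_94`

A leaf above the node of the pair `(c, d)` may be replaced by `c`: fresh copies at the node, the
first order vanishes by exchangeability, the rest is Cauchy-Schwarz and the envelopes.
-/

set_option autoImplicit false
set_option linter.all false

noncomputable section

namespace Crest.Agent.T156.Cas.L97

open Crest.Agent.T157.E Crest.Agent.T157.Casc Crest.Agent.T157.SL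
open Crest.Agent.T157.G1 (ov)
open Ker15 R90 Y44

variable {Ω : Type} [Fintype Ω] {w : Ω → ℝ} {L : List (Lv Ω)} {h : Ω → ℝ} {R : Ω → Ω → ℝ}
  {κ : Type} [Fintype κ] {σ : κ → κ → ℕ}

theorem vK_anti (hw : Wt w) {y i j : ℕ} (hi : y ≤ i) (hj : i ≤ j) :
    vK w L h R y j ≤ vK w L h R y i :=
  node_mono hw (Eg.sum _ fun x _ => (eg_P hw _ x).mul (Eg33.eg_Cf hw L y j _ _))
    (Eg.sum _ fun x _ => (eg_P hw _ x).mul (Eg33.eg_Cf hw L y i _ _))
    (fun z => Finset.sum_le_sum fun x _ =>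
      mul_le_mul_of_nonneg_left (Eg33.Cf_anti hw L hi hj _ z) (P_nonneg hw _ z x)) L y h

/-- moving one end of an edge, matrix form -/
theorem sqK (hw : Wt w) (hR : ∀ x y, R x y = R y x) (H : Um L.length σ) {a b c : κ}
    (hab : a ≠ b) (hac : a ≠ c) (hbc : b ≠ c) {y t : ℕ} (ht : σ a b = t) (h1 : σ a c = y)
    (h2 : σ b c = y) (hy : y ≤ t) :
    TK w L h σ (fun x => (R (x a) (x c) - R (x b) (x c)) ^ 2) = 2 * vK w L h R y t := by
  have e2 := TK_pair (h := h) hw H hac fun x y => R x y ^ 2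
  have e3 := TK_pair (h := h) hw H hbc fun x y => R x y ^ 2
  have e1 : TK w L h σ (fun x => R (x a) (x c) * R (x b) (x c)) =
      pi2 w L y (fun x x' => R x x' ^ 2) h - vK w L h R y t := by
    obtain ⟨s, e, -, he, rfl⟩ := H.lab
    rw [TK_sm hw s he]
    exact three hw hR s (he.ne hab) (he.ne hac) (he.ne hbc) ht h1 h2 hy
  rw [h1] at e2
  rw [h2] at e3
  rw [show (fun x : κ → Ω => (R (x a) (x c) - R (x b) (x c)) ^ 2) = fun x =>
      R (x a) (x c) ^ 2 + R (x b) (x c) ^ 2 - 2 * (R (x a) (x c) * R (x b) (x c)) from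
    funext fun x => by ring, TK_sub, TK_add, TK_mul, e1, e2, e3]
  ring

/-- moving one end inside its cluster above `t` -/
theorem sqK_le (hw : Wt w) (hR : ∀ x y, R x y = R y x) (H : Um L.length σ) {a b c : κ}
    {y t : ℕ} (ht : t ≤ σ a b) (h2 : σ b c = y) (hy : y < t) :
    TK w L h σ (fun x => (R (x a) (x c) - R (x b) (x c)) ^ 2) ≤ 2 * vK w L h R y t := by
  by_cases hab : a = b
  · subst hab
    simp only [sub_self, ne_eq, OfNat.ofNat_ne_zero, not_false_eq_true, zero_pow]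
    rw [TK_const hw H]
    linarith [vK_nonneg (L := L) (h := h) (R := R) hw y t]
  have c1 := H.comm a b
  have u1 := H.ultra a b c
  have u2 := H.ultra b a c
  have l1 := H.le a b
  have h1 : σ a c = y := by omega
  have hac : a ≠ c := fun e => by rw [← e, H.self] at h1; omega
  have hbc : b ≠ c := fun e => by rw [← e, H.self] at h2; omega
  rw [sqK hw hR H hab hac hbc rfl h1 h2 (by omega)]
  linarith [vK_anti (L := L) (h := h) (R := R) hw hy.le ht]

/-- envelope times two bounded factors -/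
theorem env_le {u a b e : ℝ} (he : 0 ≤ e) (ha : |a| ≤ 2) (hb : |b| ≤ 2) :
    |u * a * b| ≤ e / 2 * a ^ 2 + e / 2 * b ^ 2 + 4 * max (|u| - e) 0 := by
  have h1 : |u| ≤ e + max (|u| - e) 0 := by linarith [le_max_left (|u| - e) 0]
  have h2 : 0 ≤ max (|u| - e) 0 := le_max_right _ _
  have h3 : |a| * |b| ≤ (a ^ 2 + b ^ 2) / 2 := by
    nlinarith [sq_abs a, sq_abs b, sq_nonneg (|a| - |b|)]
  have h4 : |a| * |b| ≤ 4 := by nlinarith [abs_nonneg a, abs_nonneg b]
  have h5 : 0 ≤ |a| * |b| := by positivity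
  rw [mul_assoc, abs_mul, abs_mul]
  nlinarith [mul_le_mul_of_nonneg_right h1 h5, mul_le_mul_of_nonneg_left h3 he,
    mul_le_mul_of_nonneg_left h4 h2]

theorem abs_sub_two (hR1 : ∀ x y, |R x y| ≤ 1) (a b c d : Ω) : |R a b - R c d| ≤ 2 :=
  (abs_sub _ _).trans (by linarith [hR1 a b, hR1 c d])

/-- **replacing a leaf above the node of `(c, d)` by `c`** -/
theorem rl (hw : Wt w) (hR : ∀ x y, R x y = R y x) (hR1 : ∀ x y, |R x y| ≤ 1)
    (H : Um L.length σ) {x y z y' c d : κ} {j t : ℕ} (hjt : j < t) (hK : t < L.length)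
    (hcd : σ c d = t) (hz : t ≤ σ z c) (hxy : σ x y = j) (hxc : j < σ x c) (hy' : σ c y' = j)
    {p q e₁ e₂ τ : ℝ} (he₁ : 0 ≤ e₁) (he₂ : 0 ≤ e₂)
    (h1 : pi2 w L j (fun a b => max (|R a b - p| - e₁) 0) h ≤ τ)
    (h2 : pi2 w L t (fun a b => max (|R a b - q| - e₂) 0) h ≤ τ) :
    |TK w L h σ fun ω => (R (ω x) (ω y) - p) * (R (ω z) (ω y') - R (ω c) (ω y')) *
      (R (ω c) (ω d) - q)| ≤ e₁ * (vK w L h R j t + 4 * vK w L h R t t) +
        2 * e₂ * vK w L h R j t + 8 * τ := by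
  classical
  set β : Fin 3 → κ := ![x, c, c] with hβ
  set T := lf L.length σ (Sum.elim id β) (Sum.elim (fun _ => L.length) fun _ => t) with hT
  have HT : Um L.length T := um_lf H _ _
  have t1 : ∀ a b, T (.inl a) (.inl b) = σ a b := fun a b => by
    by_cases e : a = b
    · rw [e, HT.self, H.self]
    · rw [hT, lf_ne _ _ fun h => e (Sum.inl_injective h)]
      simp [H.le]
  have t2 : ∀ u v, u ≠ v → T (.inr u) (.inr v) = min (σ (β u) (β v)) t := fun u v e => by
    rw [hT, lf_ne _ _ fun h => e (Sum.inr_injective h)]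
    simp
  have t3 : ∀ a v, T (.inl a) (.inr v) = min (σ a (β v)) t := fun a v => by
    rw [hT, lf_ne _ _ Sum.inl_ne_inr]
    simp only [Sum.elim_inl, Sum.elim_inr, id]
    omega
  have t4 : ∀ a v, T (.inr v) (.inl a) = min (σ a (β v)) t := fun a v => by
    rw [HT.comm, t3]
  have b0 : β 0 = x := rfl
  have b1 : β 1 = c := rfl
  have b2 : β 2 = c := rfl
  have scc := H.self c
  have sxx := H.self x
  have cyc : σ y c = j := by
    have := H.ultra y x c; have := H.ultra x c y; have := H.comm x y; have := H.comm c y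
    omega
  have cyz : σ y z = j := by
    have := H.ultra y c z; have := H.ultra y z c; have := H.comm z c
    omega
  have cy'c : σ y' c = j := (H.comm _ _).trans hy'
  have cy'z : σ y' z = j := by
    have := H.ultra y' c z; have := H.ultra y' z c; have := H.comm z c
    omega
  have czx : min (σ z x) t = min (σ c x) t := by
    have := H.ultra z c x; have := H.ultra c z x; have := H.comm z c
    omega
  have nyz : y ≠ z := fun e => by rw [e, H.self] at cyz; omega
  have nyc : y ≠ c := fun e => by rw [e, H.self] at cyc; omega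
  have ny'z : y' ≠ z := fun e => by rw [e, H.self] at cy'z; omega
  have ny'c : y' ≠ c := fun e => by rw [e, H.self] at cy'c; omega
  have nxy : x ≠ y := fun e => by rw [e, H.self] at hxy; omega
  have ncd : c ≠ d := fun e => by rw [e, H.self] at hcd; omega
  have e0 := TK_map (h := h) hw H HT (φ := id) (φ' := Sum.inl) (by simp)
    (fun a b _ => (t1 a b).symm) fun ω => (R (ω x) (ω y) - p) *
      (R (ω z) (ω y') - R (ω c) (ω y')) * (R (ω c) (ω d) - q)
  have e3 := TK_map (h := h) hw HT HT (ι := Fin 3 ⊕ Fin 3) (φ := Sum.map ![y, y', z] id)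
    (φ' := Sum.map ![y, y', c] id)
    (by
      rintro (a | a) (b | b)
      · fin_cases a <;> fin_cases b <;>
          simp [nyz, nyc, ny'z, ny'c, nyz.symm, nyc.symm, ny'z.symm, ny'c.symm]
      · simp
      · simp
      · simp)
    (by
      have := H.comm z y; have := H.comm c y; have := H.comm z y'; have := H.comm c y'
      have := H.self z
      rintro (a | a) (b | b) hab
      · simp only [Sum.map_inl, t1]
        fin_cases a <;> fin_cases b <;> first | rfl | (simp; omega)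
      · simp only [Sum.map_inl, Sum.map_inr, id, t3]
        fin_cases a <;> fin_cases b <;> first | rfl | (simp [hβ]; omega)
      · simp only [Sum.map_inl, Sum.map_inr, id, t4]
        fin_cases a <;> fin_cases b <;> first | rfl | (simp [hβ]; omega)
      · rfl)
    fun ω => (R (ω (.inr 0)) (ω (.inl 0)) - p) * R (ω (.inl 2)) (ω (.inl 1)) *
      (R (ω (.inr 1)) (ω (.inr 2)) - q)
  have e3' : TK w L h T (fun ω => (R (ω (.inr 0)) (ω (.inl y)) - p) * R (ω (.inl z)) (ω (.inl y')) *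
      (R (ω (.inr 1)) (ω (.inr 2)) - q)) = TK w L h T fun ω =>
      (R (ω (.inr 0)) (ω (.inl y)) - p) * R (ω (.inl c)) (ω (.inl y')) *
      (R (ω (.inr 1)) (ω (.inr 2)) - q) := e3
  have sD := sqK_le (h := h) hw hR HT (a := .inl z) (b := .inl c) (c := .inl y') (y := j) (t := t)
    (by rw [t1]; exact hz) (by rw [t1]; exact hy') hjt
  have sX := sqK_le (h := h) hw hR HT (a := .inl x) (b := .inr 0) (c := .inl y) (y := j) (t := t)
    (by rw [t3, b0]; omega) (by rw [t4, b0, H.comm]; omega) hjt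
  have sC := sqK (h := h) hw hR HT (a := .inl c) (b := .inr 1) (c := .inl d) (y := t) (t := t)
    Sum.inl_ne_inr (fun e => ncd (Sum.inl_injective e)) Sum.inr_ne_inl (by rw [t3, b1]; omega)
    (by rw [t1, hcd]) (by rw [t4, b1, H.comm]; omega) le_rfl
  have sE := sqK (h := h) hw hR HT (a := .inl d) (b := .inr 2) (c := .inr 1) (y := t) (t := t)
    Sum.inl_ne_inr Sum.inl_ne_inr (by simp) (by rw [t3, b2, H.comm]; omega)
    (by rw [t3, b1, H.comm]; omega) (by rw [t2 _ _ (by decide), b1, b2]; omega) le_rfl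
  have sF := TK_mono (h := h) hw HT
    (F := fun ω => (R (ω (.inl c)) (ω (.inl d)) - R (ω (.inr 1)) (ω (.inr 2))) ^ 2)
    (G := fun ω => 2 * (R (ω (.inl c)) (ω (.inl d)) - R (ω (.inr 1)) (ω (.inl d))) ^ 2 +
      2 * (R (ω (.inl d)) (ω (.inr 1)) - R (ω (.inr 2)) (ω (.inr 1))) ^ 2) fun ω => by
      rw [hR (ω (.inl d)) (ω (.inr 1)), hR (ω (.inr 2)) (ω (.inr 1))]
      nlinarith [sq_nonneg (R (ω (.inl c)) (ω (.inl d)) - 2 * R (ω (.inr 1)) (ω (.inl d)) +
        R (ω (.inr 1)) (ω (.inr 2)))]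
  rw [TK_add, TK_mul, TK_mul, sC, sE] at sF
  have p1 := TK_pair (h := h) hw HT (a := .inl x) (b := .inl y)
    (fun e => nxy (Sum.inl_injective e)) fun a b => max (|R a b - p| - e₁) 0
  have p2 := TK_pair (h := h) hw HT (a := .inr 1) (b := .inr 2) (by simp)
    fun a b => max (|R a b - q| - e₂) 0
  rw [t1, hxy] at p1
  rw [t2 _ _ (by decide), b1, b2, scc, min_eq_right hK.le] at p2
  have a1 := abs_TK_le (h := h) hw HT fun ω => env_le (u := R (ω (.inl x)) (ω (.inl y)) - p) he₁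
    (abs_sub_two hR1 (ω (.inl z)) (ω (.inl y')) (ω (.inl c)) (ω (.inl y')))
    (abs_sub_two hR1 (ω (.inl c)) (ω (.inl d)) (ω (.inr 1)) (ω (.inr 2)))
  have a2 := abs_TK_le (h := h) hw HT fun ω => env_le (u := R (ω (.inr 1)) (ω (.inr 2)) - q) he₂
    (abs_sub_two hR1 (ω (.inl z)) (ω (.inl y')) (ω (.inl c)) (ω (.inl y')))
    (abs_sub_two hR1 (ω (.inl x)) (ω (.inl y)) (ω (.inr 0)) (ω (.inl y)))
  rw [TK_add, TK_add, TK_mul, TK_mul, TK_mul, p1] at a1
  rw [TK_add, TK_add, TK_mul, TK_mul, TK_mul, p2] at a2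
  have dec : TK w L h T (fun ω => (R (ω (.inl x)) (ω (.inl y)) - p) *
      (R (ω (.inl z)) (ω (.inl y')) - R (ω (.inl c)) (ω (.inl y'))) *
      (R (ω (.inl c)) (ω (.inl d)) - q)) =
      TK w L h T (fun ω => (R (ω (.inl x)) (ω (.inl y)) - p) *
        (R (ω (.inl z)) (ω (.inl y')) - R (ω (.inl c)) (ω (.inl y'))) *
        (R (ω (.inl c)) (ω (.inl d)) - R (ω (.inr 1)) (ω (.inr 2)))) +
      TK w L h T (fun ω => (R (ω (.inr 1)) (ω (.inr 2)) - q) *
        (R (ω (.inl z)) (ω (.inl y')) - R (ω (.inl c)) (ω (.inl y'))) *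
        (R (ω (.inl x)) (ω (.inl y)) - R (ω (.inr 0)) (ω (.inl y)))) +
      (TK w L h T (fun ω => (R (ω (.inr 0)) (ω (.inl y)) - p) * R (ω (.inl z)) (ω (.inl y')) *
        (R (ω (.inr 1)) (ω (.inr 2)) - q)) - TK w L h T fun ω =>
        (R (ω (.inr 0)) (ω (.inl y)) - p) * R (ω (.inl c)) (ω (.inl y')) *
        (R (ω (.inr 1)) (ω (.inr 2)) - q)) := by
    rw [← TK_sub, ← TK_add, ← TK_add]
    exact congrArg _ (funext fun ω => by ring)
  rw [e3', sub_self, add_zero] at dec
  refine (congrArg abs (e0.trans dec)).trans_le ((abs_add_le _ _).trans ?_)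
  nlinarith [mul_le_mul_of_nonneg_left sD he₁, mul_le_mul_of_nonneg_left sF he₁,
    mul_le_mul_of_nonneg_left sD he₂, mul_le_mul_of_nonneg_left sX he₂]

end Crest.Agent.T156.Cas.L97

namespace Crest.Agent.T156.Cas.C394

open Crest.Agent.T157.E Crest.Agent.T157.Casc Crest.Agent.T157.SL
open Crest.Agent.T157.G1 (ov)
open C40 Nu87 Ck32

theorem ov_comm_97 {n : ℕ} (x y : Cube n) : ov x y = ov y x := by
  unfold ov
  rw [dotProduct_comm]

/-- **`RlS`** -/
theorem rlS : RlS := by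
  refine ⟨8, by norm_num, fun τ0 D H r σ hσ x y z y' c d j t hJ hjt hK hcd hz hxy hxc hy' => ?_⟩
  have e0 : ∀ i, 0 ≤ D.e i := fun i => (X_nonneg H).trans (H.eX i)
  have em : D.e j ≤ D.e t := monotone_nat_of_le_succ H.emono hjt.le
  have k := L97.rl (h := 0) wt_one90 ov_comm_97 abs_ov_le (R90.um_rz hσ) hjt (lenB (D := D) ▸ hK)
    hcd hz hxy hxc hy' (e0 j) (e0 t) (H.envU j (Finset.mem_Ioo.2 ⟨hJ, hjt.trans hK⟩))
    (H.envU t (Finset.mem_Ioo.2 ⟨hJ.trans hjt, hK⟩))
  have v1 : 0 ≤ D.v j t := Y44.vK_nonneg (R := ov) wt_one90 j t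
  have v2 : 0 ≤ D.v t t := Y44.vK_nonneg (R := ov) wt_one90 t t
  unfold TB
  rw [R90.TM_eq wt_one90 hσ]
  simp only [oU, sub_sub_sub_cancel_right]
  refine k.trans ?_
  change D.e j * (D.v j t + 4 * D.v t t) + 2 * D.e t * D.v j t + 8 * D.tl ≤ _
  nlinarith [mul_le_mul_of_nonneg_right em v1, mul_le_mul_of_nonneg_right em v2,
    mul_nonneg (e0 t) v1, mul_nonneg (e0 t) v2]

end Crest.Agent.T156.Cas.C394

end
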