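import Crest.Agent.T156.SiteC_94

/-!
# Row 156, block C: two nodes at one depth, and a pattern bound for the weights (helper43)
-/

set_option autoImplicit false
set_option linter.unusedSectionVars false

noncomputable section

namespace Crest.Agent.T156.Cas.C3W43

open MeasureTheory Real Set Filter Topology
open Crest.Agent.T157.E Crest.Agent.T157.Casc Crest.Agent.T157.SL
open Nu87 Wp52 Site94

variable {K r : ℕ}

theorem swap_lt {σ : SM r} (hσ : Rz K σ) {a b c : Fin r} (h : σ a c < σ a b) : σ b c = σ a c := by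
  have h1 := hσ.ultra a b c
  have h2 := hσ.ultra b a c
  rw [hσ.comm b a] at h2
  omega

/-- **two different nodes carry two different labels** -/
theorem two_lab : ∀ {r : ℕ} {σ : SM (r + 1)} {y : Fin r → ℕ}, Cmp K r σ y →
    ∀ a b c d, a ≠ b → c ≠ d → σ a c < σ a b → σ a c < σ c d →
      ∃ i i', i ≠ i' ∧ σ a b = y i ∧ σ c d = y i'
  | 0, _, _, _, a, b, _, _, hab, _, _, _ => absurd (Subsingleton.elim (α := Fin 1) a b) hab
  | r + 1, _, y, ⟨σ, a₀, j, h, e, _, hj, hc⟩, a, b, c, d, hab, hcd, h1, h2 => by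
      have hσ := h.rz
      have hτ := hσ.gr a₀ j
      subst e
      have old : ∀ a b c d, a ≠ b → c ≠ d → σ a c < σ a b → σ a c < σ c d →
          ∃ i i' : Fin (r + 1), i ≠ i' ∧ σ a b = y i ∧ σ c d = y i' := fun a b c d p1 p2 p3 p4 => by
        obtain ⟨i, i', q1, q2, q3⟩ := two_lab h a b c d p1 p2 p3 p4
        exact ⟨i.succ, i'.succ, fun e => q1 (Fin.succ_injective _ e), q2, q3⟩
      have key : ∀ (z c d : Fin (r + 2)), z ≠ 0 → c ≠ d → gr K σ a₀ j 0 c < gr K σ a₀ j 0 z →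
          gr K σ a₀ j 0 c < gr K σ a₀ j c d →
          ∃ i i' : Fin (r + 1), i ≠ i' ∧ gr K σ a₀ j 0 z = y i ∧ gr K σ a₀ j c d = y i' := by
        intro z c d p1 p2 p3 p4
        obtain ⟨z, rfl⟩ := Fin.exists_succ_eq.2 p1
        obtain ⟨c, rfl⟩ := Fin.exists_succ_eq.2 (show c ≠ 0 by
          rintro rfl
          exact absurd (hτ.le 0 z.succ) (not_le.2 (by rwa [hτ.self] at p3)))
        obtain ⟨d, rfl⟩ := Fin.exists_succ_eq.2 (show d ≠ 0 by
          rintro rfl
          rw [hτ.comm c.succ 0] at p4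
          exact lt_irrefl _ p4)
        have p5 : c ≠ d := fun e => p2 (e ▸ rfl)
        simp only [gr_0s, gr_ss] at p3 p4 ⊢
        have c1 := hσ.comm c a₀
        have c2 := hσ.comm z a₀
        rcases le_or_gt j (σ z a₀) with h3 | h3
        · rw [min_eq_left h3] at p3 ⊢
          rcases hc with hc | ⟨b, hb, hc⟩
          · obtain ⟨i, hi⟩ := h.mem c d p5
            exact ⟨0, i.succ, (Fin.succ_ne_zero i).symm, hc, hi⟩
          · rw [hc]
            exact old a₀ b c d hb.symm p5 (by omega) (by omega)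
        · rw [min_eq_right h3.le] at p3 ⊢
          rw [c2]
          refine old a₀ z c d (fun e => ?_) p5 (by omega) (by omega)
          rw [← e, hσ.self] at h3
          omega
      by_cases a0 : a = 0
      · subst a0
        exact key b c d hab.symm hcd h1 h2
      by_cases b0 : b = 0
      · subst b0
        have e := swap_lt hτ h1
        rw [hτ.comm a 0] at h1 ⊢
        exact key a c d a0 hcd (e ▸ h1) (e ▸ h2)
      have sw : (∃ i i' : Fin (r + 1), i ≠ i' ∧ gr K σ a₀ j c d = y i ∧ gr K σ a₀ j a b = y i') →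
          ∃ i i' : Fin (r + 1), i ≠ i' ∧ gr K σ a₀ j a b = y i ∧ gr K σ a₀ j c d = y i' :=
        fun ⟨i, i', q1, q2, q3⟩ => ⟨i', i, q1.symm, q3, q2⟩
      rw [hτ.comm a c] at h1 h2
      by_cases c0 : c = 0
      · subst c0
        exact sw (key d a b hcd.symm hab h2 h1)
      by_cases d0 : d = 0
      · subst d0
        have e := swap_lt hτ h2
        rw [hτ.comm c 0] at h2
        refine sw ?_
        rw [hτ.comm c 0]
        exact key c a b c0 hab (e ▸ h2) (e ▸ h1)
      obtain ⟨a, rfl⟩ := Fin.exists_succ_eq.2 a0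
      obtain ⟨b, rfl⟩ := Fin.exists_succ_eq.2 b0
      obtain ⟨c, rfl⟩ := Fin.exists_succ_eq.2 c0
      obtain ⟨d, rfl⟩ := Fin.exists_succ_eq.2 d0
      simp only [gr_ss] at h1 h2 ⊢
      rw [hσ.comm c a] at h1 h2
      exact old a b c d (fun e => hab (e ▸ rfl)) (fun e => hcd (e ▸ rfl)) h1 h2

/-- three clusters above `t` need two labels at most `t` -/
theorem out_lab {σ : SM (r + 1)} {y : Fin r → ℕ} (h : Cmp K r σ y) {a b d : Fin (r + 1)} {t : ℕ}
    (ht : t < K) (h1 : σ a b ≤ t) (h2 : σ a d ≤ t) (h3 : σ b d ≤ t) :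
    ∃ i i', i ≠ i' ∧ y i ≤ t ∧ y i' ≤ t := by
  have hσ := h.rz
  have ne : ∀ {u v}, σ u v ≤ t → u ≠ v := fun huv e => by
    rw [e, hσ.self] at huv
    omega
  have := h.card t {a, b, d} fun u hu v hv huv => by
    simp only [Finset.mem_insert, Finset.mem_singleton] at hu hv
    rcases hu with rfl | rfl | rfl <;> rcases hv with rfl | rfl | rfl <;>
      first | exact absurd rfl huv | assumption | (rw [hσ.comm]; assumption)
  rw [Finset.card_eq_three.2 ⟨a, b, d, ne h1, ne h2, ne h3, rfl⟩] at this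
  obtain ⟨i, hi, i', hi', e⟩ := Finset.one_lt_card.1
    (show 1 < (Finset.univ.filter fun i => y i ≤ t).card by omega)
  exact ⟨i, i', e, (Finset.mem_filter.1 hi).2, (Finset.mem_filter.1 hi').2⟩

variable {Ω : Type} [Fintype Ω] {M : List (Lv Ω)}

/-- **pattern bound**: one label (`A`) or two labels (`T`) -/
theorem avc_pat (hM : Mono 0 M) {j : ℕ} (hj : j ≤ M.length) (k : ℕ) {A : ℕ → ℝ} {T : ℕ → ℕ → ℝ}
    (hA : ∀ u, 0 ≤ A u) (hT : ∀ u v, 0 ≤ T u v) {Φ : SM (1 + k + 1) → ℝ}
    (h : ∀ σ y, Cmp M.length (1 + k) σ y → Φ σ ≤ 0 ∨ (∃ i, Φ σ ≤ A (y i)) ∨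
      ∃ i i', i ≠ i' ∧ Φ σ ≤ T (y i) (y i')) :
    avc M (tw M.length j) k Φ ≤ (3 * (1 + k)) ^ k * (A j + 2 * Br M A + Br M (T j) +
      (Br M fun u => T u j) + Br M fun u => Br M (T u)) := by
  have nn : ∀ u v, 0 ≤ A u + T u v := fun u v => add_nonneg (hA u) (hT u v)
  refine (avc_two hM hj k (F := fun u v => A u + T u v) nn fun σ y _ hc => ?_).trans_eq ?_
  · rcases h σ y hc with h | ⟨i, h⟩ | ⟨i, i', e, h⟩
    · obtain ⟨h1, h2, h3⟩ := P2_nonneg hM nn y
      exact h.trans (add_nonneg (add_nonneg h1 h2) h3)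
    · refine h.trans (le_trans ?_ (le_P2' hM nn y i))
      rw [Br_add, Br_const]
      exact le_add_of_nonneg_right (Br_nonneg hM fun v _ => hT _ _)
    · exact h.trans ((le_add_of_nonneg_left (hA _)).trans (le_P2 hM nn y e))
  · simp only [Br_add, Br_const]
    ring

theorem Br_ind (S : Finset ℕ) (hS : ∀ u ∈ S, u ≤ M.length) (a : ℕ → ℝ) :
    Br M (fun u => if u ∈ S then a u else 0) = ∑ u ∈ S, dm M 0 u * a u := by
  simp only [Br, mul_ite, mul_zero]
  rw [← Finset.sum_filter]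
  refine Finset.sum_congr (Finset.ext fun u => ?_) fun _ _ => rfl
  simp only [Finset.mem_filter, Finset.mem_range]
  exact ⟨fun h => h.2, fun h => ⟨Nat.lt_succ_of_le (hS u h), h⟩⟩

end Crest.Agent.T156.Cas.C3W43

end
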