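import Crest.Agent.T156.C3E_94
import Crest.Agent.T156.C3W_43

/-!
# Row 156, block C (helper47): the cost of the replacement of late leaves (`RepS`)
-/

set_option autoImplicit false
set_option linter.all false

noncomputable section

namespace Crest.Agent.T156.Cas.C394

open Crest.Agent.T157.E Crest.Agent.T157.Casc Crest.Agent.T157.SL
open C40 Nu87 Wp52 Site94
open Ck32 (TB lenB lenS upF Br_upF abs_q_le)

namespace P47

variable {Ω : Type} {M : List (Lv Ω)} {r : ℕ}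

theorem Ey_P2 (hM : Mono 0 M) {F : ℕ → ℕ → ℝ} (hF : ∀ u v, 0 ≤ F u v) :
    ∀ r : ℕ, Ey M r (P2 M F) ≤ 3 ^ r * Br M fun v => Br M (F v)
  | 0 => by simp [Ey, P2]
  | r + 1 => by
      refine (Ey_mono hM r fun y _ => P2_step hM hF y).trans ?_
      rw [Ey_mul, pow_succ', mul_assoc]
      exact mul_le_mul_of_nonneg_left (Ey_P2 hM hF r) (by norm_num)

/-- two edges at two different levels -/
theorem avm_two (hM : Mono 0 M) {F : ℕ → ℕ → ℝ} (hF : ∀ u v, 0 ≤ F u v) {a b c d : Fin (r + 1)}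
    (h0 : ∀ u, F u u = 0) (hK : ∀ u, F M.length u = 0) (hcd : c ≠ d) :
    avm M r (fun σ => F (σ a b) (σ c d)) ≤ r.factorial * (3 ^ r * Br M fun v => Br M (F v)) := by
  have nn : ∀ y : Fin r → ℕ, 0 ≤ P2 M F y := fun y =>
    let ⟨h1, h2, h3⟩ := P2_nonneg hM hF y
    add_nonneg (add_nonneg h1 h2) h3
  refine (avm_le_Ey hM r (Ψ := P2 M F) (fun y _ => nn y) fun σ y _ hc => ?_).trans
    (mul_le_mul_of_nonneg_left (Ey_P2 hM hF r) (by positivity))
  by_cases hab : a = b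
  · rw [hab, hc.rz.self, hK]; exact nn y
  obtain ⟨i, hi⟩ := hc.mem a b hab
  obtain ⟨i', hi'⟩ := hc.mem c d hcd
  rw [hi, hi']
  by_cases e : i = i'
  · rw [e, h0]; exact nn y
  · exact le_P2 hM hF y e

variable {D : CD} {τ0 : ℝ}

/-- the weight -/
def Fw (D : CD) (u v : ℕ) : ℝ :=
  if u ∈ Finset.Ioo D.J v then (if v < D.K then D.e v * (D.v u v + D.v v v) else 0) else 0

theorem Fw_nonneg (H : D.Ok τ0) (u v : ℕ) : 0 ≤ Fw D u v := by
  unfold Fw
  split_ifs
  · exact mul_nonneg (H.e0 v) (add_nonneg (D.v0 _ _) (D.v0 _ _))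
  · exact le_rfl
  · exact le_rfl

theorem BrBr (H : D.Ok τ0) : (Br D.B fun u => Br D.B (Fw D u)) ≤ D.Lad0 := by
  rw [← Br_comm]
  have h1 := H.Lad0_parts.1
  have h2 : Br D.B (upF D fun t => D.e t ^ 2 * D.v t t +
      D.e t * ∑ y ∈ Finset.Ico 1 t, D.dx y * D.v y t) ≤ D.Lad0 := by
    rw [Br_upF H, D.I_add, CD.Lad0]
    linarith
  refine (Br_mono H.mono fun v hv => ?_).trans h2
  have g0 : 0 ≤ D.e v ^ 2 * D.v v v + D.e v * ∑ y ∈ Finset.Ico 1 v, D.dx y * D.v y v :=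
    add_nonneg (mul_nonneg (sq_nonneg _) (D.v0 _ _)) (mul_nonneg (H.e0 v) (H.sv_low0 _ _))
  unfold Fw
  rw [C3W43.Br_ind _ fun u hu => (Finset.mem_Ioo.1 hu).2.le.trans hv]
  unfold upF
  by_cases hJ : D.J < v
  swap
  · rw [if_neg hJ, Finset.Ioo_eq_empty hJ, Finset.sum_empty]
  rw [if_pos hJ]
  by_cases hK : v < D.K
  swap
  · simpa only [if_neg hK, mul_zero, Finset.sum_const_zero] using g0
  simp only [if_pos hK]
  have e1 : ex D.B v ≤ D.e v :=
    (le_min ((H.sum_dx v).symm.trans_le (H.sum_dx_one fun i hi => by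
        have := Finset.mem_range.1 hi; omega))
      (le_add_of_nonneg_right (H.sig0 hK.le))).trans (H.esc v (CD.mem_up.2 ⟨hJ, hK⟩))
  have e2 : ∑ u ∈ Finset.Ioo D.J v, D.dx u ≤ D.e v :=
    (H.sum_dx_le fun i hi => (Finset.mem_Ioo.1 hi).2.le).trans e1
  have e3 : ∑ u ∈ Finset.Ioo D.J v, D.dx u * D.v u v ≤ ∑ y ∈ Finset.Ico 1 v, D.dx y * D.v y v :=
    Finset.sum_le_sum_of_subset_of_nonneg (fun i hi => by
      have := Finset.mem_Ioo.1 hi
      exact Finset.mem_Ico.2 ⟨by omega, this.2⟩) fun i _ _ => mul_nonneg (H.dx0 i) (D.v0 _ _)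
  have e4 : ∑ u ∈ Finset.Ioo D.J v, dm D.B 0 u * (D.e v * (D.v u v + D.v v v)) =
      D.e v * (∑ u ∈ Finset.Ioo D.J v, D.dx u * D.v u v) +
        D.e v * D.v v v * ∑ u ∈ Finset.Ioo D.J v, D.dx u := by
    rw [Finset.mul_sum, Finset.mul_sum, ← Finset.sum_add_distrib]
    exact Finset.sum_congr rfl fun u _ => by ring
  rw [e4]
  nlinarith [mul_le_mul_of_nonneg_left e3 (H.e0 v),
    mul_le_mul_of_nonneg_left e2 (mul_nonneg (H.e0 v) (D.v0 v v))]

theorem abs_Sk (H : D.Ok τ0) {σ : SM r} (hσ : Rz D.B.length σ) (a b a' b' c d : Fin r) :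
    |Sk D σ a b a' b' c d| ≤ τ0 ^ 3 * 8 := by
  have t := H.tau_mem
  have t0 := H.tau0
  have h := abs_SF_le (L := D.S) (q := fun _ : Fin 3 => D.q) (p := ![a, a', c]) (p' := ![b, b', d])
    (B := Finset.univ) (lenS (D := D) ▸ hσ) fun _ _ => abs_q_le H (hσ.le _ _)
  rw [Sk, abs_mul, abs_of_nonneg (mul_nonneg (mul_nonneg (t _).1 (t _).1) (t _).1)]
  refine mul_le_mul ?_ (h.trans_eq (by simp; norm_num)) (abs_nonneg _) (by positivity)
  rw [pow_succ, sq]
  exact mul_le_mul (mul_le_mul (t _).2 (t _).2 (t _).1 t0) (t _).2 (t _).1 (by positivity)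

/-- one replacement -/
theorem one {C : ℝ} (hC : 0 ≤ C) (H : D.Ok τ0) {σ : SM r} (hσ : Rz D.B.length σ)
    {x y z y' c d : Fin r} {j : ℕ}
    (h : σ c d ≤ σ z c → |TB D σ fun ω => oU D.q j (ω x) (ω y) *
      (oU D.q j (ω z) (ω y') - oU D.q j (ω c) (ω y')) * oU D.q (σ c d) (ω c) (ω d)| ≤
      C * (D.e (σ c d) * (D.v j (σ c d) + D.v (σ c d) (σ c d)) + D.tl)) :
    |TB D σ fun ω => oU D.q j (ω x) (ω y) *
      (oU D.q j (ω z) (ω y') - oU D.q j (ω (rp σ c d z)) (ω y')) * oU D.q (σ c d) (ω c) (ω d)| ≤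
      C * (D.e (σ c d) * (D.v j (σ c d) + D.v (σ c d) (σ c d)) + D.tl) := by
  unfold rp
  split_ifs with e
  · exact h (by rw [hσ.comm z c, e])
  · simp only [sub_self, mul_zero, zero_mul, TB, TM_const wt_one90 hσ, abs_zero]
    exact mul_nonneg hC (add_nonneg (mul_nonneg (H.e0 _) (add_nonneg (D.v0 _ _) (D.v0 _ _))) H.tl0)

end P47

open P47 in
/-- **`RepS`** from `RlS` -/
theorem repS_of (rlS : RlS) : RepS := fun r a b a' b' c d hcd => Bd.val fun τ0 => by
  obtain ⟨C, hC, hR⟩ := rlS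
  refine ⟨2 * C * (τ0 ^ 3 * 8) * (r.factorial * 3 ^ r + 1), fun D H _ => ?_⟩
  have t0 := H.tau0
  have hc : 0 ≤ 2 * C * (τ0 ^ 3 * 8) := by positivity
  refine (abs_avm_le H.mono (g := fun σ => 2 * C * (τ0 ^ 3 * 8) * (Fw D (σ c b) (σ c d) + D.tl))
    fun σ hσ => ?_).trans ?_
  · split_ifs with hX
    swap
    · rw [abs_zero]
      exact mul_nonneg hc (add_nonneg (Fw_nonneg H _ _) H.tl0)
    obtain ⟨h1, h2, h3, h4, h5, h6⟩ := hX
    have u1 := hσ.ultra a' a b'; have u2 := hσ.ultra a b b'; have u3 := hσ.ultra a a' b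
    have u4 := hσ.ultra a' b' b; have u5 := hσ.ultra c a d; have u6 := hσ.ultra c a b
    have u7 := hσ.ultra a c b; have u8 := hσ.ultra a' a c; have u9 := hσ.ultra c b b'
    have u10 := hσ.ultra c b' b
    have c1 := hσ.comm a' a; have c2 := hσ.comm b' b; have c3 := hσ.comm c a
    have c4 := hσ.self c
    have hl : D.B.length = D.K := lenB
    have e1 : σ a b = σ c b := by omega
    have e2 : σ a' b' = σ c b := by omega
    have e3 : σ c b' = σ c b := by omega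
    have e4 : D.J < σ c b := by omega
    have e5 : σ c b < σ c d := by omega
    have e6 : σ (rp σ c d a) b = σ c b ∧ σ c b < σ (rp σ c d a) c := by
      unfold rp
      split_ifs <;> omega
    have k1 := one hC H hσ (x := a') (y := b') (z := a) (y' := b) (c := c) (d := d) (j := σ c b)
      fun h => hR τ0 D H _ σ hσ a' b' a b c d _ _ e4 e5 h6 rfl h e2 (by omega) rfl
    have k2 := one hC H hσ (x := rp σ c d a) (y := b) (z := a') (y' := b') (c := c) (d := d)
      (j := σ c b) fun h => hR τ0 D H _ σ hσ _ b a' b' c d _ _ e4 e5 h6 rfl h e6.1 e6.2 e3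
    have k3 : Bk D σ a b a' b' c d - Bj D σ (σ c b) (rp σ c d a) b (rp σ c d a') b' c d =
        (TB D σ fun ω => oU D.q (σ c b) (ω a') (ω b') * (oU D.q (σ c b) (ω a) (ω b) -
          oU D.q (σ c b) (ω (rp σ c d a)) (ω b)) * oU D.q (σ c d) (ω c) (ω d)) +
        TB D σ fun ω => oU D.q (σ c b) (ω (rp σ c d a)) (ω b) * (oU D.q (σ c b) (ω a') (ω b') -
          oU D.q (σ c b) (ω (rp σ c d a')) (ω b')) * oU D.q (σ c d) (ω c) (ω d) := by
      rw [sub_eq_iff_eq_add]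
      simp only [Bk, Bj, TB, ← TM_add, ed, e1, e2]
      exact congrArg _ (funext fun ω => by ring)
    have k4 : Fw D (σ c b) (σ c d) = D.e (σ c d) * (D.v (σ c b) (σ c d) + D.v (σ c d) (σ c d)) := by
      rw [Fw, if_pos (Finset.mem_Ioo.2 ⟨e4, e5⟩), if_pos h6]
    rw [abs_mul, k3, k4]
    refine (mul_le_mul ((abs_add_le _ _).trans (add_le_add k1 k2)) (abs_Sk H hσ a b a' b' c d)
      (abs_nonneg _) ((abs_nonneg _).trans ((abs_add_le _ _).trans (add_le_add k1 k2)))).trans_eq ?_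
    ring
  · rw [avm_mul, avm_add, avm_const, mul_assoc _ _ D.E0]
    refine mul_le_mul_of_nonneg_left ?_ hc
    have h1 := avm_two H.mono (Fw_nonneg H) (a := c) (b := b) (fun u => by simp [Fw])
      (fun u => by
        unfold Fw
        split_ifs with p q
        · have := (Finset.mem_Ioo.1 p).2
          have : D.B.length = D.K := lenB
          omega
        · rfl
        · rfl) hcd
    have h2 := (BrBr H).trans H.Lad0_le
    have h3 := mul_le_mul_of_nonneg_left h2 (show (0 : ℝ) ≤ r.factorial * 3 ^ r by positivity)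
    have h4 := H.tl_le
    nlinarith

end Crest.Agent.T156.Cas.C394

end
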