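import Crest.Agent.T156.C3D_94
import Crest.Agent.T156.CL3_76

/-!
# Row 156, block C (helper38): the word `[aU, aU, aU]` outside the exception
-/

set_option autoImplicit false
set_option linter.all false

noncomputable section

namespace Crest.Agent.T156.Cas.C394

open Crest.Agent.T157.E Crest.Agent.T157.Casc Crest.Agent.T157.SL
open Crest.Agent.T157.G1 (ov)
open Crest.ProbabilityR.SpinGlassDynamics (spin)
open Mul55 C40 Nu87 Ck32 G90 Site94 Wp52

namespace R38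

variable {r K J : ℕ} {D : CD} {τ0 : ℝ}

/-! ### the four orientations -/

/-- the exception in any orientation of the double edge -/
def X4 (J K : ℕ) (σ : SM r) (a b a' b' c d : Fin r) : Prop :=
  Xc J K σ a b a' b' c d ∨ Xc J K σ a b b' a' c d ∨ Xc J K σ b a a' b' c d ∨ Xc J K σ b a b' a' c d

instance (J K : ℕ) (σ : SM r) (a b a' b' c d : Fin r) : Decidable (X4 J K σ a b a' b' c d) := by
  unfold X4; infer_instance

theorem xc_lev {σ : SM r} {K' : ℕ} (hσ : Rz K' σ) {a b a' b' c d : Fin r}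
    (h : Xc J K σ a b a' b' c d) :
    J < σ a b ∧ σ a' b' = σ a b ∧ σ a b < σ c d ∧ σ c d < K := by
  obtain ⟨h1, h2, h3, h4, h5, h6⟩ := h
  have := hσ.ultra a' a b'; have := hσ.ultra a b b'; have := hσ.ultra a a' b
  have := hσ.ultra a' b' b; have := hσ.ultra c a d
  have := hσ.comm a' a; have := hσ.comm b' b; have := hσ.comm c a
  omega

theorem x4_lev {σ : SM r} {K' : ℕ} (hσ : Rz K' σ) {a b a' b' c d : Fin r}
    (h : X4 J K σ a b a' b' c d) :
    J < σ a b ∧ σ a' b' = σ a b ∧ σ a b < σ c d ∧ σ c d < K := by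
  have := hσ.comm a b; have := hσ.comm a' b'
  rcases h with h | h | h | h <;> have := xc_lev hσ h <;> omega

theorem x4_of {σ : SM r} {K' : ℕ} (hσ : Rz K' σ) {a b a' b' c d : Fin r} (h1 : J < σ a b)
    (h2 : σ a' b' = σ a b) (h3 : σ a b < σ c d) (h4 : σ c d < K) (h5 : ¬Tri σ (σ a b)) :
    X4 J K σ a b a' b' c d := by
  have v : ∀ x, σ a b < σ a x ∨ σ a b < σ b x := fun x => by
    by_contra h'
    exact h5 ⟨a, b, x, le_rfl, by omega, by omega⟩
  have u : ∀ a x y, min (σ a x) (σ a y) ≤ σ x y := fun a x y => hσ.comm x a ▸ hσ.ultra x a y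
  have w : ∀ x y, σ a b < σ x y → (σ a b < σ a x ↔ σ a b < σ a y) ∧
      (σ a b < σ b x ↔ σ a b < σ b y) := fun x y h => by
    have := hσ.ultra a x y; have := hσ.ultra a y x; have := hσ.ultra b x y
    have := hσ.ultra b y x; have := hσ.comm x y
    omega
  have := v a'; have := v b'; have := v c; have := w c d h3
  have := u a a' b'; have := u b a' b'; have := hσ.comm a b
  unfold X4 Xc
  omega

/-! ### the term -/

/-- bulk factor times site factor -/
def Tm (D : CD) (σ : SM r) (a b a' b' c d : Fin r) : ℝ :=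
  Bk D σ a b a' b' c d * Sk D σ a b a' b' c d

theorem Tm_eq (σ : SM r) (a b a' b' c d : Fin r) : Tm D σ a b a' b' c d =
    TB D σ (fun x => ed (oU D.q) a b x σ * ed (oU D.q) a' b' x σ * ed (oU D.q) c d x σ) *
      (D.τ (σ a b) * D.τ (σ a' b') * D.τ (σ c d) * Ck32.TS D σ fun x =>
        ed (et D.q) a b x σ * ed (et D.q) a' b' x σ * ed (et D.q) c d x σ) := by
  simp only [Tm, Bk, Sk, SF, Ck32.TS, Fin.prod_univ_three]
  rfl

theorem edU_comm {σ : SM r} {K' : ℕ} (hσ : Rz K' σ) (a b : Fin r) (x : Fin r → Cube D.n) :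
    ed (oU D.q) b a x σ = ed (oU D.q) a b x σ := by
  simp only [ed, oU, hσ.comm b a, Crest.Agent.T157.G1.ov, dotProduct_comm (_ : Fin D.n → ℝ) (_ : Fin D.n → ℝ)]

theorem edE_comm {σ : SM r} {K' : ℕ} (hσ : Rz K' σ) (a b : Fin r) (x : Fin r → Bool) :
    ed (et D.q) b a x σ = ed (et D.q) a b x σ := by
  simp only [ed, et, hσ.comm b a, mul_comm (spin (x b))]

theorem Tm_s1 {σ : SM r} {K' : ℕ} (hσ : Rz K' σ) (a b a' b' c d : Fin r) :
    Tm D σ b a a' b' c d = Tm D σ a b a' b' c d := by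
  simp only [Tm_eq, edU_comm hσ a b, edE_comm hσ a b, hσ.comm b a]

theorem Tm_s2 {σ : SM r} {K' : ℕ} (hσ : Rz K' σ) (a b a' b' c d : Fin r) :
    Tm D σ a b b' a' c d = Tm D σ a b a' b' c d := by
  simp only [Tm_eq, edU_comm hσ a' b', edE_comm hσ a' b', hσ.comm b' a']

theorem Tm_p1 (σ : SM r) (a b a' b' c d : Fin r) :
    Tm D σ a b c d a' b' = Tm D σ a b a' b' c d := by
  simp only [Tm_eq, mul_right_comm _ (ed _ c d _ σ), mul_right_comm _ (D.τ (σ c d))]

theorem Tm_p2 (σ : SM r) (a b a' b' c d : Fin r) :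
    Tm D σ a' b' c d a b = Tm D σ a b a' b' c d := by
  simp only [Tm_eq, mul_comm _ (ed _ a b _ σ), mul_comm _ (D.τ (σ a b)), mul_assoc]

/-- one exceptional graph -/
def E1 (D : CD) (a b a' b' c d : Fin r) (σ : SM r) : ℝ :=
  if Xc D.J D.K σ a b a' b' c d then Tm D σ a b a' b' c d else 0

/-- the four orientations -/
def E4 (D : CD) (a b a' b' c d : Fin r) (σ : SM r) : ℝ :=
  E1 D a b a' b' c d σ + E1 D a b b' a' c d σ + E1 D b a a' b' c d σ + E1 D b a b' a' c d σ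

theorem E4_eq {σ : SM r} {K' : ℕ} (hσ : Rz K' σ) (a b a' b' c d : Fin r) :
    E4 D a b a' b' c d σ = if X4 D.J D.K σ a b a' b' c d then Tm D σ a b a' b' c d else 0 := by
  have := hσ.ultra a a' b; have := hσ.ultra a c b; have := hσ.comm a' b; have := hσ.comm c b
  have := hσ.comm a b
  simp only [E4, E1, Tm_s1 hσ a b, Tm_s2 hσ a b a' b', X4]
  by_cases h1 : Xc D.J D.K σ a b a' b' c d <;> by_cases h2 : Xc D.J D.K σ a b b' a' c d <;>
    by_cases h3 : Xc D.J D.K σ b a a' b' c d <;> by_cases h4 : Xc D.J D.K σ b a b' a' c d <;>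
    simp only [h1, h2, h3, h4, if_true, if_false, add_zero, zero_add, true_or, or_true, or_self] <;>
    (exfalso; unfold Xc at *; omega)

theorem bd_E4 (hE : ExcS) (r : ℕ) (a b a' b' c d : Fin (r + 1)) (h : c ≠ d) :
    Bd false fun D => avm D.B r (E4 D a b a' b' c d) :=
  ((((hE r a b a' b' c d h).add (hE r a b b' a' c d h)).add (hE r b a a' b' c d h)).add
    (hE r b a b' a' c d h)).congr fun _ D _ _ => by
      rw [← avm_add, ← avm_add, ← avm_add]; rfl

/-! ### the good graphs -/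

/-- the parity constant -/
def cE (r : ℕ) : ℝ := cP r (2 * (cP 2 2 + 1)) * (cP 2 2 + 1)

theorem cE_nonneg (r : ℕ) : 0 ≤ cE r :=
  mul_nonneg (cP_nonneg _ _) (by linarith [cP_nonneg 2 2])

/-- an odd cluster at a cut below the upper level `t` costs `e t` -/
theorem sf_par (H : D.Ok τ0) (hW : D.W.isSome = false) {σ : SM r} (hσ : Rz D.B.length σ)
    {ι : Type} [DecidableEq ι] {p p' : ι → Fin r} {B : Finset ι} {j t : ℕ} (ht : t ∈ D.up)
    (hj : j ≤ t) (ho : OddAt σ p p' B j) :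
    |SF D.S (fun _ => D.q) p p' B σ| ≤ 2 ^ B.card * cE r * D.e t := by
  refine le_of_eps76 (mul_nonneg (by positivity) (cE_nonneg r)) fun ε h0 h1 => ?_
  obtain ⟨s, s0, s1, s2, -, s4, s5⟩ := size76 H ht h0 h1
  refine (L376.SF_odd2 (L := D.S) (ℓ := opV D.n D.β D.M D.q) (C.forall₂_sl spin (opV_nn H.ook))
    (Cav22.mono_tilt tilt_opS.symm H.mono) (lenS (D := D) ▸ hσ)
    (fun _ _ => abs_q_le H (hσ.le _ _)) ho s0 hj s4 fun _ _ h => s5 _ (h.trans hj)).trans ?_
  rw [mul_assoc]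
  exact mul_le_mul_of_nonneg_left (cP_le76 r s0 s1 s2) (by positivity)

/-- the bound carried by one edge -/
def ph (D : CD) (a b : Fin r) (σ : SM r) : ℝ :=
  cE r * upF D (fun j => D.e j * D.u 3 j) (σ a b) +
    (if Out id σ a b then upF D (D.u 3) (σ a b) else 0) + 8 * if σ a b = D.K then 1 else 0

theorem ph_parts (H : D.Ok τ0) (a b : Fin r) (σ : SM r) :
    0 ≤ cE r * upF D (fun j => D.e j * D.u 3 j) (σ a b) ∧
      0 ≤ (if Out id σ a b then upF D (D.u 3) (σ a b) else 0) ∧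
      (0 : ℝ) ≤ 8 * if σ a b = D.K then 1 else 0 := by
  refine ⟨mul_nonneg (cE_nonneg r) (upF_nonneg (fun j => mul_nonneg (H.e0 j) (D.u0 3 j)) _), ?_,
    by positivity⟩
  split_ifs
  exacts [upF_nonneg (D.u0 3) _, le_rfl]

theorem ph_nonneg (H : D.Ok τ0) (a b : Fin r) (σ : SM r) : 0 ≤ ph D a b σ :=
  let ⟨h1, h2, h3⟩ := ph_parts H a b σ
  add_nonneg (add_nonneg h1 h2) h3

theorem ex_le_e (H : D.Ok τ0) {j : ℕ} (hj : j ∈ D.up) : ex D.B j ≤ D.e j :=
  (le_min (Tay38.ex_le_one H.mono j)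
    (le_add_of_nonneg_right (H.sig0 (CD.mem_up.1 hj).2.le))).trans (H.esc j hj)

theorem avm_ph (H : D.Ok τ0) {a b : Fin (r + 1)} (hab : a ≠ b) :
    avm D.B r (ph D a b) ≤ (cE (r + 1) + (r + 1)) * D.I fun j => D.e j * D.g j ^ 3 := by
  have h1 := avm_pair D.B (upF D fun j => D.e j * D.u 3 j) r hab
  have h2 := avm_out H.mono id (upF_nonneg (D := D) (D.u0 3)) hab
  have h3 := avm_pair D.B (fun j => if j = D.K then (1 : ℝ) else 0) r hab
  have h4 : ∑ j ∈ Finset.range (D.B.length + 1), dm D.B 0 j * (ex D.B (id j) * upF D (D.u 3) j) ≤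
      Br D.B (upF D fun j => D.e j * D.u 3 j) := Finset.sum_le_sum fun j hj => by
    have hj' : j ≤ D.K := lenB (D := D) ▸ Nat.lt_succ_iff.1 (Finset.mem_range.1 hj)
    rcases hj'.lt_or_eq with h | rfl
    · refine mul_le_mul_of_nonneg_left ?_ (H.dx0 j)
      unfold upF
      split_ifs with h5
      · exact mul_le_mul_of_nonneg_right (ex_le_e H (CD.mem_up.2 ⟨h5, h⟩)) (D.u0 3 j)
      · exact (mul_zero _).le
    · rw [show dm D.B 0 D.K = 0 from H.top, zero_mul, zero_mul]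
  have h5 : ∑ j ∈ Finset.range (D.B.length + 1), dm D.B 0 j * (if j = D.K then (1 : ℝ) else 0) = 0 :=
    Finset.sum_eq_zero fun j _ => by
      split_ifs with h
      · rw [h, show dm D.B 0 D.K = 0 from H.top, zero_mul]
      · exact mul_zero _
  have h6 : Br D.B (upF D fun j => D.e j * D.u 3 j) = D.I fun j => D.e j * D.g j ^ 3 := by
    simp only [Br_upF H, D.g_cube]
  have h7 := h2.trans (mul_le_mul_of_nonneg_left h4 (by positivity))
  change _ = Br D.B _ at h1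
  unfold ph
  rw [avm_add, avm_add, avm_mul, avm_mul, h1, h3, h5, ← h6]
  linarith

theorem amgm3 (x y z : ℝ) : |x * y * z| ≤ |x| ^ 3 + |y| ^ 3 + |z| ^ 3 := by
  simpa [Fin.prod_univ_three, Fin.sum_univ_three] using
    prod_le_sum_pow (B := (Finset.univ : Finset (Fin 3))) Finset.univ_nonempty ![x, y, z]

theorem abs_Bk {σ : SM r} (hσ : Rz D.B.length σ) {a b a' b' c d : Fin r} (h1 : a ≠ b)
    (h2 : a' ≠ b') (h3 : c ≠ d) :
    |Bk D σ a b a' b' c d| ≤ D.u 3 (σ a b) + D.u 3 (σ a' b') + D.u 3 (σ c d) := by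
  refine (abs_TB_le hσ fun x => amgm3 _ _ _).trans_eq ?_
  rw [← TB_pow hσ h1, ← TB_pow hσ h2, ← TB_pow hσ h3, TB, TM_add, TM_add]
  rfl

theorem abs_Bk' (H : D.Ok τ0) {σ : SM r} (hσ : Rz D.B.length σ) (a b a' b' c d : Fin r) :
    |Bk D σ a b a' b' c d| ≤ 8 := by
  have u : ∀ (a b : Fin r) (x : Fin r → Cube D.n), |ed (oU D.q) a b x σ| ≤ 2 := fun a b x =>
    abs_oU_le H.ook ((hσ.le a b).trans_eq lenB) _ _
  refine (abs_TB_le hσ (G := fun _ => 8) fun x => ?_).trans_eq (TM_const wt_one90 hσ 8)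
  rw [abs_mul, abs_mul]
  exact (mul_le_mul (mul_le_mul (u _ _ x) (u _ _ x) (abs_nonneg _) zero_le_two) (u _ _ x)
    (abs_nonneg _) (by norm_num)).trans_eq (by norm_num)

theorem abs_Sk (H : D.Ok τ0) (σ : SM r) (a b a' b' c d : Fin r) {s : ℝ}
    (h : |SF D.S (fun _ => D.q) ![a, a', c] ![b, b', d] Finset.univ σ| ≤ s) :
    |Sk D σ a b a' b' c d| ≤ τ0 ^ 3 * s := by
  have t := H.tau_mem
  have t0 := H.tau0
  rw [Sk, abs_mul, abs_of_nonneg (mul_nonneg (mul_nonneg (t _).1 (t _).1) (t _).1)]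
  refine mul_le_mul ?_ h (abs_nonneg _) (by positivity)
  rw [pow_succ, sq]
  exact mul_le_mul (mul_le_mul (t _).2 (t _).2 (t _).1 t0) (t _).2 (t _).1 (by positivity)

/-- all edges above the cut -/
def U3 (J : ℕ) (σ : SM r) (a b a' b' c d : Fin r) : Prop := J < σ a b ∧ J < σ a' b' ∧ J < σ c d

instance (J : ℕ) (σ : SM r) (a b a' b' c d : Fin r) : Decidable (U3 J σ a b a' b' c d) := by
  unfold U3; infer_instance

theorem good_le (H : D.Ok τ0) (hW : D.W.isSome = false) {σ : SM r} (hσ : Rz D.B.length σ)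
    {a b a' b' c d : Fin r} (h1 : a ≠ b) (h2 : a' ≠ b') (h3 : c ≠ d)
    (hU : U3 D.J σ a b a' b' c d) (x1 : ¬X4 D.J D.K σ a b a' b' c d)
    (x2 : ¬X4 D.J D.K σ a b c d a' b') (x3 : ¬X4 D.J D.K σ a' b' c d a b) :
    |Tm D σ a b a' b' c d| ≤ τ0 ^ 3 * 8 * (ph D a b σ + ph D a' b' σ + ph D c d σ) := by
  have t0 := H.tau0
  have c8 : (2 : ℝ) ^ (Finset.univ : Finset (Fin 3)).card = 8 := by norm_num
  have hS : |SF D.S (fun _ => D.q) ![a, a', c] ![b, b', d] Finset.univ σ| ≤ 8 :=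
    (abs_SF_le (lenS (D := D) ▸ hσ) fun _ _ => abs_q_le H (hσ.le _ _)).trans_eq c8
  obtain ⟨p1, p2, p3⟩ := ph_parts H a b σ
  obtain ⟨q1, q2, q3⟩ := ph_parts H a' b' σ
  obtain ⟨r1, r2, r3⟩ := ph_parts H c d σ
  obtain ⟨u1, u2, u3⟩ := hU
  rw [Tm, abs_mul]
  by_cases hK : σ a b = D.K ∨ σ a' b' = D.K ∨ σ c d = D.K
  · refine (mul_le_mul (abs_Bk' H hσ _ _ _ _ _ _) (abs_Sk H σ _ _ _ _ _ _ hS) (abs_nonneg _)
      (by norm_num)).trans ?_
    rw [mul_comm]
    refine mul_le_mul_of_nonneg_left ?_ (by positivity)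
    unfold ph
    rcases hK with h | h | h
    · rw [if_pos h]; linarith
    · rw [if_pos h]; linarith
    · rw [if_pos h]; linarith
  have l1 := lenB (D := D) ▸ hσ.le a b
  have l2 := lenB (D := D) ▸ hσ.le a' b'
  have l3 := lenB (D := D) ▸ hσ.le c d
  have k1 : σ a b < D.K := by omega
  have k2 : σ a' b' < D.K := by omega
  have k3 : σ c d < D.K := by omega
  have hB := abs_Bk (D := D) hσ h1 h2 h3
  have n1 := D.u0 3 (σ a b)
  have n2 := D.u0 3 (σ a' b')
  have n3 := D.u0 3 (σ c d)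
  have hx : ¬Exc id ![a, a', c] ![b, b', d] σ := by
    rintro ⟨i, i', i'', m1, m2, m3, e1, e2, e3⟩
    fin_cases i <;> fin_cases i' <;> fin_cases i'' <;>
      first
      | exact absurd rfl m1
      | exact absurd rfl m2
      | exact absurd rfl m3
      | skip
    · exact x1 (x4_of hσ u1 e1 e2 k3 e3)
    · exact x2 (x4_of hσ u1 e1 e2 k2 e3)
    · exact x1 (x4_of hσ u1 e1.symm (e1.trans_lt e2) k3 (e1 ▸ e3))
    · exact x3 (x4_of hσ u2 e1 e2 k1 e3)
    · exact x2 (x4_of hσ u1 e1.symm (e1.trans_lt e2) k2 (e1 ▸ e3))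
    · exact x3 (x4_of hσ u2 e1.symm (e1.trans_lt e2) k1 (e1 ▸ e3))
  rcases good_three hσ (c := id) monotone_id (fun _ => le_rfl) hx with ⟨j, ho, hj⟩ | ho
  · have key : ∀ t ∈ D.up, j ≤ t → D.u 3 t * |Sk D σ a b a' b' c d| ≤
        τ0 ^ 3 * 8 * (cE r * upF D (fun j => D.e j * D.u 3 j) t) := fun t ht hjt => by
      have := abs_Sk H σ _ _ _ _ _ _ (sf_par H hW hσ ht hjt ho)
      rw [c8] at this
      refine (mul_le_mul_of_nonneg_left this (D.u0 3 t)).trans_eq ?_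
      rw [upF, if_pos (CD.mem_up.1 ht).1]
      ring
    have a1 := key _ (CD.mem_up.2 ⟨u1, k1⟩) (hj 0 (Finset.mem_univ _))
    have a2 := key _ (CD.mem_up.2 ⟨u2, k2⟩) (hj 1 (Finset.mem_univ _))
    have a3 := key _ (CD.mem_up.2 ⟨u3, k3⟩) (hj 2 (Finset.mem_univ _))
    have a4 := mul_le_mul_of_nonneg_right hB (abs_nonneg (Sk D σ a b a' b' c d))
    have a5 : 0 ≤ τ0 ^ 3 * 8 := by positivity
    unfold ph
    nlinarith [mul_nonneg a5 p2, mul_nonneg a5 p3, mul_nonneg a5 q2, mul_nonneg a5 q3,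
      mul_nonneg a5 r2, mul_nonneg a5 r3]
  · refine (mul_le_mul hB (abs_Sk H σ _ _ _ _ _ _ hS) (abs_nonneg _) (by positivity)).trans ?_
    rw [mul_comm]
    refine mul_le_mul_of_nonneg_left ?_ (by positivity)
    have o1 : Out id σ a b := ho 0 (Finset.mem_univ _)
    have o2 : Out id σ a' b' := ho 1 (Finset.mem_univ _)
    have o3 : Out id σ c d := ho 2 (Finset.mem_univ _)
    have e : ∀ t, D.J < t → upF D (D.u 3) t = D.u 3 t := fun t h => if_pos h
    unfold ph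
    rw [if_pos o1, if_pos o2, if_pos o3, e _ u1, e _ u2, e _ u3]
    linarith

/-- one graph -/
def G3 (D : CD) (a b a' b' c d : Fin r) (σ : SM r) : ℝ :=
  if U3 D.J σ a b a' b' c d then Tm D σ a b a' b' c d else 0

theorem rm_le (H : D.Ok τ0) (hW : D.W.isSome = false) {σ : SM r} (hσ : Rz D.B.length σ)
    {a b a' b' c d : Fin r} (h1 : a ≠ b) (h2 : a' ≠ b') (h3 : c ≠ d) :
    |G3 D a b a' b' c d σ - (E4 D a b a' b' c d σ + E4 D a b c d a' b' σ + E4 D a' b' c d a b σ)| ≤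
      τ0 ^ 3 * 8 * (ph D a b σ + ph D a' b' σ + ph D c d σ) := by
  have h0 : 0 ≤ τ0 ^ 3 * 8 * (ph D a b σ + ph D a' b' σ + ph D c d σ) :=
    mul_nonneg (by have := H.tau0; positivity) (add_nonneg (add_nonneg (ph_nonneg H _ _ _)
      (ph_nonneg H _ _ _)) (ph_nonneg H _ _ _))
  rw [E4_eq hσ, E4_eq hσ, E4_eq hσ, Tm_p1 σ a b a' b' c d, Tm_p2 σ a b a' b' c d, G3]
  have y1 := fun h => x4_lev (J := D.J) (K := D.K) hσ (a := a) (b := b) (a' := a') (b' := b')
    (c := c) (d := d) h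
  have y2 := fun h => x4_lev (J := D.J) (K := D.K) hσ (a := a) (b := b) (a' := c) (b' := d)
    (c := a') (d := b') h
  have y3 := fun h => x4_lev (J := D.J) (K := D.K) hσ (a := a') (b := b') (a' := c) (b' := d)
    (c := a) (d := b) h
  by_cases x1 : X4 D.J D.K σ a b a' b' c d
  · have := y1 x1
    rw [if_pos x1, if_pos (show U3 D.J σ a b a' b' c d from ⟨by omega, by omega, by omega⟩),
      if_neg fun h => by have := y2 h; omega, if_neg fun h => by have := y3 h; omega]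
    simpa using h0
  by_cases x2 : X4 D.J D.K σ a b c d a' b'
  · have := y2 x2
    rw [if_neg x1, if_pos x2,
      if_pos (show U3 D.J σ a b a' b' c d from ⟨by omega, by omega, by omega⟩),
      if_neg fun h => by have := y3 h; omega]
    simpa using h0
  by_cases x3 : X4 D.J D.K σ a' b' c d a b
  · have := y3 x3
    rw [if_neg x1, if_neg x2, if_pos x3,
      if_pos (show U3 D.J σ a b a' b' c d from ⟨by omega, by omega, by omega⟩)]
    simpa using h0
  rw [if_neg x1, if_neg x2, if_neg x3, add_zero, add_zero, sub_zero]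
  split_ifs with hU
  · exact good_le H hW hσ h1 h2 h3 hU x1 x2 x3
  · rwa [abs_zero]

theorem bd_G3 (hE : ExcS) (r : ℕ) (a b a' b' c d : Fin (r + 1)) (h1 : a ≠ b) (h2 : a' ≠ b')
    (h3 : c ≠ d) : Bd false fun D => avm D.B r (G3 D a b a' b' c d) := by
  have k : Bd false fun D => avm D.B r fun σ => G3 D a b a' b' c d σ -
      (E4 D a b a' b' c d σ + E4 D a b c d a' b' σ + E4 D a' b' c d a b σ) := Bd.mk' fun τ0 =>
    ⟨τ0 ^ 3 * 8 * (3 * (cE (r + 1) + (r + 1))), fun D H hW => by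
      refine (abs_avm_le H.mono fun σ hσ => rm_le H hW hσ h1 h2 h3).trans ?_
      rw [avm_mul, avm_add, avm_add, mul_assoc (τ0 ^ 3 * 8)]
      refine mul_le_mul_of_nonneg_left ?_ (by have := H.tau0; positivity)
      have := mul_le_mul_of_nonneg_left (H.Ig3_le hW)
        (show 0 ≤ cE (r + 1) + (r + 1) from add_nonneg (cE_nonneg _) (by positivity))
      linarith [avm_ph H h1, avm_ph H h2, avm_ph H h3]⟩
  refine (k.add (((bd_E4 hE r a b a' b' c d h3).add (bd_E4 hE r a b c d a' b' h2)).add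
    (bd_E4 hE r a' b' c d a b h1))).congr fun _ D _ _ => ?_
  rw [avm_sub, avm_add, avm_add]
  ring

/-- a finite family has one constant -/
theorem unif {b : Bool} {α : Type*} (A : Finset α) {g : α → CD → ℝ} (h : ∀ i ∈ A, Bd b (g i))
    (τ0 : ℝ) : ∃ C : ℝ, ∀ i ∈ A, ∀ D : CD, D.Ok τ0 → D.W.isSome = b → |g i D| ≤ C * D.Err := by
  obtain ⟨C, -, hC⟩ := Bd.sum A (g := fun i D => |g i D|)
    (fun i hi => (h i hi).of_le fun _ _ _ _ => (abs_abs _).le) τ0
  exact ⟨C, fun i hi D H hW => (Finset.single_le_sum (f := fun i => |g i D|)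
    (fun _ _ => abs_nonneg _) hi).trans ((le_abs_self _).trans (hC D H hW))⟩

theorem lt_aU (j : ℕ) (x y : Cube D.n) : (lt D.n D.β D.M D.q D.cl C40.aU).1 j x y =
    if D.J < j then D.τ j / 2 * oU D.q j x y else 0 := by
  by_cases h : D.J < j <;> simp [lt, cut, CD.cl, oUb, h, not_le.2, not_lt.1]

theorem phi_eq {σ : SM r} (hσ : Rz D.B.length σ) (a b a' b' c d : Fin r) :
    TB D σ (eF [(lt D.n D.β D.M D.q D.cl C40.aU).1, (lt D.n D.β D.M D.q D.cl C40.aU).1,
        (lt D.n D.β D.M D.q D.cl C40.aU).1] σ [(c, d), (a', b'), (a, b)]) *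
      Ck32.TS D σ (eF [(lt D.n D.β D.M D.q D.cl C40.aU).2, (lt D.n D.β D.M D.q D.cl C40.aU).2,
        (lt D.n D.β D.M D.q D.cl C40.aU).2] σ [(c, d), (a', b'), (a, b)]) =
      1 / 8 * G3 D a b a' b' c d σ := by
  have e2 : eF [(lt D.n D.β D.M D.q D.cl C40.aU).2, (lt D.n D.β D.M D.q D.cl C40.aU).2,
      (lt D.n D.β D.M D.q D.cl C40.aU).2] σ [(c, d), (a', b'), (a, b)] = fun x =>
        ed (et D.q) a b x σ * ed (et D.q) a' b' x σ * ed (et D.q) c d x σ := funext fun x => by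
    simp only [eF, one_mul]
    rfl
  rw [e2, G3]
  split_ifs with h
  · have e1 : eF [(lt D.n D.β D.M D.q D.cl C40.aU).1, (lt D.n D.β D.M D.q D.cl C40.aU).1,
        (lt D.n D.β D.M D.q D.cl C40.aU).1] σ [(c, d), (a', b'), (a, b)] = fun x =>
        (D.τ (σ a b) * D.τ (σ a' b') * D.τ (σ c d) / 8) *
          (ed (oU D.q) a b x σ * ed (oU D.q) a' b' x σ * ed (oU D.q) c d x σ) := funext fun x => by
      simp only [eF, lt_aU, if_pos h.1, if_pos h.2.1, if_pos h.2.2, ed]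
      ring
    rw [e1, Tm_eq, TB, TM_mul, TB]
    ring
  · have e1 : eF [(lt D.n D.β D.M D.q D.cl C40.aU).1, (lt D.n D.β D.M D.q D.cl C40.aU).1,
        (lt D.n D.β D.M D.q D.cl C40.aU).1] σ [(c, d), (a', b'), (a, b)] = fun _ => 0 :=
      funext fun x => by
        simp only [eF, lt_aU]
        unfold U3 at h
        split_ifs <;> first | omega | simp
    rw [e1, TB, TM_const wt_one90 hσ, zero_mul, mul_zero]

/-- three edges -/
abbrev V3 (r : ℕ) : Type :=
  (Fin (r + 1) × Fin (r + 1)) × (Fin (r + 1) × Fin (r + 1)) × (Fin (r + 1) × Fin (r + 1))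

/-- without loops -/
def ok3 (r : ℕ) : Finset (V3 r) :=
  Finset.univ.filter fun v => v.1.1 ≠ v.1.2 ∧ v.2.1.1 ≠ v.2.1.2 ∧ v.2.2.1 ≠ v.2.2.2

end R38

open R38

/-- **everything but the exception is good** -/
theorem redS : RedS := fun hE => Bd.mk' fun τ0 => by
  obtain ⟨C, hC⟩ := unif (b := false) (α := Σ r : ℕ, V3 r) ((Finset.range 6).sigma ok3)
    (g := fun i D => avm D.B i.1 (G3 D i.2.1.1 i.2.1.2 i.2.2.1.1 i.2.2.1.2 i.2.2.2.1 i.2.2.2.2))
    (fun i hi => by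
      have := (Finset.mem_filter.1 (Finset.mem_sigma.1 hi).2).2
      exact bd_G3 hE _ _ _ _ _ _ _ this.1 this.2.1 this.2.2) τ0
  refine ⟨cG 2 * (1 / 8 * C), fun D H hW => ?_⟩
  have e : D.tw [C40.aU, C40.aU, C40.aU] = tm D.n D.β D.M D.q D.cl [C40.aU, C40.aU, C40.aU] :=
    CD.dd_val hW _ _
  rw [e, tm_eq H.pos H.ook, List.map_cons, lamB, frame, mul_assoc, mul_assoc]
  refine abs_LamG_dm _ _ fun r hr E hl hO => ?_
  obtain ⟨⟨c, d⟩, ⟨a', b'⟩, ⟨a, b⟩, rfl⟩ := List.length_eq_three.1 hl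
  have := hC ⟨r, (a, b), (a', b'), (c, d)⟩ (Finset.mem_sigma.2 ⟨Finset.mem_range.2
    (Nat.lt_succ_of_le hr), Finset.mem_filter.2 ⟨Finset.mem_univ _, hO (a, b) (by simp),
      hO (a', b') (by simp), hO (c, d) (by simp)⟩⟩) D H hW
  refine (congrArg abs ((avm_congr _ r fun σ hσ => phi_eq hσ a b a' b' c d).trans
    (avm_mul _ _ _ _))).trans_le ?_
  rw [abs_mul, abs_of_pos (by norm_num : (0 : ℝ) < 1 / 8)]
  exact mul_le_mul_of_nonneg_left this (by norm_num)

end Crest.Agent.T156.Cas.C394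

end
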