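import Crest.Agent.T156.WLab_90
import Crest.Agent.T156.NuC_87
import Crest.Agent.T156.Mul_55

/-!
# Row 156: the graph frame for words of graft sums (helper90)

A graph functional is a function of a split matrix and of a list of edges.  `DG` adds one edge.
Words of `Dop` and of `wB` are iterates of `DG`; after averaging over the split matrix they are
finite signed sums of graph values.
-/

set_option autoImplicit false
set_option linter.unusedSectionVars false

noncomputable section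

namespace Crest.Agent.T156.Cas.G90

open MeasureTheory Real Set Filter Topology
open Crest.Agent.T157.E Crest.Agent.T157.Casc Crest.Agent.T157.SL
open Wt87 Nu87 W90 Mul55

variable {Ω S Θ : Type} {r : ℕ}

/-- lists of edges -/
abbrev EL (r : ℕ) : Type := List (Fin r × Fin r)

/-- relabelling -/
def EL.re {r' : ℕ} (E : EL r) (ι : Fin r → Fin r') : EL r' := E.map (Prod.map ι ι)

/-- no loops -/
def EL.Ok (E : EL r) : Prop := ∀ e ∈ E, e.1 ≠ e.2

/-- functions of the split matrix and of the edges -/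
abbrev GF : Type := (r : ℕ) → SM r → EL r → ℝ

/-- **one more edge** (`ε = -1`; `ε = 1` is the total variation) -/
def DG (ε : ℝ) (M : List (Lv Θ)) (Φ : GF) : GF := fun r σ E =>
  ∑ a, ∑ b ∈ Finset.univ.erase a, Φ r σ ((a, b) :: E) +
  ε * Ws M σ (fun a j => ∑ b : Fin r, Φ (r + 1) (gr M.length σ a j) ((b.succ, 0) :: E.re Fin.succ) +
    ∑ b : Fin r, Φ (r + 1) (gr M.length σ a j) ((0, b.succ) :: E.re Fin.succ)) +
  Ws M σ fun a j => Ws M (gr M.length σ a j) fun c k =>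
    Φ (r + 2) (gr M.length (gr M.length σ a j) c k) ((0, 1) :: E.re fun b => b.succ.succ)

theorem re_id (E : EL r) : E.re id = E := by simp [EL.re]

theorem re_re {r' r'' : ℕ} (E : EL r) (ι : Fin r → Fin r') (κ : Fin r' → Fin r'') :
    (E.re ι).re κ = E.re fun a => κ (ι a) := by
  simp only [EL.re, List.map_map]
  rfl

theorem re_cons {r' : ℕ} (a b : Fin r) (E : EL r) (ι : Fin r → Fin r') :
    EL.re ((a, b) :: E) ι = (ι a, ι b) :: E.re ι := rfl

theorem re_length {r' : ℕ} (E : EL r) (ι : Fin r → Fin r') : (E.re ι).length = E.length :=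
  List.length_map _

theorem EL.Ok.re {r' : ℕ} {E : EL r} (h : E.Ok) {ι : Fin r → Fin r'} (hι : Function.Injective ι) :
    (E.re ι).Ok := fun e he => by
  obtain ⟨e, he', rfl⟩ := List.mem_map.1 he
  exact fun h' => h e he' (hι h')

theorem EL.Ok.cons {E : EL r} (h : E.Ok) {a b : Fin r} (hab : a ≠ b) : EL.Ok ((a, b) :: E) :=
  fun e he => by
    rcases List.mem_cons.1 he with rfl | he
    exacts [hab, h e he]

theorem Ws_cw (M : List (Lv Θ)) {s : Sh} (e : Fin r ≃ s.Lf) {G : Fin r → ℕ → ℝ}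
    (h : NCm (sm s e M.length) G) : Ws M (sm s e M.length) G =
      ∑ a, ∑ j ∈ Finset.range (M.length + 1), cw s M (e a) j * G a j := by
  rw [Ws_eq_Wn M e h, ← sum_cw_eq, ← e.sum_comp]
  refine Finset.sum_congr rfl fun a _ => Finset.sum_congr rfl fun j hj => ?_
  rw [e.symm_apply_apply, min_eq_left (Nat.lt_succ_iff.1 (Finset.mem_range.1 hj))]

/-- the graft sums of `Cav_22` in the graph frame -/
theorem sg_DG (ε : ℝ) (M : List (Lv Θ)) {s : Sh} (e : Fin r ≃ s.Lf) (Φ : GF) (E : EL r)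
    {T : GT s → ℝ} (H : ∀ τ : GT s, τ.Mem s M.length → ∀ (r' : ℕ) (e' : Fin r' ≃ τ.sh.Lf)
      (ι : Fin r → Fin r') (p q : Fin r'), (∀ a, e' (ι a) = τ.e (e a)) → e' p = τ.p → e' q = τ.q →
        T τ = Φ r' (sm τ.sh e' M.length) ((p, q) :: E.re ι)) :
    sg ε M s T = DG ε M Φ r (sm s e M.length) E := by
  have hσ : Rz M.length (sm s e M.length) := ⟨s, e, rfl⟩
  have rg : ∀ {j n}, j ∈ Finset.range (n + 1) → j ≤ n := fun h =>
    Nat.lt_succ_iff.1 (Finset.mem_range.1 h)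
  rw [sg, DG]
  congr 1
  · congr 1
    · rw [← e.sum_comp]
      refine Finset.sum_congr rfl fun a _ => (Finset.sum_equiv e (by simp) fun b hb => ?_).symm
      rw [H _ (.g0 fun h => Finset.ne_of_mem_erase hb (e.injective h)) r e id a b (fun _ => rfl)
        rfl rfl, re_id]
      rfl
    · rw [Ws_cw M e (hσ.ncm fun σ => ∑ b : Fin r, Φ (r + 1) σ ((b.succ, 0) :: E.re Fin.succ) +
        ∑ b : Fin r, Φ (r + 1) σ ((0, b.succ) :: E.re Fin.succ)), ← e.sum_comp]
      congr 1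
      refine Finset.sum_congr rfl fun a _ => Finset.sum_congr rfl fun j hj => ?_
      rw [← e.sum_comp, ← e.sum_comp, ← sm_gr]
      congr 2
      · exact Finset.sum_congr rfl fun b _ => H _ (.g1 _ (e b) (rg hj)) _ (grE e (e a) j) Fin.succ b.succ 0
          (fun _ => rfl) rfl rfl
      · exact Finset.sum_congr rfl fun b _ => H _ (.g1' _ (e b) (rg hj)) _ (grE e (e a) j) Fin.succ 0 b.succ
          (fun _ => rfl) rfl rfl
  · set φ : SM (r + 2) → ℝ := fun σ => Φ (r + 2) σ ((0, 1) :: E.re fun b => b.succ.succ) with hφ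
    have e1 : ∀ (a : Fin r) (j : ℕ), j ≤ M.length → (Ws M (gr M.length (sm s e M.length) a j)
        fun c k => φ (gr M.length (gr M.length (sm s e M.length) a j) c k)) = _ :=
      fun a j hj => Ws_gr M hσ a hj ((hσ.gr a j).ncm φ)
    have n1 : ∀ b k, NCm (sm s e M.length) fun a j =>
        φ (gr M.length (gr M.length (sm s e M.length) b k) a.succ j) := fun b k a c j h =>
      (hσ.gr b k).ncm φ a.succ c.succ j h
    change _ = Ws M _ fun a j => Ws M _ fun c k => φ _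
    rw [Ws_congr M _ e1, Ws_add, Ws_comm]
    simp only [mul_add, Finset.sum_add_distrib]
    congr 1
    · rw [Ws_cw M e fun a c j h => congrArg (Ws M _) (funext fun b => funext fun k =>
        n1 b k a c j h), ← e.sum_comp]
      refine Finset.sum_congr rfl fun a _ => Finset.sum_congr rfl fun j hj => ?_
      rw [Ws_cw M e (hσ.ncm fun σ => φ (gr M.length σ a.succ j)), ← e.sum_comp]
      congr 1
      refine Finset.sum_congr rfl fun b _ => Finset.sum_congr rfl fun k hk => ?_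
      rw [← sm_gr, ← sm_gr]
      exact congrArg _ (H _ (.g2 _ _ (rg hj) (rg hk)) _ (grE (grE e (e b) k) _ j)
        (fun b => b.succ.succ) 0 1 (fun _ => rfl) rfl rfl)
    · rw [Ws_cw M e fun a c j h => by simp only [hσ.gr_eq h], ← e.sum_comp]
      refine Finset.sum_congr rfl fun a _ => Finset.sum_congr rfl fun j hj => ?_
      congr 1
      refine Finset.sum_congr rfl fun i hi => ?_
      have := rg hi
      have := rg hj
      rw [H _ (.g3 (e a) (by omega)) _ ((Equiv.swap 0 1).trans (grE (grE e (e a) j) _ (i + j)))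
        (fun b => b.succ.succ) 0 1 (fun b => by rw [Equiv.trans_apply, swap_2]; rfl)
        (by rw [Equiv.trans_apply, swap_0]; rfl)
        (by rw [Equiv.trans_apply, Equiv.swap_apply_right]; rfl)]
      congr 1
      refine congrArg φ ?_
      have e2 := sm_gr (K := M.length) (grE e (e a) j) 0 (i + j)
      rw [sm_gr e a j] at e2
      refine Eq.trans (funext fun c => funext fun d =>
        congrFun (congrFun e2 (Equiv.swap 0 1 c)) (Equiv.swap 0 1 d)) ?_
      funext c d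
      refine Fin.cases ?_ (fun c => Fin.cases ?_ (fun c => ?_) c) c <;>
        refine Fin.cases ?_ (fun d => Fin.cases ?_ (fun d => ?_) d) d <;>
        simp only [swap_0, swap_1, swap_2, gr_00, gr_0s, gr_s0, gr_ss]
      all_goals omega

/-- the product of the kernels `U` along the edges `E` -/
def eF : List (ℕ → Ω → Ω → ℝ) → SM r → EL r → (Fin r → Ω) → ℝ
  | K :: U, σ, e :: E, x => eF U σ E x * K (σ e.1 e.2) (x e.1) (x e.2)
  | _, _, _, _ => 1

theorem eF_re {r' : ℕ} (ι : Fin r → Fin r') (σ : SM r') (x : Fin r' → Ω) :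
    ∀ (U : List (ℕ → Ω → Ω → ℝ)) (E : EL r),
      eF U σ (E.re ι) x = eF U (fun a b => σ (ι a) (ι b)) E fun a => x (ι a)
  | [], _ => by simp only [eF]
  | _ :: _, [] => rfl
  | K :: U, e :: E => congrArg (· * _) (eF_re ι σ x U E)

theorem ev_eF {s : Sh} {n : ℕ} {τ : GT s} (hτ : τ.Mem s n) (e : Fin r ≃ s.Lf) {r' : ℕ}
    (e' : Fin r' ≃ τ.sh.Lf) {ι : Fin r → Fin r'} {p q : Fin r'} (h : ∀ a, e' (ι a) = τ.e (e a))
    (hp : e' p = τ.p) (hq : e' q = τ.q) (K : ℕ → Ω → Ω → ℝ) (U : List (ℕ → Ω → Ω → ℝ)) (E : EL r) :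
    τ.ev K (fun x => eF U (sm s e n) E fun a => x (e a)) =
      fun x => eF (K :: U) (sm τ.sh e' n) ((p, q) :: E.re ι) fun a => x (e' a) := by
  funext x
  simp only [GT.ev, eF, eF_re, sm, h, hp, hq, hτ.shr, hτ.shr_e]
  rfl

/-- a functional on shapes in the graph frame, for the word `U` -/
def Rep (K : ℕ) (Λ : Fn Ω) (U : List (ℕ → Ω → Ω → ℝ)) (Φ : GF) : Prop :=
  ∀ (s : Sh) (r : ℕ) (e : Fin r ≃ s.Lf) (E : EL r),
    Λ s (fun x => eF U (sm s e K) E fun a => x (e a)) = Φ r (sm s e K) E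

/-- **words of `Dop`** -/
theorem rep_WdO [Fintype Ω] (M : List (Lv Ω)) (Λ : Fn Ω) (Φ : GF) :
    ∀ (V U : List (ℕ → Ω → Ω → ℝ)), Rep M.length Λ (V.reverse ++ U) Φ →
      Rep M.length (WdO M V Λ) U ((DG (-1) M)^[V.length] Φ)
  | [], _, H => H
  | K :: V, U, H => fun s r e E => by
      rw [WdO_cons, Dop_eq_sg, List.length_cons, Function.iterate_succ_apply']
      refine sg_DG _ M e _ E fun τ hτ r' e' ι p q h hp hq => ?_
      rw [ev_eF hτ e e' h hp hq]
      exact rep_WdO M Λ Φ V (K :: U) (by simpa using H) _ _ e' _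

/-- a functional of a bulk function and a site function in the graph frame -/
def RepB (K : ℕ) (B : (s : Sh) → ((s.Lf → Ω) → ℝ) → ((s.Lf → S) → ℝ) → ℝ)
    (U : List ((ℕ → Ω → Ω → ℝ) × (ℕ → S → S → ℝ))) (Φ : GF) : Prop :=
  ∀ (s : Sh) (r : ℕ) (e : Fin r ≃ s.Lf) (E : EL r),
    B s (fun x => eF (U.map Prod.fst) (sm s e K) E fun a => x (e a))
      (fun x => eF (U.map Prod.snd) (sm s e K) E fun a => x (e a)) = Φ r (sm s e K) E

/-- **words of tensors** -/
theorem rep_wB (ε : ℝ) (M : List (Lv Θ)) (B : (s : Sh) → ((s.Lf → Ω) → ℝ) → ((s.Lf → S) → ℝ) → ℝ)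
    (Φ : GF) : ∀ (V U : List ((ℕ → Ω → Ω → ℝ) × (ℕ → S → S → ℝ))),
      RepB M.length B (V.reverse ++ U) Φ → RepB M.length (wB ε M B V) U ((DG ε M)^[V.length] Φ)
  | [], _, H => H
  | K :: V, U, H => fun s r e E => by
      rw [wB, List.length_cons, Function.iterate_succ_apply']
      refine sg_DG _ M e _ E fun τ hτ r' e' ι p q h hp hq => ?_
      rw [ev_eF hτ e e' h hp hq, ev_eF hτ e e' h hp hq]
      exact rep_wB ε M B Φ V (K :: U) (by simpa using H) _ _ e' _

/-- the graph functional of a cascade -/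
def tmG [Fintype Ω] (w : Ω → ℝ) (L : List (Lv Ω)) (h : Ω → ℝ) (U : List (ℕ → Ω → Ω → ℝ)) : GF :=
  fun _ σ E => TM w L h σ (eF U σ E)

theorem rep_TE [Fintype Ω] {w : Ω → ℝ} (hw : Wt w) (L : List (Lv Ω)) (h : Ω → ℝ)
    (U : List (ℕ → Ω → Ω → ℝ)) : Rep L.length (TEf w L h) U (tmG w L h U) :=
  fun s _ e _ => (TM_sm hw s L h e.injective _).symm

theorem repB_mul {K : ℕ} {Λ : Fn Ω} {Λ' : Fn S} {U : List ((ℕ → Ω → Ω → ℝ) × (ℕ → S → S → ℝ))}
    {Φ Φ' : GF} (H : Rep K Λ (U.map Prod.fst) Φ) (H' : Rep K Λ' (U.map Prod.snd) Φ') :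
    RepB K (fun s G ξ => Λ s G * Λ' s ξ) U fun r σ E => Φ r σ E * Φ' r σ E :=
  fun s r e E => congrArg₂ (· * ·) (H s r e E) (H' s r e E)

/-! ### the pair at a node -/

/-- the labelling of `Sh.two j`: `1` is the left leaf, `0` the right one -/
def twE (j : ℕ) : Fin 2 ≃ (Sh.two j).Lf :=
  grE (s := .one) (Equiv.ofUnique (Fin 1) Unit :) () j

theorem sm_twE (K j : ℕ) : sm (Sh.two j) (twE j) K = tw K j :=
  sm_gr (s := .one) (Equiv.ofUnique (Fin 1) Unit :) 0 j

theorem pr2_eF {K j : ℕ} (hj : j ≤ K) (Q : ℕ → Ω → Ω → ℝ) :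
    pr2 j (Q j) = fun x => eF [Q] (sm (Sh.two j) (twE j) K) [(1, 0)] fun a => x (twE j a) := by
  funext x
  rw [sm_twE]
  simp only [eF, one_mul]
  rw [show tw K j 1 0 = j from min_eq_left hj]
  rfl

theorem Rep.two {K j : ℕ} (hj : j ≤ K) {Λ : Fn Ω} {Q : ℕ → Ω → Ω → ℝ} {Φ : GF}
    (H : Rep K Λ [Q] Φ) : twoF j (Q j) Λ = Φ 2 (tw K j) [(1, 0)] := by
  rw [← sm_twE, ← H, ← pr2_eF hj]
  rfl

theorem RepB.two {K j : ℕ} (hj : j ≤ K) {B : (s : Sh) → ((s.Lf → Ω) → ℝ) → ((s.Lf → S) → ℝ) → ℝ}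
    {p : (ℕ → Ω → Ω → ℝ) × (ℕ → S → S → ℝ)} {Φ : GF} (H : RepB K B [p] Φ) :
    B (Sh.two j) (pr2 j (p.1 j)) (pr2 j (p.2 j)) = Φ 2 (tw K j) [(1, 0)] := by
  rw [← sm_twE, ← H, pr2_eF hj, pr2_eF hj]
  rfl

/-- the value form of a word of `k + 1` letters, for a signed measure `μ` on the nodes -/
def LamG (M : List (Lv Θ)) (μ : ℕ → ℝ) (k : ℕ) (Φ : GF) : ℝ :=
  ∑ j ∈ Finset.range (M.length + 1), μ j * (DG (-1) M)^[k] Φ 2 (tw M.length j) [(1, 0)]

/-- **bridge for `Lam`** -/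
theorem Lam_eq [Fintype Ω] {w : Ω → ℝ} (hw : Wt w) (M : List (Lv Ω)) (h : Ω → ℝ)
    (Q : ℕ → Ω → Ω → ℝ) (V : List (ℕ → Ω → Ω → ℝ)) :
    Lam w M h (Q :: V) = LamG M (dm M 0) V.length (tmG w M h (V.reverse ++ [Q])) :=
  Finset.sum_congr rfl fun _ hj => congrArg _ ((rep_WdO M _ _ V [Q] (rep_TE hw M h _)).two
    (Nat.lt_succ_iff.1 (Finset.mem_range.1 hj)))

/-- any measure on the nodes -/
theorem sum_wB_eq (M : List (Lv Θ)) (μ : ℕ → ℝ)
    {B : (s : Sh) → ((s.Lf → Ω) → ℝ) → ((s.Lf → S) → ℝ) → ℝ}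
    (p : (ℕ → Ω → Ω → ℝ) × (ℕ → S → S → ℝ)) (V : List ((ℕ → Ω → Ω → ℝ) × (ℕ → S → S → ℝ)))
    {Φ : GF} (H : RepB M.length B (V.reverse ++ [p]) Φ) :
    ∑ j ∈ Finset.range (M.length + 1), μ j *
      wB (-1) M B V (Sh.two j) (pr2 j (p.1 j)) (pr2 j (p.2 j)) = LamG M μ V.length Φ :=
  Finset.sum_congr rfl fun _ hj => congrArg _ ((rep_wB _ M B Φ V [p] H).two
    (Nat.lt_succ_iff.1 (Finset.mem_range.1 hj)))

/-- **bridge for `lamB`** -/
theorem lamB_eq (M : List (Lv Θ)) {B : (s : Sh) → ((s.Lf → Ω) → ℝ) → ((s.Lf → S) → ℝ) → ℝ}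
    (p : (ℕ → Ω → Ω → ℝ) × (ℕ → S → S → ℝ)) (V : List ((ℕ → Ω → Ω → ℝ) × (ℕ → S → S → ℝ)))
    {Φ : GF} (H : RepB M.length B (V.reverse ++ [p]) Φ) :
    lamB M B (p :: V) = LamG M (dm M 0) V.length Φ := sum_wB_eq M _ p V H

/-! ### linearity -/

theorem DG_add (ε : ℝ) (M : List (Lv Θ)) (Φ Ψ : GF) :
    DG ε M (fun r σ E => Φ r σ E + Ψ r σ E) = fun r σ E => DG ε M Φ r σ E + DG ε M Ψ r σ E := by
  funext r σ E
  simp only [DG, Finset.sum_add_distrib, Ws_add]
  ring

theorem DG_mul (ε : ℝ) (M : List (Lv Θ)) (c : ℝ) (Φ : GF) :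
    DG ε M (fun r σ E => c * Φ r σ E) = fun r σ E => c * DG ε M Φ r σ E := by
  funext r σ E
  simp only [DG, ← Finset.mul_sum, ← mul_add, Ws_mul]
  ring

theorem DG_iter_add (ε : ℝ) (M : List (Lv Θ)) (Φ Ψ : GF) : ∀ k : ℕ,
    (DG ε M)^[k] (fun r σ E => Φ r σ E + Ψ r σ E) =
      fun r σ E => (DG ε M)^[k] Φ r σ E + (DG ε M)^[k] Ψ r σ E
  | 0 => rfl
  | k + 1 => by simp only [Function.iterate_succ_apply', DG_iter_add ε M Φ Ψ k, DG_add]

theorem DG_iter_mul (ε : ℝ) (M : List (Lv Θ)) (c : ℝ) (Φ : GF) : ∀ k : ℕ,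
    (DG ε M)^[k] (fun r σ E => c * Φ r σ E) = fun r σ E => c * (DG ε M)^[k] Φ r σ E
  | 0 => rfl
  | k + 1 => by simp only [Function.iterate_succ_apply', DG_iter_mul ε M c Φ k, DG_mul]

theorem LamG_add (M : List (Lv Θ)) (μ : ℕ → ℝ) (k : ℕ) (Φ Ψ : GF) :
    LamG M μ k (fun r σ E => Φ r σ E + Ψ r σ E) = LamG M μ k Φ + LamG M μ k Ψ := by
  simp only [LamG, DG_iter_add, mul_add, Finset.sum_add_distrib]

theorem LamG_mul (M : List (Lv Θ)) (μ : ℕ → ℝ) (k : ℕ) (c : ℝ) (Φ : GF) :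
    LamG M μ k (fun r σ E => c * Φ r σ E) = c * LamG M μ k Φ := by
  simp only [LamG, DG_iter_mul, Finset.mul_sum, mul_left_comm c]

theorem LamG_sub (M : List (Lv Θ)) (μ : ℕ → ℝ) (k : ℕ) (Φ Ψ : GF) :
    LamG M μ k (fun r σ E => Φ r σ E - Ψ r σ E) = LamG M μ k Φ - LamG M μ k Ψ := by
  have := LamG_add M μ k Φ fun r σ E => -1 * Ψ r σ E
  rw [LamG_mul] at this
  simpa only [neg_one_mul, ← sub_eq_add_neg] using this

theorem LamG_sum (M : List (Lv Θ)) (μ : ℕ → ℝ) (k : ℕ) {α : Type*} (A : Finset α) (Φ : α → GF) :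
    LamG M μ k (fun r σ E => ∑ i ∈ A, Φ i r σ E) = ∑ i ∈ A, LamG M μ k (Φ i) := by
  classical
  induction A using Finset.induction_on with
  | empty => simpa using LamG_mul M μ k 0 fun _ _ _ => 0
  | insert i A hi ih => simp only [Finset.sum_insert hi, LamG_add, ih]

/-- a property of graphs that is kept when an edge is added -/
structure Inv (K : ℕ) (P : (r : ℕ) → SM r → EL r → Prop) : Prop where
  old : ∀ {r σ E} (a b : Fin r), P r σ E → a ≠ b → P r σ ((a, b) :: E)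
  new : ∀ {r σ E} (a : Fin r) (j : ℕ), P r σ E → j ≤ K → P (r + 1) (gr K σ a j) (E.re Fin.succ)

theorem inv_ok (K : ℕ) : Inv K fun _ σ E => Rz K σ ∧ E.Ok :=
  ⟨fun _ _ h e => ⟨h.1, h.2.cons e⟩, fun a j h _ => ⟨h.1.gr a j, h.2.re (Fin.succ_injective _)⟩⟩

theorem DG_congr (ε : ℝ) (M : List (Lv Θ)) {P : (r : ℕ) → SM r → EL r → Prop}
    (hP : Inv M.length P) {Φ Ψ : GF} {n : ℕ}
    (H : ∀ r σ E, P r σ E → E.length = n + 1 → Φ r σ E = Ψ r σ E) {σ : SM r} {E : EL r}
    (h : P r σ E) (hE : E.length = n) : DG ε M Φ r σ E = DG ε M Ψ r σ E := by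
  have l : ∀ {r'} (ι : Fin r → Fin r') (e : Fin r' × Fin r'), (e :: E.re ι).length = n + 1 :=
    fun ι e => by rw [List.length_cons, re_length, hE]
  unfold DG
  congr 1
  · congr 1
    · exact Finset.sum_congr rfl fun a _ => Finset.sum_congr rfl fun b hb => H _ _ _
        (hP.old a b h (Finset.ne_of_mem_erase hb).symm) (by rw [List.length_cons, hE])
    · congr 1
      refine Ws_congr M σ fun a j hj => congrArg₂ (· + ·) (Finset.sum_congr rfl fun b _ => ?_)
        (Finset.sum_congr rfl fun b _ => ?_)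
      · exact H _ _ _ (hP.old _ _ (hP.new a j h hj) (Fin.succ_ne_zero b)) (l _ _)
      · exact H _ _ _ (hP.old _ _ (hP.new a j h hj) (Fin.succ_ne_zero b).symm) (l _ _)
  · refine Ws_congr M σ fun a j hj => Ws_congr M _ fun c k hk => H _ _ _ ?_ (l _ _)
    have := hP.old 0 1 (hP.new c k (hP.new a j h hj) hk) (Fin.succ_ne_zero 0).symm
    rwa [re_re] at this

theorem DG_iter_congr (ε : ℝ) (M : List (Lv Θ)) {P : (r : ℕ) → SM r → EL r → Prop}
    (hP : Inv M.length P) {Φ Ψ : GF} : ∀ (k : ℕ) {n : ℕ},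
    (∀ r σ E, P r σ E → E.length = n + k → Φ r σ E = Ψ r σ E) → ∀ (r : ℕ) (σ : SM r) (E : EL r),
      P r σ E → E.length = n → (DG ε M)^[k] Φ r σ E = (DG ε M)^[k] Ψ r σ E
  | 0, _, H => H
  | k + 1, n, H => fun r σ E h hE => by
      rw [Function.iterate_succ_apply', Function.iterate_succ_apply']
      exact DG_congr ε M hP (DG_iter_congr ε M hP k fun r σ E h hE =>
        H r σ E h (by omega)) h hE

theorem ok_one : EL.Ok [((1 : Fin 2), (0 : Fin 2))] := fun e he => by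
  rw [List.mem_singleton.1 he]
  decide

/-- only trees and loop-free lists of `k + 1` edges count -/
theorem LamG_congr [Fintype Θ] (M : List (Lv Θ)) (μ : ℕ → ℝ) (k : ℕ) {Φ Ψ : GF}
    (H : ∀ r σ E, Rz M.length σ → E.Ok → E.length = k + 1 → Φ r σ E = Ψ r σ E) :
    LamG M μ k Φ = LamG M μ k Ψ :=
  Finset.sum_congr rfl fun j _ => congrArg _ (DG_iter_congr _ M (inv_ok _) k (n := 1)
    (fun r σ E h hE => H r σ E h.1 h.2 (by omega)) _ _ _ ⟨rz_tw _ j, ok_one⟩ rfl)

/-! ### averages: a word is a finite signed sum of graph values -/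

section fam
variable [Fintype Θ] {M : List (Lv Θ)} {r₀ : ℕ}

/-- families of laws of split matrices built by grafting -/
structure Fam (M : List (Lv Θ)) (r₀ : ℕ) (A : (k : ℕ) → (SM (r₀ + k + 1) → ℝ) → ℝ) : Prop where
  add : ∀ k φ ψ, A k (fun σ => φ σ + ψ σ) = A k φ + A k ψ
  mul : ∀ k c φ, A k (fun σ => c * φ σ) = c * A k φ
  up : ∀ k φ, A (k + 1) φ = A k (up1 (r := r₀ + k) M φ)

theorem fam_avc (σ : SM (r₀ + 1)) : Fam M r₀ (avc M σ) :=
  ⟨avc_add, fun k c => avc_mul c k, fun _ _ => rfl⟩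

theorem fam_avm (r₀ : ℕ) : Fam M r₀ fun k => avm M (r₀ + k) :=
  ⟨fun _ => avm_add M _, fun _ c => avm_mul M c _, fun _ _ => rfl⟩

/-- the first pair (the last two indices) has the signed law `μ` -/
def avt (M : List (Lv Θ)) (μ : ℕ → ℝ) (k : ℕ) (φ : SM (1 + k + 1) → ℝ) : ℝ :=
  ∑ j ∈ Finset.range (M.length + 1), μ j * avc M (tw M.length j) k φ

theorem fam_avt (μ : ℕ → ℝ) : Fam M 1 (avt M μ) :=
  ⟨fun k φ ψ => by simp only [avt, avc_add, mul_add, Finset.sum_add_distrib],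
    fun k c φ => by simp only [avt, avc_mul, Finset.mul_sum, mul_left_comm c], fun _ _ => rfl⟩

theorem avt_dm (k : ℕ) (φ : SM (1 + k + 1) → ℝ) : avt M (dm M 0) k φ = avm M (1 + k) φ :=
  ((avm_avc k φ).trans (avm_one _)).symm

variable {A : (k : ℕ) → (SM (r₀ + k + 1) → ℝ) → ℝ}

theorem Fam.sum (H : Fam M r₀ A) (k : ℕ) {α : Type*} (T : Finset α) (φ : α → SM (r₀ + k + 1) → ℝ) :
    A k (fun σ => ∑ i ∈ T, φ i σ) = ∑ i ∈ T, A k (φ i) := by
  classical
  induction T using Finset.induction_on with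
  | empty => simpa using H.mul k 0 fun _ => 0
  | insert i T hi ih => simp only [Finset.sum_insert hi, H.add, ih]

theorem Fam.ws (H : Fam M r₀ A) (k : ℕ) (φ : SM (r₀ + k + 2) → ℝ) :
    A k (fun σ => Ws M σ fun a j => φ (gr M.length σ a j)) = (r₀ + k + 1 : ℝ) * A (k + 1) φ := by
  simp only [Ws_eq_up1, H.mul, H.up, Nat.cast_add]

/-- **one edge, averaged** -/
theorem Fam.dg (H : Fam M r₀ A) (ε : ℝ) (Φ : GF) (k : ℕ) (E : EL (r₀ + k + 1)) :
    A k (fun σ => DG ε M Φ _ σ E) =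
      ∑ a, ∑ b ∈ Finset.univ.erase a, A k (fun σ => Φ _ σ ((a, b) :: E)) +
      ε * ((r₀ + k + 1 : ℝ) *
        (∑ b : Fin (r₀ + k + 1), A (k + 1) (fun σ => Φ _ σ ((b.succ, 0) :: E.re Fin.succ)) +
          ∑ b : Fin (r₀ + k + 1), A (k + 1) fun σ => Φ _ σ ((0, b.succ) :: E.re Fin.succ))) +
      (r₀ + k + 1 : ℝ) * ((r₀ + k + 2 : ℝ) *
        A (k + 2) fun σ => Φ _ σ ((0, 1) :: E.re fun b => b.succ.succ)) := by
  have e1 := H.ws k fun σ => ∑ b : Fin (r₀ + k + 1), Φ _ σ ((b.succ, 0) :: E.re Fin.succ) +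
    ∑ b : Fin (r₀ + k + 1), Φ _ σ ((0, b.succ) :: E.re Fin.succ)
  have e2 := H.ws k fun σ => Ws M σ fun c l =>
    Φ _ (gr M.length σ c l) ((0, 1) :: E.re fun b => b.succ.succ)
  have e3 := H.ws (k + 1) fun σ => Φ _ σ ((0, 1) :: E.re fun b => b.succ.succ)
  replace e1 := e1.trans (congrArg _ ((H.add (k + 1) _ _).trans
    (congrArg₂ (· + ·) (H.sum (k + 1) _ _) (H.sum (k + 1) _ _))))
  rw [show (r₀ : ℝ) + ((k + 1 : ℕ) : ℝ) + 1 = r₀ + k + 2 by push_cast; ring] at e3
  simp only [DG, H.add, H.mul, H.sum]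
  exact congrArg₂ (· + ·) (congrArg₂ (· + ·) rfl (congrArg _ e1)) (e2.trans (congrArg _ e3))

/-- **sup bound**: a word of `n` further edges is bounded by its largest graph -/
theorem Fam.sup (H : Fam M r₀ A) {ε : ℝ} (hε : |ε| ≤ 1) (Φ : GF) {B : ℝ} : ∀ (n k : ℕ)
    (E : EL (r₀ + k + 1)), (∀ k' ≤ k + 2 * n, ∀ ι : Fin (r₀ + k + 1) → Fin (r₀ + k' + 1),
      (∀ a, (ι a : ℕ) + k = a + k') → ∀ N : EL (r₀ + k' + 1), N.length = n → N.Ok →
        |A k' fun σ => Φ _ σ (N ++ E.re ι)| ≤ B) →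
    |A k fun σ => (DG ε M)^[n] Φ _ σ E| ≤ (4 * (r₀ + k + 2 * n + 1 : ℝ) ^ 2) ^ n * B
  | 0, k, E, h => by
      have := h k le_rfl id (fun _ => rfl) [] rfl fun _ he => absurd he List.not_mem_nil
      rw [re_id] at this
      simpa using this
  | n + 1, k, E, h => by
      have hB : 0 ≤ B := (abs_nonneg _).trans (h (k + 1) (by omega) Fin.succ
        (fun a => by simp; omega) (List.replicate (n + 1) (0, Fin.succ (0 : Fin (r₀ + k + 1))))
        (by simp) fun e he => by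
          rw [List.eq_of_mem_replicate he]
          exact (Fin.succ_ne_zero (0 : Fin (r₀ + k + 1))).symm)
      set C := (4 * (r₀ + k + 2 * (n + 1 : ℕ) + 1 : ℝ) ^ 2) ^ n * B with hC
      have key : ∀ d ≤ 2, ∀ ι : Fin (r₀ + k + 1) → Fin (r₀ + (k + d) + 1),
          (∀ a, (ι a : ℕ) = a + d) → ∀ p q, p ≠ q →
          |A (k + d) fun σ => (DG ε M)^[n] Φ _ σ ((p, q) :: E.re ι)| ≤ C := fun d hd ι hι p q hpq => by
        refine (H.sup hε Φ (B := B) n (k + d) _ fun k' hk κ hκ N hN hO => ?_).trans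
          (mul_le_mul_of_nonneg_right (pow_le_pow_left₀ (by positivity)
            (mul_le_mul_of_nonneg_left (pow_le_pow_left₀ (by positivity) ?_ 2) (by norm_num)) n) hB)
        · have := h k' (by omega) (fun a => κ (ι a)) (fun a => by
            have := hκ (ι a)
            have := hι a
            omega) (N ++ [(κ p, κ q)]) (by simp [hN]) fun e he => by
              rcases List.mem_append.1 he with he | he
              · exact hO e he
              · rw [List.mem_singleton.1 he]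
                intro e'
                have h1 := hκ p
                have h2 := hκ q
                have h3 : κ p = κ q := e'
                rw [h3] at h1
                exact hpq (Fin.ext (by omega))
          rwa [List.append_assoc, List.singleton_append, ← re_re, ← re_cons] at this
        · have : (d : ℝ) ≤ 2 := by exact_mod_cast hd
          push_cast
          linarith
      set R : ℝ := r₀ + k + 1 with hR
      have hR0 : 0 < R := by positivity
      have hC0 : 0 ≤ C := by positivity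
      have cd : ((Fintype.card (Fin (r₀ + k + 1)) : ℕ) : ℝ) = R := by simp [hR]
      have s1 : ∀ f : Fin (r₀ + k + 1) → ℝ, ∀ c, (∀ b, |f b| ≤ c) → |∑ b, f b| ≤ R * c :=
        fun f c hf => (Finset.abs_sum_le_sum_abs _ _).trans
          ((Finset.sum_le_card_nsmul _ _ c fun b _ => hf b).trans_eq (by
            rw [nsmul_eq_mul, Finset.card_univ, cd]))
      have b1 := s1 (fun a => ∑ b ∈ Finset.univ.erase a,
          A k fun σ => (DG ε M)^[n] Φ _ σ ((a, b) :: E)) ((R - 1) * C) fun a =>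
        (Finset.abs_sum_le_sum_abs _ _).trans ((Finset.sum_le_card_nsmul _ _ C fun b hb => by
          have := key 0 (by omega) id (fun _ => rfl) a b (Finset.ne_of_mem_erase hb).symm
          rwa [re_id] at this).trans_eq (by
            rw [nsmul_eq_mul, Finset.card_erase_of_mem (Finset.mem_univ a), Finset.card_univ,
              Nat.cast_sub (Fintype.card_pos_iff.2 ⟨a⟩), cd, Nat.cast_one]))
      have b2 := s1 _ C fun b => key 1 (by omega) Fin.succ (fun _ => rfl) b.succ 0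
        (Fin.succ_ne_zero b)
      have b3 := s1 _ C fun b => key 1 (by omega) Fin.succ (fun _ => rfl) 0 b.succ
        (Fin.succ_ne_zero b).symm
      have b4 := key 2 le_rfl (fun b => b.succ.succ) (fun _ => rfl) 0 1 (Fin.succ_ne_zero 0).symm
      simp only [Function.iterate_succ_apply']
      rw [H.dg, pow_succ', mul_assoc _ _ B, ← hC]
      refine (abs_add_three _ _ _).trans (le_trans (add_le_add (add_le_add b1
        (?_ : _ ≤ R * (R * C + R * C))) (?_ : _ ≤ R * ((R + 1) * C))) ?_)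
      · rw [abs_mul, abs_mul, abs_of_pos hR0]
        exact (mul_le_of_le_one_left (by positivity) hε).trans (mul_le_mul_of_nonneg_left
          ((abs_add_le _ _).trans (add_le_add b2 b3)) hR0.le)
      · rw [abs_mul, abs_mul, abs_of_pos hR0, abs_of_pos (by positivity : (0 : ℝ) < r₀ + k + 2)]
        exact mul_le_mul_of_nonneg_left (mul_le_mul (le_of_eq (by rw [hR]; ring)) b4 (abs_nonneg _)
          (by positivity)) hR0.le
      · refine le_trans (le_of_eq (by ring : _ = 4 * R ^ 2 * C)) (mul_le_mul_of_nonneg_right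
          (mul_le_mul_of_nonneg_left (pow_le_pow_left₀ hR0.le ?_ 2) (by norm_num)) hC0)
        have : (0 : ℝ) ≤ 2 * (n + 1 : ℕ) := by positivity
        linarith

/-- the constant of a word of `k + 1` letters -/
def cG (k : ℕ) : ℝ := (4 * (2 * k + 2 : ℝ) ^ 2) ^ k

theorem cG_pos (k : ℕ) : 0 < cG k := by
  unfold cG
  positivity

/-- **sup bound for the value form**: the first pair is `(old 1, old 0)`, the last edge -/
theorem abs_LamG_le (μ : ℕ → ℝ) (k : ℕ) (Φ : GF) {B : ℝ}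
    (H : ∀ k' ≤ 2 * k, ∀ N : EL (1 + k' + 1), N.length = k → N.Ok →
      |avt M μ k' fun σ => Φ _ σ (N ++ [(old k' 1, old k' 0)])| ≤ B) :
    |LamG M μ k Φ| ≤ cG k * B := by
  refine ((fam_avt μ).sup (ε := -1) (by simp) Φ k 0 [(1, 0)] fun k' hk ι hι N hN hO => ?_).trans_eq
    (by rw [cG]; congr 4; push_cast; ring)
  have e : ι = old k' := funext fun a => Fin.ext (hι a)
  subst e
  exact H k' (by omega) N hN hO

/-- the same for `μ = dm`: any loop-free list of `k + 1` edges on at most `2 k + 2` replicas -/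
theorem abs_LamG_dm (k : ℕ) (Φ : GF) {B : ℝ}
    (H : ∀ r ≤ 2 * k + 1, ∀ E : EL (r + 1), E.length = k + 1 → E.Ok →
      |avm M r fun σ => Φ _ σ E| ≤ B) : |LamG M (dm M 0) k Φ| ≤ cG k * B :=
  abs_LamG_le _ k Φ fun k' hk N hN hO => by
    rw [avt_dm]
    refine H _ (by omega) _ (by simp [hN]) fun e he => ?_
    rcases List.mem_append.1 he with he | he
    · exact hO e he
    · rw [List.mem_singleton.1 he]
      exact fun h => by simpa [old] using congrArg Fin.val h

end fam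

end Crest.Agent.T156.Cas.G90
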