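import Crest.Agent.T156.Rp_90
import Crest.Agent.T156.EgB_33
import Crest.Agent.T156.CKit_32

/-!
# Row 156, block C (helper47): three edges at one node
-/

set_option autoImplicit false
set_option linter.all false

noncomputable section

namespace Crest.Agent.T156.Cas.C3n47

open MeasureTheory Real Set Filter Topology
open Crest.Agent.T157.E Crest.Agent.T157.Casc Crest.Agent.T157.SL
open Crest.Agent.T157.G1 (ov)
open Wt87 Nu87 Ker15 R90

variable {Ω : Type} [Fintype Ω] {w : Ω → ℝ} {κ ι : Type} [Fintype κ] [Fintype ι]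
  {L : List (Lv Ω)} {h : Ω → ℝ}

open Classical in
/-- all replicas split at `t` -/
def fl (ι : Type) (K t : ℕ) : ι → ι → ℕ := fun u v => if u = v then K else t

omit [Fintype ι] in
theorem fl_ne {K t : ℕ} {u v : ι} (e : u ≠ v) : fl ι K t u v = t := if_neg e

omit [Fintype ι] in
theorem um_fl {K t : ℕ} (ht : t ≤ K) : Um K (fl ι K t) := by
  refine ⟨fun a => if_pos rfl, fun a b => ?_, fun a b c => ?_⟩
  · by_cases e : a = b
    · rw [e]
    · rw [fl_ne e, fl_ne (Ne.symm e)]
  · by_cases h1 : a = b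
    · subst h1
      exact min_le_right _ _
    rw [fl_ne h1]
    refine (min_le_left _ _).trans ?_
    unfold fl
    split_ifs <;> omega

theorem flat (hw : Wt w) {τ : κ → κ → ℕ} (H : Um L.length τ) {t : ℕ} (ht : t < L.length)
    {φ : ι → κ} (hφ : ∀ u v, u ≠ v → τ (φ u) (φ v) = t) (F : (ι → Ω) → ℝ) :
    TK w L h τ (fun y => F fun u => y (φ u)) = TK w L h (fl ι L.length t) F :=
  TK_map hw H (um_fl ht.le) (φ' := id) (fun a b => ⟨fun e => by
    by_contra h'
    have := hφ a b h'
    rw [show φ a = φ b from e, H.self] at this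
    omega, fun e => congrArg φ e⟩)
    (fun a b e => (hφ a b fun h' => e (congrArg φ h')).trans
      (fl_ne fun h' => e (congrArg φ h')).symm) F

/-- `E (U (x, z) - U (y, z))²` for three replicas split at `t` -/
def W3 (w : Ω → ℝ) (L : List (Lv Ω)) (h : Ω → ℝ) (t : ℕ) (U : Ω → Ω → ℝ) : ℝ :=
  TK w L h (fl (Fin 3) L.length t) fun y => (U (y 0) (y 2) - U (y 1) (y 2)) ^ 2

theorem W4_le (hw : Wt w) {t : ℕ} (ht : t < L.length) {U : Ω → Ω → ℝ} (hs : ∀ x y, U x y = U y x) :
    TK w L h (fl (Bool × Bool) L.length t) (fun y =>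
      (U (y (true, true)) (y (false, true)) - U (y (true, false)) (y (false, false))) ^ 2) ≤
      4 * W3 w L h t U := by
  have H := um_fl (ι := Bool × Bool) ht.le
  have e1 := flat (h := h) hw H ht (φ := ![(true, true), (true, false), (false, true)])
    (fun u v e => fl_ne (by revert u v; decide)) fun y => (U (y 0) (y 2) - U (y 1) (y 2)) ^ 2
  have e2 := flat (h := h) hw H ht (φ := ![(false, true), (false, false), (true, false)])
    (fun u v e => fl_ne (by revert u v; decide)) fun y => (U (y 0) (y 2) - U (y 1) (y 2)) ^ 2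
  refine (TK_mono hw H (G := fun y =>
    2 * (U (y (true, true)) (y (false, true)) - U (y (true, false)) (y (false, true))) ^ 2 +
    2 * (U (y (false, true)) (y (true, false)) - U (y (false, false)) (y (true, false))) ^ 2)
    fun y => ?_).trans ?_
  · rw [hs (y (false, true)) (y (true, false)), hs (y (false, false)) (y (true, false))]
    nlinarith [sq_nonneg (U (y (true, true)) (y (false, true)) -
      2 * U (y (true, false)) (y (false, true)) + U (y (true, false)) (y (false, false)))]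
  · rw [TK_lin]
    have e3 : _ = W3 w L h t U := e1
    have e4 : _ = W3 w L h t U := e2
    simp only [Matrix.cons_val_zero, Matrix.cons_val_one, Matrix.cons_val] at e3 e4
    linarith

theorem pt3 {e a b c : ℝ} (he : 0 ≤ e) (ha : |a| ≤ 4) (hb : |b| ≤ 4) :
    |a * b * c| ≤ e * (a ^ 2 + b ^ 2) / 2 + 16 * max (|c| - e) 0 := by
  have h1 : |c| ≤ e + max (|c| - e) 0 := by linarith [le_max_left (|c| - e) 0]
  have h2 : 0 ≤ max (|c| - e) 0 := le_max_right _ _
  have h3 : |a| * |b| ≤ 16 := by nlinarith [abs_nonneg a, abs_nonneg b]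
  have h4 : |a| * |b| ≤ (a ^ 2 + b ^ 2) / 2 := by
    nlinarith [sq_abs a, sq_abs b, sq_nonneg (|a| - |b|)]
  rw [abs_mul, abs_mul]
  have h5 := mul_le_mul_of_nonneg_left h1 (mul_nonneg (abs_nonneg a) (abs_nonneg b))
  nlinarith [mul_le_mul_of_nonneg_right h3 h2, mul_le_mul_of_nonneg_left h4 he]

theorem core (hw : Wt w) {σ : κ → κ → ℕ} (H : Um L.length σ) {a b : Fin 3 → κ} {t : ℕ}
    (ht : t < L.length) (hab : ∀ i, σ (a i) (b i) = t) (h0 : ∀ i, t ≤ σ (a 0) (a i))
    {U : Ω → Ω → ℝ} (hs : ∀ x y, U x y = U y x) (hU : ∀ x y, |U x y| ≤ 2) {e tl : ℝ} (he : 0 ≤ e)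
    (htl : pi2 w L t (fun x y => max (|U x y| - e) 0) h ≤ tl) :
    |TK w L h σ (fun x => ∏ i, U (x (a i)) (x (b i))) -
      TK w L h (fl (Fin 3 × Bool) L.length t) fun y => ∏ i, U (y (i, true)) (y (i, false))| ≤
      12 * (e * W3 w L h t U) + 48 * tl := by
  classical
  have hpq : ∀ i, a i ≠ b i := fun i e => by
    have := hab i
    rw [e, H.self] at this
    omega
  set τ := lf L.length σ (Sum.elim id fun _ : Fin 3 × Bool => a 0)
    (Sum.elim (fun _ => L.length) fun _ => t) with hτ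
  have Hτ : Um L.length τ := um_lf H _ _
  have t1 : ∀ a b, a ≠ b → τ (.inl a) (.inl b) = σ a b := fun a b e => by
    rw [hτ, lf_ne _ _ fun h => e (Sum.inl_injective h)]
    simp [H.le]
  have t2 : ∀ u v, u ≠ v → τ (.inr u) (.inr v) = t := fun u v e => by
    rw [hτ, lf_ne _ _ fun h => e (Sum.inr_injective h)]
    simp [H.self, ht.le]
  have t3 : ∀ u v, τ (.inl (en a b u)) (.inr v) = t := fun ⟨i, c⟩ v => by
    rw [hτ, lf_ne _ _ Sum.inl_ne_inr]
    simp only [Sum.elim_inl, Sum.elim_inr, id]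
    have h1 := h0 i
    have h2 := hab i
    have h3 := H.ultra (b i) (a i) (a 0)
    have h4 := H.comm (a i) (a 0)
    have h5 := H.comm (a i) (b i)
    cases c <;> simp only [en, cond] <;> omega
  have t4 : ∀ i c d, c ≠ d → τ (.inl (en a b (i, c))) (.inl (en a b (i, d))) = t :=
    fun i c d e => by
      cases c <;> cases d
      · exact absurd rfl e
      · exact (t1 _ _ (hpq i).symm).trans ((H.comm _ _).trans (hab i))
      · exact (t1 _ _ (hpq i)).trans (hab i)
      · exact absurd rfl e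
  set X : Fin 3 → (κ ⊕ Fin 3 × Bool → Ω) → ℝ := fun i z => U (z (.inl (a i))) (z (.inl (b i)))
  set Y : Fin 3 → (κ ⊕ Fin 3 × Bool → Ω) → ℝ := fun i z =>
    U (z (.inr (i, true))) (z (.inr (i, false)))
  set T := TK w L h (fl (Fin 3 × Bool) L.length t) fun y => ∏ i, U (y (i, true)) (y (i, false))
  have e1 : TK w L h σ (fun x => ∏ i, U (x (a i)) (x (b i))) =
      TK w L h τ fun z => X 0 z * X 1 z * X 2 z :=
    (TK_map (h := h) hw H Hτ (φ := id) (φ' := Sum.inl) (by simp)
      (fun a b e => (t1 a b e).symm) fun x => ∏ i, U (x (a i)) (x (b i))).trans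
      (congrArg _ (funext fun z => Fin.prod_univ_three _))
  have e2 : TK w L h τ (fun z => Y 0 z * Y 1 z * Y 2 z) = T :=
    (congrArg _ (funext fun z => (Fin.prod_univ_three _).symm)).trans
      (flat hw Hτ ht (φ := Sum.inr) t2 fun y => ∏ i, U (y (i, true)) (y (i, false)))
  have e3 : ∀ i, TK w L h τ (fun z => ∏ k, if k = i then X k z else Y k z) = T := fun i => by
    refine Eq.trans (congrArg _ (funext fun z => Finset.prod_congr rfl fun k _ => ?_))
      (flat hw Hτ ht (φ := fun u => if u.1 = i then .inl (en a b u) else .inr u)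
        (fun u v e => ?_) fun y => ∏ i, U (y (i, true)) (y (i, false)))
    · by_cases hk : k = i <;> simp only [hk, if_true, if_false] <;> rfl
    · split_ifs with h1 h2 h2
      · obtain ⟨u, c⟩ := u
        obtain ⟨v, d⟩ := v
        obtain rfl : u = i := h1
        obtain rfl : v = u := h2
        exact t4 _ c d fun h => e (by rw [h])
      · exact t3 _ _
      · rw [Hτ.comm, t3]
      · exact t2 u v e
  have e4 : ∀ i, TK w L h τ (fun z => (X i z - Y i z) ^ 2) ≤ 4 * W3 w L h t U := fun i =>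
    (flat hw Hτ ht (φ := fun u : Bool × Bool => cond u.2 (.inl (en a b (i, u.1))) (.inr (i, u.1)))
      (fun ⟨c, d⟩ ⟨c', d'⟩ e => by
        cases d <;> cases d' <;> simp only [cond]
        · exact t2 _ _ fun h => e (by rw [show c = c' from (Prod.ext_iff.1 h).2])
        · rw [Hτ.comm, t3]
        · exact t3 _ _
        · exact t4 _ _ _ fun h => e (by rw [h]))
      fun y => (U (y (true, true)) (y (false, true)) -
        U (y (true, false)) (y (false, false))) ^ 2).trans_le (W4_le hw ht hs)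
  have pX : ∀ i, TK w L h τ (fun z => max (|X i z| - e) 0) ≤ tl := fun i => by
    have := TK_pair (h := h) hw Hτ (a := .inl (a i)) (b := .inl (b i))
      (fun e => hpq i (Sum.inl_injective e)) fun x y => max (|U x y| - e) 0
    rw [t1 _ _ (hpq i), hab] at this
    exact this.trans_le htl
  have pY : ∀ i, TK w L h τ (fun z => max (|Y i z| - e) 0) ≤ tl := fun i => by
    have := TK_pair (h := h) hw Hτ (a := .inr (i, true)) (b := .inr (i, false)) (by simp)
      fun x y => max (|U x y| - e) 0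
    rw [t2 _ _ (by simp)] at this
    exact this.trans_le htl
  have f0 := e3 0
  have f1 := e3 1
  have f2 := e3 2
  simp only [Fin.prod_univ_three, Fin.isValue, if_true, show (1 : Fin 3) ≠ 0 by decide,
    show (2 : Fin 3) ≠ 0 by decide, show (0 : Fin 3) ≠ 1 by decide, show (2 : Fin 3) ≠ 1 by decide,
    show (0 : Fin 3) ≠ 2 by decide, show (1 : Fin 3) ≠ 2 by decide, if_false] at f0 f1 f2
  have d : ∀ i z, |X i z - Y i z| ≤ 4 := fun i z =>
    (abs_sub _ _).trans ((add_le_add (hU _ _) (hU _ _)).trans (by norm_num))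
  have e5 : TK w L h τ (fun z => X 0 z * X 1 z * X 2 z) - T = TK w L h τ fun z =>
      (X 0 z - Y 0 z) * (X 1 z - Y 1 z) * X 2 z + (X 0 z - Y 0 z) * (X 2 z - Y 2 z) * Y 1 z +
        (X 1 z - Y 1 z) * (X 2 z - Y 2 z) * Y 0 z := by
    have : (fun z => (X 0 z - Y 0 z) * (X 1 z - Y 1 z) * X 2 z +
        (X 0 z - Y 0 z) * (X 2 z - Y 2 z) * Y 1 z + (X 1 z - Y 1 z) * (X 2 z - Y 2 z) * Y 0 z) =
        fun z => X 0 z * X 1 z * X 2 z - X 0 z * Y 1 z * Y 2 z - Y 0 z * X 1 z * Y 2 z -
          Y 0 z * Y 1 z * X 2 z + 2 * (Y 0 z * Y 1 z * Y 2 z) := funext fun z => by ring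
    rw [this, TK_add, TK_sub, TK_sub, TK_sub, TK_mul, e2, f0, f1, f2]
    ring
  rw [e1, e5]
  refine (abs_TK_le hw Hτ (G := fun z => e * ((X 0 z - Y 0 z) ^ 2 + (X 1 z - Y 1 z) ^ 2 +
    (X 2 z - Y 2 z) ^ 2) + 16 * (max (|X 2 z| - e) 0 + max (|Y 1 z| - e) 0 + max (|Y 0 z| - e) 0))
    fun z => ?_).trans ?_
  · have g1 := pt3 (c := X 2 z) he (d 0 z) (d 1 z)
    have g2 := pt3 (c := Y 1 z) he (d 0 z) (d 2 z)
    have g3 := pt3 (c := Y 0 z) he (d 1 z) (d 2 z)
    refine (abs_add_three _ _ _).trans ?_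
    linarith
  · rw [TK_lin, TK_add, TK_add, TK_add, TK_add]
    have := mul_le_mul_of_nonneg_left (add_le_add (add_le_add (e4 0) (e4 1)) (e4 2)) he
    linarith [pX 2, pY 1, pY 0]

/-- **three edges at one node** -/
theorem node3 (hw : Wt w) {σ : κ → κ → ℕ} (H : Um L.length σ) {a b : Fin 3 → κ} {t : ℕ}
    (ht : t < L.length) (hab : ∀ i, σ (a i) (b i) = t) (h0 : ∀ i, t ≤ σ (a 0) (a i))
    {U : Ω → Ω → ℝ} (hs : ∀ x y, U x y = U y x) (hU : ∀ x y, |U x y| ≤ 2) {e tl : ℝ} (he : 0 ≤ e)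
    (htl : pi2 w L t (fun x y => max (|U x y| - e) 0) h ≤ tl) :
    |TK w L h σ (fun x => ∏ i, U (x (a i)) (x (b i))) - pi2 w L t (fun x y => U x y ^ 3) h| ≤
      24 * (e * W3 w L h t U) + 96 * tl := by
  have H' := um_fl (ι := Bool) ht.le
  have h1 := core hw H ht hab h0 hs hU he htl
  have h2 := core (h := h) hw H' (a := fun _ => true) (b := fun _ => false) ht
    (fun _ => fl_ne (by decide)) (fun _ => (H'.self _).symm ▸ ht.le) hs hU he htl
  have h3 := TK_pair (h := h) hw H' (a := true) (b := false) (by decide) fun x y => U x y ^ 3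
  rw [fl_ne (by decide)] at h3
  simp only [Finset.prod_const, Finset.card_univ, Fintype.card_fin] at h2
  rw [h3, abs_sub_comm] at h2
  linarith [abs_sub_le (TK w L h σ fun x => ∏ i, U (x (a i)) (x (b i)))
    (TK w L h (fl (Fin 3 × Bool) L.length t) fun y => ∏ i, U (y (i, true)) (y (i, false)))
    (pi2 w L t (fun x y => U x y ^ 3) h)]

theorem qf_sq (hw : Wt w) (N : List (Lv Ω)) (z f : Ω → ℝ) :
    qf (P w N z) (fun b a => (f a - f b) ^ 2) = 2 * Cb w N z f f := by
  have h1 := Crest.Agent.T157.Casc.sum_P hw N z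
  have e : qf (P w N z) (fun b a => (f a - f b) ^ 2) = qf (P w N z) (fun b a => 1 * (f a * f a)) +
      qf (P w N z) (fun b a => (f b * f b) * 1) - 2 * qf (P w N z) (fun b a => f b * f a) := by
    simp only [qf, Finset.mul_sum, ← Finset.sum_add_distrib, ← Finset.sum_sub_distrib]
    exact Finset.sum_congr rfl fun _ _ => Finset.sum_congr rfl fun _ _ => by ring
  rw [e, qf_mul, qf_mul, qf_mul]
  simp only [mul_one, h1, Cb, Pf]
  ring

theorem W3_eq (hw : Wt w) {t : ℕ} (ht : t < L.length) (U V : Ω → Ω → ℝ) (c : ℝ)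
    (hU : ∀ x y, U x y = V x y - c) : W3 w L h t U = 2 * node w L t (fun z =>
      ∑ x, P w (L.drop t) z x * Eg33.Cf w L t t (fun x' => V x' x) (fun x' => V x' x) z) h := by
  have e := Eg33.TM_three hw L h (fun c b a => (U a c - U b c) ^ 2) (le_refl t)
  have e1 : gr L.length (tw L.length t) 0 t = fl (Fin 3) L.length t := by
    have m : min t L.length = t := min_eq_left ht.le
    have m2 : min t (min t L.length) = t := by omega
    funext a b
    fin_cases a <;> fin_cases b
    exacts [(if_pos rfl).symm, m.trans (fl_ne (by decide)).symm, m2.trans (fl_ne (by decide)).symm,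
      m.trans (fl_ne (by decide)).symm, (if_pos rfl).symm, m.trans (fl_ne (by decide)).symm,
      m2.trans (fl_ne (by decide)).symm, m.trans (fl_ne (by decide)).symm, (if_pos rfl).symm]
  rw [TM_eq hw ((rz_tw _ t).gr 0 t), e1] at e
  rw [W3, e, ← congrFun (Crest.Agent.T157.Casc.node_const_mul w _ 2 L t) h]
  congr 1
  funext z
  rw [Finset.mul_sum]
  refine Finset.sum_congr rfl fun x _ => ?_
  rw [Nat.sub_self, Eg33.Cf_self, mul_left_comm, ← qf_sq hw]
  simp only [pi2, Crest.Agent.T157.Casc.node_zero, List.drop_zero, hU, sub_sub_sub_cancel_right]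

open C40 Ck32

theorem ov_comm {n : ℕ} (x y : Cube n) : ov x y = ov y x := by rw [ov, ov, dotProduct_comm]

/-- **three upper edges at one node** -/
theorem cd3 {D : CD} {τ0 : ℝ} (H : D.Ok τ0) {r : ℕ} {σ : SM r} (hσ : Rz D.B.length σ)
    {a b : Fin 3 → Fin r} {t : ℕ} (ht : t ∈ D.up) (hab : ∀ i, σ (a i) (b i) = t)
    (h0 : ∀ i, t ≤ σ (a 0) (a i)) :
    |TB D σ (fun x => ∏ i, oU D.q t (x (a i)) (x (b i))) - D.u3 t| ≤
      48 * (D.e t * D.v t t) + 96 * D.tl := by
  have hK : t < D.B.length := lenB (D := D) ▸ (Finset.mem_Ioo.1 ht).2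
  have := node3 (h := 0) wt_one90 (um_rz hσ) hK hab h0 (U := oU D.q t)
    (fun x y => by rw [oU, oU, ov_comm])
    (abs_oU_le H.ook (Finset.mem_Ioo.1 ht).2.le) ((X_nonneg H).trans (H.eX t)) (H.envU t ht)
  rw [W3_eq wt_one90 hK (oU D.q t) ov (D.q t) fun _ _ => rfl, ← TM_eq wt_one90 hσ] at this
  refine this.trans_eq ?_
  rw [CD.v]
  ring

end Crest.Agent.T156.Cas.C3n47

end
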