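import Crest.Agent.T156.SiteC_94
import Crest.Agent.T156.EDef_91

/-!
# Row 156 (helper94): Hölder and product weights on a fixed base; the cubic word of (E1)
-/

set_option autoImplicit false
set_option linter.unusedSectionVars false

noncomputable section

namespace Crest.Agent.T156.Cas

open MeasureTheory Real Set Filter Topology
open Crest.Agent.T157.E Crest.Agent.T157.Casc Crest.Agent.T157.SL Crest.Agent.T157.Casc.C
open Crest.Agent.R339.B Crest.Agent.R339.Var Crest.Agent.T157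
open Crest.ProbabilityR.SpinGlassDynamics (spin)
open Nu87 One15 Wp52 Site94 E91

namespace Cub94

section gen
variable {Ω Ω' ι : Type} [Fintype Ω] [Fintype Ω'] [DecidableEq ι] {w : Ω → ℝ} {M : List (Lv Ω')}
  {Lb : List (Lv Ω)} {h : Ω → ℝ} {r : ℕ} {σ : SM r} {B : Finset ι}

theorem prod_le_one_add {n : ℕ} (hn : B.card ≤ n) (u : ι → ℝ) :
    |∏ e ∈ B, u e| ≤ 1 + ∑ e ∈ B, |u e| ^ n := by
  have h0 : 0 ≤ ∑ e ∈ B, |u e| ^ n := Finset.sum_nonneg fun _ _ => by positivity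
  rcases B.eq_empty_or_nonempty with rfl | hB
  · simp
  obtain ⟨e, he, hm⟩ := B.exists_max_image (fun e => |u e|) hB
  rw [Finset.abs_prod]
  refine (Finset.prod_le_prod (fun _ _ => abs_nonneg _) hm).trans ?_
  rw [Finset.prod_const]
  rcases le_total |u e| 1 with h1 | h1
  · linarith [pow_le_one₀ (n := B.card) (abs_nonneg _) h1]
  · linarith [pow_le_pow_right₀ h1 hn,
      Finset.single_le_sum (f := fun e => |u e| ^ n) (fun _ _ => by positivity) he]

theorem abs_TM_le (hw : Wt w) (hσ : Rz Lb.length σ) {F G : (Fin r → Ω) → ℝ}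
    (e : ∀ x, |F x| ≤ G x) : |TM w Lb h σ F| ≤ TM w Lb h σ G := by
  have h1 := TM_mono (h := h) hw hσ fun x => (abs_le.1 (e x)).2
  have h2 := TM_mono (h := h) hw hσ (F := fun x => -1 * G x) (G := F) fun x => by
    linarith [(abs_le.1 (e x)).1]
  rw [TM_mul] at h2
  rw [abs_le]
  constructor <;> linarith

/-- **Hölder on a split matrix** -/
theorem TM_holder (hw : Wt w) (hσ : Rz Lb.length σ) {n : ℕ} (hn : B.card ≤ n)
    {f : ι → (Fin r → Ω) → ℝ} {u : ι → ℝ} (hu : ∀ e ∈ B, 0 ≤ u e)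
    (hf : ∀ e ∈ B, TM w Lb h σ (fun x => |f e x| ^ n) ≤ u e ^ n) :
    |TM w Lb h σ fun x => ∏ e ∈ B, f e x| ≤ (B.card + 1) * ∏ e ∈ B, u e := by
  have key : ∀ ε : ℝ, 0 < ε → |TM w Lb h σ fun x => ∏ e ∈ B, f e x| ≤
      (B.card + 1) * ∏ e ∈ B, (u e + ε) := fun ε hε => by
    have hp : ∀ e ∈ B, 0 < u e + ε := fun e he => by linarith [hu e he]
    have hP := Finset.prod_pos hp
    refine (abs_TM_le hw hσ (G := fun x => (∏ e ∈ B, (u e + ε)) *
      (1 + ∑ e ∈ B, ((u e + ε) ^ n)⁻¹ * |f e x| ^ n)) fun x => ?_).trans ?_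
    · have := prod_le_one_add hn fun e => f e x / (u e + ε)
      rw [Finset.prod_div_distrib, abs_div, abs_of_pos hP, div_le_iff₀' hP] at this
      refine this.trans_eq ?_
      congr 2
      exact Finset.sum_congr rfl fun e he => by
        rw [abs_div, abs_of_pos (hp e he), div_pow, div_eq_inv_mul]
    · rw [TM_mul, TM_add, TM_const hw hσ, TM_sum, mul_comm, add_comm]
      refine mul_le_mul_of_nonneg_right (add_le_add ((Finset.sum_le_card_nsmul _ _ 1
        fun e he => ?_).trans_eq (by simp)) le_rfl) hP.le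
      rw [TM_mul, inv_mul_le_iff₀ (pow_pos (hp e he) n), mul_one]
      exact (hf e he).trans (pow_le_pow_left₀ (hu e he) (by linarith) n)
  have hc : Continuous fun ε : ℝ => ((B.card : ℝ) + 1) * ∏ e ∈ B, (u e + ε) := by fun_prop
  have := (hc.tendsto 0).mono_left (nhdsWithin_le_nhds (s := Ioi 0))
  simp only [add_zero] at this
  exact ge_of_tendsto this (eventually_nhdsWithin_of_forall key)

theorem BF_holder (hw : Wt w) (hσ : Rz Lb.length σ) {n : ℕ} (hn : B.card ≤ n)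
    {U : ι → ℕ → Ω → Ω → ℝ} {t t' : ι → Fin r} (ht : ∀ e ∈ B, t e ≠ t' e) {u : ι → ℕ → ℝ}
    (hu : ∀ e j, 0 ≤ u e j) (hm : ∀ e ∈ B, ∀ j ≤ Lb.length, mom w Lb h (U e) n j ≤ u e j ^ n) :
    |BF w Lb h U t t' B σ| ≤ (B.card + 1) * ∏ e ∈ B, u e (σ (t e) (t' e)) :=
  TM_holder hw hσ hn (fun e _ => hu e _) fun e he =>
    (TM_pair hw hσ (ht e he) _).trans_le (hm e he _ (hσ.le _ _))

/-- value of a block: the base label is the last one -/
def Bk (M : List (Lv Ω')) (j k : ℕ) (i : Fin (1 + k)) (g : ℕ → ℝ) : ℝ :=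
  if i.val = k then g j else Br M g

theorem EyC_prod (j : ℕ) : ∀ (k : ℕ) (g : Fin (1 + k) → ℕ → ℝ),
    EyC M (fun _ : Fin 1 => j) k (fun y => ∏ i, g i (y i)) = ∏ i, Bk M j k i (g i)
  | 0, g => Finset.prod_congr rfl fun i _ => (if_pos (by omega)).symm
  | k + 1, g => by
      have e := EyC_prod j k fun i => g i.succ
      have e1 : ∀ f : Fin (1 + (k + 1)) → ℝ, ∏ i, f i =
          (∏ i : Fin (1 + k), f i.succ) * f (0 : Fin (1 + k + 1)) := fun f =>
        (Fin.prod_univ_succ (n := 1 + k) f).trans (mul_comm _ _)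
      rw [EyC]
      simp only [e1, Fin.cons_zero, Fin.cons_succ, Br_mul]
      simp only [mul_comm _ (Br M _), EyC_mul, e]
      simp [Bk, mul_comm]

theorem EyC_sum {y₀ : Fin r → ℕ} {α : Type*} (A : Finset α) : ∀ (k : ℕ)
    (Ψ : α → (Fin (r + k) → ℕ) → ℝ),
    EyC M y₀ k (fun y => ∑ i ∈ A, Ψ i y) = ∑ i ∈ A, EyC M y₀ k (Ψ i)
  | 0, _ => rfl
  | k + 1, _ => by simp only [EyC, Br_sum, EyC_sum A k]

/-- **product form of the weights, base split at `j`** -/
theorem avc_prod [Fintype ι] (hM : Mono 0 M) {j : ℕ} (hj : j ≤ M.length) (k : ℕ)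
    {a b : ι → Fin (1 + k + 1)} (hab : ∀ e, a e ≠ b e) {g : ι → ℕ → ℝ} (hg : ∀ e j, 0 ≤ g e j) :
    avc M (tw M.length j) k (fun σ => ∏ e, g e (σ (a e) (b e))) ≤ (1 + k) ^ k *
      ∑ f : ι → Fin (1 + k), ∏ i, Bk M j k i fun v =>
        ∏ e ∈ Finset.univ.filter fun e => f e = i, g e v := by
  have nn : ∀ (y : Fin (1 + k) → ℕ) (f : ι → Fin (1 + k)), 0 ≤ ∏ e, g e (y (f e)) :=
    fun y f => Finset.prod_nonneg fun e _ => hg e _
  refine (avc_le hM (fun _ => hj) (cmp_tw hj) k (Ψ := fun y => ∑ f : ι → Fin (1 + k),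
    ∏ e, g e (y (f e))) (fun y _ => Finset.sum_nonneg fun f _ => nn y f) fun σ y _ hc => ?_).trans_eq ?_
  · obtain ⟨f, hf, -⟩ := hc.fn a b hab
    simp only [hf]
    exact Finset.single_le_sum (fun f _ => nn y f) (Finset.mem_univ f)
  · rw [EyC_sum]
    simp only [prod_fib g, Nat.cast_one]
    congr 1
    exact Finset.sum_congr rfl fun f _ => EyC_prod j k fun i v =>
      ∏ e ∈ Finset.univ.filter fun e => f e = i, g e v

variable {L : List (Lv Bool)} {ℓ : List (ℝ × ℝ)} {q : ι → ℕ → ℝ} {p p' : ι → Fin r}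

/-- an odd cluster: reference of the crossing edges, or parity -/
theorem SF_odd' (H : List.Forall₂ (Rk1 spin) L ℓ) (hM : Mono 0 L) (hσ : Rz L.length σ)
    (h1 : ∀ e ∈ B, |q e (σ (p e) (p' e))| ≤ 1) {j : ℕ} (ho : OddAt σ p p' B j) {s t : ℝ}
    (hp : 0 < s) (hs : R339.Var.TT (ℓ.take j) ≤ s) (ht : 0 ≤ t)
    (hq : ∀ e ∈ B, σ (p e) (p' e) ≤ j → |q e (σ (p e) (p' e))| ≤ t) :
    |SF L q p p' B σ| ≤ 2 ^ B.card * (min 1 (cP r s * s) + t) := by
  obtain ⟨a, ha⟩ := ho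
  have h0 : 0 ≤ min 1 (cP r s * s) := le_min zero_le_one (mul_nonneg (cP_nonneg _ _) hp.le)
  refine SF_le fun A hA => ?_
  by_cases hc : ∃ e ∈ B \ A, Crs σ a j (p e) (p' e)
  · obtain ⟨e, he, hc⟩ := hc
    refine (mul_le_of_le_one_right (abs_nonneg _) (abs_TM_mo hσ 0 _)).trans ?_
    rw [← Finset.mul_prod_erase _ _ he, abs_mul, abs_neg, Finset.abs_prod]
    refine (mul_le_of_le_one_right (abs_nonneg _) (Finset.prod_le_one (fun _ _ => abs_nonneg _)
      fun e he => ?_)).trans ((hq e (Finset.mem_sdiff.1 he).1 (hc.le hσ)).trans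
        (le_add_of_nonneg_left h0))
    rw [abs_neg]
    exact h1 e (Finset.mem_sdiff.1 (Finset.mem_of_mem_erase he)).1
  · refine (mul_le_of_le_one_left (abs_nonneg _) (abs_q_le h1 A)).trans (le_add_of_le_of_nonneg
      (le_min (abs_TM_mo hσ 0 _) (par1M H hM hσ _ a hp j ?_ hs)) ht)
    rw [Nat.odd_iff, bdM_dg, ← Nat.odd_iff]
    convert ha using 2
    ext e
    simp only [Finset.mem_filter]
    exact ⟨fun h => ⟨hA h.1, h.2⟩, fun h => ⟨by
      by_contra h'
      exact hc ⟨e, Finset.mem_sdiff.2 ⟨h.1, h'⟩, h.2⟩, h.2⟩⟩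

theorem min_cP (r : ℕ) {s : ℝ} (hs : 0 < s) :
    min 1 (cP r s * s) ≤ (1 + r ^ 2) * min 1 (Ker15.PB 6 s) := by
  have h0 := Ker15.PB_nonneg 6 hs
  have h1 : cP r s * s ≤ r ^ 2 * Ker15.PB 6 s := by
    have : 0 ≤ 16 * exp (1 / 2 + √s) * r ^ 2 * s := by positivity
    unfold cP Ker15.PB
    push_cast
    nlinarith
  have h2 : (0 : ℝ) ≤ r ^ 2 := by positivity
  rcases le_total 1 (Ker15.PB 6 s) with h | h
  · rw [min_eq_left h]
    linarith [min_le_left 1 (cP r s * s)]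
  · rw [min_eq_right h]
    linarith [min_le_right 1 (cP r s * s)]

end gen

variable {Ω : Type} [Fintype Ω] {D : Dat Ω} {tb : ℝ}

theorem mono_T : ∀ {Ω Ω' : Type} {L : List (Lv Ω)} {T : List (Lv Ω')} {m : ℝ},
    L.map Lv.m = T.map Lv.m → Mono m L → Mono m T
  | _, _, [], [], _, _, h => h
  | _, _, [], _ :: _, _, e, _ => by simp at e
  | _, _, _ :: _, [], _, e, _ => by simp at e
  | _, _, l :: L, t :: T, _, e, h => by
      simp only [List.map_cons, List.cons.injEq] at e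
      exact ⟨e.1 ▸ h.1, mono_T e.2 (e.1 ▸ h.2)⟩

theorem len_T (hD : D.Ok tb) : D.T.length = D.K := by
  simpa using (congrArg List.length hD.tilt).symm

theorem pz_nonneg (hD : D.Ok tb) {y : ℕ} (hy : y ≤ D.K) : 0 ≤ D.pz y :=
  add_nonneg (add_nonneg (le_min zero_le_one (Ker15.PB_nonneg 6 (hD.sg0 y))) (hD.q01 y hy).1)
    (Nu87.ex_nonneg hD.mono y)

theorem mom_U (hD : D.Ok tb) {y : ℕ} (hy : y ≤ D.K) :
    mom D.w D.L D.h D.U 4 y ≤ (tb * D.un y) ^ 4 := by
  have e : mom D.w D.L D.h D.U 4 y =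
      D.t y ^ 4 * pi2 D.w D.L y (fun x x' => D.U0 y x x' ^ 4) D.h := by
    have h1 := TM_pair (h := D.h) hD.wt (rz_tw D.K y) (a := 0) (b := 1) (by decide)
    rw [tw_01 hy] at h1
    rw [mom, ← h1, ← h1, ← TM_mul]
    simp only [Dat.U, Even.pow_abs (by decide : Even 4), mul_pow]
  rw [e]
  by_cases h0 : D.t y = 0
  · rw [h0, zero_pow (by decide), zero_mul]
    positivity
  · rw [mul_pow, ← Even.pow_abs (by decide : Even 4) (D.t y)]
    exact mul_le_mul (pow_le_pow_left₀ (abs_nonneg _) (hD.tb y) 4) (hD.mom y hy h0)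
      (pi2_nonneg hD.wt _ _ (fun _ _ => by positivity) _) (by positivity)

/-- the bulk factor of at most four letters `α` -/
theorem abs_BF_U (hD : D.Ok tb) {ι : Type} [DecidableEq ι] {B : Finset ι} (hB : B.card ≤ 4) {r : ℕ}
    {σ : SM r} (hσ : Rz D.K σ) {a b : ι → Fin r} (hab : ∀ e ∈ B, a e ≠ b e) :
    |BF D.w D.L D.h (fun _ => D.U) a b B σ| ≤
      (B.card + 1) * tb ^ B.card * ∏ e ∈ B, D.un (σ (a e) (b e)) := by
  have ht : 0 ≤ tb := (abs_nonneg _).trans (hD.tb 0)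
  refine (BF_holder hD.wt hσ hB hab (u := fun _ y => tb * D.un y)
    (fun _ y => mul_nonneg ht (hD.un0 y).1) fun _ _ _ hy => mom_U hD hy).trans_eq ?_
  rw [Finset.prod_mul_distrib, Finset.prod_const, mul_assoc]

/-- the site factor of `η × α α α` when the three edges have one label below the test node -/
theorem site3 (hD : D.Ok tb) {r j y : ℕ} {σ : SM r} (hσ : Rz D.K σ) {p p' : Fin 4 → Fin r}
    (h0 : σ (p 0) (p' 0) = j) (hy : ∀ i : Fin 3, σ (p i.succ) (p' i.succ) = y) (hyj : y < j) :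
    |SF D.T (fun _ => D.q) p p' Finset.univ σ| ≤ 16 * ((1 + r ^ 2) * D.pz y +
      if Out id σ (p 1) (p' 1) then 1 else 0) := by
  have hσ' : Rz D.T.length σ := (len_T hD).symm ▸ hσ
  have hq : ∀ e ∈ (Finset.univ : Finset (Fin 4)), |D.q (σ (p e) (p' e))| ≤ 1 := fun e _ => by
    have := hD.q01 _ (hσ.le (p e) (p' e))
    rw [abs_of_nonneg this.1]
    exact this.2
  have hK : y ≤ D.K := hy 0 ▸ hσ.le _ _
  have h1 := mul_nonneg (by positivity : (0 : ℝ) ≤ 1 + r ^ 2) (pz_nonneg hD hK)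
  have h2 : (0 : ℝ) ≤ if Out id σ (p 1) (p' 1) then 1 else 0 := by positivity
  have e1 : σ (p 1) (p' 1) = y := hy 0
  rcases good_or (B' := ({1} : Finset (Fin 4))) hσ (c := id) monotone_id (fun _ => le_rfl) p p'
    Finset.univ (t := p) (t' := p') (e₀ := 1) (by simp) with (⟨i, ho, hi⟩ | ho) | ⟨-, he⟩
  · have hi' : i ≤ y := e1 ▸ hi 1 (by simp)
    refine (SF_odd' hD.r1.rk (mono_T hD.tilt hD.mono) hσ' hq ho (hD.sg0 y)
      (Ker15.tm_eq hD.r1.rk i ▸ (hD.r1.tm_mono hi').trans (hD.sgt y)) (hD.q01 y hK).1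
      fun e _ he => ?_).trans ?_
    · revert he
      refine Fin.cases (fun he => by omega) (fun e _ => ?_) e
      rw [hy, abs_of_nonneg (hD.q01 y hK).1]
    · have h3 := min_cP r (hD.sg0 y)
      have h4 := mul_nonneg (by positivity : (0 : ℝ) ≤ r ^ 2) (hD.q01 y hK).1
      have h5 := mul_nonneg (by positivity : (0 : ℝ) ≤ 1 + r ^ 2) (Nu87.ex_nonneg hD.mono y)
      rw [Finset.card_univ, Fintype.card_fin, Dat.pz]
      nlinarith
  · refine (abs_SF_le hσ' hq).trans ?_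
    rw [if_pos (ho 1 (by simp)), Finset.card_univ, Fintype.card_fin]
    linarith
  · rw [Finset.card_filter, Fin.sum_univ_succ, e1, h0, if_neg hyj.ne'] at he
    simp only [hy, if_true, Finset.sum_const, Finset.card_univ, Fintype.card_fin] at he
    exact absurd he (by decide)

theorem tri_le {u : ℕ → ℝ} (hu : ∀ y, 0 ≤ u y) {P : ℝ} {l : Fin 3 → ℕ}
    (hF : ∀ i i', l i ≠ l i' → u (l i) ^ 2 * u (l i') ≤ P) (h : ¬∀ i, l i = l 0) :
    ∏ i, u (l i) ≤ P := by
  have key : ∀ a b c : Fin 3, l a ≠ l c → l b ≠ l c → u (l a) * u (l b) * u (l c) ≤ P :=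
    fun a b c h1 h2 => by
      nlinarith [hF a c h1, hF b c h2, mul_nonneg (sq_nonneg (u (l a) - u (l b))) (hu (l c))]
  rw [Fin.prod_univ_three]
  rw [Fin.forall_fin_succ, Fin.forall_fin_two] at h
  change ¬(_ ∧ l 1 = _ ∧ l 2 = _) at h
  by_cases h1 : l 0 = l 1
  · exact key 0 1 2 (by omega) (by omega)
  by_cases h2 : l 0 = l 2
  · linarith [key 0 2 1 h1 (by omega), mul_right_comm (u (l 0)) (u (l 1)) (u (l 2))]
  · have := key 1 2 0 (by omega) (by omega)
    nlinarith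

/-- **the cubic word**, one pattern, parity form -/
theorem cub (tb : ℝ) (k : ℕ) : ∃ C : ℝ, 0 ≤ C ∧ ∀ (Ω : Type) [Fintype Ω] (D : Dat Ω), D.Ok tb →
    ∀ j ≤ D.K, ∀ a b : Fin 3 → Fin (1 + k + 1), (∀ i, a i ≠ b i) →
    |avc (r := 1) D.L (tw D.K j) k fun τ =>
      TM D.w D.L D.h τ (fun x => ∏ i, ed D.U (a i) (b i) x τ) *
      TM (fun _ => 1) D.T 0 τ fun x =>
        ed D.eta (old k 0) (old k 1) x τ * ∏ i, ed D.eta (a i) (b i) x τ| ≤
      C * (D.un j ^ 3 + D.N3p j + (D.un j + D.N 1) * (D.N 2 + D.N 1 ^ 2)) := by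
  set R : ℝ := 1 + ((1 + k + 1 : ℕ) : ℝ) ^ 2 with hR
  have hR1 : 1 ≤ R := le_add_of_nonneg_right (by positivity)
  refine ⟨4 * |tb| ^ 3 * 16 * (3 * (1 + k)) ^ k * (3 * R + 2), by positivity,
    fun Ω _ D hD j hj a b hab => ?_⟩
  have ht : 0 ≤ tb := (abs_nonneg _).trans (hD.tb 0)
  have hu := fun y => (hD.un0 y).1
  set G : ℕ → ℝ := fun y => if y ≤ D.K then D.gz j y * D.un y ^ 3 else 0 with hG
  set E : ℕ → ℝ := fun y => if y < j then D.un y ^ 3 else 0 with hE
  have gz0 : ∀ y ≤ D.K, 0 ≤ D.gz j y := fun y hy => by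
    unfold Dat.gz
    split_ifs
    exacts [pz_nonneg hD hy, zero_le_one]
  have G0 : ∀ y, 0 ≤ G y := fun y => by
    simp only [hG]
    split_ifs with h
    exacts [mul_nonneg (gz0 y h) (pow_nonneg (hu y) 3), le_rfl]
  have E0 : ∀ y, 0 ≤ E y := fun y => by
    simp only [hE]
    split_ifs
    exacts [pow_nonneg (hu y) 3, le_rfl]
  have F0 : ∀ u v, 0 ≤ D.un u ^ 2 * D.un v := fun u v => mul_nonneg (sq_nonneg _) (hu v)
  set Φ : SM (1 + k + 1) → ℝ := fun τ => if ∀ i, τ (a i) (b i) = τ (a 0) (b 0) then 0 else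
    ∏ i, D.un (τ (a i) (b i)) with hΦ
  have h1 := avc_two hD.mono hj k F0 (Φ := Φ) fun σ y _ hc => by
    simp only [hΦ]
    split_ifs with h
    · obtain ⟨h1, h2, h3⟩ := P2_nonneg hD.mono F0 y
      exact add_nonneg (add_nonneg h1 h2) h3
    · refine tri_le hu (fun i i' hi => ?_) h
      obtain ⟨m, hm⟩ := hc.mem _ _ (hab i)
      obtain ⟨m', hm'⟩ := hc.mem _ _ (hab i')
      rw [hm, hm'] at hi ⊢
      exact le_P2 hD.mono F0 y fun e => hi (e ▸ rfl)
  have h2 := avc_pair_le hD.mono hj k G0 (hab 0)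
  have h3 := avc_out hD.mono hj k (c := id) (fun _ => le_rfl) E0 (hab 0)
  refine (abs_avc_le hD.mono (rz_tw _ j) k (g := fun τ => 4 * tb ^ 3 * 16 * (Φ τ +
    (R * G (τ (a 0) (b 0)) + if Out id τ (a 0) (b 0) then E (τ (a 0) (b 0)) else 0)))
    fun τ hτ ho => ?_).trans ?_
  · have b1 := abs_BF_U hD (B := Finset.univ) (by simp) hτ fun i _ => hab i
    have e1 : TM (fun _ => 1) D.T 0 τ (fun x => ed D.eta (old k 0) (old k 1) x τ *
        ∏ i, ed D.eta (a i) (b i) x τ) = SF D.T (fun _ => D.q) (Fin.cons (old k 0) a : Fin 4 → _)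
        (Fin.cons (old k 1) b) Finset.univ τ :=
      congrArg _ (funext fun x => by rw [Fin.prod_univ_succ (n := 3)]; rfl)
    have hτ' : Rz D.T.length τ := (len_T hD).symm ▸ hτ
    have b2 := abs_SF_le (q := fun _ => D.q) (p := (Fin.cons (old k 0) a : Fin 4 → _))
      (p' := Fin.cons (old k 1) b) (B := Finset.univ) hτ' fun e _ => by
        have := hD.q01 _ (hτ.le ((Fin.cons (old k 0) a : Fin 4 → _) e)
          ((Fin.cons (old k 1) b : Fin 4 → _) e))
        rw [abs_of_nonneg this.1]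
        exact this.2
    have hK := hτ.le (a 0) (b 0)
    have p0 : 0 ≤ ∏ i, D.un (τ (a i) (b i)) := Finset.prod_nonneg fun _ _ => hu _
    have o0 : 0 ≤ if Out id τ (a 0) (b 0) then E (τ (a 0) (b 0)) else 0 := by
      split_ifs
      exacts [E0 _, le_rfl]
    have g0 := mul_nonneg (zero_le_one.trans hR1) (G0 (τ (a 0) (b 0)))
    simp only [Finset.card_univ, Fintype.card_fin] at b1 b2
    replace b2 := b2.trans_eq (show (2 : ℝ) ^ (3 + 1) = 16 by norm_num)
    rw [abs_mul, e1]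
    refine (mul_le_mul_of_nonneg_right b1 (abs_nonneg _)).trans ?_
    rw [show ((3 : ℕ) : ℝ) + 1 = 4 by norm_num, mul_assoc, mul_assoc (4 * tb ^ 3)]
    refine mul_le_mul_of_nonneg_left ?_ (by positivity)
    simp only [hΦ]
    by_cases h : ∀ i, τ (a i) (b i) = τ (a 0) (b 0)
    · rw [if_pos h, zero_add, Finset.prod_congr rfl fun i _ => congrArg D.un (h i),
        Finset.prod_const, Finset.card_univ, Fintype.card_fin]
      have u3 := pow_nonneg (hu (τ (a 0) (b 0))) 3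
      simp only [hG, hE, if_pos hK, Dat.gz] at o0 ⊢
      by_cases hy : τ (a 0) (b 0) < j
      · have := site3 hD hτ (p := Fin.cons (old k 0) a) (p' := Fin.cons (old k 1) b)
          ((ho 0 1).trans (tw_01 hj)) h hy
        refine (mul_le_mul_of_nonneg_left this u3).trans_eq ?_
        change _ * (16 * (R * _ + if Out id τ (a 0) (b 0) then 1 else 0)) = _
        simp only [if_pos hy]
        split_ifs <;> ring
      · simp only [if_neg hy, ite_self]
        linarith [mul_le_mul_of_nonneg_left b2 u3, mul_nonneg (sub_nonneg.2 hR1) u3]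
    · rw [if_neg h]
      linarith [mul_le_mul_of_nonneg_left b2 p0]
  · have n1 : Br D.L D.un = D.N 1 := by simp [Br, Dat.N, Dat.I]
    have n2 : Br D.L (fun v => D.un v ^ 2) = D.N 2 := rfl
    have n3 : Br D.L G = D.N3p j := Finset.sum_congr rfl fun y hy => by
      simp only [hG, if_pos (Nat.lt_succ_iff.1 (Finset.mem_range.1 hy))]
    have n4 : Br D.L (fun v => ex D.L (id v) * E v) ≤ D.N3p j := by
      rw [← n3]
      refine Br_mono hD.mono fun y hy => ?_
      simp only [hG, hE, if_pos hy, Dat.gz, id]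
      split_ifs
      · refine mul_le_mul_of_nonneg_right (le_add_of_nonneg_left (add_nonneg (le_min zero_le_one
          (Ker15.PB_nonneg 6 (hD.sg0 y))) (hD.q01 y hy).1)) (pow_nonneg (hu y) 3)
      · rw [mul_zero, one_mul]
        exact pow_nonneg (hu y) 3
    have n5 : Br D.L (fun v => if j ≤ id v then E v else 0) = 0 := by
      refine (congrArg (Br D.L) (funext fun v => ?_)).trans (Br_const 0)
      simp only [hE, id]
      split_ifs <;> first | rfl | omega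
    have n6 : G j = D.un j ^ 3 := by simp [hG, hj, Dat.gz]
    have n7 : E j = 0 := by simp [hE]
    have m1 : 0 ≤ D.N 1 := n1 ▸ Br_nonneg hD.mono fun _ _ => hu _
    have m2 : 0 ≤ D.N 2 := n2 ▸ Br_nonneg hD.mono fun _ _ => sq_nonneg _
    have m3 : 0 ≤ D.N3p j := n3 ▸ Br_nonneg hD.mono fun _ _ => G0 _
    have k1 : ∀ c, Br D.L (fun v => c * D.un v) = c * D.N 1 := fun c => n1 ▸ Br_mul D.L c D.un
    have k2 : ∀ c, Br D.L (fun v => D.un v ^ 2 * c) = c * D.N 2 := fun c =>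
      (congrArg _ (funext fun v => mul_comm _ _)).trans (Br_mul D.L c fun v => D.un v ^ 2)
    simp only [k1, k2] at h1
    rw [n3, n6] at h2
    rw [n5, n7, mul_zero, zero_add, zero_add] at h3
    rw [avc_mul, avc_add, avc_add, avc_mul, abs_of_nonneg ht, mul_assoc (4 * tb ^ 3 * 16),
      mul_assoc (4 * tb ^ 3 * 16)]
    refine mul_le_mul_of_nonneg_left ((add_le_add h1 (add_le_add (mul_le_mul_of_nonneg_left h2
      (zero_le_one.trans hR1)) (h3.trans (mul_le_mul_of_nonneg_left n4 (by positivity))))).trans ?_)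
      (by positivity)
    rw [mul_left_comm R, ← mul_add, ← mul_add, mul_assoc]
    refine mul_le_mul_of_nonneg_left ?_ (by positivity)
    have u0 := hu j
    have y1 : D.N 1 * D.un j ^ 2 ≤ D.un j ^ 3 + D.N 1 ^ 3 := by
      nlinarith [mul_nonneg (add_nonneg u0 m1) (sq_nonneg (D.un j - D.N 1)),
        mul_nonneg u0 (sq_nonneg (D.N 1))]
    have y2 := mul_nonneg u0 (sq_nonneg (D.N 1))
    have y3 := mul_nonneg (sub_nonneg.2 hR1) (add_nonneg (add_nonneg (pow_nonneg u0 3) m3)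
      (mul_nonneg (add_nonneg u0 m1) (add_nonneg m2 (sq_nonneg (D.N 1)))))
    have y4 := mul_nonneg (add_nonneg u0 m1) (add_nonneg m2 (sq_nonneg (D.N 1)))
    have y5 := mul_nonneg (sub_nonneg.2 hR1) y4
    have y6 := mul_nonneg (sub_nonneg.2 hR1) m3
    have y7 := mul_nonneg (sub_nonneg.2 hR1) (pow_nonneg u0 3)
    nlinarith [pow_nonneg u0 3, mul_nonneg u0 m2, mul_nonneg m1 m2, pow_nonneg m1 3]

end Cub94

end Crest.Agent.T156.Cas

end
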