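import Crest.Agent.T156.C3D_94
import Crest.Agent.T156.CWk_55

/-!
# Row 156, block C (helper87): `TlS` of `C3D_94`

A free leaf grafted on the path of `c` after `t` levels is integrated out (`Wf99.g1_eq`), which
leaves a functional of one path; `Cw55.tail_env` bounds its tail sums.
-/

set_option autoImplicit false
set_option linter.all false

noncomputable section

namespace Crest.Agent.T156.Cas.C394

open Crest.Agent.T157.E Crest.Agent.T157.Casc Crest.Agent.T157.SL
open C40 Nu87 Ck32

/-- a free leaf grafted on the path of `c` is integrated out -/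
theorem TM_leaf {Ω : Type} [Fintype Ω] {w : Ω → ℝ} (hw : Wt w) (L : List (Lv Ω)) (h : Ω → ℝ)
    {r : ℕ} {s : Sh} (e : Fin r ≃ s.Lf) (c : Fin r) (t : ℕ) (G : (Fin r → Ω) → ℝ)
    (K : Ω → Ω → ℝ) :
    TM w L h (gr L.length (sm s e L.length) c t)
      (fun ω => G (fun a => ω a.succ) * K (ω c.succ) (ω 0)) = tX w s L h fun g x =>
        G (fun a => x (e a)) * Pf w (L.drop t) (stT s L h g (e c) t) (K (x (e c))) := by
  rw [← sm_gr, TM_sm hw _ L h (grE e (e c) t).injective]
  exact Wf99.g1_eq hw s (e c) t (e c) L h (fun _ => K) fun x => G fun a => x (e a)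

/-- **`TlS`** -/
theorem tlS : TlS := by
  intro τ0 D H μ F f W r σ hσ c G A b hb hA m
  obtain ⟨s, e, rfl⟩ := hσ
  have hb0 : 0 ≤ b := (abs_nonneg _).trans (hb fun _ _ => true)
  simp only [TB] at hA ⊢
  rw [TM_sm wt_one90 s D.B 0 e.injective] at hA
  simp only [TM_leaf wt_one90 D.B 0 e c _ G]
  exact Cw55.tail_env wt_one90 s (e c) D.B 0 (G := fun _ x => G fun a => x (e a))
    (fun _ => Eg.const _) _ μ (Y := Cw55.Yl D) (Cw55.eg_Yl D) (W.nn m).1 hb0 hA
    (fun _ _ => hb _) (W.envL m)

end Crest.Agent.T156.Cas.C394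

end
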