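import Crest.Agent.T156.CErr_54

/-!
# Row 156, block C (helper43): the test head with the crude cubic terms explicit

`HTx` is `HT` with the error `Err + XC`; `C3X` is `C3S true` with the same error.
-/

set_option autoImplicit false
set_option linter.all false

noncomputable section

namespace Crest.Agent.T156.Cas.C40

open Real

/-- the crude cubic terms of the test direction -/
def CD.XC (D : CD) : ℝ := D.wt * (D.N1 * D.N2) +
  D.Iw fun j => min (D.g j * D.lw (fun t => D.g t ^ 2) j)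
    (√(D.u 2 j) * D.lw (fun t => √(D.u 4 t)) j)

theorem CD.Ok.XC0 {D : CD} {τ0 : ℝ} (H : D.Ok τ0) : 0 ≤ D.XC :=
  add_nonneg (mul_nonneg D.wt0 (mul_nonneg H.N10 H.N20)) (D.Iw0 fun j _ => le_min
    (mul_nonneg (D.g0 j) (H.lw0 (fun _ => sq_nonneg _) j))
    (mul_nonneg (sqrt_nonneg _) (H.lw0 (fun _ => sqrt_nonneg _) j)))

/-- `g = O (Err + XC)` in the test direction -/
def Bx (g : CD → ℝ) : Prop :=
  ∀ τ0 : ℝ, ∃ C : ℝ, 0 ≤ C ∧ ∀ D : CD, D.Ok τ0 → D.W.isSome = true →
    |g D| ≤ C * D.Err + C * D.XC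

/-- the cubic leaf of the test direction -/
def C3X : Prop := Bx fun D => D.tw [aU, aU, aU] - D.LOC3

/-- (test ω) with the crude cubic terms -/
def HTx : Prop := Bx fun D => ∑ j ∈ D.up, D.om j * (D.rb j - D.Gam j) - D.main

/-- the leaves of the test direction without the cubic one -/
def LvT : Prop := YhS true ∧ Y2S true ∧ Y3S true ∧ Y4S true ∧ LbS true ∧ MxS true ∧ Q2S true ∧
  AbS true ∧ CrO true ∧ Cr4 true ∧ Cr5 true

namespace X43

open Gl31

theorem word (hE : ExS) (H : LvT) (f : List Lt) (h1 : 1 ≤ f.length)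
    (h4 : f.length ≤ 4) : Bd true fun D =>
      D.tw f - mn D f - pt [aU, aU, aU] (D.tw [aU, aU, aU] - D.LOC3) f := by
  obtain ⟨yh, y2, y3, y4, lb, mx, q2, ab, cro, cr4, cr5⟩ := H
  by_cases h3 : f = [aU, aU, aU]
  · subst h3
    exact (Bd.zero true).congr fun _ D _ _ => by simp [mn, pt]
  refine Bd.congr (g := fun D => D.tw f - mn D f) ?_ fun _ D _ _ => by
    rw [pt, if_neg h3, sub_zero]
  have pm : ∀ {f' : List Lt} {m : CD → ℝ}, f.Perm f' → (∀ D, mn D f = m D) →
      (Bd true fun D => D.tw f' - m D) → Bd true fun D => D.tw f - mn D f := fun hp hm h =>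
    h.congr fun τ0 D hD _ => by rw [((hE τ0 D hD).2.2.2 _ _ hp).1, hm]
  have p0 : ∀ {f' : List Lt}, f ∉ sp → f.Perm f' → (Bd true fun D => D.tw f') →
      Bd true fun D => D.tw f - mn D f := fun hn hp h =>
    pm hp (fun D => mn_zero D hn) (h.congr fun _ _ _ _ => sub_zero _)
  rcases cls f h1 h4 with h | ⟨hn, h | h | h | h | h | h | h⟩
  · simp only [sp, List.mem_cons, List.not_mem_nil, or_false] at h
    rcases h with rfl | rfl | rfl | rfl | rfl | rfl | rfl | rfl | rfl | rfl | rfl | rfl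
    · exact pm (.refl _) (fun D => by simp [mn, pt]) yh
    · exact pm (m := fun D => -(D.dd 1 0 * D.S1) / 4) (.refl _) (fun D => by simp [mn, pt])
        ((Bd.zero true).congr fun τ0 D hD _ => sub_eq_zero.2 (hE τ0 D hD).2.1)
    · exact pm (m := fun D => D.f1') (.refl _) (fun D => by simp [mn, pt])
        ((Bd.zero true).congr fun τ0 D hD _ => sub_eq_zero.2 (hE τ0 D hD).1)
    · exact pm (m := fun D => -(D.dd 1 0 * D.Su) / 4) (.refl _) (fun D => by simp [mn, pt])
        ((Bd.zero true).congr fun τ0 D hD _ => sub_eq_zero.2 (hE τ0 D hD).2.2.1)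
    · exact pm (.refl _) (fun D => by simp [mn, pt]) y2
    · exact pm (.refl _) (fun D => by simp [mn, pt]) q2
    · exact pm (m := fun D => -(D.lam3 * D.S3)) (.refl _) (fun D => by simp [mn, pt])
        (Bd.congr y3 fun _ _ _ _ => sub_neg_eq_add _ _)
    · exact pm (.refl _) (fun D => by simp [mn, pt]) mx
    · exact pm (by decide) (fun D => by simp [mn, pt]) mx
    · exact pm (by decide) (fun D => by simp [mn, pt]) mx
    · exact absurd rfl h3
    · exact pm (.refl _) (fun D => by simp [mn, pt]) y4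
  · exact p0 hn (.refl _) (cro f h4 h.1 h.2)
  · exact p0 hn (.refl _) (cr4 f h.1 h.2.1 h.2.2)
  · exact p0 hn (.refl _) (cr5 f h4 h)
  · exact p0 hn h lb.1
  · exact p0 hn h lb.2
  · exact p0 hn h ab.1
  · exact p0 hn h ab.2

/-- the test head up to the cubic leaf -/
theorem head0 (hE : ExS) (hR : RemS) (H : LvT) (hc : StC) (hl : StL) (hu : StU) :
    Bd true fun D => ∑ j ∈ D.up, D.om j * (D.rb j - D.Gam j) - D.main -
      (D.tw [aU, aU, aU] - D.LOC3) / 6 := by
  have hU : Bd true fun D => sumW (fun _ => 1) D.tU := bd_sumW _ (T := fun D => D.tU)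
    fun f h1 h4 => by
      rcases clsU f h1 h4 with h | rfl | rfl | rfl | rfl
      exacts [hc f h1 h4 h, hl.1, hl.2, hu.1, hu.2]
  have hw := bd_sumW (fun _ => 1) (T := fun D f =>
    D.tw f - mn D f - pt [aU, aU, aU] (D.tw [aU, aU, aU] - D.LOC3) f) (word hE H)
  refine ((hR.2.2.add hw).sub hU).congr fun _ D _ _ => ?_
  rw [sumW_sub (fun _ => 1) (fun f => D.tw f - mn D f), sumW_sub (fun _ => 1) D.tw (mn D),
    sumW_one, sumW_pt _ _ _ (by decide) (by decide)]
  simp only [List.length_cons, List.length_nil, Nat.factorial]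
  push_cast
  ring

end X43

/-- **glue, test, with the crude cubic terms** -/
theorem glueTx (hE : ExS) (hR : RemS) (H : LvT) (h3 : C3X) (hc : StC) (hl : StL) (hu : StU) :
    HTx := fun τ0 => by
  obtain ⟨C, hC, h⟩ := X43.head0 hE hR H hc hl hu τ0
  obtain ⟨C', hC', h'⟩ := h3 τ0
  refine ⟨C + C', add_nonneg hC hC', fun D hD hW => ?_⟩
  have a := h D hD hW
  have a' := h' D hD hW
  have e1 := mul_nonneg hC' hD.Err0
  have e2 := mul_nonneg hC hD.XC0
  have e3 := mul_nonneg hC' hD.XC0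
  rw [abs_le] at a a' ⊢
  constructor <;> nlinarith [a.1, a.2, a'.1, a'.2]

/-- back to the form of `HT` when `Z` dominates the crude terms -/
theorem Bx.of_le {g : CD → ℝ} (h : Bx g) (τ0 : ℝ) : ∃ C : ℝ, 0 ≤ C ∧ ∀ D : CD, D.Ok τ0 →
    D.W.isSome = true → D.XC ≤ D.Err → |g D| ≤ C * D.Err := by
  obtain ⟨C, hC, h⟩ := h τ0
  refine ⟨2 * C, by positivity, fun D hD hW hx => (h D hD hW).trans ?_⟩
  have := mul_le_mul_of_nonneg_left hx hC
  linarith

end Crest.Agent.T156.Cas.C40

end
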