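import Crest.Agent.T156.C3C_94
import Crest.Agent.T156.C3T_87
import Crest.Agent.T156.C3L_97
import Crest.Agent.T156.C3R_38
import Crest.Agent.T156.C3P_47
import Crest.Agent.T156.CL3_76

/-!
# Row 156, block C (helper94): the leaf `C3S false`
-/

set_option autoImplicit false

namespace Crest.Agent.T156.Cas.C40

open C394

/-- **leaf `C3S false`** -/
theorem c3F : C3S false := (redS (excS_of (repS_of rlS) (maiS tlS))).sub l3S

end Crest.Agent.T156.Cas.C40
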