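import Crest.Agent.T156.C3n_47

/-!
# Row 156, block C (helper47): moving one end of an edge inside a branch
-/

set_option autoImplicit false
set_option linter.all false

noncomputable section

namespace Crest.Agent.T156.Cas.C3n47

open MeasureTheory Real Set Filter Topology
open Crest.Agent.T157.E Crest.Agent.T157.Casc Crest.Agent.T157.SL
open Crest.Agent.T157.G1 (ov)
open Wt87 Nu87 Ker15 R90

variable {Ω : Type} [Fintype Ω] {w : Ω → ℝ} {κ : Type} [Fintype κ] {L : List (Lv Ω)} {h : Ω → ℝ}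

/-- `E Var (V (·, x) | x, path up to i)` for a pair split at `y` -/
def vg (w : Ω → ℝ) (L : List (Lv Ω)) (h : Ω → ℝ) (V : Ω → Ω → ℝ) (y i : ℕ) : ℝ :=
  node w L y (fun z =>
    ∑ x, P w (L.drop y) z x * Eg33.Cf w L y i (fun x' => V x' x) (fun x' => V x' x) z) h

theorem vg_nonneg (hw : Wt w) (V : Ω → Ω → ℝ) (y i : ℕ) : 0 ≤ vg w L h V y i :=
  node_nonneg w (fun z => Finset.sum_nonneg fun x _ =>
    mul_nonneg (P_nonneg hw _ z x) (Eg33.Cf_nonneg hw L y i _ z)) L y h

theorem vg_anti (hw : Wt w) (V : Ω → Ω → ℝ) {y i j : ℕ} (hi : y ≤ i) (hj : i ≤ j) :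
    vg w L h V y j ≤ vg w L h V y i :=
  node_mono hw (Eg.sum _ fun x _ => (eg_P hw _ x).mul (Eg33.eg_Cf hw L y j _ _))
    (Eg.sum _ fun x _ => (eg_P hw _ x).mul (Eg33.eg_Cf hw L y i _ _))
    (fun z => Finset.sum_le_sum fun x _ =>
      mul_le_mul_of_nonneg_left (Eg33.Cf_anti hw L hi hj _ z) (P_nonneg hw _ z x)) L y h

theorem tri_eq (hw : Wt w) {σ : κ → κ → ℕ} (H : Um L.length σ) {u u' z : κ} {y : ℕ}
    (hK : y < L.length) (hy : σ u z = y) (hy' : σ u' z = y) (hu : u ≠ u') (V : Ω → Ω → ℝ) :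
    TK w L h σ (fun x => (V (x u) (x z) - V (x u') (x z)) ^ 2) = 2 * vg w L h V y (σ u u') := by
  have hi : y ≤ σ u u' := by
    have := H.ultra u z u'
    rw [H.comm z u'] at this
    omega
  have h1 := H.le u u'
  have n1 : u ≠ z := fun e => by rw [e, H.self] at hy; omega
  have n2 : u' ≠ z := fun e => by rw [e, H.self] at hy'; omega
  have e := Eg33.TM_three hw L h (fun c b a => (V a c - V b c) ^ 2) hi
  have R := (rz_tw L.length y).gr 0 (σ u u')
  rw [TM_eq hw R] at e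
  have m1 : min (σ u u') L.length = σ u u' := min_eq_left h1
  have m2 : min (σ u u') (min y L.length) = y := by omega
  have m3 : min y L.length = y := by omega
  have e2 := TK_map (h := h) hw H (um_rz R) (φ := ![u, u', z]) (φ' := id)
    (fun a b => by
      fin_cases a <;> fin_cases b <;> simp [hu, hu.symm, n1, n1.symm, n2, n2.symm])
    (fun a b hab => by
      fin_cases a <;> fin_cases b
      exacts [absurd rfl hab, m1.symm, hy.trans m2.symm, (H.comm _ _).trans m1.symm,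
        absurd rfl hab, hy'.trans m3.symm, ((H.comm _ _).trans hy).trans m2.symm,
        ((H.comm _ _).trans hy').trans m3.symm, absurd rfl hab])
    fun x => (V (x 0) (x 2) - V (x 1) (x 2)) ^ 2
  refine Eq.trans (e2.trans e) ?_
  rw [vg, ← congrFun (Crest.Agent.T157.Casc.node_const_mul w _ 2 L y) h]
  congr 1
  funext z
  rw [Finset.mul_sum]
  refine Finset.sum_congr rfl fun x _ => ?_
  rw [mul_left_comm, Eg33.Cf, ← congrFun (Crest.Agent.T157.Casc.node_const_mul w _ 2 _ _) z]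
  simp only [pi2, List.drop_drop, Nat.add_sub_cancel' hi, qf_sq hw]

/-- **one end of an edge of level `y` moves inside a branch of depth `≥ t`** -/
theorem tri_le (hw : Wt w) {σ : κ → κ → ℕ} (H : Um L.length σ) {u u' z : κ} {y t : ℕ}
    (hK : y < L.length) (hy : σ u z = y) (hy' : σ u' z = y) (hyt : y ≤ t) (ht : t ≤ σ u u')
    (V : Ω → Ω → ℝ) :
    TK w L h σ (fun x => (V (x u) (x z) - V (x u') (x z)) ^ 2) ≤ 2 * vg w L h V y t := by
  by_cases hu : u = u'
  · subst hu
    simp only [sub_self, TK_const hw H]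
    linarith [vg_nonneg (L := L) (h := h) hw V y t]
  · rw [tri_eq hw H hK hy hy' hu]
    linarith [vg_anti (L := L) (h := h) hw V hyt ht]

open C40 Ck32

theorem v_eq (D : CD) (y t : ℕ) : D.v y t = vg (fun _ => 1) D.B 0 ov y t := rfl

theorem v_anti (D : CD) {y i j : ℕ} (hi : y ≤ i) (hj : i ≤ j) : D.v y j ≤ D.v y i :=
  vg_anti wt_one90 ov hi hj

theorem tri_v (D : CD) {σ : κ → κ → ℕ} (H : Um D.B.length σ) {u u' z : κ} {y t : ℕ}
    (hK : y < D.B.length) (hy : σ u z = y) (hy' : σ u' z = y) (hyt : y ≤ t) (ht : t ≤ σ u u') :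
    TK (fun _ => 1) D.B 0 σ (fun x => (ov (x u) (x z) - ov (x u') (x z)) ^ 2) ≤ 2 * D.v y t :=
  tri_le wt_one90 H hK hy hy' hyt ht ov

/-- the same for `U` on a split matrix -/
theorem tri_U (D : CD) {r : ℕ} {σ : SM r} (hσ : Rz D.B.length σ) {u u' z : Fin r} {y t : ℕ}
    (hK : y < D.B.length) (hy : σ u z = y) (hy' : σ u' z = y) (hyt : y ≤ t) (ht : t ≤ σ u u')
    (j : ℕ) :
    TB D σ (fun x => (oU D.q j (x u) (x z) - oU D.q j (x u') (x z)) ^ 2) ≤ 2 * D.v y t := by
  simp only [oU, sub_sub_sub_cancel_right]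
  exact (TM_eq wt_one90 hσ _).trans_le (tri_v D (um_rz hσ) hK hy hy' hyt ht)

end Crest.Agent.T156.Cas.C3n47

end
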