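import Crest.Agent.T156.CStC_22

/-!
# Row 156, block C: the words `[aU, b]` in the value direction (helper22)
-/

set_option autoImplicit false
set_option linter.all false

noncomputable section

namespace Crest.Agent.T156.Cas.C40

open Crest.Agent.T157.E Crest.Agent.T157.Casc Crest.Agent.T157.SL
open Nu87 G90 Cr22 Mul55

/-- a word with an upper first letter, value direction -/
theorem bd_tm_up {b : Bool} {f : List Lt} {c : ℝ} {e : ℕ} (hc : 0 ≤ c)
    (H : Sm (e + lw f) (dW false ((false, b) :: f)))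
    (hs : ∀ τ0 D, CD.Ok D τ0 → D.W.isSome = false → ∀ j ∈ D.up,
      Site D f j (oZs D.q b j) (c * D.X ^ e)) :
    Bd false fun D => D.tw ((false, b) :: f) :=
  Bd.val fun τ0 => ⟨cN τ0 f.length * (512 * c + 1), fun D h hW => by
    rw [CD.tw, CD.dd_val hW]
    refine (abs_tm_up h b f (mul_nonneg hc (pow_nonneg h.X0 _)) (hs τ0 D h hW)).trans ?_
    rw [mul_assoc (cN _ _), mul_assoc c, ← pow_add, mul_assoc c]
    refine mul_le_mul_of_nonneg_left ?_ (cN_nonneg _ _)
    linarith [mul_le_mul_of_nonneg_left (I_sm h H) hc, h.tl_le]⟩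

theorem site_b {D : CD} {τ0 : ℝ} (h : D.Ok τ0) (hW : D.W.isSome = false) (c : Bool) {j : ℕ}
    (hj : j ∈ D.up) : Site D [(c, false)] j (oZs D.q true j) (1 * D.X ^ 3) :=
  fun r _ σ N a b hσ _ hab e hc _ => by
    obtain ⟨e', _, -, h2, rfl⟩ := List.forall₂_cons_left_iff.1 hc
    obtain rfl := List.forall₂_nil_left_iff.1 h2
    subst e
    refine (congrArg abs ((congrArg _ (funext fun x => ?_)).trans (TM_oE hσ hab))).trans_le ?_
    · simp [zs, eF, oZs]
    · rw [one_mul]
      exact h.stt (Option.isNone_iff_eq_none.1 (by simpa using hW)) _ hj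

/-- **`AbS`, value direction** -/
theorem abS_false : AbS false :=
  ⟨bd_tm_up (e := 3) zero_le_one (by decide) fun _ _ h hW _ hj => site_b h hW false hj,
    bd_tm_up (e := 3) zero_le_one (by decide) fun _ _ h hW _ hj => site_b h hW true hj⟩

end Crest.Agent.T156.Cas.C40

end
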