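import Crest.Agent.T156.CAbT_45

/-!
# Row 156, block C (helper45): the site coefficient against weak and absolute bulk bounds
-/

set_option autoImplicit false
set_option linter.all false

noncomputable section

namespace Crest.Agent.T156.Cas.C40.Ab45

open Finset
open Crest.Agent.T157.E Crest.Agent.T157.Casc Crest.Agent.T157.SL
open Mul55

/-- summation by parts with a weighted start value -/
theorem abelE {c Y F d : ℕ → ℝ} {a K : ℕ} {B ε : ℝ} (h : a < K) (hε : 0 ≤ ε) (F0 : ∀ t, 0 ≤ F t)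
    (bd : ∀ t, a ≤ t → t < K → |c t| ≤ B) (h1 : |c a| ≤ B * d a)
    (h2 : ∀ t, a < t → t < K → |c t - c (t - 1)| ≤ B * d t)
    (hY : ∀ j, a ≤ j → j < K → |∑ t ∈ Ico j K, Y t| ≤ F j + ε) :
    |∑ t ∈ Ico a K, c t * Y t| ≤ B * ∑ t ∈ Ico a K, d t * F t + 2 * B * K * ε := by
  have B0 : 0 ≤ B := (abs_nonneg _).trans (bd a le_rfl h)
  have k : ∀ x T b t : ℝ, |x| ≤ b → |x| ≤ 2 * B → |T| ≤ t + ε → 0 ≤ t →
      |x * T| ≤ b * t + 2 * B * ε := fun x T b t e1 e2 e3 e4 => by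
    rw [abs_mul]
    refine (mul_le_mul_of_nonneg_left e3 (abs_nonneg _)).trans ?_
    rw [mul_add]
    exact add_le_add (mul_le_mul_of_nonneg_right e1 e4) (mul_le_mul_of_nonneg_right e2 hε)
  rw [Cw55.abel_eq Y c a K K h le_rfl, Ico_self, sum_empty, mul_zero, sub_zero,
    sum_eq_sum_Ico_succ_bot h fun t => d t * F t]
  have x1 := k _ _ _ _ h1 (by linarith [bd a le_rfl h]) (hY a le_rfl h) (F0 a)
  have x2 : |∑ t ∈ Ico (a + 1) K, (c t - c (t - 1)) * ∑ u ∈ Ico t K, Y u| ≤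
      ∑ t ∈ Ico (a + 1) K, (B * (d t * F t) + 2 * B * ε) :=
    (abs_sum_le_sum_abs _ _).trans (sum_le_sum fun t ht => by
      have ht' := mem_Ico.1 ht
      rw [← mul_assoc]
      exact k _ _ _ _ (h2 t (by omega) ht'.2) ((abs_sub _ _).trans (by
        linarith [bd t (by omega) ht'.2, bd (t - 1) (by omega) (by omega)]))
        (hY t (by omega) ht'.2) (F0 t))
  rw [sum_add_distrib, ← mul_sum, sum_const, nsmul_eq_mul, Nat.card_Ico] at x2
  have x3 : ((K - (a + 1) : ℕ) : ℝ) + 1 ≤ K := by exact_mod_cast (by omega)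
  have x4 := mul_le_mul_of_nonneg_right x3 (by positivity : 0 ≤ 2 * B * ε)
  refine (abs_add_le _ _).trans ?_
  nlinarith

variable {D : CD} {τ0 C : ℝ} {κ : ℕ → ℕ → ℝ}

theorem up_eq (D : CD) : D.up = Ico (D.J + 1) D.K := by
  ext t; simp only [mem_Ioo, mem_Ico]; omega

/-- the diagonal and the rest -/
theorem W_split (S : Ab83.Sit D C κ) {j : ℕ} (hj : j ∈ D.up) (R : ℕ → ℝ) :
    ∑ t ∈ D.up, Ab83.W D j t * R t =
      Ab83.W D j j * R j + ∑ t ∈ D.up, (if t = j then 0 else κ j t) * (D.dx t * R t) := by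
  rw [← add_sum_erase _ _ hj, ← add_sum_erase _ (fun t => (if t = j then 0 else κ j t) * _) hj,
    if_pos rfl, zero_mul, zero_add]
  refine congrArg _ (sum_congr rfl fun t ht => ?_)
  have := mem_erase.1 ht
  rw [S.eq j hj t this.2 this.1, if_neg this.1]
  ring

theorem kap_le (hC : 0 ≤ C) (S : Ab83.Sit D C κ) {j t : ℕ} (hj : j ∈ D.up) (ht : t ∈ D.up) :
    |if t = j then 0 else κ j t| ≤ C := by
  split_ifs with e
  · simpa using hC
  · exact (S.bd j hj t ht e).trans (mul_le_of_le_one_right hC (min_le_left _ _))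

/-- **absolute form** -/
theorem site_abs (H : D.Ok τ0) (hC : 0 ≤ C) (S : Ab83.Sit D C κ) {R a : ℕ → ℝ}
    (hR : ∀ t ∈ D.up, |R t| ≤ a t) :
    |∑ j ∈ D.up, D.om j * ∑ t ∈ D.up, Ab83.W D j t * R t| ≤ C * D.Iw fun j => a j + D.I a := by
  rw [← D.Iw_mul]
  refine D.abs_sum_om fun j hj => ?_
  rw [W_split S hj, mul_add, CD.I, mul_sum]
  refine (abs_add_le _ _).trans (add_le_add (Ed50.abs_mul_le (S.bd' j hj) (hR j hj))
    ((abs_sum_le_sum_abs _ _).trans (sum_le_sum fun t ht => Ed50.abs_mul_le (kap_le hC S hj ht) ?_)))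
  rw [abs_mul, abs_of_nonneg (H.dx0 t)]
  exact mul_le_mul_of_nonneg_left (hR t ht) (H.dx0 t)

/-- the new labels in weak form -/
theorem new_weak (H : D.Ok τ0) (hC : 0 ≤ C) (S : Ab83.Sit D C κ) {j : ℕ} (hj : j ∈ D.up)
    {R G : ℕ → ℝ} {ε : ℝ} (hε : 0 ≤ ε) (G0 : ∀ t, 0 ≤ G t) (Ga : G (j + 1) ≤ G j)
    (hY : ∀ i, D.J < i → i < D.K → |∑ t ∈ Ico i D.K, D.dx t * R t| ≤ G i + ε) :
    |∑ t ∈ D.up, (if t = j then 0 else κ j t) * (D.dx t * (D.τ t / 2 * R t))| ≤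
      C * (τ0 + 1) * (D.sv G D.J + 2 * (D.e j * G j) + 2 * D.K * ε) := by
  have hj' := mem_Ioo.1 hj
  have t0 := H.tau0
  have ej := H.e0 j
  have tb : ∀ t, |D.τ t / 2| ≤ τ0 + 1 := fun t => by
    have := H.tau_mem t
    rw [abs_of_nonneg (by linarith)]; linarith
  have ke : ∀ t ∈ D.up, t ≠ j → |κ j t * (D.τ t / 2)| ≤ C * (τ0 + 1) * D.e (min j t) :=
    fun t ht e => (Ed50.abs_mul_le ((S.bd j hj t ht e).trans
      (mul_le_mul_of_nonneg_left (min_le_right _ _) hC)) (tb t)).trans_eq (by ring)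
  have B0 : 0 ≤ C * (τ0 + 1) := by positivity
  have := abelE (c := fun t => (if t = j then 0 else κ j t) * (D.τ t / 2))
    (Y := fun t => D.dx t * R t) (F := G) (a := D.J + 1) (K := D.K) (B := C * (τ0 + 1))
    (d := fun t => D.dv t + ((if t = j then D.e j else 0) + if t = j + 1 then D.e j else 0))
    (by omega) hε G0
    (fun t a b => Ed50.abs_mul_le (kap_le hC S hj (mem_Ioo.2 ⟨a, b⟩)) (tb t)) ?_
    (fun t a b => ?_) fun i a b => hY i a b
  · rw [← up_eq] at this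
    refine le_of_eq_of_le (congrArg _ (sum_congr rfl fun t _ => by ring)) (this.trans ?_)
    simp only [add_mul, sum_add_distrib, ite_mul, zero_mul, sum_ite_eq', hj, if_true]
    have x : (if j + 1 ∈ D.up then D.e j * G (j + 1) else 0) ≤ D.e j * G j := by
      split_ifs
      · exact mul_le_mul_of_nonneg_left Ga ej
      · exact mul_nonneg ej (G0 j)
    have y := mul_le_mul_of_nonneg_left x B0
    rw [CD.sv]
    nlinarith
  · have d0 := H.dv0 (j := D.J + 1) (by omega)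
    show |(if D.J + 1 = j then 0 else _) * _| ≤ _ * (_ + ((if D.J + 1 = j then _ else 0) +
      if D.J + 1 = j + 1 then _ else 0))
    rw [if_neg (by omega : ¬D.J + 1 = j + 1)]
    split_ifs with e
    · rw [zero_mul, abs_zero]; positivity
    · refine (ke _ (mem_Ioo.2 (by omega)) e).trans_eq ?_
      rw [min_eq_right (by omega), CD.dv, if_pos le_rfl, add_zero, add_zero]
  · have d0 := H.dv0 b.le
    have m1 : t ∈ D.up := mem_Ioo.2 (by omega)
    have m2 : t - 1 ∈ D.up := mem_Ioo.2 (by omega)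
    show |(if t = j then 0 else _) * _ - (if t - 1 = j then 0 else _) * _| ≤
      _ * (_ + ((if t = j then _ else 0) + if t = j + 1 then _ else 0))
    by_cases e1 : t = j
    · rw [if_pos e1, if_pos e1, if_neg (by omega), if_neg (by omega), zero_mul, zero_sub, abs_neg]
      refine (ke _ m2 (by omega)).trans (mul_le_mul_of_nonneg_left ?_ B0)
      linarith [H.e_mono (min_le_left j (t - 1))]
    by_cases e2 : t = j + 1
    · rw [if_neg e1, if_neg e1, if_pos (by omega), if_pos e2, zero_mul, sub_zero]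
      refine (ke _ m1 e1).trans (mul_le_mul_of_nonneg_left ?_ B0)
      linarith [H.e_mono (min_le_left j t)]
    rw [if_neg e1, if_neg e1, if_neg (by omega), if_neg e2, add_zero, add_zero]
    have l1 := S.lip j hj (t - 1) m2 (by rwa [show t - 1 + 1 = t by omega]) (by omega) (by omega)
    rw [show t - 1 + 1 = t by omega] at l1
    have l2 := (Cw55.dv_dom H.ook H.mono a b.le).2.1
    have l3 := (S.bd j hj _ m2 (by omega)).trans (mul_le_of_le_one_right hC (min_le_left _ _))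
    have l4 : |D.τ t / 2| ≤ τ0 := by
      have := H.tau_mem t
      rw [abs_of_nonneg (by linarith)]; linarith
    have l5 : |D.τ t / 2 - D.τ (t - 1) / 2| ≤ D.dv t := by
      rw [← sub_div, abs_div, abs_two]; linarith
    rw [show κ j t * (D.τ t / 2) - κ j (t - 1) * (D.τ (t - 1) / 2) = (κ j t - κ j (t - 1)) *
      (D.τ t / 2) + κ j (t - 1) * (D.τ t / 2 - D.τ (t - 1) / 2) by ring]
    exact ((abs_add_le _ _).trans (add_le_add (Ed50.abs_mul_le l1 l4)
      (Ed50.abs_mul_le l3 l5))).trans_eq (by ring)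

theorem dv_W (hC : 0 ≤ C) (S : Ab83.Sit D C κ) :
    Cw55.DV D.dv D.J D.K C 0 fun j => Ab83.W D j j :=
  ⟨hC, fun t a b => S.bd' t (mem_Ioo.2 ⟨a, b⟩), ∅, le_rfl, fun t a b _ => by
    have := S.lip' (t - 1) (mem_Ioo.2 (by omega)) (mem_Ioo.2 (by omega))
    rwa [show t - 1 + 1 = t by omega] at this⟩

/-- the marked label in weak form -/
theorem old_weak (H : D.Ok τ0) (hC : 0 ≤ C) (S : Ab83.Sit D C κ) {R G : ℕ → ℝ} {ε : ℝ}
    (hε : 0 ≤ ε) (G0 : ∀ t, 0 ≤ G t) (Ga : ∀ t, G (t + 1) ≤ G t)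
    (hY : ∀ i, D.J < i → i < D.K → |∑ t ∈ Ico i D.K, D.om t * R t| ≤ G i + ε) :
    |∑ j ∈ D.up, D.om j * (Ab83.W D j j * (D.τ j / 2 * R j))| ≤
      2 * (C * (τ0 + 1)) * (D.fs G D.J + (D.K + 1) * ε) := by
  have := Cw55.abel (fun t _ b => H.dv0 b.le) ((dv_W hC S).mul ((Cw55.dv_tau H le_rfl).smul (1 / 2)))
    (Y := fun t => D.om t * R t) hε G0 Ga (fun i a b => by
      rcases b.lt_or_eq with b | b
      · exact hY i a b
      · rw [b, Ico_self, sum_empty, abs_zero]; linarith [G0 D.K]) le_rfl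
  rw [← up_eq, ← Cw55.fs_eq, abs_of_pos (by norm_num : (0 : ℝ) < 1 / 2)] at this
  refine le_of_eq_of_le (congrArg _ (sum_congr rfl fun t _ => by ring)) (this.trans_eq ?_)
  push_cast
  ring

/-- **weak form** -/
theorem site_weak (H : D.Ok τ0) (hC : 0 ≤ C) (S : Ab83.Sit D C κ) {R G G' : ℕ → ℝ} {ε ε' : ℝ}
    (hε : 0 ≤ ε) (G0 : ∀ t, 0 ≤ G t) (Ga : ∀ t, G (t + 1) ≤ G t)
    (hY : ∀ i, D.J < i → i < D.K → |∑ t ∈ Ico i D.K, D.dx t * R t| ≤ G i + ε)
    (hε' : 0 ≤ ε') (G0' : ∀ t, 0 ≤ G' t) (Ga' : ∀ t, G' (t + 1) ≤ G' t)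
    (hY' : ∀ i, D.J < i → i < D.K → |∑ t ∈ Ico i D.K, D.om t * R t| ≤ G' i + ε') :
    |∑ j ∈ D.up, D.om j * ∑ t ∈ D.up, Ab83.W D j t * (D.τ t / 2 * R t)| ≤
      2 * (C * (τ0 + 1)) * (D.fs G' D.J + (D.K + 1) * ε') +
        C * (τ0 + 1) * D.Iw fun j => D.sv G D.J + 2 * (D.e j * G j) + 2 * D.K * ε := by
  rw [sum_congr rfl fun j hj => by rw [W_split S hj, mul_add], sum_add_distrib, ← D.Iw_mul]
  exact (abs_add_le _ _).trans (add_le_add (old_weak H hC S hε' G0' Ga' hY')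
    (D.abs_sum_om fun j hj => new_weak H hC S hj hε G0 (Ga j) hY))

/-- the bulk factor of `[aU, bL]` -/
def RL (D : CD) (t : ℕ) : ℝ := twoF t (oU D.q t)
  (Dop D.B (lt D.n D.β D.M D.q D.cl (true, false)).1 (TEf (fun _ => 1) D.B 0))

/-- the bulk input -/
def TL : Prop := ∀ τ0 : ℝ, ∃ C : ℝ, 0 ≤ C ∧ ∀ D : CD, D.Ok τ0 → D.W.isSome = true →
  ∃ On : ℕ → ℝ, (∀ t ∈ D.up, |RL D t - On t| ≤ C * (D.X ^ 4 * D.g t + D.tl)) ∧
    (∀ i, D.J < i → i < D.K →
      |∑ t ∈ Ico i D.K, D.dx t * On t| ≤ C * (D.X ^ 3 * D.G0 i + D.tl)) ∧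
    ∀ i, D.J < i → i < D.K →
      |∑ t ∈ Ico i D.K, D.om t * On t| ≤ C * (D.X ^ 3 * D.F1 i + (1 + D.wt) * D.tl)

theorem sv_mul (D : CD) (a : ℝ) (F : ℕ → ℝ) (j : ℕ) : D.sv (fun t => a * F t) j = a * D.sv F j := by
  simp only [CD.sv, mul_sum, mul_left_comm a]

theorem abL_of (T : TL) : Bd true fun D => D.tw [aU, bL] := fun τ0 => by
  obtain ⟨C, hC, hS⟩ := sitS
  obtain ⟨C', hC', hT⟩ := T τ0
  refine ⟨C * (|τ0| + 1) * C' * 16, by positivity, fun D H hW => ?_⟩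
  obtain ⟨κ, S⟩ := hS τ0 D H
  obtain ⟨On, h1, h2, h3⟩ := hT D H hW
  have t0 := H.tau0
  have X0 := H.X0
  have tl := H.tl0
  have w0 := D.wt0
  have K0 : (0 : ℝ) ≤ D.K := Nat.cast_nonneg _
  rw [abs_of_nonneg t0]
  have A := site_abs H hC S (R := fun t => D.τ t / 2 * (RL D t - On t))
    (a := fun t => (τ0 + 1) * (C' * (D.X ^ 4 * D.g t + D.tl))) fun t ht => Ed50.abs_mul_le (by
      have := H.tau_mem t
      rw [abs_of_nonneg (by linarith)]; linarith) (h1 t ht)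
  have B := site_weak H hC S (R := On) (G := fun i => C' * D.X ^ 3 * D.G0 i) (ε := C' * D.tl)
    (G' := fun i => C' * D.X ^ 3 * D.F1 i) (ε' := C' * ((1 + D.wt) * D.tl)) (by positivity)
    (fun t => mul_nonneg (by positivity) (H.G00 t))
    (fun t => mul_le_mul_of_nonneg_left (H.wg0.anti t).1 (by positivity))
    (fun i a b => (h2 i a b).trans_eq (by ring)) (by positivity)
    (fun t => mul_nonneg (by positivity) (H.F10 t))
    (fun t => mul_le_mul_of_nonneg_left (H.wk1.anti t).1 (by positivity))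
    fun i a b => (h3 i a b).trans_eq (by ring)
  have e : D.tw [aU, bL] =
      ∑ j ∈ D.up, D.om j * ∑ t ∈ D.up, Ab83.W D j t * (D.τ t / 2 * (RL D t - On t)) +
        ∑ j ∈ D.up, D.om j * ∑ t ∈ D.up, Ab83.W D j t * (D.τ t / 2 * On t) := by
    rw [tw_red true H hW, ← sum_add_distrib]
    refine sum_congr rfl fun j _ => ?_
    rw [← mul_add, ← sum_add_distrib]
    refine congrArg _ (sum_congr rfl fun t _ => ?_)
    rw [RL]
    ring
  have cw : ∀ a : ℝ, (D.Iw fun _ => a) = a * D.wt := fun a => by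
    rw [CD.wt_test hW, ← D.Iw_mul]; simp only [mul_one]
  have eA : (D.Iw fun j => (τ0 + 1) * (C' * (D.X ^ 4 * D.g j + D.tl)) +
      D.I fun t => (τ0 + 1) * (C' * (D.X ^ 4 * D.g t + D.tl))) = (τ0 + 1) * C' *
        (D.Iw (fun j => D.X ^ 4 * D.g j) + D.wt * D.tl +
          D.wt * (D.X ^ 4 * D.N1 + D.I fun _ => D.tl)) := by
    simp only [D.Iw_add, D.I_add, D.I_mul, D.Iw_mul, cw, CD.N1, mul_add]
    ring
  have eB : (D.Iw fun j => D.sv (fun i => C' * D.X ^ 3 * D.G0 i) D.J +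
      2 * (D.e j * (C' * D.X ^ 3 * D.G0 j)) + 2 * D.K * (C' * D.tl)) =
      C' * (D.X ^ 3 * (D.wt * D.sv D.G0 D.J) + 2 * D.Iw (fun j => D.X ^ 3 * (D.e j * D.G0 j)) +
        2 * (D.wt * (D.K * D.tl))) := by
    have : ∀ j, 2 * (D.e j * (C' * D.X ^ 3 * D.G0 j)) = 2 * C' * (D.X ^ 3 * (D.e j * D.G0 j)) :=
      fun j => by ring
    simp only [this, D.Iw_add, sv_mul, cw, D.Iw_mul (2 * C')]
    ring
  have eC : D.fs (fun i => C' * D.X ^ 3 * D.F1 i) D.J = C' * (D.X ^ 3 * D.fs D.F1 D.J) := by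
    rw [CD.fs, CD.fs, sv_mul]; ring
  rw [eA] at A
  rw [eB, eC] at B
  have E1 := H.E1_le hW
  have E0 := H.wtE0_le
  have b1 := H.IwXg_le
  have b2 := mul_le_mul_of_nonneg_left H.tl_le w0
  have b3 := mul_le_mul_of_nonneg_left H.XN1_le w0
  have b4 := mul_le_mul_of_nonneg_left ((H.I_le tl fun _ _ => le_rfl).trans H.tl_le) w0
  have b5 := H.XF0_le
  have b6 := H.IwXeF_le
  have b7 := mul_le_mul_of_nonneg_left H.K1tl_le w0
  have b8 : D.X ^ 3 * D.fs D.F1 D.J ≤ D.E1 := le_trans (mul_le_mul_of_nonneg_right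
    (le_add_of_nonneg_left H.Lv10) (H.fs0 H.F10 _)) H.LvF1_le
  have b9 : (D.K + 1) * D.tl ≤ D.E1 := by
    refine le_trans ?_ (H.stw.trans H.Z_le)
    refine le_trans ?_ (le_add_of_nonneg_left (D.Iw0 fun j _ => mul_nonneg (D.g0 j) (add_nonneg
      (mul_nonneg (abs_nonneg _) (D.g0 j)) (H.I0 fun t _ => mul_nonneg (abs_nonneg _) (D.g0 t)))))
    exact mul_le_mul_of_nonneg_right (by nlinarith) tl
  have p0 : 0 ≤ C * (τ0 + 1) * C' := by positivity
  have s1 : D.Iw (fun j => D.X ^ 4 * D.g j) + D.wt * D.tl +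
      D.wt * (D.X ^ 4 * D.N1 + D.I fun _ => D.tl) ≤ 4 * D.Err := by linarith
  have s2 : 2 * (D.X ^ 3 * D.fs D.F1 D.J + (D.K + 1) * ((1 + D.wt) * D.tl)) +
      (D.X ^ 3 * (D.wt * D.sv D.G0 D.J) + 2 * D.Iw (fun j => D.X ^ 3 * (D.e j * D.G0 j)) +
        2 * (D.wt * (D.K * D.tl))) ≤ 12 * D.Err := by
    linarith [mul_nonneg w0 tl, H.Err0]
  have s3 := mul_le_mul_of_nonneg_left s1 p0
  have s4 := mul_le_mul_of_nonneg_left s2 p0
  refine (congrArg abs e).trans_le ((abs_add_le _ _).trans ?_)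
  linarith

end Crest.Agent.T156.Cas.C40.Ab45

end
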