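import Crest.Agent.T156.OnePB_23
import Crest.Agent.T156.MulB_55

/-!
# Row 156: word reduction of the cavity expansion (helper23)

Every head of the ONE path (`val`, `test`, `amp`) is a truncated exponential sum of words in the
letters `A = τ/2 η U` (degree 1) and `B = -τ/4 U²` (degree 2), up to a moment of the next degree.
Cutting the letters at a set of splits gives the words in four letters.
-/

noncomputable section

namespace Crest.Agent.T156.Cas.Wrd23

open MeasureTheory Real Set Filter Topology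
open Crest.Agent.T157.E Crest.Agent.T157.Casc Crest.Agent.T157.SL
open Mul55 (SM Ok cut cut_mem cut_add Lam ten lt tm oL sm_oL sm_WdO)
open Finset (range)
open List (replicate)
open Nat (factorial choose)

section generic
variable {V : Type*} [AddCommGroup V] [Module ℝ V] {P : Submodule ℝ V} {Λ : List V → ℝ}

/-- the word `A ^ i B ^ j` -/
def w2 {α : Type*} (A B : α) (i j : ℕ) : List α := replicate i A ++ replicate j B

/-- the word `a ^ i a' ^ j b ^ k b' ^ l` -/
def w4 {α : Type*} (a a' b b' : α) (i j k l : ℕ) : List α := w2 a a' i j ++ w2 b b' k l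

/-- exponential sum over the words of degree `i + 2 j ≤ D` -/
def tr2 (D : ℕ) (W : ℕ → ℕ → ℝ) : ℝ := ∑ i ∈ range (D + 1), ∑ j ∈ range (D + 1 - i),
  if i + 2 * j ≤ D then W i j / (factorial i * factorial j) else 0

/-- both letters cut in two -/
def sp (W : ℕ → ℕ → ℕ → ℕ → ℝ) (i j : ℕ) : ℝ := ∑ a ∈ range (i + 1), ∑ c ∈ range (j + 1),
  (choose i a : ℝ) * choose j c * W a (i - a) c (j - c)

/-- exponential sum over the words `W a b c d` of degree `a + b + 2 c + 2 d ≤ D` -/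
def tr4 (D : ℕ) (W : ℕ → ℕ → ℕ → ℕ → ℝ) : ℝ := tr2 D (sp W)

theorem w2_mem {α : Type*} {p : α → Prop} {A B : α} (hA : p A) (hB : p B) (i j : ℕ) :
    ∀ T ∈ w2 A B i j, p T := fun T hT => by
  rcases List.mem_append.1 hT with h | h <;> rw [List.eq_of_mem_replicate h] <;> assumption

theorem w2_map {α γ : Type*} (f : α → γ) (A B : α) (i j : ℕ) :
    (w2 A B i j).map f = w2 (f A) (f B) i j := by simp [w2]

theorem w2_length {α : Type*} (A B : α) (i j : ℕ) : (w2 A B i j).length = i + j := by simp [w2]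

theorem tr2_sum {ι : Type*} (T : Finset ι) (c : ι → ℝ) (W : ι → ℕ → ℕ → ℝ) (D : ℕ) :
    tr2 D (fun i j => ∑ r ∈ T, c r * W r i j) = ∑ r ∈ T, c r * tr2 D (W r) := by
  simp only [tr2, Finset.mul_sum]
  rw [Finset.sum_comm]
  refine Finset.sum_congr rfl fun i _ => ?_
  rw [Finset.sum_comm]
  refine Finset.sum_congr rfl fun j _ => ?_
  split_ifs
  · simp only [Finset.sum_div, mul_div_assoc]
  · simp

theorem tr2_mul (c : ℝ) (W : ℕ → ℕ → ℝ) (D : ℕ) : tr2 D (fun i j => c * W i j) = c * tr2 D W := by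
  simpa using tr2_sum {()} (fun _ => c) (fun _ => W) D

theorem tr2_four (W : ℕ → ℕ → ℝ) : tr2 4 W = W 0 0 + W 1 0 + W 0 1 + W 2 0 / 2 + W 1 1 +
    W 3 0 / 6 + W 0 2 / 2 + W 2 1 / 2 + W 4 0 / 24 := by
  simp [tr2, Finset.sum_range_succ, factorial]
  ring

theorem tr2_three (W : ℕ → ℕ → ℝ) :
    tr2 3 W = W 0 0 + W 1 0 + W 0 1 + W 2 0 / 2 + W 1 1 + W 3 0 / 6 := by
  simp [tr2, Finset.sum_range_succ, factorial]
  ring

theorem tr2_two (W : ℕ → ℕ → ℝ) : tr2 2 W = W 0 0 + W 1 0 + W 0 1 + W 2 0 / 2 := by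
  simp [tr2, Finset.sum_range_succ, factorial]
  ring

/-- the thirty words, by the number of low letters (`a + c`) -/
theorem tr4_four (W : ℕ → ℕ → ℕ → ℕ → ℝ) : tr4 4 W =
    (W 0 0 0 0 + W 0 1 0 0 + (W 0 0 0 1 + W 0 2 0 0 / 2) + (W 0 1 0 1 + W 0 3 0 0 / 6) +
      (W 0 0 0 2 / 2 + W 0 2 0 1 / 2 + W 0 4 0 0 / 24)) +
    (W 1 0 0 0 + W 1 1 0 0 + (W 1 0 0 1 + W 1 2 0 0 / 2) + (W 1 1 0 1 + W 1 3 0 0 / 6)) +
    ((W 0 0 1 0 + W 2 0 0 0 / 2) + (W 0 1 1 0 + W 2 1 0 0 / 2) +
      (W 0 0 1 1 + W 0 2 1 0 / 2 + W 2 0 0 1 / 2 + W 2 2 0 0 / 4)) +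
    ((W 1 0 1 0 + W 3 0 0 0 / 6) + (W 1 1 1 0 + W 3 1 0 0 / 6)) +
    (W 0 0 2 0 / 2 + W 2 0 1 0 / 2 + W 4 0 0 0 / 24) := by
  simp [tr4, tr2_four, sp, Finset.sum_range_succ, choose]
  ring

/-- scaling, low letters -/
theorem scal_low (W : ℕ → ℕ → ℕ → ℕ → ℝ) :
    tr4 3 (fun a b c d => W (a + 1) b c d) + 2 * tr4 2 (fun a b c d => W a b (c + 1) d) =
      tr4 4 fun a b c d => (a + 2 * c : ℕ) * W a b c d := by
  simp [tr4, tr2_four, tr2_three, tr2_two, sp, Finset.sum_range_succ, choose]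
  ring

/-- scaling, upper letters -/
theorem scal_up (W : ℕ → ℕ → ℕ → ℕ → ℝ) :
    tr4 3 (fun a b c d => W a (b + 1) c d) + 2 * tr4 2 (fun a b c d => W a b c (d + 1)) =
      tr4 4 fun a b c d => (b + 2 * d : ℕ) * W a b c d := by
  simp [tr4, tr2_four, tr2_three, tr2_two, sp, Finset.sum_range_succ, choose]
  ring

theorem exp_tr2 (H : SM P Λ) {A B : V} (hA : A ∈ P) (hB : B ∈ P) (D : ℕ) {c : ℝ} (hc : 0 ≤ c)
    (hW : ∀ i j, i + j ≤ D → D < i + 2 * j → |Λ (w2 A B i j)| ≤ c) :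
    |∑ k ∈ range (D + 1), Λ (replicate k (A + B)) / factorial k -
      tr2 D fun i j => Λ (w2 A B i j)| ≤ (D + 1) ^ 2 * c := by
  have e : ∀ k, Λ (replicate k (A + B)) / factorial k = ∑ i ∈ range (k + 1),
      Λ (w2 A B i (k - i)) / (factorial i * factorial (k - i)) := fun k => by
    have := H.binom hA hB k (W := []) (by simp)
    simp only [List.append_nil] at this
    rw [this, Finset.sum_div]
    refine Finset.sum_congr rfl fun i hi => ?_
    rw [← Nat.choose_mul_factorial_mul_factorial (Nat.lt_succ_iff.1 (Finset.mem_range.1 hi)), w2]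
    have : (choose k i : ℝ) ≠ 0 :=
      Nat.cast_ne_zero.2 (Nat.choose_pos (Nat.lt_succ_iff.1 (Finset.mem_range.1 hi))).ne'
    push_cast
    field_simp
  simp only [e]
  rw [Finset.sum_range_diag_flip (D + 1) fun i j => Λ (w2 A B i j) / (factorial i * factorial j),
    tr2, ← Finset.sum_sub_distrib]
  refine (Finset.abs_sum_le_sum_abs _ _).trans ((Finset.sum_le_card_nsmul _ _ ((D + 1) * c)
    fun i hi => ?_).trans_eq (by simp; ring))
  rw [← Finset.sum_sub_distrib]
  refine (Finset.abs_sum_le_sum_abs _ _).trans ((Finset.sum_le_card_nsmul _ _ c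
    fun j hj => ?_).trans ?_)
  · rw [Finset.mem_range] at hj
    split_ifs with h
    · simpa using hc
    · rw [sub_zero, abs_div]
      refine (div_le_self (abs_nonneg _) ?_).trans (hW i j (by omega) (by omega))
      rw [← Nat.cast_mul, Nat.abs_cast, Nat.one_le_cast]
      exact Nat.mul_pos (Nat.factorial_pos i) (Nat.factorial_pos j)
  · rw [Finset.card_range, nsmul_eq_mul]
    refine mul_le_mul_of_nonneg_right ?_ hc
    exact_mod_cast Nat.sub_le _ _

theorem w2_cut (H : SM P Λ) {a a' b b' : V} (ha : a ∈ P) (ha' : a' ∈ P) (hb : b ∈ P)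
    (hb' : b' ∈ P) (i j : ℕ) :
    Λ (w2 (a + a') (b + b') i j) = sp (fun r s t u => Λ (w4 a a' b b' r s t u)) i j := by
  have hr : ∀ T ∈ replicate j (b + b'), T ∈ P := fun T hT =>
    List.eq_of_mem_replicate hT ▸ P.add_mem hb hb'
  rw [w2, H.binom ha ha' i hr, sp]
  refine Finset.sum_congr rfl fun r _ => ?_
  have hw := w2_mem (p := (· ∈ P)) ha ha' r (i - r)
  rw [← w2, H.perm List.perm_append_comm fun T hT => (List.mem_append.1 hT).elim (hw T) (hr T),
    H.binom hb hb' j hw, Finset.mul_sum]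
  refine Finset.sum_congr rfl fun s _ => ?_
  rw [mul_assoc, ← w2, H.perm List.perm_append_comm fun T hT =>
    (List.mem_append.1 hT).elim (w2_mem (p := (· ∈ P)) hb hb' s (j - s) T) (hw T)]
  rfl

theorem tr2_cut (H : SM P Λ) {a a' b b' : V} (ha : a ∈ P) (ha' : a' ∈ P) (hb : b ∈ P)
    (hb' : b' ∈ P) (D : ℕ) : tr2 D (fun i j => Λ (w2 (a + a') (b + b') i j)) =
      tr4 D fun r s t u => Λ (w4 a a' b b' r s t u) := by
  simp only [w2_cut H ha ha' hb hb']
  rfl

theorem w4_mem {α : Type*} {p : α → Prop} {a a' b b' : α} (ha : p a) (ha' : p a') (hb : p b)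
    (hb' : p b') (i j k l : ℕ) : ∀ T ∈ w4 a a' b b' i j k l, p T := fun T hT =>
  (List.mem_append.1 hT).elim (w2_mem ha ha' i j T) (w2_mem hb hb' k l T)

theorem w4_perm {α : Type*} (a a' b b' : α) (i j k l : ℕ) :
    (w4 a a' b b' (i + 1) j k l).Perm (a :: w4 a a' b b' i j k l) ∧
    (w4 a a' b b' i (j + 1) k l).Perm (a' :: w4 a a' b b' i j k l) ∧
    (w4 a a' b b' i j (k + 1) l).Perm (b :: w4 a a' b b' i j k l) ∧
    (w4 a a' b b' i j k (l + 1)).Perm (b' :: w4 a a' b b' i j k l) := by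
  simp only [w4, w2, List.replicate_succ, List.cons_append, List.append_assoc]
  refine ⟨.rfl, List.perm_middle, ?_, ?_⟩
  · rw [← List.append_assoc, ← List.append_assoc (replicate i a)]
    exact List.perm_middle
  · rw [← List.append_assoc, ← List.append_assoc, ← List.append_assoc (replicate i a),
      ← List.append_assoc]
    exact List.perm_middle

end generic

section op
open OneP

variable {n : ℕ} {β : ℝ} {M : List (ℝ × ℝ × ℝ)} {q : ℕ → ℝ}

/-- the law at `θ = 0` -/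
abbrev E0 (n : ℕ) (β : ℝ) (M : List (ℝ × ℝ × ℝ)) (q : ℕ → ℝ) : Fn (Cube n × Bool) :=
  TEf (fun _ => 1) (op n β M q 0) 0

/-- the functional of the word `A ^ i B ^ j` -/
def WF (n : ℕ) (β : ℝ) (M : List (ℝ × ℝ × ℝ)) (q : ℕ → ℝ) (i j : ℕ) : Fn (Cube n × Bool) :=
  WdO (op n β M q 0) (w2 (oLt n β M q true) (oLt n β M q false) i j) (E0 n β M q)

/-- the word `A_I ^ a A_{¬ I} ^ b B_I ^ c B_{¬ I} ^ d` -/
def wI (n : ℕ) (β : ℝ) (M : List (ℝ × ℝ × ℝ)) (q : ℕ → ℝ) (I : ℕ → Prop) [DecidablePred I]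
    (a b c d : ℕ) : List (ℕ → Cube n × Bool → Cube n × Bool → ℝ) :=
  w4 (cut I (oLt n β M q true)) (cut (fun j => ¬I j) (oLt n β M q true))
    (cut I (oLt n β M q false)) (cut (fun j => ¬I j) (oLt n β M q false)) a b c d

/-- its value -/
def W4 (n : ℕ) (β : ℝ) (M : List (ℝ × ℝ × ℝ)) (q : ℕ → ℝ) (I : ℕ → Prop) [DecidablePred I]
    (a b c d : ℕ) : ℝ := oL n β M q (wI n β M q I a b c d)

/-- constant of a test of degree `m` on `r` leaves, words up to degree `D` -/
def cW (τ : ℝ) (m D r : ℕ) : ℝ := cOp τ (D + 1) (m + D) r +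
  (D + 1) ^ 2 * ∑ k ∈ range (D + 1), ∑ e ∈ range (D + 1), cOp τ k (m + D + e) r * 2 ^ e

theorem cW_nonneg {τ : ℝ} (hτ : 0 ≤ τ) (m D r : ℕ) : 0 ≤ cW τ m D r :=
  add_nonneg (cOp_nonneg hτ _ _ _) (mul_nonneg (by positivity) (Finset.sum_nonneg fun _ _ =>
    Finset.sum_nonneg fun _ _ => mul_nonneg (cOp_nonneg hτ _ _ _) (by positivity)))

theorem cOp_mono {τ T : ℝ} (hτ : 0 ≤ τ) (h : τ ≤ T) (k p r : ℕ) : cOp τ k p r ≤ cOp T k p r := by
  unfold cOp
  have := cTay_nonneg k p r
  have := hτ.trans h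
  gcongr

theorem cW_mono {τ T : ℝ} (hτ : 0 ≤ τ) (h : τ ≤ T) (m D r : ℕ) : cW τ m D r ≤ cW T m D r := by
  unfold cW
  gcongr <;> exact cOp_mono hτ h _ _ _

theorem oLt_mem (hn : 0 < n) (H : OOk M q) (b : Bool) :
    oLt n β M q b ∈ Ok (Cube n × Bool) M.length :=
  Mul55.ten_mem (Mul55.oUb_zero b) (Mul55.oUb_diag hn H b) (oZs q b)

theorem cut_lt {C : Type} [DecidableEq C] (cl : ℕ → C) (c : C) (b : Bool) :
    cut (fun j => cl j = c) (oLt n β M q b) = ten (lt n β M q cl (c, b)) := by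
  funext j x y
  by_cases h : cl j = c <;> simp [cut, ten, lt, oLt, h]

theorem tK_eq : tK (oUb n β M q) (oZs q) = oLt n β M q true + oLt n β M q false := by
  funext j x y
  simp [tK, oLt]

theorem sm_E0 {Φ : Fn (Cube n × Bool) → ℝ} (hΦ : Crest.Agent.T156.Cas.FL Φ) :
    SM (Ok (Cube n × Bool) M.length) fun U => Φ (WdO (op n β M q 0) U (E0 n β M q)) := by
  have := sm_WdO wt_one90 (op n β M q 0) 0 hΦ
  rwa [op_length] at this

theorem fl_ev {Ω : Type} (s : Sh) (F : (s.Lf → Ω) → ℝ) :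
    Crest.Agent.T156.Cas.FL fun E : Fn Ω => E s F := fun _ _ _ _ e => e s F

theorem uM_succ_le (H : OOk M q) {j : ℕ} (hj : j ≤ M.length) (p k : ℕ) :
    uM n β M q (p + k) j ≤ 2 ^ k * uM n β M q p j := by
  rw [uM, uM, ← pi2_const_mul _ _ _ _ (2 ^ k)]
  refine Crest.Agent.T157.Casc.pi2_mono (Ω := Cube n) wt_one90 _ j (fun x y => ?_) 0
  rw [pow_add, mul_comm]
  exact mul_le_mul_of_nonneg_right (pow_le_pow_left₀ (abs_nonneg _) (abs_oU_le H hj x y) k)
    (by positivity)

theorem momU_succ_le (H : OOk M q) (hM : Mono 0 (M.map (mxL n β))) (p k : ℕ) :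
    momU n β M q (p + k) ≤ 2 ^ k * momU n β M q p := by
  rw [momU, momU, Finset.mul_sum]
  refine Finset.sum_le_sum fun j hj => ?_
  rw [mul_left_comm]
  exact mul_le_mul_of_nonneg_left (uM_succ_le H (Nat.lt_succ_iff.1 (Finset.mem_range.1 hj)) p k)
    (dm_nonneg hM j)

theorem momS_succ_le (H : OOk M q) (hM : Mono 0 (M.map (mxL n β))) (p k : ℕ) (s : Sh) :
    momS n β M q (p + k) s ≤ 2 ^ k * momS n β M q p s := by
  rw [momS, momS, mul_add, prs, prs, Finset.mul_sum]
  refine add_le_add (Finset.sum_le_sum fun a _ => ?_) (momU_succ_le H hM p k)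
  rw [Finset.mul_sum]
  refine Finset.sum_le_sum fun b _ => ?_
  split_ifs
  · simp
  · exact uM_succ_le H (Wt87.shr_le _ _ _ _) p k

theorem momS_nonneg (hM : Mono 0 (M.map (mxL n β))) (p : ℕ) (s : Sh) : 0 ≤ momS n β M q p s :=
  add_nonneg (Finset.sum_nonneg fun _ _ => Finset.sum_nonneg fun _ _ => by
    split_ifs
    exacts [le_rfl, uM_nonneg _ _]) (momU_nonneg hM p)

/-- a word of total degree `p + 1` -/
theorem abs_WF_le (hn : 0 < n) (H : OOk M q) (hM : Mono 0 (M.map (mxL n β))) {m p i j : ℕ}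
    (hp : m + (i + 2 * j) = p + 1) (s : Sh) {F : (s.Lf → Cube n × Bool) → ℝ} {B : ℝ} (hB : 0 ≤ B)
    (hF : ∀ x, |F x| ≤ B * Dv M.length (aU q) s (fun a => (x a).1) ^ m) :
    |WF n β M q i j s F| ≤
      cOp (oTau n β M M.length) (i + j) p (Fintype.card s.Lf) * B * momS n β M q (p + 1) s := by
  have := abs_WdO_op hn H hM (θ := 0) ⟨le_rfl, zero_le_one⟩ (m := m) (p := p)
    (l := w2 (oLt n β M q true, oDg true) (oLt n β M q false, oDg false) i j)
    (by rw [w2_map, ← hp]; simp [w2, oDg, mul_comm])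
    (w2_mem (fun _ hj => abs_oLt_le H true hj) (fun _ hj => abs_oLt_le H false hj) i j) s hB hF
  rwa [w2_map, w2_length] at this

/-- **WORD REDUCTION** of any test function of degree `m` on any shape -/
theorem taylor_words (hn : 0 < n) (H : OOk M q) (hM : Mono 0 (M.map (mxL n β))) (m D : ℕ) (s : Sh)
    {F : (s.Lf → Cube n × Bool) → ℝ} {B : ℝ} (hB : 0 ≤ B)
    (hF : ∀ x, |F x| ≤ B * Dv M.length (aU q) s (fun a => (x a).1) ^ m) :
    |TE (fun _ => 1) s (op n β M q 1) 0 F - tr2 D fun i j => WF n β M q i j s F| ≤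
      cW (oTau n β M M.length) m D (Fintype.card s.Lf) * B * momS n β M q (m + D + 1) s := by
  have h0 := (H.oTau_le n β M.length).1
  have hS := momS_nonneg (q := q) hM (m + D + 1) s
  have h1 := abs_taylor_op hn H hM m D s hB hF (T := 1) ⟨zero_le_one, le_rfl⟩
  simp only [one_pow, mul_one, iDn_op hn H, Mul55.Dop_itE (tilt_op (q := q) 0), tK_eq] at h1
  have h2 := exp_tr2 (sm_E0 (β := β) (M := M) (q := q) (fl_ev s F)) (oLt_mem hn H true)
    (oLt_mem hn H false) D (c := (∑ k ∈ range (D + 1), ∑ e ∈ range (D + 1),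
      cOp (oTau n β M M.length) k (m + D + e) (Fintype.card s.Lf) * 2 ^ e) * (B *
        momS n β M q (m + D + 1) s))
    (mul_nonneg (Finset.sum_nonneg fun _ _ => Finset.sum_nonneg fun _ _ =>
      mul_nonneg (cOp_nonneg h0 _ _ _) (by positivity)) (mul_nonneg hB hS)) fun i j hij hD => by
      obtain ⟨e, he⟩ : ∃ e, i + 2 * j = D + 1 + e := ⟨i + 2 * j - (D + 1), by omega⟩
      refine (abs_WF_le hn H hM (p := m + D + e) (by omega) s hB hF).trans ?_
      have h3 := momS_succ_le (n := n) (β := β) H hM (m + D + 1) e s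
      rw [add_right_comm] at h3
      refine (mul_le_mul_of_nonneg_left h3 (mul_nonneg (cOp_nonneg h0 _ _ _) hB)).trans ?_
      rw [mul_mul_mul_comm]
      refine mul_le_mul_of_nonneg_right ?_ (mul_nonneg hB hS)
      refine le_trans ?_ (Finset.single_le_sum (f := fun k => ∑ e ∈ range (D + 1),
        cOp (oTau n β M M.length) k (m + D + e) (Fintype.card s.Lf) * 2 ^ e)
        (fun _ _ => Finset.sum_nonneg fun _ _ => mul_nonneg (cOp_nonneg h0 _ _ _) (by positivity))
        (Finset.mem_range.2 (Nat.lt_succ_of_le hij)))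
      exact Finset.single_le_sum (f := fun e =>
        cOp (oTau n β M M.length) (i + j) (m + D + e) (Fintype.card s.Lf) * 2 ^ e)
        (fun _ _ => mul_nonneg (cOp_nonneg h0 _ _ _) (by positivity))
        (Finset.mem_range.2 (by omega))
  refine (abs_sub_le _ _ _).trans ((add_le_add (h1.trans (div_le_self (mul_nonneg
    (mul_nonneg (cOp_nonneg h0 _ _ _) hB) hS) (Nat.one_le_cast.2 (Nat.factorial_pos D)))) h2).trans_eq ?_)
  rw [cW]
  ring

/-- two replicas split at `j` -/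
theorem two_words (hn : 0 < n) (H : OOk M q) (hM : Mono 0 (M.map (mxL n β))) (m D : ℕ) {j : ℕ}
    (hj : j ≤ M.length) {Q : Cube n × Bool → Cube n × Bool → ℝ} {B : ℝ} (hB : 0 ≤ B)
    (hQ : ∀ x y, |Q x y| ≤ B * |oU q j x.1 y.1| ^ m) :
    |pi2 (fun _ => 1) (op n β M q 1) j Q 0 - tr2 D fun a b => twoF j Q (WF n β M q a b)| ≤
      cW (oTau n β M M.length) m D 2 * B *
        (2 * uM n β M q (m + D + 1) j + momU n β M q (m + D + 1)) := by
  have := taylor_words hn H hM m D (Sh.two j) (F := pr2 j Q) hB fun x => (hQ _ _).trans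
    (mul_le_mul_of_nonneg_left (pow_le_pow_left₀ (abs_nonneg _)
      (le_Dv_two (T := aU q) (fun _ _ _ => abs_nonneg _) hj fun a => (x a).1) m) hB)
  simp only [Wt87.card_two, momS_two hj] at this
  rw [← Wt87.tX_two wt_one90]
  exact this

/-- **(test j)**: words up to degree `D + 1` -/
theorem test_words (hn : 0 < n) (H : OOk M q) (hM : Mono 0 (M.map (mxL n β))) (D : ℕ) {j : ℕ}
    (hj : j ≤ M.length) :
    |(tr2 (D + 1) fun a b => twoF j (fun x y => oE q j x.2 y.2) (WF n β M q a b)) -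
      tr2 D fun a b => twoF j (fun x y => oU q j x.1 y.1) (WF n β M q a b)| ≤
      (2 * cW (oTau n β M M.length) 0 (D + 1) 2 + cW (oTau n β M M.length) 1 D 2) *
        (2 * uM n β M q (D + 2) j + momU n β M q (D + 2)) := by
  have h1 := two_words hn H hM 0 (D + 1) hj (Q := fun x y => oE q j x.2 y.2) (B := 2) zero_le_two
    fun x y => by simpa using abs_oE_le H hj x.2 y.2
  have h2 := two_words hn H hM 1 D hj (Q := fun x y => oU q j x.1 y.1) (B := 1) zero_le_one
    fun x y => by simp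
  have h3 := test_op (β := β) hn H j
  rw [← Wt87.tX_two wt_one90] at h1 h2 h3
  have h4 := h3.symm.trans (Law.TE_sub wt_one90 _ _ _ _ _)
  simp only [mul_one, zero_add, add_comm 1 D, TE] at h1 h2 h4
  rw [sub_eq_zero.1 h4.symm] at h1
  refine (abs_sub_le _ _ _).trans ((add_le_add ((abs_sub_comm _ _).trans_le h1) h2).trans_eq ?_)
  ring

/-- **(amp j)**: words up to degree `D + 2` -/
theorem amp_words (hn : 0 < n) (H : OOk M q) (hM : Mono 0 (M.map (mxL n β))) (D : ℕ) {j : ℕ}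
    (hj : j ≤ M.length) :
    |(tr2 (D + 1) fun a b => twoF j (fun x y => oU q j x.1 y.1 * oE q j x.2 y.2) (WF n β M q a b)) -
      tr2 D fun a b => twoF j (fun x y => oU q j x.1 y.1 ^ 2) (WF n β M q a b)| ≤ 2 / n +
      (2 * cW (oTau n β M M.length) 1 (D + 1) 2 + cW (oTau n β M M.length) 2 D 2) *
        (2 * uM n β M q (D + 3) j + momU n β M q (D + 3)) := by
  have h1 := two_words hn H hM 1 (D + 1) hj (Q := fun x y => oU q j x.1 y.1 * oE q j x.2 y.2)
    (B := 2) zero_le_two fun x y => by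
      rw [abs_mul, pow_one, mul_comm]
      exact mul_le_mul_of_nonneg_right (abs_oE_le H hj _ _) (abs_nonneg _)
  have h2 := two_words hn H hM 2 D hj (Q := fun x y => oU q j x.1 y.1 ^ 2) (B := 1) zero_le_one
    fun x y => by simp
  have h3 := abs_amp_op (β := β) hn H j
  rw [← Wt87.tX_two wt_one90] at h1 h2 h3
  simp only [sub_mul] at h3
  have h4 := (congrArg abs (Law.TE_sub wt_one90 _ _ _ _ _)).symm.trans_le h3
  rw [show 1 + (D + 1) + 1 = D + 3 by ring] at h1
  rw [show 2 + D + 1 = D + 3 by ring] at h2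
  simp only [TE, ← sq, mul_comm (oE q j _ _)] at h1 h2 h4
  rw [abs_le] at h1 h2 h4 ⊢
  constructor <;> nlinarith [h1.1, h1.2, h2.1, h2.2, h4.1, h4.2]

/-- a kernel times a function of the split -/
def wt {Ω : Type} (φ : ℕ → ℝ) (S : ℕ → Ω → Ω → ℝ) : ℕ → Ω → Ω → ℝ := fun j x y => φ j * S j x y

theorem wt_cut {Ω : Type} (I : ℕ → Prop) [DecidablePred I] (S : ℕ → Ω → Ω → ℝ) :
    wt (fun j => if I j then 1 else 0) S = cut I S := by
  funext j x y
  by_cases h : I j <;> simp [wt, cut, h]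

theorem twoF_mul (l : List (ℕ → Cube n × Bool → Cube n × Bool → ℝ)) (j : ℕ) (c : ℝ)
    (Q : Cube n × Bool → Cube n × Bool → ℝ) :
    twoF j (fun x y => c * Q x y) (WdO (op n β M q 0) l (E0 n β M q)) =
      c * twoF j Q (WdO (op n β M q 0) l (E0 n β M q)) := by
  have := (isLin_TEf wt_one90 (op n β M q 0) 0).wdO (op n β M q 0) l (Sh.two j) c 0
    (pr2 j Q) (pr2 j Q)
  simp only [zero_mul, add_zero] at this
  exact this

theorem oL_cons (K : ℕ → Cube n × Bool → Cube n × Bool → ℝ)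
    (l : List (ℕ → Cube n × Bool → Cube n × Bool → ℝ)) : oL n β M q (K :: l) =
      ∑ j ∈ range (M.length + 1), dm (M.map (mxL n β)) 0 j *
        twoF j (K j) (WdO (op n β M q 0) l (E0 n β M q)) := by
  simp only [Mul55.Lam_cons, pairF, op_length, Cav22.dm_tilt (tilt_op (q := q) 0)]

/-- **(amp `τ φ / 2`)**: `φ A` in front of the words of degree `≤ D + 1`, `φ B` twice in front of
the words of degree `≤ D` -/
theorem amp_phi (hn : 0 < n) (H : OOk M q) (hM : Mono 0 (M.map (mxL n β))) (D : ℕ) (φ : ℕ → ℝ) :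
    |(tr2 (D + 1) fun a b => oL n β M q (wt φ (oLt n β M q true) ::
        w2 (oLt n β M q true) (oLt n β M q false) a b)) +
      2 * tr2 D fun a b => oL n β M q (wt φ (oLt n β M q false) ::
        w2 (oLt n β M q true) (oLt n β M q false) a b)| ≤
      oTau n β M M.length / 2 * ∑ j ∈ range (M.length + 1), dm (M.map (mxL n β)) 0 j * (|φ j| *
        (2 / n + (2 * cW (oTau n β M M.length) 1 (D + 1) 2 + cW (oTau n β M M.length) 2 D 2) *
          (2 * uM n β M q (D + 3) j + momU n β M q (D + 3)))) := by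
  have e1 : ∀ j, wt φ (oLt n β M q true) j = fun x y =>
      φ j * (oTau n β M j / 2) * (oU q j x.1 y.1 * oE q j x.2 y.2) := fun j => by
    funext x y; simp only [wt, oLt, oUb, oZs]; ring
  have e2 : ∀ j, wt φ (oLt n β M q false) j = fun x y =>
      -(φ j * (oTau n β M j / 2) / 2) * oU q j x.1 y.1 ^ 2 := fun j => by
    funext x y; simp only [wt, oLt, oUb, oZs]; ring
  simp only [oL_cons, e1, e2, twoF_mul, tr2_sum, tr2_mul]
  rw [Finset.mul_sum, ← Finset.sum_add_distrib, Finset.mul_sum]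
  refine (Finset.abs_sum_le_sum_abs _ _).trans (Finset.sum_le_sum fun j hj => ?_)
  have h1 := amp_words hn H hM D (Nat.lt_succ_iff.1 (Finset.mem_range.1 hj))
  have h2 := H.oTau_le n β j
  have h3 := dm_nonneg hM j
  simp only [WF] at h1
  rw [show ∀ d f t X Y : ℝ, d * (f * t * X) + 2 * (d * (-(f * t / 2) * Y)) =
    t * (d * (f * (X - Y))) from fun _ _ _ _ _ => by ring, abs_mul, abs_mul, abs_mul,
    abs_of_nonneg h3, abs_of_nonneg (by linarith [h2.1] : 0 ≤ oTau n β M j / 2)]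
  exact mul_le_mul (by linarith [h2.2]) (mul_le_mul_of_nonneg_left
    (mul_le_mul_of_nonneg_left h1 (abs_nonneg _)) h3) (by positivity) (by linarith [h2.1, h2.2])

/-- constant of the amplitude identities up to degree four -/
def cA (τ : ℝ) : ℝ := 3 * τ / 2 * (2 * cW τ 1 3 2 + cW τ 2 2 2)

theorem amp_phi_le (hn : 0 < n) (H : OOk M q) (hM : Mono 0 (M.map (mxL n β))) {φ : ℕ → ℝ}
    (hφ : ∀ j, |φ j| ≤ 1) :
    |(tr2 3 fun a b => oL n β M q (wt φ (oLt n β M q true) ::
        w2 (oLt n β M q true) (oLt n β M q false) a b)) +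
      2 * tr2 2 fun a b => oL n β M q (wt φ (oLt n β M q false) ::
        w2 (oLt n β M q true) (oLt n β M q false) a b)| ≤
      oTau n β M M.length / n + cA (oTau n β M M.length) * momU n β M q 5 := by
  have h0 := (H.oTau_le n β M.length).1
  have hc : 0 ≤ 2 * cW (oTau n β M M.length) 1 3 2 + cW (oTau n β M M.length) 2 2 2 :=
    add_nonneg (mul_nonneg zero_le_two (cW_nonneg h0 _ _ _)) (cW_nonneg h0 _ _ _)
  refine (amp_phi hn H hM 2 φ).trans ((mul_le_mul_of_nonneg_left (Finset.sum_le_sum fun j _ =>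
    mul_le_mul_of_nonneg_left (mul_le_of_le_one_left (add_nonneg (by positivity) (mul_nonneg hc
      (add_nonneg (mul_nonneg zero_le_two (uM_nonneg _ _)) (momU_nonneg hM _)))) (hφ j))
      (dm_nonneg hM j)) (by positivity)).trans_eq ?_)
  have h1 := sum_dm (M.map (mxL n β)) 0 (M.map (mxL n β)).length
  rw [ex_length, List.length_map, sub_zero] at h1
  simp only [mul_add (dm _ _ _)]
  rw [Finset.sum_add_distrib, sum_dm_two, ← Finset.sum_mul, h1, cA]
  ring

variable (I : ℕ → Prop) [DecidablePred I]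

theorem wI_mem (hn : 0 < n) (H : OOk M q) (a b c d : ℕ) :
    ∀ T ∈ wI n β M q I a b c d, T ∈ Ok (Cube n × Bool) M.length :=
  w4_mem (cut_mem _ (oLt_mem hn H _)) (cut_mem _ (oLt_mem hn H _)) (cut_mem _ (oLt_mem hn H _))
    (cut_mem _ (oLt_mem hn H _)) a b c d

/-- **cutting the letters**, for any symmetric multilinear form -/
theorem tr2_wI (hn : 0 < n) (H : OOk M q) {Λ : List (ℕ → Cube n × Bool → Cube n × Bool → ℝ) → ℝ}
    (hΛ : SM (Ok (Cube n × Bool) M.length) Λ) (D : ℕ) :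
    tr2 D (fun i j => Λ (w2 (oLt n β M q true) (oLt n β M q false) i j)) =
      tr4 D fun a b c d => Λ (wI n β M q I a b c d) := by
  have := tr2_cut hΛ (cut_mem I (oLt_mem (β := β) hn H true))
    (cut_mem (fun j => ¬I j) (oLt_mem (β := β) hn H true)) (cut_mem I (oLt_mem (β := β) hn H false))
    (cut_mem (fun j => ¬I j) (oLt_mem (β := β) hn H false)) D
  rwa [cut_add, cut_add] at this

theorem tr2_twoF (hn : 0 < n) (H : OOk M q) (j : ℕ) (Q : Cube n × Bool → Cube n × Bool → ℝ)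
    (D : ℕ) : tr2 D (fun a b => twoF j Q (WF n β M q a b)) = tr4 D fun a b c d =>
      twoF j Q (WdO (op n β M q 0) (wI n β M q I a b c d) (E0 n β M q)) :=
  tr2_wI I hn H (sm_E0 (fl_ev _ _)) D

theorem tr2_oL (hn : 0 < n) (H : OOk M q) (K : ℕ → Cube n × Bool → Cube n × Bool → ℝ) (D : ℕ) :
    tr2 D (fun a b => oL n β M q (K :: w2 (oLt n β M q true) (oLt n β M q false) a b)) =
      tr4 D fun a b c d => oL n β M q (K :: wI n β M q I a b c d) :=
  tr2_wI I hn H (sm_E0 (Mul55.fl_pairF _ K)) D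

theorem W4_succ (hn : 0 < n) (H : OOk M q) (a b c d : ℕ) :
    W4 n β M q I (a + 1) b c d = oL n β M q (cut I (oLt n β M q true) :: wI n β M q I a b c d) ∧
    W4 n β M q I a (b + 1) c d =
      oL n β M q (cut (fun j => ¬I j) (oLt n β M q true) :: wI n β M q I a b c d) ∧
    W4 n β M q I a b (c + 1) d = oL n β M q (cut I (oLt n β M q false) :: wI n β M q I a b c d) ∧
    W4 n β M q I a b c (d + 1) =
      oL n β M q (cut (fun j => ¬I j) (oLt n β M q false) :: wI n β M q I a b c d) :=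
  ⟨(sm_oL 0).perm (w4_perm _ _ _ _ a b c d).1 (wI_mem I hn H _ _ _ _),
    (sm_oL 0).perm (w4_perm _ _ _ _ a b c d).2.1 (wI_mem I hn H _ _ _ _),
    (sm_oL 0).perm (w4_perm _ _ _ _ a b c d).2.2.1 (wI_mem I hn H _ _ _ _),
    (sm_oL 0).perm (w4_perm _ _ _ _ a b c d).2.2.2 (wI_mem I hn H _ _ _ _)⟩

/-- **(amp LOW)** in scaling form -/
theorem amp_low (hn : 0 < n) (H : OOk M q) (hM : Mono 0 (M.map (mxL n β))) :
    |tr4 4 fun a b c d => (a + 2 * c : ℕ) * W4 n β M q I a b c d| ≤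
      oTau n β M M.length / n + cA (oTau n β M M.length) * momU n β M q 5 := by
  have := amp_phi_le hn H hM (φ := fun j => if I j then 1 else 0) fun j => by split_ifs <;> simp
  rw [wt_cut, wt_cut, tr2_oL I hn H, tr2_oL I hn H] at this
  simpa only [← scal_low, (W4_succ I hn H _ _ _ _).1, (W4_succ I hn H _ _ _ _).2.2.1] using this

/-- **(amp UP)** in scaling form -/
theorem amp_up (hn : 0 < n) (H : OOk M q) (hM : Mono 0 (M.map (mxL n β))) :
    |tr4 4 fun a b c d => (b + 2 * d : ℕ) * W4 n β M q I a b c d| ≤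
      oTau n β M M.length / n + cA (oTau n β M M.length) * momU n β M q 5 := by
  have := amp_phi_le hn H hM (φ := fun j => if ¬I j then 1 else 0) fun j => by split_ifs <;> simp
  rw [wt_cut, wt_cut, tr2_oL I hn H, tr2_oL I hn H] at this
  simpa only [← scal_up, (W4_succ I hn H _ _ _ _).2.1, (W4_succ I hn H _ _ _ _).2.2.2] using this

/-- constant of the value identity -/
def cV (τ : ℝ) (D : ℕ) : ℝ := 9 / 2 * τ * cOp τ D D 2 +
  (D + 1) ^ 2 * ∑ k ∈ range (D + 1), ∑ e ∈ range (D + 1), 3 * cTay (k - 1) (D + e) 2 * τ ^ k * 2 ^ e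

theorem abs_oL_w2 (hn : 0 < n) (H : OOk M q) (hM : Mono 0 (M.map (mxL n β))) {p i j : ℕ}
    (hp : i + 2 * j = p + 1) : |oL n β M q (w2 (oLt n β M q true) (oLt n β M q false) i j)| ≤
      3 * cTay (i + j - 1) p 2 * oTau n β M M.length ^ (i + j) * momU n β M q (p + 1) := by
  have := Mul55.abs_tm_deg hn H hM (fun _ => ()) (w2 ((), true) ((), false) i j) (fun _ => True)
    (fun _ _ _ _ => trivial) (p := p) (by rw [w2_map, ← hp]; simp [w2, Mul55.dg, mul_comm])
  have e : ∀ b, ten (lt n β M q (fun _ => ()) ((), b)) = oLt n β M q b := fun b => by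
    rw [← cut_lt]; funext j; simp [cut]
  simpa only [tm, w2_map, e, w2_length, Mul55.mU, if_true, momU, uM] using this

/-- **(val)**: words up to degree `D` -/
theorem val_words (hn : 0 < n) (H : OOk M q) (hM : Mono 0 (M.map (mxL n β))) (D : ℕ) :
    |X (fun _ => 1) (M.map (mxL (n + 1) β)) 0 - X (fun _ => 1) (M.map (mxL n β)) 0 -
      (X (fun _ => 1) (opS n β M q) 0 - oC n β M q + oN n β M -
        tr2 D fun a b => oL n β M q (w2 (oLt n β M q true) (oLt n β M q false) a b))| ≤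
      cV (oTau n β M M.length) D * momU n β M q (D + 1) := by
  have h0 := (H.oTau_le n β M.length).1
  have hS := momU_nonneg (q := q) hM (D + 1)
  have hc : ∀ k p l e : ℕ, 0 ≤ 3 * cTay k p 2 * oTau n β M M.length ^ l * 2 ^ e := fun k p l e => by
    have := cTay_nonneg k p 2
    positivity
  have h1 := val_head hn H hM D
  simp only [← oW_tK hn H, Mul55.oW_Lam hn H, tK_eq, ← List.replicate_succ] at h1
  have h2 := exp_tr2 (sm_oL (n := n) (β := β) (M := M) (q := q) 0) (oLt_mem hn H true)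
    (oLt_mem hn H false) D (c := (∑ k ∈ range (D + 1), ∑ e ∈ range (D + 1),
      3 * cTay (k - 1) (D + e) 2 * oTau n β M M.length ^ k * 2 ^ e) * momU n β M q (D + 1))
    (mul_nonneg (Finset.sum_nonneg fun _ _ => Finset.sum_nonneg fun _ _ => hc _ _ _ _) hS)
    fun i j hij hD => by
      obtain ⟨e, he⟩ : ∃ e, i + 2 * j = D + 1 + e := ⟨i + 2 * j - (D + 1), by omega⟩
      refine (abs_oL_w2 hn H hM (p := D + e) (by omega)).trans ?_
      have h3 := momU_succ_le (n := n) (β := β) H hM (D + 1) e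
      rw [add_right_comm] at h3
      refine (mul_le_mul_of_nonneg_left h3 (by simpa using hc _ _ _ 0)).trans ?_
      rw [← mul_assoc]
      refine mul_le_mul_of_nonneg_right ?_ hS
      refine le_trans ?_ (Finset.single_le_sum (f := fun k => ∑ e ∈ range (D + 1),
        3 * cTay (k - 1) (D + e) 2 * oTau n β M M.length ^ k * 2 ^ e)
        (fun _ _ => Finset.sum_nonneg fun _ _ => hc _ _ _ _)
        (Finset.mem_range.2 (Nat.lt_succ_of_le hij)))
      exact Finset.single_le_sum (f := fun e =>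
        3 * cTay (i + j - 1) (D + e) 2 * oTau n β M M.length ^ (i + j) * 2 ^ e)
        (fun _ _ => hc _ _ _ _) (Finset.mem_range.2 (by omega))
  rw [Finset.sum_range_succ', List.replicate_zero, Lam, zero_div, add_zero] at h2
  have h4 := h1.trans (div_le_self (mul_nonneg (mul_nonneg (by positivity) (cOp_nonneg h0 _ _ _))
    hS) (Nat.one_le_cast.2 (Nat.factorial_pos D)))
  rw [abs_le] at h2 h4 ⊢
  rw [cV, add_mul, mul_assoc (_ ^ 2)]
  constructor <;> linarith [h2.1, h2.2, h4.1, h4.2]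

/-- **(val)** cut at `I` -/
theorem val_cut (hn : 0 < n) (H : OOk M q) (hM : Mono 0 (M.map (mxL n β))) :
    |X (fun _ => 1) (M.map (mxL (n + 1) β)) 0 - X (fun _ => 1) (M.map (mxL n β)) 0 -
      (X (fun _ => 1) (opS n β M q) 0 - oC n β M q + oN n β M - tr4 4 (W4 n β M q I))| ≤
      cV (oTau n β M M.length) 4 * momU n β M q 5 := by
  have := val_words hn H hM 4
  rwa [tr2_wI I hn H (sm_oL 0)] at this

theorem W4_tm (cl : ℕ → Bool) (a b c d : ℕ) : W4 n β M q (fun j => cl j = true) a b c d =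
    tm n β M q cl (w4 (true, true) (false, true) (true, false) (false, false) a b c d) := by
  have e : ∀ S : ℕ → Cube n × Bool → Cube n × Bool → ℝ,
      cut (fun j => ¬cl j = true) S = cut (fun j => cl j = false) S := fun S => by
    funext j
    cases h : cl j <;> simp [cut, h]
  simp only [W4, wI, tm, w4, List.map_append, w2_map, ← cut_lt, e]

theorem cA_mono {τ T : ℝ} (hτ : 0 ≤ τ) (h : τ ≤ T) : cA τ ≤ cA T := by
  have := hτ.trans h
  exact mul_le_mul (by linarith) (add_le_add (mul_le_mul_of_nonneg_left (cW_mono hτ h _ _ _)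
    zero_le_two) (cW_mono hτ h _ _ _)) (add_nonneg (mul_nonneg zero_le_two (cW_nonneg hτ _ _ _))
      (cW_nonneg hτ _ _ _)) (by positivity)

theorem cV_mono {τ T : ℝ} (hτ : 0 ≤ τ) (h : τ ≤ T) (D : ℕ) : cV τ D ≤ cV T D := by
  have := hτ.trans h
  refine add_le_add (mul_le_mul (by linarith) (cOp_mono hτ h _ _ _) (cOp_nonneg hτ _ _ _)
    (by positivity)) (mul_le_mul_of_nonneg_left (Finset.sum_le_sum fun k _ =>
      Finset.sum_le_sum fun e _ => ?_) (by positivity))
  have := cTay_nonneg (k - 1) (D + e) 2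
  gcongr

end op

end Crest.Agent.T156.Cas.Wrd23

end
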