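import Crest.Agent.T156.CDef_40
import Crest.Agent.T156.Wrd_23

/-!
# Row 156, block C: exact words and Taylor remainders (helper23)
-/

set_option autoImplicit false

noncomputable section

namespace Crest.Agent.T156.Cas.C40

open MeasureTheory Real Set Filter Topology
open Crest.Agent.T157.E Crest.Agent.T157.Casc Crest.Agent.T157.SL
open Crest.Agent.T157.G1 (ov)
open Crest.ProbabilityR.SpinGlassDynamics (spin)
open Mul55 OneP
open Wrd23 (E0)

namespace Ex23

section op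
variable {n : ℕ} {β : ℝ} {M : List (ℝ × ℝ × ℝ)} {q : ℕ → ℝ} {C : Type} [DecidableEq C]

/-- product form of a word -/
theorem wB_eq (hn : 0 < n) (H : OOk M q)
    (V : List ((ℕ → Cube n → Cube n → ℝ) × (ℕ → Bool → Bool → ℝ))) (s : Sh)
    (G : (s.Lf → Cube n) → ℝ) (ξ : (s.Lf → Bool) → ℝ) :
    wB (-1) (M.map (mxL n β)) (oB n β M q []) V s G ξ =
      WdO (op n β M q 0) (V.map ten) (E0 n β M q) s (tens G ξ) := by
  rw [WdO_ten, wB_tilt _ (tilt_op 0)]
  congr 1
  funext s G ξ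
  have := TE_op_zero (β := β) hn H 0 0 s G ξ
  rw [Law.ad_zero] at this
  exact this.symm

theorem wB_perm (hn : 0 < n) (H : OOk M q) (cl : ℕ → C) {f f' : List (C × Bool)} (p : f.Perm f')
    (s : Sh) (G : (s.Lf → Cube n) → ℝ) (ξ : (s.Lf → Bool) → ℝ) :
    wB (-1) (M.map (mxL n β)) (oB n β M q []) (f.map (lt n β M q cl)) s G ξ =
      wB (-1) (M.map (mxL n β)) (oB n β M q []) (f'.map (lt n β M q cl)) s G ξ := by
  rw [wB_eq hn H, wB_eq hn H]
  refine (Wrd23.sm_E0 (Wrd23.fl_ev s _)).perm ((p.map _).map _) fun T hT => ?_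
  rw [List.map_map] at hT
  obtain ⟨a, -, rfl⟩ := List.mem_map.1 hT
  exact lt_mem hn H cl a

/-- the Taylor coefficients as sums over words -/
theorem opC_words [Fintype C] (hn : 0 < n) (H : OOk M q) (cl : ℕ → C) (k : ℕ) (s : Sh)
    (G : (s.Lf → Cube n) → ℝ) (ξ : (s.Lf → Bool) → ℝ) :
    opC n β M q k s G ξ = ∑ f : Fin k → C × Bool,
      wB (-1) (M.map (mxL n β)) (oB n β M q []) ((List.ofFn f).map (lt n β M q cl)) s G ξ := by
  rw [← iDn_op_zero hn H, iDn_op hn H, Dop_itE (tilt_op (q := q) 0), ← sum_lt_one cl]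
  refine ((Wrd23.sm_E0 (Wrd23.fl_ev s _)).expand₀ (lt_mem hn H cl) k).trans ?_
  simp only [wB_eq hn H, List.map_ofFn, Function.comp_def]

/-- one letter, no bulk test: the bulk factor is averaged -/
theorem wB_one (p : (ℕ → Cube n → Cube n → ℝ) × (ℕ → Bool → Bool → ℝ)) (s : Sh)
    (ξ : (s.Lf → Bool) → ℝ) :
    wB (-1) (M.map (mxL n β)) (oB n β M q []) [p] s (fun _ => 1) ξ =
      Dop (opS n β M q) (fun j a b => pi2 (fun _ => 1) (M.map (mxL n β)) j (p.1 j) 0 * p.2 j a b)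
        (TEf (fun _ => 1) (opS n β M q) 0) s ξ := by
  rw [Dop_eq_sg, sg_tilt _ tilt_opS, wB]
  refine sg_congr _ _ _ fun τ hτ => ?_
  rw [wB, oB]
  unfold GT.ev
  simp only [one_mul, WdO, List.foldr_nil, TEf, hτ.TE_pair wt_one90 0 (p.1 τ.j),
    ← Law.TE_const_mul wt_one90, mul_left_comm]

/-- a kernel that depends on the level only -/
theorem Dop_lev {Ω : Type} [Fintype Ω] {w : Ω → ℝ} (hw : Wt w) (L : List (Lv Ω)) (h : Ω → ℝ)
    {c : ℕ → ℝ} (h0 : c 0 = 0) (s : Sh) (F : (s.Lf → Ω) → ℝ) :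
    Dop L (fun j _ _ => c j) (TEf w L h) s F = 0 := by
  have h1 := dT_const' hw s L h (S := fun j _ _ => c j) (by funext x y; exact h0) (TE w s L h F)
  rw [dT_eq_sg hw s L h (c := c L.length) fun _ => rfl] at h1
  rw [Dop_eq_sg, ← h1]
  refine sg_congr _ _ _ fun τ hτ => ?_
  unfold GT.ev
  simp only [TEf, mul_comm _ (c τ.j), Law.TE_const_mul hw, Law.TE_const hw, hτ.TE_e hw]

theorem tm_one (hn : 0 < n) (H : OOk M q) (cl : ℕ → C) (a : C × Bool) :
    tm n β M q cl [a] = ∑ j ∈ Finset.range (M.length + 1), dm (M.map (mxL n β)) 0 j *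
      (pi2 (fun _ => 1) (M.map (mxL n β)) j ((lt n β M q cl a).1 j) 0 *
        pi2 (fun _ => 1) (opS n β M q) j ((lt n β M q cl a).2 j) 0) := by
  rw [tm_eq hn H, List.map_singleton, lamB, List.length_map]
  refine Finset.sum_congr rfl fun j _ => ?_
  rw [← Wt87.tX_two wt_one90, ← Wt87.tX_two wt_one90]
  rfl

theorem sum_lo {J K : ℕ} (h : J < K) {g : ℕ → ℝ} (h0 : g 0 = 0) :
    ∑ j ∈ Finset.range (K + 1), (if j ≤ J then g j else 0) = ∑ j ∈ Finset.Icc 1 J, g j := by
  rw [← Finset.sum_filter]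
  refine (Finset.sum_subset (fun j hj => ?_) fun j hj hj' => ?_).symm
  · simp only [Finset.mem_Icc, Finset.mem_filter, Finset.mem_range] at hj ⊢
    omega
  · simp only [Finset.mem_Icc, Finset.mem_filter, Finset.mem_range] at hj hj'
    rwa [show j = 0 by omega]

theorem sum_up {J K : ℕ} {g : ℕ → ℝ} (h0 : g K = 0) :
    ∑ j ∈ Finset.range (K + 1), (if j ≤ J then 0 else g j) = ∑ j ∈ Finset.Ioo J K, g j := by
  simp only [← ite_not (_ ≤ J)]
  rw [← Finset.sum_filter]
  refine (Finset.sum_subset (fun j hj => ?_) fun j hj hj' => ?_).symm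
  · simp only [Finset.mem_Ioo, Finset.mem_filter, Finset.mem_range] at hj ⊢
    omega
  · simp only [Finset.mem_Ioo, Finset.mem_filter, Finset.mem_range] at hj hj'
    rwa [show j = K by omega]

/-- **(val)**, all words of length `≤ 4` -/
theorem rem_val [Fintype C] (hn : 0 < n) (H : OOk M q) (hM : Mono 0 (M.map (mxL n β)))
    (cl : ℕ → C) (J : ℕ) :
    |X (fun _ => 1) (M.map (mxL (n + 1) β)) 0 - X (fun _ => 1) (M.map (mxL n β)) 0 -
      (X (fun _ => 1) (opS n β M q) 0 - oC n β M q + oN n β M) + ∑ k ∈ Finset.range J,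
        ∑ f : Fin (k + 1) → C × Bool, tm n β M q cl (List.ofFn f) / (k + 1).factorial| ≤
      9 / 2 * oTau n β M M.length * cOp (oTau n β M M.length) J J 2 * momU n β M q (J + 1) := by
  have h0 := (H.oTau_le n β M.length).1
  have h1 := val_head hn H hM J
  have e : ∀ k, oW n β M q (tK (oUb n β M q) (oZs q)) k 0 =
      ∑ f : Fin (k + 1) → C × Bool, tm n β M q cl (List.ofFn f) := fun k =>
    mul_left_cancel₀ two_ne_zero ((oW_oD k 0).symm.trans (oW_val hn H cl k))
  simp only [← oW_tK hn H, e, Finset.sum_div] at h1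
  rw [← sub_add] at h1
  exact h1.trans (div_le_self (mul_nonneg (mul_nonneg (by positivity) (cOp_nonneg h0 _ _ _))
    (momU_nonneg hM _)) (Nat.one_le_cast.2 (Nat.factorial_pos J)))

/-- **(amp)** in scaling form, `|φ| ≤ 1` constant on cells -/
theorem rem_amp [Fintype C] (hn : 0 < n) (H : OOk M q) (hM : Mono 0 (M.map (mxL n β)))
    (cl : ℕ → C) {φ : C → ℝ} (hφ : ∀ c, |φ c| ≤ 1) (J : ℕ) :
    |∑ k ∈ Finset.range (J + 1), ∑ f : Fin (k + 1) → C × Bool, (∑ r, φ (f r).1 * dg (f r)) *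
        (tm n β M q cl (List.ofFn f) / (k + 1).factorial)| ≤ oTau n β M M.length / n +
      6 * oTau n β M M.length * cOp (oTau n β M M.length) (J + 1) (J + 1) 2 *
        momU n β M q (J + 2) := by
  have h0 := (H.oTau_le n β M.length).1
  have hτ : ∀ j, |φ (cl j) * oTau n β M j| ≤ oTau n β M M.length := fun j => by
    rw [abs_mul, abs_of_nonneg (H.oTau_le n β j).1]
    exact (mul_le_of_le_one_left (H.oTau_le n β j).1 (hφ _)).trans (H.oTau_le n β j).2
  have h1 := amp_oW hn H hM fun j => φ (cl j) * oTau n β M j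
  have h2 := sum_dm (M.map (mxL n β)) 0 (M.map (mxL n β)).length
  rw [ex_length, List.length_map, sub_zero] at h2
  have h3 : ∑ j ∈ Finset.range (M.length + 1), dm (M.map (mxL n β)) 0 j *
      |φ (cl j) * oTau n β M j| ≤ oTau n β M M.length := (Finset.sum_le_sum fun j _ =>
    mul_le_mul_of_nonneg_left (hτ j) (dm_nonneg hM j)).trans_eq (by rw [← Finset.sum_mul, h2, one_mul])
  rw [taylor_oW hn H _ ⟨zero_le_one, le_rfl⟩ J] at h1
  simp only [one_pow, mul_one, oW_amp hn H cl φ, ← Finset.mul_sum] at h1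
  have h4 := intervalIntegral.norm_integral_le_of_norm_le_const (a := (0 : ℝ)) (b := 1)
    (f := fun t => oW n β M q (fun j x y => φ (cl j) * oTau n β M j *
      ((oE q j x.2 y.2 - oU q j x.1 y.1) * oU q j x.1 y.1)) (J + 1) t * (1 - t) ^ J / J.factorial)
    (C := 3 * (cOp (oTau n β M M.length) (J + 1) (J + 1) 2 * (4 * oTau n β M M.length)) *
      momU n β M q (J + 2)) fun θ hθ => by
      rw [uIoc_of_le zero_le_one] at hθ
      have h5 := abs_oW_le hn H hM ⟨hθ.1.le, hθ.2⟩ (m := 1) (k := J + 1) (p := J + 1) (add_comm _ _)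
        (Q := fun j x y => φ (cl j) * oTau n β M j *
          ((oE q j x.2 y.2 - oU q j x.1 y.1) * oU q j x.1 y.1)) (B := 4 * oTau n β M M.length)
        (by positivity) fun j hj x y => by
          rw [abs_mul, abs_mul (_ - _), pow_one, ← mul_assoc, mul_comm (4 : ℝ)]
          refine mul_le_mul_of_nonneg_right (mul_le_mul (hτ j) ((abs_sub _ _).trans ?_)
            (abs_nonneg _) h0) (abs_nonneg _)
          linarith [abs_oE_le H hj x.2 y.2, abs_oU_le H hj x.1 y.1]
      rw [Real.norm_eq_abs, abs_div, abs_mul, abs_pow, Nat.abs_cast,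
        abs_of_nonneg (sub_nonneg.2 hθ.2)]
      exact (div_le_self (mul_nonneg (abs_nonneg _) (pow_nonneg (sub_nonneg.2 hθ.2) _))
        (Nat.one_le_cast.2 (Nat.factorial_pos J))).trans ((mul_le_of_le_one_right (abs_nonneg _)
          (pow_le_one₀ (sub_nonneg.2 hθ.2) (by linarith [hθ.1]))).trans h5)
  rw [Real.norm_eq_abs, sub_zero, abs_one, mul_one] at h4
  have h6 := h1.trans (mul_le_mul_of_nonneg_left h3 (by positivity))
  rw [div_mul_eq_mul_div, mul_div_assoc] at h6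
  rw [abs_le] at h4 h6 ⊢
  constructor <;> linarith [h4.1, h4.2, h6.1, h6.2]

/-- **(test)** at one split, all words of length `≤ J + 1` -/
theorem rem_test (hn : 0 < n) (H : OOk M q) (hM : Mono 0 (M.map (mxL n β))) (J : ℕ) {j : ℕ}
    (hj : j ≤ M.length) :
    |∑ k ∈ Finset.range (J + 2), opP n β M q k j (fun _ _ => 1) (oE q j) / k.factorial -
      ∑ k ∈ Finset.range (J + 2), opP n β M q k j (oU q j) (fun _ _ => 1) / k.factorial| ≤
      (2 * cOp (oTau n β M M.length) (J + 2) (J + 1) 2 +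
        2 * cOp (oTau n β M M.length) (J + 1) (J + 1) 2) *
        (2 * uM n β M q (J + 2) j + momU n β M q (J + 2)) := by
  have h0 := (H.oTau_le n β M.length).1
  have hS : 0 ≤ 2 * uM n β M q (J + 2) j + momU n β M q (J + 2) :=
    add_nonneg (mul_nonneg zero_le_two (uM_nonneg _ _)) (momU_nonneg hM _)
  have h1 := (test_head hn H hM J hj).trans (mul_le_mul_of_nonneg_right (add_le_add
    (div_le_self (mul_nonneg zero_le_two (cOp_nonneg h0 _ _ _))
      (Nat.one_le_cast.2 (Nat.factorial_pos _))) (div_le_self (cOp_nonneg h0 _ _ _)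
      (Nat.one_le_cast.2 (Nat.factorial_pos _)))) hS)
  have h2 := abs_iDn_two_le hn H hM (θ := 0) ⟨le_rfl, zero_le_one⟩ (m := 1) (k := J + 1)
    (p := J + 1) (add_comm _ _) hj (Q := fun x y => oU q j x.1 y.1 * 1) (B := 1) zero_le_one
    fun x y => by simp
  have h3 : |opP n β M q (J + 1) j (oU q j) (fun _ _ => 1) / (J + 1).factorial| ≤
      cOp (oTau n β M M.length) (J + 1) (J + 1) 2 * 1 *
        (2 * uM n β M q (J + 1 + 1) j + momU n β M q (J + 1 + 1)) := by
    rw [abs_div, Nat.abs_cast, opP, ← iDn_op_zero hn H]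
    exact (div_le_self (abs_nonneg _) (Nat.one_le_cast.2 (Nat.factorial_pos _))).trans h2
  rw [Finset.sum_range_succ (fun k => opP n β M q k j (oU q j) (fun _ _ => 1) / k.factorial),
    ← sub_sub]
  refine (abs_sub _ _).trans ((add_le_add h1 h3).trans_eq ?_)
  ring

end op

variable {D : CD} {τ0 : ℝ}

theorem E2_oU (D : CD) (j : ℕ) : D.E2 j (oU D.q j) = D.del j := by
  rw [CD.del, CD.rb, CD.E2, CD.E2, ← pi2_const wt_one90 D.B j (D.q j) 0, ← pi2_sub wt_one90]
  rfl

theorem pi2_oE (D : CD) (j : ℕ) : pi2 (fun _ => 1) D.S j (oE D.q j) 0 = D.Gam j - D.q j := by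
  rw [CD.Gam, ← pi2_const wt_one90 D.S j (D.q j) 0, ← pi2_sub wt_one90]
  rfl

/-- the averaged bulk factor of a letter -/
theorem pi2_lt (D : CD) (a : Lt) (j : ℕ) :
    pi2 (fun _ => 1) D.B j ((lt D.n D.β D.M D.q D.cl a).1 j) 0 = if D.cl j = a.1 then
      (if a.2 then D.τ j / 2 * D.del j else -(D.τ j / 4) * D.u 2 j) else 0 := by
  obtain ⟨c, b⟩ := a
  simp only [lt, cut]
  split_ifs with h hb
  · subst hb
    rw [← E2_oU, CD.E2, ← pi2_const_mul]
    rfl
  · rw [Bool.not_eq_true] at hb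
    subst hb
    simp only [CD.u, uM, sq_abs]
    rw [← pi2_const_mul]
    rfl
  · exact pi2_const wt_one90 _ _ 0 _

theorem Sd_eq (D : CD) : (fun j a b => pi2 (fun _ => 1) D.B j ((lt D.n D.β D.M D.q D.cl aU).1 j) 0 *
    (lt D.n D.β D.M D.q D.cl aU).2 j a b) = D.Sd := by
  funext j a b
  rw [pi2_lt, CD.Sd]
  by_cases h : D.J < j
  · simp [CD.cl, h, not_le.2 h, lt, oZs]
  · simp [CD.cl, h, not_lt.1 h]

theorem tw_aU (H : D.Ok τ0) : D.tw [aU] = D.f1' := by
  have e : (fun b => (0 : ℝ) * spin b) = 0 := by funext b; simp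
  simp only [CD.tw, CD.f1', CD.sL, CD.sH, List.drop_zero, e, List.map_singleton, Nat.add_zero,
    Nat.sub_zero, wB_one, Sd_eq]
  congr 1
  rw [tm_one H.pos H.ook, Lam_cons, pairF, opS_length]
  refine Finset.sum_congr rfl fun j _ => ?_
  rw [Cav22.dm_tilt tilt_opS, ← pi2_const_mul, ← Sd_eq, ← Wt87.tX_two wt_one90]
  rfl

theorem tw_b (c : Bool) (H : D.Ok τ0) : D.tw [(c, false)] = D.dd 1 0 *
    ∑ j ∈ Finset.range (D.K + 1), if D.cl j = c then D.dx j * (-(D.τ j / 4) * D.u 2 j) else 0 := by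
  rw [CD.tw]
  unfold CD.dd
  split
  · rw [tm_one H.pos H.ook, one_mul]
    refine Finset.sum_congr rfl fun j _ => ?_
    rw [pi2_lt, show pi2 (fun _ => 1) D.S j ((lt D.n D.β D.M D.q D.cl (c, false)).2 j) 0 = 1 from
      pi2_const wt_one90 _ _ 1 _]
    split_ifs <;> simp_all
  · rw [zero_mul]
    refine Finset.sum_eq_zero fun j _ => mul_eq_zero_of_right _ ?_
    rw [List.map_singleton, wB_one]
    refine Dop_lev wt_one90 _ _ (c := fun j => pi2 (fun _ => 1) D.B j
      ((lt D.n D.β D.M D.q D.cl (c, false)).1 j) 0 * 1) ?_ _ _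
    simp [pi2_lt, oTau, dAcc_zero]

theorem tw_bL (H : D.Ok τ0) : D.tw [bL] = -(D.dd 1 0 * D.S1) / 4 := by
  rw [tw_b true H]
  simp only [CD.cl, decide_eq_true_eq]
  rw [sum_lo H.cut (by simp [oTau, dAcc_zero]), CD.S1, neg_div, mul_div_assoc, ← mul_neg,
    Finset.sum_div, ← Finset.sum_neg_distrib]
  refine congrArg _ (Finset.sum_congr rfl fun j hj => ?_)
  simp only [CD.u, uM, sq_abs, oU, H.qlo j (Finset.mem_Icc.1 hj).2, sub_zero, CD.E2]
  ring

theorem tw_bU (H : D.Ok τ0) : D.tw [bU] = -(D.dd 1 0 * D.Su) / 4 := by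
  rw [tw_b false H]
  simp only [CD.cl, decide_eq_false_iff_not, ite_not]
  rw [sum_up (by rw [H.top, zero_mul]), CD.Su, neg_div, mul_div_assoc, ← mul_neg,
    Finset.sum_div, ← Finset.sum_neg_distrib]
  exact congrArg _ (Finset.sum_congr rfl fun j _ => by ring)

end Ex23

open Ex23

/-- **exact words** -/
theorem exS : ExS := fun _ D H => ⟨tw_aU H, tw_bL H, tw_bU H, fun f f' p => by
  simp only [CD.tw, CD.tU, tm_perm H.pos H.ook _ p, wB_perm H.pos H.ook _ p, and_self]⟩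

end Crest.Agent.T156.Cas.C40

end
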