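import Crest.Agent.T156.CAbD_83
import Crest.Agent.T156.CWk_55
import Crest.Agent.T156.CEx_23

/-!
# Row 156, block C (helper45): the site coefficient of `AbS` (size, parity, regularity)
-/

set_option autoImplicit false
set_option linter.all false

noncomputable section

namespace Crest.Agent.T156.Cas.C40.Ab45

open Finset
open Crest.Agent.T157.E Crest.Agent.T157.Casc Crest.Agent.T157.SL
open Crest.ProbabilityR.SpinGlassDynamics (spin)
open Ker15 Nu87 Ed50 One15

variable {L : List (Lv Bool)} {r : ℕ}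

/-- the parity constant -/
def cS : ℝ := 16 * Real.exp (1 / 2 + √2) * 4 ^ 2

theorem one_le_cS : 1 ≤ cS := by
  have : 1 ≤ Real.exp (1 / 2 + √2) := Real.one_le_exp (by positivity)
  rw [cS]; linarith

theorem PB_le {s : ℝ} (h0 : 0 < s) (h2 : s ≤ 2) : PB 4 s ≤ cS * s := by
  rw [PB, cS]
  push_cast
  gcongr

theorem tm0 (rL : R1 L) (i : ℕ) : 0 ≤ tm L i := by
  have := rL.tm_mono (Nat.zero_le i)
  rwa [show tm L 0 = 0 by cases L <;> rfl] at this

/-- one odd cluster, matrix form -/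
theorem parM (rL : R1 L) (hM : Mono 0 L) (hr : r ≤ 4) {σ : SM r} (U : Um L.length σ)
    {k : Fin r → ℕ} {a : Fin r} {i : ℕ} (hi : i < L.length) (ha : Odd (bm σ k a i)) {p : ℝ}
    (hp : min 1 (tm L i) ≤ p) : |TM (fun _ => 1) L 0 σ (mo k)| ≤ cS * p := by
  have q1 := one_le_cS
  have t0 := tm0 rL i
  rcases le_total 1 (tm L i) with h1 | h1
  · rw [min_eq_left h1] at hp
    refine (TM_abs w1 U fun x => (abs_mo k x).le).trans ?_
    nlinarith
  rw [min_eq_right h1] at hp
  obtain ⟨s, e, -, he, rfl⟩ := U.lab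
  rw [TM_sm w1 s L 0 he]
  refine le_trans (le_of_forall_pos_le_add fun δ hδ => ?_)
    (mul_le_mul_of_nonneg_left hp (by linarith))
  have h2 : 0 < min 1 (δ / cS) := lt_min one_pos (by positivity)
  have h3 := par1_m rL hM he (N := 4) (by norm_num) (by simpa using hr) hi ha
    (σ := tm L i + min 1 (δ / cS)) (by linarith) (by linarith)
  refine h3.trans ((PB_le (by linarith) (by linarith [min_le_left 1 (δ / cS)])).trans ?_)
  have h5 : cS * min 1 (δ / cS) ≤ δ :=
    (mul_le_mul_of_nonneg_left (min_le_right _ _) (by linarith)).trans_eq (by field_simp)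
  linarith [mul_add cS (tm L i) (min 1 (δ / cS))]

/-- two edges at different levels -/
theorem par4 (rL : R1 L) (hM : Mono 0 L) (hr : r ≤ 4) {σ : SM r} (U : Um L.length σ)
    {a b c d : Fin r} (h : σ a b < σ c d) {p : ℝ} (hp : min 1 (tm L (σ a b)) ≤ p) :
    |TM (fun _ => 1) L 0 σ fun x => spin (x a) * spin (x b) * (spin (x c) * spin (x d))| ≤
      cS * p := by
  have hK := U.le c d
  set k : Fin r → ℕ := fun e => (if a = e then 1 else 0) + (if b = e then 1 else 0) +
    ((if c = e then 1 else 0) + if d = e then 1 else 0) with hk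
  have e1 : (fun x : Fin r → Bool => spin (x a) * spin (x b) * (spin (x c) * spin (x d))) =
      mo k := by
    funext x
    simp only [mo, hk, pow_add, Finset.prod_mul_distrib, pow_ite, pow_one, pow_zero,
      Finset.prod_ite_eq, Finset.mem_univ, if_true]
  have e2 : ∀ o, bm σ k o (σ a b) = (if σ a b < σ o a then 1 else 0) +
      (if σ a b < σ o b then 1 else 0) + ((if σ a b < σ o c then 1 else 0) +
        if σ a b < σ o d then 1 else 0) := fun o => by
    have : ∀ (z : Fin r), ∑ e, (if σ a b < σ o e then (if z = e then 1 else 0) else 0) =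
        if σ a b < σ o z then 1 else 0 := fun z => by
      rw [Finset.sum_eq_single z (fun e _ he => by simp [he.symm]) (by simp)]
      simp
    simp only [bm, hk, ← this, ← Finset.sum_add_distrib]
    refine Finset.sum_congr rfl fun e _ => ?_
    split_ifs <;> rfl
  have u := U.ultra
  have m := U.comm
  rw [e1]
  by_cases hc : σ a b < σ a c
  · refine parM rL hM hr U (a := b) (by omega) ?_ hp
    have h1 := u a c b
    have h2 := u c d b
    have h3 := m c b
    have h4 := m d b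
    rw [e2, U.self, m b a, if_neg (lt_irrefl _), if_pos (by omega), if_neg (by omega),
      if_neg (by omega)]
    decide
  · refine parM rL hM hr U (a := a) (by omega) ?_ hp
    have h1 := u a d c
    have h2 := m d c
    rw [e2, U.self, if_pos (by omega), if_neg (lt_irrefl _), if_neg hc, if_neg (by omega)]
    decide

/-- `ε ε'` -/
def ss : Bool → Bool → ℝ := fun a b => spin a * spin b

/-- the marked pair -/
def F2 : (Fin 2 → Bool) → ℝ := fun x => spin (x 0) * spin (x 1)

theorem abs_ss (x y : Bool) : |ss x y| ≤ 1 := (OneP.abs_spin2 x y).le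

theorem abs_F2 (x : Fin 2 → Bool) : |F2 x| ≤ 1 := (OneP.abs_spin2 _ _).le

section par
variable (rL : R1 L) (hM : Mono 0 L) {j t : ℕ} (hjt : t ≠ j) {p : ℝ}
  (hp : min 1 (tm L (min j t)) ≤ p)
include rL hM hjt hp

theorem p0 : 0 ≤ cS * p :=
  mul_nonneg (zero_le_one.trans one_le_cS) ((le_min zero_le_one (tm0 rL _)).trans hp)

theorem ed_par (hr : r ≤ 4) {σ : SM r} (U : Um L.length σ) {a b : Fin r} (hab : σ a b = j)
    (c d : Fin r) :
    |TM (fun _ => 1) L 0 σ fun x => spin (x a) * spin (x b) * ed (lvl t ss) c d x σ| ≤ cS * p := by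
  by_cases h : σ c d = t
  · simp only [ed, lvl, h, if_true, ss]
    rcases lt_or_gt_of_ne hjt with e | e
    · have := par4 rL hM hr U (a := c) (b := d) (c := a) (d := b) (by omega) (p := p)
        (by rwa [h, ← min_eq_right e.le])
      refine le_of_eq_of_le (congrArg _ (congrArg _ (funext fun x => mul_comm _ _))) this
    · exact par4 rL hM hr U (by omega) (by rwa [hab, ← min_eq_left e.le])
  · simp only [ed, lvl, h, if_false, mul_zero, Ed50.TM_zero, abs_zero]
    exact p0 rL hM hjt hp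

theorem T3_par {σ : SM 4} (U : Um L.length σ) (h : σ 2 3 = j) :
    |T3 (fun _ => 1) L 0 (lvl t ss) F2 σ| ≤ cS * p := ed_par rL hM hjt hp le_rfl U h 0 1

theorem T2_par {σ : SM 3} (U : Um L.length σ) (h : σ 1 2 = j) :
    |T2 (fun _ => 1) L 0 (lvl t ss) F2 σ| ≤ 5 * (cS * p) := by
  have k := ed_par rL hM hjt hp (by norm_num) U h
  have e : T2 (fun _ => 1) L 0 (lvl t ss) F2 σ = TM (fun _ => 1) L 0 σ fun x =>
      spin (x 1) * spin (x 2) * ed (lvl t ss) 1 0 x σ +
      spin (x 1) * spin (x 2) * ed (lvl t ss) 0 1 x σ +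
      spin (x 1) * spin (x 2) * ed (lvl t ss) 2 0 x σ +
      spin (x 1) * spin (x 2) * ed (lvl t ss) 0 2 x σ +
      spin (x 1) * spin (x 2) * ed (lvl t ss) 0 0 x σ := by
    rw [T2]
    congr 1
    funext x
    rw [E2, Fin.sum_univ_two]
    show spin (x 1) * spin (x 2) * (ed (lvl t ss) 1 0 x σ + ed (lvl t ss) 0 1 x σ +
      (ed (lvl t ss) 2 0 x σ + ed (lvl t ss) 0 2 x σ) + ed (lvl t ss) 0 0 x σ) = _
    ring
  rw [e, TM_add, TM_add, TM_add, TM_add]
  have k1 := abs_le.1 (k 1 0)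
  have k2 := abs_le.1 (k 0 1)
  have k3 := abs_le.1 (k 2 0)
  have k4 := abs_le.1 (k 0 2)
  have k5 := abs_le.1 (k 0 0)
  exact abs_le.2 ⟨by linarith, by linarith⟩

theorem Nw_par (ht : t ≤ L.length) {σ : SM 2} (U : Um L.length σ) (h : σ 0 1 = j) :
    |Nw (fun _ => 1) L 0 t ss σ F2| ≤ 22 * (cS * p) := by
  have q := p0 rL hM hjt hp
  have a1 := abs_Pc U ht fun a => T2_par rL hM hjt hp (um_gr U a t) h
  have a2 := abs_Pc U ht (g := fun a => T4 (fun _ => 1) L 0 (lvl t ss) F2 (gr L.length σ a t))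
    fun a => abs_Ws hM (um_gr U a t) fun c k _ =>
      T3_par rL hM hjt hp (um_gr (um_gr U a t) c k) h
  have a3 := Ed50.abs_sum_le fun a => (abs_wsum (A := (range (L.length + 1)).erase t)
    (fun k hk => om_nonneg hM U a (mem_range_succ_iff.1 (mem_of_mem_erase hk)))
    (f := fun k => T5 (fun _ => 1) L 0 t ss F2 (gr L.length σ a k))
    fun k _ => abs_Pc (um_gr U a k) ht fun c =>
      T3_par rL hM hjt hp (um_gr (um_gr U a k) c t) h).trans
      (mul_le_of_le_one_left (by positivity) (sum_om_le hM U a (erase_subset _ _)))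
  rw [Nw]
  push_cast at *
  rw [abs_le] at a1 a2 a3 ⊢
  constructor <;> linarith

end par

/-- the labelling of a pair -/
def e2 (j : ℕ) : Fin 2 ≃ (Sh.two j).Lf :=
  Equiv.ofBijective ![Sh.twoL j, Sh.twoR j] (by
    refine (Fintype.bijective_iff_surjective_and_card _).2 ⟨fun c => ?_, ?_⟩
    · rcases Wt87.two_cases j c with rfl | rfl
      exacts [⟨0, rfl⟩, ⟨1, rfl⟩]
    · rw [Wt87.card_two]; simp)

/-- the split matrix of a pair -/
def s2 (K j : ℕ) : SM 2 := sm (Sh.two j) (e2 j) K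

theorem um_s2 (K j : ℕ) : Um K (s2 K j) := um_sm _ _ _

theorem s2_01 {K j : ℕ} (h : j ≤ K) : s2 K j 0 1 = j := (Wt87.shr_two j K).trans (min_eq_left h)

theorem s2_eq {K j : ℕ} (h : j ≤ K) (a b : Fin 2) : s2 K j a b = if a = b then K else j := by
  have U := um_s2 K j
  fin_cases a <;> fin_cases b
  · exact U.self _
  · exact s2_01 h
  · exact (U.comm _ _).trans (s2_01 h)
  · exact U.self _

/-- no `q` enters -/
theorem W_eq (D : CD) (j : ℕ) {t : ℕ} (ht : t ∈ D.up) :
    Ab83.W D j t = dM (fun _ => 1) D.S 0 (lvl t ss) (s2 D.S.length j) F2 := by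
  have l : D.S.length = D.K := opS_length
  have ht' := Finset.mem_Ioo.1 ht
  have e1 : lvl t (oE D.q t) = fun i x y =>
      1 * lvl t ss i x y + 1 * (fun i _ _ => if i = t then -D.q t else 0) i x y := by
    funext i x y
    simp only [lvl, oE, ss]
    split_ifs <;> ring
  have e2' : (fun x : (Sh.two j).Lf → Bool => oE D.q j (x (Sh.twoL j)) (x (Sh.twoR j))) =
      fun x => 1 * F2 (fun a => x (e2 j a)) + -D.q j * (fun _ => 1) x := by
    funext x
    show spin _ * spin _ - _ = 1 * (spin (x (Sh.twoL j)) * spin (x (Sh.twoR j))) + _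
    ring
  have I := isLin_TEf w1 D.S 0
  have z : Dop D.S (lvl t ss) (TEf (fun _ => 1) D.S 0) (Sh.two j) (fun _ => 1) = 0 := by
    rw [← dT_eq_Dop w1 _ _ _ (c := 0) fun y => if_neg (by omega)]
    exact Mul55.dT_const' w1 _ _ _ (funext fun x => funext fun y => if_neg (by omega)) 1
  rw [Ab83.W, twoF, e1, I.dopS, Ex23.Dop_lev w1 _ _ (if_neg (by omega)), e2', I.dop, z,
    Dop_lvl w1 (by omega) (e2 j)]
  simp [s2]

theorem st_site {D : CD} {τ0 : ℝ} (H : D.Ok τ0) {t : ℕ} (h1 : D.J < t) (h2 : t + 1 < D.K) :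
    St (fun _ => 1) D.S t ss ss 1 0 (D.dv (t + 1)) :=
  ⟨w1, Cw55.monoS H.mono, (opS_length (n := D.n) (β := D.β) (M := D.M) (q := D.q)).symm ▸ h2,
    abs_ss, abs_ss, fun _ _ => by simp,
    fun x y => Cw55.cv_S H.ook H.mono (t := t + 1) (by omega) h2.le x y⟩

theorem step_le {D : CD} {τ0 : ℝ} (H : D.Ok τ0) {t : ℕ} (h1 : D.J < t) (h2 : t + 1 < D.K) :
    4 * ((2 + 2 : ℕ) : ℝ) ^ 2 * (1 * (cst 2 1 0 (D.dv (t + 1)) +
      4 * 1 * (dm D.S 0 t + dm D.S 0 (t + 1)))) ≤ 2304 * D.dv (t + 1) := by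
  have := (Cw55.dv_dom H.ook H.mono (t := t + 1) (by omega) h2.le).2.2.2
  rw [Nat.add_sub_cancel, CD.dx, CD.dx, ← Cav22.dm_tilt tilt_opS, ← Cav22.dm_tilt tilt_opS] at this
  rw [cst]
  push_cast
  linarith

end Ab45

open Ab45 Ker15 Nu87 Ed50 One15 in
/-- **the site coefficient of `AbS`** -/
theorem sitS : Ab83.SitS := by
  have q1 := one_le_cS
  refine ⟨2304 * cS, by linarith, fun τ0 D H =>
    ⟨fun j t => Nw (fun _ => 1) D.S 0 t ss (s2 D.S.length j) F2, ?_⟩⟩
  have l : D.S.length = D.K := opS_length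
  have hM := Cw55.monoS H.mono
  have rL := Cw55.r1_S H.ook
  have no : ∀ j ∈ D.up, ∀ t, t < D.K → t ≠ j → No t (s2 D.S.length j) := fun j hj t h1 h2 a b => by
    have := Finset.mem_Ioo.1 hj
    rw [s2_eq (by omega)]
    split_ifs <;> omega
  have dv : ∀ t, t + 1 < D.K → 2304 * D.dv (t + 1) ≤ 2304 * cS * D.dv (t + 1) := fun t h => by
    nlinarith [Cw55.dv_nonneg H h.le]
  refine ⟨fun j hj t ht e => ?_, fun j hj t ht e => ?_, fun j hj t ht ht' e e' => ?_,
    fun j hj => ?_, fun j hj hj' => ?_⟩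
  · have := Finset.mem_Ioo.1 ht
    rw [W_eq D j ht, dM_no (no j hj t this.2 e) (by omega), Cav22.dm_tilt tilt_opS]
  · have h1 := Finset.mem_Ioo.1 ht
    have h2 := Finset.mem_Ioo.1 hj
    have hm : min j t ∈ D.up := Finset.mem_Ioo.2 (by omega)
    have hp : min 1 (tm D.S (min j t)) ≤ min 1 (D.e (min j t)) := by
      rw [Cw55.tm_S H.ook (by omega)]
      refine le_min (min_le_left _ _) (le_trans (min_le_min_left _ ?_) (H.esc _ hm))
      exact le_add_of_nonneg_left (Wf99.ex_nn H.mono _)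
    refine (Nw_par rL hM e hp (by omega) (um_s2 _ _) (s2_01 (by omega))).trans ?_
    nlinarith [p0 rL hM e hp]
  · have h1 := Finset.mem_Ioo.1 ht
    have h2 := Finset.mem_Ioo.1 ht'
    exact (((st_site H h1.1 h2.2).Nw_up abs_F2 (um_s2 _ _) (no j hj t h1.2 e)
      (no j hj _ h2.2 e')).trans (step_le H h1.1 h2.2)).trans (dv t h2.2)
  · rw [W_eq D j hj]
    refine (abs_dM w1 hM (um_s2 _ _) abs_ss abs_F2).trans ?_
    push_cast
    linarith
  · have h1 := Finset.mem_Ioo.1 hj
    have h2 := Finset.mem_Ioo.1 hj'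
    rw [W_eq D _ hj, W_eq D _ hj']
    refine (((st_site H h1.1 h2.2).dM_up abs_F2 (um_s2 _ _) (um_s2 _ _) fun a b => ?_).trans
      (step_le H h1.1 h2.2)).trans (dv j h2.2)
    rw [s2_eq (by omega), s2_eq (by omega)]
    split_ifs <;> omega

end Crest.Agent.T156.Cas.C40

end
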