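import Crest.Agent.T156.CAbS_45

/-!
# Row 156, block C (helper45): the words `[aU, b]` in the test direction, exact reduction
-/

set_option autoImplicit false
set_option linter.all false

noncomputable section

namespace Crest.Agent.T156.Cas.C40.Ab45

open Finset
open Crest.Agent.T157.E Crest.Agent.T157.Casc Crest.Agent.T157.SL
open Crest.ProbabilityR.SpinGlassDynamics (spin)
open Ed50 One15 Mul55

/-- a word applied to a function of two leaves only sees their splitting level -/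
theorem WdO_pair {Ω : Type} [Fintype Ω] {w : Ω → ℝ} (hw : Wt w) (L : List (Lv Ω)) (h : Ω → ℝ)
    {l : List (ℕ → Ω → Ω → ℝ)} (hl : ∀ S ∈ l, S 0 = 0 ∧ ∃ c, ∀ y, S L.length y y = c) {s : Sh}
    {a b : s.Lf} (hab : a ≠ b) (Q : Ω → Ω → ℝ) :
    WdO L l (TEf w L h) s (fun x => Q (x a) (x b)) =
      twoF (s.shr a b L.length) Q (WdO L l (TEf w L h)) := by
  have := pd_wordO hw h L (l := l) (Φ := fun Λ => Λ s (fun x => Q (x a) (x b)) +
    -1 * twoF (s.shr a b L.length) Q Λ) (fun R H Λ Λ' e => H.add (e _ _) (H.smul _ (e _ _)))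
    (fun M' e => by
      show TE w s M' h _ + -1 * tX w _ M' h _ = 0
      rw [TE_pair hw s M' h hab, Wt87.tX_two hw, Cav22.len_tilt e]
      ring) hl
  linarith

/-- the top level carries no weight -/
theorem Dop_top {Ω : Type} [Fintype Ω] {w : Ω → ℝ} (hw : Wt w) {L : List (Lv Ω)} (hM : Mono 0 L)
    (h0 : dm L 0 L.length = 0) (h : Ω → ℝ) {j : ℕ} (hj : j < L.length) {k : Ω → Ω → ℝ}
    {ξ : ((Sh.two j).Lf → Ω) → ℝ} {b c : ℝ} (hξ : ∀ x, |ξ x| ≤ b) (hk : ∀ x y, |k x y| ≤ c) :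
    Dop L (lvl L.length k) (TEf w L h) (Sh.two j) ξ = 0 := by
  obtain ⟨y, -⟩ := Finset.exists_ne_zero_of_sum_ne_zero hw.pos.ne'
  have b0 : 0 ≤ b := (abs_nonneg _).trans (hξ fun _ => y)
  have c0 : 0 ≤ c := (abs_nonneg _).trans (hk y y)
  rw [Dop_eq_sg, ← abs_nonpos_iff]
  obtain ⟨g, hg⟩ : ∃ g : ℕ → ℝ, ∀ i, g i = if i = L.length then b * c else 0 := ⟨_, fun _ => rfl⟩
  have h1 := Ker15.sg_lvl hM (Sh.two j) (g := g) fun i => by rw [hg]; positivity
  have h2 : Nv L g (Sh.two j) = 0 := by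
    rw [Nv, Tay38.prs_two, Wt87.shr_comm _ (Sh.twoR j), Wt87.shr_two, min_eq_left hj.le, hg,
      if_neg hj.ne]
    simp [h0, hg]
  rw [h2, mul_zero] at h1
  refine le_trans (abs_sg_le hM _ fun τ _ => ?_) h1
  refine One15.abs_TE_le hw τ.sh L h fun x => ?_
  rw [hg, GT.ev, lvl]
  split_ifs
  · exact Ed50.abs_mul_le (hξ _) (hk _ _)
  · simp

variable {D : CD} {τ0 : ℝ}

theorem ok_b (H : D.Ok τ0) (a : Lt) : (lt D.n D.β D.M D.q D.cl a).1 0 = 0 ∧
    ∃ v, ∀ y, (lt D.n D.β D.M D.q D.cl a).1 D.B.length y y = v :=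
  ⟨by simp [lt, cut, oUb_zero], 0, fun y => by
    rw [Cw55.lenB]
    simp only [lt, cut]
    split_ifs
    exacts [oUb_diag H.pos H.ook _ y, rfl]⟩

/-- a spin-free letter innermost -/
theorem wB_b (D : CD) (c : Bool) (s : Sh) (G : (s.Lf → Cube D.n) → ℝ) (ξ : (s.Lf → Bool) → ℝ) :
    wB (-1) D.B (oB D.n D.β D.M D.q []) [lt D.n D.β D.M D.q D.cl (c, false)] s G ξ =
      TE (fun _ => 1) s D.S 0 ξ *
        Dop D.B (lt D.n D.β D.M D.q D.cl (c, false)).1 (TEf (fun _ => 1) D.B 0) s G := by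
  rw [wB, Dop_eq_sg, ← sg_const_mul]
  refine sg_congr _ _ _ fun τ hτ => ?_
  rw [wB, oB, mul_comm, ← hτ.TE_e w1 D.S 0 ξ]
  congr 1
  show TE _ _ _ _ _ = _
  congr 1
  funext x
  exact mul_one _

/-- `aU` first, on a marked pair, the inner word only depending on the level -/
theorem sg_aU (H : D.Ok τ0) {j : ℕ} (hj : j ∈ D.up) (R : ℕ → ℝ) :
    sg (-1) D.B (Sh.two j) (fun τ => TE (fun _ => 1) τ.sh D.S 0
      (τ.ev (oE D.q) (pr2 j (oE D.q j))) * (Cw55.off D.J ∅ τ.j * R τ.j)) =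
      ∑ t ∈ D.up, Ab83.W D j t * R t := by
  have l : D.S.length = D.K := opS_length
  have hj' := mem_Ioo.1 hj
  have q2 : ∀ i ≤ D.K, ∀ x y, |oE D.q i x y| ≤ 2 := fun i hi x y => by
    have := H.ook.mem hi
    refine (abs_sub _ _).trans ?_
    rw [OneP.abs_spin2, abs_of_nonneg this.1]
    linarith [this.2]
  have z : Ab83.W D j D.K = 0 := by
    have := Dop_top w1 (Cw55.monoS H.mono) (by rw [Cav22.dm_tilt tilt_opS, l]; exact H.top) 0
      (j := j) (by omega) (k := oE D.q D.K) (ξ := pr2 j (oE D.q j))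
      (fun _ => q2 j (by omega) _ _) (q2 _ le_rfl)
    rw [l] at this
    exact this
  have e : ∑ t ∈ D.up, Ab83.W D j t * R t = ∑ t ∈ Ioc D.J D.K, R t * Ab83.W D j t := by
    rw [← sum_Ioo_add_eq_sum_Ioc H.cut, z, mul_zero, add_zero]
    exact sum_congr rfl fun t _ => mul_comm _ _
  rw [e]
  simp only [Ab83.W, twoF, Dop_eq_sg, sg_tilt _ tilt_opS, ← sg_const_mul]
  rw [← sg_sum]
  refine sg_congr _ _ _ fun τ hτ => ?_
  have h1 := hτ.le
  rw [Cw55.lenB] at h1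
  have k : ∀ t, TEf (fun _ => 1) D.S 0 τ.sh (τ.ev (lvl t (oE D.q t)) fun x =>
      oE D.q j (x (Sh.twoL j)) (x (Sh.twoR j))) = if τ.j = t then TE (fun _ => 1) τ.sh D.S 0
        (τ.ev (oE D.q) (pr2 j (oE D.q j))) else 0 := fun t => by
    split_ifs with h
    · subst h
      refine congrArg (TE _ _ _ _) (funext fun x => ?_)
      rw [GT.ev, GT.ev, lvl, if_pos rfl]
      rfl
    · refine (congrArg (TE _ _ _ _) (funext fun x => ?_)).trans (Law.TE_const w1 _ _ _ 0)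
      rw [GT.ev, lvl, if_neg h, mul_zero]
  simp only [k, mul_ite, mul_zero, sum_ite_eq, mem_Ioc, Cw55.off, notMem_empty, not_false_eq_true,
    and_true, h1]
  split_ifs <;> ring

end Ab45

open Ab45 Mul55 One15 in
/-- **the words `[aU, b]`, test direction** -/
theorem tw_red {D : CD} {τ0 : ℝ} (c : Bool) (H : D.Ok τ0) (hW : D.W.isSome = true) :
    D.tw [aU, (c, false)] = ∑ j ∈ D.up, D.om j * ∑ t ∈ D.up, Ab83.W D j t * (D.τ t / 2 *
      twoF t (oU D.q t) (Dop D.B (lt D.n D.β D.M D.q D.cl (c, false)).1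
        (TEf (fun _ => 1) D.B 0))) := by
  obtain ⟨ω, hω⟩ := Option.isSome_iff_exists.1 hW
  simp only [CD.tw, CD.dd, hω]
  refine Finset.sum_congr rfl fun j hj => congrArg _ ?_
  rw [← sg_aU H hj, List.map_cons, wB, List.map_singleton]
  refine sg_congr _ _ _ fun τ hτ => ?_
  rw [wB_b, Cw55.lt_aU]
  congr 1
  have e := WdO_pair wt_one90 D.B 0 (l := [(lt D.n D.β D.M D.q D.cl (c, false)).1])
    (fun S hS => List.mem_singleton.1 hS ▸ ok_b H _) hτ.ne (oU D.q τ.j)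
  rw [hτ.shr, WdO_cons, WdO_nil] at e
  have e2 : τ.ev (Cw55.phU D (Cw55.off D.J ∅)).1 (fun _ => 1) = fun x =>
      Cw55.off D.J ∅ τ.j * (D.τ τ.j / 2) * oU D.q τ.j (x τ.p) (x τ.q) +
        0 * oU D.q τ.j (x τ.p) (x τ.q) := by
    funext x
    simp only [GT.ev, Cw55.phU, oUb]
    ring
  rw [e2, (isLin_TEf wt_one90 D.B 0).dop, e]
  ring

end Crest.Agent.T156.Cas.C40

end
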