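import Crest.Agent.T156.CStUb_4
import Crest.Agent.T156.CAbT_45
import Crest.Agent.T156.CAbS_45

/-!
# Row 156, block C: the word `[aU, bU]` in the test direction (helper4)
-/

set_option autoImplicit false
set_option linter.all false

noncomputable section

namespace Crest.Agent.T156.Cas.Ub4

open Finset
open Crest.Agent.T157.E Crest.Agent.T157.Casc Crest.Agent.T157.SL
open Nu87 Q75 Wt87 Tay38 Mul55 C40

variable {D : CD} {τ0 : ℝ} {μ F f c : ℕ → ℝ} {B : ℝ} {r : ℕ}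

theorem nb0 (H : D.Ok τ0) (x : ℕ) : 0 ≤ nb D x := by
  obtain ⟨-, -, a2, a3, -⟩ := H.Cub_parts x
  have := H.e0 x; have := D.v0 x x; have := H.dx0 x; have := D.g0 x; have := H.tl0
  unfold nb
  positivity

/-- the crude part with one more envelope is an unmarked error -/
theorem I_nb (H : D.Ok τ0) : D.I (fun x => min 1 (D.e x) * nb D x) ≤ 321 * D.E0 := by
  have h1 : D.I (fun t => D.e t ^ 2 * D.v t t) ≤ D.E0 := by
    obtain ⟨a, -, b⟩ := H.Lad0_parts
    have := H.Lad0_le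
    rw [CD.Lad0] at this
    linarith
  have h2 : D.I (fun x => D.g x * D.lw (fun t => D.e t * D.g t ^ 2) x) =
      D.I fun y => D.e y * (D.g y ^ 2 * D.hi D.g y) := by
    simp only [CD.I, CD.lw, CD.hi, mul_sum]
    rw [sum_comm' (t' := D.up) (s' := fun y => Ioo y D.K) fun x y => by
      simp only [mem_Ioo]; omega]
    exact sum_congr rfl fun _ _ => sum_congr rfl fun _ _ => by ring
  have h3 := H.T3_le
  simp only [CD.T3, mul_add, D.I_add] at h3
  have h4 := H.I_le (a := fun _ => D.tl) H.tl0 fun _ _ => le_rfl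
  refine (H.I_mono (b := fun x => 96 * (D.e x ^ 2 * D.v x x) + 22 * D.dx x +
    11 * (D.e x * (D.g x * D.hi (fun t => D.g t ^ 2) x)) +
    11 * (D.g x * D.lw (fun t => D.e t * D.g t ^ 2) x) + 192 * D.tl) fun x _ => ?_).trans ?_
  · obtain ⟨-, -, a2, a3, -⟩ := H.Cub_parts x
    have m1 := min_le_left 1 (D.e x)
    have m2 := min_le_right 1 (D.e x)
    have b1 := mul_le_mul_of_nonneg_right m2 (mul_nonneg (H.e0 x) (D.v0 x x))
    have b2 := mul_le_mul_of_nonneg_right m1 (H.dx0 x)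
    have b3 := mul_le_mul_of_nonneg_right m2 (mul_nonneg (D.g0 x) a2)
    have b4 := mul_le_mul_of_nonneg_right m1 (mul_nonneg (D.g0 x) a3)
    have b5 := mul_le_mul_of_nonneg_right m1 H.tl0
    rw [nb]
    linarith
  · rw [D.I_add, D.I_add, D.I_add, D.I_add, D.I_mul, D.I_mul, D.I_mul, D.I_mul, D.I_mul, h2]
    linarith [H.dx_le, H.tl_le]

section site
variable {C : ℝ} {κ : ℕ → ℕ → ℝ}

theorem dv_diag (hC : 0 ≤ C) (S : Ab83.Sit D C κ) :
    Cw55.DV D.dv D.J D.K C 0 fun j => Ab83.W D j j := by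
  refine ⟨hC, fun t a b => S.bd' t (CD.mem_up.2 ⟨a, b⟩), ∅, le_rfl, fun t a b _ => ?_⟩
  obtain ⟨u, rfl⟩ : ∃ u, t = u + 1 := ⟨t - 1, by omega⟩
  exact S.lip' u (CD.mem_up.2 ⟨by omega, by omega⟩) (CD.mem_up.2 ⟨by omega, b⟩)

theorem dv_offd (hC : 0 ≤ C) (S : Ab83.Sit D C κ) {j : ℕ} (hj : j ∈ D.up) :
    Cw55.DV D.dv D.J D.K C 2 fun t => if t = j then 0 else κ j t := by
  refine ⟨hC, fun t a b => ?_, {j, j + 1}, card_le_two, fun t a b e => ?_⟩
  · split_ifs with h
    · rwa [abs_zero]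
    · exact (S.bd j hj t (CD.mem_up.2 ⟨a, b⟩) h).trans (mul_le_of_le_one_right hC (min_le_left _ _))
  · obtain ⟨u, rfl⟩ : ∃ u, t = u + 1 := ⟨t - 1, by omega⟩
    simp only [mem_insert, mem_singleton, not_or] at e
    rw [if_neg e.1, Nat.add_sub_cancel, if_neg (by omega)]
    exact S.lip j hj u (CD.mem_up.2 ⟨by omega, by omega⟩) (CD.mem_up.2 ⟨by omega, b⟩) (by omega) e.1

/-- the edge at the marked node -/
theorem diag_bd (H : D.Ok τ0) (hW : D.W.isSome = true) (hC : 0 ≤ C) (S : Ab83.Sit D C κ) :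
    |∑ j ∈ D.up, Ab83.W D j j * D.τ j * D.om j * Rb D j| ≤
      401 * (2 * (C * (τ0 + 1))) * τ0 * D.Err := by
  have hc := (dv_diag hC S).mul (Cw55.dv_tau H le_rfl)
  have B0 := mul_nonneg hc.nn H.tau0
  have h1 : ∑ x ∈ D.up, |Ab83.W D x x * D.τ x * D.om x| * nb D x ≤
      2 * (C * (τ0 + 1)) * D.Iw (nb D) := by
    rw [CD.Iw, mul_sum]
    refine sum_le_sum fun x hx => ?_
    rw [abs_mul, ← mul_assoc]
    exact mul_le_mul_of_nonneg_right (mul_le_mul_of_nonneg_right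
      (hc.bd x (CD.mem_up.1 hx).1 (CD.mem_up.1 hx).2) (abs_nonneg _)) (nb0 H x)
  have h2 := mul_le_mul_of_nonneg_left h1 H.tau0
  have h3 := mul_le_mul_of_nonneg_left (Iw_nb H hW) B0
  have h4 := mul_le_mul_of_nonneg_left ((H.u4F_Z.trans H.Z_le).trans (H.E1_le hW)) B0
  have h5 := mul_nonneg B0 H.Err0
  have h6 := sum_Rb H (pb_sq H H.wk1) hc
  rw [D.I_mul] at h6
  push_cast at h6
  linarith

/-- the edge at another node -/
theorem offd_bd (H : D.Ok τ0) (hC : 0 ≤ C) (S : Ab83.Sit D C κ) {j : ℕ} (hj : j ∈ D.up) :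
    |∑ t ∈ D.up, (if t = j then 0 else κ j t) * D.τ t * D.dx t * Rb D t| ≤
      561 * (2 * (C * (τ0 + 1))) * τ0 * D.E0 := by
  have hc := (dv_offd hC S hj).mul (Cw55.dv_tau H le_rfl)
  have B0 := mul_nonneg hc.nn H.tau0
  have t0 := H.tau0
  have h1 : ∑ x ∈ D.up, |(if x = j then 0 else κ j x) * D.τ x * D.dx x| * nb D x ≤
      2 * (C * (τ0 + 1)) * D.I fun x => min 1 (D.e x) * nb D x := by
    rw [CD.I, mul_sum]
    refine sum_le_sum fun x hx => ?_
    have m0 : 0 ≤ min 1 (D.e x) := le_min zero_le_one (H.e0 x)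
    have a1 : |if x = j then 0 else κ j x| ≤ C * min 1 (D.e x) := by
      split_ifs with h
      · rw [abs_zero]; positivity
      · exact (S.bd j hj x hx h).trans (mul_le_mul_of_nonneg_left
          (min_le_min le_rfl (H.e_mono (min_le_right _ _))) hC)
    have a2 := mul_le_mul a1 (show D.τ x ≤ 2 * (τ0 + 1) by linarith [(H.tau_mem x).2])
      (H.tau_mem x).1 (by positivity)
    rw [abs_mul, abs_mul, abs_of_nonneg (H.dx0 x), abs_of_nonneg (H.tau_mem x).1, mul_assoc]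
    exact (mul_le_mul_of_nonneg_right a2 (mul_nonneg (H.dx0 x) (nb0 H x))).trans_eq (by ring)
  have h2 := mul_le_mul_of_nonneg_left h1 H.tau0
  have h3 := mul_le_mul_of_nonneg_left (I_nb H) B0
  have h4 := mul_le_mul_of_nonneg_left H.uF_le B0
  have h5 := mul_le_mul_of_nonneg_left ((H.I_le (a := fun _ => ((D.K : ℝ) + 1) * D.tl)
    (mul_nonneg (by positivity) H.tl0) fun _ _ => le_rfl).trans H.K1tl_le) B0
  have h6 := sum_Rb H (pb_env H H.wk0) hc
  rw [D.I_mul, D.I_add] at h6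
  push_cast at h6
  linarith

end site

end Crest.Agent.T156.Cas.Ub4

namespace Crest.Agent.T156.Cas.C40

open Finset Ub4

/-- **the word `[aU, bU]`, test direction** -/
theorem abU_true : Bd true fun D => D.tw [aU, bU] := Bd.mk' fun τ0 => by
  obtain ⟨C, hC, hS⟩ := sitS
  refine ⟨481 * (2 * (C * (τ0 + 1))) * τ0, fun D H hW => ?_⟩
  obtain ⟨κ, S⟩ := hS τ0 D H
  have e : D.tw [aU, bU] = (∑ j ∈ D.up, Ab83.W D j j * D.τ j * D.om j * Rb D j +
      ∑ j ∈ D.up, D.om j *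
        ∑ t ∈ D.up, (if t = j then 0 else κ j t) * D.τ t * D.dx t * Rb D t) / 2 := by
    rw [tw_red false H hW, lt_bU, ← sum_add_distrib, sum_div]
    refine sum_congr rfl fun j hj => ?_
    rw [← add_sum_erase _ _ hj, ← add_sum_erase _ _ hj, if_pos rfl, zero_mul, zero_mul, zero_mul,
      zero_add, add_div, mul_add, mul_div_assoc (D.om j), sum_div]
    congr 1
    · rw [Rb]; ring
    · congr 1
      refine sum_congr rfl fun t ht => ?_
      rw [if_neg (ne_of_mem_erase ht), S.eq j hj t (mem_of_mem_erase ht) (ne_of_mem_erase ht), Rb]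
      ring
  have h1 := diag_bd H hW hC S
  have h2 := D.abs_sum_om fun j hj => offd_bd H hC S hj
  rw [D.Iw_const, ← CD.wt_test hW] at h2
  have h3 := mul_le_mul_of_nonneg_left H.wtE0_le
    (show 0 ≤ 2 * (C * (τ0 + 1)) * τ0 by have := H.tau0; positivity)
  rw [e, abs_div, abs_two]
  linarith [abs_add_le (∑ j ∈ D.up, Ab83.W D j j * D.τ j * D.om j * Rb D j) (∑ j ∈ D.up, D.om j *
    ∑ t ∈ D.up, (if t = j then 0 else κ j t) * D.τ t * D.dx t * Rb D t)]

end Crest.Agent.T156.Cas.C40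

end
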