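import Crest.Agent.T156.CAbR_83
import Crest.Agent.T156.CAbL_45
import Crest.Agent.T156.CAbU_4
import Crest.Agent.T156.CAbF_22

/-!
# Row 156, block C (helper45): the leaf `AbS`
-/

set_option autoImplicit false
set_option linter.all false

noncomputable section

namespace Crest.Agent.T156.Cas.C40.Ab45

open Crest.Agent.T157.E Crest.Agent.T157.Casc Crest.Agent.T157.SL

variable {D : CD}

theorem pE_l1 {φ : (NI D.B → ℝ) → Cube D.n → ℝ} (hφ : ∀ x, Eg fun g => φ g x) {F : ℝ} (hF : 0 ≤ F)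
    (h : pE (fun _ => 1) D.B 0 (fun g x => φ g x ^ 2) ≤ F ^ 2) :
    pE (fun _ => 1) D.B 0 (fun g x => |φ g x|) ≤ F := le_of_forall_pos_le_add fun ε hε => by
  have p : 0 < F + ε := by linarith
  have e : ∀ x, Eg fun g => 1 / (2 * (F + ε)) * φ g x ^ 2 := fun x => by
    simpa only [sq] using ((hφ x).mul (hφ x)).const_mul (1 / (2 * (F + ε)))
  refine (Eg33.pE_mono' wt_one90 D.B 0 (fun x => (hφ x).abs)
    (fun x => (Eg.const ((F + ε) / 2)).add (e x)) fun g x => ?_).trans ?_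
  · rw [← sq_abs, ← sub_nonneg, show (F + ε) / 2 + 1 / (2 * (F + ε)) * |φ g x| ^ 2 - |φ g x| =
      (F + ε - |φ g x|) ^ 2 / (2 * (F + ε)) by field_simp; ring]
    positivity
  · rw [Eg33.pE_add' wt_one90 D.B 0 (fun _ => Eg.const _) e, Pe.pE_const_mul,
      show pE (fun _ => 1) D.B 0 (fun _ _ => (F + ε) / 2) = (F + ε) / 2 by
        simpa using Pe.pE_node1 wt_one90 (Eg.const ((F + ε) / 2)) D.B 0 0]
    have h1 : 1 / (2 * (F + ε)) * (F + ε) ^ 2 = (F + ε) / 2 := by field_simp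
    have h2 := mul_le_mul_of_nonneg_left (h.trans (pow_le_pow_left₀ hF (by linarith : F ≤ F + ε) 2))
      (by positivity : 0 ≤ 1 / (2 * (F + ε)))
    linarith

theorem wk2_L1 {μ F f : ℕ → ℝ} (h : D.Wk2 μ F f) (j : ℕ) (hj : D.J < j) :
    pE (fun _ => 1) D.B 0 (fun p _ => |∑ t ∈ Finset.Ico j D.K, μ t * D.nd t p|) ≤ F j ∧
    pE (fun _ => 1) D.B 0 (fun p x => |∑ t ∈ Finset.Ico j D.K, μ t * D.lf t p x|) ≤ F j := by
  rw [← Cw55.tail_eq D hj]
  exact ⟨pE_l1 (φ := fun p _ => ∑ t ∈ D.tail j, μ t * D.nd t p) (fun _ => Eg.sum _ fun t _ =>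
      (Pe.eg_st D.B 0 t (Cw55.eg_Yn D t)).const_mul (μ t)) (h.nn j).1 (h.sqN j),
    pE_l1 (φ := fun p x => ∑ t ∈ D.tail j, μ t * D.lf t p x) (fun x => Eg.sum _ fun t _ =>
      (Pe.eg_st D.B 0 t (Cw55.eg_Yl D t x)).const_mul (μ t)) (h.nn j).1 (h.sqL j)⟩

theorem tl : TL := fun τ0 => by
  obtain ⟨C, hC, h⟩ := Ab83.tailL
  refine ⟨C * |τ0|, by positivity, fun D H _ => ?_⟩
  obtain ⟨On, h1, h2⟩ := h τ0 D H
  have t0 := H.tau0
  have l0 := H.tl0
  have w0 := D.wt0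
  rw [abs_of_nonneg t0]
  exact ⟨On, h1, fun i a _ => (h2 _ _ H.wg0.F_anti (wk2_L1 H.wg0) i a).trans
      (mul_le_mul_of_nonneg_left (le_add_of_nonneg_right l0) (by positivity)),
    fun i a _ => (h2 _ _ H.wk1.F_anti (wk2_L1 H.wk1) i a).trans
      (mul_le_mul_of_nonneg_left (le_add_of_nonneg_right (by positivity)) (by positivity))⟩

/-- **the leaf `AbS`** -/
theorem abS : ∀ b, AbS b
  | false => abS_false
  | true => ⟨abU_true, abL_of tl⟩

end Crest.Agent.T156.Cas.C40.Ab45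

end
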