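import Crest.Agent.T156.NuB_87
import Crest.Agent.T156.Clu_22

/-!
# Row 156 (helper31): two edges through one node

Tower property at a cluster (`TE_up`), and: if `c, d, e, f` all pass through one node of depth `j`
and both pairs `(c, d)`, `(e, f)` split there, the product of the two kernels has expectation
`node j (U-mean * U'-mean)` up to the conditional variances `Vr`.
-/

set_option autoImplicit false
set_option linter.unusedSectionVars false

noncomputable section

namespace Crest.Agent.T156.Cas.Cond31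

open MeasureTheory Real Set Filter Topology
open Crest.Agent.T157.E Crest.Agent.T157.Casc Crest.Agent.T157.SL
open Wt87 Law Nu87

variable {Ω : Type} [Fintype Ω] {w : Ω → ℝ}

theorem TE_one_node (hw : Wt w) (F : (Sh.one.Lf → Ω) → ℝ) : ∀ (j : ℕ) (L : List (Lv Ω))
    (h : Ω → ℝ), TE w .one L h F = node w L j (fun z => TE w .one (L.drop j) z F) h
  | 0, _, _ => by rw [node_zero]; rfl
  | _ + 1, [], _ => rfl
  | j + 1, l :: L, h => (TE_one_cons hw l L h F).trans
      (congrArg (fun Φ => tE l (X w L) Φ h) (funext fun z => TE_one_node hw F j L z))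

/-- **tower at a cluster**: a function of the leaves through one node of depth `j` -/
theorem TE_up (hw : Wt w) : ∀ (s : Sh) (j : ℕ) (L : List (Lv Ω)) (h : Ω → ℝ) (α : (s.cut j).Lf)
    (F : ((s.up j α).Lf → Ω) → ℝ), TE w s L h (fun x => F fun b => x (s.inj j α b)) =
      node w L j (fun z => TE w (s.up j α) (L.drop j) z F) h
  | .one, j, L, h, _, F => TE_one_node hw F j L h
  | .step _, 0, _, _, _, _ => by rw [node_zero]; rfl
  | .step s, j + 1, [], h, α, F => by
      refine (TE_step_nil w s h _).trans ((TE_up hw s j [] h α F).trans ?_)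
      rw [node_nil, List.drop_nil]
      rfl
  | .step s, j + 1, l :: L, h, α, F => (TE_step hw s l L h _).trans
      (congrArg (fun Φ => tE l (X w L) Φ h) (funext fun z => TE_up hw s j L z α F))
  | .split _ _, 0, _, _, _, _ => by rw [node_zero]; rfl
  | .split s t, j + 1, L, h, .inl α, F => by
      refine (TE_split hw s t L h _).trans (Eq.trans ?_ (TE_up hw s (j + 1) L h α F))
      exact congrArg (TE w s L h) (funext fun x =>
        TE_const hw t L h (F fun b => x (s.inj (j + 1) α b)))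
  | .split s t, j + 1, L, h, .inr α, F => by
      refine (TE_split hw s t L h _).trans (Eq.trans ?_ (TE_const hw s L h _))
      exact congrArg (TE w s L h) (funext fun _ => TE_up hw t (j + 1) L h α F)

/-- covariance against variances, with a free scale -/
theorem abs_cov_le (hw : Wt w) (s : Sh) (L : List (Lv Ω)) (h : Ω → ℝ) (F G : (s.Lf → Ω) → ℝ)
    {t : ℝ} (ht : 0 < t) :
    |TE w s L h (fun x => F x * G x) - TE w s L h F * TE w s L h G| ≤
      (t * (TE w s L h (fun x => F x ^ 2) - TE w s L h F ^ 2) +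
        t⁻¹ * (TE w s L h (fun x => G x ^ 2) - TE w s L h G ^ 2)) / 2 := by
  set a := TE w s L h F with ha
  set b := TE w s L h G with hb
  have e1 : TE w s L h (fun x => (F x - a) * (G x - b)) = TE w s L h (fun x => F x * G x) - a * b := by
    rw [show (fun x => (F x - a) * (G x - b)) = fun x => F x * G x - b * F x - a * G x + a * b from
      funext fun x => by ring, TE_add hw, TE_sub hw, TE_sub hw, TE_const_mul hw, TE_const_mul hw,
      TE_const hw]
    ring
  have e2 : TE w s L h (fun x => (t * (F x - a) ^ 2 + t⁻¹ * (G x - b) ^ 2) / 2) =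
      (t * (TE w s L h (fun x => F x ^ 2) - a ^ 2) +
        t⁻¹ * (TE w s L h (fun x => G x ^ 2) - b ^ 2)) / 2 := by
    rw [show (fun x => (t * (F x - a) ^ 2 + t⁻¹ * (G x - b) ^ 2) / 2) = fun x =>
      t / 2 * F x ^ 2 - t * a * F x + (t⁻¹ / 2 * G x ^ 2 - t⁻¹ * b * G x) +
        (t * a ^ 2 + t⁻¹ * b ^ 2) / 2 from funext fun x => by ring, TE_add hw, TE_add hw,
      TE_sub hw, TE_sub hw, TE_const_mul hw, TE_const_mul hw, TE_const_mul hw, TE_const_mul hw,
      TE_const hw]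
    ring
  rw [← e1, ← e2]
  refine (abs_TE_le hw s L h _).trans (TE_mono hw s L h fun x => ?_)
  rw [abs_mul, ← sq_abs (F x - a), ← sq_abs (G x - b)]
  have h1 : t * t⁻¹ = 1 := mul_inv_cancel₀ ht.ne'
  have h2 := mul_nonneg (inv_pos.2 ht).le (sq_nonneg (t * |F x - a| - |G x - b|))
  have h3 : t⁻¹ * (t * |F x - a| - |G x - b|) ^ 2 = (t * t⁻¹) * (t * |F x - a| ^ 2) -
    2 * (t * t⁻¹) * (|F x - a| * |G x - b|) + t⁻¹ * |G x - b| ^ 2 := by ring
  rw [h1] at h3
  linarith

/-- mean of the kernel over two replicas split at the node with state `z` -/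
def rt (w : Ω → ℝ) (L : List (Lv Ω)) (j : ℕ) (U : Ω → Ω → ℝ) (z : Ω → ℝ) : ℝ :=
  qf (P w (L.drop j) z) U

/-- the conditional variance of a kernel, given the node of depth `j` -/
def Vr (w : Ω → ℝ) (L : List (Lv Ω)) (h : Ω → ℝ) (j : ℕ) (U : Ω → Ω → ℝ) : ℝ :=
  pi2 w L j (fun x y => U x y ^ 2) h - node w L j (fun z => rt w L j U z ^ 2) h

theorem eg_rt (hw : Wt w) (L : List (Lv Ω)) (j : ℕ) (U : Ω → Ω → ℝ) : Eg (rt w L j U) :=
  eg_qf hw _ U

theorem eg_rt_sq (hw : Wt w) (L : List (Lv Ω)) (j : ℕ) (U : Ω → Ω → ℝ) :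
    Eg fun z => rt w L j U z ^ 2 := by
  simpa only [sq] using (eg_rt hw L j U).mul (eg_rt hw L j U)

theorem Vr_eq (hw : Wt w) (L : List (Lv Ω)) (h : Ω → ℝ) (j : ℕ) (U : Ω → Ω → ℝ) :
    Vr w L h j U = node w L j (fun z => rt w L j (fun x y => U x y ^ 2) z - rt w L j U z ^ 2) h := by
  rw [node_sub hw (eg_rt hw L j _) (eg_rt_sq hw L j U)]
  rfl

theorem abs_node_sub_le (hw : Wt w) {Φ Ψ V : (Ω → ℝ) → ℝ} (h1 : Eg Φ) (h2 : Eg Ψ) (h3 : Eg V)
    (e : ∀ z, |Φ z - Ψ z| ≤ V z) (L : List (Lv Ω)) (j : ℕ) (h : Ω → ℝ) :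
    |node w L j Φ h - node w L j Ψ h| ≤ node w L j V h := by
  have a1 := node_mono hw (h1.sub h2) h3 (fun z => (le_abs_self _).trans (e z)) L j h
  have a2 := node_mono hw (h2.sub h1) h3 (fun z => (le_abs_self _).trans
    ((abs_sub_comm _ _).trans_le (e z))) L j h
  rw [node_sub hw h1 h2] at a1
  rw [node_sub hw h2 h1] at a2
  exact abs_sub_le_iff.2 ⟨a1, a2⟩

/-- **two edges through one node**, tree form -/
theorem TE_two_edges (hw : Wt w) (s : Sh) (L : List (Lv Ω)) (h : Ω → ℝ) {j : ℕ}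
    {c d e f : s.Lf} (hcd : c ≠ d) (hef : e ≠ f) (h1 : s.shr c d L.length = j)
    (h2 : s.shr e f L.length = j) (h3 : j ≤ s.shr c e L.length) (U U' : Ω → Ω → ℝ) {t : ℝ}
    (ht : 0 < t) :
    |TE w s L h (fun x => U (x c) (x d) * U' (x e) (x f)) -
        node w L j (fun z => rt w L j U z * rt w L j U' z) h| ≤
      (t * Vr w L h j U + t⁻¹ * Vr w L h j U') / 2 := by
  have hj : j ≤ L.length := h1 ▸ shr_le s c d _
  have cl : ∀ a b : s.Lf, j ≤ s.shr a b L.length → s.cl j a = s.cl j b := fun a b hab => by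
    have := shr_min s a b j L.length
    rw [min_eq_left hj, min_eq_left hab] at this
    exact (Clu22.cl_eq_iff s j a b).2 this
  have hd := cl c d h1.ge
  have he := cl c e h3
  have hf := he.trans (cl e f h2.ge)
  have ex : ∀ a, s.cl j c = s.cl j a → ∃ b, s.inj j (s.cl j c) b = a := fun a ha => by
    rw [ha]
    exact Clu22.exists_inj s j a
  obtain ⟨c', hc'⟩ := ex c rfl
  obtain ⟨d', hd'⟩ := ex d hd
  obtain ⟨e', he'⟩ := ex e he
  obtain ⟨f', hf'⟩ := ex f hf
  have pr : ∀ (a b : (s.up j (s.cl j c)).Lf), s.inj j _ a ≠ s.inj j _ b →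
      s.shr (s.inj j _ a) (s.inj j _ b) L.length = j → ∀ (K : Ω → Ω → ℝ) (z : Ω → ℝ),
      TE w (s.up j (s.cl j c)) (L.drop j) z (fun x => K (x a) (x b)) = rt w L j K z :=
    fun a b hab hs K z => by
      have := Clu22.shr_inj s j _ a b (L.length - j)
      rw [Nat.sub_add_cancel hj, hs] at this
      rw [TE_pair hw _ _ z (fun e => hab (congrArg _ e)) K, List.length_drop,
        show (s.up j (s.cl j c)).shr a b (L.length - j) = 0 by omega, pi2_zero]
      rfl
  have p1 := pr c' d' (by rw [hc', hd']; exact hcd) (by rw [hc', hd']; exact h1)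
  have p2 := pr e' f' (by rw [he', hf']; exact hef) (by rw [he', hf']; exact h2)
  have tw := TE_up hw s j L h (s.cl j c) fun x => U (x c') (x d') * U' (x e') (x f')
  simp only [hc', hd', he', hf'] at tw
  have v1 := (eg_rt hw L j fun x y => U x y ^ 2).sub (eg_rt_sq hw L j U)
  have v2 := (eg_rt hw L j fun x y => U' x y ^ 2).sub (eg_rt_sq hw L j U')
  have key := abs_node_sub_le hw (eg_TE hw (s.up j (s.cl j c)) (L.drop j)
      fun x => U (x c') (x d') * U' (x e') (x f')) ((eg_rt hw L j U).mul (eg_rt hw L j U'))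
    ((v1.const_mul (t / 2)).add (v2.const_mul (t⁻¹ / 2))) (fun z => by
      have := abs_cov_le hw (s.up j (s.cl j c)) (L.drop j) z (fun x => U (x c') (x d'))
        (fun x => U' (x e') (x f')) ht
      rw [p1 U, p2 U', p1 fun x y => U x y ^ 2, p2 fun x y => U' x y ^ 2] at this
      exact this.trans_eq (by ring)) L j h
  rw [node_add hw (v1.const_mul _) (v2.const_mul _), node_const_mul, node_const_mul] at key
  rw [tw, Vr_eq hw, Vr_eq hw]
  exact key.trans_eq (by ring)

theorem Vr_nonneg (hw : Wt w) (L : List (Lv Ω)) (h : Ω → ℝ) (j : ℕ) (U : Ω → Ω → ℝ) :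
    0 ≤ Vr w L h j U := by
  rw [Vr_eq hw]
  refine node_nonneg w (fun z => ?_) L j h
  have hne : Sh.twoL 0 ≠ Sh.twoR 0 := Sum.inl_ne_inr
  have := (abs_nonneg _).trans (abs_cov_le hw (Sh.two 0) (L.drop j) z
    (fun x => U (x (Sh.twoL 0)) (x (Sh.twoR 0))) (fun _ => 0) one_pos)
  rw [TE_pair hw _ _ z hne U, TE_pair hw _ _ z hne fun x y => U x y ^ 2, TE_const hw,
    TE_const hw, shr_two, Nat.zero_min] at this
  have e : ∀ K, pi2 w (L.drop j) 0 K z = rt w L j K z := fun _ => by rw [pi2_zero]; rfl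
  rw [e, e] at this
  linarith

theorem node_rt_sq_nonneg (L : List (Lv Ω)) (h : Ω → ℝ) (j : ℕ) (U : Ω → Ω → ℝ) :
    0 ≤ node w L j (fun z => rt w L j U z ^ 2) h := node_nonneg w (fun _ => sq_nonneg _) L j h

theorem node_rt_sq_le (hw : Wt w) (L : List (Lv Ω)) (h : Ω → ℝ) (j : ℕ) (U : Ω → Ω → ℝ) :
    node w L j (fun z => rt w L j U z ^ 2) h ≤ pi2 w L j (fun x y => U x y ^ 2) h :=
  sub_nonneg.1 (Vr_nonneg hw L h j U)

theorem Vr_le (L : List (Lv Ω)) (h : Ω → ℝ) (j : ℕ) (U : Ω → Ω → ℝ) :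
    Vr w L h j U ≤ pi2 w L j (fun x y => U x y ^ 2) h := sub_le_self _ (node_rt_sq_nonneg L h j U)

/-- same kernel: `|B - E rt²| ≤ V` -/
theorem TE_two_edges' (hw : Wt w) (s : Sh) (L : List (Lv Ω)) (h : Ω → ℝ) {j : ℕ}
    {c d e f : s.Lf} (hcd : c ≠ d) (hef : e ≠ f) (h1 : s.shr c d L.length = j)
    (h2 : s.shr e f L.length = j) (h3 : j ≤ s.shr c e L.length) (U : Ω → Ω → ℝ) :
    |TE w s L h (fun x => U (x c) (x d) * U (x e) (x f)) -
        node w L j (fun z => rt w L j U z ^ 2) h| ≤ Vr w L h j U := by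
  have := TE_two_edges hw s L h hcd hef h1 h2 h3 U U one_pos
  simp only [← sq] at this
  exact this.trans_eq (by ring)

variable {r : ℕ} {L : List (Lv Ω)} {h : Ω → ℝ} {σ : SM r}

/-- **two edges through one node**, split-matrix form -/
theorem TM_two_edges (hw : Wt w) (hσ : Rz L.length σ) {j : ℕ} {c d e f : Fin r} (hcd : c ≠ d)
    (hef : e ≠ f) (h1 : σ c d = j) (h2 : σ e f = j) (h3 : j ≤ σ c e) (U U' : Ω → Ω → ℝ) {t : ℝ}
    (ht : 0 < t) :
    |TM w L h σ (fun x => U (x c) (x d) * U' (x e) (x f)) -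
        node w L j (fun z => rt w L j U z * rt w L j U' z) h| ≤
      (t * Vr w L h j U + t⁻¹ * Vr w L h j U') / 2 := by
  obtain ⟨s, e', rfl⟩ := hσ
  rw [TM_sm hw s L h e'.injective]
  exact TE_two_edges hw s L h (fun e => hcd (e'.injective e)) (fun e => hef (e'.injective e))
    h1 h2 h3 U U' ht

theorem TM_two_edges' (hw : Wt w) (hσ : Rz L.length σ) {j : ℕ} {c d e f : Fin r} (hcd : c ≠ d)
    (hef : e ≠ f) (h1 : σ c d = j) (h2 : σ e f = j) (h3 : j ≤ σ c e) (U : Ω → Ω → ℝ) :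
    |TM w L h σ (fun x => U (x c) (x d) * U (x e) (x f)) -
        node w L j (fun z => rt w L j U z ^ 2) h| ≤ Vr w L h j U := by
  obtain ⟨s, e', rfl⟩ := hσ
  rw [TM_sm hw s L h e'.injective]
  exact TE_two_edges' hw s L h (fun e => hcd (e'.injective e)) (fun e => hef (e'.injective e))
    h1 h2 h3 U

/-- crude bound, any position of the two edges -/
theorem abs_TM_edges (hw : Wt w) (hσ : Rz L.length σ) {c d e f : Fin r} (hcd : c ≠ d)
    (hef : e ≠ f) (U U' : Ω → Ω → ℝ) :
    |TM w L h σ (fun x => U (x c) (x d) * U' (x e) (x f))| ≤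
      (pi2 w L (σ c d) (fun x y => U x y ^ 2) h + pi2 w L (σ e f) (fun x y => U' x y ^ 2) h) / 2 := by
  rw [← TM_pair hw hσ hcd, ← TM_pair hw hσ hef, ← TM_add, div_eq_inv_mul, ← TM_mul]
  refine abs_le.2 ⟨?_, TM_mono hw hσ fun x => ?_⟩
  · rw [← neg_one_mul, ← TM_mul]
    exact TM_mono hw hσ fun x => by nlinarith [sq_nonneg (U (x c) (x d) + U' (x e) (x f))]
  · nlinarith [sq_nonneg (U (x c) (x d) - U' (x e) (x f))]

/-- both edges at level `j`, anywhere: `|B - E rt²| ≤ 2 pi2 j U²` -/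
theorem TM_two_edges_crude (hw : Wt w) (hσ : Rz L.length σ) {j : ℕ} {c d e f : Fin r}
    (hcd : c ≠ d) (hef : e ≠ f) (h1 : σ c d = j) (h2 : σ e f = j) (U : Ω → Ω → ℝ) :
    |TM w L h σ (fun x => U (x c) (x d) * U (x e) (x f)) -
        node w L j (fun z => rt w L j U z ^ 2) h| ≤ 2 * pi2 w L j (fun x y => U x y ^ 2) h := by
  have a1 := abs_TM_edges (h := h) hw hσ hcd hef U U
  rw [h1, h2] at a1
  have a2 := node_rt_sq_nonneg (w := w) L h j U
  have a3 := node_rt_sq_le hw L h j U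
  rw [abs_le] at a1 ⊢
  constructor <;> linarith [a1.1, a1.2]

end Crest.Agent.T156.Cas.Cond31

end
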