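import Crest.Agent.T156.Nu_87
import Crest.Agent.T156.CaTay_38

/-!
# Row 156: the exchangeable replica law (helper87)

`nu w L h r F` is the expectation of a function of `r + 1` replicas and of their split matrix.
It is positive, consistent, exchangeable, and its derivative along a path of covariances is
`nu (F · D)` in Ghirlanda–Guerra form (`hasDerivAt_nu`, `taylor_nu`).
-/

set_option autoImplicit false
set_option linter.unusedSectionVars false

noncomputable section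

namespace Crest.Agent.T156.Cas

open MeasureTheory Real Set Filter Topology
open Crest.Agent.T157.E Crest.Agent.T157.Casc Crest.Agent.T157.SL
open Wt87 Law Nu87

variable {Ω : Type} [Fintype Ω] {w : Ω → ℝ} {r : ℕ}

open Classical in
/-- the law of the leaves given the split matrix -/
def TM (w : Ω → ℝ) (L : List (Lv Ω)) (h : Ω → ℝ) (σ : SM r) (F : (Fin r → Ω) → ℝ) : ℝ :=
  ∑ y : Fin r → Ω, F y * Iso87.Q w (fun a z => if z = y a then 1 else 0) L σ Finset.univ h

/-- functions of `r` replicas and of their split matrix -/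
abbrev RF (Ω : Type) (r : ℕ) : Type := (Fin r → Ω) → SM r → ℝ

/-- **the replica law** of `r + 1` replicas -/
def nu (w : Ω → ℝ) (L : List (Lv Ω)) (h : Ω → ℝ) (r : ℕ) (F : RF Ω (r + 1)) : ℝ :=
  avm L r fun σ => TM w L h σ fun x => F x σ

/-- a function of the replicas `ι a` -/
def RF.re {r' : ℕ} (F : RF Ω r) (ι : Fin r → Fin r') : RF Ω r' :=
  fun x σ => F (fun a => x (ι a)) fun a b => σ (ι a) (ι b)

/-- the kernel `S` on the pair `(a, b)` -/
def ed (S : ℕ → Ω → Ω → ℝ) (a b : Fin r) : RF Ω r := fun x σ => S (σ a b) (x a) (x b)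

namespace Nu87

theorem TM_sm (hw : Wt w) (s : Sh) (L : List (Lv Ω)) (h : Ω → ℝ) {e : Fin r → s.Lf}
    (he : Function.Injective e) (F : (Fin r → Ω) → ℝ) :
    TM w L h (sm s e L.length) F = TE w s L h fun x => F fun a => x (e a) := by
  classical
  exact (TE_eq_Q hw s L h he F).symm

theorem TM_add (L : List (Lv Ω)) (h : Ω → ℝ) (σ : SM r) (F G : (Fin r → Ω) → ℝ) :
    TM w L h σ (fun x => F x + G x) = TM w L h σ F + TM w L h σ G := by
  simp only [TM, add_mul, Finset.sum_add_distrib]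

theorem TM_sub (L : List (Lv Ω)) (h : Ω → ℝ) (σ : SM r) (F G : (Fin r → Ω) → ℝ) :
    TM w L h σ (fun x => F x - G x) = TM w L h σ F - TM w L h σ G := by
  simp only [TM, sub_mul, Finset.sum_sub_distrib]

theorem TM_mul (L : List (Lv Ω)) (h : Ω → ℝ) (σ : SM r) (c : ℝ) (F : (Fin r → Ω) → ℝ) :
    TM w L h σ (fun x => c * F x) = c * TM w L h σ F := by
  simp only [TM, mul_assoc, Finset.mul_sum]

theorem TM_sum (L : List (Lv Ω)) (h : Ω → ℝ) (σ : SM r) {α : Type*} (A : Finset α)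
    (F : α → (Fin r → Ω) → ℝ) : TM w L h σ (fun x => ∑ i ∈ A, F i x) = ∑ i ∈ A, TM w L h σ (F i) := by
  simp only [TM, Finset.sum_mul]
  exact Finset.sum_comm

variable {L : List (Lv Ω)} {h : Ω → ℝ} {σ : SM r}

theorem TM_mono (hw : Wt w) (hσ : Rz L.length σ) {F G : (Fin r → Ω) → ℝ} (e : ∀ x, F x ≤ G x) :
    TM w L h σ F ≤ TM w L h σ G := by
  obtain ⟨s, e', rfl⟩ := hσ
  rw [TM_sm hw s L h e'.injective, TM_sm hw s L h e'.injective]
  exact TE_mono hw s L h fun _ => e _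

theorem TM_const (hw : Wt w) (hσ : Rz L.length σ) (c : ℝ) : TM w L h σ (fun _ => c) = c := by
  obtain ⟨s, e', rfl⟩ := hσ
  rw [TM_sm hw s L h e'.injective, TE_const hw]

theorem TM_inj (hw : Wt w) (hσ : Rz L.length σ) {r' : ℕ} {ι : Fin r' → Fin r}
    (hι : Function.Injective ι) (F : (Fin r' → Ω) → ℝ) :
    TM w L h σ (fun x => F fun a => x (ι a)) = TM w L h (fun a b => σ (ι a) (ι b)) F := by
  obtain ⟨s, e', rfl⟩ := hσ
  rw [TM_sm hw s L h e'.injective]
  exact (TM_sm hw s L h (e'.injective.comp hι) F).symm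

theorem TM_pair (hw : Wt w) (hσ : Rz L.length σ) {a b : Fin r} (hab : a ≠ b) (K : Ω → Ω → ℝ) :
    TM w L h σ (fun x => K (x a) (x b)) = pi2 w L (σ a b) K h := by
  obtain ⟨s, e', rfl⟩ := hσ
  rw [TM_sm hw s L h e'.injective]
  exact TE_pair hw s L h (fun e => hab (e'.injective e)) K

theorem TM_single (hw : Wt w) (hσ : Rz L.length σ) (a : Fin r) (f : Ω → ℝ) :
    TM w L h σ (fun x => f (x a)) = Pf w L h f := by
  obtain ⟨s, e', rfl⟩ := hσ
  rw [TM_sm hw s L h e'.injective]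
  exact TE_single hw s L h _ f

/-- products of one-replica functions: the explicit recursion on clusters -/
theorem TM_prod (hw : Wt w) (hσ : Rz L.length σ) (f : Fin r → Ω → ℝ) :
    TM w L h σ (fun x => ∏ a, f a (x a)) = Iso87.Q w f L σ Finset.univ h := by
  obtain ⟨s, e', rfl⟩ := hσ
  rw [TM_sm hw s L h e'.injective]
  exact Iso87.tq hw f L s e' Finset.univ (fun _ _ _ _ e => e'.injective e) h

theorem TM_prd {Ω₁ Ω₂ : Type} [Fintype Ω₁] [Fintype Ω₂] {w₁ : Ω₁ → ℝ} {w₂ : Ω₂ → ℝ} (h₁ : Wt w₁)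
    (h₂ : Wt w₂) {L : List (Lv (Ω₁ × Ω₂))} {T : List (Lv Ω₁ × Lv Ω₂)} (H : List.Forall₂ Prd L T)
    (hσ : Rz L.length σ) (G₁ : (Fin r → Ω₁) → ℝ) (G₂ : (Fin r → Ω₂) → ℝ) (z₁ : Ω₁ → ℝ)
    (z₂ : Ω₂ → ℝ) :
    TM (pw2 w₁ w₂) L (ad z₁ z₂) σ (fun x => G₁ (fun a => (x a).1) * G₂ fun a => (x a).2) =
      TM w₁ (T.map Prod.fst) z₁ σ G₁ * TM w₂ (T.map Prod.snd) z₂ σ G₂ := by
  obtain ⟨s, e', rfl⟩ := hσ
  have e1 := TM_sm h₁ s (T.map Prod.fst) z₁ e'.injective G₁
  have e2 := TM_sm h₂ s (T.map Prod.snd) z₂ e'.injective G₂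
  rw [List.length_map, ← H.length_eq] at e1 e2
  rw [TM_sm (wt_pw2 h₁ h₂) s L _ e'.injective, e1, e2]
  exact TE_prd h₁ h₂ s H (fun x => G₁ fun a => x (e' a)) (fun x => G₂ fun a => x (e' a)) z₁ z₂

theorem TM_sameC (hw : Wt w) {L' : List (Lv Ω)}
    (H : List.Forall₂ (fun l l' => ∃ c, SameC c l l') L L') (hσ : Rz L.length σ)
    (F : (Fin r → Ω) → ℝ) : TM w L h σ F = TM w L' h σ F := by
  obtain ⟨s, e', rfl⟩ := hσ
  have e1 := TM_sm hw s L' h e'.injective F
  rw [← H.length_eq] at e1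
  rw [TM_sm hw s L h e'.injective, e1, TE_sameC hw s H]

/-- the derivative given the split matrix -/
def dM (w : Ω → ℝ) (L : List (Lv Ω)) (h : Ω → ℝ) (S : ℕ → Ω → Ω → ℝ) (σ : SM r)
    (F : (Fin r → Ω) → ℝ) : ℝ :=
  TM w L h σ (fun x => F x * ∑ a, ∑ b, ed S a b x σ) -
    Ws L σ (fun a j => TM w L h (gr L.length σ a j) fun x => F (fun c => x c.succ) *
      (∑ b : Fin r, (ed S b.succ 0 x (gr L.length σ a j) + ed S 0 b.succ x (gr L.length σ a j)) +
        ed S 0 0 x (gr L.length σ a j))) +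
    Ws L σ fun a j => Ws L (gr L.length σ a j) fun c k =>
      TM w L h (gr L.length (gr L.length σ a j) c k) fun x => F (fun b => x b.succ.succ) *
        ed S 0 1 x (gr L.length (gr L.length σ a j) c k)

theorem Gn_eq (hw : Wt w) {s : Sh} (e : Fin r ≃ s.Lf) (G : RF Ω (r + 1)) :
    Ws L (sm s e L.length) (fun a j => TM w L h (gr L.length (sm s e L.length) a j) fun x =>
        G x (gr L.length (sm s e L.length) a j)) =
      Gn w s L h fun a j x => G (fun c => x (grE e a j c)) (sm (s.graft a j) (grE e a j) L.length) := by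
  have nc : NC s fun a j => TM w L h (gr L.length (sm s e L.length) (e.symm a) j) fun x =>
      G x (gr L.length (sm s e L.length) (e.symm a) j) := fun a b j hj => by
    have h2 := shr_min s a b j L.length
    have h3 := shr_min s a b L.length j
    have h1 : Rz L.length (sm s e L.length) := ⟨s, e, rfl⟩
    beta_reduce
    rcases le_total j L.length with hK | hK
    · rw [h1.gr_eq (a := e.symm a) (b := e.symm b) (j := j) (by
        simp only [sm, Equiv.apply_symm_apply]; rw [min_eq_left hK, hj] at h2; omega)]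
    · have : ∀ c, min j (sm s e L.length c (e.symm a)) = min j (sm s e L.length c (e.symm b)) :=
        fun c => by
          simp only [sm, Equiv.apply_symm_apply]
          rw [shr_congr s (a := a) (b := b) (j := L.length) (by
            rw [min_eq_left hK, hj] at h3; omega)]
      simp only [gr, this]
  have := Ws_sm L e nc
  simp only [Equiv.symm_apply_apply] at this
  rw [this, Gn]
  congr 1
  funext a j
  obtain ⟨a, rfl⟩ := e.surjective a
  rw [Equiv.symm_apply_apply, ← sm_gr, TM_sm hw _ L h (grE e (e a) j).injective]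

theorem dT_eq_dM (hw : Wt w) {s : Sh} (e : Fin r ≃ s.Lf) (S : ℕ → Ω → Ω → ℝ)
    (F : (Fin r → Ω) → ℝ) :
    dT w s L h S (fun x => F fun a => x (e a)) = dM w L h S (sm s e L.length) F := by
  rw [dT_seq hw, dM, TM_sm hw s L h e.injective,
    Gn_eq hw e fun x σ => F (fun c => x c.succ) *
      (∑ b : Fin r, (ed S b.succ 0 x σ + ed S 0 b.succ x σ) + ed S 0 0 x σ)]
  congr 1
  · congr 1
    · congr 1
      funext x
      rw [← e.sum_comp]
      simp only [← e.sum_comp]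
      rfl
    · congr 1
      funext a j x
      rw [← e.sum_comp]
      rfl
  · have h1 : Rz L.length (sm s e L.length) := ⟨s, e, rfl⟩
    rw [Ws_eq_Wn L e (h1.ncm fun σ' => Ws L σ' fun c k => TM w L h (gr L.length σ' c k) fun x =>
      F (fun b => x b.succ.succ) * ed S 0 1 x (gr L.length σ' c k))]
    refine Wn_congr s L fun a j hj => ?_
    obtain ⟨a, rfl⟩ := e.surjective a
    rw [Equiv.symm_apply_apply, min_eq_left hj, ← sm_gr,
      Gn_eq hw (grE e (e a) j) fun x σ => F (fun b => x b.succ.succ) * ed S 0 1 x σ]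
    rfl

theorem hasDerivAt_TM (hw : Wt w) {I : Set ℝ} (hI : IsOpen I) {L : List (TL Ω)}
    (hL : ∀ l ∈ L, l.C1 I) {u : ℝ} (hu : u ∈ I) (hσ : Rz L.length σ) (h : Ω → ℝ)
    (F : (Fin r → Ω) → ℝ) :
    HasDerivAt (fun t => TM w (atL L t) h σ F) (dM w (atL L u) h (Sacc L u) σ F) u := by
  obtain ⟨s, e, rfl⟩ := hσ
  have e1 : ∀ t, TM w (atL L t) h (sm s e L.length) F = _ := fun t => by
    rw [← Sp38.len_at L t, TM_sm hw s _ h e.injective]
  simp only [e1]
  rw [← Sp38.len_at L u, ← dT_eq_dM hw]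
  exact hasDerivAt_tX_t hw hI hL hu s h _

theorem continuousOn_TM (hw : Wt w) {I : Set ℝ} {L : List (TL Ω)} (hL : ∀ l ∈ L, l.OkC I)
    (hσ : Rz L.length σ) (h : Ω → ℝ) (F : (Fin r → Ω) → ℝ) :
    ContinuousOn (fun t => TM w (atL L t) h σ F) I := by
  obtain ⟨s, e, rfl⟩ := hσ
  have e1 : ∀ t, TM w (atL L t) h (sm s e L.length) F = _ := fun t => by
    rw [← Sp38.len_at L t, TM_sm hw s _ h e.injective]
  simp only [e1]
  exact Sp38.continuousOn_tX hw hL s h _

end Nu87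

variable {L : List (Lv Ω)} {h : Ω → ℝ}

theorem nu_congr {F G : RF Ω (r + 1)} (e : ∀ x σ, Rz L.length σ → F x σ = G x σ) :
    nu w L h r F = nu w L h r G := avm_congr L r fun σ hσ => by simp only [fun x => e x σ hσ]

theorem nu_add (F G : RF Ω (r + 1)) :
    nu w L h r (fun x σ => F x σ + G x σ) = nu w L h r F + nu w L h r G := by
  simp only [nu, TM_add, avm_add]

theorem nu_sub (F G : RF Ω (r + 1)) :
    nu w L h r (fun x σ => F x σ - G x σ) = nu w L h r F - nu w L h r G := by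
  simp only [nu, TM_sub, avm_sub]

theorem nu_mul (c : ℝ) (F : RF Ω (r + 1)) :
    nu w L h r (fun x σ => c * F x σ) = c * nu w L h r F := by
  simp only [nu, TM_mul, avm_mul]

theorem nu_sum {α : Type*} (A : Finset α) (F : α → RF Ω (r + 1)) :
    nu w L h r (fun x σ => ∑ i ∈ A, F i x σ) = ∑ i ∈ A, nu w L h r (F i) := by
  simp only [nu, TM_sum, avm_sum]

theorem nu_const (hw : Wt w) (c : ℝ) : nu w L h r (fun _ _ => c) = c :=
  (avm_congr L r fun _ hσ => TM_const hw hσ c).trans (avm_const L c r)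

theorem nu_mono (hw : Wt w) (hL : Mono 0 L) {F G : RF Ω (r + 1)}
    (e : ∀ x σ, Rz L.length σ → F x σ ≤ G x σ) : nu w L h r F ≤ nu w L h r G :=
  avm_mono hL r fun σ hσ => TM_mono hw hσ fun x => e x σ hσ

theorem abs_nu_le (hw : Wt w) (hL : Mono 0 L) {F G : RF Ω (r + 1)}
    (e : ∀ x σ, Rz L.length σ → |F x σ| ≤ G x σ) : |nu w L h r F| ≤ nu w L h r G := by
  have h1 := nu_mono (h := h) hw hL fun x σ hσ => (abs_le.1 (e x σ hσ)).2
  have h2 := nu_mono (h := h) hw hL (F := fun x σ => -1 * G x σ) (G := F) fun x σ hσ => by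
    linarith [(abs_le.1 (e x σ hσ)).1]
  rw [nu_mul] at h2
  rw [abs_le]
  constructor <;> linarith

/-- functions of the split matrix -/
theorem nu_mat (hw : Wt w) (φ : SM (r + 1) → ℝ) : nu w L h r (fun _ σ => φ σ) = avm L r φ :=
  avm_congr L r fun _ hσ => TM_const hw hσ _

/-- **consistency and exchangeability** -/
theorem nu_re (hw : Wt w) {r' : ℕ} (F : RF Ω (r + 1)) {ι : Fin (r + 1) → Fin (r' + 1)}
    (hι : Function.Injective ι) : nu w L h r' (F.re ι) = nu w L h r F :=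
  (avm_congr L r' fun σ hσ => TM_inj hw hσ hι fun x => F x fun a b => σ (ι a) (ι b)).trans
    (avm_inj L r (fun σ => TM w L h σ fun x => F x σ) r' ι hι)

theorem nu_zero (hw : Wt w) (F : RF Ω 1) :
    nu w L h 0 F = Pf w L h fun y => F (fun _ => y) fun _ _ => L.length := by
  refine Eq.trans ?_ (TM_single hw (rz_one _) 0 fun y => F (fun _ => y) fun _ _ => L.length)
  refine congrArg (TM w L h _) (funext fun x => congrArg (F · _) (funext fun a => ?_))
  rw [Fin.fin_one_eq_zero a]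

theorem nu_single (hw : Wt w) (a : Fin (r + 1)) (f : Ω → ℝ) :
    nu w L h r (fun x _ => f (x a)) = Pf w L h f :=
  (avm_congr L r fun _ hσ => TM_single hw hσ a f).trans (avm_const L _ r)

/-- any pair -/
theorem nu_ed (hw : Wt w) (S : ℕ → Ω → Ω → ℝ) {a b : Fin (r + 1)} (hab : a ≠ b) :
    nu w L h r (ed S a b) = ∑ j ∈ Finset.range (L.length + 1), dm L 0 j * pi2 w L j (S j) h :=
  (avm_congr L r fun σ hσ => TM_pair hw hσ hab (S (σ a b))).trans
    (avm_pair L (fun j => pi2 w L j (S j) h) r hab)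

theorem nu_succ (G : RF Ω (r + 2)) : avm L r (fun σ => Ws L σ fun a j =>
    TM w L h (gr L.length σ a j) fun x => G x (gr L.length σ a j)) = (r + 1) * nu w L h (r + 1) G :=
  avm_succ L r fun σ => TM w L h σ fun x => G x σ

/-- product systems -/
theorem nu_prd {Ω₁ Ω₂ : Type} [Fintype Ω₁] [Fintype Ω₂] {w₁ : Ω₁ → ℝ} {w₂ : Ω₂ → ℝ} (h₁ : Wt w₁)
    (h₂ : Wt w₂) {L : List (Lv (Ω₁ × Ω₂))} {T : List (Lv Ω₁ × Lv Ω₂)} (H : List.Forall₂ Prd L T)
    (G₁ : RF Ω₁ (r + 1)) (G₂ : RF Ω₂ (r + 1)) (z₁ : Ω₁ → ℝ) (z₂ : Ω₂ → ℝ) :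
    nu (pw2 w₁ w₂) L (ad z₁ z₂) r (fun x σ => G₁ (fun a => (x a).1) σ * G₂ (fun a => (x a).2) σ) =
      avm L r fun σ => TM w₁ (T.map Prod.fst) z₁ σ (G₁ · σ) * TM w₂ (T.map Prod.snd) z₂ σ (G₂ · σ) :=
  avm_congr L r fun σ hσ => TM_prd h₁ h₂ H hσ (G₁ · σ) (G₂ · σ) z₁ z₂

/-- the derivative of the replica law: `ν (F D)`, written on `r + 1`, `r + 2`, `r + 3` replicas -/
def dnu (w : Ω → ℝ) (L : List (Lv Ω)) (h : Ω → ℝ) (S : ℕ → Ω → Ω → ℝ) (r : ℕ)
    (F : RF Ω (r + 1)) : ℝ :=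
  nu w L h r (fun x σ => F x σ * ∑ a, ∑ b, ed S a b x σ) -
    (r + 1) * nu w L h (r + 1) (fun x σ => F.re Fin.succ x σ *
      (∑ b : Fin (r + 1), (ed S b.succ 0 x σ + ed S 0 b.succ x σ) + ed S 0 0 x σ)) +
    (r + 1) * ((r + 2) * nu w L h (r + 2) fun x σ =>
      F.re (fun b => b.succ.succ) x σ * ed S 0 1 x σ)

theorem avm_dM (S : ℕ → Ω → Ω → ℝ) (F : RF Ω (r + 1)) :
    avm L r (fun σ => dM w L h S σ fun x => F x σ) = dnu w L h S r F := by
  simp only [dM, avm_add, avm_sub, dnu]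
  congr 1
  · congr 1
    exact nu_succ fun x σ => F.re Fin.succ x σ *
      (∑ b : Fin (r + 1), (ed S b.succ 0 x σ + ed S 0 b.succ x σ) + ed S 0 0 x σ)
  · have h1 := nu_succ (w := w) (L := L) (h := h) (r := r + 1) fun x σ =>
      F.re (fun b => b.succ.succ) x σ * ed S 0 1 x σ
    push_cast at h1
    rw [show (r : ℝ) + 2 = r + 1 + 1 by ring, ← h1, ← avm_succ]
    rfl

theorem avm_at (L : List (TL Ω)) (t u : ℝ) (φ : SM (r + 1) → ℝ) :
    avm (atL L t) r φ = avm (atL L u) r φ :=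
  avm_tilt ((Sp38.len_at L t).trans (Sp38.len_at L u).symm) (Sp38.ex_at t u L) r φ

/-- **(G): the smart path for the replica law** -/
theorem hasDerivAt_nu (hw : Wt w) {I : Set ℝ} (hI : IsOpen I) {L : List (TL Ω)}
    (hL : ∀ l ∈ L, l.C1 I) {u : ℝ} (hu : u ∈ I) (h : Ω → ℝ) (r : ℕ) (F : RF Ω (r + 1)) :
    HasDerivAt (fun t => nu w (atL L t) h r F) (dnu w (atL L u) h (Sacc L u) r F) u := by
  rw [← avm_dM, show (fun t => nu w (atL L t) h r F) = _ from funext fun t => avm_at L t u _]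
  exact hasDerivAt_avm _ r fun σ hσ => hasDerivAt_TM hw hI hL hu (Sp38.len_at L u ▸ hσ) h _

theorem continuousOn_nu (hw : Wt w) {I : Set ℝ} {L : List (TL Ω)} (hL : ∀ l ∈ L, l.OkC I)
    (h : Ω → ℝ) (r : ℕ) (F : RF Ω (r + 1)) : ContinuousOn (fun t => nu w (atL L t) h r F) I := by
  rw [show (fun t => nu w (atL L t) h r F) = _ from funext fun t => avm_at L t 0 _]
  exact continuousOn_avm _ r fun σ hσ => continuousOn_TM hw hL (Sp38.len_at L 0 ▸ hσ) h _

/-- `F · D` as one function of `r + 3` replicas (the old ones are `2, 3, …`), off-diagonal form -/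
def Dr (S : ℕ → Ω → Ω → ℝ) (F : RF Ω (r + 1)) : RF Ω (r + 3) := fun x σ =>
  F.re (fun b => b.succ.succ) x σ *
    (∑ a : Fin (r + 1), ∑ b ∈ Finset.univ.erase a, ed S a.succ.succ b.succ.succ x σ -
      (r + 1) * ∑ b : Fin (r + 1), (ed S b.succ.succ 1 x σ + ed S 1 b.succ.succ x σ) +
      (r + 1) * (r + 2) * ed S 0 1 x σ)

theorem dnu_eq (hw : Wt w) {S : ℕ → Ω → Ω → ℝ} {c : ℝ} (hc : ∀ y, S L.length y y = c)
    (F : RF Ω (r + 1)) : dnu w L h S r F = nu w L h (r + 2) (Dr S F) := by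
  have i2 : Function.Injective fun b : Fin (r + 1) => b.succ.succ :=
    (Fin.succ_injective _).comp (Fin.succ_injective _)
  have e1 := nu_re (L := L) (h := h) hw (fun x σ => F x σ * ∑ a, ∑ b ∈ Finset.univ.erase a, ed S a b x σ) i2
  have e2 := nu_re (L := L) (h := h) hw (fun x σ => F.re Fin.succ x σ *
    ∑ b : Fin (r + 1), (ed S b.succ 0 x σ + ed S 0 b.succ x σ)) (Fin.succ_injective (r + 2))
  have e3 := nu_re (L := L) (h := h) hw F (Fin.succ_injective (r + 1))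
  have e4 : nu w L h r (fun x σ => F x σ * ∑ a, ∑ b, ed S a b x σ) =
      nu w L h r (fun x σ => F x σ * ∑ a, ∑ b ∈ Finset.univ.erase a, ed S a b x σ) +
        (r + 1) * c * nu w L h r F := by
    rw [← nu_mul, ← nu_add]
    refine nu_congr fun x σ hσ => ?_
    simp only [fun a => (Finset.add_sum_erase _ (fun b => ed S a b x σ) (Finset.mem_univ a)).symm,
      Finset.sum_add_distrib]
    simp only [ed, hσ.self, hc, Finset.sum_const, Finset.card_univ, Fintype.card_fin, nsmul_eq_mul]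
    push_cast; ring
  have e5 : nu w L h (r + 1) (fun x σ => F.re Fin.succ x σ *
      (∑ b : Fin (r + 1), (ed S b.succ 0 x σ + ed S 0 b.succ x σ) + ed S 0 0 x σ)) =
      nu w L h (r + 1) (fun x σ => F.re Fin.succ x σ *
        ∑ b : Fin (r + 1), (ed S b.succ 0 x σ + ed S 0 b.succ x σ)) + c * nu w L h r F := by
    rw [← e3, ← nu_mul, ← nu_add]
    refine nu_congr fun x σ hσ => ?_
    simp only [ed, hσ.self, hc]
    ring
  rw [dnu, e4, e5, ← e1, ← e2, ← mul_assoc, show ∀ a b c d e : ℝ, a + b * c * d - b * (e + c * d) =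
    a - b * e from fun _ _ _ _ _ => by ring, ← nu_mul, ← nu_mul, ← nu_sub, ← nu_add]
  congr 1
  funext x σ
  exact (show ∀ f A B C p q : ℝ, f * A - p * (f * B) + q * (f * C) = f * (A - p * B + q * C) from
    fun _ _ _ _ _ _ => by ring) _ _ _ _ _ _

/-- iterated derivative -/
def Dn (S : ℕ → Ω → Ω → ℝ) (F : RF Ω (r + 1)) : (k : ℕ) → RF Ω (r + 2 * k + 1)
  | 0 => F
  | k + 1 => Dr (r := r + 2 * k) S (Dn S F k)

section path
variable {L : List (TL Ω)} {S : ℕ → Ω → Ω → ℝ} {c : ℝ}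

theorem hasDerivAt_nu' (hw : Wt w) {I : Set ℝ} (hI : IsOpen I) (hL : ∀ l ∈ L, l.C1 I) {u : ℝ}
    (hu : u ∈ I) (hS : Sacc L u = S) (hc : ∀ y, S L.length y y = c) (h : Ω → ℝ) (r : ℕ)
    (F : RF Ω (r + 1)) :
    HasDerivAt (fun t => nu w (atL L t) h r F) (nu w (atL L u) h (r + 2) (Dr S F)) u := by
  rw [← dnu_eq hw (c := c) (by rwa [Sp38.len_at]), ← hS]
  exact hasDerivAt_nu hw hI hL hu h r F

/-- **Taylor's formula for the replica law** -/
theorem taylor_nu (hw : Wt w) {a b : ℝ} (hab : a < b) (hC : ∀ l ∈ L, l.OkC (Icc a b))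
    (hL : ∀ l ∈ L, l.C1 (Ioo a b)) (hS : ∀ t ∈ Ioo a b, Sacc L t = S)
    (hc : ∀ y, S L.length y y = c) (h : Ω → ℝ) (k r : ℕ) (F : RF Ω (r + 1)) :
    ∃ θ ∈ Ioo a b, nu w (atL L b) h r F =
      ∑ i ∈ Finset.range (k + 1),
        nu w (atL L a) h (r + 2 * i) (Dn S F i) * (b - a) ^ i / i.factorial +
      nu w (atL L θ) h (r + 2 * (k + 1)) (Dn S F (k + 1)) * (b - a) ^ (k + 1) / (k + 1).factorial :=
  Tay38.taylor_seq hab (fun i t => nu w (atL L t) h (r + 2 * i) (Dn S F i)) k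
    (fun _ _ => continuousOn_nu hw hC h _ _)
    fun i _ t ht => hasDerivAt_nu' hw isOpen_Ioo hL ht (hS t ht) hc h (r + 2 * i) (Dn S F i)

end path

theorem abs_Dr_le {S : ℕ → Ω → Ω → ℝ} {κ : ℝ} {K : ℕ} (hS : ∀ j ≤ K, ∀ x y, |S j x y| ≤ κ)
    (F : RF Ω (r + 1)) (x : Fin (r + 3) → Ω) {σ : SM (r + 3)} (hσ : Rz K σ) :
    |Dr S F x σ| ≤ 4 * (r + 1) ^ 2 * κ * |F.re (fun b => b.succ.succ) x σ| := by
  have he : ∀ a b, |ed S a b x σ| ≤ κ := fun a b => hS _ (hσ.le a b) _ _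
  have h1 : |∑ a : Fin (r + 1), ∑ b ∈ Finset.univ.erase a, ed S a.succ.succ b.succ.succ x σ| ≤
      (r + 1) * (r * κ) := by
    refine (Finset.abs_sum_le_sum_abs _ _).trans ((Finset.sum_le_card_nsmul _ _ (r * κ)
      fun a _ => (Finset.abs_sum_le_sum_abs _ _).trans ((Finset.sum_le_card_nsmul _ _ κ
        fun b _ => he _ _).trans ?_)).trans ?_) <;> simp
  have h2 : |∑ b : Fin (r + 1), (ed S b.succ.succ 1 x σ + ed S 1 b.succ.succ x σ)| ≤
      (r + 1) * (κ + κ) := by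
    refine (Finset.abs_sum_le_sum_abs _ _).trans ((Finset.sum_le_card_nsmul _ _ (κ + κ)
      fun b _ => (abs_add_le _ _).trans (add_le_add (he _ _) (he _ _))).trans ?_)
    simp [mul_add]
  have h3 := he 0 1
  have hr : (0 : ℝ) ≤ r + 1 := by positivity
  rw [Dr, abs_mul, mul_comm]
  refine mul_le_mul_of_nonneg_right ((abs_add_le _ _).trans ((add_le_add (abs_sub _ _) le_rfl).trans
    ?_)) (abs_nonneg _)
  rw [abs_mul, abs_mul, abs_of_nonneg hr, abs_of_nonneg (by positivity : (0 : ℝ) ≤ (r + 1) * (r + 2))]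
  have h4 := mul_le_mul_of_nonneg_left h2 hr
  have h5 := mul_le_mul_of_nonneg_left h3 (by positivity : (0 : ℝ) ≤ (r + 1) * (r + 2))
  nlinarith

/-- **comparison along a path** -/
theorem nu_cmp (hw : Wt w) {L : List (TL Ω)} {a b κ : ℝ} (hab : a ≤ b)
    (hC : ∀ l ∈ L, l.OkC (Icc a b)) (hL : ∀ l ∈ L, l.C1 (Ioo a b)) (hM : ∀ t, Mono 0 (atL L t))
    (hc : ∀ t ∈ Ioo a b, ∃ c, ∀ y, Sacc L t L.length y y = c)
    (hS : ∀ t ∈ Ioo a b, ∀ j ≤ L.length, ∀ x y, |Sacc L t j x y| ≤ κ) (h : Ω → ℝ) (r : ℕ)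
    {F : RF Ω (r + 1)} (hF : ∀ x σ, 0 ≤ F x σ) :
    nu w (atL L b) h r F ≤ exp (4 * (r + 1) ^ 2 * κ * (b - a)) * nu w (atL L a) h r F ∧
    nu w (atL L a) h r F ≤ exp (4 * (r + 1) ^ 2 * κ * (b - a)) * nu w (atL L b) h r F := by
  set C := 4 * ((r : ℝ) + 1) ^ 2 * κ with hCdef
  have hd : ∀ t ∈ Ioo a b, ∃ d, HasDerivAt (fun t => nu w (atL L t) h r F) d t ∧
      |d| ≤ C * nu w (atL L t) h r F := fun t ht => by
    obtain ⟨c, hc⟩ := hc t ht
    refine ⟨_, hasDerivAt_nu' hw isOpen_Ioo hL ht rfl hc h r F, ?_⟩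
    rw [← nu_re (r' := r + 2) hw F (ι := fun b => b.succ.succ)
      ((Fin.succ_injective _).comp (Fin.succ_injective _)), ← nu_mul]
    refine abs_nu_le hw (hM t) fun x σ hσ => (abs_Dr_le (hS t ht) F x
      (Sp38.len_at L t ▸ hσ)).trans_eq ?_
    exact congrArg _ (abs_of_nonneg (hF _ _))
  have hcont := continuousOn_nu hw hC h r F
  have key : ∀ ε : ℝ, (∀ d v : ℝ, |d| ≤ C * v → 0 ≤ ε * (d + ε * C * v)) →
      0 ≤ ε * (exp (ε * C * b) * nu w (atL L b) h r F - exp (ε * C * a) * nu w (atL L a) h r F) := by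
    intro ε hε
    rcases hab.eq_or_lt with rfl | hab
    · simp
    choose! d hd1 hd2 using hd
    obtain ⟨θ, hθ, e⟩ := exists_hasDerivAt_eq_slope
      (fun t => exp (ε * C * t) * nu w (atL L t) h r F)
      (fun t => exp (ε * C * t) * (ε * C) * nu w (atL L t) h r F + exp (ε * C * t) * d t) hab
      ((by fun_prop : ContinuousOn (fun t => exp (ε * C * t)) _).mul hcont) fun t ht => by
        simpa using (((hasDerivAt_id t).const_mul (ε * C)).exp).fun_mul (hd1 t ht)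
    rw [eq_div_iff (sub_pos.2 hab).ne'] at e
    rw [← e]
    have := mul_nonneg (mul_nonneg (hε _ _ (hd2 θ hθ)) (exp_pos (ε * C * θ)).le) (sub_pos.2 hab).le
    linarith
  have k1 := key (-1) fun d v hd => by linarith [(abs_le.1 hd).2]
  have k2 := key 1 fun d v hd => by linarith [(abs_le.1 hd).1]
  have e1 : exp (-1 * C * a) = exp (-1 * C * b) * exp (C * (b - a)) := by
    rw [← exp_add]; congr 1; ring
  have e2 : exp (1 * C * b) = exp (1 * C * a) * exp (C * (b - a)) := by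
    rw [← exp_add]; congr 1; ring
  rw [e1] at k1
  rw [e2] at k2
  exact ⟨le_of_mul_le_mul_left (by linarith) (exp_pos (-1 * C * b)),
    le_of_mul_le_mul_left (by linarith) (exp_pos (1 * C * a))⟩

end Crest.Agent.T156.Cas

end
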