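import Crest.Agent.T156.Ker_15
import Crest.Agent.T156.NuB_87

/-!
# Row 156 (helper50): the derivative in the direction of ONE level, as a function of the level

Leaf E-d (KZ) of docs/T156_91E.md.  `lvl t K` is the kernel `K` on the pairs split at depth `t`.
-/

set_option autoImplicit false
set_option linter.unusedSectionVars false

noncomputable section

namespace Crest.Agent.T156.Cas.Ed50

open Finset
open Crest.Agent.T157.E Crest.Agent.T157.Casc Crest.Agent.T157.SL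
open Ker15 Nu87

variable {Ω : Type} {r n t : ℕ} {L : List (Lv Ω)} {σ σ' : SM r}

/-! ### weights -/

/-- the weight of the grafts on the path of `a` up to depth `k` -/
def cum (L : List (Lv Ω)) (σ : SM r) (a : Fin r) (k : ℕ) : ℝ :=
  if k < L.length then ex L k / cls σ a (k + 1) else 1

def cumP (L : List (Lv Ω)) (σ : SM r) (a : Fin r) : ℕ → ℝ
  | 0 => 0
  | k + 1 => cum L σ a k

/-- the symmetric weight of the position `(a, k)` -/
def om (L : List (Lv Ω)) (σ : SM r) (a : Fin r) (k : ℕ) : ℝ := cum L σ a k - cumP L σ a k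

theorem abel_om (L : List (Lv Ω)) (σ : SM r) (a : Fin r) (g : ℕ → ℝ) : ∀ n : ℕ,
    cum L σ a n * g n + ∑ j ∈ range n, cum L σ a j * (g j - g (j + 1)) =
      ∑ j ∈ range (n + 1), om L σ a j * g j
  | 0 => by simp [om, cumP]
  | n + 1 => by
    rw [sum_range_succ _ (n + 1), ← abel_om L σ a g n, sum_range_succ, om, cumP]
    ring

theorem Ws_om (L : List (Lv Ω)) (σ : SM r) (G : Fin r → ℕ → ℝ) :
    Ws L σ G = ∑ a, ∑ k ∈ range (L.length + 1), om L σ a k * G a k := by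
  simp only [← abel_om, sum_add_distrib, Ws]
  congr 1
  · exact sum_congr rfl fun a _ => by rw [cum, if_neg (lt_irrefl _), one_mul]
  · rw [sum_comm]
    refine sum_congr rfl fun j hj => ?_
    rw [mul_sum]
    exact sum_congr rfl fun a _ => by rw [cum, if_pos (mem_range.1 hj)]; ring

theorem sum_om (L : List (Lv Ω)) (σ : SM r) (a : Fin r) :
    ∑ k ∈ range (L.length + 1), om L σ a k = 1 := by
  have := abel_om L σ a (fun _ => 1) L.length
  simp only [mul_one, sub_self, mul_zero, sum_const_zero, add_zero] at this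
  rw [← this, cum, if_neg (lt_irrefl _)]

theorem one_le_cls (H : Um n σ) (a : Fin r) {k : ℕ} (hk : k ≤ n) : (1 : ℝ) ≤ cls σ a k :=
  Nat.one_le_cast.2 (card_pos.2 ⟨a, by simp [H.self, hk]⟩)

theorem cls_anti (σ : SM r) (a : Fin r) (k : ℕ) : (cls σ a (k + 1) : ℝ) ≤ cls σ a k :=
  Nat.cast_le.2 (card_le_card fun b hb => by
    simp only [mem_filter, mem_univ, true_and] at hb ⊢; omega)

theorem cls_congr {a : Fin r} {k k' : ℕ} (e : ∀ b, k' ≤ σ' a b ↔ k ≤ σ a b) :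
    cls σ' a k' = cls σ a k := by simp only [cls, e]

theorem om_nonneg (hM : Mono 0 L) (H : Um L.length σ) (a : Fin r) {k : ℕ} (hk : k ≤ L.length) :
    0 ≤ om L σ a k := by
  have e0 := ex_nonneg hM
  cases k with
  | zero =>
    rw [om, cumP, sub_zero, cum]
    split_ifs
    · exact div_nonneg (e0 _) (Nat.cast_nonneg _)
    · exact zero_le_one
  | succ k =>
    have h1 := one_le_cls H a hk
    rw [om, cumP, sub_nonneg, cum, if_pos (by omega), cum]
    split_ifs with h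
    · exact div_le_div₀ (e0 _) (sub_nonneg.1 (dm_nonneg hM (k + 1)))
        (zero_lt_one.trans_le (one_le_cls H a h)) (cls_anti σ a _)
    · exact (div_le_self (e0 _) h1).trans (Tay38.ex_le_one hM k)

/-- no node at depth `t` -/
def No (t : ℕ) (σ : SM r) : Prop := ∀ a b, σ a b ≠ t

theorem om_no (H : No t σ) (ht : t < L.length) (a : Fin r) :
    om L σ a t = dm L 0 t / cls σ a t := by
  have e : cls σ a (t + 1) = cls σ a t := cls_congr fun b => by have := H a b; omega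
  rw [om, cum, if_pos ht, e, dm, sub_div]
  cases t with
  | zero => simp [cumP, exP]
  | succ t => rw [cumP, cum, if_pos (by omega), exP]

theorem om_no_le (hM : Mono 0 L) (U : Um L.length σ) (H : No t σ) (ht : t < L.length) (a : Fin r) :
    om L σ a t ≤ dm L 0 t := by
  rw [om_no H ht]
  exact div_le_self (dm_nonneg hM t) (one_le_cls U a ht.le)

theorem abs_sum_le {f : Fin r → ℝ} {c : ℝ} (h : ∀ a, |f a| ≤ c) : |∑ a, f a| ≤ r * c := by
  simpa using Tay38.abs_sum_le_card h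

theorem abs_wsum {A : Finset ℕ} {ω f : ℕ → ℝ} {β : ℝ} (h0 : ∀ k ∈ A, 0 ≤ ω k)
    (hf : ∀ k ∈ A, |f k| ≤ β) : |∑ k ∈ A, ω k * f k| ≤ (∑ k ∈ A, ω k) * β := by
  rw [sum_mul]
  refine (abs_sum_le_sum_abs _ _).trans (sum_le_sum fun k hk => ?_)
  rw [abs_mul, abs_of_nonneg (h0 k hk)]
  exact mul_le_mul_of_nonneg_left (hf k hk) (h0 k hk)

theorem abs_Ws (hM : Mono 0 L) (U : Um L.length σ) {G : Fin r → ℕ → ℝ} {β : ℝ}
    (hG : ∀ a k, k ≤ L.length → |G a k| ≤ β) : |Ws L σ G| ≤ r * β := by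
  rw [Ws_om]
  refine abs_sum_le fun a => (abs_wsum (fun k hk => om_nonneg hM U a (mem_range_succ_iff.1 hk))
    fun k hk => hG a k (mem_range_succ_iff.1 hk)).trans_eq ?_
  rw [sum_om, one_mul]

theorem sum_two {A : Finset ℕ} (ht : t ∈ A) (ht' : t + 1 ∈ A) (g : ℕ → ℝ) :
    ∑ k ∈ A, g k = g t + g (t + 1) + ∑ k ∈ (A.erase t).erase (t + 1), g k := by
  rw [add_assoc, add_sum_erase _ _ (mem_erase.2 ⟨by omega, ht'⟩), add_sum_erase _ _ ht]

theorem two_pt {A : Finset ℕ} (ht : t ∈ A) (ht' : t + 1 ∈ A) {ω ω' f f' : ℕ → ℝ} {β γ δ δ' : ℝ}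
    (h0 : ∀ k ∈ A, 0 ≤ ω k) (hs : ∑ k ∈ A, ω k = 1)
    (he : ∀ k ∈ A, k ≠ t → k ≠ t + 1 → ω' k = ω k) (h2 : ω' t + ω' (t + 1) = ω t + ω (t + 1))
    (h3 : 0 ≤ ω' t) (h4 : ω' t ≤ δ) (h5 : ω (t + 1) ≤ δ') (b1 : |f (t + 1)| ≤ β) (b2 : |f' t| ≤ β)
    (b3 : |f' (t + 1)| ≤ β) (g1 : ∀ k ∈ A, k ≠ t → k ≠ t + 1 → |f' k - f k| ≤ γ)
    (g2 : |f' (t + 1) - f t| ≤ γ) :
    |∑ k ∈ A, ω' k * f' k - ∑ k ∈ A, ω k * f k| ≤ γ + 2 * β * (δ + δ') := by
  have m : ∀ k ∈ (A.erase t).erase (t + 1), k ∈ A ∧ k ≠ t ∧ k ≠ t + 1 := fun k hk => by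
    simp only [mem_erase] at hk; tauto
  have a1 := abs_wsum (ω := ω) (f := fun k => f' k - f k) (fun k hk => h0 k (m k hk).1)
    fun k hk => g1 k (m k hk).1 (m k hk).2.1 (m k hk).2.2
  have a2 : ∑ k ∈ (A.erase t).erase (t + 1), ω' k * f' k =
      ∑ k ∈ (A.erase t).erase (t + 1), ω k * f' k :=
    sum_congr rfl fun k hk => by rw [he k (m k hk).1 (m k hk).2.1 (m k hk).2.2]
  rw [sum_two ht ht'] at hs
  simp only [mul_sub, sum_sub_distrib] at a1
  rw [sum_two ht ht', sum_two ht ht' fun k => ω k * f k, a2,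
    show ω' (t + 1) = ω t + ω (t + 1) - ω' t by linarith]
  have p0 := h0 t ht
  have p1 := h0 _ ht'
  have γ0 : 0 ≤ γ := (abs_nonneg _).trans g2
  have β0 : 0 ≤ β := (abs_nonneg _).trans b1
  rw [abs_le] at a1 b1 b2 b3 g2 ⊢
  constructor <;> nlinarith [mul_le_mul_of_nonneg_left g2.1 p0, mul_le_mul_of_nonneg_left g2.2 p0,
    mul_le_mul_of_nonneg_left b1.1 p1, mul_le_mul_of_nonneg_left b1.2 p1,
    mul_le_mul_of_nonneg_left b3.1 p1, mul_le_mul_of_nonneg_left b3.2 p1,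
    mul_le_mul_of_nonneg_left b2.1 h3, mul_le_mul_of_nonneg_left b2.2 h3,
    mul_le_mul_of_nonneg_left b3.1 h3, mul_le_mul_of_nonneg_left b3.2 h3,
    mul_le_mul_of_nonneg_left h4 β0, mul_le_mul_of_nonneg_left h5 β0, mul_nonneg p1 γ0]

/-! ### moving all nodes of depth `t` to depth `t + 1` -/

/-- `σ'` is `σ` with `t` replaced by `t + 1` -/
def Up (t : ℕ) (σ σ' : SM r) : Prop :=
  ∀ a b, σ a b ≠ t + 1 ∧ σ' a b = if σ a b = t then t + 1 else σ a b

theorem Up.mv (H : Up t σ σ') : Mv t σ σ' := fun a b => by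
  have := (H a b).2
  split_ifs at this <;> omega

theorem Up.no (H : Up t σ σ') : No (t + 1) σ := fun a b => (H a b).1

theorem Up.no' (H : Up t σ σ') : No t σ' := fun a b => by
  have := (H a b).2
  split_ifs at this <;> omega

theorem Up.iff (H : Up t σ σ') (a b : Fin r) : σ' a b = t + 1 ↔ σ a b = t := by
  obtain ⟨h1, h2⟩ := H a b
  split_ifs at h2 <;> omega

theorem up_self (H : No t σ) (H' : No (t + 1) σ) : Up t σ σ := fun a b =>
  ⟨H' a b, (if_neg (H a b)).symm⟩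

theorem Up.gr (H : Up t σ σ') (hn : t + 1 < n) (a : Fin r) {k k' : ℕ}
    (hk : (k ≠ t ∧ k ≠ t + 1 ∧ k' = k) ∨ (k = t ∧ k' = t + 1)) :
    Up t (Cas.gr n σ a k) (Cas.gr n σ' a k') := by
  have key : ∀ b, min k (σ b a) ≠ t + 1 ∧
      min k' (σ' b a) = if min k (σ b a) = t then t + 1 else min k (σ b a) := fun b => by
    obtain ⟨h1, h2⟩ := H b a
    split_ifs at h2 ⊢ <;> omega
  intro b c
  refine Fin.cases ?_ (fun b => ?_) b <;> refine Fin.cases ?_ (fun c => ?_) c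
  · exact ⟨hn.ne', (if_neg (show n ≠ t by omega)).symm⟩
  · exact key c
  · exact key b
  · exact H b c

theorem No.gr (H : No t σ) (hn : t < n) (a : Fin r) {k : ℕ} (hk : k ≠ t) : No t (Cas.gr n σ a k) := by
  have key : ∀ b, min k (σ b a) ≠ t := fun b => by have := H b a; omega
  intro b c
  refine Fin.cases ?_ (fun b => ?_) b <;> refine Fin.cases ?_ (fun c => ?_) c
  exacts [hn.ne', key c, key b, H b c]

theorem um_gr (H : Um n σ) (a : Fin r) (k : ℕ) : Um n (gr n σ a k) := by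
  refine ⟨fun b => Fin.cases rfl (fun b => H.self b) b, fun b c => ?_, fun b c d => ?_⟩
  · refine Fin.cases ?_ (fun b => ?_) b <;> refine Fin.cases ?_ (fun c => ?_) c
    exacts [rfl, rfl, rfl, H.comm b c]
  · refine Fin.cases ?_ (fun b => ?_) b <;> refine Fin.cases ?_ (fun c => ?_) c <;>
      refine Fin.cases ?_ (fun d => ?_) d <;> simp only [gr_00, gr_0s, gr_s0, gr_ss]
    · omega
    · omega
    · have := H.le c a; omega
    · have := H.ultra d c a; have := H.comm c d; omega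
    · omega
    · have := H.ultra b a d; have := H.comm a d; omega
    · have := H.ultra b c a; omega
    · exact H.ultra b c d

theorem Ws_up (hM : Mono 0 L) (U : Um L.length σ) (U' : Um L.length σ') (H : Up t σ σ')
    (hn : t + 1 < L.length) {G G' : Fin r → ℕ → ℝ} {β γ : ℝ}
    (hG : ∀ a k, k ≤ L.length → |G a k| ≤ β) (hG' : ∀ a k, k ≤ L.length → |G' a k| ≤ β)
    (hd : ∀ a k k', (k ≠ t ∧ k ≠ t + 1 ∧ k' = k) ∨ (k = t ∧ k' = t + 1) → |G' a k' - G a k| ≤ γ) :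
    |Ws L σ' G' - Ws L σ G| ≤ r * (γ + 2 * β * (dm L 0 t + dm L 0 (t + 1))) := by
  have c1 : ∀ a k, k ≠ t → cum L σ' a k = cum L σ a k := fun a k hk => by
    rw [cum, cum, cls_congr (σ := σ) (k := k + 1) fun b => ?_]
    obtain ⟨h1, h2⟩ := H a b
    split_ifs at h2 <;> omega
  have c2 : ∀ a k, k ≠ t + 1 → cumP L σ' a k = cumP L σ a k := fun a k hk => by
    cases k with
    | zero => rfl
    | succ k => exact c1 a k (by omega)
  rw [Ws_om, Ws_om, ← sum_sub_distrib]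
  refine abs_sum_le fun a => two_pt (mem_range.2 (by omega)) (mem_range.2 (by omega))
    (fun k hk => om_nonneg hM U a (mem_range_succ_iff.1 hk)) (sum_om L σ a)
    (fun k _ h1 h2 => by rw [om, om, c1 a k h1, c2 a k h2]) ?_ (om_nonneg hM U' a (by omega))
    (om_no_le hM U' H.no' (by omega) a) (om_no_le hM U H.no hn a) (hG a _ hn.le)
    (hG' a _ (by omega)) (hG' a _ hn.le) (fun k _ h1 h2 => hd a k k (.inl ⟨h1, h2, rfl⟩))
    (hd a _ _ (.inr ⟨rfl, rfl⟩))
  show cum L σ' a t - cumP L σ' a t + (cum L σ' a (t + 1) - cum L σ' a t) =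
    cum L σ a t - cumP L σ a t + (cum L σ a (t + 1) - cum L σ a t)
  rw [c1 a (t + 1) (by omega), c2 a t (by omega)]
  ring

/-! ### the three kinds of terms -/

variable [Fintype Ω] {w : Ω → ℝ} {h : Ω → ℝ}

/-- the kernel `K` on the pairs split at depth `t` -/
def lvl (t : ℕ) (K : Ω → Ω → ℝ) : ℕ → Ω → Ω → ℝ := fun i x y => if i = t then K x y else 0

theorem TM_abs (hw : Wt w) (U : Um L.length σ) {Φ : (Fin r → Ω) → ℝ} {B : ℝ} (hΦ : ∀ x, |Φ x| ≤ B) :
    |TM w L h σ Φ| ≤ B := by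
  obtain ⟨s, e, -, he, rfl⟩ := U.lab
  rw [TM_sm hw s L h he]
  exact One15.abs_TE_le hw s L h fun x => hΦ _

theorem TM_mv (hw : Wt w) (hM : Mono 0 L) (U : Um L.length σ) (U' : Um L.length σ')
    (H : Mv t σ σ') (ht : t < L.length) {N : ℕ} (h1 : 1 ≤ N) (hN : r ≤ N)
    {Φ Φ' : (Fin r → Ω) → ℝ} {B D v : ℝ} (hΦ : ∀ x, |Φ x| ≤ B) (hD : ∀ x, |Φ' x - Φ x| ≤ D)
    (hv : ∀ x y, |cv L t x y| ≤ v) :
    |TM w L h σ' Φ' - TM w L h σ Φ| ≤ D + 2 * N ^ 2 * (B * v) := by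
  have a1 : |TM w L h σ' Φ' - TM w L h σ' Φ| ≤ D := by
    rw [← TM_sub]; exact TM_abs hw U' hD
  have a2 : |TM w L h σ' Φ - TM w L h σ Φ| ≤ 2 * N ^ 2 * (B * v) := by
    obtain ⟨s, e, -, he, rfl⟩ := U.lab
    obtain ⟨s', e', -, he', rfl⟩ := U'.lab
    rw [TM_sm hw s L h he, TM_sm hw s' L h he']
    exact move1 hw hM ht (s := fun b => match b with | true => s' | false => s)
      (e := fun b => match b with | true => e' | false => e)
      (fun b => match b with | true => he' | false => he) H h1 (by simpa using hN) h hΦ hv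
  exact (abs_sub_le _ _ _).trans (add_le_add a1 a2)

variable {K K' : Ω → Ω → ℝ} {kb dq b v : ℝ}

theorem abs_ed (hK : ∀ x y, |K x y| ≤ kb) (a c : Fin r) (x : Fin r → Ω) (σ : SM r) :
    |ed (lvl t K) a c x σ| ≤ kb := abs_ite (hK _ _)

theorem ed_up (H : Up t σ σ') (hK : ∀ x y, |K' x y - K x y| ≤ dq) (a c : Fin r) (x : Fin r → Ω) :
    |ed (lvl (t + 1) K') a c x σ' - ed (lvl t K) a c x σ| ≤ dq := by
  simp only [ed, lvl, H.iff]
  split_ifs
  · exact hK _ _
  · rw [sub_zero, abs_zero]; exact (abs_nonneg _).trans (hK (x a) (x a))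

theorem ed_no (H : No t σ) (a c : Fin r) (x : Fin r → Ω) : ed (lvl t K) a c x σ = 0 :=
  if_neg (H a c)

theorem abs_mul_le {a c A C : ℝ} (h1 : |a| ≤ A) (h2 : |c| ≤ C) : |a * c| ≤ A * C := by
  rw [abs_mul]; exact mul_le_mul h1 h2 (abs_nonneg _) ((abs_nonneg _).trans h1)

/-- old pairs -/
def E1 (S : ℕ → Ω → Ω → ℝ) : RF Ω r := fun x σ => ∑ a, ∑ c, ed S a c x σ
/-- pairs with the new replica -/
def E2 (S : ℕ → Ω → Ω → ℝ) : RF Ω (r + 1) := fun x σ =>
  ∑ c : Fin r, (ed S c.succ 0 x σ + ed S 0 c.succ x σ) + ed S 0 0 x σ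

def T1 (w : Ω → ℝ) (L : List (Lv Ω)) (h : Ω → ℝ) (S : ℕ → Ω → Ω → ℝ) (F : (Fin r → Ω) → ℝ)
    (σ : SM r) : ℝ :=
  TM w L h σ fun x => F x * E1 S x σ
def T2 (w : Ω → ℝ) (L : List (Lv Ω)) (h : Ω → ℝ) (S : ℕ → Ω → Ω → ℝ) (F : (Fin r → Ω) → ℝ)
    (σ : SM (r + 1)) : ℝ :=
  TM w L h σ fun x => F (fun c => x c.succ) * E2 S x σ
def T3 (w : Ω → ℝ) (L : List (Lv Ω)) (h : Ω → ℝ) (S : ℕ → Ω → Ω → ℝ) (F : (Fin r → Ω) → ℝ)
    (σ : SM (r + 2)) : ℝ :=
  TM w L h σ fun x => F (fun c => x c.succ.succ) * ed S 0 1 x σ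
def T4 (w : Ω → ℝ) (L : List (Lv Ω)) (h : Ω → ℝ) (S : ℕ → Ω → Ω → ℝ) (F : (Fin r → Ω) → ℝ)
    (σ : SM (r + 1)) : ℝ :=
  Ws L σ fun c k => T3 w L h S F (gr L.length σ c k)

theorem dM_eq (S : ℕ → Ω → Ω → ℝ) (σ : SM r) (F : (Fin r → Ω) → ℝ) : dM w L h S σ F =
    T1 w L h S F σ - Ws L σ (fun a j => T2 w L h S F (gr L.length σ a j)) +
      Ws L σ fun a j => T4 w L h S F (gr L.length σ a j) := rfl

/-- the data of one step -/
structure St (w : Ω → ℝ) (L : List (Lv Ω)) (t : ℕ) (K K' : Ω → Ω → ℝ) (kb dq v : ℝ) : Prop where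
  hw : Wt w
  hM : Mono 0 L
  ht : t + 1 < L.length
  hK : ∀ x y, |K x y| ≤ kb
  hK' : ∀ x y, |K' x y| ≤ kb
  hq : ∀ x y, |K' x y - K x y| ≤ dq
  hv : ∀ x y, |cv L t x y| ≤ v

variable {F : (Fin r → Ω) → ℝ}

theorem abs_E1 (hK : ∀ x y, |K x y| ≤ kb) (x : Fin r → Ω) (σ : SM r) :
    |E1 (lvl t K) x σ| ≤ r * (r * kb) := abs_sum_le fun _ => abs_sum_le fun _ => abs_ed hK _ _ _ _

theorem abs_E2 (hK : ∀ x y, |K x y| ≤ kb) (x : Fin (r + 1) → Ω) (σ : SM (r + 1)) :
    |E2 (lvl t K) x σ| ≤ (2 * r + 1) * kb :=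
  ((abs_add_le _ _).trans (add_le_add (abs_sum_le fun _ => (abs_add_le _ _).trans
    (add_le_add (abs_ed hK _ _ _ _) (abs_ed hK _ _ _ _))) (abs_ed hK _ _ _ _))).trans_eq (by ring)

theorem abs_T2 (hw : Wt w) (hK : ∀ x y, |K x y| ≤ kb) (hF : ∀ x, |F x| ≤ b) {σ : SM (r + 1)}
    (U : Um L.length σ) : |T2 w L h (lvl t K) F σ| ≤ b * ((2 * r + 1) * kb) :=
  TM_abs hw U fun _ => abs_mul_le (hF _) (abs_E2 hK _ _)

theorem abs_T3 (hw : Wt w) (hK : ∀ x y, |K x y| ≤ kb) (hF : ∀ x, |F x| ≤ b) {σ : SM (r + 2)}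
    (U : Um L.length σ) : |T3 w L h (lvl t K) F σ| ≤ b * kb :=
  TM_abs hw U fun _ => abs_mul_le (hF _) (abs_ed hK _ _ _ _)

theorem abs_T4 (hw : Wt w) (hM : Mono 0 L) (hK : ∀ x y, |K x y| ≤ kb) (hF : ∀ x, |F x| ≤ b)
    {σ : SM (r + 1)} (U : Um L.length σ) :
    |T4 w L h (lvl t K) F σ| ≤ ((r + 1 : ℕ) : ℝ) * (b * kb) :=
  abs_Ws hM U fun _ _ _ => abs_T3 hw hK hF (um_gr U _ _)

/-- the cost of one move -/
def cst (r : ℕ) (kb dq v : ℝ) : ℝ := dq + 2 * ((r + 2 : ℕ) : ℝ) ^ 2 * (kb * v)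

namespace St
variable (S : St w L t K K' kb dq v) (hF : ∀ x, |F x| ≤ b)
include S hF

theorem t1 (U : Um L.length σ) (U' : Um L.length σ') (H : Up t σ σ') :
    |T1 w L h (lvl (t + 1) K') F σ' - T1 w L h (lvl t K) F σ| ≤ r * r * (b * cst r kb dq v) := by
  refine (TM_mv S.hw S.hM U U' H.mv (by linarith [S.ht]) (N := r + 2) (by omega) (by omega)
    (fun _ => abs_mul_le (hF _) (abs_E1 S.hK _ _)) (D := b * (r * (r * dq))) (fun x => ?_)
    S.hv).trans_eq (by rw [cst]; ring)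
  rw [← mul_sub, E1, E1, ← sum_sub_distrib]
  refine abs_mul_le (hF _) (abs_sum_le fun a => ?_)
  rw [← sum_sub_distrib]
  exact abs_sum_le fun c => ed_up H S.hq a c x

theorem t2 {σ σ' : SM (r + 1)} (U : Um L.length σ) (U' : Um L.length σ') (H : Up t σ σ') :
    |T2 w L h (lvl (t + 1) K') F σ' - T2 w L h (lvl t K) F σ| ≤
      (2 * r + 1) * (b * cst r kb dq v) := by
  refine (TM_mv S.hw S.hM U U' H.mv (by linarith [S.ht]) (N := r + 2) (by omega) (by omega)
    (fun _ => abs_mul_le (hF _) (abs_E2 S.hK _ _)) (D := b * (r * (dq + dq) + dq)) (fun x => ?_)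
    S.hv).trans_eq (by rw [cst]; ring)
  rw [← mul_sub, E2, E2, add_sub_add_comm, ← sum_sub_distrib]
  refine abs_mul_le (hF _) ((abs_add_le _ _).trans
    (add_le_add (abs_sum_le fun c => ?_) (ed_up H S.hq _ _ x)))
  rw [add_sub_add_comm]
  exact (abs_add_le _ _).trans (add_le_add (ed_up H S.hq _ _ x) (ed_up H S.hq _ _ x))

theorem t3 {σ σ' : SM (r + 2)} (U : Um L.length σ) (U' : Um L.length σ') (H : Up t σ σ') :
    |T3 w L h (lvl (t + 1) K') F σ' - T3 w L h (lvl t K) F σ| ≤ b * cst r kb dq v := by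
  refine (TM_mv S.hw S.hM U U' H.mv (by linarith [S.ht]) (N := r + 2) (by omega) le_rfl
    (fun _ => abs_mul_le (hF _) (abs_ed S.hK _ _ _ _)) (D := b * dq) (fun x => ?_)
    S.hv).trans_eq (by rw [cst]; ring)
  rw [← mul_sub]
  exact abs_mul_le (hF _) (ed_up H S.hq _ _ x)

theorem t4 {σ σ' : SM (r + 1)} (U : Um L.length σ) (U' : Um L.length σ') (H : Up t σ σ') :
    |T4 w L h (lvl (t + 1) K') F σ' - T4 w L h (lvl t K) F σ| ≤ ((r + 1 : ℕ) : ℝ) *
      (b * cst r kb dq v + 2 * (b * kb) * (dm L 0 t + dm L 0 (t + 1))) :=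
  Ws_up S.hM U U' H S.ht (fun _ _ _ => abs_T3 S.hw S.hK hF (um_gr U _ _))
    (fun _ _ _ => abs_T3 S.hw S.hK' hF (um_gr U' _ _))
    fun _ _ _ hk => S.t3 hF (um_gr U _ _) (um_gr U' _ _) (H.gr S.ht _ hk)

omit hF in
theorem nn : 0 ≤ kb ∧ 0 ≤ cst r kb dq v ∧ 0 ≤ dm L 0 t + dm L 0 (t + 1) ∧ Nonempty Ω := by
  obtain ⟨y, -⟩ := Finset.nonempty_of_sum_ne_zero S.hw.2.ne'
  have a1 := (abs_nonneg _).trans (S.hK y y)
  have a2 := (abs_nonneg _).trans (S.hq y y)
  have a3 := (abs_nonneg _).trans (S.hv y y)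
  exact ⟨a1, by rw [cst]; positivity, add_nonneg (dm_nonneg S.hM _) (dm_nonneg S.hM _), ⟨y⟩⟩

/-- **one step, shapes with nodes at the moving level** -/
theorem dM_up (U : Um L.length σ) (U' : Um L.length σ') (H : Up t σ σ') :
    |dM w L h (lvl (t + 1) K') σ' F - dM w L h (lvl t K) σ F| ≤ 4 * ((r + 2 : ℕ) : ℝ) ^ 2 *
      (b * (cst r kb dq v + 4 * kb * (dm L 0 t + dm L 0 (t + 1)))) := by
  have a1 := S.t1 (h := h) hF U U' H
  have a2 := Ws_up S.hM U U' H S.ht (G := fun a k => T2 w L h (lvl t K) F (gr L.length σ a k))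
    (G' := fun a k => T2 w L h (lvl (t + 1) K') F (gr L.length σ' a k))
    (fun a _ _ => abs_T2 S.hw S.hK hF (um_gr U a _))
    (fun a _ _ => abs_T2 S.hw S.hK' hF (um_gr U' a _))
    fun a _ _ hk => S.t2 hF (um_gr U a _) (um_gr U' a _) (H.gr S.ht a hk)
  have a3 := Ws_up S.hM U U' H S.ht (G := fun a k => T4 w L h (lvl t K) F (gr L.length σ a k))
    (G' := fun a k => T4 w L h (lvl (t + 1) K') F (gr L.length σ' a k))
    (fun a _ _ => abs_T4 S.hw S.hM S.hK hF (um_gr U a _))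
    (fun a _ _ => abs_T4 S.hw S.hM S.hK' hF (um_gr U' a _))
    fun a _ _ hk => S.t4 hF (um_gr U a _) (um_gr U' a _) (H.gr S.ht a hk)
  obtain ⟨n1, n2, n3, ⟨y⟩⟩ := S.nn (r := r)
  have b0 : 0 ≤ b := (abs_nonneg _).trans (hF fun _ => y)
  have p1 := mul_nonneg b0 n2
  have p2 := mul_nonneg (mul_nonneg b0 n1) n3
  have r0 : (0 : ℝ) ≤ r := Nat.cast_nonneg r
  rw [dM_eq, dM_eq]
  generalize cst r kb dq v = c at *
  generalize dm L 0 t + dm L 0 (t + 1) = δ at *
  push_cast at *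
  rw [abs_le] at a1 a2 a3 ⊢
  constructor <;> nlinarith [mul_nonneg r0 p1, mul_nonneg r0 p2, mul_nonneg r0 (mul_nonneg r0 p2)]

end St

/-! ### shapes without nodes at the level -/

/-- the sum over the classes of depth `t` -/
def Pc (σ : SM r) (t : ℕ) (g : Fin r → ℝ) : ℝ := ∑ a, g a / cls σ a t

theorem abs_Pc (U : Um n σ) (ht : t ≤ n) {g : Fin r → ℝ} {β : ℝ} (hg : ∀ a, |g a| ≤ β) :
    |Pc σ t g| ≤ r * β := abs_sum_le fun a => by
  rw [abs_div, Nat.abs_cast]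
  exact (div_le_self (abs_nonneg _) (one_le_cls U a ht)).trans (hg a)

theorem Pc_sub (U : Um n σ) (ht : t ≤ n) (H : No t σ) {g g' : Fin r → ℝ} {β : ℝ}
    (hg : ∀ a, |g' a - g a| ≤ β) : |Pc σ (t + 1) g' - Pc σ t g| ≤ r * β := by
  have e : ∀ a, cls σ a (t + 1) = cls σ a t := fun a =>
    cls_congr fun b => by have := H a b; omega
  have := abs_Pc U ht hg
  simpa only [Pc, e, sub_div, sum_sub_distrib] using this

theorem Ws_split (H : No t σ) (ht : t < L.length) (G : Fin r → ℕ → ℝ) : Ws L σ G =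
    dm L 0 t * Pc σ t (fun a => G a t) +
      ∑ a, ∑ k ∈ (range (L.length + 1)).erase t, om L σ a k * G a k := by
  rw [Ws_om, Pc, mul_sum, ← sum_add_distrib]
  refine sum_congr rfl fun a _ => ?_
  rw [← add_sum_erase _ _ (mem_range.2 (by omega : t < L.length + 1)), om_no H ht]
  ring

theorem Ws_only (H : No t σ) (ht : t < L.length) {G : Fin r → ℕ → ℝ}
    (hG : ∀ a k, k ≠ t → G a k = 0) : Ws L σ G = dm L 0 t * Pc σ t fun a => G a t := by
  rw [Ws_split H ht, sum_eq_zero fun a _ => sum_eq_zero fun k hk => by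
    rw [hG a k (ne_of_mem_erase hk), mul_zero], add_zero]

theorem TM_zero (σ : SM r) : TM w L h σ (fun _ => 0) = 0 := by simp [TM]

/-- a new pair split at `t` on the path of the first new replica -/
def T5 (w : Ω → ℝ) (L : List (Lv Ω)) (h : Ω → ℝ) (t : ℕ) (K : Ω → Ω → ℝ) (F : (Fin r → Ω) → ℝ)
    (σ : SM (r + 1)) : ℝ :=
  Pc σ t fun c => T3 w L h (lvl t K) F (gr L.length σ c t)

/-- the derivative per unit mass -/
def Nw (w : Ω → ℝ) (L : List (Lv Ω)) (h : Ω → ℝ) (t : ℕ) (K : Ω → Ω → ℝ) (σ : SM r)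
    (F : (Fin r → Ω) → ℝ) : ℝ :=
  -Pc σ t (fun a => T2 w L h (lvl t K) F (gr L.length σ a t)) +
    Pc σ t (fun a => T4 w L h (lvl t K) F (gr L.length σ a t)) +
    ∑ a, ∑ k ∈ (range (L.length + 1)).erase t, om L σ a k * T5 w L h t K F (gr L.length σ a k)

theorem dM_no (H : No t σ) (ht : t < L.length) (K : Ω → Ω → ℝ) (F : (Fin r → Ω) → ℝ) :
    dM w L h (lvl t K) σ F = dm L 0 t * Nw w L h t K σ F := by
  have e1 : T1 w L h (lvl t K) F σ = 0 := by
    simp only [T1, E1, ed_no H, sum_const_zero, mul_zero, TM_zero]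
  have e2 : ∀ a k, k ≠ t → T2 w L h (lvl t K) F (gr L.length σ a k) = 0 := fun a k hk => by
    simp only [T2, E2, ed_no (H.gr ht a hk), add_zero, sum_const_zero, mul_zero, TM_zero]
  have e3 : ∀ a, ∀ k ∈ (range (L.length + 1)).erase t, om L σ a k *
      T4 w L h (lvl t K) F (gr L.length σ a k) =
        dm L 0 t * (om L σ a k * T5 w L h t K F (gr L.length σ a k)) := fun a k hk => by
    have H1 := H.gr ht a (ne_of_mem_erase hk)
    rw [T4, Ws_only H1 ht fun c k' hk' => by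
      simp only [T3, ed_no (H1.gr ht c hk'), mul_zero, TM_zero], T5]
    ring
  rw [dM_eq, e1, Ws_only H ht e2, Ws_split H ht, sum_congr rfl fun a _ => sum_congr rfl (e3 a), Nw]
  simp only [← mul_sum]
  ring

theorem abs_T5 (hw : Wt w) (hK : ∀ x y, |K x y| ≤ kb) (hF : ∀ x, |F x| ≤ b) (ht : t ≤ L.length)
    {σ : SM (r + 1)} (U : Um L.length σ) : |T5 w L h t K F σ| ≤ ((r + 1 : ℕ) : ℝ) * (b * kb) :=
  abs_Pc U ht fun _ => abs_T3 hw hK hF (um_gr U _ _)

theorem sum_om_le (hM : Mono 0 L) (U : Um L.length σ) (a : Fin r) {A : Finset ℕ}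
    (hA : A ⊆ range (L.length + 1)) : ∑ k ∈ A, om L σ a k ≤ 1 :=
  (sum_le_sum_of_subset_of_nonneg hA fun _ hk _ =>
    om_nonneg hM U a (mem_range_succ_iff.1 hk)).trans_eq (sum_om L σ a)

/-- `|New_t| ≤ C` -/
theorem abs_Nw (hw : Wt w) (hM : Mono 0 L) (U : Um L.length σ) (ht : t ≤ L.length)
    (hK : ∀ x y, |K x y| ≤ kb) (hF : ∀ x, |F x| ≤ b) :
    |Nw w L h t K σ F| ≤ 4 * ((r + 2 : ℕ) : ℝ) ^ 2 * (b * kb) := by
  obtain ⟨y, -⟩ := Finset.nonempty_of_sum_ne_zero hw.2.ne'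
  have p : 0 ≤ b * kb :=
    mul_nonneg ((abs_nonneg _).trans (hF fun _ => y)) ((abs_nonneg _).trans (hK y y))
  have a1 := abs_Pc U ht fun a => abs_T2 (h := h) (t := t) hw hK hF (um_gr U a t)
  have a2 := abs_Pc U ht fun a => abs_T4 (h := h) (t := t) hw hM hK hF (um_gr U a t)
  have a3 := abs_sum_le fun a => (abs_wsum (A := (range (L.length + 1)).erase t)
    (fun k hk => om_nonneg hM U a (mem_range_succ_iff.1 (mem_of_mem_erase hk)))
    fun k _ => abs_T5 (h := h) hw hK hF ht (um_gr U a k)).trans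
      (mul_le_of_le_one_left (by positivity) (sum_om_le hM U a (erase_subset _ _)))
  have r0 : (0 : ℝ) ≤ r := Nat.cast_nonneg r
  rw [Nw]
  push_cast at *
  rw [abs_le] at a1 a2 a3 ⊢
  constructor <;> nlinarith [mul_nonneg r0 p]

/-- **one step, no node at the two levels** -/
theorem St.Nw_up (S : St w L t K K' kb dq v) (hF : ∀ x, |F x| ≤ b) (U : Um L.length σ)
    (H : No t σ) (H' : No (t + 1) σ) :
    |Nw w L h (t + 1) K' σ F - Nw w L h t K σ F| ≤ 4 * ((r + 2 : ℕ) : ℝ) ^ 2 *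
      (b * (cst r kb dq v + 4 * kb * (dm L 0 t + dm L 0 (t + 1)))) := by
  have ht := S.ht
  have u := fun a => (up_self H H').gr ht a (k := t) (.inr ⟨rfl, rfl⟩)
  have a1 := Pc_sub U (by omega) H fun a => S.t2 (h := h) hF (um_gr U a _) (um_gr U a _) (u a)
  have a2 := Pc_sub U (by omega) H fun a => S.t4 (h := h) hF (um_gr U a _) (um_gr U a _) (u a)
  obtain ⟨n1, n2, n3, ⟨y⟩⟩ := S.nn (r := r)
  have b0 : 0 ≤ b := (abs_nonneg _).trans (hF fun _ => y)
  have p1 := mul_nonneg b0 n2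
  have p2 := mul_nonneg (mul_nonneg b0 n1) n3
  have a3 : |∑ a, ∑ k ∈ (range (L.length + 1)).erase (t + 1),
        om L σ a k * T5 w L h (t + 1) K' F (gr L.length σ a k) -
      ∑ a, ∑ k ∈ (range (L.length + 1)).erase t, om L σ a k * T5 w L h t K F (gr L.length σ a k)| ≤
      r * (((r + 1 : ℕ) : ℝ) * (b * cst r kb dq v) +
        (dm L 0 t + dm L 0 (t + 1)) * (((r + 1 : ℕ) : ℝ) * (b * kb))) := by
    rw [← sum_sub_distrib]
    refine abs_sum_le fun a => ?_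
    have m1 : t ∈ (range (L.length + 1)).erase (t + 1) := by simp; omega
    have m2 : t + 1 ∈ (range (L.length + 1)).erase t := by simp; omega
    have c1 := abs_mul_le ((abs_of_nonneg (om_nonneg S.hM U a (by omega))).trans_le
      (om_no_le S.hM U H (by omega) a)) (abs_T5 (h := h) S.hw S.hK' hF ht.le (um_gr U a t))
    have c2 := abs_mul_le ((abs_of_nonneg (om_nonneg S.hM U a ht.le)).trans_le
      (om_no_le S.hM U H' ht a)) (abs_T5 (h := h) (t := t) S.hw S.hK hF (by omega) (um_gr U a (t + 1)))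
    have c3 := (abs_wsum (A := ((range (L.length + 1)).erase t).erase (t + 1)) (ω := om L σ a)
      (f := fun k => T5 w L h (t + 1) K' F (gr L.length σ a k) - T5 w L h t K F (gr L.length σ a k))
      (β := ((r + 1 : ℕ) : ℝ) * (b * cst r kb dq v))
      (fun k hk => om_nonneg S.hM U a
        (mem_range_succ_iff.1 (mem_of_mem_erase (mem_of_mem_erase hk)))) fun k hk => by
        have N1 := H.gr (by omega : t < L.length) a (ne_of_mem_erase (mem_of_mem_erase hk))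
        have N2 := H'.gr ht a (ne_of_mem_erase hk)
        exact Pc_sub (um_gr U a k) (by omega) N1 fun c => S.t3 hF (um_gr (um_gr U a k) c _)
          (um_gr (um_gr U a k) c _) ((up_self N1 N2).gr ht c (.inr ⟨rfl, rfl⟩))).trans
      (mul_le_of_le_one_left (by positivity)
        (sum_om_le S.hM U a ((erase_subset _ _).trans (erase_subset _ _))))
    simp only [mul_sub, sum_sub_distrib] at c3
    rw [← add_sum_erase _ _ m1, ← add_sum_erase _ _ m2, erase_right_comm]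
    rw [abs_le] at c1 c2 c3 ⊢
    constructor <;> linarith [c1.1, c1.2, c2.1, c2.2, c3.1, c3.2]
  have r0 : (0 : ℝ) ≤ r := Nat.cast_nonneg r
  rw [Nw, Nw]
  generalize cst r kb dq v = c at *
  generalize dm L 0 t + dm L 0 (t + 1) = δ at *
  push_cast at *
  rw [abs_le] at a1 a2 a3 ⊢
  constructor <;> nlinarith [mul_nonneg r0 p1, mul_nonneg r0 p2, mul_nonneg r0 (mul_nonneg r0 p2)]

/-! ### several levels -/

theorem chain {a c : ℕ → ℝ} {j j' : ℕ} (hj : j ≤ j')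
    (H : ∀ t, j ≤ t → t < j' → |a (t + 1) - a t| ≤ c t) : |a j' - a j| ≤ ∑ t ∈ Ico j j', c t := by
  rw [← sum_Ico_sub _ hj]
  exact (abs_sum_le_sum_abs _ _).trans (sum_le_sum fun t ht => H t (mem_Ico.1 ht).1 (mem_Ico.1 ht).2)

theorem sum_dm2 (hM : Mono 0 L) {j j' : ℕ} (hj : j ≤ j') :
    ∑ t ∈ Ico j j', (dm L 0 t + dm L 0 (t + 1)) ≤ dm L 0 j + 2 * (ex L j' - ex L j) := by
  have key : ∑ t ∈ Ico j j', (dm L 0 t + dm L 0 (t + 1)) =
      dm L 0 j + 2 * (ex L j' - ex L j) - dm L 0 j' := by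
    induction j', hj using Nat.le_induction with
    | base => simp
    | succ k hk ih => rw [sum_Ico_succ_top hk, ih, show dm L 0 (k + 1) = ex L (k + 1) - ex L k from rfl]; ring
  linarith [dm_nonneg hM j']

/-- the bound of (KZ): kernels, variances, masses -/
def kzB (L : List (Lv Ω)) (r j j' : ℕ) (b kb dq V : ℝ) : ℝ := 4 * ((r + 2 : ℕ) : ℝ) ^ 2 *
  (b * (cst r kb dq V + 4 * kb * (dm L 0 j + 2 * (ex L j' - ex L j))))

/-- the data of (KZ) -/
structure Kz (w : Ω → ℝ) (L : List (Lv Ω)) (j j' : ℕ) (K K' : Ω → Ω → ℝ) (kb dq V : ℝ) : Prop where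
  hw : Wt w
  hM : Mono 0 L
  hj : j < j'
  hj' : j' < L.length
  hK : ∀ x y, |K x y| ≤ kb
  hK' : ∀ x y, |K' x y| ≤ kb
  hq : ∀ x y, |K' x y - K x y| ≤ dq
  hv : ∃ v : ℕ → ℝ, (∀ t x y, |cv L t x y| ≤ v t) ∧ ∑ t ∈ Ico j j', v t ≤ V

variable {j j' : ℕ} {V : ℝ}

theorem Kz.chain (Z : Kz w L j j' K K' kb dq V) (hb : 0 ≤ b) {a : ℕ → (Ω → Ω → ℝ) → ℝ}
    (H : ∀ t K K' dq v, j ≤ t → t < j' → St w L t K K' kb dq v → |a (t + 1) K' - a t K| ≤
      4 * ((r + 2 : ℕ) : ℝ) ^ 2 * (b * (cst r kb dq v + 4 * kb * (dm L 0 t + dm L 0 (t + 1))))) :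
    |a j' K' - a j K| ≤ kzB L r j j' b kb dq V := by
  obtain ⟨v, hv, hV⟩ := Z.hv
  obtain ⟨y, -⟩ := Finset.nonempty_of_sum_ne_zero Z.hw.2.ne'
  have k0 := (abs_nonneg _).trans (Z.hK y y)
  have := Ed50.chain (a := fun t => a t (if t = j then K else K')) Z.hj.le fun t h1 h2 =>
    H t (if t = j then K else K') (if t + 1 = j then K else K') (if t = j then dq else 0) (v t) h1 h2
      ⟨Z.hw, Z.hM, by linarith [Z.hj'], by split_ifs; exacts [Z.hK, Z.hK'],
        by split_ifs; exacts [Z.hK, Z.hK'], by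
          rw [if_neg (by omega : ¬t + 1 = j)]
          split_ifs
          exacts [Z.hq, fun x y => by simp], hv t⟩
  rw [if_pos rfl, if_neg Z.hj.ne'] at this
  refine this.trans ?_
  simp only [kzB, cst, ← mul_sum, sum_add_distrib, sum_ite_eq', mem_Ico, le_refl, Z.hj, and_self,
    if_true]
  rw [← sum_add_distrib]
  gcongr
  exact sum_dm2 Z.hM Z.hj.le

theorem Kz.b0 (Z : Kz w L j j' K K' kb dq V) (hF : ∀ x, |F x| ≤ b) : 0 ≤ b := by
  obtain ⟨y, -⟩ := Finset.nonempty_of_sum_ne_zero Z.hw.2.ne'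
  exact (abs_nonneg _).trans (hF fun _ => y)

/-- **(KZ), matrix form**: no node of depth in `[j, j']` -/
theorem Kz.nw (Z : Kz w L j j' K K' kb dq V) (hF : ∀ x, |F x| ≤ b) (U : Um L.length σ)
    (H : ∀ a c, σ a c < j ∨ j' < σ a c) :
    |Nw w L h j' K' σ F - Nw w L h j K σ F| ≤ kzB L r j j' b kb dq V :=
  Z.chain (Z.b0 hF) (a := fun t K => Nw w L h t K σ F) fun t _ _ _ _ h1 h2 S =>
    S.Nw_up hF U (fun a c => by have := H a c; omega) fun a c => by have := H a c; omega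

/-- **(KZ) through an old node, matrix form**: the nodes of depth `j` go to depth `j'` -/
theorem Kz.mv (Z : Kz w L j j' K K' kb dq V) (hF : ∀ x, |F x| ≤ b) (U : Um L.length σ)
    (H : ∀ a c, σ a c ≤ j ∨ j' < σ a c) (H' : ∀ a c, σ' a c = if σ a c = j then j' else σ a c) :
    |dM w L h (lvl j' K') σ' F - dM w L h (lvl j K) σ F| ≤ kzB L r j j' b kb dq V := by
  have hj := Z.hj
  have hj' := Z.hj'
  have um : ∀ t, j ≤ t → t ≤ j' → Um L.length fun a c => if σ a c = j then t else σ a c :=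
    fun t h1 h2 => ⟨fun a => by rw [U.self, if_neg (by omega)], fun a c => by rw [U.comm a c],
      fun a c d => by
        have := U.ultra a c d
        have := H a c
        have := H c d
        have := H a d
        split_ifs <;> omega⟩
  have := Z.chain (r := r) (Z.b0 hF)
    (a := fun t K => dM w L h (lvl t K) (fun a c => if σ a c = j then t else σ a c) F)
    fun t _ _ _ _ h1 h2 S => S.dM_up hF (um t h1 h2.le) (um (t + 1) (by omega) h2) fun a c => by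
      have := H a c
      split_ifs <;> omega
  have e : (fun a c => if σ a c = j then j else σ a c) = σ := by
    funext a c; split_ifs with h0; exacts [h0.symm, rfl]
  rwa [e, ← show σ' = _ from funext fun a => funext (H' a)] at this

theorem abs_dM (hw : Wt w) (hM : Mono 0 L) (U : Um L.length σ) (hK : ∀ x y, |K x y| ≤ kb)
    (hF : ∀ x, |F x| ≤ b) : |dM w L h (lvl t K) σ F| ≤ 4 * ((r + 2 : ℕ) : ℝ) ^ 2 * (b * kb) := by
  obtain ⟨y, -⟩ := Finset.nonempty_of_sum_ne_zero hw.2.ne'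
  have p : 0 ≤ b * kb :=
    mul_nonneg ((abs_nonneg _).trans (hF fun _ => y)) ((abs_nonneg _).trans (hK y y))
  have a1 : |T1 w L h (lvl t K) F σ| ≤ b * (r * (r * kb)) :=
    TM_abs hw U fun _ => abs_mul_le (hF _) (abs_E1 hK _ _)
  have a2 := abs_Ws hM U (G := fun a k => T2 w L h (lvl t K) F (gr L.length σ a k))
    fun a _ _ => abs_T2 hw hK hF (um_gr U a _)
  have a3 := abs_Ws hM U (G := fun a k => T4 w L h (lvl t K) F (gr L.length σ a k))
    fun a _ _ => abs_T4 hw hM hK hF (um_gr U a _)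
  have r0 : (0 : ℝ) ≤ r := Nat.cast_nonneg r
  rw [dM_eq]
  push_cast at *
  rw [abs_le] at a1 a2 a3 ⊢
  constructor <;> nlinarith [mul_nonneg r0 p]

/-! ### shapes -/

theorem Dop_lvl (hw : Wt w) (ht : t < L.length) {s : Sh} (e : Fin r ≃ s.Lf) (K : Ω → Ω → ℝ)
    (F : (Fin r → Ω) → ℝ) : Dop L (lvl t K) (TEf w L h) s (fun x => F fun a => x (e a)) =
      dM w L h (lvl t K) (sm s e L.length) F := by
  rw [Dop_eq_sg, ← dT_eq_dM hw, dT_eq_sg hw s L h (c := 0) fun y => if_neg ht.ne']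
  rfl

/-- the labelling of a shape -/
def lab (s : Sh) : Fin (Fintype.card s.Lf) ≃ s.Lf := (Fintype.equivFin s.Lf).symm

/-- `New_t` of a shape -/
def New (w : Ω → ℝ) (L : List (Lv Ω)) (h : Ω → ℝ) (t : ℕ) (K : Ω → Ω → ℝ) (s : Sh)
    (G : (s.Lf → Ω) → ℝ) : ℝ :=
  Nw w L h t K (sm s (lab s) L.length) fun y => G fun c => y ((lab s).symm c)

variable {s : Sh} {G : (s.Lf → Ω) → ℝ}

/-- no node of depth `t`: `Dop (K 1_t) = dm_t New_t` -/
theorem Dop_New (hw : Wt w) (ht : t < L.length) (H : ∀ a c, a ≠ c → s.shr a c L.length ≠ t)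
    (K : Ω → Ω → ℝ) (G : (s.Lf → Ω) → ℝ) :
    Dop L (lvl t K) (TEf w L h) s G = dm L 0 t * New w L h t K s G := by
  have := Dop_lvl (h := h) hw ht (lab s) K fun y => G fun c => y ((lab s).symm c)
  simp only [Equiv.apply_symm_apply] at this
  rw [this, New, dM_no (fun a c => ?_) ht]
  rcases eq_or_ne a c with rfl | hac
  · exact ((um_sm _ _ _).self a).trans_ne ht.ne'
  · exact H _ _ fun e => hac ((lab s).injective e)

theorem abs_New (hw : Wt w) (hM : Mono 0 L) (ht : t ≤ L.length) (hK : ∀ x y, |K x y| ≤ kb)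
    (hG : ∀ x, |G x| ≤ b) :
    |New w L h t K s G| ≤ 4 * ((Fintype.card s.Lf + 2 : ℕ) : ℝ) ^ 2 * (b * kb) :=
  abs_Nw hw hM (um_sm _ _ _) ht hK fun _ => hG _

/-- **(KZ)** -/
theorem Kz.new (Z : Kz w L j j' K K' kb dq V) (hG : ∀ x, |G x| ≤ b)
    (H : ∀ a c, a ≠ c → s.shr a c L.length < j ∨ j' < s.shr a c L.length) :
    |New w L h j' K' s G - New w L h j K s G| ≤ kzB L (Fintype.card s.Lf) j j' b kb dq V :=
  Z.nw (fun _ => hG _) (um_sm _ _ _) fun a c => by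
    rcases eq_or_ne a c with rfl | hac
    · exact .inr (Z.hj'.trans_eq ((um_sm _ _ _).self a).symm)
    · exact H _ _ fun e => hac ((lab s).injective e)

theorem abs_Dop (hw : Wt w) (hM : Mono 0 L) (ht : t < L.length) (hK : ∀ x y, |K x y| ≤ kb)
    (hG : ∀ x, |G x| ≤ b) : |Dop L (lvl t K) (TEf w L h) s G| ≤
      4 * ((Fintype.card s.Lf + 2 : ℕ) : ℝ) ^ 2 * (b * kb) := by
  have := Dop_lvl (h := h) hw ht (lab s) K fun y => G fun c => y ((lab s).symm c)
  simp only [Equiv.apply_symm_apply] at this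
  rw [this]
  exact abs_dM hw hM (um_sm _ _ _) hK fun _ => hG _

/-- **(KZ) through an old node**, two labelled shapes -/
theorem Kz.lab (Z : Kz w L j j' K K' kb dq V) (hF : ∀ x, |F x| ≤ b) {s s' : Sh} (e : Fin r ≃ s.Lf)
    (e' : Fin r ≃ s'.Lf) (H : ∀ a c, sm s e L.length a c ≤ j ∨ j' < sm s e L.length a c)
    (H' : ∀ a c, sm s' e' L.length a c =
      if sm s e L.length a c = j then j' else sm s e L.length a c) :
    |Dop L (lvl j' K') (TEf w L h) s' (fun x => F fun a => x (e' a)) -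
      Dop L (lvl j K) (TEf w L h) s (fun x => F fun a => x (e a))| ≤ kzB L r j j' b kb dq V := by
  rw [Dop_lvl Z.hw Z.hj', Dop_lvl Z.hw (Z.hj.trans Z.hj')]
  exact Z.mv hF (um_sm _ _ _) H H'

theorem ite_aux {x y : ℕ} (h : (x = j ∧ y = j') ∨ (x ≠ j ∧ y = x)) :
    y = if x = j then j' else x := by split_ifs <;> omega

/-- **(KZ) through an old node**: a leg grafted at `j`, resp. `j'`, on the path of `a` -/
theorem Kz.graft (Z : Kz w L j j' K K' kb dq V) (a : s.Lf) {G : (s.Lf → Ω) → Ω → ℝ}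
    (hG : ∀ x y, |G x y| ≤ b)
    (H : ∀ a c, a ≠ c → s.shr a c L.length < j ∨ j' < s.shr a c L.length) :
    |Dop L (lvl j' K') (TEf w L h) (s.graft a j')
        (fun x => G (fun c => x (s.emb a j' c)) (x (s.nw a j'))) -
      Dop L (lvl j K) (TEf w L h) (s.graft a j)
        (fun x => G (fun c => x (s.emb a j c)) (x (s.nw a j)))| ≤
      kzB L (Fintype.card s.Lf + 1) j j' b kb dq V := by
  obtain ⟨a, rfl⟩ := (Ed50.lab s).surjective a
  have hj := Z.hj
  have hj' := Z.hj'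
  have U := um_sm s (Ed50.lab s) L.length
  have H0 : ∀ c, sm s (Ed50.lab s) L.length c a < j ∨ j' < sm s (Ed50.lab s) L.length c a :=
    fun c => by
      rcases eq_or_ne c a with rfl | hac
      · exact .inr (hj'.trans_eq (U.self c).symm)
      · exact H _ _ fun e => hac ((Ed50.lab s).injective e)
  have H1 : ∀ c d, sm s (Ed50.lab s) L.length c d < j ∨ j' < sm s (Ed50.lab s) L.length c d :=
    fun c d => by
      rcases eq_or_ne c d with rfl | hac
      · exact .inr (hj'.trans_eq (U.self c).symm)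
      · exact H _ _ fun e => hac ((Ed50.lab s).injective e)
  have := Z.lab (h := h) (F := fun y => G (fun c => y ((Ed50.lab s).symm c).succ) (y 0))
    (fun _ => hG _ _) (grE (Ed50.lab s) (Ed50.lab s a) j) (grE (Ed50.lab s) (Ed50.lab s a) j')
    (fun c d => ?_) fun c d => ite_aux ?_
  · simpa only [grE_succ, grE_zero, Equiv.apply_symm_apply] using this
  all_goals
    simp only [sm_gr]
    refine Fin.cases ?_ (fun c => ?_) c <;> refine Fin.cases ?_ (fun d => ?_) d <;>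
      simp only [gr_00, gr_0s, gr_s0, gr_ss, and_true]
  · omega
  · have := H0 d; omega
  · have := H0 c; omega
  · have := H1 c d; omega
  · omega
  · have := H0 d; omega
  · have := H0 c; omega
  · have := H1 c d; omega

/-- normalised kernels `K 1_t / d` -/
theorem Dop_lvl_div (hw : Wt w) (K : Ω → Ω → ℝ) (d : ℝ) (s : Sh) (G : (s.Lf → Ω) → ℝ) :
    Dop L (lvl t fun x y => K x y / d) (TEf w L h) s G = Dop L (lvl t K) (TEf w L h) s G / d := by
  rw [Dop_eq_sg, Dop_eq_sg, div_eq_inv_mul, ← sg_const_mul]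
  refine sg_congr _ _ _ fun τ _ => ?_
  rw [TEf, TEf, mul_comm, ← Law.TE_mul_const hw]
  congr 1
  funext x
  simp only [GT.ev, lvl]
  split_ifs <;> ring

/-- `Z_t = K 1_t / dm_t` on a shape without node of depth `t` -/
theorem Dop_Z (hw : Wt w) (ht : t < L.length) (hd : dm L 0 t ≠ 0)
    (H : ∀ a c, a ≠ c → s.shr a c L.length ≠ t) (K : Ω → Ω → ℝ) (G : (s.Lf → Ω) → ℝ) :
    Dop L (lvl t fun x y => K x y / dm L 0 t) (TEf w L h) s G = New w L h t K s G := by
  rw [Dop_lvl_div hw, Dop_New hw ht H, mul_div_cancel_left₀ _ hd]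

/-! ### one site -/

open Crest.ProbabilityR.SpinGlassDynamics (spin) in
/-- the site data: kernels `spin spin - q`, variances `tm j' - tm j` -/
theorem kz_site {w : Bool → ℝ} (hw : Wt w) {L : List (Lv Bool)} (hM : Mono 0 L) (H : R1 L)
    (hj : j < j') (hj' : j' < L.length) {q q' : ℝ} (hq : |q| ≤ 1) (hq' : |q'| ≤ 1) :
    Kz w L j j' (fun x y => spin x * spin y - q) (fun x y => spin x * spin y - q') 2 |q' - q|
      (tm L j' - tm L j) := by
  have k : ∀ {q : ℝ}, |q| ≤ 1 → ∀ x y, |spin x * spin y - q| ≤ 2 := fun hq x y =>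
    (abs_sub _ _).trans (by rw [abs_mul, One15.abs_spin, One15.abs_spin]; linarith)
  refine ⟨hw, hM, hj, hj', k hq, k hq', fun x y => ?_, fun t => tm L (t + 1) - tm L t,
    fun t x y => ?_, (sum_Ico_sub _ hj.le).le⟩
  · rw [sub_sub_sub_cancel_left, abs_sub_comm]
  · rw [cv, H.cacc, H.cacc, ← sub_mul, abs_mul, abs_mul, One15.abs_spin, One15.abs_spin, mul_one,
      mul_one, abs_of_nonneg (sub_nonneg.2 (H.tm_mono t.le_succ))]

end Crest.Agent.T156.Cas.Ed50

end
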