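import Crest.Agent.T156.CErr_54
import Crest.Agent.T156.Ed_50
import Crest.Agent.T156.CondB_31

/-!
# Row 156, block C (helper83): the site and node inputs of `AbS`
-/

set_option autoImplicit false

noncomputable section

namespace Crest.Agent.T156.Cas.C40.Ab83

open Crest.Agent.T157.E Crest.Agent.T157.Casc Crest.Agent.T157.SL

/-- the marked pair `η_j` differentiated in the direction `η 1_t` -/
def W (D : CD) (j t : ℕ) : ℝ :=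
  twoF j (oE D.q j) (Dop D.S (Ed50.lvl t (oE D.q t)) (TEf (fun _ => 1) D.S 0))

/-- size, parity and regularity of the site coefficient -/
structure Sit (D : CD) (C : ℝ) (κ : ℕ → ℕ → ℝ) : Prop where
  eq : ∀ j ∈ D.up, ∀ t ∈ D.up, t ≠ j → W D j t = D.dx t * κ j t
  bd : ∀ j ∈ D.up, ∀ t ∈ D.up, t ≠ j → |κ j t| ≤ C * min 1 (D.e (min j t))
  lip : ∀ j ∈ D.up, ∀ t ∈ D.up, t + 1 ∈ D.up → t ≠ j → t + 1 ≠ j →
    |κ j (t + 1) - κ j t| ≤ C * D.dv (t + 1)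
  bd' : ∀ j ∈ D.up, |W D j j| ≤ C
  lip' : ∀ j ∈ D.up, j + 1 ∈ D.up → |W D (j + 1) (j + 1) - W D j j| ≤ C * D.dv (j + 1)

def SitS : Prop := ∃ C : ℝ, 0 ≤ C ∧ ∀ (τ0 : ℝ) (D : CD), D.Ok τ0 → ∃ κ, Sit D C κ

/-- `E (ρ_t - q_t)³` -/
def N3 (D : CD) (t : ℕ) : ℝ :=
  node (fun _ => 1) D.B t (fun z => Cond31.rt (fun _ => 1) D.B t (oU D.q t) z ^ 3) 0

/-- `U U²` on two pairs through one node -/
def NodS : Prop := ∃ C : ℝ, 0 ≤ C ∧ ∀ (τ0 : ℝ) (D : CD), D.Ok τ0 → ∀ t ∈ D.up,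
  ∀ (s : Sh) (c d e f : s.Lf), c ≠ d → e ≠ f → s.shr c d D.K = t → s.shr e f D.K = t →
    t ≤ s.shr c e D.K →
    |TE (fun _ => 1) s D.B 0 (fun x => oU D.q t (x c) (x d) * oU D.q t (x e) (x f) ^ 2) -
      N3 D t| ≤ C * (D.e t * D.v t t + D.tl)

end Crest.Agent.T156.Cas.C40.Ab83

end
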