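import Crest.Agent.T156.CAbD_83

/-!
# Row 156, block C (helper78): `U U²` on two pairs through one node
-/

set_option autoImplicit false

noncomputable section

namespace Crest.Agent.T156.Cas.C40.Ab83

open Crest.Agent.T157.E Crest.Agent.T157.Casc Crest.Agent.T157.SL
open Crest.Agent.T157.G1 (ov)
open Wt87 Law Nu87 Cond31

section gen
variable {Ω : Type} [Fintype Ω] {w : Ω → ℝ}

/-- Efron–Stein for a symmetric kernel -/
theorem efs78 {p : Ω → ℝ} (h0 : ∀ x, 0 ≤ p x) (h1 : ∑ x, p x = 1) {K : Ω → Ω → ℝ}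
    (hs : ∀ x y, K x y = K y x) : qf p (fun x y => K x y ^ 2) - qf p K ^ 2 ≤
      2 * ∑ x, p x * (∑ y, p y * (K y x * K y x) - (∑ y, p y * K y x) * ∑ y, p y * K y x) := by
  set f : Ω → ℝ := fun x => ∑ y, p y * K y x with hf
  set M := qf p K with hM
  have a1 : ∀ g : Ω → ℝ, qf p (fun x y => g x * K x y) = ∑ x, p x * (g x * f x) := fun g => by
    simp only [qf, hf, Finset.mul_sum]
    exact Finset.sum_congr rfl fun x _ => Finset.sum_congr rfl fun y _ => by rw [hs y x]; ring
  have a2 : qf p (fun x y => f y * K x y) = ∑ x, p x * (f x * f x) := by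
    rw [← a1 f, ← qf_swap]
    simp only [hs]
  have a3 : ∑ x, p x * f x = M := by simpa using (a1 fun _ => 1).symm
  have a4 : ∑ x, p x * ∑ y, p y * (K y x * K y x) = qf p fun x y => K x y ^ 2 := by
    simp only [qf, Finset.mul_sum]
    exact Finset.sum_congr rfl fun x _ => Finset.sum_congr rfl fun y _ => by rw [hs y x]; ring
  have a5 := qf_nonneg h0 (K := fun x y => (K x y - f x - f y + M) ^ 2) fun _ _ => sq_nonneg _
  have e : (fun x y => (K x y - f x - f y + M) ^ 2) = fun x y =>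
      K x y ^ 2 + f x * f x + f y * f y + M ^ 2 - 2 * (f x * K x y) -
        2 * (f y * K x y) + 2 * M * K x y + 2 * (f x * f y) - 2 * M * f x - 2 * M * f y := by
    funext x y; ring
  have m1 : ∀ g : Ω → ℝ, qf p (fun x _ => g x) = ∑ x, p x * g x := fun g => by
    simpa [h1] using qf_mul p g fun _ => 1
  have m2 : ∀ g : Ω → ℝ, qf p (fun _ y => g y) = ∑ x, p x * g x := fun g => by
    simpa [h1] using qf_mul p (fun _ => 1) g
  have m3 := qf_mul p f f
  have m4 := m1 fun x => f x * f x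
  have m5 := m2 fun x => f x * f x
  have m6 := m1 f
  have m7 := m2 f
  have m8 := a1 f
  rw [a3] at m3 m6 m7
  rw [e, qf_sub, qf_sub, qf_add, qf_add, qf_sub, qf_sub, qf_add, qf_add, qf_add,
    qf_const_mul p (fun x y => f x * K x y), qf_const_mul p (fun x y => f y * K x y),
    qf_const_mul p K, qf_const_mul p (fun x y => f x * f y), qf_const_mul p (fun x _ => f x),
    qf_const_mul p (fun _ y => f y), qf_const h1, m3, m4, m5, m6, m7, m8, a2, ← hM] at a5
  simp only [mul_sub, Finset.sum_sub_distrib, a4]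
  change _ ≤ _ - 2 * ∑ x, p x * (f x * f x)
  nlinarith

/-- one state -/
theorem cub_pt78 (hw : Wt w) (s : Sh) (L : List (Lv Ω)) (z : Ω → ℝ) {A B : (s.Lf → Ω) → ℝ}
    {r V ξ e : ℝ} (hA : ∀ x, |A x| ≤ 2) (hB : ∀ x, |B x| ≤ 2)
    (a1 : TE w s L z A = r) (b1 : TE w s L z B = r)
    (a2 : TE w s L z (fun x => A x ^ 2) - r ^ 2 = V) (b2 : TE w s L z (fun x => B x ^ 2) - r ^ 2 = V)
    (hξ : TE w s L z (fun x => max (|A x| - e) 0) = ξ) :
    |TE w s L z (fun x => A x * B x ^ 2) - r ^ 3| ≤ 3 * e * V + 24 * ξ := by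
  have ξ0 : 0 ≤ ξ := by
    rw [← hξ]
    exact (TE_const hw s L z 0).symm.trans_le (TE_mono hw s L z fun x => le_max_right _ _)
  have r1 : |r| ≤ e + ξ := by
    rw [← a1, ← hξ, ← TE_const hw s L z e, ← TE_add hw]
    refine (abs_TE_le hw s L z _).trans (TE_mono hw s L z fun x => ?_)
    rw [TE_const hw]
    linarith [le_max_left (|A x| - e) 0]
  have r2 : |r| ≤ 2 := by
    rw [← a1, ← TE_const hw s L z 2]
    exact (abs_TE_le hw s L z _).trans (TE_mono hw s L z hA)
  have c : ∀ {F : (s.Lf → Ω) → ℝ}, TE w s L z F = r → TE w s L z (fun x => (F x - r) ^ 2) =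
      TE w s L z (fun x => F x ^ 2) - r ^ 2 := fun {F} hF => by
    rw [show (fun x => (F x - r) ^ 2) = fun x => F x ^ 2 - 2 * r * F x + r ^ 2 from
      funext fun x => by ring, TE_add hw, TE_sub hw, TE_const_mul hw, TE_const hw, hF]
    ring
  have ca := (c a1).trans a2
  have cb := (c b1).trans b2
  have V0 : 0 ≤ V := by
    rw [← ca, ← TE_const hw s L z 0]
    exact TE_mono hw s L z fun x => sq_nonneg _
  have V4 : V ≤ 4 := by
    have : TE w s L z (fun x => A x ^ 2) ≤ 4 := by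
      rw [← TE_const hw s L z 4]
      exact TE_mono hw s L z fun x => by nlinarith [hA x, abs_nonneg (A x), sq_abs (A x)]
    nlinarith [sq_nonneg r]
  have e1 : TE w s L z (fun x => A x * B x ^ 2) - r ^ 3 =
      TE w s L z fun x => 2 * r * ((A x - r) * (B x - r)) + A x * (B x - r) ^ 2 := by
    rw [show (fun x => 2 * r * ((A x - r) * (B x - r)) + A x * (B x - r) ^ 2) = fun x =>
      A x * B x ^ 2 - r ^ 2 * A x - 2 * r ^ 2 * B x + 2 * r ^ 3 from funext fun x => by ring,
      TE_add hw, TE_sub hw, TE_sub hw, TE_const_mul hw, TE_const_mul hw, TE_const hw, a1, b1]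
    ring
  rw [e1]
  refine (abs_TE_le hw s L z _).trans ((TE_mono hw s L z (G := fun x =>
    |r| * (A x - r) ^ 2 + (|r| + e) * (B x - r) ^ 2 + 16 * max (|A x| - e) 0) fun x => ?_).trans ?_)
  · have k1 : |2 * r * ((A x - r) * (B x - r))| ≤ |r| * ((A x - r) ^ 2 + (B x - r) ^ 2) := by
      rw [abs_mul, abs_mul, abs_mul, abs_two, ← sq_abs (A x - r), ← sq_abs (B x - r)]
      nlinarith [mul_nonneg (abs_nonneg r) (sq_nonneg (|A x - r| - |B x - r|))]
    have k2 : (B x - r) ^ 2 ≤ 16 := by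
      have : |B x - r| ≤ 4 := (abs_sub _ _).trans (by linarith [hB x])
      nlinarith [abs_nonneg (B x - r), sq_abs (B x - r)]
    have k3 : |A x * (B x - r) ^ 2| ≤ e * (B x - r) ^ 2 + 16 * max (|A x| - e) 0 := by
      rw [abs_mul, abs_of_nonneg (sq_nonneg (B x - r))]
      nlinarith [le_max_left (|A x| - e) 0, le_max_right (|A x| - e) 0, sq_nonneg (B x - r),
        mul_le_mul_of_nonneg_left k2 (le_max_right (|A x| - e) 0)]
    refine (abs_add_le _ _).trans ?_
    linarith
  · rw [TE_add hw, TE_add hw, TE_const_mul hw, TE_const_mul hw, TE_const_mul hw, ca, cb, hξ]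
    nlinarith [mul_le_mul_of_nonneg_right r1 V0, mul_le_mul_of_nonneg_left V4 ξ0]

/-- **`U U²` through one node** -/
theorem cub_node78 (hw : Wt w) (s : Sh) (L : List (Lv Ω)) (h : Ω → ℝ) {j : ℕ}
    {c d e f : s.Lf} (hcd : c ≠ d) (hef : e ≠ f) (h1 : s.shr c d L.length = j)
    (h2 : s.shr e f L.length = j) (h3 : j ≤ s.shr c e L.length) {U : Ω → Ω → ℝ}
    (hU : ∀ x y, |U x y| ≤ 2) (ε : ℝ) :
    |TE w s L h (fun x => U (x c) (x d) * U (x e) (x f) ^ 2) -
        node w L j (fun z => rt w L j U z ^ 3) h| ≤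
      3 * ε * Vr w L h j U + 24 * pi2 w L j (fun x y => max (|U x y| - ε) 0) h := by
  have hj : j ≤ L.length := h1 ▸ shr_le s c d _
  have cl : ∀ a b : s.Lf, j ≤ s.shr a b L.length → s.cl j a = s.cl j b := fun a b hab => by
    have := shr_min s a b j L.length
    rw [min_eq_left hj, min_eq_left hab] at this
    exact (Clu22.cl_eq_iff s j a b).2 this
  have hd := cl c d h1.ge
  have he := cl c e h3
  have hf := he.trans (cl e f h2.ge)
  have ex : ∀ a, s.cl j c = s.cl j a → ∃ b, s.inj j (s.cl j c) b = a := fun a ha => by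
    rw [ha]
    exact Clu22.exists_inj s j a
  obtain ⟨c', hc'⟩ := ex c rfl
  obtain ⟨d', hd'⟩ := ex d hd
  obtain ⟨e', he'⟩ := ex e he
  obtain ⟨f', hf'⟩ := ex f hf
  have pr : ∀ (a b : (s.up j (s.cl j c)).Lf), s.inj j _ a ≠ s.inj j _ b →
      s.shr (s.inj j _ a) (s.inj j _ b) L.length = j → ∀ (K : Ω → Ω → ℝ) (z : Ω → ℝ),
      TE w (s.up j (s.cl j c)) (L.drop j) z (fun x => K (x a) (x b)) = rt w L j K z :=
    fun a b hab hs K z => by
      have := Clu22.shr_inj s j _ a b (L.length - j)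
      rw [Nat.sub_add_cancel hj, hs] at this
      rw [TE_pair hw _ _ z (fun e => hab (congrArg _ e)) K, List.length_drop,
        show (s.up j (s.cl j c)).shr a b (L.length - j) = 0 by omega, pi2_zero]
      rfl
  have p1 := pr c' d' (by rw [hc', hd']; exact hcd) (by rw [hc', hd']; exact h1)
  have p2 := pr e' f' (by rw [he', hf']; exact hef) (by rw [he', hf']; exact h2)
  have tw := TE_up hw s j L h (s.cl j c) fun x => U (x c') (x d') * U (x e') (x f') ^ 2
  simp only [hc', hd', he', hf'] at tw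
  have v1 := (eg_rt hw L j fun x y => U x y ^ 2).sub (eg_rt_sq hw L j U)
  have v2 := eg_rt hw L j fun x y => max (|U x y| - ε) 0
  have key := abs_node_sub_le hw (eg_TE hw (s.up j (s.cl j c)) (L.drop j)
      fun x => U (x c') (x d') * U (x e') (x f') ^ 2) ((eg_rt hw L j U).pow 3)
    ((v1.const_mul (3 * ε)).add (v2.const_mul 24)) (fun z =>
      cub_pt78 hw _ _ z (fun _ => hU _ _) (fun _ => hU _ _) (p1 U z) (p2 U z)
        (by rw [p1 fun x y => U x y ^ 2]) (by rw [p2 fun x y => U x y ^ 2])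
        (p1 (fun x y => max (|U x y| - ε) 0) z)) L j h
  rw [node_add hw (v1.const_mul _) (v2.const_mul _), node_const_mul, node_const_mul] at key
  rw [tw, Vr_eq hw]
  exact key

/-- Efron–Stein at a node -/
theorem Vr_le78 (hw : Wt w) (L : List (Lv Ω)) (h : Ω → ℝ) (t : ℕ) {V : Ω → Ω → ℝ}
    (hs : ∀ x y, V x y = V y x) (c : ℝ) : Vr w L h t (fun x y => V x y - c) ≤ 2 * node w L t
      (fun z => ∑ x, P w (L.drop t) z x * Eg33.Cf w L t t (fun x' => V x' x) (fun x' => V x' x) z)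
      h := by
  have g : Eg fun z => ∑ x, P w (L.drop t) z x *
      Eg33.Cf w L t t (fun x' => V x' x) (fun x' => V x' x) z :=
    Eg.sum _ fun x _ => (eg_P hw _ x).mul (Eg33.eg_Cf hw L t t _ _)
  rw [Vr_eq hw, ← congrFun (node_const_mul w _ 2 L t) h]
  refine node_mono hw ((eg_rt hw L t _).sub (eg_rt_sq hw L t _)) (g.const_mul 2) (fun z => ?_) L t h
  have h1 := sum_P hw (L.drop t) z
  have := efs78 (P_nonneg hw (L.drop t) z) h1 hs
  simp only [Eg33.Cf_self, Cb, Pf, rt]
  refine le_trans (le_of_eq ?_) this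
  rw [show (fun x y => (V x y - c) ^ 2) = fun x y => V x y ^ 2 - 2 * c * V x y + c ^ 2 from
    funext fun x => funext fun y => by ring, qf_add, qf_sub, qf_sub, qf_const_mul, qf_const h1,
    qf_const h1]
  ring

end gen

theorem nodS : NodS := by
  refine ⟨24, by norm_num, fun τ0 D H t ht s c d e f hcd hef h1 h2 h3 => ?_⟩
  have hw : Wt (fun _ : Cube D.n => (1 : ℝ)) := wt_one90
  have hl : D.B.length = D.K := List.length_map _
  have k := cub_node78 hw s D.B 0 hcd hef (hl ▸ h1) (hl ▸ h2) (hl ▸ h3) (U := oU D.q t)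
    (abs_oU_le H.ook (Finset.mem_Ioo.1 ht).2.le) (D.e t)
  have k2 : Vr (fun _ => 1) D.B 0 t (oU D.q t) ≤ 2 * D.v t t :=
    Vr_le78 hw D.B 0 t (fun x y => by rw [ov, ov, dotProduct_comm]) (D.q t)
  have k3 := H.envU t ht
  have k4 := mul_le_mul_of_nonneg_left k2 (H.e0 t)
  have k5 := mul_nonneg (H.e0 t) (D.v0 t t)
  refine k.trans ?_
  rw [CD.E2] at k3
  nlinarith

end Crest.Agent.T156.Cas.C40.Ab83

end
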