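import Crest.Agent.T156.CAbD_83
import Crest.Agent.T156.CWk_55
import Crest.Agent.T156.Apt_7

/-!
# Row 156, block C (helper83): a pair differentiated along a spin-free letter

The part of `Dop b` on the levels below a pair split at `t` is, up to `∑ dm ex`, a sum of path
functionals on the pairs split at `y < t`.
-/

set_option autoImplicit false
set_option linter.unusedSectionVars false

noncomputable section

namespace Crest.Agent.T156.Cas.C40.Ab83

open MeasureTheory Real Set Filter Topology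
open Crest.Agent.T157.E Crest.Agent.T157.Casc Crest.Agent.T157.SL
open Wt87 Wf99 Tay38

section gen

variable {Ω : Type} [Fintype Ω] {w : Ω → ℝ}

theorem TE3 (hw : Wt w) (L : List (Lv Ω)) (h : Ω → ℝ) {s s' : Sh} {a b c : s.Lf}
    {a' b' c' : s'.Lf} (n : [a, b, c].Nodup) (n' : [a', b', c'].Nodup)
    (h1 : s.shr a b L.length = s'.shr a' b' L.length)
    (h2 : s.shr a c L.length = s'.shr a' c' L.length)
    (h3 : s.shr b c L.length = s'.shr b' c' L.length) (F : Ω → Ω → Ω → ℝ) :
    TE w s L h (fun x => F (x a) (x b) (x c)) = TE w s' L h fun x => F (x a') (x b') (x c') := by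
  refine TE_lab hw s s' L h (List.nodup_iff_injective_get.1 n) (e' := [a', b', c'].get)
    (List.nodup_iff_injective_get.1 n') (fun i j hij => ?_) fun y => F (y 0) (y 1) (y 2)
  fin_cases i <;> fin_cases j <;>
    first | exact absurd rfl hij | assumption | (rw [shr_comm s, shr_comm s']; assumption)

theorem TE4 (hw : Wt w) (L : List (Lv Ω)) (h : Ω → ℝ) {s s' : Sh} {a b c d : s.Lf}
    {a' b' c' d' : s'.Lf} (n : [a, b, c, d].Nodup) (n' : [a', b', c', d'].Nodup)
    (h1 : s.shr a b L.length = s'.shr a' b' L.length)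
    (h2 : s.shr a c L.length = s'.shr a' c' L.length)
    (h3 : s.shr a d L.length = s'.shr a' d' L.length)
    (h4 : s.shr b c L.length = s'.shr b' c' L.length)
    (h5 : s.shr b d L.length = s'.shr b' d' L.length)
    (h6 : s.shr c d L.length = s'.shr c' d' L.length) (F : Ω → Ω → Ω → Ω → ℝ) :
    TE w s L h (fun x => F (x a) (x b) (x c) (x d)) =
      TE w s' L h fun x => F (x a') (x b') (x c') (x d') := by
  refine TE_lab hw s s' L h (List.nodup_iff_injective_get.1 n) (e' := [a', b', c', d'].get)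
    (List.nodup_iff_injective_get.1 n') (fun i j hij => ?_) fun y => F (y 0) (y 1) (y 2) (y 3)
  fin_cases i <;> fin_cases j <;>
    first | exact absurd rfl hij | assumption | (rw [shr_comm s, shr_comm s']; assumption)

theorem shr_RL (j k : ℕ) : (Sh.two j).shr (Sh.twoR j) (Sh.twoL j) k = min j k :=
  (shr_comm _ _ _ _).trans (shr_two j k)

theorem shr2 {t k : ℕ} (a b : (Sh.two t).Lf) :
    (Sh.two t).shr a b k = k ∨ (Sh.two t).shr a b k = min t k := by
  rcases two_cases t a with rfl | rfl <;> rcases two_cases t b with rfl | rfl <;>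
    simp only [shr_self, shr_two, shr_RL, true_or, or_true]

theorem emb_iff (s : Sh) (a : s.Lf) (j : ℕ) (b c : s.Lf) : s.emb a j b = s.emb a j c ↔ b = c :=
  (emb_inj s a j).eq_iff

theorem nw_ne (s : Sh) (a : s.Lf) (j : ℕ) (b : s.Lf) : s.nw a j ≠ s.emb a j b :=
  (emb_ne s a j b).symm

variable (w) (L : List (Lv Ω)) (h : Ω → ℝ) (U b : ℕ → Ω → Ω → ℝ)

/-- a term of the derivative of the pair split at `t` -/
def Ph (t : ℕ) (τ : GT (Sh.two t)) : ℝ := TE w τ.sh L h (τ.ev b (pr2 t (U t)))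

/-- a term read on the pair split at `y` -/
def Ps (y t : ℕ) (σ : GT (Sh.two y)) : ℝ := TE w σ.sh L h (σ.ev (fun _ => U t) (pr2 y (b y)))

/-- three replicas -/
def f1 (y t : ℕ) : ℝ := Ps w L h U b y t (.g1 _ (Sh.twoL y) t (Sh.twoL y))

/-- four replicas -/
def f2 (y k t : ℕ) : ℝ := Ps w L h U b y t (Wf99.gq _ (Sh.twoL y) k t)

/-- the path functional -/
def on (y t : ℕ) : ℝ := -4 * f1 w L h U b y t + 2 * (ex L t * f2 w L h U b y t t) +
  2 * ∑ k ∈ Finset.Ioc y L.length, dm L 0 k * ((1 + if t < k then 1 else 0) * f2 w L h U b y k t)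

variable {w L h U b}

theorem Ph_eq {t y : ℕ} {τ : GT (Sh.two t)} (e : τ.j = y) : Ph w L h U b t τ = TE w τ.sh L h
    fun x => U t (x (τ.e (Sh.twoL t))) (x (τ.e (Sh.twoR t))) * b y (x τ.p) (x τ.q) := e ▸ rfl

theorem Ph_eq' (hU : ∀ j x y, U j x y = U j y x) {t y : ℕ} {τ : GT (Sh.two t)} (e : τ.j = y) :
    Ph w L h U b t τ = TE w τ.sh L h
      fun x => U t (x (τ.e (Sh.twoR t))) (x (τ.e (Sh.twoL t))) * b y (x τ.p) (x τ.q) :=
  (Ph_eq e).trans (congrArg _ (funext fun _ => by rw [hU]))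

theorem g1_f1 (hw : Wt w) (hU : ∀ j x y, U j x y = U j y x) {t k : ℕ} (hk : k < t)
    (ht : t ≤ L.length) (a c : (Sh.two t).Lf) :
    Ph w L h U b t (.g1 _ a k c) = f1 w L h U b k t := by
  have e : (Sh.two t).shr c a k = k := by rcases shr2 (k := k) c a with e | e <;> omega
  have n := two_ne t
  have n' := two_ne k
  have key : ∀ c' : (Sh.two t).Lf, c ≠ c' → (Sh.two t).shr c c' L.length = t →
      TE w ((Sh.two t).graft a k) L h (fun x => U t (x (Sh.emb _ a k c)) (x (Sh.emb _ a k c')) *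
        b k (x (Sh.emb _ a k c)) (x (Sh.nw _ a k))) = f1 w L h U b k t := fun c' hc e' => by
    refine (TE3 hw L h (s' := (Sh.two k).graft (Sh.twoL k) t)
      (a' := Sh.emb _ _ t (Sh.twoL k)) (b' := Sh.nw _ _ t) (c' := Sh.emb _ _ t (Sh.twoR k))
      (by simp [emb_iff, emb_ne, hc]) (by simp [emb_iff, emb_ne, nw_ne, n']) ?_ ?_ ?_
      fun p q r => U t p q * b k p r).trans (congrArg _ (funext fun x => mul_comm _ _))
    · simp only [shr_emb, shr_nw, shr_self, e']; omega
    · simp only [shr_emb, shr_nw, shr_two]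
      rcases shr2 (k := min k L.length) c a with e | e <;> omega
    · simp only [shr_nw, shr_nw', shr_RL]
      rcases shr2 (k := min k L.length) c' a with e | e <;> omega
  rcases two_cases t c with rfl | rfl
  · exact (Ph_eq e).trans (key _ n (by rw [shr_two]; omega))
  · exact (Ph_eq' hU e).trans (key _ n.symm (by rw [shr_RL]; omega))

theorem g2_f2 (hw : Wt w) (hU : ∀ j x y, U j x y = U j y x) {t k y : ℕ} (hy : y < t)
    (ht : t ≤ L.length) (hk : y ≤ k) (hk' : k ≤ L.length) (a c : (Sh.two t).Lf) :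
    Ph w L h U b t (.g2 _ a k c y) = f2 w L h U b y k t := by
  have e : (Sh.two t).shr a c (min k y) = y := by
    rcases shr2 (k := min k y) a c with e | e <;> omega
  have n := two_ne t
  have n' := two_ne y
  set s1 := (Sh.two t).graft c y
  set E1 := (Sh.two t).emb c y
  have key : ∀ a' : (Sh.two t).Lf, a ≠ a' → (∀ m, (Sh.two t).shr a' a m = min t m) →
      TE w (s1.graft (E1 a) k) L h (fun x => U t (x (s1.emb (E1 a) k (E1 a)))
        (x (s1.emb (E1 a) k (E1 a'))) * b y (x (s1.nw (E1 a) k))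
          (x (s1.emb (E1 a) k (Sh.nw _ c y)))) = f2 w L h U b y k t := fun a' hc e' => by
    refine (TE4 hw L h (s' := ((Sh.two y).graft (Sh.twoL y) k).graft (Sh.nw _ _ k) t)
      (a' := Sh.emb _ _ t (Sh.nw _ _ k)) (b' := Sh.nw _ _ t)
      (c' := Sh.emb _ _ t (Sh.emb _ _ k (Sh.twoL y)))
      (d' := Sh.emb _ _ t (Sh.emb _ _ k (Sh.twoR y)))
      (by simp [s1, E1, emb_iff, emb_ne, nw_ne, hc]) (by simp [emb_iff, emb_ne, nw_ne, n'])
      ?_ ?_ ?_ ?_ ?_ ?_ fun p q r u => U t p q * b y r u).trans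
        (congrArg _ (funext fun x => mul_comm _ _)) <;>
      simp only [s1, E1, shr_emb, shr_nw, shr_nw', shr_self, shr_two, shr_RL, e']
    · rw [shr_comm, e']
    · rcases shr2 (k := min y L.length) a c with e | e <;> omega
    · omega
    · rcases shr2 (k := min y L.length) a' c with e | e <;> omega
    · rcases shr2 (k := min y (min k L.length)) a c with e | e <;> omega
  rcases two_cases t a with rfl | rfl
  · exact (Ph_eq e).trans (key _ n (shr_RL t))
  · exact (Ph_eq' hU e).trans (key _ n.symm (shr_two t))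

/-- the law of the level of a graft on a pair -/
theorem cw_two {t : ℕ} (ht : t ≤ L.length) (G : ℕ → ℝ) :
    ∑ a, ∑ k ∈ Finset.range (L.length + 1), cw (Sh.two t) L a k * G k = ex L t * G t +
      ∑ k ∈ Finset.range (L.length + 1), dm L 0 k * ((1 + if t < k then 1 else 0) * G k) := by
  rw [sum_cw_eq (Sh.two t) L fun _ k => G k, Wn_two L ht fun _ _ _ _ => rfl,
    ← Finset.sum_range_add_sum_Ico _ (Nat.succ_le_succ ht), add_comm _ (ex L t * G t), add_assoc]
  congr 2
  · exact Finset.sum_congr rfl fun k hk => by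
      rw [if_neg (by have := Finset.mem_range.1 hk; omega), add_zero, one_mul]
  · refine Finset.sum_congr (by ext k; simp only [Finset.mem_Ico, Finset.mem_Ioc]; omega)
      fun k hk => ?_
    rw [if_pos (by have := Finset.mem_Ico.1 hk; omega)]
    ring

theorem sum_sym (G : ℕ → ℕ → ℝ) : ∀ n : ℕ, ∑ k ∈ Finset.range n, ∑ k' ∈ Finset.range n,
    G (min k k') (max k k') = ∑ y ∈ Finset.range n, (G y y + 2 * ∑ k ∈ Finset.Ico (y + 1) n, G y k)
  | 0 => by simp
  | n + 1 => by
      simp only [Finset.sum_range_succ, Finset.sum_add_distrib, sum_sym G n, min_self, max_self,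
        Finset.Ico_self, Finset.sum_empty]
      have e1 : ∑ k ∈ Finset.range n, G (min k n) (max k n) = ∑ k ∈ Finset.range n, G k n :=
        Finset.sum_congr rfl fun k hk => by
          have := (Finset.mem_range.1 hk).le
          rw [min_eq_left this, max_eq_right this]
      have e2 : ∑ k ∈ Finset.range n, G (min n k) (max n k) = ∑ k ∈ Finset.range n, G k n := by
        simp only [min_comm n, max_comm n, e1]
      have e3 : ∑ y ∈ Finset.range n, 2 * ∑ k ∈ Finset.Ico (y + 1) (n + 1), G y k =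
          ∑ y ∈ Finset.range n, 2 * ∑ k ∈ Finset.Ico (y + 1) n, G y k +
            2 * ∑ k ∈ Finset.range n, G k n := by
        rw [Finset.mul_sum (Finset.range n), ← Finset.sum_add_distrib]
        exact Finset.sum_congr rfl fun y hy => by
          rw [Finset.sum_Ico_succ_top (Finset.mem_range.1 hy), mul_add]
      rw [e1, e2, e3]
      ring

theorem sum_lt {t n : ℕ} (ht : t ≤ n) (G : ℕ → ℝ) :
    ∑ k ∈ Finset.range (n + 1), (if k < t then G k else 0) = ∑ k ∈ Finset.range t, G k := by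
  rw [← Finset.sum_filter]
  congr 1
  ext k
  simp only [Finset.mem_filter, Finset.mem_range]
  omega

/-- **the levels below the pair** -/
theorem low_eq (hw : Wt w) (hM : Mono 0 L) (hU : ∀ j x y, U j x y = U j y x)
    (hb : ∀ j x y, b j x y = b j y x) {t : ℕ} (ht : t ≤ L.length) {β : ℕ → ℝ}
    (hβ : ∀ τ : GT (Sh.two t), τ.Mem _ L.length → τ.j < t → |Ph w L h U b t τ| ≤ β τ.j) :
    |sg (-1) L (Sh.two t) (fun τ => if τ.j < t then Ph w L h U b t τ else 0) -
      ∑ y ∈ Finset.range t, dm L 0 y * on w L h U b y t| ≤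
        2 * ∑ y ∈ Finset.range t, dm L 0 y * (ex L y * β y) := by
  have r : ∀ {j}, j ∈ Finset.range (L.length + 1) → j ≤ L.length := fun h =>
    Nat.lt_succ_iff.1 (Finset.mem_range.1 h)
  have I := inv_TE hw (Sh.two t) L h hb (pr2 t (U t)) L.length
  set ν : ℕ → ℝ := fun k => dm L 0 k * (1 + if t < k then 1 else 0) + if k = t then ex L t else 0
    with hν
  have cw' : ∀ G : ℕ → ℝ, ∑ a, ∑ k ∈ Finset.range (L.length + 1), cw (Sh.two t) L a k * G k =
      ∑ k ∈ Finset.range (L.length + 1), ν k * G k := fun G => by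
    rw [cw_two ht]
    simp only [hν, add_mul _ (ite _ _ _) (G _), Finset.sum_add_distrib, ite_mul, zero_mul,
      Finset.sum_ite_eq', Finset.mem_range, Nat.lt_succ_of_le ht, if_true, mul_assoc]
    ring
  have ν0 : ∀ k < t, ν k = dm L 0 k := fun k hk => by
    simp only [hν, if_neg hk.ne, if_neg hk.le.not_gt, add_zero, mul_one]
  have e0 : ∑ a, ∑ c ∈ Finset.univ.erase a, (if (GT.g0 (Sh.two t) L.length a c).j < t then
      Ph w L h U b t (.g0 _ L.length a c) else 0) = 0 :=
    Finset.sum_eq_zero fun a _ => Finset.sum_eq_zero fun c _ => if_neg (by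
      show ¬(Sh.two t).shr a c L.length < t
      rcases shr2 (k := L.length) a c with e | e <;> omega)
  have e1 : ∀ a k c, (if (GT.g1 (Sh.two t) a k c).j < t then Ph w L h U b t (.g1 _ a k c) else 0) =
      if k < t then f1 w L h U b k t else 0 := fun a k c => by
    have : (GT.g1 (Sh.two t) a k c).j < t ↔ k < t := by
      show (Sh.two t).shr c a k < t ↔ _
      rcases shr2 (k := k) c a with e | e <;> omega
    simp only [this]
    split_ifs with hk
    exacts [g1_f1 hw hU hk ht a c, rfl]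
  have e1' : ∀ a k c, k ≤ L.length → (if (GT.g1' (Sh.two t) a k c).j < t then
      Ph w L h U b t (.g1' _ a k c) else 0) = if k < t then f1 w L h U b k t else 0 :=
    fun a k c hk => by
      rw [← e1 a k c, show Ph w L h U b t (.g1' _ a k c) = _ from I.i1' a k c hk]
      exact if_congr (Iff.of_eq (congrArg (· < t) (shr_comm _ a c k))) rfl rfl
  have e2 : ∀ a k c k', k ≤ L.length → k' ≤ L.length → (if (GT.g2 (Sh.two t) a k c k').j < t then
      Ph w L h U b t (.g2 _ a k c k') else 0) =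
      if min k k' < t then f2 w L h U b (min k k') (max k k') t else 0 := fun a k c k' hk hk' => by
    have : (GT.g2 (Sh.two t) a k c k').j < t ↔ min k k' < t := by
      show (Sh.two t).shr a c (min k k') < t ↔ _
      rcases shr2 (k := min k k') a c with e | e <;> omega
    simp only [this]
    split_ifs with hm
    · rcases le_total k' k with x | x
      · rw [min_eq_right x] at hm ⊢
        rw [max_eq_left x, g2_f2 hw hU hm ht x hk]
      · rw [min_eq_left x] at hm ⊢
        rw [max_eq_right x, ← g2_f2 hw hU hm ht x hk' c a]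
        exact I.i2' a k c k' hk hk'
    · rfl
  have s1 : ∑ a, ∑ k ∈ Finset.range (L.length + 1), cw (Sh.two t) L a k *
      (∑ c, (if (GT.g1 (Sh.two t) a k c).j < t then Ph w L h U b t (.g1 _ a k c) else 0) +
        ∑ c, (if (GT.g1' (Sh.two t) a k c).j < t then Ph w L h U b t (.g1' _ a k c) else 0)) =
      ∑ y ∈ Finset.range t, dm L 0 y * (4 * f1 w L h U b y t) := by
    rw [Finset.sum_congr rfl fun a _ => Finset.sum_congr rfl fun k hk => by
      rw [Finset.sum_congr rfl fun c _ => e1 a k c, Finset.sum_congr rfl fun c _ => e1' a k c (r hk)],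
      cw' fun k => ∑ _c : (Sh.two t).Lf, (if k < t then f1 w L h U b k t else 0) +
        ∑ _c : (Sh.two t).Lf, (if k < t then f1 w L h U b k t else 0), ← sum_lt ht]
    refine Finset.sum_congr rfl fun k _ => ?_
    simp only [Finset.sum_const, Finset.card_univ, card_two, nsmul_eq_mul]
    split_ifs with hk
    · rw [ν0 k hk]; push_cast; ring
    · simp
  have s2 : ∑ a, ∑ k ∈ Finset.range (L.length + 1), cw (Sh.two t) L a k *
      ∑ c, ∑ k' ∈ Finset.range (L.length + 1), cw (Sh.two t) L c k' *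
        (if (GT.g2 (Sh.two t) a k c k').j < t then Ph w L h U b t (.g2 _ a k c k') else 0) =
      ∑ y ∈ Finset.range t, dm L 0 y * (dm L 0 y * f2 w L h U b y y t +
        (on w L h U b y t + 4 * f1 w L h U b y t)) := by
    rw [Finset.sum_congr rfl fun a _ => Finset.sum_congr rfl fun k hk => by
      rw [Finset.sum_congr rfl fun c _ => Finset.sum_congr rfl fun k' hk' => by
        rw [e2 a k c k' (r hk) (r hk')], cw'], cw']
    have := sum_sym (fun y k => ν y * (ν k * if y < t then f2 w L h U b y k t else 0))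
      (L.length + 1)
    rw [← sum_lt ht]
    refine Eq.trans (Finset.sum_congr rfl fun k _ => ?_) (this.trans
      (Finset.sum_congr rfl fun y _ => ?_))
    · rw [Finset.mul_sum]
      refine Finset.sum_congr rfl fun k' _ => ?_
      rcases le_total k k' with x | x
      · rw [min_eq_left x, max_eq_right x]
      · rw [min_eq_right x, max_eq_left x, mul_left_comm]
    · split_ifs with hy
      · rw [ν0 y hy, on, ← Finset.mul_sum, show Finset.Ico (y + 1) (L.length + 1) =
          Finset.Ioc y L.length from by ext k; simp only [Finset.mem_Ico, Finset.mem_Ioc]; omega]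
        simp only [hν, add_mul _ (ite (_ = _) _ _), Finset.sum_add_distrib, ite_mul, zero_mul,
          Finset.sum_ite_eq', Finset.mem_Ioc, hy, ht, and_self, if_true, mul_assoc]
        ring
      · simp
  have β0 : ∀ y < t, |f2 w L h U b y y t| ≤ β y := fun y hy => by
    have := hβ _ (.g2 (Sh.twoL t) (Sh.twoL t) (hy.le.trans ht) (hy.le.trans ht))
    rw [g2_f2 hw hU hy ht le_rfl (hy.le.trans ht)] at this
    simp only [GT.g2, shr_self, min_self] at this
    exact this hy
  have s3 : |∑ a, ∑ k ∈ Finset.range (L.length + 1), cw (Sh.two t) L a k *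
      ∑ i ∈ Finset.range (L.length - k + 1), dm (L.drop k) 0 i *
        (if (GT.g3 (Sh.two t) a k i).j < t then Ph w L h U b t (.g3 _ a k i) else 0)| ≤
      ∑ y ∈ Finset.range t, dm L 0 y * ((2 * ex L y - dm L 0 y) * β y) := by
    rw [sum_cw_eq]
    refine (abs_Wn_le _ hM (G' := fun _ k => ∑ i ∈ Finset.range (L.length - k + 1),
      dm (L.drop k) 0 i * (if i + k < t then β (i + k) else 0)) fun a k hk => ?_).trans ?_
    · refine (Finset.abs_sum_le_sum_abs _ _).trans (Finset.sum_le_sum fun i hi => ?_)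
      have d0 := dm_nonneg (Cav22.mono_drop k hM) i
      rw [abs_mul, abs_of_nonneg d0]
      refine mul_le_mul_of_nonneg_left ?_ d0
      show |if i + k < t then _ else _| ≤ _
      split_ifs with x
      · exact hβ _ (.g3 a (by omega)) x
      · simp
    rw [← sum_cw_eq, cw', Finset.sum_congr rfl fun k hk => by
      rw [sum_dm_drop L (r hk) fun y => if y < t then β y else 0]]
    have e : ∀ k ∈ Finset.range (L.length + 1), ν k * (ex L k * (if k < t then β k else 0) +
        ∑ y ∈ Finset.Ioc k L.length, dm L 0 y * if y < t then β y else 0) =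
        (if k < t then dm L 0 k * (ex L k * β k) else 0) + ∑ y ∈ Finset.range t,
          if k < y then dm L 0 k * (dm L 0 y * β y) else 0 := fun k _ => by
      split_ifs with x
      · rw [ν0 k x, mul_add, Finset.mul_sum]
        simp only [mul_ite, mul_zero, ← Finset.sum_filter]
        congr 2
        ext y
        simp only [Finset.mem_filter, Finset.mem_range, Finset.mem_Ioc]
        omega
      · rw [Finset.sum_eq_zero fun y hy => by
          rw [if_neg (by have := Finset.mem_Ioc.1 hy; omega), mul_zero],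
          Finset.sum_eq_zero fun y hy => if_neg (by have := Finset.mem_range.1 hy; omega)]
        simp
    rw [Finset.sum_congr rfl e, Finset.sum_add_distrib, sum_lt ht, Finset.sum_comm,
      ← Finset.sum_add_distrib]
    refine (Finset.sum_congr rfl fun y hy => ?_).le
    have := sum_dm L 0 y
    rw [Finset.sum_range_succ] at this
    rw [sum_lt ((Finset.mem_range.1 hy).le.trans ht), ← Finset.sum_mul,
      eq_sub_of_add_eq this]
    ring
  have s4 : |∑ y ∈ Finset.range t, dm L 0 y * (dm L 0 y * f2 w L h U b y y t)| ≤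
      ∑ y ∈ Finset.range t, dm L 0 y * (dm L 0 y * β y) :=
    (Finset.abs_sum_le_sum_abs _ _).trans (Finset.sum_le_sum fun y hy => by
      have d0 := dm_nonneg hM y
      rw [abs_mul, abs_mul, abs_of_nonneg d0]
      gcongr
      exact β0 y (Finset.mem_range.1 hy))
  rw [sg, e0, s1]
  simp only [mul_add (cw _ _ _ _), Finset.sum_add_distrib, s2]
  simp only [mul_add (dm L 0 _), Finset.sum_add_distrib]
  have s5 : 2 * ∑ y ∈ Finset.range t, dm L 0 y * (ex L y * β y) =
      ∑ y ∈ Finset.range t, dm L 0 y * ((2 * ex L y - dm L 0 y) * β y) +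
        ∑ y ∈ Finset.range t, dm L 0 y * (dm L 0 y * β y) := by
    rw [← Finset.sum_add_distrib, Finset.mul_sum]
    exact Finset.sum_congr rfl fun _ _ => by ring
  rw [abs_le] at s3 s4 ⊢
  constructor <;> linarith [s3.1, s3.2, s4.1, s4.2]

theorem avg_le (hM : Mono 0 L) {S : Finset ℕ} (hS : ∀ k ∈ S, k ≤ L.length) {a : ℕ → ℝ} {γ : ℝ}
    (hγ : 0 ≤ γ) (ha : ∀ k ∈ S, |a k| ≤ γ) : |∑ k ∈ S, dm L 0 k * a k| ≤ γ := by
  refine (Finset.abs_sum_le_sum_abs _ _).trans ((Finset.sum_le_sum
    (g := fun k => dm L 0 k * γ) fun k hk => ?_).trans ?_)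
  · rw [abs_mul, abs_of_nonneg (dm_nonneg hM k)]
    exact mul_le_mul_of_nonneg_left (ha k hk) (dm_nonneg hM k)
  · have h1 := sum_dm L 0 L.length
    rw [ex_length, sub_zero] at h1
    rw [← Finset.sum_mul]
    exact mul_le_of_le_one_left hγ (h1 ▸ Finset.sum_le_sum_of_subset_of_nonneg (fun k hk =>
      Finset.mem_range.2 (Nat.lt_succ_of_le (hS k hk))) fun i _ _ => dm_nonneg hM i)

theorem on_tail (hM : Mono 0 L) {μ : ℕ → ℝ} {γ : ℝ} {y i K : ℕ} (hK : K ≤ L.length)
    (h1 : |∑ t ∈ Finset.Ico i K, μ t * f1 w L h U b y t| ≤ γ)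
    (h2 : ∀ m, i ≤ m → m ≤ K → |∑ t ∈ Finset.Ico m K, μ t * f2 w L h U b y t t| ≤ γ)
    (h3 : ∀ k m, i ≤ m → m ≤ K → |∑ t ∈ Finset.Ico m K, μ t * f2 w L h U b y k t| ≤ γ) :
    |∑ t ∈ Finset.Ico i K, μ t * on w L h U b y t| ≤ 12 * γ := by
  have γ0 := (abs_nonneg _).trans h1
  have tl : ∀ G : ℕ → ℝ, (∀ m, i ≤ m → m ≤ K → |∑ t ∈ Finset.Ico m K, G t| ≤ γ) → ∀ k,
      |∑ t ∈ Finset.Ico i K, if k ≤ t then G t else 0| ≤ γ := fun G hG k => by
    rw [← Finset.sum_filter, show (Finset.Ico i K).filter (k ≤ ·) = Finset.Ico (max i k) K from by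
      ext t; simp only [Finset.mem_filter, Finset.mem_Ico]; omega]
    rcases le_total (max i k) K with x | x
    · exact hG _ (le_max_left _ _) x
    · rwa [Finset.Ico_eq_empty_of_le x, Finset.sum_empty, abs_zero]
  have a2 := avg_le hM (S := Finset.range (L.length + 1))
    (fun k hk => Nat.lt_succ_iff.1 (Finset.mem_range.1 hk)) γ0 fun k _ => tl _ h2 k
  have a3 := avg_le hM (S := Finset.Ioc y L.length) (fun k hk => (Finset.mem_Ioc.1 hk).2) γ0
    fun k _ => tl _ (h3 k) 0
  have a4 := avg_le hM (S := Finset.Ioc y L.length) (fun k hk => (Finset.mem_Ioc.1 hk).2) γ0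
    fun k _ => tl _ (h3 k) k
  simp only [Nat.zero_le, if_true] at a3
  simp only [Finset.mul_sum] at a2 a3 a4
  rw [Finset.sum_comm] at a2 a3 a4
  have e : ∀ t ∈ Finset.Ico i K, μ t * on w L h U b y t = -4 * (μ t * f1 w L h U b y t) +
      2 * ∑ k ∈ Finset.range (L.length + 1), dm L 0 k *
        (if k ≤ t then μ t * f2 w L h U b y t t else 0) +
      2 * (2 * ∑ k ∈ Finset.Ioc y L.length, dm L 0 k * (μ t * f2 w L h U b y k t) -
        ∑ k ∈ Finset.Ioc y L.length, dm L 0 k *
          if k ≤ t then μ t * f2 w L h U b y k t else 0) := fun t ht => by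
    have := sum_dm L 0 t
    rw [sub_zero, ← sum_lt (n := L.length) (by have := Finset.mem_Ico.1 ht; omega)] at this
    rw [on, ← this, mul_add, mul_add, mul_left_comm (μ t), mul_left_comm (μ t), mul_left_comm (μ t) 2,
      Finset.sum_mul, Finset.mul_sum _ _ (μ t), Finset.mul_sum _ _ (μ t), Finset.mul_sum _ _ 2,
      Finset.mul_sum (Finset.Ioc _ _) (fun k => dm L 0 k * (μ t * _)) 2, ← Finset.sum_sub_distrib,
      Finset.mul_sum (Finset.range _) _ 2]
    congr 2
    · exact Finset.sum_congr rfl fun k _ => by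
        simp only [Nat.lt_succ_iff]
        split_ifs <;> ring
    · exact Finset.sum_congr rfl fun k _ => by
        rcases lt_or_ge t k with x | x
        · rw [if_pos x, if_neg x.not_ge]; ring
        · rw [if_neg x.not_gt, if_pos x]; ring
  rw [Finset.sum_congr rfl e]
  simp only [Finset.sum_add_distrib, ← Finset.mul_sum, Finset.sum_sub_distrib]
  rw [abs_le] at h1 a2 a3 a4 ⊢
  constructor <;> linarith [h1.1, h1.2, a2.1, a2.2, a3.1, a3.2, a4.1, a4.2]

/-- **tails of the path functional** -/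
theorem on_env (hw : Wt w) (hM : Mono 0 L) {μ F ε : ℕ → ℝ} {γ A A' : ℝ} {y i K : ℕ}
    (hK : K ≤ L.length) (HA : TE w (Sh.two y) L h (fun x => |pr2 y (b y) x|) ≤ A)
    (HA' : ∀ x x', |b y x x'| ≤ A') (F0 : ∀ j, 0 ≤ F j)
    (hγ : ∀ j, i ≤ j → A * F j + A' * ε j ≤ γ)
    (H1 : ∀ j, i ≤ j → pE w L h (fun g x => max (|∑ t ∈ Finset.Ico j K,
      μ t * Pf w (L.drop t) (st L t h g) (U t x)| - F j) 0) ≤ ε j)
    (H2 : ∀ j, i ≤ j → pE w L h (fun g _ => max (|∑ t ∈ Finset.Ico j K,
      μ t * qf (P w (L.drop t) (st L t h g)) (U t)| - F j) 0) ≤ ε j) :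
    |∑ t ∈ Finset.Ico i K, μ t * on w L h U b y t| ≤ 12 * γ := by
  have y1 : ∀ j x, Eg fun z => Pf w (L.drop j) z (U j x) := fun j x => eg_Pf hw _ _
  obtain ⟨z, -⟩ := Finset.exists_ne_zero_of_sum_ne_zero hw.pos.ne'
  have hA' : 0 ≤ A' := (abs_nonneg _).trans (HA' z z)
  have T := fun t => Cw55.three hw (Sh.two y) L h (fun _ => U t) (pr2 y (b y)) (Sh.twoL y)
  refine on_tail hM hK ?_ (fun m x _ => ?_) fun k m x _ => ?_
  · simp only [f1, Ps, fun t => (T t).1 t]
    exact (Cw55.tail_env hw _ _ L h (G := fun _ x => pr2 y (b y) x) (fun _ => Eg.const _) _ _ y1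
      (F0 i) hA' HA (fun _ x => HA' _ _) (H1 i le_rfl)).trans (hγ i le_rfl)
  · simp only [f2, Ps, fun t => (T t).2.2 t]
    exact (Cw55.tail_env hw _ _ L h (G := fun _ x => pr2 y (b y) x) (fun _ => Eg.const _) _ _
      (Y := fun j _ z => qf (P w (L.drop j) z) (U j)) (fun j _ => eg_qf hw _ _) (F0 m) hA' HA
      (fun _ x => HA' _ _) (H2 m x)).trans (hγ m x)
  · simp only [f2, Ps, fun t => (T t).2.1 k t]
    exact (Cw55.tail_env hw _ _ L h
      (G := fun _ x => pr2 y (b y) fun c => x (Sh.emb _ (Sh.twoL y) k c))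
      (fun _ => Eg.const _) _ _ y1 (F0 m) hA'
      ((TE_emb hw _ _ k L h fun x => |pr2 y (b y) x|).trans_le HA)
      (fun _ x => HA' _ _) (H1 m x)).trans (hγ m x)

theorem on_zero (hw : Wt w) {y : ℕ} (hb : ∀ x x', b y x x' = 0) (t : ℕ) :
    on w L h U b y t = 0 := by
  have : ∀ σ, Ps w L h U b y t σ = 0 := fun σ =>
    (congrArg _ (funext fun x => by rw [GT.ev, pr2, hb, zero_mul])).trans (Law.TE_const hw _ L h 0)
  simp [on, f1, f2, this]

/-- Hölder `3, 3/2` -/
theorem Ph_le (hw : Wt w) {t : ℕ} (ht : t ≤ L.length) {τ : GT (Sh.two t)} (H : τ.Mem _ L.length)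
    {c : ℝ} (hc : 0 ≤ c) {V : Ω → Ω → ℝ} (hb : ∀ x x', |b τ.j x x'| ≤ c * V x x' ^ 2) :
    |Ph w L h U b t τ| ≤ pi2 w L t (fun x y => |U t x y| ^ 3) h ^ (1 / 3 : ℝ) *
      (c * (pi2 w L τ.j (fun x y => |V x y| ^ 3) h ^ (1 / 3 : ℝ)) ^ 2) := by
  have p0 := pi2_nonneg hw L τ.j (K := fun x y => |V x y| ^ 3) (fun _ _ => by positivity) h
  refine (abs_ev_le hw H h (p := 3) (q := 3 / 2) (by rw [holderConjugate_iff]; norm_num) b _).trans
    (mul_le_mul (le_of_eq ?_) ?_ (rpow_nonneg (pi2_nonneg hw L _ (fun _ _ => by positivity) h) _)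
      (rpow_nonneg (pi2_nonneg hw L _ (fun _ _ => by positivity) h) _))
  · congr 1
    refine (Tay38.TE_pair hw (fun x y => |U t x y| ^ (3 : ℝ)) _ L h _ _ (two_ne t)).trans ?_
    rw [shr_two, min_eq_left ht]
    simp only [← rpow_natCast, Nat.cast_ofNat]
  · refine (rpow_le_rpow (pi2_nonneg hw L _ (fun _ _ => by positivity) h) (pi2_mono hw L _
      (K' := fun x y => c ^ (3 / 2 : ℝ) * |V x y| ^ 3) (fun x y => ?_) h) (by norm_num)).trans_eq ?_
    · refine (rpow_le_rpow (abs_nonneg _) (hb x y) (by norm_num)).trans_eq ?_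
      rw [mul_rpow hc (sq_nonneg _), ← sq_abs, ← rpow_natCast, ← rpow_mul (abs_nonneg _),
        ← rpow_natCast]
      norm_num
    · rw [pi2_const_mul, mul_rpow (rpow_nonneg hc _) p0, ← rpow_mul hc, ← rpow_natCast,
        ← rpow_mul p0]
      norm_num

end gen

open Mul55

variable {D : CD} {τ0 : ℝ}

/-- the spin-free letter of the cell `c` -/
abbrev bK (D : CD) (c : Bool) : ℕ → Cube D.n → Cube D.n → ℝ :=
  (lt D.n D.β D.M D.q D.cl (c, false)).1

/-- the pair `U_t` differentiated along the letter `b` -/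
def R (D : CD) (c : Bool) (t : ℕ) : ℝ :=
  twoF t (oU D.q t) (Dop D.B (lt D.n D.β D.M D.q D.cl (c, false)).1 (TEf (fun _ => 1) D.B 0))

theorem R_eq (D : CD) (c : Bool) (t : ℕ) : R D c t =
    sg (-1) D.B (Sh.two t) (Ph (fun _ => 1) D.B 0 (oU D.q) (bK D c) t) := Dop_eq_sg _ _ _ _ _

theorem bK_eq (D : CD) (c : Bool) (y : ℕ) (x x' : Cube D.n) : bK D c y x x' =
    if decide (y ≤ D.J) = c then -(D.τ y / 4) * oU D.q y x x' ^ 2 else 0 := by
  show (if decide (y ≤ D.J) = c then _ else (0 : Cube D.n → Cube D.n → ℝ)) x x' = _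
  split_ifs <;> rfl

theorem lev_le (H : D.Ok τ0) {t : ℕ} (ht : t ≤ D.K) {F : ℕ → ℝ} (hF : ∀ j, 0 ≤ F j) :
    sg 1 D.B (Sh.two t) (fun τ => F τ.j) ≤ 40 * (2 * F t + ∑ j ∈ Finset.range D.K, D.dx j * F j) := by
  have := Apt7.sg_level H.mono (ht.trans_eq D.B_len.symm) hF
  rwa [D.B_len, Finset.sum_range_succ, show dm D.B 0 D.K = 0 from H.top, zero_mul, add_zero] at this

/-- the clamped low letter -/
def bc (D : CD) (y : ℕ) (x x' : Cube D.n) : ℝ :=
  if y ≤ D.J then -(D.τ y / 4) * min (oU D.q y x x' ^ 2) (D.X ^ 2) else 0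

theorem bc_le (H : D.Ok τ0) (y : ℕ) (x x' : Cube D.n) :
    |bc D y x x'| ≤ if y ≤ D.J then τ0 / 4 * D.X ^ 2 else 0 := by
  have t := H.tau_mem y
  have m := le_min (sq_nonneg (oU D.q y x x')) (sq_nonneg D.X)
  unfold bc
  split_ifs
  · rw [neg_mul, abs_neg, abs_of_nonneg (mul_nonneg (by linarith) m)]
    exact mul_le_mul (by linarith) (min_le_right _ _) m (by linarith)
  · simp

theorem bc_err (H : D.Ok τ0) (y : ℕ) :
    D.E2 y (fun x x' => |bK D true y x x' - bc D y x x'|) ≤ τ0 / 2 * D.tl := by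
  have t := H.tau_mem y
  have z := mul_nonneg (div_nonneg H.tau0 zero_le_two) H.tl0
  by_cases hy : y ∈ D.lo
  · have m := CD.mem_lo.1 hy
    refine (pi2_mono wt_one90 _ _ (K' := fun x x' => τ0 / 2 * max (|T157.G1.ov x x'| - D.X) 0)
      (fun x x' => ?_) _).trans ?_
    · have a := abs_ov_le x x'
      have X0 := H.X0
      rw [bK_eq, bc, if_pos (decide_eq_true m.2), if_pos m.2, oU, H.qlo y m.2, sub_zero, ← mul_sub,
        neg_mul, abs_neg, abs_mul, abs_of_nonneg (by linarith : 0 ≤ D.τ y / 4), ← sq_abs]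
      rcases le_total |T157.G1.ov x x'| D.X with e | e
      · rw [min_eq_left (by gcongr), sub_self, abs_zero, mul_zero]
        exact mul_nonneg (by linarith) (le_max_right _ _)
      · rw [min_eq_right (by gcongr), max_eq_left (by linarith), abs_of_nonneg (by nlinarith)]
        have : |T157.G1.ov x x'| ^ 2 - D.X ^ 2 ≤ 2 * (|T157.G1.ov x x'| - D.X) := by nlinarith
        nlinarith
    · rw [pi2_const_mul]
      exact mul_le_mul_of_nonneg_left (H.envL y hy) (by linarith)
  · refine le_trans (le_of_eq ((congrArg (pi2 _ _ _ · _) (funext₂ fun x x' => ?_)).trans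
      (pi2_const wt_one90 _ _ 0 _))) z
    rw [bK_eq, bc]
    by_cases e : y ≤ D.J
    · obtain rfl : y = 0 := by have := mt CD.mem_lo.2 hy; omega
      simp [oTau, dAcc]
    · simp [e]

/-- **the low letter** -/
theorem tailL : ∃ C : ℝ, 0 ≤ C ∧ ∀ (τ0 : ℝ) (D : CD), D.Ok τ0 → ∃ On : ℕ → ℝ,
    (∀ t ∈ D.up, |R D true t - On t| ≤ C * τ0 * (D.X ^ 4 * D.g t + D.tl)) ∧
    ∀ μ G : ℕ → ℝ, Antitone G → (∀ j, D.J < j →
      pE (fun _ => 1) D.B 0 (fun p _ => |∑ t ∈ Finset.Ico j D.K, μ t * D.nd t p|) ≤ G j ∧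
      pE (fun _ => 1) D.B 0 (fun p x => |∑ t ∈ Finset.Ico j D.K, μ t * D.lf t p x|) ≤ G j) →
      ∀ i, D.J < i → |∑ t ∈ Finset.Ico i D.K, μ t * On t| ≤ C * τ0 * (D.X ^ 3 * G i) := by
  refine ⟨120, by norm_num, fun τ0 D H => ⟨fun t => ∑ y ∈ Finset.range (D.J + 1),
    D.dx y * on (fun _ => 1) D.B 0 (oU D.q) (bc D) y t, fun t ht => ?_, fun μ G hG h i hi => ?_⟩⟩
  all_goals
    have t0 := H.tau0
    have X0 := H.X0
    have l := D.B_len
    have sX : ∑ y ∈ Finset.range (D.J + 1), D.dx y ≤ D.X := (H.sum_dx _).trans_le H.x1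
  · have m := CD.mem_up.1 ht
    have tl0 := H.tl0
    have g0 := D.g0 t
    have sub : Finset.range (D.J + 1) ⊆ Finset.range t := Finset.range_mono m.1
    have h1 := low_eq wt_one90 (h := 0) H.mono (Cw55.oU_comm D.q) (b := bc D)
      (fun j x y => by rw [bc, bc, Cw55.oU_comm]) (t := t) (by omega)
      (β := fun y => if y ≤ D.J then D.g t * (τ0 / 4 * D.X ^ 2) else 0) fun τ hτ _ => by
        refine (Ph_le wt_one90 (by omega) hτ (c := if τ.j ≤ D.J then τ0 / 4 * D.X ^ 2 else 0)
          (by positivity) (V := fun _ _ => 1) fun x x' => by simpa using bc_le H _ x x').trans_eq ?_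
        rw [pi2_const wt_one90]
        split_ifs <;> simp [CD.g, uM]
    have h2 := (abs_sg_le H.mono (Sh.two t) (Ψ := fun _ => τ0 * D.tl)
      (Φ := fun τ => Ph (fun _ => 1) D.B 0 (oU D.q) (bK D true) t τ - if τ.j < t then
        Ph (fun _ => 1) D.B 0 (oU D.q) (bc D) t τ else 0) fun τ hτ => by
      rw [show (if τ.j < t then Ph (fun _ => 1) D.B 0 (oU D.q) (bc D) t τ else 0) =
        Ph (fun _ => 1) D.B 0 (oU D.q) (bc D) t τ from ite_eq_left_iff.2 fun e => ((congrArg _
          (funext fun x => by rw [GT.ev, bc, if_neg (by omega), mul_zero])).trans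
            (Law.TE_const wt_one90 _ _ _ 0)).symm, Ph, Ph, ← Law.TE_sub wt_one90]
      refine (abs_TE_le' wt_one90 _ _ _ (F' := fun x =>
        2 * |bK D true τ.j (x τ.p) (x τ.q) - bc D τ.j (x τ.p) (x τ.q)|) fun x => ?_).trans ?_
      · rw [GT.ev, GT.ev, ← mul_sub, abs_mul]
        exact mul_le_mul_of_nonneg_right (abs_oU_le H.ook m.2.le _ _) (abs_nonneg _)
      · rw [Law.TE_const_mul wt_one90, hτ.TE_pair wt_one90 0
          fun x x' => |bK D true τ.j x x' - bc D τ.j x x'|]
        linarith [show pi2 _ _ _ _ _ ≤ _ from bc_err H τ.j]).trans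
      (lev_le H m.2.le (F := fun _ => τ0 * D.tl) fun _ => by positivity)
    rw [sg_sub, ← R_eq, ← Finset.sum_mul] at h2
    rw [← Finset.sum_subset sub fun y _ hy => by
        rw [on_zero wt_one90 fun x x' => if_neg (by simpa using hy), mul_zero],
      ← Finset.sum_subset sub fun y _ hy => by rw [if_neg (by simpa using hy)]; simp] at h1
    have h3 : ∑ y ∈ Finset.range (D.J + 1), dm D.B 0 y * (ex D.B y *
        if y ≤ D.J then D.g t * (τ0 / 4 * D.X ^ 2) else 0) ≤
        D.X * (D.X * (D.g t * (τ0 / 4 * D.X ^ 2))) := by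
      refine (Finset.sum_le_sum (g := fun y => D.dx y * (D.X * (D.g t * (τ0 / 4 * D.X ^ 2))))
        fun y hy => mul_le_mul_of_nonneg_left ?_ (H.dx0 y)).trans ?_
      · have e := Nat.lt_succ_iff.1 (Finset.mem_range.1 hy)
        rw [if_pos e, ← H.sum_dx]
        exact mul_le_mul_of_nonneg_right ((H.sum_dx_le fun i hi => by
          have := Finset.mem_range.1 hi; omega).trans H.x1) (by positivity)
      · rw [← Finset.sum_mul]
        exact mul_le_mul_of_nonneg_right sX (by positivity)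
    have h4 := mul_le_mul_of_nonneg_right (H.sum_dx_one (A := Finset.range D.K)
      fun i hi => (Finset.mem_range.1 hi).le) (mul_nonneg t0 tl0)
    have h5 : 0 ≤ τ0 * (D.X ^ 4 * D.g t) := by positivity
    rw [abs_le] at h1 h2 ⊢
    constructor <;> nlinarith [h1.1, h1.2, h2.1, h2.2]
  · have G0 : 0 ≤ G i := le_trans (Sd.tX_nonneg wt_one90 .one D.B 0 (fun _ _ => abs_nonneg _)
      |>.trans_eq (Tr.tX_one _ _ _ _)) (h i hi).1
    simp only [Finset.mul_sum, mul_left_comm (μ _)]
    rw [Finset.sum_comm]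
    simp only [← Finset.mul_sum]
    refine (Finset.abs_sum_le_sum_abs _ _).trans ((Finset.sum_le_sum
      (g := fun y => D.dx y * (12 * (τ0 / 4 * D.X ^ 2 * G i))) fun y hy => ?_).trans ?_)
    · have e := fun x x' => (bc_le H y x x').trans_eq
        (if_pos (Nat.lt_succ_iff.1 (Finset.mem_range.1 hy)))
      rw [abs_mul, abs_of_nonneg (H.dx0 y)]
      refine mul_le_mul_of_nonneg_left (on_env wt_one90 H.mono (F := fun _ => 0) (ε := G) l.ge
        le_rfl e (fun _ => le_rfl) (fun j hj => ?_) (fun j hj => ?_) fun j hj => ?_) (H.dx0 y)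
      · rw [mul_zero, zero_add]
        exact mul_le_mul_of_nonneg_left (hG hj) (by positivity)
      · simp only [sub_zero, abs_nonneg, max_eq_left]
        exact (h j (by omega)).2
      · simp only [sub_zero, abs_nonneg, max_eq_left]
        exact (h j (by omega)).1
    · rw [← Finset.sum_mul]
      refine (mul_le_mul_of_nonneg_right sX (by positivity)).trans ?_
      nlinarith [show 0 ≤ τ0 * (D.X ^ 3 * G i) by positivity]

theorem pE_env {φ : (NI D.B → ℝ) → Cube D.n → ℝ} (hφ : ∀ x, Eg fun g => φ g x) {F ε : ℝ}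
    (h : pE (fun _ => 1) D.B 0 (fun g x => max (|φ g x| - F) 0) ≤ ε) :
    pE (fun _ => 1) D.B 0 (fun g x => |φ g x|) ≤ F + ε := by
  have e : ∀ x, Eg fun g => max (|φ g x| - F) 0 := fun x => by
    have h1 := (hφ x).abs.sub (Eg.const F)
    convert (h1.add h1.abs).const_mul (1 / 2) using 2 with g
    rcases le_total (|φ g x| - F) 0 with z | z
    · rw [max_eq_right z, abs_of_nonpos z]; ring
    · rw [max_eq_left z, abs_of_nonneg z]; ring
  refine (Eg33.pE_mono' wt_one90 D.B 0 (fun x => (hφ x).abs) (fun x => (Eg.const F).add (e x))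
    fun g x => sub_le_iff_le_add'.1 (le_max_left _ _)).trans ?_
  rw [Eg33.pE_add' wt_one90 D.B 0 (fun _ => Eg.const F) e]
  exact add_le_add (le_of_eq (by simpa using Pe.pE_node1 wt_one90 (Eg.const F) D.B 0 0)) h

/-- the hypothesis of `tailL` from the weak inputs -/
theorem wk_L1 {μ F f : ℕ → ℝ} (h : D.Wk μ F f) (j : ℕ) (hj : D.J < j) :
    pE (fun _ => 1) D.B 0 (fun p _ => |∑ t ∈ Finset.Ico j D.K, μ t * D.nd t p|) ≤ F j + D.tl ∧
    pE (fun _ => 1) D.B 0 (fun p x => |∑ t ∈ Finset.Ico j D.K, μ t * D.lf t p x|) ≤ F j + D.tl := by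
  rw [← Cw55.tail_eq D hj]
  exact ⟨pE_env (φ := fun p _ => ∑ t ∈ D.tail j, μ t * D.nd t p) (fun _ => Eg.sum _ fun t _ =>
      (Pe.eg_st D.B 0 t (Cw55.eg_Yn D t)).const_mul (μ t)) (h.envN j),
    pE_env (φ := fun p x => ∑ t ∈ D.tail j, μ t * D.lf t p x) (fun x => Eg.sum _ fun t _ =>
      (Pe.eg_st D.B 0 t (Cw55.eg_Yl D t x)).const_mul (μ t)) (h.envL j)⟩

end Crest.Agent.T156.Cas.C40.Ab83

end
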