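import Crest.Agent.T156.MulB_55

/-!
# Row 156, block C: a low letter on a shape without low pairs costs the low weight (helper4)
-/

set_option autoImplicit false
set_option linter.all false

noncomputable section

namespace Crest.Agent.T156.Cas.Low4

open MeasureTheory Real Set Filter Topology
open Crest.Agent.T157.E Crest.Agent.T157.Casc Crest.Agent.T157.SL
open Tay38 Wt87 Mul55

variable {Ω : Type} {M : List (Lv Ω)} {g : ℕ → ℝ}

/-- indicator of the low levels -/
def chi (J j : ℕ) : ℝ := if j ≤ J then 1 else 0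

theorem chi_nonneg (J j : ℕ) : 0 ≤ chi J j := by unfold chi; split_ifs <;> norm_num

theorem Nv_lin (a b : ℝ) (g g' : ℕ → ℝ) (s : Sh) :
    Nv M (fun j => a * g j + b * g' j) s = a * Nv M g s + b * Nv M g' s := by
  have := Nv_sum (ι := Bool) M (fun i => cond i a b) (fun i => cond i g g') s
  simpa only [Fintype.sum_bool, cond_true, cond_false] using this

theorem Nv_chi (hM : Mono 0 M) {J : ℕ} (s : Sh) (hs : ∀ a b : s.Lf, J < s.shr a b M.length) :
    Nv M (chi J) s = ex M J := by
  have hJ : J < M.length := (hs s.fst s.fst).trans_le (shr_le _ _ _ _)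
  have e1 : prs s (fun a b => chi J (s.shr a b M.length)) = 0 :=
    Finset.sum_eq_zero fun a _ => Finset.sum_eq_zero fun b _ => by
      simp [chi, not_le.2 (hs a b)]
  have e2 := sum_dm M 0 J
  rw [Nv, e1, zero_add, ← sub_zero (ex M J), ← e2]
  symm
  refine (Finset.sum_subset (fun j hj => Finset.mem_range.2 (by
    have := Finset.mem_range.1 hj; omega)) fun j _ hj => ?_ : ∑ j ∈ Finset.range (J + 1),
      dm M 0 j * chi J j = _).symm.trans ?_ |>.symm
  · rw [chi, if_neg (fun h => hj (Finset.mem_range.2 (Nat.lt_succ_of_le h))), mul_zero]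
  · exact Finset.sum_congr rfl fun j hj => by
      rw [chi, if_pos (Nat.lt_succ_iff.1 (Finset.mem_range.1 hj)), mul_one]

/-- **one low step** -/
theorem abs_Dop_low (hM : Mono 0 M) (hg : ∀ j, 0 ≤ g j) {J : ℕ} (hgJ : ∀ j ≤ J, g j = 0)
    {S : ℕ → Ω → Ω → ℝ} {Λ : Fn Ω} (s : Sh) (hs : ∀ a b : s.Lf, J < s.shr a b M.length)
    (F : (s.Lf → Ω) → ℝ) {α β : ℝ} (hα : 0 ≤ α) (hβ : 0 ≤ β)
    (H : ∀ (s' : Sh) (e : s.Lf → s'.Lf) (c d : s'.Lf) (i : ℕ), c ≠ d → s'.shr c d M.length = i →
      ((∃ h : s = s', e = h ▸ id) ∨ (∃ a j, ∃ h : s.graft a j = s', e = h ▸ s.emb a j) ∨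
        ∃ a j a' j', ∃ h : (s.graft a j).graft a' j' = s',
          e = h ▸ fun b => (s.graft a j).emb a' j' (s.emb a j b)) →
      |Λ s' fun x => F (fun b => x (e b)) * S i (x c) (x d)| ≤ chi J i * (α + β * Nv M g s')) :
    |Dop M S Λ s F| ≤ 43 * (Fintype.card s.Lf : ℝ) ^ 3 * (ex M J * (α + β * Nv M g s)) := by
  obtain ⟨r, hr⟩ : ∃ r : ℝ, r = (Fintype.card s.Lf : ℕ) := ⟨_, rfl⟩
  obtain ⟨N, hN⟩ : ∃ N, N = Nv M g s := ⟨_, rfl⟩
  obtain ⟨x, hx⟩ : ∃ x, x = ex M J := ⟨_, rfl⟩
  rw [← hr, ← hN, ← hx]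
  have r1 : 1 ≤ r := hr ▸ one_le_card s
  have N0 : 0 ≤ N := hN ▸ Nv_nonneg hM hg s
  have x0 : 0 ≤ x := hx ▸ Nv_chi hM s hs ▸ Nv_nonneg hM (chi_nonneg J) s
  have g1 : ∀ a j, j ≤ M.length → Nv M g (s.graft a j) ≤ 3 * N + 2 * r * g j :=
    fun a j hj => hr ▸ hN ▸ Nv_graft hM hg s a hj
  have aff : ∀ {X : s.Lf → ℕ → ℝ} {α β γ : ℝ}, 0 ≤ β → 0 ≤ γ →
      (∀ a j, j ≤ M.length → |X a j| ≤ α + β * g j + γ * chi J j) →
      |∑ a, ∑ j ∈ Finset.range (M.length + 1), cw s M a j * X a j| ≤ r * (α + β * N + γ * x) :=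
    fun {X α β γ} h1 h2 h3 => by
      have := sum_cw_aff (g := fun j => β * g j + γ * chi J j) hM
        (fun j => add_nonneg (mul_nonneg h1 (hg j)) (mul_nonneg h2 (chi_nonneg J j))) s (X := X)
        (α := α) zero_le_one fun a j hj => by rw [one_mul, ← add_assoc]; exact h3 a j hj
      rwa [Nv_lin, Nv_chi hM s hs, one_mul, ← add_assoc, ← hr, ← hN, ← hx] at this
  have crd : ∀ {X : s.Lf → ℝ} {c : ℝ}, (∀ a, |X a| ≤ c) → |∑ a, X a| ≤ r * c :=
    fun h => hr ▸ abs_sum_le_card h
  have g2 : ∀ a j a' j', j ≤ M.length → j' ≤ M.length → Nv M g ((s.graft a j).graft a' j') ≤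
      9 * N + 6 * r * g j + 4 * r * g j' := fun a j a' j' hj hj' => by
    have h1 := Nv_graft hM hg (s.graft a j) a' hj'
    have h2 := g1 a j hj
    have h3 := mul_nonneg (sub_nonneg.2 r1) (hg j')
    rw [card_graft] at h1
    push_cast at h1
    rw [← hr] at h1
    linarith
  have lv : ∀ a b j, j ≤ M.length → chi J (s.shr a b j) = chi J j := fun a b j hj => by
    have h1 := shr_min s a b j M.length
    have h2 := hs a b
    rw [min_eq_left hj] at h1
    unfold chi
    exact if_congr (by omega) rfl rfl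
  have b1 : |Dop1 M S Λ s F| ≤ r * (r * 0) :=
    crd fun a => crd fun b => by
      split_ifs with hab
      · rw [abs_zero]
      · refine (H s id a b _ hab rfl (.inl ⟨rfl, rfl⟩)).trans ?_
        rw [chi, if_neg (not_le.2 (hs a b)), zero_mul]
  have k1 : ∀ a b c j, j ≤ M.length → chi J (s.shr b c j) * (α + β * Nv M g (s.graft a j)) ≤
      (α + 3 * β * N) * chi J j := fun a b c j hj => by
    rw [lv b c j hj]
    unfold chi
    split_ifs with h
    · have := mul_le_mul_of_nonneg_left (g1 a j hj) hβ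
      rw [hgJ j h] at this
      linarith
    · simp
  have b2 : |Dop2 M S Λ s F| ≤ r * (0 + 0 * N + 2 * r * (α + 3 * β * N) * x) := by
    refine aff le_rfl (by positivity) fun a j hj => (abs_add_le _ _).trans ?_
    have h1 := crd fun b => (H _ (s.emb a j) (s.emb a j b) (s.nw a j) (s.shr b a j)
      (emb_ne s a j b) (by rw [shr_nw, min_eq_left hj]) (.inr (.inl ⟨a, j, rfl, rfl⟩))).trans
        (k1 a b a j hj)
    have h2 := crd fun b => (H _ (s.emb a j) (s.nw a j) (s.emb a j b) (s.shr a b j)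
      (emb_ne s a j b).symm (by rw [shr_nw', min_eq_left hj, shr_comm])
        (.inr (.inl ⟨a, j, rfl, rfl⟩))).trans (k1 a a b j hj)
    linarith
  have hA : 0 ≤ α + 9 * β * N := by positivity
  have b3 : |Dop3 M S Λ s F| ≤ r * (r * x * (α + 9 * β * N) + 4 * r ^ 2 * β * x * N +
      (r * (α + 9 * β * N + 6 * r * β * N) + (α + 9 * β * N)) * x) := by
    refine aff (by positivity) (by positivity) fun a j hj => (abs_add_le _ _).trans ?_
    have c0 := chi_nonneg J j
    have g0 := hg j
    have h1 := aff (α := chi J j * (α + 9 * β * N)) (β := chi J j * (6 * r * β))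
      (γ := α + 9 * β * N + 4 * r * β * g j)
      (by positivity) (by positivity) fun b k hk => (H _
        (fun c => (s.graft b k).emb (s.emb b k a) j (s.emb b k c))
        ((s.graft b k).nw (s.emb b k a) j) ((s.graft b k).emb (s.emb b k a) j (s.nw b k))
        (s.shr a b (min j k)) (emb_ne _ _ _ _).symm
        (by rw [shr_nw', min_eq_left hj, shr_nw', min_comm])
        (.inr (.inr ⟨b, k, _, j, rfl, rfl⟩))).trans (by
          have h := mul_le_mul_of_nonneg_left (g2 b k (s.emb b k a) j hk hj) hβ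
          have gk := hg k
          have p1 : 0 ≤ r * β * g j := by positivity
          have p2 : 0 ≤ r * β * g k := by positivity
          rw [lv a b _ ((min_le_left _ _).trans hj)]
          unfold chi
          by_cases h1 : j ≤ J <;> by_cases h2 : k ≤ J
          · rw [if_pos ((min_le_left _ _).trans h1), if_pos h1, if_pos h2]
            linarith
          · rw [if_pos ((min_le_left _ _).trans h1), if_pos h1, if_neg h2]
            rw [hgJ j h1] at h
            linarith
          · rw [if_pos ((min_le_right _ _).trans h2), if_neg h1, if_pos h2]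
            rw [hgJ k h2] at h
            linarith
          · rw [if_neg (by omega), if_neg h1, if_neg h2]
            simp)
    have hd := fun i => dm_nonneg (mono_drop j le_rfl hM) i
    have h2 : ∀ i ∈ Finset.range (M.length - j + 1), _ := fun i hi => by
      have hi' : i + j ≤ M.length := by have := Finset.mem_range.1 hi; omega
      exact mul_le_mul_of_nonneg_left ((H _ (fun b => (s.graft a j).emb (s.nw a j) (i + j)
        (s.emb a j b)) ((s.graft a j).emb (s.nw a j) (i + j) (s.nw a j))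
        ((s.graft a j).nw (s.nw a j) (i + j)) (i + j) (emb_ne _ _ _ _)
        (by rw [shr_nw, shr_self, min_eq_left hi']) (.inr (.inr ⟨a, j, _, _, rfl, rfl⟩))).trans
        (show _ ≤ (α + 9 * β * N) * chi J j by
          have h := mul_le_mul_of_nonneg_left (g2 a j (s.nw a j) (i + j) hj hi') hβ
          by_cases h1 : i + j ≤ J
          · rw [hgJ _ h1, hgJ j (by omega)] at h
            rw [chi, chi, if_pos h1, if_pos (by omega)]
            linarith
          · rw [chi, if_neg h1, zero_mul]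
            positivity)) (hd i)
    have h3 := Finset.sum_le_sum h2
    rw [← Finset.sum_mul] at h3
    have h5 := mul_le_mul_of_nonneg_right (sum_dm_one hM j (M.length - j))
      (show 0 ≤ (α + 9 * β * N) * chi J j by positivity)
    refine (add_le_add h1 ((Finset.abs_sum_le_sum_abs _ _).trans ((Finset.sum_le_sum fun i _ =>
      (by rw [abs_mul, abs_of_nonneg (hd i)] : _ = _).le).trans h3))).trans ?_
    linarith
  have hb : 0 ≤ x * (β * N) := by positivity
  have ha : 0 ≤ x * α := by positivity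
  have r2 : r ≤ r ^ 2 := by nlinarith
  have r3 : r ^ 2 ≤ r ^ 3 := by nlinarith
  have e1 := mul_le_mul_of_nonneg_right r2 ha
  have e2 := mul_le_mul_of_nonneg_right r3 ha
  have e3 := mul_le_mul_of_nonneg_right r2 hb
  have e4 := mul_le_mul_of_nonneg_right r3 hb
  have e5 : 0 ≤ r ^ 3 * (x * α) := by positivity
  have e6 : 0 ≤ r ^ 3 * (x * (β * N)) := by positivity
  refine ((abs_add_le _ _).trans (add_le_add (abs_sub _ _) le_rfl)).trans ?_
  linarith

theorem Nv_le (hM : Mono 0 M) {c : ℝ} (hc : 0 ≤ c) (h : ∀ j ≤ M.length, g j ≤ c) (s : Sh) :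
    Nv M g s ≤ ((Fintype.card s.Lf : ℝ) ^ 2 + 1) * c := by
  have h1 : prs s (fun a b => g (s.shr a b M.length)) ≤ ∑ a : s.Lf, ∑ b : s.Lf, c :=
    Finset.sum_le_sum fun a _ => Finset.sum_le_sum fun b _ => by
      split_ifs
      exacts [hc, h _ (shr_le _ _ _ _)]
  have h2 : ∑ j ∈ Finset.range (M.length + 1), dm M 0 j * g j ≤
      ∑ j ∈ Finset.range (M.length + 1), dm M 0 j * c := Finset.sum_le_sum fun j hj =>
    mul_le_mul_of_nonneg_left (h j (Nat.lt_succ_iff.1 (Finset.mem_range.1 hj))) (dm_nonneg hM j)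
  have h3 : ∑ j ∈ Finset.range (M.length + 1), dm M 0 j ≤ 1 := sum_dm_one hM 0 _
  rw [← Finset.sum_mul] at h2
  simp only [Finset.sum_const, Finset.card_univ, nsmul_eq_mul] at h1
  have := mul_le_mul_of_nonneg_right h3 hc
  rw [Nv]
  nlinarith

variable [Fintype Ω] {w : Ω → ℝ}

/-- the constant -/
def cLow (k q r : ℕ) : ℝ := 43 * ((r : ℝ) + 2 * (k + 1)) ^ 3 * (53 * ((r : ℝ) + 2 * (k + 1)) ^ 3) ^ k *
  ((r : ℝ) + 2 * (k + 1)) ^ (2 * q) * (((r : ℝ) + 2 * (k + 1)) ^ 2 + 1)

theorem cLow_nonneg (k q r : ℕ) : 0 ≤ cLow k q r := by unfold cLow; positivity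

/-- **a word whose first letter is low, on a shape without low pairs** (Young form; `T true` is the
size on the low levels, `T false` the size on the upper levels) -/
theorem abs_WdO_low (hw : Wt w) (hM : Mono 0 M) {T : Bool → ℕ → Ω → Ω → ℝ}
    (hT : ∀ i j x y, 0 ≤ T i j x y) (h : Ω → ℝ) {J : ℕ} (hTU : ∀ j ≤ J, ∀ x y, T false j x y = 0)
    (q : Bool → ℕ) {Q : ℕ} (hQ : ∀ i, q i ≤ Q) {A c : ℝ} {B : Bool → ℝ} (hA : 0 ≤ A)
    (hB : ∀ i, 0 ≤ B i) (hc0 : 0 ≤ c)
    (hc : ∀ j ≤ M.length, pi2 w M j (fun x y => T true j x y ^ (q true + 1)) h ≤ c)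
    {p : (ℕ → Ω → Ω → ℝ) × ((Bool → ℝ) → ℝ)} {U : List ((ℕ → Ω → Ω → ℝ) × ((Bool → ℝ) → ℝ))}
    (hU : ∀ r ∈ p :: U, Dom M.length T r) (hp : ∀ i, J < i → ∀ x y, p.1 i x y = 0)
    (s : Sh) (hs : ∀ a b : s.Lf, J < s.shr a b M.length) {F : (s.Lf → Ω) → ℝ}
    (H : ∀ x d, (∀ i, Dv M.length (T i) s x ≤ d i) →
      |F x| * ((p :: U).map fun r => r.2 d).prod ≤ A + ∑ i, B i * d i ^ (q i + 1)) :
    |WdO M ((p :: U).map Prod.fst) (TEf w M h) s F| ≤ cLow U.length Q (Fintype.card s.Lf) *
      (ex M J * (A + B true * c + B false * momT w M h (T false) (q false + 1) s)) := by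
  obtain ⟨R, hR⟩ : ∃ R : ℝ, R = (Fintype.card s.Lf : ℝ) + 2 * (U.length + 1) := ⟨_, rfl⟩
  have r1 := one_le_card s
  have hk : (0 : ℝ) ≤ U.length := Nat.cast_nonneg _
  have R0 : 0 ≤ R := by linarith
  set C := (53 * R ^ 3) ^ U.length * R ^ (2 * Q) with hC
  have C0 : 0 ≤ C := by positivity
  have hBt := hB true
  have hBf := hB false
  set g : ℕ → ℝ := fun j => pi2 w M j (fun x y => T false j x y ^ (q false + 1)) h with hg'
  have hg : ∀ j, 0 ≤ g j := fun j => pi2_nonneg hw M j (fun x y => pow_nonneg (hT _ j x y) _) h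
  have hgJ : ∀ j ≤ J, g j = 0 := fun j hj => by
    simp only [hg', hTU j hj, zero_pow (Nat.succ_ne_zero _), pi2_const hw]
  have key : ∀ (s' : Sh) (e : s.Lf → s'.Lf) (c' d : s'.Lf) (i : ℕ), c' ≠ d →
      s'.shr c' d M.length = i → (Fintype.card s'.Lf : ℝ) ≤ Fintype.card s.Lf + 2 →
      (∀ k, ∀ x : s'.Lf → Ω, Dv M.length (T k) s (fun b => x (e b)) ≤ Dv M.length (T k) s' x) →
      |WdO M (U.map Prod.fst) (TEf w M h) s' fun x => F (fun b => x (e b)) * p.1 i (x c') (x d)| ≤
        chi J i * (C * (A + B true * ((R ^ 2 + 1) * c)) + C * B false * Nv M g s') :=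
    fun s' e c' d i hcd hi h1 h3 => by
      by_cases hiJ : i ≤ J
      swap
      · simp only [hp i (not_le.1 hiJ), mul_zero, chi, if_neg hiJ, zero_mul]
        have := word_le hw hM hT h q hQ (B := fun _ => 0) (fun _ => le_rfl) (R := R) U
          (fun r hr => hU r (List.mem_cons_of_mem _ hr)) s' (fun _ => 0) (fun _ => 0) (by linarith)
          (fun _ => le_rfl) fun x d' hd => by simp
        simpa [Law.TE_const hw] using this
      rw [chi, if_pos hiJ, one_mul]
      refine (word_le hw hM hT h q hQ hB (R := R) U (fun r hr => hU r (List.mem_cons_of_mem _ hr))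
        s' _ (fun _ => A) (by linarith) (fun _ => hA) fun x d' hd => ?_).trans ?_
      · refine le_trans ?_ (H _ d' fun k => (h3 k x).trans (hd k))
        have hiK : i ≤ M.length := hi ▸ Wt87.shr_le s' c' d _
        have h0 : ∀ k, T k i (x c') (x d) ≤ d' k := fun k => le_trans (hi ▸ le_prs s'
          (G := fun a b => T k (s'.shr a b M.length) (x a) (x b)) (fun _ _ => hT _ _ _ _) hcd) (hd k)
        have h4 := hU p List.mem_cons_self i hiK _ _ d' h0
        have h5 : 0 ≤ (U.map fun p => p.2 d').prod := List.prod_nonneg fun y hy => by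
          obtain ⟨r, hr, rfl⟩ := List.mem_map.1 hy
          exact (abs_nonneg _).trans (hU r (List.mem_cons_of_mem _ hr) i hiK _ _ d' h0)
        rw [abs_mul, List.map_cons, List.prod_cons, mul_assoc]
        gcongr
      · have h6 : momT w M h (T true) (q true + 1) s' ≤ (R ^ 2 + 1) * c :=
          (Nv_le hM hc0 hc s').trans (by gcongr; linarith)
        have h7 := mul_le_mul_of_nonneg_left (mul_le_mul_of_nonneg_left h6 hBt) C0
        rw [Law.TE_const hw, Fintype.sum_bool, ← hC]
        change C * (A + (_ + B false * Nv M g s')) ≤ _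
        linarith
  rw [List.map_cons, WdO_cons]
  refine (abs_Dop_low hM hg hgJ s hs F (α := C * (A + B true * ((R ^ 2 + 1) * c)))
    (β := C * B false) (by positivity) (by positivity) fun s' e c d i hcd hi H' => ?_).trans ?_
  · rcases H' with ⟨rfl, rfl⟩ | ⟨a, j, rfl, rfl⟩ | ⟨a, j, a', j', rfl, rfl⟩
    · exact key s id c d i hcd hi (by linarith) fun _ _ => le_rfl
    · exact key _ _ c d i hcd hi (by rw [card_graft]; push_cast; linarith)
        fun k => Dv_graft (hT k) _ s a j
    · exact key _ _ c d i hcd hi (by rw [card_graft, card_graft]; push_cast; linarith)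
        fun k x => (Dv_graft (hT k) _ s a j fun b => x ((s.graft a j).emb a' j' b)).trans
          (Dv_graft (hT k) _ _ a' j' x)
  · have h1 : (Fintype.card s.Lf : ℝ) ^ 3 ≤ R ^ 3 := by gcongr; linarith
    have h3 := Nv_nonneg hM hg s
    have x0 : 0 ≤ ex M J := Nv_chi hM s hs ▸ Nv_nonneg hM (chi_nonneg J) s
    have h4 : C * (A + B true * ((R ^ 2 + 1) * c)) + C * B false * Nv M g s ≤
        C * (R ^ 2 + 1) * (A + B true * c + B false * Nv M g s) := by
      have e1 : 0 ≤ C * R ^ 2 * A := by positivity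
      have e2 : 0 ≤ C * R ^ 2 * (B false * Nv M g s) := by positivity
      linarith
    calc _ ≤ 43 * R ^ 3 * (ex M J * (C * (R ^ 2 + 1) * (A + B true * c + B false * Nv M g s))) := by
          gcongr
      _ = _ := by rw [hC, cLow, ← hR, momT]; ring

end Crest.Agent.T156.Cas.Low4

end
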