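import Crest.Agent.T156.CEx_23
import Crest.Agent.T156.CLow_4
import Crest.Agent.T156.CErr_54

/-!
# Row 156, block C: crude words of degree four, test direction (helper4)
-/

set_option autoImplicit false
set_option linter.all false

noncomputable section

namespace Crest.Agent.T156.Cas.C40

open MeasureTheory Real Set Filter Topology
open Crest.Agent.T157.E Crest.Agent.T157.Casc Crest.Agent.T157.SL
open Crest.Agent.T157.G1 (ov)
open Mul55 Tay38 Wt87 Low4

namespace T4

/-- degree carried by a cell -/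
def dC (c : Bool) (f : List Lt) : ℕ := (f.map fun a => if a.1 = c then dg a else 0).sum

theorem dC_cons (c : Bool) (a : Lt) (f : List Lt) :
    dC c (a :: f) = (if a.1 = c then dg a else 0) + dC c f := by simp [dC]

theorem deg_eq : ∀ f : List Lt, deg f = dC true f + dC false f
  | [] => rfl
  | a :: f => by
      have := deg_eq f
      rw [dC_cons, dC_cons, deg, List.map_cons, List.sum_cons]
      rw [deg] at this
      obtain ⟨c, b⟩ := a
      cases c <;> simp [this] <;> omega

theorem par : ∀ f : List Lt, dC true f % 2 = f.count aL % 2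
  | [] => rfl
  | a :: f => by
      have := par f
      rw [dC_cons, List.count_cons]
      obtain ⟨c, b⟩ := a
      cases c <;> cases b <;> simp [dg] <;> omega

theorem len_le : ∀ f : List Lt, f.length ≤ deg f
  | [] => le_rfl
  | a :: f => by
      have := len_le f
      have h := dg_pos a
      rw [deg] at this
      rw [deg, List.map_cons, List.sum_cons, List.length_cons]
      omega

theorem dC_pos {c : Bool} : ∀ {f : List Lt}, 0 < dC c f ↔ ∃ a ∈ f, a.1 = c
  | [] => by simp [dC]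
  | a :: f => by
      have h := dg_pos a
      rw [dC_cons, Nat.add_pos_iff_pos_or_pos, dC_pos]
      by_cases e : a.1 = c <;> simp [e, h]

theorem dC_perm (c : Bool) {f f' : List Lt} (p : f.Perm f') : dC c f = dC c f' := (p.map _).sum_eq

theorem prod_eq (τ : ℝ) (d : Bool → ℝ) : ∀ f : List Lt, (f.map fun a => τ * d a.1 ^ dg a).prod =
    τ ^ f.length * (d true ^ dC true f * d false ^ dC false f)
  | [] => by simp [dC]
  | a :: f => by
      rw [List.map_cons, List.prod_cons, prod_eq τ d f, dC_cons, dC_cons, List.length_cons]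
      obtain ⟨c, b⟩ := a
      cases c <;> simp [pow_add] <;> ring

variable {D : CD} {τ0 : ℝ}

/-- sizes -/
def Tz (D : CD) (c : Bool) : ℕ → Cube D.n × Bool → Cube D.n × Bool → ℝ :=
  Mul55.aU D.n D.q fun j => j ≠ 0 ∧ D.cl j = c

theorem Tz_nonneg (c : Bool) (j : ℕ) (x y : Cube D.n × Bool) : 0 ≤ Tz D c j x y :=
  Mul55.aU_nonneg _ j x y

/-- a letter with its majorant -/
def lP (D : CD) (τ : ℝ) (a : Lt) :
    (ℕ → Cube D.n × Bool → Cube D.n × Bool → ℝ) × ((Bool → ℝ) → ℝ) :=
  (ten (lt D.n D.β D.M D.q D.cl a), fun d => τ * d a.1 ^ dg a)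

theorem tau0 (H : D.Ok τ0) : 0 ≤ τ0 := (H.ook.oTau_le D.n D.β D.K).1.trans H.tau

theorem dom (H : D.Ok τ0) (a : Lt) : Dom (op D.n D.β D.M D.q 0).length (Tz D) (lP D τ0 a) := by
  intro j hj x y d hd
  have h0 := (Tz_nonneg a.1 j x y).trans (hd a.1)
  have t0 := tau0 H
  by_cases e : j = 0
  · subst e
    have := (lt_mem (β := D.β) H.pos H.ook D.cl a).1
    simp only [lP, this, Pi.zero_apply, abs_zero]
    positivity
  · refine (abs_lt_le H.ook D.cl a (fun j => D.cl j = a.1) (fun _ h => h)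
      (by rwa [op_length] at hj) x y).trans ?_
    have e1 : Mul55.aU D.n D.q (fun j => D.cl j = a.1) j x y = Tz D a.1 j x y := by
      simp [Tz, Mul55.aU, e]
    rw [e1]
    exact mul_le_mul H.tau (pow_le_pow_left₀ (Tz_nonneg _ _ _ _) (hd _) _)
      (pow_nonneg (Tz_nonneg _ _ _ _) _) t0

theorem pi2_Tz (H : D.Ok τ0) (c : Bool) (p j : ℕ) :
    pi2 (fun _ => 1) (op D.n D.β D.M D.q 0) j (fun x y => Tz D c j x y ^ (p + 1)) 0 =
      if j ≠ 0 ∧ D.cl j = c then D.u (p + 1) j else 0 := by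
  by_cases h : j ≠ 0 ∧ D.cl j = c
  · have := pi2_op_zero (β := D.β) H.pos H.ook 0 0 j (fun x y => |oU D.q j x y| ^ (p + 1))
      fun _ _ => 1
    rw [Law.ad_zero, pi2_const wt_one90] at this
    simp only [mul_one] at this
    simp only [Tz, Mul55.aU, if_pos h, this, uM]
  · simp only [Tz, Mul55.aU, if_neg h, zero_pow (Nat.succ_ne_zero p), pi2_const wt_one90]

theorem mom_up (H : D.Ok τ0) (p : ℕ) {j : ℕ} (hj : j ∈ D.up) :
    momT (fun _ => 1) (op D.n D.β D.M D.q 0) 0 (Tz D false) (p + 1) (Sh.two j) =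
      2 * D.u (p + 1) j + D.I (D.u (p + 1)) := by
  obtain ⟨h1, h2⟩ := Finset.mem_Ioo.1 hj
  rw [momT_two _ _ _ _ (by rw [op_length]; exact h2.le), pi2_Tz H,
    if_pos ⟨by omega, by simp [CD.cl, h1]⟩, mom0, op_length, CD.I,
    ← Ex23.sum_up (J := D.J) (K := D.K) (g := fun j => D.dx j * D.u (p + 1) j)
      (by rw [H.top, zero_mul])]
  congr 1
  refine Finset.sum_congr rfl fun i _ => ?_
  rw [pi2_Tz H, Cav22.dm_tilt (tilt_op (q := D.q) 0)]
  by_cases h : i ≤ D.J
  · simp [CD.cl, h]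
  · rw [if_neg h, if_pos ⟨by omega, by simp [CD.cl, h]⟩]

theorem ex_nonneg' (H : D.Ok τ0) : 0 ≤ ex D.B D.J := by
  have := sum_dm D.B 0 D.J
  rw [sub_zero] at this
  exact this ▸ Finset.sum_nonneg fun j _ => dm_nonneg H.mono j

theorem X0 (H : D.Ok τ0) : 0 ≤ D.X := (ex_nonneg' H).trans H.x1

theorem low4 (H : D.Ok τ0) (j : ℕ) :
    pi2 (fun _ => 1) (op D.n D.β D.M D.q 0) j (fun x y => Tz D true j x y ^ (3 + 1)) 0 ≤
      D.X ^ 4 + 4 * D.tl := by
  have x0 := X0 H
  have t0 := H.tl0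
  rw [pi2_Tz H]
  split_ifs with h
  swap
  · positivity
  have hJ : j ≤ D.J := by simpa [CD.cl] using h.2
  have h1 := H.envL j (Finset.mem_Icc.2 ⟨Nat.pos_of_ne_zero h.1, hJ⟩)
  refine (Crest.Agent.T157.Casc.pi2_mono (Ω := Cube D.n) wt_one90 D.B j
    (K' := fun x y => D.X ^ 4 + 4 * max (|ov x y| - D.X) 0) (fun x y => ?_) 0).trans ?_
  · rw [oU, H.qlo j hJ, sub_zero]
    have a0 := abs_nonneg (ov x y)
    have a1 := abs_ov_le x y
    have x1 := H.X1
    generalize |ov x y| = r at *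
    rcases le_total r D.X with e | e
    · exact (pow_le_pow_left₀ a0 e _).trans (le_add_of_nonneg_right (by positivity))
    · rw [max_eq_left (sub_nonneg.2 e)]
      have h2 : r ^ 3 + r ^ 2 * D.X + r * D.X ^ 2 + D.X ^ 3 ≤ 4 := by
        have := pow_le_one₀ a0 a1 (n := 3)
        have := pow_le_one₀ x0 x1 (n := 3)
        have := mul_le_one₀ (pow_le_one₀ a0 a1 (n := 2)) x0 x1
        have := mul_le_one₀ a1 (pow_nonneg x0 2) (pow_le_one₀ x0 x1 (n := 2))
        linarith
      show r ^ 4 ≤ _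
      nlinarith [mul_le_mul_of_nonneg_left h2 (sub_nonneg.2 e)]
  · rw [pi2_add wt_one90, pi2_const wt_one90, pi2_const_mul]
    exact add_le_add le_rfl (mul_le_mul_of_nonneg_left h1 (by norm_num))

/-- the marked word at the level `j` -/
def mW (D : CD) (f : List Lt) (j : ℕ) : ℝ :=
  wB (-1) D.B (oB D.n D.β D.M D.q []) (f.map (lt D.n D.β D.M D.q D.cl))
    (Sh.two j) (fun _ => 1) (pr2 j (oE D.q j))

theorem mW_eq (H : D.Ok τ0) (f : List Lt) (j : ℕ) : mW D f j =
    WdO (op D.n D.β D.M D.q 0) ((f.map (lP D τ0)).map Prod.fst)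
      (TEf (fun _ => 1) (op D.n D.β D.M D.q 0) 0) (Sh.two j)
      (tens (fun _ => 1) (pr2 j (oE D.q j))) := by
  rw [mW, Ex23.wB_eq H.pos H.ook, List.map_map, List.map_map]
  rfl

theorem abs_mark (H : D.Ok τ0) {j : ℕ} (hj : j ∈ D.up) (x : (Sh.two j).Lf → Cube D.n × Bool) :
    |tens (fun _ => 1) (pr2 j (oE D.q j)) x| ≤ 2 := by
  rw [tens, one_mul]
  exact abs_oE_le H.ook (Finset.mem_Ioo.1 hj).2.le _ _

theorem prod_lP (f : List Lt) (d : Bool → ℝ) : ((f.map (lP D τ0)).map fun r => r.2 d).prod =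
    τ0 ^ f.length * (d true ^ dC true f * d false ^ dC false f) := by
  rw [List.map_map, ← prod_eq]
  rfl

/-- upper letters only -/
theorem mW_up (H : D.Ok τ0) {f : List Lt} {p : ℕ} (h0 : dC true f = 0) (h1 : dC false f = p + 1)
    {j : ℕ} (hj : j ∈ D.up) : |mW D f j| ≤ cTay f.length p 2 * (2 * τ0 ^ f.length) *
      (2 * D.u (p + 1) j + D.I (D.u (p + 1))) := by
  have t0 := tau0 H
  have := abs_WdO_young wt_one90 (mono_op (q := D.q) H.mono 0) (T := Tz D) Tz_nonneg 0
    (fun _ => p) (Q := p) (fun _ => le_rfl) (B := fun c => cond c 0 (2 * τ0 ^ f.length))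
    (fun c => by cases c <;> simp only [cond] <;> positivity) (U := f.map (lP D τ0))
    (fun r hr => by obtain ⟨a, -, rfl⟩ := List.mem_map.1 hr; exact dom H a) (Sh.two j)
    (F := tens (fun _ => 1) (pr2 j (oE D.q j))) (A := fun _ => 0) (fun _ => le_rfl)
    fun x d hd => by
      have d0 := (Dv_nonneg (Tz_nonneg false) _ _ x).trans (hd false)
      rw [prod_lP, h0, h1, Fintype.sum_bool]
      simp only [cond, pow_zero, one_mul, zero_mul, zero_add]
      rw [mul_assoc]
      exact mul_le_mul_of_nonneg_right (abs_mark H hj x) (by positivity)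
  rw [← mW_eq H, Law.TE_const wt_one90, Fintype.sum_bool, mom_up H p hj, card_two,
    List.length_map] at this
  simpa only [cond, zero_mul, zero_add, mul_assoc] using this

/-- two low and two upper factors -/
theorem mW_22 (H : D.Ok τ0) {f : List Lt} (h0 : dC true f = 2) (h1 : dC false f = 2)
    {j : ℕ} (hj : j ∈ D.up) : |mW D f j| ≤ cLow (f.length - 1) 3 2 * τ0 ^ f.length *
      (D.X ^ 6 + 4 * D.tl + (2 * D.u 4 j + D.I (D.u 4))) := by
  have t0 := tau0 H
  have x0 := X0 H
  have tl0 := H.tl0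
  obtain ⟨a, ha, hac⟩ := dC_pos.1 (h0 ▸ two_pos : 0 < dC true f)
  have pf := List.perm_cons_erase ha
  have e0 : mW D f j = mW D (a :: f.erase a) j := Ex23.wB_perm H.pos H.ook D.cl pf _ _ _
  have hl : (f.erase a).length = f.length - 1 := List.length_erase_of_mem ha
  have N0 : 0 ≤ 2 * D.u 4 j + D.I (D.u 4) := mom_up H 3 hj ▸
    Nv_nonneg (mono_op (q := D.q) H.mono 0)
      (fun j => pi2_nonneg wt_one90 _ j (fun x y => pow_nonneg (Tz_nonneg _ _ _ _) _) 0) _
  have key : ∀ l : ℝ, 0 < l → |mW D f j| ≤ cLow (f.length - 1) 3 2 * τ0 ^ f.length *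
      (ex D.B D.J * (l * (D.X ^ 4 + 4 * D.tl) + (2 * D.u 4 j + D.I (D.u 4)) / l)) := fun l hl0 => by
    have := abs_WdO_low wt_one90 (mono_op (q := D.q) H.mono 0) (T := Tz D) Tz_nonneg 0 (J := D.J)
      (fun i hi x y => by simp [Tz, Mul55.aU, CD.cl, hi]) (fun _ => 3) (Q := 3) (fun _ => le_rfl)
      (A := 0) (B := fun c => cond c (τ0 ^ f.length * l) (τ0 ^ f.length / l)) le_rfl
      (fun c => by cases c <;> simp only [cond] <;> positivity) (by positivity)
      (fun i _ => low4 H i) (p := lP D τ0 a) (U := (f.erase a).map (lP D τ0))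
      (fun r hr => by
        rw [← List.map_cons] at hr
        obtain ⟨a, -, rfl⟩ := List.mem_map.1 hr
        exact dom H a)
      (fun i hi x y => by simp [lP, ten, lt, cut, CD.cl, hac, not_le.2 hi]) (Sh.two j)
      (fun a b => by
        obtain ⟨h1, h2⟩ := Finset.mem_Ioo.1 hj
        have hK := H.cut
        rw [op_length]
        rcases two_cases j a with rfl | rfl <;> rcases two_cases j b with rfl | rfl
        · rwa [shr_self]
        · rwa [shr_two, min_eq_left h2.le]
        · rwa [shr_comm, shr_two, min_eq_left h2.le]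
        · rwa [shr_self])
      (F := tens (fun _ => 1) (pr2 j (oE D.q j))) fun x d hd => by
        rw [← List.map_cons, prod_lP, ← dC_perm _ pf, ← dC_perm _ pf, ← pf.length_eq, h0, h1,
          Fintype.sum_bool]
        simp only [cond]
        refine (mul_le_mul_of_nonneg_right (abs_mark H hj x) (by positivity)).trans ?_
        have h2 : 2 * (d true ^ 2 * d false ^ 2) ≤ l * d true ^ 4 + d false ^ 4 / l := by
          have : 0 ≤ (l * d true ^ 2 - d false ^ 2) ^ 2 / l := by positivity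
          refine le_of_sub_nonneg (this.trans_eq ?_)
          field_simp
          ring
        have h3 := mul_le_mul_of_nonneg_left h2 (pow_nonneg t0 f.length)
        refine le_trans (le_of_eq (by ring)) (h3.trans_eq (by ring))
    rw [← List.map_cons, ← mW_eq H, ← e0, mom_up H 3 hj, card_two, List.length_map, hl,
      Cav22.ex_tilt (tilt_op (q := D.q) 0)] at this
    simp only [cond] at this
    exact this.trans_eq (by ring)
  have c0 : 0 ≤ cLow (f.length - 1) 3 2 * τ0 ^ f.length :=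
    mul_nonneg (cLow_nonneg _ _ _) (pow_nonneg t0 _)
  rcases x0.eq_or_lt with e | e
  · refine (key 1 one_pos).trans (mul_le_mul_of_nonneg_left ?_ c0)
    rw [le_antisymm (H.x1.trans e.ge) (ex_nonneg' H), zero_mul]
    positivity
  · refine (key _ e).trans (mul_le_mul_of_nonneg_left ?_ c0)
    refine (mul_le_mul_of_nonneg_right H.x1 (by positivity)).trans ?_
    have h2 : D.X ^ 2 * D.tl ≤ D.tl := mul_le_of_le_one_left tl0 (pow_le_one₀ x0 H.X1)
    have h3 : D.X * ((2 * D.u 4 j + D.I (D.u 4)) / D.X) = 2 * D.u 4 j + D.I (D.u 4) :=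
      mul_div_cancel₀ _ e.ne'
    rw [mul_add, h3]
    nlinarith

theorem bd_of {f : List Lt} (c : ℝ → ℝ) (hc : ∀ τ0, 0 ≤ τ0 → 0 ≤ c τ0)
    (H : ∀ τ0 (D : CD), D.Ok τ0 → ∀ j ∈ D.up, |mW D f j| ≤
      c τ0 * (D.X ^ 6 + 4 * D.tl + (2 * D.u 4 j + D.I (D.u 4)))) : Bd true fun D => D.tw f := by
  refine Bd.mk' fun τ0 => ⟨c τ0 * 6 + c τ0 * 2, fun D h hW => ?_⟩
  have c0 := hc τ0 (tau0 h)
  rw [CD.tw, CD.dd_test hW]
  refine (D.abs_sum_om (b := fun j => c τ0 * 2 * D.u 4 j +
    c τ0 * (D.X ^ 6 + 4 * D.tl + D.I (D.u 4))) fun j hj => (H τ0 D h j hj).trans_eq (by ring)).trans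
    (h.Iw_split hW (by positivity) (by positivity) ?_ ?_)
  · rw [mul_assoc]
    exact mul_le_mul_of_nonneg_left (by linarith [h.X6_le, h.tl_le, h.Iu4_le]) c0
  · rw [D.Iw_mul]
    exact mul_le_mul_of_nonneg_left h.Iwu4_le (by positivity)

end T4

open T4 in
/-- **degree four with an upper letter, test direction** -/
theorem cr4T : Cr4 true := fun f hd he hu => by
  have h1 := deg_eq f
  have h2 := par f
  have h3 : 0 < dC false f := dC_pos.2 (hu.elim (fun h => ⟨_, h, rfl⟩) fun h => ⟨_, h, rfl⟩)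
  rw [Nat.even_iff] at he
  by_cases h0 : dC true f = 0
  · refine bd_of (fun τ0 => cTay f.length 3 2 * (2 * τ0 ^ f.length))
      (fun τ0 h => mul_nonneg (cTay_nonneg _ _ _) (by positivity)) fun τ0 D h j hj => ?_
    have t0 := tau0 h
    have := h.tl0
    have := X0 h
    exact (mW_up h h0 (p := 3) (by omega) hj).trans (mul_le_mul_of_nonneg_left
      (le_add_of_nonneg_left (by positivity)) (mul_nonneg (cTay_nonneg _ _ _) (by positivity)))
  · exact bd_of (fun τ0 => cLow (f.length - 1) 3 2 * τ0 ^ f.length)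
      (fun τ0 h => mul_nonneg (cLow_nonneg _ _ _) (pow_nonneg h _))
      fun τ0 D h j hj => mW_22 h (by omega) (by omega) hj

end Crest.Agent.T156.Cas.C40

end
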