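import Crest.Agent.T156.CCr_22
import Crest.Agent.T156.CErr_54
import Crest.Agent.T156.CKit_32

/-!
# Row 156, block C: the `U` part of the test, crude words (helper22)
-/

set_option autoImplicit false
set_option linter.all false

noncomputable section

namespace Crest.Agent.T156.Cas.Cr22

open MeasureTheory Real Set Filter Topology
open Crest.Agent.T157.E Crest.Agent.T157.Casc Crest.Agent.T157.SL
open Crest.ProbabilityR.SpinGlassDynamics (spin)
open Nu87 G90 C40 Mul55 OneP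

variable {D : CD} {τ0 : ℝ}

theorem u_add_le (h : D.Ok τ0) {j : ℕ} (hj : j ≤ D.K) (p e : ℕ) :
    D.u (p + e) j ≤ 2 ^ e * D.u p j := by
  rw [CD.u, CD.u, uM, uM, ← pi2_const_mul]
  refine Crest.Agent.T157.Casc.pi2_mono (Ω := Cube D.n) wt_one90 _ j (fun x y => ?_) 0
  rw [pow_add, mul_comm]
  exact mul_le_mul_of_nonneg_right (pow_le_pow_left₀ (abs_nonneg _) (abs_oU_le h.ook hj x y) e)
    (by positivity)

theorem u3_le (h : D.Ok τ0) (j : ℕ) : D.X ^ 2 * D.u 3 j ≤ D.X ^ 3 * D.u 2 j + D.u 4 j := by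
  rw [CD.u, CD.u, CD.u, uM, uM, uM, ← pi2_const_mul, ← pi2_const_mul, ← pi2_add wt_one90]
  refine Crest.Agent.T157.Casc.pi2_mono (Ω := Cube D.n) wt_one90 _ j (fun x y => ?_) 0
  have h1 := abs_nonneg (oU D.q j x y)
  have h2 := h.X0
  have h3 := h.X1
  set u := |oU D.q j x y|
  have h4 : D.X * u ^ 4 ≤ u ^ 4 := mul_le_of_le_one_left (by positivity) h3
  nlinarith [mul_nonneg (mul_nonneg h2 (sq_nonneg u)) (sq_nonneg (D.X - u)),
    mul_nonneg (mul_nonneg (sq_nonneg D.X) (sq_nonneg u)) h1]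

/-- the pairs (power of `X`, order of the moment) that are errors -/
def Sm (a p : ℕ) : Prop :=
  p ≤ 10 ∧ (p = 0 → 6 ≤ a) ∧ (p = 1 → 4 ≤ a) ∧ (p = 2 → 3 ≤ a) ∧ (p = 3 → 2 ≤ a)

instance (a p : ℕ) : Decidable (Sm a p) := by unfold Sm; infer_instance

theorem sm_le (h : D.Ok τ0) {a p : ℕ} (H : Sm a p) {j : ℕ} (hj : j ≤ D.K) :
    D.X ^ a * D.u p j ≤ 64 * (D.X ^ 6 + D.X ^ 4 * D.g j + D.X ^ 3 * D.g j ^ 2 + D.u 4 j) := by
  obtain ⟨h10, h0, h1, h2, h3⟩ := H
  have x0 := h.X0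
  have g0 := D.g0 j
  have u4 := D.u0 4 j
  have hx : ∀ {b}, b ≤ a → D.X ^ a * D.u p j ≤ D.X ^ b * D.u p j := fun hb =>
    mul_le_mul_of_nonneg_right (pow_le_pow_of_le_one x0 h.X1 hb) (D.u0 p j)
  have p1 : 0 ≤ D.X ^ 6 := by positivity
  have p2 : 0 ≤ D.X ^ 4 * D.g j := by positivity
  have p3 : 0 ≤ D.X ^ 3 * D.g j ^ 2 := by positivity
  have k : ∀ b p, p ≤ 3 → D.X ^ b * D.u p j ≤ D.X ^ b * (2 * D.g j ^ p) := fun b p hp =>
    mul_le_mul_of_nonneg_left (Ck32.u_le_g hp j) (by positivity)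
  obtain rfl | rfl | rfl | rfl | h4 : p = 0 ∨ p = 1 ∨ p = 2 ∨ p = 3 ∨ 4 ≤ p := by omega
  · linarith [hx (h0 rfl), k 6 0 (by norm_num)]
  · linarith [hx (h1 rfl), k 4 1 (by norm_num)]
  · linarith [hx (h2 rfl), k 3 2 (by norm_num)]
  · linarith [hx (h3 rfl), k 3 2 (by norm_num), u3_le h j]
  · obtain ⟨e, rfl⟩ := Nat.exists_eq_add_of_le h4
    have h5 : (2 : ℝ) ^ e ≤ 2 ^ 6 := pow_le_pow_right₀ one_le_two (by omega)
    linarith [hx (Nat.zero_le a), u_add_le h hj 4 e, mul_le_mul_of_nonneg_right h5 u4]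

theorem I_sm (h : D.Ok τ0) {a p : ℕ} (H : Sm a p) : D.X ^ a * D.I (D.u p) ≤ 256 * D.E0 := by
  rw [← D.I_mul]
  refine (h.I_mono fun j hj => sm_le h H (CD.mem_up.1 hj).2.le).trans ?_
  rw [D.I_mul, D.I_add, D.I_add, D.I_add, D.I_mul, D.I_mul]
  have h1 := h.I_le (a := fun _ => D.X ^ 6) (pow_nonneg h.X0 6) fun _ _ => le_rfl
  have h2 := mul_nonneg (pow_nonneg h.X0 3) (sq_nonneg D.N1)
  have h3 := h.XN2_le
  have h4 := h.XN1_le
  rw [mul_add] at h3
  simp only [CD.N1, CD.N2] at h2 h3 h4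
  linarith [h.X6_le, h.Iu4_le]

/-- **the crude bound is an error** -/
theorem Iw_sm (h : D.Ok τ0) (hW : D.W.isSome = true) {a p : ℕ} (H : Sm a p) {c : ℝ} (hc : 0 ≤ c) :
    D.Iw (fun j => c * D.X ^ a * (D.u p j + D.I (D.u p)) + D.tl) ≤ (512 * c + 1) * D.Err := by
  have h1 : D.Iw (fun j => c * (64 * (D.X ^ 4 * D.g j + D.X ^ 3 * (D.g j ^ 2 + D.g j * D.N1) +
      D.u 4 j))) ≤ 192 * c * D.E1 := by
    rw [D.Iw_mul, D.Iw_mul, D.Iw_add, D.Iw_add]
    nlinarith [mul_le_mul_of_nonneg_left (add_le_add_three h.IwXg_le h.IwXg2_le h.Iwu4_le) hc]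
  have h2 := h.Iw_split hW (A := c * (320 * D.E0) + D.E0) (c := 320 * c + 1) (by positivity)
    (by positivity) (le_of_eq (by ring)) h1
  refine (D.Iw_mono fun j hj => ?_).trans (h2.trans_eq (by ring))
  have h3 := sm_le h H (CD.mem_up.1 hj).2.le
  have h4 := mul_nonneg (pow_nonneg h.X0 3) (mul_nonneg (D.g0 j) h.N10)
  rw [mul_assoc, add_assoc, ← add_assoc, ← mul_add]
  refine add_le_add (mul_le_mul_of_nonneg_left ?_ hc) h.tl_le
  linarith [I_sm h H, h.X6_le]

theorem bd_tU {f : List Lt} {c : ℝ} {e : ℕ} (hc : 0 ≤ c) (H : Sm (e + lw f) (dW false f + 1))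
    (hs : ∀ τ0 D, CD.Ok D τ0 → ∀ j ∈ D.up, Site D f j (fun _ _ => 1) (c * D.X ^ e)) :
    Bd true fun D => D.tU f := Bd.mk' fun τ0 => ⟨cN τ0 f.length * (512 * c + 1), fun D h hW => by
  refine (abs_tU_le h f (mul_nonneg hc (pow_nonneg h.X0 _)) (hs τ0 D h)).trans ?_
  simp only [mul_assoc c (D.X ^ e), ← pow_add]
  rw [mul_assoc]
  exact mul_le_mul_of_nonneg_left (Iw_sm h hW H hc) (cN_nonneg _ _)⟩

theorem bd_tw {f : List Lt} {c : ℝ} {e : ℕ} (hc : 0 ≤ c) (H : Sm (e + lw f) (dW false f))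
    (hs : ∀ τ0 D, CD.Ok D τ0 → ∀ j ∈ D.up, Site D f j (oE D.q j) (c * D.X ^ e)) :
    Bd true fun D => D.tw f := Bd.mk' fun τ0 => ⟨cN τ0 f.length * (512 * c + 1), fun D h hW => by
  refine (abs_tw_test h hW f (mul_nonneg hc (pow_nonneg h.X0 _)) (hs τ0 D h)).trans ?_
  simp only [mul_assoc c (D.X ^ e), ← pow_add]
  rw [mul_assoc]
  exact mul_le_mul_of_nonneg_left (Iw_sm h hW H hc) (cN_nonneg _ _)⟩

/-- crude tests -/
theorem bd_tw_crude {f : List Lt} (H : Sm (lw f) (dW false f)) : Bd true fun D => D.tw f :=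
  bd_tw (c := 2 ^ (f.length + 1)) (e := 0) (by positivity) (by simpa using H) fun τ0 D h j hj => by
    simpa using site_crude h f j fun a b => abs_oE_le h.ook (CD.mem_up.1 hj).2.le a b

theorem dW_add (f : List Lt) : dW true f + dW false f = deg f := by
  induction f with
  | nil => rfl
  | cons a f ih =>
    obtain ⟨c, b⟩ := a
    cases c <;> simp only [dW, dC, deg, gl, List.map_cons, List.sum_cons, if_true,
      Bool.false_eq_true, Bool.true_eq_false, if_false] at ih ⊢ <;> omega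

theorem deg_le (f : List Lt) : deg f ≤ 2 * f.length := by
  induction f with
  | nil => rfl
  | cons a f ih =>
    simp only [deg, List.map_cons, List.sum_cons, List.length_cons, Mul55.dg] at ih ⊢
    split_ifs <;> omega

theorem cP_le {r : ℕ} (hr : r ≤ 6) : Site94.cP r 2 ≤ Site94.cP 6 2 := by
  unfold Site94.cP
  gcongr

/-- Cauchy–Schwarz on a tree -/
theorem TM_cs {Ω : Type} [Fintype Ω] {w : Ω → ℝ} (hw : Wt w) {L : List (Lv Ω)} (h : Ω → ℝ) {r : ℕ}
    {σ : SM r} (hσ : Rz L.length σ) (F G : (Fin r → Ω) → ℝ) :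
    TM w L h σ (fun x => F x * G x) ^ 2 ≤
      TM w L h σ (fun x => F x ^ 2) * TM w L h σ fun x => G x ^ 2 := by
  have := discrim_le_zero (a := TM w L h σ fun x => F x ^ 2)
    (b := 2 * TM w L h σ fun x => F x * G x) (c := TM w L h σ fun x => G x ^ 2) fun t => by
      have h1 := TM_mono (h := h) hw hσ (F := fun _ => 0)
        (G := fun x => t ^ 2 * F x ^ 2 + (2 * t * (F x * G x) + G x ^ 2)) fun x => by
          nlinarith [sq_nonneg (t * F x + G x)]
      rw [TM_const hw hσ, TM_add, TM_add, TM_mul, TM_mul] at h1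
      linarith
  rw [discrim] at this
  linarith

theorem TM_UU {r : ℕ} {σ : SM r} (hσ : Rz D.B.length σ) {a b c d : Fin r} (hab : a ≠ b)
    (hcd : c ≠ d) : |TM (fun _ => 1) D.B 0 σ fun x =>
      oU D.q (σ a b) (x a) (x b) * oU D.q (σ c d) (x c) (x d)| ≤
        2 * (D.g (σ a b) * D.g (σ c d)) := by
  have k : ∀ {a b : Fin r}, a ≠ b → TM (fun _ => 1) D.B 0 σ
      (fun x => oU D.q (σ a b) (x a) (x b) ^ 2) = D.u 2 (σ a b) := fun {a b} hab => by
    simp only [← sq_abs (oU _ _ _ _)]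
    exact TM_pair (h := 0) wt_one90 hσ hab fun x y => |oU D.q (σ a b) x y| ^ 2
  refine abs_le_of_sq_le_sq ((TM_cs wt_one90 0 hσ _ _).trans ?_)
    (mul_nonneg zero_le_two (mul_nonneg (D.g0 _) (D.g0 _)))
  rw [k hab, k hcd]
  exact (mul_le_mul (Ck32.u_le_g (by norm_num) _) (Ck32.u_le_g (by norm_num) _) (D.u0 _ _)
    (by positivity)).trans_eq (by ring)

theorem TM_oE {r : ℕ} {σ : SM r} (hσ : Rz D.K σ) {a b : Fin r} (hab : a ≠ b) :
    TM (fun _ => 1) D.S 0 σ (fun x => oE D.q (σ a b) (x a) (x b)) = D.Gam (σ a b) - D.q (σ a b) := by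
  have := pi2_add (L := D.S) (j := σ a b) wt_one90 (fun a b => spin a * spin b)
    (fun _ _ => -D.q (σ a b)) 0
  rw [pi2_const wt_one90] at this
  exact (TM_pair (h := 0) wt_one90 ((lenS D).symm ▸ hσ) hab (oE D.q (σ a b))).trans this

/-- the word `[aU]`, level by level -/
theorem abs_tU_aU (h : D.Ok τ0) : |D.tU [C40.aU]| ≤ cG 1 * (max τ0 1 * (4 * 81)) * D.Iw fun j =>
    D.g j * (|D.Gam j - D.q j| * D.g j + D.I fun t => |D.Gam t - D.q t| * D.g t) := by
  rw [← D.Iw_mul]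
  refine D.abs_sum_om fun j hj => ?_
  obtain ⟨hJ, hK⟩ := Finset.mem_Ioo.1 hj
  have hK' : j < D.B.length := by rwa [lenB]
  have T0 : 0 ≤ max τ0 1 := zero_le_one.trans (le_max_right _ _)
  have hS := rep_TE wt_one90 D.S 0 [oE D.q, fun _ _ _ => 1]
  rw [lenS, ← lenB] at hS
  have e := (rep_wB (-1) D.B _ _ [lt D.n D.β D.M D.q D.cl C40.aU] [(oU D.q, fun _ _ _ => 1)]
    (repB_mul (rep_TE wt_one90 D.B 0 _) hS)).two hK'.le
  refine (congrArg abs e).trans_le ?_
  rw [mul_assoc]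
  refine abs_node_le j 1 _ fun k' hk' N hN hO => ?_
  obtain ⟨e, rfl⟩ := List.length_eq_one_iff.1 hN
  have ne := hO e List.mem_cons_self
  set Dv : ℕ → ℝ := fun v => if D.J < v then |D.Gam v - D.q v| * D.g v else 0 with hDv
  have D0 : ∀ v, 0 ≤ Dv v := fun v => by
    have := D.g0 v
    simp only [hDv]
    positivity
  have g0 := D.g0 j
  refine (abs_avc_top h.mono (by rw [lenB]; exact h.top) hK' k'
    (g := fun σ => max τ0 1 * (2 * D.g j) * Dv (σ e.1 e.2)) fun σ hσ ho _ => ?_).trans ?_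
  · have ne' : old (r := 1) k' 1 ≠ old k' 0 := fun e => absurd (old_inj k' e) (by decide)
    have e1 : tmG (fun _ => 1) D.S 0 [oE D.q, fun _ _ _ => 1] _ σ ([e] ++ [(old k' 1, old k' 0)]) =
        _ := (congrArg _ (funext fun x => by simp [eF])).trans (TM_oE (lenB D ▸ hσ) ne)
    have e2 : tmG (fun _ => 1) D.B 0 [(lt D.n D.β D.M D.q D.cl C40.aU).1, oU D.q] _ σ
        ([e] ++ [(old k' 1, old k' 0)]) = (if D.J < σ e.1 e.2 then D.τ (σ e.1 e.2) / 2 else 0) *
          TM (fun _ => 1) D.B 0 σ fun x => oU D.q (σ (old k' 1) (old k' 0)) (x (old k' 1))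
            (x (old k' 0)) * oU D.q (σ e.1 e.2) (x e.1) (x e.2) := by
      rw [← TM_mul]
      refine congrArg _ (funext fun x => ?_)
      by_cases h1 : D.J < σ e.1 e.2 <;> simp [eF, lt, cut, CD.cl, oUb, h1]
      ring
    have b1 := TM_UU hσ ne' ne
    refine (congrArg abs (congrArg₂ (· * ·) e2 e1)).trans_le ?_
    simp only [hDv]
    split_ifs
    · obtain ⟨t0, t1⟩ := h.tau_mem (σ e.1 e.2)
      have t2 : |D.τ (σ e.1 e.2) / 2| ≤ max τ0 1 := by
        rw [abs_of_nonneg (by linarith)]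
        linarith [le_max_left τ0 1]
      rw [abs_mul, abs_mul]
      refine (mul_le_mul_of_nonneg_right (mul_le_mul t2 b1 (abs_nonneg _) T0)
        (abs_nonneg _)).trans_eq ?_
      rw [ho]
      ring
    · simp
  · rw [avc_mul]
    have h1 := Site94.avc_pair_le h.mono hK'.le k' D0 ne
    have h2 : (3 * (1 + k' : ℝ)) ^ k' ≤ 81 := by
      have : k' ≤ 2 := hk'
      interval_cases k' <;> norm_num
    have h3 := Wp52.Br_nonneg h.mono fun v _ => D0 v
    have h4 := D0 j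
    have h5 := h1.trans (mul_le_mul_of_nonneg_right h2 (by positivity))
    rw [Br_up h] at h3 h5
    simp only [hDv, if_pos hJ] at h4 h5
    refine (mul_le_mul_of_nonneg_left h5 (by positivity)).trans ?_
    nlinarith [mul_nonneg (mul_nonneg T0 g0) h4]

theorem bd_aU : Bd true fun D => D.tU [C40.aU] :=
  Bd.mk' fun τ0 => ⟨cG 1 * (max τ0 1 * (4 * 81)), fun D h hW => by
    have := cG_pos 1
    have T0 : 0 ≤ max τ0 1 := zero_le_one.trans (le_max_right _ _)
    have h1 := h.stw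
    have h2 : 0 ≤ ((D.K : ℝ) + 1) ^ 2 * D.tl := mul_nonneg (sq_nonneg _) h.tl0
    exact (abs_tU_aU h).trans (mul_le_mul_of_nonneg_left
      ((le_trans (le_add_of_nonneg_right h2) h1).trans (h.Z_le.trans (h.E1_le hW)))
      (by positivity))⟩

theorem site_aL (h : D.Ok τ0) (j : ℕ) :
    Site D [aL] j (fun _ _ => 1) (4 * Site94.cP 6 2 * D.X ^ 3) :=
  fun r hr σ N a b hσ hO _ _ hc ht => by
    obtain ⟨e, _, h1, h2, rfl⟩ := List.forall₂_cons_left_iff.1 hc
    obtain rfl := List.forall₂_nil_left_iff.1 h2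
    have := Ck32.site_one h ((lenB D).symm ▸ hσ) (A := [e]) (.refl _) h1.2 (by simp)
    refine (congrArg abs (congrArg _ (funext fun x => ?_))).trans_le (this.trans ?_)
    · simp [zs, eF, oZs, Ck32.se]
    · have := cP_le (r := r) (by simp at hr; omega)
      have := Site94.cP_nonneg r 2
      have := h.X0
      gcongr
      norm_num

theorem site_two (h : D.Ok τ0) (j : ℕ) (c : Bool) :
    Site D [(c, true), (!c, true)] j (fun _ _ => 1) (4 * Site94.cP 6 2 * D.X ^ 3) :=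
  fun r hr σ N a b hσ hO _ _ hc ht => by
    obtain ⟨e, _, h1, h2, rfl⟩ := List.forall₂_cons_left_iff.1 hc
    obtain ⟨e', _, h3, h4, rfl⟩ := List.forall₂_cons_left_iff.1 h2
    obtain rfl := List.forall₂_nil_left_iff.1 h4
    have : |Ck32.TS D σ (Ck32.se D [e, e'] σ)| ≤ 2 ^ 2 * Site94.cP r 2 * D.X ^ 3 := by
      cases c
      · exact Ck32.site_one h ((lenB D).symm ▸ hσ) (.refl _) h1.2 (by simpa using show D.J < _ from h3)
      · exact Ck32.site_one h ((lenB D).symm ▸ hσ) (.swap _ _ _) h3.2 (by simpa using show D.J < _ from h1)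
    refine (congrArg abs (congrArg _ (funext fun x => ?_))).trans_le (this.trans ?_)
    · simp [zs, eF, oZs, Ck32.se, mul_comm]
    · have := cP_le (r := r) (by simpa using hr)
      have := Site94.cP_nonneg r 2
      have := h.X0
      gcongr
      norm_num

end Crest.Agent.T156.Cas.Cr22

namespace Crest.Agent.T156.Cas.C40

open Cr22

/-- **the `U` part of the test, crude words** -/
theorem stC : StC := fun f h1 h4 hd => by
  have c0 : 0 ≤ 4 * Site94.cP 6 2 := mul_nonneg (by norm_num) (Site94.cP_nonneg _ _)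
  by_cases h3 : 3 ≤ deg f
  · refine bd_tU (c := 2 ^ (f.length + 1)) (e := 0) (by positivity) ?_ fun τ0 D h j hj => by
      simpa using site_crude h f j (ξ := fun _ _ => 1) fun a b => by simp
    have := dW_add f
    have := deg_le f
    unfold lw
    split_ifs <;> refine ⟨?_, fun _ => ?_, fun _ => ?_, fun _ => ?_, fun _ => ?_⟩ <;> omega
  · match f, h1, h4, hd, h3 with
    | [(true, true)], _, _, _, _ => exact bd_tU (e := 3) c0 (by decide) fun _ _ h j _ => site_aL h j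
    | [(false, true)], _, _, _, _ => exact bd_aU
    | [(true, true), (false, true)], _, _, _, _ =>
      exact bd_tU (e := 3) c0 (by decide) fun _ _ h j _ => site_two h j true
    | [(false, true), (true, true)], _, _, _, _ =>
      exact bd_tU (e := 3) c0 (by decide) fun _ _ h j _ => site_two h j false
    | [(c, false)], _, _, hd, _ => exact absurd hd (by cases c <;> decide)
    | [(true, true), (true, true)], _, _, hd, _ => exact absurd hd (by decide)
    | [(false, true), (false, true)], _, _, hd, _ => exact absurd hd (by decide)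
    | [(c, false), (c', b)], _, _, _, h3 => exact absurd h3 (by cases c <;> cases c' <;> cases b <;> decide)
    | [(c, true), (c', false)], _, _, _, h3 => exact absurd h3 (by cases c <;> cases c' <;> decide)
    | a :: b :: c :: f, _, _, _, h3 =>
      have := Mul55.dg_pos a
      have := Mul55.dg_pos b
      have := Mul55.dg_pos c
      simp only [deg, List.map_cons, List.sum_cons] at h3
      omega

end Crest.Agent.T156.Cas.C40

end
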