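import Crest.Agent.T156.SwpB_99
import Crest.Agent.T156.CErr_54

/-!
# Row 156, block C: the leaf `StL` (helper99)
-/

set_option autoImplicit false
set_option linter.all false

noncomputable section

namespace Crest.Agent.T156.Cas.C40

open MeasureTheory Real Set Filter Topology
open Crest.Agent.T157.E Crest.Agent.T157.Casc Crest.Agent.T157.SL
open Crest.Agent.T157.G1 (ov abs_ov_le)
open Crest.ProbabilityR.SpinGlassDynamics (spin)
open Mul55 Swp99

namespace St99

variable {D : CD} {τ0 : ℝ}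

theorem ov_sy {n : ℕ} (x y : Cube n) : ov x y = ov y x := by rw [ov, ov, dotProduct_comm]

/-- the coefficient of a low letter -/
def cf (D : CD) (r : ℝ) (y : ℕ) : ℝ := if y ≤ D.J then r * D.τ y else 0

theorem hy (H : D.Ok τ0) {r : ℝ} (hr : |r| ≤ 1) : Hy (fun _ => 1) D.B 0 ov D.q D.om (cf D r) D.up
    D.J τ0 D.X D.tl (D.F1 (D.J + 1)) D.X where
  wt := wt_one90
  mono := H.mono
  sy := ov_sy
  r1 := abs_ov_le
  q1 j hj := by
    have := H.ook.mem (CD.mem_up.1 hj).2.le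
    exact abs_le.2 ⟨by linarith [this.1], this.2⟩
  lt := D.B_len ▸ H.cut
  up j hj := ⟨(CD.mem_up.1 hj).1, D.B_len ▸ (CD.mem_up.1 hj).2.le⟩
  c0 := H.tau0
  cl y := by
    unfold cf lo
    by_cases h1 : y ≤ D.J
    · rw [if_pos h1, abs_mul, abs_of_nonneg (H.tau_mem y).1]
      rcases Nat.eq_zero_or_pos y with rfl | h2
      · simp [oTau, dAcc]
      · rw [if_pos ⟨h2, h1⟩, mul_one]
        exact (mul_le_of_le_one_left (H.tau_mem y).1 hr).trans (H.tau_mem y).2
    · rw [if_neg h1, if_neg fun h => h1 h.2, abs_zero, mul_zero]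
  X0 := H.X0
  X1 := H.X1
  t0 := H.tl0
  env y h1 h2 := H.envL y (CD.mem_lo.2 ⟨h1, h2⟩)
  fm0 := H.F10 _
  fm := by
    have := H.wk1.sqL (D.J + 1)
    rw [CD.tail, max_self] at this
    simp only [ov_sy _ (_ : Cube D.n)]
    exact this
  x1 := H.sum_lo

theorem err (H : D.Ok τ0) (hW : D.W.isSome = true) :
    D.X * (D.X ^ 2 * D.F1 (D.J + 1) + D.tl * ∑ j ∈ D.up, |D.om j|) + ∑ j ∈ D.up, |D.om j| *
      (D.X * R90.vU (fun _ => 1) D.B 0 ov j j +
        ∑ y ∈ Finset.Icc 1 D.J, dm D.B 0 y * R90.vU (fun _ => 1) D.B 0 ov y j) ≤ 3 * D.Err := by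
  have a1 : D.X ^ 3 * D.F1 (D.J + 1) ≤ D.E1 :=
    (mul_le_mul (le_add_of_nonneg_left H.Lv10) (le_add_of_nonneg_right (H.sv0 H.F10 _)) (H.F10 _)
      (add_nonneg H.Lv10 (pow_nonneg H.X0 _))).trans H.LvF1_le
  have a2 : ∑ j ∈ D.up, |D.om j| = D.wt := by simp only [CD.wt_test hW, CD.Iw, mul_one]
  have a3 : D.X * (D.tl * D.wt) ≤ D.Err :=
    ((mul_le_of_le_one_left (mul_nonneg H.tl0 D.wt0) H.X1).trans_eq (mul_comm _ _)).trans
      ((mul_le_mul_of_nonneg_left H.tl_le D.wt0).trans H.wtE0_le)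
  have a4 : ∑ j ∈ D.up, |D.om j| * (D.X * R90.vU (fun _ => 1) D.B 0 ov j j +
      ∑ y ∈ Finset.Icc 1 D.J, dm D.B 0 y * R90.vU (fun _ => 1) D.B 0 ov y j) ≤ D.Lad1 :=
    D.Iw_mono fun j hj => add_le_add (mul_le_mul_of_nonneg_right (H.eX j) (D.v0 j j))
      (Finset.sum_le_sum_of_subset_of_nonneg (fun y hy => by
        have := (CD.mem_up.1 hj).1
        simp only [Finset.mem_Icc, Finset.mem_Ico] at hy ⊢
        omega) fun y _ _ => mul_nonneg (H.dx0 y) (D.v0 y j))
  rw [a2]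
  linarith [H.Lad1_le, H.E1_le hW]

theorem lt_aL (H : D.Ok τ0) : lt D.n D.β D.M D.q D.cl aL =
    (fun y x x' => cf D (1 / 2) y * ov x x', oE D.q) := by
  refine Prod.ext (funext fun y => funext fun x => funext fun x' => ?_) rfl
  by_cases h : y ≤ D.J
  · simp [lt, cut, CD.cl, cf, h, oUb, oU, H.qlo y h]
    ring_nf
    simp
  · simp [lt, cut, CD.cl, cf, h]

theorem lt_bL (H : D.Ok τ0) : lt D.n D.β D.M D.q D.cl bL =
    (fun y x x' => cf D (-(1 / 4)) y * ov x x' ^ 2, fun _ _ _ => 1) := by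
  refine Prod.ext (funext fun y => funext fun x => funext fun x' => ?_) rfl
  by_cases h : y ≤ D.J
  · simp [lt, cut, CD.cl, cf, h, oUb, oU, H.qlo y h]
    ring_nf
    simp
  · simp [lt, cut, CD.cl, cf, h]

theorem stL_b : Bd true fun D => D.tU [bL] := fun τ0 =>
  ⟨200 * |τ0| * 3, by positivity, fun D H hW => by
    have := (hy H (r := -(1 / 4)) (by norm_num [abs_le])).one_le
    rw [abs_of_nonneg H.tau0, mul_assoc _ 3]
    refine le_trans (le_of_eq (congrArg _ (Finset.sum_congr rfl fun j _ => congrArg _ ?_)))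
      (this.trans (mul_le_mul_of_nonneg_left (err H hW) (by linarith [H.tau0])))
    rw [List.map_singleton, lt_bL H, wB]
    refine congrArg _ (funext fun τ => ?_)
    exact (congrArg _ ((congrArg _ (funext fun _ => mul_one (1 : ℝ))).trans
      (Law.TE_const wt_one90 _ _ _ _))).trans (mul_one _)⟩

theorem stL_a : Bd true fun D => D.tU [aL, aL] := fun τ0 =>
  ⟨10 ^ 5 * (τ0 ^ 2 * 1 ^ 2) * 3, by positivity, fun D H hW => by
    have := (hy H (r := 1 / 2) (by norm_num [abs_le])).two_le (w₂ := fun _ => 1) (T := D.S) (h₂ := 0)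
      (Z := oE D.q) (z := 1) wt_one90 (opS_length.trans D.B_len.symm) fun y hy a b => by
        have : y ≤ D.J := by_contra fun h => hy (if_neg h)
        rw [oE, H.qlo y this, sub_zero, abs_mul]
        cases a <;> cases b <;> simp [spin]
    rw [mul_assoc _ 3]
    refine le_trans (le_of_eq (congrArg _ (Finset.sum_congr rfl fun j _ => congrArg _ ?_)))
      (this.trans (mul_le_mul_of_nonneg_left (err H hW) (by positivity)))
    rw [List.map_cons, List.map_singleton, lt_aL H]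
    rfl⟩

end St99

/-- **the leaf `StL`** -/
theorem stL : StL := ⟨St99.stL_b, St99.stL_a⟩

end Crest.Agent.T156.Cas.C40

end
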