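import Crest.Agent.T156.StUD_67
import Crest.Agent.T156.CY2A_44

/-!
# Row 156, block C (helper87): `FreshS` of `StUD_67`

The partner `b` of the marked leaf `a` is replaced by a fresh leaf grafted at the marked node.
The site coefficient does not move; the bulk factor moves by at most `v j j + u 4 t`.
-/

set_option autoImplicit false
set_option linter.all false

noncomputable section

namespace Crest.Agent.T156.Cas.Su67

open MeasureTheory Real Set Filter Topology
open Crest.Agent.T157.E Crest.Agent.T157.Casc Crest.Agent.T157.SL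
open Crest.Agent.T157.G1 (ov)
open Mul55 C40 G90 Nu87 Ck32
open Wp52 (Br Br_mono Br_le Br_add Br_mul)

namespace F87

variable {D : CD} {τ0 : ℝ} {r : ℕ} {σ : SM r}

theorem TB_gr (hσ : Rz D.B.length σ) (a : Fin r) (j : ℕ) (F : (Fin r → Cube D.n) → ℝ) :
    TB D (gr D.B.length σ a j) (fun x => F fun c => x c.succ) = TB D σ F :=
  TM_inj wt_one90 (hσ.gr a j) (Fin.succ_injective _) F

theorem TS_gr (hσ : Rz D.B.length σ) (a : Fin r) (j : ℕ) (F : (Fin r → Bool) → ℝ) :
    Ck32.TS D (gr D.B.length σ a j) (fun x => F fun c => x c.succ) = Ck32.TS D σ F :=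
  TM_inj wt_one90 ((lenS (D := D)).symm ▸ hσ.gr a j) (Fin.succ_injective _) F

/-- the site coefficient does not see a grafted leaf -/
theorem cf_gr (hσ : Rz D.B.length σ) (a : Fin r) (j : ℕ) (p q p' q' : Fin r) :
    cf D (gr D.B.length σ a j) p.succ q.succ p'.succ q'.succ = cf D σ p q p' q' :=
  congrArg (tu D (σ p q) * tu D (σ p' q') * ·) (TS_gr hσ a j fun x =>
    oE D.q (σ p q) (x p) (x q) * oE D.q (σ p' q') (x p') (x q'))

theorem tu_mem (H : D.Ok τ0) (t : ℕ) : 0 ≤ tu D t ∧ tu D t ≤ τ0 / 2 := by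
  have := H.tau_mem t
  have := H.tau0
  unfold tu
  split_ifs <;> constructor <;> linarith

theorem abs_cf_le (H : D.Ok τ0) (hσ : Rz D.B.length σ) (p q p' q' : Fin r) :
    |cf D σ p q p' q'| ≤ τ0 ^ 2 := by
  have h1 := site_le H hσ [(p, q), (p', q')]
  have e : se D [(p, q), (p', q')] σ = fun x =>
      oE D.q (σ p q) (x p) (x q) * oE D.q (σ p' q') (x p') (x q') := funext fun x => by simp [se]
  rw [e] at h1
  have a := tu_mem H (σ p q)
  have b := tu_mem H (σ p' q')
  rw [cf, abs_mul, abs_of_nonneg (mul_nonneg a.1 b.1)]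
  refine (mul_le_mul (mul_le_mul a.2 b.2 b.1 (a.1.trans a.2)) h1 (abs_nonneg _)
    (mul_nonneg (a.1.trans a.2) (a.1.trans a.2))).trans_eq ?_
  simp only [List.length_cons, List.length_nil]
  ring

theorem cf_zero {p q : Fin r} (h : ¬D.J < σ p q) (p' q' : Fin r) : cf D σ p q p' q' = 0 := by
  rw [cf, tu, if_neg h, zero_mul, zero_mul]

/-- two leaves `a`, `b` split at `t`, both split from `c` at `y ≤ t` -/
theorem tri (hσ : Rz D.B.length σ) {a b c : Fin r} (hab : a ≠ b) (hac : a ≠ c) (hbc : b ≠ c)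
    {y t : ℕ} (ht : σ a b = t) (h1 : σ a c = y) (h2 : σ b c = y) (hy : y ≤ t) :
    TB D σ (fun x => (ov (x a) (x c) - ov (x b) (x c)) ^ 2) = 2 * D.v y t := by
  have e2 := TM_pair (h := 0) wt_one90 hσ hac fun x y => ov x y ^ 2
  have e3 := TM_pair (h := 0) wt_one90 hσ hbc fun x y => ov x y ^ 2
  have e1 : TB D σ (fun x => ov (x a) (x c) * ov (x b) (x c)) =
      pi2 (fun _ => 1) D.B y (fun x x' => ov x x' ^ 2) 0 - D.v y t := by
    obtain ⟨s, e, rfl⟩ := hσ
    rw [TB, TM_sm wt_one90 s D.B 0 e.injective]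
    exact Y44.three wt_one90 (fun x y => by rw [ov, ov, dotProduct_comm]) s (e.injective.ne hab)
      (e.injective.ne hac) (e.injective.ne hbc) ht h1 h2 hy
  have e4 : (fun x : Fin r → Cube D.n => (ov (x a) (x c) - ov (x b) (x c)) ^ 2) = fun x =>
      ov (x a) (x c) ^ 2 + ov (x b) (x c) ^ 2 - 2 * (ov (x a) (x c) * ov (x b) (x c)) :=
    funext fun x => by ring
  rw [h1] at e2
  rw [h2] at e3
  unfold TB at e1 ⊢
  rw [e4, TM_sub, TM_add, TM_mul, e1, e2, e3]
  ring

/-- the bulk factor with a fresh partner -/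
theorem T3_gr (hσ : Rz D.B.length σ) {a b p q p' q' : Fin r} (hab : a ≠ b) (hp : p ≠ q)
    (hp' : p' ≠ q') : |T3 D σ a b p q p' q' -
      T3 D (gr D.B.length σ a (σ a b)) a.succ 0 p.succ q.succ p'.succ q'.succ| ≤
      D.v (σ a b) (σ a b) + 1 / 4 * D.u 4 (σ p q) + 1 / 4 * D.u 4 (σ p' q') := by
  have hσ' := hσ.gr a (σ a b)
  have m : gr D.B.length σ a (σ a b) a.succ 0 = σ a b := by
    rw [gr_s0, hσ.self]; exact min_eq_left (hσ.le a b)
  have t := tri hσ' (a := b.succ) (b := 0) (c := a.succ) (Fin.succ_ne_zero _)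
    (fun e => hab (Fin.succ_injective _ e).symm) (Fin.succ_ne_zero _).symm (y := σ a b) (t := σ a b)
    (by rw [gr_s0, hσ.comm b a, min_self]) (hσ.comm b a) ((hσ'.comm _ _).trans m) le_rfl
  have u := TB_pow hσ' (a := p.succ) (b := q.succ) (fun e => hp (Fin.succ_injective _ e)) 4
  have u' := TB_pow hσ' (a := p'.succ) (b := q'.succ) (fun e => hp' (Fin.succ_injective _ e)) 4
  simp only [gr_ss] at u u'
  rw [T3, ← TB_gr hσ a (σ a b), T3, m]
  simp only [gr_ss]
  unfold TB at *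
  rw [← TM_sub]
  refine (abs_TB_le hσ' (G := fun x => 1 / 2 * (ov (x b.succ) (x a.succ) - ov (x 0) (x a.succ)) ^ 2 +
    1 / 4 * |oU D.q (σ p q) (x p.succ) (x q.succ)| ^ 4 +
    1 / 4 * |oU D.q (σ p' q') (x p'.succ) (x q'.succ)| ^ 4) fun x => ?_).trans_eq ?_
  · have c : ∀ y z : Cube D.n, ov y z = ov z y := fun y z => by rw [ov, ov, dotProduct_comm]
    rw [← sub_mul, oU, oU, sub_sub_sub_cancel_right, c (x a.succ), c (x a.succ), abs_mul, abs_mul,
      ← sq_abs (_ - _)]
    generalize |ov (x b.succ) (x a.succ) - ov (x 0) (x a.succ)| = d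
    generalize |oU D.q (σ p q) (x p.succ) (x q.succ)| = y
    generalize |oU D.q (σ p' q') (x p'.succ) (x q'.succ)| = z
    nlinarith [sq_nonneg (d - y * z), sq_nonneg (y ^ 2 - z ^ 2)]
  · unfold TB
    rw [TM_add, TM_add, TM_mul, TM_mul, TM_mul, t, u, u']
    ring

/-- the majorant -/
def G (D : CD) (j t : ℕ) : ℝ := if D.J < t ∧ t < j then D.v j j + D.u 4 t else 0

theorem G0 (j t : ℕ) : 0 ≤ G D j t := by
  unfold G
  split_ifs
  exacts [add_nonneg (D.v0 _ _) (D.u0 _ _), le_rfl]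

theorem pt (H : D.Ok τ0) (hσ : Rz D.B.length σ) {a b p q p' q' : Fin r} (hab : a ≠ b) (hp : p ≠ q)
    (hp' : p' ≠ q') : |EE D σ a b p q p' q' -
      EE D (gr D.B.length σ a (σ a b)) a.succ 0 p.succ q.succ p'.succ q'.succ| ≤
      τ0 ^ 2 * G D (σ a b) (σ p q) := by
  have m : gr D.B.length σ a (σ a b) a.succ 0 = σ a b := by
    rw [gr_s0, hσ.self]; exact min_eq_left (hσ.le a b)
  have e : Ex (gr D.B.length σ a (σ a b)) a.succ 0 p.succ q.succ p'.succ q'.succ ↔
      Ex σ a b p q p' q' := by simp only [Ex, m, gr_ss]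
  have z := mul_nonneg (sq_nonneg τ0) (G0 (D := D) (σ a b) (σ p q))
  simp only [EE, e, cf_gr hσ]
  split_ifs with h
  · by_cases hJ : D.J < σ p q
    · have h3 := T3_gr hσ hab hp hp'
      rw [h.1] at h3
      rw [← mul_sub, abs_mul, G, if_pos ⟨hJ, h.2.1⟩]
      exact mul_le_mul (abs_cf_le H hσ _ _ _ _) (h3.trans (by linarith [D.u0 4 (σ p q)]))
        (abs_nonneg _) (sq_nonneg _)
    · simpa only [cf_zero hJ, zero_mul, sub_self, abs_zero] using z
  · simpa only [sub_self, abs_zero] using z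

theorem Br_G (H : D.Ok τ0) {j : ℕ} (hj : j ∈ D.up) :
    Br D.B (G D j) ≤ D.e j * D.v j j + D.I (D.u 4) := by
  have h1 : ex D.B j ≤ D.e j := by
    refine le_trans (le_min (Tay38.ex_le_one H.mono j) ?_) (H.esc j hj)
    linarith [H.sig0 (CD.mem_up.1 hj).2.le]
  refine (Br_mono H.mono (g' := fun t => D.v j j * (if t ≤ j then 1 else 0) + upF D (D.u 4) t)
    fun t _ => ?_).trans ?_
  · unfold G
    split_ifs with a b b
    · rw [upF, if_pos a.1, mul_one]
    · omega
    · exact add_nonneg (mul_nonneg (D.v0 _ _) zero_le_one) (upF_nonneg (D.u0 4) t)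
    · exact add_nonneg (mul_nonneg (D.v0 _ _) le_rfl) (upF_nonneg (D.u0 4) t)
  · rw [Br_add, Br_mul, Br_upF H, mul_comm (D.e j)]
    exact add_le_add (mul_le_mul_of_nonneg_left ((Br_le H.mono j).trans h1) (D.v0 _ _)) le_rfl

end F87

open F87

/-- **`FreshS`** -/
theorem freshS : FreshS := fun k p q p' q' hp hp' => Bd.mk' fun τ0 =>
  ⟨τ0 ^ 2 * ((3 * (1 + k)) ^ k * 2) * (1 + 1), fun D H hW => by
    have h1 := H.Iw_split hW (A := D.I (D.u 4)) (a := fun j => D.e j * D.v j j) zero_le_one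
      zero_le_one (by rw [one_mul]; exact H.Iu4_le) (by
        rw [one_mul]
        exact (D.Iw_mono fun j _ => le_add_of_nonneg_right (H.sv_low0 _ _)).trans H.Lad1_le)
    rw [mul_assoc]
    refine le_trans ?_ (mul_le_mul_of_nonneg_left h1 (by positivity))
    rw [← D.Iw_mul, CD.Iw, sum_up H, aw, avt]
    refine (Finset.abs_sum_le_sum_abs _ _).trans (Finset.sum_le_sum fun j hj => ?_)
    have hj' := Nat.lt_succ_iff.1 (Finset.mem_range.1 hj)
    rw [abs_mul, mo]
    split_ifs with hu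
    · refine mul_le_mul_of_nonneg_left ?_ (abs_nonneg _)
      refine (Site94.abs_avc_le H.mono (rz_tw D.B.length j) k
        (g := fun σ => τ0 ^ 2 * G D j (σ p q)) fun σ hσ h => ?_).trans ?_
      · have e : σ (ma k) (mb k) = j := (h 1 0).trans (tw_old _ j hj')
        exact (pt H hσ (a := ma k) (b := mb k) (mk_ne k) hp hp').trans_eq (by rw [e])
      · rw [avc_mul, mul_assoc]
        refine mul_le_mul_of_nonneg_left ((Site94.avc_pair_le H.mono hj' k (G0 j) hp).trans ?_)
          (sq_nonneg _)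
        rw [mul_assoc, G, if_neg (by omega), zero_add]
        exact mul_le_mul_of_nonneg_left (mul_le_mul_of_nonneg_left (Br_G H hu) zero_le_two)
          (by positivity)
    · rw [abs_zero, zero_mul]⟩

end Crest.Agent.T156.Cas.Su67

end
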