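import Crest.Agent.T156.CL3_76
import Crest.Agent.T156.CStC_22
import Crest.Agent.T156.Cub_94
import Crest.Agent.T156.CEx_23

/-!
# Row 156, block C: tools for `tU [aU, aU]` (helper54)

Parity at an upper node, Hölder on three edges, two nodes at the marked depth, words on constants.
-/

set_option autoImplicit false
set_option linter.unusedSectionVars false

noncomputable section

namespace Crest.Agent.T156.Cas.C40.StA54

open MeasureTheory Real Set Filter Topology
open Crest.Agent.T157.E Crest.Agent.T157.Casc Crest.Agent.T157.SL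
open Crest.Agent.T157.G1 (ov)
open Crest.ProbabilityR.SpinGlassDynamics (spin)
open Mul55 Nu87 G90 Ck32
open Wp52 (Br Br_nonneg Ws_le)

section gen
variable {Ω : Type} [Fintype Ω] {w : Ω → ℝ}

/-- **a nonempty word kills the constants** -/
theorem WdO_cst (hw : Wt w) (M : List (Lv Ω)) (h : Ω → ℝ) {S : ℕ → Ω → Ω → ℝ}
    {l : List (ℕ → Ω → Ω → ℝ)} (hS : S ∈ Mul55.Ok Ω M.length) (hl : ∀ T ∈ l, T ∈ Mul55.Ok Ω M.length)
    (s : Sh) (c : ℝ) : WdO M (S :: l) (TEf w M h) s (fun _ => c) = 0 := by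
  refine pd_wordO hw h M ((FL.ev s fun _ => c).dop M S) (fun M' hM' => ?_) hl
  obtain ⟨h0, v, hv⟩ := hS
  have h1 := dT_const' hw s M' h h0 c
  rw [dT_eq_sg hw s M' h (c := v) (by rwa [Cav22.len_tilt hM'])] at h1
  rw [← Dop_tilt hM', Dop_eq_sg]
  exact h1

theorem one_node {M : List (Lv Ω)} (hM : Mono 0 M) {j : ℕ} (hj : j ≤ M.length) {τ : SM 3}
    (hτ : Rz M.length τ) (e1 : τ 1 2 = j) :
    up1 (r := 2) M (fun τ => if τ 1 0 = j ∧ τ 1 3 < j then 1 else 0) τ ≤ dm M 0 j := by
  have d0 := dm_nonneg hM j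
  set G : Fin 3 → ℕ → ℝ := fun c i => if min i (τ 0 c) = j ∧ τ 0 2 < j then 1 else 0 with hG
  change Ws M τ G / _ ≤ _
  have h1 := Ws_le hM hτ (G := G) fun c i _ => by simp only [hG]; positivity
  have h2 : ∀ c, c ≠ 0 → τ 0 2 < j → τ 0 c < j := fun c hc h => by
    have u1 := hτ.ultra 0 1 2
    fin_cases c
    · exact absurd rfl hc
    · change τ 0 1 < j
      omega
    · exact h
  have h3 : ∀ c i, i ≤ M.length → G c i ≤ if c = 0 ∧ i = j ∧ τ 0 2 < j then 1 else 0 :=
    fun c i hi => by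
      simp only [hG]
      split_ifs with p1 p2
      · exact le_rfl
      · have hc : c = 0 := by
          by_contra hc
          have := h2 c hc p1.2
          omega
        subst hc
        have := hτ.self 0
        exact absurd ⟨rfl, by omega, p1.2⟩ p2
      · exact zero_le_one
      · exact le_rfl
  have h4 : ∀ c, Br M (G c) + ∑ b ∈ Finset.univ.erase c, ex M (τ c b) * G c (τ c b) ≤
      if c = 0 then dm M 0 j else 0 := fun c => by
    have a1 : ∑ b ∈ Finset.univ.erase c, ex M (τ c b) * G c (τ c b) ≤ 0 :=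
      Finset.sum_nonpos fun b hb => mul_nonpos_of_nonneg_of_nonpos (ex_nonneg hM _)
        ((h3 _ _ (hτ.le _ _)).trans_eq (if_neg fun ⟨p1, p2, p3⟩ => by
          subst p1
          exact (h2 b (Finset.ne_of_mem_erase hb) p3).ne p2))
    have a2 := Wp52.Br_mono hM (g := G c)
      (g' := fun i => if c = 0 then (if i = j then 1 else 0) else 0) fun i hi =>
        (h3 c i hi).trans (by
          by_cases p1 : c = 0 <;> by_cases p2 : i = j <;> simp [p1, p2]
          split_ifs <;> norm_num)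
    refine (add_le_add a2 a1).trans_eq ?_
    split_ifs <;> simp [Br, Nat.lt_succ_of_le hj]
  have h5 := h1.trans (Finset.sum_le_sum fun c _ => h4 c)
  simp only [Finset.sum_ite_eq', Finset.mem_univ, if_true] at h5
  rw [div_le_iff₀ (by positivity)]
  push_cast
  linarith

/-- **two nodes at the marked depth** -/
theorem two_node {M : List (Lv Ω)} (hM : Mono 0 M) {j : ℕ} (hj : j ≤ M.length) (k : ℕ)
    {a b : Fin (1 + k + 1)} (hab : a ≠ b) :
    avc M (tw M.length j) k (fun σ => if σ a b = j ∧ σ a (old k 1) < j then 1 else 0) ≤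
      dm M 0 j := by
  have t10 : tw M.length j 1 0 = j := tw_old _ _ hj
  have t01 : tw M.length j 0 1 = j := tw_01 hj
  have d0 := dm_nonneg hM j
  by_cases H : ∃ x, a = old k x ∨ b = old k x
  · refine ((avc_congr' (rz_tw _ j) k (ψ := fun _ => 0) fun τ hτ ho => if_neg ?_).trans
      (avc_const 0 k)).trans_le d0
    rintro ⟨h1, h2⟩
    have e1 := ho 0 1
    have e2 := hτ.self (old k 1)
    have e3 := hτ.ultra a b (old k 1)
    obtain ⟨x, rfl | rfl⟩ := H <;> fin_cases x <;> simp only [Fin.zero_eta, Fin.mk_one] at * <;>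
      omega
  · push Not at H
    set φ : SM (1 + 2 + 1) → ℝ := fun τ => if τ 1 0 = j ∧ τ 1 3 < j then 1 else 0 with hφ
    have n01 : old (r := 1) k 0 ≠ old k 1 := fun e => absurd (old_inj k e) (by decide)
    have e := avc_inj (L := M) (rz_tw M.length j) 2 φ k ![b, a, old k 0, old k 1]
      (fun x y hxy => by
        obtain ⟨h1, h2⟩ := H 0
        obtain ⟨h3, h4⟩ := H 1
        fin_cases x <;> fin_cases y <;>
          first | rfl | exact absurd hxy ‹_› | exact absurd hxy.symm ‹_›)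
      fun x => by fin_cases x <;> rfl
    refine e.trans_le ((avc_mono' hM (rz_tw _ j) 1 (ψ := fun _ => dm M 0 j)
      fun τ hτ ho => ?_).trans_eq (avc_const _ 1))
    exact one_node hM hj hτ ((ho 0 1).trans t01)

end gen

variable {D : CD} {τ0 : ℝ} {r : ℕ}

/-- the parity constant -/
def cE (r : ℕ) : ℝ := Site94.cP r (2 * (Site94.cP 2 2 + 1)) * (Site94.cP 2 2 + 1)

theorem cE_nonneg (r : ℕ) : 0 ≤ cE r :=
  mul_nonneg (Site94.cP_nonneg _ _) (by linarith [Site94.cP_nonneg 2 2])

theorem cE_mono {r r' : ℕ} (h : r ≤ r') : cE r ≤ cE r' := by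
  have := Site94.cP_nonneg 2 2
  unfold cE Site94.cP
  gcongr

/-- **an odd cluster above an upper node `t` costs `e t`** -/
theorem site_e (H : D.Ok τ0) {σ : SM r} (hσ : Rz D.B.length σ) {A : EL r} (a : Fin r) {t : ℕ}
    (ht : t ∈ D.up) (h : Odd (A.map fun e => if Site94.Crs σ a t e.1 e.2 then 1 else 0).sum) :
    |Ck32.TS D σ (se D A σ)| ≤ 2 ^ A.length * cE r * D.e t := by
  have key : ∀ ε : ℝ, 0 < ε → ε ≤ 1 →
      |Ck32.TS D σ (se D A σ)| ≤ 2 ^ A.length * cE r * (D.e t + ε) := fun ε h0 h1 => by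
    obtain ⟨s, s0, s1, s2, -, s3, s4⟩ := size76 H ht h0 h1
    have := L376.SF_odd2 (L := D.S) (ℓ := opV D.n D.β D.M D.q) (B := Finset.univ)
      (q := fun _ => D.q) (p := fun i : Fin A.length => A[i.1].1) (p' := fun i => A[i.1].2)
      (C.forall₂_sl spin (opV_nn H.ook)) (Cav22.mono_tilt tilt_opS.symm H.mono)
      (lenS (D := D) ▸ hσ) (fun _ _ => abs_q_le H (hσ.le _ _)) (j := t)
      ⟨a, by rwa [Finset.card_filter, Fin.sum_univ_fun_getElem A
        fun e => if Site94.Crs σ a t e.1 e.2 then 1 else 0]⟩ s0 le_rfl s3 fun _ _ hj => s4 _ hj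
    rw [← TS_eq, Finset.card_univ, Fintype.card_fin] at this
    rw [mul_assoc, cE, mul_assoc]
    exact this.trans (mul_le_mul_of_nonneg_left (mul_le_mul (Site94.cP_mono r s1) s2 s0.le
      (Site94.cP_nonneg _ _)) (by positivity))
  have hc : Continuous fun ε : ℝ => 2 ^ A.length * cE r * (D.e t + ε) := by fun_prop
  have := (hc.tendsto 0).mono_left (nhdsWithin_le_nhds (s := Ioi 0))
  simp only [add_zero] at this
  exact ge_of_tendsto this (by
    filter_upwards [Ioc_mem_nhdsGT (zero_lt_one' ℝ)] with ε h using key ε h.1 h.2)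

/-- two edges between the same two clusters -/
def Db (σ : SM r) (a b c d : Fin r) : Prop :=
  σ a b = σ c d ∧ ((σ a b < σ a c ∧ σ a b < σ b d) ∨ (σ a b < σ a d ∧ σ a b < σ b c))

instance (σ : SM r) (a b c d : Fin r) : Decidable (Db σ a b c d) := by unfold Db; infer_instance

/-- two `η` edges which are not a double edge -/
theorem site_two (H : D.Ok τ0) {σ : SM r} (hσ : Rz D.B.length σ) {a b c d : Fin r}
    (ht : σ a b ∈ D.up) (hle : σ a b ≤ σ c d) (hn : ¬Db σ a b c d) :
    |Ck32.TS D σ (se D [(a, b), (c, d)] σ)| ≤ 4 * cE r * D.e (σ a b) := by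
  have hK : σ a b < D.B.length := by rw [lenB]; exact (Finset.mem_Ioo.1 ht).2
  have e1 := hσ.self a
  have e2 := hσ.self b
  have e3 := hσ.comm b a
  have key : ∀ o, Site94.Crs σ o (σ a b) a b → ¬Site94.Crs σ o (σ a b) c d →
      |Ck32.TS D σ (se D [(a, b), (c, d)] σ)| ≤ 4 * cE r * D.e (σ a b) := fun o h1 h2 => by
    have := site_e H hσ (A := [(a, b), (c, d)]) o ht (by simp [h1, h2])
    norm_num at this
    exact this
  by_cases h1 : Site94.Crs σ a (σ a b) c d
  · refine key b (by unfold Site94.Crs; omega) fun h2 => hn ?_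
    have u1 := hσ.ultra a c b
    have u2 := hσ.ultra a d b
    have u3 := h1.le hσ
    rw [hσ.comm c b] at u1
    rw [hσ.comm d b] at u2
    unfold Site94.Crs at h1 h2
    unfold Db
    omega
  · exact key a (by unfold Site94.Crs; omega) h1

/-- the bulk factor of three upper edges -/
def Bk (D : CD) (σ : SM r) (l l' a b c d : Fin r) : ℝ :=
  TB D σ fun x => oU D.q (σ l l') (x l) (x l') * oU D.q (σ a b) (x a) (x b) *
    oU D.q (σ c d) (x c) (x d)

/-- **Hölder** -/
theorem abs_Bk_le {σ : SM r} (hσ : Rz D.B.length σ) {l l' a b c d : Fin r} (h0 : l ≠ l')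
    (h1 : a ≠ b) (h2 : c ≠ d) :
    |Bk D σ l l' a b c d| ≤ 4 * (D.g (σ l l') * D.g (σ a b) * D.g (σ c d)) := by
  have := Cub94.TM_holder (h := 0) wt_one90 hσ (B := (Finset.univ : Finset (Fin 3))) (n := 3)
    (by simp) (f := ![fun x => oU D.q (σ l l') (x l) (x l'), fun x => oU D.q (σ a b) (x a) (x b),
      fun x => oU D.q (σ c d) (x c) (x d)]) (u := ![D.g (σ l l'), D.g (σ a b), D.g (σ c d)])
    (fun e _ => by fin_cases e <;> exact D.g0 _) fun e _ => by
      fin_cases e
      exacts [((TB_pow hσ h0 3).trans (D.g_cube _).symm).le,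
        ((TB_pow hσ h1 3).trans (D.g_cube _).symm).le, ((TB_pow hσ h2 3).trans (D.g_cube _).symm).le]
  simp only [Fin.prod_univ_three, Finset.card_univ, Fintype.card_fin] at this
  norm_num at this
  exact this

theorem g_le (H : D.Ok τ0) {j : ℕ} (hj : j ≤ D.K) : D.g j ≤ 2 := by
  refine le_of_pow_le_pow_left₀ (n := 3) (by norm_num) zero_le_two ?_
  rw [D.g_cube]
  exact (pi2_mono (Ω := Cube D.n) wt_one90 _ j (K' := fun _ _ => 2 ^ 3) (fun x y =>
    pow_le_pow_left₀ (abs_nonneg _) (abs_oU_le H.ook hj x y) 3) 0).trans_eq (pi2_const wt_one90 _ _ _ _)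

theorem Br_hi (H : D.Ok τ0) (a : ℕ → ℝ) (j : ℕ) :
    Br D.B (fun v => if j < v then a v else 0) = D.hi a j := by
  rw [Br, lenB, Finset.sum_range_succ, show dm D.B 0 D.K = 0 from H.top, zero_mul, add_zero, CD.hi]
  simp only [mul_ite, mul_zero]
  rw [← Finset.sum_filter]
  exact Finset.sum_congr (by ext v; simp [and_comm]) fun _ _ => rfl

theorem Br_lw (a : ℕ → ℝ) {j : ℕ} (hj : j ≤ D.K) :
    Br D.B (fun v => if D.J < v ∧ v < j then a v else 0) = D.lw a j := by
  rw [Br, lenB, CD.lw]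
  simp only [mul_ite, mul_zero]
  rw [← Finset.sum_filter]
  refine Finset.sum_congr ?_ fun _ _ => rfl
  ext v
  simp only [Finset.mem_filter, Finset.mem_range, Finset.mem_Ioo]
  omega

end Crest.Agent.T156.Cas.C40.StA54

end
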