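import Crest.Agent.T156.StUI_67
import Crest.Agent.T156.CStA_54

/-!
# Row 156, block C: frame and glue of `tU [aU, aU]` (helper54)
-/

set_option autoImplicit false
set_option linter.unusedSectionVars false

noncomputable section

namespace Crest.Agent.T156.Cas.Su67

open MeasureTheory Real Set Filter Topology
open Crest.Agent.T157.E Crest.Agent.T157.Casc Crest.Agent.T157.SL
open Mul55 C40 G90 Nu87

namespace Fr54

variable {D : CD} {τ0 : ℝ} {r : ℕ}

/-- a function of three edges -/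
def g3 (Φ : (r : ℕ) → SM r → Fin r → Fin r → Fin r → Fin r → Fin r → Fin r → ℝ) : GF :=
  fun r σ E => match E with
    | [e, e', m] => Φ r σ m.1 m.2 e.1 e.2 e'.1 e'.2
    | _ => 0

theorem len3 {α : Type} {E : List α} (h : E.length = 3) : ∃ a b c, E = [a, b, c] :=
  List.length_eq_three.1 h

/-- the word as a graph sum -/
theorem tU_eq (H : D.Ok τ0) : D.tU [C40.aU, C40.aU] = LamG D.B (mo D) 2
    (g3 fun _ σ a b p q p' q' => cf D σ p q p' q' * T3 D σ a b p q p' q') := by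
  have e := Ck32.frame (D := D) (mo D) (oU D.q, fun _ _ _ => 1)
    ([C40.aU, C40.aU].map (lt D.n D.β D.M D.q D.cl))
  rw [CD.tU, Ck32.sum_up H]
  refine (Finset.sum_congr rfl fun j _ => ?_).trans (e.trans ?_)
  · rw [mo]
    split_ifs
    · rfl
    · rw [zero_mul]
  · refine LamG_congr _ _ _ fun r σ E _ _ hE => ?_
    obtain ⟨e, e', m, rfl⟩ := len3 hE
    have e1 : Ck32.TB D σ (eF [(lt D.n D.β D.M D.q D.cl C40.aU).1,
        (lt D.n D.β D.M D.q D.cl C40.aU).1, oU D.q] σ [e, e', m]) =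
        tu D (σ e.1 e.2) * tu D (σ e'.1 e'.2) * T3 D σ m.1 m.2 e.1 e.2 e'.1 e'.2 := by
      rw [T3, Ck32.TB, Ck32.TB, ← TM_mul]
      refine congrArg _ (funext fun x => ?_)
      by_cases h1 : D.J < σ e.1 e.2 <;> by_cases h2 : D.J < σ e'.1 e'.2 <;>
        simp [eF, lt, cut, CD.cl, oUb, tu, h1, h2]
      ring
    have e2 : Ck32.TS D σ (eF [oE D.q, oE D.q, fun _ _ _ => 1] σ [e, e', m]) = Ck32.TS D σ fun x =>
        oE D.q (σ e.1 e.2) (x e.1) (x e.2) * oE D.q (σ e'.1 e'.2) (x e'.1) (x e'.2) :=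
      congrArg _ (funext fun x => by simp [eF, mul_comm])
    refine (congrArg₂ (· * ·) e1 e2).trans ?_
    simp only [g3, cf]
    ring

theorem inv_last (K j : ℕ) : Inv K fun _ σ E => Rz K σ ∧ ∃ m ∈ E.getLast?, σ m.1 m.2 = j where
  old := fun {r σ E} a b ⟨h, m, hm, e⟩ _ => ⟨h, m, by
    cases E with
    | nil => simp at hm
    | cons x E => simpa [List.getLast?_cons_cons] using hm, e⟩
  new := fun {r σ E} a i ⟨h, m, hm, e⟩ _ => ⟨h.gr a i, Prod.map Fin.succ Fin.succ m, by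
    rw [EL.re, List.getLast?_map]
    exact Option.mem_map_of_mem _ hm, e⟩

/-- **the compensator has graph sum zero** -/
theorem kp_zero (H : D.Ok τ0) : LamG D.B (mo D) 2
    (g3 fun _ σ a b p q p' q' => cf D σ p q p' q' * kp D σ a b p q p' q') = 0 := by
  refine Finset.sum_eq_zero fun j hj' => ?_
  rw [mo]
  split_ifs with hj
  swap
  · rw [zero_mul]
  obtain ⟨hJ, hK⟩ := Finset.mem_Ioo.1 hj
  have hK' : j ≤ D.B.length := by rw [Ck32.lenB]; exact hK.le
  set P : (ℕ → Cube D.n → Cube D.n → ℝ) × SK := (fun _ _ _ => 1, D.lev j) with hP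
  have hS := rep_TE wt_one90 D.S 0 [D.lev j, D.lev j, fun _ _ _ => 1]
  rw [Ck32.lenS] at hS
  have e := (rep_wB (-1) D.B _ _ [P, P] [(fun _ _ _ => 1, fun _ _ _ => 1)]
    (repB_mul (rep_TE wt_one90 D.B 0 _) hS)).two hK'
  have mem : ten P ∈ Mul55.Ok (Cube D.n × Bool) (op D.n D.β D.M D.q 0).length := by
    rw [op_length]
    refine ⟨?_, 0, fun y => ?_⟩
    · funext x y
      simp [ten, hP, CD.lev, (show 0 ≠ j by omega)]
    · simp [ten, hP, CD.lev, (show D.M.length ≠ j from hK.ne')]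
  have z : wB (-1) D.B (oB D.n D.β D.M D.q []) [P, P] (Sh.two j) (pr2 j fun _ _ => 1)
      (pr2 j fun _ _ => 1) = 0 := by
    rw [Ex23.wB_eq H.pos H.ook]
    exact StA54.WdO_cst wt_one90 _ 0 mem (fun T hT => List.mem_singleton.1 hT ▸ mem) _ (1 * 1)
  have e' := DG_iter_mul (-1) D.B (tu D j ^ 2 * D.u3 j) (fun r σ E =>
    tmG (fun _ => 1) D.B 0 [fun _ _ _ => 1, fun _ _ _ => 1, fun _ _ _ => 1] r σ E *
      tmG (fun _ => 1) D.S 0 [D.lev j, D.lev j, fun _ _ _ => 1] r σ E) 2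
  rw [DG_iter_congr (-1) D.B (inv_last D.B.length j) 2 (n := 1) (Ψ := fun r σ E =>
    tu D j ^ 2 * D.u3 j *
      (tmG (fun _ => 1) D.B 0 [fun _ _ _ => 1, fun _ _ _ => 1, fun _ _ _ => 1] r σ E *
        tmG (fun _ => 1) D.S 0 [D.lev j, D.lev j, fun _ _ _ => 1] r σ E)) ?_ _ _ _
    ⟨rz_tw _ _, (1, 0), rfl, Ck32.tw_old _ _ hK'⟩ rfl, e']
  · exact mul_eq_zero_of_right _ (mul_eq_zero_of_right _ (e.symm.trans z))
  · rintro r σ E ⟨hσ, m', hm, hj⟩ hE
    obtain ⟨e, e', m, rfl⟩ := len3 hE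
    obtain rfl : m = m' := by simpa using hm
    have e1 : tmG (fun _ => 1) D.B 0 [fun _ _ _ => 1, fun _ _ _ => 1, fun _ _ _ => 1] r σ
        [e, e', m] = 1 :=
      (congrArg _ (funext fun x => by simp [eF])).trans (TM_const wt_one90 hσ 1)
    simp only [g3, e1, one_mul, kp, cf, hj]
    split_ifs with h
    · have e2 : tmG (fun _ => 1) D.S 0 [D.lev j, D.lev j, fun _ _ _ => 1] r σ [e, e', m] =
          Ck32.TS D σ fun x => oE D.q j (x e.1) (x e.2) * oE D.q j (x e'.1) (x e'.2) :=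
        congrArg _ (funext fun x => by simp [eF, CD.lev, h.1, h.2, mul_comm])
      rw [e2, h.1, h.2]
      ring
    · have e2 : tmG (fun _ => 1) D.S 0 [D.lev j, D.lev j, fun _ _ _ => 1] r σ [e, e', m] = 0 :=
        (congrArg _ (funext fun x => by
          rcases not_and_or.1 h with h | h <;> simp [eF, CD.lev, h])).trans
          (TM_const wt_one90 (Ck32.lenS (D := D) ▸ hσ) 0)
      rw [e2]
      ring

theorem cf_sw {σ : SM r} {K : ℕ} (hσ : Rz K σ) (p q p' q' : Fin r) :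
    cf D σ q p p' q' = cf D σ p q p' q' ∧ cf D σ p q q' p' = cf D σ p q p' q' := by
  constructor <;> simp only [cf, oE, hσ.comm q p, hσ.comm q' p', mul_comm]

theorem T3_sw {σ : SM r} {K : ℕ} (hσ : Rz K σ) (a b p q p' q' : Fin r) :
    T3 D σ a b q p p' q' = T3 D σ a b p q p' q' ∧ T3 D σ a b p q q' p' = T3 D σ a b p q p' q' := by
  constructor
  · simp only [T3, hσ.comm q p, oU_comm' D.q _ (_ : Cube D.n) (_ : Cube D.n)]
  · simp only [T3, hσ.comm q' p', oU_comm' D.q _ (_ : Cube D.n) (_ : Cube D.n)]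

/-- the partition into classes -/
theorem Ph_eq {σ : SM r} {K : ℕ} (hσ : Rz K σ) (a b p q p' q' : Fin r) :
    Ph D σ a b p q p' q' =
      (if σ a b ≤ σ p q ∧ σ a b ≤ σ p' q' then Ph D σ a b p q p' q' else 0) +
      (if ¬(σ a b ≤ σ p q ∧ σ a b ≤ σ p' q') ∧ ¬Ex4 σ a b p q p' q' then
        cf D σ p q p' q' * T3 D σ a b p q p' q' else 0) +
      (EE D σ a b p q p' q' + EE D σ a b q p p' q' + EE D σ a b p q q' p' +
        EE D σ a b q p q' p') := by
  have u1 := hσ.ultra p a q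
  have u2 := hσ.ultra p' a q'
  have c1 := hσ.comm p a
  have c2 := hσ.comm p' a
  have c3 := hσ.comm q p
  have c4 := hσ.comm q' p'
  have k0 : ¬(σ a b ≤ σ p q ∧ σ a b ≤ σ p' q') →
      Ph D σ a b p q p' q' = cf D σ p q p' q' * T3 D σ a b p q p' q' := fun h => by
    rw [Ph, kp, if_neg (by omega), sub_zero]
  have f1 := (cf_sw (D := D) hσ p q p' q').1
  have f2 := (cf_sw (D := D) hσ p q p' q').2
  have f3 : cf D σ q p q' p' = cf D σ p q p' q' := (cf_sw hσ q p p' q').2.trans f1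
  have t1 := (T3_sw (D := D) hσ a b p q p' q').1
  have t2 := (T3_sw (D := D) hσ a b p q p' q').2
  have t3 : T3 D σ a b q p q' p' = T3 D σ a b p q p' q' := (T3_sw hσ a b q p p' q').2.trans t1
  simp only [EE, f1, f2, f3, t1, t2, t3, Ex4]
  by_cases h1 : Ex σ a b p q p' q' <;> by_cases h2 : Ex σ a b q p p' q' <;>
    by_cases h3 : Ex σ a b p q q' p' <;> by_cases h4 : Ex σ a b q p q' p' <;>
    by_cases h0 : σ a b ≤ σ p q ∧ σ a b ≤ σ p' q' <;>
    first
      | (exfalso; unfold Ex at *; omega)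
      | simp [h0, h1, h2, h3, h4, k0]

theorem aw_add {k : ℕ} (φ ψ : SM (1 + k + 1) → ℝ) :
    aw D k (fun σ => φ σ + ψ σ) = aw D k φ + aw D k ψ := (fam_avt _).add k φ ψ

end Fr54

open Fr54

/-- **the frame** -/
theorem frameS : FrameS := fun τ0 D H _ B hB => by
  have e : D.tU [C40.aU, C40.aU] = LamG D.B (mo D) 2
      (g3 fun _ σ a b p q p' q' => Ph D σ a b p q p' q') := by
    rw [tU_eq H, ← sub_zero (LamG _ _ _ _), ← kp_zero H, ← LamG_sub]
    refine LamG_congr _ _ _ fun r σ E _ _ hE => ?_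
    obtain ⟨e, e', m, rfl⟩ := len3 hE
    simp only [g3, Ph, mul_sub]
  rw [e]
  refine abs_LamG_le _ 2 _ fun k hk N hN hO => ?_
  obtain ⟨e, e', rfl⟩ := List.length_eq_two.1 hN
  exact hB k hk _ _ _ _ (hO e (by simp)) (hO e' (by simp))

/-- **the glue** -/
theorem glueS : GlueS := fun hF hH hL hE => by
  have key : ∀ (k : ℕ) (p q p' q' : Fin (1 + k + 1)), p ≠ q → p' ≠ q' →
      Bd true fun D => aw D k fun σ => Ph D σ (ma k) (mb k) p q p' q' := fun k p q p' q' h h' =>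
    (((hH k p q p' q' h h').add (hL k p q p' q' h h')).add ((((hE k p q p' q' h h').add
      (hE k q p p' q' h.symm h')).add (hE k p q q' p' h h'.symm)).add
        (hE k q p q' p' h.symm h'.symm))).congr fun τ0 D _ _ => by
      simp only [← aw_add]
      rw [aw_aj, aw_aj]
      exact aj_congr fun j σ hσ _ => Ph_eq hσ _ _ _ _ _ _
  set T : CD → (k : ℕ) → (Fin (1 + k + 1) × Fin (1 + k + 1)) × Fin (1 + k + 1) × Fin (1 + k + 1) → ℝ :=
    fun D k z => if z.1.1 ≠ z.1.2 ∧ z.2.1 ≠ z.2.2 then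
      |aw D k fun σ => Ph D σ (ma k) (mb k) z.1.1 z.1.2 z.2.1 z.2.2| else 0 with hT
  have T0 : ∀ D k z, 0 ≤ T D k z := fun D k z => by simp only [hT]; positivity
  have h1 : Bd true fun D => ∑ k ∈ Finset.range 5, ∑ z, T D k z :=
    Bd.sum _ fun k _ => Bd.sum _ fun z _ => by
      simp only [hT]
      split_ifs with h
      · exact (key k _ _ _ _ h.1 h.2).of_le fun _ _ _ _ => (abs_abs _).le
      · exact Bd.zero true
  refine (h1.smul (cG 2)).of_le fun τ0 D H hW => (hF τ0 D H hW _ fun k hk p q p' q' h h' => ?_).trans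
    (le_abs_self _)
  refine le_trans ?_ (Finset.single_le_sum (f := fun k => ∑ z, T D k z)
    (fun k _ => Finset.sum_nonneg fun z _ => T0 D k z) (Finset.mem_range.2 (Nat.lt_succ_of_le hk)))
  refine le_trans ?_ (Finset.single_le_sum (f := T D k) (fun z _ => T0 D k z)
    (Finset.mem_univ ((p, q), p', q')))
  simp only [hT]
  rw [if_pos ⟨h, h'⟩]

end Crest.Agent.T156.Cas.Su67

end
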