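import Mathlib

/-!
Frame-free lemmas of the error table (docs/T156_75C.md): dyadic rectangles (triangular
truncation), Abel summation in "J-form", and the sup-primitive bound.
-/

namespace Crest.Agent.T156.Rect52
open Finset

/-- `C` is a symmetric kernel with `0 ≤ C ≤ diag D` as quadratic forms on `S`. -/
structure Dom (C : ℕ → ℕ → ℝ) (D : ℕ → ℝ) (S : Finset ℕ) : Prop where
  symm : ∀ i ∈ S, ∀ j ∈ S, C i j = C j i
  psd : ∀ u : ℕ → ℝ, 0 ≤ ∑ i ∈ S, ∑ j ∈ S, u i * u j * C i j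
  le : ∀ u : ℕ → ℝ, ∑ i ∈ S, ∑ j ∈ S, u i * u j * C i j ≤ ∑ i ∈ S, D i * u i ^ 2

theorem sum_ind {S A : Finset ℕ} (hA : A ⊆ S) (f : ℕ → ℝ) :
    ∑ i ∈ S, (if i ∈ A then f i else 0) = ∑ i ∈ A, f i := by
  rw [← Finset.sum_filter]
  congr 1
  ext i
  simp only [mem_filter]
  exact ⟨fun h => h.2, fun h => ⟨hA h, h⟩⟩

theorem Dom.nonneg {C D S} (h : Dom C D S) {i : ℕ} (hi : i ∈ S) : 0 ≤ D i := by
  have h1 := (h.psd fun j => if j ∈ ({i} : Finset ℕ) then 1 else 0).trans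
    (h.le fun j => if j ∈ ({i} : Finset ℕ) then 1 else 0)
  have h2 : ∑ j ∈ S, D j * (if j ∈ ({i} : Finset ℕ) then (1:ℝ) else 0) ^ 2
      = ∑ j ∈ S, (if j ∈ ({i} : Finset ℕ) then D j else 0) := by
    refine Finset.sum_congr rfl fun j _ => ?_
    split_ifs <;> simp
  rw [h2, sum_ind (by simpa using hi)] at h1
  simpa using h1

/-- Cauchy-Schwarz on the whole index set, in the form with a free parameter `t`. -/
theorem Dom.cs {C D S} (h : Dom C D S) (u v : ℕ → ℝ) {t : ℝ} (ht : 0 < t) :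
    |∑ i ∈ S, ∑ j ∈ S, u i * v j * C i j|
      ≤ (t * ∑ i ∈ S, D i * u i ^ 2 + (∑ j ∈ S, D j * v j ^ 2) / t) / 2 := by
  set B := ∑ i ∈ S, ∑ j ∈ S, u i * v j * C i j with hB
  have hB' : ∑ i ∈ S, ∑ j ∈ S, v i * u j * C i j = B := by
    rw [hB, Finset.sum_comm]
    refine Finset.sum_congr rfl fun i hi => Finset.sum_congr rfl fun j hj => ?_
    rw [h.symm j hj i hi]; ring
  have key : ∀ e : ℝ, ∑ i ∈ S, ∑ j ∈ S, (t * u i + e * v i) * (t * u j + e * v j) * C i j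
      = t ^ 2 * (∑ i ∈ S, ∑ j ∈ S, u i * u j * C i j) + t * e * B
        + t * e * (∑ i ∈ S, ∑ j ∈ S, v i * u j * C i j)
        + e ^ 2 * ∑ i ∈ S, ∑ j ∈ S, v i * v j * C i j := by
    intro e
    rw [hB]
    simp only [Finset.mul_sum, ← Finset.sum_add_distrib]
    refine Finset.sum_congr rfl fun i _ => Finset.sum_congr rfl fun j _ => ?_
    ring
  have h1 := h.psd fun i => t * u i + 1 * v i
  have h2 := h.psd fun i => t * u i + (-1) * v i
  rw [key, hB'] at h1 h2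
  have hu := h.le u
  have hv := h.le v
  have hu' := mul_le_mul_of_nonneg_left hu (sq_nonneg t)
  have e1 : (t * ∑ i ∈ S, D i * u i ^ 2 + (∑ j ∈ S, D j * v j ^ 2) / t) / 2
      = (t ^ 2 * ∑ i ∈ S, D i * u i ^ 2 + ∑ j ∈ S, D j * v j ^ 2) / (2 * t) := by
    field_simp
  rw [e1, abs_le]
  constructor
  · rw [← neg_div, div_le_iff₀ (by positivity)]; nlinarith
  · rw [le_div_iff₀ (by positivity)]; nlinarith

/-- One rectangle `A × B`. -/
theorem Dom.rect {C D S} (h : Dom C D S) {A B : Finset ℕ} (hA : A ⊆ S) (hB : B ⊆ S)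
    (u v : ℕ → ℝ) {t : ℝ} (ht : 0 < t) :
    |∑ i ∈ A, ∑ j ∈ B, u i * v j * C i j|
      ≤ (t * ∑ i ∈ A, D i * u i ^ 2 + (∑ j ∈ B, D j * v j ^ 2) / t) / 2 := by
  have h1 := h.cs (fun i => if i ∈ A then u i else 0) (fun j => if j ∈ B then v j else 0) ht
  have e1 : ∑ i ∈ S, ∑ j ∈ S, (if i ∈ A then u i else 0) * (if j ∈ B then v j else 0) * C i j
      = ∑ i ∈ A, ∑ j ∈ B, u i * v j * C i j := by
    rw [← sum_ind hA]
    refine Finset.sum_congr rfl fun i _ => ?_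
    split_ifs
    · rw [← sum_ind hB]
      refine Finset.sum_congr rfl fun j _ => ?_
      split_ifs <;> simp
    · simp
  have e2 : ∀ (A : Finset ℕ) (u : ℕ → ℝ), A ⊆ S →
      ∑ i ∈ S, D i * (if i ∈ A then u i else 0) ^ 2 = ∑ i ∈ A, D i * u i ^ 2 := by
    intro A u hA
    rw [← sum_ind hA]
    refine Finset.sum_congr rfl fun i _ => ?_
    split_ifs <;> simp
  rwa [e1, e2 A u hA, e2 B v hB] at h1

/-- From the `t`-form to the square-root form. -/
theorem le_sqrt_of_forall {x U V : ℝ} (hU : 0 ≤ U) (hV : 0 ≤ V)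
    (h : ∀ t : ℝ, 0 < t → x ≤ (t * U + V / t) / 2) : x ≤ √U * √V := by
  refine le_of_forall_pos_le_add fun e he => ?_
  -- t = (sqrt V + d)/(sqrt U + d)
  set a := √U with ha
  set b := √V with hb
  have ha0 : 0 ≤ a := Real.sqrt_nonneg _
  have hb0 : 0 ≤ b := Real.sqrt_nonneg _
  have hU' : U = a ^ 2 := (Real.sq_sqrt hU).symm
  have hV' : V = b ^ 2 := (Real.sq_sqrt hV).symm
  set d := e / (a + b + 1) with hd
  have hd0 : 0 < d := by positivity
  have hde : d * (a + b) ≤ e := by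
    rw [hd, div_mul_eq_mul_div, div_le_iff₀ (by positivity)]; nlinarith
  have h1 := h ((b + d) / (a + d)) (by positivity)
  have h2 : (b + d) / (a + d) * U ≤ (b + d) * a := by
    rw [div_mul_eq_mul_div, div_le_iff₀ (by positivity), hU']
    have : 0 ≤ (b + d) * a * d := by positivity
    nlinarith
  have h3 : V / ((b + d) / (a + d)) ≤ (a + d) * b := by
    rw [div_div_eq_mul_div, div_le_iff₀ (by positivity), hV']
    have : 0 ≤ (a + d) * b * d := by positivity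
    nlinarith
  nlinarith

theorem Dom.rect_sqrt {C D S} (h : Dom C D S) {A B : Finset ℕ} (hA : A ⊆ S) (hB : B ⊆ S)
    (u v : ℕ → ℝ) :
    |∑ i ∈ A, ∑ j ∈ B, u i * v j * C i j|
      ≤ √(∑ i ∈ A, D i * u i ^ 2) * √(∑ j ∈ B, D j * v j ^ 2) :=
  le_sqrt_of_forall
    (Finset.sum_nonneg fun _ hi => mul_nonneg (h.nonneg (hA hi)) (sq_nonneg _))
    (Finset.sum_nonneg fun _ hi => mul_nonneg (h.nonneg (hB hi)) (sq_nonneg _))
    fun _ ht => h.rect hA hB u v ht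

/-- Splitting the triangle `{a ≤ i < j < b}` at `m`. -/
theorem tri_split (f : ℕ → ℕ → ℝ) {a m b : ℕ} (h1 : a ≤ m) (h2 : m ≤ b) :
    ∑ j ∈ Ico a b, ∑ i ∈ Ico a j, f i j
      = ∑ j ∈ Ico a m, ∑ i ∈ Ico a j, f i j + ∑ j ∈ Ico m b, ∑ i ∈ Ico m j, f i j
        + ∑ i ∈ Ico a m, ∑ j ∈ Ico m b, f i j := by
  rw [← Finset.sum_Ico_consecutive _ h1 h2, add_assoc]
  congr 1
  rw [Finset.sum_comm (s := Ico a m), ← Finset.sum_add_distrib]
  refine Finset.sum_congr rfl fun j hj => ?_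
  rw [← Finset.sum_Ico_consecutive _ h1 (mem_Ico.1 hj).1, add_comm]

/-- **Triangular truncation** (dyadic rectangles): the triangle costs one factor `k`,
`b - a ≤ 2^k`. -/
theorem Dom.tri_trunc {C D S} (h : Dom C D S) (u v : ℕ → ℝ) {t : ℝ} (ht : 0 < t) (k : ℕ) :
    ∀ a b : ℕ, b - a ≤ 2 ^ k → Ico a b ⊆ S →
    |∑ j ∈ Ico a b, ∑ i ∈ Ico a j, u i * v j * C i j|
      ≤ k * ((t * ∑ i ∈ Ico a b, D i * u i ^ 2 + (∑ j ∈ Ico a b, D j * v j ^ 2) / t) / 2) := by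
  induction k with
  | zero =>
    intro a b hab _
    have : ∑ j ∈ Ico a b, ∑ i ∈ Ico a j, u i * v j * C i j = 0 := by
      refine Finset.sum_eq_zero fun j hj => ?_
      have := mem_Ico.1 hj
      rw [Finset.Ico_eq_empty (by simp at hab ⊢; omega)]; simp
    rw [this]; simp
  | succ k ih =>
    intro a b hab hS
    have nn : ∀ (A : Finset ℕ) (w : ℕ → ℝ), A ⊆ S → 0 ≤ ∑ i ∈ A, D i * w i ^ 2 :=
      fun A w hA => Finset.sum_nonneg fun i hi => mul_nonneg (h.nonneg (hA hi)) (sq_nonneg _)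
    by_cases hb : b - a ≤ 2 ^ k
    · refine (ih a b hb hS).trans (mul_le_mul_of_nonneg_right (by push_cast; linarith) ?_)
      have := nn _ u hS
      have := nn _ v hS
      positivity
    · have hm1 : a ≤ a + 2 ^ k := Nat.le_add_right _ _
      have hm2 : a + 2 ^ k ≤ b := by omega
      have s1 : Ico a (a + 2 ^ k) ⊆ S := (Finset.Ico_subset_Ico le_rfl hm2).trans hS
      have s2 : Ico (a + 2 ^ k) b ⊆ S := (Finset.Ico_subset_Ico hm1 le_rfl).trans hS
      have i1 := ih a (a + 2 ^ k) (by omega) s1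
      have i2 := ih (a + 2 ^ k) b (by rw [pow_succ] at hab; omega) s2
      have i3 := h.rect s1 s2 u v ht
      rw [tri_split _ hm1 hm2, ← Finset.sum_Ico_consecutive (fun i => D i * u i ^ 2) hm1 hm2,
        ← Finset.sum_Ico_consecutive (fun i => D i * v i ^ 2) hm1 hm2]
      have p1 := nn _ u s2
      have p2 := nn _ v s1
      have q1 : 0 ≤ t * ∑ i ∈ Ico (a + 2 ^ k) b, D i * u i ^ 2 := by positivity
      have q2 : 0 ≤ (∑ i ∈ Ico a (a + 2 ^ k), D i * v i ^ 2) / t := by positivity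
      refine (abs_add_le _ _).trans ?_
      refine (add_le_add (abs_add_le _ _) le_rfl).trans ?_
      push_cast
      generalize ∑ i ∈ Ico a (a + 2 ^ k), D i * u i ^ 2 = U1 at *
      generalize ∑ i ∈ Ico (a + 2 ^ k) b, D i * u i ^ 2 = U2 at *
      generalize ∑ i ∈ Ico a (a + 2 ^ k), D i * v i ^ 2 = V1 at *
      generalize ∑ i ∈ Ico (a + 2 ^ k) b, D i * v i ^ 2 = V2 at *
      have e : ((k:ℝ) + 1) * ((t * (U1 + U2) + (V1 + V2) / t) / 2)
          = k * ((t * U1 + V1 / t) / 2) + k * ((t * U2 + V2 / t) / 2) + (t * U1 + V2 / t) / 2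
            + (t * U2 + V1 / t) / 2 := by ring
      rw [e]
      linarith

theorem Dom.tri_sqrt {C D S} (h : Dom C D S) (u v : ℕ → ℝ) (k a b : ℕ) (hab : b - a ≤ 2 ^ k)
    (hS : Ico a b ⊆ S) :
    |∑ j ∈ Ico a b, ∑ i ∈ Ico a j, u i * v j * C i j|
      ≤ k * (√(∑ i ∈ Ico a b, D i * u i ^ 2) * √(∑ j ∈ Ico a b, D j * v j ^ 2)) := by
  rcases Nat.eq_zero_or_pos k with rfl | hk
  · simpa using h.tri_trunc u v one_pos 0 a b hab hS
  have hk' : (0:ℝ) < k := by exact_mod_cast hk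
  rw [← div_le_iff₀' hk']
  refine le_sqrt_of_forall
    (Finset.sum_nonneg fun i hi => mul_nonneg (h.nonneg (hS hi)) (sq_nonneg _))
    (Finset.sum_nonneg fun i hi => mul_nonneg (h.nonneg (hS hi)) (sq_nonneg _)) fun t ht => ?_
  rw [div_le_iff₀' hk']
  exact h.tri_trunc u v ht k a b hab hS

/-- A positive linear functional on a class `P` of functions (the site expectation). -/
structure PosE {Ω : Type*} (P : (Ω → ℝ) → Prop) (E : (Ω → ℝ) → ℝ) : Prop where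
  zero : P fun _ => 0
  add : ∀ f g, P f → P g → P fun x => f x + g x
  smul : ∀ (c : ℝ) f, P f → P fun x => c * f x
  E_add : ∀ f g, P f → P g → E (fun x => f x + g x) = E f + E g
  E_smul : ∀ (c : ℝ) f, P f → E (fun x => c * f x) = c * E f
  mono : ∀ f g, P f → P g → (∀ x, f x ≤ g x) → E f ≤ E g

theorem PosE.sum {Ω : Type*} {P : (Ω → ℝ) → Prop} {E} (hE : PosE P E) {ι : Type*}
    (s : Finset ι) (f : ι → Ω → ℝ) (hf : ∀ i ∈ s, P (f i)) :
    P (fun x => ∑ i ∈ s, f i x) ∧ E (fun x => ∑ i ∈ s, f i x) = ∑ i ∈ s, E (f i) := by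
  classical
  induction s using Finset.induction_on with
  | empty =>
    refine ⟨by simpa using hE.zero, ?_⟩
    have := hE.E_smul 0 _ hE.zero
    simpa using this
  | insert i s hi ih =>
    obtain ⟨h1, h2⟩ := ih fun j hj => hf j (mem_insert_of_mem hj)
    have h0 := hf i (mem_insert_self _ _)
    simp only [Finset.sum_insert hi]
    exact ⟨hE.add _ _ h0 h1, by rw [hE.E_add _ _ h0 h1, h2]⟩

/-- Transfer of a pointwise bilinear bound through the site expectation. -/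
theorem PosE.bil {Ω : Type*} {P : (Ω → ℝ) → Prop} {E} (hE : PosE P E) {ι : Type*}
    (T : Finset ι) (c : ι → ℝ) (f : ι → Ω → ℝ) (hf : ∀ p ∈ T, P (f p))
    (A B : Finset ℕ) (a b : ℕ → ℝ) (φ ψ : ℕ → Ω → ℝ)
    (hφ : ∀ i ∈ A, P fun x => φ i x ^ 2) (hψ : ∀ j ∈ B, P fun x => ψ j x ^ 2)
    (h : ∀ x, |∑ p ∈ T, c p * f p x| ≤ ∑ i ∈ A, a i * φ i x ^ 2 + ∑ j ∈ B, b j * ψ j x ^ 2) :
    |∑ p ∈ T, c p * E (f p)|
      ≤ ∑ i ∈ A, a i * E (fun x => φ i x ^ 2) + ∑ j ∈ B, b j * E (fun x => ψ j x ^ 2) := by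
  obtain ⟨p1, e1⟩ := hE.sum T (fun p x => c p * f p x) fun p hp => hE.smul _ _ (hf p hp)
  obtain ⟨p2, e2⟩ := hE.sum A (fun i x => a i * φ i x ^ 2) fun i hi => hE.smul _ _ (hφ i hi)
  obtain ⟨p3, e3⟩ := hE.sum B (fun j x => b j * ψ j x ^ 2) fun j hj => hE.smul _ _ (hψ j hj)
  rw [Finset.sum_congr rfl fun p hp => hE.E_smul (c p) _ (hf p hp)] at e1
  rw [Finset.sum_congr rfl fun i hi => hE.E_smul (a i) _ (hφ i hi)] at e2
  rw [Finset.sum_congr rfl fun j hj => hE.E_smul (b j) _ (hψ j hj)] at e3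
  have p4 := hE.add _ _ p2 p3
  have e4 := hE.E_add _ _ p2 p3
  rw [← e1, ← e2, ← e3, ← e4, abs_le]
  constructor
  · have := hE.mono _ _ (hE.smul (-1) _ p4) p1 fun x => by
      have := (abs_le.1 (h x)).1; linarith
    rw [hE.E_smul _ _ p4] at this; linarith
  · exact hE.mono _ _ p1 p4 fun x => (abs_le.1 (h x)).2

/-- **sec. 4(b), Cov part**: coefficients `c(i,j) = E[φ_i ψ_j]` on the triangle. -/
theorem tri_E {C D S} (h : Dom C D S) {Ω : Type*} {P : (Ω → ℝ) → Prop} {E} (hE : PosE P E)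
    (φ ψ : ℕ → Ω → ℝ) (k a b : ℕ) (hab : b - a ≤ 2 ^ k) (hS : Ico a b ⊆ S)
    (hφ : ∀ i ∈ Ico a b, P fun x => φ i x ^ 2) (hψ : ∀ j ∈ Ico a b, P fun x => ψ j x ^ 2)
    (hφψ : ∀ j ∈ Ico a b, ∀ i ∈ Ico a j, P fun x => φ i x * ψ j x) {t : ℝ} (ht : 0 < t) :
    |∑ j ∈ Ico a b, ∑ i ∈ Ico a j, E (fun x => φ i x * ψ j x) * C i j|
      ≤ k * ((t * ∑ i ∈ Ico a b, D i * E (fun x => φ i x ^ 2)
          + (∑ j ∈ Ico a b, D j * E (fun x => ψ j x ^ 2)) / t) / 2) := by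
  have := hE.bil ((Ico a b).sigma fun j => Ico a j) (fun p => C p.2 p.1)
    (fun p x => φ p.2 x * ψ p.1 x)
    (fun p hp => hφψ _ (mem_sigma.1 hp).1 _ (mem_sigma.1 hp).2)
    (Ico a b) (Ico a b) (fun i => k * (t * D i / 2)) (fun j => k * (D j / t / 2)) φ ψ hφ hψ
    fun x => by
      have h1 := h.tri_trunc (fun i => φ i x) (fun j => ψ j x) ht k a b hab hS
      rw [Finset.sum_sigma]
      convert h1 using 2
      · exact Finset.sum_congr rfl fun j _ => Finset.sum_congr rfl fun i _ => by ring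
      · simp only [Finset.mul_sum, Finset.sum_div, add_div, mul_add]
        congr 1 <;> exact Finset.sum_congr rfl fun i _ => by ring
  rw [Finset.sum_sigma] at this
  convert this using 2
  · exact Finset.sum_congr rfl fun j _ => Finset.sum_congr rfl fun i _ => by ring
  · simp only [Finset.mul_sum, Finset.sum_div, add_div, mul_add]
    congr 1 <;> exact Finset.sum_congr rfl fun i _ => by ring

/-- Two blocks, coefficients `E[φ_i ψ_j]`, no logarithm. -/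
theorem rect_E {C D S} (h : Dom C D S) {Ω : Type*} {P : (Ω → ℝ) → Prop} {E} (hE : PosE P E)
    (φ ψ : ℕ → Ω → ℝ) {A B : Finset ℕ} (hA : A ⊆ S) (hB : B ⊆ S)
    (hφ : ∀ i ∈ A, P fun x => φ i x ^ 2) (hψ : ∀ j ∈ B, P fun x => ψ j x ^ 2)
    (hφψ : ∀ i ∈ A, ∀ j ∈ B, P fun x => φ i x * ψ j x) {t : ℝ} (ht : 0 < t) :
    |∑ i ∈ A, ∑ j ∈ B, E (fun x => φ i x * ψ j x) * C i j|
      ≤ (t * ∑ i ∈ A, D i * E (fun x => φ i x ^ 2)
          + (∑ j ∈ B, D j * E (fun x => ψ j x ^ 2)) / t) / 2 := by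
  have := hE.bil (A.sigma fun _ => B) (fun p => C p.1 p.2)
    (fun p x => φ p.1 x * ψ p.2 x)
    (fun p hp => hφψ _ (mem_sigma.1 hp).1 _ (mem_sigma.1 hp).2)
    A B (fun i => t * D i / 2) (fun j => D j / t / 2) φ ψ hφ hψ
    fun x => by
      have h1 := h.rect hA hB (fun i => φ i x) (fun j => ψ j x) ht
      rw [Finset.sum_sigma]
      convert h1 using 2
      · exact Finset.sum_congr rfl fun j _ => Finset.sum_congr rfl fun i _ => by ring
      · simp only [Finset.mul_sum, Finset.sum_div, add_div]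
        congr 1 <;> exact Finset.sum_congr rfl fun i _ => by ring
  rw [Finset.sum_sigma] at this
  convert this using 2
  · exact Finset.sum_congr rfl fun j _ => Finset.sum_congr rfl fun i _ => by ring
  · simp only [Finset.mul_sum, Finset.sum_div, add_div]
    congr 1 <;> exact Finset.sum_congr rfl fun i _ => by ring

/-! ### Abel summation (J-form) -/

/-- Abel summation against the upper primitive `F x = ∑_{x ≤ j < b} g j`. -/
theorem abel_id (φ g : ℕ → ℝ) (b : ℕ) : ∀ d a : ℕ, a + d = b →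
    ∑ j ∈ Ico a b, φ j * g j
      = φ a * ∑ j ∈ Ico a b, g j
        + ∑ j ∈ Ico a (b - 1), (φ (j + 1) - φ j) * ∑ i ∈ Ico (j + 1) b, g i := by
  intro d
  induction d with
  | zero => intro a ha; subst ha; simp
  | succ d ih =>
    intro a ha
    have hab : a < b := by omega
    have h1 := ih (a + 1) (by omega)
    rw [Finset.sum_eq_sum_Ico_succ_bot hab, Finset.sum_eq_sum_Ico_succ_bot hab g, h1]
    by_cases hb : a < b - 1
    · rw [Finset.sum_eq_sum_Ico_succ_bot hb]; ring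
    · have e1 : Ico (a + 1) b = ∅ := Finset.Ico_eq_empty (by omega)
      have e2 : Ico a (b - 1) = ∅ := Finset.Ico_eq_empty (by omega)
      have e3 : Ico (a + 1) (b - 1) = ∅ := Finset.Ico_eq_empty (by omega)
      rw [e1, e2, e3]; simp

/-- **J-form**: `|∑ φ g| ≤ (|φ a| + TV φ) sup_x |∑_{x ≤ j < b} g j|`. -/
theorem abelJ (φ g : ℕ → ℝ) {a b : ℕ} {M : ℝ} (hM0 : 0 ≤ M)
    (hM : ∀ x ∈ Ico a b, |∑ j ∈ Ico x b, g j| ≤ M) :
    |∑ j ∈ Ico a b, φ j * g j| ≤ (|φ a| + ∑ j ∈ Ico a (b - 1), |φ (j + 1) - φ j|) * M := by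
  by_cases hab : a < b
  · rw [abel_id φ g b (b - a) a (by omega), add_mul, Finset.sum_mul]
    refine (abs_add_le _ _).trans (add_le_add ?_ ?_)
    · rw [abs_mul]
      exact mul_le_mul_of_nonneg_left (hM a (mem_Ico.2 ⟨le_rfl, hab⟩)) (abs_nonneg _)
    · refine (Finset.abs_sum_le_sum_abs _ _).trans (Finset.sum_le_sum fun j hj => ?_)
      have := mem_Ico.1 hj
      rw [abs_mul]
      exact mul_le_mul_of_nonneg_left (hM _ (mem_Ico.2 ⟨by omega, by omega⟩)) (abs_nonneg _)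
  · rw [Finset.Ico_eq_empty hab]
    simp only [Finset.sum_empty, abs_zero]
    positivity

/-- J-form on a sub-window `[a',b') ⊆ [a,b)`: the primitive bound doubles. -/
theorem abelJ_sub (φ g : ℕ → ℝ) {a b a' b' : ℕ} {M : ℝ} (hM0 : 0 ≤ M) (ha : a ≤ a')
    (hb : b' ≤ b) (hM : ∀ x ∈ Ico a b, |∑ j ∈ Ico x b, g j| ≤ M) :
    |∑ j ∈ Ico a' b', φ j * g j|
      ≤ (|φ a'| + ∑ j ∈ Ico a' (b' - 1), |φ (j + 1) - φ j|) * (2 * M) := by
  refine abelJ φ g (by positivity) fun x hx => ?_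
  have hx' := mem_Ico.1 hx
  have e := Finset.sum_Ico_consecutive g hx'.2.le hb
  have h1 := hM x (mem_Ico.2 ⟨by omega, by omega⟩)
  have h2 : |∑ j ∈ Ico b' b, g j| ≤ M := by
    by_cases hbb : b' < b
    · exact hM b' (mem_Ico.2 ⟨by omega, hbb⟩)
    · rw [Finset.Ico_eq_empty hbb]; simpa using hM0
  rw [show ∑ j ∈ Ico x b', g j = ∑ j ∈ Ico x b, g j - ∑ j ∈ Ico b' b, g j by linarith]
  exact (abs_sub _ _).trans (by linarith)

/-! ### Sup of a primitive from its weighted `L²` norm -/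

theorem tele_sq (G g : ℕ → ℝ) {x y : ℕ} (hxy : x ≤ y)
    (hG : ∀ j ∈ Ico x y, G j - G (j + 1) = g j) :
    G x ^ 2 - G y ^ 2 = ∑ j ∈ Ico x y, (2 * G j * g j - g j ^ 2) := by
  induction y, hxy using Nat.le_induction with
  | base => simp
  | succ y hxy ih =>
    rw [Finset.sum_Ico_succ_top hxy,
      ← ih fun j hj => hG j (mem_Ico.2 ⟨(mem_Ico.1 hj).1, by have := (mem_Ico.1 hj).2; omega⟩),
      ← hG y (mem_Ico.2 ⟨hxy, by omega⟩)]
    ring

theorem wcs (dm F r : ℕ → ℝ) {A S : Finset ℕ} (hA : A ⊆ S) (hdm : ∀ j ∈ S, 0 ≤ dm j) :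
    |∑ j ∈ A, F j * (dm j * r j)|
      ≤ √(∑ j ∈ S, dm j * F j ^ 2) * √(∑ j ∈ S, dm j * r j ^ 2) := by
  refine le_sqrt_of_forall
    (Finset.sum_nonneg fun i hi => mul_nonneg (hdm i hi) (sq_nonneg _))
    (Finset.sum_nonneg fun i hi => mul_nonneg (hdm i hi) (sq_nonneg _)) fun t ht => ?_
  refine (Finset.abs_sum_le_sum_abs _ _).trans ?_
  refine (Finset.sum_le_sum_of_subset_of_nonneg hA fun _ _ _ => abs_nonneg _).trans ?_
  rw [Finset.mul_sum, Finset.sum_div, ← Finset.sum_add_distrib, Finset.sum_div]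
  refine Finset.sum_le_sum fun j hj => ?_
  have h0 := hdm j hj
  have e : (t * (dm j * F j ^ 2) + dm j * r j ^ 2 / t) / 2
      = dm j * ((t ^ 2 * |F j| ^ 2 + |r j| ^ 2) / (2 * t)) := by
    rw [sq_abs, sq_abs]; field_simp
  rw [e, abs_mul, abs_mul, abs_of_nonneg h0,
    show |F j| * (dm j * |r j|) = dm j * (|F j| * |r j|) by ring]
  refine mul_le_mul_of_nonneg_left ?_ h0
  rw [le_div_iff₀ (by positivity)]
  nlinarith [sq_nonneg (t * |F j| - |r j|)]

/-- **(Jm)**, primitive vanishing at the top: `F x = ∑_{x ≤ j < b} dm j * r j`. -/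
theorem supPrim (dm r : ℕ → ℝ) {a b x : ℕ} (hdm : ∀ j ∈ Ico a b, 0 ≤ dm j) (hx : a ≤ x) :
    (∑ j ∈ Ico x b, dm j * r j) ^ 2
      ≤ 2 * (√(∑ j ∈ Ico a b, dm j * (∑ i ∈ Ico j b, dm i * r i) ^ 2)
          * √(∑ j ∈ Ico a b, dm j * r j ^ 2)) := by
  by_cases hxb : x ≤ b
  · have h1 := tele_sq (fun j => ∑ i ∈ Ico j b, dm i * r i) (fun j => dm j * r j) hxb
      fun j hj => by
        rw [Finset.sum_eq_sum_Ico_succ_bot (mem_Ico.1 hj).2]; ring
    have h2 := wcs dm (fun j => ∑ i ∈ Ico j b, dm i * r i) r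
      (Finset.Ico_subset_Ico hx le_rfl : Ico x b ⊆ Ico a b) hdm
    have h3 : ∑ j ∈ Ico x b, (2 * (∑ i ∈ Ico j b, dm i * r i) * (dm j * r j) - (dm j * r j) ^ 2)
        ≤ 2 * ∑ j ∈ Ico x b, (∑ i ∈ Ico j b, dm i * r i) * (dm j * r j) := by
      rw [Finset.mul_sum]
      exact Finset.sum_le_sum fun j _ => by nlinarith [sq_nonneg (dm j * r j)]
    have h4 := (abs_le.1 h2).2
    simp only [Finset.Ico_self, Finset.sum_empty] at h1
    nlinarith
  · rw [Finset.Ico_eq_empty (show ¬ x < b by omega)]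
    simp only [Finset.sum_empty]
    have : (0:ℝ) ^ 2 = 0 := by norm_num
    rw [this]
    positivity

/-- **(Jm)**, any primitive `G` (`G j - G (j+1) = dm j * r j` on the window). -/
theorem supPrim' (dm r G : ℕ → ℝ) {a b x : ℕ} (hdm : ∀ j ∈ Ico a b, 0 ≤ dm j)
    (hpos : 0 < ∑ j ∈ Ico a b, dm j) (hG : ∀ j ∈ Ico a b, G j - G (j + 1) = dm j * r j)
    (hx : a ≤ x) (hxb : x ≤ b) :
    G x ^ 2 ≤ (∑ j ∈ Ico a b, dm j * G j ^ 2) / (∑ j ∈ Ico a b, dm j)
      + 2 * (√(∑ j ∈ Ico a b, dm j * G j ^ 2) * √(∑ j ∈ Ico a b, dm j * r j ^ 2))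
      + ∑ j ∈ Ico a b, (dm j * r j) ^ 2 := by
  have hne : (Ico a b).Nonempty := by
    by_contra hc
    rw [Finset.not_nonempty_iff_eq_empty] at hc
    rw [hc] at hpos; simp at hpos
  obtain ⟨y, hy, hmin⟩ := Finset.exists_min_image (Ico a b) (fun j => G j ^ 2) hne
  have hy' := mem_Ico.1 hy
  have h0 : G y ^ 2 ≤ (∑ j ∈ Ico a b, dm j * G j ^ 2) / (∑ j ∈ Ico a b, dm j) := by
    rw [le_div_iff₀ hpos, Finset.mul_sum]
    exact Finset.sum_le_sum fun j hj => by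
      have := mul_le_mul_of_nonneg_left (hmin j hj) (hdm j hj); linarith
  have hs : 0 ≤ ∑ j ∈ Ico a b, (dm j * r j) ^ 2 := Finset.sum_nonneg fun _ _ => sq_nonneg _
  have sp : ∀ A : Finset ℕ, ∑ j ∈ A, (2 * G j * (dm j * r j) - (dm j * r j) ^ 2)
      = 2 * ∑ j ∈ A, G j * (dm j * r j) - ∑ j ∈ A, (dm j * r j) ^ 2 := by
    intro A
    rw [Finset.mul_sum, ← Finset.sum_sub_distrib]
    exact Finset.sum_congr rfl fun j _ => by ring
  rcases le_total x y with hxy | hxy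
  · have sub : Ico x y ⊆ Ico a b := Finset.Ico_subset_Ico hx hy'.2.le
    have h1 := tele_sq G (fun j => dm j * r j) hxy fun j hj => hG j (sub hj)
    have h2 := (abs_le.1 (wcs dm G r sub hdm)).2
    have h3 : 0 ≤ ∑ j ∈ Ico x y, (dm j * r j) ^ 2 := Finset.sum_nonneg fun _ _ => sq_nonneg _
    rw [sp] at h1
    linarith
  · have sub : Ico y x ⊆ Ico a b := Finset.Ico_subset_Ico hy'.1 hxb
    have h1 := tele_sq G (fun j => dm j * r j) hxy fun j hj => hG j (sub hj)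
    have h2 := (abs_le.1 (wcs dm G r sub hdm)).1
    have h3 : ∑ j ∈ Ico y x, (dm j * r j) ^ 2 ≤ ∑ j ∈ Ico a b, (dm j * r j) ^ 2 :=
      Finset.sum_le_sum_of_subset_of_nonneg sub fun _ _ _ => sq_nonneg _
    rw [sp] at h1
    linarith

end Crest.Agent.T156.Rect52
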