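import Crest.Agent.T156.Scl_90

/-!
# Row 156 (helper90): the scaling symmetry for tree laws

`tF_marg`: every leaf has the path law.  `tX_scl`: the law of the leaves moves by at most
`(1/λ - 1) · #leaves · entropy` under the scaling.
-/

set_option autoImplicit false
set_option linter.unusedSectionVars false

noncomputable section

namespace Crest.Agent.T156.Cas

open MeasureTheory Real Set Filter Topology
open Crest.Agent.T157.E Crest.Agent.T157.Casc Crest.Agent.T157.SL
open Crest.Agent.T157.Casc.C (Same)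

variable {Ω : Type} [Fintype Ω] {w : Ω → ℝ} {lam : ℝ}

namespace Scl

theorem marg_step (hw : Wt w) {s : Sh} {a : s.Lf} {L : List (Lv Ω)}
    (ih : ∀ h (φ : Pa Unit Ω → Ω → ℝ), (∀ y, EgP fun p => φ p y) →
      tF w s L h (fun p x => φ (fun _ => p a) (x a)) = tF w .one L h fun p x => φ p (x ()))
    (l : Lv Ω) (h : Ω → ℝ) (φ : Pa Unit Ω → Ω → ℝ) (hφ : ∀ y, EgP fun p => φ p y) :
    tF w (.step s) (l :: L) h (fun p x => φ (fun _ => p a) (x a)) =
      tF w .one (l :: L) h fun p x => φ p (x ()) := by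
  refine (Tp.tF_step_cons hw s l L h fun x => Gf.egP_emb (hφ _) fun _ => a).trans
    (Eq.trans ?_ ((Tp.tF_one_cons w l L h _).trans
      (Tp.tF_step_cons hw .one l L h fun x => hφ _)).symm)
  congr 1
  funext z
  exact ih z (fun p => φ fun b => Gf.cons h (p b)) fun y => Gf.egP_cons (hφ y) h

end Scl

/-- **every leaf has the path law** -/
theorem tF_marg (hw : Wt w) : ∀ (s : Sh) (a : s.Lf) (L : List (Lv Ω)) (h : Ω → ℝ)
    (φ : Pa Unit Ω → Ω → ℝ), (∀ y, EgP fun p => φ p y) →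
    tF w s L h (fun p x => φ (fun _ => p a) (x a)) = tF w .one L h fun p x => φ p (x ())
  | .one, _, _, _, _, _ => rfl
  | .step s, a, [], h, φ, hφ => (Tp.tF_step_nil w s h _).trans (tF_marg hw s a [] h φ hφ)
  | .step s, a, l :: L, h, φ, hφ => Scl.marg_step hw (tF_marg hw s a L) l h φ hφ
  | .split s t, .inl a, L, h, φ, hφ => by
      refine (Tp.tF_split hw s t L h fun x => Gf.egP_emb (hφ _) fun _ => .inl a).trans
        (Eq.trans ?_ (tF_marg hw s a L h φ hφ))
      congr 1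
      funext p x
      exact Crv.tX_const hw t L h (φ (fun _ => p a) (x a))
  | .split s t, .inr a, L, h, φ, hφ => by
      refine (Tp.tF_split hw s t L h fun x => Gf.egP_emb (hφ _) fun _ => .inr a).trans
        (Eq.trans ?_ (Crv.tX_const hw s L h _))
      unfold tF
      congr 1
      funext p x
      exact tF_marg hw t a L h φ hφ

/-- one leaf and one state on its path -/
theorem tF_marg_node (hw : Wt w) (s : Sh) (a : s.Lf) (L : List (Lv Ω)) (h : Ω → ℝ) (j : ℕ)
    {Φ : Ω → (Ω → ℝ) → ℝ} (hΦ : ∀ y, Eg (Φ y)) :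
    tF w s L h (fun p x => Φ (x a) (p a j)) =
      node w L j (fun z => ∑ y, P w (L.drop j) z y * Φ y z) h :=
  (tF_marg hw s a L h (fun p y => Φ y (p () j)) fun y => .state (hΦ y) () j).trans
    ((Tr.tX_one w L h _).trans (Pe.pE_node hw Φ hΦ L j h))

namespace Scl

/-- the loss in value -/
def Dl (w : Ω → ℝ) (lam : ℝ) (L : List (Lv Ω)) (z : Ω → ℝ) : ℝ :=
  X w L z - lam * X w (L.map (scl lam)) (lam⁻¹ • z)

/-- the sum of `-log P` over the leaves -/
def lp (w : Ω → ℝ) {κ : Type} [Fintype κ] (K : ℕ) (p : Pa κ Ω) (x : κ → Ω) : ℝ :=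
  ∑ a, (X w [] (p a K) - p a K (x a))

theorem egP_lp (hw : Wt w) {κ : Type} [Fintype κ] (K : ℕ) (x : κ → Ω) :
    EgP fun p => lp w K p x :=
  .sum _ fun a _ => .state ((lg_X hw []).eg.sub (Eg.coord (x a))) a K

theorem egP_exp (hw : Wt w) {κ : Type} [Fintype κ] (c : ℝ) (K : ℕ) (x : κ → Ω) :
    EgP fun p => exp (c * lp w K p x) := fun _ _ _ hp =>
  (Tr.lg_sum _ fun a _ => Tr.lg_sub (Tr.lg_comp (lg_X hw []) (hp a K)) (hp a K (x a))).exp c

/-- the statement for one shape and one list -/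
def Sc (w : Ω → ℝ) (lam : ℝ) (s : Sh) (L : List (Lv Ω)) : Prop :=
  ∀ (h : Ω → ℝ) (F : (s.Lf → Ω) → ℝ), (∀ x, 0 ≤ F x) →
    exp (s.br * ex L 0 * Dl w lam L h) *
        tF w s L h (fun p x => F x * exp ((1 - lam⁻¹) * lp w L.length p x)) ≤
      tF w s (L.map (scl lam)) (lam⁻¹ • h) fun _ => F

theorem tF_nn (hw : Wt w) (s : Sh) (L : List (Lv Ω)) (h : Ω → ℝ) {F : (s.Lf → Ω) → ℝ}
    (hF : ∀ x, 0 ≤ F x) (c : ℝ) (K : ℕ) :
    0 ≤ tF w s L h fun p x => F x * exp (c * lp w K p x) :=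
  Sd.tX_nonneg hw s L h fun _ x => mul_nonneg (hF x) (exp_pos _).le

variable (hw : Wt w) (h01 : ∀ x, w x = 0 ∨ w x = 1) (h0 : 0 < lam) (h1 : lam ≤ 1)
include hw h01 h0 h1

theorem Dl_nonneg {L : List (Lv Ω)} (hL : ∀ l ∈ L, 0 ≤ l.m) (z : Ω → ℝ) : 0 ≤ Dl w lam L z :=
  sub_nonneg.2 (X_scl_le hw h01 h0 h1 hL z).2

theorem sc_nil : Sc w lam .one [] := fun h F hF => by
  refine le_trans (le_of_eq (congrArg _ (Tp.tF_one_nil hw h _)))
    (le_trans ?_ (Tp.tF_one_nil hw _ _).ge)
  rw [Finset.mul_sum]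
  refine Finset.sum_le_sum fun x _ => ?_
  have e : ∀ z : Ω → ℝ, P w [] z x = w x * exp (z x - X w [] z) := fun z => by
    rw [exp_sub, C.exp_X_nil hw, ← mul_div_assoc]; rfl
  have h2 := YT_le hw h01 h0 h1 h
  have h3 : 0 ≤ lam⁻¹ - 1 := sub_nonneg.2 (one_le_inv_iff₀.2 ⟨h0, h1⟩)
  have h4 : X w [] (lam⁻¹ • h) = lam⁻¹ * YT w lam h := by
    rw [YT, ← mul_assoc, inv_mul_cancel₀ h0.ne', one_mul]
  have h5 := mul_le_mul_of_nonneg_left h2 h3
  show exp (((1 : ℕ) : ℝ) * 1 * (X w [] h - YT w lam h)) * (P w [] h x * (F (fun _ => x) *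
    exp ((1 - lam⁻¹) * ∑ _a : Unit, (X w [] h - h x)))) ≤ P w [] (lam⁻¹ • h) x * F fun _ => x
  rw [e, e, h4, Fintype.sum_unique, Nat.cast_one, one_mul, one_mul]
  calc _ = w x * F (fun _ => x) * exp (X w [] h - YT w lam h + (h x - X w [] h) +
        (1 - lam⁻¹) * (X w [] h - h x)) := by rw [exp_add, exp_add]; ring
    _ ≤ w x * F (fun _ => x) * exp ((lam⁻¹ • h) x - lam⁻¹ * YT w lam h) := by
        refine mul_le_mul_of_nonneg_left (exp_le_exp.2 ?_) (mul_nonneg (hw.nn x) (hF _))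
        simp only [Pi.smul_apply, smul_eq_mul]
        linarith
    _ = _ := by ring

theorem sc_step {s : Sh} {l : Lv Ω} {L : List (Lv Ω)} (hm : 0 ≤ l.m) (hL : Mono l.m L)
    (H : Sc w lam s L) : Sc w lam (.step s) (l :: L) := fun h F hF => by
  have e1 := Tp.tF_step_cons hw s l L h
    (F := fun p x => F x * exp ((1 - lam⁻¹) * lp w (L.length + 1) p x))
    fun x => (EgP.const (F x)).mul (egP_exp hw _ _ x)
  have e2 := Tp.tF_step_cons hw s (scl lam l) (L.map (scl lam)) (lam⁻¹ • h) (F := fun _ => F)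
    fun x => .const (F x)
  refine le_trans (le_of_eq (congrArg _ e1)) (le_trans ?_ e2.ge)
  have g1 := Tp.eg_tF hw s L (F := fun p x => F x * exp ((1 - lam⁻¹) * lp w L.length p x))
    fun x => (EgP.const (F x)).mul (egP_exp hw _ _ x)
  have g2 := Tp.eg_tF hw s (L.map (scl lam)) (F := fun _ => F) fun x => .const (F x)
  have hx : l.m ≤ s.br * ex L 0 := by
    have a1 : l.m ≤ ex L 0 := sub_nonneg.1 (dm_nonneg hL 0)
    have a2 : (1 : ℝ) ≤ s.br := by exact_mod_cast s.one_le_br90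
    nlinarith
  have key : ∫ g, exp (l.m * X w L (h + l.fld g)) * tF w s L (h + l.fld g)
        (fun p x => F x * exp ((1 - lam⁻¹) * lp w L.length p x)) ∂gv l.ι ≤
      ∫ g, exp ((scl lam l).m * X w (L.map (scl lam)) (lam⁻¹ • h + (scl lam l).fld g)) *
        tF w s (L.map (scl lam)) (lam⁻¹ • h + (scl lam l).fld g) (fun _ => F) ∂gv l.ι := by
    refine integral_mono ((lg_X hw L).int g1 l h) ((lg_X hw _).int g2 (scl lam l) _) fun g => ?_
    show _ ≤ exp (lam * l.m * _) * _
    rw [add_fld]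
    refine le_trans ?_ (mul_le_mul_of_nonneg_left (H _ F hF) (exp_pos _).le)
    rw [← mul_assoc, ← exp_add]
    refine mul_le_mul_of_nonneg_right (exp_le_exp.2 ?_) (tF_nn hw s L _ hF _ _)
    have := mul_le_mul_of_nonneg_right hx (Dl_nonneg hw h01 h0 h1 (hL.nn hm) (h + l.fld g))
    simp only [Dl] at this ⊢
    linarith
  rw [tE, tE, ← Tr.exp_X_cons hw, ← Tr.exp_X_cons hw, ← mul_div_assoc, div_le_div_iff₀ (exp_pos _)
    (exp_pos _), mul_right_comm, ← exp_add, mul_comm]
  refine mul_le_mul key (exp_le_exp.2 (le_of_eq ?_)) (exp_pos _).le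
    (integral_nonneg fun g => mul_nonneg (exp_pos _).le (Sd.tX_nonneg hw _ _ _ fun _ x => hF x))
  show ((1 : ℕ) : ℝ) * l.m * (X w (l :: L) h - lam * X w (scl lam l :: L.map (scl lam)) _) +
    lam * l.m * _ = _
  rw [Nat.cast_one]
  ring

theorem sc_one : ∀ {L : List (Lv Ω)} {m0 : ℝ}, 0 ≤ m0 → Mono m0 L → Sc w lam .one L
  | [], _, _, _ => sc_nil hw h01 h0 h1
  | l :: L, _, hm, hL => fun h F hF =>
      le_trans (le_of_eq (congrArg _ (Tp.tF_one_cons w l L h _)))
        ((sc_step hw h01 h0 h1 (hm.trans hL.1) hL.2 (sc_one (hm.trans hL.1) hL.2) h F hF).trans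
          (Tp.tF_one_cons w _ _ _ _).ge)

theorem sc_all : ∀ (s : Sh) {L : List (Lv Ω)} {m0 : ℝ}, 0 ≤ m0 → Mono m0 L → Sc w lam s L
  | .one, _, _, hm, hL => sc_one hw h01 h0 h1 hm hL
  | .step s, [], _, hm, hL => fun h F hF => by
      refine le_trans (le_of_eq (congrArg _ (Tp.tF_step_nil w s h _)))
        (le_trans ?_ ((sc_all s hm hL h F hF).trans (Tp.tF_step_nil w s _ _).ge))
      refine mul_le_mul_of_nonneg_right (exp_le_exp.2 ?_) (tF_nn hw s _ _ hF _ _)
      refine mul_le_mul_of_nonneg_right (mul_le_mul_of_nonneg_right ?_ zero_le_one)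
        (Dl_nonneg hw h01 h0 h1 (by simp) h)
      exact_mod_cast s.one_le_br90
  | .step s, _ :: _, _, hm, hL =>
      sc_step hw h01 h0 h1 (hm.trans hL.1) hL.2 (sc_all s (hm.trans hL.1) hL.2)
  | .split s t, L, _, hm, hL => fun h F hF => by
      have e1 := Tp.tF_split hw s t L h
        (F := fun p x => F x * exp ((1 - lam⁻¹) * lp w L.length p x))
        fun x => (EgP.const (F x)).mul (egP_exp hw _ _ x)
      have e2 := Tp.tF_split hw s t (L.map (scl lam)) (lam⁻¹ • h) (F := fun _ => F)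
        fun x => .const (F x)
      refine le_trans (le_of_eq (congrArg _ e1)) (le_trans ?_ e2.ge)
      have a1 := fun x => sc_all t hm hL h (fun y => F (Sum.elim x y)) fun y => hF _
      have a2 := sc_all s hm hL h (fun x => exp (t.br * ex L 0 * Dl w lam L h) *
        tF w t L h fun q y => F (Sum.elim x y) * exp ((1 - lam⁻¹) * lp w L.length q y))
        fun x => mul_nonneg (exp_pos _).le (tF_nn hw t L h (fun y => hF _) _ _)
      refine le_trans (le_of_eq ?_) (a2.trans (Sd.tX_mono hw s _ _ (fun _ => Eg.const _)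
        (fun _ => Eg.const _) fun _ x => a1 x))
      rw [show ((Sh.split s t).br : ℝ) = s.br + t.br from Nat.cast_add _ _, add_mul, add_mul,
        exp_add, mul_assoc]
      congr 1
      refine (Sd.tX_const_mul w s L h _ _).symm.trans ?_
      unfold tF
      congr 1
      funext g x
      refine Eq.trans (congrArg _ ?_) (mul_assoc _ _ _).symm
      refine Eq.trans ?_ ((Sd.tX_const_mul w t L h _ _).trans (mul_comm _ _))
      refine congrArg (tX w t L h) (funext fun g' => funext fun y => ?_)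
      have : lp w L.length (Sum.elim (stT s L h g) (stT t L h g')) (Sum.elim x y) =
          lp w L.length (stT s L h g) x + lp w L.length (stT t L h g') y := Fintype.sum_sum_type _
      show F (Sum.elim x y) * exp ((1 - lam⁻¹) * lp w L.length
        (Sum.elim (stT s L h g) (stT t L h g')) (Sum.elim x y)) = exp (_ * _) * (_ * exp (_ * _))
      rw [this, mul_add, exp_add, mul_left_comm]

end Scl

/-- **the law of the leaves under the scaling** -/
theorem tX_scl [Nonempty Ω] (h0 : 0 < lam) (h1 : lam ≤ 1) (s : Sh) {L : List (Lv Ω)}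
    (hL : Mono 0 L) (h : Ω → ℝ) {F : (s.Lf → Ω) → ℝ} {B : ℝ} (hF : ∀ x, |F x| ≤ B) :
    |tX (fun _ => 1) s (L.map (scl lam)) (lam⁻¹ • h) (fun _ => F) -
        tX (fun _ => 1) s L h fun _ => F| ≤
      2 * B * ((lam⁻¹ - 1) * (Fintype.card s.Lf *
        node (fun _ => 1) L L.length (Gir68.Sn fun _ => 1) h)) := by
  have hw : Wt fun _ : Ω => (1 : ℝ) := wt_one90
  have hc : 0 ≤ lam⁻¹ - 1 := sub_nonneg.2 (one_le_inv_iff₀.2 ⟨h0, h1⟩)
  have e0 : tF (fun _ => 1) s L h (Scl.lp (fun _ => 1) L.length) = Fintype.card s.Lf *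
      node (fun _ => 1) L L.length (Gir68.Sn fun _ => 1) h := by
    refine (Sd.tX_sum hw s L h Finset.univ (F := fun a g x => X (fun _ => 1) []
      (stT s L h g a L.length) - stT s L h g a L.length (x a)) fun a _ x =>
        (EgP.state ((lg_X hw []).eg.sub (Eg.coord (x a))) a _).stT L h).trans ?_
    refine (Finset.sum_congr rfl fun a _ => tF_marg_node hw s a L h L.length
      (Φ := fun y z => X (fun _ => 1) [] z - z y) fun y =>
        (lg_X hw []).eg.sub (Eg.coord y)).trans ?_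
    simp only [List.drop_length, mul_sub, Finset.sum_sub_distrib, ← Finset.sum_mul, sum_P hw,
      one_mul, Finset.sum_const, Finset.card_univ, nsmul_eq_mul]
    rfl
  have key : ∀ G : (s.Lf → Ω) → ℝ, (∀ x, |G x| ≤ B) →
      tX (fun _ => 1) s L h (fun _ => G) - 2 * B * ((lam⁻¹ - 1) * (Fintype.card s.Lf *
        node (fun _ => 1) L L.length (Gir68.Sn fun _ => 1) h)) ≤
      tX (fun _ => 1) s (L.map (scl lam)) (lam⁻¹ • h) fun _ => G := fun G hG => by
    have hp : ∀ x, 0 ≤ B + G x := fun x => by linarith [(abs_le.1 (hG x)).1]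
    have a1 := Scl.sc_all hw (fun _ => .inr rfl) h0 h1 s le_rfl hL h (fun x => B + G x) hp
    have a2 : 0 ≤ s.br * ex L 0 * Scl.Dl (fun _ => 1) lam L h :=
      mul_nonneg (mul_nonneg (Nat.cast_nonneg _) (by simpa [dm, exP] using dm_nonneg hL 0))
        (Scl.Dl_nonneg hw (fun _ => .inr rfl) h0 h1 (hL.nn le_rfl) h)
    have a3 := (le_mul_of_one_le_left (Scl.tF_nn hw s L h hp _ _) (one_le_exp a2)).trans a1
    have g1 := fun x : s.Lf → Ω => (Scl.egP_lp hw L.length x).stT L h
    have a4 := Sd.tX_mono hw s L h (F := fun g x => (B + G x) - 2 * B * ((lam⁻¹ - 1) *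
        Scl.lp (fun _ => 1) L.length (stT s L h g) x))
      (fun x => (Eg.const _).sub (((g1 x).const_mul _).const_mul _))
      (fun x => ((EgP.const (B + G x)).mul (Scl.egP_exp hw (1 - lam⁻¹) L.length x)).stT L h)
      fun g x => by
        have b1 : 0 ≤ (lam⁻¹ - 1) * Scl.lp (fun _ => 1) L.length (stT s L h g) x :=
          mul_nonneg hc (Finset.sum_nonneg fun a _ => sub_nonneg.2 (Scl.le_X_nil hw _ rfl))
        have b2 := mul_le_mul_of_nonneg_left (add_one_le_exp ((1 - lam⁻¹) *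
          Scl.lp (fun _ => 1) L.length (stT s L h g) x)) (hp x)
        have b3 := mul_le_mul_of_nonneg_right
          (show B + G x ≤ 2 * B by linarith [(abs_le.1 (hG x)).2]) b1
        linarith
    have c1 : ∀ (M : List (Lv Ω)) z, tX (fun _ => 1) s M z (fun _ x => B + G x) =
        B + tX (fun _ => 1) s M z fun _ => G := fun M z => by
      rw [Sd.tX_add hw s M z (F := fun _ _ => B) (G := fun _ => G) (fun _ => Eg.const _)
        fun _ => Eg.const _, Crv.tX_const hw]
    rw [Sd.tX_sub hw s L h (F := fun _ x => B + G x) (fun x => Eg.const _)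
      fun x => ((g1 x).const_mul (lam⁻¹ - 1)).const_mul (2 * B),
      Sd.tX_const_mul, Sd.tX_const_mul, c1] at a4
    have a5 := (a4.trans a3).trans (c1 _ _).le
    rw [← e0, tF]
    linarith
  have k1 := key F hF
  have k2 := key (fun x => -1 * F x) fun x => by rw [neg_one_mul, abs_neg]; exact hF x
  have e1 := Sd.tX_const_mul (fun _ => 1) s L h (-1) fun _ => F
  have e2 := Sd.tX_const_mul (fun _ => 1) s (L.map (scl lam)) (lam⁻¹ • h) (-1) fun _ => F
  rw [abs_le]
  constructor <;> linarith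

end Crest.Agent.T156.Cas

end
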