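import Crest.Agent.T156.NuC_87
import Crest.Agent.T156.SclT_90
import Crest.Agent.T156.Wp_52
import Crest.Agent.T156.Rect_52

/-!
# Row 156, (E1): two edges at different levels, weak form (helper52)

Leaf E-c of docs/T156_91E.md.
-/

set_option autoImplicit false
set_option linter.unusedSectionVars false

noncomputable section

namespace Crest.Agent.T156.Cas.Ec52

open Crest.Agent.T157.E Crest.Agent.T157.Casc Crest.Agent.T157.SL
open Nu87 Wp52

variable {Ω : Type} [Fintype Ω] {w : Ω → ℝ} {r : ℕ}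

/-! ### ultrametric matrices are realisable -/

theorem rz_of_ultra {K : ℕ} : ∀ {n : ℕ} (σ : SM (n + 1)), (∀ a, σ a a = K) →
    (∀ a b, σ a b = σ b a) → (∀ a b, σ a b ≤ K) → (∀ a b c, min (σ a b) (σ b c) ≤ σ a c) → Rz K σ
  | 0, σ, h1, _, _, _ => by
      rw [show σ = fun _ _ => K from funext fun a => funext fun b => by
        rw [Subsingleton.elim (α := Fin 1) b a]; exact h1 a]
      exact rz_one K
  | n + 1, σ, h1, h2, h3, h4 => by
      obtain ⟨a, -, ha⟩ := Finset.exists_max_image Finset.univ (fun b : Fin (n + 1) => σ 0 b.succ)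
        Finset.univ_nonempty
      have ih := rz_of_ultra (fun b c : Fin (n + 1) => σ b.succ c.succ) (fun _ => h1 _)
        (fun _ _ => h2 _ _) (fun _ _ => h3 _ _) fun _ _ _ => h4 _ _ _
      have key : ∀ b : Fin (n + 1), σ 0 b.succ = min (σ 0 a.succ) (σ b.succ a.succ) := fun b => by
        have e1 := ha b (Finset.mem_univ _)
        have e2 := h4 0 a.succ b.succ
        have e3 := h4 b.succ 0 a.succ
        rw [h2 a.succ b.succ] at e2
        rw [h2 b.succ 0] at e3
        omega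
      rw [show σ = gr K (fun b c => σ b.succ c.succ) a (σ 0 a.succ) from
        funext fun b => funext fun c => by
          refine Fin.cases ?_ (fun b => ?_) b <;> refine Fin.cases ?_ (fun c => ?_) c
          · exact h1 0
          · exact key c
          · exact (h2 _ _).trans (key b)
          · rfl]
      exact ih.gr _ _

theorem rz_res {K n m : ℕ} {τ : SM m} (h : Rz K τ) (ι : Fin (n + 1) → Fin m) :
    Rz K fun a b => τ (ι a) (ι b) :=
  rz_of_ultra _ (fun _ => h.self _) (fun _ _ => h.comm _ _) (fun _ _ => h.le _ _)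
    fun _ _ _ => h.ultra _ _ _

/-! ### coupling for the conditional law -/

/-- a matrix grown from `σ₀` and labels that are compatible -/
def CmpC (K : ℕ) (σ₀ : SM (r + 1)) : (k : ℕ) → SM (r + k + 1) → (Fin k → ℕ) → Prop
  | 0, τ, _ => τ = σ₀
  | k + 1, τ, y => ∃ τ' a j, CmpC K σ₀ k τ' (Fin.tail y) ∧ τ = gr K τ' a j ∧ y 0 ≤ j ∧ j ≤ K ∧
      (j = y 0 ∨ ∃ b, b ≠ a ∧ j = τ' a b)

theorem CmpC.rz {K : ℕ} {σ₀ : SM (r + 1)} (h0 : Rz K σ₀) : ∀ {k : ℕ} {τ : SM (r + k + 1)}
    {y : Fin k → ℕ}, CmpC K σ₀ k τ y → Rz K τ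
  | 0, _, _, h => by rw [show _ = _ from h]; exact h0
  | _ + 1, _, _, ⟨_, a, j, h, e, _⟩ => by rw [e]; exact (h.rz h0).gr a j

theorem avc_le_Ey {L : List (Lv Ω)} (hL : Mono 0 L) {σ₀ : SM (r + 1)} (h0 : Rz L.length σ₀) :
    ∀ (k : ℕ) {Φ : SM (r + k + 1) → ℝ} {Ψ : (Fin k → ℕ) → ℝ},
    (∀ y, (∀ i, y i ≤ L.length) → 0 ≤ Ψ y) →
    (∀ τ y, (∀ i, y i ≤ L.length) → CmpC L.length σ₀ k τ y → Φ τ ≤ Ψ y) →
    avc L σ₀ k Φ ≤ (r + 1).ascFactorial k * Ey L k Ψ
  | 0, Φ, Ψ, _, h => by
      simpa [avc, Ey] using h _ Fin.elim0 (fun i => i.elim0) rfl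
  | k + 1, Φ, Ψ, hp, h => by
      have ih := avc_le_Ey hL h0 k (Φ := up1 (r := r + k) L Φ)
        (Ψ := fun y => ((r + k : ℕ) + 1) * Br L fun j => Ψ (Fin.cons j y))
        (fun y hy => mul_nonneg (by positivity)
          (Br_nonneg hL fun j hj => hp _ fun i => Fin.cases hj hy i))
        (fun σ y hy hc => by
          have hσ := hc.rz h0
          have hB : 0 ≤ Br L fun j => Ψ (Fin.cons j y) :=
            Br_nonneg hL fun j hj => hp _ fun i => Fin.cases hj hy i
          rw [up1, div_le_iff₀ (by positivity)]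
          refine (Ws_mono hL hσ (hσ.ncm Φ) (hσ.ncm fun σ => max (Φ σ) 0)
            fun _ _ _ => le_max_left _ _).trans ?_
          refine (Ws_le hL hσ fun _ _ _ => le_max_right _ _).trans ?_
          refine (Finset.sum_le_card_nsmul _ _
            (((r + k : ℕ) + 1) * Br L fun j => Ψ (Fin.cons j y))
            fun a _ => ?_).trans (le_of_eq (by simp; ring))
          have b1 : Br L (fun j => max (Φ (gr L.length σ a j)) 0)
              ≤ Br L fun j => Ψ (Fin.cons j y) :=
            Br_mono hL fun j hj => max_le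
              (h _ _ (fun i => Fin.cases hj hy i) ⟨σ, a, j, hc, rfl, le_rfl, hj, .inl rfl⟩)
              (hp _ fun i => Fin.cases hj hy i)
          have b2 : ∑ b ∈ Finset.univ.erase a,
              ex L (σ a b) * max (Φ (gr L.length σ a (σ a b))) 0
              ≤ (r + k : ℕ) * Br L fun j => Ψ (Fin.cons j y) := by
            refine (Finset.sum_le_card_nsmul _ _ (Br L fun j => Ψ (Fin.cons j y))
              fun b hb => ?_).trans (le_of_eq (by simp))
            refine ex_mul_le hL (hσ.le a b) (fun j hj => hp _ fun i => Fin.cases hj hy i)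
              fun j hj => ?_
            have hj' : j ≤ L.length := hj.trans (hσ.le a b)
            exact max_le (h _ _ (fun i => Fin.cases hj' hy i) ⟨σ, a, σ a b, hc, rfl, hj,
              hσ.le a b, .inr ⟨b, Finset.ne_of_mem_erase hb, rfl⟩⟩)
              (hp _ fun i => Fin.cases hj' hy i)
          linarith)
      rw [Ey_mul] at ih
      rw [avc, Ey, Nat.ascFactorial_succ]
      push_cast at ih ⊢
      linarith

theorem CmpC.mem {K j₀ : ℕ} {σ₀ : SM (r + 1)} (h0 : Rz K σ₀) (hj₀ : ∀ a b, a ≠ b → σ₀ a b = j₀) :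
    ∀ {k : ℕ} {τ : SM (r + k + 1)} {y : Fin k → ℕ}, CmpC K σ₀ k τ y →
    ∀ a b, a ≠ b → τ a b = j₀ ∨ ∃ i, τ a b = y i
  | 0, _, _, h, a, b, hab => by rw [show _ = _ from h]; exact .inl (hj₀ a b hab)
  | k + 1, _, y, ⟨σ, c, j, h, e, _, hj, hc⟩, a, b, hab => by
      have old : ∀ a b, a ≠ b → σ a b = j₀ ∨ ∃ i, σ a b = y i := fun a b hab =>
        (h.mem h0 hj₀ a b hab).imp id fun ⟨i, hi⟩ => ⟨i.succ, hi⟩
      have hjy : j = j₀ ∨ ∃ i, j = y i := by
        rcases hc with hc | ⟨b, hb, hc⟩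
        · exact .inr ⟨0, hc⟩
        · rw [hc]; exact old c b hb.symm
      have nw : ∀ b, min j (σ b c) = j₀ ∨ ∃ i, min j (σ b c) = y i := fun b => by
        rcases le_total j (σ b c) with h1 | h1
        · rw [min_eq_left h1]; exact hjy
        · by_cases hbc : b = c
          · subst hbc
            rw [(h.rz h0).self, min_eq_left hj]; exact hjy
          · rw [min_eq_right h1]; exact old b c hbc
      subst e
      revert hab
      refine Fin.cases (n := r + k + 1) ?_ (fun a => ?_) a <;>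
        refine Fin.cases (n := r + k + 1) ?_ (fun b => ?_) b <;> intro hab
      · exact absurd rfl hab
      · exact nw b
      · exact nw a
      · exact old a b fun e => hab (congrArg Fin.succ e)

theorem Br_const (L : List (Lv Ω)) (c : ℝ) : Br L (fun _ => c) = c := by
  simpa [Br_one] using Br_mul L c fun _ => 1

theorem Ey_const (L : List (Lv Ω)) (c : ℝ) : ∀ k : ℕ, Ey L k (fun _ => c) = c
  | 0 => rfl
  | k + 1 => by simp only [Ey, Br_const, Ey_const L c k]

theorem Ey_indep (L : List (Lv Ω)) (g : ℕ → ℝ) : ∀ (k : ℕ) (i : Fin k) (H : (Fin k → ℕ) → ℝ),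
    (∀ y t, H (Function.update y i t) = H y) →
    Ey L k (fun y => g (y i) * H y) = Br L g * Ey L k H
  | 0, i, _, _ => i.elim0
  | k + 1, i, H, hH => by
      revert hH
      refine Fin.cases (fun hH => ?_) (fun i hH => ?_) i
      · have e : ∀ (j : ℕ) (y : Fin k → ℕ), H (Fin.cons j y) = H (Fin.cons 0 y) := fun j y => by
          rw [← hH (Fin.cons 0 y) j, Fin.update_cons_zero]
        simp only [Ey, Fin.cons_zero]
        simp only [e _, mul_comm (g _), Br_mul, Br_const]
        simp only [mul_comm _ (Br L g), Ey_mul]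
      · simp only [Ey, Fin.cons_succ, Br_mul]
        exact Ey_indep L g k i (fun y => Br L fun j => H (Fin.cons j y)) fun y t => by
          simp only [Fin.cons_update, hH]

theorem Br_ind (L : List (Lv Ω)) {y : ℕ} (hy : y ≤ L.length) :
    Br L (fun t => if t = y then 1 else 0) = dm L 0 y := by
  simp [Br, Finset.sum_ite_eq', Nat.lt_succ_iff, hy]

theorem abs_avc_le {L : List (Lv Ω)} (hL : Mono 0 L) {σ₀ : SM (r + 1)} (h0 : Rz L.length σ₀)
    (k : ℕ) (Φ : SM (r + k + 1) → ℝ) : |avc L σ₀ k Φ| ≤ avc L σ₀ k fun τ => |Φ τ| := by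
  have h1 := avc_mono hL h0 k (φ := Φ) fun τ _ => le_abs_self (Φ τ)
  have h2 := avc_mono hL h0 k (φ := fun τ => -1 * |Φ τ|) (ψ := Φ) fun τ _ => by
    linarith [neg_abs_le (Φ τ)]
  rw [avc_mul] at h2
  rw [abs_le]
  constructor <;> linarith

/-- the constant of the push-forward -/
def cW (r k n : ℕ) : ℝ := (r + 1).ascFactorial k * k * ((k + 2) ^ (n * n) * (k + 1))

theorem cW_nonneg (r k n : ℕ) : 0 ≤ cW r k n := by unfold cW; positivity

/-- **push-forward of the signed weights** to (base matrix, level of the weak edge) -/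
theorem push {L : List (Lv Ω)} (hL : Mono 0 L) {σ₀ : SM (r + 1)} (h0 : Rz L.length σ₀) {j : ℕ}
    (hj : ∀ a b, a ≠ b → σ₀ a b = j) {k n : ℕ} {ι : Fin (n + 1) → Fin (r + k + 1)}
    (hι : Function.Injective ι) {e f : Fin (n + 1)} (hef : e ≠ f) {c d : Fin (r + k + 1)}
    (hcd : c ≠ d) {S Bk : SM (r + k + 1) → ℝ} {B : SM (n + 1) → ℕ → ℝ} {g u : ℕ → ℝ} {Gm : ℝ}
    (hg : ∀ y, 0 ≤ g y) (hu : ∀ y, 0 ≤ u y) (hG : 0 ≤ Gm)
    (hS : ∀ τ, Rz L.length τ → |S τ| ≤ g (τ c d))
    (hB : ∀ τ, Rz L.length τ → S τ ≠ 0 → Bk τ = B (fun a b => τ (ι a) (ι b)) (τ c d) ∧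
      τ c d ≠ j ∧ ∀ a b, a ≠ b → τ (ι a) (ι b) ≠ τ c d)
    (hW : ∀ ρ, Rz L.length ρ → ∀ φ : ℕ → ℝ, (∀ y, |φ y| ≤ g y) →
      |∑ y ∈ Finset.range (L.length + 1), dm L 0 y * φ y * B ρ y| ≤ Gm * u (ρ e f)) :
    |avc L σ₀ k fun τ => S τ * Bk τ| ≤ cW r k (n + 1) * Gm * (u j + Br L u) := by
  classical
  set K := L.length with hK
  set MS : Finset (SM (n + 1)) := Fintype.piFinset fun _ => Fintype.piFinset fun _ =>
    Finset.range (K + 1) with hMS
  set μ : SM (n + 1) → ℕ → ℝ := fun ρ y => avc L σ₀ k fun τ =>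
    if (fun a b => τ (ι a) (ι b)) = ρ ∧ τ c d = y then S τ else 0 with hμ
  set Hc : SM (n + 1) → (Fin k → ℕ) → Prop := fun ρ ys =>
    (∀ a, ρ a a = K) ∧ ∀ a b, a ≠ b → ρ a b = j ∨ ∃ l, ρ a b = ys l with hHc
  set Wt' : SM (n + 1) → ℝ := fun ρ => Ey L k fun ys => if Hc ρ ys then 1 else 0 with hWt
  set C₁ : ℝ := (r + 1).ascFactorial k * k with hC₁
  have hC₁0 : 0 ≤ C₁ := by positivity
  have hWt0 : ∀ ρ, 0 ≤ Wt' ρ := fun ρ => by
    have := Ey_mono hL k (Ψ := fun _ => 0) (Ψ' := fun ys => if Hc ρ ys then 1 else 0)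
      fun _ _ => by split_ifs <;> norm_num
    rwa [Ey_const] at this
  have e1 : (avc L σ₀ k fun τ => S τ * Bk τ)
      = ∑ ρ ∈ MS, ∑ y ∈ Finset.range (K + 1), μ ρ y * B ρ y := by
    simp only [hμ, mul_comm _ (B _ _), ← avc_mul, ← avc_sum]
    refine avc_congr h0 k fun τ hτ => ?_
    by_cases hs : S τ = 0
    · simp [hs]
    · rw [Finset.sum_eq_single (fun a b => τ (ι a) (ι b)) (fun ρ _ hρ => by simp [hρ.symm])
        (fun hm => absurd (by
          simp only [hMS, Fintype.mem_piFinset, Finset.mem_range]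
          exact fun a b => Nat.lt_succ_of_le (hτ.le _ _)) hm),
        Finset.sum_eq_single (τ c d) (fun y _ hy => by simp [hy.symm])
        (fun hm => absurd (Finset.mem_range.2 (Nat.lt_succ_of_le (hτ.le _ _))) hm),
        (hB τ hτ hs).1]
      simp [mul_comm]
  have b1 : ∀ ρ, ∀ y, y ≤ K → |μ ρ y| ≤ g y * (C₁ * Wt' ρ * dm L 0 y) := fun ρ y hy => by
    refine (abs_avc_le hL h0 k _).trans ?_
    set H : Fin k → (Fin k → ℕ) → ℝ := fun i ys => if (∀ a, ρ a a = K) ∧
      ∀ a b, a ≠ b → ρ a b = j ∨ ∃ l, l ≠ i ∧ ρ a b = ys l then 1 else 0 with hH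
    have nn : ∀ i ys, 0 ≤ (if ys i = y then (1 : ℝ) else 0) * H i ys := fun i ys =>
      mul_nonneg (by split_ifs <;> norm_num) (by simp only [hH]; split_ifs <;> norm_num)
    refine (avc_le_Ey hL h0 k (Ψ := fun ys => g y * ∑ i, (if ys i = y then 1 else 0) * H i ys)
      (fun ys _ => mul_nonneg (hg y) (Finset.sum_nonneg fun i _ => nn i ys))
      fun τ ys _ hc => ?_).trans ?_
    · have hτ := hc.rz h0
      by_cases hx : ((fun a b => τ (ι a) (ι b)) = ρ ∧ τ c d = y) ∧ S τ ≠ 0
      · obtain ⟨⟨hρ, hy'⟩, hs⟩ := hx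
        obtain ⟨-, h2, h3⟩ := hB τ hτ hs
        obtain ⟨i, hi⟩ := (hc.mem h0 hj c d hcd).resolve_left h2
        rw [if_pos ⟨hρ, hy'⟩]
        refine (hS τ hτ).trans ?_
        rw [hy']
        refine le_mul_of_one_le_right (hg y) (le_trans (le_of_eq ?_)
          (Finset.single_le_sum (fun i _ => nn i ys) (Finset.mem_univ i)))
        rw [if_pos (hi.symm.trans hy'), one_mul]
        simp only [hH]
        rw [if_pos]
        subst hρ
        refine ⟨fun a => hτ.self _, fun a b hab => ?_⟩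
        refine (hc.mem h0 hj _ _ (hι.ne hab)).imp id fun ⟨l, hl⟩ => ⟨l, fun e => ?_, hl⟩
        exact h3 a b hab (by rw [hl, e, hi])
      · have : (if (fun a b => τ (ι a) (ι b)) = ρ ∧ τ c d = y then S τ else 0) = 0 := by
          split_ifs with h1
          · by_contra h2
            exact hx ⟨h1, h2⟩
          · rfl
        rw [this, abs_zero]
        exact mul_nonneg (hg y) (Finset.sum_nonneg fun i _ => nn i ys)
    · rw [Ey_mul, Ey_sum]
      have : ∑ i, Ey L k (fun ys => (if ys i = y then 1 else 0) * H i ys)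
          ≤ k * (dm L 0 y * Wt' ρ) := by
        refine (Finset.sum_le_card_nsmul _ _ (dm L 0 y * Wt' ρ) fun i _ => ?_).trans
          (le_of_eq (by simp))
        rw [Ey_indep L (fun t => if t = y then 1 else 0) k i (H i) fun ys t => by
          simp only [hH]
          refine if_congr (and_congr Iff.rfl (forall_congr' fun a => forall_congr' fun b =>
            imp_congr Iff.rfl (or_congr Iff.rfl (exists_congr fun l => and_congr_right fun hl => by
              rw [Function.update_of_ne hl])))) rfl rfl, Br_ind L hy]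
        refine mul_le_mul_of_nonneg_left (Ey_mono hL k fun ys _ => ?_) (dm_nonneg hL y)
        simp only [hH]
        split_ifs with h1 h2
        · exact le_rfl
        · exact absurd ⟨h1.1, fun a b hab => (h1.2 a b hab).imp id fun ⟨l, _, hl⟩ => ⟨l, hl⟩⟩ h2
        · exact zero_le_one
        · exact le_rfl
      have := mul_le_mul_of_nonneg_left (mul_le_mul_of_nonneg_left this (hg y))
        (Nat.cast_nonneg (α := ℝ) ((r + 1).ascFactorial k))
      refine this.trans (le_of_eq ?_)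
      rw [hC₁]; ring
  have b2 : ∀ ρ, |∑ y ∈ Finset.range (K + 1), μ ρ y * B ρ y| ≤ C₁ * Wt' ρ * (Gm * u (ρ e f)) := by
    intro ρ
    have p0 : 0 ≤ C₁ * Wt' ρ := mul_nonneg hC₁0 (hWt0 ρ)
    by_cases hρ : Rz K ρ
    · set φ : ℕ → ℝ := fun y => if y ≤ K then μ ρ y / (C₁ * Wt' ρ * dm L 0 y) else 0 with hφ
      have hφg : ∀ y, |φ y| ≤ g y := fun y => by
        simp only [hφ]
        split_ifs with hy
        · have p1 : 0 ≤ C₁ * Wt' ρ * dm L 0 y := mul_nonneg p0 (dm_nonneg hL y)
          rw [abs_div, abs_of_nonneg p1]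
          exact div_le_of_le_mul₀ p1 (hg y) (b1 ρ y hy)
        · simpa using hg y
      have e2 : ∑ y ∈ Finset.range (K + 1), μ ρ y * B ρ y
          = C₁ * Wt' ρ * ∑ y ∈ Finset.range (K + 1), dm L 0 y * φ y * B ρ y := by
        rw [Finset.mul_sum]
        refine Finset.sum_congr rfl fun y hy => ?_
        have hy' := Nat.lt_succ_iff.1 (Finset.mem_range.1 hy)
        have : μ ρ y = C₁ * Wt' ρ * dm L 0 y * φ y := by
          simp only [hφ, if_pos hy']
          by_cases hz : C₁ * Wt' ρ * dm L 0 y = 0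
          · have := b1 ρ y hy'
            rw [hz, mul_zero] at this
            rw [hz, zero_mul]
            exact abs_nonpos_iff.1 this
          · rw [mul_div_cancel₀ _ hz]
        rw [this]; ring
      rw [e2, abs_mul, abs_of_nonneg p0]
      exact mul_le_mul_of_nonneg_left (hW ρ hρ φ hφg) p0
    · have : ∀ y, μ ρ y = 0 := fun y => by
        refine (avc_congr h0 k fun τ hτ => if_neg fun hx => hρ ?_).trans (avc_const 0 k)
        rw [← hx.1]
        exact rz_res hτ ι
      simp only [this, zero_mul, Finset.sum_const_zero, abs_zero]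
      exact mul_nonneg p0 (mul_nonneg hG (hu _))
  have b3 : ∑ ρ ∈ MS, Wt' ρ * u (ρ e f) ≤ (k + 2) ^ ((n + 1) * (n + 1)) * (u j + k * Br L u) := by
    simp only [hWt, mul_comm _ (u _), ← Ey_mul, ← Ey_sum]
    have e3 : ∀ i : Fin k, Ey L k (fun ys => u (ys i)) = Br L u := fun i => by
      simpa [Ey_const] using Ey_indep L u k i (fun _ => 1) fun _ _ => rfl
    have e4 : ((k : ℝ) + 2) ^ ((n + 1) * (n + 1)) * (u j + k * Br L u)
        = Ey L k fun ys => ((k : ℝ) + 2) ^ ((n + 1) * (n + 1)) * (u j + ∑ i, u (ys i)) := by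
      rw [Ey_mul, Ey_add, Ey_const, Ey_sum]
      simp [e3]
    rw [e4]
    refine Ey_mono hL k fun ys _ => ?_
    simp only [mul_ite, mul_one, mul_zero]
    rw [← Finset.sum_filter]
    have p1 : 0 ≤ ∑ i, u (ys i) := Finset.sum_nonneg fun i _ => hu _
    refine (Finset.sum_le_card_nsmul _ _ (u j + ∑ i, u (ys i)) fun ρ hρ => ?_).trans ?_
    · rcases (Finset.mem_filter.1 hρ).2.2 e f hef with h1 | ⟨l, h1⟩
      · rw [h1]; linarith
      · rw [h1]
        have := Finset.single_le_sum (f := fun i => u (ys i)) (fun i _ => hu _) (Finset.mem_univ l)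
        linarith [hu j]
    · rw [nsmul_eq_mul]
      refine mul_le_mul_of_nonneg_right ?_ (by linarith [hu j])
      set T : Finset ℕ := insert K (insert j (Finset.univ.image ys)) with hT
      have hTc : T.card ≤ k + 2 := (Finset.card_insert_le _ _).trans (Nat.succ_le_succ
        ((Finset.card_insert_le _ _).trans (Nat.succ_le_succ
          (Finset.card_image_le.trans (by simp)))))
      have sub : MS.filter (fun ρ => Hc ρ ys) ⊆
          Fintype.piFinset fun _ => Fintype.piFinset fun _ => T := fun ρ hρ => by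
        have h1 := (Finset.mem_filter.1 hρ).2
        simp only [Fintype.mem_piFinset, hT, Finset.mem_insert, Finset.mem_image, Finset.mem_univ,
          true_and]
        intro a b
        by_cases hab : a = b
        · subst hab; exact .inl (h1.1 a)
        · exact .inr ((h1.2 a b hab).imp id fun ⟨l, hl⟩ => ⟨l, hl.symm⟩)
      have h2 := Finset.card_le_card sub
      simp only [Fintype.card_piFinset, Finset.prod_const, Finset.card_univ, Fintype.card_fin,
        ← pow_mul] at h2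
      exact_mod_cast h2.trans (Nat.pow_le_pow_left hTc _)
  rw [e1]
  refine (Finset.abs_sum_le_sum_abs _ _).trans ((Finset.sum_le_sum fun ρ _ => b2 ρ).trans ?_)
  rw [show ∑ ρ ∈ MS, C₁ * Wt' ρ * (Gm * u (ρ e f)) = C₁ * Gm * ∑ ρ ∈ MS, Wt' ρ * u (ρ e f) by
    rw [Finset.mul_sum]; exact Finset.sum_congr rfl fun _ _ => by ring]
  refine (mul_le_mul_of_nonneg_left b3 (mul_nonneg hC₁0 hG)).trans ?_
  have q1 : 0 ≤ Br L u := Br_nonneg hL fun j _ => hu j
  have q2 : u j + k * Br L u ≤ (k + 1) * (u j + Br L u) := by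
    have := mul_nonneg (Nat.cast_nonneg (α := ℝ) k) (hu j)
    nlinarith
  have q3 := mul_le_mul_of_nonneg_left q2
    (show 0 ≤ C₁ * Gm * ((k : ℝ) + 2) ^ ((n + 1) * (n + 1)) by positivity)
  rw [cW, ← hC₁]
  linarith

end Crest.Agent.T156.Cas.Ec52

end
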