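import Crest.Agent.T156.StUD_67
import Crest.Agent.T156.Ec_52

/-!
# Row 156, block C: Ghirlanda–Guerra given the marked node, symmetry of the marked pair (helper91)
-/

set_option autoImplicit false
set_option linter.all false

noncomputable section

namespace Crest.Agent.T156.Cas.Su67

open MeasureTheory Real Set Filter Topology
open Crest.Agent.T157.E Crest.Agent.T157.Casc Crest.Agent.T157.SL
open Mul55 C40 G90 Nu87

namespace G91

/-- a permutation of the old labels, fixing the new one -/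
def lift {n : ℕ} (ρ : Equiv.Perm (Fin n)) : Equiv.Perm (Fin (n + 1)) :=
  Equiv.Perm.decomposeFin.symm (0, ρ)

theorem lift_0 {n : ℕ} (ρ : Equiv.Perm (Fin n)) : lift ρ 0 = 0 := by simp [lift]

theorem lift_s {n : ℕ} (ρ : Equiv.Perm (Fin n)) (a : Fin n) : lift ρ a.succ = (ρ a).succ := by
  simp [lift]

variable {Θ : Type} [Fintype Θ] {L : List (Lv Θ)} {r : ℕ}

theorem up1_lift (ρ : Equiv.Perm (Fin (r + 1))) (φ : SM (r + 2) → ℝ) :
    up1 L (fun σ => φ fun a b => σ (lift ρ a) (lift ρ b)) =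
      fun τ => up1 L φ fun a b => τ (ρ a) (ρ b) := by
  funext τ
  rw [← up1_perm ρ φ]
  have e : ∀ a, lift ρ a = (Fin.cons 0 fun a => (ρ a).succ : Fin (r + 2) → Fin (r + 2)) a :=
    fun a => Fin.cases (lift_0 ρ) (lift_s ρ) a
  simp only [e]

/-- every realisable matrix is a graft on its tail -/
theorem eq_gr {K : ℕ} {σ : SM (r + 2)} (h : Rz K σ) :
    ∃ a, ∃ j ≤ K, σ = gr K (fun b c => σ b.succ c.succ) a j := by
  obtain ⟨a, -, ha⟩ := Finset.exists_max_image Finset.univ (fun b : Fin (r + 1) => σ 0 b.succ)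
    Finset.univ_nonempty
  refine ⟨a, σ 0 a.succ, h.le _ _, ?_⟩
  have key : ∀ b : Fin (r + 1), σ 0 b.succ = min (σ 0 a.succ) (σ b.succ a.succ) := fun b => by
    have h1 := h.ultra 0 a.succ b.succ
    have h2 := h.ultra a.succ 0 b.succ
    have h3 := ha b (Finset.mem_univ _)
    rw [h.comm a.succ b.succ] at h1 h2
    rw [h.comm a.succ 0] at h2
    omega
  funext b c
  refine Fin.cases ?_ (fun b => ?_) b <;> refine Fin.cases ?_ (fun c => ?_) c
  · exact h.self 0
  · exact key c
  · exact (h.comm _ _).trans (key b)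
  · rfl

/-- forgetting the replica `0` after a graft -/
theorem forget0 {σ : SM (r + 2)} (h : Rz L.length σ) (φ : SM (r + 2) → ℝ) :
    Ws L σ (fun c i => φ fun a b => gr L.length σ c i (Equiv.swap (0 : Fin (r + 3)) 1 a.succ)
      (Equiv.swap (0 : Fin (r + 3)) 1 b.succ)) =
      Ws L (fun b c : Fin (r + 1) => σ b.succ c.succ)
        (fun c i => φ (gr L.length (fun b c : Fin (r + 1) => σ b.succ c.succ) c i)) + φ σ := by
  have hn := h.ncm fun τ => φ fun a b => τ (Equiv.swap (0 : Fin (r + 3)) 1 a.succ)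
      (Equiv.swap (0 : Fin (r + 3)) 1 b.succ)
  have hρ : Rz L.length fun b c : Fin (r + 1) => σ b.succ c.succ := Ec52.rz_res h _
  obtain ⟨a, j, hj, e⟩ := eq_gr h
  generalize (fun b c : Fin (r + 1) => σ b.succ c.succ) = ρ at hρ e ⊢
  subst e
  rw [Ws_gr L hρ a hj hn]
  congr 1
  · congr 1
    funext c i
    refine congrArg φ (funext fun x => funext fun y => ?_)
    refine Fin.cases ?_ (fun x => ?_) x <;> refine Fin.cases ?_ (fun y => ?_) y <;>
      simp only [swap_1, swap_2, gr_00, gr_0s, gr_s0, gr_ss]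
  · rw [Finset.sum_congr rfl (g := fun i => dm (L.drop j) 0 i * φ (gr L.length ρ a j))
      fun i _ => ?_, ← Finset.sum_mul, sum_dm, ← List.length_drop, ex_length, sub_zero, one_mul]
    congr 1
    refine congrArg φ (funext fun x => funext fun y => ?_)
    refine Fin.cases ?_ (fun x => ?_) x <;> refine Fin.cases ?_ (fun y => ?_) y <;>
      simp only [swap_1, swap_2, gr_00, gr_0s, gr_s0, gr_ss]
    all_goals omega

/-- the next relabelling: the forgotten replica first -/
def nx {n : ℕ} (e : Equiv.Perm (Fin (n + 1))) : Equiv.Perm (Fin (n + 2)) :=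
  (Equiv.swap 0 1).trans (lift e)

theorem forget (e : Equiv.Perm (Fin (r + 2))) {σ : SM (r + 2)} (h : Rz L.length σ)
    (φ : SM (r + 2) → ℝ) :
    (r + 2 : ℝ) * up1 L (fun τ => φ fun a b => τ (nx e a.succ) (nx e b.succ)) σ =
      (r + 1) * up1 L φ (fun a b => σ (e a.succ) (e b.succ)) + φ fun a b => σ (e a) (e b) := by
  have h1 := congrFun (up1_lift (L := L) e fun τ => φ fun a b =>
    τ (Equiv.swap (0 : Fin (r + 3)) 1 a.succ) (Equiv.swap (0 : Fin (r + 3)) 1 b.succ)) σ
  have h2 := forget0 (h.perm e) φ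
  rw [Ws_eq_up1 (τ := fun a b => σ (e a) (e b)) fun τ => φ fun a b =>
    τ (Equiv.swap (0 : Fin (r + 3)) 1 a.succ) (Equiv.swap (0 : Fin (r + 3)) 1 b.succ),
    Ws_eq_up1, ← h1] at h2
  exact (congrArg₂ (· * ·) (by push_cast; ring) rfl).trans h2

theorem gg_aux : ∀ k : ℕ, ∃ (e : Equiv.Perm (Fin (1 + (k + 1) + 1)))
    (pm : Fin (k + 1) → Equiv.Perm (Fin (1 + k + 1))), e 0 = mb (k + 1) ∧
    e (Fin.succ (ma k)) = ma (k + 1) ∧ (∀ c, pm c (ma k) = ma k) ∧
    ∀ (Θ : Type) [Fintype Θ] (L : List (Lv Θ)), ∀ j ≤ L.length, ∀ φ : SM (1 + k + 1) → ℝ,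
      (k + 2 : ℝ) * avc L (tw L.length j) (k + 1)
          (fun σ => φ fun a b => σ (e (Fin.succ a)) (e (Fin.succ b))) =
        avm L (1 + k) φ +
          ∑ c, avc L (tw L.length j) k fun σ => φ fun a b => σ (pm c a) (pm c b)
  | 0 => by
      refine ⟨nx (n := 1) (Equiv.refl _), fun _ => Equiv.refl _, by decide, by decide,
        fun _ => rfl, fun Θ _ L j hj φ => ?_⟩
      have h := forget (L := L) (r := 0) (Equiv.refl _) (rz_tw L.length j) φ
      rw [Fin.sum_univ_one]
      refine h.trans (congrArg₂ (· + ·) ?_ rfl)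
      rw [Nat.cast_zero, zero_add, one_mul]
      refine congrArg (up1 L φ) (funext fun a => funext fun b => ?_)
      fin_cases a; fin_cases b
      exact (rz_tw L.length j).self _
  | k + 1 => by
      obtain ⟨e, pm, h0, ha, hp, H⟩ := gg_aux k
      refine ⟨nx (n := 1 + (k + 1)) e, Fin.cons e (fun c => lift (n := 1 + k + 1) (pm c)), ?_, ?_,
        fun c => ?_, fun Θ _ L j hj φ => ?_⟩
      · exact ((congrArg (lift e) (swap_0 (r := 1 + (k + 1)))).trans (lift_s e 0)).trans
          (congrArg Fin.succ h0)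
      · exact ((congrArg (lift e) (swap_2 (r := 1 + k + 1) (ma k))).trans (lift_s e _)).trans
          (congrArg Fin.succ ha)
      · refine Fin.cases ha (fun c => ?_) c
        exact (lift_s (pm c) (ma k)).trans (congrArg Fin.succ (hp c))
      · have h1 := avc_congr (L := L) (rz_tw L.length j) (k + 1)
          fun σ hσ => forget (r := 1 + k) e hσ φ
        rw [avc_mul, avc_add, avc_mul] at h1
        have h2 := H Θ L j hj (up1 (r := 1 + k) L φ)
        have h3 : ∀ c, avc L (tw L.length j) k (fun σ => up1 (r := 1 + k) L φ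
            fun a b => σ (pm c a) (pm c b)) = avc L (tw L.length j) (k + 1) fun σ =>
            φ fun a b => σ (lift (n := 1 + k + 1) (pm c) a) (lift (n := 1 + k + 1) (pm c) b) :=
          fun c => (congrArg (avc L (tw L.length j) k) (up1_lift (r := 1 + k) (pm c) φ)).symm
        rw [Fin.sum_univ_succ]
        refine (congrArg₂ (· * ·) (by push_cast; ring) rfl).trans (h1.trans ?_)
        refine (congrArg₂ (· + ·) ((congrArg₂ (· * ·) (by push_cast; ring) rfl).trans h2)
          rfl).trans ?_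
        simp only [h3]
        rw [add_assoc, add_comm (∑ _, _)]
        rfl

theorem sw_aux : ∀ k : ℕ, ∃ μ : Equiv.Perm (Fin (1 + k + 1)), μ (ma k) = mb k ∧ μ (mb k) = ma k ∧
    ∀ (Θ : Type) [Fintype Θ] (L : List (Lv Θ)) (j : ℕ) (φ : SM (1 + k + 1) → ℝ),
      avc L (tw L.length j) k (fun σ => φ fun a b => σ (μ a) (μ b)) = avc L (tw L.length j) k φ
  | 0 => ⟨Equiv.swap (0 : Fin 2) 1, by decide, by decide, fun Θ _ L j φ =>
      congrArg φ (funext fun a => funext fun b => by fin_cases a <;> fin_cases b <;> rfl)⟩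
  | k + 1 => by
      obtain ⟨μ, ha, hb, H⟩ := sw_aux k
      exact ⟨lift (n := 1 + k + 1) μ, (lift_s μ (ma k)).trans (congrArg Fin.succ ha),
        (lift_s μ (mb k)).trans (congrArg Fin.succ hb), fun Θ _ L j φ =>
        (congrArg (avc L (tw L.length j) k) (up1_lift (r := 1 + k) μ φ)).trans
          (H Θ L j (up1 (r := 1 + k) L φ))⟩

end G91

/-- **Ghirlanda–Guerra given the marked node** -/
theorem ggS : GGS := fun k => by
  obtain ⟨e, pm, h0, ha, hp, H⟩ := G91.gg_aux k
  exact ⟨fun a => e (Fin.succ a), pm, e.injective.comp (Fin.succ_injective _),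
    fun c h => Fin.succ_ne_zero c (e.injective (h.trans h0.symm)), ha, hp, H⟩

theorem gGS : GGS := ggS

/-- **the marked pair is symmetric** -/
theorem swS : SwS := G91.sw_aux

end Crest.Agent.T156.Cas.Su67

end
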