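import Crest.Agent.T156.CondC_31
import Crest.Agent.T156.Site_94
import Crest.Agent.T156.Ec_52

/-!
# Row 156 (helper31): leaf E-b, both edges at the level of the test node
-/

set_option autoImplicit false
set_option linter.unusedSectionVars false

noncomputable section

namespace Crest.Agent.T156.Cas.Eb31

open MeasureTheory Real Set Filter Topology
open Crest.Agent.T157.E Crest.Agent.T157.Casc Crest.Agent.T157.SL
open Nu87 E91 Wp52 Ec52 Cond31

variable {r K : ℕ}

/-- a second node at the depth `j` needs a label equal to `j` -/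
theorem far {j : ℕ} {σ₀ : SM (r + 1)} (h0 : Rz K σ₀) (hj : ∀ a, j ≤ σ₀ a 0) :
    ∀ {k : ℕ} {τ : SM (r + k + 1)} {y : Fin k → ℕ}, CmpC K σ₀ k τ y →
    ∀ a b, a ≠ b → τ a b = j → τ a (old k 0) < j → ∃ i, y i = j
  | 0, _, _, h, a, _, _, _, h2 => by
      rw [show _ = _ from h] at h2
      exact absurd (hj a) (not_le.2 h2)
  | k + 1, _, y, ⟨σ, c, i, h, e, _, hi, hc⟩, a, b, hab, h1, h2 => by
      have hσ := h.rz h0
      have ih : ∀ a b, a ≠ b → σ a b = j → σ a (old k 0) < j → ∃ i, y i = j := fun a b h1 h2 h3 =>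
        (far h0 hj h a b h1 h2 h3).elim fun i hi => ⟨i.succ, hi⟩
      have nw : ∀ b, min i (σ b c) = j → σ c (old k 0) < j → ∃ i, y i = j := fun b h1 h2 => by
        by_cases e1 : i = j
        · rcases hc with hc | ⟨b', hb, hc⟩
          · exact ⟨0, hc.symm.trans e1⟩
          · exact ih c b' hb.symm (hc.symm.trans e1) h2
        · have e2 : σ b c = j := by omega
          refine ih c b (fun e3 => ?_) ((hσ.comm c b).trans e2) h2
          rw [← e3, hσ.self] at e2
          omega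
      subst e
      rw [old_succ] at h2
      revert hab h1 h2
      refine Fin.cases (n := r + k + 1) ?_ (fun a => ?_) a <;>
        refine Fin.cases (n := r + k + 1) ?_ (fun b => ?_) b <;> intro hab h1 h2
      · exact absurd rfl hab
      · have h1' : min i (σ b c) = j := h1
        have h2' : min i (σ (old k 0) c) < j := h2
        exact nw b h1' (by rw [hσ.comm]; omega)
      · have h1' : min i (σ a c) = j := h1
        have h2' : σ a (old k 0) < j := h2
        have := hσ.ultra a c (old k 0)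
        exact nw a h1' (by omega)
      · exact ih a b (fun e => hab (congrArg Fin.succ e)) h1 h2

/-- a replica outside the branches of all base replicas needs a label at most `j` -/
theorem third {j : ℕ} {σ₀ : SM (r + 1)} (h0 : Rz K σ₀) (hj : j < K) :
    ∀ {k : ℕ} {τ : SM (r + k + 1)} {y : Fin k → ℕ}, CmpC K σ₀ k τ y →
    ∀ x, (∀ a, τ x (old k a) ≤ j) → ∃ i, y i ≤ j
  | 0, _, _, h, x, hx => by
      have := hx x
      rw [show _ = _ from h, old_zero, h0.self] at this
      omega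
  | k + 1, _, y, ⟨σ, c, i, h, e, hy, _, _⟩, x, hx => by
      have hσ := h.rz h0
      have ih : ∀ x, (∀ a, σ x (old k a) ≤ j) → ∃ i, y i ≤ j := fun x hx =>
        (third h0 hj h x hx).elim fun i hi => ⟨i.succ, hi⟩
      subst e
      revert hx
      refine Fin.cases (n := r + k + 1) ?_ (fun x => ?_) x <;> intro hx
      · by_cases e1 : i ≤ j
        · exact ⟨0, hy.trans e1⟩
        · refine ih c fun a => ?_
          have h1 : min i (σ (old k a) c) ≤ j := hx a
          rw [hσ.comm]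
          omega
      · exact ih x hx

variable {Ω : Type} [Fintype Ω] {L : List (Lv Ω)}

theorem Ey_ex (k : ℕ) (p : ℕ → Prop) [DecidablePred p] :
    Ey L k (fun y => ∑ i, if p (y i) then (1 : ℝ) else 0) = k * Br L fun t => if p t then 1 else 0 := by
  rw [Ey_sum, Finset.sum_congr rfl (g := fun _ => Br L fun t => if p t then 1 else 0) fun i _ => ?_]
  · simp
  · have := Ey_indep L (fun t => if p t then (1 : ℝ) else 0) k i (fun _ => 1) fun _ _ => rfl
    rw [Ey_const, mul_one] at this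
    simpa only [mul_one] using this

theorem avc_ex (hL : Mono 0 L) {σ₀ : SM (r + 1)} (h0 : Rz L.length σ₀) (k : ℕ) (p : ℕ → Prop)
    [DecidablePred p] (E : SM (r + k + 1) → Prop) [DecidablePred E]
    (h : ∀ τ y, CmpC L.length σ₀ k τ y → E τ → ∃ i, p (y i)) :
    avc L σ₀ k (fun τ => if E τ then 1 else 0) ≤
      (r + 1).ascFactorial k * (k * Br L fun t => if p t then 1 else 0) := by
  have nn : ∀ (y : Fin k → ℕ) (i : Fin k), (0 : ℝ) ≤ if p (y i) then 1 else 0 := fun y i => by
    positivity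
  rw [← Ey_ex]
  refine avc_le_Ey hL h0 k (fun y _ => Finset.sum_nonneg fun i _ => nn y i) fun τ y _ hc => ?_
  split_ifs with h1
  · obtain ⟨i, hi⟩ := h τ y hc h1
    exact (if_pos hi).symm.trans_le (Finset.single_le_sum (fun i _ => nn y i) (Finset.mem_univ i))
  · exact Finset.sum_nonneg fun i _ => nn y i

/-- **weight of a second node of depth `j`** -/
theorem avc_far (hL : Mono 0 L) {σ₀ : SM (r + 1)} (h0 : Rz L.length σ₀) {j : ℕ}
    (hjK : j ≤ L.length) (hj : ∀ a, j ≤ σ₀ a 0) (k : ℕ) {a b : Fin (r + k + 1)} (hab : a ≠ b) :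
    avc L σ₀ k (fun τ => if τ a b = j ∧ τ a (old k 0) < j then 1 else 0) ≤
      (r + 1).ascFactorial k * (k * dm L 0 j) := by
  rw [← Br_ind L hjK]
  exact avc_ex hL h0 k (· = j) _ fun τ y hc h => far h0 hj hc a b hab h.1 h.2

/-- **weight of one more branch** at or below depth `j` -/
theorem avc_third (hL : Mono 0 L) {σ₀ : SM (r + 1)} (h0 : Rz L.length σ₀) {j : ℕ}
    (hj : j < L.length) (k : ℕ) :
    avc L σ₀ k (fun τ => if ∃ x, ∀ a, τ x (old k a) ≤ j then 1 else 0) ≤
      (r + 1).ascFactorial k * (k * ex L j) :=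
  (avc_ex hL h0 k (· ≤ j) _ fun τ y hc h => h.elim fun x hx => third h0 hj hc x hx).trans
    (mul_le_mul_of_nonneg_left (mul_le_mul_of_nonneg_left (Br_le hL j) (by positivity))
      (by positivity))

variable (D : Dat Ω) {tb : ℝ}

theorem Sf_eq (c d e f : Fin 6) (τ : SM 6) : D.Sf c d e f τ =
    Site94.SF D.T (fun _ : Fin 3 => D.q) ![4, c, e] ![5, d, f] Finset.univ τ :=
  congrArg (TM (fun _ => 1) D.T 0 τ) (funext fun x => by rw [Fin.prod_univ_three]; rfl)

theorem len_T (H : D.Ok tb) : D.T.length = D.K := (Cav22.len_tilt H.tilt).symm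

theorem abs_q (H : D.Ok tb) {y : ℕ} (hy : y ≤ D.K) : |D.q y| ≤ 1 :=
  (abs_of_nonneg (H.q01 y hy).1).trans_le (H.q01 y hy).2

theorem abs_Sf_le (H : D.Ok tb) {τ : SM 6} (hτ : Rz D.K τ) (c d e f : Fin 6) :
    |D.Sf c d e f τ| ≤ 8 := by
  rw [Sf_eq]
  exact (Site94.abs_SF_le (len_T D H ▸ hτ) fun _ _ => abs_q D H (hτ.le _ _)).trans_eq (by norm_num)

/-- three edges across one binary node -/
theorem abs_Sf_par (H : D.Ok tb) {τ : SM 6} (hτ : Rz D.K τ) {j : ℕ} (hj : j < D.K)
    {c d e f : Fin 6} (h0 : τ 4 5 = j) (h1 : τ c d = j) (h2 : τ e f = j)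
    (h3 : ∀ x, j < τ x 4 ∨ j < τ x 5) :
    |D.Sf c d e f τ| ≤ 8 * (min 1 (Ker15.PB 6 (D.sg j)) + D.q j) := by
  have hT : Rz D.T.length τ := len_T D H ▸ hτ
  have hq := H.q01 j hj.le
  have hm : 0 ≤ min 1 (Ker15.PB 6 (D.sg j)) := le_min zero_le_one (Ker15.PB_nonneg 6 (H.sg0 j))
  have lv : ∀ i : Fin 3, τ (![4, c, e] i) (![5, d, f] i) = j := fun i => by
    fin_cases i
    exacts [h0, h1, h2]
  have cr : ∀ a b, τ a b = j → Site94.Crs τ 4 j a b := fun a b hab => by
    have u1 := hτ.ultra a 4 b; have u2 := hτ.ultra a 5 b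
    have := hτ.comm 4 a; have := hτ.comm 4 b; have := hτ.comm 5 b
    have := h3 a; have := h3 b
    unfold Site94.Crs
    omega
  rw [Sf_eq]
  refine (Site94.SF_le (c := min 1 (Ker15.PB 6 (D.sg j)) + D.q j) fun A _ => ?_).trans_eq
    (by norm_num)
  by_cases hA : A = Finset.univ
  · subst hA
    refine (mul_le_of_le_one_left (abs_nonneg _) (by simp)).trans
      (le_add_of_le_of_nonneg (le_min (Site94.abs_TM_mo hT 0 _) ?_) hq.1)
    refine Site94.par1M H.r1.rk (Cav22.mono_tilt H.tilt H.mono) hT _ 4 (H.sg0 j) j ?_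
      (Ker15.tm_eq H.r1.rk j ▸ H.sgt j)
    rw [Nat.odd_iff, Site94.bdM_dg, Finset.filter_true_of_mem fun i _ => cr _ _ (lv i)]
    rfl
  · obtain ⟨i, hi⟩ : ∃ i, i ∈ Finset.univ \ A := by
      by_contra h
      exact hA (Finset.eq_univ_of_forall fun i => by
        by_contra hi
        exact h ⟨i, Finset.mem_sdiff.2 ⟨Finset.mem_univ i, hi⟩⟩)
    refine (mul_le_of_le_one_right (abs_nonneg _) (Site94.abs_TM_mo hT 0 _)).trans ?_
    rw [← Finset.mul_prod_erase _ _ hi, abs_mul, abs_neg, Finset.abs_prod, lv,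
      abs_of_nonneg hq.1]
    refine (mul_le_of_le_one_right hq.1 (Finset.prod_le_one (fun _ _ => abs_nonneg _)
      fun i _ => ?_)).trans (le_add_of_nonneg_left hm)
    rw [abs_neg]
    exact abs_q D H (hτ.le _ _)

/-- **E-b, local form**: only the weight of the test level enters -/
theorem eb (H : D.Ok tb) {j : ℕ} (hj : j < D.K) {c d e f : Fin 6} (hcd : c ≠ d) (hef : e ≠ f) :
    |D.A j fun τ => if τ c d = j ∧ τ e f = j then
      (D.Bf c d e f τ - D.t j ^ 2 * D.rt2 j) * D.Sf c d e f τ else 0| ≤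
      3840 * (tb ^ 2 * (D.pz j * D.V j)) + 61440 * (D.t j ^ 2 * dm D.L 0 j) := by
  classical
  have h0 := rz_tw D.K j
  have hV := mul_nonneg (sq_nonneg tb) (V_nonneg D H.wt j)
  have hq := H.q01 j hj.le
  have hm : 0 ≤ min 1 (Ker15.PB 6 (D.sg j)) := le_min zero_le_one (Ker15.PB_nonneg 6 (H.sg0 j))
  have hb : ∀ a : Fin 2, j ≤ tw D.K j a 0 := fun a => by
    fin_cases a
    · exact hj.le
    · exact ((h0.comm 1 0).trans (tw_01 hj.le)).ge
  have w1 := avc_far (r := 1) H.mono h0 hj.le hb 4 hcd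
  have w2 := avc_far (r := 1) H.mono h0 hj.le hb 4 hef
  have w3 := avc_third (r := 1) H.mono h0 hj 4
  have key := (abs_avc_le (r := 1) H.mono h0 4 fun τ : SM 6 => if τ c d = j ∧ τ e f = j then
      (D.Bf c d e f τ - D.t j ^ 2 * D.rt2 j) * D.Sf c d e f τ else 0).trans
    (avc_mono' H.mono h0 4 (ψ := fun τ : SM 6 =>
      tb ^ 2 * D.V j * (8 * (min 1 (Ker15.PB 6 (D.sg j)) + D.q j)) +
      tb ^ 2 * D.V j * 8 * (if ∃ x, ∀ a : Fin 2, τ x (old 4 a) ≤ j then 1 else 0) +
      D.t j ^ 2 * 8 * 8 * (if τ c d = j ∧ τ c (old (r := 1) 4 0) < j then 1 else 0) +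
      D.t j ^ 2 * 8 * 8 * (if τ e f = j ∧ τ e (old (r := 1) 4 0) < j then 1 else 0))
      fun τ hτ ho => by
        have h45 : τ 4 5 = j := (ho 0 1).trans (tw_01 hj.le)
        have p0 : 0 ≤ tb ^ 2 * D.V j * (8 * (min 1 (Ker15.PB 6 (D.sg j)) + D.q j)) :=
          mul_nonneg hV (by linarith [hq.1])
        have p1 : 0 ≤ tb ^ 2 * D.V j * 8 *
            (if ∃ x, ∀ a : Fin 2, τ x (old 4 a) ≤ j then 1 else 0) := by positivity
        have p2 : 0 ≤ D.t j ^ 2 * 8 * 8 *
            (if τ c d = j ∧ τ c (old (r := 1) 4 0) < j then 1 else 0) := by positivity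
        have p3 : 0 ≤ D.t j ^ 2 * 8 * 8 *
            (if τ e f = j ∧ τ e (old (r := 1) 4 0) < j then 1 else 0) := by positivity
        by_cases hE : τ c d = j ∧ τ e f = j
        swap
        · rw [if_neg hE, abs_zero]
          linarith
        rw [if_pos hE, abs_mul]
        have s8 := abs_Sf_le D H hτ c d e f
        have fr := mul_le_mul (Bf_far' D H hτ hcd hef hE.1 hE.2) s8 (abs_nonneg _) (by positivity)
        by_cases f1 : τ c (old (r := 1) 4 0) < j
        · rw [if_pos (show τ c d = j ∧ _ from ⟨hE.1, f1⟩)]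
          linarith
        by_cases f2 : τ e (old (r := 1) 4 0) < j
        · rw [if_pos (show τ e f = j ∧ _ from ⟨hE.2, f2⟩)]
          linarith
        have hce : j ≤ τ c e := by
          have := hτ.ultra c (old (r := 1) 4 0) e
          rw [hτ.comm _ e] at this
          omega
        have nr := Bf_near' D H hτ hcd hef hE.1 hE.2 hce
        by_cases f3 : ∃ x, ∀ a : Fin 2, τ x (old 4 a) ≤ j
        · have := mul_le_mul nr s8 (abs_nonneg _) hV
          rw [if_pos f3]
          linarith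
        · have := mul_le_mul nr (abs_Sf_par D H hτ hj h45 hE.1 hE.2 fun x => by
            by_contra hx
            rw [not_or, not_lt, not_lt] at hx
            exact f3 ⟨x, Fin.forall_fin_two.2 hx⟩) (abs_nonneg _) hV
          linarith)
  rw [avc_add, avc_add, avc_add, avc_const, avc_mul, avc_mul, avc_mul] at key
  have e1 : ((1 + 1).ascFactorial 4 : ℝ) = 120 := by norm_num [Nat.ascFactorial]
  rw [e1] at w1 w2 w3
  have a1 := mul_le_mul_of_nonneg_left w1 (show 0 ≤ D.t j ^ 2 * 8 * 8 by positivity)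
  have a2 := mul_le_mul_of_nonneg_left w2 (show 0 ≤ D.t j ^ 2 * 8 * 8 by positivity)
  have a3 := mul_le_mul_of_nonneg_left w3 (show 0 ≤ tb ^ 2 * D.V j * 8 by positivity)
  have a4 := mul_nonneg hV (add_nonneg hm hq.1)
  push_cast at a1 a2 a3
  unfold Dat.A Dat.pz
  refine key.trans ?_
  nlinarith

/-- **leaf E-b** -/
theorem ebS : EbS := fun tb => ⟨61440 * tb ^ 2, by positivity, fun Ω _ D H j hj hms =>
  ⟨V_nonneg D H.wt j, fun c d e f hcd hef => (eb D H hj hcd hef).trans (by
    have h1 : 0 ≤ tb ^ 2 * (D.pz j * D.V j) := mul_nonneg (sq_nonneg _) (mul_nonneg (add_nonneg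
      (add_nonneg (le_min zero_le_one (Ker15.PB_nonneg 6 (H.sg0 j))) (H.q01 j hj.le).1)
        (Nu87.ex_nonneg H.mono j)) (V_nonneg D H.wt j))
    have h2 : D.t j ^ 2 * dm D.L 0 j ≤ tb ^ 2 * D.ms :=
      mul_le_mul (sq_t_le D H j) hms (dm_nonneg H.mono j) (sq_nonneg _)
    nlinarith)⟩⟩

end Crest.Agent.T156.Cas.Eb31

end
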