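import Crest.Agent.T156.StUD_67
import Crest.Agent.T156.Cub_94
import Crest.Agent.T156.C3n_47
import Crest.Agent.T156.Eb_31

/-!
# Row 156, block C: `RegHi` of `StUD_67` (helper10)

Both edges at or above the marked node `j`: Hölder when both are above, site parity when one is
at depth `j`, the compensator when both sit at the marked node, the weight of a second node of
depth `j` otherwise.
-/

set_option autoImplicit false
set_option linter.all false

noncomputable section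

namespace Crest.Agent.T156.Cas.Su67.H10

open MeasureTheory Real Set Filter Topology
open Crest.Agent.T157.E Crest.Agent.T157.Casc Crest.Agent.T157.SL
open Crest.ProbabilityR.SpinGlassDynamics (spin)
open Mul55 C40 G90 Nu87
open Ck32 (TB lenB lenS)
open Wp52 (Br Br_one Br_nonneg Br_mul Br_add)

variable {D : CD} {τ0 : ℝ} {r : ℕ} {σ : SM r}

theorem abs_tu (h : D.Ok τ0) (t : ℕ) : |tu D t| ≤ τ0 / 2 := by
  have := h.tau_mem t
  unfold tu
  split_ifs
  · rw [abs_of_nonneg (by linarith)]; linarith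
  · rw [abs_zero]; linarith

theorem TS_two (u u' : ℕ → ℝ) (p q p' q' : Fin r) :
    Ck32.TS D σ (fun x => oE u (σ p q) (x p) (x q) * oE u' (σ p' q') (x p') (x q')) =
      Site94.SF D.S ![u, u'] ![p, p'] ![q, q'] Finset.univ σ :=
  congrArg (TM (fun _ => 1) D.S 0 σ) (funext fun x => by rw [Fin.prod_univ_two]; rfl)

theorem abs_cf (h : D.Ok τ0) (hσ : Rz D.B.length σ) (p q p' q' : Fin r) :
    |cf D σ p q p' q'| ≤ τ0 ^ 2 := by
  have h0 := h.tau0
  have h1 := Site94.abs_SF_le (L := D.S) (B := Finset.univ) (q := ![D.q, D.q]) (p := ![p, p'])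
    (p' := ![q, q']) (lenS (D := D) ▸ hσ) fun e _ => by
      revert e
      exact Fin.forall_fin_two.2 ⟨fun _ => Ck32.abs_q_le h (hσ.le _ _),
        fun _ => Ck32.abs_q_le h (hσ.le _ _)⟩
  rw [← TS_two, Finset.card_univ, Fintype.card_fin] at h1
  rw [cf, abs_mul, abs_mul]
  exact (mul_le_mul (mul_le_mul (abs_tu h _) (abs_tu h _) (abs_nonneg _) (by positivity)) h1
    (abs_nonneg _) (by positivity)).trans_eq (by ring)

theorem cf_comm (p q p' q' : Fin r) : cf D σ p q p' q' = cf D σ p' q' p q := by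
  simp only [cf, mul_comm (tu D (σ p q)), mul_comm (oE D.q (σ p q) _ _)]

/-- the constant of the parity bound -/
def cq (r : ℕ) (τ0 : ℝ) : ℝ := τ0 ^ 2 * (Site94.cP r 2 + 1) + τ0

theorem cq0 (h : 0 ≤ τ0) (r : ℕ) : 0 ≤ cq r τ0 := by
  have := Site94.cP_nonneg r 2
  unfold cq
  positivity

/-- **one edge at depth `j`, the other one above** -/
theorem cf_par (h : D.Ok τ0) (hσ : Rz D.B.length σ) {p q p' q' : Fin r} {j : ℕ} (hj : j ∈ D.up)
    (h1 : σ p q = j) (h2 : j < σ p' q') : |cf D σ p q p' q'| ≤ cq r τ0 * D.e j := by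
  have h0 := h.tau0
  have he := h.e0 j
  have hc := Site94.cP_nonneg r 2
  obtain ⟨hJ, hK⟩ := CD.mem_up.1 hj
  have hs := h.sig0 hK.le
  have hes : min 1 (D.sig j) ≤ D.e j :=
    (min_le_min le_rfl (le_add_of_nonneg_left (h.ex0 j))).trans (h.esc j hj)
  rcases le_total 1 (D.sig j) with h3 | h3
  · rw [min_eq_left h3] at hes
    refine (abs_cf h hσ _ _ _ _).trans ?_
    unfold cq
    nlinarith [mul_le_mul_of_nonneg_left hes (sq_nonneg τ0), mul_nonneg (mul_nonneg (sq_nonneg τ0) hc) he,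
      mul_nonneg h0 he]
  rw [min_eq_right h3] at hes
  have key : ∀ ε : ℝ, 0 < ε → ε ≤ 1 →
      |Ck32.TS D σ fun x => oE (fun _ => 0) (σ p q) (x p) (x q) * oE D.q (σ p' q') (x p') (x q')| ≤
        4 * Site94.cP r 2 * (D.sig j + ε) := fun ε e0 e1 => by
    have hp : 0 < D.sig j + ε := by positivity
    have := Site94.SF_odd (L := D.S) (ℓ := opV D.n D.β D.M D.q) (B := Finset.univ)
      (q := ![fun _ => 0, D.q]) (p := ![p, p']) (p' := ![q, q'])
      (C.forall₂_sl spin (opV_nn h.ook)) (Cav22.mono_tilt tilt_opS.symm h.mono)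
      (lenS (D := D) ▸ hσ) (fun e _ => by
        revert e
        exact Fin.forall_fin_two.2 ⟨fun _ => abs_zero.trans_le zero_le_one,
          fun _ => Ck32.abs_q_le h (hσ.le _ _)⟩) (j := j)
      ⟨p, by
        rw [Finset.card_filter, Fin.sum_univ_two, if_pos, if_neg]
        · exact odd_one
        · exact fun hc => absurd (hc.le hσ) (not_le.2 h2)
        · show ¬(j < σ p p ↔ j < σ p q)
          rw [hσ.self, lenB, h1]
          exact fun hc => lt_irrefl _ (hc.1 hK)⟩ hp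
      ((opV_acc hK.le).trans_le (le_add_of_nonneg_right e0.le)) (fun e _ => by
        revert e
        exact Fin.forall_fin_two.2 ⟨fun _ _ => abs_zero.trans_le hp.le,
          fun _ hc => absurd hc (not_le.2 h2)⟩)
    rw [← TS_two, Finset.card_univ, Fintype.card_fin] at this
    have h5 := mul_le_mul_of_nonneg_right (Site94.cP_mono r (show D.sig j + ε ≤ 2 by linarith)) hp.le
    linarith
  have hcont : Continuous fun ε : ℝ => 4 * Site94.cP r 2 * (D.sig j + ε) := by fun_prop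
  have h4 := (hcont.tendsto 0).mono_left (nhdsWithin_le_nhds (s := Ioi 0))
  simp only [add_zero] at h4
  have h5 := ge_of_tendsto h4 (by
    filter_upwards [Ioc_mem_nhdsGT (zero_lt_one' ℝ)] with ε h using key ε h.1 h.2)
  have h6 : |Ck32.TS D σ fun x => oE D.q (σ p' q') (x p') (x q')| ≤ 2 := by
    refine (Cub94.abs_TM_le wt_one90 (lenS (D := D) ▸ hσ) (G := fun _ => 2) fun x => ?_).trans_eq
      (TM_const wt_one90 (lenS (D := D) ▸ hσ) 2)
    exact abs_oE_le h.ook ((hσ.le _ _).trans_eq lenB) _ _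
  have e1 : Ck32.TS D σ (fun x => oE D.q (σ p q) (x p) (x q) * oE D.q (σ p' q') (x p') (x q')) =
      Ck32.TS D σ (fun x => oE (fun _ => 0) (σ p q) (x p) (x q) * oE D.q (σ p' q') (x p') (x q')) +
        -D.q j * Ck32.TS D σ fun x => oE D.q (σ p' q') (x p') (x q') := by
    simp only [Ck32.TS, ← TM_mul, ← TM_add]
    refine congrArg _ (funext fun x => ?_)
    simp only [oE, h1]
    ring
  have h7 : |tu D j| * |D.q j| ≤ D.e j / 2 := by
    rw [tu, if_pos hJ, abs_of_nonneg (by linarith [(h.tau_mem j).1]),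
      abs_of_nonneg (h.ook.mem hK.le).1]
    have := h.fAcc0 j
    unfold CD.sig at hes
    linarith
  have h8 := abs_tu h j
  have h9 := abs_tu h (σ p' q')
  rw [cf, e1, h1, mul_comm (tu D j), mul_assoc, abs_mul]
  refine (mul_le_mul h9 (b := τ0 / 2) (d := 2 * τ0 * Site94.cP r 2 * D.e j + D.e j) ?_ (abs_nonneg _)
    (by positivity)).trans ?_
  · rw [mul_add]
    refine (abs_add_le _ _).trans (add_le_add ?_ ?_)
    · rw [abs_mul]
      refine (mul_le_mul h8 (h5.trans (mul_le_mul_of_nonneg_left hes (by positivity)))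
        (abs_nonneg _) (by positivity)).trans_eq (by ring)
    · rw [← mul_assoc, abs_mul, abs_mul, abs_neg]
      exact (mul_le_mul h7 h6 (abs_nonneg _) (by positivity)).trans_eq (by ring)
  · unfold cq
    nlinarith [mul_nonneg (sq_nonneg τ0) he, mul_nonneg h0 he]

theorem T3_eq (a b p q p' q' : Fin r) : T3 D σ a b p q p' q' = TB D σ fun x =>
    ∏ i : Fin 3, oU D.q (σ (![a, p, p'] i) (![b, q, q'] i)) (x (![a, p, p'] i)) (x (![b, q, q'] i)) :=
  congrArg (TB D σ) (funext fun x => by rw [Fin.prod_univ_three, mul_assoc]; rfl)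

/-- Hölder -/
theorem T3_le (hσ : Rz D.B.length σ) {a b p q p' q' : Fin r} (h1 : a ≠ b) (h2 : p ≠ q)
    (h3 : p' ≠ q') : |T3 D σ a b p q p' q'| ≤ 4 * (D.g (σ a b) * (D.g (σ p q) * D.g (σ p' q'))) := by
  rw [T3_eq]
  refine (Cub94.TM_holder (B := Finset.univ) wt_one90 hσ (n := 3) (by simp)
    (u := fun i => D.g (σ (![a, p, p'] i) (![b, q, q'] i))) (fun _ _ => D.g0 _) fun i _ => ?_).trans_eq ?_
  · rw [D.g_cube]
    refine (Ck32.TB_pow hσ ?_ 3).le
    fin_cases i
    exacts [h1, h2, h3]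
  · rw [Fin.prod_univ_three, Finset.card_univ, Fintype.card_fin, mul_assoc (D.g _)]
    exact congrArg₂ _ (by norm_num) rfl

theorem T3_crude (h : D.Ok τ0) (hσ : Rz D.B.length σ) (a b p q p' q' : Fin r) :
    |T3 D σ a b p q p' q'| ≤ 8 := by
  refine (Ck32.abs_TB_le hσ (G := fun _ => 8) fun x => ?_).trans_eq (TM_const wt_one90 hσ 8)
  have k := fun u v : Fin r => abs_oU_le h.ook (lenB (D := D) ▸ hσ.le u v) (x u) (x v)
  rw [abs_mul, abs_mul]
  exact (mul_le_mul (k a b) (mul_le_mul (k p q) (k p' q') (abs_nonneg _) zero_le_two)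
    (by positivity) zero_le_two).trans_eq (by norm_num)

theorem u3_crude (h : D.Ok τ0) (hσ : Rz D.B.length σ) {a b : Fin r} (hab : a ≠ b) :
    |D.u3 (σ a b)| ≤ 8 := by
  have := T3_crude h hσ a b a b a b
  rwa [show T3 D σ a b a b a b = D.u3 (σ a b) from
    (congrArg (TB D σ) (funext fun x => by ring)).trans
      (TM_pair (h := 0) wt_one90 hσ hab fun x y => oU D.q (σ a b) x y ^ 3)] at this

/-- `g` above `j` -/
def GH (D : CD) (j t : ℕ) : ℝ := if j < t then D.g t else 0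

theorem GH0 (j t : ℕ) : 0 ≤ GH D j t := by
  unfold GH
  split_ifs
  exacts [D.g0 t, le_rfl]

/-- a second node of depth `j` -/
def far (σ : SM r) (j : ℕ) (b p q : Fin r) : ℝ := if σ p q = j ∧ σ p b < j then 1 else 0

theorem far0 (j : ℕ) (b p q : Fin r) : 0 ≤ far σ j b p q := by
  unfold far
  split_ifs <;> norm_num

/-- **pointwise bound** -/
theorem pt (h : D.Ok τ0) (hσ : Rz D.B.length σ) {a b p q p' q' : Fin r} (h1 : a ≠ b) (h2 : p ≠ q)
    (h3 : p' ≠ q') {j : ℕ} (hj : j ∈ D.up) (e : σ a b = j) :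
    |if σ a b ≤ σ p q ∧ σ a b ≤ σ p' q' then Ph D σ a b p q p' q' else 0| ≤
      4 * τ0 ^ 2 * D.g j * (GH D j (σ p q) * GH D j (σ p' q')) +
      4 * cq r τ0 * (D.e j * D.g j ^ 2) * (GH D j (σ p q) + GH D j (σ p' q')) +
      16 * τ0 ^ 2 * (far σ j b p q + far σ j b p' q') +
      τ0 ^ 2 * (48 * (D.e j * D.v j j) + 96 * D.tl) := by
  have n1 : 0 ≤ 4 * τ0 ^ 2 * D.g j * (GH D j (σ p q) * GH D j (σ p' q')) := by
    have := D.g0 j; have := GH0 (D := D) j (σ p q); have := GH0 (D := D) j (σ p' q'); positivity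
  have c0 : 0 ≤ 4 * cq r τ0 * (D.e j * D.g j ^ 2) := by
    have := cq0 h.tau0 r; have := h.e0 j; positivity
  have n2 := mul_nonneg c0 (GH0 (D := D) j (σ p q))
  have n2' := mul_nonneg c0 (GH0 (D := D) j (σ p' q'))
  have n3 := mul_nonneg (show 0 ≤ 16 * τ0 ^ 2 by positivity) (far0 (σ := σ) j b p q)
  have n3' := mul_nonneg (show 0 ≤ 16 * τ0 ^ 2 by positivity) (far0 (σ := σ) j b p' q')
  have n4 : 0 ≤ τ0 ^ 2 * (48 * (D.e j * D.v j j) + 96 * D.tl) := by
    have := h.e0 j; have := D.v0 j j; have := h.tl0; positivity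
  rw [mul_add (4 * cq r τ0 * _), mul_add (16 * τ0 ^ 2)]
  split_ifs with hc
  swap
  · rw [abs_zero]; linarith
  have hT := T3_le (D := D) hσ h1 h2 h3
  have hf := abs_cf h hσ p q p' q'
  rw [e] at hc hT
  rw [Ph, abs_mul, kp, e]
  rcases hc.1.lt_or_eq with l1 | l1 <;> rcases hc.2.lt_or_eq with l2 | l2
  · rw [if_neg fun hh => l1.ne' hh.1, sub_zero]
    have := mul_le_mul hf hT (abs_nonneg _) (sq_nonneg _)
    rw [← show GH D j (σ p q) = D.g (σ p q) from if_pos l1,
      ← show GH D j (σ p' q') = D.g (σ p' q') from if_pos l2] at this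
    linarith
  · rw [if_neg fun hh => l1.ne' hh.1, sub_zero, cf_comm]
    have := mul_le_mul (cf_par h hσ hj l2.symm l1) hT (abs_nonneg _)
      (mul_nonneg (cq0 h.tau0 r) (h.e0 j))
    rw [show D.g (σ p' q') = D.g j from congrArg _ l2.symm,
      ← show GH D j (σ p q) = D.g (σ p q) from if_pos l1] at this
    linarith
  · rw [if_neg fun hh => l2.ne' hh.2, sub_zero]
    have := mul_le_mul (cf_par h hσ hj l1.symm l2) hT (abs_nonneg _)
      (mul_nonneg (cq0 h.tau0 r) (h.e0 j))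
    rw [show D.g (σ p q) = D.g j from congrArg _ l1.symm,
      ← show GH D j (σ p' q') = D.g (σ p' q') from if_pos l2] at this
    linarith
  · rw [if_pos ⟨l1.symm, l2.symm⟩]
    have cr : |cf D σ p q p' q'| * |T3 D σ a b p q p' q' - D.u3 j| ≤ 16 * τ0 ^ 2 :=
      (mul_le_mul hf ((abs_sub _ _).trans (add_le_add (T3_crude h hσ _ _ _ _ _ _)
        (e ▸ u3_crude h hσ h1))) (abs_nonneg _) (sq_nonneg _)).trans_eq (by ring)
    by_cases f1 : σ p b < j
    · rw [show far σ j b p q = 1 from if_pos ⟨l1.symm, f1⟩]; linarith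
    by_cases f2 : σ p' b < j
    · rw [show far σ j b p' q' = 1 from if_pos ⟨l2.symm, f2⟩]; linarith
    have hab : ∀ i : Fin 3, σ (![a, p, p'] i) (![b, q, q'] i) = j := fun i => by
      fin_cases i
      exacts [e, l1.symm, l2.symm]
    have k : ∀ c, ¬σ c b < j → j ≤ σ a c := fun c hc => by
      have := hσ.ultra a b c
      rw [hσ.comm b c] at this
      omega
    have := C3n47.cd3 h hσ (a := ![a, p, p']) (b := ![b, q, q']) hj hab fun i => by
      fin_cases i
      · exact e ▸ (hσ.le a b).trans_eq (hσ.self a).symm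
      · exact k p f1
      · exact k p' f2
    rw [show (TB D σ fun x => ∏ i : Fin 3, oU D.q j (x (![a, p, p'] i)) (x (![b, q, q'] i))) =
      T3 D σ a b p q p' q' by simp only [T3_eq, hab]] at this
    linarith [mul_le_mul hf this (abs_nonneg _) (sq_nonneg _)]

theorem Br_hi (h : D.Ok τ0) (a : ℕ → ℝ) (j : ℕ) :
    Br D.B (fun t => if j < t then a t else 0) = D.hi a j := by
  rw [Br, lenB, Finset.sum_range_succ, show dm D.B 0 D.K = 0 from h.top, zero_mul, add_zero]
  simp only [mul_ite, mul_zero]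
  rw [← Finset.sum_filter, CD.hi]
  refine Finset.sum_congr (Finset.ext fun t => ?_) fun _ _ => rfl
  simp only [Finset.mem_filter, Finset.mem_range, Finset.mem_Ioo]
  exact and_comm

theorem Br_sq (h : D.Ok τ0) (G : ℕ → ℝ) : Br D.B G * Br D.B G ≤ Br D.B fun v => G v * G v := by
  have := Br_nonneg h.mono (g := fun v => G v * G v + (-2 * Br D.B G * G v + Br D.B G ^ 2))
    fun v _ => by nlinarith [sq_nonneg (G v - Br D.B G)]
  rw [Br_add, Br_add, Br_mul, Site94.Br_const] at this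
  nlinarith

variable {k j : ℕ}

theorem w2 (h : D.Ok τ0) (hj : j ≤ D.B.length) {p q p' q' : Fin (1 + k + 1)} (h2 : p ≠ q)
    (h3 : p' ≠ q') : avc D.B (tw D.B.length j) k (fun σ => GH D j (σ p q) * GH D j (σ p' q')) ≤
      (3 * (1 + k)) ^ k * (3 * D.hi (fun t => D.g t ^ 2) j) := by
  refine (Ck32.avc_w2 h.mono hj k (GH0 j) (GH0 j) h2 h3).trans
    (mul_le_mul_of_nonneg_left ?_ (by positivity))
  have h1 := Br_sq h (GH D j)
  have e : (Br D.B fun v => GH D j v * GH D j v) = D.hi (fun t => D.g t ^ 2) j := by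
    rw [← Br_hi h]
    refine congrArg _ (funext fun v => ?_)
    unfold GH
    split_ifs <;> ring
  rw [show GH D j j = 0 from if_neg (lt_irrefl j), zero_add]
  linarith

theorem w1 (h : D.Ok τ0) (hj : j ≤ D.B.length) {p q : Fin (1 + k + 1)} (h2 : p ≠ q) :
    avc D.B (tw D.B.length j) k (fun σ => GH D j (σ p q)) ≤ (3 * (1 + k)) ^ k * (4 * D.hi D.g j) := by
  have := Ck32.avc_w2 h.mono hj k (g := fun _ => 1) (fun _ => zero_le_one) (GH0 (D := D) j) h2 h2
  simp only [one_mul, Br_one] at this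
  rw [show GH D j j = 0 from if_neg (lt_irrefl j), show Br D.B (GH D j) = D.hi D.g j from
    Br_hi h D.g j] at this
  exact this.trans_eq (by ring)

theorem w0 (h : D.Ok τ0) (hj : j ≤ D.B.length) {p q : Fin (1 + k + 1)} (h2 : p ≠ q) :
    avc D.B (tw D.B.length j) k (fun σ => far σ j (mb k) p q) ≤
      (1 + 1).ascFactorial k * (k * D.dx j) :=
  Eb31.avc_far h.mono (rz_tw D.B.length j) hj (Fin.forall_fin_two.2
    ⟨hj.trans_eq ((rz_tw D.B.length j).self 0).symm, (Ck32.tw_old _ j hj).ge⟩) k h2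

theorem aw_le (h : D.Ok τ0) {φ : SM (1 + k + 1) → ℝ} {a : ℕ → ℝ}
    (H : ∀ j ∈ D.up, |avc D.B (tw D.B.length j) k φ| ≤ a j) : |aw D k φ| ≤ D.Iw a := by
  have : aw D k φ = ∑ j ∈ D.up, D.om j * avc D.B (tw D.B.length j) k φ := by
    rw [Ck32.sum_up h]
    simp only [aw, avt, mo, ite_mul, zero_mul]
  rw [this]
  exact D.abs_sum_om H

end Crest.Agent.T156.Cas.Su67.H10

namespace Crest.Agent.T156.Cas.Su67

open Crest.Agent.T157.E Crest.Agent.T157.Casc Crest.Agent.T157.SL
open Mul55 C40 G90 Nu87 H10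

/-- **both edges at or above the marked node** -/
theorem regHi : RegHi := fun k p q p' q' h2 h3 => Bd.mk' fun τ0 => by
  set W : ℝ := (3 * (1 + k)) ^ k with hW'
  set A : ℝ := ((1 + 1).ascFactorial k : ℕ) * k with hA
  have W0 : 0 ≤ W := by positivity
  have A0 : 0 ≤ A := by positivity
  refine ⟨96 * τ0 ^ 2 + (W * (12 * τ0 ^ 2 + 32 * cq (1 + k + 1) τ0) + 48 * τ0 ^ 2 + 32 * τ0 ^ 2 * A),
    fun D h hW => ?_⟩
  have c0 := cq0 h.tau0 (1 + k + 1)
  have c1 : 0 ≤ W * (12 * τ0 ^ 2 + 32 * cq (1 + k + 1) τ0) := by positivity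
  refine (aw_le h (a := fun j => W * (12 * τ0 ^ 2 + 32 * cq (1 + k + 1) τ0) *
      (D.e j * D.g j ^ 2 * D.hi D.g j + D.g j * D.hi (fun t => D.g t ^ 2) j) +
      48 * τ0 ^ 2 * (D.e j * D.v j j) + 32 * τ0 ^ 2 * A * D.dx j + 96 * τ0 ^ 2 * D.tl)
    fun j hj => ?_).trans (h.Iw_split hW (by positivity) (by positivity)
      (mul_le_mul_of_nonneg_left h.tl_le (by positivity)) ?_)
  · have hK : j ≤ D.B.length := D.B_len ▸ (CD.mem_up.1 hj).2.le
    refine (Site94.abs_avc_le h.mono (rz_tw D.B.length j) k fun σ hσ ho =>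
      pt h hσ (a := ma k) (b := mb k) (Ck32.mk_ne k) h2 h3 hj ((ho 1 0).trans (Ck32.tw_old _ j hK))).trans ?_
    simp only [avc_add, avc_mul, avc_const]
    have g0 := D.g0 j
    have e0 := h.e0 j
    have a1 := mul_le_mul_of_nonneg_left (w2 h hK h2 h3) (show 0 ≤ 4 * τ0 ^ 2 * D.g j by positivity)
    have a2 := mul_le_mul_of_nonneg_left (add_le_add (w1 h hK h2) (w1 h hK h3))
      (show 0 ≤ 4 * cq (1 + k + 1) τ0 * (D.e j * D.g j ^ 2) by positivity)
    have a3 := mul_le_mul_of_nonneg_left (add_le_add (w0 h hK h2) (w0 h hK h3))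
      (show 0 ≤ 16 * τ0 ^ 2 by positivity)
    obtain ⟨b1, -, b2, -⟩ := h.Cub_parts j
    have b3 : 0 ≤ W * (12 * τ0 ^ 2) * (D.e j * D.g j ^ 2 * D.hi D.g j) := by positivity
    have b4 : 0 ≤ W * (32 * cq (1 + k + 1) τ0) * (D.g j * D.hi (fun t => D.g t ^ 2) j) := by
      positivity
    rw [← hW'] at a1 a2
    rw [← mul_assoc _ (k : ℝ), ← hA] at a3
    linarith
  · rw [D.Iw_add, D.Iw_add, D.Iw_mul, D.Iw_mul, D.Iw_mul, add_mul, add_mul]
    refine add_le_add (add_le_add (mul_le_mul_of_nonneg_left (le_trans (D.Iw_mono fun j _ => ?_)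
      h.Cub_le) c1) (mul_le_mul_of_nonneg_left (le_trans (D.Iw_mono fun j _ => ?_) h.Lad1_le)
      (by positivity))) (mul_le_mul_of_nonneg_left h.Iwdx_le (by positivity))
    · obtain ⟨-, -, -, b1, b2⟩ := h.Cub_parts j
      exact add_le_add le_rfl (mul_le_mul_of_nonneg_left (by linarith) (D.g0 j))
    · exact le_add_of_nonneg_right (h.sv_low0 _ _)

end Crest.Agent.T156.Cas.Su67

end

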