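import Crest.Agent.T156.StUD_67
import Crest.Agent.T156.Cub_94

/-!
# Row 156, block C: `tU [aU, aU]`, an edge below the marked node (helper32)
-/

set_option autoImplicit false
set_option linter.all false

noncomputable section

namespace Crest.Agent.T156.Cas.Su67

open MeasureTheory Real Set Filter Topology
open Crest.Agent.T157.E Crest.Agent.T157.Casc Crest.Agent.T157.SL
open Crest.ProbabilityR.SpinGlassDynamics (spin)
open Mul55 C40 G90 Nu87 Ck32
open Wp52 (Br Br_one Br_nonneg Br_mul Br_add Br_le Br_mono)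

variable {D : CD} {τ0 : ℝ} {r k : ℕ}

namespace L32

/-- parity at any cut `t`, references vanishing on the crossing edges -/
theorem SF_min (H : D.Ok τ0) {σ : SM r} (hσ : Rz D.B.length σ) {ι : Type} [DecidableEq ι]
    {q : ι → ℕ → ℝ} {p p' : ι → Fin r} {B : Finset ι}
    (h1 : ∀ e ∈ B, |q e (σ (p e) (p' e))| ≤ 1) {t : ℕ} (ht : t ≤ D.K)
    (ho : Site94.OddAt σ p p' B t)
    (hq : ∀ e ∈ B, σ (p e) (p' e) ≤ t → q e (σ (p e) (p' e)) = 0) :
    |Site94.SF D.S q p p' B σ| ≤ 2 ^ B.card * Site94.cP r 2 * min 1 (D.sig t) := by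
  have hc := Site94.cP_nonneg r 2
  have h0 := H.sig0 ht
  rcases le_total 1 (D.sig t) with h | h
  · rw [min_eq_left h, mul_one]
    exact (Site94.abs_SF_le (lenS (D := D) ▸ hσ) h1).trans (le_mul_of_one_le_right (by positivity)
      (Site94.one_le_cP ho.choose 2))
  rw [min_eq_right h]
  have key : ∀ ε : ℝ, 0 < ε → ε ≤ 1 →
      |Site94.SF D.S q p p' B σ| ≤ 2 ^ B.card * Site94.cP r 2 * (D.sig t + ε) := fun ε e0 e1 => by
    have hp : 0 < D.sig t + ε := by positivity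
    have := Site94.SF_odd (L := D.S) (ℓ := opV D.n D.β D.M D.q)
      (C.forall₂_sl spin (opV_nn H.ook)) (Cav22.mono_tilt tilt_opS.symm H.mono)
      (lenS (D := D) ▸ hσ) h1 ho hp ((opV_acc ht).trans_le (le_add_of_nonneg_right e0.le))
      fun e he hj => by rw [hq e he hj, abs_zero]; exact hp.le
    rw [mul_assoc]
    exact this.trans (mul_le_mul_of_nonneg_left (mul_le_mul_of_nonneg_right
      (Site94.cP_mono r (by linarith)) hp.le) (by positivity))
  have hc : Continuous fun ε : ℝ => 2 ^ B.card * Site94.cP r 2 * (D.sig t + ε) := by fun_prop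
  have := (hc.tendsto 0).mono_left (nhdsWithin_le_nhds (s := Ioi 0))
  simp only [add_zero] at this
  exact ge_of_tendsto this (by
    filter_upwards [Ioc_mem_nhdsGT (zero_lt_one' ℝ)] with ε h using key ε h.1 h.2)

theorem min_sig (H : D.Ok τ0) {t : ℕ} (ht : t ∈ D.up) : min 1 (D.sig t) ≤ D.e t :=
  (min_le_min le_rfl (le_add_of_nonneg_left (H.ex0 t))).trans (H.esc t ht)

theorem ex_e (H : D.Ok τ0) {t : ℕ} (ht : t ∈ D.up) : ex D.B t ≤ D.e t := by
  have h1 : ex D.B t ≤ 1 := by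
    rw [← H.sum_dx]
    exact H.sum_dx_one fun i hi => (Nat.lt_succ_iff.1 (Finset.mem_range.1 hi)).trans
      (Finset.mem_Ioo.1 ht).2.le
  exact (le_min h1 (le_add_of_nonneg_right (H.sig0 (Finset.mem_Ioo.1 ht).2.le))).trans
    (H.esc t ht)

theorem tu_mem (H : D.Ok τ0) (t : ℕ) : 0 ≤ tu D t ∧ tu D t ≤ |τ0| := by
  obtain ⟨h0, h1⟩ := tau_le H t
  unfold tu
  split_ifs
  · constructor <;> linarith
  · exact ⟨le_rfl, abs_nonneg _⟩

/-- the reference times `τ` is at most the scale -/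
theorem tu_q (H : D.Ok τ0) {t : ℕ} (ht : t ∈ D.up) : tu D t * D.q t ≤ (1 + |τ0|) * D.e t := by
  obtain ⟨h0, h1⟩ := tau_le H t
  have hq := H.ook.mem (Finset.mem_Ioo.1 ht).2.le
  have h2 : D.τ t * D.q t ≤ D.sig t := le_add_of_nonneg_right (H.fAcc0 t)
  have h3 := mul_le_mul h1 hq.2 hq.1 (abs_nonneg _)
  have h4 := mul_nonneg h0 hq.1
  refine le_trans ?_ (mul_le_mul_of_nonneg_left (min_sig H ht) (by positivity))
  rw [tu, if_pos (Finset.mem_Ioo.1 ht).1]
  rcases le_total 1 (D.sig t) with h | h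
  · rw [min_eq_left h]; linarith
  · rw [min_eq_right h]; nlinarith [abs_nonneg τ0]

theorem abs_TS_le {σ : SM r} (hσ : Rz D.B.length σ) {F : (Fin r → Bool) → ℝ} {c : ℝ}
    (e : ∀ x, |F x| ≤ c) : |Ck32.TS D σ F| ≤ c :=
  (Cub94.abs_TM_le wt_one90 (lenS (D := D) ▸ hσ) e).trans_eq
    (TM_const wt_one90 (lenS (D := D) ▸ hσ) c)

theorem abs_et {q : ℝ} (h : |q| ≤ 1) (a b : Bool) : |spin a * spin b - q| ≤ 2 := by
  have := OneP.abs_spin2 a b
  exact (abs_sub _ _).trans (by linarith)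

end L32

open L32

/-- crude bound of the site coefficient -/
theorem cf_le (H : D.Ok τ0) {σ : SM r} (hσ : Rz D.B.length σ) (p q p' q' : Fin r) :
    |cf D σ p q p' q'| ≤ 4 * |τ0| ^ 2 := by
  have h1 := tu_mem H (σ p q)
  have h2 := tu_mem H (σ p' q')
  have h3 := abs_TS_le (D := D) hσ (c := 2 * 2) (F := fun x =>
    oE D.q (σ p q) (x p) (x q) * oE D.q (σ p' q') (x p') (x q')) fun x => by
      rw [abs_mul]
      exact mul_le_mul (abs_et (abs_q_le H (hσ.le _ _)) _ _) (abs_et (abs_q_le H (hσ.le _ _)) _ _)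
        (abs_nonneg _) zero_le_two
  rw [cf, abs_mul, abs_of_nonneg (mul_nonneg h1.1 h2.1)]
  refine (mul_le_mul (mul_le_mul h1.2 h2.2 h2.1 (abs_nonneg _)) h3 (abs_nonneg _)
    (by positivity)).trans_eq (by ring)

/-- the constant of the parity bound -/
def cPar (τ0 : ℝ) (r : ℕ) : ℝ := 4 * Site94.cP r 2 * |τ0| ^ 2 + 4 * |τ0| * (1 + |τ0|)

theorem cPar_nonneg (τ0 : ℝ) (r : ℕ) : 0 ≤ cPar τ0 r := by
  have := Site94.cP_nonneg r 2
  unfold cPar
  positivity

/-- **parity**: a cluster above the cut `t` is crossed by exactly one of the two edges -/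
theorem cf_par (H : D.Ok τ0) {σ : SM r} (hσ : Rz D.B.length σ) {p q p' q' : Fin r} {t : ℕ}
    (ht : t ∈ D.up) (h1 : t ≤ σ p q) (h2 : t ≤ σ p' q') {a : Fin r}
    (ho : ¬(Site94.Crs σ a t p q ↔ Site94.Crs σ a t p' q')) :
    |cf D σ p q p' q'| ≤ cPar τ0 r * D.e t := by
  set Q : ℕ → ℝ := fun v => if v ≤ t then 0 else D.q v with hQ
  set d : ℕ → ℝ := fun v => if v ≤ t then D.q v else 0 with hd
  have hQ1 : ∀ b c, |Q (σ b c)| ≤ 1 := fun b c => by
    simp only [hQ]
    split_ifs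
    exacts [by simp, abs_q_le H (hσ.le _ _)]
  have he := H.e0 t
  have hdu : ∀ v, t ≤ v → |tu D v * d v| ≤ (1 + |τ0|) * D.e t := fun v hv => by
    simp only [hd]
    split_ifs with h
    · rw [le_antisymm h hv, abs_of_nonneg (mul_nonneg (tu_mem H t).1
        (H.ook.mem (Finset.mem_Ioo.1 ht).2.le).1)]
      exact tu_q H ht
    · rw [mul_zero, abs_zero]; positivity
  have hs := SF_min H hσ (ι := Fin 2) (q := fun _ => Q) (p := ![p, p']) (p' := ![q, q'])
    (B := Finset.univ) (fun e _ => hQ1 _ _) (Finset.mem_Ioo.1 ht).2.le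
    ⟨a, by
      rw [Finset.card_filter, Fin.sum_univ_two]
      simp only [Matrix.cons_val_zero, Matrix.cons_val_one]
      split_ifs with a1 a2 a2
      exacts [absurd (iff_of_true a1 a2) ho, odd_one, odd_one, absurd (iff_of_false a1 a2) ho]⟩
    fun e _ h => if_pos h
  have e1 : ∀ (v : ℕ) (x y : Bool), oE D.q v x y = Site94.et Q v x y - d v := fun v x y => by
    simp only [oE, Site94.et, hQ, hd]
    split_ifs <;> ring
  have e2 : cf D σ p q p' q' = tu D (σ p q) * tu D (σ p' q') *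
      Site94.SF D.S (fun _ : Fin 2 => Q) ![p, p'] ![q, q'] Finset.univ σ -
      tu D (σ p q) * d (σ p q) * (tu D (σ p' q') *
        Ck32.TS D σ fun x => Site94.et Q (σ p' q') (x p') (x q')) -
      tu D (σ p' q') * d (σ p' q') * (tu D (σ p q) *
        Ck32.TS D σ fun x => oE D.q (σ p q) (x p) (x q)) := by
    simp only [cf, Site94.SF, Ck32.TS, ← TM_mul, ← TM_sub, Fin.prod_univ_two, ed, Matrix.cons_val_zero,
      Matrix.cons_val_one]
    congr 1
    funext x
    rw [e1 (σ p' q'), e1 (σ p q)]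
    ring
  have u1 := tu_mem H (σ p q)
  have u2 := tu_mem H (σ p' q')
  have b1 := abs_TS_le (D := D) hσ (c := 2) (F := fun x => Site94.et Q (σ p' q') (x p') (x q'))
    fun x => abs_et (hQ1 _ _) _ _
  have b2 := abs_TS_le (D := D) hσ (c := 2) (F := fun x => oE D.q (σ p q) (x p) (x q))
    fun x => abs_et (abs_q_le H (hσ.le _ _)) _ _
  have hc := Site94.cP_nonneg r 2
  rw [Finset.card_univ, Fintype.card_fin] at hs
  have c1 := mul_le_mul (mul_le_mul u1.2 u2.2 u2.1 (abs_nonneg _))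
    (hs.trans (mul_le_mul_of_nonneg_left (min_sig H ht) (by positivity))) (abs_nonneg _)
    (by positivity)
  have c2 := mul_le_mul (hdu _ h1) (mul_le_mul u2.2 b1 (abs_nonneg _) (abs_nonneg _))
    (mul_nonneg u2.1 (abs_nonneg _)) (by positivity)
  have c3 := mul_le_mul (hdu _ h2) (mul_le_mul u1.2 b2 (abs_nonneg _) (abs_nonneg _))
    (mul_nonneg u1.1 (abs_nonneg _)) (by positivity)
  rw [e2]
  refine (abs_sub _ _).trans ((add_le_add (abs_sub _ _) le_rfl).trans ?_)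
  rw [abs_mul (_ * _), abs_mul (_ * _), abs_mul (_ * _), abs_mul (tu D _) (Ck32.TS D _ _),
    abs_mul (tu D _) (Ck32.TS D _ _), abs_of_nonneg (mul_nonneg u1.1 u2.1), abs_of_nonneg u1.1,
    abs_of_nonneg u2.1, cPar]
  linarith

/-- Hölder for three edges -/
theorem abs_T3 {σ : SM r} (hσ : Rz D.B.length σ) {a b p q p' q' : Fin r} (h0 : a ≠ b) (h1 : p ≠ q)
    (h2 : p' ≠ q') : |T3 D σ a b p q p' q'| ≤ 4 * (D.g (σ a b) * (D.g (σ p q) * D.g (σ p' q'))) := by
  have := Cub94.TM_holder (w := fun _ => 1) (Lb := D.B) (h := 0) wt_one90 hσ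
    (B := (Finset.univ : Finset (Fin 3))) (n := 3) (by simp)
    (f := fun i x => oU D.q (σ (![a, p, p'] i) (![b, q, q'] i)) (x (![a, p, p'] i))
      (x (![b, q, q'] i))) (u := fun i => D.g (σ (![a, p, p'] i) (![b, q, q'] i)))
    (fun _ _ => g_nonneg _) fun i _ => ((TB_pow hσ (by
      fin_cases i
      exacts [h0, h1, h2]) 3).trans (g_cube _).symm).le
  simp only [Fin.prod_univ_three, Finset.card_univ, Fintype.card_fin, mul_assoc] at this
  norm_num at this
  exact this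

/-- same two clusters, not the exception: the marked pair is a third branch -/
theorem out_of {K : ℕ} {σ : SM r} (hσ : Rz K σ) {a b p q p' q' : Fin r} (e : σ p' q' = σ p q)
    (hj : σ p q < σ a b) (hE : ¬Ex4 σ a b p q p' q')
    (h : ∀ x, Site94.Crs σ x (σ p q) p q ↔ Site94.Crs σ x (σ p q) p' q') :
    Site94.Out id σ p q := by
  have hK := hσ.le a b
  have hP := (h p).1 (by rw [Site94.Crs, hσ.self]; omega)
  have hQ := (h q).1 (by rw [Site94.Crs, hσ.self, hσ.comm q p]; omega)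
  refine ⟨a, ?_⟩
  have u1 := hσ.ultra a p p'
  have u2 := hσ.ultra a p q'
  have u3 := hσ.ultra a q p'
  have u4 := hσ.ultra a q q'
  have u5 := hσ.ultra p p' q
  have u6 := hσ.ultra p q' q
  rw [hσ.comm p' q] at u5
  rw [hσ.comm q' q] at u6
  simp only [Ex4, Ex, hσ.comm q p, hσ.comm q' p', Site94.Crs] at hE hP hQ
  rw [hσ.comm p a, hσ.comm q a, id]
  omega

namespace L32

/-- a function on the nodes between the cut and `j` -/
def mid (D : CD) (F : ℕ → ℝ) (j v : ℕ) : ℝ := if D.J < v ∧ v < j then F v else 0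

theorem mid_nonneg {F : ℕ → ℝ} (h : ∀ v, 0 ≤ F v) (j v : ℕ) : 0 ≤ mid D F j v := by
  unfold mid; split_ifs; exacts [h v, le_rfl]

theorem mid_self (F : ℕ → ℝ) (j : ℕ) : mid D F j j = 0 := if_neg fun h => lt_irrefl _ h.2

theorem Br_mid (F : ℕ → ℝ) {j : ℕ} (hj : j ≤ D.K) : Br D.B (mid D F j) = D.lw F j := by
  simp only [Br, mid, mul_ite, mul_zero]
  rw [← Finset.sum_filter, CD.lw]
  refine Finset.sum_congr (Finset.ext fun v => ?_) fun _ _ => rfl
  simp only [Finset.mem_filter, Finset.mem_range, lenB, Finset.mem_Ioo]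
  omega

theorem aw_le (H : D.Ok τ0) {φ : SM (1 + k + 1) → ℝ} {c : ℝ} {a : ℕ → ℝ}
    (h : ∀ j ∈ D.up, |avc D.B (tw D.B.length j) k φ| ≤ c * a j) : |aw D k φ| ≤ c * D.Iw a := by
  have e : aw D k φ = ∑ j ∈ D.up, D.om j * avc D.B (tw D.B.length j) k φ := by
    rw [sum_up H, aw, avt]
    simp only [mo, ite_mul, zero_mul]
  rw [e, ← Iw_mul]
  exact D.abs_sum_om h

/-- the pointwise bound -/
theorem pt (H : D.Ok τ0) {σ : SM r} (hσ : Rz D.B.length σ) {a b p q p' q' : Fin r} (h0 : a ≠ b)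
    (h1 : p ≠ q) (h2 : p' ≠ q') {j : ℕ} (hj : j ∈ D.up) (e : σ a b = j) :
    |if ¬(σ a b ≤ σ p q ∧ σ a b ≤ σ p' q') ∧ ¬Ex4 σ a b p q p' q'
      then cf D σ p q p' q' * T3 D σ a b p q p' q' else 0| ≤
      4 * (cPar τ0 r + 4 * |τ0| ^ 2) * D.g j *
        (mid D (fun v => D.e v * D.g v) j (σ p q) * upF D D.g (σ p' q') +
          mid D (fun v => D.e v * D.g v) j (σ p' q') * upF D D.g (σ p q) +
          if Site94.Out id σ p q then mid D (fun v => D.g v ^ 2) j (σ p q) else 0) := by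
  have heg : ∀ v, 0 ≤ D.e v * D.g v := fun v => mul_nonneg (H.e0 v) (g_nonneg v)
  have n1 := mul_nonneg (mid_nonneg (D := D) heg j (σ p q)) (upF_nonneg (D := D) (g_nonneg (D := D)) (σ p' q'))
  have n2 := mul_nonneg (mid_nonneg (D := D) heg j (σ p' q')) (upF_nonneg (D := D) (g_nonneg (D := D)) (σ p q))
  have n3 : 0 ≤ if Site94.Out id σ p q then mid D (fun v => D.g v ^ 2) j (σ p q) else 0 := by
    split_ifs
    exacts [mid_nonneg (fun _ => sq_nonneg _) _ _, le_rfl]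
  have hc := cPar_nonneg τ0 r
  have gj := g_nonneg (D := D) j
  have g1 := g_nonneg (D := D) (σ p q)
  have g2 := g_nonneg (D := D) (σ p' q')
  have n0 := mul_nonneg (show 0 ≤ 4 * (cPar τ0 r + 4 * |τ0| ^ 2) * D.g j by positivity)
    (add_nonneg (add_nonneg n1 n2) n3)
  by_cases hc1 : ¬(σ a b ≤ σ p q ∧ σ a b ≤ σ p' q') ∧ ¬Ex4 σ a b p q p' q'
  swap
  · rwa [if_neg hc1, abs_zero]
  rw [if_pos hc1]
  by_cases j1 : D.J < σ p q
  swap
  · rwa [cf, tu, if_neg j1, zero_mul, zero_mul, zero_mul, abs_zero]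
  by_cases j2 : D.J < σ p' q'
  swap
  · rwa [cf, tu.eq_1 D (σ p' q'), if_neg j2, mul_zero, zero_mul, zero_mul, abs_zero]
  have hT := abs_T3 (D := D) hσ h0 h1 h2
  obtain ⟨hc1, hE⟩ := hc1
  rw [e] at hT hc1
  have hjK := (Finset.mem_Ioo.1 hj).2
  have fin : ∀ {c y : ℝ}, 0 ≤ c → |cf D σ p q p' q'| ≤ c →
      c * (D.g (σ p q) * D.g (σ p' q')) ≤ (cPar τ0 r + 4 * |τ0| ^ 2) * y →
      |cf D σ p q p' q' * T3 D σ a b p q p' q'| ≤ 4 * (cPar τ0 r + 4 * |τ0| ^ 2) * D.g j * y :=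
    fun {c y} c0 c1 c2 => by
      rw [abs_mul]
      refine (mul_le_mul c1 hT (abs_nonneg _) c0).trans ?_
      nlinarith [mul_le_mul_of_nonneg_left c2 gj]
  have par1 : ∀ x, σ p q ≤ σ p' q' → σ p q < j →
      ¬(Site94.Crs σ x (σ p q) p q ↔ Site94.Crs σ x (σ p q) p' q') → _ := fun x l1 l2 ho =>
    fin (mul_nonneg hc (H.e0 _)) (cf_par H hσ (Finset.mem_Ioo.2 ⟨j1, l2.trans hjK⟩) le_rfl l1 ho)
      (y := mid D (fun v => D.e v * D.g v) j (σ p q) * upF D D.g (σ p' q')) (by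
        rw [mid, if_pos ⟨j1, l2⟩, upF, if_pos j2]
        nlinarith [mul_nonneg (mul_nonneg (heg (σ p q)) g2) (sq_nonneg |τ0|)])
  have mono : ∀ {y y' : ℝ}, y ≤ y' → 4 * (cPar τ0 r + 4 * |τ0| ^ 2) * D.g j * y ≤
      4 * (cPar τ0 r + 4 * |τ0| ^ 2) * D.g j * y' := fun h =>
    mul_le_mul_of_nonneg_left h (by positivity)
  have hK : ∀ x, σ x x = D.K := fun x => (hσ.self x).trans lenB
  rcases lt_trichotomy (σ p q) (σ p' q') with l | l | l
  · refine (par1 p l.le (by omega) fun h => ?_).trans (mono (by linarith))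
    exact absurd ((h.1 (by rw [Site94.Crs, hK]; omega)).le hσ) (not_le.2 l)
  · by_cases ho : ∀ x, Site94.Crs σ x (σ p q) p q ↔ Site94.Crs σ x (σ p q) p' q'
    · refine (fin (by positivity) (cf_le H hσ p q p' q')
        (y := mid D (fun v => D.g v ^ 2) j (σ p q)) ?_).trans (mono ?_)
      · rw [mid, if_pos ⟨j1, by omega⟩, ← l]
        nlinarith [mul_nonneg hc (sq_nonneg (D.g (σ p q)))]
      · rw [if_pos (out_of hσ l.symm (by omega) hE ho)]
        linarith
    · obtain ⟨x, hx⟩ := not_forall.1 ho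
      exact (par1 x l.le (by omega) hx).trans (mono (by linarith))
  · have l2 : σ p' q' < j := by omega
    refine (fin (mul_nonneg hc (H.e0 _)) (cf_par H hσ (Finset.mem_Ioo.2 ⟨j2, l2.trans hjK⟩) l.le
      le_rfl (a := p') fun h => ?_)
      (y := mid D (fun v => D.e v * D.g v) j (σ p' q') * upF D D.g (σ p q)) ?_).trans
      (mono (by linarith))
    · exact absurd ((h.2 (by rw [Site94.Crs, hK]; omega)).le hσ) (not_le.2 l)
    · rw [mid, if_pos ⟨j2, l2⟩, upF, if_pos j1]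
      nlinarith [mul_nonneg (mul_nonneg (heg (σ p' q')) g1) (sq_nonneg |τ0|)]

/-- an edge between the cut and the marked node, and another edge -/
theorem w_mid (H : D.Ok τ0) {j : ℕ} (hj : j ∈ D.up) {p q p' q' : Fin (1 + k + 1)} (h1 : p ≠ q)
    (h2 : p' ≠ q') : avc D.B (tw D.B.length j) k (fun σ =>
      mid D (fun v => D.e v * D.g v) j (σ p q) * upF D D.g (σ p' q')) ≤ (3 * (1 + k)) ^ k *
      ((D.g j + D.N1) * D.lw (fun v => D.e v * D.g v) j +
        2 * D.lw (fun v => D.e v * D.g v ^ 2) j) := by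
  obtain ⟨j1, j2⟩ := Finset.mem_Ioo.1 hj
  refine (avc_w2 H.mono (j2.le.trans_eq lenB.symm) k (mid_nonneg (D := D)
    (fun v => mul_nonneg (H.e0 v) (g_nonneg v)) j) (upF_nonneg (D := D) (g_nonneg (D := D)))
    h1 h2).trans_eq ?_
  have e : (fun v => mid D (fun v => D.e v * D.g v) j v * upF D D.g v) =
      mid D (fun v => D.e v * D.g v ^ 2) j := funext fun v => by
    unfold mid upF
    split_ifs with a1 a2
    · ring
    · exact absurd a1.1 a2
    · simp
    · simp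
  rw [e, mid_self, zero_add, Br_mid _ j2.le, Br_mid _ j2.le, Br_upF H, upF, if_pos j1, CD.N1,
    mul_comm (D.lw _ _)]

/-- a third branch -/
theorem w_out (H : D.Ok τ0) {j : ℕ} (hj : j ∈ D.up) {p q : Fin (1 + k + 1)} (h1 : p ≠ q) :
    avc D.B (tw D.B.length j) k (fun σ =>
      if Site94.Out id σ p q then mid D (fun v => D.g v ^ 2) j (σ p q) else 0) ≤
      (3 * (1 + k)) ^ k * D.lw (fun v => D.e v * D.g v ^ 2) j := by
  obtain ⟨j1, j2⟩ := Finset.mem_Ioo.1 hj
  refine (Site94.avc_out H.mono (j2.le.trans_eq lenB.symm) k (c := id) (fun _ => le_rfl)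
    (mid_nonneg (D := D) (fun _ => sq_nonneg _) j) h1).trans
    (mul_le_mul_of_nonneg_left ?_ (by positivity))
  have e : (fun v => if j ≤ id v then mid D (fun v => D.g v ^ 2) j v else 0) = fun _ => 0 :=
    funext fun v => by
      split_ifs with a
      exacts [if_neg fun h => absurd h.2 (not_lt.2 a), rfl]
  rw [e, mid_self, mul_zero, zero_add, Site94.Br_const, zero_add, ← Br_mid _ j2.le]
  refine Br_mono H.mono fun v _ => ?_
  unfold mid
  split_ifs with a
  · exact mul_le_mul_of_nonneg_right (ex_e H (Finset.mem_Ioo.2 ⟨a.1, a.2.trans j2⟩)) (sq_nonneg _)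
  · exact (mul_zero _).le

end L32

/-- **`RegLo`** -/
theorem regLo : RegLo := fun k p q p' q' h1 h2 => Bd.mk' fun τ0 =>
  ⟨4 * (cPar τ0 (1 + k + 1) + 4 * |τ0| ^ 2) * ((3 * (1 + k)) ^ k * 5), fun D H hW => by
    have hc := cPar_nonneg τ0 (1 + k + 1)
    refine (aw_le H (a := fun j => D.e j * D.g j ^ 2 * D.hi D.g j +
      D.g j * (D.hi (fun t => D.g t ^ 2) j + D.lw (fun t => D.e t * D.g t ^ 2) j +
        (D.g j + D.N1) * D.lw (fun t => D.e t * D.g t) j)) fun j hj => ?_).trans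
      (mul_le_mul_of_nonneg_left (H.Cub_le.trans (H.E1_le hW)) (by positivity))
    have hjK : j ≤ D.B.length := (Finset.mem_Ioo.1 hj).2.le.trans_eq lenB.symm
    refine (Site94.abs_avc_le H.mono (rz_tw D.B.length j) k fun σ hσ h =>
      pt H hσ (mk_ne k) h1 h2 hj ((h 1 0).trans (tw_old _ j hjK))).trans ?_
    rw [avc_mul, avc_add, avc_add, mul_assoc (4 * _), mul_assoc (4 * _)]
    refine mul_le_mul_of_nonneg_left ?_ (by positivity)
    have gj := g_nonneg (D := D) j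
    obtain ⟨p1, -, p3, p4, p5⟩ := H.Cub_parts j
    have p0 := mul_nonneg (mul_nonneg (H.e0 j) (sq_nonneg (D.g j))) p1
    refine (mul_le_mul_of_nonneg_left (add_le_add (add_le_add (w_mid H hj h1 h2)
      (w_mid H hj h2 h1)) (w_out H hj h1)) gj).trans ?_
    rw [← mul_add, ← mul_add, mul_left_comm, mul_assoc]
    refine mul_le_mul_of_nonneg_left ?_ (by positivity)
    nlinarith [mul_nonneg gj p3, mul_nonneg gj p4, mul_nonneg gj p5]⟩

end Crest.Agent.T156.Cas.Su67

end
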