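import Crest.Agent.T156.StUT_67
import Crest.Agent.T156.StUG_91
import Crest.Agent.T156.StUFr_54
import Crest.Agent.T156.StUH_10
import Crest.Agent.T156.StUL_32
import Crest.Agent.T156.StUF_87
import Crest.Agent.T156.CStUb_4

/-!
# Row 156, block C: the leaf `StU` (helper67)
-/

set_option autoImplicit false

namespace Crest.Agent.T156.Cas

theorem Su67.excS : Su67.ExcS :=
  Su67.indS Su67.ggS Su67.swS Su67.freshS Su67.free1' Su67.free3'

/-- the `U` part of the test, upper words of degree two -/
theorem C40.stU : C40.StU :=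
  ⟨C40.stUb, Su67.glueS Su67.frameS Su67.regHi Su67.regLo Su67.excS⟩

end Crest.Agent.T156.Cas
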