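import Crest.Agent.T156.CVal_54
import Crest.Agent.T156.C3T_43
import Crest.Agent.T156.CAbU_4
import Crest.Agent.T156.CAbL_45
import Crest.Agent.T156.CCr4T_4
import Crest.Agent.T156.CStC_22
import Crest.Agent.T156.CStL_99
import Crest.Agent.T156.StU_67

/-!
# Row 156, block C: the test head from the leaves that are still open (helper54)
-/

set_option autoImplicit false

namespace Crest.Agent.T156.Cas.C40

/-- the test head -/
theorem hT_of (m : Mx23.MxM true) (q : Q2S true) (a : Ab45.TL) : HT :=
  glueT exS remS ⟨yhS _, y2S _, y3S _, y4S _, lbS _, mxS_true_of m, q, c3T,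
    ⟨abU_true, Ab45.abL_of a⟩, Ck32.crO _, cr4T, cr5 _⟩ stC stL stU

end Crest.Agent.T156.Cas.C40
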