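import Crest.Agent.T156.CCr4_6
import Crest.Agent.T156.CErr_54

/-!
# Row 156, block C: `Cr4 false` (helper6)
-/

set_option autoImplicit false
set_option linter.all false

namespace Crest.Agent.T156.Cas.C40

/-- degree four with an upper letter, value direction -/
theorem cr4F : Cr4 false := fun f h4 he hu τ0 => by
  obtain ⟨C, hC, H⟩ := Cr6.abs_tm4 f h4 he hu τ0
  refine ⟨C * 3, by positivity, fun D hD hW => ?_⟩
  have h1 := hD.X6_le
  have h2 := hD.tl_le
  have h3 := hD.Iu4_le
  have h5 := hD.E0_le hW
  show |D.tw f| ≤ _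
  rw [CD.tw, CD.dd_val hW, mul_assoc]
  exact (H D hD).trans (mul_le_mul_of_nonneg_left (by linarith) hC)

end Crest.Agent.T156.Cas.C40
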