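import Crest.Agent.T156.CErr_54
import Crest.Agent.T156.CEx_23

/-!
# Row 156, block C: words of degree at least five (helper54)
-/

set_option autoImplicit false
set_option linter.unusedSectionVars false

noncomputable section

namespace Crest.Agent.T156.Cas.C40

open MeasureTheory Real Set Filter Topology
open Crest.Agent.T157.E Crest.Agent.T157.Casc Crest.Agent.T157.SL
open Crest.Agent.T157.G1 (ov)
open Mul55 Tay38

namespace Cr54

variable {D : CD} {τ0 : ℝ}

/-- `|U|` off the root -/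
abbrev Tn (D : CD) : ℕ → Cube D.n × Bool → Cube D.n × Bool → ℝ :=
  Mul55.aU D.n D.q fun j => j ≠ 0

/-- the moments off the root -/
abbrev mN (D : CD) (p : ℕ) : ℝ := mU D.n D.β D.M D.q (fun j => j ≠ 0) p

theorem tK0 (H : D.Ok τ0) : 0 ≤ D.τ D.K := (H.ook.oTau_le _ _ _).1

theorem lt_le (H : D.Ok τ0) (a : Lt) {j : ℕ} (hj : j ≤ D.K) (x y : Cube D.n × Bool) :
    |ten (lt D.n D.β D.M D.q D.cl a) j x y| ≤ D.τ D.K * Tn D j x y ^ dg a := by
  rcases eq_or_ne j 0 with rfl | h0
  · have : ten (lt D.n D.β D.M D.q D.cl a) 0 = 0 := (lt_mem H.pos H.ook D.cl a).1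
    rw [this]
    simpa using mul_nonneg (tK0 H) (pow_nonneg (aU_nonneg (fun j => j ≠ 0) 0 x y) _)
  · refine (abs_lt_le H.ook D.cl a (fun _ => True) (fun _ _ => trivial) hj x y).trans_eq ?_
    simp only [Tn, Mul55.aU, h0, ne_eq, not_false_eq_true, if_true]

theorem mN_five (H : D.Ok τ0) : mN D 5 ≤ 7 * D.E0 := by
  have h1 : mN D 5 = _ := H.sum_split (a := D.u 5)
  have h2 := H.sum_u_lo 4
  norm_num at h2
  linarith [H.X6_le, H.tl_le, H.Iu5_le]

theorem mN_le (H : D.Ok τ0) (k : ℕ) : mN D (5 + k) ≤ 2 ^ k * (7 * D.E0) :=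
  (mU_succ_le H.ook H.mono _ 5 k).trans (mul_le_mul_of_nonneg_left (mN_five H) (by positivity))

/-- the value of a word -/
theorem abs_tm (H : D.Ok τ0) (f : List Lt) {p : ℕ} (hp : deg f = p + 1) :
    |tm D.n D.β D.M D.q D.cl f| ≤
      3 * cTay (f.length - 1) p 2 * D.τ D.K ^ f.length * mN D (p + 1) := by
  have := abs_Lam_deg wt_one90 (mono_op (q := D.q) H.mono 0) (aU_nonneg (n := D.n) (q := D.q)
    fun j => j ≠ 0) 0 (fun a => ten (lt D.n D.β D.M D.q D.cl a)) (fun _ => D.τ D.K) dg f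
    (fun _ _ => tK0 H) (fun a _ j hj => lt_le H a (by rwa [op_length] at hj)) hp
  rwa [prod_const', mom0_aU H.pos H.ook] at this

/-- a marked pair with a test of degree `m` in front of a word -/
theorem abs_wB (H : D.Ok τ0) (f : List Lt) {m p j : ℕ} (hp : m + deg f = p + 1) (h0 : j ≠ 0)
    (hj : j ≤ D.K) {G : Cube D.n → Cube D.n → ℝ} {ξ : Bool → Bool → ℝ} {A : ℝ} (hA : 0 ≤ A)
    (hG : ∀ x y a b, |G x y * ξ a b| ≤ A * |oU D.q j x y| ^ m) :
    |wB (-1) D.B (oB D.n D.β D.M D.q []) (f.map (lt D.n D.β D.M D.q D.cl)) (Sh.two j) (pr2 j G)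
      (pr2 j ξ)| ≤ cTay f.length p 2 * (A * D.τ D.K ^ f.length) *
        (2 * D.u (p + 1) j + mN D (p + 1)) := by
  have t0 := tK0 H
  have h1 := abs_twoF_word (ι := Unit) (T := fun _ => Tn D) wt_one90 (mono_op (q := D.q) H.mono 0)
    (fun _ => aU_nonneg _) 0 (fun _ => p) (Q := p) (fun _ => le_rfl) (A := 0)
    (B := fun _ => A * D.τ D.K ^ f.length) le_rfl (fun _ => by positivity)
    (p := (fun i x y => if i = j then G x.1 y.1 * ξ x.2 y.2 else 0, fun d => A * d () ^ m))
    (U := f.map fun r => (ten (lt D.n D.β D.M D.q D.cl r), fun d => D.τ D.K * d () ^ dg r))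
    (fun r hr => by
      rcases List.mem_cons.1 hr with rfl | hr
      · intro i _ x y d hd
        have h2 := hd ()
        have h3 := (aU_nonneg _ i x y).trans h2
        by_cases hi : i = j
        · subst hi
          simp only [Tn, Mul55.aU, h0, ne_eq, not_false_eq_true, if_true] at h2 ⊢
          exact (hG _ _ _ _).trans (by gcongr)
        · simp only [hi, if_false, abs_zero]
          positivity
      · obtain ⟨b, -, rfl⟩ := List.mem_map.1 hr
        exact fun i hi x y d hd => (lt_le H b (by rwa [op_length] at hi) x y).trans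
          (mul_le_mul_of_nonneg_left (pow_le_pow_left₀ (aU_nonneg _ _ _ _) (hd ()) _) t0))
    (fun d hd => by
      have h2 : (f.map fun r => d () ^ dg r).prod ≤ d () ^ deg f :=
        prod_pow_le (ι := Unit) (fun _ => ()) dg hd (fun _ => le_rfl) f
      have h3 := hd ()
      simp only [List.map_cons, List.map_map, Function.comp_def, List.prod_cons,
        List.prod_map_mul, prod_const', Finset.univ_unique, Finset.sum_singleton, zero_add, ← hp]
      calc _ ≤ A * d () ^ m * (D.τ D.K ^ f.length * d () ^ deg f) := by gcongr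
        _ = _ := by rw [pow_add]; ring)
    (j := j) (by rwa [op_length])
  have e : pi2 (fun _ => 1) (op D.n D.β D.M D.q 0) j (fun x y => Tn D j x y ^ (p + 1)) 0 =
      D.u (p + 1) j := by
    have := pi2_op_zero (β := D.β) H.pos H.ook 0 0 j (fun x y => |oU D.q j x y| ^ (p + 1))
      fun _ _ => 1
    rw [Law.ad_zero, pi2_const wt_one90] at this
    simp only [mul_one] at this
    simp only [Tn, Mul55.aU, h0, ne_eq, not_false_eq_true, if_true, this]
    rfl
  simp only [List.map_map, Function.comp_def, List.length_map, Finset.univ_unique,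
    Finset.sum_singleton, zero_add, if_true, e, mom0_aU H.pos H.ook] at h1
  rw [Ex23.wB_eq H.pos H.ook, List.map_map, mul_assoc]
  exact h1

theorem pow_tau (H : D.Ok τ0) (k : ℕ) : D.τ D.K ^ k ≤ |τ0| ^ k :=
  pow_le_pow_left₀ (tK0 H) (H.tau.trans (le_abs_self _)) k

/-- the sum over the marked pair, total degree `5 + k` -/
theorem abs_test (H : D.Ok τ0) (hW : D.W.isSome = true) (f : List Lt) {m k : ℕ}
    (hp : m + deg f = 5 + k) {G : ℕ → Cube D.n → Cube D.n → ℝ} {ξ : ℕ → Bool → Bool → ℝ} {A : ℝ}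
    (hA : 0 ≤ A) (hG : ∀ j ∈ D.up, ∀ x y a b, |G j x y * ξ j a b| ≤ A * |oU D.q j x y| ^ m) :
    |∑ j ∈ D.up, D.om j * wB (-1) D.B (oB D.n D.β D.M D.q []) (f.map (lt D.n D.β D.M D.q D.cl))
      (Sh.two j) (pr2 j (G j)) (pr2 j (ξ j))| ≤
      cTay f.length (4 + k) 2 * (A * |τ0| ^ f.length) * 2 ^ k * 9 * D.Err := by
  set c := cTay f.length (4 + k) 2 * (A * |τ0| ^ f.length) * 2 ^ k with hc
  have h1 := cTay_nonneg f.length (4 + k) 2
  have c0 : 0 ≤ c := by positivity
  refine (D.abs_sum_om (b := fun j => c * (2 * D.u 5 j + 7 * D.E0)) fun j hj => ?_).trans ?_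
  · have hj' := Finset.mem_Ioo.1 hj
    refine (abs_wB H f (p := 4 + k) (by omega) (by omega) hj'.2.le hA (hG j hj)).trans ?_
    rw [show 4 + k + 1 = 5 + k by omega]
    have h2 : D.u (5 + k) j ≤ 2 ^ k * D.u 5 j := Wrd23.uM_succ_le H.ook hj'.2.le 5 k
    have h3 := mN_le H k
    have h4 := pow_tau H f.length
    have h5 := D.u0 (5 + k) j
    have h6 : 0 ≤ mN D (5 + k) := mU_nonneg H.mono _ _
    calc _ ≤ cTay f.length (4 + k) 2 * (A * |τ0| ^ f.length) *
          (2 ^ k * (2 * D.u 5 j + 7 * D.E0)) := by gcongr; linarith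
      _ = _ := by rw [hc]; ring
  · rw [D.Iw_mul, mul_assoc c]
    refine mul_le_mul_of_nonneg_left ?_ c0
    have := H.Iw_split hW (a := fun j => 2 * D.u 5 j) (A := 7 * D.E0) (c := 7) (c' := 2)
      (by norm_num) zero_le_two le_rfl (by rw [D.Iw_mul]; linarith [H.Iwu5_le])
    norm_num at this
    exact this

end Cr54

open Cr54

theorem cr5_false : Cr5 false := fun f _ h5 => Bd.val fun τ0 => by
  obtain ⟨k, hk⟩ := Nat.exists_eq_add_of_le h5
  refine ⟨3 * cTay (f.length - 1) (4 + k) 2 * |τ0| ^ f.length * (2 ^ k * 7), fun D H hW => ?_⟩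
  rw [CD.tw, CD.dd_val hW]
  refine (abs_tm H f (p := 4 + k) (by omega)).trans ?_
  rw [show 4 + k + 1 = 5 + k by omega]
  have h1 := cTay_nonneg (f.length - 1) (4 + k) 2
  have h3 := mN_le H k
  have h4 := pow_tau H f.length
  have h6 : 0 ≤ mN D (5 + k) := mU_nonneg H.mono _ _
  calc _ ≤ 3 * cTay (f.length - 1) (4 + k) 2 * |τ0| ^ f.length * (2 ^ k * (7 * D.E0)) := by gcongr
    _ = _ := by ring

theorem cr5_true : Cr5 true := fun f _ h5 => Bd.mk' fun τ0 => by
  obtain ⟨k, hk⟩ := Nat.exists_eq_add_of_le h5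
  refine ⟨cTay f.length (4 + k) 2 * (2 * |τ0| ^ f.length) * 2 ^ k * 9, fun D H hW => ?_⟩
  rw [CD.tw, CD.dd_test hW]
  exact abs_test H hW f (m := 0) (k := k) (by omega) (G := fun _ _ _ => 1) (ξ := oE D.q)
    zero_le_two fun j hj x y a b => by
      simpa using abs_oE_le H.ook (Finset.mem_Ioo.1 hj).2.le a b

/-- **degree at least five** -/
theorem cr5 : ∀ b, Cr5 b
  | false => cr5_false
  | true => cr5_true

/-- the `U` part of the test for words of degree at least four -/
theorem tU_deg4 (f : List Lt) (h4 : 4 ≤ deg f) : Bd true fun D => D.tU f := Bd.mk' fun τ0 => by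
  obtain ⟨k, hk⟩ := Nat.exists_eq_add_of_le h4
  refine ⟨cTay f.length (4 + k) 2 * (1 * |τ0| ^ f.length) * 2 ^ k * 9, fun D H hW => ?_⟩
  exact abs_test H hW f (m := 1) (k := k) (by omega) (G := oU D.q) (ξ := fun _ _ _ => 1)
    zero_le_one fun j _ x y a b => by simp

end Crest.Agent.T156.Cas.C40

end
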