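import Crest.Agent.T156.CKit_32
import Crest.Agent.T156.CErr_54

/-!
# Row 156, block C: the words with an odd number of letters `aL` (helper32)
-/

set_option autoImplicit false
set_option linter.all false

noncomputable section

namespace Crest.Agent.T156.Cas.Ck32

open MeasureTheory Real Set Filter Topology
open Crest.Agent.T157.E Crest.Agent.T157.Casc Crest.Agent.T157.SL
open Mul55 C40 G90 Nu87

variable {D : CD} {τ0 : ℝ} {r k : ℕ}

theorem dl_eq : ∀ f : List Lt, dl f = f.count aL + 2 * f.count bL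
  | [] => rfl
  | (c, b) :: f => by
      have ih := dl_eq f
      have e : dl ((c, b) :: f) = (if c = true then dg (c, b) else 0) + dl f := rfl
      rw [e, ih, List.count_cons, List.count_cons]
      cases c <;> cases b <;> simp [dg] <;> omega

theorem len_eq : ∀ f : List Lt, f.length = f.count aL + f.count bL + f.count C40.aU + f.count C40.bU
  | [] => rfl
  | (c, b) :: f => by
      have ih := len_eq f
      simp only [List.length_cons, List.count_cons] at ih ⊢
      cases c <;> cases b <;> simp [ih] <;> omega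

theorem exists_edge {Z : ZL r} {f : List Lt} (h : (Z.map Prod.fst).Perm f) {a : Lt} (ha : a ∈ f) :
    ∃ e, (a, e) ∈ Z := by
  obtain ⟨⟨b, e⟩, hz, rfl⟩ := List.mem_map.1 (h.mem_iff.2 ha)
  exact ⟨e, hz⟩

theorem ae_length (Z : ZL r) : (ae Z).length ≤ Z.length := by
  rw [ae, List.length_map]
  exact List.length_filter_le _ _

theorem sa_length (Z : ZL (1 + k + 1)) : (sa D k Z).length ≤ Z.length + 1 := by
  have := ae_length Z
  unfold sa
  cases D.W with
  | none => exact this.trans (Nat.le_succ _)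
  | some ω => exact Nat.succ_le_succ this

/-- the constant of the site factor -/
def cS (n : ℕ) : ℝ := 2 ^ (n + 1) * Site94.cP (2 * n + 2) 2

theorem le_cS {n m : ℕ} (hm : m ≤ n + 1) (hk : k ≤ 2 * n) :
    (2 : ℝ) ^ m ≤ cS n ∧ 2 ^ m * Site94.cP (1 + k + 1) 2 ≤ cS n := by
  have h1 : (2 : ℝ) ^ m ≤ 2 ^ (n + 1) := pow_le_pow_right₀ one_le_two hm
  refine ⟨h1.trans (le_mul_of_one_le_right (by positivity)
    (Site94.one_le_cP (0 : Fin (2 * n + 2)) 2)),
    mul_le_mul h1 ?_ (Site94.cP_nonneg _ _) (by positivity)⟩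
  have h2 : ((1 + k + 1 : ℕ) : ℝ) ≤ (2 * n + 2 : ℕ) := by exact_mod_cast (by omega)
  unfold Site94.cP
  gcongr

theorem cS_nonneg (n : ℕ) : 0 ≤ cS n := mul_nonneg (by positivity) (Site94.cP_nonneg _ _)

/-- a single letter `aL`: its edge is the only low site edge -/
theorem ae_one {Z : ZL r} {σ : SM r} (hc : Cel D Z σ) (h1 : (Z.map Prod.fst).count aL = 1) :
    ∃ e A', (ae Z).Perm (e :: A') ∧ σ e.1 e.2 ≤ D.J ∧ ∀ e' ∈ A', D.J < σ e'.1 e'.2 := by
  obtain ⟨e, he⟩ := exists_edge (List.Perm.refl _) (List.count_pos_iff.1 (h1 ▸ one_pos))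
  have p := List.perm_cons_erase he
  refine ⟨e, ae (Z.erase (aL, e)), (p.filter _).map _, (Finset.mem_Icc.1 (hc _ he)).2,
    fun e' he' => ?_⟩
  obtain ⟨⟨⟨c, b⟩, e''⟩, hz, rfl⟩ := List.mem_map.1 he'
  obtain ⟨hz, hb⟩ := List.mem_filter.1 hz
  obtain rfl : b = true := hb
  cases c
  · exact hc _ (List.mem_of_mem_erase hz)
  · rw [(p.map _).count_eq, List.map_cons, List.count_cons_self] at h1
    have h2 : 0 < ((Z.erase (aL, e)).map Prod.fst).count aL :=
      List.count_pos_iff.2 (List.mem_map.2 ⟨_, hz, rfl⟩)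
    omega

theorem site_sa (H : D.Ok τ0) {Z : ZL (1 + k + 1)} (hk : k ≤ 2 * Z.length) {σ : SM (1 + k + 1)}
    (hσ : Sup D k σ) (hc : Cel D Z σ) : |TS D σ (se D (sa D k Z) σ)| ≤
      cS Z.length * D.X ^ if (Z.map Prod.fst).count aL = 1 then 3 else 0 := by
  obtain ⟨c1, c2⟩ := le_cS (sa_length (D := D) Z) hk
  split_ifs with h1
  · obtain ⟨e, A', p, he, hA⟩ := ae_one hc h1
    refine le_trans ?_ (mul_le_mul_of_nonneg_right c2 (pow_nonneg (X_nonneg H) 3))
    unfold sa
    cases hD : D.W with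
    | none => exact site_one H hσ.1 p he hA
    | some ω =>
      exact site_one H hσ.1 ((p.cons _).trans (List.Perm.swap _ _ _)) he
        (List.forall_mem_cons.2 ⟨(Finset.mem_Ioo.1 (hσ.2 (by simp [hD]))).1, hA⟩)
  · rw [pow_zero, mul_one]
    exact (site_le H hσ.1 _).trans c1

theorem Jw_le (H : D.Ok τ0) {c : ℝ} {a : ℕ → ℝ} (h : D.Iw (fun j => c * a j) ≤ D.E1) :
    c * Jw D a ≤ D.Err := by
  cases hW : D.W.isSome
  · rw [Jw, CD.dd_val hW, mul_zero]
    exact H.Err0
  · rw [Jw, CD.dd_test hW, ← Iw_mul]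
    exact h.trans (H.E1_le hW)

theorem wt_le (H : D.Ok τ0) {c : ℝ} (h : c ≤ D.E0) : D.wt * c ≤ D.Err :=
  (mul_le_mul_of_nonneg_left h wt_nonneg).trans H.wtE0_le

/-- reduction to a function `G` of the split matrix -/
theorem tw_of (H : D.Ok τ0) {f : List Lt} (hf : f ≠ []) {m : ℕ} {c : ℝ} (hc : 0 ≤ c)
    (hm : m ≤ (if f.count aL = 1 then 3 else 0) + dl f)
    (h : ∀ k ≤ 2 * f.length, ∀ Z : ZL (1 + k + 1), (Z.map Prod.fst).Perm f → Lf Z →
      ∃ (Y : SM (1 + k + 1) → (Fin (1 + k + 1) → Cube D.n) → ℝ) (G : SM (1 + k + 1) → ℝ),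
        D.X ^ m * av D k G ≤ c * D.Err ∧ ∀ σ, Sup D k σ → 0 ≤ G σ ∧ (Cel D Z σ →
          (∀ x, upP D Z σ x ≤ Y σ x) ∧ TB D σ (Y σ) ≤ G σ)) :
    |D.tw f| ≤ cG f.length * (|τ0| ^ f.length * cS f.length *
      (c + 2 * 4 ^ f.length * f.length)) * D.Err := by
  have hE := H.Err0
  have hS := cS_nonneg f.length
  have hX := X_nonneg H
  have ht := H.tl0
  rw [mul_assoc]
  refine tw_le H hf (by positivity) fun k hk Z hZ hL => ?_
  obtain ⟨Y, G, h1, h2⟩ := h k hk Z hZ hL
  have hl : Z.length = f.length := by simpa using hZ.length_eq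
  refine ⟨fun σ => |τ0| ^ f.length * cS f.length *
    (D.X ^ m * G σ + 2 * 4 ^ f.length * f.length * D.tl), ?_, fun σ hσ => ⟨?_, fun hc => ?_⟩⟩
  · rw [av_mul, av_add, av_mul, w_const H, mul_assoc (|τ0| ^ f.length * cS f.length), add_mul,
      mul_left_comm D.wt]
    exact mul_le_mul_of_nonneg_left (add_le_add h1 (mul_le_mul_of_nonneg_left (wt_le H H.tl_le)
      (by positivity))) (by positivity)
  · have := (h2 σ hσ).1
    positivity
  · obtain ⟨h3, h4⟩ := (h2 σ hσ).2 hc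
    have hG := (h2 σ hσ).1
    have b1 := bulk_le H hσ.1 hc hL (F := fun _ => 1) (Y := Y σ) (y₀ := 4 ^ Z.length)
      (by positivity) (by simpa using h3) (by simpa using upP_le H hσ.1 · Z)
    have b2 := site_sa H (hl ▸ hk) hσ hc
    have e : dl (Z.map Prod.fst) = dl f := (hZ.map _).sum_eq
    simp only [one_mul, hl, e, hZ.count_eq] at b1 b2
    set s := if f.count aL = 1 then 3 else 0
    have b3 : D.X ^ dl f * D.X ^ s ≤ D.X ^ m := by
      rw [← pow_add]
      exact pow_le_pow_of_le_one hX H.X1 (by omega)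
    have b4 : D.X ^ s ≤ 1 := pow_le_one₀ hX H.X1
    refine (mul_le_mul (b1.trans (mul_le_mul_of_nonneg_left (add_le_add
      (mul_le_mul_of_nonneg_left h4 (by positivity)) le_rfl) (by positivity))) b2 (abs_nonneg _)
      (by positivity)).trans ?_
    rw [mul_mul_mul_comm]
    refine mul_le_mul_of_nonneg_left ?_ (by positivity)
    nlinarith [mul_le_mul_of_nonneg_right b3 hG, mul_le_mul_of_nonneg_left b4
      (show 0 ≤ 2 * 4 ^ f.length * (f.length * D.tl) by positivity)]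

theorem lo1_eq {Z : ZL r} {σ : SM r} (hc : Cel D Z σ) {b : Bool} {e : Fin r × Fin r}
    (he : ((true, b), e) ∈ Z) : lo1 D (σ e.1 e.2) = 1 := if_pos (Finset.mem_Icc.1 (hc _ he)).2

theorem upF_eq {Z : ZL r} {σ : SM r} (hc : Cel D Z σ) {b : Bool} {e : Fin r × Fin r}
    (he : ((false, b), e) ∈ Z) (G : ℕ → ℝ) : upF D G (σ e.1 e.2) = G (σ e.1 e.2) :=
  if_pos (hc _ he)

/-- a low letter, an upper letter, three more powers of `X` -/
theorem bd_lo_up (b : Bool) {f : List Lt} {b₀ b₁ : Bool} (h0 : (true, b₀) ∈ f)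
    (h1 : (false, b₁) ∈ f) (hm : 3 ≤ (if f.count aL = 1 then 3 else 0) + dl f) :
    Bd b fun D => D.tw f := Bd.mk' fun τ0 => ⟨_, fun D H _ => by
  have hw := (cw_pos (2 * f.length)).le
  refine tw_of H (List.ne_nil_of_mem h0) (c := 4 ^ f.length * 2 * (cw (2 * f.length) * 2))
    (by positivity) hm fun k hk Z hZ hL => ?_
  obtain ⟨e0, he0⟩ := exists_edge hZ h0
  obtain ⟨e1, he1⟩ := exists_edge hZ h1
  have hl : Z.length = f.length := by simpa using hZ.length_eq
  refine ⟨fun σ x => 4 ^ f.length * |oU D.q (σ e1.1 e1.2) (x e1.1) (x e1.2)| ^ 1,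
    fun σ => 4 ^ f.length * 2 * (lo1 D (σ e0.1 e0.2) * upF D D.g (σ e1.1 e1.2)), ?_,
    fun σ hσ => ⟨?_, fun hc => ⟨fun x => ?_, ?_⟩⟩⟩
  · have hX := X_nonneg H
    have a1 := wt_le H H.XN1_le
    have a2 := Jw_le H H.IwXg_le
    have a3 : 0 ≤ D.X * (D.wt * D.I D.g + Jw D D.g) := mul_nonneg hX (add_nonneg
      (mul_nonneg wt_nonneg (I_nonneg H g_nonneg)) (Jw_nonneg g_nonneg))
    rw [av_mul, mul_left_comm, mul_assoc (_ * _)]
    refine mul_le_mul_of_nonneg_left ((mul_le_mul_of_nonneg_left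
      ((w_lo_up H g_nonneg (hL _ he0) (hL _ he1)).trans
        (mul_le_mul_of_nonneg_right (cw_mono hk) a3)) (by positivity)).trans ?_) (by positivity)
    rw [mul_left_comm, mul_assoc]
    refine mul_le_mul_of_nonneg_left ?_ hw
    rw [CD.N1] at a1
    nlinarith
  · exact mul_nonneg (by positivity) (mul_nonneg (lo1_nonneg _) (upF_nonneg g_nonneg _))
  · beta_reduce
    rw [pow_one, ← hl]
    exact upP_one H hσ.1 he1 x
  · beta_reduce
    rw [lo1_eq hc he0, upF_eq hc he1, one_mul, TB, TM_mul, mul_assoc]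
    refine mul_le_mul_of_nonneg_left ((TB_pow hσ.1 (hL _ he1) 1).trans_le ?_) (by positivity)
    simpa using u_le_g (D := D) (p := 1) (by norm_num) (σ e1.1 e1.2)⟩

/-- a low letter and five more powers of `X` -/
theorem bd_lo (b : Bool) {f : List Lt} {b₀ : Bool} (h0 : (true, b₀) ∈ f)
    (hm : 5 ≤ (if f.count aL = 1 then 3 else 0) + dl f) :
    Bd b fun D => D.tw f := Bd.mk' fun τ0 => ⟨_, fun D H _ => by
  have hw := (cw_pos (2 * f.length)).le
  refine tw_of H (List.ne_nil_of_mem h0) (c := 4 ^ f.length * cw (2 * f.length))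
    (by positivity) hm fun k hk Z hZ hL => ?_
  obtain ⟨e0, he0⟩ := exists_edge hZ h0
  have hl : Z.length = f.length := by simpa using hZ.length_eq
  refine ⟨fun σ x => 4 ^ f.length, fun σ => 4 ^ f.length * lo1 D (σ e0.1 e0.2), ?_,
    fun σ hσ => ⟨?_, fun hc => ⟨fun x => hl ▸ upP_le H hσ.1 x Z, ?_⟩⟩⟩
  · have hX := X_nonneg H
    have a1 := wt_le H H.X6_le
    rw [av_mul, mul_left_comm, mul_assoc]
    refine mul_le_mul_of_nonneg_left ((mul_le_mul_of_nonneg_left
      ((w_lo H (hL _ he0)).trans (mul_le_mul_of_nonneg_right (cw_mono hk)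
        (mul_nonneg wt_nonneg hX))) (by positivity)).trans ?_) (by positivity)
    rw [mul_left_comm]
    exact mul_le_mul_of_nonneg_left (le_of_eq_of_le (by ring) a1) hw
  · exact mul_nonneg (by positivity) (lo1_nonneg _)
  · beta_reduce
    rw [lo1_eq hc he0, mul_one]
    exact (TM_const wt_one90 hσ.1 _).le⟩

/-- **leaf `CrO`** -/
theorem crO (b : Bool) : CrO b := fun f _ ho hl => by
  have h1 : 0 < f.count aL := ho.pos
  have h0 := List.count_pos_iff.1 h1
  have e1 := dl_eq f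
  have e2 := len_eq f
  have h3 : f.count aL = 1 ∨ 3 ≤ f.count aL := by
    obtain ⟨m, hm⟩ := ho
    omega
  by_cases ha : C40.aU ∈ f
  · exact bd_lo_up b h0 ha (by split_ifs <;> omega)
  by_cases hb : C40.bU ∈ f
  · exact bd_lo_up b h0 hb (by split_ifs <;> omega)
  rw [List.count_eq_zero_of_not_mem ha, List.count_eq_zero_of_not_mem hb] at e2
  exact bd_lo b h0 (by split_ifs <;> omega)

end Crest.Agent.T156.Cas.Ck32

end
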