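import Crest.Agent.T156.CDef_40
import Crest.Agent.T156.Gr_90
import Crest.Agent.T156.SiteC_94

/-!
# Row 156, block C: the crude bound of a word tested at an upper node (helper22)

A word of total low degree `dl` and total upper degree `du` (marked kernel included), whose site
factor is at most `c` on the trees that fit its cells, is bounded at the node `j` by
`c X ^ (dl + [dl ≥ 1]) (u_du j + I u_du) + tl`.
-/

set_option autoImplicit false
set_option linter.all false

noncomputable section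

namespace Crest.Agent.T156.Cas.Cr22

open MeasureTheory Real Set Filter Topology
open Crest.Agent.T157.E Crest.Agent.T157.Casc Crest.Agent.T157.SL
open Crest.Agent.T157.G1 (ov)
open Crest.ProbabilityR.SpinGlassDynamics (spin)
open Nu87 G90 Wp52 Site94

section gen
variable {Θ Ω : Type} [Fintype Θ] [Fintype Ω] {M : List (Lv Θ)} {r : ℕ}

/-- sup bound at one node -/
theorem abs_node_le (j k : ℕ) (Φ : GF) {B : ℝ}
    (H : ∀ k' ≤ 2 * k, ∀ N : EL (1 + k' + 1), N.length = k → N.Ok →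
      |avc M (tw M.length j) k' fun σ => Φ _ σ (N ++ [(old k' 1, old k' 0)])| ≤ B) :
    |(DG (-1) M)^[k] Φ 2 (tw M.length j) [(1, 0)]| ≤ cG k * B := by
  refine ((fam_avc (r₀ := 1) (tw M.length j)).sup (ε := -1) (by simp) Φ k 0 [(1, 0)]
    fun k' hk ι hι N hN hO => ?_).trans_eq (by rw [cG]; congr 4; push_cast; ring)
  have e : ι = old k' := funext fun a => Fin.ext (hι a)
  subst e
  exact H k' (by omega) N hN hO

/-- pairs of different replicas -/
abbrev Od (r : ℕ) : Finset (Fin r × Fin r) := Finset.univ.filter fun p => p.1 ≠ p.2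

theorem mem_Od {a b : Fin r} (h : a ≠ b) : (a, b) ∈ Od r := by simpa using h

theorem ne_Od {p : Fin r × Fin r} (h : p ∈ Od r) : p.1 ≠ p.2 := by simpa using h

theorem card_Od (r : ℕ) : ((Od r).card : ℝ) ≤ r ^ 2 := by
  have := Finset.card_filter_le (Finset.univ : Finset (Fin r × Fin r)) fun p => p.1 ≠ p.2
  rw [Finset.card_univ, Fintype.card_prod, Fintype.card_fin, ← sq] at this
  exact_mod_cast this

theorem sum_Od_le {f : Fin r × Fin r → ℝ} {c : ℝ} (hc : 0 ≤ c) (h : ∀ p ∈ Od r, f p ≤ c) :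
    ∑ p ∈ Od r, f p ≤ r ^ 2 * c :=
  (Finset.sum_le_card_nsmul _ _ c h).trans (by
    rw [nsmul_eq_mul]; exact mul_le_mul_of_nonneg_right (card_Od r) hc)

/-- trees with a split at the top have no weight -/
theorem abs_avc_top (hM : Mono 0 M) (ht : dm M 0 M.length = 0) {j : ℕ} (hj : j < M.length) (k : ℕ)
    {f g : SM (1 + k + 1) → ℝ} (e : ∀ σ, Rz M.length σ → σ (old k 1) (old k 0) = j →
      (∀ a b, a ≠ b → σ a b < M.length) → |f σ| ≤ g σ) :
    |avc M (tw M.length j) k f| ≤ avc M (tw M.length j) k g := by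
  classical
  set T : Finset (SM (1 + k + 1)) :=
    Fintype.piFinset fun _ => Fintype.piFinset fun _ => Finset.range (M.length + 1) with hT
  set B := ∑ σ ∈ T, (|f σ| + |g σ|) with hB
  have B0 : 0 ≤ B := Finset.sum_nonneg fun _ _ => by positivity
  have i0 : ∀ v, (0 : ℝ) ≤ if v = M.length then 1 else 0 := fun v => by positivity
  refine (abs_avc_le hM (rz_tw _ j) k (g := fun σ => g σ + B * ∑ p ∈ Od (1 + k + 1),
    if σ p.1 p.2 = M.length then 1 else 0) fun σ hσ ho => ?_).trans ?_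
  · have s0 : (0 : ℝ) ≤ ∑ p ∈ Od (1 + k + 1), if σ p.1 p.2 = M.length then 1 else 0 :=
      Finset.sum_nonneg fun _ _ => i0 _
    by_cases h : ∀ a b, a ≠ b → σ a b < M.length
    · refine (e σ hσ ((ho 1 0).trans ?_) h).trans (le_add_of_nonneg_right (mul_nonneg B0 s0))
      rw [(rz_tw _ j).comm, tw_01 hj.le]
    · push Not at h
      obtain ⟨a, b, hab, h⟩ := h
      have h1 := Finset.single_le_sum (f := fun p : Fin (1 + k + 1) × Fin (1 + k + 1) =>
        if σ p.1 p.2 = M.length then (1 : ℝ) else 0) (fun _ _ => i0 _) (mem_Od hab)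
      rw [if_pos (le_antisymm (hσ.le a b) h)] at h1
      have h2 : |f σ| + |g σ| ≤ B := Finset.single_le_sum (f := fun σ => |f σ| + |g σ|)
        (fun _ _ => by positivity) (Fintype.mem_piFinset.2 fun a => Fintype.mem_piFinset.2 fun b =>
          Finset.mem_range.2 (Nat.lt_succ_of_le (hσ.le a b)))
      nlinarith [neg_abs_le (g σ)]
  · rw [avc_add, avc_mul, avc_sum]
    refine add_le_of_nonpos_right (mul_nonpos_of_nonneg_of_nonpos B0
      (Finset.sum_nonpos fun p hp => ?_))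
    refine (avc_pair_le hM hj.le k (D := fun v => if v = M.length then 1 else 0) i0
      (ne_Od hp)).trans_eq ?_
    simp [Br, hj.ne, ht]

/-- any upper pair -/
theorem avc_up (hM : Mono 0 M) {j : ℕ} (hj : j ≤ M.length) (k : ℕ) {D : ℕ → ℝ} (hD : ∀ v, 0 ≤ D v) :
    avc M (tw M.length j) k (fun σ => ∑ p ∈ Od (1 + k + 1), D (σ p.1 p.2)) ≤
      ((1 + k + 1 : ℕ) : ℝ) ^ 2 * ((3 * (1 + k)) ^ k * (2 * (D j + Br M D))) := by
  rw [avc_sum]
  have := Br_nonneg hM fun v _ => hD v
  have := hD j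
  refine sum_Od_le (by positivity) fun p hp => (avc_pair_le hM hj k hD (ne_Od hp)).trans ?_
  gcongr
  linarith

/-- some pair splits at a low level -/
def Low (J : ℕ) (σ : SM r) : Prop := ∃ a b, a ≠ b ∧ σ a b ≤ J

open Classical in
/-- an upper pair and a low pair -/
theorem avc_low (hM : Mono 0 M) {J j : ℕ} (hj : j ≤ M.length) (hJ : J < j) (k : ℕ) {D : ℕ → ℝ}
    (hD : ∀ v, 0 ≤ D v) (h0 : ∀ v ≤ J, D v = 0) :
    avc M (tw M.length j) k (fun σ => ∑ p ∈ Od (1 + k + 1), if Low J σ then D (σ p.1 p.2) else 0) ≤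
      ((1 + k + 1 : ℕ) : ℝ) ^ 2 * ((3 * (1 + k)) ^ k * (ex M J * (D j + Br M D))) := by
  rw [avc_sum]
  have b0 := Br_nonneg hM fun v _ => hD v
  have := hD j
  have := ex_nonneg hM J
  have hF : ∀ u v, 0 ≤ (if u ≤ J then (1 : ℝ) else 0) * D v := fun u v =>
    mul_nonneg (by positivity) (hD v)
  refine sum_Od_le (by positivity) fun p hp => (avc_two hM hj k hF fun σ y _ hc => ?_).trans ?_
  · obtain ⟨h1, h2, h3⟩ := P2_nonneg hM hF y
    have p0 := add_nonneg (add_nonneg h1 h2) h3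
    split_ifs with h
    · obtain ⟨a, b, hab, h⟩ := h
      obtain ⟨i, hi⟩ := hc.mem a b hab
      obtain ⟨i', hi'⟩ := hc.mem _ _ (ne_Od hp)
      by_cases h4 : σ p.1 p.2 ≤ J
      · rw [h0 _ h4]
        exact p0
      · refine le_trans ?_ (le_P2 hM hF y (i := i) (i' := i') fun e => h4 (by rw [hi', ← e, ← hi]; exact h))
        rw [← hi, ← hi', if_pos h, one_mul]
    · exact p0
  · refine mul_le_mul_of_nonneg_left ?_ (by positivity)
    have h1 := Br_le hM J
    simp only [if_neg hJ.not_ge, zero_mul, Br_const, Br_mul, zero_add]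
    simp only [mul_comm (ite _ _ _), Br_mul]
    nlinarith [mul_le_mul_of_nonneg_left h1 (hD j), mul_le_mul_of_nonneg_left h1 b0]

/-- the cell of a level: `1 … J` or above `J` -/
def okc (J : ℕ) : Bool → ℕ → Prop
  | true, j => 1 ≤ j ∧ j ≤ J
  | false, j => J < j

/-- the edges lie in the cells of the letters -/
def Cel (J : ℕ) (σ : SM r) (A : List (Bool × ℕ)) (E : EL r) : Prop :=
  List.Forall₂ (fun a e => okc J a.1 (σ e.1 e.2)) A E

/-- the kernel `U` lives on the cell `a.1` and has degree `a.2` in the size `Z` -/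
def Kb (J K : ℕ) (T : ℝ) (Z U : ℕ → Ω → Ω → ℝ) (a : Bool × ℕ) : Prop :=
  ∀ j ≤ K, ∀ x y, (okc J a.1 j → |U j x y| ≤ T * Z j x y ^ a.2) ∧ (¬okc J a.1 j → U j x y = 0)

/-- degree on a cell -/
def dC (c : Bool) (A : List (Bool × ℕ)) : ℕ := (A.map fun a => if a.1 = c then a.2 else 0).sum

variable {J K : ℕ} {T : ℝ} {Z : ℕ → Ω → Ω → ℝ} {σ : SM r}

omit [Fintype Ω] in
theorem eF_zero (hσ : ∀ a b, σ a b ≤ K) (x : Fin r → Ω) {U : List (ℕ → Ω → Ω → ℝ)}
    {A : List (Bool × ℕ)} (H : List.Forall₂ (Kb J K T Z) U A) :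
    ∀ E : EL r, A.length = E.length → ¬Cel J σ A E → eF U σ E x = 0 := by
  induction H with
  | nil => intro E hE h; cases E with
    | nil => exact absurd .nil h
    | cons => simp at hE
  | @cons S a U A h1 _ ih => intro E hE h; cases E with
    | nil => simp at hE
    | cons e E =>
      rw [eF]
      by_cases h2 : Cel J σ A E
      · rw [(h1 _ (hσ _ _) _ _).2 fun h3 => h (.cons h3 h2), mul_zero]
      · rw [ih E (by simpa using hE) h2, zero_mul]

omit [Fintype Ω] in
theorem eF_le (hσ : ∀ a b, σ a b ≤ K) (hT : 0 ≤ T) (hZ : ∀ j x y, 0 ≤ Z j x y) (x : Fin r → Ω)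
    {y : Bool → ℝ} (hy : ∀ c a b, a ≠ b → okc J c (σ a b) → Z (σ a b) (x a) (x b) ≤ y c)
    (y0 : ∀ c, 0 ≤ y c) {U : List (ℕ → Ω → Ω → ℝ)} {A : List (Bool × ℕ)}
    (H : List.Forall₂ (Kb J K T Z) U A) : ∀ E : EL r, E.Ok → Cel J σ A E →
      |eF U σ E x| ≤ T ^ A.length * (y true ^ dC true A * y false ^ dC false A) := by
  induction H with
  | nil => intro E _ _; simp [eF, dC]
  | @cons S a U A h1 _ ih => intro E hE h; cases h with
    | @cons _ e _ E h2 h3 =>
      have h4 := ((h1 _ (hσ _ _) (x e.1) (x e.2)).1 h2).trans (mul_le_mul_of_nonneg_left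
        (pow_le_pow_left₀ (hZ _ _ _) (hy _ _ _ (hE e List.mem_cons_self) h2) _) hT)
      have := y0 true
      have := y0 false
      rw [eF, abs_mul]
      refine (mul_le_mul (ih E (fun e he => hE e (List.mem_cons_of_mem _ he)) h3) h4 (abs_nonneg _)
        (by positivity)).trans_eq ?_
      obtain ⟨c, d⟩ := a
      cases c <;> simp [dC, pow_add, pow_succ] <;> ring

omit [Fintype Ω] in
theorem abs_eF_le (hσ : ∀ a b, σ a b ≤ K) {b : ℝ} (hb : 1 ≤ b) (x : Fin r → Ω) :
    ∀ (U : List (ℕ → Ω → Ω → ℝ)) (E : EL r), (∀ S ∈ U, ∀ j ≤ K, ∀ x y, |S j x y| ≤ b) →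
      |eF U σ E x| ≤ b ^ U.length
  | [], _, _ => by simp [eF]
  | _ :: _, [], _ => by simpa [eF] using one_le_pow₀ (n := _ + 1) hb
  | S :: U, e :: E, h => by
      rw [eF, abs_mul, List.length_cons, pow_succ]
      exact mul_le_mul (abs_eF_le hσ hb x U E fun S hS => h S (List.mem_cons_of_mem _ hS))
        (h S List.mem_cons_self _ (hσ _ _) _ _) (abs_nonneg _) (by positivity)

theorem abs_TM_eF {w : Ω → ℝ} (hw : Wt w) {L : List (Lv Ω)} (h : Ω → ℝ) (hσ : Rz L.length σ)
    {b : ℝ} (hb : 1 ≤ b) {U : List (ℕ → Ω → Ω → ℝ)} (E : EL r)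
    (H : ∀ S ∈ U, ∀ j ≤ L.length, ∀ x y, |S j x y| ≤ b) :
    |TM w L h σ (eF U σ E)| ≤ b ^ U.length := by
  have key := fun x => abs_le.1 (abs_eF_le hσ.le hb x U E H)
  have h1 := TM_mono (h := h) hw hσ fun x => (key x).2
  have h2 := TM_mono (h := h) hw hσ fun x => (key x).1
  rw [TM_const hw hσ] at h1 h2
  exact abs_le.2 ⟨h2, h1⟩

theorem dC_le (c : Bool) {A : List (Bool × ℕ)} (h : ∀ a ∈ A, a.2 ≤ 2) : dC c A ≤ 2 * A.length := by
  have := List.sum_le_card_nsmul (A.map fun a => if a.1 = c then a.2 else 0) 2 fun x hx => by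
    obtain ⟨a, ha, rfl⟩ := List.mem_map.1 hx
    split_ifs
    exacts [h a ha, zero_le_two]
  rwa [List.length_map, smul_eq_mul, mul_comm] at this

theorem add_pow_le {X t : ℝ} (h0 : 0 ≤ X) (h1 : X ≤ 1) (t0 : 0 ≤ t) (t1 : t ≤ 1) :
    ∀ n : ℕ, (X + t) ^ n ≤ X ^ n + n * 2 ^ n * t
  | 0 => by simp
  | n + 1 => by
      have h2 := mul_le_mul_of_nonneg_left (add_pow_le h0 h1 t0 t1 n) (add_nonneg h0 t0)
      have h3 := mul_le_mul_of_nonneg_left (pow_le_one₀ (n := n) h0 h1) t0
      have h4 : (1 : ℝ) ≤ 2 ^ n := one_le_pow₀ one_le_two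
      have h5 : 0 ≤ (n : ℝ) * 2 ^ n * t := by positivity
      rw [pow_succ', pow_succ', pow_succ']
      push_cast
      nlinarith [mul_le_mul_of_nonneg_left h4 t0, mul_le_mul_of_nonneg_left
        (show X + t ≤ 2 by linarith) h5]

theorem Cel.low {A : List (Bool × ℕ)} {E : EL r} (h : Cel J σ A E) (hE : E.Ok)
    (hd : dC true A ≠ 0) : Low J σ := by
  induction h with
  | nil => simp [dC] at hd
  | @cons a e A E h1 _ ih =>
    obtain ⟨c, d⟩ := a
    cases c
    · exact ih (fun e he => hE e (List.mem_cons_of_mem _ he)) (by simpa [dC] using hd)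
    · exact ⟨_, _, hE e List.mem_cons_self, h1.2⟩

/-- **the bulk factor on one tree** -/
theorem bulk_le {w : Ω → ℝ} (hw : Wt w) {L : List (Lv Ω)} (h : Ω → ℝ) (hσ : Rz L.length σ)
    (hT : 0 ≤ T) (hZ : ∀ j x y, 0 ≤ Z j x y) (Z1 : ∀ j x y, okc J true j → Z j x y ≤ 1)
    (Z2 : ∀ j ≤ L.length, ∀ x y, Z j x y ≤ 2) {X tl : ℝ} (X0 : 0 ≤ X) (X1 : X ≤ 1) (t0 : 0 ≤ tl)
    (env : ∀ j, okc J true j → pi2 w L j (fun x y => max (Z j x y - X) 0) h ≤ tl)
    {U : List (ℕ → Ω → Ω → ℝ)} {A : List (Bool × ℕ)} (H : List.Forall₂ (Kb J L.length T Z) U A)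
    {E : EL r} (hE : E.Ok) (hc : Cel J σ A E) {a b : Fin r} (hab : a ≠ b) (hJ : J < σ a b) :
    |TM w L h σ (eF U σ E)| ≤ T ^ A.length * (X ^ dC true A * ∑ p ∈ Od r,
      (if J < σ p.1 p.2 then pi2 w L (σ p.1 p.2) (fun x y => Z (σ p.1 p.2) x y ^ dC false A) h
        else 0) + dC true A * 2 ^ dC true A * 2 ^ dC false A * (r ^ 2 * tl)) := by
  classical
  set G : (Fin r → Ω) → ℝ := fun x => T ^ A.length * (X ^ dC true A * ∑ p ∈ Od r,
    (if J < σ p.1 p.2 then Z (σ p.1 p.2) (x p.1) (x p.2) ^ dC false A else 0) +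
      dC true A * 2 ^ dC true A * 2 ^ dC false A * ∑ p ∈ Od r, if okc J true (σ p.1 p.2) then
        max (Z (σ p.1 p.2) (x p.1) (x p.2) - X) 0 else 0) with hG
  have key : ∀ x, |eF U σ E x| ≤ G x := fun x => by
    obtain ⟨p, hp, hm⟩ := ((Od r).filter fun p => J < σ p.1 p.2).exists_max_image
      (fun p => Z (σ p.1 p.2) (x p.1) (x p.2)) ⟨(a, b), Finset.mem_filter.2 ⟨mem_Od hab, hJ⟩⟩
    obtain ⟨hp, hp'⟩ := Finset.mem_filter.1 hp
    set m := Z (σ p.1 p.2) (x p.1) (x p.2) with hm'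
    set s := ∑ p ∈ Od r, if okc J true (σ p.1 p.2) then
      max (Z (σ p.1 p.2) (x p.1) (x p.2) - X) 0 else 0 with hs
    have n0 : ∀ p : Fin r × Fin r, (0 : ℝ) ≤ if okc J true (σ p.1 p.2) then
        max (Z (σ p.1 p.2) (x p.1) (x p.2) - X) 0 else 0 := fun p => by positivity
    have s0 : 0 ≤ s := Finset.sum_nonneg fun p _ => n0 p
    have m0 : 0 ≤ m := hZ _ _ _
    have u0 : 0 ≤ min 1 s := le_min zero_le_one s0
    have h1 := eF_le hσ.le hT hZ x (y := fun c => if c then X + min 1 s else m)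
      (fun c a b hab hc => by
        cases c
        · exact hm (a, b) (Finset.mem_filter.2 ⟨mem_Od hab, hc⟩)
        · have h2 := Finset.single_le_sum (fun p _ => n0 p) (mem_Od hab)
          rw [if_pos hc] at h2
          have h3 := Z1 _ (x a) (x b) hc
          have h4 := le_max_left (Z (σ a b) (x a) (x b) - X) 0
          rw [if_pos rfl, ← sub_le_iff_le_add']
          exact le_min (by linarith) (h4.trans h2))
      (fun c => by cases c; exacts [m0, add_nonneg X0 u0]) H E hE hc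
    refine h1.trans (mul_le_mul_of_nonneg_left ?_ (by positivity))
    have h2 := Finset.single_le_sum (f := fun p : Fin r × Fin r => if J < σ p.1 p.2 then
      Z (σ p.1 p.2) (x p.1) (x p.2) ^ dC false A else 0) (fun p _ => by
        have := hZ (σ p.1 p.2) (x p.1) (x p.2)
        positivity) hp
    rw [if_pos hp'] at h2
    have h3 := pow_le_pow_left₀ m0 (Z2 _ (hσ.le _ _) _ _) (dC false A)
    refine (mul_le_mul_of_nonneg_right (add_pow_le X0 X1 u0 (min_le_left _ _) _)
      (pow_nonneg m0 _)).trans ?_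
    rw [add_mul, mul_right_comm]
    exact add_le_add (mul_le_mul_of_nonneg_left h2 (pow_nonneg X0 _)) (mul_le_mul
      (mul_le_mul_of_nonneg_left h3 (by positivity)) (min_le_right _ _) u0 (by positivity))
  have h1 := TM_mono (h := h) hw hσ fun x => (abs_le.1 (key x)).2
  have h2 := TM_mono (h := h) hw hσ (F := fun x => -1 * G x) (G := eF U σ E) fun x => by
    linarith [(abs_le.1 (key x)).1]
  rw [TM_mul] at h2
  refine (abs_le.2 ⟨by linarith, h1⟩).trans ?_
  simp only [hG, TM_mul, TM_add, TM_sum]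
  refine mul_le_mul_of_nonneg_left (add_le_add (mul_le_mul_of_nonneg_left (Finset.sum_le_sum
    fun p hp => ?_) (pow_nonneg X0 _)) (mul_le_mul_of_nonneg_left (sum_Od_le t0 fun p hp => ?_)
      (by positivity))) (by positivity)
  · split_ifs
    · exact (TM_pair hw hσ (ne_Od hp) fun x y => Z (σ p.1 p.2) x y ^ dC false A).le
    · exact (TM_const hw hσ 0).le
  · split_ifs with h3
    · exact (TM_pair hw hσ (ne_Od hp) fun x y => max (Z (σ p.1 p.2) x y - X) 0).trans_le (env _ h3)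
    · exact (TM_const hw hσ 0).trans_le t0

end gen

section cd
open C40 Mul55 OneP

/-- cell and degree of a letter -/
def gl (a : Lt) : Bool × ℕ := (a.1, Mul55.dg a)

/-- degree of a word on a cell -/
def dW (c : Bool) (f : List Lt) : ℕ := dC c (f.map gl)

/-- the power of `X` of a word: low degree, and one more for the weight of a low split -/
def lw (f : List Lt) : ℕ := if dW true f = 0 then 0 else dW true f + 1

/-- site kernels of a word, last letter first -/
def zs (D : CD) (f : List Lt) : List SK := f.reverse.map fun a => oZs D.q a.2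

/-- the site factor of the word `f` on a marked pair with kernel `ξ` at `j` is at most `c` -/
def Site (D : CD) (f : List Lt) (j : ℕ) (ξ : Bool → Bool → ℝ) (c : ℝ) : Prop :=
  ∀ r ≤ 2 * f.length + 2, ∀ (σ : SM r) (N : EL r) (a b : Fin r), Rz D.K σ → N.Ok → a ≠ b →
    σ a b = j → Cel D.J σ (f.reverse.map gl) N → (∀ a b, a ≠ b → σ a b < D.K) →
    |TM (fun _ => 1) D.S 0 σ (eF (zs D f ++ [fun _ => ξ]) σ (N ++ [(a, b)]))| ≤ c

variable {D : CD} {τ0 : ℝ}

theorem X0 (h : D.Ok τ0) : 0 ≤ D.X := (ex_nonneg h.mono _).trans h.x1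

theorem lenB (D : CD) : D.B.length = D.K := List.length_map _

theorem lenS (D : CD) : D.S.length = D.K := opS_length

theorem dC_rev (c : Bool) (f : List Lt) : dC c (f.reverse.map gl) = dW c f := by
  simp only [dW, dC, List.map_reverse, List.sum_reverse]

theorem abs_site_le (h : D.Ok τ0) (f : List Lt) {ξ : Bool → Bool → ℝ} (hξ : ∀ a b, |ξ a b| ≤ 2)
    {r : ℕ} {σ : SM r} (hσ : Rz D.K σ) (E : EL r) :
    |TM (fun _ => 1) D.S 0 σ (eF (zs D f ++ [fun _ => ξ]) σ E)| ≤ 2 ^ (f.length + 1) := by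
  have := abs_TM_eF wt_one90 (L := D.S) 0 ((lenS D).symm ▸ hσ) one_le_two
    (U := zs D f ++ [fun _ => ξ]) E fun S hS j hj x y => by
      rcases List.mem_append.1 hS with hS | hS
      · obtain ⟨⟨c, b⟩, -, rfl⟩ := List.mem_map.1 hS
        cases b
        · simp [oZs]
        · exact abs_oE_le h.ook (by rwa [opS_length] at hj) x y
      · rw [List.mem_singleton.1 hS]
        exact hξ x y
  simpa [zs] using this

theorem site_crude (h : D.Ok τ0) (f : List Lt) (j : ℕ) {ξ : Bool → Bool → ℝ}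
    (hξ : ∀ a b, |ξ a b| ≤ 2) : Site D f j ξ (2 ^ (f.length + 1)) :=
  fun _ _ _ _ _ _ hσ _ _ _ _ _ => abs_site_le h f hξ hσ _

theorem kb_lt (h : D.Ok τ0) (a : Lt) : Kb D.J D.K (max τ0 1) (fun j x y => |oU D.q j x y|)
    (lt D.n D.β D.M D.q D.cl a).1 (gl a) := fun j hj x y => by
  obtain ⟨t0, t1⟩ := h.ook.oTau_le D.n D.β j
  have t2 : oTau D.n D.β D.M j ≤ max τ0 1 := (t1.trans h.tau).trans (le_max_left _ _)
  obtain ⟨c, b⟩ := a
  have h1 : |oUb D.n D.β D.M D.q b j x y| ≤ max τ0 1 * |oU D.q j x y| ^ Mul55.dg (c, b) := by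
    have h3 := abs_nonneg (oU D.q j x y)
    cases b
    · simp only [oUb, Mul55.dg, abs_mul, abs_neg, abs_pow, abs_div, abs_of_nonneg t0]
      norm_num
      rw [← sq_abs]
      nlinarith [sq_nonneg |oU D.q j x y|]
    · simp only [oUb, Mul55.dg, abs_mul, abs_div, abs_of_nonneg t0]
      norm_num
      nlinarith
  refine ⟨fun _ => ?_, fun h2 => ?_⟩
  · simp only [lt, cut]
    split_ifs
    · exact h1
    · simpa using (abs_nonneg _).trans h1
  · simp only [lt, cut]
    split_ifs with h3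
    · cases c
      · exact absurd (show D.J < j by simpa [CD.cl] using h3) h2
      · obtain rfl : j = 0 := by
          have : j ≤ D.J := by simpa [CD.cl] using h3
          have : ¬(1 ≤ j ∧ j ≤ D.J) := h2
          omega
        rw [oUb_zero]
        rfl
    · rfl

theorem Br_up (h : D.Ok τ0) (a : ℕ → ℝ) :
    Br D.B (fun v => if D.J < v then a v else 0) = D.I a := by
  rw [Br, lenB, Finset.sum_range_succ, show dm D.B 0 D.K = 0 from h.top, zero_mul, add_zero, CD.I]
  simp only [mul_ite, mul_zero]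
  rw [← Finset.sum_filter]
  refine Finset.sum_congr ?_ fun _ _ => rfl
  ext j
  simp [and_comm]

/-- the constant of a word of `k` letters -/
def cN (τ0 : ℝ) (k : ℕ) : ℝ := cG k * (max τ0 1 ^ (k + 1) * (2 * k + 2) ^ 2 *
  ((3 * (1 + 2 * k)) ^ (2 * k) * 2 + (2 * k + 2) * 2 ^ (2 * k + 2) * 2 ^ (2 * k + 2) * 2 ^ (k + 1)))

theorem cN_nonneg (τ0 : ℝ) (k : ℕ) : 0 ≤ cN τ0 k := by
  have := cG_pos k
  have : 0 ≤ max τ0 1 := zero_le_one.trans (le_max_right _ _)
  unfold cN
  positivity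

open Classical in
/-- **the crude bound at an upper node** -/
theorem crude_node (h : D.Ok τ0) (f : List Lt) {j : ℕ} (hj : j ∈ D.up)
    {G : Cube D.n → Cube D.n → ℝ} {ξ : Bool → Bool → ℝ} {m : ℕ} (hm : m ≤ 2)
    (hG : ∀ x y, |G x y| ≤ max τ0 1 * |oU D.q j x y| ^ m) (hξ : ∀ a b, |ξ a b| ≤ 2) {c : ℝ}
    (hc : 0 ≤ c) (hs : Site D f j ξ c) :
    |wB (-1) D.B (oB D.n D.β D.M D.q []) (f.map (lt D.n D.β D.M D.q D.cl)) (Sh.two j)
      (pr2 j G) (pr2 j ξ)| ≤ cN τ0 f.length *
        (c * D.X ^ lw f * (D.u (dW false f + m) j + D.I (D.u (dW false f + m))) + D.tl) := by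
  obtain ⟨hJ, hK⟩ := Finset.mem_Ioo.1 hj
  have hK' : j < D.B.length := by rwa [lenB]
  have T1 : 1 ≤ max τ0 1 := le_max_right _ _
  have x0 := X0 h
  set T := max τ0 1 with hT
  set k := f.length with hk
  set p := dW false f + m with hp
  set V := f.map (lt D.n D.β D.M D.q D.cl) with hV
  set P : (ℕ → Cube D.n → Cube D.n → ℝ) × SK := (fun i => if i = j then G else 0, fun _ => ξ) with hP
  set A : List (Bool × ℕ) := f.reverse.map gl ++ [(false, m)] with hA
  set Du : ℕ → ℝ := fun v => if D.J < v then D.u p v else 0 with hDu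
  have Du0 : ∀ v, 0 ≤ Du v := fun v => by
    simp only [hDu]
    split_ifs
    exacts [uM_nonneg _ _, le_rfl]
  have I0 : 0 ≤ D.I (D.u p) := Br_up h _ ▸ Br_nonneg h.mono fun v _ => Du0 v
  have u0 : 0 ≤ D.u p j := uM_nonneg _ _
  have t0 := h.tl0
  have lA : A.length = k + 1 := by simp [hA, hk]
  have d1 : dC true A = dW true f := by simp [hA, ← dC_rev, dC]
  have d2 : dC false A = p := by simp [hA, hp, ← dC_rev, dC]
  have dA : ∀ c, dC c A ≤ 2 * k + 2 := fun c => by
    have := dC_le c (A := A) fun a ha => by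
      rcases List.mem_append.1 ha with ha | ha
      · obtain ⟨a, -, rfl⟩ := List.mem_map.1 ha
        simp only [gl, Mul55.dg]
        split_ifs <;> norm_num
      · rw [List.mem_singleton.1 ha]
        exact hm
    omega
  have hU : List.Forall₂ (Kb D.J D.B.length T fun j x y => |oU D.q j x y|)
      ((V.reverse ++ [P]).map Prod.fst) A := by
    rw [lenB, List.map_append, hV, ← List.map_reverse, List.map_map]
    refine List.rel_append ?_ (.cons (fun i _ x y => ⟨fun _ => ?_, fun h1 => ?_⟩) .nil)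
    · rw [List.forall₂_map_left_iff, List.forall₂_map_right_iff, List.forall₂_same]
      exact fun a _ => kb_lt h a
    · simp only [hP]
      split_ifs with h1
      · exact h1 ▸ hG x y
      · simp only [Pi.zero_apply, abs_zero]
        positivity
    · simp only [hP]
      rw [if_neg fun e : i = j => h1 (show D.J < i from e ▸ hJ)]
      rfl
  have eZ : (V.reverse ++ [P]).map Prod.snd = zs D f ++ [fun _ => ξ] := by
    rw [List.map_append, hV, ← List.map_reverse, List.map_map]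
    rfl
  have hS := rep_TE wt_one90 D.S 0 ((V.reverse ++ [P]).map Prod.snd)
  rw [lenS, ← lenB] at hS
  have e := (rep_wB (-1) D.B _ _ V [P] (repB_mul (rep_TE wt_one90 D.B 0 _) hS)).two hK'.le
  have e1 : P.1 j = G := if_pos rfl
  rw [e1] at e
  refine (congrArg abs e).trans_le ?_
  rw [hV, List.length_map, ← hV, ← hk, cN, mul_assoc]
  refine abs_node_le j k _ fun k' hk' N hN hO => ?_
  set ct : ℝ := (2 * k + 2) * 2 ^ (2 * k + 2) * 2 ^ (2 * k + 2) * 2 ^ (k + 1) with hct
  have r1 : ((1 + k' + 1 : ℕ) : ℝ) ^ 2 ≤ (2 * k + 2) ^ 2 := by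
    have : ((1 + k' + 1 : ℕ) : ℝ) ≤ ((2 * k + 2 : ℕ) : ℝ) := by exact_mod_cast (by omega)
    push_cast at this ⊢
    gcongr
  have r2 : (3 * (1 + k' : ℝ)) ^ k' ≤ (3 * (1 + 2 * k)) ^ (2 * k) := by
    have h1 : (k' : ℝ) ≤ 2 * k := by exact_mod_cast hk'
    have h2 : (0 : ℝ) ≤ k := Nat.cast_nonneg _
    exact (pow_le_pow_left₀ (by positivity) (by linarith) _).trans
      (pow_le_pow_right₀ (by linarith) hk')
  refine (abs_avc_top h.mono (by rw [lenB]; exact h.top) hK' k' (g := fun σ => T ^ (k + 1) *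
    (c * D.X ^ dW true f * (∑ q ∈ Od (1 + k' + 1), if dW true f = 0 ∨ Low D.J σ then
      Du (σ q.1 q.2) else 0) + ct * ((2 * k + 2) ^ 2 * D.tl))) fun σ hσ ho ht => ?_).trans ?_
  · have ne : old (r := 1) k' 1 ≠ old k' 0 := fun e => absurd (old_inj k' e) (by decide)
    have hO' : EL.Ok (N ++ [(old k' 1, old k' 0)]) := fun e he => by
      rcases List.mem_append.1 he with he | he
      · exact hO e he
      · rw [List.mem_singleton.1 he]
        exact ne
    have s0 : 0 ≤ ∑ q ∈ Od (1 + k' + 1), if dW true f = 0 ∨ Low D.J σ then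
        Du (σ q.1 q.2) else 0 := Finset.sum_nonneg fun q _ => by
      split_ifs
      exacts [Du0 _, le_rfl]
    simp only [tmG]
    by_cases hC : Cel D.J σ A (N ++ [(old k' 1, old k' 0)])
    · have b1 := bulk_le wt_one90 (L := D.B) 0 hσ (zero_le_one.trans T1) (fun _ _ _ => abs_nonneg _)
        (fun i x y hi => by rw [oU, h.qlo i hi.2, sub_zero]; exact abs_ov_le x y)
        (fun i hi x y => abs_oU_le h.ook (by rwa [lenB] at hi) x y) x0 h.X1 t0
        (fun i hi => by
          simp only [oU, h.qlo i hi.2, sub_zero]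
          exact h.envL i (Finset.mem_Icc.2 hi)) hU hO' hC ne (ho ▸ hJ)
      have hL : dW true f = 0 ∨ Low D.J σ := by
        rw [← d1]
        exact or_iff_not_imp_left.2 (hC.low hO')
      rw [lenB] at hσ ht
      have hC' := List.forall₂_take_append _ _ _ hC
      rw [hA, List.take_left' (by simp [hN, hk])] at hC'
      have b2 := hs _ (by omega) σ N _ _ hσ hO ne ho hC' ht
      have b3 := abs_site_le h f hξ hσ (N ++ [(old k' 1, old k' 0)])
      have b4 : (dC true A : ℝ) * 2 ^ dC true A * 2 ^ dC false A * 2 ^ (k + 1) ≤ ct := by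
        have h1 : (dC true A : ℝ) ≤ ((2 * k + 2 : ℕ) : ℝ) := by exact_mod_cast dA true
        have h2 := pow_le_pow_right₀ (one_le_two (α := ℝ)) (dA true)
        have h3 := pow_le_pow_right₀ (one_le_two (α := ℝ)) (dA false)
        push_cast at h1
        rw [hct]
        gcongr
      rw [lA, d2, d1] at b1
      rw [d2, d1] at b4
      simp only [hL, if_true] at s0 ⊢
      rw [abs_mul, eZ]
      refine (mul_le_mul_of_nonneg_right b1 (abs_nonneg _)).trans ?_
      rw [mul_assoc, add_mul]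
      refine mul_le_mul_of_nonneg_left (add_le_add ?_ ?_) (by positivity)
      · rw [mul_comm, mul_assoc c]
        exact mul_le_mul_of_nonneg_right b2 (mul_nonneg (pow_nonneg x0 _) s0)
      · rw [mul_right_comm]
        exact mul_le_mul ((mul_le_mul_of_nonneg_left b3 (by positivity)).trans b4)
          (mul_le_mul_of_nonneg_right r1 t0) (by positivity) (by positivity)
    · rw [show eF ((V.reverse ++ [P]).map Prod.fst) σ (N ++ [(old k' 1, old k' 0)]) = fun _ => 0 from
        funext fun x => eF_zero hσ.le x hU _ (by simp [lA, hN]) hC, TM_const wt_one90 hσ, zero_mul,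
        abs_zero]
      positivity
  · rw [avc_mul, avc_add, avc_mul, avc_const, mul_assoc (T ^ _), mul_assoc (T ^ _)]
    refine mul_le_mul_of_nonneg_left ?_ (by positivity)
    have key : D.X ^ dW true f * avc D.B (tw D.B.length j) k' (fun σ => ∑ q ∈ Od (1 + k' + 1),
        if dW true f = 0 ∨ Low D.J σ then Du (σ q.1 q.2) else 0) ≤ (2 * k + 2) ^ 2 *
          ((3 * (1 + 2 * k)) ^ (2 * k) * 2 * (D.X ^ lw f * (D.u p j + D.I (D.u p)))) := by
      have e2 : Du j + Br D.B Du = D.u p j + D.I (D.u p) := by rw [Br_up h, hDu]; simp [hJ]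
      have n0 := add_nonneg u0 I0
      by_cases h0 : dW true f = 0
      · simp only [h0, lw, true_or, if_true, pow_zero, one_mul]
        refine (avc_up h.mono hK'.le k' Du0).trans ?_
        rw [e2, mul_assoc]
        gcongr
      · simp only [h0, lw, false_or, if_false]
        refine (mul_le_mul_of_nonneg_left (avc_low h.mono hK'.le hJ k' Du0 fun v hv => if_neg
          hv.not_gt) (pow_nonneg x0 _)).trans ?_
        rw [e2, mul_left_comm, mul_left_comm (D.X ^ _), ← mul_assoc (D.X ^ _),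
          pow_succ D.X (dW true f)]
        have := h.x1
        have := ex_nonneg h.mono D.J
        have : (3 * (1 + k' : ℝ)) ^ k' ≤ (3 * (1 + 2 * k)) ^ (2 * k) * 2 :=
          r2.trans (le_mul_of_one_le_right (by positivity) one_le_two)
        gcongr
    have k2 := mul_le_mul_of_nonneg_left key hc
    have p1 : 0 ≤ (2 * k + 2 : ℝ) ^ 2 * (ct * (c * (D.X ^ lw f * (D.u p j + D.I (D.u p))))) := by
      positivity
    have p2 : 0 ≤ (2 * k + 2 : ℝ) ^ 2 * ((3 * (1 + 2 * k)) ^ (2 * k) * 2 * D.tl) := by positivity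
    nlinarith

/-- `∑ |ω|` -/
theorem Iw_le (h : D.Ok τ0) (f : List Lt) {G : ℕ → Cube D.n → Cube D.n → ℝ} {ξ : SK} {m : ℕ}
    (hm : m ≤ 2) (hG : ∀ j ∈ D.up, ∀ x y, |G j x y| ≤ max τ0 1 * |oU D.q j x y| ^ m)
    (hξ : ∀ j ∈ D.up, ∀ a b, |ξ j a b| ≤ 2) {c : ℝ} (hc : 0 ≤ c)
    (hs : ∀ j ∈ D.up, Site D f j (ξ j) c) (μ : ℕ → ℝ) :
    |∑ j ∈ D.up, μ j * wB (-1) D.B (oB D.n D.β D.M D.q []) (f.map (lt D.n D.β D.M D.q D.cl))
      (Sh.two j) (pr2 j (G j)) (pr2 j (ξ j))| ≤ cN τ0 f.length * ∑ j ∈ D.up, |μ j| *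
        (c * D.X ^ lw f * (D.u (dW false f + m) j + D.I (D.u (dW false f + m))) + D.tl) := by
  rw [Finset.mul_sum]
  refine (Finset.abs_sum_le_sum_abs _ _).trans (Finset.sum_le_sum fun j hj => ?_)
  rw [abs_mul, mul_left_comm]
  exact mul_le_mul_of_nonneg_left (crude_node h f hj hm (hG j hj) (hξ j hj) hc (hs j hj))
    (abs_nonneg _)

/-- **the `U` part of the test** -/
theorem abs_tU_le (h : D.Ok τ0) (f : List Lt) {c : ℝ} (hc : 0 ≤ c)
    (hs : ∀ j ∈ D.up, Site D f j (fun _ _ => 1) c) :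
    |D.tU f| ≤ cN τ0 f.length * D.Iw fun j =>
      c * D.X ^ lw f * (D.u (dW false f + 1) j + D.I (D.u (dW false f + 1))) + D.tl :=
  Iw_le h f (G := oU D.q) (ξ := fun _ _ _ => 1) one_le_two (fun j _ x y => by
    rw [pow_one]; exact le_mul_of_one_le_left (abs_nonneg _) (le_max_right _ _))
    (fun _ _ _ _ => by simp) hc hs D.om

/-- **the test of a word** -/
theorem abs_tw_test (h : D.Ok τ0) (hW : D.W.isSome = true) (f : List Lt) {c : ℝ} (hc : 0 ≤ c)
    (hs : ∀ j ∈ D.up, Site D f j (oE D.q j) c) :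
    |D.tw f| ≤ cN τ0 f.length * D.Iw fun j =>
      c * D.X ^ lw f * (D.u (dW false f) j + D.I (D.u (dW false f))) + D.tl := by
  obtain ⟨ω, hω⟩ := Option.isSome_iff_exists.1 hW
  have := Iw_le h f (G := fun _ _ _ => 1) (ξ := oE D.q) (m := 0) zero_le_two
    (fun j _ x y => by simp) (fun j hj a b => abs_oE_le h.ook (Finset.mem_Ioo.1 hj).2.le a b) hc hs
    D.om
  simp only [CD.tw, CD.dd, hω]
  exact this

theorem wB_zero (D : CD) (W : List SK) :
    ∀ (V : List ((ℕ → Cube D.n → Cube D.n → ℝ) × SK)) (s : Sh) (ξ : (s.Lf → Bool) → ℝ),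
      wB (-1) D.B (oB D.n D.β D.M D.q W) V s (fun _ => 0) ξ = 0
  | [], s, ξ => by rw [wB, oB, Law.TE_const wt_one90, zero_mul]
  | p :: V, s, ξ => by
      have e : ∀ τ : GT s, τ.ev p.1 (fun _ => 0) = fun _ => 0 := fun τ => by
        funext x
        simp [GT.ev]
      simp only [wB, e, wB_zero D W V, sg_zero]

/-- **the value of a word whose first letter is an upper one** -/
theorem abs_tm_up (h : D.Ok τ0) (b : Bool) (f : List Lt) {c : ℝ} (hc : 0 ≤ c)
    (hs : ∀ j ∈ D.up, Site D f j (oZs D.q b j) c) :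
    |tm D.n D.β D.M D.q D.cl ((false, b) :: f)| ≤ cN τ0 f.length *
      (2 * (c * D.X ^ lw f * D.I (D.u (dW false ((false, b) :: f)))) + D.tl) := by
  have hd : ∀ j, 0 ≤ D.dx j := dm_nonneg h.mono
  have e : dW false ((false, b) :: f) = dW false f + Mul55.dg ((false, b) : Lt) := by
    simp [dW, dC, gl, add_comm]
  have h1 := Iw_le h f (G := (lt D.n D.β D.M D.q D.cl (false, b)).1) (ξ := oZs D.q b)
    (m := Mul55.dg ((false, b) : Lt)) (by unfold Mul55.dg; split_ifs <;> norm_num)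
    (fun j hj x y => (kb_lt h (false, b) j (Finset.mem_Ioo.1 hj).2.le x y).1
      (Finset.mem_Ioo.1 hj).1)
    (fun j hj x y => by
      cases b
      · simp [oZs]
      · exact abs_oE_le h.ook (Finset.mem_Ioo.1 hj).2.le x y) hc hs D.dx
  have h2 := Br_up h fun j => wB (-1) D.B (oB D.n D.β D.M D.q []) (f.map (lt D.n D.β D.M D.q D.cl))
    (Sh.two j) (pr2 j ((lt D.n D.β D.M D.q D.cl (false, b)).1 j)) (pr2 j (oZs D.q b j))
  have h3 : tm D.n D.β D.M D.q D.cl ((false, b) :: f) = _ := (tm_eq h.pos h.ook _ _).trans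
    ((Finset.sum_congr rfl fun j _ => congrArg _ ?_).trans h2)
  · have h4 : D.I (fun _ => 1) ≤ 1 := Br_up h _ ▸ (Br_mono h.mono fun j _ => by
      split_ifs <;> norm_num).trans (Br_one _).le
    have h5 : 0 ≤ D.I (D.u (dW false f + Mul55.dg ((false, b) : Lt))) :=
      Finset.sum_nonneg fun j _ => mul_nonneg (hd j) (uM_nonneg _ _)
    have h6 : 0 ≤ c * D.X ^ lw f := mul_nonneg hc (pow_nonneg (X0 h) _)
    rw [h3, e]
    refine h1.trans (mul_le_mul_of_nonneg_left ?_ (cN_nonneg _ _))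
    simp only [abs_of_nonneg (hd _), mul_add, Finset.sum_add_distrib, mul_left_comm (D.dx _),
      ← Finset.mul_sum, ← Finset.sum_mul]
    simp only [CD.I, mul_one] at h4 h5 ⊢
    nlinarith [mul_le_mul_of_nonneg_left h4 (mul_nonneg h6 h5), mul_le_mul_of_nonneg_left h4 h.tl0]
  · split_ifs with h4
    · rfl
    · have e0 : (lt D.n D.β D.M D.q D.cl (false, b)).1 j = 0 := by simp [lt, cut, CD.cl, h4]
      rw [e0]
      exact wB_zero _ _ _ _ _

end cd

end Crest.Agent.T156.Cas.Cr22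

end
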