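import Crest.Agent.T156.OneP_23
import Crest.Agent.T156.CaTayC_38
import Crest.Agent.T156.Com_6

/-!
# Row 156: the ONE path, words and remainders (helper23)

Words of letters with degrees are bounded by moments of `|U|` in the `n`-system; the three heads
(val), (test), (amp) with explicit remainders.
-/

set_option autoImplicit false
set_option linter.unusedSectionVars false

noncomputable section

namespace Crest.Agent.T156.Cas

open MeasureTheory Real Set Filter Topology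
open Crest.Agent.T157.E Crest.Agent.T157.Casc Crest.Agent.T157.SL
open Crest.Agent.T157.G1 (ov fl)
open Crest.ProbabilityR.SpinGlassDynamics (spin)

section generic
variable {Ω S Θ Θ' A : Type}

/-- a word of tensor letters, in product form -/
def itV (ε : ℝ) (M : List (Lv Θ)) (U : A → ℕ → Ω → Ω → ℝ) (Z : A → ℕ → S → S → ℝ)
    (B : (s : Sh) → ((s.Lf → Ω) → ℝ) → ((s.Lf → S) → ℝ) → ℝ) :
    List A → (s : Sh) → ((s.Lf → Ω) → ℝ) → ((s.Lf → S) → ℝ) → ℝ
  | [], s, G, ξ => B s G ξ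
  | α :: l, s, G, ξ => sg ε M s fun τ => itV ε M U Z B l τ.sh (τ.ev (U α) G) (τ.ev (Z α) ξ)

theorem itM_eq_sum [Fintype A] (ε : ℝ) (M : List (Lv Θ)) (U : A → ℕ → Ω → Ω → ℝ)
    (Z : A → ℕ → S → S → ℝ) (B : (s : Sh) → ((s.Lf → Ω) → ℝ) → ((s.Lf → S) → ℝ) → ℝ) :
    ∀ (k : ℕ) (s : Sh) (G : (s.Lf → Ω) → ℝ) (ξ : (s.Lf → S) → ℝ),
      itM ε M U Z B k s G ξ = ∑ f : Fin k → A, itV ε M U Z B (List.ofFn f) s G ξ
  | 0, s, G, ξ => by simp [itM, itV]
  | k + 1, s, G, ξ => by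
      rw [← (Fin.consEquiv fun _ : Fin (k + 1) => A).sum_comp, Fintype.sum_prod_type]
      simp only [itM, itM_eq_sum ε M U Z B k, sg_sum, Fin.consEquiv_apply, List.ofFn_succ,
        Fin.cons_zero, Fin.cons_succ, itV]

theorem itV_tilt (ε : ℝ) {M : List (Lv Θ)} {M' : List (Lv Θ')} (H : M.map Lv.m = M'.map Lv.m)
    (U : A → ℕ → Ω → Ω → ℝ) (Z : A → ℕ → S → S → ℝ)
    (B : (s : Sh) → ((s.Lf → Ω) → ℝ) → ((s.Lf → S) → ℝ) → ℝ) :
    ∀ l, itV ε M U Z B l = itV ε M' U Z B l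
  | [] => rfl
  | α :: l => by funext s G ξ; simp only [itV, itV_tilt ε H U Z B l, sg_tilt ε H]

theorem WdO_tens (M : List (Lv (Ω × S))) (U : A → ℕ → Ω → Ω → ℝ) (Z : A → ℕ → S → S → ℝ)
    (E : Fn (Ω × S)) : ∀ (l : List A) (s : Sh) (G : (s.Lf → Ω) → ℝ) (ξ : (s.Lf → S) → ℝ),
    WdO M (l.map fun α j x y => U α j x.1 y.1 * Z α j x.2 y.2) E s (tens G ξ) =
      itV (-1) M U Z (fun s G ξ => E s (tens G ξ)) l s G ξ
  | [], _, _, _ => rfl
  | α :: l, s, G, ξ => by
      simp only [List.map_cons, WdO_cons, Dop_eq_sg, GT.ev_tens, WdO_tens M U Z E l, itV]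

variable [Fintype Ω] {w : Ω → ℝ} {M : List (Lv Ω)} {T : ℕ → Ω → Ω → ℝ}

open Tay38 Wt87 in
theorem OneP.word_le (hw : Wt w) (hM : Mono 0 M) (hT : ∀ j x y, 0 ≤ T j x y) (h : Ω → ℝ) (q : ℕ)
    {B R : ℝ} (hB : 0 ≤ B) : ∀ (l : List ((ℕ → Ω → Ω → ℝ) × ℕ)),
      (∀ p ∈ l, ∀ j ≤ M.length, ∀ x y, |p.1 j x y| ≤ T j x y ^ p.2) →
      ∀ (s : Sh) (F A : (s.Lf → Ω) → ℝ), (Fintype.card s.Lf : ℝ) + 2 * l.length ≤ R →
      (∀ x, 0 ≤ A x) → (∀ x d, Dv M.length T s x ≤ d →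
        |F x| * d ^ (l.map Prod.snd).sum ≤ A x + B * d ^ (q + 1)) →
      |WdO M (l.map Prod.fst) (TEf w M h) s F| ≤ (53 * R ^ 3) ^ l.length * R ^ (2 * q) *
        (TE w s M h A + B * momT w M h T (q + 1) s)
  | [], _, s, F, A, hR, hA0, H =>
      iter_le hw hM (S := T) (fun j x y => (abs_of_nonneg (hT j x y)).le) h q hB 0 s F A hR hA0 H
  | p :: l, hl, s, F, A, hR, hA0, H => by
    set g : ℕ → ℝ := fun j => pi2 w M j (fun x y => T j x y ^ (q + 1)) h with hg'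
    have hg : ∀ j, 0 ≤ g j := fun j => pi2_nonneg hw M j (fun x y => pow_nonneg (hT j x y) _) h
    have hA : 0 ≤ TE w s M h A := (Law.TE_const hw s M h 0).symm.trans_le (Law.TE_mono hw s M h hA0)
    have r1 := one_le_card s
    rw [List.length_cons] at hR ⊢
    push_cast at hR
    have hk : (0 : ℝ) ≤ l.length := Nat.cast_nonneg _
    have R0 : 0 ≤ R := by linarith
    set C := (53 * R ^ 3) ^ l.length * R ^ (2 * q) with hC
    have C0 : 0 ≤ C := by positivity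
    have key : ∀ (s' : Sh) (e : s.Lf → s'.Lf) (c d : s'.Lf) (i : ℕ), c ≠ d →
        s'.shr c d M.length = i → (Fintype.card s'.Lf : ℝ) ≤ Fintype.card s.Lf + 2 →
        TE w s' M h (fun x => A fun b => x (e b)) = TE w s M h A →
        (∀ x : s'.Lf → Ω, Dv M.length T s (fun b => x (e b)) ≤ Dv M.length T s' x) →
        |WdO M (l.map Prod.fst) (TEf w M h) s' fun x => F (fun b => x (e b)) * p.1 i (x c) (x d)| ≤
          C * TE w s M h A + C * B * Nv M g s' := fun s' e c d i hcd hi h1 h2 h3 => by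
      refine (OneP.word_le hw hM hT h q (R := R) hB l (fun p hp => hl p (List.mem_cons_of_mem _ hp)) s' _
        (fun x => A fun b => x (e b)) (by linarith) (fun x => hA0 _)
        fun x d' hd => ?_).trans (by rw [h2, mul_add, mul_assoc C]; rfl)
      refine le_trans ?_ (H _ d' ((h3 x).trans hd))
      have h4 : T i (x c) (x d) ≤ d' := le_trans (hi ▸ le_prs s'
        (G := fun a b => T (s'.shr a b M.length) (x a) (x b)) (fun _ _ => hT _ _ _) hcd) hd
      have h5 : 0 ≤ d' := (hT _ _ _).trans h4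
      have h6 : |p.1 i (x c) (x d)| ≤ d' ^ p.2 :=
        (hl p List.mem_cons_self i (hi ▸ shr_le _ _ _ _) _ _).trans (pow_le_pow_left₀ (hT _ _ _) h4 _)
      rw [abs_mul, List.map_cons, List.sum_cons, pow_add, mul_assoc]
      gcongr
    rw [List.map_cons, WdO_cons]
    refine (abs_Dop_le hM hg s F (mul_nonneg C0 hA) (mul_nonneg C0 hB)
      fun s' e c d i hcd hi H' => ?_).trans ?_
    · rcases H' with ⟨rfl, rfl⟩ | ⟨a, j, rfl, rfl⟩ | ⟨a, j, a', j', rfl, rfl⟩
      · exact key s id c d i hcd hi (by linarith) rfl fun _ => le_rfl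
      · exact key _ _ c d i hcd hi (by rw [card_graft]; push_cast; linarith)
          (TE_graft hw s a j M h A) (Dv_graft hT _ s a j)
      · exact key _ _ c d i hcd hi (by rw [card_graft, card_graft]; push_cast; linarith)
          ((TE_graft hw _ a' j' M h fun x => A fun b => x (s.emb a j b)).trans
            (TE_graft hw s a j M h A))
          fun x => (Dv_graft hT _ s a j fun b => x ((s.graft a j).emb a' j' b)).trans
            (Dv_graft hT _ _ a' j' x)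
    · have h1 : (Fintype.card s.Lf : ℝ) ^ 3 ≤ R ^ 3 := by gcongr; linarith
      have h3 := Nv_nonneg hM hg s
      calc _ ≤ 53 * R ^ 3 * (C * TE w s M h A + C * B * Nv M g s) := by gcongr
        _ = _ := by rw [hC, momT]; ring

/-- **words of letters with degrees**, Young form -/
theorem abs_WdO_le (hw : Wt w) (hM : Mono 0 M) (hT : ∀ j x y, 0 ≤ T j x y) (h : Ω → ℝ) (q : ℕ)
    {l : List ((ℕ → Ω → Ω → ℝ) × ℕ)}
    (hl : ∀ p ∈ l, ∀ j ≤ M.length, ∀ x y, |p.1 j x y| ≤ T j x y ^ p.2) (s : Sh)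
    {F A : (s.Lf → Ω) → ℝ} {B : ℝ} (hB : 0 ≤ B) (hA : ∀ x, 0 ≤ A x)
    (H : ∀ x d, Dv M.length T s x ≤ d → |F x| * d ^ (l.map Prod.snd).sum ≤ A x + B * d ^ (q + 1)) :
    |WdO M (l.map Prod.fst) (TEf w M h) s F| ≤
      cTay l.length q (Fintype.card s.Lf) * (TE w s M h A + B * momT w M h T (q + 1) s) :=
  OneP.word_le hw hM hT h q hB l hl s F A le_rfl hA H

/-- test function of degree `m` -/
theorem abs_WdO_deg (hw : Wt w) (hM : Mono 0 M) (hT : ∀ j x y, 0 ≤ T j x y) (h : Ω → ℝ) {m q : ℕ}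
    {l : List ((ℕ → Ω → Ω → ℝ) × ℕ)} (hq : m + (l.map Prod.snd).sum = q + 1)
    (hl : ∀ p ∈ l, ∀ j ≤ M.length, ∀ x y, |p.1 j x y| ≤ T j x y ^ p.2) (s : Sh)
    {F : (s.Lf → Ω) → ℝ} {B : ℝ} (hB : 0 ≤ B) (hF : ∀ x, |F x| ≤ B * Dv M.length T s x ^ m) :
    |WdO M (l.map Prod.fst) (TEf w M h) s F| ≤
      cTay l.length q (Fintype.card s.Lf) * (B * momT w M h T (q + 1) s) := by
  have := abs_WdO_le hw hM hT h q hl s (F := F) (A := fun _ => 0) hB (fun _ => le_rfl)
    fun x d hd => by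
      have h0 := Tay38.Dv_nonneg hT M.length s x
      have h1 : 0 ≤ d := h0.trans hd
      rw [zero_add, ← hq, pow_add, ← mul_assoc]
      exact mul_le_mul_of_nonneg_right ((hF x).trans (by gcongr)) (pow_nonneg h1 _)
  rwa [Law.TE_const hw, zero_add] at this

end generic

open OneP

variable {n : ℕ} {β : ℝ} {M : List (ℝ × ℝ × ℝ)} {q : ℕ → ℝ}

/-- `|U|` -/
abbrev aU {n : ℕ} (q : ℕ → ℝ) : ℕ → Cube n → Cube n → ℝ := fun j x y => |oU q j x y|

/-- `E_n |U_j|^p` at the split `j` -/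
def uM (n : ℕ) (β : ℝ) (M : List (ℝ × ℝ × ℝ)) (q : ℕ → ℝ) (p j : ℕ) : ℝ :=
  pi2 (fun _ => 1) (M.map (mxL n β)) j (fun x y => |oU q j x y| ^ p) 0

/-- `ν_0 |U_12|^p = ∑ dm_j E_n |U_j|^p` -/
def momU (n : ℕ) (β : ℝ) (M : List (ℝ × ℝ × ℝ)) (q : ℕ → ℝ) (p : ℕ) : ℝ :=
  ∑ j ∈ Finset.range (M.length + 1), dm (M.map (mxL n β)) 0 j * uM n β M q p j

/-- the moments seen from the shape `s` -/
def momS (n : ℕ) (β : ℝ) (M : List (ℝ × ℝ × ℝ)) (q : ℕ → ℝ) (p : ℕ) (s : Sh) : ℝ :=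
  prs s (fun a b => uM n β M q p (s.shr a b M.length)) + momU n β M q p

/-- the constant of the remainders -/
def cOp (τ : ℝ) (k p r : ℕ) : ℝ := cTay k p r * ((1 + 2 * τ) ^ (p + 1) * exp (60 * τ))

/-- the letters on `Cube n × Bool` -/
def oLt (n : ℕ) (β : ℝ) (M : List (ℝ × ℝ × ℝ)) (q : ℕ → ℝ) (α : Bool) :
    ℕ → Cube n × Bool → Cube n × Bool → ℝ :=
  fun j x y => oUb n β M q α j x.1 y.1 * oZs q α j x.2 y.2

/-- degree of a letter in `U` -/
def oDg : Bool → ℕ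
  | true => 1
  | false => 2

/-- a word at `θ = 0` -/
def opW (n : ℕ) (β : ℝ) (M : List (ℝ × ℝ × ℝ)) (q : ℕ → ℝ) :=
  itV (-1) (M.map (mxL n β)) (oUb n β M q) (oZs q) fun s G ξ =>
    TE (fun _ => 1) s (M.map (mxL n β)) 0 G * TE (fun _ => 1) s (opS n β M q) 0 ξ

theorem uM_nonneg (p j : ℕ) : 0 ≤ uM n β M q p j :=
  pi2_nonneg wt_one90 _ j (fun _ _ => pow_nonneg (abs_nonneg _) p) 0

theorem momU_nonneg (hM : Mono 0 (M.map (mxL n β))) (p : ℕ) : 0 ≤ momU n β M q p :=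
  Finset.sum_nonneg fun j _ => mul_nonneg (dm_nonneg hM j) (uM_nonneg p j)

theorem momS_two {j : ℕ} (hj : j ≤ M.length) (p : ℕ) :
    momS n β M q p (Sh.two j) = 2 * uM n β M q p j + momU n β M q p := by
  rw [momS, Tay38.prs_two, Wt87.shr_comm _ (Sh.twoR j), Wt87.shr_two, min_eq_left hj]
  ring

theorem momS_eq (p : ℕ) (s : Sh) :
    momS n β M q p s = momT (fun _ => 1) (M.map (mxL n β)) 0 (aU q) p s := by
  simp only [momS, momT, Nv, List.length_map, momU, uM]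

theorem cOp_nonneg {τ : ℝ} (hτ : 0 ≤ τ) (k p r : ℕ) : 0 ≤ cOp τ k p r :=
  mul_nonneg (cTay_nonneg k p r) (by positivity)

theorem opC_eq_sum (k : ℕ) (s : Sh) (G : (s.Lf → Cube n) → ℝ) (ξ : (s.Lf → Bool) → ℝ) :
    opC n β M q k s G ξ = ∑ f : Fin k → Bool, opW n β M q (List.ofFn f) s G ξ :=
  itM_eq_sum _ _ _ _ _ k s G ξ

theorem WdO_op_zero (hn : 0 < n) (H : OOk M q) (l : List Bool) (s : Sh)
    (G : (s.Lf → Cube n) → ℝ) (ξ : (s.Lf → Bool) → ℝ) :
    WdO (op n β M q 0) (l.map (oLt n β M q)) (TEf (fun _ => 1) (op n β M q 0) 0) s (tens G ξ) =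
      opW n β M q l s G ξ := by
  refine (WdO_tens _ (oUb n β M q) (oZs q) _ l s G ξ).trans ?_
  rw [itV_tilt (-1) (tilt_op 0), opW]
  congr 1
  funext s G ξ
  rw [← TE_op_zero hn H, Law.ad_zero]
  rfl

theorem iDn_op_Dop (h : Cube n × Bool → ℝ) (k : ℕ) (s : Sh) (F : (s.Lf → Cube n × Bool) → ℝ)
    (θ : ℝ) : iDn (fun _ => 1) (opL n β M q) h k s F θ =
      (Dop (op n β M q θ) fun j x y => 1 / 2 * iD (opL n β M q) j x y)^[k]
        (TEf (fun _ => 1) (op n β M q θ) h) s F := by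
  rw [Dop_iter_eq, iDn, itE_tilt (-1) (tilt_ipl (opL n β M q) θ).symm]
  rfl

theorem oW_pairF (K : ℕ → Cube n × Bool → Cube n × Bool → ℝ) (k : ℕ) (θ : ℝ) :
    oW n β M q K k θ = pairF (op n β M q θ) K
      ((Dop (op n β M q θ) fun j x y => 1 / 2 * iD (opL n β M q) j x y)^[k]
        (TEf (fun _ => 1) (op n β M q θ) 0)) := by
  simp only [oW, iW, pairF, iDn_op_Dop, op, ipl_length, dm_ipl]
  rfl

theorem pi2_op_le (hn : 0 < n) (H : OOk M q) (hM : Mono 0 (M.map (mxL n β))) {θ : ℝ}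
    (hθ : θ ∈ Icc (0 : ℝ) 1) (j : ℕ) {K : Cube n × Bool → Cube n × Bool → ℝ}
    {G : Cube n → Cube n → ℝ} (hK : ∀ x y, |K x y| ≤ G x.1 y.1) :
    |pi2 (fun _ => 1) (op n β M q θ) j K 0| ≤
      exp (60 * oTau n β M M.length) * pi2 (fun _ => 1) (M.map (mxL n β)) j G 0 := by
  have := abs_TE_op_le hn H hM (Sh.two j) (F := pr2 j K) (G := pr2 j G) (fun x => hK _ _) hθ
  rw [Wt87.card_two, show ((2 : ℝ) * (2 : ℕ) ^ 2 + (2 : ℕ)) * (6 * oTau n β M M.length) =
    60 * oTau n β M M.length by push_cast; ring] at this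
  rw [← Wt87.tX_two wt_one90, ← Wt87.tX_two wt_one90]
  exact this

theorem momT_op_le (hn : 0 < n) (H : OOk M q) (hM : Mono 0 (M.map (mxL n β))) {θ : ℝ}
    (hθ : θ ∈ Icc (0 : ℝ) 1) {c : ℝ} (hc : 0 ≤ c) (p : ℕ) (s : Sh) :
    momT (fun _ => 1) (op n β M q θ) 0 (fun j x y => c * |oU q j x.1 y.1|) p s ≤
      c ^ p * exp (60 * oTau n β M M.length) * momS n β M q p s := by
  have h : ∀ j, pi2 (fun _ => 1) (op n β M q θ) j (fun x y => (c * |oU q j x.1 y.1|) ^ p) 0 ≤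
      c ^ p * exp (60 * oTau n β M M.length) * uM n β M q p j := fun j => by
    simp only [mul_pow, pi2_const_mul, mul_assoc]
    exact mul_le_mul_of_nonneg_left ((le_abs_self _).trans (pi2_op_le hn H hM hθ j
      (G := fun x y => |oU q j x y| ^ p) fun x y => (abs_of_nonneg (by positivity)).le))
      (pow_nonneg hc p)
  rw [momT, Nv, momS, momU, op_length, mul_add, prs, prs, Finset.mul_sum, Finset.mul_sum]
  refine add_le_add (Finset.sum_le_sum fun a _ => ?_) (Finset.sum_le_sum fun j _ => ?_)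
  · rw [Finset.mul_sum]
    refine Finset.sum_le_sum fun b _ => ?_
    split_ifs
    · exact (mul_zero _).ge
    · exact h _
  · rw [Cav22.dm_tilt (tilt_op θ), mul_left_comm]
    exact mul_le_mul_of_nonneg_left (h j) (dm_nonneg hM j)

/-- **any word of kernels dominated by powers of `(1 + 2 τ) |U|`**, at any time -/
theorem abs_WdO_op (hn : 0 < n) (H : OOk M q) (hM : Mono 0 (M.map (mxL n β))) {θ : ℝ}
    (hθ : θ ∈ Icc (0 : ℝ) 1) {m p : ℕ} {l : List ((ℕ → Cube n × Bool → Cube n × Bool → ℝ) × ℕ)}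
    (hp : m + (l.map Prod.snd).sum = p + 1) (hl : ∀ r ∈ l, ∀ j ≤ M.length, ∀ x y,
      |r.1 j x y| ≤ ((1 + 2 * oTau n β M M.length) * |oU q j x.1 y.1|) ^ r.2) (s : Sh)
    {F : (s.Lf → Cube n × Bool) → ℝ} {B : ℝ} (hB : 0 ≤ B)
    (hF : ∀ x, |F x| ≤ B * Dv M.length (aU q) s (fun a => (x a).1) ^ m) :
    |WdO (op n β M q θ) (l.map Prod.fst) (TEf (fun _ => 1) (op n β M q θ) 0) s F| ≤
      cOp (oTau n β M M.length) l.length p (Fintype.card s.Lf) * B * momS n β M q (p + 1) s := by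
  have h0 := (H.oTau_le n β M.length).1
  have h1 : (1 : ℝ) ≤ 1 + 2 * oTau n β M M.length := by linarith
  refine (abs_WdO_deg wt_one90 (Cav22.mono_tilt (tilt_op θ).symm hM)
    (T := fun j x y => (1 + 2 * oTau n β M M.length) * |oU q j x.1 y.1|)
    (fun _ _ _ => by positivity) 0 hp (by rwa [op_length]) s hB fun x => (hF x).trans ?_).trans ?_
  · refine mul_le_mul_of_nonneg_left (pow_le_pow_left₀
      (Tay38.Dv_nonneg (fun _ _ _ => abs_nonneg _) _ _ _) ?_ m) hB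
    rw [op_length]
    refine Finset.sum_le_sum fun a _ => Finset.sum_le_sum fun b _ => ?_
    split_ifs
    · exact le_rfl
    · exact le_mul_of_one_le_left (abs_nonneg _) h1
  · refine (mul_le_mul_of_nonneg_left (mul_le_mul_of_nonneg_left
      (momT_op_le hn H hM hθ (zero_le_one.trans h1) _ s) hB) (cTay_nonneg _ _ _)).trans_eq ?_
    rw [cOp]
    ring

theorem abs_oLt_le (H : OOk M q) (α : Bool) {j : ℕ} (hj : j ≤ M.length) (x y : Cube n × Bool) :
    |oLt n β M q α j x y| ≤ ((1 + 2 * oTau n β M M.length) * |oU q j x.1 y.1|) ^ oDg α := by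
  have h1 := H.oTau_le n β j
  have h2 := abs_oE_le H hj x.2 y.2
  have h3 := abs_nonneg (oU q j x.1 y.1)
  cases α
  · simp only [oLt, oUb, oZs, oDg, mul_one, abs_mul, abs_neg, abs_pow, mul_pow]
    rw [abs_of_nonneg (by linarith [h1.1])]
    exact mul_le_mul_of_nonneg_right (by nlinarith [h1.1, h1.2]) (by positivity)
  · simp only [oLt, oUb, oZs, oDg, abs_mul, pow_one]
    rw [abs_of_nonneg (by linarith [h1.1]), mul_right_comm]
    exact mul_le_mul_of_nonneg_right (by nlinarith [h1.1, h1.2, abs_nonneg (oE q j x.2 y.2)]) h3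

/-- **a word at `θ = 0`** of total degree `p + 1` -/
theorem abs_opW_le (hn : 0 < n) (H : OOk M q) (hM : Mono 0 (M.map (mxL n β))) {m p : ℕ}
    {l : List Bool} (hp : m + (l.map oDg).sum = p + 1) (s : Sh) {G : (s.Lf → Cube n) → ℝ}
    {ξ : (s.Lf → Bool) → ℝ} {B A : ℝ} (hB : 0 ≤ B) (hG : ∀ x, |G x| ≤ B * Dv M.length (aU q) s x ^ m)
    (hξ : ∀ x, |ξ x| ≤ A) : |opW n β M q l s G ξ| ≤
      cOp (oTau n β M M.length) l.length p (Fintype.card s.Lf) * (A * B) * momS n β M q (p + 1) s := by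
  have hA : 0 ≤ A := (abs_nonneg _).trans (hξ fun _ => true)
  have := abs_WdO_op hn H hM ⟨le_rfl, zero_le_one⟩ (m := m) (p := p)
    (l := l.map fun α => (oLt n β M q α, oDg α)) (by rwa [List.map_map]) (fun r hr j hj x y => by
      obtain ⟨α, -, rfl⟩ := List.mem_map.1 hr
      exact abs_oLt_le H α hj x y) s (F := tens G ξ) (mul_nonneg hA hB) fun x => by
      rw [tens, abs_mul, mul_comm, mul_assoc]
      exact mul_le_mul (hξ _) (hG _) (abs_nonneg _) hA
  rwa [List.map_map, List.length_map, show Prod.fst ∘ (fun α => (oLt n β M q α, oDg α)) =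
    oLt n β M q from rfl, WdO_op_zero hn H] at this

/-- **the derivatives of order `k`** of a test function of degree `m` -/
theorem abs_iDn_op_deg (hn : 0 < n) (H : OOk M q) (hM : Mono 0 (M.map (mxL n β))) {θ : ℝ}
    (hθ : θ ∈ Icc (0 : ℝ) 1) {m k p : ℕ} (hp : m + k = p + 1) (s : Sh)
    {F : (s.Lf → Cube n × Bool) → ℝ} {B : ℝ} (hB : 0 ≤ B)
    (hF : ∀ x, |F x| ≤ B * Dv M.length (aU q) s (fun a => (x a).1) ^ m) :
    |iDn (fun _ => 1) (opL n β M q) 0 k s F θ| ≤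
      cOp (oTau n β M M.length) k p (Fintype.card s.Lf) * B * momS n β M q (p + 1) s := by
  have := abs_WdO_op hn H hM hθ (m := m) (p := p)
    (l := List.replicate k (fun j x y => 1 / 2 * iD (opL n β M q) j x y, 1)) (by simpa using hp)
    (fun r hr j hj x y => by
      rw [List.eq_of_mem_replicate hr]
      have h1 := abs_oD_le (n := n) (β := β) H hj x y
      have h2 := H.oTau_le n β j
      simp only [iD_op hn H hj, abs_mul, abs_of_pos (one_half_pos (α := ℝ)), pow_one]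
      nlinarith [h2.1, h2.2, abs_nonneg (oU q j x.1 y.1)]) s hB hF
  rwa [List.map_replicate, WdO_replicate, List.length_replicate, ← iDn_op_Dop] at this

theorem le_Dv_two {Ω : Type} {T : ℕ → Ω → Ω → ℝ} (hT : ∀ j x y, 0 ≤ T j x y) {j K : ℕ} (hj : j ≤ K)
    (x : (Sh.two j).Lf → Ω) : T j (x (Sh.twoL j)) (x (Sh.twoR j)) ≤ Dv K T (Sh.two j) x := by
  rw [Dv, Tay38.prs_two, Wt87.shr_two, min_eq_left hj]
  exact le_add_of_nonneg_right (hT _ _ _)

theorem abs_iDn_two_le (hn : 0 < n) (H : OOk M q) (hM : Mono 0 (M.map (mxL n β))) {θ : ℝ}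
    (hθ : θ ∈ Icc (0 : ℝ) 1) {m k p : ℕ} (hp : m + k = p + 1) {j : ℕ} (hj : j ≤ M.length)
    {Q : Cube n × Bool → Cube n × Bool → ℝ} {B : ℝ} (hB : 0 ≤ B)
    (hQ : ∀ x y, |Q x y| ≤ B * |oU q j x.1 y.1| ^ m) :
    |iDn (fun _ => 1) (opL n β M q) 0 k (Sh.two j) (pr2 j Q) θ| ≤ cOp (oTau n β M M.length) k p 2 *
      B * (2 * uM n β M q (p + 1) j + momU n β M q (p + 1)) := by
  have := abs_iDn_op_deg hn H hM hθ hp (Sh.two j) (F := pr2 j Q) hB fun x => (hQ _ _).trans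
    (mul_le_mul_of_nonneg_left (pow_le_pow_left₀ (abs_nonneg _) (le_Dv_two (T := aU q)
      (fun _ _ _ => abs_nonneg _) hj fun a => (x a).1) m) hB)
  rwa [Wt87.card_two, momS_two hj] at this

theorem sum_dm_two (p : ℕ) (c : ℝ) :
    ∑ j ∈ Finset.range (M.length + 1), dm (M.map (mxL n β)) 0 j *
      (c * (2 * uM n β M q p j + momU n β M q p)) = 3 * c * momU n β M q p := by
  have h1 := sum_dm (M.map (mxL n β)) 0 (M.map (mxL n β)).length
  rw [ex_length, List.length_map, sub_zero] at h1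
  rw [Finset.sum_congr rfl fun j _ => show _ = 2 * c * (dm (M.map (mxL n β)) 0 j *
    uM n β M q p j) + c * momU n β M q p * dm (M.map (mxL n β)) 0 j by ring, Finset.sum_add_distrib,
    ← Finset.mul_sum, ← Finset.mul_sum, h1, ← momU]
  ring

theorem abs_oW_le (hn : 0 < n) (H : OOk M q) (hM : Mono 0 (M.map (mxL n β))) {θ : ℝ}
    (hθ : θ ∈ Icc (0 : ℝ) 1) {m k p : ℕ} (hp : m + k = p + 1)
    {Q : ℕ → Cube n × Bool → Cube n × Bool → ℝ} {B : ℝ} (hB : 0 ≤ B)
    (hQ : ∀ j ≤ M.length, ∀ x y, |Q j x y| ≤ B * |oU q j x.1 y.1| ^ m) :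
    |oW n β M q Q k θ| ≤ 3 * (cOp (oTau n β M M.length) k p 2 * B) * momU n β M q (p + 1) := by
  refine (abs_iW_le (mono_opL hM) (B := fun j => cOp (oTau n β M M.length) k p 2 *
      B * (2 * uM n β M q (p + 1) j + momU n β M q (p + 1))) fun j hj => ?_).trans ?_
  · rw [opL_length] at hj
    exact abs_iDn_two_le hn H hM hθ hp hj hB (hQ j hj)
  · simp only [opL_length, dm_opL]
    exact (sum_dm_two _ _).le

/-- Taylor expansion from `θ = 0` to `θ = 1` of a test function of degree `m` -/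
theorem abs_taylor_op (hn : 0 < n) (H : OOk M q) (hM : Mono 0 (M.map (mxL n β))) (m J : ℕ) (s : Sh)
    {F : (s.Lf → Cube n × Bool) → ℝ} {B : ℝ} (hB : 0 ≤ B)
    (hF : ∀ x, |F x| ≤ B * Dv M.length (aU q) s (fun a => (x a).1) ^ m) {T : ℝ}
    (hT : T ∈ Icc (0 : ℝ) 1) :
    |TE (fun _ => 1) s (op n β M q T) 0 F - ∑ k ∈ Finset.range (J + 1),
        iDn (fun _ => 1) (opL n β M q) 0 k s F 0 * T ^ k / k.factorial| ≤
      cOp (oTau n β M M.length) (J + 1) (m + J) (Fintype.card s.Lf) * B *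
        momS n β M q (m + J + 1) s * T ^ (J + 1) / J.factorial :=
  Cav22.taylor_le (f := fun k => iDn (fun _ => 1) (opL n β M q) 0 k s F)
    (fun k => continuousOn_iDn wt_one90 _ _ k s F)
    (fun k _ ht => hasDerivAt_iDn wt_one90 _ _ (iD_op_diag hn H) ht k s F) hT J
    fun _ ht => abs_iDn_op_deg (m := m) (k := J + 1) (p := m + J) hn H hM
      ⟨ht.1, ht.2.trans hT.2⟩ (add_assoc m J 1).symm s hB hF

/-- the `k`-th Taylor coefficient of `E_θ U ⊗ Z` at the split `j` -/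
abbrev opP (n : ℕ) (β : ℝ) (M : List (ℝ × ℝ × ℝ)) (q : ℕ → ℝ) (k j : ℕ)
    (U : Cube n → Cube n → ℝ) (Z : Bool → Bool → ℝ) : ℝ :=
  opC n β M q k (Sh.two j) (pr2 j U) (pr2 j Z)

theorem pi2_taylor (hn : 0 < n) (H : OOk M q) (hM : Mono 0 (M.map (mxL n β))) (m J : ℕ) {j : ℕ}
    (hj : j ≤ M.length) {U : Cube n → Cube n → ℝ} {Z : Bool → Bool → ℝ} {B A : ℝ} (hB : 0 ≤ B)
    (hU : ∀ x y, |U x y| ≤ B * |oU q j x y| ^ m) (hZ : ∀ a b, |Z a b| ≤ A) {T : ℝ}
    (hT : T ∈ Icc (0 : ℝ) 1) :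
    |pi2 (fun _ => 1) (op n β M q T) j (fun x y => U x.1 y.1 * Z x.2 y.2) 0 -
        ∑ k ∈ Finset.range (J + 1), opP n β M q k j U Z * T ^ k / k.factorial| ≤
      cOp (oTau n β M M.length) (J + 1) (m + J) 2 * (A * B) *
        (2 * uM n β M q (m + J + 1) j + momU n β M q (m + J + 1)) * T ^ (J + 1) / J.factorial := by
  have hA : 0 ≤ A := (abs_nonneg _).trans (hZ true true)
  have := abs_taylor_op hn H hM m J (Sh.two j) (F := tens (pr2 j U) (pr2 j Z)) (mul_nonneg hA hB)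
    (fun x => by
      rw [tens, abs_mul, mul_comm, mul_assoc]
      exact mul_le_mul (hZ _ _) ((hU _ _).trans (mul_le_mul_of_nonneg_left (pow_le_pow_left₀
        (abs_nonneg _) (le_Dv_two (T := aU q) (fun _ _ _ => abs_nonneg _) hj fun a => (x a).1) m) hB))
        (abs_nonneg _) hA) hT
  simp only [iDn_op_zero hn H, Wt87.card_two, momS_two hj] at this
  rw [← Wt87.tX_two wt_one90]
  exact this

/-- **(val)** with the remainder in the `n`-system -/
theorem val_head (hn : 0 < n) (H : OOk M q) (hM : Mono 0 (M.map (mxL n β))) (J : ℕ) :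
    |X (fun _ => 1) (M.map (mxL (n + 1) β)) 0 - X (fun _ => 1) (M.map (mxL n β)) 0 -
      (X (fun _ => 1) (opS n β M q) 0 - oC n β M q + oN n β M -
        ∑ k ∈ Finset.range J, (∑ α, ∑ j ∈ Finset.range (M.length + 1), dm (M.map (mxL n β)) 0 j *
          opP n β M q k j (oUb n β M q α j) (oZs q α j)) / (k + 1).factorial)| ≤
      9 / 2 * oTau n β M M.length * cOp (oTau n β M M.length) J J 2 * momU n β M q (J + 1) /
        J.factorial := by
  have h0 := (H.oTau_le n β M.length).1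
  have h1 := intervalIntegral.norm_integral_le_of_norm_le_const (a := (0 : ℝ)) (b := 1)
    (f := fun θ => oW n β M q (oD n β M q) J θ * (1 - θ) ^ J / J.factorial)
    (C := 3 * (cOp (oTau n β M M.length) J J 2 * (3 * oTau n β M M.length)) *
      momU n β M q (J + 1) / J.factorial) fun θ hθ => by
      rw [uIoc_of_le zero_le_one] at hθ
      have h2 := abs_oW_le hn H hM ⟨hθ.1.le, hθ.2⟩ (m := 1) (k := J) (p := J) (add_comm _ _)
        (Q := oD n β M q) (B := 3 * oTau n β M M.length) (by positivity) fun j hj x y =>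
        (abs_oD_le H hj x y).trans (by
          rw [pow_one]; gcongr; exact (H.oTau_le n β j).2)
      rw [Real.norm_eq_abs, abs_div, abs_mul, abs_pow, Nat.abs_cast,
        abs_of_nonneg (sub_nonneg.2 hθ.2)]
      refine div_le_div_of_nonneg_right ((mul_le_of_le_one_right (abs_nonneg _)
        (pow_le_one₀ (sub_nonneg.2 hθ.2) (by linarith [hθ.1]))).trans h2) (by positivity)
  rw [val_taylor hn H J]
  simp only [oW_oD _ 0, oW_tK hn H, mul_div_assoc (2 : ℝ), ← Finset.mul_sum]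
  rw [Real.norm_eq_abs, sub_zero, abs_one, mul_one] at h1
  rw [show ∀ a b c : ℝ, a - (2 * b + c) / 2 - (a - b) = -(c / 2) from fun a b c => by ring, abs_neg,
    abs_div, abs_two]
  exact (div_le_div_of_nonneg_right h1 zero_le_two).trans_eq (by ring)

/-- **(test)** at the split `j`, up to degree `J + 1` -/
theorem test_head (hn : 0 < n) (H : OOk M q) (hM : Mono 0 (M.map (mxL n β))) (J : ℕ) {j : ℕ}
    (hj : j ≤ M.length) :
    |∑ k ∈ Finset.range (J + 2), opP n β M q k j (fun _ _ => 1) (oE q j) / k.factorial -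
      ∑ k ∈ Finset.range (J + 1), opP n β M q k j (oU q j) (fun _ _ => 1) / k.factorial| ≤
      (2 * cOp (oTau n β M M.length) (J + 2) (J + 1) 2 / (J + 1).factorial +
        cOp (oTau n β M M.length) (J + 1) (J + 1) 2 / J.factorial) *
        (2 * uM n β M q (J + 2) j + momU n β M q (J + 2)) := by
  have h1 := pi2_taylor hn H hM 0 (J + 1) hj (U := fun _ _ => 1) (B := 1) zero_le_one
    (fun _ _ => by simp) (abs_oE_le H hj) ⟨zero_le_one, le_rfl⟩
  have h2 := pi2_taylor hn H hM 1 J hj (U := oU q j) (Z := fun _ _ => 1) (B := 1) (A := 1)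
    zero_le_one (fun _ _ => by simp) (fun _ _ => by simp) ⟨zero_le_one, le_rfl⟩
  have h3 := test_op (β := β) hn H j
  rw [← Wt87.tX_two wt_one90] at h1 h2 h3
  have h4 := h3.symm.trans (Law.TE_sub wt_one90 _ _ _ _ _)
  simp only [one_pow, mul_one, one_mul, zero_add, add_comm 1 J, TE] at h1 h2 h4
  rw [sub_eq_zero.1 h4.symm] at h1
  refine (abs_sub_le _ _ _).trans ((add_le_add ((abs_sub_comm _ _).trans_le h1) h2).trans_eq ?_)
  ring

/-- **(amp)** at the split `j`, up to degree `J + 2` -/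
theorem amp_head (hn : 0 < n) (H : OOk M q) (hM : Mono 0 (M.map (mxL n β))) (J : ℕ) {j : ℕ}
    (hj : j ≤ M.length) :
    |∑ k ∈ Finset.range (J + 2), opP n β M q k j (oU q j) (oE q j) / k.factorial -
      ∑ k ∈ Finset.range (J + 1),
        opP n β M q k j (fun x y => oU q j x y ^ 2) (fun _ _ => 1) / k.factorial| ≤ 2 / n +
      (2 * cOp (oTau n β M M.length) (J + 2) (J + 2) 2 / (J + 1).factorial +
        cOp (oTau n β M M.length) (J + 1) (J + 2) 2 / J.factorial) *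
        (2 * uM n β M q (J + 3) j + momU n β M q (J + 3)) := by
  have h1 := pi2_taylor hn H hM 1 (J + 1) hj (U := oU q j) (B := 1) zero_le_one
    (fun _ _ => by simp) (abs_oE_le H hj) ⟨zero_le_one, le_rfl⟩
  have h2 := pi2_taylor hn H hM 2 J hj (U := fun x y => oU q j x y ^ 2) (Z := fun _ _ => 1) (B := 1)
    (A := 1) zero_le_one (fun _ _ => by simp) (fun _ _ => by simp) ⟨zero_le_one, le_rfl⟩
  have h3 := abs_amp_op (β := β) hn H j
  rw [← Wt87.tX_two wt_one90] at h1 h2 h3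
  simp only [sub_mul] at h3
  have h4 := (congrArg abs (Law.TE_sub wt_one90 _ _ _ _ _)).symm.trans_le h3
  simp only [one_pow, mul_one, one_mul, ← add_assoc, add_comm 1 J, add_comm 2 J, TE, ← sq,
    mul_comm (oE q j _ _)] at h1 h2 h4
  rw [abs_le] at h1 h2 h4 ⊢
  simp only [add_assoc, Nat.reduceAdd, add_mul, div_mul_eq_mul_div, mul_comm _ (2 : ℝ)] at h1 h2 ⊢
  constructor <;> linarith [h1.1, h1.2, h2.1, h2.2, h4.1, h4.2]

/-- an annealed level without variance does not change the value -/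
theorem X_mxL_top (hn : 0 < n) (M : List (ℝ × ℝ × ℝ)) (h : Cube n → ℝ) :
    X (fun _ => 1) ((M ++ [((1 : ℝ), (0 : ℝ), (0 : ℝ))]).map (mxL n β)) h =
      X (fun _ => 1) (M.map (mxL n β)) h := by
  have hv : ∀ x, (mxL n β (1, 0, 0)).cov x x = 0 := fun x => by
    rw [mxL_cov hn β le_rfl le_rfl]; simp
  have := (Law.P_tail wt_one90 (N := [mxL n β (1, 0, 0)]) (N' := [])
    (C.X_annealed_const wt_one90 rfl hv) (by
      funext z x
      rw [C.P_annealed wt_one90 rfl]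
      simp only [hv]
      exact Law.P_shift wt_one90 _ x [] z) (M.map (mxL n β))).1 h
  simpa using this

theorem TE_mxL_top (hn : 0 < n) (M : List (ℝ × ℝ × ℝ)) {s : Sh} (hs : s.dep ≤ M.length)
    (F : (s.Lf → Cube n) → ℝ) (h : Cube n → ℝ) :
    TE (fun _ => 1) s ((M ++ [((1 : ℝ), (0 : ℝ), (0 : ℝ))]).map (mxL n β)) h F =
      TE (fun _ => 1) s (M.map (mxL n β)) h F := by
  rw [List.map_append]
  exact Law.TE_annealed wt_one90 (v := 0) rfl (fun x => by rw [mxL_cov hn β le_rfl le_rfl]; simp)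
    s _ (by simpa using hs) F h

end Crest.Agent.T156.Cas

end
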