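import Crest.Agent.T156.MulB_55
import Crest.Agent.T156.OnePB_23
import Crest.Agent.T156.Eg_33

/-!
# Row 156, block C (CAV): objects, inputs, leaves and heads (helper40)

`docs/T156_40C.md` in Lean form, on the one path of `OneP_23` and the words of `Mul_55`.
LOW = splits `j ≤ J`, UP = splits `J < j < K`.  `D.W = none` is the value, `D.W = some ω` is the
test `∑ ω j E (η - U)_j` (marked pair first, any measure `ω` on UP nodes).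
Every leaf has the form `|word - main term| ≤ C * D.Err`.
-/

set_option autoImplicit false
set_option linter.all false

noncomputable section

namespace Crest.Agent.T156.Cas.C40

open MeasureTheory Real Set Filter Topology
open Crest.Agent.T157.E Crest.Agent.T157.Casc Crest.Agent.T157.SL
open Crest.Agent.T157.G1 (ov)
open Crest.ProbabilityR.SpinGlassDynamics (spin)
open Mul55

/-- letters: (LOW?, `η U`?) -/
abbrev Lt : Type := Bool × Bool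
/-- `τ/2 R ⊗ ε ε'` on LOW -/
abbrev aL : Lt := (true, true)
/-- `-τ/4 R² ⊗ 1` on LOW -/
abbrev bL : Lt := (true, false)
/-- `τ/2 U ⊗ η` on UP -/
abbrev aU : Lt := (false, true)
/-- `-τ/4 U² ⊗ 1` on UP -/
abbrev bU : Lt := (false, false)

/-- site kernels -/
abbrev SK : Type := ℕ → Bool → Bool → ℝ

/-- the data: model, cut, direction, envelopes -/
structure CD where
  n : ℕ
  β : ℝ
  M : List (ℝ × ℝ × ℝ)
  q : ℕ → ℝ
  J : ℕ
  /-- `none` = value, `some ω` = test measure -/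
  W : Option (ℕ → ℝ)
  /-- envelope of `|R|` on LOW -/
  X : ℝ
  /-- envelope of `|U_j|` on UP -/
  e : ℕ → ℝ
  /-- tails -/
  tl : ℝ
  /-- envelopes of the weak functionals (weights `dm`, `ω`), not centred -/
  F0 : ℕ → ℝ
  F1 : ℕ → ℝ
  /-- `L²` norms of the centred weak functionals -/
  f0 : ℕ → ℝ
  f1 : ℕ → ℝ
  /-- the marked non-local error -/
  Z : ℝ
  /-- `L²` norms of the weak functionals (weights `dm`), not centred -/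
  G0 : ℕ → ℝ := F0

namespace CD

variable (D : CD)

abbrev K : ℕ := D.M.length
/-- the `n`-system -/
abbrev B : List (Lv (Cube D.n)) := D.M.map (mxL D.n D.β)
/-- the site cascade -/
abbrev S : List (Lv Bool) := opS D.n D.β D.M D.q
abbrev τ (j : ℕ) : ℝ := oTau D.n D.β D.M j
abbrev dx (j : ℕ) : ℝ := dm D.B 0 j
abbrev sig (j : ℕ) : ℝ := D.τ j * D.q j + fAcc D.M j
abbrev up : Finset ℕ := Finset.Ioo D.J D.K
abbrev lo : Finset ℕ := Finset.Icc 1 D.J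
/-- the cells -/
def cl (j : ℕ) : Bool := decide (j ≤ D.J)
/-- the test measure (`0` for the value) -/
def om (j : ℕ) : ℝ := match D.W with | none => 0 | some ω => ω j
/-- value or derivative -/
def dd (x y : ℝ) : ℝ := match D.W with | none => x | some _ => y
/-- the same data, value direction -/
def val : CD := { D with W := none }

/-! ### words -/

/-- **the term of the word `f`** -/
def tw (f : List Lt) : ℝ := D.dd (tm D.n D.β D.M D.q D.cl f)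
  (∑ j ∈ D.up, D.om j * wB (-1) D.B (oB D.n D.β D.M D.q []) (f.map (lt D.n D.β D.M D.q D.cl))
    (Sh.two j) (fun _ => 1) (pr2 j (oE D.q j)))

/-- the `U` part of the test -/
def tU (f : List Lt) : ℝ :=
  ∑ j ∈ D.up, D.om j * wB (-1) D.B (oB D.n D.β D.M D.q []) (f.map (lt D.n D.β D.M D.q D.cl))
    (Sh.two j) (pr2 j (oU D.q j)) (fun _ => 1)

/-! ### bulk quantities -/

def E2 (j : ℕ) (G : Cube D.n → Cube D.n → ℝ) : ℝ := pi2 (fun _ => 1) D.B j G 0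
def rb (j : ℕ) : ℝ := D.E2 j ov
def del (j : ℕ) : ℝ := D.rb j - D.q j
abbrev u (p j : ℕ) : ℝ := uM D.n D.β D.M D.q p j
def g (j : ℕ) : ℝ := D.u 3 j ^ (1 / 3 : ℝ)
def u3 (j : ℕ) : ℝ := D.E2 j fun x y => oU D.q j x y ^ 3
def Sh' : ℝ := ∑ j ∈ D.lo, D.dx j * (D.τ j * fAcc D.M j * D.rb j)
def S1 : ℝ := ∑ j ∈ D.lo, D.dx j * (D.τ j * D.E2 j fun x y => ov x y ^ 2)
def S2 : ℝ := ∑ j ∈ D.lo, D.dx j * (D.τ j ^ 2 * D.E2 j fun x y => ov x y ^ 2)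
def S4 : ℝ := ∑ j ∈ D.lo, D.dx j * (D.τ j ^ 4 * D.E2 j fun x y => ov x y ^ 4)
def KR (j : ℕ) (x y : Cube D.n) : ℝ := if j ≤ D.J then D.τ j * ov x y else 0
/-- `2 ν (τR₁₂ τR₂₃ τR₃₁ ; all low)`: a third replica grafted on a low pair -/
def S3 : ℝ := ∑ j ∈ D.lo, D.dx j * ∑ a : (Sh.two j).Lf, ∑ i ∈ Finset.range (D.J + 1),
  cw (Sh.two j) D.B a i * TE (fun _ => 1) ((Sh.two j).graft a i) D.B 0 fun x =>
    D.KR j (x ((Sh.two j).emb a i (Sh.twoL j))) (x ((Sh.two j).emb a i (Sh.twoR j))) *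
      (D.KR ((Sh.two j).shr (Sh.twoL j) a i) (x ((Sh.two j).emb a i (Sh.twoL j)))
          (x ((Sh.two j).nw a i)) *
        D.KR ((Sh.two j).shr (Sh.twoR j) a i) (x ((Sh.two j).emb a i (Sh.twoR j)))
          (x ((Sh.two j).nw a i)))
def Su : ℝ := ∑ j ∈ D.up, D.dx j * (D.τ j * D.u 2 j)
/-- `E Var (R₁₂ | σ², path of 1 up to t)` for a pair split at `y` (`Eg33.vt`) -/
def v (y t : ℕ) : ℝ := node (fun _ => 1) D.B y (fun z => ∑ x, P (fun _ => 1) (D.B.drop y) z x *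
  Eg33.Cf (fun _ => 1) D.B y t (fun x' => ov x' x) (fun x' => ov x' x) z) 0
/-- `ρ_t - q_t` along a path -/
def nd (t : ℕ) (p : NI D.B → ℝ) : ℝ := qf (P (fun _ => 1) (D.B.drop t) (st D.B t 0 p)) (oU D.q t)
/-- `m_t · σ / n - q_t` along a path -/
def lf (t : ℕ) (p : NI D.B → ℝ) (x : Cube D.n) : ℝ :=
  Pf (fun _ => 1) (D.B.drop t) (st D.B t 0 p) (oU D.q t x)
/-- UP nodes from `j` on -/
abbrev tail (j : ℕ) : Finset ℕ := Finset.Ico (max j (D.J + 1)) D.K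
/-- the weak inputs for the weights `μ` -/
structure Wk (μ F f : ℕ → ℝ) : Prop where
  nn : ∀ j, 0 ≤ F j ∧ 0 ≤ f j
  anti : ∀ j, F (j + 1) ≤ F j ∧ f (j + 1) ≤ f j
  envN : ∀ j, pE (fun _ => 1) D.B 0
    (fun p _ => max (|∑ t ∈ D.tail j, μ t * D.nd t p| - F j) 0) ≤ D.tl
  envL : ∀ j, pE (fun _ => 1) D.B 0
    (fun p x => max (|∑ t ∈ D.tail j, μ t * D.lf t p x| - F j) 0) ≤ D.tl
  varN : ∀ j, pE (fun _ => 1) D.B 0
    (fun p _ => (∑ t ∈ D.tail j, μ t * (D.nd t p - D.del t)) ^ 2) ≤ f j ^ 2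
  varL : ∀ j, pE (fun _ => 1) D.B 0
    (fun p x => (∑ t ∈ D.tail j, μ t * (D.lf t p x - D.del t)) ^ 2) ≤ f j ^ 2
/-- the weak inputs in `L²` only (`F` not centred, `f` centred) -/
structure Wk2 (μ F f : ℕ → ℝ) : Prop where
  nn : ∀ j, 0 ≤ F j ∧ 0 ≤ f j
  anti : ∀ j, F (j + 1) ≤ F j ∧ f (j + 1) ≤ f j
  sqN : ∀ j, pE (fun _ => 1) D.B 0 (fun p _ => (∑ t ∈ D.tail j, μ t * D.nd t p) ^ 2) ≤ F j ^ 2
  sqL : ∀ j, pE (fun _ => 1) D.B 0 (fun p x => (∑ t ∈ D.tail j, μ t * D.lf t p x) ^ 2) ≤ F j ^ 2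
  varN : ∀ j, pE (fun _ => 1) D.B 0
    (fun p _ => (∑ t ∈ D.tail j, μ t * (D.nd t p - D.del t)) ^ 2) ≤ f j ^ 2
  varL : ∀ j, pE (fun _ => 1) D.B 0
    (fun p x => (∑ t ∈ D.tail j, μ t * (D.lf t p x - D.del t)) ^ 2) ≤ f j ^ 2
/-- `∑_low dm τ² E [(m_{J+1} · σ² / n)² | node]` along a path -/
def Ql (p : NI D.B → ℝ) : ℝ := ∑ y ∈ D.lo, D.dx y * (D.τ y ^ 2 *
  Pf (fun _ => 1) (D.B.drop y) (st D.B y 0 p) fun x =>
    Pf (fun _ => 1) (D.B.drop (D.J + 1)) (st D.B (D.J + 1) 0 p) (fun z => ov z x) ^ 2)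
/-- its variance -/
def vL : ℝ := pE (fun _ => 1) D.B 0 fun p _ =>
  (D.Ql p - pE (fun _ => 1) D.B 0 fun p' _ => D.Ql p') ^ 2

/-! ### site quantities -/

def Gam (j : ℕ) : ℝ := pi2 (fun _ => 1) D.S j (fun a b => spin a * spin b) 0
/-- the head on the site cascade from depth `i` on, with field `y`; the kernels are shifted -/
def sH (i : ℕ) (y : ℝ) (V : List SK) : ℝ :=
  D.dd (Lam (fun _ => 1) (D.S.drop i) (fun b => y * spin b) (V.map fun k j => k (j + i)))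
    (∑ j ∈ D.up, D.om j * twoF (j - i) (oE D.q j) (WdO (D.S.drop i) (V.map fun k j => k (j + i))
      (TEf (fun _ => 1) (D.S.drop i) fun b => y * spin b)))
/-- the head on the whole site cascade -/
def sL (V : List SK) : ℝ := D.sH 0 0 V
/-- `τ δ η / 2` on UP -/
def Sd : SK := fun j a b => if D.J < j then D.τ j / 2 * D.del j * oE D.q j a b else 0
/-- `η` at one level -/
def lev (t : ℕ) : SK := fun j a b => if j = t then oE D.q j a b else 0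
/-- `Φ⁻` -/
def Ph (y : ℝ) : ℝ := Crest.Agent.T157.Casc.X (fun _ => 1) (D.S.drop D.J) fun b => y * spin b
/-- `λ` -/
def lam : ℝ := iteratedDeriv 2 D.Ph 0
/-- `-k` -/
def k4 : ℝ := iteratedDeriv 4 D.Ph 0
/-- `r`-th derivative at `0` of the variation of `Φ⁻` along `W` and `V` -/
def dP (r : ℕ) (V : List SK) : ℝ := -iteratedDeriv r (fun y => D.sH D.J y V) 0

/-! ### main terms (`P - Pcal - c_n = -∑`) -/

def lam2 : ℝ := D.dd (D.lam ^ 2) (2 * D.lam * D.dP 2 [])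
def lam3 : ℝ := D.dd (D.lam ^ 3) (3 * D.lam ^ 2 * D.dP 2 [])
def k44 : ℝ := D.dd (D.k4 ^ 2) (2 * D.k4 * D.dP 4 [])
def dmx : ℝ := D.dd (D.lam * D.dP 2 [D.Sd]) (D.dP 2 [] * D.val.dP 2 [D.Sd] + D.lam * D.dP 2 [D.Sd])
def QM : ℝ := D.sL [D.Sd, D.Sd]
def LOC : ℝ := ∑ t ∈ D.up, D.τ t ^ 2 / 4 * (D.u 2 t - D.del t ^ 2) * D.sL [D.lev t, D.lev t]
def LOC3 : ℝ := ∑ t ∈ D.up, D.τ t ^ 3 / 8 * D.u3 t * D.sL [D.lev t, D.lev t, D.lev t]
def yh : ℝ := D.lam2 * D.Sh' / 2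
def y2 : ℝ := -(D.dd 1 0 * D.S1) / 4 + D.lam2 * D.S2 / 4
def y3 : ℝ := -(D.lam3 * D.S3) / 6
def y4 : ℝ := D.k44 * D.S4 / 48
def f1' : ℝ := D.sL [D.Sd]
def mx : ℝ := D.S2 * D.dmx / 2
def q2 : ℝ := -(D.dd 1 0 * D.Su) / 4 + (D.QM + D.LOC) / 2
def c3 : ℝ := D.LOC3 / 6
def main : ℝ := D.yh + D.y2 + D.y3 + D.y4 + D.f1' + D.mx + D.q2 + D.c3

/-! ### errors -/

def I (a : ℕ → ℝ) : ℝ := ∑ j ∈ D.up, D.dx j * a j
def Iw (a : ℕ → ℝ) : ℝ := ∑ j ∈ D.up, |D.om j| * a j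
def wt : ℝ := D.dd 1 (D.Iw fun _ => 1)
def hi (a : ℕ → ℝ) (j : ℕ) : ℝ := ∑ t ∈ Finset.Ioo j D.K, D.dx t * a t
def lw (a : ℕ → ℝ) (j : ℕ) : ℝ := ∑ t ∈ Finset.Ioo D.J j, D.dx t * a t
/-- the clock -/
def dv (j : ℕ) : ℝ := if j ≤ D.J + 1 then D.e j else
  D.sig j - D.sig (j - 1) + (D.τ j - D.τ (j - 1)) + D.dx (j - 1) + D.dx j
def sv (F : ℕ → ℝ) (j : ℕ) : ℝ := ∑ t ∈ Finset.Ioo j D.K, D.dv t * F t
def fs (F : ℕ → ℝ) (j : ℕ) : ℝ := F (j + 1) + D.sv F j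
def N1 : ℝ := D.I D.g
def N2 : ℝ := D.I fun j => D.g j ^ 2
def Lv1 : ℝ := ∑ y ∈ D.lo, D.dx y * D.v y (D.J + 1)
def Lv2 : ℝ := √D.vL + D.X * ∑ y ∈ D.lo, D.dx y * √(D.v y (D.J + 1))
def Lad0 : ℝ := D.X ^ 2 * D.Lv1 + D.I (fun t => D.e t ^ 2 * D.v t t) +
  D.I fun t => D.e t * ∑ y ∈ Finset.Ico 1 t, D.dx y * D.v y t
def Lad1 : ℝ := D.Iw fun t => D.e t * D.v t t + ∑ y ∈ Finset.Ico 1 t, D.dx y * D.v y t
def VF : ℝ := D.sv D.f0 D.J ^ 2 + D.sv (fun j => D.f0 j ^ 2) D.J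
def NLa : ℝ := D.Iw fun j => (√(D.u 2 j) + D.f0 j) *
  (D.f0 j + D.sv D.f0 D.J + D.lw (fun t => D.e t * √(D.v t t)) j)
/-- additive variance bound -/
def Add (A : ℕ → ℝ) : Prop := (∀ j, 0 ≤ A j) ∧ ∀ φ : ℕ → ℝ,
  pE (fun _ => 1) D.B 0 (fun p _ => (∑ t ∈ D.up, D.dx t * φ t * (D.nd t p - D.del t)) ^ 2) ≤
    D.I (fun t => φ t ^ 2 * A t) ∧
  pE (fun _ => 1) D.B 0 (fun p x => (∑ t ∈ D.up, D.dx t * φ t * (D.lf t p x - D.del t)) ^ 2) ≤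
    D.I fun t => φ t ^ 2 * A t
/-- triangular truncation: density `a`, any nondecreasing weight `l > 0` -/
def TFa (a l A : ℕ → ℝ) : ℝ := log (D.K + 2) * (1 + D.sv (fun _ => 1) D.J) ^ 2 *
    (D.I (fun t => a t ^ 2 * A t / l t + l t * A t) +
      (√(D.I fun t => D.e t ^ 2 * A t) + D.sv D.f0 D.J) * √(D.I fun t => a t ^ 2 * A t)) +
  D.Iw fun j => D.f0 j * (D.f0 j + D.sv D.f0 D.J)
def Cub : ℝ := D.Iw fun j => D.e j * D.g j ^ 2 * D.hi D.g j +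
  D.g j * (D.hi (fun t => D.g t ^ 2) j + D.lw (fun t => D.e t * D.g t ^ 2) j +
    (D.g j + D.N1) * D.lw (fun t => D.e t * D.g t) j)
/-- cubic classes on at least two levels -/
def T3 : ℝ := D.I fun j => D.e j * (D.g j * D.hi (fun t => D.g t ^ 2) j + D.g j ^ 2 * D.hi D.g j)
/-- unmarked errors -/
def E0 : ℝ := D.X ^ 6 + 1 / D.n + (D.K + 1) ^ 2 * D.tl + D.I D.dx + D.X ^ 4 * D.N1 +
  D.X ^ 3 * (D.N2 + D.N1 ^ 2) + D.T3 + D.I (fun j => D.u 4 j + D.u 5 j) + D.Lad0 +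
  D.VF + D.I (fun j => D.u 2 j * D.fs D.F0 j) + D.Lv1 * D.fs D.F0 D.J + D.Lv2 * D.fs D.f0 D.J
/-- marked errors -/
def E1 : ℝ := D.Iw (fun j => D.dx j + D.X ^ 4 * D.g j + D.X ^ 3 * (D.g j ^ 2 + D.g j * D.N1) +
    D.u 4 j + D.u 5 j + D.u 2 j * D.fs D.F0 j + D.X ^ 3 * (D.e j * D.G0 j)) + D.Cub + D.Lad1 +
  D.I (fun j => D.u 2 j * D.fs D.F1 j) + (D.Lv1 + D.X ^ 3) * D.fs D.F1 D.J +
  D.X ^ 3 * (D.wt * D.sv D.G0 D.J) + D.Lv2 * D.fs D.f1 D.J + D.Z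
def Err : ℝ := D.wt * D.E0 + D.dd (D.I fun j => D.e j * D.g j ^ 3) D.E1

/-- `|Γ - q|` -/
def gq (j : ℕ) : ℝ := |D.Gam j - D.q j|

/-- the variance bounds of `Wk` for all bounded multipliers -/
def Wp (μ f : ℕ → ℝ) : Prop := ∀ φ : ℕ → ℝ, (∀ t, |φ t| ≤ 1) → ∀ j,
  pE (fun _ => 1) D.B 0
    (fun p _ => (∑ t ∈ D.tail j, μ t * φ t * (D.nd t p - D.del t)) ^ 2) ≤ f j ^ 2 ∧
  pE (fun _ => 1) D.B 0
    (fun p x => (∑ t ∈ D.tail j, μ t * φ t * (D.lf t p x - D.del t)) ^ 2) ≤ f j ^ 2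

/-- the errors of the `L²` weak forms, inside `Z` -/
def A1 : ℝ := D.I (fun j => √(D.u 4 j) * D.fs D.F1 j) +
  √D.tl * (D.fs D.F1 D.J + D.fs D.f1 D.J + D.Iw (fun j => D.e j * D.G0 j) + D.wt * D.fs D.G0 D.J)

/-- admissible data -/
structure Ok (τ0 : ℝ) : Prop where
  pos : 0 < D.n
  ook : OOk D.M D.q
  mono : Mono 0 D.B
  cut : D.J < D.K
  top : D.dx D.K = 0
  tau : D.τ D.K ≤ τ0
  qlo : ∀ j ≤ D.J, D.q j = 0
  X1 : D.X ≤ 1
  x1 : ex D.B D.J ≤ D.X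
  h1 : fAcc D.M D.J ≤ D.X ^ 3
  stt : D.W = none → ∀ j ∈ D.up, |D.Gam j - D.q j| ≤ D.X ^ 3
  tl0 : 0 ≤ D.tl
  envL : ∀ j ∈ D.lo, D.E2 j (fun x y => max (|ov x y| - D.X) 0) ≤ D.tl
  envU : ∀ j ∈ D.up, D.E2 j (fun x y => max (|oU D.q j x y| - D.e j) 0) ≤ D.tl
  eX : ∀ j, D.X ≤ D.e j
  emono : ∀ j, D.e j ≤ D.e (j + 1)
  esc : ∀ j ∈ D.up, min 1 (ex D.B j + D.sig j) ≤ D.e j
  wk0 : D.Wk D.dx D.F0 D.f0
  wk1 : D.Wk2 D.om D.F1 D.f1
  nl : D.NLa ≤ D.Z ∨ ∃ a l A : ℕ → ℝ, (∀ j ∈ D.up, D.om j = D.dx j * a j) ∧ (∀ j, 0 < l j) ∧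
    (∀ j, l j ≤ l (j + 1)) ∧ D.Add A ∧ D.TFa a l A ≤ D.Z
  stw : D.Iw (fun j => D.g j * (D.gq j * D.g j + D.I fun t => D.gq t * D.g t)) +
    (D.K + 1) ^ 2 * D.tl ≤ D.Z
  qe : ∀ j ∈ D.up, D.q j ≤ D.e j
  xc : D.wt * (D.N1 * D.N2) * D.dd 0 1 + D.Iw (fun j => min (D.g j * D.lw (fun t => D.g t ^ 2) j)
    (√(D.u 2 j) * D.lw (fun t => √(D.u 4 t)) j)) ≤ D.Z
  wkp : D.Wp D.dx D.f0 ∧ D.Wp D.om D.f1
  q2a : D.wt * D.I (fun j => √(D.v j j) * D.lw (fun k => D.e k * √(D.v k k)) j) * D.dd 0 1 +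
    D.Iw (fun j => √(D.v j j) * (D.f0 j + D.sv D.f0 D.J +
      D.lw (fun k => D.e k * √(D.v k k)) j + D.hi (fun k => √(D.v k k)) j)) +
    D.Iw (fun j => D.f0 j * (D.f0 j + D.sv D.f0 D.J)) ≤ D.Z
  nl2 : D.NLa ≤ D.Z ∨ ∃ a l A : ℕ → ℝ, (∀ j ∈ D.up, D.om j = D.dx j * a j) ∧ (∀ j, 0 < l j) ∧
    (∀ j, l j ≤ l (j + 1)) ∧ D.Add A ∧ D.TFa a l A + log (D.K + 2) *
      (1 + D.sv (fun _ => 1) D.J) ^ 2 *
        (D.I (fun t => D.e t * √(D.v t t)) * √(D.I fun t => a t ^ 2 * A t)) ≤ D.Z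
  wg0 : D.Wk2 D.dx D.G0 D.f0
  gF : ∀ j, D.G0 j ≤ D.F0 j
  zA : D.A1 ≤ D.Z
  stq : (D.wt * (D.I (fun t => D.gq t * D.g t ^ 2) + D.I (fun t => D.gq t * D.g t) * D.N1) +
    D.Iw fun j => D.gq j * (D.g j * D.N1 + D.N2 + D.N1 ^ 2)) * D.dd 0 1 ≤ D.Z

end CD

/-- `g = O (Err)` in the direction `b` (`false` value, `true` test) -/
def Bd (b : Bool) (g : CD → ℝ) : Prop :=
  ∀ τ0 : ℝ, ∃ C : ℝ, 0 ≤ C ∧ ∀ D : CD, D.Ok τ0 → D.W.isSome = b → |g D| ≤ C * D.Err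

/-- total degree in `U` -/
def deg (f : List Lt) : ℕ := (f.map dg).sum

/-! ### leaves -/

/-- exact words -/
def ExS : Prop := ∀ (τ0 : ℝ) (D : CD), D.Ok τ0 → D.tw [aU] = D.f1' ∧
  D.tw [bL] = -(D.dd 1 0 * D.S1) / 4 ∧ D.tw [bU] = -(D.dd 1 0 * D.Su) / 4 ∧
  ∀ f f' : List Lt, f.Perm f' → D.tw f = D.tw f' ∧ D.tU f = D.tU f'
def YhS (b : Bool) : Prop := Bd b fun D => D.tw [aL] - D.lam2 * D.Sh' / 2
def Y2S (b : Bool) : Prop := Bd b fun D => D.tw [aL, aL] - D.lam2 * D.S2 / 2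
def Y3S (b : Bool) : Prop := Bd b fun D => D.tw [aL, aL, aL] + D.lam3 * D.S3
def Y4S (b : Bool) : Prop := Bd b fun D => D.tw [aL, aL, aL, aL] - D.k44 * D.S4 / 2
def LbS (b : Bool) : Prop := (Bd b fun D => D.tw [aL, aL, bL]) ∧ Bd b fun D => D.tw [bL, bL]
def MxS (b : Bool) : Prop := Bd b fun D => D.tw [aU, aL, aL] - D.S2 * D.dmx
def Q2S (b : Bool) : Prop := Bd b fun D => D.tw [aU, aU] - (D.QM + D.LOC)
def C3S (b : Bool) : Prop := Bd b fun D => D.tw [aU, aU, aU] - D.LOC3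
/-- in the value direction the local cubic term is an error -/
def L3S : Prop := Bd false fun D => D.LOC3
def AbS (b : Bool) : Prop := (Bd b fun D => D.tw [aU, bU]) ∧ Bd b fun D => D.tw [aU, bL]
/-- an odd number of `aL` and another letter -/
def CrO (b : Bool) : Prop := ∀ f : List Lt, f.length ≤ 4 → Odd (f.count aL) →
  f.count aL < f.length → Bd b fun D => D.tw f
/-- degree four with an upper letter -/
def Cr4 (b : Bool) : Prop := ∀ f : List Lt, deg f = 4 → Even (f.count aL) →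
  (aU ∈ f ∨ bU ∈ f) → Bd b fun D => D.tw f
/-- degree at least five -/
def Cr5 (b : Bool) : Prop := ∀ f : List Lt, f.length ≤ 4 → 5 ≤ deg f → Bd b fun D => D.tw f
/-- the `U` part of the test, crude words -/
def StC : Prop := ∀ f : List Lt, 1 ≤ f.length → f.length ≤ 4 → (deg f ≠ 2 ∨ f.count aL = 1) →
  Bd true fun D => D.tU f
/-- the `U` part of the test, low words of degree two -/
def StL : Prop := (Bd true fun D => D.tU [bL]) ∧ Bd true fun D => D.tU [aL, aL]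
/-- the `U` part of the test, upper words of degree two -/
def StU : Prop := (Bd true fun D => D.tU [bU]) ∧ Bd true fun D => D.tU [aU, aU]

/-- sum over the words of length `1 … 4` with the weight `c` -/
def sumW (c : List Lt → ℝ) (T : List Lt → ℝ) : ℝ := ∑ k ∈ Finset.range 4,
  ∑ f : Fin (k + 1) → Lt, c (List.ofFn f) * T (List.ofFn f) / (k + 1).factorial
/-- degree carried by the cell `c` -/
def degC (c : Bool) (f : List Lt) : ℝ := ((f.map fun a => if a.1 = c then dg a else 0).sum : ℕ)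

/-- `V (n + 1) - V n - Pcal - c_n` -/
def CD.dP0 (D : CD) : ℝ :=
  Crest.Agent.T157.Casc.X (fun _ => 1) (D.M.map (mxL (D.n + 1) D.β)) 0 - Crest.Agent.T157.Casc.X (fun _ => 1) D.B 0 -
    (Crest.Agent.T157.Casc.X (fun _ => 1) D.S 0 - oC D.n D.β D.M D.q + oN D.n D.β D.M)

/-- Taylor expansion with remainder -/
def RemS : Prop := (Bd false fun D => D.dP0 + sumW (fun _ => 1) D.tw) ∧
  (∀ c : Bool, Bd false fun D => sumW (degC c) D.tw) ∧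
  Bd true fun D => ∑ j ∈ D.up, D.om j * (D.rb j - D.Gam j) -
    (sumW (fun _ => 1) D.tw - sumW (fun _ => 1) D.tU)

/-! ### heads -/

/-- (val) -/
def HV : Prop := Bd false fun D => D.dP0 + (D.yh + D.y2 + D.y3 + D.y4 + D.f1' + D.mx + D.q2)
/-- (amp LOW) -/
def HL : Prop := Bd false fun D => D.yh + 2 * D.y2 + 3 * D.y3 + 4 * D.y4 + 2 * D.mx
/-- (amp UP) -/
def HU : Prop := Bd false fun D => D.f1' + D.mx + 2 * D.q2
/-- (test ω) -/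
def HT : Prop := Bd true fun D => ∑ j ∈ D.up, D.om j * (D.rb j - D.Gam j) - D.main

/-- the leaves of one direction -/
def Lvs (b : Bool) : Prop := YhS b ∧ Y2S b ∧ Y3S b ∧ Y4S b ∧ LbS b ∧ MxS b ∧ Q2S b ∧ C3S b ∧
  AbS b ∧ CrO b ∧ Cr4 b ∧ Cr5 b

/-- glue, value -/
def GlueV : Prop := ExS → RemS → Lvs false → L3S → HV ∧ HL ∧ HU
/-- glue, test -/
def GlueT : Prop := ExS → RemS → Lvs true → StC → StL → StU → HT

end Crest.Agent.T156.Cas.C40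

end
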