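import Crest.Agent.T156.CMxT_14
import Crest.Agent.T156.CKit_32
import Crest.Agent.T156.Ker_15

/-!
# Row 156, block C (helper14): `MxM true`
-/

set_option autoImplicit false
set_option linter.all false

noncomputable section

namespace Crest.Agent.T156.Cas.C40.Mt14

open MeasureTheory Real Set Filter Topology
open Crest.Agent.T157.E Crest.Agent.T157.Casc Crest.Agent.T157.SL
open Crest.ProbabilityR.SpinGlassDynamics (spin)
open Wt87 (shr_two fst_two)
open Leg51 Low51 Lsg89 L90 One15 Mul55 Mx14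
open Y4 (RR ZZ RR_hi cutS tiltB monoS abs_ZZ exists_drop cB_zero)
open Mx23 (pL pM MxM)

variable {D : CD} {τ0 : ℝ}

theorem cS_lo {j : ℕ} (h : j ≤ D.J) : L90.cS D j = 0 := if_neg (not_lt.2 h)

theorem Sd_cS (D : CD) (j : ℕ) (a b : Bool) : D.Sd j a b = L90.cS D j * oE D.q j a b := by
  unfold CD.Sd L90.cS
  split_ifs
  · rfl
  · rw [zero_mul]

theorem sum_up (H : D.Ok τ0) {Θ : Type} {L : List (Lv Θ)} (hL : D.B.map Lv.m = L.map Lv.m) {i : ℕ}
    (hi : i ≤ D.J) {g : ℕ → ℝ} (h : ∀ j ≤ D.J, g j = 0) :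
    ∑ j ∈ Finset.range (L.length - i + 1), dm (L.drop i) 0 j * g (j + i) = D.I g := by
  have lS : L.length = D.K := (Cav22.len_tilt hL).symm.trans D.B_len
  have hc := H.cut
  rw [Wt87.sum_dm_drop L (by omega) g, h i hi, mul_zero, zero_add, lS]
  simp only [← Cav22.dm_tilt hL 0]
  refine (Finset.sum_subset (fun j hj => ?_) fun j hj hj' => ?_).symm
  · simp only [Finset.mem_Ioo, Finset.mem_Ioc] at hj ⊢
    omega
  · simp only [Finset.mem_Ioo, Finset.mem_Ioc] at hj hj'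
    rcases le_or_gt j D.J with h1 | h1
    · rw [h j h1, mul_zero]
    · rw [show j = D.K by omega]
      exact (congrArg (· * _) H.top).trans (zero_mul _)

theorem sum_T (H : D.Ok τ0) {g : ℕ → ℝ} (h : ∀ j ≤ D.J, g j = 0) :
    ∑ j ∈ Finset.range ((D.S.drop D.J).length + 1), dm (D.S.drop D.J) 0 j * g (j + D.J) = D.I g := by
  rw [List.length_drop]
  exact sum_up H (tiltB D) le_rfl h

theorem abs_I (H : D.Ok τ0) {a b : ℕ → ℝ} (h : ∀ j ∈ D.up, |a j| ≤ b j) : |D.I a| ≤ D.I b :=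
  abs_wsum _ H.dx0 h

/-! ### the word -/

/-- the term of one marked pair -/
def Xi (D : CD) (P : P2) : ℝ := sg (-1) D.B P.s fun τ =>
  L90.cS D τ.j * WW D τ.sh [(τ.e P.a, τ.e P.b), (τ.p, τ.q)]

theorem term_eq (H : D.Ok τ0) {j : ℕ} (hj : j ≤ D.B.length) :
    wB (-1) D.B (cB D) ([pM D, pL D, pL D].map cc) (Sh.two j) (fun _ => 1) (pr2 j (oE D.q j)) =
      Xi D ⟨.two j, Sh.twoL j, Sh.twoR j⟩ := by
  refine sg_congr _ _ _ fun τ hτ => ?_
  have h1 := wB_St (ε := -1) (i := D.J) (M := D.B) (cB_zero D) [c1 D aL, c1 D aL] (fun p hp k hk => by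
    simp only [List.mem_cons, List.not_mem_nil, or_false, or_self] at hp
    rw [hp]
    exact RR_hi hk) [OO D, OO D] [oE D.q, oE D.q] τ.sh
    [(τ.e (Sh.twoL j), τ.e (Sh.twoR j)), (τ.p, τ.q)] rfl rfl
  refine Eq.trans ?_ ((wB_mul (fun s G c ξ => ?_) _ _ _ (L90.cS D τ.j) _).trans (mc h1))
  · refine congrArg₂ (wB (-1) D.B (cB D) [c1 D aL, c1 D aL] τ.sh) (funext fun x => ?_)
      (funext fun x => ?_)
    · simp only [List.cons_append, prE_cons, prE_nil]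
      exact (mul_one _).trans (by norm_num)
    · simp only [List.cons_append, prE_cons, prE_nil, hτ.shr, hτ.shr_e, shr_two, min_eq_left hj]
      refine Eq.trans (mc (Sd_cS D _ _ _)) ?_
      rw [mul_one, mul_left_comm]
      rfl
  · simp only [cB, TEf, Law.TE_const_mul w1, mul_left_comm c]

/-- the shifted site kernel -/
def oJ (D : CD) : ℕ → Bool → Bool → ℝ := fun k => oE D.q (k + D.J)

/-- the term of a tree with all grafts above the cut -/
def Wu (D : CD) {r : ℕ} (τ : GT (Sh.two r)) : ℝ := WW D (τ.sh.stp D.J)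
  [(τ.sh.stI D.J (τ.e (Sh.twoL r)), τ.sh.stI D.J (τ.e (Sh.twoR r))),
    (τ.sh.stI D.J τ.p, τ.sh.stI D.J τ.q)]

theorem Xi_eq (H : D.Ok τ0) (r : ℕ) :
    Xi D ⟨.two (r + 1 + D.J), Sh.twoL _, Sh.twoR _⟩ =
      (usg (-1) 0 (D.S.drop D.J) (.two (r + 1)) fun τ => L90.cS D (τ.j + D.J) * Wu D τ) +
      ∑ y ∈ Finset.range (D.J + 1), D.dx y * D.I fun k => L90.cS D k *
        W3 D ((Sh.two (r + 1)).stp D.J) (Sh.stI _ D.J (Sh.twoL _)) (Sh.stI _ D.J (Sh.twoR _)) y k := by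
  rw [two_stp, Xi, sg_up (cutB H).le fun τ hτ => by rw [cS_lo hτ, zero_mul]]
  refine ac ?_ ?_
  · rw [usg_stp _ _ (cutB H).le, usg_tilt (Cav22.drop_tilt (tiltB D) D.J)]
    simp only [upG, stJ_stI]
    rfl
  · rw [low3, Finset.sum_comm]
    refine Finset.sum_congr rfl fun y hy => ?_
    have hy' := Nat.lt_succ_iff.1 (Finset.mem_range.1 hy)
    refine ((sk_stp (u := .two (r + 1)) rfl (cutB H)).wt y hy' _).trans ?_
    rw [Wt87.sum_one, fst_two]
    exact congrArg₂ (· * ·) (cw_one _ _ _) (sum_up H rfl hy' (g := fun k => L90.cS D k * W3 D ((Sh.two (r + 1)).stp D.J)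
      (Sh.stI _ D.J (Sh.twoL _)) (Sh.stI _ D.J (Sh.twoR _)) y k) fun k hk => by
        rw [cS_lo hk, zero_mul])

/-! ### the site head -/

/-- the marked pair in the field `y` -/
def Aj (D : CD) (k : ℕ) : ℝ → ℝ := A0 D _ (pj D (k - D.J) k)
/-- its second derivative -/
def m2 (D : CD) (k : ℕ) : ℝ := d2 D _ (pj D (k - D.J) k)

theorem Aj_add (D : CD) (r : ℕ) : Aj D (r + D.J) = A0 D _ (pj D r (r + D.J)) := by
  unfold Aj
  rw [Nat.add_sub_cancel]

theorem um_facts (H : D.Ok τ0) {r j : ℕ} (hj : j ≤ D.B.length) {τ : GT (Sh.two (r + 1))}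
    (h : UM (D.S.drop D.J).length _ τ) : τ.sh.br = 1 ∧ Fintype.card τ.sh.Lf ≤ 4 ∧
      ∀ x, |τ.ev (oJ D) (pj D (r + 1) j) x| ≤ 4 := by
  refine ⟨h.2.1, h.1.card.trans_eq (by rw [Wt87.card_two]), fun x => ?_⟩
  have h1 := h.1.le
  have h2 := cutS H
  rw [List.length_drop] at h1
  have h3 := Cav22.len_tilt (tiltB D)
  refine (abs_mul _ _).trans_le ((mul_le_mul (abs_ZZ H j hj _ _) (abs_ZZ H (τ.j + D.J) (by omega) _ _)
    (abs_nonneg _) zero_le_two).trans (by norm_num))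

theorem dop_eq (H : D.Ok τ0) (r j : ℕ) (y : ℝ) :
    twoF (r + 1) (oE D.q j) (Dop (D.S.drop D.J) (fun k => D.Sd (k + D.J))
      (TEf (fun _ => 1) (D.S.drop D.J) (y • spin))) =
      (usg (-1) 0 (D.S.drop D.J) (.two (r + 1)) fun τ => L90.cS D (τ.j + D.J) *
        A0 D τ.sh (τ.ev (oJ D) (pj D (r + 1) j)) y) +
      dm (D.S.drop D.J) 0 0 * D.I fun k => L90.cS D k * (A0 D _ (pj D (r + 1) j) y * Aj D k y) := by
  have hT : 0 < (D.S.drop D.J).length := by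
    rw [List.length_drop]; have := cutS H; omega
  have e1 : ∀ τ : GT (Sh.two (r + 1)), TEf (fun _ => 1) (D.S.drop D.J) (y • spin) τ.sh
      (τ.ev (fun k => D.Sd (k + D.J)) (pj D (r + 1) j)) =
      L90.cS D (τ.j + D.J) * A0 D τ.sh (τ.ev (oJ D) (pj D (r + 1) j)) y := fun τ =>
    Eq.trans (congrArg _ (funext fun x => (mc (Sd_cS D _ _ _)).trans (mul_left_comm _ _ _)))
      (Law.TE_const_mul w1 _ _ _ _ _)
  refine (Dop_eq_sg _ _ _ _ _).trans ((congrArg _ (funext e1)).trans ?_)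
  rw [sg_up (Nat.zero_le _) fun τ hτ => by rw [cS_lo (by omega), zero_mul]]
  refine ac rfl ?_
  rw [low3, Finset.sum_comm, Finset.sum_range_one]
  refine ((sk_stp (u := .two (r + 1)) (i := 0) rfl hT).wt 0 le_rfl _).trans ?_
  rw [Wt87.sum_one, fst_two, ← sum_T H fun k hk => by rw [cS_lo hk, zero_mul]]
  refine congrArg₂ (· * ·) (cw_one _ _ _) (Finset.sum_congr rfl fun k _ => mc (mc ?_))
  have g := LW_gr2 (ε := -1) (u := .two (r + 1)) w1 rfl (Sh.twoL _) (pj D (r + 1) j) k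
    (oE D.q (k + D.J)) [] 0 (D.S.drop D.J) 0 le_rfl (Nat.zero_le _) (y • spin)
  simp only [node_zero, Nat.sub_self] at g
  rw [Aj_add]
  exact g

/-- the upper part of the site head -/
def Uj (D : CD) (j : ℕ) : ℝ := usg (-1) 0 (D.S.drop D.J) (.two (j - D.J)) fun τ =>
  L90.cS D (τ.j + D.J) * d2 D τ.sh (τ.ev (oJ D) (pj D (j - D.J) j))
/-- two independent pairs -/
def p2 (D : CD) (j k : ℕ) : ℝ := iteratedDeriv 2 (fun y => Aj D j y * Aj D k y) 0
/-- the lower part -/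
def Lq (D : CD) (j : ℕ) : ℝ := dm (D.S.drop D.J) 0 0 * D.I fun k => L90.cS D k * p2 D j k

theorem D2.I {F : ℕ → ℝ → ℝ} {v : ℕ → ℝ} (h : ∀ k ∈ D.up, D2 (F k) (v k)) :
    D2 (fun y => D.I fun k => L90.cS D k * F k y) (D.I fun k => L90.cS D k * v k) :=
  D2.sum _ fun k hk => ((h k hk).mul _).mul _

theorem p2_facts (H : D.Ok τ0) {j k : ℕ} (hj : j ∈ D.up) (hk : k ∈ D.up) :
    D2 (fun y => Aj D j y * Aj D k y) (p2 D j k) ∧ |p2 D j k| ≤ 2 ^ 2 * (c3 * c3) :=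
  d2_of ((pj_facts H hj).1.mul (pj_facts H hk).1)

theorem dP_nil (H : D.Ok τ0) (hW : D.W.isSome = true) :
    D.dP 2 [] = -∑ j ∈ D.up, D.om j * m2 D j := by
  simp only [CD.dP, CD.sH, CD.dd_test hW]
  exact congrArg Neg.neg (D2.sum D.up fun j hj => (d2_of (pj_facts H hj).1).1.mul (D.om j)).eq

theorem dP_val (H : D.Ok τ0) : D.val.dP 2 [D.Sd] = -D.I fun k => L90.cS D k * m2 D k := by
  refine congrArg Neg.neg (Eq.trans (congrArg (iteratedDeriv 2 · 0) (funext fun y => ?_))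
    (D2.I (F := Aj D) fun k hk => (d2_of (pj_facts H hk).1).1).eq)
  rw [← sum_T H fun k hk => by rw [cS_lo hk, zero_mul]]
  show pairF (D.S.drop D.J) (fun k => D.Sd (k + D.J)) (TEf (fun _ => 1) (D.S.drop D.J) (y • spin)) = _
  refine Finset.sum_congr rfl fun k _ => mc ?_
  rw [Aj_add]
  exact Eq.trans (congrArg (TE _ _ _ _) (funext fun x => Sd_cS D _ _ _)) (Law.TE_const_mul w1 _ _ _ _ _)

theorem dP_test (H : D.Ok τ0) (hW : D.W.isSome = true) :
    D.dP 2 [D.Sd] = -∑ j ∈ D.up, D.om j * (Uj D j + Lq D j) := by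
  simp only [CD.dP, CD.sH, CD.dd_test hW]
  refine congrArg Neg.neg (D2.sum D.up fun j hj => D2.mul ?_ (D.om j)).eq
  have h1 := (D2.I (F := fun k y => Aj D j y * Aj D k y) fun k hk => (p2_facts H hj hk).1).mul
    (dm (D.S.drop D.J) 0 0)
  obtain ⟨k1, k2⟩ := CD.mem_up.1 hj
  obtain ⟨r, hr⟩ : ∃ r, j - D.J = r + 1 := ⟨j - D.J - 1, by omega⟩
  unfold Uj Lq
  rw [show Aj D j = A0 D _ (pj D (r + 1) j) by unfold Aj; rw [hr]] at h1
  rw [hr]
  refine (congrArg (D2 · _) (funext fun y => dop_eq H r j y)).mpr (D2.add (D2.usg fun τ hτ => ?_) h1)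
  obtain ⟨a, b, c⟩ := um_facts H (D.B_len ▸ k2.le) hτ
  exact (d2_of (mg_facts H a b c).1).1.mul _

/-! ### the estimate -/

theorem abs_S2 (H : D.Ok τ0) : |D.S2| ≤ 4 * (D.X * b1 D τ0) := by
  have h := abs_low H (b1_nn H) fun y hy => abs_bb_le H hy
  rw [sum_bb, abs_div, abs_of_pos (by norm_num : (0 : ℝ) < 4)] at h
  linarith

theorem abs_Lq (H : D.Ok τ0) {j : ℕ} (hj : j ∈ D.up) :
    |Lq D j| ≤ D.X * (2 ^ 2 * (c3 * c3) * D.I fun k => |L90.cS D k|) := by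
  obtain ⟨l, L, e, hM, hx⟩ := exists_drop H
  rw [Lq, abs_mul, ← D.I_mul]
  refine mul_le_mul ?_ (abs_I H fun k hk => ?_) (abs_nonneg _) H.X0
  · rw [e]
    show |l.m - 0| ≤ _
    rwa [sub_zero, abs_of_nonneg hM.1]
  · rw [abs_mul, mul_comm]
    exact mul_le_mul_of_nonneg_right (p2_facts H hj hk).2 (abs_nonneg _)

theorem c6_nn : 0 ≤ c6 := by
  have := one_le_c3
  unfold c6
  positivity

theorem up_est (H : D.Ok τ0) {j : ℕ} (hj : j ∈ D.up) :
    |(usg (-1) 0 (D.S.drop D.J) (.two (j - D.J)) fun τ => L90.cS D (τ.j + D.J) * Wu D τ) +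
      D.S2 * (D.lam * Uj D j)| ≤
      c6 * (D.X ^ 2 * b1 D τ0) * (40 * (2 * |L90.cS D j| + D.I fun k => |L90.cS D k|)) := by
  obtain ⟨j1, j2⟩ := CD.mem_up.1 hj
  obtain ⟨r, rfl⟩ : ∃ r, j = r + 1 + D.J := ⟨j - D.J - 1, by omega⟩
  have hM := Cav22.mono_drop D.J (monoS H)
  have hK := D.B_len
  have hS := Cav22.len_tilt (tiltB D)
  have hn : D.B.length = (D.S.drop D.J).length + D.J := by rw [List.length_drop]; omega
  have c0 := mul_nonneg c6_nn (mul_nonneg (sq_nonneg D.X) (b1_nn H))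
  unfold Uj
  rw [Nat.add_sub_cancel, ← mul_assoc, ← usg_mul, ← usg_add]
  refine (abs_usg_le hM (Ψ := fun τ => c6 * (D.X ^ 2 * b1 D τ0) * |L90.cS D (τ.j + D.J)|)
    fun τ hτ => ?_).trans ?_
  · obtain ⟨a, b, c⟩ := um_facts H (j := r + 1 + D.J) (by omega) hτ
    have h1 := one_est H a b c (cs := [(τ.sh.stI D.J (τ.e (Sh.twoL _)), τ.sh.stI D.J (τ.e (Sh.twoR _))),
      (τ.sh.stI D.J τ.p, τ.sh.stI D.J τ.q)]) rfl (funext fun x => by
        rw [prE_cons, prE_cons, prE_nil, mul_one, hn, Clu22.shr_stI, Clu22.shr_stI, hτ.1.shr,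
          hτ.1.shr_e, shr_two, min_eq_left (by omega)]
        rfl)
    refine (congrArg abs (?_ : _ = (Wu D τ + D.S2 * (d2 D τ.sh (τ.ev (oJ D)
      (pj D (r + 1) (r + 1 + D.J))) * D.lam)) * L90.cS D (τ.j + D.J))).trans_le ?_
    · ring
    · rw [abs_mul]
      exact mul_le_mul_of_nonneg_right h1 (abs_nonneg _)
  · rw [usg_mul]
    refine mul_le_mul_of_nonneg_left ((usg_le_sg hM (Nat.zero_le _) (G := fun k => |L90.cS D (k + D.J)|)
      (fun _ => abs_nonneg _) fun k hk => by rw [cS_lo (by omega), abs_zero]).trans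
      ((Ker15.sg_lvl hM _ (g := fun k => |L90.cS D (k + D.J)|) fun _ => abs_nonneg _).trans_eq ?_)) c0
    rw [Nv, Tay38.prs_two, shr_comm _ (Sh.twoR _), shr_two, min_eq_left (by omega), Wt87.card_two,
      sum_T H (g := fun k => |L90.cS D k|) fun k hk => by rw [cS_lo hk, abs_zero]]
    push_cast
    ring

theorem low_est (H : D.Ok τ0) {j : ℕ} (hj : j ∈ D.up) :
    |(∑ y ∈ Finset.range (D.J + 1), D.dx y * D.I fun k => L90.cS D k *
      W3 D ((Sh.two (j - D.J)).stp D.J) (Sh.stI _ D.J (Sh.twoL _)) (Sh.stI _ D.J (Sh.twoR _)) y k) -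
      D.S2 * (m2 D j * D.I fun k => L90.cS D k * m2 D k)| ≤
      D.X * (c6 * (D.X * b1 D τ0) * D.I fun k => |L90.cS D k|) := by
  have c0 := mul_nonneg c6_nn (mul_nonneg H.X0 (b1_nn H))
  refine le_of_eq_of_le (congrArg abs ?_) (abs_low H (T := fun y => D.I (fun k => L90.cS D k *
    W3 D ((Sh.two (j - D.J)).stp D.J) (Sh.stI _ D.J (Sh.twoL _)) (Sh.stI _ D.J (Sh.twoR _)) y k) +
      -(4 * m2 D j * bb D y) * D.I fun k => L90.cS D k * m2 D k)
    (mul_nonneg c0 (H.I0 fun _ _ => abs_nonneg _)) fun y hy => ?_)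
  · have e := sum_bb D
    simp only [mul_add, Finset.sum_add_distrib]
    rw [sub_eq_add_neg]
    refine ac rfl (Eq.symm ((Finset.sum_congr rfl fun y _ => (?_ : _ = -(4 * m2 D j * D.I fun k =>
      L90.cS D k * m2 D k) * (D.dx y * bb D y))).trans ?_))
    · ring
    · rw [← Finset.mul_sum, e]
      ring
  · rw [← D.I_mul, ← D.I_add, ← D.I_mul]
    refine abs_I H fun k hk => (congrArg abs (?_ : _ = (W3 D ((Sh.two (j - D.J)).stp D.J)
      (Sh.stI _ D.J (Sh.twoL _)) (Sh.stI _ D.J (Sh.twoR _)) y k -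
        4 * (bb D y * (m2 D j * m2 D k))) * L90.cS D k)).trans_le ?_
    · ring
    · rw [abs_mul]
      exact mul_le_mul_of_nonneg_right (two_est H hj hk hy) (abs_nonneg _)

/-- the constant -/
def c7 : ℝ := 80 * c6 + 16 * c3 ^ 3

theorem term_est (H : D.Ok τ0) {j : ℕ} (hj : j ∈ D.up) :
    |wB (-1) D.B (cB D) ([pM D, pL D, pL D].map cc) (Sh.two j) (fun _ => 1) (pr2 j (oE D.q j)) -
      D.S2 * ((m2 D j * D.I fun k => L90.cS D k * m2 D k) - D.lam * (Uj D j + Lq D j))| ≤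
      c7 * (D.X ^ 2 * b1 D τ0 * (|L90.cS D j| + D.I fun k => |L90.cS D k|)) := by
  have h1 := up_est H hj
  have h2 := low_est H hj
  have c0 := one_le_c3
  have b0 := b1_nn H
  have hX := H.X0
  have I0 : 0 ≤ D.I fun k => |L90.cS D k| := H.I0 fun _ _ => abs_nonneg _
  have h3 : |D.S2 * (D.lam * Lq D j)| ≤ 4 * (D.X * b1 D τ0) *
      (c3 * (D.X * (2 ^ 2 * (c3 * c3) * D.I fun k => |L90.cS D k|))) := by
    rw [abs_mul, abs_mul]
    exact mul_le_mul (abs_S2 H) (mul_le_mul (g1_facts H).2.2.1 (abs_Lq H hj) (abs_nonneg _)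
      (by positivity)) (by positivity) (by positivity)
  obtain ⟨j1, j2⟩ := CD.mem_up.1 hj
  rw [term_eq H (D.B_len ▸ j2.le)]
  obtain ⟨r, rfl⟩ : ∃ r, j = r + 1 + D.J := ⟨j - D.J - 1, by omega⟩
  rw [Nat.add_sub_cancel] at h1 h2
  rw [Xi_eq H]
  have k0 := mul_nonneg (sq_nonneg D.X) b0
  have k1 := mul_nonneg c6_nn (mul_nonneg k0 I0)
  have k2 := mul_nonneg (pow_nonneg (zero_le_one.trans c0) 3)
    (mul_nonneg k0 (abs_nonneg (L90.cS D (r + 1 + D.J))))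
  unfold c7
  rw [abs_le] at h1 h2 h3 ⊢
  constructor <;> linarith [h1.1, h1.2, h2.1, h2.2, h3.1, h3.2]

theorem cS_le_g (H : D.Ok τ0) (j : ℕ) : |L90.cS D j| ≤ τ0 * D.g j := by
  have h1 : |D.del j| ≤ D.u 1 j := abs_del D fun x y => (pow_one _).ge
  have h2 := Ck32.u_le_g (D := D) (p := 1) (by norm_num) j
  have h3 := H.tau_mem j
  have h4 := D.g0 j
  rw [pow_one] at h2
  unfold L90.cS
  split_ifs
  · rw [abs_mul, abs_of_nonneg (by linarith [h3.1])]
    nlinarith [abs_nonneg (D.del j), h3.1, h3.2]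
  · rw [abs_zero]
    exact mul_nonneg H.tau0 h4

theorem size_le (H : D.Ok τ0) {a g : ℝ} (a0 : 0 ≤ a) (h1 : a ≤ τ0) (h2 : a ≤ τ0 * g) :
    D.X ^ 2 * b1 D τ0 * a ≤ τ0 ^ 3 * (D.X ^ 4 * g + 2 * D.tl) := by
  have t0 := H.tau0
  have k1 := mul_le_mul_of_nonneg_left h2 (pow_nonneg H.X0 4)
  have k2 := mul_le_mul (mul_le_of_le_one_left H.tl0 (pow_le_one₀ (n := 2) H.X0 H.X1)) h1 a0 H.tl0
  have k3 := mul_le_mul_of_nonneg_left (add_le_add k1 (add_le_add k2 k2)) (sq_nonneg τ0)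
  unfold b1
  linarith

theorem hc_true : Bd true fun D => hc D [pM D, pL D, pL D] - D.S2 * D.dmx := Bd.mk' fun τ0 => by
  refine ⟨c7 * τ0 ^ 3 * (5 + 1), fun D H hW => ?_⟩
  have c0 : 0 ≤ c7 := by
    have := one_le_c3
    have := c6_nn
    unfold c7
    positivity
  have t0 := H.tau0
  have e : hc D [pM D, pL D, pL D] - D.S2 * D.dmx = ∑ j ∈ D.up, D.om j *
      (wB (-1) D.B (cB D) ([pM D, pL D, pL D].map cc) (Sh.two j) (fun _ => 1) (pr2 j (oE D.q j)) -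
      D.S2 * ((m2 D j * D.I fun k => L90.cS D k * m2 D k) - D.lam * (Uj D j + Lq D j))) := by
    rw [hc, CD.dmx, CD.dd_test hW, CD.dd_test hW, dP_nil H hW, dP_val H, dP_test H hW,
      neg_mul_neg, mul_neg, ← sub_eq_add_neg, Finset.sum_mul, Finset.mul_sum,
      ← Finset.sum_sub_distrib, Finset.mul_sum, ← Finset.sum_sub_distrib]
    exact Finset.sum_congr rfl fun j _ => by ring
  have h1 := size_le H (H.I0 fun _ _ => abs_nonneg _)
    (H.I_le t0 fun k hk => abs_cS H (CD.mem_up.1 hk).2.le)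
    ((H.I_mono fun k _ => cS_le_g H k).trans_eq (D.I_mul _ _))
  rw [e]
  refine (D.abs_sum_om (b := fun j => c7 * τ0 ^ 3 * (D.X ^ 4 * D.g j + (D.X ^ 4 * D.N1 + 4 * D.tl)))
    fun j hj => (term_est H hj).trans ?_).trans ?_
  · have h2 := size_le H (abs_nonneg _) (abs_cS H (CD.mem_up.1 hj).2.le) (cS_le_g H j)
    rw [mul_assoc c7]
    refine mul_le_mul_of_nonneg_left ?_ c0
    unfold CD.N1
    linarith
  · rw [D.Iw_mul, mul_assoc (c7 * τ0 ^ 3)]
    exact mul_le_mul_of_nonneg_left (H.Iw_split hW (by norm_num) zero_le_one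
      (by linarith [H.XN1_le, H.tl_le]) (H.IwXg_le.trans_eq (one_mul _).symm)) (by positivity)

end Crest.Agent.T156.Cas.C40.Mt14

namespace Crest.Agent.T156.Cas.C40.Mx23

/-- **the mean part of `MX`, test direction** -/
theorem mxM_true : MxM true := ((L90.lad_MLL true).add Mt14.hc_true).congr fun _ D _ _ => by ring

end Crest.Agent.T156.Cas.C40.Mx23

end
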