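import Crest.Agent.T156.CHTa_54
import Crest.Agent.T156.CMxV_14

/-!
# Row 156, block C: the test head (helper54)
-/

set_option autoImplicit false

namespace Crest.Agent.T156.Cas.C40

/-- (test ω) -/
theorem hT : HT := hT_mx Mx23.mxM_true

end Crest.Agent.T156.Cas.C40
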