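import Crest.Agent.T156.CQ21D_52

/-!
# Row 156 (helper4): the word `[aU, aU]`, test direction, one edge at the marked level, density form
-/

set_option autoImplicit false
set_option linter.all false

noncomputable section

namespace Crest.Agent.T156.Cas.Q21.A4

open Finset
open Crest.Agent.T157.E Crest.Agent.T157.Casc Crest.Agent.T157.SL
open Crest.Agent.T157.G1 (ov)
open Crest.Agent.T156.Cas.Q75
open Crest.Agent.T156.Cas.Q75.A10
open Nu87 Wt87

section gen
variable {Θ : Type} {L : List (Lv Θ)}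

theorem wg0 (hL : Mono 0 L) (j : ℕ) {r : ℕ} (ρ : SM r) : 0 ≤ wg L j ρ := by
  unfold wg
  have := dm_nonneg hL j
  split_ifs <;> linarith

theorem mkH_mono {T : List (Lv Bool)} {q : Rf} {j : ℕ} {C C' : ℝ} {P a a' : ℕ → ℝ} (hL : Mono 0 L)
    (H : MkH L T q j C P a) (hC : C ≤ C') (hP : ∀ i, 0 ≤ P i) (ha : ∀ i, 0 ≤ a' i)
    (e : ∀ i, ¬ Bad j L.length i → a i = a' i) : MkH L T q j C' P a' := by
  have k : ∀ {r : ℕ} (ρ : SM r) {x : ℝ}, 0 ≤ x → C * wg L j ρ * x ≤ C' * wg L j ρ * x :=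
    fun ρ x hx => mul_le_mul_of_nonneg_right (mul_le_mul_of_nonneg_right hC (wg0 hL j ρ)) hx
  refine ⟨fun r hr ρ h c d e f => (H.m0 r hr ρ h c d e f).trans
      (mul_le_mul_of_nonneg_right hC (wg0 hL j ρ)),
    fun r hr ρ h c d e f i hi => (H.mp r hr ρ h c d e f i hi).trans (k ρ (hP i)),
    fun r hr ρ ρ' h h' c d e' f i hi hb hm => ?_,
    fun r hr ρ ρ' h h' c d e' f i hi hb hm i' hi' o o' => ?_,
    fun r hr ρ₀ ρ₁ ρ₂ ρ₃ h0 h1 h2 h3 c d e' f i i' hi hi' hb hb' m m' hs => ?_⟩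
  · have := H.m1 r hr ρ ρ' h h' c d e' f i hi hb hm
    rw [e i hb] at this
    exact this.trans (k ρ (ha i))
  · have := H.m1p r hr ρ ρ' h h' c d e' f i hi hb hm i' hi' o o'
    rw [e i hb] at this
    exact this.trans (k ρ (mul_nonneg (hP i') (ha i)))
  · have := H.m2 r hr ρ₀ ρ₁ ρ₂ ρ₃ h0 h1 h2 h3 c d e' f i i' hi hi' hb hb' m m' hs
    rw [e i hb, e i' hb'] at this
    exact this.trans (k ρ₀ (mul_nonneg (ha i) (ha i')))

theorem rowR_mono {T : Tw} {j₁ j : ℕ} {c₀ c₁ : ℝ} {p s : ℕ → ℝ} (H : RowR L T j₁ j c₀ p s)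
    (h : c₀ ≤ c₁) : RowR L T j₁ j c₁ p s :=
  ⟨H.dn0, H.dn1, fun x t a b c d => (H.up0 x t a b c d).trans h, H.up1, H.upp,
    fun z k a b c => (H.of0 z k a b c).trans h, H.of1⟩

theorem off_comm {T : Tw} {K z x k : ℕ} (H : T.tr.Eqv T K) (h1 : z ≤ x) (h2 : x ≤ K) (h3 : z ≤ k)
    (h4 : k ≤ K) : T.off K z k x = T.off K z x k := by
  rw [Tw.off, Tw.off, ← H.2.2 _ (rz_off h2 h1 h3 h4)]
  simp only [Tw.tr, m4_tr]

/-- the two weights may be exchanged -/
theorem NL_swap {c B : Tw} (hc : c.tr.Eqv c L.length) (hB : B.tr.Eqv B L.length) (φ ψ : ℕ → ℝ) :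
    NL L (((wt ψ φ).mul c).mul B) = NL L (((wt φ ψ).mul c).mul B) := by
  rw [NL_eq (j₁ := 0) hc hB (by simp) (by simp), NL_eq (j₁ := 0) hc hB (by simp) (by simp)]
  congr 1
  · simp only [sum_Ico_succ_top (Nat.zero_le _) (f := fun y => dm L 0 _ * _ * (dm L 0 y * _) * _),
      ← sum_add_distrib]
    refine sum_congr rfl fun x _ => ?_
    rw [add_right_comm, add_right_comm _ (_ * _), ← sum_add_distrib, ← sum_add_distrib]
    congr 1
    · exact sum_congr rfl fun y _ => by ring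
    · ring
  · refine sum_congr rfl fun z _ => ?_
    rw [sum_comm]
    refine congrArg _ (sum_congr rfl fun x hx => sum_congr rfl fun k hk => ?_)
    have := mem_Ico.1 hx
    have := mem_Ico.1 hk
    rw [off_comm hc (x := x) (k := k) (by omega) (by omega) (by omega) (by omega),
      off_comm hB (x := x) (k := k) (by omega) (by omega) (by omega) (by omega)]
    ring

theorem Tm_zero (T : List (Lv Bool)) (q : Rf) (j : ℕ) {Ω : Type} [Fintype Ω] [Fintype Θ]
    (w : Ω → ℝ) (B : List (Lv Ω)) (h : Ω → ℝ) (U : ℕ → Ω → Ω → ℝ) :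
    Tm L T q j w B h U (fun _ _ => 0) = 0 := by
  simp only [Tm, E91.D2, zero_mul, avc_const, mul_zero, sum_const_zero]

end gen

open C40 C40.Q10 C40.N75 C40.CD
open Q33 (sl)

variable {D : CD} {τ0 : ℝ}

/-- no local part: the word is the non-local part -/
theorem Tj_NL (HS : SwapS) (q : Rf) {j : ℕ} (hj : j ≤ D.K) {φ ψ : ℕ → ℝ} (e : ∀ x, φ x * ψ x = 0) :
    D.dx j * Tj D D.B q j φ ψ = NL D.B (((wt φ ψ).mul (cM D.B D.S q j)).mul (Bt D)) := by
  obtain ⟨h1, h2, _⟩ := HS _ D.B D.S q j _ (fun _ => 1) D.B 0 (oU D.rb) (fun x y => φ x * ψ y)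
    wt_one90 (Q10.S_len D) rfl (hj.trans_eq D.B_len.symm) fun i x y => by rw [oU, oU, ov_comm]
  have e0 : (fun x y => if x = y then φ x * ψ x * (D.u 2 x - D.del x ^ 2) else 0) =
      fun _ _ : ℕ => (0 : ℝ) := by
    funext x y; rw [e x, zero_mul, ite_self]
  rw [Tj, e0, Tm_zero, sub_zero]
  refine h1.trans ?_
  show 2 * Ful D.B (((wt φ ψ).mul (cM D.B D.S q j)).mul (Bt D)) = _
  rw [Ful_exp _ (Sy_mul (Sy_mul (Sy_wt _ _) h2) (Sy_Bt D)), Q75.Sm, sum_eq_zero fun x hx => by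
    rw [mul_assoc', SN_wt _ _ (Nat.lt_succ_iff.1 (mem_range.1 hx)), e x, zero_mul, mul_zero]]
  ring

/-- the raw step -/
def a0 (D : CD) (i : ℕ) : ℝ := |SF97.vv D.S i| + |(Rq D).2.1 (i + 1) - (Rq D).2.1 i| +
  |(Rq D).2.2 (i + 1) - (Rq D).2.2 i| + (D.dx i + D.dx (i + 1))

/-- the step, cut at the top -/
def a1 (D : CD) (i : ℕ) : ℝ := if i + 1 = D.K then 0 else a0 D i

/-- the parity constant -/
def A : ℝ := 1600 * Real.exp (3 / 2)

theorem one_le_A : 1 ≤ A := by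
  unfold A; nlinarith [Real.one_le_exp (show (0 : ℝ) ≤ 3 / 2 by norm_num)]

section ok
variable (h : D.Ok τ0)
include h

theorem a00 (i : ℕ) : 0 ≤ a0 D i := by
  have := h.dx0 i; have := h.dx0 (i + 1); unfold a0; positivity

theorem a10 (i : ℕ) : 0 ≤ a1 D i := by
  unfold a1; split_ifs; exacts [le_rfl, a00 h i]

theorem par10 (y : ℕ) {ε : ℝ} (hε : 0 < ε) : ∃ σ, 0 < σ ∧ Ker15.tm D.S y ≤ σ ∧
    min 1 (Ker15.PB 10 σ) ≤ A * mm D y + ε := by
  have e1 := one_le_A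
  rcases le_or_gt 1 (mm D y) with h1 | h1
  · exact ⟨|Ker15.tm D.S y| + 1, by positivity, (le_abs_self _).trans (by linarith),
      (min_le_left _ _).trans (by nlinarith)⟩
  have hy : y ∈ D.up := by by_contra hy; rw [mm, if_neg hy] at h1; exact h1.false
  have h2 : D.e y < 1 := by
    rw [mm, if_pos hy] at h1
    exact (min_lt_iff.1 h1).resolve_left (lt_irrefl _)
  have h3 : D.sig y ≤ D.e y := by
    have := (min_le_iff.1 (h.esc y hy)).resolve_left h2.not_ge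
    linarith [h.ex0 y]
  have hε' : 0 < ε / A := div_pos hε (by linarith)
  have h0 : 0 < min 1 (D.e y + ε / A) := lt_min one_pos (by linarith [h.e0 y])
  refine ⟨_, h0, ?_, (min_le_right _ _).trans ?_⟩
  · rw [tm_eq h (mem_up.1 hy).2.le]
    exact le_min (by linarith) (by linarith)
  · have h4 : Real.exp (1 / 2 + √(min 1 (D.e y + ε / A))) ≤ Real.exp (3 / 2) :=
      Real.exp_le_exp.2 (by linarith [Real.sqrt_le_one.2 (min_le_left 1 (D.e y + ε / A))])
    have h5 := mul_le_mul h4 (min_le_right 1 (D.e y + ε / A)) h0.le (Real.exp_pos _).le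
    have h6 : A * D.e y + ε = A * (D.e y + ε / A) := by field_simp
    rw [mm, if_pos hy, min_eq_right h2.le, Ker15.PB, h6]
    generalize D.e y + ε / A = u at *
    unfold A
    push_cast
    nlinarith

theorem q_mm {i j : ℕ} (hj : j ≤ D.K) (hi : j ≤ i) : 0 ≤ D.q j ∧ D.q j ≤ mm D i := by
  have m := h.ook.mem hj
  refine ⟨m.1, ?_⟩
  unfold mm
  split_ifs with c
  · refine le_min m.2 ?_
    rcases le_or_gt j D.J with e | e
    · rw [h.qlo j e]; exact h.e0 i
    · exact (h.qe j (mem_up.2 ⟨e, hi.trans_lt (mem_up.1 c).2⟩)).trans (h.e_mono hi)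
  · exact m.2

theorem al_mem (i : ℕ) : 0 ≤ (Rq D).2.1 i ∧ (Rq D).2.1 i ≤ 1 := by
  have t0 := (h.tau_mem D.K).1
  exact ⟨div_nonneg (h.tau_mem _).1 (by linarith),
    (div_le_one (by linarith)).2 ((h.tau_mono (min_le_right i D.K)).trans (by linarith))⟩

theorem be_le {i' i : ℕ} (hi : i' ≤ i) : |(Rq D).2.2 i'| ≤ mm D i := by
  have m := q_mm h (min_le_right i' D.K) ((min_le_left i' D.K).trans hi)
  have a := al_mem h i'
  have e : (Rq D).2.2 i' = (Rq D).2.1 i' * D.q (min i' D.K) := by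
    show _ * _ / _ = _ / _ * _
    ring
  rw [e, abs_of_nonneg (mul_nonneg a.1 m.1)]
  exact (mul_le_of_le_one_left m.1 a.2).trans m.2

theorem mkH {C : ℝ} (H : ∀ (Θ : Type) [Fintype Θ] (L : List (Lv Θ)) (T : List (Lv Bool))
    (q : Rf) (P a : ℕ → ℝ) (j : ℕ), T.length = L.length → Mono 0 L → Ker15.R1 T → Mono 0 T →
    |q.1 j| ≤ 1 → (∀ i, 0 ≤ q.2.1 i ∧ q.2.1 i ≤ 1 ∧ |q.2.2 i| ≤ 1) → j < L.length →
    (∀ i, (∀ ε > 0, ∃ s, 0 < s ∧ Ker15.tm T i ≤ s ∧ min 1 (Ker15.PB 10 s) ≤ P i + ε) ∧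
      (∀ i' ≤ i, |q.2.2 i'| ≤ P i) ∧ (j ≤ i → |q.1 j| ≤ P i)) →
    (∀ i < L.length, SF97.vv T i ≤ a i ∧ |q.2.1 (i + 1) - q.2.1 i| ≤ a i ∧
      |q.2.2 (i + 1) - q.2.2 i| ≤ a i) → MkH L T q j C P a) {j : ℕ} (hj : j < D.K) :
    MkH D.B D.S (Rq D) j (max C A) (fun i => A * mm D i) (a1 D) := by
  have m := mm_mem h
  have m0 : ∀ i, 0 ≤ mm D i := fun i => h.X0.trans (m i).1
  have mA : ∀ i, mm D i ≤ A * mm D i := fun i => le_mul_of_one_le_left (m0 i) one_le_A
  refine mkH_mono h.mono (H _ D.B D.S (Rq D) _ (a0 D) j (Q10.S_len D) h.mono (r1 h) (mS h) ?_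
    (fun i => ⟨(al_mem h i).1, (al_mem h i).2, (be_le h le_rfl).trans (m i).2⟩)
    (hj.trans_eq D.B_len.symm) (fun i => ⟨fun ε hε => par10 h i hε,
      fun i' hi => (be_le h hi).trans (mA i), fun hi => ?_⟩) fun i _ => ?_) (le_max_left _ _)
    (fun i => (m0 i).trans (mA i)) (a10 h) fun i hb => ?_
  · have := q_mm h hj.le le_rfl
    exact (abs_of_nonneg this.1).trans_le (this.2.trans (m j).2)
  · have := q_mm h hj.le hi
    exact (abs_of_nonneg this.1).trans_le (this.2.trans (mA i))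
  · have := h.dx0 i; have := h.dx0 (i + 1)
    have := le_abs_self (SF97.vv D.S i)
    have := abs_nonneg (SF97.vv D.S i)
    have := abs_nonneg ((Rq D).2.1 (i + 1) - (Rq D).2.1 i)
    have := abs_nonneg ((Rq D).2.2 (i + 1) - (Rq D).2.2 i)
    unfold a0
    exact ⟨by linarith, by linarith, by linarith⟩
  · rw [a1, if_neg fun e => hb (Or.inr (Or.inr (e.trans D.B_len.symm)))]

theorem a0_le {i : ℕ} (h1 : D.J < i) (h2 : i < D.K) : a0 D i ≤ 2 * D.dv (i + 1) := by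
  have t0 := (h.tau_mem D.K).1
  have h4 := h.tau_mono i.le_succ
  have h5 := h.sig_le i.le_succ h2
  have h6 := h.fAcc_mono i.le_succ
  have h7 : D.τ i * D.q i ≤ D.τ (i + 1) * D.q (i + 1) :=
    mul_le_mul h4 (h.ook.le i.le_succ h2) (h.ook.mem h2.le).1 (h.tau_mem _).1
  have k : ∀ {x y : ℝ}, x ≤ y → |y / (1 + D.τ D.K) - x / (1 + D.τ D.K)| ≤ y - x := fun {x y} e => by
    rw [← sub_div, abs_of_nonneg (div_nonneg (sub_nonneg.2 e) (by linarith))]
    exact div_le_self (sub_nonneg.2 e) (by linarith)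
  have e1 : |(Rq D).2.1 (i + 1) - (Rq D).2.1 i| ≤ D.τ (i + 1) - D.τ i := by
    simp only [Rq, min_eq_left h2.le, min_eq_left (Nat.succ_le_of_lt h2)]
    exact k h4
  have e2 : |(Rq D).2.2 (i + 1) - (Rq D).2.2 i| ≤ D.τ (i + 1) * D.q (i + 1) - D.τ i * D.q i := by
    simp only [Rq, min_eq_left h2.le, min_eq_left (Nat.succ_le_of_lt h2)]
    exact k h7
  rw [a0, SF97.vv, tm_eq h h2, tm_eq h h2.le, abs_of_nonneg (sub_nonneg.2 h5), CD.dv,
    if_neg (by omega), Nat.add_sub_cancel]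
  have := h.dx0 i; have := h.dx0 (i + 1)
  simp only [CD.sig] at *
  linarith

theorem sum_a1 {g : ℕ → ℝ} (hg : ∀ y, 0 ≤ g y) :
    ∑ i ∈ Ico (D.J + 1) D.K, a1 D i * g (i + 1) ≤ 2 * D.sv g D.J := by
  have h1 : ∑ i ∈ Ico (D.J + 1) D.K, D.dv (i + 1) * fz D g (i + 1) ≤ D.sv g D.J := by
    rw [sum_Ico_add' (fun j => D.dv j * fz D g j)]
    simp only [fz, mul_ite, mul_zero]
    rw [← sum_filter]
    refine sum_le_sum_of_subset_of_nonneg (fun j hj => ?_)
      fun j hj _ => mul_nonneg (h.dv0 (mem_Ioo.1 hj).2.le) (hg j)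
    simp only [mem_filter, mem_Ico, mem_Ioo] at hj ⊢
    omega
  refine le_trans ?_ (mul_le_mul_of_nonneg_left h1 zero_le_two)
  rw [mul_sum]
  refine sum_le_sum fun i hi => ?_
  have m := mem_Ico.1 hi
  unfold a1 fz
  by_cases e : i + 1 = D.K
  · rw [if_pos e, if_neg (by omega), zero_mul, mul_zero, mul_zero]
  · rw [if_neg e, if_pos (by omega), ← mul_assoc]
    exact mul_le_mul_of_nonneg_right (a0_le h m.1 m.2) (hg _)

theorem fz0 (y : ℕ) : 0 ≤ fz D D.f0 y := by unfold fz; split_ifs; exacts [h.f00 _, le_rfl]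

theorem fz_le (y : ℕ) : fz D D.f0 y ≤ D.f0 y := by unfold fz; split_ifs; exacts [le_rfl, h.f00 _]

theorem fz_anti (y : ℕ) : fz D D.f0 (y + 1) ≤ fz D D.f0 y := by
  unfold fz
  split_ifs with a b
  exacts [(h.wk0.anti y).2, by omega, h.f00 _, le_rfl]

theorem ip_nd (c : ℕ → ℝ) (S : Finset ℕ) : Base53.ipE wt_one90 D.B 0
    (∑ x ∈ S, c x • Base53.dV D.B (sl D.n) wt_one90 D.rb x)
    (∑ x ∈ S, c x • Base53.dV D.B (sl D.n) wt_one90 D.rb x) =
    pE (fun _ => 1) D.B 0 fun p _ => (∑ t ∈ S, c t * (D.nd t p - D.del t)) ^ 2 := by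
  rw [Base53.ip_sum_pE]
  simp only [CD.nd, CD.del, ← uK_eq h, Base53.qf_uK D.B (sl D.n) wt_one90, sub_sub_sub_cancel_right]

theorem wf1 : Wf D.B (D.J + 1) (Base53.ipE wt_one90 D.B 0) (Base53.dV D.B (sl D.n) wt_one90 D.rb)
    (fun x => if D.J < x then 1 else 0) (fz D D.f0) := by
  refine ⟨fun x => by split_ifs <;> simp, fun x hx => if_neg (by omega), fz0 h, fun y hy => ?_⟩
  rw [D.B_len]
  rcases le_or_gt D.K y with hK | hK
  · rw [sum_eq_zero fun x hx => by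
      rw [show x = D.K by have := mem_Ico.1 hx; omega, show dm D.B 0 D.K = 0 from h.top, zero_mul,
        zero_smul]]
    simpa using sq_nonneg _
  have := h.wk0.varN y
  rw [CD.tail, max_eq_left hy] at this
  rw [sum_Ico_succ_top hK.le, show dm D.B 0 D.K = 0 from h.top, zero_mul, zero_smul, add_zero, fz,
    if_pos hK, sum_congr rfl fun x hx => by
      rw [if_pos (by have := mem_Ico.1 hx; omega), mul_one], ip_nd h]
  exact this

theorem ip_del (j : ℕ) : Base53.ipE wt_one90 D.B 0 (Base53.dV D.B (sl D.n) wt_one90 D.rb j)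
    (Base53.dV D.B (sl D.n) wt_one90 D.rb j) ≤ 2 ^ 2 := by
  rw [Base53.ipE_eq]
  refine Lp12.EE_le wt_one90 _ _ (Lp12.EP.mul (Subtype.prop _) (Subtype.prop _)) fun p => ?_
  have e : (Base53.dV D.B (sl D.n) wt_one90 D.rb j).1 p =
      qf (P (fun _ => 1) (D.B.drop j) (p j)) (oU D.rb j) := by
    rw [← uK_eq h, Base53.qf_uK D.B (sl D.n) wt_one90, ← Base53.MM_self]
    rfl
  have h1 := qf_mono (P_nonneg wt_one90 (D.B.drop j) (p j)) (K := oU D.rb j) (K' := fun _ _ => 2)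
    fun x y => (abs_le.1 (abs_oU_rb D j x y)).2
  have h2 := qf_mono (P_nonneg wt_one90 (D.B.drop j) (p j)) (K' := oU D.rb j) (K := fun _ _ => -2)
    fun x y => (abs_le.1 (abs_oU_rb D j x y)).1
  rw [qf_const (sum_P wt_one90 _ _)] at h1 h2
  rw [e]
  nlinarith

theorem bh {C : ℝ} (hC : 1 ≤ C) :
    BH D.B (Bt D) (D.J + 1) (C * A) (fun y => C * (A * mm D y))
      (fun i => C * (a1 D i + if i + 1 = D.B.length then 1 else 0))
      (fun y => √(D.v y y)) (fun y x => √(D.v y x)) (Base53.ipE wt_one90 D.B 0)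
      (Base53.dV D.B (sl D.n) wt_one90 D.rb) (Base53.pV D.B (sl D.n) wt_one90)
      (Base53.PE wt_one90 D.B) := by
  have b1 := Base53.bs D.B (sl D.n) wt_one90 0 D.rb
  have b2 := fun y x t => Base53.lo3 D.B (sl D.n) wt_one90 0 D.rb (y := y) (x := x) (t := t)
  simp only [uK_eq h, vt_eq h] at b1 b2
  have m := mm_mem h
  have m0 : ∀ i, 0 ≤ mm D i := fun i => h.X0.trans (m i).1
  have hA := one_le_A
  have CA : 1 ≤ C * A := one_le_mul_of_one_le_of_one_le hC hA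
  refine ⟨h.mono, Bt_tr D, b1, b2, fun _ _ => Real.sqrt_nonneg _, CA,
    fun y => mul_le_mul_of_nonneg_left (mul_le_of_le_one_right (by linarith) (m y).2) (by linarith),
    fun y => mul_nonneg (by linarith) (mul_nonneg (by linarith) (m0 y)), fun i => ?_, ?_⟩
  · have k : D.dx i ≤ a1 D i + if i + 1 = D.B.length then 1 else 0 := by
      rw [D.B_len, a1]
      split_ifs with e
      · rw [zero_add]; exact h.dx1 (by omega)
      · have := h.dx0 (i + 1)
        have := abs_nonneg (SF97.vv D.S i)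
        have := abs_nonneg ((Rq D).2.1 (i + 1) - (Rq D).2.1 i)
        have := abs_nonneg ((Rq D).2.2 (i + 1) - (Rq D).2.2 i)
        unfold a0
        linarith
    exact k.trans (le_mul_of_one_le_left ((h.dx0 i).trans k) hC)
  · rw [← mul_assoc]
    exact (h.sum_dx D.J).trans_le (h.x1.trans ((m _).1.trans (le_mul_of_one_le_left (m0 _) CA)))

theorem v_le {j x : ℕ} (hx : j ≤ x) : D.v j x ≤ D.v j j := by
  rw [← vt_eq h, ← vt_eq h]
  exact Base53.vt_anti D.B (sl D.n) wt_one90 0 le_rfl hx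

theorem sum_s1 {C : ℝ} (hC : 0 ≤ C) :
    ∑ i ∈ Ico (D.J + 1) D.K, C * (a1 D i + if i + 1 = D.K then 1 else 0) ≤
      C * (2 * D.sv (fun _ => 1) D.J + 1) := by
  have h1 := sum_a1 h (g := fun _ => 1) fun _ => zero_le_one
  have h2 : ∑ i ∈ Ico (D.J + 1) D.K, (if i + 1 = D.K then (1 : ℝ) else 0) ≤ 1 := by
    rw [sum_congr rfl (g := fun i => if i = D.K - 1 then (1 : ℝ) else 0) fun i hi => by
      have := mem_Ico.1 hi
      exact if_congr (by omega) rfl rfl, sum_ite_eq']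
    split_ifs <;> norm_num
  simp only [mul_one] at h1
  rw [← mul_sum, sum_add_distrib]
  exact mul_le_mul_of_nonneg_left (add_le_add h1 h2) hC

theorem sum_sf {C : ℝ} (hC : 0 ≤ C) :
    ∑ i ∈ Ico (D.J + 1) D.K, C * (a1 D i + if i + 1 = D.K then 1 else 0) * fz D D.f0 (i + 1) ≤
      C * (2 * D.sv D.f0 D.J) := by
  refine le_trans ?_ (mul_le_mul_of_nonneg_left (sum_a1 h h.f00) hC)
  rw [mul_sum]
  refine sum_le_sum fun i _ => ?_
  rw [mul_assoc]
  refine mul_le_mul_of_nonneg_left ?_ hC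
  split_ifs with e
  · rw [fz, if_neg (by omega), mul_zero]
    exact mul_nonneg (a10 h i) (h.f00 _)
  · rw [add_zero]
    exact mul_le_mul_of_nonneg_left (fz_le h _) (a10 h i)

theorem mf_le : mm D (D.J + 1) * fz D D.f0 (D.J + 1) ≤ D.sv D.f0 D.J := by
  rw [fz]
  split_ifs with e
  · have hm : D.J + 1 ∈ D.up := mem_up.2 ⟨Nat.lt_succ_self _, e⟩
    refine le_trans ?_ (single_le_sum (f := fun t => D.dv t * D.f0 t)
      (fun t ht => mul_nonneg (h.dv0 (mem_up.1 ht).2.le) (h.f00 _)) hm)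
    rw [CD.dv, if_pos le_rfl]
    exact mul_le_mul_of_nonneg_right (mm_le h hm) (h.f00 _)
  · rw [mul_zero]; exact h.sv0 h.f00 _

theorem rwE_le {C : ℝ} (hC : 1 ≤ C) {j : ℕ} (hj : j ∈ D.up) :
    RwE D.B (D.J + 1) j (fun y => C * (A * mm D y))
      (fun i => C * (a1 D i + if i + 1 = D.B.length then 1 else 0))
      (fun y => √(D.v y y)) (fun y x => √(D.v y x)) (fz D D.f0) ≤ 2 * (C * A) * Rw D j := by
  have hA := one_le_A
  have CA : 1 ≤ C * A := one_le_mul_of_one_le_of_one_le hC hA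
  have CC : C ≤ C * A := le_mul_of_one_le_right (by linarith) hA
  have m := mem_up.1 hj
  have v0 := D.v0 j j
  have s0 := h.sv0 h.f00 D.J
  have r0 := Real.sqrt_nonneg (D.v j j)
  have t1 : fz D D.f0 (j + 1) ≤ D.f0 j := (fz_le h _).trans (h.wk0.anti j).2
  have t2 := sum_sf h (C := C) (by linarith)
  have t3 : ∑ y ∈ Ico (D.J + 1) j, D.dx y * (C * (A * mm D y) * (√(D.v y j) * √(D.v j j))) ≤
      C * A * (D.e j * D.v j j + ∑ y ∈ Ico 1 j, D.dx y * D.v y j) := by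
    have k1 : ∑ y ∈ Ico (D.J + 1) j, D.dx y ≤ D.e j :=
      (h.sum_dx_le fun i hi => (mem_Ico.1 hi).2.le).trans (N75.ex_le h hj)
    have k3 : ∑ y ∈ Ico (D.J + 1) j, D.dx y * D.v y j ≤ ∑ y ∈ Ico 1 j, D.dx y * D.v y j :=
      sum_le_sum_of_subset_of_nonneg (Ico_subset_Ico_left (by omega))
        fun y _ _ => mul_nonneg (h.dx0 y) (D.v0 y j)
    refine (sum_le_sum (g := fun y => C * A * (D.dx y * D.v j j + D.dx y * D.v y j))
      fun y _ => ?_).trans ?_
    · have k5 : C * (A * mm D y) ≤ C * A :=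
        mul_le_mul_of_nonneg_left (mul_le_of_le_one_right (by linarith) (mm_mem h y).2) (by linarith)
      have k6 : √(D.v y j) * √(D.v j j) ≤ D.v j j + D.v y j := by
        nlinarith [sq_nonneg (√(D.v y j) - √(D.v j j)), Real.sq_sqrt (D.v0 y j), Real.sq_sqrt v0,
          D.v0 y j]
      exact (mul_le_mul_of_nonneg_left (mul_le_mul k5 k6 (by positivity) (by linarith))
        (h.dx0 y)).trans_eq (by ring)
    · rw [← mul_sum, sum_add_distrib, ← sum_mul]
      exact mul_le_mul_of_nonneg_left (add_le_add (mul_le_mul_of_nonneg_right k1 v0) k3)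
        (by linarith)
  have t4 : ∑ x ∈ Ioc j D.K, D.dx x * (√(D.v j x) * √(D.v x x)) ≤ √(D.v j j) * D.hi (av D) j := by
    rw [← Finset.Ioo_insert_right m.2, sum_insert (by simp), h.top, zero_mul, zero_add, CD.hi,
      mul_sum]
    refine sum_le_sum fun x hx => ?_
    exact (mul_le_mul_of_nonneg_left (mul_le_mul_of_nonneg_right
      (Real.sqrt_le_sqrt (v_le h (mem_Ioo.1 hx).1.le)) (Real.sqrt_nonneg _)) (h.dx0 x)).trans_eq
      (by rw [av]; ring)
  have n1 : 0 ≤ D.hi (av D) j := h.hi0 (fun _ => Real.sqrt_nonneg _) j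
  have n2 : 0 ≤ D.e j * D.v j j + ∑ y ∈ Ico 1 j, D.dx y * D.v y j :=
    add_nonneg (mul_nonneg (h.e0 j) v0) (h.sv_low0 _ _)
  have f0 := h.f00 j
  have u1 : fz D D.f0 (j + 1) + ∑ i ∈ Ico (D.J + 1) D.K,
      C * (a1 D i + if i + 1 = D.K then 1 else 0) * fz D D.f0 (i + 1) + D.hi (av D) j ≤
      2 * (C * A) * (D.f0 j + D.sv D.f0 D.J + D.hi (av D) j) := by
    nlinarith [mul_le_mul_of_nonneg_right CC s0, mul_le_mul_of_nonneg_right CA f0,
      mul_le_mul_of_nonneg_right CA n1]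
  have u2 := mul_le_mul_of_nonneg_left u1 r0
  have u3 := mul_nonneg (zero_le_one.trans CA) n2
  rw [RwE, Rw, D.B_len, av]
  simp only [CD.dx] at *
  nlinarith

end ok

end A4

open C40 C40.Q10 C40.N75 C40.CD A4 Finset
open Crest.Agent.T157.E Crest.Agent.T157.Casc Crest.Agent.T157.SL
open Crest.Agent.T156.Cas.Q75
open Crest.Agent.T156.Cas.Q75.A10

/-- **one edge at the marked level, density form** -/
theorem oaS_of (HS : SwapS) (HM : MkS) (HR : RowRS) (HA : RowAS) : OAS := by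
  obtain ⟨C₀, _, HM⟩ := HM
  obtain ⟨C, hC, HR⟩ := HR (max C₀ A) (le_max_of_le_right one_le_A)
  obtain ⟨C₂, hC₂, HA⟩ := HA
  have hA := one_le_A
  have CA : 1 ≤ C * A := one_le_mul_of_one_le_of_one_le hC hA
  have CC : C ≤ C * A := le_mul_of_one_le_right (by linarith) hA
  refine fun τ0 => ⟨2 * (C₂ * (C * A)) * (4 * (C * A)), by positivity,
    fun D h a l A' hom hl hl' hAdd => ?_⟩
  have hK := D.B_len
  have eU : Ico (D.J + 1) D.K = D.up := Finset.Ico_add_one_left_eq_Ioo _ _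
  have m := mm_mem h
  have m0 : ∀ i, 0 ≤ mm D i := fun i => h.X0.trans (m i).1
  have sw : ∀ j, j < D.K → (cM D.B D.S (Rq D) j).tr.Eqv (cM D.B D.S (Rq D) j) D.B.length :=
    fun j hj => (HS _ D.B D.S (Rq D) j _ (fun _ => 1) D.B 0 (fun _ _ _ => 0) (fun _ _ => 0)
      wt_one90 (Q10.S_len D) rfl (by omega) fun _ _ _ => rfl).2.2
  have B := bh h hC
  have key := HA _ D.B (fun j => cM D.B D.S (Rq D) j) (Bt D) (D.J + 1) (C * A) 2 _ _ _
    (fun x => if D.J < x then 1 else 0) (fz D D.f0) a l A' _ _ _ _ _ _ B (by rw [hK]; exact h.top)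
    (fun j _ hj => ⟨sw j (hK ▸ hj), rowR_mono (HR _ D.B D.S (Rq D) _ (a1 D) j (D.J + 1) h.mono hj
      (mkH h HM (hK ▸ hj)) (fun i => ⟨mul_nonneg (by linarith) (m0 i),
        (mul_le_of_le_one_right (by linarith) (m i).2).trans (le_max_right _ _)⟩)
      (by rw [hK, mm, if_neg (by simp), mul_one]; exact hA) (a10 h) fun i hb => by
        rw [a1, if_neg fun e => hb (Or.inr (Or.inr (e.trans hK.symm))), a0]
        exact le_add_of_nonneg_left (by positivity)).1 CC⟩)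
    (wf1 h) (fz_anti h) (fun y h1 _ => by
      rw [if_pos (by omega), if_pos (by omega), sub_self, abs_zero]
      exact (h.dx0 y).trans (B.ds y)) (ip_del h) hAdd.1 hl hl' fun θ => by
      rw [hK, eU, ip_nd h]
      exact (hAdd.2 θ).1
  have eL : ∑ j ∈ D.up, D.om j *
      (Tj D D.B (Rq D) j (ind j) (nu D j) + Tj D D.B (Rq D) j (nu D j) (ind j)) =
      2 * ∑ j ∈ D.up, a j * NL D.B (((wt (ind j) fun x => nj j x * if D.J < x then 1 else 0).mul
        (cM D.B D.S (Rq D) j)).mul (Bt D)) := by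
    rw [mul_sum]
    refine sum_congr rfl fun j hj => ?_
    have mj := (mem_up.1 hj).2
    have z : ∀ x, ind j x * nu D j x = 0 := fun x => by
      rw [ind, nu, nj]
      split_ifs <;> simp
    have e1 := Tj_NL (D := D) HS (Rq D) mj.le z
    have e2 := Tj_NL (D := D) HS (Rq D) mj.le (φ := nu D j) (ψ := ind j)
      fun x => (mul_comm _ _).trans (z x)
    rw [NL_swap (sw j mj) (Bt_tr D)] at e2
    have e3 : D.om j * (Tj D D.B (Rq D) j (ind j) (nu D j) + Tj D D.B (Rq D) j (nu D j) (ind j)) =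
        a j * (D.dx j * Tj D D.B (Rq D) j (ind j) (nu D j) +
          D.dx j * Tj D D.B (Rq D) j (nu D j) (ind j)) := by rw [hom j hj]; ring
    rw [e3, e1, e2, ← two_mul, mul_left_comm]
    rfl
  have t5 : ∑ j ∈ D.up, |a j| * D.dx j * (2 ^ 2 * D.dx j + RwE D.B (D.J + 1) j
      (fun y => C * (A * mm D y)) (fun i => C * (a1 D i + if i + 1 = D.B.length then 1 else 0))
      (fun y => √(D.v y y)) (fun y x => √(D.v y x)) (fz D D.f0)) ≤
      4 * (C * A) * D.Iw fun j => D.dx j + Rw D j := by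
    rw [CD.Iw, mul_sum]
    refine sum_le_sum fun j hj => ?_
    have k1 := rwE_le h hC hj
    have k2 : 0 ≤ Rw D j := add_nonneg (mul_nonneg (Real.sqrt_nonneg _) (add_nonneg
      (add_nonneg (h.f00 j) (h.sv0 h.f00 _)) (h.hi0 (fun _ => Real.sqrt_nonneg _) j)))
      (add_nonneg (mul_nonneg (h.e0 j) (D.v0 j j)) (h.sv_low0 _ _))
    rw [hom j hj, abs_mul, abs_of_nonneg (h.dx0 j), mul_comm (D.dx j) |a j|, mul_left_comm]
    refine mul_le_mul_of_nonneg_left ?_ (mul_nonneg (abs_nonneg _) (h.dx0 j))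
    nlinarith [mul_le_mul_of_nonneg_right CA (h.dx0 j), mul_nonneg (zero_le_one.trans CA) k2]
  have t4 : ∑ y ∈ D.up, D.dx y * (C * (A * mm D y) * √(D.v y y)) ≤
      C * A * D.I fun t => D.e t * av D t := by
    rw [← D.I_mul]
    refine h.I_mono fun t ht => ?_
    rw [← mul_assoc, ← mul_assoc, av]
    exact mul_le_mul_of_nonneg_right (mul_le_mul_of_nonneg_left (mm_le h ht) (by linarith))
      (Real.sqrt_nonneg _)
  have t1 := sum_s1 h (C := C) (by linarith)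
  have t2 := mul_le_mul_of_nonneg_left (mf_le h) (zero_le_one.trans CA)
  have t3 := sum_sf h (C := C) (by linarith)
  have s0 := h.sv0 h.f00 D.J
  have s1 := h.sv0 (F := fun _ => 1) (fun _ => zero_le_one) D.J
  have i0 : 0 ≤ D.I fun t => a t ^ 2 * A' t / l t + l t * A' t := h.I0 fun t _ =>
    add_nonneg (div_nonneg (mul_nonneg (sq_nonneg _) (hAdd.1 t)) (hl t).le)
      (mul_nonneg (hl t).le (hAdd.1 t))
  have i1 : 0 ≤ D.I fun t => D.e t * av D t := h.I0 fun t _ =>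
    mul_nonneg (h.e0 t) (Real.sqrt_nonneg _)
  have lg : 0 ≤ Real.log (D.K + 2) := Real.log_nonneg (by have := (Nat.cast_nonneg D.K : (0 : ℝ) ≤ _); linarith)
  simp only [hK, eU] at key t1 t3 t5
  have u1 : 1 + ∑ i ∈ D.up, C * (a1 D i + if i + 1 = D.K then 1 else 0) ≤
      4 * (C * A) * (1 + D.sv (fun _ => 1) D.J) := by
    nlinarith [mul_le_mul_of_nonneg_right CC s1]
  have u2 : C * (A * mm D (D.J + 1)) * fz D D.f0 (D.J + 1) +
      ∑ i ∈ D.up, C * (a1 D i + if i + 1 = D.K then 1 else 0) * fz D D.f0 (i + 1) +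
      ∑ y ∈ D.up, D.dx y * (C * (A * mm D y) * √(D.v y y)) ≤
      4 * (C * A) * (D.sv D.f0 D.J + D.I fun t => D.e t * av D t) := by
    nlinarith [mul_le_mul_of_nonneg_right CC s0, mul_nonneg (zero_le_one.trans CA) i1,
      mul_nonneg (zero_le_one.trans CA) s0]
  have u3 := mul_le_mul_of_nonneg_right (mul_le_mul_of_nonneg_left u1 lg) i0
  have u4 := mul_le_mul_of_nonneg_left u2 (Real.sqrt_nonneg (D.I fun t => a t ^ 2 * A' t))
  have u5 := mul_le_mul_of_nonneg_left (add_le_add (add_le_add u3 u4) t5)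
    (show 0 ≤ C₂ * (C * A) by positivity)
  rw [eL, abs_mul, abs_two]
  refine (mul_le_mul_of_nonneg_left (key.trans u5) zero_le_two).trans_eq ?_
  ring

end Crest.Agent.T156.Cas.Q21

end
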