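import Crest.Agent.T156.CQ21D_52
import Crest.Agent.T156.C3nB_47

/-!
# Row 156 (helper91): the marked word `[aU, aU]`, both edges at the marked level (`BBS`)
-/

set_option autoImplicit false
set_option linter.all false

noncomputable section

namespace Crest.Agent.T156.Cas.Q21.B91

open Finset
open Crest.Agent.T157.E Crest.Agent.T157.Casc Crest.Agent.T157.SL
open Crest.Agent.T157.G1 (ov)
open Crest.Agent.T156.Cas.Q75 Crest.Agent.T156.Cas.Q75.A10
open Nu87

/-- the term minus a constant -/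
def sb (B : Tw) (V : ℝ) : Tw := ⟨fun σ => B.f2 σ - V, fun σ => B.f3 σ - V, fun σ => B.f4 σ - V⟩

theorem sN_sb (B : Tw) (V : ℝ) (K x t t' : ℕ) : (sb B V).sN K x t t' = B.sN K x t t' - V := by
  simp only [Tw.sN, sb]; split_ifs <;> rfl

theorem Sy_sb {B : Tw} {K : ℕ} (H : B.Sy K) (V : ℝ) : (sb B V).Sy K := fun σ hσ => by
  simp only [sb, (H σ hσ).1, (H σ hσ).2, and_self]

section gen
variable {Θ : Type} {L : List (Lv Θ)} {j : ℕ}

theorem abs_SN (hM : Mono 0 L) (hj : j ≤ L.length) {T : Tw} {α β : ℝ}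
    (h : ∀ t t', j ≤ t → t ≤ L.length + 1 → j ≤ t' → t' ≤ L.length + 1 →
      |T.sN L.length j t t'| ≤ α + β * (ind j t + ind j t')) :
    |SN L T j| ≤ 4 * α + 4 * (β * ex L j) := by
  have e1 : ∑ t ∈ Ico j (L.length + 2), |wL L j t| * ind j t = ex L j := by
    rw [abs_wL hM hj, ind, ind, if_neg (by omega), if_pos rfl,
      sum_eq_zero fun t ht => by rw [ind, if_neg (mem_Ioc.1 ht).1.ne', mul_zero]]
    ring
  simp only [SN, Lx_eq L hj, mul_sum]
  refine (abs_sum_le_sum_abs _ _).trans ((sum_le_sum (g := fun t => ∑ t' ∈ Ico j (L.length + 2),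
    (α * (|wL L j t| * |wL L j t'|) + β * (|wL L j t| * ind j t * |wL L j t'|) +
      β * (|wL L j t| * (|wL L j t'| * ind j t')))) fun t ht =>
      (abs_sum_le_sum_abs _ _).trans (sum_le_sum fun t' ht' => ?_)).trans_eq ?_)
  · have m := mem_Ico.1 ht
    have m' := mem_Ico.1 ht'
    rw [abs_mul, abs_mul]
    exact (mul_le_mul_of_nonneg_left (mul_le_mul_of_nonneg_left
      (h t t' m.1 (by omega) m'.1 (by omega)) (abs_nonneg _)) (abs_nonneg _)).trans_eq (by ring)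
  · simp only [sum_add_distrib, ← mul_sum, ← sum_mul, sum_wL hM hj, e1]
    ring

/-- both edges at `j`, the base factor read against the constant `V` -/
theorem core [Fintype Θ] (hM : Mono 0 L) (hj : j ≤ L.length) {c B : Tw} {C V v : ℝ} {P : ℕ → ℝ}
    (sc : c.Sy L.length) (sB : B.Sy L.length) (H : SnR L c j C P) (C0 : 0 ≤ C) (P0 : 0 ≤ P j)
    (v0 : 0 ≤ v) (hV : |V| ≤ 4) (b3 : ∀ σ, Rz L.length σ → |B.f3 σ| ≤ 4)
    (b4 : ∀ σ, Rz L.length σ → |B.f4 σ| ≤ 4)
    (hB : ∀ t t', j ≤ t → t ≤ L.length + 1 → j ≤ t' → t' ≤ L.length + 1 →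
      |B.sN L.length j t t' - V| ≤ v) :
    |2 * Ful L ((wt (ind j) (ind j)).mul (c.mul (sb B V)))| ≤
      dm L 0 j * (8 * C * v * (P j + ex L j) + 88 * C * dm L 0 j) := by
  have d0 := dm_nonneg hM j
  have k1 := abs_SN hM hj (T := c.mul (sb B V)) (α := C * P j * v) (β := C * v)
    fun t t' a1 a2 a3 a4 => by
      have h1 := H.bb t t' a1 a3 a2 a4
      have i0 : ∀ s, 0 ≤ ind j s := fun s => by unfold ind; split_ifs <;> norm_num
      have h2 : |c.sN L.length j t t'| ≤ C * P j + C * (ind j t + ind j t') := by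
        have := mul_nonneg C0 P0
        rcases a1.eq_or_lt with e | e
        · have e1 : ind j t = 1 := if_pos e.symm
          rw [e1]; nlinarith [h1.1, mul_nonneg C0 (i0 t')]
        rcases a3.eq_or_lt with e' | e'
        · have e1 : ind j t' = 1 := if_pos e'.symm
          rw [e1]; nlinarith [h1.1, mul_nonneg C0 (i0 t)]
        · nlinarith [h1.2 e e', mul_nonneg C0 (add_nonneg (i0 t) (i0 t'))]
      rw [sN_mul, sN_sb]
      exact (S97.abs_mul_le' h2 (hB t t' a1 a2 a3 a4)).trans_eq (by ring)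
  have k2 := NL_ind hM hj (c := c.mul (sb B V)) (b := C * 8)
    (fun σ hσ => S97.abs_mul_le' (H.ab.1 σ hσ)
      ((abs_sub (B.f3 σ) V).trans (by linarith [b3 σ hσ])))
    (fun σ hσ => S97.abs_mul_le' (H.ab.2 σ hσ)
      ((abs_sub (B.f4 σ) V).trans (by linarith [b4 σ hσ])))
  have k3 := S97.abs_mul_le' (abs_of_nonneg d0).le k1
  rw [Ful_exp _ (Sy_mul (Sy_wt _ _) (Sy_mul sc (Sy_sb sB V))), Q75.Sm, sum_eq_single j
    (fun x hx h => by rw [SN_wt _ _ (Nat.lt_succ_iff.1 (mem_range.1 hx)), ind, if_neg h]; ring)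
    (fun h => absurd (mem_range.2 (Nat.lt_succ_of_le hj)) h), SN_wt _ _ hj, ind, if_pos rfl,
    one_mul, one_mul]
  rw [abs_le] at k2 k3 ⊢
  constructor <;> nlinarith [k2.1, k2.2, k3.1, k3.2]

end gen

open C40 C40.Q10 C40.N75

theorem ind_pt (j a b : ℕ) (V : ℕ → ℝ) :
    (if a = b then ind j a * ind j a * V a else 0) = ind j a * ind j b * V j := by
  unfold ind
  by_cases h1 : a = j <;> by_cases h2 : b = j <;> simp_all [eq_comm]

theorem one_pt (D : CD) {r : ℕ} {σ : SM r} (hσ : Rz D.B.length σ) (a b c d : Fin r) :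
    TM (fun _ => 1) D.B 0 σ (fun x => ed (fun _ _ _ => (1 : ℝ)) a b x σ *
      ed (fun _ _ _ => (1 : ℝ)) c d x σ) = 1 := by
  simp only [ed, mul_one]
  exact TM_const wt_one90 hσ 1

/-- the swap: the marked word is a two-edge term -/
theorem swap (HS : SwapS) (D : CD) {L : List (Lv (Cube D.n))} (hL : L.length = D.B.length)
    (q : Rf) {j : ℕ} (hj : j ≤ L.length) :
    dm L 0 j * Tj D L q j (ind j) (ind j) = 2 * Ful L ((wt (ind j) (ind j)).mul
      ((cM L D.S q j).mul (sb (Bt D) (D.u 2 j - D.del j ^ 2)))) ∧ (cM L D.S q j).Sy L.length := by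
  have hS : D.S.length = L.length := (Q10.S_len D).trans hL.symm
  have h1 := HS _ L D.S q j _ (fun _ => 1) D.B 0 (oU D.rb) (fun x y => ind j x * ind j y) wt_one90 hS
    hL.symm hj fun i x y => by rw [oU, oU, Q10.ov_comm]
  have h2 := HS _ L D.S q j _ (fun _ => 1) D.B 0 (fun _ _ _ => 1)
    (fun x y => if x = y then ind j x * ind j x * (D.u 2 x - D.del x ^ 2) else 0) wt_one90 hS
    hL.symm hj fun i x y => rfl
  refine ⟨?_, h1.2.1⟩
  rw [Tj, mul_sub, h1.1, h2.1, ← mul_sub]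
  refine congrArg _ (Ful_sub (fun σ hσ => ?_) (fun σ hσ => ?_) fun σ hσ => ?_) <;>
    rw [hL] at hσ
  · have e := ind_pt j (σ 0 1) (σ 0 1) fun x => D.u 2 x - D.del x ^ 2
    rw [if_pos rfl] at e
    simp only [Tw.mul, wA, wt, sb, Bt, ee, one_pt D hσ, if_true, e]
    ring
  · simp only [Tw.mul, wA, wt, sb, Bt, ee, one_pt D hσ,
      ind_pt j _ _ fun x => D.u 2 x - D.del x ^ 2]
    ring
  · simp only [Tw.mul, wA, wt, sb, Bt, ee, one_pt D hσ,
      ind_pt j _ _ fun x => D.u 2 x - D.del x ^ 2]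
    ring

/-- the legs of the base factor -/
theorem leg {D : CD} {τ0 : ℝ} (h : D.Ok τ0) {j t t' : ℕ} (hj : j ≤ D.B.length) (a1 : j ≤ t)
    (a2 : t ≤ D.B.length + 1) (a3 : j ≤ t') (a4 : t' ≤ D.B.length + 1) :
    |(Bt D).sN D.B.length j t t' - (D.u 2 j - D.del j ^ 2)| ≤ 2 * D.v j j := by
  have hc : (Sy41.ovL D.n).cov = ov := funext fun a => funext (Sy41.cov_ovL h.pos a)
  have eB : Bt D = ee (fun _ => 1) D.B 0 (uK (Sy41.ovL D.n) D.rb) (uK (Sy41.ovL D.n) D.rb) := by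
    unfold uK; rw [hc]; rfl
  have eV : ∀ s, j ≤ s → A10.vv (fun _ => 1) D.B (Sy41.ovL D.n) 0 j s ≤ D.v j j := fun s hs => by
    rw [A10.vv]
    split_ifs
    · refine le_of_eq_of_le ?_ (C3n47.v_anti D le_rfl hs)
      unfold Eg33.vt Eg33.vz
      rw [hc]; rfl
    · exact D.v0 j j
  rw [← var_eq D hj, eB]
  linarith [sN_leg wt_one90 0 (Sy41.ovL D.n) D.rb hj a1 a2 a3 a4, eV t a1, eV t' a3]

/-- the time envelope at one upper level -/
theorem par {D : CD} {τ0 : ℝ} (h : D.Ok τ0) {y : ℕ} (hy : y ∈ D.up) {ε : ℝ} (hε : 0 < ε) :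
    ∃ σ, 0 < σ ∧ Ker15.tm D.S y ≤ σ ∧
      min 1 (Ker15.PB 10 σ) ≤ min 1 (2048 * Real.exp (3 / 2) * D.e y) + ε := by
  have e1 : 1 ≤ Real.exp (3 / 2) := Real.one_le_exp (by norm_num)
  obtain ⟨σ, h0, h1, h2⟩ := N75.par h y (ε := ε / (2048 * Real.exp (3 / 2))) (by positivity)
  refine ⟨σ, h0, h1, ?_⟩
  have h3 : min 1 (Ker15.PB 10 σ) ≤ 2 * min 1 (Ker15.PB 8 σ) := by
    have h4 := Ker15.PB_nonneg 8 h0
    have h5 : Ker15.PB 10 σ ≤ 2 * Ker15.PB 8 σ := by
      rw [Ker15.PB, Ker15.PB] at *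
      push_cast at *
      nlinarith
    rcases le_total 1 (Ker15.PB 8 σ) with c | c
    · rw [min_eq_left c]; exact (min_le_left _ _).trans (by norm_num)
    · rw [min_eq_right c]; exact (min_le_right _ _).trans h5
  have h6 : 2 * (1024 * Real.exp (3 / 2) * (mm D y + ε / (2048 * Real.exp (3 / 2)))) =
      2048 * Real.exp (3 / 2) * mm D y + ε := by field_simp; ring
  have h7 := mul_le_mul_of_nonneg_left (mm_le h hy)
    (show 0 ≤ 2048 * Real.exp (3 / 2) by positivity)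
  rw [← min_add_add_right]
  exact le_min ((min_le_left _ _).trans (by linarith)) (by linarith)

theorem cont_Tj (D : CD) {L' : ℝ → List (Lv (Cube D.n))}
    (hc : ∀ (r k : ℕ) (σ : SM (r + 1)) (φ : SM (r + k + 1) → ℝ),
      Continuous fun ε => avc (L' ε) σ k φ) {s : Set ℝ}
    (hL : ∀ ε ∈ s, (L' ε).length = D.B.length) (q : Rf) (j : ℕ) (φ ψ : ℕ → ℝ) :
    ContinuousOn (fun ε => Tj D (L' ε) q j φ ψ) s := by
  have k : ∀ (U : ℕ → Cube D.n → Cube D.n → ℝ) (A : ℕ → ℕ → ℝ),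
      ContinuousOn (fun ε => Tm (L' ε) D.S q j (fun _ => 1) D.B 0 U A) s := fun U A => by
    refine ContinuousOn.congr (f := fun ε => E91.D2 fun c d e f =>
      avc (r := 1) (L' ε) (tw D.B.length j) 4 fun τ => A (τ c d) (τ e f) *
        TM (fun _ => 1) D.B 0 τ (fun x => ed U c d x τ * ed U e f x τ) *
          S3 D.S q τ 4 5 c d e f) (Continuous.continuousOn ?_) fun ε hε => ?_
    · exact continuous_finsetSum _ fun c _ => continuous_finsetSum _ fun d _ =>
        continuous_finsetSum _ fun e _ => continuous_finsetSum _ fun f _ =>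
          continuous_const.mul (hc 1 4 _ _)
    · show Tm _ _ _ _ _ _ _ _ _ = _
      rw [Tm, hL ε hε]
  exact (k _ _).sub (k _ _)

/-- **both edges at `j`**, any centring `q` of size `c e_j` up to `j` -/
theorem bb_gen (HS : SwapS) (HP : PertS) (HM : MkS) (HR : RowRS) (c : ℝ) :
    ∃ C : ℝ, 0 ≤ C ∧ ∀ (τ0 : ℝ) (D : CD), D.Ok τ0 → ∀ q : Rf, ∀ j ∈ D.up, |q.1 j| ≤ 1 →
      (∀ i, 0 ≤ q.2.1 i ∧ q.2.1 i ≤ 1 ∧ |q.2.2 i| ≤ 1) → |q.1 j| ≤ c * D.e j →
      (∀ i ≤ j, |q.2.2 i| ≤ c * D.e j) →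
      |Tj D D.B q j (ind j) (ind j)| ≤ C * (D.dx j + D.e j * D.v j j) := by
  obtain ⟨C₁, c1, HM⟩ := HM
  obtain ⟨C, c2, HR⟩ := HR C₁ c1
  set A := max c (2048 * Real.exp (3 / 2)) with hA
  have A0 : 0 ≤ A := le_max_of_le_right (by positivity)
  refine ⟨16 * C * (A + 1) + 88 * C, by positivity, fun τ0 D h q j hj q0 q1 qm qj => ?_⟩
  have m := CD.mem_up.1 hj
  have hK := D.B_len
  have jl : j ≤ D.B.length := by omega
  obtain ⟨L', l0, hP, hc⟩ := HP _ D.B j h.mono jl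
  have e0 := h.e0 j
  have v0 := D.v0 j j
  have d0 := h.dx0 j
  set P : ℕ → ℝ := fun i => if i = j then min 1 (A * D.e j) else 1 with hPd
  have Pj : P j = min 1 (A * D.e j) := if_pos rfl
  have P01 : ∀ i, 0 ≤ P i ∧ P i ≤ 1 := fun i => by
    simp only [hPd]
    split_ifs
    exacts [⟨le_min zero_le_one (mul_nonneg A0 e0), min_le_left _ _⟩, ⟨zero_le_one, le_rfl⟩]
  have key : ∀ ε ∈ Set.Ioc (0 : ℝ) 1, |Tj D (L' ε) q j (ind j) (ind j)| ≤
      16 * C * D.v j j * (A * D.e j + (D.e j + ε)) + 88 * C * (D.dx j + ε) := fun ε hε => by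
    have p := hP ε hε.1.le hε.2
    have jl' : j < (L' ε).length := by rw [p.len]; omega
    have d1 : ∀ i, dm (L' ε) 0 i ≤ 1 := fun i =>
      (S97.dm_le_ex p.mono i).trans (Tay38.ex_le_one p.mono i)
    have vv0 := SF97.vv0 (r1 h)
    have n1 := fun i => abs_nonneg (q.2.1 (i + 1) - q.2.1 i)
    have n2 := fun i => abs_nonneg (q.2.2 (i + 1) - q.2.2 i)
    have mk := HM _ (L' ε) D.S q P (fun i => SF97.vv D.S i + |q.2.1 (i + 1) - q.2.1 i| +
      |q.2.2 (i + 1) - q.2.2 i| + 2) j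
      ((Q10.S_len D).trans p.len.symm) p.mono (r1 h) (mS h) q0 q1 jl' (fun i => by
        by_cases e : i = j
        · subst e
          rw [Pj]
          refine ⟨fun η hη => ?_, fun i' hi => le_min (q1 i').2.2
            ((qj i' hi).trans (mul_le_mul_of_nonneg_right (le_max_left _ _) e0)), fun _ =>
            le_min q0 (qm.trans (mul_le_mul_of_nonneg_right (le_max_left _ _) e0))⟩
          obtain ⟨σ, s0, s1, s2⟩ := par h hj hη
          exact ⟨σ, s0, s1, s2.trans (add_le_add (min_le_min le_rfl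
            (mul_le_mul_of_nonneg_right (le_max_right _ _) e0)) le_rfl)⟩
        · have e1 : P i = 1 := if_neg e
          rw [e1]
          exact ⟨fun η hη => ⟨|Ker15.tm D.S i| + 1, by positivity,
            (le_abs_self _).trans (by linarith), (min_le_left _ _).trans (by linarith)⟩,
            fun i' _ => (q1 i').2.2, fun _ => q0⟩)
      fun i _ => ⟨by linarith [n1 i, n2 i], by linarith [vv0 i, n2 i], by linarith [vv0 i, n1 i]⟩
    have sn := (HR _ (L' ε) D.S q P _ j 0 p.mono jl' mk (fun i => ⟨(P01 i).1, (P01 i).2.trans c1⟩)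
      (le_of_eq (if_neg jl'.ne').symm)
      (fun i => by linarith [n1 i, n2 i, vv0 i])
      fun i _ => by linarith [n1 i, n2 i, vv0 i, d1 i, d1 (i + 1)]).2
    obtain ⟨s1, s2⟩ := swap HS D p.len q jl'.le
    have b : ∀ {r : ℕ} (σ : SM r), Rz (L' ε).length σ → ∀ a b c d : Fin r,
        |TM (fun _ => 1) D.B 0 σ fun x => ed (oU D.rb) a b x σ * ed (oU D.rb) c d x σ| ≤ 4 :=
      fun σ hσ a b c d => abs_TM wt_one90 0 (p.len ▸ hσ) fun u =>
        (S97.abs_mul_le' (abs_oU_rb D _ _ _) (abs_oU_rb D _ _ _)).trans_eq (by norm_num)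
    have k := core p.mono jl'.le (B := Bt D) (V := D.u 2 j - D.del j ^ 2) (v := 2 * D.v j j) s2
      (p.len ▸ Sy_Bt D) sn (by linarith) (P01 j).1 (by linarith)
      (var_eq D jl ▸ abs_var D j) (fun σ hσ => b σ hσ 1 2 0 1) (fun σ hσ => b σ hσ 2 3 0 1)
      fun t t' a1 a2 a3 a4 => by
        rw [p.len] at a2 a4 ⊢
        exact leg h jl a1 a2 a3 a4
    have dj : dm (L' ε) 0 j = (1 - ε) * D.dx j + ε := by rw [p.dm, ind, if_pos rfl, mul_one]
    have xj : ex (L' ε) j = (1 - ε) * ex D.B j + ε := by rw [p.ex, if_pos le_rfl]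
    have dp : 0 < dm (L' ε) 0 j := by
      rw [dj]; linarith [mul_nonneg (sub_nonneg.2 hε.2) d0, hε.1]
    rw [← s1, abs_mul, abs_of_pos dp] at k
    refine (le_of_mul_le_mul_left k dp).trans ?_
    have u1 : dm (L' ε) 0 j ≤ D.dx j + ε := by rw [dj]; nlinarith [mul_nonneg hε.1.le d0]
    have u2 : ex (L' ε) j ≤ D.e j + ε := by
      rw [xj]; nlinarith [mul_nonneg hε.1.le (h.ex0 j), N75.ex_le h hj]
    have u3 : P j ≤ A * D.e j := Pj.trans_le (min_le_right _ _)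
    have u4 := mul_le_mul_of_nonneg_left (add_le_add u3 u2)
      (show 0 ≤ 16 * C * D.v j j by positivity)
    have u5 := mul_le_mul_of_nonneg_left u1 (show 0 ≤ 88 * C by positivity)
    linarith
  have ct := cont_Tj D hc (s := Set.Icc 0 1) (fun ε hε => (hP ε hε.1 hε.2).len) q j (ind j) (ind j)
  have lim := ContinuousWithinAt.closure_le (s := Set.Ioc (0 : ℝ) 1) (x := 0)
    (by rw [closure_Ioc zero_ne_one]; exact ⟨le_rfl, zero_le_one⟩)
    (((ct 0 ⟨le_rfl, zero_le_one⟩).mono Set.Ioc_subset_Icc_self).abs)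
    (Continuous.continuousWithinAt (by fun_prop)) key
  simp only [l0, add_zero] at lim
  refine lim.trans ?_
  have w1 : 0 ≤ C * (A + 1) * D.dx j := by positivity
  have w2 : 0 ≤ C * (D.e j * D.v j j) := by positivity
  nlinarith

end B91

open C40 C40.Q10 C40.N75 Crest.Agent.T156.Cas.Q75

/-- **`BBS`** -/
theorem bBS_of (HS : SwapS) (HP : PertS) (HM : MkS) (HR : RowRS) : BBS := fun τ0 => by
  obtain ⟨C, C0, H⟩ := B91.bb_gen HS HP HM HR 1
  refine ⟨C, C0, fun D h j hj => ?_⟩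
  have m := CD.mem_up.1 hj
  have q01 : ∀ i, 0 ≤ D.q (min i D.K) ∧ D.q (min i D.K) ≤ 1 := fun i => h.ook.mem (min_le_right _ _)
  have t0 : 0 < 1 + D.τ D.K := by linarith [(h.tau_mem D.K).1]
  have t1 : ∀ i, 0 ≤ D.τ (min i D.K) / (1 + D.τ D.K) ∧ D.τ (min i D.K) / (1 + D.τ D.K) ≤ 1 :=
    fun i => ⟨div_nonneg (h.tau_mem _).1 t0.le,
      (div_le_one t0).2 (by linarith [h.tau_mono (min_le_right i D.K)])⟩
  have t2 : ∀ i, |(Rq D).2.2 i| ≤ D.q (min i D.K) := fun i => by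
    show |D.τ (min i D.K) * D.q (min i D.K) / (1 + D.τ D.K)| ≤ _
    rw [mul_div_right_comm, abs_of_nonneg (mul_nonneg (t1 i).1 (q01 i).1)]
    exact mul_le_of_le_one_left (q01 i).1 (t1 i).2
  have qj := h.ook.mem m.2.le
  refine H τ0 D h _ j hj ((abs_of_nonneg qj.1).trans_le qj.2)
    (fun i => ⟨(t1 i).1, (t1 i).2, (t2 i).trans (q01 i).2⟩)
    ((abs_of_nonneg qj.1).trans_le ((h.qe j hj).trans_eq (one_mul _).symm)) fun i hi => ?_
  refine (t2 i).trans ?_
  rw [one_mul, min_eq_left (by omega)]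
  rcases le_or_gt i D.J with e | e
  · rw [h.qlo i e]; exact h.e0 j
  · exact (h.qe i (CD.mem_up.2 ⟨e, by omega⟩)).trans (h.e_mono hi)

end Crest.Agent.T156.Cas.Q21

end
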