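import Crest.Agent.T156.CQ21D_52
import Crest.Agent.T156.Wp_52

/-!
# Row 156 (helper94): bounds of the marked site coefficient (`MkS`)
-/

set_option autoImplicit false
set_option linter.all false

noncomputable section

namespace Crest.Agent.T156.Cas.Q21

open Finset
open Crest.Agent.T157.E Crest.Agent.T157.Casc Crest.Agent.T157.SL
open Nu87 Wp52
open Ker15 (Mv Um)

namespace M94

variable {Θ : Type} {L : List (Lv Θ)} {r K i i' j : ℕ}

/-! ### grafts, for weights on any type -/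

theorem up1_le (hL : Mono 0 L) {τ : SM (r + 1)} (hτ : Rz L.length τ) {φ ψ : SM (r + 2) → ℝ}
    (e : ∀ a t, φ (gr L.length τ a t) ≤ ψ (gr L.length τ a t)) : up1 L φ τ ≤ up1 L ψ τ :=
  div_le_div_of_nonneg_right (Ws_mono hL hτ (hτ.ncm φ) (hτ.ncm ψ) fun a t _ => e a t)
    (by positivity)

theorem up1_sub' (φ ψ : SM (r + 2) → ℝ) :
    up1 L (fun σ => φ σ - ψ σ) = fun τ => up1 L φ τ - up1 L ψ τ := by
  funext τ; simp only [up1, Ws_sub, sub_div]

theorem up1_lin (c b : ℝ) (φ : SM (r + 2) → ℝ) :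
    up1 L (fun σ => c * φ σ + b) = fun τ => c * up1 L φ τ + b := by
  have : ((r : ℝ) + 1) ≠ 0 := by positivity
  funext τ
  simp only [up1, Ws_add, Ws_mul, Ws_const, add_div, mul_div_assoc, Fintype.card_fin, Nat.cast_add,
    Nat.cast_one]
  rw [← mul_div_assoc _ b, mul_div_cancel_left₀ b this]

/-- two grafts -/
def A2 (L : List (Lv Θ)) (ρ : SM (r + 1)) (φ : SM (r + 3) → ℝ) : ℝ := up1 L (up1 L φ) ρ

theorem A2_sub (ρ : SM (r + 1)) (φ ψ : SM (r + 3) → ℝ) :
    A2 L ρ (fun σ => φ σ - ψ σ) = A2 L ρ φ - A2 L ρ ψ := by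
  simp only [A2, up1_sub']

theorem A2_mul (ρ : SM (r + 1)) (c : ℝ) (φ : SM (r + 3) → ℝ) :
    A2 L ρ (fun σ => c * φ σ) = c * A2 L ρ φ := by
  have := congrFun (up1_lin (L := L) c 0 (up1 L φ)) ρ
  have h := up1_lin (L := L) c 0 φ
  simp only [add_zero] at this h
  rw [A2, h, this, A2]

theorem A2_le (hL : Mono 0 L) {ρ : SM (r + 1)} (h : Rz L.length ρ) {φ ψ : SM (r + 3) → ℝ}
    (e : ∀ τ, Rz L.length τ → (∀ u v, τ u.succ.succ v.succ.succ = ρ u v) → φ τ ≤ ψ τ) :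
    A2 L ρ φ ≤ A2 L ρ ψ :=
  up1_le hL h fun a t => up1_le hL (h.gr a t) fun b s => e _ ((h.gr a t).gr b s) fun _ _ => rfl

open Classical in
/-- the level `j` is a label -/
def chi (j : ℕ) (ρ : SM r) : ℝ := if ∃ a b, a ≠ b ∧ ρ a b = j then 1 else 0

theorem chi_mem (ρ : SM r) : 0 ≤ chi j ρ ∧ chi j ρ ≤ 1 := by
  unfold chi
  split_ifs <;> norm_num

theorem up1_chi (hL : Mono 0 L) (hj : j < L.length) {ρ : SM (r + 1)} (h : Rz L.length ρ) :
    up1 L (chi j) ρ ≤ chi j ρ + dm L 0 j := by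
  by_cases e : ∃ a b, a ≠ b ∧ ρ a b = j
  · have h1 := up1_le hL h (φ := chi j) (ψ := fun σ => 0 * chi j σ + 1) fun a t => by
      simpa using (chi_mem _).2
    rw [up1_lin] at h1
    have := dm_nonneg hL j
    rw [show chi j ρ = 1 from if_pos e]
    linarith
  have n : ∀ a b, ρ a b ≠ j := fun a b k => by
    by_cases e' : a = b
    · rw [e', h.self] at k; omega
    · exact e ⟨a, b, e', k⟩
  have z : ∀ a t, t ≠ j → chi j (gr L.length ρ a t) = 0 := fun a t ht => if_neg fun ⟨u, v, h1, h2⟩ => by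
    revert h1 h2
    refine Fin.cases ?_ (fun u => ?_) u <;> refine Fin.cases ?_ (fun v => ?_) v <;> intro h1 h2
    · exact h1 rfl
    · have := n v a
      change min t (ρ v a) = j at h2
      omega
    · have := n u a
      change min t (ρ u a) = j at h2
      omega
    · exact n u v h2
  rw [show chi j ρ = 0 from if_neg e, zero_add, up1, div_le_iff₀ (by positivity)]
  refine (Ws_le hL h fun _ _ _ => (chi_mem _).1).trans ((sum_le_card_nsmul _ _ (dm L 0 j)
    fun a _ => ?_).trans_eq (by simp [mul_comm]))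
  rw [sum_eq_zero fun b _ => by rw [z a _ (n a b), mul_zero], add_zero]
  refine (Br_mono hL (g' := fun t => if t = j then 1 else 0) fun t _ => ?_).trans_eq ?_
  · split_ifs with k
    exacts [(chi_mem _).2, (z a t k).le]
  · simp [Br, hj.le, Nat.lt_succ_iff]

theorem wg_eq (ρ : SM r) : wg L j ρ = dm L 0 j + chi j ρ := rfl

theorem wg_nonneg (hL : Mono 0 L) (ρ : SM r) : 0 ≤ wg L j ρ :=
  add_nonneg (dm_nonneg hL j) (chi_mem ρ).1

theorem A2_chi (hL : Mono 0 L) (hj : j < L.length) {ρ : SM (r + 1)} (h : Rz L.length ρ) :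
    A2 L ρ (chi j) ≤ 2 * wg L j ρ := by
  have h1 := up1_le hL h (φ := up1 L (chi j)) (ψ := fun σ => 1 * chi j σ + dm L 0 j) fun a t => by
    rw [one_mul]; exact up1_chi hL hj (h.gr a t)
  rw [up1_lin] at h1
  have h2 := up1_chi hL hj h
  have := (chi_mem (j := j) ρ).1
  rw [wg_eq]
  unfold A2
  linarith

/-- the signed sum over the positions of the marked edge -/
def G (L : List (Lv Θ)) (j : ℕ) (ρ : SM (r + 1)) (F : Fin (r + 3) → Fin (r + 3) → SM (r + 3) → ℝ) :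
    ℝ := ∑ a, ∑ b, E91.cf r a b * A2 L ρ fun τ => if τ a b = j then F a b τ else 0

theorem G_sub (ρ : SM (r + 1)) (F F' : Fin (r + 3) → Fin (r + 3) → SM (r + 3) → ℝ) :
    G L j ρ (fun a b τ => F a b τ - F' a b τ) = G L j ρ F - G L j ρ F' := by
  simp only [G, ← sum_sub_distrib, ← mul_sub, ← A2_sub]
  refine sum_congr rfl fun a _ => sum_congr rfl fun b _ => congrArg (fun φ => _ * A2 L ρ φ)
    (funext fun τ => ?_)
  split_ifs <;> simp

theorem abs_G (hL : Mono 0 L) (hj : j < L.length) (hr : r ≤ 3) {ρ : SM (r + 1)}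
    (h : Rz L.length ρ) {F : Fin (r + 3) → Fin (r + 3) → SM (r + 3) → ℝ} {B : ℝ} (hB : 0 ≤ B)
    (hF : ∀ τ a b, Rz L.length τ → (∀ u v, τ u.succ.succ v.succ.succ = ρ u v) → a ≠ b →
      τ a b = j → |F a b τ| ≤ B) : |G L j ρ F| ≤ 1440 * wg L j ρ * B := by
  have w0 := wg_nonneg (j := j) hL ρ
  have r3 : (r : ℝ) ≤ 3 := by exact_mod_cast hr
  have r0 : (0 : ℝ) ≤ r := Nat.cast_nonneg r
  have key : ∀ a b, |E91.cf r a b * A2 L ρ fun τ => if τ a b = j then F a b τ else 0| ≤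
      20 * (B * (2 * wg L j ρ)) := fun a b => by
    by_cases e : a = b
    · rw [e, E91.cf_self, zero_mul, abs_zero]; positivity
    have k : ∀ τ, Rz L.length τ → (∀ u v, τ u.succ.succ v.succ.succ = ρ u v) →
        |if τ a b = j then F a b τ else 0| ≤ B * chi j τ := fun τ h1 h2 => by
      split_ifs with h3
      · rw [show chi j τ = 1 from if_pos ⟨a, b, e, h3⟩, mul_one]
        exact hF τ a b h1 h2 e h3
      · rw [abs_zero]; exact mul_nonneg hB (chi_mem _).1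
    have h1 := A2_le hL h fun τ h1 h2 => (abs_le.1 (k τ h1 h2)).2
    have h2 := A2_le hL h (φ := fun τ => -B * chi j τ)
      (ψ := fun τ => if τ a b = j then F a b τ else 0) fun τ h1 h2 => by
        rw [neg_mul]; exact (abs_le.1 (k τ h1 h2)).1
    rw [A2_mul] at h1 h2
    have h3 := mul_le_mul_of_nonneg_left (A2_chi hL hj h) hB
    exact SF97.amul ((E91.abs_cf_le r a b).trans (by nlinarith)) (abs_le.2 ⟨by linarith, by linarith⟩)
  refine (abs_sum_le_sum_abs _ _).trans ((sum_le_card_nsmul _ _ _ fun a _ =>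
    (abs_sum_le_sum_abs _ _).trans (sum_le_card_nsmul _ _ _ fun b _ => key a b)).trans ?_)
  simp only [card_univ, Fintype.card_fin, nsmul_eq_mul]
  push_cast
  have := mul_nonneg hB w0
  nlinarith [mul_nonneg this (sub_nonneg.2 r3), mul_nonneg (mul_nonneg this (sub_nonneg.2 r3)) r0]

/-! ### merging two depths -/

/-- the depth `i + 1` goes to `i` -/
def mg (i t : ℕ) : ℕ := if t = i + 1 then i else t

/-- the merged split matrix -/
def mrg (i : ℕ) (τ : SM r) : SM r := fun a b => mg i (τ a b)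

theorem mg_min (i a b : ℕ) : mg i (min a b) = min (mg i a) (mg i b) := by
  unfold mg
  split_ifs <;> omega

theorem um_mrg {τ : SM r} (h : Um K τ) (hi : i + 1 < K) : Um K (mrg i τ) := by
  refine ⟨fun a => ?_, fun a b => ?_, fun a b c => ?_⟩
  · rw [mrg, h.self]
    exact if_neg hi.ne'
  · rw [mrg, mrg, h.comm]
  · have := h.ultra a b c
    simp only [mrg, mg]
    split_ifs <;> omega

theorem mrg_gr (τ : SM r) (hi : i + 1 < K) (a : Fin r) (t : ℕ) :
    mrg i (gr K τ a t) = gr K (mrg i τ) a (mg i t) := by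
  funext b c
  refine Fin.cases ?_ (fun b => ?_) b <;> refine Fin.cases ?_ (fun c => ?_) c
  · exact if_neg hi.ne'
  · exact mg_min _ _ _
  · exact mg_min _ _ _
  · rfl

theorem up1_mrg (hi : i + 1 < L.length) {τ τ' : SM (r + 1)} (e : mrg i τ' = mrg i τ)
    {ψ : SM (r + 2) → ℝ} (hψ : ∀ σ σ', mrg i σ' = mrg i σ → ψ σ' = ψ σ) :
    up1 L ψ τ' = up1 L ψ τ := by
  have k : ∀ a t, ψ (gr L.length τ' a t) = ψ (gr L.length τ a t) := fun a t =>
    hψ _ _ (by rw [mrg_gr _ hi, mrg_gr _ hi, e])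
  simp only [up1, Ws, k]
  congr 2
  refine sum_congr rfl fun m _ => congrArg _ (sum_congr rfl fun a _ => ?_)
  by_cases h : m = i
  · rw [h, hψ (gr L.length τ a i) (gr L.length τ a (i + 1)) (by
      rw [mrg_gr _ hi, mrg_gr _ hi, show mg i (i + 1) = mg i i by simp [mg]]), sub_self, zero_div,
      zero_div]
  · rw [show cls τ' a (m + 1) = cls τ a (m + 1) from congrArg Finset.card
      (Finset.filter_congr fun b _ => by
        have h1 := congrFun (congrFun e a) b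
        have h2 := congrFun (congrFun e b) a
        simp only [mrg, mg] at h1 h2
        split_ifs at h1 h2 <;> omega)]

theorem mrg_mv {τ τ' : SM r} (H : Mv i τ τ') : mrg i τ' = mrg i τ := by
  funext a b
  have := H a b
  simp only [mrg, mg]
  split_ifs <;> omega

theorem mv_mrg (i : ℕ) (τ : SM r) : Mv i (mrg i τ) τ := fun a b => by
  simp only [mrg, mg]
  split_ifs <;> omega

/-- **merge invariance** -/
theorem G_mrg (hi : i < L.length) (hb : ¬Bad j L.length i) {ρ ρ' : SM (r + 1)} (H : Mv i ρ ρ')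
    (F : Fin (r + 3) → Fin (r + 3) → SM (r + 3) → ℝ) :
    G L j ρ' (fun a b τ => F a b (mrg i τ)) = G L j ρ fun a b τ => F a b (mrg i τ) := by
  unfold Bad at hb
  have h1 : i + 1 < L.length := by omega
  refine sum_congr rfl fun a _ => sum_congr rfl fun b _ => congrArg _
    (up1_mrg h1 (mrg_mv H) fun σ σ' e => up1_mrg h1 e fun τ τ' e' => ?_)
  have := congrFun (congrFun e' a) b
  refine if_congr ?_ (congrArg (F a b) e') rfl
  simp only [mrg, mg] at this
  split_ifs at this <;> omega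

theorem wg_mv (hb : ¬Bad j K i) {ρ ρ' : SM r} (H : Mv i ρ ρ') : wg L j ρ' = wg L j ρ := by
  unfold Bad at hb
  have : (∃ a b, a ≠ b ∧ ρ' a b = j) ↔ ∃ a b, a ≠ b ∧ ρ a b = j :=
    exists₂_congr fun a b => and_congr_right fun _ => by have := H a b; omega
  simp only [wg, this]

/-- the references, the edges of `S` without reference -/
def rf (q : Rf) (j : ℕ) (S : Finset (Fin 3)) (e : Fin 3) (i : ℕ) : ℝ :=
  if e ∈ S then 0 else if e = 0 then (if j ≤ i then q.1 j else 0) else q.2.2 i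

/-- the site factor -/
def Fs (T : List (Lv Bool)) (q : Rf) (j : ℕ) (p p' : Fin 3 → Fin r) (τ : SM r) : ℝ :=
  ∑ S ∈ ({1, 2} : Finset (Fin 3)).powerset, SF97.Qp (fun _ i => 1 - q.2.1 i) p p' τ S *
    Site94.SF T (rf q j S) p p' univ τ

theorem S3_eq (T : List (Lv Bool)) (q : Rf) {τ : SM r} {a b : Fin r} (h : τ a b = j)
    (c d e f : Fin r) : S3 T q τ a b c d e f = Fs T q j ![a, c, e] ![b, d, f] τ := by
  have hp : ({1, 2} : Finset (Fin 3)).powerset = {∅, {1}, {2}, {1, 2}} := by decide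
  simp only [S3, Fs, Site94.SF, ← TM_mul, ← TM_sum]
  refine congrArg _ (funext fun x => ?_)
  rw [hp, sum_insert (by decide), sum_insert (by decide), sum_pair (by decide)]
  simp [SF97.Qp, rf, ed, Site94.et, Q75.eK, aK, Fin.prod_univ_three, h]
  ring

/-- the site factor with the marked edge at `a b` -/
def Fm (T : List (Lv Bool)) (q : Rf) (j : ℕ) (c d e f : Fin (r + 1)) (a b : Fin (r + 3))
    (τ : SM (r + 3)) : ℝ :=
  Fs T q j ![a, c.succ.succ, e.succ.succ] ![b, d.succ.succ, f.succ.succ] τ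

theorem Mk_eq (T : List (Lv Bool)) (q : Rf) (ρ : SM (r + 1)) (c d e f : Fin (r + 1)) :
    Mk L T q j ρ c d e f = G L j ρ (Fm T q j c d e f) :=
  sum_congr rfl fun a _ => sum_congr rfl fun b _ => congrArg (fun φ => _ * A2 L ρ φ)
    (funext fun τ => if_ctx_congr Iff.rfl (fun h => S3_eq T q h _ _ _ _) fun _ => rfl)

/-- the hypotheses on the site side -/
structure Hy (T : List (Lv Bool)) (q : Rf) (P a : ℕ → ℝ) (j : ℕ) : Prop where
  rT : Ker15.R1 T
  hT : Mono 0 T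
  q0 : |q.1 j| ≤ 1
  hq : ∀ i, 0 ≤ q.2.1 i ∧ q.2.1 i ≤ 1 ∧ |q.2.2 i| ≤ 1
  hP : ∀ i, (∀ ε > 0, ∃ s, 0 < s ∧ Ker15.tm T i ≤ s ∧ min 1 (Ker15.PB 10 s) ≤ P i + ε) ∧
    (∀ i' ≤ i, |q.2.2 i'| ≤ P i) ∧ (j ≤ i → |q.1 j| ≤ P i)
  ha : ∀ i < T.length, SF97.vv T i ≤ a i ∧ |q.2.1 (i + 1) - q.2.1 i| ≤ a i ∧
    |q.2.2 (i + 1) - q.2.2 i| ≤ a i

namespace Hy

variable {T : List (Lv Bool)} {q : Rf} {P a : ℕ → ℝ} (H : Hy T q P a j) {p p' : Fin 3 → Fin r}
  {τ : SM r}
include H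

theorem a0 (hi : i < T.length) : 0 ≤ a i := (abs_nonneg _).trans (H.ha i hi).2.1

theorem P0 (i : ℕ) : 0 ≤ P i := (abs_nonneg _).trans ((H.hP i).2.1 i le_rfl)

theorem r1 (S : Finset (Fin 3)) : ∀ e ∈ (univ : Finset (Fin 3)), ∀ i, |rf q j S e i| ≤ 1 :=
  fun e _ i => by
    unfold rf
    split_ifs
    exacts [by simp, H.q0, by simp, (H.hq i).2.2]

theorem g1 : ∀ e ∈ (univ : Finset (Fin 3)), ∀ i, |(fun _ i => 1 - q.2.1 i) e i| ≤ 1 :=
  fun _ _ i => abs_le.2 ⟨by linarith [(H.hq i).2.1], by linarith [(H.hq i).1]⟩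

theorem rd (hi : i < T.length) (hb : ¬Bad j T.length i) (S : Finset (Fin 3)) :
    ∀ e ∈ (univ : Finset (Fin 3)), |rf q j S e (i + 1) - rf q j S e i| ≤ a i := fun e _ => by
  have := H.a0 hi
  unfold Bad at hb
  unfold rf
  split_ifs
  exacts [by simpa, by simpa, by omega, by omega, by simpa, (H.ha i hi).2.2]

theorem gd (hi : i < T.length) : ∀ e ∈ (univ : Finset (Fin 3)),
    |(fun _ i => 1 - q.2.1 i) e (i + 1) - (fun _ i => 1 - q.2.1 i) e i| ≤ a i := fun _ _ => by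
  rw [sub_sub_sub_cancel_left, abs_sub_comm]
  exact (H.ha i hi).2.1

theorem pz (S : Finset (Fin 3)) (i : ℕ) {ε : ℝ} (hε : 0 < ε) :
    SF97.Pz T 6 (rf q j S) univ i (P i + ε) :=
  ⟨(H.hP i).1 ε hε, fun e _ i' hi => le_trans (by
    have := H.P0 i
    unfold rf
    split_ifs with h1 h2 h3
    exacts [by simpa, (H.hP i).2.2 (h3.trans hi), by simpa, (H.hP i).2.1 i' hi])
      (le_add_of_nonneg_right hε.le)⟩

theorem Q1 (S : Finset (Fin 3)) : |SF97.Qp (fun _ i => 1 - q.2.1 i) p p' τ S| ≤ 1 :=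
  SF97.abs_prod_le fun e _ => (abs_neg _).trans_le (H.g1 e (mem_univ _) _)

variable (hr : r ≤ 6) (h : Um T.length τ)
include hr h

theorem s0 (S : Finset (Fin 3)) : |Site94.SF T (rf q j S) p p' univ τ| ≤ 8 :=
  (SF97.sf_abs (N := 6) H.rT H.hT (by norm_num) hr (H.r1 S) h).trans_eq (by norm_num)

theorem sp (S : Finset (Fin 3)) (ho : Site94.OddAt τ p p' univ i) {ε : ℝ} (hε : 0 < ε) :
    |Site94.SF T (rf q j S) p p' univ τ| ≤ 8 * (P i + ε) :=
  (SF97.sf_par (N := 6) H.rT H.hT (by norm_num) hr (H.r1 S) h ho (H.pz S i hε)).trans_eq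
    (by norm_num)

theorem s1 (S : Finset (Fin 3)) (hi : i < T.length) (hb : ¬Bad j T.length i) {σ : SM r}
    (h' : Um T.length σ) (m : Mv i σ τ) :
    |Site94.SF T (rf q j S) p p' univ τ - Site94.SF T (rf q j S) p p' univ σ| ≤ 600 * a i :=
  (SF97.sf_mv1 (N := 6) H.rT H.hT (by norm_num) hr (H.r1 S) hi h' h m (H.ha i hi).1
    (H.rd hi hb S)).trans_eq (by simp; ring)

theorem f0 : |Fs T q j p p' τ| ≤ 32 :=
  (SF97.sum_le fun S _ => SF97.amul (H.Q1 S) (H.s0 hr h S)).trans_eq (by simp; ring)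

theorem fp (ho : Site94.OddAt τ p p' univ i) {ε : ℝ} (hε : 0 < ε) :
    |Fs T q j p p' τ| ≤ 32 * (P i + ε) :=
  (SF97.sum_le fun S _ => SF97.amul (H.Q1 S) (H.sp hr h S ho hε)).trans_eq (by simp; ring)

variable (hi : i < T.length) (hb : ¬Bad j T.length i)
include hi hb

theorem um : Um T.length (mrg i τ) := um_mrg h (by unfold Bad at hb; omega)

theorem f1 : |Fs T q j p p' τ - Fs T q j p p' (mrg i τ)| ≤ 2496 * a i := by
  rw [Fs, Fs, ← sum_sub_distrib]
  exact (SF97.sum_le fun S _ => SF97.t1 H.g1 (mv_mrg i τ) (H.a0 hi) (H.gd hi) (subset_univ S)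
    (H.s0 hr h S) (H.s1 hr h S hi hb (H.um hr h hi hb) (mv_mrg i τ))).trans_eq (by simp; ring)

theorem f1p (hi' : i' ≤ i) (ho : Site94.OddAt τ p p' univ i') {ε : ℝ} (hε : 0 < ε) :
    |Fs T q j p p' τ - Fs T q j p p' (mrg i τ)| ≤ 2496 * ((P i' + ε) * a i) := by
  rw [Fs, Fs, ← sum_sub_distrib]
  exact (SF97.sum_le fun S _ => SF97.t1 H.g1 (mv_mrg i τ) (H.a0 hi) (H.gd hi) (subset_univ S)
    (H.sp hr h S ho hε) (SF97.sf_mv1p (N := 6) H.rT H.hT (by norm_num) hr (H.r1 S) hi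
      (H.um hr h hi hb) h (mv_mrg i τ) (H.ha i hi).1 (H.rd hi hb S) hi' ho
      (H.pz S i' hε))).trans_eq (by simp; ring)

theorem f2 (hii : i < i') (hi' : i' < T.length) (hb' : ¬Bad j T.length i') :
    |Fs T q j p p' τ - Fs T q j p p' (mrg i' τ) - (Fs T q j p p' (mrg i τ) -
      Fs T q j p p' (mrg i' (mrg i τ)))| ≤ 328320 * (a i * a i') := by
  have u1 := H.um hr h hi' hb'
  have u2 := H.um hr h hi hb
  have m1 : Mv i (mrg i' (mrg i τ)) (mrg i' τ) := fun x y => by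
    simp only [mrg, mg]; split_ifs <;> omega
  have m2 : ∀ x y, τ x y + mrg i' (mrg i τ) x y = mrg i' τ x y + mrg i τ x y := fun x y => by
    simp only [mrg, mg]; split_ifs <;> omega
  rw [Fs, Fs, Fs, Fs, ← sum_sub_distrib, ← sum_sub_distrib, ← sum_sub_distrib]
  exact (SF97.sum_le fun S _ => SF97.t2 H.g1 hii m1 (mv_mrg i' _) m2 (H.a0 hi) (H.a0 hi')
    (H.gd hi) (H.gd hi') (subset_univ S) (H.s0 hr h S) (H.s1 hr h S hi hb u2 (mv_mrg i τ))
    (H.s1 hr h S hi' hb' u1 (mv_mrg i' τ)) (SF97.sf_mv2 (N := 6) H.rT H.hT (by norm_num) hr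
      (H.r1 S) hii hi' (H.um hr u2 hi' hb') u1 u2 h m1 (mv_mrg i' _) m2 (H.ha i hi).1
      (H.ha i' hi').1 (H.rd hi hb S) (H.rd hi' hb' S))).trans_eq (by simp; ring)

end Hy

theorem one (hL : Mono 0 L) (hj : j < L.length) (hr : r ≤ 3) {ρ ρ' : SM (r + 1)}
    (h : Rz L.length ρ) (h' : Rz L.length ρ') (hi : i < L.length) (hb : ¬Bad j L.length i)
    (H : Mv i ρ ρ') {F : Fin (r + 3) → Fin (r + 3) → SM (r + 3) → ℝ} {B : ℝ} (hB : 0 ≤ B)
    (hF : ∀ τ a b, Rz L.length τ → ((∀ u v, τ u.succ.succ v.succ.succ = ρ u v) ∨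
      ∀ u v, τ u.succ.succ v.succ.succ = ρ' u v) → a ≠ b → τ a b = j →
      |F a b τ - F a b (mrg i τ)| ≤ B) : |G L j ρ' F - G L j ρ F| ≤ 2880 * wg L j ρ * B := by
  have h1 := abs_G hL hj hr h hB fun τ a b k1 k2 => hF τ a b k1 (.inl k2)
  have h2 := abs_G hL hj hr h' hB fun τ a b k1 k2 => hF τ a b k1 (.inr k2)
  rw [G_sub] at h1 h2
  rw [G_mrg hi hb H, wg_mv hb H] at h2
  rw [abs_le] at h1 h2 ⊢
  constructor <;> linarith [h1.1, h1.2, h2.1, h2.2]

theorem le_eps {x A P : ℝ} (hA : 0 ≤ A) (h : ∀ ε > 0, x ≤ A * (P + ε)) : x ≤ A * P :=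
  le_of_forall_pos_le_add fun ε hε => (h (ε / (A + 1)) (by positivity)).trans (by
    rw [mul_add]
    refine add_le_add le_rfl ?_
    rw [← mul_div_assoc, div_le_iff₀ (by positivity)]
    nlinarith)

end M94

open M94

/-- **leaf `MkS`** -/
theorem mkS : MkS := by
  refine ⟨10 ^ 10, by norm_num, fun Θ _ L T q P a j hl hL rT hT q0 hq hj hP ha => ?_⟩
  have Y : Hy T q P a j := ⟨rT, hT, q0, hq, hP, hl ▸ ha⟩
  have um : ∀ {r : ℕ} {τ : SM r}, Rz L.length τ → Um T.length τ := fun h =>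
    SF97.um_of_rz (hl ▸ h)
  have a0 : ∀ i < L.length, 0 ≤ a i := fun i hi => Y.a0 (hl ▸ hi)
  refine ⟨fun r hr ρ h c d e f => ?_, fun r hr ρ h c d e f i ho => ?_,
    fun r hr ρ ρ' h h' c d e f i hi hb H => ?_,
    fun r hr ρ ρ' h h' c d e f i hi hb H i' hi' ho ho' => ?_,
    fun r hr ρ₀ ρ₁ ρ₂ ρ₃ h₀ h₁ h₂ h₃ c d e f i i' hii hi' hb hb' H H' H2 => ?_⟩ <;>
    simp only [Mk_eq]
  · have := wg_nonneg (j := j) hL ρ
    exact (abs_G hL hj hr h (F := Fm T q j c d e f) (B := 32) (by norm_num) fun τ a b k _ _ _ =>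
      Y.f0 (by omega) (um k)).trans (by linarith)
  · have w0 := wg_nonneg (j := j) hL ρ
    refine le_eps (by positivity) fun ε hε => ?_
    have := mul_nonneg w0 (add_nonneg (Y.P0 i) hε.le)
    exact (abs_G hL hj hr h (F := Fm T q j c d e f) (B := 32 * (P i + ε)) (by linarith [Y.P0 i])
      fun τ a b k1 k2 k3 k4 => Y.fp (by omega) (um k1) (ho τ a b k1 k2 k3 k4) hε).trans
        (by linarith)
  · have := mul_nonneg (wg_nonneg (j := j) hL ρ) (a0 i hi)
    exact (one hL hj hr h h' hi hb H (F := Fm T q j c d e f) (B := 2496 * a i)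
      (by linarith [a0 i hi]) fun τ u v k _ _ _ =>
        Y.f1 (by omega) (um k) (hl ▸ hi) (hl ▸ hb)).trans (by linarith)
  · have w0 := mul_nonneg (wg_nonneg (j := j) hL ρ) (a0 i hi)
    rw [show ∀ x y z w : ℝ, x * y * (z * w) = x * (y * w) * z from fun _ _ _ _ => by ring]
    refine le_eps (by positivity) fun ε hε => ?_
    have p0 := add_nonneg (Y.P0 i') hε.le
    have := mul_nonneg w0 p0
    exact (one hL hj hr h h' hi hb H (F := Fm T q j c d e f) (B := 2496 * ((P i' + ε) * a i))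
      (by linarith [mul_nonneg p0 (a0 i hi)]) fun τ u v k1 k2 k3 k4 =>
        Y.f1p (by omega) (um k1) (hl ▸ hi) (hl ▸ hb) hi'
          (k2.elim (fun k => ho τ u v k1 k k3 k4) fun k => ho' τ u v k1 k k3 k4) hε).trans
            (by linarith)
  · have hi : i < L.length := hii.trans hi'
    obtain ⟨H1, H3⟩ := SF97.mv_13 hii H H' H2
    have b0 := mul_nonneg (a0 i hi) (a0 i' hi')
    have key : ∀ {ρ : SM (r + 1)}, Rz L.length ρ → |G L j ρ fun u v τ =>
        Fm T q j c d e f u v τ - Fm T q j c d e f u v (mrg i' τ) - (Fm T q j c d e f u v (mrg i τ) -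
          Fm T q j c d e f u v (mrg i' (mrg i τ)))| ≤ 1440 * wg L j ρ * (328320 * (a i * a i')) :=
      fun h => abs_G hL hj hr h (by linarith) fun τ u v k _ _ _ =>
        Y.f2 (by omega) (um k) (hl ▸ hi) (hl ▸ hb) hii (hl ▸ hi') (hl ▸ hb')
    have k0 := key h₀
    have k1 := key h₁
    have k2 := key h₂
    have k3 := key h₃
    rw [G_sub, G_sub] at k0 k1 k2 k3
    have e1 := G_mrg hi hb H fun u v τ => Fm T q j c d e f u v τ - Fm T q j c d e f u v (mrg i' τ)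
    have e3 := G_mrg hi hb H3 fun u v τ => Fm T q j c d e f u v τ - Fm T q j c d e f u v (mrg i' τ)
    rw [G_mrg hi' hb' H1, e3, wg_mv hb' H1, wg_mv hb H] at k3
    rw [G_mrg hi' hb' H', wg_mv hb' H'] at k2
    rw [e1, wg_mv hb H] at k1
    have := mul_nonneg (wg_nonneg (j := j) hL ρ₀) b0
    rw [abs_le] at k0 k1 k2 k3 ⊢
    constructor <;> linarith [k0.1, k0.2, k1.1, k1.2, k2.1, k2.2, k3.1, k3.2]

end Crest.Agent.T156.Cas.Q21

end
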