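import Crest.Agent.T156.CQ21P_44

/-!
# Row 156 (helper23): the word `[aU, aU]` in the test direction, the common instance on `CD`
-/

set_option autoImplicit false
set_option linter.all false

noncomputable section

namespace Crest.Agent.T156.Cas.Q21.I23

open Finset
open Crest.Agent.T157.E Crest.Agent.T157.Casc Crest.Agent.T157.SL
open Crest.Agent.T156.Cas.Q75
open Crest.Agent.T156.Cas.Q75.A10 (ind Ful_congr Sy_mul Sy_wt SN_wt mul_assoc')
open Nu87 C40 C40.Q10 C40.N75 C40.CD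

section gen
variable {Θ : Type} {L L' : List (Lv Θ)} {c T T' : Tw} {j : ℕ} {ε : ℝ}

theorem Ful_sum [Fintype Θ] (A : Finset ℕ) (a : ℕ → ℝ) (S : ℕ → Tw)
    (h2 : ∀ σ, Rz L.length σ → T.f2 σ = ∑ t ∈ A, a t * (S t).f2 σ)
    (h3 : ∀ σ, Rz L.length σ → T.f3 σ = ∑ t ∈ A, a t * (S t).f3 σ)
    (h4 : ∀ σ, Rz L.length σ → T.f4 σ = ∑ t ∈ A, a t * (S t).f4 σ) :
    Ful L T = ∑ t ∈ A, a t * Ful L (S t) := by
  rw [Ful, avm_congr L 1 h2, avm_congr L 2 h3, avm_congr L 3 h4, avm_sum, avm_sum, avm_sum]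
  simp only [avm_mul, Ful, mul_sum, ← sum_sub_distrib, ← sum_add_distrib]
  exact sum_congr rfl fun _ _ => by ring

theorem Ful_ind [Fintype Θ] (hc : c.Sy L.length) {t : ℕ} (ht : t ≤ L.length) :
    2 * Ful L ((wt (ind t) (ind t)).mul c) =
      2 * (dm L 0 t * SN L c t) + NL L ((wt (ind t) (ind t)).mul c) := by
  rw [Ful_exp _ (Sy_mul (Sy_wt _ _) hc), Q75.Sm, sum_eq_single t (fun x hx h => by
      rw [SN_wt _ _ (Nat.lt_succ_iff.1 (mem_range.1 hx)), ind, if_neg h]; ring)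
      (fun h => absurd (mem_range.2 (Nat.lt_succ_of_le ht)) h), SN_wt _ _ ht, ind, if_pos rfl]
  ring

theorem sum_ind {K x y : ℕ} (hx : x ≤ K) (a : ℕ → ℝ) (b : ℝ) {u : ℝ} (hu : u = 1) :
    (if x = y then a x else 0) * b * u = ∑ t ∈ range (K + 1), a t * (ind t x * ind t y * b) := by
  rw [hu, sum_eq_single x (fun t _ h => by rw [ind, if_neg (Ne.symm h)]; ring)
    fun h => absurd (mem_range.2 (Nat.lt_succ_of_le hx)) h, ind, if_pos rfl, ind]
  by_cases e : x = y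
  · rw [if_pos e, if_pos e.symm]; ring
  · rw [if_neg e, if_neg (Ne.symm e)]; ring

/-- a scalar factor leaves the non-local part -/
theorem NL_smul {κ : ℝ} (h3 : ∀ σ, T'.f3 σ = κ * T.f3 σ) (h4 : ∀ σ, T'.f4 σ = κ * T.f4 σ) :
    NL L T' = κ * NL L T := by
  have e1 : ∀ y x, T'.lo L.length y x = fun t => κ * T.lo L.length y x t := fun y x => by
    funext t; simp only [Tw.lo, h3, h4]; split_ifs <;> rfl
  have e2 : ∀ y x, T'.tr.lo L.length y x = fun t => κ * T.tr.lo L.length y x t := fun y x => by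
    funext t; simp only [Tw.lo, Tw.tr, h3, h4]; split_ifs <;> rfl
  have e3 : ∀ y x, LO L T' y x = κ * LO L T y x := fun y x => by
    simp only [LO, cP, e1, Lg_mul, Lx_mul]; ring
  have e4 : ∀ y x, LO L T'.tr y x = κ * LO L T.tr y x := fun y x => by
    simp only [LO, cP, e2, Lg_mul, Lx_mul]; ring
  simp only [NL, NLx, e3, e4, Tw.off, h4, mul_sum, mul_add, mul_left_comm _ κ]

theorem ind0 (j i : ℕ) : 0 ≤ ind j i := by unfold ind; split_ifs <;> norm_num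

theorem pert_refl (hL : Mono 0 L) (j : ℕ) : Pert L L j 0 :=
  ⟨rfl, hL, fun _ => by ring, fun _ => by simp⟩

theorem dm_pos (H : Pert L L' j ε) (hL : Mono 0 L) (h0 : 0 < ε) (h1 : ε ≤ 1) : 0 < dm L' 0 j := by
  rw [H.dm, ind, if_pos rfl]
  nlinarith [dm_nonneg hL j]

theorem dm_off (H : Pert L L' j ε) {i : ℕ} (hi : i ≠ j) : dm L' 0 i = (1 - ε) * dm L 0 i := by
  rw [H.dm, ind, if_neg hi]; ring

theorem dm_le (H : Pert L L' j ε) (hL : Mono 0 L) (h0 : 0 ≤ ε) {i : ℕ} (hi : i ≠ j) :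
    dm L' 0 i ≤ dm L 0 i := by
  rw [dm_off H hi]
  nlinarith [dm_nonneg hL i]

theorem dm_le' (H : Pert L L' j ε) (hL : Mono 0 L) (h0 : 0 ≤ ε) (i : ℕ) :
    dm L' 0 i ≤ dm L 0 i + ε := by
  have : ind j i ≤ 1 := by unfold ind; split_ifs <;> norm_num
  rw [H.dm]
  nlinarith [dm_nonneg hL i]

theorem ex_le' (H : Pert L L' j ε) (hL : Mono 0 L) (h0 : 0 ≤ ε) (i : ℕ) :
    ex L' i ≤ ex L i + ε := by
  have := A10.ex_nn hL i
  rw [H.ex]
  split_ifs <;> nlinarith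

theorem dm_one (hL : Mono 0 L) (i : ℕ) : dm L 0 i ≤ 1 := by
  rcases le_or_gt i L.length with e | e
  · simpa using sum_dm_le_one hL (A := {i}) (by simpa using Nat.lt_succ_of_le e)
  · obtain ⟨x, rfl⟩ : ∃ y, i = y + 1 := ⟨i - 1, by omega⟩
    rw [S97.dm_succ]
    unfold Crest.Agent.T157.Casc.ex
    rw [List.getElem?_eq_none (by omega), List.getElem?_eq_none (by omega), sub_self]
    exact zero_le_one

end gen

variable {D : CD} {τ0 : ℝ}

/-- the variance of the overlap at a node -/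
def Vr (D : CD) (x : ℕ) : ℝ := D.u 2 x - D.del x ^ 2

theorem Vr_eq (D : CD) {x : ℕ} (hx : x ≤ D.K) :
    (Bt D).sN D.K x (D.K + 1) (D.K + 1) = Vr D x := by
  have := var_eq D (t := x) (hx.trans_eq D.B_len.symm)
  rwa [D.B_len] at this

theorem abs_Vr (D : CD) {x : ℕ} (hx : x ≤ D.K) : |Vr D x| ≤ 4 := by
  have := abs_var D x
  rwa [D.B_len, Vr_eq D hx] at this

/-- the local remainder at the node `x` -/
def Rx {Θ : Type} (D : CD) (L : List (Lv Θ)) (c : Tw) (x : ℕ) : ℝ :=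
  2 * (dm L 0 x * (SN L (c.mul (Bt D)) x - SN L c x * Vr D x)) -
    Vr D x * NL L ((wt (ind x) (ind x)).mul c)

section eq
variable {Θ : Type} [Fintype Θ] {L : List (Lv Θ)}

theorem cM_sy (HS : SwapS) (hL : L.length = D.K) (q : Rf) {j : ℕ} (hj : j ≤ D.K) :
    (cM L D.S q j).Sy L.length ∧ (cM L D.S q j).tr.Eqv (cM L D.S q j) L.length :=
  (HS Θ L D.S q j _ (fun _ => 1) D.B 0 (fun _ _ _ => 1) (fun _ _ => 0) wt_one90
    ((N75.S_len D).trans hL.symm) (D.B_len.trans hL.symm) (hj.trans_eq hL.symm)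
    fun _ _ _ => rfl).2

/-- **the exact split** into the non-local and the local part, any weights -/
theorem Tj_eq (HS : SwapS) (hL : L.length = D.K) (q : Rf) {j : ℕ} (hj : j ≤ D.K)
    (φ ψ : ℕ → ℝ) : dm L 0 j * Tj D L q j φ ψ =
      NL L (((wt φ ψ).mul (cM L D.S q j)).mul (Bt D)) +
        ∑ x ∈ range (D.K + 1), φ x * ψ x * Rx D L (cM L D.S q j) x := by
  have eB : D.B.length = L.length := D.B_len.trans hL.symm
  have G := fun U A => HS Θ L D.S q j _ (fun _ => 1) D.B 0 U A wt_one90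
    ((N75.S_len D).trans hL.symm) eB (hj.trans_eq hL.symm)
  have sy := (cM_sy HS hL q hj).1
  have k1 := (G (oU D.rb) (fun x y => φ x * ψ y) fun j a b => by rw [oU, oU, ov_comm]).1
  have k2 := (G (fun _ _ _ => 1) (fun x y => if x = y then φ x * ψ x * Vr D x else 0)
    fun _ _ _ => rfl).1
  have one : ∀ {r : ℕ} {σ : SM r}, Rz L.length σ →
      TM (fun _ => 1) D.B 0 σ (fun _ : Fin r → Cube D.n => (1 : ℝ) * 1) = 1 := fun hσ => by
    rw [TM_const wt_one90 (eB ▸ hσ), one_mul]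
  rw [Ful_sum (range (L.length + 1)) (fun x => φ x * ψ x * Vr D x)
    (fun t => (wt (ind t) (ind t)).mul (cM L D.S q j))
    (fun σ hσ => sum_ind (hσ.le 0 1) (fun x => φ x * ψ x * Vr D x) _ (one hσ))
    (fun σ hσ => sum_ind (hσ.le 1 2) (fun x => φ x * ψ x * Vr D x) _ (one hσ))
    (fun σ hσ => sum_ind (hσ.le 2 3) (fun x => φ x * ψ x * Vr D x) _ (one hσ)), mul_sum,
    sum_congr rfl fun x hx => by
      rw [mul_left_comm, Ful_ind sy (Nat.lt_succ_iff.1 (mem_range.1 hx))]] at k2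
  have k3 := Ful_exp L (Sy_mul (Sy_mul (Sy_wt φ ψ) sy) (eB ▸ Sy_Bt D))
  rw [Q75.Sm, sum_congr rfl fun x hx => by
    rw [mul_assoc', SN_wt _ _ (Nat.lt_succ_iff.1 (mem_range.1 hx))]] at k3
  have k4 : ∑ x ∈ range (D.K + 1), φ x * ψ x * Rx D L (cM L D.S q j) x =
      2 * ∑ x ∈ range (L.length + 1), dm L 0 x * (φ x * ψ x * SN L ((cM L D.S q j).mul (Bt D)) x) -
      ∑ x ∈ range (L.length + 1), φ x * ψ x * Vr D x * (2 * (dm L 0 x * SN L (cM L D.S q j) x) +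
        NL L ((wt (ind x) (ind x)).mul (cM L D.S q j))) := by
    rw [hL, mul_sum, ← sum_sub_distrib]
    exact sum_congr rfl fun x _ => by rw [Rx]; ring
  have k5 : 2 * Ful L (((wt φ ψ).mul (cM L D.S q j)).mul (Bt D)) = _ := k1.symm
  rw [Tj, mul_sub, k4]
  have k6 : dm L 0 j * Tm L D.S q j (fun _ => 1) D.B 0 (fun _ _ _ => 1)
    (fun x y => if x = y then φ x * ψ x * (D.u 2 x - D.del x ^ 2) else 0) = _ := k2
  linarith

end eq

/-- **the limit** `ε → 0`, two terms -/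
theorem lim2 (h : D.Ok τ0) {j : ℕ} (hj : j ≤ D.K) (q : Rf) (φ ψ φ' ψ' : ℕ → ℝ) (k : ℝ)
    {G : ℝ → ℝ} (hG : ContinuousAt G 0)
    (H : ∀ (L : List (Lv (Cube D.n))) (ε : ℝ), 0 < ε → ε ≤ 1 / 2 → Pert D.B L j ε →
      |dm L 0 j * Tj D L q j φ ψ + k * (dm L 0 j * Tj D L q j φ' ψ')| ≤ dm L 0 j * G ε) :
    |Tj D D.B q j φ ψ + k * Tj D D.B q j φ' ψ'| ≤ G 0 := by
  obtain ⟨L', e0, hP, hc⟩ := pertS _ D.B j h.mono (hj.trans_eq D.B_len.symm)
  have key : ∀ U A, ∃ g : ℝ → ℝ, Continuous g ∧ ∀ ε, 0 ≤ ε → ε ≤ 1 →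
      Tm (L' ε) D.S q j (fun _ => 1) D.B 0 U A = g ε := fun U A =>
    ⟨fun ε => E91.D2 fun c d e f => avc (r := 1) (L' ε) (tw D.B.length j) 4 fun τ =>
      A (τ c d) (τ e f) * TM (fun _ => 1) D.B 0 τ (fun x => ed U c d x τ * ed U e f x τ) *
        S3 D.S q τ 4 5 c d e f, by
      unfold E91.D2
      exact continuous_finset_sum _ fun _ _ => continuous_finset_sum _ fun _ _ =>
        continuous_finset_sum _ fun _ _ => continuous_finset_sum _ fun _ _ =>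
          continuous_const.mul (hc _ _ _ _),
      fun ε h0 h1 => by rw [Tm, (hP ε h0 h1).len]⟩
  have key2 : ∀ φ ψ, ∃ g : ℝ → ℝ, Continuous g ∧ ∀ ε, 0 ≤ ε → ε ≤ 1 →
      Tj D (L' ε) q j φ ψ = g ε := fun φ ψ => by
    obtain ⟨g1, a1, b1⟩ := key (oU D.rb) fun x y => φ x * ψ y
    obtain ⟨g2, a2, b2⟩ := key (fun _ _ _ => 1)
      fun x y => if x = y then φ x * ψ x * (D.u 2 x - D.del x ^ 2) else 0
    exact ⟨fun ε => g1 ε - g2 ε, a1.sub a2, fun ε h0 h1 => by rw [Tj, b1 ε h0 h1, b2 ε h0 h1]⟩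
  obtain ⟨g1, a1, b1⟩ := key2 φ ψ
  obtain ⟨g2, a2, b2⟩ := key2 φ' ψ'
  have c1 : Continuous fun ε => |g1 ε + k * g2 ε| := (a1.add (continuous_const.mul a2)).abs
  rw [← e0, b1 0 le_rfl zero_le_one, b2 0 le_rfl zero_le_one]
  refine le_of_tendsto_of_tendsto (b := nhdsWithin 0 (Set.Ioi 0))
    (c1.continuousAt.tendsto.mono_left nhdsWithin_le_nhds)
    (hG.tendsto.mono_left nhdsWithin_le_nhds) ?_
  filter_upwards [Ioc_mem_nhdsGT (show (0 : ℝ) < 1 / 2 by norm_num)] with ε hε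
  have p := hP ε hε.1.le (by linarith [hε.2])
  have d := dm_pos p h.mono hε.1 (by linarith [hε.2])
  have := H _ ε hε.1 hε.2 p
  rw [b1 ε hε.1.le (by linarith [hε.2]), b2 ε hε.1.le (by linarith [hε.2]), mul_left_comm,
    ← mul_add, abs_mul, abs_of_pos d] at this
  exact le_of_mul_le_mul_left this d

/-- **the limit** `ε → 0` -/
theorem lim1 (h : D.Ok τ0) {j : ℕ} (hj : j ≤ D.K) (q : Rf) (φ ψ : ℕ → ℝ)
    {G : ℝ → ℝ} (hG : ContinuousAt G 0)
    (H : ∀ (L : List (Lv (Cube D.n))) (ε : ℝ), 0 < ε → ε ≤ 1 / 2 → Pert D.B L j ε →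
      |dm L 0 j * Tj D L q j φ ψ| ≤ dm L 0 j * G ε) : |Tj D D.B q j φ ψ| ≤ G 0 := by
  simpa using lim2 h hj q φ ψ φ ψ 0 hG fun L ε a b c => by simpa using H L ε a b c

/-- the step size -/
def aa (D : CD) (i : ℕ) : ℝ := SF97.vv D.S i + (D.τ (i + 1) - D.τ i) + D.dx i + D.dx (i + 1)

/-- the parity constant -/
def cP0 : ℝ := 1600 * Real.exp (3 / 2)

theorem cP0_one : 1 ≤ cP0 := by
  have := Real.one_le_exp (show (0 : ℝ) ≤ 3 / 2 by norm_num)
  unfold cP0; linarith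

section ok
variable (h : D.Ok τ0)
include h

theorem vv_eq {i : ℕ} (hi : i < D.K) : SF97.vv D.S i = D.sig (i + 1) - D.sig i := by
  rw [SF97.vv, tm_eq h hi, tm_eq h hi.le]

theorem aa_parts (i : ℕ) : 0 ≤ SF97.vv D.S i ∧ 0 ≤ D.τ (i + 1) - D.τ i ∧ 0 ≤ D.dx i ∧
    0 ≤ D.dx (i + 1) :=
  ⟨SF97.vv0 (r1 h) i, sub_nonneg.2 (h.tau_mono i.le_succ), h.dx0 _, h.dx0 _⟩

theorem aa0 (i : ℕ) : 0 ≤ aa D i := by
  obtain ⟨a, b, c, d⟩ := aa_parts h i
  unfold aa; linarith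

theorem aa_dx (i : ℕ) : D.dx i + D.dx (i + 1) ≤ aa D i := by
  obtain ⟨a, b, c, d⟩ := aa_parts h i
  unfold aa; linarith

theorem aa_eq {i : ℕ} (h1 : D.J < i) (h2 : i < D.K) : aa D i = D.dv (i + 1) := by
  rw [aa, vv_eq h h2, CD.dv, if_neg (by omega), Nat.add_sub_cancel]

/-- the side condition of `RegWS`, `RowRS` -/
theorem aa_bad {L : List (Lv (Cube D.n))} {j : ℕ} {ε : ℝ} (H : Pert D.B L j ε) (h0 : 0 ≤ ε)
    (i : ℕ) (hi : ¬ Bad j L.length i) : dm L 0 i + dm L 0 (i + 1) ≤ aa D i :=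
  (add_le_add (dm_le H h.mono h0 fun e => hi (Or.inl e))
    (dm_le H h.mono h0 fun e => hi (Or.inr (Or.inl e)))).trans (aa_dx h i)

theorem sum_aa {g : ℕ → ℝ} (hg : ∀ y, 0 ≤ g y) :
    ∑ i ∈ Ico (D.J + 1) D.K, aa D i * fz D g (i + 1) ≤ D.sv g D.J := by
  rw [sum_congr rfl fun i hi => by rw [aa_eq h (mem_Ico.1 hi).1 (mem_Ico.1 hi).2],
    sum_Ico_add' (fun j => D.dv j * fz D g j)]
  simp only [fz, mul_ite, mul_zero]
  rw [← sum_filter]
  refine sum_le_sum_of_subset_of_nonneg (fun j hj => ?_)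
    fun j hj _ => mul_nonneg (h.dv0 (mem_Ioo.1 hj).2.le) (hg j)
  simp only [mem_filter, mem_Ico, mem_Ioo] at hj ⊢
  omega

theorem Pm_mem (y : ℕ) : D.X ≤ Pm D y ∧ Pm D y ≤ 1 := by
  unfold Pm
  split_ifs with e
  · have := mem_up.1 e
    exact ⟨le_min h.X1 (by linarith [h.eX (D.J + 1), h.sig_le (i := D.J + 1) this.1 this.2.le]),
      min_le_left _ _⟩
  · exact ⟨h.X1, le_rfl⟩

theorem Pm0 (y : ℕ) : 0 ≤ Pm D y := h.X0.trans (Pm_mem h y).1

theorem sig_Pm {y : ℕ} (hy : y ∈ D.up) : min 1 (D.sig y) ≤ Pm D y := by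
  have m := mem_up.1 hy
  have k := h.esc (D.J + 1) (mem_up.2 (by omega))
  have k1 := h.sig_le (i := D.J + 1) m.1 m.2.le
  have k2 := h.ex0 (D.J + 1)
  rw [Pm, if_pos hy]
  refine le_min (min_le_left _ _) ?_
  rcases min_le_iff.1 k with k | k
  · linarith [min_le_left 1 (D.sig y)]
  · linarith [min_le_right 1 (D.sig y)]

theorem Pm_mm (y : ℕ) : Pm D y ≤ 2 * mm D y := by
  by_cases hy : y ∈ D.up
  · have m := mem_up.1 hy
    rw [mm, if_pos hy]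
    rcases le_total 1 (D.e y) with e | e
    · rw [min_eq_left e]; linarith [(Pm_mem h y).2]
    · rw [min_eq_right e, Pm, if_pos hy]
      rcases min_le_iff.1 (h.esc y hy) with k | k
      · linarith [min_le_left 1 (D.e (D.J + 1) + (D.sig y - D.sig (D.J + 1)))]
      · linarith [min_le_right 1 (D.e (D.J + 1) + (D.sig y - D.sig (D.J + 1))), h.ex0 y,
          h.e_mono (show D.J + 1 ≤ y from m.1), h.sig0 (j := D.J + 1) (by omega)]
  · rw [mm, if_neg hy]; linarith [(Pm_mem h y).2]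

theorem Pm_le {y : ℕ} (hy : y ∈ D.up) : Pm D y ≤ 2 * D.e y :=
  (Pm_mm h y).trans (by linarith [mm_le h hy])

theorem Pm_step {y : ℕ} (h1 : D.J < y) (h2 : y + 1 < D.K) :
    Pm D y ≤ Pm D (y + 1) ∧ Pm D (y + 1) - Pm D y ≤ aa D y := by
  obtain ⟨a, b, c, d⟩ := aa_parts h y
  have e := vv_eq h (show y < D.K by omega)
  rw [Pm, Pm, if_pos (mem_up.2 (by omega)), if_pos (mem_up.2 (by omega)), aa]
  refine ⟨min_le_min le_rfl (by linarith), ?_⟩
  rcases le_total 1 (D.e (D.J + 1) + (D.sig y - D.sig (D.J + 1))) with k | k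
  · rw [min_eq_left k]
    linarith [min_le_left 1 (D.e (D.J + 1) + (D.sig (y + 1) - D.sig (D.J + 1)))]
  · rw [min_eq_right k]
    linarith [min_le_right 1 (D.e (D.J + 1) + (D.sig (y + 1) - D.sig (D.J + 1)))]

theorem q_mm {j i : ℕ} (hj : j ∈ D.up) (hi : j ≤ i) : D.q j ≤ mm D i := by
  have k := (h.ook.mem (mem_up.1 hj).2.le).2
  unfold mm
  split_ifs
  exacts [le_min k ((h.qe j hj).trans (h.e_mono hi)), k]

theorem par10 (y : ℕ) {ε : ℝ} (hε : 0 < ε) : ∃ σ, 0 < σ ∧ Ker15.tm D.S y ≤ σ ∧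
    min 1 (Ker15.PB 10 σ) ≤ cP0 * Pm D y + ε := by
  have c1 := cP0_one
  rcases le_or_gt 1 (Pm D y) with h1 | h1
  · exact ⟨|Ker15.tm D.S y| + 1, by positivity, (le_abs_self _).trans (by linarith),
      (min_le_left _ _).trans (by nlinarith)⟩
  have hy : y ∈ D.up := by by_contra hy; rw [Pm, if_neg hy] at h1; exact h1.false
  have h3 : D.sig y ≤ Pm D y := (min_le_iff.1 (sig_Pm h hy)).resolve_left h1.not_ge
  have h5 : 0 < ε / cP0 := by positivity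
  have h0 : 0 < min 1 (Pm D y + ε / cP0) := lt_min one_pos (by linarith [Pm0 h y])
  refine ⟨_, h0, ?_, (min_le_right _ _).trans ?_⟩
  · rw [tm_eq h (mem_up.1 hy).2.le]
    exact le_min (by linarith) (by linarith)
  · have h4 : Real.exp (1 / 2 + √(min 1 (Pm D y + ε / cP0))) ≤ Real.exp (3 / 2) :=
      Real.exp_le_exp.2 (by linarith [Real.sqrt_le_one.2 (min_le_left 1 (Pm D y + ε / cP0))])
    have h6 := mul_le_mul h4 (min_le_right 1 (Pm D y + ε / cP0)) h0.le (Real.exp_pos _).le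
    have h7 : cP0 * Pm D y + ε = 1600 * (Real.exp (3 / 2) * (Pm D y + ε / cP0)) := by
      rw [← mul_assoc, show 1600 * Real.exp (3 / 2) = cP0 from rfl]; field_simp
    rw [Ker15.PB, h7]
    push_cast
    nlinarith

/-- **the marked coefficient on `CD`**: the hypotheses of `MkS` for `Rq D` -/
theorem mk_cd {C : ℝ} (HM : ∀ (Θ : Type) [Fintype Θ] (L : List (Lv Θ)) (T : List (Lv Bool))
    (q : Rf) (P a : ℕ → ℝ) (j : ℕ), T.length = L.length → Mono 0 L → Ker15.R1 T → Mono 0 T →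
    |q.1 j| ≤ 1 → (∀ i, 0 ≤ q.2.1 i ∧ q.2.1 i ≤ 1 ∧ |q.2.2 i| ≤ 1) → j < L.length →
    (∀ i, (∀ ε > 0, ∃ s, 0 < s ∧ Ker15.tm T i ≤ s ∧ min 1 (Ker15.PB 10 s) ≤ P i + ε) ∧
      (∀ i' ≤ i, |q.2.2 i'| ≤ P i) ∧ (j ≤ i → |q.1 j| ≤ P i)) →
    (∀ i < L.length, SF97.vv T i ≤ a i ∧ |q.2.1 (i + 1) - q.2.1 i| ≤ a i ∧
      |q.2.2 (i + 1) - q.2.2 i| ≤ a i) → MkH L T q j C P a)
    {Θ : Type} [Fintype Θ] {L : List (Lv Θ)} (hL : L.length = D.K) (hM : Mono 0 L) {j : ℕ}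
    (hj : j < D.K) {P a : ℕ → ℝ} (hP : ∀ i, cP0 * Pm D i ≤ P i ∧ (j ≤ i → D.q j ≤ P i))
    (ha : ∀ i < D.K, aa D i ≤ a i) : MkH L D.S (Rq D) j C P a := by
  have t0 := fun x => (h.tau_mem x).1
  have d0 : 0 < 1 + D.τ D.K := by linarith [t0 D.K]
  have qm := fun x => h.ook.mem (min_le_right x D.K)
  have tK := fun x => h.tau_mono (min_le_right x D.K)
  have dl : ∀ {u : ℝ}, 0 ≤ u → u / (1 + D.τ D.K) ≤ u := fun hu =>
    div_le_self hu (by linarith [t0 D.K])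
  have b0 : ∀ x, 0 ≤ D.τ (min x D.K) * D.q (min x D.K) := fun x => mul_nonneg (t0 _) (qm x).1
  have b1 : ∀ x, (Rq D).2.2 x ≤ 1 := fun x => (div_le_one d0).2 (by
    nlinarith [t0 (min x D.K), (qm x).2, tK x])
  have b2 : ∀ x, |(Rq D).2.2 x| = (Rq D).2.2 x := fun x => abs_of_nonneg (div_nonneg (b0 x) d0.le)
  have q1 := h.ook.mem hj.le
  refine HM Θ L D.S (Rq D) P a j ((N75.S_len D).trans hL.symm) hM (r1 h) (mS h)
    ((abs_of_nonneg q1.1).trans_le q1.2) (fun i => ⟨div_nonneg (t0 _) d0.le,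
      (div_le_one d0).2 (by linarith [tK i]), (b2 i).trans_le (b1 i)⟩) (hj.trans_eq hL.symm)
    (fun i => ⟨fun ε hε => ?_, fun i' hi' => ?_, fun e => (abs_of_nonneg q1.1).trans_le ((hP i).2 e)⟩)
    fun i hi => ?_
  · obtain ⟨s, a1, a2, a3⟩ := par10 h i hε
    exact ⟨s, a1, a2, a3.trans (by linarith [(hP i).1])⟩
  · refine (b2 i').trans_le (le_trans ?_ ((le_mul_of_one_le_left (Pm0 h i) cP0_one).trans (hP i).1))
    by_cases e : i ∈ D.up
    · have m := mem_up.1 e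
      refine (le_min (b1 i') ((dl (b0 i')).trans ?_)).trans (sig_Pm h e)
      exact (le_add_of_nonneg_right (h.fAcc0 _)).trans (h.sig_le (by omega) m.2.le)
    · rw [Pm, if_neg e]; exact b1 i'
  · rw [hL] at hi
    obtain ⟨a1, a2, a3, a4⟩ := aa_parts h i
    have e := ha i hi
    have e1 := vv_eq h hi
    have e2 := h.fAcc_mono i.le_succ
    have e3 : 0 ≤ D.τ (i + 1) * D.q (i + 1) - D.τ i * D.q i := sub_nonneg.2
      (mul_le_mul (h.tau_mono i.le_succ) (h.ook.mono i hi) (h.ook.mem hi.le).1 (t0 _))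
    rw [aa] at e
    simp only [Rq, min_eq_left hi.le, min_eq_left (show i + 1 ≤ D.K from hi), ← sub_div]
    rw [abs_of_nonneg (div_nonneg a2 d0.le), abs_of_nonneg (div_nonneg e3 d0.le)]
    exact ⟨by linarith, by linarith [dl a2], by linarith [dl e3]⟩

/-- **the base side on `CD`** -/
theorem bh_cd {Θ : Type} {L : List (Lv Θ)} (hL : L.length = D.K) (hM : Mono 0 L) {c₀ : ℝ}
    {p s : ℕ → ℝ} (c1 : 1 ≤ c₀) (pc : ∀ y, p y ≤ c₀) (p0 : ∀ y, 0 ≤ p y)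
    (ds : ∀ i, dm L 0 i ≤ s i) (low : ∑ z ∈ range (D.J + 1), dm L 0 z ≤ p (D.J + 1)) :
    BH L (Bt D) (D.J + 1) c₀ p s (av D) (fun y x => √(D.v y x)) (Base53.ipE wt_one90 D.B 0)
      (Base53.dV D.B (Q33.sl D.n) wt_one90 D.rb) (Base53.pV D.B (Q33.sl D.n) wt_one90)
      (Base53.PE wt_one90 D.B) := by
  have b1 := Base53.bs D.B (Q33.sl D.n) wt_one90 0 D.rb
  have b2 := fun y x t => Base53.lo3 D.B (Q33.sl D.n) wt_one90 0 D.rb (y := y) (x := x) (t := t)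
  have b3 := Bt_tr D
  simp only [uK_eq h, vt_eq h, D.B_len, ← hL] at b1 b2 b3
  exact ⟨hM, b3, b1, b2, fun _ _ => Real.sqrt_nonneg _, c1, pc, p0, ds, low⟩

theorem low_le {L : List (Lv (Cube D.n))} {j : ℕ} {ε : ℝ} (H : Pert D.B L j ε) (h0 : 0 ≤ ε)
    (hj : D.J < j) : ∑ z ∈ range (D.J + 1), dm L 0 z ≤ D.X :=
  (sum_le_sum fun z hz => dm_le H h.mono h0 (by have := mem_range.1 hz; omega)).trans
    ((h.sum_dx D.J).trans_le h.x1)

/-- tails with a bounded multiplier -/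
theorem ip_tail {θ : ℕ → ℝ} (hθ : ∀ x, |θ x| ≤ 1) {y : ℕ} (hy : D.J < y) :
    Base53.ipE wt_one90 D.B 0
      (∑ x ∈ Ico y (D.K + 1), (D.dx x * θ x) • Base53.dV D.B (Q33.sl D.n) wt_one90 D.rb x)
      (∑ x ∈ Ico y (D.K + 1), (D.dx x * θ x) • Base53.dV D.B (Q33.sl D.n) wt_one90 D.rb x) ≤
      fz D D.f0 y ^ 2 := by
  rcases le_or_gt D.K y with hK | hK
  · rw [sum_eq_zero fun x hx => by
      rw [show x = D.K by have := mem_Ico.1 hx; omega, h.top, zero_mul, zero_smul]]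
    simpa using sq_nonneg _
  have := (h.wkp.1 θ hθ y).1
  rw [CD.tail, max_eq_left (show D.J + 1 ≤ y from hy)] at this
  rw [sum_Ico_succ_top hK.le, h.top, zero_mul, zero_smul, add_zero, fz, if_pos hK,
    Base53.ip_sum_pE]
  refine le_of_eq_of_le ?_ this
  simp only [CD.nd, CD.del, ← uK_eq h, Base53.qf_uK D.B (Q33.sl D.n) wt_one90,
    sub_sub_sub_cancel_right]

theorem fz0 (y : ℕ) : 0 ≤ fz D D.f0 y := by
  unfold fz; split_ifs; exacts [h.f00 y, le_rfl]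

theorem fz_le (y : ℕ) : fz D D.f0 y ≤ D.f0 y := by
  unfold fz; split_ifs; exacts [le_rfl, h.f00 y]

/-- **weights that vanish at `j`** -/
theorem wf_cd {L : List (Lv (Cube D.n))} {j : ℕ} {ε : ℝ} (H : Pert D.B L j ε) (h0 : 0 ≤ ε)
    (h1 : ε ≤ 1) {φ : ℕ → ℝ} (hφ : ∀ x, |φ x| ≤ 1) (lw : ∀ x ≤ D.J, φ x = 0) (hj : φ j = 0) :
    Wf L (D.J + 1) (Base53.ipE wt_one90 D.B 0) (Base53.dV D.B (Q33.sl D.n) wt_one90 D.rb) φ
      (fz D D.f0) := by
  refine ⟨hφ, fun x hx => lw x (by omega), fz0 h, fun y hy => ?_⟩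
  have e : ∀ x, dm L 0 x * φ x = D.dx x * ((1 - ε) * φ x) := fun x => by
    by_cases c : x = j
    · rw [c, hj]; ring
    · rw [dm_off H c]; ring
  simp only [e, H.len, D.B_len]
  exact ip_tail h (fun x => by
    rw [abs_mul, abs_of_nonneg (by linarith)]
    exact mul_le_one₀ (by linarith) (abs_nonneg _) (hφ x)) hy

end ok

theorem nu_abs (D : CD) (j x : ℕ) : |nu D j x| ≤ 1 := by
  unfold nu nj; split_ifs <;> simp

theorem nu_low (D : CD) (j : ℕ) : ∀ x ≤ D.J, nu D j x = 0 := fun x hx => by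
  rw [nu, if_neg hx.not_gt, mul_zero]

theorem nu_self (D : CD) (j : ℕ) : nu D j j = 0 := by rw [nu, nj, if_pos rfl, zero_mul]

end Crest.Agent.T156.Cas.Q21.I23

end
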