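import Crest.Agent.T156.CQ21W_75
import Crest.Agent.T156.CQ21I_23

/-!
# Row 156 (helper75): both unmarked edges off the marked level (`NNS`)
-/

set_option autoImplicit false
set_option linter.unusedSectionVars false

noncomputable section

namespace Crest.Agent.T156.Cas.Q21

open Finset
open Crest.Agent.T157.E Crest.Agent.T157.Casc Crest.Agent.T157.SL
open Crest.Agent.T156.Cas.Q75
open Crest.Agent.T156.Cas.Q75.A10 (ind abs_wL sum_wL)
open Nu87 Wt87

namespace N75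

section gen
variable {Θ : Type} {L : List (Lv Θ)} {c B T T' : Tw} {x j : ℕ}

theorem NL_smul {κ : ℝ} (h3 : ∀ σ, T.f3 σ = κ * T'.f3 σ) (h4 : ∀ σ, T.f4 σ = κ * T'.f4 σ) :
    NL L T = κ * NL L T' := by
  have l1 : ∀ y x, T.lo L.length y x = fun t => κ * T'.lo L.length y x t := fun y x => by
    funext t; unfold Tw.lo; split_ifs; exacts [h3 _, h4 _]
  have l2 : ∀ y x, T.tr.lo L.length y x = fun t => κ * T'.tr.lo L.length y x t := fun y x => by
    funext t; unfold Tw.lo; split_ifs; exacts [h3 _, h4 _]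
  have l3 : ∀ z x k, T.off L.length z x k = κ * T'.off L.length z x k := fun _ _ _ => h4 _
  have e1 : ∀ y x, LO L T y x = κ * LO L T' y x := fun y x => by
    simp only [LO, cP, l1, Lg_mul, Lx_mul]; ring
  have e2 : ∀ y x, LO L T.tr y x = κ * LO L T'.tr y x := fun y x => by
    simp only [LO, cP, l2, Lg_mul, Lx_mul]; ring
  simp only [NL, NLx, e1, e2, l3, mul_left_comm _ κ, ← mul_sum, ← mul_add]

theorem SN_diffW (hx : x ≤ L.length) {a v μ : ℕ → ℝ} {m : ℝ} (a0 : ∀ t, 0 ≤ a t)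
    (hm : ∑ t ∈ Ico x (L.length + 2), |wL L x t| * μ t ≤ m)
    (hc : ∀ t t', x ≤ t → t ≤ L.length + 1 → x ≤ t' → t' ≤ L.length + 1 →
      |c.sN L.length x t t'| * v t ≤ a t * μ t' ∧ |c.sN L.length x t t'| * v t' ≤ a t' * μ t)
    (hB : ∀ t t', x ≤ t → t ≤ L.length + 1 → x ≤ t' → t' ≤ L.length + 1 →
      |B.sN L.length x t t' - B.sN L.length x (L.length + 1) (L.length + 1)| ≤ v t + v t') :
    |SN L (c.mul B) x - SN L c x * B.sN L.length x (L.length + 1) (L.length + 1)| ≤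
      2 * m * ∑ t ∈ Ico x (L.length + 2), |wL L x t| * a t := by
  have e : SN L (c.mul B) x - SN L c x * B.sN L.length x (L.length + 1) (L.length + 1) =
      ∑ t ∈ Ico x (L.length + 2), ∑ t' ∈ Ico x (L.length + 2), wL L x t * wL L x t' *
        (c.sN L.length x t t' *
          (B.sN L.length x t t' - B.sN L.length x (L.length + 1) (L.length + 1))) := by
    simp only [SN, Lx_eq L hx, sN_mul, mul_sum, sum_mul, ← sum_sub_distrib]
    exact sum_congr rfl fun _ _ => sum_congr rfl fun _ _ => by ring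
  rw [e]
  refine (abs_sum_le_sum_abs _ _).trans ((sum_le_sum (g := fun t => ∑ t' ∈ Ico x (L.length + 2),
    (|wL L x t| * a t * (|wL L x t'| * μ t') + |wL L x t| * μ t * (|wL L x t'| * a t'))) fun t ht =>
      (abs_sum_le_sum_abs _ _).trans (sum_le_sum fun t' ht' => ?_)).trans ?_)
  · have m := mem_Ico.1 ht
    have m' := mem_Ico.1 ht'
    have h1 := hc t t' m.1 (by omega) m'.1 (by omega)
    have h2 := mul_le_mul_of_nonneg_left (hB t t' m.1 (by omega) m'.1 (by omega))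
      (abs_nonneg (c.sN L.length x t t'))
    rw [abs_mul, abs_mul, abs_mul]
    have h3 := mul_le_mul_of_nonneg_left (h2.trans (show _ ≤ a t * μ t' + a t' * μ t by
      linarith [h1.1, h1.2])) (mul_nonneg (abs_nonneg (wL L x t)) (abs_nonneg (wL L x t')))
    linarith
  · simp only [sum_add_distrib, ← mul_sum, ← sum_mul]
    have := mul_le_mul_of_nonneg_right hm (sum_nonneg fun t (_ : t ∈ Ico x (L.length + 2)) =>
      mul_nonneg (abs_nonneg (wL L x t)) (a0 t))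
    linarith

theorem sum_ind (A : Finset ℕ) (g : ℕ → ℝ) :
    ∑ t ∈ A, g t * ind j t = if j ∈ A then g j else 0 := by
  simp only [ind, mul_ite, mul_one, mul_zero, sum_ite_eq']

/-- same node, off the marked level -/
theorem SN_off (hM : Mono 0 L) {C : ℝ} {P v : ℕ → ℝ} (S : SnR L c j C P) (hx : x ≤ L.length)
    (hxj : x ≠ j) (hj : j ≤ L.length) (d0 : 0 < dm L 0 j) (hC : 0 ≤ C) (P0 : ∀ t, 0 ≤ P t)
    (v0 : ∀ t, 0 ≤ v t) (v1 : v (L.length + 1) = 0)
    (hB : ∀ t t', x ≤ t → t ≤ L.length + 1 → x ≤ t' → t' ≤ L.length + 1 →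
      |B.sN L.length x t t' - B.sN L.length x (L.length + 1) (L.length + 1)| ≤ v t + v t') :
    |SN L (c.mul B) x - SN L c x * B.sN L.length x (L.length + 1) (L.length + 1)| ≤
      6 * C * dm L 0 j * (ex L x * (P x * v x) + ∑ t ∈ Ioc x L.length, dm L 0 t * (P t * v t) +
        2 * if x < j then v j else 0) := by
  have d1 : dm L 0 j ≤ 1 := by
    simpa using sum_dm_le_one hM (A := {j}) (by simpa using Nat.lt_succ_of_le hj)
  have i0 : ∀ t, 0 ≤ ind j t := fun t => by unfold ind; split_ifs <;> norm_num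
  have ix : ind j x = 0 := if_neg hxj
  have iK : ind j (L.length + 1) = 0 := if_neg (by omega)
  have k : ∀ {u : ℝ} {t t' : ℕ}, t ≤ L.length + 1 → u ≤ C * (dm L 0 j + ind j t + ind j t') →
      (t ≠ j → t ≤ L.length → u ≤ C * (dm L 0 j + ind j t') * P t) →
      u * v t ≤ C * (P t * v t + (1 + 1 / dm L 0 j) * v j * ind j t) * (dm L 0 j + ind j t') :=
    fun {u t t'} ht h1 h2 => by
      have := i0 t'
      by_cases e : t = j
      · subst e
        rw [show ind t t = 1 from if_pos rfl] at h1 ⊢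
        have h3 : dm L 0 t + 1 + ind t t' ≤ (1 + 1 / dm L 0 t) * (dm L 0 t + ind t t') := by
          have : 1 / dm L 0 t * dm L 0 t = 1 := by field_simp
          nlinarith [mul_nonneg (one_div_pos.2 d0).le (i0 t')]
        have h4 := mul_le_mul_of_nonneg_right (h1.trans (mul_le_mul_of_nonneg_left h3 hC)) (v0 t)
        have h5 : 0 ≤ C * (P t * v t) * (dm L 0 t + ind t t') := by
          have := P0 t; have := v0 t; positivity
        linarith
      · rw [show ind j t = 0 from if_neg e, mul_zero, add_zero]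
        rcases ht.lt_or_eq with c | c
        · exact (mul_le_mul_of_nonneg_right (h2 e (by omega)) (v0 t)).trans_eq (by ring)
        · rw [c, v1]; simp
  have H := SN_diffW (c := c) hx (v := v) (μ := fun t => dm L 0 j + ind j t) (m := 3 * dm L 0 j)
    (a := fun t => C * (P t * v t + (1 + 1 / dm L 0 j) * v j * ind j t))
    (fun t => by have := P0 t; have := v0 t; have := v0 j; have := i0 t; positivity)
    (by
      rw [abs_wL hM hx]
      simp only [ix, iK, mul_add, sum_add_distrib, ← sum_mul, sum_Ioc_dm hx, sum_ind]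
      split_ifs <;> linarith)
    (fun t t' h1 h2 h3 h4 => by
      have g := S.nn x t t' hxj h1 h3 hx h2 h4
      exact ⟨k h2 g.1 g.2.1, k h4 (g.1.trans_eq (by ring)) g.2.2⟩) hB
  refine H.trans ?_
  rw [abs_wL hM hx]
  simp only [ix, iK, v1, mul_zero, add_zero, zero_add, mul_left_comm _ C, ← mul_sum, mul_add,
    sum_add_distrib, ← mul_assoc (dm L 0 _) _ (ind j _), sum_ind, mem_Ioc, hj, and_true]
  have h6 : 0 ≤ C * dm L 0 j * v j := by have := v0 j; positivity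
  split_ifs
  · have : dm L 0 j * ((1 + 1 / dm L 0 j) * v j) = (dm L 0 j + 1) * v j := by field_simp
    rw [this]
    nlinarith [mul_le_mul_of_nonneg_left d1 h6]
  · linarith

end gen

section cd
open C40 C40.Q10 C40.N75 C40.CD
open Q33 (sl)

variable {D : CD} {τ0 : ℝ} {j : ℕ}

/-- the part of the error that reads the weights -/
def GE (D : CD) (j : ℕ) (d m : ℕ → ℝ) : ℝ :=
  ∑ y ∈ D.up, d y * (D.e y ^ 2 * D.v y y) +
  ∑ x ∈ D.up, ∑ y ∈ Ico (D.J + 1) (x + 1), d x * d y * (D.e y * (√(D.v y x) * √(D.v x x))) +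
  ∑ x ∈ D.up, d x * (m x * (D.e x * D.v x x) + ∑ t ∈ Ioo x D.K, d t * (D.e t * D.v x t) +
    if x < j then D.v x j else 0) + ∑ x ∈ D.up, d x ^ 2

theorem GE_le (h : D.Ok τ0) : GE D j D.dx (ex D.B) ≤
    4 * D.E0 + ∑ y ∈ Finset.Ico 1 j, D.dx y * D.v y j := by
  have t5 : ∑ x ∈ D.up, ∑ y ∈ Ico (D.J + 1) (x + 1),
      D.dx x * D.dx y * (D.e y * (√(D.v y x) * √(D.v x x))) ≤
      D.I (fun t => D.e t ^ 2 * D.v t t) +
        D.I fun t => D.e t * ∑ y ∈ Ico 1 t, D.dx y * D.v y t := by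
    simp only [mul_assoc (D.dx _), ← mul_sum]
    rw [← D.I_add]
    refine h.I_mono fun x hx => ?_
    have hx' := mem_up.1 hx
    have e0 := h.e0 x
    have v0 := D.v0 x x
    have k1 : ∑ y ∈ Ico (D.J + 1) (x + 1), D.dx y ≤ D.e x :=
      (h.sum_dx_le fun i hi => Nat.lt_succ_iff.1 (mem_Ico.1 hi).2).trans (Q10.ex_le h hx)
    have k2 : D.dx x ≤ D.e x := by
      simpa using (h.sum_dx_le (A := {x}) (by simp)).trans (Q10.ex_le h hx)
    have k3 : ∑ y ∈ Ico (D.J + 1) x, D.dx y * D.v y x ≤ ∑ y ∈ Ico 1 x, D.dx y * D.v y x :=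
      sum_le_sum_of_subset_of_nonneg (Ico_subset_Ico_left (by omega))
        fun y _ _ => mul_nonneg (h.dx0 y) (D.v0 y x)
    have k4 := h.sv_low0 (Ico 1 x) x
    refine (sum_le_sum (g := fun y => D.e x / 2 * (D.dx y * D.v y x + D.dx y * D.v x x))
      fun y hy => ?_).trans ?_
    · have hy' := mem_Ico.1 hy
      have k6 : √(D.v y x) * √(D.v x x) ≤ (D.v y x + D.v x x) / 2 := by
        nlinarith [sq_nonneg (√(D.v y x) - √(D.v x x)), Real.sq_sqrt (D.v0 y x), Real.sq_sqrt v0]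
      exact (mul_le_mul_of_nonneg_left (mul_le_mul (h.e_mono (show y ≤ x by omega)) k6
        (by positivity) e0) (h.dx0 y)).trans_eq (by ring)
    · rw [← mul_sum, sum_add_distrib, ← sum_mul, sum_Ico_succ_top hx'.1]
      have k7 := mul_le_mul_of_nonneg_right k1 v0
      have k8 := mul_le_mul_of_nonneg_right k2 v0
      have k9 := mul_le_mul_of_nonneg_left (add_le_add (add_le_add k3 k8) k7)
        (show 0 ≤ D.e x / 2 by positivity)
      nlinarith [mul_nonneg e0 k4]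
  have t6 : ∑ x ∈ D.up, D.dx x * (ex D.B x * (D.e x * D.v x x) +
      ∑ t ∈ Ioo x D.K, D.dx t * (D.e t * D.v x t)) ≤ D.E0 :=
    le_trans (h.I_mono fun x hx => by
      nlinarith [mul_le_mul_of_nonneg_right (Q10.ex_le h hx) (mul_nonneg (h.e0 x) (D.v0 x x))])
      (sum_lad h)
  have t7 : ∑ x ∈ D.up, D.dx x * (if x < j then D.v x j else 0) ≤
      ∑ y ∈ Finset.Ico 1 j, D.dx y * D.v y j := by
    simp only [mul_ite, mul_zero]
    rw [← sum_filter]
    refine sum_le_sum_of_subset_of_nonneg (fun x hx => ?_)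
      fun y _ _ => mul_nonneg (h.dx0 y) (D.v0 y j)
    simp only [mem_filter, mem_Ico, mem_Ioo] at hx ⊢
    omega
  obtain ⟨l1, l2, l3⟩ := h.Lad0_parts
  have l4 := h.Lad0_le
  have l5 := h.dx_le
  rw [CD.Lad0] at l4
  simp only [CD.I, ← sq] at l2 l3 l4 l5 t5
  simp only [GE, mul_add (D.dx _) (_ + _), sum_add_distrib]
  linarith

theorem sum_bad (h : D.Ok τ0) (hj : j ∈ D.up) {a g : ℕ → ℝ} {c : ℝ} (hc : 0 ≤ c)
    (hg : ∀ y, 0 ≤ g y) (hg' : g (j + 1) ≤ g j)
    (ha : ∀ i, D.J < i → i + 1 < D.K → a i ≤ c * D.dv (i + 1)) :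
    ∑ i ∈ Ico (D.J + 1) D.K, (a i + if Bad j D.K i then 1 else 0) * fz D g (i + 1) ≤
      c * D.sv g D.J + 2 * g j := by
  have m := mem_up.1 hj
  have h1 : ∑ i ∈ Ico (D.J + 1) D.K, D.dv (i + 1) * fz D g (i + 1) ≤ D.sv g D.J := by
    rw [sum_Ico_add' (fun j => D.dv j * fz D g j)]
    simp only [fz, mul_ite, mul_zero]
    rw [← sum_filter]
    refine sum_le_sum_of_subset_of_nonneg (fun j hj => ?_)
      fun j hj _ => mul_nonneg (h.dv0 (mem_Ioo.1 hj).2.le) (hg j)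
    simp only [mem_filter, mem_Ico, mem_Ioo] at hj ⊢
    omega
  have h2 : ∑ i ∈ Ico (D.J + 1) D.K, g j * (ind j i + ind (j - 1) i) ≤ 2 * g j := by
    simp only [mul_add, sum_add_distrib, sum_ind (g := fun _ => g j)]
    have := hg j
    split_ifs <;> linarith
  refine le_trans ?_ (add_le_add (mul_le_mul_of_nonneg_left h1 hc) h2)
  rw [mul_sum, ← sum_add_distrib]
  refine sum_le_sum fun i hi => ?_
  have hi' := mem_Ico.1 hi
  have g0 := hg j
  unfold fz
  split_ifs with b e e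
  · have := mul_le_mul_of_nonneg_right (ha i hi'.1 e) (hg (i + 1))
    rcases b with rfl | rfl | b
    · rw [ind, ind, if_pos rfl, if_neg (by omega)]; linarith
    · rw [ind, ind, if_neg (by omega), if_pos (by omega)]; linarith
    · omega
  · unfold ind; split_ifs <;> linarith
  · have := mul_le_mul_of_nonneg_right (ha i hi'.1 e) (hg (i + 1))
    unfold ind; split_ifs <;> linarith
  · unfold ind; split_ifs <;> linarith

theorem nu_nj (D : CD) (j x : ℕ) : nu D j x * nj j x = nu D j x := by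
  unfold nu nj; split_ifs <;> simp

theorem abs_nu (D : CD) (j x : ℕ) : |nu D j x| ≤ 1 := by
  unfold nu nj; split_ifs <;> simp

variable {L : List (Lv (Cube D.n))} {ε : ℝ} {q : Rf} {C C' c : ℝ} {P a : ℕ → ℝ}

theorem cM_cN (d0 : 0 < dm L 0 j) {φ : ℕ → ℝ} (hφ : ∀ x, φ x * nj j x = φ x) (B : Tw) :
    NL L (((wt φ φ).mul (cM L D.S q j)).mul B) =
      dm L 0 j * NL L (((wt φ φ).mul (cN L D.S q j)).mul B) := by
  have k : ∀ x y (u v : ℝ), φ x * φ y * u * v =
      dm L 0 j * (φ x * φ y * (nj j x / dm L 0 j * nj j y * u) * v) := fun x y u v => by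
    conv_lhs => rw [← hφ x, ← hφ y]
    field_simp
  exact NL_smul (fun _ => k _ _ _ _) fun _ => k _ _ _ _

theorem cN_tr (H : (cM L D.S q j).tr.Eqv (cM L D.S q j) L.length) :
    (cN L D.S q j).tr.Eqv (cN L D.S q j) L.length := by
  refine ⟨fun _ _ => rfl, fun σ hσ => ?_, fun σ hσ => ?_⟩
  · show nj j (σ 1 0) / _ * nj j (σ 2 1) * (cM L D.S q j).tr.f3 σ =
      nj j (σ 1 2) / _ * nj j (σ 0 1) * (cM L D.S q j).f3 σ
    rw [H.2.1 σ hσ, hσ.comm 1 0, hσ.comm 2 1]; ring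
  · show nj j (σ 0 1) / _ * nj j (σ 2 3) * (cM L D.S q j).tr.f4 σ =
      nj j (σ 2 3) / _ * nj j (σ 0 1) * (cM L D.S q j).f4 σ
    rw [H.2.2 σ hσ]; ring

section eps
variable (h : D.Ok τ0) (hj : j ∈ D.up) (hP : Pert D.B L j ε) (e0 : 0 < ε) (e1 : ε ≤ 1)
include h hj hP e0 e1

theorem len : L.length = D.K := hP.len.trans D.B_len

theorem dm_pos : 0 < dm L 0 j := by
  rw [hP.dm, ind, if_pos rfl]
  nlinarith [h.dx0 j]

theorem dm_off {i : ℕ} (hi : i ≠ j) : dm L 0 i = (1 - ε) * D.dx i := by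
  rw [hP.dm, ind, if_neg hi, mul_zero, add_zero]

theorem dm_top : dm L 0 D.K = 0 := by
  rw [dm_off h hj hP e0 e1 (mem_up.1 hj).2.ne', h.top, mul_zero]

theorem sum_up {g : ℕ → ℝ} :
    ∑ y ∈ Ico (D.J + 1) (D.K + 1), dm L 0 y * g y = ∑ y ∈ D.up, dm L 0 y * g y := by
  rw [sum_Ico_succ_top (show D.J + 1 ≤ D.K from h.cut), dm_top h hj hP e0 e1, zero_mul, add_zero]
  rfl

theorem wf : Wf L (D.J + 1) (Base53.ipE wt_one90 D.B 0) (Base53.dV D.B (sl D.n) wt_one90 D.rb)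
    (nu D j) (fz D D.f0) := by
  refine ⟨abs_nu D j, fun x hx => by rw [nu, if_neg (by omega), mul_zero], fun y => ?_,
    fun y hy => ?_⟩
  · unfold fz
    split_ifs
    exacts [h.f00 y, le_rfl]
  rw [len h hj hP e0 e1]
  rcases le_or_gt D.K y with hK | hK
  · rw [sum_eq_zero fun x hx => by
      rw [show x = D.K by have := mem_Ico.1 hx; omega, dm_top h hj hP e0 e1, zero_mul, zero_smul]]
    simpa using sq_nonneg _
  have H := (h.wkp.1 (fun x => (1 - ε) * nu D j x) (fun x => by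
    rw [abs_mul, abs_of_nonneg (sub_nonneg.2 e1)]
    nlinarith [abs_nu D j x, abs_nonneg (nu D j x)]) y).1
  rw [CD.tail, max_eq_left hy] at H
  rw [sum_Ico_succ_top hK.le, dm_top h hj hP e0 e1, zero_mul, zero_smul, add_zero, fz, if_pos hK,
    Base53.ip_sum_pE]
  refine le_of_eq_of_le ?_ H
  simp only [CD.nd, CD.del, ← uK_eq h, Base53.qf_uK D.B (sl D.n) wt_one90, sub_sub_sub_cancel_right]
  congr 1
  funext g _
  congr 1
  refine sum_congr rfl fun x _ => ?_
  by_cases e : x = j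
  · simp [nu, nj, e]
  · rw [dm_off h hj hP e0 e1 e]; ring

theorem nw (hC : 2 ≤ C) (hc : 1 ≤ c)
    (R : RegW L (cN L D.S q j) (D.J + 1) C (fun y => C * P y)
      (fun i => C * (a i + if Bad j L.length i then 1 else 0)) (omg L j))
    (H : (cM L D.S q j).tr.Eqv (cM L D.S q j) L.length) (P0 : ∀ i, 0 ≤ P i ∧ P i ≤ c)
    (PX : D.X ≤ P (D.J + 1)) (a0 : ∀ i, 0 ≤ a i)
    (ad : ∀ i, ¬ Bad j L.length i → dm L 0 i + dm L 0 (i + 1) ≤ a i) :
    NW L (cN L D.S q j) (Bt D) (D.J + 1) (C * c) (fun y => C * P y)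
      (fun i => C * (a i + if Bad j L.length i then 1 else 0)) (fun y => √(D.v y y)) (omg L j)
      (fun y x => √(D.v y x)) (Base53.ipE wt_one90 D.B 0) (Base53.dV D.B (sl D.n) wt_one90 D.rb)
      (Base53.pV D.B (sl D.n) wt_one90) (Base53.PE wt_one90 D.B) := by
  have b1 := Base53.bs D.B (sl D.n) wt_one90 0 D.rb
  have b2 := fun y x t => Base53.lo3 D.B (sl D.n) wt_one90 0 D.rb (y := y) (x := x) (t := t)
  have b3 := Bt_tr D
  simp only [uK_eq h, vt_eq h] at b1 b2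
  rw [← hP.len] at b1 b2 b3
  have m := mem_up.1 hj
  have hK := len h hj hP e0 e1
  have d0 := dm_pos h hj hP e0 e1
  have dn := dm_nonneg hP.mono
  have w1 : ∀ t, 1 ≤ omg L j t := fun t => by
    unfold omg
    split_ifs
    exacts [le_add_of_nonneg_right (by positivity), le_rfl]
  have w2 : ∀ t, dm L 0 t * omg L j t = dm L 0 t + 1 * ind j t := fun t => by
    unfold omg ind
    split_ifs with e
    · rw [e]; field_simp
    · ring
  have d1 : ∀ i ≤ L.length, dm L 0 i ≤ 1 := fun i hi => by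
    simpa using sum_dm_le_one hP.mono (A := {i}) (by simpa using Nat.lt_succ_of_le hi)
  have dw : ∀ i, dm L 0 i * omg L j i ≤ C * (a i + if Bad j L.length i then 1 else 0) := fun i => by
    have := a0 i
    rw [w2]
    split_ifs with b
    · have := d1 i (by unfold Bad at b; omega)
      have : ind j i ≤ 1 := by unfold ind; split_ifs <;> norm_num
      nlinarith
    · rw [ind, if_neg fun e => b (Or.inl e)]
      nlinarith [ad i b, dn (i + 1)]
  refine ⟨⟨hP.mono, b3, b1, b2, fun _ _ => Real.sqrt_nonneg _, by nlinarith,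
    fun y => mul_le_mul_of_nonneg_left (P0 y).2 (by linarith),
    fun y => mul_nonneg (by linarith) (P0 y).1,
    fun i => (le_mul_of_one_le_right (dn i) (w1 i)).trans (dw i), ?_⟩, cN_tr H,
    { R with o0 := fun z x k h1 h2 h3 h4 h5 h6 => (R.o0 z x k h1 h2 h3 h4 h5 h6).trans
              (mul_le_mul_of_nonneg_left (by nlinarith) (zero_le_one.trans (w1 z))) },
    w1, if_neg (by omega), fun z hz => if_neg (by omega), dw, ?_⟩
  · rw [sum_congr rfl fun z hz => dm_off h hj hP e0 e1 (by have := mem_range.1 hz; omega), ← mul_sum,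
      h.sum_dx]
    nlinarith [h.x1, h.ex0 D.J, h.X0]
  · simp only [w2, sum_add_distrib, sum_ind (g := fun _ => (1 : ℝ))]
    have := sum_dm_le_one hP.mono (subset_refl _)
    split_ifs <;> linarith

theorem er2 (hC : 0 ≤ C) (hc : 0 ≤ c) (P0 : ∀ i, 0 ≤ P i) (Pe : ∀ i ∈ D.up, P i ≤ c * D.e i)
    (a0 : ∀ i, 0 ≤ a i) (av : ∀ i, D.J < i → i + 1 < D.K → a i ≤ c * D.dv (i + 1)) :
    Er2 L (D.J + 1) (fun y => C * P y) (fun i => C * (a i + if Bad j L.length i then 1 else 0))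
      (fun y => √(D.v y y)) (fun y x => √(D.v y x)) (fz D D.f0) (fz D D.f0) ≤
      (4 * (C * c) + 4 * (C * c) ^ 2 + 16 * C ^ 2 + 4 * C) *
        (D.VF + D.f0 j * (D.f0 j + D.sv D.f0 D.J)) + ((C * c) ^ 2 + C * c) *
        (∑ y ∈ D.up, dm L 0 y * (D.e y ^ 2 * D.v y y) + ∑ x ∈ D.up, ∑ y ∈ Ico (D.J + 1) (x + 1),
          dm L 0 x * dm L 0 y * (D.e y * (√(D.v y x) * √(D.v x x)))) := by
  have dn := dm_nonneg hP.mono
  have sq : ∀ y, fz D D.f0 y ^ 2 = fz D (fun j => D.f0 j ^ 2) y := fun y => by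
    unfold fz; split_ifs <;> simp
  have s0 := h.sv0 (F := fun j => D.f0 j ^ 2) (fun _ => sq_nonneg _) D.J
  have s1 := h.sv0 h.f00 D.J
  have f0 := h.f00 j
  have hm : D.J + 1 ∈ D.up := by have := mem_up.1 hj; exact mem_up.2 (by omega)
  have t1 : P (D.J + 1) * fz D (fun j => D.f0 j ^ 2) (D.J + 1) ≤
      c * D.sv (fun j => D.f0 j ^ 2) D.J := by
    rw [fz, if_pos (mem_up.1 hm).2]
    refine le_trans ?_ (mul_le_mul_of_nonneg_left (single_le_sum (f := fun t => D.dv t * D.f0 t ^ 2)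
      (fun t ht => mul_nonneg (h.dv0 (mem_up.1 ht).2.le) (sq_nonneg _)) hm) hc)
    rw [CD.dv, if_pos le_rfl, ← mul_assoc]
    exact mul_le_mul_of_nonneg_right (Pe _ hm) (sq_nonneg _)
  have t2 := pow_le_pow_left₀ (sum_nonneg fun i _ => mul_nonneg
    (add_nonneg (a0 i) (by split_ifs <;> norm_num))
    (show 0 ≤ fz D D.f0 (i + 1) by unfold fz; split_ifs; exacts [h.f00 _, le_rfl]))
    (sum_bad h hj hc h.f00 (h.wk0.anti j).2 av) 2
  have t3 := sum_bad h hj hc (g := fun j => D.f0 j ^ 2) (fun _ => sq_nonneg _)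
    (pow_le_pow_left₀ (h.f00 _) (h.wk0.anti j).2 2) av
  have pe : ∀ y ∈ D.up, C * P y ≤ C * c * D.e y := fun y hy => by
    rw [mul_assoc]; exact mul_le_mul_of_nonneg_left (Pe y hy) hC
  have t4 : ∑ y ∈ Ico (D.J + 1) (D.K + 1), dm L 0 y * (C * P y * √(D.v y y)) ^ 2 ≤
      (C * c) ^ 2 * ∑ y ∈ D.up, dm L 0 y * (D.e y ^ 2 * D.v y y) := by
    rw [sum_up h hj hP e0 e1, mul_sum]
    refine sum_le_sum fun t ht => ?_
    rw [mul_pow, Real.sq_sqrt (D.v0 t t)]
    exact (mul_le_mul_of_nonneg_left (mul_le_mul_of_nonneg_right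
      (pow_le_pow_left₀ (mul_nonneg hC (P0 t)) (pe t ht) 2) (D.v0 t t)) (dn t)).trans_eq (by ring)
  have t5 : ∑ x ∈ Ico (D.J + 1) (D.K + 1), ∑ y ∈ Ico (D.J + 1) (x + 1),
      dm L 0 x * dm L 0 y * (C * P y * (√(D.v y x) * √(D.v x x))) ≤
      C * c * ∑ x ∈ D.up, ∑ y ∈ Ico (D.J + 1) (x + 1),
        dm L 0 x * dm L 0 y * (D.e y * (√(D.v y x) * √(D.v x x))) := by
    simp only [mul_assoc (dm L 0 _), ← mul_sum]
    rw [sum_up h hj hP e0 e1, mul_sum]
    refine sum_le_sum fun x hx => ?_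
    rw [mul_left_comm (C * c), mul_sum _ _ (C * c)]
    refine mul_le_mul_of_nonneg_left (sum_le_sum fun y hy => ?_) (dn x)
    have := mem_up.1 hx
    have := mem_Ico.1 hy
    exact (mul_le_mul_of_nonneg_left (mul_le_mul_of_nonneg_right (pe y (mem_up.2 (by omega)))
      (show 0 ≤ √(D.v y x) * √(D.v x x) by positivity)) (dn y)).trans_eq (by ring)
  have n4 : 0 ≤ ∑ y ∈ D.up, dm L 0 y * (D.e y ^ 2 * D.v y y) :=
    sum_nonneg fun y _ => mul_nonneg (dn y) (mul_nonneg (sq_nonneg _) (D.v0 y y))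
  have n5 : 0 ≤ ∑ x ∈ D.up, ∑ y ∈ Ico (D.J + 1) (x + 1),
      dm L 0 x * dm L 0 y * (D.e y * (√(D.v y x) * √(D.v x x))) :=
    sum_nonneg fun x _ => sum_nonneg fun y _ => mul_nonneg (mul_nonneg (dn x) (dn y))
      (mul_nonneg (h.e0 y) (by positivity))
  rw [Er2, len h hj hP e0 e1, CD.VF]
  simp only [← two_mul, mul_left_comm _ (2 : ℝ), mul_assoc C (_ + _), ← mul_sum, sq]
  have u1 := mul_le_mul_of_nonneg_left t1 hC
  have u2 := mul_le_mul_of_nonneg_left (t2.trans (show _ ≤ 2 * (c * D.sv D.f0 D.J) ^ 2 +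
    8 * D.f0 j ^ 2 by nlinarith [sq_nonneg (c * D.sv D.f0 D.J - 2 * D.f0 j)])) (sq_nonneg C)
  have u3 := mul_le_mul_of_nonneg_left t3 hC
  have cc := mul_nonneg hC hc
  have fs := mul_nonneg f0 s1
  nlinarith [mul_nonneg cc (sq_nonneg (D.sv D.f0 D.J)), mul_nonneg cc (sq_nonneg (D.f0 j)),
    mul_nonneg cc fs, mul_nonneg (sq_nonneg (C * c)) s0, mul_nonneg (sq_nonneg (C * c)) fs,
    mul_nonneg (sq_nonneg (C * c)) (sq_nonneg (D.f0 j)), mul_nonneg (sq_nonneg C) s0,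
    mul_nonneg (sq_nonneg C) fs, mul_nonneg (sq_nonneg C) (sq_nonneg (D.sv D.f0 D.J)),
    mul_nonneg hC s0, mul_nonneg hC fs, mul_nonneg hC (sq_nonneg (D.sv D.f0 D.J)),
    mul_nonneg cc n4, mul_nonneg (sq_nonneg (C * c)) n5]

theorem sn_le (hC : 0 ≤ C') (hc : 2 ≤ c) (S : SnR L (cM L D.S q j) j C' P) (P0 : ∀ i, 0 ≤ P i)
    (Pe : ∀ i ∈ D.up, P i ≤ c * D.e i) {x : ℕ} (hx : x ∈ D.up) (hxj : x ≠ j) :
    |SN L ((cM L D.S q j).mul (Bt D)) x - SN L (cM L D.S q j) x * (D.u 2 x - D.del x ^ 2)| ≤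
      6 * C' * dm L 0 j * (c * (ex L x * (D.e x * D.v x x) +
        ∑ t ∈ Ioo x D.K, dm L 0 t * (D.e t * D.v x t) + if x < j then D.v x j else 0)) := by
  have m := mem_up.1 hx
  have m' := mem_up.1 hj
  have hK := len h hj hP e0 e1
  have hB := D.B_len
  have dn := dm_nonneg hP.mono
  set V := A10.vv (fun _ => 1) D.B (sl D.n) 0 x with hV
  have eV : ∀ t ≤ D.K, V t = D.v x t := fun t ht => by
    rw [hV, A10.vv, if_pos (by omega), vt_eq h]
  have H := SN_off (B := Bt D) hP.mono S (x := x) (by omega) hxj (by omega) (dm_pos h hj hP e0 e1) hC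
    P0 (v := V) (fun t => by
      rw [hV, A10.vv]
      split_ifs
      exacts [(vt_eq h x t).ge.trans' (D.v0 x t), le_rfl]) (if_neg (by omega))
    fun t t' a1 a2 a3 a4 => by
      have := A10.sN_leg wt_one90 0 (sl D.n) D.rb (L := D.B) (x := x) (by omega) a1 (by omega) a3
        (by omega)
      rwa [uK_eq h, ← hP.len] at this
  rw [hP.len, var_eq D (by omega), ← hP.len] at H
  refine H.trans (mul_le_mul_of_nonneg_left ?_ (mul_nonneg (by linarith) (dn j)))
  rw [hK, ← Finset.Ioo_insert_right m.2, sum_insert (by simp), dm_top h hj hP e0 e1, zero_mul,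
    zero_add, eV x m.2.le, eV j m'.2.le, mul_add, mul_add, mul_sum]
  refine add_le_add (add_le_add ?_ (sum_le_sum fun t ht => ?_)) ?_
  · exact (mul_le_mul_of_nonneg_left (mul_le_mul_of_nonneg_right (Pe x hx) (D.v0 x x))
      (ex_nonneg hP.mono x)).trans_eq (by ring)
  · have := mem_Ioo.1 ht
    rw [eV t this.2.le]
    exact (mul_le_mul_of_nonneg_left (mul_le_mul_of_nonneg_right (Pe t (mem_up.2 (by omega)))
      (D.v0 x t)) (dn t)).trans_eq (by ring)
  · exact mul_le_mul_of_nonneg_right hc (by split_ifs; exacts [D.v0 x j, le_rfl])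

/-- the bound at the perturbed weights -/
theorem nn_eps (hC : 2 ≤ C) (hC' : 0 ≤ C') (hc : 2 ≤ c)
    (R : RegW L (cN L D.S q j) (D.J + 1) C (fun y => C * P y)
      (fun i => C * (a i + if Bad j L.length i then 1 else 0)) (omg L j))
    (S : SnR L (cM L D.S q j) j C' P) (H : (cM L D.S q j).tr.Eqv (cM L D.S q j) L.length)
    (P0 : ∀ i, 0 ≤ P i ∧ P i ≤ c) (PX : D.X ≤ P (D.J + 1)) (Pe : ∀ i ∈ D.up, P i ≤ c * D.e i)
    (a0 : ∀ i, 0 ≤ a i) (ad : ∀ i, ¬ Bad j L.length i → dm L 0 i + dm L 0 (i + 1) ≤ a i)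
    (av : ∀ i, D.J < i → i + 1 < D.K → a i ≤ c * D.dv (i + 1)) :
    |NL L (((wt (nu D j) (nu D j)).mul (cM L D.S q j)).mul (Bt D)) +
      ∑ x ∈ D.up, nu D j x * nu D j x * (2 * (dm L 0 x * (SN L ((cM L D.S q j).mul (Bt D)) x -
        SN L (cM L D.S q j) x * (D.u 2 x - D.del x ^ 2))) -
        (D.u 2 x - D.del x ^ 2) * NL L ((wt (ind x) (ind x)).mul (cM L D.S q j)))| ≤
      dm L 0 j * ((100 * (C * c) * (4 * (C * c) + 4 * (C * c) ^ 2 + 16 * C ^ 2 + 4 * C + 4) +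
        12 * (C' * c)) *
        (D.VF + D.f0 j * (D.f0 j + D.sv D.f0 D.J) + GE D j (dm L 0) (ex L))) := by
  have G := nw h hj hP e0 e1 hC (by linarith) R H P0 PX a0 ad
  have W := wf h hj hP e0 e1
  have hK := len h hj hP e0 e1
  have d0 := dm_pos h hj hP e0 e1
  have dn := dm_nonneg hP.mono
  have cc : 0 ≤ C * c := by positivity
  have k1 := (G.bd W W (by have := h.cut; omega)).trans (mul_le_mul_of_nonneg_left
    (er2 h hj hP e0 e1 (by linarith) (by linarith) (fun i => (P0 i).1) Pe a0 av) (by positivity))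
  have n3 : ∀ x, 0 ≤ ex L x * (D.e x * D.v x x) +
      ∑ t ∈ Ioo x D.K, dm L 0 t * (D.e t * D.v x t) + if x < j then D.v x j else 0 := fun x =>
    add_nonneg (add_nonneg (mul_nonneg (ex_nonneg hP.mono x) (mul_nonneg (h.e0 x) (D.v0 x x)))
      (sum_nonneg fun t _ => mul_nonneg (dn t) (mul_nonneg (h.e0 t) (D.v0 x t))))
      (by split_ifs; exacts [D.v0 x j, le_rfl])
  have k2 : |∑ x ∈ D.up, nu D j x * nu D j x * (2 * (dm L 0 x * (SN L ((cM L D.S q j).mul (Bt D)) x -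
      SN L (cM L D.S q j) x * (D.u 2 x - D.del x ^ 2))) -
      (D.u 2 x - D.del x ^ 2) * NL L ((wt (ind x) (ind x)).mul (cM L D.S q j)))| ≤
      dm L 0 j * (12 * (C' * c) * ∑ x ∈ D.up, dm L 0 x * (ex L x * (D.e x * D.v x x) +
        ∑ t ∈ Ioo x D.K, dm L 0 t * (D.e t * D.v x t) + if x < j then D.v x j else 0) +
        400 * (C * c) * ∑ x ∈ D.up, dm L 0 x ^ 2) := by
    rw [mul_sum, mul_sum, ← sum_add_distrib, mul_sum]
    refine (abs_sum_le_sum_abs _ _).trans (sum_le_sum fun x hx => ?_)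
    have m := mem_up.1 hx
    by_cases e : x = j
    · rw [nu, nj, if_pos e, zero_mul, zero_mul, zero_mul, abs_zero]
      have := mul_nonneg (dn x) (n3 x)
      positivity
    have a1 := mul_le_mul_of_nonneg_left
      (sn_le h hj hP e0 e1 hC' hc S (fun i => (P0 i).1) Pe hx e) (dn x)
    have a2 : |D.u 2 x - D.del x ^ 2| ≤ 4 := by
      rw [← var_eq D (by rw [D.B_len]; exact m.2.le)]; exact abs_var D x
    have a3 := cM_cN (D := D) (q := q) d0 (φ := ind x) (fun y => by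
      unfold ind nj; split_ifs <;> simp_all) ⟨1, 1, 1⟩
    simp only [show ∀ T : Tw, T.mul ⟨1, 1, 1⟩ = T from fun T => by
      simp only [Tw.mul, Pi.one_apply, mul_one]] at a3
    have a4 := mul_le_mul a2 (mul_le_mul_of_nonneg_left (G.ind_bd (t := x) m.1 (by omega)) d0.le)
      (mul_nonneg d0.le (abs_nonneg _)) (by norm_num)
    rw [nu, nj, if_neg e, if_pos m.1, one_mul, one_mul, one_mul, a3]
    refine (abs_sub _ _).trans ?_
    rw [abs_mul, abs_mul, abs_mul, abs_mul, abs_two, abs_of_nonneg (dn x), abs_of_pos d0]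
    linarith
  rw [cM_cN d0 (nu_nj D j)]
  refine (abs_add_le _ _).trans ?_
  rw [abs_mul, abs_of_pos d0]
  refine (add_le_add (mul_le_mul_of_nonneg_left k1 d0.le) k2).trans ?_
  rw [← mul_add, GE]
  refine mul_le_mul_of_nonneg_left ?_ d0.le
  have n1 : 0 ≤ D.VF + D.f0 j * (D.f0 j + D.sv D.f0 D.J) :=
    add_nonneg h.VF0 (mul_nonneg (h.f00 j) (add_nonneg (h.f00 j) (h.sv0 h.f00 _)))
  have n2 : 0 ≤ ∑ y ∈ D.up, dm L 0 y * (D.e y ^ 2 * D.v y y) + ∑ x ∈ D.up,
      ∑ y ∈ Ico (D.J + 1) (x + 1), dm L 0 x * dm L 0 y * (D.e y * (√(D.v y x) * √(D.v x x))) :=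
    add_nonneg (sum_nonneg fun y _ => mul_nonneg (dn y) (mul_nonneg (sq_nonneg _) (D.v0 y y)))
      (sum_nonneg fun x _ => sum_nonneg fun y _ => mul_nonneg (mul_nonneg (dn x) (dn y))
        (mul_nonneg (h.e0 y) (by positivity)))
  have n4 := sum_nonneg fun x (_ : x ∈ D.up) => mul_nonneg (dn x) (n3 x)
  have n5 := sum_nonneg fun x (_ : x ∈ D.up) => sq_nonneg (dm L 0 x)
  generalize D.VF + D.f0 j * (D.f0 j + D.sv D.f0 D.J) = X1 at *
  generalize ∑ y ∈ D.up, dm L 0 y * (D.e y ^ 2 * D.v y y) + ∑ x ∈ D.up,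
      ∑ y ∈ Ico (D.J + 1) (x + 1), dm L 0 x * dm L 0 y * (D.e y * (√(D.v y x) * √(D.v x x))) = X2 at *
  generalize ∑ x ∈ D.up, dm L 0 x * (ex L x * (D.e x * D.v x x) +
    ∑ t ∈ Ioo x D.K, dm L 0 t * (D.e t * D.v x t) + if x < j then D.v x j else 0) = X3 at *
  generalize ∑ x ∈ D.up, dm L 0 x ^ 2 = X4 at *
  have c1 : 0 ≤ C' * c := by positivity
  have c2 : 0 ≤ 4 * (C * c) + 4 * (C * c) ^ 2 + 16 * C ^ 2 + 4 * C := by positivity
  have c3 : (C * c) ^ 2 + C * c ≤ 4 * (C * c) + 4 * (C * c) ^ 2 + 16 * C ^ 2 + 4 * C := by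
    nlinarith [sq_nonneg (C * c)]
  generalize 4 * (C * c) + 4 * (C * c) ^ 2 + 16 * C ^ 2 + 4 * C = Y at *
  generalize (C * c) ^ 2 + C * c = Y' at *
  generalize C * c = Z at *
  generalize C' * c = Z' at *
  nlinarith [mul_nonneg cc n1, mul_nonneg cc n2, mul_nonneg cc n4, mul_nonneg c1 n1,
    mul_nonneg c1 n2, mul_nonneg c1 n5, mul_nonneg (mul_nonneg cc c2) n4,
    mul_nonneg (mul_nonneg cc c2) n5, mul_nonneg (mul_nonneg cc (sub_nonneg.2 c3)) n2]

end eps

theorem mk_mono {Θ : Type} {L : List (Lv Θ)} {T : List (Lv Bool)} (hM : Mono 0 L) (hC : C ≤ C')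
    (P0 : ∀ i, 0 ≤ P i) (a0 : ∀ i, 0 ≤ a i) (H : MkH L T q j C P a) : MkH L T q j C' P a := by
  have k : ∀ {r : ℕ} (ρ : SM r), C * wg L j ρ ≤ C' * wg L j ρ := fun ρ =>
    mul_le_mul_of_nonneg_right hC (add_nonneg (dm_nonneg hM j) (by split_ifs <;> norm_num))
  exact ⟨fun r hr ρ h c d e f => (H.m0 r hr ρ h c d e f).trans (k ρ),
    fun r hr ρ h c d e f i h' => (H.mp r hr ρ h c d e f i h').trans
      (mul_le_mul_of_nonneg_right (k ρ) (P0 i)),
    fun r hr ρ ρ' h h' c d e f i a1 a2 a3 => (H.m1 r hr ρ ρ' h h' c d e f i a1 a2 a3).trans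
      (mul_le_mul_of_nonneg_right (k ρ) (a0 i)),
    fun r hr ρ ρ' h h' c d e f i a1 a2 a3 i' a4 a5 a6 =>
      (H.m1p r hr ρ ρ' h h' c d e f i a1 a2 a3 i' a4 a5 a6).trans
        (mul_le_mul_of_nonneg_right (k ρ) (mul_nonneg (P0 i') (a0 i))),
    fun r hr ρ₀ ρ₁ ρ₂ ρ₃ h₀ h₁ h₂ h₃ c d e f i i' a1 a2 a3 a4 a5 a6 a7 =>
      (H.m2 r hr ρ₀ ρ₁ ρ₂ ρ₃ h₀ h₁ h₂ h₃ c d e f i i' a1 a2 a3 a4 a5 a6 a7).trans
        (mul_le_mul_of_nonneg_right (k ρ₀) (mul_nonneg (a0 i) (a0 i')))⟩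

end cd

end N75

open C40 C40.Q10 C40.N75 C40.CD N75 I23 in
/-- **both unmarked edges off the marked level** -/
theorem nnS_of (HS : SwapS) (HM : MkS) (HR : RegWS) (HW : RowRS) : NNS := fun τ0 => by
  obtain ⟨C₀, c0, HM⟩ := HM
  have p1 := cP0_one
  obtain ⟨C, hC, HR⟩ := HR (C₀ + (2 * cP0 + 2)) (by linarith)
  obtain ⟨C', hC', HW⟩ := HW (C₀ + (2 * cP0 + 2)) (by linarith)
  set c := 2 * cP0 + 2 with hc
  set A := 100 * (C * c) * (4 * (C * c) + 4 * (C * c) ^ 2 + 16 * C ^ 2 + 4 * C + 4) + 12 * (C' * c)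
  have A0 : 0 ≤ A := by positivity
  refine ⟨A * 5, by positivity, fun D h j hj => ?_⟩
  have m := mem_up.1 hj
  have H := lim1 h m.2.le (Rq D) (nu D j) (nu D j) (G := fun ε => A *
    (D.VF + D.f0 j * (D.f0 j + D.sv D.f0 D.J) + GE D j (fun i => (1 - ε) * D.dx i + ε * ind j i)
      fun i => (1 - ε) * ex D.B i + ε * if j ≤ i then 1 else 0))
    (Continuous.continuousAt (by unfold GE; fun_prop)) fun L ε e0 e1 hP => by
      have e1' : ε ≤ 1 := by linarith
      have hK := len h hj hP e0 e1'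
      have P0 : ∀ i, 0 ≤ cP0 * Pm D i + mm D i ∧ cP0 * Pm D i + mm D i ≤ c := fun i => by
        have := Pm_mem h i
        have := mm_mem h i
        have := h.X0
        constructor <;> nlinarith
      have M := mk_mono hP.mono (show C₀ ≤ C₀ + c by linarith) (fun i => (P0 i).1) (aa0 h)
        (mk_cd h HM hK hP.mono m.2 (P := fun i => cP0 * Pm D i + mm D i) (fun i =>
          ⟨le_add_of_nonneg_right (h.X0.trans (mm_mem h i).1), fun e => (q_mm h hj e).trans
            (le_add_of_nonneg_left (mul_nonneg (by linarith) (Pm0 h i)))⟩) fun _ _ => le_rfl)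
      have P1 : ∀ i, 0 ≤ cP0 * Pm D i + mm D i ∧ cP0 * Pm D i + mm D i ≤ C₀ + c := fun i =>
        ⟨(P0 i).1, (P0 i).2.trans (by linarith)⟩
      have P2 : 1 ≤ cP0 * Pm D L.length + mm D L.length := by
        rw [hK, Pm, mm, if_neg (by simp), if_neg (by simp)]; linarith
      have S := (HW _ L D.S _ _ _ j (D.J + 1) hP.mono (m.2.trans_eq hK.symm) M P1 P2 (aa0 h)
        (aa_bad h hP e0.le)).2
      have B := nn_eps h hj hP e0 e1' hC (by linarith) (show 2 ≤ c by linarith)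
        (HR _ L D.S _ _ _ j (D.J + 1) hP.mono (m.2.trans_eq hK.symm) (N75.dm_pos h hj hP e0 e1') M P1
          P2 (aa0 h) (aa_bad h hP e0.le)) S (cM_sy HS hK _ m.2.le).2 P0
        (by nlinarith [Pm_mem h (D.J + 1), mm_mem h (D.J + 1), h.X0])
        (fun i hi => by nlinarith [Pm_le h hi, mm_le h hi, h.e0 i]) (aa0 h) (aa_bad h hP e0.le)
        fun i h1 h2 => by
          rw [aa_eq h h1 (by omega)]
          exact le_mul_of_one_le_left (h.dv0 h2.le) (by linarith)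
      have z := A10.NL_ind hP.mono (t := D.K) hK.ge S.ab.1 S.ab.2
      rw [N75.dm_top h hj hP e0 e1', zero_pow two_ne_zero, mul_zero, abs_nonpos_iff] at z
      rw [Tj_eq HS hK _ m.2.le, ← sum_subset (s₁ := D.up)
        (fun x hx => mem_range.2 (by have := mem_up.1 hx; omega)) fun x hx hx' => by
          rcases le_or_gt x D.J with e | e
          · rw [nu_low D j x e, zero_mul, zero_mul]
          · rw [show x = D.K by rw [mem_up] at hx'; have := mem_range.1 hx; omega, Rx, z,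
              N75.dm_top h hj hP e0 e1']
            ring,
        show (fun i => (1 - ε) * D.dx i + ε * ind j i) = dm L 0 from (funext hP.dm).symm,
        show (fun i => (1 - ε) * ex D.B i + ε * if j ≤ i then 1 else 0) = ex L from
          funext fun i => by rw [hP.ex, mul_ite, mul_one, mul_zero]]
      exact B
  simp only [sub_zero, one_mul, zero_mul, add_zero] at H
  refine H.trans ?_
  rw [mul_assoc]
  refine mul_le_mul_of_nonneg_left ?_ A0
  have k1 := GE_le (j := j) h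
  have k2 := mul_nonneg (h.f00 j) (add_nonneg (h.f00 j) (h.sv0 h.f00 D.J))
  linarith [h.VF_le, h.sv_low0 (Ico 1 j) j]

end Crest.Agent.T156.Cas.Q21

end
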