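import Crest.Agent.T156.CQ21R_38
import Crest.Agent.T156.CQ21I_23

/-!
# Row 156 (helper38): the marked word `[aU, aU]`, one edge at the marked level, crude (`OBS`)
-/

set_option autoImplicit false
set_option linter.all false

noncomputable section

namespace Crest.Agent.T156.Cas.Q21

open Finset
open Crest.Agent.T157.E Crest.Agent.T157.Casc Crest.Agent.T157.SL
open Crest.Agent.T156.Cas.Q75
open Crest.Agent.T156.Cas.Q75.A10 (ind)
open Nu87 C40 C40.Q10 C40.N75 C40.CD I23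

namespace O38

section gen
variable {Θ : Type} {L : List (Lv Θ)} {T : List (Lv Bool)} {q : Rf} {j j₁ : ℕ} {C C' : ℝ}
  {P a : ℕ → ℝ} {c : Tw}

theorem wg0 (hL : Mono 0 L) {r : ℕ} (ρ : SM r) : 0 ≤ wg L j ρ := by
  unfold wg
  split_ifs <;> linarith [dm_nonneg hL j]

theorem mk_mono (H : MkH L T q j C P a) (hL : Mono 0 L) (hC : C ≤ C') (P0 : ∀ i, 0 ≤ P i)
    (a0 : ∀ i, 0 ≤ a i) : MkH L T q j C' P a :=
  have k : ∀ {r : ℕ} (ρ : SM r), C * wg L j ρ ≤ C' * wg L j ρ := fun ρ =>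
    mul_le_mul_of_nonneg_right hC (wg0 hL ρ)
  ⟨fun r hr ρ h c d e f => (H.m0 r hr ρ h c d e f).trans (k ρ),
    fun r hr ρ h c d e f i o => (H.mp r hr ρ h c d e f i o).trans
      (mul_le_mul_of_nonneg_right (k ρ) (P0 i)),
    fun r hr ρ ρ' h h' c d e f i h1 h2 h3 => (H.m1 r hr ρ ρ' h h' c d e f i h1 h2 h3).trans
      (mul_le_mul_of_nonneg_right (k ρ) (a0 i)),
    fun r hr ρ ρ' h h' c d e f i h1 h2 h3 i' h4 h5 h6 =>
      (H.m1p r hr ρ ρ' h h' c d e f i h1 h2 h3 i' h4 h5 h6).trans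
        (mul_le_mul_of_nonneg_right (k ρ) (mul_nonneg (P0 _) (a0 i))),
    fun r hr ρ₀ ρ₁ ρ₂ ρ₃ h0 h1 h2 h3 c d e f i i' b1 b2 b3 b4 b5 b6 b7 =>
      (H.m2 r hr ρ₀ ρ₁ ρ₂ ρ₃ h0 h1 h2 h3 c d e f i i' b1 b2 b3 b4 b5 b6 b7).trans
        (mul_le_mul_of_nonneg_right (k ρ₀) (mul_nonneg (a0 _) (a0 _)))⟩

theorem row_mono (H : RowR L c j₁ j C P a) (hC : C ≤ C') : RowR L c j₁ j C' P a :=
  ⟨H.dn0, H.dn1, fun x t h1 h2 h3 h4 => (H.up0 x t h1 h2 h3 h4).trans hC, H.up1, H.upp,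
    fun z k h1 h2 h3 => (H.of0 z k h1 h2 h3).trans hC, H.of1⟩

end gen

variable {D : CD} {τ0 : ℝ} (h : D.Ok τ0)
include h

theorem ip_del {j : ℕ} (hj : j ≤ D.K) :
    Base53.ipE wt_one90 D.B 0 (Base53.dV D.B (Q33.sl D.n) wt_one90 D.rb j)
      (Base53.dV D.B (Q33.sl D.n) wt_one90 D.rb j) ≤ √(D.u 2 j) ^ 2 := by
  have b1 := Base53.bs D.B (Q33.sl D.n) wt_one90 0 D.rb
  have hj' := hj.trans_eq D.B_len.symm
  have b2 := (Base53.sn_bds D.B (Q33.sl D.n) wt_one90 0 D.rb (x := j) (t := j) (t' := j) le_rfl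
    (by omega) le_rfl (by omega) hj').1
  have b3 := b1.lo1 j j j le_rfl le_rfl hj'
  rw [b1.pi0, map_zero, add_zero, Tw.lo, if_neg (by omega), min_self] at b3
  rw [Tw.sN, Tw.sN, if_neg (show j ≠ D.B.length + 1 by omega),
    if_neg (show j ≠ D.B.length + 1 by omega), b3, uK_eq h] at b2
  have b4 := var_eq D hj'
  rw [Tw.sN, Bt] at b4
  rw [Real.sq_sqrt (D.u0 2 j)]
  linarith [sq_nonneg (D.del j)]

theorem v_anti {y t : ℕ} (hy : y ≤ t) : D.v y t ≤ D.v y y := by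
  simpa only [vt_eq h] using Base53.vt_anti D.B (Q33.sl D.n) wt_one90 0 le_rfl hy

/-- the weak martingale bound for perturbed weights -/
theorem pi_pert (HP : PiS) {L : List (Lv (Cube D.n))} {j : ℕ} {ε : ℝ} (H : Pert D.B L j ε)
    (h0 : 0 ≤ ε) (h1 : ε ≤ 1) (m t : ℕ) (θ : ℕ → ℝ) (hm : D.J + 1 ≤ m) (ht : t ≤ L.length)
    (hθ : ∀ y, |θ y| ≤ 1) (hj : θ j = 0) :
    Base53.ipE wt_one90 D.B 0
      (∑ y ∈ Icc m t, (dm L 0 y * θ y) • Base53.pV D.B (Q33.sl D.n) wt_one90 y t)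
      (∑ y ∈ Icc m t, (dm L 0 y * θ y) • Base53.pV D.B (Q33.sl D.n) wt_one90 y t) ≤
      (2 * fz D D.f0 m) ^ 2 := by
  have e : ∀ x, dm L 0 x * θ x = D.dx x * ((1 - ε) * θ x) := fun x => by
    by_cases c : x = j
    · rw [c, hj]; ring
    · rw [dm_off H c]; ring
  simp only [e]
  exact HP τ0 D h m t _ hm (ht.trans_eq (H.len.trans D.B_len)) fun x => by
    rw [abs_mul, abs_of_nonneg (by linarith)]
    exact mul_le_one₀ (by linarith) (abs_nonneg _) (hθ x)

theorem lad_dn {L : List (Lv (Cube D.n))} {j : ℕ} {ε : ℝ} (H : Pert D.B L j ε) (h0 : 0 ≤ ε)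
    (hj : j ∈ D.up) : ∑ y ∈ Ico (D.J + 1) j, dm L 0 y * (Pm D y * (√(D.v y j) * av D j)) ≤
      D.e j * D.v j j + ∑ y ∈ Finset.Ico 1 j, D.dx y * D.v y j := by
  have m := mem_up.1 hj
  have ev := mul_nonneg (h.e0 j) (D.v0 j j)
  refine (sum_le_sum (g := fun y => D.dx y * (D.e j * D.v j j) + D.dx y * D.v y j)
    fun y hy => ?_).trans ?_
  · have hy' := mem_Ico.1 hy
    have p0 := Pm0 h y
    have p1 := (Pm_mem h y).2
    have p2 := (Pm_le h (mem_up.2 ⟨hy'.1, by omega⟩)).trans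
      (mul_le_mul_of_nonneg_left (h.e_mono hy'.2.le) zero_le_two)
    have s1 := Real.sq_sqrt (D.v0 y j)
    have s2 : av D j ^ 2 = D.v j j := Real.sq_sqrt (D.v0 j j)
    have s3 : Pm D y ^ 2 * D.v j j ≤ 2 * D.e j * D.v j j :=
      mul_le_mul_of_nonneg_right (by nlinarith) (D.v0 j j)
    rw [← mul_add]
    refine mul_le_mul (dm_le H h.mono h0 hy'.2.ne) ?_ (mul_nonneg p0 (mul_nonneg
      (Real.sqrt_nonneg _) (Real.sqrt_nonneg _))) (h.dx0 y)
    rw [← s2] at s3 ⊢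
    nlinarith [sq_nonneg (Pm D y * av D j - √(D.v y j)), D.v0 y j]
  · rw [sum_add_distrib, ← sum_mul]
    exact add_le_add (mul_le_of_le_one_left ev (h.sum_dx_one fun i hi => by
      have := mem_Ico.1 hi; omega)) (sum_le_sum_of_subset_of_nonneg
        (Ico_subset_Ico_left (by omega)) fun i _ _ => mul_nonneg (h.dx0 i) (D.v0 _ _))

theorem lad_up {L : List (Lv (Cube D.n))} {j : ℕ} {ε : ℝ} (H : Pert D.B L j ε) (h0 : 0 ≤ ε)
    (hj : j < D.K) : ∑ x ∈ Ioc j D.K, dm L 0 x * (√(D.v j x) * av D x) ≤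
      av D j * D.hi (av D) j := by
  refine (sum_le_sum (g := fun x => av D j * (D.dx x * av D x)) fun x hx => ?_).trans_eq ?_
  · have hx' := mem_Ioc.1 hx
    rw [mul_left_comm (av D j)]
    exact mul_le_mul (dm_le H h.mono h0 hx'.1.ne') (mul_le_mul_of_nonneg_right
      (Real.sqrt_le_sqrt (v_anti h hx'.1.le)) (Real.sqrt_nonneg _))
      (mul_nonneg (Real.sqrt_nonneg _) (Real.sqrt_nonneg _)) (h.dx0 x)
  · rw [← mul_sum, ← Ioo_insert_right hj, sum_insert (by simp), h.top, zero_mul, zero_add, CD.hi]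

end O38

open O38

/-- **one edge at `j`, crude** -/
theorem obS_of (HS : SwapS) (HM : MkS) (HR : RowRS) (HP : PiS) : OBS := fun τ0 => by
  obtain ⟨C, C1, HM⟩ := HM
  have κ1 := cP0_one
  obtain ⟨C', C1', HR⟩ := HR (C + cP0 + 1) (by linarith)
  have A1 : 1 ≤ C' * cP0 := one_le_mul_of_one_le_of_one_le C1' κ1
  have c1 : C' ≤ C' * (C + cP0 + 1) := le_mul_of_one_le_right (by linarith) (by linarith)
  refine ⟨200 * (C' * (C + cP0 + 1)) * (4 * (C' * cP0)), by positivity, fun D h j hj => ?_⟩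
  have m := mem_up.1 hj
  set F := ∑ i ∈ Ico (D.J + 1) D.K, fz D D.f0 (i + 1) with hF
  have key := lim2 h m.2.le (Rq D) (ind j) (nu D j) (nu D j) (ind j) 1
    (G := fun ε => 200 * (C' * (C + cP0 + 1)) * (4 * (C' * cP0) *
      (√(D.u 2 j) * (D.f0 j + D.sv D.f0 D.J) + Rw D j) + ε * (C' * F * (√(D.u 2 j) + av D j))))
    (by fun_prop) fun L ε e0 e1 H => ?_
  · simpa only [one_mul, zero_mul, add_zero, mul_assoc] using key
  have hL : L.length = D.K := H.len.trans D.B_len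
  have q1 := h.ook.mem m.2.le
  have P0 : ∀ i, cP0 * Pm D i ≤ cP0 * Pm D i + if j ≤ i then D.q j else 0 := fun i => by
    split_ifs <;> linarith [q1.1]
  have P1 : ∀ i, Pm D i ≤ cP0 * Pm D i := fun i => le_mul_of_one_le_left (Pm0 h i) κ1
  have P2 : ∀ i, 0 ≤ cP0 * Pm D i + (if j ≤ i then D.q j else 0) ∧
      cP0 * Pm D i + (if j ≤ i then D.q j else 0) ≤ C + cP0 + 1 := fun i =>
    ⟨(Pm0 h i).trans ((P1 i).trans (P0 i)), by
      have := mul_le_of_le_one_right (zero_le_one.trans κ1) (Pm_mem h i).2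
      split_ifs <;> linarith [q1.2]⟩
  have a1 : ∀ i, aa D i + ε ≤ cP0 * aa D i + ε := fun i => by
    linarith [le_mul_of_one_le_left (aa0 h i) κ1]
  have a0 : ∀ i, 0 ≤ cP0 * aa D i + ε := fun i => by linarith [a1 i, aa0 h i]
  have R := row_mono (HR _ L D.S (Rq D) (fun i => cP0 * Pm D i + if j ≤ i then D.q j else 0)
    (fun i => cP0 * aa D i + ε) j (D.J + 1) H.mono (m.2.trans_eq hL.symm)
    (mk_mono (mk_cd h HM hL H.mono m.2
      (fun i => ⟨P0 i, fun e => by rw [if_pos e]; linarith [Pm0 h i, P1 i]⟩)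
      fun i _ => by linarith [a1 i]) H.mono (by linarith) (fun i => (P2 i).1) a0) P2
    (by
      have := P0 L.length
      rw [Pm, if_neg (fun e => by have := mem_up.1 e; omega)] at this ⊢
      linarith) a0 fun i hi => by linarith [aa_bad h H e0.le i hi, a1 i]).1 c1
  have s1 : ∀ i, cP0 * aa D i + ε ≤
      C' * (cP0 * aa D i + ε + if i + 1 = L.length then 1 else 0) := fun i => by
    have : cP0 * aa D i + ε ≤ cP0 * aa D i + ε + if i + 1 = L.length then 1 else 0 := by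
      split_ifs <;> linarith
    exact this.trans (le_mul_of_one_le_left ((a0 i).trans this) C1')
  have BH := bh_cd h hL H.mono (C1'.trans c1)
    (p := fun i => C' * (cP0 * Pm D i + if j ≤ i then D.q j else 0))
    (s := fun i => C' * (cP0 * aa D i + ε + if i + 1 = L.length then 1 else 0))
    (fun y => mul_le_mul_of_nonneg_left (P2 y).2 (by linarith))
    (fun y => mul_nonneg (by linarith) (P2 y).1)
    (fun i => by linarith [dm_le' H h.mono e0.le i, aa_dx h i, h.dx0 (i + 1), a1 i, s1 i])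
    ((low_le h H e0.le m.1).trans ((Pm_mem h _).1.trans ((P1 _).trans ((P0 _).trans
      (le_mul_of_one_le_left (P2 _).1 C1')))))
  obtain ⟨k1, k2⟩ := rowBS _ L _ _ _ j _ _ _ _ _ _ _ _ _ _ _ _ _ BH (cM_sy HS hL (Rq D) m.2.le).2 R
    m.1 (m.2.trans_eq hL.symm) (wf_cd h H e0.le (by linarith) (nu_abs D j) (nu_low D j)
      (nu_self D j)) (nu_self D j) (Real.sqrt_nonneg _) (ip_del h m.2.le)
    (fun y b1 b2 => by
      obtain ⟨d1, d2⟩ := Pm_step h b1 (show y + 1 < D.K by omega)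
      have d3 := mul_le_mul_of_nonneg_left d1 (zero_le_one.trans A1)
      have d4 := mul_le_mul_of_nonneg_left d2 (zero_le_one.trans A1)
      have d5 := mul_nonneg (zero_le_one.trans C1') e0.le
      simp only [if_neg (show ¬ j ≤ y by omega), if_neg (show ¬ j ≤ y + 1 by omega),
        if_neg (show ¬ y + 1 = L.length by omega)]
      constructor <;> linarith)
    (pi_pert h HP H e0.le (by linarith))
  have z : ∀ x, ind j x * nu D j x = 0 := fun x => by
    unfold ind nu nj; split_ifs <;> simp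
  rw [Tj_eq HS hL _ m.2.le, Tj_eq HS hL _ m.2.le, k1, sum_eq_zero fun x _ => by rw [z, zero_mul],
    sum_eq_zero fun x _ => by rw [mul_comm (nu D j x), z, zero_mul], add_zero, one_mul, ← two_mul,
    abs_mul, abs_two]
  have sv0 := h.sv0 h.f00 D.J
  have b1 : C' * (cP0 * Pm D (D.J + 1) + if j ≤ D.J + 1 then D.q j else 0) * fz D D.f0 (D.J + 1) ≤
      3 * (C' * cP0) * D.sv D.f0 D.J := by
    have u : D.J + 1 ∈ D.up := mem_up.2 (by omega)
    have d1 : D.e (D.J + 1) * D.f0 (D.J + 1) ≤ D.sv D.f0 D.J := by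
      have := single_le_sum (f := fun t => D.dv t * D.f0 t)
        (fun t ht => mul_nonneg (h.dv0 (mem_Ioo.1 ht).2.le) (h.f00 t)) u
      rwa [CD.dv, if_pos le_rfl] at this
    have d2 : (if j ≤ D.J + 1 then D.q j else 0) ≤ cP0 * D.e (D.J + 1) := by
      refine le_trans ?_ (le_mul_of_one_le_left (h.e0 _) κ1)
      split_ifs with e
      exacts [(h.qe j hj).trans (h.e_mono e), h.e0 _]
    have d3 := mul_le_mul_of_nonneg_left (Pm_le h u) (zero_le_one.trans κ1)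
    have d4 := mul_le_mul_of_nonneg_left (show cP0 * Pm D (D.J + 1) +
      (if j ≤ D.J + 1 then D.q j else 0) ≤ 3 * cP0 * D.e (D.J + 1) by linarith)
      (zero_le_one.trans C1')
    refine (mul_le_mul d4 (fz_le h _) (fz0 h _) (mul_nonneg (by linarith)
      (mul_nonneg (by linarith) (h.e0 _)))).trans ?_
    linarith [mul_le_mul_of_nonneg_left d1 (zero_le_one.trans A1)]
  have b2 : ∑ i ∈ Ico (D.J + 1) L.length, C' * (cP0 * aa D i + ε +
      if i + 1 = L.length then 1 else 0) * fz D D.f0 (i + 1) ≤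
      C' * cP0 * D.sv D.f0 D.J + ε * (C' * F) := by
    rw [hL, sum_congr rfl (g := fun i => C' * cP0 * (aa D i * fz D D.f0 (i + 1)) +
      ε * (C' * fz D D.f0 (i + 1))) fun i _ => by
        split_ifs with e
        · rw [e, fz, if_neg (lt_irrefl _)]; ring
        · ring, sum_add_distrib, ← mul_sum, ← mul_sum, ← mul_sum]
    linarith [mul_le_mul_of_nonneg_left (sum_aa h h.f00) (zero_le_one.trans A1)]
  have b3 := fz_le h j
  have b4 := (fz_le h (j + 1)).trans (h.wk0.anti j).2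
  have b5 : ∑ y ∈ Ico (D.J + 1) j, dm L 0 y * (C' * (cP0 * Pm D y + if j ≤ y then D.q j else 0) *
      (√(D.v y j) * av D j)) ≤
      C' * cP0 * (D.e j * D.v j j + ∑ y ∈ Finset.Ico 1 j, D.dx y * D.v y j) := by
    refine le_of_eq_of_le ?_ (mul_le_mul_of_nonneg_left (lad_dn h H e0.le hj)
      (zero_le_one.trans A1))
    rw [mul_sum]
    exact sum_congr rfl fun y hy => by rw [if_neg (mem_Ico.1 hy).2.not_ge]; ring
  have b6 := lad_up h H e0.le m.2
  have n1 : 0 ≤ D.e j * D.v j j + ∑ y ∈ Finset.Ico 1 j, D.dx y * D.v y j :=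
    add_nonneg (mul_nonneg (h.e0 j) (D.v0 j j))
      (sum_nonneg fun y _ => mul_nonneg (h.dx0 y) (D.v0 _ _))
  have n2 := h.hi0 (a := av D) (fun _ => Real.sqrt_nonneg _) j
  have n3 := h.f00 j
  have g0 := Real.sqrt_nonneg (D.u 2 j)
  have v0 : 0 ≤ av D j := Real.sqrt_nonneg _
  refine (mul_le_mul_of_nonneg_left k2 zero_le_two).trans ?_
  rw [← mul_assoc, ← mul_assoc (dm L 0 j), show 2 * (100 * (C' * (C + cP0 + 1)) * dm L 0 j) =
    dm L 0 j * (200 * (C' * (C + cP0 + 1))) by ring]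
  refine mul_le_mul_of_nonneg_left ?_ (mul_nonneg (dm_nonneg H.mono j) (by positivity))
  · rw [RwE, Rw, hL]
    rw [hL] at b2
    generalize D.e j * D.v j j + ∑ y ∈ Finset.Ico 1 j, D.dx y * D.v y j = w at *
    generalize C' * cP0 = A at *
    have t1 := mul_le_mul_of_nonneg_left (add_le_add (add_le_add (add_le_add b1 b2) b3) b4) g0
    have t2 := mul_le_mul_of_nonneg_left (add_le_add b4 b2) v0
    have t3 := mul_le_mul_of_nonneg_right A1 (mul_nonneg g0 n3)
    have t4 := mul_le_mul_of_nonneg_right A1 (mul_nonneg v0 n3)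
    have t5 := mul_le_mul_of_nonneg_right A1 (mul_nonneg v0 n2)
    have t6 := mul_nonneg (zero_le_one.trans A1) (mul_nonneg v0 sv0)
    have t7 := mul_nonneg (zero_le_one.trans A1) n1
    have t8 := mul_nonneg g0 n3
    have t9 := mul_nonneg v0 n3
    have t10 := mul_nonneg v0 n2
    linarith

end Crest.Agent.T156.Cas.Q21

end
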