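import Crest.Agent.T156.CQ21D_52

/-!
# Row 156 (helper44): moving the mass `ε` to the level `j`
-/

set_option autoImplicit false

noncomputable section

namespace Crest.Agent.T156.Cas.Q21

open Finset
open Crest.Agent.T157.E Crest.Agent.T157.Casc Crest.Agent.T157.SL
open Crest.Agent.T156.Cas.Q75.A10 (ind)
open Nu87

variable {Θ : Type} {L : List (Lv Θ)} {j : ℕ}

/-- the perturbed weights -/
def pt (L : List (Lv Θ)) (j : ℕ) (ε : ℝ) : List (Lv Θ) :=
  L.mapIdx fun i l => { l with m := (1 - ε) * l.m + if j ≤ i then ε else 0 }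

theorem pt_len (ε : ℝ) : (pt L j ε).length = L.length := List.length_mapIdx

theorem pt_zero : pt L j 0 = L := by
  refine List.ext_getElem (pt_len 0) fun i _ _ => ?_
  simp [pt]

theorem pt_ex (hj : j ≤ L.length) (ε : ℝ) (i : ℕ) :
    ex (pt L j ε) i = (1 - ε) * ex L i + if j ≤ i then ε else 0 := by
  simp only [T157.Casc.ex, pt, List.getElem?_mapIdx]
  cases h : L[i]? with
  | none =>
    rw [if_pos (hj.trans (List.getElem?_eq_none_iff.1 h))]
    simp
  | some l => rfl

theorem pt_dm (hj : j ≤ L.length) (ε : ℝ) :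
    ∀ i, dm (pt L j ε) 0 i = (1 - ε) * dm L 0 i + ε * ind j i
  | 0 => by
      simp only [dm, exP, pt_ex hj, ind, sub_zero, Nat.le_zero, eq_comm (a := j)]
      split_ifs <;> ring
  | i + 1 => by
      simp only [dm, exP, pt_ex hj, ind]
      split_ifs <;> first | omega | ring

theorem mono_ex' : ∀ {L : List (Lv Θ)} {m0 : ℝ}, m0 ≤ ex L 0 → (∀ i, ex L i ≤ ex L (i + 1)) →
    Mono m0 L
  | [], _, h, _ => h
  | _ :: _, _, h, h' => ⟨h, mono_ex' (h' 0) fun i => h' (i + 1)⟩

theorem pt_mono (hL : Mono 0 L) (hj : j ≤ L.length) {ε : ℝ} (h0 : 0 ≤ ε) (h1 : ε ≤ 1) :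
    Mono 0 (pt L j ε) := by
  have k : ∀ i, 0 ≤ dm (pt L j ε) 0 i := fun i => by
    rw [pt_dm hj]
    refine add_nonneg (mul_nonneg (by linarith) (dm_nonneg hL i)) (mul_nonneg h0 ?_)
    unfold ind
    split_ifs <;> norm_num
  exact mono_ex' (sub_nonneg.1 (k 0)) fun i => sub_nonneg.1 (k (i + 1))

theorem cont_avc (hj : j ≤ L.length) {r : ℕ} (σ : SM (r + 1)) :
    ∀ (k : ℕ) (φ : ℝ → SM (r + k + 1) → ℝ), (∀ τ, Continuous fun ε => φ ε τ) →
      Continuous fun ε => avc (pt L j ε) σ k (φ ε)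
  | 0, _, h => h σ
  | k + 1, φ, h => cont_avc hj σ k (fun ε => up1 (r := r + k) (pt L j ε) (φ ε)) fun τ => by
      simp only [up1, Ws, pt_len, pt_ex hj]
      refine Continuous.div_const ((continuous_finset_sum _ fun a _ => h _).add
        (continuous_finset_sum _ fun i _ => Continuous.mul ?_
          (continuous_finset_sum _ fun a _ => ((h _).sub (h _)).div_const _))) _
      split_ifs <;> fun_prop

theorem pertS : PertS := fun _ _ L j hL hj => ⟨pt L j, pt_zero, fun ε h0 h1 =>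
  ⟨pt_len ε, pt_mono hL hj h0 h1, pt_dm hj ε, pt_ex hj ε⟩,
    fun _ k σ φ => cont_avc hj σ k (fun _ => φ) fun _ => continuous_const⟩

end Crest.Agent.T156.Cas.Q21

end
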