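import Crest.Agent.T156.CQ21D_52

/-!
# Row 156 (helper67): the leaf `PiS` (martingale parts in weak form)
-/

set_option autoImplicit false
set_option linter.all false

noncomputable section

namespace Crest.Agent.T156.Cas.Q21.P67

open Finset
open Crest.Agent.T157.E Crest.Agent.T157.Casc Crest.Agent.T157.SL
open Lp12 Base53

section gen
variable {Ω : Type} [Fintype Ω] {w : Ω → ℝ}

/-- the leaf of the path law, given the path -/
theorem EE_leaf (hw : Wt w) : ∀ (L : List (Lv Ω)) (h : Ω → ℝ) {F : Pth Ω → Ω → ℝ},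
    (∀ x, EP fun p => F p x) → EE w L h (fun p => ∑ x, P w [] (p L.length) x * F p x) =
      tF w .one L h fun p x => F (p ()) (x ())
  | [], h, F, _ => by
    refine Eq.symm ((Tr.tX_one w [] h _).trans ((Pe.pE_nil hw h _).trans ?_))
    have : ∀ g, stT .one ([] : List (Lv Ω)) h g () = fun _ => h := fun g =>
      funext fun j => Pe.st_nil j h g
    exact sum_congr rfl fun x _ => congrArg (fun p => P w [] h x * F p x) (this _)
  | l :: L, h, F, hF => by
    refine Eq.symm ((Tp.tF_one_cons ..).trans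
      ((Tp.tF_step_cons hw .one l L h fun x => (hF (x ())).egP).trans (Eq.symm ?_)))
    rw [EE]
    congr 1
    funext z
    exact EE_leaf hw L z fun x => (hF x).cons h

theorem jensen {a G : Ω → ℝ} (h0 : ∀ x, 0 ≤ a x) (h1 : ∑ x, a x = 1) :
    (∑ x, a x * G x) * (∑ x, a x * G x) ≤ ∑ x, a x * G x ^ 2 := by
  set m := ∑ x, a x * G x with hm
  have h2 : 0 ≤ ∑ x, a x * (G x - m) ^ 2 := sum_nonneg fun x _ => mul_nonneg (h0 x) (sq_nonneg _)
  have h3 : ∑ x, a x * (G x - m) ^ 2 =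
      ∑ x, a x * G x ^ 2 - 2 * m * ∑ x, a x * G x + m ^ 2 * ∑ x, a x := by
    simp only [mul_sum, ← sum_sub_distrib, ← sum_add_distrib]
    exact sum_congr rfl fun x _ => by ring
  rw [h3, h1, ← hm] at h2
  nlinarith

variable (L : List (Lv Ω)) (l₀ : Lv Ω) (hw : Wt w) (h : Ω → ℝ)
include hw

theorem ep_fP (y : ℕ) (c : ℝ) (x : Ω) : EP fun p => fP w L l₀ y c p x :=
  (EP.sum _ fun i _ => (ep_mP L l₀ hw y i).const_mul _).sub (EP.const c)

/-- conditional Jensen: the node `t` against the leaf -/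
theorem node_le_leaf (c q : ℕ → ℝ) (S : Finset ℕ) {t : ℕ} (hS : ∀ y ∈ S, y ≤ t)
    (ht : t ≤ L.length) :
    EE w L h (fun p => (∑ y ∈ S, c y * (MM w L l₀ y t p - q y)) ^ 2) ≤
      pE w L h fun g x => (∑ y ∈ S, c y * fP w L l₀ y (q y) (fun j => st L j h g) x) ^ 2 := by
  have eA : ∀ y, EP fun p => c y * (MM w L l₀ y L.length p - q y) := fun y =>
    ((ep_MM L l₀ hw y _).sub (EP.const _)).const_mul _
  have hA := EP.sum S fun y _ => eA y
  have h1 := CE_sq_le L hw h hA t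
  have e1 : ∀ p, CE w L t (fun p => ∑ y ∈ S, c y * (MM w L l₀ y L.length p - q y)) p =
      ∑ y ∈ S, c y * (MM w L l₀ y t p - q y) := fun p => by
    rw [CE_sum hw L t S fun y _ => eA y]
    refine sum_congr rfl fun y hy => ?_
    rw [CE_const_mul, CE_sub hw L t (ep_MM L l₀ hw y _) (EP.const _), CE_MM L l₀ hw (hS y hy) ht,
      CE_ad hw L (Ad.const t _)]
  simp only [e1, ← sq] at h1
  refine h1.trans ?_
  have eF : ∀ x, EP fun p => (∑ y ∈ S, c y * fP w L l₀ y (q y) p x) ^ 2 := fun x =>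
    (EP.sum S fun y _ => (ep_fP L l₀ hw y _ x).const_mul _).pow 2
  refine le_trans ?_ ((EE_leaf hw L h eF).trans (Tr.tX_one w L h _)).le
  refine EE_mono hw L h (hA.pow 2)
    (EP.sum _ fun x _ => (EP.state (eg_P hw _ x) _).mul (eF x)) fun p => ?_
  have e2 : ∑ y ∈ S, c y * (MM w L l₀ y L.length p - q y) =
      ∑ x, P w [] (p L.length) x * ∑ y ∈ S, c y * fP w L l₀ y (q y) p x := by
    simp only [← Pf_fP L l₀ hw, List.drop_length, Pf, mul_sum]
    rw [sum_comm]
    simp only [mul_left_comm]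
  rw [e2, sq]
  exact jensen (fun x => P_nonneg hw _ _ x) (sum_P hw _ _)

/-- norms of combinations of the martingale parts -/
theorem ip_pi (c q : ℕ → ℝ) (S : Finset ℕ) {t : ℕ} (hS : ∀ y ∈ S, y ≤ t) (ht : t ≤ L.length) :
    ipE hw L h (∑ y ∈ S, c y • pV L l₀ hw y t) (∑ y ∈ S, c y • pV L l₀ hw y t) ≤
      2 * pE w L h (fun g x => (∑ y ∈ S, c y * fP w L l₀ y (q y) (fun j => st L j h g) x) ^ 2) +
      2 * ipE hw L h (∑ y ∈ S, c y • dV L l₀ hw q y) (∑ y ∈ S, c y • dV L l₀ hw q y) := by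
  have h1 := node_le_leaf L l₀ hw h c q S hS ht
  have e : ∀ t : ℕ → ℕ, EP fun p => ∑ y ∈ S, c y * (MM w L l₀ y (t y) p - q y) := fun t =>
    EP.sum S fun y _ => ((ep_MM L l₀ hw y _).sub (EP.const _)).const_mul _
  rw [ipE_eq, ipE_eq]
  refine (EE_le2 hw L h (EP.mul (Subtype.prop _) (Subtype.prop _)) ((e fun _ => t).pow 2)
    (EP.mul (Subtype.prop _) (Subtype.prop _)) (a := 2) (b := 2) fun p => ?_).trans
      (add_le_add (by linarith) le_rfl)
  simp only [Submodule.coe_sum, Finset.sum_apply, Submodule.coe_smul, Pi.smul_apply, smul_eq_mul,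
    dV, pV]
  have e3 : ∑ y ∈ S, c y * (MM w L l₀ y t p - MM w L l₀ y y p) =
      ∑ y ∈ S, c y * (MM w L l₀ y t p - q y) - ∑ y ∈ S, c y * (MM w L l₀ y y p - q y) := by
    rw [← sum_sub_distrib]
    exact sum_congr rfl fun y _ => by ring
  rw [e3]
  nlinarith [sq_nonneg (∑ y ∈ S, c y * (MM w L l₀ y t p - q y) +
    ∑ y ∈ S, c y * (MM w L l₀ y y p - q y))]

end gen

open C40 C40.Q10 C40.N75 CD
open Q33 (sl sl_cov)

theorem sum_cut {D : CD} {τ0 : ℝ} (H : D.Ok τ0) {m t : ℕ} (hm : D.J < m) (ht : t ≤ D.K)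
    (θ a : ℕ → ℝ) : ∑ y ∈ D.tail m, D.dx y * (if y ≤ t then θ y else 0) * a y =
      ∑ y ∈ Icc m t, D.dx y * θ y * a y := by
  simp only [mul_ite, ite_mul, mul_zero, zero_mul]
  rw [← sum_filter]
  refine sum_subset (fun y hy => ?_) fun y hy hy' => ?_
  · simp only [mem_filter, mem_Ico, mem_Icc] at hy ⊢
    omega
  · simp only [mem_filter, mem_Ico, mem_Icc] at hy hy'
    rw [show y = D.K by omega, H.top, zero_mul, zero_mul]

end Crest.Agent.T156.Cas.Q21.P67

namespace Crest.Agent.T156.Cas.Q21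

open Finset
open Crest.Agent.T157.E Crest.Agent.T157.Casc Crest.Agent.T157.SL
open Lp12 Base53 P67 C40 C40.Q10 C40.N75 CD
open Q33 (sl sl_cov)

theorem piS : PiS := fun τ0 D H m t θ hm ht hθ => by
  rcases le_or_gt D.K m with hK | hK
  · rw [sum_eq_zero fun x hx => by
      rw [show x = D.K by have := mem_Icc.1 hx; omega, H.top, zero_mul, zero_smul]]
    simpa using sq_nonneg _
  obtain ⟨h1, h2⟩ := H.wkp.1 (fun y => if y ≤ t then θ y else 0) (fun y => by
    split_ifs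
    exacts [hθ y, by simp]) m
  simp only [sum_cut H hm ht] at h1 h2
  have h3 := ip_pi D.B (sl D.n) wt_one90 0 (fun y => D.dx y * θ y) D.rb (Icc m t)
    (fun y hy => (mem_Icc.1 hy).2) (ht.trans_eq D.B_len.symm)
  rw [ip_sum_pE] at h3
  have e1 : ∀ (y : ℕ) g, qf (P (fun _ => 1) (D.B.drop y) (st D.B y 0 g)) (Q75.uK (sl D.n) D.rb y) =
      D.nd y g - D.del y := fun y g => by
    simp only [CD.nd, CD.del, ← uK_eq H, qf_uK D.B (sl D.n) wt_one90, sub_sub_sub_cancel_right]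
  have e2 : ∀ (y : ℕ) g x, fP (fun _ => 1) D.B (sl D.n) y (D.rb y) (fun j => st D.B j 0 g) x =
      D.lf y g x - D.del y := fun y g x => by
    rw [← sum_cov' D.B (sl D.n) wt_one90, CD.lf, ← Pf_subc wt_one90, Pf]
    refine sum_congr rfl fun v _ => ?_
    rw [sl_cov H.pos, oU, CD.del]
    ring
  simp only [e1, e2] at h3
  rw [fz, if_pos hK]
  nlinarith

end Crest.Agent.T156.Cas.Q21

end
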