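import Crest.Agent.T156.Q2Site_97

/-!
# Row 156 (helper97): size of the same-node site coefficient
-/

set_option autoImplicit false
set_option linter.unusedSectionVars false

noncomputable section

namespace Crest.Agent.T156.Cas.Q75.S97

open Finset
open Crest.Agent.T157.E Crest.Agent.T157.Casc Crest.Agent.T157.SL
open Nu87 Ker15 One15
open Crest.ProbabilityR.SpinGlassDynamics (spin)

variable {L : List (Lv Bool)}

theorem um_n3 {K x t : ℕ} (h1 : x ≤ t) (h2 : t ≤ K) : Um K (m3 K x t x) := by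
  refine ⟨fun a => ?_, fun a b => ?_, fun a b c => ?_⟩
  · fin_cases a <;> rfl
  · fin_cases a <;> fin_cases b <;> rfl
  · fin_cases a <;> fin_cases b <;> fin_cases c <;> simp [m3] <;> omega

theorem um_n4 {K x t t' : ℕ} (h1 : x ≤ t) (h2 : t ≤ K) (h3 : x ≤ t') (h4 : t' ≤ K) :
    Um K (m4 K x x t x x t') := by
  refine ⟨fun a => ?_, fun a b => ?_, fun a b c => ?_⟩
  · fin_cases a <;> rfl
  · fin_cases a <;> fin_cases b <;> rfl
  · fin_cases a <;> fin_cases b <;> fin_cases c <;> simp [m4] <;> omega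

theorem f3_eq (q : ℕ → ℝ) {σ : SM 3} (h : Um L.length σ) :
    (ee (fun _ => 1) L 0 (eK q) (eK q)).f3 σ = Ga L (σ 0 2) + Bq L q (σ 0 1) (σ 1 2) := by
  have e : (fun z : Fin 3 → Bool => ed (eK q) 1 2 z σ * ed (eK q) 0 1 z σ) = fun z =>
      spin (z 0) * spin (z 2) + (-q (σ 0 1) * (spin (z 1) * spin (z 2)) +
        (-q (σ 1 2) * (spin (z 0) * spin (z 1)) + q (σ 1 2) * q (σ 0 1))) := by
    funext z
    have := One15.spin_sq (z 1)
    simp only [ed, eK]
    linear_combination (spin (z 0) * spin (z 2)) * this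
  show TM (fun _ : Bool => (1 : ℝ)) L 0 σ (fun z => ed (eK q) 1 2 z σ * ed (eK q) 0 1 z σ) = _
  rw [e, TM_add, TM_add, TM_add, TM_mul, TM_mul, TM_const w1 (rz h),
    TM_pair w1 (rz h) (by decide : (0 : Fin 3) ≠ 2) fun a b => spin a * spin b,
    TM_pair w1 (rz h) (by decide : (1 : Fin 3) ≠ 2) fun a b => spin a * spin b,
    TM_pair w1 (rz h) (by decide : (0 : Fin 3) ≠ 1) fun a b => spin a * spin b]
  simp only [Bq, Ga]
  ring

theorem f2_eq (q : ℕ → ℝ) {x : ℕ} (hx : x ≤ L.length) :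
    (ee (fun _ => 1) L 0 (eK q) (eK q)).f2 (tw L.length x) = 1 + Bq L q x x := by
  have e : (fun z : Fin 2 → Bool => ed (eK q) 0 1 z (tw L.length x) *
      ed (eK q) 0 1 z (tw L.length x)) = fun z => 1 + (-(2 * q x) * (spin (z 0) * spin (z 1)) +
        q x * q x) := by
    funext z
    have h0 := One15.spin_sq (z 0)
    have h1 := One15.spin_sq (z 1)
    simp only [ed, eK, tw_01 hx]
    linear_combination (spin (z 1) ^ 2) * h0 + h1
  show TM (fun _ : Bool => (1 : ℝ)) L 0 (tw L.length x) (fun z => ed (eK q) 0 1 z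
    (tw L.length x) * ed (eK q) 0 1 z (tw L.length x)) = _
  rw [e, TM_add, TM_add, TM_mul, TM_const w1 (rz_tw _ _), TM_const w1 (rz_tw _ _),
    TM_pair w1 (rz_tw _ _) (by decide : (0 : Fin 2) ≠ 1) fun a b => spin a * spin b, tw_01 hx]
  simp only [Bq, Ga]
  ring

theorem Bq_self (q : ℕ → ℝ) (hq : ∀ j, |q j| ≤ 1) {x : ℕ} (hx : x ≤ L.length) :
    |Bq L q x x| ≤ 3 * |q x| := by
  have e1 := abs_le.1 (abs_mul_le' (le_refl |q x|) (Ga_one hx))
  have e3 := abs_le.1 (abs_mul_le' (hq x) (le_refl |q x|))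
  rw [Bq, abs_le]
  constructor <;> linarith [e1.1, e1.2, e3.1, e3.2]

/-- crude bound -/
theorem sN_abs (q : ℕ → ℝ) (hq : ∀ j, |q j| ≤ 1) {x t t' : ℕ} (hx : x ≤ L.length) (h1 : x ≤ t)
    (h2 : t ≤ L.length + 1) (h3 : x ≤ t') (h4 : t' ≤ L.length + 1) :
    |(ee (fun _ => 1) L 0 (eK q) (eK q)).sN L.length x t t'| ≤ 4 := by
  have b := Bq_self q hq hx
  have := hq x
  rw [Tw.sN]
  split_ifs with a a' a'
  · rw [f2_eq q hx]
    exact (abs_add_le _ _).trans (by rw [abs_one]; linarith)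
  · rw [f3_eq q (um_n3 h3 (by omega))]
    exact (abs_add_le _ _).trans (add_le_add (Ga_one (show t' ≤ _ by omega)) b |>.trans
      (by linarith))
  · rw [f3_eq q (um_n3 h1 (by omega))]
    exact (abs_add_le _ _).trans (add_le_add (Ga_one (show t ≤ _ by omega)) b |>.trans
      (by linarith))
  · rw [f4_eq q (um_n4 h1 (by omega) h3 (by omega))]
    exact (abs_add_le _ _).trans (add_le_add (abs_E4 (um_n4 h1 (by omega) h3 (by omega)) _) b
      |>.trans (by linarith))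

variable (rL : R1 L) (hM : Mono 0 L) (q : ℕ → ℝ) (hq : ∀ j, |q j| ≤ 1)
include rL hM hq

/-- parity at the first position -/
theorem sN_par {x t t' : ℕ} (h1 : x ≤ t) (h2 : t ≤ L.length) (h3 : x ≤ t')
    (h4 : t' ≤ L.length + 1) {s : ℝ} (h0 : 0 < s) (hs : tm L t ≤ s) :
    |(ee (fun _ => 1) L 0 (eK q) (eK q)).sN L.length x t t'| ≤ min 1 (PB 8 s) + 3 * |q x| := by
  have b := Bq_self q hq (h1.trans h2)
  rw [Tw.sN, if_neg (by omega)]
  split_ifs with a
  · rw [f3_eq q (um_n3 h1 h2)]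
    exact (abs_add_le _ _).trans (add_le_add (Ga_par rL hM h2 h0 hs) b)
  · rw [f4_eq q (um_n4 h1 h2 h3 (by omega))]
    refine (abs_add_le _ _).trans (add_le_add (par4 rL hM (um_n4 h1 h2 h3 (by omega)) (a := 0) h2
      (fun c hc => ?_) odd_one h0 hs) b)
    fin_cases c <;> simp_all [m4]

/-- parity at the second position -/
theorem sN_par' {x t t' : ℕ} (h1 : x ≤ t) (h2 : t ≤ L.length + 1) (h3 : x ≤ t')
    (h4 : t' ≤ L.length) {s : ℝ} (h0 : 0 < s) (hs : tm L t' ≤ s) :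
    |(ee (fun _ => 1) L 0 (eK q) (eK q)).sN L.length x t t'| ≤ min 1 (PB 8 s) + 3 * |q x| := by
  have b := Bq_self q hq (h3.trans h4)
  rw [Tw.sN, if_neg (show t' ≠ L.length + 1 by omega), if_neg (show t' ≠ L.length + 1 by omega)]
  split_ifs with a
  · rw [f3_eq q (um_n3 h3 h4)]
    exact (abs_add_le _ _).trans (add_le_add (Ga_par rL hM h4 h0 hs) b)
  · rw [f4_eq q (um_n4 h1 (by omega) h3 h4)]
    refine (abs_add_le _ _).trans (add_le_add (par4 rL hM (um_n4 h1 (by omega) h3 h4) (a := 1) h4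
      (fun c hc => ?_) odd_one h0 hs) b)
    fin_cases c <;> simp_all [m4]

end Crest.Agent.T156.Cas.Q75.S97

end
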