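import Crest.Agent.T156.CQ21D_52
import Crest.Agent.T156.Q2SiteB_97

/-!
# Row 156 (helper21): regularity of the marked coefficient, one edge at the marked level (`RowRS`)
-/

set_option autoImplicit false
set_option linter.unusedSectionVars false

noncomputable section

namespace Crest.Agent.T156.Cas.Q21

open Finset
open Crest.Agent.T157.E Crest.Agent.T157.Casc Crest.Agent.T157.SL
open Crest.Agent.T156.Cas.Q75 Crest.Agent.T156.Cas.Q75.S97
open Crest.Agent.T156.Cas.Q75.A10 (ind)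
open Nu87
open Site94 (Crs OddAt)

namespace R21

section odd
variable {R : ℕ} {τ : SM R} {w a b c d e f : Fin R} {i : ℕ}

theorem odd3 (h0 : ¬Crs τ w i a b) (h : ¬(Crs τ w i c d ↔ Crs τ w i e f)) :
    OddAt τ ![a, c, e] ![b, d, f] univ i := by
  refine ⟨w, ?_⟩
  rw [Finset.card_filter, Fin.sum_univ_three]
  by_cases h1 : Crs τ w i c d <;> by_cases h2 : Crs τ w i e f <;> simp_all

theorem odd3' (h0 : Crs τ w i a b) (h : Crs τ w i c d ↔ Crs τ w i e f) :
    OddAt τ ![a, c, e] ![b, d, f] univ i := by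
  refine ⟨w, ?_⟩
  rw [Finset.card_filter, Fin.sum_univ_three]
  by_cases h1 : Crs τ w i c d <;> by_cases h2 : Crs τ w i e f <;> simp_all
  decide

end odd

section oddE
variable {K j i r : ℕ} {ρ : SM (r + 1)} {c d e f u v : Fin (r + 1)}

/-- two odd clusters that do not split at `j` -/
theorem oddE_two (huv : ρ u v ≤ i) (hj : ρ u v ≠ j) (hu : ¬(Crs ρ u i c d ↔ Crs ρ u i e f))
    (hv : ¬(Crs ρ v i c d ↔ Crs ρ v i e f)) : OddE K j i ρ c d e f := by
  intro τ a b hτ hρ _ hj'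
  by_cases h : Crs τ u.succ.succ i a b
  · refine odd3 (w := v.succ.succ) (fun h' => ?_) (by simpa only [Crs, hρ] using hv)
    rw [← hρ] at huv hj
    generalize u.succ.succ = U at *
    generalize v.succ.succ = V at *
    have := hτ.ultra U a V; have := hτ.ultra U b V; have := hτ.ultra a U V
    have := hτ.ultra b U V; have := hτ.ultra a V b; have := hτ.ultra b V a
    have := hτ.ultra U a b; have := hτ.ultra U b a; have := hτ.comm a U
    have := hτ.comm b U; have := hτ.comm a V; have := hτ.comm b V; have := hτ.comm a b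
    unfold Crs at h h'
    omega
  · exact odd3 h (by simpa only [Crs, hρ] using hu)

/-- all clusters are even -/
theorem oddE_even (hj : j ≤ i) (hi : i < K) (h : ∀ u, Crs ρ u i c d ↔ Crs ρ u i e f) :
    OddE K j i ρ c d e f := by
  intro τ a b hτ hρ _ hj'
  refine odd3' (w := a) (by rw [Crs, hτ.self]; omega) ?_
  by_cases h1 : ∃ u : Fin (r + 1), i < τ a u.succ.succ
  · obtain ⟨u, hu⟩ := h1
    have k : ∀ x : Fin (r + 1), i < τ a x.succ.succ ↔ i < ρ u x := fun x => by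
      rw [← hρ]
      have := hτ.ultra a u.succ.succ x.succ.succ
      have := hτ.ultra u.succ.succ a x.succ.succ
      have := hτ.comm a u.succ.succ
      omega
    simpa only [Crs, k] using h u
  · simp only [not_exists] at h1
    simp [Crs, h1]

end oddE

variable {Θ : Type} {L : List (Lv Θ)} {T : List (Lv Bool)} {q : Q21.Rf} {P a : ℕ → ℝ} {j : ℕ} {C : ℝ}

theorem wg_le (hM : Mono 0 L) {r : ℕ} (ρ : SM r) : wg L j ρ ≤ 2 := by
  have := (dm_le_ex hM j).trans (Tay38.ex_le_one hM j)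
  rw [wg]
  split_ifs <;> linarith

theorem ind0 (j t : ℕ) : 0 ≤ ind j t := by
  unfold ind
  split_ifs <;> norm_num

theorem wg_ind {r : ℕ} {ρ : SM r} {t t' : ℕ} (h : ∀ a b, a ≠ b → ρ a b = j → t = j ∨ t' = j) :
    wg L j ρ ≤ dm L 0 j + ind j t + ind j t' := by
  have := ind0 j t
  have := ind0 j t'
  rw [wg]
  split_ifs with h1
  · obtain ⟨a, b, h1, h2⟩ := h1
    rcases h a b h1 h2 with rfl | rfl
    · rw [show ind t t = 1 from if_pos rfl]; linarith
    · rw [show ind t' t' = 1 from if_pos rfl]; linarith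
  · linarith

section
variable (hM : Mono 0 L) (H : MkH L T q j C P a) (c0 : 0 ≤ C)
include hM H c0

theorem k0 {r : ℕ} (hr : r ≤ 3) {ρ : SM (r + 1)} (h : Ker15.Um L.length ρ) (c d e f : Fin (r + 1)) :
    |Mk L T q j ρ c d e f| ≤ 2 * C :=
  (H.m0 r hr ρ (rz h) c d e f).trans (by nlinarith [wg_le (j := j) hM ρ])

theorem kp {r : ℕ} (hr : r ≤ 3) {ρ : SM (r + 1)} (h : Ker15.Um L.length ρ) {c d e f : Fin (r + 1)}
    {i : ℕ} (hP : 0 ≤ P i) (ho : OddE L.length j i ρ c d e f) :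
    |Mk L T q j ρ c d e f| ≤ 2 * C * P i :=
  (H.mp r hr ρ (rz h) c d e f i ho).trans
    (mul_le_mul_of_nonneg_right (by nlinarith [wg_le (j := j) hM ρ]) hP)

theorem k1 {r : ℕ} (hr : r ≤ 3) {ρ ρ' : SM (r + 1)} (h : Ker15.Um L.length ρ)
    (h' : Ker15.Um L.length ρ') (c d e f : Fin (r + 1)) {i : ℕ} (hi : i < L.length)
    (hb : ¬Bad j L.length i) (ha : 0 ≤ a i) (hv : Ker15.Mv i ρ ρ') :
    |Mk L T q j ρ' c d e f - Mk L T q j ρ c d e f| ≤ 2 * C * a i :=
  (H.m1 r hr ρ ρ' (rz h) (rz h') c d e f i hi hb hv).trans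
    (mul_le_mul_of_nonneg_right (by nlinarith [wg_le (j := j) hM ρ]) ha)

theorem lo_abs {y x t : ℕ} (h1 : y ≤ x) (h2 : x ≤ L.length) (h3 : y ≤ t) (h4 : t ≤ L.length + 1) :
    |(cM L T q j).lo L.length y x t| ≤ 2 * C := by
  rw [Tw.lo]
  split_ifs with ht
  · exact k0 hM H c0 (r := 2) (by norm_num) (um_m3 h1 h2) 1 2 0 1
  · exact k0 hM H c0 (r := 3) le_rfl (um_sl h1 h2 h3 (by omega)) 2 3 0 1

theorem lo_par {y t : ℕ} (h1 : y < j) (h2 : j ≤ L.length) (h3 : y ≤ t) (h4 : t ≤ L.length + 1)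
    (hP : 0 ≤ P y) : |(cM L T q j).lo L.length y j t| ≤ 2 * C * P y := by
  have hy : y < L.length := by omega
  rw [Tw.lo]
  split_ifs with ht
  · refine kp hM H c0 (r := 2) (by norm_num) (um_m3 h1.le h2) hP (c := 1) (d := 2) (e := 0) (f := 1)
      (oddE_two (u := 0) (v := 1) ?_ ?_ ?_ ?_) <;> simp [Crs, m3, hy, h1, h1.ne]
  · refine kp hM H c0 (r := 3) le_rfl (um_sl h1.le h2 h3 (by omega)) hP (c := 2) (d := 3) (e := 0)
      (f := 1) (oddE_two (u := 1) (v := 0) ?_ ?_ ?_ ?_) <;> simp [Crs, sl, m4, hy, h1, h1.ne]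

variable {i : ℕ} (hb : ¬Bad j L.length i) (ha : 0 ≤ a i)
include hb ha

theorem lo_x {y t : ℕ} (h1 : y ≤ i) (h2 : i < L.length) (h3 : y ≤ t) (h4 : t ≤ L.length + 1) :
    |(cM L T q j).lo L.length y (i + 1) t - (cM L T q j).lo L.length y i t| ≤ 2 * C * a i := by
  rw [Tw.lo, Tw.lo]
  split_ifs with ht
  · refine k1 hM H c0 (r := 2) (by norm_num) (um_m3 h1 h2.le) (um_m3 (by omega) h2) 1 2 0 1 h2 hb ha
      fun a b => ?_
    fin_cases a <;> fin_cases b <;> simp [m3]
  · refine k1 hM H c0 (r := 3) le_rfl (um_sl h1 h2.le h3 (by omega))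
      (um_sl (by omega) h2 h3 (by omega)) 2 3 0 1 h2 hb ha fun a b => ?_
    fin_cases a <;> fin_cases b <;> simp [sl, m4] <;> omega

theorem lo_t {y : ℕ} (h1 : y ≤ i) (h2 : i < L.length) :
    |(cM L T q j).lo L.length y i (i + 1) - (cM L T q j).lo L.length y i i| ≤ 2 * C * a i := by
  rw [Tw.lo, Tw.lo, if_neg (by omega), if_neg (by omega)]
  refine k1 hM H c0 (r := 3) le_rfl (um_sl h1 h2.le h1 h2.le) (um_sl h1 h2.le (by omega) h2)
    2 3 0 1 h2 hb ha fun a b => ?_
  fin_cases a <;> fin_cases b <;> simp [sl, m4]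

theorem lo_y {x t : ℕ} (h1 : i < x) (h2 : x ≤ L.length) (h3 : i < t) (h4 : t ≤ L.length + 1) :
    |(cM L T q j).lo L.length (i + 1) x t - (cM L T q j).lo L.length i x t| ≤ 2 * C * a i := by
  rw [Tw.lo, Tw.lo]
  split_ifs with ht
  · refine k1 hM H c0 (r := 2) (by norm_num) (um_m3 h1.le h2) (um_m3 h1 h2) 1 2 0 1 (by omega) hb ha
      fun a b => ?_
    fin_cases a <;> fin_cases b <;> simp [m3]
  · refine k1 hM H c0 (r := 3) le_rfl (um_sl h1.le h2 h3.le (by omega))
      (um_sl h1 h2 h3 (by omega)) 2 3 0 1 (by omega) hb ha fun a b => ?_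
    fin_cases a <;> fin_cases b <;> simp [sl, m4]

theorem lo_yy {x : ℕ} (h1 : i < x) (h2 : x ≤ L.length) :
    |(cM L T q j).lo L.length (i + 1) x (i + 1) - (cM L T q j).lo L.length i x i| ≤
      2 * C * a i := by
  rw [Tw.lo, Tw.lo, if_neg (by omega), if_neg (by omega)]
  refine k1 hM H c0 (r := 3) le_rfl (um_sl h1.le h2 le_rfl (by omega))
    (um_sl h1 h2 le_rfl (by omega)) 2 3 0 1 (by omega) hb ha fun a b => ?_
  fin_cases a <;> fin_cases b <;> simp [sl, m4] <;> omega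

theorem cP_x {y u : ℕ} (h1 : y ≤ u) (h2 : u ≤ i) (hx : i < L.length) :
    |cP L (cM L T q j) y u (i + 1) - cP L (cM L T q j) y u i| ≤ 6 * (2 * C * a i) := by
  rw [cP_step L _ y u hx]
  have e1 := Lg_abs hM (u := u) (by omega) fun t ht ht' =>
    lo_x hM H c0 hb ha (y := y) (by omega) hx (by omega) ht'
  have e2 := Lx_abs hM (u := i + 1) hx fun t ht ht' =>
    lo_x hM H c0 hb ha (y := y) (by omega) hx (by omega) ht'
  have e3 := abs_ex_mul hM i (lo_t hM H c0 hb ha (y := y) (by omega) hx)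
  exact (abs_sub _ _).trans ((add_le_add (abs_add_le _ _) e3).trans (by linarith))

theorem LO_x {y : ℕ} (h1 : y ≤ i) (hx : i < L.length) :
    |LO L (cM L T q j) y (i + 1) - LO L (cM L T q j) y i| ≤ 14 * (2 * C * a i) := by
  have e1 := abs_le.1 (cP_x hM H c0 hb ha le_rfl h1 hx)
  have e2 := abs_le.1 (abs_mul_le' (kap_abs hM y) (lo_x hM H c0 hb ha h1 hx le_rfl (by omega)))
  rw [LO, LO, abs_le]
  constructor <;> linarith [e1.1, e1.2, e2.1, e2.2]

theorem LO_y {x : ℕ} (h1 : i < x) (hx : x ≤ L.length) (d1 : dm L 0 i ≤ a i)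
    (d2 : dm L 0 (i + 1) ≤ a i) :
    |LO L (cM L T q j) (i + 1) x - LO L (cM L T q j) i x| ≤ 16 * (2 * C * a i) := by
  have e1 := abs_le.1 (Lg_abs hM (u := i + 1) (by omega)
    fun t ht ht' => lo_y hM H c0 hb ha h1 hx (t := t) (by omega) ht')
  have e2 := abs_le.1 (Lx_abs hM hx fun t ht ht' => lo_y hM H c0 hb ha h1 hx (t := t) (by omega) ht')
  have e3 := abs_le.1 (abs_mul_le' ((abs_of_nonneg (dm_nonneg hM (i + 1))).trans_le d2)
    (lo_abs hM H c0 h1.le hx (t := i + 1) (by omega) (by omega)))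
  have e4 := abs_le.1 (abs_mul_le' (kap_abs hM (i + 1)) (lo_yy hM H c0 hb ha h1 hx))
  have e5 := abs_le.1 (abs_mul_le' (kap_step hM d1 d2) (lo_abs hM H c0 h1.le hx le_rfl (by omega)))
  rw [Lg_sub] at e1
  rw [Lx_sub] at e2
  rw [LO, LO, cP, cP, Lg_succ L (by omega : i < L.length) ((cM L T q j).lo L.length i x), abs_le]
  constructor <;> linarith [e1.1, e1.2, e2.1, e2.2, e3.1, e3.2, e4.1, e4.2, e5.1, e5.2]

theorem off_k {z x : ℕ} (h1 : z ≤ x) (h2 : x ≤ L.length) (h3 : z ≤ i) (h4 : i < L.length) :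
    |(cM L T q j).off L.length z x (i + 1) - (cM L T q j).off L.length z x i| ≤ 2 * C * a i := by
  refine k1 hM H c0 (r := 3) le_rfl (um_so h1 h2 h3 h4.le) (um_so h1 h2 (by omega) h4) 2 3 0 1 h4
    hb ha fun a b => ?_
  fin_cases a <;> fin_cases b <;> simp [so, m4]

omit hb ha

theorem off_abs {z x k : ℕ} (h1 : z ≤ x) (h2 : x ≤ L.length) (h3 : z ≤ k) (h4 : k ≤ L.length) :
    |(cM L T q j).off L.length z x k| ≤ 2 * C :=
  k0 hM H c0 (r := 3) le_rfl (um_so h1 h2 h3 h4) 2 3 0 1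

theorem cP_abs {y u x : ℕ} (h1 : y ≤ u) (h2 : u ≤ x) (hx : x ≤ L.length) :
    |cP L (cM L T q j) y u x| ≤ 5 * (2 * C) := by
  have e1 := Lg_abs hM (u := u) (by omega) fun t ht ht' =>
    lo_abs hM H c0 (y := y) (x := x) (by omega) hx (by omega) ht'
  have e2 := Lx_abs hM hx fun t ht ht' =>
    lo_abs hM H c0 (y := y) (x := x) (by omega) hx (by omega) ht'
  exact (abs_add_le _ _).trans (by linarith)

theorem LO_abs {y x : ℕ} (h1 : y ≤ x) (hx : x ≤ L.length) :
    |LO L (cM L T q j) y x| ≤ 12 * (2 * C) := by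
  have e1 := abs_le.1 (cP_abs hM H c0 le_rfl h1 hx)
  have e2 := abs_le.1 (abs_mul_le' (kap_abs hM y) (lo_abs hM H c0 h1 hx le_rfl (by omega)))
  rw [LO, abs_le]
  constructor <;> linarith [e1.1, e1.2, e2.1, e2.2]

theorem um_tw {K x : ℕ} : Ker15.Um K (tw K x) := SF97.um_of_rz (rz_tw K x)

theorem sN_abs {x t t' : ℕ} (h1 : x ≤ t) (h2 : x ≤ t') (h3 : x ≤ L.length) (h4 : t ≤ L.length + 1)
    (h5 : t' ≤ L.length + 1) : |(cM L T q j).sN L.length x t t'| ≤ 2 * C := by
  rw [Tw.sN]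
  split_ifs with b b' b'
  · exact k0 hM H c0 (r := 1) (by norm_num) (um_tw hM H c0) 0 1 0 1
  · exact k0 hM H c0 (r := 2) (by norm_num) (um_n3 h2 (by omega)) 1 2 0 1
  · exact k0 hM H c0 (r := 2) (by norm_num) (um_n3 h1 (by omega)) 1 2 0 1
  · exact k0 hM H c0 (r := 3) le_rfl (um_n4 h1 (by omega) h2 (by omega)) 2 3 0 1

theorem sN_even {t t' : ℕ} (h1 : j < t) (h2 : j < t') (h3 : j < L.length) (h4 : t ≤ L.length + 1)
    (h5 : t' ≤ L.length + 1) (hP : 0 ≤ P j) :
    |(cM L T q j).sN L.length j t t'| ≤ 2 * C * P j := by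
  rw [Tw.sN]
  split_ifs with b b' b'
  · exact kp hM H c0 (r := 1) (by norm_num) (um_tw hM H c0) hP (c := 0) (d := 1) (e := 0) (f := 1)
      (oddE_even le_rfl h3 fun _ => Iff.rfl)
  · refine kp hM H c0 (r := 2) (by norm_num) (um_n3 h2.le (by omega)) hP (c := 1) (d := 2) (e := 0)
      (f := 1) (oddE_even le_rfl h3 fun u => ?_)
    fin_cases u <;> simp [Crs, m3, h2, h3]
  · refine kp hM H c0 (r := 2) (by norm_num) (um_n3 h1.le (by omega)) hP (c := 1) (d := 2) (e := 0)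
      (f := 1) (oddE_even le_rfl h3 fun u => ?_)
    fin_cases u <;> simp [Crs, m3, h1, h3]
  · refine kp hM H c0 (r := 3) le_rfl (um_n4 h1.le (by omega) h2.le (by omega)) hP (c := 2) (d := 3)
      (e := 0) (f := 1) (oddE_even le_rfl h3 fun u => ?_)
    fin_cases u <;> simp [Crs, m4, h1, h2, h3]

omit hM c0 in
theorem sN_wg {x t t' : ℕ} (hj : j < L.length) (hx : x ≠ j) (h1 : x ≤ t) (h2 : x ≤ t')
    (h3 : x ≤ L.length) (h4 : t ≤ L.length + 1) (h5 : t' ≤ L.length + 1) : ∃ g,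
    g ≤ dm L 0 j + ind j t + ind j t' ∧ |(cM L T q j).sN L.length x t t'| ≤ C * g ∧
    (t ≠ j → t < L.length → |(cM L T q j).sN L.length x t t'| ≤ C * g * P t) ∧
    (t' ≠ j → t' < L.length → |(cM L T q j).sN L.length x t t'| ≤ C * g * P t') := by
  rw [Tw.sN]
  split_ifs with b b' b'
  · refine ⟨_, wg_ind fun u v h e => (hx ?_).elim, H.m0 1 (by norm_num) _ (rz_tw _ _) 0 1 0 1,
      by omega, by omega⟩
    have e1 := tw_01 h3
    have e2 := ((rz_tw L.length x).comm 1 0).trans e1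
    fin_cases u <;> fin_cases v
    exacts [absurd rfl h, e1.symm.trans e, e2.symm.trans e, absurd rfl h]
  · have U := rz (um_n3 h2 (show t' ≤ L.length by omega))
    refine ⟨_, wg_ind fun u v h e => ?_, H.m0 2 (by norm_num) _ U 1 2 0 1, by omega,
      fun e e' => H.mp 2 (by norm_num) _ U 1 2 0 1 _ (oddE_two (u := 0) (v := 2) ?_ ?_ ?_ ?_)⟩
    · fin_cases u <;> fin_cases v <;> simp_all [m3]
    all_goals simp [Crs, m3, e, e', h2]
  · have U := rz (um_n3 h1 (show t ≤ L.length by omega))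
    refine ⟨_, wg_ind fun u v h e => ?_, H.m0 2 (by norm_num) _ U 1 2 0 1,
      fun e e' => H.mp 2 (by norm_num) _ U 1 2 0 1 _ (oddE_two (u := 0) (v := 2) ?_ ?_ ?_ ?_),
      by omega⟩
    · fin_cases u <;> fin_cases v <;> simp_all [m3]
    all_goals simp [Crs, m3, e, e', h1]
  · have U := rz (um_n4 h1 (show t ≤ L.length by omega) h2 (show t' ≤ L.length by omega))
    refine ⟨_, wg_ind fun u v h e => ?_, H.m0 3 le_rfl _ U 2 3 0 1,
      fun e e' => H.mp 3 le_rfl _ U 2 3 0 1 _ (oddE_two (u := 0) (v := 2) ?_ ?_ ?_ ?_),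
      fun e e' => H.mp 3 le_rfl _ U 2 3 0 1 _ (oddE_two (u := 1) (v := 3) ?_ ?_ ?_ ?_)⟩
    · fin_cases u <;> fin_cases v <;> simp_all [m4]
    all_goals simp [Crs, m4, e, e', h1, h2]

end

end R21

open R21

/-- **(regularity, an edge at `j`, and same node)** -/
theorem rowRS : RowRS := by
  intro C hC
  refine ⟨100 * C, by linarith, fun Θ L T q P a j j₁ hM hj H hP hK ha hd => ?_⟩
  have c0 : 0 ≤ C := by linarith
  have d0 := dm_nonneg hM
  have cr : ∀ {u v B : ℝ} {i : ℕ}, |u| ≤ B → |v| ≤ B → B ≤ 50 * C → i + 1 = L.length →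
      |u - v| ≤ 100 * C * (a i + if i + 1 = L.length then 1 else 0) := fun {u v B i} hu hv hB hi => by
    rw [if_pos hi]
    exact (abs_sub _ _).trans (by nlinarith [mul_nonneg c0 (ha i)])
  have fi : ∀ {u B : ℝ} {i : ℕ}, |u| ≤ B * (2 * C * a i) → B ≤ 50 →
      |u| ≤ 100 * C * (a i + if i + 1 = L.length then 1 else 0) := fun {u B i} hu hB => by
    have := mul_nonneg c0 (ha i)
    split_ifs <;> nlinarith
  refine ⟨⟨fun y t _ b c d => ?_, fun y _ b => ?_, fun x t b c d e => ?_, fun x b c => ?_,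
    fun u x b c d => ?_, fun z k b c d => ?_, fun z k b c _ d e f => ?_⟩,
    fun x t t' b c d e f g => ?_, fun t t' b c d e => ⟨?_, fun f g => ?_⟩, fun σ h => ?_,
    fun σ h => ?_⟩
  · exact (lo_par hM H c0 b hj.le c d (hP y).1).trans
      (mul_le_mul_of_nonneg_right (by linarith) (hP y).1)
  · have hb : ¬Bad j L.length y := by unfold Bad; omega
    exact fi (LO_y hM H c0 hb (ha y) (by omega) hj.le (by linarith [hd y hb, d0 (y + 1)])
      (by linarith [hd y hb, d0 y])) (by norm_num)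
  · exact (lo_abs hM H c0 b.le c d e).trans (by linarith)
  · by_cases h : x + 1 = L.length
    · exact cr (LO_abs hM H c0 (by omega) c) (LO_abs hM H c0 b.le c.le) (by linarith) h
    · exact fi (LO_x hM H c0 (by unfold Bad; omega) (ha x) b.le c) (by norm_num)
  · by_cases h : x + 1 = L.length
    · exact cr (cP_abs hM H c0 b (by omega) d) (cP_abs hM H c0 b c.le d.le) (by linarith) h
    · exact fi (cP_x hM H c0 (by unfold Bad; omega) (ha x) b c.le d) (by norm_num)
  · exact (off_abs hM H c0 b.le hj.le c.le d).trans (by linarith)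
  · by_cases h : k + 1 = L.length
    · exact cr (off_abs hM H c0 b.le hj.le (by omega) d) (off_abs hM H c0 b.le hj.le c.le d.le)
        (by linarith) h
    · exact fi (B := 1) ((off_k hM H c0 (by unfold Bad; omega) (ha k) b.le hj.le c.le d).trans_eq
        (one_mul _).symm) (by norm_num)
  · obtain ⟨w, w1, w2, w3, w4⟩ := sN_wg H hj b c d e f g
    have i1 := ind0 j t
    have i2 := ind0 j t'
    have := d0 j
    have key : ∀ {s : ℕ} {W : ℝ}, w ≤ W → 0 ≤ W → s ≤ L.length →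
        (s < L.length → |(cM L T q j).sN L.length x t t'| ≤ C * w * P s) →
        |(cM L T q j).sN L.length x t t'| ≤ 100 * C * W * P s := fun {s W} h1 h2 h3 h4 => by
      have e1 : C * w ≤ 100 * C * W := by nlinarith [mul_nonneg c0 h2]
      rcases h3.eq_or_lt with rfl | h3
      · exact (w2.trans e1).trans (le_mul_of_one_le_right (by positivity) hK)
      · exact (h4 h3).trans (mul_le_mul_of_nonneg_right e1 (hP s).1)
    refine ⟨w2.trans (by nlinarith [mul_nonneg c0 (show 0 ≤ dm L 0 j + ind j t + ind j t' by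
      positivity)]), fun h h' => key ?_ (by positivity) h' (w3 h),
      fun h h' => key ?_ (by positivity) h' (w4 h)⟩
    · rw [show ind j t = 0 from if_neg h] at w1; linarith
    · rw [show ind j t' = 0 from if_neg h] at w1; linarith
  · exact (sN_abs hM H c0 b c hj.le d e).trans (by linarith)
  · exact (sN_even hM H c0 f g hj d e (hP j).1).trans
      (mul_le_mul_of_nonneg_right (by linarith) (hP j).1)
  · exact (k0 hM H c0 (r := 2) (by norm_num) (SF97.um_of_rz h) 1 2 0 1).trans (by linarith)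
  · exact (k0 hM H c0 (r := 3) le_rfl (SF97.um_of_rz h) 2 3 0 1).trans (by linarith)

end Crest.Agent.T156.Cas.Q21

end
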