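import Crest.Agent.T156.CQ21M_53

/-!
# Row 156 (helper53): `RegWS`, regularity of the marked site coefficient off the marked level
-/

set_option autoImplicit false
set_option linter.all false

noncomputable section

namespace Crest.Agent.T156.Cas.Q21.R53

open Finset
open Crest.Agent.T157.E Crest.Agent.T157.Casc Crest.Agent.T157.SL
open Crest.Agent.T156.Rect52 (mx)
open Crest.Agent.T156.Cas.Q75 Crest.Agent.T156.Cas.Q75.S97 Crest.Agent.T156.Cas.Q75.M53
open Nu87 Ker15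

section legs
variable {Θ : Type} {L : List (Lv Θ)} {ω : ℕ → ℝ}

/-- a weight on the positions -/
structure Om (L : List (Lv Θ)) (ω : ℕ → ℝ) : Prop where
  mono : Mono 0 L
  nn : ∀ t, 0 ≤ ω t
  top : ω (L.length + 1) = 1
  sum : ∑ t ∈ range (L.length + 1), dm L 0 t * ω t ≤ 2

theorem Om.lg (H : Om L ω) {u : ℕ} (hu : u ≤ L.length) {g : ℕ → ℝ} {c : ℝ}
    (h : ∀ t, u < t → t ≤ L.length + 1 → |g t| ≤ c * ω t) : |Lg L u g| ≤ 3 * c := by
  have h1 := h (L.length + 1) (by omega) le_rfl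
  rw [H.top, mul_one] at h1
  have c0 : 0 ≤ c := (abs_nonneg _).trans h1
  have h2 : |∑ t ∈ Ioc u L.length, dm L 0 t * g t| ≤
      ∑ t ∈ Ioc u L.length, c * (dm L 0 t * ω t) :=
    (Finset.abs_sum_le_sum_abs _ _).trans (Finset.sum_le_sum fun t ht => by
      have := Finset.mem_Ioc.1 ht
      rw [abs_mul, abs_of_nonneg (dm_nonneg H.mono t)]
      exact (mul_le_mul_of_nonneg_left (h t this.1 (by omega)) (dm_nonneg H.mono t)).trans_eq
        (by ring))
  rw [← Finset.mul_sum] at h2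
  have h3 : ∑ t ∈ Ioc u L.length, dm L 0 t * ω t ≤ 2 :=
    (Finset.sum_le_sum_of_subset_of_nonneg (fun t ht => by
      have := Finset.mem_Ioc.1 ht
      exact Finset.mem_range.2 (by omega))
      fun t _ _ => mul_nonneg (dm_nonneg H.mono t) (H.nn t)).trans H.sum
  have h4 := mul_le_mul_of_nonneg_left h3 c0
  exact (abs_sub _ _).trans (by linarith)

theorem Om.lx (H : Om L ω) {u : ℕ} (hu : u ≤ L.length) (h1 : ω u = 1) {g : ℕ → ℝ} {c : ℝ}
    (h : ∀ t, u ≤ t → t ≤ L.length + 1 → |g t| ≤ c * ω t) : |Lx L u g| ≤ 4 * c := by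
  have e1 := H.lg hu fun t ht => h t ht.le
  have e2 := h u le_rfl (by omega)
  rw [h1, mul_one] at e2
  have h2 := abs_ex_mul H.mono u e2
  exact (abs_sub _ _).trans (by linarith)

/-- pointwise regularity of `ℓ = T.lo`, weighted, at the good steps -/
structure PtW (K j : ℕ) (ℓ : ℕ → ℕ → ℕ → ℝ) (c : ℝ) (P a ω : ℕ → ℝ) : Prop where
  one : ∀ t, t ≠ j → ω t = 1
  zx : ∀ y t, ℓ y j t = 0
  zy : ∀ x t, ℓ j x t = 0
  h0 : ∀ y x t, y ≤ x → x ≤ K → y ≤ t → t ≤ K + 1 → |ℓ y x t| ≤ c * P y * ω t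
  hx : ∀ y x t, ¬ Bad j K x → y ≤ x → x < K → y ≤ t → t ≤ K + 1 →
    |ℓ y (x + 1) t - ℓ y x t| ≤ c * (P y * a x) * ω t
  ht : ∀ y x, ¬ Bad j K x → y ≤ x → x < K → |ℓ y x (x + 1) - ℓ y x x| ≤ c * (P y * a x)
  hy : ∀ y x t, ¬ Bad j K y → y < x → x ≤ K → y < t → t ≤ K + 1 →
    |ℓ (y + 1) x t - ℓ y x t| ≤ c * a y * ω t
  hyy : ∀ y x, ¬ Bad j K y → y < x → x ≤ K → |ℓ (y + 1) x (y + 1) - ℓ y x y| ≤ c * a y
  hxy : ∀ y x t, ¬ Bad j K y → ¬ Bad j K x → y < x → x < K → y < t → t ≤ K + 1 →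
    |ℓ (y + 1) (x + 1) t - ℓ (y + 1) x t - (ℓ y (x + 1) t - ℓ y x t)| ≤ c * (a y * a x) * ω t
  hty : ∀ y x, ¬ Bad j K y → ¬ Bad j K x → y < x → x < K →
    |ℓ (y + 1) x (x + 1) - ℓ (y + 1) x x - (ℓ y x (x + 1) - ℓ y x x)| ≤ c * (a y * a x)
  hxyy : ∀ y x, ¬ Bad j K y → ¬ Bad j K x → y < x → x < K →
    |ℓ (y + 1) (x + 1) (y + 1) - ℓ (y + 1) x (y + 1) - (ℓ y (x + 1) y - ℓ y x y)| ≤ c * (a y * a x)

variable {T : Tw} {c : ℝ} {P a : ℕ → ℝ} {j : ℕ}

theorem cP_zero {y u x : ℕ} (h : ∀ t, T.lo L.length y x t = 0) : cP L T y u x = 0 := by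
  simp [cP, Lx, Q75.Lg, h]

theorem LO_zero {y x : ℕ} (h : ∀ t, T.lo L.length y x t = 0) : LO L T y x = 0 := by
  simp [LO, cP_zero h, h]

theorem nb1 {K i : ℕ} (h : ¬ Bad j K i) : i ≠ j := fun e => h (.inl e)
theorem nb2 {K i : ℕ} (h : ¬ Bad j K i) : i + 1 ≠ j := fun e => h (.inr (.inl e))

variable (H : PtW L.length j (T.lo L.length) c P a ω) (W : Om L ω)
include H W

theorem PtW.cp (c0 : 0 ≤ c) (P0 : ∀ y, 0 ≤ P y) {y u x : ℕ} (h1 : y ≤ u) (h2 : u ≤ x)
    (hx : x ≤ L.length) : |cP L T y u x| ≤ 7 * (c * P y) := by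
  by_cases e : x = j
  · subst e
    rw [cP_zero (H.zx y), abs_zero]
    exact mul_nonneg (by norm_num) (mul_nonneg c0 (P0 y))
  have e1 := W.lg (u := u) (by omega) fun t ht ht' => H.h0 y x t (by omega) hx (by omega) ht'
  have e2 := W.lx hx (H.one x e) fun t ht ht' => H.h0 y x t (by omega) hx (by omega) ht'
  exact (abs_add_le _ _).trans (by linarith)

theorem PtW.lo (c0 : 0 ≤ c) (P0 : ∀ y, 0 ≤ P y) {y x : ℕ} (h1 : y ≤ x) (hx : x ≤ L.length) :
    |LO L T y x| ≤ 16 * (c * P y) := by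
  by_cases e : y = j
  · subst e
    rw [LO_zero (H.zy x), abs_zero]
    exact mul_nonneg (by norm_num) (mul_nonneg c0 (P0 y))
  have e1 := abs_le.1 (H.cp W c0 P0 le_rfl h1 hx)
  have e2 := H.h0 y x y h1 hx le_rfl (by omega)
  rw [H.one y e, mul_one] at e2
  have e3 := abs_le.1 (abs_mul_le' (kap_abs W.mono y) e2)
  rw [LO, abs_le]
  constructor <;> linarith [e1.1, e1.2, e3.1, e3.2]

theorem PtW.p1 {y u x : ℕ} (g : ¬ Bad j L.length x) (h1 : y ≤ u) (h2 : u ≤ x)
    (hx : x < L.length) : |cP L T y u (x + 1) - cP L T y u x| ≤ 8 * (c * (P y * a x)) := by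
  rw [cP_step L T y u hx]
  have e1 := W.lg (u := u) (by omega) fun t ht ht' => H.hx y x t g (by omega) hx (by omega) ht'
  have e2 := W.lx (u := x + 1) hx (H.one _ (nb2 g))
    fun t ht ht' => H.hx y x t g (by omega) hx (by omega) ht'
  have e3 := abs_ex_mul W.mono x (H.ht y x g (by omega) hx)
  exact (abs_sub _ _).trans ((add_le_add (abs_add_le _ _) e3).trans (by linarith))

theorem PtW.m1 {y x : ℕ} (g : ¬ Bad j L.length x) (h1 : y ≤ x) (hx : x < L.length) :
    |LO L T y (x + 1) - LO L T y x| ≤ 18 * (c * (P y * a x)) := by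
  have e0 := H.p1 W g le_rfl h1 hx
  by_cases e : y = j
  · subst e
    rw [LO_zero (H.zy _), LO_zero (H.zy _), sub_self, abs_zero]
    linarith [abs_nonneg (cP L T y y (x + 1) - cP L T y y x)]
  have e1 := abs_le.1 e0
  have e2 := H.hx y x y g h1 hx le_rfl (by omega)
  rw [H.one y e, mul_one] at e2
  have e3 := abs_le.1 (abs_mul_le' (kap_abs W.mono y) e2)
  rw [LO, LO, abs_le]
  constructor <;> linarith [e1.1, e1.2, e3.1, e3.2]

theorem PtW.my {C : ℝ} (c0 : 0 ≤ c) (hP : ∀ y, P y ≤ C) (C1 : 1 ≤ C) {y x : ℕ}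
    (g : ¬ Bad j L.length y) (h1 : y < x) (hx : x ≤ L.length) (d1 : dm L 0 y ≤ a y)
    (d2 : dm L 0 (y + 1) ≤ a y) : |LO L T (y + 1) x - LO L T y x| ≤ 20 * (c * C * a y) := by
  have a0 : 0 ≤ a y := (dm_nonneg W.mono y).trans d1
  have k0 : 0 ≤ c * a y := mul_nonneg c0 a0
  have k1 : c * a y ≤ c * C * a y := by nlinarith
  by_cases e : x = j
  · subst e
    rw [LO_zero (H.zx _), LO_zero (H.zx _), sub_self, abs_zero]
    linarith
  have hb : c * P y ≤ c * C := mul_le_mul_of_nonneg_left (hP y) c0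
  have e1 := abs_le.1 (W.lg (u := y + 1) (by omega)
    fun t ht ht' => H.hy y x t g h1 hx (by omega) ht')
  have e2 := abs_le.1 (W.lx hx (H.one x e) fun t ht ht' => H.hy y x t g h1 hx (by omega) ht')
  have f3 := H.h0 y x (y + 1) h1.le hx (by omega) (by omega)
  rw [H.one _ (nb2 g), mul_one] at f3
  have e3 := abs_le.1 (abs_mul_le' ((abs_of_nonneg (dm_nonneg W.mono (y + 1))).trans_le d2)
    (f3.trans hb))
  have e4 := abs_le.1 (abs_mul_le' (kap_abs W.mono (y + 1)) (H.hyy y x g h1 hx))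
  have f5 := H.h0 y x y h1.le hx le_rfl (by omega)
  rw [H.one _ (nb1 g), mul_one] at f5
  have e5 := abs_le.1 (abs_mul_le' (kap_step W.mono d1 d2) (f5.trans hb))
  rw [Lg_sub] at e1
  rw [Lx_sub] at e2
  rw [LO, LO, cP, cP, Lg_succ L (by omega : y < L.length) (T.lo L.length y x), abs_le]
  constructor <;> linarith [e1.1, e1.2, e2.1, e2.2, e3.1, e3.2, e4.1, e4.2, e5.1, e5.2]

theorem PtW.m2 {C : ℝ} (c0 : 0 ≤ c) (hP : ∀ y, P y ≤ C) (C1 : 1 ≤ C) {y x : ℕ}
    (g : ¬ Bad j L.length y) (g' : ¬ Bad j L.length x) (h1 : y < x) (hx : x < L.length)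
    (d1 : dm L 0 y ≤ a y) (d2 : dm L 0 (y + 1) ≤ a y) (a0 : 0 ≤ a x) :
    |mx (LO L T) y x| ≤ 22 * (c * C * (a y * a x)) := by
  have ay : 0 ≤ a y := (dm_nonneg W.mono y).trans d1
  have k0 : 0 ≤ c * (a y * a x) := mul_nonneg c0 (mul_nonneg ay a0)
  have k1 : c * (a y * a x) ≤ c * C * (a y * a x) := by nlinarith
  have hb : c * (P y * a x) ≤ c * (C * a x) := by have := hP y; gcongr
  have e1 := abs_le.1 (W.lg (u := y + 1) (by omega)
    fun t ht ht' => H.hxy y x t g g' h1 hx (by omega) ht')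
  have e2 := abs_le.1 (W.lx (u := x + 1) hx (H.one _ (nb2 g'))
    fun t ht ht' => H.hxy y x t g g' h1 hx (by omega) ht')
  have f3 := H.hx y x (y + 1) g' h1.le hx (by omega) (by omega)
  rw [H.one _ (nb2 g), mul_one] at f3
  have e3 := abs_le.1 (abs_mul_le' ((abs_of_nonneg (dm_nonneg W.mono (y + 1))).trans_le d2)
    (f3.trans hb))
  have e4 := abs_le.1 (abs_mul_le' (kap_abs W.mono (y + 1)) (H.hxyy y x g g' h1 hx))
  have f5 := H.hx y x y g' h1.le hx le_rfl (by omega)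
  rw [H.one _ (nb1 g), mul_one] at f5
  have e5 := abs_le.1 (abs_mul_le' (kap_step W.mono d1 d2) (f5.trans hb))
  have e6 := abs_le.1 (abs_ex_mul W.mono x (H.hty y x g g' h1 hx))
  have s1 := cP_step L T (y + 1) (y + 1) hx
  have s2 := cP_step L T y y hx
  rw [Lg_succ L (by omega : y < L.length)] at s2
  rw [Lg_sub] at e1
  rw [Lx_sub] at e2
  rw [mx, LO, LO, LO, LO, abs_le]
  constructor <;> linarith [e1.1, e1.2, e2.1, e2.2, e3.1, e3.2, e4.1, e4.2, e5.1, e5.2, e6.1, e6.2]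

end legs

/-! ### the marked coefficient -/

section inst
variable {Θ : Type} {L : List (Lv Θ)} {T : List (Lv Bool)} {q : Rf} {P a : ℕ → ℝ} {j : ℕ} {C : ℝ}

theorem om_omg (hM : Mono 0 L) (hj : j < L.length) (hd : 0 < dm L 0 j) : Om L (omg L j) := by
  refine ⟨hM, fun t => ?_, if_neg (by omega), ?_⟩
  · unfold omg; split_ifs <;> positivity
  · have e : ∀ t, dm L 0 t * omg L j t = dm L 0 t + if t = j then 1 else 0 := fun t => by
      unfold omg
      split_ifs with h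
      · rw [h]; field_simp
      · ring
    simp only [e, Finset.sum_add_distrib, Finset.sum_ite_eq', Finset.mem_range]
    rw [if_pos (by omega)]
    linarith [sum_dm_le_one hM (A := range (L.length + 1)) subset_rfl]

theorem lo_cN (y x t : ℕ) : (cN L T q j).lo L.length y x t =
    nj j x / dm L 0 j * nj j y * (cM L T q j).lo L.length y x t := by
  rw [cN, lo_mul, wt_lo]

theorem off_cN (z x k : ℕ) : (cN L T q j).off L.length z x k =
    nj j x / dm L 0 j * nj j k * Mk L T q j (so L.length z x k) 2 3 0 1 := rfl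

theorem nj_ne {x : ℕ} (h : x ≠ j) : nj j x = 1 := if_neg h

theorem nj_self : nj j j = 0 := if_pos rfl

theorem lo_top (y x : ℕ) : (cM L T q j).lo L.length y x (L.length + 1) =
    Mk L T q j (m3 L.length y y x) 1 2 0 1 := if_pos rfl

theorem lo_nd {y x t : ℕ} (h : t ≤ L.length) : (cM L T q j).lo L.length y x t =
    Mk L T q j (sl L.length y x t) 2 3 0 1 := if_neg (by omega)

theorem dv1 {d M B : ℝ} (hd : 0 < d) (h : |M| ≤ d * B) : |1 / d * 1 * M| ≤ B := by
  rw [mul_one, abs_mul, abs_of_pos (by positivity : 0 < 1 / d), one_div, inv_mul_le_iff₀ hd]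
  exact h

theorem dv2 {d M M' B : ℝ} (hd : 0 < d) (h : |M' - M| ≤ d * B) :
    |1 / d * 1 * M' - 1 / d * 1 * M| ≤ B := by
  rw [← mul_sub]; exact dv1 hd h

theorem dv4 {d M₀ M₁ M₂ M₃ B : ℝ} (hd : 0 < d) (h : |M₃ - M₁ - (M₂ - M₀)| ≤ d * B) :
    |1 / d * 1 * M₃ - 1 / d * 1 * M₁ - (1 / d * 1 * M₂ - 1 / d * 1 * M₀)| ≤ B := by
  rw [← mul_sub, ← mul_sub, ← mul_sub]; exact dv1 hd h

theorem rz_sl {K y x t : ℕ} (h1 : y ≤ x) (h2 : x ≤ K) (h3 : y ≤ t) (h4 : t ≤ K) :
    Rz K (sl K y x t) := rz_lo4 h2 h1 h3 h4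

theorem rz_so {K z x k : ℕ} (h1 : z ≤ x) (h2 : x ≤ K) (h3 : z ≤ k) (h4 : k ≤ K) :
    Rz K (so K z x k) := rz_off h2 h1 h3 h4

variable (hj : j < L.length) (hd : 0 < dm L 0 j) (H : MkH L T q j C P a) (C0 : 0 ≤ C)
  (P0 : ∀ i, 0 ≤ P i) (PK : 1 ≤ P L.length) (a0 : ∀ i, 0 ≤ a i)
include hj hd H C0 P0 PK a0

theorem ptW : PtW L.length j ((cN L T q j).lo L.length) C P a (omg L j) := by
  have w0 : ∀ t, 0 ≤ omg L j t := fun t => by unfold omg; split_ifs <;> positivity
  have w1 : omg L j (L.length + 1) = 1 := if_neg (by omega)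
  have w2 : ∀ t, t ≠ j → omg L j t = 1 := fun t h => if_neg h
  have zx : ∀ y t, (cN L T q j).lo L.length y j t = 0 := fun y t => by simp [lo_cN, nj_self]
  have zy : ∀ x t, (cN L T q j).lo L.length j x t = 0 := fun y t => by simp [lo_cN, nj_self]
  refine ⟨w2, zx, zy, fun y x t h1 h2 h3 h4 => ?_, fun y x t g h1 h2 h3 h4 => ?_,
    fun y x g h1 h2 => ?_, fun y x t g h1 h2 h3 h4 => ?_, fun y x g h1 h2 => ?_,
    fun y x t g g' h1 h2 h3 h4 => ?_, fun y x g g' h1 h2 => ?_, fun y x g g' h1 h2 => ?_⟩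
  · have := P0 y
    have := w0 t
    by_cases ex : x = j
    · rw [ex, zx, abs_zero]; positivity
    by_cases ey : y = j
    · rw [ey, zy, abs_zero]; have := P0 j; positivity
    rw [lo_cN, nj_ne ex, nj_ne ey]
    refine dv1 hd ?_
    rcases h4.eq_or_lt with rfl | h4
    · rw [lo_top, w1]
      rcases (h1.trans h2).eq_or_lt with e | e
      · have := H.m0 2 (by norm_num) _ (rz_lo3 h2 h1) 1 2 0 1
        rw [wg_m3 ex ey] at this
        refine this.trans ?_
        rw [e]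
        nlinarith [mul_nonneg C0 hd.le]
      · have := H.mp 2 (by norm_num) _ (rz_lo3 h2 h1) 1 2 0 1 y (odd_m3 e ey)
        rw [wg_m3 ex ey] at this
        exact this.trans_eq (by ring)
    · rw [lo_nd (by omega)]
      rcases (h1.trans h2).eq_or_lt with e | e
      · have := H.m0 3 le_rfl _ (rz_sl h1 h2 h3 (by omega)) 2 3 0 1
        rw [wg_sl hd ex ey] at this
        refine this.trans ?_
        rw [e]
        nlinarith [mul_nonneg (mul_nonneg C0 hd.le) (w0 t)]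
      · have := H.mp 3 le_rfl _ (rz_sl h1 h2 h3 (by omega)) 2 3 0 1 y (odd_sl4 e ey)
        rw [wg_sl hd ex ey] at this
        exact this.trans_eq (by ring)
  · by_cases ey : y = j
    · rw [ey, zy, zy, sub_self, abs_zero]
      have := P0 j
      have := w0 t
      have := a0 x
      positivity
    rw [lo_cN, lo_cN, nj_ne (nb1 g), nj_ne (nb2 g), nj_ne ey]
    refine dv2 hd ?_
    rcases h4.eq_or_lt with rfl | h4
    · rw [lo_top, lo_top, w1]
      have := H.m1p 2 (by norm_num) _ _ (rz_lo3 h2.le h1) (rz_lo3 h2 (by omega)) 1 2 0 1 x h2 g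
        m3_x y h1 (odd_m3 (by omega) ey) (odd_m3 (by omega) ey)
      rw [wg_m3 (nb1 g) ey] at this
      exact this.trans_eq (by ring)
    · rw [lo_nd (by omega), lo_nd (by omega)]
      have := H.m1p 3 le_rfl _ _ (rz_sl h1 h2.le h3 (by omega))
        (rz_sl (by omega) h2 h3 (by omega)) 2 3 0 1 x h2 g (sl_x h1 h3) y h1
        (odd_sl4 (by omega) ey) (odd_sl4 (by omega) ey)
      rw [wg_sl hd (nb1 g) ey] at this
      exact this.trans_eq (by ring)
  · by_cases ey : y = j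
    · rw [ey, zy, zy, sub_self, abs_zero]
      have := P0 j
      have := a0 x
      positivity
    rw [lo_cN, lo_cN, nj_ne (nb1 g), nj_ne ey]
    refine dv2 hd ?_
    rw [lo_nd h2, lo_nd h2.le]
    have := H.m1p 3 le_rfl _ _ (rz_sl h1 h2.le h1 h2.le) (rz_sl h1 h2.le (by omega) h2)
      2 3 0 1 x h2 g sl_t y h1 (odd_sl4 (by omega) ey) (odd_sl4 (by omega) ey)
    rw [wg_sl hd (nb1 g) ey, w2 _ (nb1 g)] at this
    exact this.trans_eq (by ring)
  · by_cases ex : x = j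
    · rw [ex, zx, zx, sub_self, abs_zero]
      have := w0 t
      have := a0 y
      positivity
    rw [lo_cN, lo_cN, nj_ne (nb1 g), nj_ne (nb2 g), nj_ne ex]
    refine dv2 hd ?_
    rcases h4.eq_or_lt with rfl | h4
    · rw [lo_top, lo_top, w1]
      have := H.m1 2 (by norm_num) _ _ (rz_lo3 h2 h1.le) (rz_lo3 h2 h1) 1 2 0 1 y (by omega) g m3_y
      rw [wg_m3 ex (nb1 g)] at this
      exact this.trans_eq (by ring)
    · rw [lo_nd (by omega), lo_nd (by omega)]
      have := H.m1 3 le_rfl _ _ (rz_sl h1.le h2 h3.le (by omega)) (rz_sl h1 h2 h3 (by omega))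
        2 3 0 1 y (by omega) g sl_y
      rw [wg_sl hd ex (nb1 g)] at this
      exact this.trans_eq (by ring)
  · by_cases ex : x = j
    · rw [ex, zx, zx, sub_self, abs_zero]
      have := a0 y
      positivity
    rw [lo_cN, lo_cN, nj_ne (nb1 g), nj_ne (nb2 g), nj_ne ex]
    refine dv2 hd ?_
    rw [lo_nd (by omega), lo_nd (by omega)]
    have := H.m1 3 le_rfl _ _ (rz_sl h1.le h2 le_rfl (by omega)) (rz_sl h1 h2 le_rfl (by omega))
      2 3 0 1 y (by omega) g (sl_yy h1)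
    rw [wg_sl hd ex (nb1 g), w2 _ (nb1 g)] at this
    exact this.trans_eq (by ring)
  · rw [lo_cN, lo_cN, lo_cN, lo_cN, nj_ne (nb1 g), nj_ne (nb2 g), nj_ne (nb1 g'), nj_ne (nb2 g')]
    refine dv4 hd ?_
    rcases h4.eq_or_lt with rfl | h4
    · rw [lo_top, lo_top, lo_top, lo_top, w1]
      have := H.m2 2 (by norm_num) _ _ _ _ (rz_lo3 h2.le h1.le) (rz_lo3 h2.le h1)
        (rz_lo3 h2 (by omega)) (rz_lo3 h2 (by omega)) 1 2 0 1 y x h1 h2 g g' m3_y m3_x ad_m3
      rw [wg_m3 (nb1 g') (nb1 g)] at this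
      exact this.trans_eq (by ring)
    · rw [lo_nd (by omega), lo_nd (by omega), lo_nd (by omega), lo_nd (by omega)]
      have := H.m2 3 le_rfl _ _ _ _ (rz_sl h1.le h2.le h3.le (by omega))
        (rz_sl h1 h2.le h3 (by omega)) (rz_sl (by omega) h2 h3.le (by omega))
        (rz_sl (by omega) h2 h3 (by omega)) 2 3 0 1 y x h1 h2 g g' sl_y (sl_x h1.le h3.le) ad_xy
      rw [wg_sl hd (nb1 g') (nb1 g)] at this
      exact this.trans_eq (by ring)
  · rw [lo_cN, lo_cN, lo_cN, lo_cN, nj_ne (nb1 g), nj_ne (nb2 g), nj_ne (nb1 g')]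
    refine dv4 hd ?_
    rw [lo_nd h2, lo_nd h2, lo_nd h2.le, lo_nd h2.le]
    have := H.m2 3 le_rfl _ _ _ _ (rz_sl h1.le h2.le h1.le h2.le) (rz_sl h1 h2.le h1 h2.le)
      (rz_sl h1.le h2.le (by omega) h2) (rz_sl h1 h2.le (by omega) h2) 2 3 0 1 y x h1 h2 g g'
      sl_y sl_t ad_ty
    rw [wg_sl hd (nb1 g') (nb1 g), w2 _ (nb1 g')] at this
    exact this.trans_eq (by ring)
  · rw [lo_cN, lo_cN, lo_cN, lo_cN, nj_ne (nb1 g), nj_ne (nb2 g), nj_ne (nb1 g'), nj_ne (nb2 g')]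
    refine dv4 hd ?_
    rw [lo_nd (by omega), lo_nd (by omega), lo_nd (by omega), lo_nd (by omega)]
    have := H.m2 3 le_rfl _ _ _ _ (rz_sl h1.le h2.le le_rfl (by omega))
      (rz_sl h1 h2.le le_rfl (by omega)) (rz_sl (by omega) h2 le_rfl (by omega))
      (rz_sl (by omega) h2 le_rfl (by omega)) 2 3 0 1 y x h1 h2 g g' (sl_yy h1)
      (sl_x h1.le le_rfl) (ad_xyy h1)
    rw [wg_sl hd (nb1 g') (nb1 g), w2 _ (nb1 g)] at this
    exact this.trans_eq (by ring)

theorem off0 {z x k : ℕ} (h1 : z ≤ x) (h2 : x ≤ L.length) (h3 : z ≤ k) (h4 : k ≤ L.length) :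
    |(cN L T q j).off L.length z x k| ≤ omg L j z * C := by
  have w0 : 0 ≤ omg L j z := by unfold omg; split_ifs <;> positivity
  rw [off_cN]
  by_cases ex : x = j
  · rw [ex, nj_self, zero_div, zero_mul, zero_mul, abs_zero]; positivity
  by_cases ek : k = j
  · rw [ek, nj_self, mul_zero, zero_mul, abs_zero]; positivity
  rw [nj_ne ex, nj_ne ek]
  refine dv1 hd ?_
  have := H.m0 3 le_rfl _ (rz_so h1 h2 h3 h4) 2 3 0 1
  rw [wg_so hd ex ek] at this
  exact this.trans_eq (by ring)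

theorem off1 {z x k : ℕ} (g : ¬ Bad j L.length x) (h1 : z ≤ x) (h2 : x < L.length) (h3 : z ≤ k)
    (h4 : k ≤ L.length) :
    |(cN L T q j).off L.length z (x + 1) k - (cN L T q j).off L.length z x k| ≤
      omg L j z * (C * a x) ∧
    |(cN L T q j).off L.length z k (x + 1) - (cN L T q j).off L.length z k x| ≤
      omg L j z * (C * a x) := by
  have w0 : 0 ≤ omg L j z := by unfold omg; split_ifs <;> positivity
  have := a0 x
  rw [off_cN, off_cN, off_cN, off_cN]
  by_cases ek : k = j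
  · simp only [ek, nj_self, mul_zero, zero_mul, zero_div, sub_self, abs_zero, and_self]
    positivity
  rw [nj_ne (nb1 g), nj_ne (nb2 g), nj_ne ek]
  refine ⟨dv2 hd ?_, dv2 hd ?_⟩
  · have := H.m1 3 le_rfl _ _ (rz_so h1 h2.le h3 h4) (rz_so (by omega) h2 h3 h4) 2 3 0 1 x h2 g so_x
    rw [wg_so hd (nb1 g) ek] at this
    exact this.trans_eq (by ring)
  · have := H.m1 3 le_rfl _ _ (rz_so h3 h4 h1 h2.le) (rz_so h3 h4 (by omega) h2) 2 3 0 1 x h2 g so_k
    rw [wg_so hd ek (nb1 g)] at this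
    exact this.trans_eq (by ring)

theorem off2 {z x k : ℕ} (g : ¬ Bad j L.length x) (g' : ¬ Bad j L.length k) (h1 : z ≤ x)
    (h2 : x < L.length) (h3 : z ≤ k) (h4 : k < L.length) (hne : x ≠ k) :
    |mx ((cN L T q j).off L.length z) x k| ≤ omg L j z * (C * (a x * a k)) := by
  have h1' := h1.trans x.le_succ
  have h3' := h3.trans k.le_succ
  rw [mx, off_cN, off_cN, off_cN, off_cN, nj_ne (nb1 g), nj_ne (nb2 g), nj_ne (nb1 g'),
    nj_ne (nb2 g')]
  rcases hne.lt_or_gt with h | h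
  · have := H.m2 3 le_rfl _ _ _ _ (rz_so h1 h2.le h3 h4.le) (rz_so h1' h2 h3 h4.le)
      (rz_so h1 h2.le h3' h4) (rz_so h1' h2 h3' h4) 2 3 0 1 x k h h4 g g' so_x so_k ad_so
    rw [wg_so hd (nb1 g) (nb1 g')] at this
    exact (le_of_eq (by congr 1; ring)).trans (dv4 hd (this.trans_eq (by ring)))
  · have := H.m2 3 le_rfl _ _ _ _ (rz_so h1 h2.le h3 h4.le) (rz_so h1 h2.le h3' h4)
      (rz_so h1' h2 h3 h4.le) (rz_so h1' h2 h3' h4) 2 3 0 1 k x h h2 g' g so_k so_x ad_so'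
    rw [wg_so hd (nb1 g) (nb1 g')] at this
    exact (le_of_eq (by congr 1; ring)).trans (dv4 hd (this.trans_eq (by ring)))

end inst

theorem two_le {u v b : ℝ} (h : |u| ≤ b) (h' : |v| ≤ b) : |u - v| ≤ 2 * b :=
  (abs_sub _ _).trans (by linarith)

/-- **`RegWS`** -/
theorem regWS : RegWS := by
  intro C C1
  refine ⟨100 * C ^ 2, by nlinarith, fun Θ L T q P a j j₁ hM hj hd H hP PK a0 hda => ?_⟩
  have C0 : 0 ≤ C := by linarith
  have P0 : ∀ i, 0 ≤ P i := fun i => (hP i).1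
  have PC : ∀ i, P i ≤ C := fun i => (hP i).2
  have W := om_omg hM hj hd
  have G := ptW hj hd H C0 P0 PK a0
  set κ := 100 * C ^ 2 with hκ
  have k1 : 100 * C ≤ κ := by nlinarith
  have k2 : 100 * (C * C) ≤ κ := by nlinarith
  have k0 : 1 ≤ κ := by linarith
  set s : ℕ → ℝ := fun i => κ * (a i + if Bad j L.length i then 1 else 0) with hs
  have sa : ∀ i, κ * a i ≤ s i := fun i => by
    simp only [hs]; split_ifs <;> nlinarith
  have sb : ∀ i, Bad j L.length i → κ ≤ s i := fun i h => by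
    simp only [hs, if_pos h]; nlinarith [a0 i]
  have d1 : ∀ i, ¬ Bad j L.length i → dm L 0 i ≤ a i ∧ dm L 0 (i + 1) ≤ a i := fun i h => by
    constructor <;> linarith [hda i h, dm_nonneg hM i, dm_nonneg hM (i + 1)]
  have ca : ∀ i, 100 * (C * C * a i) ≤ s i ∧ 0 ≤ C * C * a i ∧ C * a i ≤ C * C * a i := fun i => by
    have := a0 i
    have := sa i
    refine ⟨by nlinarith, by positivity, by nlinarith [mul_nonneg C0 (a0 i)]⟩
  have pa : ∀ y i, C * (P y * a i) ≤ C * C * a i := fun y i => by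
    have := mul_le_mul_of_nonneg_right (PC y) (mul_nonneg C0 (a0 i))
    linarith
  have pc : ∀ y, C * P y ≤ C * C := fun y => mul_le_mul_of_nonneg_left (PC y) C0
  have s0 : ∀ i, 0 ≤ s i := fun i => by linarith [(ca i).1, (ca i).2.1]
  have ps : ∀ y i, 100 * (C * (P y * a i)) ≤ κ * P y * s i := fun y i => by
    have h1 : 100 * C * a i ≤ s i := by nlinarith [sa i, a0 i]
    have h2 := mul_le_mul_of_nonneg_left h1 (P0 y)
    have h3 := mul_le_mul_of_nonneg_right k0 (mul_nonneg (P0 y) (s0 i))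
    linarith
  have pb : ∀ y i, Bad j L.length i → 100 * (C * P y) ≤ κ * P y * s i := fun y i h => by
    have h2 := mul_le_mul_of_nonneg_left (k1.trans (sb i h)) (P0 y)
    have h3 := mul_le_mul_of_nonneg_right k0 (mul_nonneg (P0 y) (s0 i))
    linarith
  have sl1 : ∀ i i', Bad j L.length i → s i' ≤ s i * s i' := fun i i' h => by
    nlinarith [sb i h, s0 i']
  have sl2 : ∀ i i', 100 * (C * C * (a i * a i')) ≤ s i * s i' ∧ 0 ≤ C * C * (a i * a i') ∧
      C * (a i * a i') ≤ C * C * (a i * a i') := fun i i' => by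
    have h0 := mul_nonneg (a0 i) (a0 i')
    have h1 := mul_le_mul (sa i) (sa i') (mul_nonneg (by linarith) (a0 i')) (s0 i)
    have h2 : 100 * (C * C) ≤ κ * κ := by nlinarith
    refine ⟨by nlinarith, by positivity, by nlinarith [mul_nonneg C0 h0]⟩
  have w0 := W.nn
  have CP : ∀ y, C * P y ≤ κ * P y := fun y => by nlinarith [P0 y]
  have o1 : ∀ z x k, z < x → z < k → x < L.length → k ≤ L.length →
      |(cN L T q j).off L.length z (x + 1) k - (cN L T q j).off L.length z x k| ≤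
        omg L j z * s x ∧
      |(cN L T q j).off L.length z k (x + 1) - (cN L T q j).off L.length z k x| ≤
        omg L j z * s x := fun z x k h1 h2 h3 h4 => by
    by_cases g : Bad j L.length x
    · have e : 2 * (omg L j z * C) ≤ omg L j z * s x := by nlinarith [sb x g, w0 z]
      exact ⟨(two_le (off0 hj hd H C0 P0 PK a0 (by omega) h3 h2.le h4)
        (off0 hj hd H C0 P0 PK a0 h1.le h3.le h2.le h4)).trans e,
        (two_le (off0 hj hd H C0 P0 PK a0 h2.le h4 (by omega) h3)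
        (off0 hj hd H C0 P0 PK a0 h2.le h4 h1.le h3.le)).trans e⟩
    · have e : omg L j z * (C * a x) ≤ omg L j z * s x :=
        mul_le_mul_of_nonneg_left (by linarith [(ca x).1, (ca x).2.1, (ca x).2.2]) (w0 z)
      have := off1 hj hd H C0 P0 PK a0 g h1.le h3 h2.le h4
      exact ⟨this.1.trans e, this.2.trans e⟩
  have o1' : ∀ z x k, z < x → z < k → x < L.length → k ≤ L.length →
      |(cN L T q j).off L.length z (x + 1) k - (cN L T q j).off L.length z x k| ≤
        omg L j z * (s x / 50) ∧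
      |(cN L T q j).off L.length z k (x + 1) - (cN L T q j).off L.length z k x| ≤
        omg L j z * (s x / 50) := fun z x k h1 h2 h3 h4 => by
    by_cases g : Bad j L.length x
    · have e : 2 * (omg L j z * C) ≤ omg L j z * (s x / 50) := by nlinarith [sb x g, w0 z]
      exact ⟨(two_le (off0 hj hd H C0 P0 PK a0 (by omega) h3 h2.le h4)
        (off0 hj hd H C0 P0 PK a0 h1.le h3.le h2.le h4)).trans e,
        (two_le (off0 hj hd H C0 P0 PK a0 h2.le h4 (by omega) h3)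
        (off0 hj hd H C0 P0 PK a0 h2.le h4 h1.le h3.le)).trans e⟩
    · have e : omg L j z * (C * a x) ≤ omg L j z * (s x / 50) :=
        mul_le_mul_of_nonneg_left (by linarith [(ca x).1, (ca x).2.1, (ca x).2.2]) (w0 z)
      have := off1 hj hd H C0 P0 PK a0 g h1.le h3 h2.le h4
      exact ⟨this.1.trans e, this.2.trans e⟩
  have mX : ∀ y x, y ≤ x → x < L.length →
      |LO L (cN L T q j) y (x + 1) - LO L (cN L T q j) y x| ≤ s x / 2 := fun y x h1 h2 => by
    by_cases g : Bad j L.length x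
    · linarith [two_le (G.lo W C0 P0 (h1.trans x.le_succ) h2) (G.lo W C0 P0 h1 h2.le), sb x g, pc y]
    · linarith [G.m1 W g h1 h2, (ca x).1, (ca x).2.1, pa y x]
  have mY : ∀ y x, y < x → x ≤ L.length →
      |LO L (cN L T q j) (y + 1) x - LO L (cN L T q j) y x| ≤ s y / 2 := fun y x h1 h2 => by
    by_cases g : Bad j L.length y
    · linarith [abs_sub (LO L (cN L T q j) (y + 1) x) (LO L (cN L T q j) y x),
        G.lo W C0 P0 (show y + 1 ≤ x from h1) h2, G.lo W C0 P0 h1.le h2, sb y g, pc y, pc (y + 1)]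
    · linarith [G.my W C0 PC C1 g h1 h2 (d1 y g).1 (d1 y g).2, (ca y).1, (ca y).2.1]
  refine ⟨fun y x t _ h1 h2 h3 h4 => ?_, fun y x _ h1 h2 => ⟨?_, ?_⟩, fun x h1 h2 => ?_,
    fun i _ h => ⟨?_, ?_⟩, fun i i' _ h1 h2 => ?_, fun y u x _ h1 h2 h3 => ?_,
    fun z x k h1 h2 _ _ h3 h4 => ?_, fun z x k h1 h2 _ _ h3 h4 => o1 z x k h1 h2 h3 h4,
    fun z x k h1 h2 _ _ h3 h4 hne => ?_⟩
  · exact (G.h0 y x t h1 h2 h3 h4).trans (mul_le_mul_of_nonneg_right (CP y) (w0 t))
  · by_cases e : x = j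
    · rw [e, G.zx, abs_zero]; exact mul_nonneg (by linarith) (P0 y)
    · have := G.h0 y x x h1 h2 h1 (by omega)
      rw [G.one x e, mul_one] at this
      exact this.trans (CP y)
  · by_cases e : y = j
    · rw [e, G.zy, abs_zero]; exact mul_nonneg (by linarith) (P0 j)
    · have := G.h0 y x y h1 h2 le_rfl (by omega)
      rw [G.one y e, mul_one] at this
      exact this.trans (CP y)
  · have := mul_nonneg C0 (P0 j₁)
    have := mul_nonneg C0 (mul_nonneg (P0 j₁) (a0 x))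
    by_cases g : Bad j L.length x
    · linarith [two_le (G.lo W C0 P0 (h1.trans x.le_succ) h2) (G.lo W C0 P0 h1 h2.le), pb j₁ x g]
    · linarith [G.m1 W g h1 h2, ps j₁ x]
  · linarith [mY i (i + 1) i.lt_succ_self h, s0 i]
  · linarith [mX i i le_rfl h, s0 i]
  · by_cases g : Bad j L.length i
    · have e1 := abs_le.1 (mX (i + 1) i' h1 h2)
      have e2 := abs_le.1 (mX i i' h1.le h2)
      have := sl1 i i' g
      rw [mx, abs_le]
      constructor <;> linarith [e1.1, e1.2, e2.1, e2.2]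
    by_cases g' : Bad j L.length i'
    · have e1 := abs_le.1 (mY i (i' + 1) (by omega) h2)
      have e2 := abs_le.1 (mY i i' h1 h2.le)
      have := sl1 i' i g'
      rw [mx, abs_le]
      constructor <;> linarith [e1.1, e1.2, e2.1, e2.2]
    · linarith [G.m2 W C0 PC C1 g g' h1 h2 (d1 i g).1 (d1 i g).2 (a0 i'), (sl2 i i').1,
        (sl2 i i').2.1]
  · have := mul_nonneg C0 (P0 y)
    have := mul_nonneg C0 (mul_nonneg (P0 y) (a0 x))
    by_cases g : Bad j L.length x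
    · linarith [two_le (G.cp W C0 P0 h1 (show u ≤ x + 1 by omega) h3)
        (G.cp W C0 P0 h1 h2.le h3.le), pb y x g]
    · linarith [G.p1 W g h1 h2.le h3, ps y x]
  · exact (off0 hj hd H C0 P0 PK a0 h1.le h3 h2.le h4).trans
      (mul_le_mul_of_nonneg_left (by linarith) (w0 z))
  · by_cases g : Bad j L.length x
    · have e1 := abs_le.1 (o1' z k (x + 1) h2 (by omega) h4 h3).2
      have e2 := abs_le.1 (o1' z k x h2 h1 h4 h3.le).2
      have := mul_le_mul_of_nonneg_left (sl1 x k g) (w0 z)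
      have := mul_nonneg (w0 z) (s0 k)
      rw [mx, abs_le]
      constructor <;> linarith [e1.1, e1.2, e2.1, e2.2]
    by_cases g' : Bad j L.length k
    · have e1 := abs_le.1 (o1' z x (k + 1) h1 (by omega) h3 h4).1
      have e2 := abs_le.1 (o1' z x k h1 h2 h3 h4.le).1
      have := mul_le_mul_of_nonneg_left (sl1 k x g') (w0 z)
      have := mul_nonneg (w0 z) (s0 x)
      rw [mx, abs_le]
      constructor <;> linarith [e1.1, e1.2, e2.1, e2.2]
    · exact (off2 hj hd H C0 P0 PK a0 g g' h1.le h3 h2.le h4 hne).trans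
        (mul_le_mul_of_nonneg_left (by linarith [(sl2 x k).1, (sl2 x k).2.1, (sl2 x k).2.2]) (w0 z))

end Crest.Agent.T156.Cas.Q21.R53

end
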