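import Crest.Agent.T156.CQ2D_10
import Crest.Agent.T156.NuW_87

/-!
# Row 156 (helper87): two-letter words are two-edge terms
-/

set_option autoImplicit false
set_option linter.unusedSectionVars false

noncomputable section

namespace Crest.Agent.T156.Cas.Q75.L87

open Crest.Agent.T157.E Crest.Agent.T157.Casc Crest.Agent.T157.SL
open Crest.Agent.T157.G1 (ov)
open Crest.ProbabilityR.SpinGlassDynamics (spin)
open Nu87 Mul55

variable {Ω : Type} [Fintype Ω] {w : Ω → ℝ} {L : List (Lv Ω)} {h : Ω → ℝ}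
  {S S' : ℕ → Ω → Ω → ℝ}

theorem ed_comm {r K : ℕ} (hS : ∀ j x y, S j x y = S j y x) {σ : SM r} (hσ : Rz K σ) (a b : Fin r)
    (x : Fin r → Ω) : ed S a b x σ = ed S b a x σ := by
  rw [ed, ed, hS, hσ.comm]

/-- relabelling of two edges -/
theorem TM_two (hw : Wt w) {r r' : ℕ} {σ : SM r} (hσ : Rz L.length σ) {ι : Fin r' → Fin r}
    (hι : Function.Injective ι) (a b c d : Fin r') :
    TM w L h (fun a b => σ (ι a) (ι b)) (fun x => ed S a b x (fun a b => σ (ι a) (ι b)) *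
      ed S' c d x fun a b => σ (ι a) (ι b)) =
      TM w L h σ fun x => ed S (ι a) (ι b) x σ * ed S' (ι c) (ι d) x σ :=
  (TM_inj hw hσ hι _).symm

theorem ee_sy (hw : Wt w) (hS : ∀ j x y, S j x y = S j y x) (hS' : ∀ j x y, S' j x y = S' j y x) :
    (ee w L h S S').Sy L.length := fun σ hσ =>
  ⟨(TM_two hw hσ (ι := ![1, 0, 2, 3]) (by decide) 2 3 0 1).trans (congrArg (TM w L h σ)
      (funext fun x => congrArg (_ * ·) (ed_comm hS' hσ 1 0 x))),
    (TM_two hw hσ (ι := ![0, 1, 3, 2]) (by decide) 2 3 0 1).trans (congrArg (TM w L h σ)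
      (funext fun x => congrArg (· * _) (ed_comm hS hσ 3 2 x)))⟩

theorem f_mk (a : SM 2 → ℝ) (b : SM 3 → ℝ) (c : SM 4 → ℝ) :
    (Tw.mk a b c).f2 = a ∧ (Tw.mk a b c).f3 = b ∧ (Tw.mk a b c).f4 = c := ⟨rfl, rfl, rfl⟩

theorem ee_tr (hw : Wt w) (hS : ∀ j x y, S j x y = S j y x) (hS' : ∀ j x y, S' j x y = S' j y x) :
    (ee w L h S S').tr.Eqv (ee w L h S' S) L.length :=
  ⟨fun σ _ => (congrFun (f_mk _ _ _).1 σ).trans
      (congrArg (TM w L h σ) (funext fun _ => mul_comm _ _)),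
    fun σ hσ => (congrFun (f_mk _ _ _).2.1 σ).trans
      ((TM_two hw hσ (ι := ![2, 1, 0]) (by decide) 1 2 0 1).trans (congrArg (TM w L h σ)
        (funext fun x => (mul_comm _ _).trans
          (congrArg₂ (· * ·) (ed_comm hS' hσ 2 1 x) (ed_comm hS hσ 1 0 x))))),
    fun σ hσ => (congrFun (f_mk _ _ _).2.2 σ).trans
      ((TM_two hw hσ (ι := ![2, 3, 0, 1]) (by decide) 2 3 0 1).trans
        (congrArg (TM w L h σ) (funext fun _ => mul_comm _ _)))⟩

theorem Dr_two {K : ℕ} (hS' : ∀ j x y, S' j x y = S' j y x) (F : RF Ω 2) (x : Fin 4 → Ω) {σ : SM 4}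
    (hσ : Rz K σ) : Dr (r := 1) S' F x σ =
      2 * (F.re ![2, 3] x σ * ed S' 2 3 x σ) - 4 * (F.re ![2, 3] x σ * ed S' 1 2 x σ) -
      4 * (F.re ![2, 3] x σ * ed S' 1 3 x σ) + 6 * (F.re ![2, 3] x σ * ed S' 0 1 x σ) := by
  have e : (fun b : Fin 2 => b.succ.succ) = ![2, 3] := by
    funext b; fin_cases b <;> rfl
  have e1 : ∑ a : Fin 2, ∑ b ∈ Finset.univ.erase a, ed S' a.succ.succ b.succ.succ x σ =
      ed S' 2 3 x σ + ed S' 3 2 x σ := by
    rw [Fin.sum_univ_two, show (Finset.univ : Finset (Fin 2)).erase 0 = {1} by decide,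
      show (Finset.univ : Finset (Fin 2)).erase 1 = {0} by decide, Finset.sum_singleton,
      Finset.sum_singleton]
    rfl
  have e2 : ∑ b : Fin 2, (ed S' b.succ.succ 1 x σ + ed S' 1 b.succ.succ x σ) =
      ed S' 2 1 x σ + ed S' 1 2 x σ + (ed S' 3 1 x σ + ed S' 1 3 x σ) := Fin.sum_univ_two _
  rw [Dr, e1, e2, e, ed_comm hS' hσ 3 2, ed_comm hS' hσ 2 1, ed_comm hS' hσ 3 1]
  push_cast
  ring

/-- the derivative of a pair term, fixed node -/
theorem nuc_ex (hw : Wt w) (hS : ∀ j x y, S j x y = S j y x) (hS' : ∀ j x y, S' j x y = S' j y x)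
    (j : ℕ) : nuc (r := 1) w L h (tw L.length j) 2 (Dr (r := 1) S' (ed S 0 1)) =
      Ex L (ee w L h S S') j := by
  have hσ := rz_tw L.length j
  have e0 := nuc_old (h := h) (k := 2) hw hσ fun x τ => ed S 0 1 x τ * ed S' 0 1 x τ
  have e1 := nuc_re (h := h) (k := 1) (k' := 2) hw hσ (fun x τ => ed S 1 2 x τ * ed S' 0 1 x τ)
    (ι := ![1, 2, 3]) (by decide) (by decide)
  have e2 : avc L (tw L.length j) 2 (fun τ => TM w L h τ fun x => ed S 2 3 x τ * ed S' 1 3 x τ) =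
      avc L (tw L.length j) 1 fun τ => TM w L h τ fun x => ed S 1 2 x τ * ed S' 0 1 x τ := by
    have h1 := nuc_re (h := h) (k := 1) (k' := 2) hw hσ (fun x τ => ed S 1 2 x τ * ed S' 0 2 x τ)
      (ι := ![1, 2, 3]) (by decide) (by decide)
    refine h1.trans ?_
    have h2 := up1_perm (L := L) (τ := tw L.length j) (Equiv.swap 0 1)
      fun τ => TM w L h τ fun x => ed S 1 2 x τ * ed S' 0 1 x τ
    have h3 : (fun a b => tw L.length j (Equiv.swap 0 1 a) (Equiv.swap 0 1 b)) = tw L.length j := by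
      funext a b; fin_cases a <;> fin_cases b <;> rfl
    rw [h3] at h2
    refine Eq.trans (up1_congr (φ := fun τ => TM w L h τ fun x => ed S 1 2 x τ * ed S' 0 2 x τ) hσ
      fun τ hτ => ?_) h2
    exact ((TM_two hw hτ (ι := (Fin.cons 0 fun a => (Equiv.swap 0 1 a).succ : Fin 3 → Fin 3))
      (by decide) 1 2 0 1).trans (congrArg (TM w L h τ) (funext fun x =>
        congrArg (· * _) (ed_comm hS hτ 2 1 x)))).symm
  rw [nuc_congr hσ fun x τ hτ => Dr_two hS' (ed S 0 1) x hτ, nuc_add, nuc_sub, nuc_sub, nuc_mul,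
    nuc_mul, nuc_mul, nuc_mul]
  refine (congrArg₂ (· + ·) (congrArg₂ (· - ·) (congrArg₂ (· - ·) (congrArg (2 * ·) e0)
    (congrArg (4 * ·) e1)) (congrArg (4 * ·) e2)) rfl).trans ?_
  exact (show ∀ a b c : ℝ, 2 * a - 4 * b - 4 * b + 6 * c = 2 * a - 8 * b + 6 * c from
    fun _ _ _ => by ring) _ _ _

/-- node-wise two-letter word -/
theorem twoF_ex (hw : Wt w) (hS : ∀ j x y, S j x y = S j y x) (hS' : ∀ j x y, S' j x y = S' j y x)
    (hO : S' ∈ Ok Ω L.length) {j : ℕ} (hj : j ≤ L.length) :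
    twoF j (S j) (Dop L S' (TEf w L h)) = Ex L (ee w L h S S') j :=
  (twoF_eq_nW hw (U := [S']) (by simpa using hO) hj S).trans (nuc_ex hw hS hS' j)

theorem two_ful (T : Tw) :
    2 * Ful L T = ∑ j ∈ Finset.range (L.length + 1), dm L 0 j * Ex L T j := by
  have h2 : avm L 2 T.f3 = _ := (avm_avc (r := 1) 1 T.f3).trans (avm_one _)
  have h3 : avm L 3 T.f4 = _ := (avm_avc (r := 1) 2 T.f4).trans (avm_one _)
  rw [Ful, avm_one, h2, h3, Finset.mul_sum, Finset.mul_sum, ← Finset.sum_sub_distrib,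
    ← Finset.sum_add_distrib, Finset.mul_sum]
  exact Finset.sum_congr rfl fun j _ => by rw [Ex]; ring

/-- **two-letter words** -/
theorem lam_ful (hw : Wt w) (hS : ∀ j x y, S j x y = S j y x) (hS' : ∀ j x y, S' j x y = S' j y x)
    (hO : S' ∈ Ok Ω L.length) : Lam w L h [S, S'] = 2 * Ful L (ee w L h S S') := by
  rw [two_ful, Lam_cons, pairF]
  exact Finset.sum_congr rfl fun j hj =>
    congrArg _ (twoF_ex hw hS hS' hO (Nat.lt_succ_iff.1 (Finset.mem_range.1 hj)))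

theorem Ful_congr {T T' : Tw} (H : T.Eqv T' L.length) : Ful L T = Ful L T' := by
  rw [Ful, Ful, avm_congr L 1 H.1, avm_congr L 2 H.2.1, avm_congr L 3 H.2.2]

theorem Ex_congr {T T' : Tw} (H : T.Eqv T' L.length) (j : ℕ) : Ex L T j = Ex L T' j := by
  rw [Ex, Ex, H.1 _ (rz_tw _ _), avc_congr (r := 1) (rz_tw _ _) 1 H.2.1,
    avc_congr (r := 1) (rz_tw _ _) 2 H.2.2]

theorem len_tilt {Ω' : Type} {L' : List (Lv Ω')} (H : L.map Lv.m = L'.map Lv.m) :
    L.length = L'.length := by simpa using congrArg List.length H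

theorem Ful_tilt {Ω' : Type} [Fintype Ω'] {L' : List (Lv Ω')} (H : L.map Lv.m = L'.map Lv.m) (T : Tw) :
    Ful L T = Ful L' T := by
  simp only [Ful, avm_tilt (len_tilt H) (Tp.ex_congr H)]

theorem Ex_tilt {Ω' : Type} [Fintype Ω'] {L' : List (Lv Ω')} (H : L.map Lv.m = L'.map Lv.m) (T : Tw)
    (j : ℕ) : Ex L T j = Ex L' T j := by
  simp only [Ex, avc_tilt (len_tilt H) (Tp.ex_congr H), len_tilt H]

section op
variable {n : ℕ} {β : ℝ} {M : List (ℝ × ℝ × ℝ)} {q : ℕ → ℝ}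

theorem TM_op_zero (hn : 0 < n) (H : OOk M q) {r : ℕ} {σ : SM r} (hσ : Rz M.length σ)
    (G : (Fin r → Cube n) → ℝ) (ξ : (Fin r → Bool) → ℝ) :
    TM (fun _ => 1) (op n β M q 0) 0 σ (fun x => G (fun a => (x a).1) * ξ fun a => (x a).2) =
      TM (fun _ => 1) (M.map (mxL n β)) 0 σ G * TM (fun _ => 1) (opS n β M q) 0 σ ξ := by
  have := TM_prd wt_one90 wt_one90 (prd_op (β := β) hn H) (by rwa [op_length]) G ξ 0 0
  rw [Law.pw2_one, Law.ad_zero, List.map_map, List.map_map] at this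
  rw [opS, opV, List.map_map, ← OneP.oInc_map (bb n β ^ 2) 0 q M]
  exact this

/-- two tensor edges at the product end point -/
theorem ee_op (hn : 0 < n) (H : OOk M q) (φ ψ : ℕ → ℝ) (U U' : ℕ → Cube n → Cube n → ℝ)
    (Z Z' : ℕ → Bool → Bool → ℝ) :
    (ee (fun _ => 1) (op n β M q 0) 0 (fun j x y => φ j * U j x.1 y.1 * Z j x.2 y.2)
      fun j x y => ψ j * U' j x.1 y.1 * Z' j x.2 y.2).Eqv
      (((wt φ ψ).mul (ee (fun _ => 1) (opS n β M q) 0 Z Z')).mul
        (ee (fun _ => 1) (M.map (mxL n β)) 0 U U')) M.length := by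
  have key : ∀ {r : ℕ} {σ : SM r}, Rz M.length σ → ∀ a b c d : Fin r,
      TM (fun _ => 1) (op n β M q 0) 0 σ (fun x =>
        ed (fun j (x y : Cube n × Bool) => φ j * U j x.1 y.1 * Z j x.2 y.2) a b x σ *
        ed (fun j (x y : Cube n × Bool) => ψ j * U' j x.1 y.1 * Z' j x.2 y.2) c d x σ) =
      φ (σ a b) * ψ (σ c d) *
        TM (fun _ => 1) (opS n β M q) 0 σ (fun x => ed Z a b x σ * ed Z' c d x σ) *
        TM (fun _ => 1) (M.map (mxL n β)) 0 σ fun x => ed U a b x σ * ed U' c d x σ :=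
    fun {r σ} hσ a b c d => by
      rw [mul_assoc, mul_comm (TM _ (opS n β M q) _ _ _), ← TM_op_zero hn H hσ, ← TM_mul]
      refine congrArg _ (funext fun x => ?_)
      simp only [ed]
      ring
  exact ⟨fun _ hσ => key hσ 0 1 0 1, fun _ hσ => key hσ 1 2 0 1, fun _ hσ => key hσ 2 3 0 1⟩

end op

end Crest.Agent.T156.Cas.Q75.L87

namespace Crest.Agent.T156.Cas.C40.Q10

open Crest.Agent.T157.E Crest.Agent.T157.Casc Crest.Agent.T157.SL
open Crest.ProbabilityR.SpinGlassDynamics (spin)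
open Q75 Q75.L87 Mul55

theorem ten_aU (D : CD) : ten (lt D.n D.β D.M D.q D.cl aU) =
    fun j x y => ph D j * oU D.q j x.1 y.1 * oE D.q j x.2 y.2 := by
  funext j x y
  by_cases hj : D.J < j
  · simp [ten, lt, cut, CD.cl, ph, hj, oUb, oZs]
  · simp [ten, lt, cut, CD.cl, ph, hj]

theorem sL_val (D : CD) (hW : D.W.isSome = false) (V : List SK) :
    D.sL V = Lam (fun _ => 1) D.S 0 V := by
  have : D.W = none := by simpa using hW
  simp only [CD.sL, CD.sH, CD.dd, this, List.drop_zero, zero_mul, add_zero, List.map_id']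
  rfl

theorem spin_sq87 (y : Bool) : spin y * spin y = 1 := by cases y <;> simp [spin]

theorem Sd_ok (D : CD) : D.Sd ∈ Ok Bool D.S.length :=
  ⟨by funext a b; simp [CD.Sd], _, fun y => by simp only [CD.Sd, oE, spin_sq87]; rfl⟩

theorem lev_ok (D : CD) {t : ℕ} (ht : t ≠ 0) : D.lev t ∈ Ok Bool D.S.length :=
  ⟨by funext a b; simp [CD.lev, ht.symm], _, fun y => by simp only [CD.lev, oE, spin_sq87]; rfl⟩

theorem linkS : LinkS := fun τ0 D H hW => by
  have hn : D.W = none := by simpa using hW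
  refine ⟨?_, ?_, fun t ht => ?_⟩
  · have hs : ∀ j (x y : Cube D.n × Bool), ph D j * oU D.q j x.1 y.1 * oE D.q j x.2 y.2 =
        ph D j * oU D.q j y.1 x.1 * oE D.q j y.2 x.2 := fun j x y => by
      rw [oU, oU, oE, oE, T157.G1.ov, T157.G1.ov, dotProduct_comm, mul_comm (spin x.2)]
    have hm := lt_mem (β := D.β) H.pos H.ook D.cl aU
    rw [ten_aU, ← op_length (n := D.n) (β := D.β) (q := D.q) 0] at hm
    simp only [CD.tw, CD.dd, hn, tm, List.map, ten_aU]
    rw [oL, lam_ful wt_one90 hs hs hm, Ful_congr (by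
      rw [op_length]; exact ee_op H.pos H.ook _ _ _ _ _ _), Ful_tilt (tilt_op 0)]
    rfl
  · rw [sL_val D hW, lam_ful wt_one90 ?_ ?_ (Sd_ok D), Ful_tilt tilt_opS] <;>
      exact fun j x y => by simp only [CD.Sd, oE, mul_comm (spin x)]
  · rw [sL_val D hW, lam_ful wt_one90 ?_ ?_ (lev_ok D (by have := (Finset.mem_Ioo.1 ht).1; omega)),
      Ful_tilt tilt_opS] <;> exact fun j x y => by simp only [CD.lev, oE, mul_comm (spin x)]

end Crest.Agent.T156.Cas.C40.Q10

end
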