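import Crest.Agent.T156.CQ21D_52
import Crest.Agent.T156.CLink_87

/-!
# Row 156 (helper52): the marked edge is put last (any weights)
-/

set_option autoImplicit false
set_option linter.all false

noncomputable section

namespace Crest.Agent.T156.Cas.Q21

open Finset
open Crest.Agent.T157.E Crest.Agent.T157.Casc Crest.Agent.T157.SL
open Crest.Agent.T156.Cas.Q75
open Nu87

/-! ### the combinatorial identity -/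

theorem cf4 (Φ : Fin 4 → Fin 4 → ℝ) : ∑ c, ∑ d, E91.cf 1 c d * Φ c d =
    Φ 2 3 + Φ 3 2 - 2 * (Φ 2 1 + Φ 3 1 + Φ 1 2 + Φ 1 3) + 6 * Φ 0 1 := by
  simp [Fin.sum_univ_four, E91.cf]
  ring

theorem cf5 (Φ : Fin 5 → Fin 5 → ℝ) : ∑ c, ∑ d, E91.cf 2 c d * Φ c d =
    Φ 2 3 + Φ 2 4 + Φ 3 2 + Φ 3 4 + Φ 4 2 + Φ 4 3 -
      3 * (Φ 2 1 + Φ 3 1 + Φ 4 1 + Φ 1 2 + Φ 1 3 + Φ 1 4) + 12 * Φ 0 1 := by
  simp [Fin.sum_univ_five, E91.cf]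
  ring

theorem cf6 (Φ : Fin 6 → Fin 6 → ℝ) : ∑ c, ∑ d, E91.cf 3 c d * Φ c d =
    Φ 2 3 + Φ 2 4 + Φ 2 5 + Φ 3 2 + Φ 3 4 + Φ 3 5 + Φ 4 2 + Φ 4 3 + Φ 4 5 + Φ 5 2 + Φ 5 3 + Φ 5 4 -
      4 * (Φ 2 1 + Φ 3 1 + Φ 4 1 + Φ 5 1 + Φ 1 2 + Φ 1 3 + Φ 1 4 + Φ 1 5) + 20 * Φ 0 1 := by
  simp [Fin.sum_univ_six, E91.cf]
  ring

set_option maxRecDepth 4000 in
theorem comb (N : Fin 6 → Fin 6 → Fin 6 → Fin 6 → Fin 6 → Fin 6 → ℝ)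
    (H : ∀ a b c d e f a' b' c' d' e' f', (∀ i k : Fin 6, ![a, b, c, d, e, f] i = ![a, b, c, d, e, f] k ↔
      ![a', b', c', d', e', f'] i = ![a', b', c', d', e', f'] k) →
      N a b c d e f = N a' b' c' d' e' f')
    (F1 : ∀ a b c d e f, N a b c d e f = N b a c d e f)
    (F2 : ∀ a b c d e f, N a b c d e f = N a b d c e f)
    (F3 : ∀ a b c d e f, N a b c d e f = N a b c d f e) :
    E91.D2 (fun c d e f => N 4 5 c d e f) =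
      2 * (∑ a : Fin 4, ∑ b : Fin 4, E91.cf 1 a b * N a.succ.succ b.succ.succ 4 5 4 5 -
        4 * ∑ a : Fin 5, ∑ b : Fin 5, E91.cf 2 a b * N a.succ b.succ 4 5 3 4 +
        3 * ∑ a : Fin 6, ∑ b : Fin 6, E91.cf 3 a b * N a b 4 5 2 3) := by
  have e0 : (0 : Fin 4).succ.succ = (2 : Fin 6) := rfl
  have e1 : (1 : Fin 4).succ.succ = (3 : Fin 6) := rfl
  have e2 : (2 : Fin 4).succ.succ = (4 : Fin 6) := rfl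
  have e3 : (3 : Fin 4).succ.succ = (5 : Fin 6) := rfl
  have g0 : (0 : Fin 5).succ = (1 : Fin 6) := rfl
  have g1 : (1 : Fin 5).succ = (2 : Fin 6) := rfl
  have g2 : (2 : Fin 5).succ = (3 : Fin 6) := rfl
  have g3 : (3 : Fin 5).succ = (4 : Fin 6) := rfl
  have g4 : (4 : Fin 5).succ = (5 : Fin 6) := rfl
  have e : E91.D2 (fun c d e f => N 4 5 c d e f) = ∑ c : Fin 4, ∑ d : Fin 4, E91.cf 1 c d *
      ∑ e : Fin 6, ∑ f : Fin 6, E91.cf 3 e f * N 4 5 c.succ.succ d.succ.succ e f := by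
    simp only [E91.D2, mul_sum, mul_assoc]
  have h0 : N 0 1 4 5 2 3 = N 0 1 2 3 4 5 :=
    H 0 1 4 5 2 3 0 1 2 3 4 5 (by decide)
  have h1 : N 1 2 4 5 2 3 = N 0 1 2 3 0 4 :=
    (F1 1 2 4 5 2 3).trans (H 2 1 4 5 2 3 0 1 2 3 0 4 (by decide))
  have h2 : N 1 2 4 5 3 4 = N 0 1 2 3 2 4 :=
    (F3 1 2 4 5 3 4).trans (H 1 2 4 5 4 3 0 1 2 3 2 4 (by decide))
  have h3 : N 1 3 4 5 2 3 = N 0 1 2 3 0 4 :=
    (F1 1 3 4 5 2 3).trans ((F3 3 1 4 5 2 3).trans (H 3 1 4 5 3 2 0 1 2 3 0 4 (by decide)))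
  have h4 : N 1 4 4 5 2 3 = N 0 1 0 2 3 4 :=
    (F1 1 4 4 5 2 3).trans (H 4 1 4 5 2 3 0 1 0 2 3 4 (by decide))
  have h5 : N 1 5 4 5 2 3 = N 0 1 0 2 3 4 :=
    (F1 1 5 4 5 2 3).trans ((F2 5 1 4 5 2 3).trans (H 5 1 5 4 2 3 0 1 0 2 3 4 (by decide)))
  have h6 : N 2 1 4 5 2 3 = N 0 1 2 3 0 4 :=
    H 2 1 4 5 2 3 0 1 2 3 0 4 (by decide)
  have h7 : N 2 3 4 5 2 3 = N 0 1 2 3 0 1 :=
    H 2 3 4 5 2 3 0 1 2 3 0 1 (by decide)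
  have h8 : N 2 3 4 5 3 4 = N 0 1 2 3 0 2 :=
    (F1 2 3 4 5 3 4).trans (H 3 2 4 5 3 4 0 1 2 3 0 2 (by decide))
  have h9 : N 2 3 4 5 4 5 = N 0 1 2 3 2 3 :=
    H 2 3 4 5 4 5 0 1 2 3 2 3 (by decide)
  have h10 : N 2 4 4 5 2 3 = N 0 1 0 2 1 3 :=
    (F1 2 4 4 5 2 3).trans (H 4 2 4 5 2 3 0 1 0 2 1 3 (by decide))
  have h11 : N 2 4 4 5 3 4 = N 0 1 0 2 0 3 :=
    (F1 2 4 4 5 3 4).trans ((F3 4 2 4 5 3 4).trans (H 4 2 4 5 4 3 0 1 0 2 0 3 (by decide)))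
  have h12 : N 2 5 4 5 2 3 = N 0 1 0 2 1 3 :=
    (F1 2 5 4 5 2 3).trans ((F2 5 2 4 5 2 3).trans (H 5 2 5 4 2 3 0 1 0 2 1 3 (by decide)))
  have h13 : N 2 5 4 5 3 4 = N 0 1 0 2 2 3 :=
    (F1 2 5 4 5 3 4).trans ((F2 5 2 4 5 3 4).trans ((F3 5 2 5 4 3 4).trans (H 5 2 5 4 4 3 0 1 0 2 2 3 (by decide))))
  have h14 : N 3 1 4 5 2 3 = N 0 1 2 3 0 4 :=
    (F3 3 1 4 5 2 3).trans (H 3 1 4 5 3 2 0 1 2 3 0 4 (by decide))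
  have h15 : N 3 2 4 5 2 3 = N 0 1 2 3 0 1 :=
    (F3 3 2 4 5 2 3).trans (H 3 2 4 5 3 2 0 1 2 3 0 1 (by decide))
  have h16 : N 3 2 4 5 3 4 = N 0 1 2 3 0 2 :=
    H 3 2 4 5 3 4 0 1 2 3 0 2 (by decide)
  have h17 : N 3 4 4 5 2 3 = N 0 1 0 2 1 3 :=
    (F1 3 4 4 5 2 3).trans ((F3 4 3 4 5 2 3).trans (H 4 3 4 5 3 2 0 1 0 2 1 3 (by decide)))
  have h18 : N 3 4 4 5 3 4 = N 0 1 0 2 0 1 :=
    (F1 3 4 4 5 3 4).trans ((F3 4 3 4 5 3 4).trans (H 4 3 4 5 4 3 0 1 0 2 0 1 (by decide)))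
  have h19 : N 3 4 4 5 4 5 = N 0 1 0 2 0 2 :=
    (F1 3 4 4 5 4 5).trans (H 4 3 4 5 4 5 0 1 0 2 0 2 (by decide))
  have h20 : N 3 5 4 5 2 3 = N 0 1 0 2 1 3 :=
    (F1 3 5 4 5 2 3).trans ((F2 5 3 4 5 2 3).trans ((F3 5 3 5 4 2 3).trans (H 5 3 5 4 3 2 0 1 0 2 1 3 (by decide))))
  have h21 : N 3 5 4 5 3 4 = N 0 1 0 2 1 2 :=
    (F1 3 5 4 5 3 4).trans ((F2 5 3 4 5 3 4).trans (H 5 3 5 4 3 4 0 1 0 2 1 2 (by decide)))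
  have h22 : N 3 5 4 5 4 5 = N 0 1 0 2 0 2 :=
    (F1 3 5 4 5 4 5).trans ((F2 5 3 4 5 4 5).trans ((F3 5 3 5 4 4 5).trans (H 5 3 5 4 5 4 0 1 0 2 0 2 (by decide))))
  have h23 : N 4 1 4 5 2 3 = N 0 1 0 2 3 4 :=
    H 4 1 4 5 2 3 0 1 0 2 3 4 (by decide)
  have h24 : N 4 2 4 5 2 3 = N 0 1 0 2 1 3 :=
    H 4 2 4 5 2 3 0 1 0 2 1 3 (by decide)
  have h25 : N 4 2 4 5 3 4 = N 0 1 0 2 0 3 :=
    (F3 4 2 4 5 3 4).trans (H 4 2 4 5 4 3 0 1 0 2 0 3 (by decide))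
  have h26 : N 4 3 4 5 2 3 = N 0 1 0 2 1 3 :=
    (F3 4 3 4 5 2 3).trans (H 4 3 4 5 3 2 0 1 0 2 1 3 (by decide))
  have h27 : N 4 3 4 5 3 4 = N 0 1 0 2 0 1 :=
    (F3 4 3 4 5 3 4).trans (H 4 3 4 5 4 3 0 1 0 2 0 1 (by decide))
  have h28 : N 4 3 4 5 4 5 = N 0 1 0 2 0 2 :=
    H 4 3 4 5 4 5 0 1 0 2 0 2 (by decide)
  have h29 : N 4 5 2 3 0 1 = N 0 1 2 3 4 5 :=
    H 4 5 2 3 0 1 0 1 2 3 4 5 (by decide)
  have h30 : N 4 5 2 3 1 2 = N 0 1 2 3 2 4 :=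
    (F3 4 5 2 3 1 2).trans (H 4 5 2 3 2 1 0 1 2 3 2 4 (by decide))
  have h31 : N 4 5 2 3 1 3 = N 0 1 2 3 2 4 :=
    (F2 4 5 2 3 1 3).trans ((F3 4 5 3 2 1 3).trans (H 4 5 3 2 3 1 0 1 2 3 2 4 (by decide)))
  have h32 : N 4 5 2 3 1 4 = N 0 1 2 3 0 4 :=
    (F3 4 5 2 3 1 4).trans (H 4 5 2 3 4 1 0 1 2 3 0 4 (by decide))
  have h33 : N 4 5 2 3 1 5 = N 0 1 2 3 0 4 :=
    (F1 4 5 2 3 1 5).trans ((F3 5 4 2 3 1 5).trans (H 5 4 2 3 5 1 0 1 2 3 0 4 (by decide)))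
  have h34 : N 4 5 2 3 2 1 = N 0 1 2 3 2 4 :=
    H 4 5 2 3 2 1 0 1 2 3 2 4 (by decide)
  have h35 : N 4 5 2 3 2 3 = N 0 1 2 3 2 3 :=
    H 4 5 2 3 2 3 0 1 2 3 2 3 (by decide)
  have h36 : N 4 5 2 3 2 4 = N 0 1 2 3 0 2 :=
    (F3 4 5 2 3 2 4).trans (H 4 5 2 3 4 2 0 1 2 3 0 2 (by decide))
  have h37 : N 4 5 2 3 2 5 = N 0 1 2 3 0 2 :=
    (F1 4 5 2 3 2 5).trans ((F3 5 4 2 3 2 5).trans (H 5 4 2 3 5 2 0 1 2 3 0 2 (by decide)))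
  have h38 : N 4 5 2 3 3 1 = N 0 1 2 3 2 4 :=
    (F2 4 5 2 3 3 1).trans (H 4 5 3 2 3 1 0 1 2 3 2 4 (by decide))
  have h39 : N 4 5 2 3 3 2 = N 0 1 2 3 2 3 :=
    (F3 4 5 2 3 3 2).trans (H 4 5 2 3 2 3 0 1 2 3 2 3 (by decide))
  have h40 : N 4 5 2 3 3 4 = N 0 1 2 3 0 2 :=
    (F2 4 5 2 3 3 4).trans ((F3 4 5 3 2 3 4).trans (H 4 5 3 2 4 3 0 1 2 3 0 2 (by decide)))
  have h41 : N 4 5 2 3 3 5 = N 0 1 2 3 0 2 :=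
    (F1 4 5 2 3 3 5).trans ((F2 5 4 2 3 3 5).trans ((F3 5 4 3 2 3 5).trans (H 5 4 3 2 5 3 0 1 2 3 0 2 (by decide))))
  have h42 : N 4 5 2 3 4 1 = N 0 1 2 3 0 4 :=
    H 4 5 2 3 4 1 0 1 2 3 0 4 (by decide)
  have h43 : N 4 5 2 3 4 2 = N 0 1 2 3 0 2 :=
    H 4 5 2 3 4 2 0 1 2 3 0 2 (by decide)
  have h44 : N 4 5 2 3 4 3 = N 0 1 2 3 0 2 :=
    (F2 4 5 2 3 4 3).trans (H 4 5 3 2 4 3 0 1 2 3 0 2 (by decide))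
  have h45 : N 4 5 2 3 4 5 = N 0 1 2 3 0 1 :=
    H 4 5 2 3 4 5 0 1 2 3 0 1 (by decide)
  have h46 : N 4 5 2 3 5 1 = N 0 1 2 3 0 4 :=
    (F1 4 5 2 3 5 1).trans (H 5 4 2 3 5 1 0 1 2 3 0 4 (by decide))
  have h47 : N 4 5 2 3 5 2 = N 0 1 2 3 0 2 :=
    (F1 4 5 2 3 5 2).trans (H 5 4 2 3 5 2 0 1 2 3 0 2 (by decide))
  have h48 : N 4 5 2 3 5 3 = N 0 1 2 3 0 2 :=
    (F1 4 5 2 3 5 3).trans ((F2 5 4 2 3 5 3).trans (H 5 4 3 2 5 3 0 1 2 3 0 2 (by decide)))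
  have h49 : N 4 5 2 3 5 4 = N 0 1 2 3 0 1 :=
    (F3 4 5 2 3 5 4).trans (H 4 5 2 3 4 5 0 1 2 3 0 1 (by decide))
  have h50 : N 4 5 3 4 0 1 = N 0 1 0 2 3 4 :=
    (F2 4 5 3 4 0 1).trans (H 4 5 4 3 0 1 0 1 0 2 3 4 (by decide))
  have h51 : N 4 5 3 4 1 2 = N 0 1 0 2 3 4 :=
    (F2 4 5 3 4 1 2).trans (H 4 5 4 3 1 2 0 1 0 2 3 4 (by decide))
  have h52 : N 4 5 3 4 1 3 = N 0 1 0 2 2 3 :=
    (F2 4 5 3 4 1 3).trans ((F3 4 5 4 3 1 3).trans (H 4 5 4 3 3 1 0 1 0 2 2 3 (by decide)))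
  have h53 : N 4 5 3 4 1 4 = N 0 1 0 2 0 3 :=
    (F2 4 5 3 4 1 4).trans ((F3 4 5 4 3 1 4).trans (H 4 5 4 3 4 1 0 1 0 2 0 3 (by decide)))
  have h54 : N 4 5 3 4 1 5 = N 0 1 0 2 1 3 :=
    (F2 4 5 3 4 1 5).trans ((F3 4 5 4 3 1 5).trans (H 4 5 4 3 5 1 0 1 0 2 1 3 (by decide)))
  have h55 : N 4 5 3 4 2 1 = N 0 1 0 2 3 4 :=
    (F2 4 5 3 4 2 1).trans (H 4 5 4 3 2 1 0 1 0 2 3 4 (by decide))
  have h56 : N 4 5 3 4 2 3 = N 0 1 0 2 2 3 :=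
    (F2 4 5 3 4 2 3).trans ((F3 4 5 4 3 2 3).trans (H 4 5 4 3 3 2 0 1 0 2 2 3 (by decide)))
  have h57 : N 4 5 3 4 2 4 = N 0 1 0 2 0 3 :=
    (F2 4 5 3 4 2 4).trans ((F3 4 5 4 3 2 4).trans (H 4 5 4 3 4 2 0 1 0 2 0 3 (by decide)))
  have h58 : N 4 5 3 4 2 5 = N 0 1 0 2 1 3 :=
    (F2 4 5 3 4 2 5).trans ((F3 4 5 4 3 2 5).trans (H 4 5 4 3 5 2 0 1 0 2 1 3 (by decide)))
  have h59 : N 4 5 3 4 3 1 = N 0 1 0 2 2 3 :=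
    (F2 4 5 3 4 3 1).trans (H 4 5 4 3 3 1 0 1 0 2 2 3 (by decide))
  have h60 : N 4 5 3 4 3 2 = N 0 1 0 2 2 3 :=
    (F2 4 5 3 4 3 2).trans (H 4 5 4 3 3 2 0 1 0 2 2 3 (by decide))
  have h61 : N 4 5 3 4 3 4 = N 0 1 0 2 0 2 :=
    (F2 4 5 3 4 3 4).trans ((F3 4 5 4 3 3 4).trans (H 4 5 4 3 4 3 0 1 0 2 0 2 (by decide)))
  have h62 : N 4 5 3 4 3 5 = N 0 1 0 2 1 2 :=
    (F2 4 5 3 4 3 5).trans ((F3 4 5 4 3 3 5).trans (H 4 5 4 3 5 3 0 1 0 2 1 2 (by decide)))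
  have h63 : N 4 5 3 4 4 1 = N 0 1 0 2 0 3 :=
    (F2 4 5 3 4 4 1).trans (H 4 5 4 3 4 1 0 1 0 2 0 3 (by decide))
  have h64 : N 4 5 3 4 4 2 = N 0 1 0 2 0 3 :=
    (F2 4 5 3 4 4 2).trans (H 4 5 4 3 4 2 0 1 0 2 0 3 (by decide))
  have h65 : N 4 5 3 4 4 3 = N 0 1 0 2 0 2 :=
    (F2 4 5 3 4 4 3).trans (H 4 5 4 3 4 3 0 1 0 2 0 2 (by decide))
  have h66 : N 4 5 3 4 4 5 = N 0 1 0 2 0 1 :=
    (F2 4 5 3 4 4 5).trans (H 4 5 4 3 4 5 0 1 0 2 0 1 (by decide))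
  have h67 : N 4 5 3 4 5 1 = N 0 1 0 2 1 3 :=
    (F2 4 5 3 4 5 1).trans (H 4 5 4 3 5 1 0 1 0 2 1 3 (by decide))
  have h68 : N 4 5 3 4 5 2 = N 0 1 0 2 1 3 :=
    (F2 4 5 3 4 5 2).trans (H 4 5 4 3 5 2 0 1 0 2 1 3 (by decide))
  have h69 : N 4 5 3 4 5 3 = N 0 1 0 2 1 2 :=
    (F2 4 5 3 4 5 3).trans (H 4 5 4 3 5 3 0 1 0 2 1 2 (by decide))
  have h70 : N 4 5 3 4 5 4 = N 0 1 0 2 0 1 :=
    (F2 4 5 3 4 5 4).trans ((F3 4 5 4 3 5 4).trans (H 4 5 4 3 4 5 0 1 0 2 0 1 (by decide)))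
  have h71 : N 4 5 3 5 0 1 = N 0 1 0 2 3 4 :=
    (F1 4 5 3 5 0 1).trans ((F2 5 4 3 5 0 1).trans (H 5 4 5 3 0 1 0 1 0 2 3 4 (by decide)))
  have h72 : N 4 5 3 5 1 2 = N 0 1 0 2 3 4 :=
    (F1 4 5 3 5 1 2).trans ((F2 5 4 3 5 1 2).trans (H 5 4 5 3 1 2 0 1 0 2 3 4 (by decide)))
  have h73 : N 4 5 3 5 1 3 = N 0 1 0 2 2 3 :=
    (F1 4 5 3 5 1 3).trans ((F2 5 4 3 5 1 3).trans ((F3 5 4 5 3 1 3).trans (H 5 4 5 3 3 1 0 1 0 2 2 3 (by decide))))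
  have h74 : N 4 5 3 5 1 4 = N 0 1 0 2 1 3 :=
    (F1 4 5 3 5 1 4).trans ((F2 5 4 3 5 1 4).trans ((F3 5 4 5 3 1 4).trans (H 5 4 5 3 4 1 0 1 0 2 1 3 (by decide))))
  have h75 : N 4 5 3 5 1 5 = N 0 1 0 2 0 3 :=
    (F1 4 5 3 5 1 5).trans ((F2 5 4 3 5 1 5).trans ((F3 5 4 5 3 1 5).trans (H 5 4 5 3 5 1 0 1 0 2 0 3 (by decide))))
  have h76 : N 4 5 3 5 2 1 = N 0 1 0 2 3 4 :=
    (F1 4 5 3 5 2 1).trans ((F2 5 4 3 5 2 1).trans (H 5 4 5 3 2 1 0 1 0 2 3 4 (by decide)))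
  have h77 : N 4 5 3 5 2 3 = N 0 1 0 2 2 3 :=
    (F1 4 5 3 5 2 3).trans ((F2 5 4 3 5 2 3).trans ((F3 5 4 5 3 2 3).trans (H 5 4 5 3 3 2 0 1 0 2 2 3 (by decide))))
  have h78 : N 4 5 3 5 2 4 = N 0 1 0 2 1 3 :=
    (F1 4 5 3 5 2 4).trans ((F2 5 4 3 5 2 4).trans ((F3 5 4 5 3 2 4).trans (H 5 4 5 3 4 2 0 1 0 2 1 3 (by decide))))
  have h79 : N 4 5 3 5 2 5 = N 0 1 0 2 0 3 :=
    (F1 4 5 3 5 2 5).trans ((F2 5 4 3 5 2 5).trans ((F3 5 4 5 3 2 5).trans (H 5 4 5 3 5 2 0 1 0 2 0 3 (by decide))))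
  have h80 : N 4 5 3 5 3 1 = N 0 1 0 2 2 3 :=
    (F1 4 5 3 5 3 1).trans ((F2 5 4 3 5 3 1).trans (H 5 4 5 3 3 1 0 1 0 2 2 3 (by decide)))
  have h81 : N 4 5 3 5 3 2 = N 0 1 0 2 2 3 :=
    (F1 4 5 3 5 3 2).trans ((F2 5 4 3 5 3 2).trans (H 5 4 5 3 3 2 0 1 0 2 2 3 (by decide)))
  have h82 : N 4 5 3 5 3 4 = N 0 1 0 2 1 2 :=
    (F1 4 5 3 5 3 4).trans ((F2 5 4 3 5 3 4).trans ((F3 5 4 5 3 3 4).trans (H 5 4 5 3 4 3 0 1 0 2 1 2 (by decide))))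
  have h83 : N 4 5 3 5 3 5 = N 0 1 0 2 0 2 :=
    (F1 4 5 3 5 3 5).trans ((F2 5 4 3 5 3 5).trans ((F3 5 4 5 3 3 5).trans (H 5 4 5 3 5 3 0 1 0 2 0 2 (by decide))))
  have h84 : N 4 5 3 5 4 1 = N 0 1 0 2 1 3 :=
    (F1 4 5 3 5 4 1).trans ((F2 5 4 3 5 4 1).trans (H 5 4 5 3 4 1 0 1 0 2 1 3 (by decide)))
  have h85 : N 4 5 3 5 4 2 = N 0 1 0 2 1 3 :=
    (F1 4 5 3 5 4 2).trans ((F2 5 4 3 5 4 2).trans (H 5 4 5 3 4 2 0 1 0 2 1 3 (by decide)))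
  have h86 : N 4 5 3 5 4 3 = N 0 1 0 2 1 2 :=
    (F1 4 5 3 5 4 3).trans ((F2 5 4 3 5 4 3).trans (H 5 4 5 3 4 3 0 1 0 2 1 2 (by decide)))
  have h87 : N 4 5 3 5 4 5 = N 0 1 0 2 0 1 :=
    (F1 4 5 3 5 4 5).trans ((F2 5 4 3 5 4 5).trans ((F3 5 4 5 3 4 5).trans (H 5 4 5 3 5 4 0 1 0 2 0 1 (by decide))))
  have h88 : N 4 5 3 5 5 1 = N 0 1 0 2 0 3 :=
    (F1 4 5 3 5 5 1).trans ((F2 5 4 3 5 5 1).trans (H 5 4 5 3 5 1 0 1 0 2 0 3 (by decide)))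
  have h89 : N 4 5 3 5 5 2 = N 0 1 0 2 0 3 :=
    (F1 4 5 3 5 5 2).trans ((F2 5 4 3 5 5 2).trans (H 5 4 5 3 5 2 0 1 0 2 0 3 (by decide)))
  have h90 : N 4 5 3 5 5 3 = N 0 1 0 2 0 2 :=
    (F1 4 5 3 5 5 3).trans ((F2 5 4 3 5 5 3).trans (H 5 4 5 3 5 3 0 1 0 2 0 2 (by decide)))
  have h91 : N 4 5 3 5 5 4 = N 0 1 0 2 0 1 :=
    (F1 4 5 3 5 5 4).trans ((F2 5 4 3 5 5 4).trans (H 5 4 5 3 5 4 0 1 0 2 0 1 (by decide)))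
  have h92 : N 4 5 4 3 0 1 = N 0 1 0 2 3 4 :=
    H 4 5 4 3 0 1 0 1 0 2 3 4 (by decide)
  have h93 : N 4 5 4 3 1 2 = N 0 1 0 2 3 4 :=
    H 4 5 4 3 1 2 0 1 0 2 3 4 (by decide)
  have h94 : N 4 5 4 3 1 3 = N 0 1 0 2 2 3 :=
    (F3 4 5 4 3 1 3).trans (H 4 5 4 3 3 1 0 1 0 2 2 3 (by decide))
  have h95 : N 4 5 4 3 1 4 = N 0 1 0 2 0 3 :=
    (F3 4 5 4 3 1 4).trans (H 4 5 4 3 4 1 0 1 0 2 0 3 (by decide))
  have h96 : N 4 5 4 3 1 5 = N 0 1 0 2 1 3 :=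
    (F3 4 5 4 3 1 5).trans (H 4 5 4 3 5 1 0 1 0 2 1 3 (by decide))
  have h97 : N 4 5 4 3 2 1 = N 0 1 0 2 3 4 :=
    H 4 5 4 3 2 1 0 1 0 2 3 4 (by decide)
  have h98 : N 4 5 4 3 2 3 = N 0 1 0 2 2 3 :=
    (F3 4 5 4 3 2 3).trans (H 4 5 4 3 3 2 0 1 0 2 2 3 (by decide))
  have h99 : N 4 5 4 3 2 4 = N 0 1 0 2 0 3 :=
    (F3 4 5 4 3 2 4).trans (H 4 5 4 3 4 2 0 1 0 2 0 3 (by decide))
  have h100 : N 4 5 4 3 2 5 = N 0 1 0 2 1 3 :=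
    (F3 4 5 4 3 2 5).trans (H 4 5 4 3 5 2 0 1 0 2 1 3 (by decide))
  have h101 : N 4 5 4 3 3 1 = N 0 1 0 2 2 3 :=
    H 4 5 4 3 3 1 0 1 0 2 2 3 (by decide)
  have h102 : N 4 5 4 3 3 2 = N 0 1 0 2 2 3 :=
    H 4 5 4 3 3 2 0 1 0 2 2 3 (by decide)
  have h103 : N 4 5 4 3 3 4 = N 0 1 0 2 0 2 :=
    (F3 4 5 4 3 3 4).trans (H 4 5 4 3 4 3 0 1 0 2 0 2 (by decide))
  have h104 : N 4 5 4 3 3 5 = N 0 1 0 2 1 2 :=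
    (F3 4 5 4 3 3 5).trans (H 4 5 4 3 5 3 0 1 0 2 1 2 (by decide))
  have h105 : N 4 5 4 3 4 1 = N 0 1 0 2 0 3 :=
    H 4 5 4 3 4 1 0 1 0 2 0 3 (by decide)
  have h106 : N 4 5 4 3 4 2 = N 0 1 0 2 0 3 :=
    H 4 5 4 3 4 2 0 1 0 2 0 3 (by decide)
  have h107 : N 4 5 4 3 4 3 = N 0 1 0 2 0 2 :=
    H 4 5 4 3 4 3 0 1 0 2 0 2 (by decide)
  have h108 : N 4 5 4 3 4 5 = N 0 1 0 2 0 1 :=
    H 4 5 4 3 4 5 0 1 0 2 0 1 (by decide)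
  have h109 : N 4 5 4 3 5 1 = N 0 1 0 2 1 3 :=
    H 4 5 4 3 5 1 0 1 0 2 1 3 (by decide)
  have h110 : N 4 5 4 3 5 2 = N 0 1 0 2 1 3 :=
    H 4 5 4 3 5 2 0 1 0 2 1 3 (by decide)
  have h111 : N 4 5 4 3 5 3 = N 0 1 0 2 1 2 :=
    H 4 5 4 3 5 3 0 1 0 2 1 2 (by decide)
  have h112 : N 4 5 4 3 5 4 = N 0 1 0 2 0 1 :=
    (F3 4 5 4 3 5 4).trans (H 4 5 4 3 4 5 0 1 0 2 0 1 (by decide))
  have h113 : N 4 5 4 5 0 1 = N 0 1 0 1 2 3 :=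
    H 4 5 4 5 0 1 0 1 0 1 2 3 (by decide)
  have h114 : N 4 5 4 5 1 2 = N 0 1 0 1 2 3 :=
    H 4 5 4 5 1 2 0 1 0 1 2 3 (by decide)
  have h115 : N 4 5 4 5 1 3 = N 0 1 0 1 2 3 :=
    H 4 5 4 5 1 3 0 1 0 1 2 3 (by decide)
  have h116 : N 4 5 4 5 1 4 = N 0 1 0 1 0 2 :=
    (F3 4 5 4 5 1 4).trans (H 4 5 4 5 4 1 0 1 0 1 0 2 (by decide))
  have h117 : N 4 5 4 5 1 5 = N 0 1 0 1 0 2 :=
    (F1 4 5 4 5 1 5).trans ((F2 5 4 4 5 1 5).trans ((F3 5 4 5 4 1 5).trans (H 5 4 5 4 5 1 0 1 0 1 0 2 (by decide))))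
  have h118 : N 4 5 4 5 2 1 = N 0 1 0 1 2 3 :=
    H 4 5 4 5 2 1 0 1 0 1 2 3 (by decide)
  have h119 : N 4 5 4 5 2 3 = N 0 1 0 1 2 3 :=
    H 4 5 4 5 2 3 0 1 0 1 2 3 (by decide)
  have h120 : N 4 5 4 5 2 4 = N 0 1 0 1 0 2 :=
    (F3 4 5 4 5 2 4).trans (H 4 5 4 5 4 2 0 1 0 1 0 2 (by decide))
  have h121 : N 4 5 4 5 2 5 = N 0 1 0 1 0 2 :=
    (F1 4 5 4 5 2 5).trans ((F2 5 4 4 5 2 5).trans ((F3 5 4 5 4 2 5).trans (H 5 4 5 4 5 2 0 1 0 1 0 2 (by decide))))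
  have h122 : N 4 5 4 5 3 1 = N 0 1 0 1 2 3 :=
    H 4 5 4 5 3 1 0 1 0 1 2 3 (by decide)
  have h123 : N 4 5 4 5 3 2 = N 0 1 0 1 2 3 :=
    H 4 5 4 5 3 2 0 1 0 1 2 3 (by decide)
  have h124 : N 4 5 4 5 3 4 = N 0 1 0 1 0 2 :=
    (F3 4 5 4 5 3 4).trans (H 4 5 4 5 4 3 0 1 0 1 0 2 (by decide))
  have h125 : N 4 5 4 5 3 5 = N 0 1 0 1 0 2 :=
    (F1 4 5 4 5 3 5).trans ((F2 5 4 4 5 3 5).trans ((F3 5 4 5 4 3 5).trans (H 5 4 5 4 5 3 0 1 0 1 0 2 (by decide))))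
  have h126 : N 4 5 4 5 4 1 = N 0 1 0 1 0 2 :=
    H 4 5 4 5 4 1 0 1 0 1 0 2 (by decide)
  have h127 : N 4 5 4 5 4 2 = N 0 1 0 1 0 2 :=
    H 4 5 4 5 4 2 0 1 0 1 0 2 (by decide)
  have h128 : N 4 5 4 5 4 3 = N 0 1 0 1 0 2 :=
    H 4 5 4 5 4 3 0 1 0 1 0 2 (by decide)
  have h129 : N 4 5 4 5 4 5 = N 0 1 0 1 0 1 :=
    H 4 5 4 5 4 5 0 1 0 1 0 1 (by decide)
  have h130 : N 4 5 4 5 5 1 = N 0 1 0 1 0 2 :=
    (F1 4 5 4 5 5 1).trans ((F2 5 4 4 5 5 1).trans (H 5 4 5 4 5 1 0 1 0 1 0 2 (by decide)))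
  have h131 : N 4 5 4 5 5 2 = N 0 1 0 1 0 2 :=
    (F1 4 5 4 5 5 2).trans ((F2 5 4 4 5 5 2).trans (H 5 4 5 4 5 2 0 1 0 1 0 2 (by decide)))
  have h132 : N 4 5 4 5 5 3 = N 0 1 0 1 0 2 :=
    (F1 4 5 4 5 5 3).trans ((F2 5 4 4 5 5 3).trans (H 5 4 5 4 5 3 0 1 0 1 0 2 (by decide)))
  have h133 : N 4 5 4 5 5 4 = N 0 1 0 1 0 1 :=
    (F3 4 5 4 5 5 4).trans (H 4 5 4 5 4 5 0 1 0 1 0 1 (by decide))
  have h134 : N 4 5 5 3 0 1 = N 0 1 0 2 3 4 :=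
    (F1 4 5 5 3 0 1).trans (H 5 4 5 3 0 1 0 1 0 2 3 4 (by decide))
  have h135 : N 4 5 5 3 1 2 = N 0 1 0 2 3 4 :=
    (F1 4 5 5 3 1 2).trans (H 5 4 5 3 1 2 0 1 0 2 3 4 (by decide))
  have h136 : N 4 5 5 3 1 3 = N 0 1 0 2 2 3 :=
    (F1 4 5 5 3 1 3).trans ((F3 5 4 5 3 1 3).trans (H 5 4 5 3 3 1 0 1 0 2 2 3 (by decide)))
  have h137 : N 4 5 5 3 1 4 = N 0 1 0 2 1 3 :=
    (F1 4 5 5 3 1 4).trans ((F3 5 4 5 3 1 4).trans (H 5 4 5 3 4 1 0 1 0 2 1 3 (by decide)))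
  have h138 : N 4 5 5 3 1 5 = N 0 1 0 2 0 3 :=
    (F1 4 5 5 3 1 5).trans ((F3 5 4 5 3 1 5).trans (H 5 4 5 3 5 1 0 1 0 2 0 3 (by decide)))
  have h139 : N 4 5 5 3 2 1 = N 0 1 0 2 3 4 :=
    (F1 4 5 5 3 2 1).trans (H 5 4 5 3 2 1 0 1 0 2 3 4 (by decide))
  have h140 : N 4 5 5 3 2 3 = N 0 1 0 2 2 3 :=
    (F1 4 5 5 3 2 3).trans ((F3 5 4 5 3 2 3).trans (H 5 4 5 3 3 2 0 1 0 2 2 3 (by decide)))
  have h141 : N 4 5 5 3 2 4 = N 0 1 0 2 1 3 :=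
    (F1 4 5 5 3 2 4).trans ((F3 5 4 5 3 2 4).trans (H 5 4 5 3 4 2 0 1 0 2 1 3 (by decide)))
  have h142 : N 4 5 5 3 2 5 = N 0 1 0 2 0 3 :=
    (F1 4 5 5 3 2 5).trans ((F3 5 4 5 3 2 5).trans (H 5 4 5 3 5 2 0 1 0 2 0 3 (by decide)))
  have h143 : N 4 5 5 3 3 1 = N 0 1 0 2 2 3 :=
    (F1 4 5 5 3 3 1).trans (H 5 4 5 3 3 1 0 1 0 2 2 3 (by decide))
  have h144 : N 4 5 5 3 3 2 = N 0 1 0 2 2 3 :=
    (F1 4 5 5 3 3 2).trans (H 5 4 5 3 3 2 0 1 0 2 2 3 (by decide))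
  have h145 : N 4 5 5 3 3 4 = N 0 1 0 2 1 2 :=
    (F1 4 5 5 3 3 4).trans ((F3 5 4 5 3 3 4).trans (H 5 4 5 3 4 3 0 1 0 2 1 2 (by decide)))
  have h146 : N 4 5 5 3 3 5 = N 0 1 0 2 0 2 :=
    (F1 4 5 5 3 3 5).trans ((F3 5 4 5 3 3 5).trans (H 5 4 5 3 5 3 0 1 0 2 0 2 (by decide)))
  have h147 : N 4 5 5 3 4 1 = N 0 1 0 2 1 3 :=
    (F1 4 5 5 3 4 1).trans (H 5 4 5 3 4 1 0 1 0 2 1 3 (by decide))
  have h148 : N 4 5 5 3 4 2 = N 0 1 0 2 1 3 :=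
    (F1 4 5 5 3 4 2).trans (H 5 4 5 3 4 2 0 1 0 2 1 3 (by decide))
  have h149 : N 4 5 5 3 4 3 = N 0 1 0 2 1 2 :=
    (F1 4 5 5 3 4 3).trans (H 5 4 5 3 4 3 0 1 0 2 1 2 (by decide))
  have h150 : N 4 5 5 3 4 5 = N 0 1 0 2 0 1 :=
    (F1 4 5 5 3 4 5).trans ((F3 5 4 5 3 4 5).trans (H 5 4 5 3 5 4 0 1 0 2 0 1 (by decide)))
  have h151 : N 4 5 5 3 5 1 = N 0 1 0 2 0 3 :=
    (F1 4 5 5 3 5 1).trans (H 5 4 5 3 5 1 0 1 0 2 0 3 (by decide))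
  have h152 : N 4 5 5 3 5 2 = N 0 1 0 2 0 3 :=
    (F1 4 5 5 3 5 2).trans (H 5 4 5 3 5 2 0 1 0 2 0 3 (by decide))
  have h153 : N 4 5 5 3 5 3 = N 0 1 0 2 0 2 :=
    (F1 4 5 5 3 5 3).trans (H 5 4 5 3 5 3 0 1 0 2 0 2 (by decide))
  have h154 : N 4 5 5 3 5 4 = N 0 1 0 2 0 1 :=
    (F1 4 5 5 3 5 4).trans (H 5 4 5 3 5 4 0 1 0 2 0 1 (by decide))
  have h155 : N 4 5 5 4 0 1 = N 0 1 0 1 2 3 :=
    (F2 4 5 5 4 0 1).trans (H 4 5 4 5 0 1 0 1 0 1 2 3 (by decide))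
  have h156 : N 4 5 5 4 1 2 = N 0 1 0 1 2 3 :=
    (F2 4 5 5 4 1 2).trans (H 4 5 4 5 1 2 0 1 0 1 2 3 (by decide))
  have h157 : N 4 5 5 4 1 3 = N 0 1 0 1 2 3 :=
    (F2 4 5 5 4 1 3).trans (H 4 5 4 5 1 3 0 1 0 1 2 3 (by decide))
  have h158 : N 4 5 5 4 1 4 = N 0 1 0 1 0 2 :=
    (F2 4 5 5 4 1 4).trans ((F3 4 5 4 5 1 4).trans (H 4 5 4 5 4 1 0 1 0 1 0 2 (by decide)))
  have h159 : N 4 5 5 4 1 5 = N 0 1 0 1 0 2 :=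
    (F1 4 5 5 4 1 5).trans ((F3 5 4 5 4 1 5).trans (H 5 4 5 4 5 1 0 1 0 1 0 2 (by decide)))
  have h160 : N 4 5 5 4 2 1 = N 0 1 0 1 2 3 :=
    (F2 4 5 5 4 2 1).trans (H 4 5 4 5 2 1 0 1 0 1 2 3 (by decide))
  have h161 : N 4 5 5 4 2 3 = N 0 1 0 1 2 3 :=
    (F2 4 5 5 4 2 3).trans (H 4 5 4 5 2 3 0 1 0 1 2 3 (by decide))
  have h162 : N 4 5 5 4 2 4 = N 0 1 0 1 0 2 :=
    (F2 4 5 5 4 2 4).trans ((F3 4 5 4 5 2 4).trans (H 4 5 4 5 4 2 0 1 0 1 0 2 (by decide)))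
  have h163 : N 4 5 5 4 2 5 = N 0 1 0 1 0 2 :=
    (F1 4 5 5 4 2 5).trans ((F3 5 4 5 4 2 5).trans (H 5 4 5 4 5 2 0 1 0 1 0 2 (by decide)))
  have h164 : N 4 5 5 4 3 1 = N 0 1 0 1 2 3 :=
    (F2 4 5 5 4 3 1).trans (H 4 5 4 5 3 1 0 1 0 1 2 3 (by decide))
  have h165 : N 4 5 5 4 3 2 = N 0 1 0 1 2 3 :=
    (F2 4 5 5 4 3 2).trans (H 4 5 4 5 3 2 0 1 0 1 2 3 (by decide))
  have h166 : N 4 5 5 4 3 4 = N 0 1 0 1 0 2 :=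
    (F2 4 5 5 4 3 4).trans ((F3 4 5 4 5 3 4).trans (H 4 5 4 5 4 3 0 1 0 1 0 2 (by decide)))
  have h167 : N 4 5 5 4 3 5 = N 0 1 0 1 0 2 :=
    (F1 4 5 5 4 3 5).trans ((F3 5 4 5 4 3 5).trans (H 5 4 5 4 5 3 0 1 0 1 0 2 (by decide)))
  have h168 : N 4 5 5 4 4 1 = N 0 1 0 1 0 2 :=
    (F2 4 5 5 4 4 1).trans (H 4 5 4 5 4 1 0 1 0 1 0 2 (by decide))
  have h169 : N 4 5 5 4 4 2 = N 0 1 0 1 0 2 :=
    (F2 4 5 5 4 4 2).trans (H 4 5 4 5 4 2 0 1 0 1 0 2 (by decide))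
  have h170 : N 4 5 5 4 4 3 = N 0 1 0 1 0 2 :=
    (F2 4 5 5 4 4 3).trans (H 4 5 4 5 4 3 0 1 0 1 0 2 (by decide))
  have h171 : N 4 5 5 4 4 5 = N 0 1 0 1 0 1 :=
    (F2 4 5 5 4 4 5).trans (H 4 5 4 5 4 5 0 1 0 1 0 1 (by decide))
  have h172 : N 4 5 5 4 5 1 = N 0 1 0 1 0 2 :=
    (F1 4 5 5 4 5 1).trans (H 5 4 5 4 5 1 0 1 0 1 0 2 (by decide))
  have h173 : N 4 5 5 4 5 2 = N 0 1 0 1 0 2 :=
    (F1 4 5 5 4 5 2).trans (H 5 4 5 4 5 2 0 1 0 1 0 2 (by decide))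
  have h174 : N 4 5 5 4 5 3 = N 0 1 0 1 0 2 :=
    (F1 4 5 5 4 5 3).trans (H 5 4 5 4 5 3 0 1 0 1 0 2 (by decide))
  have h175 : N 4 5 5 4 5 4 = N 0 1 0 1 0 1 :=
    (F2 4 5 5 4 5 4).trans ((F3 4 5 4 5 5 4).trans (H 4 5 4 5 4 5 0 1 0 1 0 1 (by decide)))
  have h176 : N 5 1 4 5 2 3 = N 0 1 0 2 3 4 :=
    (F2 5 1 4 5 2 3).trans (H 5 1 5 4 2 3 0 1 0 2 3 4 (by decide))
  have h177 : N 5 2 4 5 2 3 = N 0 1 0 2 1 3 :=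
    (F2 5 2 4 5 2 3).trans (H 5 2 5 4 2 3 0 1 0 2 1 3 (by decide))
  have h178 : N 5 2 4 5 3 4 = N 0 1 0 2 2 3 :=
    (F2 5 2 4 5 3 4).trans ((F3 5 2 5 4 3 4).trans (H 5 2 5 4 4 3 0 1 0 2 2 3 (by decide)))
  have h179 : N 5 3 4 5 2 3 = N 0 1 0 2 1 3 :=
    (F2 5 3 4 5 2 3).trans ((F3 5 3 5 4 2 3).trans (H 5 3 5 4 3 2 0 1 0 2 1 3 (by decide)))
  have h180 : N 5 3 4 5 3 4 = N 0 1 0 2 1 2 :=
    (F2 5 3 4 5 3 4).trans (H 5 3 5 4 3 4 0 1 0 2 1 2 (by decide))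
  have h181 : N 5 3 4 5 4 5 = N 0 1 0 2 0 2 :=
    (F2 5 3 4 5 4 5).trans ((F3 5 3 5 4 4 5).trans (H 5 3 5 4 5 4 0 1 0 2 0 2 (by decide)))
  have h182 : N 5 4 4 5 2 3 = N 0 1 0 1 2 3 :=
    (F2 5 4 4 5 2 3).trans (H 5 4 5 4 2 3 0 1 0 1 2 3 (by decide))
  have h183 : N 5 4 4 5 3 4 = N 0 1 0 1 0 2 :=
    (F1 5 4 4 5 3 4).trans ((F3 4 5 4 5 3 4).trans (H 4 5 4 5 4 3 0 1 0 1 0 2 (by decide)))
  have h184 : N 5 4 4 5 4 5 = N 0 1 0 1 0 1 :=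
    (F2 5 4 4 5 4 5).trans ((F3 5 4 5 4 4 5).trans (H 5 4 5 4 5 4 0 1 0 1 0 1 (by decide)))
  rw [e, cf4, cf4, cf5]
  simp only [cf6, e0, e1, e2, e3, g0, g1, g2, g3, g4]
  simp only [
    h0, h1, h2, h3, h4, h5, h6, h7, h8, h9, h10, h11, h12, h13, h14, h15, h16, h17, h18,
    h19, h20, h21, h22, h23, h24, h25, h26, h27, h28, h29, h30, h31, h32, h33, h34, h35,
    h36, h37, h38, h39, h40, h41, h42, h43, h44, h45, h46, h47, h48, h49, h50, h51, h52,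
    h53, h54, h55, h56, h57, h58, h59, h60, h61, h62, h63, h64, h65, h66, h67, h68, h69,
    h70, h71, h72, h73, h74, h75, h76, h77, h78, h79, h80, h81, h82, h83, h84, h85, h86,
    h87, h88, h89, h90, h91, h92, h93, h94, h95, h96, h97, h98, h99, h100, h101, h102,
    h103, h104, h105, h106, h107, h108, h109, h110, h111, h112, h113, h114, h115, h116,
    h117, h118, h119, h120, h121, h122, h123, h124, h125, h126, h127, h128, h129, h130,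
    h131, h132, h133, h134, h135, h136, h137, h138, h139, h140, h141, h142, h143, h144,
    h145, h146, h147, h148, h149, h150, h151, h152, h153, h154, h155, h156, h157, h158,
    h159, h160, h161, h162, h163, h164, h165, h166, h167, h168, h169, h170, h171, h172,
    h173, h174, h175, h176, h177, h178, h179, h180, h181, h182, h183, h184]
  ring


/-! ### three edges on a tree -/

section
variable {T : List (Lv Bool)} {q : Rf} {K r r' : ℕ}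

theorem S3_inj (hT : T.length = K) {τ : SM r} (hτ : Rz K τ) {μ : Fin r' → Fin r}
    (hμ : Function.Injective μ) (a b c d e f : Fin r') :
    S3 T q (fun u v => τ (μ u) (μ v)) a b c d e f =
      S3 T q τ (μ a) (μ b) (μ c) (μ d) (μ e) (μ f) :=
  (TM_inj One15.w1 (hT ▸ hτ) hμ _).symm

theorem eK_c (q : ℕ → ℝ) (j : ℕ) (x y : Bool) : eK q j x y = eK q j y x := by
  rw [eK, eK, mul_comm]

theorem aK_c (α β : ℕ → ℝ) (j : ℕ) (x y : Bool) : aK α β j x y = aK α β j y x := by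
  rw [aK, aK, mul_comm (Crest.ProbabilityR.SpinGlassDynamics.spin x)]

theorem S3_f1 {τ : SM r} (hτ : Rz K τ) (a b c d e f : Fin r) :
    S3 T q τ a b c d e f = S3 T q τ b a c d e f := by
  simp only [S3, L87.ed_comm (eK_c q.1) hτ a b]

theorem S3_f2 {τ : SM r} (hτ : Rz K τ) (a b c d e f : Fin r) :
    S3 T q τ a b c d e f = S3 T q τ a b d c e f := by
  simp only [S3, L87.ed_comm (aK_c q.2.1 q.2.2) hτ c d]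

theorem S3_f3 {τ : SM r} (hτ : Rz K τ) (a b c d e f : Fin r) :
    S3 T q τ a b c d e f = S3 T q τ a b c d f e := by
  simp only [S3, L87.ed_comm (aK_c q.2.1 q.2.2) hτ e f]

theorem S3_ex {τ : SM r} (a b c d e f : Fin r) :
    S3 T q τ a b c d e f = S3 T q τ a b e f c d := by
  simp only [S3, mul_comm (ed (aK q.2.1 q.2.2) c d _ τ)]

end

section
variable {Θ : Type} [Fintype Θ] {L : List (Lv Θ)} {T : List (Lv Bool)} {q : Rf} {j r : ℕ}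

/-- a permutation of the base, the two grafts fixed -/
def lf2 (ν : Equiv.Perm (Fin (r + 1))) : Equiv.Perm (Fin (r + 3)) :=
  Equiv.Perm.decomposeFin.symm (0, Equiv.Perm.decomposeFin.symm (0, ν))

theorem lf2_ss (ν : Equiv.Perm (Fin (r + 1))) (a : Fin (r + 1)) :
    lf2 ν a.succ.succ = (ν a).succ.succ := by simp [lf2]

theorem lf2_0 (ν : Equiv.Perm (Fin (r + 1))) : lf2 ν 0 = 0 := by simp [lf2]

theorem lf2_1 (ν : Equiv.Perm (Fin (r + 1))) : lf2 ν (Fin.succ 0) = Fin.succ 0 := by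
  simp only [lf2, Equiv.Perm.decomposeFin_symm_apply_succ, Equiv.swap_self, Equiv.refl_apply,
    Equiv.Perm.decomposeFin_symm_apply_zero]

theorem cf_lf2 (ν : Equiv.Perm (Fin (r + 1))) (a b : Fin (r + 3)) :
    E91.cf r (lf2 ν a) (lf2 ν b) = E91.cf r a b := by
  refine Fin.cases ?_ (fun a => Fin.cases ?_ (fun a => ?_) a) a <;>
    refine Fin.cases ?_ (fun b => Fin.cases ?_ (fun b => ?_) b) b <;>
    simp only [lf2_0, lf2_1, lf2_ss] <;> simp [E91.cf]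

theorem avc_lf2 (ν : Equiv.Perm (Fin (r + 1))) (ρ : SM (r + 1)) (φ : SM (r + 3) → ℝ) :
    avc L (fun a b => ρ (ν a) (ν b)) 2 φ = avc L ρ 2 fun τ => φ fun a b => τ (lf2 ν a) (lf2 ν b) := by
  set ν' : Equiv.Perm (Fin (r + 2)) := Equiv.Perm.decomposeFin.symm (0, ν)
  have e1 : (Fin.cons 0 fun a => (ν a).succ : Fin (r + 2) → Fin (r + 2)) = ν' := funext fun a => by
    refine Fin.cases ?_ (fun a => ?_) a <;> simp [ν']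
  have e2 : (Fin.cons 0 fun a => (ν' a).succ : Fin (r + 3) → Fin (r + 3)) = lf2 ν :=
    funext fun a => by
      refine Fin.cases ?_ (fun a => ?_) a <;> simp [ν', lf2]
  show up1 L (up1 L φ) (fun a b => ρ (ν a) (ν b)) = up1 L (up1 L _) ρ
  rw [← up1_perm ν, e1]
  congr 1
  funext σ
  rw [← up1_perm ν', e2]

theorem Mk_perm (hT : T.length = L.length) (ν : Equiv.Perm (Fin (r + 1))) {ρ : SM (r + 1)}
    (hρ : Rz L.length ρ) (c d e f : Fin (r + 1)) :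
    Mk L T q j (fun a b => ρ (ν a) (ν b)) c d e f = Mk L T q j ρ (ν c) (ν d) (ν e) (ν f) := by
  refine Fintype.sum_equiv (lf2 ν) _ _ fun a => Fintype.sum_equiv (lf2 ν) _ _ fun b => ?_
  rw [cf_lf2, avc_lf2]
  refine congrArg _ (avc_congr hρ 2 fun τ hτ => ?_)
  simp only [S3_inj hT hτ (lf2 ν).injective, lf2_ss]

theorem Mk_f2 {ρ : SM (r + 1)} (hρ : Rz L.length ρ) (c d e f : Fin (r + 1)) :
    Mk L T q j ρ c d e f = Mk L T q j ρ d c e f :=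
  sum_congr rfl fun a _ => sum_congr rfl fun b _ => congrArg _ (avc_congr hρ 2 fun τ hτ => by
    rw [S3_f2 hτ])

theorem Mk_f3 {ρ : SM (r + 1)} (hρ : Rz L.length ρ) (c d e f : Fin (r + 1)) :
    Mk L T q j ρ c d e f = Mk L T q j ρ c d f e :=
  sum_congr rfl fun a _ => sum_congr rfl fun b _ => congrArg _ (avc_congr hρ 2 fun τ hτ => by
    rw [S3_f3 hτ])

theorem Mk_ex (ρ : SM (r + 1)) (c d e f : Fin (r + 1)) :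
    Mk L T q j ρ c d e f = Mk L T q j ρ e f c d := by
  simp only [Mk, S3_ex _ _ c.succ.succ d.succ.succ]

theorem cM_sy (hT : T.length = L.length) : (cM L T q j).Sy L.length := fun σ hσ => by
  have e1 : (![1, 0, 2, 3] : Fin 4 → Fin 4) = Equiv.swap (0 : Fin 4) 1 := by decide
  have e2 : (![0, 1, 3, 2] : Fin 4 → Fin 4) = Equiv.swap (2 : Fin 4) 3 := by decide
  rw [e1, e2]
  exact ⟨(Mk_perm hT _ hσ 2 3 0 1).trans (Mk_f3 hσ 2 3 1 0),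
    (Mk_perm hT _ hσ 2 3 0 1).trans (Mk_f2 hσ 3 2 0 1)⟩

theorem cM_tr (hT : T.length = L.length) : (cM L T q j).tr.Eqv (cM L T q j) L.length := by
  have e1 : (![2, 1, 0] : Fin 3 → Fin 3) = Equiv.swap (0 : Fin 3) 2 := by decide
  have e2 : (![2, 3, 0, 1] : Fin 4 → Fin 4) = (Equiv.swap (0 : Fin 4) 2 * Equiv.swap 1 3 :
    Equiv.Perm (Fin 4)) := by decide
  refine ⟨fun _ _ => rfl, fun σ hσ => ?_, fun σ hσ => ?_⟩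
  · show Mk L T q j (fun a b => σ (![2, 1, 0] a) (![2, 1, 0] b)) 1 2 0 1 = Mk L T q j σ 1 2 0 1
    rw [e1]
    exact (Mk_perm hT _ hσ 1 2 0 1).trans ((Mk_ex σ 1 0 2 1).trans
      ((Mk_f2 hσ 2 1 1 0).trans (Mk_f3 hσ 1 2 1 0)))
  · show Mk L T q j (fun a b => σ (![2, 3, 0, 1] a) (![2, 3, 0, 1] b)) 2 3 0 1 =
      Mk L T q j σ 2 3 0 1
    rw [e2]
    exact (Mk_perm hT _ hσ 2 3 0 1).trans (Mk_ex σ 0 1 2 3)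

variable {Ω : Type} [Fintype Ω] {w : Ω → ℝ} {B : List (Lv Ω)} {h : Ω → ℝ} {U : ℕ → Ω → Ω → ℝ}
  {A : ℕ → ℕ → ℝ}

/-- the term of a pattern -/
def G3 (T : List (Lv Bool)) (q : Rf) (j : ℕ) (w : Ω → ℝ) (B : List (Lv Ω)) (h : Ω → ℝ)
    (U : ℕ → Ω → Ω → ℝ) (A : ℕ → ℕ → ℝ) {R : ℕ} (τ : SM R) (a b c d e f : Fin R) : ℝ :=
  A (τ c d) (τ e f) * TM w B h τ (fun x => ed U c d x τ * ed U e f x τ) *
    if τ a b = j then S3 T q τ a b c d e f else 0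

theorem G3_inj {K r' : ℕ} (hw : Wt w) (hT : T.length = K) (hB : B.length = K) {τ : SM r}
    (hτ : Rz K τ) {μ : Fin r' → Fin r} (hμ : Function.Injective μ) (a b c d e f : Fin r') :
    G3 T q j w B h U A (fun u v => τ (μ u) (μ v)) a b c d e f =
      G3 T q j w B h U A τ (μ a) (μ b) (μ c) (μ d) (μ e) (μ f) := by
  rw [G3, G3, S3_inj hT hτ hμ, L87.TM_two hw (hB ▸ hτ) hμ]

theorem N_inj {r' : ℕ} (hw : Wt w) (hT : T.length = L.length) (hB : B.length = L.length)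
    {μ : Fin (r' + 1) → Fin (r + 1)} (hμ : Function.Injective μ) (a b c d e f : Fin (r' + 1)) :
    avm L r' (fun τ => G3 T q j w B h U A τ a b c d e f) =
      avm L r fun τ => G3 T q j w B h U A τ (μ a) (μ b) (μ c) (μ d) (μ e) (μ f) := by
  rw [← avm_inj L r' _ r μ hμ]
  exact avm_congr L r fun τ hτ => G3_inj hw hT hB hτ hμ a b c d e f

theorem ex_perm {α β : Type} [Finite α] {ι ι' : α → β} (H : ∀ i k, ι i = ι k ↔ ι' i = ι' k) :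
    ∃ μ : Equiv.Perm β, ∀ i, μ (ι i) = ι' i := by
  choose s hs using fun y : Set.range ι => y.2
  obtain ⟨μ, hμ⟩ := Equiv.Perm.exists_extending_pair (f := (Subtype.val : Set.range ι → β))
    (g := fun y => ι' (s y)) Subtype.val_injective fun y z e =>
      Subtype.ext ((hs y).symm.trans (((H _ _).2 e).trans (hs z)))
  exact ⟨μ, fun i => (hμ ⟨_, i, rfl⟩).trans ((H _ _).1 (hs ⟨_, i, rfl⟩))⟩

theorem avm_Mk (hw : Wt w) (hB : B.length = L.length) (c d e f : Fin (r + 1)) :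
    avm L r (fun σ => A (σ c d) (σ e f) * Mk L T q j σ c d e f *
      TM w B h σ fun x => ed U c d x σ * ed U e f x σ) =
    ∑ a : Fin (r + 3), ∑ b : Fin (r + 3), E91.cf r a b * avm L (r + 2) fun τ =>
      G3 T q j w B h U A τ a b c.succ.succ d.succ.succ e.succ.succ f.succ.succ := by
  simp only [avm_avc (r := r) 2, ← avm_mul, ← avm_sum]
  refine avm_congr L r fun σ hσ => ?_
  rw [mul_right_comm, Mk, mul_sum]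
  refine sum_congr rfl fun a _ => ?_
  rw [mul_sum]
  refine sum_congr rfl fun b _ => ?_
  rw [mul_left_comm, ← avc_mul]
  refine congrArg _ (avc_congr' hσ 2 fun τ hτ e0 => ?_)
  obtain rfl : σ = fun a b => τ a.succ.succ b.succ.succ := funext fun a => funext fun b =>
    (e0 a b).symm
  rw [G3, L87.TM_two hw (hB ▸ hτ) (ι := fun a : Fin (r + 1) => a.succ.succ)
    fun a b e => Fin.succ_injective _ (Fin.succ_injective _ e)]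

theorem dm_Tm (hj : j ≤ L.length) : dm L 0 j * Tm L T q j w B h U A =
    E91.D2 fun c d e f => avm L 5 fun τ => G3 T q j w B h U A τ 4 5 c d e f := by
  simp only [Tm, E91.D2, mul_sum]
  refine sum_congr rfl fun c _ => sum_congr rfl fun d _ => sum_congr rfl fun e _ =>
    sum_congr rfl fun f _ => ?_
  rw [mul_left_comm]
  congr 1
  refine Eq.trans ?_ (avm_avc (r := 1) 4 _).symm
  rw [avm_one, sum_eq_single j (fun i hi hij => ?_) fun h => (h (mem_range.2 (by omega))).elim]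
  · refine congrArg _ (avc_congr' (rz_tw _ j) 4 fun τ _ e0 => ?_)
    rw [G3, if_pos (show τ 4 5 = j from (e0 0 1).trans (tw_01 hj))]
  · rw [avc_congr' (ψ := fun _ => 0) (rz_tw _ i) 4 fun τ _ e0 => by
      rw [G3, if_neg fun e : τ 4 5 = j => hij ((tw_01 (Nat.lt_succ_iff.1 (mem_range.1 hi))).symm.trans
        ((e0 0 1).symm.trans e)), mul_zero], avc_const, mul_zero]

end

/-- **the marked edge is put last** -/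
theorem swapS : SwapS := fun Θ _ L T q j Ω _ w B h U A hw hT hB hj hU => by
  refine ⟨?_, cM_sy hT, cM_tr hT⟩
  rw [dm_Tm hj, comb (fun a b c d e f => avm L 5 fun τ => G3 T q j w B h U A τ a b c d e f)
    (fun a b c d e f a' b' c' d' e' f' H => ?_)
    (fun a b c d e f => avm_congr L 5 fun τ hτ => by rw [G3, G3, S3_f1 hτ, hτ.comm a b])
    (fun a b c d e f => avm_congr L 5 fun τ hτ => by
      simp only [G3, S3_f2 hτ a b c d, hτ.comm c d, L87.ed_comm hU hτ c d])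
    (fun a b c d e f => avm_congr L 5 fun τ hτ => by
      simp only [G3, S3_f3 hτ a b c d e f, hτ.comm e f, L87.ed_comm hU hτ e f])]
  · have k2 := avm_Mk (L := L) (T := T) (q := q) (j := j) (h := h) (U := U) (A := A) (r := 1)
      hw hB 0 1 0 1
    have k3 := avm_Mk (L := L) (T := T) (q := q) (j := j) (h := h) (U := U) (A := A) (r := 2)
      hw hB 1 2 0 1
    have k4 := avm_Mk (L := L) (T := T) (q := q) (j := j) (h := h) (U := U) (A := A) (r := 3)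
      hw hB 2 3 0 1
    simp only [N_inj (r := 5) (r' := 3) hw hT hB (μ := fun a => a.succ.succ)
      fun a b e => Fin.succ_injective _ (Fin.succ_injective _ e)] at k2
    simp only [N_inj (r := 5) (r' := 4) hw hT hB (μ := Fin.succ) (Fin.succ_injective _)] at k3
    exact congrArg _ (congrArg₂ _ (congrArg₂ _ k2.symm (congrArg _ k3.symm)) (congrArg _ k4.symm))
  · obtain ⟨μ, hμ⟩ := ex_perm H
    rw [N_inj hw hT hB μ.injective]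
    exact congrArg _ (funext fun τ => by
      rw [show μ a = a' from hμ 0, show μ b = b' from hμ 1, show μ c = c' from hμ 2,
        show μ d = d' from hμ 3, show μ e = e' from hμ 4, show μ f = f' from hμ 5])

end Crest.Agent.T156.Cas.Q21

end
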