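import Crest.Agent.T156.RowT_18

/-!
# Row 156 (helper18): `RowAS`, one edge at the level `j`, summed over `j` with a density
-/

set_option autoImplicit false
set_option linter.all false

noncomputable section

namespace Crest.Agent.T156.Cas.Q21

open Finset
open Crest.Agent.T157.E Crest.Agent.T157.Casc Crest.Agent.T157.SL
open Crest.Agent.T156.Cas.Q75
open Crest.Agent.T156.Cas.Q75.A10 (ind)
open Nu87 Wt87 Tri18

namespace R18

/-- the hypotheses on the vectors -/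
structure AH {Θ : Type} (L : List (Lv Θ)) (j₁ : ℕ) {V : Type} [AddCommGroup V] [Module ℝ V]
    (ip : LinearMap.BilinForm ℝ V) (δ : ℕ → V) (g : ℝ) (φ f A : ℕ → ℝ) : Prop where
  mono : Mono 0 L
  sym : ∀ u v, ip u v = ip v u
  pos : ∀ u, 0 ≤ ip u u
  top : dm L 0 L.length = 0
  wf : Wf L j₁ ip δ φ f
  g : ∀ j, ip (δ j) (δ j) ≤ g ^ 2
  A0 : ∀ j, 0 ≤ A j
  add : ∀ θ : ℕ → ℝ, ip (∑ x ∈ Ico j₁ L.length, (dm L 0 x * θ x) • δ x)
    (∑ x ∈ Ico j₁ L.length, (dm L 0 x * θ x) • δ x) ≤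
      ∑ x ∈ Ico j₁ L.length, dm L 0 x * (θ x ^ 2 * A x)

variable {Θ : Type} {L : List (Lv Θ)} {B : Tw} {j₁ : ℕ} {c₀ g : ℝ} {p s a φ f α l A : ℕ → ℝ}
  {b : ℕ → ℕ → ℝ} {V : Type} [AddCommGroup V] [Module ℝ V] {ip : LinearMap.BilinForm ℝ V}
  {δ : ℕ → V} {π : ℕ → ℕ → V} {P : ℕ → V →ₗ[ℝ] V}

theorem AH.sub (H : AH L j₁ ip δ g φ f A) {T : Finset ℕ} (hT : T ⊆ Ico j₁ L.length) (θ : ℕ → ℝ) :
    ip (∑ x ∈ T, (dm L 0 x * θ x) • δ x) (∑ x ∈ T, (dm L 0 x * θ x) • δ x) ≤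
      ∑ x ∈ T, θ x ^ 2 * (dm L 0 x * A x) := by
  have := H.add fun x => if x ∈ T then θ x else 0
  rw [← sum_subset hT fun x _ hx => by simp [hx], ← sum_subset hT fun x _ hx => by simp [hx],
    sum_congr rfl (g := fun x => (dm L 0 x * θ x) • δ x) fun x hx => by rw [if_pos hx],
    sum_congr rfl (s₁ := T) (g := fun x => θ x ^ 2 * (dm L 0 x * A x)) fun x hx => by
      rw [if_pos hx]; ring] at this
  exact this

theorem AH.tail (H : AH L j₁ ip δ g φ f A) {y : ℕ} (hy : j₁ ≤ y) :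
    ip (∑ x ∈ Ico y L.length, (dm L 0 x * φ x) • δ x)
      (∑ x ∈ Ico y L.length, (dm L 0 x * φ x) • δ x) ≤ f y ^ 2 := by
  have := H.wf.tl y hy
  rwa [← sum_subset (Ico_subset_Ico_right (Nat.le_succ L.length)) fun x h1 h2 => by
    rw [mem_Ico] at h1 h2
    rw [show x = L.length by omega, H.top, zero_mul, zero_smul]] at this

theorem AH.sq_le (H : AH L j₁ ip δ g φ f A) {T : Finset ℕ} (hT : T ⊆ Ico j₁ L.length) :
    √(∑ x ∈ T, α x ^ 2 * (dm L 0 x * A x)) ≤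
      √(∑ x ∈ Ico j₁ L.length, dm L 0 x * (α x ^ 2 * A x)) :=
  Real.sqrt_le_sqrt ((sum_le_sum_of_subset_of_nonneg hT fun x _ _ =>
    mul_nonneg (sq_nonneg _) (mul_nonneg (dm_nonneg H.mono x) (H.A0 x))).trans_eq
      (sum_congr rfl fun x _ => by ring))

/-- a density against one vector -/
theorem AH.pv (H : AH L j₁ ip δ g φ f A) {T : Finset ℕ} (hT : T ⊆ Ico j₁ L.length) {θ : ℕ → ℝ}
    {κ e : ℝ} (hκ : 0 ≤ κ) (he : 0 ≤ e) (hθ : ∀ j ∈ T, |θ j| ≤ |α j| * κ) {w : V}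
    (hw : ip w w ≤ e ^ 2) : |∑ j ∈ T, dm L 0 j * θ j * ip (δ j) w| ≤
      κ * e * √(∑ x ∈ Ico j₁ L.length, dm L 0 x * (α x ^ 2 * A x)) := by
  have h1 := ip_cs ip H.sym H.pos _ _ (H.sub hT θ) hw
  simp only [map_sum, LinearMap.sum_apply, map_smul, LinearMap.smul_apply, smul_eq_mul] at h1
  rw [Real.sqrt_sq he] at h1
  have h2 := sqrt_coef (A := fun x => dm L 0 x * A x) (r := fun j => |α j|) hκ
    (fun x _ => mul_nonneg (dm_nonneg H.mono x) (H.A0 x)) hθ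
  simp only [sq_abs] at h2
  have h3 := mul_le_mul_of_nonneg_left (H.sq_le (α := α) hT) hκ
  exact h1.trans ((mul_le_mul_of_nonneg_right (h2.trans h3) he).trans_eq (by ring))

/-- the row bound for the vectors `Q δ` -/
theorem AH.row (H : AH L j₁ ip δ g φ f A) (Q : V →ₗ[ℝ] V) (hQ : ∀ u, ip (Q u) (Q u) ≤ ip u u)
    {κ : ℕ → ℕ → ℝ} {m : ℕ} {c k0 : ℝ} (hm : j₁ ≤ m) (hs : ∀ y, 0 ≤ s y) (hl : ∀ i, 0 < l i)
    (hl' : Monotone l) (hc : 1 ≤ c) (hk0 : 0 ≤ k0)
    (h0 : ∀ j y, m ≤ j → j < L.length → m ≤ y → y < L.length → y ≠ j → |κ j y| ≤ c)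
    (h00 : ∀ j, m < j → j < L.length → |κ j m| ≤ k0)
    (hd : ∀ j y, m ≤ y → y + 1 < j → j < L.length → |κ j (y + 1) - κ j y| ≤ s y)
    (hu : ∀ j y, m ≤ j → j < y → y + 1 < L.length → |κ j (y + 1) - κ j y| ≤ s y) :
    |∑ j ∈ Ico m L.length, α j *
      (∑ y ∈ Ico m j, κ j y * (φ y * (dm L 0 j * dm L 0 y * ip (Q (δ j)) (Q (δ y)))) +
        ∑ y ∈ Ico (j + 1) L.length, κ j y * (φ y * (dm L 0 j * dm L 0 y * ip (Q (δ j)) (Q (δ y)))))| ≤
      √(∑ x ∈ Ico j₁ L.length, dm L 0 x * (α x ^ 2 * A x)) *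
        (k0 * f m + ∑ i ∈ Ico j₁ L.length, s i * f (i + 1)) +
      c * ∑ j ∈ Ico j₁ L.length, |α j| * dm L 0 j * (g ^ 2 * dm L 0 j) +
      3 * c * (Real.log (L.length + 2) * (1 + ∑ i ∈ Ico j₁ L.length, s i) *
        ∑ x ∈ Ico j₁ L.length, dm L 0 x * (α x ^ 2 * A x / l x + l x * A x)) := by
  have d0 := dm_nonneg H.mono
  have key : ∀ (T T' : Finset ℕ) (θ ψ : ℕ → ℝ) (u v : ℝ),
      ip (∑ x ∈ T, (dm L 0 x * θ x) • δ x) (∑ x ∈ T, (dm L 0 x * θ x) • δ x) ≤ u →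
      ip (∑ x ∈ T', (dm L 0 x * ψ x) • δ x) (∑ x ∈ T', (dm L 0 x * ψ x) • δ x) ≤ v →
      |∑ i ∈ T, ∑ x ∈ T', θ i * ψ x * (dm L 0 i * dm L 0 x * ip (Q (δ i)) (Q (δ x)))| ≤
        √u * √v := fun T T' θ ψ u v h1 h2 => by
    have := ip_cs ip H.sym H.pos _ _ ((hQ _).trans h1) ((hQ _).trans h2)
    simp only [map_sum Q, map_smul Q] at this
    rw [ip_sum] at this
    refine le_of_eq_of_le ?_ this
    congr 1
    exact sum_congr rfl fun i _ => sum_congr rfl fun x _ => by ring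
  have hA : ∀ i, 0 ≤ dm L 0 i * A i := fun i => mul_nonneg (d0 i) (H.A0 i)
  have cr : Cr (fun i x => dm L 0 i * dm L 0 x * ip (Q (δ i)) (Q (δ x)))
      (fun i => dm L 0 i * A i) (fun i => dm L 0 i * A i) (Ico j₁ L.length) :=
    ⟨fun i _ => hA i, fun i _ => hA i, fun θ ψ =>
      key _ _ θ ψ _ _ (H.sub subset_rfl θ) (H.sub subset_rfl ψ)⟩
  obtain ⟨k, k1, k2⟩ := exists_k L.length
  have sS : Ico m L.length ⊆ Ico j₁ L.length := Ico_subset_Ico_left hm
  have sS' : Ico m (L.length - 1) ⊆ Ico j₁ L.length := Ico_subset_Ico hm (Nat.sub_le _ _)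
  have h := cr.row (κ := κ) (α := α) (φ := φ) (s := s) (f := f) (l := l)
    (G := fun j => dm L 0 j * (g ^ 2 * dm L 0 j)) (m := m) (K := L.length) (k := k) (c := c)
    (k0 := k0) (V := ∑ i ∈ Ico j₁ L.length, s i) ((Nat.sub_le _ _).trans k1) sS hs
    (sum_le_sum_of_subset_of_nonneg sS' fun i _ _ => hs i) hl hl' H.wf.nn H.wf.le hc hk0
    (fun θ y hy => by
      have := key _ _ θ φ _ _ (H.sub sS θ) (H.tail (hm.trans hy))
      rw [Real.sqrt_sq (H.wf.nn y)] at this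
      simpa only [mul_sum, mul_assoc] using this)
    (fun j _ _ => by
      rw [abs_of_nonneg (mul_nonneg (mul_nonneg (d0 j) (d0 j)) (H.pos _))]
      exact (mul_le_mul_of_nonneg_left ((hQ _).trans (H.g j))
        (mul_nonneg (d0 j) (d0 j))).trans_eq (by ring)) h0 h00 hd hu
  refine h.trans (add_le_add (add_le_add ?_ ?_) ?_)
  · refine mul_le_mul (H.sq_le sS) (add_le_add le_rfl (sum_le_sum_of_subset_of_nonneg sS'
      fun i _ _ => mul_nonneg (hs i) (H.wf.nn _))) (add_nonneg (mul_nonneg hk0 (H.wf.nn _))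
        (sum_nonneg fun i _ => mul_nonneg (hs i) (H.wf.nn _))) (Real.sqrt_nonneg _)
  · refine mul_le_mul_of_nonneg_left ((sum_le_sum_of_subset_of_nonneg sS fun i _ _ =>
      mul_nonneg (abs_nonneg _) (mul_nonneg (d0 i) (mul_nonneg (sq_nonneg _) (d0 i)))).trans_eq
        (sum_congr rfl fun i _ => by ring)) (by linarith)
  · have n1 : ∀ i, 0 ≤ α i ^ 2 * (dm L 0 i * A i) / l i + l i * (dm L 0 i * A i) := fun i =>
      add_nonneg (div_nonneg (mul_nonneg (sq_nonneg _) (hA i)) (hl i).le)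
        (mul_nonneg (hl i).le (hA i))
    have e1 : ∑ x ∈ Ico j₁ L.length, dm L 0 x * (α x ^ 2 * A x / l x + l x * A x) =
        ∑ i ∈ Ico j₁ L.length, (α i ^ 2 * (dm L 0 i * A i) / l i + l i * (dm L 0 i * A i)) :=
      sum_congr rfl fun i _ => by ring
    have V0 : 0 ≤ 1 + ∑ i ∈ Ico j₁ L.length, s i :=
      add_nonneg zero_le_one (sum_nonneg fun i _ => hs i)
    have h1 := mul_le_mul k2 (mul_le_mul_of_nonneg_left
      (sum_le_sum_of_subset_of_nonneg sS fun i _ _ => n1 i) V0)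
      (mul_nonneg V0 (sum_nonneg fun i _ => n1 i)) ((Nat.cast_nonneg k).trans k2)
    rw [e1]
    exact (mul_le_mul_of_nonneg_left h1 (by linarith)).trans_eq (by ring)

/-- the martingale part below `j` -/
theorem pi_dn (H : BH L B j₁ c₀ p s a b ip δ π P) (H' : AH L j₁ ip δ g φ f A) {c : ℕ → Tw}
    (R : ∀ j, j₁ ≤ j → j < L.length → RowR L (c j) j₁ j c₀ p s) {y : ℕ} (h1 : j₁ ≤ y)
    (hy : y < L.length) :
    |∑ j ∈ Ico (y + 1) L.length, dm L 0 j * α j * Q75.Pt L (c j) ip δ π y j| ≤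
      4 * (p y * a y) * √(∑ x ∈ Ico j₁ L.length, dm L 0 x * (α x ^ 2 * A x)) := by
  have sS : Ico (y + 1) L.length ⊆ Ico j₁ L.length := Ico_subset_Ico_left (by omega)
  have hl : ∀ j ∈ Ico (y + 1) L.length, ∀ t, y ≤ t → t ≤ L.length + 1 →
      |(c j).lo L.length y j t| ≤ p y := fun j hj t h2 h3 =>
    (R j (mem_Ico.1 (sS hj)).1 (mem_Ico.1 hj).2).dn0 y t h1 (mem_Ico.1 hj).1 h2 h3
  have e : ∑ j ∈ Ico (y + 1) L.length, dm L 0 j * α j * Q75.Pt L (c j) ip δ π y j =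
      Lg L y (fun t => ∑ j ∈ Ico (y + 1) L.length,
        dm L 0 j * (α j * (c j).lo L.length y j t) * ip (δ j) (π y (min t L.length))) +
      ∑ j ∈ Ico (y + 1) L.length,
        dm L 0 j * (α j * Lx L j ((c j).lo L.length y j)) * ip (δ j) (π y L.length) := by
    rw [Lg_sum, ← sum_add_distrib]
    refine sum_congr rfl fun j hj => ?_
    have hj' := mem_Ico.1 hj
    rw [Pt_eq H.bs (by omega) hj'.2.le, mul_add, ← Lg_mul]
    congr 1
    · congr 1
      funext t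
      ring
    · ring
  have b1 := abs_Lg_le H.mono hy.le (g := fun t => ∑ j ∈ Ico (y + 1) L.length,
      dm L 0 j * (α j * (c j).lo L.length y j t) * ip (δ j) (π y (min t L.length)))
    fun t h2 h3 => H'.pv (α := α) sS (H.p0 y) (H.bs.a0 y) (fun j hj => by
      rw [abs_mul]
      exact mul_le_mul_of_nonneg_left (hl j hj t h2.le h3) (abs_nonneg _))
      (H.bs.pi_le (le_min h2.le hy.le) (min_le_right _ _))
  have b2 := H'.pv (α := α) (θ := fun j => α j * Lx L j ((c j).lo L.length y j)) sS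
    (mul_nonneg zero_le_two (H.p0 y)) (H.bs.a0 y) (fun j hj => by
      rw [abs_mul]
      have hj' := mem_Ico.1 hj
      exact mul_le_mul_of_nonneg_left (abs_Lx_le H.mono hj'.2.le fun t h2 h3 =>
        hl j hj t (by omega) h3) (abs_nonneg _)) (H.bs.pia y hy.le)
  have n0 := mul_nonneg (mul_nonneg (H.p0 y) (H.bs.a0 y))
    (Real.sqrt_nonneg (∑ x ∈ Ico j₁ L.length, dm L 0 x * (α x ^ 2 * A x)))
  have n1 := mul_nonneg (ex_nonneg H.mono y) n0
  rw [e]
  exact (abs_add_le _ _).trans (by nlinarith)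

/-- the remainder of `LO (c * B)` -/
def rho (L : List (Lv Θ)) (c B : Tw) (ip : LinearMap.BilinForm ℝ V) (δ : ℕ → V) (π : ℕ → ℕ → V)
    (y x : ℕ) : ℝ :=
  LO L (c.mul B) y x - (LO L c y x * ip (δ x) (δ y) - 2 * Q75.Pt L c ip δ π y x)

/-- the part of a row that is bounded row by row -/
theorem err_bd (H : BH L B j₁ c₀ p s a b ip δ π P) (W : Wf L j₁ ip δ φ f)
    (hK : dm L 0 L.length = 0) {c : Tw} {j : ℕ} (R : RowR L c j₁ j c₀ p s) (h1 : j₁ ≤ j)
    (h2 : j < L.length) :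
    |∑ y ∈ Ico j₁ j, dm L 0 y * φ y * rho L c B ip δ π y j +
      ∑ x ∈ Ico (j + 1) L.length, dm L 0 x * φ x * rho L c B ip δ π j x -
      2 * ∑ x ∈ Ico (j + 1) L.length, dm L 0 x * φ x * Q75.Pt L c ip δ π j x| ≤
      8 * c₀ * RwE L j₁ j p s a b f := by
  have d0 := dm_nonneg H.mono
  have c1 := H.c1
  have b1 : |∑ y ∈ Ico j₁ j, dm L 0 y * φ y * rho L c B ip δ π y j| ≤
      8 * ∑ y ∈ Ico j₁ j, dm L 0 y * (p y * (b y j * a j)) := by
    rw [mul_sum]
    refine (abs_sum_le_sum_abs _ _).trans (sum_le_sum fun y hy => ?_)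
    have hy' := mem_Ico.1 hy
    rw [abs_mul]
    exact (mul_le_mul (W.abs_le H.mono y) (lo_dec H hy'.2.le h2.le fun t h3 h4 =>
      R.dn0 y t hy'.1 hy'.2 h3 h4) (abs_nonneg _) (d0 y)).trans_eq (by ring)
  have b2 : |∑ x ∈ Ico (j + 1) L.length, dm L 0 x * φ x * rho L c B ip δ π j x| ≤
      8 * c₀ * ∑ x ∈ Ioc j L.length, dm L 0 x * (b j x * a x) := by
    rw [mul_sum]
    refine (abs_sum_le_sum_abs _ _).trans ((sum_le_sum fun x hx => ?_).trans
      (sum_le_sum_of_subset_of_nonneg (fun x hx => by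
        rw [mem_Ico] at hx; rw [mem_Ioc]; omega) fun x _ _ => mul_nonneg (by linarith)
          (mul_nonneg (d0 x) (mul_nonneg (H.b0 j x) (H.bs.a0 x)))))
    have hx' := mem_Ico.1 hx
    rw [abs_mul]
    exact (mul_le_mul (W.abs_le H.mono x) (lo_dec H (by omega) hx'.2.le fun t h3 h4 =>
      R.up0 x t hx'.1 hx'.2.le h3 h4) (abs_nonneg _) (d0 x)).trans_eq (by ring)
  have b3 := pi_up H W R h1 h2.le
  rw [split2 (j := j) le_rfl h2 (by simp [Q75.Pt]) (by simp [hK]), Ico_self, sum_empty,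
    zero_add] at b3
  have n1 : 0 ≤ ∑ y ∈ Ico j₁ j, dm L 0 y * (p y * (b y j * a j)) := sum_nonneg fun y _ =>
    mul_nonneg (d0 y) (mul_nonneg (H.p0 y) (mul_nonneg (H.b0 y j) (H.bs.a0 j)))
  have n2 : 0 ≤ a j * ∑ i ∈ Ico j₁ L.length, s i * f (i + 1) := mul_nonneg (H.bs.a0 j)
    (sum_nonneg fun i _ => mul_nonneg (BH.s0 H i) (W.nn _))
  have m1 := mul_le_mul_of_nonneg_right c1 n1
  have m2 := mul_le_mul_of_nonneg_right c1 n2
  rw [RwE]
  rw [abs_le] at b1 b2 b3 ⊢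
  constructor <;> nlinarith [b1.1, b1.2, b2.1, b2.2, b3.1, b3.2]

theorem low_tail (H : BH L B j₁ c₀ p s a b ip δ π P) (hf : ∀ y, 0 ≤ f y) :
    ∑ z ∈ range L.length, dm L 0 z * f (max (z + 1) j₁) ≤
      p j₁ * f j₁ + ∑ i ∈ Ico j₁ L.length, s i * f (i + 1) := by
  have d0 := dm_nonneg H.mono
  have : range L.length ⊆ range j₁ ∪ Ico j₁ L.length := fun i hi => by
    simp only [mem_union, mem_range, mem_Ico] at hi ⊢; omega
  refine (sum_le_sum_of_subset_of_nonneg this fun i _ _ => mul_nonneg (d0 i) (hf _)).trans ?_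
  rw [sum_union (disjoint_left.2 fun i h1 h2 => by
    rw [mem_range] at h1; rw [mem_Ico] at h2; omega)]
  refine add_le_add ?_ (sum_le_sum fun i hi => ?_)
  · rw [sum_congr rfl fun z hz => by rw [max_eq_right (mem_range.1 hz)], ← sum_mul]
    exact mul_le_mul_of_nonneg_right H.low (hf _)
  · rw [max_eq_left ((mem_Ico.1 hi).1.trans (Nat.le_succ i))]
    exact mul_le_mul_of_nonneg_right (H.ds i) (hf _)

/-- the branches that leave the trunk below `j` -/
theorem off_bd (H : BH L B j₁ c₀ p s a b ip δ π P) (H' : AH L j₁ ip δ g φ f A) {c : ℕ → Tw}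
    (R : ∀ j, j₁ ≤ j → j < L.length → RowR L (c j) j₁ j c₀ p s) (hl : ∀ i, 0 < l i)
    (hl' : Monotone l) :
    |∑ j ∈ Ico j₁ L.length, α j * ∑ z ∈ range L.length, dm L 0 z * if z < j then
        (∑ k ∈ Ico (max (z + 1) j₁) j, (c j).off L.length z j k *
            (φ k * (dm L 0 j * dm L 0 k * B.off L.length z j k)) +
          ∑ k ∈ Ico (j + 1) L.length, (c j).off L.length z j k *
            (φ k * (dm L 0 j * dm L 0 k * B.off L.length z j k))) else 0| ≤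
      √(∑ x ∈ Ico j₁ L.length, dm L 0 x * (α x ^ 2 * A x)) *
        (c₀ * (p j₁ * f j₁ + ∑ i ∈ Ico j₁ L.length, s i * f (i + 1)) +
          ∑ i ∈ Ico j₁ L.length, s i * f (i + 1)) +
      c₀ * ∑ j ∈ Ico j₁ L.length, |α j| * dm L 0 j * (g ^ 2 * dm L 0 j) +
      3 * c₀ * (Real.log (L.length + 2) * (1 + ∑ i ∈ Ico j₁ L.length, s i) *
        ∑ x ∈ Ico j₁ L.length, dm L 0 x * (α x ^ 2 * A x / l x + l x * A x)) := by
  have d0 := dm_nonneg H.mono
  have c0 : 0 ≤ c₀ := zero_le_one.trans H.c1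
  have e : ∑ j ∈ Ico j₁ L.length, α j * ∑ z ∈ range L.length, dm L 0 z * (if z < j then
        (∑ k ∈ Ico (max (z + 1) j₁) j, (c j).off L.length z j k *
            (φ k * (dm L 0 j * dm L 0 k * B.off L.length z j k)) +
          ∑ k ∈ Ico (j + 1) L.length, (c j).off L.length z j k *
            (φ k * (dm L 0 j * dm L 0 k * B.off L.length z j k))) else 0) =
      ∑ z ∈ range L.length, dm L 0 z * ∑ j ∈ Ico (max (z + 1) j₁) L.length, α j *
        (∑ k ∈ Ico (max (z + 1) j₁) j, (c j).off L.length z j k *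
            (φ k * (dm L 0 j * dm L 0 k * ip (P z (δ j)) (P z (δ k)))) +
          ∑ k ∈ Ico (j + 1) L.length, (c j).off L.length z j k *
            (φ k * (dm L 0 j * dm L 0 k * ip (P z (δ j)) (P z (δ k))))) := by
    simp only [mul_sum (range L.length), mul_left_comm (α _) (dm L 0 _)]
    rw [sum_comm]
    refine sum_congr rfl fun z _ => ?_
    rw [← mul_sum]
    congr 1
    simp only [mul_ite, mul_zero]
    rw [← sum_filter, show filter (fun j => z < j) (Ico j₁ L.length) =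
      Ico (max (z + 1) j₁) L.length by ext u; simp only [mem_filter, mem_Ico]; omega]
    refine sum_congr rfl fun j hj => ?_
    have hj' := mem_Ico.1 hj
    congr 2 <;> exact sum_congr rfl fun k hk => by
      have hk' := mem_Ico.1 hk
      rw [H.bs.off z j k (by omega) (by omega) (by omega) (by omega)]
  have h := fun z => H'.row (α := α) (l := l) (s := s) (P z) (H.bs.con z)
    (κ := fun j k => (c j).off L.length z j k) (m := max (z + 1) j₁) (c := c₀) (k0 := c₀)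
    (le_max_right _ _) (BH.s0 H) hl hl' H.c1 c0
    (fun j y h1 h2 h3 h4 _ => (R j (by omega) h2).of0 z y (by omega) (by omega) h4.le)
    (fun j h1 h2 => (R j (by omega) h2).of0 z _ (by omega) (by omega) (by omega))
    (fun j y h1 h2 h3 => (R j (by omega) h3).of1 z y (by omega) (by omega) (by omega) (by omega)
      (by omega) (by omega))
    (fun j y h1 h2 h3 => (R j (by omega) (by omega)).of1 z y (by omega) (by omega) (by omega)
      (by omega) (by omega) (by omega))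
  have n1 : 0 ≤ ∑ i ∈ Ico j₁ L.length, s i * f (i + 1) :=
    sum_nonneg fun i _ => mul_nonneg (BH.s0 H i) (H'.wf.nn _)
  have n2 : 0 ≤ ∑ j ∈ Ico j₁ L.length, |α j| * dm L 0 j * (g ^ 2 * dm L 0 j) :=
    sum_nonneg fun i _ => mul_nonneg (mul_nonneg (abs_nonneg _) (d0 i))
      (mul_nonneg (sq_nonneg _) (d0 i))
  have n3 : 0 ≤ Real.log (L.length + 2) * (1 + ∑ i ∈ Ico j₁ L.length, s i) *
      ∑ x ∈ Ico j₁ L.length, dm L 0 x * (α x ^ 2 * A x / l x + l x * A x) :=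
    mul_nonneg (mul_nonneg (Real.log_nonneg (by linarith [Nat.cast_nonneg (α := ℝ) L.length]))
      (add_nonneg zero_le_one (sum_nonneg fun i _ => BH.s0 H i)))
      (sum_nonneg fun i _ => mul_nonneg (d0 i) (add_nonneg (div_nonneg
        (mul_nonneg (sq_nonneg _) (H'.A0 i)) (hl i).le) (mul_nonneg (hl i).le (H'.A0 i))))
  have h1 := low_tail H H'.wf.nn
  have h2 := sum_dm_le_one H.mono (A := range L.length) (range_subset_range.2 (Nat.le_succ _))
  rw [e]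
  refine (abs_sum_le_sum_abs _ _).trans ((sum_le_sum fun z _ => (abs_mul _ _).trans_le
    (mul_le_mul (abs_of_nonneg (d0 z)).le (h z) (abs_nonneg _) (d0 z))).trans ?_)
  have n0 := Real.sqrt_nonneg (∑ x ∈ Ico j₁ L.length, dm L 0 x * (α x ^ 2 * A x))
  generalize √(∑ x ∈ Ico j₁ L.length, dm L 0 x * (α x ^ 2 * A x)) = SA at *
  generalize ∑ i ∈ Ico j₁ L.length, s i * f (i + 1) = SF at *
  generalize ∑ j ∈ Ico j₁ L.length, |α j| * dm L 0 j * (g ^ 2 * dm L 0 j) = DG at *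
  generalize Real.log (L.length + 2) * (1 + ∑ i ∈ Ico j₁ L.length, s i) *
      ∑ x ∈ Ico j₁ L.length, dm L 0 x * (α x ^ 2 * A x / l x + l x * A x) = TR at *
  have e2 : ∑ z ∈ range L.length, dm L 0 z * (SA * (c₀ * f (max (z + 1) j₁) + SF) + c₀ * DG +
      3 * c₀ * TR) = SA * c₀ * ∑ z ∈ range L.length, dm L 0 z * f (max (z + 1) j₁) +
      (∑ z ∈ range L.length, dm L 0 z) * (SA * SF + c₀ * DG + 3 * c₀ * TR) := by
    rw [mul_sum, sum_mul, ← sum_add_distrib]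
    exact sum_congr rfl fun z _ => by ring
  have m1 := mul_le_mul_of_nonneg_left h1 (mul_nonneg n0 c0)
  have m2 := mul_le_mul_of_nonneg_right h2 (show 0 ≤ SA * SF + c₀ * DG + 3 * c₀ * TR by positivity)
  rw [e2]
  linarith

end R18

open R18 in
/-- **one edge at `j`, summed with a density** -/
theorem rowAS : RowAS := by
  refine ⟨40, by norm_num, ?_⟩
  intro Θ L c B j₁ c₀ g p s a φ f α l A b V _ _ ip δ π P H hK hc W _ _ hg hA hl hl' hadd
  have H' : AH L j₁ ip δ g φ f A := ⟨H.mono, H.bs.sym, H.bs.pos, hK, W, hg, hA, hadd⟩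
  have R := fun j h1 h2 => (hc j h1 h2).2
  have lm : Monotone l := monotone_nat_of_le_succ hl'
  have d0 := dm_nonneg H.mono
  have c1 := H.c1
  set κ : ℕ → ℕ → ℝ := fun j y => if y < j then LO L (c j) y j else LO L (c j) j y with hκ
  have k1 := H'.row (α := α) (l := l) (s := s) LinearMap.id (fun _ => le_rfl) (κ := κ) (m := j₁)
    (c := 10 * c₀) (k0 := 10 * p j₁) le_rfl (BH.s0 H) hl lm (by linarith)
    (by linarith [H.p0 j₁])
    (fun j y h1 h2 h3 h4 h5 => by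
      simp only [hκ]
      split_ifs with h6
      · exact (abs_LO H.mono h6.le h2.le fun t h7 h8 => (R j h1 h2).dn0 y t h3 h6 h7 h8).trans
          (by linarith [H.pc y])
      · exact abs_LO H.mono (by omega) h4.le fun t h7 h8 =>
          (R j h1 h2).up0 y t (by omega) h4.le h7 h8)
    (fun j h1 h2 => by
      simp only [hκ, if_pos h1]
      exact abs_LO H.mono h1.le h2.le fun t h7 h8 => (R j h1.le h2).dn0 j₁ t le_rfl h1 h7 h8)
    (fun j y h1 h2 h3 => by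
      simp only [hκ, if_pos h2, if_pos (show y < j by omega)]
      exact (R j (by omega) h3).dn1 y h1 h2)
    (fun j y h1 h2 h3 => by
      simp only [hκ, if_neg (show ¬ y + 1 < j by omega), if_neg (show ¬ y < j by omega)]
      exact (R j h1 (by omega)).up1 y h2 (by omega))
  have k2 := off_bd (α := α) H H' R hl lm
  have k3 : |∑ y ∈ Ico j₁ L.length, dm L 0 y * φ y *
      ∑ j ∈ Ico (y + 1) L.length, dm L 0 j * α j * Q75.Pt L (c j) ip δ π y j| ≤
      4 * (√(∑ x ∈ Ico j₁ L.length, dm L 0 x * (α x ^ 2 * A x)) *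
        ∑ y ∈ Ico j₁ L.length, dm L 0 y * (p y * a y)) := by
    rw [mul_sum, mul_sum]
    refine (abs_sum_le_sum_abs _ _).trans (sum_le_sum fun y hy => ?_)
    rw [abs_mul]
    exact (mul_le_mul (W.abs_le H.mono y) (pi_dn H H' R (mem_Ico.1 hy).1 (mem_Ico.1 hy).2)
      (abs_nonneg _) (d0 y)).trans_eq (by ring)
  have k4 : |∑ j ∈ Ico j₁ L.length, α j * dm L 0 j *
      (∑ y ∈ Ico j₁ j, dm L 0 y * φ y * rho L (c j) B ip δ π y j +
      ∑ x ∈ Ico (j + 1) L.length, dm L 0 x * φ x * rho L (c j) B ip δ π j x -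
      2 * ∑ x ∈ Ico (j + 1) L.length, dm L 0 x * φ x * Q75.Pt L (c j) ip δ π j x)| ≤
      8 * c₀ * ∑ j ∈ Ico j₁ L.length, |α j| * dm L 0 j * RwE L j₁ j p s a b f := by
    rw [mul_sum]
    refine (abs_sum_le_sum_abs _ _).trans (sum_le_sum fun j hj => ?_)
    have hj' := mem_Ico.1 hj
    rw [abs_mul, abs_mul, abs_of_nonneg (d0 j)]
    exact (mul_le_mul_of_nonneg_left (err_bd H W hK (R j hj'.1 hj'.2) hj'.1 hj'.2)
      (mul_nonneg (abs_nonneg _) (d0 j))).trans_eq (by ring)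
  have e3 : ∑ y ∈ Ico j₁ L.length, dm L 0 y * φ y *
      ∑ j ∈ Ico (y + 1) L.length, dm L 0 j * α j * Q75.Pt L (c j) ip δ π y j =
      ∑ j ∈ Ico j₁ L.length, α j * dm L 0 j *
        ∑ y ∈ Ico j₁ j, dm L 0 y * φ y * Q75.Pt L (c j) ip δ π y j := by
    simp only [mul_sum]
    rw [sum_Ico_Ico_comm']
    exact sum_congr rfl fun j _ => sum_congr rfl fun y _ => by ring
  have e4 : ∀ j ∈ Ico j₁ L.length,
      dm L 0 j * ∑ y ∈ Ico j₁ j, dm L 0 y * φ y * LO L ((c j).mul B) y j +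
      dm L 0 j * ∑ x ∈ Ico (j + 1) L.length, dm L 0 x * φ x * LO L ((c j).mul B) j x =
      (∑ y ∈ Ico j₁ j, κ j y * (φ y * (dm L 0 j * dm L 0 y * ip (δ j) (δ y))) +
        ∑ y ∈ Ico (j + 1) L.length, κ j y * (φ y * (dm L 0 j * dm L 0 y * ip (δ j) (δ y)))) -
      2 * (dm L 0 j * ∑ y ∈ Ico j₁ j, dm L 0 y * φ y * Q75.Pt L (c j) ip δ π y j) +
      dm L 0 j * (∑ y ∈ Ico j₁ j, dm L 0 y * φ y * rho L (c j) B ip δ π y j +
      ∑ x ∈ Ico (j + 1) L.length, dm L 0 x * φ x * rho L (c j) B ip δ π j x -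
      2 * ∑ x ∈ Ico (j + 1) L.length, dm L 0 x * φ x * Q75.Pt L (c j) ip δ π j x) := fun j _ => by
    have a1 : dm L 0 j * ∑ y ∈ Ico j₁ j, dm L 0 y * φ y * LO L ((c j).mul B) y j =
        ∑ y ∈ Ico j₁ j, κ j y * (φ y * (dm L 0 j * dm L 0 y * ip (δ j) (δ y))) -
        2 * (dm L 0 j * ∑ y ∈ Ico j₁ j, dm L 0 y * φ y * Q75.Pt L (c j) ip δ π y j) +
        dm L 0 j * ∑ y ∈ Ico j₁ j, dm L 0 y * φ y * rho L (c j) B ip δ π y j := by
      simp only [mul_sum, ← sum_sub_distrib, ← sum_add_distrib]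
      refine sum_congr rfl fun y hy => ?_
      simp only [hκ, if_pos (mem_Ico.1 hy).2, rho]
      ring
    have a2 : dm L 0 j * ∑ x ∈ Ico (j + 1) L.length, dm L 0 x * φ x * LO L ((c j).mul B) j x =
        ∑ y ∈ Ico (j + 1) L.length, κ j y * (φ y * (dm L 0 j * dm L 0 y * ip (δ j) (δ y))) +
        dm L 0 j * ∑ x ∈ Ico (j + 1) L.length, dm L 0 x * φ x * rho L (c j) B ip δ π j x -
        2 * (dm L 0 j *
          ∑ x ∈ Ico (j + 1) L.length, dm L 0 x * φ x * Q75.Pt L (c j) ip δ π j x) := by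
      simp only [mul_sum, ← sum_sub_distrib, ← sum_add_distrib]
      refine sum_congr rfl fun y hy => ?_
      simp only [hκ, if_neg (show ¬ y < j by have := mem_Ico.1 hy; omega), rho, H.bs.sym (δ j)]
      ring
    rw [a1, a2]
    ring
  rw [e3] at k3
  simp only [LinearMap.id_coe, id] at k1
  rw [sum_congr rfl fun j hj => by
    rw [NL_row (hc j (mem_Ico.1 hj).1 (mem_Ico.1 hj).2).1 H.btr W.lw hK (mem_Ico.1 hj).1
      (mem_Ico.1 hj).2, e4 j hj, mul_add, mul_add, mul_sub, mul_left_comm (α j) 2,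
      ← mul_assoc (α j) (dm L 0 j), ← mul_assoc (α j) (dm L 0 j)],
    sum_add_distrib, sum_add_distrib, sum_sub_distrib, ← mul_sum]
  have e5 : ∑ j ∈ Ico j₁ L.length, |α j| * dm L 0 j * (g ^ 2 * dm L 0 j + RwE L j₁ j p s a b f) =
      ∑ j ∈ Ico j₁ L.length, |α j| * dm L 0 j * (g ^ 2 * dm L 0 j) +
      ∑ j ∈ Ico j₁ L.length, |α j| * dm L 0 j * RwE L j₁ j p s a b f := by
    simp only [mul_add, sum_add_distrib]
  have n1 : 0 ≤ ∑ i ∈ Ico j₁ L.length, s i * f (i + 1) :=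
    sum_nonneg fun i _ => mul_nonneg (BH.s0 H i) (W.nn _)
  have n2 : 0 ≤ ∑ j ∈ Ico j₁ L.length, |α j| * dm L 0 j * (g ^ 2 * dm L 0 j) :=
    sum_nonneg fun i _ => mul_nonneg (mul_nonneg (abs_nonneg _) (d0 i))
      (mul_nonneg (sq_nonneg _) (d0 i))
  have n3 : 0 ≤ Real.log (L.length + 2) * (1 + ∑ i ∈ Ico j₁ L.length, s i) *
      ∑ x ∈ Ico j₁ L.length, dm L 0 x * (α x ^ 2 * A x / l x + l x * A x) :=
    mul_nonneg (mul_nonneg (Real.log_nonneg (by linarith [Nat.cast_nonneg (α := ℝ) L.length]))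
      (add_nonneg zero_le_one (sum_nonneg fun i _ => BH.s0 H i)))
      (sum_nonneg fun i _ => mul_nonneg (d0 i) (add_nonneg (div_nonneg
        (mul_nonneg (sq_nonneg _) (hA i)) (hl i).le) (mul_nonneg (hl i).le (hA i))))
  have n4 : 0 ≤ ∑ j ∈ Ico j₁ L.length, |α j| * dm L 0 j * RwE L j₁ j p s a b f :=
    sum_nonneg fun j _ => mul_nonneg (mul_nonneg (abs_nonneg _) (d0 j)) (add_nonneg (add_nonneg
      (mul_nonneg (H.bs.a0 j) (add_nonneg (W.nn _) n1)) (sum_nonneg fun y _ => mul_nonneg (d0 y)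
        (mul_nonneg (H.p0 y) (mul_nonneg (H.b0 y j) (H.bs.a0 j)))))
      (sum_nonneg fun x _ => mul_nonneg (d0 x) (mul_nonneg (H.b0 j x) (H.bs.a0 x))))
  have n5 : 0 ≤ ∑ y ∈ Ico j₁ L.length, dm L 0 y * (p y * a y) :=
    sum_nonneg fun y _ => mul_nonneg (d0 y) (mul_nonneg (H.p0 y) (H.bs.a0 y))
  have n6 := mul_nonneg (H.p0 j₁) (W.nn j₁)
  have n0 := Real.sqrt_nonneg (∑ x ∈ Ico j₁ L.length, dm L 0 x * (α x ^ 2 * A x))
  rw [e5]
  generalize √(∑ x ∈ Ico j₁ L.length, dm L 0 x * (α x ^ 2 * A x)) = SA at *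
  generalize ∑ i ∈ Ico j₁ L.length, s i * f (i + 1) = SF at *
  generalize ∑ j ∈ Ico j₁ L.length, |α j| * dm L 0 j * (g ^ 2 * dm L 0 j) = DG at *
  generalize Real.log (L.length + 2) * (1 + ∑ i ∈ Ico j₁ L.length, s i) *
      ∑ x ∈ Ico j₁ L.length, dm L 0 x * (α x ^ 2 * A x / l x + l x * A x) = TR at *
  generalize ∑ j ∈ Ico j₁ L.length, |α j| * dm L 0 j * RwE L j₁ j p s a b f = RW at *
  generalize ∑ y ∈ Ico j₁ L.length, dm L 0 y * (p y * a y) = PA at *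
  have m1 := mul_le_mul_of_nonneg_right c1 (mul_nonneg n0 n1)
  have m2 := mul_le_mul_of_nonneg_right c1 (mul_nonneg n0 n5)
  have m3 := mul_le_mul_of_nonneg_right c1 (mul_nonneg n0 n6)
  have c0 : 0 ≤ c₀ := by linarith
  have q1 := mul_nonneg c0 (mul_nonneg n0 n1)
  have q2 := mul_nonneg c0 n2
  have q3 := mul_nonneg c0 n3
  have q4 := mul_nonneg c0 n4
  have q5 := mul_nonneg c0 (mul_nonneg n0 n5)
  have q6 := mul_nonneg c0 (mul_nonneg n0 n6)
  rw [abs_le] at k1 k2 k3 k4 ⊢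
  constructor <;> nlinarith [k1.1, k1.2, k2.1, k2.2, k3.1, k3.2, k4.1, k4.2]

end Crest.Agent.T156.Cas.Q21

end
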