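import Crest.Agent.T156.CQ21G_53
import Crest.Agent.T156.CQ21R_53
import Crest.Agent.T156.CQ21S_52
import Crest.Agent.T156.CQ21M_94
import Crest.Agent.T156.CQ21P_44
import Crest.Agent.T156.CQ21Pi_67
import Crest.Agent.T156.CQ21R_21
import Crest.Agent.T156.CQ21N_75
import Crest.Agent.T156.CQ21B_91
import Crest.Agent.T156.CQ21O_38
import Crest.Agent.T156.CQ21A_4
import Crest.Agent.T156.RowA_18

/-!
# Row 156 (helper53): `Q2S true`
-/

set_option autoImplicit false

namespace Crest.Agent.T156.Cas.C40

open Crest.Agent.T156.Cas.Q21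

/-- **the word `[aU, aU]` in the test direction** -/
theorem q2S_true : Q2S true :=
  G53.q2T_of linkT (nnS_of swapS mkS R53.regWS rowRS) (bBS_of swapS pertS mkS rowRS)
    (obS_of swapS mkS rowRS piS) (oaS_of swapS mkS rowRS rowAS)

end Crest.Agent.T156.Cas.C40
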