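import Crest.Agent.T156.CAll_54
import Crest.Agent.T156.CQ21F_53
import Crest.Agent.T156.CAb_83

/-!
# Row 156, block C: the test head up to the mean part of the mixed word (helper54)
-/

set_option autoImplicit false

namespace Crest.Agent.T156.Cas.C40

/-- the test head -/
theorem hT_mx (m : Mx23.MxM true) : HT :=
  glueT exS remS ⟨yhS _, y2S _, y3S _, y4S _, lbS _, mxS_true_of m, q2S_true, c3T, abS _,
    Ck32.crO _, cr4T, cr5 _⟩ stC stL stU

end Crest.Agent.T156.Cas.C40
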