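import Crest.Agent.T156.HessA_65
import Crest.Agent.T156.One_15
import Crest.Agent.T156.CaTayC_38
import Crest.Agent.T156.Com_6
import Crest.Agent.T156.Mul_55
import Crest.Agent.T156.Mov_21

/-!
Row 156 (helper65): **(Hess)** of docs/T156_40C.md.  For the one-site cascade and any direction
`om` of the node times, `⟨om, L om⟩ ≤ ∑ dm_j E Φ_yy² om_j² - c ‖om‖²_{H⁻¹}`.
-/

set_option autoImplicit false
set_option linter.unusedSectionVars false

noncomputable section

namespace Crest.Agent.T156.Hess65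

open MeasureTheory Real Set Filter Topology
open Crest.Agent.T157.E Crest.Agent.T157.Casc Crest.Agent.T157.SL Crest.Agent.T157.Casc.C
open Crest.Agent.R339.B Crest.Agent.R339.Var Crest.Agent.T157 Crest.Agent.T156.Cas
open Crest.ProbabilityR.SpinGlassDynamics (spin)
open Crest.Agent.T156.Pp Crest.Agent.T156.Pp.Ode3 Crest.Agent.T156.Pp.Area50

/-- the kernel `c_j e e'` -/
def ek (c : ℕ → ℝ) : ℕ → Bool → Bool → ℝ := fun j x y => c j * (spin x * spin y)

/-- `E Φ_yy²` at node `j` -/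
def Gn (L : List (Lv Bool)) (j : ℕ) : ℝ :=
  node (fun _ => 1) L j (fun z => Hb (fun _ => 1) (L.drop j) z spin spin ^ 2) 0

/-- `(L om)_j`: derivative of `Γ_j` when the node times move by `om` -/
def Lom (L : List (Lv Bool)) (om : ℕ → ℝ) (j : ℕ) : ℝ :=
  twoF j (fun x y => spin x * spin y)
    (Dop L (ek fun i => om i / 2) (TEf (fun _ => 1) L 0))

/-- node times -/
def tm (ℓ : List (ℝ × ℝ)) (j : ℕ) : ℝ := TT (ℓ.take j)

/-- the path of node times `s + t om` -/
def pth (z s om : ℕ → ℝ) (N : ℕ) : List (ML Bool) :=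
  List.ofFn fun j : Fin N =>
    ML.aff (sl spin (1, 1)) (s (j + 1) - s j) (om (j + 1) - om j) (z j)

theorem pth_succ (z s om : ℕ → ℝ) (N : ℕ) : pth z s om (N + 1) =
    ML.aff (sl spin (1, 1)) (s 1 - s 0) (om 1 - om 0) (z 0) ::
      pth (fun j => z (j + 1)) (fun j => s (j + 1)) (fun j => om (j + 1)) N := by
  simp [pth, List.ofFn_succ]

theorem len_pth (z s om : ℕ → ℝ) (N : ℕ) : (pth z s om N).length = N := by simp [pth]

theorem rk1_lv {v : ℝ} (m : ℝ) (hv : 0 ≤ v) : Rk1 spin (lv (sl spin (1, 1)) v m) (m, v) :=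
  ⟨rfl, hv, fun a b => by
    simp only [Lv.cov, Finset.univ_unique, Finset.sum_singleton, sqrt_one, one_mul]
    rw [mul_mul_mul_comm, mul_self_sqrt hv]⟩

theorem rk1_pth (t : ℝ) : ∀ (N : ℕ) (z s om : ℕ → ℝ), Up (fun j => s j + t * om j) N →
    List.Forall₂ (Rk1 spin) (mat (pth z s om N) t) (lsg z (fun j => s j + t * om j) N)
  | 0, z, s, om, _ => by simp [pth, mat, lsg]
  | N + 1, z, s, om, h => by
    rw [pth_succ, mat_cons, lsg_succ, ML.aff_at]
    refine .cons ?_ (rk1_pth t N _ _ _ h.tail)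
    rw [show s 1 - s 0 + (om 1 - om 0) * t = s 1 + t * om 1 - (s 0 + t * om 0) by ring]
    exact rk1_lv _ (sub_nonneg.2 (h 0 (Nat.succ_pos N)))

theorem dcov_pth (t : ℝ) (x y : Bool) : ∀ (N : ℕ) (z s om : ℕ → ℝ) (j : ℕ),
    dcov (pth z s om N) t j x y = (om (min j N) - om 0) * (spin x * spin y)
  | 0, z, s, om, j => by simp [pth, dcov_nil]
  | N + 1, z, s, om, 0 => by simp [dcov_zero]
  | N + 1, z, s, om, j + 1 => by
    rw [pth_succ, dcov_cons, dcov_pth t x y N, Nat.succ_min_succ]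
    have : (ML.aff (sl spin (1, 1)) (s 1 - s 0) (om 1 - om 0) (z 0)).l.cov x y =
        spin x * spin y := by simp [ML.aff, Lv.cov]
    rw [this]
    simp only [ML.aff, zero_add]
    ring

theorem m_pth (t : ℝ) : ∀ (N : ℕ) (z s om : ℕ → ℝ),
    (mat (pth z s om N) t).map Lv.m = List.ofFn fun j : Fin N => z j
  | 0, z, s, om => by simp [pth, mat]
  | N + 1, z, s, om => by
    rw [pth_succ, mat_cons, List.map_cons, m_pth t N, List.ofFn_succ]
    rfl

theorem pth_okC (z s om : ℕ → ℝ) (N : ℕ) {K : Set ℝ} (hK : IsCompact K) :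
    ∀ k ∈ (pth z s om N).map ML.tl, k.OkC K :=
  tl_okC hK fun p hp => by
    obtain ⟨j, rfl⟩ := List.mem_ofFn.1 hp
    exact (by fun_prop : Continuous fun t : ℝ =>
      s (j + 1) - s j + (om (j + 1) - om j) * t).continuousOn

variable {L L' : List (Lv Bool)} {ℓ : List (ℝ × ℝ)}

theorem same_of_rk1 (H : List.Forall₂ (Rk1 spin) L ℓ) :
    ∀ {L' : List (Lv Bool)}, List.Forall₂ (Rk1 spin) L' ℓ → List.Forall₂ Same L L' := by
  induction H with
  | nil => intro L' H'; cases H'; exact .nil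
  | cons h1 _ ih =>
    intro L' H'
    cases H' with
    | cons h2 H2 => exact .cons ⟨h1.1.trans h2.1.symm, funext fun a => funext fun b =>
        (h1.2.2 a b).trans (h2.2.2 a b).symm⟩ (ih H2)

theorem eq_lsg (H : List.Forall₂ (Rk1 spin) L ℓ) : ℓ = lsg (ex L) (tm ℓ) L.length := by
  induction H with
  | nil => simp [lsg]
  | @cons l p L ℓ h1 _ ih =>
    rw [List.length_cons, lsg_succ]
    congr 1
    · refine Prod.ext h1.1.symm ?_
      simp [tm, R339.Var.TT]
    · refine ih.trans ?_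
      simp only [lsg, ex_cons_succ, tm, List.take_succ_cons, One15.TT_cons, add_sub_add_left_eq_sub]

theorem tm_lsg : ∀ (N : ℕ) (z s : ℕ → ℝ) (j : ℕ), j ≤ N → tm (lsg z s N) j = s j - s 0
  | _, z, s, 0, _ => by simp [tm, R339.Var.TT]
  | N + 1, z, s, j + 1, h => by
    have := tm_lsg N (fun j => z (j + 1)) (fun j => s (j + 1)) j (by omega)
    rw [tm] at this
    rw [lsg_succ, tm, List.take_succ_cons, One15.TT_cons, this]
    ring

theorem nd_tm (H : List.Forall₂ (Rk1 spin) L ℓ) : Nd (tm ℓ) L.length (TT ℓ) := by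
  refine ⟨by simp [tm, R339.Var.TT], fun j hj => ?_, by rw [tm, H.length_eq, List.take_length]⟩
  have hj' : j < ℓ.length := H.length_eq ▸ hj
  have := One15.nn_of H _ (List.getElem_mem hj')
  rw [tm, tm, List.take_add_one, List.getElem?_eq_getElem hj']
  simp only [R339.Var.TT, Option.toList_some, List.map_append, List.sum_append, List.map_cons, List.map_nil,
    List.sum_cons, List.sum_nil]
  linarith

theorem head_ex (H : List.Forall₂ (Rk1 spin) L ℓ) : headLv 1 ℓ = ex L 0 := by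
  cases H with
  | nil => rfl
  | cons h1 _ => exact h1.1.symm

theorem lb_ex (H : List.Forall₂ (Rk1 spin) L ℓ) (hA : Adm 1 ℓ) : Lb (ex L) L.length := by
  refine ⟨head_ex H ▸ hA.head_pos one_pos, ?_, ex_length L⟩
  induction H with
  | nil => intro j hj; simp at hj
  | @cons l p L ℓ h1 H ih =>
    intro j hj
    cases j with
    | zero => exact h1.1.trans_le (hA.2.1.trans_eq (head_ex H))
    | succ j => exact ih hA.2.2.2 j (by simpa using hj)

theorem mono_of (H : List.Forall₂ (Rk1 spin) L ℓ) (hA : Adm 1 ℓ) :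
    ∀ {m : ℝ}, m ≤ headLv 1 ℓ → Mono m L := by
  induction H with
  | nil => exact fun h => h
  | cons h1 _ ih => exact fun h => ⟨h.trans_eq h1.1.symm, ih hA.2.2.2 (h1.1.trans_le hA.2.1)⟩

theorem pi2_Gam (H : List.Forall₂ (Rk1 spin) L ℓ) {j : ℕ} (hj : j ≤ L.length) :
    pi2 (fun _ => 1) L j (fun a b => spin a * spin b) 0 = Gam ℓ (tm ℓ j) := by
  have := One15.pi2_spin H (H.length_eq ▸ hj) 0
  rw [zero_smul] at this
  rw [this, Gam_QQ]
  rfl

theorem Gn_eq (H : List.Forall₂ (Rk1 spin) L ℓ) {j : ℕ} (hj : j ≤ L.length) :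
    Gn L j = Gp ℓ (tm ℓ j) := by
  have := One15.node_G H (H.length_eq ▸ hj) (G := fun _ a => a ^ 2) (by fun_prop) 0
  rw [zero_smul] at this
  rw [Gn, this, Gp, Et]
  congr 1
  funext y
  rw [W1, Dn_one]
  rfl

theorem Lom_same (H : List.Forall₂ Same L L') (om : ℕ → ℝ) : Lom L om = Lom L' om := by
  funext j
  have : TEf (fun _ => (1 : ℝ)) L 0 = TEf (fun _ => 1) L' 0 :=
    funext fun s => funext fun F => Law.TE_same One15.w1 s H F 0
  rw [Lom, Lom, this, Dop_tilt (Sch6.same_m H)]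

theorem Lom_congr (L : List (Lv Bool)) {om om' : ℕ → ℝ} (h : ∀ j ≤ L.length, om j = om' j) :
    Lom L om = Lom L om' := by
  funext j
  rw [Lom, Lom, Dop_congrS L (S' := ek fun i => om' i / 2) fun i hi => by
    funext x y; simp only [ek, h i hi]]

theorem twoF_mul {Λ : Fn Bool} (H : IsLin Λ) (j : ℕ) (c : ℝ) (Q : Bool → Bool → ℝ) :
    twoF j (fun x y => c * Q x y) Λ = c * twoF j Q Λ := by
  have := H (Sh.two j) c 0 (fun x => Q (x (Sh.twoL j)) (x (Sh.twoR j))) fun _ => 0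
  simpa only [zero_mul, add_zero, twoF] using this

/-- the quadratic form as a pair functional -/
theorem pairF_Lom (L : List (Lv Bool)) (c om : ℕ → ℝ) :
    pairF L (ek c) (Dop L (ek fun i => om i / 2) (TEf (fun _ => 1) L 0)) =
      ∑ j ∈ Finset.range (L.length + 1), dm L 0 j * c j * Lom L om j := by
  refine Finset.sum_congr rfl fun j _ => ?_
  rw [mul_assoc, Lom, ← twoF_mul ((isLin_TEf One15.w1 L 0).dop L _) j (c j)]
  rfl

theorem le_of_cubic {a b C e0 : ℝ} (h0 : 0 < e0)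
    (h : ∀ e, 0 < e → e ≤ e0 → a * e ^ 2 ≤ b * e ^ 2 + C * e ^ 3) : a ≤ b := by
  refine le_of_forall_pos_le_add fun ε hε => ?_
  have hC : 0 < |C| + 1 := by positivity
  set e := min e0 (ε / (|C| + 1)) with he
  have e1 : 0 < e := lt_min h0 (by positivity)
  have e2 : e * (|C| + 1) ≤ ε := (le_div_iff₀ hC).1 (min_le_right _ _)
  have h1 := h e e1 (min_le_left _ _)
  have h2 : a * e ^ 2 ≤ (b + ε) * e ^ 2 := by
    have : C * e ≤ ε := by nlinarith [le_abs_self C]
    nlinarith [mul_le_mul_of_nonneg_right this (sq_nonneg e)]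
  exact le_of_mul_le_mul_right h2 (by positivity)

/-- the bound in the cone of admissible directions, model cascade -/
theorem hess_pth {z s om : ℕ → ℝ} {N : ℕ} {S T : ℝ} (hz : Lb z N) (h : Nd s N S) (hT : S ≤ T)
    (h0 : om 0 = 0) (hN : om N = 0) (hs : ∀ j < N, s j < s (j + 1)) :
    ∑ j ∈ Finset.range N, (z (j + 1) - z j) * om (j + 1) * Lom (mat (pth z s om N) 0) om (j + 1) ≤
      ∑ j ∈ Finset.range N, (z (j + 1) - z j) * Gp (lsg z s N) (s (j + 1)) * om (j + 1) ^ 2 -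
        Real.exp (-14 * T) / 4 * Hm z s om N := by
  obtain ⟨B, hB0, hB⟩ : ∃ B, 0 ≤ B ∧ ∀ j ≤ N, |om j| ≤ B :=
    ⟨∑ j ∈ Finset.range (N + 1), |om j|, Finset.sum_nonneg fun _ _ => abs_nonneg _, fun j hj =>
      Finset.single_le_sum (f := fun j => |om j|) (fun _ _ => abs_nonneg _)
        (Finset.mem_range.2 (by omega))⟩
  obtain ⟨e0, he0, hp⟩ : ∃ e0, 0 < e0 ∧ ∀ t, 0 ≤ t → t ≤ e0 → ∀ j < N,
      0 < s (j + 1) - s j + (om (j + 1) - om j) * t := by
    have : ∀ᶠ t in 𝓝 (0 : ℝ), ∀ j ∈ Finset.range N, 0 < s (j + 1) - s j + (om (j + 1) - om j) * t :=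
      (Finset.eventually_all _).2 fun j hj => continuousAt_const.eventually_lt (by fun_prop)
        (by simpa using hs j (Finset.mem_range.1 hj))
    obtain ⟨ε, hε, h1⟩ := Metric.eventually_nhds_iff.1 this
    exact ⟨ε / 2, by positivity, fun t a b j hj => h1 (by
      rw [Real.dist_eq, sub_zero, abs_of_nonneg a]; linarith) j (Finset.mem_range.2 hj)⟩
  have nd : ∀ t, 0 ≤ t → t ≤ e0 → Nd (fun j => s j + t * om j) N S := fun t a b =>
    ⟨by simp [h.zero, h0], fun j hj => by have := hp t a b j hj; linarith,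
      by simp [h.top, hN]⟩
  set P := pth z s om N with hP
  set M := P.map ML.tl with hM
  set K : ℕ → Bool → Bool → ℝ := ek fun i => om (min i N) / 2 with hK
  have lM : M.length = N := by rw [hM, List.length_map, hP, len_pth]
  have l0 : (mat P 0).length = N := by rw [mat_length, hP, len_pth]
  have R0 := rk1_pth 0 N z s om (nd 0 le_rfl he0.le).up
  simp only [zero_mul, add_zero] at R0
  have ex0 : ∀ t, ∀ j ≤ N, ex (mat P t) j = z j := fun t j hj => by
    have e1 := m_pth t N z s om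
    rcases hj.eq_or_lt with rfl | hj
    · rw [hz.top, ← ex_length (mat P t), mat_length, hP, len_pth]
    · have e2 := congrArg (fun l => l[j]?) e1
      simp only [List.getElem?_map, List.getElem?_ofFn, hj, dite_true] at e2
      rw [Casc.ex]
      split
      · rename_i l hl
        rw [hl] at e2
        simpa using e2
      · rename_i hl
        rw [hl] at e2
        simp at e2
  have dm0 : ∀ t, ∀ j < N, dm (mat P t) 0 (j + 1) = z (j + 1) - z j := fun t j hj => by
    rw [dm, exP, ex0 t _ hj, ex0 t _ hj.le]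
  have mo : Mono 0 (mat P 0) := mono_of R0 (hz.adm h) ((hz.adm h).head_pos one_pos).le
  refine le_of_cubic (C := 4 * ((2 + Real.exp (-14 * T) / 8 * N) * B ^ 3 +
    3 * cTay 2 2 2 * B ^ 3 / (3 : ℕ).factorial)) he0 fun e a b => ?_
  have ok : ∀ p ∈ P, p.Ok (Ioo 0 e) := fun p hp' => by
    obtain ⟨j, rfl⟩ := List.mem_ofFn.1 hp'
    exact ML.aff_ok _ _ _ _ (Or.inr fun t ht => hp t ht.1.le (ht.2.le.trans b) j j.2)
  have t1 := taylor_X_le (L := M) (S := K) (c := 0) (T := fun _ _ _ => B) One15.w1 a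
    (pth_okC z s om N isCompact_Icc)
    (fun k hk => by
      obtain ⟨p, hp', rfl⟩ := List.mem_map.1 hk
      exact (ok p hp').c1)
    (fun t ht => by
      funext j x y
      rw [hM, Sacc_tl ht x y P ok j, hP, dcov_pth, hK, ek, h0]
      ring)
    (fun y => by rw [hK, ek, lM, min_self, hN]; simp)
    (by rwa [hM, atL_tl])
    (fun j x y => by
      rw [hK, ek, abs_mul, abs_mul, One15.abs_spin, One15.abs_spin, abs_div, abs_two]
      linarith [hB _ (min_le_right j N)])
    0 1 (E := B ^ 3) fun θ _ => by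
      simp only [mom0, pi2_const One15.w1]
      rw [← Finset.sum_mul, sum_dm, ex_length, sub_zero, one_mul]
  simp only [hM, atL_tl] at t1
  have x1 := X_spin (rk1_pth e N z s om (nd e a.le b).up) 0
  have x0 := X_spin R0 0
  rw [zero_smul] at x1 x0
  rw [← hP] at x1 x0
  have eK : Dop (mat P 0) K = Dop (mat P 0) (ek fun i => om i / 2) :=
    Dop_congrS _ fun i hi => by rw [hK]; funext x y; simp only [ek, min_eq_left (l0 ▸ hi)]
  have p0 : pairF (mat P 0) K (TEf (fun _ => 1) (mat P 0) 0) = (∑ j ∈ Finset.range N,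
      (z (j + 1) - z j) * om (j + 1) * Gam (lsg z s N) (s (j + 1))) / 2 := by
    rw [pairF, l0, Finset.sum_range_succ', Finset.sum_div]
    have pk : ∀ c j, pi2 (fun _ => 1) (mat P 0) j (ek c j) 0 =
        c j * pi2 (fun _ => 1) (mat P 0) j (fun a b => spin a * spin b) 0 :=
      fun c j => pi2_const_mul _ _ _ _ _ _
    simp only [twoF_TEf One15.w1, hK, pk, Nat.zero_min, h0, zero_div, zero_mul,
      mul_zero, add_zero]
    refine Finset.sum_congr rfl fun j hj => ?_
    have hj' := Finset.mem_range.1 hj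
    rw [dm0 0 j hj', pi2_Gam R0 (by rw [← hP]; omega), tm_lsg N z s _ hj', h.zero, sub_zero,
      min_eq_left (show j + 1 ≤ N from hj')]
    ring
  have p1 : pairF (mat P 0) K (Dop (mat P 0) K (TEf (fun _ => 1) (mat P 0) 0)) =
      (∑ j ∈ Finset.range N, (z (j + 1) - z j) * om (j + 1) * Lom (mat P 0) om (j + 1)) / 2 := by
    rw [eK, hK, pairF_Lom, l0, Finset.sum_range_succ', Finset.sum_div]
    simp only [Nat.zero_min, h0, zero_div, zero_mul, mul_zero, add_zero]
    refine Finset.sum_congr rfl fun j hj => ?_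
    have hj' := Finset.mem_range.1 hj
    rw [dm0 0 j hj', min_eq_left (show j + 1 ≤ N from hj')]
    ring
  simp only [Finset.sum_range_succ, Finset.range_zero, Finset.sum_empty, Function.iterate_zero,
    Function.iterate_one, id_eq, p0, p1, x1, x0, sub_zero] at t1
  have t2 := (abs_le.1 t1).2
  have t3 := ray hz h hT hB0 hB a.le (nd e a.le b)
  have f1 : ((0 + 1 : ℕ).factorial : ℝ) = 1 := by norm_num
  have f2 : ((1 + 1 : ℕ).factorial : ℝ) = 2 := by norm_num [Nat.factorial]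
  have f3 : ((1 + 2 : ℕ).factorial : ℝ) = 6 := by norm_num [Nat.factorial]
  have f4 : ((3 : ℕ).factorial : ℝ) = 6 := by norm_num [Nat.factorial]
  rw [f1, f2, f3] at t2
  rw [f4]
  change PhiL 1 (lsg z (fun j => s j + e * om j) N) 0 - (PhiL 1 (lsg z s N) 0 + _ - _) ≤
    3 * cTay 2 2 2 * B ^ 3 * e ^ 3 / 6 at t2
  simp only [zero_add, pow_one, show 1 + 1 = 2 from rfl] at t2
  linarith

open Classical in
theorem eg_HP {Ω : Type} [Fintype Ω] {w : Ω → ℝ} (hw : Wt w) {I : Set ℝ} (x y : Ω) :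
    ∀ {M : List (TL Ω)}, (∀ l ∈ M, l.OkC I) → EG I (HP w M x y)
  | [], _ => (sm_P_nil hw x).choose_spec.egb y
  | l :: M, hL => by
    have h := fun k hk => hL k (List.mem_cons_of_mem l hk)
    rw [HP_cons]
    exact ((lg_XP hw h).eg_tP (hL l (by simp)) ((eg_HP hw x y h).add
      (((eg_PP hw h x).mul (eg_PP hw h y)).const_mul _))).sub
      (((eg_PP hw hL x).mul (eg_PP hw hL y)).const_mul _)

open Classical in
theorem eg_G {Ω : Type} [Fintype Ω] {w : Ω → ℝ} (hw : Wt w) {I : Set ℝ} (f : Ω → ℝ) :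
    ∀ (M : List (TL Ω)), (∀ l ∈ M, l.OkC I) → ∀ j : ℕ, EG I fun p : Pt Ω =>
      node w (atL M p.1) j (fun z => Hb w ((atL M p.1).drop j) z f f ^ 2) p.2
  | M, hL, 0 => by
    have : EG I fun p : Pt Ω => Hb w (atL M p.1) p.2 f f :=
      EG.sum _ fun x _ => EG.sum _ fun y _ => (eg_HP hw x y hL).const_mul _
    simpa only [node, List.drop_zero, sq] using this.mul this
  | [], hL, j + 1 => by
    have := eg_G hw f [] hL 0
    simpa [node, atL] using this
  | l :: M, hL, j + 1 => by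
    have h := fun k hk => hL k (List.mem_cons_of_mem l hk)
    exact (lg_XP hw h).eg_tP (hL l (by simp)) (eg_G hw f M h j)

theorem cont_Gn {M : List (TL Bool)} {I : Set ℝ} (hL : ∀ l ∈ M, l.OkC I) (j : ℕ) :
    ContinuousOn (fun t => Gn (atL M t) j) I :=
  (eg_G One15.w1 spin M hL j).cont.comp (f := fun t : ℝ => ((t, 0) : Pt Bool)) (by fun_prop)
    fun _ ht => ⟨ht, trivial⟩

theorem cont_Lom {M : List (TL Bool)} {I : Set ℝ} (hL : ∀ l ∈ M, l.OkC I) (om : ℕ → ℝ) (j : ℕ) :
    ContinuousOn (fun t => Lom (atL M t) om j) I := by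
  simp only [Lom, fun t => Dop_at M t 0]
  exact continuousOn_Dop_iter One15.w1 hL _ _ 0 1 _ _

/-- the bound for arbitrary (nondecreasing) node times -/
theorem hess_lsg {z s om : ℕ → ℝ} {N : ℕ} {S T : ℝ} (hz : Lb z N) (h : Nd s N S) (hT : S ≤ T)
    (h0 : om 0 = 0) (hN : om N = 0) (H : List.Forall₂ (Rk1 spin) L (lsg z s N)) :
    ∑ j ∈ Finset.range N, (z (j + 1) - z j) * om (j + 1) * Lom L om (j + 1) ≤
      ∑ j ∈ Finset.range N, (z (j + 1) - z j) * Gn L (j + 1) * om (j + 1) ^ 2 -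
        Real.exp (-14 * T) / 4 * Hm z s om N := by
  set M := (pth z s (fun j => j) N).map ML.tl with hM
  have hC : ∀ l ∈ M, l.OkC (Icc 0 1) := pth_okC z s _ N isCompact_Icc
  have nd : ∀ t, 0 ≤ t → Nd (fun j => s j + t * j) N (S + t * N) := fun t a =>
    ⟨by simp [h.zero], fun j hj => by have := h.up j hj; push_cast; linarith, by simp [h.top]⟩
  have R : ∀ t, 0 ≤ t → List.Forall₂ (Rk1 spin) (atL M t) (lsg z (fun j => s j + t * j) N) :=
    fun t a => by rw [hM, atL_tl]; exact rk1_pth t N z s _ (nd t a).up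
  have len : ∀ {L ℓ}, List.Forall₂ (Rk1 spin) L (lsg z ℓ N) → L.length = N := fun H => by
    rw [H.length_eq, lsg, List.length_ofFn]
  have G : ∀ {L s S}, Nd s N S → List.Forall₂ (Rk1 spin) L (lsg z s N) → ∀ j ∈ Finset.range N,
      Gn L (j + 1) = Gp (lsg z s N) (s (j + 1)) := fun h H j hj => by
    have hj' := Finset.mem_range.1 hj
    rw [Gn_eq H (by rw [len H]; omega), tm_lsg N z _ _ hj', h.zero, sub_zero]
  have c1 : ContinuousOn (fun t => ∑ j ∈ Finset.range N,
      (z (j + 1) - z j) * om (j + 1) * Lom (atL M t) om (j + 1)) (Icc 0 1) :=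
    continuousOn_finsetSum _ fun j _ => continuousOn_const.mul (cont_Lom hC om _)
  have c2 : ContinuousOn (fun t => ∑ j ∈ Finset.range N,
      (z (j + 1) - z j) * Gn (atL M t) (j + 1) * om (j + 1) ^ 2 -
        Real.exp (-14 * (T + t * N)) / 4 * Hm z (fun j => s j + t * j) om N) (Icc 0 1) :=
    (continuousOn_finsetSum _ fun j _ => (continuousOn_const.mul (cont_Gn hC _)).mul
      continuousOn_const).sub (Continuous.continuousOn (by unfold Hm; fun_prop))
  have key := ContinuousWithinAt.closure_le (s := Ioc 0 1) (x := 0) (by simp)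
    ((c1 0 (by simp)).mono Ioc_subset_Icc_self) ((c2 0 (by simp)).mono Ioc_subset_Icc_self)
    fun t ht => by
      have n := nd t ht.1.le
      have k := hess_pth hz n (T := T + t * N) (by linarith) h0 hN fun j hj => by
        have := h.up j hj; have := ht.1; push_cast; linarith
      have R' := rk1_pth 0 N z (fun j => s j + t * j) om (by simpa using n.up)
      simp only [zero_mul, add_zero] at R'
      rw [Lom_same (same_of_rk1 R' (R t ht.1.le))] at k
      refine k.trans_eq ?_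
      congr 1
      exact Finset.sum_congr rfl fun j hj => by rw [G n (R t ht.1.le) j hj]
  have R0 := R 0 le_rfl
  simp only [zero_mul, add_zero] at key R0
  rw [Lom_same (same_of_rk1 R0 H)] at key
  refine key.trans_eq ?_
  congr 1
  exact Finset.sum_congr rfl fun j hj => by rw [G h R0 j hj, G h H j hj]

/-- `‖om‖²_{H⁻¹}` in the variance clock -/
def Hc (L : List (Lv Bool)) (ℓ : List (ℝ × ℝ)) (om : ℕ → ℝ) : ℝ :=
  ∑ k ∈ Finset.range L.length, (tm ℓ (k + 1) - tm ℓ k) *
    (∑ i ∈ Finset.Ico k L.length, dm L 0 (i + 1) * om (i + 1)) ^ 2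

/-- **(Hess)** -/
theorem hess (H : List.Forall₂ (Rk1 spin) L ℓ) (hA : Adm 1 ℓ) {T : ℝ} (hT : TT ℓ ≤ T)
    {om : ℕ → ℝ} (h0 : om 0 = 0) (hN : om L.length = 0) :
    ∑ j ∈ Finset.range (L.length + 1), dm L 0 j * om j * Lom L om j ≤
      ∑ j ∈ Finset.range (L.length + 1), dm L 0 j * Gn L j * om j ^ 2 -
        Real.exp (-14 * T) / 4 * Hc L ℓ om := by
  have := hess_lsg (lb_ex H hA) (nd_tm H) hT h0 hN (eq_lsg H ▸ H)
  rw [Finset.sum_range_succ', Finset.sum_range_succ', h0]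
  simp only [mul_zero, zero_mul, add_zero, sq] at this ⊢
  exact this

/-- **(Hess)**, `⟨om, (1 - τ L) om⟩ ≥ ∑ dm μ om² + c τ ‖om‖²_{H⁻¹}` with `μ_j = 1 - τ E Φ_yy²` -/
theorem hess_mu (H : List.Forall₂ (Rk1 spin) L ℓ) (hA : Adm 1 ℓ) {T : ℝ} (hT : TT ℓ ≤ T)
    {om : ℕ → ℝ} (h0 : om 0 = 0) (hN : om L.length = 0) {τ : ℝ} (hτ : 0 ≤ τ) :
    ∑ j ∈ Finset.range (L.length + 1), dm L 0 j * (1 - τ * Gn L j) * om j ^ 2 +
      τ * (Real.exp (-14 * T) / 4) * Hc L ℓ om ≤
      ∑ j ∈ Finset.range (L.length + 1), dm L 0 j * om j * (om j - τ * Lom L om j) := by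
  have := mul_le_mul_of_nonneg_left (hess H hA hT h0 hN) hτ
  have e1 : ∀ j, dm L 0 j * (1 - τ * Gn L j) * om j ^ 2 =
      dm L 0 j * om j ^ 2 - τ * (dm L 0 j * Gn L j * om j ^ 2) := fun j => by ring
  have e2 : ∀ j, dm L 0 j * om j * (om j - τ * Lom L om j) =
      dm L 0 j * om j ^ 2 - τ * (dm L 0 j * om j * Lom L om j) := fun j => by ring
  simp only [e1, e2, Finset.sum_sub_distrib, ← Finset.mul_sum]
  linarith

/-- **(Hess)**, pair-functional form with the kernel `om e e'` in both slots -/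
theorem hess_pairF (H : List.Forall₂ (Rk1 spin) L ℓ) (hA : Adm 1 ℓ) {T : ℝ} (hT : TT ℓ ≤ T)
    {om : ℕ → ℝ} (h0 : om 0 = 0) (hN : om L.length = 0) :
    pairF L (ek om) (Dop L (ek om) (TEf (fun _ => 1) L 0)) ≤
      2 * ∑ j ∈ Finset.range (L.length + 1), dm L 0 j * Gn L j * om j ^ 2 -
        Real.exp (-14 * T) / 2 * Hc L ℓ om := by
  have e : ek om = ek fun i => 2 * om i / 2 := by funext j x y; simp [ek]
  have h := hess H hA hT (om := fun i => 2 * om i) (by simp [h0]) (by simp [hN])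
  have p := pairF_Lom L om fun i => 2 * om i
  rw [← e] at p
  have e1 : Hc L ℓ (fun i => 2 * om i) = 4 * Hc L ℓ om := by
    simp only [Hc, mul_left_comm _ (2 : ℝ), ← Finset.mul_sum, mul_pow]
    rw [Finset.mul_sum]
    exact Finset.sum_congr rfl fun k _ => by ring
  have e2 : ∀ j, dm L 0 j * (2 * om j) * Lom L (fun i => 2 * om i) j =
      2 * (dm L 0 j * om j * Lom L (fun i => 2 * om i) j) := fun j => by ring
  have e3 : ∀ j, dm L 0 j * Gn L j * (2 * om j) ^ 2 = 4 * (dm L 0 j * Gn L j * om j ^ 2) :=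
    fun j => by ring
  simp only [e1, e2, e3, ← Finset.mul_sum] at h
  rw [p]
  linarith

theorem ek_mem {K : ℕ} {c : ℕ → ℝ} (h : c 0 = 0) : ek c ∈ Mul55.Ok Bool K :=
  ⟨by funext x y; simp [ek, h], c K, fun y => by rw [ek, ← sq, One15.spin_sq, mul_one]⟩

/-- `L` is symmetric -/
theorem Lom_symm (L : List (Lv Bool)) {om om' : ℕ → ℝ} (h : om 0 = 0) (h' : om' 0 = 0) :
    ∑ j ∈ Finset.range (L.length + 1), dm L 0 j * om' j * Lom L om j =
      ∑ j ∈ Finset.range (L.length + 1), dm L 0 j * om j * Lom L om' j := by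
  have := Mul55.pairF_swap One15.w1 L 0 (S := ek fun i => om' i / 2) (T := ek fun i => om i / 2)
    (ek_mem (by simp [h'])) (ek_mem (by simp [h])) (U := []) (by simp)
  rw [WdO_nil, pairF_Lom, pairF_Lom] at this
  have e : ∀ (a b : ℕ → ℝ) j, dm L 0 j * (a j / 2) * b j = dm L 0 j * a j * b j / 2 :=
    fun a b j => by ring
  simp only [e, ← Finset.sum_div] at this
  linarith

theorem Lom_lin (L : List (Lv Bool)) (a b : ℝ) (om om' : ℕ → ℝ) (j : ℕ) :
    Lom L (fun i => a * om i + b * om' i) j = a * Lom L om j + b * Lom L om' j := by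
  have e : (ek fun i => (a * om i + b * om' i) / 2) = fun j x y =>
      a * ek (fun i => om i / 2) j x y + b * ek (fun i => om' i / 2) j x y := by
    funext j x y; simp only [ek]; ring
  simp only [Lom, twoF, e, (isLin_TEf One15.w1 L 0).dopS]

/-- the off-diagonal part of `L` -/
def Loff (L : List (Lv Bool)) (om : ℕ → ℝ) (j : ℕ) : ℝ := Lom L om j - Gn L j * om j

/-- **(Hess)**: `-⟨om, Loff om⟩ ≥ c ‖om‖²_{H⁻¹}` -/
theorem hess_off (H : List.Forall₂ (Rk1 spin) L ℓ) (hA : Adm 1 ℓ) {T : ℝ} (hT : TT ℓ ≤ T)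
    {om : ℕ → ℝ} (h0 : om 0 = 0) (hN : om L.length = 0) :
    Real.exp (-14 * T) / 4 * Hc L ℓ om ≤
      -∑ j ∈ Finset.range (L.length + 1), dm L 0 j * om j * Loff L om j := by
  have := hess H hA hT h0 hN
  have e : ∀ j, dm L 0 j * om j * Loff L om j =
      dm L 0 j * om j * Lom L om j - dm L 0 j * Gn L j * om j ^ 2 := fun j => by unfold Loff; ring
  simp only [e, Finset.sum_sub_distrib]
  linarith

/-- change of clock in the `H⁻¹` norm -/
theorem Hc_ge (ℓ : List (ℝ × ℝ)) (om : ℕ → ℝ) {g : ℕ → ℝ}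
    (hg : ∀ k < L.length, g k ≤ tm ℓ (k + 1) - tm ℓ k) :
    ∑ k ∈ Finset.range L.length, g k *
      (∑ i ∈ Finset.Ico k L.length, dm L 0 (i + 1) * om (i + 1)) ^ 2 ≤ Hc L ℓ om :=
  Finset.sum_le_sum fun k hk =>
    mul_le_mul_of_nonneg_right (hg k (Finset.mem_range.1 hk)) (sq_nonneg _)

theorem Hc_nonneg (H : List.Forall₂ (Rk1 spin) L ℓ) (om : ℕ → ℝ) : 0 ≤ Hc L ℓ om :=
  Finset.sum_nonneg fun k hk =>
    mul_nonneg (sub_nonneg.2 ((nd_tm H).up k (Finset.mem_range.1 hk))) (sq_nonneg _)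

theorem Gn_mem (H : List.Forall₂ (Rk1 spin) L ℓ) (hA : Adm 1 ℓ) {j : ℕ} (hj : j ≤ L.length) :
    0 ≤ Gn L j ∧ Gn L j ≤ 1 := by
  rw [Gn_eq H hj]
  exact ⟨Gp_nonneg _ _, Gp_le_one hA _⟩

/-- `Lom` is the derivative of `Γ_j` along any path whose accumulated variances move by `om` -/
theorem hasDerivAt_Gam {M : List (TL Bool)} {I : Set ℝ} (hI : IsOpen I) (hM : ∀ l ∈ M, l.C1 I)
    {u : ℝ} (hu : u ∈ I) {om : ℕ → ℝ} (hS : Sacc M u = ek fun i => om i / 2) (j : ℕ) :
    HasDerivAt (fun t => pi2 (fun _ => 1) (atL M t) j (fun a b => spin a * spin b) 0)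
      (Lom (atL M u) om j) u := by
  have := hasDerivAt_Dop_iter One15.w1 hI hM hu hS (c := om M.length / 2)
    (fun y => by rw [ek, ← sq, One15.spin_sq, mul_one]) 0 u 0 (Sh.two j)
    fun x => spin (x (Sh.twoL j)) * spin (x (Sh.twoR j))
  simp only [← twoF_TEf One15.w1]
  exact this

end Crest.Agent.T156.Hess65

end
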