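import Crest.Agent.T156.Ker_15
import Crest.Agent.T156.Mul_55

/-!
# Row 156 (helper60): site words of the tested stage, statements

`W T k [f₁, …, f_r]` is the derivative of `Γ_k` in the directions `f₁, …, f_r` of the node times.
-/

set_option autoImplicit false

noncomputable section

namespace Crest.Agent.T156.Cas.R1J

open Finset
open Crest.Agent.T157.E Crest.Agent.T157.Casc Crest.Agent.T157.SL
open Crest.ProbabilityR.SpinGlassDynamics (spin)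

/-- `f_j ε ε' / 2` -/
def sk (f : ℕ → ℝ) : ℕ → Bool → Bool → ℝ := fun j a b => f j / 2 * (spin a * spin b)

/-- site words -/
def W (T : List (Lv Bool)) (k : ℕ) (fs : List (ℕ → ℝ)) : ℝ :=
  twoF k (fun a b => spin a * spin b) (WdO T (fs.map sk) (TEf (fun _ => 1) T 0))

/-- indicator of a node -/
def ind (k : ℕ) : ℕ → ℝ := fun j => if j = k then 1 else 0

/-- the value at the node `k` removed -/
def off (k : ℕ) (f : ℕ → ℝ) : ℕ → ℝ := fun j => if j = k then 0 else f j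

variable (T : List (Lv Bool))

/-- `L¹` norm against the tilts -/
def n1 (f : ℕ → ℝ) : ℝ := ∑ j ∈ range (T.length + 1), dm T 0 j * |f j|

/-- its part below `k` -/
def lo (k : ℕ) (f : ℕ → ℝ) : ℝ := ∑ j ∈ range k, dm T 0 j * |f j|

/-- its part above `k` -/
def hi (k : ℕ) (f : ℕ → ℝ) : ℝ := ∑ j ∈ Ioc k T.length, dm T 0 j * |f j|

/-- `E A_k²` -/
def G (k : ℕ) : ℝ :=
  node (fun _ => 1) T k (fun z => Hb (fun _ => 1) (T.drop k) z spin spin ^ 2) 0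

/-- non-local response of `Γ_k` -/
def NL (h : ℕ → ℝ) (k : ℕ) : ℝ := W T k [off k h]

/-- non-local response of `G_k` -/
def J (h : ℕ → ℝ) (k : ℕ) : ℝ := W T k [ind k, off k h]

/-- a node of a site cascade with a parity size `p` -/
structure Nd (k : ℕ) (p : ℝ) : Prop where
  r1 : Ker15.R1 T
  mono : Mono 0 T
  k0 : 0 < k
  kK : k < T.length
  p0 : 0 < p
  par : min 1 (ex T k + Ker15.tm T k) ≤ p

/-- (S1) one letter -/
def S1 : Prop := ∃ C : ℝ, 1 ≤ C ∧ ∀ (T : List (Lv Bool)) (k : ℕ) (p : ℝ), Nd T k p →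
  ∀ f : ℕ → ℝ, f 0 = 0 → |W T k [f] - f k * G T k| ≤ C * (p * n1 T f)

/-- (S2) two letters off the node -/
def S2 : Prop := ∃ C : ℝ, 1 ≤ C ∧ ∀ (T : List (Lv Bool)) (k : ℕ) (p : ℝ), Nd T k p →
  ∀ f g : ℕ → ℝ, f 0 = 0 → g 0 = 0 → f k = 0 → g k = 0 → |W T k [f, g]| ≤
    C * (p * (n1 T f * n1 T g) + p * hi T k (fun j => f j * g j) + lo T k fun j => f j * g j)

/-- (S3) one letter at the node -/
def S3 : Prop := ∃ C : ℝ, 1 ≤ C ∧ ∀ (T : List (Lv Bool)) (k : ℕ) (p : ℝ), Nd T k p →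
  ∀ f : ℕ → ℝ, f 0 = 0 → |W T k [ind k, f]| ≤ C * (p * |f k| + n1 T f)

/-- (S4) two letters at the node -/
def S4 : Prop := ∃ C : ℝ, 1 ≤ C ∧ ∀ (T : List (Lv Bool)) (k : ℕ) (p : ℝ), Nd T k p →
  ∀ f : ℕ → ℝ, f 0 = 0 → |W T k [ind k, ind k, f]| ≤ C * (|f k| + p * n1 T f)

/-- (S5) one step of the test node -/
def S5 : Prop := ∃ C : ℝ, 1 ≤ C ∧ ∀ (T : List (Lv Bool)) (i : ℕ) (p : ℝ), 0 < i →
  Nd T (i + 1) p → ∀ h : ℕ → ℝ, h 0 = 0 → ∀ Δ, Δ = Ker15.tm T (i + 1) - Ker15.tm T i →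
    |NL T h (i + 1) - NL T h i - Δ * J T h i| ≤
      C * ((p + Δ) * (dm T 0 i * |h i| + dm T 0 (i + 1) * |h (i + 1)|) +
        Δ * ((Δ + dm T 0 i + dm T 0 (i + 1)) * n1 T h)) ∧
    |J T h (i + 1) - J T h i| ≤ C * (dm T 0 i * |h i| + dm T 0 (i + 1) * |h (i + 1)| +
      (Δ + dm T 0 i + dm T 0 (i + 1)) * n1 T h)

/-- (S6) constants drop: any centring of the test pair and of the letters -/
def S6 : Prop := ∀ (T : List (Lv Bool)) (k : ℕ) (c : ℝ) (f : ℕ → ℝ) (fs : List (ℕ → ℝ))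
  (q : ℕ → ℝ), (∀ g ∈ f :: fs, g 0 = 0) →
  twoF k (fun a b => spin a * spin b - c)
    (WdO T ((f :: fs).map fun g j a b => g j / 2 * (spin a * spin b - q j))
      (TEf (fun _ => 1) T 0)) = W T k (f :: fs)

/-- (S7) symmetry: the test weight is one more letter -/
def S7 : Prop := ∀ (T : List (Lv Bool)) (f g : ℕ → ℝ) (fs : List (ℕ → ℝ)),
  f 0 = 0 → g 0 = 0 → (∀ u ∈ fs, u 0 = 0) →
  ∑ j ∈ range (T.length + 1), dm T 0 j * (f j * W T j (g :: fs)) =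
    ∑ j ∈ range (T.length + 1), dm T 0 j * (g j * W T j (f :: fs))

end Crest.Agent.T156.Cas.R1J

end
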