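import Crest.Agent.T156.CIn_12

/-!
# Row 156, block C: second moments of the weak functionals on the models `Alt.Md` (helper12)

Brascamp–Lieb for the path part, `z · vv ≤ aa` for the leaf part: `CD.Add` holds with
`A = (8 + 2 Ω) E mᵀ A m`, `Ω = ∑_UP dz / z ≤ log (1 / z (J - 1))`.
-/

set_option autoImplicit false
set_option linter.unusedSectionVars false

noncomputable section

namespace Crest.Agent.T156.Alt.CIn12

open MeasureTheory Real Finset
open Crest.Agent.T157.E Crest.Agent.T157.Casc Crest.Agent.T157.SL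
open Crest.Agent.T157.G1 (ov)
open Crest.Agent.T156.Cas Crest.Agent.T156.Cas.Sy41 Crest.Agent.T156.Cas.Q33
open Crest.Agent.T156.Cas.Lp12 Crest.Agent.T156.Cas.C40 Crest.Agent.T156.Alt.Md67

/-- `E mᵀ A m / m²` at the profile node `k` -/
def aE (M : Md) (m : ℕ) (a : ℝ) (k : ℕ) : ℝ := aa (fun _ => 1) (M.L m a) (sl m) 0 (k + 1)

/-- `∑ dz / z` -/
def Om (M : Md) (m : ℕ) (a : ℝ) (T : Finset ℕ) : ℝ := ∑ k ∈ T, M.dz m a k / M.z k

/-- the additive variance density (cascade index) -/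
def AA (M : Md) (m : ℕ) (a : ℝ) (J j : ℕ) : ℝ :=
  (8 + 2 * Om M m a (Ico J M.N)) * aa (fun _ => 1) (M.L m a) (sl m) 0 j

/-- canonical `L²` norm of the tails for the density `α` -/
def fA (M : Md) (m : ℕ) (a : ℝ) (J : ℕ) (α : ℕ → ℝ) (k : ℕ) : ℝ :=
  √(∑ t ∈ tlP M J k, M.dz m a t * (α t ^ 2 * AA M m a J (t + 1)))

variable {M : Md} {m : ℕ} {a : ℝ} {ρ : ℕ → ℝ} {J : ℕ} {W : Option (ℕ → ℝ)} {E : Ev}

theorem aE_eq (k : ℕ) : aE M m a k = M.EP' m a (M.aP m a k) :=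
  (EE_node Link33.wt1 (mAm (fun _ => 1) ((M.L m a).drop (k + 1)) (sl m)) (k + 1) _ _).symm

theorem AA_succ (k : ℕ) : AA M m a J (k + 1) = (8 + 2 * Om M m a (Ico J M.N)) * aE M m a k := rfl

theorem tlP_sub (k : ℕ) : tlP M J k ⊆ Ico J M.N := Ico_subset_Ico (le_max_right _ _) le_rfl

theorem tlP_anti (k : ℕ) : tlP M J (k + 1) ⊆ tlP M J k :=
  Ico_subset_Ico (max_le_max (Nat.le_succ k) le_rfl) le_rfl

section lg
variable (G : Lg M m a)
include G

theorem aE_nonneg (k : ℕ) : 0 ≤ aE M m a k := aa_nonneg Link33.wt1 G.monoL _ _ _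

theorem dz_le_z (k : ℕ) : M.dz m a k ≤ M.z k := by
  rcases k with _ | k
  · rw [dz_zero G.toLeg]; linarith [G.a0]
  · rw [dz_succ G.toLeg]; linarith [G.z_nonneg k]

theorem Om_nonneg (T : Finset ℕ) : 0 ≤ Om M m a T :=
  sum_nonneg fun k _ => div_nonneg (G.dz_nonneg k) (G.z_nonneg k)

theorem Om_mono {T T' : Finset ℕ} (h : T ⊆ T') : Om M m a T ≤ Om M m a T' :=
  sum_le_sum_of_subset_of_nonneg h fun k _ _ => div_nonneg (G.dz_nonneg k) (G.z_nonneg k)

theorem Om_Ico {x : ℝ} (h0 : 0 < x) (hx : x ≤ T157.Casc.ex (M.L m a) J) {j : ℕ} (hj : J ≤ j) :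
    Om M m a (Ico J j) ≤ log (T157.Casc.ex (M.L m a) j) - log (T157.Casc.ex (M.L m a) J) := by
  induction j, hj using Nat.le_induction with
  | base => simp [Om]
  | succ j hj ih =>
    have p1 : 0 < T157.Casc.ex (M.L m a) j := h0.trans_le (hx.trans (G.ex_mono hj))
    have p2 : 0 < M.z j := by
      rw [← ex_succ (m := m) (a := a) G.toLeg j]; exact p1.trans_le (G.ex_mono (Nat.le_succ j))
    have e : M.dz m a j = M.z j - T157.Casc.ex (M.L m a) j := by
      rw [← ex_succ (m := m) (a := a) G.toLeg j]; rfl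
    have h1 := log_le_sub_one_of_pos (div_pos p1 p2)
    rw [log_div p1.ne' p2.ne'] at h1
    unfold Om at ih ⊢
    rw [sum_Ico_succ_top hj, ex_succ G.toLeg, e, sub_div, div_self p2.ne']
    linarith

/-- `Ω ≤ log (1 / x)` for `0 < x ≤ z (J - 1)` (`x ≤ a` if `J = 0`) -/
theorem Om_le {x : ℝ} (h0 : 0 < x) (hx : x ≤ T157.Casc.ex (M.L m a) J) :
    Om M m a (Ico J M.N) ≤ -log x := by
  have h1 : T157.Casc.ex (M.L m a) (max J M.N) ≤ 1 := by
    have := G.ex_mono (Nat.le_succ (max J M.N))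
    rw [ex_succ G.toLeg] at this
    exact this.trans (G.z1 _)
  have h2 := log_nonpos (h0.le.trans (hx.trans (G.ex_mono (le_max_left J M.N)))) h1
  linarith [Om_Ico G h0 hx (le_max_left J M.N), log_le_log h0 hx,
    Om_mono G (Ico_subset_Ico (le_refl J) (le_max_right J M.N))]

theorem Om_le_a (h0 : 0 < a) : Om M m a (Ico J M.N) ≤ -log a :=
  Om_le G h0 (G.ex_mono (Nat.zero_le J))

theorem AA_nonneg (j : ℕ) : 0 ≤ AA M m a J j :=
  mul_nonneg (by linarith [Om_nonneg G (Ico J M.N)]) (aa_nonneg Link33.wt1 G.monoL _ _ _)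

/-- **path part** -/
theorem var_cen {T : Finset ℕ} (hT : ∀ k ∈ T, k ≤ M.N) (φ : ℕ → ℝ) :
    PE M m a (fun g _ => cen M m a T (fun t => M.dz m a t * φ t) (pth M m a g) ^ 2) ≤
      4 * ∑ k ∈ T, M.dz m a k * (φ k ^ 2 * aE M m a k) := by
  have inj : ∀ F : ℕ → ℝ, ∑ j ∈ T.image (· + 1), F j = ∑ k ∈ T, F (k + 1) := fun F =>
    sum_image fun x _ y _ h => Nat.succ_injective h
  have := Eg33.gm_rs Link33.wt1 G.monoL 0 G.sym ts_trans (ts_cov (sl_cov G.m0))
    (S := T.image (· + 1)) (fun j hj => by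
      obtain ⟨k, hk, rfl⟩ := mem_image.1 hj
      rw [show (M.L m a).length = M.N + 1 from (List.length_map _).trans len_Mx]
      exact ⟨by omega, by have := hT k hk; omega⟩) (sh φ) (rho (fun _ => 1) (M.L m a) (sl m) 0)
  simp only [inj, sub_self, mul_zero, sum_const_zero, sh_succ, ← rb_eq (sl_cov G.m0)] at this
  simp only [← mul_assoc]
  exact le_of_le_of_eq this (by rw [zero_pow two_ne_zero, add_zero]; rfl)

/-- **leaf part** -/
theorem var_lfp (T : Finset ℕ) (φ : ℕ → ℝ) :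
    PE M m a (fun g x => lfp M m a T (fun t => M.dz m a t * φ t) g x ^ 2) ≤
      Om M m a T * ∑ k ∈ T, M.dz m a k * (φ k ^ 2 * aE M m a k) := by
  have e : ∀ k x, Eg fun g => M.dz m a k * (φ k ^ 2 * (M.z k * piL M m a k g x ^ 2)) := fun k x =>
    ((((eg_piL k x).pow 2).const_mul _).const_mul _).const_mul _
  refine (Eg33.pE_mono' Link33.wt1 _ _ (fun x => (eg_lfp T _ x).pow 2)
    (G := fun g x => Om M m a T * ∑ k ∈ T, M.dz m a k * (φ k ^ 2 * (M.z k * piL M m a k g x ^ 2)))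
    (fun x => (Eg.sum _ fun k _ => e k x).const_mul _) fun g x => ?_).trans ?_
  · refine sum_sq_le_sum_mul_sum_of_sq_le_mul T
      (fun k _ => div_nonneg (G.dz_nonneg k) (G.z_nonneg k))
      (fun k _ => by have := G.dz_nonneg k; have := G.z_nonneg k; positivity) fun k _ => ?_
    rcases (G.z_nonneg k).eq_or_lt with h | h
    · have : M.dz m a k = 0 := le_antisymm (h ▸ dz_le_z G k) (G.dz_nonneg k)
      simp [this]
    · exact le_of_eq (by field_simp)
  · rw [Pe.pE_const_mul, Eg33.pE_sum' Link33.wt1 _ _ _ e]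
    refine mul_le_mul_of_nonneg_left (sum_le_sum fun k _ => ?_) (Om_nonneg G T)
    rw [Pe.pE_const_mul, Pe.pE_const_mul, Pe.pE_const_mul]
    refine mul_le_mul_of_nonneg_left (mul_le_mul_of_nonneg_left ?_ (sq_nonneg _)) (G.dz_nonneg k)
    unfold piL
    rw [Eg33.pE_pi Link33.wt1]
    exact vv_le Link33.wt1 G.monoL _ _ (ex_succ G.toLeg k).ge

/-- both parts, any set of nodes above the cut -/
theorem var_both {T : Finset ℕ} (hT : T ⊆ Ico J M.N) (φ : ℕ → ℝ) :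
    2 * PE M m a (fun g _ => cen M m a T (fun t => M.dz m a t * φ t) (pth M m a g) ^ 2) +
      2 * PE M m a (fun g x => lfp M m a T (fun t => M.dz m a t * φ t) g x ^ 2) ≤
      ∑ k ∈ T, M.dz m a k * (φ k ^ 2 * AA M m a J (k + 1)) := by
  have h1 := var_cen G (fun k hk => (mem_Ico.1 (hT hk)).2.le) φ
  have h2 := var_lfp G T φ
  have h3 := Om_mono G hT
  have h4 : 0 ≤ ∑ k ∈ T, M.dz m a k * (φ k ^ 2 * aE M m a k) := sum_nonneg fun k _ =>
    mul_nonneg (G.dz_nonneg k) (mul_nonneg (sq_nonneg _) (aE_nonneg G k))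
  have e : ∑ k ∈ T, M.dz m a k * (φ k ^ 2 * AA M m a J (k + 1)) =
      (8 + 2 * Om M m a (Ico J M.N)) * ∑ k ∈ T, M.dz m a k * (φ k ^ 2 * aE M m a k) := by
    rw [mul_sum]; exact sum_congr rfl fun k _ => by rw [AA_succ]; ring
  rw [e]
  nlinarith

theorem fA_anti (α : ℕ → ℝ) (k : ℕ) : fA M m a J α (k + 1) ≤ fA M m a J α k :=
  sqrt_le_sqrt (sum_le_sum_of_subset_of_nonneg (tlP_anti k) fun t _ _ =>
    mul_nonneg (G.dz_nonneg t) (mul_nonneg (sq_nonneg _) (AA_nonneg G _)))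

theorem fA_sq (α : ℕ → ℝ) (k : ℕ) : fA M m a J α k ^ 2 =
    ∑ t ∈ tlP M J k, M.dz m a t * (α t ^ 2 * AA M m a J (t + 1)) :=
  sq_sqrt (sum_nonneg fun t _ =>
    mul_nonneg (G.dz_nonneg t) (mul_nonneg (sq_nonneg _) (AA_nonneg G _)))

/-- the field `var` of `WI` for a measure with a density `φ`, `|φ| ≤ α` -/
theorem var_tail {φ α μ f : ℕ → ℝ} (hμ : ∀ k, J ≤ k → k < M.N → μ k = M.dz m a k * φ k)
    (hφ : ∀ k, J ≤ k → k < M.N → |φ k| ≤ α k) (hf : ∀ k, fA M m a J α k ≤ f k) (k : ℕ) :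
    2 * PE M m a (fun g _ => cen M m a (tlP M J k) μ (pth M m a g) ^ 2) +
      2 * PE M m a (fun g x => lfp M m a (tlP M J k) μ g x ^ 2) ≤ f k ^ 2 := by
  have mem : ∀ t ∈ tlP M J k, J ≤ t ∧ t < M.N := fun t h => mem_Ico.1 (tlP_sub k h)
  have e1 : cen M m a (tlP M J k) μ = cen M m a (tlP M J k) fun t => M.dz m a t * φ t :=
    funext fun q => sum_congr rfl fun t ht => by rw [hμ t (mem t ht).1 (mem t ht).2]
  have e2 : lfp M m a (tlP M J k) μ = lfp M m a (tlP M J k) fun t => M.dz m a t * φ t :=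
    funext fun q => funext fun x => sum_congr rfl fun t ht => by rw [hμ t (mem t ht).1 (mem t ht).2]
  rw [e1, e2]
  refine (var_both G (tlP_sub k) φ).trans (le_trans ?_ (pow_le_pow_left₀ (sqrt_nonneg _) (hf k) 2))
  refine le_of_le_of_eq (sum_le_sum fun t ht => ?_) (fA_sq G α k).symm
  have := abs_le.1 (hφ t (mem t ht).1 (mem t ht).2)
  exact mul_le_mul_of_nonneg_left (mul_le_mul_of_nonneg_right (sq_le_sq' this.1 this.2)
    (AA_nonneg G _)) (G.dz_nonneg t)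

/-- conditional variances of one node are below the second moment of the pair -/
theorem node_sq (k : ℕ) (c : ℝ) :
    PE M m a (fun g _ => (M.rP m a k (pth M m a g) - M.rb m a k) ^ 2) +
      2 * PE M m a (fun g x => piL M m a k g x ^ 2) ≤ M.E2 m a (fun R => (R - c) ^ 2) k := by
  have h1 := Eg33.V_eq Link33.wt1 (M.L m a) (sl m) 0 (k + 1) c
  have h2 := tc_nonneg (w := fun _ => 1) (sl m) 0 (M.L m a) (k + 1)
  have h3 : PE M m a (fun g x => piL M m a k g x ^ 2) = vv (fun _ => 1) (M.L m a) (sl m) 0 (k + 1) :=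
    Eg33.pE_pi Link33.wt1 _ _ _ _
  have h4 : PE M m a (fun g _ => (Eg33.rs (fun _ => 1) (M.L m a) (sl m) 0 (k + 1) g - c) ^ 2) =
      node (fun _ => 1) (M.L m a) (k + 1)
        (fun z => (rr (fun _ => 1) ((M.L m a).drop (k + 1)) (sl m) z - c) ^ 2) 0 :=
    Pe.pE_node1 Link33.wt1 (((eg_rr Link33.wt1 _ (sl m)).sub (Eg.const c)).pow 2) _ _ _
  have h5 := fun c => pE_sq_sub Link33.wt1 (M.L m a) 0 (Eg33.eg_rs Link33.wt1 (M.L m a) (sl m) 0 (k + 1)) c
  have h6 := h5 (M.rb m a k)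
  have h7 := h5 c
  rw [Eg33.pE_rs Link33.wt1, ← rb_eq (sl_cov G.m0)] at h6 h7
  have e : M.E2 m a (fun R => (R - c) ^ 2) k =
      pi2 (fun _ => 1) (M.L m a) (k + 1) (fun x y => ((sl m).cov x y - c) ^ 2) 0 := by
    simp only [sl_cov G.m0]; rfl
  have e2 : PE M m a (fun g _ => (M.rP m a k (pth M m a g) - M.rb m a k) ^ 2) = PE M m a
    (fun g _ => (Eg33.rs (fun _ => 1) (M.L m a) (sl m) 0 (k + 1) g - M.rb m a k) ^ 2) := rfl
  rw [e, e2, h3]
  unfold PE at *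
  nlinarith [sq_nonneg (M.rb m a k - c)]

/-- **Minkowski form**: any measure `|μ| ≤ ν` -/
theorem var_mink (T : Finset ℕ) {μ ν s c : ℕ → ℝ} (hμ : ∀ k ∈ T, |μ k| ≤ ν k)
    (s0 : ∀ k ∈ T, 0 < s k) (hs : ∀ k ∈ T, M.E2 m a (fun R => (R - c k) ^ 2) k ≤ s k ^ 2) :
    2 * PE M m a (fun g _ => cen M m a T μ (pth M m a g) ^ 2) +
      2 * PE M m a (fun g x => lfp M m a T μ g x ^ 2) ≤ 2 * (∑ k ∈ T, ν k * s k) ^ 2 := by
  have n0 : ∀ k ∈ T, 0 ≤ ν k := fun k hk => (abs_nonneg _).trans (hμ k hk)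
  have e1 : ∀ k, Eg fun g => (M.rP m a k (pth M m a g) - M.rb m a k) ^ 2 := fun k =>
    (((QCas98.ep_rP Link33.wt1 _).sub (EP.const _)).pow 2).eg _ _
  have e2 := fun k x => (eg_piL (M := M) (m := m) (a := a) k x).pow 2
  have k1 := Eg33.pE_mono' Link33.wt1 (M.L m a) 0 (fun _ => (eg_cen T μ).pow 2)
    (fun _ => (Eg.sum _ fun k _ => (e1 k).const_mul (ν k / s k)).const_mul (∑ k ∈ T, ν k * s k))
    fun g _ => Eg33.wcs hμ s0 _
  have k2 := Eg33.pE_mono' Link33.wt1 (M.L m a) 0 (fun x => (eg_lfp T μ x).pow 2)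
    (fun x => (Eg.sum _ fun k _ => (e2 k x).const_mul (ν k / s k)).const_mul (∑ k ∈ T, ν k * s k))
    fun g x => Eg33.wcs hμ s0 _
  rw [Pe.pE_const_mul, Eg33.pE_sum' Link33.wt1 _ _ _ fun k _ => (e1 k).const_mul _] at k1
  rw [Pe.pE_const_mul, Eg33.pE_sum' Link33.wt1 _ _ _ fun k x => (e2 k x).const_mul _] at k2
  simp only [Pe.pE_const_mul] at k1 k2
  have k3 : ∑ k ∈ T, ν k / s k * PE M m a (fun g _ => (M.rP m a k (pth M m a g) - M.rb m a k) ^ 2) +
      ∑ k ∈ T, ν k / s k * PE M m a (fun g x => piL M m a k g x ^ 2) ≤ ∑ k ∈ T, ν k * s k := by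
    rw [← sum_add_distrib]
    refine sum_le_sum fun k hk => ?_
    have h0 := s0 k hk
    have h1 := (node_sq G k (c k)).trans (hs k hk)
    have h2 := PE_nonneg (e2 k) fun _ _ => sq_nonneg _
    rw [← mul_add, show ν k * s k = ν k / s k * s k ^ 2 by field_simp]
    exact mul_le_mul_of_nonneg_left (by linarith) (div_nonneg (n0 k hk) h0.le)
  have p : 0 ≤ ∑ k ∈ T, ν k * s k := sum_nonneg fun k hk => mul_nonneg (n0 k hk) (s0 k hk).le
  have := mul_le_mul_of_nonneg_left k3 p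
  unfold PE at *
  nlinarith

omit G in
/-- sums of two measures -/
theorem var_add (T : Finset ℕ) (μ ν : ℕ → ℝ) {f f' : ℝ}
    (h : 2 * PE M m a (fun g _ => cen M m a T μ (pth M m a g) ^ 2) +
      2 * PE M m a (fun g x => lfp M m a T μ g x ^ 2) ≤ f)
    (h' : 2 * PE M m a (fun g _ => cen M m a T ν (pth M m a g) ^ 2) +
      2 * PE M m a (fun g x => lfp M m a T ν g x ^ 2) ≤ f') :
    2 * PE M m a (fun g _ => cen M m a T (fun t => μ t + ν t) (pth M m a g) ^ 2) +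
      2 * PE M m a (fun g x => lfp M m a T (fun t => μ t + ν t) g x ^ 2) ≤ 2 * f + 2 * f' := by
  have k1 := PE_add_sq (M := M) (m := m) (a := a) (fun _ => eg_cen T μ) fun _ => eg_cen T ν
  have k2 := PE_add_sq (M := M) (m := m) (a := a) (eg_lfp T μ) (eg_lfp T ν)
  simp only [cen, lfp, add_mul, sum_add_distrib] at *
  linarith

/-- **`Add`**, unconditional on a legal model -/
theorem add_cd : (cd M m a ρ J W E).Add (AA M m a J) := by
  refine ⟨AA_nonneg G, fun φ => ?_⟩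
  have g1 := eg_cen (M := M) (m := m) (a := a) (Ico J M.N) fun t => M.dz m a t * φ (t + 1)
  have g2 := eg_lfp (M := M) (m := m) (a := a) (Ico J M.N) fun t => M.dz m a t * φ (t + 1)
  have p1 := PE_nonneg (fun _ : Cube m => g1.pow 2) fun _ _ => sq_nonneg _
  have p2 := PE_nonneg (fun x => (g2 x).pow 2) fun _ _ => sq_nonneg _
  have H := var_both G (Subset.refl (Ico J M.N)) fun t => φ (t + 1)
  have vN : ∀ g : NI (M.L m a) → ℝ, ∑ t ∈ (cd M m a ρ J W E).up, (cd M m a ρ J W E).dx t * φ t *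
      ((cd M m a ρ J W E).nd t g - (cd M m a ρ J W E).del t) =
      cen M m a (Ico J M.N) (fun t => M.dz m a t * φ (t + 1)) (pth M m a g) := fun g => by
    rw [sum_up, cen]
    refine sum_congr rfl fun t ht => ?_
    obtain ⟨h1, h2⟩ := mem_Ico.1 ht
    rw [cd_dx, cd_nd a ρ W E G.m0 h1 h2, cd_del m a ρ W E h1 h2]; ring
  have vL : ∀ (g : NI (M.L m a) → ℝ) (x : Cube m), ∑ t ∈ (cd M m a ρ J W E).up,
      (cd M m a ρ J W E).dx t * φ t * ((cd M m a ρ J W E).lf t g x - (cd M m a ρ J W E).del t) =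
      cen M m a (Ico J M.N) (fun t => M.dz m a t * φ (t + 1)) (pth M m a g) +
        lfp M m a (Ico J M.N) (fun t => M.dz m a t * φ (t + 1)) g x := fun g x => by
    rw [sum_up, cen, lfp, ← sum_add_distrib]
    refine sum_congr rfl fun t ht => ?_
    obtain ⟨h1, h2⟩ := mem_Ico.1 ht
    rw [cd_dx, cd_lf a ρ W E G.m0 h1 h2, cd_del m a ρ W E h1 h2]; ring
  rw [cd_I]
  exact ⟨le_trans (le_of_eq (congrArg (PE M m a) (funext fun g => funext fun _ => by rw [vN])))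
      (((le_mul_of_one_le_left p1 one_le_two).trans
        (le_add_of_nonneg_right (mul_nonneg zero_le_two p2))).trans H),
    le_trans (le_of_eq (congrArg (PE M m a) (funext fun g => funext fun x => by rw [vL])))
      ((PE_add_sq (fun _ => g1) g2).trans H)⟩

end lg

/-- tails of an additive bound: every density `|φ| ≤ α` -/
theorem add_tl {D : CD} {A φ α : ℕ → ℝ} (H : D.Add A) (hd : ∀ t, 0 ≤ D.dx t) (j : ℕ)
    (hφ : ∀ t ∈ D.tail j, |φ t| ≤ α t) {f : ℝ} (hf : ∑ t ∈ D.tail j, D.dx t * (α t ^ 2 * A t) ≤ f) :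
    pE (fun _ => 1) D.B 0
      (fun p _ => (∑ t ∈ D.tail j, D.dx t * φ t * (D.nd t p - D.del t)) ^ 2) ≤ f ∧
    pE (fun _ => 1) D.B 0
      (fun p x => (∑ t ∈ D.tail j, D.dx t * φ t * (D.lf t p x - D.del t)) ^ 2) ≤ f := by
  have sub : D.tail j ⊆ D.up := fun t ht => by
    rw [mem_Ico] at ht; rw [mem_Ioo]; omega
  have e : ∀ F : ℕ → ℝ, ∑ t ∈ D.up, D.dx t * (if t ∈ D.tail j then φ t else 0) * F t =
      ∑ t ∈ D.tail j, D.dx t * φ t * F t := fun F => by
    simp only [mul_ite, ite_mul, mul_zero, zero_mul]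
    rw [sum_ite_mem, inter_eq_right.2 sub]
  have b : D.I (fun t => (if t ∈ D.tail j then φ t else 0) ^ 2 * A t) ≤ f := by
    refine le_trans ?_ hf
    simp only [CD.I, ite_pow, mul_ite, ite_mul, mul_zero, zero_mul, ne_eq, OfNat.ofNat_ne_zero,
      not_false_eq_true, zero_pow]
    rw [sum_ite_mem, inter_eq_right.2 sub]
    refine sum_le_sum fun t ht => ?_
    have := abs_le.1 (hφ t ht)
    exact mul_le_mul_of_nonneg_left (mul_le_mul_of_nonneg_right (sq_le_sq' this.1 this.2) (H.1 t))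
      (hd t)
  have := H.2 fun t => if t ∈ D.tail j then φ t else 0
  simp only [e] at this
  exact ⟨this.1.trans b, this.2.trans b⟩

end Crest.Agent.T156.Alt.CIn12

end
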