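import Crest.Agent.T156.CDef_40
import Crest.Agent.T156.Lp_12
import Crest.Agent.T156.QCube_33

/-!
# Row 156, block C: the variance `vL` of the low quadratic functional (helper21)

`Q_y = E [(m_t · σ)² | node y]`.  Below a node `J0` the crude second moment; above, `Q_y` is
compared with `ρ_y²`, whose weighted sum is controlled by Brascamp–Lieb.
-/

set_option autoImplicit false
set_option linter.unusedSectionVars false

noncomputable section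

namespace Crest.Agent.T156.Cas.Vl21

open MeasureTheory Real Finset
open Crest.Agent.T157.E Crest.Agent.T157.Casc Crest.Agent.T157.SL
open Crest.Agent.T156.Cas.Sy41 Crest.Agent.T156.Cas.Lp12
open Crest.Agent.T157.G1 (ov)

variable {Ω : Type} [Fintype Ω]

/-- excess over an envelope -/
def en (X t : ℝ) : ℝ := max (|t| - X) 0

theorem en_nonneg (X t : ℝ) : 0 ≤ en X t := le_max_right _ _

theorem sq_env {t : ℝ} (X : ℝ) (ht : |t| ≤ 1) : t ^ 2 ≤ X ^ 2 + 2 * en X t := by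
  have h0 := abs_nonneg t
  have h1 : |t| - X ≤ en X t := le_max_left _ _
  have h2 := en_nonneg X t
  rw [← sq_abs t]
  rcases le_total |t| X with k | k
  · nlinarith
  · nlinarith [sq_nonneg (X - 1), mul_nonneg (sub_nonneg.2 k) (sub_nonneg.2 ht)]

theorem pt {φ ρ : ℝ} (X : ℝ) (h1 : |φ| ≤ 1) (h2 : |ρ| ≤ 1) :
    (φ ^ 2 - ρ ^ 2) ^ 2 ≤ 4 * X ^ 2 * (φ - ρ) ^ 2 + 16 * en X φ + 16 * en X ρ := by
  have a1 := sq_env X h1
  have a2 := sq_env X h2
  have b1 := en_nonneg X φ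
  have b2 := en_nonneg X ρ
  have c1 : (φ + ρ) ^ 2 ≤ 4 * X ^ 2 + 4 * (en X φ + en X ρ) := by nlinarith [sq_nonneg (φ - ρ)]
  have c2 : (φ - ρ) ^ 2 ≤ 4 := by
    obtain ⟨_, _⟩ := abs_le.1 h1
    obtain ⟨_, _⟩ := abs_le.1 h2
    nlinarith
  have c3 := mul_le_mul_of_nonneg_left c1 (sq_nonneg (φ - ρ))
  have c4 := mul_le_mul_of_nonneg_right c2 (add_nonneg b1 b2)
  nlinarith

/-- a probability vector -/
structure Pv (p : Ω → ℝ) : Prop where
  nn : ∀ x, 0 ≤ p x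
  one : ∑ x, p x = 1

namespace Pv
variable {p p' : Ω → ℝ} (hp : Pv p)
include hp

theorem mono {f g : Ω → ℝ} (e : ∀ x, f x ≤ g x) : ∑ x, p x * f x ≤ ∑ x, p x * g x :=
  sum_le_sum fun x _ => mul_le_mul_of_nonneg_left (e x) (hp.nn x)

theorem const (c : ℝ) : ∑ x, p x * c = c := by rw [← sum_mul, hp.one, one_mul]

theorem sub (f : Ω → ℝ) (c : ℝ) : ∑ x, p x * f x - c = ∑ x, p x * (f x - c) := by
  simp only [mul_sub, sum_sub_distrib, hp.const]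

theorem sq (f : Ω → ℝ) : (∑ x, p x * f x) ^ 2 ≤ ∑ x, p x * f x ^ 2 := by
  set c := ∑ x, p x * f x with hc
  have := hp.mono (f := fun x => 2 * c * f x - c ^ 2) (g := fun x => f x ^ 2) fun x => by
    nlinarith [sq_nonneg (f x - c)]
  rw [← hp.sub] at this
  simp only [mul_left_comm _ (2 * c), ← mul_sum, ← hc] at this
  linarith

theorem abs (f : Ω → ℝ) : |∑ x, p x * f x| ≤ ∑ x, p x * |f x| :=
  (abs_sum_le_sum_abs _ _).trans (le_of_eq (sum_congr rfl fun x _ => by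
    rw [abs_mul, abs_of_nonneg (hp.nn x)]))

theorem abs1 {f : Ω → ℝ} (h : ∀ x, |f x| ≤ 1) : |∑ x, p x * f x| ≤ 1 :=
  ((hp.abs f).trans (hp.mono h)).trans_eq (hp.const 1)

theorem env (X : ℝ) (f : Ω → ℝ) : en X (∑ x, p x * f x) ≤ ∑ x, p x * en X (f x) := by
  refine max_le ?_ (sum_nonneg fun x _ => mul_nonneg (hp.nn x) (en_nonneg _ _))
  refine le_trans ?_ (hp.mono (f := fun x => |f x| - X) fun x => le_max_left _ _)
  rw [← hp.sub]
  linarith [hp.abs f]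

omit hp in
theorem swap (K : Ω → Ω → ℝ) :
    ∑ x, p x * ∑ z, p' z * K z x = ∑ z, p' z * ∑ x, p x * K z x := by
  simp only [mul_sum]
  exact sum_comm.trans (sum_congr rfl fun _ _ => sum_congr rfl fun _ _ => by ring)

theorem crude (hp' : Pv p') (R : Ω → Ω → ℝ) :
    (∑ x, p x * (∑ z, p' z * R z x) ^ 2) ^ 2 ≤ ∑ z, p' z * ∑ x, p x * R z x ^ 4 := by
  rw [← swap]
  refine (hp.sq _).trans (hp.mono fun x => ?_)
  refine (pow_le_pow_left₀ (sq_nonneg _) (hp'.sq _) 2).trans ((hp'.sq _).trans_eq ?_)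
  exact sum_congr rfl fun _ _ => by ring

theorem fine (hp' : Pv p') {R : Ω → Ω → ℝ} (hR : ∀ z x, |R z x| ≤ 1) {ρ : ℝ} (hρ : |ρ| ≤ 1)
    (X : ℝ) : (∑ x, p x * (∑ z, p' z * R z x) ^ 2 - ρ ^ 2) ^ 2 ≤
      ∑ z, p' z * ∑ x, p x * (4 * X ^ 2 * (R z x - ρ) ^ 2 + 16 * en X (R z x) + 16 * en X ρ) := by
  rw [← swap, hp.sub]
  refine (hp.sq _).trans (hp.mono fun x => (pt X (hp'.abs1 fun z => hR z x) hρ).trans ?_)
  have a1 := hp'.sq fun z => R z x - ρ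
  rw [← hp'.sub] at a1
  have a2 := hp'.env X fun z => R z x
  simp only [mul_add, sum_add_distrib, mul_left_comm _ (4 * X ^ 2), mul_left_comm _ (16 : ℝ),
    ← mul_sum, hp'.const]
  nlinarith [mul_le_mul_of_nonneg_left a1 (sq_nonneg X)]

theorem env2 (X : ℝ) (R : Ω → Ω → ℝ) : en X (qf p R) ≤ qf p fun x y => en X (R x y) := by
  simp only [qf, mul_assoc, ← mul_sum]
  exact (hp.env X _).trans (hp.mono fun x => hp.env X _)

end Pv

variable {w : Ω → ℝ}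

theorem pv (hw : Wt w) (L : List (Lv Ω)) (z : Ω → ℝ) : Pv (P w L z) :=
  ⟨P_nonneg hw L z, sum_P hw L z⟩

theorem eg_en (X : ℝ) {Φ : (Ω → ℝ) → ℝ} (h : Eg Φ) : Eg fun z => en X (Φ z) := by
  have e : ∀ z, en X (Φ z) = 1 / 2 * ((|Φ z| - X) + |(|Φ z| - X)|) := fun z => by
    unfold en
    rcases le_total (|Φ z| - X) 0 with k | k
    · rw [max_eq_right k, abs_of_nonpos k]; ring
    · rw [max_eq_left k, abs_of_nonneg k]; ring
  simp only [e]
  exact ((h.abs.sub (Eg.const X)).add (h.abs.sub (Eg.const X)).abs).const_mul _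

/-- a leaf average at the depth `t` of a function of the state at the depth `y ≤ t` -/
theorem EE_leaf (hw : Wt w) (L : List (Lv Ω)) (h : Ω → ℝ) {y t : ℕ} (hy : y ≤ t)
    (F : (Ω → ℝ) → Ω → ℝ) : EE w L h (fun p => Pf w (L.drop t) (p t) (F (p y))) =
      node w L y (fun z => Pf w (L.drop y) z (F z)) h := by
  rw [EE_two hw L h hy fun z u => Pf w (L.drop t) u (F z)]
  simp only [Eg33.node_Pf hw L hy]

theorem ep_leaf (hw : Wt w) (L : List (Lv Ω)) (y t : ℕ) {F : (Ω → ℝ) → Ω → ℝ}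
    (hF : ∀ x, Eg fun z => F z x) : EP fun p => Pf w (L.drop t) (p t) (F (p y)) :=
  EP.sum _ fun x _ => (EP.state (eg_P hw _ x) t).mul (EP.state (hF x) y)

/-- `E [(m_t · σ)² | node y]` along the path -/
def Qn (w : Ω → ℝ) (L : List (Lv Ω)) (R : Ω → Ω → ℝ) (y t : ℕ) (p : Pth Ω) : ℝ :=
  Pf w (L.drop y) (p y) fun x => Pf w (L.drop t) (p t) (fun z => R z x) ^ 2

theorem ep_Qn (hw : Wt w) (L : List (Lv Ω)) (R : Ω → Ω → ℝ) (y t : ℕ) : EP (Qn w L R y t) :=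
  EP.sum _ fun x _ => (EP.state (eg_P hw _ x) y).mul
    ((EP.state (Hess87.eg_Pf hw _ fun z => R z x) t).pow 2)

/-- crude second moment -/
theorem Qn_crude (hw : Wt w) (L : List (Lv Ω)) (h : Ω → ℝ) (R : Ω → Ω → ℝ) {y t : ℕ} (hy : y ≤ t) :
    EE w L h (fun p => Qn w L R y t p ^ 2) ≤ pi2 w L y (fun x x' => R x x' ^ 4) h := by
  refine (EE_mono hw L h ((ep_Qn hw L R y t).pow 2)
    (ep_leaf hw L y t (F := fun z x' => Pf w (L.drop y) z fun x => R x' x ^ 4)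
      fun x' => Hess87.eg_Pf hw _ _) fun p => (pv hw _ _).crude (pv hw _ _) R).trans_eq ?_
  rw [EE_leaf hw L h hy fun z x' => Pf w (L.drop y) z fun x => R x' x ^ 4]
  simp only [pi2, qf, Pf, mul_sum, mul_assoc]

/-- fine second moment -/
theorem Qn_fine (hw : Wt w) (L : List (Lv Ω)) (h : Ω → ℝ) {l₀ : Lv Ω}
    (hR : ∀ x y, |l₀.cov x y| ≤ 1) {y t : ℕ} (hy : y ≤ t) (X : ℝ) :
    EE w L h (fun p => (Qn w L l₀.cov y t p - rr w (L.drop y) l₀ (p y) ^ 2) ^ 2) ≤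
      4 * X ^ 2 * (Q33.tc w L l₀ h y + 2 * Q33.vv w L l₀ h y) +
        32 * pi2 w L y (fun x x' => en X (l₀.cov x x')) h := by
  have er := eg_rr hw (L.drop y) l₀
  have r1 : ∀ z, |rr w (L.drop y) l₀ z| ≤ 1 := fun z => by
    rw [abs_of_nonneg (show 0 ≤ rr w (L.drop y) l₀ z from sum_nonneg fun _ _ => sq_nonneg _)]
    exact Q33.rr_le hw _ (fun x => (le_abs_self _).trans (hR x x)) z
  have eF : ∀ x', Eg fun z => Pf w (L.drop y) z fun x => 4 * X ^ 2 *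
      (l₀.cov x' x - rr w (L.drop y) l₀ z) ^ 2 + 16 * en X (l₀.cov x' x) +
        16 * en X (rr w (L.drop y) l₀ z) := fun x' => Sy41.eg_Pf hw _ fun x =>
    (((((Eg.const _).sub er).pow 2).const_mul _).add (Eg.const _)).add ((eg_en X er).const_mul _)
  refine (EE_mono hw L h (((ep_Qn hw L _ y t).sub ((EP.state er y).pow 2)).pow 2)
    (ep_leaf hw L y t eF) fun p => (pv hw _ _).fine (pv hw _ _) hR (r1 _) X).trans ?_
  rw [EE_leaf hw L h hy fun z x' => Pf w (L.drop y) z fun x => 4 * X ^ 2 *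
      (l₀.cov x' x - rr w (L.drop y) l₀ z) ^ 2 + 16 * en X (l₀.cov x' x) +
        16 * en X (rr w (L.drop y) l₀ z)]
  have e1 := eg_trC2 hw (L.drop y) l₀
  have e2 := (eg_Vq hw (L.drop y) l₀).const_mul 2
  have e3 := (eg_qf hw (L.drop y) fun x x' => en X (l₀.cov x x')).const_mul 32
  refine (node_mono hw (Sy41.eg_Pf hw _ eF) (((e1.add e2).const_mul (4 * X ^ 2)).add e3)
    (fun z => ?_) L y h).trans_eq ?_
  · have a1 := qf_sq hw (L.drop y) l₀ z (rr w (L.drop y) l₀ z)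
    have a2 := (pv hw (L.drop y) z).env2 X l₀.cov
    rw [← rr_eq] at a2
    simp only [sub_self, ne_eq, OfNat.ofNat_ne_zero, not_false_eq_true, zero_pow, add_zero] at a1
    rw [← a1]
    generalize 4 * X ^ 2 = A
    have a3 : ∀ f g : Ω → ℝ, ∀ c, ∑ x, P w (L.drop y) z x * (A * f x + 16 * g x + c) =
        A * ∑ x, P w (L.drop y) z x * f x + 16 * ∑ x, P w (L.drop y) z x * g x + c := by
      intro f g c
      rw [mul_sum, mul_sum, ← sum_add_distrib, ← (pv hw (L.drop y) z).const c, ← sum_add_distrib,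
        (pv hw (L.drop y) z).const c]
      exact sum_congr rfl fun _ _ => by ring
    simp only [qf, mul_assoc, ← mul_sum] at a2 ⊢
    simp only [Pf, a3]
    linarith
  · rw [node_add hw ((e1.add e2).const_mul _) e3, node_const_mul, node_add hw e1 e2, node_const_mul,
      node_const_mul]
    rfl

/-- `E ρ² mᵀ A m` from an envelope -/
theorem rr_mAm (hw : Wt w) {L : List (Lv Ω)} (hL : Mono 0 L) (h : Ω → ℝ) {l₀ : Lv Ω}
    (hR : ∀ x y, |l₀.cov x y| ≤ 1) (y : ℕ) (X : ℝ) :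
    node w L y (fun z => rr w (L.drop y) l₀ z ^ 2 * mAm w (L.drop y) l₀ z) h ≤
      X ^ 2 * Q33.aa w L l₀ h y + 2 * pi2 w L y (fun x x' => en X (l₀.cov x x')) h := by
  have er := eg_rr hw (L.drop y) l₀
  have ea := eg_mAm hw (L.drop y) l₀
  have e3 := (eg_qf hw (L.drop y) fun x x' => en X (l₀.cov x x')).const_mul 2
  have h1 : ∀ x, l₀.cov x x ≤ 1 := fun x => (le_abs_self _).trans (hR x x)
  refine (node_mono hw ((er.pow 2).mul ea) ((ea.const_mul (X ^ 2)).add e3)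
    (fun z => ?_) L y h).trans_eq ?_
  · have r0 : 0 ≤ rr w (L.drop y) l₀ z := sum_nonneg fun _ _ => sq_nonneg _
    have r1 := Q33.rr_le hw (L.drop y) h1 z
    have a0 : 0 ≤ mAm w (L.drop y) l₀ z :=
      Hess87.Hb_nonneg hw _ _ _ ((Sy41.mono_drop y hL).nn le_rfl)
    have a1 : mAm w (L.drop y) l₀ z ≤ 1 * rr w (L.drop y) l₀ z :=
      Bq_le hw (Sy41.mono_drop y hL) l₀ (Q33.fld_sq_le' h1) z _
    have a2 := (pv hw (L.drop y) z).env2 X l₀.cov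
    rw [← rr_eq] at a2
    have a3 := sq_env X (show |rr w (L.drop y) l₀ z| ≤ 1 by rwa [abs_of_nonneg r0])
    have a4 := en_nonneg X (rr w (L.drop y) l₀ z)
    have a5 := mul_le_mul_of_nonneg_right a3 a0
    nlinarith [mul_le_mul_of_nonneg_left (show mAm w (L.drop y) l₀ z ≤ 1 by linarith) a4]
  · rw [node_add hw (ea.const_mul _) e3, node_const_mul, node_const_mul]
    rfl

/-- second moment of a weighted sum -/
theorem EE_wsum (hw : Wt w) (L : List (Lv Ω)) (h : Ω → ℝ) (S : Finset ℕ) {c : ℕ → ℝ}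
    (hc : ∀ y, 0 ≤ c y) {F : ℕ → Pth Ω → ℝ} (hF : ∀ y, EP (F y)) {b : ℕ → ℝ}
    (hb : ∀ y ∈ S, EE w L h (fun p => F y p ^ 2) ≤ b y) :
    EE w L h (fun p => (∑ y ∈ S, c y * F y p) ^ 2) ≤ (∑ y ∈ S, c y) * ∑ y ∈ S, c y * b y := by
  have e := fun y (_ : y ∈ S) => ((hF y).pow 2).const_mul (c y)
  refine (EE_mono hw L h ((EP.sum S fun y _ => (hF y).const_mul (c y)).pow 2)
    ((EP.sum S e).const_mul (∑ y ∈ S, c y)) fun p => ?_).trans ?_
  · simpa using Eg33.wcs (S := S) (c := c) (a := c) (ω := fun _ => 1)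
      (fun y _ => (abs_of_nonneg (hc y)).le) (fun _ _ => one_pos) fun y => F y p
  · rw [EE_const_mul, EE_sum hw L h S e]
    refine mul_le_mul_of_nonneg_left (sum_le_sum fun y hy => ?_) (sum_nonneg fun y _ => hc y)
    rw [EE_const_mul]
    exact mul_le_mul_of_nonneg_left (hb y hy) (hc y)

theorem EE_sq_sub (hw : Wt w) (L : List (Lv Ω)) (h : Ω → ℝ) {F : Pth Ω → ℝ} (hF : EP F) (q : ℝ) :
    EE w L h (fun p => (F p - q) ^ 2) =
      EE w L h (fun p => F p ^ 2) - EE w L h F ^ 2 + (EE w L h F - q) ^ 2 := by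
  have e : (fun p => (F p - q) ^ 2) = fun p => F p ^ 2 - 2 * q * F p + q ^ 2 := by
    funext p; ring
  rw [e, EE_add hw L h ((hF.pow 2).sub (hF.const_mul _)) (EP.const _),
    EE_sub hw L h (hF.pow 2) (hF.const_mul _), EE_const_mul, EE_const hw]
  ring

/-- variance of a sum of three terms -/
theorem var3 (hw : Wt w) (L : List (Lv Ω)) (h : Ω → ℝ) {F A B C : Pth Ω → ℝ} (hF : EP F)
    (hA : EP A) (hB : EP B) (hC : EP C) (e : ∀ p, F p = A p + B p + C p) :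
    EE w L h (fun p => (F p - EE w L h F) ^ 2) ≤ 3 * EE w L h (fun p => A p ^ 2) +
      3 * (EE w L h (fun p => B p ^ 2) - EE w L h B ^ 2) + 3 * EE w L h (fun p => C p ^ 2) := by
  have a1 := EE_sq_sub hw L h hF (EE w L h F)
  have a2 := EE_sq_sub hw L h hF (EE w L h B)
  have a3 := EE_sq_sub hw L h hB (EE w L h B)
  have b := (hB.sub (EP.const (EE w L h B))).pow 2
  have a4 := EE_mono hw L h ((hF.sub (EP.const (EE w L h B))).pow 2)
    ((((hA.pow 2).const_mul 3).add (b.const_mul 3)).add ((hC.pow 2).const_mul 3)) fun p => by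
      rw [e]
      nlinarith [sq_nonneg (A p - C p), sq_nonneg (A p - (B p - EE w L h B)),
        sq_nonneg (C p - (B p - EE w L h B))]
  rw [EE_add hw L h (((hA.pow 2).const_mul 3).add (b.const_mul 3)) ((hC.pow 2).const_mul 3),
    EE_add hw L h ((hA.pow 2).const_mul 3) (b.const_mul 3), EE_const_mul, EE_const_mul,
    EE_const_mul] at a4
  nlinarith [sq_nonneg (EE w L h F - EE w L h B)]

section sym
variable (hw : Wt w) {L : List (Lv Ω)} (hL : Mono 0 L) (h : Ω → ℝ) {T : Set (Equiv.Perm Ω)}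
  (hT : ∀ τ ∈ T, Sym w L h τ) (htr : ∀ x y, w x ≠ 0 → w y ≠ 0 → ∃ τ ∈ T, τ x = y) {l₀ : Lv Ω}
  (h₀ : ∀ τ ∈ T, ∀ x y, l₀.cov (τ x) (τ y) = l₀.cov x y) {S : Finset ℕ}
  (hS : ∀ j ∈ S, 1 ≤ j ∧ j ≤ L.length)
include hw hL hT htr h₀ hS

/-- Brascamp–Lieb for `∑ dm φ ρ²` -/
theorem var_sq (φ : ℕ → ℝ) :
    EE w L h (fun p => (∑ y ∈ S, dm L 0 y * φ y * rr w (L.drop y) l₀ (p y) ^ 2) ^ 2) -
      EE w L h (fun p => ∑ y ∈ S, dm L 0 y * φ y * rr w (L.drop y) l₀ (p y) ^ 2) ^ 2 ≤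
      16 * ∑ y ∈ S, dm L 0 y * φ y ^ 2 *
        node w L y (fun z => rr w (L.drop y) l₀ z ^ 2 * mAm w (L.drop y) l₀ z) h := by
  have eF : EP fun p => ∑ y ∈ S, dm L 0 y * φ y * rr w (L.drop y) l₀ (p y) ^ 2 :=
    EP.sum _ fun y _ => ((EP.state (eg_rr hw _ l₀) y).pow 2).const_mul _
  set ψ : ℕ → ℝ := fun j => if j ∈ S then φ j else 0 with hψ
  have key := sync_G hw hL h hT htr l₀ h₀ (G := fun j t => ψ j * t ^ 2)
    (G' := fun j t => ψ j * (2 * t))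
    (fun j t => by simpa using ((hasDerivAt_id t).pow 2).const_mul (ψ j)) fun j => by fun_prop
  have e1 : ∀ g, nsum L h (dm L 0) (fun j z => ψ j * rr w (L.drop j) l₀ z ^ 2) g =
      ∑ y ∈ S, dm L 0 y * φ y * rr w (L.drop y) l₀ (st L y h g) ^ 2 := fun g => by
    simp only [nsum, hψ, mul_ite, ite_mul, mul_zero, zero_mul, ← mul_assoc]
    exact Eg33.sum_ind hS fun j => dm L 0 j * φ j * rr w (L.drop j) l₀ (st L j h g) ^ 2
  simp only [e1] at key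
  rw [EE_eq hw L h (eF.pow 2), EE_eq hw L h eF]
  refine key.trans_eq ?_
  rw [← Eg33.sum_ind hS, mul_sum, mul_sum]
  refine sum_congr rfl fun j _ => ?_
  have e2 : (fun z => (ψ (j + 1) * (2 * rr w (L.drop (j + 1)) l₀ z)) ^ 2 *
      mAm w (L.drop (j + 1)) l₀ z) = fun z => 4 * ψ (j + 1) ^ 2 *
        (rr w (L.drop (j + 1)) l₀ z ^ 2 * mAm w (L.drop (j + 1)) l₀ z) := by
    funext z; ring
  rw [e2, node_const_mul]
  simp only [hψ]
  split_ifs <;> ring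

/-- **the variance of `∑ dm φ Q`**: crude on `S₀`, Brascamp–Lieb on `S` -/
theorem var_Q (hR : ∀ x y, |l₀.cov x y| ≤ 1) {S₀ : Finset ℕ} {t : ℕ} (h0 : ∀ y ∈ S₀, y ≤ t)
    (h1 : ∀ y ∈ S, y ≤ t) {φ : ℕ → ℝ} (hφ : ∀ y, 0 ≤ φ y) (X : ℝ) {F : Pth Ω → ℝ}
    (hF : ∀ p, F p = ∑ y ∈ S₀, dm L 0 y * φ y * Qn w L l₀.cov y t p +
      ∑ y ∈ S, dm L 0 y * φ y * Qn w L l₀.cov y t p) :
    EE w L h (fun p => (F p - EE w L h F) ^ 2) ≤
      3 * ((∑ y ∈ S₀, dm L 0 y * φ y) *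
        ∑ y ∈ S₀, dm L 0 y * φ y * pi2 w L y (fun x x' => l₀.cov x x' ^ 4) h) +
      48 * ∑ y ∈ S, dm L 0 y * φ y ^ 2 *
        node w L y (fun z => rr w (L.drop y) l₀ z ^ 2 * mAm w (L.drop y) l₀ z) h +
      3 * ((∑ y ∈ S, dm L 0 y * φ y) * ∑ y ∈ S, dm L 0 y * φ y *
        (4 * X ^ 2 * (Q33.tc w L l₀ h y + 2 * Q33.vv w L l₀ h y) +
          32 * pi2 w L y (fun x x' => en X (l₀.cov x x')) h)) := by
  have eQ := fun y => ep_Qn hw L l₀.cov y t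
  have er := fun y => (EP.state (eg_rr hw (L.drop y) l₀) y).pow 2
  have c0 : ∀ y, 0 ≤ dm L 0 y * φ y := fun y => mul_nonneg (dm_nonneg hL y) (hφ y)
  have eA := EP.sum S₀ fun y _ => (eQ y).const_mul (dm L 0 y * φ y)
  have eF : EP F := by
    rw [funext hF]
    exact eA.add (EP.sum S fun y _ => (eQ y).const_mul _)
  have a1 := var3 hw L h eF eA (EP.sum S fun y _ => (er y).const_mul (dm L 0 y * φ y))
    (EP.sum S fun y _ => ((eQ y).sub (er y)).const_mul (dm L 0 y * φ y)) fun p => by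
      simp only [hF, mul_sub, sum_sub_distrib]; ring
  have a2 := EE_wsum hw L h S₀ c0 eQ fun y hy => Qn_crude hw L h l₀.cov (h0 y hy)
  have a3 := var_sq hw hL h hT htr h₀ hS φ
  have a4 := EE_wsum hw L h S c0 (fun y => (eQ y).sub (er y)) fun y hy =>
    Qn_fine hw L h hR (h1 y hy) X
  linarith

end sym

/-! ### the data of `CDef_40` -/

section cd
open C40

theorem sl_ov {n : ℕ} (hn : 0 < n) : (Q33.sl n).cov = ov :=
  funext fun x => funext fun y => Q33.sl_cov hn x y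

/-- `E ρ_y² mᵀ A m` -/
def ra (D : CD) (y : ℕ) : ℝ := node (fun _ => 1) D.B y (fun z =>
  rr (fun _ => 1) (D.B.drop y) (Q33.sl D.n) z ^ 2 * mAm (fun _ => 1) (D.B.drop y) (Q33.sl D.n) z) 0
/-- `E mᵀ A m` -/
abbrev aa (D : CD) (y : ℕ) : ℝ := Q33.aa (fun _ => 1) D.B (Q33.sl D.n) 0 y
/-- the conditional variance of the overlap of a pair split at `y` -/
abbrev VV (D : CD) (y : ℕ) : ℝ :=
  Q33.tc (fun _ => 1) D.B (Q33.sl D.n) 0 y + 2 * Q33.vv (fun _ => 1) D.B (Q33.sl D.n) 0 y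

/-- **`vL`, exact form**: only `0 < n`, variances `≥ 0`, monotone tilts -/
theorem vL_le (D : CD) (hn : 0 < D.n) (nn : ∀ p ∈ D.M, 0 ≤ p.2.1 ∧ 0 ≤ p.2.2) (hL : Mono 0 D.B)
    (hJ : D.J ≤ D.K) {J0 : ℕ} (h0 : J0 ≤ D.J) (X : ℝ) :
    D.vL ≤ 3 * ((∑ y ∈ Icc 1 J0, D.dx y * D.τ y ^ 2) *
        ∑ y ∈ Icc 1 J0, D.dx y * D.τ y ^ 2 * D.E2 y fun x x' => ov x x' ^ 4) +
      48 * ∑ y ∈ Ioc J0 D.J, D.dx y * (D.τ y ^ 2) ^ 2 * ra D y +
      3 * ((∑ y ∈ Ioc J0 D.J, D.dx y * D.τ y ^ 2) * ∑ y ∈ Ioc J0 D.J, D.dx y * D.τ y ^ 2 *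
        (4 * X ^ 2 * VV D y + 32 * D.E2 y fun x x' => max (|ov x x'| - X) 0)) := by
  have hw := Link33.wt1 (n := D.n)
  have ho : ∀ l ∈ D.B, OvLv l := fun l hl => by
    obtain ⟨p, hp, rfl⟩ := List.mem_map.1 hl
    exact ⟨fun r => p.2.1 * (D.β ^ 2 * D.n / 2 * r ^ 2) + p.2.2 * D.n * r,
      mxL_cov hn D.β (nn p hp).1 (nn p hp).2⟩
  have eF : EP fun p => ∑ y ∈ D.lo, D.dx y * (D.τ y ^ 2 * Qn (fun _ => 1) D.B ov y (D.J + 1) p) :=
    EP.sum _ fun y _ => ((ep_Qn hw _ _ _ _).const_mul _).const_mul _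
  have key := var_Q hw hL 0 (sym_act₀ ho) Q33.ts_trans (Q33.ts_cov (Q33.sl_cov hn))
    (S := Ioc J0 D.J) (fun j hj => by
      have := mem_Ioc.1 hj
      rw [List.length_map]
      exact ⟨by omega, this.2.trans hJ⟩)
    (fun x y => by rw [Q33.sl_cov hn]; exact abs_ov_le x y) (S₀ := Icc 1 J0) (t := D.J + 1)
    (fun y hy => by have := mem_Icc.1 hy; omega) (fun y hy => by have := mem_Ioc.1 hy; omega)
    (φ := fun y => D.τ y ^ 2) (fun y => sq_nonneg _) X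
    (F := fun p => ∑ y ∈ D.lo, D.dx y * (D.τ y ^ 2 * Qn (fun _ => 1) D.B ov y (D.J + 1) p))
    fun p => by
      rw [sl_ov hn, show Icc 1 J0 = Ioc 0 J0 from rfl, sum_Ioc_consecutive _ (Nat.zero_le _) h0]
      exact sum_congr rfl fun _ _ => (mul_assoc _ _ _).symm
  rw [EE_eq hw _ _ ((eF.sub (EP.const _)).pow 2), EE_eq hw _ _ eF, sl_ov hn] at key
  exact key

theorem sum_dx_le {Ω : Type} [Fintype Ω] {L : List (Lv Ω)} (hL : Mono 0 L) {S : Finset ℕ} {k : ℕ}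
    (hS : ∀ y ∈ S, y ≤ k) : ∑ y ∈ S, dm L 0 y ≤ ex L k := by
  have := sum_dm L 0 k
  rw [sub_zero] at this
  rw [← this]
  exact sum_le_sum_of_subset_of_nonneg (fun y hy => mem_range.2 (Nat.lt_succ_of_le (hS y hy)))
    fun y _ _ => dm_nonneg hL y

theorem wsum_le {S : Finset ℕ} {d a f g : ℕ → ℝ} {T : ℝ} (hd : ∀ y, 0 ≤ d y) (ha0 : ∀ y, 0 ≤ a y)
    (ha : ∀ y, a y ≤ T) (hg : ∀ y ∈ S, 0 ≤ g y) (hf : ∀ y ∈ S, f y ≤ g y) :
    ∑ y ∈ S, d y * a y * f y ≤ T * ∑ y ∈ S, d y * g y := by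
  rw [mul_sum]
  refine sum_le_sum fun y hy => ?_
  have h1 := mul_le_mul_of_nonneg_left (hf y hy) (mul_nonneg (hd y) (ha0 y))
  have h2 := mul_le_mul_of_nonneg_right (ha y) (mul_nonneg (hd y) (hg y hy))
  linarith

/-- **`vL` on admissible data**; `R4` bounds the fourth moments up to the node `J0` -/
theorem vL_ok {D : CD} {τ0 : ℝ} (H : D.Ok τ0) {J0 : ℕ} (h0 : J0 ≤ D.J) {x0 R4 : ℝ}
    (hx : ex D.B J0 ≤ x0) (R0 : 0 ≤ R4)
    (h4 : ∀ y ∈ Icc 1 J0, (D.E2 y fun x x' => ov x x' ^ 4) ≤ R4) :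
    D.vL ≤ τ0 ^ 4 * (3 * (x0 ^ 2 * R4) + 48 * (D.X ^ 2 * ∑ y ∈ Ioc J0 D.J, D.dx y * aa D y) +
      12 * (D.X ^ 3 * ∑ y ∈ Ioc J0 D.J, D.dx y * VV D y) + 192 * D.tl) := by
  have hw := Link33.wt1 (n := D.n)
  have key := vL_le D H.pos H.ook.nn H.mono H.cut.le h0 D.X
  have d0 : ∀ y, 0 ≤ D.dx y := dm_nonneg H.mono
  have t2 : ∀ y, D.τ y ^ 2 ≤ τ0 ^ 2 := fun y =>
    pow_le_pow_left₀ (H.ook.oTau_le D.n D.β y).1 ((H.ook.oTau_le D.n D.β y).2.trans H.tau) 2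
  have t4 : ∀ y, (D.τ y ^ 2) ^ 2 ≤ (τ0 ^ 2) ^ 2 := fun y => pow_le_pow_left₀ (sq_nonneg _) (t2 y) 2
  have s0 : ∑ y ∈ Icc 1 J0, D.dx y ≤ x0 :=
    (sum_dx_le H.mono fun y hy => (mem_Icc.1 hy).2).trans hx
  have s1 : ∑ y ∈ Ioc J0 D.J, D.dx y ≤ D.X :=
    (sum_dx_le H.mono fun y hy => (mem_Ioc.1 hy).2).trans H.x1
  have x00 : 0 ≤ x0 := (sum_nonneg fun y _ => d0 y).trans s0
  have X0 : 0 ≤ D.X := (sum_nonneg fun y _ => d0 y).trans s1
  have X1 := H.X1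
  have tl0 := H.tl0
  have T0 := sq_nonneg τ0
  have lo : ∀ y ∈ Ioc J0 D.J, y ∈ D.lo := fun y hy => by
    have := mem_Ioc.1 hy
    exact mem_Icc.2 ⟨by omega, this.2⟩
  have a0 : ∀ y, 0 ≤ aa D y := fun y => Q33.aa_nonneg hw H.mono _ _ y
  have v0 : ∀ y, 0 ≤ VV D y := fun y =>
    add_nonneg (Q33.tc_nonneg _ _ _ y) (mul_nonneg zero_le_two (Q33.vv_nonneg hw _ _ _ y))
  have m0 : ∀ (S : Finset ℕ) (x : ℝ), ∑ y ∈ S, D.dx y ≤ x →
      ∑ y ∈ S, D.dx y * D.τ y ^ 2 ≤ τ0 ^ 2 * x := fun S x hS => by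
    refine le_trans ?_ (mul_le_mul_of_nonneg_left hS T0)
    rw [mul_sum]
    exact sum_le_sum fun y _ => (mul_le_mul_of_nonneg_left (t2 y) (d0 y)).trans_eq (mul_comm _ _)
  have b1 := wsum_le d0 (fun y => sq_nonneg _) t2 (g := fun _ => R4) (fun _ _ => R0) h4
  have b2 := wsum_le (S := Ioc J0 D.J) d0 (fun y => sq_nonneg _) t4 (f := ra D)
    (g := fun y => D.X ^ 2 * aa D y + 2 * D.tl) (fun y _ => by have := a0 y; positivity)
    fun y hy => by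
      have := rr_mAm hw H.mono 0 (l₀ := Q33.sl D.n)
        (fun x y => by rw [Q33.sl_cov H.pos]; exact abs_ov_le x y) y D.X
      rw [sl_ov H.pos] at this
      exact this.trans (add_le_add le_rfl
        (mul_le_mul_of_nonneg_left (H.envL y (lo y hy)) zero_le_two))
  have b3 := wsum_le (S := Ioc J0 D.J) d0 (fun y => sq_nonneg _) t2
    (f := fun y => 4 * D.X ^ 2 * VV D y + 32 * D.E2 y fun x x' => max (|ov x x'| - D.X) 0)
    (g := fun y => 4 * D.X ^ 2 * VV D y + 32 * D.tl) (fun y _ => by have := v0 y; positivity)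
    fun y hy => add_le_add le_rfl (mul_le_mul_of_nonneg_left (H.envL y (lo y hy)) (by norm_num))
  have sp : ∀ (A c : ℝ) (f : ℕ → ℝ), ∑ y ∈ Ioc J0 D.J, D.dx y * (A * f y + c) =
      A * ∑ y ∈ Ioc J0 D.J, D.dx y * f y + c * ∑ y ∈ Ioc J0 D.J, D.dx y := fun A c f => by
    rw [mul_sum, mul_sum, ← sum_add_distrib]
    exact sum_congr rfl fun _ _ => by ring
  rw [sp] at b2 b3
  rw [← sum_mul] at b1
  have S0 : 0 ≤ ∑ y ∈ Ioc J0 D.J, D.dx y * VV D y := sum_nonneg fun y _ => mul_nonneg (d0 y) (v0 y)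
  have s2 := mul_le_mul_of_nonneg_left (s1.trans X1) tl0
  have c1 := mul_le_mul (m0 _ _ s0) (b1.trans (mul_le_mul_of_nonneg_left
    (mul_le_mul_of_nonneg_right s0 R0) T0)) (sum_nonneg fun y _ => mul_nonneg
      (mul_nonneg (d0 y) (sq_nonneg _)) (node_nonneg _ (fun z => sum_nonneg fun x _ =>
        sum_nonneg fun x' _ => mul_nonneg (mul_nonneg (P_nonneg hw _ z x) (P_nonneg hw _ z x'))
          (by positivity)) _ _ _)) (by positivity)
  have c2 := b2.trans (mul_le_mul_of_nonneg_left (add_le_add le_rfl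
    (show 2 * D.tl * ∑ y ∈ Ioc J0 D.J, D.dx y ≤ 2 * D.tl by linarith)) (by positivity))
  have c3 := mul_le_mul (m0 _ _ s1) (b3.trans (mul_le_mul_of_nonneg_left (add_le_add le_rfl
    (show 32 * D.tl * ∑ y ∈ Ioc J0 D.J, D.dx y ≤ 32 * D.tl by linarith)) T0))
    (sum_nonneg fun y _ => mul_nonneg (mul_nonneg (d0 y) (sq_nonneg _)) (add_nonneg
      (mul_nonneg (by positivity) (v0 y)) (mul_nonneg (by norm_num) (node_nonneg _ (fun z =>
        sum_nonneg fun x _ => sum_nonneg fun x' _ => mul_nonneg (mul_nonneg (P_nonneg hw _ z x)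
          (P_nonneg hw _ z x')) (le_max_right _ _)) _ _ _)))) (by positivity)
  have c4 := mul_le_mul_of_nonneg_left X1 (show 0 ≤ τ0 ^ 4 * D.tl by positivity)
  nlinarith

theorem v_eq (D : CD) (hn : 0 < D.n) (y t : ℕ) :
    D.v y t = Eg33.vt (fun _ => 1) D.B (Q33.sl D.n) 0 y t := by
  rw [Eg33.vt, CD.v]
  congr 1
  funext z
  rw [Eg33.vz, sl_ov hn]

/-- **`Lv2`** -/
theorem Lv2_le {D : CD} {τ0 : ℝ} (H : D.Ok τ0) {B : ℝ} (hB : D.vL ≤ B) :
    D.Lv2 ≤ √B + D.X * √(D.X * D.Lv1) := by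
  have d0 : ∀ y, 0 ≤ D.dx y := dm_nonneg H.mono
  have v0 : ∀ y, 0 ≤ D.v y (D.J + 1) := fun y => by
    rw [v_eq D H.pos]; exact Eg33.vt_nonneg Link33.wt1 _ _ _ _ _
  have s1 : ∑ y ∈ D.lo, D.dx y ≤ D.X := (sum_dx_le H.mono fun y hy => (mem_Icc.1 hy).2).trans H.x1
  have X0 : 0 ≤ D.X := (sum_nonneg fun y _ => d0 y).trans s1
  refine add_le_add (sqrt_le_sqrt hB) (mul_le_mul_of_nonneg_left (le_sqrt_of_sq_le ?_) X0)
  have := Eg33.wcs (S := D.lo) (c := D.dx) (a := D.dx) (ω := fun _ => 1)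
    (fun y _ => (abs_of_nonneg (d0 y)).le) (fun _ _ => one_pos) fun y => √(D.v y (D.J + 1))
  simp only [mul_one, div_one, sq_sqrt (v0 _)] at this
  exact this.trans (mul_le_mul_of_nonneg_right s1
    (sum_nonneg fun y _ => mul_nonneg (d0 y) (v0 y)))

end cd

end Crest.Agent.T156.Cas.Vl21

end
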