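import Crest.Agent.T156.CInB_12
import Crest.Agent.T156.CVl_21

/-!
# Row 156, block C: `CD.Ok` on the models `Alt.Md` (helper12)

Weak inputs from pointwise envelopes and second moments (convexity and Jensen), the structure `CI`
in profile indices, `CI.ok`.
-/

set_option autoImplicit false
set_option linter.unusedSectionVars false

noncomputable section

namespace Crest.Agent.T156.Cas.C40.W12

open MeasureTheory Real Finset
open Crest.Agent.T157.E Crest.Agent.T157.Casc Crest.Agent.T157.SL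
open Crest.Agent.T156.Cas.Vl21 Crest.Agent.T156.Cas.Sy41 Crest.Agent.T156.Cas.Q33

variable {D : CD}

theorem eg_nd (t : ℕ) : Eg (D.nd t) := Pe.eg_st D.B 0 t (Eg.sum _ fun x _ => Eg.sum _ fun y _ =>
  ((eg_P Link33.wt1 _ x).mul (eg_P Link33.wt1 _ y)).mul (Eg.const _))

theorem eg_lf (t : ℕ) (x : Cube D.n) : Eg fun p => D.lf t p x :=
  Pe.eg_st D.B 0 t (Eg.sum _ fun y _ => (eg_P Link33.wt1 _ y).mul_const _)

theorem tail_sub (j : ℕ) : D.tail j ⊆ D.up := fun t ht => by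
  rw [mem_Ico] at ht; rw [mem_Ioo]; omega

/-- Jensen along a path -/
theorem jen {φ : ℝ → ℝ} (hJ : ∀ p : Cube D.n → ℝ, Pv p → ∀ f : Cube D.n → ℝ,
      φ (∑ x, p x * f x) ≤ ∑ x, p x * φ (f x))
    (hE : ∀ Φ : (Cube D.n → ℝ) → ℝ, Eg Φ → Eg fun z => φ (Φ z)) (t : ℕ) :
    pE (fun _ => 1) D.B 0 (fun p _ => φ (D.nd t p)) ≤ D.E2 t (fun x y => φ (oU D.q t x y)) ∧
    pE (fun _ => 1) D.B 0 (fun p x => φ (D.lf t p x)) ≤ D.E2 t fun x y => φ (oU D.q t x y) := by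
  have hw := Link33.wt1 (n := D.n)
  have q : ∀ K : Cube D.n → Cube D.n → ℝ, Eg fun z => qf (P (fun _ => 1) (D.B.drop t) z) K :=
    fun K => Eg.sum _ fun x _ => Eg.sum _ fun y _ =>
      ((eg_P hw _ x).mul (eg_P hw _ y)).mul (Eg.const _)
  have f : ∀ x, Eg fun z => φ (Pf (fun _ => 1) (D.B.drop t) z (oU D.q t x)) := fun x =>
    hE _ (Eg.sum _ fun y _ => (eg_P hw _ y).mul_const _)
  have k : ∀ z, ∑ x, P (fun _ => 1) (D.B.drop t) z x *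
      φ (Pf (fun _ => 1) (D.B.drop t) z (oU D.q t x)) ≤
      qf (P (fun _ => 1) (D.B.drop t) z) fun x y => φ (oU D.q t x y) := fun z => by
    simp only [qf, mul_assoc, ← mul_sum]
    exact (pv hw _ z).mono fun x => hJ _ (pv hw _ z) _
  constructor
  · refine (Pe.pE_node1 hw (hE _ (q _)) D.B t 0).trans_le (node_mono hw (hE _ (q _)) (q _)
      (fun z => le_trans ?_ (k z)) _ _ _)
    simp only [qf, mul_assoc, ← mul_sum]
    exact hJ _ (pv hw _ z) _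
  · exact (Pe.pE_node hw _ f D.B t 0).trans_le (node_mono hw
      (Eg.sum _ fun x _ => (eg_P hw _ x).mul (f x)) (q _) k _ _ _)

theorem jen_en (e : ℝ) (t : ℕ) :
    pE (fun _ => 1) D.B 0 (fun p _ => en e (D.nd t p)) ≤ D.E2 t (fun x y => en e (oU D.q t x y)) ∧
    pE (fun _ => 1) D.B 0 (fun p x => en e (D.lf t p x)) ≤ D.E2 t fun x y => en e (oU D.q t x y) :=
  jen (fun _ hp f => hp.env e f) (fun _ h => eg_en e h) t

theorem jen_sq (t : ℕ) : pE (fun _ => 1) D.B 0 (fun p _ => D.nd t p ^ 2) ≤ D.u 2 t ∧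
    pE (fun _ => 1) D.B 0 (fun p x => D.lf t p x ^ 2) ≤ D.u 2 t := by
  have := jen (D := D) (φ := fun s => s ^ 2) (fun _ hp f => hp.sq f) (fun _ h => h.pow 2) t
  simp only [← sq_abs (oU D.q t _ _)] at this
  exact this

theorem en_sum {T : Finset ℕ} {μ Y e : ℕ → ℝ} {F : ℝ} (hF : ∑ t ∈ T, |μ t| * e t ≤ F) :
    max (|∑ t ∈ T, μ t * Y t| - F) 0 ≤ ∑ t ∈ T, |μ t| * en (e t) (Y t) := by
  refine max_le ?_ (sum_nonneg fun t _ => mul_nonneg (abs_nonneg _) (en_nonneg _ _))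
  have h1 : |∑ t ∈ T, μ t * Y t| ≤ ∑ t ∈ T, (|μ t| * e t + |μ t| * en (e t) (Y t)) :=
    (abs_sum_le_sum_abs _ _).trans (sum_le_sum fun t _ => by
      rw [abs_mul, ← mul_add]
      exact mul_le_mul_of_nonneg_left (by linarith [le_max_left (|Y t| - e t) 0, en.eq_1 (e t) (Y t)])
        (abs_nonneg _))
  rw [sum_add_distrib] at h1
  linarith

theorem env_gen {T : Finset ℕ} {μ e : ℕ → ℝ} {F tl : ℝ} {Y : ℕ → (NI D.B → ℝ) → Cube D.n → ℝ}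
    (hY : ∀ t x, Eg fun p => Y t p x) (hF : ∑ t ∈ T, |μ t| * e t ≤ F) (h1 : ∑ t ∈ T, |μ t| ≤ 1)
    (h0 : 0 ≤ tl) (H : ∀ t ∈ T, pE (fun _ => 1) D.B 0 (fun p x => en (e t) (Y t p x)) ≤ tl) :
    pE (fun _ => 1) D.B 0 (fun p x => max (|∑ t ∈ T, μ t * Y t p x| - F) 0) ≤ tl := by
  have g : ∀ t x, Eg fun p => |μ t| * en (e t) (Y t p x) := fun t x =>
    (Alt.CIn12.eg_exc (hY t x) _).const_mul _
  refine (Eg33.pE_mono' Link33.wt1 _ _
    (fun x => Alt.CIn12.eg_exc (Eg.sum _ fun t _ => (hY t x).const_mul _) F)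
    (fun x => Eg.sum _ fun t _ => g t x) fun p x => en_sum hF).trans ?_
  rw [Eg33.pE_sum' Link33.wt1 _ _ _ g]
  simp only [Pe.pE_const_mul]
  refine (sum_le_sum fun t ht => mul_le_mul_of_nonneg_left (H t ht) (abs_nonneg _)).trans ?_
  rw [← sum_mul]
  exact mul_le_of_le_one_left h0 h1

theorem sq_gen {T : Finset ℕ} {μ s : ℕ → ℝ} {F : ℝ} {Y : ℕ → (NI D.B → ℝ) → Cube D.n → ℝ}
    (hY : ∀ t x, Eg fun p => Y t p x) (hF : ∑ t ∈ T, |μ t| * s t ≤ F) (s0 : ∀ t ∈ T, 0 < s t)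
    (H : ∀ t ∈ T, pE (fun _ => 1) D.B 0 (fun p x => Y t p x ^ 2) ≤ s t ^ 2) :
    pE (fun _ => 1) D.B 0 (fun p x => (∑ t ∈ T, μ t * Y t p x) ^ 2) ≤ F ^ 2 := by
  have g : ∀ t x, Eg fun p => |μ t| / s t * Y t p x ^ 2 := fun t x => ((hY t x).pow 2).const_mul _
  have p0 : 0 ≤ ∑ t ∈ T, |μ t| * s t := sum_nonneg fun t ht => mul_nonneg (abs_nonneg _) (s0 t ht).le
  refine (Eg33.pE_mono' Link33.wt1 _ _ (fun x => (Eg.sum _ fun t _ => (hY t x).const_mul _).pow 2)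
    (fun x => (Eg.sum _ fun t _ => g t x).const_mul _)
    fun p x => Eg33.wcs (fun _ _ => le_rfl) s0 _).trans ?_
  rw [Pe.pE_const_mul, Eg33.pE_sum' Link33.wt1 _ _ _ g, sq]
  simp only [Pe.pE_const_mul]
  refine mul_le_mul hF (le_trans (sum_le_sum fun t ht => ?_) hF) ?_ (p0.trans hF)
  · have := s0 t ht
    rw [show |μ t| * s t = |μ t| / s t * s t ^ 2 by field_simp]
    exact mul_le_mul_of_nonneg_left (H t ht) (by positivity)
  · refine sum_nonneg fun t ht => mul_nonneg (div_nonneg (abs_nonneg _) (s0 t ht).le) ?_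
    exact (pE_const Link33.wt1 _ _ 0).ge.trans (Eg33.pE_mono' Link33.wt1 _ _ (fun _ => Eg.const 0)
      (fun x => (hY t x).pow 2) fun _ _ => sq_nonneg _)

theorem Wp.one {μ f : ℕ → ℝ} (h : D.Wp μ f) (j : ℕ) :
    pE (fun _ => 1) D.B 0 (fun p _ => (∑ t ∈ D.tail j, μ t * (D.nd t p - D.del t)) ^ 2) ≤ f j ^ 2 ∧
    pE (fun _ => 1) D.B 0
      (fun p x => (∑ t ∈ D.tail j, μ t * (D.lf t p x - D.del t)) ^ 2) ≤ f j ^ 2 := by
  simpa only [mul_one] using h (fun _ => 1) (fun _ => abs_one.le) j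

/-- **`Wk` from pointwise envelopes** -/
theorem wk_env {μ F f e : ℕ → ℝ} (nn : ∀ j, 0 ≤ F j ∧ 0 ≤ f j)
    (an : ∀ j, F (j + 1) ≤ F j ∧ f (j + 1) ≤ f j) (h0 : 0 ≤ D.tl) (h1 : ∑ t ∈ D.up, |μ t| ≤ 1)
    (he : ∀ t ∈ D.up, D.E2 t (fun x y => max (|oU D.q t x y| - e t) 0) ≤ D.tl)
    (hF : ∀ j, ∑ t ∈ D.tail j, |μ t| * e t ≤ F j) (hp : D.Wp μ f) : D.Wk μ F f := by
  have m : ∀ j, ∑ t ∈ D.tail j, |μ t| ≤ 1 := fun j =>
    (sum_le_sum_of_subset_of_nonneg (tail_sub j) fun _ _ _ => abs_nonneg _).trans h1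
  exact ⟨nn, an, fun j => env_gen (Y := fun t p _ => D.nd t p) (fun t _ => eg_nd t) (hF j) (m j) h0
    fun t ht => (jen_en _ t).1.trans (he t (tail_sub j ht)),
    fun j => env_gen eg_lf (hF j) (m j) h0 fun t ht => (jen_en _ t).2.trans (he t (tail_sub j ht)),
    fun j => (Wp.one hp j).1, fun j => (Wp.one hp j).2⟩

/-- **`Wk2` from second moments** -/
theorem wk2_mink {μ F f s : ℕ → ℝ} (nn : ∀ j, 0 ≤ F j ∧ 0 ≤ f j)
    (an : ∀ j, F (j + 1) ≤ F j ∧ f (j + 1) ≤ f j) (s0 : ∀ t ∈ D.up, 0 < s t)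
    (hs : ∀ t ∈ D.up, D.u 2 t ≤ s t ^ 2) (hF : ∀ j, ∑ t ∈ D.tail j, |μ t| * s t ≤ F j)
    (hp : D.Wp μ f) : D.Wk2 μ F f :=
  ⟨nn, an, fun j => sq_gen (Y := fun t p _ => D.nd t p) (fun t _ => eg_nd t) (hF j)
    (fun t ht => s0 t (tail_sub j ht)) fun t ht => (jen_sq t).1.trans (hs t (tail_sub j ht)),
    fun j => sq_gen eg_lf (hF j) (fun t ht => s0 t (tail_sub j ht))
      fun t ht => (jen_sq t).2.trans (hs t (tail_sub j ht)),
    fun j => (Wp.one hp j).1, fun j => (Wp.one hp j).2⟩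

theorem sq_shift {Y : (NI D.B → ℝ) → Cube D.n → ℝ} (hY : ∀ x, Eg fun p => Y p x) {c f F : ℝ}
    (H : pE (fun _ => 1) D.B 0 (fun p x => Y p x ^ 2) ≤ f ^ 2) (hF : 2 * c ^ 2 + 2 * f ^ 2 ≤ F ^ 2) :
    pE (fun _ => 1) D.B 0 (fun p x => (Y p x + c) ^ 2) ≤ F ^ 2 := by
  refine (Eg33.pE_mono' Link33.wt1 _ _ (fun x => ((hY x).add (Eg.const c)).pow 2)
    (G := fun p x => 2 * c ^ 2 + 2 * Y p x ^ 2)
    (fun x => (Eg.const _).add (((hY x).pow 2).const_mul 2))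
    fun p x => by nlinarith [sq_nonneg (Y p x - c)]).trans ?_
  rw [Eg33.pE_add' Link33.wt1 _ _ (fun _ => Eg.const _) fun x => ((hY x).pow 2).const_mul 2,
    pE_const Link33.wt1, Pe.pE_const_mul]
  linarith

/-- **`Wk2` from the means and the centred part** -/
theorem wk2_mean {μ F f : ℕ → ℝ} (nn : ∀ j, 0 ≤ F j ∧ 0 ≤ f j)
    (an : ∀ j, F (j + 1) ≤ F j ∧ f (j + 1) ≤ f j)
    (hF : ∀ j, 2 * (∑ t ∈ D.tail j, μ t * D.del t) ^ 2 + 2 * f j ^ 2 ≤ F j ^ 2)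
    (hp : D.Wp μ f) : D.Wk2 μ F f := by
  have e : ∀ (j : ℕ) (Y : ℕ → ℝ), ∑ t ∈ D.tail j, μ t * Y t =
      ∑ t ∈ D.tail j, μ t * (Y t - D.del t) + ∑ t ∈ D.tail j, μ t * D.del t := fun j Y => by
    rw [← sum_add_distrib]; exact sum_congr rfl fun _ _ => by ring
  refine ⟨nn, an, fun j => ?_, fun j => ?_, fun j => (Wp.one hp j).1, fun j => (Wp.one hp j).2⟩
  · simp only [e j fun t => D.nd t _]
    exact sq_shift (fun _ => Eg.sum _ fun t _ => ((eg_nd t).sub (Eg.const _)).const_mul _)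
      (Wp.one hp j).1 (hF j)
  · simp only [e j fun t => D.lf t _ _]
    exact sq_shift (fun x => Eg.sum _ fun t _ => ((eg_lf t x).sub (Eg.const _)).const_mul _)
      (Wp.one hp j).2 (hF j)

/-- **`Wp` from an additive bound**, density `|a| ≤ α` -/
theorem wp_add {A μ a α f : ℕ → ℝ} (H : D.Add A) (hd : ∀ t, 0 ≤ D.dx t)
    (hμ : ∀ t ∈ D.up, μ t = D.dx t * a t) (ha : ∀ t ∈ D.up, |a t| ≤ α t)
    (hf : ∀ j, ∑ t ∈ D.tail j, D.dx t * (α t ^ 2 * A t) ≤ f j ^ 2) : D.Wp μ f := fun φ hφ j => by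
  have e : ∀ Y : ℕ → ℝ, ∑ t ∈ D.tail j, μ t * φ t * Y t =
      ∑ t ∈ D.tail j, D.dx t * (a t * φ t) * Y t := fun Y =>
    sum_congr rfl fun t ht => by rw [hμ t (tail_sub j ht)]; ring
  simp only [e]
  exact Alt.CIn12.add_tl H hd j (fun t ht => by
    rw [abs_mul]
    exact (mul_le_of_le_one_right (abs_nonneg _) (hφ t)).trans (ha t (tail_sub j ht))) (hf j)

theorem wp_zero {μ : ℕ → ℝ} (h : ∀ t, μ t = 0) (f : ℕ → ℝ) : D.Wp μ f := fun φ _ j => by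
  simp only [h, zero_mul, sum_const_zero, pE_const Link33.wt1, zero_pow two_ne_zero]
  exact ⟨sq_nonneg _, sq_nonneg _⟩

theorem wk2_zero {μ F f : ℕ → ℝ} (h : ∀ t, μ t = 0) (nn : ∀ j, 0 ≤ F j ∧ 0 ≤ f j)
    (an : ∀ j, F (j + 1) ≤ F j ∧ f (j + 1) ≤ f j) : D.Wk2 μ F f := by
  refine ⟨nn, an, fun j => ?_, fun j => ?_, fun j => ?_, fun j => ?_⟩ <;>
    simp only [h, zero_mul, sum_const_zero, pE_const Link33.wt1, zero_pow two_ne_zero] <;>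
    exact sq_nonneg _

end Crest.Agent.T156.Cas.C40.W12

namespace Crest.Agent.T156.Alt.CIn12

open MeasureTheory Real Finset
open Crest.Agent.T157.E Crest.Agent.T157.Casc Crest.Agent.T157.SL
open Crest.Agent.T157.G1 (ov)
open Crest.Agent.T156.Cas Crest.Agent.T156.Cas.C40 Crest.Agent.T156.Alt.Md67
open Crest.Agent.T156.Cas.C40.W12

/-- centred second moments for all bounded multipliers (profile indices) -/
def VarI (M : Md) (m : ℕ) (a : ℝ) (J : ℕ) (μ f : ℕ → ℝ) : Prop :=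
  ∀ φ : ℕ → ℝ, (∀ t, |φ t| ≤ 1) → ∀ k,
    2 * PE M m a (fun g _ => cen M m a (tlP M J k) (fun t => μ t * φ t) (pth M m a g) ^ 2) +
      2 * PE M m a (fun g x => lfp M m a (tlP M J k) (fun t => μ t * φ t) g x ^ 2) ≤ f k ^ 2

/-- second moments, not centred: Minkowski form or mean plus centred part -/
def SqI (M : Md) (m : ℕ) (a : ℝ) (ρ : ℕ → ℝ) (J : ℕ) (μ F f : ℕ → ℝ) : Prop :=
  (∃ s : ℕ → ℝ, (∀ k, J ≤ k → k < M.N → 0 < s k ∧ M.E2 m a (fun R => (R - ρ k) ^ 2) k ≤ s k ^ 2) ∧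
    ∀ k, ∑ t ∈ tlP M J k, |μ t| * s t ≤ F k) ∨
  ∀ k, 2 * (∑ t ∈ tlP M J k, μ t * (M.rb m a t - ρ t)) ^ 2 + 2 * f k ^ 2 ≤ F k ^ 2

/-- nonnegative and nonincreasing -/
def An (F : ℕ → ℝ) : Prop := (∀ k, 0 ≤ F k) ∧ ∀ k, F (k + 1) ≤ F k

variable {M : Md} {m : ℕ} {a : ℝ} {ρ : ℕ → ℝ} {J : ℕ} {W : Option (ℕ → ℝ)} {E : Ev}

theorem An.zero : An fun _ => 0 := ⟨fun _ => le_rfl, fun _ => le_rfl⟩

/-- tails of a nonnegative sequence -/
theorem An.tail {c : ℕ → ℝ} (h : ∀ k, J ≤ k → k < M.N → 0 ≤ c k) :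
    An fun k => ∑ t ∈ tlP M J k, c t :=
  ⟨fun k => sum_nonneg fun t ht => h t (mem_Ico.1 (tlP_sub k ht)).1 (mem_Ico.1 (tlP_sub k ht)).2,
    fun k => sum_le_sum_of_subset_of_nonneg (tlP_anti k) fun t ht _ =>
      h t (mem_Ico.1 (tlP_sub k ht)).1 (mem_Ico.1 (tlP_sub k ht)).2⟩

theorem An.add {F G : ℕ → ℝ} (h : An F) (h' : An G) : An fun k => F k + G k :=
  ⟨fun k => add_nonneg (h.1 k) (h'.1 k), fun k => add_le_add (h.2 k) (h'.2 k)⟩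

theorem An.mul {F : ℕ → ℝ} {c : ℝ} (h : An F) (hc : 0 ≤ c) : An fun k => c * F k :=
  ⟨fun k => mul_nonneg hc (h.1 k), fun k => mul_le_mul_of_nonneg_left (h.2 k) hc⟩

theorem an_fA (G : Lg M m a) (α : ℕ → ℝ) : An (fA M m a J α) :=
  ⟨fun _ => sqrt_nonneg _, fA_anti G α⟩

theorem varI_den (G : Lg M m a) {φ α μ f : ℕ → ℝ}
    (hμ : ∀ k, J ≤ k → k < M.N → μ k = M.dz m a k * φ k)
    (hφ : ∀ k, J ≤ k → k < M.N → |φ k| ≤ α k) (hf : ∀ k, fA M m a J α k ≤ f k) :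
    VarI M m a J μ f := fun ψ hψ =>
  var_tail G (φ := fun k => φ k * ψ k) (fun k h1 h2 => by rw [hμ k h1 h2, mul_assoc])
    (fun k h1 h2 => by
      rw [abs_mul]; exact (mul_le_of_le_one_right (abs_nonneg _) (hψ k)).trans (hφ k h1 h2)) hf

theorem varI_mink (G : Lg M m a) {μ s c f : ℕ → ℝ}
    (hs : ∀ k, J ≤ k → k < M.N → 0 < s k ∧ M.E2 m a (fun R => (R - c k) ^ 2) k ≤ s k ^ 2)
    (hf : ∀ k, 2 * ∑ t ∈ tlP M J k, |μ t| * s t ≤ f k) : VarI M m a J μ f := fun ψ hψ k => by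
  have hs' := fun t (ht : t ∈ tlP M J k) =>
    hs t (mem_Ico.1 (tlP_sub k ht)).1 (mem_Ico.1 (tlP_sub k ht)).2
  have p : 0 ≤ ∑ t ∈ tlP M J k, |μ t| * s t :=
    sum_nonneg fun t ht => mul_nonneg (abs_nonneg _) (hs' t ht).1.le
  refine (var_mink G _ (ν := fun t => |μ t|) (fun t _ => by
    rw [abs_mul]; exact mul_le_of_le_one_right (abs_nonneg _) (hψ t)) (fun t ht => (hs' t ht).1)
    fun t ht => (hs' t ht).2).trans ?_
  nlinarith [hf k]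

theorem VarI.add {μ ν f f' : ℕ → ℝ} (h : VarI M m a J μ f) (h' : VarI M m a J ν f')
    (f0 : ∀ k, 0 ≤ f k) (f0' : ∀ k, 0 ≤ f' k) :
    VarI M m a J (fun t => μ t + ν t) fun k => 2 * (f k + f' k) := fun ψ hψ k => by
  simp only [add_mul]
  refine (var_add _ _ _ (h ψ hψ k) (h' ψ hψ k)).trans ?_
  nlinarith [mul_nonneg (f0 k) (f0' k), sq_nonneg (f k), sq_nonneg (f' k)]

theorem VarI.mono {μ f f' : ℕ → ℝ} (h : VarI M m a J μ f) (f0 : ∀ k, 0 ≤ f k) (e : ∀ k, f k ≤ f' k) :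
    VarI M m a J μ f' := fun ψ hψ k => (h ψ hψ k).trans (pow_le_pow_left₀ (f0 k) (e k) 2)

theorem varI_zero (f : ℕ → ℝ) : VarI M m a J (fun _ => 0) f := fun _ _ k => by
  simpa [cen, lfp, PE, Sy41.pE_const Link33.wt1] using sq_nonneg (f k)

theorem wp_cd (hm : 0 < m) {μ f μ' : ℕ → ℝ} (H : VarI M m a J μ f)
    (hμ : ∀ k, J ≤ k → k < M.N → μ' (k + 1) = μ k) : (cd M m a ρ J W E).Wp μ' (sh f) := by
  intro φ hφ j
  have mem : ∀ {t}, t ∈ tlP M J (j - 1) → J ≤ t ∧ t < M.N := fun h => mem_Ico.1 (tlP_sub _ h)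
  set ν : ℕ → ℝ := fun t => μ t * φ (t + 1) with hν
  have vN : ∀ g : NI (M.L m a) → ℝ, ∑ t ∈ (cd M m a ρ J W E).tail j, μ' t * φ t *
      ((cd M m a ρ J W E).nd t g - (cd M m a ρ J W E).del t) =
      cen M m a (tlP M J (j - 1)) ν (pth M m a g) := fun g => by
    rw [sum_tail, cen]
    refine sum_congr rfl fun t ht => ?_
    rw [hμ t (mem ht).1 (mem ht).2, cd_nd a ρ W E hm (mem ht).1 (mem ht).2,
      cd_del m a ρ W E (mem ht).1 (mem ht).2]; ring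
  have vL : ∀ (g : NI (M.L m a) → ℝ) (x : Cube m), ∑ t ∈ (cd M m a ρ J W E).tail j, μ' t * φ t *
      ((cd M m a ρ J W E).lf t g x - (cd M m a ρ J W E).del t) =
      cen M m a (tlP M J (j - 1)) ν (pth M m a g) + lfp M m a (tlP M J (j - 1)) ν g x :=
    fun g x => by
    rw [sum_tail, cen, lfp, ← sum_add_distrib]
    refine sum_congr rfl fun t ht => ?_
    rw [hμ t (mem ht).1 (mem ht).2, cd_lf a ρ W E hm (mem ht).1 (mem ht).2,
      cd_del m a ρ W E (mem ht).1 (mem ht).2]; ring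
  have g1 := eg_cen (M := M) (m := m) (a := a) (tlP M J (j - 1)) ν
  have g2 := eg_lfp (M := M) (m := m) (a := a) (tlP M J (j - 1)) ν
  have p1 := PE_nonneg (fun _ : Cube m => g1.pow 2) fun _ _ => sq_nonneg _
  have p2 := PE_nonneg (fun x => (g2 x).pow 2) fun _ _ => sq_nonneg _
  have H' := H (fun t => φ (t + 1)) (fun _ => hφ _) (j - 1)
  exact ⟨le_trans (le_of_eq (congrArg (PE M m a) (funext fun g => funext fun _ => by rw [vN])))
      (((le_mul_of_one_le_left p1 one_le_two).trans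
        (le_add_of_nonneg_right (mul_nonneg zero_le_two p2))).trans H'),
    le_trans (le_of_eq (congrArg (PE M m a) (funext fun g => funext fun x => by rw [vL])))
      ((PE_add_sq (fun _ => g1) g2).trans H')⟩

theorem wk2_cd (hm : 0 < m) {μ F f μ' : ℕ → ℝ} (hF : An F) (hf : An f) (H : VarI M m a J μ f)
    (S : SqI M m a ρ J μ F f) (hμ : ∀ k, J ≤ k → k < M.N → μ' (k + 1) = μ k) :
    (cd M m a ρ J W E).Wk2 μ' (sh F) (sh f) := by
  have mem : ∀ {j t}, t ∈ tlP M J j → J ≤ t ∧ t < M.N := fun h => mem_Ico.1 (tlP_sub _ h)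
  have an := fun j => And.intro (sh_anti hF.2 j) (sh_anti hf.2 j)
  rcases S with ⟨s, h1, h2⟩ | h
  · refine wk2_mink (s := sh s) (fun _ => ⟨hF.1 _, hf.1 _⟩) an (fun t ht => ?_) (fun t ht => ?_)
      (fun j => le_trans (le_of_eq ?_) (h2 (j - 1))) (wp_cd hm H hμ)
    · obtain ⟨k, rfl, k1, k2⟩ := mem_up ht
      exact (h1 k k1 k2).1
    · obtain ⟨k, rfl, k1, k2⟩ := mem_up ht
      rw [cd_u m a ρ W E 2 k1 k2]
      simpa only [sq_abs, sh_succ] using (h1 k k1 k2).2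
    · rw [sum_tail]
      exact sum_congr rfl fun t ht => by rw [hμ t (mem ht).1 (mem ht).2, sh_succ]
  · refine wk2_mean (fun _ => ⟨hF.1 _, hf.1 _⟩) an (fun j => le_trans (le_of_eq ?_) (h (j - 1)))
      (wp_cd hm H hμ)
    rw [sum_tail, sum_congr rfl fun t ht => by
      rw [hμ t (mem ht).1 (mem ht).2, cd_del m a ρ W E (mem ht).1 (mem ht).2]]
    rfl

theorem envU_cd {e : ℕ → ℝ} {tl : ℝ}
    (h : ∀ k, J ≤ k → k < M.N → M.E2 m a (fun R => max (|R - ρ k| - e k) 0) k ≤ tl) :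
    ∀ j ∈ (cd M m a ρ J W E).up, (cd M m a ρ J W E).E2 j
      (fun x y => max (|oU (cd M m a ρ J W E).q j x y| - sh e j) 0) ≤ tl := fun j hj => by
  obtain ⟨k, rfl, h1, h2⟩ := mem_up hj
  unfold oU
  rw [cd_q m a ρ W E h1 h2]
  exact h k h1 h2

/-- **inputs of block C in profile indices** (everything but the clauses on `Z`) -/
structure CI (τ0 : ℝ) (M : Md) (m : ℕ) (a : ℝ) (ρ : ℕ → ℝ) (J : ℕ) (W : Option (ℕ → ℝ)) (E : Ev) :
    Prop where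
  lg : Lg M m a
  top : Top M
  rf : Rf M ρ
  cut : J ≤ M.N
  tau : M.b ≤ τ0
  X1 : E.X ≤ 1
  x1 : M.z (J - 1) ≤ E.X
  h1 : M.H (J - 1) ≤ E.X ^ 3
  stt : W = none → ∀ k, J ≤ k → k < M.N → |GamC M m a ρ J k - ρ k| ≤ E.X ^ 3
  tl0 : 0 ≤ E.tl
  envL : ∀ k < J, M.E2 m a (fun R => max (|R - 0| - E.X) 0) k ≤ E.tl
  envU : ∀ k, J ≤ k → k < M.N → M.E2 m a (fun R => max (|R - ρ k| - E.e k) 0) k ≤ E.tl
  eX : ∀ k, E.X ≤ E.e k
  emono : ∀ k, E.e k ≤ E.e (k + 1)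
  esc : ∀ k, J ≤ k → k < M.N → min 1 (M.z k + (tp M m k * ρ k + M.H k)) ≤ E.e k
  qe : ∀ k, J ≤ k → k < M.N → ρ k ≤ E.e k
  aF0 : An E.F0
  aG0 : An E.G0
  af0 : An E.f0
  aF1 : An E.F1
  af1 : An E.f1
  gF : ∀ k, E.G0 k ≤ E.F0 k
  ev0 : ∃ g : ℕ → ℝ,
    (∀ k, J ≤ k → k < M.N → M.E2 m a (fun R => max (|R - ρ k| - g k) 0) k ≤ E.tl) ∧
    ∀ k, ∑ t ∈ tlP M J k, M.dz m a t * g t ≤ E.F0 k
  vp0 : VarI M m a J (M.dz m a) E.f0
  vp1 : VarI M m a J (omP W) E.f1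
  sq0 : SqI M m a ρ J (M.dz m a) E.G0 E.f0
  sq1 : SqI M m a ρ J (omP W) E.F1 E.f1

/-- the clauses on `Z` -/
structure ZI (D : CD) : Prop where
  nl : D.NLa ≤ D.Z ∨ ∃ a l A : ℕ → ℝ, (∀ j ∈ D.up, D.om j = D.dx j * a j) ∧ (∀ j, 0 < l j) ∧
    (∀ j, l j ≤ l (j + 1)) ∧ D.Add A ∧ D.TFa a l A ≤ D.Z
  stw : D.Iw (fun j => D.g j * (D.gq j * D.g j + D.I fun t => D.gq t * D.g t)) +
    (D.K + 1) ^ 2 * D.tl ≤ D.Z
  xc : D.wt * (D.N1 * D.N2) * D.dd 0 1 + D.Iw (fun j => min (D.g j * D.lw (fun t => D.g t ^ 2) j)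
    (√(D.u 2 j) * D.lw (fun t => √(D.u 4 t)) j)) ≤ D.Z
  q2a : D.wt * D.I (fun j => √(D.v j j) * D.lw (fun k => D.e k * √(D.v k k)) j) * D.dd 0 1 +
    D.Iw (fun j => √(D.v j j) * (D.f0 j + D.sv D.f0 D.J +
      D.lw (fun k => D.e k * √(D.v k k)) j + D.hi (fun k => √(D.v k k)) j)) +
    D.Iw (fun j => D.f0 j * (D.f0 j + D.sv D.f0 D.J)) ≤ D.Z
  nl2 : D.NLa ≤ D.Z ∨ ∃ a l A : ℕ → ℝ, (∀ j ∈ D.up, D.om j = D.dx j * a j) ∧ (∀ j, 0 < l j) ∧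
    (∀ j, l j ≤ l (j + 1)) ∧ D.Add A ∧ D.TFa a l A + log (D.K + 2) *
      (1 + D.sv (fun _ => 1) D.J) ^ 2 *
        (D.I (fun t => D.e t * √(D.v t t)) * √(D.I fun t => a t ^ 2 * A t)) ≤ D.Z
  zA : D.A1 ≤ D.Z
  stq : (D.wt * (D.I (fun t => D.gq t * D.g t ^ 2) + D.I (fun t => D.gq t * D.g t) * D.N1) +
    D.Iw fun j => D.gq j * (D.g j * D.N1 + D.N2 + D.N1 ^ 2)) * D.dd 0 1 ≤ D.Z

namespace CI

variable {τ0 : ℝ} (H : CI τ0 M m a ρ J W E)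
include H

theorem c_ook : OOk (cd M m a ρ J W E).M (cd M m a ρ J W E).q := (rf_cq H.rf J).ook H.lg.toLeg

theorem c_cut : (cd M m a ρ J W E).J < (cd M m a ρ J W E).K := by
  rw [cd_K, cd_J]; exact Nat.lt_succ_of_le H.cut

theorem c_top : (cd M m a ρ J W E).dx (cd M m a ρ J W E).K = 0 := by
  rw [cd_K, cd_dx]; exact dz_last H.lg.toLeg H.top

theorem c_tau : (cd M m a ρ J W E).τ (cd M m a ρ J W E).K ≤ τ0 :=
  (oTau_le H.lg.toLeg _).trans H.tau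

theorem c_qlo : ∀ j ≤ (cd M m a ρ J W E).J, (cd M m a ρ J W E).q j = 0 :=
  fun _ hj => cd_q_lo m a ρ W E H.cut hj

theorem c_x1 : T157.Casc.ex (cd M m a ρ J W E).B (cd M m a ρ J W E).J ≤ (cd M m a ρ J W E).X := by
  refine le_trans ?_ H.x1
  rw [cd_B, cd_J]
  rcases J with _ | k
  exacts [H.lg.z0, (ex_succ H.lg.toLeg k).le]

theorem c_h1 : fAcc (cd M m a ρ J W E).M (cd M m a ρ J W E).J ≤ (cd M m a ρ J W E).X ^ 3 := by
  refine le_trans ?_ H.h1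
  have hc := H.cut
  rw [cd_J]
  rcases J with _ | k
  exacts [H.lg.H0.ge, (fAcc_Mx H.lg.toLeg (by omega)).le]

theorem c_gq {k : ℕ} (h1 : J ≤ k) (h2 : k < M.N) :
    (cd M m a ρ J W E).gq (k + 1) = |GamC M m a ρ J k - ρ k| := by
  rw [CD.gq, cd_Gam m W E H.lg.toLeg H.rf h1 h2, cd_q m a ρ W E h1 h2]

theorem c_stt : (cd M m a ρ J W E).W = none → ∀ j ∈ (cd M m a ρ J W E).up,
    |(cd M m a ρ J W E).Gam j - (cd M m a ρ J W E).q j| ≤ (cd M m a ρ J W E).X ^ 3 :=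
  fun h j hj => by
  obtain ⟨k, rfl, h1, h2⟩ := mem_up hj
  exact (H.c_gq h1 h2).trans_le (H.stt (Option.map_eq_none_iff.1 h) k h1 h2)

theorem c_envL : ∀ j ∈ (cd M m a ρ J W E).lo, (cd M m a ρ J W E).E2 j
    (fun x y => max (|ov x y| - (cd M m a ρ J W E).X) 0) ≤ (cd M m a ρ J W E).tl := fun j hj => by
  rw [CD.lo, cd_J, mem_Icc] at hj
  obtain ⟨k, rfl⟩ : ∃ k, j = k + 1 := ⟨j - 1, by omega⟩
  have := H.envL k (by omega)
  simp only [sub_zero] at this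
  exact this

theorem c_emono : ∀ j, (cd M m a ρ J W E).e j ≤ (cd M m a ρ J W E).e (j + 1)
  | 0 => le_rfl
  | k + 1 => H.emono k

theorem c_esc : ∀ j ∈ (cd M m a ρ J W E).up, min 1 (T157.Casc.ex (cd M m a ρ J W E).B j +
    (cd M m a ρ J W E).sig j) ≤ (cd M m a ρ J W E).e j := fun j hj => by
  obtain ⟨k, rfl, h1, h2⟩ := mem_up hj
  rw [cd_sig m ρ W E H.lg.toLeg h1 h2, show T157.Casc.ex (cd M m a ρ J W E).B (k + 1) = M.z k from
    ex_succ H.lg.toLeg k]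
  exact H.esc k h1 h2

theorem c_qe : ∀ j ∈ (cd M m a ρ J W E).up, (cd M m a ρ J W E).q j ≤ (cd M m a ρ J W E).e j :=
  fun j hj => by
  obtain ⟨k, rfl, h1, h2⟩ := mem_up hj
  rw [cd_q m a ρ W E h1 h2]
  exact H.qe k h1 h2

theorem c_wkp : (cd M m a ρ J W E).Wp (cd M m a ρ J W E).dx (cd M m a ρ J W E).f0 ∧
    (cd M m a ρ J W E).Wp (cd M m a ρ J W E).om (cd M m a ρ J W E).f1 :=
  ⟨wp_cd H.lg.m0 H.vp0 fun _ _ _ => rfl, wp_cd H.lg.m0 H.vp1 fun _ _ _ => cd_om ..⟩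

theorem c_wk0 : (cd M m a ρ J W E).Wk (cd M m a ρ J W E).dx (cd M m a ρ J W E).F0
    (cd M m a ρ J W E).f0 := by
  obtain ⟨g, h1, h2⟩ := H.ev0
  refine wk_env (e := sh g) (fun _ => ⟨H.aF0.1 _, H.af0.1 _⟩)
    (fun j => ⟨sh_anti H.aF0.2 j, sh_anti H.af0.2 j⟩) H.tl0 ?_ (envU_cd h1)
    (fun j => le_trans (le_of_eq ?_) (h2 (j - 1))) H.c_wkp.1
  · rw [sum_up]
    simp only [cd_dx, abs_of_nonneg (H.lg.dz_nonneg _)]
    linarith [H.lg.sum_dz_le (Ico J M.N), H.lg.a0]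
  · rw [sum_tail]
    simp only [cd_dx, abs_of_nonneg (H.lg.dz_nonneg _), sh_succ]

theorem c_wk1 : (cd M m a ρ J W E).Wk2 (cd M m a ρ J W E).om (cd M m a ρ J W E).F1
    (cd M m a ρ J W E).f1 := wk2_cd H.lg.m0 H.aF1 H.af1 H.vp1 H.sq1 fun _ _ _ => cd_om ..

theorem c_wg0 : (cd M m a ρ J W E).Wk2 (cd M m a ρ J W E).dx (cd M m a ρ J W E).G0
    (cd M m a ρ J W E).f0 := wk2_cd H.lg.m0 H.aG0 H.af0 H.vp0 H.sq0 fun _ _ _ => rfl

/-- **`CD.Ok`** -/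
theorem ok (Z : ZI (cd M m a ρ J W E)) : (cd M m a ρ J W E).Ok τ0 where
  pos := H.lg.m0
  ook := H.c_ook
  mono := H.lg.monoL
  cut := H.c_cut
  top := H.c_top
  tau := H.c_tau
  qlo := H.c_qlo
  X1 := H.X1
  x1 := H.c_x1
  h1 := H.c_h1
  stt := H.c_stt
  tl0 := H.tl0
  envL := H.c_envL
  envU := envU_cd H.envU
  eX := fun _ => H.eX _
  emono := H.c_emono
  esc := H.c_esc
  wk0 := H.c_wk0
  wk1 := H.c_wk1
  nl := Z.nl
  stw := Z.stw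
  qe := H.c_qe
  xc := Z.xc
  wkp := H.c_wkp
  q2a := Z.q2a
  nl2 := Z.nl2
  wg0 := H.c_wg0
  gF := fun _ => H.gF _
  zA := Z.zA
  stq := Z.stq

omit H in
/-- `CI` does not see `Z` -/
theorem setZ (H : CI τ0 M m a ρ J W E) (z : ℝ) : CI τ0 M m a ρ J W { E with Z := z } :=
  { H with }

end CI

theorem cd_setZ (z : ℝ) :
    cd M m a ρ J W { E with Z := z } = { cd M m a ρ J W E with Z := z } := rfl

/-! ### the value direction -/

theorem Iw_none {D : CD} (h : D.W = none) (f : ℕ → ℝ) : D.Iw f = 0 := by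
  simp [CD.Iw, CD.om, h]

theorem dd_none {D : CD} (h : D.W = none) (x y : ℝ) : D.dd x y = x := by simp [CD.dd, h]

theorem err_none {D : CD} (h : D.W = none) : D.Err = D.E0 + D.I fun j => D.e j * D.g j ^ 3 := by
  simp [CD.Err, CD.wt, dd_none h]

/-- in the value direction `Z` is any large number (it does not enter `Err`) -/
theorem zi_none {D : CD} (h : D.W = none) (h0 : 0 ≤ D.Z) (h1 : (D.K + 1) ^ 2 * D.tl ≤ D.Z)
    (h2 : D.A1 ≤ D.Z) : ZI D := by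
  refine ⟨.inl ?_, ?_, ?_, ?_, .inl ?_, h2, ?_⟩ <;>
    simp only [CD.NLa, Iw_none h, dd_none h, mul_zero, add_zero, zero_add, h0, h1]

/-- **value direction**: some `Z` is admissible -/
theorem CI.ok_val {τ0 : ℝ} (H : CI τ0 M m a ρ J none E) :
    ∃ z, (cd M m a ρ J none { E with Z := z }).Ok τ0 :=
  ⟨max 0 (max ((((cd M m a ρ J none E).K : ℝ) + 1) ^ 2 * E.tl) (cd M m a ρ J none E).A1),
    (H.setZ _).ok (zi_none rfl (le_max_left _ _) ((le_max_left _ _).trans (le_max_right _ _))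
      ((le_max_right _ _).trans (le_max_right _ _)))⟩

theorem err_val (z : ℝ) : (cd M m a ρ J none { E with Z := z }).Err =
    (cd M m a ρ J none E).E0 +
      (cd M m a ρ J none E).I fun j => (cd M m a ρ J none E).e j * (cd M m a ρ J none E).g j ^ 3 :=
  err_none rfl

theorem sqI_none (F f : ℕ → ℝ) (h : ∀ k, 2 * f k ^ 2 ≤ F k ^ 2) : SqI M m a ρ J (omP none) F f :=
  .inr fun k => by simpa [omP] using h k

theorem wt_some (ω : ℕ → ℝ) : (cd M m a ρ J (some ω) E).wt = ∑ k ∈ Ico J M.N, |ω k| := by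
  simp [CD.wt, cd_dd, cd_Iw, omP]

end Crest.Agent.T156.Alt.CIn12

end
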