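import Crest.Agent.T156.CErr_54
import Crest.Agent.T156.CVl_21

/-!
# Row 156, R1: the error table of the head `HT`, level 1 (helper5)

All cubic and weak terms of `Err` are bounded by global numbers.
-/

set_option autoImplicit false
set_option linter.unusedSectionVars false

noncomputable section

namespace Crest.Agent.T156.Cas.C40.Et5

open MeasureTheory Real Set Filter Topology
open Crest.Agent.T157.E Crest.Agent.T157.Casc Crest.Agent.T157.SL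
open Crest.Agent.T157.G1 (ov)
open Mul55 CD

variable {D : CD} {τ0 : ℝ}

/-! ### crude facts -/

theorem u2_young (D : CD) (j : ℕ) {c : ℝ} (hc : 0 < c) :
    3 * c * D.u 2 j ≤ c ^ 3 + 2 * D.u 3 j := by
  have h1 := pi2_mono (Ω := Cube D.n) wt_one90 D.B j
    (K := fun x y => 3 * c * |oU D.q j x y| ^ 2)
    (K' := fun x y => c ^ 3 + 2 * |oU D.q j x y| ^ 3) (fun x y => by
      have h0 := abs_nonneg (oU D.q j x y)
      generalize |oU D.q j x y| = a at h0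
      nlinarith [mul_nonneg (sq_nonneg (a - c)) (show 0 ≤ 2 * a + c by linarith)]) 0
  rwa [pi2_add wt_one90, pi2_const wt_one90, pi2_const_mul, pi2_const_mul] at h1

/-- Jensen -/
theorem u2_le (D : CD) (j : ℕ) : D.u 2 j ≤ D.g j ^ 2 := by
  rcases (D.g0 j).eq_or_lt with h | h
  · have h3 : D.u 3 j = 0 := by rw [← D.g_cube, ← h]; norm_num
    rw [← h]
    refine le_of_forall_pos_le_add fun ε hε => ?_
    have := u2_young D j (sqrt_pos.2 hε)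
    rw [h3, pow_succ, sq_sqrt hε.le] at this
    have h4 : 3 * D.u 2 j ≤ ε := le_of_mul_le_mul_right (by linarith) (sqrt_pos.2 hε)
    linarith [D.u0 2 j]
  · have := u2_young D j h
    rw [← D.g_cube] at this
    exact le_of_mul_le_mul_left (by nlinarith) (show 0 < 3 * D.g j by linarith)

/-- `v y t ≤ E U_y²` -/
theorem v_le_u (hn : 0 < D.n) {y t : ℕ} (hy : y ≤ t) : D.v y t ≤ D.u 2 y := by
  have hw := Link33.wt1 (n := D.n)
  rw [Vl21.v_eq D hn]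
  have h1 := Eg33.vt_near hw D.B (Q33.sl D.n) 0 hy
  have h2 := Eg33.V_eq hw D.B (Q33.sl D.n) 0 y (D.q y)
  have h3 := node_nonneg (fun _ => 1) (Φ := fun z =>
    (Sy41.rr (fun _ => 1) (D.B.drop y) (Q33.sl D.n) z - D.q y) ^ 2) (fun _ => sq_nonneg _) D.B y 0
  have h4 := Q33.vv_nonneg hw (Q33.sl D.n) 0 D.B y
  have h5 : D.u 2 y = pi2 (fun _ => 1) D.B y
      (fun x x' => ((Q33.sl D.n).cov x x' - D.q y) ^ 2) 0 := by
    simp only [CD.u, uM, oU, sq_abs, Vl21.sl_ov hn]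
  linarith

section ok
variable (h : D.Ok τ0)
include h

theorem Lv1_le : D.Lv1 ≤ D.X ^ 3 + 2 * D.tl := by
  have := h.sum_u_lo 1
  norm_num at this
  refine le_trans (Finset.sum_le_sum fun y hy => mul_le_mul_of_nonneg_left
    (v_le_u h.pos (by have := (mem_lo.1 hy).2; omega)) (h.dx0 y)) this

theorem vL_le : D.vL ≤ τ0 ^ 4 * (3 * D.X ^ 6 + 204 * D.tl) := by
  have X0 := h.X0
  have t0 := h.tl0
  have := Vl21.vL_ok h (J0 := D.J) le_rfl h.x1 (R4 := D.X ^ 4 + 4 * D.tl) (by positivity)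
    fun y hy => by
      have h1 := h.u_lo hy 3
      norm_num at h1
      refine le_trans (le_of_eq ?_) h1
      simp only [CD.E2, CD.u, uM, oU, h.qlo y (mem_lo.1 hy).2, sub_zero]
      congr 1
      funext x x'
      exact (Even.pow_abs (by decide) _).symm
  simp only [Finset.Ioc_self, Finset.sum_empty, mul_zero, add_zero] at this
  refine this.trans (mul_le_mul_of_nonneg_left ?_ (by positivity))
  have : D.X ^ 2 * D.tl ≤ D.tl := mul_le_of_le_one_left t0 (pow_le_one₀ X0 h.X1)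
  nlinarith

theorem sqrt_le_add {a b c : ℝ} (ha : 0 ≤ a) (hb : 0 ≤ b) (hc : c ≤ a ^ 2 + b ^ 2) :
    √c ≤ a + b :=
  sqrt_le_iff.2 ⟨by positivity, by nlinarith [mul_nonneg ha hb]⟩

/-- crude `Lv2` -/
theorem Lv2_le : D.Lv2 ≤ (2 * τ0 ^ 2 + 1) * D.X ^ 3 + (15 * τ0 ^ 2 + 2) * √D.tl := by
  have X0 := h.X0
  have t0 := h.tl0
  have s0 := sqrt_nonneg D.tl
  have s2 := sq_sqrt t0
  have h1 := Vl21.Lv2_le h (vL_le h)
  have h2 : √(τ0 ^ 4 * (3 * D.X ^ 6 + 204 * D.tl)) ≤ 2 * τ0 ^ 2 * D.X ^ 3 + 15 * τ0 ^ 2 * √D.tl :=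
    sqrt_le_add h (by positivity) (by positivity) (by
      rw [mul_pow (15 * τ0 ^ 2), s2]
      have : 0 ≤ τ0 ^ 4 * D.X ^ 6 := by positivity
      have : 0 ≤ τ0 ^ 4 * D.tl := by positivity
      nlinarith)
  have h3 : √(D.X * D.Lv1) ≤ D.X ^ 2 + 2 * √D.tl :=
    sqrt_le_add h (by positivity) (by positivity) (by
      rw [mul_pow, s2]
      have h4 := mul_le_mul_of_nonneg_left (Lv1_le h) X0
      have : D.X * D.tl ≤ D.tl := mul_le_of_le_one_left t0 h.X1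
      nlinarith)
  have h5 := mul_le_mul_of_nonneg_left h3 X0
  have : D.X * √D.tl ≤ √D.tl := mul_le_of_le_one_left s0 h.X1
  nlinarith

theorem I_one : D.I (fun _ => 1) ≤ 1 := h.I_le zero_le_one fun _ _ => le_rfl

/-- Cauchy–Schwarz -/
theorem I_cs (a b : ℕ → ℝ) :
    D.I (fun j => a j * b j) ^ 2 ≤ D.I (fun j => a j ^ 2) * D.I fun j => b j ^ 2 := by
  have := Finset.sum_mul_sq_le_sq_mul_sq D.up (fun j => √(D.dx j) * a j) fun j => √(D.dx j) * b j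
  have e : ∀ j, √(D.dx j) ^ 2 = D.dx j := fun j => sq_sqrt (h.dx0 j)
  simp only [mul_pow, e] at this
  refine le_trans (le_of_eq ?_) this
  congr 1
  refine Finset.sum_congr rfl fun j _ => ?_
  rw [mul_mul_mul_comm, ← sq, e]

theorem N1_sq : D.N1 ^ 2 ≤ D.N2 := by
  have := I_cs h D.g fun _ => 1
  simp only [mul_one, one_pow] at this
  exact this.trans (mul_le_of_le_one_right h.N20 (I_one h))

theorem hi_le {a : ℕ → ℝ} (ha : ∀ j, 0 ≤ a j) {j : ℕ} (hj : D.J ≤ j) : D.hi a j ≤ D.I a :=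
  Finset.sum_le_sum_of_subset_of_nonneg (Finset.Ioo_subset_Ioo_left hj) fun t _ _ =>
    mul_nonneg (h.dx0 t) (ha t)

theorem lw_le {a : ℕ → ℝ} (ha : ∀ j, 0 ≤ a j) {j : ℕ} (hj : j ≤ D.K) : D.lw a j ≤ D.I a :=
  Finset.sum_le_sum_of_subset_of_nonneg (Finset.Ioo_subset_Ioo_right hj) fun t _ _ =>
    mul_nonneg (h.dx0 t) (ha t)

theorem sv_le {F : ℕ → ℝ} (hF : ∀ j, 0 ≤ F j) {c : ℝ} (hc : ∀ t, D.J < t → F t ≤ c) {j : ℕ}
    (hj : D.J ≤ j) : D.sv F j ≤ c * D.sv (fun _ => 1) D.J := by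
  have h1 : D.sv F j ≤ D.sv F D.J :=
    Finset.sum_le_sum_of_subset_of_nonneg (Finset.Ioo_subset_Ioo_left hj) fun t ht _ =>
      mul_nonneg (h.dv0 (Finset.mem_Ioo.1 ht).2.le) (hF t)
  refine h1.trans ?_
  rw [CD.sv, CD.sv, Finset.mul_sum]
  refine Finset.sum_le_sum fun t ht => ?_
  rw [mul_one, mul_comm c]
  exact mul_le_mul_of_nonneg_left (hc t (Finset.mem_Ioo.1 ht).1) (h.dv0 (Finset.mem_Ioo.1 ht).2.le)

theorem fs_le {F : ℕ → ℝ} (hF : ∀ j, 0 ≤ F j) (ha : Antitone F) {c V : ℝ} (hc : F (D.J + 1) ≤ c)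
    (hV : D.sv (fun _ => 1) D.J ≤ V) {j : ℕ} (hj : D.J ≤ j) : D.fs F j ≤ c * (1 + V) := by
  have h1 := sv_le h hF (c := c) (fun t ht => (ha ht).trans hc) hj
  have h2 : F (j + 1) ≤ c := (ha (by omega)).trans hc
  have h3 := mul_le_mul_of_nonneg_left hV ((hF _).trans hc)
  rw [fs]
  linarith

end ok

/-- the global numbers: density `A` of the test, envelope `B`, clock `V`, first moments `N`,
second moments `Φ`, low sums `L` -/
structure Tb (D : CD) (A B V N Φ L : ℝ) : Prop where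
  W : D.W.isSome = true
  A0 : 0 ≤ A
  om : ∀ j ∈ D.up, |D.om j| ≤ A * D.dx j
  B1 : 1 ≤ B
  eB : ∀ j ∈ D.up, D.e j ≤ B
  V : D.sv (fun _ => 1) D.J ≤ V
  n1 : D.N1 ≤ N
  n2 : D.N2 ≤ Φ
  F0 : D.F0 (D.J + 1) ≤ N
  f0 : D.f0 (D.J + 1) ≤ N
  F1 : D.F1 (D.J + 1) ≤ A * N
  f1 : D.f1 (D.J + 1) ≤ A * N
  X3 : D.X ^ 3 ≤ L
  L1 : D.Lv1 ≤ L
  L2 : D.Lv2 ≤ L

namespace Tb

variable {A B V N Φ L : ℝ} (T : Tb D A B V N Φ L) (h : D.Ok τ0)
include T h

theorem Iw_le {a : ℕ → ℝ} (ha : ∀ j ∈ D.up, 0 ≤ a j) : D.Iw a ≤ A * D.I a := by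
  rw [Iw, I, Finset.mul_sum]
  exact Finset.sum_le_sum fun j hj =>
    (mul_le_mul_of_nonneg_right (T.om j hj) (ha j hj)).trans_eq (mul_assoc _ _ _)

theorem wt_le : D.wt ≤ A := by
  rw [wt_test T.W]
  exact (T.Iw_le h fun _ _ => zero_le_one).trans (mul_le_of_le_one_right T.A0 (I_one h))

theorem N0 : 0 ≤ N := h.N10.trans T.n1
theorem Φ0 : 0 ≤ Φ := h.N20.trans T.n2
theorem L0 : 0 ≤ L := h.Lv10.trans T.L1
theorem V0 : 0 ≤ V := (h.sv0 (fun _ => zero_le_one) _).trans T.V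
theorem Iu2 : D.I (D.u 2) ≤ Φ := (h.I_mono fun j _ => u2_le D j).trans T.n2
theorem N11 : D.N1 ^ 2 ≤ Φ := (N1_sq h).trans T.n2

theorem Ieg : D.I (fun t => D.e t * D.g t) ≤ B * D.N1 :=
  (h.I_mono fun j hj => mul_le_mul_of_nonneg_right (T.eB j hj) (D.g0 j)).trans_eq (D.I_mul _ _)

theorem Ieg2 : D.I (fun t => D.e t * D.g t ^ 2) ≤ B * D.N2 :=
  (h.I_mono fun j hj => mul_le_mul_of_nonneg_right (T.eB j hj) (sq_nonneg _)).trans_eq
    (D.I_mul _ _)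

theorem T3_le : D.T3 ≤ 2 * B * (Φ * N) := by
  have B0 : 0 ≤ B := zero_le_one.trans T.B1
  have h1 : D.T3 ≤ D.I fun j => B * Φ * D.g j + B * N * D.g j ^ 2 := h.I_mono fun j hj => by
    have hJ := (mem_up.1 hj).1.le
    have a1 := (hi_le h (fun t => sq_nonneg (D.g t)) hJ).trans T.n2
    have a2 := (hi_le h D.g0 hJ).trans T.n1
    have a3 := mul_le_mul_of_nonneg_left a1 (D.g0 j)
    have a4 := mul_le_mul_of_nonneg_left a2 (sq_nonneg (D.g j))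
    have a5 := mul_le_mul (T.eB j hj) (add_le_add a3 a4) (add_nonneg
      (mul_nonneg (D.g0 j) (h.hi0 (fun _ => sq_nonneg _) j))
      (mul_nonneg (sq_nonneg _) (h.hi0 D.g0 j))) B0
    linarith
  rw [D.I_add, D.I_mul, D.I_mul] at h1
  have a1 := mul_le_mul_of_nonneg_left T.n1 (mul_nonneg B0 (T.Φ0 h))
  have a2 := mul_le_mul_of_nonneg_left T.n2 (mul_nonneg B0 (T.N0 h))
  change D.T3 ≤ B * Φ * D.N1 + B * N * D.N2 at h1
  linarith

theorem Cub_le : D.Cub ≤ 5 * B * (A * (Φ * N)) := by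
  have B0 : 0 ≤ B := zero_le_one.trans T.B1
  have N0 := T.N0 h
  have Φ0 := T.Φ0 h
  have h1 : D.Cub ≤ D.Iw fun j => 3 * B * Φ * D.g j + 2 * B * N * D.g j ^ 2 :=
    D.Iw_mono fun j hj => by
      have hJ := (mem_up.1 hj).1.le
      have hK := (mem_up.1 hj).2.le
      have g0 := D.g0 j
      have a1 := (hi_le h (fun t => sq_nonneg (D.g t)) hJ).trans T.n2
      have a2 := (hi_le h D.g0 hJ).trans T.n1
      have a3 := (lw_le h (fun t => mul_nonneg (h.e0 t) (sq_nonneg (D.g t))) hK).trans (T.Ieg2 h)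
      have a4 := (lw_le h (fun t => mul_nonneg (h.e0 t) (D.g0 t)) hK).trans (T.Ieg h)
      have a5 := mul_le_mul (mul_le_mul_of_nonneg_right (T.eB j hj) (sq_nonneg (D.g j))) a2
        (h.hi0 D.g0 j) (by positivity)
      have a6 := mul_le_mul_of_nonneg_left a4 (add_nonneg g0 h.N10)
      have a7 := mul_le_mul_of_nonneg_left T.n2 B0
      have a8 := mul_le_mul_of_nonneg_left (T.N11 h) B0
      have a9 := mul_le_mul_of_nonneg_left T.n1 (mul_nonneg B0 g0)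
      have a10 := mul_le_mul_of_nonneg_right T.B1 Φ0
      have a11 : D.hi (fun t => D.g t ^ 2) j + D.lw (fun t => D.e t * D.g t ^ 2) j +
          (D.g j + D.N1) * D.lw (fun t => D.e t * D.g t) j ≤ 3 * B * Φ + B * N * D.g j := by
        nlinarith
      have a12 := mul_le_mul_of_nonneg_left a11 g0
      nlinarith
  refine h1.trans ((T.Iw_le h fun j _ => by have := D.g0 j; positivity).trans ?_)
  rw [D.I_add, D.I_mul, D.I_mul]
  have a1 := mul_le_mul_of_nonneg_left T.n1 (show 0 ≤ 3 * B * Φ by positivity)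
  have a2 := mul_le_mul_of_nonneg_left T.n2 (show 0 ≤ 2 * B * N by positivity)
  have a3 : 3 * B * Φ * D.I D.g + 2 * B * N * D.I (fun j => D.g j ^ 2) ≤ 5 * B * (Φ * N) := by
    change 3 * B * Φ * D.N1 + 2 * B * N * D.N2 ≤ _
    linarith
  have := mul_le_mul_of_nonneg_left a3 T.A0
  linarith

theorem fF0 {j : ℕ} (hj : D.J ≤ j) : D.fs D.F0 j ≤ N * (1 + V) :=
  fs_le h h.F00 h.wk0.F_anti T.F0 T.V hj
theorem ff0 {j : ℕ} (hj : D.J ≤ j) : D.fs D.f0 j ≤ N * (1 + V) :=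
  fs_le h h.f00 h.wk0.f_anti T.f0 T.V hj
theorem fF1 (ha : Antitone D.F1) {j : ℕ} (hj : D.J ≤ j) : D.fs D.F1 j ≤ A * N * (1 + V) :=
  fs_le h h.F10 ha T.F1 T.V hj
theorem ff1 (ha : Antitone D.f1) {j : ℕ} (hj : D.J ≤ j) : D.fs D.f1 j ≤ A * N * (1 + V) :=
  fs_le h h.f10 ha T.f1 T.V hj

theorem uF {F : ℕ → ℝ} {c : ℝ} (hc : 0 ≤ c) (hF : ∀ j, D.J ≤ j → D.fs F j ≤ c) :
    D.I (fun j => D.u 2 j * D.fs F j) ≤ c * Φ := by
  refine (h.I_mono (b := fun j => c * D.u 2 j) fun j hj => ?_).trans ?_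
  · rw [mul_comm c]
    exact mul_le_mul_of_nonneg_left (hF j (mem_up.1 hj).1.le) (D.u0 _ _)
  · rw [D.I_mul]
    exact mul_le_mul_of_nonneg_left (T.Iu2 h) hc

theorem X4 : D.X ^ 4 ≤ L :=
  (pow_le_pow_of_le_one h.X0 h.X1 (by norm_num)).trans T.X3

/-- the global part of `E0` -/
theorem E0g : D.X ^ 4 * D.N1 + D.X ^ 3 * (D.N2 + D.N1 ^ 2) + D.T3 +
    D.I (fun j => D.u 2 j * D.fs D.F0 j) + D.Lv1 * D.fs D.F0 D.J + D.Lv2 * D.fs D.f0 D.J ≤
    3 * B * ((1 + V) * (L + Φ) * N + L * Φ) := by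
  have N0 := T.N0 h
  have Φ0 := T.Φ0 h
  have L0 := T.L0 h
  have V0 := T.V0 h
  have a1 := mul_le_mul (T.X4 h) T.n1 h.N10 L0
  have a2 := mul_le_mul T.X3 (add_le_add T.n2 (T.N11 h)) (add_nonneg h.N20 (sq_nonneg _)) L0
  have a3 := T.T3_le h
  have a4 := T.uF h (by positivity) fun j hj => T.fF0 h hj
  have a5 := mul_le_mul T.L1 (T.fF0 h le_rfl) (h.fs0 h.F00 _) L0
  have a6 := mul_le_mul T.L2 (T.ff0 h le_rfl) (h.fs0 h.f00 _) L0
  have b1 := mul_nonneg L0 N0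
  have b2 := mul_nonneg Φ0 N0
  have b3 := mul_nonneg L0 Φ0
  have b4 := mul_nonneg b1 V0
  have b5 := mul_nonneg b2 V0
  have c1 := mul_le_mul_of_nonneg_right T.B1 b1
  have c2 := mul_le_mul_of_nonneg_right T.B1 b2
  have c3 := mul_le_mul_of_nonneg_right T.B1 b3
  have c4 := mul_le_mul_of_nonneg_right T.B1 b4
  have c5 := mul_le_mul_of_nonneg_right T.B1 b5
  nlinarith

/-- the first summand of `E1` -/
theorem E1a : D.Iw (fun j => D.dx j + D.X ^ 4 * D.g j + D.X ^ 3 * (D.g j ^ 2 + D.g j * D.N1) +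
    D.u 4 j + D.u 5 j + D.u 2 j * D.fs D.F0 j + D.X ^ 3 * (D.e j * D.G0 j)) ≤
    A * D.I D.dx + D.Iw (fun j => D.u 4 j + D.u 5 j) +
      2 * B * (A * ((1 + V) * (L + Φ) * N + L * Φ)) := by
  have N0 := T.N0 h
  have Φ0 := T.Φ0 h
  have L0 := T.L0 h
  have V0 := T.V0 h
  have B0 : 0 ≤ B := zero_le_one.trans T.B1
  have X3 := pow_nonneg h.X0 3
  have h1 : D.Iw (fun j => D.dx j + D.X ^ 4 * D.g j + D.X ^ 3 * (D.g j ^ 2 + D.g j * D.N1) +
      D.u 4 j + D.u 5 j + D.u 2 j * D.fs D.F0 j + D.X ^ 3 * (D.e j * D.G0 j)) ≤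
      D.Iw (fun j => (D.u 4 j + D.u 5 j) + (D.dx j + (L + L * D.N1) * D.g j +
        (L + N * (1 + V)) * D.g j ^ 2 + L * B * N * 1)) := D.Iw_mono fun j hj => by
    have g0 := D.g0 j
    have a1 := mul_le_mul_of_nonneg_right (T.X4 h) g0
    have a2 := mul_le_mul_of_nonneg_right T.X3 (add_nonneg (sq_nonneg (D.g j))
      (mul_nonneg g0 h.N10))
    have a3 := mul_le_mul (u2_le D j) (T.fF0 h (mem_up.1 hj).1.le) (h.fs0 h.F00 _) (sq_nonneg _)
    have a4 := mul_le_mul T.X3 (mul_le_mul (T.eB j hj)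
      ((h.gF j).trans ((h.wk0.F_anti (mem_up.1 hj).1).trans T.F0)) (h.G00 j) B0)
      (mul_nonneg (h.e0 j) (h.G00 j)) L0
    linarith
  rw [D.Iw_add (fun j => D.u 4 j + D.u 5 j)] at h1
  have h2 := T.Iw_le h (a := fun j => D.dx j + (L + L * D.N1) * D.g j +
    (L + N * (1 + V)) * D.g j ^ 2 + L * B * N * 1) fun j _ => by
      have := D.g0 j; have := h.dx0 j; have := h.N10; positivity
  rw [D.I_add, D.I_add, D.I_add, D.I_mul, D.I_mul, D.I_mul] at h2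
  have a1 := mul_le_mul_of_nonneg_left T.n1 L0
  have a2 := mul_le_mul_of_nonneg_left (T.N11 h) L0
  have a3 := mul_le_mul_of_nonneg_left T.n2 (show 0 ≤ L + N * (1 + V) by positivity)
  have a4 := mul_le_mul_of_nonneg_left (I_one h) (show 0 ≤ L * B * N by positivity)
  have b1 := mul_nonneg L0 N0
  have b2 := mul_nonneg Φ0 N0
  have b3 := mul_nonneg L0 Φ0
  have b4 := mul_nonneg b1 V0
  have b5 := mul_nonneg b2 V0
  have c1 := mul_le_mul_of_nonneg_right T.B1 b1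
  have c2 := mul_le_mul_of_nonneg_right T.B1 b2
  have c3 := mul_le_mul_of_nonneg_right T.B1 b3
  have c4 := mul_le_mul_of_nonneg_right T.B1 b4
  have c5 := mul_le_mul_of_nonneg_right T.B1 b5
  have h3 : (L + L * D.N1) * D.I D.g + (L + N * (1 + V)) * D.I (fun j => D.g j ^ 2) +
      L * B * N * D.I (fun _ => 1) ≤ 2 * B * ((1 + V) * (L + Φ) * N + L * Φ) := by
    change (L + L * D.N1) * D.N1 + (L + N * (1 + V)) * D.N2 + _ ≤ _
    nlinarith
  have h4 := mul_le_mul_of_nonneg_left h3 T.A0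
  linarith

/-- the weak summands of `E1` -/
theorem E1b (hF : Antitone D.F1) (hf : Antitone D.f1) :
    D.I (fun j => D.u 2 j * D.fs D.F1 j) + (D.Lv1 + D.X ^ 3) * D.fs D.F1 D.J +
      D.X ^ 3 * (D.wt * D.sv D.G0 D.J) + D.Lv2 * D.fs D.f1 D.J ≤
      4 * (A * ((1 + V) * (L + Φ) * N)) := by
  have N0 := T.N0 h
  have Φ0 := T.Φ0 h
  have L0 := T.L0 h
  have V0 := T.V0 h
  have A0 := T.A0
  have a1 := T.uF h (by positivity) fun j hj => T.fF1 h hF hj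
  have a2 := mul_le_mul (add_le_add T.L1 T.X3) (T.fF1 h hF le_rfl) (h.fs0 h.F10 _) (by positivity)
  have a3 : D.sv D.G0 D.J ≤ N * (1 + V) :=
    (Finset.sum_le_sum fun t ht => mul_le_mul_of_nonneg_left (h.gF t)
      (h.dv0 (Finset.mem_Ioo.1 ht).2.le)).trans
      (le_trans (le_add_of_nonneg_left (h.F00 _)) (T.fF0 h le_rfl))
  have a4 := mul_le_mul T.X3 (mul_le_mul (T.wt_le h) a3 (h.sv0 h.G00 _) A0)
    (mul_nonneg D.wt0 (h.sv0 h.G00 _)) L0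
  have a5 := mul_le_mul T.L2 (T.ff1 h hf le_rfl) (h.fs0 h.f10 _) L0
  have b : 0 ≤ A * N * (1 + V) * Φ := by positivity
  nlinarith

/-- **level 1** -/
theorem err_le : D.Err ≤ D.wt * (D.X ^ 6 + 1 / D.n + (D.K + 1) ^ 2 * D.tl +
      D.I (fun j => D.u 4 j + D.u 5 j) + D.Lad0 + D.VF) + 2 * A * D.I D.dx +
    D.Iw (fun j => D.u 4 j + D.u 5 j) + D.Lad1 + D.Z +
    14 * B * (A * ((1 + V) * (L + Φ) * N + L * Φ)) := by
  have N0 := T.N0 h
  have Φ0 := T.Φ0 h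
  have L0 := T.L0 h
  have V0 := T.V0 h
  have A0 := T.A0
  have B0 : 0 ≤ B := zero_le_one.trans T.B1
  have a0 := mul_le_mul_of_nonneg_left (T.E0g h) D.wt0
  have a1 := mul_le_mul_of_nonneg_right (T.wt_le h)
    (show 0 ≤ 3 * B * ((1 + V) * (L + Φ) * N + L * Φ) by positivity)
  have a2 := mul_le_mul_of_nonneg_right (T.wt_le h) (h.I0 fun j _ => h.dx0 j)
  have a3 := T.E1a h
  have a4 := T.E1b h h.wk1.F_anti h.wk1.f_anti
  have a5 := T.Cub_le h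
  have b1 : 0 ≤ A * ((1 + V) * (L + Φ) * N) := by positivity
  have b2 : 0 ≤ B * (A * (L * Φ)) := by positivity
  have b3 : B * (A * (Φ * N)) ≤ B * (A * ((1 + V) * (L + Φ) * N)) :=
    mul_le_mul_of_nonneg_left (mul_le_mul_of_nonneg_left (mul_le_mul_of_nonneg_right
      (by nlinarith [mul_nonneg V0 L0, mul_nonneg V0 Φ0]) N0) A0) B0
  have c1 := mul_le_mul_of_nonneg_right T.B1 b1
  rw [Err_test T.W, E0, E1]
  nlinarith

end Tb

theorem g_le (h : D.Ok τ0) {j : ℕ} (hj : j ≤ D.K) : D.g j ≤ 2 := by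
  have h1 := pi2_mono (Ω := Cube D.n) wt_one90 D.B j
    (K := fun x y => |oU D.q j x y| ^ 3) (K' := fun _ _ => 2 ^ 3)
    (fun x y => pow_le_pow_left₀ (abs_nonneg _) (abs_oU_le h.ook hj x y) 3) 0
  rw [pi2_const wt_one90] at h1
  exact le_of_pow_le_pow_left₀ (n := 3) (by norm_num) (by norm_num) (by rw [D.g_cube]; exact h1)

theorem N1_le (h : D.Ok τ0) : D.N1 ≤ 2 :=
  h.I_le (by norm_num) fun _ hj => g_le h (mem_up.1 hj).2.le

/-- free numbers: `w ≥ wt`, `a1 ≥ Iw g`, `a2 ≥ Iw g²`, sup `F` of `F0, f0`, sup `F'` of `F1, f1` -/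
structure Tc (D : CD) (B V N Φ L F F' w a1 a2 : ℝ) : Prop where
  W : D.W.isSome = true
  B1 : 1 ≤ B
  eB : ∀ j ∈ D.up, D.e j ≤ B
  V : D.sv (fun _ => 1) D.J ≤ V
  n1 : D.N1 ≤ N
  n2 : D.N2 ≤ Φ
  F0 : D.F0 (D.J + 1) ≤ F
  f0 : D.f0 (D.J + 1) ≤ F
  F1 : D.F1 (D.J + 1) ≤ F'
  f1 : D.f1 (D.J + 1) ≤ F'
  X3 : D.X ^ 3 ≤ L
  L1 : D.Lv1 ≤ L
  L2 : D.Lv2 ≤ L
  w : D.wt ≤ w
  a1 : D.Iw D.g ≤ a1
  a2 : D.Iw (fun j => D.g j ^ 2) ≤ a2

namespace Tc

variable {B V N Φ L F F' w a1 a2 : ℝ} (T : Tc D B V N Φ L F F' w a1 a2) (h : D.Ok τ0)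
include T h

theorem nn : 0 ≤ B ∧ 0 ≤ V ∧ 0 ≤ N ∧ 0 ≤ Φ ∧ 0 ≤ L ∧ 0 ≤ F ∧ 0 ≤ F' ∧ 0 ≤ w ∧ 0 ≤ a1 ∧ 0 ≤ a2 :=
  ⟨zero_le_one.trans T.B1, (h.sv0 (fun _ => zero_le_one) _).trans T.V, h.N10.trans T.n1,
    h.N20.trans T.n2, h.Lv10.trans T.L1, (h.F00 _).trans T.F0, (h.F10 _).trans T.F1,
    D.wt0.trans T.w, (D.Iw0 fun j _ => D.g0 j).trans T.a1,
    (D.Iw0 fun _ _ => sq_nonneg _).trans T.a2⟩

theorem N11 : D.N1 ^ 2 ≤ Φ := (N1_sq h).trans T.n2

theorem X4 : D.X ^ 4 ≤ L := (pow_le_pow_of_le_one h.X0 h.X1 (by norm_num)).trans T.X3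

theorem Ie {a : ℕ → ℝ} (ha : ∀ j, 0 ≤ a j) : D.I (fun t => D.e t * a t) ≤ B * D.I a :=
  (h.I_mono fun j hj => mul_le_mul_of_nonneg_right (T.eB j hj) (ha j)).trans_eq (D.I_mul _ _)

theorem T3_le : D.T3 ≤ 2 * B * (Φ * N) := by
  obtain ⟨B0, V0, N0, Φ0, L0, F0, F0', w0, a10, a20⟩ := T.nn h
  have h1 : D.T3 ≤ D.I fun j => B * Φ * D.g j + B * N * D.g j ^ 2 := h.I_mono fun j hj => by
    have hJ := (mem_up.1 hj).1.le
    have a1 := (hi_le h (fun t => sq_nonneg (D.g t)) hJ).trans T.n2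
    have a2 := (hi_le h D.g0 hJ).trans T.n1
    have a3 := mul_le_mul_of_nonneg_left a1 (D.g0 j)
    have a4 := mul_le_mul_of_nonneg_left a2 (sq_nonneg (D.g j))
    have a5 := mul_le_mul (T.eB j hj) (add_le_add a3 a4) (add_nonneg
      (mul_nonneg (D.g0 j) (h.hi0 (fun _ => sq_nonneg _) j))
      (mul_nonneg (sq_nonneg _) (h.hi0 D.g0 j))) B0
    linarith
  rw [D.I_add, D.I_mul, D.I_mul] at h1
  have a1 := mul_le_mul_of_nonneg_left T.n1 (mul_nonneg B0 Φ0)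
  have a2 := mul_le_mul_of_nonneg_left T.n2 (mul_nonneg B0 N0)
  change D.T3 ≤ B * Φ * D.N1 + B * N * D.N2 at h1
  linarith

theorem Cub_le : D.Cub ≤ 3 * B * (Φ * a1) + 2 * B * (N * a2) := by
  obtain ⟨B0, V0, N0, Φ0, L0, F0, F0', w0, a10, a20⟩ := T.nn h
  have h1 : D.Cub ≤ D.Iw fun j => 3 * B * Φ * D.g j + 2 * B * N * D.g j ^ 2 :=
    D.Iw_mono fun j hj => by
      have hJ := (mem_up.1 hj).1.le
      have hK := (mem_up.1 hj).2.le
      have g0 := D.g0 j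
      have e0 := h.e0
      have a1 := (hi_le h (fun t => sq_nonneg (D.g t)) hJ).trans T.n2
      have a2 := (hi_le h D.g0 hJ).trans T.n1
      have a3 := (lw_le h (fun t => mul_nonneg (e0 t) (sq_nonneg (D.g t))) hK).trans
        (T.Ie h fun t => sq_nonneg (D.g t))
      have a4 := (lw_le h (fun t => mul_nonneg (e0 t) (D.g0 t)) hK).trans (T.Ie h D.g0)
      change _ ≤ B * D.N2 at a3
      change _ ≤ B * D.N1 at a4
      have a5 := mul_le_mul (mul_le_mul_of_nonneg_right (T.eB j hj) (sq_nonneg (D.g j))) a2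
        (h.hi0 D.g0 j) (by positivity)
      have a6 := mul_le_mul_of_nonneg_left a4 (add_nonneg g0 h.N10)
      have a7 := mul_le_mul_of_nonneg_left T.n2 B0
      have a8 := mul_le_mul_of_nonneg_left (T.N11 h) B0
      have a9 := mul_le_mul_of_nonneg_left T.n1 (mul_nonneg B0 g0)
      have a10 := mul_le_mul_of_nonneg_right T.B1 Φ0
      have a11 : D.hi (fun t => D.g t ^ 2) j + D.lw (fun t => D.e t * D.g t ^ 2) j +
          (D.g j + D.N1) * D.lw (fun t => D.e t * D.g t) j ≤ 3 * B * Φ + B * N * D.g j := by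
        nlinarith
      have a12 := mul_le_mul_of_nonneg_left a11 g0
      nlinarith
  rw [D.Iw_add, D.Iw_mul, D.Iw_mul] at h1
  have a1 := mul_le_mul_of_nonneg_left T.a1 (show 0 ≤ 3 * B * Φ by positivity)
  have a2 := mul_le_mul_of_nonneg_left T.a2 (show 0 ≤ 2 * B * N by positivity)
  linarith

theorem fF0 {j : ℕ} (hj : D.J ≤ j) : D.fs D.F0 j ≤ F * (1 + V) :=
  fs_le h h.F00 h.wk0.F_anti T.F0 T.V hj
theorem ff0 {j : ℕ} (hj : D.J ≤ j) : D.fs D.f0 j ≤ F * (1 + V) :=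
  fs_le h h.f00 h.wk0.f_anti T.f0 T.V hj
theorem fF1 {j : ℕ} (hj : D.J ≤ j) : D.fs D.F1 j ≤ F' * (1 + V) :=
  fs_le h h.F10 h.wk1.F_anti T.F1 T.V hj
theorem ff1 {j : ℕ} (hj : D.J ≤ j) : D.fs D.f1 j ≤ F' * (1 + V) :=
  fs_le h h.f10 h.wk1.f_anti T.f1 T.V hj

theorem uF {G : ℕ → ℝ} {c : ℝ} (hc : 0 ≤ c) (hF : ∀ j, D.J ≤ j → D.fs G j ≤ c) :
    D.I (fun j => D.u 2 j * D.fs G j) ≤ c * Φ := by
  refine (h.I_mono (b := fun j => c * D.g j ^ 2) fun j hj => ?_).trans ?_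
  · rw [mul_comm c]
    exact (mul_le_mul_of_nonneg_left (hF j (mem_up.1 hj).1.le) (D.u0 _ _)).trans
      (mul_le_mul_of_nonneg_right (u2_le D j) hc)
  · rw [D.I_mul]
    exact mul_le_mul_of_nonneg_left T.n2 hc

/-- the global part of `E0` -/
theorem E0g : D.X ^ 4 * D.N1 + D.X ^ 3 * (D.N2 + D.N1 ^ 2) + D.T3 +
    D.I (fun j => D.u 2 j * D.fs D.F0 j) + D.Lv1 * D.fs D.F0 D.J + D.Lv2 * D.fs D.f0 D.J ≤
    L * N + 2 * (L * Φ) + 2 * B * (Φ * N) + F * (1 + V) * (Φ + 2 * L) := by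
  obtain ⟨B0, V0, N0, Φ0, L0, F0, F0', w0, a10, a20⟩ := T.nn h
  have a1 := mul_le_mul (T.X4 h) T.n1 h.N10 L0
  have a2 := mul_le_mul T.X3 (add_le_add T.n2 (T.N11 h)) (add_nonneg h.N20 (sq_nonneg _)) L0
  have a3 := T.T3_le h
  have a4 := T.uF h (by positivity) fun j hj => T.fF0 h hj
  have a5 := mul_le_mul T.L1 (T.fF0 h le_rfl) (h.fs0 h.F00 _) L0
  have a6 := mul_le_mul T.L2 (T.ff0 h le_rfl) (h.fs0 h.f00 _) L0
  linarith

/-- the first summand of `E1` -/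
theorem E1a : D.Iw (fun j => D.dx j + D.X ^ 4 * D.g j + D.X ^ 3 * (D.g j ^ 2 + D.g j * D.N1) +
    D.u 4 j + D.u 5 j + D.u 2 j * D.fs D.F0 j + D.X ^ 3 * (D.e j * D.G0 j)) ≤
    D.Iw D.dx + D.Iw (fun j => D.u 4 j + D.u 5 j) + 3 * L * a1 + (L + F * (1 + V)) * a2 +
      L * B * F * w := by
  obtain ⟨B0, V0, N0, Φ0, L0, F0, F0', w0, a10, a20⟩ := T.nn h
  have X3 := pow_nonneg h.X0 3
  have h1 : D.Iw (fun j => D.dx j + D.X ^ 4 * D.g j + D.X ^ 3 * (D.g j ^ 2 + D.g j * D.N1) +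
      D.u 4 j + D.u 5 j + D.u 2 j * D.fs D.F0 j + D.X ^ 3 * (D.e j * D.G0 j)) ≤
      D.Iw (fun j => D.dx j + (D.u 4 j + D.u 5 j) + 3 * L * D.g j +
        (L + F * (1 + V)) * D.g j ^ 2 + L * B * F * 1) := D.Iw_mono fun j hj => by
    have g0 := D.g0 j
    have a1 := mul_le_mul_of_nonneg_right (T.X4 h) g0
    have a2 := mul_le_mul_of_nonneg_right T.X3 (add_nonneg (sq_nonneg (D.g j))
      (mul_nonneg g0 h.N10))
    have a3 := mul_le_mul (u2_le D j) (T.fF0 h (mem_up.1 hj).1.le) (h.fs0 h.F00 _) (sq_nonneg _)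
    have a4 := mul_le_mul T.X3 (mul_le_mul (T.eB j hj)
      ((h.gF j).trans ((h.wk0.F_anti (mem_up.1 hj).1).trans T.F0)) (h.G00 j) B0)
      (mul_nonneg (h.e0 j) (h.G00 j)) L0
    have a5 := mul_le_mul_of_nonneg_left (N1_le h) (mul_nonneg L0 g0)
    linarith
  refine h1.trans ?_
  rw [D.Iw_add, D.Iw_add, D.Iw_add, D.Iw_add D.dx, D.Iw_mul, D.Iw_mul, D.Iw_mul, ← wt_test T.W]
  have a1 := mul_le_mul_of_nonneg_left T.a1 (show 0 ≤ 3 * L by positivity)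
  have a2 := mul_le_mul_of_nonneg_left T.a2 (show 0 ≤ L + F * (1 + V) by positivity)
  have a3 := mul_le_mul_of_nonneg_left T.w (show 0 ≤ L * B * F by positivity)
  linarith

/-- the weak summands of `E1` -/
theorem E1b : D.I (fun j => D.u 2 j * D.fs D.F1 j) + (D.Lv1 + D.X ^ 3) * D.fs D.F1 D.J +
      D.X ^ 3 * (D.wt * D.sv D.G0 D.J) + D.Lv2 * D.fs D.f1 D.J ≤
      F' * (1 + V) * (Φ + 3 * L) + L * (w * (F * (1 + V))) := by
  obtain ⟨B0, V0, N0, Φ0, L0, F0, F0', w0, a10, a20⟩ := T.nn h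
  have a1 := T.uF h (by positivity) fun j hj => T.fF1 h hj
  have a2 := mul_le_mul (add_le_add T.L1 T.X3) (T.fF1 h le_rfl) (h.fs0 h.F10 _) (by positivity)
  have a3 : D.sv D.G0 D.J ≤ F * (1 + V) :=
    (Finset.sum_le_sum fun t ht => mul_le_mul_of_nonneg_left (h.gF t)
      (h.dv0 (Finset.mem_Ioo.1 ht).2.le)).trans
      (le_trans (le_add_of_nonneg_left (h.F00 _)) (T.fF0 h le_rfl))
  have a4 := mul_le_mul T.X3 (mul_le_mul T.w a3 (h.sv0 h.G00 _) w0)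
    (mul_nonneg D.wt0 (h.sv0 h.G00 _)) L0
  have a5 := mul_le_mul T.L2 (T.ff1 h le_rfl) (h.fs0 h.f10 _) L0
  linarith

/-- **level 1, free numbers** -/
theorem err_le : D.Err ≤ w * (D.X ^ 6 + 1 / D.n + (D.K + 1) ^ 2 * D.tl + D.I D.dx +
      D.I (fun j => D.u 4 j + D.u 5 j) + D.Lad0 + D.VF) + D.Iw D.dx +
    D.Iw (fun j => D.u 4 j + D.u 5 j) + D.Lad1 + D.Z +
    6 * B * (1 + V) * (w * ((L + Φ) * (N + F) + L * Φ) + (L + Φ) * (a1 + F') +
      (L + N + F) * a2) := by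
  obtain ⟨B0, V0, N0, Φ0, L0, F0, F0', w0, a10, a20⟩ := T.nn h
  have a0 := mul_le_mul T.w (show D.E0 ≤ (D.X ^ 6 + 1 / D.n + (D.K + 1) ^ 2 * D.tl + D.I D.dx +
      D.I (fun j => D.u 4 j + D.u 5 j) + D.Lad0 + D.VF) + (L * N + 2 * (L * Φ) +
      2 * B * (Φ * N) + F * (1 + V) * (Φ + 2 * L)) by
    have := T.E0g h
    rw [E0]; linarith) h.E00 w0
  have a3 := T.E1a h
  have a4 := T.E1b h
  have a5 := T.Cub_le h
  have c : 1 ≤ B * (1 + V) := by nlinarith [mul_nonneg B0 V0, T.B1]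
  have c1 : B ≤ B * (1 + V) := by nlinarith [mul_nonneg B0 V0]
  have c2 : 1 + V ≤ B * (1 + V) := by nlinarith [T.B1]
  generalize hc : B * (1 + V) = c0 at c c1 c2
  have k : ∀ {x y : ℝ}, x ≤ c0 → 0 ≤ y → x * y ≤ c0 * y := fun hx hy =>
    mul_le_mul_of_nonneg_right hx hy
  have b1 := k c (show 0 ≤ w * (L * N) by positivity)
  have b2 := k c (show 0 ≤ w * (L * Φ) by positivity)
  have b3 := k c1 (show 0 ≤ w * (Φ * N) by positivity)
  have b4 := k c2 (show 0 ≤ w * (F * Φ) by positivity)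
  have b5 := k c2 (show 0 ≤ w * (F * L) by positivity)
  have b6 := k c (show 0 ≤ L * a1 by positivity)
  have b7 := k c (show 0 ≤ L * a2 by positivity)
  have b8 := k c2 (show 0 ≤ F * a2 by positivity)
  have b9 := k c1 (show 0 ≤ w * (F * L) by positivity)
  have b10 := k c1 (show 0 ≤ Φ * a1 by positivity)
  have b11 := k c1 (show 0 ≤ N * a2 by positivity)
  have b12 := k c2 (show 0 ≤ F' * Φ by positivity)
  have b13 := k c2 (show 0 ≤ F' * L by positivity)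
  have c3 : 0 ≤ c0 := zero_le_one.trans c
  have d1 : 0 ≤ c0 * (w * (L * N)) := by positivity
  have d2 : 0 ≤ c0 * (w * (L * Φ)) := by positivity
  have d3 : 0 ≤ c0 * (w * (Φ * N)) := by positivity
  have d4 : 0 ≤ c0 * (w * (F * Φ)) := by positivity
  have d5 : 0 ≤ c0 * (w * (F * L)) := by positivity
  have d6 : 0 ≤ c0 * (L * a1) := by positivity
  have d7 : 0 ≤ c0 * (L * a2) := by positivity
  have d8 : 0 ≤ c0 * (F * a2) := by positivity
  have d10 : 0 ≤ c0 * (Φ * a1) := by positivity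
  have d11 : 0 ≤ c0 * (N * a2) := by positivity
  have d12 : 0 ≤ c0 * (F' * Φ) := by positivity
  have d13 : 0 ≤ c0 * (F' * L) := by positivity
  rw [Err_test T.W, E1, mul_assoc 6 B, hc]
  linarith

end Tc

end Crest.Agent.T156.Cas.C40.Et5

end
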