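import Crest.Agent.T156.ErrO_35
import Crest.Agent.T156.ErrT_5

/-!
# Row 156: admissibility and the size of `Err` for a test datum, from numbers (helper35)
-/

set_option autoImplicit false
set_option linter.unusedSectionVars false

noncomputable section

namespace Crest.Agent.T156.Cas.C40

open Real Finset
open Crest.Agent.T157.E Crest.Agent.T157.Casc Crest.Agent.T157.SL
open Crest.Agent.T157.G1 (ov)
open Mul55 CD Et5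

/-- the same datum with another `Z` -/
def CD.wz (D : CD) (z : ℝ) : CD := { D with Z := z }

/-- `CD.Ok` without the clauses on `Z` -/
structure Ok0 (D : CD) (τ0 : ℝ) : Prop where
  pos : 0 < D.n
  ook : OOk D.M D.q
  mono : Mono 0 D.B
  cut : D.J < D.K
  top : D.dx D.K = 0
  tau : D.τ D.K ≤ τ0
  qlo : ∀ j ≤ D.J, D.q j = 0
  X1 : D.X ≤ 1
  x1 : ex D.B D.J ≤ D.X
  h1 : fAcc D.M D.J ≤ D.X ^ 3
  stt : D.W = none → ∀ j ∈ D.up, |D.Gam j - D.q j| ≤ D.X ^ 3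
  tl0 : 0 ≤ D.tl
  envL : ∀ j ∈ D.lo, D.E2 j (fun x y => max (|ov x y| - D.X) 0) ≤ D.tl
  envU : ∀ j ∈ D.up, D.E2 j (fun x y => max (|oU D.q j x y| - D.e j) 0) ≤ D.tl
  eX : ∀ j, D.X ≤ D.e j
  emono : ∀ j, D.e j ≤ D.e (j + 1)
  esc : ∀ j ∈ D.up, min 1 (ex D.B j + D.sig j) ≤ D.e j
  wk0 : D.Wk D.dx D.F0 D.f0
  wk1 : D.Wk2 D.om D.F1 D.f1
  qe : ∀ j ∈ D.up, D.q j ≤ D.e j
  wkp : D.Wp D.dx D.f0 ∧ D.Wp D.om D.f1
  wg0 : D.Wk2 D.dx D.G0 D.f0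
  gF : ∀ j, D.G0 j ≤ D.F0 j

namespace CD

/-- left sides of the clauses on `Z` -/
def stwL (D : CD) : ℝ := D.Iw (fun j => D.g j * (D.gq j * D.g j + D.I fun t => D.gq t * D.g t)) +
  (D.K + 1) ^ 2 * D.tl
def xcL (D : CD) : ℝ := D.wt * (D.N1 * D.N2) * D.dd 0 1 +
  D.Iw (fun j => min (D.g j * D.lw (fun t => D.g t ^ 2) j)
    (√(D.u 2 j) * D.lw (fun t => √(D.u 4 t)) j))
def q2L (D : CD) : ℝ :=
  D.wt * D.I (fun j => √(D.v j j) * D.lw (fun k => D.e k * √(D.v k k)) j) * D.dd 0 1 +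
    D.Iw (fun j => √(D.v j j) * (D.f0 j + D.sv D.f0 D.J +
      D.lw (fun k => D.e k * √(D.v k k)) j + D.hi (fun k => √(D.v k k)) j)) +
    D.Iw (fun j => D.f0 j * (D.f0 j + D.sv D.f0 D.J))
def stqL (D : CD) : ℝ :=
  (D.wt * (D.I (fun t => D.gq t * D.g t ^ 2) + D.I (fun t => D.gq t * D.g t) * D.N1) +
    D.Iw fun j => D.gq j * (D.g j * D.N1 + D.N2 + D.N1 ^ 2)) * D.dd 0 1
def nlP (D : CD) (z : ℝ) : Prop := D.NLa ≤ z ∨ ∃ a l A : ℕ → ℝ,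
  (∀ j ∈ D.up, D.om j = D.dx j * a j) ∧ (∀ j, 0 < l j) ∧ (∀ j, l j ≤ l (j + 1)) ∧ D.Add A ∧
    D.TFa a l A ≤ z
def nl2P (D : CD) (z : ℝ) : Prop := D.NLa ≤ z ∨ ∃ a l A : ℕ → ℝ,
  (∀ j ∈ D.up, D.om j = D.dx j * a j) ∧ (∀ j, 0 < l j) ∧ (∀ j, l j ≤ l (j + 1)) ∧ D.Add A ∧
    D.TFa a l A + log (D.K + 2) * (1 + D.sv (fun _ => 1) D.J) ^ 2 *
      (D.I (fun t => D.e t * √(D.v t t)) * √(D.I fun t => a t ^ 2 * A t)) ≤ z

theorem Ok.ok0 {D : CD} {τ0 : ℝ} (h : D.Ok τ0) : Ok0 D τ0 :=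
  ⟨h.pos, h.ook, h.mono, h.cut, h.top, h.tau, h.qlo, h.X1, h.x1, h.h1, h.stt, h.tl0, h.envL, h.envU,
    h.eX, h.emono, h.esc, h.wk0, h.wk1, h.qe, h.wkp, h.wg0, h.gF⟩

end CD

namespace Ok0

variable {D : CD} {τ0 : ℝ} (h : Ok0 D τ0)
include h

theorem wz (z : ℝ) : Ok0 (D.wz z) τ0 :=
  ⟨h.pos, h.ook, h.mono, h.cut, h.top, h.tau, h.qlo, h.X1, h.x1, h.h1, h.stt, h.tl0, h.envL, h.envU,
    h.eX, h.emono, h.esc, ⟨h.wk0.1, h.wk0.2, h.wk0.3, h.wk0.4, h.wk0.5, h.wk0.6⟩,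
    ⟨h.wk1.1, h.wk1.2, h.wk1.3, h.wk1.4, h.wk1.5, h.wk1.6⟩, h.qe, h.wkp,
    ⟨h.wg0.1, h.wg0.2, h.wg0.3, h.wg0.4, h.wg0.5, h.wg0.6⟩, h.gF⟩

theorem ok (h1 : D.nlP D.Z) (h2 : D.stwL ≤ D.Z) (h3 : D.xcL ≤ D.Z) (h4 : D.q2L ≤ D.Z)
    (h5 : D.nl2P D.Z) (h6 : D.A1 ≤ D.Z) (h7 : D.stqL ≤ D.Z) : D.Ok τ0 :=
  ⟨h.pos, h.ook, h.mono, h.cut, h.top, h.tau, h.qlo, h.X1, h.x1, h.h1, h.stt, h.tl0, h.envL, h.envU,
    h.eX, h.emono, h.esc, h.wk0, h.wk1, h1, h2, h.qe, h3, h.wkp, h4, h5, h.wg0, h.gF, h6, h7⟩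

theorem okz {z : ℝ} (h1 : D.nlP z) (h2 : D.stwL ≤ z) (h3 : D.xcL ≤ z) (h4 : D.q2L ≤ z)
    (h5 : D.nl2P z) (h6 : D.A1 ≤ z) (h7 : D.stqL ≤ z) : (D.wz z).Ok τ0 :=
  (h.wz z).ok h1 h2 h3 h4 h5 h6 h7

/-- some `Z` is admissible -/
theorem big : ∃ z, (D.wz z).Ok τ0 := by
  have a := abs_nonneg D.NLa
  have b := abs_nonneg D.stwL
  have c := abs_nonneg D.xcL
  have d := abs_nonneg D.q2L
  have e := abs_nonneg D.A1
  have f := abs_nonneg D.stqL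
  refine ⟨|D.NLa| + |D.stwL| + |D.xcL| + |D.q2L| + |D.A1| + |D.stqL|,
    h.okz (Or.inl ?_) ?_ ?_ ?_ (Or.inl ?_) ?_ ?_⟩
  exacts [by linarith [le_abs_self D.NLa], by linarith [le_abs_self D.stwL],
    by linarith [le_abs_self D.xcL], by linarith [le_abs_self D.q2L],
    by linarith [le_abs_self D.NLa], by linarith [le_abs_self D.A1],
    by linarith [le_abs_self D.stqL]]

end Ok0

theorem Et5.Tc.wz {D : CD} {B V N Φ L F F' w a1 a2 : ℝ} (T : Tc D B V N Φ L F F' w a1 a2) (z : ℝ) :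
    Tc (D.wz z) B V N Φ L F F' w a1 a2 :=
  ⟨T.1, T.2, T.3, T.4, T.5, T.6, T.7, T.8, T.9, T.10, T.11, T.12, T.13, T.14, T.15, T.16⟩

theorem BD.wz {D : CD} {B : ℕ} {lev : ℕ → ℕ} {t c e al A : ℕ → ℝ} (h : BD D B lev t c e al A)
    (z : ℝ) : BD (D.wz z) B lev t c e al A :=
  ⟨h.1, h.2, h.3, h.4, h.5, h.6, h.7, h.8, h.9, h.10, h.11, h.12, h.13, h.14, h.15, h.16, h.17,
    h.18⟩

theorem Den.wz {D : CD} {lev : ℕ → ℕ} {a ab : ℕ → ℝ} (h : Den D lev a ab) (z : ℝ) :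
    Den (D.wz z) lev a ab := ⟨h.1, h.2, h.3⟩

/-- scaling of the test measure -/
theorem NB.smul {B : ℕ} {t c e al ab lam E : ℕ → ℝ} {Λ w δ : ℝ}
    (N : NB B t c e al ab lam E Λ w δ) {x : ℝ} (hx : 0 < x) :
    NB B t c e al (fun i => x * ab i) (fun i => x * lam i) E Λ (x * w) (x * δ) :=
  ⟨fun i => mul_pos hx (N.l0 i), fun _ _ k => mul_le_mul_of_nonneg_left (N.lm k) hx.le, N.Em, N.Λ1,
    N.BΛ, mul_pos hx N.w0, mul_nonneg hx.le N.δ0, N.tE, N.cE, N.eE, N.EΛ,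
    fun i k => mul_le_mul_of_nonneg_left (N.abl i k) hx.le,
    fun i k => mul_le_mul_of_nonneg_left (N.lw i k) hx.le,
    fun i k => by linarith [mul_le_mul_of_nonneg_left (N.n1 i k) hx.le],
    fun i k => by linarith [mul_le_mul_of_nonneg_left (N.n2 i k) hx.le]⟩

/-- the remaining numbers -/
structure Nz (D : CD) (Φ dI dW U UW S1 S2 S3 S4 S5 : ℝ) : Prop where
  r4 : D.I (fun j => √(D.u 4 j)) ≤ Φ
  dI : D.I D.dx ≤ dI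
  dW : D.Iw D.dx ≤ dW
  U : D.I (fun j => D.u 4 j + D.u 5 j) ≤ U
  UW : D.Iw (fun j => D.u 4 j + D.u 5 j) ≤ UW
  S1 : D.Iw (fun j => D.gq j * D.g j ^ 2) ≤ S1
  S2 : D.I (fun j => D.gq j * D.g j) ≤ S2
  S3 : D.I (fun j => D.gq j * D.g j ^ 2) ≤ S3
  S4 : D.Iw (fun j => D.gq j * D.g j) ≤ S4
  S5 : D.Iw D.gq ≤ S5

theorem Nz.wz {D : CD} {Φ dI dW U UW S1 S2 S3 S4 S5 : ℝ} (h : Nz D Φ dI dW U UW S1 S2 S3 S4 S5)
    (z : ℝ) : Nz (D.wz z) Φ dI dW U UW S1 S2 S3 S4 S5 :=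
  ⟨h.1, h.2, h.3, h.4, h.5, h.6, h.7, h.8, h.9, h.10⟩

section
variable {D : CD} {τ0 B V N Φ L F F' w a1 a2 dI dW U UW S1 S2 S3 S4 S5 : ℝ}
  (T : Tc D B V N Φ L F F' w a1 a2) (h : D.Ok τ0) (Z : Nz D Φ dI dW U UW S1 S2 S3 S4 S5)
include T h

theorem xc_le : D.xcL ≤ (w * N + a1) * Φ := by
  obtain ⟨B0, V0, N0, Φ0, L0, F0, F0', w0, a10, a20⟩ := T.nn h
  have k1 := mul_le_mul T.w (mul_le_mul T.n1 T.n2 h.N20 N0) (mul_nonneg h.N10 h.N20) w0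
  have k2 : D.Iw (fun j => min (D.g j * D.lw (fun t => D.g t ^ 2) j)
      (√(D.u 2 j) * D.lw (fun t => √(D.u 4 t)) j)) ≤ D.Iw fun j => Φ * D.g j :=
    D.Iw_mono fun j hj => (min_le_left _ _).trans ((mul_le_mul_of_nonneg_left
      ((lw_le h (fun t => sq_nonneg (D.g t)) (mem_up.1 hj).2.le).trans T.n2)
      (D.g0 j)).trans_eq (mul_comm _ _))
  rw [D.Iw_mul] at k2
  have k3 := mul_le_mul_of_nonneg_left T.a1 Φ0
  rw [xcL, dd_test T.W]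
  linarith

include Z

theorem S20 : 0 ≤ S2 := (h.I0 fun j _ => mul_nonneg (abs_nonneg _) (D.g0 j)).trans Z.S2

theorem S10 : 0 ≤ S1 := (D.Iw0 fun _ _ => mul_nonneg (abs_nonneg _) (sq_nonneg _)).trans Z.S1

theorem stw_le : D.stwL ≤ S1 + a1 * S2 + (D.K + 1) ^ 2 * D.tl := by
  have k : D.Iw (fun j => D.g j * (D.gq j * D.g j + D.I fun t => D.gq t * D.g t)) ≤
      D.Iw fun j => D.gq j * D.g j ^ 2 + S2 * D.g j := D.Iw_mono fun j _ => by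
    linarith [mul_le_mul_of_nonneg_left Z.S2 (D.g0 j)]
  rw [D.Iw_add, D.Iw_mul] at k
  have := mul_le_mul_of_nonneg_left T.a1 (S20 T h Z)
  rw [stwL]
  linarith [Z.S1]

theorem stq_le : D.stqL ≤ w * (S3 + S2 * N) + (N * S4 + 2 * Φ * S5) := by
  obtain ⟨B0, V0, N0, Φ0, L0, F0, F0', w0, a10, a20⟩ := T.nn h
  have a1 : 0 ≤ D.I (fun t => D.gq t * D.g t ^ 2) :=
    h.I0 fun j _ => mul_nonneg (abs_nonneg _) (sq_nonneg _)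
  have a2 : 0 ≤ D.I (fun t => D.gq t * D.g t) :=
    h.I0 fun j _ => mul_nonneg (abs_nonneg _) (D.g0 j)
  have k1 := mul_le_mul T.w (add_le_add Z.S3 (mul_le_mul Z.S2 T.n1 h.N10 (S20 T h Z)))
    (add_nonneg a1 (mul_nonneg a2 h.N10)) w0
  have k2 : D.Iw (fun j => D.gq j * (D.g j * D.N1 + D.N2 + D.N1 ^ 2)) ≤
      D.Iw fun j => N * (D.gq j * D.g j) + 2 * Φ * D.gq j := D.Iw_mono fun j _ => by
    have g0 : 0 ≤ D.gq j := abs_nonneg _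
    linarith [mul_le_mul_of_nonneg_left T.n1 (mul_nonneg g0 (D.g0 j)),
      mul_le_mul_of_nonneg_left T.n2 g0, mul_le_mul_of_nonneg_left (T.N11 h) g0]
  rw [D.Iw_add, D.Iw_mul, D.Iw_mul] at k2
  have k3 := mul_le_mul_of_nonneg_left Z.S4 N0
  have k4 := mul_le_mul_of_nonneg_left Z.S5 (show 0 ≤ 2 * Φ by positivity)
  rw [stqL, dd_test T.W, mul_one]
  linarith

theorem stq0 : 0 ≤ w * (S3 + S2 * N) + (N * S4 + 2 * Φ * S5) := by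
  obtain ⟨B0, V0, N0, Φ0, L0, F0, F0', w0, a10, a20⟩ := T.nn h
  have a2 := S20 T h Z
  have a3 : 0 ≤ S3 := (h.I0 fun j _ => mul_nonneg (abs_nonneg _) (sq_nonneg _)).trans Z.S3
  have a4 : 0 ≤ S4 := (D.Iw0 fun j _ => mul_nonneg (abs_nonneg _) (D.g0 j)).trans Z.S4
  have a5 : 0 ≤ S5 := (D.Iw0 fun j _ => abs_nonneg _).trans Z.S5
  positivity

theorem zA_le : D.A1 ≤ F' * (1 + V) * Φ + √D.tl * ((1 + V) * (2 * F' + 2 * B * F * w)) := by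
  obtain ⟨B0, V0, N0, Φ0, L0, F0, F0', w0, a10, a20⟩ := T.nn h
  have k1 : D.I (fun j => √(D.u 4 j) * D.fs D.F1 j) ≤ D.I fun j => F' * (1 + V) * √(D.u 4 j) :=
    h.I_mono fun j hj => (mul_le_mul_of_nonneg_left (T.fF1 h (mem_up.1 hj).1.le)
      (sqrt_nonneg _)).trans_eq (mul_comm _ _)
  rw [D.I_mul] at k1
  have k2 := mul_le_mul_of_nonneg_left Z.r4 (show 0 ≤ F' * (1 + V) by positivity)
  have k3 : D.Iw (fun j => D.e j * D.G0 j) ≤ D.Iw fun _ => B * F := D.Iw_mono fun j hj =>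
    mul_le_mul (T.eB j hj) ((h.gF j).trans ((h.wk0.F_anti (mem_up.1 hj).1).trans T.F0))
      (h.G00 j) B0
  rw [D.Iw_const, ← wt_test T.W] at k3
  have k4 := mul_le_mul_of_nonneg_left T.w (mul_nonneg B0 F0)
  have k5 : D.fs D.G0 D.J ≤ F * (1 + V) :=
    fs_le h h.G00 h.wg0.F_anti ((h.gF _).trans T.F0) T.V le_rfl
  have k6 := mul_le_mul T.w k5 (h.fs0 h.G00 _) w0
  have k7 := mul_le_mul_of_nonneg_right T.B1 (show 0 ≤ w * (F * (1 + V)) by positivity)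
  have k8 : 0 ≤ B * F * w * V := by positivity
  have k9 : D.fs D.F1 D.J + D.fs D.f1 D.J + D.Iw (fun j => D.e j * D.G0 j) +
      D.wt * D.fs D.G0 D.J ≤ (1 + V) * (2 * F' + 2 * B * F * w) := by
    linarith [T.fF1 h le_rfl, T.ff1 h le_rfl]
  have := mul_le_mul_of_nonneg_left k9 (sqrt_nonneg D.tl)
  rw [A1]
  linarith

end

/-- the ladder part of `Err` without the low term -/
theorem BD.lad_N' {D : CD} {B : ℕ} {lev : ℕ → ℕ} {t c e al A : ℕ → ℝ} (h : BD D B lev t c e al A)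
    {a ab lam E : ℕ → ℝ} {Λ w δ : ℝ} (N : NB B t c e al ab lam E Λ w δ) (d : Den D lev a ab)
    (hW : D.W.isSome = true) :
    D.wt * (D.Lad0 + D.VF) + D.Lad1 ≤ D.wt * (D.X ^ 2 * D.Lv1) + 6 * (Λ ^ 7 * δ) := by
  have l0 : 0 ≤ D.Lad0 - D.X ^ 2 * D.Lv1 := by
    have a1 : 0 ≤ D.I (fun t => D.e t ^ 2 * D.v t t) := sum_nonneg fun j _ => mul_nonneg (h.dx0 j)
      (mul_nonneg (sq_nonneg _) (h.v0 j j))
    have a2 : 0 ≤ D.I fun t => D.e t * ∑ y ∈ Ico 1 t, D.dx y * D.v y t :=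
      sum_nonneg fun j hj => mul_nonneg (h.dx0 j) (mul_nonneg (h.e0 j hj) (h.lad0 j))
    rw [Lad0]; linarith
  have v0 : 0 ≤ D.VF := add_nonneg (sq_nonneg _) (h.sv0 fun _ _ => sq_nonneg _)
  have k := h.wt_dd N d (add_nonneg l0 v0) (y := 2 * (Λ * δ) + 2 * (Λ ^ 5 * δ))
    (by linarith [h.Lad0_N N, h.VF_N N])
  rw [dd_test hW, mul_one] at k
  have := h.pw N d (i := 1) (j := 7) (by norm_num)
  have := h.pw N d (i := 3) (j := 7) (by norm_num)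
  linarith [h.Lad1_N N d]

/-- the homogeneous part of the bound: linear in `F' w a1 a2 dW UW S1 S4 S5` -/
def Pe (B V N Φ L F X n dI U S2 S3 r F' w a1 a2 dW UW S1 S4 S5 : ℝ) : ℝ :=
  w * (X ^ 6 + X ^ 2 * L + 1 / n + dI + U) + dW + UW + S1 + a1 * S2 +
    (w * (S3 + S2 * N) + (N * S4 + 2 * Φ * S5)) +
    r * ((1 + V) * (2 * F' + 2 * B * F * w)) +
    7 * B * (1 + V) * (w * ((L + Φ) * (N + F) + L * Φ) + (L + Φ) * (a1 + F') + (L + N + F) * a2)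

theorem Pe_smul (x B V N Φ L F X n dI U S2 S3 r F' w a1 a2 dW UW S1 S4 S5 : ℝ) :
    x * Pe B V N Φ L F X n dI U S2 S3 r F' w a1 a2 dW UW S1 S4 S5 = Pe B V N Φ L F X n dI U S2 S3 r
      (x * F') (x * w) (x * a1) (x * a2) (x * dW) (x * UW) (x * S1) (x * S4) (x * S5) := by
  unfold Pe; ring

/-- **admissibility and size of the error** -/
theorem err_Z {D : CD} {τ0 B V N Φ L F F' w a1 a2 dI dW U UW S1 S2 S3 S4 S5 : ℝ} (h : Ok0 D τ0)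
    (T : Tc D B V N Φ L F F' w a1 a2) (Z : Nz D Φ dI dW U UW S1 S2 S3 S4 S5) {Bn : ℕ} {lev : ℕ → ℕ}
    {t c e al A a ab lam E : ℕ → ℝ} {Λ w' δ : ℝ} (b : BD D Bn lev t c e al A)
    (Nb : NB Bn t c e al ab lam E Λ w' δ) (d : Den D lev a ab) (hK : log ((D.K : ℝ) + 2) ≤ Λ) :
    ∃ z, (D.wz z).Ok τ0 ∧ (D.wz z).Err ≤
      Pe B V N Φ L F D.X D.n dI U S2 S3 √D.tl F' w a1 a2 dW UW S1 S4 S5 + (1 + w) * ((D.K + 1) ^ 2 * D.tl) + 28 * (Λ ^ 9 * δ) := by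
  obtain ⟨z0, h0⟩ := h.big
  obtain ⟨B0, V0, N0, Φ0, L0, F0, F0', w0, a10, a20⟩ := (T.wz z0).nn h0
  have k1 : D.xcL ≤ (w * N + a1) * Φ := xc_le (D := D.wz z0) (T.wz z0) h0
  have k2 : D.stwL ≤ S1 + a1 * S2 + (D.K + 1) ^ 2 * D.tl := stw_le (D := D.wz z0) (T.wz z0) h0 (Z.wz z0)
  have k3 : D.A1 ≤ F' * (1 + V) * Φ + √D.tl * ((1 + V) * (2 * F' + 2 * B * F * w)) :=
    zA_le (D := D.wz z0) (T.wz z0) h0 (Z.wz z0)
  have k4 : D.stqL ≤ w * (S3 + S2 * N) + (N * S4 + 2 * Φ * S5) :=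
    stq_le (D := D.wz z0) (T.wz z0) h0 (Z.wz z0)
  have p4 := stq0 (T.wz z0) h0 (Z.wz z0)
  have s1 := S10 (T.wz z0) h0 (Z.wz z0)
  have s2 := S20 (T.wz z0) h0 (Z.wz z0)
  have t0 := h.tl0
  have p0 : 0 ≤ Λ ^ 9 * δ := mul_nonneg (pow_nonneg (b.Λ0 Nb) 9) Nb.δ0
  have p1 : 0 ≤ (w * N + a1) * Φ := by positivity
  have p2 : 0 ≤ S1 + a1 * S2 + (D.K + 1) ^ 2 * D.tl := by positivity
  have p3 : 0 ≤ F' * (1 + V) * Φ + √D.tl * ((1 + V) * (2 * F' + 2 * B * F * w)) := by positivity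
  set z := (w * N + a1) * Φ + (S1 + a1 * S2 + (D.K + 1) ^ 2 * D.tl) +
    (F' * (1 + V) * Φ + √D.tl * ((1 + V) * (2 * F' + 2 * B * F * w))) +
    (w * (S3 + S2 * N) + (N * S4 + 2 * Φ * S5)) + 22 * (Λ ^ 9 * δ) with hz
  have hZ : 22 * (Λ ^ 9 * δ) ≤ (D.wz z).Z := show _ ≤ z by linarith
  have ok : (D.wz z).Ok τ0 := h.okz ((b.wz z).nl1 Nb (d.wz z) hK hZ) (by linarith) (by linarith)
    ((b.wz z).q2a Nb (d.wz z) hZ) ((b.wz z).nl2 Nb (d.wz z) hK hZ) (by linarith) (by linarith)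
  refine ⟨z, ok, ?_⟩
  have T' : Tc (D.wz z) B V N Φ L F F' D.wt a1 a2 := { T.wz z with w := le_rfl }
  have e : (D.wz z).Err ≤ D.wt * (D.X ^ 6 + 1 / D.n + (D.K + 1) ^ 2 * D.tl + D.I D.dx +
      D.I (fun j => D.u 4 j + D.u 5 j) + D.Lad0 + D.VF) + D.Iw D.dx +
    D.Iw (fun j => D.u 4 j + D.u 5 j) + D.Lad1 + z +
    6 * B * (1 + V) * (D.wt * ((L + Φ) * (N + F) + L * Φ) + (L + Φ) * (a1 + F') +
      (L + N + F) * a2) := T'.err_le ok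
  have l1 := b.lad_N' Nb d T.W
  have l2 := b.pw Nb d (i := 7) (j := 9) (by norm_num)
  have X0 : 0 ≤ D.X := h0.X0
  have q0 : 0 ≤ D.X ^ 6 + D.X ^ 2 * D.Lv1 + 1 / D.n + (D.K + 1) ^ 2 * D.tl + D.I D.dx +
      D.I (fun j => D.u 4 j + D.u 5 j) := by
    have a1 : 0 ≤ D.Lv1 := h0.Lv10
    have a2 : 0 ≤ D.I D.dx := sum_nonneg fun j _ => mul_nonneg (b.dx0 j) (b.dx0 j)
    have a3 : 0 ≤ D.I (fun j => D.u 4 j + D.u 5 j) :=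
      sum_nonneg fun j _ => mul_nonneg (b.dx0 j) (add_nonneg (D.u0 4 j) (D.u0 5 j))
    positivity
  have q1 := mul_le_mul T.w (show D.X ^ 6 + D.X ^ 2 * D.Lv1 + 1 / D.n + (D.K + 1) ^ 2 * D.tl +
      D.I D.dx + D.I (fun j => D.u 4 j + D.u 5 j) ≤ D.X ^ 6 + D.X ^ 2 * L + 1 / D.n +
      (D.K + 1) ^ 2 * D.tl + dI + U by
    linarith [Z.dI, Z.U, mul_le_mul_of_nonneg_left T.L1 (sq_nonneg D.X)]) q0 w0
  have q2 := mul_le_mul_of_nonneg_left (mul_le_mul_of_nonneg_right T.w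
    (show 0 ≤ (L + Φ) * (N + F) + L * Φ by positivity))
    (show 0 ≤ 6 * B * (1 + V) by positivity)
  have c2 : 1 + V ≤ B * (1 + V) := le_mul_of_one_le_left (add_nonneg zero_le_one V0) T.B1
  have c1 : 1 ≤ B * (1 + V) := (le_add_of_nonneg_right V0).trans c2
  have q3 := mul_le_mul_of_nonneg_right c1 p1
  have q4 := mul_le_mul_of_nonneg_right c2 (mul_nonneg F0' Φ0)
  have q5 : 0 ≤ B * (1 + V) * (w * (L * (N + F) + Φ * F + L * Φ) + L * (a1 + F') +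
      (L + N + F) * a2) := by positivity
  refine e.trans ?_
  unfold Pe
  linear_combination l1 + 6 * l2 + q1 + q2 + q3 + q4 + q5 + Z.dW + Z.UW + hz

end Crest.Agent.T156.Cas.C40

end
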