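import Crest.Agent.T156.QClS_98
import Crest.Agent.T156.CIn_12

/-!
# Row 156, block Q on the class with an exponent chosen after `A` and `η` (helper12)

`cx_big` is `QS98.cx_ev` (same proof) with `p = 2 ^ j`, `n ^ (D (A + 1)) ≤ lam ^ j`.
-/

set_option autoImplicit false
set_option linter.unusedSectionVars false

noncomputable section

namespace Crest.Agent.T156.Alt.CIn12

open MeasureTheory Real Finset Filter
open Crest.Agent.T157.E Crest.Agent.T157.Casc Crest.Agent.T157.SL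
open Crest.Agent.T156.Cas Crest.Agent.T156.Cas.Lp12 Crest.Agent.T156.Alt.Md67
open Crest.Agent.T156.Cas.QCas98 Crest.Agent.T156.Alt.C33 Crest.Agent.T156.Alt.QS98

/-- the context with a large exponent -/
structure Big (K K' lam : ℝ) (r i j D : ℕ) (Kp : ℕ → ℝ) (S : Sc) (M : Md) (m : ℕ) (a : ℝ) :
    Prop where
  cx : Cx K K' lam r i (2 ^ j) S M m a
  big : (S.n : ℝ) ^ (D * (S.A + 1)) ≤ lam ^ j
  kp : Kp j ≤ lam

/-- **the context of block Q, exponent after `A` and `η`** -/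
theorem cx_big (Kf : ℝ → ℝ) (hK : ∀ C, 1 ≤ Kf C) (D q : ℕ) (Kp : ℕ → ℝ) :
    CL fun _ Λ S M m a => ∃ (K' lam : ℝ) (r i j : ℕ),
      Big (Kf S.C) K' lam r i j D Kp S M m a ∧ lam ^ (q + 40) ≤ Λ := by
  intro C
  obtain ⟨K', h1, hR⟩ := qRicS (Kf C) C (hK C)
  obtain ⟨K'', h2, hU⟩ := qUpS (Kf C) C (hK C)
  filter_upwards [eventually_ge_atTop 2] with A hA ε hε η hη
  have q0 : (0 : ℝ) < q + 40 := by positivity
  set η' : ℝ := min η 1 / (q + 40) with hη'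
  have e0 : 0 < η' := by have := lt_min hη one_pos; positivity
  have e1' : η' * (q + 40) = min η 1 := div_mul_cancel₀ _ q0.ne'
  set r : ℕ := ⌈((A : ℝ) + 3) / η'⌉₊ with hr
  set j : ℕ := ⌈((D * (A + 1) : ℕ) : ℝ) / η'⌉₊ with hj
  obtain ⟨p, hp⟩ : ∃ p : ℕ, p = 2 ^ j := ⟨_, rfl⟩
  obtain ⟨Cl, hCl, hS⟩ := lip_syn' r (r + p + 1) (3 * K' ^ 2) (by omega) (by omega)
  have ck := LpR43.cK_pos p
  have hKC := hK C
  filter_upwards [hR A hA, hU A hA, ev_fn C hA,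
    ev_rgc C hA e0 (Kf C + K' + K'' + Cl + LpR43.cK p + ((r : ℝ) + 4) * 8 + |Kp j|)]
    with n a1 a2 a3 a4 S M e1 e2 e3 h m a I
  have G := a4 S e1 e2 e3
  have F := a3 S M e1 e2 e3 h m a I
  have k := G.K_le
  have r0 : (0 : ℝ) ≤ ((r : ℝ) + 4) * 8 := by positivity
  have k0 := abs_nonneg (Kp j)
  have k1 := le_abs_self (Kp j)
  have n1 := G.N1.le
  have pw : ∀ j : ℕ, ((S.n : ℝ) ^ η') ^ j = (S.n : ℝ) ^ (η' * j) := fun j =>
    (rpow_mul_natCast G.N0.le _ _).symm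
  subst e1 e2 e3
  suffices H : Cx (Kf S.C) K' ((S.n : ℝ) ^ η') r (r + p + 1) p S M m a ∧
      (S.n : ℝ) ^ (D * (S.A + 1)) ≤ ((S.n : ℝ) ^ η') ^ j ∧
      ((S.n : ℝ) ^ η') ^ (q + 40) ≤ (S.n : ℝ) ^ η from
    ⟨K', _, r, r + p + 1, j, ⟨hp ▸ H.1, H.2.1, by linarith⟩, H.2.2⟩
  refine ⟨⟨F, hKC, h1, fun t k0 k1 B LL hL => ?_,
    fun t Λ b B hΛ H => ?_, fun t' LL j0 j1 j2 a0 a1 x v w3 Λ c ρ R P B => ?_, G.num_le,
    by linarith, by linarith, G.C_le h, by linarith, G.A_le, G.log_le, by linarith, hA, ?_, ?_,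
    ?_, ?_⟩, ?_, ?_⟩
  · obtain ⟨t', j2, R⟩ := a1 S M rfl rfl rfl h m a I t k0 k1 B LL hL
    exact ⟨t', j2, Ric.monoK R (by nlinarith)⟩
  · obtain ⟨k, u, θ, ρ, U, b1, b2⟩ := a2 S M rfl rfl rfl h m a I t Λ p b B hΛ H
    have := B.t0
    exact ⟨k, u, θ, ρ, U, b1.trans (by gcongr; linarith), b2.trans (by gcongr; linarith)⟩
  · exact hS _ _ _ _ _ _ t' LL j0 j1 j2 a0 a1 x v w3 _ Λ c ρ (dat F.lg) R (by linarith) P B
  · rw [pw]
    refine (rpow_le_rpow_of_exponent_le n1 ?_).trans (rpow_one _).le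
    have := min_le_right η 1
    have : (0 : ℝ) ≤ η' * q := by positivity
    push_cast
    linarith
  · rw [pw, ← rpow_natCast]
    refine rpow_le_rpow_of_exponent_le n1 ?_
    have := Nat.le_ceil (((S.A : ℝ) + 3) / η')
    rw [div_le_iff₀ e0] at this
    push_cast
    linarith
  · calc 2 * p ≤ 2 * 2 ^ p := Nat.mul_le_mul_left 2 Nat.lt_two_pow_self.le
      _ = 2 ^ (p + 1) := by ring
      _ ≤ _ := Nat.pow_le_pow_right (by norm_num) (by omega)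
  · exact Nat.lt_two_pow_self.le.trans (Nat.pow_le_pow_right (by norm_num) (by omega))
  · rw [pw, ← rpow_natCast]
    refine rpow_le_rpow_of_exponent_le n1 ?_
    have := Nat.le_ceil (((D * (S.A + 1) : ℕ) : ℝ) / η')
    rw [div_le_iff₀ e0] at this
    linarith
  · rw [pw]
    refine rpow_le_rpow_of_exponent_le n1 ?_
    have := min_le_left η 1
    push_cast
    linarith

variable {K K' lam : ℝ} {r i j D : ℕ} {Kp : ℕ → ℝ} {S : Sc} {M : Md} {m : ℕ} {a : ℝ}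

/-- the tail level -/
def tlD (S : Sc) (D : ℕ) : ℝ := ((S.n : ℝ) ^ (D * (S.A + 1)))⁻¹

theorem tlD_nn (S : Sc) (D : ℕ) : 0 ≤ tlD S D := by unfold tlD; positivity

namespace Big

variable (X : Big K K' lam r i j D Kp S M m a)
include X

theorem l1 : 1 ≤ lam := X.cx.l1

theorem tail {p : ℕ} (hp : j ≤ p) : 1 / lam ^ p ≤ tlD S D := by
  have n1 := X.cx.fn.n1
  rw [one_div]
  exact inv_anti₀ (by positivity) (X.big.trans (pow_le_pow_right₀ X.l1 hp))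

omit X in
theorem two_pow (j : ℕ) : ∃ p, 2 ^ j = p + 1 ∧ j ≤ p :=
  ⟨2 ^ j - 1, by have := Nat.lt_two_pow_self (n := j); omega,
    by have := Nat.lt_two_pow_self (n := j); omega⟩

/-- excess of a pair from the moment `2 · 2 ^ j` -/
theorem env {k : ℕ} {c B q e : ℝ} (hB : 0 < B) (hc : |c| ≤ 1) (he : |c - q| + 2 * lam * B ≤ e)
    (H : M.E2 m a (fun R => (R - c) ^ (2 * 2 ^ j)) k ≤ B ^ (2 * 2 ^ j)) :
    M.E2 m a (fun R => max (|R - q| - e) 0) k ≤ tlD S D := by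
  have l1 := X.l1
  obtain ⟨p, e1, e2⟩ := two_pow j
  rcases le_total B 1 with h | h
  · rw [e1] at H
    refine (env_pair' (l := lam) hB (by linarith) (by nlinarith) H).trans
      (le_trans ?_ (X.tail (by omega : j ≤ 2 * p + 1)))
    exact div_le_div_of_nonneg_right h (by positivity)
  · refine (E2_le (fun R hR => max_le ?_ le_rfl) k).trans (tlD_nn S D)
    have := abs_sub_le R c q
    have := abs_sub R c
    nlinarith

end Big

/-- `QLowS` with tails -/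
def QLowB (D : ℕ) : Prop := CL fun _ Λ S M m a =>
  ∀ Λ₀ t, 0 < t → M.s S.jl ≤ t → S.w3 t ≤ t ^ 3 → Crude Λ₀ S M m a t S.jl → ∀ k q e,
    |q| + Λ * Λ₀ * max (M.z k) t ≤ e → M.E2 m a (fun R => max (|R - q| - e) 0) k ≤ tlD S D

theorem kf_one (C : ℝ) : 1 ≤ 9 * (2 * max C 1 ^ 2) * max C 1 ^ 3 := by
  have h1 : 1 ≤ max C 1 ^ 3 := one_le_pow₀ (le_max_right C 1)
  have h2 : 1 ≤ max C 1 ^ 2 := one_le_pow₀ (le_max_right C 1)
  nlinarith

/-- crude envelope at a fixed size -/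
theorem Big.low (X : Big K K' lam r i j D Kp S M m a) (hK : 9 * (2 * S.C ^ 2) * S.C ^ 3 ≤ K)
    {Λ₀ t : ℝ} (h0 : 0 < t) (hs : M.s S.jl ≤ t) (hw : S.w3 t ≤ t ^ 3)
    (Cr : Crude Λ₀ S M m a t S.jl) (k : ℕ) {q e : ℝ}
    (he : |q| + lam ^ 42 * Λ₀ * max (M.z k) t ≤ e) :
    M.E2 m a (fun R => max (|R - q| - e) 0) k ≤ tlD S D := by
  have l0 := X.cx.l0
  have L1 := Cr.1
  have m0 : 0 < max (M.z k) t := h0.trans_le (le_max_right _ _)
  have b0 : 0 < lam ^ 40 * Λ₀ * max (M.z k) t := by positivity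
  refine X.env (c := 0) b0 (by simp) ?_
    (by simpa only [sub_zero] using (X.cx.low hK le_rfl h0 hs hw Cr k).2)
  rw [zero_sub, abs_neg]
  refine le_trans (add_le_add_right ?_ _) he
  calc _ ≤ lam * lam * (lam ^ 40 * Λ₀ * max (M.z k) t) := by gcongr; linarith
    _ = _ := by ring

/-- **crude envelopes with tail `n ^ (-D (A + 1))`** -/
theorem env_cl (D : ℕ) : QLowB D :=
  (cx_big (fun C => 9 * (2 * max C 1 ^ 2) * max C 1 ^ 3) kf_one D 2 fun _ => 0).mono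
    fun _ Λ S M m a _ _ h _ ⟨K', lam, r, i, j, X, hΛ⟩ Λ₀ t h0 hs hw Cr k q e he =>
    X.low (by rw [max_eq_left h.C1]) h0 hs hw Cr k (le_trans (by
      have := Cr.1
      have := h0.trans_le (le_max_right (M.z k) t)
      gcongr) he)

/-- `QSyncS'` with tails: inner nodes -/
def QSyncB (D : ℕ) : Prop := ∀ K : ℝ, 1 ≤ K → CL fun _ Λ S M m a =>
  ∀ Λ₀ t k0 k1 c ρ, QH' K Λ₀ S M m a t k0 k1 c ρ → ∀ k q e, Inn K S t k0 k1 k → |c k| ≤ 1 →
    0 < ρ k → |c k - q| + Λ * Λ₀ * ρ k ≤ e → M.E2 m a (fun R => max (|R - q| - e) 0) k ≤ tlD S D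

theorem env_syn (D : ℕ) : QSyncB D := fun K hK =>
  (cx_big (fun C => 9 * K * max C 1 ^ 3) (fun C => by
    have : 1 ≤ max C 1 ^ 3 := one_le_pow₀ (le_max_right C 1)
    nlinarith) D 2 fun _ => 0).mono
    fun _ Λ S M m a _ _ h _ ⟨K', lam, r, i, j, X, hΛ⟩ Λ₀ t k0 k1 c ρ H k q e hk hc h0 he => by
    have l0 := X.cx.l0
    have L1 := H.crude.1
    refine X.env (B := lam ^ 40 * Λ₀ * ρ k) (by positivity) hc (le_trans (add_le_add_right ?_ _) he)
      ((X.cx.qo hK (by rw [max_eq_left h.C1]) le_rfl H).pair k hk)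
    calc _ ≤ lam * lam * (lam ^ 40 * Λ₀ * ρ k) := by gcongr; linarith
      _ = lam ^ (2 + 40) * Λ₀ * ρ k := by ring
      _ ≤ _ := by gcongr

end Crest.Agent.T156.Alt.CIn12

end
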