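import Crest.Agent.T156.LP_62
import Crest.Agent.T156.QBig_12

/-!
# Row 156: `BlkS`, `TopBS` of `LP_62` with tails (helper12); statements and weakening
-/

set_option autoImplicit false

noncomputable section

namespace Crest.Agent.T156.Alt.R62

open MeasureTheory Real Finset Filter

/-- `G` is an envelope of `|R - q k|` with tail `n ^ (-3 (A + 1))` -/
def Env (S : Sc) (M : Md) (m : ℕ) (a : ℝ) (k : ℕ) (G : ℝ) : Prop :=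
  M.E2 m a (fun R => max (|R - M.q k| - G) 0) k ≤ CIn12.tlD S 3

theorem Env.mono {S : Sc} {M : Md} {m : ℕ} {a : ℝ} {k : ℕ} {G G' : ℝ} (h : Env S M m a k G)
    (e : G ≤ G') : Env S M m a k G' :=
  (Md67.E2_mono (fun _ _ => max_le_max (by linarith) le_rfl) k).trans h

/-- `BlkS` with the envelope -/
def BlkE : Prop := ∀ p : ℕ, 4 ≤ p → CL fun E Λ S M m a => ∀ l Φ P l0 Λ₀ Λ₁ Pt Vt u1 V4,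
  KN S M E l Φ P l0 Λ₀ Λ₁ Pt Vt u1 V4 → LK S M m a Φ P l0 Λ₁ Pt Vt u1 →
  ∀ t, l0 ≤ t → t ≤ T0 S M → ∃ G : ℕ → ℝ, (∀ k, 0 < G k ∧ G k ≤ Λ * l) ∧
    (∀ k ∈ sb S M t (2 * t), (M.E2 m a (fun R => (R - M.q k) ^ (2 * p)) k ≤ G k ^ (2 * p) ∧
      M.Mo m a p (fun x => M.rP m a k x - M.q k) (G k)) ∧ Env S M m a k (G k)) ∧
    ∑ k ∈ sb S M t (2 * t), M.dz m a k * G k ^ 2 ≤ Λ * P t ∧
    ∑ k ∈ sb S M t (2 * t), M.dz m a k * ja M m a 0 k ≤ Λ * S.w3 t * max t l ∧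
    ∑ k ∈ sb S M t (2 * t), M.dz m a k * ja M m a 2 k ≤ Λ * S.w3 t * P t ∧
    ∑ k ∈ sb S M t (2 * t), M.dz m a k * ja M m a 4 k ≤ Λ * S.w3 t * (P t * l ^ 2)

/-- `TopBS` with the envelope -/
def TopBE : Prop := ∀ p : ℕ, 4 ≤ p → CL fun E Λ S M m a => ∀ l Φ P l0 Λ₀ Λ₁ Pt Vt u1 V4,
  KN S M E l Φ P l0 Λ₀ Λ₁ Pt Vt u1 V4 → LK S M m a Φ P l0 Λ₁ Pt Vt u1 →
  ∃ G : ℕ → ℝ, (∀ k, 0 < G k) ∧ (∀ k < S.J, G k ≤ Λ * l) ∧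
    (∀ k ∈ tz S M u1, (M.E2 m a (fun R => (R - M.q k) ^ (2 * p)) k ≤ G k ^ (2 * p) ∧
      M.Mo m a p (fun x => M.rP m a k x - M.q k) (G k)) ∧ Env S M m a k (G k)) ∧
    ∑ k ∈ tz S M u1, M.dz m a k * G k ^ 2 ≤ Λ * Pt ∧
    ∑ k ∈ tz S M u1, M.dz m a k * G k ^ 4 ≤ Λ * V4 ∧
    ∑ k ∈ tz S M u1, M.dz m a k * ja M m a 0 k ≤ Λ * Λ₀ * S.w3 1 ∧
    ∑ k ∈ tz S M u1, M.dz m a k * ja M m a 2 k ≤ Λ * Λ₀ * S.w3 1 * Pt ∧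
    ∑ k ∈ tz S M u1, M.dz m a k * ja M m a 4 k ≤ Λ * Λ₀ * S.w3 1 * V4

theorem BlkE.blkS (h : BlkE) : BlkS := fun p hp => (h p hp).mono
  fun _ _ _ _ _ _ _ _ _ _ H l Φ P l0 Λ₀ Λ₁ Pt Vt u1 V4 h1 h2 t h3 h4 =>
    (H l Φ P l0 Λ₀ Λ₁ Pt Vt u1 V4 h1 h2 t h3 h4).imp fun _ G =>
      ⟨G.1, fun k hk => (G.2.1 k hk).1, G.2.2⟩

theorem TopBE.topBS (h : TopBE) : TopBS := fun p hp => (h p hp).mono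
  fun _ _ _ _ _ _ _ _ _ _ H l Φ P l0 Λ₀ Λ₁ Pt Vt u1 V4 h1 h2 =>
    (H l Φ P l0 Λ₀ Λ₁ Pt Vt u1 V4 h1 h2).imp fun _ G =>
      ⟨G.1, G.2.1, fun k hk => (G.2.2.1 k hk).1, G.2.2.2⟩

/-- **envelope kit**: `MK` for an envelope `G` -/
def MomE : Prop := ∀ p : ℕ, 4 ≤ p → CL fun E Λ S M m a => ∀ l Φ P l0 Λ₀ Λ₁ Pt Vt u1 V4,
  KN S M E l Φ P l0 Λ₀ Λ₁ Pt Vt u1 V4 → LK S M m a Φ P l0 Λ₁ Pt Vt u1 →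
  Crude Λ S M m a l S.jl ∧ ∃ G, MK S M p Λ m a l Φ P l0 Λ₀ Pt u1 V4 G ∧
    ∀ k, S.jl ≤ k → k ≤ M.N → Env S M m a k (G k)

end Crest.Agent.T156.Alt.R62

end
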