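import Crest.Agent.T156.CInC_12
import Crest.Agent.T156.LPe_12
import Crest.Agent.T156.ErrP_35

/-!
# Row 156, block C: the inputs `CI` / `Ok0` on the class from a moment kit with tails (helper12)
-/

set_option autoImplicit false
set_option linter.unusedSectionVars false

noncomputable section

namespace Crest.Agent.T156.Alt.CIn12

open MeasureTheory Real Finset
open Crest.Agent.T156.Cas Crest.Agent.T156.Cas.C40 Crest.Agent.T156.Alt.Md67
open Crest.Agent.T156.Alt.R62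

variable {S : Sc} {M : Md} {m : ℕ} {a : ℝ} {ρ : ℕ → ℝ} {J : ℕ} {W : Option (ℕ → ℝ)} {E : Ev}

/-- **`Ok0`** -/
theorem CI.ok0 {τ0 : ℝ} (H : CI τ0 M m a ρ J W E) : Ok0 (cd M m a ρ J W E) τ0 :=
  ⟨H.lg.m0, H.c_ook, H.lg.monoL, H.c_cut, H.c_top, H.c_tau, H.c_qlo, H.X1, H.c_x1, H.c_h1, H.c_stt,
    H.tl0, H.c_envL, envU_cd H.envU, fun _ => H.eX _, H.c_emono, H.c_esc, H.c_wk0, H.c_wk1, H.c_qe,
    H.c_wkp, H.c_wg0, fun _ => H.gF _⟩

/-- a smaller `G0` -/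
theorem CI.setG0 {τ0 : ℝ} (H : CI τ0 M m a ρ J W E) {G : ℕ → ℝ} (h : An G) (e : ∀ k, G k ≤ E.F0 k)
    (s : SqI M m a ρ J (M.dz m a) G E.f0) : CI τ0 M m a ρ J W { E with G0 := G } :=
  { H with aG0 := h, gF := e, sq0 := s }

/-- another test measure -/
theorem CI.setW {τ0 : ℝ} (H : CI τ0 M m a ρ J W E) {ω F f : ℕ → ℝ} (hF : An F) (hf : An f)
    (v : VarI M m a J ω f) (s : SqI M m a ρ J ω F f) :
    CI τ0 M m a ρ J (some ω) { E with F1 := F, f1 := f } :=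
  { H with stt := fun h => absurd h (Option.some_ne_none _), aF1 := hF, af1 := hf, vp1 := v
           sq1 := s }

/-- crude envelopes at the level `l` -/
def LowE (S : Sc) (M : Md) (m : ℕ) (a Λ l : ℝ) : Prop := ∀ k q e, |q| + Λ * max (M.z k) l ≤ e →
  M.E2 m a (fun R => max (|R - q| - e) 0) k ≤ tlD S 3

theorem LowE.mono {Λ Λ' l l' : ℝ} (h : LowE S M m a Λ l) (h0 : 0 ≤ l) (Λ0 : 0 ≤ Λ') (e : Λ ≤ Λ')
    (e' : l ≤ l') : LowE S M m a Λ' l' := fun k q x hx => h k q x (le_trans (add_le_add_right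
  (mul_le_mul e (max_le_max le_rfl e') (h0.trans (le_max_right _ _)) Λ0) _) hx)

/-- `MomE` with the crude envelopes -/
def MomF : Prop := ∀ p : ℕ, 4 ≤ p → CL fun E Λ S M m a => ∀ l Φ P l0 Λ₀ Λ₁ Pt Vt u1 V4,
  KN S M E l Φ P l0 Λ₀ Λ₁ Pt Vt u1 V4 → LK S M m a Φ P l0 Λ₁ Pt Vt u1 →
  C33.Fn S M m a ∧ 0 < l ∧ LowE S M m a (Λ ^ 2) l ∧ Crude Λ S M m a l S.jl ∧
    ∃ G, MK S M p Λ m a l Φ P l0 Λ₀ Pt u1 V4 G ∧ ∀ k, S.jl ≤ k → k ≤ M.N → Env S M m a k (G k)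

theorem cl_fn : CL fun _ _ S M m a => C33.Fn S M m a :=
  (QS98.cx_ev (fun _ => 1) (fun _ => le_rfl) 0).mono
    fun _ _ _ _ _ _ _ _ _ _ ⟨_, _, _, _, X, _⟩ => X.fn

theorem momF_of (h : MomE) : MomF := fun p hp => (((h p hp).and (env_cl 3)).and cl_fn).mono
  fun E Λ S M m a hE _ _ _ ⟨⟨H, L⟩, F⟩ l Φ P l0 Λ₀ Λ₁ Pt Vt u1 V4 K LL => by
    obtain ⟨c, G⟩ := H l Φ P l0 Λ₀ Λ₁ Pt Vt u1 V4 K LL
    have s0 : 0 < M.s S.jl := (F.s_nonneg 0).trans_lt ((F.s_lt (by have := F.i2; omega)).trans_le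
      (F.sm (F.i0.trans F.i1)))
    have l0' : 0 < l := by linarith [K.jl, K.l0l]
    have l1 : l ≤ S.C := by nlinarith [K.l1, F.C1]
    refine ⟨F, l0', fun k q e he => L Λ l l0' (by linarith [K.jl, K.l0l])
      (K.w0 l (by linarith [K.l0l]) l1) c k q e (by rwa [← sq]), c, G⟩

/-- the envelopes: crude level `l` with factor `lam`, moment envelope `G` -/
def evK (S : Sc) (M : Md) (m : ℕ) (a : ℝ) (J : ℕ) (W : Option (ℕ → ℝ)) (lam l : ℝ)
    (G f0 f1 : ℕ → ℝ) : Ev where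
  X := lam * max (M.z (J - 1)) l
  e := fun k => lam * max (M.z (max k (J - 1))) l
  tl := tlD S 3
  F0 := fun k => 3 * ∑ t ∈ tlP M J k, M.dz m a t * G t
  F1 := fun k => 3 * ∑ t ∈ tlP M J k, |omP W t| * G t
  f0 := f0
  f1 := f1
  Z := 0
  G0 := fun k => 3 * ∑ t ∈ tlP M J k, M.dz m a t * G t

/-- moment envelope above the cut -/
structure GE (S : Sc) (M : Md) (m : ℕ) (a : ℝ) (J p : ℕ) (G : ℕ → ℝ) : Prop where
  pos : ∀ k, J ≤ k → k < M.N → 0 < G k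
  mom : ∀ k, J ≤ k → k < M.N → M.E2 m a (fun R => (R - M.q k) ^ (2 * p)) k ≤ G k ^ (2 * p)
  env : ∀ k, J ≤ k → k < M.N → Env S M m a k (G k)

theorem ge_mk {p : ℕ} {Λ l Φ l0 Λ₀ Pt u1 V4 : ℝ} {P : ℝ → ℝ} {G : ℕ → ℝ}
    (K : MK S M p Λ m a l Φ P l0 Λ₀ Pt u1 V4 G) (h : ∀ k, S.jl ≤ k → k ≤ M.N → Env S M m a k (G k))
    (hJ : S.jl ≤ J) : GE S M m a J p G :=
  ⟨fun k _ _ => K.pos k, fun k h1 h2 => K.mom k (hJ.trans h1) h2.le,
    fun k h1 h2 => h k (hJ.trans h1) h2.le⟩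

namespace GE

variable {p : ℕ} {G : ℕ → ℝ} (H : GE S M m a J p G)
include H

theorem abs_le {i k : ℕ} (hi : i ≤ 2 * p) (h1 : J ≤ k) (h2 : k < M.N) :
    M.E2 m a (fun R => |R - M.q k| ^ i) k ≤ 2 ^ (i + 1) * G k ^ i := by
  simpa using mom_pair (q := M.q k) (H.pos k h1 h2) hi (H.mom k h1 h2)

theorem sq_le (hp : 1 ≤ p) {k : ℕ} (h1 : J ≤ k) (h2 : k < M.N) :
    M.E2 m a (fun R => (R - M.q k) ^ 2) k ≤ (3 * G k) ^ 2 := by
  have := H.abs_le (i := 2) (by omega) h1 h2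
  simp only [sq_abs, show (2 : ℝ) ^ (2 + 1) = 8 by norm_num] at this
  nlinarith [sq_nonneg (G k)]

/-- `u i ≤ 2 ^ (i + 1) G ^ i` -/
theorem u_le {i k : ℕ} (hi : i ≤ 2 * p) (h1 : J ≤ k) (h2 : k < M.N) :
    (cd M m a M.q J W E).u i (k + 1) ≤ 2 ^ (i + 1) * G k ^ i := by
  rw [cd_u m a _ W E i h1 h2]; exact H.abs_le hi h1 h2

/-- `g ≤ 3 G` -/
theorem g_le (hp : 2 ≤ p) {k : ℕ} (h1 : J ≤ k) (h2 : k < M.N) :
    (cd M m a M.q J W E).g (k + 1) ≤ 3 * G k := by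
  have g0 := H.pos k h1 h2
  have h3 : (cd M m a M.q J W E).u 3 (k + 1) ≤ (3 * G k) ^ 3 :=
    (H.u_le (by omega) h1 h2).trans (by
      rw [show (2 : ℝ) ^ (3 + 1) = 16 by norm_num]; nlinarith [pow_pos g0 3])
  have h4 : 0 ≤ (cd M m a M.q J W E).u 3 (k + 1) := by
    rw [cd_u m a _ W E 3 h1 h2]
    exact (E2_const 0 k).ge.trans (E2_mono (fun _ _ => by positivity) k)
  refine (rpow_le_rpow h4 h3 (by norm_num)).trans_eq ?_
  rw [one_div]
  exact pow_rpow_inv_natCast (by positivity) three_ne_zero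

theorem sqrt_u2 (hp : 1 ≤ p) {k : ℕ} (h1 : J ≤ k) (h2 : k < M.N) :
    √((cd M m a M.q J W E).u 2 (k + 1)) ≤ 3 * G k :=
  sqrt_le_iff.2 ⟨by linarith [H.pos k h1 h2], (H.u_le (by omega) h1 h2).trans
    (by rw [show (2 : ℝ) ^ (2 + 1) = 8 by norm_num]; nlinarith [sq_nonneg (G k)])⟩

theorem sqrt_u4 (hp : 2 ≤ p) {k : ℕ} (h1 : J ≤ k) (h2 : k < M.N) :
    √((cd M m a M.q J W E).u 4 (k + 1)) ≤ 6 * G k ^ 2 :=
  sqrt_le_iff.2 ⟨by positivity, (H.u_le (by omega) h1 h2).trans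
    (by rw [show (2 : ℝ) ^ (4 + 1) = 32 by norm_num]; nlinarith [sq_nonneg (G k ^ 2)])⟩

theorem abs_del (hp : 1 ≤ p) {k : ℕ} (h1 : J ≤ k) (h2 : k < M.N) : |M.del m a k| ≤ 4 * G k := by
  have h := H.abs_le (i := 1) (by omega) h1 h2
  rw [show (2 : ℝ) ^ (1 + 1) = 4 by norm_num, pow_one (G k)] at h
  have e : M.del m a k = M.E2 m a (fun R => R + -M.q k) k := by
    rw [E2_add, E2_const]; rfl
  have e' : -M.del m a k = M.E2 m a (fun R => -1 * (R + -M.q k)) k := by rw [E2_mul, e]; ring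
  have k1 : M.del m a k ≤ M.E2 m a (fun R => |R - M.q k| ^ 1) k :=
    e ▸ E2_mono (fun r _ => by rw [pow_one]; exact le_abs_self _) k
  have k2 : -M.del m a k ≤ M.E2 m a (fun R => |R - M.q k| ^ 1) k :=
    e' ▸ E2_mono (fun r _ => by rw [pow_one]; linarith [neg_abs_le (r - M.q k)]) k
  exact _root_.abs_le.2 ⟨by linarith, by linarith⟩

theorem sqI (hp : 1 ≤ p) (μ f : ℕ → ℝ) :
    SqI M m a M.q J μ (fun k => 3 * ∑ t ∈ tlP M J k, |μ t| * G t) f :=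
  .inl ⟨fun k => 3 * G k, fun k h1 h2 => ⟨by linarith [H.pos k h1 h2], H.sq_le hp h1 h2⟩,
    fun k => le_of_eq (by beta_reduce; rw [mul_sum]; exact sum_congr rfl fun _ _ => by ring)⟩

theorem an (μ : ℕ → ℝ) : An fun k => 3 * ∑ t ∈ tlP M J k, |μ t| * G t :=
  (An.tail fun k h1 h2 => mul_nonneg (abs_nonneg _) (H.pos k h1 h2).le).mul (by norm_num)

/-- Minkowski form of the centred bounds -/
theorem varI (hp : 1 ≤ p) (L : Lg M m a) (μ : ℕ → ℝ) :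
    VarI M m a J μ fun k => 6 * ∑ t ∈ tlP M J k, |μ t| * G t :=
  varI_mink L (s := fun k => 3 * G k) (c := M.q)
    (fun k h1 h2 => ⟨by linarith [H.pos k h1 h2], H.sq_le hp h1 h2⟩)
    fun k => le_of_eq (by rw [mul_sum, mul_sum]; exact sum_congr rfl fun _ _ => by ring)

end GE

/-- data of the envelopes on a member of the class -/
structure KD (S : Sc) (M : Md) (m : ℕ) (a : ℝ) (J : ℕ) (Λ lam l τ0 : ℝ) : Prop where
  fn : C33.Fn S M m a
  J0 : S.j0 ≤ J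
  JN : J ≤ M.N
  l0 : 0 < l
  low : LowE S M m a Λ l
  Λ0 : 0 ≤ Λ
  lam1 : Λ + 4 * S.C ^ 3 ≤ lam
  tau : M.b ≤ τ0
  X1 : lam * max (M.z (J - 1)) l ≤ 1
  HJ : M.H (J - 1) ≤ l ^ 3
  Hp : M.H S.Jp ≤ l

namespace KD

variable {Λ lam l τ0 : ℝ} (K : KD S M m a J Λ lam l τ0)
include K

theorem lam4 : 4 ≤ lam := by linarith [K.lam1, K.Λ0, one_le_pow₀ (n := 3) K.fn.C1]

theorem q_le {k : ℕ} (h1 : J ≤ k) (h2 : k < M.N) : M.q k ≤ 2 * S.C ^ 2 * M.z k := by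
  rcases le_total k S.Jp with h | h
  · exact (q_le_s K.fn.toCl h2.le).trans (K.fn.s_le_z' (K.J0.trans h1) h)
  · rw [K.fn.top k h]
    linarith [q_le_one (M := M) k, one_le_pow₀ (n := 2) K.fn.C1]

theorem e_eq {k : ℕ} (h1 : J ≤ k) (W : Option (ℕ → ℝ)) (G f0 f1 : ℕ → ℝ) :
    (evK S M m a J W lam l G f0 f1).e k = lam * max (M.z k) l := by
  simp only [evK, max_eq_left (by omega : J - 1 ≤ k)]

theorem e_le (W : Option (ℕ → ℝ)) (G f0 f1 : ℕ → ℝ) (k : ℕ) :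
    (evK S M m a J W lam l G f0 f1).e k ≤ lam := by
  have l4 := K.lam4
  have : l ≤ 1 := by nlinarith [K.X1, le_max_right (M.z (J - 1)) l, K.l0]
  exact mul_le_of_le_one_right (by linarith) (max_le (K.fn.leg.z1 _) this)

/-- **the inputs of block C** -/
theorem ci {p : ℕ} {G f0 f1 : ℕ → ℝ} (H : GE S M m a J p G) (hp : 1 ≤ p) (a0 : An f0) (a1 : An f1)
    (v0 : VarI M m a J (M.dz m a) f0) (v1 : VarI M m a J (omP W) f1)
    (st : W = none → ∀ k, J ≤ k → k < M.N →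
      |GamC M m a M.q J k - M.q k| ≤ (lam * max (M.z (J - 1)) l) ^ 3) :
    CI τ0 M m a M.q J W (evK S M m a J W lam l G f0 f1) := by
  have F := K.fn
  have L := F.lg
  have l4 := K.lam4
  have l0 := K.l0
  have C1 := F.C1
  have C2 : S.C ^ 2 ≤ S.C ^ 3 := pow_le_pow_right₀ C1 (by norm_num)
  have C3 := one_le_pow₀ (n := 3) C1
  have h1 := K.lam1
  have Λ0 := K.Λ0
  have mx : ∀ x, 0 < max x l := fun x => l0.trans_le (le_max_right _ _)
  have e0 : (fun k => 3 * ∑ t ∈ tlP M J k, M.dz m a t * G t) =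
      fun k => 3 * ∑ t ∈ tlP M J k, |M.dz m a t| * G t := by
    simp only [abs_of_nonneg (L.dz_nonneg _)]
  have aF : An (fun k => 3 * ∑ t ∈ tlP M J k, M.dz m a t * G t) := by rw [e0]; exact H.an _
  have sF : SqI M m a M.q J (M.dz m a) (fun k => 3 * ∑ t ∈ tlP M J k, M.dz m a t * G t) f0 := by
    rw [e0]; exact H.sqI hp _ _
  have qz : ∀ k, J ≤ k → k < M.N → M.q k ≤ 2 * S.C ^ 3 * max (M.z k) l := fun k k1 k2 =>
    (K.q_le k1 k2).trans (mul_le_mul (by linarith) (le_max_left _ _) (L.z_nonneg k) (by positivity))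
  refine ⟨L, top_cl F.toCl, rf_q F.toCl, K.JN, K.tau, K.X1,
    (le_max_left _ _).trans (le_mul_of_one_le_left (mx _).le (by linarith)),
    K.HJ.trans (pow_le_pow_left₀ l0.le ((le_max_right _ _).trans
      (le_mul_of_one_le_left (mx _).le (by linarith))) 3), st, tlD_nn S 3, fun k hk => ?_,
    fun k k1 k2 => ?_, fun k => ?_, fun k => ?_, fun k k1 k2 => ?_, fun k k1 k2 => ?_,
    aF, aF, a0, H.an _, a1, fun _ => le_rfl, ⟨G, H.env, fun k => ?_⟩, v0, v1,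
    sF, H.sqI hp _ _⟩
  · refine K.low k 0 _ ?_
    rw [abs_zero, zero_add]
    exact mul_le_mul (by linarith) (max_le_max (L.zm (by omega)) le_rfl) (mx _).le (by linarith)
  · refine K.low k _ _ ?_
    rw [K.e_eq k1, abs_of_nonneg (q_nonneg k)]
    nlinarith [qz k k1 k2, mx (M.z k)]
  · exact mul_le_mul_of_nonneg_left (max_le_max (L.zm (le_max_right _ _)) le_rfl) (by linarith)
  · exact mul_le_mul_of_nonneg_left (max_le_max (L.zm (max_le_max (Nat.le_succ k) le_rfl)) le_rfl)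
      (by linarith)
  · rw [K.e_eq k1]
    rcases le_total k S.Jp with h | h
    · refine (min_le_right _ _).trans ?_
      have b1 : tp M m k * M.q k ≤ S.C * (2 * S.C ^ 2 * max (M.z k) l) :=
        mul_le_mul ((tp_mem L.toLeg k).2.1.trans ((L.dm k2.le).trans F.b1))
          ((K.q_le k1 k2).trans (mul_le_mul_of_nonneg_left (le_max_left _ _) (by positivity)))
          (q_nonneg k) (by linarith)
      have b2 := (L.Hm h).trans (K.Hp.trans (le_max_right (M.z k) l))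
      nlinarith [le_max_left (M.z k) l, mx (M.z k)]
    · refine (min_le_left _ _).trans ?_
      rw [F.top k h]
      nlinarith [le_max_left 1 l]
  · rw [K.e_eq k1]
    nlinarith [qz k k1 k2, mx (M.z k)]
  · have := ((An.tail (M := M) (J := J) fun t t1 t2 =>
      mul_nonneg (L.dz_nonneg t) (H.pos t t1 t2).le).1 k)
    change _ ≤ 3 * _
    linarith

end KD

end Crest.Agent.T156.Alt.CIn12

end
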