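import Crest.Agent.T156.CInM_12
import Crest.Agent.T156.CeiG_88

/-!
# Row 156, block C: `CI` from a moment kit, field bound on the slope only (helper12)
-/

set_option autoImplicit false
set_option linter.unusedSectionVars false

noncomputable section

namespace Crest.Agent.T156.Alt.CIn12

open MeasureTheory Real Finset
open Crest.Agent.T156.Cas Crest.Agent.T156.Cas.C40 Crest.Agent.T156.Alt.Md67
open Crest.Agent.T156.Alt.R62

variable {S : Sc} {M : Md} {m : ℕ} {a : ℝ} {ρ : ℕ → ℝ} {J : ℕ} {W : Option (ℕ → ℝ)} {E : Ev}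

/-- **larger envelopes** -/
theorem CI.relax {τ0 : ℝ} (H : CI τ0 M m a ρ J W E) {X tl : ℝ} {e : ℕ → ℝ} (hX : E.X ≤ X)
    (X1 : X ≤ 1) (ht : E.tl ≤ tl) (he : ∀ k, J ≤ k → k < M.N → E.e k ≤ e k) (eX : ∀ k, X ≤ e k)
    (em : ∀ k, e k ≤ e (k + 1)) : CI τ0 M m a ρ J W { E with X := X, e := e, tl := tl } := by
  have X0 : 0 ≤ E.X := (H.lg.z_nonneg _).trans H.x1
  have X3 := pow_le_pow_left₀ X0 hX 3
  obtain ⟨g, g1, g2⟩ := H.ev0
  exact { H with
    X1 := X1, x1 := H.x1.trans hX, h1 := H.h1.trans X3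
    stt := fun h k k1 k2 => (H.stt h k k1 k2).trans X3
    tl0 := H.tl0.trans ht
    envL := fun k hk => (E2_mono (fun _ _ => max_le_max (sub_le_sub_left hX _) le_rfl) k).trans
      ((H.envL k hk).trans ht)
    envU := fun k k1 k2 => (E2_mono (fun _ _ => max_le_max (sub_le_sub_left (he k k1 k2) _) le_rfl)
      k).trans ((H.envU k k1 k2).trans ht)
    eX := eX, emono := em
    esc := fun k k1 k2 => (H.esc k k1 k2).trans (he k k1 k2)
    qe := fun k k1 k2 => (H.qe k k1 k2).trans (he k k1 k2)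
    ev0 := ⟨g, fun k k1 k2 => (g1 k k1 k2).trans ht, g2⟩ }

/-- the field on the slope, from the ceiling -/
theorem H_cei (F : C33.Fn S M m a) {G₁ : ℝ} (h : CeiG S M G₁) {k : ℕ} (h1 : S.jl < k)
    (h2 : k < S.J) : M.H k ≤ 4 * S.C ^ 3 * S.F * M.z k := by
  have C0 := F.C0
  have F0 := F.F0
  have v0 := F.v0
  have C1 := F.C1
  have key : ∀ j, S.jl + 1 ≤ j → j ≤ S.J → M.H j ≤ S.C * S.F * (M.s S.jl + j * S.v) := by
    intro j j1 j2
    induction j, j1 using Nat.le_induction with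
    | base =>
      refine h.bot.trans ?_
      rw [mul_assoc (S.C * S.F)]
      refine mul_le_mul_of_nonneg_left ?_ (by positivity)
      have := mul_le_of_le_one_left (F.s_nonneg S.jl) (F.ms_le_one (M.s S.jl))
      have : (0 : ℝ) ≤ ((S.jl + 1 : ℕ) : ℝ) * S.v := by positivity
      linarith
    | succ j hj ih =>
      have a1 := h.up j hj (by omega)
      have a2 := mul_le_mul_of_nonneg_left (F.ms_le_one (M.s j))
        (show 0 ≤ S.C * S.F * S.v by positivity)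
      have a3 := ih (by omega)
      push_cast
      linarith
  have i1 := F.i1
  have b1 := (F.sm h1.le).trans (F.s_le_z (by omega) h2)
  have b2 := F.z_lo (k := k) (by omega) h2
  have z0 := (F.z_pos k).le
  have b3 := mul_le_mul_of_nonneg_right (le_self_pow₀ C1 two_ne_zero) z0
  refine (key k h1 h2.le).trans ?_
  calc _ ≤ S.C * S.F * (4 * S.C ^ 2 * M.z k) :=
        mul_le_mul_of_nonneg_left (by linarith) (by positivity)
    _ = _ := by ring

/-- data of the envelopes on a member of the class -/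
structure KD' (S : Sc) (M : Md) (m : ℕ) (a : ℝ) (J : ℕ) (Λ lam l τ0 c : ℝ) : Prop where
  fn : C33.Fn S M m a
  J0 : S.j0 ≤ J
  JN : J ≤ M.N
  l0 : 0 < l
  low : LowE S M m a Λ l
  Λ0 : 0 ≤ Λ
  c0 : 0 ≤ c
  lam1 : Λ + 4 * S.C ^ 3 + c ≤ lam
  tau : M.b ≤ τ0
  X1 : lam * max (M.z (J - 1)) l ≤ 1
  HJ : M.H (J - 1) ≤ (lam * max (M.z (J - 1)) l) ^ 3
  Hp : ∀ k, J ≤ k → k < S.J → M.H k ≤ c * max (M.z k) l

/-- `KD'` from the ceiling -/
theorem kd_cei {Λ lam l τ0 G₁ : ℝ} (F : C33.Fn S M m a) (h : CeiG S M G₁) (J0 : S.jl < J)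
    (JN : J ≤ M.N) (l0 : 0 < l) (low : LowE S M m a Λ l) (Λ0 : 0 ≤ Λ)
    (lam1 : Λ + 4 * S.C ^ 3 + 4 * S.C ^ 3 * S.F ≤ lam) (tau : M.b ≤ τ0)
    (X1 : lam * max (M.z (J - 1)) l ≤ 1) (HJ : M.H (J - 1) ≤ (lam * max (M.z (J - 1)) l) ^ 3) :
    KD' S M m a J Λ lam l τ0 (4 * S.C ^ 3 * S.F) := by
  have p : 0 ≤ 4 * S.C ^ 3 * S.F := by have := F.C0; have := F.F0; positivity
  exact ⟨F, F.i1.trans J0.le, JN, l0, low, Λ0, p, lam1, tau, X1, HJ, fun k k1 k2 =>
    (H_cei F h (by omega) k2).trans (mul_le_mul_of_nonneg_left (le_max_left _ _) p)⟩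

namespace KD'

variable {Λ lam l τ0 c : ℝ} (K : KD' S M m a J Λ lam l τ0 c)
include K

theorem lam4 : 4 ≤ lam := by linarith [K.lam1, K.Λ0, K.c0, one_le_pow₀ (n := 3) K.fn.C1]

theorem q_le {k : ℕ} (h1 : J ≤ k) : M.q k ≤ 2 * S.C ^ 2 * M.z k := by
  rcases le_total k S.Jp with h | h
  · exact (q_le_s K.fn.toCl (h.trans K.fn.i4.le)).trans (K.fn.s_le_z' (K.J0.trans h1) h)
  · rw [K.fn.top k h]
    linarith [q_le_one (M := M) k, one_le_pow₀ (n := 2) K.fn.C1]

theorem e_eq {k : ℕ} (h1 : J ≤ k) (W : Option (ℕ → ℝ)) (G f0 f1 : ℕ → ℝ) :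
    (evK S M m a J W lam l G f0 f1).e k = lam * max (M.z k) l := by
  simp only [evK, max_eq_left (by omega : J - 1 ≤ k)]

theorem l_le : lam * l ≤ 1 :=
  (mul_le_mul_of_nonneg_left (le_max_right _ _) (by linarith [K.lam4])).trans K.X1

theorem e_le (W : Option (ℕ → ℝ)) (G f0 f1 : ℕ → ℝ) (k : ℕ) :
    (evK S M m a J W lam l G f0 f1).e k ≤ lam := by
  have l4 := K.lam4
  have : l ≤ 1 := by nlinarith [K.l_le, K.l0]
  exact mul_le_of_le_one_right (by linarith) (max_le (K.fn.leg.z1 _) this)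

theorem e_nn (W : Option (ℕ → ℝ)) (G f0 f1 : ℕ → ℝ) (k : ℕ) :
    0 ≤ (evK S M m a J W lam l G f0 f1).e k :=
  mul_nonneg (by linarith [K.lam4]) (K.l0.le.trans (le_max_right _ _))

/-- **the inputs of block C** -/
theorem ci {p : ℕ} {G f0 f1 : ℕ → ℝ} (H : GE S M m a J p G) (hp : 1 ≤ p) (a0 : An f0) (a1 : An f1)
    (v0 : VarI M m a J (M.dz m a) f0) (v1 : VarI M m a J (omP W) f1)
    (st : W = none → ∀ k, J ≤ k → k < M.N →
      |GamC M m a M.q J k - M.q k| ≤ (lam * max (M.z (J - 1)) l) ^ 3) :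
    CI τ0 M m a M.q J W (evK S M m a J W lam l G f0 f1) := by
  have F := K.fn
  have L := F.lg
  have l4 := K.lam4
  have l0 := K.l0
  have C1 := F.C1
  have C2 : S.C ^ 2 ≤ S.C ^ 3 := pow_le_pow_right₀ C1 (by norm_num)
  have C3 := one_le_pow₀ (n := 3) C1
  have C4 : S.C ≤ S.C ^ 3 := le_self_pow₀ C1 three_ne_zero
  have h1 := K.lam1
  have Λ0 := K.Λ0
  have c0 := K.c0
  have mx : ∀ x, 0 < max x l := fun x => l0.trans_le (le_max_right _ _)
  have e0 : (fun k => 3 * ∑ t ∈ tlP M J k, M.dz m a t * G t) =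
      fun k => 3 * ∑ t ∈ tlP M J k, |M.dz m a t| * G t := by
    simp only [abs_of_nonneg (L.dz_nonneg _)]
  have aF : An (fun k => 3 * ∑ t ∈ tlP M J k, M.dz m a t * G t) := by rw [e0]; exact H.an _
  have sF : SqI M m a M.q J (M.dz m a) (fun k => 3 * ∑ t ∈ tlP M J k, M.dz m a t * G t) f0 := by
    rw [e0]; exact H.sqI hp _ _
  have qz : ∀ k, J ≤ k → M.q k ≤ 2 * S.C ^ 3 * max (M.z k) l := fun k k1 =>
    (K.q_le k1).trans (mul_le_mul (by linarith) (le_max_left _ _) (L.z_nonneg k) (by positivity))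
  refine ⟨L, top_cl F.toCl, rf_q F.toCl, K.JN, K.tau, K.X1,
    (le_max_left _ _).trans (le_mul_of_one_le_left (mx _).le (by linarith)), K.HJ, st, tlD_nn S 3,
    fun k hk => ?_, fun k k1 k2 => ?_, fun k => ?_, fun k => ?_, fun k k1 k2 => ?_,
    fun k k1 k2 => ?_, aF, aF, a0, H.an _, a1, fun _ => le_rfl, ⟨G, H.env, fun k => ?_⟩, v0, v1,
    sF, H.sqI hp _ _⟩
  · refine K.low k 0 _ ?_
    rw [abs_zero, zero_add]
    exact mul_le_mul (by linarith) (max_le_max (L.zm (by omega)) le_rfl) (mx _).le (by linarith)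
  · refine K.low k _ _ ?_
    rw [K.e_eq k1, abs_of_nonneg (q_nonneg k)]
    nlinarith [qz k k1, mx (M.z k)]
  · exact mul_le_mul_of_nonneg_left (max_le_max (L.zm (le_max_right _ _)) le_rfl) (by linarith)
  · exact mul_le_mul_of_nonneg_left (max_le_max (L.zm (max_le_max (Nat.le_succ k) le_rfl)) le_rfl)
      (by linarith)
  · rw [K.e_eq k1]
    rcases lt_or_ge k S.J with h | h
    · refine (min_le_right _ _).trans ?_
      have b1 : tp M m k * M.q k ≤ S.C * (2 * S.C ^ 2 * max (M.z k) l) :=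
        mul_le_mul ((tp_mem L.toLeg k).2.1.trans ((L.dm k2.le).trans F.b1))
          ((K.q_le k1).trans (mul_le_mul_of_nonneg_left (le_max_left _ _) (by positivity)))
          (q_nonneg k) (by linarith)
      have b2 := K.Hp k k1 h
      nlinarith [le_max_left (M.z k) l, mx (M.z k)]
    · refine (min_le_left _ _).trans ((F.z_top (k := k) (by omega)).trans ?_)
      exact mul_le_mul (by linarith) (le_max_left _ _) (L.z_nonneg k) (by linarith)
  · rw [K.e_eq k1]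
    nlinarith [qz k k1, mx (M.z k)]
  · have := ((An.tail (M := M) (J := J) fun t t1 t2 =>
      mul_nonneg (L.dz_nonneg t) (H.pos t t1 t2).le).1 k)
    change _ ≤ 3 * _
    linarith

end KD'

end Crest.Agent.T156.Alt.CIn12

end
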