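import Crest.Agent.T156.R1Fr_56
import Crest.Agent.T156.CLfC_24

/-!
# Row 156, R1: the leaves of the error table on the graded path (helper35)
-/

set_option autoImplicit false

noncomputable section

namespace Crest.Agent.T156.Alt.E35

open Real Finset
open Crest.Agent.T156.Alt.Md67 Crest.Agent.T156.Alt.R62 Crest.Agent.T156.Alt.R77
open Crest.Agent.T156.Alt.R82 Crest.Agent.T156.Alt.Lb24 Crest.Agent.T156.Alt.SD56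

/-- block data above the cut `jl + 1` -/
structure BQ (lam L l T c : ℝ) (S : Sc) (M : Md) (m : ℕ) (a : ℝ) (B : ℕ) (lev : ℕ → ℕ)
    (tt al A : ℕ → ℝ) : Prop where
  bp : BP M m a (S.jl + 1) B lev tt al A
  tm : Monotone tt
  t0 : S.jl * S.v ≤ tt 0
  tL : ∀ i, tt i ≤ lam ^ 3
  BL : (B : ℝ) ≤ lam ^ 3
  sz : ∀ i < B, (al i ^ 2 ≤ L * S.F * (max (tt i) l / (S.n * tt i * S.ms (tt i))) ∧
      al i ^ 2 ≤ L * (tt i ^ 2 * max (tt i) l ^ 2)) ∨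
    (tt i ≤ 4 * lam * (S.jl * S.v) ∧ al i ^ 2 ≤ L * (tt i ^ 2 * max (tt i) l ^ 2)) ∨
    (1 ≤ tt i ∧ al i ^ 2 ≤ T)
  z : ∀ k, S.jl < k → k < M.N → M.z k ≤ lam ^ 2 * tt (lev k)
  kv : ∀ k, S.jl < k → k < S.J - 1 → k * S.v ≤ 2 * tt (lev k)
  clk : ∀ e : ℕ → ℝ, (∀ k, 0 ≤ e k) → ∀ i,
    ∑ k ∈ bk M (S.jl + 1) lev i, dvP M m a M.q e (S.jl + 1) k ≤ e (S.jl + 1) + c * max (tt i) l

/-- **blocks** -/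
def BQS : Prop := ∀ (lam l Λ : ℝ) (D : ℕ) (S : Sc) (M : Md) (m : ℕ) (a : ℝ) (N : ℕ)
  (τ ε T K₁ L c : ℝ), Kc lam l Λ D S M m a → 8 * S.jl < S.J → Lb24.Top M m a (S.J - 1) N τ ε →
  lam ^ 24 * Λ ^ 2 ≤ L → lam ^ 3 * (τ + ε) ≤ T → 0 ≤ T → Rf M M.q → 0 ≤ K₁ →
  (∀ k, S.jl < k → k < S.J → S.C * M.q k + M.H k ≤ K₁ * max (M.z k) l) →
  6 * S.C * (K₁ + 2) ≤ c → S.C + M.H M.N + 2 ≤ c →
  ∃ B lev tt al A, BQ lam L l T c S M m a B lev tt al A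

/-- the lines of the first moment `N` -/
structure NL (δ : ℝ) (p : Pm) (S : Sc) (M : Md) (l Φ : ℝ) (P : ℝ → ℝ) (l0 Pt u1 N : ℝ) : Prop where
  N1 : l ^ 2 ≤ N
  N2 : ∀ x, l ≤ x → x ≤ T0 S M → x * P x ≤ N ^ 2
  N3 : Pt ≤ N ^ 2
  N4 : u1 ≤ N
  a3 : S.θ * N * Φ ≤ δ * n5 p
  a4 : ∀ u, l0 ≤ u → u ≤ T0 S M → S.ms u * P u * N ≤ δ * n5 p * u

/-- the sums of the table; `μ` is the scaled density -/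
structure Sums (E : ℝ) (p : Pm) (S : Sc) (M : Md) (m : ℕ) (x Φ N : ℝ) (G μ : ℕ → ℝ) : Prop where
  s1 : ∑ k ∈ Ioo S.jl M.N, M.dz m x k * G k ≤ E ^ 12 * N
  s2 : ∑ k ∈ Ioo S.jl M.N, M.dz m x k * μ k ≤ E ^ 12 * S.θ
  s3 : Φ * ∑ k ∈ Ioo S.jl M.N, M.dz m x k * (μ k * G k) ≤ E ^ 12 * (1 / E ^ 200 * n5 p)
  s4 : N * ∑ k ∈ Ioo S.jl M.N, M.dz m x k * (μ k * G k ^ 2) ≤ E ^ 12 * (1 / E ^ 200 * n5 p)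
  s5 : S.θ * ∑ k ∈ Ioo S.jl M.N, M.dz m x k * (|M.G k| * G k ^ 2) ≤ E ^ 12 * (1 / E ^ 200 * n5 p)
  s6 : ∑ k ∈ Ioo S.jl M.N, M.dz m x k * (|M.G k| * G k) ≤ E ^ 12 * Φ

/-- **sums** -/
def SumS : Prop := ∀ (E : ℝ) (p : Pm) (P : Pl) (t a a' Q : ℝ) (m : ℕ) (S : Sc) (l Φ : ℝ)
  (Pf : ℝ → ℝ) (l0 Λ₀ Pt u1 V4 : ℝ) (I : ℕ) (x N : ℝ) (G μ : ℕ → ℝ),
  Fr E p P t a a' Q m S l Φ Pf l0 Λ₀ Pt u1 V4 I →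
  BK E S (p.gst P t) m x l Φ Pf l0 Λ₀ Pt u1 V4 G →
  NL (1 / E ^ 200) p S (p.gst P t) l Φ Pf l0 Pt u1 N →
  ∑ k ∈ Ioo S.jl (p.gst P t).N, (p.gst P t).dz m x k *
    max (|(p.gst P t).G k| - (p.n : ℝ) ^ (-(1 : ℝ) / 6)) 0 ^ 2 ≤ E * S.θ ^ 2 * V4 →
  (∀ k, 0 ≤ μ k) → (∀ k, S.jl < k → μ k ≤ E ^ 2 * R82.mt p t ((p.gst P t).s k)) →
  (∀ k, T0 S (p.gst P t) ≤ (p.gst P t).s k → μ k = 0) →
  Sums E p S (p.gst P t) m x Φ N G μ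

end Crest.Agent.T156.Alt.E35

end
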