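import Crest.Agent.T156.CInR_12
import Crest.Agent.T156.ErrRD_35

/-!
# Row 156, block C: `Ok0`, `BD`, `Den`, `Tc`, `Nz` of a test datum from the kits (helper12)
-/

set_option autoImplicit false
set_option linter.unusedSectionVars false

noncomputable section

namespace Crest.Agent.T156.Alt.CIn12

open MeasureTheory Real Finset
open Crest.Agent.T156.Cas Crest.Agent.T156.Cas.C40 Crest.Agent.T156.Alt.Md67
open Crest.Agent.T156.Alt.R62 Crest.Agent.T156.Alt.Lb24 Crest.Agent.T156.Cas.C40.ErrL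

variable {S : Sc} {M : Md} {m : ℕ} {a : ℝ} {J : ℕ}

/-- the sums over the nodes `T` above the cut -/
structure Nm (M : Md) (m : ℕ) (a : ℝ) (T : Finset ℕ) (f γ G : ℕ → ℝ)
    (n1 n2 n4 b0 b1 b2 b4 c0 c1 c2 d1 d2 dm : ℝ) : Prop where
  n1 : ∑ k ∈ T, M.dz m a k * G k ≤ n1
  n2 : ∑ k ∈ T, M.dz m a k * G k ^ 2 ≤ n2
  n4 : ∑ k ∈ T, M.dz m a k * G k ^ 4 ≤ n4
  b0 : ∑ k ∈ T, M.dz m a k * |f k| ≤ b0
  b1 : ∑ k ∈ T, M.dz m a k * (|f k| * G k) ≤ b1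
  b2 : ∑ k ∈ T, M.dz m a k * (|f k| * G k ^ 2) ≤ b2
  b4 : ∑ k ∈ T, M.dz m a k * (|f k| * G k ^ 4) ≤ b4
  c0 : ∑ k ∈ T, M.dz m a k * (|f k| * γ k) ≤ c0
  c1 : ∑ k ∈ T, M.dz m a k * (|f k| * (γ k * G k)) ≤ c1
  c2 : ∑ k ∈ T, M.dz m a k * (|f k| * (γ k * G k ^ 2)) ≤ c2
  d1 : ∑ k ∈ T, M.dz m a k * (γ k * G k) ≤ d1
  d2 : ∑ k ∈ T, M.dz m a k * (γ k * G k ^ 2) ≤ d2
  dm : ∀ k ∈ T, M.dz m a k ≤ dm

/-- the test datum with density `f` and the envelopes of the kits -/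
abbrev dK (S : Sc) (M : Md) (m : ℕ) (a : ℝ) (J : ℕ) (lam l : ℝ) (f G : ℕ → ℝ) (B : ℕ)
    (lev : ℕ → ℕ) (al ab : ℕ → ℝ) : CD :=
  cd M m a M.q J (some fun k => M.dz m 0 k * f k)
    (evK S M m a J (some fun k => M.dz m 0 k * f k) lam l G (fun k => ph B al (lev k))
      fun k => ph B (fun i => ab i * al i) (lev k))

/-- the low number -/
def lowL (τ0 X tl : ℝ) : ℝ := (2 * τ0 ^ 2 + 1) * X ^ 3 + (15 * τ0 ^ 2 + 2) * √tl + 2 * tl

theorem ph_Sg {B : ℕ} {al : ℕ → ℝ} (h : ∀ i, 0 ≤ al i) (i : ℕ) : ph B al i ≤ Sg B al := by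
  rw [Sg, range_eq_Ico]; exact ph_anti h (Nat.zero_le i)

section
variable {ρ f : ℕ → ℝ} {W : Option (ℕ → ℝ)} {E : Ev} (L : Lg M m a)
include L

theorem dz0 {k : ℕ} (hk : 1 ≤ k) : M.dz m 0 k = M.dz m a k := by
  obtain ⟨k, rfl⟩ : ∃ j, k = j + 1 := ⟨k - 1, by omega⟩
  rw [dz_succ L.toLeg, dz_succ L.toLeg]

theorem I_le {F g : ℕ → ℝ} {c x : ℝ} (hc : 0 ≤ c)
    (h : ∀ k, J ≤ k → k < M.N → M.dz m a k ≠ 0 → F (k + 1) ≤ c * g k)
    (hx : ∑ k ∈ Ico J M.N, M.dz m a k * g k ≤ x) : (cd M m a ρ J W E).I F ≤ c * x := by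
  rw [cd_I]
  refine le_trans ?_ (mul_le_mul_of_nonneg_left hx hc)
  rw [mul_sum]
  refine sum_le_sum fun k hk => ?_
  rcases eq_or_ne (M.dz m a k) 0 with e | e
  · simp [e]
  · rw [mul_left_comm]
    exact mul_le_mul_of_nonneg_left (h k (mem_Ico.1 hk).1 (mem_Ico.1 hk).2 e) (L.dz_nonneg k)

theorem abs_om (hJ : 1 ≤ J) {k : ℕ} (hk : J ≤ k) :
    |omP (some fun k => M.dz m 0 k * f k) k| = M.dz m a k * |f k| := by
  rw [omP, abs_mul, dz0 L (hJ.trans hk), abs_of_nonneg (L.dz_nonneg k)]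

theorem Iw_le (hJ : 1 ≤ J) {F g : ℕ → ℝ} {c x : ℝ} (hc : 0 ≤ c)
    (h : ∀ k, J ≤ k → k < M.N → M.dz m a k ≠ 0 → F (k + 1) ≤ c * g k)
    (hx : ∑ k ∈ Ico J M.N, M.dz m a k * (|f k| * g k) ≤ x) :
    (cd M m a ρ J (some fun k => M.dz m 0 k * f k) E).Iw F ≤ c * x := by
  rw [cd_Iw]
  refine le_trans ?_ (mul_le_mul_of_nonneg_left hx hc)
  rw [mul_sum]
  refine sum_le_sum fun k hk => ?_
  rw [abs_om L hJ (mem_Ico.1 hk).1]
  rcases eq_or_ne (M.dz m a k) 0 with e | e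
  · simp [e]
  · have := mul_le_mul_of_nonneg_left (h k (mem_Ico.1 hk).1 (mem_Ico.1 hk).2 e)
      (mul_nonneg (L.dz_nonneg k) (abs_nonneg (f k)))
    linarith

end

section
variable {Λ lam l τ0 c' lam' c : ℝ} {p B : ℕ} {lev : ℕ → ℕ} {G f tt al A ab γ : ℕ → ℝ}
  (K : KD' S M m a J Λ lam l τ0 c') (H : GE S M m a J p G) (hp : 3 ≤ p)
  (P : BP M m a J B lev tt al A) (hf : ∀ k, J ≤ k → k < M.N → |f k| ≤ ab (lev k))
  (ab0 : ∀ i, 0 ≤ ab i)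
include K H hp P hf ab0

theorem ci_dK : CI τ0 M m a M.q J (some fun k => M.dz m 0 k * f k)
    (evK S M m a J (some fun k => M.dz m 0 k * f k) lam l G (fun k => ph B al (lev k))
      fun k => ph B (fun i => ab i * al i) (lev k)) := by
  have L := K.fn.lg
  have J1 : 1 ≤ J := K.fn.i0.trans K.J0
  have p0 : ∀ i, 0 ≤ ab i * al i := fun i => mul_nonneg (ab0 i) (P.al0 i)
  refine K.ci H (by omega) ⟨fun _ => ph0 P.al0 _, fun k => ph_anti P.al0 (P.mono k.le_succ)⟩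
    ⟨fun _ => ph0 p0 _, fun k => ph_anti p0 (P.mono k.le_succ)⟩ (fun φ hφ => ?_) (fun φ hφ => ?_)
    fun h => absurd h (Option.some_ne_none _)
  · exact P.var L (φ := φ) (ab := fun _ => 1) (fun _ => zero_le_one) (fun _ _ _ => rfl)
      (fun k _ _ => hφ k) fun k => by simp only [one_mul, le_refl]
  · exact P.var L (φ := fun k => f k * φ k) ab0
      (fun k k1 _ => by rw [omP, dz0 L (J1.trans k1), mul_assoc])
      (fun k k1 k2 => by
        rw [abs_mul]; exact (mul_le_of_le_one_right (abs_nonneg _) (hφ k)).trans (hf k k1 k2))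
      fun _ => le_rfl

theorem den_dK : Den (dK S M m a J lam l f G B lev al ab) (fun j => lev (j - 1)) (sh f) ab := by
  have J1 : 1 ≤ J := K.fn.i0.trans K.J0
  refine ⟨fun j hj => ?_, fun j hj => ?_, ab0⟩ <;> obtain ⟨k, rfl, k1, k2⟩ := mem_up hj
  · rw [cd_om, cd_dx, omP, dz0 K.fn.lg (J1.trans k1), sh_succ]
  · exact hf k k1 k2

variable (l1 : 1 ≤ lam') (c0 : 0 ≤ c) (tm : Monotone tt)
  (hz : ∀ k, J ≤ k → k < M.N → M.z k ≤ lam' ^ 2 * tt (lev k))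
  (clk : ∀ e : ℕ → ℝ, (∀ k, 0 ≤ e k) → ∀ i,
    ∑ k ∈ bk M J lev i, dvP M m a M.q e J k ≤ e J + c * max (tt i) l)
include l1 c0 tm hz clk

theorem bd_dK : BD (dK S M m a J lam l f G B lev al ab) B (fun j => lev (j - 1)) tt
    (fun i => (2 * lam * lam' ^ 2 + c) * max (tt i) l) (fun i => lam * lam' ^ 2 * max (tt i) l) al
    (sh A) := by
  have l4 := K.lam4
  have l0 := K.l0
  have l2 : 1 ≤ lam' ^ 2 := one_le_pow₀ l1
  have mx : ∀ x, 0 < max x l := fun x => l0.trans_le (le_max_right _ _)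
  have env : ∀ W G f0 f1 k, J ≤ k → k < M.N → (evK S M m a J W lam l G f0 f1).e k ≤
      lam * lam' ^ 2 * max (tt (lev k)) l := fun W G f0 f1 k k1 k2 => by
    rw [K.e_eq k1, mul_assoc]
    exact mul_le_mul_of_nonneg_left (max_le ((hz k k1 k2).trans (mul_le_mul_of_nonneg_left
      (le_max_left _ _) (by linarith))) ((le_max_right _ _).trans
        (le_mul_of_one_le_left (mx _).le l2))) (by linarith)
  refine P.bd K.fn.lg (rf_q K.fn.toCl) (K.e_nn _ _ _ _)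
    (fun i => by have := mx (tt i); positivity) (fun k k1 k2 _ => env _ _ _ _ k k1 k2)
    (fun i => ?_) (fun _ => ph0 P.al0 _) fun _ _ _ => le_rfl
  have m0 := mx (tt i)
  rcases (bk M J lev i).eq_empty_or_nonempty with e | ⟨k, hk⟩
  · rw [e, sum_empty]; positivity
  obtain ⟨k1, rfl⟩ := mem_filter.1 hk
  obtain ⟨k1, k2⟩ := mem_Ico.1 k1
  refine (clk _ (K.e_nn _ _ _ _) _).trans ?_
  have := (env (some fun k => M.dz m 0 k * f k) G (fun k => ph B al (lev k))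
    (fun k => ph B (fun i => ab i * al i) (lev k)) J le_rfl (k1.trans_lt k2)).trans
    (mul_le_mul_of_nonneg_left (max_le_max (tm (P.mono k1)) le_rfl) (by positivity))
  have : 0 ≤ lam * lam' ^ 2 * max (tt (lev k)) l := by positivity
  linarith

variable {n1 n2 n4 b0 b1 b2 b4 e0 e1 e2 d1 d2 dm V : ℝ}
  (N : Nm M m a (Ico J M.N) f γ G n1 n2 n4 b0 b1 b2 b4 e0 e1 e2 d1 d2 dm)
include N

theorem tc_dK (hV : Sg B (fun i => (2 * lam * lam' ^ 2 + c) * max (tt i) l) ≤ V) :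
    Et5.Tc (dK S M m a J lam l f G B lev al ab) lam V (3 * n1) (9 * n2)
      (lowL τ0 (lam * max (M.z (J - 1)) l) (tlD S 3)) (3 * n1 + Sg B al)
      (3 * b1 + Sg B fun i => ab i * al i) b0 (3 * b1) (9 * b2) := by
  have L := K.fn.lg
  have J1 : 1 ≤ J := K.fn.i0.trans K.J0
  have p0 : ∀ i, 0 ≤ ab i * al i := fun i => mul_nonneg (ab0 i) (P.al0 i)
  have mem : ∀ {k}, k ∈ Ico J M.N → J ≤ k ∧ k < M.N := mem_Ico.1
  have G0 : ∀ {k}, k ∈ Ico J M.N → 0 ≤ G k := fun h => (H.pos _ (mem h).1 (mem h).2).le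
  have q1 : 0 ≤ n1 := (sum_nonneg fun k hk => mul_nonneg (L.dz_nonneg k) (G0 hk)).trans N.n1
  have q2 : 0 ≤ b1 := (sum_nonneg fun k hk => mul_nonneg (L.dz_nonneg k)
    (mul_nonneg (abs_nonneg _) (G0 hk))).trans N.b1
  have s1 : 0 ≤ Sg B al := Sg0 fun i _ => P.al0 i
  have s2 : 0 ≤ Sg B fun i => ab i * al i := Sg0 fun i _ => p0 i
  have tJ : tlP M J J = Ico J M.N := by rw [tlP, max_self]
  obtain ⟨z, ok⟩ := (ci_dK K H hp P hf ab0).ok0.big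
  have X0 : 0 ≤ lam * max (M.z (J - 1)) l := ok.X0
  have X3 := pow_nonneg X0 3
  have t0 := tlD_nn S 3
  have t1 := sqrt_nonneg (tlD S 3)
  have r1 := mul_nonneg (sq_nonneg τ0) X3
  have r2 := mul_nonneg (sq_nonneg τ0) t1
  have gs : ∀ k, J ≤ k → k < M.N → (dK S M m a J lam l f G B lev al ab).g (k + 1) ^ 2 ≤
      9 * G k ^ 2 := fun k k1 k2 =>
    (pow_le_pow_left₀ (CD.g0 _ _) (H.g_le (by omega) k1 k2) 2).trans_eq (by ring)
  refine ⟨rfl, by linarith [K.lam4], fun j _ => K.e_le none G G G (j - 1),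
    (bd_dK K H hp P hf ab0 l1 c0 tm hz clk).sv_one.trans hV,
    I_le L (by norm_num) (fun k k1 k2 _ => H.g_le (by omega) k1 k2) N.n1,
    I_le L (by norm_num) (fun k k1 k2 _ => gs k k1 k2) N.n2, ?_, ?_, ?_, ?_, ?_, ?_, ?_, ?_,
    Iw_le L J1 (by norm_num) (fun k k1 k2 _ => H.g_le (by omega) k1 k2) N.b1,
    Iw_le L J1 (by norm_num) (fun k k1 k2 _ => gs k k1 k2) N.b2⟩
  · change 3 * ∑ t ∈ tlP M J J, M.dz m a t * G t ≤ _
    rw [tJ]; linarith [N.n1]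
  · exact (ph_Sg P.al0 _).trans (by linarith)
  · change 3 * ∑ t ∈ tlP M J J, |omP (some fun k => M.dz m 0 k * f k) t| * G t ≤ _
    rw [tJ, sum_congr rfl fun k hk => by rw [abs_om L J1 (mem hk).1, mul_assoc]]
    linarith [N.b1]
  · exact (ph_Sg p0 _).trans (by linarith)
  · change (lam * max (M.z (J - 1)) l) ^ 3 ≤ _
    unfold lowL; linarith
  · refine (Et5.Lv1_le ok).trans ?_
    change (lam * max (M.z (J - 1)) l) ^ 3 + 2 * tlD S 3 ≤ _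
    unfold lowL; linarith
  · refine (Et5.Lv2_le ok).trans ?_
    change (2 * τ0 ^ 2 + 1) * (lam * max (M.z (J - 1)) l) ^ 3 + (15 * τ0 ^ 2 + 2) * √(tlD S 3) ≤ _
    unfold lowL; linarith
  · rw [wt_some]
    exact (sum_congr rfl fun k hk => abs_om L J1 (mem hk).1).trans_le N.b0

omit l1 c0 tm hz clk in
theorem nz_dK (JN : J < M.N) (le2 : ∀ k, J ≤ k → k < M.N → G k ≤ 2)
    (hγ : ∀ k, J ≤ k → k < M.N → M.dz m a k ≠ 0 → |GamC M m a M.q J k - M.q k| ≤ γ k) :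
    Nz (dK S M m a J lam l f G B lev al ab) (9 * n2) dm (dm * b0) (160 * n4) (160 * b4) (9 * e2)
      (3 * d1) (9 * d2) (3 * e1) e0 := by
  have L := K.fn.lg
  have J1 : 1 ≤ J := K.fn.i0.trans K.J0
  have C := ci_dK K H hp P hf ab0
  have dm0 : 0 ≤ dm := (L.dz_nonneg J).trans (N.dm J (mem_Ico.2 ⟨le_rfl, JN⟩))
  have gq : ∀ k, J ≤ k → k < M.N → M.dz m a k ≠ 0 →
      (dK S M m a J lam l f G B lev al ab).gq (k + 1) ≤ γ k := fun k k1 k2 e =>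
    (C.c_gq k1 k2).trans_le (hγ k k1 k2 e)
  have g1 : ∀ k, J ≤ k → k < M.N → M.dz m a k ≠ 0 →
      (dK S M m a J lam l f G B lev al ab).gq (k + 1) *
        (dK S M m a J lam l f G B lev al ab).g (k + 1) ≤ 3 * (γ k * G k) := fun k k1 k2 e =>
    (mul_le_mul (gq k k1 k2 e) (H.g_le (by omega) k1 k2) (CD.g0 _ _)
      ((abs_nonneg _).trans (gq k k1 k2 e))).trans_eq (by ring)
  have g2 : ∀ k, J ≤ k → k < M.N → M.dz m a k ≠ 0 →
      (dK S M m a J lam l f G B lev al ab).gq (k + 1) *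
        (dK S M m a J lam l f G B lev al ab).g (k + 1) ^ 2 ≤ 9 * (γ k * G k ^ 2) :=
    fun k k1 k2 e => (mul_le_mul (gq k k1 k2 e) (pow_le_pow_left₀ (CD.g0 _ _)
      (H.g_le (by omega) k1 k2) 2) (sq_nonneg _)
      ((abs_nonneg _).trans (gq k k1 k2 e))).trans_eq (by ring)
  have u45 : ∀ k, J ≤ k → k < M.N → M.dz m a k ≠ 0 →
      (dK S M m a J lam l f G B lev al ab).u 4 (k + 1) +
        (dK S M m a J lam l f G B lev al ab).u 5 (k + 1) ≤ 160 * G k ^ 4 := fun k k1 k2 _ => by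
    refine (add_le_add (H.u_le (by omega) k1 k2) (H.u_le (by omega) k1 k2)).trans ?_
    have := mul_le_mul_of_nonneg_left (le2 k k1 k2) (pow_pos (H.pos k k1 k2) 4).le
    rw [pow_succ (G k) 4]
    norm_num
    linarith
  refine ⟨I_le L (by norm_num) (fun k k1 k2 _ => (H.sqrt_u4 (by omega) k1 k2).trans
      (by nlinarith [sq_nonneg (G k)])) N.n2, ?_,
    Iw_le L J1 (g := fun _ => 1) dm0 (fun k k1 k2 _ => ?_) (by simpa using N.b0),
    I_le L (by norm_num) u45 N.n4, Iw_le L J1 (by norm_num) u45 N.b4,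
    Iw_le L J1 (by norm_num) g2 N.c2, I_le L (by norm_num) g1 N.d1, I_le L (by norm_num) g2 N.d2,
    Iw_le L J1 (by norm_num) g1 N.c1, ?_⟩
  · refine (I_le L (g := fun _ => 1) (x := 1) dm0 (fun k k1 k2 _ => ?_) ?_).trans_eq (mul_one _)
    · rw [mul_one]; exact N.dm k (mem_Ico.2 ⟨k1, k2⟩)
    · simp only [mul_one]
      linarith [L.sum_dz_le (Ico J M.N), L.a0]
  · rw [mul_one]; exact N.dm k (mem_Ico.2 ⟨k1, k2⟩)
  · exact (Iw_le L J1 zero_le_one (fun k k1 k2 e => (gq k k1 k2 e).trans_eq (one_mul _).symm)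
      N.c0).trans_eq (one_mul _)

end

/-- **level 2b** -/
theorem lv2b {Λ lam l τ0 c' lam' c L T : ℝ} {p B : ℕ} {lev : ℕ → ℕ} {G f tt al A ab γ : ℕ → ℝ}
    {n1 n2 n4 b0 b1 b2 b4 c0 c1 c2 d1 d2 dm V : ℝ}
    (K : KD' S M m a (S.jl + 1) Λ lam l τ0 c') (H : GE S M m a (S.jl + 1) p G) (hp : 3 ≤ p)
    (Q : E35.BQ lam' L l T c S M m a B lev tt al A) (l1 : 1 ≤ lam') (hc : 0 ≤ c)
    (hf : ∀ k, S.jl < k → k < M.N → |f k| ≤ ab (lev k)) (ab0 : ∀ i, 0 ≤ ab i)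
    (le2 : ∀ k, G k ≤ 2)
    (hγ : ∀ k, S.jl < k → k < M.N → M.dz m a k ≠ 0 →
      |GamC M m a M.q (S.jl + 1) k - M.q k| ≤ γ k)
    (N : Nm M m a (Ioo S.jl M.N) f γ G n1 n2 n4 b0 b1 b2 b4 c0 c1 c2 d1 d2 dm)
    (hV : Sg B (fun i => (2 * lam * lam' ^ 2 + c) * max (tt i) l) ≤ V) :
    Ok0 (dK S M m a (S.jl + 1) lam l f G B lev al ab) τ0 ∧
    BD (dK S M m a (S.jl + 1) lam l f G B lev al ab) B (fun j => lev (j - 1)) tt
      (fun i => (2 * lam * lam' ^ 2 + c) * max (tt i) l) (fun i => lam * lam' ^ 2 * max (tt i) l)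
      al (sh A) ∧
    Den (dK S M m a (S.jl + 1) lam l f G B lev al ab) (fun j => lev (j - 1)) (sh f) ab ∧
    Et5.Tc (dK S M m a (S.jl + 1) lam l f G B lev al ab) lam V (3 * n1) (9 * n2)
      (lowL τ0 (lam * max (M.z S.jl) l) (tlD S 3)) (3 * n1 + Sg B al)
      (3 * b1 + Sg B fun i => ab i * al i) b0 (3 * b1) (9 * b2) ∧
    Nz (dK S M m a (S.jl + 1) lam l f G B lev al ab) (9 * n2) dm (dm * b0) (160 * n4) (160 * b4)
      (9 * c2) (3 * d1) (9 * d2) (3 * c1) c0 :=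
  have JN : S.jl + 1 < M.N := K.fn.i2.trans_le (K.fn.i3.trans K.fn.i4.le)
  ⟨(ci_dK K H hp Q.bp hf ab0).ok0, bd_dK K H hp Q.bp hf ab0 l1 hc Q.tm Q.z Q.clk,
    den_dK K H hp Q.bp hf ab0, tc_dK K H hp Q.bp hf ab0 l1 hc Q.tm Q.z Q.clk N hV,
    nz_dK K H hp Q.bp hf ab0 N JN (fun k _ _ => le2 k) hγ⟩

end Crest.Agent.T156.Alt.CIn12

end
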