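import Crest.Agent.T156.CLow_90
import Crest.Agent.T156.CMxD_23

/-!
# Row 156, block C: the ladder reduction for two low letters and mean letters (helper90)
-/

set_option autoImplicit false
set_option linter.unusedSectionVars false

noncomputable section

namespace Crest.Agent.T156.Cas.C40.L90

open MeasureTheory Real Set Filter Topology
open Crest.Agent.T157.E Crest.Agent.T157.Casc Crest.Agent.T157.SL
open Crest.Agent.T157.G1 (ov)
open Crest.ProbabilityR.SpinGlassDynamics (spin)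
open Mul55 G90 Nu87 R90 W90 Ck32 Ker15 Mx23

variable {D : CD} {τ0 : ℝ} {r k : ℕ} {α : Type}

/-- the cluster form of a word of tensor letters -/
def hc (D : CD) (V : List (Lr D)) : ℝ := D.dd (lamB D.B (cB D) (V.map cc))
  (∑ j ∈ D.up, D.om j * wB (-1) D.B (cB D) (V.map cc) (Sh.two j) (fun _ => 1) (pr2 j (oE D.q j)))

theorem hc_lt (D : CD) (f : List Lt) : hc D (f.map (lt D.n D.β D.M D.q D.cl)) = cw D f := by
  rw [hc, List.map_map]
  rfl

/-- product of kernels along labelled edges -/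
def bG {Ω : Type} (φ : α → ℕ → Ω → Ω → ℝ) (Z : List (α × (Fin r × Fin r))) (σ : SM r)
    (x : Fin r → Ω) : ℝ := (Z.map fun z => φ z.1 (σ z.2.1 z.2.2) (x z.2.1) (x z.2.2)).prod

/-- the marked edge, if any -/
def mA (D : CD) (k : ℕ) : EL (1 + k + 1) := match D.W with | none => [] | some _ => [Ck32.mk k]

theorem markG (H : D.Ok τ0) {μ : ℕ → ℝ} (hμ : ∀ j, |μ j| ≤ mu D j) (p : Lr D) (φ : α → Lr D)
    (f : List α) {B : ℝ}
    (h : ∀ k ≤ 2 * f.length, ∀ Z : List (α × (Fin (1 + k + 1) × Fin (1 + k + 1))),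
      (Z.map Prod.fst).Perm f → (∀ z ∈ Z, z.2.1 ≠ z.2.2) →
      ∃ ψ : SM (1 + k + 1) → ℝ, av D k ψ ≤ B ∧ ∀ σ, Sup D k σ →
        |TB D σ (fun x => ed p.1 (Ck32.mk k).1 (Ck32.mk k).2 x σ * bG (fun a => (φ a).1) Z σ x) -
          TC D σ fun x => ed p.1 (Ck32.mk k).1 (Ck32.mk k).2 x σ * bG (fun a => (φ a).1) Z σ x| *
          |Ck32.TS D σ fun x => ed p.2 (Ck32.mk k).1 (Ck32.mk k).2 x σ *
            bG (fun a => (φ a).2) Z σ x| ≤ ψ σ) :
    |∑ j ∈ Finset.range (D.B.length + 1), μ j * wB (-1) D.B (oB D.n D.β D.M D.q [])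
        (f.map φ) (Sh.two j) (pr2 j (p.1 j)) (pr2 j (p.2 j)) -
      ∑ j ∈ Finset.range (D.B.length + 1), μ j * wB (-1) D.B (cB D) ((f.map φ).map cc) (Sh.two j)
        (pr2 j ((cc p).1 j)) (pr2 j ((cc p).2 j))| ≤ cG f.length * B := by
  rw [frame, frameC H, ← LamG_sub, List.length_map]
  refine abs_LamG_le _ _ _ fun k hk N hN hO => ?_
  have hl : f.reverse.length = N.length := by rw [List.length_reverse, hN]
  obtain ⟨ψ, h1, h2⟩ := h k hk (f.reverse.zip N)
    (by rw [List.map_fst_zip hl.le]; exact List.reverse_perm f)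
    fun z hz => hO _ (List.of_mem_zip hz).2
  refine (abs_avt_le H hμ fun σ hσ => ?_).trans h1
  have e1 : eF (((f.map φ).reverse ++ [p]).map Prod.fst) σ (N ++ [(old k 1, old k 0)]) =
      fun x => ed p.1 (Ck32.mk k).1 (Ck32.mk k).2 x σ *
        bG (fun a => (φ a).1) (f.reverse.zip N) σ x := funext fun x => by
    rw [List.map_append, List.map_singleton, eF_snoc _ _ _ _ _ _ (by simp [hN]),
      ← List.map_reverse, List.map_map, eF_zip]
    rfl
  have e2 : eF (((f.map φ).reverse ++ [p]).map Prod.snd) σ (N ++ [(old k 1, old k 0)]) =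
      fun x => ed p.2 (Ck32.mk k).1 (Ck32.mk k).2 x σ *
        bG (fun a => (φ a).2) (f.reverse.zip N) σ x := funext fun x => by
    rw [List.map_append, List.map_singleton, eF_snoc _ _ _ _ _ _ (by simp [hN]),
      ← List.map_reverse, List.map_map, eF_zip]
    rfl
  rw [e1, e2, ← sub_mul, abs_mul]
  exact h2 σ hσ

/-- **the reduction graph by graph, tensor letters** -/
theorem redG_le (H : D.Ok τ0) (φ : α → Lr D) {f : List α} (hf : f ≠ []) {B : ℝ} (hB : 0 ≤ B)
    (h : ∀ k ≤ 2 * f.length, ∀ Z : List (α × (Fin (1 + k + 1) × Fin (1 + k + 1))),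
      (Z.map Prod.fst).Perm f → (∀ z ∈ Z, z.2.1 ≠ z.2.2) →
      ∃ ψ : SM (1 + k + 1) → ℝ, av D k ψ ≤ B ∧ ∀ σ, Sup D k σ →
        |TB D σ (bG (fun a => (φ a).1) Z σ) - TC D σ (bG (fun a => (φ a).1) Z σ)| *
          |Ck32.TS D σ fun x => se D (mA D k) σ x * bG (fun a => (φ a).2) Z σ x| ≤ ψ σ) :
    |hw D (f.map φ) - hc D (f.map φ)| ≤ cG f.length * B := by
  cases hD : D.W with
  | none =>
    obtain ⟨a, V, rfl⟩ := List.exists_cons_of_ne_nil hf
    simp only [hw, hc, CD.dd, hD]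
    rw [List.map_cons, List.map_cons, lamB, lamB]
    refine (markG H (fun j => (abs_of_nonneg (dm_nonneg H.mono j)).trans_le (by
      simp only [mu, CD.dd, hD]; exact le_rfl)) (φ a) φ V (B := B)
      fun k hk Z hZ hL => ?_).trans (mul_le_mul_of_nonneg_right (cG_mono (by simp)) hB)
    obtain ⟨ψ, h1, h2⟩ := h k (hk.trans (by simp)) ((a, Ck32.mk k) :: Z) (hZ.cons a)
      (List.forall_mem_cons.2 ⟨mk_ne k, hL⟩)
    refine ⟨ψ, h1, fun σ hσ => ?_⟩
    have := h2 σ hσ
    simp only [mA, hD, se, List.map_nil, List.prod_nil, one_mul] at this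
    exact this
  | some ω =>
    have hW : D.W.isSome = true := by simp [hD]
    rw [hw, hc, CD.dd_test hW, CD.dd_test hW, sum_up H, sum_up H]
    simp only [← ite_zero_mul]
    refine markG H (abs_om_le hW) (fun _ _ _ => 1, oE D.q) φ f fun k hk Z hZ hL => ?_
    obtain ⟨ψ, h1, h2⟩ := h k hk Z hZ hL
    refine ⟨ψ, h1, fun σ hσ => ?_⟩
    have := h2 σ hσ
    simp only [mA, hD, se, List.map_cons, List.map_nil, List.prod_cons, List.prod_nil,
      mul_one] at this
    simp only [ed, one_mul]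
    exact this

/-! ### parity at any cut -/

theorem TS_par (H : D.Ok τ0) {σ : SM r} (hσ : Rz D.B.length σ) {A A' : EL r} {e : Fin r × Fin r}
    (hA : A.Perm (e :: A')) (he : σ e.1 e.2 ≤ D.J) {t : ℕ} (ht : t ≤ D.K) {o : Fin r}
    (h1 : Site94.Crs σ o t e.1 e.2) (h2 : ∀ e' ∈ A', ¬Site94.Crs σ o t e'.1 e'.2) {g : ℝ}
    (hg : min 1 (D.sig t) ≤ g) :
    |Ck32.TS D σ (se D A σ)| ≤ 2 ^ A.length * (Site94.cP r 2 * g) := by
  have c1 := Site94.one_le_cP o 2
  have s0 := H.sig0 ht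
  rcases le_total 1 (D.sig t) with h | h
  · rw [min_eq_left h] at hg
    exact (site_le H hσ A).trans (le_mul_of_one_le_right (by positivity) (by nlinarith))
  rw [min_eq_right h] at hg
  have g0 := s0.trans hg
  rw [show se D A σ = se D (e :: A') σ from funext fun x => (hA.map _).prod_eq, hA.length_eq, TS_eq]
  have key : ∀ ε : ℝ, 0 < ε → ε ≤ 1 → |Site94.SF D.S (fun _ => D.q)
      (fun i : Fin (e :: A').length => (e :: A')[i.1].1) (fun i => (e :: A')[i.1].2) Finset.univ σ| ≤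
      2 ^ (e :: A').length * (Site94.cP r 2 * (g + ε)) := fun ε h0 h3 => by
    have := Site94.SF_le (L := D.S) (B := Finset.univ) (q := fun _ => D.q) (σ := σ)
      (p := fun i : Fin (e :: A').length => (e :: A')[i.1].1) (p' := fun i => (e :: A')[i.1].2)
      (c := Site94.cP r 2 * (g + ε)) fun B _ => ?_
    · rwa [Finset.card_univ, Fintype.card_fin] at this
    by_cases hB : (⟨0, Nat.succ_pos _⟩ : Fin (e :: A').length) ∈ B
    · refine (mul_le_of_le_one_left (abs_nonneg _) (Site94.abs_q_le (B := Finset.univ)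
        (fun _ _ => abs_q_le H (hσ.le _ _)) B)).trans ?_
      have hp : 0 < D.sig t + ε := by positivity
      refine (Site94.par1M (C.forall₂_sl spin (opV_nn H.ook))
        (Cav22.mono_tilt tilt_opS.symm H.mono) (lenS (D := D) ▸ hσ) _ o hp t ?_
        ((opV_acc ht).trans_le (le_add_of_nonneg_right h0.le))).trans (mul_le_mul
          (Site94.cP_mono r (by linarith)) (by linarith) hp.le (by linarith))
      rw [Nat.odd_iff, Site94.bdM_dg]
      refine (congrArg (fun s : Finset _ => s.card % 2)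
        (a₂ := {⟨0, Nat.succ_pos _⟩}) (Finset.ext fun i => ?_)).trans rfl
      rw [Finset.mem_filter, Finset.mem_singleton]
      refine ⟨fun ⟨_, h4⟩ => ?_, fun h4 => h4 ▸ ⟨hB, h1⟩⟩
      obtain ⟨_ | i, hi⟩ := i
      exacts [rfl, absurd h4 (h2 _ (List.getElem_mem (Nat.lt_of_succ_lt_succ hi)))]
    · rw [Finset.prod_eq_zero (i := ⟨0, Nat.succ_pos _⟩)
        (Finset.mem_sdiff.2 ⟨Finset.mem_univ _, hB⟩) (neg_eq_zero.2 (H.qlo _ he)), abs_zero, zero_mul]
      positivity
  have hc : Continuous fun ε : ℝ => 2 ^ (e :: A').length * (Site94.cP r 2 * (g + ε)) := by fun_prop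
  have := (hc.tendsto 0).mono_left (nhdsWithin_le_nhds (s := Ioi 0))
  simp only [add_zero] at this
  exact ge_of_tendsto this (by
    filter_upwards [Ioc_mem_nhdsGT (zero_lt_one' ℝ)] with ε h using key ε h.1 h.2)

/-! ### weights -/

/-- the marked level (no label in the value direction) -/
def mj (D : CD) (k : ℕ) (σ : SM (1 + k + 1)) : ℕ :=
  match D.W with | none => D.K + 1 | some _ => σ (Ck32.mk k).1 (Ck32.mk k).2

theorem av_wb (H : D.Ok τ0) {φ : SM (1 + k + 1) → ℝ} {a : ℕ → ℝ}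
    (h : ∀ (j c : ℕ) (P : SM (1 + k + 1) → Prop) (A : (SM (1 + k + 1) → ℝ) → ℝ), c ≤ 1 + k →
      WB D.B D.J j c P A → (∀ σ, P σ → mj D k σ = j) → A φ ≤ a j) :
    av D k φ ≤ D.dd (a (D.K + 1)) (D.Iw a) := by
  cases hD : D.W with
  | none =>
    have e : mu D = dm D.B 0 := funext fun j => by simp only [mu, CD.dd, hD]
    rw [av, e, avt_dm, CD.dd_val (by simp [hD])]
    exact h _ _ _ _ le_rfl (wb_avm H.mono (Nat.lt_succ_of_lt H.cut) (1 + k)) fun σ _ => by
      simp only [mj, hD]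
  | some ω =>
    have hW : D.W.isSome = true := by simp [hD]
    rw [av, avt, CD.dd_test hW, CD.Iw, sum_up H]
    refine Finset.sum_le_sum fun j hj => ?_
    rw [mu, CD.dd_test hW]
    split_ifs with h1
    · exact mul_le_mul_of_nonneg_left (h j k _ _ (by omega) (wb_avc H.mono (CD.mem_up.1 h1).1
        (Nat.lt_succ_iff.1 (Finset.mem_range.1 hj)) k) fun σ hσ => by
          simp only [mj, hD]; exact hσ.2) (abs_nonneg _)
    · simp

/-- the size of a level -/
def gl (D : CD) (t : ℕ) : ℝ := if t < D.K then D.e t else 1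

/-- the unmarked ladder term -/
def lad (D : CD) (k : ℕ) (a b u u' : Fin (1 + k + 1)) (σ : SM (1 + k + 1)) : ℝ :=
  if u = u' then 0 else if σ a b ∈ D.lo ∧ σ u u' ∈ Finset.Ioc D.J D.K ∧ σ u u' ≠ mj D k σ then
    gl D (σ u u') * D.v (σ a b) (σ u u') else 0

/-- the marked ladder term -/
def mkd (D : CD) (k : ℕ) (a b : Fin (1 + k + 1)) (σ : SM (1 + k + 1)) : ℝ :=
  if σ a b ∈ D.lo ∧ mj D k σ ≤ D.K then D.v (σ a b) (mj D k σ) else 0

theorem gl0 (H : D.Ok τ0) (t : ℕ) : 0 ≤ gl D t := by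
  unfold gl; split_ifs; exacts [H.e0 t, zero_le_one]

theorem lad0 (H : D.Ok τ0) (a b u u' : Fin (1 + k + 1)) (σ : SM (1 + k + 1)) :
    0 ≤ lad D k a b u u' σ := by
  unfold lad; split_ifs; exacts [le_rfl, mul_nonneg (gl0 H _) (D.v0 _ _), le_rfl]

theorem mkd0 (a b : Fin (1 + k + 1)) (σ : SM (1 + k + 1)) : 0 ≤ mkd D k a b σ := by
  unfold mkd; split_ifs; exacts [D.v0 _ _, le_rfl]

theorem sv_le (H : D.Ok τ0) {t : ℕ} (ht : D.J < t) :
    ∑ y ∈ D.lo, D.dx y * D.v y t ≤ ∑ y ∈ Finset.Ico 1 t, D.dx y * D.v y t :=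
  Finset.sum_le_sum_of_subset_of_nonneg (fun y hy => by
    have := CD.mem_lo.1 hy
    exact Finset.mem_Ico.2 ⟨this.1, by omega⟩) fun y _ _ => mul_nonneg (H.dx0 y) (D.v0 y t)

theorem w_lad (H : D.Ok τ0) {a b : Fin (1 + k + 1)} (hab : a ≠ b) (u u' : Fin (1 + k + 1)) :
    av D k (lad D k a b u u') ≤ 4 ^ (1 + k) * D.Err := by
  have e0 := H.E00
  refine (av_wb H (a := fun _ => 4 ^ (1 + k) * D.E0)
    fun j c P A hc W hj => ?_).trans ?_
  · by_cases h : u = u'
    · have := W.mul 0 fun _ => 0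
      simp only [zero_mul] at this
      rw [show lad D k a b u u' = fun _ => 0 from funext fun σ => if_pos h, this]
      positivity
    refine (W.mono fun σ hσ => le_of_eq (by rw [lad, if_neg h, hj σ hσ])).trans
      ((W.lad H.mono hab h (fun y hy => (CD.mem_lo.1 hy).2) (fun t ht => (Finset.mem_Ioc.1 ht).1)
        (D := fun y t => gl D t * D.v y t) fun y t => mul_nonneg (gl0 H t) (D.v0 y t)).trans
        (mul_le_mul (pow_le_pow_right₀ (by norm_num) hc) ?_ (Finset.sum_nonneg fun t _ =>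
          mul_nonneg (H.dx0 t) (Finset.sum_nonneg fun y _ => mul_nonneg (H.dx0 y)
            (mul_nonneg (gl0 H t) (D.v0 y t)))) (by positivity)))
    rw [← Finset.Ioo_insert_right H.cut, Finset.sum_insert Finset.right_notMem_Ioo,
      show dm D.B 0 D.K = 0 from H.top, zero_mul, zero_add]
    have h1 := H.Lad0_parts
    have h2 := H.Lad0_le
    rw [CD.Lad0] at h2
    refine le_trans (H.I_mono (a := fun t => ∑ y ∈ D.lo, D.dx y * (gl D t * D.v y t))
      (b := fun t => D.e t * ∑ y ∈ Finset.Ico 1 t, D.dx y * D.v y t) fun t ht => ?_)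
      (by linarith [h1.1, h1.2.1])
    simp only [gl, if_pos (CD.mem_up.1 ht).2, mul_left_comm _ (D.e t), ← Finset.mul_sum]
    exact mul_le_mul_of_nonneg_left (sv_le H (CD.mem_up.1 ht).1) (H.e0 t)
  · refine le_trans (le_of_eq ?_) (mul_le_mul_of_nonneg_left H.wtE0_le (by positivity))
    rw [D.Iw_const, CD.wt]
    unfold CD.dd
    cases D.W <;> dsimp only <;> ring

theorem w_mkd (H : D.Ok τ0) {a b : Fin (1 + k + 1)} (hab : a ≠ b) :
    av D k (mkd D k a b) ≤ 3 ^ (1 + k) * D.Err := by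
  classical
  refine (av_wb H (a := fun j => 3 ^ (1 + k) * if j ≤ D.K then ∑ y ∈ D.lo, D.dx y * D.v y j else 0)
    fun j c P A hc W hj => ?_).trans ?_
  · split_ifs with h
    · refine (W.mono fun σ hσ => le_of_eq ?_).trans ((W.edge hab 0 (fun y hy => (CD.mem_lo.1 hy).2)
        (D := fun y => D.v y j) fun y _ => D.v0 y j).trans (mul_le_mul
          (pow_le_pow_right₀ (by norm_num) hc) (le_of_eq (one_mul _)) (by
            rw [pow_zero, one_mul]; exact H.sv_low0 _ _) (by positivity)))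
      simp only [mkd, hj σ hσ, h, cl_zero]
    · have := W.mul 0 fun _ => 0
      simp only [zero_mul] at this
      refine (W.mono (ψ := fun _ => 0) fun σ hσ => le_of_eq ?_).trans (this.trans_le (by simp))
      simp only [mkd, hj σ hσ, h, and_false, if_false]
  · cases hD : D.W.isSome with
    | false =>
      rw [CD.dd_val hD, if_neg (by omega), mul_zero]
      exact mul_nonneg (by positivity) H.Err0
    | true =>
      rw [CD.dd_test hD, D.Iw_mul]
      refine mul_le_mul_of_nonneg_left ((D.Iw_mono fun j hj => ?_).trans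
        (H.Lad1_le.trans (H.E1_le hD))) (by positivity)
      rw [if_pos (CD.mem_up.1 hj).2.le]
      exact (sv_le H (CD.mem_up.1 hj).1).trans
        (le_add_of_nonneg_left (mul_nonneg (H.e0 j) (D.v0 j j)))

open Classical in
/-- the replacement term of a low edge -/
def rp (D : CD) (a b : Fin r) (σ : SM r) : ℝ :=
  if σ a b ∈ D.lo ∧ Cl σ D.J 0 then D.X ^ 2 * D.v (σ a b) (D.J + 1) + D.tl else 0

theorem rp0 (H : D.Ok τ0) (a b : Fin r) (σ : SM r) : 0 ≤ rp D a b σ := by
  unfold rp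
  split_ifs
  exacts [add_nonneg (mul_nonneg (sq_nonneg _) (D.v0 _ _)) H.tl0, le_rfl]

theorem w_rp (H : D.Ok τ0) {a b : Fin (1 + k + 1)} (hab : a ≠ b) :
    av D k (rp D a b) ≤ 3 ^ (1 + k) * (2 * D.Err) := by
  refine (w_cl H hab 0 (g := fun y => D.X ^ 2 * D.v y (D.J + 1) + D.tl) fun y =>
    add_nonneg (mul_nonneg (sq_nonneg _) (D.v0 _ _)) H.tl0).trans
    (mul_le_mul_of_nonneg_left ((mul_le_mul_of_nonneg_left (le_trans ?_ (two_le H)) D.wt0).trans
      (by linarith [H.wtE0_le])) (by positivity))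
  simp only [Nat.zero_sub, pow_zero, one_mul, mul_add, Finset.sum_add_distrib, ← Finset.sum_mul,
    mul_left_comm _ (D.X ^ 2), ← Finset.mul_sum]
  exact add_le_add le_rfl (mul_le_of_le_one_left H.tl0 (H.sum_lo.trans H.X1))

/-! ### the mean letters -/

/-- the coefficient of the mean letter -/
def cS (D : CD) (j : ℕ) : ℝ := if D.J < j then D.τ j / 2 * D.del j else 0

theorem abs_del (D : CD) {j : ℕ} {g : Cube D.n → Cube D.n → ℝ}
    (h : ∀ x y, |oU D.q j x y| ≤ g x y) : |D.del j| ≤ D.E2 j g := by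
  rw [← Ex23.E2_oU]
  have h1 := T157.Casc.pi2_mono wt_one90 D.B j (fun x y => (abs_le.1 (h x y)).2) 0
  have h2 := T157.Casc.pi2_mono wt_one90 D.B j (K := fun x y => -1 * g x y) (K' := oU D.q j)
    (fun x y => by linarith [(abs_le.1 (h x y)).1]) 0
  rw [pi2_const_mul] at h2
  exact abs_le.2 ⟨by unfold CD.E2; linarith, h1⟩

theorem abs_cS (H : D.Ok τ0) {j : ℕ} (hj : j ≤ D.K) : |cS D j| ≤ τ0 := by
  have h1 := (abs_del D (abs_oU_le H.ook hj)).trans_eq (pi2_const wt_one90 _ _ 2 0)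
  have h2 := H.tau_mem j
  unfold cS
  split_ifs
  · rw [abs_mul, abs_of_nonneg (by linarith [h2.1])]
    nlinarith [abs_nonneg (D.del j), h2.1, h2.2]
  · simpa using H.tau0

theorem abs_cS' (H : D.Ok τ0) {j t : ℕ} (hj : j ≤ t) (ht : t < D.K) :
    |cS D j| ≤ τ0 * (D.e t + D.tl) := by
  have h0 := add_nonneg (H.e0 t) H.tl0
  unfold cS
  split_ifs with h
  · have h1 := abs_del D (j := j) (g := fun x y => D.e j + max (|oU D.q j x y| - D.e j) 0)
      fun x y => by linarith [le_max_left (|oU D.q j x y| - D.e j) 0]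
    rw [CD.E2, pi2_add wt_one90, pi2_const wt_one90] at h1
    have h2 := H.tau_mem j
    rw [abs_mul, abs_of_nonneg (by linarith [h2.1])]
    exact mul_le_mul (by linarith [h2.1, h2.2]) (h1.trans (add_le_add (H.e_mono hj)
      (H.envU j (CD.mem_up.2 ⟨h, by omega⟩)))) (abs_nonneg _) H.tau0
  · simpa using mul_nonneg H.tau0 h0

theorem abs_prod_le {c : α → ℝ} {T : ℝ} (hT : 0 ≤ T) : ∀ W : List α, (∀ w ∈ W, |c w| ≤ T) →
    |(W.map c).prod| ≤ T ^ W.length
  | [], _ => by simp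
  | w :: W, h => by
      rw [List.map_cons, List.prod_cons, abs_mul, List.length_cons, pow_succ']
      exact mul_le_mul (h w List.mem_cons_self) (abs_prod_le hT W fun w hw =>
        h w (List.mem_cons_of_mem _ hw)) (abs_nonneg _) hT

theorem abs_prod_le' [DecidableEq α] {c : α → ℝ} {T g : ℝ} (hT : 0 ≤ T) {W : List α}
    (h : ∀ w ∈ W, |c w| ≤ T) {w : α} (hw : w ∈ W) (hg : |c w| ≤ T * g) :
    |(W.map c).prod| ≤ T ^ W.length * g := by
  have p := List.perm_cons_erase hw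
  rw [(p.map c).prod_eq, p.length_eq, List.map_cons, List.prod_cons, abs_mul, List.length_cons,
    pow_succ', mul_right_comm]
  exact mul_le_mul hg (abs_prod_le hT _ fun w hw => h w (List.mem_of_mem_erase hw)) (abs_nonneg _)
    ((abs_nonneg _).trans hg)

/-- the site factor of two low edges, mean edges `W` and the marked edge -/
def sf (D : CD) (k : ℕ) (e e' : Fin (1 + k + 1) × Fin (1 + k + 1)) (W : EL (1 + k + 1))
    (σ : SM (1 + k + 1)) : ℝ := (W.map fun w => cS D (σ w.1 w.2)).prod *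
      Ck32.TS D σ (se D (e :: e' :: (mA D k ++ W)) σ)

theorem mA_length (k : ℕ) : (mA D k).length ≤ 1 := by unfold mA; cases D.W <;> simp

theorem mem_mA {σ : SM (1 + k + 1)} (hσ : Sup D k σ) {e : Fin (1 + k + 1) × Fin (1 + k + 1)}
    (he : e ∈ mA D k) : e = Ck32.mk k ∧ σ e.1 e.2 = mj D k σ ∧ D.J < σ e.1 e.2 := by
  unfold mA at he
  cases hD : D.W with
  | none => simp [hD] at he
  | some ω =>
    obtain rfl : e = Ck32.mk k := by simpa [hD] using he
    exact ⟨rfl, by simp only [mj, hD], (CD.mem_up.1 (hσ.2 (by simp [hD]))).1⟩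

section pw
variable (H : D.Ok τ0) {σ : SM (1 + k + 1)} (hσ : Sup D k σ) {a b c d : Fin (1 + k + 1)}
  {W : EL (1 + k + 1)}
include H hσ

theorem sf_crude (e e' : Fin (1 + k + 1) × Fin (1 + k + 1)) :
    |sf D k e e' W σ| ≤ τ0 ^ W.length * 2 ^ (W.length + 3) := by
  rw [sf, abs_mul]
  refine mul_le_mul (abs_prod_le H.tau0 W fun w _ => abs_cS H (lenB (D := D) ▸ hσ.1.le _ _))
    ((site_le H hσ.1 _).trans (pow_le_pow_right₀ one_le_two ?_)) (abs_nonneg _)
    (pow_nonneg H.tau0 _)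
  have := mA_length (D := D) k
  simp only [List.length_cons, List.length_append]
  omega

theorem sf_par {e e' f f' : Fin (1 + k + 1) × Fin (1 + k + 1)} (hp : [e, e'].Perm [f, f'])
    (hf : σ f.1 f.2 ≤ D.J) {t : ℕ} (ht : t ≤ D.K) {o : Fin (1 + k + 1)}
    (h1 : Site94.Crs σ o t f.1 f.2) (h2 : ¬Site94.Crs σ o t f'.1 f'.2)
    (h3 : ∀ w ∈ mA D k, ¬Site94.Crs σ o t w.1 w.2) (h4 : ∀ w ∈ W, cS D (σ w.1 w.2) ≠ 0 → t < σ w.1 w.2)
    {g : ℝ} (hg : min 1 (D.sig t) ≤ g) :
    |sf D k e e' W σ| ≤ τ0 ^ W.length * 2 ^ (W.length + 3) * (Site94.cP (1 + k + 1) 2 * g) := by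
  have g0 : 0 ≤ Site94.cP (1 + k + 1) 2 * g := mul_nonneg (Site94.cP_nonneg _ _)
    ((le_min zero_le_one (H.sig0 ht)).trans hg)
  have t0 := H.tau0
  by_cases h0 : ∃ w ∈ W, cS D (σ w.1 w.2) = 0
  · obtain ⟨w, hw, h0⟩ := h0
    rw [sf, List.prod_eq_zero (List.mem_map.2 ⟨w, hw, h0⟩), zero_mul, abs_zero]
    positivity
  rw [sf, abs_mul, mul_assoc]
  refine mul_le_mul (abs_prod_le H.tau0 W fun w _ => abs_cS H (lenB (D := D) ▸ hσ.1.le _ _))
    ((TS_par H hσ.1 (A' := f' :: (mA D k ++ W)) (hp.append_right (mA D k ++ W)) hf ht h1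
      (fun w hw => ?_) hg).trans (mul_le_mul_of_nonneg_right (pow_le_pow_right₀ one_le_two ?_) g0))
    (abs_nonneg _) (pow_nonneg H.tau0 _)
  · rcases List.mem_cons.1 hw with rfl | hw
    · exact h2
    rcases List.mem_append.1 hw with hw | hw
    · exact h3 w hw
    · exact fun hc => absurd (hc.le hσ.1) (not_le.2 (h4 w hw fun e => h0 ⟨w, hw, e⟩))
  · have := mA_length (D := D) k
    simp only [List.length_cons, List.length_append, List.length_nil]
    omega

/-- three clusters -/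
theorem sf_J (h1 : σ a b ≤ D.J) (n1 : ¬(D.J < σ a c ∧ D.J < σ b d))
    (n2 : ¬(D.J < σ a d ∧ D.J < σ b c)) : |sf D k (a, b) (c, d) W σ| ≤
      τ0 ^ W.length * 2 ^ (W.length + 3) * (Site94.cP (1 + k + 1) 2 * D.X ^ 3) := by
  have u : ∀ a x y, min (σ a x) (σ a y) ≤ σ x y := fun a x y => hσ.1.comm x a ▸ hσ.1.ultra x a y
  have hJ := cutB H
  obtain ⟨o, o1, o2⟩ : ∃ o, Site94.Crs σ o D.J a b ∧ ¬Site94.Crs σ o D.J c d := by
    have := hσ.1.self a; have := hσ.1.self b; have := hσ.1.comm a b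
    have := u c a b; have := u d a b; have := hσ.1.comm c a; have := hσ.1.comm c b
    have := hσ.1.comm d a; have := hσ.1.comm d b
    unfold Site94.Crs
    by_cases h : D.J < σ a c ∨ D.J < σ a d
    · exact ⟨b, by omega, by omega⟩
    · exact ⟨a, by omega, by omega⟩
  refine sf_par H hσ (.refl _) h1 H.cut.le o1 o2
    (fun w hw hc => absurd (hc.le hσ.1) (not_le.2 (mem_mA hσ hw).2.2))
    (fun w _ h => not_le.1 fun h' => h (if_neg (not_lt.2 h'))) (min_le_of_right_le ?_)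
  rw [CD.sig, H.qlo _ le_rfl, mul_zero, zero_add]
  exact H.h1

/-- two clusters, the ends `a`, `c` split at an unmarked level -/
theorem sf_t {e e' : Fin (1 + k + 1) × Fin (1 + k + 1)}
    (hp : ∀ o t, Site94.Crs σ o t e.1 e.2 ↔ Site94.Crs σ o t a b)
    (hp' : ∀ o t, Site94.Crs σ o t e'.1 e'.2 ↔ Site94.Crs σ o t c d)
    (l1 : σ e.1 e.2 ≤ D.J) (l2 : σ e'.1 e'.2 ≤ D.J)
    (h1 : σ a b ≤ D.J) (h2 : D.J < σ a c) (h3 : D.J < σ b d) (hK : σ a c < D.K)
    (hj : σ a c ≠ mj D k σ) : |sf D k e e' W σ| ≤ τ0 ^ W.length * 2 ^ (W.length + 3) *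
      (Site94.cP (1 + k + 1) 2 * D.e (σ a c) + D.tl) := by
  have t0 := H.tau0
  have c1 := Site94.one_le_cP a 2
  have e0 := H.e0 (σ a c)
  have l0 := H.tl0
  by_cases h0 : ∃ w ∈ W, σ w.1 w.2 ≤ σ a c
  · obtain ⟨w, hw, h0⟩ := h0
    rw [sf, abs_mul, mul_right_comm]
    refine mul_le_mul ((abs_prod_le' (c := fun w => cS D (σ w.1 w.2)) t0
      (fun w _ => abs_cS H (lenB (D := D) ▸ hσ.1.le _ _)) hw
      (abs_cS' H h0 hK)).trans (mul_le_mul_of_nonneg_left (add_le_add (le_mul_of_one_le_left e0 c1)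
        le_rfl) (pow_nonneg t0 _)))
      ((site_le H hσ.1 _).trans (pow_le_pow_right₀ one_le_two ?_)) (abs_nonneg _) (by positivity)
    have := mA_length (D := D) k
    simp only [List.length_cons, List.length_append]
    omega
  have u : ∀ a x y, min (σ a x) (σ a y) ≤ σ x y := fun a x y => hσ.1.comm x a ▸ hσ.1.ultra x a y
  have hg : min 1 (D.sig (σ a c)) ≤ D.e (σ a c) := (min_le_min le_rfl
    (le_add_of_nonneg_left (H.ex0 _))).trans (H.esc _ (CD.mem_up.2 ⟨h2, hK⟩))
  have h4 : ∀ w ∈ W, cS D (σ w.1 w.2) ≠ 0 → σ a c < σ w.1 w.2 := fun w hw _ =>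
    not_le.1 fun h => h0 ⟨w, hw, h⟩
  have s1 := hσ.1.self a; have s2 := hσ.1.self c; have s3 := hσ.1.comm c a
  have s4 := u d a b; have s5 := hσ.1.comm d a; have s6 := hσ.1.comm d b
  have s7 := u c a b; have s8 := u c a d; have s9 := lenB (D := D)
  refine le_trans ?_ (mul_le_mul_of_nonneg_left (le_add_of_nonneg_right l0) (by positivity))
  by_cases hm : ∀ w ∈ mA D k, ¬Site94.Crs σ a (σ a c) w.1 w.2
  · refine sf_par H hσ (.refl _) l1 hK.le ((hp _ _).2 ?_) (fun h => absurd ((hp' _ _).1 h) ?_)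
      hm h4 hg <;> unfold Site94.Crs <;> omega
  · refine sf_par H hσ (.swap _ _ _) l2 hK.le (o := c) ((hp' _ _).2 ?_)
      (fun h => absurd ((hp _ _).1 h) ?_) (fun w hw hc => hm fun w' hw' hc' => ?_) h4 hg
    · unfold Site94.Crs; omega
    · unfold Site94.Crs; omega
    · obtain ⟨rfl, m1, -⟩ := mem_mA hσ hw
      obtain ⟨rfl, -, -⟩ := mem_mA hσ hw'
      set p := (Ck32.mk k).1
      set q := (Ck32.mk k).2
      have := u p a c; have := u q a c; have := hσ.1.comm p a; have := hσ.1.comm p c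
      have := hσ.1.comm q a; have := hσ.1.comm q c; have := u a p q; have := u c p q
      have := u p a q; have := u q a p; have := u p c q; have := u q c p
      have := u a c p; have := u a c q; have := u c a p; have := u c a q
      have := hσ.1.comm q p
      unfold Site94.Crs at hc hc'
      omega

theorem vm_sf {e e' : Fin (1 + k + 1) × Fin (1 + k + 1)}
    (hp : ∀ o t, Site94.Crs σ o t e.1 e.2 ↔ Site94.Crs σ o t a b)
    (hp' : ∀ o t, Site94.Crs σ o t e'.1 e'.2 ↔ Site94.Crs σ o t c d)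
    (l1 : σ e.1 e.2 ∈ D.lo) (l2 : σ e'.1 e'.2 ≤ D.J) (h1 : σ a b = σ e.1 e.2) (h2 : D.J < σ a c)
    (h3 : D.J < σ b d) : (if a = c then 0 else D.v (σ e.1 e.2) (σ a c)) * |sf D k e e' W σ| ≤
      τ0 ^ W.length * 2 ^ (W.length + 3) * Site94.cP (1 + k + 1) 2 *
        (lad D k e.1 e.2 a c σ + mkd D k e.1 e.2 σ + 2 * rp D e.1 e.2 σ) := by
  have t0 := H.tau0
  have c1 := Site94.one_le_cP a 2
  have n1 := lad0 H e.1 e.2 a c σ
  have n2 := mkd0 (D := D) e.1 e.2 σ
  have n3 := rp0 H e.1 e.2 σ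
  set S : ℝ := τ0 ^ W.length * 2 ^ (W.length + 3) with hS
  have S0 : 0 ≤ S := by positivity
  have l3 := (CD.mem_lo.1 l1).2
  have hK : σ a c ≤ D.K := lenB (D := D) ▸ hσ.1.le _ _
  split_ifs with h
  · rw [zero_mul]
    positivity
  have v0 := D.v0 (σ e.1 e.2) (σ a c)
  have cr : ∀ y : ℝ, D.v (σ e.1 e.2) (σ a c) ≤ y → D.v (σ e.1 e.2) (σ a c) * |sf D k e e' W σ| ≤
      S * Site94.cP (1 + k + 1) 2 * y := fun y hy => by
    rw [mul_comm]
    exact mul_le_mul ((sf_crude H hσ e e').trans (le_mul_of_one_le_right S0 c1)) hy v0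
      (by positivity)
  by_cases hj : σ a c = mj D k σ
  · refine cr _ ?_
    rw [mkd, if_pos ⟨l1, hj ▸ hK⟩, ← hj]
    linarith
  have e1 : lad D k e.1 e.2 a c σ = gl D (σ a c) * D.v (σ e.1 e.2) (σ a c) := by
    rw [lad, if_neg h, if_pos ⟨l1, Finset.mem_Ioc.2 ⟨h2, hK⟩, hj⟩]
  rcases hK.lt_or_eq with hK | hK
  · have v2 : D.v (σ e.1 e.2) (σ a c) ≤ 2 := by
      have h4 := TK_move (h := 0) wt_one90 (um_rz hσ.1) h h1 rfl (by omega) (ov (n := D.n))
      have h5 := (TK_mono (h := 0) wt_one90 (um_rz hσ.1) (G := fun _ => 4)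
        (F := fun x : Fin (1 + k + 1) → Cube D.n => (ov (x a) (x b) - ov (x c) (x b)) ^ 2)
        fun x => by
          have := abs_le.1 (T157.G1.abs_ov_le (x a) (x b))
          have := abs_le.1 (T157.G1.abs_ov_le (x c) (x b))
          nlinarith).trans_eq (TK_const wt_one90 (um_rz hσ.1) 4)
      rw [h4] at h5
      exact le_of_mul_le_mul_left (h5.trans_eq (by norm_num)) two_pos
    have h4 : D.tl ≤ rp D e.1 e.2 σ := by
      rw [rp, if_pos ⟨l1, cl_zero σ _⟩]
      exact le_add_of_nonneg_left (mul_nonneg (sq_nonneg _) (D.v0 _ _))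
    refine (mul_le_mul_of_nonneg_left (sf_t H hσ hp hp' l3 l2 (h1.trans_le l3) h2 h3 hK hj)
      v0).trans ?_
    rw [mul_left_comm, mul_assoc S, e1, gl, if_pos hK]
    refine mul_le_mul_of_nonneg_left ?_ S0
    have h5 := mul_le_mul v2 h4 H.tl0 zero_le_two
    nlinarith [mul_le_mul_of_nonneg_right c1 n3, mul_nonneg (zero_le_one.trans c1) n2]
  · refine cr _ ?_
    rw [e1, gl, if_neg (by omega), one_mul]
    linarith

omit hσ in
theorem ov_lad (hσ : Rz D.B.length σ) (h1 : σ a b ≤ D.J) (h2 : D.J < σ a c) (h3 : D.J < σ b d)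
    {F : (Fin (1 + k + 1) → Cube D.n) → ℝ} (hF : ∀ x, F x = ov (x a) (x b) * ov (x c) (x d)) :
    |TB D σ F - TC D σ F| ≤ 2 * ((if a = c then 0 else D.v (σ a b) (σ a c)) +
      if b = d then 0 else D.v (σ a b) (σ b d)) := by
  obtain ⟨κ, _, σ', φ, g1, g2, g3, g4⟩ := TC_TK H hσ
  have hi := cutB H
  have h4 := g3 a b
  have h5 : σ' (φ a) (φ b) = σ a b := by omega
  have h6 : φ a ≠ φ b := fun h => by
    rw [h, g1.self] at h5
    omega
  have := TK_pair (h := 0) wt_one90 g1 h6 fun x z : Cube D.n => ov x z ^ 2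
  rw [TB_eq hσ, g2, funext hF]
  simp only [← g4 a c h2, ← g4 b d h3, ← sq, this, h5]
  exact TK_lad wt_one90 (um_rz hσ) (a := a) (b := b) (c := c) (d := d) rfl (by omega) (by omega)
    T157.G1.ov_comm

/-- the pointwise bound -/
theorem pw_le : |TB D σ (bk D [(aL, (a, b)), (aL, (c, d))] σ) -
      TC D σ (bk D [(aL, (a, b)), (aL, (c, d))] σ)| * |sf D k (a, b) (c, d) W σ| ≤
    64 * τ0 ^ 2 * (τ0 ^ W.length * 2 ^ (W.length + 3) * Site94.cP (1 + k + 1) 2) *
      (rp D a b σ + rp D c d σ + mkd D k a b σ + lad D k a b a c σ + lad D k a b b d σ +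
        lad D k a b a d σ + lad D k a b b c σ) := by
  have t0 := H.tau0
  have c1 := Site94.one_le_cP a 2
  have n1 := rp0 H a b σ
  have n2 := rp0 H c d σ
  have n3 := mkd0 (D := D) a b σ
  have n4 := lad0 H a b a c σ
  have n5 := lad0 H a b b d σ
  have n6 := lad0 H a b a d σ
  have n7 := lad0 H a b b c σ
  set S : ℝ := τ0 ^ W.length * 2 ^ (W.length + 3) * Site94.cP (1 + k + 1) 2 with hS
  have S0 : 0 ≤ S := by positivity
  by_cases hC : Cel D [(aL, (a, b)), (aL, (c, d))] σ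
  swap
  · rw [show bk D [(aL, (a, b)), (aL, (c, d))] σ = fun _ => 0 from funext (bk_zero hC), TB,
      TM_const wt_one90 hσ.1, TC_zero H hσ.1, sub_zero, abs_zero, zero_mul]
    positivity
  have hZ : ∀ z ∈ List.map Prod.fst [(aL, (a, b)), (aL, (c, d))], z.1 = true := by simp
  have l1 : σ a b ∈ D.lo := low_of hZ hC (aL, (a, b)) (by simp)
  have l2 : σ c d ∈ D.lo := low_of hZ hC (aL, (c, d)) (by simp)
  have l3 := (CD.mem_lo.1 l1).2
  have l4 := (CD.mem_lo.1 l2).2
  refine (mul_le_mul_of_nonneg_right (bk_sub H hσ.1 hZ hC) (abs_nonneg _)).trans ?_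
  rw [mul_assoc, mul_comm 64, mul_assoc, mul_assoc]
  refine mul_le_mul_of_nonneg_left ?_ (pow_nonneg t0 2)
  have sy : ∀ x y o t, Site94.Crs σ o t x y ↔ Site94.Crs σ o t y x := fun _ _ _ _ =>
    not_congr Iff.comm
  have ez : ez [(aL, (a, b)), (aL, (c, d))] = [(a, b), (c, d)] := rfl
  rw [ez]
  by_cases g1 : D.J < σ a c ∧ D.J < σ b d
  · have h1 := vm_sf H hσ (W := W) (e := (a, b)) (e' := (c, d)) (fun _ _ => .rfl) (fun _ _ => .rfl)
      l1 l4 rfl g1.1 g1.2
    have h2 := vm_sf H hσ (W := W) (e := (a, b)) (e' := (c, d)) (sy _ _) (sy _ _)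
      l1 l4 (hσ.1.comm _ _) g1.2 g1.1
    refine (mul_le_mul_of_nonneg_right (ov_lad H hσ.1 l3 g1.1 g1.2 fun x => by simp [ovP])
      (abs_nonneg _)).trans ?_
    rw [← hS] at h1 h2
    dsimp only at h1 h2
    nlinarith [mul_nonneg S0 n1, mul_nonneg S0 n2, mul_nonneg S0 n3, mul_nonneg S0 n4,
      mul_nonneg S0 n5, mul_nonneg S0 n6, mul_nonneg S0 n7]
  by_cases g2 : D.J < σ a d ∧ D.J < σ b c
  · have h1 := vm_sf H hσ (W := W) (e := (a, b)) (e' := (c, d)) (fun _ _ => .rfl) (sy _ _)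
      l1 l4 rfl g2.1 g2.2
    have h2 := vm_sf H hσ (W := W) (e := (a, b)) (e' := (c, d)) (sy _ _) (fun _ _ => .rfl)
      l1 l4 (hσ.1.comm _ _) g2.2 g2.1
    refine (mul_le_mul_of_nonneg_right (ov_lad H hσ.1 l3 g2.1 g2.2 fun x => by
      simp [ovP, T157.G1.ov_comm (x c)]) (abs_nonneg _)).trans ?_
    rw [← hS] at h1 h2
    dsimp only at h1 h2
    nlinarith [mul_nonneg S0 n1, mul_nonneg S0 n2, mul_nonneg S0 n3, mul_nonneg S0 n4,
      mul_nonneg S0 n5, mul_nonneg S0 n6, mul_nonneg S0 n7]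
  have h1 := sf_J H hσ (W := W) l3 g1 g2
  have h2 := ovP_repl H hσ.1 (A := [(a, b), (c, d)]) (m := 0) (List.forall_mem_cons.2 ⟨l1, List.forall_mem_singleton.2 l2⟩) rfl
  rw [← mul_assoc, ← hS] at h1
  refine (mul_le_mul h2 h1 (abs_nonneg _) ((abs_nonneg _).trans h2)).trans ?_
  have x0 := H.X0
  have x2 : D.X ^ 3 ≤ D.X ^ 2 := pow_le_pow_of_le_one x0 H.X1 (by norm_num)
  have x3 : D.X ^ 3 ≤ 1 := pow_le_one₀ x0 H.X1
  have k1 : ∀ y, (32 * D.v y (D.J + 1) + D.tl) * D.X ^ 3 ≤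
      32 * (D.X ^ 2 * D.v y (D.J + 1) + D.tl) := fun y => by
    nlinarith [mul_le_mul_of_nonneg_left x2 (D.v0 y (D.J + 1)), mul_le_mul_of_nonneg_left x3 H.tl0,
      H.tl0]
  have r1 : rp D a b σ = _ := if_pos ⟨l1, cl_zero σ _⟩
  have r2 : rp D c d σ = _ := if_pos ⟨l2, cl_zero σ _⟩
  have k2 := mul_le_mul_of_nonneg_left (add_le_add (k1 (σ a b)) (k1 (σ c d))) S0
  rw [← r1, ← r2] at k2
  simp only [List.map_cons, List.map_nil, List.sum_cons, List.sum_nil, Nat.cast_zero, pow_zero]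
  nlinarith [mul_nonneg S0 n3, mul_nonneg S0 n4, mul_nonneg S0 n5, mul_nonneg S0 n6,
    mul_nonneg S0 n7]

end pw

/-- low letter or mean letter -/
def ph (D : CD) (b : Bool) : Lr D := cond b (pL D) (pM D)

theorem split_two {β : Type} {Z : List (Bool × β)} (h : (Z.map Prod.fst).count true = 2) :
    ∃ (e e' : β) (W : List β), Z.Perm ((true, e) :: (true, e') :: W.map fun w => (false, w)) := by
  have h1 : (Z.filter fun z => z.1).length = 2 := by
    rw [← h, List.count_eq_countP, List.countP_map, List.countP_eq_length_filter]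
    congr 2
    funext z
    simp
  obtain ⟨z, z', h2⟩ := List.length_eq_two.1 h1
  have m : ∀ y ∈ [z, z'], y = (true, y.2) := fun y hy =>
    Prod.ext (List.mem_filter.1 (h2 ▸ hy)).2 rfl
  refine ⟨z.2, z'.2, (Z.filter fun z => !z.1).map Prod.snd, ?_⟩
  have h3 := (List.filter_append_perm (fun z => z.1) Z).symm
  rw [h2] at h3
  have h4 : ((Z.filter fun z => !z.1).map Prod.snd).map (fun w => (false, w)) =
      Z.filter fun z => !z.1 := by
    rw [List.map_map]
    refine Eq.trans (List.map_congr_left fun y hy => ?_) (List.map_id _)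
    exact Prod.ext (by simpa using (List.mem_filter.1 hy).2) rfl
  rw [← m z (by simp), ← m z' (by simp), h4]
  exact h3

theorem se_W (σ : SM r) (x : Fin r → Bool) : ∀ W : EL r,
    bG (fun a => (ph D a).2) (W.map fun w => (false, w)) σ x =
      (W.map fun w => cS D (σ w.1 w.2)).prod * se D W σ x
  | [] => by simp [bG, se]
  | w :: W => by
      have := se_W σ x W
      simp only [bG, se, List.map_cons, List.prod_cons] at this ⊢
      rw [this]
      simp only [ph, cond, pM, CD.Sd, cS]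
      split_ifs <;> ring

/-- **ladder reduction**: two low letters and any number of mean letters, any order -/
theorem lad_ph (b : Bool) {f : List Bool} (hf : f.count true = 2) :
    Bd b fun D => hw D (f.map (ph D)) - hc D (f.map (ph D)) := by
  have hne : f ≠ [] := fun e => by simp [e] at hf
  refine Bd.mk' fun τ0 => ⟨cG f.length * (64 * τ0 ^ 2 * (τ0 ^ (f.length - 2) * 2 ^ (f.length + 1) *
    Site94.cP (2 * f.length + 2) 2) * (9 * 4 ^ (1 + 2 * f.length))), fun D H _ => ?_⟩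
  have t0 := H.tau0
  have e0 := H.Err0
  have c0 := Site94.cP_nonneg (2 * f.length + 2) 2
  rw [mul_assoc]
  refine redG_le H _ hne (by positivity) fun k hk Z hZ hL => ?_
  obtain ⟨⟨a, b⟩, ⟨c, d⟩, W, hp⟩ := split_two ((hZ.count_eq true).trans hf)
  have hl : f.length = W.length + 2 := by
    rw [← hZ.length_eq, List.length_map, hp.length_eq]; simp
  have hab : a ≠ b := hL (true, (a, b)) (hp.symm.subset (by simp))
  have hcd : c ≠ d := hL (true, (c, d)) (hp.symm.subset (by simp))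
  refine ⟨fun σ => 64 * τ0 ^ 2 * (τ0 ^ W.length * 2 ^ (W.length + 3) * Site94.cP (1 + k + 1) 2) *
    (rp D a b σ + rp D c d σ + mkd D k a b σ + lad D k a b a c σ + lad D k a b b d σ +
      lad D k a b a d σ + lad D k a b b c σ), ?_, fun σ hσ => ?_⟩
  · simp only [av_mul, av_add]
    have h1 : Site94.cP (1 + k + 1) 2 ≤ Site94.cP (2 * f.length + 2) 2 := by
      have : ((1 + k + 1 : ℕ) : ℝ) ≤ (2 * f.length + 2 : ℕ) := by exact_mod_cast (by omega)
      unfold Site94.cP
      gcongr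
    have h2 : (4 : ℝ) ^ (1 + k) * D.Err ≤ 4 ^ (1 + 2 * f.length) * D.Err :=
      mul_le_mul_of_nonneg_right (pow_le_pow_right₀ (by norm_num) (by omega)) e0
    have h3 : (3 : ℝ) ^ (1 + k) * D.Err ≤ 4 ^ (1 + k) * D.Err :=
      mul_le_mul_of_nonneg_right (pow_le_pow_left₀ (by norm_num) (by norm_num) _) e0
    have c1 := Site94.cP_nonneg (1 + k + 1) 2
    rw [mul_assoc _ _ D.Err, show f.length - 2 = W.length by omega,
      show f.length + 1 = W.length + 3 by omega]
    refine le_trans (mul_le_mul_of_nonneg_left (?_ : _ ≤ 9 * 4 ^ (1 + 2 * f.length) * D.Err)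
      (by positivity)) (by gcongr)
    linarith [w_rp H hab, w_rp H hcd, w_mkd H hab, w_lad H hab a c, w_lad H hab b d,
      w_lad H hab a d, w_lad H hab b c]
  · have e1 : bG (fun a => (ph D a).1) Z σ = bk D [(aL, (a, b)), (aL, (c, d))] σ := funext fun x => by
      rw [bG, (hp.map _).prod_eq, List.map_cons, List.map_cons, List.prod_cons, List.prod_cons,
        List.prod_eq_one (fun y hy => by
          obtain ⟨z, hz, rfl⟩ := List.mem_map.1 hy
          obtain ⟨w, -, rfl⟩ := List.mem_map.1 hz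
          rfl)]
      rfl
    have e2 : (fun x => se D (mA D k) σ x * bG (fun a => (ph D a).2) Z σ x) = fun x =>
        (W.map fun w => cS D (σ w.1 w.2)).prod *
          se D ((a, b) :: (c, d) :: (mA D k ++ W)) σ x := funext fun x => by
      have := se_W (D := D) σ x W
      rw [bG] at this
      rw [bG, (hp.map _).prod_eq, List.map_cons, List.map_cons, List.prod_cons, List.prod_cons, this]
      simp only [se, List.map_cons, List.prod_cons, List.map_append, List.prod_append, ph, cond, lt,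
        oZs]
      ring
    rw [e1, e2, Ck32.TS, TM_mul]
    exact pw_le H hσ

theorem red_aa (b : Bool) : Red b [aL, aL] :=
  (lad_ph b (f := [true, true]) rfl).congr fun _ D H _ => by
    rw [tw_eq H, ← hc_lt]; rfl

theorem lad_LLM (b : Bool) : Bd b fun D => hw D [pL D, pL D, pM D] - hc D [pL D, pL D, pM D] :=
  lad_ph b (f := [true, true, false]) rfl

theorem lad_MLL (b : Bool) : Bd b fun D => hw D [pM D, pL D, pL D] - hc D [pM D, pL D, pL D] :=
  lad_ph b (f := [false, true, true]) rfl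

/-- the mean part of `MX` on the cluster word -/
theorem mxM_of {b : Bool} (h : Bd b fun D => hc D [pL D, pL D, pM D] - D.S2 * D.dmx) : MxM b :=
  ((lad_LLM b).add h).congr fun _ D H _ => by
    rw [perm3 H (ok_pM H)]
    ring

end Crest.Agent.T156.Cas.C40.L90

end
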