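import Crest.Agent.T156.Rp_90
import Crest.Agent.T156.SiteC_94
import Crest.Agent.T156.EgB_33

/-!
# Row 156, block C: a spin-free low edge (helper15)

If the newest edge is read on clusters only, its graft sum is `O (ex i)` (`DG_free`).  `core` is
the bound for a word of low letters whose innermost letter has no site factor, for any measure
of the first pair.
-/

set_option autoImplicit false
set_option linter.unusedSectionVars false

noncomputable section

namespace Crest.Agent.T156.Cas.Lb15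

open MeasureTheory Real Set Filter Topology
open Crest.Agent.T157.E Crest.Agent.T157.Casc Crest.Agent.T157.SL
open Wt87 Nu87 W90 G90 R90 Mul55 Ker15 Law Wp52

section ws
variable {Θ : Type} {M : List (Lv Θ)} {r : ℕ} {σ : SM r}

theorem abs_Ws_le (hM : Mono 0 M) (hσ : Rz M.length σ) {G H : Fin r → ℕ → ℝ} (hG : NCm σ G)
    (hH : NCm σ H) (e : ∀ a j, j ≤ M.length → |G a j| ≤ H a j) : |Ws M σ G| ≤ Ws M σ H := by
  have h1 := Ws_mono hM hσ hG hH fun a j hj => (abs_le.1 (e a j hj)).2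
  have h2 := Ws_mono hM hσ (G := fun a j => -1 * H a j) (G' := G)
    (fun a b j h => congrArg (-1 * ·) (hH a b j h)) hG fun a j hj => by linarith [(abs_le.1 (e a j hj)).1]
  rw [Ws_mul] at h2
  rw [abs_le]
  constructor <;> linarith

theorem abs_sum_le' {f : Fin r → ℝ} {c : ℝ} (h : ∀ a, |f a| ≤ c) : |∑ a, f a| ≤ r * c :=
  (Finset.abs_sum_le_sum_abs _ _).trans ((Finset.sum_le_card_nsmul _ _ c fun a _ => h a).trans_eq
    (by simp))

/-- a graft above the cut is an old leaf, up to the weight of the cut -/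
theorem Ws_hi (hM : Mono 0 M) (hσ : Rz M.length σ) {i : ℕ} (hi : i < M.length)
    {G : Fin r → ℕ → ℝ} (hG : NCm σ G) {g : Fin r → ℝ} {β : ℝ} (hβ : 0 ≤ β)
    (h1 : ∀ a j, i < j → j ≤ M.length → G a j = g a) (h2 : ∀ a j, j ≤ M.length → |G a j| ≤ β) :
    |Ws M σ G - ∑ a, g a| ≤ 2 * r * (ex M i * β) := by
  have e0 := ex_nonneg hM i
  have hg : ∀ a, |g a| ≤ β := fun a => h1 a _ hi le_rfl ▸ h2 a _ le_rfl
  have e1 : Ws M σ G = Ws M σ (fun a j => if j ≤ i then G a j else 0) +
      Ws M σ fun a j => if j ≤ i then 0 else g a := by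
    rw [← Ws_add]
    refine Ws_congr M σ fun a j hj => ?_
    split_ifs with h
    exacts [(add_zero _).symm, (h1 a j (not_le.1 h) hj).trans (zero_add _).symm]
  have e2 : Ws M σ (fun a j => if j ≤ i then 0 else g a) =
      ∑ a, g a + ex M i * ∑ a, (0 - g a) / Cas.cls σ a (i + 1) := by
    rw [Ws, Finset.sum_eq_single i (fun j _ hj => by
      rcases lt_or_gt_of_ne hj with h' | h'
      · simp [h'.le, Nat.succ_le_of_lt h']
      · simp [not_le.2 h', not_le.2 (h'.trans j.lt_succ_self)])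
      fun h => absurd (Finset.mem_range.2 hi) h]
    simp [not_le.2 hi]
  have b1 := abs_Ws_le hM hσ (G := fun a j => if j ≤ i then G a j else 0)
    (H := fun _ j => β * if j ≤ i then 1 else 0) (fun a b j h => by simp only [hG a b j h])
    (fun _ _ _ _ => rfl) fun a j hj => by
      split_ifs
      exacts [(h2 a j hj).trans_eq (mul_one β).symm, by simp]
  rw [Ws_mul] at b1
  have b2 := mul_le_mul_of_nonneg_left (Ws_low hM σ i) hβ
  have b3 : |∑ a, (0 - g a) / (Cas.cls σ a (i + 1) : ℝ)| ≤ r * β := abs_sum_le' fun a => by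
    rw [abs_div, zero_sub, abs_neg, Nat.abs_cast]
    rcases Nat.eq_zero_or_pos (Cas.cls σ a (i + 1)) with h | h
    · rw [h]; simpa using hβ
    · exact (div_le_self (abs_nonneg _) (Nat.one_le_cast.2 h)).trans (hg a)
  rw [e1, e2, show ∀ x y z : ℝ, x + (y + z) - y = x + z from fun x y z => by ring]
  refine (abs_add_le _ _).trans ?_
  rw [abs_mul, abs_of_nonneg e0]
  nlinarith [mul_le_mul_of_nonneg_left b3 e0]

/-- **a spin-free edge**: the ends are read on the clusters only -/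
theorem DG_free (hM : Mono 0 M) {i : ℕ} (hi : i < M.length) {Ψ : GF}
    (inv : ∀ r (σ : SM r) (E : EL r) a b j, Rz M.length σ → i < j →
      Ψ (r + 1) (gr M.length σ a j) ((0, b.succ) :: E.re Fin.succ) = Ψ r σ ((a, b) :: E))
    (diag : ∀ r (σ : SM r) (E : EL r) a, Rz M.length σ → Ψ r σ ((a, a) :: E) = 0)
    (hσ : Rz M.length σ) (E : EL r) {β : ℝ} (hβ : 0 ≤ β)
    (bd : ∀ r' (σ' : SM r') (ι : Fin r → Fin r') p, Rz M.length σ' →
      (∀ a b, σ' (ι a) (ι b) = σ a b) → |Ψ r' σ' (p :: E.re ι)| ≤ β) :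
    |DG (-1) M Ψ r σ E| ≤ 4 * (r + 1) ^ 2 * (ex M i * β) := by
  have e0 := mul_nonneg (ex_nonneg hM i) hβ
  have e1 : ∑ a, ∑ b ∈ Finset.univ.erase a, Ψ r σ ((a, b) :: E) = ∑ a, ∑ b, Ψ r σ ((a, b) :: E) :=
    Finset.sum_congr rfl fun a _ => Finset.sum_erase _ (diag r σ E a hσ)
  have b1 := Ws_hi hM hσ hi (hσ.ncm fun σ' => ∑ b : Fin r, Ψ (r + 1) σ' ((0, b.succ) :: E.re Fin.succ))
    (g := fun a => ∑ b, Ψ r σ ((a, b) :: E)) (β := r * β) (by positivity)
    (fun a j h _ => Finset.sum_congr rfl fun b _ => inv r σ E a b j hσ h)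
    fun a j _ => abs_sum_le' fun b => bd _ _ _ _ (hσ.gr a j) fun _ _ => rfl
  have b2 := abs_Ws_le hM hσ (hσ.ncm fun σ' => Ws M σ' (fun c k => Ψ (r + 2) (gr M.length σ' c k)
      ((0, 1) :: E.re fun b => b.succ.succ)) -
      ∑ b : Fin r, Ψ (r + 1) σ' ((b.succ, 0) :: E.re Fin.succ))
    (H := fun _ _ => 2 * (r + 1 : ℕ) * (ex M i * β)) (fun _ _ _ _ => rfl) fun a j _ => by
      have h := hσ.gr a j
      have := Ws_hi hM h hi (h.ncm fun σ' => Ψ (r + 2) σ' ((0, 1) :: E.re fun b => b.succ.succ))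
        (g := fun c => Ψ (r + 1) (gr M.length σ a j) ((c, 0) :: E.re Fin.succ)) hβ
        (fun c k hk _ => by
          have := inv (r + 1) _ (E.re Fin.succ) c 0 k h hk
          rwa [re_re] at this)
        fun c k _ => bd _ _ _ _ (h.gr c k) fun _ _ => rfl
      rwa [Fin.sum_univ_succ, diag _ _ _ _ h, zero_add] at this
  rw [Ws_sub, Ws_const, Fintype.card_fin] at b2
  rw [DG, e1, Ws_add]
  have hr : (0 : ℝ) ≤ r := by positivity
  push_cast at b2
  rw [abs_le] at b1 b2 ⊢
  constructor <;> nlinarith [mul_nonneg hr e0, mul_nonneg hr (mul_nonneg hr e0)]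

/-- admissible measures of the first pair -/
structure Mu (M : List (Lv Θ)) (i : ℕ) (μ : ℕ → ℝ) (W : ℝ) : Prop where
  tot : ∑ j ∈ Finset.range (M.length + 1), |μ j| ≤ W
  low : ∀ D : ℕ → ℝ, (∀ j, 0 ≤ D j) → (∀ j, i < j → D j = 0) →
    ∑ j ∈ Finset.range (M.length + 1), |μ j| * D j ≤ W * Br M D

theorem mu_dm (hM : Mono 0 M) (i : ℕ) : Mu M i (dm M 0) 1 := by
  refine ⟨?_, fun D _ _ => ?_⟩ <;> simp only [abs_of_nonneg (dm_nonneg hM _)]
  · rw [sum_dm, ex_length, sub_zero]
  · rw [one_mul, Br]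

theorem mu_up (hM : Mono 0 M) (i : ℕ) (ω : ℕ → ℝ) :
    Mu M i (fun j => if j ∈ Finset.Ioo i M.length then ω j else 0)
      (∑ j ∈ Finset.Ioo i M.length, |ω j|) := by
  refine ⟨le_of_eq ?_, fun D h0 h1 => ?_⟩
  · simp only [apply_ite abs, abs_zero]
    rw [← Finset.sum_filter]
    refine Finset.sum_congr ?_ fun _ _ => rfl
    ext j
    simp only [Finset.mem_filter, Finset.mem_range, Finset.mem_Ioo]
    omega
  · refine (Finset.sum_eq_zero fun j _ => ?_).trans_le (mul_nonneg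
      (Finset.sum_nonneg fun _ _ => abs_nonneg _) (Br_nonneg hM fun j _ => h0 j))
    split_ifs with h
    · rw [h1 j (Finset.mem_Ioo.1 h).1, mul_zero]
    · rw [abs_zero, zero_mul]

/-- marked low edges -/
theorem avt_edge [Fintype Θ] (hM : Mono 0 M) {i : ℕ} {μ : ℕ → ℝ} {W : ℝ} (H : Mu M i μ W)
    {k N : ℕ} (hk : k ≤ N) {α : Type} [Fintype α] {p q : α → Fin (1 + k + 1)}
    (hpq : ∀ t, p t ≠ q t) {D : α → ℕ → ℝ} (h0 : ∀ t j, 0 ≤ D t j) (h1 : ∀ t j, i < j → D t j = 0)
    {φ : SM (1 + k + 1) → ℝ} (hφ : ∀ σ, Rz M.length σ → |φ σ| ≤ ∑ t, D t (σ (p t) (q t))) :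
    |avt M μ k φ| ≤ (3 * (1 + N)) ^ N * (3 * W * ∑ t, Br M (D t)) := by
  have hB : ∀ t, 0 ≤ Br M (D t) := fun t => Br_nonneg hM fun j _ => h0 t j
  have hW : 0 ≤ W := (Finset.sum_nonneg fun _ _ => abs_nonneg _).trans H.tot
  have hc : (3 * (1 + k : ℝ)) ^ k ≤ (3 * (1 + N)) ^ N :=
    (pow_le_pow_left₀ (by positivity) (by have : (k : ℝ) ≤ N := Nat.cast_le.2 hk; linarith) k).trans
      (pow_le_pow_right₀ (by have : (0 : ℝ) ≤ N := by positivity
                             linarith) hk)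
  refine (Finset.abs_sum_le_sum_abs _ _).trans ((Finset.sum_le_sum (g := fun j =>
    (3 * (1 + k : ℝ)) ^ k * ∑ t, (|μ j| * D t j + 2 * Br M (D t) * |μ j|)) fun j hj => ?_).trans ?_)
  · have hj' := Nat.lt_succ_iff.1 (Finset.mem_range.1 hj)
    rw [abs_mul]
    refine (mul_le_mul_of_nonneg_left ((Site94.abs_avc_le hM (rz_tw _ j) k fun σ hσ _ =>
      hφ σ hσ).trans ((avc_sum k _ _).trans_le (Finset.sum_le_sum fun t _ =>
        Site94.avc_pair_le hM hj' k (h0 t) (hpq t)))) (abs_nonneg _)).trans_eq ?_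
    simp only [Finset.mul_sum]
    exact Finset.sum_congr rfl fun t _ => by ring
  · rw [← Finset.mul_sum, Finset.sum_comm]
    refine mul_le_mul hc ?_ (Finset.sum_nonneg fun t _ => Finset.sum_nonneg fun j _ =>
      add_nonneg (mul_nonneg (abs_nonneg _) (h0 t j))
        (mul_nonneg (mul_nonneg zero_le_two (hB t)) (abs_nonneg _))) (by positivity)
    rw [Finset.mul_sum]
    refine Finset.sum_le_sum fun t _ => ?_
    rw [Finset.sum_add_distrib, ← Finset.mul_sum]
    nlinarith [H.low (D t) (h0 t) (h1 t), mul_le_mul_of_nonneg_left H.tot (hB t)]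

end ws

variable {Ω : Type} [Fintype Ω] {w : Ω → ℝ} {L : List (Lv Ω)} {h : Ω → ℝ} {r n i : ℕ}

/-- the edge number `t` -/
def ed (E : EL r) (H : n ≤ E.length) (t : Fin n) : Fin r × Fin r := E[t.1]'(t.2.trans_le H)

theorem eF_ed {A : Type} (σ : SM r) (x : Fin r → A) : ∀ {n : ℕ} (U : Fin n → ℕ → A → A → ℝ)
    (E : EL r) (H : n ≤ E.length), eF (List.ofFn U) σ E x =
      ∏ t, U t (σ (ed E H t).1 (ed E H t).2) (x (ed E H t).1) (x (ed E H t).2)
  | 0, _, _, _ => by simp [eF]
  | n + 1, U, e :: E, H => by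
      rw [List.ofFn_succ, eF, eF_ed σ x _ E (Nat.le_of_succ_le_succ H), Fin.prod_univ_succ, mul_comm]
      rfl

/-- the first `n` edges, read on the clusters -/
def BE (w : Ω → ℝ) (L : List (Lv Ω)) (h : Ω → ℝ) (i : ℕ) (V : Fin n → ℕ → Ω → Ω → ℝ) : GF :=
  fun _ σ E => if H : n ≤ E.length then BC w L h i σ (fun t => (ed E H t).1) (fun t => (ed E H t).2)
    fun t => V t (σ (ed E H t).1 (ed E H t).2) else 0

variable {V U : Fin n → ℕ → Ω → Ω → ℝ}

theorem BE_re (h0 : ∀ t j, i < j → V t j = 0) {r' : ℕ} {σ : SM r} {σ' : SM r'} (ψ : Fin r' → Fin r)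
    (H : ∀ u v, min (σ' u v) (i + 1) = min (σ (ψ u) (ψ v)) (i + 1)) (E : EL r') :
    BE w L h i V r' σ' E = BE w L h i V r σ (E.re ψ) := by
  by_cases hE : n ≤ E.length
  · have hE' : n ≤ (E.re ψ).length := (re_length E ψ).symm ▸ hE
    have e : ∀ t, ed (E.re ψ) hE' t = (ψ (ed E hE t).1, ψ (ed E hE t).2) := fun t =>
      List.getElem_map _
    rw [BE, BE, dif_pos hE, dif_pos hE', BC, BC]
    simp only [e]
    congr 1
    · funext u v
      by_cases huv : u = v
      · simp [lf, huv]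
      · rw [lf_ne _ _ huv, lf_ne _ _ huv, min_self, H]
        obtain ⟨t, c⟩ := u
        obtain ⟨s, d⟩ := v
        cases c <;> cases d <;> rfl
    · funext y
      refine Finset.prod_congr rfl fun t _ => ?_
      have := H (ed E hE t).1 (ed E hE t).2
      by_cases h1 : σ' (ed E hE t).1 (ed E hE t).2 ≤ i
      · rw [show σ' (ed E hE t).1 (ed E hE t).2 = σ (ψ (ed E hE t).1) (ψ (ed E hE t).2) by omega]
      · rw [h0 t _ (not_le.1 h1), h0 t _ (by omega)]
  · rw [BE, BE, dif_neg hE, dif_neg (re_length E ψ ▸ hE)]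

theorem BE_zero {σ : SM r} {E : EL r} (H : n ≤ E.length) {t : Fin n}
    (ht : V t (σ (ed E H t).1 (ed E H t).2) = 0) : BE w L h i V r σ E = 0 := by
  rw [BE, dif_pos H, BC]
  refine Eq.trans (congrArg _ (funext fun y => ?_)) ((TK_mul 0 fun _ => 0).trans (zero_mul _))
  rw [zero_mul]
  exact Finset.prod_eq_zero (Finset.mem_univ t) (by rw [ht]; rfl)

theorem abs_BE_le (hw : Wt w) {a : Fin n → ℝ} (hV : ∀ t j x y, |V t j x y| ≤ a t)
    (ha : ∀ t, 0 ≤ a t) {σ : SM r} (hσ : Rz L.length σ) (E : EL r) :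
    |BE w L h i V r σ E| ≤ ∏ t, a t := by
  unfold BE
  split_ifs with H
  · refine (abs_TK_le hw (um_lf (um_rz hσ) _ _) (G := fun _ => ∏ t, a t) fun y => ?_).trans_eq
      (TK_const hw (um_lf (um_rz hσ) _ _) _)
    rw [Finset.abs_prod]
    exact Finset.prod_le_prod (fun _ _ => abs_nonneg _) fun t _ => hV _ _ _ _
  · rw [abs_zero]
    exact Finset.prod_nonneg fun t _ => ha t

theorem prod_sub_le {ι : Type} [DecidableEq ι] {x y : ι → ℝ} {b : ℝ} (hb : 1 ≤ b)
    (hx : ∀ t, |x t| ≤ b) (hy : ∀ t, |y t| ≤ b) (T : Finset ι) :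
    |∏ t ∈ T, x t - ∏ t ∈ T, y t| ≤ b ^ T.card * ∑ t ∈ T, |x t - y t| := by
  induction T using Finset.induction_on with
  | empty => simp
  | insert s T hs ih =>
    have h1 : |∏ t ∈ T, y t| ≤ b ^ T.card := by
      rw [Finset.abs_prod, ← Finset.prod_const]
      exact Finset.prod_le_prod (fun _ _ => abs_nonneg _) fun t _ => hy t
    have h2 : 0 ≤ b ^ T.card := by positivity
    rw [Finset.prod_insert hs, Finset.prod_insert hs, Finset.sum_insert hs,
      Finset.card_insert_of_notMem hs, show x s * ∏ t ∈ T, x t - y s * ∏ t ∈ T, y t =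
        x s * (∏ t ∈ T, x t - ∏ t ∈ T, y t) + (x s - y s) * ∏ t ∈ T, y t by ring, pow_succ']
    refine (abs_add_le _ _).trans ?_
    rw [abs_mul, abs_mul]
    have h3 := mul_le_mul (hx s) ih (abs_nonneg _) (zero_le_one.trans hb)
    have h4 := mul_le_mul_of_nonneg_left h1 (abs_nonneg (x s - y s))
    nlinarith [mul_le_mul_of_nonneg_right hb (mul_nonneg h2 (abs_nonneg (x s - y s)))]

/-- the error of the letter `t` at the level `j` -/
def De (w : Ω → ℝ) (L : List (Lv Ω)) (h : Ω → ℝ) (i : ℕ) (U V : Fin n → ℕ → Ω → Ω → ℝ)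
    (a : Fin n → ℝ) (b : ℝ) (t : Fin n) (j : ℕ) : ℝ :=
  if j ≤ i then b ^ n * pi2 w L j (fun x y => |U t j x y - V t j x y|) h +
    (∏ s, a s) * (n ^ 2 * (VV w L h i j (V t j) / a t ^ 2)) else 0

theorem De_nonneg (hw : Wt w) (hi : i < L.length) {a : Fin n → ℝ} (ha : ∀ t, 0 < a t) {b : ℝ}
    (hb : 1 ≤ b) (t : Fin n) (j : ℕ) : 0 ≤ De w L h i U V a b t j := by
  unfold De
  split_ifs with hj
  · exact add_nonneg (mul_nonneg (by positivity) (pi2_nonneg hw _ _ (fun _ _ => abs_nonneg _) _))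
      (mul_nonneg (Finset.prod_pos fun t _ => ha t).le (mul_nonneg (by positivity)
        (div_nonneg (VV_nonneg hw i (hj.trans hi.le) _) (sq_nonneg _))))
  · exact le_rfl

theorem repl_one (hw : Wt w) (hi : i < L.length) (U0 : ∀ t j, i < j → U t j = 0)
    (V0 : ∀ t j, i < j → V t j = 0) {a : Fin n → ℝ} (ha : ∀ t, 0 < a t)
    (hV : ∀ t j x y, |V t j x y| ≤ a t) {b : ℝ} (hb : 1 ≤ b) (hU : ∀ t j x y, |U t j x y| ≤ b)
    (hab : ∀ t, a t ≤ b) {σ : SM r} (hσ : Rz L.length σ) {E : EL r} (H : n ≤ E.length) :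
    |tmG w L h (List.ofFn U) r σ E - BE w L h i V r σ E| ≤
      ∑ t, De w L h i U V a b t (σ (ed E H t).1 (ed E H t).2) := by
  classical
  have e : tmG w L h (List.ofFn U) r σ E = TM w L h σ fun x =>
      ∏ t, U t (σ (ed E H t).1 (ed E H t).2) (x (ed E H t).1) (x (ed E H t).2) :=
    congrArg (TM w L h σ) (funext fun x => eF_ed σ x U E H)
  by_cases hl : ∀ t, σ (ed E H t).1 (ed E H t).2 ≤ i
  · have h1 := repl_TK (h := h) hw (um_rz hσ) hi (p := fun t => (ed E H t).1)
      (q := fun t => (ed E H t).2) hl (U := fun t => V t (σ (ed E H t).1 (ed E H t).2)) ha le_rfl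
      fun t x y => (hV t _ x y).trans_eq (one_mul _).symm
    have ne : ∀ t, (ed E H t).1 ≠ (ed E H t).2 := fun t e => by
      have := hl t
      rw [e, hσ.self] at this
      omega
    have h2 := abs_TK_le (L := L) (h := h) hw (um_rz hσ) fun x => prod_sub_le hb
      (x := fun t => U t (σ (ed E H t).1 (ed E H t).2) (x (ed E H t).1) (x (ed E H t).2))
      (y := fun t => V t (σ (ed E H t).1 (ed E H t).2) (x (ed E H t).1) (x (ed E H t).2))
      (fun t => hU _ _ _ _) (fun t => (hV _ _ _ _).trans (hab t)) Finset.univ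
    rw [TK_sub, TK_mul, TK_sum, Finset.card_univ, Fintype.card_fin] at h2
    rw [e, TM_eq hw hσ, BE, dif_pos H]
    refine (abs_sub_le _ _ _).trans ((add_le_add h2 h1).trans_eq ?_)
    rw [Finset.mul_sum, Finset.mul_sum, ← Finset.sum_add_distrib]
    refine Finset.sum_congr rfl fun t _ => ?_
    rw [De, if_pos (hl t), Er, Fintype.card_fin, TK_pair hw (um_rz hσ) (ne t)
      fun x y => |U t (σ (ed E H t).1 (ed E H t).2) x y - V t (σ (ed E H t).1 (ed E H t).2) x y|]
    simp only [if_neg (not_lt.2 (hV t _ _ _)), pi2_const hw, mul_zero, add_zero]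
  · obtain ⟨t, ht⟩ := not_forall.1 hl
    rw [BE_zero H (V0 t _ (not_le.1 ht)), e, show (fun x : Fin r → Ω =>
      ∏ t, U t (σ (ed E H t).1 (ed E H t).2) (x (ed E H t).1) (x (ed E H t).2)) = fun _ => 0 from
        funext fun x => Finset.prod_eq_zero (Finset.mem_univ t)
          (by rw [U0 t _ (not_le.1 ht)]; rfl), TM_const hw hσ, sub_zero, abs_zero]
    exact Finset.sum_nonneg fun t _ => De_nonneg hw hi ha hb t _

theorem ok_app {k : ℕ} {N : EL (1 + k + 1)} (hO : N.Ok) : EL.Ok (N ++ [(old k 1, old k 0)]) :=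
  fun e he => by
    rcases List.mem_append.1 he with he | he
    · exact hO e he
    · rw [List.mem_singleton.1 he]
      exact fun h => by simpa [old] using congrArg Fin.val h

/-- the constant of `core` -/
def cL (k : ℕ) : ℝ := cG (k + 1) * (3 * (1 + (2 * (k + 1) : ℕ))) ^ (2 * (k + 1)) * 3 +
  cG k * (3 * (1 + (2 * k : ℕ))) ^ (2 * k) * 3 * (4 * (2 * k + 3) ^ 2)

theorem cL_nonneg (k : ℕ) : 0 ≤ cL k := by
  have := cG_pos k
  have := cG_pos (k + 1)
  unfold cL
  positivity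

/-- **a word of low letters whose innermost letter is spin-free** -/
theorem core (hw : Wt w) (hL : Mono 0 L) (hi : i < L.length) {μ : ℕ → ℝ} {W : ℝ}
    (Hμ : Mu L i μ W) {U V : Fin (n + 2) → ℕ → Ω → Ω → ℝ} (U0 : ∀ t j, i < j → U t j = 0)
    (V0 : ∀ t j, i < j → V t j = 0) {a : Fin (n + 2) → ℝ} (ha : ∀ t, 0 < a t)
    (hV : ∀ t j x y, |V t j x y| ≤ a t) {b : ℝ} (hb : 1 ≤ b) (hU : ∀ t j x y, |U t j x y| ≤ b)
    (hab : ∀ t, a t ≤ b) {c : GF} {z : ℝ} (hz : 0 ≤ z)
    (hc : ∀ r σ E, Rz L.length σ → |c r σ E| ≤ z)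
    (hc' : ∀ r σ E a j, Rz L.length σ → c (r + 1) (gr L.length σ a j) (E.re Fin.succ) = c r σ E)
    {k : ℕ} (hk : n ≤ k) :
    |LamG L μ (k + 1) fun r σ E => tmG w L h (List.ofFn U) r σ E * c r σ E.tail| ≤
      cL k * (W * z * (∑ t, Br L (De w L h i U V a b t) + ex L i ^ 2 * ∏ t, a t)) := by
  have hW : 0 ≤ W := (Finset.sum_nonneg fun _ _ => abs_nonneg _).trans Hμ.tot
  have hA : 0 < ∏ t, a t := Finset.prod_pos fun t _ => ha t
  have hx := ex_nonneg hL i
  have D0 := De_nonneg (h := h) (U := U) (V := V) hw hi ha hb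
  have hS : 0 ≤ ∑ t, Br L (De w L h i U V a b t) :=
    Finset.sum_nonneg fun t _ => Br_nonneg hL fun j _ => D0 t j
  set Ψ : GF := fun r σ E => BE w L h i V r σ E * c r σ E.tail with hΨ
  have b1 := abs_LamG_le (M := L) μ (k + 1)
    (fun r σ E => tmG w L h (List.ofFn U) r σ E * c r σ E.tail - Ψ r σ E) fun k' hk' N hN hO => by
      have H : n + 2 ≤ (N ++ [(old k' 1, old k' 0)]).length := by simp [hN, hk]
      refine avt_edge hL Hμ hk' (p := fun t => (ed _ H t).1) (q := fun t => (ed _ H t).2)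
        (fun t => ok_app hO _ (List.getElem_mem _))
        (D := fun t j => z * De w L h i U V a b t j) (fun t j => mul_nonneg hz (D0 t j))
        (fun t j hj => by rw [De, if_neg (not_le.2 hj), mul_zero]) fun σ hσ => ?_
      rw [hΨ, ← sub_mul, abs_mul, ← Finset.mul_sum, mul_comm z]
      exact mul_le_mul (repl_one hw hi U0 V0 ha hV hb hU hab hσ H) (hc _ _ _ hσ) (abs_nonneg _)
        (Finset.sum_nonneg fun t _ => D0 t _)
  have b2 := abs_LamG_le (M := L) μ k (DG (-1) L Ψ) fun k' hk' N hN hO => by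
      have H : 1 ≤ (N ++ [(old k' 1, old k' 0)]).length := by simp
      refine avt_edge hL Hμ hk' (p := fun _ : Unit => (ed _ H 0).1) (q := fun _ => (ed _ H 0).2)
        (fun t => ok_app hO _ (List.getElem_mem _))
        (D := fun _ j => 4 * (2 * k + 3) ^ 2 * (ex L i * (z * ∏ t, a t)) * if j ≤ i then 1 else 0)
        (fun t j => by positivity) (fun t j hj => by rw [if_neg (not_le.2 hj), mul_zero])
        fun σ hσ => ?_
      set E := N ++ [(old k' 1, old k' 0)] with hE
      have hn : n + 1 ≤ E.length := by simp [hE, hN, hk]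
      refine (DG_free hL hi (fun r σ E a b j hσ hj => ?_) (fun r σ E a hσ => ?_) hσ E
        (β := (z * ∏ t, a t) * if σ (ed E H 0).1 (ed E H 0).2 ≤ i then 1 else 0) (by positivity)
        fun r' σ' ι p hσ' hι => ?_).trans ?_
      · refine congrArg₂ (· * ·) ((BE_re V0 (σ := σ) (Fin.cons a id) (fun u v => ?_) _).trans ?_)
          (hc' r σ E a j hσ)
        · have := hσ.self a
          refine Fin.cases ?_ (fun u => ?_) u <;> refine Fin.cases ?_ (fun v => ?_) v <;>
            simp only [gr_00, gr_0s, gr_s0, gr_ss, Fin.cons_zero, Fin.cons_succ, id]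
          · rw [this]
          · rw [hσ.comm a]; omega
          · omega
        · rw [re_cons, re_re]
          simp only [Fin.cons_zero, Fin.cons_succ, id]
          exact congrArg (fun E' => BE w L h i V r σ ((a, b) :: E')) (re_id E)
      · by_cases hE : n + 2 ≤ ((a, a) :: E).length
        · exact mul_eq_zero_of_left (BE_zero hE (t := 0) (V0 _ _ (hi.trans_eq (hσ.self a).symm))) _
        · exact mul_eq_zero_of_left (dif_neg hE) _
      · split_ifs with hl
        · rw [mul_one, hΨ, abs_mul, mul_comm z]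
          exact mul_le_mul (abs_BE_le hw hV (fun t => (ha t).le) hσ' _) (hc _ _ _ hσ')
            (abs_nonneg _) hA.le
        · have hE' : n + 2 ≤ (p :: E.re ι).length := by simpa [re_length] using hn
          have e : ed (p :: E.re ι) hE' 1 = (ι (ed E H 0).1, ι (ed E H 0).2) := List.getElem_map _
          rw [mul_zero, hΨ]
          exact (abs_eq_zero.2 (mul_eq_zero_of_left (BE_zero hE' (t := 1)
            (V0 _ _ (by rw [e, hι]; exact not_le.1 hl))) _)).le
      · rw [Finset.sum_const, Finset.card_univ, Fintype.card_unit, one_nsmul, mul_assoc _ (_ * _),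
          mul_assoc (ex L i)]
        refine mul_le_mul_of_nonneg_right (mul_le_mul_of_nonneg_left
          (pow_le_pow_left₀ (by positivity) ?_ 2) (by norm_num)) (by positivity)
        have : (k' : ℝ) ≤ (2 * k : ℕ) := Nat.cast_le.2 hk'
        push_cast at this ⊢
        linarith
  rw [LamG_sub] at b1
  replace b2 : |LamG L μ (k + 1) Ψ| ≤ _ := b2
  simp only [Br_mul, ← Finset.mul_sum, Finset.sum_const, Finset.card_univ, Fintype.card_unit,
    one_nsmul] at b1 b2
  have g1 := cG_pos k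
  have g2 := cG_pos (k + 1)
  have b3 := b2.trans (mul_le_mul_of_nonneg_left (mul_le_mul_of_nonneg_left
    (mul_le_mul_of_nonneg_left (mul_le_mul_of_nonneg_left (Br_le hL i) (by positivity))
      (by positivity)) (by positivity)) g1.le)
  refine (abs_sub_abs_le_abs_sub _ _ |> sub_le_iff_le_add.1).trans ((add_le_add b1 b3).trans ?_)
  rw [cL, add_mul]
  refine add_le_add (le_trans (le_of_eq (by ring)) (mul_le_mul_of_nonneg_left
    (mul_le_mul_of_nonneg_left (le_add_of_nonneg_right (by positivity)) (mul_nonneg hW hz))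
    (by positivity))) (le_trans (le_of_eq (by ring)) (mul_le_mul_of_nonneg_left
    (mul_le_mul_of_nonneg_left (le_add_of_nonneg_left hS) (mul_nonneg hW hz)) (by positivity)))

end Crest.Agent.T156.Cas.Lb15

end
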