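import Crest.Agent.T156.Rp_90
import Crest.Agent.T156.Eg_33

/-!
# Row 156: replacement of leaves, second part (helper90)

Weights for a marked base, the dictionary `VV ≤ 8 v`, replacement between two trees with the same
clusters under an excess envelope, and the ladder bound for two parallel edges.
-/

set_option autoImplicit false
set_option linter.unusedSectionVars false

noncomputable section

namespace Crest.Agent.T156.Cas.R90

open MeasureTheory Real Set Filter Topology
open Crest.Agent.T157.E Crest.Agent.T157.Casc Crest.Agent.T157.SL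
open Wt87 Nu87 W90 G90 Mul55 Ker15 Law

section weights
open Classical
variable {Θ : Type} [Fintype Θ] {L : List (Lv Θ)} {r : ℕ}

theorem up1_ind (hL : Mono 0 L) {σ : SM (r + 1)} (hσ : Rz L.length σ) (i : ℕ) (J : Finset ℕ)
    (V : ℕ) : up1 L (ind i J V) σ ≤ ind i J V σ + ex L i * ind i J (V - 1) σ +
      ∑ v ∈ J, dm L 0 v * ind i (J.erase v) (if v ≤ i then V - 1 else V) σ := by
  rw [up1, div_le_iff₀ (by positivity)]
  refine (Ws_mono hL hσ (hσ.ncm (ind i J V)) (fun _ _ _ _ => rfl)
    fun a j hj => ind_gr hσ i J V a hj).trans ?_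
  rw [Ws_add, Ws_add, Ws_fsum, Ws_mul, Ws_mul, Ws_const, add_mul, add_mul, Finset.sum_mul]
  refine add_le_add (add_le_add (le_of_eq (by simp)) ?_) (Finset.sum_le_sum fun v _ => ?_)
  · have := mul_le_mul_of_nonneg_left (Ws_low hL σ i) (ind_nonneg i J (V - 1) σ)
    push_cast at this
    linarith
  · rw [Ws_mul]
    split_ifs with hl hi
    · rw [zero_mul]
      exact mul_nonneg (mul_nonneg (dm_nonneg hL v) (ind_nonneg _ _ _ _)) (by positivity)
    · rw [zero_mul]
      exact mul_nonneg (mul_nonneg (dm_nonneg hL v) (ind_nonneg _ _ _ _)) (by positivity)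
    all_goals
      refine (mul_le_mul_of_nonneg_left (Ws_new hL hσ hl) (ind_nonneg _ _ _ _)).trans
        (le_of_eq ?_)
      push_cast
      ring

/-- **lemma W for a marked base** inside one cluster -/
theorem avc_ind (hL : Mono 0 L) {σ : SM (r + 1)} (hσ : Rz L.length σ) {i : ℕ}
    (h1 : ∀ a b, i < σ a b) : ∀ (k : ℕ) (J : Finset ℕ) (V : ℕ), (∀ v ∈ J, ¬Lab σ v) →
    avc L σ k (ind i J V) ≤ (2 + J.card : ℝ) ^ k * ex L i ^ (V - 1 - (J.filter (· ≤ i)).card) *
      ∏ v ∈ J, dm L 0 v
  | 0, J, V, hJ => by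
      rw [avc, ind]
      split_ifs with H
      · obtain rfl : J = ∅ := Finset.eq_empty_of_forall_notMem fun v hv => hJ v hv (H.1 v hv)
        obtain ⟨A, hA, h2⟩ := H.2
        have : A.card ≤ 1 := Finset.card_le_one.2 fun a ha b hb => by
          by_contra e
          exact absurd (h2 a ha b hb e) (not_le.2 (h1 a b))
        rw [show V - 1 - _ = 0 by omega]
        simp
      · exact mul_nonneg (mul_nonneg (by positivity) (pow_nonneg (ex_nonneg hL i) _))
          (Finset.prod_nonneg fun v _ => dm_nonneg hL v)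
  | k + 1, J, V, hJ => by
      have e0 := ex_nonneg hL i
      have e1 := ex_le_one hL i
      have hP : 0 ≤ ∏ v ∈ J, dm L 0 v := Finset.prod_nonneg fun v _ => dm_nonneg hL v
      refine (avc_mono hL hσ k fun τ hτ => up1_ind hL hτ i J V).trans ?_
      rw [avc_add, avc_add, avc_sum, avc_mul]
      set B := (2 + J.card : ℝ) ^ k * ex L i ^ (V - 1 - (J.filter (· ≤ i)).card) *
        ∏ v ∈ J, dm L 0 v with hB
      have b2 : ex L i * avc L σ k (ind i J (V - 1)) ≤ B := by
        refine (mul_le_mul_of_nonneg_left (avc_ind hL hσ h1 k J (V - 1) hJ) e0).trans ?_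
        rw [hB, ← mul_assoc, mul_left_comm, ← pow_succ']
        exact mul_le_mul_of_nonneg_right (mul_le_mul_of_nonneg_left
          (pow_le_pow_of_le_one e0 e1 (by omega)) (by positivity)) hP
      have b3 : ∀ v ∈ J, avc L σ k (fun τ => dm L 0 v *
          ind i (J.erase v) (if v ≤ i then V - 1 else V) τ) ≤ B := fun v hv => by
        rw [avc_mul]
        refine (mul_le_mul_of_nonneg_left (avc_ind hL hσ h1 k _ _ fun u hu =>
          hJ u (Finset.mem_of_mem_erase hu)) (dm_nonneg hL v)).trans ?_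
        rw [mul_left_comm, Finset.mul_prod_erase J (fun v => dm L 0 v) hv, hB]
        refine mul_le_mul_of_nonneg_right (mul_le_mul (pow_le_pow_left₀ (by positivity) ?_ k)
          (le_of_eq ?_) (pow_nonneg e0 _) (by positivity)) hP
        · exact add_le_add le_rfl (by exact_mod_cast Finset.card_erase_le)
        · congr 1
          rw [Finset.filter_erase]
          split_ifs with hi
          · have hm : v ∈ J.filter (· ≤ i) := Finset.mem_filter.2 ⟨hv, hi⟩
            have := Finset.card_pos.2 ⟨v, hm⟩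
            rw [Finset.card_erase_of_mem hm]
            omega
          · have hm : v ∉ J.filter (· ≤ i) := fun hm => hi (Finset.mem_filter.1 hm).2
            rw [Finset.erase_eq_of_notMem hm]
      have b4 := Finset.sum_le_card_nsmul _ _ _ b3
      rw [nsmul_eq_mul] at b4
      have := avc_ind hL hσ h1 k J V hJ
      rw [pow_succ, mul_right_comm _ (2 + J.card : ℝ), mul_right_comm _ (2 + J.card : ℝ), ← hB]
      linarith

/-- a positive functional on split matrices with the weight lemma; `j` is a free label -/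
structure WB (L : List (Lv Θ)) (i j c : ℕ) (P : SM r → Prop) (A : (SM r → ℝ) → ℝ) : Prop where
  lt : i < j
  rz : ∀ σ, P σ → Rz L.length σ
  add : ∀ φ ψ, A (fun σ => φ σ + ψ σ) = A φ + A ψ
  mul : ∀ a φ, A (fun σ => a * φ σ) = a * A φ
  mono : ∀ {φ ψ}, (∀ σ, P σ → φ σ ≤ ψ σ) → A φ ≤ A ψ
  ind : ∀ J V, j ∉ J → A (ind i J V) ≤
    (2 + J.card : ℝ) ^ c * ex L i ^ (V - 1 - (J.filter (· ≤ i)).card) * ∏ v ∈ J, dm L 0 v

theorem wb_avm (hL : Mono 0 L) {i j : ℕ} (h : i < j) (r : ℕ) :
    WB L i j r (Rz L.length) (avm L r) :=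
  ⟨h, fun _ h => h, avm_add L r, fun a => avm_mul L a r, avm_mono hL r,
    fun J V _ => avm_ind hL i r J V⟩

theorem wb_avc (hL : Mono 0 L) {i j : ℕ} (h : i < j) (hj : j ≤ L.length) (k : ℕ) :
    WB L i j k (fun τ => Rz L.length τ ∧ τ (old k 1) (old k 0) = j) (avc L (tw L.length j) k) := by
  have t01 := tw_01 hj
  have t10 : tw L.length j 1 0 = j := ((rz_tw _ j).comm _ _).trans t01
  have t0 := (rz_tw L.length j).self 0
  have t1 := (rz_tw L.length j).self 1
  refine ⟨h, fun _ h => h.1, avc_add k, fun a => avc_mul a k,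
    fun e => avc_mono' hL (rz_tw _ j) k fun τ hτ h => e τ ⟨hτ, (h 1 0).trans t10⟩,
    fun J V hJ => avc_ind hL (rz_tw _ j) (fun a b => ?_) k J V fun v hv ⟨a, b, hab, e⟩ => hJ ?_⟩
  · fin_cases a <;> fin_cases b <;> simp only [Fin.zero_eta, Fin.mk_one, Fin.isValue] <;> omega
  · fin_cases a <;> fin_cases b <;> simp only [Fin.zero_eta, Fin.mk_one, Fin.isValue] at hab e
    exacts [absurd rfl hab, by rwa [← t01, e], by rwa [← t10, e], absurd rfl hab]

variable {i j c : ℕ} {P : SM r → Prop} {A : (SM r → ℝ) → ℝ}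

theorem WB.sum (H : WB L i j c P A) {α : Type*} (T : Finset α) (φ : α → SM r → ℝ) :
    A (fun σ => ∑ a ∈ T, φ a σ) = ∑ a ∈ T, A (φ a) := by
  induction T using Finset.induction_on with
  | empty => simpa using H.mul 0 fun _ => 0
  | insert a T ha ih => simp only [Finset.sum_insert ha, H.add, ih]

theorem WB.abs_le' (H : WB L i j c P A) {φ ψ : SM r → ℝ} (e : ∀ σ, P σ → |φ σ| ≤ ψ σ) :
    |A φ| ≤ A ψ := by
  have h1 := H.mono fun σ hσ => (abs_le.1 (e σ hσ)).2
  have h2 := H.mono (φ := fun σ => -1 * ψ σ) (ψ := φ) fun σ hσ => by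
    linarith [(abs_le.1 (e σ hσ)).1]
  rw [H.mul] at h2
  exact abs_le.2 ⟨by linarith, h1⟩

/-- one low edge and `V` clusters -/
theorem WB.edge (H : WB L i j c P A) {p q : Fin r} (hpq : p ≠ q) (V : ℕ)
    {T : Finset ℕ} (hT : ∀ y ∈ T, y ≤ i) {D : ℕ → ℝ} (hD : ∀ y ∈ T, 0 ≤ D y) :
    A (fun σ => if σ p q ∈ T ∧ Cl σ i V then D (σ p q) else 0) ≤
      3 ^ c * (ex L i ^ (V - 2) * ∑ y ∈ T, dm L 0 y * D y) := by
  refine (H.mono (ψ := fun σ => ∑ y ∈ T, D y * W90.ind i {y} V σ) fun σ _ => ?_).trans ?_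
  · have n : ∀ y ∈ T, 0 ≤ D y * W90.ind i {y} V σ := fun y hy =>
      mul_nonneg (hD y hy) (ind_nonneg _ _ _ _)
    split_ifs with h
    · refine le_trans (le_of_eq ?_) (Finset.single_le_sum n h.1)
      rw [W90.ind, if_pos ⟨fun v hv => ⟨p, q, hpq, (Finset.mem_singleton.1 hv).symm⟩, h.2⟩, mul_one]
    · exact Finset.sum_nonneg n
  · rw [H.sum, Finset.mul_sum, Finset.mul_sum]
    refine Finset.sum_le_sum fun y hy => ?_
    have h1 := H.ind {y} V fun e => by
      have := hT y hy
      have := H.lt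
      rw [Finset.mem_singleton] at e
      omega
    rw [Finset.filter_true_of_mem fun v hv => by rw [Finset.mem_singleton.1 hv]; exact hT y hy,
      Finset.card_singleton, Finset.prod_singleton, show V - 1 - 1 = V - 2 by omega] at h1
    rw [H.mul]
    refine (mul_le_mul_of_nonneg_left h1 (hD y hy)).trans (le_of_eq ?_)
    norm_num
    ring

/-- a low edge and an upper pair -/
theorem WB.lad (H : WB L i j c P A) (hL : Mono 0 L) {p q a b : Fin r} (hpq : p ≠ q) (hab : a ≠ b)
    {T T' : Finset ℕ} (hT : ∀ y ∈ T, y ≤ i) (hT' : ∀ t ∈ T', i < t) {D : ℕ → ℕ → ℝ}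
    (hD : ∀ y t, 0 ≤ D y t) :
    A (fun σ => if σ p q ∈ T ∧ σ a b ∈ T' ∧ σ a b ≠ j then D (σ p q) (σ a b) else 0) ≤
      4 ^ c * ∑ t ∈ T', dm L 0 t * ∑ y ∈ T, dm L 0 y * D y t := by
  refine (H.mono (ψ := fun σ => ∑ t ∈ T'.erase j, ∑ y ∈ T, D y t * W90.ind i {y, t} 0 σ)
    fun σ _ => ?_).trans ?_
  · have n : ∀ t y, 0 ≤ D y t * W90.ind i {y, t} 0 σ := fun t y =>
      mul_nonneg (hD y t) (ind_nonneg _ _ _ _)
    split_ifs with h
    · refine le_trans (le_trans (le_of_eq ?_) (Finset.single_le_sum (fun y _ => n (σ a b) y) h.1))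
        (Finset.single_le_sum (f := fun t => ∑ y ∈ T, D y t * W90.ind i {y, t} 0 σ)
          (fun t _ => Finset.sum_nonneg fun y _ => n t y) (Finset.mem_erase.2 ⟨h.2.2, h.2.1⟩))
      rw [W90.ind, if_pos ⟨fun v hv => (Finset.mem_insert.1 hv).elim (fun e => ⟨p, q, hpq, e.symm⟩)
        fun e => ⟨a, b, hab, (Finset.mem_singleton.1 e).symm⟩, cl_zero σ i⟩, mul_one]
    · exact Finset.sum_nonneg fun t _ => Finset.sum_nonneg fun y _ => n t y
  · rw [H.sum, Finset.mul_sum]
    refine (Finset.sum_le_sum fun t ht => ?_).trans (Finset.sum_le_sum_of_subset_of_nonneg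
      (Finset.erase_subset j T') fun t _ _ => mul_nonneg (by positivity) (mul_nonneg
        (dm_nonneg hL t) (Finset.sum_nonneg fun y _ => mul_nonneg (dm_nonneg hL y) (hD y t))))
    rw [H.sum, Finset.mul_sum, Finset.mul_sum]
    refine Finset.sum_le_sum fun y hy => ?_
    have h2 := hT y hy
    have h3 := hT' t (Finset.mem_of_mem_erase ht)
    have h1 := H.ind {y, t} 0 fun e => by
      have := H.lt
      have := Finset.ne_of_mem_erase ht
      rw [Finset.mem_insert, Finset.mem_singleton] at e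
      omega
    rw [Finset.card_pair (by omega), Finset.prod_pair (by omega), Nat.zero_sub,
      pow_zero] at h1
    rw [H.mul]
    refine (mul_le_mul_of_nonneg_left h1 (hD y t)).trans (le_of_eq ?_)
    norm_num
    ring

end weights

/-! ### three leaves -/

variable {Ω : Type} [Fintype Ω] {w : Ω → ℝ} {κ κ' ι : Type} [Fintype κ] [Fintype κ'] [Fintype ι]
  {L : List (Lv Ω)} {h : Ω → ℝ} {σ : κ → κ → ℕ}

/-- a leaf split at `j`, then a pair split `m` levels later -/
def t3 : ℕ → ℕ → Sh
  | 0, m => .split .one (Sh.two m)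
  | j + 1, m => .step (t3 j m)

/-- its leaves -/
def t3e : (j m : ℕ) → Option Bool → (t3 j m).Lf
  | 0, _, none => .inl ()
  | 0, m, some true => .inr (Sh.twoL m)
  | 0, m, some false => .inr (Sh.twoR m)
  | j + 1, m, o => t3e j m o

theorem TE_t3 (hw : Wt w) (m : ℕ) (F : Ω → Ω → Ω → ℝ) : ∀ (j : ℕ) (L : List (Lv Ω)) (h : Ω → ℝ),
    TE w (t3 j m) L h (fun x => F (x (t3e j m none)) (x (t3e j m (some true)))
      (x (t3e j m (some false)))) =
      node w L j (fun z => Pf w (L.drop j) z fun y => pi2 w (L.drop j) m (F y) z) h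
  | 0, L, h => by
      refine (TE_split hw .one (Sh.two m) L h _).trans ((TE_one hw L h _).trans ?_)
      rw [node_zero]
      exact congrArg _ (funext fun y => Wt87.tX_two hw (F y) m L h)
  | j + 1, [], h => (TE_step_nil w _ h _).trans ((TE_t3 hw m F j [] h).trans (by
      cases j <;> simp [node]))
  | j + 1, l :: L, h => (TE_step hw _ l L h _).trans
      (congrArg (fun Φ => tE l (X w L) Φ h) (funext fun z => TE_t3 hw m F j L z))

theorem shr_t3 (m : ℕ) : ∀ (j K : ℕ),
    (∀ b, (t3 j m).shr (t3e j m none) (t3e j m (some b)) K = min j K) ∧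
      (t3 j m).shr (t3e j m (some true)) (t3e j m (some false)) K = min (j + m) K
  | 0, K => ⟨fun b => by cases b <;> cases K <;> rfl, by
      rw [zero_add, ← Wt87.shr_two m K]; cases K <;> rfl⟩
  | j + 1, 0 => ⟨fun b => Nat.le_zero.1 (shr_le _ _ _ _),
      (Nat.le_zero.1 (shr_le _ _ _ _)).trans (Nat.min_zero _).symm⟩
  | j + 1, K + 1 => ⟨fun b => by
      have := (shr_t3 m j K).1 b
      change (t3 j m).shr (t3e j m none) (t3e j m (some b)) K + 1 = _
      omega, by
      have := (shr_t3 m j K).2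
      change (t3 j m).shr (t3e j m (some true)) (t3e j m (some false)) K + 1 = _
      omega⟩

theorem t3e_inj (j m : ℕ) : Function.Injective (t3e j m) := fun a b e => by
  have h1 := shr_t3 m j (j + m + 1)
  have h2 : (t3 j m).shr (t3e j m a) (t3e j m b) (j + m + 1) = j + m + 1 := e ▸ shr_self _ _ _
  have h3 := shr_comm (t3 j m) (t3e j m a) (t3e j m b) (j + m + 1)
  have h4 := h1.1 true
  have h5 := h1.1 false
  have h6 := h1.2
  rcases a with _ | _ | _ <;> rcases b with _ | _ | _ <;> first | rfl | omega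

/-- `E Var (U (σ¹, σ²) | σ², path of 1 up to t)` for a pair split at `y` -/
def vU (w : Ω → ℝ) (L : List (Lv Ω)) (h : Ω → ℝ) (U : Ω → Ω → ℝ) (y t : ℕ) : ℝ :=
  node w L y (fun z => ∑ x, P w (L.drop y) z x *
    Eg33.Cf w L y t (fun x' => U x' x) (fun x' => U x' x) z) h

theorem vU_nonneg (hw : Wt w) (U : Ω → Ω → ℝ) (y t : ℕ) : 0 ≤ vU w L h U y t :=
  node_nonneg w (fun z => Finset.sum_nonneg fun x _ =>
    mul_nonneg (P_nonneg hw _ z x) (Eg33.Cf_nonneg hw L y t _ z)) L y h

theorem qf_sq (hw : Wt w) (L : List (Lv Ω)) (u f : Ω → ℝ) :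
    qf (P w L u) (fun b c => (f b - f c) ^ 2) = 2 * Cb w L u f f := by
  have h1 := sum_P hw L u
  have e : ∀ b c, P w L u b * P w L u c * (f b - f c) ^ 2 = P w L u b * (f b * f b) * P w L u c +
      P w L u b * (P w L u c * (f c * f c)) - 2 * (P w L u b * f b * (P w L u c * f c)) :=
    fun b c => by ring
  simp only [qf, e, Finset.sum_sub_distrib, Finset.sum_add_distrib, ← Finset.mul_sum,
    ← Finset.sum_mul, h1, Cb, Pf]
  ring

/-- moving one end of an edge inside its cluster -/
theorem TK_move (hw : Wt w) (H : Um L.length σ) {a c b : κ} {y t : ℕ} (hac : a ≠ c)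
    (h1 : σ a b = y) (h2 : σ a c = t) (hy : y < t) (U : Ω → Ω → ℝ) :
    TK w L h σ (fun x => (U (x a) (x b) - U (x c) (x b)) ^ 2) = 2 * vU w L h U y t := by
  have ht : t ≤ L.length := h2 ▸ H.le a c
  have h3 : σ c b = y := by
    have := H.ultra a c b
    have := H.ultra c a b
    have := H.ultra a b c
    have := H.comm c a
    have := H.comm b c
    omega
  have hab : a ≠ b := fun e => by rw [← e, H.self] at h1; omega
  have hcb : c ≠ b := fun e => by rw [← e, H.self] at h3; omega
  obtain ⟨m, rfl⟩ : ∃ m, t = y + m := ⟨t - y, by omega⟩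
  have s1 := (shr_t3 m y L.length).1
  have s2 := (shr_t3 m y L.length).2
  rw [min_eq_left (by omega)] at s1 s2
  have k := TK_map (h := h) hw H (um_sm (t3 y m) (t3e y m) L.length)
    (φ := fun o : Option Bool => o.elim b fun s => cond s a c) (φ' := id)
    (fun u v => by
      rcases u with _ | _ | _ <;> rcases v with _ | _ | _ <;>
        simp [hac, hab, hcb, hac.symm, hab.symm, hcb.symm])
    (fun u v e => by
      have c1 := fun s => shr_comm (t3 y m) (t3e y m (some s)) (t3e y m none) L.length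
      have c2 := shr_comm (t3 y m) (t3e y m (some false)) (t3e y m (some true)) L.length
      rcases u with _ | _ | _ <;> rcases v with _ | _ | _ <;>
        first
          | exact absurd rfl e
          | simp only [Option.elim, cond, id, sm, s1, s2, c1, c2, H.comm b, H.comm c a, h1, h2, h3])
    fun x => (U (x (some true)) (x none) - U (x (some false)) (x none)) ^ 2
  refine k.trans ((TK_sm hw _ (t3e_inj y m) _).trans ((TE_t3 hw m
    (fun z u v => (U u z - U v z) ^ 2) y L h).trans ?_))
  have nc : ∀ (Φ : (Ω → ℝ) → ℝ) (L : List (Lv Ω)) (j : ℕ) (z : Ω → ℝ),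
      2 * node w L j Φ z = node w L j (fun u => 2 * Φ u) z := fun Φ L j z => by
    simp only [node_const_mul]
  rw [vU, nc]
  refine congrArg (fun Φ => node w L y Φ h) (funext fun z => ?_)
  rw [Pf, Finset.mul_sum]
  refine Finset.sum_congr rfl fun x _ => ?_
  rw [mul_left_comm, Eg33.Cf, nc, pi2, Nat.add_sub_cancel_left, List.drop_drop]
  simp only [qf_sq hw _ _ fun x' => U x' x]

/-- two edges in the same two clusters -/
theorem TK_par [DecidableEq κ] (hw : Wt w) (H : Um L.length σ) {a b c d : κ} {y : ℕ} (h1 : σ a b = y)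
    (h2 : y < σ a c) (h3 : y < σ b d) {U : Ω → Ω → ℝ} (hU : ∀ x z, U x z = U z x) :
    TK w L h σ (fun x => (U (x a) (x b) - U (x c) (x d)) ^ 2) ≤
      4 * ((if a = c then 0 else vU w L h U y (σ a c)) +
        if b = d then 0 else vU w L h U y (σ b d)) := by
  have h4 : σ b c = y := by
    have := H.ultra a c b
    have := H.ultra c a b
    have := H.ultra a b c
    have := H.comm c a
    have := H.comm b c
    omega
  have e1 : TK w L h σ (fun x => (U (x a) (x b) - U (x c) (x b)) ^ 2) =
      2 * if a = c then 0 else vU w L h U y (σ a c) := by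
    split_ifs with e
    · subst e
      simpa using TK_const (h := h) hw H 0
    · exact TK_move hw H e h1 rfl h2 U
  have e2 : TK w L h σ (fun x => (U (x b) (x c) - U (x d) (x c)) ^ 2) =
      2 * if b = d then 0 else vU w L h U y (σ b d) := by
    split_ifs with e
    · subst e
      simpa using TK_const (h := h) hw H 0
    · exact TK_move hw H e h4 rfl h3 U
  refine (TK_mono hw H (G := fun x => 2 * (U (x a) (x b) - U (x c) (x b)) ^ 2 +
    2 * (U (x b) (x c) - U (x d) (x c)) ^ 2) fun x => ?_).trans (le_of_eq ?_)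
  · rw [hU (x b) (x c), hU (x d) (x c)]
    nlinarith [sq_nonneg (U (x a) (x b) - 2 * U (x c) (x b) + U (x c) (x d))]
  · rw [TK_lin, e1, e2]
    ring

/-- **dictionary** -/
theorem VV_le (hw : Wt w) {i j : ℕ} (hi : i < L.length) (hj : j ≤ i) {U : Ω → Ω → ℝ}
    (hU : ∀ x z, U x z = U z x) : VV w L h i j U ≤ 8 * vU w L h U j (i + 1) := by
  have e1 : q4 L.length i j (true, true) (false, true) = j := by simp [q4, lf]; omega
  have e2 : q4 L.length i j (true, true) (true, false) = i + 1 := by simp [q4, lf]; omega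
  have e3 : q4 L.length i j (false, true) (false, false) = i + 1 := by simp [q4, lf]; omega
  have := TK_par (h := h) hw (um_q4 i (hj.trans hi.le)) e1 (c := (true, false)) (d := (false, false))
    (by omega) (by omega) hU
  rw [if_neg (by decide), if_neg (by decide), e2, e3] at this
  exact this.trans (le_of_eq (by ring))

/-- **ladder**: two edges in the same two clusters against a double edge -/
theorem TK_lad [DecidableEq κ] (hw : Wt w) (H : Um L.length σ) {a b c d : κ} {y : ℕ} (h1 : σ a b = y)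
    (h2 : y < σ a c) (h3 : y < σ b d) {U : Ω → Ω → ℝ} (hU : ∀ x z, U x z = U z x) :
    |TK w L h σ (fun x => U (x a) (x b) * U (x c) (x d)) - pi2 w L y (fun x z => U x z ^ 2) h| ≤
      2 * ((if a = c then 0 else vU w L h U y (σ a c)) +
        if b = d then 0 else vU w L h U y (σ b d)) := by
  have h4 : σ c d = y := by
    have := H.ultra a c d
    have := H.ultra c a d
    have := H.ultra a d c
    have := H.ultra a b d
    have := H.ultra a d b
    have := H.comm c a
    have := H.comm d c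
    have := H.comm d b
    omega
  have l := H.le a c
  have hab : a ≠ b := fun e => by rw [← e, H.self] at h1; omega
  have hcd : c ≠ d := fun e => by rw [← e, H.self] at h4; omega
  have p1 := TK_pair (h := h) hw H hab fun x z => U x z ^ 2
  have p2 := TK_pair (h := h) hw H hcd fun x z => U x z ^ 2
  have p3 := TK_par (h := h) hw H h1 h2 h3 hU
  have p4 := (TK_const (h := h) hw H 0).ge.trans (TK_mono hw H
    (G := fun x => (U (x a) (x b) - U (x c) (x d)) ^ 2) fun x => sq_nonneg _)
  have p5 : TK w L h σ (fun x => (U (x a) (x b) - U (x c) (x d)) ^ 2) =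
      TK w L h σ (fun x => U (x a) (x b) ^ 2) + TK w L h σ (fun x => U (x c) (x d) ^ 2) -
        2 * TK w L h σ fun x => U (x a) (x b) * U (x c) (x d) := by
    rw [← TK_add, ← TK_mul, ← TK_sub]
    exact congrArg _ (funext fun x => by ring)
  rw [h1] at p1
  rw [h4] at p2
  rw [p5, p1, p2] at p3 p4
  rw [abs_le]
  constructor <;> linarith

/-! ### excess envelopes -/

/-- clamp -/
def clp (a x : ℝ) : ℝ := max (-a) (min a x)

theorem clp_le {a : ℝ} (ha : 0 ≤ a) (x : ℝ) : |clp a x| ≤ a ∧ |clp a x| ≤ |x| ∧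
    |x - clp a x| ≤ max (|x| - a) 0 := by
  unfold clp
  rcases le_total a x with h1 | h1
  · rw [min_eq_left h1, max_eq_right (by linarith), abs_of_nonneg ha, abs_of_nonneg (ha.trans h1),
      abs_of_nonneg (sub_nonneg.2 h1)]
    exact ⟨le_rfl, h1, le_max_left _ _⟩
  · rw [min_eq_right h1]
    rcases le_total (-a) x with h2 | h2
    · rw [max_eq_right h2, sub_self, abs_zero]
      exact ⟨abs_le.2 ⟨h2, h1⟩, le_rfl, le_max_right _ _⟩
    · rw [max_eq_left h2, abs_neg, abs_of_nonneg ha, abs_of_nonpos (by linarith : x ≤ 0),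
        abs_of_nonpos (by linarith : x - -a ≤ 0)]
      exact ⟨le_rfl, by linarith, le_max_of_le_left (by linarith)⟩

theorem clp_lip (a x y : ℝ) : (clp a x - clp a y) ^ 2 ≤ (x - y) ^ 2 :=
  sq_le_sq.2 ((abs_max_sub_max_le_max _ _ _ _).trans (max_le (by simp)
    ((abs_min_sub_min_le_max _ _ _ _).trans (max_le (by simp) le_rfl))))

theorem abs_prod_sub {x y : ι → ℝ} (hx : ∀ t, |x t| ≤ 1) (hy : ∀ t, |y t| ≤ 1) (T : Finset ι) :
    |∏ t ∈ T, x t - ∏ t ∈ T, y t| ≤ ∑ t ∈ T, |x t - y t| := by
  classical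
  induction T using Finset.induction_on with
  | empty => simp
  | insert a T ha ih =>
    rw [Finset.prod_insert ha, Finset.prod_insert ha, Finset.sum_insert ha,
      show x a * ∏ t ∈ T, x t - y a * ∏ t ∈ T, y t = (x a - y a) * ∏ t ∈ T, x t +
        y a * (∏ t ∈ T, x t - ∏ t ∈ T, y t) by ring]
    refine (abs_add_le _ _).trans (add_le_add ?_ ?_)
    · rw [abs_mul, Finset.abs_prod]
      exact mul_le_of_le_one_right (abs_nonneg _)
        (Finset.prod_le_one (fun _ _ => abs_nonneg _) fun t _ => hx t)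
    · rw [abs_mul]
      exact (mul_le_of_le_one_left (abs_nonneg _) (hy a)).trans ih

/-- the excess of the kernel over the envelope `a` -/
def exc (w : Ω → ℝ) (L : List (Lv Ω)) (h : Ω → ℝ) (R : Ω → Ω → ℝ) (a : ℝ) (j : ℕ) : ℝ :=
  pi2 w L j (fun x y => max (|R x y| - a) 0) h

theorem repl_exc (hw : Wt w) (H : Um L.length σ) {i : ℕ} (hi : i < L.length) {p q : ι → κ}
    (hl : ∀ t, σ (p t) (q t) ≤ i) {R : Ω → Ω → ℝ} (hR : ∀ x y, |R x y| ≤ 1)
    (hs : ∀ x z, R x z = R z x) {a : ℝ} (ha : 0 < a) {m : ℕ} (hm : Fintype.card ι = m + 2) :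
    |TK w L h σ (fun x => ∏ t, R (x (p t)) (x (q t))) -
        BC w L h i σ p q fun _ x y => clp a (R x y)| ≤
      ∑ t, (8 * (m + 2) ^ 2 * a ^ m * vU w L h R (σ (p t) (q t)) (i + 1) +
        exc w L h R a (σ (p t) (q t))) := by
  have hpq : ∀ t, p t ≠ q t := fun t e => by
    have := hl t
    rw [e, H.self] at this
    omega
  have h1 := repl_TK (h := h) hw H hi hl (U := fun _ x y => clp a (R x y)) (a := fun _ => a)
    (fun _ => ha) le_rfl fun _ x y => by rw [one_mul]; exact (clp_le ha.le _).1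
  have h2 : |TK w L h σ (fun x => ∏ t, R (x (p t)) (x (q t))) -
      TK w L h σ fun x => ∏ t, clp a (R (x (p t)) (x (q t)))| ≤
      ∑ t, exc w L h R a (σ (p t) (q t)) := by
    rw [← TK_sub]
    refine (abs_TK_le hw H fun x => (abs_prod_sub (fun t => hR _ _)
      (fun t => (clp_le ha.le _).2.1.trans (hR _ _)) _).trans
        (Finset.sum_le_sum fun t _ => (clp_le ha.le _).2.2)).trans (le_of_eq ?_)
    rw [TK_sum]
    exact Finset.sum_congr rfl fun t _ => TK_pair hw H (hpq t) fun x y => max (|R x y| - a) 0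
  rw [Finset.sum_add_distrib, add_comm]
  refine (abs_sub_le _ _ _).trans (add_le_add h2 (h1.trans ?_))
  rw [Finset.mul_sum]
  refine Finset.sum_le_sum fun t _ => ?_
  have hj := (hl t).trans hi.le
  have h3 : pi2 w L (σ (p t) (q t)) (fun x y => if a < |clp a (R x y)| then 1 else 0) h = 0 := by
    rw [← TK_pair hw H (hpq t)]
    exact (congrArg _ (funext fun x => if_neg (not_lt.2 (clp_le ha.le _).1))).trans
      (TK_const (h := h) hw H 0)
  have h4 : VV w L h i (σ (p t) (q t)) (fun x y => clp a (R x y)) ≤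
      8 * vU w L h R (σ (p t) (q t)) (i + 1) :=
    (TK_mono hw (um_q4 i hj) fun _ => clp_lip _ _ _).trans (VV_le hw hi (hl t) hs)
  rw [Er, h3, mul_zero, add_zero, Finset.prod_const, Finset.card_univ, hm]
  refine (mul_le_mul_of_nonneg_left (mul_le_mul_of_nonneg_left
    (div_le_div_of_nonneg_right h4 (sq_nonneg a)) (sq_nonneg _)) (by positivity)).trans
      (le_of_eq ?_)
  push_cast
  field_simp
  ring

/-- **two trees with the same clusters and the same skeleton** -/
theorem repl_two (hw : Wt w) {σ' : κ' → κ' → ℕ} (H : Um L.length σ) (H' : Um L.length σ') {i : ℕ}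
    (hi : i < L.length) {p q : ι → κ} {p' q' : ι → κ'} (hl : ∀ t, σ (p t) (q t) ≤ i)
    (he : ∀ u v, min (σ (en p q u) (en p q v)) (i + 1) = min (σ' (en p' q' u) (en p' q' v)) (i + 1))
    {R : Ω → Ω → ℝ} (hR : ∀ x y, |R x y| ≤ 1) (hs : ∀ x z, R x z = R z x) {a : ℝ} (ha : 0 ≤ a)
    {m : ℕ} (hm : Fintype.card ι = m + 2) :
    |TK w L h σ (fun x => ∏ t, R (x (p t)) (x (q t))) -
        TK w L h σ' fun x => ∏ t, R (x (p' t)) (x (q' t))| ≤
      2 * ∑ t, (8 * (m + 2) ^ 2 * a ^ m * vU w L h R (σ (p t) (q t)) (i + 1) +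
        exc w L h R a (σ (p t) (q t))) := by
  have e : ∀ t, σ' (p' t) (q' t) = σ (p t) (q t) := fun t => by
    have h1 := he (t, true) (t, false)
    have h2 := hl t
    simp only [en, cond] at h1
    omega
  have key : ∀ a' : ℝ, a < a' → |TK w L h σ (fun x => ∏ t, R (x (p t)) (x (q t))) -
      TK w L h σ' fun x => ∏ t, R (x (p' t)) (x (q' t))| ≤
      2 * ∑ t, (8 * (m + 2) ^ 2 * a' ^ m * vU w L h R (σ (p t) (q t)) (i + 1) +
        exc w L h R a (σ (p t) (q t))) := fun a' h' => by
    have h1 := repl_exc (h := h) hw H hi hl hR hs (ha.trans_lt h') hm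
    have h2 := repl_exc (h := h) hw H' hi (fun t => (e t).trans_le (hl t)) hR hs (ha.trans_lt h') hm
    have h3 : BC w L h i σ' p' q' (fun _ x y => clp a' (R x y)) =
        BC w L h i σ p q fun _ x y => clp a' (R x y) := by
      unfold BC
      congr 1
      funext u v
      unfold lf
      rw [min_self, he]
    simp only [e] at h2
    rw [h3, abs_sub_comm] at h2
    refine (abs_sub_le _ _ _).trans ((add_le_add h1 h2).trans ?_)
    rw [← two_mul]
    refine mul_le_mul_of_nonneg_left (Finset.sum_le_sum fun t _ => add_le_add le_rfl ?_) zero_le_two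
    have hpq : p t ≠ q t := fun e => by
      have := hl t
      rw [e, H.self] at this
      omega
    rw [exc, exc, ← TK_pair hw H hpq, ← TK_pair hw H hpq]
    exact TK_mono hw H fun x => max_le_max (by linarith) le_rfl
  refine ge_of_tendsto (f := fun a' : ℝ => 2 * ∑ t, (8 * (m + 2) ^ 2 * a' ^ m *
    vU w L h R (σ (p t) (q t)) (i + 1) + exc w L h R a (σ (p t) (q t)))) (x := 𝓝[>] a)
    (Continuous.tendsto (by fun_prop) a |>.mono_left nhdsWithin_le_nhds) ?_
  exact eventually_nhdsWithin_of_forall key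

end Crest.Agent.T156.Cas.R90

end
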