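import Crest.Agent.T156.CLbA_15
import Crest.Agent.T156.RpB_90
import Crest.Agent.T156.CKit_32
import Crest.Agent.T156.CErr_54

/-!
# Row 156, block C: the low words with a letter `bL` (helper15)
-/

set_option autoImplicit false
set_option linter.unusedSectionVars false
set_option maxHeartbeats 400000

noncomputable section

namespace Crest.Agent.T156.Cas.C40

open MeasureTheory Real Set Filter Topology
open Crest.Agent.T157.E Crest.Agent.T157.Casc Crest.Agent.T157.SL
open Crest.Agent.T157.G1 (ov)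
open Crest.ProbabilityR.SpinGlassDynamics (spin)
open Mul55 G90 Nu87 R90 Wp52 Cas.Lb15 OneP

namespace LbI15

variable {D : CD} {τ0 A T : ℝ}

/-- the bulk kernel of a low letter -/
def Uk (D : CD) (s : Bool) : ℕ → Cube D.n → Cube D.n → ℝ := (lt D.n D.β D.M D.q D.cl (true, s)).1

/-- the same with the overlap clamped at `A` -/
def Vk (D : CD) (A : ℝ) (s : Bool) : ℕ → Cube D.n → Cube D.n → ℝ := fun j x y =>
  if j ≤ D.J then cond s (D.τ j / 2 * clp A (ov x y)) (-(D.τ j / 4) * clp A (ov x y) ^ 2) else 0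

theorem Uk_hi (s : Bool) {j : ℕ} (hj : D.J < j) : Uk D s j = 0 :=
  if_neg (by simpa [CD.cl] using hj)

theorem Vk_hi (s : Bool) {j : ℕ} (hj : D.J < j) : Vk D A s j = 0 := by
  funext x y
  exact if_neg (not_le.2 hj)

theorem Uk_lo (H : D.Ok τ0) (s : Bool) {j : ℕ} (hj : j ≤ D.J) (x y : Cube D.n) :
    Uk D s j x y = cond s (D.τ j / 2 * ov x y) (-(D.τ j / 4) * ov x y ^ 2) := by
  have : Uk D s j = oUb D.n D.β D.M D.q s j := if_pos (by simpa [CD.cl] using hj)
  rw [this]
  cases s <;> simp [oUb, oU, H.qlo j hj]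

theorem abs_Uk (H : D.Ok τ0) (hT : τ0 ≤ T) (s : Bool) (j : ℕ) (x y : Cube D.n) :
    |Uk D s j x y| ≤ T := by
  obtain ⟨h0, h1⟩ := H.tau_mem j
  rcases le_or_gt j D.J with hj | hj
  · have h2 := abs_ov_le x y
    have h3 := abs_nonneg (ov x y)
    rw [Uk_lo H s hj]
    cases s
    · rw [cond_false, abs_mul, abs_neg, abs_pow, abs_of_nonneg (by positivity : 0 ≤ D.τ j / 4)]
      nlinarith [pow_le_one₀ h3 h2 (n := 2)]
    · rw [cond_true, abs_mul, abs_of_nonneg (by positivity : 0 ≤ D.τ j / 2)]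
      nlinarith
  · rw [Uk_hi s hj]
    simpa using h0.trans (h1.trans hT)

theorem abs_Vk (H : D.Ok τ0) (hT : τ0 ≤ T) (hA : 0 < A) (s : Bool) (j : ℕ) (x y : Cube D.n) :
    |Vk D A s j x y| ≤ T * cond s A (A ^ 2) := by
  obtain ⟨h0, h1⟩ := H.tau_mem j
  have h2 := (clp_le hA.le (ov x y)).1
  have h3 := abs_nonneg (clp A (ov x y))
  have h4 : 0 ≤ T := h0.trans (h1.trans hT)
  unfold Vk
  split_ifs
  · cases s
    · rw [cond_false, cond_false, abs_mul, abs_neg, abs_pow,
        abs_of_nonneg (by positivity : 0 ≤ D.τ j / 4)]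
      exact mul_le_mul (by linarith) (pow_le_pow_left₀ h3 h2 2) (by positivity) h4
    · rw [cond_true, cond_true, abs_mul, abs_of_nonneg (by positivity : 0 ≤ D.τ j / 2)]
      exact mul_le_mul (by linarith) h2 h3 h4
  · cases s <;> simp only [abs_zero, cond_true, cond_false] <;> positivity

theorem sub_Vk (H : D.Ok τ0) (hA : 0 < A) (hX : D.X ≤ A) (s : Bool) {j : ℕ} (hj : j ≤ D.J)
    (x y : Cube D.n) : |Uk D s j x y - Vk D A s j x y| ≤ D.τ j * max (|ov x y| - D.X) 0 := by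
  have h0 := (H.tau_mem j).1
  obtain ⟨-, h1, h2⟩ := clp_le hA.le (ov x y)
  have h3 : |ov x y - clp A (ov x y)| ≤ max (|ov x y| - D.X) 0 :=
    h2.trans (max_le_max_right _ (by linarith))
  have h4 := abs_ov_le x y
  have h5 := abs_nonneg (ov x y - clp A (ov x y))
  rw [Uk_lo H s hj, Vk, if_pos hj]
  cases s
  · have h6 := (abs_add_le (ov x y) (clp A (ov x y))).trans (add_le_add h4 (h1.trans h4))
    rw [cond_false, cond_false, ← mul_sub, sq_sub_sq, abs_mul, abs_mul, abs_neg,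
      abs_of_nonneg (by positivity : 0 ≤ D.τ j / 4)]
    have h7 := mul_le_mul h6 h3 h5 (by norm_num)
    nlinarith [mul_le_mul_of_nonneg_left h7 h0, mul_nonneg h0 (h5.trans h3)]
  · rw [cond_true, cond_true, ← mul_sub, abs_mul, abs_of_nonneg (by positivity : 0 ≤ D.τ j / 2)]
    nlinarith [mul_le_mul_of_nonneg_left h3 h0, mul_nonneg h0 h5]

theorem lip_Vk (hA : 0 < A) (s : Bool) {j : ℕ} (hj : j ≤ D.J) (x y x' y' : Cube D.n) :
    (Vk D A s j x y - Vk D A s j x' y') ^ 2 ≤
      D.τ j ^ 2 * cond s 1 (A ^ 2) * (ov x y - ov x' y') ^ 2 := by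
  have h1 := clp_lip A (ov x y) (ov x' y')
  have h2 := sq_nonneg (D.τ j)
  have h3 := sq_nonneg (clp A (ov x y) - clp A (ov x' y'))
  rw [Vk, Vk, if_pos hj, if_pos hj]
  cases s
  · have h4 : (clp A (ov x y) + clp A (ov x' y')) ^ 2 ≤ (A + A) ^ 2 := sq_le_sq' (abs_le.1
      ((abs_add_le _ _).trans (add_le_add (clp_le hA.le _).1 (clp_le hA.le _).1))).1 (abs_le.1
      ((abs_add_le _ _).trans (add_le_add (clp_le hA.le _).1 (clp_le hA.le _).1))).2
    have h5 := mul_le_mul_of_nonneg_left (mul_le_mul h4 h1 h3 (sq_nonneg _)) h2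
    simp only [cond_false]
    rw [← mul_sub, sq_sub_sq, mul_pow, mul_pow]
    nlinarith [mul_nonneg h2 (mul_nonneg (sq_nonneg A) (sq_nonneg (ov x y - ov x' y')))]
  · simp only [cond_true]
    rw [← mul_sub, mul_pow]
    nlinarith [mul_le_mul_of_nonneg_left h1 h2, mul_nonneg h2 h3]

theorem De_le (H : D.Ok τ0) (hT : τ0 ≤ T) (hT1 : 1 ≤ T) (hA : 0 < A) (hX : D.X ≤ A) {n : ℕ}
    (s : Fin n → Bool) (hs : ∏ t, cond (s t) A (A ^ 2) = A ^ 4) (t : Fin n) :
    Br D.B (De (fun _ => 1) D.B 0 D.J (fun t => Uk D (s t)) (fun t => Vk D A (s t))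
      (fun t => T * cond (s t) A (A ^ 2)) T t) ≤
      T ^ (n + 1) * D.tl + 8 * n ^ 2 * T ^ n * (A ^ 2 * D.Lv1) := by
  have hi : D.J < D.B.length := H.cut.trans_eq D.B_len.symm
  have tl := H.tl0
  have hT0 : 0 < T := one_pos.trans_le hT1
  refine (Br_mono H.mono (g' := fun j => if j ∈ D.lo then T ^ (n + 1) * D.tl +
    8 * n ^ 2 * T ^ n * (A ^ 2 * D.v j (D.J + 1)) else 0) fun j _ => ?_).trans ?_
  · obtain ⟨h0, h1⟩ := H.tau_mem j
    have hv := D.v0 j (D.J + 1)
    unfold De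
    by_cases hj : j ≤ D.J
    · have b1 := (pi2_mono wt_one90 D.B j (sub_Vk H hA hX (s t) hj) 0).trans_eq
        (pi2_const_mul _ _ _ _ _ _)
      have b2 : VV (fun _ => 1) D.B 0 D.J j (Vk D A (s t) j) ≤
          D.τ j ^ 2 * cond (s t) 1 (A ^ 2) * (8 * D.v j (D.J + 1)) :=
        ((TK_mono wt_one90 (um_q4 _ (hj.trans hi.le)) fun y => lip_Vk hA (s t) hj _ _ _ _).trans_eq
          (TK_mul _ _)).trans (mul_le_mul_of_nonneg_left (VV_le wt_one90 hi hj
            fun x z => by rw [ov, ov, dotProduct_comm]) (by cases s t <;> simp <;> positivity))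
      have b3 : VV (fun _ => 1) D.B 0 D.J j (Vk D A (s t) j) / (T * cond (s t) A (A ^ 2)) ^ 2 ≤
          (D.τ j / T) ^ 2 * (8 * D.v j (D.J + 1)) / A ^ 2 :=
        (div_le_div_of_nonneg_right b2 (sq_nonneg _)).trans_eq (by
          cases s t <;> simp only [cond_true, cond_false] <;> field_simp)
      rw [if_pos hj, Finset.prod_mul_distrib, hs, Finset.prod_const, Finset.card_univ,
        Fintype.card_fin]
      refine (add_le_add (mul_le_mul_of_nonneg_left b1 (by positivity)) (mul_le_mul_of_nonneg_left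
        (mul_le_mul_of_nonneg_left b3 (by positivity)) (by positivity))).trans ?_
      split_ifs with hl
      · refine add_le_add ?_ ?_
        · rw [pow_succ, mul_assoc]
          exact mul_le_mul_of_nonneg_left (mul_le_mul (h1.trans hT) (H.envL j hl)
            (pi2_nonneg wt_one90 _ _ (fun _ _ => le_max_right _ _) _) hT0.le) (by positivity)
        · have h2 : (D.τ j / T) ^ 2 ≤ 1 :=
            pow_le_one₀ (by positivity) ((div_le_one hT0).2 (h1.trans hT))
          refine (mul_le_mul_of_nonneg_left (mul_le_mul_of_nonneg_left (div_le_div_of_nonneg_right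
            (mul_le_of_le_one_left (by positivity) h2) (sq_nonneg _)) (by positivity))
            (by positivity)).trans_eq ?_
          field_simp
      · have : j = 0 := by
          rw [CD.mem_lo] at hl
          omega
        have e : D.τ j = 0 := by simp [this, oTau, OneP.dAcc_zero]
        simp [e]
    · rw [if_neg hj, if_neg fun h => hj (CD.mem_lo.1 h).2]
  · simp only [Br, mul_ite, mul_zero]
    rw [Finset.sum_ite_mem, Finset.inter_eq_right.2 fun j hj => Finset.mem_range.2 (by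
      have := (CD.mem_lo.1 hj).2
      omega)]
    simp only [mul_add, Finset.sum_add_distrib, ← Finset.sum_mul]
    refine add_le_add (mul_le_of_le_one_left (by positivity) (H.sum_lo.trans H.X1)) (le_of_eq ?_)
    simp only [CD.Lv1, Finset.mul_sum]
    exact Finset.sum_congr rfl fun j _ => by ring

theorem exists_A (H : D.Ok τ0) : ∃ A : ℝ, 0 < A ∧ A ≤ 1 ∧ D.X ≤ A ∧
    A ^ 2 * D.Lv1 ≤ D.E0 ∧ ex D.B D.J ^ 2 * A ^ 4 ≤ D.E0 := by
  rcases H.X0.eq_or_lt with h | h
  · have h1 : ex D.B D.J = 0 := le_antisymm (H.x1.trans_eq h.symm) (H.ex0 _)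
    have h2 : D.Lv1 = 0 := Finset.sum_eq_zero fun j hj => mul_eq_zero_of_left (le_antisymm
      ((Finset.single_le_sum (fun i _ => H.dx0 i) hj).trans (H.sum_lo.trans_eq h.symm)) (H.dx0 j)) _
    exact ⟨1, one_pos, le_rfl, H.X1, by simpa [h2] using H.E00, by simpa [h1] using H.E00⟩
  · refine ⟨D.X, h, H.X1, le_rfl, le_trans ?_ H.Lad0_le, le_trans ?_ H.X6_le⟩
    · obtain ⟨-, h1, h2⟩ := H.Lad0_parts
      unfold CD.Lad0
      linarith
    · exact (mul_le_mul_of_nonneg_right (pow_le_pow_left₀ (H.ex0 _) H.x1 2)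
        (by positivity)).trans_eq (by ring)

theorem abs_eF {Ω : Type} {r K : ℕ} {σ : SM r} (hσ : Rz K σ) (x : Fin r → Ω) :
    ∀ (Z : List (ℕ → Ω → Ω → ℝ)), (∀ z ∈ Z, ∀ j ≤ K, ∀ a b, |z j a b| ≤ 2) → ∀ E : EL r,
      |eF Z σ E x| ≤ 2 ^ Z.length
  | [], _, _ => by simp [eF]
  | _ :: _, _, [] => by simpa [eF] using one_le_pow₀ one_le_two
  | z :: Z, h, e :: E => by
      rw [eF, abs_mul, List.length_cons, pow_succ]
      exact mul_le_mul (abs_eF hσ x Z (fun z hz => h z (List.mem_cons_of_mem _ hz)) E)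
        (h z List.mem_cons_self _ ((um_rz hσ).le _ _) _ _) (abs_nonneg _) (by positivity)

/-- the constant -/
def cW (τ0 : ℝ) (n k m : ℕ) : ℝ := cL k * 2 ^ m *
  ((n + 2) * (max τ0 1 ^ (n + 3) + 8 * (n + 2) ^ 2 * max τ0 1 ^ (n + 2)) + max τ0 1 ^ (n + 2))

theorem cW_nonneg (τ0 : ℝ) (n k m : ℕ) : 0 ≤ cW τ0 n k m := by
  have := cL_nonneg k
  unfold cW
  positivity

theorem word (H : D.Ok τ0) {μ : ℕ → ℝ} {W : ℝ} (Hμ : Mu D.B D.J μ W) {n k : ℕ} (hk : n ≤ k)
    (s : Fin (n + 2) → Bool) (hs : ∀ A : ℝ, ∏ t, cond (s t) A (A ^ 2) = A ^ 4)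
    (Z : List (ℕ → Bool → Bool → ℝ)) (hZ : ∀ z ∈ Z, ∀ j ≤ D.K, ∀ a b, |z j a b| ≤ 2) :
    |LamG D.B μ (k + 1) fun r σ E => tmG (fun _ => 1) D.B 0 (List.ofFn fun t => Uk D (s t)) r σ E *
      tmG (fun _ => 1) D.S 0 Z r σ E.tail| ≤ cW τ0 n k Z.length * (W * D.E0) := by
  obtain ⟨A, hA, hA1, hX, h1, h2⟩ := exists_A H
  have hW : 0 ≤ W := (Finset.sum_nonneg fun _ _ => abs_nonneg _).trans Hμ.tot
  have hT := le_max_left τ0 1
  have hT1 := le_max_right τ0 1
  set T := max τ0 1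
  have hT0 : 0 < T := one_pos.trans_le hT1
  have rS : ∀ {r} {σ : SM r}, Rz D.B.length σ → Rz D.S.length σ := fun h => Ck32.lenS ▸ h
  refine (core wt_one90 H.mono (H.cut.trans_eq D.B_len.symm) Hμ (U := fun t => Uk D (s t))
    (V := fun t => Vk D A (s t)) (c := tmG (fun _ => 1) D.S 0 Z)
    (fun t j => Uk_hi _) (fun t j => Vk_hi _) (a := fun t => T * cond (s t) A (A ^ 2))
    (fun t => by cases s t <;> simp only [cond_true, cond_false] <;> positivity)
    (fun t => abs_Vk H hT hA _) hT1 (fun t => abs_Uk H hT _)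
    (fun t => mul_le_of_le_one_right hT0.le (by
      cases s t
      exacts [pow_le_one₀ hA.le hA1, hA1])) (z := 2 ^ Z.length) (by positivity)
    (fun r σ E hσ => ?_) (fun r σ E a j hσ => ?_) hk).trans ?_
  · rw [tmG, TM_eq wt_one90 (rS hσ)]
    exact (abs_TK_le wt_one90 (um_rz (rS hσ)) fun x => abs_eF hσ x Z (D.B_len ▸ hZ) E).trans_eq
      (TK_const wt_one90 (um_rz (rS hσ)) _)
  · exact (congrArg _ (funext fun x => eF_re Fin.succ _ x Z E)).trans
      (TM_inj wt_one90 (rS (hσ.gr a j)) (Fin.succ_injective r) _)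
  · have b := Finset.sum_le_card_nsmul Finset.univ _ _ fun t _ => De_le H hT hT1 hA hX s (hs A) t
    rw [Finset.card_univ, Fintype.card_fin, nsmul_eq_mul] at b
    rw [Finset.prod_mul_distrib, hs, Finset.prod_const, Finset.card_univ, Fintype.card_fin, cW]
    have c := cL_nonneg k
    have b2 := b.trans (mul_le_mul_of_nonneg_left (add_le_add
      (mul_le_mul_of_nonneg_left H.tl_le (by positivity))
      (mul_le_mul_of_nonneg_left h1 (by positivity))) (by positivity))
    have b3 := mul_le_mul_of_nonneg_left h2 (pow_pos hT0 (n + 2)).le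
    refine (mul_le_mul_of_nonneg_left (mul_le_mul_of_nonneg_left (add_le_add b2
      ((le_of_eq (by ring)).trans b3)) (by positivity)) c).trans_eq ?_
    push_cast
    ring

theorem eF_one {Ω : Type} {r : ℕ} (σ : SM r) (Z : List (ℕ → Ω → Ω → ℝ)) :
    ∀ E : EL r, eF ((fun _ _ _ => 1) :: Z) σ E = eF Z σ E.tail
  | [] => by funext x; cases Z <;> rfl
  | _ :: _ => funext fun _ => mul_one _

theorem eF_snoc_one {Ω : Type} {r : ℕ} (σ : SM r) (x : Fin r → Ω) :
    ∀ (Z : List (ℕ → Ω → Ω → ℝ)) (E : EL r), eF (Z ++ [fun _ _ _ => 1]) σ E x = eF Z σ E x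
  | [], [] => rfl
  | [], _ :: _ => mul_one _
  | _ :: _, [] => rfl
  | _ :: Z, _ :: E => congrArg (· * _) (eF_snoc_one σ x Z E)

theorem tw_val (H : D.Ok τ0) (hW : D.W.isSome = false) (a : Lt) (f : List Lt) :
    D.tw (a :: f) = LamG D.B (dm D.B 0) f.length fun r σ E =>
      tmG (fun _ => 1) D.B 0 (((a :: f).reverse.map (lt D.n D.β D.M D.q D.cl)).map Prod.fst) r σ E *
      tmG (fun _ => 1) D.S 0 (((a :: f).reverse.map (lt D.n D.β D.M D.q D.cl)).map Prod.snd) r σ E := by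
  rw [CD.tw, CD.dd_val hW, tm_eq H.pos H.ook, List.map_cons, lamB, Ck32.frame, List.length_map,
    List.map_reverse, List.map_cons, List.reverse_cons]
  rfl

theorem tw_test (hW : D.W.isSome = true) (f : List Lt) :
    D.tw f = LamG D.B (fun j => if j ∈ Finset.Ioo D.J D.B.length then D.om j else 0) f.length
      fun r σ E =>
      tmG (fun _ => 1) D.B 0 ((f.reverse.map (lt D.n D.β D.M D.q D.cl)).map Prod.fst) r σ E *
      tmG (fun _ => 1) D.S 0 ((f.reverse.map (lt D.n D.β D.M D.q D.cl)).map Prod.snd ++ [oE D.q])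
        r σ E := by
  have := Ck32.frame (D := D) (fun j => if j ∈ Finset.Ioo D.J D.B.length then D.om j else 0)
    (fun _ _ _ => 1, oE D.q) (f.map (lt D.n D.β D.M D.q D.cl))
  simp only [ite_mul, zero_mul] at this
  rw [Finset.sum_ite_mem, Finset.inter_eq_right.2 fun j hj => Finset.mem_range.2 (by
      have := (Finset.mem_Ioo.1 hj).2
      omega), List.length_map (as := f), D.B_len] at this
  rw [CD.tw, CD.dd_test hW, D.B_len]
  refine this.trans (congrArg _ ?_)
  funext r σ E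
  rw [List.map_append, List.map_append, ← List.map_reverse]
  exact congrArg (· * _) (congrArg _ (funext fun x => eF_snoc_one σ x _ E))

theorem mu_test (H : D.Ok τ0) (hW : D.W.isSome = true) :
    Mu D.B D.J (fun j => if j ∈ Finset.Ioo D.J D.B.length then D.om j else 0) D.wt := by
  have := mu_up H.mono D.J D.om
  rwa [show ∑ j ∈ Finset.Ioo D.J D.B.length, |D.om j| = D.wt by
    rw [CD.wt_test hW, D.B_len]
    simp only [CD.Iw, mul_one]] at this

theorem site (D : CD) {r : ℕ} (σ : SM r) (Z : List (ℕ → Bool → Bool → ℝ)) (E : EL r) :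
    tmG (fun _ => 1) D.S 0 ((fun _ _ _ => 1) :: Z) r σ E = tmG (fun _ => 1) D.S 0 Z r σ E.tail :=
  congrArg _ (eF_one σ Z E)

theorem zb (H : D.Ok τ0) {Z : List (ℕ → Bool → Bool → ℝ)}
    (h : ∀ z ∈ Z, z = oE D.q ∨ z = fun _ _ _ => 1) :
    ∀ z ∈ Z, ∀ j ≤ D.K, ∀ a b, |z j a b| ≤ 2 := fun z hz j hj a b => by
  rcases h z hz with rfl | rfl
  exacts [abs_oE_le H.ook hj a b, by norm_num]

theorem s3 (A : ℝ) : ∏ t, cond ((![false, true, true] : Fin 3 → Bool) t) A (A ^ 2) = A ^ 4 := by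
  simp [Fin.prod_univ_succ]
  ring

theorem s2 (A : ℝ) : ∏ t, cond ((![false, false] : Fin 2 → Bool) t) A (A ^ 2) = A ^ 4 := by
  simp [Fin.prod_univ_succ]
  ring

end LbI15

open LbI15

theorem lbF : LbS false := by
  refine ⟨fun τ0 => ⟨cW τ0 1 1 2, cW_nonneg _ _ _ _, fun D H hW => ?_⟩,
    fun τ0 => ⟨cW τ0 0 0 1, cW_nonneg _ _ _ _, fun D H hW => ?_⟩⟩
  · have := word H (mu_dm H.mono D.J) (n := 1) (k := 1) le_rfl _ s3 [oE D.q, oE D.q]
      (zb H (by simp))
    simp only [← site] at this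
    rw [one_mul] at this
    beta_reduce
    rw [tw_val H hW]
    exact this.trans (mul_le_mul_of_nonneg_left (H.E0_le hW) (cW_nonneg _ _ _ _))
  · have := word H (mu_dm H.mono D.J) (n := 0) (k := 0) le_rfl _ s2 [fun _ _ _ => 1]
      (zb H (by simp))
    simp only [← site] at this
    rw [one_mul] at this
    beta_reduce
    rw [tw_val H hW]
    exact this.trans (mul_le_mul_of_nonneg_left (H.E0_le hW) (cW_nonneg _ _ _ _))

theorem lbT : LbS true := by
  refine ⟨fun τ0 => ⟨cW τ0 1 2 3, cW_nonneg _ _ _ _, fun D H hW => ?_⟩,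
    fun τ0 => ⟨cW τ0 0 1 2, cW_nonneg _ _ _ _, fun D H hW => ?_⟩⟩
  · have := word H (mu_test H hW) (n := 1) (k := 2) one_le_two _ s3 [oE D.q, oE D.q, oE D.q]
      (zb H (by simp))
    simp only [← site] at this
    beta_reduce
    rw [tw_test hW]
    exact this.trans (mul_le_mul_of_nonneg_left H.wtE0_le (cW_nonneg _ _ _ _))
  · have := word H (mu_test H hW) (n := 0) (k := 1) zero_le_one _ s2 [fun _ _ _ => 1, oE D.q]
      (zb H (by simp))
    simp only [← site] at this
    beta_reduce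
    rw [tw_test hW]
    exact this.trans (mul_le_mul_of_nonneg_left H.wtE0_le (cW_nonneg _ _ _ _))

/-- **the low words with a letter `bL`** -/
theorem lbS : ∀ b, LbS b
  | false => lbF
  | true => lbT

end Crest.Agent.T156.Cas.C40

end
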