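import Crest.Agent.T156.LpB_12

/-!
# Row 156 (helper12): Brascamp–Lieb in `L^k` for general functionals, quadratic variation in `L^k`
-/

set_option autoImplicit false
set_option linter.unusedSectionVars false

noncomputable section

namespace Crest.Agent.T156.Cas.Lp12

open MeasureTheory Real Set Filter Topology
open Crest.Agent.T157.E Crest.Agent.T157.Casc Crest.Agent.T157.SL Sy41

variable {Ω : Type} [Fintype Ω] {w : Ω → ℝ} {L : List (Lv Ω)} {h : Ω → ℝ}
  {T : Set (Equiv.Perm Ω)} {F F' Γ Γ' : Pth Ω → ℝ}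

theorem HT_exp (hw : Wt w) (s : Sh) (L : List (Lv Ω)) (p u u' : Pa s.Lf Ω) (c c' : ℝ) :
    HT w s L p (fun a j y => c * u a j y + c' * u' a j y) (fun a j y => c * u a j y + c' * u' a j y) =
      c ^ 2 * HT w s L p u u + 2 * c * c' * HT w s L p u u' + c' ^ 2 * HT w s L p u' u' := by
  have sy : ∀ u q, HT w s L p u q = HT w s L p q u := fun u q => by
    simp only [HT, Hess87.Hb_symm hw (u _ _)]
  rw [HT_comb, sy u, sy u', HT_comb, HT_comb, sy u' u]
  ring

theorem HT_comb_le (hw : Wt w) (hL : Mono 0 L) (s : Sh) (p u u' : Pa s.Lf Ω) (c c' : ℝ) :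
    HT w s L p (fun a j y => c * u a j y + c' * u' a j y) (fun a j y => c * u a j y + c' * u' a j y) ≤
      2 * c ^ 2 * HT w s L p u u + 2 * c' ^ 2 * HT w s L p u' u' := by
  have := HT_nonneg hw s hL p fun a j y => c * u a j y + (-c') * u' a j y
  rw [HT_exp hw] at this ⊢
  linarith

/-- an invariant functional `F` with Brascamp–Lieb energy at most `Γ` -/
structure BLd (w : Ω → ℝ) (L : List (Lv Ω)) (h : Ω → ℝ) (T : Set (Equiv.Perm Ω))
    (F Γ : Pth Ω → ℝ) : Prop where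
  ep : EP F
  ep' : EP Γ
  meas : Measurable F
  inv : ∀ τ ∈ T, ∀ p, F (fun j y => p j (τ.symm y)) = F p
  dir : ∃ u v, Dir w .one L h (fun g => F fun j => st L j h g) u v ∧
    ∀ g, HT w .one L (stT .one L h g) (u g) (u g) + ∑ i, v g i ^ 2 ≤ Γ fun j => st L j h g

namespace BLd

theorem mono (H : BLd w L h T F Γ) (e : EP Γ') (le : ∀ p, Γ p ≤ Γ' p) : BLd w L h T F Γ' :=
  ⟨H.ep, e, H.meas, H.inv, H.dir.imp fun _ => .imp fun _ k => ⟨k.1, fun g => (k.2 g).trans (le _)⟩⟩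

theorem congr (H : BLd w L h T F Γ) (e : ∀ p, F' p = F p) : BLd w L h T F' Γ := by
  rwa [funext e]

theorem comb (hw : Wt w) (hL : Mono 0 L) {a b : (NI L → ℝ) → ℝ} {u u' : (NI L → ℝ) → Pa Unit Ω}
    {v v' : (NI L → ℝ) → NI L → ℝ} (g : NI L → ℝ) {x x' : ℝ}
    (k : HT w .one L (stT .one L h g) (u g) (u g) + ∑ i, v g i ^ 2 ≤ x)
    (k' : HT w .one L (stT .one L h g) (u' g) (u' g) + ∑ i, v' g i ^ 2 ≤ x') :
    HT w .one L (stT .one L h g) (fun s j y => a g * u g s j y + b g * u' g s j y)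
      (fun s j y => a g * u g s j y + b g * u' g s j y) + ∑ i, (a g * v g i + b g * v' g i) ^ 2 ≤
      2 * (a g ^ 2 * x + b g ^ 2 * x') := by
  have h1 := HT_comb_le hw hL .one (stT .one L h g) (u g) (u' g) (a g) (b g)
  have h2 : ∑ i, (a g * v g i + b g * v' g i) ^ 2 ≤
      2 * a g ^ 2 * ∑ i, v g i ^ 2 + 2 * b g ^ 2 * ∑ i, v' g i ^ 2 := by
    simp only [Finset.mul_sum, ← Finset.sum_add_distrib]
    exact Finset.sum_le_sum fun i _ => by nlinarith [sq_nonneg (a g * v g i - b g * v' g i)]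
  have h3 := mul_le_mul_of_nonneg_left k (sq_nonneg (a g))
  have h4 := mul_le_mul_of_nonneg_left k' (sq_nonneg (b g))
  linarith

/-- linear combinations -/
theorem lin (hw : Wt w) (hL : Mono 0 L) (H : BLd w L h T F Γ) (H' : BLd w L h T F' Γ') (c c' : ℝ) :
    BLd w L h T (fun p => c * F p + c' * F' p) fun p => 2 * (c ^ 2 * Γ p + c' ^ 2 * Γ' p) := by
  obtain ⟨u, v, D, k⟩ := H.dir
  obtain ⟨u', v', D', k'⟩ := H'.dir
  exact ⟨(H.ep.const_mul c).add (H'.ep.const_mul c'),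
    ((H.ep'.const_mul _).add (H'.ep'.const_mul _)).const_mul 2,
    (H.meas.const_mul c).add (H'.meas.const_mul c'), fun τ hτ p => by rw [H.inv τ hτ, H'.inv τ hτ],
    _, _, D.comb D' c c', fun g => comb hw hL (a := fun _ => c) (b := fun _ => c') g (k g) (k' g)⟩

theorem add (hw : Wt w) (hL : Mono 0 L) (H : BLd w L h T F Γ) (H' : BLd w L h T F' Γ') :
    BLd w L h T (fun p => F p + F' p) fun p => 2 * (Γ p + Γ' p) := by
  simpa only [one_mul, one_pow] using H.lin hw hL H' 1 1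

/-- products -/
theorem mul (hw : Wt w) (hL : Mono 0 L) (H : BLd w L h T F Γ) (H' : BLd w L h T F' Γ') :
    BLd w L h T (fun p => F p * F' p) fun p => 2 * (F' p ^ 2 * Γ p + F p ^ 2 * Γ' p) := by
  obtain ⟨u, v, D, k⟩ := H.dir
  obtain ⟨u', v', D', k'⟩ := H'.dir
  exact ⟨H.ep.mul H'.ep, (((H'.ep.pow 2).mul H.ep').add ((H.ep.pow 2).mul H'.ep')).const_mul 2,
    H.meas.mul H'.meas, fun τ hτ p => by rw [H.inv τ hτ, H'.inv τ hτ],
    _, _, D.mul D', fun g => comb hw hL (a := fun g => F' fun j => st L j h g)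
      (b := fun g => F fun j => st L j h g) g (k g) (k' g)⟩

/-- `C¹` functions -/
theorem comp (hw : Wt w) (H : BLd w L h T F Γ) {φ φ' : ℝ → ℝ} (hφ : ∀ t, HasDerivAt φ (φ' t) t)
    (e : EP fun p => φ (F p)) (e' : EP fun p => φ' (F p)) :
    BLd w L h T (fun p => φ (F p)) fun p => φ' (F p) ^ 2 * Γ p := by
  obtain ⟨u, v, D, k⟩ := H.dir
  refine ⟨e, (e'.pow 2).mul H.ep',
    (continuous_iff_continuousAt.2 fun t => (hφ t).continuousAt).measurable.comp H.meas,
    fun τ hτ p => by rw [H.inv τ hτ], _, _, D.comp hφ (e.eg L h) (e'.eg L h), fun g => ?_⟩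
  have := HT_exp hw .one L (stT .one L h g) (u g) (u g) (φ' (F fun j => st L j h g)) 0
  simp only [zero_mul, add_zero, mul_zero, sq (0 : ℝ)] at this
  rw [this]
  simp only [mul_pow, ← Finset.mul_sum, ← mul_add]
  exact mul_le_mul_of_nonneg_left (k g) (sq_nonneg _)

theorem const_mul (hw : Wt w) (H : BLd w L h T F Γ) (c : ℝ) :
    BLd w L h T (fun p => c * F p) fun p => c ^ 2 * Γ p :=
  H.comp hw (φ := fun t => c * t) (φ' := fun _ => c)
    (fun t => by simpa using (hasDerivAt_id t).const_mul c) (H.ep.const_mul c) (EP.const c)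

theorem sub_const (hw : Wt w) (H : BLd w L h T F Γ) (c : ℝ) :
    BLd w L h T (fun p => F p - c) Γ := by
  simpa using H.comp hw (φ := fun t => t - c) (φ' := fun _ => 1)
    (fun t => (hasDerivAt_id t).sub_const c) (H.ep.sub (EP.const c)) (EP.const 1)

theorem pow (hw : Wt w) (H : BLd w L h T F Γ) (k : ℕ) :
    BLd w L h T (fun p => F p ^ (k + 1)) fun p => (((k : ℝ) + 1) * F p ^ k) ^ 2 * Γ p :=
  H.comp hw (φ := fun t => t ^ (k + 1)) (φ' := fun t => ((k : ℝ) + 1) * t ^ k)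
    (fun t => by simpa using hasDerivAt_pow (k + 1) t) (H.ep.pow _) ((H.ep.pow k).const_mul _)

/-- weighted sums of invariant functions of the node laws -/
theorem nodes {f : ℕ → (Ω → ℝ) → ℝ} {u : ℕ → (Ω → ℝ) → Ω → ℝ} (hw : Wt w)
    (hu : ∀ j y, Eg fun z => u j z y)
    (hf : ∀ j, Gr (f j) fun y z => ∑ x, u j z x * Hs w (L.drop j) z x y)
    (hi : ∀ τ ∈ T, ∀ j z, f j (fun y => z (τ.symm y)) = f j z) :
    BLd w L h T (fun p => ∑ j ∈ Finset.range L.length, dm L 0 (j + 1) * f (j + 1) (p (j + 1)))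
      fun p => ∑ j ∈ Finset.range L.length, dm L 0 (j + 1) *
        Hb w (L.drop (j + 1)) (p (j + 1)) (u (j + 1) (p (j + 1))) (u (j + 1) (p (j + 1))) := by
  have D := Dir.nodes (w := w) (s := .one) (L := L) (h := h) (f := fun _ j => f j)
    (u := fun _ j => u j) (fun _ => hu) fun _ => hf
  have su : ∀ Φ : Unit → ℕ → ℝ, ∑ a : Sh.one.Lf, ∑ j ∈ Finset.range (L.length + 1),
      cf .one L a j * Φ a j = ∑ j ∈ Finset.range L.length, dm L 0 (j + 1) * Φ () (j + 1) := by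
    intro Φ
    show ∑ a : Unit, _ = _
    rw [Fintype.sum_unique, Finset.sum_range_succ']
    simp [cf]
  rw [funext fun g => su fun a j => f j (stT .one L h g a j)] at D
  refine ⟨EP.sum _ fun j _ => (EP.state (hf _).eg _).const_mul _,
    EP.sum _ fun j _ => (EP.state (Sy41.eg_Hb hw _ (hu _) (hu _)) _).const_mul _,
    Finset.measurable_sum _ fun j _ =>
      ((hf _).eg.cont.measurable.comp (measurable_pi_apply _)).const_mul _,
    fun τ hτ p => Finset.sum_congr rfl fun j _ => congrArg _ (hi τ hτ _ _), _, _, D,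
    fun g => le_of_eq ?_⟩
  simp only [HT, sq (0 : ℝ), mul_zero, Finset.sum_const_zero, add_zero]
  exact su _

end BLd

theorem rr_inv (hw : Wt w) {τ : Equiv.Perm Ω} (hτ : Sym w L h τ) {l₀ : Lv Ω}
    (h₀ : ∀ x y, l₀.cov (τ x) (τ y) = l₀.cov x y) (j : ℕ) (z : Ω → ℝ) :
    rr w (L.drop j) l₀ (fun y => z (τ.symm y)) = rr w (L.drop j) l₀ z := by
  rw [rr_eq, rr_eq]
  have e := fun x => (symStmt Ω w hw L h τ hτ).2.1 j (fun y => z (τ.symm y)) x
  simp only [Equiv.symm_apply_apply] at e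
  simp only [qf, e]
  rw [← Equiv.sum_comp τ]
  refine Finset.sum_congr rfl fun x _ => ?_
  rw [← Equiv.sum_comp τ]
  simp only [h₀]

/-- `∑ dm_j G_j (r_j)` -/
theorem bld_rr (hw : Wt w) (hT : ∀ τ ∈ T, Sym w L h τ) (l₀ : Lv Ω)
    (h₀ : ∀ τ ∈ T, ∀ x y, l₀.cov (τ x) (τ y) = l₀.cov x y) {G G' : ℕ → ℝ → ℝ}
    (hG : ∀ j t, HasDerivAt (G j) (G' j t) t) (hG' : ∀ j, Continuous (G' j)) :
    BLd w L h T (fun p => ∑ j ∈ Finset.range L.length, dm L 0 (j + 1) *
      G (j + 1) (rr w (L.drop (j + 1)) l₀ (p (j + 1))))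
      fun p => 4 * ∑ j ∈ Finset.range L.length, dm L 0 (j + 1) *
        (G' (j + 1) (rr w (L.drop (j + 1)) l₀ (p (j + 1))) ^ 2 *
          mAm w (L.drop (j + 1)) l₀ (p (j + 1))) := by
  have cG : ∀ j, Continuous (G j) := fun j =>
    continuous_iff_continuousAt.2 fun t => (hG j t).continuousAt
  have e1 := fun j => eg_comp_rr hw (L.drop j) l₀ (cG j)
  have e2 := fun j => eg_comp_rr hw (L.drop j) l₀ (hG' j)
  have D := BLd.nodes (w := w) (L := L) (h := h) (T := T) (f := fun j z => G j (rr w (L.drop j) l₀ z))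
    (u := fun j z x => 2 * G' j (rr w (L.drop j) l₀ z) * l₀.fld (mv w (L.drop j) l₀ z) x) hw
    (fun j y => ((e2 j).const_mul 2).mul (eg_fld l₀ (eg_mv hw _ l₀) y))
    (fun j => (gr_comp (gr_rr hw (L.drop j) l₀) (hG j) (e1 j) (e2 j)).congr fun y z => by
      rw [Finset.mul_sum]; exact Finset.sum_congr rfl fun _ _ => by ring)
    fun τ hτ j z => by rw [rr_inv hw (hT τ hτ) (h₀ τ hτ)]
  refine D.mono ((EP.sum _ fun j _ => (EP.state (((e2 _).pow 2).mul (eg_mAm hw _ l₀)) _).const_mul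
    _).const_mul 4) fun p => le_of_eq ?_
  simp only [Hb_smul, Finset.mul_sum, mAm]
  exact Finset.sum_congr rfl fun _ _ => by ring

section bl
variable (hw : Wt w) (hL : Mono 0 L) (hT : ∀ τ ∈ T, Sym w L h τ)
  (htr : ∀ x y, w x ≠ 0 → w y ≠ 0 → ∃ τ ∈ T, τ x = y)
include hw hL hT htr

/-- **Brascamp–Lieb** -/
theorem BLd.var (H : BLd w L h T F Γ) :
    EE w L h (fun p => F p ^ 2) - EE w L h F ^ 2 ≤ EE w L h Γ := by
  obtain ⟨u, v, D, k⟩ := H.dir
  rw [EE_eq hw L h (H.ep.pow 2), EE_eq hw L h H.ep, EE_eq hw L h H.ep']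
  exact (bl_pE hw hL h hT htr H.meas H.inv D).trans (pE_mono hw L h
    ((eg_HT hw .one L h D.egu D.egu).add (Eg.sum _ fun i _ => (D.egv i).pow 2)) (H.ep'.eg L h) k)

theorem BLd.var' (H : BLd w L h T F Γ) :
    EE w L h (fun p => (F p - EE w L h F) ^ 2) ≤ EE w L h Γ := by
  have := (H.sub_const hw (EE w L h F)).var hw hL hT htr
  rwa [EE_sub hw L h H.ep (EP.const _), EE_const hw, sub_self, sq (0 : ℝ), mul_zero, sub_zero] at this

/-- **(BLp)**: `‖F - E F‖_{2k} ≤ 4^k ‖Γ‖_k^{1/2}` -/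
theorem BLd.mo (H : BLd w L h T F Γ) {B : ℝ} (hB : 0 ≤ B) :
    ∀ {k : ℕ}, k ≠ 0 → Mo w L h k Γ (B ^ 2) →
      Mo w L h (2 * k) (fun p => F p - EE w L h F) (4 ^ k * B)
  | 1, _, hΓ => ⟨H.ep.sub (EP.const _), by positivity, by
      simp only [mul_one, sq_abs]
      exact (H.var' hw hL hT htr).trans ((hΓ.EE_le hw one_ne_zero).trans (by nlinarith [sq_nonneg B]))⟩
  | k + 2, _, hΓ => by
    have ih := (H.mo hB (k := k + 1) (by omega) (hΓ.lyap1 hw)).lyap hw
      (show k + 2 ≤ 2 * (k + 1) by omega)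
    have HY := H.sub_const hw (EE w L h F)
    set Y := fun p => F p - EE w L h F with hY
    have hA := mo_nr (w := w) (L := L) (h := h) (k := 2 * (k + 2)) (by omega) HY.ep
    set a := nr w L h (2 * (k + 2)) Y with ha
    have h1 := (HY.pow hw (k + 1)).var hw hL hT htr
    have h2 : EE w L h (fun p => Y p ^ (k + 2)) ^ 2 ≤ ((4 ^ (k + 1) * B) ^ (k + 2)) ^ 2 := by
      rw [← sq_abs]
      refine pow_le_pow_left₀ (abs_nonneg _) ?_ 2
      have : Mo w L h ((k + 2) * 1) Y (4 ^ (k + 1) * B) := by rwa [mul_one]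
      exact this.pow.abs_EE_le hw one_ne_zero
    have h3 := hΓ.holder hw (hA.pow (j := 2))
    have h4 := EE_mono hw L h (HY.pow hw (k + 1)).ep'
      ((hΓ.ep.abs.mul ((HY.ep.pow 2).abs.pow (k + 1))).const_mul ((((k + 1 : ℕ) : ℝ) + 1) ^ 2))
      fun p => by
        rw [mul_pow, mul_assoc, abs_of_nonneg (sq_nonneg (Y p)), ← pow_mul, ← pow_mul,
          mul_comm (k + 1) 2, mul_comm |Γ p|]
        refine mul_le_mul_of_nonneg_left (mul_le_mul_of_nonneg_left (le_abs_self _) ?_) (sq_nonneg _)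
        rw [pow_mul]; positivity
    rw [EE_const_mul] at h4
    have h5 : EE w L h (fun p => (Y p ^ (k + 1 + 1)) ^ 2) = a ^ (2 * (k + 2)) := by
      rw [ha, nr_pow (by omega)]
      congr 1
      funext p
      rw [pow_mul, sq_abs, ← pow_mul, ← pow_mul, mul_comm]
    have h6 : a ^ (2 * (k + 2)) ≤ ((4 ^ (k + 1) * B) ^ (k + 2)) ^ 2 +
        ((k : ℝ) + 2) ^ 2 * (B ^ 2 * (a ^ 2) ^ (k + 1)) := by
      have := mul_le_mul_of_nonneg_left h3 (sq_nonneg (((k + 1 : ℕ) : ℝ) + 1))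
      push_cast at this h4 h1
      rw [show (k : ℝ) + 1 + 1 = k + 2 by ring] at this h4 h1
      linarith
    refine hA.mono (le_of_not_gt fun hlt => ?_)
    have a0 : 0 < a := lt_of_le_of_lt (by positivity) hlt
    have k1 : (k : ℝ) + 2 ≤ 4 ^ (k + 1) := by
      have := one_add_mul_le_pow (show (-2 : ℝ) ≤ 3 by norm_num) (k + 1)
      push_cast at this
      norm_num at this
      linarith [(Nat.cast_nonneg k : (0 : ℝ) ≤ k)]
    have e4 : (4 : ℝ) ^ (k + 2) * B = 4 * (4 ^ (k + 1) * B) := by ring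
    rw [e4] at hlt
    have b1 : 4 ^ (k + 1) * B ≤ a / 4 := by linarith
    have b2 : ((k : ℝ) + 2) * B ≤ a / 4 := (mul_le_mul_of_nonneg_right k1 hB).trans b1
    have c1 : ((4 ^ (k + 1) * B) ^ (k + 2)) ^ 2 ≤ a ^ (2 * (k + 2)) / 4 := by
      rw [← pow_mul, mul_comm (k + 2) 2]
      refine (pow_le_pow_left₀ (by positivity) b1 _).trans ?_
      rw [div_pow]
      exact div_le_div_of_nonneg_left (by positivity) (by norm_num)
        (le_self_pow₀ (by norm_num) (by omega))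
    have c2 : ((k : ℝ) + 2) ^ 2 * (B ^ 2 * (a ^ 2) ^ (k + 1)) ≤ a ^ (2 * (k + 2)) / 4 := by
      have := mul_le_mul_of_nonneg_right (pow_le_pow_left₀ (by positivity) b2 2)
        (by positivity : 0 ≤ (a ^ 2) ^ (k + 1))
      have e : a ^ (2 * (k + 2)) = a ^ 2 * (a ^ 2) ^ (k + 1) := by ring
      have : 0 ≤ a ^ 2 * (a ^ 2) ^ (k + 1) := by positivity
      rw [e]
      nlinarith
    have : 0 < a ^ (2 * (k + 2)) := by positivity
    linarith

end bl

/-! ### quadratic variation -/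

theorem pow_add_ge {u t : ℝ} (hu : 0 ≤ u) (ht : 0 ≤ t) :
    ∀ m : ℕ, u ^ (m + 2) + (m + 2) * u ^ (m + 1) * t + t ^ (m + 2) ≤ (u + t) ^ (m + 2)
  | 0 => by norm_num; nlinarith
  | m + 1 => by
    have h1 := mul_le_mul_of_nonneg_right (pow_add_ge hu ht m) (add_nonneg hu ht)
    rw [← pow_succ] at h1
    refine le_trans ?_ h1
    have a1 : 0 ≤ ((m : ℝ) + 2) * u ^ (m + 1) * t * t := by positivity
    have a2 : 0 ≤ t ^ (m + 2) * u := by positivity
    push_cast
    simp only [pow_succ] at a1 a2 ⊢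
    nlinarith

/-- uniform convexity of `|a|^{2k}` -/
theorem unif_conv {u β c : ℝ} (hu : 0 ≤ u) (hβ : 0 ≤ β) (hc : c ^ 2 ≤ u * β) (m : ℕ) :
    u ^ (m + 1) + 2 * (m + 1) * (u ^ m * c) + (β / 16) ^ (m + 1) ≤ (u + 2 * c + β) ^ (m + 1) := by
  have h0 : -u ≤ 2 * c + β := by
    by_contra hh
    have : 2 * c < -(u + β) := by linarith
    nlinarith [sq_nonneg (u - β)]
  have hm : (0 : ℝ) ≤ m := Nat.cast_nonneg m
  rcases le_total β (16 * u) with k | k
  · have h1 : u ^ (m + 1) + (m + 1) * u ^ m * (2 * c + β) ≤ (u + 2 * c + β) ^ (m + 1) := by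
      have := amgm (a := u + 2 * c + β) (b := u) (by linarith) hu m
      rw [pow_succ u] at this ⊢
      nlinarith
    have h2 : (β / 16) ^ (m + 1) ≤ u ^ m * β := by
      rw [pow_succ]
      exact mul_le_mul (pow_le_pow_left₀ (by positivity) (by linarith) m) (by linarith)
        (by positivity) (by positivity)
    have : 0 ≤ (m : ℝ) * (u ^ m * β) := by positivity
    nlinarith
  · have hc' : -(β / 4) ≤ c := by
      by_contra hh
      nlinarith
    cases m with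
    | zero => simp; linarith
    | succ m =>
      have h1 := pow_add_ge hu (show 0 ≤ 2 * c + β by linarith) m
      have h2 : (β / 16) ^ (m + 2) ≤ (2 * c + β) ^ (m + 2) :=
        pow_le_pow_left₀ (by positivity) (by linarith) _
      have : 0 ≤ ((m : ℝ) + 2) * u ^ (m + 1) * β := by positivity
      rw [add_assoc u]
      push_cast
      nlinarith

/-- `|m_j - m_i|²` along the path -/
def dq (w : Ω → ℝ) (L : List (Lv Ω)) (l₀ : Lv Ω) (i j : ℕ) (p : Pth Ω) : ℝ :=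
  ∑ a, (mv w (L.drop j) l₀ (p j) a - mv w (L.drop i) l₀ (p i) a) ^ 2

theorem ep_mv (hw : Wt w) (L : List (Lv Ω)) (l₀ : Lv Ω) (j : ℕ) (a : l₀.ι) :
    EP fun p => mv w (L.drop j) l₀ (p j) a := EP.state (eg_mv hw _ l₀ a) j

theorem ep_dq (hw : Wt w) (L : List (Lv Ω)) (l₀ : Lv Ω) (i j : ℕ) : EP (dq w L l₀ i j) :=
  EP.sum _ fun a _ => ((ep_mv hw L l₀ j a).sub (ep_mv hw L l₀ i a)).pow 2

theorem dq_nonneg (l₀ : Lv Ω) (i j : ℕ) (p : Pth Ω) : 0 ≤ dq w L l₀ i j p :=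
  Finset.sum_nonneg fun _ _ => sq_nonneg _

theorem ad_dq (l₀ : Lv Ω) {i j t : ℕ} (hi : i ≤ t) (hj : j ≤ t) : Ad t (dq w L l₀ i j) :=
  fun p q H => by simp only [dq, H i hi, H j hj]

/-- martingale increments are orthogonal to the past -/
theorem CE_orth (hw : Wt w) (L : List (Lv Ω)) (l₀ : Lv Ω) {t j : ℕ} (htj : t ≤ j)
    {η : Pth Ω → l₀.ι → ℝ} (hη : Ad t η) (p : Pth Ω) :
    CE w L t (fun q => ∑ a, η q a * (mv w (L.drop j) l₀ (q j) a - mv w (L.drop t) l₀ (q t) a)) p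
      = 0 := by
  rw [CE_node hw L htj (hη.comp₂ (Ad.state le_rfl fun z => z) Prod.mk)
    fun v z => ∑ a, v.1 a * (mv w (L.drop j) l₀ z a - mv w (L.drop t) l₀ v.2 a),
    node_sep hw _ fun a => (eg_mv hw _ l₀ a).sub (Eg.const _)]
  refine Finset.sum_eq_zero fun a _ => ?_
  have := node_mv hw (L.drop t) l₀ (j - t) (p t) a
  rw [List.drop_drop, Nat.add_sub_cancel' htj] at this
  rw [node_sub hw (eg_mv hw _ l₀ a) (Eg.const _), node_const hw]
  simp only [this, sub_self, mul_zero]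

theorem dq_split (l₀ : Lv Ω) (i t j : ℕ) (p : Pth Ω) : dq w L l₀ i j p = dq w L l₀ i t p +
    2 * ∑ a, (mv w (L.drop t) l₀ (p t) a - mv w (L.drop i) l₀ (p i) a) *
      (mv w (L.drop j) l₀ (p j) a - mv w (L.drop t) l₀ (p t) a) + dq w L l₀ t j p := by
  simp only [dq, Finset.mul_sum, ← Finset.sum_add_distrib]
  exact Finset.sum_congr rfl fun _ _ => by ring

/-- Pythagoras given a node `s ≤ t` or `t` itself -/
theorem CE_dq (hw : Wt w) (L : List (Lv Ω)) (l₀ : Lv Ω) {s i t j : ℕ} (hs : s ≤ t) (hi : i ≤ t)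
    (hj : t ≤ j) (p : Pth Ω) :
    CE w L s (dq w L l₀ i j) p = CE w L s (dq w L l₀ i t) p + CE w L s (dq w L l₀ t j) p := by
  have e1 := EP.sum Finset.univ fun a _ => ((ep_mv hw L l₀ t a).sub (ep_mv hw L l₀ i a)).mul
    ((ep_mv hw L l₀ j a).sub (ep_mv hw L l₀ t a))
  have h0 := funext (CE_orth hw L l₀ hj (η := fun p a =>
    mv w (L.drop t) l₀ (p t) a - mv w (L.drop i) l₀ (p i) a) fun p q H => by
      beta_reduce; rw [H t le_rfl, H i hi])
  rw [funext (dq_split l₀ i t j), CE_add hw L s ((ep_dq hw L l₀ i t).add (e1.const_mul 2))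
    (ep_dq hw L l₀ t j), CE_add hw L s (ep_dq hw L l₀ i t) (e1.const_mul 2), CE_const_mul,
    ← CE_CE hw L hs (fun q => ∑ a, _), h0, CE_ad hw L (Ad.const s 0), mul_zero, add_zero]

/-- `∑ E|Δ_i|^{2k} ≤ 16^k E|m_end - m_start|^{2k}` -/
theorem sum_dq_pow (hw : Wt w) (L : List (Lv Ω)) (h : Ω → ℝ) (l₀ : Lv Ω) {t : ℕ → ℕ}
    (ht : Monotone t) (m : ℕ) : ∀ N : ℕ, ∑ i ∈ Finset.range N,
      EE w L h (fun p => dq w L l₀ (t i) (t (i + 1)) p ^ (m + 1)) ≤
      16 ^ (m + 1) * EE w L h fun p => dq w L l₀ (t 0) (t N) p ^ (m + 1)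
  | 0 => by simp [dq, EE_const hw]
  | N + 1 => by
    have ih := sum_dq_pow hw L h l₀ ht m N
    have h0 := ht (Nat.zero_le N)
    have h1 := ht (Nat.le_succ N)
    have e0 := ep_dq hw L l₀ (t 0) (t N)
    have e1 := EP.sum Finset.univ fun a _ =>
      ((e0.pow m).mul ((ep_mv hw L l₀ (t N) a).sub (ep_mv hw L l₀ (t 0) a))).mul
      ((ep_mv hw L l₀ (t (N + 1)) a).sub (ep_mv hw L l₀ (t N) a))
    have e2 := ((ep_dq hw L l₀ (t N) (t (N + 1))).pow (m + 1)).const_mul (16 ^ (m + 1))⁻¹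
    have h2 := EE_mono hw L h (((e0.pow (m + 1)).add (e1.const_mul (2 * (m + 1)))).add e2)
      ((ep_dq hw L l₀ (t 0) (t (N + 1))).pow (m + 1)) fun p => by
        have := unif_conv (dq_nonneg (w := w) (L := L) l₀ (t 0) (t N) p)
          (dq_nonneg (w := w) (L := L) l₀ (t N) (t (N + 1)) p)
          (Finset.sum_mul_sq_le_sq_mul_sq _ _ _) m
        rw [← dq_split, div_pow, div_eq_inv_mul, Finset.mul_sum] at this
        simpa only [mul_assoc] using this
    rw [EE_add hw L h ((e0.pow _).add (e1.const_mul _)) e2, EE_add hw L h (e0.pow _) (e1.const_mul _),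
      EE_const_mul, EE_const_mul, EE_tower hw (t N) L h fun p => ∑ a, _,
      funext (CE_orth hw L l₀ h1 (η := fun p a => dq w L l₀ (t 0) (t N) p ^ m *
        (mv w (L.drop (t N)) l₀ (p (t N)) a - mv w (L.drop (t 0)) l₀ (p (t 0)) a)) fun p q H => by
          beta_reduce; rw [ad_dq l₀ h0 le_rfl p q H, H _ le_rfl, H _ h0]), EE_const hw, mul_zero, add_zero] at h2
    have h3 := mul_le_mul_of_nonneg_left h2 (by positivity : (0 : ℝ) ≤ 16 ^ (m + 1))
    rw [mul_add, mul_inv_cancel_left₀ (by positivity)] at h3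
    rw [Finset.sum_range_succ]
    linarith

/-- running maximum -/
def mx (f : ℕ → Pth Ω → ℝ) : ℕ → Pth Ω → ℝ
  | 0, _ => 0
  | N + 1, p => max (mx f N p) (f N p)

theorem ep_mx {f : ℕ → Pth Ω → ℝ} (hf : ∀ i, EP (f i)) : ∀ N, EP (mx f N)
  | 0 => EP.const 0
  | N + 1 => (ep_mx hf N).max (hf N)

omit [Fintype Ω] in
theorem le_mx (f : ℕ → Pth Ω → ℝ) (p : Pth Ω) : ∀ N, ∀ i < N, f i p ≤ mx f N p
  | N + 1, i, hi => by
    rcases (Nat.lt_succ_iff.1 hi).eq_or_lt with rfl | hi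
    · exact le_max_right _ _
    · exact (le_mx f p N i hi).trans (le_max_left _ _)

omit [Fintype Ω] in
theorem mx_pow_le (f : ℕ → Pth Ω → ℝ) (p : Pth Ω) {k : ℕ} (hk : k ≠ 0) :
    ∀ N, |mx f N p| ^ k ≤ ∑ i ∈ Finset.range N, |f i p| ^ k
  | 0 => by simp [mx, hk]
  | N + 1 => by
    have ih := mx_pow_le f p hk N
    have h1 : 0 ≤ ∑ i ∈ Finset.range N, |f i p| ^ k := Finset.sum_nonneg fun _ _ => by positivity
    have h2 : 0 ≤ |f N p| ^ k := by positivity
    rw [Finset.sum_range_succ, mx]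
    rcases le_total (mx f N p) (f N p) with e | e
    · rw [max_eq_right e]; linarith
    · rw [max_eq_left e]; linarith

/-- the largest increment -/
theorem mo_mx_dq (hw : Wt w) (l₀ : Lv Ω) {t : ℕ → ℕ} (ht : Monotone t) {k : ℕ} (hk : k ≠ 0) {N : ℕ}
    {B : ℝ} (H : Mo w L h k (dq w L l₀ (t 0) (t N)) B) :
    Mo w L h k (mx (fun i => dq w L l₀ (t i) (t (i + 1))) N) (16 * B) := by
  obtain ⟨m, rfl⟩ := Nat.exists_eq_succ_of_ne_zero hk
  refine Mo.of_sum_pow hw (Finset.range N) (ep_mx (fun i => ep_dq hw L l₀ _ _) N)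
    (fun i _ => ep_dq hw L l₀ _ _) (by linarith [H.nn]) (fun p => mx_pow_le _ p hk N) ?_
  have := H.le
  simp only [abs_of_nonneg (dq_nonneg l₀ _ _ _)] at this ⊢
  rw [mul_pow]
  exact (sum_dq_pow hw L h l₀ ht m N).trans (mul_le_mul_of_nonneg_left this (by positivity))

/-- **quadratic variation along any partition**, no loss in the number of pieces -/
theorem mo_qv (hw : Wt w) (l₀ : Lv Ω) {t : ℕ → ℕ} (ht : Monotone t) {k : ℕ} (hk : k ≠ 0) {N : ℕ}
    {B : ℝ} (H : Mo w L h k (dq w L l₀ (t 0) (t N)) B) :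
    Mo w L h k (fun p => ∑ i ∈ Finset.range N, dq w L l₀ (t i) (t (i + 1)) p) (k * (B + 16 * B)) := by
  have ed := fun i j => ep_dq hw L l₀ i j
  have key : ∀ s i p, s ≤ t i → ∀ d, ∑ j ∈ Finset.Ico i (i + d),
      CE w L s (dq w L l₀ (t j) (t (j + 1))) p = CE w L s (dq w L l₀ (t i) (t (i + d))) p := by
    intro s i p hs d
    induction d with
    | zero =>
      have : dq w L l₀ (t i) (t i) = fun _ => 0 := funext fun p => by simp [dq]
      simp [this, CE_ad hw L (Ad.const s 0)]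
    | succ d ih =>
      rw [← add_assoc, Finset.sum_Ico_succ_top (Nat.le_add_right i d), ih,
        CE_dq hw L l₀ (hs.trans (ht (Nat.le_add_right i d))) (ht (Nat.le_add_right i d))
          (ht (Nat.le_succ _))]
  refine garsia hw (S := fun N p => ∑ i ∈ Finset.range N, dq w L l₀ (t i) (t (i + 1)) p)
    (T := fun i => t (i + 1)) (fun i => EP.sum _ fun j _ => ed _ _) (fun p => by simp)
    (fun p => monotone_nat_of_le_succ fun i => by
      rw [Finset.sum_range_succ]; linarith [dq_nonneg (w := w) (L := L) l₀ (t i) (t (i + 1)) p])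
    (fun i j e => ht (by omega)) (fun i => Ad.sum _ fun j hj => by
      have := Finset.mem_range.1 hj
      exact ad_dq l₀ (ht (by omega)) (ht (by omega))) (fun i hi p => ?_)
    (H.add hw (mo_mx_dq hw l₀ ht hk H)) hk
  obtain ⟨d, rfl⟩ := Nat.exists_eq_add_of_lt hi
  have e : ∀ q, ∑ j ∈ Finset.range (i + d + 1), dq w L l₀ (t j) (t (j + 1)) q -
      ∑ j ∈ Finset.range i, dq w L l₀ (t j) (t (j + 1)) q = dq w L l₀ (t i) (t (i + 1)) q +
      ∑ j ∈ Finset.Ico (i + 1) (i + 1 + d), dq w L l₀ (t j) (t (j + 1)) q := fun q => by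
    rw [← Finset.sum_Ico_eq_sub _ hi.le, Finset.sum_eq_sum_Ico_succ_bot hi,
      show i + d + 1 = i + 1 + d by omega]
  simp only [e]
  rw [CE_add hw L _ (ed _ _) (EP.sum _ fun j _ => ed _ _), CE_sum hw L _ _ fun j _ => ed _ _,
    key _ _ p le_rfl, CE_add hw L _ (ed _ _) (ep_mx (fun i => ed _ _) _),
    CE_dq hw L l₀ le_rfl (ht (Nat.zero_le (i + 1))) (ht (show i + 1 ≤ i + d + 1 by omega)),
    show i + 1 + d = i + d + 1 by omega]
  have h1 := CE_mono hw L (t (i + 1)) (ed (t i) (t (i + 1))) 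
    (ep_mx (fun i => ed (t i) (t (i + 1))) (i + d + 1))
    (fun q => le_mx (fun i => dq w L l₀ (t i) (t (i + 1))) q (i + d + 1) i hi) p
  have h2 : 0 ≤ CE w L (t (i + 1)) (dq w L l₀ (t 0) (t (i + 1))) p :=
    EE_nonneg _ _ fun _ => dq_nonneg l₀ _ _ _
  linarith

/-- the overlap is a submartingale -/
theorem rr_le_CE (hw : Wt w) (L : List (Lv Ω)) (l₀ : Lv Ω) {t j : ℕ} (htj : t ≤ j) (p : Pth Ω) :
    rr w (L.drop t) l₀ (p t) ≤ CE w L t (fun q => rr w (L.drop j) l₀ (q j)) p := by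
  rw [CE_node hw L htj (Ad.const t ()) fun _ => rr w (L.drop j) l₀, ← sub_nonneg,
    ← node_incr' hw L l₀ htj]
  exact node_nonneg w (fun z => Finset.sum_nonneg fun i _ => sq_nonneg _) _ _ _

end Crest.Agent.T156.Cas.Lp12

end
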