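import Crest.Agent.T156.QCas_98
import Crest.Agent.T156.Eg_33
import Crest.Agent.T156.LpT_43
import Crest.Agent.T156.LpC_12

/-!
# Row 156, inputs of block C: `L^p` bound of the leaf part `∑ μ_t m_t · (s - m_t)` (helper24)
-/

set_option autoImplicit false

noncomputable section

namespace Crest.Agent.T156.Cas.Lf24

open MeasureTheory Real Finset
open Crest.Agent.T157.E Crest.Agent.T157.Casc Crest.Agent.T157.SL
open Crest.Agent.T156.Cas.Sy41 Crest.Agent.T156.Cas.Lp12 Crest.Agent.T156.Cas.QCas98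
open Crest.Agent.T156.Cas.LpR43 (cK Mk)

variable {Ω : Type}

theorem glue_len : ∀ (L : List (Lv Ω)) (g₀ : NI L → ℝ) (g' : NI (L.drop L.length) → ℝ),
    LpR43.glue L L.length g₀ g' = g₀
  | [], _, _ => funext fun i => i.elim
  | _ :: L, g₀, g' => by
    funext i
    rcases i with i | i
    · rfl
    · exact congrFun (glue_len L (fun a => g₀ (.inr a)) g') i

/-- weighted power mean, total weight at most `U` -/
theorem wpow {κ : Type*} (S : Finset κ) {u ρ : κ → ℝ} {U : ℝ} {k : ℕ} (hk : k ≠ 0)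
    (hu : ∀ t ∈ S, 0 ≤ u t) (hρ : ∀ t ∈ S, 0 ≤ ρ t) (hU : ∑ t ∈ S, u t ≤ U) (U0 : 0 < U) :
    (∑ t ∈ S, u t * ρ t) ^ k ≤ U ^ k * ∑ t ∈ S, u t / U * ρ t ^ k := by
  have h := (convexOn_pow (𝕜 := ℝ) k).map_add_sum_le (t := S) (w := fun t => u t / U) (p := ρ)
    (v := 1 - ∑ t ∈ S, u t / U) (q := 0) (fun t ht => div_nonneg (hu t ht) U0.le) (by ring)
    (fun t ht => hρ t ht) (by rw [← sum_div, sub_nonneg, div_le_one U0]; exact hU) Set.self_mem_Ici
  simp only [smul_eq_mul, mul_zero, zero_add, zero_pow hk] at h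
  have e : ∑ t ∈ S, u t * ρ t = U * ∑ t ∈ S, u t / U * ρ t := by
    rw [mul_sum]; exact sum_congr rfl fun t _ => by field_simp
  rw [e, mul_pow]
  exact mul_le_mul_of_nonneg_left h (by positivity)

variable [Fintype Ω] {w : Ω → ℝ}

/-- expectation over the path and the leaf -/
def EL (w : Ω → ℝ) (L : List (Lv Ω)) (h : Ω → ℝ) (F : Pth Ω → Ω → ℝ) : ℝ :=
  EE w L h fun p => Pf w (L.drop L.length) (p L.length) (F p)

/-- admissible functions of the path and the leaf -/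
def EQ (F : Pth Ω → Ω → ℝ) : Prop := ∀ s, EP fun p => F p s

section el
variable (hw : Wt w) (L : List (Lv Ω)) (h : Ω → ℝ) {F G : Pth Ω → Ω → ℝ}
include hw

theorem EL_eq (hF : EQ F) : EL w L h F = pE w L h fun g x => F (fun j => st L j h g) x := by
  rw [LpR43.pE_markov_leaf hw L.length L h (fun x => (hF x).eg L h) fun g₀ g' => by
    rw [glue_len], EL, EE_eq hw L h (LpR43.ep_Pf hw _ _ hF)]

theorem EL_mono (hF : EQ F) (hG : EQ G) (e : ∀ p s, F p s ≤ G p s) : EL w L h F ≤ EL w L h G :=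
  EE_mono hw L h (LpR43.ep_Pf hw _ _ hF) (LpR43.ep_Pf hw _ _ hG) fun p =>
    sum_le_sum fun s _ => mul_le_mul_of_nonneg_left (e p s) (P_nonneg hw _ _ s)

theorem EL_path (F : Pth Ω → ℝ) : EL w L h (fun p _ => F p) = EE w L h F := by
  simp only [EL, Pf, ← sum_mul, sum_P hw, one_mul]

theorem EL_add (hF : EQ F) (hG : EQ G) :
    EL w L h (fun p s => F p s + G p s) = EL w L h F + EL w L h G := by
  rw [EL, EL, EL, ← EE_add hw L h (LpR43.ep_Pf hw _ _ hF) (LpR43.ep_Pf hw _ _ hG)]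
  simp only [Pf, mul_add, sum_add_distrib]

omit hw in
theorem EL_const_mul (c : ℝ) (F : Pth Ω → Ω → ℝ) :
    EL w L h (fun p s => c * F p s) = c * EL w L h F := by
  rw [EL, EL, ← EE_const_mul]
  simp only [Pf, mul_sum, mul_left_comm c]

theorem EL_sum {κ : Type*} (S : Finset κ) {F : κ → Pth Ω → Ω → ℝ} (hF : ∀ k ∈ S, EQ (F k)) :
    EL w L h (fun p s => ∑ k ∈ S, F k p s) = ∑ k ∈ S, EL w L h (F k) := by
  simp only [EL]
  rw [← EE_sum hw L h S fun k hk => LpR43.ep_Pf hw _ _ (hF k hk)]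
  simp only [Pf, mul_sum]
  congr 1
  funext p
  exact sum_comm

theorem EL_ad {t : ℕ} (ht : t ≤ L.length) (aF : Lp12.Ad t F) :
    EL w L h F = EE w L h fun p => Pf w (L.drop t) (p t) (F p) := by
  rw [EL, EE_tw hw L h ht aF fun v z => Pf w (L.drop L.length) z v]
  simp only [Eg33.node_Pf hw L ht]

/-- the excess over `lam * B` -/
theorem EL_excess {B lam : ℝ} {k : ℕ} (hF : EQ F) (hB : 0 < B) (hl : 0 < lam)
    (H : EL w L h (fun p s => |F p s| ^ (k + 1)) ≤ B ^ (k + 1)) :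
    EL w L h (fun p s => max (|F p s| - lam * B) 0) ≤ B / lam ^ k := by
  have h1 := EL_mono hw L h (F := fun p s => max (|F p s| - lam * B) 0)
    (G := fun p s => ((lam * B) ^ k)⁻¹ * |F p s| ^ (k + 1))
    (fun s => ((hF s).abs.sub (EP.const _)).max (EP.const 0))
    (fun s => ((hF s).abs.pow _).const_mul _) fun p s => by
      have M0 : 0 < lam * B := by positivity
      refine max_le ?_ (by positivity)
      rcases le_total |F p s| (lam * B) with e | e
      · exact (sub_nonpos.2 e).trans (by positivity)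
      · rw [pow_succ, ← mul_assoc, inv_mul_eq_div, ← div_pow]
        have : 1 ≤ (|F p s| / (lam * B)) ^ k := one_le_pow₀ ((one_le_div M0).2 e)
        nlinarith [abs_nonneg (F p s)]
  rw [EL_const_mul] at h1
  refine h1.trans ((mul_le_mul_of_nonneg_left H (by positivity)).trans (le_of_eq ?_))
  rw [mul_pow, pow_succ]
  field_simp

end el

variable {L : List (Lv Ω)} {h : Ω → ℝ} {l₀ : Lv Ω} {τ : ℕ → ℝ}

/-- `η · (s - m_t)` -/
def Xi (w : Ω → ℝ) (L : List (Lv Ω)) (l₀ : Lv Ω) (t : ℕ) (η : Pth Ω → l₀.ι → ℝ) (p : Pth Ω)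
    (s : Ω) : ℝ := l₀.fld (η p) s - Pf w (L.drop t) (p t) (l₀.fld (η p))

theorem eq_Xi (hw : Wt w) (t : ℕ) {η : Pth Ω → l₀.ι → ℝ} (hη : ∀ i, EP fun p => η p i) :
    EQ (Xi w L l₀ t η) := fun s =>
  (LpR43.ep_fld l₀ hη s).sub (LpR43.ep_Pf hw _ t (LpR43.ep_fld l₀ hη))

omit [Fintype Ω] in
theorem abs_fld_le (one : ∀ x, l₀.cov x x ≤ 1) (v : l₀.ι → ℝ) (s : Ω) :
    |l₀.fld v s| ≤ √(∑ i, v i ^ 2) := by
  refine abs_le_sqrt ?_
  have h1 := sum_mul_sq_le_sq_mul_sq univ (fun i => l₀.A s i) v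
  have h2 : ∑ i, l₀.A s i ^ 2 ≤ 1 := by simpa only [Lv.cov, sq] using one s
  exact h1.trans (mul_le_of_le_one_left (sum_nonneg fun _ _ => sq_nonneg _) h2)

theorem Xi_sq_le (hw : Wt w) (one : ∀ x, l₀.cov x x ≤ 1) (t : ℕ) (η : Pth Ω → l₀.ι → ℝ) (p : Pth Ω)
    (s : Ω) : Xi w L l₀ t η p s ^ 2 ≤ 4 * ∑ i, η p i ^ 2 := by
  set r := √(∑ i, η p i ^ 2) with hr
  have h1 := abs_fld_le one (η p) s
  have h2 : |Pf w (L.drop t) (p t) (l₀.fld (η p))| ≤ r := by
    refine (abs_sum_le_sum_abs _ _).trans ?_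
    calc _ ≤ ∑ x, P w (L.drop t) (p t) x * r := sum_le_sum fun x _ => by
            rw [abs_mul, abs_of_nonneg (P_nonneg hw _ _ x)]
            exact mul_le_mul_of_nonneg_left (abs_fld_le one _ x) (P_nonneg hw _ _ x)
      _ = r := by rw [← sum_mul, sum_P hw, one_mul]
  have h3 : |Xi w L l₀ t η p s| ≤ 2 * r := (abs_sub _ _).trans (by linarith)
  have h4 : r ^ 2 = ∑ i, η p i ^ 2 := sq_sqrt (sum_nonneg fun _ _ => sq_nonneg _)
  rw [← sq_abs, ← h4]
  nlinarith [abs_nonneg (Xi w L l₀ t η p s)]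

theorem ep_inv {D : Pth Ω → ℝ} (hD : EP D) (D0 : ∀ p, 0 ≤ D p) {ε : ℝ} (hε : 0 < ε) :
    EP fun p => (D p + ε)⁻¹ := by
  have e1 : EP fun p => (max (D p) 0 + ε)⁻¹ :=
    hD.comp_lin (φ := fun t => (max t 0 + ε)⁻¹)
      (Continuous.inv₀ (by fun_prop) fun t => by positivity) (a := ε⁻¹) (b := 0) fun t => by
        rw [abs_of_pos (by positivity), zero_mul, add_zero]
        exact inv_anti₀ hε (le_add_of_nonneg_left (le_max_right _ _))
  simpa only [max_eq_left (D0 _)] using e1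

/-- the normalised square has bounded moments -/
theorem ratio (D : Dat w L h l₀ τ) {a t : ℕ} {θ ε : ℝ} {η : Pth Ω → l₀.ι → ℝ}
    (hη : ∀ i, EP fun p => η p i) (aη : Lp12.Ad a η) (hθ : LpR43.Win L τ a t θ ∨ 4 ≤ θ)
    (hε : 0 < ε) (n : ℕ) :
    EL w L h (fun p s => ((θ * ∑ i, η p i ^ 2 + ε)⁻¹ * Xi w L l₀ t η p s ^ 2) ^ n) ≤ cK n := by
  have hw := D.hw
  have θ0 : 0 ≤ θ := hθ.elim (fun H => (H.pos D.mono l₀ D.dom).le) fun H => by linarith
  have D0 : ∀ p, 0 ≤ θ * ∑ i, η p i ^ 2 := fun p =>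
    mul_nonneg θ0 (sum_nonneg fun _ _ => sq_nonneg _)
  have eD := (LpR43.ep_sq hη).const_mul θ
  have eI := ep_inv eD D0 hε
  have one : ∀ p, (θ * ∑ i, η p i ^ 2 + ε)⁻¹ * (θ * ∑ i, η p i ^ 2) ≤ 1 := fun p => by
    have := D0 p
    rw [inv_mul_le_iff₀ (by positivity)]; linarith
  rcases hθ with H | H
  · rw [EL_ad hw L h H.1 fun p q e => by
      funext s
      simp only [Xi, aη.mono H.le p q e, e t le_rfl]]
    have e : (fun p => Pf w (L.drop t) (p t) fun s =>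
        ((θ * ∑ i, η p i ^ 2 + ε)⁻¹ * Xi w L l₀ t η p s ^ 2) ^ n) = fun p =>
        (θ * ∑ i, η p i ^ 2 + ε)⁻¹ ^ n * Mk w (L.drop t) (l₀.fld (η p)) n (p t) := by
      funext p
      simp only [Mk, Pf, mul_sum, mul_pow, ← pow_mul, Xi, mul_left_comm (P w _ _ _)]
    rw [e]
    refine (LpR43.EE_wt hw L h (eI.pow n) (aη.comp fun v => (θ * ∑ i, v i ^ 2 + ε)⁻¹ ^ n)
      (fun p => by have := D0 p; positivity) (LpR43.ep_Mk hw _ t (LpR43.ep_fld l₀ hη) n)
      ((eD.pow n).const_mul (cK n)) (LpR43.CE_Mk hw D.mono l₀ D.dom H aη n)).trans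
      (EE_le hw L h ((eI.pow n).mul ((eD.pow n).const_mul _)) fun p => ?_)
    have := D0 p
    rw [mul_left_comm, ← mul_pow]
    exact mul_le_of_le_one_right (LpR43.cK_pos n).le (pow_le_one₀ (by positivity) (one p))
  · refine (EL_mono hw L h (G := fun _ _ => cK n) (fun s => (eI.mul ((eq_Xi hw t hη s).pow 2)).pow n)
      (fun _ => EP.const _) fun p s => ?_).trans_eq (by rw [EL_path hw, EE_const hw])
    have := D0 p
    refine (pow_le_one₀ (by positivity) (le_trans (mul_le_mul_of_nonneg_left ?_ (by positivity))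
      (one p))).trans (LpR43.one_le_cK n)
    exact (Xi_sq_le hw D.one t η p s).trans
      (mul_le_mul_of_nonneg_right H (sum_nonneg fun _ _ => sq_nonneg _))

/-- **one family of pieces** -/
theorem piece (D : Dat w L h l₀ τ) {S : Finset ℕ} {μ u θ : ℕ → ℝ} {a : ℕ → ℕ}
    {η : ℕ → Pth Ω → l₀.ι → ℝ} (hη : ∀ t i, EP fun p => η t p i) (aη : ∀ t ∈ S, Lp12.Ad (a t) (η t))
    (hμ : ∀ t ∈ S, |μ t| ≤ u t) (hθ : ∀ t ∈ S, LpR43.Win L τ (a t) t (θ t) ∨ 4 ≤ θ t)
    {U T C : ℝ} {n : ℕ} (hn : n ≠ 0) (hU : ∑ t ∈ S, u t ≤ U) (U0 : 0 < U) (C0 : 0 < C)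
    (hC : cK (2 * n) ≤ C ^ (2 * n))
    (hT : Mo w L h (2 * n) (fun p => ∑ t ∈ S, u t * (θ t * ∑ i, η t p i ^ 2)) T) :
    EL w L h (fun p s => |∑ t ∈ S, μ t * Xi w L l₀ t (η t) p s| ^ (2 * n)) ≤ (C * U * T) ^ n := by
  have hw := D.hw
  have u0 : ∀ t ∈ S, 0 ≤ u t := fun t ht => (abs_nonneg _).trans (hμ t ht)
  have θ0 : ∀ t ∈ S, 0 ≤ θ t := fun t ht =>
    (hθ t ht).elim (fun H => (H.pos D.mono l₀ D.dom).le) fun H => by linarith
  have D0 : ∀ t ∈ S, ∀ p, 0 ≤ θ t * ∑ i, η t p i ^ 2 := fun t ht p =>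
    mul_nonneg (θ0 t ht) (sum_nonneg fun _ _ => sq_nonneg _)
  have eX := fun t => eq_Xi (L := L) hw t (hη t)
  refine (le_of_forall2 (f := fun ε => (C * U * (T + ε * U)) ^ n) (by fun_prop)
    fun ε hε => ?_).trans_eq (by simp)
  have T0 := hT.nn
  set A := C * U with hA
  set B := T + ε * U with hB
  have A0 : 0 < A := by positivity
  have B0 : 0 < B := by positivity
  set r : ℕ → Pth Ω → Ω → ℝ := fun t p s =>
    (θ t * ∑ i, η t p i ^ 2 + ε)⁻¹ * Xi w L l₀ t (η t) p s ^ 2 with hr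
  have er : ∀ t ∈ S, EQ (r t) := fun t ht s =>
    (ep_inv ((LpR43.ep_sq (hη t)).const_mul _) (D0 t ht) hε).mul ((eX t s).pow 2)
  have r0 : ∀ t ∈ S, ∀ p s, 0 ≤ r t p s := fun t ht p s => by
    have := D0 t ht p
    simp only [hr]; positivity
  set Tp : Pth Ω → ℝ := fun p => ∑ t ∈ S, u t * (θ t * ∑ i, η t p i ^ 2) + ε * U with hTp
  have mT : Mo w L h (2 * n) Tp B := (hT.add hw (Mo.const hw (ε * U))).mono (by
    rw [abs_of_pos (by positivity)])
  have e1 : EQ fun p s => U ^ (2 * n) * ∑ t ∈ S, u t / U * r t p s ^ (2 * n) := fun s =>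
    (EP.sum _ fun t ht => ((er t ht s).pow _).const_mul _).const_mul _
  have key := EL_mono hw L h (F := fun p s => |∑ t ∈ S, μ t * Xi w L l₀ t (η t) p s| ^ (2 * n))
    (G := fun p s => (A * B) ^ n / 2 / A ^ (2 * n) *
      (U ^ (2 * n) * ∑ t ∈ S, u t / U * r t p s ^ (2 * n)) +
        (A * B) ^ n / 2 / B ^ (2 * n) * |Tp p| ^ (2 * n))
    (fun s => (EP.sum _ fun t _ => (eX t s).const_mul _).abs.pow _)
    (fun s => ((e1 s).const_mul _).add ((mT.ep.abs.pow _).const_mul _)) fun p s => by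
      have h1 : (∑ t ∈ S, μ t * Xi w L l₀ t (η t) p s) ^ 2 ≤
          (∑ t ∈ S, u t * r t p s) * ∑ t ∈ S, u t * (θ t * ∑ i, η t p i ^ 2 + ε) := by
        refine sum_sq_le_sum_mul_sum_of_sq_le_mul S (fun t ht => mul_nonneg (u0 t ht) (r0 t ht p s))
          (fun t ht => mul_nonneg (u0 t ht) (by linarith [D0 t ht p])) fun t ht => ?_
        have := D0 t ht p
        have h2 : μ t ^ 2 ≤ u t ^ 2 := sq_le_sq' (abs_le.1 (hμ t ht)).1 (abs_le.1 (hμ t ht)).2
        calc _ = μ t ^ 2 * Xi w L l₀ t (η t) p s ^ 2 := by ring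
          _ ≤ u t ^ 2 * Xi w L l₀ t (η t) p s ^ 2 := mul_le_mul_of_nonneg_right h2 (sq_nonneg _)
          _ = _ := by simp only [hr]; field_simp
      have R0 : 0 ≤ ∑ t ∈ S, u t * r t p s := sum_nonneg fun t ht =>
        mul_nonneg (u0 t ht) (r0 t ht p s)
      have h2 : ∑ t ∈ S, u t * (θ t * ∑ i, η t p i ^ 2 + ε) ≤ |Tp p| := by
        refine le_trans ?_ (le_abs_self _)
        simp only [hTp, mul_add, sum_add_distrib, ← sum_mul]
        nlinarith
      have h3 := wpow S (k := 2 * n) (by omega) u0 (fun t ht => r0 t ht p s) hU U0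
      set R := ∑ t ∈ S, u t * r t p s
      have h4 : |∑ t ∈ S, μ t * Xi w L l₀ t (η t) p s| ^ (2 * n) ≤ R ^ n * |Tp p| ^ n := by
        rw [pow_mul, sq_abs, ← mul_pow]
        exact pow_le_pow_left₀ (sq_nonneg _) (h1.trans (mul_le_mul_of_nonneg_left h2 R0)) n
      refine h4.trans (le_trans ?_ (add_le_add
        (mul_le_mul_of_nonneg_left h3 (by positivity)) le_rfl))
      have h5 := two_mul_le_add_sq (R ^ n / A ^ n) (|Tp p| ^ n / B ^ n)
      have h6 := mul_le_mul_of_nonneg_left h5 (by positivity : 0 ≤ (A * B) ^ n / 2)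
      refine le_trans (le_of_eq ?_) (h6.trans_eq ?_)
      · rw [mul_pow]; field_simp
      · simp only [mul_comm 2 n, pow_mul]; field_simp
  rw [EL_add hw L h (fun s => (e1 s).const_mul _) (fun s => (mT.ep.abs.pow _).const_mul _),
    EL_const_mul, EL_const_mul, EL_const_mul, EL_path hw,
    EL_sum hw L h S fun t ht s => ((er t ht s).pow _).const_mul _] at key
  have h7 : ∑ t ∈ S, EL w L h (fun p s => u t / U * r t p s ^ (2 * n)) ≤ C ^ (2 * n) := by
    calc _ ≤ ∑ t ∈ S, u t / U * C ^ (2 * n) := sum_le_sum fun t ht => by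
            rw [EL_const_mul]
            exact mul_le_mul_of_nonneg_left ((ratio D (hη t) (aη t ht) (hθ t ht) hε _).trans hC)
              (div_nonneg (u0 t ht) U0.le)
      _ ≤ _ := by
            rw [← sum_mul, ← sum_div]
            exact mul_le_of_le_one_left (by positivity) ((div_le_one U0).2 hU)
  refine key.trans ((add_le_add (mul_le_mul_of_nonneg_left (mul_le_mul_of_nonneg_left h7
    (by positivity)) (by positivity)) (mul_le_mul_of_nonneg_left mT.le (by positivity))).trans_eq ?_)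
  rw [← mul_pow U C, mul_comm U C, ← hA]
  field_simp
  ring

/-! ### the dyadic decomposition on a block -/

/-- `m_j` along the path -/
def mP (w : Ω → ℝ) (L : List (Lv Ω)) (l₀ : Lv Ω) (j : ℕ) (p : Pth Ω) (i : l₀.ι) : ℝ :=
  mv w (L.drop j) l₀ (p j) i

/-- **the leaf part** `m_t · (s - m_t)` -/
def pi (w : Ω → ℝ) (L : List (Lv Ω)) (l₀ : Lv Ω) (t : ℕ) : Pth Ω → Ω → ℝ :=
  Xi w L l₀ t (mP w L l₀ t)

theorem pi_eq (t : ℕ) (g : NI L → ℝ) (x : Ω) : pi w L l₀ t (fun j => st L j h g) x =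
    Eg33.ms w L l₀ h t g x - Eg33.rs w L l₀ h t g := by
  simp only [pi, Xi, Pf_fld, Eg33.ms, Eg33.rs, rr, sq]
  rfl

theorem ep_mP (hw : Wt w) (j : ℕ) (i : l₀.ι) : EP fun p => mP w L l₀ j p i :=
  LpR43.ep_mv hw _ l₀ j i

theorem eq_pi (hw : Wt w) (t : ℕ) : EQ (pi w L l₀ t) := eq_Xi hw t (ep_mP hw t)

/-- the pieces -/
def pc (w : Ω → ℝ) (L : List (Lv Ω)) (l₀ : Lv Ω) (LL k t : ℕ) (p : Pth Ω) (i : l₀.ι) : ℝ :=
  if k ≤ LL then mP w L l₀ (t - 2 ^ k / 2) p i - mP w L l₀ (t - 2 ^ k) p i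
  else mP w L l₀ (t - 2 ^ LL) p i

theorem ep_pc (hw : Wt w) (LL k t : ℕ) (i : l₀.ι) : EP fun p => pc w L l₀ LL k t p i := by
  unfold pc
  split_ifs
  exacts [(ep_mP hw _ i).sub (ep_mP hw _ i), ep_mP hw _ i]

theorem tel (f : ℕ → ℝ) : ∀ LL : ℕ,
    ∑ k ∈ range (LL + 1), (f (2 ^ k / 2) - f (2 ^ k)) = f 0 - f (2 ^ LL)
  | 0 => by simp
  | LL + 1 => by
    rw [sum_range_succ, tel f LL, show 2 ^ (LL + 1) / 2 = 2 ^ LL by rw [pow_succ]; omega]
    ring

theorem sum_pc (LL t : ℕ) (p : Pth Ω) (i : l₀.ι) :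
    ∑ k ∈ range (LL + 2), pc w L l₀ LL k t p i = mP w L l₀ t p i := by
  have e : ∑ k ∈ range (LL + 1), pc w L l₀ LL k t p i = ∑ k ∈ range (LL + 1),
      (mP w L l₀ (t - 2 ^ k / 2) p i - mP w L l₀ (t - 2 ^ k) p i) :=
    sum_congr rfl fun k hk => if_pos (Nat.lt_succ_iff.1 (mem_range.1 hk))
  rw [sum_range_succ, e, tel (fun e => mP w L l₀ (t - e) p i), pc, if_neg (by omega)]
  simp

theorem pi_sum (LL t : ℕ) (p : Pth Ω) (s : Ω) :
    pi w L l₀ t p s = ∑ k ∈ range (LL + 2), Xi w L l₀ t (pc w L l₀ LL k t) p s := by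
  simp only [pi, Xi, Pf_fld, Lv.fld, sum_sub_distrib, ← sum_pc LL t p, mul_sum]
  congr 1 <;> exact sum_comm

omit [Fintype Ω] in
theorem sum_grid {f : ℕ → ℝ} (f0 : ∀ y, 0 ≤ f y) {e : ℕ} (he : 0 < e) (len : ℕ) :
    ∑ y ∈ range len, f y ≤ ∑ r ∈ range e, ∑ i ∈ range (len / e + 1), f (r + i * e) := by
  have key : ∀ N : ℕ, ∑ y ∈ range (N * e), f y = ∑ i ∈ range N, ∑ r ∈ range e, f (r + i * e) := by
    intro N
    induction N with
    | zero => simp
    | succ N ih => rw [Nat.succ_mul, sum_range_add, ih, sum_range_succ]; simp only [add_comm]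
  rw [sum_comm, ← key]
  refine sum_le_sum_of_subset_of_nonneg (range_mono ?_) fun y _ _ => f0 y
  have := Nat.lt_div_mul_add (a := len) he
  rw [Nat.succ_mul]; omega

/-- `L^k` bound of the increments on `[lo, hi]`, affine in the distance -/
def Inc (w : Ω → ℝ) (L : List (Lv Ω)) (h : Ω → ℝ) (l₀ : Lv Ω) (k lo hi : ℕ) (ρ c : ℝ) : Prop :=
  ∀ i j, lo ≤ i → i ≤ j → j ≤ hi → Mo w L h k (iP w L l₀ i j) (ρ + c * ((j - i : ℕ) : ℝ))

/-- increments of length `e` summed over `len` starting points -/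
theorem Inc.sum (hw : Wt w) {k lo hi β e len : ℕ} {ρ c : ℝ} (H : Inc w L h l₀ k lo hi ρ c)
    (hk : k ≠ 0) (ρ0 : 0 ≤ ρ) (c0 : 0 ≤ c) (he : 0 < e) (h0 : lo ≤ β) (h1 : β + len + 2 * e ≤ hi + 1) :
    Mo w L h k (fun p => ∑ y ∈ range len, iP w L l₀ (β + y) (β + y + e) p)
      (e * (17 * k * (ρ + 2 * c * len))) := by
  have k1 : (1 : ℝ) ≤ k := by exact_mod_cast Nat.one_le_iff_ne_zero.2 hk
  have ep := EP.sum (range len) fun y _ => ep_iP (L := L) (l₀ := l₀) hw (β + y) (β + y + e)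
  have i0 : ∀ i j p, 0 ≤ iP w L l₀ i j p := fun i j p => sum_nonneg fun _ _ => sq_nonneg _
  rcases le_total e len with hl | hl
  · have hd := Nat.div_mul_le_self len e
    have m1 : ∀ r ∈ range e, Mo w L h k (fun p => ∑ i ∈ range (len / e + 1),
        iP w L l₀ (β + (r + i * e)) (β + (r + i * e) + e) p) (17 * k * (ρ + 2 * c * len)) := by
      intro r hr
      have hr := mem_range.1 hr
      have h2 := H (β + (r + 0 * e)) (β + (r + (len / e + 1) * e)) (by omega)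
        (by rw [Nat.succ_mul]; omega) (by rw [Nat.succ_mul]; omega)
      have h3 := mo_qv hw l₀ (t := fun i => β + (r + i * e))
        (fun i j hij => by have := Nat.mul_le_mul_right e hij; beta_reduce; omega) hk h2
      refine (h3.congr fun p => sum_congr rfl fun i _ => ?_).mono ?_
      · rw [show β + (r + (i + 1) * e) = β + (r + i * e) + e by rw [Nat.succ_mul]; omega]; rfl
      · have : ((β + (r + (len / e + 1) * e) - (β + (r + 0 * e)) : ℕ) : ℝ) ≤ 2 * len := by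
          exact_mod_cast (by rw [Nat.succ_mul]; omega :
            β + (r + (len / e + 1) * e) - (β + (r + 0 * e)) ≤ 2 * len)
        nlinarith [mul_le_mul_of_nonneg_left this c0]
    refine ((Mo.sum hw (range e) m1).of_le' hw ep fun p => ?_).mono (by simp)
    rw [abs_of_nonneg (sum_nonneg fun _ _ => i0 _ _ p)]
    exact sum_grid (f := fun y => iP w L l₀ (β + y) (β + y + e) p) (fun _ => i0 _ _ p) he len
  · refine (Mo.sum hw (range len) (B := fun _ => ρ + c * e) fun y hy => ?_).mono ?_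
    · have := mem_range.1 hy
      simpa using H (β + y) (β + y + e) (by omega) (by omega) (by omega)
    · have h2 : (len : ℝ) ≤ e := by exact_mod_cast hl
      have h3 : (0 : ℝ) ≤ len := Nat.cast_nonneg _
      rw [sum_const, card_range, nsmul_eq_mul]
      have h4 : 0 ≤ e * (ρ + 2 * c * len) := by positivity
      nlinarith [mul_le_mul_of_nonneg_right h2 ρ0, mul_nonneg (mul_nonneg c0 h3) (h3.trans h2)]

/-- crude increments -/
theorem inc_crude (hw : Wt w) {k lo hi : ℕ} {R : ℝ} (H : Mo w L h k (rP w L l₀ hi) R) :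
    Inc w L h l₀ k lo hi (4 * R) 0 := fun i j _ hij hj => by
  have h1 := (mo_rP_mono hw (hij.trans hj) H).const_mul' (c := 2) zero_le_two
  have h2 := (mo_rP_mono hw hj H).const_mul' (c := 2) zero_le_two
  refine ((h1.add hw h2).of_le' hw (ep_iP hw i j) fun p => ?_).mono (by linarith)
  rw [abs_of_nonneg (sum_nonneg fun _ _ => sq_nonneg _)]
  simp only [rP, rr, mul_sum, ← sum_add_distrib]
  exact sum_le_sum fun a _ => by nlinarith [sq_nonneg (mv w (L.drop j) l₀ (p j) a +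
    mv w (L.drop i) l₀ (p i) a)]

/-- **the leaf part on a block `[b, b + len)`**, weights `|μ| ≤ G` -/
theorem leaf_blk (D : Dat w L h l₀ τ) {t' : ℕ → ℕ} {L' j0 j1 j2 LL b len n : ℕ} {x v w3 K : ℝ}
    (R : Ric L τ t' L' j0 j1 j2 x v w3 K) (x1 : x ≤ 1) (hb : j0 + 2 ^ LL ≤ b) (hb' : b + len ≤ j1 + 1)
    {μ : ℕ → ℝ} {G ρ c R₀ C : ℝ} (hn : n ≠ 0) (hl : len ≠ 0) (G0 : 0 < G) (ρ0 : 0 ≤ ρ) (c0 : 0 ≤ c)
    (hμ : ∀ t ∈ Ico b (b + len), |μ t| ≤ G) (C0 : 0 < C) (hC : cK (2 * n) ≤ C ^ (2 * n))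
    (hI : Inc w L h l₀ (2 * n) (b - 2 ^ LL) (b + len) ρ c)
    (hR : Mo w L h (2 * n) (rP w L l₀ (b + len)) R₀) :
    EL w L h (fun p s => |∑ t ∈ Ico b (b + len), μ t * pi w L l₀ t p s| ^ (2 * n)) ≤
      (((LL : ℝ) + 2) ^ 2 * (C * (G * len) *
        (34 * n * (w3 / (x * v)) * G * (ρ + 2 * c * len + len * R₀ / 2 ^ LL)))) ^ n := by
  have hw := D.hw
  have x0 := R.x0
  have v0 := R.v0
  have w0 : 0 < w3 := by linarith [R.vw]
  have R0 := hR.nn
  have n1 : (1 : ℝ) ≤ n := by exact_mod_cast Nat.one_le_iff_ne_zero.2 hn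
  have l0 : (0 : ℝ) < len := by exact_mod_cast Nat.pos_of_ne_zero hl
  set T := 34 * n * (w3 / (x * v)) * G * (ρ + 2 * c * len + len * R₀ / 2 ^ LL) with hT
  have hU : ∑ _t ∈ Ico b (b + len), G ≤ G * len := by simp [mul_comm]
  have pw : ∀ k ≤ LL, 2 ^ k ≤ 2 ^ LL := fun k hk => Nat.pow_le_pow_right two_pos hk
  have key : ∀ k ∈ range (LL + 2), EL w L h (fun p s =>
      |∑ t ∈ Ico b (b + len), μ t * Xi w L l₀ t (pc w L l₀ LL k t) p s| ^ (2 * n)) ≤
      (C * (G * len) * T) ^ n := by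
    intro k _
    by_cases hk : k ≤ LL
    · set e := 2 ^ k - 2 ^ k / 2 with he
      have p1 : 0 < 2 ^ k := Nat.two_pow_pos k
      have p2 := pw k hk
      have e0 : 0 < e := by omega
      have e0' : (0 : ℝ) < e := by exact_mod_cast e0
      have p3 : k = 0 ∨ 2 ^ k / 2 = e := by
        rcases k with _ | k
        · exact .inl rfl
        · right; rw [he, pow_succ]; omega
      refine piece D (a := fun t => t - 2 ^ k / 2) (θ := fun _ => w3 / (x * (e * v)))
        (u := fun _ => G) (ep_pc hw LL k) (fun t _ p q H => ?_) hμ (fun t ht => ?_) hn hU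
        (by positivity) C0 hC ?_
      · funext i
        simp only [pc, if_pos hk, mP, H _ le_rfl, H (t - 2 ^ k) (by omega)]
      · have ht := mem_Ico.1 ht
        rcases p3 with rfl | p3
        · right
          rw [le_div_iff₀ (by positivity)]
          have : (e : ℝ) = 1 := by simp [he]
          rw [this]
          nlinarith [R.vw]
        · exact .inl (R.win (by omega) e0 (by omega) (by omega))
      · have h1 := (hI.sum hw (β := b - 2 ^ k) (e := e) (len := len) (by omega) ρ0 c0 e0 (by omega)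
          (by rcases p3 with rfl | p3 <;> omega)).const_mul' (c := G * (w3 / (x * (e * v))))
          (by positivity)
        refine (h1.congr fun p => ?_).mono ?_
        · rw [sum_Ico_eq_sum_range, Nat.add_sub_cancel_left, mul_sum]
          refine sum_congr rfl fun y _ => ?_
          simp only [pc, if_pos hk, mP, iP, mul_assoc]
          rw [show b + y - 2 ^ k / 2 = b - 2 ^ k + y + e by omega,
            show b + y - 2 ^ k = b - 2 ^ k + y by omega]
        · have : G * (w3 / (x * (e * v))) * (e * (17 * ((2 * n : ℕ) : ℝ) * (ρ + 2 * c * len))) =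
              34 * n * (w3 / (x * v)) * G * (ρ + 2 * c * len) := by
            push_cast; field_simp; ring
          rw [this, hT]
          exact mul_le_mul_of_nonneg_left (le_add_of_nonneg_right (by positivity)) (by positivity)
    · have p1 : 0 < 2 ^ LL := Nat.two_pow_pos LL
      refine piece D (a := fun t => t - 2 ^ LL) (θ := fun _ => w3 / (x * ((2 ^ LL : ℕ) * v)))
        (u := fun _ => G) (ep_pc hw LL k) (fun t _ p q H => ?_) hμ (fun t ht => ?_) hn hU
        (by positivity) C0 hC ?_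
      · funext i
        simp only [pc, if_neg hk, mP, H _ le_rfl]
      · have ht := mem_Ico.1 ht
        exact .inl (R.win (by omega) p1 (by omega) (by omega))
      · refine ((Mo.sum hw (Ico b (b + len)) (B := fun _ => G * (w3 / (x * ((2 ^ LL : ℕ) * v))) * R₀)
          fun t ht => (mo_rP_mono hw (c := t - 2 ^ LL) (by have := mem_Ico.1 ht; omega)
            hR).const_mul' (by positivity)).congr fun p => sum_congr rfl fun t _ => ?_).mono ?_
        · simp only [pc, if_neg hk, mP, rP, rr, mul_assoc]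
        · have : ∑ _t ∈ Ico b (b + len), G * (w3 / (x * ((2 ^ LL : ℕ) * v))) * R₀ =
              1 * (w3 / (x * v)) * G * (len * R₀ / 2 ^ LL) := by
            rw [sum_const, Nat.card_Ico, Nat.add_sub_cancel_left, nsmul_eq_mul]
            push_cast; field_simp
          rw [this, hT]
          gcongr
          · linarith
          · exact le_add_of_nonneg_left (by positivity)
  have eX : ∀ k, EQ fun p s => ∑ t ∈ Ico b (b + len), μ t * Xi w L l₀ t (pc w L l₀ LL k t) p s :=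
    fun k s => EP.sum _ fun t _ => (eq_Xi hw t (ep_pc hw LL k t) s).const_mul _
  have L0 : (0 : ℝ) < LL + 2 := by positivity
  refine (EL_mono hw L h (G := fun p s => ((LL : ℝ) + 2) ^ (2 * n) * ∑ k ∈ range (LL + 2),
      1 / ((LL : ℝ) + 2) * |∑ t ∈ Ico b (b + len), μ t * Xi w L l₀ t (pc w L l₀ LL k t) p s| ^ (2 * n))
    (fun s => (EP.sum _ fun t _ => (eq_pi hw t s).const_mul _).abs.pow _)
    (fun s => (EP.sum _ fun k _ => ((eX k s).abs.pow _).const_mul _).const_mul _)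
    fun p s => ?_).trans ?_
  · refine le_trans (pow_le_pow_left₀ (abs_nonneg _) ?_ _) (wpow (range (LL + 2)) (u := fun _ => 1)
      (by omega) (fun _ _ => zero_le_one) (fun _ _ => abs_nonneg _) (by simp) L0)
    simp only [pi_sum LL, mul_sum, one_mul]
    rw [sum_comm]
    exact abs_sum_le_sum_abs _ _
  · rw [EL_const_mul, EL_sum hw L h _ fun k _ s => ((eX k s).abs.pow _).const_mul _, mul_pow,
      ← pow_mul]
    refine mul_le_mul_of_nonneg_left ?_ (by positivity)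
    simp only [EL_const_mul]
    refine (sum_le_sum fun k hk => mul_le_mul_of_nonneg_left (key k hk) (by positivity)).trans_eq ?_
    rw [sum_const, card_range, nsmul_eq_mul]
    push_cast
    field_simp

/-! ### envelopes -/

/-- `E (|Y| - F)₊ ≤ tl` -/
structure Ex (w : Ω → ℝ) (L : List (Lv Ω)) (h : Ω → ℝ) (Y : Pth Ω → Ω → ℝ) (F tl : ℝ) : Prop where
  eq : EQ Y
  le : EL w L h (fun p s => max (|Y p s| - F) 0) ≤ tl

namespace Ex
variable {Y Y' : Pth Ω → Ω → ℝ} {F F' tl tl' : ℝ}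

theorem eqm (hY : EQ Y) (F : ℝ) : EQ fun p s => max (|Y p s| - F) 0 := fun s =>
  ((hY s).abs.sub (EP.const _)).max (EP.const 0)

theorem of_le (hw : Wt w) (H : Ex w L h Y F tl) (hY : EQ Y') (e : ∀ p s, |Y' p s| ≤ |Y p s|)
    (hF : F ≤ F') (ht : tl ≤ tl') : Ex w L h Y' F' tl' :=
  ⟨hY, (EL_mono hw L h (eqm hY _) (eqm H.eq _) fun p s =>
    max_le_max (by linarith [e p s]) le_rfl).trans (H.le.trans ht)⟩

theorem mono (hw : Wt w) (H : Ex w L h Y F tl) (hF : F ≤ F') (ht : tl ≤ tl') : Ex w L h Y F' tl' :=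
  H.of_le hw H.eq (fun _ _ => le_rfl) hF ht

theorem congr (H : Ex w L h Y F tl) (e : ∀ p s, Y' p s = Y p s) : Ex w L h Y' F tl := by
  rwa [show Y' = Y from funext fun p => funext (e p)]

theorem zero (hw : Wt w) : Ex w L h (fun _ _ => 0) 0 0 :=
  ⟨fun _ => EP.const 0, by simp only [abs_zero, sub_self, max_self]; rw [EL_path hw, EE_const hw]⟩

theorem add (hw : Wt w) (H : Ex w L h Y F tl) (H' : Ex w L h Y' F' tl') :
    Ex w L h (fun p s => Y p s + Y' p s) (F + F') (tl + tl') := by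
  have e : EQ fun p s => Y p s + Y' p s := fun s => (H.eq s).add (H'.eq s)
  refine ⟨e, (EL_mono hw L h (eqm e _) (fun s => (eqm H.eq F s).add (eqm H'.eq F' s))
    fun p s => ?_).trans ?_⟩
  · have := abs_add_le (Y p s) (Y' p s)
    have h1 := le_max_left (|Y p s| - F) 0
    have h2 := le_max_left (|Y' p s| - F') 0
    exact max_le (by linarith) (add_nonneg (le_max_right _ _) (le_max_right _ _))
  · rw [EL_add hw L h (eqm H.eq F) (eqm H'.eq F')]
    exact add_le_add H.le H'.le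

theorem sum (hw : Wt w) {κ : Type*} (S : Finset κ) {Y : κ → Pth Ω → Ω → ℝ} {F tl : κ → ℝ}
    (H : ∀ k ∈ S, Ex w L h (Y k) (F k) (tl k)) :
    Ex w L h (fun p s => ∑ k ∈ S, Y k p s) (∑ k ∈ S, F k) (∑ k ∈ S, tl k) := by
  classical
  induction S using Finset.induction_on with
  | empty => simpa using zero hw
  | insert k S hk ih =>
    simp only [sum_insert hk]
    exact (H k (mem_insert_self _ _)).add hw (ih fun j hj => H j (mem_insert_of_mem hj))

/-- from a moment -/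
theorem of_pow (hw : Wt w) {B lam : ℝ} {k : ℕ} (hY : EQ Y) (hB : 0 < B) (hl : 0 < lam)
    (H : EL w L h (fun p s => |Y p s| ^ (k + 1)) ≤ B ^ (k + 1)) :
    Ex w L h Y (lam * B) (B / lam ^ k) := ⟨hY, EL_excess hw L h hY hB hl H⟩

/-- from a moment of a path functional -/
theorem of_mo (hw : Wt w) {Z : Pth Ω → ℝ} {B lam : ℝ} {k : ℕ} (H : Mo w L h (k + 1) Z B)
    (hB : 0 < B) (hl : 0 < lam) : Ex w L h (fun p _ => Z p) (lam * B) (B / lam ^ k) :=
  of_pow hw (fun _ => H.ep) hB hl (by rw [EL_path hw L h fun p => |Z p| ^ (k + 1)]; exact H.le)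

/-- a deterministic bound -/
theorem bdd (hw : Wt w) (hY : EQ Y) (e : ∀ p s, |Y p s| ≤ F) : Ex w L h Y F 0 :=
  ⟨hY, by simp only [fun p s => max_eq_right (sub_nonpos.2 (e p s))]; rw [EL_path hw, EE_const hw]⟩

/-- in the frame of `pE` -/
theorem pE (hw : Wt w) (H : Ex w L h Y F tl) :
    pE w L h (fun g x => max (|Y (fun j => st L j h g) x| - F) 0) ≤ tl :=
  (EL_eq hw L h (eqm H.eq F)).ge.trans H.le

end Ex

/-- `|m_t · (s - m_t)| ≤ 2` -/
theorem abs_pi_le (hw : Wt w) (one : ∀ x, l₀.cov x x ≤ 1) (t : ℕ) (p : Pth Ω) (s : Ω) :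
    |pi w L l₀ t p s| ≤ 2 := by
  have h1 := Xi_sq_le (L := L) hw one t (mP w L l₀ t) p s
  have h2 : ∑ i, mP w L l₀ t p i ^ 2 ≤ 1 := Q33.rr_le hw _ one _
  exact abs_le_of_sq_le_sq' (by unfold pi; linarith) zero_le_two |> abs_le.2

/-- **envelope of the leaf part on a block** -/
theorem leaf_ex (D : Dat w L h l₀ τ) {t' : ℕ → ℕ} {L' j0 j1 j2 LL b len n : ℕ} {x v w3 K : ℝ}
    (R : Ric L τ t' L' j0 j1 j2 x v w3 K) (x1 : x ≤ 1) (hb : j0 + 2 ^ LL ≤ b) (hb' : b + len ≤ j1 + 1)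
    {μ : ℕ → ℝ} {G ρ c R₀ C B lam : ℝ} (G0 : 0 ≤ G) (ρ0 : 0 ≤ ρ) (c0 : 0 ≤ c)
    (hμ : ∀ t ∈ Ico b (b + len), |μ t| ≤ G) (C0 : 0 < C)
    (hC : cK (2 * (n + 1)) ≤ C ^ (2 * (n + 1)))
    (hI : Inc w L h l₀ (2 * (n + 1)) (b - 2 ^ LL) (b + len) ρ c)
    (hR : Mo w L h (2 * (n + 1)) (rP w L l₀ (b + len)) R₀) (B0 : 0 < B) (hl : 0 < lam)
    (hB : ((LL : ℝ) + 2) ^ 2 * (C * (G * len) * (34 * (n + 1) * (w3 / (x * v)) * G *
      (ρ + 2 * c * len + len * R₀ / 2 ^ LL))) ≤ B ^ 2) :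
    Ex w L h (fun p s => ∑ t ∈ Ico b (b + len), μ t * pi w L l₀ t p s) (lam * B)
      (B / lam ^ (2 * n + 1)) := by
  have hw := D.hw
  have e : EQ fun p s => ∑ t ∈ Ico b (b + len), μ t * pi w L l₀ t p s := fun s =>
    EP.sum _ fun t _ => (eq_pi hw t s).const_mul _
  have z : (∀ t ∈ Ico b (b + len), μ t = 0) → Ex w L h
      (fun p s => ∑ t ∈ Ico b (b + len), μ t * pi w L l₀ t p s) (lam * B)
      (B / lam ^ (2 * n + 1)) := fun H =>
    ((Ex.zero hw).congr fun p s => sum_eq_zero fun t ht => by rw [H t ht, zero_mul]).mono hw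
      (by positivity) (by positivity)
  rcases G0.eq_or_lt with rfl | G0
  · exact z fun t ht => abs_nonpos_iff.1 (hμ t ht)
  rcases Nat.eq_zero_or_pos len with rfl | l0
  · exact z fun t ht => by simp at ht
  refine Ex.of_pow hw e B0 hl ((leaf_blk D R x1 hb hb' (n := n + 1) (by omega) (by omega) G0 ρ0 c0
    hμ C0 hC hI hR).trans ?_)
  have x0 := R.x0
  have v0 := R.v0
  have w0 : 0 < w3 := by linarith [R.vw]
  have R0 := hR.nn
  rw [show 2 * n + 1 + 1 = 2 * (n + 1) by ring, pow_mul B]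
  push_cast
  exact pow_le_pow_left₀ (by positivity) hB _

/-! ### increments from locations -/

/-- `|m_j - m_i|² = ρ_j - ρ_i - 2 m_i · (m_j - m_i)` -/
theorem iP_eq (i j : ℕ) (p : Pth Ω) : iP w L l₀ i j p =
    rP w L l₀ j p - rP w L l₀ i p - 2 * LpR43.Yi w L l₀ (mP w L l₀ i) i j p := by
  simp only [iP, rP, rr, LpR43.Yi, mP, mul_sum, ← sum_sub_distrib]
  exact sum_congr rfl fun _ _ => by ring

theorem Yi_split (η : Pth Ω → l₀.ι → ℝ) (i y j : ℕ) (p : Pth Ω) : LpR43.Yi w L l₀ η i j p =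
    LpR43.Yi w L l₀ η i y p + LpR43.Yi w L l₀ η y j p := by
  simp only [LpR43.Yi, ← sum_add_distrib]
  exact sum_congr rfl fun _ _ => by ring

/-- the martingale part beyond a window -/
theorem mo_Yi (D : Dat w L h l₀ τ) {i y j n : ℕ} {θ C R₀ : ℝ} (W : LpR43.Win L τ i y θ) (hj : y ≤ j)
    (C0 : 0 < C) (hC : cK n ≤ C ^ (2 * n)) (hR : Mo w L h n (rP w L l₀ i) R₀) :
    Mo w L h (2 * n) (LpR43.Yi w L l₀ (mP w L l₀ i) y j) (C * √(θ * R₀)) := by
  have hw := D.hw
  have θ0 := W.pos D.mono l₀ D.dom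
  have R0 := hR.nn
  have ep := LpR43.ep_Yi hw L l₀ (ep_mP (L := L) (l₀ := l₀) hw i) y j
  refine ⟨ep, by positivity, ?_⟩
  simp only [pow_mul, sq_abs]
  simp only [← pow_mul]
  refine (EE_le_CE hw L h i (ep.pow _) ((hR.ep.abs.pow n).const_mul (cK n * θ ^ n)) fun p =>
    (LpR43.CE_Yi hw D.mono l₀ D.dom W hj (Lp12.Ad.state le_rfl fun z => mv w (L.drop i) l₀ z) n
      p).trans_eq ?_).trans ?_
  · rw [mul_pow, mul_assoc, abs_of_nonneg (sum_nonneg fun _ _ => sq_nonneg _)]; rfl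
  · rw [EE_const_mul, mul_pow, pow_mul (√_), sq_sqrt (by positivity), mul_pow, ← mul_assoc]
    exact mul_le_mul (mul_le_mul_of_nonneg_right hC (by positivity)) hR.le
      (EE_nonneg _ _ fun _ => by positivity) (by positivity)

/-- **increments from `L^p` locations**: clock `q` with steps `≤ c`, tolerance `A`, short increments
`≤ A'` up to the distance `N`, a Riccati window of `N` nodes -/
theorem inc_of_loc (D : Dat w L h l₀ τ) {n lo hi N : ℕ} {q : ℕ → ℝ} {A A' c θ C R₀ : ℝ}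
    (c0 : 0 ≤ c) (hq : ∀ i j, lo ≤ i → i ≤ j → j ≤ hi → |q j - q i| ≤ c * ((j - i : ℕ) : ℝ))
    (hA : ∀ j, lo ≤ j → j ≤ hi → Mo w L h (2 * n) (fun p => rP w L l₀ j p - q j) A)
    (hA' : ∀ i j, lo ≤ i → i ≤ j → j ≤ hi → j ≤ i + N → Mo w L h (2 * n) (iP w L l₀ i j) A')
    (W : ∀ i, lo ≤ i → i + N ≤ hi → LpR43.Win L τ i (i + N) θ) (C0 : 0 < C)
    (hC : cK n ≤ C ^ (2 * n)) (hR : Mo w L h n (rP w L l₀ hi) R₀) :
    Inc w L h l₀ (2 * n) lo hi (4 * A + A' + 2 * (C * √(θ * R₀))) (2 * c) := fun i j h0 hij hj => by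
  have hw := D.hw
  have A0 := (hA i h0 (hij.trans hj)).nn
  rcases le_total j (i + N) with e | e
  · refine (hA' i j h0 hij hj e).mono ?_
    have : 0 ≤ 2 * c * ((j - i : ℕ) : ℝ) := by positivity
    have : 0 ≤ C * √(θ * R₀) := by positivity
    linarith
  · have d : ∀ y, i ≤ y → y ≤ j → Mo w L h (2 * n) (fun p => rP w L l₀ y p - rP w L l₀ i p)
        (2 * A + c * ((j - i : ℕ) : ℝ)) := fun y h1 h2 => by
      refine ((((hA y (h0.trans h1) (h2.trans hj)).sub hw (hA i h0 (hij.trans hj))).add hw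
        (Mo.const hw (q y - q i))).congr fun p => by ring).mono ?_
      have : ((y - i : ℕ) : ℝ) ≤ ((j - i : ℕ) : ℝ) := by exact_mod_cast (by omega : y - i ≤ j - i)
      linarith [hq i y h0 h1 (h2.trans hj), mul_le_mul_of_nonneg_left this c0]
    have h1 := (mo_Yi D (W i h0 (e.trans hj)) e C0 hC
      (mo_rP_mono hw (hij.trans hj) hR)).const_mul' (c := 2) zero_le_two
    refine (((((d j hij le_rfl).sub hw (d (i + N) (by omega) e)).add hw
      (hA' i (i + N) h0 (by omega) (e.trans hj) le_rfl)).sub hw h1).congr fun p => ?_).mono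
      (by linarith)
    rw [iP_eq, iP_eq i (i + N), Yi_split _ i (i + N) j]
    ring

end Crest.Agent.T156.Cas.Lf24

end
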