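import Crest.Agent.T156.MdDer_77
import Crest.Agent.T156.MdDic_67

/-!
# Row 156: the (SD) cost of a field move (helper41)

The variance of `∑ dz k φ k ρ k` is bounded by the rises of the mean overlap against a majorant
`W` of the cost per unit of field.
-/

set_option autoImplicit false

noncomputable section

namespace Crest.Agent.T156.Alt.Cost41

open Real Set
open Crest.Agent.T157.E Crest.Agent.T157.Casc Crest.Agent.T157.SL
open Crest.Agent.T157.G1 (ov fl FL)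
open Crest.Agent.T156.Cas Crest.Agent.T156.Cas.Q33 Crest.Agent.T156.Alt.Md67

/-! ### sequences -/

theorem step_le {Φ : ℕ → ℝ} {σ : ℝ} {j0 N : ℕ} (σ0 : 0 ≤ σ)
    (hΦ : ∀ i, j0 ≤ i → i < N → σ ≤ Φ (i + 1) - Φ i) {i j : ℕ} (h0 : j0 ≤ i) (hij : i ≤ j)
    (hj : j ≤ N) : Φ i ≤ Φ j := by
  induction j, hij using Nat.le_induction with
  | base => exact le_rfl
  | succ j h ih => linarith [ih (by omega), hΦ j (by omega) (by omega)]

theorem step_lt {Φ : ℕ → ℝ} {σ : ℝ} {j0 N : ℕ} (σ0 : 0 ≤ σ)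
    (hΦ : ∀ i, j0 ≤ i → i < N → σ ≤ Φ (i + 1) - Φ i) {i j : ℕ} (h0 : j0 ≤ i) (hij : i < j)
    (hj : j ≤ N) : σ ≤ Φ j - Φ i := by
  linarith [hΦ i h0 (by omega), step_le σ0 hΦ (i := i + 1) (by omega) hij hj]

/-- the maximal bound -/
theorem mx {Φ c : ℕ → ℝ} {σ W : ℝ} {j N : ℕ} (σ0 : 0 < σ)
    (hΦ : ∀ i, j ≤ i → i < N → σ ≤ Φ (i + 1) - Φ i) (W0 : 0 ≤ W)
    (hW : ∀ k, j < k → k ≤ N → ∑ i ∈ Finset.Ioc j k, c i ≤ W * (Φ k - Φ j)) {L : ℝ} (L0 : 0 ≤ L)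
    (hL : log ((Φ N - Φ j) / σ) ≤ L) :
    ∑ k ∈ Finset.Ioc j N, c k / (Φ k - Φ j) ≤ (1 + L) * W := by
  rcases le_or_gt N j with h | h
  · rw [Finset.Ioc_eq_empty (by omega), Finset.sum_empty]; positivity
  have key : ∀ k, j + 1 ≤ k → k ≤ N → ∑ i ∈ Finset.Ioc j k, c i / (Φ i - Φ j) ≤
      (∑ i ∈ Finset.Ioc j k, c i) / (Φ k - Φ j) + W * log ((Φ k - Φ j) / σ) := by
    intro k hk
    induction k, hk using Nat.le_induction with
    | base =>
      intro h1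
      have := hΦ j le_rfl h1
      have : 0 ≤ log ((Φ (j + 1) - Φ j) / σ) := log_nonneg ((one_le_div σ0).2 this)
      simp only [Nat.Ioc_succ_singleton, Finset.sum_singleton, le_add_iff_nonneg_right]
      positivity
    | succ k hk ih =>
      intro h1
      have p1 : 0 < Φ k - Φ j := σ0.trans_le (step_lt σ0.le hΦ le_rfl hk (by omega))
      have p2 : Φ k - Φ j ≤ Φ (k + 1) - Φ j := by linarith [hΦ k (by omega) h1]
      have p3 : 0 < Φ (k + 1) - Φ j := p1.trans_le p2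
      have a := ih (by omega)
      have b := hW k hk (by omega)
      rw [Finset.sum_Ioc_succ_top (by omega), Finset.sum_Ioc_succ_top (by omega), add_div]
      set P := Φ k - Φ j
      set P' := Φ (k + 1) - Φ j
      set C := ∑ i ∈ Finset.Ioc j k, c i
      have l1 : 1 - P / P' ≤ log (P' / σ) - log (P / σ) := by
        rw [← log_div (by positivity) (by positivity)]
        have := one_sub_inv_le_log_of_pos (show 0 < P' / σ / (P / σ) by positivity)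
        refine le_trans (le_of_eq ?_) this
        field_simp
      have l2 : C / P - C / P' ≤ W * (1 - P / P') := by
        have e : C / P - C / P' = C / P * (1 - P / P') := by field_simp
        rw [e]
        exact mul_le_mul_of_nonneg_right ((div_le_iff₀ p1).2 b)
          (sub_nonneg.2 ((div_le_one p3).2 p2))
      have l3 := mul_le_mul_of_nonneg_left l1 W0
      linarith
  have p : 0 < Φ N - Φ j := σ0.trans_le (step_lt σ0.le hΦ le_rfl h le_rfl)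
  have := key N h le_rfl
  have b := (div_le_iff₀ p).2 (hW N h le_rfl)
  have := mul_le_mul_of_nonneg_left hL W0
  linarith

/-- the kernel form of the dyadic look-back -/
theorem kern {Φ ρ : ℕ → ℝ} {σ A ν : ℝ} {j0 k K : ℕ} (σ0 : 0 < σ) (ν0 : 0 < ν) (hk : j0 < k)
    (hΦ : ∀ i, j0 ≤ i → i < k → σ ≤ Φ (i + 1) - Φ i) (hK : Φ k - Φ j0 ≤ 2 ^ K * σ)
    (hρ : Monotone ρ) (ρ0 : 0 ≤ ρ j0)
    (hA : ∀ (u : ℕ → ℕ) (S : ℕ → ℝ), Monotone u → u K ≤ k → (∀ i ≤ K, 0 < S i) →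
      (∀ i ≤ K, S i ≤ ν * (Φ k - Φ (u i))) → A ≤ (K + 2) * (ρ (u 0) / S 0 +
        ∑ i ∈ Finset.range K, (ρ (u (i + 1)) - ρ (u i)) / S (i + 1) + (ρ k - ρ (u K)))) :
    A ≤ (K + 2) * (2 / ν * (ρ j0 / (Φ k - Φ j0) +
      ∑ j ∈ Finset.Ioo j0 k, (ρ j - ρ (j - 1)) / (Φ k - Φ j)) + (ρ k - ρ (k - 1))) := by
  classical
  have P0 : 0 < Φ k - Φ j0 := σ0.trans_le (step_lt σ0.le hΦ le_rfl hk le_rfl)
  set D : ℕ → ℝ := fun i => (Φ k - Φ j0) / 2 ^ i with hD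
  have D0 : ∀ i, 0 < D i := fun i => by positivity
  have D1 : ∀ i, D i ≤ Φ k - Φ j0 := fun i => div_le_self P0.le (one_le_pow₀ one_le_two)
  have D2 : ∀ i, D i = 2 * D (i + 1) := fun i => by simp only [hD, pow_succ]; field_simp
  set u : ℕ → ℕ := fun i => Nat.findGreatest (fun j => D i ≤ Φ k - Φ j) (k - 1) with hu
  have u0 : ∀ i, j0 ≤ u i := fun i => Nat.le_findGreatest (by omega) (D1 i)
  have u1 : ∀ i, u i ≤ k - 1 := fun i => Nat.findGreatest_le _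
  have u2 : ∀ i, D i ≤ Φ k - Φ (u i) := fun i =>
    Nat.findGreatest_spec (P := fun j => D i ≤ Φ k - Φ j) (show j0 ≤ k - 1 by omega) (D1 i)
  have u3 : ∀ i j, u i < j → j ≤ k - 1 → Φ k - Φ j < D i := fun i j h1 h2 =>
    not_le.1 (Nat.findGreatest_is_greatest h1 h2)
  have um : Monotone u := monotone_nat_of_le_succ fun i =>
    Nat.le_findGreatest (u1 i) (by linarith [u2 i, D2 i, D0 (i + 1)])
  have uK : u K = k - 1 := le_antisymm (u1 K) (Nat.le_findGreatest le_rfl (by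
    have := hΦ (k - 1) (by omega) (by omega)
    rw [Nat.sub_add_cancel (by omega)] at this
    exact le_trans ((div_le_iff₀' (by positivity)).2 hK) this))
  have uz : u 0 = j0 := le_antisymm (not_lt.1 fun h => by
    have a := u2 0
    have b := step_lt σ0.le hΦ le_rfl h (by have := u1 0; omega)
    simp only [hD, pow_zero, div_one] at a
    linarith) (u0 0)
  have key : ∀ i, ∑ i ∈ Finset.range i, (ρ (u (i + 1)) - ρ (u i)) / (ν * D (i + 1)) ≤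
      2 / ν * ∑ j ∈ Finset.Ioc j0 (u i), (ρ j - ρ (j - 1)) / (Φ k - Φ j) := fun i => by
    induction i with
    | zero => simp [uz]
    | succ i ih =>
      rw [Finset.sum_range_succ, ← Finset.sum_Ioc_consecutive _ (u0 i) (um i.le_succ), mul_add]
      refine add_le_add ih ?_
      have e : ρ (u (i + 1)) - ρ (u i) = ∑ j ∈ Finset.Ioc (u i) (u (i + 1)), (ρ j - ρ (j - 1)) := by
        have : ∀ b, u i ≤ b → ρ b - ρ (u i) = ∑ j ∈ Finset.Ioc (u i) b, (ρ j - ρ (j - 1)) := by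
          intro b hb
          induction b, hb using Nat.le_induction with
          | base => simp
          | succ b hb ih => rw [Finset.sum_Ioc_succ_top hb, ← ih, Nat.add_sub_cancel]; ring
        exact this _ (um i.le_succ)
      rw [e, Finset.sum_div, Finset.mul_sum]
      refine Finset.sum_le_sum fun j hj => ?_
      obtain ⟨h1, h2⟩ := Finset.mem_Ioc.1 hj
      have h3 := u1 (i + 1)
      have a := u3 i j h1 (by omega)
      have b := σ0.trans_le (step_lt σ0.le hΦ (i := j) (j := k) (by have := u0 i; omega) (by omega)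
        le_rfl)
      have r : 0 ≤ ρ j - ρ (j - 1) := sub_nonneg.2 (hρ (by omega))
      have d := D0 (i + 1)
      rw [div_mul_div_comm, div_le_div_iff₀ (by positivity) (by positivity)]
      have := mul_le_mul_of_nonneg_left (a.le.trans (D2 i).le) (mul_nonneg r ν0.le)
      linarith
  refine (hA u (fun i => ν * D i) um (by omega) (fun i _ => by have := D0 i; positivity)
    fun i _ => mul_le_mul_of_nonneg_left (u2 i) ν0.le).trans
    (mul_le_mul_of_nonneg_left ?_ (by positivity))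
  have k1 := key K
  rw [uK, show Finset.Ioc j0 (k - 1) = Finset.Ioo j0 k by
    ext j; simp only [Finset.mem_Ioc, Finset.mem_Ioo]; omega] at k1
  have k2 : ρ j0 / (ν * D 0) ≤ 2 / ν * (ρ j0 / (Φ k - Φ j0)) := by
    simp only [hD, pow_zero, div_one]
    rw [div_mul_div_comm]
    exact div_le_div_of_nonneg_right (by linarith) (by positivity)
  rw [uK, uz, mul_add]
  linarith

theorem tele (ρ : ℕ → ℝ) {a b : ℕ} (h : a ≤ b) :
    ∑ j ∈ Finset.Ioc a b, (ρ j - ρ (j - 1)) = ρ b - ρ a := by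
  induction b, h using Nat.le_induction with
  | base => simp
  | succ b hb ih => rw [Finset.sum_Ioc_succ_top hb, ih, Nat.add_sub_cancel]; ring

/-- the rises of `ρ` against `W` -/
def RW (ρ W : ℕ → ℝ) (j0 N : ℕ) : ℝ :=
  ρ j0 * W j0 + ∑ j ∈ Finset.Ioc j0 N, (ρ j - ρ (j - 1)) * W j

/-- summation of the kernel form -/
theorem kern_sum {Φ ρ c W A : ℕ → ℝ} {σ ν cm : ℝ} {j0 N K : ℕ} (σ0 : 0 < σ) (ν0 : 0 < ν)
    (h : j0 ≤ N) (hΦ : ∀ i, j0 ≤ i → i < N → σ ≤ Φ (i + 1) - Φ i) (hK : Φ N - Φ j0 ≤ 2 ^ K * σ)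
    (hρ : Monotone ρ) (ρ0 : 0 ≤ ρ j0) (ρ1 : ρ N ≤ 1) (c0 : ∀ k, j0 < k → k ≤ N → 0 ≤ c k)
    (cm0 : 0 ≤ cm) (c1 : ∀ k, j0 < k → k ≤ N → c k ≤ cm) (W0 : ∀ j, j0 ≤ j → j ≤ N → 0 ≤ W j)
    (hW : ∀ j k, j0 ≤ j → j < k → k ≤ N → ∑ i ∈ Finset.Ioc j k, c i ≤ W j * (Φ k - Φ j))
    (hA : ∀ k, j0 < k → k ≤ N → A k ≤ (K + 2) * (2 / ν * (ρ j0 / (Φ k - Φ j0) +
      ∑ j ∈ Finset.Ioo j0 k, (ρ j - ρ (j - 1)) / (Φ k - Φ j)) + (ρ k - ρ (k - 1)))) :
    ∑ k ∈ Finset.Ioc j0 N, c k * A k ≤ (K + 2) * (2 / ν * ((1 + K) * RW ρ W j0 N) + cm) := by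
  have m : ∀ j, j0 ≤ j → j ≤ N →
      ∑ k ∈ Finset.Ioc j N, c k / (Φ k - Φ j) ≤ (1 + K) * W j := fun j h1 h2 => by
    refine mx σ0 (fun i a b => hΦ i (by omega) b) (W0 j h1 h2) (fun k a b => hW j k h1 a b)
      (Nat.cast_nonneg K) ?_
    rcases h2.eq_or_lt with rfl | h2
    · simp
    have a := step_lt σ0.le hΦ h1 h2 le_rfl
    have b := step_le σ0.le hΦ le_rfl h1 h2.le
    refine (log_le_log (div_pos (σ0.trans_le a) σ0) (show _ ≤ (2 : ℝ) ^ K from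
      (div_le_iff₀ σ0).2 (by linarith))).trans ?_
    rw [log_pow]
    exact mul_le_of_le_one_right (Nat.cast_nonneg K) (by linarith [log_two_lt_d9])
  have r : ∀ j, 0 ≤ ρ j - ρ (j - 1) := fun j => sub_nonneg.2 (hρ (by omega))
  refine (Finset.sum_le_sum fun k hk => mul_le_mul_of_nonneg_left
    (hA k (Finset.mem_Ioc.1 hk).1 (Finset.mem_Ioc.1 hk).2)
    (c0 k (Finset.mem_Ioc.1 hk).1 (Finset.mem_Ioc.1 hk).2)).trans ?_
  have e : ∀ k, c k * ((K + 2) * (2 / ν * (ρ j0 / (Φ k - Φ j0) +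
      ∑ j ∈ Finset.Ioo j0 k, (ρ j - ρ (j - 1)) / (Φ k - Φ j)) + (ρ k - ρ (k - 1)))) =
      (K + 2) * (2 / ν * (ρ j0 * (c k / (Φ k - Φ j0)) +
      ∑ j ∈ Finset.Ioo j0 k, (ρ j - ρ (j - 1)) * (c k / (Φ k - Φ j))) + c k * (ρ k - ρ (k - 1))) :=
    fun k => by
      have : ∑ j ∈ Finset.Ioo j0 k, (ρ j - ρ (j - 1)) * (c k / (Φ k - Φ j)) =
          c k * ∑ j ∈ Finset.Ioo j0 k, (ρ j - ρ (j - 1)) / (Φ k - Φ j) := by
        rw [Finset.mul_sum]; exact Finset.sum_congr rfl fun j _ => by ring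
      rw [this]; ring
  simp only [e]
  rw [← Finset.mul_sum, Finset.sum_add_distrib, ← Finset.mul_sum, Finset.sum_add_distrib,
    ← Finset.mul_sum]
  refine mul_le_mul_of_nonneg_left (add_le_add (mul_le_mul_of_nonneg_left ?_ (by positivity)) ?_)
    (by positivity)
  · rw [RW, mul_add]
    refine add_le_add ?_ ?_
    · rw [mul_left_comm]
      exact mul_le_mul_of_nonneg_left (m j0 le_rfl h) ρ0
    · rw [Finset.sum_comm' (t' := Finset.Ioc j0 N) (s' := fun j => Finset.Ioc j N) fun k j => by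
        simp only [Finset.mem_Ioc, Finset.mem_Ioo]; omega, Finset.mul_sum]
      refine Finset.sum_le_sum fun j hj => ?_
      rw [← Finset.mul_sum, mul_left_comm]
      exact mul_le_mul_of_nonneg_left (m j (Finset.mem_Ioc.1 hj).1.le (Finset.mem_Ioc.1 hj).2) (r j)
  · refine (Finset.sum_le_sum fun k hk => mul_le_mul_of_nonneg_right
      (c1 k (Finset.mem_Ioc.1 hk).1 (Finset.mem_Ioc.1 hk).2) (r k)).trans ?_
    rw [← Finset.mul_sum, tele ρ h]
    exact mul_le_of_le_one_right cm0 (by linarith)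

/-! ### Abel summation -/

theorem RW_add (ρ W W' : ℕ → ℝ) (j0 N : ℕ) :
    RW ρ (fun j => W j + W' j) j0 N = RW ρ W j0 N + RW ρ W' j0 N := by
  simp only [RW, mul_add, Finset.sum_add_distrib]; ring

theorem RW_split (ρ W : ℕ → ℝ) {j0 j1 N : ℕ} (h0 : j0 ≤ j1) (h1 : j1 ≤ N) :
    RW ρ W j0 N = RW ρ W j0 j1 + ∑ j ∈ Finset.Ioc j1 N, (ρ j - ρ (j - 1)) * W j := by
  rw [RW, RW, ← Finset.sum_Ioc_consecutive _ h0 h1, add_assoc]

theorem RW_mono {ρ W W' : ℕ → ℝ} {j0 N : ℕ} (hρ : Monotone ρ) (ρ0 : 0 ≤ ρ j0) (h : j0 ≤ N)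
    (hW : ∀ j, j0 ≤ j → j ≤ N → W j ≤ W' j) : RW ρ W j0 N ≤ RW ρ W' j0 N :=
  add_le_add (mul_le_mul_of_nonneg_left (hW j0 le_rfl h) ρ0) (Finset.sum_le_sum fun j hj =>
    mul_le_mul_of_nonneg_left (hW j (Finset.mem_Ioc.1 hj).1.le (Finset.mem_Ioc.1 hj).2)
      (sub_nonneg.2 (hρ (by omega))))

/-- no location: a constant majorant -/
theorem RW_const {ρ W : ℕ → ℝ} {j0 N : ℕ} {B : ℝ} (hρ : Monotone ρ) (ρ0 : 0 ≤ ρ j0) (h : j0 ≤ N)
    (ρ1 : ρ N ≤ 1) (B0 : 0 ≤ B) (hW : ∀ j, j0 ≤ j → j ≤ N → W j ≤ B) : RW ρ W j0 N ≤ B := by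
  refine (RW_mono (W' := fun _ => B) hρ ρ0 h hW).trans ?_
  rw [RW, ← Finset.sum_mul, tele ρ h]
  nlinarith

theorem RW_eq (ρ W : ℕ → ℝ) {j0 N : ℕ} (h : j0 ≤ N) :
    RW ρ W j0 N = ∑ j ∈ Finset.Ico j0 N, ρ j * (W j - W (j + 1)) + ρ N * W N := by
  induction N, h using Nat.le_induction with
  | base => simp [RW]
  | succ N hN ih =>
    rw [RW_split ρ W hN N.le_succ, ih, Finset.sum_Ico_succ_top hN, Nat.Ioc_succ_singleton,
      Finset.sum_singleton, Nat.add_sub_cancel]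
    ring

/-- crude location `ρ ≤ Λ y` against `W = B / y` -/
theorem RW_low {ρ y : ℕ → ℝ} {j0 N : ℕ} {B Λ : ℝ} (h : j0 ≤ N) (B0 : 0 ≤ B) (Λ0 : 0 ≤ Λ)
    (y0 : 0 < y j0) (hy : Monotone y) (hρ : ∀ j, j0 ≤ j → j ≤ N → ρ j ≤ Λ * y j) :
    RW ρ (fun j => B / y j) j0 N ≤ Λ * B * (1 + log (y N / y j0)) := by
  have yp : ∀ j, j0 ≤ j → 0 < y j := fun j hj => y0.trans_le (hy hj)
  have k : ∀ b, j0 ≤ b → b ≤ N → ∑ j ∈ Finset.Ico j0 b, ρ j * (B / y j - B / y (j + 1)) ≤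
      Λ * B * log (y b / y j0) := fun b hb => by
    induction b, hb using Nat.le_induction with
    | base => simp
    | succ b hb ih =>
      intro h1
      have p := yp b hb
      have p' := yp (b + 1) (by omega)
      have m := hy b.le_succ
      have l1 : 1 - y b / y (b + 1) ≤ log (y (b + 1) / y j0) - log (y b / y j0) := by
        rw [← log_div (by positivity) (by positivity)]
        have := one_sub_inv_le_log_of_pos (show 0 < y (b + 1) / y j0 / (y b / y j0) by positivity)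
        refine le_trans (le_of_eq ?_) this
        field_simp
      have l2 := mul_le_mul_of_nonneg_right (hρ b hb (by omega))
        (sub_nonneg.2 (div_le_div_of_nonneg_left B0 p m))
      have e : Λ * y b * (B / y b - B / y (b + 1)) = Λ * B * (1 - y b / y (b + 1)) := by field_simp
      have l3 := mul_le_mul_of_nonneg_left l1 (mul_nonneg Λ0 B0)
      rw [Finset.sum_Ico_succ_top hb]
      linarith [ih (by omega)]
  have p := yp N h
  have a := mul_le_mul_of_nonneg_right (hρ N h le_rfl) (div_nonneg B0 p.le)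
  have e : Λ * y N * (B / y N) = Λ * B := by field_simp
  rw [RW_eq _ _ h]
  linarith [k N h le_rfl]

theorem abel (d W : ℕ → ℝ) {a b : ℕ} (h : a ≤ b) :
    ∑ j ∈ Finset.Ioc a b, (d j - d (j - 1)) * W j = d b * W (b + 1) - d a * W (a + 1) -
      ∑ j ∈ Finset.Ioc a b, d j * (W (j + 1) - W j) := by
  induction b, h using Nat.le_induction with
  | base => simp
  | succ b hb ih =>
    rw [Finset.sum_Ioc_succ_top hb, Finset.sum_Ioc_succ_top hb, ih, Nat.add_sub_cancel]; ring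

/-- rms location against a majorant of finite energy -/
theorem ab_top {ρ q W dz ω : ℕ → ℝ} {a b : ℕ} (h : a ≤ b) (ha : |ρ a - q a| ≤ 1)
    (hb : |ρ b - q b| ≤ 1) (Wa : 0 ≤ W (a + 1)) (Wb : 0 ≤ W (b + 1)) {V Ω : ℝ} (V0 : 0 ≤ V)
    (Ω0 : 0 ≤ Ω) (d0 : ∀ j, a < j → j ≤ b → 0 ≤ dz j) (ω0 : ∀ j, a < j → j ≤ b → 0 ≤ ω j)
    (hV : ∑ j ∈ Finset.Ioc a b, dz j * |ρ j - q j| ^ 2 ≤ V ^ 2)
    (hω : ∀ j, a < j → j ≤ b → (W (j + 1) - W j) ^ 2 ≤ dz j * ω j)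
    (hΩ : ∑ j ∈ Finset.Ioc a b, ω j ≤ Ω ^ 2) :
    ∑ j ∈ Finset.Ioc a b, (ρ j - ρ (j - 1)) * W j ≤
      ∑ j ∈ Finset.Ioc a b, (q j - q (j - 1)) * W j + (W (a + 1) + W (b + 1) + V * Ω) := by
  have e : ∑ j ∈ Finset.Ioc a b, (ρ j - ρ (j - 1)) * W j =
      ∑ j ∈ Finset.Ioc a b, (q j - q (j - 1)) * W j +
        ∑ j ∈ Finset.Ioc a b, ((ρ j - q j) - (ρ (j - 1) - q (j - 1))) * W j := by
    rw [← Finset.sum_add_distrib]; exact Finset.sum_congr rfl fun j _ => by ring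
  rw [e, abel (fun j => ρ j - q j) W h]
  have c : (∑ j ∈ Finset.Ioc a b, (ρ j - q j) * (W (j + 1) - W j)) ^ 2 ≤
      (∑ j ∈ Finset.Ioc a b, dz j * |ρ j - q j| ^ 2) * ∑ j ∈ Finset.Ioc a b, ω j := by
    refine Finset.sum_sq_le_sum_mul_sum_of_sq_le_mul _ (fun j hj => ?_) (fun j hj => ?_)
      fun j hj => ?_
    · exact mul_nonneg (d0 j (Finset.mem_Ioc.1 hj).1 (Finset.mem_Ioc.1 hj).2) (by positivity)
    · exact ω0 j (Finset.mem_Ioc.1 hj).1 (Finset.mem_Ioc.1 hj).2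
    · have := mul_le_mul_of_nonneg_left (hω j (Finset.mem_Ioc.1 hj).1 (Finset.mem_Ioc.1 hj).2)
        (sq_nonneg (ρ j - q j))
      rw [sq_abs, mul_pow]
      linarith
  have c2 : |∑ j ∈ Finset.Ioc a b, (ρ j - q j) * (W (j + 1) - W j)| ≤ V * Ω := by
    refine abs_le_of_sq_le_sq' (c.trans ?_) (by positivity) |> abs_le.2
    rw [mul_pow]
    exact mul_le_mul hV hΩ (Finset.sum_nonneg fun j hj =>
      ω0 j (Finset.mem_Ioc.1 hj).1 (Finset.mem_Ioc.1 hj).2) (by positivity)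
  have a1 := mul_le_mul_of_nonneg_right (abs_le.1 ha).1 Wa
  have b1 := mul_le_mul_of_nonneg_right (abs_le.1 hb).2 Wb
  linarith [(abs_le.1 c2).1]

/-! ### models -/

variable {M : Md} {m : ℕ} {a : ℝ}

/-- `E mᵀ A m` at the profile node `k` -/
def aM (M : Md) (m : ℕ) (a : ℝ) (k : ℕ) : ℝ := aa (fun _ => 1) (M.L m a) (sl m) 0 (k + 1)

/-- tilt-weighted field below the node `k` -/
def Phi (M : Md) (k : ℕ) : ℝ := ∑ j ∈ Finset.range k, M.z j * (M.H (j + 1) - M.H j)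

theorem Phi_succ (M : Md) (k : ℕ) : Phi M (k + 1) - Phi M k = M.z k * (M.H (k + 1) - M.H k) := by
  rw [Phi, Finset.sum_range_succ, Phi]; ring

theorem Phi_sub (M : Md) {i k : ℕ} (h : i ≤ k) :
    Phi M k - Phi M i = ∑ j ∈ Finset.Ico i k, M.z j * (M.H (j + 1) - M.H j) :=
  (Finset.sum_Ico_eq_sub _ h).symm

theorem aM_nonneg (G : Lg M m a) (k : ℕ) : 0 ≤ aM M m a k :=
  aa_nonneg Link33.wt1 G.monoL _ _ _

/-- **the cost**: `c` against `aM` -/
theorem cost (G : Lg M m a) {c W : ℕ → ℝ} {σ cm : ℝ} {j0 N K : ℕ} (σ0 : 0 < σ) (h : j0 ≤ N)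
    (hN : N ≤ M.N) (hΦ : ∀ i, j0 ≤ i → i < N → σ ≤ M.z i * (M.H (i + 1) - M.H i))
    (hK : Phi M N - Phi M j0 ≤ 2 ^ K * σ) (c0 : ∀ k, j0 < k → k ≤ N → 0 ≤ c k)
    (cm0 : 0 ≤ cm) (c1 : ∀ k, j0 < k → k ≤ N → c k ≤ cm) (W0 : ∀ j, j0 ≤ j → j ≤ N → 0 ≤ W j)
    (hW : ∀ j k, j0 ≤ j → j < k → k ≤ N →
      ∑ i ∈ Finset.Ioc j k, c i ≤ W j * (Phi M k - Phi M j)) :
    ∑ k ∈ Finset.Ioc j0 N, c k * aM M m a k ≤
      (K + 2) * (2 / m * ((1 + K) * RW (M.rb m a) W j0 N) + cm) := by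
  have m0 : (0 : ℝ) < m := Nat.cast_pos.2 G.m0
  have hΦ' : ∀ i, j0 ≤ i → i < N → σ ≤ Phi M (i + 1) - Phi M i := fun i a b => by
    rw [Phi_succ]; exact hΦ i a b
  refine kern_sum σ0 m0 h hΦ' hK (rb_mono G.m0) (rb_nonneg G.m0 _) (rb_le_one G.m0 _) c0 cm0 c1 W0
    hW fun k k0 k1 => kern σ0 m0 k0 (fun i a b => hΦ' i a (by omega))
      (by linarith [step_le σ0.le hΦ' k0.le k1 le_rfl]) (rb_mono G.m0) (rb_nonneg G.m0 _)
      fun u S um uK S0 hS => ?_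
  have := G.dt.aa_clock 0 (J := k + 1) (by rw [len_L]; omega) K (t := fun i => u i + 1)
    (fun i j hij => Nat.succ_le_succ (um hij)) (Nat.succ_le_succ uK) S0 fun i hi => by
      refine (hS i hi).trans (le_of_eq ?_)
      rw [Phi_sub M ((um hi).trans uK), ← Finset.sum_Ico_add' _ _ _ 1, Finset.mul_sum]
      refine Finset.sum_congr rfl fun j hj => ?_
      rw [ex_succ G.toLeg, dh_succ (by have := (Finset.mem_Ico.1 hj).2; omega)]
      ring
  simpa only [aM, rb_eq (sl_cov G.m0), one_mul] using this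

/-- **(SD) for a linear functional of the path overlaps** -/
theorem sd_lin {a' Q V : ℝ} (hL : M.Leg a') (hm : 0 < m) (a0 : 0 ≤ a) (haa : a ≤ a') (hQ : 0 ≤ Q)
    (hW : (a' - a) * M.W m a a' ≤ Q ^ 2) (V0 : 0 ≤ V) {j0 N : ℕ} (hN : N ≤ M.N) (φ : ℕ → ℝ)
    (hV : ∀ s ∈ Icc a a', ∑ k ∈ Finset.Ioc j0 N, M.dz m s k * φ k ^ 2 * aM M m s k ≤ V ^ 2) :
    |∑ k ∈ Finset.Ioc j0 N, M.dz m a k * φ k * (M.rb m a' k - M.rb m a k)| ≤ Q * (2 * V) := by
  have G : ∀ s ∈ Icc a a', Lg M m s := fun s hs => lg_of hL hm (a0.trans hs.1) hs.2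
  have := Seg56.sd_G Link33.wt1 (M.root m 0) (M.up m) 0 (sl m) haa hQ hW V0
    (fun s hs => Seg56.sy_cube (G s hs).cm (sl_cov hm))
    (S := (Finset.Ioc j0 N).map ⟨Nat.succ, Nat.succ_injective⟩) (fun j hj => by
      obtain ⟨k, hk, rfl⟩ := Finset.mem_map.1 hj
      have := Finset.mem_Ioc.1 hk
      rw [len_up]
      simp only [Function.Embedding.coeFn_mk]
      omega) (G := fun j r => φ (j - 1) * r) (G' := fun j _ => φ (j - 1))
    (fun j r => by simpa using (hasDerivAt_id r).const_mul (φ (j - 1))) (fun j => continuous_const)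
    fun s hs => by
      refine le_trans (le_of_eq ?_) (hV s hs)
      rw [Finset.sum_map]
      refine Finset.sum_congr rfl fun k _ => ?_
      simp only [Function.Embedding.coeFn_mk, Nat.succ_eq_add_one, Nat.add_sub_cancel,
        node_const_mul, mul_assoc]
      rfl
  refine le_trans (le_of_eq ?_) this
  congr 1
  rw [Finset.sum_map, Finset.sum_map, ← Finset.sum_sub_distrib]
  refine Finset.sum_congr rfl fun k hk => ?_
  obtain ⟨k, rfl⟩ : ∃ j, k = j + 1 := ⟨k - 1, by have := (Finset.mem_Ioc.1 hk).1; omega⟩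
  simp only [Function.Embedding.coeFn_mk, Nat.succ_eq_add_one, Nat.add_sub_cancel, node_const_mul,
    rb_eq (sl_cov hm)]
  change _ = M.dz m a (k + 1) * (φ (k + 1) * Sy41.rho _ (M.L m a') _ _ _) -
    M.dz m a (k + 1) * (φ (k + 1) * Sy41.rho _ (M.L m a) _ _ _)
  ring

/-- a segment of fields with velocity `φ` -/
structure FS (M : ℝ → Md) (φ : ℕ → ℝ) : Prop where
  N : ∀ t, (M t).N = (M 0).N
  z : ∀ t, (M t).z = (M 0).z
  d : ∀ t, (M t).d = (M 0).d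
  H : ∀ t k, (M t).H k = (M 0).H k + t * φ k
  φ0 : φ 0 = 0

/-- **field segment**: (SD) on the nodes `(j0, N]`, absolute bound `A` on the others -/
theorem FS.le {M : ℝ → Md} {φ : ℕ → ℝ} (F : FS M φ) {a' Q V A : ℝ} (hm : 0 < m) (a0 : 0 ≤ a)
    (haa : a ≤ a') (hQ : 0 ≤ Q) (V0 : 0 ≤ V) (hL : ∀ t ∈ Icc (0 : ℝ) 1, (M t).Leg a')
    (hW : ∀ t ∈ Icc (0 : ℝ) 1, (a' - a) * (M t).W m a a' ≤ Q ^ 2) {j0 N : ℕ} (h : j0 ≤ N)
    (hN : N ≤ (M 0).N) (hV : ∀ t ∈ Icc (0 : ℝ) 1, ∀ s ∈ Icc a a', ∑ k ∈ Finset.Ioc j0 N,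
      ((M 0).z k - (M 0).z (k - 1)) * φ k ^ 2 * aM (M t) m s k ≤ V ^ 2)
    (hA : ∑ k ∈ Finset.Ioc 0 j0, ((M 0).z k - (M 0).z (k - 1)) * |φ k| +
      ∑ k ∈ Finset.Ioc N (M 0).N, ((M 0).z k - (M 0).z (k - 1)) * |φ k| ≤ A)
    {t : ℝ} (ht : t ∈ Icc (0 : ℝ) 1) :
    |(M t).V m a' - (M t).V m a - ((M 0).V m a' - (M 0).V m a)| ≤ m * (Q * V + A) := by
  have L0 := hL 0 ⟨le_rfl, zero_le_one⟩
  have z0 : ∀ k, 0 ≤ (M 0).z k - (M 0).z (k - 1) := fun k => sub_nonneg.2 (L0.zm (by omega))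
  have A0 : 0 ≤ A := le_trans (add_nonneg
    (Finset.sum_nonneg fun k _ => mul_nonneg (z0 k) (abs_nonneg _))
    (Finset.sum_nonneg fun k _ => mul_nonneg (z0 k) (abs_nonneg _))) hA
  rcases ht.1.eq_or_lt with rfl | t0
  · rw [sub_self, abs_zero]; positivity
  obtain ⟨u, hu, e⟩ := Md77.V_mvt hm F.N F.z (d' := fun _ _ => 0) (H' := fun _ => φ) t0 a a'
    (fun k _ => by simp only [F.d]; exact continuousOn_const)
    (fun k _ => by
      have : (fun t => (M t).H k) = fun t => (M 0).H k + t * φ k := funext fun t => F.H t k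
      rw [this]; fun_prop)
    (fun u _ k _ => by simp only [F.d]; exact hasDerivAt_const _ _)
    (fun u _ k _ => by
      have : (fun t => (M t).H k) = fun t => (M 0).H k + t * φ k := funext fun t => F.H t k
      rw [this]
      simpa using ((hasDerivAt_id u).mul_const (φ k)).const_add ((M 0).H k))
    (fun _ => F.φ0) fun u hu => Md77.inc_of_leg (hL u ⟨hu.1.le, hu.2.le.trans ht.2⟩)
  have u1 : u ∈ Icc (0 : ℝ) 1 := ⟨hu.1.le, hu.2.le.trans ht.2⟩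
  have Lu := hL u u1
  have dz : ∀ s k, 0 < k → (M u).dz m s k = (M 0).z k - (M 0).z (k - 1) := fun s k hk => by
    rw [dz_free Lu m s hk, dz_up Lu hk, F.z]
  have k1 := sd_lin Lu hm a0 haa hQ (hW u u1) V0 (j0 := j0) (N := N) (by rwa [F.N]) φ
    fun s hs => by
      refine le_trans (le_of_eq (Finset.sum_congr rfl fun k hk => ?_)) (hV u u1 s hs)
      rw [dz s k (by have := (Finset.mem_Ioc.1 hk).1; omega)]
  have k2 : ∀ i j, |∑ k ∈ Finset.Ioc i j, (M u).dz m a k * φ k *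
      ((M u).rb m a' k - (M u).rb m a k)| ≤
      ∑ k ∈ Finset.Ioc i j, ((M 0).z k - (M 0).z (k - 1)) * |φ k| := fun i j => by
    refine (Finset.abs_sum_le_sum_abs _ _).trans (Finset.sum_le_sum fun k hk => ?_)
    rw [dz a k (by have := (Finset.mem_Ioc.1 hk).1; omega), abs_mul, abs_mul, abs_of_nonneg (z0 k)]
    refine mul_le_of_le_one_right (mul_nonneg (z0 k) (abs_nonneg _)) (abs_le.2 ⟨?_, ?_⟩)
    · linarith [rb_nonneg (M := M u) (a := a') hm k, rb_le_one (M := M u) (a := a) hm k]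
    · linarith [rb_nonneg (M := M u) (a := a) hm k, rb_le_one (M := M u) (a := a') hm k]
  have e2 : Md77.DV (M u) m a' (fun _ => 0) φ - Md77.DV (M u) m a (fun _ => 0) φ =
      -(m * ((∑ k ∈ Finset.Ioc 0 (M 0).N, (M u).dz m a k * φ k *
        ((M u).rb m a' k - (M u).rb m a k)) / 2)) := by
    rw [Md77.DV_sub (M u) a a' (fun _ => 0) F.φ0, F.N, Finset.sum_div, Finset.range_eq_Ico,
      ← Finset.Ico_add_one_add_one_eq_Ioc, ← Finset.sum_Ico_add' _ _ _ 1]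
    simp only [zero_div, zero_mul, zero_add]
    congr 2
    exact Finset.sum_congr rfl fun k _ => by ring
  rw [e, e2, ← Finset.sum_Ioc_consecutive _ (Nat.zero_le N) hN,
    ← Finset.sum_Ioc_consecutive _ (Nat.zero_le j0) h, abs_mul, abs_neg, abs_mul,
    abs_of_nonneg (a := (m : ℝ)) (Nat.cast_nonneg m), abs_of_nonneg (a := t - 0) (by linarith)]
  refine (mul_le_of_le_one_left (by positivity) (by linarith [ht.2])).trans
    (mul_le_mul_of_nonneg_left ?_ (Nat.cast_nonneg m))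
  have := abs_le.1 k1
  have := abs_le.1 (k2 0 j0)
  have := abs_le.1 (k2 N (M 0).N)
  exact abs_le.2 ⟨by linarith, by linarith⟩

/-- **field segment as a stage** -/
theorem FS.stage {M : ℝ → Md} {φ : ℕ → ℝ} (F : FS M φ) {n : ℕ} {s γ C δ V A : ℝ} (hn : 0 < n)
    (V0 : 0 ≤ V) (hL : ∀ t ∈ Icc (0 : ℝ) 1, (M t).Leg (s * (n : ℝ) ^ (γ - 1 / 6)))
    (hC : (M 0).d 0 ≤ C) {j0 N : ℕ} (h : j0 ≤ N) (hN : N ≤ (M 0).N)
    (hV : ∀ t ∈ Icc (0 : ℝ) 1, ∀ m, n ≤ m → m ≤ 2 * n → ∀ a, (n : ℝ) ^ (-(1 : ℝ) / 6) / 2 ≤ a →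
      a ≤ s * (n : ℝ) ^ (γ - 1 / 6) → ∑ k ∈ Finset.Ioc j0 N,
        ((M 0).z k - (M 0).z (k - 1)) * φ k ^ 2 * aM (M t) m a k ≤ V ^ 2)
    (hA : ∑ k ∈ Finset.Ioc 0 j0, ((M 0).z k - (M 0).z (k - 1)) * |φ k| +
      ∑ k ∈ Finset.Ioc N (M 0).N, ((M 0).z k - (M 0).z (k - 1)) * |φ k| ≤ A) (A0 : 0 ≤ A)
    (h1 : 2 * n * V ≤ δ * (n : ℝ) ^ ((1 : ℝ) / 6) * s ^ 2)
    (h2 : 2 * n * A ≤ δ * (n : ℝ) ^ ((1 : ℝ) / 6) * s ^ 5) :
    Stage n s γ C δ (M 0) (M '' Icc 0 1) := by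
  refine ⟨⟨0, ⟨le_rfl, zero_le_one⟩, rfl⟩, ?_, ?_⟩
  · rintro _ ⟨t, ht, rfl⟩
    exact ⟨hL t ht, by rwa [F.d]⟩
  rintro a a' Q hW hQ hT m m1 m2 _ ⟨t, ht, rfl⟩
  have m2' : (m : ℝ) ≤ 2 * n := by exact_mod_cast m2
  refine (F.le (hn.trans_le m1) (le_trans (by positivity) hW.lo) hW.le hQ V0
    (fun t ht => Leg_mono (hL t ht) hW.hi) (fun t ht => hT _ ⟨t, ht, rfl⟩ m m1 m2) h hN
    (fun t ht b hb => hV t ht m m1 m2 b (hW.lo.trans hb.1) (hb.2.trans hW.hi)) hA ht).trans ?_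
  have := mul_le_mul_of_nonneg_right m2' (show 0 ≤ Q * V + A by positivity)
  have := mul_le_mul_of_nonneg_left h1 hQ
  linarith

end Crest.Agent.T156.Alt.Cost41

end
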