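import Crest.Agent.T156.CDef_40

/-!
# Row 156: block data for the error terms of `CDef_40` (helper35)

One sequence `al` of block sizes bounds the ladder sums, the weak variances and the triangular
truncation.
-/

set_option autoImplicit false
set_option linter.unusedSectionVars false

noncomputable section

namespace Crest.Agent.T156.Cas.C40

open Real Finset

/-- block data: `lev j` is the block of the node `j` -/
structure BD (D : CD) (B : ℕ) (lev : ℕ → ℕ) (t c e al : ℕ → ℝ) (A : ℕ → ℝ) : Prop where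
  dx0 : ∀ j, 0 ≤ D.dx j
  dv0 : ∀ j ∈ D.up, 0 ≤ D.dv j
  e0 : ∀ j ∈ D.up, 0 ≤ D.e j
  v0 : ∀ y j, 0 ≤ D.v y j
  f00 : ∀ j ∈ D.up, 0 ≤ D.f0 j
  mono : Monotone lev
  lt : ∀ j ∈ D.up, lev j < B
  t0 : ∀ i, 0 < t i
  al0 : ∀ i, 0 ≤ al i
  ee0 : ∀ i, 0 ≤ e i
  mass : ∀ i, ∑ j ∈ D.up with lev j = i, D.dx j ≤ t i
  clk : ∀ i, ∑ j ∈ D.up with lev j = i, D.dv j ≤ c i
  env : ∀ j ∈ D.up, D.dx j ≠ 0 → D.e j ≤ e (lev j)
  dia : ∀ i, t i * ∑ j ∈ D.up with lev j = i, D.dx j * D.v j j ≤ al i ^ 2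
  lad : ∀ j ∈ D.up, D.dx j ≠ 0 → t (lev j) * ∑ y ∈ Ico 1 j, D.dx y * D.v y j ≤ al (lev j) ^ 2
  f0 : ∀ j ∈ D.up, D.f0 j ≤ ∑ i ∈ Ico (lev j) B, al i
  add : D.Add A
  sA : ∀ i, ∑ j ∈ D.up with lev j = i, D.dx j * A j ≤ al i ^ 2

/-- a test measure with a density bounded by `ab` on the blocks -/
structure Den (D : CD) (lev : ℕ → ℕ) (a ab : ℕ → ℝ) : Prop where
  om : ∀ j ∈ D.up, D.om j = D.dx j * a j
  le : ∀ j ∈ D.up, |a j| ≤ ab (lev j)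
  ab0 : ∀ i, 0 ≤ ab i

namespace ErrL

/-- sum over the blocks -/
def Sg (B : ℕ) (f : ℕ → ℝ) : ℝ := ∑ i ∈ range B, f i
/-- tails of `al` -/
def ph (B : ℕ) (al : ℕ → ℝ) (i : ℕ) : ℝ := ∑ k ∈ Ico i B, al k
/-- majorant of `sv f0` -/
def SV (B : ℕ) (c al : ℕ → ℝ) : ℝ := Sg B fun i => c i * ph B al i
/-- majorant of `TFa` -/
def TF (K B : ℕ) (t c e al ab lam : ℕ → ℝ) : ℝ := log (K + 2) * (1 + Sg B c) ^ 2 *
    (Sg B (fun i => (ab i ^ 2 / lam i + lam i) * al i ^ 2) +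
      (√(Sg B fun i => e i ^ 2 * al i ^ 2) + SV B c al) * √(Sg B fun i => ab i ^ 2 * al i ^ 2)) +
  Sg B fun i => ab i * t i * (ph B al i * (ph B al i + SV B c al))

theorem Sg_le {B : ℕ} {f : ℕ → ℝ} {x : ℝ} (h : ∀ i < B, f i ≤ x) : Sg B f ≤ B * x := by
  have := Finset.sum_le_card_nsmul (range B) f x fun i hi => h i (mem_range.1 hi)
  simpa [Sg] using this

theorem Sg_mono {B : ℕ} {f g : ℕ → ℝ} (h : ∀ i < B, f i ≤ g i) : Sg B f ≤ Sg B g :=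
  sum_le_sum fun i hi => h i (mem_range.1 hi)

theorem Sg0 {B : ℕ} {f : ℕ → ℝ} (h : ∀ i < B, 0 ≤ f i) : 0 ≤ Sg B f :=
  sum_nonneg fun i hi => h i (mem_range.1 hi)

theorem ph0 {B : ℕ} {al : ℕ → ℝ} (h : ∀ i, 0 ≤ al i) (i : ℕ) : 0 ≤ ph B al i :=
  sum_nonneg fun k _ => h k

theorem ph_le {B i : ℕ} {al : ℕ → ℝ} {x : ℝ} (hx : 0 ≤ x) (h : ∀ k, i ≤ k → k < B → al k ≤ x) :
    ph B al i ≤ B * x := by
  have := Finset.sum_le_card_nsmul (Ico i B) al x fun k hk =>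
    h k (mem_Ico.1 hk).1 (mem_Ico.1 hk).2
  rw [Nat.card_Ico, nsmul_eq_mul] at this
  refine this.trans (mul_le_mul_of_nonneg_right ?_ hx)
  exact_mod_cast Nat.sub_le B i

end ErrL

open ErrL

namespace BD

variable {D : CD} {B : ℕ} {lev : ℕ → ℕ} {t c e al A : ℕ → ℝ} (h : BD D B lev t c e al A)
include h

theorem fib (f : ℕ → ℝ) :
    ∑ j ∈ D.up, f j = Sg B fun i => ∑ j ∈ D.up with lev j = i, f j :=
  (sum_fiberwise_of_maps_to (fun j hj => mem_range.2 (h.lt j hj)) f).symm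

theorem c0 (i : ℕ) : 0 ≤ c i :=
  (sum_nonneg fun j hj => h.dv0 j (mem_filter.1 hj).1).trans (h.clk i)

theorem SV0 : 0 ≤ SV B c al := Sg0 fun i _ => mul_nonneg (h.c0 i) (ph0 h.al0 i)

/-- weights constant on blocks against a function with known block sums -/
theorem I_wt {w f W S : ℕ → ℝ} (hf : ∀ j ∈ D.up, 0 ≤ f j)
    (hw : ∀ j ∈ D.up, D.dx j ≠ 0 → w j ≤ W (lev j)) (W0 : ∀ i, 0 ≤ W i)
    (hS : ∀ i, ∑ j ∈ D.up with lev j = i, D.dx j * f j ≤ S i) :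
    D.I (fun j => w j * f j) ≤ Sg B fun i => W i * S i := by
  rw [CD.I, h.fib]
  refine Sg_mono fun i _ => le_trans ?_ (mul_le_mul_of_nonneg_left (hS i) (W0 i))
  rw [mul_sum]
  refine sum_le_sum fun j hj => ?_
  obtain ⟨h1, h2⟩ := mem_filter.1 hj
  rcases eq_or_ne (D.dx j) 0 with h0 | h0
  · simp [h0]
  · have := mul_le_mul_of_nonneg_right (hw j h1 h0) (mul_nonneg (h.dx0 j) (hf j h1))
    rw [h2] at this
    linarith

theorem I_blk {g G : ℕ → ℝ} (hg : ∀ j ∈ D.up, D.dx j ≠ 0 → g j ≤ G (lev j)) (G0 : ∀ i, 0 ≤ G i) :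
    D.I g ≤ Sg B fun i => G i * t i := by
  simpa using h.I_wt (w := g) (f := fun _ => 1) (fun _ _ => zero_le_one) hg G0
    (S := t) (by simpa using h.mass)

theorem dia' (i : ℕ) : ∑ j ∈ D.up with lev j = i, D.dx j * D.v j j ≤ al i ^ 2 / t i := by
  rw [le_div_iff₀' (h.t0 i)]; exact h.dia i

theorem lad' {j : ℕ} (hj : j ∈ D.up) (h0 : D.dx j ≠ 0) :
    ∑ y ∈ Ico 1 j, D.dx y * D.v y j ≤ al (lev j) ^ 2 / t (lev j) := by
  rw [le_div_iff₀' (h.t0 _)]; exact h.lad j hj h0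

theorem sqrt_blk (i : ℕ) : ∑ j ∈ D.up with lev j = i, D.dx j * √(D.v j j) ≤ al i := by
  refine (pow_le_pow_iff_left₀ (sum_nonneg fun j _ => mul_nonneg (h.dx0 j) (sqrt_nonneg _))
    (h.al0 i) two_ne_zero).1 ?_
  have k := sum_sq_le_sum_mul_sum_of_sq_le_mul (D.up.filter fun j => lev j = i)
    (r := fun j => D.dx j * √(D.v j j)) (f := D.dx) (g := fun j => D.dx j * D.v j j)
    (fun j _ => h.dx0 j) (fun j _ => mul_nonneg (h.dx0 j) (h.v0 j j))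
    (fun j _ => by rw [mul_pow, sq_sqrt (h.v0 j j)]; exact le_of_eq (by ring))
  exact k.trans ((mul_le_mul_of_nonneg_right (h.mass i) (sum_nonneg fun j _ =>
    mul_nonneg (h.dx0 j) (h.v0 j j))).trans (h.dia i))

/-- `I (w √v)` -/
theorem I_sqrt {w W : ℕ → ℝ} (hw : ∀ j ∈ D.up, D.dx j ≠ 0 → w j ≤ W (lev j)) (W0 : ∀ i, 0 ≤ W i) :
    D.I (fun j => w j * √(D.v j j)) ≤ Sg B fun i => W i * al i :=
  h.I_wt (fun _ _ => sqrt_nonneg _) hw W0 h.sqrt_blk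

theorem I_a : D.I (fun j => √(D.v j j)) ≤ Sg B al := by
  simpa using h.I_sqrt (w := fun _ => 1) (W := fun _ => 1) (fun _ _ _ => le_rfl)
    fun _ => zero_le_one

theorem I_ea : D.I (fun j => D.e j * √(D.v j j)) ≤ Sg B fun i => e i * al i :=
  h.I_sqrt h.env h.ee0

/-- `I (w A)` -/
theorem I_A {w W : ℕ → ℝ} (hw : ∀ j ∈ D.up, D.dx j ≠ 0 → w j ≤ W (lev j)) (W0 : ∀ i, 0 ≤ W i) :
    D.I (fun j => w j * A j) ≤ Sg B fun i => W i * al i ^ 2 :=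
  h.I_wt (fun j _ => h.add.1 j) hw W0 h.sA

theorem sv_le {F Φ : ℕ → ℝ} (F0 : ∀ j ∈ D.up, 0 ≤ F j) (hF : ∀ j ∈ D.up, F j ≤ Φ (lev j))
    (Φ0 : ∀ i, 0 ≤ Φ i) {j : ℕ} (hj : D.J ≤ j) : D.sv F j ≤ Sg B fun i => c i * Φ i := by
  have s : Ioo j D.K ⊆ D.up := Ioo_subset_Ioo_left hj
  refine (sum_le_sum_of_subset_of_nonneg s fun k hk _ =>
    mul_nonneg (h.dv0 k hk) (F0 k hk)).trans ?_
  rw [h.fib]
  refine Sg_mono fun i _ => le_trans ?_ (mul_le_mul_of_nonneg_right (h.clk i) (Φ0 i))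
  rw [sum_mul]
  refine sum_le_sum fun k hk => ?_
  obtain ⟨h1, h2⟩ := mem_filter.1 hk
  exact mul_le_mul_of_nonneg_left (h2 ▸ hF k h1) (h.dv0 k h1)

theorem sv0 {F : ℕ → ℝ} (F0 : ∀ j ∈ D.up, 0 ≤ F j) : 0 ≤ D.sv F D.J :=
  sum_nonneg fun k hk => mul_nonneg (h.dv0 k hk) (F0 k hk)

theorem sv_one : D.sv (fun _ => 1) D.J ≤ Sg B c := by
  simpa using h.sv_le (F := fun _ => 1) (Φ := fun _ => 1) (fun _ _ => zero_le_one)
    (fun _ _ => le_rfl) (fun _ => zero_le_one) le_rfl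

theorem sv_f0 {j : ℕ} (hj : D.J ≤ j) : D.sv D.f0 j ≤ SV B c al :=
  h.sv_le h.f00 h.f0 (ph0 h.al0) hj

theorem f0_le {j : ℕ} (hj : j ∈ D.up) : D.f0 j ≤ Sg B al :=
  (h.f0 j hj).trans (sum_le_sum_of_subset_of_nonneg
    (fun _ hi => mem_range.2 (mem_Ico.1 hi).2) fun i _ _ => h.al0 i)

/-- **VF** -/
theorem VF_le : D.VF ≤ SV B c al ^ 2 + Sg B fun i => c i * ph B al i ^ 2 :=
  add_le_add (pow_le_pow_left₀ (h.sv0 h.f00) (h.sv_f0 le_rfl) 2)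
    (h.sv_le (F := fun j => D.f0 j ^ 2) (Φ := fun i => ph B al i ^ 2) (fun _ _ => sq_nonneg _)
      (fun j hj => pow_le_pow_left₀ (h.f00 j hj) (h.f0 j hj) 2) (fun _ => sq_nonneg _) le_rfl)

theorem lad0 (j : ℕ) : 0 ≤ ∑ y ∈ Ico 1 j, D.dx y * D.v y j :=
  sum_nonneg fun y _ => mul_nonneg (h.dx0 y) (h.v0 y j)

/-- `I (w ∑_{y < j} dx v)` -/
theorem I_lad {w W : ℕ → ℝ} (hw : ∀ j ∈ D.up, D.dx j ≠ 0 → w j ≤ W (lev j)) (W0 : ∀ i, 0 ≤ W i) :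
    D.I (fun j => w j * ∑ y ∈ Ico 1 j, D.dx y * D.v y j) ≤ Sg B fun i => W i * al i ^ 2 := by
  refine (h.I_blk (G := fun i => W i * (al i ^ 2 / t i)) (fun j hj h0 => ?_) fun i =>
    mul_nonneg (W0 i) (div_nonneg (sq_nonneg _) (h.t0 i).le)).trans (Sg_mono fun i _ => ?_)
  · exact mul_le_mul (hw j hj h0) (h.lad' hj h0) (h.lad0 j) (W0 _)
  · have := (h.t0 i).ne'
    exact le_of_eq (by field_simp)

/-- `I (w v)` -/
theorem I_dia {w W : ℕ → ℝ} (hw : ∀ j ∈ D.up, D.dx j ≠ 0 → w j ≤ W (lev j)) (W0 : ∀ i, 0 ≤ W i) :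
    D.I (fun j => w j * D.v j j) ≤ Sg B fun i => W i * (al i ^ 2 / t i) :=
  h.I_wt (fun j _ => h.v0 j j) hw W0 h.dia'

/-- **Lad0** -/
theorem Lad0_le : D.Lad0 ≤ D.X ^ 2 * D.Lv1 + Sg B (fun i => e i ^ 2 * (al i ^ 2 / t i)) +
    Sg B fun i => e i * al i ^ 2 :=
  add_le_add (add_le_add le_rfl (h.I_dia (fun j hj h0 =>
    pow_le_pow_left₀ (h.e0 j hj) (h.env j hj h0) 2) fun _ => sq_nonneg _)) (h.I_lad h.env h.ee0)

variable {a ab : ℕ → ℝ} (d : Den D lev a ab)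
include d

theorem Iw_eq (f : ℕ → ℝ) : D.Iw f = D.I fun j => |a j| * f j :=
  sum_congr rfl fun j hj => by rw [d.om j hj, abs_mul, abs_of_nonneg (h.dx0 j), mul_assoc]

theorem Iw_blk {g G : ℕ → ℝ} (hg : ∀ j ∈ D.up, D.dx j ≠ 0 → g j ≤ G (lev j)) (G0 : ∀ i, 0 ≤ G i) :
    D.Iw g ≤ Sg B fun i => ab i * t i * G i := by
  rw [h.Iw_eq d]
  refine (h.I_blk (G := fun i => ab i * G i) (fun j hj h0 => ?_) fun i =>
    mul_nonneg (d.ab0 i) (G0 i)).trans (Sg_mono fun i _ => le_of_eq (by ring))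
  exact (mul_le_mul_of_nonneg_left (hg j hj h0) (abs_nonneg _)).trans
    (mul_le_mul_of_nonneg_right (d.le j hj) (G0 _))

theorem Iw_one : D.Iw (fun _ => 1) ≤ Sg B fun i => ab i * t i := by
  simpa using h.Iw_blk d (g := fun _ => 1) (G := fun _ => 1) (fun _ _ _ => le_rfl)
    fun _ => zero_le_one

/-- a function with known block sums against the test measure -/
theorem Iw_wt {f S : ℕ → ℝ} (hf : ∀ j ∈ D.up, 0 ≤ f j)
    (hS : ∀ i, ∑ j ∈ D.up with lev j = i, D.dx j * f j ≤ S i) :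
    D.Iw f ≤ Sg B fun i => ab i * S i := by
  rw [h.Iw_eq d]
  exact h.I_wt hf (fun j hj _ => d.le j hj) d.ab0 hS

theorem Iw_a : D.Iw (fun j => √(D.v j j)) ≤ Sg B fun i => ab i * al i :=
  h.Iw_wt d (fun _ _ => sqrt_nonneg _) h.sqrt_blk

/-- **Lad1** -/
theorem Lad1_le : D.Lad1 ≤ Sg B (fun i => ab i * e i * (al i ^ 2 / t i)) +
    Sg B fun i => ab i * al i ^ 2 := by
  have e1 : D.Lad1 = D.I (fun j => |a j| * D.e j * D.v j j) +
      D.I fun j => |a j| * ∑ y ∈ Ico 1 j, D.dx y * D.v y j := by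
    rw [CD.Lad1, h.Iw_eq d, CD.I, CD.I, CD.I, ← sum_add_distrib]
    exact sum_congr rfl fun j _ => by ring
  rw [e1]
  exact add_le_add (h.I_dia (W := fun i => ab i * e i) (fun j hj h0 =>
    mul_le_mul (d.le j hj) (h.env j hj h0) (h.e0 j hj) (d.ab0 _))
    fun i => mul_nonneg (d.ab0 i) (h.ee0 i)) (h.I_lad (fun j hj _ => d.le j hj) d.ab0)

theorem a_sq {j : ℕ} (hj : j ∈ D.up) : a j ^ 2 ≤ ab (lev j) ^ 2 := by
  rw [← sq_abs]; exact pow_le_pow_left₀ (abs_nonneg _) (d.le j hj) 2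

/-- **TFa** -/
theorem TFa_le {lam : ℕ → ℝ} (l0 : ∀ i, 0 < lam i) :
    D.TFa a (fun j => lam (lev j)) A ≤ TF D.K B t c e al ab lam := by
  have s0 := h.SV0
  have k1 : D.I (fun j => a j ^ 2 * A j / lam (lev j) + lam (lev j) * A j) ≤
      Sg B fun i => (ab i ^ 2 / lam i + lam i) * al i ^ 2 := by
    refine le_trans (le_of_eq (sum_congr rfl fun j _ => by ring)) (h.I_A
      (w := fun j => a j ^ 2 / lam (lev j) + lam (lev j)) (fun j hj _ => ?_) fun i => ?_)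
    · exact add_le_add (div_le_div_of_nonneg_right (h.a_sq d hj) (l0 _).le) le_rfl
    · exact add_nonneg (div_nonneg (sq_nonneg _) (l0 i).le) (l0 i).le
  have k2 : D.I (fun j => D.e j ^ 2 * A j) ≤ Sg B fun i => e i ^ 2 * al i ^ 2 :=
    h.I_A (fun j hj h0 => pow_le_pow_left₀ (h.e0 j hj) (h.env j hj h0) 2) fun _ => sq_nonneg _
  have k3 : D.I (fun j => a j ^ 2 * A j) ≤ Sg B fun i => ab i ^ 2 * al i ^ 2 :=
    h.I_A (fun j hj _ => h.a_sq d hj) fun _ => sq_nonneg _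
  have k4 := h.sv_f0 (j := D.J) le_rfl
  have k5 := h.sv0 h.f00
  have k6 : D.Iw (fun j => D.f0 j * (D.f0 j + D.sv D.f0 D.J)) ≤
      Sg B fun i => ab i * t i * (ph B al i * (ph B al i + SV B c al)) :=
    h.Iw_blk d (G := fun i => ph B al i * (ph B al i + SV B c al)) (fun j hj _ =>
      mul_le_mul (h.f0 j hj) (add_le_add (h.f0 j hj) k4) (add_nonneg (h.f00 j hj) k5)
        (ph0 h.al0 _)) fun i => mul_nonneg (ph0 h.al0 i) (add_nonneg (ph0 h.al0 i) s0)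
  have k7 := h.sv_one
  have k8 : 0 ≤ D.sv (fun _ => 1) D.J := h.sv0 fun _ _ => zero_le_one
  have k9 : 0 ≤ log ((D.K : ℝ) + 2) := log_nonneg (by have := Nat.cast_nonneg (α := ℝ) D.K; linarith)
  have k10 : 0 ≤ D.I (fun j => a j ^ 2 * A j / lam (lev j) + lam (lev j) * A j) :=
    sum_nonneg fun j _ => mul_nonneg (h.dx0 j) (add_nonneg (div_nonneg
      (mul_nonneg (sq_nonneg _) (h.add.1 j)) (l0 _).le) (mul_nonneg (l0 _).le (h.add.1 j)))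
  unfold CD.TFa TF
  gcongr

/-- the clause `nl` of `CD.Ok` -/
theorem nl {lam : ℕ → ℝ} (l0 : ∀ i, 0 < lam i) (lm : Monotone lam)
    (hZ : TF D.K B t c e al ab lam ≤ D.Z) : D.NLa ≤ D.Z ∨ ∃ a l A : ℕ → ℝ,
      (∀ j ∈ D.up, D.om j = D.dx j * a j) ∧ (∀ j, 0 < l j) ∧ (∀ j, l j ≤ l (j + 1)) ∧ D.Add A ∧
        D.TFa a l A ≤ D.Z :=
  Or.inr ⟨a, fun j => lam (lev j), A, d.om, fun _ => l0 _,
    fun j => lm (h.mono (Nat.le_succ j)), h.add, (h.TFa_le d l0).trans hZ⟩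

end BD

end Crest.Agent.T156.Cas.C40

end
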