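import Crest.Agent.T156.CLfC_24
import Crest.Agent.T156.LP_62

/-!
# Row 156, block C: the top block on the class (helper24)

A majorant of the label weights on the last window and on the plateau.
-/

set_option autoImplicit false
set_option linter.unusedSectionVars false

noncomputable section

namespace Crest.Agent.T156.Alt.Lb24

open MeasureTheory Real Finset Filter
open Crest.Agent.T157.E Crest.Agent.T157.Casc Crest.Agent.T157.SL
open Crest.Agent.T156.Cas Crest.Agent.T156.Cas.Sy41 Crest.Agent.T156.Cas.Q33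
open Crest.Agent.T156.Cas.Lp12 Crest.Agent.T156.Cas.C40
open Crest.Agent.T156.Alt.Md67 Crest.Agent.T156.Alt.Cost41 Crest.Agent.T156.Alt.CIn12
open Crest.Agent.T156.Alt.C33

variable {S : Sc} {M : Md} {m : ℕ} {a : ℝ}

theorem RW_mul (ρ g : ℕ → ℝ) (c : ℝ) (j N : ℕ) : RW ρ (fun k => c * g k) j N = c * RW ρ g j N := by
  rw [RW, RW, mul_add, mul_sum]
  congr 1
  · ring
  · exact sum_congr rfl fun _ _ => by ring

/-- the start of the last window -/
structure Nd (S : Sc) (M : Md) (j0 : ℕ) : Prop where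
  lo : S.jl < j0
  hi : j0 + 2 < S.J
  s : M.s S.J / 2 ≤ M.s j0
  cnt : 1 / (12 * S.C ^ 5) ≤ ((S.J : ℝ) - 2 - j0) * S.v

namespace Kc

variable {lam l Λ : ℝ} {D : ℕ} (K : Kc lam l Λ D S M m a)
include K

theorem sJ : 1 ≤ 3 * S.C ^ 4 * M.s S.J := by
  have F := K.fn
  have := F.C0
  nlinarith [F.J_lo, mul_le_mul_of_nonneg_left (F.s_mem le_rfl).1 (show 0 ≤ 3 * S.C ^ 3 by positivity)]

theorem w3_ge : 1 / (S.n : ℝ) ≤ S.w3 1 := by
  have F := K.fn
  have := F.n1
  have := F.ms_pos zero_le_one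
  rw [Sc.w3, mul_one]
  exact div_le_div₀ F.F0.le F.F1 (by positivity) (mul_le_of_le_one_right (by positivity)
    (F.ms_le_one 1))

theorem pw_le {c : ℝ} {i : ℕ} (hc : c ≤ 1000) (hi : i ≤ 9) : c * S.C ^ i ≤ S.n := by
  have := K.l0
  have := K.fn.C0
  calc _ ≤ lam * lam ^ i := by gcongr; exacts [by linarith, K.Cl]
    _ = lam ^ (i + 1) := by ring
    _ ≤ lam ^ 10 := pow_le_pow_right₀ (by linarith) (by omega)
    _ ≤ _ := K.ln

theorem nod (h : 2 * M.s S.jl ≤ M.s S.J) : ∃ j0, Nd S M j0 := by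
  have F := K.fn
  have C0 := F.C0
  have v0 := F.v0
  have sJ := K.sJ
  have s0 : 0 < M.s S.J := (mul_pos_iff_of_pos_left (by positivity)).1 (one_pos.trans_le sJ)
  obtain ⟨k, hk, h1, h2, -⟩ := F.toCl.exists_node (t := M.s S.J / 2) (by linarith) (by linarith)
  have e := tel_le (f := M.s) (c := S.C * S.v) hk.le fun i _ b => (F.ss i b).2
  have v1 : 36 * S.C ^ 5 * S.v ≤ 1 := (mul_le_mul_of_nonneg_right (K.pw_le (by norm_num)
    (by norm_num)) v0.le).trans (by linarith [K.vn, K.lg.z1 0])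
  have cnt : 1 / (12 * S.C ^ 5) ≤ ((S.J : ℝ) - 2 - (k + 1 : ℕ)) * S.v := by
    rw [div_le_iff₀' (by positivity)]
    push_cast
    nlinarith [mul_le_mul_of_nonneg_left e (show 0 ≤ 12 * S.C ^ 4 by positivity),
      mul_le_mul_of_nonneg_left h1 (show 0 ≤ 12 * S.C ^ 4 by positivity)]
  refine ⟨k + 1, not_le.1 fun c => by linarith [F.sm c], ?_, h2.le, cnt⟩
  have := (mul_pos_iff_of_pos_right v0).1
    ((show 0 < 1 / (12 * S.C ^ 5) by positivity).trans_le cnt)
  exact_mod_cast (show ((k + 1 : ℕ) : ℝ) + 2 < S.J by linarith)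

section gen
variable {j0 : ℕ} (H : Nd S M j0)
include H

theorem mu_le : 1 / (12 * S.C ^ 6) ≤ M.z (S.J - 2) - M.z j0 := by
  have F := K.fn
  have C0 := F.C0
  have hi := H.hi
  have lo := H.lo
  have i1 := F.i1
  refine le_trans ?_ (tel_ge (f := M.z) (c := S.v / S.C) (by omega)
    fun i a b => (F.zs i (by omega) (by omega)).1)
  rw [Nat.cast_sub (by omega), ← mul_div_assoc, le_div_iff₀ C0]
  exact le_trans (le_of_eq (by field_simp)) H.cnt

/-- **the top block from a majorant in counting form** -/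
theorem top_gen {g : ℕ → ℝ} {cm R : ℝ} (g0 : ∀ j, j0 ≤ j → j ≤ S.Jp - 2 + 1 → 0 ≤ g j)
    (h1 : ∀ j k, j0 ≤ j → j < k → k ≤ S.Jp - 2 → M.z k - M.z j ≤ g j * (((k : ℝ) - j) * S.v))
    (h2 : ∀ k, j0 < k → k ≤ S.Jp - 2 → M.dz m a k ≤ g (k + 1) * S.v) (cm0 : 0 ≤ cm)
    (h3 : ∀ k, j0 < k → k ≤ S.Jp - 2 → M.dz m a k ≤ cm)
    (hR : RW (M.rb m a) g j0 (S.Jp - 2 + 1) ≤ R) :
    Top M m a (S.J - 1) (S.Jp - 2) (lam ^ 32 * (S.w3 1 * (1 + R) + cm)) (1 - M.z (S.Jp - 2)) := by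
  have F := K.fn
  have G := K.lg
  have C0 := F.C0
  have C1 := F.C1
  have F0 := F.F0
  have v0 := F.v0
  have n1 := F.n1
  have nm := F.nm
  have Cl := K.Cl
  have l0 := K.l0
  have i1 := F.i1
  have i3 := F.i3
  have i4 := F.i4
  have hi := H.hi
  have lo := H.lo
  have θ0 := F.ms_pos zero_le_one
  have w0 := F.w3_pos one_pos
  have s1 : 1 ≤ 6 * S.C ^ 4 * M.s j0 := by
    nlinarith [K.sJ, mul_le_mul_of_nonneg_left H.s (show 0 ≤ 6 * S.C ^ 4 by positivity)]
  have hx : 1 / (12 * S.C ^ 5) ≤ M.z j0 := by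
    rw [div_le_iff₀' (by positivity)]
    nlinarith [mul_le_mul_of_nonneg_left (F.s_le_z (k := j0) (by omega) (by omega))
      (show 0 ≤ 6 * S.C ^ 4 by positivity)]
  obtain ⟨c, hc⟩ : ∃ c, c = 1728 * S.C ^ 14 * S.F / S.ms 1 := ⟨_, rfl⟩
  have c0 : 0 < c := by rw [hc]; positivity
  have fl : ∀ i, j0 ≤ i → i < S.Jp → S.v / c ≤ M.z i * (M.H (i + 1) - M.H i) := fun i a b => by
    have e := (F.msm (s1.trans (mul_le_mul_of_nonneg_left (F.sm a) (by positivity)))).trans
      (F.toCl.ms_mul (F.s_nonneg i) (by linarith [one_le_pow₀ (n := 4) C1]))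
    have := F.ms_pos (F.s_nonneg i)
    refine le_trans ?_ (mul_le_mul (hx.trans (G.zm a)) (F.flr i (by omega) b) (by positivity)
      (G.z_nonneg i))
    calc _ = S.ms 1 * S.v / (1728 * S.C ^ 14 * S.F) := by rw [hc]; field_simp
      _ ≤ 4 * (6 * S.C ^ 4) ^ 2 * S.ms (M.s i) * S.v / (1728 * S.C ^ 14 * S.F) := by gcongr
      _ = _ := by field_simp; ring
  have J : Mj M m a (M.dz m a) (fun k => c * g k) (S.v ^ 2 / (S.n * S.F)) cm (1 / (12 * S.C ^ 5))
      (c * R) j0 (S.Jp - 2) D := by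
    refine ⟨by positivity, by omega, by omega, fun i a b => K.floor (by omega) (by omega),
      K.Phi_D (by omega) (by omega), fun k _ _ => G.dz_nonneg k, cm0, h3,
      fun j a b => mul_nonneg c0.le (g0 j a b), fun j k a b d => ?_, fun k a b => ?_,
      by positivity, hx, ?_⟩
    · rw [sum_dz G.toLeg b.le]
      refine (h1 j k a b d).trans (le_trans (le_of_eq ?_) (mul_le_mul_of_nonneg_left
        (Phi_ge b.le fun i a' b' => fl i (a.trans a') (by omega))
        (mul_nonneg c0.le (g0 j a (by omega)))))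
      field_simp
    · refine (h2 k a b).trans (le_trans (le_of_eq ?_) (mul_le_mul_of_nonneg_left
        (fl k a.le (by omega)) (mul_nonneg c0.le (g0 _ (by omega) (by omega)))))
      field_simp
    · rw [RW_mul]; exact mul_le_mul_of_nonneg_left hR c0.le
  have R0 : 0 ≤ R := nonneg_of_mul_nonneg_right (J.R0 G) c0 |> fun h => h
  have cw : c / S.n = 1728 * S.C ^ 14 * S.w3 1 := by rw [hc, Sc.w3]; field_simp
  refine (J.top G (b := S.J - 1) (μ := 1 / (12 * S.C ^ 6)) (s := 1 / (12 * S.C ^ 5) / c)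
    (by omega) (by omega) (by positivity) (K.mu_le H) (by positivity) ?_).mono ?_ le_rfl
  · refine le_trans ?_ (Phi_ge (by omega) fun i a b => fl i (by omega) (by omega))
    rw [Nat.cast_sub (by omega), ← mul_div_assoc]
    push_cast
    exact div_le_div_of_nonneg_right (H.cnt.trans_eq (by ring)) c0.le
  have D2 := K.Dl
  have b1 : bb D m (c * R) cm (1 / (12 * S.C ^ 5)) ≤ lam ^ 20 * (S.w3 1 * R + cm) := by
    have e1 : 3456 * S.C ^ 14 ≤ lam ^ 16 := by
      rw [show lam ^ 16 = lam ^ 2 * lam ^ 14 by ring]; gcongr; nlinarith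
    have e2 : 12 * S.C ^ 5 ≤ lam ^ 18 := by
      rw [show lam ^ 18 = lam ^ 13 * lam ^ 5 by ring]; gcongr
      exact le_trans (by linarith) (le_self_pow₀ (by linarith) (by norm_num))
    calc _ ≤ lam ^ 2 * (2 / S.n * (lam ^ 2 * (c * R)) + cm / (1 / (12 * S.C ^ 5))) := by
          unfold bb; gcongr; linarith
      _ = lam ^ 2 * (lam ^ 2 * (2 * (c / S.n) * R) + 12 * S.C ^ 5 * cm) := by field_simp
      _ = lam ^ 2 * (lam ^ 2 * (3456 * S.C ^ 14 * (S.w3 1 * R)) + 12 * S.C ^ 5 * cm) := by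
          rw [cw]; ring
      _ ≤ lam ^ 2 * (lam ^ 2 * (lam ^ 16 * (S.w3 1 * R)) + lam ^ 18 * cm) := by gcongr
      _ = _ := by ring
  have e3 : 248832 * S.C ^ 24 ≤ lam ^ 32 := by
    rw [show lam ^ 32 = lam ^ 8 * lam ^ 24 by ring]; gcongr
    exact le_trans (by nlinarith) (pow_le_pow_right₀ (by linarith) (by norm_num : 2 ≤ 8))
  have e4 : (2 + 12 * S.C ^ 6) * (12 * S.C ^ 5) ≤ lam ^ 12 := by
    calc _ ≤ (2 * S.C ^ 6 + 12 * S.C ^ 6) * (12 * S.C ^ 5) := by
          gcongr; linarith [one_le_pow₀ (n := 6) C1]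
      _ = 168 * S.C ^ 11 := by ring
      _ ≤ lam * lam ^ 11 := by gcongr; linarith
      _ = _ := by ring
  calc _ ≤ 1 / (1 / (12 * S.C ^ 5) * (1 / (12 * S.C ^ 5) / c * S.n)) + (2 + 1 / (1 / (12 * S.C ^ 6))) *
        (lam ^ 20 * (S.w3 1 * R + cm) / (1 / (12 * S.C ^ 5))) := by gcongr
    _ = 144 * S.C ^ 10 * (c / S.n) + (2 + 12 * S.C ^ 6) * (12 * S.C ^ 5) *
        (lam ^ 20 * (S.w3 1 * R + cm)) := by field_simp; ring
    _ = 248832 * S.C ^ 24 * S.w3 1 + (2 + 12 * S.C ^ 6) * (12 * S.C ^ 5) *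
        (lam ^ 20 * (S.w3 1 * R + cm)) := by rw [cw]; ring
    _ ≤ lam ^ 32 * S.w3 1 + lam ^ 12 * (lam ^ 20 * (S.w3 1 * R + cm)) := by gcongr
    _ = _ := by ring

end gen

/-- **the top block from a uniform bound `u v` of the label weights** -/
theorem topU (h : 2 * M.s S.jl ≤ M.s S.J) {u : ℝ} (hu : S.C ≤ u)
    (hz : ∀ k, S.J ≤ k → k + 2 ≤ S.Jp → M.z k - M.z (k - 1) ≤ u * S.v) :
    Top M m a (S.J - 1) (S.Jp - 2) (lam ^ 33 * (S.w3 1 * u)) (1 - M.z (S.Jp - 2)) := by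
  obtain ⟨j0, H⟩ := K.nod h
  have F := K.fn
  have G := K.lg
  have C1 := F.C1
  have v0 := F.v0
  have n1 := F.n1
  have l0 := K.l0
  have i1 := F.i1
  have i3 := F.i3
  have hi := H.hi
  have lo := H.lo
  have w0 := F.w3_pos one_pos
  have st : ∀ k, j0 ≤ k → k + 1 ≤ S.Jp - 2 → M.z (k + 1) - M.z k ≤ u * S.v := fun k a b =>
    (lt_or_ge (k + 1) S.J).elim (fun c => (F.zs k (by omega) c).2.trans (by gcongr))
      fun c => hz (k + 1) c (by omega)
  have dz : ∀ k, j0 < k → k ≤ S.Jp - 2 → M.dz m a k ≤ u * S.v := fun k a b => by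
    obtain ⟨k, rfl⟩ : ∃ j, k = j + 1 := ⟨k - 1, by omega⟩
    rw [dz_succ G.toLeg]; exact st k (by omega) b
  have u0 : 0 < u := by linarith
  refine (K.top_gen H (g := fun _ => u) (R := u) (cm := u * S.v) (fun _ _ _ => u0.le)
    (fun j k a b c => ?_) dz (mul_pos u0 v0).le dz ?_).mono ?_ le_rfl
  · exact (tel_le b.le fun i a' b' => st i (a.trans a') (by omega)).trans_eq (by ring)
  · rw [RW, ← sum_mul, tele _ (by omega), ← add_mul, add_sub_cancel]
    exact mul_le_of_le_one_left (by linarith) (rb_le_one G.m0 _)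
  · have e : S.v ≤ S.w3 1 := le_trans (by
      rw [le_div_iff₀ (by positivity)]; linarith [K.vn, G.z1 0]) K.w3_ge
    rw [show lam ^ 33 * (S.w3 1 * u) = lam ^ 32 * (lam * (S.w3 1 * u)) by ring]
    refine mul_le_mul_of_nonneg_left ?_ (by positivity)
    nlinarith [mul_le_mul_of_nonneg_left e (show 0 ≤ u by linarith),
      mul_le_mul_of_nonneg_left (C1.trans hu) w0.le,
      mul_le_mul_of_nonneg_right l0 (show 0 ≤ S.w3 1 * u by nlinarith)]

end Kc

/-! ### the static plateau -/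

theorem inv_sub_le {x y : ℝ} (hx : 0 < x) (h : x ≤ y) : -(1 / √y) - -(1 / √x) ≤ (y - x) / (2 * (x * √x)) := by
  have a0 := sqrt_pos.2 hx
  have ab := sqrt_le_sqrt h
  have e1 := sq_sqrt hx.le
  have e2 := sq_sqrt (hx.le.trans h)
  generalize √x = a at *
  generalize √y = b at *
  have b0 : 0 < b := by linarith
  rw [← e1, ← e2, neg_sub_neg, div_sub_div _ _ a0.ne' b0.ne', div_le_div_iff₀ (by positivity)
    (by positivity)]
  nlinarith [mul_nonneg (mul_nonneg (sub_nonneg.2 ab) (sub_nonneg.2 ab))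
    (show 0 ≤ a * (2 * a + b) by positivity)]

theorem sub_le_inv {x y : ℝ} (hx : 0 < x) (h : x ≤ y) (h2 : y ≤ 2) :
    y - x ≤ 4 * √x * (-(1 / √y) - -(1 / √x)) := by
  have a0 := sqrt_pos.2 hx
  have ab := sqrt_le_sqrt h
  have e1 := sq_sqrt hx.le
  have e2 := sq_sqrt (hx.le.trans h)
  generalize √x = a at *
  generalize √y = b at *
  have b0 : 0 < b := by linarith
  rw [← e1, ← e2, show 4 * a * (-(1 / b) - -(1 / a)) = 4 * (b - a) / b by field_simp; ring,
    le_div_iff₀ b0]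
  nlinarith [mul_nonneg (sub_nonneg.2 ab) (show 0 ≤ 4 - (b + a) * b by nlinarith)]

theorem sqrt_sub_sq {x y : ℝ} (hx : 0 < x) (h : x ≤ y) :
    (√y - √x) ^ 2 ≤ (y - x) * (log y - log x) := by
  have y0 := hx.trans_le h
  have l := one_sub_inv_le_log_of_pos (div_pos y0 hx)
  rw [log_div y0.ne' hx.ne', inv_div] at l
  refine le_trans ?_ (mul_le_mul_of_nonneg_left l (by linarith))
  have a0 := sqrt_pos.2 hx
  have ab := sqrt_le_sqrt h
  have e1 := sq_sqrt hx.le
  have e2 := sq_sqrt y0.le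
  generalize √x = a at *
  generalize √y = b at *
  have b0 : 0 < b := by linarith
  rw [← e1, ← e2, show (b ^ 2 - a ^ 2) * (1 - a ^ 2 / b ^ 2) = (b - a) ^ 2 * ((b + a) ^ 2 / b ^ 2) by
    field_simp; ring]
  exact le_mul_of_one_le_right (sq_nonneg _) ((one_le_div (by positivity)).2 (by nlinarith))

theorem inv_sub_sq {x y : ℝ} (hx : 0 < x) (h : x ≤ y) :
    (1 / x - 1 / y) ^ 2 ≤ (y - x) * (1 / x ^ 3 - 1 / y ^ 3) := by
  have y0 := hx.trans_le h
  rw [show (y - x) * (1 / x ^ 3 - 1 / y ^ 3) = (1 / x - 1 / y) ^ 2 * ((y ^ 2 + x * y + x ^ 2) / (x * y)) by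
    field_simp; ring]
  exact le_mul_of_one_le_right (sq_nonneg _) ((one_le_div (by positivity)).2 (by nlinarith))

/-- shape of the static plateau -/
structure Shp (S : Sc) (M : Md) (la : ℝ) : Prop where
  A4 : 4 ≤ S.A
  la0 : 1 / (S.n : ℝ) ≤ la
  u0 : 0 < S.u0
  e : la ^ 2 = S.u0 ^ 3
  uC : 2 * S.C * S.u0 ≤ 1
  ue : S.ue ≤ 1 / (S.n : ℝ) ^ 2
  top : 1 / (S.n : ℝ) ^ 3 ≤ 1 - M.z (S.Jp - 1)
  d1 : ∀ x, M.z (S.J - 1) ≤ x → x < 1 →
    la ≤ 4 * S.den x * ((x - M.z (S.J - 1) + S.u0) * √(x - M.z (S.J - 1) + S.u0))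
  d2 : ∀ x, M.z (S.J - 1) ≤ x → x < 1 → la ≤ 4 * S.den x * √(1 - x)
  flat : M.s S.Jp = M.s S.J
  jl : 2 * M.s S.jl ≤ M.s S.J

/-- distance to the corner from below, from above; the majorant -/
def yP (S : Sc) (M : Md) (k : ℕ) : ℝ := M.z (S.J - 1) - M.z k + S.u0
def AP (S : Sc) (M : Md) (k : ℕ) : ℝ := M.z k - M.z (S.J - 1) + S.u0
def gP (S : Sc) (M : Md) (la : ℝ) (k : ℕ) : ℝ :=
  if k < S.J then 1 / yP S M k else min √(AP S M k) √(1 - M.z k) / la

namespace Kc

variable {lam l Λ la : ℝ} {D : ℕ} (K : Kc lam l Λ D S M m a) (P : Shp S M la)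
include K P

theorem la0 : 0 < la := lt_of_lt_of_le (by have := K.fn.n1; positivity) P.la0

theorem u1 : S.u0 ≤ 1 / 2 := by nlinarith [P.uC, P.u0, K.fn.C1]

theorem la_le : la ≤ S.u0 := by
  have := P.u0
  exact abs_le_of_sq_le_sq' (by rw [P.e]; nlinarith [K.u1 P, sq_nonneg S.u0]) this.le |>.2

theorem la_eq : S.u0 * √S.u0 = la := by
  have := P.u0
  rw [← sq_eq_sq₀ (by positivity) (K.la0 P).le, mul_pow, sq_sqrt this.le, P.e]; ring

theorem u_le : S.u0 ≤ 1 - M.z (S.J - 1) := by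
  have C1 := K.fn.C1
  have : S.u0 ≤ 1 / S.C := by rw [le_div_iff₀' (by linarith)]; nlinarith [P.uC, P.u0]
  linarith [K.fn.atom.2]

theorem v4 : 8 * (S.C * S.v) ≤ 1 / (S.n : ℝ) ^ 3 := by
  have F := K.fn
  have n1 := F.n1
  have e := (mul_le_mul_of_nonneg_left (pow_le_pow_right₀ n1 P.A4) F.v0.le).trans F.v2
  rw [le_div_iff₀ (by positivity)]
  refine le_of_mul_le_mul_right ?_ (show (0 : ℝ) < S.n by positivity)
  nlinarith [K.pw_le (c := 8) (i := 2) (by norm_num) (by norm_num),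
    mul_le_mul_of_nonneg_left e F.C0.le]

theorem U_ge {k : ℕ} (hk : k ≤ S.Jp - 1) : 1 / (S.n : ℝ) ^ 3 ≤ 1 - M.z k := by
  linarith [P.top, K.lg.zm hk]

theorem U0 {k : ℕ} (hk : k ≤ S.Jp - 1) : 0 < 1 - M.z k :=
  lt_of_lt_of_le (by have := K.fn.n1; positivity) (K.U_ge P hk)

theorem U_top : 1 - M.z (S.Jp - 1) ≤ la ^ 2 := by
  have n1 := K.fn.n1
  refine (K.fn.last.trans P.ue).trans (le_trans (le_of_eq (by field_simp))
    (pow_le_pow_left₀ (by positivity) P.la0 2))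

theorem JJ : S.J < S.Jp := lt_of_le_of_ne K.fn.i3 fun e => by
  have a1 := K.U_top P
  rw [← e, P.e] at a1
  nlinarith [K.u_le P, P.u0, K.u1 P, mul_pos P.u0 P.u0]

theorem y_mem {k : ℕ} (hk : k < S.J) : S.u0 ≤ yP S M k ∧ yP S M k ≤ 2 := by
  unfold yP
  constructor <;> linarith [K.lg.zm (show k ≤ S.J - 1 by omega), K.lg.z1 (S.J - 1),
    K.lg.z_nonneg k, K.u1 P]

theorem A_mem {k : ℕ} (hk : S.J - 1 ≤ k) : S.u0 ≤ AP S M k ∧ AP S M k ≤ 2 := by
  unfold AP
  constructor <;> linarith [K.lg.zm hk, K.lg.z1 k, K.lg.z_nonneg (S.J - 1), K.u1 P]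

theorem g_J : gP S M la (S.J - 1) = 1 / S.u0 := by
  rw [gP, if_pos (by have := K.fn.i2; omega), yP, sub_self, zero_add]

theorem g_pl {k : ℕ} (hk : S.J - 1 ≤ k) : gP S M la k = min √(AP S M k) √(1 - M.z k) / la := by
  rcases hk.eq_or_lt with rfl | h
  · have := P.u0
    have := sqrt_pos.2 this
    rw [K.g_J P, AP, sub_self, zero_add, min_eq_left (sqrt_le_sqrt (K.u_le P)), ← K.la_eq P]
    field_simp
  · exact if_neg (by omega)

theorem g_nn (k : ℕ) : 0 ≤ gP S M la k := by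
  have := K.la0 P
  unfold gP
  split_ifs with h
  · exact one_div_nonneg.2 (P.u0.le.trans (K.y_mem P h).1)
  · positivity

theorem st {k : ℕ} (h0 : S.J - 1 ≤ k) (h1 : k < S.Jp - 1) :
    (M.z (k + 1) - M.z k) * la ≤ 4 * (S.C * S.v) * (AP S M k * √(AP S M k)) ∧
    (M.z (k + 1) - M.z k) * la ≤ 4 * (S.C * S.v) * √(1 - M.z k) := by
  have e := (K.fn.plat (k + 1) (by omega) (by omega)).2
  rw [Nat.add_sub_cancel] at e
  have d0 := sub_nonneg.2 (K.lg.zm k.le_succ)
  have U := K.U0 P h1.le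
  have A0 := P.u0.le.trans (K.A_mem P h0).1
  have key : ∀ X, 0 ≤ X → la ≤ 4 * S.den (M.z k) * X →
      (M.z (k + 1) - M.z k) * la ≤ 4 * (S.C * S.v) * X := fun X X0 h => by
    nlinarith [mul_le_mul_of_nonneg_left h d0, mul_le_mul_of_nonneg_right e X0]
  exact ⟨key _ (by positivity) (P.d1 _ (K.lg.zm h0) (by linarith)),
    key _ (by positivity) (P.d2 _ (K.lg.zm h0) (by linarith))⟩

theorem mesh {k : ℕ} (h0 : S.J - 1 ≤ k) (h1 : k < S.Jp - 1) :
    1 - M.z k ≤ 2 * (1 - M.z (k + 1)) := by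
  have n1 := K.fn.n1
  have l0 := K.la0 P
  have U := K.U0 P h1.le
  have e1 : 1 / (S.n : ℝ) ^ 2 ≤ √(1 - M.z k) := le_sqrt_of_sq_le (le_trans (by
    rw [div_pow, one_pow, ← pow_mul]
    exact one_div_le_one_div_of_le (by positivity) (pow_le_pow_right₀ n1 (by norm_num)))
    (K.U_ge P h1.le))
  have e2 : 8 * (S.C * S.v) ≤ la * √(1 - M.z k) := (K.v4 P).trans (le_trans (le_of_eq (by field_simp))
    (mul_le_mul P.la0 e1 (by positivity) l0.le))
  have e3 := mul_le_mul_of_nonneg_right e2 (sqrt_nonneg (1 - M.z k))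
  rw [mul_assoc la, mul_self_sqrt U.le] at e3
  exact le_of_mul_le_mul_right (by nlinarith [(K.st P h0 h1).2]) l0

theorem inc {j k : ℕ} (h0 : S.J - 1 ≤ j) (h : j ≤ k) (h1 : k ≤ S.Jp - 1) :
    M.z k - M.z j ≤ 8 * S.C * gP S M la j * (((k : ℝ) - j) * S.v) := by
  have l0 := K.la0 P
  have c0 := mul_pos K.fn.C0 K.fn.v0
  have kj : (0 : ℝ) ≤ (k : ℝ) - j := sub_nonneg.2 (by exact_mod_cast h)
  have A0 := fun i hi => P.u0.trans_le (K.A_mem P (k := i) hi).1
  have e1 := tel_le (f := fun i => -(1 / √(AP S M i))) (c := 2 * (S.C * S.v) / la) h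
    fun i a b => (inv_sub_le (A0 i (by omega)) (by unfold AP; linarith [K.lg.zm i.le_succ])).trans (by
      have := A0 i (by omega)
      rw [div_le_div_iff₀ (by positivity) l0]
      have := (K.st P (k := i) (by omega) (by omega)).1
      unfold AP at *
      linarith)
  have e2 := tel_le (f := M.z) (c := 4 * (S.C * S.v) * √(1 - M.z j) / la) h fun i a b => by
    rw [le_div_iff₀ l0]
    refine (K.st P (by omega) (by omega)).2.trans ?_
    gcongr
    exact K.lg.zm a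
  have e3 := (sub_le_inv (A0 j h0) (by unfold AP; linarith [K.lg.zm h])
    (K.A_mem P (h0.trans h)).2).trans (mul_le_mul_of_nonneg_left e1 (by positivity))
  rw [K.g_pl P h0]
  rcases min_choice √(AP S M j) √(1 - M.z j) with c | c <;> rw [c]
  · refine le_trans (le_of_eq ?_) (e3.trans_eq (by ring))
    unfold AP; ring
  · refine e2.trans (le_trans ?_ (le_of_eq (show 2 * (((k : ℝ) - j) *
      (4 * (S.C * S.v) * √(1 - M.z j) / la)) = _ by ring)))
    exact le_mul_of_one_le_left (by positivity) one_le_two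

section win
variable {j0 : ℕ} (H : Nd S M j0)
include H

omit P in
theorem sl {j k : ℕ} (h0 : j0 - 1 ≤ j) (h : j ≤ k) (h1 : k < S.J) :
    M.z k - M.z j ≤ ((k : ℝ) - j) * (S.C * S.v) :=
  tel_le h fun i a b => (K.fn.zs i (by have := H.lo; have := K.fn.i1; omega) (by omega)).2

theorem h1 {j k : ℕ} (h0 : j0 ≤ j) (h : j < k) (hk : k ≤ S.Jp - 2) :
    M.z k - M.z j ≤ 16 * S.C * gP S M la (j - 1) * (((k : ℝ) - j) * S.v) := by
  have G := K.lg
  have lo := H.lo
  have C0 := K.fn.C0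
  have v0 := K.fn.v0
  have c0 := mul_pos C0 v0
  have kj : (j : ℝ) + 1 ≤ k := by exact_mod_cast h
  have cj : ((j - 1 : ℕ) : ℝ) = j - 1 := by rw [Nat.cast_sub (by omega), Nat.cast_one]
  have cJ : ((S.J - 1 : ℕ) : ℝ) = S.J - 1 := by
    rw [Nat.cast_sub (by have := H.hi; omega), Nat.cast_one]
  rcases le_or_gt S.J j with c | c
  · have := K.inc P (j := j - 1) (k := k) (by omega) (by omega) (by omega)
    rw [cj] at this
    nlinarith [G.zm (Nat.sub_le j 1), mul_nonneg (mul_nonneg c0.le (K.g_nn P (j - 1)))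
      (show (0 : ℝ) ≤ k - j - 1 by linarith)]
  have y := K.y_mem P (k := j - 1) (by omega)
  have y0 := P.u0.trans_le y.1
  rw [gP, if_pos (by omega), mul_one_div, div_mul_eq_mul_div, le_div_iff₀ y0]
  have z0 := sub_nonneg.2 (G.zm h.le)
  have p : 0 ≤ ((k : ℝ) - j) * (S.C * S.v) := mul_nonneg (by linarith) c0.le
  rcases lt_or_ge k S.J with d | d
  · nlinarith [mul_le_mul (K.sl H (by omega) h.le d) y.2 y0.le p]
  have e1 := K.sl H (j := j - 1) (k := S.J - 1) (by omega) (by omega) (by omega)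
  have e2 := K.inc P (j := S.J - 1) (k := k) le_rfl (by omega) (by omega)
  have u0 := P.u0
  rw [K.g_J P, cJ, mul_one_div, div_mul_eq_mul_div, le_div_iff₀ u0] at e2
  rw [cj, cJ] at e1
  have a1 : (S.J : ℝ) ≤ k := by exact_mod_cast d
  have a2 : (j : ℝ) + 1 ≤ S.J := by exact_mod_cast c
  have e3 := mul_le_mul_of_nonneg_right (show (S.J : ℝ) - 1 - (j - 1) ≤ k - j by linarith) c0.le
  have e4 := mul_le_mul_of_nonneg_right (show (k : ℝ) - (S.J - 1) ≤ k - j by linarith) c0.le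
  have b1 := G.zm (Nat.sub_le j 1)
  have b2 := G.zm (show j ≤ S.J - 1 by omega)
  have e5 : (M.z k - M.z j) * (M.z (S.J - 1) - M.z (j - 1)) ≤ M.z (S.J - 1) - M.z (j - 1) :=
    mul_le_of_le_one_left (by linarith) (by linarith [G.z1 k, G.z_nonneg j])
  have e6 : (M.z (S.J - 1) - M.z j) * S.u0 ≤ M.z (S.J - 1) - M.z j :=
    mul_le_of_le_one_right (by linarith) (by linarith [K.u1 P])
  unfold yP
  nlinarith

theorem h2 {k : ℕ} (h0 : j0 < k) (hk : k ≤ S.Jp - 2) :
    M.dz m a k ≤ 16 * S.C * gP S M la k * S.v ∧ M.dz m a k ≤ S.w3 1 := by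
  have G := K.lg
  have C0 := K.fn.C0
  have v0 := K.fn.v0
  have n1 := K.fn.n1
  have c0 := mul_pos C0 v0
  have l0 := K.la0 P
  have v4 := K.v4 P
  have n3 : 1 / (S.n : ℝ) ^ 3 ≤ 1 / S.n * (1 / S.n) := by
    rw [div_mul_div_comm, one_mul, ← sq]
    exact one_div_le_one_div_of_le (by positivity) (pow_le_pow_right₀ n1 (by norm_num))
  have w := mul_le_mul K.w3_ge P.la0 (by positivity) (K.fn.w3_pos one_pos).le
  obtain ⟨k, rfl⟩ : ∃ j, k = j + 1 := ⟨k - 1, by omega⟩
  rw [dz_succ G.toLeg]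
  rcases lt_or_ge (k + 1) S.J with c | c
  · have e := K.sl H (j := k) (by omega) k.le_succ c
    have y := K.y_mem P c
    have y0 := P.u0.trans_le y.1
    push_cast at e
    rw [gP, if_pos c, mul_one_div, div_mul_eq_mul_div, le_div_iff₀ y0]
    refine ⟨by nlinarith [mul_le_mul e y.2 y0.le (by linarith)], ?_⟩
    nlinarith [mul_le_of_le_one_right (K.fn.w3_pos one_pos).le
      (show la ≤ 1 by linarith [K.la_le P, K.u1 P])]
  obtain ⟨e1, e2⟩ := K.st P (k := k) (by omega) (by omega)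
  have A := K.A_mem P (k := k) (by omega)
  have a1 : √(AP S M k) ≤ √(AP S M (k + 1)) :=
    sqrt_le_sqrt (by unfold AP; linarith [G.zm k.le_succ])
  have a2 : √(1 - M.z k) ≤ 2 * √(1 - M.z (k + 1)) := by
    have := K.U0 P (k := k + 1) (by omega)
    refine sqrt_le_iff.2 ⟨by positivity, ?_⟩
    rw [mul_pow, sq_sqrt this.le]
    linarith [K.mesh P (k := k) (by omega) (by omega)]
  have a3 : √(1 - M.z k) ≤ 1 := sqrt_le_one.2 (by linarith [G.z_nonneg k])
  refine ⟨?_, le_of_mul_le_mul_right ?_ l0⟩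
  · rw [K.g_pl P (by omega), ← mul_div_assoc, div_mul_eq_mul_div, le_div_iff₀ l0]
    rcases min_choice √(AP S M (k + 1)) √(1 - M.z (k + 1)) with d | d <;> rw [d]
    · nlinarith [mul_le_mul_of_nonneg_left (mul_le_mul A.2 a1 (sqrt_nonneg _) two_pos.le) c0.le,
        mul_nonneg c0.le (sqrt_nonneg (AP S M (k + 1)))]
    · nlinarith [mul_le_mul_of_nonneg_left a2 c0.le, mul_nonneg c0.le (sqrt_nonneg (1 - M.z (k + 1)))]
  · nlinarith [mul_le_mul_of_nonneg_left a3 c0.le]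

theorem g_lo {k : ℕ} (hk : k ≤ j0) : gP S M la k ≤ 12 * S.C ^ 6 := by
  have hi := H.hi
  have C0 := K.fn.C0
  have y0 := P.u0.trans_le (K.y_mem P (k := k) (by omega)).1
  rw [gP, if_pos (by omega), div_le_comm₀ y0 (by positivity)]
  unfold yP
  linarith [K.mu_le H, K.lg.zm hk, K.lg.zm (show S.J - 2 ≤ S.J - 1 by omega), P.u0]

omit H in
theorem lg_u : -log S.u0 ≤ lam := by
  have n1 := K.fn.n1
  have := log_le_log (by positivity) (P.la0.trans (K.la_le P))
  rw [one_div, log_inv] at this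
  linarith [K.lgn]

/-- the reference against the majorant -/
theorem q_part : ∑ j ∈ Ioc j0 (S.Jp - 1), (M.q j - M.q (j - 1)) * gP S M la (j - 1) ≤
    S.C ^ 2 * (1 + lam) + 1 := by
  have F := K.fn
  have G := K.lg
  have C0 := F.C0
  have n1 := F.n1
  have l0 := K.la0 P
  have hi := H.hi
  have lo := H.lo
  have i1 := F.i1
  have i4 := F.i4
  have JJ := K.JJ P
  rw [← sum_Ioc_consecutive _ (show j0 ≤ S.J - 1 by omega) (show S.J - 1 ≤ S.Jp - 1 by omega)]
  refine add_le_add ?_ ?_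
  · refine (sum_le_sum (g := fun j => S.C ^ 2 * (-log (yP S M j) - -log (yP S M (j - 1))))
      fun j hj => ?_).trans ?_
    · obtain ⟨a1, a2⟩ := mem_Ioc.1 hj
      obtain ⟨j, rfl⟩ : ∃ i, j = i + 1 := ⟨j - 1, by omega⟩
      simp only [Nat.add_sub_cancel]
      have y0 := P.u0.trans_le (K.y_mem P (k := j) (by omega)).1
      have y1 := P.u0.trans_le (K.y_mem P (k := j + 1) (by omega)).1
      have e1 := (q_lip F.toCl j.le_succ (by omega)).trans (F.ss j (by omega)).2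
      have e2 := (F.zs j (by omega) (by omega)).1
      rw [div_le_iff₀' C0] at e2
      have e3 := one_sub_inv_le_log_of_pos (div_pos y0 y1)
      rw [log_div y0.ne' y1.ne', inv_div, one_sub_div y0.ne'] at e3
      rw [gP, if_pos (by omega), neg_sub_neg, mul_one_div]
      refine le_trans ?_ (mul_le_mul_of_nonneg_left e3 (by positivity))
      rw [← mul_div_assoc]
      refine div_le_div_of_nonneg_right ?_ y0.le
      unfold yP
      nlinarith [mul_le_mul_of_nonneg_left e2 C0.le]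
    · rw [← mul_sum, tele (fun j => -log (yP S M j)) (by omega)]
      refine mul_le_mul_of_nonneg_left ?_ (by positivity)
      have y := K.y_mem P (k := j0) (by omega)
      have := log_le_sub_one_of_pos (P.u0.trans_le y.1)
      rw [yP, sub_self, zero_add]
      linarith [K.lg_u P]
  · refine (sum_le_sum (g := fun j => (M.q j - M.q (j - 1)) * (1 / la)) fun j hj => ?_).trans ?_
    · obtain ⟨a1, a2⟩ := mem_Ioc.1 hj
      refine mul_le_mul_of_nonneg_left ?_ (sub_nonneg.2 (q_mono F.toCl (Nat.sub_le j 1) (by omega)))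
      rw [K.g_pl P (by omega)]
      exact div_le_div_of_nonneg_right ((min_le_right _ _).trans
        (sqrt_le_one.2 (by linarith [G.z_nonneg (j - 1)]))) l0.le
    · rw [← sum_mul, tele _ (by omega), mul_one_div, div_le_one l0]
      have e1 := q_lip F.toCl (show S.J - 1 ≤ S.Jp - 1 by omega) (by omega)
      have e2 := (F.ss (S.J - 1) (by omega)).2
      rw [show S.J - 1 + 1 = S.J by omega] at e2
      have e3 : 1 / (S.n : ℝ) ^ 3 ≤ 1 / S.n :=
        one_div_le_one_div_of_le (by positivity) (le_self_pow₀ n1 (by norm_num))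
      linarith [F.sm (Nat.sub_le S.Jp 1), P.flat, K.v4 P, P.la0, mul_pos C0 F.v0]

/-- the rise of the overlaps against the majorant -/
theorem rw_le {V : ℝ} (V0 : 0 ≤ V)
    (hV : ∑ j ∈ Ioc j0 (S.Jp - 1), M.dz m a j * |M.rb m a j - M.q j| ^ 2 ≤ V ^ 2) :
    RW (M.rb m a) (fun j => gP S M la (j - 1)) j0 (S.Jp - 1) ≤ lam ^ 7 * (1 + V / la) := by
  have F := K.fn
  have G := K.lg
  have C0 := F.C0
  have Cl := K.Cl
  have L0 := K.l0
  have n1 := F.n1
  have l0 := K.la0 P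
  have u0 := P.u0
  have hi := H.hi
  have JJ := K.JJ P
  have ab : ∀ k, |M.rb m a k - M.q k| ≤ 1 := fun k => abs_le.2 ⟨by
    linarith [rb_nonneg (M := M) (a := a) G.m0 k, q_le_one (M := M) k], by
    linarith [rb_le_one (M := M) (a := a) G.m0 k, q_nonneg (M := M) k]⟩
  set L := fun j => log (AP S M j) - log (1 - M.z j) with hL
  set ω := fun j => if j < S.J then 1 / yP S M j ^ 3 - 1 / yP S M (j - 1) ^ 3 else
    (L j - L (j - 1)) / la ^ 2 with hω
  have key : ∀ j, j0 < j → j ≤ S.Jp - 1 → 0 ≤ ω j ∧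
      (gP S M la j - gP S M la (j - 1)) ^ 2 ≤ M.dz m a j * ω j := fun j a1 a2 => by
    obtain ⟨j, rfl⟩ : ∃ i, j = i + 1 := ⟨j - 1, by omega⟩
    have zz := G.zm j.le_succ
    simp only [hω, Nat.add_sub_cancel, dz_succ G.toLeg]
    split_ifs with c
    · have y1 := u0.trans_le (K.y_mem P c).1
      have yy : yP S M (j + 1) ≤ yP S M j := by unfold yP; linarith
      refine ⟨sub_nonneg.2 (by gcongr), ?_⟩
      rw [gP, gP, if_pos c, if_pos (by omega)]
      exact (inv_sub_sq y1 yy).trans_eq (by unfold yP; ring)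
    · have A0 := u0.trans_le (K.A_mem P (k := j) (by omega)).1
      have AA : AP S M j ≤ AP S M (j + 1) := by unfold AP; linarith
      have U0 := K.U0 P a2
      have UU : 1 - M.z (j + 1) ≤ 1 - M.z j := by linarith
      have b1 := sqrt_sub_sq A0 AA
      have b2 := sqrt_sub_sq U0 UU
      have b3 := log_le_log A0 AA
      have b4 := log_le_log U0 UU
      have b5 := sqrt_le_sqrt AA
      have b6 := sqrt_le_sqrt UU
      refine ⟨div_nonneg (by simp only [hL]; linarith) (sq_nonneg _), ?_⟩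
      rw [K.g_pl P (by omega), K.g_pl P (by omega), ← sub_div, div_pow, ← mul_div_assoc]
      refine div_le_div_of_nonneg_right ?_ (sq_nonneg _)
      rw [show AP S M (j + 1) - AP S M j = M.z (j + 1) - M.z j by unfold AP; ring] at b1
      rw [show 1 - M.z j - (1 - M.z (j + 1)) = M.z (j + 1) - M.z j by ring] at b2
      have b7 : (min √(AP S M (j + 1)) √(1 - M.z (j + 1)) - min √(AP S M j) √(1 - M.z j)) ^ 2 ≤
          (√(AP S M (j + 1)) - √(AP S M j)) ^ 2 + (√(1 - M.z j) - √(1 - M.z (j + 1))) ^ 2 := by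
        have := abs_min_sub_min_le_max √(AP S M (j + 1)) √(1 - M.z (j + 1)) √(AP S M j) √(1 - M.z j)
        rw [← sq_abs]
        refine (pow_le_pow_left₀ (abs_nonneg _) this 2).trans ?_
        rcases max_choice |√(AP S M (j + 1)) - √(AP S M j)| |√(1 - M.z (j + 1)) - √(1 - M.z j)|
          with d | d <;> rw [d, sq_abs] <;> nlinarith [sq_nonneg (√(AP S M (j + 1)) - √(AP S M j)),
            sq_nonneg (√(1 - M.z j) - √(1 - M.z (j + 1)))]
      simp only [hL]
      linarith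
  have en : ∑ j ∈ Ioc j0 (S.Jp - 1), ω j ≤ (lam / la) ^ 2 := by
    rw [← sum_Ioc_consecutive _ (show j0 ≤ S.J - 1 by omega) (show S.J - 1 ≤ S.Jp - 1 by omega),
      sum_congr rfl fun j hj => if_pos (by have := (mem_Ioc.1 hj).2; omega),
      sum_congr (s₁ := Ioc (S.J - 1) (S.Jp - 1)) rfl fun j hj =>
        if_neg (by have := (mem_Ioc.1 hj).1; omega),
      tele (fun j => 1 / yP S M j ^ 3) (by omega), ← sum_div, tele L (by omega), yP, sub_self,
      zero_add, ← P.e, div_pow]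
    have y0 := u0.trans_le (K.y_mem P (k := j0) (by omega)).1
    have A := K.A_mem P (k := S.Jp - 1) (by omega)
    have b1 := log_le_sub_one_of_pos (u0.trans_le A.1)
    have b2 := log_le_log (by positivity) P.top
    rw [one_div, log_inv, log_pow] at b2
    have b3 : log (1 - M.z (S.J - 1)) ≤ 0 :=
      log_nonpos (K.U0 P (by omega)).le (by linarith [G.z_nonneg (S.J - 1)])
    have b4 : L (S.Jp - 1) - L (S.J - 1) + 1 ≤ lam ^ 2 := by
      simp only [hL]
      rw [show AP S M (S.J - 1) = S.u0 by rw [AP, sub_self, zero_add]]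
      push_cast at b2
      nlinarith [K.lg_u P, K.lgn]
    have b5 := div_le_div_of_nonneg_right b4 (sq_nonneg la)
    rw [add_div] at b5
    linarith [show 0 ≤ 1 / yP S M j0 ^ 3 by positivity]
  have e := ab_top (W := fun j => gP S M la (j - 1)) (show j0 ≤ S.Jp - 1 by omega) (ab _) (ab _)
    (K.g_nn P _) (K.g_nn P _) V0 (by positivity) (fun j _ _ => G.dz_nonneg j)
    (fun j a b => (key j a b).1) hV (fun j a b => (key j a b).2) en
  simp only [Nat.add_sub_cancel] at e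
  have e1 := mul_le_mul (rb_le_one (M := M) (a := a) G.m0 j0) (K.g_lo P H (Nat.sub_le j0 1))
    (K.g_nn P _) zero_le_one
  have e2 : gP S M la (S.Jp - 1) ≤ 1 := by
    rw [K.g_pl P (by omega), div_le_one l0]
    exact (min_le_right _ _).trans (sqrt_le_iff.2 ⟨l0.le, K.U_top P⟩)
  have e3 : S.C ^ 6 ≤ lam ^ 6 := by gcongr
  have e4 : S.C ^ 2 * (1 + lam) ≤ lam ^ 2 * lam ^ 4 := by
    gcongr
    nlinarith [pow_le_pow_right₀ (show 1 ≤ lam by linarith) (show 2 ≤ 4 by norm_num)]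
  have e5 : 1 ≤ lam ^ 6 := one_le_pow₀ (by linarith)
  have e6 : V * (lam / la) ≤ lam ^ 7 * (V / la) := by
    rw [mul_div_left_comm]
    exact mul_le_mul_of_nonneg_right (le_self_pow₀ (by linarith) (by norm_num)) (by positivity)
  rw [RW]
  nlinarith [K.g_lo P H le_rfl, K.q_part P H, mul_le_mul_of_nonneg_right L0 (zero_le_one.trans e5)]

end win

/-- **the top block on the static plateau**; the location is `LK.top` -/
theorem topP {V : ℝ} (V0 : 0 ≤ V) (hV : ∑ k ∈ R62.sb S M (R62.T0 S M / 4) S.C ∪ Icc S.J S.Jp,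
      R62.lw M k * M.del m a k ^ 2 ≤ V ^ 2) :
    Top M m a (S.J - 1) (S.Jp - 2) (lam ^ 42 * (S.w3 1 * (1 + V / la))) (2 / (S.n : ℝ) ^ 2) := by
  obtain ⟨j0, H⟩ := K.nod P.jl
  have F := K.fn
  have G := K.lg
  have C0 := F.C0
  have Cl := K.Cl
  have L0 := K.l0
  have l0 := K.la0 P
  have w0 := F.w3_pos one_pos
  have hi := H.hi
  have lo := H.lo
  have JJ := K.JJ P
  have eN : S.Jp - 2 + 1 = S.Jp - 1 := by omega
  have r := K.rw_le P H V0 (le_trans (le_of_eq (sum_congr rfl fun k hk => by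
    rw [sq_abs, dz_up G.toLeg (by have := (mem_Ioc.1 hk).1; omega)]; rfl))
    ((sum_le_sum_of_subset_of_nonneg (fun k hk => ?_) fun k _ _ => mul_nonneg
      (sub_nonneg.2 (G.zm (Nat.sub_le k 1))) (sq_nonneg _)).trans hV))
  · refine (K.top_gen H (g := fun j => 16 * S.C * gP S M la (j - 1)) (cm := S.w3 1)
      (R := 16 * S.C * (lam ^ 7 * (1 + V / la)))
      (fun j _ _ => mul_nonneg (by positivity) (K.g_nn P _)) (fun j k a b c => K.h1 P H a b c)
      (fun k a b => (K.h2 P H a b).1) w0.le (fun k a b => (K.h2 P H a b).2) ?_).mono ?_ ?_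
    · rw [RW_mul, eN]; exact mul_le_mul_of_nonneg_left r (by positivity)
    · have e1 : 1 ≤ 1 + V / la := le_add_of_nonneg_right (by positivity)
      generalize 1 + V / la = X at *
      have e2 : 16 * S.C * (lam ^ 7 * X) ≤ lam * lam * (lam ^ 7 * X) := by gcongr; linarith
      have e3 : 1 ≤ lam ^ 9 * X := one_le_mul_of_one_le_of_one_le (one_le_pow₀ (by linarith)) e1
      rw [show lam ^ 42 * (S.w3 1 * X) = lam ^ 32 * (S.w3 1 * (lam * (lam ^ 9 * X))) by ring,
        show S.w3 1 * (1 + 16 * S.C * (lam ^ 7 * X)) + S.w3 1 =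
          S.w3 1 * (2 + 16 * S.C * (lam ^ 7 * X)) by ring]
      gcongr
      nlinarith [mul_le_mul_of_nonneg_right L0 (zero_le_one.trans e3)]
    · have := K.mesh P (k := S.Jp - 2) (by omega) (by omega)
      rw [eN] at this
      have := F.last.trans P.ue
      rw [div_eq_mul_one_div]
      linarith
  · obtain ⟨a1, a2⟩ := mem_Ioc.1 hk
    rcases lt_or_ge k S.J with c | c
    · refine mem_union_left _ (mem_filter.2 ⟨mem_Ioo.2 ⟨by omega, c⟩, ?_,
        (F.sm (by omega)).trans F.sT⟩)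
      unfold R62.T0
      linarith [H.s, F.sm a1.le, F.s_nonneg S.J]
    · exact mem_union_right _ (mem_Icc.2 ⟨c, by omega⟩)

/-- **block data with a static plateau** -/
theorem bpP {J : ℕ} (hJ : 4 * S.jl ≤ J) {V L T : ℝ} (V0 : 0 ≤ V)
    (hV : ∑ k ∈ R62.sb S M (R62.T0 S M / 4) S.C ∪ Icc S.J S.Jp,
      R62.lw M k * M.del m a k ^ 2 ≤ V ^ 2) (hL : lam ^ 24 * Λ ^ 2 ≤ L)
    (hT : lam ^ 46 * (S.w3 1 * (1 + V / la)) ≤ T) :
    ∃ A, BP M m a J (nI J (S.J - 1) + 1) (lv J (S.J - 1)) (tt S J (S.J - 1))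
      (alC S J (S.J - 1) L l T) A := by
  have L0 := K.l0
  have n1 := K.fn.n1
  have l0 := K.la0 P
  have w0 := K.fn.w3_pos one_pos
  refine K.bpC hJ (by have := K.fn.i2; omega) (K.topP P V0 hV) hL (le_trans ?_ hT)
    (le_trans (by positivity) hT)
  have e1 : 2 / (S.n : ℝ) ^ 2 ≤ 2 * (S.w3 1 * (1 + V / la)) := by
    rw [div_eq_mul_one_div]
    gcongr
    exact ((one_div_le_one_div_of_le (by positivity) (le_self_pow₀ n1 (by norm_num))).trans
      K.w3_ge).trans (le_mul_of_one_le_right w0.le (le_add_of_nonneg_right (by positivity)))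
  have X0 : 0 ≤ S.w3 1 * (1 + V / la) := by positivity
  generalize S.w3 1 * (1 + V / la) = X at *
  have e2 : 1 ≤ lam ^ 42 := one_le_pow₀ (by linarith)
  rw [show lam ^ 46 * X = lam ^ 3 * (lam * (lam ^ 42 * X)) by ring]
  gcongr
  nlinarith [mul_le_mul_of_nonneg_right e2 X0, mul_le_mul_of_nonneg_right L0
    (show 0 ≤ lam ^ 42 * X by positivity)]

end Kc

end Crest.Agent.T156.Alt.Lb24

end
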