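import Crest.Agent.T156.ErrRD_35

/-!
# Row 156, R1: block data above the cut `jl + 1` (helper21)

The blocks of `CLfC_24` at the cut `4 jl`, and one crude block `[jl + 1, 4 jl)` below them.
-/

set_option autoImplicit false
set_option linter.unusedSectionVars false

noncomputable section

namespace Crest.Agent.T156.Alt.Lb21

open MeasureTheory Real Finset Filter
open Crest.Agent.T157.E Crest.Agent.T157.Casc Crest.Agent.T157.SL
open Crest.Agent.T156.Cas Crest.Agent.T156.Cas.Sy41 Crest.Agent.T156.Cas.Q33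
open Crest.Agent.T156.Cas.Lp12 Crest.Agent.T156.Cas.C40
open Crest.Agent.T156.Alt.Md67 Crest.Agent.T156.Alt.Cost41 Crest.Agent.T156.Alt.CIn12
open Crest.Agent.T156.Alt.C33 Crest.Agent.T156.Alt.Lb24

variable {S : Sc} {M : Md} {m : ℕ} {a : ℝ} {J0 J b : ℕ}

/-- the block of the node `k`; block `0` is below `J` -/
def lw (J b k : ℕ) : ℕ := if k < J then 0 else lv J b k + 1

theorem lw_lt {k : ℕ} (h : k < J) : lw J b k = 0 := if_pos h

theorem lw_ge {k : ℕ} (h : J ≤ k) : lw J b k = lv J b k + 1 := if_neg (by omega)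

theorem lw_mono : Monotone (lw J b) := fun i j h => by
  rcases lt_or_ge i J with c | c
  · rw [lw_lt c]; exact Nat.zero_le _
  · rw [lw_ge c, lw_ge (c.trans h)]; exact Nat.succ_le_succ (lv_mono h)

theorem bk_zero : bk M J0 (lw J b) 0 ⊆ Ico J0 J := fun k hk => by
  obtain ⟨h1, h2⟩ := mem_filter.1 hk
  refine mem_Ico.2 ⟨(mem_Ico.1 h1).1, not_le.1 fun c => ?_⟩
  rw [lw_ge c] at h2
  omega

theorem bk_succ (h : J0 ≤ J) (i : ℕ) : bk M J0 (lw J b) (i + 1) = bk M J (lv J b) i := by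
  ext k
  simp only [mem_filter, mem_Ico]
  rcases lt_or_ge k J with c | c
  · rw [lw_lt c]; omega
  · rw [lw_ge c]; omega

variable {lam l Λ : ℝ} {D : ℕ}

/-- the crude block -/
theorem cru0 (K : Kc lam l Λ D S M m a) (h8 : 8 * S.jl < S.J) {t : ℝ}
    (ht : t = S.C * ((4 * S.jl : ℕ) * S.v)) :
    ∑ k ∈ Ico (S.jl + 1) (4 * S.jl), M.dz m a k ≤ t ∧
    t * ∑ k ∈ Ico (S.jl + 1) (4 * S.jl), M.dz m a k * vP M m a k k ≤
      lam ^ 24 * Λ ^ 2 * (t ^ 2 * max t l ^ 2) ∧
    ∑ k ∈ Ico (S.jl + 1) (4 * S.jl), M.dz m a k * (4 * lam * M.z k * (Λ * max (M.z k) l) ^ 2) ≤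
      lam ^ 24 * Λ ^ 2 * (t ^ 2 * max t l ^ 2) := by
  have G := K.lg
  have F := K.fn
  have C1 := F.C1
  have Cl := K.Cl
  have l0 := K.l0
  have L1 := K.L1
  have i0 := F.i0
  have i1 := F.i1
  have i3 := F.i3
  have i4 := F.i4
  have v0 := F.v0
  have h1 : 4 * S.jl < 4 * S.jl + 1 := by omega
  have h2 : 4 * S.jl + 1 ≤ 2 * (4 * S.jl) := by omega
  have h3 : 4 * S.jl + 1 < S.J := by omega
  have t0 := K.t0 ht le_rfl h1 h2 h3
  have ms : ∑ k ∈ Ico (S.jl + 1) (4 * S.jl), M.dz m a k ≤ t := by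
    rw [sum_Ico_dz G (by omega)]
    refine (F.toCl.z_tel (i := S.jl) (j := 4 * S.jl - 1) i1 (by omega) (by omega)).2.trans ?_
    rw [ht, mul_left_comm]
    have e : ((4 * S.jl - 1 : ℕ) : ℝ) ≤ (4 * S.jl : ℕ) := by exact_mod_cast Nat.sub_le _ 1
    have := Nat.cast_nonneg (α := ℝ) S.jl
    exact mul_le_mul_of_nonneg_left (mul_le_mul_of_nonneg_right (by linarith) v0.le) (by linarith)
  have u : ∀ k ≤ 4 * S.jl + 1, (Λ * max (M.z k) l) ^ 2 ≤ (6 * S.C * Λ * max t l) ^ 2 := fun k hk =>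
    pow_le_pow_left₀ (mul_nonneg (by linarith) (le_max_of_le_left (G.z_nonneg k)))
      (K.mx_le ht le_rfl h1 h2 h3 hk) 2
  have v : ∀ k, k ≤ 4 * S.jl + 1 → vP M m a k k ≤ (6 * S.C * Λ * max t l) ^ 2 := fun k b =>
    vP_crude G.m0 (c := 0) le_rfl (by
      simpa only [sub_zero] using (K.lo k (by omega)).trans (u k b))
  have fin : 4 * lam * (6 * S.C * t) * (t * (6 * S.C * Λ * max t l) ^ 2) ≤
      lam ^ 24 * Λ ^ 2 * (t ^ 2 * max t l ^ 2) := by
    calc _ = 864 * lam * S.C ^ 3 * (Λ ^ 2 * (t ^ 2 * max t l ^ 2)) := by ring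
      _ ≤ lam * lam * lam ^ 3 * (Λ ^ 2 * (t ^ 2 * max t l ^ 2)) := by gcongr; linarith
      _ = lam ^ 5 * Λ ^ 2 * (t ^ 2 * max t l ^ 2) := by ring
      _ ≤ _ := by gcongr <;> [linarith; norm_num]
  have w : ∀ (f : ℕ → ℝ) (U : ℝ), 0 ≤ U → (∀ k ∈ Ico (S.jl + 1) (4 * S.jl), f k ≤ U) →
      ∑ k ∈ Ico (S.jl + 1) (4 * S.jl), M.dz m a k * f k ≤ t * U := fun f U U0 hf =>
    (sum_le_sum fun k hk => mul_le_mul_of_nonneg_left (hf k hk) (G.dz_nonneg k)).trans
      (by rw [← sum_mul]; exact mul_le_mul_of_nonneg_right ms U0)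
  have p : 0 ≤ t * (t * (6 * S.C * Λ * max t l) ^ 2) := by positivity
  refine ⟨ms, le_trans ?_ fin, le_trans ?_ fin⟩
  · have := mul_le_mul_of_nonneg_left (w _ _ (sq_nonneg _)
      fun k hk => v k (by have := (mem_Ico.1 hk).2; omega)) t0.le
    nlinarith [mul_le_mul_of_nonneg_right (show 1 ≤ 4 * lam * (6 * S.C) by nlinarith) p]
  · refine (w _ (4 * lam * (6 * S.C * t) * (6 * S.C * Λ * max t l) ^ 2) (by positivity)
      fun k hk => ?_).trans_eq (by ring)
    have hk' : k ≤ 4 * S.jl + 1 := by have := (mem_Ico.1 hk).2; omega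
    have := K.z_le ht le_rfl h1 h2 h3 hk'
    have := u k hk'
    have := G.z_nonneg k
    gcongr

/-- the densities at any cut `J0`, crude below `J` -/
theorem dens (K : Kc lam l Λ D S M m a) (hJ : 4 * S.jl ≤ J) (hb : b < S.J) (hJb : J ≤ b)
    {N : ℕ} {τ ε : ℝ} (T : Lb24.Top M m a b N τ ε) {al : ℕ → ℝ}
    (hal : ∀ i < nI J b, lam ^ 24 * Λ ^ 2 * (S.w3 (tt S J b i) * max (tt S J b i) l) ≤ al i ^ 2 ∨
      lam ^ 24 * Λ ^ 2 * (tt S J b i ^ 2 * max (tt S J b i) l ^ 2) ≤ al i ^ 2)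
    (hT : lam ^ 3 * (τ + ε) ≤ al (nI J b) ^ 2) (J0 : ℕ) :
    ∃ A, AddP M m a J0 A ∧ (∀ k < J, A k ≤ 4 * lam * M.z k * (Λ * max (M.z k) l) ^ 2) ∧
      ∀ i, ∑ k ∈ bk M J (lv J b) i, M.dz m a k * A k ≤ al i ^ 2 := by
  classical
  have G := K.lg
  have J1 := K.J0 hJ hb
  have l0 := K.l0
  have O0 := Om_nonneg G (Ico J0 M.N)
  have O1 := K.Om_le J0
  have e0 : 0 ≤ ε := le_trans (by linarith [G.z1 N]) T.rest
  have τ0 : 0 ≤ τ := (sum_nonneg fun k _ => mul_nonneg (G.dz_nonneg k) (vP_nn k k)).trans T.dia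
  have hT' : (16 + 4 * lam) * (τ + ε) ≤ al (nI J b) ^ 2 :=
    (mul_le_mul_of_nonneg_right (by nlinarith [mul_le_mul l0 l0 (by norm_num) (by linarith)])
      (by positivity)).trans hT
  have Tl := T.le
  set gd := fun i => lam ^ 24 * Λ ^ 2 * (S.w3 (tt S J b i) * max (tt S J b i) l) ≤ al i ^ 2
  set cr := fun k => decide (k < J ∨ (k < b ∧ ¬gd (lv J b k)) ∨ N < k) with hcr
  set u := fun k => if k < b then (Λ * max (M.z k) l) ^ 2 else 1 with hu
  have sb : ∀ {i}, i < nI J b → ∀ {f : ℕ → ℝ}, (∀ k, 0 ≤ f k) → ∑ k ∈ bk M J (lv J b) i,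
      M.dz m a k * f k ≤ ∑ k ∈ Ico (2 ^ i * J) (min (2 * (2 ^ i * J)) b), M.dz m a k * f k :=
    fun hi f hf => sum_le_sum_of_subset_of_nonneg (bk_sub J1 hi) fun k _ _ =>
      mul_nonneg (G.dz_nonneg k) (hf k)
  refine ⟨AX M m a J0 cr u, addP G cr (fun k => ?_) fun k _ hk _ => ⟨0, ?_⟩, fun k hk => ?_,
    fun i => ?_⟩
  · simp only [hu]
    split_ifs <;> positivity
  · simp only [hu, sub_zero]
    split_ifs
    · exact K.lo k hk.le
    · exact E2_le (fun r hr => by rw [← sq_abs]; exact pow_le_one₀ (abs_nonneg r) hr) k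
  · have := G.z_nonneg k
    rw [AX, if_pos (by simp only [hcr, decide_eq_true_eq]; exact .inl hk), hu]
    simp only [if_pos (hk.trans_le hJb)]
    gcongr
  · rcases lt_trichotomy i (nI J b) with hi | rfl | hi
    · rcases K.cases hJ hb hi with e | ⟨c0, c1, c2, c3⟩
      · rw [e, sum_empty]; positivity
      have mem : ∀ k ∈ bk M J (lv J b) i, lv J b k = i ∧ k < b ∧ J ≤ k := fun k hk =>
        ⟨(mem_filter.1 hk).2, (mem_Ico.1 (bk_sub J1 hi hk)).2.trans_le (min_le_right _ _),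
          (mem_Ico.1 (mem_filter.1 hk).1).1⟩
      by_cases g : gd i
      · refine le_trans ?_ ((K.ric (tt_lt hi) c0 c1 c2 c3).2.2.trans g)
        refine le_trans ?_ (mul_le_mul_of_nonneg_left (sb hi (aM_nonneg G)) (by linarith))
        rw [mul_sum]
        refine sum_le_sum fun k hk => ?_
        obtain ⟨e, c, c'⟩ := mem k hk
        rw [AX, if_neg (by
          simp only [hcr, decide_eq_true_eq, not_or]
          exact ⟨by omega, fun r => r.2 (e ▸ g), by omega⟩), mul_left_comm]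
        exact mul_le_mul_of_nonneg_right (by linarith) (mul_nonneg (G.dz_nonneg k) (aM_nonneg G k))
      · refine le_trans ?_ ((K.cru (tt_lt hi) c0 c1 c2 c3).2.2.trans ((hal i hi).resolve_left g))
        refine le_trans (sum_le_sum fun k hk => ?_) (sb hi fun k => by
          have := G.z_nonneg k; positivity)
        obtain ⟨e, c, -⟩ := mem k hk
        have := G.z_nonneg k
        have := G.dz_nonneg k
        rw [AX, if_pos (by simp only [hcr, e, decide_eq_true_eq]; exact .inr (.inl ⟨c, g⟩)), hu]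
        simp only [if_pos c]
        gcongr
    · have := split_top G (T := bk M J (lv J b) (nI J b)) (S₀ := Icc b N) (N := N)
        (f := AX M m a J0 cr u) (g := fun k => (16 + 4 * lam) * aM M m a k) (c := 16 + 4 * lam)
        (by linarith) (fun k => mul_nonneg (by linarith) (aM_nonneg G k))
        (fun k hk h => ⟨mem_Icc.2 ⟨(mem_Ico.1 (bk_top hk)).1, h⟩, by
          have := (mem_Ico.1 (bk_top hk)).1
          rw [AX, if_neg (by simp only [hcr, decide_eq_true_eq]; omega)]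
          exact mul_le_mul_of_nonneg_right (by linarith) (aM_nonneg G k)⟩)
        fun k _ h => by
          rw [AX, if_pos (by simp only [hcr, decide_eq_true_eq]; exact .inr (.inr h)), hu]
          simp only [if_neg (show ¬k < b by omega), mul_one]
          nlinarith [G.z1 k, G.z_nonneg k]
      simp only [mul_left_comm _ (16 + 4 * lam), ← mul_sum] at this
      nlinarith [T.aa, T.rest]
    · rw [bk_emp hi, sum_empty]; positivity

/-- the clock of a set of nodes above the cut `jl + 1` -/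
theorem clk0 (K : Kc lam l Λ D S M m a) {ρ e : ℕ → ℝ} (hρ : Rf M ρ) (e0 : ∀ k, 0 ≤ e k)
    {T : Finset ℕ} {b' : ℕ} {c : ℝ} (h1 : b' < M.N) (h2 : ∀ k ∈ T, S.jl < k ∧ k ≤ b') (c0 : 0 ≤ c)
    (h3 : S.jl < b' → S.C * ρ b' + M.H b' + 2 * M.z b' ≤ c) :
    ∑ k ∈ T, dvP M m a ρ e (S.jl + 1) k ≤ e (S.jl + 1) + c := by
  have G := K.lg
  have F := K.fn
  rcases lt_or_ge b' (S.jl + 1) with r | r
  · rw [eq_empty_of_forall_notMem (s := T) fun k hk => by have := h2 k hk; omega, sum_empty]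
    linarith [e0 (S.jl + 1)]
  refine (sum_le_sum_of_subset_of_nonneg (t := insert (S.jl + 1) (Ioc (S.jl + 1) b'))
    (fun k hk => by
      have := h2 k hk
      rw [mem_insert, mem_Ioc]; omega) fun k hk _ => dvP_nn G hρ (e0 k) (by
      rw [mem_insert, mem_Ioc] at hk; omega)).trans ?_
  rw [sum_insert (by simp), dvP, if_pos le_rfl]
  refine add_le_add le_rfl ((sum_dvP G le_rfl r).trans (le_trans ?_ (h3 r)))
  have e1 : tp M m b' = tp M m (S.jl + 1) := by
    rw [tp, tp, F.toCl.d_eq (by omega) h1.le, F.toCl.d_eq (by omega) (by omega)]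
  have e2 := mul_le_mul_of_nonneg_right (((tp_mem (m := m) G.toLeg b').2.1.trans
    (d_le_b G.toLeg h1.le)).trans F.b1) (Rf_nn hρ b' h1)
  have e3 := mul_nonneg (tp_mem (m := m) G.toLeg (S.jl + 1)).1 (Rf_nn hρ (S.jl + 1) (by omega))
  linarith [H_nonneg G.toLeg (S.jl + 1)]

set_option maxHeartbeats 1000000 in
/-- **block data above the cut `jl + 1`** -/
theorem bqS : E35.BQS := by
  intro lam l Λ D S M m a N τ ε T K₁ L c K h8 H hL hT T0 hρ K0 hH c1 c2
  have G := K.lg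
  have F := K.fn
  have C1 := F.C1
  have Cl := K.Cl
  have l0 := K.l0
  have i0 := F.i0
  have i1 := F.i1
  have i3 := F.i3
  have i4 := F.i4
  have v0 := F.v0
  obtain ⟨J, eJ⟩ : ∃ J, J = 4 * S.jl := ⟨_, rfl⟩
  obtain ⟨b, eb⟩ : ∃ b, b = S.J - 1 := ⟨_, rfl⟩
  rw [← eb] at H
  have hJ : 4 * S.jl ≤ J := eJ.ge
  have hb : b < S.J := by omega
  have hJb : J ≤ b := by omega
  have hJ0 : S.jl + 1 ≤ J := by omega
  have L0 : 0 ≤ L := le_trans (by positivity) hL
  have tp0 := K.tt_pos hJ hb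
  have hal : ∀ i < nI J b,
      lam ^ 24 * Λ ^ 2 * (S.w3 (tt S J b i) * max (tt S J b i) l) ≤ alC S J b L l T i ^ 2 ∨
      lam ^ 24 * Λ ^ 2 * (tt S J b i ^ 2 * max (tt S J b i) l ^ 2) ≤ alC S J b L l T i ^ 2 :=
    fun i hi => by
      have t0 := tp0 i
      have := F.w3_pos t0
      have : 0 < max (tt S J b i) l := lt_max_of_lt_left t0
      rw [K.alC_lt hJ hb L0 hi]
      exact (min_choice _ _).imp (fun e => by rw [e]; gcongr) fun e => by rw [e]; gcongr
  obtain ⟨A₀, P⟩ := K.bpC hJ hb H hL hT T0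
  obtain ⟨A, A1, A2, A3⟩ := dens K hJ hb hJb H hal (by rwa [alC_top T0 le_rfl]) (S.jl + 1)
  have et : tt S J b 0 = S.C * ((4 * S.jl : ℕ) * S.v) := by
    rw [tt_lt (Nat.succ_pos _), pow_zero, one_mul, eJ]
  obtain ⟨r1, r2, r3⟩ := cru0 K h8 et
  rw [← eJ] at r1 r2 r3
  have h1 : 4 * S.jl < 4 * S.jl + 1 := by omega
  have h2 : 4 * S.jl + 1 ≤ 2 * (4 * S.jl) := by omega
  have h3 : 4 * S.jl + 1 < S.J := by omega
  have X0 : 0 ≤ tt S J b 0 ^ 2 * max (tt S J b 0) l ^ 2 := by positivity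
  have hX := mul_le_mul_of_nonneg_right hL X0
  obtain ⟨al, a0, a1, a2⟩ : ∃ al : ℕ → ℝ, (∀ i, 0 ≤ al i) ∧
      al 0 ^ 2 = L * (tt S J b 0 ^ 2 * max (tt S J b 0) l ^ 2) ∧
      ∀ i, al (i + 1) = alC S J b L l T i :=
    ⟨fun i => Nat.casesOn i √(L * (tt S J b 0 ^ 2 * max (tt S J b 0) l ^ 2)) (alC S J b L l T),
      fun i => by
        cases i
        exacts [sqrt_nonneg _, alC_nn _ _ _ _],
      sq_sqrt (by positivity), fun _ => rfl⟩
  have l6 : 6 * S.C ≤ lam ^ 2 := by nlinarith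
  have z0 : ∀ k < J, M.z k ≤ 6 * S.C * tt S J b 0 := fun k hk =>
    K.z_le et le_rfl h1 h2 h3 (by omega)
  have jv : 0 ≤ (S.jl : ℝ) * S.v := by positivity
  have cc : 0 ≤ c := le_trans (by positivity) c1
  refine ⟨nI J b + 2, lw J b, fun i => tt S J b (i - 1), al, A,
    ⟨lw_mono, fun k _ _ => ?_, fun i => tp0 _, a0, fun i => ?_, fun i => ?_, fun k k0 k1 k2 => ?_,
      A1, fun i => ?_⟩, fun i j h => K.tt_mono hJ hb hJb (Nat.sub_le_sub_right h 1), ?_,
    fun i => (K.tt_le hJ hb hJb _).trans (by gcongr), ?_, fun i hi => ?_, fun k k0 k1 => ?_,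
    fun k k0 k1 => ?_, fun e e0 i => ?_⟩
  · rcases lt_or_ge k J with r | r
    · rw [lw_lt r]; omega
    · rw [lw_ge r]; have := lv_le (J := J) (b := b) k; omega
  · rcases i with _ | i
    · exact (sum_le_sum_of_subset_of_nonneg bk_zero fun k _ _ => G.dz_nonneg k).trans r1
    · rw [bk_succ hJ0]; exact P.mass i
  · rcases i with _ | i
    · rw [a1]
      exact (mul_le_mul_of_nonneg_left (sum_le_sum_of_subset_of_nonneg bk_zero fun k _ _ =>
        mul_nonneg (G.dz_nonneg k) (vP_nn k k)) (tp0 0).le).trans (r2.trans hX)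
    · rw [bk_succ hJ0, a2]; exact P.dia i
  · rcases lt_or_ge k J with r | r
    · rw [lw_lt r, a1]
      exact ((K.cru et le_rfl h1 h2 h3).2.1 k (by omega)).trans hX
    · rw [lw_ge r, a2]; exact P.lad k r k1 k2
  · rcases i with _ | i
    · rw [a1]
      refine le_trans ?_ (r3.trans hX)
      refine (sum_le_sum_of_subset_of_nonneg bk_zero fun k _ _ =>
        mul_nonneg (G.dz_nonneg k) (A1.1 k)).trans (sum_le_sum fun k hk => ?_)
      exact mul_le_mul_of_nonneg_left (A2 k (mem_Ico.1 hk).2) (G.dz_nonneg k)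
    · rw [bk_succ hJ0, a2]; exact A3 i
  · show _ ≤ tt S J b 0
    rw [et]; push_cast
    nlinarith
  · have := K.nI_le hJ hb
    push_cast at this ⊢
    nlinarith
  · rcases i with _ | i
    · refine .inr (.inl ⟨?_, a1.le⟩)
      show tt S J b 0 ≤ _
      rw [et]; push_cast
      nlinarith
    rw [a2]
    simp only [Nat.add_sub_cancel]
    rcases lt_or_ge i (nI J b) with r | r
    · exact .inl (K.alC_le hJ hb L0 r)
    · exact .inr (.inr ⟨by rw [tt_ge r]; exact one_le_pow₀ C1, (alC_top T0 r).le⟩)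
  · rcases lt_or_ge k J with r | r
    · rw [lw_lt r]
      exact (z0 k r).trans (mul_le_mul_of_nonneg_right l6 (tp0 0).le)
    rw [lw_ge r]
    simp only [Nat.add_sub_cancel]
    rcases lt_or_ge k b with r' | r'
    · exact ((G.zm (Nat.le_succ k)).trans (K.z_tt hJ hb r r').2).trans
        (mul_le_mul_of_nonneg_right l6 (tp0 _).le)
    · rw [lv_ge r', tt_ge le_rfl]
      exact (G.z1 k).trans (one_le_mul_of_one_le_of_one_le (by linarith) (one_le_pow₀ C1))
  · rcases lt_or_ge k J with r | r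
    · rw [lw_lt r]
      show _ ≤ 2 * tt S J b 0
      have e : (k : ℝ) ≤ (4 * S.jl : ℕ) := by exact_mod_cast (by omega : k ≤ 4 * S.jl)
      have p := mul_le_mul_of_nonneg_right e v0.le
      have q : 0 ≤ ((4 * S.jl : ℕ) : ℝ) * S.v := by positivity
      rw [et]
      nlinarith
    rw [lw_ge r]
    simp only [Nat.add_sub_cancel]
    have r' : k < b := by omega
    have e : (k : ℝ) ≤ 2 * ((2 ^ lv J b k * J : ℕ) : ℝ) := by
      exact_mod_cast (lv_mem (K.J0 hJ hb) r r').2.le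
    have p := mul_le_mul_of_nonneg_right e v0.le
    have q : 0 ≤ ((2 ^ lv J b k * J : ℕ) : ℝ) * S.v := by positivity
    rw [tt_lt (lv_lt r')]
    nlinarith
  · have key : ∀ (t : ℝ) (k : ℕ), 0 < t → S.jl < k → k < S.J → M.z k ≤ 6 * S.C * t →
        S.C * M.q k + M.H k + 2 * M.z k ≤ c * max t l := fun t k t0 k0 k1 hz => by
      have m0 : 0 < max t l := lt_max_of_lt_left t0
      have a2 := hz.trans (mul_le_mul_of_nonneg_left (le_max_left t l)
        (show 0 ≤ 6 * S.C by linarith))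
      have a3 := mul_le_mul_of_nonneg_left (max_le a2 ((le_max_right _ l).trans
        (le_mul_of_one_le_left m0.le (by linarith)))) K0
      linarith [hH k k0 k1, mul_le_mul_of_nonneg_right c1 m0.le]
    have p0 : ∀ i, 0 ≤ c * max (tt S J b i) l := fun i =>
      mul_nonneg cc (le_max_of_le_left (tp0 i).le)
    rcases i with _ | i
    · exact clk0 K hρ e0 (b' := J - 1) (by omega) (fun k hk => by
        have := mem_Ico.1 (bk_zero hk); omega) (p0 _)
        fun r => key _ _ (tp0 0) r (by omega) (z0 _ (by omega))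
    rw [bk_succ hJ0]
    simp only [Nat.add_sub_cancel]
    rcases lt_or_ge i (nI J b) with hi | hi
    · rcases K.cases hJ hb hi with e' | ⟨c0, c1', c2', c3⟩
      · rw [e', sum_empty]; linarith [e0 (S.jl + 1), p0 i]
      exact clk0 K hρ e0 (b' := min (2 * (2 ^ i * J)) b - 1) (by omega) (fun k hk => by
        have := mem_Ico.1 (bk_sub (K.J0 hJ hb) hi hk); omega) (p0 _)
        fun r => key _ _ (tp0 i) r (by omega) (K.z_le (tt_lt hi) c0 c1' c2' c3 (Nat.sub_le _ 1))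
    · refine clk0 K hρ e0 (b' := M.N - 1) (by omega) (fun k hk => by
        have := mem_Ico.1 (mem_filter.1 hk).1; omega) (p0 _) fun _ => ?_
      have m1 : 1 ≤ max (tt S J b i) l := le_max_of_le_left (by
        rw [tt_ge hi]; exact one_le_pow₀ C1)
      linarith [G.z1 (M.N - 1), G.Hm (Nat.sub_le M.N 1), mul_le_of_le_one_right F.C0.le
        (hρ.le (M.N - 1) (by omega)), le_mul_of_one_le_right cc m1]

end Crest.Agent.T156.Alt.Lb21

end
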