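import Crest.Agent.T156.R1Cx_77
import Crest.Agent.T156.LPe_12
import Crest.Agent.T156.GrMem_37
import Crest.Agent.T156.R1Def_82
import Crest.Agent.T156.SrNB_66

/-!
# Row 156 (helper77): ONE producer statement `LocG` for the kits of the tested path
-/

set_option autoImplicit false
set_option linter.unusedSectionVars false

noncomputable section

namespace Crest.Agent.T156.Alt.R77

open Real Finset Filter Topology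
open Crest.Agent.T156.Alt.R62 Crest.Agent.T156.Alt.R82

/-- the numbers of `KN`, `LK`, `MK`, `NR`, `NX` -/
structure Nb where
  l : ℝ
  Φ : ℝ
  P : ℝ → ℝ
  l0 : ℝ
  Λ₀ : ℝ
  Λ₁ : ℝ
  Pt : ℝ
  Vt : ℝ
  u1 : ℝ
  V4 : ℝ
  N : ℝ
  Λ₂ : ℝ

abbrev Nb.KN (b : Nb) (S : Sc) (M : Md) (E : ℝ) : Prop :=
  R62.KN S M E b.l b.Φ b.P b.l0 b.Λ₀ b.Λ₁ b.Pt b.Vt b.u1 b.V4

abbrev Nb.LK (b : Nb) (S : Sc) (M : Md) (m : ℕ) (x : ℝ) : Prop :=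
  R62.LK S M m x b.Φ b.P b.l0 b.Λ₁ b.Pt b.Vt b.u1

abbrev Nb.MK (b : Nb) (S : Sc) (M : Md) (e : ℕ) (Λ : ℝ) (m : ℕ) (x : ℝ) (G : ℕ → ℝ) : Prop :=
  R62.MK S M e Λ m x b.l b.Φ b.P b.l0 b.Λ₀ b.Pt b.u1 b.V4 G

abbrev Nb.NR (b : Nb) (E δ : ℝ) (p : Pm) (S : Sc) (M : Md) : Prop :=
  R82.NR E δ p S M b.l b.Φ b.P b.l0 b.Λ₂ b.Pt b.u1 b.V4

/-- **the lines that are not in `NR`**; `N` bounds `∑ dz G`, `T = T0 S M` -/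
structure NX (δ : ℝ) (p : Pm) (σ t T l Φ : ℝ) (P : ℝ → ℝ) (l0 Λ₀ Pt u1 N Λ₂ : ℝ) : Prop where
  ph : Φ ≤ (p.n : ℝ) ^ (p.c / 1000) * p.PhG ((p.n : ℝ) ^ (p.c / 1000)) t
  N1 : l ^ 2 ≤ N
  N2 : ∀ u, l0 ≤ u → u ≤ T → u * P u ≤ N ^ 2
  N3 : Pt ≤ N ^ 2
  N4 : u1 ≤ N
  a3 : p.muG t * N * l ^ 3 ≤ δ * n5 p
  a4 : ∀ u, l0 ≤ u → u ≤ T → p.msG t u * P u * N ≤ δ * n5 p * u
  la : p.la (p.mt (p.muG σ)) ^ 2 ≤ Pt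
  L0 : Λ₀ ≤ (p.n : ℝ) ^ ((1 : ℝ) / 18)
  lk : l * p.ye ^ 2 ≤ l0
  L2 : Λ₀ ≤ Λ₂
  PL : Pt ≤ (Λ₀ * p.la (p.mt (p.muG σ))) ^ 2
  Lw : Λ₀ / (p.n * p.muG t) ≤ Pt

abbrev Nb.NX (b : Nb) (δ : ℝ) (p : Pm) (σ t T : ℝ) : Prop :=
  R77.NX δ p σ t T b.l b.Φ b.P b.l0 b.Λ₀ b.Pt b.u1 b.N b.Λ₂

/-- the plateau data of an octave or of a switch -/
def PX (p : Pm) (σ σ' : ℝ) (Q : Pl) : Prop := p.PlG (p.muG σ) Q ∨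
  ∃ P P' t, t ∈ Set.Icc (0 : ℝ) 1 ∧ p.PlG (p.muG σ) P ∧ p.PlG (p.muG σ') P' ∧ Q = P.mix P' t

/-- numbers, lines and location of every member, class constant `8 K²` -/
def LocK (K δ : ℝ) (p : Pm) : Prop := ∀ c0 C0 η σ σ' Q, p.OctR σ σ' → GrD K c0 C0 η p σ σ' Q →
  PX p σ σ' Q → ∃ b : Nb, b.KN (p.scG K σ σ' Q) (p.gst Q σ') δ⁻¹ ∧
    (∃ Λ', b.Λ₀ ≤ Λ' ∧ b.l * p.ye ^ 2 ≤ b.l0 ∧ R82.NR δ⁻¹ δ p (p.scG K σ σ' Q) (p.gst Q σ')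
      b.l b.Φ b.P b.l0 Λ' b.Pt b.u1 b.V4) ∧
    b.NX δ p σ σ' (T0 (p.scG K σ σ' Q) (p.gst Q σ')) ∧
    ∀ m a, (p.scG K σ σ' Q).In m a → b.LK (p.scG K σ σ' Q) (p.gst Q σ') m a

/-- **what SR, L, TopQ and the numerics deliver** -/
def LocG (β : ℝ) : Prop := ∀ K : ℝ, 1 ≤ K → Gain β (LocK K)

theorem NX.mono {δ δ' σ t T l Φ l0 Λ₀ Pt u1 N Λ₂ : ℝ} {P : ℝ → ℝ} {p : Pm}
    (h : NX δ p σ t T l Φ P l0 Λ₀ Pt u1 N Λ₂) (hs : 0 ≤ p.s) (h0 : 0 ≤ l0) (hd : δ ≤ δ') :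
    NX δ' p σ t T l Φ P l0 Λ₀ Pt u1 N Λ₂ := by
  have e : δ * n5 p ≤ δ' * n5 p := mul_le_mul_of_nonneg_right hd (by unfold n5; positivity)
  exact { h with
    a3 := h.a3.trans e
    a4 := fun u u0 u1 => (h.a4 u u0 u1).trans (mul_le_mul_of_nonneg_right e (h0.trans u0)) }

theorem KN_anti {S : Sc} {M : Md} {E E' l Φ l0 Λ₀ Λ₁ Pt Vt u1 V4 : ℝ} {P : ℝ → ℝ}
    (h : KN S M E' l Φ P l0 Λ₀ Λ₁ Pt Vt u1 V4) (hE : E ≤ E') (hl : 0 ≤ l) (hv : 0 ≤ S.v)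
    (hw : 0 ≤ S.w3 1) : KN S M E l Φ P l0 Λ₀ Λ₁ Pt Vt u1 V4 :=
  { h with
    l1 := (mul_le_mul_of_nonneg_right hE hl).trans h.l1
    Plo := fun t ht => h.Plo t (ht.trans (mul_le_mul_of_nonneg_right hE hl))
    fine := fun k a b => (mul_le_mul_of_nonneg_right hE hv).trans (h.fine k a b)
    wpl := fun k a => le_trans (by gcongr) (h.wpl k a) }

theorem scG_ok {K E c0 C0 η σ t : ℝ} {p : Pm} {P : Pl} (h : GrD K c0 C0 η p σ t P)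
    (hE : 8 * K ^ 2 ≤ E) : ScG E p P t (p.scG K σ t P) :=
  ⟨h.cl.1, h.cl.2, hE, rfl, rfl, rfl, rfl, rfl, rfl, rfl, rfl, rfl, rfl⟩

end Crest.Agent.T156.Alt.R77

end
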