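import Crest.Agent.T156.CLfD_24
import Crest.Agent.T156.R1MK_77

/-!
# Row 156, block C: the top block on the graded path (helper24)
-/

set_option autoImplicit false
set_option linter.unusedSectionVars false

noncomputable section

namespace Crest.Agent.T156.Alt.Lb24

open Real Finset
open Crest.Agent.T156.Alt.Mem37 Crest.Agent.T156.Alt.Plt13

variable {K c0 C0 η σ σ' : ℝ} {p : Pm} {Q : Pl}

theorem dt_ge {V l u : ℝ} (hl : 0 < l) (hV : l ≤ V) (hu : 0 < u) (h1 : u ≤ 1) :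
    l ≤ 4 * dt V l u * √u := by
  have s0 := sqrt_pos.2 hu
  have s1 := sqrt_le_one.2 h1
  have e := mul_self_sqrt hu.le
  have V0 := hl.trans_le hV
  rw [dt]
  generalize √u = s at *
  rw [← e, ← mul_div_assoc, div_mul_eq_mul_div, le_div_iff₀ (by positivity)]
  have : s * (V * s + l) ≤ 2 * V := by nlinarith [mul_le_mul_of_nonneg_left h1 V0.le]
  nlinarith [mul_le_mul_of_nonneg_left this (show 0 ≤ 2 * l * s by positivity)]

/-- **the shape of the plateau of a member** -/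
theorem shp_gst (h : GrD K c0 C0 η p σ σ' Q) (hg : Q.γ = 0)
    (e1 : (p.n : ℝ) ^ (-(3 : ℝ)) ≤ 1 - Q.x Q.I) (hA : 4 ≤ p.A) (h0 : p.μ0 ≤ p.mt (p.muG σ))
    (h1 : p.mt (p.muG σ) ≤ p.κ) :
    Shp (p.scG K σ σ' Q) (p.gst Q σ') (p.la (p.mt (p.muG σ))) := by
  obtain ⟨n, l1, -⟩ := h.nb.la _ h0 h1
  obtain ⟨K0, K2, K3⟩ := h.nb.K3
  have G := h.sl.geo h.nb h.pl
  obtain ⟨jJ, r0, -⟩ := h.nb.jfJ h.sl.base h.sl.jr
  have np := n.np
  have lp := n.lp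
  have u0 := n.u0p
  have ez : (p.gst Q σ').z ((p.scG K σ σ' Q).J - 1) = p.xs := by
    change p.zP Q (max (p.J - 1) p.jf) = _
    rw [max_eq_left (by omega), zP_lo (by omega)]; rfl
  refine ⟨hA, n.nl, u0, ?_, ?_, ?_, ?_, fun x a b => ?_, fun x a b => ?_, ?_, ?_⟩
  · change _ = (p.la _ ^ ((2 : ℝ) / 3)) ^ 3
    rw [← rpow_mul_natCast lp.le, ← rpow_two]; norm_num
  · change 2 * (8 * K ^ 2) * Plt13.u0 p _ ≤ 1
    have := mul_le_mul_of_nonneg_right h.nb.lg u0.le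
    nlinarith [mul_le_mul_of_nonneg_left this K0.le, mul_le_mul_of_nonneg_right
      (show K ^ 2 ≤ K * K ^ 3 by nlinarith [h.nb.K1]) u0.le]
  · change (p.n : ℝ) ^ (-(2 : ℝ)) ≤ 1 / (p.n : ℝ) ^ 2
    rw [rpow_neg np.le, rpow_two, one_div]
  · change 1 / (p.n : ℝ) ^ 3 ≤ 1 - p.zP Q (max (p.J + Q.I - 1) p.jf)
    rw [max_eq_left (by omega), G.zP_x le_rfl, one_div, ← rpow_natCast, ← rpow_neg np.le]
    exact_mod_cast e1
  · rw [ez] at a ⊢
    change _ ≤ 4 * dn p _ x * ((x - p.xs + Plt13.u0 p _) * √(x - p.xs + Plt13.u0 p _))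
    have A0 : 0 < x - p.xs + Plt13.u0 p (p.mt (p.muG σ)) := by linarith
    have s0 := sqrt_pos.2 A0
    have a1 := dt_nn n.Vp lp.le (sub_pos.2 b)
    have a2 := dt_nn one_pos n.sp.le (sub_pos.2 b)
    rw [dn, den_eq a b]
    refine le_trans ?_ (mul_le_mul_of_nonneg_right (show 4 * db (p.la (p.mt (p.muG σ)))
      (x - p.xs + Plt13.u0 p (p.mt (p.muG σ))) ≤ _ by linarith) (by positivity))
    rw [db]
    field_simp
    linarith
  · rw [ez] at a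
    change _ ≤ 4 * dn p _ x * _
    have a1 := db_pos lp (show 0 < x - p.xs + Plt13.u0 p (p.mt (p.muG σ)) by linarith)
    have a2 := dt_nn one_pos n.sp.le (sub_pos.2 b)
    rw [dn, den_eq a b]
    exact (dt_ge lp n.lV (sub_pos.2 b) (by linarith [n.x0])).trans
      (mul_le_mul_of_nonneg_right (by linarith) (sqrt_nonneg _))
  · change p.sO Q _ (p.Jp Q) = p.sO Q _ p.J
    rw [G.sP_Jp, G.sP_J, hg, zero_mul, add_zero]
  · change 2 * p.sO Q _ p.jf ≤ p.sO Q _ p.J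
    have a := (G.s_inc (Nat.zero_le p.jf) (by omega)).2
    rw [G.sP_zero] at a
    have e : 32 * K * p.r ≤ 1 := by nlinarith [h.nb.rK, h.nb.K1]
    have f : 32 * p.r ≤ c0 := le_of_mul_le_mul_right (by linarith [h.nb.cK]) K0
    rw [G.sP_J]
    push_cast at a
    linarith [h.sl.base.lo, h.sl.jr]

theorem shp_px (h : GrD K c0 C0 η p σ σ' Q) (X : R77.PX p σ σ' Q) (hA : 4 ≤ p.A)
    (h0 : p.μ0 ≤ p.mt (p.muG σ)) (h1 : p.mt (p.muG σ) ≤ p.κ) :
    Shp (p.scG K σ σ' Q) (p.gst Q σ') (p.la (p.mt (p.muG σ))) := by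
  rcases X with X | ⟨P, P', t, -, X, -, rfl⟩
  · exact shp_gst h X.ok.g X.ok.e1 hA h0 h1
  · exact shp_gst h rfl X.ok.e1 hA h0 h1

/-- **the top block from the location kit**, `Pt ≤ (Λ₀ la)²` -/
theorem Kc.topK {S : Sc} {M : Md} {m D : ℕ} {a lam l Λ la Φ l0 Λ₀ Λ₁ Pt Vt u1 : ℝ} {P : ℝ → ℝ}
    (K : Kc lam l Λ D S M m a) (H : Shp S M la) (L : R62.LK S M m a Φ P l0 Λ₁ Pt Vt u1)
    (h1 : 1 ≤ Λ₀) (hP : Pt ≤ (Λ₀ * la) ^ 2) : ∃ τ ε, Top M m a (S.J - 1) (S.Jp - 2) τ ε ∧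
      lam ^ 3 * (τ + ε) ≤ lam ^ 46 * (Λ₀ * S.w3 1) := by
  have l0 := K.la0 H
  have L0 := K.l0
  have n1 := K.fn.n1
  have w0 := K.fn.w3_pos one_pos
  refine ⟨_, _, K.topP H (V := Λ₀ * la) (by positivity) (L.top.trans hP), ?_⟩
  rw [mul_div_cancel_right₀ _ l0.ne']
  have e1 : 2 / (S.n : ℝ) ^ 2 ≤ 2 * (Λ₀ * S.w3 1) := by
    rw [div_eq_mul_one_div]
    gcongr
    exact ((one_div_le_one_div_of_le (by positivity) (le_self_pow₀ n1 (by norm_num))).trans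
      K.w3_ge).trans (le_mul_of_one_le_left w0.le h1)
  have e2 : 1 ≤ lam ^ 42 := one_le_pow₀ (by linarith)
  have e3 : S.w3 1 * (1 + Λ₀) ≤ 2 * (Λ₀ * S.w3 1) := by nlinarith
  have X0 : 0 ≤ Λ₀ * S.w3 1 := by positivity
  generalize Λ₀ * S.w3 1 = X at *
  rw [show lam ^ 46 * X = lam ^ 3 * (lam * (lam ^ 42 * X)) by ring]
  gcongr
  nlinarith [mul_le_mul_of_nonneg_right e2 X0, mul_le_mul_of_nonneg_right L0
    (show 0 ≤ lam ^ 42 * X by positivity), mul_le_mul_of_nonneg_left e3 (zero_le_one.trans e2)]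

end Crest.Agent.T156.Alt.Lb24

end
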