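import Crest.Agent.T156.CLfD_24

/-!
# Row 156, block C: the top block on a spread plateau (helper24)
-/

set_option autoImplicit false
set_option linter.unusedSectionVars false

noncomputable section

namespace Crest.Agent.T156.Alt.Lb24

open MeasureTheory Real Finset Filter
open Crest.Agent.T157.E Crest.Agent.T157.Casc Crest.Agent.T157.SL
open Crest.Agent.T156.Cas Crest.Agent.T156.Cas.Sy41 Crest.Agent.T156.Cas.Q33
open Crest.Agent.T156.Cas.Lp12 Crest.Agent.T156.Cas.C40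
open Crest.Agent.T156.Alt.Md67 Crest.Agent.T156.Alt.Cost41 Crest.Agent.T156.Alt.CIn12
open Crest.Agent.T156.Alt.C33

variable {S : Sc} {M : Md} {m : ℕ} {a : ℝ}

/-- the constants at the level `1` need no location -/
theorem kc_one {C η K : ℝ} {A : ℕ} (G : RgC C A η K S) (hK : 4 * (A : ℝ) + 9 ≤ K)
    (h10 : 10 * η ≤ 1) (h : Cl S M) (I : S.In m a) (hF : S.F ≤ S.n) :
    ∃ D, Kc ((S.n : ℝ) ^ η) 1 1 D S M m a :=
  kc_of G hK h10 h I hF le_rfl fun k _ => (E2_le (fun r hr => by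
    rw [← sq_abs]; exact pow_le_one₀ (abs_nonneg r) hr) k).trans
      (one_le_pow₀ (by rw [one_mul]; exact le_max_right _ _))

theorem kc_ev_one : CL fun _ Λ S M m a => S.F ≤ S.n →
    ∃ (lam : ℝ) (D : ℕ), Kc lam 1 1 D S M m a ∧ lam ^ 60 ≤ Λ :=
  CL.intro (fun _ _ _ _ _ _ _ _ h H a =>
    let ⟨l, D, k1, k2⟩ := H a; ⟨l, D, k1, k2.trans h⟩) 2 10 60
    fun _ A _ _ _ _ => ⟨4 * A + 9, fun _ _ _ _ G _ _ h10 h I hF =>
      let ⟨D, K⟩ := kc_one G le_rfl (by exact_mod_cast h10) h I hF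
      ⟨_, D, K, le_rfl⟩⟩

/-- shape of a spread plateau -/
structure ShE (S : Sc) (M : Md) (u w : ℝ) : Prop where
  A3 : 3 ≤ S.A
  jl : 2 * M.s S.jl ≤ M.s S.J
  Cu : S.C ≤ u
  w0 : 1 / (S.n : ℝ) ≤ w
  w1 : w ≤ 1
  uw : 1 ≤ u * w
  sp : M.s S.Jp - M.s S.J ≤ w
  uv : 2 * (u * S.v) ≤ 1
  ue : 2 * (u * S.ue) ≤ 1
  st : ∀ k, S.J ≤ k → k < S.Jp → M.z k - M.z (k - 1) ≤ u * S.v * (1 - M.z (k - 1))

def yE (S : Sc) (M : Md) (w : ℝ) (k : ℕ) : ℝ := M.z (S.J - 1) - M.z k + w
def gE (S : Sc) (M : Md) (w : ℝ) (k : ℕ) : ℝ :=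
  if k < S.J then 1 / yE S M w k else (1 - M.z k) / (w * (1 - M.z (S.J - 1)))

namespace Kc

variable {lam l Λ u w : ℝ} {D : ℕ} (K : Kc lam l Λ D S M m a) (P : ShE S M u w)
include K P

theorem ew0 : 0 < w := lt_of_lt_of_le (by have := K.fn.n1; positivity) P.w0

theorem eu0 : 0 < u := K.fn.C0.trans_le P.Cu

omit P in
theorem eU : 1 ≤ S.C * (1 - M.z (S.J - 1)) := by
  have := K.fn.atom.2
  rwa [le_sub_comm, div_le_iff₀' K.fn.C0] at this

omit P in
theorem eU0 : 0 < 1 - M.z (S.J - 1) :=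
  (mul_pos_iff_of_pos_left K.fn.C0).1 (one_pos.trans_le K.eU)

theorem eJ : S.J < S.Jp := lt_of_le_of_ne K.fn.i3 fun e => by
  have a1 := K.fn.last
  rw [← e] at a1
  nlinarith [K.eU, P.ue, mul_le_mul P.Cu a1 K.eU0.le (K.eu0 P).le]

theorem ey {k : ℕ} (hk : k < S.J) : w ≤ yE S M w k ∧ yE S M w k ≤ 2 := by
  unfold yE
  constructor <;> linarith [K.lg.zm (show k ≤ S.J - 1 by omega), K.lg.z1 (S.J - 1),
    K.lg.z_nonneg k, P.w1]

theorem eg {k : ℕ} (hk : S.J - 1 ≤ k) :
    gE S M w k = (1 - M.z k) / (w * (1 - M.z (S.J - 1))) := by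
  rcases hk.eq_or_lt with rfl | h
  · have := K.eU0
    rw [gE, if_pos (by have := K.fn.i2; omega), yE, sub_self, zero_add]
    field_simp
  · exact if_neg (by omega)

theorem eg_nn (k : ℕ) : 0 ≤ gE S M w k := by
  have := K.ew0 P
  have := K.eU0
  unfold gE
  split_ifs with h
  · exact one_div_nonneg.2 ((K.ew0 P).le.trans (K.ey P h).1)
  · exact div_nonneg (by linarith [K.lg.z1 k]) (by positivity)

theorem eg_ge {k : ℕ} (hk : S.J - 1 ≤ k) : 1 - M.z k ≤ w * gE S M w k := by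
  have := K.ew0 P
  have U := K.eU0
  rw [K.eg P hk, ← mul_div_assoc, mul_div_mul_left _ _ this.ne']
  exact le_div_self (by linarith [K.lg.z1 k]) U (by linarith [K.lg.z_nonneg (S.J - 1)])

theorem est {k : ℕ} (h0 : S.J - 1 ≤ k) (h1 : k < S.Jp - 1) :
    M.z (k + 1) - M.z k ≤ u * S.v * (1 - M.z k) ∧ 1 - M.z k ≤ 2 * (1 - M.z (k + 1)) := by
  have e := P.st (k + 1) (by omega) (by omega)
  rw [Nat.add_sub_cancel] at e
  exact ⟨e, by nlinarith [mul_le_mul_of_nonneg_right P.uv (sub_nonneg.2 (K.lg.z1 k))]⟩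

section win
variable {j0 : ℕ} (H : Nd S M j0)
include H

theorem est' {k : ℕ} (h0 : j0 ≤ k) (h1 : k < S.Jp - 1) : M.z (k + 1) - M.z k ≤ u * S.v := by
  have v0 := K.fn.v0
  rcases lt_or_ge (k + 1) S.J with c | c
  · exact (K.fn.zs k (by have := H.lo; have := K.fn.i1; omega) c).2.trans
      (mul_le_mul_of_nonneg_right P.Cu v0.le)
  · exact (K.est P (by omega) h1).1.trans (mul_le_of_le_one_right (mul_pos (K.eu0 P) v0).le
      (by linarith [K.lg.z_nonneg k]))

theorem e1 {j k : ℕ} (h0 : j0 ≤ j) (h : j < k) (hk : k ≤ S.Jp - 2) :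
    M.z k - M.z j ≤ 2 * S.C * (u * w) * gE S M w (j - 1) * (((k : ℝ) - j) * S.v) := by
  have G := K.lg
  have lo := H.lo
  have C1 := K.fn.C1
  have v0 := K.fn.v0
  have u0 := K.eu0 P
  have w0 := K.ew0 P
  have kj : (j : ℝ) + 1 ≤ k := by exact_mod_cast h
  have p : 0 ≤ ((k : ℝ) - j) * S.v := mul_nonneg (by linarith) v0.le
  rcases le_or_gt S.J j with c | c
  · have e := tel_le (f := M.z) (c := u * S.v * (w * gE S M w (j - 1))) h.le fun i a b =>
      (K.est P (by omega) (by omega)).1.trans (mul_le_mul_of_nonneg_left (le_trans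
        (by linarith [G.zm (show j - 1 ≤ i by omega)]) (K.eg_ge P (k := j - 1) (by omega)))
        (by positivity))
    nlinarith [mul_nonneg (mul_nonneg (mul_pos u0 w0).le (K.eg_nn P (j - 1))) p]
  have y0 := w0.trans_le (K.ey P (k := j - 1) (by omega)).1
  rw [gE, if_pos (by omega), mul_one_div, div_mul_eq_mul_div, le_div_iff₀ y0]
  have z0 := sub_nonneg.2 (G.zm h.le)
  have d0 := sub_nonneg.2 (G.zm (show j - 1 ≤ S.J - 1 by omega))
  have e2 := mul_le_mul_of_nonneg_right (tel_le (f := M.z) (c := u * S.v) h.le fun i a b =>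
    K.est' P H (h0.trans a) (by omega)) w0.le
  have e3 : (M.z k - M.z j) * (M.z (S.J - 1) - M.z (j - 1)) ≤ S.C * (((k : ℝ) - j) * S.v) := by
    rcases lt_or_ge k S.J with d | d
    · exact (mul_le_of_le_one_right z0 (by linarith [G.z1 (S.J - 1), G.z_nonneg (j - 1)])).trans
        ((K.sl H (by omega) h.le d).trans_eq (by ring))
    · have e1 := K.sl H (j := j - 1) (k := S.J - 1) (by omega) (by omega) (by omega)
      rw [Nat.cast_sub (by omega), Nat.cast_sub (by omega)] at e1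
      have a1 : (S.J : ℝ) ≤ k := by exact_mod_cast d
      refine (mul_le_of_le_one_left d0 (by linarith [G.z1 k, G.z_nonneg j])).trans (e1.trans ?_)
      nlinarith [mul_le_mul_of_nonneg_right a1 (show 0 ≤ S.C * S.v by positivity)]
  unfold yE
  nlinarith [mul_le_mul_of_nonneg_right P.uw (show 0 ≤ S.C * (((k : ℝ) - j) * S.v) by positivity),
    mul_le_mul_of_nonneg_right C1 (show 0 ≤ u * w * (((k : ℝ) - j) * S.v) by positivity)]

theorem e2 {k : ℕ} (h0 : j0 < k) (hk : k ≤ S.Jp - 2) :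
    M.dz m a k ≤ 2 * S.C * (u * w) * gE S M w k * S.v ∧ M.dz m a k ≤ u * S.v := by
  have G := K.lg
  have C1 := K.fn.C1
  have v0 := K.fn.v0
  have u0 := K.eu0 P
  have w0 := K.ew0 P
  obtain ⟨k, rfl⟩ : ∃ j, k = j + 1 := ⟨k - 1, by omega⟩
  rw [dz_succ G.toLeg]
  refine ⟨?_, K.est' P H (by omega) (by omega)⟩
  rcases lt_or_ge (k + 1) S.J with c | c
  · have e := K.sl H (j := k) (by omega) k.le_succ c
    have y := K.ey P c
    have y0 := w0.trans_le y.1
    push_cast at e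
    have p : 0 ≤ S.C * S.v := by positivity
    rw [gE, if_pos c, mul_one_div, div_mul_eq_mul_div, le_div_iff₀ y0]
    nlinarith [mul_le_mul e y.2 y0.le (by linarith), mul_le_mul_of_nonneg_right P.uw p]
  · obtain ⟨a1, a2⟩ := K.est P (k := k) (by omega) (by omega)
    have a3 := mul_le_mul_of_nonneg_left (a2.trans (mul_le_mul_of_nonneg_left
      (K.eg_ge P (k := k + 1) (by omega)) two_pos.le)) (mul_pos u0 v0).le
    nlinarith [mul_le_mul_of_nonneg_right C1 (mul_nonneg (mul_pos u0 v0).le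
      (mul_nonneg w0.le (K.eg_nn P (k + 1))))]

theorem eg_lo {k : ℕ} (hk : k ≤ j0) : gE S M w k ≤ 12 * S.C ^ 6 := by
  have hi := H.hi
  have C0 := K.fn.C0
  have y0 := (K.ew0 P).trans_le (K.ey P (k := k) (by omega)).1
  rw [gE, if_pos (by omega), div_le_comm₀ y0 (by positivity)]
  unfold yE
  linarith [K.mu_le H, K.lg.zm hk, K.lg.zm (show S.J - 2 ≤ S.J - 1 by omega), K.ew0 P]

theorem eq_part : ∑ j ∈ Ioc j0 (S.Jp - 1), (M.q j - M.q (j - 1)) * gE S M w (j - 1) ≤
    S.C ^ 2 * (1 + lam) + (1 + S.C) := by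
  have F := K.fn
  have G := K.lg
  have C0 := F.C0
  have n1 := F.n1
  have w0 := K.ew0 P
  have hi := H.hi
  have lo := H.lo
  have i1 := F.i1
  have i4 := F.i4
  have JJ := K.eJ P
  rw [← sum_Ioc_consecutive _ (show j0 ≤ S.J - 1 by omega) (show S.J - 1 ≤ S.Jp - 1 by omega)]
  refine add_le_add ?_ ?_
  · refine (sum_le_sum (g := fun j => S.C ^ 2 * (-log (yE S M w j) - -log (yE S M w (j - 1))))
      fun j hj => ?_).trans ?_
    · obtain ⟨a1, a2⟩ := mem_Ioc.1 hj
      obtain ⟨j, rfl⟩ : ∃ i, j = i + 1 := ⟨j - 1, by omega⟩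
      simp only [Nat.add_sub_cancel]
      have y0 := w0.trans_le (K.ey P (k := j) (by omega)).1
      have y1 := w0.trans_le (K.ey P (k := j + 1) (by omega)).1
      have e1 := (q_lip F.toCl j.le_succ (by omega)).trans (F.ss j (by omega)).2
      have e2 := (F.zs j (by omega) (by omega)).1
      rw [div_le_iff₀' C0] at e2
      have e3 := one_sub_inv_le_log_of_pos (div_pos y0 y1)
      rw [log_div y0.ne' y1.ne', inv_div, one_sub_div y0.ne'] at e3
      rw [gE, if_pos (by omega), neg_sub_neg, mul_one_div]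
      refine le_trans ?_ (mul_le_mul_of_nonneg_left e3 (by positivity))
      rw [← mul_div_assoc]
      refine div_le_div_of_nonneg_right ?_ y0.le
      unfold yE
      nlinarith [mul_le_mul_of_nonneg_left e2 C0.le]
    · rw [← mul_sum, tele (fun j => -log (yE S M w j)) (by omega)]
      refine mul_le_mul_of_nonneg_left ?_ (by positivity)
      have y := K.ey P (k := j0) (by omega)
      have := log_le_sub_one_of_pos (w0.trans_le y.1)
      have e := log_le_log (by positivity) P.w0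
      rw [one_div, log_inv] at e
      rw [yE, sub_self, zero_add]
      linarith [K.lgn]
  · refine (sum_le_sum (g := fun j => (M.q j - M.q (j - 1)) * (1 / w)) fun j hj => ?_).trans ?_
    · obtain ⟨a1, a2⟩ := mem_Ioc.1 hj
      refine mul_le_mul_of_nonneg_left ?_ (sub_nonneg.2 (q_mono F.toCl (Nat.sub_le j 1) (by omega)))
      have := K.eU0
      rw [K.eg P (by omega), div_le_div_iff₀ (by positivity) w0]
      nlinarith [mul_le_mul_of_nonneg_left (G.zm (show S.J - 1 ≤ j - 1 by omega)) w0.le]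
    · rw [← sum_mul, tele _ (by omega), mul_one_div, div_le_iff₀ w0]
      have e1 := q_lip F.toCl (show S.J - 1 ≤ S.Jp - 1 by omega) (by omega)
      have e2 := (F.ss (S.J - 1) (by omega)).2
      rw [show S.J - 1 + 1 = S.J by omega] at e2
      have e3 : S.v ≤ w := le_trans (by
        rw [le_div_iff₀ (by positivity)]; linarith [K.vn, G.z1 0]) P.w0
      linarith [F.sm (Nat.sub_le S.Jp 1), P.sp, mul_le_mul_of_nonneg_left e3 C0.le]

theorem erw (hV : ∑ j ∈ Ioc j0 (S.Jp - 1), M.dz m a j * |M.rb m a j - M.q j| ^ 2 ≤ w ^ 3) :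
    RW (M.rb m a) (fun j => gE S M w (j - 1)) j0 (S.Jp - 1) ≤ lam ^ 7 := by
  have F := K.fn
  have G := K.lg
  have C1 := F.C1
  have Cl := K.Cl
  have L0 := K.l0
  have w0 := K.ew0 P
  have u0 := K.eu0 P
  have U0 := K.eU0
  have U1 := K.eU
  have hi := H.hi
  have JJ := K.eJ P
  have ab : ∀ k, |M.rb m a k - M.q k| ≤ 1 := fun k => abs_le.2 ⟨by
    linarith [rb_nonneg (M := M) (a := a) G.m0 k, q_le_one (M := M) k], by
    linarith [rb_le_one (M := M) (a := a) G.m0 k, q_nonneg (M := M) k]⟩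
  set ω := fun j => if j < S.J then 1 / yE S M w j ^ 3 - 1 / yE S M w (j - 1) ^ 3 else
    (M.z j - M.z (j - 1)) * (S.C / w) ^ 2 with hω
  have key : ∀ j, j0 < j → j ≤ S.Jp - 1 → 0 ≤ ω j ∧
      (gE S M w j - gE S M w (j - 1)) ^ 2 ≤ M.dz m a j * ω j := fun j a1 a2 => by
    obtain ⟨j, rfl⟩ : ∃ i, j = i + 1 := ⟨j - 1, by omega⟩
    have zz := G.zm j.le_succ
    simp only [hω, Nat.add_sub_cancel, dz_succ G.toLeg]
    split_ifs with c
    · have y1 := w0.trans_le (K.ey P c).1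
      have yy : yE S M w (j + 1) ≤ yE S M w j := by unfold yE; linarith
      refine ⟨sub_nonneg.2 (by gcongr), ?_⟩
      rw [gE, gE, if_pos c, if_pos (by omega)]
      exact (inv_sub_sq y1 yy).trans_eq (by unfold yE; ring)
    · refine ⟨mul_nonneg (by linarith) (sq_nonneg _), ?_⟩
      rw [K.eg P (by omega), K.eg P (by omega), ← mul_assoc, ← sq,
        show ((1 - M.z (j + 1)) / (w * (1 - M.z (S.J - 1))) -
          (1 - M.z j) / (w * (1 - M.z (S.J - 1)))) ^ 2 =
          (M.z (j + 1) - M.z j) ^ 2 * (1 / (w * (1 - M.z (S.J - 1)))) ^ 2 by ring]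
      refine mul_le_mul_of_nonneg_left (pow_le_pow_left₀ (by positivity) ?_ 2) (sq_nonneg _)
      rw [div_le_div_iff₀ (by positivity) w0]
      nlinarith [mul_le_mul_of_nonneg_left U1 w0.le]
  have s0 := sqrt_pos.2 w0
  have ew : (w * √w) ^ 2 = w ^ 3 := by rw [mul_pow, sq_sqrt w0.le]; ring
  have en : ∑ j ∈ Ioc j0 (S.Jp - 1), ω j ≤ (2 * S.C / (w * √w)) ^ 2 := by
    rw [← sum_Ioc_consecutive _ (show j0 ≤ S.J - 1 by omega) (show S.J - 1 ≤ S.Jp - 1 by omega),
      sum_congr rfl fun j hj => if_pos (by have := (mem_Ioc.1 hj).2; omega),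
      sum_congr (s₁ := Ioc (S.J - 1) (S.Jp - 1)) rfl fun j hj =>
        if_neg (by have := (mem_Ioc.1 hj).1; omega),
      tele (fun j => 1 / yE S M w j ^ 3) (by omega), ← sum_mul, tele M.z (by omega), yE, sub_self,
      zero_add, div_pow (2 * S.C), ew]
    have y0 := w0.trans_le (K.ey P (k := j0) (by omega)).1
    have b1 : (M.z (S.Jp - 1) - M.z (S.J - 1)) * (S.C / w) ^ 2 ≤ S.C ^ 2 / w ^ 3 := by
      refine (mul_le_of_le_one_left (sq_nonneg _) (by
        linarith [G.z1 (S.Jp - 1), G.z_nonneg (S.J - 1)])).trans ?_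
      rw [div_pow]
      exact div_le_div_of_nonneg_left (sq_nonneg _) (by positivity)
        (pow_le_pow_of_le_one w0.le P.w1 (by norm_num))
    have b2 : 1 / w ^ 3 + S.C ^ 2 / w ^ 3 ≤ (2 * S.C) ^ 2 / w ^ 3 := by
      rw [← add_div]; gcongr; nlinarith
    linarith [show 0 ≤ 1 / yE S M w j0 ^ 3 by positivity]
  have e := ab_top (W := fun j => gE S M w (j - 1)) (V := w * √w) (show j0 ≤ S.Jp - 1 by omega)
    (ab _) (ab _) (K.eg_nn P _) (K.eg_nn P _) (by positivity) (by positivity)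
    (fun j _ _ => G.dz_nonneg j) (fun j a b => (key j a b).1) (hV.trans_eq ew.symm)
    (fun j a b => (key j a b).2) en
  simp only [Nat.add_sub_cancel] at e
  rw [mul_div_cancel₀ _ (by positivity)] at e
  have e1 := mul_le_mul (rb_le_one (M := M) (a := a) G.m0 j0) (K.eg_lo P H (Nat.sub_le j0 1))
    (K.eg_nn P _) zero_le_one
  have e2 : gE S M w (S.Jp - 1) ≤ S.C := by
    rw [K.eg P (by omega), div_le_iff₀ (by positivity)]
    refine le_trans ?_ (show w ≤ _ by nlinarith [mul_le_mul_of_nonneg_left U1 w0.le])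
    refine le_of_mul_le_mul_left ?_ u0
    nlinarith [mul_le_mul_of_nonneg_left F.last u0.le, P.ue, P.uw]
  have e3 : S.C ^ 6 ≤ lam ^ 6 := by gcongr
  have e4 : S.C ^ 2 * (1 + lam) ≤ lam ^ 2 * lam ^ 4 := by
    gcongr
    nlinarith [pow_le_pow_right₀ (show 1 ≤ lam by linarith) (show 2 ≤ 4 by norm_num)]
  have e5 : lam ≤ lam ^ 6 := le_self_pow₀ (by linarith) (by norm_num)
  rw [RW]
  nlinarith [K.eg_lo P H le_rfl, K.eq_part P H,
    mul_le_mul_of_nonneg_right L0 (show 0 ≤ lam ^ 6 by positivity)]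

end win

/-- **the top block on a spread plateau** -/
theorem topE (hV : ∑ k ∈ (Ioo S.jl S.Jp).filter (fun k => M.s S.J / 2 ≤ M.s k),
      (M.z k - M.z (k - 1)) * M.del m a k ^ 2 ≤ w ^ 3) :
    Top M m a (S.J - 1) (S.Jp - 2) (lam ^ 42 * (S.w3 1 * (u * w))) (2 * S.ue) := by
  obtain ⟨j0, H⟩ := K.nod P.jl
  have F := K.fn
  have G := K.lg
  have C0 := F.C0
  have Cl := K.Cl
  have L0 := K.l0
  have n1 := F.n1
  have u0 := K.eu0 P
  have w0 := K.ew0 P
  have W0 := F.w3_pos one_pos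
  have hi := H.hi
  have lo := H.lo
  have JJ := K.eJ P
  have eN : S.Jp - 2 + 1 = S.Jp - 1 := by omega
  have r := K.erw P H (le_trans (le_of_eq (sum_congr rfl fun k hk => by
    rw [sq_abs, dz_up G.toLeg (by have := (mem_Ioc.1 hk).1; omega)]; rfl))
    ((sum_le_sum_of_subset_of_nonneg (fun k hk => ?_) fun k _ _ => mul_nonneg
      (sub_nonneg.2 (G.zm (Nat.sub_le k 1))) (sq_nonneg _)).trans hV))
  · refine (K.top_gen H (g := fun j => 2 * S.C * (u * w) * gE S M w (j - 1)) (cm := u * S.v)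
      (R := 2 * S.C * (u * w) * lam ^ 7)
      (fun j _ _ => mul_nonneg (by positivity) (K.eg_nn P _)) (fun j k a b c => K.e1 P H a b c)
      (fun k a b => (K.e2 P H a b).1) (mul_pos u0 F.v0).le (fun k a b => (K.e2 P H a b).2)
      ?_).mono ?_ ?_
    · rw [RW_mul, eN]; exact mul_le_mul_of_nonneg_left r (by positivity)
    · have e0 : S.v ≤ S.w3 1 * w := by
        refine le_trans ?_ (mul_le_mul K.w3_ge P.w0 (by positivity) W0.le)
        have e := (mul_le_mul_of_nonneg_left (pow_le_pow_right₀ n1 P.A3) F.v0.le).trans F.v2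
        rw [div_mul_div_comm, one_mul, le_div_iff₀ (by positivity)]
        refine le_of_mul_le_mul_right ?_ (show (0 : ℝ) < S.n by positivity)
        nlinarith [K.pw_le (c := 1) (i := 1) (by norm_num) (by norm_num)]
      have e1 := mul_le_mul_of_nonneg_left e0 u0.le
      have e2 : 2 * S.C * (u * w) * lam ^ 7 ≤ lam * lam * (u * w) * lam ^ 7 := by gcongr; linarith
      have e3 : 1 ≤ lam ^ 9 := one_le_pow₀ (by linarith)
      have e4 := mul_le_mul_of_nonneg_left P.uw W0.le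
      have e5 := mul_le_mul_of_nonneg_left e2 W0.le
      have X0 : 0 ≤ S.w3 1 * (u * w) := by positivity
      rw [show lam ^ 42 * (S.w3 1 * (u * w)) = lam ^ 32 * (lam * (lam ^ 9 * (S.w3 1 * (u * w)))) by
        ring]
      refine mul_le_mul_of_nonneg_left ?_ (by positivity)
      nlinarith [mul_le_mul_of_nonneg_right e3 X0, mul_le_mul_of_nonneg_right L0
        (show 0 ≤ lam ^ 9 * (S.w3 1 * (u * w)) by positivity)]
    · have := (K.est P (k := S.Jp - 2) (by omega) (by omega)).2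
      rw [eN] at this
      linarith [F.last]
  · obtain ⟨a1, a2⟩ := mem_Ioc.1 hk
    exact mem_filter.2 ⟨mem_Ioo.2 ⟨by omega, by omega⟩, H.s.trans (F.sm a1.le)⟩

end Kc

end Crest.Agent.T156.Alt.Lb24

end
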