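import Crest.Agent.T156.CDef_40
import Crest.Agent.T156.Rp_90

/-!
# Row 156, block C: the cluster form of the low words (helper90)

`cw D f` is the word `D.tw f` with the bulk factor read on ONE leaf per cluster above the cut.
-/

set_option autoImplicit false

noncomputable section

namespace Crest.Agent.T156.Cas.C40.L90

open Crest.Agent.T157.E Crest.Agent.T157.Casc Crest.Agent.T157.SL
open Mul55

/-- one bulk leaf per cluster × site expectation -/
def cB (D : CD) : (s : Sh) → ((s.Lf → Unit → Cube D.n) → ℝ) → ((s.Lf → Bool) → ℝ) → ℝ :=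
  fun s G ξ => R90.Lc (fun _ => 1) D.B 0 D.J Unit s G * TEf (fun _ => 1) D.S 0 s ξ

/-- a letter, bulk kernel read on the leaves of the clusters -/
def c1 (D : CD) (a : Lt) :
    (ℕ → (Unit → Cube D.n) → (Unit → Cube D.n) → ℝ) × (ℕ → Bool → Bool → ℝ) :=
  (R90.cp () (lt D.n D.β D.M D.q D.cl a).1, (lt D.n D.β D.M D.q D.cl a).2)

/-- **the cluster word** -/
def cw (D : CD) (f : List Lt) : ℝ := D.dd (lamB D.B (cB D) (f.map (c1 D)))
  (∑ j ∈ D.up, D.om j * wB (-1) D.B (cB D) (f.map (c1 D)) (Sh.two j) (fun _ => 1)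
    (pr2 j (oE D.q j)))

/-- the reduction of the word `f` -/
def Red (b : Bool) (f : List Lt) : Prop := Bd b fun D => D.tw f - cw D f

end Crest.Agent.T156.Cas.C40.L90

end
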