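import Crest.Agent.T156.CLowD_90
import Crest.Agent.T156.RpB_90
import Crest.Agent.T156.CKit_32
import Crest.Agent.T156.CErr_54

/-!
# Row 156, block C: reduction of the low words to their cluster form (helper90)
-/

set_option autoImplicit false
set_option linter.unusedSectionVars false

noncomputable section

namespace Crest.Agent.T156.Cas.C40.L90

open MeasureTheory Real Set Filter Topology
open Crest.Agent.T157.E Crest.Agent.T157.Casc Crest.Agent.T157.SL
open Crest.Agent.T157.G1 (ov)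
open Mul55 G90 Nu87 R90 W90 Ck32 Ker15
open Wp52 (Br)

variable {D : CD} {τ0 : ℝ} {r k : ℕ}

open Classical in
/-- bulk expectation on one leaf per cluster -/
def TC (D : CD) {r : ℕ} (σ : SM r) (F : (Fin r → Cube D.n) → ℝ) : ℝ :=
  if H : Rz D.B.length σ then Lc (fun _ => 1) D.B 0 D.J Unit H.choose fun y =>
    F fun a => y (H.choose_spec.choose a) () else 0

theorem cutB (H : D.Ok τ0) : D.J < D.B.length := H.cut.trans_eq lenB.symm

theorem TC_sm (H : D.Ok τ0) (s : Sh) (e : Fin r ≃ s.Lf) (F : (Fin r → Cube D.n) → ℝ) :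
    TC D (sm s e D.B.length) F = Lc (fun _ => 1) D.B 0 D.J Unit s fun y => F fun a => y (e a) () := by
  have h : Rz D.B.length (sm s e D.B.length) := ⟨s, e, rfl⟩
  rw [TC, dif_pos h]
  refine (Lc_map wt_one90 (cutB H) e _ (fun a b => ?_) fun y => F fun a => y a ()).symm
  rw [shr_cut (cutB H), shr_cut (cutB H)]
  exact congrArg (min · _) (congrFun (congrFun h.choose_spec.choose_spec a) b)

/-- `TC` is the expectation on a tree with the same skeleton -/
theorem TC_TK (H : D.Ok τ0) {σ : SM r} (hσ : Rz D.B.length σ) :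
    ∃ (κ : Type) (_ : Fintype κ) (σ' : κ → κ → ℕ) (φ : Fin r → κ), Um D.B.length σ' ∧
      (∀ F, TC D σ F = TK (fun _ => 1) D.B 0 σ' fun y => F fun a => y (φ a)) ∧
      (∀ a b, min (σ a b) (D.J + 1) = min (σ' (φ a) (φ b)) (D.J + 1)) ∧
      ∀ a b, D.J < σ a b → φ a = φ b := by
  obtain ⟨s, e, rfl⟩ := hσ
  have hi := cutB H
  refine ⟨_, inferInstance, _, fun a => (s.cl (D.J + 1) (e a), ()), um_lf (um_sm _ _ _) _ _,
    fun F => TC_sm H s e F, fun a b => ?_, fun a b h => ?_⟩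
  · by_cases h : (s.cl (D.J + 1) (e a), ()) = (s.cl (D.J + 1) (e b), ())
    · have h1 := (Clu22.cl_eq_iff _ _ _ _).1 (Prod.mk.inj h).1
      dsimp only
      rw [h, lf, if_pos rfl, sm, ← shr_cut hi, h1]
      omega
    · rw [lf_cl hi s h, sm, shr_cut hi]
      omega
  · refine Prod.ext ((Clu22.cl_eq_iff _ _ _ _).2 ?_) rfl
    rw [shr_cut hi]
    exact min_eq_right h

theorem eF_cp {Ω : Type} (σ : SM r) (y : Fin r → Unit → Ω) : ∀ (U : List (ℕ → Ω → Ω → ℝ))
    (E : EL r), eF (U.map (cp ())) σ E y = eF U σ E fun a => y a ()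
  | [], _ => by simp [eF]
  | _ :: _, [] => by simp [eF]
  | _ :: U, _ :: E => by rw [List.map_cons, eF, eF, eF_cp σ y U E]; rfl

theorem rep_TC (H : D.Ok τ0) (U : List (ℕ → Cube D.n → Cube D.n → ℝ)) :
    Rep D.B.length (Lc (fun _ => 1) D.B 0 D.J Unit) (U.map (cp ()))
      fun _ σ E => TC D σ (eF U σ E) := fun s r e E => by
  simp only [eF_cp, TC_sm H]

/-- a pair of kernels, bulk kernel read on the leaves of the clusters -/
def cc {n : ℕ} (p : (ℕ → Cube n → Cube n → ℝ) × (ℕ → Bool → Bool → ℝ)) :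
    (ℕ → (Unit → Cube n) → (Unit → Cube n) → ℝ) × (ℕ → Bool → Bool → ℝ) := (cp () p.1, p.2)

theorem frameC (H : D.Ok τ0) (μ : ℕ → ℝ)
    (p : (ℕ → Cube D.n → Cube D.n → ℝ) × (ℕ → Bool → Bool → ℝ))
    (V : List ((ℕ → Cube D.n → Cube D.n → ℝ) × (ℕ → Bool → Bool → ℝ))) :
    ∑ j ∈ Finset.range (D.B.length + 1), μ j * wB (-1) D.B (cB D) (V.map cc) (Sh.two j)
      (pr2 j ((cc p).1 j)) (pr2 j ((cc p).2 j)) = LamG D.B μ V.length fun _ σ E =>
        TC D σ (eF ((V.reverse ++ [p]).map Prod.fst) σ E) *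
          Ck32.TS D σ (eF ((V.reverse ++ [p]).map Prod.snd) σ E) := by
  have e : (V.map cc).reverse ++ [cc p] = (V.reverse ++ [p]).map cc := by simp
  rw [← List.length_map (f := cc)]
  refine sum_wB_eq _ μ (cc p) (V.map cc) (repB_mul ?_ ?_)
  · rw [e, List.map_map]
    have := rep_TC H ((V.reverse ++ [p]).map Prod.fst)
    rwa [List.map_map] at this
  · rw [e, List.map_map]
    exact (lenS (D := D)) ▸ rep_TE wt_one90 D.S 0 _

theorem TC_zero (H : D.Ok τ0) {σ : SM r} (hσ : Rz D.B.length σ) : TC D σ (fun _ => 0) = 0 := by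
  obtain ⟨s, e, rfl⟩ := hσ
  rw [TC_sm H]
  exact Lc_const wt_one90 _ s 0

theorem markR (H : D.Ok τ0) {μ : ℕ → ℝ} (hμ : ∀ j, |μ j| ≤ mu D j)
    (p : (ℕ → Cube D.n → Cube D.n → ℝ) × (ℕ → Bool → Bool → ℝ)) (f : List Lt) {B : ℝ}
    (h : ∀ k ≤ 2 * f.length, ∀ Z : ZL (1 + k + 1), (Z.map Prod.fst).Perm f → Lf Z →
      ∃ ψ : SM (1 + k + 1) → ℝ, av D k ψ ≤ B ∧ ∀ σ, Sup D k σ → 0 ≤ ψ σ ∧ (Cel D Z σ →
        |TB D σ (fun x => ed p.1 (Ck32.mk k).1 (Ck32.mk k).2 x σ * bk D Z σ x) -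
          TC D σ fun x => ed p.1 (Ck32.mk k).1 (Ck32.mk k).2 x σ * bk D Z σ x| *
          |Ck32.TS D σ fun x => ed p.2 (Ck32.mk k).1 (Ck32.mk k).2 x σ * se D (Ck32.ae Z) σ x| ≤ ψ σ)) :
    |∑ j ∈ Finset.range (D.B.length + 1), μ j * wB (-1) D.B (oB D.n D.β D.M D.q [])
        (f.map (lt D.n D.β D.M D.q D.cl)) (Sh.two j) (pr2 j (p.1 j)) (pr2 j (p.2 j)) -
      ∑ j ∈ Finset.range (D.B.length + 1), μ j * wB (-1) D.B (cB D) (f.map (c1 D)) (Sh.two j)
        (pr2 j ((cc p).1 j)) (pr2 j ((cc p).2 j))| ≤ cG f.length * B := by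
  rw [frame, show f.map (c1 D) = (f.map (lt D.n D.β D.M D.q D.cl)).map cc by
    rw [List.map_map]; rfl, frameC H, ← LamG_sub, List.length_map]
  refine abs_LamG_le _ _ _ fun k hk N hN hO => ?_
  have hl : f.reverse.length = N.length := by rw [List.length_reverse, hN]
  obtain ⟨ψ, h1, h2⟩ := h k hk (f.reverse.zip N)
    (by rw [List.map_fst_zip hl.le]; exact List.reverse_perm f)
    fun z hz => hO _ (List.of_mem_zip hz).2
  refine (abs_avt_le H hμ fun σ hσ => ?_).trans h1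
  have e1 : eF (((f.map (lt D.n D.β D.M D.q D.cl)).reverse ++ [p]).map Prod.fst) σ
      (N ++ [(old k 1, old k 0)]) =
      fun x => ed p.1 (Ck32.mk k).1 (Ck32.mk k).2 x σ * bk D (f.reverse.zip N) σ x := funext fun x => by
    rw [List.map_append, List.map_singleton, eF_snoc _ _ _ _ _ _ (by simp [hN]),
      ← List.map_reverse, List.map_map, eF_zip]
    rfl
  have e2 : eF (((f.map (lt D.n D.β D.M D.q D.cl)).reverse ++ [p]).map Prod.snd) σ
      (N ++ [(old k 1, old k 0)]) =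
      fun x => ed p.2 (Ck32.mk k).1 (Ck32.mk k).2 x σ * se D (Ck32.ae (f.reverse.zip N)) σ x := funext fun x => by
    rw [List.map_append, List.map_singleton, eF_snoc _ _ _ _ _ _ (by simp [hN]),
      ← List.map_reverse, List.map_map, eF_zip, ← se_ae]
    rfl
  rw [e1, e2, ← sub_mul, abs_mul]
  by_cases hc : Cel D (f.reverse.zip N) σ
  · exact (h2 σ hσ).2 hc
  · simp only [bk_zero hc, mul_zero, TB, TM_const wt_one90 hσ.1, TC_zero H hσ.1, sub_zero, abs_zero,
      zero_mul]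
    exact (h2 σ hσ).1

/-- **the reduction, graph by graph** (any word) -/
theorem red_le (H : D.Ok τ0) {f : List Lt} (hf : f ≠ []) {B : ℝ} (hB : 0 ≤ B)
    (h : ∀ k ≤ 2 * f.length, ∀ Z : ZL (1 + k + 1), (Z.map Prod.fst).Perm f → Lf Z →
      ∃ ψ : SM (1 + k + 1) → ℝ, av D k ψ ≤ B ∧ ∀ σ, Sup D k σ → 0 ≤ ψ σ ∧ (Cel D Z σ →
        |TB D σ (bk D Z σ) - TC D σ (bk D Z σ)| * |Ck32.TS D σ (se D (sa D k Z) σ)| ≤ ψ σ)) :
    |D.tw f - cw D f| ≤ cG f.length * B := by
  cases hD : D.W with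
  | none =>
    obtain ⟨a, V, rfl⟩ := List.exists_cons_of_ne_nil hf
    have e : D.tw (a :: V) = tm D.n D.β D.M D.q D.cl (a :: V) := by simp only [CD.tw, CD.dd, hD]
    have e' : cw D (a :: V) = lamB D.B (cB D) ((a :: V).map (c1 D)) := by simp only [cw, CD.dd, hD]
    rw [e, e', tm_eq H.pos H.ook, List.map_cons, List.map_cons, lamB, lamB]
    refine (markR H (fun j => (abs_of_nonneg (dm_nonneg H.mono j)).trans_le (by
      simp only [mu, CD.dd, hD]; exact le_rfl)) (lt D.n D.β D.M D.q D.cl a) V (B := B)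
      fun k hk Z hZ hL => ?_).trans (mul_le_mul_of_nonneg_right (cG_mono (by simp)) hB)
    obtain ⟨ψ, h1, h2⟩ := h k (hk.trans (by simp)) ((a, Ck32.mk k) :: Z) (hZ.cons a)
      (List.forall_mem_cons.2 ⟨mk_ne k, hL⟩)
    refine ⟨ψ, h1, fun σ hσ => ⟨(h2 σ hσ).1, fun _ => ?_⟩⟩
    have e1 : (fun x => ed (lt D.n D.β D.M D.q D.cl a).1 (Ck32.mk k).1 (Ck32.mk k).2 x σ * bk D Z σ x) =
        bk D ((a, Ck32.mk k) :: Z) σ := rfl
    have e2 : (fun x => ed (lt D.n D.β D.M D.q D.cl a).2 (Ck32.mk k).1 (Ck32.mk k).2 x σ * se D (Ck32.ae Z) σ x) =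
        se D (sa D k ((a, Ck32.mk k) :: Z)) σ := funext fun x => by
      simp only [sa, hD, ← se_ae]
      rfl
    rw [e1, e2]
    by_cases hc : Cel D ((a, Ck32.mk k) :: Z) σ
    · exact (h2 σ hσ).2 hc
    · rw [show bk D ((a, Ck32.mk k) :: Z) σ = fun _ => 0 from funext (bk_zero hc), TB,
        TM_const wt_one90 hσ.1, TC_zero H hσ.1, sub_zero, abs_zero, zero_mul]
      exact (h2 σ hσ).1
  | some ω =>
    have hW : D.W.isSome = true := by simp [hD]
    have e : D.tw f = ∑ j ∈ D.up, D.om j * wB (-1) D.B (oB D.n D.β D.M D.q [])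
        (f.map (lt D.n D.β D.M D.q D.cl)) (Sh.two j) (fun _ => 1) (pr2 j (oE D.q j)) := by
      simp only [CD.tw, CD.dd, hD]
    have e' : cw D f = ∑ j ∈ D.up, D.om j * wB (-1) D.B (cB D) (f.map (c1 D)) (Sh.two j)
        (fun _ => 1) (pr2 j (oE D.q j)) := by simp only [cw, CD.dd, hD]
    rw [e, e', sum_up H, sum_up H]
    simp only [← ite_zero_mul]
    refine markR H (abs_om_le hW) (fun _ _ _ => 1, oE D.q) f fun k hk Z hZ hL => ?_
    obtain ⟨ψ, h1, h2⟩ := h k hk Z hZ hL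
    refine ⟨ψ, h1, fun σ hσ => ⟨(h2 σ hσ).1, fun hc => ?_⟩⟩
    have := (h2 σ hσ).2 hc
    simp only [sa, hD] at this
    simp only [ed, one_mul]
    exact this

/-! ### the bulk factor -/

/-- product of overlaps along the edges -/
def ovP {n : ℕ} (A : EL r) (x : Fin r → Cube n) : ℝ := (A.map fun e => ov (x e.1) (x e.2)).prod

/-- every letter gives as many parallel edges as its degree -/
def ez (Z : ZL r) : EL r := Z.flatMap fun z => List.replicate (dg z.1) z.2

/-- the coefficient of a low letter -/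
def cof (D : CD) (b : Bool) (j : ℕ) : ℝ := if b then D.τ j / 2 else -(D.τ j / 4)

/-- the coefficient of a graph -/
def cz (D : CD) (Z : ZL r) (σ : SM r) : ℝ := (Z.map fun z => cof D z.1.2 (σ z.2.1 z.2.2)).prod

theorem ez_length : ∀ Z : ZL r, (ez Z).length = deg (Z.map Prod.fst)
  | [] => rfl
  | z :: Z => by
      have := ez_length Z
      simp only [ez, deg, List.flatMap_cons, List.length_append, List.length_replicate,
        List.map_cons, List.sum_cons] at this ⊢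
      rw [this]

theorem mem_ez {Z : ZL r} {e : Fin r × Fin r} (h : e ∈ ez Z) : ∃ z ∈ Z, z.2 = e := by
  obtain ⟨z, hz, he⟩ := List.mem_flatMap.1 h
  exact ⟨z, hz, (List.eq_of_mem_replicate he).symm⟩

theorem bk_eq (H : D.Ok τ0) (σ : SM r) (x : Fin r → Cube D.n) : ∀ Z : ZL r,
    (∀ z ∈ Z, z.1.1 = true ∧ σ z.2.1 z.2.2 ≤ D.J) → bk D Z σ x = cz D Z σ * ovP (ez Z) x
  | [], _ => by simp [bk, cz, ovP, ez]
  | ((c, b), e) :: Z, h => by
      have ih := bk_eq H σ x Z fun z hz => h z (List.mem_cons_of_mem _ hz)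
      obtain ⟨rfl, h2⟩ : c = true ∧ σ e.1 e.2 ≤ D.J := h _ List.mem_cons_self
      simp only [bk, cz, ovP, ez, List.map_cons, List.prod_cons, List.flatMap_cons, List.map_append,
        List.prod_append, List.map_replicate, List.prod_replicate] at ih ⊢
      rw [ih]
      simp only [lt, cut, CD.cl, decide_eq_true h2, if_true]
      cases b <;> simp only [oUb, oU, H.qlo _ h2, cof, dg] <;> simp <;> ring

theorem abs_cz (H : D.Ok τ0) (σ : SM r) : ∀ Z : ZL r, |cz D Z σ| ≤ τ0 ^ Z.length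
  | [] => by simp [cz]
  | z :: Z => by
      have h := H.tau_mem (σ z.2.1 z.2.2)
      rw [cz, List.map_cons, List.prod_cons, abs_mul, List.length_cons, pow_succ']
      refine mul_le_mul ?_ (abs_cz H σ Z) (abs_nonneg _) H.tau0
      unfold cof
      split_ifs <;> rw [abs_le] <;> constructor <;> linarith [h.1, h.2]

theorem TB_eq {σ : SM r} (hσ : Rz D.B.length σ) (F : (Fin r → Cube D.n) → ℝ) :
    TB D σ F = TK (fun _ => 1) D.B 0 σ F := TM_eq wt_one90 hσ F

theorem ovP_eq {n : ℕ} (A : EL r) (x : Fin r → Cube n) :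
    ovP A x = ∏ t : Fin A.length, ov (x A[t.1].1) (x A[t.1].2) :=
  (Fin.prod_univ_fun_getElem A fun e => ov (x e.1) (x e.2)).symm

/-- replacement for products of overlaps -/
theorem ovP_repl (H : D.Ok τ0) {σ : SM r} (hσ : Rz D.B.length σ) {A : EL r}
    (hA : ∀ e ∈ A, σ e.1 e.2 ∈ D.lo) {m : ℕ} (hm : A.length = m + 2) :
    |TB D σ (ovP A) - TC D σ (ovP A)| ≤
      2 * (A.map fun e => 8 * (m + 2) ^ 2 * D.X ^ m * D.v (σ e.1 e.2) (D.J + 1) + D.tl).sum := by
  obtain ⟨κ, _, σ', φ, h1, h2, h3, -⟩ := TC_TK H hσ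
  rw [TB_eq hσ, h2, show ovP A = _ from funext (ovP_eq A)]
  refine (repl_two wt_one90 (um_rz hσ) h1 (cutB H) (p := fun t : Fin A.length => A[t.1].1)
    (q := fun t => A[t.1].2) (p' := fun t => φ A[t.1].1) (q' := fun t => φ A[t.1].2)
    (fun t => (CD.mem_lo.1 (hA _ (List.getElem_mem _))).2)
    (fun u v => by rw [h3]; rcases u with ⟨_, _ | _⟩ <;> rcases v with ⟨_, _ | _⟩ <;> rfl)
    T157.G1.abs_ov_le T157.G1.ov_comm H.X0 ((Fintype.card_fin _).trans hm)).trans ?_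
  rw [← Fin.sum_univ_fun_getElem A]
  exact mul_le_mul_of_nonneg_left (Finset.sum_le_sum fun t _ =>
    add_le_add le_rfl (H.envL _ (hA _ (List.getElem_mem _)))) zero_le_two

theorem low_of {Z : ZL r} {σ : SM r} (hZ : ∀ a ∈ Z.map Prod.fst, a.1 = true) (hc : Cel D Z σ) :
    ∀ z ∈ Z, σ z.2.1 z.2.2 ∈ D.lo := fun z hz => by
  have := hc z hz
  rwa [if_pos (hZ _ (List.mem_map_of_mem hz))] at this

theorem TC_mul (H : D.Ok τ0) {σ : SM r} (hσ : Rz D.B.length σ) (c : ℝ)
    (F : (Fin r → Cube D.n) → ℝ) : TC D σ (fun x => c * F x) = c * TC D σ F := by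
  obtain ⟨s, e, rfl⟩ := hσ
  rw [TC_sm H, TC_sm H, Lc_mul]

theorem bk_sub (H : D.Ok τ0) {σ : SM r} (hσ : Rz D.B.length σ) {Z : ZL r}
    (hZ : ∀ a ∈ Z.map Prod.fst, a.1 = true) (hc : Cel D Z σ) :
    |TB D σ (bk D Z σ) - TC D σ (bk D Z σ)| ≤
      τ0 ^ Z.length * |TB D σ (ovP (ez Z)) - TC D σ (ovP (ez Z))| := by
  rw [show bk D Z σ = _ from funext fun x => bk_eq H σ x Z fun z hz =>
    ⟨hZ _ (List.mem_map_of_mem hz), (CD.mem_lo.1 (low_of hZ hc z hz)).2⟩, TC_mul H hσ, TB, TM_mul,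
    ← mul_sub, abs_mul]
  exact mul_le_mul_of_nonneg_right (abs_cz H σ Z) (abs_nonneg _)

/-! ### weights -/

theorem av_list {α : Type} (φ : α → SM (1 + k + 1) → ℝ) {B : ℝ} : ∀ A : List α,
    (∀ e ∈ A, av D k (φ e) ≤ B) → av D k (fun σ => (A.map fun e => φ e σ).sum) ≤ A.length * B
  | [], _ => by simpa using (av_mul (D := D) (k := k) 0 fun _ => 0).le
  | e :: A, h => by
      simp only [List.map_cons, List.sum_cons, av_add, List.length_cons, Nat.cast_succ]
      linarith [h e List.mem_cons_self, av_list φ A fun e he => h e (List.mem_cons_of_mem _ he)]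

open Classical in
/-- a low edge with `V` clusters, both directions -/
theorem w_cl (H : D.Ok τ0) {a b : Fin (1 + k + 1)} (hab : a ≠ b) (V : ℕ) {g : ℕ → ℝ}
    (hg : ∀ y, 0 ≤ g y) :
    av D k (fun σ => if σ a b ∈ D.lo ∧ Cl σ D.J V then g (σ a b) else 0) ≤
      3 ^ (1 + k) * (D.wt * (D.X ^ (V - 2) * ∑ y ∈ D.lo, D.dx y * g y)) := by
  have hS : 0 ≤ ∑ y ∈ D.lo, D.dx y * g y :=
    Finset.sum_nonneg fun y _ => mul_nonneg (H.dx0 y) (hg y)
  have hx : ex D.B D.J ^ (V - 2) * ∑ y ∈ D.lo, D.dx y * g y ≤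
      D.X ^ (V - 2) * ∑ y ∈ D.lo, D.dx y * g y :=
    mul_le_mul_of_nonneg_right (pow_le_pow_left₀ (H.ex0 _) H.x1 _) hS
  have hX := mul_nonneg (pow_nonneg H.X0 (V - 2)) hS
  cases hD : D.W with
  | none =>
    have e : mu D = dm D.B 0 := funext fun j => by simp only [mu, CD.dd, hD]
    rw [av, e, avt_dm, CD.wt_val (by simp [hD]), one_mul]
    exact ((wb_avm H.mono (Nat.lt_succ_self D.J) (1 + k)).edge hab V
      (fun y hy => (CD.mem_lo.1 hy).2) fun y _ => hg y).trans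
        (mul_le_mul_of_nonneg_left hx (by positivity))
  | some ω =>
    have hW : D.W.isSome = true := by simp [hD]
    rw [av, avt, CD.wt_test hW, CD.Iw, sum_up H, Finset.sum_mul, Finset.mul_sum]
    refine Finset.sum_le_sum fun j hj => ?_
    rw [mu, CD.dd_test hW]
    split_ifs with h
    · have := (wb_avc H.mono (CD.mem_up.1 h).1 (Nat.lt_succ_iff.1 (Finset.mem_range.1 hj)) k).edge
        hab V (fun y hy => (CD.mem_lo.1 hy).2) fun y _ => hg y
      rw [mul_one, mul_left_comm]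
      refine mul_le_mul_of_nonneg_left (this.trans (mul_le_mul
        (pow_le_pow_right₀ (by norm_num) (by omega)) hx
        (mul_nonneg (pow_nonneg (H.ex0 _) _) hS) (by positivity))) (abs_nonneg _)
    · simp

theorem sa_length (k : ℕ) (Z : ZL (1 + k + 1)) : (sa D k Z).length ≤ Z.length + 1 := by
  have : (Ck32.ae Z).length ≤ Z.length := by
    rw [Ck32.ae, List.length_map]
    exact List.length_filter_le _ _
  unfold sa
  cases D.W <;> simp only [List.length_cons] <;> omega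

theorem two_le (H : D.Ok τ0) : D.X ^ 2 * D.Lv1 + D.tl ≤ 2 * D.E0 := by
  have h1 := H.Lad0_parts
  have h2 := H.Lad0_le
  have h3 := H.tl_le
  rw [CD.Lad0] at h2
  linarith [h1.2.1, h1.2.2]

open Classical in
/-- the reduction from a pointwise gain: either `g X ^ m ≤ X ^ 2`, or three clusters -/
theorem red_of (b : Bool) {f : List Lt} (hf : ∀ a ∈ f, a.1 = true) {m : ℕ} (hm : deg f = m + 2)
    {c : ℝ} (hc : 0 ≤ c) (hs : ∀ (τ0 : ℝ) (D : CD), D.Ok τ0 → ∀ k ≤ 2 * f.length,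
      ∀ Z : ZL (1 + k + 1), (Z.map Prod.fst).Perm f → Lf Z → ∀ σ, Sup D k σ → Cel D Z σ →
        |Ck32.TS D σ (se D (sa D k Z) σ)| * D.X ^ m ≤ c * D.X ^ 2 ∨ 1 ≤ m ∧ Cl σ D.J 3) :
    Red b f := by
  have hne : f ≠ [] := fun e => by simp [e, deg] at hm
  refine Bd.mk' fun τ0 => ⟨cG f.length * (2 * τ0 ^ f.length * (8 * (m + 2) ^ 2 *
    (c + 2 ^ (f.length + 1))) * ((m + 2) * (3 ^ (1 + 2 * f.length) * 4))), fun D H _ => ?_⟩
  set c' : ℝ := 8 * (m + 2) ^ 2 * (c + 2 ^ (f.length + 1)) with hc'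
  have t0 := H.tau0
  have x0 := H.X0
  have c0 : 0 ≤ 2 * τ0 ^ f.length * c' := by positivity
  have hE := H.wtE0_le
  have hW := mul_nonneg D.wt0 H.E00
  rw [mul_assoc]
  refine red_le H hne (mul_nonneg (mul_nonneg c0 (by positivity)) H.Err0) fun k hk Z hZ hL => ?_
  have hZ' : ∀ a ∈ Z.map Prod.fst, a.1 = true := fun a ha => hf a (hZ.subset ha)
  have hl : Z.length = f.length := by rw [← hZ.length_eq, List.length_map]
  have hd : (ez Z).length = m + 2 := by rw [ez_length, deg, (hZ.map _).sum_eq, ← hm, deg]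
  refine ⟨fun σ => 2 * τ0 ^ f.length * c' * ((ez Z).map fun e =>
    (if σ e.1 e.2 ∈ D.lo ∧ Cl σ D.J 0 then D.X ^ 2 * D.v (σ e.1 e.2) (D.J + 1) + D.tl else 0) +
      if σ e.1 e.2 ∈ D.lo ∧ Cl σ D.J 3 then D.X * D.v (σ e.1 e.2) (D.J + 1) else 0).sum, ?_,
    fun σ hσ => ⟨mul_nonneg c0 (List.sum_nonneg fun y hy => ?_), fun hC => ?_⟩⟩
  · rw [av_mul, mul_assoc _ _ D.Err]
    refine mul_le_mul_of_nonneg_left ((av_list (B := 3 ^ (1 + 2 * f.length) * 4 * D.Err) _ _
      fun e he => ?_).trans (le_of_eq (by rw [hd]; push_cast; ring))) c0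
    obtain ⟨z, hz, rfl⟩ := mem_ez he
    have h1 := w_cl H (hL z hz) 0 (g := fun y => D.X ^ 2 * D.v y (D.J + 1) + D.tl) fun y =>
      add_nonneg (mul_nonneg (sq_nonneg _) (D.v0 _ _)) H.tl0
    have h2 := w_cl H (hL z hz) 3 (g := fun y => D.X * D.v y (D.J + 1)) fun y =>
      mul_nonneg x0 (D.v0 _ _)
    have e1 : D.X ^ (0 - 2) * ∑ y ∈ D.lo, D.dx y * (D.X ^ 2 * D.v y (D.J + 1) + D.tl) ≤
        2 * D.E0 := by
      refine le_trans ?_ (two_le H)
      simp only [Nat.zero_sub, pow_zero, one_mul, mul_add, Finset.sum_add_distrib, ← Finset.sum_mul,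
        mul_left_comm _ (D.X ^ 2), ← Finset.mul_sum]
      exact add_le_add le_rfl (mul_le_of_le_one_left H.tl0 (H.sum_lo.trans H.X1))
    have e2 : D.X ^ (3 - 2) * ∑ y ∈ D.lo, D.dx y * (D.X * D.v y (D.J + 1)) ≤ 2 * D.E0 := by
      refine le_trans ?_ ((le_add_of_nonneg_right H.tl0).trans (two_le H))
      simp only [mul_left_comm _ D.X, ← Finset.mul_sum]
      exact le_of_eq (by rw [CD.Lv1]; ring)
    have e3 : (3 : ℝ) ^ (1 + k) ≤ 3 ^ (1 + 2 * f.length) :=
      pow_le_pow_right₀ (by norm_num) (by omega)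
    have e4 : ∀ y : ℝ, y ≤ 2 * D.E0 → 3 ^ (1 + k) * (D.wt * y) ≤
        3 ^ (1 + 2 * f.length) * (2 * D.Err) := fun y hy =>
      (mul_le_mul_of_nonneg_left (mul_le_mul_of_nonneg_left hy D.wt0) (by positivity)).trans
        (mul_le_mul e3 (by linarith) (by linarith) (by positivity))
    rw [av_add]
    linarith [h1.trans (e4 _ e1), h2.trans (e4 _ e2)]
  · obtain ⟨e, -, rfl⟩ := List.mem_map.1 hy
    have := D.v0 (σ e.1 e.2) (D.J + 1)
    have := H.tl0
    refine add_nonneg ?_ ?_ <;> split_ifs <;> positivity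
  · have hlo : ∀ e ∈ ez Z, σ e.1 e.2 ∈ D.lo := fun e he => by
      obtain ⟨z, hz, rfl⟩ := mem_ez he
      exact low_of hZ' hC z hz
    have s1 : |Ck32.TS D σ (se D (sa D k Z) σ)| ≤ 2 ^ (f.length + 1) :=
      (site_le H hσ.1 _).trans (pow_le_pow_right₀ one_le_two (hl ▸ sa_length k Z))
    refine (mul_le_mul_of_nonneg_right ((bk_sub H hσ.1 hZ' hC).trans (mul_le_mul_of_nonneg_left
      (ovP_repl H hσ.1 hlo hd) (by positivity))) (abs_nonneg _)).trans ?_
    dsimp only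
    rw [hl, mul_left_comm, ← mul_assoc, mul_assoc, mul_assoc _ c', ← List.sum_map_mul_right,
      ← List.sum_map_mul_left _ _ c']
    refine mul_le_mul_of_nonneg_left (List.sum_le_sum fun e he => ?_)
      (mul_nonneg zero_le_two (pow_nonneg t0 _))
    have v0 := D.v0 (σ e.1 e.2) (D.J + 1)
    have l0 := H.tl0
    have m1 : (1 : ℝ) ≤ 8 * (m + 2) ^ 2 := by nlinarith [(Nat.cast_nonneg m : (0 : ℝ) ≤ m)]
    have p0 : (0 : ℝ) ≤ 2 ^ (f.length + 1) := by positivity
    have s2 : D.tl * |Ck32.TS D σ (se D (sa D k Z) σ)| ≤ c' * D.tl := by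
      rw [mul_comm]
      exact mul_le_mul_of_nonneg_right (s1.trans ((le_add_of_nonneg_left hc).trans
        (le_mul_of_one_le_left (by positivity) m1))) l0
    rw [if_pos ⟨hlo e he, cl_zero σ _⟩, add_mul, mul_add, mul_add]
    rcases hs τ0 D H k hk Z hZ hL σ hσ hC with h | ⟨h1, h3⟩
    · have s3 : 8 * (m + 2) ^ 2 * D.X ^ m * D.v (σ e.1 e.2) (D.J + 1) *
          |Ck32.TS D σ (se D (sa D k Z) σ)| ≤ c' * (D.X ^ 2 * D.v (σ e.1 e.2) (D.J + 1)) := by
        have := mul_le_mul_of_nonneg_left (h.trans (mul_le_mul_of_nonneg_right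
          (le_add_of_nonneg_right p0) (sq_nonneg _))) (mul_nonneg (zero_le_one.trans m1) v0)
        rw [hc']
        linarith
      have s4 : 0 ≤ c' * if σ e.1 e.2 ∈ D.lo ∧ Cl σ D.J 3 then
          D.X * D.v (σ e.1 e.2) (D.J + 1) else 0 := by split_ifs <;> positivity
      linarith
    · have s3 : 8 * (m + 2) ^ 2 * D.X ^ m * D.v (σ e.1 e.2) (D.J + 1) *
          |Ck32.TS D σ (se D (sa D k Z) σ)| ≤ c' * (D.X * D.v (σ e.1 e.2) (D.J + 1)) := by
        have := mul_le_mul_of_nonneg_left (mul_le_mul (s1.trans (le_add_of_nonneg_left hc))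
          (pow_le_of_le_one x0 H.X1 (by omega : m ≠ 0)) (by positivity) (by positivity))
          (mul_nonneg (zero_le_one.trans m1) v0)
        rw [hc']
        linarith
      have s4 : 0 ≤ c' * (D.X ^ 2 * D.v (σ e.1 e.2) (D.J + 1)) := by positivity
      rw [if_pos ⟨hlo e he, h3⟩]
      linarith

/-- **low words of degree at least four** -/
theorem red_four (b : Bool) {f : List Lt} (hf : ∀ a ∈ f, a.1 = true) (h4 : 4 ≤ deg f) : Red b f := by
  obtain ⟨m, hm⟩ : ∃ m, deg f = m + 2 + 2 := ⟨deg f - 4, by omega⟩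
  refine red_of b hf hm (c := 2 ^ (f.length + 1)) (by positivity)
    fun τ0 D H k _ Z hZ _ σ hσ _ => .inl (mul_le_mul ?_
      (pow_le_pow_of_le_one H.X0 H.X1 (by omega)) (pow_nonneg H.X0 _) (by positivity))
  have hl : Z.length = f.length := by rw [← hZ.length_eq, List.length_map]
  exact (site_le H hσ.1 _).trans (pow_le_pow_right₀ one_le_two (hl ▸ sa_length k Z))

theorem red_a4 (b : Bool) : Red b [aL, aL, aL, aL] := red_four b (by decide) (by decide)
theorem red_aab (b : Bool) : Red b [aL, aL, bL] := red_four b (by decide) (by decide)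
theorem red_bb (b : Bool) : Red b [bL, bL] := red_four b (by decide) (by decide)

theorem crs_two {K i : ℕ} {σ : SM r} (hσ : Rz K σ) (hi : i < K) (h3 : ¬Cl σ i 3) {a b x y : Fin r}
    (hab : σ a b ≤ i) (hxy : σ x y ≤ i) : Site94.Crs σ a i x y := by
  have hT : ¬Site94.Tri σ i := fun ⟨u, v, w, h1, h2, h4⟩ => h3 (cl_three hσ
    (fun e => by rw [e, hσ.self] at h1; omega) (fun e => by rw [e, hσ.self] at h2; omega)
    (fun e => by rw [e, hσ.self] at h4; omega) h1 h2 h4)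
  have u : ∀ a x y, min (σ a x) (σ a y) ≤ σ x y := fun a x y => hσ.comm x a ▸ hσ.ultra x a y
  have v : ∀ d, i < σ a d ∨ i < σ b d := fun d => by
    by_contra h'
    exact hT ⟨a, b, d, hab, by omega, by omega⟩
  have := v x; have := v y; have := u a x y; have := u b x y
  unfold Site94.Crs
  omega

/-- **the cubic low word** -/
theorem red_a3 (b : Bool) : Red b [aL, aL, aL] := by
  refine red_of b (by decide) (m := 1) rfl (c := 2 ^ 4 * Site94.cP 8 2)
    (mul_nonneg (by positivity) (Site94.cP_nonneg _ _)) fun τ0 D H k hk Z hZ _ σ hσ hC => ?_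
  by_cases h3 : Cl σ D.J 3
  · exact .inr ⟨le_rfl, h3⟩
  have hZ' : Z.map Prod.fst = [aL, aL, aL] := (List.perm_replicate (n := 3) (a := aL)).1 hZ
  have hlo := low_of (fun a ha => by rw [hZ'] at ha; revert a; decide) hC
  obtain ⟨⟨a1, e1⟩, ⟨a2, e2⟩, ⟨a3, e3⟩, rfl⟩ := List.length_eq_three.1
    ((List.length_map (as := Z) Prod.fst).symm.trans (congrArg List.length hZ'))
  simp only [List.map_cons, List.map_nil, List.cons.injEq, and_true] at hZ'
  obtain ⟨rfl, rfl, rfl⟩ := hZ'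
  have l1 := (CD.mem_lo.1 (hlo (aL, e1) (by simp))).2
  have c : ∀ e : Fin (1 + k + 1) × Fin (1 + k + 1), (aL, e) ∈ [(aL, e1), (aL, e2), (aL, e3)] →
      Site94.Crs σ e1.1 D.J e.1 e.2 := fun e he =>
    crs_two hσ.1 (cutB H) h3 l1 (CD.mem_lo.1 (hlo _ he)).2
  have ho : Odd ((sa D k [(aL, e1), (aL, e2), (aL, e3)]).map fun e =>
      if Site94.Crs σ e1.1 D.J e.1 e.2 then 1 else 0).sum := by
    have h0 : Ck32.ae [(aL, e1), (aL, e2), (aL, e3)] = [e1, e2, e3] := rfl
    have h1 : Odd (([e1, e2, e3].map fun e =>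
        if Site94.Crs σ e1.1 D.J e.1 e.2 then 1 else 0).sum : ℕ) := by
      simp only [List.map_cons, List.map_nil, List.sum_cons, List.sum_nil,
        if_pos (c e1 (by simp)), if_pos (c e2 (by simp)), if_pos (c e3 (by simp))]
      decide
    unfold sa
    cases hD : D.W with
    | none => exact h0 ▸ h1
    | some ω =>
      have h2 := (CD.mem_up.1 (hσ.2 (by simp [hD]))).1
      dsimp only
      rw [List.map_cons, List.sum_cons, if_neg fun hc => absurd (hc.le hσ.1) (not_le.2 h2), zero_add]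
      exact h0 ▸ h1
  have h1 := site_odd H hσ.1 _ ho
  have h2 : (2 : ℝ) ^ (sa D k [(aL, e1), (aL, e2), (aL, e3)]).length ≤ 2 ^ 4 :=
    pow_le_pow_right₀ one_le_two (sa_length k _)
  have h4 : Site94.cP (1 + k + 1) 2 ≤ Site94.cP 8 2 := by
    have : ((1 + k + 1 : ℕ) : ℝ) ≤ (8 : ℕ) := by exact_mod_cast (by simp at hk; omega)
    unfold Site94.cP
    gcongr
  have h5 := Site94.cP_nonneg (1 + k + 1) 2
  have x0 := H.X0
  refine .inl ((mul_le_mul_of_nonneg_right h1 (pow_nonneg x0 _)).trans ?_)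
  rw [mul_assoc _ (D.X ^ 3), ← pow_add]
  exact mul_le_mul (mul_le_mul h2 h4 h5 (by positivity))
    (pow_le_pow_of_le_one x0 H.X1 (by norm_num)) (by positivity)
    (mul_nonneg (by positivity) (Site94.cP_nonneg _ _))

/-- **one low letter: exact** -/
theorem red_one (H : D.Ok τ0) {a : Lt} (ha : a.1 = true) : D.tw [a] = cw D [a] := by
  refine sub_eq_zero.1 (abs_nonpos_iff.1 ((red_le H (List.cons_ne_nil _ _) le_rfl
    fun k _ Z hZ hL => ⟨fun _ => 0, ((w_const H 0).trans (mul_zero _)).le, fun σ hσ =>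
      ⟨le_rfl, fun hC => ?_⟩⟩).trans_eq (mul_zero _)))
  have hZ' := List.perm_singleton.1 hZ
  obtain ⟨⟨a', e⟩, rfl⟩ := List.length_eq_one_iff.1
    ((List.length_map (as := Z) Prod.fst).symm.trans (congrArg List.length hZ'))
  have hl := (CD.mem_lo.1 (low_of (fun a' h => by
    rw [hZ', List.mem_singleton] at h; rw [h, ha]) hC (a', e) (by simp))).2
  obtain ⟨κ, _, σ', φ, h1, h2, h3, -⟩ := TC_TK H hσ.1
  have h4 := h3 e.1 e.2
  have hi := cutB H
  have h5 : σ' (φ e.1) (φ e.2) = σ e.1 e.2 := by dsimp only at hl; omega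
  have h6 : φ e.1 ≠ φ e.2 := fun h => by
    rw [h, h1.self] at h5
    dsimp only at hl
    omega
  have e1 : bk D [(a', e)] σ = fun x =>
      (lt D.n D.β D.M D.q D.cl a').1 (σ e.1 e.2) (x e.1) (x e.2) := funext fun x => mul_one _
  rw [TB_eq hσ.1, h2, e1, TK_pair wt_one90 (um_rz hσ.1) (hL (a', e) (by simp)),
    TK_pair wt_one90 h1 h6, h5, sub_self, abs_zero, zero_mul]

theorem red_a (b : Bool) : Red b [aL] := Bd.mk' fun _ => ⟨0, fun D H _ => by
  rw [red_one H rfl, sub_self, abs_zero, zero_mul]⟩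

/-- a leaf on the cluster word is a leaf on the word -/
theorem Red.bd {b : Bool} {f : List Lt} (h : Red b f) {g : CD → ℝ}
    (H : Bd b fun D => cw D f - g D) : Bd b fun D => D.tw f - g D := fun τ0 => by
  obtain ⟨C, h0, h1⟩ := h τ0
  obtain ⟨C', h2, h3⟩ := H τ0
  refine ⟨C + C', add_nonneg h0 h2, fun D hD hW => ?_⟩
  rw [add_mul]
  exact (abs_sub_le _ (cw D f) _).trans (add_le_add (h1 D hD hW) (h3 D hD hW))

end Crest.Agent.T156.Cas.C40.L90

end
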