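import Crest.Agent.T156.RpB_90

/-!
# Row 156: transport of the low split of two clusters (helper84)
-/

set_option autoImplicit false
set_option linter.unusedSectionVars false

noncomputable section

namespace Crest.Agent.T156.Cas.Tr84

open MeasureTheory Real Set Filter Topology
open Crest.Agent.T157.E Crest.Agent.T157.Casc Crest.Agent.T157.SL
open Nu87

variable {Θ : Type} [Fintype Θ] {L : List (Lv Θ)} {r K J y : ℕ}

/-- all low splits are moved to `J` -/
def sy (J : ℕ) (σ : SM r) : SM r := fun a b => if σ a b ≤ J then J else σ a b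

/-- three clusters -/
def Tr (J : ℕ) (σ : SM r) : Prop := ∃ u v w, σ u v ≤ J ∧ σ u w ≤ J ∧ σ v w ≤ J

/-- two clusters, split at `y` -/
def Two (J y : ℕ) (σ : SM r) : Prop := ¬Tr J σ ∧ ∃ a b, σ a b = y

/-- one cluster -/
def One (J : ℕ) (σ : SM r) : Prop := ∀ a b, J < σ a b

open Classical in
/-- a functional of the upper part of two clusters split at `y` -/
def Ph (J y : ℕ) (T : SM r → ℝ) (σ : SM r) : ℝ := if Two J y σ then T (sy J σ) else 0

theorem cl_iff {σ : SM r} (h : Rz K σ) (hJ : J < K) : W90.Cl σ J 3 ↔ Tr J σ := by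
  constructor
  · rintro ⟨A, h1, h2⟩
    obtain ⟨u, hu, v, hv, w, hw, e1, e2, e3⟩ := Finset.two_lt_card.1 h1
    exact ⟨u, v, w, h2 u hu v hv e1, h2 u hu w hw e2, h2 v hv w hw e3⟩
  · rintro ⟨u, v, w, h1, h2, h3⟩
    exact W90.cl_three h (fun e => by rw [e, h.self] at h1; omega)
      (fun e => by rw [e, h.self] at h2; omega) (fun e => by rw [e, h.self] at h3; omega) h1 h2 h3

theorem sy_gr (hJ : J < K) (τ : SM r) (a : Fin r) {j : ℕ} (hj : J < j) :
    sy J (gr K τ a j) = gr K (sy J τ) a j := by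
  funext b c
  refine Fin.cases ?_ (fun b => ?_) b <;> refine Fin.cases ?_ (fun c => ?_) c <;>
    simp only [sy, gr_00, gr_0s, gr_s0, gr_ss]
  all_goals split_ifs <;> omega

theorem sy_gr_one (hJ : J < K) {τ : SM r} (h1 : One J τ) (a : Fin r) {j : ℕ} (hj : j ≤ J) :
    sy J (gr K τ a j) = gr K τ a J := by
  funext b c
  refine Fin.cases ?_ (fun b => ?_) b <;> refine Fin.cases ?_ (fun c => ?_) c <;>
    simp only [sy, gr_00, gr_0s, gr_s0, gr_ss]
  · rw [if_neg (by omega)]
  · have := h1 c a; split_ifs <;> omega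
  · have := h1 b a; split_ifs <;> omega
  · have := h1 b c; split_ifs <;> omega

theorem two_gr_one (hJ : J < K) (hy : y ≤ J) {τ : SM r} (h1 : One J τ) (a : Fin r) (j : ℕ) :
    Two J y (gr K τ a j) ↔ j = y := by
  constructor
  · rintro ⟨-, b, c, h⟩
    revert h
    refine Fin.cases ?_ (fun b => ?_) b <;> refine Fin.cases ?_ (fun c => ?_) c <;>
      simp only [gr_00, gr_0s, gr_s0, gr_ss] <;> intro h
    · omega
    · have := h1 c a; omega
    · have := h1 b a; omega
    · have := h1 b c; omega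
  · rintro rfl
    refine ⟨fun ⟨u, v, w, h⟩ => ?_, 0, a.succ, ?_⟩
    · revert h
      refine Fin.cases ?_ (fun u => ?_) u <;> refine Fin.cases ?_ (fun v => ?_) v <;>
        refine Fin.cases ?_ (fun w => ?_) w <;> simp only [gr_00, gr_0s, gr_s0, gr_ss] <;>
        rintro ⟨e1, e2, e3⟩ <;>
        first | omega | exact absurd e1 (h1 _ _).not_ge | exact absurd e2 (h1 _ _).not_ge |
          exact absurd e3 (h1 _ _).not_ge
    · have := h1 a a
      rw [gr_0s]
      omega

theorem two_gr (hJ : J < K) (hy : y ≤ J) {τ : SM r} (h : Rz K τ) (h1 : ¬One J τ) (a : Fin r)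
    (j : ℕ) : Two J y (gr K τ a j) ↔ Two J y τ ∧ J < j := by
  have cm := h.comm
  constructor
  · rintro ⟨h2, b, c, h3⟩
    have hj : J < j := by
      by_contra hj
      obtain ⟨u, hu⟩ := not_forall.1 h1
      obtain ⟨v, hv⟩ := not_forall.1 hu
      exact h2 ⟨0, u.succ, v.succ, by rw [gr_0s]; omega, by rw [gr_0s]; omega, by
        rw [gr_ss]; omega⟩
    refine ⟨⟨fun ⟨u, v, w, e⟩ => h2 ⟨u.succ, v.succ, w.succ, e⟩, ?_⟩, hj⟩
    revert h3
    refine Fin.cases ?_ (fun b => ?_) b <;> refine Fin.cases ?_ (fun c => ?_) c <;>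
      simp only [gr_00, gr_0s, gr_s0, gr_ss] <;> intro h3
    · omega
    · exact ⟨c, a, by omega⟩
    · exact ⟨b, a, by omega⟩
    · exact ⟨b, c, h3⟩
  · rintro ⟨⟨h2, b, c, h3⟩, hj⟩
    refine ⟨fun ⟨u, v, w, e⟩ => h2 ?_, b.succ, c.succ, h3⟩
    revert e
    refine Fin.cases ?_ (fun u => ?_) u <;> refine Fin.cases ?_ (fun v => ?_) v <;>
      refine Fin.cases ?_ (fun w => ?_) w <;> simp only [gr_00, gr_0s, gr_s0, gr_ss] <;>
      rintro ⟨e1, e2, e3⟩
    · omega
    · omega
    · omega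
    · exact ⟨a, v, w, by rw [cm]; omega, by rw [cm]; omega, e3⟩
    · omega
    · exact ⟨u, a, w, by omega, e2, by rw [cm]; omega⟩
    · exact ⟨u, v, a, e1, by omega, by omega⟩
    · exact ⟨u, v, w, e1, e2, e3⟩

theorem Ws_sy (τ : SM r) {G : Fin r → ℕ → ℝ} (hG : ∀ a, ∀ j ≤ J, G a j = 0) :
    Ws L τ G = Ws L (sy J τ) G := by
  unfold Ws
  congr 1
  refine Finset.sum_congr rfl fun j _ => congrArg _ (Finset.sum_congr rfl fun a _ => ?_)
  rcases lt_or_ge j J with h | h
  · rw [hG a j h.le, hG a (j + 1) h, sub_self, zero_div, zero_div]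
  · congr 2
    exact congrArg Finset.card (Finset.filter_congr fun b _ => by
      simp only [sy]; split_ifs <;> omega)

theorem Ws_one (hJ : J < L.length) (hy : y ≤ J) {τ : SM (r + 1)} (h1 : One J τ) (θ : ℝ) :
    Ws L τ (fun _ j => if j = y then θ else 0) = dm L 0 y * θ := by
  have c : ∀ a, ∀ j ≤ J, cls τ a (j + 1) = r + 1 := fun a j hj => by
    rw [cls, Finset.filter_true_of_mem fun b _ => by have := h1 a b; omega, Finset.card_univ,
      Fintype.card_fin]
  have hr : ((r : ℝ) + 1) ≠ 0 := by positivity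
  have key : ∀ j, ∑ a, ((if j = y then θ else 0) - if j + 1 = y then θ else 0) /
      (cls τ a (j + 1) : ℝ) = (if j = y then θ else 0) - if j + 1 = y then θ else 0 := fun j => by
    rcases le_or_gt j J with h | h
    · simp only [fun a => c a j h, Finset.sum_const, Finset.card_univ, Fintype.card_fin,
        nsmul_eq_mul]
      push_cast
      exact mul_div_cancel₀ _ hr
    · rw [if_neg (by omega), if_neg (by omega)]
      simp
  have e2 : ∑ m ∈ Finset.range L.length, ex L m * (if m + 1 = y then θ else 0) = exP L 0 y * θ := by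
    cases y with
    | zero => simp [exP]
    | succ i =>
      simp only [Nat.add_right_cancel_iff, mul_ite, mul_zero, Finset.sum_ite_eq', exP]
      exact if_pos (Finset.mem_range.2 (by omega))
  simp only [Ws, key, mul_sub, Finset.sum_sub_distrib, e2, if_neg (show ¬L.length = y by omega)]
  simp only [mul_ite, mul_zero, Finset.sum_ite_eq',
    if_pos (Finset.mem_range.2 (hy.trans_lt hJ)), dm]
  simp
  ring

open Classical in
theorem up1_Ph (hJ : J < L.length) (hy : y ≤ J) (T : SM (r + 2) → ℝ) {τ : SM (r + 1)}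
    (h : Rz L.length τ) : up1 L (Ph J y T) τ =
      Ph J y (fun σ => Ws L σ (fun a j => if J < j then T (gr L.length σ a j) else 0) / (r + 1)) τ +
        dm L 0 y * if One J τ then T (gr L.length τ 0 J) / (r + 1) else 0 := by
  rw [up1]
  by_cases h1 : One J τ
  · rw [if_pos h1, Ph, if_neg fun ⟨_, a, b, e⟩ => by have := h1 a b; omega, zero_add,
      ← mul_div_assoc, ← Ws_one hJ hy h1]
    congr 2
    funext a j
    rw [Ph]
    refine if_congr (two_gr_one hJ hy h1 a j) rfl rfl |>.trans ?_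
    split_ifs with e
    · rw [sy_gr_one hJ h1 a (e.trans_le hy), h.gr_eq (b := 0) (h1 _ _).le]
    · rfl
  · rw [if_neg h1, mul_zero, add_zero, Ph]
    split_ifs with h2
    · rw [← Ws_sy τ fun a j hj => if_neg (not_lt.2 hj)]
      congr 2
      funext a j
      rw [Ph]
      refine if_congr ((two_gr hJ hy h h1 a j).trans (and_iff_right h2)) rfl rfl |>.trans ?_
      split_ifs with e
      · rw [sy_gr hJ τ a e]
      · rfl
    · rw [show (fun a j => Ph J y T (gr L.length τ a j)) = fun _ _ => 0 from funext₂ fun a j =>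
        if_neg fun e => h2 ((two_gr hJ hy h h1 a j).1 e).1, Ws_const, mul_zero, zero_div]

/-- **transport** -/
theorem avc_Ph (hJ : J < L.length) {σ : SM (r + 1)} (h : Rz L.length σ) (h1 : One J σ) :
    ∀ (k : ℕ) (T : SM (r + k + 1) → ℝ), ∃ c, ∀ y ≤ J, avc L σ k (Ph J y T) = dm L 0 y * c
  | 0, T => ⟨0, fun y hy => by
      rw [avc, mul_zero]
      exact if_neg fun ⟨_, a, b, e⟩ => by have := h1 a b; omega⟩
  | k + 1, T => by
      classical
      obtain ⟨c, hc⟩ := avc_Ph hJ h h1 k fun σ =>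
        Ws L σ (fun a j => if J < j then T (gr L.length σ a j) else 0) / ((r + k : ℕ) + 1)
      refine ⟨c + avc L σ k fun τ => if One J τ then T (gr L.length τ 0 J) / ((r + k : ℕ) + 1)
        else 0, fun y hy => ?_⟩
      rw [avc, avc_congr h k fun τ hτ => up1_Ph (r := r + k) hJ hy T hτ, avc_add, avc_mul,
        hc y hy, mul_add]

/-- transport with a bound -/
theorem avc_Ph' (hL : Mono 0 L) (hJ : J < L.length) {σ : SM (r + 1)} (h : Rz L.length σ)
    (h1 : One J σ) (k : ℕ) (T : SM (r + k + 1) → ℝ) {A : Finset ℕ} (hA : ∀ y ∈ A, y ≤ J) {β : ℝ}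
    (h0 : 0 ≤ β) (hβ : ∀ y ∈ A, |avc L σ k (Ph J y T)| ≤ dm L 0 y * β) :
    ∃ c, |c| ≤ β ∧ ∀ y ∈ A, avc L σ k (Ph J y T) = dm L 0 y * c := by
  obtain ⟨c, hc⟩ := avc_Ph hJ h h1 k T
  by_cases e : ∃ y ∈ A, dm L 0 y ≠ 0
  · obtain ⟨y, hy, e⟩ := e
    have hp := (dm_nonneg hL y).lt_of_ne' e
    refine ⟨c, le_of_mul_le_mul_left ?_ hp, fun y hy => hc y (hA y hy)⟩
    have := hβ y hy
    rwa [hc y (hA y hy), abs_mul, abs_of_pos hp] at this
  · refine ⟨0, by rwa [abs_zero], fun y hy => ?_⟩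
    have e1 : dm L 0 y = 0 := by
      by_contra e1
      exact e ⟨y, hy, e1⟩
    rw [hc y (hA y hy), e1, zero_mul, zero_mul]

end Crest.Agent.T156.Cas.Tr84

end
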