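import Crest.Agent.T156.CMxE_84
import Crest.Agent.T156.CMxT_84

/-!
# Row 156, block C: the canonical part of the centred mixed word, and the glue (helper84)
-/

set_option autoImplicit false
set_option linter.unusedSectionVars false

noncomputable section

namespace Crest.Agent.T156.Cas.C40.Mx84

open MeasureTheory Real Set Filter Topology
open Crest.Agent.T157.E Crest.Agent.T157.Casc Crest.Agent.T157.SL
open Crest.Agent.T157.G1 (ov)
open Mul55 G90 Nu87 Ck32 Tr84
open Cw55 (Uc)

variable {D : CD} {τ0 : ℝ} {r k : ℕ}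

/-! ### labels -/

/-- weight of a label that may be the base label -/
def mw (D : CD) (j u : ℕ) : ℝ := if u = j then 1 else D.dx u

/-- weight of a label that may also be absent -/
def nw (D : CD) (j s : ℕ) : ℝ := if s = j ∨ s = D.K then 1 else D.dx s

theorem mw0 (H : D.Ok τ0) (j u : ℕ) : 0 ≤ mw D j u := by
  unfold mw; split_ifs; exacts [zero_le_one, H.dx0 u]

theorem nw0 (H : D.Ok τ0) (j s : ℕ) : 0 ≤ nw D j s := by
  unfold nw; split_ifs; exacts [zero_le_one, H.dx0 s]

theorem sum_nw (H : D.Ok τ0) (j : ℕ) : ∑ s ∈ Finset.Ioc D.J D.K, nw D j s ≤ 3 := by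
  have h1 : ∀ i, ∑ s ∈ Finset.Ioc D.J D.K, (if s = i then (1 : ℝ) else 0) ≤ 1 := fun i => by
    rw [Finset.sum_ite_eq']
    split_ifs <;> norm_num
  refine (Finset.sum_le_sum (g := fun s => (if s = j then 1 else 0) + (if s = D.K then 1 else 0) +
    D.dx s) fun s _ => ?_).trans ?_
  · have := H.dx0 s
    unfold nw
    split_ifs <;> first | linarith | tauto
  · rw [Finset.sum_add_distrib, Finset.sum_add_distrib]
    linarith [h1 j, h1 D.K, H.sum_dx_one (A := Finset.Ioc D.J D.K) fun i hi =>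
      (Finset.mem_Ioc.1 hi).2]

theorem lab_bd (H : D.Ok τ0) {j c : ℕ} {P : SM r → Prop} {A : (SM r → ℝ) → ℝ}
    (W : R90.WB D.B D.J j c P A) {y s u : ℕ} (hy : y ≤ D.J) (hs : D.J < s) (hu : D.J < u)
    (hsu : s ≠ u) {B : ℝ} (hB : 0 ≤ B) {φ : SM r → ℝ} (h : ∀ σ, P σ → φ σ ≠ 0 → |φ σ| ≤ B ∧
      W90.Lab σ y ∧ W90.Lab σ u ∧ (s ≠ D.K → W90.Lab σ s)) :
    |A φ| ≤ D.dx y * (B * 5 ^ c * (nw D j s * mw D j u)) := by
  classical
  have hj := W.lt
  set S : Finset ℕ := if s = j ∨ s = D.K then ∅ else {s} with hS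
  set U : Finset ℕ := if u = j then ∅ else {u} with hU
  have mS : ∀ v ∈ S, v = s ∧ s ≠ j ∧ s ≠ D.K := fun v hv => by
    rw [hS] at hv
    split_ifs at hv with e
    · simp at hv
    · exact ⟨Finset.mem_singleton.1 hv, not_or.1 e⟩
  have mU : ∀ v ∈ U, v = u ∧ u ≠ j := fun v hv => by
    rw [hU] at hv
    split_ifs at hv with e
    · simp at hv
    · exact ⟨Finset.mem_singleton.1 hv, e⟩
  have pS : ∏ v ∈ S, dm D.B 0 v = nw D j s := by
    rw [hS, nw]; split_ifs <;> simp
  have pU : ∏ v ∈ U, dm D.B 0 v = mw D j u := by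
    rw [hU, mw]; split_ifs <;> simp
  have cS : S.card ≤ 1 := by rw [hS]; split_ifs <;> simp
  have cU : U.card ≤ 1 := by rw [hU]; split_ifs <;> simp
  have dj : Disjoint S U := Finset.disjoint_left.2 fun v h1 h2 =>
    hsu ((mS v h1).1.symm.trans (mU v h2).1)
  have ny : y ∉ S ∪ U := fun e => by
    rcases Finset.mem_union.1 e with e | e
    · have := (mS y e).1; omega
    · have := (mU y e).1; omega
  have h1 := W.ind (insert y (S ∪ U)) 0 fun e => by
    rcases Finset.mem_insert.1 e with e | e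
    · omega
    rcases Finset.mem_union.1 e with e | e
    · exact (mS j e).2.1 (mS j e).1.symm
    · exact (mU j e).2 (mU j e).1.symm
  rw [Finset.prod_insert ny, Finset.prod_union dj, pS, pU, Nat.zero_sub, pow_zero,
    mul_one] at h1
  have c5 : (2 + (insert y (S ∪ U)).card : ℝ) ≤ 5 := by
    have : (insert y (S ∪ U)).card ≤ 3 :=
      (Finset.card_insert_le _ _).trans (by have := Finset.card_union_le S U; omega)
    have : ((insert y (S ∪ U)).card : ℝ) ≤ 3 := by exact_mod_cast this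
    linarith
  refine (W.abs_le' (ψ := fun σ => B * W90.ind D.J (insert y (S ∪ U)) 0 σ) fun σ hσ => ?_).trans ?_
  · by_cases e : φ σ = 0
    · rw [e, abs_zero]
      exact mul_nonneg hB (W90.ind_nonneg _ _ _ _)
    · obtain ⟨h2, h3, h4, h5⟩ := h σ hσ e
      have h6 : ∀ v ∈ insert y (S ∪ U), W90.Lab σ v := fun v hv => by
        rcases Finset.mem_insert.1 hv with e | e
        · exact e ▸ h3
        rcases Finset.mem_union.1 e with e | e
        · exact (mS v e).1 ▸ h5 (mS v e).2.2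
        · exact (mU v e).1 ▸ h4
      rw [W90.ind, if_pos ⟨h6, W90.cl_zero σ _⟩, mul_one]
      exact h2
  · rw [W.mul]
    refine (mul_le_mul_of_nonneg_left (h1.trans (mul_le_mul_of_nonneg_right
      (pow_le_pow_left₀ (by positivity) c5 c) (mul_nonneg (H.dx0 y)
        (mul_nonneg (nw0 H j s) (mw0 H j u))))) hB).trans (le_of_eq (by ring))

/-! ### the canonical form as a sum over labels -/

theorem two_lab {K J : ℕ} {σ : SM r} (h : Rz K σ) (h3 : ¬Tr J σ) {a c a' c' : Fin r}
    (h1 : σ a c ≤ J) (h2 : σ a' c' ≤ J) : σ a' c' = σ a c := by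
  have v : ∀ z, J < σ a z ∨ J < σ c z := fun z => by
    by_contra e
    exact h3 ⟨a, c, z, h1, by omega, by omega⟩
  have u := h.ultra
  have m := h.comm
  have := v a'; have := v c'
  have := u a' a c'; have := u a' c c'; have := u a a' c'; have := u c a' c'
  have := u a c' c; have := u a a' c; have := u a c c'; have := u a c a'; have := u c a c'
  have := u c a a'; have := u a c' a'; have := u c c' a'
  have := m a a'; have := m c a'; have := m c c'; have := m a c; have := m a' c'; have := m a c'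
  omega

theorem cat_norm {K y s u : ℕ} (hy : y ≤ u) (hs : u ≤ s) (hu : u ≤ K) :
    cat K y s u = cat K y K u := by
  funext i j
  fin_cases i <;> fin_cases j <;> simp [cat, R90.lf] <;> omega

theorem Bk_norm (D : CD) {y s u : ℕ} (hy : y ≤ u) (hs : u ≤ s) (hu : u ≤ D.K) :
    Bk D y s u = Bk D y D.K u := by
  rw [Bk, Bk, lenB, cat_norm hy hs hu]

section graph
variable (D) (k) (a c b d p q : Fin (1 + k + 1))

/-- the normalised split of the leg -/
def sn (σ : SM (1 + k + 1)) : ℕ :=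
  if max (σ a p) (σ c p) < σ p q then max (σ a p) (σ c p) else D.K

/-- the site coefficient with prescribed upper labels -/
def Th (s u : ℕ) (σ : SM (1 + k + 1)) : ℝ :=
  if σ a c ≤ D.J ∧ σ b d ≤ D.J ∧ sn D k a c p q σ = s ∧ σ p q = u then
    D.τ u / 8 * Ck32.TS D σ (se D (sA D k a c b d p q) σ) else 0

variable {D k a c b d p q}

open Classical in
theorem Ph_Th (_H : D.Ok τ0) {σ : SM (1 + k + 1)} (hσ : Rz D.B.length σ) {y s u : ℕ} (hy : y ≤ D.J)
    (hu : D.J < u) : Tr84.Ph D.J y (Th D k a c b d p q s u) σ =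
      if ¬Tr D.J σ ∧ σ a c = y ∧ σ b d ≤ D.J ∧ sn D k a c p q σ = s ∧ σ p q = u then
        D.τ u / 8 * Ck32.TS D (sety D.J σ) (se D (sA D k a c b d p q) (sety D.J σ)) else 0 := by
  have e1 : ∀ x z, sy D.J σ x z ≤ D.J ↔ σ x z ≤ D.J := fun x z => by
    simp only [sy]; split_ifs <;> omega
  have e2 : sy D.J σ p q = u ↔ σ p q = u := by simp only [sy]; split_ifs <;> omega
  have e3 : ¬Tr D.J σ → σ a c ≤ D.J → σ p q = u →
      sn D k a c p q (sy D.J σ) = sn D k a c p q σ := fun h1 h2 h3 => by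
    have : D.J < σ a p ∨ D.J < σ c p := by
      by_contra e
      exact h1 ⟨a, c, p, h2, by omega, by omega⟩
    have e4 : max (sy D.J σ a p) (sy D.J σ c p) = max (σ a p) (σ c p) := by
      simp only [sy]; split_ifs <;> omega
    rw [sn, sn, e4, e2.2 h3, h3]
  rw [Tr84.Ph, Th]
  split_ifs with h1 h2 h3 h3 h3
  · rfl
  · obtain ⟨h4, x, z, h5⟩ := h1
    have h6 := (e1 _ _).1 h2.1
    exact absurd ⟨h4, (two_lab hσ h4 h6 (h5.trans_le hy)).symm.trans h5, (e1 _ _).1 h2.2.1,
      (e3 h4 h6 (e2.1 h2.2.2.2)).symm.trans h2.2.2.1, e2.1 h2.2.2.2⟩ h3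
  · exact absurd ⟨(e1 _ _).2 (h3.2.1.trans_le hy), (e1 _ _).2 h3.2.2.1,
      (e3 h3.1 (h3.2.1.trans_le hy) h3.2.2.2.2).trans h3.2.2.2.1, e2.2 h3.2.2.2.2⟩ h2
  · rfl
  · exact absurd ⟨h3.1, a, c, h3.2.1⟩ h1
  · rfl

theorem FC_eq (H : D.Ok τ0) {σ : SM (1 + k + 1)} (hσ : Rz D.B.length σ) :
    FC D k a c b d p q σ = ∑ s ∈ Finset.Ioc D.J D.K, ∑ u ∈ D.up, ∑ y ∈ D.lo,
      D.τ y ^ 2 * Bk D y s u * Tr84.Ph D.J y (Th D k a c b d p q s u) σ := by
  have hP : ∀ s, ∀ u ∈ D.up, ∀ y ∈ D.lo, _ := fun s u hu y hy =>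
    Ph_Th (a := a) (c := c) (b := b) (d := d) (p := p) (q := q) (s := s) H hσ
      (CD.mem_lo.1 hy).2 (CD.mem_up.1 hu).1
  rw [FC, cl_iff hσ (L90.cutB H)]
  split_ifs with h
  · obtain ⟨h1, h2, h3, h4⟩ := h
    have l2 := (CD.mem_lo.1 h2).2
    have l4 := CD.mem_up.1 h4
    have : D.J < σ a p ∨ D.J < σ c p := by
      by_contra e
      exact h1 ⟨a, c, p, l2, by omega, by omega⟩
    have hs : sn D k a c p q σ ∈ Finset.Ioc D.J D.K := by
      rw [Finset.mem_Ioc, sn]
      split_ifs <;> omega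
    rw [Finset.sum_eq_single_of_mem _ hs fun s _ e => Finset.sum_eq_zero fun u hu =>
        Finset.sum_eq_zero fun y hy => by
          rw [hP s u hu y hy, if_neg fun h => e h.2.2.2.1.symm, mul_zero],
      Finset.sum_eq_single_of_mem _ h4 fun u hu e => Finset.sum_eq_zero fun y hy => by
          rw [hP _ u hu y hy, if_neg fun h => e h.2.2.2.2.symm, mul_zero],
      Finset.sum_eq_single_of_mem _ h2 fun y hy e => by
          rw [hP _ _ h4 y hy, if_neg fun h => e h.2.1.symm, mul_zero],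
      hP _ _ h4 _ h2, if_pos ⟨h1, rfl, h3, rfl, rfl⟩, sn]
    split_ifs with e
    · rfl
    · rw [Bk_norm D (by omega) (not_lt.1 e) l4.2.le]
  · refine (Finset.sum_eq_zero fun s _ => Finset.sum_eq_zero fun u hu => Finset.sum_eq_zero
      fun y hy => ?_).symm
    rw [hP s u hu y hy, if_neg, mul_zero]
    exact fun e => h ⟨e.1, e.2.1 ▸ hy, e.2.2.1, e.2.2.2.2 ▸ hu⟩

theorem sA_len : (sA D k a c b d p q).length ≤ 4 := by
  unfold sA L90.mA
  cases D.W <;> simp

theorem rz_sety (H : D.Ok τ0) {σ : SM (r + 1)} (hσ : Rz D.B.length σ) :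
    Rz D.B.length (sety D.J σ) := by
  have hJ := L90.cutB H
  suffices h : Ker15.Um D.B.length (sety D.J σ) by
    obtain ⟨s, e, h1, h2, h3⟩ := h.lab
    exact ⟨s, Equiv.ofBijective e ((Fintype.bijective_iff_injective_and_card e).2
      ⟨h2, le_antisymm (Fintype.card_le_of_injective e h2) (by simpa using h1)⟩), h3.symm⟩
  refine ⟨fun a => ?_, fun a b => ?_, fun a b c => ?_⟩
  · rw [sety, hσ.self, if_neg (by omega)]
  · rw [sety, sety, hσ.comm]
  · have := hσ.ultra a b c
    simp only [sety]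
    split_ifs <;> omega

/-- the coefficients on a base pair split at `j` -/
theorem coef (H : D.Ok τ0) (hk : k ≤ 6) (hac : a ≠ c) (hpq : p ≠ q) {j : ℕ} (hj : j ∈ D.up)
    {s u : ℕ} (hs : s ∈ Finset.Ioc D.J D.K) (hu : u ∈ D.up) :
    ∃ z : ℝ, |z| ≤ (if s = u then 0 else 2 * τ0 * 5 ^ 6 * (nw D j s * mw D j u)) ∧ ∀ y ∈ D.lo,
      avc D.B (Cas.tw D.B.length j) k (Tr84.Ph D.J y (Th D k a c b d p q s u)) = D.dx y * z := by
  have l1 := CD.mem_up.1 hj
  have l2 := Finset.mem_Ioc.1 hs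
  have l3 := CD.mem_up.1 hu
  have hK : j ≤ D.B.length := lenB (D := D) ▸ l1.2.le
  have W := R90.wb_avc H.mono l1.1 hK k
  have t0 := H.tau0
  refine avc_Ph' (r := 1) H.mono (L90.cutB H) (rz_tw _ j) (fun x z => ?_) k _
    (fun y hy => (CD.mem_lo.1 hy).2) ?_ fun y hy => ?_
  · have t1 := tw_01 hK
    have t2 := (rz_tw D.B.length j).comm 1 0
    have t3 := (rz_tw D.B.length j).self
    have := t3 0
    have := t3 1
    fin_cases x <;> fin_cases z <;> simp only [Fin.zero_eta, Fin.mk_one, Fin.isValue] <;> omega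
  · split_ifs
    exacts [le_rfl, mul_nonneg (by positivity) (mul_nonneg (nw0 H j s) (mw0 H j u))]
  have hy' := (CD.mem_lo.1 hy).2
  split_ifs with e
  · have := W.mul 0 fun _ => 0
    simp only [zero_mul] at this
    rw [mul_zero]
    refine (W.abs_le' (ψ := fun _ => 0) fun σ hσ => ?_).trans this.le
    rw [Ph_Th H hσ.1 hy' l3.1, if_neg, abs_zero]
    rintro ⟨-, -, -, h1, h2⟩
    rw [sn] at h1
    split_ifs at h1 <;> omega
  refine (lab_bd H W hy' l2.1 l3.1 e (B := 2 * τ0) (by positivity) fun σ hσ h0 => ?_).trans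
    (mul_le_mul_of_nonneg_left (mul_le_mul_of_nonneg_right (mul_le_mul_of_nonneg_left
      (pow_le_pow_right₀ (by norm_num) hk) (by positivity))
        (mul_nonneg (nw0 H j s) (mw0 H j u))) (H.dx0 y))
  rw [Ph_Th H hσ.1 hy' l3.1] at h0 ⊢
  split_ifs at h0 ⊢ with h1
  · obtain ⟨-, h2, -, h3, h4⟩ := h1
    refine ⟨?_, ⟨a, c, hac, h2⟩, ⟨p, q, hpq, h4⟩, fun h5 => ?_⟩
    · have h6 := (site_le H (rz_sety H hσ.1) (sA D k a c b d p q)).trans
        (pow_le_pow_right₀ one_le_two sA_len)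
      have h7 := H.tau_mem u
      rw [abs_mul, abs_of_nonneg (by linarith [h7.1])]
      exact (mul_le_mul (div_le_div_of_nonneg_right h7.2 (by norm_num)) h6 (abs_nonneg _)
        (by positivity)).trans (le_of_eq (by ring))
    · rw [sn] at h3
      have h6 := hσ.1.self p
      rw [lenB] at h6
      split_ifs at h3
      · rcases le_total (σ a p) (σ c p) with h7 | h7
        · exact ⟨c, p, fun e => by rw [e] at h3; omega, by omega⟩
        · exact ⟨a, p, fun e => by rw [e] at h3; omega, by omega⟩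
      · exact absurd h3.symm h5
  · exact absurd rfl h0

end graph

/-! ### the weak bound -/

theorem nrm_le {m N : ℕ → ℝ} {f κ : ℝ} (hκ : 0 ≤ κ)
    (h : ∀ φ : ℕ → ℝ, (∀ t, |φ t| ≤ 1) → nrm D (fun t => m t * φ t) ≤ f ^ 2)
    (hN : ∀ u ∈ D.up, |N u| ≤ κ * |m u|) : nrm D N ≤ (κ * f) ^ 2 := by
  have h1 := h (fun t => if t ∈ D.up then N t / (κ * m t) else 0) fun t => by
    split_ifs with e
    · rw [abs_div, abs_mul, abs_of_nonneg hκ]
      exact div_le_one_of_le₀ (hN t e) (by positivity)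
    · simp
  rw [mul_pow]
  refine le_trans (le_of_eq ?_) (mul_le_mul_of_nonneg_left h1 (sq_nonneg κ))
  rw [nrm, nrm, ← Pe.pE_const_mul]
  congr 1
  funext g _
  rw [← mul_pow, Finset.mul_sum]
  congr 1
  refine Finset.sum_congr rfl fun t ht => ?_
  rw [if_pos ht, ← mul_assoc, ← mul_assoc]
  congr 1
  by_cases e : κ * m t = 0
  · have := hN t ht
    rw [← abs_of_nonneg hκ, ← abs_mul, e, abs_zero, abs_nonpos_iff] at this
    rw [e, this, zero_mul]
  · exact (mul_div_cancel₀ _ e).symm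

/-- the signed measure on the upper levels -/
def m1 (D : CD) (j : ℕ) : ℝ := D.dd (D.dx j) (D.om j)

theorem sum_m1 (H : D.Ok τ0) : ∑ j ∈ D.up, |m1 D j| ≤ D.wt := by
  cases hD : D.W.isSome with
  | false =>
    simp only [m1, CD.dd_val hD, CD.wt_val hD, abs_of_nonneg (H.dx0 _)]
    exact H.sum_dx_one fun i hi => (CD.mem_up.1 hi).2.le
  | true => simp only [m1, CD.dd_test hD, CD.wt_test hD, CD.Iw, mul_one, le_refl]

theorem mainS_of (hW : WkS) : MainS := fun τ0 => by
  obtain ⟨C, C0, hC⟩ := hW τ0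
  refine ⟨C * (2 * |τ0| * 5 ^ 6) * 12, by positivity, fun D H G k hk a c b d p q hac _ hpq => ?_⟩
  have t0 := H.tau0
  rw [abs_of_nonneg t0]
  set κ : ℝ := 2 * τ0 * 5 ^ 6 with hκ
  have k0 : 0 ≤ κ := by positivity
  choose! z hz hz' using fun j (hj : j ∈ D.up) s (hs : s ∈ Finset.Ioc D.J D.K) u (hu : u ∈ D.up) =>
    coef (b := b) (d := d) H hk hac hpq hj hs hu
  have e1 : avt D.B (ms D) k (FC D k a c b d p q) =
      ∑ j ∈ D.up, m1 D j * ∑ s ∈ Finset.Ioc D.J D.K, ∑ u ∈ D.up,
        (if u = j then 0 else z j s u) * GG D s u +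
      ∑ s ∈ Finset.Ioc D.J D.K, ∑ j ∈ D.up, m1 D j * z j s j * GG D s j := by
    rw [Finset.sum_comm (s := Finset.Ioc D.J D.K), ← Finset.sum_add_distrib, sum_up H, avt]
    refine Finset.sum_congr rfl fun j _ => ?_
    rw [ms]
    split_ifs with hj
    · simp only [mul_assoc, ← Finset.mul_sum, ← mul_add, ← Finset.sum_add_distrib]
      rw [avc_congr (rz_tw _ j) k fun σ hσ => FC_eq H hσ, avc_sum]
      refine congrArg _ (Finset.sum_congr rfl fun s hs => ?_)
      rw [avc_sum, ← Finset.add_sum_erase _ _ hj, ← Finset.add_sum_erase _ _ hj, if_pos rfl,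
        zero_mul, zero_add, add_comm]
      have e : ∀ u ∈ D.up, (avc D.B (Cas.tw D.B.length j) k fun σ => ∑ y ∈ D.lo,
          D.τ y ^ 2 * Bk D y s u * Tr84.Ph D.J y (Th D k a c b d p q s u) σ) =
          z j s u * GG D s u := fun u hu => by
        rw [avc_sum, GG, Finset.mul_sum]
        exact Finset.sum_congr rfl fun y hy => by
          rw [avc_mul, hz' j hj s hs u hu y hy]
          ring
      rw [e j hj]
      exact congrArg (· + _) (Finset.sum_congr rfl fun u hu => by
        rw [e u (Finset.mem_of_mem_erase hu), if_neg (Finset.ne_of_mem_erase hu)])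
    · exact zero_mul _
  set f : ℝ := D.f0 (D.J + 1)
  set f' : ℝ := D.dd (D.f0 (D.J + 1)) (D.f1 (D.J + 1)) with hf'
  have f0 : 0 ≤ f := H.f00 _
  have f0' : 0 ≤ f' := by
    rw [hf', CD.dd]
    split
    exacts [H.f00 _, H.f10 _]
  have L0 := H.Lv20
  have l0 := H.tl0
  have w0 := D.wt0
  have hA : ∀ j ∈ D.up, ∀ s ∈ Finset.Ioc D.J D.K, |∑ u ∈ D.up,
      (if u = j then 0 else z j s u) * GG D s u| ≤ C * κ * (D.Lv2 * f + D.tl) * nw D j s :=
    fun j hj s hs => by
      have n0 := nw0 H j s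
      have h1 : ∀ u ∈ D.up, |if u = j then 0 else z j s u| ≤ κ * nw D j s * |D.dx u| :=
        fun u hu => by
          have := H.dx0 u
          rw [abs_of_nonneg this]
          split_ifs with e
          · rw [abs_zero]; positivity
          · refine (hz j hj s hs u hu).trans ?_
            rw [mw, if_neg e]
            split_ifs
            · positivity
            · exact le_of_eq (by ring)
      refine (hC D H s (Finset.mem_Ioc.1 hs).1 _ _ (by positivity)
        (nrm_le (by positivity) (fun φ hφ => (G φ hφ).1) h1)).trans ?_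
      have h2 : ∑ u ∈ D.up, |if u = j then 0 else z j s u| ≤ κ * nw D j s := by
        refine (Finset.sum_le_sum h1).trans ?_
        simp only [← Finset.mul_sum, abs_of_nonneg (H.dx0 _)]
        exact mul_le_of_le_one_right (by positivity)
          (H.sum_dx_one fun i hi => (CD.mem_up.1 hi).2.le)
      refine (mul_le_mul_of_nonneg_left (add_le_add le_rfl
        (mul_le_mul_of_nonneg_right h2 l0)) C0).trans (le_of_eq (by ring))
  have hB : ∀ s ∈ Finset.Ioc D.J D.K, |∑ j ∈ D.up, m1 D j * z j s j * GG D s j| ≤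
      C * κ * (D.Lv2 * f' + D.wt * D.tl) * nw D D.K s := fun s hs => by
    have n0 := nw0 H D.K s
    have h1 : ∀ j ∈ D.up, |m1 D j * z j s j| ≤ κ * nw D D.K s * |m1 D j| := fun j hj => by
      rw [abs_mul, mul_comm]
      refine mul_le_mul_of_nonneg_right ((hz j hj s hs j hj).trans ?_) (abs_nonneg _)
      split_ifs with e
      · positivity
      · simp only [mw, nw, e, if_true, false_or, or_self, mul_one, hκ, le_refl]
    refine (hC D H s (Finset.mem_Ioc.1 hs).1 _ (κ * nw D D.K s * f') (by positivity)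
      (nrm_le (by positivity) (fun φ hφ => ?_) h1)).trans ?_
    · cases hD : D.W.isSome with
      | false => simpa only [m1, hf', CD.dd_val hD] using (G φ hφ).1
      | true => simpa only [m1, hf', CD.dd_test hD] using (G φ hφ).2
    have h2 : ∑ j ∈ D.up, |m1 D j * z j s j| ≤ κ * nw D D.K s * D.wt := by
      refine (Finset.sum_le_sum h1).trans ?_
      rw [← Finset.mul_sum]
      exact mul_le_mul_of_nonneg_left (sum_m1 H) (by positivity)
    refine (mul_le_mul_of_nonneg_left (add_le_add le_rfl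
      (mul_le_mul_of_nonneg_right h2 l0)) C0).trans (le_of_eq (by ring))
  have b1 : |∑ j ∈ D.up, m1 D j * ∑ s ∈ Finset.Ioc D.J D.K, ∑ u ∈ D.up,
      (if u = j then 0 else z j s u) * GG D s u| ≤ D.wt * (C * κ * (D.Lv2 * f + D.tl) * 3) := by
    refine (Finset.abs_sum_le_sum_abs _ _).trans ((Finset.sum_le_sum
      (g := fun j => |m1 D j| * (C * κ * (D.Lv2 * f + D.tl) * 3)) fun j hj => ?_).trans ?_)
    · rw [abs_mul]
      refine mul_le_mul_of_nonneg_left ((Finset.abs_sum_le_sum_abs _ _).trans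
        ((Finset.sum_le_sum (hA j hj)).trans ?_)) (abs_nonneg _)
      rw [← Finset.mul_sum]
      exact mul_le_mul_of_nonneg_left (sum_nw H j) (by positivity)
    · rw [← Finset.sum_mul]
      exact mul_le_mul_of_nonneg_right (sum_m1 H) (by positivity)
  have b2 : |∑ s ∈ Finset.Ioc D.J D.K, ∑ j ∈ D.up, m1 D j * z j s j * GG D s j| ≤
      C * κ * (D.Lv2 * f' + D.wt * D.tl) * 3 := by
    refine (Finset.abs_sum_le_sum_abs _ _).trans ((Finset.sum_le_sum hB).trans ?_)
    rw [← Finset.mul_sum]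
    exact mul_le_mul_of_nonneg_left (sum_nw H _) (by positivity)
  have g0 : D.Lv2 * f ≤ D.E0 := (mul_le_mul_of_nonneg_left
    (le_add_of_nonneg_right (H.sv0 H.f00 _)) L0).trans H.Lvf_le
  have g1 : D.wt * (D.Lv2 * f) ≤ D.Err := (mul_le_mul_of_nonneg_left g0 w0).trans H.wtE0_le
  have g2 : D.wt * D.tl ≤ D.Err := (mul_le_mul_of_nonneg_left H.tl_le w0).trans H.wtE0_le
  have g3 : D.Lv2 * f' ≤ D.Err := by
    cases hD : D.W.isSome with
    | false => rw [hf', CD.dd_val hD]; exact g0.trans (H.E0_le hD)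
    | true =>
      rw [hf', CD.dd_test hD]
      exact ((mul_le_mul_of_nonneg_left (le_add_of_nonneg_right (H.sv0 H.f10 _)) L0).trans
        H.Lvf1_le).trans (H.E1_le hD)
  rw [e1]
  refine (abs_add_le _ _).trans ((add_le_add b1 b2).trans ?_)
  have := mul_le_mul_of_nonneg_left (show D.wt * (D.Lv2 * f) + D.wt * D.tl +
    (D.Lv2 * f' + D.wt * D.tl) ≤ 4 * D.Err by linarith) (show 0 ≤ C * κ * 3 by positivity)
  linarith

/-! ### the frame -/

theorem abs_ms (H : D.Ok τ0) (j : ℕ) : |ms D j| ≤ mu D j := by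
  unfold ms
  split_ifs with h
  · unfold mu CD.dd
    cases D.W with
    | none => exact (abs_of_nonneg (H.dx0 j)).le
    | some ω => exact (if_pos h).ge
  · exact abs_zero.trans_le (mu_nonneg H j)

theorem avt_sub {Θ : Type} [Fintype Θ] (M : List (Lv Θ)) (μ : ℕ → ℝ)
    (φ ψ : SM (1 + k + 1) → ℝ) : avt M μ k (fun σ => φ σ - ψ σ) = avt M μ k φ - avt M μ k ψ := by
  have h1 := (fam_avt (M := M) μ).add k φ fun σ => -1 * ψ σ
  have h2 := (fam_avt (M := M) μ).mul k (-1) ψ
  simp only [neg_one_mul, ← sub_eq_add_neg] at h1 h2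
  exact h1.trans (by rw [h2, ← sub_eq_add_neg])

open Mx23 in
/-- **the word, graph by graph** -/
theorem hw_le (H : D.Ok τ0) {B : ℝ} (hB : 0 ≤ B) (h : ∀ k ≤ 6, ∀ a c b d p q : Fin (1 + k + 1),
    a ≠ c → b ≠ d → p ≠ q → |avt D.B (ms D) k (FF D k a c b d p q)| ≤ B) :
    |hw D [pC D, pL D, pL D]| ≤ cG 3 * B := by
  cases hD : D.W with
  | none =>
    have hW : D.W.isSome = false := by simp [hD]
    rw [hw, CD.dd_val hW, lamB, frame]
    refine (abs_LamG_le _ _ _ fun k hk N hN hO => ?_).trans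
      (mul_le_mul_of_nonneg_right (cG_mono (by simp)) hB)
    obtain ⟨⟨a, c⟩, ⟨b, d⟩, rfl⟩ := List.length_eq_two.1 hN
    refine le_trans (le_of_eq (congrArg _ ?_)) (h k (hk.trans (by simp)) a c b d (old k 1) (old k 0)
      (hO (a, c) (by simp)) (hO (b, d) (by simp)) (mk_ne k))
    have e : ∀ σ, TB D σ (eF (([pL D, pL D].reverse ++ [pC D]).map Prod.fst) σ
        ([(a, c), (b, d)] ++ [(old k 1, old k 0)])) * Ck32.TS D σ
          (eF (([pL D, pL D].reverse ++ [pC D]).map Prod.snd) σ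
            ([(a, c), (b, d)] ++ [(old k 1, old k 0)])) =
        FF D k a c b d (old k 1) (old k 0) σ := fun σ => by
      rw [FF]
      congr 2 <;> funext x
      · simp only [List.reverse_cons, List.reverse_nil, List.nil_append, List.cons_append,
          List.map_cons, List.map_nil, eF]
        ring
      · simp only [List.reverse_cons, List.reverse_nil, List.nil_append, List.cons_append,
          List.map_cons, List.map_nil, eF, se, sA, L90.mA, hD, List.prod_cons, List.prod_nil, lt,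
          phC, oZs]
        ring
    simp only [e, avt]
    refine Finset.sum_congr rfl fun j hj => ?_
    have hj' := Nat.lt_succ_iff.1 (Finset.mem_range.1 hj)
    rw [ms, CD.dd_val hW]
    split_ifs with h1
    · rfl
    rw [zero_mul]
    rcases le_or_gt j D.J with h2 | h2
    · rw [avc_congr' (rz_tw _ j) k (ψ := fun _ => 0) fun σ hσ e => ?_, avc_const, mul_zero]
      have e1 : σ (old k 1) (old k 0) = j := (e 1 0).trans (tw_old _ j hj')
      simp only [FF, e1, phC, Cw55.off, if_neg (show ¬(D.J < j ∧ j ∉ (∅ : Finset ℕ)) by omega),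
        zero_mul, mul_zero, TB, TM_const wt_one90 hσ]
    · rw [show j = D.K by rw [lenB] at hj'; rw [CD.mem_up] at h1; omega,
        show dm D.B 0 D.K = 0 from H.top, zero_mul]
  | some ω =>
    have hW : D.W.isSome = true := by simp [hD]
    rw [hw, CD.dd_test hW, sum_up H]
    simp only [← ite_zero_mul]
    refine (le_of_eq (congrArg _ (frame _ (fun _ _ _ => 1, oE D.q) _))).trans
      (abs_LamG_le _ _ _ fun k hk N hN hO => ?_)
    obtain ⟨⟨a, c⟩, ⟨b, d⟩, ⟨p, q⟩, rfl⟩ := List.length_eq_three.1 hN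
    refine le_trans (le_of_eq (congrArg _ ?_)) (h k (hk.trans (by simp)) a c b d p q
      (hO (a, c) (by simp)) (hO (b, d) (by simp)) (hO (p, q) (by simp)))
    congr 1
    · funext j
      rw [ms, CD.dd_test hW]
    · funext σ
      rw [FF]
      congr 2 <;> funext x
      · simp only [List.reverse_cons, List.reverse_nil, List.nil_append, List.cons_append,
          List.map_cons, List.map_nil, eF]
        ring
      · simp only [List.reverse_cons, List.reverse_nil, List.nil_append, List.cons_append,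
          List.map_cons, List.map_nil, eF, se, sA, L90.mA, hD, List.prod_cons, List.prod_nil, lt,
          phC, oZs, Ck32.mk]
        ring

theorem gm (H : D.Ok τ0) : Gm D := fun φ hφ => by
  have h1 := (H.wkp.1 φ hφ (D.J + 1)).1
  have h2 := (H.wkp.2 φ hφ (D.J + 1)).1
  simp only [CD.tail, max_self, Finset.Ico_add_one_left_eq_Ioo] at h1 h2
  exact ⟨h1, h2⟩

/-- **the centred mixed word** -/
theorem mxC_of (hR : RedS) (hW : WkS) (b : Bool) : Mx23.MxC b := Bd.mk' fun τ0 => by
  obtain ⟨C, C0, hC⟩ := hR τ0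
  obtain ⟨C', C0', hC'⟩ := mainS_of hW τ0
  refine ⟨cG 3 * (C + C'), fun D H _ => ?_⟩
  rw [mul_assoc]
  refine hw_le H (mul_nonneg (add_nonneg C0 C0') H.Err0) fun k hk a c b d p q h1 h2 h3 => ?_
  obtain ⟨ψ, h4, h5⟩ := hC D H k hk a c b d p q h1 h2 h3
  have h6 := (abs_avt_le H (abs_ms H) h5).trans h4
  rw [avt_sub] at h6
  have h7 := hC' D H (gm H) k hk a c b d p q h1 h2 h3
  rw [add_mul]
  exact (abs_sub_abs_le_abs_sub _ _ |> sub_le_iff_le_add.1).trans (add_le_add h6 h7)

end Crest.Agent.T156.Cas.C40.Mx84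

end
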