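import Crest.Agent.T156.C3nB_47
import Crest.Agent.T156.CWk_55
import Crest.Agent.T156.RpB_90

/-!
# Row 156, block C (helper55): two low edges and one upper edge, bulk side

`NY` = the upper edge read on a fresh pair at its node; `node_le`, `swap_le` = termwise
replacements; `dev_cs`, `beta_Ql` = the two Cauchy-Schwarz steps.
-/

set_option autoImplicit false
set_option linter.all false

noncomputable section

namespace Crest.Agent.T156.Cas.Mb55

open MeasureTheory Real Set Filter Topology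
open Crest.Agent.T157.E Crest.Agent.T157.Casc Crest.Agent.T157.SL
open Crest.Agent.T157.G1 (ov)
open Wt87 Nu87 Ker15 R90

variable {Ω : Type} [Fintype Ω] {w : Ω → ℝ} {L : List (Lv Ω)} {h : Ω → ℝ} {R : Ω → Ω → ℝ}
  {κ κ' ι : Type} [Fintype κ] [Fintype κ'] [Fintype ι] {σ : κ → κ → ℕ}

/-- fresh leaves at depth `t` on the paths of `β` -/
def fT (K : ℕ) (σ : κ → κ → ℕ) (β : ι → κ) (t : ℕ) : κ ⊕ ι → κ ⊕ ι → ℕ :=
  lf K σ (Sum.elim id β) (Sum.elim (fun _ => K) fun _ => t)

section fT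
variable {K t : ℕ} {β : ι → κ}

theorem um_fT (H : Um K σ) (β : ι → κ) (t : ℕ) : Um K (fT K σ β t) := um_lf H _ _

theorem fT_ll (H : Um K σ) (a b : κ) : fT K σ β t (.inl a) (.inl b) = σ a b := by
  by_cases e : a = b
  · rw [e, (um_fT H β t).self, H.self]
  · rw [fT, lf_ne _ _ fun h => e (Sum.inl_injective h)]
    simp [H.le]

theorem fT_lr (H : Um K σ) (a : κ) (v : ι) :
    fT K σ β t (.inl a) (.inr v) = min (σ a (β v)) t := by
  rw [fT, lf_ne _ _ Sum.inl_ne_inr]
  have := H.le a (β v)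
  simp only [Sum.elim_inl, Sum.elim_inr, id]
  omega

theorem fT_rl (H : Um K σ) (a : κ) (v : ι) :
    fT K σ β t (.inr v) (.inl a) = min (σ a (β v)) t := by
  rw [(um_fT H β t).comm, fT_lr H]

theorem fT_rr {u v : ι} (e : u ≠ v) :
    fT K σ β t (.inr u) (.inr v) = min (σ (β u) (β v)) t := by
  rw [fT, lf_ne _ _ fun h => e (Sum.inr_injective h)]
  simp

end fT

/-- a fresh pair at the node of depth `t` on the path of `p` -/
abbrev nT (K : ℕ) (σ : κ → κ → ℕ) (p : κ) (t : ℕ) : κ ⊕ Bool → κ ⊕ Bool → ℕ :=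
  fT K σ (fun _ => p) t

/-- `E [G · Q (fresh pair at the node of depth `t` on the path of `p`)]` -/
def NY (w : Ω → ℝ) (L : List (Lv Ω)) (h : Ω → ℝ) (σ : κ → κ → ℕ) (p : κ) (t : ℕ)
    (G : (κ → Ω) → ℝ) (Q : Ω → Ω → ℝ) : ℝ :=
  TK w L h (nT L.length σ p t) fun x =>
    G (fun a => x (.inl a)) * Q (x (.inr true)) (x (.inr false))

theorem NY_sub (p : κ) (t : ℕ) (G G' : (κ → Ω) → ℝ) (Q : Ω → Ω → ℝ) :
    NY w L h σ p t (fun x => G x - G' x) Q = NY w L h σ p t G Q - NY w L h σ p t G' Q := by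
  simp only [NY, sub_mul, TK_sub]

theorem NY_mul (p : κ) (t : ℕ) (c : ℝ) (G : (κ → Ω) → ℝ) (Q : Ω → Ω → ℝ) :
    NY w L h σ p t (fun x => c * G x) Q = c * NY w L h σ p t G Q := by
  simp only [NY, mul_assoc, TK_mul]

/-- path form -/
theorem NY_tX (hw : Wt w) (s : Sh) {e : κ → s.Lf} (he : Function.Injective e) (p : κ) (t : ℕ)
    (G : (κ → Ω) → ℝ) (Q : Ω → Ω → ℝ) :
    NY w L h (sm s e L.length) p t G Q = tX w s L h fun g x =>
      G (fun a => x (e a)) * qf (P w (L.drop t) (stT s L h g (e p) t)) Q := by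
  have i1 := Tay38.emb_inj s (e p) t
  have i2 := Tay38.emb_inj (s.graft (e p) t) (s.nw (e p) t) t
  have n1 := Tay38.emb_ne s (e p) t
  have n2 := Tay38.emb_ne (s.graft (e p) t) (s.nw (e p) t) t
  let τ := Wf99.gq s (e p) t t
  let e' : κ ⊕ Bool → τ.sh.Lf := Sum.elim (fun a => τ.e (e a)) fun b => cond b τ.p τ.q
  have he' : Function.Injective e' := by
    rintro (a | _ | _) (b | _ | _) x
    exacts [congrArg _ (he (i1 (i2 x))), absurd x (n2 _), absurd (i2 x) (n1 _),
      absurd x.symm (n2 _), rfl, absurd x.symm (n2 _), absurd (i2 x).symm (n1 _),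
      absurd x (n2 _), rfl]
  have H := um_sm s e L.length
  have l1 : ∀ a, sm τ.sh e' L.length (.inl a) (.inr true) = min (sm s e L.length a p) t :=
    fun a => (shr_emb _ _ _ _ _ _).trans ((shr_nw _ _ _ _ _).trans (by
      rw [shr_min, min_comm]; rfl))
  have l2 : ∀ a, sm τ.sh e' L.length (.inl a) (.inr false) = min (sm s e L.length a p) t :=
    fun a => (shr_nw _ _ _ _ _).trans ((shr_nw _ _ _ _ _).trans (by
      rw [← min_assoc, min_self, shr_min, min_comm]; rfl))
  have l3 : sm τ.sh e' L.length (.inr true) (.inr false) = min (sm s e L.length p p) t :=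
    (shr_nw _ _ _ _ _).trans (by rw [shr_self, H.self, min_comm])
  have H' := um_sm τ.sh e' L.length
  have E : nT L.length (sm s e L.length) p t = sm τ.sh e' L.length := by
    funext u v
    show fT _ _ (fun _ => p) t u v = _
    rcases u with a | _ | _ <;> rcases v with b | _ | _
    · exact (fT_ll H a b).trans ((shr_emb _ _ _ _ _ _).trans (shr_emb _ _ _ _ _ _)).symm
    · rw [fT_lr H, l2]
    · rw [fT_lr H, l1]
    · rw [fT_rl H, H'.comm, l2]
    · rw [(um_fT H _ _).self, H'.self]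
    · rw [fT_rr (by decide), H'.comm, l3]
    · rw [fT_rl H, H'.comm, l1]
    · rw [fT_rr (by decide), l3]
    · rw [(um_fT H _ _).self, H'.self]
  rw [NY, E, TK_sm hw _ he']
  exact (Cw55.three hw s L h (fun _ => Q) (fun x => G fun a => x (e a)) (e p)).2.2 t

/-- only the labels that are read and their depths below the node count -/
theorem NY_map (hw : Wt w) {σ' : κ' → κ' → ℕ} (H : Um L.length σ) (H' : Um L.length σ')
    {φ : ι → κ} {φ' : ι → κ'} {p : κ} {p' : κ'} {t : ℕ} (hk : ∀ a b, φ a = φ b ↔ φ' a = φ' b)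
    (hs : ∀ a b, φ a ≠ φ b → σ (φ a) (φ b) = σ' (φ' a) (φ' b))
    (hp : ∀ a, min (σ (φ a) p) t = min (σ' (φ' a) p') t) (G : (ι → Ω) → ℝ) (Q : Ω → Ω → ℝ) :
    NY w L h σ p t (fun y => G fun a => y (φ a)) Q =
      NY w L h σ' p' t (fun y => G fun a => y (φ' a)) Q :=
  TK_map hw (um_fT H _ t) (um_fT H' _ t) (φ := Sum.map φ id) (φ' := Sum.map φ' id)
    (by rintro (a | a) (b | b) <;> simp [hk])
    (by
      rintro (a | a) (b | b) e
      · simp only [Sum.map_inl, fT_ll H, fT_ll H']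
        exact hs a b fun x => e (congrArg Sum.inl x)
      · simp only [Sum.map_inl, Sum.map_inr, fT_lr H, fT_lr H', hp]
      · simp only [Sum.map_inl, Sum.map_inr, fT_rl H, fT_rl H', hp]
      · have e' : a ≠ b := fun x => e (congrArg Sum.inr x)
        simp only [Sum.map_inr, id, fT_rr e', H.self, H'.self])
    fun x => G (fun a => x (.inl a)) * Q (x (.inr true)) (x (.inr false))

/-- any path through the node -/
theorem NY_path (hw : Wt w) (H : Um L.length σ) {p p' : κ} {t : ℕ} (ht : t ≤ σ p p')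
    (G : (κ → Ω) → ℝ) (Q : Ω → Ω → ℝ) : NY w L h σ p t G Q = NY w L h σ p' t G Q :=
  NY_map hw H H (φ := id) (φ' := id) (fun _ _ => Iff.rfl) (fun _ _ _ => rfl) (fun a => by
    have := H.ultra a p p'
    have := H.ultra a p' p
    have := H.comm p p'
    simp only [id]
    omega) G Q

/-- the functional `∑ μ_t Q_t (node t)` along a path -/
abbrev Yp (w : Ω → ℝ) (L : List (Lv Ω)) (h : Ω → ℝ) (S : Finset ℕ) (μ : ℕ → ℝ)
    (Q : ℕ → Ω → Ω → ℝ) (g : NI L → ℝ) : ℝ := ∑ t ∈ S, μ t * qf (P w (L.drop t) (st L t h g)) (Q t)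

/-- **Cauchy-Schwarz along the path** -/
theorem NY_cs (hw : Wt w) (H : Um L.length σ) (p : κ) (G : (κ → Ω) → ℝ) (S : Finset ℕ) (μ : ℕ → ℝ)
    (Q : ℕ → Ω → Ω → ℝ) {A Γ : ℝ} (hA : 0 ≤ A) (hΓ : 0 ≤ Γ)
    (HA : TK w L h σ (fun x => G x ^ 2) ≤ A ^ 2)
    (HΓ : pE w L h (fun g _ => Yp w L h S μ Q g ^ 2) ≤ Γ ^ 2) :
    |∑ t ∈ S, μ t * NY w L h σ p t G (Q t)| ≤ A * Γ := by
  obtain ⟨s, e, -, he, rfl⟩ := H.lab
  rw [TK_sm hw s he] at HA
  simp only [NY_tX hw s he]
  exact Cw55.tail_cen hw s (e p) L h (G := fun _ x => G fun a => x (e a)) (fun _ => Eg.const _) S μ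
    (Y := fun t _ z => qf (P w (L.drop t) z) (Q t)) (fun _ _ => eg_qf hw _ _) hA hΓ HA HΓ

/-- **envelope along the path** -/
theorem NY_env (hw : Wt w) (H : Um L.length σ) (p : κ) (G : (κ → Ω) → ℝ) (S : Finset ℕ) (μ : ℕ → ℝ)
    (Q : ℕ → Ω → Ω → ℝ) {A A' F ε : ℝ} (hF : 0 ≤ F) (hA' : 0 ≤ A')
    (HA : TK w L h σ (fun x => |G x|) ≤ A) (HA' : ∀ x, |G x| ≤ A')
    (HF : pE w L h (fun g _ => max (|Yp w L h S μ Q g| - F) 0) ≤ ε) :
    |∑ t ∈ S, μ t * NY w L h σ p t G (Q t)| ≤ A * F + A' * ε := by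
  obtain ⟨s, e, -, he, rfl⟩ := H.lab
  rw [TK_sm hw s he] at HA
  simp only [NY_tX hw s he]
  exact Cw55.tail_env hw s (e p) L h (G := fun _ x => G fun a => x (e a)) (fun _ => Eg.const _) S μ
    (Y := fun t _ z => qf (P w (L.drop t) z) (Q t)) (fun _ _ => eg_qf hw _ _) hF hA' HA
    (fun _ _ => HA' _) HF

/-! ### termwise replacements -/

theorem mv_le (hw : Wt w) (H : Um L.length σ) {u u' z : κ} {y t : ℕ} (hK : y < L.length)
    (hy : σ u z = y) (hy' : σ u' z = y) (hyt : y ≤ t) (ht : t ≤ σ u u') (V : Ω → Ω → ℝ) :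
    TK w L h σ (fun x => (V (x u) (x z) - V (x u') (x z)) ^ 2) ≤ 2 * vU w L h V y t :=
  C3n47.tri_le hw H hK hy hy' hyt ht V

/-- both ends of an edge move -/
theorem par_le (hw : Wt w) (hR : ∀ x y, R x y = R y x) (H : Um L.length σ) {a b a' b' : κ}
    {y t : ℕ} (hK : y < L.length) (h1 : σ a b = y) (h2 : σ a' b = y) (h3 : σ b' a' = y)
    (hyt : y ≤ t) (ha : t ≤ σ a a') (hb : t ≤ σ b b') :
    TK w L h σ (fun x => (R (x a) (x b) - R (x a') (x b')) ^ 2) ≤ 8 * vU w L h R y t := by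
  have e1 := mv_le (h := h) hw H hK h1 h2 hyt ha R
  have e2 := mv_le (h := h) hw H hK ((H.comm _ _).trans h2) h3 hyt hb R
  have e3 := TK_mono (h := h) hw H (F := fun x => (R (x a) (x b) - R (x a') (x b')) ^ 2)
    (G := fun x => 2 * (R (x a) (x b) - R (x a') (x b)) ^ 2 +
      2 * (R (x b) (x a') - R (x b') (x a')) ^ 2) fun x => by
      rw [hR (x b) (x a'), hR (x b') (x a')]
      nlinarith [sq_nonneg (R (x a) (x b) - 2 * R (x a') (x b) + R (x a') (x b'))]
  rw [TK_add, TK_mul, TK_mul] at e3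
  linarith

theorem env_le {u a b e : ℝ} (he : 0 ≤ e) (ha : |a| ≤ 2) (hb : |b| ≤ 2) :
    |u * a * b| ≤ e / 2 * a ^ 2 + e / 2 * b ^ 2 + 4 * max (|u| - e) 0 := by
  have h1 : |u| ≤ e + max (|u| - e) 0 := by linarith [le_max_left (|u| - e) 0]
  have h2 : 0 ≤ max (|u| - e) 0 := le_max_right _ _
  have h3 : |a| * |b| ≤ (a ^ 2 + b ^ 2) / 2 := by
    nlinarith [sq_abs a, sq_abs b, sq_nonneg (|a| - |b|)]
  have h4 : |a| * |b| ≤ 4 := by nlinarith [abs_nonneg a, abs_nonneg b]
  have h5 : 0 ≤ |a| * |b| := by positivity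
  rw [mul_assoc, abs_mul, abs_mul]
  nlinarith [mul_le_mul_of_nonneg_right h1 h5, mul_le_mul_of_nonneg_left h3 he,
    mul_le_mul_of_nonneg_left h4 h2]

theorem sub_two (hR1 : ∀ x y, |R x y| ≤ 1) (a b c d : Ω) : |R a b - R c d| ≤ 2 :=
  (abs_sub _ _).trans (by linarith [hR1 a b, hR1 c d])

theorem ne_of_lt (H : Um L.length σ) {a b : κ} (e : σ a b < L.length) : a ≠ b := fun x => by
  rw [x, H.self] at e; omega

/-- **the upper edge is read at its node**, any two lower edges -/
theorem node_le (hw : Wt w) (hR : ∀ x y, R x y = R y x) (hR1 : ∀ x y, |R x y| ≤ 1)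
    (H : Um L.length σ) {a b c d p q : κ} {t : ℕ} (hK : t < L.length) (ht : σ p q = t)
    (h1 : σ a b ≤ t) (h2 : σ c d ≤ t) {X τ : ℝ} (hX : 0 ≤ X) (x1 : exc w L h R X (σ a b) ≤ τ)
    (x2 : exc w L h R X (σ c d) ≤ τ) (m : ℝ) :
    |TK w L h σ (fun x => R (x a) (x b) * R (x c) (x d) * (R (x p) (x q) - m)) -
      NY w L h σ p t (fun x => R (x a) (x b) * R (x c) (x d)) fun x y => R x y - m| ≤
      X * (4 * vU w L h R (σ a b) t + 4 * vU w L h R (σ c d) t + 8 * vU w L h R t t) + 8 * τ := by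
  let β : Fin 4 ⊕ Bool → κ := Sum.elim ![a, b, c, d] fun _ => p
  set T := fT L.length σ β t with hT
  have HT : Um L.length T := um_fT H _ _
  have t1 := fun a b => hT ▸ fT_ll (β := β) (t := t) H a b
  have t2 := fun u v e => hT ▸ fT_rr (K := L.length) (σ := σ) (β := β) (t := t) (u := u) (v := v) e
  have t3 := fun a v => hT ▸ fT_lr (β := β) (t := t) H a v
  have t4 := fun a v => hT ▸ fT_rl (β := β) (t := t) H a v
  have b0 : β (.inl 0) = a := rfl
  have b1 : β (.inl 1) = b := rfl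
  have b2 : β (.inl 2) = c := rfl
  have b3 : β (.inl 3) = d := rfl
  have b4 : ∀ u, β (.inr u) = p := fun _ => rfl
  have npq := ne_of_lt H (ht ▸ hK : σ p q < _)
  have spp := H.self p
  have cq : ∀ z, min (σ q z) t = min (σ p z) t := fun z => by
    have := H.ultra q p z; have := H.ultra p q z; have := H.comm p q
    omega
  have e0 := TK_map (h := h) hw H HT (φ := id) (φ' := Sum.inl) (by simp)
    (fun a b _ => (t1 a b).symm) fun x => R (x a) (x b) * R (x c) (x d) * (R (x p) (x q) - m)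
  have e1 := TK_map (h := h) hw (um_fT H (fun _ : Bool => p) t) HT (φ := id)
    (φ' := Sum.map id Sum.inr) (by rintro (u | u) (v | v) <;> simp)
    (by
      rintro (u | u) (v | v) e
      · simp only [id, Sum.map_inl, t1, fT_ll H]
      · simp only [id, Sum.map_inl, Sum.map_inr, t3, fT_lr H, b4]
      · simp only [id, Sum.map_inl, Sum.map_inr, t4, fT_rl H, b4]
      · have e' : u ≠ v := fun x => e (congrArg Sum.inr x)
        simp only [id, Sum.map_inr]
        rw [fT_rr e', t2 _ _ fun x => e' (Sum.inr_injective x), b4, b4])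
    fun x => R (x (.inl a)) (x (.inl b)) * R (x (.inl c)) (x (.inl d)) *
      (R (x (.inr true)) (x (.inr false)) - m)
  have e2 := TK_map (h := h) hw HT HT (ι := Fin 4 ⊕ Bool)
    (φ := Sum.elim (fun u => .inr (.inl u)) fun v => .inl (cond v p q)) (φ' := Sum.inr)
    (by rintro (u | _ | _) (v | _ | _) <;> simp [npq, npq.symm])
    (by
      rintro (u | u) (v | v) e
      · rfl
      · simp only [Sum.elim_inl, Sum.elim_inr]
        rw [t4, t2 _ _ Sum.inl_ne_inr, b4, H.comm (β _)]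
        cases v
        exacts [cq _, rfl]
      · simp only [Sum.elim_inl, Sum.elim_inr]
        rw [t3, t2 _ _ Sum.inr_ne_inl, b4]
        cases u
        exacts [cq _, rfl]
      · have e' : u ≠ v := fun x => e (x ▸ rfl)
        simp only [Sum.elim_inr]
        rw [t1, t2 _ _ fun x => e' (Sum.inr_injective x), b4, b4, spp, min_eq_right hK.le]
        cases u <;> cases v
        exacts [absurd rfl e', (H.comm _ _).trans ht, ht, absurd rfl e'])
    fun x => R (x (.inl 0)) (x (.inl 1)) * R (x (.inl 2)) (x (.inl 3)) *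
      R (x (.inr true)) (x (.inr false))
  have pr : ∀ (u v : Fin 4), u ≠ v → σ (β (.inl u)) (β (.inl v)) ≤ t →
      TK w L h T (fun x => (R (x (.inl (β (.inl u)))) (x (.inl (β (.inl v)))) -
        R (x (.inr (.inl u))) (x (.inr (.inl v)))) ^ 2) ≤
        8 * vU w L h R (σ (β (.inl u)) (β (.inl v))) t := fun u v e l =>
    par_le hw hR HT (l.trans_lt hK) (t1 _ _) (by rw [t4, H.comm]; omega)
      (by rw [t2 _ _ fun x => e (Sum.inl_injective x).symm, H.comm]; omega) l
      (by rw [t3, H.self]; omega) (by rw [t3, H.self]; omega)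
  have s1 := pr 0 1 (by decide) h1
  have s2 := pr 2 3 (by decide) h2
  have s3 := par_le (h := h) hw hR HT (a := .inl p) (b := .inl q) (a' := .inr (.inr true))
    (b' := .inr (.inr false)) (y := t) (t := t) hK (by rw [t1, ht])
    (by rw [t4, b4, H.comm, ht, min_self]) (by rw [t2 _ _ (by simp), b4, b4]; omega) le_rfl
    (by rw [t3, b4]; omega) (by rw [t3, b4, H.comm, ht, min_self])
  have p1 := TK_pair (h := h) hw HT (a := .inl c) (b := .inl d)
    (fun e => ne_of_lt H (h2.trans_lt hK) (Sum.inl_injective e)) fun a b => max (|R a b| - X) 0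
  have p2 := TK_pair (h := h) hw HT (a := .inr (.inl 0)) (b := .inr (.inl 1)) (by simp)
    fun a b => max (|R a b| - X) 0
  rw [t1] at p1
  rw [t2 _ _ (by simp), b0, b1, min_eq_left h1] at p2
  have a1 := abs_TK_le (h := h) hw HT fun x => env_le (u := R (x (.inl c)) (x (.inl d))) hX
    (sub_two hR1 (x (.inl a)) (x (.inl b)) (x (.inr (.inl 0))) (x (.inr (.inl 1))))
    (sub_two hR1 (x (.inl p)) (x (.inl q)) (x (.inr (.inr true))) (x (.inr (.inr false))))
  have a2 := abs_TK_le (h := h) hw HT fun x =>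
    env_le (u := R (x (.inr (.inl 0))) (x (.inr (.inl 1)))) hX
    (sub_two hR1 (x (.inl c)) (x (.inl d)) (x (.inr (.inl 2))) (x (.inr (.inl 3))))
    (sub_two hR1 (x (.inl p)) (x (.inl q)) (x (.inr (.inr true))) (x (.inr (.inr false))))
  rw [TK_add, TK_add, TK_mul, TK_mul, TK_mul, p1] at a1
  rw [TK_add, TK_add, TK_mul, TK_mul, TK_mul, p2] at a2
  simp only [id, Sum.map_inl, Sum.map_inr, Sum.elim_inl, Sum.elim_inr, cond_true, cond_false]
    at e0 e1 e2
  rw [b0, b1] at s1
  rw [b2, b3] at s2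
  have dec : TK w L h T (fun x => R (x (.inl a)) (x (.inl b)) * R (x (.inl c)) (x (.inl d)) *
        (R (x (.inl p)) (x (.inl q)) - m)) -
      TK w L h T (fun x => R (x (.inl a)) (x (.inl b)) * R (x (.inl c)) (x (.inl d)) *
        (R (x (.inr (.inr true))) (x (.inr (.inr false))) - m)) =
      TK w L h T (fun x => R (x (.inl c)) (x (.inl d)) *
        (R (x (.inl a)) (x (.inl b)) - R (x (.inr (.inl 0))) (x (.inr (.inl 1)))) *
        (R (x (.inl p)) (x (.inl q)) - R (x (.inr (.inr true))) (x (.inr (.inr false))))) +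
      TK w L h T (fun x => R (x (.inr (.inl 0))) (x (.inr (.inl 1))) *
        (R (x (.inl c)) (x (.inl d)) - R (x (.inr (.inl 2))) (x (.inr (.inl 3)))) *
        (R (x (.inl p)) (x (.inl q)) - R (x (.inr (.inr true))) (x (.inr (.inr false))))) := by
    rw [← sub_eq_zero, ← sub_eq_zero.2 e2]
    simp only [← TK_sub, ← TK_add]
    congr 1
    funext x
    ring
  rw [e0, NY, e1, dec]
  refine (abs_add_le _ _).trans ?_
  unfold exc at x1 x2
  nlinarith [mul_le_mul_of_nonneg_left s1 hX, mul_le_mul_of_nonneg_left s2 hX,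
    mul_le_mul_of_nonneg_left s3 hX]

/-- **two ends with the same splits are merged** -/
theorem swap_le (hw : Wt w) (hR : ∀ x y, R x y = R y x) (hR1 : ∀ x y, |R x y| ≤ 1)
    (H : Um L.length σ) {a b c d p : κ} {y u t : ℕ} (hK : y < L.length) (ht : t ≤ L.length)
    (h1 : σ b a = y) (h2 : σ d a = y) (h3 : σ b c = y) (h4 : σ d c = y) (hy : y ≤ u)
    (hu : u ≤ σ b d) (hp : min (σ b p) t = min (σ d p) t) {Q : Ω → Ω → ℝ} {e τ : ℝ} (he : 0 ≤ e)
    (hQ : pi2 w L t (fun x y => max (|Q x y| - e) 0) h ≤ τ) :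
    |NY w L h σ p t (fun x => R (x a) (x b) * R (x c) (x d)) Q -
      NY w L h σ p t (fun x => R (x a) (x b) * R (x c) (x b)) Q| ≤ e * vU w L h R y u + 2 * τ := by
  have HT := um_fT H (fun _ : Bool => p) t
  have n1 := ne_of_lt H (h1 ▸ hK : σ b a < _)
  have n2 := ne_of_lt H (h2 ▸ hK : σ d a < _)
  have n3 := ne_of_lt H (h3 ▸ hK : σ b c < _)
  have n4 := ne_of_lt H (h4 ▸ hK : σ d c < _)
  have c1 := H.comm a b
  have c2 := H.comm a d
  have c3 := H.comm c b
  have c4 := H.comm c d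
  have c5 := H.comm b d
  have sw := fun G => NY_map (h := h) hw H H (φ := ![a, c, b, d]) (φ' := ![a, c, d, b]) (p := p)
    (p' := p) (t := t)
    (fun i j => by
      fin_cases i <;> fin_cases j <;>
        simp [n1, n2, n3, n4, n1.symm, n2.symm, n3.symm, n4.symm, eq_comm])
    (fun i j e => by
      fin_cases i <;> fin_cases j <;> first | rfl | exact absurd rfl e | (simp; omega))
    (fun i => by fin_cases i <;> first | rfl | exact hp | exact hp.symm) G Q
  have e1 : NY w L h σ p t (fun x => R (x a) (x b) * R (x c) (x b)) Q =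
    NY w L h σ p t (fun x => R (x a) (x d) * R (x c) (x d)) Q :=
      sw fun x => R (x 0) (x 2) * R (x 1) (x 2)
  have e2 : NY w L h σ p t (fun x => R (x a) (x b) * R (x c) (x d)) Q =
    NY w L h σ p t (fun x => R (x a) (x d) * R (x c) (x b)) Q :=
      sw fun x => R (x 0) (x 2) * R (x 1) (x 3)
  have s1 := mv_le (h := h) hw HT (u := .inl b) (u' := .inl d) (z := .inl a) hK
    ((fT_ll H _ _).trans h1) ((fT_ll H _ _).trans h2) hy (hu.trans_eq (fT_ll H _ _).symm) R
  have s2 := mv_le (h := h) hw HT (u := .inl b) (u' := .inl d) (z := .inl c) hK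
    ((fT_ll H _ _).trans h3) ((fT_ll H _ _).trans h4) hy (hu.trans_eq (fT_ll H _ _).symm) R
  have p1 := TK_pair (h := h) hw HT (a := .inr true) (b := .inr false) (by simp)
    fun a b => max (|Q a b| - e) 0
  rw [fT_rr (by decide), H.self, min_eq_right ht] at p1
  have a1 := abs_TK_le (h := h) hw HT fun x => env_le (u := Q (x (.inr true)) (x (.inr false))) he
    (sub_two hR1 (x (.inl b)) (x (.inl a)) (x (.inl d)) (x (.inl a)))
    (sub_two hR1 (x (.inl b)) (x (.inl c)) (x (.inl d)) (x (.inl c)))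
  rw [TK_add, TK_add, TK_mul, TK_mul, TK_mul, p1] at a1
  have dec : TK w L h (nT L.length σ p t) (fun x => Q (x (.inr true)) (x (.inr false)) *
      (R (x (.inl b)) (x (.inl a)) - R (x (.inl d)) (x (.inl a))) *
      (R (x (.inl b)) (x (.inl c)) - R (x (.inl d)) (x (.inl c)))) =
      NY w L h σ p t (fun x => R (x a) (x b) * R (x c) (x b)) Q +
        NY w L h σ p t (fun x => R (x a) (x d) * R (x c) (x d)) Q -
        NY w L h σ p t (fun x => R (x a) (x b) * R (x c) (x d)) Q -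
        NY w L h σ p t (fun x => R (x a) (x d) * R (x c) (x b)) Q := by
    simp only [NY, ← TK_sub, ← TK_add]
    congr 1
    funext x
    rw [hR (x (.inl b)) (x (.inl a)), hR (x (.inl d)) (x (.inl a)), hR (x (.inl b)) (x (.inl c)),
      hR (x (.inl d)) (x (.inl c))]
    ring
  rw [dec, ← e1, ← e2, abs_le] at a1
  rw [abs_le]
  constructor <;> nlinarith [mul_le_mul_of_nonneg_left s1 he, mul_le_mul_of_nonneg_left s2 he,
    a1.1, a1.2]

/-! ### the canonical term -/

/-- `E [(m_i · σ)² | node y]` as a function of the states along the path -/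
def Ps (w : Ω → ℝ) (L : List (Lv Ω)) (R : Ω → Ω → ℝ) (y i : ℕ) (p : ℕ → Ω → ℝ) : ℝ :=
  Pf w (L.drop y) (p y) fun x => Pf w (L.drop i) (p i) (fun z => R z x) ^ 2

theorem egP_Ps (hw : Wt w) (y i : ℕ) {α : Type} (a : α) :
    EgP fun p : Pa α Ω => Ps w L R y i (p a) :=
  Gf.egP_new hw (F := fun p x => Pf w (L.drop i) (p a i) (fun z => R z x) ^ 2) (fun x => by
    simpa only [sq] using (EgP.state (eg_Pf hw (L.drop i) fun z => R z x) a i).mul
      (EgP.state (eg_Pf hw (L.drop i) fun z => R z x) a i)) _ a y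

/-- the canonical term -/
def bt (w : Ω → ℝ) (L : List (Lv Ω)) (h : Ω → ℝ) (R : Ω → Ω → ℝ) (y i t : ℕ) (Q : Ω → Ω → ℝ) : ℝ :=
  pE w L h fun g _ => qf (P w (L.drop t) (st L t h g)) Q * Ps w L R y i fun j => st L j h g

/-- two fresh legs at depth `i`, one leaf `b` in the other cluster -/
theorem bt_eq (hw : Wt w) (H : Um L.length σ) {p b : κ} {y i : ℕ} (t : ℕ) (hy : σ b p = y)
    (hi : y ≤ i) (hK : y < L.length) (Q : Ω → Ω → ℝ) :
    NY w L h (nT L.length σ p i) (.inl p) t
      (fun x => R (x (.inr true)) (x (.inl b)) * R (x (.inr false)) (x (.inl b))) Q =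
      bt w L h R y i t Q := by
  have nb := ne_of_lt H (hy ▸ hK : σ b p < _)
  let s0 := Sh.one.graft () y
  let p0 : s0.Lf := Sh.one.emb () y ()
  let b0 : s0.Lf := Sh.one.nw () y
  let s1 := s0.graft p0 i
  let p1 : s1.Lf := s0.emb p0 i p0
  let s2 := s1.graft p1 i
  let e : Fin 4 → s2.Lf := ![s1.emb p1 i p1, s1.emb p1 i (s0.emb p0 i b0),
    s1.emb p1 i (s0.nw p0 i), s1.nw p1 i]
  have n0 : p0 ≠ b0 := Tay38.emb_ne .one () y ()
  have i1 := Tay38.emb_inj s0 p0 i
  have i2 := Tay38.emb_inj s1 p1 i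
  have n1 := Tay38.emb_ne s0 p0 i
  have n2 := Tay38.emb_ne s1 p1 i
  have he : Function.Injective e := fun u v x => by
    fin_cases u <;> fin_cases v
    exacts [rfl, absurd (i1 (i2 x)) n0, absurd (i2 x) (n1 _), absurd x (n2 _),
      absurd (i1 (i2 x)).symm n0, rfl, absurd (i2 x) (n1 _), absurd x (n2 _),
      absurd (i2 x).symm (n1 _), absurd (i2 x).symm (n1 _), rfl, absurd x (n2 _),
      absurd x.symm (n2 _), absurd x.symm (n2 _), absurd x.symm (n2 _), rfl]
  have H' := um_sm s2 e L.length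
  have HT := um_fT H (fun _ : Bool => p) i
  have r0 : ∀ k, s0.shr b0 p0 k = min y k := fun k => shr_nw' .one () y () k
  have m01 : sm s2 e L.length 1 0 = y :=
    (shr_emb _ _ _ _ _ _).trans ((shr_emb _ _ _ _ _ _).trans ((r0 _).trans (by omega)))
  have m02 : sm s2 e L.length 0 2 = min L.length i :=
    (shr_emb _ _ _ _ _ _).trans ((shr_nw _ _ _ _ _).trans ((shr_self _ _ _).trans (min_comm _ _)))
  have m03 : sm s2 e L.length 0 3 = min L.length i :=
    (shr_nw _ _ _ _ _).trans ((shr_self _ _ _).trans (min_comm _ _))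
  have m12 : sm s2 e L.length 1 2 = y :=
    (shr_emb _ _ _ _ _ _).trans ((shr_nw _ _ _ _ _).trans ((r0 _).trans (by omega)))
  have m13 : sm s2 e L.length 1 3 = y :=
    (shr_nw _ _ _ _ _).trans ((shr_emb _ _ _ _ _ _).trans ((r0 _).trans (by omega)))
  have m23 : sm s2 e L.length 2 3 = min L.length i :=
    (shr_nw _ _ _ _ _).trans ((shr_nw' _ _ _ _ _).trans ((shr_self _ _ _).trans (by omega)))
  have E : ∀ u v : Fin 4, nT L.length σ p i
      (![.inl p, .inl b, .inr true, .inr false] u) (![.inl p, .inl b, .inr true, .inr false] v) =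
      sm s2 e L.length u v := fun u v => by
    have c := H'.comm
    have l := fun a v => (fT_lr (β := fun _ : Bool => p) (t := i) H a v)
    have l' := fun a v => (fT_rl (β := fun _ : Bool => p) (t := i) H a v)
    have hb : min (σ b p) i = y := by omega
    fin_cases u <;> fin_cases v
    exacts [(HT.self _).trans (H'.self _).symm,
      (fT_ll H _ _).trans (((H.comm _ _).trans hy).trans (m01.symm.trans (c _ _))),
      (l _ _).trans (by rw [H.self]; exact m02.symm), (l _ _).trans (by rw [H.self]; exact m03.symm),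
      (fT_ll H _ _).trans (hy.trans m01.symm), (HT.self _).trans (H'.self _).symm,
      (l _ _).trans (hb.trans m12.symm), (l _ _).trans (hb.trans m13.symm),
      (l' _ _).trans (by rw [H.self]; exact m02.symm.trans (c _ _)),
      (l' _ _).trans (hb.trans (m12.symm.trans (c _ _))), (HT.self _).trans (H'.self _).symm,
      (fT_rr (by decide)).trans (by rw [H.self]; exact m23.symm),
      (l' _ _).trans (by rw [H.self]; exact m03.symm.trans (c _ _)),
      (l' _ _).trans (hb.trans (m13.symm.trans (c _ _))),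
      (fT_rr (by decide)).trans (by rw [H.self]; exact m23.symm.trans (c _ _)),
      (HT.self _).trans (H'.self _).symm]
  refine (NY_map hw HT H' (φ := ![.inl p, .inl b, .inr true, .inr false]) (φ' := id) (p' := 0)
    (fun u v => by fin_cases u <;> fin_cases v <;> simp [nb, nb.symm]) (fun u v _ => E u v)
    (fun u => congrArg (min · t) (E u 0)) (fun x => R (x 2) (x 1) * R (x 3) (x 1)) Q).trans ?_
  rw [NY_tX hw s2 he]
  have q0 : ∀ {α : Type} (a : α), EgP fun p : Pa α Ω => qf (P w (L.drop t) (p a t)) Q :=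
    fun a => .state (eg_qf hw _ _) a t
  have q1 : ∀ {α : Type} (a : α) (x : Ω), EgP fun p : Pa α Ω =>
      Pf w (L.drop i) (p a i) fun z => R z x := fun a x => .state (eg_Pf hw _ _) a i
  refine (tX_graft hw s1 p1 i L h (fun P' x z => R (x (s0.nw p0 i)) (x (s0.emb p0 i b0)) *
    R z (x (s0.emb p0 i b0)) * qf (P w (L.drop t) (P' p1 t)) Q)
    fun _ _ => (EgP.const _).mul (q0 _)).trans ?_
  refine Eq.trans (congrArg _ ?_) ((tX_graft hw s0 p0 i L h (fun P' x z => R z (x b0) *
    (Pf w (L.drop i) (P' p0 i) (fun z => R z (x b0)) * qf (P w (L.drop t) (P' p0 t)) Q))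
    fun _ _ => (EgP.const _).mul ((q1 _ _).mul (q0 _))).trans ?_)
  · funext g x
    simp only [Pf, Finset.sum_mul, Finset.mul_sum]
    exact Finset.sum_congr rfl fun z _ => by ring
  refine Eq.trans (congrArg _ ?_) ((tX_graft hw .one () y L h (fun P' _ z =>
    Pf w (L.drop i) (P' () i) (fun z' => R z' z) ^ 2 * qf (P w (L.drop t) (P' () t)) Q)
    fun _ _ => by simpa only [sq] using ((q1 _ _).mul (q1 _ _)).mul (q0 _)).trans ?_)
  · funext g x
    simp only [← mul_assoc, ← Finset.sum_mul]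
    rw [sq]
    rfl
  refine (Tr.tX_one w L h _).trans (congrArg _ (funext fun g => funext fun x => ?_))
  exact ((Finset.sum_congr rfl fun z _ => (mul_assoc _ _ _).symm).trans
    (Finset.sum_mul _ _ _).symm).trans (mul_comm _ _)

theorem sq_env {u a X : ℝ} (hX : 0 ≤ X) (hu : |u| ≤ 1) (ha : |a| ≤ 2) :
    (a * u) ^ 2 ≤ X ^ 2 * a ^ 2 + 8 * max (|u| - X) 0 := by
  have h1 := le_max_left (|u| - X) 0
  have h2 := le_max_right (|u| - X) 0
  have h3 : a ^ 2 ≤ 4 := by nlinarith [sq_abs a, abs_nonneg a]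
  have h4 : u ^ 2 ≤ X ^ 2 + 2 * max (|u| - X) 0 := by
    rcases le_total |u| X with e | e
    · nlinarith [sq_abs u, abs_nonneg u]
    · nlinarith [sq_abs u, abs_nonneg u]
  nlinarith [mul_le_mul_of_nonneg_left h4 (sq_nonneg a), mul_le_mul_of_nonneg_right h3 h2]

/-- **one base tree against the canonical term** -/
theorem dev_cs (hw : Wt w) (hR : ∀ x y, R x y = R y x) (hR1 : ∀ x y, |R x y| ≤ 1)
    (H : Um L.length σ) {a b c d p : κ} {y i : ℕ} (hK : i ≤ L.length) (hy : y < i)
    (h1 : σ b p = y) (ha : i ≤ σ a p) (hc : i ≤ σ c p) (hd : i ≤ σ d b) {X τ Γ : ℝ} (hX : 0 ≤ X)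
    (hτ : exc w L h R X y ≤ τ) (S : Finset ℕ) (μ : ℕ → ℝ) (Q : ℕ → Ω → Ω → ℝ) (hΓ : 0 ≤ Γ)
    (HΓ : pE w L h (fun g _ => Yp w L h S μ Q g ^ 2) ≤ Γ ^ 2) :
    |∑ t ∈ S, μ t * (NY w L h σ p t (fun x => R (x a) (x b) * R (x c) (x d)) (Q t) -
      bt w L h R y i t (Q t))| ≤ (5 * (X * √(vU w L h R y i)) + 6 * √τ) * Γ := by
  have HT := um_fT H (fun _ : Bool => p) i
  have t1 := fun a b => fT_ll (β := fun _ : Bool => p) (t := i) H a b
  have t3 := fun a v => fT_lr (β := fun _ : Bool => p) (t := i) H a v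
  have t4 := fun a v => fT_rl (β := fun _ : Bool => p) (t := i) H a v
  have c1 := H.comm b p
  have hab : σ a b = y := by
    have := H.ultra a p b; have := H.ultra p a b; have := H.comm a p
    omega
  have hdp : σ d p = y := by
    have := H.ultra d b p; have := H.ultra b d p; have := H.comm b d
    omega
  have hcd : σ c d = y := by
    have := H.ultra c p d; have := H.ultra p c d; have := H.comm c p; have := H.comm d p
    omega
  have hK' := hy.trans_le hK
  have v0 := vU_nonneg (L := L) (h := h) hw R y i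
  have τ0 : 0 ≤ τ := (pi2_nn hw hK'.le fun _ _ => le_max_right _ _).trans hτ
  have e0 : ∀ t, NY w L h σ p t (fun x => R (x a) (x b) * R (x c) (x d)) (Q t) -
      bt w L h R y i t (Q t) = NY w L h (nT L.length σ p i) (.inl p) t (fun x =>
        R (x (.inl a)) (x (.inl b)) * R (x (.inl c)) (x (.inl d)) -
          R (x (.inr true)) (x (.inl b)) * R (x (.inr false)) (x (.inl b))) (Q t) := fun t => by
    rw [NY_sub, bt_eq hw H t h1 hy.le hK']
    congr 1
    exact NY_map hw H HT (φ := id) (φ' := Sum.inl) (by simp) (fun a b _ => (t1 a b).symm)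
      (fun a => congrArg (min · t) (t1 a p).symm) (fun x => R (x a) (x b) * R (x c) (x d)) (Q t)
  simp only [e0]
  refine NY_cs hw HT _ _ S μ Q (by positivity) hΓ ?_ HΓ
  have s1 := mv_le (h := h) hw HT (u := .inl a) (u' := .inr true) (z := .inl b) (t := i) hK'
    ((t1 _ _).trans hab) (by rw [t4]; omega) hy.le (by rw [t3]; omega) R
  have s2 := par_le (h := h) hw hR HT (a := .inl c) (b := .inl d) (a' := .inr false)
    (b' := .inl b) (t := i) hK' ((t1 _ _).trans hcd) (by rw [t4]; omega) (by rw [t3]; omega) hy.le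
    (by rw [t3]; omega) (hd.trans_eq (t1 _ _).symm)
  have p1 := TK_pair (h := h) hw HT (a := .inl c) (b := .inl d)
    (fun e => ne_of_lt H (hcd ▸ hK' : σ c d < _) (Sum.inl_injective e))
    fun a b => max (|R a b| - X) 0
  have p2 := TK_pair (h := h) hw HT (a := .inr true) (b := .inl b) (by simp)
    fun a b => max (|R a b| - X) 0
  rw [t1, hcd] at p1
  rw [t4, h1, min_eq_left hy.le] at p2
  refine (TK_mono hw HT (G := fun x =>
    2 * (X ^ 2 * (R (x (.inl a)) (x (.inl b)) - R (x (.inr true)) (x (.inl b))) ^ 2 +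
      8 * max (|R (x (.inl c)) (x (.inl d))| - X) 0) +
    2 * (X ^ 2 * (R (x (.inl c)) (x (.inl d)) - R (x (.inr false)) (x (.inl b))) ^ 2 +
      8 * max (|R (x (.inr true)) (x (.inl b))| - X) 0)) fun x => ?_).trans ?_
  · have k1 := sq_env hX (hR1 (x (.inl c)) (x (.inl d)))
      (sub_two hR1 (x (.inl a)) (x (.inl b)) (x (.inr true)) (x (.inl b)))
    have k2 := sq_env hX (hR1 (x (.inr true)) (x (.inl b)))
      (sub_two hR1 (x (.inl c)) (x (.inl d)) (x (.inr false)) (x (.inl b)))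
    nlinarith [sq_nonneg ((R (x (.inl a)) (x (.inl b)) - R (x (.inr true)) (x (.inl b))) *
      R (x (.inl c)) (x (.inl d)) - (R (x (.inl c)) (x (.inl d)) - R (x (.inr false)) (x (.inl b))) *
      R (x (.inr true)) (x (.inl b)))]
  · simp only [TK_add, TK_mul, p1, p2]
    unfold exc at hτ
    have k1 : (X * √(vU w L h R y i)) ^ 2 = X ^ 2 * vU w L h R y i := by
      rw [mul_pow, sq_sqrt v0]
    have k2 := sq_sqrt τ0
    have k3 : 0 ≤ X * √(vU w L h R y i) * √τ := by positivity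
    nlinarith [mul_le_mul_of_nonneg_left s1 (sq_nonneg X), mul_le_mul_of_nonneg_left s2 (sq_nonneg X),
      mul_nonneg (sq_nonneg X) v0]

end Crest.Agent.T156.Cas.Mb55

end
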