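import Crest.Agent.T156.CMxE_84
import Crest.Agent.T156.C3L_97

/-!
# Row 156, block C (helper47): the bulk factor of the centred mixed word (`BkS`)
-/

set_option autoImplicit false
set_option linter.all false

noncomputable section

namespace Crest.Agent.T156.Cas.K47

open Crest.Agent.T157.E Crest.Agent.T157.Casc Crest.Agent.T157.SL
open Ker15 R90 Y44 L97

variable {Ω : Type} [Fintype Ω] {w : Ω → ℝ} {L : List (Lv Ω)} {h : Ω → ℝ} {R : Ω → Ω → ℝ}
  {κ κ' : Type} [Fintype κ] [Fintype κ'] {σ : κ → κ → ℕ} {σ' : κ' → κ' → ℕ}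

/-- two pairs of different leaves with the same split -/
def Pr (σ : κ → κ → ℕ) (σ' : κ' → κ' → ℕ) (a b : κ) (a' b' : κ') : Prop :=
  a ≠ b ∧ a' ≠ b' ∧ σ a b = σ' a' b'

theorem Pr.of_lt {K : ℕ} (H : Um K σ) (H' : Um K σ') {a b : κ} {a' b' : κ'} {t : ℕ}
    (h1 : σ a b = t) (h2 : σ' a' b' = t) (ht : t < K) : Pr σ σ' a b a' b' :=
  ⟨fun e => by rw [e, H.self] at h1; omega, fun e => by rw [e, H'.self] at h2; omega,
    h1.trans h2.symm⟩

theorem TK_inj (hw : Wt w) (H : Um L.length σ) (H' : Um L.length σ') {n : ℕ} {φ : Fin n → κ}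
    {φ' : Fin n → κ'} (e : ∀ i j, i < j → Pr σ σ' (φ i) (φ j) (φ' i) (φ' j))
    (F : (Fin n → Ω) → ℝ) :
    TK w L h σ (fun y => F fun a => y (φ a)) = TK w L h σ' fun y => F fun a => y (φ' a) := by
  refine TK_map hw H H' (fun i j => ?_) (fun i j hij => ?_) F
  · rcases lt_trichotomy i j with h1 | rfl | h1
    · exact iff_of_false (e i j h1).1 (e i j h1).2.1
    · exact iff_of_true rfl rfl
    · exact iff_of_false (e j i h1).1.symm (e j i h1).2.1.symm
  · rcases lt_trichotomy i j with h1 | rfl | h1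
    · exact (e i j h1).2.2
    · exact absurd rfl hij
    · rw [H.comm, H'.comm]; exact (e j i h1).2.2

theorem TK4 (hw : Wt w) (H : Um L.length σ) (H' : Um L.length σ') {a b c d : κ}
    {a' b' c' d' : κ'} (h1 : Pr σ σ' a b a' b') (h2 : Pr σ σ' a c a' c') (h3 : Pr σ σ' a d a' d')
    (h4 : Pr σ σ' b c b' c') (h5 : Pr σ σ' b d b' d') (h6 : Pr σ σ' c d c' d')
    (F : Ω → Ω → Ω → Ω → ℝ) : TK w L h σ (fun y => F (y a) (y b) (y c) (y d)) =
      TK w L h σ' fun y => F (y a') (y b') (y c') (y d') :=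
  TK_inj (h := h) hw H H' (φ := ![a, b, c, d]) (φ' := ![a', b', c', d']) (fun i j hij => by
    fin_cases i <;> fin_cases j <;>
      first | exact absurd hij (by decide) | exact h1 | exact h2 | exact h3 | exact h4 | exact h5 |
        exact h6) fun y => F (y 0) (y 1) (y 2) (y 3)

theorem TK5 (hw : Wt w) (H : Um L.length σ) (H' : Um L.length σ') {a b c d e : κ}
    {a' b' c' d' e' : κ'} (h1 : Pr σ σ' a b a' b') (h2 : Pr σ σ' a c a' c')
    (h3 : Pr σ σ' a d a' d') (h4 : Pr σ σ' a e a' e') (h5 : Pr σ σ' b c b' c')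
    (h6 : Pr σ σ' b d b' d') (h7 : Pr σ σ' b e b' e') (h8 : Pr σ σ' c d c' d')
    (h9 : Pr σ σ' c e c' e') (h10 : Pr σ σ' d e d' e') (F : Ω → Ω → Ω → Ω → Ω → ℝ) :
    TK w L h σ (fun y => F (y a) (y b) (y c) (y d) (y e)) =
      TK w L h σ' fun y => F (y a') (y b') (y c') (y d') (y e') :=
  TK_inj (h := h) hw H H' (φ := ![a, b, c, d, e]) (φ' := ![a', b', c', d', e']) (fun i j hij => by
    fin_cases i <;> fin_cases j <;>
      first | exact absurd hij (by decide) | exact h1 | exact h2 | exact h3 | exact h4 | exact h5 |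
        exact h6 | exact h7 | exact h8 | exact h9 | exact h10)
    fun y => F (y 0) (y 1) (y 2) (y 3) (y 4)

theorem env_le' {u a b e : ℝ} (he : 0 ≤ e) (ha : |a| ≤ 2) (hb : |b| ≤ 2) :
    |u * a * b| ≤ 1 / 2 * a ^ 2 + e ^ 2 / 2 * b ^ 2 + 4 * max (|u| - e) 0 := by
  have h1 : |u| ≤ e + max (|u| - e) 0 := by linarith [le_max_left (|u| - e) 0]
  have h2 : 0 ≤ max (|u| - e) 0 := le_max_right _ _
  have h3 : e * (|a| * |b|) ≤ (a ^ 2 + e ^ 2 * b ^ 2) / 2 := by
    nlinarith [sq_abs a, sq_abs b, sq_nonneg (|a| - e * |b|)]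
  have h4 : |a| * |b| ≤ 4 := by nlinarith [abs_nonneg a, abs_nonneg b]
  have h5 : 0 ≤ |a| * |b| := by positivity
  rw [mul_assoc, abs_mul, abs_mul]
  nlinarith [mul_le_mul_of_nonneg_right h1 h5, mul_le_mul_of_nonneg_left h4 h2]

set_option maxHeartbeats 1600000 in
/-- **the bulk factor against the canonical one** -/
theorem bk [DecidableEq κ] (hw : Wt w) (hR : ∀ x y, R x y = R y x) (hR1 : ∀ x y, |R x y| ≤ 1)
    (H : Um L.length σ) {a b c d p q : κ} {y u : ℕ} (hac : σ a c = y) (hab : y < σ a b)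
    (hcd : y < σ c d) (hcp : y < σ c p) (hu : σ p q = u) (hyu : y < u) (hK : u < L.length)
    {ρ X m τ V : ℝ} (hX : 0 ≤ X) (hm : 0 ≤ m) (hρ : |ρ| ≤ 1)
    (h1 : pi2 w L y (fun a b => max (|R a b| - X) 0) h ≤ τ)
    (h2 : pi2 w L u (fun a b => max (|R a b - ρ| - m) 0) h ≤ τ)
    (h3 : pi2 w L u (fun a b => (R a b - ρ) ^ 2) h ≤ V) :
    |TK w L h σ (fun x => R (x a) (x c) * R (x b) (x d) * (R (x p) (x q) - ρ)) -
      TK w L h (C40.Mx84.cat L.length y (σ c p) u)
        fun x => R (x 0) (x 1) ^ 2 * (R (x 2) (x 3) - ρ)| ≤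
      (if a = b then 0 else vK w L h R y (σ a b) + X ^ 2 / 2 * V) +
        (if c = d then 0 else if u ≤ σ c d then m * vK w L h R y (σ c d)
          else vK w L h R y (σ c d) + X ^ 2 / 2 * V) +
        X * (3 * vK w L h R y u + 12 * vK w L h R u u) + 18 * τ := by
  set β : Fin 3 → κ := ![p, p, c] with hβ
  set T := lf L.length σ (Sum.elim id β) (Sum.elim (fun _ => L.length) fun _ => u) with hT
  have HT : Um L.length T := um_lf H _ _
  have HC : Um L.length (C40.Mx84.cat L.length y (σ c p) u) :=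
    um_lf ⟨fun _ => rfl, fun _ _ => rfl, fun _ _ _ => min_le_left _ _⟩ _ _
  have t1 : ∀ a b, T (.inl a) (.inl b) = σ a b := fun a b => by
    by_cases e : a = b
    · rw [e, HT.self, H.self]
    · rw [hT, lf_ne _ _ fun h => e (Sum.inl_injective h)]
      simp [H.le]
  have t2 : ∀ i v, i ≠ v → T (.inr i) (.inr v) = min (σ (β i) (β v)) u := fun i v e => by
    rw [hT, lf_ne _ _ fun h => e (Sum.inr_injective h)]
    simp
  have t3 : ∀ a v, T (.inl a) (.inr v) = min (σ a (β v)) u := fun a v => by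
    rw [hT, lf_ne _ _ Sum.inl_ne_inr]
    simp only [Sum.elim_inl, Sum.elim_inr, id]
    omega
  have t4 : ∀ a v, T (.inr v) (.inl a) = min (σ a (β v)) u := fun a v => by
    rw [HT.comm, t3]
  have b0 : β 0 = p := rfl
  have b1 : β 1 = p := rfl
  have b2 : β 2 = c := rfl
  have scc := H.self c
  have spp := H.self p
  have lcp := H.le c p
  have cpc := H.comm p c
  have cqp := H.comm q p
  have cqc := H.comm q c
  have sad : σ a d = y := by
    have := H.ultra a c d; have := H.ultra a d c; have := H.comm d c; omega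
  have sap : σ a p = y := by
    have := H.ultra a c p; have := H.ultra a p c; omega
  have saq : σ a q = y := by
    have := H.ultra a p q; have := H.ultra a q p; omega
  have sbd : σ b d = y := by
    have := H.ultra b a d; have := H.ultra a b d; have := H.comm b a; omega
  have scq : min (σ q c) u = min (σ c p) u := by
    have := H.ultra c p q; have := H.ultra c q p; omega
  have hyK : y < L.length := hyu.trans hK
  have hs : min (σ c p) u < L.length := by omega
  have pr : ∀ {a b a' b' : κ ⊕ Fin 3} {t : ℕ}, T a b = t → T a' b' = t → t < L.length →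
      Pr T T a b a' b' := fun h1 h2 h3 => Pr.of_lt HT HT h1 h2 h3
  have aP : T (.inl a) (.inr 0) = y := by rw [t3, b0]; omega
  have aQ : T (.inl a) (.inr 1) = y := by rw [t3, b1]; omega
  have aC : T (.inl a) (.inr 2) = y := by rw [t3, b2]; omega
  have cP : T (.inl c) (.inr 0) = min (σ c p) u := by rw [t3, b0]
  have cQ : T (.inl c) (.inr 1) = min (σ c p) u := by rw [t3, b1]
  have PQ : T (.inr 0) (.inr 1) = u := by rw [t2 _ _ (by decide), b0, b1]; omega
  have CP : T (.inr 2) (.inr 0) = min (σ c p) u := by rw [t2 _ _ (by decide), b0, b2]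
  have CQ : T (.inr 2) (.inr 1) = min (σ c p) u := by rw [t2 _ _ (by decide), b1, b2]
  have Cp : T (.inr 2) (.inl p) = min (σ c p) u := by rw [t4, b2, cpc]
  have Cq : T (.inr 2) (.inl q) = min (σ c p) u := by rw [t4, b2, scq]
  have npq : p ≠ q := fun e => by rw [e, H.self] at hu; omega
  have nac : a ≠ c := fun e => by rw [e, H.self] at hac; omega
  have nad : a ≠ d := fun e => by rw [e, H.self] at sad; omega
  have nbd : b ≠ d := fun e => by rw [e, H.self] at sbd; omega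
  have inl : ∀ {a b : κ}, a ≠ b → (Sum.inl a : κ ⊕ Fin 3) ≠ .inl b := fun h e =>
    h (Sum.inl_injective e)
  -- transport to the extended tree
  have e0 := TK_map (h := h) hw H HT (φ := id) (φ' := Sum.inl) (by simp)
    (fun a b _ => (t1 a b).symm) fun x => R (x a) (x c) * R (x b) (x d) * (R (x p) (x q) - ρ)
  have e1 := TK4 (h := h) hw HC HT (a := 0) (b := 1) (c := 2) (d := 3) (a' := .inl a)
    (b' := .inl c) (c' := .inr 0) (d' := .inr 1)
    (Pr.of_lt HC HT (t := y) (by simp [C40.Mx84.cat, lf]; omega) (by rw [t1, hac]) hyK)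
    (Pr.of_lt HC HT (t := y) (by simp [C40.Mx84.cat, lf]; omega) aP hyK)
    (Pr.of_lt HC HT (t := y) (by simp [C40.Mx84.cat, lf]; omega) aQ hyK)
    (Pr.of_lt HC HT (by simp [C40.Mx84.cat, lf]; omega) cP hs)
    (Pr.of_lt HC HT (by simp [C40.Mx84.cat, lf]; omega) cQ hs)
    (Pr.of_lt HC HT (t := u) (by simp [C40.Mx84.cat, lf]; omega) PQ hK)
    fun x₀ x₁ x₂ x₃ => R x₀ x₁ ^ 2 * (R x₂ x₃ - ρ)
  have e2 := TK4 (h := h) hw HT HT (a := .inl a) (b := .inr 2) (c := .inl p) (d := .inl q)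
    (a' := .inl a) (b' := .inr 2) (c' := .inr 0) (d' := .inr 1) (pr aC aC hyK)
    (pr (by rw [t1, sap]) aP hyK) (pr (by rw [t1, saq]) aQ hyK) (pr Cp CP hs) (pr Cq CQ hs)
    (pr (by rw [t1, hu]) PQ hK) fun x₀ x₁ x₂ x₃ => R x₀ x₁ ^ 2 * R x₂ x₃
  -- square norms
  have s1 := sqK (h := h) hw hR HT (a := .inl p) (b := .inr 0) (c := .inl q) (y := u) (t := u)
    Sum.inl_ne_inr (inl npq) Sum.inr_ne_inl (by rw [t3, b0]; omega) (by rw [t1, hu])
    (by rw [t4, b0]; omega) le_rfl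
  have s2 := sqK (h := h) hw hR HT (a := .inl q) (b := .inr 1) (c := .inr 0) (y := u) (t := u)
    Sum.inl_ne_inr Sum.inl_ne_inr (by simp) (by rw [t3, b1]; omega) (by rw [t3, b0]; omega)
    (by rw [HT.comm, PQ]) le_rfl
  have s3 := TK_mono (h := h) hw HT
    (F := fun ω => (R (ω (.inl p)) (ω (.inl q)) - R (ω (.inr 0)) (ω (.inr 1))) ^ 2)
    (G := fun ω => 2 * (R (ω (.inl p)) (ω (.inl q)) - R (ω (.inr 0)) (ω (.inl q))) ^ 2 +
      2 * (R (ω (.inl q)) (ω (.inr 0)) - R (ω (.inr 1)) (ω (.inr 0))) ^ 2) fun ω => by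
      rw [hR (ω (.inl q)) (ω (.inr 0)), hR (ω (.inr 1)) (ω (.inr 0))]
      nlinarith [sq_nonneg (R (ω (.inl p)) (ω (.inl q)) - 2 * R (ω (.inr 0)) (ω (.inl q)) +
        R (ω (.inr 0)) (ω (.inr 1)))]
  rw [TK_add, TK_mul, TK_mul, s1, s2] at s3
  have s4 := sqK (h := h) hw hR HT (a := .inl c) (b := .inr 2) (c := .inl a) (y := y) (t := u)
    Sum.inl_ne_inr (inl nac.symm) Sum.inr_ne_inl (by rw [t3, b2]; omega)
    (by rw [t1, H.comm, hac]) (by rw [HT.comm, aC]) hyu.le
  have p1 := TK_pair (h := h) hw HT (inl nac) fun a b => max (|R a b| - X) 0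
  have p2 := TK_pair (h := h) hw HT (a := .inl a) (b := .inr 2) Sum.inl_ne_inr
    fun a b => max (|R a b| - X) 0
  have p3 := TK_pair (h := h) hw HT (inl npq) fun a b => (R a b - ρ) ^ 2
  have p4 := TK_pair (h := h) hw HT (a := .inr 0) (b := .inr 1) (by simp)
    fun a b => max (|R a b - ρ| - m) 0
  rw [t1, hac] at p1
  rw [aC] at p2
  rw [t1, hu] at p3
  rw [PQ] at p4
  have hW : ∀ x z, |R x z - ρ| ≤ 2 := fun x z => (abs_sub _ _).trans (by linarith [hR1 x z])
  have τ0 : 0 ≤ τ := (pi2_nn hw hyK.le fun _ _ => le_max_right _ _).trans h1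
  have v1 := vK_nonneg (L := L) (h := h) (R := R) hw y u
  have v2 := vK_nonneg (L := L) (h := h) (R := R) hw u u
  have hX2 : 0 ≤ X ^ 2 / 2 := by positivity
  -- the first replacement
  have A1 : |TK w L h T fun x => R (x (.inl a)) (x (.inl c)) *
      (R (x (.inl b)) (x (.inl d)) - R (x (.inl a)) (x (.inl d))) *
      (R (x (.inl p)) (x (.inl q)) - ρ)| ≤
      (if a = b then 0 else vK w L h R y (σ a b) + X ^ 2 / 2 * V) + 4 * τ := by
    split_ifs with e
    · simp only [e, sub_self, mul_zero, zero_mul, TK_const hw HT, abs_zero]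
      linarith
    · have k := abs_TK_le (h := h) hw HT fun ω => env_le' (u := R (ω (.inl a)) (ω (.inl c))) hX
        (abs_sub_two hR1 (ω (.inl b)) (ω (.inl d)) (ω (.inl a)) (ω (.inl d)))
        (hW (ω (.inl p)) (ω (.inl q)))
      have s := sqK (h := h) hw hR HT (a := .inl b) (b := .inl a) (c := .inl d) (y := y)
        (t := σ a b) (inl (Ne.symm e)) (inl nbd) (inl nad) (by rw [t1, H.comm])
        (by rw [t1, sbd]) (by rw [t1, sad]) hab.le
      rw [TK_add, TK_add, TK_mul, TK_mul, TK_mul, p1, p3, s] at k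
      linarith [mul_le_mul_of_nonneg_left h3 hX2]
  -- the second replacement
  have A2 : |TK w L h T fun x => R (x (.inl a)) (x (.inl c)) *
      (R (x (.inl d)) (x (.inl a)) - R (x (.inl c)) (x (.inl a))) *
      (R (x (.inl p)) (x (.inl q)) - ρ)| ≤
      (if c = d then 0 else if u ≤ σ c d then m * vK w L h R y (σ c d)
        else vK w L h R y (σ c d) + X ^ 2 / 2 * V) +
      X * (vK w L h R y u + 4 * vK w L h R u u) + 6 * τ := by
    have z0 : 0 ≤ X * (vK w L h R y u + 4 * vK w L h R u u) := by positivity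
    by_cases e : c = d
    · simp only [e, sub_self, mul_zero, zero_mul, TK_const hw HT, abs_zero, if_true]
      linarith
    rw [if_neg e]
    have s := sqK (h := h) hw hR HT (a := .inl d) (b := .inl c) (c := .inl a) (y := y)
      (t := σ c d) (inl (Ne.symm e)) (inl nad.symm) (inl nac.symm) (by rw [t1, H.comm])
      (by rw [t1, H.comm, sad]) (by rw [t1, H.comm, hac]) hcd.le
    split_ifs with f
    swap
    · have k := abs_TK_le (h := h) hw HT fun ω => env_le' (u := R (ω (.inl a)) (ω (.inl c))) hX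
        (abs_sub_two hR1 (ω (.inl d)) (ω (.inl a)) (ω (.inl c)) (ω (.inl a)))
        (hW (ω (.inl p)) (ω (.inl q)))
      rw [TK_add, TK_add, TK_mul, TK_mul, TK_mul, p1, p3, s] at k
      linarith [mul_le_mul_of_nonneg_left h3 hX2]
    have sdp : min (σ d p) u = min (σ c p) u := by
      have := H.ultra c d p; have := H.ultra d c p; have := H.comm d c; omega
    have dP : T (.inl d) (.inr 0) = min (σ c p) u := by rw [t3, b0, sdp]
    have dQ : T (.inl d) (.inr 1) = min (σ c p) u := by rw [t3, b1, sdp]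
    have e3 := TK5 (h := h) hw HT HT (a := .inl a) (b := .inl c) (c := .inl d) (d := .inr 0)
      (e := .inr 1) (a' := .inl a) (b' := .inl d) (c' := .inl c) (d' := .inr 0) (e' := .inr 1)
      (pr (by rw [t1, hac]) (by rw [t1, sad]) hyK) (pr (by rw [t1, sad]) (by rw [t1, hac]) hyK)
      (pr aP aP hyK) (pr aQ aQ hyK) ⟨inl e, inl (Ne.symm e), HT.comm _ _⟩ (pr cP dP hs)
      (pr cQ dQ hs) (pr dP cP hs) (pr dQ cQ hs) (pr PQ PQ hK)
      fun x₀ x₁ x₂ x₃ x₄ => R x₁ x₀ * (R x₂ x₀ - R x₁ x₀) * (R x₃ x₄ - ρ)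
    have k1 := abs_TK_le (h := h) hw HT fun ω => env_le (u := R (ω (.inl a)) (ω (.inl c))) hX
      (abs_sub_two hR1 (ω (.inl d)) (ω (.inl a)) (ω (.inl c)) (ω (.inl a)))
      (abs_sub_two hR1 (ω (.inl p)) (ω (.inl q)) (ω (.inr 0)) (ω (.inr 1)))
    have k2 := abs_TK_le (h := h) hw HT fun ω => env_le (u := R (ω (.inr 0)) (ω (.inr 1)) - ρ) hm
      (abs_sub_two hR1 (ω (.inl d)) (ω (.inl a)) (ω (.inl c)) (ω (.inl a)))
      (abs_sub_two hR1 (ω (.inl d)) (ω (.inl a)) (ω (.inl c)) (ω (.inl a)))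
    rw [TK_add, TK_add, TK_mul, TK_mul, TK_mul, p1, s] at k1
    rw [TK_add, TK_add, TK_mul, TK_mul, p4, s] at k2
    have d1 : TK w L h T (fun ω => (R (ω (.inr 0)) (ω (.inr 1)) - ρ) *
        (R (ω (.inl d)) (ω (.inl a)) - R (ω (.inl c)) (ω (.inl a))) *
        (R (ω (.inl d)) (ω (.inl a)) - R (ω (.inl c)) (ω (.inl a)))) =
        -2 * TK w L h T fun x => R (x (.inl c)) (x (.inl a)) *
          (R (x (.inl d)) (x (.inl a)) - R (x (.inl c)) (x (.inl a))) *
          (R (x (.inr 0)) (x (.inr 1)) - ρ) := by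
      rw [show ∀ t : ℝ, -2 * t = -1 * t + -1 * t from fun t => by ring]
      nth_rewrite 2 [e3]
      rw [← TK_lin]
      exact congrArg _ (funext fun ω => by ring)
    have d2 : TK w L h T (fun x => R (x (.inl a)) (x (.inl c)) *
        (R (x (.inl d)) (x (.inl a)) - R (x (.inl c)) (x (.inl a))) *
        (R (x (.inl p)) (x (.inl q)) - ρ)) =
        TK w L h T (fun x => R (x (.inl a)) (x (.inl c)) *
          (R (x (.inl d)) (x (.inl a)) - R (x (.inl c)) (x (.inl a))) *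
          (R (x (.inl p)) (x (.inl q)) - R (x (.inr 0)) (x (.inr 1)))) +
        TK w L h T fun x => R (x (.inl c)) (x (.inl a)) *
          (R (x (.inl d)) (x (.inl a)) - R (x (.inl c)) (x (.inl a))) *
          (R (x (.inr 0)) (x (.inr 1)) - ρ) := by
      rw [← TK_add]
      exact congrArg _ (funext fun ω => by rw [hR (ω (.inl a)) (ω (.inl c))]; ring)
    rw [d1, abs_mul, abs_neg, abs_two] at k2
    rw [d2]
    refine (abs_add_le _ _).trans ?_
    have a1 := vK_anti (L := L) (h := h) (R := R) hw hyu.le f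
    linarith [mul_le_mul_of_nonneg_left s3 hX, mul_le_mul_of_nonneg_left a1 hX,
      mul_le_mul_of_nonneg_left h1 zero_le_two]
  -- fresh upper pair
  have k1 := abs_TK_le (h := h) hw HT fun ω => env_le (u := R (ω (.inl a)) (ω (.inl c))) hX
    (abs_sub_two hR1 (ω (.inl c)) (ω (.inl a)) (ω (.inr 2)) (ω (.inl a)))
    (abs_sub_two hR1 (ω (.inl p)) (ω (.inl q)) (ω (.inr 0)) (ω (.inr 1)))
  have k2 := abs_TK_le (h := h) hw HT fun ω => env_le (u := R (ω (.inl a)) (ω (.inr 2))) hX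
    (abs_sub_two hR1 (ω (.inl c)) (ω (.inl a)) (ω (.inr 2)) (ω (.inl a)))
    (abs_sub_two hR1 (ω (.inl p)) (ω (.inl q)) (ω (.inr 0)) (ω (.inr 1)))
  rw [TK_add, TK_add, TK_mul, TK_mul, TK_mul, p1, s4] at k1
  rw [TK_add, TK_add, TK_mul, TK_mul, TK_mul, p2, s4] at k2
  have dec : TK w L h T (fun x => R (x (.inl a)) (x (.inl c)) * R (x (.inl b)) (x (.inl d)) *
      (R (x (.inl p)) (x (.inl q)) - ρ)) - TK w L h T (fun x => R (x (.inl a)) (x (.inl c)) ^ 2 *
        (R (x (.inr 0)) (x (.inr 1)) - ρ)) =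
      TK w L h T (fun x => R (x (.inl a)) (x (.inl c)) *
        (R (x (.inl b)) (x (.inl d)) - R (x (.inl a)) (x (.inl d))) *
        (R (x (.inl p)) (x (.inl q)) - ρ)) +
      TK w L h T (fun x => R (x (.inl a)) (x (.inl c)) *
        (R (x (.inl d)) (x (.inl a)) - R (x (.inl c)) (x (.inl a))) *
        (R (x (.inl p)) (x (.inl q)) - ρ)) +
      TK w L h T (fun ω => R (ω (.inl a)) (ω (.inl c)) *
        (R (ω (.inl c)) (ω (.inl a)) - R (ω (.inr 2)) (ω (.inl a))) *
        (R (ω (.inl p)) (ω (.inl q)) - R (ω (.inr 0)) (ω (.inr 1)))) +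
      TK w L h T (fun ω => R (ω (.inl a)) (ω (.inr 2)) *
        (R (ω (.inl c)) (ω (.inl a)) - R (ω (.inr 2)) (ω (.inl a))) *
        (R (ω (.inl p)) (ω (.inl q)) - R (ω (.inr 0)) (ω (.inr 1)))) +
      (TK w L h T (fun y => R (y (.inl a)) (y (.inr 2)) ^ 2 * R (y (.inl p)) (y (.inl q))) -
        TK w L h T fun y => R (y (.inl a)) (y (.inr 2)) ^ 2 * R (y (.inr 0)) (y (.inr 1))) := by
    rw [← TK_sub, ← TK_sub, ← TK_add, ← TK_add, ← TK_add, ← TK_add]
    refine congrArg _ (funext fun ω => ?_)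
    rw [hR (ω (.inl d)) (ω (.inl a)), hR (ω (.inl c)) (ω (.inl a)), hR (ω (.inr 2)) (ω (.inl a))]
    ring
  rw [e2, sub_self, add_zero] at dec
  rw [e1, show TK w L h σ (fun x => R (x a) (x c) * R (x b) (x d) * (R (x p) (x q) - ρ)) = _
    from e0, dec]
  refine (abs_add_le _ _).trans ((add_le_add ((abs_add_le _ _).trans
    (add_le_add ((abs_add_le _ _).trans (add_le_add A1 A2)) k1)) k2).trans ?_)
  linarith [mul_le_mul_of_nonneg_left s3 hX]

end Crest.Agent.T156.Cas.K47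

namespace Crest.Agent.T156.Cas.C40.Mx84

open Crest.Agent.T157.E Crest.Agent.T157.Casc Crest.Agent.T157.SL
open Crest.Agent.T157.G1 (ov)
open Nu87 Ck32
open Cw55 (Uc)

theorem Uc_eq47 (D : CD) (u : ℕ) (x y : Cube D.n) : Uc D u x y = ov x y - D.rb u := by
  simp only [Uc, oU, CD.del]
  ring

/-- **`BkS`** -/
theorem bkS : BkS := by
  refine ⟨36, by norm_num, fun τ0 D H r σ hσ a b c d p q y u hac hy hab hcd hcp _ hu hup => ?_⟩
  obtain ⟨hJ, hK⟩ := CD.mem_up.1 hup
  have hyJ := (CD.mem_lo.1 hy).2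
  have w1 : Wt fun _ : Cube D.n => (1 : ℝ) := wt_one90
  have m0 : 0 ≤ mm D u := le_min zero_le_one (H.e0 u)
  have mean : pi2 (fun _ => 1) D.B u (oU D.q u) 0 = D.del u := by
    have := pi2_sub w1 D.B u ov (fun _ _ => D.q u) 0
    rw [pi2_const w1] at this
    exact this
  have dom : ∀ {g : Cube D.n → Cube D.n → ℝ} {f : Cube D.n → Cube D.n → ℝ},
      (∀ x y, |f x y| ≤ g x y) →
      |pi2 (fun _ => 1) D.B u f 0| ≤ pi2 (fun _ => 1) D.B u g 0 := fun {g f} e => by
    have h1 := Crest.Agent.T157.Casc.pi2_mono w1 D.B u (fun x y => (abs_le.1 (e x y)).2) 0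
    have h2 := Crest.Agent.T157.Casc.pi2_mono w1 D.B u (K := fun x y => -1 * g x y) (K' := f)
      (fun x y => by linarith [(abs_le.1 (e x y)).1]) 0
    rw [pi2_const_mul] at h2
    rw [abs_le]
    constructor <;> linarith
  have hρ : |D.rb u| ≤ 1 := (dom (g := fun _ _ => 1) abs_ov_le).trans_eq (pi2_const w1 _ _ _ _)
  have hd : |D.del u| ≤ D.e u + D.tl := by
    have := dom (f := oU D.q u) (g := fun x y => D.e u + max (|oU D.q u x y| - D.e u) 0)
      fun x y => by linarith [le_max_left (|oU D.q u x y| - D.e u) 0]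
    rw [mean, pi2_add w1, pi2_const w1] at this
    exact this.trans (add_le_add le_rfl (H.envU u hup))
  have h1 : pi2 (fun _ => 1) D.B y (fun a b => max (|ov a b| - D.X) 0) 0 ≤ 2 * D.tl :=
    (H.envL y hy).trans (by linarith [H.tl0])
  have h2 : pi2 (fun _ => 1) D.B u (fun a b => max (|ov a b - D.rb u| - 2 * mm D u) 0) 0 ≤
      2 * D.tl := by
    have k := Crest.Agent.T157.Casc.pi2_mono w1 D.B u
      (K := fun a b => max (|ov a b - D.rb u| - 2 * mm D u) 0)
      (K' := fun a b => max (|oU D.q u a b| - D.e u) 0 + D.tl) (fun a b => by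
        have z0 := le_max_right (|oU D.q u a b| - D.e u) 0
        have z1 := le_max_left (|oU D.q u a b| - D.e u) 0
        refine max_le ?_ (add_nonneg z0 H.tl0)
        unfold mm
        rcases le_total 1 (D.e u) with h | h
        · rw [min_eq_left h]
          linarith [abs_sub (ov a b) (D.rb u), abs_ov_le a b, H.tl0]
        · rw [min_eq_right h, ← Uc_eq47, Uc]
          linarith [abs_sub (oU D.q u a b) (D.del u)]) 0
    rw [pi2_add w1, pi2_const w1] at k
    exact k.trans ((add_le_add (H.envU u hup) le_rfl).trans_eq (two_mul _).symm)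
  have h3 : pi2 (fun _ => 1) D.B u (fun a b => (ov a b - D.rb u) ^ 2) 0 ≤ 2 * D.g u ^ 2 := by
    have k : (fun a b : Cube D.n => (ov a b - D.rb u) ^ 2) = fun a b =>
        |oU D.q u a b| ^ 2 + (-2 * D.del u * oU D.q u a b + D.del u ^ 2) :=
      funext fun a => funext fun b => by rw [← Uc_eq47, Uc, sq_abs]; ring
    rw [k, pi2_add w1, pi2_add w1, pi2_const w1, pi2_const_mul, mean]
    have := u_le_g (D := D) (p := 2) (by norm_num) u
    change pi2 _ _ _ _ _ ≤ _ at this
    nlinarith [sq_nonneg (D.del u)]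
  have k := K47.bk (h := 0) w1 C394.ov_comm_97 abs_ov_le (R90.um_rz hσ) hac (hyJ.trans_lt hab)
    (hyJ.trans_lt hcd) (hyJ.trans_lt hcp) hu (hyJ.trans_lt hJ) (lenB (D := D) ▸ hK) H.X0
    (mul_nonneg zero_le_two m0) hρ h1 h2 h3
  unfold TB Bk
  rw [R90.TM_eq w1 hσ]
  simp only [Uc_eq47]
  refine k.trans ?_
  have ev : ∀ i j, Y44.vK (fun _ => 1) D.B 0 ov i j = D.v i j := fun _ _ => rfl
  simp only [ev]
  have v1 := D.v0 y (σ a b)
  have v2 := D.v0 y (σ c d)
  have v3 := mul_nonneg H.X0 (D.v0 y u)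
  have v4 := mul_nonneg H.X0 (D.v0 u u)
  have v5 : 0 ≤ D.X ^ 2 * D.g u ^ 2 := by positivity
  have v6 := mul_nonneg m0 v2
  have v7 := H.tl0
  split_ifs <;> nlinarith

end Crest.Agent.T156.Cas.C40.Mx84

end
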