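import Crest.Agent.T156.CMxE_84
import Crest.Agent.T156.CLad_90

/-!
# Row 156, block C (helper44): the ladder weight `LadS`
-/

set_option autoImplicit false

noncomputable section

namespace Crest.Agent.T156.Cas.C40.Mx84

open Crest.Agent.T157.E Crest.Agent.T157.Casc Crest.Agent.T157.SL
open Mul55 G90 Nu87 Ck32

theorem lad_le {D : CD} {τ0 : ℝ} (H : D.Ok τ0) {k : ℕ} (a c : Fin (1 + k + 1))
    {b d : Fin (1 + k + 1)} (hbd : b ≠ d) (σ : SM (1 + k + 1)) :
    0 ≤ lad D k a c b d σ ∧ lad D k a c b d σ ≤ L90.lad D k a c b d σ + L90.mkd D k a c σ := by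
  have l0 := L90.lad0 H a c b d σ
  have m0 := L90.mkd0 (D := D) a c σ
  have v0 := D.v0 (σ a c) (σ b d)
  have n0 : 0 ≤ mm D (σ b d) := le_min zero_le_one (H.e0 _)
  unfold lad
  split_ifs with h1 h2
  · have e : L90.mj D k σ = σ b d := by
      obtain ⟨ω, hω⟩ := Option.isSome_iff_exists.1 h2.1
      simp only [L90.mj, hω, h2.2]
    refine ⟨by linarith, ?_⟩
    rw [L90.mkd, e, if_pos ⟨h1.1, (CD.mem_up.1 h1.2).2.le⟩]
    linarith
  · obtain ⟨u1, u2⟩ := CD.mem_up.1 h1.2
    have e : σ b d ≠ L90.mj D k σ := by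
      cases hD : D.W with
      | none => simp only [L90.mj, hD]; omega
      | some ω => simpa only [L90.mj, hD, Option.isSome_some, true_and] using h2
    refine ⟨mul_nonneg n0 v0, ?_⟩
    rw [L90.lad, if_neg hbd, if_pos ⟨h1.1, Finset.mem_Ioc.2 ⟨u1, u2.le⟩, e⟩, L90.gl, if_pos u2]
    exact (mul_le_mul_of_nonneg_right (min_le_right 1 (D.e (σ b d))) v0).trans
      (le_add_of_nonneg_right m0)
  · exact ⟨le_rfl, add_nonneg l0 m0⟩

theorem ladS : LadS := ⟨4 ^ 7 + 3 ^ 7, by norm_num, fun τ0 D H k hk a c b d hac hbd => by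
  refine (av_mono H (fun σ _ => (lad_le H a c hbd σ).1) fun σ _ => (lad_le H a c hbd σ).2).trans ?_
  rw [av_add, add_mul]
  exact add_le_add ((L90.w_lad H hac b d).trans (mul_le_mul_of_nonneg_right
    (pow_le_pow_right₀ (by norm_num) (by omega)) H.Err0)) ((L90.w_mkd H hac).trans
      (mul_le_mul_of_nonneg_right (pow_le_pow_right₀ (by norm_num) (by omega)) H.Err0))⟩

end Crest.Agent.T156.Cas.C40.Mx84

end
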