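import Crest.Agent.T156.CY2A_44
import Crest.Agent.T156.CErr_54

/-!
# Row 156, block C (helper44): the word `[aL, aL]` against a deterministic bulk kernel
-/

set_option autoImplicit false
set_option linter.unusedSectionVars false

noncomputable section

namespace Crest.Agent.T156.Cas.Y44

open MeasureTheory Real Set Filter Topology
open Crest.Agent.T157.E Crest.Agent.T157.Casc Crest.Agent.T157.SL Crest.Agent.T157.Casc.C
open Crest.Agent.R339 Crest.Agent.T157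
open Crest.Agent.T157.G1 (ov)
open Crest.ProbabilityR.SpinGlassDynamics (spin)
open Mul55 C40 C40.CD

variable {D : CD} {τ0 : ℝ}

/-- `E R²` at the node `y` -/
def r2 (D : CD) (y : ℕ) : ℝ := D.E2 y fun x x' => ov x x' ^ 2

/-- the deterministic coefficient -/
def bet (D : CD) (y : ℕ) : ℝ := if y ≤ D.J then D.τ y / 2 * √(r2 D y) else 0

/-- the size of the crude terms -/
def A0 (D : CD) : ℝ := D.X ^ 3 * (D.X ^ 2 + 2 * D.tl)

/-- the gain at the node `t`, marked node `j` -/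
def cc (D : CD) (j t : ℕ) : ℝ := if t = j ∨ t = D.K then 1 else D.e t

/-- the ladder error of a tree -/
def Ld (D : CD) (j y : ℕ) (s : Sh) : ℝ :=
  ∑ t ∈ Finset.Ioc D.J D.K, if t ∈ Ws38.lab D.K s then cc D j t * D.v y t else 0

theorem ovc {n : ℕ} (x y : Cube n) : ov x y = ov y x := by rw [ov, ov, dotProduct_comm]

theorem r2_nn (D : CD) (y : ℕ) : 0 ≤ r2 D y :=
  pi2_nonneg wt_one90 _ _ (fun _ _ => sq_nonneg _) _

theorem r2_le (h : D.Ok τ0) {y : ℕ} (hy : y ∈ D.lo) : r2 D y ≤ D.X ^ 2 + 2 * D.tl := by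
  have e := h.u_lo hy 1
  have : D.u (1 + 1) y = r2 D y := by
    simp only [uM, r2, E2, oU, h.qlo y (mem_lo.1 hy).2, sub_zero, one_add_one_eq_two, sq_abs]
  rw [this] at e
  norm_num at e
  exact e

theorem cc_nn (h : D.Ok τ0) (j t : ℕ) : 0 ≤ cc D j t := by
  unfold cc
  split_ifs
  exacts [zero_le_one, h.e0 t]

theorem Ld_nn (h : D.Ok τ0) (j y : ℕ) (s : Sh) : 0 ≤ Ld D j y s :=
  Finset.sum_nonneg fun t _ => by
    split_ifs
    exacts [mul_nonneg (cc_nn h j t) (D.v0 y t), le_rfl]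

theorem A0_nn (h : D.Ok τ0) : 0 ≤ A0 D := by
  have := h.X0; have := h.tl0; unfold A0; positivity

theorem S_len (D : CD) : D.S.length = D.K := opS_length

theorem mono_S (h : D.Ok τ0) : Mono 0 D.S := Cav22.mono_tilt tilt_opS.symm h.mono

variable {s : Sh} {j : ℕ} {ξ : (s.Lf → Bool) → ℝ} {p q p' q' : s.Lf}

/-- one end moved inside its cluster -/
theorem mv_le (h : D.Ok τ0) (hN : Fintype.card s.Lf ≤ 8) (B : Bs D.K D.J j s ξ)
    (h1 : s.shr p q D.K ≤ D.J) (hp : D.J < s.shr p p' D.K) (hq : D.J < s.shr q q' D.K) (y : ℕ) :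
    vm (fun _ => 1) D.B 0 ov s y p p' * |TE (fun _ => 1) s D.S 0 (sf ξ p q p' q')| ≤
      2 * cQ * Ld D j y s := by
  have q1 := one_le_cQ
  unfold vm
  split_ifs with e
  · rw [zero_mul]
    exact mul_nonneg (by linarith) (Ld_nn h j y s)
  rw [B_len]
  set t := s.shr p p' D.K with ht
  have tK : t ≤ D.K := Wt87.shr_le _ _ _ _
  have k1 : cc D j t * D.v y t ≤ Ld D j y s := by
    refine le_trans (le_of_eq ?_) (Finset.single_le_sum (f := fun t =>
      if t ∈ Ws38.lab D.K s then cc D j t * D.v y t else 0) (fun t _ => ?_)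
      (Finset.mem_Ioc.2 ⟨hp, tK⟩))
    · rw [if_pos (Ws38.mem_lab.2 ⟨p, p', e, rfl⟩)]
    · split_ifs
      exacts [mul_nonneg (cc_nn h j t) (D.v0 y t), le_rfl]
  have k2 : |TE (fun _ => 1) s D.S 0 (sf ξ p q p' q')| ≤ 2 * cQ * cc D j t := by
    rw [← S_len] at B
    unfold cc
    split_ifs with c
    · linarith [site_crude B p q p' q']
    · have c' := not_or.1 c
      have tK' : t < D.K := lt_of_le_of_ne tK c'.2
      refine site_t (Cas.rk_opS h.ook) (mono_S h) hN B (t := t) ?_ (by rw [S_len])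
        hp (by rwa [S_len]) c'.1 (by rwa [S_len]) (by rwa [S_len])
      rw [Cas.TT_opV tK]
      exact (min_le_min_left _ (le_add_of_nonneg_left (h.ex0 t))).trans
        (h.esc t (mem_up.2 ⟨hp, tK'⟩))
  have k3 := D.v0 y t
  calc _ ≤ D.v y t * (2 * cQ * cc D j t) := mul_le_mul_of_nonneg_left k2 k3
    _ = 2 * cQ * (cc D j t * D.v y t) := by ring
    _ ≤ _ := mul_le_mul_of_nonneg_left k1 (by linarith)

theorem fin1 (h : D.Ok τ0) (hN : Fintype.card s.Lf ≤ 8) (B : Bs D.K D.J j s ξ) (hpq : p ≠ q)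
    (h1 : s.shr p q D.K ≤ D.J) (hp : D.J < s.shr p p' D.K) (hq : D.J < s.shr q q' D.K) :
    |(TE (fun _ => 1) s D.B 0 (fun x => ov (x p) (x q) * ov (x p') (x q')) -
        √(r2 D (s.shr p q D.K)) * √(r2 D (s.shr p' q' D.K))) *
      TE (fun _ => 1) s D.S 0 (sf ξ p q p' q')| ≤ 8 * cQ * Ld D j (s.shr p q D.K) s := by
  obtain ⟨e1, e2⟩ := bulk2 (L := D.B) (h := 0) (R := ov) wt_one90 ovc s (p' := p') (q' := q') hpq
    (by rw [B_len]; omega) (by rw [B_len]; omega)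
  rw [B_len] at e1 e2
  rw [e1, mul_self_sqrt (r2_nn D _), abs_mul]
  have k1 := mv_le h hN B h1 hp hq (s.shr p q D.K)
  have k2 := mv_le h hN B ((Wt87.shr_comm _ _ _ _).trans_le h1) hq hp (s.shr p q D.K)
  rw [← sf_sw] at k2
  refine (mul_le_mul_of_nonneg_right e2 (abs_nonneg _)).trans ?_
  linarith

/-- **one term of the word** -/
theorem fin (h : D.Ok τ0) (hN : Fintype.card s.Lf ≤ 8) (B : Bs D.K D.J j s ξ) (hpq : p ≠ q)
    (hpq' : p' ≠ q') (h1 : s.shr p q D.K ∈ D.lo) (h2 : s.shr p' q' D.K ∈ D.lo) :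
    |(TE (fun _ => 1) s D.B 0 (fun x => ov (x p) (x q) * ov (x p') (x q')) -
        √(r2 D (s.shr p q D.K)) * √(r2 D (s.shr p' q' D.K))) *
      TE (fun _ => 1) s D.S 0 (sf ξ p q p' q')| ≤
      8 * cQ * (A0 D + Ld D j (s.shr p q D.K) s) := by
  have q1 := one_le_cQ
  have a0 := A0_nn h
  have l0 := Ld_nn h j (s.shr p q D.K) s
  by_cases n1 : D.J < s.shr p p' D.K ∧ D.J < s.shr q q' D.K
  · refine (fin1 h hN B hpq (mem_lo.1 h1).2 n1.1 n1.2).trans ?_
    nlinarith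
  by_cases n2 : D.J < s.shr p q' D.K ∧ D.J < s.shr q p' D.K
  · have := fin1 h hN B hpq (mem_lo.1 h1).2 n2.1 n2.2
    rw [← sf_sw', Wt87.shr_comm s q' p'] at this
    simp only [ovc (_ : Cube D.n) (_ : Cube D.n)] at this ⊢
    refine this.trans ?_
    nlinarith
  have k1 := r2_le h h1
  have k2 := r2_le h h2
  have k3 := bulk0 (L := D.B) (h := 0) (R := ov) (A := D.X ^ 2 + 2 * D.tl) wt_one90 s hpq hpq'
    (by rw [B_len]; exact k1) (by rw [B_len]; exact k2)
  have k4 : |√(r2 D (s.shr p q D.K)) * √(r2 D (s.shr p' q' D.K))| ≤ D.X ^ 2 + 2 * D.tl := by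
    rw [abs_of_nonneg (by positivity), ← mul_self_sqrt ((r2_nn D _).trans k1)]
    exact mul_le_mul (sqrt_le_sqrt k1) (sqrt_le_sqrt k2) (sqrt_nonneg _) (sqrt_nonneg _)
  rw [← S_len] at B
  have k5 := site_J (Cas.rk_opS h.ook) (mono_S h) hN B (e := D.X ^ 3) (p := p) (q := q)
    (p' := p') (q' := q') (by
      rw [Cas.TT_opV h.cut.le, h.qlo _ le_rfl, mul_zero, zero_add]
      exact (min_le_right _ _).trans h.h1) (by rw [S_len]; exact h.cut)
    (by rw [S_len]; exact (mem_lo.1 h1).2) (by rw [S_len]; exact (mem_lo.1 h2).2)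
    (by rwa [S_len]) (by rwa [S_len])
  rw [abs_mul]
  refine (mul_le_mul ((abs_sub _ _).trans (add_le_add k3 k4)) k5 (abs_nonneg _)
    (add_nonneg ((abs_nonneg _).trans k3) ((abs_nonneg _).trans k4))).trans ?_
  have : (D.X ^ 2 + 2 * D.tl + (D.X ^ 2 + 2 * D.tl)) * (2 * cQ * D.X ^ 3) = 4 * cQ * A0 D := by
    unfold A0; ring
  nlinarith

/-! ### the word -/

/-- the letter `aL` -/
abbrev pa (D : CD) : (ℕ → Cube D.n → Cube D.n → ℝ) × (ℕ → Bool → Bool → ℝ) :=
  lt D.n D.β D.M D.q D.cl aL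

/-- the letter with the deterministic coefficient -/
def pb (D : CD) : (ℕ → Cube D.n → Cube D.n → ℝ) × (ℕ → Bool → Bool → ℝ) :=
  (fun j _ _ => bet D j, oE D.q)

theorem pa_lo (h : D.Ok τ0) {y : ℕ} (hy : y ∈ D.lo) (x x' : Cube D.n) :
    (pa D).1 y x x' = D.τ y / 2 * ov x x' := by
  have := (mem_lo.1 hy).2
  simp [pa, lt, cut, cl, this, oUb, oU, h.qlo y this]

theorem pa_out {y : ℕ} (hy : y ∉ D.lo) (x x' : Cube D.n) : (pa D).1 y x x' = 0 := by
  by_cases e : y ≤ D.J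
  · have : y = 0 := by rw [mem_lo] at hy; omega
    subst this
    simp [pa, lt, cut, oUb_zero]
  · simp [pa, lt, cut, cl, e]

theorem bet_out {y : ℕ} (hy : y ∉ D.lo) : bet D y = 0 := by
  unfold bet
  split_ifs with e
  · have : y = 0 := by rw [mem_lo] at hy; omega
    subst this
    simp [oTau, OneP.dAcc_zero]
  · rfl

theorem bet_lo {y : ℕ} (hy : y ∈ D.lo) : bet D y = D.τ y / 2 * √(r2 D y) := if_pos (mem_lo.1 hy).2

theorem oE_lo (h : D.Ok τ0) {y : ℕ} (hy : y ∈ D.lo) (a b : Bool) :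
    oE D.q y a b = spin a * spin b := by rw [oE, h.qlo y (mem_lo.1 hy).2, sub_zero]

/-- the error of a tree -/
def Er (D : CD) (j y : ℕ) (s : Sh) : ℝ := if y ∈ D.lo then A0 D + Ld D j y s else 0

theorem trm (h : D.Ok τ0) (hN : Fintype.card s.Lf ≤ 8) (B : Bs D.K D.J j s ξ) (hpq : p ≠ q)
    (hpq' : p' ≠ q') {y y' : ℕ} (h1 : s.shr p q D.K = y) (h2 : s.shr p' q' D.K = y') :
    |TE (fun _ => 1) s D.B 0 (fun x => (pa D).1 y (x p) (x q) * (pa D).1 y' (x p') (x q')) *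
        TE (fun _ => 1) s D.S 0
          (fun x => ξ x * oE D.q y (x p) (x q) * oE D.q y' (x p') (x q')) -
      TE (fun _ => 1) s D.B 0 (fun _ => bet D y * bet D y') *
        TE (fun _ => 1) s D.S 0
          (fun x => ξ x * oE D.q y (x p) (x q) * oE D.q y' (x p') (x q'))| ≤
      2 * cQ * τ0 ^ 2 * Er D j y s := by
  have q1 := one_le_cQ
  have a0 := A0_nn h
  have l0 := Ld_nn h j y s
  unfold Er
  by_cases e : y ∈ D.lo
  swap
  · simp [pa_out e, bet_out e, e, Law.TE_const wt_one90]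
  rw [if_pos e]
  by_cases e' : y' ∈ D.lo
  swap
  · simp only [pa_out e', bet_out e', mul_zero, Law.TE_const wt_one90, zero_mul, sub_zero, abs_zero]
    positivity
  have k := fin h hN B hpq hpq' (h1 ▸ e) (h2 ▸ e')
  rw [h1, h2] at k
  have e1 : (fun x : s.Lf → Cube D.n => D.τ y / 2 * ov (x p) (x q) * (D.τ y' / 2 * ov (x p') (x q'))) =
      fun x => D.τ y / 2 * (D.τ y' / 2) * (ov (x p) (x q) * ov (x p') (x q')) := by
    funext x; ring
  simp only [pa_lo h e, pa_lo h e', bet_lo e, bet_lo e', oE_lo h e, oE_lo h e', e1,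
    Law.TE_const wt_one90, Law.TE_const_mul wt_one90]
  have t1 := h.tau_mem y
  have t2 := h.tau_mem y'
  have t3 : D.τ y / 2 * (D.τ y' / 2) ≤ τ0 ^ 2 / 4 := by nlinarith [mul_le_mul t1.2 t2.2 t2.1 h.tau0]
  have t4 : 0 ≤ D.τ y / 2 * (D.τ y' / 2) := by have := t1.1; have := t2.1; positivity
  calc _ = D.τ y / 2 * (D.τ y' / 2) * |(TE (fun _ => 1) s D.B 0
        (fun x => ov (x p) (x q) * ov (x p') (x q')) - √(r2 D y) * √(r2 D y')) *
        TE (fun _ => 1) s D.S 0 (sf ξ p q p' q')| := by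
        rw [← abs_of_nonneg t4, ← abs_mul, abs_of_nonneg t4]
        congr 1
        unfold sf
        ring
    _ ≤ τ0 ^ 2 / 4 * (8 * cQ * (A0 D + Ld D j y s)) :=
        mul_le_mul t3 k (abs_nonneg _) (by positivity)
    _ = _ := by ring

/-- the ladder term below the potential -/
theorem Ld_le (h : D.Ok τ0) (j y : ℕ) (s : Sh) {P : Finset ℕ} (hP : ∀ v ∈ P, v ∈ Ws38.lab D.K s) :
    A0 D + Ld D j y s ≤ A0 D * Ws38.Pot D.B 0 P 0 s +
      ∑ t ∈ Finset.Ioc D.J D.K, cc D j t * D.v y t * Ws38.Pot D.B 0 (insert t P) 0 s := by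
  rw [Ws38.Pot_eq_one (by rwa [B_len]) (Nat.zero_le _), mul_one]
  refine add_le_add le_rfl (Finset.sum_le_sum fun t _ => ?_)
  split_ifs with e
  · rw [Ws38.Pot_eq_one (fun v hv => by
      rw [B_len]
      rcases Finset.mem_insert.1 hv with rfl | hv
      exacts [e, hP v hv]) (Nat.zero_le _), mul_one]
  · exact mul_nonneg (mul_nonneg (cc_nn h j t) (D.v0 y t)) (Ws38.Pot_nonneg h.mono)

/-- the summed error -/
def LL (D : CD) (j : ℕ) (m : ℕ → ℝ) : ℝ :=
  ∑ y ∈ D.lo, D.dx y * (A0 D + ∑ t ∈ Finset.Ioc D.J D.K, cc D j t * D.v y t * m t)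

theorem LL_le (h : D.Ok τ0) {m : ℕ → ℝ} {c : ℝ} (hc : 0 ≤ c) (hJ : D.J < j)
    (h1 : ∀ t, t ≠ j → m t = D.dx t) (h2 : m j ≤ c) :
    LL D j m ≤ D.X ^ 6 + 2 * D.tl + D.Lad0 + c * ∑ y ∈ Finset.Ico 1 j, D.dx y * D.v y j := by
  have a0 := A0_nn h
  have x0 := h.X0
  have x1 := h.X1
  have t0 := h.tl0
  have w : ∀ t, D.J < t → ∑ y ∈ D.lo, D.dx y * D.v y t ≤ ∑ y ∈ Finset.Ico 1 t, D.dx y * D.v y t :=
    fun t ht => Finset.sum_le_sum_of_subset_of_nonneg (fun y hy => Finset.mem_Ico.2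
      ⟨(mem_lo.1 hy).1, (mem_lo.1 hy).2.trans_lt ht⟩) fun y _ _ => mul_nonneg (h.dx0 y) (D.v0 y t)
  have e : LL D j m = (∑ y ∈ D.lo, D.dx y) * A0 D +
      ∑ t ∈ Finset.Ioc D.J D.K, cc D j t * m t * ∑ y ∈ D.lo, D.dx y * D.v y t := by
    simp only [LL, mul_add, Finset.sum_add_distrib, Finset.sum_mul, Finset.mul_sum]
    rw [Finset.sum_comm]
    congr 1
    exact Finset.sum_congr rfl fun _ _ => Finset.sum_congr rfl fun _ _ => by ring
  have k1 : (∑ y ∈ D.lo, D.dx y) * A0 D ≤ D.X ^ 6 + 2 * D.tl := by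
    refine (mul_le_mul_of_nonneg_right h.sum_lo a0).trans ?_
    have : D.X ^ 4 * D.tl ≤ 1 * D.tl := mul_le_mul_of_nonneg_right (pow_le_one₀ x0 x1) t0
    unfold A0
    nlinarith
  have k2 : ∑ t ∈ Finset.Ioc D.J D.K, cc D j t * m t * ∑ y ∈ D.lo, D.dx y * D.v y t ≤
      ∑ t ∈ Finset.Ioc D.J D.K, (D.dx t * (D.e t * ∑ y ∈ Finset.Ico 1 t, D.dx y * D.v y t) +
        if t = j then c * ∑ y ∈ Finset.Ico 1 j, D.dx y * D.v y j else 0) := by
    refine Finset.sum_le_sum fun t ht => ?_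
    have w1 := w t (Finset.mem_Ioc.1 ht).1
    have w0 := h.sv_low0 D.lo t
    have w2 := mul_nonneg (h.dx0 t) (mul_nonneg (h.e0 t) (w0.trans w1))
    by_cases e1 : t = j
    · subst e1
      rw [cc, if_pos (Or.inl rfl), if_pos rfl, one_mul]
      linarith [mul_le_mul h2 w1 w0 hc]
    rw [if_neg e1, add_zero, h1 t e1]
    by_cases e2 : t = D.K
    · subst e2
      rw [h.top]
      simp
    · rw [cc, if_neg (not_or.2 ⟨e1, e2⟩), mul_comm (D.e t), mul_assoc]
      exact mul_le_mul_of_nonneg_left (mul_le_mul_of_nonneg_left w1 (h.e0 t)) (h.dx0 t)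
  have k4 : ∑ t ∈ Finset.Ioc D.J D.K,
      D.dx t * (D.e t * ∑ y ∈ Finset.Ico 1 t, D.dx y * D.v y t) =
      D.I fun t => D.e t * ∑ y ∈ Finset.Ico 1 t, D.dx y * D.v y t := by
    rw [← Finset.Ioo_insert_right h.cut, Finset.sum_insert (by simp), h.top, zero_mul, zero_add, I]
  rw [Finset.sum_add_distrib, Finset.sum_ite_eq', k4] at k2
  have k3 := mul_nonneg hc (h.sv_low0 (Finset.Ico 1 j) j)
  obtain ⟨l1, l2, -⟩ := h.Lad0_parts
  rw [e, Lad0]
  split_ifs at k2 <;> linarith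

/-- the word with the deterministic coefficient -/
def bw (D : CD) : ℝ := D.dd (lamB D.B (oB D.n D.β D.M D.q []) [pb D, pb D])
  (∑ j ∈ D.up, D.om j * wB (-1) D.B (oB D.n D.β D.M D.q []) [pb D, pb D]
    (Sh.two j) (fun _ => 1) (pr2 j (oE D.q j)))

theorem val_le (h : D.Ok τ0) : |lamB D.B (oB D.n D.β D.M D.q []) [pa D, pa D] -
    lamB D.B (oB D.n D.β D.M D.q []) [pb D, pb D]| ≤
      2 * cQ * τ0 ^ 2 * (4500 * LL D D.K D.dx) := by
  have q1 := one_le_cQ
  have c0 : 0 ≤ 2 * cQ * τ0 ^ 2 := by positivity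
  have key : ∀ y ≤ D.K, |wB (-1) D.B (oB D.n D.β D.M D.q []) [pa D] (Sh.two y)
        (pr2 y ((pa D).1 y)) (pr2 y ((pa D).2 y)) -
      wB (-1) D.B (oB D.n D.β D.M D.q []) [pb D] (Sh.two y)
        (pr2 y ((pb D).1 y)) (pr2 y ((pb D).2 y))| ≤ 2 * cQ * τ0 ^ 2 * (4500 * if y ∈ D.lo then
          A0 D + ∑ t ∈ Finset.Ioc D.J D.K, cc D D.K t * D.v y t * D.dx t else 0) := by
    intro y hy
    have c2 := Wt87.card_two y
    simp only [wB]
    rw [← sg_sub]
    refine (abs_sg_le h.mono _ (Ψ := fun τ => 2 * cQ * τ0 ^ 2 * if y ∈ D.lo then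
      A0 D * Ws38.Pot D.B 0 ∅ 0 τ.sh + ∑ t ∈ Finset.Ioc D.J D.K,
        cc D D.K t * D.v y t * Ws38.Pot D.B 0 (insert t ∅) 0 τ.sh else 0) fun τ H => ?_).trans ?_
    · rw [B_len] at H
      have k := trm (j := D.K) (ξ := fun _ => 1) h (H.card.trans (by omega)) (Or.inl rfl)
        ((Ws38.e_inj H).ne (Tay38.two_ne y)) H.ne
        ((H.shr_e _ _ _).trans ((Wt87.shr_two _ _).trans (min_eq_left hy))) H.shr
      simp only [one_mul] at k
      refine le_trans (le_of_eq rfl) (k.trans (mul_le_mul_of_nonneg_left ?_ c0))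
      unfold Er
      split_ifs
      exacts [Ld_le h _ _ _ (by simp), le_rfl]
    · rw [sg_const_mul]
      refine mul_le_mul_of_nonneg_left ?_ c0
      split_ifs with e
      · simp only [sg_add, sg_sum, sg_const_mul, mul_add, Finset.mul_sum]
        have P : ∀ P : Finset ℕ, P.card ≤ 3 → sg 1 D.B (Sh.two y)
            (fun τ => Ws38.Pot D.B 0 P 0 τ.sh) ≤ 4500 * ∏ v ∈ P, Ws38.mu D.B y v := fun P hP =>
          (Ws38.sg_Pot' h.mono (by omega) hP).trans (mul_le_mul_of_nonneg_left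
            (Ws38.Pot_two h.mono (by rwa [B_len])) (by norm_num))
        refine add_le_add ?_ (Finset.sum_le_sum fun t ht => ?_)
        · have := mul_le_mul_of_nonneg_left (P ∅ (by simp)) (A0_nn h)
          rw [Finset.prod_empty] at this
          linarith
        · have := mul_le_mul_of_nonneg_left (P (insert t ∅) (by simp))
            (mul_nonneg (cc_nn h D.K t) (D.v0 y t))
          have ne : t ≠ y := by
            have := (Finset.mem_Ioc.1 ht).1; have := (mem_lo.1 e).2; omega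
          rw [Finset.prod_insert (by simp), Finset.prod_empty, Ws38.mu, if_neg ne] at this
          linarith
      · rw [sg_zero, mul_zero]
  simp only [lamB]
  rw [← Finset.sum_sub_distrib, B_len]
  refine (Finset.abs_sum_le_sum_abs _ _).trans ((Finset.sum_le_sum
    (g := fun y => 2 * cQ * τ0 ^ 2 * (4500 * if y ∈ D.lo then D.dx y *
      (A0 D + ∑ t ∈ Finset.Ioc D.J D.K, cc D D.K t * D.v y t * D.dx t) else 0))
        fun y hy => ?_).trans (le_of_eq ?_))
  · rw [← mul_sub, abs_mul, abs_of_nonneg (h.dx0 y)]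
    refine (mul_le_mul_of_nonneg_left (key y (Nat.lt_succ_iff.1 (Finset.mem_range.1 hy)))
      (h.dx0 y)).trans (le_of_eq ?_)
    split_ifs <;> ring
  · rw [← Finset.mul_sum, ← Finset.mul_sum, Finset.sum_ite_mem, Finset.inter_eq_right.2, LL]
    exact fun y hy => Finset.mem_range.2 (by have := (mem_lo.1 hy).2; have := h.cut; omega)

theorem test_le (h : D.Ok τ0) (hj : j ∈ D.up) :
    |wB (-1) D.B (oB D.n D.β D.M D.q []) [pa D, pa D] (Sh.two j) (fun _ => 1) (pr2 j (oE D.q j)) -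
      wB (-1) D.B (oB D.n D.β D.M D.q []) [pb D, pb D] (Sh.two j) (fun _ => 1)
        (pr2 j (oE D.q j))| ≤ 2 * cQ * τ0 ^ 2 * (4500 ^ 2 * LL D j (Ws38.mu D.B j)) := by
  have q1 := one_le_cQ
  have c0 : 0 ≤ 2 * cQ * τ0 ^ 2 := by positivity
  have c2 := Wt87.card_two j
  obtain ⟨j1, j2⟩ := mem_up.1 hj
  simp only [wB]
  rw [← sg_sub]
  refine (abs_sg_le h.mono _ (Ψ := fun τ => sg 1 D.B τ.sh fun τ' => 2 * cQ * τ0 ^ 2 *
    ∑ y ∈ D.lo, (A0 D * Ws38.Pot D.B 0 {y} 0 τ'.sh + ∑ t ∈ Finset.Ioc D.J D.K,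
      cc D j t * D.v y t * Ws38.Pot D.B 0 (insert t {y}) 0 τ'.sh)) fun τ H => ?_).trans ?_
  · rw [← sg_sub]
    refine abs_sg_le h.mono _ fun τ' H' => ?_
    rw [B_len] at H H'
    have k := trm (j := j) (s := τ'.sh) (ξ := fun x => spin (x (τ'.e (τ.e (Sh.twoL j)))) *
      spin (x (τ'.e (τ.e (Sh.twoR j)))) - D.q j) h
      (H'.card.trans (by have := H.card; omega)) (Or.inr ⟨_, _, D.q j, (H'.shr_e _ _ _).trans
        ((H.shr_e _ _ _).trans ((Wt87.shr_two _ _).trans (min_eq_left j2.le))), j1,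
          abs_le.2 ⟨by linarith [(h.ook.mem j2.le).1], (h.ook.mem j2.le).2⟩, rfl⟩)
      ((Ws38.e_inj H').ne H.ne) H'.ne ((H'.shr_e _ _ _).trans H.shr) H'.shr
    refine le_trans (le_of_eq ?_) (k.trans (mul_le_mul_of_nonneg_left ?_ c0))
    · unfold oB GT.ev
      simp only [one_mul]
      rfl
    have nn : ∀ y ∈ D.lo, 0 ≤ A0 D * Ws38.Pot D.B 0 {y} 0 τ'.sh + ∑ t ∈ Finset.Ioc D.J D.K,
        cc D j t * D.v y t * Ws38.Pot D.B 0 (insert t {y}) 0 τ'.sh := fun y _ =>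
      add_nonneg (mul_nonneg (A0_nn h) (Ws38.Pot_nonneg h.mono)) (Finset.sum_nonneg fun t _ =>
        mul_nonneg (mul_nonneg (cc_nn h j t) (D.v0 y t)) (Ws38.Pot_nonneg h.mono))
    unfold Er
    split_ifs with e
    · refine (Ld_le h _ _ _ (P := {τ.j}) ?_).trans (Finset.single_le_sum nn e)
      simpa using Ws38.lab_e H' (Ws38.lab_self H)
    · exact Finset.sum_nonneg nn
  · simp only [sg_add, sg_sum, sg_const_mul]
    refine mul_le_mul_of_nonneg_left ?_ c0
    have P : ∀ P : Finset ℕ, P.card ≤ 3 → sg 1 D.B (Sh.two j) (fun τ => sg 1 D.B τ.sh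
        fun τ' => Ws38.Pot D.B 0 P 0 τ'.sh) ≤ 4500 ^ 2 * ∏ v ∈ P, Ws38.mu D.B j v := fun P hP =>
      (Ws38.sg_Pot2 h.mono (by omega) hP).trans (mul_le_mul_of_nonneg_left
        (Ws38.Pot_two h.mono (by rw [B_len]; exact j2.le)) (by norm_num))
    rw [LL, Finset.mul_sum]
    refine Finset.sum_le_sum fun y hy => ?_
    have y1 := (mem_lo.1 hy).2
    have my : Ws38.mu D.B j y = D.dx y := by rw [Ws38.mu, if_neg (by omega), add_zero]
    simp only [mul_add, Finset.mul_sum]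
    refine add_le_add ?_ (Finset.sum_le_sum fun t ht => ?_)
    · have := mul_le_mul_of_nonneg_left (P {y} (by simp)) (A0_nn h)
      rw [Finset.prod_singleton, my] at this
      linarith
    · have ne : t ≠ y := by have := (Finset.mem_Ioc.1 ht).1; omega
      have := mul_le_mul_of_nonneg_left (P (insert t {y}) (Finset.card_le_two.trans (by norm_num)))
        (mul_nonneg (cc_nn h j t) (D.v0 y t))
      rw [Finset.prod_insert (by simpa using ne), Finset.prod_singleton, my] at this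
      linarith

/-- **the ladder**: the bulk factor of `[aL, aL]` is replaced by its deterministic value -/
theorem stepA (b : Bool) : Bd b fun D => D.tw [aL, aL] - bw D := by
  have q1 := one_le_cQ
  cases b
  · refine Bd.val fun τ0 => ⟨2 * cQ * τ0 ^ 2 * (4500 * 4), fun D h hW => ?_⟩
    unfold CD.tw bw
    rw [dd_val hW, dd_val hW, tm_eq h.pos h.ook]
    refine (val_le h).trans ?_
    have k := LL_le (j := D.K) (m := D.dx) (c := 0) h le_rfl h.cut (fun _ _ => rfl) h.top.le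
    rw [mul_assoc (2 * cQ * τ0 ^ 2)]
    refine mul_le_mul_of_nonneg_left ?_ (by positivity)
    linarith [h.X6_le, h.tl_le, h.Lad0_le]
  · refine Bd.mk' fun τ0 => ⟨2 * cQ * τ0 ^ 2 * (4500 ^ 2 * (4 + 2)), fun D h hW => ?_⟩
    unfold CD.tw bw
    rw [dd_test hW, dd_test hW, ← Finset.sum_sub_distrib]
    simp only [← mul_sub]
    refine (D.abs_sum_om (b := fun j => 2 * cQ * τ0 ^ 2 * (4500 ^ 2 * (2 * (D.e j * D.v j j +
      ∑ y ∈ Finset.Ico 1 j, D.dx y * D.v y j) + (D.X ^ 6 + 2 * D.tl + D.Lad0))))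
        fun j hj => (test_le h hj).trans ?_).trans ?_
    · obtain ⟨j1, j2⟩ := mem_up.1 hj
      have k := LL_le (j := j) (m := Ws38.mu D.B j) (c := 2) h zero_le_two j1
        (fun t ht => by rw [Ws38.mu, if_neg ht, add_zero])
        (by rw [Ws38.mu, if_pos rfl]; linarith [h.dx1 j2.le])
      refine mul_le_mul_of_nonneg_left ?_ (by positivity)
      linarith [mul_nonneg (h.e0 j) (D.v0 j j)]
    · rw [Iw_mul, Iw_mul, mul_assoc (2 * cQ * τ0 ^ 2), mul_assoc (4500 ^ 2 : ℝ)]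
      refine mul_le_mul_of_nonneg_left (mul_le_mul_of_nonneg_left (h.Iw_split hW (by norm_num)
        zero_le_two (by linarith [h.X6_le, h.tl_le, h.Lad0_le]) ?_) (by norm_num)) (by positivity)
      rw [Iw_mul]
      exact mul_le_mul_of_nonneg_left h.Lad1_le zero_le_two

end Crest.Agent.T156.Cas.Y44

end
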