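import Crest.Agent.T156.CY4A_89
import Crest.Agent.T156.CLowD_90
import Crest.Agent.T156.CErr_54

/-!
# Row 156, block C (helper89): the cluster word of `aL ^ 4`
-/

set_option autoImplicit false
set_option linter.all false

noncomputable section

namespace Crest.Agent.T156.Cas.C40.Y4

open MeasureTheory Real Set Filter Topology
open Crest.Agent.T157.E Crest.Agent.T157.Casc Crest.Agent.T157.SL
open Crest.Agent.T157.G1 (ov)
open Crest.ProbabilityR.SpinGlassDynamics (spin)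
open Wt87 (shr_emb shr_nw shr_self shr_comm shr_le shr_two)
open Leg51 Low51 Lsg89 Y89 L90 One15

/-! ### general facts -/

theorem amgm4 (a b c d : ℝ) : |a * (b * (c * (d * 1)))| ≤ a ^ 4 + b ^ 4 + c ^ 4 + d ^ 4 := by
  have h1 := sq_nonneg (a ^ 2 - b ^ 2)
  have h2 := sq_nonneg (c ^ 2 - d ^ 2)
  have h3 : 0 ≤ a ^ 4 + b ^ 4 + c ^ 4 + d ^ 4 := by positivity
  exact abs_le.2 ⟨by nlinarith [sq_nonneg (a * b + c * d)], by nlinarith [sq_nonneg (a * b - c * d)]⟩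

theorem abs_prE_le {S : Type} {n : ℕ} {s : Sh} (x : s.Lf → S) : ∀ (Z : List (ℕ → S → S → ℝ))
    (cs : Low51.EL s), (∀ K ∈ Z, ∀ j ≤ n, ∀ a b, |K j a b| ≤ 2) → |prE n Z cs x| ≤ 2 ^ Z.length
  | [], _, _ => by simp [prE]
  | _ :: Z, [], _ => by
      rw [prE_nil, abs_one]
      exact one_le_pow₀ one_le_two
  | K :: Z, c :: cs, h => by
      rw [prE_cons, abs_mul, List.length_cons, pow_succ']
      exact mul_le_mul (h K List.mem_cons_self _ (shr_le _ _ _ _) _ _)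
        (abs_prE_le x Z cs fun K hK => h K (List.mem_cons_of_mem _ hK)) (abs_nonneg _) zero_le_two

theorem ends_PQ {ι β : Type} [DecidableEq ι] {p q : ι} (hpq : p ≠ q) (f : β) :
    ∀ E : List (Ed ι), (∀ d ∈ E, PQ p q d) → ∃ W : List ι, ends E = W.map (fun a => (a, Md.leg)) ∧
      legs (W.map fun a => (a, f)) p = List.replicate E.length f ∧
      legs (W.map fun a => (a, f)) q = List.replicate E.length f
  | [], _ => ⟨[], rfl, rfl, rfl⟩
  | d :: E, h => by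
      obtain ⟨W, h1, h2, h3⟩ := ends_PQ hpq f E fun d hd => h d (List.mem_cons_of_mem _ hd)
      simp only [legs] at h2 h3
      rcases h d List.mem_cons_self with rfl | rfl
      · exact ⟨q :: p :: W, by simpa [ends] using h1, by
          simp [legs, hpq, hpq.symm, h2, List.replicate_succ], by
          simp [legs, hpq, hpq.symm, h3, List.replicate_succ]⟩
      · exact ⟨p :: q :: W, by simpa [ends] using h1, by
          simp [legs, hpq, hpq.symm, h2, List.replicate_succ], by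
          simp [legs, hpq, hpq.symm, h3, List.replicate_succ]⟩

theorem LWm_swap {ι S Θ : Type} {ε : ℝ} {i : ℕ} {M : List (Lv Θ)} (f : S → ℝ) (Λ : Fn S) (a b : ι)
    (W : List (ι × Md)) (s : Sh) (e : ι → s.Lf) (F : (s.Lf → S) → ℝ) :
    LWm ε i M f Λ ((a, .leg) :: (b, .fix) :: W) s e F =
      LWm ε i M f Λ ((a, .leg) :: W) s e fun x => F x * f (x (e b)) :=
  congrArg (lg ε i M s (e a)) (funext fun s' => funext fun e' => funext fun c =>
    congrArg (LWm ε i M f Λ W s' fun x => e' (e x))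
      (funext fun x => mul_right_comm (F fun b => x (e' b)) (f (x c)) (f (x (e' (e b))))))

theorem PQ.ok {ι : Type} {p q : ι} {d : Ed ι} (h : PQ p q d) (i n : ℕ) :
    d.Hi i n ∧ ((d.p = p ∧ d.q = q) ∨ (d.p = q ∧ d.q = p)) := by
  rcases h with rfl | rfl
  exacts [⟨⟨trivial, trivial⟩, .inl ⟨rfl, rfl⟩⟩, ⟨⟨trivial, trivial⟩, .inr ⟨rfl, rfl⟩⟩]

theorem fst_two : ∀ j, (Sh.two j).fst = Sh.twoL j
  | 0 => rfl
  | j + 1 => fst_two j

theorem iter_sum {α : Type} (A : Finset α) (c : α → ℝ) : ∀ (k : ℕ) (F : α → ℝ → ℝ),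
    (∀ a ∈ A, ∀ n, ∃ C, Sm n C (F a)) →
    iteratedDeriv k (fun y => ∑ a ∈ A, c a * F a y) = fun y => ∑ a ∈ A, c a * iteratedDeriv k (F a) y
  | 0, _, _ => by simp
  | k + 1, F, h => by
      have e : deriv (fun y => ∑ a ∈ A, c a * F a y) = fun y => ∑ a ∈ A, c a * deriv (F a) y :=
        funext fun y => (HasDerivAt.fun_sum fun a ha =>
          ((h a ha 1).choose_spec.der.1 y).const_mul (c a)).deriv
      rw [iteratedDeriv_succ', e, iter_sum A c k _ fun a ha n =>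
        ⟨_, (h a ha (n + 1)).choose_spec.der.2⟩]
      simp only [iteratedDeriv_succ']

/-- the site constant -/
def c2 : ℝ := bM 3 + bM 4 + cD bM 3 0 + cD bM 4 0 + cS bM 1 3 + cS bM 1 4

theorem c2_parts : 1 ≤ bM 3 ∧ 1 ≤ bM 4 ∧ 0 ≤ cD bM 3 0 ∧ 0 ≤ cD bM 4 0 ∧ 0 ≤ cS bM 1 3 ∧
    0 ≤ cS bM 1 4 :=
  ⟨one_le_bM 3, one_le_bM 4, cD_nn bM_nn _ _, cD_nn bM_nn _ _, cS_nn bM_nn _ _, cS_nn bM_nn _ _⟩

theorem one_le_c2 : 1 ≤ c2 := by
  obtain ⟨a, b, c, d, e, f⟩ := c2_parts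
  unfold c2
  linarith

/-! ### the data -/

variable {D : CD} {τ0 : ℝ}

/-- the bulk kernel -/
abbrev RR (D : CD) : ℕ → (Unit → Cube D.n) → (Unit → Cube D.n) → ℝ := (c1 D aL).1
/-- the site kernel -/
abbrev ZZ (D : CD) : ℕ → Bool → Bool → ℝ := (c1 D aL).2
/-- four parallel edges -/
def bb (D : CD) (j : ℕ) : ℝ := (D.τ j / 2) ^ 4 * D.E2 j fun x y => ov x y ^ 4
/-- their size -/
def b1 (D : CD) (τ0 : ℝ) : ℝ := τ0 ^ 4 * (D.X ^ 4 + 4 * D.tl)
/-- a cluster with four legs -/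
def G3 (D : CD) : (Bool → ℝ) → ℝ := GC (-1) (fun _ => 1) (D.S.drop D.J) spin (List.replicate 3 spin)
/-- the site factor of two clusters split at `j` -/
def SV (D : CD) (j : ℕ) (A : (Bool → ℝ) → ℝ) : ℝ := node (fun _ => 1) D.S j (fun z =>
  node (fun _ => 1) (D.S.drop j) (D.J - j) A z * node (fun _ => 1) (D.S.drop j) (D.J - j) (G3 D) z) 0
/-- the fourth derivative of the marked pair -/
def m4 (D : CD) (k : ℕ) : ℝ := iteratedDeriv 4 (fun y : ℝ => TE (fun _ => 1) (.two (k - D.J))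
  (D.S.drop D.J) (y • spin) (pr2 (k - D.J) (oE D.q k))) 0

theorem RR_lo (H : D.Ok τ0) {j : ℕ} (hj : j ≤ D.J) :
    RR D j = fun x y => D.τ j / 2 * ov (x ()) (y ()) := by
  funext x y
  simp [RR, c1, R90.cp, Mul55.lt, Mul55.cut, CD.cl, hj, oUb, oU, H.qlo j hj]

theorem RR_hi {j : ℕ} (hj : D.J < j) : RR D j = 0 := by
  funext x y
  simp [RR, c1, R90.cp, Mul55.lt, Mul55.cut, CD.cl, not_le.2 hj]

theorem ZZ_lo (H : D.Ok τ0) {j : ℕ} (hj : j ≤ D.J) (a b : Bool) : ZZ D j a b = spin a * spin b := by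
  show spin a * spin b - D.q j = _
  rw [H.qlo j hj, sub_zero]

theorem cutB (H : D.Ok τ0) : D.J < D.B.length := D.B_len ▸ H.cut

theorem tiltB (D : CD) : D.B.map Lv.m = D.S.map Lv.m := tilt_opS.symm

theorem monoS (H : D.Ok τ0) : Mono 0 D.S := Cav22.mono_tilt (tiltB D) H.mono

theorem cutS (H : D.Ok τ0) : D.J < D.S.length := Cav22.len_tilt (tiltB D) ▸ cutB H

theorem b1_nn (H : D.Ok τ0) : 0 ≤ b1 D τ0 := by
  have := H.tl0
  unfold b1
  positivity

theorem bb_zero (D : CD) : bb D 0 = 0 := by simp [bb, CD.τ, oTau, OneP.dAcc_zero]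

theorem abs_bb_le (H : D.Ok τ0) {j : ℕ} (hj : j ≤ D.J) : |bb D j| ≤ b1 D τ0 := by
  rcases Nat.eq_zero_or_pos j with rfl | h0
  · rw [bb_zero, abs_zero]; exact b1_nn H
  have h1 := H.u_lo (CD.mem_lo.2 ⟨h0, hj⟩) 3
  have h2 := D.u0 4 j
  have e : (D.E2 j fun x y => ov x y ^ 4) = D.u 4 j := by
    simp only [CD.E2, CD.u, uM, oU, H.qlo j hj, sub_zero, Even.pow_abs (by decide : Even 4)]
  obtain ⟨t0, t1⟩ := H.tau_mem j
  rw [bb, e, abs_of_nonneg (by positivity), b1]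
  refine mul_le_mul (pow_le_pow_left₀ (by positivity) (by linarith) 4) (h1.trans_eq (by norm_num)) h2
    (by positivity)

theorem Lc_bb (H : D.Ok τ0) (s : Sh) {a b : s.Lf} {j : ℕ} (hj : j ≤ D.J)
    (h : s.shr a b D.B.length = j) : R90.Lc (fun _ => 1) D.B 0 D.J Unit s
      (fun y => (D.τ j / 2 * ov (y a ()) (y b ())) ^ 4) = bb D j := by
  rw [Lc_pair wt_one90 (cutB H) s (h.trans_le hj) fun x y => (D.τ j / 2 * ov x y) ^ 4, h]
  simp only [mul_pow]
  rw [pi2_const_mul]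
  rfl

theorem Lc_R4 (H : D.Ok τ0) (s : Sh) (c : s.Lf × s.Lf) : R90.Lc (fun _ => 1) D.B 0 D.J Unit s
    (fun y => RR D (s.shr c.1 c.2 D.B.length) (y c.1) (y c.2) ^ 4) ≤ b1 D τ0 := by
  rcases le_or_gt (s.shr c.1 c.2 D.B.length) D.J with h | h
  · rw [RR_lo H h]
    exact (Lc_bb H s h rfl).trans_le ((le_abs_self _).trans (abs_bb_le H h))
  · simp only [RR_hi h, Pi.zero_apply, ne_eq, OfNat.ofNat_ne_zero, not_false_eq_true, zero_pow]
    exact (R90.Lc_const wt_one90 _ s 0).trans_le (b1_nn H)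

theorem Lc_four (H : D.Ok τ0) (s : Sh) : ∀ cs : Low51.EL s, cs.length = 4 →
    |R90.Lc (fun _ => 1) D.B 0 D.J Unit s (prE D.B.length [RR D, RR D, RR D, RR D] cs)| ≤
      4 * b1 D τ0
  | [a, b, c, d], _ => by
      refine (R90.abs_Lc_le wt_one90 _ s (G := fun y => ∑ t : Fin 4,
        RR D (s.shr (![a, b, c, d] t).1 (![a, b, c, d] t).2 D.B.length) (y (![a, b, c, d] t).1)
          (y (![a, b, c, d] t).2) ^ 4) fun y => ?_).trans ?_
      · simp only [prE_cons, prE_nil, Fin.sum_univ_four]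
        exact amgm4 _ _ _ _
      · rw [R90.Lc_sum]
        exact (Finset.sum_le_card_nsmul _ _ _ fun t _ => Lc_R4 H s _).trans_eq (by simp)

theorem abs_ZZ (H : D.Ok τ0) (j : ℕ) (hj : j ≤ D.B.length) (a b : Bool) : |oE D.q j a b| ≤ 2 :=
  abs_oE_le H.ook (hj.trans_eq D.B_len) a b

/-- the value of a tree, value direction -/
abbrev PV (D : CD) : EF := PhiB D.B.length (cB D) [RR D, RR D, RR D, RR D] [ZZ D, ZZ D, ZZ D, ZZ D]
/-- the value of a tree, test direction -/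
abbrev PT (D : CD) : EF := PhiB D.B.length (cB D) [fun _ _ _ => 1, RR D, RR D, RR D, RR D]
  [oE D.q, ZZ D, ZZ D, ZZ D, ZZ D]

theorem abs_PV (H : D.Ok τ0) (s : Sh) (cs : Low51.EL s) (h : cs.length = 4) :
    |PV D s cs| ≤ 128 * b1 D τ0 := by
  have h1 := One15.abs_TE_le w1 s D.S 0 fun x => abs_prE_le (n := D.B.length) x
    [ZZ D, ZZ D, ZZ D, ZZ D] cs fun K hK => by
      simp only [List.mem_cons, List.not_mem_nil, or_self, or_false] at hK
      exact hK ▸ abs_ZZ H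
  refine (abs_mul _ _).trans_le ((mul_le_mul (Lc_four H s cs h) h1 (abs_nonneg _)
    (by linarith [b1_nn H])).trans ?_)
  norm_num
  linarith [b1_nn H]

theorem abs_PT (H : D.Ok τ0) (s : Sh) : ∀ cs : Low51.EL s, cs.length = 5 →
    |PT D s cs| ≤ 128 * b1 D τ0
  | c :: cs, h => by
      have h1 := One15.abs_TE_le w1 s D.S 0 fun x => abs_prE_le (n := D.B.length) x
        [oE D.q, ZZ D, ZZ D, ZZ D, ZZ D] (c :: cs) fun K hK => by
          simp only [List.mem_cons, List.not_mem_nil, or_self, or_false] at hK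
          rcases hK with rfl | rfl <;> exact abs_ZZ H
      have h2 := Lc_four H s cs (Nat.succ.inj h)
      have e : prE D.B.length [fun _ _ _ => 1, RR D, RR D, RR D, RR D] (c :: cs) =
          prE D.B.length [RR D, RR D, RR D, RR D] cs :=
        funext fun x => (prE_cons _ _ _ _ _ x).trans (one_mul _)
      rw [← e] at h2
      refine (abs_mul _ _).trans_le ((mul_le_mul h2 h1 (abs_nonneg _)
        (by linarith [b1_nn H])).trans ?_)
      norm_num
      linarith [b1_nn H]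

theorem ov_symm {n : ℕ} (x y : Cube n) : ov x y = ov y x := by rw [ov, ov, dotProduct_comm]

/-! ### exact values of the main graphs -/

theorem main_val (H : D.Ok τ0) {j : ℕ} (hj : j ≤ D.J) (E : List (Ed (Sh.two j).Lf))
    (h3 : E.length = 3) (hE : ∀ d ∈ E, PQ (Sh.twoL j) (Sh.twoR j) d) :
    LE (-1) D.J D.B ([e2 j] ++ E) (cs' (PV D)) (.two j) id [] = bb D j * SV D j (G3 D) := by
  have hs : (Sh.two j).shr (Sh.twoL j) (Sh.twoR j) D.B.length = j :=
    (shr_two j _).trans (min_eq_left (hj.trans (cutB H).le))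
  have h1 := LE_pq (ε := -1) (h := 0) wt_one90 (cutB H) rfl hj (RR_lo H hj)
    (fun x y => by rw [ov_symm]) (ZZ_lo H hj) (TEf (fun _ => 1) D.S 0) (e2 j :: E)
    (fun d hd => (List.mem_cons.1 hd).elim
      (fun e => e ▸ ⟨⟨trivial, trivial⟩, .inl ⟨rfl, rfl⟩⟩) fun h => PQ.ok (hE d h) _ _)
    [] [] (.two j) id [] rfl rfl hs
  rw [List.length_cons, h3] at h1
  refine Eq.trans h1 (congrArg₂ (· * ·) ?_ ?_)
  · simp only [prE_nil, one_mul]
    exact Lc_bb H _ hj hs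
  · obtain ⟨W, w1', w2, w3⟩ := ends_PQ (Tay38.two_ne j) spin E hE
    have h2 := LW_SK (ε := -1) w1 (.two j) D.S D.J (dep_two hj) (cutS H).le
      (W.map fun a => (a, spin)) (fun _ => spin) 0
    rw [SK_two w1 j _ _ hj (cutS H).le, w2, w3, h3, ← LW_tilt (tiltB D), ← LWm_leg, ← w1'] at h2
    refine Eq.trans (congrArg (LWm (-1) D.J D.B spin _ (ends E) (.two j) id) (funext fun x => ?_)) h2
    rw [prod_two, prE_nil, mul_comm (spin _)]
    exact congrArg (· * _) (one_mul _)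

theorem main_test (H : D.Ok τ0) {y : ℕ} (hy : y ≤ D.J) {r : ℕ} (hk : r + D.J ≤ D.B.length)
    {d : Ed (Sh.two y).Lf} (hd : d = ⟨Sh.twoL y, Sh.twoR y, .leg, .fix⟩ ∨
      d = ⟨Sh.twoR y, Sh.twoL y, .fix, .leg⟩) (E : List (Ed (Sh.two y).Lf))
    (h3 : E.length = 3) (hE : ∀ d ∈ E, PQ (Sh.twoL y) (Sh.twoR y) d) :
    LE (-1) D.J D.B ([⟨Sh.twoL y, Sh.twoL y, .fix, .gr (r + D.J)⟩, d] ++ E) (cs' (PT D)) (.two y)
      id [] = bb D y * SV D y (MG (D.S.drop D.J) (.two r) (pr2 r (oE D.q (r + D.J))) 4) := by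
  have hs : ((Sh.two y).graft (Sh.twoL y) (r + D.J)).shr
      ((Sh.two y).emb (Sh.twoL y) (r + D.J) (Sh.twoL y))
      ((Sh.two y).emb (Sh.twoL y) (r + D.J) (Sh.twoR y)) D.B.length = y :=
    (shr_emb _ _ _ _ _ _).trans ((shr_two y _).trans (min_eq_left (hy.trans (cutB H).le)))
  have h1 := LE_pq (ε := -1) (h := 0) wt_one90 (cutB H) rfl hy (RR_lo H hy)
    (fun x y => by rw [ov_symm]) (ZZ_lo H hy) (TEf (fun _ => 1) D.S 0) (d :: E)
    (fun d' hd' => (List.mem_cons.1 hd').elim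
      (fun e => by
        rcases hd with rfl | rfl <;> subst e
        exacts [⟨⟨trivial, trivial⟩, .inl ⟨rfl, rfl⟩⟩, ⟨⟨trivial, trivial⟩, .inr ⟨rfl, rfl⟩⟩])
      fun h => PQ.ok (hE d' h) _ _)
    [fun _ _ _ => 1] [oE D.q] _ ((Sh.two y).emb (Sh.twoL y) (r + D.J))
    [((Sh.two y).emb (Sh.twoL y) (r + D.J) (Sh.twoL y), (Sh.two y).nw (Sh.twoL y) (r + D.J))]
    rfl rfl hs
  rw [List.length_cons, h3] at h1
  refine Eq.trans h1 (congrArg₂ (· * ·) ?_ ?_)
  · simp only [prE_cons, prE_nil, one_mul]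
    exact Lc_bb H _ hy hs
  · obtain ⟨W, w1', w2, w3⟩ := ends_PQ (Tay38.two_ne y) spin E hE
    have h2 := LW_mark (ε := -1) w1 r (oE D.q (r + D.J)) spin y D.S D.J hy (cutS H).le
      ((Sh.twoL y :: W).map fun a => (a, spin)) 0
    have l1 : legs ((Sh.twoL y :: W).map fun a => (a, spin)) (Sh.twoL y) =
        List.replicate 4 spin := by
      rw [h3] at w2
      simpa [legs, List.replicate_succ] using w2
    have l2 : legs ((Sh.twoL y :: W).map fun a => (a, spin)) (Sh.twoR y) =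
        List.replicate 3 spin := by
      rw [h3] at w3
      simpa [legs, Tay38.two_ne y] using w3
    rw [l1, l2, ← LW_tilt (tiltB D), ← LWm_leg, List.map_cons, ← w1', List.map_replicate,
      ← fst_two r] at h2
    refine Eq.trans ?_ h2
    have e : prE D.B.length [oE D.q] ([((Sh.two y).emb (Sh.twoL y) (r + D.J) (Sh.twoL y),
        (Sh.two y).nw (Sh.twoL y) (r + D.J))] : Low51.EL _) = fun x =>
          oE D.q (r + D.J) (x ((Sh.two y).emb (Sh.twoL y) (r + D.J) (Sh.twoL y)))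
            (x ((Sh.two y).nw (Sh.twoL y) (r + D.J))) := funext fun x => by
      rw [prE_cons, prE_nil, mul_one, shr_nw, shr_self, min_eq_left hk]
    rw [e]
    rcases hd with rfl | rfl
    · rfl
    · exact LWm_swap spin _ (Sh.twoL y) (Sh.twoR y) (ends E) _ _ _

/-! ### the site factors -/

theorem exists_drop (H : D.Ok τ0) : ∃ l L, D.S.drop D.J = l :: L ∧ Mono 0 (l :: L) ∧ l.m ≤ D.X := by
  obtain ⟨l, L, e⟩ := List.exists_cons_of_ne_nil (l := D.S.drop D.J)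
    (by simpa using cutS H)
  refine ⟨l, L, e, e ▸ Cav22.mono_drop _ (monoS H), le_trans (le_of_eq ?_) H.x1⟩
  have h1 : D.S[D.J]? = some l := by
    have := List.getElem?_drop (xs := D.S) (i := D.J) (j := 0)
    rw [e] at this
    exact this.symm
  rw [Cav22.ex_tilt (tiltB D), Crest.Agent.T157.Casc.ex, h1]

theorem node_xs (H : D.Ok τ0) : node (fun _ => 1) D.S D.J (fun z => |xs z|) 0 ≤ 20 * D.X := by
  refine le_of_forall_pos_le_add fun ε hε => ?_
  have hX := H.X0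
  have h1 := H.X1
  have hd : 0 < min (1 / 2) (ε / 20) := lt_min (by norm_num) (by positivity)
  set a := D.X + min (1 / 2) (ε / 20) with ha
  have h2 := node_pow (C.forall₂_sl spin (opV_nn H.ook)) (monoS H) D.J 1 (σ := a ^ 2)
    (by positivity) ((opV_acc H.cut.le).trans_le (by
      rw [H.qlo _ le_rfl, mul_zero, zero_add]
      refine H.h1.trans ((pow_le_pow_of_le_one hX h1 (by norm_num : 2 ≤ 3)).trans ?_)
      exact pow_le_pow_left₀ hX (by linarith) 2))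
  simp only [pow_one] at h2
  rw [sqrt_sq (by positivity)] at h2
  have h4 : exp (1 / 2 + a) ≤ 10 := by
    refine (exp_le_exp.2 (show _ ≤ 1 + 1 by linarith [min_le_left (1 / 2) (ε / 20)])).trans ?_
    rw [exp_add]
    nlinarith [exp_one_lt_d9, exp_pos 1]
  have h5 := min_le_right (1 / 2) (ε / 20)
  refine h2.trans ?_
  rw [Nat.factorial_one, Nat.cast_one]
  nlinarith [mul_le_mul_of_nonneg_right h4 (show 0 ≤ a by positivity)]

theorem k4_eq {l : Lv Bool} {L : List (Lv Bool)} (e : D.S.drop D.J = l :: L) :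
    D.k4 = iteratedDeriv 3 (gs (l :: L) 0) 0 := by
  rw [CD.k4, iteratedDeriv_succ']
  congr 1
  funext y
  have := (gr_X w1 (l :: L)).line 0 spin y
  simp only [zero_add] at this
  rw [gs_zero']
  refine HasDerivAt.deriv ?_
  unfold CD.Ph
  rw [e]
  exact this

theorem G3_facts (H : D.Ok τ0) : (∀ z, |G3 D z| ≤ c2) ∧ |D.k4| ≤ c2 ∧
    ∀ z, |G3 D z - D.k4| ≤ c2 * (|xs z| + D.X) := by
  obtain ⟨l, L, e, hM, hx⟩ := exists_drop H
  obtain ⟨a, b, c, d, f, g⟩ := c2_parts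
  have h1 := Lad.abs_iter_sub (abs_m_le hM) bM_nn (lad_gs l L) (lad_gs l L) (abs_gs_bM hM)
    (abs_gs_bM hM) 3 0
  have h2 := Lad.lip (abs_m_le hM) bM_nn (lad_gs l L) (lad_gs l L) (abs_gs_bM hM) (abs_gs_bM hM) 3
  have h3 := abs_gs_bM hM 3
  rw [← k4_eq e, abs_of_nonneg hM.1] at h1
  have h4 := h1.trans (mul_le_mul_of_nonneg_left hx c)
  have h5 := mul_le_of_le_one_right c H.X1
  have hX := H.X0
  simp only [G3, e, GC_spin, c2]
  refine ⟨fun z => (h3 _).trans (by linarith), ?_, fun z => ?_⟩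
  · have := abs_sub_abs_le_abs_sub D.k4 (gs (l :: L) 3 0)
    linarith [h3 0]
  · have h6 := abs_sub_le (gs (l :: L) 3 (xs z)) (gs (l :: L) 3 0) D.k4
    rw [abs_sub_comm (gs (l :: L) 3 0)] at h6
    have h7 := abs_nonneg (xs z)
    have h8 := mul_nonneg (show 0 ≤ bM 3 + bM 4 + cD bM 3 0 + cD bM 4 0 + cS bM 1 4 by linarith) h7
    have h9 := mul_nonneg (show 0 ≤ bM 3 + bM 4 + cD bM 4 0 + cS bM 1 3 + cS bM 1 4 by linarith) hX
    linarith [h2 (xs z)]

theorem MG_facts (H : D.Ok τ0) {r : ℕ} (hk : r + 1 + D.J ≤ D.B.length) :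
    (∀ z, |MG (D.S.drop D.J) (.two (r + 1)) (pr2 (r + 1) (oE D.q (r + 1 + D.J))) 4 z| ≤ c2) ∧
    |m4 D (r + 1 + D.J)| ≤ c2 ∧
    ∀ z, |MG (D.S.drop D.J) (.two (r + 1)) (pr2 (r + 1) (oE D.q (r + 1 + D.J))) 4 z -
      m4 D (r + 1 + D.J)| ≤ c2 * (|xs z| + D.X) := by
  obtain ⟨l, L, e, hM, hx⟩ := exists_drop H
  obtain ⟨a, b, c, d, f, g⟩ := c2_parts
  have hF : ∀ x, |pr2 (r + 1) (oE D.q (r + 1 + D.J)) x| ≤ 2 := fun x => abs_ZZ H _ hk _ _
  have h1 := MG_iter hM hF 4 0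
  have h2 := MG_lip hM hF 4
  have h3 := abs_MG_two hM hF 4
  rw [zero_smul] at h1
  have h4 := h1.trans (mul_le_mul_of_nonneg_left hx d)
  have h5 := mul_le_of_le_one_right d H.X1
  have hX := H.X0
  rw [m4, Nat.add_sub_cancel, e, c2]
  set m := iteratedDeriv 4 (fun y : ℝ => TE (fun _ => 1) (.two (r + 1)) (l :: L) (y • spin)
    (pr2 (r + 1) (oE D.q (r + 1 + D.J)))) 0
  set A := MG (l :: L) (.two (r + 1)) (pr2 (r + 1) (oE D.q (r + 1 + D.J))) 4
  refine ⟨fun z => (h3 _).trans (by linarith), ?_, fun z => ?_⟩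
  · have := abs_sub_abs_le_abs_sub m (A 0)
    linarith [h3 0]
  · have h6 := abs_sub_le (A z) (A 0) m
    rw [abs_sub_comm (A 0)] at h6
    have h7 := abs_nonneg (xs z)
    have h8 := mul_nonneg (show 0 ≤ bM 3 + bM 4 + cD bM 3 0 + cD bM 4 0 + cS bM 1 3 by linarith) h7
    have h9 := mul_nonneg (show 0 ≤ bM 3 + bM 4 + cD bM 3 0 + cS bM 1 3 + cS bM 1 4 by linarith) hX
    linarith [h2 z]

theorem SV_sub (H : D.Ok τ0) {j : ℕ} (hj : j ≤ D.J) {A : (Bool → ℝ) → ℝ}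
    (hA : Crest.Agent.T157.Casc.Eg A) {a : ℝ}
    (h : (∀ z, |A z| ≤ c2) ∧ |a| ≤ c2 ∧ ∀ z, |A z - a| ≤ c2 * (|xs z| + D.X)) :
    |SV D j A - a * D.k4| ≤ 42 * c2 ^ 3 * D.X := by
  obtain ⟨g1, g2, g3⟩ := G3_facts H
  have h0 := one_le_c2
  have h1 := two_sub w1 h0 ((lg_xs.eg.abs.add (Eg.const D.X)).const_mul c2) hA
    (eg_LW w1 _ _ _ _ _ _) h.1 g1 h.2.1 g2 h.2.2 g3 hj (cutS H).le 0
  rw [node_const_mul, node_add w1 lg_xs.eg.abs (Eg.const _), node_const w1] at h1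
  refine h1.trans ?_
  have := node_xs H
  calc _ ≤ 2 * c2 ^ 2 * (c2 * (20 * D.X + D.X)) := by beta_reduce; gcongr
    _ = _ := by ring

theorem dP_eq (H : D.Ok τ0) (hW : D.W.isSome = true) :
    D.dP 4 [] = -∑ k ∈ D.up, D.om k * m4 D k := by
  obtain ⟨l, L, e, hM, -⟩ := exists_drop H
  have := iter_sum D.up D.om 4 (fun k (y : ℝ) => TE (fun _ => 1) (.two (k - D.J))
    (D.S.drop D.J) (y • spin) (pr2 (k - D.J) (oE D.q k))) fun k hk n => by
      obtain ⟨h1, h2⟩ := CD.mem_up.1 hk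
      obtain ⟨r, hr⟩ : ∃ r, k - D.J = r + 1 := ⟨k - D.J - 1, by omega⟩
      rw [hr, e]
      exact ⟨_, (Lad.sm (abs_m_le hM) bM_nn (lad_gs l L) (lad_MG l L (s := .two (r + 1)) rfl _)
        (abs_gs_bM hM) (fun m y => abs_MG_two hM (fun x => abs_ZZ H k (D.B_len ▸ h2.le) _ _) m _)
        n 0).2⟩
  simp only [CD.dP, CD.sH, CD.dd_test hW]
  exact congrArg Neg.neg (congrFun this 0)

/-! ### the sums -/

theorem sum_bb (D : CD) : ∑ j ∈ Finset.range (D.J + 1), D.dx j * bb D j = D.S4 / 16 := by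
  rw [CD.S4, Finset.sum_div]
  refine (Finset.sum_subset (fun j hj => ?_) fun j h1 h2 => ?_).symm.trans
    (Finset.sum_congr rfl fun j _ => by rw [bb]; ring)
  · exact Finset.mem_range.2 (Nat.lt_succ_of_le (CD.mem_lo.1 hj).2)
  · obtain rfl : j = 0 := by
      have := Finset.mem_range.1 h1
      rw [CD.mem_lo] at h2
      omega
    rw [bb_zero, mul_zero]

theorem Xb1 (H : D.Ok τ0) : D.X ^ 2 * b1 D τ0 ≤ 5 * τ0 ^ 4 * D.E0 := by
  have h1 := H.X6_le
  have h2 := H.tl_le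
  have h3 := mul_le_of_le_one_left H.tl0 (pow_le_one₀ H.X0 H.X1 : D.X ^ 2 ≤ 1)
  have h4 : D.X ^ 2 * (D.X ^ 4 + 4 * D.tl) ≤ 5 * D.E0 := by linarith
  calc _ = τ0 ^ 4 * (D.X ^ 2 * (D.X ^ 4 + 4 * D.tl)) := by rw [b1]; ring
    _ ≤ τ0 ^ 4 * (5 * D.E0) := by gcongr
    _ = _ := by ring

theorem fin_sum (H : D.Ok τ0) {T : ℕ → ℝ} {v C : ℝ} (hC : 0 ≤ C)
    (h : ∀ j ≤ D.J, |T j - bb D j * v| ≤ C * (D.X * b1 D τ0)) :
    |∑ j ∈ Finset.range (D.J + 1), D.dx j * T j - D.S4 / 16 * v| ≤ C * (5 * τ0 ^ 4 * D.E0) := by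
  have h0 := mul_nonneg hC (mul_nonneg H.X0 (b1_nn H))
  rw [← sum_bb, Finset.sum_mul, ← Finset.sum_sub_distrib]
  refine (Finset.abs_sum_le_sum_abs _ _).trans ((Finset.sum_le_sum
    (g := fun j => D.dx j * (C * (D.X * b1 D τ0))) fun j hj => ?_).trans ?_)
  · rw [mul_assoc, ← mul_sub, abs_mul, abs_of_nonneg (H.dx0 j)]
    exact mul_le_mul_of_nonneg_left (h j (Nat.lt_succ_iff.1 (Finset.mem_range.1 hj))) (H.dx0 j)
  · rw [← Finset.sum_mul, H.sum_dx]
    refine (mul_le_mul_of_nonneg_right H.x1 h0).trans (le_trans (le_of_eq (by ring))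
      (mul_le_mul_of_nonneg_left (Xb1 H) hC))

/-- the combinatorial constant -/
def c5 (n : ℕ) : ℝ := (6 * (19 : ℕ) ^ 2 : ℝ) ^ 3 * (2 * (19 : ℕ) : ℝ) ^ (2 * n) * 128

theorem c5_nn (n : ℕ) : 0 ≤ c5 n := by unfold c5; positivity

/-- three more edges on two clusters -/
theorem three (H : D.Ok τ0) {Φ : EF} {n : ℕ} (hn : n ≤ 5)
    (h : ∀ s cs, cs.length = n → |Φ s cs| ≤ 128 * b1 D τ0) {j : ℕ} (hj : j ≤ D.J)
    {E : List (Ed (Sh.two j).Lf)} (hE : E.length + 3 = n) {S a : ℝ}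
    (hv : ∀ E', E'.length = 3 → (∀ d ∈ E', PQ (Sh.twoL j) (Sh.twoR j) d) →
      LE (-1) D.J D.B (E ++ E') (cs' Φ) (.two j) id [] = bb D j * S)
    (hS : |S - a| ≤ 42 * c2 ^ 3 * D.X) :
    |CW (-1) D.J D.B Φ (List.replicate 3 (lo D.J)) (.two j) E - bb D j * (8 * a)| ≤
      (c5 n + 336 * c2 ^ 3) * (D.X * b1 D τ0) := by
  have b0 := b1_nn H
  have h1 := CW_two (N := 19) (by simp) H.mono (cutB H) (by positivity) h (sep_two hj)
    (Tay38.two_ne j) (Wt87.two_cases j) 3 E hE (by rw [Wt87.card_two]; omega) hv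
  have h2 : |bb D j * (S - a)| ≤ b1 D τ0 * (42 * c2 ^ 3 * D.X) := by
    rw [abs_mul]
    exact mul_le_mul (abs_bb_le H hj) hS (abs_nonneg _) b0
  have h3 := h1.trans ((mul_le_mul_of_nonneg_right H.x1 (by positivity)).trans_eq
    (show _ = c5 n * (D.X * b1 D τ0) by rw [c5]; ring))
  rw [abs_le] at h2 h3 ⊢
  constructor <;> linarith [h2.1, h2.2, h3.1, h3.2]

theorem cB_zero (D : CD) (s : Sh) (ξ : (s.Lf → Bool) → ℝ) : cB D s (fun _ => 0) ξ = 0 := by
  rw [cB, R90.Lc_const wt_one90, zero_mul]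

theorem c3_nn (n : ℕ) : 0 ≤ c5 n + 336 * c2 ^ 3 := by
  have := c5_nn n
  have := one_le_c2
  positivity

/-- **value** -/
theorem cw_val : Bd false fun D => L90.cw D [aL, aL, aL, aL] - D.k44 * D.S4 / 2 := by
  refine Bd.val fun τ0 => ⟨(c5 4 + 336 * c2 ^ 3) * (5 * τ0 ^ 4), fun D H hW => ?_⟩
  have h1 := lamB_low (B := cB D) (V := [c1 D aL, c1 D aL, c1 D aL]) (p := c1 D aL) (cutB H)
    (cB_zero D) fun r hr j hj => by
      simp only [List.mem_cons, List.not_mem_nil, or_self, or_false] at hr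
      exact hr ▸ RR_hi hj
  have h2 := fin_sum H (c3_nn 4) fun j hj => three H (n := 4) (by norm_num) (abs_PV H) hj
    (E := [e2 j]) rfl (main_val H hj) (SV_sub H hj (eg_LW w1 _ _ _ _ _ _) (G3_facts H))
  rw [L90.cw, CD.k44, CD.dd_val hW, CD.dd_val hW]
  refine Eq.trans_le (congrArg abs (congrArg₂ (· - ·) h1 (by ring))) (h2.trans_eq (by ring))

theorem test_one (H : D.Ok τ0) {k : ℕ} (hk : k ∈ D.up) :
    |CW (-1) D.J D.B (PT D) (List.replicate 4 (lo D.J)) .one [e1 k] + D.S4 * (m4 D k * D.k4)| ≤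
      (2 * (c5 5 + 336 * c2 ^ 3) + 2 * c5 5) * (5 * τ0 ^ 4 * D.E0) := by
  obtain ⟨k1, k2⟩ := CD.mem_up.1 hk
  obtain ⟨r, rfl⟩ : ∃ r, k = r + 1 + D.J := ⟨k - D.J - 1, by omega⟩
  have hk' : r + 1 + D.J ≤ D.B.length := D.B_len ▸ k2.le
  have b0 := b1_nn H
  set Φ : GT .one → Bool → Bool → ℝ := fun τ op oq => lo D.J τ.j *
    CW (-1) D.J D.B (PT D) (List.replicate 3 (lo D.J)) τ.sh (nx τ op oq [e1 (r + 1 + D.J)]) with hΦ
  have h1 := fin_sum H (T := fun y => Φ (.g1 .one () y ()) true false +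
      Φ (.g1' .one () y ()) false true) (v := 16 * (m4 D (r + 1 + D.J) * D.k4))
      (mul_nonneg zero_le_two (c3_nn 5)) fun y hy => by
    have s1 := SV_sub H hy (eg_LW w1 _ _ _ _ _ _) (MG_facts H hk')
    have t1 := three H le_rfl (abs_PT H) hy rfl (main_test H hy hk' (.inl rfl)) s1
    have t2 := three H le_rfl (abs_PT H) hy rfl (main_test H hy hk' (.inr rfl)) s1
    have e : lo D.J y = 1 := if_pos hy
    have h6 := (abs_add_le _ _).trans (add_le_add t1 t2)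
    refine Eq.trans_le (congrArg abs ?_) (h6.trans_eq (by ring))
    refine Eq.trans (congrArg₂ (· - ·) (congrArg₂ (· + ·) ((congrArg (· * _) e).trans (one_mul _))
      ((congrArg (· * _) e).trans (one_mul _))) rfl) ?_
    exact (by intros; ring : ∀ a b c d : ℝ, a + b - c * (16 * d) =
      a - c * (8 * d) + (b - c * (8 * d))) _ _ _ _
  have h2 := abs_two_le (i := D.J) (Φ := Φ) (β := c5 5 * b1 D τ0) H.mono
    (mul_nonneg (c5_nn 5) b0) fun τ hτ => by
      have := Lsg89.LM.card hτ (cutB H).le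
      have h3 := abs_CW_le (N := 19) (ε := -1) (by simp) H.mono (cutB H).le (by positivity)
        (abs_PT H) 3 τ.sh (nx τ false false [e1 (r + 1 + D.J)]) (by rw [nx_length]; rfl)
        (by change _ ≤ 1 + 2 at this; omega)
      rw [abs_mul]
      refine (mul_le_of_le_one_left (abs_nonneg _) (abs_lo_le _)).trans (h3.trans ?_)
      rw [c5, mul_assoc, mul_assoc]
      gcongr
      norm_num
  have h4 : 2 * (Fintype.card Sh.one.Lf : ℝ) ^ 2 * ex D.B D.J ^ 2 * (c5 5 * b1 D τ0) ≤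
      2 * c5 5 * (5 * τ0 ^ 4 * D.E0) := by
    have := c5_nn 5
    have h5 := pow_le_pow_left₀ (H.ex0 D.J) H.x1 2
    calc _ = 2 * c5 5 * (ex D.B D.J ^ 2 * b1 D τ0) := by
          rw [show Fintype.card Sh.one.Lf = 1 from rfl]; push_cast; ring
      _ ≤ 2 * c5 5 * (D.X ^ 2 * b1 D τ0) := by gcongr
      _ ≤ _ := mul_le_mul_of_nonneg_left (Xb1 H) (by positivity)
  rw [List.replicate_succ, CW, lsg_eq, old_one, one_one]
  replace h2 := h2.trans h4
  rw [abs_le] at h1 h2 ⊢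
  constructor <;> linarith [h1.1, h1.2, h2.1, h2.2]

/-- **test** -/
theorem cw_test : Bd true fun D => L90.cw D [aL, aL, aL, aL] - D.k44 * D.S4 / 2 := by
  refine Bd.mk' fun τ0 => ⟨(2 * (c5 5 + 336 * c2 ^ 3) + 2 * c5 5) * (5 * τ0 ^ 4),
    fun D H hW => ?_⟩
  have h0 : 0 ≤ (2 * (c5 5 + 336 * c2 ^ 3) + 2 * c5 5) * (5 * τ0 ^ 4) := by
    have := c5_nn 5
    have := c3_nn 5
    positivity
  have h1 := D.abs_sum_om fun k hk => test_one H hk
  rw [D.Iw_const, ← CD.wt_test hW] at h1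
  rw [L90.cw, CD.k44, CD.dd_test hW, CD.dd_test hW, dP_eq H hW]
  refine Eq.trans_le (congrArg abs ?_) (h1.trans (le_trans (le_of_eq (by ring))
    (mul_le_mul_of_nonneg_left H.wtE0_le h0)))
  simp only [mul_add, Finset.sum_add_distrib]
  refine (congrArg₂ (· - ·) (Finset.sum_congr rfl fun k hk => mc (wB_mark (B := cB D)
    (V := [c1 D aL, c1 D aL, c1 D aL, c1 D aL]) (cutB H) (cB_zero D) (fun r hr j hj => by
      simp only [List.mem_cons, List.not_mem_nil, or_self, or_false] at hr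
      exact hr ▸ RR_hi hj) (CD.mem_up.1 hk).1 (D.B_len ▸ (CD.mem_up.1 hk).2.le)
    (fun _ _ _ => 1) (oE D.q))) rfl).trans ?_
  rw [sub_eq_add_neg]
  refine congrArg₂ (· + ·) rfl ?_
  simp only [mul_left_comm _ D.S4, ← mul_assoc _ _ D.k4, ← Finset.mul_sum, ← Finset.sum_mul]
  ring

/-- **`Y4S` from the reduction to the cluster word** -/
theorem y4S_of (b : Bool) (h : Red b [aL, aL, aL, aL]) : Y4S b := by
  have : Bd b fun D => L90.cw D [aL, aL, aL, aL] - D.k44 * D.S4 / 2 := by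
    cases b
    exacts [cw_val, cw_test]
  exact (Bd.add h this).congr fun _ D _ _ => by ring

end Crest.Agent.T156.Cas.C40.Y4

end
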