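import Crest.Agent.T156.CYhB_14
import Crest.Agent.T156.CEx_23
import Crest.Agent.T156.CErr_54
import Crest.Agent.T156.AltOne_23

/-!
# Row 156, block C (helper14): the leaf `YhS`
-/

set_option autoImplicit false

noncomputable section

namespace Crest.Agent.T156.Cas.C40

open MeasureTheory Real Set Filter Topology
open Crest.Agent.T157.E Crest.Agent.T157.Casc Crest.Agent.T157.SL
open Crest.Agent.T157.G1 (ov)
open Crest.ProbabilityR.SpinGlassDynamics (spin)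
open Mul55 OneP Yh14 Leg51 Lsg89 CD

namespace Y14

variable {D : CD} {τ0 : ℝ}

/-- the bulk factor of the letter -/
def cc (D : CD) (y : ℕ) : ℝ := if y ≤ D.J then D.τ y / 2 * D.rb y else 0

theorem r1 (H : D.Ok τ0) : Ker15.R1 D.S := Ker15.r1_of (rk_opS H.ook)

theorem mS (H : D.Ok τ0) : Mono 0 D.S := mono_opS H.mono

theorem tm_lo (H : D.Ok τ0) {y : ℕ} (hy : y ≤ D.J) : Ker15.tm D.S y = fAcc D.M y := by
  rw [Ker15.tm_eq (rk_opS H.ook), TT_opV (hy.trans H.cut.le), H.qlo y hy, mul_zero,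
    zero_add]

theorem JS (H : D.Ok τ0) : D.J < D.S.length := H.cut.trans_eq opS_length.symm

theorem exS (H : D.Ok τ0) : ex D.S D.J ≤ D.X := (Cav22.ex_tilt tilt_opS _).trans_le H.x1

theorem cc0 (D : CD) : cc D 0 = 0 := by simp [cc, oTau, dAcc_zero]

theorem abs_rb (H : D.Ok τ0) {y : ℕ} (hy : y ∈ D.lo) : |D.rb y| ≤ D.X + D.tl := by
  have h1 := H.u_lo hy 0
  simp only [CD.u, uM, oU, H.qlo y (mem_lo.1 hy).2, sub_zero, zero_add, pow_one, Nat.cast_zero,
    one_mul] at h1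
  refine le_trans (abs_le.2 ⟨?_, pi2_mono wt_one90 _ _ (fun _ _ => le_abs_self _) _⟩) h1
  have := pi2_mono wt_one90 D.B y (K := fun x y => -1 * |ov x y|) (K' := ov)
    (fun a b => by linarith [neg_abs_le (ov a b)]) 0
  rw [pi2_const_mul] at this
  exact (neg_eq_neg_one_mul _).trans_le this

theorem abs_cc (H : D.Ok τ0) {y : ℕ} (hy : y ≤ D.J) : |cc D y| ≤ τ0 / 2 * (D.X + D.tl) := by
  have h0 := H.tau0
  rcases y.eq_zero_or_pos with rfl | h
  · rw [cc0, abs_zero]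
    exact mul_nonneg (by positivity) (add_nonneg H.X0 H.tl0)
  · rw [cc, if_pos hy, abs_mul, abs_div, abs_two, abs_of_nonneg (H.tau_mem y).1]
    exact mul_le_mul (by linarith [(H.tau_mem y).2]) (abs_rb H (mem_lo.2 ⟨h, hy⟩)) (abs_nonneg _)
      (by positivity)

theorem ker_eq (H : D.Ok τ0) (j : ℕ) (k : ℝ) :
    pi2 (fun _ => 1) D.B j ((lt D.n D.β D.M D.q D.cl aL).1 j) 0 * (k - D.q j) = cc D j * k := by
  rw [Ex23.pi2_lt, cc]
  by_cases h : j ≤ D.J
  · simp [CD.cl, h, CD.del, H.qlo j h]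
  · simp [CD.cl, h]

theorem Sh_eq (H : D.Ok τ0) : D.Sh' = 2 * ∑ y ∈ Finset.range (D.J + 1),
    dm D.S 0 y * (cc D y * Ker15.tm D.S y) := by
  rw [Finset.range_eq_Ico, Finset.sum_eq_sum_Ico_succ_bot (Nat.succ_pos _), cc0, zero_mul, mul_zero,
    zero_add, Finset.mul_sum]
  refine Finset.sum_congr rfl fun y hy => ?_
  rw [cc, if_pos (mem_lo.1 hy).2, tm_lo H (mem_lo.1 hy).2, Cav22.dm_tilt tilt_opS]
  ring

theorem abs_low (H : D.Ok τ0) {G : ℕ → ℝ} {c : ℝ} (hc : 0 ≤ c) (h : ∀ y ≤ D.J, |G y| ≤ c) :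
    |∑ y ∈ Finset.range (D.J + 1), dm D.S 0 y * (cc D y * G y)| ≤
      D.X * (τ0 / 2 * (D.X + D.tl) * c) := by
  have h1 := (abs_nonneg _).trans (abs_cc H D.J.zero_le)
  refine (Finset.abs_sum_le_sum_abs _ _).trans ((Finset.sum_le_sum (g := fun y => D.dx y *
    (τ0 / 2 * (D.X + D.tl) * c)) fun y hy => ?_).trans ?_)
  · have hy := Nat.lt_succ_iff.1 (Finset.mem_range.1 hy)
    rw [Cav22.dm_tilt tilt_opS, abs_mul, abs_mul, abs_of_nonneg (H.dx0 y)]
    exact mul_le_mul_of_nonneg_left (mul_le_mul (abs_cc H hy) (h y hy) (abs_nonneg _) h1) (H.dx0 y)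
  · rw [← Finset.sum_mul, H.sum_dx]
    exact mul_le_mul_of_nonneg_right H.x1 (mul_nonneg h1 hc)

theorem lam_eq (H : D.Ok τ0) : D.lam = gs (D.S.drop D.J) 1 0 := by
  have H' := R1.drop (r1 H) D.J
  unfold CD.lam CD.Ph
  rw [drop_cons (JS H)] at H' ⊢
  exact iter_X H'

theorem X5 (H : D.Ok τ0) : (D.X + D.tl) * D.X ^ 5 ≤ 2 * D.E0 := by
  nlinarith [H.X6_le, H.tl_le, mul_le_of_le_one_right H.tl0 (pow_le_one₀ H.X0 H.X1 : D.X ^ 5 ≤ 1)]

theorem val (H : D.Ok τ0) (hW : D.W.isSome = false) :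
    |D.tw [aL] - D.lam2 * D.Sh' / 2| ≤ 2000 * cL ^ 2 * τ0 * D.E0 := by
  have e : D.tw [aL] = ∑ y ∈ Finset.range (D.J + 1), dm D.S 0 y * (cc D y * D.Gam y) := by
    rw [CD.tw, dd_val hW, Ex23.tm_one H.pos H.ook]
    refine (Finset.sum_congr rfl fun j _ => ?_).trans (Finset.sum_subset
      (Finset.range_mono (Nat.succ_le_succ H.cut.le)) fun j _ hj => ?_).symm
    · rw [Cav22.dm_tilt tilt_opS, ← ker_eq H, ← Ex23.pi2_oE]
      rfl
    · rw [cc, if_neg fun h => hj (Finset.mem_range.2 (Nat.lt_succ_of_le h)), zero_mul, mul_zero]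
  have h1 := abs_low H (G := fun y => D.Gam y - D.lam ^ 2 * Ker15.tm D.S y)
    (c := 2000 * cL ^ 2 * D.X ^ 4) (by positivity) fun y hy => lam_eq H ▸
      gam_low (r1 H) (mS H) (JS H) H.X0 H.X1 ((tm_lo H le_rfl).trans_le H.h1) hy
  rw [e, CD.lam2, dd_val hW, Sh_eq H, mul_div_assoc, mul_div_cancel_left₀ _ two_ne_zero,
    Finset.mul_sum, ← Finset.sum_sub_distrib]
  refine ((congrArg abs (Finset.sum_congr rfl fun y _ => by ring)).trans_le h1).trans ?_
  nlinarith [mul_le_mul_of_nonneg_left (X5 H) (mul_nonneg (sq_nonneg cL) H.tau0)]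

/-- the marked cluster -/
def mg (D : CD) (j k : ℕ) (y : ℝ) : ℝ :=
  MG (D.S.drop D.J) (.two (j - D.J)) (pr2 (j - D.J) (oE D.q j)) k (y • spin)

theorem dP_eq (H : D.Ok τ0) (hW : D.W.isSome = true) : D.dP 2 [] =
    -∑ j ∈ D.up, D.om j * (mg D j 2 0 - ex D.S D.J * D.lam * mg D j 0 0) := by
  have H' := R1.drop (r1 H) D.J
  have e : ex D.S D.J = (D.S[D.J]'(JS H)).m := by
    simp only [Crest.Agent.T157.Casc.ex, List.getElem?_eq_getElem (JS H)]
  rw [CD.dP, lam_eq H, e]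
  simp only [CD.sH, dd_test hW]
  have k := iter_sum D.up D.om (lad_gs (D.S[D.J]'(JS H)) (D.S.drop (D.J + 1)))
    (gs_even_zero (One15.fl_of (drop_cons (JS H) ▸ H').rk) Even.zero) (f := mg D) fun j hj => by
      obtain ⟨m, hm⟩ : ∃ m, j - D.J = m + 1 := ⟨j - D.J - 1, by have := (mem_up.1 hj).1; omega⟩
      unfold mg
      rw [hm, drop_cons (JS H)]
      exact lad_MG _ _ rfl _
  rw [← drop_cons (JS H)] at k
  exact congrArg _ k

theorem test (H : D.Ok τ0) (hW : D.W.isSome = true) : |D.tw [aL] - D.lam2 * D.Sh' / 2| ≤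
    (4000 * cL ^ 2 + 8192 + 2 * (cL ^ 2 * bM 0)) * τ0 * (D.wt * D.E0) := by
  have hx := H.X0
  have h0 := H.tau0
  have ht := H.tl0
  have hσ : Ker15.tm D.S D.J ≤ D.X ^ 3 := (tm_lo H le_rfl).trans_le H.h1
  have h1 := abs_low H (G := Ker15.tm D.S) (c := D.X ^ 3) (by positivity) fun y hy => by
    rw [abs_of_nonneg (tm_nonneg (r1 H) y)]
    exact ((r1 H).tm_mono hy).trans hσ
  have hl : |D.lam| ≤ cL := lam_eq H ▸ (ln_M' (r1 H) (mS H) (JS H)).bd
  have e : (fun j a b => pi2 (fun _ => 1) D.B j ((lt D.n D.β D.M D.q D.cl aL).1 j) 0 *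
      (lt D.n D.β D.M D.q D.cl aL).2 j a b) = fun j a b => cc D j * (spin a * spin b) := by
    funext j a b
    exact ker_eq H j _
  rw [CD.tw, CD.lam2, dd_test hW, dd_test hW, dP_eq H hW, Sh_eq H, wt_test hW]
  simp only [List.map_singleton, Ex23.wB_one, e]
  set T := ∑ y ∈ Finset.range (D.J + 1), dm D.S 0 y * (cc D y * Ker15.tm D.S y) with hT
  rw [show ∀ A B : ℝ, A - 2 * D.lam * -B * (2 * T) / 2 = A + 2 * D.lam * T * B from
    fun A B => by ring, Finset.mul_sum, ← Finset.sum_add_distrib]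
  simp only [mul_left_comm (2 * D.lam * T), ← mul_add]
  refine (D.abs_sum_om (b := fun _ => (4000 * cL ^ 2 + 8192 + 2 * (cL ^ 2 * bM 0)) * τ0 * D.E0)
    fun j hj => ?_).trans_eq (by rw [D.Iw_const]; ring)
  obtain ⟨m, rfl⟩ : ∃ m, j = m + D.J + 1 := ⟨j - D.J - 1, by have := (mem_up.1 hj).1; omega⟩
  have hj' := (mem_up.1 hj).2.le
  have hq := H.ook.mem hj'
  have k1 := dop_low (r1 H) (mS H) (hj'.trans_eq opS_length.symm) hx H.X1 hσ (exS H)
    (c := cc D) (fun y hy => if_neg hy.not_ge) (by positivity) (fun y hy => abs_cc H hy)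
    (q := D.q (m + D.J + 1)) ((abs_of_nonneg hq.1).trans_le hq.2)
  have k2 : |mg D (m + D.J + 1) 0 0| ≤ bM 0 := abs_MG_two (Cav22.mono_drop _ (mS H))
    (fun x => abs_oE_le H.ook hj' _ _) 0 _
  have e2 : mg D (m + D.J + 1) 2 0 = MG (D.S.drop D.J) (.two (m + 1))
      (pr2 (m + 1) fun a b => spin a * spin b - D.q (m + D.J + 1)) 2 0 := by
    rw [mg, show m + D.J + 1 - D.J = m + 1 by omega, zero_smul]
    rfl
  rw [← lam_eq H, ← hT, ← e2] at k1
  have k3 : |ex D.S D.J * (D.lam * D.lam * mg D (m + D.J + 1) 0 0) * T| ≤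
      D.X * (cL * cL * bM 0) * (D.X * (τ0 / 2 * (D.X + D.tl) * D.X ^ 3)) := by
    have := (abs_nonneg _).trans hl
    have := bM_nn 0
    simp only [abs_mul, abs_of_nonneg (ex_nn (mS H) D.J)]
    gcongr
    exact exS H
  have k4 := mul_le_mul_of_nonneg_left (X5 H) (show 0 ≤ (4000 * cL ^ 2 + 8192 +
    2 * (cL ^ 2 * bM 0)) * τ0 / 2 by have := bM_nn 0; positivity)
  rw [abs_le] at k1 k3 ⊢
  constructor <;> [have k5 := k1.1; have k5 := k1.2] <;> erw [show ∀ j, oE D.q j = fun a b =>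
    spin a * spin b - D.q j from fun _ => rfl] <;> nlinarith [k3.1, k3.2]

end Y14

/-- **the leaf `Yh`**, both directions -/
theorem yhS : ∀ b, YhS b
  | false => fun τ0 => ⟨2000 * cL ^ 2 * |τ0|, by positivity, fun D H hW => by
      rw [abs_of_nonneg H.tau0]
      exact (Y14.val H hW).trans (mul_le_mul_of_nonneg_left (H.E0_le hW)
        (by have := H.tau0; positivity))⟩
  | true => fun τ0 => ⟨(4000 * cL ^ 2 + 8192 + 2 * (cL ^ 2 * bM 0)) * |τ0|,
      by have := bM_nn 0; positivity, fun D H hW => by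
      rw [abs_of_nonneg H.tau0]
      exact (Y14.test H hW).trans (mul_le_mul_of_nonneg_left H.wtE0_le
        (by have := H.tau0; have := bM_nn 0; positivity))⟩

end Crest.Agent.T156.Cas.C40

end
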