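import Crest.Agent.T156.CMxD_23
import Crest.Agent.T156.CY4B_89
import Crest.Agent.T156.CY2B_44
import Crest.Agent.T156.CYh_14
import Crest.Agent.T156.CHd_50
import Crest.Agent.T156.CKit_32

/-!
# Row 156, block C: the mean part of the mixed word, value direction (helper23)
-/

set_option autoImplicit false
set_option linter.all false

noncomputable section

namespace Crest.Agent.T156.Cas.C40.Mx23

open MeasureTheory Real Set Filter Topology
open Crest.Agent.T157.E Crest.Agent.T157.Casc Crest.Agent.T157.SL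
open Crest.Agent.T157.G1 (ov)
open Crest.ProbabilityR.SpinGlassDynamics (spin)
open Wt87 (shr_emb shr_nw shr_self shr_comm shr_le shr_two)
open Leg51 Low51 Lsg89 Y89 L90 One15 Mul55
open Y44 (bet pb pa r2)
open Y4 (cutB cutS tiltB monoS ZZ_lo abs_ZZ ends_PQ LWm_swap fst_two abs_prE_le exists_drop)

variable {D : CD} {τ0 : ℝ}

theorem wB_mul {Ω S Θ : Type} {ε : ℝ} {M : List (Lv Θ)}
    {B : (s : Sh) → ((s.Lf → Ω) → ℝ) → ((s.Lf → S) → ℝ) → ℝ}
    (hB : ∀ s G c ξ, B s G (fun x => c * ξ x) = c * B s G ξ) :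
    ∀ (V : List ((ℕ → Ω → Ω → ℝ) × (ℕ → S → S → ℝ))) (s : Sh) (G : (s.Lf → Ω) → ℝ) (c : ℝ)
      (ξ : (s.Lf → S) → ℝ), wB ε M B V s G (fun x => c * ξ x) = c * wB ε M B V s G ξ
  | [], s, G, c, ξ => hB s G c ξ
  | p :: V, s, G, c, ξ => by
      rw [wB, wB, ← sg_const_mul]
      refine congrArg _ (funext fun τ => Eq.trans (congrArg _ (funext fun x => ?_))
        (wB_mul hB V _ _ c _))
      exact mul_assoc _ _ _

/-- the size of two low edges -/
def b2 (D : CD) (τ0 : ℝ) : ℝ := τ0 ^ 2 * (D.X ^ 2 + 2 * D.tl)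

theorem b2_nn (H : D.Ok τ0) : 0 ≤ b2 D τ0 := by
  have := H.tl0
  unfold b2
  positivity

theorem bet_sq (H : D.Ok τ0) (y : ℕ) : bet D y ^ 2 ≤ b2 D τ0 := by
  by_cases hy : y ∈ D.lo
  · rw [Y44.bet_lo hy, mul_pow, sq_sqrt (Y44.r2_nn D y)]
    have := H.tau_mem y
    exact mul_le_mul (pow_le_pow_left₀ (by linarith) (by linarith) 2) (Y44.r2_le H hy)
      (Y44.r2_nn D y) (sq_nonneg _)
  · rw [Y44.bet_out hy, zero_pow two_ne_zero]
    exact b2_nn H

theorem sum_bet (D : CD) : ∑ y ∈ Finset.range (D.J + 1), D.dx y * bet D y ^ 2 = D.S2 / 4 := by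
  rw [CD.S2, Finset.sum_div]
  refine (Finset.sum_subset (fun j hj => ?_) fun j h1 h2 => ?_).symm.trans
    (Finset.sum_congr rfl fun j hj => ?_)
  · exact Finset.mem_range.2 (Nat.lt_succ_of_le (CD.mem_lo.1 hj).2)
  · rw [Y44.bet_out h2, zero_pow two_ne_zero, mul_zero]
  · rw [Y44.bet_lo hj, mul_pow, sq_sqrt (Y44.r2_nn D j), r2]
    ring

/-- the deterministic bulk kernel -/
def RB (D : CD) : ℕ → (Unit → Cube D.n) → (Unit → Cube D.n) → ℝ := fun j _ _ => bet D j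

/-- the value of a tree -/
abbrev PT (D : CD) : EF := PhiB D.B.length (cB D) [fun _ _ _ => 1, RB D, RB D]
  [oE D.q, oE D.q, oE D.q]

theorem abs_PT (H : D.Ok τ0) (s : Sh) : ∀ cs : Low51.EL s, cs.length = 3 →
    |PT D s cs| ≤ 8 * b2 D τ0
  | [a, b, c], _ => by
      have h1 := One15.abs_TE_le w1 s D.S 0 fun x => abs_prE_le (n := D.B.length) x
        [oE D.q, oE D.q, oE D.q] [a, b, c] fun K hK => by
          simp only [List.mem_cons, List.not_mem_nil, or_self, or_false] at hK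
          exact hK ▸ abs_ZZ H
      have e : prE D.B.length [fun _ _ _ => 1, RB D, RB D] [a, b, c] = fun _ =>
          bet D (s.shr b.1 b.2 D.B.length) * bet D (s.shr c.1 c.2 D.B.length) := by
        funext x
        simp only [prE_cons, prE_nil, RB, one_mul, mul_one]
      have h2 : |bet D (s.shr b.1 b.2 D.B.length) * bet D (s.shr c.1 c.2 D.B.length)| ≤
          b2 D τ0 := by
        have := bet_sq H (s.shr b.1 b.2 D.B.length)
        have := bet_sq H (s.shr c.1 c.2 D.B.length)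
        rw [abs_le]
        constructor <;> nlinarith [sq_nonneg (bet D (s.shr b.1 b.2 D.B.length) -
          bet D (s.shr c.1 c.2 D.B.length)), sq_nonneg (bet D (s.shr b.1 b.2 D.B.length) +
          bet D (s.shr c.1 c.2 D.B.length))]
      rw [PT, PhiB, cB, e, R90.Lc_const wt_one90, abs_mul, mul_comm (8 : ℝ)]
      exact mul_le_mul h2 (h1.trans_eq (by norm_num)) (abs_nonneg _) (b2_nn H)

/-- a cluster with two legs -/
def G1 (D : CD) : (Bool → ℝ) → ℝ := GC (-1) (fun _ => 1) (D.S.drop D.J) spin (List.replicate 1 spin)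

/-- the site factor of two clusters split at `j` -/
def SV (D : CD) (j : ℕ) (A : (Bool → ℝ) → ℝ) : ℝ := node (fun _ => 1) D.S j (fun z =>
  node (fun _ => 1) (D.S.drop j) (D.J - j) A z * node (fun _ => 1) (D.S.drop j) (D.J - j) (G1 D) z) 0

theorem main_test (H : D.Ok τ0) {y : ℕ} (hy : y ≤ D.J) {r : ℕ} (hk : r + D.J ≤ D.B.length)
    {d : Ed (Sh.two y).Lf} (hd : d = ⟨Sh.twoL y, Sh.twoR y, .leg, .fix⟩ ∨
      d = ⟨Sh.twoR y, Sh.twoL y, .fix, .leg⟩) (E : List (Ed (Sh.two y).Lf))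
    (h3 : E.length = 1) (hE : ∀ d ∈ E, PQ (Sh.twoL y) (Sh.twoR y) d) :
    LE (-1) D.J D.B ([⟨Sh.twoL y, Sh.twoL y, .fix, .gr (r + D.J)⟩, d] ++ E) (cs' (PT D)) (.two y)
      id [] = bet D y ^ 2 * SV D y (MG (D.S.drop D.J) (.two r) (pr2 r (oE D.q (r + D.J))) 2) := by
  have hs : ((Sh.two y).graft (Sh.twoL y) (r + D.J)).shr
      ((Sh.two y).emb (Sh.twoL y) (r + D.J) (Sh.twoL y))
      ((Sh.two y).emb (Sh.twoL y) (r + D.J) (Sh.twoR y)) D.B.length = y :=
    (shr_emb _ _ _ _ _ _).trans ((shr_two y _).trans (min_eq_left (hy.trans (cutB H).le)))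
  have h1 := LE_pq (ε := -1) (h := 0) (R := RB D) (ρ := fun _ _ => bet D y) (Z := oE D.q)
    wt_one90 (cutB H) rfl hy rfl (fun x y => rfl) (ZZ_lo H hy) (TEf (fun _ => 1) D.S 0) (d :: E)
    (fun d' hd' => (List.mem_cons.1 hd').elim
      (fun e => by
        rcases hd with rfl | rfl <;> subst e
        exacts [⟨⟨trivial, trivial⟩, .inl ⟨rfl, rfl⟩⟩, ⟨⟨trivial, trivial⟩, .inr ⟨rfl, rfl⟩⟩])
      fun h => Y4.PQ.ok (hE d' h) _ _)
    [fun _ _ _ => 1] [oE D.q] _ ((Sh.two y).emb (Sh.twoL y) (r + D.J))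
    [((Sh.two y).emb (Sh.twoL y) (r + D.J) (Sh.twoL y), (Sh.two y).nw (Sh.twoL y) (r + D.J))]
    rfl rfl hs
  rw [List.length_cons, h3] at h1
  refine Eq.trans h1 (congrArg₂ (· * ·) ?_ ?_)
  · simp only [prE_cons, prE_nil, one_mul]
    exact R90.Lc_const wt_one90 _ _ _
  · obtain ⟨W, w1', w2, w3⟩ := ends_PQ (Tay38.two_ne y) spin E hE
    have h2 := LW_mark (ε := -1) w1 r (oE D.q (r + D.J)) spin y D.S D.J hy (cutS H).le
      ((Sh.twoL y :: W).map fun a => (a, spin)) 0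
    have l1 : legs ((Sh.twoL y :: W).map fun a => (a, spin)) (Sh.twoL y) =
        List.replicate 2 spin := by
      rw [h3] at w2
      simpa [legs, List.replicate_succ] using w2
    have l2 : legs ((Sh.twoL y :: W).map fun a => (a, spin)) (Sh.twoR y) =
        List.replicate 1 spin := by
      rw [h3] at w3
      simpa [legs, Tay38.two_ne y] using w3
    rw [l1, l2, ← LW_tilt (tiltB D), ← LWm_leg, List.map_cons, ← w1', List.map_replicate,
      ← fst_two r] at h2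
    refine Eq.trans ?_ h2
    have e : prE D.B.length [oE D.q] ([((Sh.two y).emb (Sh.twoL y) (r + D.J) (Sh.twoL y),
        (Sh.two y).nw (Sh.twoL y) (r + D.J))] : Low51.EL _) = fun x =>
          oE D.q (r + D.J) (x ((Sh.two y).emb (Sh.twoL y) (r + D.J) (Sh.twoL y)))
            (x ((Sh.two y).nw (Sh.twoL y) (r + D.J))) := funext fun x => by
      rw [prE_cons, prE_nil, mul_one, shr_nw, shr_self, min_eq_left hk]
    rw [e]
    rcases hd with rfl | rfl
    · rfl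
    · exact LWm_swap spin _ (Sh.twoL y) (Sh.twoR y) (ends E) _ _ _

/-- the site constant -/
def cM : ℝ := bM 0 + bM 1 + bM 2 + cS bM 1 1 + cS bM 1 2

theorem cM_parts : 1 ≤ cM ∧ bM 0 ≤ cM ∧ bM 1 ≤ cM ∧ bM 2 ≤ cM ∧ cS bM 1 1 ≤ cM ∧ cS bM 1 2 ≤ cM := by
  have := one_le_bM 0
  have := one_le_bM 1
  have := one_le_bM 2
  have := cS_nn bM_nn 1 1
  have := cS_nn bM_nn 1 2
  unfold cM
  refine ⟨?_, ?_, ?_, ?_, ?_, ?_⟩ <;> linarith

theorem G1_facts (H : D.Ok τ0) : (∀ z, |G1 D z| ≤ cM) ∧ |D.lam| ≤ cM ∧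
    ∀ z, |G1 D z - D.lam| ≤ cM * |xs z| := by
  obtain ⟨l, L, e, hM, -⟩ := exists_drop H
  obtain ⟨-, -, a, -, b, -⟩ := cM_parts
  simp only [G1, Y14.lam_eq H, e, GC_spin]
  exact ⟨fun z => (abs_gs_bM hM 1 _).trans a, (abs_gs_bM hM 1 _).trans a, fun z =>
    (Lad.lip (abs_m_le hM) bM_nn (lad_gs l L) (lad_gs l L) (abs_gs_bM hM) (abs_gs_bM hM) 1 _).trans
      (mul_le_mul_of_nonneg_right b (abs_nonneg _))⟩

theorem abs_mg (H : D.Ok τ0) {k : ℕ} (hk : k ∈ D.up) (m : ℕ) (y : ℝ) : |Y14.mg D k m y| ≤ bM m :=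
  abs_MG_two (Cav22.mono_drop _ (monoS H))
    (fun x => abs_oE_le H.ook (CD.mem_up.1 hk).2.le _ _) m _

theorem SV_sub (H : D.Ok τ0) {y : ℕ} (hy : y ≤ D.J) {r : ℕ} (hk : r + 1 + D.J ∈ D.up) :
    |SV D y (MG (D.S.drop D.J) (.two (r + 1)) (pr2 (r + 1) (oE D.q (r + 1 + D.J))) 2) -
      Y14.mg D (r + 1 + D.J) 2 0 * D.lam| ≤ 40 * cM ^ 3 * D.X := by
  obtain ⟨g1, g2, g3⟩ := G1_facts H
  obtain ⟨l, L, e, hM, -⟩ := exists_drop H
  obtain ⟨h0, -, -, a, -, b⟩ := cM_parts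
  have hF : ∀ x, |pr2 (r + 1) (oE D.q (r + 1 + D.J)) x| ≤ 2 := fun x =>
    abs_oE_le H.ook (CD.mem_up.1 hk).2.le _ _
  have h1 := two_sub w1 h0 (lg_xs.eg.abs.const_mul cM) (eg_LW w1 _ _ _ _ _ _)
    (eg_LW w1 _ _ _ _ _ _) (A := MG (D.S.drop D.J) (.two (r + 1))
      (pr2 (r + 1) (oE D.q (r + 1 + D.J))) 2) (a := Y14.mg D (r + 1 + D.J) 2 0)
    (fun z => (abs_MG_two (e ▸ hM) hF 2 z).trans a) g1 ((abs_mg H hk 2 0).trans a) g2 (fun z => by
      rw [Y14.mg, Nat.add_sub_cancel, zero_smul, e]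
      exact (MG_lip hM hF 2 z).trans (mul_le_mul_of_nonneg_right b (abs_nonneg _))) g3 hy
    (cutS H).le 0
  rw [node_const_mul] at h1
  refine h1.trans ?_
  have := Y4.node_xs H
  calc _ ≤ 2 * cM ^ 2 * (cM * (20 * D.X)) := by beta_reduce; gcongr
    _ = _ := by ring

/-- the constant of the crude terms -/
def cT : ℝ := 6 * 11 ^ 2 * ((2 * 11) ^ 6 * 8)

theorem one_more (H : D.Ok τ0) {y : ℕ} (hy : y ≤ D.J) {E : List (Ed (Sh.two y).Lf)}
    (hE : E.length + 1 = 3) {S a : ℝ} (hv : ∀ E', E'.length = 1 →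
      (∀ d ∈ E', PQ (Sh.twoL y) (Sh.twoR y) d) →
      LE (-1) D.J D.B (E ++ E') (cs' (PT D)) (.two y) id [] = bet D y ^ 2 * S)
    (hS : |S - a| ≤ 40 * cM ^ 3 * D.X) :
    |CW (-1) D.J D.B (PT D) (List.replicate 1 (lo D.J)) (.two y) E - bet D y ^ 2 * (2 * a)| ≤
      (cT + 80 * cM ^ 3) * (D.X * b2 D τ0) := by
  have b0 := b2_nn H
  have h1 := CW_two (N := 11) (by simp) H.mono (cutB H) (by positivity) (abs_PT H) (sep_two hy)
    (Tay38.two_ne y) (Wt87.two_cases y) 1 E hE (by rw [Wt87.card_two]; omega) hv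
  have h2 : |bet D y ^ 2 * (S - a)| ≤ b2 D τ0 * (40 * cM ^ 3 * D.X) := by
    rw [abs_mul, abs_sq]
    exact mul_le_mul (bet_sq H y) hS (abs_nonneg _) b0
  have h3 := h1.trans ((mul_le_mul_of_nonneg_right H.x1 (by positivity)).trans_eq
    (show _ = cT * (D.X * b2 D τ0) by rw [cT]; push_cast; ring))
  rw [abs_le] at h2 h3 ⊢
  constructor <;> linarith [h2.1, h2.2, h3.1, h3.2]

theorem conv (D : CD) (s : Sh) (ξ : (s.Lf → Bool) → ℝ) :
    wB (-1) D.B (oB D.n D.β D.M D.q []) [pb D, pb D] s (fun _ => 1) ξ =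
      wB (-1) D.B (cB D) [(RB D, oE D.q), (RB D, oE D.q)] s (fun _ => 1) ξ := by
  simp only [wB]
  refine congrArg _ (funext fun τ => congrArg _ (funext fun τ' => ?_))
  exact congrArg₂ (· * ·) ((Law.TE_const wt_one90 _ _ _ (1 * bet D τ.j * bet D τ'.j)).trans
    (R90.Lc_const wt_one90 _ _ _).symm) rfl

/-- **two deterministic low edges on a marked pair**, node by node -/
theorem node_pb (H : D.Ok τ0) {k : ℕ} (hk : k ∈ D.up) :
    |wB (-1) D.B (oB D.n D.β D.M D.q []) [pb D, pb D] (Sh.two k) (fun _ => 1) (pr2 k (oE D.q k)) +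
      D.S2 * (Y14.mg D k 2 0 * D.lam)| ≤ (4 * cT + 160 * cM ^ 3) * (D.X ^ 2 * b2 D τ0) := by
  obtain ⟨k1, k2⟩ := CD.mem_up.1 hk
  have e0 := wB_mark (B := cB D) (V := [(RB D, oE D.q), (RB D, oE D.q)]) (cutB H) (Y4.cB_zero D)
    (fun p hp j hj => by
      simp only [List.mem_cons, List.not_mem_nil, or_self, or_false] at hp
      subst hp
      funext x y
      exact if_neg (not_le.2 hj)) k1 (D.B_len ▸ k2.le) (fun _ _ _ => 1) (oE D.q)
  rw [conv]
  refine Eq.trans_le (congrArg abs (congrArg₂ (· + ·) e0 rfl)) ?_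
  obtain ⟨r, rfl⟩ : ∃ r, k = r + 1 + D.J := ⟨k - D.J - 1, by omega⟩
  have hk' : r + 1 + D.J ≤ D.B.length := D.B_len ▸ k2.le
  have b0 := b2_nn H
  have hX := H.X0
  have c0 : 0 ≤ cT := by unfold cT; positivity
  have c1 : 0 ≤ cM ^ 3 := pow_nonneg (zero_le_one.trans cM_parts.1) 3
  set a := Y14.mg D (r + 1 + D.J) 2 0 * D.lam
  set Φ : GT .one → Bool → Bool → ℝ := fun τ op oq => lo D.J τ.j *
    CW (-1) D.J D.B (PT D) (List.replicate 1 (lo D.J)) τ.sh (nx τ op oq [e1 (r + 1 + D.J)]) with hΦ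
  have h1 : |∑ y ∈ Finset.range (D.J + 1), D.dx y * (Φ (.g1 .one () y ()) true false +
      Φ (.g1' .one () y ()) false true) - D.S2 * a| ≤
      D.X * (2 * ((cT + 80 * cM ^ 3) * (D.X * b2 D τ0))) := by
    rw [show D.S2 * a = D.S2 / 4 * (4 * a) by ring, ← sum_bet, Finset.sum_mul,
      ← Finset.sum_sub_distrib]
    refine (Finset.abs_sum_le_sum_abs _ _).trans ((Finset.sum_le_sum (g := fun y => D.dx y *
      (2 * ((cT + 80 * cM ^ 3) * (D.X * b2 D τ0)))) fun y hy => ?_).trans ?_)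
    · have hy := Nat.lt_succ_iff.1 (Finset.mem_range.1 hy)
      have s1 := SV_sub H hy hk
      have t1 := one_more H hy rfl (main_test H hy hk' (.inl rfl)) s1
      have t2 := one_more H hy rfl (main_test H hy hk' (.inr rfl)) s1
      have e : lo D.J y = 1 := if_pos hy
      have h6 := (abs_add_le _ _).trans (add_le_add t1 t2)
      rw [mul_assoc, ← mul_sub, abs_mul, abs_of_nonneg (H.dx0 y)]
      refine mul_le_mul_of_nonneg_left (Eq.trans_le (congrArg abs ?_) (h6.trans_eq (by ring)))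
        (H.dx0 y)
      refine Eq.trans (congrArg₂ (· - ·) (congrArg₂ (· + ·) ((congrArg (· * _) e).trans (one_mul _))
        ((congrArg (· * _) e).trans (one_mul _))) rfl) ?_
      exact (by intros; ring : ∀ a b c d : ℝ, a + b - c * (4 * d) =
        a - c * (2 * d) + (b - c * (2 * d))) _ _ _ _
    · rw [← Finset.sum_mul, H.sum_dx]
      exact mul_le_mul_of_nonneg_right H.x1 (by positivity)
  have h2 := abs_two_le (i := D.J) (Φ := Φ) (β := cT * b2 D τ0) H.mono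
    (mul_nonneg c0 b0) fun τ hτ => by
      have := Lsg89.LM.card hτ (cutB H).le
      have h3 := abs_CW_le (N := 11) (ε := -1) (by simp) H.mono (cutB H).le (by positivity)
        (abs_PT H) 1 τ.sh (nx τ false false [e1 (r + 1 + D.J)]) (by rw [nx_length]; rfl)
        (by change _ ≤ 1 + 2 at this; omega)
      rw [abs_mul]
      refine (mul_le_of_le_one_left (abs_nonneg _) (abs_lo_le _)).trans (h3.trans ?_)
      rw [cT]
      push_cast
      nlinarith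
  have h4 : 2 * (Fintype.card Sh.one.Lf : ℝ) ^ 2 * ex D.B D.J ^ 2 * (cT * b2 D τ0) ≤
      2 * cT * (D.X ^ 2 * b2 D τ0) := by
    have h5 := pow_le_pow_left₀ (H.ex0 D.J) H.x1 2
    calc _ = 2 * cT * (ex D.B D.J ^ 2 * b2 D τ0) := by
          rw [show Fintype.card Sh.one.Lf = 1 from rfl]; push_cast; ring
      _ ≤ _ := by gcongr
  show |lsg (-1) D.J D.B .one Φ + _| ≤ _
  rw [lsg_eq, old_one, one_one]
  replace h2 := h2.trans h4
  rw [abs_le] at h1 h2 ⊢
  constructor <;> nlinarith [h1.1, h1.2, h2.1, h2.2]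

theorem abs_del (D : CD) (j : ℕ) : |D.del j| ≤ D.u 1 j := by
  rw [← Ex23.E2_oU, CD.E2]
  simp only [CD.u, uM, pow_one]
  refine abs_le.2 ⟨?_, pi2_mono wt_one90 _ _ (fun _ _ => le_abs_self _) _⟩
  have := pi2_mono wt_one90 D.B j (K := fun x y => -1 * |oU D.q j x y|) (K' := oU D.q j)
    (fun a b => by linarith [neg_abs_le (oU D.q j a b)]) 0
  rw [pi2_const_mul] at this
  exact (neg_eq_neg_one_mul _).trans_le this

theorem v_le_one (D : CD) (y t : ℕ) : D.v y t ≤ 1 := by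
  refine node_le wt_one90 (Eg.sum _ fun x _ => (eg_P wt_one90 _ x).mul
    (Eg33.eg_Cf wt_one90 D.B y t _ _)) (fun z => ?_) _ _ _
  refine (Finset.sum_le_sum (g := fun x => P (fun _ => 1) (D.B.drop y) z x * 1) fun x _ =>
    mul_le_mul_of_nonneg_left (node_le wt_one90 (Hess87.eg_Cb wt_one90 _ _ _) (fun u => ?_) _ _ _)
      (P_nonneg wt_one90 _ z x)).trans_eq (by rw [← Finset.sum_mul, sum_P wt_one90, one_mul])
  have h1 := Wf99.abs_Pf_le' wt_one90 (D.B.drop t) u (f := fun x' => ov x' x * ov x' x) (κ := 1)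
    fun x' => by
      rw [abs_mul]
      exact mul_le_one₀ (abs_ov_le _ _) (abs_nonneg _) (abs_ov_le _ _)
  rw [Cb]
  nlinarith [le_abs_self (Pf (fun _ => 1) (D.B.drop t) u fun x' => ov x' x * ov x' x),
    mul_self_nonneg (Pf (fun _ => 1) (D.B.drop t) u fun x' => ov x' x)]

/-- the weight of the mean letter -/
theorem abs_om (H : D.Ok τ0) {j : ℕ} (hj : j ∈ D.up) : |Hd50.ω D j / 2| ≤ τ0 * D.g j ∧
    |Hd50.ω D j / 2| ≤ τ0 * (D.e j + D.tl) ∧ |Hd50.ω D j / 2| ≤ τ0 := by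
  have h1 := H.tau_mem j
  have h2 := abs_del D j
  have h3 := Ck32.u_le_g (D := D) (p := 1) (by norm_num) j
  have h4 := H.u_up hj 0
  have h5 : D.u 1 j ≤ 2 := by
    simp only [CD.u, uM, pow_one]
    exact (pi2_mono wt_one90 D.B j (K' := fun _ _ => 2)
      (fun x y => abs_oU_le H.ook (CD.mem_up.1 hj).2.le x y) 0).trans_eq (pi2_const wt_one90 _ _ _ _)
  have h6 := mul_le_mul h1.2 h2 (abs_nonneg _) H.tau0
  have h7 := mul_nonneg H.tau0 (D.u0 1 j)
  have h8 := H.tau0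
  norm_num at h3 h4
  rw [Hd50.ω_up D hj, abs_div, abs_mul, abs_of_nonneg h1.1, abs_two]
  refine ⟨?_, ?_, ?_⟩ <;> nlinarith

/-- `dP 2 [Sd]` in the value direction -/
theorem dP_Sd (H : D.Ok τ0) : D.val.dP 2 [D.Sd] = -∑ j ∈ D.up, D.dx j * (Hd50.ω D j / 2) *
    (Y14.mg D j 2 0 - ex D.S D.J * D.lam * Y14.mg D j 0 0) := by
  have H' := Yh14.R1.drop (Y14.r1 H) D.J
  have e : ex D.S D.J = (D.S[D.J]'(Y14.JS H)).m := by
    simp only [Crest.Agent.T157.Casc.ex, List.getElem?_eq_getElem (Y14.JS H)]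
  have e1 : ∀ y, D.val.sH D.J y [D.Sd] =
      ∑ j ∈ D.up, D.dx j * (Hd50.ω D j / 2) * Y14.mg D j 0 y := fun y => by
    have := Hd50.sum_up H.top le_rfl H.cut (g := fun j => Hd50.ω D j / 2 * Y14.mg D j 0 y)
      fun j hj => by rw [Hd50.ω_lo D hj, zero_div, zero_mul]
    simp only [mul_assoc, ← this]
    refine Eq.trans (b := pairF (D.S.drop D.J) (fun j => D.Sd (j + D.J))
      (TEf (fun _ => 1) (D.S.drop D.J) (y • spin))) rfl (Finset.sum_congr rfl fun r _ => mc ?_)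
    rw [Y14.mg, Nat.add_sub_cancel, Hd50.Sd_eq]
    exact Law.TE_const_mul w1 _ _ _ _ _
  rw [CD.dP, Y14.lam_eq H, e]
  simp only [show D.val.J = D.J from rfl, e1]
  have k := Yh14.iter_sum D.up (fun j => D.dx j * (Hd50.ω D j / 2))
    (lad_gs (D.S[D.J]'(Y14.JS H)) (D.S.drop (D.J + 1)))
    (gs_even_zero (One15.fl_of (Yh14.drop_cons (Y14.JS H) ▸ H').rk) Even.zero) (f := Y14.mg D)
    fun j hj => by
      obtain ⟨m, hm⟩ : ∃ m, j - D.J = m + 1 :=
        ⟨j - D.J - 1, by have := (CD.mem_up.1 hj).1; omega⟩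
      unfold Y14.mg
      rw [hm, Yh14.drop_cons (Y14.JS H)]
      exact lad_MG _ _ rfl _
  rw [← Yh14.drop_cons (Y14.JS H)] at k
  exact congrArg _ k

theorem S2_le (H : D.Ok τ0) : 0 ≤ D.S2 ∧ D.S2 ≤ 4 * (D.X * b2 D τ0) := by
  have e := sum_bet D
  have h1 : 0 ≤ ∑ y ∈ Finset.range (D.J + 1), D.dx y * bet D y ^ 2 :=
    Finset.sum_nonneg fun y _ => mul_nonneg (H.dx0 y) (sq_nonneg _)
  have h2 := Finset.sum_le_sum (s := Finset.range (D.J + 1)) fun y _ =>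
    mul_le_mul_of_nonneg_left (bet_sq H y) (H.dx0 y)
  rw [← Finset.sum_mul, H.sum_dx] at h2
  have h3 := mul_le_mul_of_nonneg_right H.x1 (b2_nn H)
  constructor <;> linarith

/-- the constant of one node -/
def cN (τ0 : ℝ) : ℝ := (4 * cT + 164 * cM ^ 3) * τ0 ^ 2 + 2 * Y44.cQ * τ0 ^ 2 * 4500 ^ 2

/-- **the word `[aL, aL]` on a marked pair**, node by node, precision `X ^ 4` -/
theorem node_pa (H : D.Ok τ0) {k : ℕ} (hk : k ∈ D.up) :
    |wB (-1) D.B (oB D.n D.β D.M D.q []) [pL D, pL D] (Sh.two k) (fun _ => 1) (pr2 k (oE D.q k)) +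
      D.S2 * (D.lam * (Y14.mg D k 2 0 - ex D.S D.J * D.lam * Y14.mg D k 0 0))| ≤
      cN τ0 * (D.X ^ 4 + (D.X ^ 6 + 2 * D.tl + D.Lad0) +
        2 * ∑ y ∈ Finset.Ico 1 k, D.dx y * D.v y k) := by
  obtain ⟨j1, j2⟩ := CD.mem_up.1 hk
  have h1 := (Y44.test_le H hk).trans (mul_le_mul_of_nonneg_left (mul_le_mul_of_nonneg_left
    (Y44.LL_le (j := k) (m := Ws38.mu D.B k) (c := 2) H zero_le_two j1
      (fun t ht => by rw [Ws38.mu, if_neg ht, add_zero])
      (by rw [Ws38.mu, if_pos rfl]; linarith [H.dx1 j2.le])) (by norm_num))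
    (by have := Y44.one_le_cQ; positivity))
  have h2 := node_pb H hk
  obtain ⟨c1, c2, -⟩ := cM_parts
  have hX := H.X0
  have ht := H.tl0
  have b0 := b2_nn H
  have l1 := (G1_facts H).2.1
  have h3 : |D.S2 * (D.lam * (ex D.S D.J * D.lam * Y14.mg D k 0 0))| ≤
      4 * (D.X * b2 D τ0) * (cM * (D.X * cM * cM)) := by
    simp only [abs_mul]
    rw [abs_of_nonneg (S2_le H).1, abs_of_nonneg (ex_nn (monoS H) _)]
    have := (S2_le H).2
    have := Y14.exS H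
    have := (abs_mg H hk 0 0).trans c2
    have := ex_nn (monoS H) D.J
    gcongr
  have h4 : D.X ^ 2 * b2 D τ0 ≤ τ0 ^ 2 * (D.X ^ 4 + 2 * D.tl) := by
    have := mul_le_of_le_one_left ht (pow_le_one₀ hX H.X1 : D.X ^ 2 ≤ 1)
    unfold b2
    nlinarith [sq_nonneg τ0]
  have c0 : 0 ≤ cT := by unfold cT; positivity
  have c3 : 0 ≤ 4 * cT + 164 * cM ^ 3 := by positivity
  have h5 := mul_le_mul_of_nonneg_left h4 c3
  have h6 := H.Lad00
  have h7 := H.sv_low0 (Finset.Ico 1 k) k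
  have h8 : 0 ≤ 2 * Y44.cQ * τ0 ^ 2 * 4500 ^ 2 * D.X ^ 4 := by
    have := Y44.one_le_cQ; positivity
  have h9 : 0 ≤ (4 * cT + 164 * cM ^ 3) * τ0 ^ 2 *
      (D.X ^ 6 + D.Lad0 + 2 * ∑ y ∈ Finset.Ico 1 k, D.dx y * D.v y k) := by positivity
  rw [abs_le] at h1 h2 h3 ⊢
  unfold cN
  constructor <;> linarith [h1.1, h1.2, h2.1, h2.2, h3.1, h3.2]

theorem hw_val (H : D.Ok τ0) (hW : D.W.isSome = false) (V : List (Lr D)) :
    hw D (pM D :: V) = ∑ j ∈ D.up, D.dx j * (Hd50.ω D j / 2) *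
      wB (-1) D.B (oB D.n D.β D.M D.q []) V (Sh.two j) (fun _ => 1) (pr2 j (oE D.q j)) := by
  rw [hw, CD.dd_val hW, lamB, D.B_len, ← Ex23.sum_up (by rw [H.top, zero_mul, zero_mul])]
  refine Finset.sum_congr rfl fun j _ => ?_
  have := wB_mul (ε := -1) (M := D.B) (B := oB D.n D.β D.M D.q []) (fun s G c ξ =>
    (congrArg (_ * ·) (Law.TE_const_mul w1 _ _ _ _ _)).trans (mul_left_comm _ _ _)) V (Sh.two j)
    (fun _ => 1) (Hd50.ω D j / 2) (pr2 j (oE D.q j))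
  rw [pM, Hd50.Sd_eq]
  refine (mc this).trans ?_
  split_ifs with h
  · rw [Hd50.ω_lo D h, zero_div, zero_mul, mul_zero]
  · exact (mul_assoc _ _ _).symm

/-- **the mean part, value direction** -/
theorem mxM_false : MxM false := by
  refine Bd.val fun τ0 => ⟨cN τ0 * τ0 * 9, fun D H hW => ?_⟩
  have c0 : 0 ≤ cN τ0 := by
    have := Y44.one_le_cQ
    have := cM_parts.1
    unfold cN cT
    positivity
  have e : D.dP 2 [D.Sd] = D.val.dP 2 [D.Sd] := by
    simp only [CD.dP, CD.sH, CD.dd_val hW]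
    rfl
  rw [hw_val H hW, CD.dmx, CD.dd_val hW, e, dP_Sd H, mul_neg, mul_neg, sub_neg_eq_add,
    Finset.mul_sum, Finset.mul_sum, ← Finset.sum_add_distrib]
  have ht := H.tl0
  have hA : 0 ≤ D.X ^ 6 + 2 * D.tl + D.Lad0 := by
    have := H.X0; have := H.Lad00; positivity
  refine (Finset.abs_sum_le_sum_abs _ _).trans ((Finset.sum_le_sum (g := fun j => cN τ0 * τ0 *
    (D.dx j * (D.X ^ 4 * D.g j + (D.X ^ 6 + 4 * D.tl + D.Lad0) +
      2 * (D.e j * ∑ y ∈ Finset.Ico 1 j, D.dx y * D.v y j)))) fun j hj => ?_).trans ?_)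
  · obtain ⟨o1, o2, o3⟩ := abs_om H hj
    have h1 := node_pa H hj
    have h2 := H.sv_low0 (Finset.Ico 1 j) j
    have h3 : ∑ y ∈ Finset.Ico 1 j, D.dx y * D.v y j ≤ 1 :=
      (Finset.sum_le_sum fun y _ => mul_le_of_le_one_right (H.dx0 y) (v_le_one D y j)).trans
        (H.sum_dx_one fun y hy => (Finset.mem_Ico.1 hy).2.le.trans (CD.mem_up.1 hj).2.le)
    have h4 := mul_le_mul_of_nonneg_right o1 (pow_nonneg H.X0 4)
    have h5 := mul_le_mul_of_nonneg_right o3 hA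
    have h6 := mul_le_mul_of_nonneg_right o2 h2
    have h7 := mul_le_mul_of_nonneg_left h3 (mul_nonneg H.tau0 ht)
    rw [show ∀ d o T S l m : ℝ, d * o * T + S * (l * (d * o * m)) = d * (o * (T + S * (l * m))) from
      fun _ _ _ _ _ _ => by ring, abs_mul, abs_mul, abs_of_nonneg (H.dx0 j),
      mul_left_comm (cN τ0 * τ0)]
    refine mul_le_mul_of_nonneg_left ((mul_le_mul_of_nonneg_left h1 (abs_nonneg _)).trans ?_)
      (H.dx0 j)
    rw [mul_left_comm, mul_assoc]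
    refine mul_le_mul_of_nonneg_left ?_ c0
    linarith
  · rw [← Finset.mul_sum, mul_assoc _ (9 : ℝ)]
    refine mul_le_mul_of_nonneg_left ?_ (mul_nonneg c0 H.tau0)
    have h1 := H.I_le (a := fun _ => D.X ^ 6 + 4 * D.tl + D.Lad0) (by linarith) fun _ _ => le_rfl
    obtain ⟨l1, l2, l3⟩ := H.Lad0_parts
    have h2 : D.I (fun t => D.e t * ∑ y ∈ Finset.Ico 1 t, D.dx y * D.v y t) ≤ D.Lad0 := by
      unfold CD.Lad0; linarith
    have h3 := H.XN1_le
    change D.I _ ≤ _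
    rw [CD.I_add, CD.I_add, CD.I_mul, CD.I_mul]
    unfold CD.N1 at h3
    linarith [H.X6_le, H.tl_le, H.Lad0_le]

end Crest.Agent.T156.Cas.C40.Mx23

end
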