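import Crest.Agent.T156.CMxS_22

/-!
# Row 156, block C: the centred mixed word, reduction to the canonical form (helper90)
-/

set_option autoImplicit false
set_option linter.unusedSectionVars false

noncomputable section

namespace Crest.Agent.T156.Cas.C40.Mx84.Rd90

open MeasureTheory Real Set Filter Topology
open Crest.Agent.T157.E Crest.Agent.T157.Casc Crest.Agent.T157.SL
open Crest.Agent.T157.G1 (ov)
open Mul55 G90 Nu87 R90 W90 Ck32 Ker15 Mx23
open L90 (mA mj gl mkd mem_mA mA_length TS_par av_wb w_lad w_mkd TB_eq)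
open Cw55 (Uc off)

variable {D : CD} {τ0 : ℝ} {r k : ℕ}

/-! ### crude bulk bounds -/

theorem abs_Uc (H : D.Ok τ0) {j : ℕ} (hj : j ≤ D.K) (x y : Cube D.n) : |Uc D j x y| ≤ 4 := by
  have h1 := (L90.abs_del D (abs_oU_le H.ook hj)).trans_eq (pi2_const wt_one90 _ _ 2 0)
  unfold Uc
  linarith [abs_sub (oU D.q j x y) (D.del j), abs_oU_le H.ook hj x y]

theorem E2_Uc (D : CD) (j : ℕ) : D.E2 j (fun x y => |Uc D j x y|) ≤ 4 * D.g j := by
  have h1 : D.E2 j (fun x y => |oU D.q j x y|) ≤ 2 * D.g j := by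
    have := u_le_g (D := D) (p := 1) (by norm_num) j
    simp only [CD.u, uM, pow_one] at this
    exact this
  have h2 := (L90.abs_del D (j := j) (g := fun x y => |oU D.q j x y|) fun _ _ => le_rfl).trans h1
  have h3 := T157.Casc.pi2_mono wt_one90 D.B j (K := fun x y => |Uc D j x y|)
    (K' := fun x y => |oU D.q j x y| + |D.del j|) (fun x y => abs_sub _ _) 0
  rw [pi2_add wt_one90, pi2_const wt_one90] at h3
  unfold CD.E2 at h1 ⊢
  linarith

theorem crude {κ : Type} [Fintype κ] (H : D.Ok τ0) {σ : κ → κ → ℕ} (hσ : Um D.B.length σ)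
    {a c b d p q : κ} (hac : a ≠ c) (hbd : b ≠ d) (hpq : p ≠ q) (h1 : σ a c ∈ D.lo)
    (h2 : σ b d ∈ D.lo) {u : ℕ} (hu : σ p q = u) (hK : u ≤ D.K) {m : ℝ}
    (hm : D.E2 u (fun x y => |Uc D u x y|) ≤ m) :
    |TK (fun _ => 1) D.B 0 σ fun x => ov (x a) (x c) * ov (x b) (x d) * Uc D u (x p) (x q)| ≤
      D.X ^ 2 * m + 8 * D.tl := by
  have x0 := H.X0
  refine (abs_TK_le wt_one90 hσ (G := fun x => D.X ^ 2 * |Uc D u (x p) (x q)| +
    (4 * max (|ov (x a) (x c)| - D.X) 0 + 4 * max (|ov (x b) (x d)| - D.X) 0)) fun x => ?_).trans ?_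
  · rw [abs_mul, abs_mul]
    have k1 := T157.G1.abs_ov_le (x b) (x d)
    have k2 := le_max_left (|ov (x a) (x c)| - D.X) 0
    have k3 := le_max_right (|ov (x a) (x c)| - D.X) 0
    have k4 := le_max_left (|ov (x b) (x d)| - D.X) 0
    have k5 := le_max_right (|ov (x b) (x d)| - D.X) 0
    have k6 := abs_nonneg (ov (x b) (x d))
    have k7 : |ov (x a) (x c)| * |ov (x b) (x d)| ≤ D.X ^ 2 +
        (max (|ov (x a) (x c)| - D.X) 0 + max (|ov (x b) (x d)| - D.X) 0) := by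
      nlinarith [mul_le_mul_of_nonneg_right k2 k6, mul_le_mul_of_nonneg_left k1 k3,
        mul_le_mul_of_nonneg_left k4 x0, mul_le_mul_of_nonneg_right H.X1 k5]
    nlinarith [mul_le_mul_of_nonneg_right k7 (abs_nonneg (Uc D u (x p) (x q))),
      mul_le_mul_of_nonneg_left (abs_Uc H hK (x p) (x q)) (add_nonneg k3 k5)]
  · rw [TK_add, TK_add, TK_mul, TK_mul, TK_mul,
      TK_pair wt_one90 hσ hpq fun x y => |Uc D u x y|,
      TK_pair wt_one90 hσ hac fun x y => max (|ov x y| - D.X) 0,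
      TK_pair wt_one90 hσ hbd fun x y => max (|ov x y| - D.X) 0, hu]
    have k1 := H.envL _ h1
    have k2 := H.envL _ h2
    unfold CD.E2 at hm k1 k2
    linarith [mul_le_mul_of_nonneg_left hm (sq_nonneg D.X)]

theorem abs_Bk (H : D.Ok τ0) {y s u : ℕ} (hy : y ∈ D.lo) (hs : D.J < s) (hu : u ≤ D.K) :
    |Bk D y s u| ≤ D.X ^ 2 * 4 + 8 * D.tl := by
  have h1 := (CD.mem_lo.1 hy).2
  have h2 := H.cut
  have h3 := lenB (D := D)
  have e1 : cat D.B.length y s u 0 1 = y := by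
    rw [cat, lf_ne _ _ (by decide)]
    simp only [Matrix.cons_val_zero, Matrix.cons_val_one]
    omega
  have e2 : cat D.B.length y s u 2 3 = u := by
    rw [cat, lf_ne _ _ (by decide)]
    simp only [Matrix.cons_val]
    omega
  have := crude H (σ := cat D.B.length y s u) (um_lf ⟨fun _ => rfl, fun _ _ => rfl,
    fun _ _ _ => min_le_left _ _⟩ _ _) (a := 0) (c := 1) (b := 0) (d := 1) (p := 2) (q := 3)
    (by decide) (by decide) (by decide) (e1.symm ▸ hy) (e1.symm ▸ hy) e2 hu (m := 4)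
    ((T157.Casc.pi2_mono wt_one90 D.B u (abs_Uc H hu) 0).trans_eq (pi2_const wt_one90 _ _ 4 0))
  simpa only [Bk, sq] using this

/-! ### weights -/

open Classical in
theorem wb_up {Θ : Type} [Fintype Θ] {L : List (Lv Θ)} {i j c : ℕ} {P : SM r → Prop}
    {A : (SM r → ℝ) → ℝ} (W : WB L i j c P A) (hL : Mono 0 L) {p q : Fin r} (hpq : p ≠ q) (V : ℕ)
    {T : Finset ℕ} (hT : ∀ t ∈ T, i < t) {G : ℕ → ℝ} (hG : ∀ t, 0 ≤ G t) :
    A (fun σ => if σ p q ∈ T ∧ Cl σ i V then G (σ p q) else 0) ≤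
      3 ^ c * (ex L i ^ (V - 1) * (∑ t ∈ T, dm L 0 t * G t + if j ∈ T then G j else 0)) := by
  have g0 : 0 ≤ if j ∈ T then G j else 0 := by split_ifs; exacts [hG j, le_rfl]
  have x0 := pow_nonneg (ex_nonneg hL i) (V - 1)
  refine (W.mono (ψ := fun σ => ∑ t ∈ T.erase j, G t * W90.ind i {t} V σ +
    (if j ∈ T then G j else 0) * W90.ind i ∅ V σ) fun σ _ => ?_).trans ?_
  · have n : ∀ t ∈ T.erase j, 0 ≤ G t * W90.ind i {t} V σ := fun t _ =>
      mul_nonneg (hG t) (ind_nonneg _ _ _ _)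
    have n2 := mul_nonneg g0 (ind_nonneg i ∅ V σ)
    by_cases h : σ p q ∈ T ∧ Cl σ i V
    · rw [if_pos h]
      by_cases e : σ p q = j
      · refine le_add_of_nonneg_of_le (Finset.sum_nonneg n) (le_of_eq ?_)
        rw [if_pos (e ▸ h.1), W90.ind, if_pos ⟨by simp, h.2⟩, mul_one, e]
      · refine le_add_of_le_of_nonneg (le_trans (le_of_eq ?_)
          (Finset.single_le_sum n (Finset.mem_erase.2 ⟨e, h.1⟩))) n2
        rw [W90.ind, if_pos ⟨fun v hv => ⟨p, q, hpq, (Finset.mem_singleton.1 hv).symm⟩, h.2⟩, mul_one]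
    · rw [if_neg h]
      exact add_nonneg (Finset.sum_nonneg n) n2
  · rw [W.add, W.sum, W.mul, mul_add, mul_add, Finset.mul_sum, Finset.mul_sum]
    refine add_le_add ((Finset.sum_le_sum fun t ht => ?_).trans
      (Finset.sum_le_sum_of_subset_of_nonneg (Finset.erase_subset j T) fun t _ _ =>
        mul_nonneg (by positivity) (mul_nonneg x0 (mul_nonneg (dm_nonneg hL t) (hG t))))) ?_
    · have h2 := hT t (Finset.mem_of_mem_erase ht)
      have h1 := W.ind {t} V fun e => Finset.ne_of_mem_erase ht (Finset.mem_singleton.1 e).symm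
      rw [Finset.filter_false_of_mem fun v hv => by rw [Finset.mem_singleton.1 hv]; omega,
        Finset.card_singleton, Finset.prod_singleton, Finset.card_empty, Nat.sub_zero] at h1
      rw [W.mul]
      refine (mul_le_mul_of_nonneg_left h1 (hG t)).trans (le_of_eq ?_)
      norm_num
      ring
    · have h1 := W.ind ∅ V (Finset.notMem_empty j)
      simp only [Finset.filter_empty, Finset.card_empty, Finset.prod_empty, Nat.cast_zero, add_zero,
        Nat.sub_zero, mul_one] at h1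
      refine (mul_le_mul_of_nonneg_left h1 g0).trans ?_
      rw [mul_comm, mul_assoc]
      exact mul_le_mul_of_nonneg_right (pow_le_pow_left₀ (by norm_num) (by norm_num) c)
        (mul_nonneg x0 g0)

theorem Jw_le (H : D.Ok τ0) {a : ℕ → ℝ} (h : D.Iw a ≤ D.E1) : Jw D a ≤ D.Err := by
  cases hD : D.W.isSome with
  | false => rw [Jw, CD.dd_val hD]; exact H.Err0
  | true => rw [Jw, CD.dd_test hD]; exact h.trans (H.E1_le hD)

theorem Jw_mul (c : ℝ) (a : ℕ → ℝ) : c * Jw D a = Jw D fun j => c * a j := by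
  unfold Jw CD.dd
  cases D.W with
  | none => exact mul_zero c
  | some ω => exact (D.Iw_mul c a).symm

open Classical in
/-- three clusters -/
def c3 (D : CD) (p q : Fin r) (σ : SM r) : ℝ :=
  if σ p q ∈ D.up ∧ Cl σ D.J 3 then D.X ^ 2 * D.g (σ p q) else 0

theorem w_c3 (H : D.Ok τ0) {p q : Fin (1 + k + 1)} (hpq : p ≠ q) :
    av D k (c3 D p q) ≤ 3 ^ (1 + k) * (2 * D.Err) := by
  have g0 : ∀ t, 0 ≤ D.X ^ 2 * D.g t := fun t => mul_nonneg (sq_nonneg _) (D.g0 t)
  have n0 := H.N10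
  refine (av_wb H (a := fun j => 3 ^ (1 + k) * (D.X ^ 4 * D.N1 +
    if j ∈ D.up then D.X ^ 4 * D.g j else 0)) fun j c P A hc W _ => ?_).trans ?_
  · refine (wb_up W H.mono hpq 3 (fun t ht => (CD.mem_up.1 ht).1) g0).trans ?_
    have g1 : 0 ≤ D.I (fun t => D.X ^ 2 * D.g t) + if j ∈ D.up then D.X ^ 2 * D.g j else 0 :=
      add_nonneg (H.I0 fun t _ => g0 t) (by split_ifs; exacts [g0 j, le_rfl])
    refine mul_le_mul (pow_le_pow_right₀ (by norm_num) hc) ((mul_le_mul_of_nonneg_right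
      (pow_le_pow_left₀ (H.ex0 _) H.x1 2) g1).trans_eq ?_)
      (mul_nonneg (pow_nonneg (H.ex0 _) _) g1) (by positivity)
    rw [D.I_mul, CD.N1]
    split_ifs <;> ring
  · have h1 := (mul_le_mul_of_nonneg_left H.XN1_le D.wt0).trans H.wtE0_le
    cases hD : D.W.isSome with
    | false =>
      rw [CD.dd_val hD, if_neg fun h => absurd (CD.mem_up.1 h).2 (by omega)]
      rw [CD.wt_val hD] at h1
      exact mul_le_mul_of_nonneg_left (by linarith [H.Err0]) (by positivity)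
    | true =>
      rw [CD.dd_test hD, D.Iw_mul, D.Iw_add, D.Iw_const, ← CD.wt_test hD]
      have h2 := (D.Iw_mono (a := fun j => if j ∈ D.up then D.X ^ 4 * D.g j else 0)
        fun j hj => (if_pos hj).le).trans (H.IwXg_le.trans (H.E1_le hD))
      exact mul_le_mul_of_nonneg_left (by linarith) (by positivity)

/-- a pair at the top level has no weight -/
theorem w_top (H : D.Ok τ0) {p q : Fin (1 + k + 1)} (hpq : p ≠ q) :
    av D k (fun σ => upF D (fun j => if j = D.K then 1 else 0) (σ p q)) ≤ 0 := by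
  refine (w_up H (fun j => by split_ifs <;> norm_num) hpq).trans (le_of_eq ?_)
  have h : ∀ j ∈ D.up, (if j = D.K then (1 : ℝ) else 0) = 0 := fun j hj =>
    if_neg (CD.mem_up.1 hj).2.ne
  have h1 : D.I (fun j => if j = D.K then (1 : ℝ) else 0) = 0 :=
    Finset.sum_eq_zero fun j hj => mul_eq_zero_of_right _ (h j hj)
  have h2 : D.Iw (fun j => if j = D.K then (1 : ℝ) else 0) = 0 :=
    Finset.sum_eq_zero fun j hj => mul_eq_zero_of_right _ (h j hj)
  rw [h1, Jw, h2]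
  unfold CD.dd
  cases D.W <;> simp

/-- the local second order terms -/
def G1 (D : CD) (t : ℕ) : ℝ := D.X ^ 2 * D.g t ^ 2 + D.X * D.v t t

theorem G10 (H : D.Ok τ0) (t : ℕ) : 0 ≤ G1 D t :=
  add_nonneg (by positivity) (mul_nonneg H.X0 (D.v0 t t))

theorem w_G1 (H : D.Ok τ0) {a c p q : Fin (1 + k + 1)} (hac : a ≠ c) (hpq : p ≠ q) :
    av D k (fun σ => lo1 D (σ a c) * upF D (G1 D) (σ p q)) ≤ Ck32.cw k * (4 * D.Err) := by
  refine (w_lo_up H (G10 H) hac hpq).trans (mul_le_mul_of_nonneg_left ?_ (cw_pos k).le)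
  have x0 := H.X0
  have h1 : D.X * D.I (G1 D) ≤ 2 * D.E0 := by
    have h2 := H.XN2_le
    have h3 := H.Lad0_le
    have h4 := H.Lad0_parts
    have h5 := H.I_mono (a := fun t => D.X * G1 D t)
      (b := fun t => D.X ^ 3 * D.g t ^ 2 + D.e t ^ 2 * D.v t t) fun t _ => by
        have := mul_le_mul_of_nonneg_right (pow_le_pow_left₀ x0 (H.eX t) 2) (D.v0 t t)
        unfold G1
        nlinarith
    rw [D.I_mul, D.I_add, D.I_mul] at h5
    rw [CD.Lad0] at h3
    rw [CD.N2] at h2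
    nlinarith [h4.1, h4.2.2, mul_nonneg (pow_nonneg x0 3) (sq_nonneg D.N1)]
  have h2 : D.X * Jw D (G1 D) ≤ 2 * D.Err := by
    have k1 := Jw_le H H.IwXg2_le
    have k2 := Jw_le H H.Lad1_le
    rw [Jw_mul]
    refine le_trans ?_ ((add_le_add k1 k2).trans_eq (two_mul _).symm)
    unfold Jw CD.dd
    cases D.W with
    | none => simp
    | some ω =>
      dsimp only
      rw [← D.Iw_add]
      refine D.Iw_mono fun t _ => ?_
      have := mul_le_mul_of_nonneg_right ((mul_le_of_le_one_left x0 H.X1).trans (H.eX t)) (D.v0 t t)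
      have := H.sv_low0 (Finset.Ico 1 t) t
      have := mul_nonneg (pow_nonneg x0 3) (mul_nonneg (D.g0 t) H.N10)
      unfold G1
      nlinarith
  nlinarith [mul_le_mul_of_nonneg_left h1 D.wt0, H.wtE0_le]

/-- all ladder terms of a low edge -/
def LL (D : CD) (k : ℕ) (a c : Fin (1 + k + 1)) (σ : SM (1 + k + 1)) : ℝ :=
  ∑ u, ∑ u', L90.lad D k a c u u' σ + mkd D k a c σ

theorem LL0 (H : D.Ok τ0) (a c : Fin (1 + k + 1)) (σ : SM (1 + k + 1)) : 0 ≤ LL D k a c σ :=
  add_nonneg (Finset.sum_nonneg fun u _ => Finset.sum_nonneg fun u' _ => L90.lad0 H a c u u' σ)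
    (L90.mkd0 a c σ)

theorem av_sum {α : Type} (φ : α → SM (1 + k + 1) → ℝ) (T : Finset α) :
    av D k (fun σ => ∑ u ∈ T, φ u σ) = ∑ u ∈ T, av D k (φ u) := by
  classical
  induction T using Finset.induction_on with
  | empty => simpa using av_mul (D := D) (k := k) 0 fun _ => 0
  | insert a T ha ih => simp only [Finset.sum_insert ha, av_add, ih]

theorem w_LL (H : D.Ok τ0) (hk : k ≤ 6) {a c : Fin (1 + k + 1)} (hac : a ≠ c) :
    av D k (LL D k a c) ≤ 65 * 4 ^ 7 * D.Err := by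
  have e0 := H.Err0
  have h2 : (4 : ℝ) ^ (1 + k) * D.Err ≤ 4 ^ 7 * D.Err :=
    mul_le_mul_of_nonneg_right (pow_le_pow_right₀ (by norm_num) (by omega)) e0
  have h3 : (3 : ℝ) ^ (1 + k) * D.Err ≤ 4 ^ (1 + k) * D.Err :=
    mul_le_mul_of_nonneg_right (pow_le_pow_left₀ (by norm_num) (by norm_num) _) e0
  have h4 : ((1 + k + 1 : ℕ) : ℝ) ≤ 8 := by exact_mod_cast (by omega)
  have h5 : av D k (fun σ => ∑ u, ∑ u', L90.lad D k a c u u' σ) ≤ 8 * (8 * (4 ^ 7 * D.Err)) := by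
    rw [av_sum]
    refine (Finset.sum_le_card_nsmul _ _ (8 * (4 ^ 7 * D.Err)) fun u _ => ?_).trans ?_
    · rw [av_sum]
      refine (Finset.sum_le_card_nsmul _ _ (4 ^ 7 * D.Err) fun u' _ =>
        (w_lad H hac u u').trans h2).trans ?_
      rw [Finset.card_univ, Fintype.card_fin, nsmul_eq_mul]
      exact mul_le_mul_of_nonneg_right h4 (by positivity)
    · rw [Finset.card_univ, Fintype.card_fin, nsmul_eq_mul]
      exact mul_le_mul_of_nonneg_right h4 (by positivity)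
  have h6 := w_mkd H hac
  unfold LL
  rw [av_add]
  linarith

section pw
variable (H : D.Ok τ0) {σ : SM (1 + k + 1)} (hσ : Sup D k σ)
include H hσ

theorem lm_le {a c u u' : Fin (1 + k + 1)} (h1 : σ a c ∈ D.lo) (hu : u ≠ u') (hJ : D.J < σ u u')
    {g C : ℝ} (C0 : 0 ≤ C) (g1 : g ≤ C) (g2 : σ u u' ≠ mj D k σ → σ u u' < D.K → g ≤ C * D.e (σ u u')) :
    D.v (σ a c) (σ u u') * g ≤ C * LL D k a c σ := by
  have hK : σ u u' ≤ D.K := lenB (D := D) ▸ hσ.1.le _ _
  have v0 := D.v0 (σ a c) (σ u u')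
  have n := fun u u' => L90.lad0 H a c u u' σ
  by_cases hj : σ u u' = mj D k σ
  · rw [mul_comm]
    refine mul_le_mul g1 (le_add_of_nonneg_of_le (Finset.sum_nonneg fun u _ =>
      Finset.sum_nonneg fun u' _ => n u u') ?_) v0 C0
    rw [mkd, if_pos ⟨h1, hj ▸ hK⟩, hj]
  · have e1 : gl D (σ u u') * D.v (σ a c) (σ u u') ≤ LL D k a c σ := by
      refine le_add_of_le_of_nonneg (le_trans (le_trans (le_of_eq ?_)
        (Finset.single_le_sum (fun u' _ => n u u') (Finset.mem_univ u')))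
        (Finset.single_le_sum (f := fun u => ∑ u', L90.lad D k a c u u' σ)
          (fun u _ => Finset.sum_nonneg fun u' _ => n u u') (Finset.mem_univ u))) (L90.mkd0 a c σ)
      rw [L90.lad, if_neg hu, if_pos ⟨h1, Finset.mem_Ioc.2 ⟨hJ, hK⟩, hj⟩]
    refine le_trans ?_ (mul_le_mul_of_nonneg_left e1 C0)
    rw [← mul_assoc, mul_comm]
    refine mul_le_mul_of_nonneg_right ?_ v0
    unfold gl
    split_ifs with h
    exacts [g2 hj h, g1.trans_eq (mul_one C).symm]

variable {A : EL (1 + k + 1)} {e e' : Fin (1 + k + 1) × Fin (1 + k + 1)}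
  {a b c d p q : Fin (1 + k + 1)}

theorem len4 (hA : A.Perm (e :: e' :: (p, q) :: mA D k)) : (2 : ℝ) ^ A.length ≤ 16 := by
  have := mA_length (D := D) k
  refine (pow_le_pow_right₀ one_le_two (?_ : _ ≤ 4)).trans (by norm_num)
  rw [hA.length_eq]
  simp only [List.length_cons]
  omega

/-- parity at the split of two legs -/
theorem par2 (hA : A.Perm (e :: e' :: (p, q) :: mA D k))
    (hp : ∀ o t, Site94.Crs σ o t e.1 e.2 ↔ Site94.Crs σ o t a c)
    (hp' : ∀ o t, Site94.Crs σ o t e'.1 e'.2 ↔ Site94.Crs σ o t b d)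
    (l1 : σ e.1 e.2 ≤ D.J) (l2 : σ e'.1 e'.2 ≤ D.J) (h1 : σ a c ≤ D.J) (h2 : D.J < σ a b)
    (h3 : D.J < σ c d) (f1 : ¬Site94.Crs σ a (σ a b) p q) (f2 : ¬Site94.Crs σ b (σ a b) p q)
    (hj : σ a b ≠ mj D k σ) (hK : σ a b < D.K) :
    |Ck32.TS D σ (se D A σ)| ≤ 16 * Site94.cP (1 + k + 1) 2 * D.e (σ a b) := by
  have u : ∀ a x y, min (σ a x) (σ a y) ≤ σ x y := fun a x y => hσ.1.comm x a ▸ hσ.1.ultra x a y
  have hg : min 1 (D.sig (σ a b)) ≤ D.e (σ a b) := (min_le_min le_rfl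
    (le_add_of_nonneg_left (H.ex0 _))).trans (H.esc _ (CD.mem_up.2 ⟨h2, hK⟩))
  have s1 := hσ.1.self a; have s2 := hσ.1.self b; have s3 := hσ.1.comm b a
  have s4 := u d a c; have s5 := hσ.1.comm d a; have s6 := hσ.1.comm d c
  have s7 := u b a c; have s8 := u b a d; have s9 := lenB (D := D)
  rw [mul_assoc]
  refine le_trans ?_ (mul_le_mul_of_nonneg_right (len4 H hσ hA)
    (mul_nonneg (Site94.cP_nonneg _ _) (H.e0 _)))
  by_cases hm : ∀ w ∈ mA D k, ¬Site94.Crs σ a (σ a b) w.1 w.2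
  · refine TS_par H hσ.1 hA l1 hK.le (o := a) ((hp _ _).2 ?_) (List.forall_mem_cons.2
      ⟨fun h => absurd ((hp' _ _).1 h) ?_, List.forall_mem_cons.2 ⟨f1, hm⟩⟩) hg <;>
      unfold Site94.Crs <;> omega
  · refine TS_par H hσ.1 (hA.trans (.swap _ _ _)) l2 hK.le (o := b) ((hp' _ _).2 ?_)
      (List.forall_mem_cons.2 ⟨fun h => absurd ((hp _ _).1 h) ?_, List.forall_mem_cons.2
        ⟨f2, fun w hw hc => hm fun w' hw' hc' => ?_⟩⟩) hg
    · unfold Site94.Crs; omega
    · unfold Site94.Crs; omega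
    · obtain ⟨rfl, m1, -⟩ := mem_mA hσ hw
      obtain ⟨rfl, -, -⟩ := mem_mA hσ hw'
      set p := (Ck32.mk k).1
      set q := (Ck32.mk k).2
      have := u p a b; have := u q a b; have := hσ.1.comm p a; have := hσ.1.comm p b
      have := hσ.1.comm q a; have := hσ.1.comm q b; have := u a p q; have := u b p q
      have := u p a q; have := u q a p; have := u p b q; have := u q b p
      have := u a b p; have := u a b q; have := u b a p; have := u b a q
      have := hσ.1.comm q p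
      unfold Site94.Crs at hc hc'
      omega

/-- the errors of the bulk factor against the site factor -/
theorem core (hA : A.Perm (e :: e' :: (p, q) :: mA D k))
    (hp : ∀ o t, Site94.Crs σ o t e.1 e.2 ↔ Site94.Crs σ o t a c)
    (hp' : ∀ o t, Site94.Crs σ o t e'.1 e'.2 ↔ Site94.Crs σ o t b d)
    (l1 : σ e.1 e.2 ∈ D.lo) (l2 : σ e'.1 e'.2 ≤ D.J) (h1 : σ a c ≤ D.J) (h2 : D.J < σ a b)
    (h3 : D.J < σ c d) (h4 : D.J < σ c p) (hpq : p ≠ q) (hu : σ p q ∈ D.up) :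
    ((if a = b then 0 else D.v (σ e.1 e.2) (σ a b) + D.X ^ 2 * D.g (σ p q) ^ 2) +
        (if c = d then 0 else if σ p q ≤ σ c d then mm D (σ p q) * D.v (σ e.1 e.2) (σ c d)
          else D.v (σ e.1 e.2) (σ c d) + D.X ^ 2 * D.g (σ p q) ^ 2) +
        D.X * (D.v (σ e.1 e.2) (σ p q) + D.v (σ p q) (σ p q)) + D.tl) * |Ck32.TS D σ (se D A σ)| ≤
      16 * Site94.cP (1 + k + 1) 2 * (3 * LL D k e.1 e.2 σ + 2 * G1 D (σ p q) + D.tl) := by
  have u : ∀ a x y, min (σ a x) (σ a y) ≤ σ x y := fun a x y => hσ.1.comm x a ▸ hσ.1.ultra x a y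
  have sy : ∀ x y o t, Site94.Crs σ o t x y ↔ Site94.Crs σ o t y x := fun _ _ _ _ =>
    not_congr Iff.comm
  have c1 := Site94.one_le_cP a 2
  have u1 := (CD.mem_up.1 hu).1
  have l3 := (CD.mem_lo.1 l1).2
  set S := |Ck32.TS D σ (se D A σ)| with hS
  set C := 16 * Site94.cP (1 + k + 1) 2 with hC
  have S0 : 0 ≤ S := abs_nonneg _
  have SC : S ≤ C := ((site_le H hσ.1 A).trans (len4 H hσ hA)).trans (by linarith)
  have C0 := S0.trans SC
  have L0 := mul_nonneg C0 (LL0 H e.1 e.2 σ)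
  have x0 := H.X0
  have g0 : 0 ≤ D.X ^ 2 * D.g (σ p q) ^ 2 := by positivity
  have g1 := mul_le_mul_of_nonneg_left SC g0
  have g2 := mul_nonneg g0 C0
  have k1 : (if a = b then 0 else D.v (σ e.1 e.2) (σ a b) + D.X ^ 2 * D.g (σ p q) ^ 2) * S ≤
      C * LL D k e.1 e.2 σ + D.X ^ 2 * D.g (σ p q) ^ 2 * C := by
    split_ifs with h
    · linarith
    have := u c p q; have := u p a c; have := u q a c; have := u p b a; have := u q b a
    have := hσ.1.comm p a; have := hσ.1.comm p c; have := hσ.1.comm q a; have := hσ.1.comm q c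
    have := hσ.1.comm p b; have := hσ.1.comm q b; have := u p c q; have := u b a p
    have := u b a q; have := hσ.1.comm b a
    have := lm_le H hσ l1 h h2 C0 SC (par2 H hσ hA hp hp' l3 l2 h1 h2 h3
      (by unfold Site94.Crs; omega) (by unfold Site94.Crs; omega))
    linarith
  have k2 : (if c = d then 0 else if σ p q ≤ σ c d then mm D (σ p q) * D.v (σ e.1 e.2) (σ c d)
      else D.v (σ e.1 e.2) (σ c d) + D.X ^ 2 * D.g (σ p q) ^ 2) * S ≤
      C * LL D k e.1 e.2 σ + D.X ^ 2 * D.g (σ p q) ^ 2 * C := by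
    split_ifs with h h'
    · linarith
    · have m0 : 0 ≤ mm D (σ p q) := le_min zero_le_one (H.e0 _)
      have := lm_le H hσ l1 h h3 C0 (g := S * mm D (σ p q))
        ((mul_le_of_le_one_right S0 (min_le_left _ _)).trans SC) fun _ _ =>
          mul_le_mul SC ((min_le_right _ _).trans (H.e_mono h')) m0 C0
      linarith
    · have := lm_le H hσ l1 h h3 C0 SC (par2 H hσ hA (fun o t => (hp o t).trans (sy _ _ _ _))
        (fun o t => (hp' o t).trans (sy _ _ _ _)) l3 l2 (hσ.1.comm _ _ ▸ h1) h3 h2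
        (fun hc => h' (hc.le hσ.1)) fun hc => h' (hc.le hσ.1))
      linarith
  have k3 := lm_le H hσ l1 hpq u1 C0 (g := S * D.X) ((mul_le_of_le_one_right S0 H.X1).trans SC)
    fun _ _ => mul_le_mul SC (H.eX _) x0 C0
  have k4 := mul_le_mul_of_nonneg_left SC (mul_nonneg x0 (D.v0 (σ p q) (σ p q)))
  have k5 := mul_le_mul_of_nonneg_left SC H.tl0
  have k6 := mul_nonneg (mul_nonneg x0 (D.v0 (σ p q) (σ p q))) C0
  unfold G1
  linarith

end pw

theorem pL_lo (H : D.Ok τ0) {j : ℕ} (hj : j ≤ D.J) (x y : Cube D.n) :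
    (pL D).1 j x y = D.τ j / 2 * ov x y := by
  simp only [lt, cut, CD.cl, decide_eq_true hj, if_true, oUb, oU, H.qlo _ hj, sub_zero]

theorem pL_off {j : ℕ} (hj : j ∉ D.lo) (x y : Cube D.n) : (pL D).1 j x y = 0 := by
  simp only [lt, cut, CD.cl, decide_eq_true_eq]
  split_ifs with h
  · obtain rfl : j = 0 := by rw [CD.mem_lo] at hj; omega
    rw [oUb_zero]; rfl
  · rfl

theorem FF_eq (H : D.Ok τ0) {a c b d p q : Fin (1 + k + 1)} {σ : SM (1 + k + 1)}
    (h1 : σ a c ≤ D.J) (h2 : σ b d ≤ D.J) (h3 : D.J < σ p q) :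
    FF D k a c b d p q σ = D.τ (σ a c) * D.τ (σ b d) * D.τ (σ p q) / 8 *
      (TB D σ (fun x => ov (x a) (x c) * ov (x b) (x d) * Uc D (σ p q) (x p) (x q)) *
        Ck32.TS D σ (se D (sA D k a c b d p q) σ)) := by
  rw [FF, ← mul_assoc, TB, TB, ← TM_mul]
  refine congrArg (fun F => TM _ _ _ σ F * _) (funext fun x => ?_)
  rw [pL_lo H h1, pL_lo H h2]
  simp only [phC, off, h3, Finset.notMem_empty, not_false_eq_true, and_self, if_true]
  ring

theorem FF_zero {a c b d p q : Fin (1 + k + 1)} {σ : SM (1 + k + 1)} (hσ : Rz D.B.length σ)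
    (h : ¬(σ a c ∈ D.lo ∧ σ b d ∈ D.lo ∧ D.J < σ p q)) : FF D k a c b d p q σ = 0 := by
  refine mul_eq_zero_of_left ((congrArg (TB D σ) (funext fun x => ?_)).trans
    (TM_const wt_one90 hσ 0)) _
  by_cases h1 : σ a c ∈ D.lo
  · by_cases h2 : σ b d ∈ D.lo
    · have h3 : ¬D.J < σ p q := fun h3 => h ⟨h1, h2, h3⟩
      simp only [phC, off, h3, false_and, if_false, zero_mul, mul_zero]
    · rw [pL_off h2, mul_zero, zero_mul]
  · rw [pL_off h1, zero_mul, zero_mul]

theorem tau3 (H : D.Ok τ0) (i j l : ℕ) : |D.τ i * D.τ j * D.τ l / 8| ≤ τ0 ^ 3 := by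
  obtain ⟨a1, a2⟩ := H.tau_mem i
  obtain ⟨b1, b2⟩ := H.tau_mem j
  obtain ⟨c1, c2⟩ := H.tau_mem l
  have t0 := H.tau0
  rw [abs_of_nonneg (by positivity)]
  have : D.τ i * D.τ j * D.τ l ≤ τ0 * τ0 * τ0 := by gcongr
  nlinarith [pow_nonneg t0 3]

end Crest.Agent.T156.Cas.C40.Mx84.Rd90

namespace Crest.Agent.T156.Cas.C40.Mx84

open Crest.Agent.T157.E Crest.Agent.T157.Casc Crest.Agent.T157.SL
open Crest.Agent.T157.G1 (ov)
open Mul55 G90 Nu87 R90 W90 Ck32 Ker15 Mx23 Rd90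
open Cw55 (Uc)

/-- **reduction to the canonical form** -/
theorem redS_of (hB : BkS) : RedS := fun τ0 => by
  obtain ⟨CB, B0, hB⟩ := hB
  obtain ⟨CS, S0, hS⟩ := smS
  set C : ℝ := (CB + 1) * (16 * Site94.cP 8 2) + 8 * CS + 128 with hC
  have c0 := Site94.cP_nonneg 8 2
  have C0 : 0 ≤ C := by positivity
  refine ⟨|τ0| ^ 3 * C * (3 * (65 * 4 ^ 7) + 9 * Ck32.cw 6 + 2 * 3 ^ 7 + 1),
    by have := cw_pos 6; positivity, fun D H k hk a c b d p q hac hbd hpq => ?_⟩
  have t0 := H.tau0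
  have e0 := H.Err0
  have x0 := H.X0
  have l0 := H.tl0
  rw [abs_of_nonneg t0]
  refine ⟨fun σ => τ0 ^ 3 * C * (3 * LL D k a c σ + 2 * (lo1 D (σ a c) * upF D (G1 D) (σ p q)) +
    D.X ^ 5 * lo1 D (σ a c) + c3 D p q σ + upF D (fun j => if j = D.K then 1 else 0) (σ p q) +
    D.tl), ?_, fun σ hσ => ?_⟩
  · simp only [av_mul, av_add, w_const H]
    rw [mul_assoc _ _ D.Err]
    refine mul_le_mul_of_nonneg_left ?_ (by positivity)
    have h1 := mul_le_mul_of_nonneg_right (cw_mono hk) e0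
    have h2 : (3 : ℝ) ^ (1 + k) * D.Err ≤ 3 ^ 7 * D.Err :=
      mul_le_mul_of_nonneg_right (pow_le_pow_right₀ (by norm_num) (by omega)) e0
    have h3 := (mul_le_mul_of_nonneg_left H.tl_le D.wt0).trans H.wtE0_le
    have h4 := mul_le_mul_of_nonneg_left ((mul_le_mul_of_nonneg_left H.X6_le D.wt0).trans H.wtE0_le)
      (cw_pos k).le
    have h5 := mul_le_mul_of_nonneg_left (w_lo H hac) (pow_nonneg x0 5)
    linarith [w_LL H hk hac, w_G1 H hac hpq, w_c3 H hpq, w_top H hpq]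
  have n1 := LL0 H a c σ
  have n2 := mul_nonneg (lo1_nonneg (D := D) (σ a c)) (upF_nonneg (D := D) (G10 H) (σ p q))
  have n3 := mul_nonneg (pow_nonneg x0 5) (lo1_nonneg (D := D) (σ a c))
  have n4 : 0 ≤ c3 D p q σ := by
    unfold c3; split_ifs; exacts [mul_nonneg (sq_nonneg _) (D.g0 _), le_rfl]
  have n5 := upF_nonneg (D := D) (G := fun j => if j = D.K then (1 : ℝ) else 0)
    (fun j => by split_ifs <;> norm_num) (σ p q)
  have u : ∀ a x y, min (σ a x) (σ a y) ≤ σ x y := fun a x y => hσ.1.comm x a ▸ hσ.1.ultra x a y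
  have hJ := L90.cutB H
  have two : ¬Cl σ D.J 3 → σ a c ≤ D.J → ∀ x, D.J < σ a x ∨ D.J < σ c x := fun h h1 x => by
    by_contra h2
    have := hσ.1.self a; have := hσ.1.self c
    exact h (cl_three (c := x) hσ.1 hac (fun e => by rw [← e] at h2; omega)
      (fun e => by rw [← e] at h2; omega) h1 (by omega) (by omega))
  have hA : (sA D k a c b d p q).Perm ((a, c) :: (b, d) :: (p, q) :: L90.mA D k) :=
    List.perm_append_comm
  have hK : σ p q ≤ D.K := lenB (D := D) ▸ hσ.1.le _ _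
  by_cases h : σ a c ∈ D.lo ∧ σ b d ∈ D.lo ∧ D.J < σ p q
  swap
  · rw [FF_zero hσ.1 h, FC, if_neg, sub_zero, abs_zero]
    · positivity
    · refine fun ⟨g1, g2, g3, g4⟩ => h ⟨g2, ?_, (CD.mem_up.1 g4).1⟩
      have := CD.mem_lo.1 g2
      have := two g1 this.2 b; have := two g1 (CD.mem_lo.1 g2).2 d
      have := u a b d; have := u c b d; have := u a b c; have := u a d c; have := u c b a
      have := u c d a; have := hσ.1.comm b c; have := hσ.1.comm d c; have := hσ.1.comm b a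
      have := hσ.1.comm d a; have := hσ.1.comm c a
      rw [CD.mem_lo]
      omega
  obtain ⟨h1, h2, h3⟩ := h
  have l1 := (CD.mem_lo.1 h1).2
  have l2 := (CD.mem_lo.1 h2).2
  have S16 := (site_le H hσ.1 _).trans (len4 H hσ hA)
  have C128 : 128 ≤ C := le_add_of_nonneg_left (by positivity)
  beta_reduce
  rw [FF_eq H l1 l2 h3, mul_assoc (τ0 ^ 3)]
  by_cases g : Cl σ D.J 3 ∨ σ p q = D.K
  · rw [FC, if_neg fun ⟨g1, _, _, g4⟩ => g.elim g1 (CD.mem_up.1 g4).2.ne, sub_zero]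
    refine SF97.amul (tau3 H _ _ _) ?_
    rw [L90.TB_eq hσ.1]
    rcases hK.lt_or_eq with hK' | hK'
    · have k1 := SF97.amul (crude H (um_rz hσ.1) hac hbd hpq h1 h2 rfl hK (E2_Uc D _)) S16
      have k2 : c3 D p q σ = _ := if_pos ⟨CD.mem_up.2 ⟨h3, hK'⟩, g.resolve_right hK'.ne⟩
      refine k1.trans (le_trans ?_ (mul_le_mul_of_nonneg_right C128 (by positivity)))
      linarith
    · have k1 := SF97.amul (crude H (um_rz hσ.1) hac hbd hpq h1 h2 rfl hK (m := 4)
        ((T157.Casc.pi2_mono wt_one90 D.B _ (abs_Uc H hK) 0).trans_eq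
          (pi2_const wt_one90 _ _ 4 0))) S16
      refine k1.trans (le_trans ?_ (mul_le_mul_of_nonneg_right C128 (by positivity)))
      rw [upF, upF, if_pos h3, if_pos h3, if_pos hK']
      rw [upF, if_pos h3] at n2
      linarith [pow_le_one₀ x0 H.X1 (n := 2)]
  obtain ⟨g1, g2⟩ := not_or.1 g
  have hu : σ p q ∈ D.up := CD.mem_up.2 ⟨h3, hK.lt_of_ne g2⟩
  have t1 := two g1 l1 b; have t2 := two g1 l1 d; have t3 := two g1 l1 p
  have := u a b d; have := u c b d; have := u a b c; have := u a d c; have := u c b a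
  have := u c d a; have s1 := hσ.1.comm b c; have s2 := hσ.1.comm d c; have := hσ.1.comm b a
  have := hσ.1.comm d a; have s3 := hσ.1.comm c a; have := u b a d; have := u b c d
  have := u d a b; have := u d c b; have s4 := hσ.1.comm d b; have := u p a c
  have := hσ.1.comm p a; have := hσ.1.comm p c; have := u b a c; have := u d a c
  have e1 : σ b d = σ a c := by omega
  have sy : ∀ x y o t, Site94.Crs σ o t x y ↔ Site94.Crs σ o t y x := fun _ _ _ _ =>
    not_congr Iff.comm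
  have key : |TB D σ (fun x => ov (x a) (x c) * ov (x b) (x d) * Uc D (σ p q) (x p) (x q)) -
      Bk D (σ a c) (max (σ a p) (σ c p)) (σ p q)| * |Ck32.TS D σ (se D (sA D k a c b d p q) σ)| ≤
      CB * (16 * Site94.cP (1 + k + 1) 2 * (3 * LL D k a c σ + 2 * G1 D (σ p q) + D.tl)) := by
    have fin : ∀ a' b' c' d' : Fin (1 + k + 1), σ a' c' = σ a c → D.J < σ a' b' → D.J < σ c' d' →
        D.J < σ c' p → max (σ a p) (σ c p) = σ c' p →
        (∀ o t, Site94.Crs σ o t a c ↔ Site94.Crs σ o t a' c') →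
        (∀ o t, Site94.Crs σ o t b d ↔ Site94.Crs σ o t b' d') →
        (∀ x : Fin (1 + k + 1) → Cube D.n, ov (x a) (x c) = ov (x a') (x c')) →
        (∀ x : Fin (1 + k + 1) → Cube D.n, ov (x b) (x d) = ov (x b') (x d')) → _ :=
      fun a' b' c' d' f1 f2 f3 f4 f5 f6 f7 f8 f9 => by
        have k1 := hB τ0 D H _ σ hσ.1 a' b' c' d' p q _ _ f1 h1 f2 f3 f4 hpq rfl hu
        simp only [← f5, ← f8, ← f9] at k1
        exact (mul_le_mul_of_nonneg_right k1 (abs_nonneg _)).trans ((mul_assoc _ _ _).trans_le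
          (mul_le_mul_of_nonneg_left (core H hσ hA f6 f7 h1 l2 (f1.trans_le l1) f2 f3 f4 hpq hu) B0))
    rcases t1 with t1 | t1 <;> rcases t3 with t3 | t3
    · exact fin c d a b s3 (by omega) t1 t3 (by omega) (sy _ _) (sy _ _)
        (fun _ => T157.G1.ov_comm _ _) fun _ => T157.G1.ov_comm _ _
    · exact fin a b c d rfl t1 (by omega) t3 (by omega) (fun _ _ => .rfl) (fun _ _ => .rfl)
        (fun _ => rfl) fun _ => rfl
    · exact fin c b a d s3 t1 (by omega) t3 (by omega) (sy _ _) (fun _ _ => .rfl)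
        (fun _ => T157.G1.ov_comm _ _) fun _ => rfl
    · exact fin a d c b rfl (by omega) t1 t3 (by omega) (fun _ _ => .rfl) (sy _ _)
        (fun _ => rfl) fun _ => T157.G1.ov_comm _ _
  have k2 := SF97.amul (abs_Bk H h1 (s := max (σ a p) (σ c p)) (by omega) hK)
    (hS τ0 D H _ (by omega) σ hσ.1 (sA D k a c b d p q) (by
      have := L90.mA_length (D := D) k
      rw [hA.length_eq]; simp only [List.length_cons]; omega))
  rw [FC, if_pos ⟨g1, h1, l2, hu⟩, e1]
  set T := TB D σ fun x => ov (x a) (x c) * ov (x b) (x d) * Uc D (σ p q) (x p) (x q)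
  set B := Bk D (σ a c) (max (σ a p) (σ c p)) (σ p q)
  set S := Ck32.TS D σ (se D (sA D k a c b d p q) σ)
  set S' := Ck32.TS D (sety D.J σ) (se D (sA D k a c b d p q) (sety D.J σ))
  rw [show D.τ (σ a c) * D.τ (σ a c) * D.τ (σ p q) / 8 * (T * S) -
      D.τ (σ a c) ^ 2 * B * (D.τ (σ p q) / 8 * S') =
      D.τ (σ a c) * D.τ (σ a c) * D.τ (σ p q) / 8 * ((T - B) * S + B * (S - S')) by ring]
  refine SF97.amul (tau3 H _ _ _) ((abs_add_le _ _).trans ?_)
  rw [← abs_mul] at key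
  have k3 : Site94.cP (1 + k + 1) 2 ≤ Site94.cP 8 2 := by
    have : ((1 + k + 1 : ℕ) : ℝ) ≤ (8 : ℕ) := by exact_mod_cast (by omega)
    unfold Site94.cP
    gcongr
  have g0 := G10 H (σ p q)
  have k4 : CB * (16 * Site94.cP (1 + k + 1) 2 * (3 * LL D k a c σ + 2 * G1 D (σ p q) + D.tl)) ≤
      CB * (16 * Site94.cP 8 2 * (3 * LL D k a c σ + 2 * G1 D (σ p q) + D.tl)) := by gcongr
  have k5 : (D.X ^ 2 * 4 + 8 * D.tl) * (CS * D.X ^ 3) ≤ 8 * CS * (D.X ^ 5 + D.tl) := by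
    nlinarith [mul_nonneg S0 (pow_nonneg x0 5),
      mul_le_mul_of_nonneg_left (pow_le_one₀ x0 H.X1 (n := 3)) (mul_nonneg S0 l0)]
  rw [lo1, if_pos l1, upF, if_pos h3, one_mul, mul_one]
  set Y := upF D (fun j => if j = D.K then (1 : ℝ) else 0) (σ p q)
  have x5 := pow_nonneg x0 5
  have p1 : 0 ≤ CB * (16 * Site94.cP 8 2) * (D.X ^ 5 + c3 D p q σ + Y) := by positivity
  have p2 : 0 ≤ 8 * CS * (3 * LL D k a c σ + 2 * G1 D (σ p q) + c3 D p q σ + Y) := by positivity
  have p3 : 0 ≤ (16 * Site94.cP 8 2 + 128) * (3 * LL D k a c σ + 2 * G1 D (σ p q) + D.X ^ 5 +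
    c3 D p q σ + Y + D.tl) := by positivity
  rw [hC]
  linarith

end Crest.Agent.T156.Cas.C40.Mx84

end
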