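import Crest.Agent.T156.CMxE_84
import Crest.Agent.T156.CStA_54
import Crest.Agent.T156.SFReg_97

/-!
# Row 156, block C: the site factor of the centred mixed word (helper22)
-/

set_option autoImplicit false
set_option linter.all false

noncomputable section

namespace Crest.Agent.T156.Cas.C40.Mx84

open MeasureTheory Real Set Filter Topology
open Crest.Agent.T157.E Crest.Agent.T157.Casc Crest.Agent.T157.SL
open Mul55 G90 Nu87 Ck32 OneP

namespace S22

variable {D : CD} {τ0 : ℝ} {r : ℕ}

theorem abs_se (H : D.Ok τ0) {σ : SM r} (hσ : ∀ a b, σ a b ≤ D.K) (x : Fin r → Bool) :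
    ∀ A : EL r, |se D A σ x| ≤ 2 ^ A.length
  | [] => by simp [se]
  | e :: A => by
      have := abs_se H hσ x A
      rw [se, List.map_cons, List.prod_cons, abs_mul, List.length_cons, pow_succ']
      exact mul_le_mul (abs_oE_le H.ook (hσ _ _) _ _) this (abs_nonneg _) zero_le_two

theorem pow_len {A : EL r} (hA : A.length ≤ 4) : (2 : ℝ) ^ A.length ≤ 16 :=
  (pow_le_pow_right₀ one_le_two hA).trans_eq (by norm_num)

theorem se_sety (H : D.Ok τ0) (A : EL r) (σ : SM r) : se D A (sety D.J σ) = se D A σ := by
  funext x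
  refine congrArg List.prod (List.map_congr_left fun e _ => ?_)
  simp only [oE, sety]
  split_ifs with h
  · rw [H.qlo _ le_rfl, H.qlo _ h]
  · rfl

/-- all splits below `i` are moved to `i` -/
theorem um_max {K i : ℕ} {σ : SM r} (h : Ker15.Um K σ) (hi : i ≤ K) :
    Ker15.Um K fun a b => max (σ a b) i :=
  ⟨fun a => by rw [h.self]; omega, fun a b => by rw [h.comm a b], fun a b c => by
    have := h.ultra a b c
    omega⟩

/-- moving the low splits up to `i` costs the clock -/
theorem mv_max (H : D.Ok τ0) (hr : r ≤ 8) {σ : SM r} (hσ : Rz D.B.length σ)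
    {F : (Fin r → Bool) → ℝ} {b : ℝ} (hF : ∀ x, |F x| ≤ b) : ∀ i ≤ D.K,
    |Ck32.TS D σ F - Ck32.TS D (fun a c => max (σ a c) i) F| ≤ 128 * (b * (D.sig i - D.sig 0))
  | 0, _ => by simp
  | i + 1, hi => by
      have l : D.S.length = D.K := opS_length
      have u : Ker15.Um D.S.length σ := SF97.um_of_rz (lenS (D := D) ▸ hσ)
      have h1 := mv_max H hr hσ hF i (by omega)
      have h2 := SF97.mvF (Cw55.r1_S H.ook) (Cw55.monoS H.mono) (N := 8) (by norm_num) hr
        (by omega : i < D.S.length) (um_max u (i := i) (by omega))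
        (um_max u (i := i + 1) (by omega)) (fun a c => by beta_reduce; omega) 0 hF
      rw [SF97.vv, Cw55.tm_S H.ook hi, Cw55.tm_S H.ook (by omega), abs_sub_comm] at h2
      refine (abs_sub_le _ _ _).trans ((add_le_add h1 h2).trans_eq ?_)
      push_cast
      ring

end S22

open S22

/-- **parity above an upper cut** -/
theorem spS : SpS := by
  have c0 := StA54.cE_nonneg 8
  refine ⟨16 * (StA54.cE 8 + 1), by positivity, fun τ0 D H r hr σ hσ A hA o t ht h => ?_⟩
  have e0 := H.e0 t
  rw [mm]
  rcases le_total 1 (D.e t) with x | x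
  · rw [min_eq_left x]
    linarith [(site_le H hσ A).trans (pow_len hA)]
  · rw [min_eq_right x]
    refine (StA54.site_e H hσ o ht h).trans (mul_le_mul_of_nonneg_right ?_ e0)
    exact mul_le_mul (pow_len hA) (by linarith [StA54.cE_mono hr]) (StA54.cE_nonneg r)
      (by norm_num)

/-- **the site factor does not see the low splits** -/
theorem smS : SmS := ⟨128 * 16, by norm_num, fun τ0 D H r hr σ hσ A hA => by
  have e : sety D.J σ = fun a c => max (σ a c) D.J := by
    funext a c
    simp only [sety]
    split_ifs <;> omega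
  rw [se_sety H, e]
  refine (mv_max H hr hσ (fun x => (abs_se H (fun a b => (hσ.le a b).trans_eq lenB) x A).trans
    (pow_len hA)) _ H.cut.le).trans ?_
  have h1 := H.sig0 (Nat.zero_le D.K)
  have h2 := H.h1
  rw [CD.sig, H.qlo _ le_rfl]
  linarith⟩

end Crest.Agent.T156.Cas.C40.Mx84

end
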