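import Crest.Agent.T156.CMxU_14
import Crest.Agent.T156.CLad_90
import Crest.Agent.T156.CY4B_89
import Crest.Agent.T156.CYh_14

/-!
# Row 156, block C (helper14): the mean part of the mixed word, test direction
-/

set_option autoImplicit false
set_option linter.all false

noncomputable section

namespace Crest.Agent.T156.Cas.C40.Mt14

open MeasureTheory Real Set Filter Topology
open Crest.Agent.T157.E Crest.Agent.T157.Casc Crest.Agent.T157.SL
open Crest.Agent.T157.G1 (ov)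
open Crest.ProbabilityR.SpinGlassDynamics (spin)
open Wt87 (shr_emb shr_nw shr_self shr_comm shr_le shr_two fst_two card_graft)
open Leg51 Low51 Lsg89 L90 One15 Mul55 Mx14
open Y89 (LE_pq LWm LWm_leg Lc_pair two_sub)
open Y4 (RR ZZ RR_lo RR_hi ZZ_lo cutS tiltB monoS abs_ZZ LWm_swap abs_prE_le exists_drop
  node_xs cB_zero ov_symm)
open Mx23 (pL pM MxM)

/-! ### second derivatives -/

/-- second derivative at `0` -/
def D2 (F : ℝ → ℝ) (v : ℝ) : Prop := (∀ y, HasDerivAt F (deriv F y) y) ∧ HasDerivAt (deriv F) v 0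

theorem D2.mk' {F : ℝ → ℝ} {v : ℝ} (G : ℝ → ℝ) (h1 : ∀ y, HasDerivAt F (G y) y)
    (h2 : HasDerivAt G v 0) : D2 F v := by
  obtain rfl : G = deriv F := funext fun y => (h1 y).deriv.symm
  exact ⟨h1, h2⟩

theorem D2.eq {F : ℝ → ℝ} {v : ℝ} (h : D2 F v) : iteratedDeriv 2 F 0 = v := by
  rw [iteratedDeriv_succ, iteratedDeriv_one, h.2.deriv]

theorem D2.add {F G : ℝ → ℝ} {v v' : ℝ} (h : D2 F v) (h' : D2 G v') :
    D2 (fun y => F y + G y) (v + v') :=
  .mk' _ (fun y => (h.1 y).fun_add (h'.1 y)) (h.2.fun_add h'.2)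

theorem D2.mul {F : ℝ → ℝ} {v : ℝ} (h : D2 F v) (c : ℝ) : D2 (fun y => c * F y) (c * v) :=
  .mk' _ (fun y => (h.1 y).const_mul c) (h.2.const_mul c)

theorem D2.sum {α : Type} (A : Finset α) {F : α → ℝ → ℝ} {v : α → ℝ} (h : ∀ a ∈ A, D2 (F a) (v a)) :
    D2 (fun y => ∑ a ∈ A, F a y) (∑ a ∈ A, v a) :=
  .mk' _ (fun y => HasDerivAt.fun_sum fun a ha => (h a ha).1 y)
    (HasDerivAt.fun_sum fun a ha => (h a ha).2)

theorem D2.usg {Θ : Type} {ε : ℝ} {i : ℕ} {M : List (Lv Θ)} {s : Sh} {F : GT s → ℝ → ℝ}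
    {v : GT s → ℝ} (h : ∀ τ, UM M.length s τ → D2 (F τ) (v τ)) :
    D2 (fun y => usg ε i M s fun τ => F τ y) (usg ε i M s v) :=
  .mk' _ (fun y => hasDerivAt_usg (F' := fun τ => deriv (F τ)) fun τ hτ => (h τ hτ).1 y)
    (hasDerivAt_usg (F' := fun τ _ => v τ) fun τ hτ => (h τ hτ).2)

theorem d2_of {C : ℝ} {F : ℝ → ℝ} (h : Sm 2 C F) :
    D2 F (iteratedDeriv 2 F 0) ∧ |iteratedDeriv 2 F 0| ≤ C := by
  rw [iteratedDeriv_succ, iteratedDeriv_one]
  exact ⟨⟨h.der.1, h.der.2.der.1 0⟩, h.der.2.der.2.bd 0⟩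

theorem wB_mul {Ω S Θ : Type} {ε : ℝ} {M : List (Lv Θ)}
    {B : (s : Sh) → ((s.Lf → Ω) → ℝ) → ((s.Lf → S) → ℝ) → ℝ}
    (hB : ∀ s G c ξ, B s G (fun x => c * ξ x) = c * B s G ξ) :
    ∀ (V : List ((ℕ → Ω → Ω → ℝ) × (ℕ → S → S → ℝ))) (s : Sh) (G : (s.Lf → Ω) → ℝ) (c : ℝ)
      (ξ : (s.Lf → S) → ℝ), wB ε M B V s G (fun x => c * ξ x) = c * wB ε M B V s G ξ
  | [], s, G, c, ξ => hB s G c ξ
  | p :: V, s, G, c, ξ => by
      rw [wB, wB, ← sg_const_mul]
      refine congrArg _ (funext fun τ => Eq.trans (congrArg _ (funext fun x => ?_))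
        (wB_mul hB V _ _ c _))
      exact mul_assoc _ _ _

/-! ### cluster values -/

/-- bound of a cluster with at most four leaves -/
def bN (k : ℕ) : ℝ := (2 * (4 + k : ℕ)) ^ k * 4

theorem bN_nn (k : ℕ) : 0 ≤ bN k := by unfold bN; positivity

theorem abs_gs_bN {B : List (Lv Bool)} (hB : Mono 0 B) (k : ℕ) (y : ℝ) : |gs B k y| ≤ bN k := by
  refine (abs_gs_bM hB k y).trans ?_
  unfold bM bN
  gcongr <;> norm_num

theorem abs_MG_bN {B : List (Lv Bool)} (hB : Mono 0 B) {u : Sh} (hN : Fintype.card u.Lf ≤ 4)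
    {F : (u.Lf → Bool) → ℝ} (hF : ∀ x, |F x| ≤ 4) (k : ℕ) (z : Bool → ℝ) : |MG B u F k z| ≤ bN k := by
  refine (abs_MG_le hB (by norm_num) hF k z).trans ?_
  unfold bN
  gcongr

/-- the site constant -/
def c3 : ℝ := 1 + bN 1 + bN 2 + cD bN 2 0 + cS bN 1 1 + cS bN 1 2 + cS bN 2 0

theorem c3_parts : 0 ≤ bN 1 ∧ 0 ≤ bN 2 ∧ 0 ≤ cD bN 2 0 ∧ 0 ≤ Lsg89.cS bN 1 1 ∧
    0 ≤ Lsg89.cS bN 1 2 ∧ 0 ≤ Lsg89.cS bN 2 0 :=
  ⟨bN_nn _, bN_nn _, cD_nn bN_nn _ _, cS_nn bN_nn _ _, cS_nn bN_nn _ _, cS_nn bN_nn _ _⟩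

theorem one_le_c3 : 1 ≤ c3 := by
  obtain ⟨a, b, c, d, e, f⟩ := c3_parts
  unfold c3
  linarith

variable {D : CD} {τ0 : ℝ} {u : Sh}

/-- a cluster in the field `y` -/
def A0 (D : CD) (u : Sh) (F : (u.Lf → Bool) → ℝ) (y : ℝ) : ℝ :=
  TE (fun _ => 1) u (D.S.drop D.J) (y • spin) F
/-- its second derivative -/
def d2 (D : CD) (u : Sh) (F : (u.Lf → Bool) → ℝ) : ℝ := iteratedDeriv 2 (A0 D u F) 0
/-- a cluster value and its frozen value -/
def Fz (D : CD) (A : (Bool → ℝ) → ℝ) (a : ℝ) : Prop := Crest.Agent.T157.Casc.Eg A ∧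
  (∀ z, |A z| ≤ c3) ∧ |a| ≤ c3 ∧ ∀ z, |A z - a| ≤ c3 * (|xs z| + D.X)

theorem mg_facts (H : D.Ok τ0) (hu : u.br = 1) (hN : Fintype.card u.Lf ≤ 4)
    {F : (u.Lf → Bool) → ℝ} (hF : ∀ x, |F x| ≤ 4) :
    Sm 2 c3 (A0 D u F) ∧ Fz D (MG (D.S.drop D.J) u F 2) (d2 D u F) := by
  obtain ⟨l, L, e, hM, hx⟩ := exists_drop H
  obtain ⟨a, b, c, d, f, g⟩ := c3_parts
  have hb := fun k (y : ℝ) => abs_MG_bN hM hN hF k (y • spin)
  have h0 := (Lad.sm (abs_m_le hM) bN_nn (lad_gs l L) (lad_MG l L hu F) (abs_gs_bN hM) hb 2 0).2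
  have h1 := Lad.abs_iter_sub (abs_m_le hM) bN_nn (lad_gs l L) (lad_MG l L hu F) (abs_gs_bN hM) hb 2 0
  have h2 := Lad.lip (abs_m_le hM) bN_nn (lad_gs l L) (lad_MG l L hu F) (abs_gs_bN hM) hb 2
  rw [abs_of_nonneg hM.1] at h1
  have h4 := h1.trans (mul_le_mul_of_nonneg_left hx c)
  have hX := H.X0
  have k0 : Sm 2 c3 (A0 D u F) := by
    unfold A0 c3
    rw [e]
    exact h0.mono (by linarith)
  refine ⟨k0, eg_LW w1 _ _ _ _ _ _, fun z => ?_, (d2_of k0).2, fun z => ?_⟩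
  · rw [e]
    exact (abs_MG_bN hM hN hF 2 z).trans (by unfold c3; linarith)
  · have h5 := h2 (xs z)
    rw [← MG_xs] at h5
    have h6 := abs_sub_le (MG (l :: L) u F 2 z) (MG (l :: L) u F 2 ((0 : ℝ) • spin)) (d2 D u F)
    have h7 := abs_nonneg (xs z)
    have h8 := mul_nonneg (show 0 ≤ c3 - Lsg89.cS bN 1 2 by unfold c3; linarith) h7
    have h9 := mul_nonneg (show 0 ≤ c3 - cD bN 2 0 by unfold c3; linarith) hX
    have h10 : |MG (l :: L) u F 2 ((0 : ℝ) • spin) - d2 D u F| ≤ cD bN 2 0 * D.X := by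
      rw [abs_sub_comm]
      unfold d2 A0
      rw [e]
      exact h4
    rw [e]
    linarith

theorem g1_facts (H : D.Ok τ0) :
    Fz D (GC (-1) (fun _ => 1) (D.S.drop D.J) spin (List.replicate 1 spin)) D.lam := by
  obtain ⟨l, L, e, hM, hx⟩ := exists_drop H
  obtain ⟨a, b, c, d, f, g⟩ := c3_parts
  have h2 := Lad.lip (abs_m_le hM) bN_nn (lad_gs l L) (lad_gs l L) (abs_gs_bN hM) (abs_gs_bN hM) 1
  have h3 : ∀ y, |gs (l :: L) 1 y| ≤ c3 := fun y =>
    (abs_gs_bN hM 1 y).trans (by unfold c3; linarith)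
  refine ⟨eg_LW w1 _ _ _ _ _ _, fun z => ?_, ?_, fun z => ?_⟩
  · rw [GC_spin, e]; exact h3 _
  · rw [Y14.lam_eq H, e]; exact h3 _
  · rw [GC_spin, Y14.lam_eq H, e]
    have h8 := mul_nonneg (show 0 ≤ c3 - Lsg89.cS bN 1 1 by unfold c3; linarith) (abs_nonneg (xs z))
    have h9 := mul_nonneg (zero_le_one.trans one_le_c3) H.X0
    linarith [h2 (xs z)]

/-- the site factor of two clusters split at `y` -/
def SV (D : CD) (y : ℕ) (A A' : (Bool → ℝ) → ℝ) : ℝ := node (fun _ => 1) D.S y (fun z =>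
  node (fun _ => 1) (D.S.drop y) (D.J - y) A z * node (fun _ => 1) (D.S.drop y) (D.J - y) A' z) 0

theorem SV_sub (H : D.Ok τ0) {y : ℕ} (hy : y ≤ D.J) {A A' : (Bool → ℝ) → ℝ} {a a' : ℝ}
    (h : Fz D A a) (h' : Fz D A' a') : |SV D y A A' - a * a'| ≤ 42 * c3 ^ 3 * D.X := by
  have h0 := one_le_c3
  have h1 := two_sub w1 h0 ((lg_xs.eg.abs.add (Eg.const D.X)).const_mul c3) h.1 h'.1 h.2.1 h'.2.1
    h.2.2.1 h'.2.2.1 h.2.2.2 h'.2.2.2 hy (cutS H).le 0
  rw [node_const_mul, node_add w1 lg_xs.eg.abs (Eg.const _), node_const w1] at h1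
  refine h1.trans ?_
  have := node_xs H
  calc _ ≤ 2 * c3 ^ 2 * (c3 * (20 * D.X + D.X)) := by beta_reduce; gcongr
    _ = _ := by ring

/-! ### the bulk factor -/

/-- two parallel edges -/
def bb (D : CD) (j : ℕ) : ℝ := (D.τ j / 2) ^ 2 * D.E2 j fun x y => ov x y ^ 2
/-- their size -/
def b1 (D : CD) (τ0 : ℝ) : ℝ := τ0 ^ 2 * (D.X ^ 2 + 2 * D.tl)

theorem b1_nn (H : D.Ok τ0) : 0 ≤ b1 D τ0 := by
  have := H.tl0
  unfold b1
  positivity

theorem bb_zero (D : CD) : bb D 0 = 0 := by simp [bb, CD.τ, oTau, OneP.dAcc_zero]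

theorem abs_bb_le (H : D.Ok τ0) {j : ℕ} (hj : j ≤ D.J) : |bb D j| ≤ b1 D τ0 := by
  rcases Nat.eq_zero_or_pos j with rfl | h0
  · rw [bb_zero, abs_zero]; exact b1_nn H
  have h1 := H.u_lo (CD.mem_lo.2 ⟨h0, hj⟩) 1
  have h2 := D.u0 2 j
  have e : (D.E2 j fun x y => ov x y ^ 2) = D.u 2 j := by
    simp only [CD.E2, CD.u, uM, oU, H.qlo j hj, sub_zero, sq_abs]
  obtain ⟨t0, t1⟩ := H.tau_mem j
  rw [bb, e, abs_of_nonneg (by positivity), b1]
  refine mul_le_mul (pow_le_pow_left₀ (by positivity) (by linarith) 2) (h1.trans_eq (by norm_num)) h2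
    (by positivity)

theorem Lc_bb (H : D.Ok τ0) (s : Sh) {a b : s.Lf} {j : ℕ} (hj : j ≤ D.J)
    (h : s.shr a b D.B.length = j) : R90.Lc (fun _ => 1) D.B 0 D.J Unit s
      (fun y => (D.τ j / 2 * ov (y a ()) (y b ())) ^ 2) = bb D j := by
  rw [Lc_pair wt_one90 (cutB H) s (h.trans_le hj) fun x y => (D.τ j / 2 * ov x y) ^ 2, h]
  simp only [mul_pow]
  rw [pi2_const_mul]
  rfl

theorem Lc_R2 (H : D.Ok τ0) (s : Sh) (c : s.Lf × s.Lf) : R90.Lc (fun _ => 1) D.B 0 D.J Unit s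
    (fun y => RR D (s.shr c.1 c.2 D.B.length) (y c.1) (y c.2) ^ 2) ≤ b1 D τ0 := by
  rcases le_or_gt (s.shr c.1 c.2 D.B.length) D.J with h | h
  · rw [RR_lo H h]
    exact (Lc_bb H s h rfl).trans_le ((le_abs_self _).trans (abs_bb_le H h))
  · simp only [RR_hi h, Pi.zero_apply, ne_eq, OfNat.ofNat_ne_zero, not_false_eq_true, zero_pow]
    exact (R90.Lc_const wt_one90 _ s 0).trans_le (b1_nn H)

theorem sum_bb (D : CD) : ∑ j ∈ Finset.range (D.J + 1), D.dx j * bb D j = D.S2 / 4 := by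
  rw [CD.S2, Finset.sum_div]
  refine (Finset.sum_subset (fun j hj => ?_) fun j h1 h2 => ?_).symm.trans
    (Finset.sum_congr rfl fun j _ => by rw [bb]; ring)
  · exact Finset.mem_range.2 (Nat.lt_succ_of_le (CD.mem_lo.1 hj).2)
  · obtain rfl : j = 0 := by
      have := Finset.mem_range.1 h1
      rw [CD.mem_lo] at h2
      omega
    rw [bb_zero, mul_zero]

theorem abs_low (H : D.Ok τ0) {T : ℕ → ℝ} {c : ℝ} (hc : 0 ≤ c) (h : ∀ y ≤ D.J, |T y| ≤ c) :
    |∑ y ∈ Finset.range (D.J + 1), D.dx y * T y| ≤ D.X * c := by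
  refine (abs_wsum _ H.dx0 fun y hy => h y (Nat.lt_succ_iff.1 (Finset.mem_range.1 hy))).trans ?_
  rw [← Finset.sum_mul, H.sum_dx]
  exact mul_le_mul_of_nonneg_right H.x1 hc

/-- the trivial kernel -/
abbrev OO (D : CD) : ℕ → (Unit → Cube D.n) → (Unit → Cube D.n) → ℝ := fun _ _ _ => 1
/-- the value of a tree -/
abbrev PT (D : CD) : EF := PhiB D.B.length (cB D) [OO D, OO D, RR D, RR D]
  [oE D.q, oE D.q, ZZ D, ZZ D]
/-- two low letters -/
def WW (D : CD) : EF := St (-1) D.B (lo D.J) (St (-1) D.B (lo D.J) (PT D))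

theorem bn_PT (H : D.Ok τ0) (N : ℕ) : Bn 4 N (32 * b1 D τ0) (PT D)
  | s, [a, b, c, d], _, _ => by
      have h1 := One15.abs_TE_le w1 s D.S 0 fun x => abs_prE_le (n := D.B.length) x
        [oE D.q, oE D.q, ZZ D, ZZ D] [a, b, c, d] fun K hK => by
          simp only [List.mem_cons, List.not_mem_nil, or_false] at hK
          rcases hK with rfl | rfl | rfl | rfl <;> exact abs_ZZ H
      have h2 : |R90.Lc (fun _ => 1) D.B 0 D.J Unit s
          (prE D.B.length [OO D, OO D, RR D, RR D] [a, b, c, d])| ≤ 2 * b1 D τ0 := by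
        refine (R90.abs_Lc_le wt_one90 _ s (G := fun y =>
          1 * RR D (s.shr c.1 c.2 D.B.length) (y c.1) (y c.2) ^ 2 +
            1 * RR D (s.shr d.1 d.2 D.B.length) (y d.1) (y d.2) ^ 2) fun y => ?_).trans ?_
        · simp only [prE_cons, prE_nil, one_mul, mul_one]
          set p := RR D (s.shr c.1 c.2 D.B.length) (y c.1) (y c.2)
          set q := RR D (s.shr d.1 d.2 D.B.length) (y d.1) (y d.2)
          exact abs_le.2 ⟨by nlinarith [sq_nonneg (p + q)], by nlinarith [sq_nonneg (p - q)]⟩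
        · rw [R90.Lc_lin]
          linarith [Lc_R2 H s c, Lc_R2 H s d]
      refine (abs_mul _ _).trans_le ((mul_le_mul h2 h1 (abs_nonneg _)
        (by linarith [b1_nn H])).trans ?_)
      norm_num
      linarith [b1_nn H]

/-- the exact value of two parallel low edges -/
theorem LE_two (H : D.Ok τ0) {y : ℕ} (hy : y ≤ D.J) {s : Sh} {e : Unit ⊕ Unit → s.Lf}
    (he : s.shr (e (.inl ())) (e (.inr ())) D.B.length = y) {cs : Low51.EL s} (hc : cs.length = 2)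
    {d d' : Ed (Unit ⊕ Unit)} (hd : d = dA ∨ d = dB ∨ d = dP ∨ d = dQ) (hd' : d' = dP ∨ d' = dQ) :
    LE (-1) D.J D.B [d, d'] (cs' (PT D)) s e cs = bb D y * LWm (-1) D.J D.B spin
      (TEf (fun _ => 1) D.S 0) (Y89.ends [d, d']) s e (prE D.B.length [oE D.q, oE D.q] cs) := by
  have h1 := LE_pq (ε := -1) (h := 0) wt_one90 (cutB H) rfl hy (RR_lo H hy)
    (fun x y => by rw [ov_symm]) (ZZ_lo H hy) (TEf (fun _ => 1) D.S 0) (p := .inl ()) (q := .inr ())
    [d, d'] (fun c hc => by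
      simp only [List.mem_cons, List.not_mem_nil, or_false] at hc
      rcases hc with rfl | rfl
      · rcases hd with rfl | rfl | rfl | rfl
        exacts [⟨⟨trivial, trivial⟩, .inl ⟨rfl, rfl⟩⟩, ⟨⟨trivial, trivial⟩, .inr ⟨rfl, rfl⟩⟩,
          ⟨⟨trivial, trivial⟩, .inl ⟨rfl, rfl⟩⟩, ⟨⟨trivial, trivial⟩, .inr ⟨rfl, rfl⟩⟩]
      · rcases hd' with rfl | rfl
        exacts [⟨⟨trivial, trivial⟩, .inl ⟨rfl, rfl⟩⟩, ⟨⟨trivial, trivial⟩, .inr ⟨rfl, rfl⟩⟩])
    [OO D, OO D] [oE D.q, oE D.q] s e cs hc.symm hc.symm he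
  refine Eq.trans h1 (congrArg (· * _) (Eq.trans (congrArg _ (funext fun x => ?_))
    (Lc_bb H s hy he)))
  match cs, hc with
  | [a, b], _ => simp only [prE_cons, prE_nil, one_mul, List.length_cons, List.length_nil]

/-! ### the two kinds of base trees -/

/-- the constant of the estimates -/
def c6 : ℝ := 50000000 + 168 * c3 ^ 3

theorem one_est (H : D.Ok τ0) (hu : u.br = 1) (hN : Fintype.card u.Lf ≤ 4)
    {F : (u.Lf → Bool) → ℝ} (hF : ∀ x, |F x| ≤ 4) {cs : Low51.EL (u.stp D.J)} (hc : cs.length = 2)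
    (hξ : prE D.B.length [oE D.q, oE D.q] cs = fun x => F fun b => x (u.stI D.J b)) :
    |WW D _ cs + D.S2 * (d2 D u F * D.lam)| ≤ c6 * (D.X ^ 2 * b1 D τ0) := by
  have b0 := b1_nn H
  have hX := H.X0
  have c0 := one_le_c3
  have k1 := W_one (β := 32 * b1 D τ0) (Ψ := PT D) H.mono (cutB H) (by positivity) (cs := cs) (by rw [hc]; exact bn_PT H 9)
    ((card_stp u _).trans_le hN) (sk_stp hu (cutB H)) (v := fun y => bb D y * SV D y
      (MG (D.S.drop D.J) u F 2) (GC (-1) (fun _ => 1) (D.S.drop D.J) spin (List.replicate 1 spin)))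
    fun y hy d d' hd hd' => by
      refine (LE_two (e := mk2 (u.stp D.J) (u.stI D.J u.fst) y) H hy ((shr_nw _ _ _ _ _).trans
        ((shr_self _ _ _).trans (min_eq_left (hy.trans (cutB H).le)))) ((List.length_map _).trans hc)
        (hd.imp_right .inl) hd').trans (mc ?_)
      have e : prE D.B.length [oE D.q, oE D.q] (mv ((u.stp D.J).emb (u.stI D.J u.fst) y) cs) =
          fun x => F fun b => x ((u.stp D.J).emb (u.stI D.J u.fst) y (u.stI D.J b)) :=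
        funext fun x => (prE_mv (fun a b => shr_emb _ _ _ a b _) x _ _).trans (congrFun hξ _)
      have g := fun W : List (Unit ⊕ Unit) => LW_gr (ε := -1) w1 hu u.fst F spin
        (W.map fun a => (a, spin)) y D.S D.J hy (cutS H).le 0
      simp only [← LW_tilt (tiltB D), ← LWm_leg] at g
      refine Eq.trans (congrArg (LWm (-1) D.J D.B spin _ _ _ _) e) ?_
      rcases hd with rfl | rfl <;> rcases hd' with rfl | rfl
      · exact g [.inl (), .inr (), .inl ()]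
      · exact g [.inl (), .inl (), .inr ()]
      · exact (LWm_swap spin _ _ _ _ _ _ _).trans (g [.inl (), .inr (), .inl ()])
      · exact (LWm_swap spin _ _ _ _ _ _ _).trans (g [.inl (), .inl (), .inr ()])
  have k2 := abs_low H (T := fun y => bb D y * (SV D y (MG (D.S.drop D.J) u F 2)
    (GC (-1) (fun _ => 1) (D.S.drop D.J) spin (List.replicate 1 spin)) - d2 D u F * D.lam))
    (c := b1 D τ0 * (42 * c3 ^ 3 * D.X)) (by positivity) fun y hy => by
      rw [abs_mul]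
      exact mul_le_mul (abs_bb_le H hy) (SV_sub H hy (mg_facts H hu hN hF).2 (g1_facts H))
        (abs_nonneg _) b0
  simp only [mul_sub, Finset.sum_sub_distrib, ← mul_assoc _ (bb D _) (d2 D u F * D.lam),
    ← Finset.sum_mul, sum_bb] at k2
  have k3 : ex D.B D.J ^ 2 * (32 * b1 D τ0) ≤ D.X ^ 2 * (32 * b1 D τ0) :=
    mul_le_mul_of_nonneg_right (pow_le_pow_left₀ (H.ex0 _) H.x1 2) (by positivity)
  have k4 := mul_nonneg (sq_nonneg D.X) b0
  unfold WW c6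
  rw [abs_le] at k1 k2 ⊢
  constructor <;> linarith [k1.1, k1.2, k2.1, k2.2]

/-- the marked pair -/
def pj (D : CD) (r k : ℕ) : ((Sh.two r).Lf → Bool) → ℝ := pr2 r (oE D.q k)

theorem pj_facts (H : D.Ok τ0) {k : ℕ} (hk : k ∈ D.up) :
    Sm 2 c3 (A0 D _ (pj D (k - D.J) k)) ∧
      Fz D (MG (D.S.drop D.J) _ (pj D (k - D.J) k) 2) (d2 D _ (pj D (k - D.J) k)) := by
  obtain ⟨k1, k2⟩ := CD.mem_up.1 hk
  obtain ⟨r, hr⟩ : ∃ r, k - D.J = r + 1 := ⟨k - D.J - 1, by omega⟩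
  rw [hr]
  exact mg_facts H rfl ((Wt87.card_two _).trans_le (by norm_num)) fun x =>
    (abs_ZZ H k (D.B_len ▸ k2.le) _ _).trans (by norm_num)

theorem MG_two (B : List (Lv Bool)) (r : ℕ) (F : ((Sh.two r).Lf → Bool) → ℝ) (k : ℕ) :
    MG B (.two r) F k = fun z => LW (-1) 0 B (List.replicate k ((), spin))
      (cst (TEf (fun _ => 1) B z)) (.two r) (fun _ => Sh.twoL r) F :=
  funext fun z => by rw [Lsg89.MG, fst_two]

/-- the tree with a second marked cluster -/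
def W3 (D : CD) (s : Sh) (a b : s.Lf) (y k : ℕ) : ℝ := WW D ((s.graft a y).graft (s.nw a y) k)
  [((s.graft a y).emb _ k (s.emb a y a), (s.graft a y).emb _ k (s.emb a y b)),
    ((s.graft a y).emb _ k (s.nw a y), (s.graft a y).nw _ k)]

theorem two_est (H : D.Ok τ0) {j k y : ℕ} (hj : j ∈ D.up) (hk : k ∈ D.up) (hy : y ≤ D.J) :
    |W3 D ((Sh.two (j - D.J)).stp D.J) (Sh.stI _ D.J (Sh.twoL _)) (Sh.stI _ D.J (Sh.twoR _)) y k -
      4 * (bb D y * (d2 D _ (pj D (j - D.J) j) * d2 D _ (pj D (k - D.J) k)))| ≤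
      c6 * (D.X * b1 D τ0) := by
  have b0 := b1_nn H
  have hX := H.X0
  have c0 := one_le_c3
  have f1 := (pj_facts H hj).2
  have f2 := (pj_facts H hk).2
  obtain ⟨j1, j2⟩ := CD.mem_up.1 hj
  obtain ⟨k1, k2⟩ := CD.mem_up.1 hk
  obtain ⟨r, rfl⟩ : ∃ r, j = r + 1 + D.J := ⟨j - D.J - 1, by omega⟩
  obtain ⟨r', rfl⟩ : ∃ r', k = r' + 1 + D.J := ⟨k - D.J - 1, by omega⟩
  obtain ⟨n, hn⟩ : ∃ n, D.B.length = n + D.J := ⟨D.B.length - D.J, by have := cutB H; omega⟩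
  have hK := D.B_len
  have hr : r + 1 + D.J - D.J = r + 1 := Nat.add_sub_cancel ..
  have hr' : r' + 1 + D.J - D.J = r' + 1 := Nat.add_sub_cancel ..
  rw [hr] at f1
  rw [hr'] at f2
  rw [hr, hr']
  set s := (Sh.two (r + 1)).stp D.J with hs
  set m := (Sh.two (r + 1)).stI D.J (Sh.twoL (r + 1)) with hm
  have k1 := W_two (β := 32 * b1 D τ0) (Ψ := PT D)
    (s := (s.graft m y).graft (s.nw m y) (r' + 1 + D.J)) H.mono (cutB H) (by positivity)
    (cs := [((s.graft m y).emb _ _ (s.emb m y m),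
      (s.graft m y).emb _ _ (s.emb m y ((Sh.two (r + 1)).stI D.J (Sh.twoR (r + 1))))),
      ((s.graft m y).emb _ _ (s.nw m y), (s.graft m y).nw _ _)]) (bn_PT H 8)
    (by rw [card_graft, card_graft, hs, card_stp, Wt87.card_two]) (e := mk3 s m y (r' + 1 + D.J))
    ((two_gr (shr_stp rfl D.J m) hy).graft _ k1) (v := bb D y * SV D y
      (MG (D.S.drop D.J) _ (pj D (r + 1) (r + 1 + D.J)) 2)
      (MG (D.S.drop D.J) _ (pj D (r' + 1) (r' + 1 + D.J)) 2)) fun d d' hd hd' => by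
      refine (LE_two (e := mk3 s m y (r' + 1 + D.J)) H hy ((shr_emb _ _ _ _ _ _).trans ((shr_nw _ _ _ _ _).trans
        ((shr_self _ _ _).trans (min_eq_left (hy.trans (cutB H).le))))) rfl
        (.inr (.inr hd)) hd').trans (mc ?_)
      have g := fun W : List (Unit ⊕ Unit) => LW_gr2 (ε := -1) (u := .two (r + 1)) w1 rfl
        (Sh.twoL _) (pj D (r + 1) (r + 1 + D.J)) (r' + 1) (oE D.q (r' + 1 + D.J))
        (W.map fun a => (a, spin)) y D.S D.J hy (cutS H).le 0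
      simp only [← LW_tilt (tiltB D), ← LWm_leg] at g
      rw [SV, MG_two, MG_two]
      refine Eq.trans (congrArg (LWm (-1) D.J D.B spin _ _ _ _) (funext fun x => ?_)) (?_ :
        LWm (-1) D.J D.B spin _ (Y89.ends [d, d']) _ (mk3 s m y (r' + 1 + D.J)) (fun x =>
          pj D (r + 1) (r + 1 + D.J) (fun b => x ((s.graft m y).emb _ (r' + 1 + D.J)
            (s.emb m y ((Sh.two (r + 1)).stI D.J b)))) * oE D.q (r' + 1 + D.J)
              (x (mk3 s m y (r' + 1 + D.J) (.inr ()))) (x ((s.graft m y).nw _ (r' + 1 + D.J)))) = _)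
      · rw [prE_cons, prE_cons, prE_nil, mul_one, shr_emb, shr_emb, shr_nw, shr_self,
          min_eq_left (by omega), hn, Clu22.shr_stI, shr_two, min_eq_left (by omega)]
        rfl
      · rcases hd with rfl | rfl <;> rcases hd' with rfl | rfl
        · exact g [.inr (), .inl (), .inr (), .inl ()]
        · exact g [.inr (), .inl (), .inl (), .inr ()]
        · exact g [.inl (), .inr (), .inr (), .inl ()]
        · exact g [.inl (), .inr (), .inl (), .inr ()]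
  have k2 := mul_le_mul (abs_bb_le H hy) (SV_sub H hy f1 f2) (abs_nonneg _) b0
  rw [← abs_mul, mul_sub] at k2
  have k3 : ex D.B D.J * (32 * b1 D τ0) ≤ D.X * (32 * b1 D τ0) :=
    mul_le_mul_of_nonneg_right H.x1 (by positivity)
  have k4 := mul_nonneg hX b0
  unfold W3 WW c6
  rw [abs_le] at k1 k2 ⊢
  constructor <;> linarith [k1.1, k1.2, k2.1, k2.2]

end Crest.Agent.T156.Cas.C40.Mt14

end
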