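import Crest.Agent.T156.Clu_22
import Crest.Agent.T156.NuB_87
import Crest.Agent.T156.One_15

/-!
# Row 156 (helper22): clusters plugged on a skeleton

`t.plug j u` carries the tree `u α` on the leaf `α` of `t` at depth `j`.  With `TE_lab` this gives
the cluster factorisation for every labelled tree and every split matrix (`TE_clu`, `TM_clu`).
-/

set_option autoImplicit false
set_option linter.unusedSectionVars false

noncomputable section

namespace Crest.Agent.T156.Cas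

open MeasureTheory Real Set Filter Topology
open Crest.Agent.T157.E Crest.Agent.T157.Casc Crest.Agent.T157.SL

/-- `j` shared levels below `u` -/
def Sh.stp (u : Sh) : ℕ → Sh
  | 0 => u
  | j + 1 => .step (u.stp j)

/-- its leaves -/
def Sh.stI (u : Sh) : (j : ℕ) → u.Lf → (u.stp j).Lf
  | 0, b => b
  | j + 1, b => u.stI j b

/-- the trees `u α` carried by the leaves of a skeleton at depth `j` -/
def Sh.plug : (t : Sh) → ℕ → (t.Lf → Sh) → Sh
  | .one, j, u => (u ()).stp j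
  | .step t, 0, u => t.plug 0 u
  | .step t, j + 1, u => .step (t.plug j u)
  | .split s t, j, u => .split (s.plug j fun a => u (.inl a)) (t.plug j fun a => u (.inr a))

/-- the leaves of the plugged tree -/
def Sh.pin : (t : Sh) → (j : ℕ) → (u : t.Lf → Sh) → (α : t.Lf) → (u α).Lf → (t.plug j u).Lf
  | .one, j, u, _, b => (u ()).stI j b
  | .step t, 0, u, α, b => t.pin 0 u α b
  | .step t, j + 1, u, α, b => t.pin j u α b
  | .split s _, j, u, .inl α, b => .inl (s.pin j (fun a => u (.inl a)) α b)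
  | .split _ t, j, u, .inr α, b => .inr (t.pin j (fun a => u (.inr a)) α b)

namespace Clu22

theorem shr_stI (u : Sh) (a b : u.Lf) (k : ℕ) : ∀ j : ℕ,
    (u.stp j).shr (u.stI j a) (u.stI j b) (k + j) = u.shr a b k + j
  | 0 => rfl
  | j + 1 => congrArg (· + 1) (shr_stI u a b k j)

theorem stI_inj (u : Sh) : ∀ j : ℕ, Function.Injective (u.stI j)
  | 0 => fun _ _ h => h
  | j + 1 => stI_inj u j

theorem shr_pin : ∀ (t : Sh) (j : ℕ) (u : t.Lf → Sh) (α : t.Lf) (a b : (u α).Lf) (k : ℕ),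
    (t.plug j u).shr (t.pin j u α a) (t.pin j u α b) (k + j) = (u α).shr a b k + j
  | .one, j, u, _, a, b, k => shr_stI (u ()) a b k j
  | .step t, 0, u, α, a, b, k => shr_pin t 0 u α a b k
  | .step t, j + 1, u, α, a, b, k => congrArg (· + 1) (shr_pin t j u α a b k)
  | .split s _, j, u, .inl α, a, b, k => shr_pin s j (fun a => u (.inl a)) α a b k
  | .split _ t, j, u, .inr α, a, b, k => shr_pin t j (fun a => u (.inr a)) α a b k

theorem shr_pin_ne : ∀ (t : Sh) (j : ℕ) (u : t.Lf → Sh) (α β : t.Lf) (a : (u α).Lf)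
    (b : (u β).Lf) (k : ℕ), α ≠ β →
    (t.plug j u).shr (t.pin j u α a) (t.pin j u β b) (k + j) = t.shr α β j
  | .one, _, _, _, _, _, _, _, h => absurd rfl h
  | .step t, 0, u, α, β, a, b, k, h => (shr_pin_ne t 0 u α β a b k h).trans (Wt87.shr_zero t α β)
  | .step t, j + 1, u, α, β, a, b, k, h => congrArg (· + 1) (shr_pin_ne t j u α β a b k h)
  | .split s _, j, u, .inl α, .inl β, a, b, k, h =>
      shr_pin_ne s j (fun a => u (.inl a)) α β a b k fun e => h (congrArg Sum.inl e)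
  | .split _ t, j, u, .inr α, .inr β, a, b, k, h =>
      shr_pin_ne t j (fun a => u (.inr a)) α β a b k fun e => h (congrArg Sum.inr e)
  | .split _ _, _, _, .inl _, .inr _, _, _, _, _ => rfl
  | .split _ _, _, _, .inr _, .inl _, _, _, _, _ => rfl

theorem pin_fst : ∀ (t : Sh) (j : ℕ) (u : t.Lf → Sh) (α β : t.Lf) (a : (u α).Lf) (b : (u β).Lf),
    t.pin j u α a = t.pin j u β b → α = β
  | .one, _, _, _, _, _, _, _ => rfl
  | .step t, 0, u, α, β, a, b, h => pin_fst t 0 u α β a b h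
  | .step t, j + 1, u, α, β, a, b, h => pin_fst t j u α β a b h
  | .split s _, j, u, .inl α, .inl β, a, b, h =>
      congrArg Sum.inl (pin_fst s j (fun a => u (.inl a)) α β a b (Sum.inl_injective h))
  | .split _ t, j, u, .inr α, .inr β, a, b, h =>
      congrArg Sum.inr (pin_fst t j (fun a => u (.inr a)) α β a b (Sum.inr_injective h))
  | .split _ _, _, _, .inl _, .inr _, _, _, h => absurd h Sum.inl_ne_inr
  | .split _ _, _, _, .inr _, .inl _, _, _, h => absurd h Sum.inr_ne_inl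

theorem pin_inj : ∀ (t : Sh) (j : ℕ) (u : t.Lf → Sh) (α : t.Lf), Function.Injective (t.pin j u α)
  | .one, j, u, _ => stI_inj (u ()) j
  | .step t, 0, u, α => pin_inj t 0 u α
  | .step t, j + 1, u, α => pin_inj t j u α
  | .split s _, j, _, .inl α => fun _ _ h => pin_inj s j _ α (Sum.inl_injective h)
  | .split _ t, j, _, .inr α => fun _ _ h => pin_inj t j _ α (Sum.inr_injective h)

variable {Ω : Type} [Fintype Ω] {w : Ω → ℝ}

theorem eg_TE (hw : Wt w) (s : Sh) (N : List (Lv Ω)) (F : (s.Lf → Ω) → ℝ) :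
    Eg fun z => TE w s N z F := Tp.eg_tF hw s N (F := fun _ => F) fun _ => .const _

theorem egP_TEs (hw : Wt w) (N : List (Lv Ω)) {κ A : Type} [Fintype A] (u : A → Sh) (e : A → κ)
    (i : ℕ) (F : (α : A) → ((u α).Lf → Ω) → ℝ) :
    EgP fun p : Pa κ Ω => ∏ α, TE w (u α) N (p (e α) i) (F α) :=
  egP_prod _ fun α _ => .state (eg_TE hw _ N (F α)) (e α) i

/-- the statement for one skeleton and one depth -/
def Plug (w : Ω → ℝ) (t : Sh) (j : ℕ) : Prop :=
  ∀ (u : t.Lf → Sh) (L : List (Lv Ω)) (h : Ω → ℝ) (Φ : Pa t.Lf Ω → ℝ)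
    (F : (α : t.Lf) → ((u α).Lf → Ω) → ℝ), EgP Φ →
    tF w (t.plug j u) L h (fun p x => Φ (trc j fun α => p (t.pin j u α (u α).fst)) *
        ∏ α, F α fun b => x (t.pin j u α b)) =
      tF w t L h fun p _ => Φ (trc j p) * ∏ α, TE w (u α) (L.drop j) (p α j) (F α)

theorem tF_root (hw : Wt w) (t : Sh) (L : List (Lv Ω)) (h : Ω → ℝ) (G : Pa t.Lf Ω → ℝ) :
    tF w t L h (fun p _ => G (trc 0 p)) = G fun _ _ => h :=
  (congrArg (tX w t L h) (funext fun g => funext fun _ =>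
    congrArg G (trc_zero t L h g id))).trans (Law.TE_const hw t L h _)

theorem plug_step (hw : Wt w) {t : Sh} {j : ℕ} (H : Plug w t j) : Plug w (.step t) (j + 1)
  | u, [], h, Φ, F, _ => by
      refine (Tp.tF_step_nil w (t.plug j u) h _).trans
        (Eq.trans ?_ (Tp.tF_step_nil w t h _).symm)
      have := H u [] h (fun _ => Φ fun _ _ => h) F (.const _)
      rw [tF_nil, tF_nil, List.drop_nil] at this
      refine (tF_nil (t.plug j u) h _).trans (Eq.trans ?_ (tF_nil t h _).symm)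
      exact this
  | u, l :: L, h, Φ, F, hΦ => by
      refine (Tp.tF_step_cons hw (t.plug j u) l L h fun x =>
        (egP_trc hΦ _ _).mul (.const _)).trans
        (Eq.trans ?_ (Tp.tF_step_cons hw t l L h fun _ => (egP_trc hΦ id _).mul
          (egP_TEs hw (L.drop j) u id (j + 1) F)).symm)
      congr 1
      funext z
      have := H u L z (fun p => Φ fun a => Gf.cons h (p a)) F (Gf.egP_cons hΦ h)
      refine Eq.trans (congrArg (tF w (t.plug j u) L z) (funext fun p => funext fun x =>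
        congrArg (fun q => Φ q * ∏ α, F α fun b => x (t.pin j u α b))
          (trc_cons h (fun α => p (t.pin j u α (u α).fst)) j))) (this.trans ?_)
      exact congrArg (tF w t L z) (funext fun p => funext fun _ =>
        congrArg (fun q => Φ q * ∏ α, TE w (u α) (L.drop j) (p α j) (F α)) (trc_cons h p j).symm)

theorem plug_one (hw : Wt w) : ∀ j, Plug w .one j
  | 0, u, L, h, Φ, F, _ => by
      refine (cut_zero hw (u ()) L h (fun _ => (u ()).fst) fun p x => Φ p * ∏ α : Unit, F α x).trans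
        (congrArg (tF w .one L h) (funext fun p => funext fun _ => ?_))
      rw [Law.TE_const_mul hw]
      exact congrArg (_ * ·) ((congrArg (TE w (u ()) L (p () 0)) (funext fun x =>
        Fintype.prod_unique (ι := Unit) fun α => F α x)).trans
        (Fintype.prod_unique (ι := Unit) fun α => TE w (u α) L (p α 0) (F α)).symm)
  | j + 1, u, [], h, Φ, F, hΦ => (plug_step hw (plug_one hw j) u [] h Φ F hΦ).trans
      (Tp.tF_step_nil w .one h _)
  | j + 1, u, l :: L, h, Φ, F, hΦ => (plug_step hw (plug_one hw j) u (l :: L) h Φ F hΦ).trans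
      (Tp.tF_one_cons w l L h _).symm

theorem tF_const_mul (s : Sh) (L : List (Lv Ω)) (h : Ω → ℝ) (c : ℝ)
    (F : Pa s.Lf Ω → (s.Lf → Ω) → ℝ) : tF w s L h (fun p x => c * F p x) = c * tF w s L h F :=
  Sd.tX_const_mul w s L h c _

theorem plug_split (hw : Wt w) {s t : Sh} {j : ℕ} (Hs : Plug w s j) (Ht : Plug w t j) :
    Plug w (.split s t) j := fun u L h Φ F hΦ => by
  let ul : s.Lf → Sh := fun a => u (.inl a)
  let ur : t.Lf → Sh := fun a => u (.inr a)
  have h0 := Tp.tF_split hw (s.plug j ul) (t.plug j ur) L h (F := fun p x =>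
    Φ (trc j fun α => p ((Sh.split s t).pin j u α (u α).fst)) *
      ∏ α, F α fun b => x ((Sh.split s t).pin j u α b)) fun x => (egP_trc hΦ _ _).mul (.const _)
  have h1 := Tp.tF_split hw s t L h (F := fun p _ => Φ (trc j p) *
    ∏ α : (Sh.split s t).Lf, TE w (u α) (L.drop j) (p α j) (F α)) fun _ =>
      (egP_trc hΦ id _).mul (egP_TEs hw (L.drop j) u id j F)
  refine h0.trans (Eq.trans ?_ h1.symm)
  have e : ∀ (p : Pa (s.plug j ul).Lf Ω) (q : Pa (t.plug j ur).Lf Ω),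
      (trc j fun α => Sum.elim p q ((Sh.split s t).pin j u α (u α).fst)) =
        Sum.elim (trc j fun α => p (s.pin j ul α (ul α).fst))
          (trc j fun α => q (t.pin j ur α (ur α).fst)) := fun p q => by
    funext a
    cases a <;> rfl
  have hK : EgP fun r : Pa (s.Lf ⊕ t.Lf) Ω =>
      Φ (Sum.elim (fun α => r (.inl α)) (trc j fun β => r (.inr β))) :=
    hΦ.comp fun _ _ r hr a i y => by
      cases a with
      | inl a => exact hr (.inl a) i y
      | inr a => exact hr (.inr a) _ y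
  have hT := egP_TEs hw (L.drop j) ur (Sum.inr : t.Lf → s.Lf ⊕ t.Lf) j fun β => F (.inr β)
  have hE := Tp.egP_tF hw t L h (F := fun r _ =>
      Φ (Sum.elim (fun α => r (.inl α)) (trc j fun β => r (.inr β))) *
        ∏ β, TE w (ur β) (L.drop j) (r (.inr β) j) (F (.inr β))) fun _ => hK.mul hT
  have h2 := Hs ul L h (fun p => tF w t L h fun q _ => Φ (Sum.elim p (trc j q)) *
      ∏ β, TE w (ur β) (L.drop j) (q β j) (F (.inr β))) (fun α => F (.inl α)) hE
  refine Eq.trans (congrArg (tF w (s.plug j ul) L h) (funext fun p => funext fun x => ?_))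
    (h2.trans (congrArg (tF w s L h) (funext fun p => funext fun _ => ?_)))
  · have h3 := Ht ur L h
      (fun q => Φ (Sum.elim (trc j fun α => p (s.pin j ul α (ul α).fst)) q))
      (fun β => F (.inr β)) (Gf.egP_inr hΦ _)
    refine Eq.trans ?_ ((congrArg ((∏ α, F (.inl α) fun b => x (s.pin j ul α b)) * ·) h3).trans
      (mul_comm _ _))
    refine Eq.trans ?_ (tF_const_mul _ L h _ _)
    refine congrArg (tF w (t.plug j ur) L h) (funext fun q => funext fun y => ?_)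
    exact (congrArg₂ (· * ·) (congrArg Φ (e p q)) (Fintype.prod_sum_type (α₁ := s.Lf) (α₂ := t.Lf)
      fun α => F α fun b => Sum.elim x y ((Sh.split s t).pin j u α b))).trans (mul_left_comm _ _ _)
  · refine (mul_comm _ _).trans ((tF_const_mul _ L h _ _).symm.trans ?_)
    refine congrArg (tF w t L h) (funext fun q => funext fun y => ?_)
    exact (mul_left_comm _ _ _).trans (congrArg₂ (· * ·) (congrArg Φ (trc_elim p q j).symm)
      (Fintype.prod_sum_type (α₁ := s.Lf) (α₂ := t.Lf) fun α =>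
        TE w (u α) (L.drop j) (Sum.elim p q α j) (F α)).symm)

end Clu22

variable {Ω : Type} [Fintype Ω] {w : Ω → ℝ}

open Clu22 in
/-- **independent clusters on a skeleton** -/
theorem tF_plug (hw : Wt w) : ∀ (t : Sh) (j : ℕ), Plug w t j
  | .one, j => plug_one hw j
  | .step t, 0 => fun u L h Φ F hΦ => (tF_plug hw t 0 u L h Φ F hΦ).trans
      ((tF_root hw t L h fun p => Φ p * ∏ α, TE w (u α) L (p α 0) (F α)).trans
        (tF_root hw (.step t) L h fun p => Φ p * ∏ α, TE w (u α) L (p α 0) (F α)).symm)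
  | .step t, j + 1 => plug_step hw (tF_plug hw t j)
  | .split s t, j => plug_split hw (tF_plug hw s j) (tF_plug hw t j)

/-- **cluster factorisation for labelled leaves**: `e' ⟨α, a⟩` are leaves of any tree `s'` whose
splits are those of the skeleton `t` between clusters and those of `u α` (shifted by `j`) inside -/
theorem TE_clu (hw : Wt w) (t s' : Sh) (u : t.Lf → Sh) {κ : t.Lf → Type} [∀ α, Finite (κ α)]
    (L : List (Lv Ω)) (h : Ω → ℝ) {j : ℕ} (hj : j ≤ L.length) {e : ∀ α, κ α → (u α).Lf}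
    (he : ∀ α, Function.Injective (e α)) {e' : (Σ α, κ α) → s'.Lf} (he' : Function.Injective e')
    (H1 : ∀ α a b, a ≠ b → s'.shr (e' ⟨α, a⟩) (e' ⟨α, b⟩) L.length =
      (u α).shr (e α a) (e α b) (L.length - j) + j)
    (H2 : ∀ α β a b, α ≠ β → s'.shr (e' ⟨α, a⟩) (e' ⟨β, b⟩) L.length = t.shr α β j)
    (F : ∀ α, (κ α → Ω) → ℝ) :
    TE w s' L h (fun x => ∏ α, F α fun a => x (e' ⟨α, a⟩)) = tF w t L h fun p _ =>
      ∏ α, TE w (u α) (L.drop j) (p α j) fun y => F α fun a => y (e α a) := by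
  have h1 := tF_plug hw t j u L h (fun _ => 1) (fun α y => F α fun a => y (e α a)) (.const 1)
  simp only [one_mul] at h1
  refine Eq.trans ?_ h1
  refine TE_lab hw s' (t.plug j u) L h (e' := fun c : Σ α, κ α => t.pin j u c.1 (e c.1 c.2)) he'
    ?_ ?_ fun x => ∏ α, F α fun a => x ⟨α, a⟩
  · rintro ⟨α, a⟩ ⟨β, b⟩ hh
    obtain rfl : α = β := Clu22.pin_fst t j u _ _ _ _ hh
    exact congrArg (Sigma.mk α) (he α (Clu22.pin_inj t j u α hh))
  · rintro ⟨α, a⟩ ⟨β, b⟩ hh
    have e0 : L.length = L.length - j + j := (Nat.sub_add_cancel hj).symm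
    by_cases hab : α = β
    · subst hab
      rw [H1 α a b fun e => hh (by rw [e])]
      conv_rhs => rw [e0]
      exact (Clu22.shr_pin t j u α _ _ _).symm
    · rw [H2 α β a b hab]
      conv_rhs => rw [e0]
      exact (Clu22.shr_pin_ne t j u α β _ _ _ hab).symm

open Nu87 in
/-- **cluster factorisation for split matrices** -/
theorem TM_clu (hw : Wt w) (t : Sh) {R : ℕ} {r : t.Lf → ℕ} (L : List (Lv Ω)) (h : Ω → ℝ) {j : ℕ}
    (hj : j ≤ L.length) {σ : SM R} (hσ : Rz L.length σ) {ρ : ∀ α, SM (r α)}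
    (hρ : ∀ α, Rz (L.length - j) (ρ α)) {ι : (Σ α, Fin (r α)) → Fin R} (hι : Function.Injective ι)
    (H1 : ∀ α a b, a ≠ b → σ (ι ⟨α, a⟩) (ι ⟨α, b⟩) = ρ α a b + j)
    (H2 : ∀ α β a b, α ≠ β → σ (ι ⟨α, a⟩) (ι ⟨β, b⟩) = t.shr α β j)
    (F : ∀ α, (Fin (r α) → Ω) → ℝ) :
    TM w L h σ (fun x => ∏ α, F α fun a => x (ι ⟨α, a⟩)) =
      tF w t L h fun p _ => ∏ α, TM w (L.drop j) (p α j) (ρ α) (F α) := by
  obtain ⟨s, e', rfl⟩ := hσ
  choose u e he using hρ
  rw [TM_sm hw s L h e'.injective]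
  refine (TE_clu hw t s u L h hj (e := fun α => e α) (fun α => (e α).injective)
    (e' := fun c => e' (ι c)) (e'.injective.comp hι) (fun α a b hab => ?_) H2 F).trans ?_
  · exact (H1 α a b hab).trans (by rw [he α]; rfl)
  · refine congrArg (tF w t L h) (funext fun p => funext fun _ =>
      Finset.prod_congr rfl fun α _ => ?_)
    rw [he α, ← List.length_drop, TM_sm hw _ _ _ (e α).injective]

/-! ### the weights at a cut -/

omit [Fintype Ω] in
theorem ex_drop22 (L : List (Lv Ω)) (j i : ℕ) : ex (L.drop j) i = ex L (i + j) := by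
  simp only [T157.Casc.ex, List.getElem?_drop, add_comm]

omit [Fintype Ω] in
/-- the node weights above the cut are those of the clusters -/
theorem Ws_cut {κ : Type} [Fintype κ] (L : List (Lv Ω)) (σ : κ → κ → ℕ) (G : κ → ℕ → ℝ) {j : ℕ}
    (hj : j ≤ L.length) : Ws L σ G =
      Ws (L.drop j) (fun a b => σ a b - j) (fun a k => G a (k + j)) +
        ∑ i ∈ Finset.range j, ex L i * ∑ a, (G a i - G a (i + 1)) / cls σ a (i + 1) := by
  have hc : ∀ a i, cls (fun a b => σ a b - j) a (i + 1) = cls σ a (j + i + 1) := fun a i =>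
    congrArg Finset.card (Finset.filter_congr fun b _ => by beta_reduce; omega)
  obtain ⟨k, hk⟩ := Nat.exists_eq_add_of_le hj
  simp only [Ws, List.length_drop, ex_drop22, hc]
  rw [Nat.sub_add_cancel hj, hk, Finset.sum_range_add, Nat.add_sub_cancel_left, add_assoc,
    add_comm (∑ i ∈ Finset.range k, _)]
  simp only [add_comm j, add_right_comm _ 1 j]

omit [Fintype Ω] in
/-- blocks without common level -/
theorem Ws_sigma {A : Type} [Fintype A] {κ : A → Type} [∀ α, Fintype (κ α)] (L : List (Lv Ω))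
    (σ : (Σ α, κ α) → (Σ α, κ α) → ℕ) (G : (Σ α, κ α) → ℕ → ℝ)
    (h : ∀ α β a b, α ≠ β → σ ⟨α, a⟩ ⟨β, b⟩ = 0) :
    Ws L σ G = ∑ α, Ws L (fun a b => σ ⟨α, a⟩ ⟨α, b⟩) fun a => G ⟨α, a⟩ := by
  have hc : ∀ α a j, cls σ ⟨α, a⟩ (j + 1) = cls (fun a b => σ ⟨α, a⟩ ⟨α, b⟩) a (j + 1) :=
    fun α a j => by
      simp only [cls, Finset.card_filter, Fintype.sum_sigma]
      exact Finset.sum_eq_single α (fun β _ hβ => by simp [h α β _ _ hβ.symm]) (by simp)
  simp only [Ws, Fintype.sum_sigma, hc, Finset.sum_add_distrib, Finset.mul_sum]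
  exact congrArg (_ + ·) Finset.sum_comm

/-! ### one leg -/

/-- signed sum over the positions of a leg `f` -/
def dL (w : Ω → ℝ) (L : List (Lv Ω)) (h : Ω → ℝ) {r : ℕ} (σ : SM r) (f : Ω → ℝ)
    (F : (Fin r → Ω) → ℝ) : ℝ :=
  ∑ a, TM w L h σ (fun x => F x * f (x a)) -
    Ws L σ fun a k => TM w L h (gr L.length σ a k) fun x => F (fun c => x c.succ) * f (x 0)

open Nu87 in
theorem dL_eq (hw : Wt w) (L : List (Lv Ω)) (h : Ω → ℝ) {r : ℕ} {s : Sh} (e : Fin r ≃ s.Lf)
    (f : Ω → ℝ) (F : (Fin r → Ω) → ℝ) :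
    dL w L h (sm s e L.length) f F = One15.dS w s L h f fun x => F fun a => x (e a) := by
  rw [dL, One15.dS, Gn_eq hw e fun x _ => F (fun c => x c.succ) * f (x 0), Wt87.sum_cw_eq,
    ← e.sum_comp]
  simp only [TM_sm hw s L h e.injective]
  rfl

open Nu87 in
/-- **leg sum = derivative in the state** -/
theorem hasDerivAt_dL (hw : Wt w) (L : List (Lv Ω)) (h : Ω → ℝ) {r : ℕ} {σ : SM r}
    (hσ : Rz L.length σ) (f : Ω → ℝ) (F : (Fin r → Ω) → ℝ) (e : ℝ) :
    HasDerivAt (fun e : ℝ => TM w L (h + e • f) σ F) (dL w L (h + e • f) σ f F) e := by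
  obtain ⟨s, e', rfl⟩ := hσ
  simp only [TM_sm hw s L _ e'.injective, dL_eq hw]
  exact One15.hasDerivAt_TE hw s L h f _ e

/-! ### two legs -/

/-- the Hessian as a replica sum -/
theorem Hb_eq_pair (hw : Wt w) (f f' : Ω → ℝ) : ∀ (L : List (Lv Ω)) (m : ℝ) (h : Ω → ℝ),
    Hb w L h f f' + m * (Pf w L h f * Pf w L h f') =
      Pf w L h (fun x => f x * f' x) - pair w L m (fun _ x y => f x * f' y) h
  | [], m, h => by
    have : qf (P w [] h) (fun x y => f x * f' y) = Pf w [] h f * Pf w [] h f' := by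
      simp only [Hess87.Pf_mul_Pf, qf, mul_comm]
    rw [Hess87.Hb_nil, Cb, pair, this]
    ring
  | l :: L, m, h => by
    have hX := lg_X hw L
    have : qf (P w (l :: L) h) (fun x y => f x * f' y) = Pf w (l :: L) h f * Pf w (l :: L) h f' := by
      simp only [Hess87.Pf_mul_Pf, qf, mul_comm]
    have e := congrArg (fun Φ => tE l (X w L) Φ h) (funext (Hb_eq_pair hw f f' L l.m))
    beta_reduce at e
    rw [tE_add hX (Hess87.eg_Hb hw L f f')
      (((Hess87.eg_Pf hw L f).mul (Hess87.eg_Pf hw L f')).const_mul _), tE_const_mul,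
      tE_sub hX (Hess87.eg_Pf hw L _) (eg_pair hw L _ _), ← Hess87.Pf_cons hw] at e
    rw [Hess87.Hb_cons hw, pair, this]
    linarith

theorem Hb_eq_sum (hw : Wt w) (L : List (Lv Ω)) (m : ℝ) (h f f' : Ω → ℝ) :
    Hb w L h f f' + m * (Pf w L h f * Pf w L h f') = Pf w L h (fun x => f x * f' x) -
      ∑ j ∈ Finset.range (L.length + 1), dm L m j * pi2 w L j (fun x y => f x * f' y) h := by
  rw [Hb_eq_pair hw, pair_eq_sum hw]

/-- Abel summation for two kept legs -/
theorem abel_leg (c B : ℕ → ℝ) (T : ℝ) (n : ℕ) :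
    T - ∑ i ∈ Finset.range (n + 1), c i * B i = (1 - ∑ i ∈ Finset.range (n + 1), c i) * B 0 +
      ∑ y ∈ Finset.range n, (1 - ∑ i ∈ Finset.Ico (y + 1) (n + 1), c i) * (B (y + 1) - B y) +
        (T - B n) := by
  induction n with
  | zero => simp; ring
  | succ n ih =>
    have e : ∑ y ∈ Finset.range (n + 1),
        (1 - ∑ i ∈ Finset.Ico (y + 1) (n + 1 + 1), c i) * (B (y + 1) - B y) =
        ∑ y ∈ Finset.range (n + 1), (1 - ∑ i ∈ Finset.Ico (y + 1) (n + 1), c i) * (B (y + 1) - B y) -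
          c (n + 1) * (B (n + 1) - B 0) := by
      rw [← Finset.sum_range_sub B, Finset.mul_sum, ← Finset.sum_sub_distrib]
      refine Finset.sum_congr rfl fun y hy => ?_
      rw [Finset.sum_Ico_succ_top (Finset.mem_range.1 hy)]
      ring
    rw [e, Finset.sum_range_succ _ (n + 1), Finset.sum_range_succ c (n + 1),
      Finset.sum_range_succ (fun y => (1 - ∑ i ∈ Finset.Ico (y + 1) (n + 1), c i) * _) n,
      Finset.Ico_self, Finset.sum_empty]
    linarith

section Prd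

variable {Ω₁ Ω₂ : Type} [Fintype Ω₁] [Fintype Ω₂] {w₁ : Ω₁ → ℝ} {w₂ : Ω₂ → ℝ}
  {L : List (Lv (Ω₁ × Ω₂))} {T : List (Lv Ω₁ × Lv Ω₂)}

theorem Pf_prd22 (h₁ : Wt w₁) (h₂ : Wt w₂) (H : List.Forall₂ Prd L T) (z₁ f : Ω₁ → ℝ)
    (z₂ e : Ω₂ → ℝ) : Pf (pw2 w₁ w₂) L (ad z₁ z₂) (fun x => f x.1 * e x.2) =
      Pf w₁ (T.map Prod.fst) z₁ f * Pf w₂ (T.map Prod.snd) z₂ e := by
  simp only [Pf, Law.P_prd h₁ h₂ H, Fintype.sum_prod_type, Finset.sum_mul_sum]
  exact Finset.sum_congr rfl fun _ _ => Finset.sum_congr rfl fun _ _ => by ring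

theorem pi2_prd22 (h₁ : Wt w₁) (h₂ : Wt w₂) (H : List.Forall₂ Prd L T) (j : ℕ) (z₁ : Ω₁ → ℝ)
    (z₂ : Ω₂ → ℝ) (K₁ : Ω₁ → Ω₁ → ℝ) (K₂ : Ω₂ → Ω₂ → ℝ) (hj : j ≤ L.length) :
    pi2 (pw2 w₁ w₂) L j (fun x y => K₁ x.1 y.1 * K₂ x.2 y.2) (ad z₁ z₂) =
      pi2 w₁ (T.map Prod.fst) j K₁ z₁ * pi2 w₂ (T.map Prod.snd) j K₂ z₂ := by
  have hr : Nu87.Rz L.length (gr L.length (fun _ _ : Fin 1 => L.length) 0 j) :=
    (Nu87.rz_one _).gr 0 j
  have e : gr L.length (fun _ _ : Fin 1 => L.length) 0 j 0 1 = j := min_eq_left hj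
  have := Nu87.TM_prd h₁ h₂ H hr (fun x => K₁ (x 0) (x 1)) (fun x => K₂ (x 0) (x 1)) z₁ z₂
  have l1 : (T.map Prod.fst).length = L.length := by rw [List.length_map, H.length_eq]
  have l2 : (T.map Prod.snd).length = L.length := by rw [List.length_map, H.length_eq]
  rwa [Nu87.TM_pair (Law.wt_pw2 h₁ h₂) hr zero_ne_one fun x y => K₁ x.1 y.1 * K₂ x.2 y.2,
    Nu87.TM_pair h₁ (l1 ▸ hr) zero_ne_one, Nu87.TM_pair h₂ (l2 ▸ hr) zero_ne_one, e] at this

/-- **(F2), replica form** -/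
theorem Hb_prd (h₁ : Wt w₁) (h₂ : Wt w₂) (H : List.Forall₂ Prd L T) (m : ℝ) (z₁ f f' : Ω₁ → ℝ)
    (z₂ e e' : Ω₂ → ℝ) :
    Hb (pw2 w₁ w₂) L (ad z₁ z₂) (fun x => f x.1 * e x.2) (fun x => f' x.1 * e' x.2) +
      m * (Pf w₁ (T.map Prod.fst) z₁ f * Pf w₁ (T.map Prod.fst) z₁ f' *
        (Pf w₂ (T.map Prod.snd) z₂ e * Pf w₂ (T.map Prod.snd) z₂ e')) =
    Pf w₁ (T.map Prod.fst) z₁ (fun x => f x * f' x) *
        Pf w₂ (T.map Prod.snd) z₂ (fun x => e x * e' x) -
      ∑ j ∈ Finset.range (L.length + 1), dm L m j *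
        (pi2 w₁ (T.map Prod.fst) j (fun x y => f x * f' y) z₁ *
          pi2 w₂ (T.map Prod.snd) j (fun x y => e x * e' y) z₂) := by
  have := Hb_eq_sum (Law.wt_pw2 h₁ h₂) L m (ad z₁ z₂) (fun x => f x.1 * e x.2)
    fun x => f' x.1 * e' x.2
  rw [Pf_prd22 h₁ h₂ H, Pf_prd22 h₁ h₂ H, mul_mul_mul_comm] at this
  simp only [mul_mul_mul_comm (f _) (e _)] at this
  rw [this, Pf_prd22 h₁ h₂ H z₁ (fun x => f x * f' x) z₂ fun x => e x * e' x]
  congr 1
  refine Finset.sum_congr rfl fun j hj => congrArg (dm L m j * ·) ?_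
  exact pi2_prd22 h₁ h₂ H j z₁ z₂ (fun x y => f x * f' y) (fun x y => e x * e' y)
    (Nat.lt_succ_iff.1 (Finset.mem_range.1 hj))

/-- **(F2)**: `λ m m' + ∑ χ_y ΔC_y`, `χ_y = 1 - ∑_{i ≥ y} dm_i Γ_i`, for `e e' = 1` -/
theorem Hb_prd_abel (h₁ : Wt w₁) (h₂ : Wt w₂) (H : List.Forall₂ Prd L T) (m : ℝ)
    (z₁ f f' : Ω₁ → ℝ) (z₂ e e' : Ω₂ → ℝ) (he : ∀ x, e x * e' x = 1) {B Γ : ℕ → ℝ}
    (hB : ∀ j, B j = pi2 w₁ (T.map Prod.fst) j (fun x y => f x * f' y) z₁)
    (hΓ : ∀ j, Γ j = pi2 w₂ (T.map Prod.snd) j (fun x y => e x * e' y) z₂) :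
    Hb (pw2 w₁ w₂) L (ad z₁ z₂) (fun x => f x.1 * e x.2) (fun x => f' x.1 * e' x.2) +
      m * (B 0 * Γ 0) =
    (1 - ∑ i ∈ Finset.range (L.length + 1), dm L m i * Γ i) * B 0 +
      ∑ y ∈ Finset.range L.length,
        (1 - ∑ i ∈ Finset.Ico (y + 1) (L.length + 1), dm L m i * Γ i) * (B (y + 1) - B y) +
      (Pf w₁ (T.map Prod.fst) z₁ (fun x => f x * f' x) - B L.length) := by
  have := Hb_prd h₁ h₂ H m z₁ f f' z₂ e e'
  have e1 : Pf w₂ (T.map Prod.snd) z₂ (fun x => e x * e' x) = 1 := by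
    simp only [he, Pf, mul_one, sum_P h₂]
  rw [← abel_leg (fun i => dm L m i * Γ i) B, hB 0, hΓ 0, pi2_zero, pi2_zero]
  simp only [hB, hΓ, mul_assoc, mul_comm (pi2 w₂ _ _ _ _)]
  rw [e1, mul_one] at this
  rw [← this]
  simp only [Hess87.Pf_mul_Pf, qf, mul_comm]

end Prd

end Crest.Agent.T156.Cas

end
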