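import Crest.Agent.T156.Rp_90
import Crest.Agent.T156.LegB_51

/-!
# Row 156 (helper20): triangles in the skeleton sums of three low edges

`stp` adds one low edge on a skeleton.  If a functional vanishes on graphs with an odd vertex,
three edges must close a triangle.
-/

set_option autoImplicit false
set_option linter.all false

noncomputable section

namespace Crest.Agent.T156.Cas.Y20

open MeasureTheory Real Set Filter Topology
open Crest.Agent.T157.E Crest.Agent.T157.Casc Crest.Agent.T157.SL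
open Wt87 Leg51
open Tay38 (emb_ne emb_inj)

variable {Θ : Type} {ε : ℝ} {i n : ℕ} {M : List (Lv Θ)} {t : Sh}

/-- edges -/
abbrev Ed (t : Sh) : Type := List (t.Lf × t.Lf)

/-- the edges after one more graft term -/
def nx (τ : GT t) (E : Ed t) : Ed τ.sh := E.map (Prod.map τ.e τ.e) ++ [(τ.p, τ.q)]

/-- degree of a vertex -/
def dgE {α : Type} [DecidableEq α] (E : List (α × α)) (x : α) : ℕ :=
  (E.map fun e => (if e.1 = x then 1 else 0) + if e.2 = x then 1 else 0).sum

/-- functionals of (skeleton, mark, edges) -/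
abbrev VF : Type := (t : Sh) → t.Lf → Ed t → ℝ

/-- one more low edge -/
def stp (ε : ℝ) (i : ℕ) (M : List (Lv Θ)) (V : VF) : VF := fun t m E =>
  lsg ε i M t fun τ _ _ => V τ.sh (τ.e m) (nx τ E)

/-- vanishes on graphs with an odd vertex -/
def Ev (V : VF) : Prop := ∀ t m E x, Odd (dgE E x) → V t m E = 0

section dg
variable {α β : Type} [DecidableEq α] [DecidableEq β]

theorem dgE_nil (x : α) : dgE [] x = 0 := rfl

theorem dgE_cons (a b : α) (E : List (α × α)) (x : α) :
    dgE ((a, b) :: E) x = (if a = x then 1 else 0) + (if b = x then 1 else 0) + dgE E x := by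
  simp [dgE]

theorem dgE_snoc (a b : α) (E : List (α × α)) (x : α) :
    dgE (E ++ [(a, b)]) x = dgE E x + (if a = x then 1 else 0) + if b = x then 1 else 0 := by
  simp [dgE, add_assoc]

theorem dgE_map {e : α → β} (he : Function.Injective e) (E : List (α × α)) (x : α) :
    dgE (E.map (Prod.map e e)) (e x) = dgE E x := by
  simp [dgE, Function.comp_def, he.eq_iff]

theorem dgE_out {e : α → β} (E : List (α × α)) {y : β} (h : ∀ x, e x ≠ y) :
    dgE (E.map (Prod.map e e)) y = 0 := by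
  simp [dgE, Function.comp_def, h]

end dg

variable {τ : GT t} {op oq : Bool}

theorem LM.inj (H : LM i n t τ op oq) : Function.Injective τ.e := by
  cases H with
  | g0 => exact Function.injective_id
  | g1 a b => exact emb_inj t a _
  | g1' a b => exact emb_inj t a _
  | g2 a b => exact (emb_inj _ _ _).comp (emb_inj t b _)
  | g3 a => exact (emb_inj _ _ _).comp (emb_inj t a _)

theorem LM.ne (H : LM i n t τ op oq) : τ.p ≠ τ.q := by
  cases H with
  | g0 h => exact h.symm
  | g1 a b => exact emb_ne t a _ b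
  | g1' a b => exact (emb_ne t a _ b).symm
  | g2 a b => exact (emb_ne _ _ _ _).symm
  | g3 a => exact emb_ne _ _ _ _

theorem LM.newp (H : LM i n t τ false oq) (x : t.Lf) : τ.e x ≠ τ.p := by
  cases H with
  | g1' a b => exact emb_ne t a _ x
  | g2 a b => exact emb_ne _ _ _ _
  | g3 a => exact fun e => emb_ne t a _ x (emb_inj _ _ _ e)

theorem LM.newq (H : LM i n t τ op false) (x : t.Lf) : τ.e x ≠ τ.q := by
  cases H with
  | g1 a b => exact emb_ne t a _ x
  | g2 a b => exact fun e => emb_ne t b _ x (emb_inj _ _ _ e)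
  | g3 a => exact emb_ne _ _ _ _

theorem dg_newp (H : LM i n t τ false oq) (E : Ed t) : dgE (nx τ E) τ.p = 1 := by
  rw [nx, dgE_snoc, dgE_out E (LM.newp H), if_pos rfl, if_neg (LM.ne H).symm]

theorem dg_newq (H : LM i n t τ op false) (E : Ed t) : dgE (nx τ E) τ.q = 1 := by
  rw [nx, dgE_snoc, dgE_out E (LM.newq H), if_pos rfl, if_neg (LM.ne H)]

theorem nx_g0 (a b : t.Lf) (E : Ed t) : nx (.g0 t n a b) E = E ++ [(a, b)] :=
  congrArg (· ++ [(a, b)]) (List.map_id E)

/-- only old clusters -/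
theorem lsg_old {Φ : GT t → Bool → Bool → ℝ}
    (H : ∀ τ op oq, LM i M.length t τ op oq → op = false ∨ oq = false → Φ τ op oq = 0) :
    lsg ε i M t Φ = ∑ a, ∑ b ∈ Finset.univ.erase a, Φ (.g0 t M.length a b) true true := by
  rw [lsg_congr (Ψ := fun τ op oq => if op = true ∧ oq = true then Φ τ op oq else 0)
    fun τ op oq h => by
      split_ifs with h'
      · rfl
      · exact H τ op oq h (by cases op <;> cases oq <;> simp_all)]
  simp [lsg]

/-- at most one new cluster -/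
theorem lsg_one {Φ : GT t → Bool → Bool → ℝ}
    (H : ∀ τ, LM i M.length t τ false false → Φ τ false false = 0) :
    lsg ε i M t Φ = ∑ a, ∑ b ∈ Finset.univ.erase a, Φ (.g0 t M.length a b) true true +
      ε * ∑ a, ∑ j ∈ Finset.range (i + 1), cw t M a j *
        (∑ b, Φ (.g1 t a j b) true false + ∑ b, Φ (.g1' t a j b) false true) := by
  rw [lsg_congr (Ψ := fun τ op oq => if op = false ∧ oq = false then 0 else Φ τ op oq)
    fun τ op oq h => by
      split_ifs with h'
      · obtain ⟨rfl, rfl⟩ := h'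
        exact H τ h
      · rfl]
  simp [lsg]

variable {V : VF}

theorem stp_last (hV : Ev V) (m : t.Lf) (E : Ed t) :
    stp ε i M V t m E = ∑ a, ∑ b ∈ Finset.univ.erase a, V t m (E ++ [(a, b)]) := by
  rw [stp, lsg_old fun τ op oq h h' => by
    rcases h' with rfl | rfl
    exacts [hV _ _ _ _ (dg_newp h E ▸ odd_one), hV _ _ _ _ (dg_newq h E ▸ odd_one)]]
  simp only [nx_g0]
  rfl

theorem stp_zero (hV : Ev V) (m : t.Lf) {E : Ed t}
    (h : ∀ a b, a ≠ b → ∃ x, Odd (dgE (E ++ [(a, b)]) x)) : stp ε i M V t m E = 0 := by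
  rw [stp_last hV]
  refine Finset.sum_eq_zero fun a _ => Finset.sum_eq_zero fun b hb => ?_
  obtain ⟨x, hx⟩ := h a b (Finset.ne_of_mem_erase hb).symm
  exact hV _ _ _ x hx

theorem stp_three (hV : Ev V) (m : t.Lf) {E : Ed t} {x y z : t.Lf} (h1 : x ≠ y) (h2 : x ≠ z)
    (h3 : y ≠ z) (hx : Odd (dgE E x)) (hy : Odd (dgE E y)) (hz : Odd (dgE E z)) :
    stp ε i M V t m E = 0 := by
  refine stp_zero hV m fun a b _ => ?_
  have k : ∀ u, Odd (dgE E u) → a ≠ u → b ≠ u → ∃ x, Odd (dgE (E ++ [(a, b)]) x) :=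
    fun u hu ha hb => ⟨u, by rwa [dgE_snoc, if_neg ha, if_neg hb]⟩
  by_cases a1 : a = x
  · by_cases b1 : b = y
    · exact k z hz (a1 ▸ h2) (b1 ▸ h3)
    · exact k y hy (a1 ▸ h1) b1
  · by_cases b1 : b = x
    · by_cases a2 : a = y
      · exact k z hz (a2 ▸ h3) (b1 ▸ h2)
      · exact k y hy a2 (b1 ▸ h1)
    · exact k x hx a1 b1

theorem stp_even (hV : Ev V) (m : t.Lf) {E : Ed t} (h : ∀ x, Even (dgE E x)) :
    stp ε i M V t m E = 0 :=
  stp_zero hV m fun a b hab => ⟨a, by
    rw [dgE_snoc, if_pos rfl, if_neg hab.symm]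
    exact (h a).add_one⟩

theorem sum_two_pairs {α : Type} [Fintype α] [DecidableEq α] {u v : α} (h : u ≠ v)
    {F : α → α → ℝ} (H : ∀ a b, a ≠ b → (a ≠ u ∧ b ≠ u) ∨ (a ≠ v ∧ b ≠ v) → F a b = 0) :
    ∑ a, ∑ b ∈ Finset.univ.erase a, F a b = F u v + F v u := by
  rw [Finset.sum_eq_add u v h (fun a _ ha => Finset.sum_eq_zero fun b hb => ?_) (by simp) (by simp),
    Finset.sum_eq_single v (fun b hb hv => ?_) (by simp [h.symm]),
    Finset.sum_eq_single u (fun b hb hv => ?_) (by simp [h])]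
  · exact H _ _ (Finset.ne_of_mem_erase hb).symm (.inl ⟨h.symm, hv⟩)
  · exact H _ _ (Finset.ne_of_mem_erase hb).symm (.inr ⟨h, hv⟩)
  · refine H _ _ (Finset.ne_of_mem_erase hb).symm ?_
    by_cases e : b = u
    · exact .inr ⟨ha.2, e ▸ h⟩
    · exact .inl ⟨ha.1, e⟩

theorem stp_close (hV : Ev V) (m : t.Lf) {E : Ed t} {u v : t.Lf} (h : u ≠ v)
    (hu : Odd (dgE E u)) (hv : Odd (dgE E v)) :
    stp ε i M V t m E = V t m (E ++ [(u, v)]) + V t m (E ++ [(v, u)]) := by
  rw [stp_last hV]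
  refine sum_two_pairs h (F := fun a b => V t m (E ++ [(a, b)])) fun a b _ h' => ?_
  rcases h' with ⟨h1, h2⟩ | ⟨h1, h2⟩
  · exact hV _ _ _ u (by rwa [dgE_snoc, if_neg h1, if_neg h2])
  · exact hV _ _ _ v (by rwa [dgE_snoc, if_neg h1, if_neg h2])

/-- the value on triangles does not depend on the order and the orientation of the edges -/
def Tri (V : VF) (Tr : (t : Sh) → t.Lf → t.Lf → t.Lf → t.Lf → ℝ) : Prop :=
  ∀ t m u v x, u ≠ v → u ≠ x → v ≠ x → ∀ e e', e = (u, x) ∨ e = (x, u) → e' = (v, x) ∨ e' = (x, v) →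
    V t m [(u, v), e, e'] = Tr t m u v x ∧ V t m [(u, v), e', e] = Tr t m u v x

variable {Tr : (t : Sh) → t.Lf → t.Lf → t.Lf → t.Lf → ℝ}

theorem stp_path (hV : Ev V) (hT : Tri V Tr) (m : t.Lf) {u v x : t.Lf} (h1 : u ≠ v) (h2 : u ≠ x)
    (h3 : v ≠ x) {e : t.Lf × t.Lf} (he : (e = (u, x) ∨ e = (x, u)) ∨ e = (v, x) ∨ e = (x, v)) :
    stp ε i M V t m [(u, v), e] = 2 * Tr t m u v x := by
  have := h1.symm
  have := h2.symm
  have := h3.symm
  rcases he with he | he
  · rw [stp_close hV m h3 (by rcases he with rfl | rfl <;> simp [dgE_cons, dgE_nil, *])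
      (by rcases he with rfl | rfl <;> simp [dgE_cons, dgE_nil, *]), two_mul]
    exact ac (hT t m u v x h1 h2 h3 e _ he (.inl rfl)).1 (hT t m u v x h1 h2 h3 e _ he (.inr rfl)).1
  · rw [stp_close hV m h2 (by rcases he with rfl | rfl <;> simp [dgE_cons, dgE_nil, *])
      (by rcases he with rfl | rfl <;> simp [dgE_cons, dgE_nil, *]), two_mul]
    exact ac (hT t m u v x h1 h2 h3 _ e (.inl rfl) he).2 (hT t m u v x h1 h2 h3 _ e (.inr rfl) he).2

theorem stp_far (hV : Ev V) (m : t.Lf) {u v a b : t.Lf} (h1 : u ≠ v) (h2 : a ≠ b) (h3 : a ≠ u)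
    (h4 : a ≠ v) (h5 : b ≠ u) (h6 : b ≠ v) : stp ε i M V t m [(u, v), (a, b)] = 0 := by
  have := h1.symm
  have := h2.symm
  have := h3.symm
  have := h4.symm
  exact stp_three hV m h1 h3.symm h4.symm (by simp [dgE_cons, dgE_nil, *])
    (by simp [dgE_cons, dgE_nil, *]) (by simp [dgE_cons, dgE_nil, h5.symm, h6.symm, *])

theorem sum_pairs_old {α : Type} [Fintype α] [DecidableEq α] {u v : α} (h : u ≠ v)
    {F : α → α → ℝ} {T : α → ℝ} (h0 : F u v = 0) (h0' : F v u = 0)
    (h1 : ∀ x, u ≠ x → v ≠ x → F u x = T x ∧ F x u = T x ∧ F v x = T x ∧ F x v = T x)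
    (h2 : ∀ a b, a ≠ b → a ≠ u → a ≠ v → b ≠ u → b ≠ v → F a b = 0) :
    ∑ a, ∑ b ∈ Finset.univ.erase a, F a b = 4 * ∑ x ∈ (Finset.univ.erase u).erase v, T x := by
  have hv : v ∈ Finset.univ.erase u := by simp [h.symm]
  have m : ∀ {x}, x ∈ (Finset.univ.erase u).erase v → u ≠ x ∧ v ≠ x := fun hx => by
    simp only [Finset.mem_erase] at hx
    exact ⟨hx.2.1.symm, hx.1.symm⟩
  have e1 : ∑ b ∈ Finset.univ.erase u, F u b = ∑ x ∈ (Finset.univ.erase u).erase v, T x := by
    rw [← Finset.add_sum_erase _ _ hv, h0, zero_add]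
    exact Finset.sum_congr rfl fun x hx => (h1 x (m hx).1 (m hx).2).1
  have e2 : ∑ b ∈ Finset.univ.erase v, F v b = ∑ x ∈ (Finset.univ.erase u).erase v, T x := by
    rw [← Finset.add_sum_erase _ _ (show u ∈ Finset.univ.erase v by simp [h]), h0', zero_add,
      Finset.erase_right_comm]
    exact Finset.sum_congr rfl fun x hx => (h1 x (m hx).1 (m hx).2).2.2.1
  have e3 : ∀ a ∈ (Finset.univ.erase u).erase v, ∑ b ∈ Finset.univ.erase a, F a b = 2 * T a :=
    fun a ha => by
      obtain ⟨k1, k2⟩ := m ha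
      rw [Finset.sum_eq_add u v h (fun b hb hb' => h2 a b (Finset.ne_of_mem_erase hb).symm
        k1.symm k2.symm hb'.1 hb'.2) (by simp [k1]) (by simp [k2]), (h1 a k1 k2).2.1,
        (h1 a k1 k2).2.2.2, two_mul]
  rw [← Finset.add_sum_erase _ _ (Finset.mem_univ u), e1, ← Finset.add_sum_erase _ _ hv, e2,
    Finset.sum_congr rfl e3, ← Finset.mul_sum]
  ring

/-- **two more edges on one edge**: the third vertex is an old cluster or a new one -/
theorem stp_stp (hV : Ev V) (hT : Tri V Tr) (m : t.Lf) {u v : t.Lf} (h : u ≠ v) :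
    stp ε i M (stp ε i M V) t m [(u, v)] =
      8 * ∑ x ∈ (Finset.univ.erase u).erase v, Tr t m u v x +
      ε * ∑ a, ∑ j ∈ Finset.range (i + 1), cw t M a j *
        (8 * Tr (t.graft a j) (t.emb a j m) (t.emb a j u) (t.emb a j v) (t.nw a j)) := by
  rw [stp, lsg_one fun τ hτ => stp_far hV _ ((LM.inj hτ).ne h) (LM.ne hτ) (LM.newp hτ u).symm
    (LM.newp hτ v).symm (LM.newq hτ u).symm (LM.newq hτ v).symm]
  refine ac ?_ (mc (Finset.sum_congr rfl fun a _ => Finset.sum_congr rfl fun j _ => mc ?_))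
  · refine (sum_pairs_old h (F := fun a b => stp ε i M V t m [(u, v), (a, b)])
      (T := fun x => 2 * Tr t m u v x) ?_ ?_ (fun x h1 h2 => ⟨stp_path hV hT m h h1 h2 (by simp),
        stp_path hV hT m h h1 h2 (by simp), stp_path hV hT m h h1 h2 (by simp),
        stp_path hV hT m h h1 h2 (by simp)⟩) fun a b h1 h2 h3 h4 h5 =>
          stp_far hV m h h1 h2 h3 h4 h5).trans (by rw [← Finset.mul_sum]; ring)
    all_goals
      refine stp_even hV m fun x => ?_
      simp only [dgE_cons, dgE_nil]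
      split_ifs <;> decide
  · have h1 := (emb_inj t a j).ne h
    have h2 := emb_ne t a j
    have k : ∀ F : t.Lf → ℝ, F u = 2 * Tr (t.graft a j) (t.emb a j m) (t.emb a j u) (t.emb a j v)
        (t.nw a j) → F v = 2 * Tr (t.graft a j) (t.emb a j m) (t.emb a j u) (t.emb a j v)
        (t.nw a j) → (∀ b, b ≠ u → b ≠ v → F b = 0) → ∑ b, F b =
          4 * Tr (t.graft a j) (t.emb a j m) (t.emb a j u) (t.emb a j v) (t.nw a j) :=
      fun F e1 e2 e3 => by
        rw [Finset.sum_eq_add u v h (fun b _ hb => e3 b hb.1 hb.2) (by simp) (by simp), e1, e2]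
        ring
    refine (ac (k _ (stp_path hV hT _ h1 (h2 u) (h2 v) (.inl (.inl rfl)))
        (stp_path hV hT _ h1 (h2 u) (h2 v) (.inr (.inl rfl))) fun b k1 k2 =>
          stp_far hV _ h1 (h2 b) ((emb_inj t a j).ne k1) ((emb_inj t a j).ne k2) (h2 u).symm
            (h2 v).symm)
      (k _ (stp_path hV hT _ h1 (h2 u) (h2 v) (.inl (.inr rfl)))
        (stp_path hV hT _ h1 (h2 u) (h2 v) (.inr (.inr rfl))) fun b k1 k2 =>
          stp_far hV _ h1 (h2 b).symm (h2 u).symm (h2 v).symm ((emb_inj t a j).ne k1)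
            ((emb_inj t a j).ne k2))).trans (by ring)

end Crest.Agent.T156.Cas.Y20

end
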