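import Crest.Agent.T156.CY4A_89
import Crest.Agent.T156.LowB_51
import Crest.Agent.T156.CluB_22

/-!
# Row 156 (helper14): an upper letter on a cluster, low letters on any tree

`usg` is the part of `sg` with all grafts above the cut; `St_old`, `St_one` expand one low letter
on a tree with two clusters or one cluster; `LW_gr`, `LW_gr2` evaluate legs on two clusters.
-/

set_option autoImplicit false
set_option linter.all false

noncomputable section

namespace Crest.Agent.T156.Cas.Mx14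

open MeasureTheory Real Set Filter Topology
open Crest.Agent.T157.E Crest.Agent.T157.Casc Crest.Agent.T157.SL
open Wt87 (shr_emb shr_nw shr_nw' shr_self shr_comm shr_le shr_congr shr_min card_graft shr_zero)
open Leg51 Low51 Lsg89

variable {Ω S Θ Θ' ι : Type} {ε : ℝ} {i n : ℕ} {M : List (Lv Θ)} {t s u : Sh}

/-! ### the upper part of a graft sum -/

/-- all grafts above the cut -/
def usg (ε : ℝ) (i : ℕ) (M : List (Lv Θ)) (s : Sh) (Φ : GT s → ℝ) : ℝ :=
  ∑ a, ∑ b ∈ Finset.univ.erase a, Φ (.g0 s M.length a b) +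
  ε * ∑ a, ∑ j ∈ Finset.Ioc i M.length, cw s M a j *
    (∑ b, Φ (.g1 s a j b) + ∑ b, Φ (.g1' s a j b)) +
  ∑ a, ∑ j ∈ Finset.Ioc i M.length, cw s M a j *
    (∑ b, ∑ k ∈ Finset.Ioc i M.length, cw s M b k * Φ (.g2 s a j b k) +
      ∑ r ∈ Finset.range (M.length - j + 1), dm (M.drop j) 0 r * Φ (.g3 s a j r))

/-- a new cluster carries both ends -/
def low3 (i : ℕ) (M : List (Lv Θ)) (s : Sh) (Φ : GT s → ℝ) : ℝ :=
  ∑ a, ∑ y ∈ Finset.range (i + 1), cw s M a y *
    ∑ r ∈ Finset.range (M.length - y + 1), dm (M.drop y) 0 r * Φ (.g3 s a y r)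

theorem sg_up (hi : i ≤ M.length) {Φ : GT s → ℝ} (h : ∀ τ : GT s, τ.j ≤ i → Φ τ = 0) :
    sg ε M s Φ = usg ε i M s Φ + low3 i M s Φ := by
  have rg : ∀ {j}, j ∈ Finset.range (i + 1) → j ≤ i := fun h =>
    Nat.lt_succ_iff.1 (Finset.mem_range.1 h)
  rw [sg, usg, low3, add_assoc, add_assoc, add_assoc, ← Finset.sum_add_distrib]
  refine ac rfl (ac (mc (Finset.sum_congr rfl fun a _ => ?_)) (Finset.sum_congr rfl fun a _ => ?_))
  · rw [sum_rng hi, Finset.sum_eq_zero fun j hj => ?_, zero_add]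
    rw [Finset.sum_eq_zero fun b _ => h _ ((shr_le _ _ _ _).trans (rg hj)),
      Finset.sum_eq_zero fun b _ => h _ ((shr_le _ _ _ _).trans (rg hj)), add_zero, mul_zero]
  · rw [sum_rng hi, add_comm]
    refine ac (Finset.sum_congr rfl fun j _ => mc (ac (Finset.sum_congr rfl fun b _ => ?_) rfl))
      (Finset.sum_congr rfl fun j hj => mc ?_)
    · rw [sum_rng hi, Finset.sum_eq_zero fun k hk => ?_, zero_add]
      rw [h _ ((shr_le _ _ _ _).trans ((min_le_right _ _).trans (rg hk))), mul_zero]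
    · rw [Finset.sum_eq_zero fun b _ => Finset.sum_eq_zero fun k _ => ?_, zero_add]
      rw [h _ ((shr_le _ _ _ _).trans ((min_le_left _ _).trans (rg hj))), mul_zero]

/-- the terms of `usg` -/
def UM (n : ℕ) (s : Sh) (τ : GT s) : Prop := τ.Mem s n ∧ τ.sh.br = s.br ∧ τ.e s.fst = τ.sh.fst

theorem um1 (a b : s.Lf) {j : ℕ} (hj : j ∈ Finset.Ioc i n) :
    UM n s (.g1 s a j b) ∧ UM n s (.g1' s a j b) := by
  obtain ⟨h1, h2⟩ := Finset.mem_Ioc.1 hj
  have e : (s.graft a j).br = s.br := by rw [Wt87.br_graft, if_neg (by omega), add_zero]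
  exact ⟨⟨.g1 a b h2, e, (Wt87.fst_graft _ _ _).symm⟩, ⟨.g1' a b h2, e, (Wt87.fst_graft _ _ _).symm⟩⟩

theorem um2 (a b : s.Lf) {j k : ℕ} (hj : j ∈ Finset.Ioc i n) (hk : k ∈ Finset.Ioc i n) :
    UM n s (.g2 s a j b k) := by
  obtain ⟨h1, h2⟩ := Finset.mem_Ioc.1 hj
  obtain ⟨h3, h4⟩ := Finset.mem_Ioc.1 hk
  refine ⟨.g2 a b h2 h4, ?_, ?_⟩
  · show ((s.graft b k).graft _ j).br = _
    rw [Wt87.br_graft, Wt87.br_graft, if_neg (by omega), if_neg (by omega)]
    rfl
  · show _ = ((s.graft b k).graft _ j).fst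
    rw [Wt87.fst_graft, Wt87.fst_graft]
    rfl

theorem um3 (a : s.Lf) {j r : ℕ} (hj : j ∈ Finset.Ioc i n) (hr : r ∈ Finset.range (n - j + 1)) :
    UM n s (.g3 s a j r) := by
  obtain ⟨h1, h2⟩ := Finset.mem_Ioc.1 hj
  have h3 := Finset.mem_range.1 hr
  refine ⟨.g3 a (by omega), ?_, ?_⟩
  · show ((s.graft a j).graft _ (r + j)).br = _
    rw [Wt87.br_graft, Wt87.br_graft, if_neg (by omega), if_neg (by omega)]
    rfl
  · show _ = ((s.graft a j).graft _ (r + j)).fst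
    rw [Wt87.fst_graft, Wt87.fst_graft]
    rfl

theorem usg_add (Φ Ψ : GT s → ℝ) :
    usg ε i M s (fun τ => Φ τ + Ψ τ) = usg ε i M s Φ + usg ε i M s Ψ := by
  simp only [usg, mul_add, Finset.sum_add_distrib]
  ring

theorem usg_mul (c : ℝ) (Φ : GT s → ℝ) : usg ε i M s (fun τ => c * Φ τ) = c * usg ε i M s Φ := by
  simp only [usg, mul_add, Finset.mul_sum, mul_left_comm c]

theorem usg_tilt {M' : List (Lv Θ')} (H : M.map Lv.m = M'.map Lv.m) (Φ : GT s → ℝ) :
    usg ε i M s Φ = usg ε i M' s Φ := by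
  simp only [usg, Cav22.cw_tilt s H, Cav22.len_tilt H,
    fun j => Cav22.dm_tilt (Cav22.drop_tilt H j)]

theorem abs_wsum {α : Type} (A : Finset α) {c X Y : α → ℝ} (hc : ∀ a, 0 ≤ c a)
    (h : ∀ a ∈ A, |X a| ≤ Y a) : |∑ a ∈ A, c a * X a| ≤ ∑ a ∈ A, c a * Y a :=
  (Finset.abs_sum_le_sum_abs _ _).trans (Finset.sum_le_sum fun a ha => by
    rw [abs_mul, abs_of_nonneg (hc a)]
    exact mul_le_mul_of_nonneg_left (h a ha) (hc a))

theorem abs_usum {α : Type} (A : Finset α) {X Y : α → ℝ} (h : ∀ a ∈ A, |X a| ≤ Y a) :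
    |∑ a ∈ A, X a| ≤ ∑ a ∈ A, Y a :=
  (Finset.abs_sum_le_sum_abs _ _).trans (Finset.sum_le_sum h)

theorem abs_usg_le (hM : Mono 0 M) {Φ Ψ : GT s → ℝ} (h : ∀ τ, UM M.length s τ → |Φ τ| ≤ Ψ τ) :
    |usg (-1) i M s Φ| ≤ usg 1 i M s Ψ := by
  refine (abs_add_three _ _ _).trans (add_le_add (add_le_add ?_ ?_) ?_)
  · exact abs_usum _ fun a _ => abs_usum _ fun b hb =>
      h _ ⟨.g0 (Finset.ne_of_mem_erase hb), rfl, rfl⟩
  · rw [neg_one_mul, abs_neg, one_mul]
    exact abs_usum _ fun a _ => abs_wsum _ (cw_nonneg s hM a) fun j hj => (abs_add_le _ _).trans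
      (add_le_add (abs_usum _ fun b _ => h _ (um1 a b hj).1) (abs_usum _ fun b _ => h _ (um1 a b hj).2))
  · exact abs_usum _ fun a _ => abs_wsum _ (cw_nonneg s hM a) fun j hj => (abs_add_le _ _).trans
      (add_le_add (abs_usum _ fun b _ => abs_wsum _ (cw_nonneg s hM b) fun k hk => h _ (um2 a b hj hk))
        (abs_wsum _ (dm_nonneg (Cav22.mono_drop j hM)) fun r hr => h _ (um3 a hj hr)))

theorem usg_le_sg (hM : Mono 0 M) (hi : i ≤ M.length) {G : ℕ → ℝ} (h0 : ∀ j, 0 ≤ G j)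
    (h : ∀ j ≤ i, G j = 0) : usg 1 i M s (fun τ => G τ.j) ≤ sg 1 M s fun τ => G τ.j := by
  rw [sg_up hi fun τ hτ => h _ hτ]
  exact le_add_of_nonneg_right (Finset.sum_nonneg fun a _ => Finset.sum_nonneg fun y _ =>
    mul_nonneg (cw_nonneg s hM a y) (Finset.sum_nonneg fun r _ =>
      mul_nonneg (dm_nonneg (Cav22.mono_drop y hM) r) (h0 _)))

theorem hasDerivAt_usg {F F' : GT s → ℝ → ℝ} {y : ℝ}
    (h : ∀ τ, UM M.length s τ → HasDerivAt (F τ) (F' τ y) y) :
    HasDerivAt (fun y => usg ε i M s fun τ => F τ y) (usg ε i M s fun τ => F' τ y) y := by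
  unfold usg
  refine HasDerivAt.fun_add (HasDerivAt.fun_add ?_ (HasDerivAt.const_mul ε ?_)) ?_
  · exact HasDerivAt.fun_sum fun a _ => HasDerivAt.fun_sum fun b hb =>
      h _ ⟨.g0 (Finset.ne_of_mem_erase hb), rfl, rfl⟩
  · refine HasDerivAt.fun_sum fun a _ => HasDerivAt.fun_sum fun j hj =>
      HasDerivAt.const_mul _ (HasDerivAt.fun_add ?_ ?_)
    · exact HasDerivAt.fun_sum fun b _ => h _ (um1 a b hj).1
    · exact HasDerivAt.fun_sum fun b _ => h _ (um1 a b hj).2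
  · refine HasDerivAt.fun_sum fun a _ => HasDerivAt.fun_sum fun j hj =>
      HasDerivAt.const_mul _ (HasDerivAt.fun_add ?_ ?_)
    · exact HasDerivAt.fun_sum fun b _ => HasDerivAt.fun_sum fun k hk =>
        HasDerivAt.const_mul _ (h _ (um2 a b hj hk))
    · exact HasDerivAt.fun_sum fun r hr => HasDerivAt.const_mul _ (h _ (um3 a hj hr))

/-- one more common level -/
def stG (τ : GT s) : GT (.step s) := ⟨.step τ.sh, τ.e, τ.j + 1, τ.p, τ.q⟩

theorem cw_step (s : Sh) (l : Lv Θ) (a : s.Lf) {k : ℕ} (hk : k ≠ 0) :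
    cw (.step s) (l :: M) a (k + 1) = cw s M a k :=
  (cw_pos (.step s) (l :: M) a (Nat.succ_ne_zero k)).trans ((cf_step s l M a k).trans
    (by rw [cw_pos _ _ _ hk, if_neg fun e => hk e.2, add_zero]))

theorem usg_step (l : Lv Θ) (Φ : GT (.step s) → ℝ) :
    usg ε (i + 1) (l :: M) (.step s) Φ = usg ε i M s fun τ => Φ (stG τ) := by
  have p : ∀ {k}, k ∈ Finset.Ioc i M.length → k ≠ 0 := fun hk => by
    have := (Finset.mem_Ioc.1 hk).1; omega
  refine ac (ac rfl (mc (Finset.sum_congr rfl fun a _ => (sum_Ioc_succ i M.length _).trans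
    (Finset.sum_congr rfl fun k hk => congrArg₂ (· * ·) (cw_step s l a (p hk)) rfl))))
    (Finset.sum_congr rfl fun a _ => (sum_Ioc_succ i M.length _).trans
      (Finset.sum_congr rfl fun j hj => congrArg₂ (· * ·) (cw_step s l a (p hj)) (ac
        (Finset.sum_congr rfl fun b _ => (sum_Ioc_succ i M.length _).trans
          (Finset.sum_congr rfl fun k hk => congrArg₂ (· * ·) (cw_step s l b (p hk)) ?_)) ?_)))
  · exact congrArg (fun m => Φ ⟨_, _, (Sh.step s).shr a b m, _, _⟩) (Nat.succ_min_succ j k)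
  · rw [List.length_cons, Nat.add_sub_add_right]
    rfl

/-- back to the leaves of `u` -/
def stJ (u : Sh) : (j : ℕ) → (u.stp j).Lf → u.Lf
  | 0, b => b
  | j + 1, b => stJ u j b

theorem stJ_stI (u : Sh) (b : u.Lf) : ∀ j, stJ u j (u.stI j b) = b
  | 0 => rfl
  | j + 1 => stJ_stI u b j

/-- `i` more common levels -/
def upG (τ : GT u) (i : ℕ) : GT (u.stp i) :=
  ⟨τ.sh.stp i, fun b => τ.sh.stI i (τ.e (stJ u i b)), τ.j + i, τ.sh.stI i τ.p, τ.sh.stI i τ.q⟩

theorem usg_stp : ∀ (i : ℕ) (M : List (Lv Θ)), i ≤ M.length → ∀ Φ : GT (u.stp i) → ℝ,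
    usg ε i M (u.stp i) Φ = usg ε 0 (M.drop i) u fun τ => Φ (upG τ i)
  | 0, _, _, _ => rfl
  | i + 1, l :: M, hi, Φ => (usg_step l Φ).trans
      (usg_stp i M (Nat.le_of_succ_le_succ hi) fun τ => Φ (stG τ))

/-- a tree with a pair -/
structure P2 where
  s : Sh
  a : s.Lf
  b : s.Lf

theorem two_stp (r : ℕ) : ∀ i, (⟨.two (r + i), Sh.twoL _, Sh.twoR _⟩ : P2) =
    ⟨(Sh.two r).stp i, Sh.stI _ i (Sh.twoL r), Sh.stI _ i (Sh.twoR r)⟩
  | 0 => rfl
  | i + 1 => congrArg (fun P : P2 => (⟨.step P.s, P.a, P.b⟩ : P2)) (two_stp r i)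

/-! ### skeletons -/

theorem shr_rep : ∀ (s : Sh) (j : ℕ) (a b : (s.cut j).Lf) (k : ℕ),
    s.shr (s.rep j a) (s.rep j b) k = (s.cut j).shr a b k
  | .one, _, _, _, _ => rfl
  | .step s, 0, _, _, k => shr_self (.step s) s.fst k
  | .step _, _ + 1, _, _, 0 => rfl
  | .step s, j + 1, a, b, k + 1 => congrArg (· + 1) (shr_rep s j a b k)
  | .split s t, 0, _, _, k => shr_self (.split s t) (.inl s.fst) k
  | .split s _, j + 1, .inl a, .inl b, k => shr_rep s (j + 1) a b k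
  | .split _ t, j + 1, .inr a, .inr b, k => shr_rep t (j + 1) a b k
  | .split _ _, _ + 1, .inl _, .inr _, _ => rfl
  | .split _ _, _ + 1, .inr _, .inl _, _ => rfl

theorem br_cut : ∀ (s : Sh) (j : ℕ), (s.cut (j + 1)).br = s.br
  | .one, _ => rfl
  | .step _, _ => rfl
  | .split s t, j => congrArg₂ (· + ·) (br_cut s j) (br_cut t j)

theorem rep_fst : ∀ (s : Sh) (j : ℕ), s.rep j (s.cut j).fst = s.fst
  | .one, _ => rfl
  | .step _, 0 => rfl
  | .step s, j + 1 => rep_fst s j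
  | .split _ _, 0 => rfl
  | .split s _, j + 1 => congrArg Sum.inl (rep_fst s (j + 1))

theorem sum_ite1 (s : Sh) (p : Prop) [Decidable p] (c : ℝ) (G : s.Lf → ℝ) :
    ∑ a, (if a = s.fst ∧ p then c else 0) * G a = (if p then c else 0) * G s.fst := by
  rw [Finset.sum_eq_single s.fst (fun a _ ha => by simp [ha]) (by simp)]
  simp

theorem cf_cut : ∀ (s : Sh) (L : List (Lv Θ)) (j y : ℕ), y ≤ j → j < L.length → ∀ G : s.Lf → ℝ,
    ∑ c, cf s L c y * G c = ∑ a, cf (s.cut (j + 1)) L a y * G (s.rep (j + 1) a)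
  | .one, _, _, _, _, _, _ => rfl
  | .step _, [], _, _, _, h, _ => absurd h (Nat.not_lt_zero _)
  | .step s, l :: L, j, 0, _, _, G => (Finset.sum_eq_zero fun _ _ => zero_mul _).trans
      (Finset.sum_eq_zero fun _ _ => zero_mul _).symm
  | .step _, _ :: _, 0, _ + 1, h, _, _ => absurd h (Nat.not_succ_le_zero _)
  | .step s, l :: L, j + 1, y + 1, h, h', G => by
      show ∑ c : s.Lf, (cf s L c y + if c = s.fst ∧ y = 0 then s.br * ex L 0 - l.m else 0) * G c =
        ∑ a : (s.cut (j + 1)).Lf, (cf (s.cut (j + 1)) L a y + if a = (s.cut (j + 1)).fst ∧ y = 0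
          then (s.cut (j + 1)).br * ex L 0 - l.m else 0) * G (s.rep (j + 1) a)
      simp only [add_mul, Finset.sum_add_distrib]
      refine ac (cf_cut s L j y (Nat.le_of_succ_le_succ h) (Nat.lt_of_succ_lt_succ h') G)
        ((sum_ite1 s _ _ G).trans (Eq.trans ?_
          (sum_ite1 (s.cut (j + 1)) _ _ fun a => G (s.rep (j + 1) a)).symm))
      rw [br_cut, rep_fst]
  | .split s t, L, j, y, h, h', G => (Wt87.sum_split s t _).trans
      ((ac (cf_cut s L j y h h' fun a => G (.inl a)) (cf_cut t L j y h h' fun a => G (.inr a))).trans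
        (Wt87.sum_split (s.cut (j + 1)) (t.cut (j + 1)) fun a =>
          cf (.split (s.cut (j + 1)) (t.cut (j + 1))) L a y *
            G ((Sh.split s t).rep (j + 1) a)).symm)

/-- **every tree has a skeleton** -/
theorem sk_cut (hi : i < M.length) (s : Sh) : Sk i M (s.cut (i + 1)) s (s.rep (i + 1)) := by
  refine ⟨shr_rep s _, fun c => ⟨s.cl _ c, (Clu22.cl_eq_iff s _ _ _).1 (Clu22.cl_rep s _ _)⟩,
    fun j hj G => ?_⟩
  simp only [cw, add_mul, Finset.sum_add_distrib]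
  rw [sum_ite1, sum_ite1 _ _ _ fun a => G (s.rep (i + 1) a), br_cut, rep_fst, cf_cut s M i j hj hi]

theorem sep_cut (i : ℕ) (s : Sh) : Sep i (s.cut (i + 1)) := fun a b h =>
  (Clu22.cl_rep s _ a).symm.trans (((Clu22.cl_eq_iff s _ _ _).2 ((shr_rep s _ a b _).trans h)).trans
    (Clu22.cl_rep s _ b))

theorem card_cut (j : ℕ) (s : Sh) : Fintype.card (s.cut j).Lf ≤ Fintype.card s.Lf :=
  Fintype.card_le_of_injective (s.rep j) fun a b h =>
    (Clu22.cl_rep s j a).symm.trans ((congrArg (s.cl j) h).trans (Clu22.cl_rep s j b))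

theorem br_stp (hu : u.br = 1) : ∀ i, (u.stp i).br = 1
  | 0 => hu
  | _ + 1 => rfl

theorem fst_stp (u : Sh) : ∀ i, (u.stp i).fst = u.stI i u.fst
  | 0 => rfl
  | i + 1 => fst_stp u i

theorem card_stp (u : Sh) : ∀ i, Fintype.card (u.stp i).Lf = Fintype.card u.Lf
  | 0 => rfl
  | i + 1 => card_stp u i

theorem not_split {s t : Sh} : (Sh.split s t).br ≠ 1 := fun h => by
  have h1 := s.one_le_br90
  have h2 := t.one_le_br90
  change s.br + t.br = 1 at h
  omega

theorem shr_stp (hu : u.br = 1) : ∀ (i : ℕ) (a c : (u.stp i).Lf), (u.stp i).shr a c (i + 1) = i + 1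
  | 0, a, c => by
      cases u with
      | one => rfl
      | step s => exact congrArg (· + 1) (shr_zero s a c)
      | split s t => exact absurd hu not_split
  | i + 1, a, c => congrArg (· + 1) (shr_stp hu i a c)

theorem cw_stp (hu : u.br = 1) : ∀ (i : ℕ) (M : List (Lv Θ)) (j : ℕ), j ≤ i → i < M.length →
    ∀ c, cw (u.stp i) M c j = if c = (u.stp i).fst then dm M 0 j else 0
  | _, [], _, _, h, _ => absurd h (Nat.not_lt_zero _)
  | i, l :: L, 0, _, _, c => by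
      rw [cw, cf_zero, br_stp hu]
      simp [dm, exP]
  | 0, _ :: _, _ + 1, h, _, _ => absurd h (Nat.not_succ_le_zero _)
  | i + 1, l :: L, j + 1, h, h', c => by
      refine (fun c : (u.stp i).Lf => (?_ : cw (.step (u.stp i)) (l :: L) c (j + 1) =
        if c = (u.stp i).fst then dm (l :: L) 0 (j + 1) else 0)) c
      have ih := cw_stp hu i L j (Nat.le_of_succ_le_succ h) (Nat.lt_of_succ_lt_succ h') c
      refine (cw_pos (.step (u.stp i)) (l :: L) c (Nat.succ_ne_zero j)).trans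
        ((cf_step (u.stp i) l L c j).trans ?_)
      rw [cw] at ih
      rw [eq_sub_of_add_eq ih, br_stp hu]
      cases j <;> split_ifs <;> simp_all [dm, exP, Crest.Agent.T157.Casc.ex]

theorem sk_stp (hu : u.br = 1) (hi : i < M.length) :
    Sk i M .one (u.stp i) fun _ => u.stI i u.fst := by
  refine ⟨fun _ _ k => shr_self _ _ k, fun c => ⟨(), shr_stp hu i _ c⟩, fun j hj G => ?_⟩
  rw [Wt87.sum_one, Finset.sum_eq_single (u.stp i).fst (fun c _ hc => by
    rw [cw_stp hu i M j hj hi, if_neg hc, zero_mul]) (by simp), cw_stp hu i M j hj hi, if_pos rfl,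
    fst_stp]
  exact congrArg (· * _) (cw_one M () j).symm

/-! ### one low letter on any tree -/

/-- bound on trees with `n` edges and at most `N` leaves -/
def Bn (n N : ℕ) (β : ℝ) (Ψ : EF) : Prop :=
  ∀ s cs, cs.length = n → Fintype.card s.Lf ≤ N → |Ψ s cs| ≤ β

/-- exactly two clusters -/
def Two (i : ℕ) (s : Sh) (p q : s.Lf) : Prop := s.shr p q (i + 1) ≠ i + 1 ∧
  ∀ c, s.shr p c (i + 1) = i + 1 ∨ s.shr q c (i + 1) = i + 1

theorem Two.graft {p q : s.Lf} (H : Two i s p q) (b : s.Lf) {k : ℕ} (hk : i < k) :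
    Two i (s.graft b k) (s.emb b k p) (s.emb b k q) := by
  refine ⟨by rw [shr_emb]; exact H.1, fun c => ?_⟩
  rcases Wt87.graft_cases s b k c with ⟨d, rfl⟩ | rfl
  · simpa only [shr_emb] using H.2 d
  · simpa only [shr_nw, min_eq_right (Nat.succ_le_of_lt hk)] using H.2 b

theorem Two.rc {p q a : s.Lf} (H : Two i s p q) {o : Md} {s' : Sh} {e' : s.Lf → s'.Lf} {c : s'.Lf}
    (h : Rc i n s a o s' e' c) : Two i s' (e' p) (e' q) := by
  cases h with
  | fix => exact H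
  | old => exact H
  | new _ h1 => exact H.graft _ h1
  | gr h1 => exact H.graft _ h1

theorem two_gr {m : s.Lf} (h : ∀ c, s.shr m c (i + 1) = i + 1) {y : ℕ} (hy : y ≤ i) :
    Two i (s.graft m y) (s.emb m y m) (s.nw m y) := by
  refine ⟨by rw [shr_nw, shr_self]; omega, fun c => ?_⟩
  rcases Wt87.graft_cases s m y c with ⟨d, rfl⟩ | rfl
  · exact .inl ((shr_emb _ _ _ _ _ _).trans (h d))
  · exact .inr (shr_self _ _ _)

theorem abs_low2 (hM : Mono 0 M) {A : t.Lf → ℕ → t.Lf → ℕ → ℝ} {B : t.Lf → ℕ → ℕ → ℝ} {β : ℝ}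
    (hβ : 0 ≤ β) (hA : ∀ a j b k, |A a j b k| ≤ β) (hB : ∀ a j r, |B a j r| ≤ β) :
    |∑ a, ∑ j ∈ Finset.range (i + 1), cw t M a j *
      (∑ b, ∑ k ∈ Finset.range (i + 1), cw t M b k * A a j b k +
        ∑ r ∈ Finset.range (i - j + 1), dm (M.drop j) 0 r * B a j r)| ≤
      2 * (Fintype.card t.Lf : ℝ) ^ 2 * ex M i ^ 2 * β := by
  have hx := ex_nn hM i
  have hc := Tay38.one_le_card t
  refine (abs_cw_lo hM t i (β := 2 * Fintype.card t.Lf * ex M i * β) (by positivity)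
    fun a j hj => ?_).trans_eq (by ring)
  have h1 := abs_cw_lo hM t i hβ fun b k _ => hA a j b k
  have h2 := abs_wsum (Finset.range (i - j + 1)) (dm_nonneg (Cav22.mono_drop j hM))
    fun r _ => hB a j r
  rw [← Finset.sum_mul, sum_dm, sub_zero, ex_drop22, Nat.sub_add_cancel hj] at h2
  refine (abs_add_le _ _).trans ?_
  nlinarith [mul_nonneg hx hβ]

theorem abs_lo_mul (j : ℕ) {x β : ℝ} (h : |x| ≤ β) : |lo i j * x| ≤ β := by
  rw [abs_mul]
  exact (mul_le_of_le_one_left (abs_nonneg _) (Y89.abs_lo_le _)).trans h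

theorem len_mv {s' : Sh} (e : s.Lf → s'.Lf) (cs : Low51.EL s) (c : s'.Lf × s'.Lf) :
    (mv e cs ++ [c]).length = cs.length + 1 := by simp [mv]

theorem card_QA (s : Sh) (a : s.Lf) (j : ℕ) (b : s.Lf) (k : ℕ) :
    Fintype.card (QA s a j b k).sh.Lf = Fintype.card s.Lf + 2 :=
  (card_graft _ _ _).trans (congrArg (· + 1) (card_graft _ _ _))

theorem card_QC (s : Sh) (a : s.Lf) (j r : ℕ) :
    Fintype.card (QC s a j r).sh.Lf = Fintype.card s.Lf + 2 :=
  (card_graft _ _ _).trans (congrArg (· + 1) (card_graft _ _ _))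

theorem lg_cls {a a' : s.Lf} (h : s.shr a a' (i + 1) = i + 1)
    (Ψ : ∀ s' : Sh, (s.Lf → s'.Lf) → s'.Lf → ℝ) : lg ε i M s a Ψ = lg ε i M s a' Ψ := by
  have : Leg51.cls i s a = Leg51.cls i s a' := by
    ext c
    rw [mem_cls, mem_cls, shr_comm s a, shr_comm s a', shr_congr s h c]
  rw [lg, lg, pos, pos, this]

theorem sum_pair2 {p q : t.Lf} (hpq : p ≠ q) (hc : ∀ a, a = p ∨ a = q) (X : t.Lf → t.Lf → ℝ) :
    ∑ a, ∑ b ∈ Finset.univ.erase a, X a b = X p q + X q p := by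
  have e : (Finset.univ : Finset t.Lf) = {p, q} := by
    ext a
    simpa using hc a
  rw [e, Finset.sum_pair hpq, Finset.erase_insert (by simpa using hpq),
    Finset.pair_comm, Finset.erase_insert (by simpa using hpq.symm), Finset.sum_singleton,
    Finset.sum_singleton]

variable {Ψ : EF} {N : ℕ} {β : ℝ}

/-- **two clusters**: up to `O (x)` a low edge joins them -/
theorem St_old (hM : Mono 0 M) (hi : i < M.length) (hβ : 0 ≤ β) {cs : Low51.EL s}
    (h : Bn (cs.length + 1) (N + 2) β Ψ) (hN : Fintype.card s.Lf ≤ N) {e : ι → s.Lf} {p q : ι}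
    (H : Two i s (e p) (e q)) :
    |St (-1) M (lo i) Ψ s cs - (Low51.Eg (-1) i M ⟨p, q, .leg, .leg⟩ (cs' Ψ) s e cs +
      Low51.Eg (-1) i M ⟨q, p, .leg, .leg⟩ (cs' Ψ) s e cs)| ≤ 10 * N ^ 3 * ex M i * β := by
  have hx := ex_nn hM i
  have hx1 := Tay38.ex_le_one hM i
  have hT : (Fintype.card (s.cut (i + 1)).Lf : ℝ) ≤ N := Nat.cast_le.2 ((card_cut _ s).trans hN)
  have hN1 : (1 : ℝ) ≤ N := (Tay38.one_le_card _).trans hT
  have cl := Clu22.cl_eq_iff s (i + 1)
  have ne : s.cl (i + 1) (e p) ≠ s.cl (i + 1) (e q) := fun u => H.1 ((cl _ _).1 u)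
  have rp : ∀ c, s.shr (s.rep (i + 1) (s.cl (i + 1) c)) c (i + 1) = i + 1 := fun c =>
    (cl _ _).1 (Clu22.cl_rep s _ _)
  have key : ∀ p q : ι, s.cl (i + 1) (e p) ≠ s.cl (i + 1) (e q) →
      lo i ((s.cut (i + 1)).shr (s.cl (i + 1) (e p)) (s.cl (i + 1) (e q)) M.length) *
        lg (-1) i M s (s.rep (i + 1) (s.cl (i + 1) (e q))) (fun s1 e1 q' => lg (-1) i M s1
          (e1 (s.rep (i + 1) (s.cl (i + 1) (e p)))) fun s2 e2 p' =>
            Ψ s2 (mv (fun x => e2 (e1 x)) cs ++ [(p', e2 q')])) =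
      Low51.Eg (-1) i M ⟨p, q, .leg, .leg⟩ (cs' Ψ) s e cs := fun p q ne => by
    have e0 : (s.cut (i + 1)).shr (s.cl (i + 1) (e p)) (s.cl (i + 1) (e q)) M.length ≤ i :=
      LM.j_le (.g0 ne.symm) (sep_cut i s) hi
    rw [lo, if_pos e0, one_mul, lg_cls (rp _)]
    exact lgm_congr (ε := -1) (i := i) (M := M) (o := .leg) trivial s (e q)
      (Ψ := fun s1 e1 q' => lg (-1) i M s1 (e1 (s.rep (i + 1) (s.cl (i + 1) (e p)))) fun s2 e2 p' =>
        Ψ s2 (mv (fun x => e2 (e1 x)) cs ++ [(p', e2 q')]))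
      (Ψ' := fun s1 e1 q' => lg (-1) i M s1 (e1 (e p)) fun s2 e2 p' =>
        Ψ s2 (mv (fun x => e2 (e1 x)) cs ++ [(p', e2 q')]))
      fun s1 e1 c r => lg_cls ((r.shr _ _ _).trans (rp (e p))) _
  have b1 : ∀ (a : s.Lf) (j : ℕ) (b : (s.graft a j).Lf)
      (c : ∀ s2 : Sh, ((s.graft a j).Lf → s2.Lf) → s2.Lf → s2.Lf × s2.Lf),
      |lg (-1) i M (s.graft a j) b fun s2 e2 p =>
        Ψ s2 (mv (fun x => e2 (s.emb a j x)) cs ++ [c s2 e2 p])| ≤ 2 * (N + 1) * β :=
    fun a j b c => by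
      have := card_graft s a j
      refine (abs_lg_le (by simp) hM _ b hβ fun s2 e2 p k =>
        h _ _ (len_mv _ _ _) (by omega)).trans ?_
      have : (Fintype.card (s.graft a j).Lf : ℝ) ≤ N + 1 := by exact_mod_cast (by omega)
      gcongr
  have e1 : St (-1) M (lo i) Ψ s cs = _ := sg_low (c := lo i) (sk_cut hi s) (sep_cut i s) hi
    (by norm_num) (fun j hj => if_neg (not_le.2 hj)) fun τ => Ψ τ.sh (mv τ.e cs ++ [(τ.p, τ.q)])
  rw [e1, sum_pair2 ne fun a => by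
      rw [← Clu22.cl_rep s _ a]
      exact (H.2 _).imp (fun u => ((cl _ _).2 u).symm) fun u => ((cl _ _).2 u).symm,
    key p q ne, key q p ne.symm, add_assoc, add_sub_cancel_left, neg_one_mul]
  refine (abs_add_le _ _).trans ?_
  rw [abs_neg]
  refine (add_le_add (abs_cw_lo hM _ i (β := 2 * (N * (2 * (N + 1) * β))) (by positivity)
    fun a j _ => (abs_add_le _ _).trans ((add_le_add
      (abs_sum_card _ (by positivity) fun b _ => abs_lo_mul _ (b1 _ _ _ _))
      (abs_sum_card _ (by positivity) fun b _ => abs_lo_mul _ (b1 _ _ _ _))).trans (by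
        rw [← two_mul]; gcongr)))
    (abs_low2 hM hβ (fun a j b k => abs_lo_mul _ (h _ _ (len_mv _ _ _) (by rw [card_QA]; omega)))
      fun a j r => abs_lo_mul _ (h _ _ (len_mv _ _ _) (by rw [card_QC]; omega)))).trans ?_
  calc _ ≤ N * ex M i * (2 * (N * (2 * (N + N) * β))) + 2 * (N : ℝ) ^ 3 * (ex M i * 1) * β := by
        rw [sq (ex M i)]
        gcongr
        exact (pow_le_pow_left₀ (by positivity) hT 2).trans (pow_le_pow_right₀ hN1 (by norm_num))
    _ = _ := by ring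

/-- the marks of a tree with a new cluster -/
def mk2 (s : Sh) (m : s.Lf) (y : ℕ) : Unit ⊕ Unit → (s.graft m y).Lf :=
  Sum.elim (fun _ => s.emb m y m) fun _ => s.nw m y

/-- the edge to a new cluster -/
def dA : Ed (Unit ⊕ Unit) := ⟨.inl (), .inr (), .leg, .fix⟩
/-- the same, reversed -/
def dB : Ed (Unit ⊕ Unit) := ⟨.inr (), .inl (), .fix, .leg⟩

/-- **one cluster**: up to `O (x²)` a low edge joins it to a new cluster -/
theorem St_one (hM : Mono 0 M) (hi : i < M.length) (hβ : 0 ≤ β) {cs : Low51.EL s}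
    (h : Bn (cs.length + 1) (N + 2) β Ψ) (hN : Fintype.card s.Lf ≤ N) {m : s.Lf}
    (H : Sk i M .one s fun _ => m) :
    |St (-1) M (lo i) Ψ s cs + ∑ y ∈ Finset.range (i + 1), dm M 0 y *
      (Low51.Eg (-1) i M dA (cs' Ψ) _ (mk2 s m y) (mv (s.emb m y) cs) +
        Low51.Eg (-1) i M dB (cs' Ψ) _ (mk2 s m y) (mv (s.emb m y) cs))| ≤ 2 * ex M i ^ 2 * β := by
  have h2 := abs_low2 (t := .one) (i := i) hM hβ
    (A := fun a j b k => lo i (Sh.one.shr a b (min j k)) *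
      Ψ (QA s m j m k).sh (mv (QA s m j m k).e cs ++ [((QA s m j m k).p, (QA s m j m k).q)]))
    (B := fun a j r => lo i (r + j) *
      Ψ (QC s m j r).sh (mv (QC s m j r).e cs ++ [((QC s m j r).p, (QC s m j r).q)]))
    (fun a j b k => abs_lo_mul _ (h _ _ (len_mv _ _ _) (by rw [card_QA]; omega)))
    fun a j r => abs_lo_mul _ (h _ _ (len_mv _ _ _) (by rw [card_QC]; omega))
  refine Eq.trans_le (congrArg abs ?_) (h2.trans_eq (by
    rw [show Fintype.card Sh.one.Lf = 1 from rfl]; push_cast; ring))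
  have e1 : St (-1) M (lo i) Ψ s cs = _ := sg_low (c := lo i) H (sep_one i) hi
    (by norm_num) (fun j hj => if_neg (not_le.2 hj)) fun τ => Ψ τ.sh (mv τ.e cs ++ [(τ.p, τ.q)])
  rw [e1, Finset.sum_eq_zero (s := Finset.univ) fun a _ =>
      Finset.sum_eq_zero fun b hb => absurd rfl (Finset.ne_of_mem_erase hb), zero_add,
    add_right_comm, neg_one_mul, neg_add_eq_sub, sub_eq_zero.2 ?_, zero_add]
  rw [Wt87.sum_one]
  refine Finset.sum_congr rfl fun y hy => congrArg₂ (· * ·) (cw_one M _ y).symm ?_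
  have e : lo i y = 1 := if_pos (Nat.lt_succ_iff.1 (Finset.mem_range.1 hy))
  rw [Wt87.sum_one, Wt87.sum_one]
  refine ac ?_ ?_ <;> refine Eq.trans ?_ ((congrArg (· * _) e).trans (one_mul _)).symm <;>
    simp only [Low51.Eg, lgm, cs', mv_mv, dA, dB, mk2, Sum.elim_inl, Sum.elim_inr, id]

/-- the size of one placed edge -/
theorem abs_Eg_le (hM : Mono 0 M) (hβ : 0 ≤ β) {d : Ed ι} (hd : d.Hi i M.length) {Ξ : PF ι}
    {e : ι → s.Lf} {cs : Low51.EL s} (hN : Fintype.card s.Lf ≤ N)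
    (h : ∀ s1 e1 q s2 e2 p, Rc i M.length s (e d.q) d.oq s1 e1 q →
      Rc i M.length s1 (e1 (e d.p)) d.op s2 e2 p →
      |Ξ s2 (fun x => e2 (e1 (e x))) (mv (fun x => e2 (e1 x)) cs ++ [(p, e2 q)])| ≤ β) :
    |Low51.Eg (-1) i M d Ξ s e cs| ≤ 4 * (N + 1) ^ 2 * β := by
  refine (Low51.abs_lgm_le (by simp) hM hd.2 s _ (β := 2 * (N + 1) * β) (by positivity)
    fun s1 e1 q r1 => (Low51.abs_lgm_le (by simp) hM hd.1 s1 _ hβ fun s2 e2 p r2 =>
      h _ _ _ _ _ _ r1 r2).trans ?_).trans ?_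
  · have := r1.card
    have : (Fintype.card s1.Lf : ℝ) ≤ N + 1 := by exact_mod_cast (by omega)
    gcongr
  · have : (Fintype.card s.Lf : ℝ) ≤ N + 1 := by exact_mod_cast (by omega)
    calc _ ≤ 2 * (N + 1) * (2 * (N + 1) * β) := by gcongr
      _ = _ := by ring

theorem Bn.st (hM : Mono 0 M) (hβ : 0 ≤ β) (h : Bn (n + 1) (N + 2) β Ψ) :
    Bn n N (4 * N ^ 2 * β) (St (-1) M (lo i) Ψ) := fun s cs h1 h2 =>
  (abs_sg_le hM s fun τ hτ => abs_lo_mul _ (h _ _ (by rw [len_mv, h1])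
    (hτ.card.trans (by omega)))).trans (Ker15.sg_le M s h2 hβ)

/-- the two parallel edges -/
def dP : Ed (Unit ⊕ Unit) := ⟨.inl (), .inr (), .leg, .leg⟩
/-- reversed -/
def dQ : Ed (Unit ⊕ Unit) := ⟨.inr (), .inl (), .leg, .leg⟩

/-- a second low edge after a first one -/
theorem Eg_St (hM : Mono 0 M) (hi : i < M.length) (hβ : 0 ≤ β) {cs : Low51.EL s}
    (h : Bn (cs.length + 2) (N + 4) β Ψ) (hN : Fintype.card s.Lf ≤ N) {e : Unit ⊕ Unit → s.Lf}
    (H : Two i s (e (.inl ())) (e (.inr ()))) {d : Ed (Unit ⊕ Unit)} (hd : d.Hi i M.length) {v : ℝ}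
    (h1 : LE (-1) i M [d, dP] (cs' Ψ) s e cs = v) (h2 : LE (-1) i M [d, dQ] (cs' Ψ) s e cs = v) :
    |Low51.Eg (-1) i M d (cs' (St (-1) M (lo i) Ψ)) s e cs - 2 * v| ≤
      40 * (N + 2) ^ 5 * ex M i * β := by
  have hx := ex_nn hM i
  have e1 : Low51.Eg (-1) i M d (cs' (St (-1) M (lo i) Ψ)) s e cs - 2 * v =
      Low51.Eg (-1) i M d (fun s e cs => cs' (St (-1) M (lo i) Ψ) s e cs + -1 *
        (Low51.Eg (-1) i M dP (cs' Ψ) s e cs + Low51.Eg (-1) i M dQ (cs' Ψ) s e cs)) s e cs := by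
    have k1 := LE_add (ε := -1) (i := i) (M := M) (cs' (St (-1) M (lo i) Ψ)) (fun s e cs => -1 *
      (Low51.Eg (-1) i M dP (cs' Ψ) s e cs + Low51.Eg (-1) i M dQ (cs' Ψ) s e cs)) [d]
    have k2 := LE_mul (ε := -1) (i := i) (M := M) (-1) (fun s e cs =>
      Low51.Eg (-1) i M dP (cs' Ψ) s e cs + Low51.Eg (-1) i M dQ (cs' Ψ) s e cs) [d]
    have k3 := LE_add (ε := -1) (i := i) (M := M) (Low51.Eg (-1) i M dP (cs' Ψ))
      (Low51.Eg (-1) i M dQ (cs' Ψ)) [d]
    refine Eq.trans ?_ ((congrFun (congrFun (congrFun k1 s) e) cs).trans (ac rfl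
      ((congrFun (congrFun (congrFun k2 s) e) cs).trans
        (mc (congrFun (congrFun (congrFun k3 s) e) cs))))).symm
    rw [two_mul, sub_eq_add_neg, neg_one_mul]
    exact ac rfl (congrArg Neg.neg (ac h1.symm h2.symm))
  rw [e1]
  refine (abs_Eg_le hM (β := 10 * ((N + 2 : ℕ) : ℝ) ^ 3 * ex M i * β) (by positivity) hd hN
    fun s1 e1 q s2 e2 p r1 r2 => ?_).trans ?_
  · have := r1.card
    have := r2.card
    rw [neg_one_mul, ← sub_eq_add_neg]
    exact St_old hM hi hβ (by rw [len_mv]; exact h) (by omega) (e := fun x => e2 (e1 (e x)))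
      ((H.rc r1).rc r2)
  · push_cast
    calc _ ≤ 4 * (N + 2) ^ 2 * (10 * (N + 2 : ℝ) ^ 3 * ex M i * β) := by gcongr; norm_num
      _ = _ := by ring

/-- **two low letters on two clusters** -/
theorem W_two (hM : Mono 0 M) (hi : i < M.length) (hβ : 0 ≤ β) {cs : Low51.EL s}
    (h : Bn (cs.length + 2) 8 β Ψ) (hN : Fintype.card s.Lf ≤ 4) {e : Unit ⊕ Unit → s.Lf}
    (H : Two i s (e (.inl ())) (e (.inr ()))) {v : ℝ}
    (hv : ∀ d d', d = dP ∨ d = dQ → d' = dP ∨ d' = dQ → LE (-1) i M [d, d'] (cs' Ψ) s e cs = v) :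
    |St (-1) M (lo i) (St (-1) M (lo i) Ψ) s cs - 4 * v| ≤ 800000 * (ex M i * β) := by
  have hx := mul_nonneg (ex_nn hM i) hβ
  have k0 := St_old hM hi (by positivity) (Bn.st (i := i) (N := 6) hM hβ h) hN H
  have k1 := Eg_St hM hi hβ h hN H (d := dP) ⟨trivial, trivial⟩ (hv _ _ (.inl rfl) (.inl rfl))
    (hv _ _ (.inl rfl) (.inr rfl))
  have k2 := Eg_St hM hi hβ h hN H (d := dQ) ⟨trivial, trivial⟩ (hv _ _ (.inr rfl) (.inl rfl))
    (hv _ _ (.inr rfl) (.inr rfl))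
  change |_ - (Low51.Eg (-1) i M dP _ s e cs + Low51.Eg (-1) i M dQ _ s e cs)| ≤ _ at k0
  push_cast at k0 k1 k2
  rw [abs_le] at k0 k1 k2 ⊢
  constructor <;> linarith [k0.1, k0.2, k1.1, k1.2, k2.1, k2.2]

/-- **two low letters on one cluster** -/
theorem W_one (hM : Mono 0 M) (hi : i < M.length) (hβ : 0 ≤ β) {cs : Low51.EL s}
    (h : Bn (cs.length + 2) 9 β Ψ) (hN : Fintype.card s.Lf ≤ 4) {m : s.Lf}
    (H : Sk i M .one s fun _ => m) {v : ℕ → ℝ}
    (hv : ∀ y ≤ i, ∀ d d', d = dA ∨ d = dB → d' = dP ∨ d' = dQ →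
      LE (-1) i M [d, d'] (cs' Ψ) _ (mk2 s m y) (mv (s.emb m y) cs) = v y) :
    |St (-1) M (lo i) (St (-1) M (lo i) Ψ) s cs + 4 * ∑ y ∈ Finset.range (i + 1), dm M 0 y * v y| ≤
      1400000 * (ex M i ^ 2 * β) := by
  have hx := ex_nn hM i
  have k0 := St_one hM hi (by positivity) (Bn.st (i := i) (N := 7) hM hβ h) (N := 5)
    (hN.trans (by norm_num)) H
  have k1 := abs_wsum (Finset.range (i + 1)) (dm_nonneg hM) (X := fun y =>
    Low51.Eg (-1) i M dA (cs' (St (-1) M (lo i) Ψ)) _ (mk2 s m y) (mv (s.emb m y) cs) +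
      Low51.Eg (-1) i M dB (cs' (St (-1) M (lo i) Ψ)) _ (mk2 s m y) (mv (s.emb m y) cs) - 4 * v y)
    (Y := fun _ => 2 * (40 * 7 ^ 5 * ex M i * β)) fun y hy => by
      have hy' := Nat.lt_succ_iff.1 (Finset.mem_range.1 hy)
      have c := card_graft s m y
      have hT : Two i _ (mk2 s m y (.inl ())) (mk2 s m y (.inr ())) :=
        two_gr (fun c => (H.sur c).choose_spec) hy'
      have hl : Bn ((mv (s.emb m y) cs).length + 2) (5 + 4) β Ψ := by
        rw [mv, List.length_map]; exact h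
      have t1 := Eg_St hM hi hβ hl (by omega) hT (d := dA) ⟨trivial, trivial⟩
        (hv y hy' _ _ (.inl rfl) (.inl rfl)) (hv y hy' _ _ (.inl rfl) (.inr rfl))
      have t2 := Eg_St hM hi hβ hl (by omega) hT (d := dB) ⟨trivial, trivial⟩
        (hv y hy' _ _ (.inr rfl) (.inl rfl)) (hv y hy' _ _ (.inr rfl) (.inr rfl))
      push_cast at t1 t2
      rw [abs_le] at t1 t2 ⊢
      constructor <;> linarith [t1.1, t1.2, t2.1, t2.2]
  rw [← Finset.sum_mul, sum_dm, sub_zero] at k1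
  simp only [mul_sub, Finset.sum_sub_distrib, mul_left_comm _ (4 : ℝ), ← Finset.mul_sum] at k1
  have := mul_nonneg (sq_nonneg (ex M i)) hβ
  push_cast at k0
  rw [abs_le] at k0 k1 ⊢
  constructor <;> linarith [k0.1, k0.2, k1.1, k1.2]

/-! ### legs on two clusters -/

variable [Fintype Ω] {w : Ω → ℝ}

theorem LW_stp (hw : Wt w) (W : List (ι × (Ω → ℝ))) (m : u.Lf) (F : (u.Lf → Ω) → ℝ) :
    ∀ (i : ℕ) (M : List (Lv Ω)) (h : Ω → ℝ), i ≤ M.length →
    LW ε i M W (cst (TEf w M h)) (u.stp i) (fun _ => u.stI i m) (fun x => F fun b => x (u.stI i b)) =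
      node w M i (fun z => LW ε 0 (M.drop i) W (cst (TEf w (M.drop i) z)) u (fun _ => m) F) h
  | 0, M, h, _ => by rw [node_zero]; rfl
  | i + 1, l :: M, h, hi => by
      refine (LW_step_TE hw l M h W (u.stp i) _ _).trans ?_
      rw [node_cons]
      exact congrArg (fun Ψ => tE l (X w M) Ψ h)
        (funext fun z => LW_stp hw W m F i M z (Nat.le_of_succ_le_succ hi))

/-- a graft at the root of a cluster -/
theorem graft_zero (hu : u.br = 1) : ∀ (i : ℕ) (a : (u.stp i).Lf),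
    (⟨(u.stp i).graft a 0, (u.stp i).emb a 0, 0, (u.stp i).nw a 0, (u.stp i).nw a 0⟩ : GT (u.stp i)) =
      ⟨.split (u.stp i) .one, Sum.inl, 0, .inr (), .inr ()⟩
  | 0, a => by
      cases u with
      | one => rfl
      | step s => rfl
      | split s t => exact absurd hu not_split
  | _ + 1, _ => rfl

/-- a cluster and a new leaf -/
theorem LW_gr (hw : Wt w) (hu : u.br = 1) (m : u.Lf) (F : (u.Lf → Ω) → ℝ) (f : Ω → ℝ)
    (W : List ((Unit ⊕ Unit) × (Ω → ℝ))) : ∀ (y : ℕ) (M : List (Lv Ω)) (i : ℕ), y ≤ i →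
    i ≤ M.length → ∀ h : Ω → ℝ,
    LW ε i M W (cst (TEf w M h)) _ (mk2 (u.stp i) (u.stI i m) y)
        (fun x => F (fun b => x ((u.stp i).emb (u.stI i m) y (u.stI i b))) *
          f (x ((u.stp i).nw (u.stI i m) y))) =
      node w M y (fun z => node w (M.drop y) (i - y) (fun z =>
          LW ε 0 (M.drop i) (lft W) (cst (TEf w (M.drop i) z)) u (fun _ => m) F) z *
        node w (M.drop y) (i - y) (fun z =>
          LW ε 0 (M.drop i) (rgt W) (cst (TEf w (M.drop i) z)) .one id fun x => f (x ())) z) h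
  | 0, M, i, _, hi, h => by
      have h1 := LW_split (ε := ε) (i := i) M (TEf_split hw M h) W (u.stp i) .one
        (fun _ => u.stI i m) id (fun x => F fun b => x (u.stI i b)) fun x => f (x ())
      rw [LW_stp hw _ m F i M h hi] at h1
      rw [node_zero]
      refine Eq.trans ?_ (h1.trans (mc (LW_one_TE hw _ _ _ i M h hi)))
      refine (congrArg (fun τ : GT (u.stp i) => LW ε i M W (cst (TEf w M h)) τ.sh
        (Sum.elim (fun _ => τ.e (u.stI i m)) fun _ => τ.p)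
        fun x => F (fun b => x (τ.e (u.stI i b))) * f (x τ.p)) (graft_zero hu i (u.stI i m))).trans ?_
      exact congrArg (fun e => LW ε i M W (cst (TEf w M h)) _ e _)
        (funext fun x => by cases x <;> rfl)
  | _ + 1, _, 0, hy, _, _ => absurd hy (Nat.not_succ_le_zero _)
  | _ + 1, [], _ + 1, _, hi, _ => absurd hi (Nat.not_succ_le_zero _)
  | y + 1, l :: M, i + 1, hy, hi, h => by
      refine (LW_step_TE hw l M h W ((u.stp i).graft (u.stI i m) y) _ _).trans ?_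
      rw [node_cons, Nat.add_sub_add_right]
      exact congrArg (fun Ψ => tE l (X w M) Ψ h) (funext fun z => LW_gr hw hu m F f W y M i
        (Nat.le_of_succ_le_succ hy) (Nat.le_of_succ_le_succ hi) z)

/-- the marks of a tree with a new cluster that carries a pair -/
def mk3 (s : Sh) (m : s.Lf) (y k : ℕ) : Unit ⊕ Unit → ((s.graft m y).graft (s.nw m y) k).Lf :=
  fun x => (s.graft m y).emb (s.nw m y) k (mk2 s m y x)

/-- a cluster and a new pair -/
theorem LW_gr2 (hw : Wt w) (hu : u.br = 1) (m : u.Lf) (F : (u.Lf → Ω) → ℝ) (r : ℕ) (Q : Ω → Ω → ℝ)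
    (W : List ((Unit ⊕ Unit) × (Ω → ℝ))) : ∀ (y : ℕ) (M : List (Lv Ω)) (i : ℕ), y ≤ i →
    i ≤ M.length → ∀ h : Ω → ℝ,
    LW ε i M W (cst (TEf w M h)) _ (mk3 (u.stp i) (u.stI i m) y (r + i))
        (fun x => F (fun b => x (((u.stp i).graft (u.stI i m) y).emb _ (r + i)
            ((u.stp i).emb (u.stI i m) y (u.stI i b)))) *
          Q (x (mk3 (u.stp i) (u.stI i m) y (r + i) (.inr ())))
            (x (((u.stp i).graft (u.stI i m) y).nw _ (r + i)))) =
      node w M y (fun z => node w (M.drop y) (i - y) (fun z =>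
          LW ε 0 (M.drop i) (lft W) (cst (TEf w (M.drop i) z)) u (fun _ => m) F) z *
        node w (M.drop y) (i - y) (fun z => LW ε 0 (M.drop i) (rgt W) (cst (TEf w (M.drop i) z))
          (.two r) (fun _ => Sh.twoL r) (pr2 r Q)) z) h
  | 0, M, i, _, hi, h => by
      have h1 := LW_split (ε := ε) (i := i) M (TEf_split hw M h) W (u.stp i) (.two (r + i))
        (fun _ => u.stI i m) (fun _ => Sh.twoL (r + i)) (fun x => F fun b => x (u.stI i b))
        (pr2 (r + i) Q)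
      rw [LW_stp hw _ m F i M h hi, Y89.LW_two_TE hw _ r Q i M h hi] at h1
      rw [node_zero]
      refine Eq.trans ?_ h1
      refine (congrArg (fun τ : GT (u.stp i) => LW ε i M W (cst (TEf w M h))
        (τ.sh.graft τ.p (r + i)) (fun x => τ.sh.emb τ.p (r + i)
          (Sum.elim (fun _ => τ.e (u.stI i m)) (fun _ => τ.p) x))
        fun x => F (fun b => x (τ.sh.emb τ.p (r + i) (τ.e (u.stI i b)))) *
          Q (x (τ.sh.emb τ.p (r + i) τ.p)) (x (τ.sh.nw τ.p (r + i))))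
        (graft_zero hu i (u.stI i m))).trans ?_
      exact congrArg (fun e => LW ε i M W (cst (TEf w M h)) _ e _)
        (funext fun x => by cases x <;> rfl)
  | _ + 1, _, 0, hy, _, _ => absurd hy (Nat.not_succ_le_zero _)
  | _ + 1, [], _ + 1, _, hi, _ => absurd hi (Nat.not_succ_le_zero _)
  | y + 1, l :: M, i + 1, hy, hi, h => by
      refine (LW_step_TE hw l M h W
        (((u.stp i).graft (u.stI i m) y).graft ((u.stp i).nw (u.stI i m) y) (r + i)) _ _).trans ?_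
      rw [node_cons, Nat.add_sub_add_right]
      exact congrArg (fun Ψ => tE l (X w M) Ψ h) (funext fun z => LW_gr2 hw hu m F r Q W y M i
        (Nat.le_of_succ_le_succ hy) (Nat.le_of_succ_le_succ hi) z)

end Crest.Agent.T156.Cas.Mx14

end
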