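import Crest.Agent.T156.CMxB_55
import Crest.Agent.T156.CMxE_84

/-!
# Row 156, block C (helper55): the weak bound `Mx84.WkS`
-/

set_option autoImplicit false
set_option linter.all false

noncomputable section

namespace Crest.Agent.T156.Cas.Mb55

open MeasureTheory Real Set Filter Topology
open Crest.Agent.T157.E Crest.Agent.T157.Casc Crest.Agent.T157.SL
open Crest.Agent.T157.G1 (ov abs_ov_le)
open Wt87 Nu87 Ker15 R90

section gen
variable {Ω : Type} [Fintype Ω] {w : Ω → ℝ} {L : List (Lv Ω)} {h : Ω → ℝ} {R : Ω → Ω → ℝ}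
  {κ : Type} [Fintype κ] {σ : κ → κ → ℕ}

theorem NY_add (p : κ) (t : ℕ) (G G' : (κ → Ω) → ℝ) (Q : Ω → Ω → ℝ) :
    NY w L h σ p t (fun x => G x + G' x) Q = NY w L h σ p t G Q + NY w L h σ p t G' Q := by
  simp only [NY, add_mul, TK_add]

theorem pE_zero (w : Ω → ℝ) (L : List (Lv Ω)) (h : Ω → ℝ) : pE w L h (fun _ _ => 0) = 0 := by
  simpa using Pe.pE_const_mul w L h 0 fun _ _ => 0

/-- **one base tree against the canonical term**, tails in first order -/
theorem dev_cs2 (hw : Wt w) (hR : ∀ x y, R x y = R y x) (hR1 : ∀ x y, |R x y| ≤ 1)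
    (H : Um L.length σ) {a b c d p : κ} {y i : ℕ} (hK : i ≤ L.length) (hy : y < i)
    (h1 : σ b p = y) (ha : i ≤ σ a p) (hc : i ≤ σ c p) (hd : i ≤ σ d b) {X τ Γ F : ℝ} (hX : 0 ≤ X)
    (hτ : exc w L h R X y ≤ τ) (S : Finset ℕ) (μ : ℕ → ℝ) (Q : ℕ → Ω → Ω → ℝ) (hΓ : 0 ≤ Γ)
    (HΓ : pE w L h (fun g _ => Yp w L h S μ Q g ^ 2) ≤ Γ ^ 2)
    (HF : ∀ g, |Yp w L h S μ Q g| ≤ F) :
    |∑ t ∈ S, μ t * (NY w L h σ p t (fun x => R (x a) (x b) * R (x c) (x d)) (Q t) -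
      bt w L h R y i t (Q t))| ≤ 5 * (X * √(vU w L h R y i)) * Γ + 4 * τ * F := by
  have HT := um_fT H (fun _ : Bool => p) i
  have t1 := fun a b => fT_ll (β := fun _ : Bool => p) (t := i) H a b
  have t3 := fun a v => fT_lr (β := fun _ : Bool => p) (t := i) H a v
  have t4 := fun a v => fT_rl (β := fun _ : Bool => p) (t := i) H a v
  have c1 := H.comm b p
  have hab : σ a b = y := by
    have := H.ultra a p b; have := H.ultra p a b; have := H.comm a p
    omega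
  have hdp : σ d p = y := by
    have := H.ultra d b p; have := H.ultra b d p; have := H.comm b d
    omega
  have hcd : σ c d = y := by
    have := H.ultra c p d; have := H.ultra p c d; have := H.comm c p; have := H.comm d p
    omega
  have hK' := hy.trans_le hK
  have v0 := vU_nonneg (L := L) (h := h) hw R y i
  let r1 : (κ ⊕ Bool → Ω) → ℝ := fun x => R (x (.inl c)) (x (.inl d))
  let r2 : (κ ⊕ Bool → Ω) → ℝ := fun x => R (x (.inr true)) (x (.inl b))
  let α : (κ ⊕ Bool → Ω) → ℝ := fun x => R (x (.inl a)) (x (.inl b)) - r2 x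
  let γ : (κ ⊕ Bool → Ω) → ℝ := fun x => r1 x - R (x (.inr false)) (x (.inl b))
  have e0 : ∀ t, NY w L h σ p t (fun x => R (x a) (x b) * R (x c) (x d)) (Q t) -
      bt w L h R y i t (Q t) = NY w L h (nT L.length σ p i) (.inl p) t
        (fun x => α x * clp X (r1 x) + γ x * clp X (r2 x)) (Q t) +
      NY w L h (nT L.length σ p i) (.inl p) t
        (fun x => α x * (r1 x - clp X (r1 x)) + γ x * (r2 x - clp X (r2 x))) (Q t) := fun t => by
    have e1 : NY w L h σ p t (fun x => R (x a) (x b) * R (x c) (x d)) (Q t) =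
        NY w L h (nT L.length σ p i) (.inl p) t
          (fun x => R (x (.inl a)) (x (.inl b)) * R (x (.inl c)) (x (.inl d))) (Q t) :=
      NY_map hw H HT (φ := id) (φ' := Sum.inl) (by simp)
        (fun a b _ => (t1 a b).symm) (fun a => congrArg (min · t) (t1 a p).symm)
        (fun x => R (x a) (x b) * R (x c) (x d)) (Q t)
    rw [← bt_eq hw H t h1 hy.le hK', ← NY_add, e1, ← NY_sub]
    congr 1
    funext x
    simp only [α, γ, r1, r2]
    ring
  simp only [e0, mul_add, Finset.sum_add_distrib]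
  have s1 := mv_le (h := h) hw HT (u := .inl a) (u' := .inr true) (z := .inl b) (t := i) hK'
    ((t1 _ _).trans hab) (by rw [t4]; omega) hy.le (by rw [t3]; omega) R
  have s2 := par_le (h := h) hw hR HT (a := .inl c) (b := .inl d) (a' := .inr false)
    (b' := .inl b) (t := i) hK' ((t1 _ _).trans hcd) (by rw [t4]; omega) (by rw [t3]; omega) hy.le
    (by rw [t3]; omega) (hd.trans_eq (t1 _ _).symm)
  have p1 := TK_pair (h := h) hw HT (a := .inl c) (b := .inl d)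
    (fun e => ne_of_lt H (hcd ▸ hK' : σ c d < _) (Sum.inl_injective e))
    fun a b => max (|R a b| - X) 0
  have p2 := TK_pair (h := h) hw HT (a := .inr true) (b := .inl b) (by simp)
    fun a b => max (|R a b| - X) 0
  rw [t1, hcd] at p1
  rw [t4, h1, min_eq_left hy.le] at p2
  have a2 : ∀ x, |α x| ≤ 2 := fun x => sub_two hR1 _ _ _ _
  have g2 : ∀ x, |γ x| ≤ 2 := fun x => sub_two hR1 _ _ _ _
  have k2 : ∀ x, |α x * (r1 x - clp X (r1 x)) + γ x * (r2 x - clp X (r2 x))| ≤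
      2 * max (|r1 x| - X) 0 + 2 * max (|r2 x| - X) 0 := fun x =>
    (abs_add_le _ _).trans (by
      rw [abs_mul, abs_mul]
      exact add_le_add (mul_le_mul (a2 x) (clp_le hX _).2.2 (abs_nonneg _) zero_le_two)
        (mul_le_mul (g2 x) (clp_le hX _).2.2 (abs_nonneg _) zero_le_two))
  have F0 : 0 ≤ F := (abs_nonneg _).trans (HF 0)
  refine (abs_add_le _ _).trans (add_le_add (NY_cs hw HT _ _ S μ Q (by positivity) hΓ ?_ HΓ)
    ((NY_env hw HT _ _ S μ Q (A := 4 * τ) (A' := 4) (ε := 0) F0 (by norm_num) ?_ (fun x => ?_)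
      ?_).trans_eq (by ring)))
  · refine (TK_mono hw HT (G := fun x => 2 * X ^ 2 * α x ^ 2 + 2 * X ^ 2 * γ x ^ 2)
      fun x => ?_).trans ?_
    · have k1 : clp X (r1 x) ^ 2 ≤ X ^ 2 := sq_le_sq' (abs_le.1 (clp_le hX _).1).1
        (abs_le.1 (clp_le hX _).1).2
      have k3 : clp X (r2 x) ^ 2 ≤ X ^ 2 := sq_le_sq' (abs_le.1 (clp_le hX _).1).1
        (abs_le.1 (clp_le hX _).1).2
      nlinarith [sq_nonneg (α x * clp X (r1 x) - γ x * clp X (r2 x)),
        mul_le_mul_of_nonneg_left k1 (sq_nonneg (α x)), mul_le_mul_of_nonneg_left k3 (sq_nonneg (γ x))]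
    · rw [TK_add, TK_mul, TK_mul, mul_pow, mul_pow, sq_sqrt v0]
      nlinarith [mul_le_mul_of_nonneg_left s1 (sq_nonneg X),
        mul_le_mul_of_nonneg_left s2 (sq_nonneg X), mul_nonneg (sq_nonneg X) v0]
  · refine (TK_mono hw HT k2).trans ?_
    rw [TK_add, TK_mul, TK_mul]
    unfold exc at hτ
    linarith [p1.trans_le hτ, p2.trans_le hτ]
  · refine (k2 x).trans ?_
    have b1 : max (|r1 x| - X) 0 ≤ 1 := max_le (by linarith [hR1 (x (.inl c)) (x (.inl d))]) zero_le_one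
    have b2 : max (|r2 x| - X) 0 ≤ 1 :=
      max_le (by linarith [hR1 (x (.inr true)) (x (.inl b))]) zero_le_one
    linarith
  · simp only [fun g => max_eq_right (sub_nonpos.2 (HF g)), pE_zero, le_refl]

theorem abs_qf (hw : Wt w) (L : List (Lv Ω)) (z : Ω → ℝ) {Q : Ω → Ω → ℝ} {c : ℝ}
    (hQ : ∀ x y, |Q x y| ≤ c) : |qf (P w L z) Q| ≤ c := by
  have h1 := qf_mono (P_nonneg hw L z) (K := Q) (K' := fun _ _ => c) fun x y => (abs_le.1 (hQ x y)).2
  have h2 := qf_mono (P_nonneg hw L z) (K := fun _ _ => -c) (K' := Q)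
    fun x y => (abs_le.1 (hQ x y)).1
  rw [qf_const (sum_P hw _ _)] at h1 h2
  exact abs_le.2 ⟨h2, h1⟩

/-- the canonical terms, summed -/
theorem sum_bt (hw : Wt w) (T : Finset ℕ) (ν : ℕ → ℝ) (i : ℕ) (S : Finset ℕ) (μ : ℕ → ℝ)
    (Q : ℕ → Ω → Ω → ℝ) (h0 : ∀ t ∈ S, pi2 w L t (Q t) h = 0) {Γ : ℝ} (hΓ : 0 ≤ Γ)
    (HΓ : pE w L h (fun g _ => Yp w L h S μ Q g ^ 2) ≤ Γ ^ 2) (m : ℝ) :
    |∑ y ∈ T, ν y * ∑ t ∈ S, μ t * bt w L h R y i t (Q t)| ≤
      √(pE w L h fun g _ => (∑ y ∈ T, ν y * Ps w L R y i (fun j => st L j h g) - m) ^ 2) * Γ := by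
  have eP : ∀ y, Eg fun g => Ps w L R y i (stT .one L h g ()) := fun y =>
    (egP_Ps (R := R) (L := L) hw y i ()).stT (s := .one) L h
  have eS : Eg fun g => ∑ y ∈ T, ν y * Ps w L R y i (stT .one L h g ()) - m :=
    (Eg.sum _ fun y _ => (eP y).const_mul _).sub (Eg.const _)
  have eQ : ∀ t, Eg fun g => qf (P w (L.drop t) (stT .one L h g () t)) (Q t) := fun t =>
    Sp38.eg_node .one L h (eg_qf hw _ _) () t
  have o := fun F : (NI L → ℝ) → ℝ => Tr.tX_one w L h fun g _ => F g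
  have n0 : 0 ≤ pE w L h fun g _ =>
      (∑ y ∈ T, ν y * Ps w L R y i (fun j => st L j h g) - m) ^ 2 :=
    (o _).symm ▸ Sd.tX_nonneg hw .one L h fun _ _ => sq_nonneg _
  refine le_of_eq_of_le (congrArg _ ?_) (Cw55.tail_cen hw .one () L h
    (G := fun g _ => ∑ y ∈ T, ν y * Ps w L R y i (stT .one L h g ()) - m) (fun _ => eS) S μ
    (Y := fun t _ z => qf (P w (L.drop t) z) (Q t)) (fun _ _ => eg_qf hw _ _) (sqrt_nonneg _) hΓ
    ((o _).trans (sq_sqrt n0).symm).le HΓ)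
  simp only [Finset.mul_sum, mul_left_comm (ν _)]
  rw [Finset.sum_comm]
  refine Finset.sum_congr rfl fun t ht => ?_
  rw [← Finset.mul_sum]
  congr 1
  simp only [sub_mul, Finset.sum_mul, mul_assoc]
  rw [Sd.tX_sub hw .one L h (fun _ => Eg.sum _ fun y _ => ((eP y).mul (eQ t)).const_mul _)
    (fun _ => (eQ t).const_mul _), Sd.tX_sum hw .one L h T
      fun y _ _ => ((eP y).mul (eQ t)).const_mul _, Sd.tX_const_mul,
    show tX w .one L h (fun g _ => qf (P w (L.drop t) (stT .one L h g () t)) (Q t)) = 0 from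
      (o _).trans ((Pe.pE_node1 hw (eg_qf hw (L.drop t) (Q t)) L t h).trans (h0 t ht)),
    mul_zero, sub_zero]
  refine Finset.sum_congr rfl fun y _ => ?_
  rw [Sd.tX_const_mul]
  exact congrArg _ (Eq.trans (congrArg (pE w L h) (funext fun g => funext fun _ => mul_comm _ _))
    (o _).symm)

end gen

open C40 C40.Mx84 Cw55

variable {D : CD} {τ0 : ℝ}

theorem pi2_Uc (D : CD) (t : ℕ) : pi2 (fun _ => 1) D.B t (Uc D t) 0 = 0 := by
  rw [← sub_self (D.del t), ← pi2_const wt_one90 D.B t (D.del t) 0]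
  nth_rewrite 1 [pi2_const wt_one90, ← Ex23.E2_oU]
  exact pi2_sub wt_one90 _ _ _ _ _

theorem Uc_eq (D : CD) (t : ℕ) : Uc D t = fun x y => ov x y - D.rb t := by
  funext x y
  simp only [Uc, oU, CD.del]
  ring

theorem abs_rb1 (D : CD) (t : ℕ) : |D.rb t| ≤ 1 := by
  have h1 := pi2_mono wt_one90 D.B t (K := ov) (K' := fun _ _ => 1)
    (fun x y => (abs_le.1 (abs_ov_le x y)).2) 0
  have h2 := pi2_mono wt_one90 D.B t (K := fun _ _ => -1) (K' := ov)
    (fun x y => (abs_le.1 (abs_ov_le x y)).1) 0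
  rw [pi2_const wt_one90] at h1 h2
  exact abs_le.2 ⟨h2, h1⟩

theorem abs_Uc (D : CD) (t : ℕ) (x y : Cube D.n) : |Uc D t x y| ≤ 2 := by
  rw [Uc_eq]
  exact (abs_sub _ _).trans (by linarith [abs_ov_le x y, abs_rb1 D t])

theorem Yp_eq (D : CD) (S : Finset ℕ) (μ : ℕ → ℝ) (g : NI D.B → ℝ) :
    Yp (fun _ => 1) D.B 0 S μ (Uc D) g = ∑ t ∈ S, μ t * (D.nd t g - D.del t) := by
  simp only [Yp, qf_Uc, CD.nd]

/-- the base tree of `Bk` -/
def bs (K y s : ℕ) : Fin 3 → Fin 3 → ℕ := lf K (fun _ _ : Unit => K) (fun _ => ()) ![y, s, K]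

theorem um_unit (K : ℕ) : Um K fun _ _ : Unit => K :=
  ⟨fun _ => rfl, fun _ _ => rfl, fun _ _ _ => (min_self _).le⟩

theorem cat_eq {K y s u : ℕ} (hu : u ≤ K) (a b : Fin 4) (e : a ≠ b) : cat K y s u a b =
    nT K (bs K y s) 2 u (![.inl 0, .inl 1, .inr true, .inr false] a)
      (![.inl 0, .inl 1, .inr true, .inr false] b) := by
  fin_cases a <;> fin_cases b <;> first
    | exact absurd rfl e
    | (simp [cat, nT, fT, bs, lf]; try omega)

theorem Bk_eq (D : CD) (y s u : ℕ) (hu : u ≤ D.B.length) : Bk D y s u =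
    NY (fun _ => 1) D.B 0 (bs D.B.length y s) 2 u (fun x => ov (x 1) (x 0) * ov (x 1) (x 0))
      (Uc D u) := by
  have H : Um _ (bs D.B.length y s) := um_lf (um_unit _) _ _
  have H' : Um _ (cat D.B.length y s u) := um_lf (um_unit _) _ _
  refine Eq.trans (congrArg (TK _ _ _ _) (funext fun x => ?_)) (TK_map (h := 0) wt_one90 H' (um_fT H (fun _ : Bool => 2) u)
    (φ := id) (φ' := ![.inl 0, .inl 1, .inr true, .inr false])
    (fun a b => by fin_cases a <;> fin_cases b <;> simp) (fun a b e => ?_)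
    fun x => ov (x 1) (x 0) * ov (x 1) (x 0) * Uc D u (x 2) (x 3))
  · rw [sq, C3n47.ov_comm (x 0)]
    rfl
  · exact cat_eq hu a b e

theorem _root_.Crest.Agent.T156.Cas.C40.Mx84.wkS : WkS := fun τ0 =>
  ⟨8 * τ0 ^ 2 + 1, by positivity, fun D H s hs N f hf hN => by
  have l : D.B.length = D.M.length := lenB D
  have hc : D.J < D.M.length := H.cut
  have HΓ : pE (fun _ => 1) D.B 0 (fun g _ => Yp (fun _ => 1) D.B 0 D.up N (Uc D) g ^ 2) ≤ f ^ 2 := by
    simp only [Yp_eq]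
    exact hN
  set Z := ∑ u ∈ D.up, |N u| with hZ
  have Z0 : 0 ≤ Z := Finset.sum_nonneg fun _ _ => abs_nonneg _
  have HF : ∀ g, |Yp (fun _ => 1) D.B 0 D.up N (Uc D) g| ≤ 2 * Z := fun g =>
    (Finset.abs_sum_le_sum_abs _ _).trans (by
      rw [hZ, Finset.mul_sum]
      refine Finset.sum_le_sum fun t _ => ?_
      rw [abs_mul, mul_comm]
      exact mul_le_mul_of_nonneg_right (abs_qf wt_one90 _ _ (abs_Uc D t)) (abs_nonneg _))
  have k1 := sum_bt (R := ov) wt_one90 D.lo (fun y => D.dx y * D.τ y ^ 2) (D.J + 1) D.up N (Uc D)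
    (fun t _ => pi2_Uc D t) hf HΓ (pE (fun _ => 1) D.B 0 fun p' _ => D.Ql p')
  have k1' : |∑ y ∈ D.lo, D.dx y * D.τ y ^ 2 *
      ∑ t ∈ D.up, N t * bt (fun _ => 1) D.B 0 ov y (D.J + 1) t (Uc D t)| ≤ √D.vL * f := by
    simpa only [CD.vL, CD.Ql, Ps, mul_assoc] using k1
  have k2 : ∀ y ∈ D.lo, |D.dx y * D.τ y ^ 2 * ∑ t ∈ D.up, N t * (Bk D y s t -
      bt (fun _ => 1) D.B 0 ov y (D.J + 1) t (Uc D t))| ≤ D.dx y * (τ0 ^ 2 *
        (5 * (D.X * √(D.v y (D.J + 1))) * f + 4 * D.tl * (2 * Z))) := fun y hy => by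
    have hy' := (CD.mem_lo.1 hy).2
    have H0 : Um _ (bs D.B.length y s) := um_lf (um_unit _) _ _
    have := dev_cs2 (h := 0) wt_one90 C3n47.ov_comm abs_ov_le H0 (a := 1) (b := 0) (c := 1) (d := 0)
      (p := 2) (y := y) (i := D.J + 1) (by omega) (by omega) (by simp [bs, lf]; omega)
      (by simp [bs, lf]; omega) (by simp [bs, lf]; omega) (by rw [H0.self]; omega) H.X0
      (H.envL y hy) D.up N (Uc D) hf HΓ HF
    rw [Finset.sum_congr rfl fun t ht => by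
      rw [Bk_eq D y s t ((CD.mem_up.1 ht).2.le.trans l.ge)], abs_mul,
      abs_of_nonneg (mul_nonneg (H.dx0 y) (sq_nonneg _)), mul_assoc]
    exact mul_le_mul_of_nonneg_left (mul_le_mul (pow_le_pow_left₀ (H.tau_mem y).1 (H.tau_mem y).2 2)
      this (abs_nonneg _) (sq_nonneg _)) (H.dx0 y)
  have e : ∑ u ∈ D.up, N u * GG D s u = ∑ y ∈ D.lo, D.dx y * D.τ y ^ 2 *
      ∑ t ∈ D.up, N t * bt (fun _ => 1) D.B 0 ov y (D.J + 1) t (Uc D t) +
      ∑ y ∈ D.lo, D.dx y * D.τ y ^ 2 * ∑ t ∈ D.up, N t * (Bk D y s t -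
        bt (fun _ => 1) D.B 0 ov y (D.J + 1) t (Uc D t)) := by
    simp only [GG, Finset.mul_sum, ← Finset.sum_add_distrib]
    rw [Finset.sum_comm]
    exact Finset.sum_congr rfl fun y _ => Finset.sum_congr rfl fun t _ => by ring
  have k3 := (Finset.abs_sum_le_sum_abs _ _).trans (Finset.sum_le_sum k2)
  have e3 : ∑ y ∈ D.lo, D.dx y * (τ0 ^ 2 *
      (5 * (D.X * √(D.v y (D.J + 1))) * f + 4 * D.tl * (2 * Z))) =
      5 * τ0 ^ 2 * ((D.X * ∑ y ∈ D.lo, D.dx y * √(D.v y (D.J + 1))) * f) +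
        8 * τ0 ^ 2 * (Z * D.tl) * ∑ y ∈ D.lo, D.dx y := by
    simp only [Finset.mul_sum, Finset.sum_mul, ← Finset.sum_add_distrib]
    exact Finset.sum_congr rfl fun y _ => by ring
  have n1 : 0 ≤ (D.X * ∑ y ∈ D.lo, D.dx y * √(D.v y (D.J + 1))) * f :=
    mul_nonneg (mul_nonneg H.X0 (Finset.sum_nonneg fun y _ =>
      mul_nonneg (H.dx0 y) (sqrt_nonneg _))) hf
  have n2 : 0 ≤ √D.vL * f := mul_nonneg (sqrt_nonneg _) hf
  have n3 := mul_nonneg Z0 H.tl0
  have n4 := mul_le_mul_of_nonneg_left (H.sum_lo.trans H.X1)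
    (mul_nonneg (mul_nonneg (by norm_num : (0 : ℝ) ≤ 8) (sq_nonneg τ0)) n3)
  rw [e, CD.Lv2, add_mul]
  refine (abs_add_le _ _).trans ?_
  nlinarith [mul_nonneg (sq_nonneg τ0) n1, mul_nonneg (sq_nonneg τ0) n2]⟩

end Crest.Agent.T156.Cas.Mb55

end
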