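import Crest.Agent.T156.CMx1_84
import Crest.Agent.T156.CMxW_55
import Crest.Agent.T156.CMxK_47
import Crest.Agent.T156.CMxR_90
import Crest.Agent.T156.CMxM_23

/-!
# Row 156, block C: the centred mixed word, and the mixed word (helper84)
-/

set_option autoImplicit false

namespace Crest.Agent.T156.Cas.C40

theorem mxC (b : Bool) : Mx23.MxC b := Mx84.mxC_of (Mx84.redS_of Mx84.bkS) Mx84.wkS b

theorem mxS_false : MxS false := Mx23.mxS_of Mx23.mxM_false (mxC false)

theorem mxS_true_of (h : Mx23.MxM true) : MxS true := Mx23.mxS_of h (mxC true)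

end Crest.Agent.T156.Cas.C40
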