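import Crest.Agent.T156.CQ21D_52

/-!
# Row 156 (helper38): one edge at the marked level, crude bound (`RowBS`)
-/

set_option autoImplicit false
set_option linter.all false

noncomputable section

namespace Crest.Agent.T156.Cas.Q21

open Finset
open Crest.Agent.T157.E Crest.Agent.T157.Casc Crest.Agent.T157.SL
open Crest.Agent.T156.Rect52
open Crest.Agent.T156.Cas.Q75
open Crest.Agent.T156.Cas.Q75.A10 (ind)
open Nu87

namespace R38

variable {Θ : Type} {L : List (Lv Θ)} {c B : Tw} {j₁ j : ℕ} {c₀ g : ℝ} {p s a ψ f : ℕ → ℝ}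
  {b : ℕ → ℕ → ℝ} {V : Type} [AddCommGroup V] [Module ℝ V] {ip : LinearMap.BilinForm ℝ V}
  {δ : ℕ → V} {π : ℕ → ℕ → V} {P : ℕ → V →ₗ[ℝ] V}

theorem off_symm {T : Tw} {K z x k : ℕ} (H : T.tr.Eqv T K) (hx : x ≤ K) (hz : z ≤ x) (hk : z ≤ k)
    (hk' : k ≤ K) : T.off K z k x = T.off K z x k := by
  simpa only [Tw.tr, m4_tr, Tw.off] using H.2.2 _ (rz_off hx hz hk hk')

theorem s0 (H : BH L B j₁ c₀ p s a b ip δ π P) (i : ℕ) : 0 ≤ s i :=
  (dm_nonneg H.mono i).trans (H.ds i)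

theorem abs_cP (hL : Mono 0 L) {y u x : ℕ} {κ : ℝ} (hy : y ≤ u) (hu : u ≤ x) (hx : x ≤ L.length)
    (h : ∀ t, y ≤ t → t ≤ L.length + 1 → |c.lo L.length y x t| ≤ κ) : |cP L c y u x| ≤ 4 * κ :=
  abs_LL_le hL hu hx fun t h4 h5 => h t (hy.trans h4) h5

theorem abs_LO (hL : Mono 0 L) {y x : ℕ} {κ : ℝ} (hy : y ≤ x) (hx : x ≤ L.length)
    (h : ∀ t, y ≤ t → t ≤ L.length + 1 → |c.lo L.length y x t| ≤ κ) : |LO L c y x| ≤ 10 * κ := by
  have h1 := abs_le.1 (abs_cP hL le_rfl hy hx h)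
  have h2 := abs_le.1 (S97.abs_mul_le' (S97.kap_abs hL y) (h y le_rfl (by omega)))
  rw [LO, abs_le]
  constructor <;> linarith [h1.1, h1.2, h2.1, h2.2]

/-- `NH.lo_dec` with a free bound of the coefficient -/
theorem lo_dec' (H : BH L B j₁ c₀ p s a b ip δ π P) {y x : ℕ} {κ : ℝ} (hy : y ≤ x)
    (hx : x ≤ L.length) (hκ : ∀ t, y ≤ t → t ≤ L.length + 1 → |c.lo L.length y x t| ≤ κ) :
    |LO L (c.mul B) y x - (LO L c y x * ip (δ x) (δ y) - 2 * Pt L c ip δ π y x)| ≤
      8 * (κ * (b y x * a x)) := by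
  have κ0 : 0 ≤ κ := (abs_nonneg _).trans (hκ y le_rfl (by omega))
  set Y : ℕ → ℝ := fun t => B.lo L.length y x t - (ip (δ x) (δ y) + ip (δ x) (π y (min t x)))
  have hY : ∀ t, y ≤ t → t ≤ L.length + 1 → |c.lo L.length y x t * Y t| ≤ κ * (b y x * a x) :=
    fun t h2 h3 => by
      rw [abs_mul]
      refine mul_le_mul (hκ t h2 h3) ?_ (abs_nonneg _) κ0
      rcases le_or_gt t x with h | h
      · simp only [Y, min_eq_left h, H.bs.lo1 y x t h2 h hx, sub_self, abs_zero]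
        exact mul_nonneg (H.b0 y x) (H.bs.a0 x)
      · simp only [Y, min_eq_right h.le]
        exact H.lo3 y x t hy h h3 hx
  have e : ∀ t, y ≤ t → (c.mul B).lo L.length y x t =
      ip (δ x) (δ y) * c.lo L.length y x t + ∑ u ∈ Ico y x, ip (δ x) (π y (u + 1) - π y u) *
        (if u < t then c.lo L.length y x t else 0) + c.lo L.length y x t * Y t := fun t ht => by
    have : ∑ u ∈ Ico y x, ip (δ x) (π y (u + 1) - π y u) *
        (if u < t then c.lo L.length y x t else 0) =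
        ip (δ x) (π y (min t x)) * c.lo L.length y x t := by
      simp only [mul_ite, mul_zero]
      rw [← sum_filter, ← sum_mul, ← map_sum, show filter (· < t) (Ico y x) = Ico y (min t x) by
        ext u; simp only [mem_filter, mem_Ico]; omega,
        sum_Ico_sub (π y) (le_min ht hy), H.bs.pi0, sub_zero]
    rw [lo_mul, this]
    simp only [Y]
    ring
  have e1 : cP L (c.mul B) y y x = ip (δ x) (δ y) * cP L c y y x + Pt L c ip δ π y x +
      (Lg L y (fun t => c.lo L.length y x t * Y t) + Lx L x fun t => c.lo L.length y x t * Y t) := by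
    rw [cP, Lg_congr (hy.trans hx) fun t h _ => e t h.le, Lx_congr hx fun t h _ => e t (hy.trans h),
      Lg_add, Lg_add, Lx_add, Lx_add, Lg_mul, Lx_mul, Lg_sum, Lx_sum, Q75.Pt, cP,
      sum_congr rfl (g := fun u => ip (δ x) (π y (u + 1) - π y u) * Lg L u (c.lo L.length y x))
        fun u hu => by
          rw [Lg_mul, Lg_cut (mem_Ico.1 hu).1 ((mem_Ico.1 hu).2.le.trans hx)],
      sum_congr rfl (f := fun u => Lx L x _)
        (g := fun u => ip (δ x) (π y (u + 1) - π y u) * Lx L x (c.lo L.length y x)) fun u hu => by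
          rw [Lx_mul, Lx_congr hx fun t h _ => if_pos ((mem_Ico.1 hu).2.trans_le h)]]
    simp only [cP, add_mul, sum_add_distrib, mul_comm (ip (δ x) (π y _ - π y _))]
    ring
  have e2 : (c.mul B).lo L.length y x y = c.lo L.length y x y * ip (δ x) (δ y) := by
    rw [lo_mul, H.bs.lo1 y x y le_rfl hy hx, H.bs.pi0, map_zero, add_zero]
  have h := abs_LL_le H.mono hy hx hY
  rw [LO, LO, e1, e2]
  rw [abs_le] at h ⊢
  constructor <;> nlinarith [h.1, h.2]

/-- Abel summation against one vector -/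
theorem abel1 (H : BH L B j₁ c₀ p s a b ip δ π P) (W : Wf L j₁ ip δ ψ f) (T : V →ₗ[ℝ] V)
    (hT : ∀ u, ip (T u) (T u) ≤ ip u u) {v : V} (hg : 0 ≤ g) (hv : ip v v ≤ g ^ 2) {m : ℕ}
    (hm : j₁ ≤ m) {κ d : ℕ → ℝ} {k0 : ℝ} (h0 : |κ m| ≤ k0)
    (h1 : ∀ i, m ≤ i → i < L.length → |κ (i + 1) - κ i| ≤ d i) :
    |∑ x ∈ Ico m (L.length + 1), κ x * (dm L 0 x * ψ x * ip v (T (δ x)))| ≤
      g * (k0 * f m + ∑ i ∈ Ico m L.length, d i * f (i + 1)) := by
  have e : ∀ y, j₁ ≤ y → |∑ x ∈ Ico y (L.length + 1), dm L 0 x * ψ x * ip v (T (δ x))| ≤ g * f y :=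
    fun y hy => by
      have := H.bs.cs hg (W.nn y) hv ((hT _).trans (W.tl y hy))
      simpa only [map_sum, map_smul, smul_eq_mul] using this
  rw [abel_id', Nat.add_sub_cancel, mul_add g, mul_sum _ (fun i => d i * f (i + 1))]
  refine (abs_add_le _ _).trans (add_le_add ((S97.abs_mul_le' h0 (e m hm)).trans_eq (by ring))
    ((abs_sum_le_sum_abs _ _).trans (sum_le_sum fun i hi => ?_)))
  have := mem_Ico.1 hi
  exact (S97.abs_mul_le' (h1 i this.1 this.2) (e _ (by omega))).trans_eq (by ring)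

theorem sum_step (H : BH L B j₁ c₀ p s a b ip δ π P) (hf : ∀ y, 0 ≤ f y) {m : ℕ} (hm : j₁ ≤ m)
    {A : ℝ} (hA : 0 ≤ A) :
    ∑ i ∈ Ico m L.length, (s i + (if i + 1 = j then A else 0) + if i = j then A else 0) * f (i + 1) ≤
      ∑ i ∈ Ico j₁ L.length, s i * f (i + 1) + A * f j + A * f (j + 1) := by
  simp only [add_mul, sum_add_distrib, ite_mul, zero_mul]
  refine add_le_add (add_le_add (sum_le_sum_of_subset_of_nonneg (Ico_subset_Ico_left hm)
    fun i _ _ => mul_nonneg (s0 H i) (hf _)) ?_) ?_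
  · rcases j with _ | j
    · simpa using mul_nonneg hA (hf 0)
    · simp only [Nat.add_right_cancel_iff, sum_ite_eq']
      split_ifs
      exacts [le_rfl, mul_nonneg hA (hf _)]
  · simp only [sum_ite_eq']
    split_ifs
    exacts [le_rfl, mul_nonneg hA (hf _)]

/-- `NH.pi_bd` with free bounds of the coefficient -/
theorem pi_up (H : BH L B j₁ c₀ p s a b ip δ π P) (W : Wf L j₁ ip δ ψ f) {y : ℕ} {κ : ℝ}
    (h1 : j₁ ≤ y) (hy : y ≤ L.length) (κ0 : 0 ≤ κ)
    (l0 : ∀ x t, y < x → x ≤ L.length → y ≤ t → t ≤ L.length + 1 → |c.lo L.length y x t| ≤ κ)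
    (p1 : ∀ u x, y ≤ u → u < x → x < L.length → |cP L c y u (x + 1) - cP L c y u x| ≤ s x) :
    |∑ x ∈ Ico y (L.length + 1), dm L 0 x * ψ x * Pt L c ip δ π y x| ≤
      a y * (4 * κ * f (y + 1) + ∑ i ∈ Ico j₁ L.length, s i * f (i + 1)) := by
  set F : ℕ → V := fun y => ∑ x ∈ Ico y (L.length + 1), (dm L 0 x * ψ x) • δ x with hF
  set d : ℕ → V := fun u => π y (u + 1) - π y u with hd
  have e0 : ∀ u v, ∑ x ∈ Ico v (L.length + 1), dm L 0 x * ψ x * ip (δ x) (d u) = ip (F v) (d u) :=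
    fun u v => by simp only [hF, map_sum, LinearMap.sum_apply, map_smul, LinearMap.smul_apply,
      smul_eq_mul]
  have e1 : ∑ x ∈ Ico y (L.length + 1), dm L 0 x * ψ x * Pt L c ip δ π y x =
      ∑ u ∈ Ico y L.length, (cP L c y u (u + 1) * ip (F (u + 1)) (d u) +
        ∑ j ∈ Ico (u + 1) L.length, (cP L c y u (j + 1) - cP L c y u j) * ip (F (j + 1)) (d u)) := by
    simp only [Q75.Pt, mul_sum]
    rw [← sum_Ico_Ico_comm', sum_Ico_succ_top hy, Ico_self, sum_empty, add_zero]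
    refine sum_congr rfl fun u _ => ?_
    have := abel_id' (cP L c y u) (fun x => dm L 0 x * ψ x * ip (δ x) (d u)) (u + 1) (L.length + 1)
    simp only [e0, Nat.add_sub_cancel] at this
    rw [← this]
    exact sum_congr rfl fun x _ => by ring
  have e2 : ∀ u ∈ Ico y L.length, ip (F (u + 1)) (d u) = ip (F (y + 1)) (d u) := fun u hu => by
    have hu' := mem_Ico.1 hu
    rw [← e0, ← e0, ← sum_Ico_consecutive _ (show y + 1 ≤ u + 1 by omega)
      (show u + 1 ≤ L.length + 1 by omega), sum_eq_zero (s := Ico (y + 1) (u + 1)) fun v hv => by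
        rw [H.bs.or1 y u v hu'.1 hu'.2 (by have := mem_Ico.1 hv; omega), mul_zero], zero_add]
  have pa := H.bs.a0 y
  have b1 : |∑ u ∈ Ico y L.length, cP L c y u (u + 1) * ip (F (u + 1)) (d u)| ≤
      f (y + 1) * (4 * κ * a y) := by
    rw [sum_congr rfl fun u hu => by rw [e2 u hu, ← smul_eq_mul, ← map_smul], ← map_sum]
    exact H.bs.cs (W.nn _) (by positivity) (W.tl _ (by omega)) (H.bs.mart hy le_rfl fun u h2 h3 =>
      abs_cP H.mono h2 (Nat.le_succ u) h3 fun t => l0 (u + 1) t (by omega) h3)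
  have b2 : |∑ u ∈ Ico y L.length, ∑ j ∈ Ico (u + 1) L.length,
      (cP L c y u (j + 1) - cP L c y u j) * ip (F (j + 1)) (d u)| ≤
      a y * ∑ i ∈ Ico j₁ L.length, s i * f (i + 1) := by
    rw [sum_Ico_Ico_comm', mul_sum]
    refine (abs_sum_le_sum_abs _ _).trans ((sum_le_sum fun j hj => ?_).trans
      (sum_le_sum_of_subset_of_nonneg (Ico_subset_Ico_left h1) fun i _ _ =>
        mul_nonneg pa (mul_nonneg (s0 H i) (W.nn _))))
    have hj' := mem_Ico.1 hj
    rw [sum_congr rfl fun u _ => by rw [← smul_eq_mul, ← map_smul], ← map_sum]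
    refine (H.bs.cs (W.nn _) (mul_nonneg (s0 H j) pa)
      (W.tl _ (by omega)) (H.bs.mart hj'.1 hj'.2.le fun u h2 h3 => p1 u j h2 h3 hj'.2)).trans_eq
        (by ring)
  rw [e1, sum_add_distrib]
  exact (abs_add_le _ _).trans (by linarith)

theorem abs_Pt (H : BH L B j₁ c₀ p s a b ip δ π P) {y x : ℕ} {κ : ℝ} (hy : y ≤ x)
    (hx : x ≤ L.length) (hκ : ∀ t, y ≤ t → t ≤ L.length + 1 → |c.lo L.length y x t| ≤ κ)
    (hg : 0 ≤ g) (hv : ip (δ x) (δ x) ≤ g ^ 2) : |Pt L c ip δ π y x| ≤ g * (4 * κ * a y) := by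
  have κ0 : 0 ≤ κ := (abs_nonneg _).trans (hκ y le_rfl (by omega))
  have := H.bs.a0 y
  rw [Q75.Pt, sum_congr rfl fun u hu => by rw [← smul_eq_mul, ← map_smul], ← map_sum]
  exact H.bs.cs hg (by positivity) hv (H.bs.mart hy hx fun u h2 h3 => abs_cP H.mono h2 h3.le hx hκ)

/-- the martingale part of the rows below `j`, in weak form -/
theorem pi_dn (H : BH L B j₁ c₀ p s a b ip δ π P) (R : RowR L c j₁ j c₀ p s) (h1 : j₁ ≤ j)
    (hj : j < L.length) (W : Wf L j₁ ip δ ψ f) (hg : 0 ≤ g) (hv : ip (δ j) (δ j) ≤ g ^ 2)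
    (hp : ∀ y, j₁ ≤ y → y + 1 < j → p y ≤ p (y + 1) ∧ p (y + 1) - p y ≤ s y)
    (hπ : ∀ (m t : ℕ) (θ : ℕ → ℝ), j₁ ≤ m → t ≤ L.length → (∀ y, |θ y| ≤ 1) → θ j = 0 →
      ip (∑ y ∈ Icc m t, (dm L 0 y * θ y) • π y t) (∑ y ∈ Icc m t, (dm L 0 y * θ y) • π y t) ≤
        (2 * f m) ^ 2) :
    |∑ y ∈ Ico j₁ j, dm L 0 y * ψ y * Pt L c ip δ π y j| ≤
      8 * (g * (p j₁ * f j₁ + ∑ i ∈ Ico j₁ L.length, s i * f (i + 1))) := by
  set Φ : ℕ → ℝ := fun t => ∑ y ∈ Ico j₁ j, dm L 0 y * ψ y * ∑ u ∈ Ico y j,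
    ip (δ j) (π y (u + 1) - π y u) * (if u < t then c.lo L.length y j t else 0) with hΦ
  have e : ∑ y ∈ Ico j₁ j, dm L 0 y * ψ y * Pt L c ip δ π y j = Lg L j₁ Φ + Lx L j Φ := by
    rw [Lg_sum, Lx_sum, ← sum_add_distrib]
    refine sum_congr rfl fun y hy => ?_
    rw [Lg_mul, Lx_mul, Lg_sum, Lx_sum, ← mul_add, ← sum_add_distrib, Q75.Pt]
    congr 1
    refine sum_congr rfl fun u hu => ?_
    have := mem_Ico.1 hy
    have := mem_Ico.1 hu
    rw [Lg_mul, Lx_mul, Lg_cut (by omega) (by omega),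
      Lx_congr hj.le fun t h _ => if_pos (show u < t by omega), cP]
    ring
  rw [e]
  refine (abs_LL_le H.mono h1 hj.le (b := 2 * (g * (p j₁ * f j₁ +
    ∑ i ∈ Ico j₁ L.length, s i * f (i + 1)))) fun t ht ht' => ?_).trans_eq (by ring)
  set θ : ℕ → ℝ := fun y => if j₁ ≤ y ∧ y < j ∧ y ≤ t then ψ y * (c.lo L.length y j t / p y)
    else 0 with hθ
  have θ1 : ∀ y, |θ y| ≤ 1 := fun y => by
    simp only [θ]
    split_ifs with h
    · rw [abs_mul, abs_div, abs_of_nonneg (H.p0 y)]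
      exact mul_le_one₀ (W.le y) (div_nonneg (abs_nonneg _) (H.p0 y))
        (div_le_one_of_le₀ (R.dn0 y t h.1 h.2.1 h.2.2 ht') (H.p0 y))
    · simp
  have e1 : Φ t = ∑ y ∈ Ico j₁ j, p y * (dm L 0 y * θ y * ip (δ j) (π y (min t j))) := by
    refine sum_congr rfl fun y hy => ?_
    have hy' := mem_Ico.1 hy
    rcases le_or_gt y t with h | h
    · have hl := R.dn0 y t hy'.1 hy'.2 h ht'
      have e2 : p y * (c.lo L.length y j t / p y) = c.lo L.length y j t := by
        rcases eq_or_ne (p y) 0 with h0 | h0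
        · rw [h0] at hl ⊢
          rw [zero_mul, abs_nonpos_iff.1 hl]
        · exact mul_div_cancel₀ _ h0
      simp only [θ, mul_ite, mul_zero]
      rw [if_pos ⟨hy'.1, hy'.2, h⟩, ← sum_filter, ← sum_mul, ← map_sum,
        show filter (· < t) (Ico y j) = Ico y (min t j) by
          ext u; simp only [mem_filter, mem_Ico]; omega,
        sum_Ico_sub (π y) (le_min h hy'.2.le), H.bs.pi0, sub_zero]
      linear_combination (-(dm L 0 y * ψ y * ip (δ j) (π y (min t j)))) * e2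
    · rw [sum_eq_zero fun u hu => by
        rw [if_neg (by have := mem_Ico.1 hu; omega), mul_zero]]
      simp only [θ]
      rw [if_neg (by omega)]
      ring
  have e3 : ∀ m, j₁ ≤ m → |∑ y ∈ Ico m j, dm L 0 y * θ y * ip (δ j) (π y (min t j))| ≤
      g * (2 * f m) := fun m hm => by
    have := H.bs.cs hg (mul_nonneg zero_le_two (W.nn m)) hv
      (hπ m (min t j) θ hm ((min_le_right _ _).trans hj.le) θ1 (if_neg (by omega)))
    simp only [map_sum, map_smul, smul_eq_mul] at this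
    rwa [sum_subset (s₂ := Icc m j) Ico_subset_Icc_self fun x hx hx' => by
        simp only [mem_Icc, mem_Ico] at hx hx'
        simp only [θ]
        rw [if_neg (by omega), mul_zero, zero_mul],
      ← sum_subset (s₁ := Icc m (min t j)) (Icc_subset_Icc_right (min_le_right _ _))
        fun x hx hx' => by
          simp only [mem_Icc] at hx hx'
          simp only [θ]
          rw [if_neg (by omega), mul_zero, zero_mul]]
  rw [e1, abel_id']
  have k1 := S97.abs_mul_le' (abs_of_nonneg (H.p0 j₁)).le (e3 j₁ le_rfl)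
  have k2 : |∑ i ∈ Ico j₁ (j - 1), (p (i + 1) - p i) *
      ∑ y ∈ Ico (i + 1) j, dm L 0 y * θ y * ip (δ j) (π y (min t j))| ≤
      2 * g * ∑ i ∈ Ico j₁ L.length, s i * f (i + 1) := by
    rw [mul_sum]
    refine (abs_sum_le_sum_abs _ _).trans ((sum_le_sum fun i hi => ?_).trans
      (sum_le_sum_of_subset_of_nonneg (Ico_subset_Ico_right (by omega)) fun i _ _ =>
        mul_nonneg (by positivity) (mul_nonneg (s0 H i) (W.nn _))))
    have hi' := mem_Ico.1 hi
    have := hp i hi'.1 (by omega)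
    exact (S97.abs_mul_le' ((abs_of_nonneg (sub_nonneg.2 this.1)).trans_le this.2)
      (e3 (i + 1) (by omega))).trans_eq (by ring)
  exact (abs_add_le _ _).trans (by linarith)

variable (L c B ψ j₁ j) in
/-- the row -/
def Row : ℝ := ∑ y ∈ Ico j₁ j, dm L 0 y * ψ y * LO L (c.mul B) y j +
  ∑ x ∈ Ico (j + 1) (L.length + 1), dm L 0 x * ψ x * LO L (c.mul B) j x +
  ∑ z ∈ range j, dm L 0 z * ∑ k ∈ Ico (z + 1) (L.length + 1),
    dm L 0 k * ψ k * (c.off L.length z j k * B.off L.length z j k)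

theorem sum_ind (A : Finset ℕ) (G : ℕ → ℝ) :
    ∑ x ∈ A, ind j x * G x = if j ∈ A then G j else 0 := by
  simp only [ind, ite_mul, one_mul, zero_mul, sum_ite_eq']

theorem sum_if_lt {K : ℕ} (hj : j ≤ K) (G : ℕ → ℝ) :
    ∑ z ∈ range K, (if j ∈ Ico (z + 1) (K + 1) then G z else 0) = ∑ z ∈ range j, G z := by
  rw [← sum_filter]
  refine sum_congr (ext fun z => ?_) fun _ _ => rfl
  simp only [mem_filter, mem_range, mem_Ico]
  omega

theorem sum_if_gt {K m : ℕ} (hm : m ≤ 1) (h1 : j₁ ≤ j) (G : ℕ → ℝ) (h0 : G j = 0) :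
    ∑ y ∈ Ico j₁ (K + 1), (if j ∈ Ico j₁ (y + m) then G y else 0) =
      ∑ y ∈ Ico (j + 1) (K + 1), G y := by
  rw [← sum_filter]
  refine (sum_subset (fun z hz => ?_) fun z hz hz' => ?_).symm
  · simp only [mem_filter, mem_Ico] at hz ⊢
    omega
  · simp only [mem_filter, mem_Ico] at hz hz'
    rwa [show z = j by omega]

theorem nl1 (hc : c.tr.Eqv c L.length) (hB : B.tr.Eqv B L.length) (h1 : j₁ ≤ j)
    (hj : j ≤ L.length) (hψ : ∀ x < j₁, ψ x = 0) (h0 : ψ j = 0) :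
    NL L (((wt (ind j) ψ).mul c).mul B) = dm L 0 j * Row L c B j₁ j ψ := by
  have hm : j ∈ Ico j₁ (L.length + 1) := mem_Ico.2 ⟨h1, by omega⟩
  rw [NL_eq (j₁ := j₁) (φ := ind j) hc hB (fun x hx => if_neg (by omega)) hψ, Row, mul_add, mul_add]
  simp only [mul_comm (dm L 0 _) (ind j _), mul_assoc (ind j _)]
  congr 1
  · congr 1
    · simp only [← mul_sum, sum_ind, if_pos hm]
      rw [sum_Ico_succ_top h1, h0, mul_sum]
      simp only [mul_zero, zero_mul, add_zero, mul_assoc]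
    · simp only [sum_ind]
      rw [mul_sum]
      exact (sum_if_gt (m := 0) zero_le_one h1 _ (by simp [h0])).trans
        (sum_congr rfl fun _ _ => by ring)
  · have e : ∀ (x : ℕ) (A : Finset ℕ) (G : ℕ → ℝ), ∑ k ∈ A, ind j x * G k =
        ind j x * ∑ k ∈ A, G k := fun _ _ _ => (mul_sum _ _ _).symm
    simp only [e, sum_ind, mul_ite, mul_zero]
    rw [sum_if_lt hj, mul_sum]
    exact sum_congr rfl fun z _ => by
      simp only [mul_sum]
      exact sum_congr rfl fun _ _ => by ring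

theorem nl2 (hc : c.tr.Eqv c L.length) (hB : B.tr.Eqv B L.length) (h1 : j₁ ≤ j)
    (hj : j ≤ L.length) (hψ : ∀ x < j₁, ψ x = 0) (h0 : ψ j = 0) :
    NL L (((wt ψ (ind j)).mul c).mul B) = dm L 0 j * Row L c B j₁ j ψ := by
  have hm : j ∈ Ico j₁ (L.length + 1) := mem_Ico.2 ⟨h1, by omega⟩
  have e : ∀ (x y : ℕ) (u : ℝ), dm L 0 x * ψ x * (dm L 0 y * ind j y) * u =
      ind j y * (dm L 0 y * (dm L 0 x * ψ x * u)) := fun _ _ _ => by ring
  rw [NL_eq (j₁ := j₁) (ψ := ind j) hc hB hψ fun x hx => if_neg (by omega), Row, mul_add, mul_add,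
    add_comm (dm L 0 j * _)]
  simp only [e]
  congr 1
  · congr 1
    · simp only [sum_ind]
      rw [mul_sum]
      exact sum_if_gt (m := 1) le_rfl h1 _ (by simp [h0])
    · simp only [← mul_sum, sum_ind, if_pos hm]
  · simp only [sum_ind, sum_ite_irrel, sum_const_zero, mul_ite, mul_zero]
    rw [sum_if_lt hj, mul_sum]
    refine sum_congr rfl fun z hz => ?_
    have := mem_range.1 hz
    rw [← mul_sum, mul_left_comm]
    congr 2
    refine sum_congr rfl fun k hk => ?_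
    have := mem_Ico.1 hk
    rw [off_symm hc hj (by omega) (by omega) (by omega),
      off_symm hB hj (by omega) (by omega) (by omega)]

theorem off_row (H : BH L B j₁ c₀ p s a b ip δ π P) (R : RowR L c j₁ j c₀ p s)
    (hj : j < L.length) (W : Wf L j₁ ip δ ψ f) (hg : 0 ≤ g) (hv : ip (δ j) (δ j) ≤ g ^ 2) {z : ℕ}
    (hz : z < j) : |∑ k ∈ Ico (z + 1) (L.length + 1),
      dm L 0 k * ψ k * (c.off L.length z j k * B.off L.length z j k)| ≤
      g * (c₀ * f (max (z + 1) j₁) + (∑ i ∈ Ico j₁ L.length, s i * f (i + 1) + 2 * c₀ * f j +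
        2 * c₀ * f (j + 1))) := by
  have c0 : 0 ≤ c₀ := zero_le_one.trans H.c1
  have m1 := le_max_left (z + 1) j₁
  have m2 := le_max_right (z + 1) j₁
  rw [sum_cut (j := j₁) fun x hx => by simp [W.lw x hx]]
  generalize max (z + 1) j₁ = m at *
  have k2 := sum_step (j := j) H W.nn m2 (show 0 ≤ 2 * c₀ by positivity)
  rcases le_or_gt m L.length with hm | hm
  swap
  · rw [Ico_eq_empty (by omega), sum_empty, abs_zero]
    rw [Ico_eq_empty (by omega), sum_empty] at k2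
    exact mul_nonneg hg (add_nonneg (mul_nonneg c0 (W.nn _)) k2)
  have k1 := abel1 H W (P z) (H.bs.con z) hg ((H.bs.con z _).trans hv) m2
    (κ := c.off L.length z j) (R.of0 z m hz m1 hm)
    (d := fun i => s i + (if i + 1 = j then 2 * c₀ else 0) + if i = j then 2 * c₀ else 0)
    fun i h1 h2 => by
      have cr := (abs_sub _ _).trans (add_le_add (R.of0 z (i + 1) hz (by omega) h2)
        (R.of0 z i hz (by omega) h2.le))
      have := s0 H i
      by_cases e1 : i + 1 = j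
      · rw [if_pos e1, if_neg (by omega)]; linarith
      by_cases e2 : i = j
      · rw [if_neg e1, if_pos e2]; linarith
      · rw [if_neg e1, if_neg e2, add_zero, add_zero]
        exact R.of1 z i hz (by omega) (by omega) h2 e2 e1
  rw [sum_congr rfl fun k hk => by
    rw [H.bs.off z j k hz (by have := mem_Ico.1 hk; omega) hj.le (by have := mem_Ico.1 hk; omega),
      mul_left_comm]]
  exact k1.trans (mul_le_mul_of_nonneg_left (add_le_add le_rfl k2) hg)

theorem sum_max (H : BH L B j₁ c₀ p s a b ip δ π P) (hf : ∀ y, 0 ≤ f y) (hj : j ≤ L.length) :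
    ∑ z ∈ range j, dm L 0 z * f (max (z + 1) j₁) ≤
      p j₁ * f j₁ + ∑ i ∈ Ico j₁ L.length, s i * f (i + 1) := by
  have d0 := dm_nonneg H.mono
  have : range j ⊆ range j₁ ∪ Ico j₁ L.length := fun i hi => by
    simp only [mem_union, mem_range, mem_Ico] at hi ⊢; omega
  refine (sum_le_sum_of_subset_of_nonneg this fun i _ _ => mul_nonneg (d0 i) (hf _)).trans ?_
  rw [sum_union (disjoint_left.2 fun i h1 h2 => by
    rw [mem_range] at h1; rw [mem_Ico] at h2; omega)]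
  refine add_le_add ?_ (sum_le_sum fun i hi => ?_)
  · rw [sum_congr rfl fun z hz => by rw [max_eq_right (mem_range.1 hz)], ← sum_mul]
    exact mul_le_mul_of_nonneg_right H.low (hf _)
  · rw [max_eq_left ((mem_Ico.1 hi).1.trans (Nat.le_succ i))]
    exact mul_le_mul_of_nonneg_right (H.ds i) (hf _)

theorem main_row (H : BH L B j₁ c₀ p s a b ip δ π P) (R : RowR L c j₁ j c₀ p s) (h1 : j₁ ≤ j)
    (hj : j < L.length) (W : Wf L j₁ ip δ ψ f) (h0 : ψ j = 0) (hg : 0 ≤ g)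
    (hv : ip (δ j) (δ j) ≤ g ^ 2) :
    |∑ y ∈ Ico j₁ j, dm L 0 y * ψ y * (LO L c y j * ip (δ j) (δ y)) +
      ∑ x ∈ Ico (j + 1) (L.length + 1), dm L 0 x * ψ x * (LO L c j x * ip (δ x) (δ j))| ≤
      g * (10 * p j₁ * f j₁ + (∑ i ∈ Ico j₁ L.length, s i * f (i + 1) + 10 * c₀ * f j +
        10 * c₀ * f (j + 1))) := by
  have c0 : 0 ≤ c₀ := zero_le_one.trans H.c1
  have dn : ∀ y, j₁ ≤ y → y < j → |LO L c y j| ≤ 10 * p y := fun y h2 h3 =>
    abs_LO H.mono h3.le hj.le fun t => R.dn0 y t h2 h3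
  have k1 := abel1 H W LinearMap.id (fun _ => le_rfl) hg hv le_rfl (k0 := 10 * p j₁)
    (κ := fun x => if x < j then LO L c x j else if j < x then LO L c j x else 0)
    (by
      split_ifs with e1 e2
      · exact dn _ le_rfl e1
      · omega
      · simpa using H.p0 j₁)
    (d := fun i => s i + (if i + 1 = j then 10 * c₀ else 0) + if i = j then 10 * c₀ else 0)
    fun i h2 h3 => by
      have := s0 H i
      rcases lt_trichotomy (i + 1) j with e | e | e
      · rw [if_pos e, if_pos (by omega), if_neg e.ne, if_neg (by omega), add_zero, add_zero]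
        exact R.dn1 i h2 e
      · rw [if_neg (by omega), if_neg (by omega), if_pos (by omega), if_pos e, if_neg (by omega),
          zero_sub, abs_neg]
        linarith [dn i h2 (by omega), H.pc i]
      rcases (show i = j ∨ j < i by omega) with e' | e'
      · rw [if_neg (by omega), if_pos e, if_neg (by omega), if_neg (by omega), if_neg (by omega),
          if_pos e', sub_zero]
        linarith [abs_LO H.mono e.le h3 fun t => R.up0 (i + 1) t e h3]
      · rw [if_neg (by omega), if_pos e, if_neg (by omega), if_pos e', if_neg (by omega),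
          if_neg (by omega), add_zero, add_zero]
        exact R.up1 i e' h3
  rw [← sum_Ico_consecutive _ h1 (show j ≤ L.length + 1 by omega),
    sum_eq_sum_Ico_succ_bot (show j < L.length + 1 by omega), h0, mul_zero, zero_mul, mul_zero,
    zero_add] at k1
  refine (congrArg abs (congrArg₂ (· + ·) (sum_congr rfl fun y hy => ?_)
    (sum_congr rfl fun x hx => ?_))).trans_le (k1.trans (mul_le_mul_of_nonneg_left
      (add_le_add le_rfl (sum_step H W.nn le_rfl (by positivity))) hg))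
  · rw [if_pos (mem_Ico.1 hy).2, LinearMap.id_apply]; ring
  · have := mem_Ico.1 hx
    rw [if_neg (by omega), if_pos (by omega), LinearMap.id_apply, H.bs.sym (δ x)]; ring

theorem abs_wsum (hL : Mono 0 L) (W : Wf L j₁ ip δ ψ f) {A : Finset ℕ} {G G' : ℕ → ℝ}
    (h : ∀ x ∈ A, |G x| ≤ G' x) : |∑ x ∈ A, dm L 0 x * ψ x * G x| ≤ ∑ x ∈ A, dm L 0 x * G' x :=
  (abs_sum_le_sum_abs _ _).trans (sum_le_sum fun x hx => S97.abs_mul_le' (W.abs_le hL x) (h x hx))

theorem row_bd (H : BH L B j₁ c₀ p s a b ip δ π P) (R : RowR L c j₁ j c₀ p s) (h1 : j₁ ≤ j)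
    (hj : j < L.length) (W : Wf L j₁ ip δ ψ f) (h0 : ψ j = 0) (hg : 0 ≤ g)
    (hv : ip (δ j) (δ j) ≤ g ^ 2) {u2 : ℝ} (n2 : 0 ≤ u2)
    (k2 : |∑ y ∈ Ico j₁ j, dm L 0 y * ψ y * Pt L c ip δ π y j| ≤
      8 * (g * (p j₁ * f j₁ + ∑ i ∈ Ico j₁ L.length, s i * f (i + 1))) + 4 * g * u2) :
    |Row L c B j₁ j ψ| ≤ 100 * c₀ *
      (g * (p j₁ * f j₁ + ∑ i ∈ Ico j₁ L.length, s i * f (i + 1) + f j + f (j + 1) + u2) +
        RwE L j₁ j p s a b f) := by
  have c1 := H.c1
  have c0 : 0 ≤ c₀ := zero_le_one.trans c1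
  have d0 := dm_nonneg H.mono
  set ρ : ℕ → ℕ → ℝ := fun y x => LO L (c.mul B) y x - (LO L c y x * ip (δ x) (δ y) -
    2 * Pt L c ip δ π y x) with hρ
  have e4 : ∀ y x, LO L (c.mul B) y x = LO L c y x * ip (δ x) (δ y) - 2 * Pt L c ip δ π y x +
    ρ y x := fun y x => by simp only [hρ]; ring
  have k1 := main_row H R h1 hj W h0 hg hv
  have k3 := pi_up H W h1 hj.le c0 R.up0 R.upp
  rw [sum_eq_sum_Ico_succ_bot (show j < L.length + 1 by omega), h0, mul_zero, zero_mul,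
    zero_add] at k3
  have k4 := abs_wsum H.mono W (A := Ico j₁ j) (G := fun y => ρ y j)
    (G' := fun y => 8 * (p y * (b y j * a j))) fun y hy => lo_dec' H (mem_Ico.1 hy).2.le hj.le
      fun t => R.dn0 y t (mem_Ico.1 hy).1 (mem_Ico.1 hy).2
  have k5 := abs_wsum H.mono W (A := Ico (j + 1) (L.length + 1)) (G := fun x => ρ j x)
    (G' := fun x => 8 * c₀ * (b j x * a x)) fun x hx => by
      have := mem_Ico.1 hx
      exact (lo_dec' H (by omega) (by omega) fun t => R.up0 x t this.1 (by omega)).trans_eq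
        (by ring)
  rw [Finset.Ico_add_one_add_one_eq_Ioc] at k5
  set S := ∑ i ∈ Ico j₁ L.length, s i * f (i + 1) with hS
  have S0 : 0 ≤ S := sum_nonneg fun i _ => mul_nonneg (s0 H i) (W.nn _)
  have f1 := W.nn j
  have f2 := W.nn (j + 1)
  have k6 : |∑ z ∈ range j, dm L 0 z * ∑ k ∈ Ico (z + 1) (L.length + 1),
      dm L 0 k * ψ k * (c.off L.length z j k * B.off L.length z j k)| ≤
      g * (c₀ * (p j₁ * f j₁ + S) + (S + 2 * c₀ * f j + 2 * c₀ * f (j + 1))) := by
    refine (abs_sum_le_sum_abs _ _).trans ((sum_le_sum fun z hz => S97.abs_mul_le'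
      (abs_of_nonneg (d0 z)).le (off_row H R hj W hg hv (mem_range.1 hz))).trans ?_)
    simp only [mul_left_comm (dm L 0 _) g, ← mul_sum, mul_add (dm L 0 _) (c₀ * _), sum_add_distrib,
      mul_left_comm (dm L 0 _) c₀, ← sum_mul]
    refine mul_le_mul_of_nonneg_left (add_le_add (mul_le_mul_of_nonneg_left
      (sum_max H W.nn hj.le) c0) (mul_le_of_le_one_left (by positivity) ?_)) hg
    exact sum_dm_le_one H.mono (range_subset_range.2 (by omega))
  simp only [mul_left_comm (dm L 0 _) (8 : ℝ),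
    mul_left_comm (dm L 0 _) (8 * c₀), ← mul_sum] at k4 k5
  have n1 : 0 ≤ p j₁ * f j₁ := mul_nonneg (H.p0 _) (W.nn _)
  have n3 : 0 ≤ ∑ y ∈ Ico j₁ j, dm L 0 y * (p y * (b y j * a j)) := sum_nonneg fun y _ =>
    mul_nonneg (d0 y) (mul_nonneg (H.p0 y) (mul_nonneg (H.b0 _ _) (H.bs.a0 _)))
  have n4 : 0 ≤ ∑ x ∈ Ioc j L.length, dm L 0 x * (b j x * a x) := sum_nonneg fun y _ =>
    mul_nonneg (d0 y) (mul_nonneg (H.b0 _ _) (H.bs.a0 _))
  have n5 := H.bs.a0 j
  rw [Row, RwE, ← hS]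
  simp only [e4, mul_add (dm L 0 _ * ψ _), mul_sub (dm L 0 _ * ψ _), sum_add_distrib,
    sum_sub_distrib, mul_left_comm _ (2 : ℝ), ← mul_sum _ _ (2 : ℝ)]
  rw [← Finset.Ico_add_one_add_one_eq_Ioc] at k5 n4 ⊢
  rw [mul_assoc 10 (p j₁)] at k1
  generalize p j₁ * f j₁ = u1 at *
  generalize ∑ y ∈ Ico j₁ j, dm L 0 y * (p y * (b y j * a j)) = u3 at *
  generalize ∑ x ∈ Ico (j + 1) (L.length + 1), dm L 0 x * (b j x * a x) = u4 at *
  have m1 := mul_le_mul_of_nonneg_right c1 (mul_nonneg hg n1)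
  have m2 := mul_le_mul_of_nonneg_right c1 (mul_nonneg hg n2)
  have m3 := mul_le_mul_of_nonneg_right c1 (mul_nonneg hg S0)
  have m4 := mul_le_mul_of_nonneg_right c1 n3
  have m5 := mul_le_mul_of_nonneg_right c1 (mul_nonneg n5 S0)
  have m6 := mul_nonneg c0 (mul_nonneg hg f1)
  have m7 := mul_nonneg c0 (mul_nonneg hg f2)
  have m8 := mul_nonneg c0 (mul_nonneg n5 f2)
  have m9 := mul_nonneg c0 n4
  rw [abs_le] at k1 k2 k3 k4 k5 k6 ⊢
  constructor <;> nlinarith [k1.1, k1.2, k2.1, k2.2, k3.1, k3.2, k4.1, k4.2, k5.1, k5.2, k6.1, k6.2]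

end R38

open R38

/-- **one edge at `j`, crude in `δ_j`** -/
theorem rowBS : RowBS := fun _ L c B j₁ j c₀ g p s a ψ f b _ _ _ ip δ π P H hc R h1 hj W h0 hg hv
    hp hπ => by
  rw [nl1 hc H.btr h1 hj.le W.lw h0, nl2 hc H.btr h1 hj.le W.lw h0, abs_mul,
    abs_of_nonneg (dm_nonneg H.mono j)]
  exact ⟨rfl, (mul_le_mul_of_nonneg_left (row_bd H R h1 hj W h0 hg hv le_rfl
    ((pi_dn H R h1 hj W hg hv hp hπ).trans_eq (by ring))) (dm_nonneg H.mono j)).trans_eq (by ring)⟩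

end Crest.Agent.T156.Cas.Q21

end
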