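import Crest.Agent.T156.CQ21I_23
import Crest.Agent.T156.CQ21R_38

/-!
# Row 156 (helper23): one edge at the marked level, summed with a density (`OAS`)
-/

set_option autoImplicit false
set_option linter.all false

noncomputable section

namespace Crest.Agent.T156.Cas.Q21

open Finset
open Crest.Agent.T157.E Crest.Agent.T157.Casc Crest.Agent.T157.SL
open Crest.Agent.T156.Cas.Q75
open Crest.Agent.T156.Cas.Q75.A10 (ind)
open Nu87 C40 C40.Q10 C40.N75 C40.CD I23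

namespace A23

section gen
variable {Θ : Type} {L : List (Lv Θ)} {T : List (Lv Bool)} {q : Rf} {j j₁ : ℕ} {C C' : ℝ}
  {P a a' p s : ℕ → ℝ} {c : Tw}

theorem wg0 (hL : Mono 0 L) {r : ℕ} (ρ : SM r) : 0 ≤ wg L j ρ := by
  unfold wg
  split_ifs <;> linarith [dm_nonneg hL j]

/-- larger constant, larger steps off the bad ones -/
theorem mk_mono (H : MkH L T q j C P a) (hL : Mono 0 L) (h0 : 0 ≤ C) (hC : C ≤ C')
    (hP : ∀ i, 0 ≤ P i) (a0 : ∀ i, 0 ≤ a i) (ha : ∀ i, ¬ Bad j L.length i → a i ≤ a' i) :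
    MkH L T q j C' P a' := by
  have k : ∀ {r : ℕ} (ρ : SM r), C * wg L j ρ ≤ C' * wg L j ρ := fun ρ =>
    mul_le_mul_of_nonneg_right hC (wg0 hL ρ)
  have k0 : ∀ {r : ℕ} (ρ : SM r), 0 ≤ C' * wg L j ρ := fun ρ =>
    mul_nonneg (h0.trans hC) (wg0 hL ρ)
  refine ⟨fun r hr ρ a1 c d e f => (H.m0 r hr ρ a1 c d e f).trans (k ρ),
    fun r hr ρ a1 c d e f i a2 => (H.mp r hr ρ a1 c d e f i a2).trans
      (mul_le_mul_of_nonneg_right (k ρ) (hP i)),
    fun r hr ρ ρ' a1 a2 c d e f i a3 a4 a5 => (H.m1 r hr ρ ρ' a1 a2 c d e f i a3 a4 a5).trans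
      (mul_le_mul (k ρ) (ha i a4) (a0 i) (k0 ρ)),
    fun r hr ρ ρ' a1 a2 c d e f i a3 a4 a5 i' a6 a7 a8 =>
      (H.m1p r hr ρ ρ' a1 a2 c d e f i a3 a4 a5 i' a6 a7 a8).trans (mul_le_mul (k ρ)
        (mul_le_mul_of_nonneg_left (ha i a4) (hP i')) (mul_nonneg (hP _) (a0 i)) (k0 ρ)),
    fun r hr ρ₀ ρ₁ ρ₂ ρ₃ a1 a2 a3 a4 c d e f i i' a5 a6 a7 a8 a9 b1 b2 =>
      (H.m2 r hr ρ₀ ρ₁ ρ₂ ρ₃ a1 a2 a3 a4 c d e f i i' a5 a6 a7 a8 a9 b1 b2).trans (mul_le_mul (k ρ₀)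
        (mul_le_mul (ha i a7) (ha i' a8) (a0 i') ((a0 i).trans (ha i a7)))
        (mul_nonneg (a0 _) (a0 _)) (k0 ρ₀))⟩

theorem row_mono (R : RowR L c j₁ j C p s) (hC : C ≤ C') : RowR L c j₁ j C' p s :=
  ⟨R.dn0, R.dn1, fun x t a1 a2 a3 a4 => (R.up0 x t a1 a2 a3 a4).trans hC, R.up1, R.upp,
    fun z k a1 a2 a3 => (R.of0 z k a1 a2 a3).trans hC, R.of1⟩

end gen

variable {D : CD} {τ0 : ℝ}

/-- the steps, without the top one -/
def a' (D : CD) (i : ℕ) : ℝ := if i + 1 = D.K then 0 else aa D i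

/-- the levels above the cut -/
def ph1 (D : CD) (x : ℕ) : ℝ := if D.J < x then 1 else 0

section ok
variable (h : D.Ok τ0)
include h

theorem a'0 (i : ℕ) : 0 ≤ a' D i := by
  unfold a'; split_ifs; exacts [le_rfl, aa0 h i]

theorem ip_del (j : ℕ) : Base53.ipE wt_one90 D.B 0 (Base53.dV D.B (Q33.sl D.n) wt_one90 D.rb j)
    (Base53.dV D.B (Q33.sl D.n) wt_one90 D.rb j) ≤ 2 ^ 2 := by
  have e := Base53.ip_sum D.B (Q33.sl D.n) wt_one90 0 D.rb (fun _ => 1) {j}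
  simp only [sum_singleton, one_smul, one_mul] at e
  rw [e]
  refine Lp12.EE_le wt_one90 _ _ (((Lp12.EP.state (Sy41.eg_rr wt_one90 _ _) j).sub
    (Lp12.EP.const _)).pow 2) fun p => ?_
  rw [← Base53.qf_uK D.B (Q33.sl D.n) wt_one90, uK_eq h]
  have h1 := qf_mono (P_nonneg wt_one90 (D.B.drop j) (p j)) (K := oU D.rb j) (K' := fun _ _ => 2)
    fun x y => (abs_le.1 (abs_oU_rb D j x y)).2
  have h2 := qf_mono (P_nonneg wt_one90 (D.B.drop j) (p j)) (K' := oU D.rb j) (K := fun _ _ => -2)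
    fun x y => (abs_le.1 (abs_oU_rb D j x y)).1
  rw [qf_const (sum_P wt_one90 _ _)] at h1 h2
  exact sq_le_sq' h2 h1

theorem ip_add {A : ℕ → ℝ} (hA : D.Add A) (θ : ℕ → ℝ) : Base53.ipE wt_one90 D.B 0
    (∑ x ∈ Ico (D.J + 1) D.K, (D.dx x * θ x) • Base53.dV D.B (Q33.sl D.n) wt_one90 D.rb x)
    (∑ x ∈ Ico (D.J + 1) D.K, (D.dx x * θ x) • Base53.dV D.B (Q33.sl D.n) wt_one90 D.rb x) ≤
    ∑ x ∈ Ico (D.J + 1) D.K, D.dx x * (θ x ^ 2 * A x) := by
  have := (hA.2 θ).1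
  rw [Finset.Ico_add_one_left_eq_Ioo, Base53.ip_sum_pE]
  refine le_of_eq_of_le ?_ this
  simp only [CD.nd, CD.del, ← uK_eq h, Base53.qf_uK D.B (Q33.sl D.n) wt_one90,
    sub_sub_sub_cancel_right]

theorem sum_s {C : ℝ} (hC : 0 ≤ C) {g : ℕ → ℝ} (hg : ∀ y, 0 ≤ g y) :
    ∑ i ∈ Ico (D.J + 1) D.K, C * (a' D i + if i + 1 = D.K then 1 else 0) * fz D g (i + 1) ≤
      C * D.sv g D.J := by
  refine le_trans (le_of_eq ?_) (mul_le_mul_of_nonneg_left (sum_aa h hg) hC)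
  rw [mul_sum]
  refine sum_congr rfl fun i _ => ?_
  unfold a'
  split_ifs with e
  · rw [fz, if_neg (by omega)]; ring
  · ring

theorem sum_s1 {C : ℝ} (hC : 0 ≤ C) :
    ∑ i ∈ Ico (D.J + 1) D.K, C * (a' D i + if i + 1 = D.K then 1 else 0) ≤
      C * (D.sv (fun _ => 1) D.J + 1) := by
  have k := sum_aa h (g := fun _ => 1) fun _ => zero_le_one
  have k1 : ∑ i ∈ Ico (D.J + 1) D.K, (if i + 1 = D.K then (1 : ℝ) else 0) ≤ 1 := by
    rw [← sum_filter, sum_const, nsmul_eq_mul, mul_one]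
    exact_mod_cast card_le_one.2 fun x hx y hy => by
      have := (mem_filter.1 hx).2; have := (mem_filter.1 hy).2; omega
  rw [← mul_sum, sum_add_distrib]
  refine mul_le_mul_of_nonneg_left (add_le_add (le_trans (le_of_eq ?_) k) k1) hC
  refine sum_congr rfl fun i hi => ?_
  have := mem_Ico.1 hi
  unfold a' fz
  split_ifs <;> first | ring1 | omega

theorem mm_f : mm D (D.J + 1) * fz D D.f0 (D.J + 1) ≤ D.sv D.f0 D.J := by
  rw [fz]
  split_ifs with e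
  · have hm : D.J + 1 ∈ D.up := mem_up.2 ⟨Nat.lt_succ_self _, e⟩
    refine le_trans ?_ (single_le_sum (f := fun t => D.dv t * D.f0 t)
      (fun t ht => mul_nonneg (h.dv0 (mem_up.1 ht).2.le) (h.f00 _)) hm)
    rw [CD.dv, if_pos le_rfl]
    exact mul_le_mul_of_nonneg_right (mm_le h hm) (h.f00 _)
  · rw [mul_zero]; exact h.sv0 h.f00 _

/-- the row error on `CD` -/
theorem RwE_le {M : ℝ} (hM : 1 ≤ M) {p s : ℕ → ℝ} (p0 : ∀ y, 0 ≤ p y) (pc : ∀ y, p y ≤ M)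
    (hs : ∑ i ∈ Ico (D.J + 1) D.K, s i * fz D D.f0 (i + 1) ≤ M * D.sv D.f0 D.J) {j : ℕ}
    (hj : j ∈ D.up) : RwE D.B (D.J + 1) j p s (av D) (fun y x => √(D.v y x)) (fz D D.f0) ≤
      M * Rw D j := by
  have m := mem_up.1 hj
  have a0 : ∀ t, 0 ≤ av D t := fun t => Real.sqrt_nonneg _
  have v0 := D.v0 j j
  have k1 := (fz_le h (j + 1)).trans (h.wk0.anti j).2
  have k2 : ∑ y ∈ Ico (D.J + 1) j, D.dx y * (p y * (√(D.v y j) * av D j)) ≤
      M * (D.e j * D.v j j + ∑ y ∈ Ico 1 j, D.dx y * D.v y j) := by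
    have k3 : ∑ y ∈ Ico (D.J + 1) j, D.dx y ≤ D.e j :=
      (h.sum_dx_le fun i hi => (mem_Ico.1 hi).2.le).trans (N75.ex_le h hj)
    have k4 : ∑ y ∈ Ico (D.J + 1) j, D.dx y * D.v y j ≤ ∑ y ∈ Ico 1 j, D.dx y * D.v y j :=
      sum_le_sum_of_subset_of_nonneg (Ico_subset_Ico_left (by omega))
        fun y _ _ => mul_nonneg (h.dx0 y) (D.v0 y j)
    refine (sum_le_sum (g := fun y => M * (D.dx y * D.v j j + D.dx y * D.v y j))
      fun y _ => ?_).trans ?_
    · have k6 : √(D.v y j) * av D j ≤ D.v j j + D.v y j := by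
        rw [av]
        nlinarith [sq_nonneg (√(D.v y j) - √(D.v j j)), Real.sq_sqrt (D.v0 y j), Real.sq_sqrt v0,
          D.v0 y j]
      exact (mul_le_mul_of_nonneg_left (mul_le_mul (pc y) k6 (mul_nonneg (Real.sqrt_nonneg _)
        (a0 j)) (by linarith)) (h.dx0 y)).trans_eq (by ring)
    · rw [← mul_sum, sum_add_distrib, ← sum_mul]
      exact mul_le_mul_of_nonneg_left (add_le_add (mul_le_mul_of_nonneg_right k3 v0) k4)
        (by linarith)
  have k5 : ∑ x ∈ Ioc j D.K, D.dx x * (√(D.v j x) * av D x) ≤ av D j * D.hi (av D) j := by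
    rw [← Finset.Ioo_insert_right m.2, sum_insert (by simp), h.top, zero_mul, zero_add, CD.hi,
      mul_sum]
    refine sum_le_sum fun x hx => ?_
    have := Base53.vt_anti D.B (Q33.sl D.n) wt_one90 0 (le_refl j) (mem_Ioo.1 hx).1.le
    rw [vt_eq h, vt_eq h] at this
    exact (mul_le_mul_of_nonneg_left (mul_le_mul_of_nonneg_right (Real.sqrt_le_sqrt this) (a0 x))
      (h.dx0 x)).trans_eq (by rw [av, av]; ring)
  have k7 := mul_nonneg (a0 j) (h.hi0 a0 j)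
  have k8 := mul_nonneg (a0 j) (h.f00 j)
  have k9 := mul_le_mul_of_nonneg_left (add_le_add k1 hs) (a0 j)
  rw [RwE, D.B_len, Rw]
  nlinarith [mul_le_mul_of_nonneg_right hM k7, mul_le_mul_of_nonneg_right hM k8]

theorem Rw0 (j : ℕ) : 0 ≤ Rw D j :=
  add_nonneg (mul_nonneg (Real.sqrt_nonneg _) (add_nonneg (add_nonneg (h.f00 j) (h.sv0 h.f00 _))
    (h.hi0 (fun _ => Real.sqrt_nonneg _) j))) (add_nonneg (mul_nonneg (h.e0 j) (D.v0 j j))
      (h.sv_low0 _ _))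

end ok

theorem ind_nu (D : CD) (j x : ℕ) : ind j x * nu D j x = 0 := by
  unfold ind nu nj; split_ifs <;> simp

end A23

open A23

/-- **one edge at `j`, density** -/
theorem oaS_of_23 (HS : SwapS) (HM : MkS) (HR : RowRS) (HA : RowAS) : OAS := by
  obtain ⟨C1, c1, HM⟩ := HM
  have e1 := cP0_one
  obtain ⟨C2, c2, HR⟩ := HR (max C1 (2 * cP0)) (le_max_of_le_left c1)
  obtain ⟨C3, c3, HA⟩ := HA
  set M := C2 * (2 * cP0) with hM
  have M1 : C2 ≤ M := le_mul_of_one_le_right (by linarith) (by linarith)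
  refine fun τ0 => ⟨2 * (C3 * M * (4 * M)), by positivity, fun D h a l A ha hl hl' hA => ?_⟩
  have m := mm_mem h
  have m0 := fun y => h.X0.trans (m y).1
  have P0 : ∀ i, 0 ≤ 2 * cP0 * mm D i := fun i => mul_nonneg (by linarith) (m0 i)
  have P1 : ∀ i, 2 * cP0 * mm D i ≤ 2 * cP0 := fun i =>
    mul_le_of_le_one_right (by linarith) (m i).2
  have p0 : ∀ i, 0 ≤ C2 * (2 * cP0 * mm D i) := fun i => mul_nonneg (by linarith) (P0 i)
  have p1 : ∀ i, C2 * (2 * cP0 * mm D i) ≤ M := fun i =>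
    mul_le_mul_of_nonneg_left (P1 i) (by linarith)
  have eK := D.B_len
  have key : ∀ j, D.J + 1 ≤ j → j < D.B.length →
      (cM D.B D.S (Rq D) j).tr.Eqv (cM D.B D.S (Rq D) j) D.B.length ∧
      RowR D.B (cM D.B D.S (Rq D) j) (D.J + 1) j M (fun y => C2 * (2 * cP0 * mm D y))
        fun i => C2 * (a' D i + if i + 1 = D.B.length then 1 else 0) := fun j h1 h2 => by
    have hj : j < D.K := eK ▸ h2
    have nb : ∀ i, ¬ Bad j D.B.length i → a' D i = aa D i := fun i hi =>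
      if_neg fun e => hi (Or.inr (Or.inr (e.trans eK.symm)))
    have k := mk_cd h HM eK h.mono hj (P := fun i => 2 * cP0 * mm D i) (a := aa D)
      (fun i => ⟨by nlinarith [Pm_mm h i], fun e => (q_mm h (mem_up.2 ⟨h1, hj⟩) e).trans
        (le_mul_of_one_le_left (m0 i) (by linarith))⟩) fun _ _ => le_rfl
    refine ⟨(cM_sy HS eK _ hj.le).2, row_mono (HR _ D.B D.S (Rq D) _ (a' D) j (D.J + 1) h.mono h2
      (mk_mono k h.mono (by linarith) (le_max_left _ _) P0 (aa0 h) fun i hi => (nb i hi).ge)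
      (fun i => ⟨P0 i, (P1 i).trans (le_max_right _ _)⟩) ?_ (a'0 h)
      fun i hi => (aa_dx h i).trans (nb i hi).ge).1 M1⟩
    rw [eK, mm, if_neg (by simp)]
    linarith
  have s0 : ∀ i, D.dx i ≤ C2 * (a' D i + if i + 1 = D.B.length then 1 else 0) := fun i => by
    rw [eK, a']
    split_ifs
    · linarith [dm_one h.mono i]
    · nlinarith [aa_dx h i, h.dx0 (i + 1), aa0 h i]
  have B := bh_cd h eK h.mono (c2.trans M1) p1 p0 s0 (((h.sum_dx D.J).trans_le h.x1).trans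
    ((m _).1.trans (by nlinarith [m0 (D.J + 1), mul_nonneg (sub_nonneg.2 (c2.trans M1)) (m0 (D.J + 1))])))
  have f1 : ∀ x, |ph1 D x| ≤ 1 := fun x => by unfold ph1; split_ifs <;> simp
  have W : Wf D.B (D.J + 1) (Base53.ipE wt_one90 D.B 0)
      (Base53.dV D.B (Q33.sl D.n) wt_one90 D.rb) (ph1 D) (fz D D.f0) :=
    ⟨f1, fun x hx => if_neg (by omega), fz0 h, fun y hy => by
      rw [eK]; exact ip_tail h f1 hy⟩
  have R := HA _ D.B (fun j => cM D.B D.S (Rq D) j) (Bt D) (D.J + 1) M 2 _ _ _ (ph1 D) _ a l A _ _ _ _ _ _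
    B (by rw [eK]; exact h.top) key W (fun y => by
      unfold fz
      split_ifs
      exacts [(h.wk0.anti y).2, by omega, h.f00 y, le_rfl])
    (fun y h1 _ => by
      rw [ph1, ph1, if_pos (by omega), if_pos (by omega), sub_self, abs_zero]
      exact (h.dx0 y).trans (s0 y))
    (ip_del h) hA.1 hl hl' fun θ => by rw [eK]; exact ip_add h hA θ
  have E : ∑ j ∈ D.up, D.om j *
      (Tj D D.B (Rq D) j (ind j) (nu D j) + Tj D D.B (Rq D) j (nu D j) (ind j)) =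
      2 * ∑ j ∈ Ico (D.J + 1) D.B.length, a j *
        NL D.B (((wt (ind j) fun x => nj j x * ph1 D x).mul (cM D.B D.S (Rq D) j)).mul (Bt D)) := by
    rw [eK, Finset.Ico_add_one_left_eq_Ioo, mul_sum]
    refine sum_congr rfl fun j hj => ?_
    have m := mem_up.1 hj
    have k1 := Tj_eq HS eK (Rq D) m.2.le (ind j) (nu D j)
    have k2 := Tj_eq HS eK (Rq D) m.2.le (nu D j) (ind j)
    have ct := (cM_sy HS eK (Rq D) m.2.le).2
    have lw : ∀ x < D.J + 1, nu D j x = 0 := fun x hx => nu_low D j x (by omega)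
    simp only [ind_nu, mul_comm (nu D j _) (ind j _), zero_mul, sum_const_zero, add_zero] at k1 k2
    rw [R38.nl2 ct (Bt_tr D) (j₁ := D.J + 1) m.1 (by omega) lw (nu_self D j),
      ← R38.nl1 ct (Bt_tr D) (j₁ := D.J + 1) m.1 (by omega) lw (nu_self D j)] at k2
    rw [ha j hj]
    have k3 : (fun x => nj j x * ph1 D x) = nu D j := rfl
    rw [k3]
    linear_combination a j * k1 + a j * k2
  rw [E, abs_mul, abs_two, mul_assoc 2, mul_assoc (C3 * M)]
  refine mul_le_mul_of_nonneg_left (R.trans (mul_le_mul_of_nonneg_left ?_ (by positivity))) zero_le_two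
  have hs := sum_s h (C := C2) (by linarith) h.f00
  have hs1 := sum_s1 h (C := C2) (by linarith)
  have sv0 := h.sv0 h.f00 D.J
  have sv1 := h.sv0 (F := fun _ => 1) (fun _ => zero_le_one) D.J
  have I1 : 0 ≤ D.I fun t => a t ^ 2 * A t / l t + l t * A t := h.I0 fun t _ =>
    add_nonneg (div_nonneg (mul_nonneg (sq_nonneg _) (hA.1 t)) (hl t).le)
      (mul_nonneg (hl t).le (hA.1 t))
  have I2 : 0 ≤ D.I fun t => D.e t * av D t := h.I0 fun t _ =>
    mul_nonneg (h.e0 t) (Real.sqrt_nonneg _)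
  have lg : 0 ≤ Real.log (D.K + 2) := Real.log_nonneg (by
    have : (0 : ℝ) ≤ D.K := Nat.cast_nonneg _
    linarith)
  have t2 : ∑ y ∈ Ico (D.J + 1) D.K, D.dx y * (C2 * (2 * cP0 * mm D y) * av D y) ≤
      M * D.I fun t => D.e t * av D t := by
    rw [← D.I_mul, Finset.Ico_add_one_left_eq_Ioo]
    refine h.I_mono (a := fun y => C2 * (2 * cP0 * mm D y) * av D y) fun t ht => ?_
    have := mul_le_mul_of_nonneg_left (mul_le_mul_of_nonneg_right (mm_le h ht)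
      (Real.sqrt_nonneg (D.v t t))) (show 0 ≤ M by linarith)
    rw [av]
    linarith
  have t3 : ∑ j ∈ Ico (D.J + 1) D.K, |a j| * D.dx j * (2 ^ 2 * D.dx j +
      RwE D.B (D.J + 1) j (fun y => C2 * (2 * cP0 * mm D y))
        (fun i => C2 * (a' D i + if i + 1 = D.K then 1 else 0)) (av D) (fun y x => √(D.v y x))
        (fz D D.f0)) ≤ 4 * M * D.Iw fun j => D.dx j + Rw D j := by
    rw [← D.Iw_mul, Finset.Ico_add_one_left_eq_Ioo]
    refine sum_le_sum fun j hj => ?_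
    rw [ha j hj, abs_mul, abs_of_nonneg (h.dx0 j), mul_comm (D.dx j)]
    refine mul_le_mul_of_nonneg_left ?_ (mul_nonneg (abs_nonneg _) (h.dx0 j))
    have := RwE_le h (c2.trans M1) p0 p1 (hs.trans (mul_le_mul_of_nonneg_right M1 sv0)) hj
    nlinarith [Rw0 h j, h.dx0 j]
  have t4 := mul_le_mul_of_nonneg_left (mm_f h) (show 0 ≤ M by linarith)
  have t5 : 1 + ∑ i ∈ Ico (D.J + 1) D.K, C2 * (a' D i + if i + 1 = D.K then 1 else 0) ≤
      4 * M * (1 + D.sv (fun _ => 1) D.J) := by nlinarith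
  have t6 : C2 * (2 * cP0 * mm D (D.J + 1)) * fz D D.f0 (D.J + 1) +
      ∑ i ∈ Ico (D.J + 1) D.K, C2 * (a' D i + if i + 1 = D.K then 1 else 0) * fz D D.f0 (i + 1) +
      ∑ y ∈ Ico (D.J + 1) D.K, D.dx y * (C2 * (2 * cP0 * mm D y) * av D y) ≤
      4 * M * (D.sv D.f0 D.J + D.I fun t => D.e t * av D t) := by nlinarith
  have t7 := mul_le_mul_of_nonneg_right (mul_le_mul_of_nonneg_left t5 lg) I1
  have t8 := mul_le_mul_of_nonneg_left t6 (Real.sqrt_nonneg (D.I fun t => a t ^ 2 * A t))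
  have eI : ∀ g : ℕ → ℝ, ∑ x ∈ Ico (D.J + 1) D.K, dm D.B 0 x * g x = D.I g := fun g => by
    rw [Finset.Ico_add_one_left_eq_Ioo]; rfl
  simp only [eK]
  rw [eI fun t => a t ^ 2 * A t / l t + l t * A t, eI fun t => a t ^ 2 * A t]
  exact (add_le_add (add_le_add t7 t8) t3).trans_eq (by ring)

end Crest.Agent.T156.Cas.Q21

end
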