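import Crest.Agent.T156.QOne_33
import Crest.Agent.T156.CaIso_87

/-!
# Row 156: the ladder of conditional second moments (helper79)

At the node `x`, `Nm x y = E_x [m_y m_yᵀ]` (`y ≤ K`), and the leaf second moment for `y = K + 1`.
The increments in `y` are positive semidefinite, the Riccati bound controls what is born above `y`,
and signed double sums over two branches are bounded by their tails (Abel summation).
-/

set_option autoImplicit false
set_option linter.unusedSectionVars false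

noncomputable section

namespace Crest.Agent.T156.Cas.Lad79

open MeasureTheory Real Set Filter Topology
open Crest.Agent.T157.E Crest.Agent.T157.Casc Crest.Agent.T157.SL
open Crest.Agent.T156.Cas.Sy41 Crest.Agent.T156.Cas.Q33

/-! ### positive semidefinite kernels -/

section psd
variable {ι : Type} [Fintype ι]

/-- symmetric kernel with nonnegative form -/
structure Psd (P : ι → ι → ℝ) : Prop where
  symm : ∀ i k, P i k = P k i
  nn : ∀ v : ι → ℝ, 0 ≤ ∑ i, ∑ k, v i * v k * P i k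

/-- `tr (P Q)` for symmetric kernels -/
def tr (P Q : ι → ι → ℝ) : ℝ := ∑ i, ∑ k, P i k * Q i k

theorem tr_comm (P Q : ι → ι → ℝ) : tr P Q = tr Q P := by simp only [tr, mul_comm]

theorem Psd.mat {P : ι → ι → ℝ} (h : Psd P) : (Matrix.of P).PosSemidef := by
  refine .of_dotProduct_mulVec_nonneg ?_ fun v => ?_
  · ext i k
    simp [h.symm k i]
  · refine (h.nn v).trans_eq ?_
    simp only [dotProduct, Matrix.mulVec, Matrix.of_apply, star_trivial, Finset.mul_sum]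
    exact Finset.sum_congr rfl fun _ _ => Finset.sum_congr rfl fun _ _ => by ring

theorem Psd.tr_nonneg {P Q : ι → ι → ℝ} (hP : Psd P) (hQ : Psd Q) : 0 ≤ tr P Q := by
  have := (hP.mat.hadamard hQ.mat).dotProduct_mulVec_nonneg fun _ => 1
  simpa [dotProduct, Matrix.mulVec, tr] using this

theorem Psd.diag_nonneg {P : ι → ι → ℝ} (h : Psd P) : 0 ≤ ∑ i, P i i := by
  classical
  refine Finset.sum_nonneg fun i _ => ?_
  simpa [Pi.single_apply] using h.nn (Pi.single i 1)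

/-- `P ≤ κ`, `Q ≥ 0` give `tr (P Q) ≤ κ tr Q` -/
theorem tr_le {P Q : ι → ι → ℝ} {κ : ℝ} (hs : ∀ i k, P i k = P k i)
    (hκ : ∀ v : ι → ℝ, ∑ i, ∑ k, v i * v k * P i k ≤ κ * ∑ i, v i ^ 2) (hQ : Psd Q) :
    tr P Q ≤ κ * ∑ i, Q i i := by
  classical
  have h1 : Psd fun i k => (if i = k then κ else 0) - P i k := by
    refine ⟨fun i k => by rw [hs i k]; simp only [eq_comm], fun v => ?_⟩
    have := hκ v
    simp only [mul_sub, Finset.sum_sub_distrib, mul_ite, mul_zero, Finset.sum_ite_eq,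
      Finset.mem_univ, if_true]
    rw [← Finset.sum_mul]
    simp only [sq] at this
    linarith
  have h2 := h1.tr_nonneg hQ
  simp only [tr, sub_mul, Finset.sum_sub_distrib, ite_mul, zero_mul, Finset.sum_ite_eq,
    Finset.mem_univ, if_true, ← Finset.mul_sum] at h2
  simp only [tr]
  linarith

end psd

/-! ### Abel summation, frame-free -/

theorem tele (F : ℕ → ℝ) {a b : ℕ} (h : a ≤ b) :
    ∑ i ∈ Finset.Ioc a b, (F i - F (i - 1)) = F b - F a := by
  induction b, h using Nat.le_induction with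
  | base => simp
  | succ b h ih => rw [Finset.sum_Ioc_succ_top h, ih, Nat.add_sub_cancel]; ring

theorem abel1 (c F : ℕ → ℝ) (x N : ℕ) :
    ∑ y ∈ Finset.Icc x N, c y * F y = (∑ y ∈ Finset.Icc x N, c y) * F x +
      ∑ i ∈ Finset.Ioc x N, (∑ y ∈ Finset.Icc i N, c y) * (F i - F (i - 1)) := by
  have e : ∀ y ∈ Finset.Icc x N, c y * F y =
      c y * F x + ∑ i ∈ Finset.Ioc x y, c y * (F i - F (i - 1)) := fun y hy => by
    rw [← Finset.mul_sum, tele F (Finset.mem_Icc.1 hy).1]; ring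
  rw [Finset.sum_congr rfl e, Finset.sum_add_distrib, Finset.sum_mul]
  simp only [Finset.sum_mul]
  congr 1
  exact Finset.sum_comm' fun y i => by simp only [Finset.mem_Icc, Finset.mem_Ioc]; omega

/-- the tail of a weight on pairs -/
def tail (c : ℕ → ℕ → ℝ) (N i i' : ℕ) : ℝ := ∑ y ∈ Finset.Icc i N, ∑ y' ∈ Finset.Icc i' N, c y y'

theorem abel2 (c F : ℕ → ℕ → ℝ) (x N : ℕ) :
    ∑ y ∈ Finset.Icc x N, ∑ y' ∈ Finset.Icc x N, c y y' * F y y' = tail c N x x * F x x +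
      ∑ i ∈ Finset.Ioc x N, tail c N i x * (F i x - F (i - 1) x) +
      ∑ i ∈ Finset.Ioc x N, tail c N x i * (F x i - F x (i - 1)) +
      ∑ i ∈ Finset.Ioc x N, ∑ i' ∈ Finset.Ioc x N,
        tail c N i i' * (F i i' - F (i - 1) i' - F i (i' - 1) + F (i - 1) (i' - 1)) := by
  have e1 : ∀ i, ∑ y ∈ Finset.Icc x N, (∑ y' ∈ Finset.Icc i N, c y y') * (F y i - F y (i - 1)) =
      tail c N x i * (F x i - F x (i - 1)) + ∑ i' ∈ Finset.Ioc x N,
        tail c N i' i * (F i' i - F (i' - 1) i - F i' (i - 1) + F (i' - 1) (i - 1)) := fun i => by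
    rw [abel1 (fun y => ∑ y' ∈ Finset.Icc i N, c y y') (fun y => F y i - F y (i - 1)) x N]
    congr 1
    exact Finset.sum_congr rfl fun _ _ => by rw [tail]; ring
  rw [Finset.sum_congr rfl fun y _ => abel1 (c y) (F y) x N, Finset.sum_add_distrib,
    abel1 (fun y => ∑ y' ∈ Finset.Icc x N, c y y') (fun y => F y x),
    Finset.sum_comm (s := Finset.Icc x N) (t := Finset.Ioc x N),
    Finset.sum_congr rfl fun i _ => e1 i, Finset.sum_add_distrib,
    Finset.sum_comm (s := Finset.Ioc x N) (t := Finset.Ioc x N), ← add_assoc]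
  rfl

theorem blk1 {T d a : ℕ → ℝ} {t : ℕ → ℕ} (ht : Monotone t) : ∀ B : ℕ,
    (∀ i, t 0 < i → i ≤ t B → 0 ≤ d i) →
    (∀ b < B, ∀ i, t b < i → i ≤ t (b + 1) → |T i| ≤ a b) →
    |∑ i ∈ Finset.Ioc (t 0) (t B), T i * d i| ≤
      ∑ b ∈ Finset.range B, a b * ∑ i ∈ Finset.Ioc (t b) (t (b + 1)), d i
  | 0, _, _ => by simp
  | B + 1, hd, hT => by
    have h0 := ht (Nat.zero_le B)
    have h1 := ht (Nat.le_succ B)
    rw [← Finset.sum_Ioc_consecutive _ h0 h1, Finset.sum_range_succ]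
    refine (abs_add_le _ _).trans (add_le_add (blk1 ht B (fun i h h' => hd i h (h'.trans h1))
      fun b hb => hT b (by omega)) ?_)
    rw [Finset.mul_sum]
    refine (Finset.abs_sum_le_sum_abs _ _).trans (Finset.sum_le_sum fun i hi => ?_)
    obtain ⟨h2, h3⟩ := Finset.mem_Ioc.1 hi
    have h4 := hd i (h0.trans_lt h2) h3
    rw [abs_mul, abs_of_nonneg h4]
    exact mul_le_mul_of_nonneg_right (hT B (by omega) i h2 h3) h4

theorem abs_sum2_le {T d : ℕ → ℕ → ℝ} {a : ℝ} {S S' : Finset ℕ}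
    (hd : ∀ i ∈ S, ∀ i' ∈ S', 0 ≤ d i i') (hT : ∀ i ∈ S, ∀ i' ∈ S', |T i i'| ≤ a) :
    |∑ i ∈ S, ∑ i' ∈ S', T i i' * d i i'| ≤ a * ∑ i ∈ S, ∑ i' ∈ S', d i i' := by
  simp only [Finset.mul_sum]
  refine (Finset.abs_sum_le_sum_abs _ _).trans (Finset.sum_le_sum fun i hi =>
    (Finset.abs_sum_le_sum_abs _ _).trans (Finset.sum_le_sum fun i' hi' => ?_))
  rw [abs_mul, abs_of_nonneg (hd i hi i' hi')]
  exact mul_le_mul_of_nonneg_right (hT i hi i' hi') (hd i hi i' hi')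

theorem blk2 {T d : ℕ → ℕ → ℝ} {a : ℕ → ℝ} {t : ℕ → ℕ} (ht : Monotone t) : ∀ B : ℕ,
    (∀ i i', t 0 < i → i ≤ t B → t 0 < i' → i' ≤ t B → 0 ≤ d i i') →
    (∀ b < B, ∀ i i', t 0 < i → t 0 < i' → t b < max i i' → max i i' ≤ t (b + 1) →
      |T i i'| ≤ a b) →
    |∑ i ∈ Finset.Ioc (t 0) (t B), ∑ i' ∈ Finset.Ioc (t 0) (t B), T i i' * d i i'| ≤
      ∑ b ∈ Finset.range B, a b *
        (∑ i ∈ Finset.Ioc (t b) (t (b + 1)), ∑ i' ∈ Finset.Ioc (t 0) (t (b + 1)), d i i' +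
          ∑ i ∈ Finset.Ioc (t 0) (t b), ∑ i' ∈ Finset.Ioc (t b) (t (b + 1)), d i i')
  | 0, _, _ => by simp
  | B + 1, hd, hT => by
    have h0 := ht (Nat.zero_le B)
    have h1 := ht (Nat.le_succ B)
    rw [← Finset.sum_Ioc_consecutive _ h0 h1, Finset.sum_range_succ]
    simp only [← fun i => Finset.sum_Ioc_consecutive (fun i' => T i i' * d i i') h0 h1,
      Finset.sum_add_distrib (s := Finset.Ioc (t 0) (t B))]
    simp only [fun i => Finset.sum_Ioc_consecutive (fun i' => T i i' * d i i') h0 h1]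
    have i1 := blk2 ht B (T := T) (d := d) (a := a)
      (fun i i' p q r s => hd i i' p (q.trans h1) r (s.trans h1)) fun b hb => hT b (by omega)
    have i2 := abs_sum2_le (T := T) (d := d) (a := a B) (S := Finset.Ioc (t 0) (t B))
      (S' := Finset.Ioc (t B) (t (B + 1))) (fun i hi i' hi' => by
        rw [Finset.mem_Ioc] at hi hi'; exact hd i i' hi.1 (by omega) (by omega) hi'.2)
      fun i hi i' hi' => by
        rw [Finset.mem_Ioc] at hi hi'
        exact hT B (by omega) i i' hi.1 (by omega) (by omega) (by omega)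
    have i3 := abs_sum2_le (T := T) (d := d) (a := a B) (S := Finset.Ioc (t B) (t (B + 1)))
      (S' := Finset.Ioc (t 0) (t (B + 1))) (fun i hi i' hi' => by
        rw [Finset.mem_Ioc] at hi hi'; exact hd i i' (by omega) hi.2 hi'.1 hi'.2)
      fun i hi i' hi' => by
        rw [Finset.mem_Ioc] at hi hi'
        exact hT B (by omega) i i' (by omega) hi'.1 (by omega) (by omega)
    rw [abs_le] at i1 i2 i3 ⊢
    constructor <;> linarith [i1.1, i1.2, i2.1, i2.2, i3.1, i3.2]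

/-! ### the ladder -/

variable {Ω : Type} [Fintype Ω] {w : Ω → ℝ}

/-- `E_x [f g]` for two leaves that meet at `y ≤ K`, one leaf for `y > K` -/
def Nf (w : Ω → ℝ) (L : List (Lv Ω)) (x y : ℕ) (z f g : Ω → ℝ) : ℝ :=
  if y ≤ L.length then
    node w (L.drop x) (y - x) (fun z' => Pf w (L.drop y) z' f * Pf w (L.drop y) z' g) z
  else Pf w (L.drop x) z fun u => f u * g u

/-- the matrix of `Nf` on the coordinates of `l₀` -/
def Nm (w : Ω → ℝ) (L : List (Lv Ω)) (l₀ : Lv Ω) (x y : ℕ) (z : Ω → ℝ) (i k : l₀.ι) : ℝ :=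
  Nf w L x y z (fun u => l₀.A u i) fun u => l₀.A u k

section nf
variable (hw : Wt w) (L : List (Lv Ω))

theorem Nf_le {x y : ℕ} (hy : y ≤ L.length) (z f g : Ω → ℝ) : Nf w L x y z f g =
    node w (L.drop x) (y - x) (fun z' => Pf w (L.drop y) z' f * Pf w (L.drop y) z' g) z := if_pos hy

theorem Nf_leaf {x y : ℕ} (hy : L.length < y) (z f g : Ω → ℝ) :
    Nf w L x y z f g = Pf w (L.drop x) z fun u => f u * g u := if_neg hy.not_ge

theorem Nf_self {x : ℕ} (hx : x ≤ L.length) (z f g : Ω → ℝ) :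
    Nf w L x x z f g = Pf w (L.drop x) z f * Pf w (L.drop x) z g := by
  rw [Nf_le L hx, Nat.sub_self]
  simp

theorem Nf_symm (x y : ℕ) (z f g : Ω → ℝ) : Nf w L x y z f g = Nf w L x y z g f := by
  simp only [Nf, mul_comm]

include hw

theorem eg_Nf (x y : ℕ) (f g : Ω → ℝ) : Eg fun z => Nf w L x y z f g := by
  by_cases hy : y ≤ L.length
  · simp only [Nf_le L hy]
    exact ((Hess87.eg_Pf hw _ f).mul (Hess87.eg_Pf hw _ g)).node hw _ _
  · simp only [Nf_leaf L (not_le.1 hy)]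
    exact Hess87.eg_Pf hw _ _

theorem node_Pf {x y : ℕ} (h : x ≤ y) (z f : Ω → ℝ) :
    node w (L.drop x) (y - x) (fun z' => Pf w (L.drop y) z' f) z = Pf w (L.drop x) z f := by
  have := node_sum_P hw f (L.drop x) (y - x) z
  rwa [List.drop_drop, Nat.add_sub_cancel' h] at this

/-- tower property -/
theorem node_Nf {x x' y : ℕ} (h : x ≤ x') (h' : x' ≤ y) (z f g : Ω → ℝ) :
    node w (L.drop x) (x' - x) (fun z' => Nf w L x' y z' f g) z = Nf w L x y z f g := by
  by_cases hy : y ≤ L.length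
  · simp only [Nf_le L hy]
    exact congrFun (node_tower' L h h' _) z
  · simp only [Nf_leaf L (not_le.1 hy)]
    exact node_Pf hw L h z _

/-- what is born above `y` is the mean of the covariance at `y` -/
theorem Nf_leaf_sub {x y y' : ℕ} (h : x ≤ y) (hy : y ≤ L.length) (hy' : L.length < y')
    (z f g : Ω → ℝ) : Nf w L x y' z f g - Nf w L x y z f g =
      node w (L.drop x) (y - x) (fun z' => Cb w (L.drop y) z' f g) z := by
  simp only [Cb]
  rw [node_sub hw (Hess87.eg_Pf hw _ _) ((Hess87.eg_Pf hw _ f).mul (Hess87.eg_Pf hw _ g)),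
    Nf_le L hy, Nf_leaf L hy']
  simp only [node_Pf hw L h]

theorem node_sq {Φ : (Ω → ℝ) → ℝ} (hΦ : Eg Φ) (j : ℕ) (z : Ω → ℝ) :
    node w L j Φ z * node w L j Φ z ≤ node w L j (fun y => Φ y * Φ y) z := by
  set c := node w L j Φ z with hc
  have h1 := node_mono hw ((hΦ.const_mul (2 * c)).sub (Eg.const (c * c))) (hΦ.mul hΦ)
    (fun y => by nlinarith [sq_nonneg (Φ y - c)]) L j z
  rw [node_sub hw (hΦ.const_mul _) (Eg.const _), node_const_mul, node_const hw] at h1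
  simp only [← hc] at h1
  linarith

/-- the ladder increases -/
theorem Nf_mono {x y y' : ℕ} (h : x ≤ y) (h' : y ≤ y') (z f : Ω → ℝ) :
    Nf w L x y z f f ≤ Nf w L x y' z f f := by
  rcases le_or_gt y L.length with hy | hy
  · rcases le_or_gt y' L.length with hy' | hy'
    · rw [← node_Nf hw L h h', ← node_Nf hw L h le_rfl]
      refine node_mono hw (eg_Nf hw L _ _ f f) (eg_Nf hw L _ _ f f) (fun z' => ?_) _ _ z
      rw [Nf_self L hy, Nf_le L hy', ← node_Pf hw L h']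
      exact node_sq hw _ (Hess87.eg_Pf hw _ f) _ _
    · rw [← sub_nonneg, Nf_leaf_sub hw L h hy hy']
      exact node_nonneg w (fun z' => Hess87.Cb_nonneg hw _ z' f) _ _ z
  · rw [Nf_leaf L hy, Nf_leaf L (hy.trans_le h')]

theorem Nf_fld (l₀ : Lv Ω) (x y : ℕ) (z : Ω → ℝ) (v v' : l₀.ι → ℝ) :
    Nf w L x y z (l₀.fld v) (l₀.fld v') = ∑ i, ∑ k, v i * v' k * Nm w L l₀ x y z i k := by
  by_cases hy : y ≤ L.length
  · simp only [Nm, Nf_le L hy, Pf_fld, Finset.sum_mul_sum]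
    have hm := eg_mv hw (L.drop y) l₀
    rw [node_sum hw _ fun i _ => Eg.sum _ fun k _ => ((hm i).mul_const _).mul ((hm k).mul_const _)]
    refine Finset.sum_congr rfl fun i _ => ?_
    rw [node_sum hw _ fun k _ => ((hm i).mul_const _).mul ((hm k).mul_const _)]
    refine Finset.sum_congr rfl fun k _ => ?_
    rw [← congrFun (node_const_mul w _ _ _ _) z]
    exact congrArg (fun F => node w (L.drop x) (y - x) F z) (funext fun z' => by
      simp only [mv]; ring)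
  · simp only [Nm, Nf_leaf L (not_le.1 hy), Pf_fld2]

theorem eg_Nm (l₀ : Lv Ω) (x y : ℕ) (i k : l₀.ι) : Eg fun z => Nm w L l₀ x y z i k :=
  eg_Nf hw L x y _ _

/-- increments of the ladder are positive semidefinite -/
theorem psd_incr (l₀ : Lv Ω) {x y y' : ℕ} (h : x ≤ y) (h' : y ≤ y') (z : Ω → ℝ) :
    Psd (Nm w L l₀ x y' z - Nm w L l₀ x y z) := by
  refine ⟨fun i k => by simp only [Pi.sub_apply, Nm, Nf_symm L x _ z (fun u => l₀.A u i)],
    fun v => ?_⟩
  simp only [Pi.sub_apply, mul_sub, Finset.sum_sub_distrib, ← Nf_fld hw]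
  exact sub_nonneg.2 (Nf_mono hw L h h' z _)

omit hw in
theorem Nm_self (l₀ : Lv Ω) {x : ℕ} (hx : x ≤ L.length) (z : Ω → ℝ) (i k : l₀.ι) :
    Nm w L l₀ x x z i k = mv w (L.drop x) l₀ z i * mv w (L.drop x) l₀ z k := Nf_self L hx z _ _

omit hw in
theorem psd_self (l₀ : Lv Ω) {x : ℕ} (hx : x ≤ L.length) (z : Ω → ℝ) :
    Psd (Nm w L l₀ x x z) := by
  refine ⟨fun i k => Nf_symm L x x z _ _, fun v => ?_⟩
  simp only [Nm_self L l₀ hx]
  refine (mul_self_nonneg (∑ i, v i * mv w (L.drop x) l₀ z i)).trans_eq ?_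
  rw [Finset.sum_mul_sum]
  exact Finset.sum_congr rfl fun _ _ => Finset.sum_congr rfl fun _ _ => by ring

omit hw in
theorem Nm_leaf_sub (l₀ : Lv Ω) {x y : ℕ} (hx : x ≤ L.length) (hy : L.length < y) (z : Ω → ℝ)
    (i k : l₀.ι) : Nm w L l₀ x y z i k - Nm w L l₀ x x z i k =
      Cb w (L.drop x) z (fun u => l₀.A u i) fun u => l₀.A u k := by
  rw [Nm, Nm, Nf_leaf L hy, Nf_self L hx, Cb]

end nf

/-- mean overlap at `y ≤ K`, mean self-overlap for `y > K` -/
def rL (w : Ω → ℝ) (L : List (Lv Ω)) (l₀ : Lv Ω) (h : Ω → ℝ) (y : ℕ) : ℝ :=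
  ∑ i, Nm w L l₀ 0 y h i i

/-- `E tr (N_y N_y')`: two branches split at `x`, inner meeting levels `y`, `y'` -/
def T2 (w : Ω → ℝ) (L : List (Lv Ω)) (l₀ : Lv Ω) (h : Ω → ℝ) (x y y' : ℕ) : ℝ :=
  node w L x (fun z => tr (Nm w L l₀ x y z) (Nm w L l₀ x y' z)) h

/-- `E mᵀ (N_b - N_a) m` -/
def MD (w : Ω → ℝ) (L : List (Lv Ω)) (l₀ : Lv Ω) (h : Ω → ℝ) (x a b : ℕ) : ℝ :=
  T2 w L l₀ h x x b - T2 w L l₀ h x x a

/-- `E tr ((N_b - N_a) (N_b' - N_a'))` -/
def DD (w : Ω → ℝ) (L : List (Lv Ω)) (l₀ : Lv Ω) (h : Ω → ℝ) (x a b a' b' : ℕ) : ℝ :=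
  T2 w L l₀ h x b b' - T2 w L l₀ h x a b' - T2 w L l₀ h x b a' + T2 w L l₀ h x a a'

/-- centred form -/
def Tc (w : Ω → ℝ) (L : List (Lv Ω)) (l₀ : Lv Ω) (h : Ω → ℝ) (q : ℝ) (x y y' : ℕ) : ℝ :=
  T2 w L l₀ h x y y' - 2 * q * rho w L l₀ h x + q ^ 2

section t2
variable (hw : Wt w) (L : List (Lv Ω)) (l₀ : Lv Ω) (h : Ω → ℝ)

theorem T2_symm (x y y' : ℕ) : T2 w L l₀ h x y y' = T2 w L l₀ h x y' y := by
  simp only [T2, tr_comm (Nm w L l₀ x y _)]

theorem DD_symm (x a b a' b' : ℕ) : DD w L l₀ h x a b a' b' = DD w L l₀ h x a' b' a b := by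
  simp only [DD, T2_symm L l₀ h x b', T2_symm L l₀ h x a']
  ring

theorem MD_tele (x : ℕ) {a b : ℕ} (hab : a ≤ b) :
    ∑ i ∈ Finset.Ioc a b, MD w L l₀ h x (i - 1) i = MD w L l₀ h x a b := tele _ hab

theorem DD_tele (x : ℕ) {a b a' b' : ℕ} (hab : a ≤ b) (hab' : a' ≤ b') :
    ∑ i ∈ Finset.Ioc a b, ∑ i' ∈ Finset.Ioc a' b', DD w L l₀ h x (i - 1) i (i' - 1) i' =
      DD w L l₀ h x a b a' b' := by
  have e : ∀ i, ∑ i' ∈ Finset.Ioc a' b', DD w L l₀ h x (i - 1) i (i' - 1) i' =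
      (T2 w L l₀ h x i b' - T2 w L l₀ h x i a') -
        (T2 w L l₀ h x (i - 1) b' - T2 w L l₀ h x (i - 1) a') := fun i => by
    have := tele (fun i' => T2 w L l₀ h x i i' - T2 w L l₀ h x (i - 1) i') hab'
    refine Eq.trans (Finset.sum_congr rfl fun _ _ => ?_) (this.trans (by ring))
    rw [DD]; ring
  simp only [e]
  rw [tele (fun i => T2 w L l₀ h x i b' - T2 w L l₀ h x i a') hab, DD]
  ring

theorem Tc_eq (q : ℝ) (x y y' : ℕ) : Tc w L l₀ h q x y y' = Tc w L l₀ h q x x x +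
    MD w L l₀ h x x y + MD w L l₀ h x x y' + DD w L l₀ h x x y x y' := by
  simp only [Tc, MD, DD, T2_symm L l₀ h x y x]
  ring

include hw

theorem eg_tr {P Q : (Ω → ℝ) → l₀.ι → l₀.ι → ℝ} (hP : ∀ i k, Eg fun z => P z i k)
    (hQ : ∀ i k, Eg fun z => Q z i k) : Eg fun z => tr (P z) (Q z) :=
  Eg.sum _ fun i _ => Eg.sum _ fun k _ => (hP i k).mul (hQ i k)

theorem eg_incr (x a b : ℕ) (i k : l₀.ι) :
    Eg fun z => (Nm w L l₀ x b z - Nm w L l₀ x a z) i k :=
  (eg_Nm hw L l₀ x b i k).sub (eg_Nm hw L l₀ x a i k)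

theorem MD_eq (x a b : ℕ) : MD w L l₀ h x a b =
    node w L x (fun z => tr (Nm w L l₀ x b z - Nm w L l₀ x a z) (Nm w L l₀ x x z)) h := by
  have e := fun y y' => eg_tr hw l₀ (eg_Nm hw L l₀ x y) (eg_Nm hw L l₀ x y')
  rw [MD, T2, T2, ← congrFun (node_sub hw (e x b) (e x a) L x) h]
  refine congrArg (fun F => node w L x F h) (funext fun z => ?_)
  simp only [tr, Pi.sub_apply, ← Finset.sum_sub_distrib]
  exact Finset.sum_congr rfl fun _ _ => Finset.sum_congr rfl fun _ _ => by ring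

theorem DD_eq (x a b a' b' : ℕ) : DD w L l₀ h x a b a' b' = node w L x (fun z =>
    tr (Nm w L l₀ x b z - Nm w L l₀ x a z) (Nm w L l₀ x b' z - Nm w L l₀ x a' z)) h := by
  have e := fun y y' => eg_tr hw l₀ (eg_Nm hw L l₀ x y) (eg_Nm hw L l₀ x y')
  rw [DD, T2, T2, T2, T2, ← congrFun (node_sub hw (e b b') (e a b') L x) h,
    ← congrFun (node_sub hw ((e b b').sub (e a b')) (e b a') L x) h,
    ← congrFun (node_add hw (((e b b').sub (e a b')).sub (e b a')) (e a a') L x) h]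
  refine congrArg (fun F => node w L x F h) (funext fun z => ?_)
  simp only [tr, Pi.sub_apply, ← Finset.sum_sub_distrib, ← Finset.sum_add_distrib]
  exact Finset.sum_congr rfl fun _ _ => Finset.sum_congr rfl fun _ _ => by ring

theorem MD_nonneg {x a b : ℕ} (hx : x ≤ L.length) (ha : x ≤ a) (hab : a ≤ b) :
    0 ≤ MD w L l₀ h x a b := by
  rw [MD_eq hw]
  exact node_nonneg w (fun z => (psd_incr hw L l₀ ha hab z).tr_nonneg (psd_self L l₀ hx z)) L x h

theorem DD_nonneg {x a b a' b' : ℕ} (ha : x ≤ a) (hab : a ≤ b) (ha' : x ≤ a') (hab' : a' ≤ b') :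
    0 ≤ DD w L l₀ h x a b a' b' := by
  rw [DD_eq hw]
  exact node_nonneg w
    (fun z => (psd_incr hw L l₀ ha hab z).tr_nonneg (psd_incr hw L l₀ ha' hab' z)) L x h

/-- larger windows -/
theorem MD_mono {x a b c d : ℕ} (hx : x ≤ L.length) (hc : x ≤ c) (hca : c ≤ a) (hab : a ≤ b)
    (hbd : b ≤ d) : MD w L l₀ h x a b ≤ MD w L l₀ h x c d := by
  have h1 := MD_nonneg hw L l₀ h hx hc hca
  have h2 := MD_nonneg hw L l₀ h hx (hc.trans (hca.trans hab)) hbd
  simp only [MD] at h1 h2 ⊢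
  linarith

theorem DD_mono_left {x a b c d a' b' : ℕ} (hc : x ≤ c) (hca : c ≤ a) (hab : a ≤ b) (hbd : b ≤ d)
    (ha' : x ≤ a') (hab' : a' ≤ b') : DD w L l₀ h x a b a' b' ≤ DD w L l₀ h x c d a' b' := by
  have h1 := DD_nonneg hw L l₀ h hc hca ha' hab'
  have h2 := DD_nonneg hw L l₀ h (hc.trans (hca.trans hab)) hbd ha' hab'
  simp only [DD] at h1 h2 ⊢
  linarith

theorem DD_mono {x a b c d a' b' c' d' : ℕ} (hc : x ≤ c) (hca : c ≤ a) (hab : a ≤ b) (hbd : b ≤ d)
    (hc' : x ≤ c') (hca' : c' ≤ a') (hab' : a' ≤ b') (hbd' : b' ≤ d') :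
    DD w L l₀ h x a b a' b' ≤ DD w L l₀ h x c d c' d' := by
  refine (DD_mono_left hw L l₀ h hc hca hab hbd (hc'.trans hca') hab').trans ?_
  rw [DD_symm, DD_symm L l₀ h x c d c']
  exact DD_mono_left hw L l₀ h hc' hca' hab' hbd' hc (hca.trans (hab.trans hbd))

theorem node_trN {x y : ℕ} (hxy : x ≤ y) :
    node w L x (fun z => ∑ i, Nm w L l₀ x y z i i) h = rL w L l₀ h y := by
  rw [node_sum hw _ fun i _ => eg_Nm hw L l₀ x y i i]
  exact Finset.sum_congr rfl fun i _ => node_Nf hw L (Nat.zero_le x) hxy h _ _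

theorem rL_eq {y : ℕ} (hy : y ≤ L.length) : rL w L l₀ h y = rho w L l₀ h y := by
  rw [← node_trN hw L l₀ h (le_refl y), rho]
  simp only [Nm_self L l₀ hy, ← sq]
  rfl

theorem rL_mono : Monotone (rL w L l₀ h) := fun _ _ hy =>
  Finset.sum_le_sum fun _ _ => Nf_mono hw L (Nat.zero_le _) hy h _

theorem rL_le {Λ : ℝ} (h1 : ∀ x, l₀.cov x x ≤ Λ) (y : ℕ) : rL w L l₀ h y ≤ Λ := by
  refine (rL_mono hw L l₀ h (le_max_left y (L.length + 1))).trans
    (le_trans (le_of_eq ?_) (sum_P_le hw L h fun x _ => h1 x))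
  simp only [rL, Nm, Nf_leaf L (Nat.lt_of_succ_le (le_max_right y _)), List.drop_zero, Pf, Lv.cov,
    Finset.mul_sum]
  exact Finset.sum_comm

theorem T2_self {x : ℕ} (hx : x ≤ L.length) :
    T2 w L l₀ h x x x = node w L x (fun z => rr w (L.drop x) l₀ z ^ 2) h := by
  refine congrArg (fun F => node w L x F h) (funext fun z => ?_)
  simp only [tr, Nm_self L l₀ hx, rr, sq, Finset.sum_mul_sum]
  exact Finset.sum_congr rfl fun _ _ => Finset.sum_congr rfl fun _ _ => by ring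

theorem Tc_self {x : ℕ} (hx : x ≤ L.length) (q : ℝ) :
    Tc w L l₀ h q x x x = node w L x (fun z => (rr w (L.drop x) l₀ z - q) ^ 2) h := by
  have e := eg_rr hw (L.drop x) l₀
  have e' : (fun z => (rr w (L.drop x) l₀ z - q) ^ 2) =
      fun z => rr w (L.drop x) l₀ z ^ 2 - 2 * q * rr w (L.drop x) l₀ z + q ^ 2 := by
    funext z; ring
  rw [e', node_add hw ((e.pow 2).sub (e.const_mul _)) (Eg.const _),
    node_sub hw (e.pow 2) (e.const_mul _), node_const_mul, node_const hw, Tc, T2_self hw L l₀ h hx]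
  rfl

/-- the whole ladder of the `m`-leg is `E V` -/
theorem MD_full {x y : ℕ} (hx : x ≤ L.length) (hy : L.length < y) :
    MD w L l₀ h x x y = vv w L l₀ h x := by
  rw [MD_eq hw]
  refine congrArg (fun F => node w L x F h) (funext fun z => ?_)
  simp only [tr, Pi.sub_apply, Nm_leaf_sub L l₀ hx hy, Vq, Cb_fld]
  simp only [Nm_self L l₀ hx]
  exact Finset.sum_congr rfl fun _ _ => Finset.sum_congr rfl fun _ _ => by ring

/-- the whole double ladder is `E tr C²` -/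
theorem DD_full {x y y' : ℕ} (hx : x ≤ L.length) (hy : L.length < y) (hy' : L.length < y') :
    DD w L l₀ h x x y x y' = tc w L l₀ h x := by
  rw [DD_eq hw]
  refine congrArg (fun F => node w L x F h) (funext fun z => ?_)
  simp only [tr, Pi.sub_apply, Nm_leaf_sub L l₀ hx hy, Nm_leaf_sub L l₀ hx hy', trC2, sq]

theorem MD_le_vv {x a b : ℕ} (hx : x ≤ L.length) (ha : x ≤ a) (hab : a ≤ b) :
    MD w L l₀ h x a b ≤ vv w L l₀ h x :=
  (MD_mono hw L l₀ h hx le_rfl ha hab (le_max_left b (L.length + 1))).trans_eq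
    (MD_full hw L l₀ h hx (Nat.lt_of_succ_le (le_max_right _ _)))

theorem DD_le_tc {x a b a' b' : ℕ} (hx : x ≤ L.length) (ha : x ≤ a) (hab : a ≤ b) (ha' : x ≤ a')
    (hab' : a' ≤ b') : DD w L l₀ h x a b a' b' ≤ tc w L l₀ h x :=
  (DD_mono hw L l₀ h le_rfl ha hab (le_max_left b (L.length + 1)) le_rfl ha' hab'
    (le_max_left b' (L.length + 1))).trans_eq (DD_full hw L l₀ h hx
      (Nat.lt_of_succ_le (le_max_right _ _)) (Nat.lt_of_succ_le (le_max_right _ _)))

/-- a pointwise bound `N_b - N_a ≤ κ` bounds the `m`-leg -/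
theorem MD_le_of {x a b : ℕ} (hx : x ≤ L.length) {κ : ℝ} (hκ : ∀ z v,
    Nf w L x b z (l₀.fld v) (l₀.fld v) - Nf w L x a z (l₀.fld v) (l₀.fld v) ≤ κ * ∑ i, v i ^ 2) :
    MD w L l₀ h x a b ≤ κ * rho w L l₀ h x := by
  rw [MD_eq hw, ← rL_eq hw L l₀ h hx, ← node_trN hw L l₀ h (le_refl x),
    ← congrFun (node_const_mul w _ _ L x) h]
  refine node_mono hw (eg_tr hw l₀ (eg_incr hw L l₀ x a b) (eg_Nm hw L l₀ x x))
    ((Eg.sum _ fun i _ => eg_Nm hw L l₀ x x i i).const_mul _) (fun z => tr_le (fun i k => by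
      simp only [Pi.sub_apply, Nm, Nf_symm L x _ z (fun u => l₀.A u i)]) (fun v => ?_)
      (psd_self L l₀ hx z)) L x h
  simpa only [Pi.sub_apply, mul_sub, Finset.sum_sub_distrib, ← Nf_fld hw] using hκ z v

/-- a pointwise bound `N_b - N_a ≤ κ` bounds the double ladder -/
theorem DD_le_of {x a b a' b' : ℕ} (ha' : x ≤ a') (hab' : a' ≤ b') {κ : ℝ} (hκ : ∀ z v,
    Nf w L x b z (l₀.fld v) (l₀.fld v) - Nf w L x a z (l₀.fld v) (l₀.fld v) ≤ κ * ∑ i, v i ^ 2) :
    DD w L l₀ h x a b a' b' ≤ κ * (rL w L l₀ h b' - rL w L l₀ h a') := by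
  have e := fun y => Eg.sum Finset.univ fun i _ => eg_Nm hw L l₀ x y i i
  rw [DD_eq hw, ← node_trN hw L l₀ h ha', ← node_trN hw L l₀ h (ha'.trans hab'),
    ← congrFun (node_sub hw (e b') (e a') L x) h, ← congrFun (node_const_mul w _ _ L x) h]
  refine node_mono hw (eg_tr hw l₀ (eg_incr hw L l₀ x a b) (eg_incr hw L l₀ x a' b'))
    (((e b').sub (e a')).const_mul _) (fun z => (tr_le (κ := κ) (fun i k => by
      simp only [Pi.sub_apply, Nm, Nf_symm L x _ z (fun u => l₀.A u i)]) (fun v => ?_)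
      (psd_incr hw L l₀ ha' hab' z)).trans_eq (by
        simp only [Pi.sub_apply, Finset.sum_sub_distrib])) L x h
  simpa only [Pi.sub_apply, mul_sub, Finset.sum_sub_distrib, ← Nf_fld hw] using hκ z v

/-- the centred two-branch moment lies between `E (r - q)²` and `E (R - q)²` -/
theorem Tc_bds (q : ℝ) {x y y' : ℕ} (hx : x ≤ L.length) (hy : x ≤ y) (hy' : x ≤ y') :
    Tc w L l₀ h q x x x ≤ Tc w L l₀ h q x y y' ∧ Tc w L l₀ h q x y y' ≤
      Tc w L l₀ h q x x x + 2 * vv w L l₀ h x + tc w L l₀ h x := by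
  rw [Tc_eq L l₀ h q x y y']
  constructor
  · linarith [MD_nonneg hw L l₀ h hx le_rfl hy, MD_nonneg hw L l₀ h hx le_rfl hy',
      DD_nonneg hw L l₀ h le_rfl hy le_rfl hy']
  · linarith [MD_le_vv hw L l₀ h hx le_rfl hy, MD_le_vv hw L l₀ h hx le_rfl hy',
      DD_le_tc hw L l₀ h hx le_rfl hy le_rfl hy']

/-- **Abel identity** for the centred two-branch sums -/
theorem abel_Tc (c : ℕ → ℕ → ℝ) (q : ℝ) (x N : ℕ) :
    ∑ y ∈ Finset.Icc x N, ∑ y' ∈ Finset.Icc x N, c y y' * Tc w L l₀ h q x y y' =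
      tail c N x x * Tc w L l₀ h q x x x +
      ∑ i ∈ Finset.Ioc x N, (tail c N i x + tail c N x i) * MD w L l₀ h x (i - 1) i +
      ∑ i ∈ Finset.Ioc x N, ∑ i' ∈ Finset.Ioc x N,
        tail c N i i' * DD w L l₀ h x (i - 1) i (i' - 1) i' := by
  rw [abel2 c (Tc w L l₀ h q x) x N]
  simp only [add_mul, Finset.sum_add_distrib, ← add_assoc]
  congr 1
  · congr 1
    · congr 1
      exact Finset.sum_congr rfl fun i _ => by
        simp only [Tc, MD, T2_symm L l₀ h x x]; ring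
    · exact Finset.sum_congr rfl fun i _ => by simp only [Tc, MD]; ring
  · exact Finset.sum_congr rfl fun _ _ => Finset.sum_congr rfl fun _ _ => by
      simp only [Tc, DD]; ring

end t2

/-! ### the Riccati input -/

/-- `1 / (x_y ∑_{[t,y)} x τ)` -/
def kap (L : List (Lv Ω)) (τ : ℕ → ℝ) (t y : ℕ) : ℝ :=
  1 / (ex L y * ∑ k ∈ Finset.Ico t y, ex L k * τ k)

section ric
variable {L : List (Lv Ω)} {l₀ : Lv Ω} {τ : ℕ → ℝ} {Λ : ℝ}

/-- **(L1)** what is born above `y` along one branch, pointwise at the node `x` -/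
theorem Dt.born_le (H : Dt w L l₀ τ Λ) {x t y y' : ℕ} (hx : x ≤ t) (ht : t ≤ y)
    (hy : y ≤ L.length) (hyy : y ≤ y') (he : 0 < ex L y)
    (hS : 0 < ∑ k ∈ Finset.Ico t y, ex L k * τ k) (z : Ω → ℝ) (v : l₀.ι → ℝ) :
    Nf w L x y' z (l₀.fld v) (l₀.fld v) - Nf w L x y z (l₀.fld v) (l₀.fld v) ≤
      kap L τ t y * ∑ i, v i ^ 2 := by
  have hw := H.wt
  have h1 := Nf_mono hw L (hx.trans (ht.trans hyy)) (le_max_left y' (L.length + 1)) z (l₀.fld v)
  have h2 := Nf_leaf_sub hw L (hx.trans ht) hy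
    (Nat.lt_of_succ_le (le_max_right y' (L.length + 1))) z (l₀.fld v) (l₀.fld v)
  have eB := eg_Bq hw (L.drop y) l₀ (v := fun _ => v) fun i => Eg.const _
  have h3 := node_mono hw ((Hess87.eg_Cb hw (L.drop y) (l₀.fld v) (l₀.fld v)).const_mul (ex L y))
    eB (fun z' => (Hess87.sandwich hw _ _ _ z' (mono_drop_ex y H.mono)).1) (L.drop x) (y - x) z
  rw [node_const_mul, ← node_tower' L hx ht (fun z' => Bq w (L.drop y) l₀ z' v)] at h3
  have h4 := node_le hw (eB.node hw (L.drop t) (y - t))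
    (fun z' => ric_blk hw H.mono l₀ H.dom ht hy hS z' v) (L.drop x) (t - x) z
  have h5 := h3.trans h4
  simp only [← h2] at h5
  rw [le_div_iff₀ hS] at h5
  rw [kap, one_div_mul_eq_div, le_div_iff₀ (mul_pos he hS)]
  nlinarith [mul_le_mul_of_nonneg_right h1 (mul_pos he hS).le]

/-- **(L2)**, `m`-leg -/
theorem Dt.MD_le (H : Dt w L l₀ τ Λ) (h : Ω → ℝ) {x t y y' : ℕ} (hx : x ≤ t) (ht : t ≤ y)
    (hy : y ≤ L.length) (hyy : y ≤ y') (he : 0 < ex L y)
    (hS : 0 < ∑ k ∈ Finset.Ico t y, ex L k * τ k) :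
    MD w L l₀ h x y y' ≤ kap L τ t y * rho w L l₀ h x :=
  MD_le_of H.wt L l₀ h (hx.trans (ht.trans hy)) (Dt.born_le H hx ht hy hyy he hS)

/-- **(L2)**, two branches: the other branch is a frozen matrix -/
theorem Dt.DD_le (H : Dt w L l₀ τ Λ) (h : Ω → ℝ) {x t y y' a b : ℕ} (hx : x ≤ t) (ht : t ≤ y)
    (hy : y ≤ L.length) (hyy : y ≤ y') (he : 0 < ex L y)
    (hS : 0 < ∑ k ∈ Finset.Ico t y, ex L k * τ k) (ha : x ≤ a) (hab : a ≤ b) :
    DD w L l₀ h x y y' a b ≤ kap L τ t y * (rL w L l₀ h b - rL w L l₀ h a) :=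
  DD_le_of H.wt L l₀ h ha hab (Dt.born_le H hx ht hy hyy he hS)

/-- blocks of levels above `x`, the last one ends at the leaf -/
structure Bl (L : List (Lv Ω)) (τ : ℕ → ℝ) (t : ℕ → ℕ) (B : ℕ) : Prop where
  mono : Monotone t
  le : t B ≤ L.length
  ex : ∀ b < B, 0 < ex L (t (b + 1))
  mass : ∀ b < B, 0 < ∑ k ∈ Finset.Ico (t b) (t (b + 1)), T157.Casc.ex L k * τ k

theorem kap_nonneg {t : ℕ → ℕ} {B : ℕ} (G : Bl L τ t B) {b : ℕ} (hb : b < B) :
    0 ≤ kap L τ (t b) (t (b + 1)) := (one_div_pos.2 (mul_pos (G.ex b hb) (G.mass b hb))).le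

/-- **(L3)**, `m`-leg -/
theorem Dt.sum_MD (H : Dt w L l₀ τ Λ) (h : Ω → ℝ) {t : ℕ → ℕ} {B : ℕ} (G : Bl L τ t B)
    {T a : ℕ → ℝ} (hT : ∀ b ≤ B, ∀ i, t b < i → i ≤ t (b + 1) → |T i| ≤ a b) (ha : ∀ b, 0 ≤ a b) :
    |∑ i ∈ Finset.Ioc (t 0) (t (B + 1)), T i * MD w L l₀ h (t 0) (i - 1) i| ≤
      a 0 * vv w L l₀ h (t 0) +
        rho w L l₀ h (t 0) * ∑ b ∈ Finset.range B, a (b + 1) * kap L τ (t b) (t (b + 1)) := by
  have hw := H.wt
  have m := G.mono
  have hx : t 0 ≤ L.length := (m (Nat.zero_le B)).trans G.le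
  refine (blk1 m (B + 1) (fun i h1 _ => MD_nonneg hw L l₀ h hx (by omega) (by omega))
    fun b hb => hT b (by omega)).trans ?_
  simp only [fun b => MD_tele (w := w) L l₀ h (t 0) (m (Nat.le_succ b))]
  rw [Finset.sum_range_succ', add_comm, Finset.mul_sum]
  refine add_le_add (mul_le_mul_of_nonneg_left (MD_le_vv hw L l₀ h hx le_rfl (m (by omega))) (ha 0))
    (Finset.sum_le_sum fun b hb => ?_)
  have hb := Finset.mem_range.1 hb
  have := Dt.MD_le H h (m (Nat.zero_le b)) (m (Nat.le_succ b)) ((m hb).trans G.le)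
    (m (Nat.le_succ (b + 1))) (G.ex b hb) (G.mass b hb)
  nlinarith [mul_le_mul_of_nonneg_left this (ha (b + 1))]

/-- **(L3)**, two branches -/
theorem Dt.sum_DD (H : Dt w L l₀ τ Λ) (h : Ω → ℝ) {t : ℕ → ℕ} {B : ℕ} (G : Bl L τ t B)
    {T : ℕ → ℕ → ℝ} {a : ℕ → ℝ} (hT : ∀ b ≤ B, ∀ i i', t 0 < i → t 0 < i' → t b < max i i' →
      max i i' ≤ t (b + 1) → |T i i'| ≤ a b) (ha : ∀ b, 0 ≤ a b) :
    |∑ i ∈ Finset.Ioc (t 0) (t (B + 1)), ∑ i' ∈ Finset.Ioc (t 0) (t (B + 1)),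
      T i i' * DD w L l₀ h (t 0) (i - 1) i (i' - 1) i'| ≤ a 0 * tc w L l₀ h (t 0) +
        2 * ∑ b ∈ Finset.range B, a (b + 1) * kap L τ (t b) (t (b + 1)) *
          (rL w L l₀ h (t (b + 2)) - rho w L l₀ h (t 0)) := by
  have hw := H.wt
  have m := G.mono
  have hx : t 0 ≤ L.length := (m (Nat.zero_le B)).trans G.le
  refine (blk2 m (B + 1) (fun i i' h1 _ h2 _ => DD_nonneg hw L l₀ h (by omega) (by omega)
    (by omega) (by omega)) fun b hb => hT b (by omega)).trans ?_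
  simp only [fun b => DD_tele (w := w) L l₀ h (t 0) (m (Nat.le_succ b)) (m (Nat.zero_le (b + 1))),
    fun b => DD_tele (w := w) L l₀ h (t 0) (m (Nat.zero_le b)) (m (Nat.le_succ b))]
  rw [Finset.sum_range_succ', add_comm, Finset.mul_sum]
  refine add_le_add (mul_le_mul_of_nonneg_left ?_ (ha 0)) (Finset.sum_le_sum fun b hb => ?_)
  · have := DD_le_tc hw L l₀ h hx le_rfl (m (Nat.zero_le 1)) le_rfl (m (Nat.zero_le 1))
    simp only [DD] at this ⊢
    linarith
  · have hb := Finset.mem_range.1 hb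
    have e := fun {a b'} => Dt.DD_le H h (a := a) (b := b') (m (Nat.zero_le b)) (m (Nat.le_succ b))
      ((m hb).trans G.le) (m (Nat.le_succ (b + 1))) (G.ex b hb) (G.mass b hb)
    have h1 := e le_rfl (m (Nat.zero_le (b + 2)))
    have h2 := e le_rfl (m (Nat.zero_le (b + 1)))
    have h3 := mul_le_mul_of_nonneg_left (rL_mono hw L l₀ h (m (Nat.le_succ (b + 1))))
      (kap_nonneg G hb)
    rw [rL_eq hw L l₀ h hx] at h1 h2
    rw [DD_symm L l₀ h (t 0) (t 0), mul_assoc, mul_left_comm]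
    exact mul_le_mul_of_nonneg_left (by simp only [Nat.succ_eq_add_one] at *; linarith) (ha _)

/-- **the ladder**: a signed double sum over the meeting levels of two branches split at `t 0`
is its total weight times `E (r - q)²`, up to the tails of the weight against Riccati bounds -/
theorem Dt.ladder (H : Dt w L l₀ τ Λ) (h : Ω → ℝ) {t : ℕ → ℕ} {B : ℕ} (G : Bl L τ t B)
    (c : ℕ → ℕ → ℝ) (q : ℝ) {a a' : ℕ → ℝ}
    (hT : ∀ b ≤ B, ∀ i, t b < i → i ≤ t (b + 1) →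
      |tail c (t (B + 1)) i (t 0) + tail c (t (B + 1)) (t 0) i| ≤ a b)
    (hT' : ∀ b ≤ B, ∀ i i', t 0 < i → t 0 < i' → t b < max i i' → max i i' ≤ t (b + 1) →
      |tail c (t (B + 1)) i i'| ≤ a' b) (ha : ∀ b, 0 ≤ a b) (ha' : ∀ b, 0 ≤ a' b) :
    |∑ y ∈ Finset.Icc (t 0) (t (B + 1)), ∑ y' ∈ Finset.Icc (t 0) (t (B + 1)),
        c y y' * Tc w L l₀ h q (t 0) y y' - tail c (t (B + 1)) (t 0) (t 0) *
        node w L (t 0) (fun z => (rr w (L.drop (t 0)) l₀ z - q) ^ 2) h| ≤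
      a 0 * vv w L l₀ h (t 0) + a' 0 * tc w L l₀ h (t 0) +
        rho w L l₀ h (t 0) * ∑ b ∈ Finset.range B, a (b + 1) * kap L τ (t b) (t (b + 1)) +
        2 * ∑ b ∈ Finset.range B, a' (b + 1) * kap L τ (t b) (t (b + 1)) *
          (rL w L l₀ h (t (b + 2)) - rho w L l₀ h (t 0)) := by
  have h1 := Dt.sum_MD H h G hT ha
  have h2 := Dt.sum_DD H h G hT' ha'
  rw [abel_Tc H.wt, Tc_self H.wt L l₀ h ((G.mono (Nat.zero_le B)).trans G.le)]
  rw [abs_le] at h1 h2 ⊢
  constructor <;> linarith [h1.1, h1.2, h2.1, h2.2]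

end ric

/-! ### replica form -/

/-- `j` shared levels, then `s` -/
def stp : ℕ → Sh → Sh
  | 0, s => s
  | j + 1, s => .step (stp j s)

/-- the leaves of `stp j s` -/
def stpL : (j : ℕ) → (s : Sh) → s.Lf → (stp j s).Lf
  | 0, _, a => a
  | j + 1, s, a => stpL j s a

theorem stpL_inj : ∀ (j : ℕ) (s : Sh), Function.Injective (stpL j s)
  | 0, _ => Function.injective_id
  | j + 1, s => stpL_inj j s

theorem shr_stp : ∀ (j : ℕ) (s : Sh) (a b : s.Lf) (k : ℕ),
    (stp j s).shr (stpL j s a) (stpL j s b) (k + j) = s.shr a b k + j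
  | 0, _, _, _, _ => rfl
  | j + 1, s, a, b, k => congrArg (· + 1) (shr_stp j s a b k)

theorem TE_stp (hw : Wt w) (s : Sh) (F : (s.Lf → Ω) → ℝ) : ∀ (j : ℕ) (L : List (Lv Ω)) (h : Ω → ℝ),
    TE w (stp j s) L h (fun u => F fun a => u (stpL j s a)) =
      node w L j (fun z => TE w s (L.drop j) z F) h
  | 0, _, _ => by simp [stp, stpL]
  | j + 1, [], h => (Law.TE_step_nil w _ h _).trans ((TE_stp hw s F j [] h).trans (by simp))
  | j + 1, l :: L, h => (Law.TE_step hw _ l L h _).trans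
      (congrArg (fun G => tE l (X w L) G h) (funext (TE_stp hw s F j L)))

/-- meeting level of two leaves, `K + 1` for one leaf -/
def lev (s : Sh) (K : ℕ) (a b : s.Lf) : ℕ := by
  classical exact if a = b then K + 1 else s.shr a b K

theorem lev_self (s : Sh) (K : ℕ) (a : s.Lf) : lev s K a a = K + 1 := if_pos rfl

theorem lev_ne (s : Sh) (K : ℕ) {a b : s.Lf} (h : a ≠ b) : lev s K a b = s.shr a b K := if_neg h

theorem branch (hw : Wt w) (s : Sh) (L : List (Lv Ω)) {x : ℕ} (hx : x ≤ L.length) (a b : s.Lf)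
    (hab : x ≤ s.shr a b L.length) : ∃ (κ : Type) (_ : Finite κ) (e : κ → s.Lf) (s₁ : Sh)
      (d : κ → s₁.Lf) (i j : κ), Function.Injective e ∧ Function.Injective d ∧ e i = a ∧ e j = b ∧
      (∀ k, e k = a ∨ e k = b) ∧
      (∀ k k', k ≠ k' → s.shr (e k) (e k') L.length = s₁.shr (d k) (d k') (L.length - x) + x) ∧
      ∀ z f g, TE w s₁ (L.drop x) z (fun u => f (u (d i)) * g (u (d j))) =
        Nf w L x (lev s L.length a b) z f g := by
  rcases eq_or_ne a b with rfl | h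
  · refine ⟨Unit, inferInstance, fun _ => a, .one, id, (), (), fun _ _ _ => rfl,
      Function.injective_id, rfl, rfl, fun _ => .inl rfl, fun _ _ e => absurd rfl e, fun z f g => ?_⟩
    rw [lev_self, Nf_leaf L (Nat.lt_succ_self _)]
    exact Law.TE_one hw _ z _
  · have hy := Wt87.shr_le s a b L.length
    set y := s.shr a b L.length with hyd
    have hne : Sh.twoL (y - x) ≠ Sh.twoR (y - x) := fun e => by
      have h1 := Wt87.shr_two (y - x) (y - x + 1)
      rw [← e, Wt87.shr_self] at h1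
      omega
    have h2 : (Sh.two (y - x)).shr (Sh.twoL _) (Sh.twoR _) (L.length - x) = y - x := by
      rw [Wt87.shr_two]; omega
    refine ⟨Bool, inferInstance, fun k => bif k then a else b, Sh.two (y - x),
      fun k => bif k then Sh.twoL _ else Sh.twoR _, true, false, ?_, ?_, rfl, rfl, ?_, ?_,
      fun z f g => ?_⟩
    · rintro (_ | _) (_ | _) e
      exacts [rfl, absurd e.symm h, absurd e h, rfl]
    · rintro (_ | _) (_ | _) e
      exacts [rfl, absurd e.symm hne, absurd e hne, rfl]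
    · rintro (_ | _)
      exacts [.inr rfl, .inl rfl]
    · rintro (_ | _) (_ | _) e
      · exact absurd rfl e
      · refine (Wt87.shr_comm s b a _).trans (Eq.trans ?_
          (congrArg (· + x) (Wt87.shr_comm _ (Sh.twoL (y - x)) (Sh.twoR (y - x)) _)))
        simp only [h2]; omega
      · exact (show y = y - x + x by omega).trans (congrArg (· + x) h2.symm)
      · exact absurd rfl e
    · refine (TE_pair hw _ _ z hne fun u u' => f u * g u').trans ?_
      rw [List.length_drop, h2, lev_ne s _ h, Nf_le L hy, pi2, List.drop_drop,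
        Nat.add_sub_cancel' hab]
      simp only [qf_mul, Pf]

/-- **(L4)** two branches `{a, b}`, `{a', b'}` split at `x` (leaves in a branch may coincide) -/
theorem TE_branch (hw : Wt w) (s : Sh) (L : List (Lv Ω)) (h : Ω → ℝ) {x : ℕ} {a b a' b' : s.Lf}
    (hne : ∀ p, p = a ∨ p = b → ∀ p', p' = a' ∨ p' = b' → p ≠ p')
    (hx : ∀ p, p = a ∨ p = b → ∀ p', p' = a' ∨ p' = b' → s.shr p p' L.length = x)
    (f g f' g' : Ω → ℝ) :
    TE w s L h (fun u => f (u a) * g (u b) * (f' (u a') * g' (u b'))) = node w L x (fun z =>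
      Nf w L x (lev s L.length a b) z f g * Nf w L x (lev s L.length a' b') z f' g') h := by
  have h1 := hx a (.inl rfl) a' (.inl rfl)
  have hK : x ≤ L.length := h1 ▸ Wt87.shr_le s a a' _
  have u1 : x ≤ s.shr a b L.length := by
    have := Wt87.shr_ultra s a a' b L.length
    rw [Wt87.shr_comm s a' b, h1, hx b (.inr rfl) a' (.inl rfl)] at this
    omega
  have u2 : x ≤ s.shr a' b' L.length := by
    have := Wt87.shr_ultra s a' a b' L.length
    rw [Wt87.shr_comm s a' a, h1, hx a (.inl rfl) b' (.inr rfl)] at this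
    omega
  obtain ⟨κ, _, e, s₁, d, i, j, he, hd, rfl, rfl, hc, hs, hT⟩ := branch hw s L hK a b u1
  obtain ⟨κ', _, e', s₂, d', i', j', he', hd', rfl, rfl, hc', hs', hT'⟩ :=
    branch hw s L hK a' b' u2
  have hE : Function.Injective (Sum.elim e e') :=
    he.sumElim he' fun k k' => hne _ (hc k) _ (hc' k')
  have hD : Function.Injective fun k : κ ⊕ κ' => stpL x (.split s₁ s₂) (Sum.map d d' k) :=
    (stpL_inj x _).comp (hd.sumMap hd')
  have key := TE_lab hw s (stp x (.split s₁ s₂)) L h hE hD (fun p q hpq => by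
    rw [← Nat.sub_add_cancel hK, shr_stp, Nat.sub_add_cancel hK]
    rcases p with p | p <;> rcases q with q | q
    · exact hs p q fun e => hpq (congrArg _ e)
    · exact (hx _ (hc p) _ (hc' q)).trans (zero_add x).symm
    · exact (Wt87.shr_comm _ _ _ _).trans ((hx _ (hc q) _ (hc' p)).trans (zero_add x).symm)
    · exact hs' p q fun e => hpq (congrArg _ e))
    fun y => f (y (.inl i)) * g (y (.inl j)) * (f' (y (.inr i')) * g' (y (.inr j')))
  refine key.trans ((TE_stp hw (.split s₁ s₂) (fun u => f (u (.inl (d i))) * g (u (.inl (d j))) *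
    (f' (u (.inr (d' i'))) * g' (u (.inr (d' j'))))) x L h).trans ?_)
  refine congrArg (fun F => node w L x F h) (funext fun z => ?_)
  rw [Law.TE_split hw, ← hT, ← hT']
  simp only [Sum.elim_inl, Sum.elim_inr, Law.TE_const_mul hw, Law.TE_mul_const hw]

/-- `E ⟨R_{a a'} R_{b b'}⟩ = T2` -/
theorem TE_T2 (hw : Wt w) (s : Sh) (L : List (Lv Ω)) (l₀ : Lv Ω) (h : Ω → ℝ) {x : ℕ}
    {a b a' b' : s.Lf} (hne : ∀ p, p = a ∨ p = b → ∀ p', p' = a' ∨ p' = b' → p ≠ p')
    (hx : ∀ p, p = a ∨ p = b → ∀ p', p' = a' ∨ p' = b' → s.shr p p' L.length = x) :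
    TE w s L h (fun u => l₀.cov (u a) (u a') * l₀.cov (u b) (u b')) =
      T2 w L l₀ h x (lev s L.length a b) (lev s L.length a' b') := by
  have e : ∀ u : s.Lf → Ω, l₀.cov (u a) (u a') * l₀.cov (u b) (u b') =
      ∑ i, ∑ k, l₀.A (u a) i * l₀.A (u b) k * (l₀.A (u a') i * l₀.A (u b') k) := fun u => by
    simp only [Lv.cov, Finset.sum_mul_sum]
    exact Finset.sum_congr rfl fun _ _ => Finset.sum_congr rfl fun _ _ => by ring
  have hN := fun y => eg_Nm hw L l₀ x y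
  simp only [e, Law.TE_sum hw, T2, tr]
  rw [node_sum hw _ fun i _ => Eg.sum _ fun k _ => (hN _ i k).mul (hN _ i k)]
  refine Finset.sum_congr rfl fun i _ => ?_
  rw [node_sum hw _ fun k _ => (hN _ i k).mul (hN _ i k)]
  exact Finset.sum_congr rfl fun k _ => TE_branch hw s L h hne hx (fun u => l₀.A u i)
    (fun u => l₀.A u k) (fun u => l₀.A u i) fun u => l₀.A u k

/-- centred replica form -/
theorem TE_Tc (hw : Wt w) (s : Sh) (L : List (Lv Ω)) (l₀ : Lv Ω) (h : Ω → ℝ) (q : ℝ) {x : ℕ}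
    {a b a' b' : s.Lf} (hne : ∀ p, p = a ∨ p = b → ∀ p', p' = a' ∨ p' = b' → p ≠ p')
    (hx : ∀ p, p = a ∨ p = b → ∀ p', p' = a' ∨ p' = b' → s.shr p p' L.length = x) :
    TE w s L h (fun u => (l₀.cov (u a) (u a') - q) * (l₀.cov (u b) (u b') - q)) =
      Tc w L l₀ h q x (lev s L.length a b) (lev s L.length a' b') := by
  have e : ∀ u : s.Lf → Ω, (l₀.cov (u a) (u a') - q) * (l₀.cov (u b) (u b') - q) =
      l₀.cov (u a) (u a') * l₀.cov (u b) (u b') - q * l₀.cov (u a) (u a') -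
        q * l₀.cov (u b) (u b') + q ^ 2 := fun u => by ring
  simp only [e, Law.TE_add hw, Law.TE_sub hw, Law.TE_const_mul hw, Law.TE_const hw]
  rw [TE_T2 hw s L l₀ h hne hx, TE_pair hw s L h (hne a (.inl rfl) a' (.inl rfl)),
    TE_pair hw s L h (hne b (.inr rfl) b' (.inr rfl)), hx a (.inl rfl) a' (.inl rfl),
    hx b (.inr rfl) b' (.inr rfl), ← rho_eq, Tc]
  ring

end Crest.Agent.T156.Cas.Lad79
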