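import Crest.Agent.T156.Q2Def_75
import Crest.Agent.T156.Lad_79
import Crest.Agent.T156.CluB_22

/-!
# Row 156 (helper14): the same-node site sums of the two-edge term (`GsS`)

At the node `x` the site factor is `E_x`-conditionally a product `N_t N_t'`; the signed sums over
a leg are `A_x` (all positions) and `χ_y` (positions `≥ y`), and `χ_y` is even in the field.
-/

set_option autoImplicit false

noncomputable section

namespace Crest.Agent.T156.Cas.Q75.Gs14

open Finset Real Filter Topology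
open Crest.Agent.T157.E Crest.Agent.T157.Casc Crest.Agent.T157.SL
open Crest.ProbabilityR.SpinGlassDynamics (spin)
open One15 Ker15 Lad79

/-! ### even functionals are quadratic in the field -/

theorem dS_lip {L : List (Lv Bool)} (hM : Mono 0 L) (s : Sh) {F : (s.Lf → Bool) → ℝ}
    (hF : ∀ x, |F x| ≤ 1) (hN : Fintype.card s.Lf = 2) (e e' : ℝ) :
    |dS (fun _ => 1) s L (0 + e • spin) spin F - dS (fun _ => 1) s L (0 + e' • spin) spin F| ≤
      20 * |e - e'| := by
  have hs : ∀ b, |spin b| ≤ 1 := fun b => (One15.abs_spin b).le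
  have hp : ∀ x b, |F x * spin b| ≤ 1 := fun x b => by
    rw [abs_mul, One15.abs_spin, mul_one]; exact hF x
  have h1 : |∑ a, TE (fun _ => 1) s L (0 + e • spin) (fun x => F x * spin (x a)) -
      ∑ a, TE (fun _ => 1) s L (0 + e' • spin) (fun x => F x * spin (x a))| ≤ 8 * |e - e'| := by
    rw [← sum_sub_distrib]
    refine (abs_sum_le_sum_abs _ _).trans ((sum_le_sum fun a _ =>
      TE_lip w1 s hM 0 (fun x => hp x _) hs e e').trans_eq ?_)
    simp only [sum_const, card_univ, hN, nsmul_eq_mul]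
    push_cast; ring
  have h2 : |∑ a, ∑ j ∈ range (L.length + 1), cw s L a j *
        TE (fun _ => 1) (s.graft a j) L (0 + e • spin)
          (fun x => F (fun b => x (s.emb a j b)) * spin (x (s.nw a j))) -
      ∑ a, ∑ j ∈ range (L.length + 1), cw s L a j *
        TE (fun _ => 1) (s.graft a j) L (0 + e' • spin)
          (fun x => F (fun b => x (s.emb a j b)) * spin (x (s.nw a j)))| ≤ 12 * |e - e'| := by
    have h3 := sum_cw s L
    rw [hN] at h3
    rw [← sum_sub_distrib, show 12 * |e - e'| = ((2 : ℕ) : ℝ) * (6 * |e - e'|) by push_cast; ring,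
      ← h3, sum_mul]
    refine (abs_sum_le_sum_abs _ _).trans (sum_le_sum fun a _ => ?_)
    rw [← sum_sub_distrib, sum_mul]
    refine (abs_sum_le_sum_abs _ _).trans (sum_le_sum fun j _ => ?_)
    rw [← mul_sub, abs_mul, abs_of_nonneg (cw_nonneg s hM a j)]
    refine mul_le_mul_of_nonneg_left ((TE_lip w1 (s.graft a j) hM 0 (fun x => hp _ _) hs
      e e').trans_eq ?_) (cw_nonneg s hM a j)
    rw [Wt87.card_graft, hN]
    push_cast; ring
  rw [dS, dS, sub_sub_sub_comm]
  exact (abs_sub _ _).trans (by linarith)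

theorem even_quad {L : List (Lv Bool)} (hL : Fl L) (hM : Mono 0 L) (s : Sh)
    {F : (s.Lf → Bool) → ℝ} (hF : ∀ x, |F x| ≤ 1) (hN : Fintype.card s.Lf = 2)
    (he : ∀ x, F (fun a => !x a) = F x) (z : Bool → ℝ) :
    |TE (fun _ => 1) s L z F - TE (fun _ => 1) s L 0 F| ≤ 20 * |xs z| ^ 2 := by
  set g : ℝ → ℝ := fun e => TE (fun _ => 1) s L (0 + e • spin) F with hg
  have hd := hasDerivAt_TE w1 s L 0 spin F
  have ev : ∀ e, g (-e) = g e := fun e => by
    have := TE_flip hL s F e
    simp only [he] at this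
    simpa only [hg, zero_add] using this
  have h0 : dS (fun _ => 1) s L (0 + (0 : ℝ) • spin) spin F = 0 := by
    have h1 := hd 0
    have h2 : HasDerivAt (fun e => g (-e))
        (dS (fun _ => 1) s L (0 + (0 : ℝ) • spin) spin F * -1) 0 :=
      HasDerivAt.comp (0 : ℝ) (h₂ := g) (h := fun e : ℝ => -e) (by rw [neg_zero]; exact h1)
        (hasDerivAt_neg' 0)
    simp only [ev] at h2
    have := h1.unique h2
    linarith
  have key := Convex.norm_image_sub_le_of_norm_hasDerivWithin_le (f := g)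
    (s := Set.Icc (-|xs z|) |xs z|) (C := 20 * |xs z|) (fun e _ => (hd e).hasDerivWithinAt)
    (fun e he => by
      have := dS_lip hM s hF hN e 0
      rw [h0, sub_zero, sub_zero] at this
      exact this.trans (by linarith [abs_le.2 he])) (convex_Icc _ _)
    (x := 0) (y := xs z) ⟨by simp, abs_nonneg _⟩ (abs_le.1 le_rfl)
  simp only [hg, zero_add, zero_smul, sub_zero, Real.norm_eq_abs] at key
  rw [TE_xs s L F z]
  linarith [sq |xs z|]

/-! ### the ladder of the site -/

/-- `N_t = E_x m_t²` -/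
def N (L : List (Lv Bool)) (x t : ℕ) (z : Bool → ℝ) : ℝ := Nf (fun _ => 1) L x t z spin spin

variable {L : List (Lv Bool)} {x t t' y y' : ℕ}

theorem eg_N (L : List (Lv Bool)) (x t : ℕ) : Eg (N L x t) := eg_Nf w1 L x t spin spin

theorem N_top (L : List (Lv Bool)) (x : ℕ) (z : Bool → ℝ) : N L x (L.length + 1) z = 1 := by
  rw [N, Nf_leaf L (Nat.lt_succ_self _)]
  simp only [← sq, One15.spin_sq, Pf, mul_one, sum_P w1]

theorem N_pi2 (h : x ≤ t) (ht : t ≤ L.length) (z : Bool → ℝ) :
    N L x t z = pi2 (fun _ => 1) (L.drop x) (t - x) (fun a b => spin a * spin b) z := by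
  rw [N, Nf_le L ht, pi2, List.drop_drop, Nat.add_sub_cancel' h]
  simp only [qf_mul, Pf]

theorem N_TE (h : x ≤ t) (ht : t ≤ L.length) (z : Bool → ℝ) :
    N L x t z = TE (fun _ => 1) (Sh.two (t - x)) (L.drop x) z
      fun u => spin (u (Sh.twoL _)) * spin (u (Sh.twoR _)) := by
  have hne : Sh.twoL (t - x) ≠ Sh.twoR (t - x) := fun e => by
    have h1 := Wt87.shr_two (t - x) (t - x + 1)
    rw [← e, Wt87.shr_self] at h1
    omega
  rw [TE_pair w1 _ _ z hne fun a b => spin a * spin b, Wt87.shr_two, List.length_drop,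
    min_eq_left (by omega), N_pi2 h ht]

theorem abs_ss (a b : Bool) : |spin a * spin b| ≤ 1 := by
  rw [abs_mul, One15.abs_spin, One15.abs_spin, mul_one]

theorem abs_N (h : x ≤ t) (ht : t ≤ L.length) (z : Bool → ℝ) : |N L x t z| ≤ 1 := by
  rw [N_TE h ht]
  exact abs_TE_le w1 _ _ _ fun u => abs_ss _ _

theorem N_quad (hL : Fl L) (hM : Mono 0 L) (h : x ≤ t) (ht : t ≤ L.length) (z : Bool → ℝ) :
    |N L x t z - N L x t 0| ≤ 20 * |xs z| ^ 2 := by
  rw [N_TE h ht, N_TE h ht]
  exact even_quad (hL.drop x) (One15.mono_drop x hM) _ (fun u => abs_ss _ _) (Wt87.card_two _)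
    (fun u => by simp only [One15.spin_not, neg_mul_neg]) z

theorem N_self (hL : Fl L) (hM : Mono 0 L) (hx : x ≤ L.length) (z : Bool → ℝ) :
    0 ≤ N L x x z ∧ N L x x z ≤ 4 * |xs z| ^ 2 := by
  have h2 : Fintype.card Sh.one.Lf = 1 := Fintype.card_unit
  have h1 := abs_TE_odd (hL.drop x) (One15.mono_drop x hM) .one (k := fun _ => 1)
    (by rw [sum_const, card_univ, h2]; decide) z
  rw [TE_mo_one, if_neg (by decide), h2, Nat.cast_one, mul_one] at h1
  rw [N, Nf_self L hx, ← sq, ← sq_abs]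
  refine ⟨sq_nonneg _, ?_⟩
  nlinarith [abs_nonneg (Pf (fun _ => (1 : ℝ)) (L.drop x) z spin)]

theorem node_N (h : x ≤ t) (ht : t ≤ L.length) :
    node (fun _ => 1) L x (N L x t) 0 = pi2 (fun _ => 1) L t (fun a b => spin a * spin b) 0 := by
  rw [show N L x t = _ from funext (N_pi2 h ht), pi2, ← Sy41.node_tower L h]
  congr 1
  funext z
  rw [pi2, List.drop_drop, Nat.add_sub_cancel' h]

/-! ### the same-node factor -/

theorem quart {r : ℕ} {σ : SM r} (H : Um L.length σ) {a b a' b' : Fin r} (h1 : a ≠ a')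
    (h2 : a ≠ b') (h3 : b ≠ a') (h4 : b ≠ b') (e1 : σ a a' = x) (e2 : σ a b' = x)
    (e3 : σ b a' = x) (e4 : σ b b' = x) (q : ℝ) {F : (Fin r → Bool) → ℝ}
    (hF : ∀ u, F u = (spin (u a) * spin (u a') - q) * (spin (u b) * spin (u b') - q))
    (ht : t = if a = b then L.length + 1 else σ a b)
    (ht' : t' = if a' = b' then L.length + 1 else σ a' b') :
    TM (fun _ => 1) L 0 σ F = node (fun _ => 1) L x (fun z => N L x t z * N L x t' z) 0 +
      (q ^ 2 - 2 * q * pi2 (fun _ => 1) L x (fun a b => spin a * spin b) 0) := by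
  obtain ⟨s, e, -, he, rfl⟩ := H.lab
  have l1 : ∀ c d : Fin r, lev s L.length (e c) (e d) =
      if c = d then L.length + 1 else sm s e L.length c d := fun c d => by
    split_ifs with h
    · rw [h, lev_self]
    · exact lev_ne s _ fun e' => h (he e')
  have k1 := TE_branch w1 s L 0 (x := x) (a := e a) (b := e b) (a' := e a') (b' := e b')
    (by rintro _ (rfl | rfl) _ (rfl | rfl) h
        exacts [h1 (he h), h2 (he h), h3 (he h), h4 (he h)])
    (by rintro _ (rfl | rfl) _ (rfl | rfl)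
        exacts [e1, e2, e3, e4]) spin spin spin spin
  have k2 := TE_pair w1 s L 0 (fun h => h1 (he h)) fun a b => spin a * spin b
  have k3 := TE_pair w1 s L 0 (fun h => h4 (he h)) fun a b => spin a * spin b
  rw [l1, l1, ← ht, ← ht'] at k1
  rw [show s.shr (e a) (e a') L.length = x from e1] at k2
  rw [show s.shr (e b) (e b') L.length = x from e4] at k3
  have k4 : TM (fun _ => 1) L 0 (sm s e L.length) F =
      TM (fun _ => 1) L 0 (sm s e L.length)
          (fun u => spin (u a) * spin (u b) * (spin (u a') * spin (u b'))) -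
        q * TM (fun _ => 1) L 0 (sm s e L.length) (fun u => spin (u a) * spin (u a')) -
        q * TM (fun _ => 1) L 0 (sm s e L.length) (fun u => spin (u b) * spin (u b')) +
        TM (fun _ => 1) L 0 (sm s e L.length) fun _ => q ^ 2 := by
    rw [← Nu87.TM_mul, ← Nu87.TM_mul, ← Nu87.TM_sub, ← Nu87.TM_sub, ← Nu87.TM_add]
    congr 1
    funext u
    rw [hF]; ring
  rw [k4, Nu87.TM_sm w1 s L 0 he, Nu87.TM_sm w1 s L 0 he, Nu87.TM_sm w1 s L 0 he,
    Nu87.TM_sm w1 s L 0 he, k1, k2, k3, Law.TE_const w1]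
  simp only [N]
  ring

theorem um3 {K : ℕ} (hx : x ≤ K) (h : x ≤ t) (ht : t ≤ K) : Um K (m3 K x t x) := by
  refine ⟨fun a => ?_, fun a b => ?_, fun a b c => ?_⟩
  · fin_cases a <;> rfl
  · fin_cases a <;> fin_cases b <;> rfl
  · fin_cases a <;> fin_cases b <;> fin_cases c <;> simp [m3] <;> omega

theorem um4 {K : ℕ} (hx : x ≤ K) (h : x ≤ t) (ht : t ≤ K) (h' : x ≤ t') (ht' : t' ≤ K) :
    Um K (m4 K x x t x x t') := by
  refine ⟨fun a => ?_, fun a b => ?_, fun a b c => ?_⟩
  · fin_cases a <;> rfl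
  · fin_cases a <;> fin_cases b <;> rfl
  · fin_cases a <;> fin_cases b <;> fin_cases c <;> simp [m4] <;> omega

theorem tw01 {K : ℕ} (hx : x ≤ K) : tw K x 0 1 = x := min_eq_left hx

theorem um2 (K x : ℕ) : Um K (tw K x) := by
  have e : tw K x = ![![K, min x K], ![min x K, K]] := by
    funext a b; fin_cases a <;> fin_cases b <;> rfl
  rw [e]
  refine ⟨fun a => ?_, fun a b => ?_, fun a b c => ?_⟩
  · fin_cases a <;> rfl
  · fin_cases a <;> fin_cases b <;> rfl
  · fin_cases a <;> fin_cases b <;> fin_cases c <;> simp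

/-- **the same-node factor** -/
theorem sN_eq (q : ℕ → ℝ) (hx : x ≤ L.length) (h : x ≤ t) (ht : t ≤ L.length + 1) (h' : x ≤ t')
    (ht' : t' ≤ L.length + 1) :
    (ee (fun _ => 1) L 0 (eK q) (eK q)).sN L.length x t t' =
      node (fun _ => 1) L x (fun z => N L x t z * N L x t' z) 0 +
        (q x ^ 2 - 2 * q x * pi2 (fun _ => 1) L x (fun a b => spin a * spin b) 0) := by
  unfold Tw.sN
  split_ifs with c1 c2 c2
  · exact quart (x := x) (t := t) (t' := t') (um2 _ x) (a := 0) (b := 0) (a' := 1) (b' := 1) (by decide) (by decide) (by decide)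
      (by decide) (tw01 hx) (tw01 hx) (tw01 hx) (tw01 hx) (q x)
      (fun u => by
        show (spin (u 0) * spin (u 1) - q (tw L.length x 0 1)) *
          (spin (u 0) * spin (u 1) - q (tw L.length x 0 1)) = _
        rw [tw01 hx]) (by rw [if_pos rfl, c1]) (by rw [if_pos rfl, c2])
  · exact quart (x := x) (t := t) (t' := t') (um3 hx h' (by omega)) (a := 1) (b := 1) (a' := 2) (b' := 0) (by decide)
      (by decide) (by decide) (by decide) rfl rfl rfl rfl (q x)
      (fun u => by
        show (spin (u 1) * spin (u 2) - q x) * (spin (u 0) * spin (u 1) - q x) = _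
        ring) (by rw [if_pos rfl, c1]) (by rw [if_neg (by decide)]; rfl)
  · refine (quart (x := x) (t := t') (t' := t) (um3 hx h (by omega)) (a := 1) (b := 1) (a' := 2) (b' := 0)
      (by decide) (by decide) (by decide) (by decide) rfl rfl rfl rfl (q x)
      (fun u => by
        show (spin (u 1) * spin (u 2) - q x) * (spin (u 0) * spin (u 1) - q x) = _
        ring) (by rw [if_pos rfl, c2]) (by rw [if_neg (by decide)]; rfl)).trans ?_
    rw [show (fun z => N L x t' z * N L x t z) = fun z => N L x t z * N L x t' z from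
      funext fun z => mul_comm _ _]
  · exact quart (x := x) (t := t) (t' := t') (um4 hx h (by omega) h' (by omega)) (a := 2) (b := 0) (a' := 3) (b' := 1)
      (by decide) (by decide) (by decide) (by decide) rfl rfl rfl rfl (q x) (fun u => rfl)
      (by rw [if_neg (by decide)]; rfl) (by rw [if_neg (by decide)]; rfl)

/-- signed sum over the positions `≥ y` -/
def X (L : List (Lv Bool)) (x y : ℕ) (z : Bool → ℝ) : ℝ :=
  ∑ t ∈ Ico y (L.length + 2), wL L x t * N L x t z

/-- its total weight -/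
def W (L : List (Lv Bool)) (x y : ℕ) : ℝ := ∑ t ∈ Ico y (L.length + 2), wL L x t

theorem eg_X (L : List (Lv Bool)) (x y : ℕ) : Eg (X L x y) :=
  Eg.sum _ fun t _ => (eg_N L x t).const_mul _

theorem Gs_eq (q : ℕ → ℝ) (hx : x ≤ L.length) (h : x ≤ y) (h' : x ≤ y') :
    Gs L (ee (fun _ => 1) L 0 (eK q) (eK q)) x y y' =
      node (fun _ => 1) L x (fun z => X L x y z * X L x y' z) 0 + W L x y * W L x y' *
        (q x ^ 2 - 2 * q x * pi2 (fun _ => 1) L x (fun a b => spin a * spin b) 0) := by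
  have e1 : (fun z => X L x y z * X L x y' z) = fun z => ∑ t ∈ Ico y (L.length + 2),
      ∑ t' ∈ Ico y' (L.length + 2), wL L x t * wL L x t' * (N L x t z * N L x t' z) := by
    funext z
    rw [X, X, sum_mul_sum]
    exact sum_congr rfl fun _ _ => sum_congr rfl fun _ _ => by ring
  have eg : ∀ t t', Eg fun z => wL L x t * wL L x t' * (N L x t z * N L x t' z) := fun t t' =>
    ((eg_N L x t).mul (eg_N L x t')).const_mul _
  rw [e1, node_sum w1 _ fun t _ => Eg.sum _ fun t' _ => eg t t', W, W, sum_mul_sum, sum_mul, Gs,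
    Rect52.G2]
  beta_reduce
  rw [← sum_add_distrib]
  refine sum_congr rfl fun t ht => ?_
  rw [node_sum w1 _ fun t' _ => eg t t', sum_mul]
  beta_reduce
  rw [← sum_add_distrib]
  refine sum_congr rfl fun t' ht' => ?_
  rw [mem_Ico] at ht ht'
  rw [sN_eq q hx (by omega) (by omega) (by omega) (by omega), node_const_mul]
  ring

theorem sum_up (h : x < y) (hy : y ≤ L.length + 1) (g : ℕ → ℝ) :
    ∑ t ∈ Ico y (L.length + 2), wL L x t * g t =
      g (L.length + 1) - ∑ t ∈ Icc y L.length, dm L 0 t * g t := by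
  rw [sum_Ico_succ_top hy, wL, if_pos rfl, one_mul, add_comm, sub_eq_add_neg, ← sum_neg_distrib,
    Finset.Ico_add_one_right_eq_Icc]
  congr 1
  refine sum_congr rfl fun t ht => ?_
  rw [mem_Icc] at ht
  rw [wL, if_neg (by omega), if_neg (by omega), neg_mul]

theorem sum_bot (hx : x ≤ L.length) (g : ℕ → ℝ) :
    ∑ t ∈ Ico x (L.length + 2), wL L x t * g t =
      ∑ t ∈ Ico (x + 1) (L.length + 2), wL L x t * g t - ex L x * g x := by
  rw [sum_eq_sum_Ico_succ_bot (by omega), wL, if_neg (by omega), if_pos rfl]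
  ring

theorem Icc_Ioc (x K : ℕ) : Icc (x + 1) K = Ioc x K := by
  ext k; simp only [mem_Icc, mem_Ioc]; omega

theorem sum_dm_up (hx : x ≤ L.length) : ∑ t ∈ Icc (x + 1) L.length, dm L 0 t = 1 - ex L x := by
  have h1 := Wt87.sum_dm_drop L hx fun _ => 1
  have h2 := sum_dm (L.drop x) 0 (L.drop x).length
  rw [ex_length, List.length_drop] at h2
  simp only [mul_one] at h1
  rw [Icc_Ioc]
  linarith

theorem sum_dm_Icc (hM : Mono 0 L) (y : ℕ) :
    0 ≤ ∑ t ∈ Icc y L.length, dm L 0 t ∧ ∑ t ∈ Icc y L.length, dm L 0 t ≤ 1 := by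
  have h2 := sum_dm L 0 L.length
  rw [ex_length, sub_zero] at h2
  refine ⟨sum_nonneg fun t _ => dm_nonneg hM t, h2 ▸ sum_le_sum_of_subset_of_nonneg
    (fun t ht => ?_) fun t _ _ => dm_nonneg hM t⟩
  rw [mem_Icc] at ht
  rw [mem_range]
  omega

theorem X_up (h : x < y) (hy : y ≤ L.length + 1) (z : Bool → ℝ) :
    X L x y z = 1 - ∑ t ∈ Icc y L.length, dm L 0 t * N L x t z := by
  rw [X, sum_up h hy, N_top]

theorem X_bot (hx : x ≤ L.length) (z : Bool → ℝ) :
    X L x x z = X L x (x + 1) z - ex L x * N L x x z := sum_bot hx _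

theorem W_up (h : x < y) (hy : y ≤ L.length + 1) :
    W L x y = 1 - ∑ t ∈ Icc y L.length, dm L 0 t := by
  simpa only [mul_one, W] using sum_up h hy fun _ => 1

theorem W_bot (hx : x ≤ L.length) : W L x x = 0 := by
  have h1 := sum_bot hx fun _ => 1
  have h2 := W_up (L := L) (Nat.lt_succ_self x) (by omega)
  simp only [mul_one] at h1
  rw [sum_dm_up hx, W] at h2
  rw [W, h1, h2]
  ring

theorem X_Hb (hx : x ≤ L.length) (z : Bool → ℝ) :
    X L x x z = Hb (fun _ => 1) (L.drop x) z spin spin := by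
  have h1 := Hb_eq_sum w1 (L.drop x) 0 z spin spin
  have h2 := Wt87.sum_dm_drop L hx fun t => N L x t z
  have h3 : Pf (fun _ => (1 : ℝ)) (L.drop x) z (fun b => spin b * spin b) = 1 := by
    simp only [← sq, One15.spin_sq, Pf, mul_one, sum_P w1]
  rw [zero_mul, add_zero, h3, List.length_drop, sum_congr rfl fun i hi => by
    rw [show pi2 (fun _ => 1) (L.drop x) i (fun a b => spin a * spin b) z = N L x (i + x) z from by
      rw [N_pi2 (by omega) (by have := mem_range.1 hi; omega), Nat.add_sub_cancel]], h2] at h1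
  rw [X_bot hx, X_up (Nat.lt_succ_self x) (by omega), Icc_Ioc, h1]
  ring

theorem node_X (h : x < y) (hy : y ≤ L.length + 1) :
    node (fun _ => 1) L x (X L x y) 0 = chi L y := by
  have eg : ∀ t, Eg fun z => dm L 0 t * N L x t z := fun t => (eg_N L x t).const_mul _
  rw [show X L x y = _ from funext (X_up h hy), node_sub w1 (Eg.const _) (Eg.sum _ fun t _ => eg t),
    node_const w1, node_sum w1 _ fun t _ => eg t, chi]
  beta_reduce
  congr 1
  refine sum_congr rfl fun t ht => ?_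
  rw [mem_Icc] at ht
  rw [node_const_mul]
  beta_reduce
  rw [node_N (by omega) ht.2]
  congr 2
  funext a b
  simp only [eK, Pi.zero_apply, sub_zero]

theorem abs_X (hM : Mono 0 L) (h : x < y) (hy : y ≤ L.length + 1) (z : Bool → ℝ) :
    |X L x y z| ≤ 2 := by
  have h1 : |∑ t ∈ Icc y L.length, dm L 0 t * N L x t z| ≤ 1 := by
    refine (abs_sum_le_sum_abs _ _).trans ((sum_le_sum fun t ht => ?_).trans (sum_dm_Icc hM y).2)
    rw [mem_Icc] at ht
    rw [abs_mul, abs_of_nonneg (dm_nonneg hM t)]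
    exact mul_le_of_le_one_right (dm_nonneg hM t) (abs_N (by omega) ht.2 z)
  rw [X_up h hy]
  exact (abs_sub _ _).trans (by rw [abs_one]; linarith)

theorem X_quad (hL : Fl L) (hM : Mono 0 L) (h : x < y) (hy : y ≤ L.length + 1) (z : Bool → ℝ) :
    |X L x y z - X L x y 0| ≤ 20 * |xs z| ^ 2 := by
  rw [X_up h hy, X_up h hy, sub_sub_sub_cancel_left, abs_sub_comm, ← sum_sub_distrib]
  refine (abs_sum_le_sum_abs _ _).trans ((sum_le_sum (g := fun t => dm L 0 t * (20 * |xs z| ^ 2))
    fun t ht => ?_).trans ?_)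
  · rw [mem_Icc] at ht
    rw [← mul_sub, abs_mul, abs_of_nonneg (dm_nonneg hM t)]
    exact mul_le_mul_of_nonneg_left (N_quad hL hM (by omega) ht.2 z) (dm_nonneg hM t)
  · rw [← sum_mul]
    exact mul_le_of_le_one_left (by positivity) (sum_dm_Icc hM y).2

/-! ### moments and covariances -/

theorem mom (H : R1 L) (hM : Mono 0 L) (p : ℕ) {σ : ℝ} (hσ : tm L x ≤ σ) :
    node (fun _ => 1) L x (fun z => |xs z| ^ p) 0 ≤
      2 * p.factorial * exp (1 / 2 + √σ) * √σ ^ p := by
  have h0 : 0 ≤ tm L x := by simpa [tm, cacc] using H.tm_mono (Nat.zero_le x)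
  rw [tm_eq H.rk] at hσ h0
  have hc : Continuous fun u : ℝ => 2 * (p.factorial : ℝ) * exp (1 / 2 + √u) * √u ^ p := by
    fun_prop
  refine ge_of_tendsto (x := 𝓝[>] σ) (hc.continuousAt.tendsto.mono_left nhdsWithin_le_nhds)
    (eventually_nhdsWithin_of_forall fun u hu => ?_)
  exact node_pow H.rk hM x p (by linarith [Set.mem_Ioi.1 hu]) (by linarith [Set.mem_Ioi.1 hu])

theorem cov_le {F G : (Bool → ℝ) → ℝ} (hF : Eg F) (hG : Eg G) {a b B₂ B₄ : ℝ}
    (h1 : ∀ z, |F z - a| ≤ 20 * |xs z| ^ 2) (h2 : ∀ z, |G z - b| ≤ 20 * |xs z| ^ 2)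
    (m2 : node (fun _ => 1) L x (fun z => |xs z| ^ 2) 0 ≤ B₂)
    (m4 : node (fun _ => 1) L x (fun z => |xs z| ^ 4) 0 ≤ B₄) :
    |node (fun _ => 1) L x (fun z => F z * G z) 0 -
      node (fun _ => 1) L x F 0 * node (fun _ => 1) L x G 0| ≤ 400 * (B₄ + B₂ ^ 2) := by
  have eF := hF.sub (Eg.const a)
  have eG := hG.sub (Eg.const b)
  have k1 := abs_node_le w1 eF ((lg_xs.eg.abs.pow 2).const_mul 20) h1 L x 0
  have k2 := abs_node_le w1 eG ((lg_xs.eg.abs.pow 2).const_mul 20) h2 L x 0
  have k3 := abs_node_le w1 (eF.mul eG) ((lg_xs.eg.abs.pow 4).const_mul 400) (fun z => by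
    rw [abs_mul]
    exact (mul_le_mul (h1 z) (h2 z) (abs_nonneg _) (by positivity)).trans_eq (by ring)) L x 0
  have k4 : (fun z => (F z - a) * (G z - b)) = fun z => F z * G z - b * F z - a * G z + a * b := by
    funext z; ring
  rw [k4, node_add w1 (((hF.mul hG).sub (hF.const_mul b)).sub (hG.const_mul a)) (Eg.const _),
    node_sub w1 ((hF.mul hG).sub (hF.const_mul b)) (hG.const_mul a),
    node_sub w1 (hF.mul hG) (hF.const_mul b), node_const w1, node_const_mul, node_const_mul,
    node_const_mul] at k3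
  rw [node_sub w1 hF (Eg.const a), node_const w1, node_const_mul] at k1
  rw [node_sub w1 hG (Eg.const b), node_const w1, node_const_mul] at k2
  beta_reduce at k1 k2 k3
  have k5 := mul_le_mul (k1.trans (mul_le_mul_of_nonneg_left m2 (by norm_num)))
    (k2.trans (mul_le_mul_of_nonneg_left m2 (by norm_num))) (abs_nonneg _)
    ((abs_nonneg _).trans (k1.trans (mul_le_mul_of_nonneg_left m2 (by norm_num))))
  rw [← abs_mul] at k5
  have k6 := abs_le.1 k3
  have k7 := abs_le.1 k5
  exact abs_le.2 ⟨by nlinarith, by nlinarith⟩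

/-- **(E)** -/
theorem _root_.Crest.Agent.T156.Cas.Q75.gsS : GsS := by
  intro T₀
  set E := exp (1 / 2 + √T₀) with hE
  have E1 : 1 ≤ E := one_le_exp (by positivity)
  refine ⟨30000 * E ^ 2, by nlinarith, fun L q x σ H hM hx => ⟨?_, fun h1 h2 h3 => ?_⟩⟩
  · rw [Gs_eq q hx le_rfl le_rfl, W_bot hx, zero_mul, zero_mul, add_zero]
    simp only [X_Hb hx, sq]
  have hL := fl_of H.rk
  have s0 : 0 ≤ σ := (abs_nonneg _).trans h3
  have eE : exp (1 / 2 + √σ) ≤ E := by rw [hE]; gcongr
  have m2 : node (fun _ => 1) L x (fun z => |xs z| ^ 2) 0 ≤ 4 * E * σ := by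
    refine (mom H hM 2 h1).trans ?_
    rw [sq_sqrt s0, show ((2 : ℕ).factorial : ℝ) = 2 by norm_num [Nat.factorial]]
    nlinarith [mul_le_mul_of_nonneg_right eE s0]
  have m4 : node (fun _ => 1) L x (fun z => |xs z| ^ 4) 0 ≤ 48 * E * σ ^ 2 := by
    refine (mom H hM 4 h1).trans ?_
    rw [show √σ ^ 4 = σ ^ 2 by rw [show 4 = 2 * 2 from rfl, pow_mul, sq_sqrt s0],
      show ((4 : ℕ).factorial : ℝ) = 24 by norm_num [Nat.factorial]]
    nlinarith [mul_le_mul_of_nonneg_right eE (sq_nonneg σ)]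
  have eq2 := (lg_xs.eg.abs.pow 2).const_mul 4
  have eq8 := (lg_xs.eg.abs.pow 2).const_mul 8
  have hs2 : 0 ≤ σ ^ 2 := sq_nonneg σ
  have hE2 : E * σ ^ 2 ≤ E ^ 2 * σ ^ 2 := mul_le_mul_of_nonneg_right (by nlinarith) hs2
  have hE3 : σ ^ 2 ≤ E * σ ^ 2 := le_mul_of_one_le_left hs2 E1
  have cv : ∀ y y', x < y → y ≤ L.length + 1 → x < y' → y' ≤ L.length + 1 →
      |node (fun _ => 1) L x (fun z => X L x y z * X L x y' z) 0 - chi L y * chi L y'| ≤
        25600 * (E ^ 2 * σ ^ 2) := fun y y' a1 a2 a3 a4 => by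
    have := cov_le (eg_X L x y) (eg_X L x y') (X_quad hL hM a1 a2) (X_quad hL hM a3 a4) m2 m4
    rw [node_X a1 a2, node_X a3 a4] at this
    refine this.trans ?_
    nlinarith
  have x0 : 0 ≤ ex L x := Nu87.ex_nonneg hM x
  have mix : ∀ y, x < y → y ≤ L.length + 1 →
      |node (fun _ => 1) L x (fun z => X L x y z * X L x x z) 0 - chi L y * chi L (x + 1)| ≤
        30000 * E ^ 2 * (σ ^ 2 + ex L x * σ) := fun y a1 a2 => by
    have k1 := cv y (x + 1) a1 a2 (Nat.lt_succ_self x) (by omega)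
    have k2 := abs_node_le w1 ((eg_X L x y).mul (eg_N L x x)) eq8 (fun z => by
      obtain ⟨n1, n2⟩ := N_self hL hM hx z
      rw [abs_mul, abs_of_nonneg n1]
      exact (mul_le_mul (abs_X hM a1 a2 z) n2 n1 zero_le_two).trans_eq (by ring)) L x 0
    have k3 : (fun z => X L x y z * X L x x z) = fun z =>
        X L x y z * X L x (x + 1) z - ex L x * (X L x y z * N L x x z) := by
      funext z; rw [X_bot hx]; ring
    rw [node_const_mul] at k2
    rw [k3, node_sub w1 ((eg_X L x y).mul (eg_X L x _)) (((eg_X L x y).mul (eg_N L x x)).const_mul _),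
      node_const_mul]
    beta_reduce at k2 ⊢
    have k4 : |ex L x * node (fun _ => 1) L x (fun z => X L x y z * N L x x z) 0| ≤
        32 * (E * (ex L x * σ)) := by
      rw [abs_mul, abs_of_nonneg x0]
      exact (mul_le_mul_of_nonneg_left (k2.trans (mul_le_mul_of_nonneg_left m2 (by norm_num)))
        x0).trans_eq (by ring)
    have k5 : E * (ex L x * σ) ≤ E ^ 2 * (ex L x * σ) :=
      mul_le_mul_of_nonneg_right (by nlinarith) (mul_nonneg x0 s0)
    have k6 : 0 ≤ E * (ex L x * σ) := by positivity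
    rw [sub_right_comm]
    refine (abs_sub _ _).trans ?_
    nlinarith
  intro y a1 a2
  refine ⟨?_, ?_, fun y' a3 a4 => ?_⟩
  · rw [Gs_eq q hx a1.le le_rfl, W_bot hx, mul_zero, zero_mul, add_zero]
    exact mix y a1 a2
  · rw [Gs_eq q hx le_rfl a1.le, W_bot hx, zero_mul, zero_mul, add_zero, mul_comm (chi L _)]
    simpa only [mul_comm (X L x x _)] using mix y a1 a2
  · have k1 := cv y y' a1 a2 a3 a4
    have k2 := abs_node_le w1 (eg_N L x x) eq2 (fun z => by
      obtain ⟨n1, n2⟩ := N_self hL hM hx z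
      rwa [abs_of_nonneg n1]) L x 0
    rw [node_N le_rfl hx, node_const_mul] at k2
    beta_reduce at k2
    set ρ := pi2 (fun _ => 1) L x (fun a b => Crest.ProbabilityR.SpinGlassDynamics.spin a *
      Crest.ProbabilityR.SpinGlassDynamics.spin b) 0 with hρ
    have k3 : |ρ| ≤ 16 * E * σ := by linarith
    have w1' : |W L x y| ≤ 1 := by
      rw [W_up a1 a2]; exact abs_le.2 ⟨by linarith [(sum_dm_Icc hM y).2],
        by linarith [(sum_dm_Icc hM y).1]⟩
    have w2' : |W L x y'| ≤ 1 := by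
      rw [W_up a3 a4]; exact abs_le.2 ⟨by linarith [(sum_dm_Icc hM y').2],
        by linarith [(sum_dm_Icc hM y').1]⟩
    have k4 : |q x ^ 2 - 2 * q x * ρ| ≤ σ ^ 2 + 32 * (E * σ ^ 2) := by
      refine (abs_sub _ _).trans ?_
      rw [abs_pow, abs_mul, abs_mul, abs_two]
      have := mul_le_mul h3 k3 (abs_nonneg _) s0
      have := pow_le_pow_left₀ (abs_nonneg _) h3 2
      nlinarith
    have k5 : |W L x y * W L x y' * (q x ^ 2 - 2 * q x * ρ)| ≤ σ ^ 2 + 32 * (E * σ ^ 2) := by
      rw [abs_mul, abs_mul]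
      exact (mul_le_of_le_one_left (abs_nonneg _)
        (mul_le_one₀ w1' (abs_nonneg _) w2')).trans k4
    rw [Gs_eq q hx a1.le a3.le, add_sub_right_comm]
    refine (abs_add_le _ _).trans ?_
    nlinarith

end Crest.Agent.T156.Cas.Q75.Gs14

end
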