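import Crest.Agent.T156.Q2A_75
import Crest.Agent.T156.Q2Gs_14
import Crest.Agent.T156.Eg_33

/-!
# Row 156 (helper10): the same-node part of the two-edge term
-/

set_option autoImplicit false
set_option linter.all false

noncomputable section

namespace Crest.Agent.T156.Cas.Q75.A10

open Finset Real
open Crest.Agent.T157.E Crest.Agent.T157.Casc Crest.Agent.T157.SL
open Crest.ProbabilityR.SpinGlassDynamics (spin)
open Nu87 One15 Ker15 Lad79

/-! ### calculus of `Tw` -/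

section tw
variable {Θ : Type} {L : List (Lv Θ)} {T T' T'' c B : Tw} {K x t t' : ℕ}

theorem Ful_congr (H : T.Eqv T' L.length) : Ful L T = Ful L T' := by
  rw [Ful, Ful, avm_congr L 1 H.1, avm_congr L 2 H.2.1, avm_congr L 3 H.2.2]

theorem Ful_sub (h2 : ∀ σ, Rz L.length σ → T.f2 σ - T'.f2 σ = T''.f2 σ)
    (h3 : ∀ σ, Rz L.length σ → T.f3 σ - T'.f3 σ = T''.f3 σ)
    (h4 : ∀ σ, Rz L.length σ → T.f4 σ - T'.f4 σ = T''.f4 σ) : Ful L T - Ful L T' = Ful L T'' := by
  rw [Ful, Ful, Ful, ← avm_congr L 1 h2, ← avm_congr L 2 h3, ← avm_congr L 3 h4, avm_sub, avm_sub,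
    avm_sub]
  ring

theorem Sy_mul (H : T.Sy K) (H' : T'.Sy K) : (T.mul T').Sy K := fun σ hσ => by
  simp only [Tw.mul, (H σ hσ).1, (H σ hσ).2, (H' σ hσ).1, (H' σ hσ).2, and_self]

theorem Sy_wt (φ ψ : ℕ → ℝ) : (wt φ ψ).Sy K := fun σ hσ =>
  ⟨show φ (σ 2 3) * ψ (σ 1 0) = φ (σ 2 3) * ψ (σ 0 1) by rw [hσ.comm 1 0],
    show φ (σ 3 2) * ψ (σ 0 1) = φ (σ 2 3) * ψ (σ 0 1) by rw [hσ.comm 3 2]⟩

theorem sN_wt (φ ψ : ℕ → ℝ) (hx : x ≤ K) : (wt φ ψ).sN K x t t' = φ x * ψ x := by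
  unfold Tw.sN
  split_ifs
  · show φ (tw K x 0 1) * ψ (tw K x 0 1) = _
    rw [tw_01 hx]
  all_goals rfl

theorem lo_wt (φ ψ : ℕ → ℝ) (y : ℕ) : (wt φ ψ).lo K y x t = φ x * ψ y := by
  unfold Tw.lo
  split_ifs <;> rfl

theorem lo_wt_tr (φ ψ : ℕ → ℝ) (y : ℕ) : ((wt φ ψ).mul c).tr.lo K y x t =
    φ y * ψ x * c.tr.lo K y x t := by
  simp only [tr_lo]
  split_ifs <;> rfl

theorem SN_wt (φ ψ : ℕ → ℝ) (hx : x ≤ L.length) :
    SN L ((wt φ ψ).mul c) x = φ x * ψ x * SN L c x := by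
  simp only [SN, Lx_eq L hx, sN_mul, sN_wt φ ψ hx, mul_sum]
  exact sum_congr rfl fun _ _ => sum_congr rfl fun _ _ => by ring

theorem mul_assoc' (T T' T'' : Tw) : (T.mul T').mul T'' = T.mul (T'.mul T'') := by
  simp only [Tw.mul, mul_assoc]

theorem ex_nn (hM : Mono 0 L) (x : ℕ) : 0 ≤ ex L x := by
  have := sum_dm L 0 x
  rw [sub_zero] at this
  rw [← this]
  exact sum_nonneg fun j _ => dm_nonneg hM j

theorem abs_wL (hM : Mono 0 L) (hx : x ≤ L.length) (g : ℕ → ℝ) :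
    ∑ t ∈ Ico x (L.length + 2), |wL L x t| * g t =
      g (L.length + 1) + ex L x * g x + ∑ t ∈ Ioc x L.length, dm L 0 t * g t := by
  rw [sum_Ico_succ_top (by omega), sum_eq_sum_Ico_succ_bot (by omega),
    Finset.Ico_add_one_add_one_eq_Ioc, wL, wL, if_neg (by omega), if_pos rfl, if_pos rfl,
    sum_congr rfl (f := fun t => |wL L x t| * g t) (g := fun t => dm L 0 t * g t) fun t ht => by
      have := mem_Ioc.1 ht
      rw [wL, if_neg (by omega), if_neg (by omega), abs_neg, abs_of_nonneg (dm_nonneg hM t)],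
    abs_neg, abs_of_nonneg (ex_nn hM x), abs_one]
  ring

theorem sum_dm_Ioc (hx : x ≤ L.length) : ∑ t ∈ Ioc x L.length, dm L 0 t = 1 - ex L x := by
  have h1 := sum_dm L 0 L.length
  have h2 := sum_dm L 0 x
  rw [ex_length] at h1
  rw [← Finset.Ico_add_one_add_one_eq_Ioc, sum_Ico_eq_sub _ (by omega), h1, h2]
  ring

theorem sum_wL (hM : Mono 0 L) (hx : x ≤ L.length) :
    ∑ t ∈ Ico x (L.length + 2), |wL L x t| = 2 := by
  have := abs_wL hM hx fun _ => 1
  simp only [mul_one, sum_dm_Ioc hx] at this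
  rw [this]; ring

/-- **same node**: the base factor is read at the leaves -/
theorem SN_diff (hM : Mono 0 L) (hx : x ≤ L.length) {a v : ℕ → ℝ}
    (hc : ∀ t t', x ≤ t → t ≤ L.length + 1 → x ≤ t' → t' ≤ L.length + 1 →
      |c.sN L.length x t t'| * v t ≤ a t ∧ |c.sN L.length x t t'| * v t' ≤ a t')
    (hB : ∀ t t', x ≤ t → t ≤ L.length + 1 → x ≤ t' → t' ≤ L.length + 1 →
      |B.sN L.length x t t' - B.sN L.length x (L.length + 1) (L.length + 1)| ≤ v t + v t') :
    |SN L (c.mul B) x - SN L c x * B.sN L.length x (L.length + 1) (L.length + 1)| ≤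
      4 * (a (L.length + 1) + ex L x * a x + ∑ t ∈ Ioc x L.length, dm L 0 t * a t) := by
  have e : SN L (c.mul B) x - SN L c x * B.sN L.length x (L.length + 1) (L.length + 1) =
      ∑ t ∈ Ico x (L.length + 2), ∑ t' ∈ Ico x (L.length + 2), wL L x t * wL L x t' *
        (c.sN L.length x t t' *
          (B.sN L.length x t t' - B.sN L.length x (L.length + 1) (L.length + 1))) := by
    simp only [SN, Lx_eq L hx, sN_mul, mul_sum, sum_mul, ← sum_sub_distrib]
    exact sum_congr rfl fun _ _ => sum_congr rfl fun _ _ => by ring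
  rw [e, ← abs_wL hM hx]
  refine (abs_sum_le_sum_abs _ _).trans ((sum_le_sum (g := fun t => ∑ t' ∈ Ico x (L.length + 2),
    (|wL L x t| * a t * |wL L x t'| + |wL L x t| * (|wL L x t'| * a t'))) fun t ht =>
      (abs_sum_le_sum_abs _ _).trans (sum_le_sum fun t' ht' => ?_)).trans_eq ?_)
  · have m := mem_Ico.1 ht
    have m' := mem_Ico.1 ht'
    have h1 := hc t t' m.1 (by omega) m'.1 (by omega)
    have h2 := mul_le_mul_of_nonneg_left (hB t t' m.1 (by omega) m'.1 (by omega))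
      (abs_nonneg (c.sN L.length x t t'))
    rw [abs_mul, abs_mul, abs_mul]
    have h3 := mul_le_mul_of_nonneg_left (h2.trans (show _ ≤ a t + a t' by linarith [h1.1, h1.2]))
      (mul_nonneg (abs_nonneg (wL L x t)) (abs_nonneg (wL L x t')))
    linarith
  · simp only [sum_add_distrib, ← mul_sum, ← sum_mul, sum_wL hM hx]
    ring

theorem abs_Lg (hM : Mono 0 L) (hx : x ≤ L.length) {g : ℕ → ℝ} {b : ℝ}
    (h : ∀ t, x ≤ t → t ≤ L.length + 1 → |g t| ≤ b) : |Lg L x g| ≤ 2 * b ∧ |Lx L x g| ≤ 2 * b := by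
  have b0 : 0 ≤ b := (abs_nonneg _).trans (h x le_rfl (by omega))
  have h1 := h _ (by omega) le_rfl
  have h2 : |∑ t ∈ Ioc x L.length, dm L 0 t * g t| ≤ (1 - ex L x) * b := by
    rw [← sum_dm_Ioc hx, sum_mul]
    refine (abs_sum_le_sum_abs _ _).trans (sum_le_sum fun t ht => ?_)
    have := mem_Ioc.1 ht
    rw [abs_mul, abs_of_nonneg (dm_nonneg hM t)]
    exact mul_le_mul_of_nonneg_left (h t this.1.le (by omega)) (dm_nonneg hM t)
  have h3 : |ex L x * g x| ≤ ex L x * b := by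
    rw [abs_mul, abs_of_nonneg (ex_nn hM x)]
    exact mul_le_mul_of_nonneg_left (h x le_rfl (by omega)) (ex_nn hM x)
  have h4 := mul_nonneg (ex_nn hM x) b0
  rw [Lx, Lg]
  rw [abs_le] at h1 h2 h3
  constructor <;> rw [abs_le] <;> constructor <;> linarith [h1.1, h1.2, h2.1, h2.2, h3.1, h3.2]

/-- the indicator of one level -/
def ind (t j : ℕ) : ℝ := if j = t then 1 else 0

/-- both edges at one level: the non-local part has the weight `dm ^ 2` -/
theorem NL_ind (hM : Mono 0 L) (ht : t ≤ L.length) {b : ℝ}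
    (h3 : ∀ σ, Rz L.length σ → |c.f3 σ| ≤ b) (h4 : ∀ σ, Rz L.length σ → |c.f4 σ| ≤ b) :
    |NL L ((wt (ind t) (ind t)).mul c)| ≤ 11 * b * dm L 0 t ^ 2 := by
  set T := (wt (ind t) (ind t)).mul c with hT
  have d0 := dm_nonneg hM t
  have z1 : ∀ y x u, (x ≠ t ∨ y ≠ t) → T.lo L.length y x u = 0 := fun y x u h => by
    rw [hT, lo_mul, lo_wt]
    rcases h with h | h <;> simp [ind, h]
  have z2 : ∀ y x u, y ≠ x → T.tr.lo L.length y x u = 0 := fun y x u h => by
    rw [hT, lo_wt_tr]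
    by_cases h' : y = t
    · have : x ≠ t := fun e => h (h'.trans e.symm)
      simp [ind, this]
    · simp [ind, h']
  have z3 : ∀ z x k, T.off L.length z x k = ind t x * ind t k * c.off L.length z x k :=
    fun _ _ _ => rfl
  have l1 : ∀ y x, (x ≠ t ∨ y ≠ t) → LO L T y x = 0 := fun y x h => by
    simp only [LO, cP, Lx, Lg, z1 y x _ h]; simp
  have l2 : ∀ y x, y ≠ x → LO L T.tr y x = 0 := fun y x h => by
    simp only [LO, cP, Lx, Lg, z2 y x _ h]; simp
  have n0 : ∀ x, x ≠ t → NLx L T x = 0 := fun x h => by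
    rw [NLx, sum_eq_zero fun y _ => by rw [l1 y x (Or.inl h), mul_zero],
      sum_eq_zero fun y hy => by rw [l2 x y (mem_Ioc.1 hy).1.ne, mul_zero],
      sum_eq_zero fun z _ => by simp [z3, ind, h]]
    simp
  have b1 : ∀ u, t ≤ u → u ≤ L.length + 1 → |T.lo L.length t t u| ≤ b := fun u h1 h2 => by
    rw [hT, lo_mul, lo_wt, ind, if_pos rfl, one_mul, one_mul, Tw.lo]
    split_ifs with h
    exacts [h3 _ (rz_lo3 ht le_rfl), h4 _ (rz_lo4 ht le_rfl h1 (by omega))]
  have b0 : 0 ≤ b := (abs_nonneg _).trans (b1 t le_rfl (by omega))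
  have b2 : |LO L T t t| ≤ 10 * b := by
    have h1 := abs_Lg hM ht b1
    have h2 := b1 t le_rfl (by omega)
    have h5 : dm L 0 t + ex L t ≤ 2 := by
      have := sum_dm_Ioc (L := L) ht
      have h6 : 0 ≤ ∑ t ∈ Ioc t L.length, dm L 0 t := sum_nonneg fun j _ => dm_nonneg hM j
      have h7 := sum_dm L 0 t
      have h8 := single_le_sum (f := fun j => dm L 0 j) (fun j _ => dm_nonneg hM j)
        (self_mem_range_succ t)
      linarith
    have h6 : |(dm L 0 t + ex L t) * T.lo L.length t t t| ≤ 2 * b := by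
      rw [abs_mul, abs_of_nonneg (add_nonneg d0 (ex_nn hM t))]
      exact mul_le_mul h5 h2 (abs_nonneg _) zero_le_two
    rw [LO, cP]
    have h7 := abs_le.1 h1.1
    have h8 := abs_le.1 h1.2
    rw [abs_le] at h6 ⊢
    constructor <;> linarith [h6.1, h6.2, h7.1, h7.2, h8.1, h8.2]
  have b3 : |∑ z ∈ range t, dm L 0 z * ∑ k ∈ Ioc z L.length, dm L 0 k * T.off L.length z t k| ≤
      dm L 0 t * b := by
    have h5 : ∑ z ∈ range t, dm L 0 z ≤ 1 := by
      have h1 := sum_dm L 0 L.length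
      rw [ex_length, sub_zero] at h1
      rw [← h1]
      exact sum_le_sum_of_subset_of_nonneg (range_subset_range.2 (by omega))
        fun j _ _ => dm_nonneg hM j
    refine (abs_sum_le_sum_abs _ _).trans ((sum_le_sum (g := fun z => dm L 0 z * (dm L 0 t * b))
      fun z hz => ?_).trans ?_)
    · have hz := mem_range.1 hz
      rw [sum_eq_single t (fun k _ hk => by simp [z3, ind, hk])
        (fun h => absurd (mem_Ioc.2 ⟨hz, ht⟩) h), z3, ind, if_pos rfl, one_mul, one_mul, abs_mul,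
        abs_mul, abs_of_nonneg (dm_nonneg hM z), abs_of_nonneg d0]
      exact mul_le_mul_of_nonneg_left (mul_le_mul_of_nonneg_left (h4 _ (rz_off ht hz.le hz.le ht))
        d0) (dm_nonneg hM z)
    · rw [← sum_mul]
      exact mul_le_of_le_one_left (mul_nonneg d0 b0) h5
  rw [NL, sum_eq_single t (fun x _ h => by rw [n0 x h, mul_zero])
    (fun h => absurd (mem_range.2 (by omega)) h), NLx,
    sum_eq_single t (fun y _ h => by rw [l1 y t (Or.inr h), mul_zero])
      (fun h => absurd (self_mem_range_succ t) h),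
    sum_eq_zero fun y hy => by rw [l2 t y (mem_Ioc.1 hy).1.ne, mul_zero], add_zero, abs_mul,
    abs_of_nonneg d0]
  have h9 : |dm L 0 t * LO L T t t| ≤ dm L 0 t * (10 * b) := by
    rw [abs_mul, abs_of_nonneg d0]
    exact mul_le_mul_of_nonneg_left b2 d0
  have := mul_le_mul_of_nonneg_left ((abs_add_le _ _).trans (add_le_add h9 b3)) d0
  linarith

end tw

/-! ### two edges in one system -/

section ee
variable {Ω : Type} [Fintype Ω] {w : Ω → ℝ} (hw : Wt w) {L : List (Lv Ω)} (h : Ω → ℝ)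
  {S S' : ℕ → Ω → Ω → ℝ} {x t t' : ℕ}
include hw

theorem Sy_ee (hS : ∀ j a b, S j a b = S j b a) (hS' : ∀ j a b, S' j a b = S' j b a) :
    (ee w L h S S').Sy L.length := fun σ hσ => by
  constructor
  · refine ((TM_inj hw hσ (ι := ![1, 0, 2, 3]) (by decide) _).symm).trans ?_
    refine congrArg _ (funext fun u => ?_)
    show S (σ 2 3) (u 2) (u 3) * S' (σ 1 0) (u 1) (u 0) = S (σ 2 3) (u 2) (u 3) * S' (σ 0 1) (u 0) (u 1)
    rw [hσ.comm 1 0, hS']
  · refine ((TM_inj hw hσ (ι := ![0, 1, 3, 2]) (by decide) _).symm).trans ?_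
    refine congrArg _ (funext fun u => ?_)
    show S (σ 3 2) (u 3) (u 2) * S' (σ 0 1) (u 0) (u 1) = S (σ 2 3) (u 2) (u 3) * S' (σ 0 1) (u 0) (u 1)
    rw [hσ.comm 3 2, hS]

theorem abs_TM {r : ℕ} {σ : SM r} (hσ : Rz L.length σ) {F : (Fin r → Ω) → ℝ} {b : ℝ}
    (hF : ∀ u, |F u| ≤ b) : |TM w L h σ F| ≤ b := by
  have h1 := TM_mono (h := h) hw hσ fun u => (abs_le.1 (hF u)).1
  have h2 := TM_mono (h := h) hw hσ fun u => (abs_le.1 (hF u)).2
  rw [TM_const hw hσ] at h1 h2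
  exact abs_le.2 ⟨h1, h2⟩

/-- centring of two edges -/
theorem TM_cen {r : ℕ} {σ : SM r} (hσ : Rz L.length σ) {a b c d : Fin r} (hab : a ≠ b) (hcd : c ≠ d)
    (R : Ω → Ω → ℝ) (q : ℕ → ℝ) :
    TM w L h σ (fun u => (R (u a) (u b) - q (σ a b)) * (R (u c) (u d) - q (σ c d))) =
      TM w L h σ (fun u => (R (u a) (u b) - pi2 w L (σ a b) R h) *
        (R (u c) (u d) - pi2 w L (σ c d) R h)) +
      (pi2 w L (σ a b) R h - q (σ a b)) * (pi2 w L (σ c d) R h - q (σ c d)) := by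
  have e : ∀ p p' : ℝ, TM w L h σ (fun u => (R (u a) (u b) - p) * (R (u c) (u d) - p')) =
      TM w L h σ (fun u => R (u a) (u b) * R (u c) (u d)) - p' * pi2 w L (σ a b) R h -
        p * pi2 w L (σ c d) R h + p * p' := fun p p' => by
    rw [← TM_pair hw hσ hab, ← TM_pair hw hσ hcd, ← TM_mul, ← TM_mul, ← TM_sub, ← TM_sub,
      ← TM_const (h := h) hw hσ (p * p'), ← TM_add]
    exact congrArg _ (funext fun u => by ring)
  rw [e, e]; ring

variable (l₀ : Lv Ω)

theorem quart {r : ℕ} {σ : SM r} (H : Um L.length σ) {a b a' b' : Fin r} (h1 : a ≠ a')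
    (h2 : a ≠ b') (h3 : b ≠ a') (h4 : b ≠ b') (e1 : σ a a' = x) (e2 : σ a b' = x)
    (e3 : σ b a' = x) (e4 : σ b b' = x) (q : ℝ) {F : (Fin r → Ω) → ℝ}
    (hF : ∀ u, F u = (l₀.cov (u a) (u a') - q) * (l₀.cov (u b) (u b') - q))
    (ht : t = if a = b then L.length + 1 else σ a b)
    (ht' : t' = if a' = b' then L.length + 1 else σ a' b') :
    TM w L h σ F = Tc w L l₀ h q x t t' := by
  obtain ⟨s, e, -, he, rfl⟩ := H.lab
  have l1 : ∀ c d : Fin r, lev s L.length (e c) (e d) =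
      if c = d then L.length + 1 else sm s e L.length c d := fun c d => by
    split_ifs with h
    · rw [h, lev_self]
    · exact lev_ne s _ fun e' => h (he e')
  have k1 := TE_Tc hw s L l₀ h q (x := x) (a := e a) (b := e b) (a' := e a') (b' := e b')
    (by rintro _ (rfl | rfl) _ (rfl | rfl) h
        exacts [h1 (he h), h2 (he h), h3 (he h), h4 (he h)])
    (by rintro _ (rfl | rfl) _ (rfl | rfl)
        exacts [e1, e2, e3, e4])
  rw [l1, l1, ← ht, ← ht'] at k1
  rw [TM_sm hw s L h he, ← k1]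
  simp only [hF]

theorem cov_comm (a b : Ω) : l₀.cov a b = l₀.cov b a := by simp only [Lv.cov, mul_comm]

theorem Tc_symm (q : ℝ) : Tc w L l₀ h q x t t' = Tc w L l₀ h q x t' t := by
  rw [Tc, Tc, T2_symm]

theorem sN_Tc (q : ℕ → ℝ) (hx : x ≤ L.length) (h1 : x ≤ t) (ht : t ≤ L.length + 1) (h1' : x ≤ t')
    (ht' : t' ≤ L.length + 1) :
    (ee w L h (uK l₀ q) (uK l₀ q)).sN L.length x t t' = Tc w L l₀ h (q x) x t t' := by
  unfold Tw.sN
  split_ifs with c1 c2 c2
  · exact quart hw h l₀ (x := x) (t := t) (t' := t') (Gs14.um2 _ x) (a := 0) (b := 0) (a' := 1)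
      (b' := 1) (by decide) (by decide) (by decide) (by decide) (tw_01 hx) (tw_01 hx) (tw_01 hx)
      (tw_01 hx) (q x) (fun u => by
        show (l₀.cov (u 0) (u 1) - q (tw L.length x 0 1)) *
          (l₀.cov (u 0) (u 1) - q (tw L.length x 0 1)) = _
        rw [tw_01 hx]) (by rw [if_pos rfl, c1]) (by rw [if_pos rfl, c2])
  · exact quart hw h l₀ (x := x) (t := t) (t' := t') (Gs14.um3 hx h1' (by omega)) (a := 1) (b := 1)
      (a' := 2) (b' := 0) (by decide) (by decide) (by decide) (by decide) rfl rfl rfl rfl (q x)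
      (fun u => by
        show (l₀.cov (u 1) (u 2) - q x) * (l₀.cov (u 0) (u 1) - q x) = _
        rw [cov_comm hw l₀ (u 0)]) (by rw [if_pos rfl, c1]) (by rw [if_neg (by decide)]; rfl)
  · refine (quart hw h l₀ (x := x) (t := t') (t' := t) (Gs14.um3 hx h1 (by omega)) (a := 1) (b := 1)
      (a' := 2) (b' := 0) (by decide) (by decide) (by decide) (by decide) rfl rfl rfl rfl (q x)
      (fun u => by
        show (l₀.cov (u 1) (u 2) - q x) * (l₀.cov (u 0) (u 1) - q x) = _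
        rw [cov_comm hw l₀ (u 0)]) (by rw [if_pos rfl, c2])
      (by rw [if_neg (by decide)]; rfl)).trans (Tc_symm hw h l₀ _)
  · exact quart hw h l₀ (x := x) (t := t) (t' := t') (Gs14.um4 hx h1 (by omega) h1' (by omega))
      (a := 2) (b := 0) (a' := 3) (b' := 1) (by decide) (by decide) (by decide) (by decide) rfl rfl
      rfl rfl (q x) (fun u => rfl) (by rw [if_neg (by decide)]; rfl)
      (by rw [if_neg (by decide)]; rfl)

theorem vt_eq (h1 : x ≤ t) (ht : t ≤ L.length) : Eg33.vt w L l₀ h x t =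
    T2 w L l₀ h x (L.length + 1) (L.length + 1) - T2 w L l₀ h x t (L.length + 1) := by
  have e := fun y y' => eg_tr hw l₀ (eg_Nm hw L l₀ x y) (eg_Nm hw L l₀ x y')
  rw [T2, T2, ← congrFun (node_sub hw (e _ _) (e _ _) L x) h, Eg33.vt]
  refine congrArg (fun F => node w L x F h) (funext fun z => ?_)
  rw [Eg33.vz_eq hw, tr, tr, ← sum_sub_distrib]
  refine sum_congr rfl fun i _ => ?_
  rw [← sum_sub_distrib]
  refine sum_congr rfl fun k _ => ?_
  rw [← sub_mul, Nm, Nm, Nf_leaf_sub hw L h1 ht (Nat.lt_succ_self _),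
    Nf_leaf L (Nat.lt_succ_self _), mul_comm]
  rfl

/-- the cost of a leg that leaves at `t` -/
def vv (w : Ω → ℝ) (L : List (Lv Ω)) (l₀ : Lv Ω) (h : Ω → ℝ) (x t : ℕ) : ℝ :=
  if t ≤ L.length then Eg33.vt w L l₀ h x t else 0

theorem T2_leg (hx : x ≤ L.length) (h1 : x ≤ t) (ht : t ≤ L.length + 1) (h1' : x ≤ t')
    (ht' : t' ≤ L.length + 1) :
    0 ≤ T2 w L l₀ h x (L.length + 1) t' - T2 w L l₀ h x t t' ∧
      T2 w L l₀ h x (L.length + 1) t' - T2 w L l₀ h x t t' ≤ vv w L l₀ h x t := by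
  have a1 := MD_nonneg hw L l₀ h hx h1 ht
  have a2 := DD_nonneg hw L l₀ h h1 ht le_rfl h1'
  have a3 := DD_nonneg hw L l₀ h h1 ht h1' ht'
  simp only [Lad79.MD, Lad79.DD, T2_symm L l₀ h x x] at a1 a2 a3
  refine ⟨by linarith, ?_⟩
  rw [vv]
  split_ifs with c
  · rw [vt_eq hw h l₀ h1 c]; linarith
  · rw [show t = L.length + 1 by omega, sub_self]

theorem sN_leg (q : ℕ → ℝ) (hx : x ≤ L.length) (h1 : x ≤ t) (ht : t ≤ L.length + 1) (h1' : x ≤ t')
    (ht' : t' ≤ L.length + 1) :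
    |(ee w L h (uK l₀ q) (uK l₀ q)).sN L.length x t t' -
      (ee w L h (uK l₀ q) (uK l₀ q)).sN L.length x (L.length + 1) (L.length + 1)| ≤
        vv w L l₀ h x t + vv w L l₀ h x t' := by
  have a1 := T2_leg hw h l₀ hx h1 ht h1' ht'
  have a2 := T2_leg hw h l₀ hx h1' ht' (Nat.le_succ_of_le hx) le_rfl
  rw [T2_symm L l₀ h x t'] at a2
  rw [sN_Tc hw h l₀ q hx h1 ht h1' ht', sN_Tc hw h l₀ q hx (by omega) le_rfl (by omega) le_rfl,
    Tc, Tc, abs_le]
  constructor <;> linarith [a1.1, a1.2, a2.1, a2.2]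

theorem sN_top (hx : x ≤ L.length) : (ee w L h S S').sN L.length x (L.length + 1) (L.length + 1) =
    pi2 w L x (fun a b => S x a b * S' x a b) h := by
  have := TM_pair (h := h) hw (rz_tw L.length x) (a := 0) (b := 1) (by decide)
    fun a b => S x a b * S' x a b
  rw [tw_01 hx] at this
  rw [Tw.sN, if_pos rfl, if_pos rfl, ← this]
  simp only [ee, ed, tw_01 hx]

end ee

/-! ### the site factor -/

section site
variable {L : List (Lv Bool)} {x t t' : ℕ}

/-- `Γ_t` -/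
abbrev Ga (L : List (Lv Bool)) (t : ℕ) : ℝ := pi2 (fun _ => 1) L t (fun a b => spin a * spin b) 0

theorem N_nn (hx : x ≤ L.length) (h : x ≤ t) (z : Bool → ℝ) : 0 ≤ Gs14.N L x t z := by
  refine le_trans ?_ (Nf_mono One15.w1 L le_rfl h z spin)
  rw [Nf_self L hx]
  exact mul_self_nonneg _

theorem N_le (h : x ≤ t) (ht : t ≤ L.length + 1) (z : Bool → ℝ) : Gs14.N L x t z ≤ 1 :=
  (Nf_mono One15.w1 L h ht z spin).trans_eq (Gs14.N_top L x z)

theorem Ga_bd (H : R1 L) (hM : Mono 0 L) (ht : t ≤ L.length) :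
    0 ≤ Ga L t ∧ Ga L t ≤ 1 ∧ Ga L t ≤ 80 * min 1 (tm L t) := by
  have e := Gs14.node_N (L := L) (le_refl t) ht
  have h0 : 0 ≤ tm L t := by simpa [tm, cacc] using H.tm_mono (Nat.zero_le t)
  have h1 : Ga L t ≤ 1 := by
    rw [Ga, ← e]
    exact (node_mono One15.w1 (Gs14.eg_N L t t) (Eg.const 1) (N_le le_rfl (by omega)) L t 0).trans_eq
      (by rw [node_const One15.w1])
  refine ⟨(node_nonneg _ (N_nn ht le_rfl) L t 0).trans_eq e, h1, ?_⟩
  rcases le_total 1 (tm L t) with c | c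
  · rw [min_eq_left c]; linarith
  · rw [min_eq_right c]
    have m := Gs14.mom (x := t) H hM 2 le_rfl
    have h2 : Ga L t ≤ 4 * node (fun _ => 1) L t (fun z => |One15.xs z| ^ 2) 0 := by
      rw [Ga, ← e, ← congrFun (node_const_mul _ _ _ _ _) 0]
      exact node_mono One15.w1 (Gs14.eg_N L t t) ((One15.lg_xs.eg.abs.pow 2).const_mul 4)
        (fun z => (Gs14.N_self (fl_of H.rk) hM ht z).2) L t 0
    have h3 : exp (1 / 2 + √(tm L t)) ≤ 5 := by
      have h4 : √(tm L t) ≤ 1 := sqrt_le_one.2 c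
      have h5 : exp (1 / 2 + √(tm L t)) ≤ exp (3 / 2) := exp_le_exp.2 (by linarith)
      have h6 : exp (3 / 2 : ℝ) ^ 2 = exp 1 ^ 3 := by
        rw [← exp_nat_mul, ← exp_nat_mul]; norm_num
      have h7 := exp_one_lt_d9
      have h8 : exp 1 ^ 3 ≤ (2.72 : ℝ) ^ 3 := pow_le_pow_left₀ (exp_pos 1).le (by linarith) 3
      nlinarith [exp_pos (3 / 2 : ℝ)]
    rw [sq_sqrt h0] at m
    simp only [Nat.factorial_two, Nat.cast_ofNat] at m
    nlinarith [mul_le_mul_of_nonneg_right h3 h0]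

theorem abs_cN (H : R1 L) (hM : Mono 0 L) {q : ℕ → ℝ} (hx : x ≤ L.length) (q0 : 0 ≤ q x)
    (q1 : q x ≤ 1) (h : x ≤ t) (ht : t ≤ L.length + 1) (h' : x ≤ t') (ht' : t' ≤ L.length + 1) :
    (t ≤ L.length → |(ee (fun _ => 1) L 0 (eK q) (eK q)).sN L.length x t t'| ≤ Ga L t + 2 * q x) ∧
    (t' ≤ L.length →
      |(ee (fun _ => 1) L 0 (eK q) (eK q)).sN L.length x t t'| ≤ Ga L t' + 2 * q x) := by
  have g := Ga_bd H hM hx
  have eg := (Gs14.eg_N L x t).mul (Gs14.eg_N L x t')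
  have n0 : 0 ≤ node (fun _ => 1) L x (fun z => Gs14.N L x t z * Gs14.N L x t' z) 0 :=
    node_nonneg _ (fun z => mul_nonneg (N_nn hx h z) (N_nn hx h' z)) L x 0
  have q2 : |q x ^ 2 - 2 * q x * Ga L x| ≤ 2 * q x := by
    rw [abs_le]; constructor <;> nlinarith [g.1, g.2.1]
  rw [Gs14.sN_eq q hx h ht h' ht']
  refine ⟨fun c => (abs_add_le _ _).trans (add_le_add ?_ q2),
    fun c => (abs_add_le _ _).trans (add_le_add ?_ q2)⟩
  · rw [abs_of_nonneg n0, Ga, ← Gs14.node_N h c]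
    exact node_mono One15.w1 eg (Gs14.eg_N L x t)
      (fun z => mul_le_of_le_one_right (N_nn hx h z) (N_le h' ht' z)) L x 0
  · rw [abs_of_nonneg n0, Ga, ← Gs14.node_N h' c]
    exact node_mono One15.w1 eg (Gs14.eg_N L x t')
      (fun z => mul_le_of_le_one_left (N_nn hx h' z) (N_le h ht z)) L x 0

end site

end Crest.Agent.T156.Cas.Q75.A10

end
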