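import Crest.Agent.T156.CQ2D_10
import Crest.Agent.T156.CQ2A_10
import Crest.Agent.T156.CErr_54
import Crest.Agent.T156.Dn_41

/-!
# Row 156 (helper10): the word `[aU, aU]`, value direction, glue
-/

set_option autoImplicit false
set_option linter.all false

noncomputable section

namespace Crest.Agent.T156.Cas.C40.Q10

open Finset Real
open Crest.Agent.T157.E Crest.Agent.T157.Casc Crest.Agent.T157.SL
open Crest.Agent.T157.G1 (ov)
open Crest.ProbabilityR.SpinGlassDynamics (spin)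
open Crest.Agent.T156.Cas.Q75 Crest.Agent.T156.Cas.Q75.A10 Nu87

variable {D : CD} {τ0 : ℝ}

theorem S_len (D : CD) : D.S.length = D.B.length := opS_length.trans D.B_len.symm

theorem rzS {r : ℕ} {σ : SM r} (h : Rz D.B.length σ) : Rz D.S.length σ := (S_len D).symm ▸ h

theorem ov_comm {n : ℕ} (x y : Cube n) : ov x y = ov y x := by rw [ov, ov, dotProduct_comm]

theorem r1S (h : D.Ok τ0) : Ker15.R1 D.S := Ker15.r1_of (C.forall₂_sl spin (opV_nn h.ook))

theorem monoS (h : D.Ok τ0) : Mono 0 D.S := Cav22.mono_tilt tilt_opS.symm h.mono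

theorem tm_S (h : D.Ok τ0) {j : ℕ} (hj : j ≤ D.K) : Ker15.tm D.S j = D.sig j :=
  (Ker15.tm_eq (C.forall₂_sl spin (opV_nn h.ook)) j).trans (opV_acc hj)

/-- `Γ_t ≤ 80 e_t` on UP -/
theorem Gam_le (h : D.Ok τ0) {t : ℕ} (ht : t ∈ D.up) : D.Gam t ≤ 80 * D.e t := by
  have m := CD.mem_up.1 ht
  have h1 := (Ga_bd (r1S h) (monoS h) (t := t) (by rw [opS_length]; exact m.2.le)).2.2
  rw [tm_S h m.2.le] at h1
  have h2 : min 1 (D.sig t) ≤ min 1 (ex D.B t + D.sig t) :=
    min_le_min le_rfl (le_add_of_nonneg_left (h.ex0 t))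
  exact h1.trans (by linarith [h.esc t ht])

/-- `q_t ≤ 81 e_t` on UP -/
theorem q_le (h : D.Ok τ0) {t : ℕ} (ht : t ∈ D.up) : D.q t ≤ 81 * D.e t := by
  linarith [h.qe t ht, h.eX t, h.X0]

theorem ex_le (h : D.Ok τ0) {t : ℕ} (ht : t ∈ D.up) : ex D.B t ≤ D.e t := by
  have m := CD.mem_up.1 ht
  have h1 : ex D.B t ≤ 1 := (h.sum_dx t).symm.trans_le
    (h.sum_dx_one fun i hi => by have := mem_range.1 hi; omega)
  exact (le_min h1 (le_add_of_nonneg_right (h.sig0 m.2.le))).trans (h.esc t ht)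

theorem abs_ph (h : D.Ok τ0) (j : ℕ) : |ph D j| ≤ τ0 / 2 := by
  have := h.tau_mem j
  unfold ph
  split_ifs
  · rw [abs_of_nonneg (by linarith [this.1])]; linarith [this.2]
  · rw [abs_zero]; linarith [h.tau0]

theorem abs_rb (D : CD) (j : ℕ) : |D.rb j| ≤ 1 := by
  have h1 := pi2_mono (Ω := Cube D.n) wt_one90 D.B j (K := fun _ _ => -1) (K' := ov)
    (fun x y => (abs_le.1 (abs_ov_le x y)).1) 0
  have h2 := pi2_mono (Ω := Cube D.n) wt_one90 D.B j (K := ov) (K' := fun _ _ => 1)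
    (fun x y => (abs_le.1 (abs_ov_le x y)).2) 0
  rw [pi2_const wt_one90] at h1 h2
  exact abs_le.2 ⟨h1, h2⟩

theorem Sd_ph (D : CD) (j : ℕ) (a b : Bool) : D.Sd j a b = ph D j * D.del j * eK D.q j a b := by
  unfold CD.Sd ph
  split_ifs
  · rfl
  · ring

theorem lev_ind (D : CD) (t j : ℕ) (a b : Bool) : D.lev t j a b = ind t j * eK D.q j a b := by
  unfold CD.lev ind
  split_ifs
  · rw [one_mul]; rfl
  · ring

theorem Sy_cS (D : CD) : (cS D).Sy D.B.length := by
  rw [← S_len]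
  exact Sy_ee wt_one90 0 (fun j a b => by rw [eK, eK, mul_comm]) fun j a b => by
    rw [eK, eK, mul_comm]

theorem Sy_Bt (D : CD) : (Bt D).Sy D.B.length :=
  Sy_ee wt_one90 0 (fun j a b => by rw [oU, oU, ov_comm]) fun j a b => by rw [oU, oU, ov_comm]

theorem Sy_Tc (D : CD) : (Tc D).Sy D.B.length := Sy_mul (Sy_mul (Sy_wt _ _) (Sy_cS D)) (Sy_Bt D)

theorem cen_pt (D : CD) {r : ℕ} {σ : SM r} (hσ : Rz D.B.length σ) {a b c d : Fin r} (hab : a ≠ b)
    (hcd : c ≠ d) :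
    ph D (σ a b) * ph D (σ c d) *
        TM (fun _ => 1) D.S 0 σ (fun x => ed (eK D.q) a b x σ * ed (eK D.q) c d x σ) *
        TM (fun _ => 1) D.B 0 σ (fun x => ed (oU D.q) a b x σ * ed (oU D.q) c d x σ) -
      TM (fun _ => 1) D.S 0 σ (fun x => ed D.Sd a b x σ * ed D.Sd c d x σ) =
    ph D (σ a b) * ph D (σ c d) *
        TM (fun _ => 1) D.S 0 σ (fun x => ed (eK D.q) a b x σ * ed (eK D.q) c d x σ) *
        TM (fun _ => 1) D.B 0 σ (fun x => ed (oU D.rb) a b x σ * ed (oU D.rb) c d x σ) := by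
  have h1 := TM_cen wt_one90 (L := D.B) 0 hσ hab hcd ov D.q
  have h2 : TM (fun _ => 1) D.S 0 σ (fun x => ed D.Sd a b x σ * ed D.Sd c d x σ) =
      ph D (σ a b) * D.del (σ a b) * (ph D (σ c d) * D.del (σ c d)) *
        TM (fun _ => 1) D.S 0 σ (fun x => ed (eK D.q) a b x σ * ed (eK D.q) c d x σ) := by
    rw [← TM_mul]
    exact congrArg _ (funext fun x => by simp only [ed, Sd_ph]; ring)
  have h3 : TM (fun _ => 1) D.B 0 σ (fun x => ed (oU D.q) a b x σ * ed (oU D.q) c d x σ) =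
      TM (fun _ => 1) D.B 0 σ (fun x => ed (oU D.rb) a b x σ * ed (oU D.rb) c d x σ) +
        D.del (σ a b) * D.del (σ c d) := h1
  rw [h2, h3]; ring

/-- **centring** -/
theorem cen (D : CD) : Ful D.B (((wt (ph D) (ph D)).mul (cS D)).mul (BU D)) -
    Ful D.B (ee (fun _ => 1) D.S 0 D.Sd D.Sd) = Ful D.B (Tc D) :=
  Ful_sub (fun _ hσ => cen_pt D hσ (a := 0) (b := 1) (c := 0) (d := 1) (by decide) (by decide))
    (fun _ hσ => cen_pt D hσ (a := 1) (b := 2) (c := 0) (d := 1) (by decide) (by decide))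
    fun _ hσ => cen_pt D hσ (a := 2) (b := 3) (c := 0) (d := 1) (by decide) (by decide)

theorem lev_pt (D : CD) (t : ℕ) {r : ℕ} (σ : SM r) (a b c d : Fin r) :
    TM (fun _ => 1) D.S 0 σ (fun x => ed (D.lev t) a b x σ * ed (D.lev t) c d x σ) =
      ind t (σ a b) * ind t (σ c d) *
        TM (fun _ => 1) D.S 0 σ (fun x => ed (eK D.q) a b x σ * ed (eK D.q) c d x σ) := by
  rw [← TM_mul]
  exact congrArg _ (funext fun x => by simp only [ed, lev_ind]; ring)

theorem Ful_lev (D : CD) {t : ℕ} (ht : t ≤ D.B.length) :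
    2 * Ful D.B (ee (fun _ => 1) D.S 0 (D.lev t) (D.lev t)) =
      2 * (D.dx t * SN D.B (cS D) t) + NL D.B ((wt (ind t) (ind t)).mul (cS D)) := by
  rw [Ful_congr (T' := (wt (ind t) (ind t)).mul (cS D)) ⟨fun σ _ => lev_pt D t σ 0 1 0 1,
    fun σ _ => lev_pt D t σ 1 2 0 1, fun σ _ => lev_pt D t σ 2 3 0 1⟩,
    Ful_exp _ (Sy_mul (Sy_wt _ _) (Sy_cS D)), Q75.Sm, sum_eq_single t (fun x hx h => by
      rw [SN_wt _ _ (Nat.lt_succ_iff.1 (mem_range.1 hx)), ind, if_neg h]; ring)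
      (fun h => absurd (mem_range.2 (Nat.lt_succ_of_le ht)) h), SN_wt _ _ ht, ind, if_pos rfl]
  ring

/-- the variance of the overlap -/
theorem var_eq (D : CD) {t : ℕ} (ht : t ≤ D.B.length) :
    (Bt D).sN D.B.length t (D.B.length + 1) (D.B.length + 1) = D.u 2 t - D.del t ^ 2 := by
  have h1 := TM_cen wt_one90 (L := D.B) 0 (rz_tw D.B.length t) (a := 0) (b := 1) (c := 0) (d := 1)
    (by decide) (by decide) ov D.q
  have h2 : (BU D).sN D.B.length t (D.B.length + 1) (D.B.length + 1) = D.u 2 t := by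
    rw [BU, A10.sN_top wt_one90 0 ht]
    simp only [CD.u, uM, sq, abs_mul_abs_self]
  rw [← h2, Tw.sN, Tw.sN, if_pos rfl, if_pos rfl, if_pos rfl, if_pos rfl]
  have h3 : (BU D).f2 (tw D.B.length t) = (Bt D).f2 (tw D.B.length t) +
    D.del (tw D.B.length t 0 1) * D.del (tw D.B.length t 0 1) := h1
  rw [h3, tw_01 ht]; ring

theorem abs_var (D : CD) (t : ℕ) :
    |(Bt D).sN D.B.length t (D.B.length + 1) (D.B.length + 1)| ≤ 4 := by
  have e : ∀ (j : ℕ) (x y : Cube D.n), |oU D.rb j x y| ≤ 2 := fun j x y =>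
    (abs_sub _ _).trans (by linarith [abs_ov_le x y, abs_rb D j])
  rw [Tw.sN, if_pos rfl, if_pos rfl]
  refine abs_TM wt_one90 0 (rz_tw _ _) fun u => ?_
  rw [abs_mul]
  exact (mul_le_mul (e _ _ _) (e _ _ _) (abs_nonneg _) zero_le_two).trans_eq (by norm_num)

theorem abs_cS (h : D.Ok τ0) {r : ℕ} {σ : SM r} (hσ : Rz D.B.length σ) (a b c d : Fin r) :
    |TM (fun _ => 1) D.S 0 σ (fun x => ed (eK D.q) a b x σ * ed (eK D.q) c d x σ)| ≤ 4 := by
  refine abs_TM wt_one90 0 (rzS hσ) fun u => ?_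
  rw [abs_mul]
  exact (mul_le_mul (abs_oE_le h.ook ((hσ.le a b).trans_eq D.B_len) _ _)
    (abs_oE_le h.ook ((hσ.le c d).trans_eq D.B_len) _ _) (abs_nonneg _) zero_le_two).trans_eq (by norm_num)

theorem abs_NL_lev (h : D.Ok τ0) {t : ℕ} (ht : t ≤ D.B.length) :
    |NL D.B ((wt (ind t) (ind t)).mul (cS D))| ≤ 44 * D.dx t ^ 2 :=
  (NL_ind h.mono ht (fun _ hσ => abs_cS h hσ 1 2 0 1) fun _ hσ => abs_cS h hσ 2 3 0 1).trans_eq
    (by norm_num)

/-- **the same-node part** at one node -/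
theorem SN_le (h : D.Ok τ0) {x : ℕ} (hx : x ∈ D.up) :
    |SN D.B ((cS D).mul (Bt D)) x -
        SN D.B (cS D) x * (Bt D).sN D.B.length x (D.B.length + 1) (D.B.length + 1)| ≤
      968 * (D.e x ^ 2 * D.v x x + ∑ t ∈ Ioo x D.K, D.dx t * (D.e t * D.v x t)) := by
  have m := CD.mem_up.1 hx
  have hK := D.B_len
  have hx' : x ≤ D.B.length := by omega
  have hc : (Sy41.ovL D.n).cov = ov := funext fun a => funext (Sy41.cov_ovL h.pos a)
  have eB : Bt D = ee (fun _ => 1) D.B 0 (uK (Sy41.ovL D.n) D.rb) (uK (Sy41.ovL D.n) D.rb) := by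
    unfold uK; rw [hc]; rfl
  set V := A10.vv (fun _ => 1) D.B (Sy41.ovL D.n) 0 x with hV
  have eV : ∀ t ≤ D.B.length, V t = D.v x t := fun t ht => by
    rw [hV, A10.vv, if_pos ht]
    unfold Eg33.vt Eg33.vz
    rw [hc]; rfl
  have V0 : V (D.B.length + 1) = 0 := if_neg (by omega)
  have q01 := h.ook.mem m.2.le
  have key := SN_diff (c := cS D) (B := Bt D) h.mono hx' (v := V)
    (a := fun t => (D.Gam t + 2 * D.q x) * V t) (fun t t' a1 a2 a3 a4 => by
      have := abs_cN (r1S h) (monoS h) (q := D.q) (t := t) (t' := t') (S_len D ▸ hx') q01.1 q01.2 a1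
        (S_len D ▸ a2) a3 (S_len D ▸ a4)
      rw [S_len] at this
      constructor
      · rcases a2.lt_or_eq with c | c
        · exact mul_le_mul_of_nonneg_right (this.1 (by omega))
            (by rw [eV t (by omega)]; exact D.v0 _ _)
        · rw [c, V0, mul_zero, mul_zero]
      · rcases a4.lt_or_eq with c | c
        · exact mul_le_mul_of_nonneg_right (this.2 (by omega))
            (by rw [eV t' (by omega)]; exact D.v0 _ _)
        · rw [c, V0, mul_zero, mul_zero])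
    (fun t t' a1 a2 a3 a4 => by rw [eB]; exact sN_leg wt_one90 0 _ D.rb hx' a1 a2 a3 a4)
  refine key.trans ?_
  have b1 : ∀ t ∈ D.up, x ≤ t → (D.Gam t + 2 * D.q x) * V t ≤ 242 * (D.e t * D.v x t) :=
    fun t ht hxt => by
      rw [eV t (by have := CD.mem_up.1 ht; omega), ← mul_assoc]
      exact mul_le_mul_of_nonneg_right
        (by linarith [Gam_le h ht, q_le h hx, h.e_mono hxt]) (D.v0 _ _)
  have b2 : ex D.B x * ((D.Gam x + 2 * D.q x) * V x) ≤ 242 * (D.e x ^ 2 * D.v x x) := by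
    have h1 := mul_le_mul_of_nonneg_left (b1 x hx le_rfl) (h.ex0 x)
    have h2 := mul_le_mul_of_nonneg_right (ex_le h hx) (mul_nonneg (h.e0 x) (D.v0 x x))
    nlinarith
  have b3 : ∑ t ∈ Ioc x D.B.length, dm D.B 0 t * ((D.Gam t + 2 * D.q x) * V t) ≤
      242 * ∑ t ∈ Ioo x D.K, D.dx t * (D.e t * D.v x t) := by
    rw [hK, ← Finset.Ioo_insert_right m.2, sum_insert (by simp), show dm D.B 0 D.K = 0 from h.top,
      zero_mul, zero_add, mul_sum]
    refine sum_le_sum fun t ht => ?_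
    have m' := mem_Ioo.1 ht
    exact (mul_le_mul_of_nonneg_left (b1 t (CD.mem_up.2 ⟨by omega, m'.2⟩) m'.1.le)
      (h.dx0 t)).trans_eq (by ring)
  simp only [V0, mul_zero, zero_add]
  linarith

theorem sum_lad (h : D.Ok τ0) :
    D.I (fun x => D.e x ^ 2 * D.v x x + ∑ t ∈ Ioo x D.K, D.dx t * (D.e t * D.v x t)) ≤ D.E0 := by
  refine le_trans ?_ h.Lad0_le
  rw [D.I_add, CD.Lad0, add_assoc]
  refine le_add_of_nonneg_of_le h.Lad0_parts.1 (add_le_add le_rfl ?_)
  simp only [CD.I, mul_sum]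
  rw [sum_comm' (t' := D.up) (s' := fun t => Ioo D.J t) fun x t => by
    simp only [mem_Ioo]; omega]
  refine sum_le_sum fun t _ => ?_
  refine (sum_congr rfl fun x _ => (by ring : _ = D.dx t * (D.e t * (D.dx x * D.v x t)))).trans_le
    (sum_le_sum_of_subset_of_nonneg (fun x hx => ?_) fun x _ _ =>
      mul_nonneg (h.dx0 t) (mul_nonneg (h.e0 t) (mul_nonneg (h.dx0 x) (D.v0 x t))))
  have := mem_Ioo.1 hx
  exact mem_Ico.2 ⟨by omega, this.2⟩

/-- the local remainder -/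
def Rl (D : CD) : ℝ := ∑ x ∈ D.up, D.τ x ^ 2 / 4 *
  (2 * (D.dx x * (SN D.B ((cS D).mul (Bt D)) x -
      SN D.B (cS D) x * (Bt D).sN D.B.length x (D.B.length + 1) (D.B.length + 1))) -
    (Bt D).sN D.B.length x (D.B.length + 1) (D.B.length + 1) *
      NL D.B ((wt (ind x) (ind x)).mul (cS D)))

theorem bd_Rl : Bd false Rl := Bd.val fun τ0 => ⟨τ0 ^ 2 / 4 * (1936 + 176), fun D h _ => by
  have h1 := sum_lad h
  have h2 := h.dx_le
  have h3 : |Rl D| ≤ τ0 ^ 2 / 4 * (1936 * D.I (fun x => D.e x ^ 2 * D.v x x +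
      ∑ t ∈ Ioo x D.K, D.dx t * (D.e t * D.v x t)) + 176 * D.I D.dx) := by
    rw [CD.I, CD.I, mul_sum, mul_sum, ← sum_add_distrib, mul_sum]
    refine (abs_sum_le_sum_abs _ _).trans (sum_le_sum fun x hx => ?_)
    have m := CD.mem_up.1 hx
    have a1 := mul_le_mul_of_nonneg_left (SN_le h hx) (h.dx0 x)
    have a2 := mul_le_mul (abs_var D x) (abs_NL_lev h (t := x) (by rw [D.B_len]; exact m.2.le))
      (abs_nonneg _) (by norm_num)
    have a3 := h.tau_mem x
    rw [abs_mul, abs_of_nonneg (by positivity : 0 ≤ D.τ x ^ 2 / 4)]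
    refine mul_le_mul (by nlinarith [a3.1, a3.2]) ((abs_sub _ _).trans ?_) (abs_nonneg _)
      (by positivity)
    rw [abs_mul, abs_mul, abs_mul, abs_two, abs_of_nonneg (h.dx0 x)]
    nlinarith
  refine h3.trans ?_
  rw [mul_assoc]
  exact mul_le_mul_of_nonneg_left (by linarith) (by positivity)⟩

theorem q2_eq (HL : LinkS) (h : D.Ok τ0) (hW : D.W.isSome = false) :
    D.tw [aU, aU] - (D.QM + D.LOC) = NL D.B (Tc D) + Rl D := by
  obtain ⟨l1, l2, l3⟩ := HL τ0 D h hW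
  have hK := D.B_len
  have e1 := cen D
  have e2 := Ful_exp D.B (Sy_Tc D)
  have e3 : Q75.Sm D.B (range (D.B.length + 1)) (SN D.B (Tc D)) =
      ∑ x ∈ D.up, D.τ x ^ 2 / 4 * (D.dx x * SN D.B ((cS D).mul (Bt D)) x) := by
    refine (sum_subset (fun x hx => ?_) fun x hx hx' => ?_).symm.trans (sum_congr rfl fun x hx => ?_)
    · have := CD.mem_up.1 hx
      exact mem_range.2 (by omega)
    · have h1 := mem_range.1 hx
      rw [Tc, mul_assoc', SN_wt _ _ (by omega)]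
      by_cases c : D.J < x
      · rw [show x = D.K by rw [CD.mem_up] at hx'; omega, show dm D.B 0 D.K = 0 from h.top, zero_mul]
      · rw [ph, if_neg c]; ring
    · have := CD.mem_up.1 hx
      rw [Tc, mul_assoc', SN_wt _ _ (by omega), ph, if_pos this.1]
      ring
  have e4 : D.LOC = ∑ x ∈ D.up, D.τ x ^ 2 / 4 *
      ((Bt D).sN D.B.length x (D.B.length + 1) (D.B.length + 1) *
        (2 * (D.dx x * SN D.B (cS D) x) + NL D.B ((wt (ind x) (ind x)).mul (cS D)))) :=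
    sum_congr rfl fun x hx => by
      have : x ≤ D.B.length := by have := CD.mem_up.1 hx; omega
      rw [l3 x hx, Ful_lev D this, var_eq D this, mul_assoc]
  have e5 : Rl D = 2 * Q75.Sm D.B (range (D.B.length + 1)) (SN D.B (Tc D)) - D.LOC := by
    rw [e3, e4, mul_sum, ← sum_sub_distrib]
    exact sum_congr rfl fun x _ => by ring
  rw [l1, CD.QM, l2, e5]
  linarith

/-- **the word `[aU, aU]`, value direction** -/
theorem q2_of (HL : LinkS) (HN : NLS) : Q2S false :=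
  (Bd.add HN bd_Rl).congr fun _ _ h hW => q2_eq HL h hW

end Crest.Agent.T156.Cas.C40.Q10

end
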