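import Crest.Agent.T156.CQ21L_87
import Crest.Agent.T156.CErr_54

/-!
# Row 156 (helper53): `Q2S true` from the leaves of `CQ21D_52`
-/

set_option autoImplicit false
set_option linter.all false

noncomputable section

namespace Crest.Agent.T156.Cas.Q21.G53

open Finset
open Crest.Agent.T157.E Crest.Agent.T157.Casc Crest.Agent.T157.SL
open Crest.Agent.T156.Cas.Q75
open Crest.Agent.T156.Cas.Q75.A10 (ind)
open Nu87 C40 C40.Q10 C40.N75

section gen
variable {Θ : Type} [Fintype Θ] {L : List (Lv Θ)} {T : List (Lv Bool)} {q q' : Rf} {j : ℕ}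
  {Ω : Type} [Fintype Ω] {w : Ω → ℝ} {B : List (Lv Ω)} {h : Ω → ℝ} {U : ℕ → Ω → Ω → ℝ}

theorem Tm_add (A A' : ℕ → ℕ → ℝ) : Tm L T q j w B h U (fun x y => A x y + A' x y) =
    Tm L T q j w B h U A + Tm L T q j w B h U A' := by
  simp only [Tm, ← L87.D2_add, ← avc_add, add_mul]

theorem S3_scale {α : ℕ → ℝ} {R : ℕ} {τ : SM R} {a b c d e f : Fin R} (h1 : q'.1 = q.1)
    (h2 : q'.2.1 (τ c d) = α (τ c d) * q.2.1 (τ c d) ∧ q'.2.2 (τ c d) = α (τ c d) * q.2.2 (τ c d))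
    (h3 : q'.2.1 (τ e f) = α (τ e f) * q.2.1 (τ e f) ∧ q'.2.2 (τ e f) = α (τ e f) * q.2.2 (τ e f)) :
    S3 T q' τ a b c d e f = α (τ c d) * α (τ e f) * S3 T q τ a b c d e f := by
  rw [S3, S3, ← TM_mul, h1]
  congr 1
  funext x
  simp only [ed, aK, h2.1, h2.2, h3.1, h3.2]
  ring

theorem Tm_scale {α : ℕ → ℝ} {κ : ℝ} {A A' : ℕ → ℕ → ℝ} (h1 : q'.1 = q.1)
    (h2 : ∀ x ≤ L.length, q'.2.1 x = α x * q.2.1 x ∧ q'.2.2 x = α x * q.2.2 x)
    (hA : ∀ x ≤ L.length, ∀ y ≤ L.length, A x y = κ * (A' x y * (α x * α y))) :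
    Tm L T q j w B h U A = κ * Tm L T q' j w B h U A' := by
  rw [Tm, Tm, ← L87.D2_mul]
  refine L87.D2_congr fun c d e f _ _ => ?_
  rw [← avc_mul]
  refine avc_congr (rz_tw _ _) 4 fun τ hτ => ?_
  rw [S3_scale h1 (h2 _ (hτ.le c d)) (h2 _ (hτ.le e f)), hA _ (hτ.le c d) _ (hτ.le e f)]
  ring

end gen

variable {D : CD} {τ0 : ℝ}

theorem Tj_add {Θ : Type} [Fintype Θ] (L : List (Lv Θ)) (q : Rf) (j : ℕ) (φ φ' ψ ψ' : ℕ → ℝ) :
    Tj D L q j (fun x => φ x + φ' x) (fun x => ψ x + ψ' x) =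
      Tj D L q j φ ψ + Tj D L q j φ' ψ' + (Tj D L q j φ' ψ + Tj D L q j φ ψ') := by
  have e1 : (fun x y => (φ x + φ' x) * (ψ y + ψ' y)) = fun x y =>
      (φ x * ψ y + φ' x * ψ' y) + (φ' x * ψ y + φ x * ψ' y) := by funext x y; ring
  have e2 : (fun x y => if x = y then (φ x + φ' x) * (ψ x + ψ' x) * (D.u 2 x - D.del x ^ 2)
      else 0) = fun x y => ((if x = y then φ x * ψ x * (D.u 2 x - D.del x ^ 2) else 0) +
        if x = y then φ' x * ψ' x * (D.u 2 x - D.del x ^ 2) else 0) +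
        ((if x = y then φ' x * ψ x * (D.u 2 x - D.del x ^ 2) else 0) +
          if x = y then φ x * ψ' x * (D.u 2 x - D.del x ^ 2) else 0) := by
    funext x y; split_ifs <;> ring
  simp only [Tj]
  rw [e1, e2, Tm_add, Tm_add, Tm_add, Tm_add, Tm_add, Tm_add]
  ring

/-- the factor `τ` goes inside the site edges, the levels are split at `j` -/
theorem Tj_split (H : D.Ok τ0) {j : ℕ} (hj : j ∈ D.up) :
    Tj D D.B (D.q, fun _ => 1, D.q) j (ph D) (ph D) = ((1 + D.τ D.K) / 2) ^ 2 *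
      (Tj D D.B (Rq D) j (nu D j) (nu D j) + Tj D D.B (Rq D) j (ind j) (ind j) +
        (Tj D D.B (Rq D) j (ind j) (nu D j) + Tj D D.B (Rq D) j (nu D j) (ind j))) := by
  have t0 := (H.tau_mem D.K).1
  have hJ := (CD.mem_up.1 hj).1
  have hp : ∀ x, ph D x = (1 + D.τ D.K) / 2 * ((nu D j x + ind j x) *
      (D.τ x / (1 + D.τ D.K))) := fun x => by
    unfold ph nu nj ind
    by_cases e : x = j
    · subst e; simp only [if_pos hJ, if_true]; field_simp; ring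
    · simp only [if_neg e]; split_ifs
      · field_simp; ring
      · ring
  have h2 : ∀ x ≤ D.B.length, (Rq D).2.1 x = D.τ x / (1 + D.τ D.K) * 1 ∧
      (Rq D).2.2 x = D.τ x / (1 + D.τ D.K) * D.q x := fun x hx => by
    rw [D.B_len] at hx
    simp only [Rq, min_eq_left hx]
    constructor <;> ring
  rw [← Tj_add, Tj, Tj, mul_sub]
  congr 1
  · exact Tm_scale (q := (D.q, fun _ => 1, D.q)) (q' := Rq D)
      (α := fun x => D.τ x / (1 + D.τ D.K)) rfl h2 fun x _ y _ => by rw [hp x, hp y]; ring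
  · refine Tm_scale (q := (D.q, fun _ => 1, D.q)) (q' := Rq D)
      (α := fun x => D.τ x / (1 + D.τ D.K)) rfl h2 fun x _ y _ => ?_
    split_ifs with e
    · subst e; rw [hp x]; ring
    · ring

theorem lad_parts (H : D.Ok τ0) : D.Iw (fun j => D.e j * D.v j j) ≤ D.E1 ∧
    D.Iw (fun j => ∑ y ∈ Finset.Ico 1 j, D.dx y * D.v y j) ≤ D.E1 :=
  ⟨(D.Iw_mono fun j _ => le_add_of_nonneg_right (H.sv_low0 _ _)).trans H.Lad1_le,
    (D.Iw_mono fun j _ => le_add_of_nonneg_left (mul_nonneg (H.e0 j) (D.v0 j j))).trans H.Lad1_le⟩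

theorem q2a_parts (H : D.Ok τ0) (hW : D.W.isSome = true) :
    D.Iw (fun j => av D j * (D.f0 j + D.sv D.f0 D.J + D.hi (av D) j)) ≤ D.Z ∧
    D.Iw (fun j => D.f0 j * (D.f0 j + D.sv D.f0 D.J)) ≤ D.Z := by
  have h := H.q2a
  rw [CD.dd_test hW, mul_one] at h
  have l0 : ∀ j, 0 ≤ D.lw (fun k => D.e k * √(D.v k k)) j :=
    H.lw0 fun k => mul_nonneg (H.e0 k) (Real.sqrt_nonneg _)
  have s0 := H.sv0 H.f00 D.J
  have h1 : 0 ≤ D.wt * D.I (fun j => √(D.v j j) * D.lw (fun k => D.e k * √(D.v k k)) j) :=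
    mul_nonneg D.wt0 (H.I0 fun j _ => mul_nonneg (Real.sqrt_nonneg _) (l0 j))
  have h2 : D.Iw (fun j => av D j * (D.f0 j + D.sv D.f0 D.J + D.hi (av D) j)) ≤
      D.Iw (fun j => √(D.v j j) * (D.f0 j + D.sv D.f0 D.J +
        D.lw (fun k => D.e k * √(D.v k k)) j + D.hi (fun k => √(D.v k k)) j)) :=
    D.Iw_mono fun j _ => mul_le_mul_of_nonneg_left (by
      have := l0 j
      show _ + D.hi (fun k => √(D.v k k)) j ≤ _
      linarith) (Real.sqrt_nonneg _)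
  have h3 : 0 ≤ D.Iw (fun j => av D j * (D.f0 j + D.sv D.f0 D.J + D.hi (av D) j)) :=
    D.Iw0 fun j _ => mul_nonneg (Real.sqrt_nonneg _) (add_nonneg (add_nonneg (H.f00 j) s0)
      (H.hi0 (fun _ => Real.sqrt_nonneg _) j))
  have h4 : 0 ≤ D.Iw (fun j => D.f0 j * (D.f0 j + D.sv D.f0 D.J)) :=
    D.Iw0 fun j _ => mul_nonneg (H.f00 j) (add_nonneg (H.f00 j) s0)
  constructor <;> linarith

theorem Iw_Rw (H : D.Ok τ0) (hW : D.W.isSome = true) : D.Iw (Rw D) ≤ 2 * D.E1 := by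
  have e : D.Iw (Rw D) = D.Iw (fun j => av D j * (D.f0 j + D.sv D.f0 D.J + D.hi (av D) j)) +
      D.Lad1 := D.Iw_add _ _
  linarith [(q2a_parts H hW).1, H.Z_le, H.Lad1_le]

/-- one edge at the marked level, both options -/
theorem row_bd (hB : OBS) (hA : OAS) (τ0 : ℝ) : ∃ C : ℝ, 0 ≤ C ∧ ∀ D : CD, D.Ok τ0 →
    D.W.isSome = true → |∑ j ∈ D.up, D.om j *
      (Tj D D.B (Rq D) j (ind j) (nu D j) + Tj D D.B (Rq D) j (nu D j) (ind j))| ≤ C * D.E1 := by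
  obtain ⟨C1, c1, h1⟩ := hB τ0
  obtain ⟨C2, c2, h2⟩ := hA τ0
  refine ⟨3 * C1 + 4 * C2, by positivity, fun D H hW => ?_⟩
  have hR := Iw_Rw H hW
  have E0 := H.E10
  have s0 := H.sv0 H.f00 D.J
  rcases H.nl2 with hn | ⟨a, l, A, ha, hl, hl', hAd, hT⟩
  · refine (D.abs_sum_om fun j hj => h1 D H j hj).trans ?_
    rw [D.Iw_mul, D.Iw_add]
    have e : D.Iw (fun j => √(D.u 2 j) * (D.f0 j + D.sv D.f0 D.J)) ≤ D.NLa :=
      D.Iw_mono fun j _ => mul_le_mul (le_add_of_nonneg_right (H.f00 j))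
        (le_add_of_nonneg_right (H.lw0 (fun t => mul_nonneg (H.e0 t) (Real.sqrt_nonneg _)) j))
        (add_nonneg (H.f00 j) s0) (add_nonneg (Real.sqrt_nonneg _) (H.f00 j))
    have e' : D.Iw (fun j => √(D.u 2 j) * (D.f0 j + D.sv D.f0 D.J)) + D.Iw (Rw D) ≤ 3 * D.E1 := by
      linarith [H.Z_le]
    nlinarith [mul_le_mul_of_nonneg_left e' c1, mul_nonneg c2 E0]
  · refine (h2 D H a l A ha hl hl' hAd).trans ?_
    have hK : (1 : ℝ) ≤ D.K := by exact_mod_cast (by have := H.cut; omega : 1 ≤ D.K)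
    have lg : 1 ≤ Real.log (D.K + 2) := by
      rw [Real.le_log_iff_exp_le (by linarith)]
      linarith [Real.exp_one_lt_d9]
    have v0 : 0 ≤ D.sv (fun _ => 1) D.J := H.sv0 (fun _ => zero_le_one) _
    set V := 1 + D.sv (fun _ => 1) D.J with hV
    set g := Real.log (D.K + 2) with hg
    have i1 : 0 ≤ D.I (fun t => a t ^ 2 * A t / l t + l t * A t) := H.I0 fun t _ => by
      have := hAd.1 t
      have := hl t
      positivity
    have i2 : 0 ≤ D.I fun t => D.e t * √(D.v t t) :=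
      H.I0 fun t _ => mul_nonneg (H.e0 t) (Real.sqrt_nonneg _)
    have i3 := Real.sqrt_nonneg (D.I fun t => a t ^ 2 * A t)
    have i4 := Real.sqrt_nonneg (D.I fun t => D.e t ^ 2 * A t)
    have i5 : 0 ≤ D.Iw fun j => D.f0 j * (D.f0 j + D.sv D.f0 D.J) :=
      D.Iw0 fun j _ => mul_nonneg (H.f00 j) (add_nonneg (H.f00 j) s0)
    have V1 : 1 ≤ V := by linarith
    have g1 : g * V ≤ g * V ^ 2 := mul_le_mul_of_nonneg_left (by nlinarith) (by linarith)
    have g2 : 1 ≤ g * V ^ 2 := by nlinarith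
    rw [CD.TFa, ← hV, ← hg] at hT
    have e1 := mul_le_mul_of_nonneg_right g1 i1
    have e2 := mul_le_mul_of_nonneg_right g2 (mul_nonneg s0 i3)
    have e3 := mul_le_mul_of_nonneg_right g2 (mul_nonneg i2 i3)
    have e4 := mul_nonneg (zero_le_one.trans g2) (mul_nonneg i4 i3)
    have e : g * V * D.I (fun t => a t ^ 2 * A t / l t + l t * A t) +
        (D.sv D.f0 D.J + D.I fun t => D.e t * av D t) * √(D.I fun t => a t ^ 2 * A t) +
        (D.Iw fun j => D.dx j + Rw D j) ≤ 4 * D.E1 := by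
      rw [D.Iw_add]
      have := H.Iwdx_le
      have := H.Z_le
      show g * V * D.I (fun t => a t ^ 2 * A t / l t + l t * A t) +
        (D.sv D.f0 D.J + D.I fun t => D.e t * √(D.v t t)) * √(D.I fun t => a t ^ 2 * A t) +
        (D.Iw D.dx + D.Iw (Rw D)) ≤ 4 * D.E1
      linarith
    nlinarith [mul_le_mul_of_nonneg_left e c2, mul_nonneg c1 E0]

/-- **`Q2S true` from its leaves** -/
theorem q2T_of (hL : LinkT) (hN : NNS) (hB : BBS) (hO : OBS) (hA : OAS) : Q2S true := by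
  intro τ0
  obtain ⟨C1, c1, h1⟩ := hN τ0
  obtain ⟨C2, c2, h2⟩ := hB τ0
  obtain ⟨C3, c3, h3⟩ := row_bd hO hA τ0
  refine ⟨((1 + τ0) / 2) ^ 2 * (3 * C1 + 2 * C2 + C3), by positivity, fun D H hW => ?_⟩
  have t := H.tau_mem D.K
  have e : D.tw [C40.aU, C40.aU] - (D.QM + D.LOC) = ((1 + D.τ D.K) / 2) ^ 2 *
      (∑ j ∈ D.up, D.om j * Tj D D.B (Rq D) j (nu D j) (nu D j) +
        ∑ j ∈ D.up, D.om j * Tj D D.B (Rq D) j (ind j) (ind j) + ∑ j ∈ D.up, D.om j *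
          (Tj D D.B (Rq D) j (ind j) (nu D j) + Tj D D.B (Rq D) j (nu D j) (ind j))) := by
    rw [hL τ0 D H hW, ← Finset.sum_add_distrib, ← Finset.sum_add_distrib, Finset.mul_sum]
    exact Finset.sum_congr rfl fun j hj => by rw [Tj_split H hj]; ring
  have b1 := D.abs_sum_om fun j hj => h1 D H j hj
  have b2 := D.abs_sum_om fun j hj => h2 D H j hj
  have b3 := h3 D H hW
  rw [D.Iw_mul, D.Iw_add, D.Iw_add, D.Iw_const, ← CD.wt_test hW] at b1
  rw [D.Iw_mul, D.Iw_add] at b2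
  have E1 := H.E1_le hW
  have n1 : D.E0 * D.wt + D.Iw (fun j => D.f0 j * (D.f0 j + D.sv D.f0 D.J)) +
      D.Iw (fun j => ∑ y ∈ Finset.Ico 1 j, D.dx y * D.v y j) ≤ 3 * D.Err := by
    linarith [H.wtE0_le, (q2a_parts H hW).2, H.Z_le, (lad_parts H).2]
  have n2 : D.Iw D.dx + D.Iw (fun j => D.e j * D.v j j) ≤ 2 * D.Err := by
    linarith [H.Iwdx_le, (lad_parts H).1]
  have m1 := mul_le_mul_of_nonneg_left n1 c1
  have m2 := mul_le_mul_of_nonneg_left n2 c2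
  have m3 := mul_le_mul_of_nonneg_left E1 c3
  show |D.tw [C40.aU, C40.aU] - (D.QM + D.LOC)| ≤ _
  rw [e, abs_mul, abs_of_nonneg (sq_nonneg _), mul_assoc]
  refine mul_le_mul (pow_le_pow_left₀ (by linarith [t.1]) (by linarith [t.2]) 2) ?_ (abs_nonneg _)
    (sq_nonneg _)
  refine (abs_add_le _ _).trans ((add_le_add_left (abs_add_le _ _) _).trans ?_)
  linarith

end Crest.Agent.T156.Cas.Q21.G53

end
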