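import Crest.Agent.T156.CQ21D_52
import Crest.Agent.T156.CLink_87
import Crest.Agent.T156.BrB_55
import Crest.Agent.T156.CEx_23
import Crest.Agent.T156.SiteC_94

/-!
# Row 156 (helper87): `LinkT` of `CQ21D_52`

A marked two-letter word is the signed sum `D2` of conditional laws; the bulk factor is centred.
-/

set_option autoImplicit false
set_option linter.all false

noncomputable section

namespace Crest.Agent.T156.Cas.Q21

open Finset
open Crest.Agent.T157.E Crest.Agent.T157.Casc Crest.Agent.T157.SL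
open Crest.Agent.T157.G1 (ov)
open Crest.ProbabilityR.SpinGlassDynamics (spin)
open Q75 Nu87 Mul55 C40 C40.Q10

namespace L87

theorem D2_congr {Φ Ψ : Fin 6 → Fin 6 → Fin 6 → Fin 6 → ℝ}
    (h : ∀ c d e f, c ≠ d → e ≠ f → Φ c d e f = Ψ c d e f) : E91.D2 Φ = E91.D2 Ψ := by
  refine sum_congr rfl fun c _ => sum_congr rfl fun d _ => sum_congr rfl fun e _ =>
    sum_congr rfl fun f _ => ?_
  by_cases h1 : c = d
  · rw [h1, ← Br55.cf_eq 1, Br55.cf_self, zero_mul, zero_mul, zero_mul]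
  by_cases h2 : e = f
  · rw [h2, ← Br55.cf_eq 3, Br55.cf_self, mul_zero, zero_mul, zero_mul]
  rw [h _ _ _ _ (fun x => h1 (Fin.succ_injective _ (Fin.succ_injective _ x))) h2]

theorem D2_add (Φ Ψ : Fin 6 → Fin 6 → Fin 6 → Fin 6 → ℝ) :
    E91.D2 (fun c d e f => Φ c d e f + Ψ c d e f) = E91.D2 Φ + E91.D2 Ψ := by
  simp only [E91.D2, mul_add, sum_add_distrib]

theorem D2_mul (a : ℝ) (Φ : Fin 6 → Fin 6 → Fin 6 → Fin 6 → ℝ) :
    E91.D2 (fun c d e f => a * Φ c d e f) = a * E91.D2 Φ := by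
  simp only [E91.D2, mul_sum, mul_left_comm a]

theorem D2_sum {α : Type} (A : Finset α) (Φ : α → Fin 6 → Fin 6 → Fin 6 → Fin 6 → ℝ) :
    E91.D2 (fun c d e f => ∑ i ∈ A, Φ i c d e f) = ∑ i ∈ A, E91.D2 (Φ i) := by
  classical
  induction A using Finset.induction_on with
  | empty => simp [E91.D2]
  | insert i A hi ih => simp only [sum_insert hi, D2_add, ih]

/-- **a marked word of two letters** -/
theorem twoF_D2 {Ω : Type} [Fintype Ω] {w : Ω → ℝ} (hw : Wt w) {L : List (Lv Ω)} (h : Ω → ℝ)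
    {S T : ℕ → Ω → Ω → ℝ} (hS : S ∈ Ok Ω L.length) (hT : T ∈ Ok Ω L.length) {j : ℕ}
    (hj : j ≤ L.length) (Q : ℕ → Ω → Ω → ℝ) :
    twoF j (Q j) (WdO L [T, S] (TEf w L h)) = E91.D2 fun c d e f => avc (r := 1) L (tw L.length j) 4
      fun τ => TM w L h τ fun x => ed Q 4 5 x τ * (ed T c d x τ * ed S e f x τ) := by
  refine (twoF_eq_nW hw (by simp [hS, hT]) hj Q).trans
    ((Br55.nuc_two (r := 1) L h (tw L.length j) S T (ed Q 0 1)).trans ?_)
  simp only [Br55.cf_eq, E91.D2]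
  simp only [← Finset.sum_product', Finset.univ_product_univ]
  refine Fintype.sum_equiv ⟨fun p => (p.2.2.1, p.2.2.2, p.1, p.2.1),
    fun p => (p.2.2.1, p.2.2.2, p.1, p.2.1), fun _ => rfl, fun _ => rfl⟩ _ _ fun p => ?_
  simp only [Equiv.coe_fn_mk, mul_comm (E91.cf 3 _ _), mul_assoc]
  rfl

variable {D : CD} {τ0 : ℝ}

/-- the law of the split matrix, marked pair at `j` -/
abbrev A4 (D : CD) (j : ℕ) (φ : SM 6 → ℝ) : ℝ := avc (r := 1) D.B (tw D.B.length j) 4 φ

/-- the reference of `LinkT` -/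
abbrev R1 (D : CD) : Rf := (D.q, fun _ => 1, D.q)

theorem lenB : D.B.length = D.K := List.length_map _

theorem lenS : D.S.length = D.B.length := opS_length.trans lenB.symm

/-- site words -/
theorem site (H : D.Ok τ0) {j : ℕ} (hj : j ≤ D.K) {φ ψ : ℕ → ℝ} (h1 : φ 0 = 0) (h2 : ψ 0 = 0) :
    twoF j (oE D.q j) (WdO D.S [fun t a b => φ t * oE D.q t a b, fun t a b => ψ t * oE D.q t a b]
      (TEf (fun _ => 1) D.S 0)) =
      E91.D2 fun c d e f => A4 D j fun τ => φ (τ c d) * ψ (τ e f) * S3 D.S (R1 D) τ 4 5 c d e f := by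
  have ok : ∀ {φ : ℕ → ℝ}, φ 0 = 0 → (fun t a b => φ t * oE D.q t a b) ∈ Ok Bool D.S.length :=
    fun h => ⟨by funext a b; simp [h], _, fun y => by simp only [oE, spin_sq87]; rfl⟩
  rw [twoF_D2 wt_one90 0 (ok h2) (ok h1) (by rw [opS_length]; exact hj) (oE D.q), lenS]
  refine congrArg E91.D2 (funext fun c => funext fun d => funext fun e => funext fun f => ?_)
  refine (avc_tilt lenS (Tp.ex_congr tilt_opS) _ _).trans (congrArg _ (funext fun τ => ?_))
  rw [S3, ← TM_mul]
  refine congrArg _ (funext fun x => ?_)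
  simp only [ed, eK, aK, oE]
  ring

theorem sL_test (hW : D.W.isSome = true) (V : List SK) : D.sL V =
    ∑ j ∈ D.up, D.om j * twoF j (oE D.q j) (WdO D.S V (TEf (fun _ => 1) D.S 0)) := by
  simp only [CD.sL, CD.sH, CD.dd_test hW, List.drop_zero, zero_mul, add_zero, List.map_id',
    Nat.sub_zero]
  rfl

/-- the bulk and site word -/
theorem bulk (H : D.Ok τ0) {j : ℕ} (hj : j ≤ D.K) :
    wB (-1) D.B (oB D.n D.β D.M D.q []) ([C40.aU, C40.aU].map (lt D.n D.β D.M D.q D.cl)) (Sh.two j)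
      (fun _ => 1) (pr2 j (oE D.q j)) = E91.D2 fun c d e f => A4 D j fun τ =>
        ph D (τ c d) * ph D (τ e f) * TM (fun _ => 1) D.B 0 τ
          (fun x => ed (oU D.q) c d x τ * ed (oU D.q) e f x τ) * S3 D.S (R1 D) τ 4 5 c d e f := by
  have hm := lt_mem (β := D.β) H.pos H.ook D.cl C40.aU
  rw [ten_aU, ← op_length (n := D.n) (β := D.β) (q := D.q) 0] at hm
  have l : (op D.n D.β D.M D.q 0).length = D.B.length := (op_length 0).trans lenB.symm
  have e := twoF_D2 wt_one90 (L := op D.n D.β D.M D.q 0) 0 hm hm (j := j)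
    (by rw [op_length]; exact hj) fun t x y => 1 * oE D.q t x.2 y.2
  rw [Ex23.wB_eq H.pos H.ook]
  simp only [List.map, ten_aU]
  refine e.trans (congrArg E91.D2 (funext fun c => funext fun d => funext fun e => funext fun f => ?_))
  rw [l]
  refine (avc_tilt l (Tp.ex_congr (tilt_op 0)) _ _).trans
    (avc_congr (r := 1) (rz_tw _ j) 4 fun τ hτ => ?_)
  rw [S3, mul_assoc, ← Q75.L87.TM_op_zero H.pos H.ook
    (by rw [← show D.B.length = D.M.length from lenB]; exact hτ), ← TM_mul]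
  refine congrArg _ (funext fun x => ?_)
  simp only [ed, eK, aK, oE]
  ring

theorem abs_S3 (H : D.Ok τ0) {R : ℕ} {τ : SM R} (hτ : Rz D.B.length τ) (a b c d e f : Fin R) :
    |S3 D.S (R1 D) τ a b c d e f| ≤ 8 := by
  have hτ' : Rz D.S.length τ := lenS (D := D) ▸ hτ
  have k : ∀ (u v : Fin R) x, |ed (eK D.q) u v x τ| ≤ 2 := fun u v x =>
    abs_oE_le H.ook ((hτ.le u v).trans_eq lenB) _ _
  have hK : aK (fun _ => 1) D.q = eK D.q := by
    funext j x y; simp only [aK, eK, one_mul]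
  have b : ∀ x, |ed (eK D.q) a b x τ * (ed (eK D.q) c d x τ * ed (eK D.q) e f x τ)| ≤ 8 :=
    fun x => by
      rw [abs_mul, abs_mul]
      exact (mul_le_mul (k _ _ x) (mul_le_mul (k _ _ x) (k _ _ x) (abs_nonneg _) zero_le_two)
        (by positivity) zero_le_two).trans_eq (by norm_num)
  have h1 := TM_mono (h := 0) wt_one90 hτ' fun x => (abs_le.1 (b x)).2
  have h2 := TM_mono (h := 0) wt_one90 hτ' fun x => (abs_le.1 (b x)).1
  rw [TM_const wt_one90 hτ'] at h1 h2
  rw [S3, hK]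
  exact abs_le.2 ⟨h2, h1⟩

/-- the top level has weight zero -/
theorem A4_top (H : D.Ok τ0) {j : ℕ} (hj : j < D.K) {c d : Fin 6} (hcd : c ≠ d) {φ : SM 6 → ℝ}
    {b : ℝ} (hb : 0 ≤ b) (h : ∀ τ, Rz D.B.length τ → |φ τ| ≤ b) :
    A4 D j (fun τ => if τ c d = D.K then φ τ else 0) = 0 := by
  refine abs_nonpos_iff.1 ((Site94.abs_avc_le H.mono (rz_tw D.B.length j) 4
    (g := fun τ => if τ c d = D.K then b else 0) fun τ hτ _ => by
      split_ifs
      exacts [h τ hτ, abs_zero.le]).trans ((Site94.avc_pair_le H.mono (lenB (D := D) ▸ hj.le) 4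
    (D := fun t => if t = D.K then b else 0) (fun t => by split_ifs; exacts [hb, le_rfl])
      hcd).trans_eq ?_))
  have : Wp52.Br D.B (fun t => if t = D.K then b else 0) = 0 :=
    sum_eq_zero fun t _ => by
      dsimp only
      split_ifs with e
      · rw [e, show dm D.B 0 D.K = 0 from H.top, zero_mul]
      · rw [mul_zero]
  rw [this, if_neg hj.ne]
  simp

end L87

open L87

/-- **`LinkT`** -/
theorem linkT : LinkT := fun τ0 D H hW => by
  have hS : D.Sd = fun t a b => ph D t * D.del t * oE D.q t a b := by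
    funext t a b
    simp only [CD.Sd, ph]
    split_ifs <;> simp
  have hL : ∀ t, D.lev t = fun u a b => (if u = t then 1 else 0) * oE D.q u a b := fun t => by
    funext u a b
    simp only [CD.lev]
    split_ifs <;> simp
  have p0 : ph D 0 * D.del 0 = 0 := by simp [ph]
  rw [CD.tw, CD.dd_test hW, CD.QM, CD.LOC, sL_test hW]
  simp only [sL_test hW, mul_sum, mul_left_comm _ (D.om _)]
  rw [sum_comm, ← sum_add_distrib, ← sum_sub_distrib]
  refine sum_congr rfl fun j hj => ?_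
  have hK := (CD.mem_up.1 hj).2
  rw [← mul_sum, ← mul_add, ← mul_sub, bulk H hK.le, hS, site H hK.le p0 p0,
    sum_congr rfl fun t ht => by
      have t0 : (if 0 = t then (1 : ℝ) else 0) = 0 := if_neg (by have := (CD.mem_up.1 ht).1; omega)
      rw [hL, site H hK.le (φ := fun u => if u = t then 1 else 0) t0 t0, ← D2_mul],
    ← D2_sum, ← D2_add, Tj, Tm, Tm]
  refine congrArg (D.om j * ·) ?_
  rw [sub_eq_sub_iff_add_eq_add, ← D2_add, ← D2_add]
  refine D2_congr fun c d e f hcd hef => ?_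
  have z := A4_top H hK hcd (b := |ph D D.K * ph D D.K * (D.u 2 D.K - D.del D.K ^ 2)| * 8)
    (φ := fun τ => (if τ c d = τ e f then ph D D.K * ph D D.K * (D.u 2 D.K - D.del D.K ^ 2) else 0) *
      S3 D.S (R1 D) τ 4 5 c d e f) (by positivity) fun τ hτ => by
      rw [abs_mul]
      refine mul_le_mul ?_ (abs_S3 H hτ _ _ _ _ _ _) (abs_nonneg _) (abs_nonneg _)
      split_ifs
      exacts [le_rfl, abs_zero.le.trans (abs_nonneg _)]
  simp only [← avc_mul, ← avc_sum, ← avc_add]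
  refine Eq.trans ?_ ((congrArg (_ + ·) z).trans (add_zero _))
  rw [← avc_add]
  refine avc_congr (r := 1) (rz_tw _ j) 4 fun τ hτ => ?_
  have e1 := A10.TM_cen (h := 0) wt_one90 hτ hcd hef ov D.q
  have e2 : TM (fun _ => 1) D.B 0 τ (fun x => ed (fun _ _ _ => (1 : ℝ)) c d x τ *
      ed (fun _ _ _ => (1 : ℝ)) e f x τ) = 1 := by
    simp only [ed, mul_one]; exact TM_const wt_one90 hτ 1
  have e3 : ∑ t ∈ D.up, D.τ t ^ 2 / 4 * (D.u 2 t - D.del t ^ 2) *
      ((if τ c d = t then 1 else 0) * (if τ e f = t then 1 else 0) * S3 D.S (R1 D) τ 4 5 c d e f) =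
      (if τ c d = τ e f ∧ τ c d ≠ D.K then ph D (τ c d) * ph D (τ c d) *
        (D.u 2 (τ c d) - D.del (τ c d) ^ 2) else 0) * S3 D.S (R1 D) τ 4 5 c d e f := by
    have hle : τ c d ≤ D.K := lenB (D := D) ▸ hτ.le c d
    simp only [ite_mul, one_mul, zero_mul, mul_ite, mul_zero, sum_ite_eq, CD.mem_up, ph]
    by_cases a : τ c d = τ e f
    · rw [← a]
      by_cases b : D.J < τ c d <;> by_cases b' : τ c d = D.K <;>
        simp [b, b', lt_of_le_of_ne hle] <;> (left; left; ring)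
    · simp [a, Ne.symm a]
  rw [e2, e3]
  change _ * TM _ _ _ _ (fun u => (ov (u c) (u d) - D.q (τ c d)) * (ov (u e) (u f) - D.q (τ e f))) * _
    + _ = _ * TM _ _ _ _ (fun u => (ov (u c) (u d) - pi2 _ D.B (τ c d) ov 0) *
      (ov (u e) (u f) - pi2 _ D.B (τ e f) ov 0)) * _ + _ + _
  rw [e1]
  change _ * (_ + D.del (τ c d) * D.del (τ e f)) * _ + _ = _
  by_cases a : τ c d = τ e f <;> by_cases b : τ c d = D.K
  · simp only [if_pos a, if_pos b, b, ne_eq, not_true, and_false, if_false, if_true]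
    ring
  · rw [if_pos a, if_pos ⟨a, b⟩, if_neg b, ← a]
    ring
  · simp only [if_neg a, a, false_and, if_false, zero_mul, ite_self]
    ring
  · simp only [if_neg a, a, false_and, if_false, zero_mul, ite_self]
    ring

end Crest.Agent.T156.Cas.Q21

end
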