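import Crest.Agent.T156.CQ21D_52

/-!
# Row 156 (helper53): the moves of the two-edge trees
-/

set_option autoImplicit false
set_option linter.all false

noncomputable section

namespace Crest.Agent.T156.Cas.Q75.M53

open Finset
open Crest.Agent.T157.E Crest.Agent.T157.Casc Crest.Agent.T157.SL
open Nu87 Ker15 S97 Q21

/-- additivity of two moves -/
def Ad {r : ℕ} (σ₀ σ₁ σ₂ σ₃ : SM r) : Prop := ∀ a c, σ₃ a c + σ₀ a c = σ₁ a c + σ₂ a c

variable {K y x t z k : ℕ}

theorem sl_x (h1 : y ≤ x) (h3 : y ≤ t) : Mv x (sl K y x t) (sl K y (x + 1) t) := fun a b => by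
  fin_cases a <;> fin_cases b <;> simp [sl, m4] <;> omega

theorem sl_t : Mv x (sl K y x x) (sl K y x (x + 1)) := fun a b => by
  fin_cases a <;> fin_cases b <;> simp [sl, m4]

theorem sl_y : Mv y (sl K y x t) (sl K (y + 1) x t) := fun a b => by
  fin_cases a <;> fin_cases b <;> simp [sl, m4]

theorem sl_yy (h1 : y < x) : Mv y (sl K y x y) (sl K (y + 1) x (y + 1)) := fun a b => by
  fin_cases a <;> fin_cases b <;> simp [sl, m4] <;> omega

theorem ad_xy : Ad (sl K y x t) (sl K (y + 1) x t) (sl K y (x + 1) t) (sl K (y + 1) (x + 1) t) :=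
  fun a b => by fin_cases a <;> fin_cases b <;> simp [sl, m4] <;> omega

theorem ad_ty : Ad (sl K y x x) (sl K (y + 1) x x) (sl K y x (x + 1)) (sl K (y + 1) x (x + 1)) :=
  fun a b => by fin_cases a <;> fin_cases b <;> simp [sl, m4] <;> omega

theorem ad_xyy (h1 : y < x) : Ad (sl K y x y) (sl K (y + 1) x (y + 1)) (sl K y (x + 1) y)
    (sl K (y + 1) (x + 1) (y + 1)) :=
  fun a b => by fin_cases a <;> fin_cases b <;> simp [sl, m4] <;> omega

theorem m3_x : Mv x (m3 K y y x) (m3 K y y (x + 1)) := fun a b => by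
  fin_cases a <;> fin_cases b <;> simp [m3]

theorem m3_y : Mv y (m3 K y y x) (m3 K (y + 1) (y + 1) x) := fun a b => by
  fin_cases a <;> fin_cases b <;> simp [m3]

theorem ad_m3 : Ad (m3 K y y x) (m3 K (y + 1) (y + 1) x) (m3 K y y (x + 1))
    (m3 K (y + 1) (y + 1) (x + 1)) :=
  fun a b => by fin_cases a <;> fin_cases b <;> simp [m3] <;> omega

theorem so_x : Mv x (so K z x k) (so K z (x + 1) k) := fun a b => by
  fin_cases a <;> fin_cases b <;> simp [so, m4]

theorem so_k : Mv k (so K z x k) (so K z x (k + 1)) := fun a b => by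
  fin_cases a <;> fin_cases b <;> simp [so, m4]

theorem ad_so : Ad (so K z x k) (so K z (x + 1) k) (so K z x (k + 1)) (so K z (x + 1) (k + 1)) :=
  fun a b => by fin_cases a <;> fin_cases b <;> simp [so, m4] <;> omega

theorem ad_so' : Ad (so K z x k) (so K z x (k + 1)) (so K z (x + 1) k) (so K z (x + 1) (k + 1)) :=
  fun a b => by fin_cases a <;> fin_cases b <;> simp [so, m4] <;> omega

/-! ### parity -/

/-- a replica of degree one, alone above the node `y ≠ j` where all the others pass -/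
theorem oddE_alone {r j : ℕ} {ρ : SM (r + 1)} {u c d e f : Fin (r + 1)} (hy : y < K) (hj : y ≠ j)
    (hu : ∀ v, v ≠ u → ρ u v = y) (hc : c ≠ u) (hd : d ≠ u)
    (he : (e = u ∧ f ≠ u) ∨ (f = u ∧ e ≠ u)) : OddE K j y ρ c d e f := by
  intro τ a b hτ hr hab hj'
  have hv : ∀ v, v ≠ u → τ u.succ.succ v.succ.succ = y := fun v h => (hr u v).trans (hu v h)
  have hs := hτ.self u.succ.succ
  have key : ∀ a b : Fin (r + 3), τ a b = j → y < τ u.succ.succ a → ¬ y < τ u.succ.succ b →
      ¬ y < τ b a ∧ y < τ b b ∧ ∀ v : Fin (r + 1), ¬ y < τ b v.succ.succ := by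
    intro a b h1 h2 h3
    have u1 := hτ.ultra u.succ.succ a b
    have u2 := hτ.ultra b u.succ.succ a
    have c1 := hτ.comm a b
    have c2 := hτ.comm b u.succ.succ
    refine ⟨by omega, by rw [hτ.self]; exact hy, fun v => ?_⟩
    have u3 := hτ.ultra b v.succ.succ u.succ.succ
    have c3 := hτ.comm v.succ.succ u.succ.succ
    by_cases h : v = u
    · subst h; omega
    · have := hv v h; omega
  have fin : ∀ z : Fin (r + 3), ¬ Site94.Crs τ z y c.succ.succ d.succ.succ →
      ¬ (Site94.Crs τ z y a b ↔ Site94.Crs τ z y e.succ.succ f.succ.succ) →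
      Site94.OddAt τ ![a, c.succ.succ, e.succ.succ] ![b, d.succ.succ, f.succ.succ] univ y := by
    intro z h1 h2
    refine ⟨z, ?_⟩
    rw [Finset.card_filter, Fin.sum_univ_three]
    show Odd ((if Site94.Crs τ z y a b then 1 else 0) +
      (if Site94.Crs τ z y c.succ.succ d.succ.succ then 1 else 0) +
      (if Site94.Crs τ z y e.succ.succ f.succ.succ then 1 else 0))
    rw [if_neg h1]
    by_cases h3 : Site94.Crs τ z y a b
    · rw [if_pos h3, if_neg fun h => h2 (iff_of_true h3 h)]; exact odd_one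
    · rw [if_neg h3, if_pos (not_not.1 fun h => h2 (iff_of_false h3 h))]; exact odd_one
  have hc' := hv c hc
  have hd' := hv d hd
  have hef : Site94.Crs τ u.succ.succ y e.succ.succ f.succ.succ := by
    rcases he with ⟨rfl, h⟩ | ⟨rfl, h⟩ <;> have := hv _ h <;> unfold Site94.Crs <;> omega
  have hcd : ¬ Site94.Crs τ u.succ.succ y c.succ.succ d.succ.succ := by
    unfold Site94.Crs; omega
  by_cases h1 : y < τ u.succ.succ a <;> by_cases h2 : y < τ u.succ.succ b
  · exact fin _ hcd fun h => h.2 hef (iff_of_true h1 h2)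
  · obtain ⟨k1, k2, k3⟩ := key a b hj' h1 h2
    exact fin b (fun h => h (iff_of_false (k3 c) (k3 d))) fun h =>
      h.1 (fun h' => k1 (h'.2 k2)) (iff_of_false (k3 e) (k3 f))
  · obtain ⟨k1, k2, k3⟩ := key b a ((hτ.comm b a).trans hj') h2 h1
    exact fin a (fun h => h (iff_of_false (k3 c) (k3 d))) fun h =>
      h.1 (fun h' => k1 (h'.1 k2)) (iff_of_false (k3 e) (k3 f))
  · exact fin _ hcd fun h => h.2 hef (iff_of_false h1 h2)

theorem odd_sl4 {j : ℕ} (hy : y < K) (hj : y ≠ j) : OddE K j y (sl K y x t) 2 3 0 1 :=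
  oddE_alone (u := 1) hy hj (fun v h => by fin_cases v <;> simp_all [sl, m4]) (by decide)
    (by decide) (.inr ⟨rfl, by decide⟩)

theorem odd_m3 {j : ℕ} (hy : y < K) (hj : y ≠ j) : OddE K j y (m3 K y y x) 1 2 0 1 :=
  oddE_alone (u := 0) hy hj (fun v h => by fin_cases v <;> simp_all [m3]) (by decide)
    (by decide) (.inl ⟨rfl, by decide⟩)

/-! ### the weight of the marked edge -/

section
variable {Θ : Type} {L : List (Lv Θ)} {j : ℕ}

theorem wg_no {r : ℕ} {ρ : SM r} (h : ∀ a b, a ≠ b → ρ a b ≠ j) : wg L j ρ = dm L 0 j := by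
  rw [wg, if_neg, add_zero]
  rintro ⟨a, b, h1, h2⟩
  exact h a b h1 h2

theorem wg_yes {r : ℕ} {ρ : SM r} {a b : Fin r} (h : a ≠ b) (h' : ρ a b = j) :
    wg L j ρ = dm L 0 j + 1 := by
  rw [wg, if_pos ⟨a, b, h, h'⟩]

theorem wg_le {r : ℕ} (ρ : SM r) : wg L j ρ ≤ dm L 0 j + 1 := by
  rw [wg]; split_ifs <;> linarith

theorem wg_sl (hd : 0 < dm L 0 j) (hx : x ≠ j) (hy : y ≠ j) :
    wg L j (sl K y x t) = dm L 0 j * omg L j t := by
  rw [omg]
  split_ifs with h
  · rw [wg_yes (a := 0) (b := 2) (by decide) h]; field_simp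
  · rw [mul_one]
    exact wg_no fun a b hab => by
      fin_cases a <;> fin_cases b <;> simp_all [sl, m4] <;> omega

theorem wg_m3 (hx : x ≠ j) (hy : y ≠ j) : wg L j (m3 K y y x) = dm L 0 j :=
  wg_no fun a b hab => by fin_cases a <;> fin_cases b <;> simp_all [m3]

theorem wg_so (hd : 0 < dm L 0 j) (hx : x ≠ j) (hk : k ≠ j) :
    wg L j (so K z x k) = dm L 0 j * omg L j z := by
  rw [omg]
  split_ifs with h
  · rw [wg_yes (a := 0) (b := 2) (by decide) h]; field_simp
  · rw [mul_one]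
    exact wg_no fun a b hab => by fin_cases a <;> fin_cases b <;> simp_all [so, m4]

end

end Crest.Agent.T156.Cas.Q75.M53

end
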