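import Crest.Agent.T156.CQ21M_53
import Crest.Agent.T156.Q2SiteB_97

/-!
# Row 156 (helper97): the marked coefficient with both edges at one node (`SnR`)
-/

set_option autoImplicit false
set_option linter.all false

noncomputable section

namespace Crest.Agent.T156.Cas.Q21

open Finset
open Crest.Agent.T157.E Crest.Agent.T157.Casc Crest.Agent.T157.SL
open Crest.Agent.T156.Cas.Q75
open Crest.Agent.T156.Cas.Q75.A10 (ind)
open Nu87 Ker15 S97 M53
open Site94 (Crs OddAt)

namespace N97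

variable {K j i r : ℕ} {ρ : SM (r + 1)} {c d e f : Fin (r + 1)}

theorem odd3 {R : ℕ} {τ : SM R} {a b c d e f : Fin R} (z : Fin R)
    (h : Crs τ z i a b ↔ (Crs τ z i c d ↔ Crs τ z i e f)) :
    OddAt τ ![a, c, e] ![b, d, f] univ i := by
  refine ⟨z, ?_⟩
  rw [Finset.card_filter, Fin.sum_univ_three]
  show Odd ((if Crs τ z i a b then 1 else 0) + (if Crs τ z i c d then 1 else 0) +
    (if Crs τ z i e f then 1 else 0))
  rw [Nat.odd_iff]
  split_ifs <;> first | rfl | (exfalso; tauto)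

/-- two odd clusters which split at a level other than `j` -/
theorem oddE_two (u v : Fin (r + 1)) (h1 : ρ u v ≤ i) (h2 : ρ u v ≠ j)
    (hu : ¬(Crs ρ u i c d ↔ Crs ρ u i e f)) (hv : ¬(Crs ρ v i c d ↔ Crs ρ v i e f)) :
    OddE K j i ρ c d e f := by
  intro τ a b hτ hr hab hj
  have k : ∀ z x y : Fin (r + 1), Crs τ z.succ.succ i x.succ.succ y.succ.succ ↔ Crs ρ z i x y :=
    fun z x y => by unfold Crs; rw [hr, hr]
  by_cases g1 : Crs τ u.succ.succ i a b
  · by_cases g2 : Crs τ v.succ.succ i a b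
    · exfalso
      have := hr u v
      have := hτ.ultra u.succ.succ a v.succ.succ
      have := hτ.ultra u.succ.succ b v.succ.succ
      have := hτ.ultra u.succ.succ a b
      have := hτ.ultra u.succ.succ b a
      have := hτ.ultra a u.succ.succ b
      have := hτ.ultra b u.succ.succ a
      have := hτ.ultra u.succ.succ v.succ.succ a
      have := hτ.ultra u.succ.succ v.succ.succ b
      have := hτ.comm a b
      have := hτ.comm a u.succ.succ
      have := hτ.comm b u.succ.succ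
      have := hτ.comm a v.succ.succ
      have := hτ.comm b v.succ.succ
      unfold Crs at g1 g2
      omega
    · exact odd3 v.succ.succ (iff_of_false g2 (by rw [k, k]; exact hv))
  · exact odd3 u.succ.succ (iff_of_false g1 (by rw [k, k]; exact hu))

/-- both edges join the same two clusters above `j` -/
theorem oddE_even (hj : j < K) (h : (j < ρ c e ∧ j < ρ d f) ∨ (j < ρ c f ∧ j < ρ d e)) :
    OddE K j j ρ c d e f := by
  intro τ a b hτ hr hab hj'
  have k : ∀ x y : Fin (r + 1), j < ρ x y → (j < τ a x.succ.succ ↔ j < τ a y.succ.succ) :=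
    fun x y hxy => by
      have := hr x y
      have := hτ.ultra a x.succ.succ y.succ.succ
      have := hτ.ultra a y.succ.succ x.succ.succ
      have := hτ.comm x.succ.succ y.succ.succ
      omega
  have s := hτ.self a
  refine odd3 a (iff_of_true (by unfold Crs; omega) ?_)
  unfold Crs
  rcases h with ⟨h1, h2⟩ | ⟨h1, h2⟩
  · rw [k _ _ h1, k _ _ h2]
  · rw [k _ _ h1, k _ _ h2]
    exact not_congr iff_comm

variable {x t t' : ℕ}

theorem odd_n3 (h1 : x ≤ t) (h2 : t < K) (h3 : t ≠ j) : OddE K j t (m3 K x t x) 1 2 0 1 :=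
  oddE_two 0 2 le_rfl h3 (by simp [Crs, m3]; omega) (by simp [Crs, m3]; omega)

theorem odd_n4 (h1 : x ≤ t) (h2 : t < K) (h3 : t ≠ j) :
    OddE K j t (m4 K x x t x x t') 2 3 0 1 :=
  oddE_two 0 2 le_rfl h3 (by simp [Crs, m4]; omega) (by simp [Crs, m4]; omega)

theorem odd_n4' (h1 : x ≤ t') (h2 : t' < K) (h3 : t' ≠ j) :
    OddE K j t' (m4 K x x t x x t') 2 3 0 1 :=
  oddE_two 1 3 le_rfl h3 (by simp [Crs, m4]; omega) (by simp [Crs, m4]; omega)

variable {Θ : Type} {L : List (Lv Θ)}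

theorem ind0 (j t : ℕ) : 0 ≤ ind j t := by unfold ind; split_ifs <;> norm_num

theorem ind_ne (h : t ≠ j) : ind j t = 0 := by unfold ind; split_ifs <;> first | rfl | omega

theorem ind_eq : ind j j = 1 := if_pos rfl

theorem wg_tw (hx : x ≠ j) (hK : x ≤ K) : wg L j (tw K x) = dm L 0 j :=
  wg_no fun a b hab => by
    have h1 := tw_01 hK
    have h2 := (rz_tw K x).comm 1 0
    fin_cases a <;> fin_cases b <;> simp_all

theorem wg_n3 (hx : x ≠ j) : wg L j (m3 K x t x) ≤ dm L 0 j + ind j t := by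
  by_cases h : t = j
  · rw [h, ind_eq]; exact wg_le _
  · rw [ind_ne h, add_zero]
    exact (wg_no fun a b hab => by fin_cases a <;> fin_cases b <;> simp_all [m3]).le

theorem wg_n4 (hx : x ≠ j) : wg L j (m4 K x x t x x t') ≤ dm L 0 j + ind j t + ind j t' := by
  by_cases h : t = j
  · rw [h, ind_eq]; linarith [wg_le (L := L) (j := j) (m4 K x x j x x t'), ind0 j t']
  by_cases h' : t' = j
  · rw [h', ind_eq]; linarith [wg_le (L := L) (j := j) (m4 K x x t x x j), ind0 j t]
  · rw [ind_ne h, ind_ne h', add_zero, add_zero]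
    exact (wg_no fun a b hab => by fin_cases a <;> fin_cases b <;> simp_all [m4]).le

end N97

open N97 in
/-- **`SnR` for the marked coefficient** -/
theorem snR {Θ : Type} {L : List (Lv Θ)} {T : List (Lv Bool)} {q : Rf} {P a : ℕ → ℝ} {j : ℕ}
    {C C' : ℝ}
    (hM : Mono 0 L) (hj : j < L.length) (H : MkH L T q j C P a) (hC : 0 ≤ C) (hP : ∀ i, 0 ≤ P i)
    (hK : 1 ≤ P L.length) (hC' : 2 * C ≤ C') : SnR L (cM L T q j) j C' P := by
  have d0 := dm_nonneg hM j
  have d1 : dm L 0 j ≤ 1 := by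
    have := Finset.single_le_sum (f := fun j => dm L 0 j) (fun j _ => dm_nonneg hM j)
      (Finset.mem_range.2 (Nat.lt_succ_of_le hj.le))
    rwa [sum_dm, ex_length, sub_zero] at this
  have c1 : C ≤ C' := by linarith
  have w2 : ∀ {r : ℕ} (ρ : SM r), C * wg L j ρ ≤ C' := fun ρ =>
    (mul_le_mul_of_nonneg_left ((wg_le ρ).trans (show dm L 0 j + 1 ≤ 2 by linarith)) hC).trans
      (by linarith)
  have up : ∀ {u v : ℝ}, u ≤ v → 0 ≤ v → C * u ≤ C' * v := fun h h0 =>
    (mul_le_mul_of_nonneg_left h hC).trans (mul_le_mul_of_nonneg_right c1 h0)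
  have i0 := ind0 j
  have n1 : ∀ x t t', x ≠ j → x ≤ t → x ≤ t' → x ≤ L.length → t ≤ L.length + 1 →
      t' ≤ L.length + 1 →
      |(cM L T q j).sN L.length x t t'| ≤ C' * (dm L 0 j + ind j t + ind j t') := by
    intro x t t' hx h1 h2 h3 h4 h5
    have := i0 t
    have := i0 t'
    rw [Tw.sN]
    split_ifs with g g' g'
    · refine (H.m0 1 (by omega) _ (rz_tw _ x) 0 1 0 1).trans (up ?_ (by positivity))
      rw [wg_tw hx h3]; linarith
    · exact (H.m0 2 (by omega) _ (rz (um_n3 h2 (by omega))) 1 2 0 1).trans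
        (up ((wg_n3 hx).trans (by linarith)) (by positivity))
    · exact (H.m0 2 (by omega) _ (rz (um_n3 h1 (by omega))) 1 2 0 1).trans
        (up ((wg_n3 hx).trans (by linarith)) (by positivity))
    · exact (H.m0 3 le_rfl _ (rz (um_n4 h1 (by omega) h2 (by omega))) 2 3 0 1).trans
        (up (wg_n4 hx) (by positivity))
  have C0 : 0 ≤ C' := hC.trans c1
  refine ⟨fun x t t' hx h1 h2 h3 h4 h5 => ⟨n1 x t t' hx h1 h2 h3 h4 h5, fun ht hk => ?_,
    fun ht hk => ?_⟩, fun t t' h1 h2 h4 h5 => ⟨?_, fun g1 g2 => ?_⟩,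
    fun σ hσ => (H.m0 2 (by omega) σ hσ 1 2 0 1).trans (w2 σ),
    fun σ hσ => (H.m0 3 le_rfl σ hσ 2 3 0 1).trans (w2 σ)⟩
  · have := i0 t'
    rcases hk.eq_or_lt with e | hk'
    · have h := n1 x t t' hx h1 h2 h3 h4 h5
      rw [ind_ne ht, add_zero] at h
      exact h.trans (le_mul_of_one_le_right (by positivity) (e ▸ hK))
    rw [Tw.sN, if_neg (by omega)]
    split_ifs with g
    · refine (H.mp 2 (by omega) _ (rz (um_n3 h1 hk)) 1 2 0 1 t (odd_n3 h1 hk' ht)).trans
        (mul_le_mul_of_nonneg_right (up ((wg_n3 hx).trans ?_) (by positivity)) (hP t))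
      rw [ind_ne ht]; linarith
    · refine (H.mp 3 le_rfl _ (rz (um_n4 h1 hk h2 (by omega))) 2 3 0 1 t (odd_n4 h1 hk' ht)).trans
        (mul_le_mul_of_nonneg_right (up ((wg_n4 hx).trans ?_) (by positivity)) (hP t))
      rw [ind_ne ht]; linarith
  · have := i0 t
    rcases hk.eq_or_lt with e | hk'
    · have h := n1 x t t' hx h1 h2 h3 h4 h5
      rw [ind_ne ht, add_zero] at h
      exact h.trans (le_mul_of_one_le_right (by positivity) (e ▸ hK))
    rw [Tw.sN, if_neg (show t' ≠ L.length + 1 by omega), if_neg (show t' ≠ L.length + 1 by omega)]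
    split_ifs with g
    · refine (H.mp 2 (by omega) _ (rz (um_n3 h2 hk)) 1 2 0 1 t' (odd_n3 h2 hk' ht)).trans
        (mul_le_mul_of_nonneg_right (up ((wg_n3 hx).trans ?_) (by positivity)) (hP t'))
      rw [ind_ne ht]; linarith
    · refine (H.mp 3 le_rfl _ (rz (um_n4 h1 (by omega) h2 hk)) 2 3 0 1 t'
        (odd_n4' h2 hk' ht)).trans
        (mul_le_mul_of_nonneg_right (up ((wg_n4 hx).trans ?_) (by positivity)) (hP t'))
      rw [ind_ne ht]; linarith
  · rw [Tw.sN]
    split_ifs with g g' g'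
    · exact (H.m0 1 (by omega) _ (rz_tw _ j) 0 1 0 1).trans (w2 _)
    · exact (H.m0 2 (by omega) _ (rz (um_n3 h2 (by omega))) 1 2 0 1).trans (w2 _)
    · exact (H.m0 2 (by omega) _ (rz (um_n3 h1 (by omega))) 1 2 0 1).trans (w2 _)
    · exact (H.m0 3 le_rfl _ (rz (um_n4 h1 (by omega) h2 (by omega))) 2 3 0 1).trans (w2 _)
  · rw [Tw.sN]
    split_ifs with g g' g'
    · have s := (rz_tw L.length j).self
      exact (H.mp 1 (by omega) _ (rz_tw _ j) 0 1 0 1 j (oddE_even hj
        (.inl ⟨hj.trans_eq (s 0).symm, hj.trans_eq (s 1).symm⟩))).trans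
        (mul_le_mul_of_nonneg_right (w2 _) (hP j))
    · exact (H.mp 2 (by omega) _ (rz (um_n3 h2 (by omega))) 1 2 0 1 j (oddE_even hj
        (.inr ⟨hj, g2⟩))).trans (mul_le_mul_of_nonneg_right (w2 _) (hP j))
    · exact (H.mp 2 (by omega) _ (rz (um_n3 h1 (by omega))) 1 2 0 1 j (oddE_even hj
        (.inr ⟨hj, g1⟩))).trans (mul_le_mul_of_nonneg_right (w2 _) (hP j))
    · exact (H.mp 3 le_rfl _ (rz (um_n4 h1 (by omega) h2 (by omega))) 2 3 0 1 j (oddE_even hj
        (.inl ⟨g1, g2⟩))).trans (mul_le_mul_of_nonneg_right (w2 _) (hP j))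

end Crest.Agent.T156.Cas.Q21

end
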