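import Crest.Agent.T156.CQ21D_52

/-!
# Row 156 (helper75): the weighted non-local bound (`NHWS`)
-/

set_option autoImplicit false

noncomputable section

namespace Crest.Agent.T156.Cas.Q21

open Finset
open Crest.Agent.T157.E Crest.Agent.T157.Casc Crest.Agent.T157.SL
open Crest.Agent.T156.Rect52
open Crest.Agent.T156.Cas.Q75
open Crest.Agent.T156.Cas.Q75.A10 (ind)
open Nu87 Wt87

/-- the hypotheses of the weighted non-local bound -/
structure NW {Θ : Type} (L : List (Lv Θ)) (c B : Tw) (j₁ : ℕ) (c₀ : ℝ) (p s a ω : ℕ → ℝ)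
    (b : ℕ → ℕ → ℝ) {V : Type} [AddCommGroup V] [Module ℝ V] (ip : LinearMap.BilinForm ℝ V)
    (δ : ℕ → V) (π : ℕ → ℕ → V) (P : ℕ → V →ₗ[ℝ] V) : Prop
    extends BH L B j₁ c₀ p s a b ip δ π P where
  ctr : c.tr.Eqv c L.length
  reg : RegW L c j₁ c₀ p s ω
  w1 : ∀ t, 1 ≤ ω t
  wt : ω (L.length + 1) = 1
  wl : ∀ z < j₁, ω z = 1
  dw : ∀ i, dm L 0 i * ω i ≤ s i
  ws : ∑ t ∈ range (L.length + 1), dm L 0 t * ω t ≤ 2

section main
variable {Θ : Type} {L : List (Lv Θ)} {c B : Tw} {j₁ : ℕ} {c₀ : ℝ} {p s a ω φ ψ f f' : ℕ → ℝ}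
  {b : ℕ → ℕ → ℝ} {V : Type} [AddCommGroup V] [Module ℝ V] {ip : LinearMap.BilinForm ℝ V}
  {δ : ℕ → V} {π : ℕ → ℕ → V} {P : ℕ → V →ₗ[ℝ] V}

theorem NW.s0 (H : NW L c B j₁ c₀ p s a ω b ip δ π P) (i : ℕ) : 0 ≤ s i :=
  (dm_nonneg H.mono i).trans (H.ds i)

theorem NW.w0 (H : NW L c B j₁ c₀ p s a ω b ip δ π P) (i : ℕ) : 0 ≤ ω i := zero_le_one.trans (H.w1 i)

theorem NW.Sm_le (H : NW L c B j₁ c₀ p s a ω b ip δ π P) {A : Finset ℕ}
    (hA : A ⊆ range (L.length + 1)) {g : ℕ → ℝ} {r : ℝ} (hr : 0 ≤ r)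
    (h : ∀ t ∈ A, |g t| ≤ r * ω t) : |∑ t ∈ A, dm L 0 t * g t| ≤ 2 * r := by
  have d0 := dm_nonneg H.mono
  refine (abs_sum_le_sum_abs _ _).trans ((sum_le_sum (g := fun t => dm L 0 t * ω t * r)
    fun t ht => ?_).trans ?_)
  · rw [abs_mul, abs_of_nonneg (d0 t), mul_assoc, mul_comm (ω t)]
    exact mul_le_mul_of_nonneg_left (h t ht) (d0 t)
  · rw [← sum_mul]
    exact mul_le_mul_of_nonneg_right ((sum_le_sum_of_subset_of_nonneg hA
      fun i _ _ => mul_nonneg (d0 i) (H.w0 i)).trans H.ws) hr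

theorem NW.Lg_le (H : NW L c B j₁ c₀ p s a ω b ip δ π P) {u : ℕ} (hu : u ≤ L.length) {g : ℕ → ℝ}
    {r : ℝ} (hr : 0 ≤ r) (h : ∀ t, u < t → t ≤ L.length + 1 → |g t| ≤ r * ω t) :
    |Lg L u g| ≤ 3 * r := by
  have h1 := H.Sm_le (A := Ioc u L.length) (fun i hi => mem_range.2 (Nat.lt_succ_of_le
    (mem_Ioc.1 hi).2)) hr fun t ht => h t (mem_Ioc.1 ht).1 ((mem_Ioc.1 ht).2.trans (Nat.le_succ _))
  have h2 := h _ (Nat.lt_succ_of_le hu) le_rfl
  rw [H.wt, mul_one] at h2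
  exact (abs_sub _ _).trans (by linarith)

theorem NW.LL (H : NW L c B j₁ c₀ p s a ω b ip δ π P) {u x : ℕ} (hu : u ≤ x) (hx : x ≤ L.length)
    {g : ℕ → ℝ} {r : ℝ} (h : ∀ t, u < t → t ≤ L.length + 1 → |g t| ≤ r * ω t) (h0 : |g x| ≤ r) :
    |Lg L u g + Lx L x g| ≤ 7 * r := by
  have hr := (abs_nonneg _).trans h0
  have h1 := H.Lg_le (hu.trans hx) hr h
  have h2 := H.Lg_le hx hr fun t h1 h2 => h t (hu.trans_lt h1) h2
  have h3 := S97.abs_ex_mul H.mono x h0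
  rw [Lx]
  exact (abs_add_le _ _).trans (by linarith [abs_sub (Lg L x g) (ex L x * g x)])

theorem NW.LO_le (H : NW L c B j₁ c₀ p s a ω b ip δ π P) {y : ℕ} (h1 : j₁ ≤ y) (hy : y ≤ L.length) :
    |LO L c y y| ≤ 16 * p y := by
  have k0 := (H.reg.lx y y h1 le_rfl hy).1
  have k1 := H.LL le_rfl hy (fun t h4 h5 => H.reg.l0 y y t h1 le_rfl hy h4.le h5) k0
  have k3 := S97.abs_mul_le' (S97.kap_abs H.mono y) k0
  rw [LO, cP]
  refine (abs_add_le _ _).trans ?_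
  rw [abs_mul, abs_neg, abs_two]
  linarith

theorem NW.lo_dec (H : NW L c B j₁ c₀ p s a ω b ip δ π P) {y x : ℕ} (h1 : j₁ ≤ y) (hy : y ≤ x)
    (hx : x ≤ L.length) : |LO L (c.mul B) y x - (LO L c y x * ip (δ x) (δ y) -
      2 * Q75.Pt L c ip δ π y x)| ≤ 14 * (p y * (b y x * a x)) := by
  set Y : ℕ → ℝ := fun t => B.lo L.length y x t - (ip (δ x) (δ y) + ip (δ x) (π y (min t x)))
  have hY : ∀ t, y ≤ t → t ≤ L.length + 1 →
      |c.lo L.length y x t * Y t| ≤ p y * (b y x * a x) * ω t :=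
    fun t h2 h3 => by
      rw [abs_mul, mul_right_comm]
      refine mul_le_mul (H.reg.l0 y x t h1 hy hx h2 h3) ?_ (abs_nonneg _)
        (mul_nonneg (H.p0 y) (H.w0 t))
      rcases le_or_gt t x with h | h
      · simp only [Y, min_eq_left h, H.bs.lo1 y x t h2 h hx, sub_self, abs_zero]
        exact mul_nonneg (H.b0 y x) (H.bs.a0 x)
      · simp only [Y, min_eq_right h.le]
        exact H.lo3 y x t hy h h3 hx
  have e : ∀ t, y ≤ t → (c.mul B).lo L.length y x t =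
      ip (δ x) (δ y) * c.lo L.length y x t + ∑ u ∈ Ico y x, ip (δ x) (π y (u + 1) - π y u) *
        (if u < t then c.lo L.length y x t else 0) + c.lo L.length y x t * Y t := fun t ht => by
    have : ∑ u ∈ Ico y x, ip (δ x) (π y (u + 1) - π y u) *
        (if u < t then c.lo L.length y x t else 0) =
        ip (δ x) (π y (min t x)) * c.lo L.length y x t := by
      simp only [mul_ite, mul_zero]
      rw [← sum_filter, ← sum_mul, ← map_sum, show filter (· < t) (Ico y x) = Ico y (min t x) by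
        ext u; simp only [mem_filter, mem_Ico]; omega,
        sum_Ico_sub (π y) (le_min ht hy), H.bs.pi0, sub_zero]
    rw [lo_mul, this]
    simp only [Y]
    ring
  have e1 : cP L (c.mul B) y y x = ip (δ x) (δ y) * cP L c y y x + Q75.Pt L c ip δ π y x +
      (Lg L y (fun t => c.lo L.length y x t * Y t) + Lx L x fun t => c.lo L.length y x t * Y t) := by
    rw [cP, Lg_congr (hy.trans hx) fun t h _ => e t h.le, Lx_congr hx fun t h _ => e t (hy.trans h),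
      Lg_add, Lg_add, Lx_add, Lx_add, Lg_mul, Lx_mul, Lg_sum, Lx_sum, Q75.Pt, cP,
      sum_congr rfl (g := fun u => ip (δ x) (π y (u + 1) - π y u) * Lg L u (c.lo L.length y x))
        fun u hu => by
          rw [Lg_mul, Lg_cut (mem_Ico.1 hu).1 ((mem_Ico.1 hu).2.le.trans hx)],
      sum_congr rfl (f := fun u => Lx L x _)
        (g := fun u => ip (δ x) (π y (u + 1) - π y u) * Lx L x (c.lo L.length y x)) fun u hu => by
          rw [Lx_mul, Lx_congr hx fun t h _ => if_pos ((mem_Ico.1 hu).2.trans_le h)]]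
    simp only [cP, add_mul, sum_add_distrib, mul_comm (ip (δ x) (π y _ - π y _))]
    ring
  have e2 : (c.mul B).lo L.length y x y = c.lo L.length y x y * ip (δ x) (δ y) := by
    rw [lo_mul, H.bs.lo1 y x y le_rfl hy hx, H.bs.pi0, map_zero, add_zero]
  have h := H.LL hy hx (fun t h2 h3 => hY t h2.le h3) (by
    simp only [Y, min_self, H.bs.lo1 y x x hy le_rfl hx, sub_self, mul_zero, abs_zero]
    exact mul_nonneg (H.p0 y) (mul_nonneg (H.b0 y x) (H.bs.a0 x)))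
  rw [LO, LO, e1, e2]
  rw [abs_le] at h ⊢
  constructor <;> nlinarith [h.1, h.2]

theorem NW.pi_bd (H : NW L c B j₁ c₀ p s a ω b ip δ π P) (W : Wf L j₁ ip δ φ f) {y : ℕ}
    (h1 : j₁ ≤ y) (hy : y ≤ L.length) :
    |∑ x ∈ Ico y (L.length + 1), dm L 0 x * φ x * Q75.Pt L c ip δ π y x| ≤
      p y * a y * (7 * f (y + 1) + ∑ i ∈ Ico j₁ L.length, s i * f (i + 1)) := by
  set F : ℕ → V := fun y => ∑ x ∈ Ico y (L.length + 1), (dm L 0 x * φ x) • δ x with hF
  set d : ℕ → V := fun u => π y (u + 1) - π y u with hd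
  have e0 : ∀ u v, ∑ x ∈ Ico v (L.length + 1), dm L 0 x * φ x * ip (δ x) (d u) = ip (F v) (d u) :=
    fun u v => by simp only [hF, map_sum, LinearMap.sum_apply, map_smul, LinearMap.smul_apply,
      smul_eq_mul]
  have e1 : ∑ x ∈ Ico y (L.length + 1), dm L 0 x * φ x * Q75.Pt L c ip δ π y x =
      ∑ u ∈ Ico y L.length, (cP L c y u (u + 1) * ip (F (u + 1)) (d u) +
        ∑ j ∈ Ico (u + 1) L.length, (cP L c y u (j + 1) - cP L c y u j) * ip (F (j + 1)) (d u)) := by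
    simp only [Q75.Pt, mul_sum]
    rw [← sum_Ico_Ico_comm', sum_Ico_succ_top hy, Ico_self, sum_empty, add_zero]
    refine sum_congr rfl fun u _ => ?_
    have := abel_id' (cP L c y u) (fun x => dm L 0 x * φ x * ip (δ x) (d u)) (u + 1) (L.length + 1)
    simp only [e0, Nat.add_sub_cancel] at this
    rw [← this]
    exact sum_congr rfl fun x _ => by ring
  have e2 : ∀ u ∈ Ico y L.length, ip (F (u + 1)) (d u) = ip (F (y + 1)) (d u) := fun u hu => by
    have hu' := mem_Ico.1 hu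
    rw [← e0, ← e0, ← sum_Ico_consecutive _ (show y + 1 ≤ u + 1 by omega)
      (show u + 1 ≤ L.length + 1 by omega), sum_eq_zero (s := Ico (y + 1) (u + 1)) fun v hv => by
        rw [H.bs.or1 y u v hu'.1 hu'.2 (by have := mem_Ico.1 hv; omega), mul_zero], zero_add]
  have pa := mul_nonneg (H.p0 y) (H.bs.a0 y)
  have b1 : |∑ u ∈ Ico y L.length, cP L c y u (u + 1) * ip (F (u + 1)) (d u)| ≤
      f (y + 1) * (7 * p y * a y) := by
    rw [sum_congr rfl fun u hu => by rw [e2 u hu, ← smul_eq_mul, ← map_smul], ← map_sum]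
    refine H.bs.cs (W.nn _) (by linarith) (W.tl _ (by omega)) (H.bs.mart hy le_rfl fun u h2 h3 => ?_)
    have g := fun t h4 h5 => H.reg.l0 y (u + 1) t h1 (by omega) h3 h4 h5
    exact H.LL (Nat.le_succ u) h3 (fun t h4 h5 => g t (h2.trans h4.le) h5)
      (H.reg.lx y (u + 1) h1 (by omega) h3).1
  have b2 : |∑ u ∈ Ico y L.length, ∑ j ∈ Ico (u + 1) L.length,
      (cP L c y u (j + 1) - cP L c y u j) * ip (F (j + 1)) (d u)| ≤
      p y * a y * ∑ i ∈ Ico j₁ L.length, s i * f (i + 1) := by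
    rw [sum_Ico_Ico_comm', mul_sum]
    refine (abs_sum_le_sum_abs _ _).trans ((sum_le_sum fun j hj => ?_).trans
      (sum_le_sum_of_subset_of_nonneg (Ico_subset_Ico_left h1) fun i _ _ =>
        mul_nonneg pa (mul_nonneg (H.s0 i) (W.nn _))))
    have hj' := mem_Ico.1 hj
    rw [sum_congr rfl fun u _ => by rw [← smul_eq_mul, ← map_smul], ← map_sum]
    refine (H.bs.cs (W.nn _) (mul_nonneg (mul_nonneg (H.p0 y) (H.s0 j)) (H.bs.a0 y))
      (W.tl _ (by omega)) (H.bs.mart hj'.1 hj'.2.le fun u h2 h3 =>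
        H.reg.p1 y u j h1 h2 h3 hj'.2)).trans_eq (by ring)
  rw [e1, sum_add_distrib]
  exact (abs_add_le _ _).trans (by linarith)

theorem NW.pi_sum (H : NW L c B j₁ c₀ p s a ω b ip δ π P) (W : Wf L j₁ ip δ φ f)
    (W' : Wf L j₁ ip δ ψ f') :
    2 * |∑ y ∈ Ico j₁ (L.length + 1), dm L 0 y * ψ y *
      ∑ x ∈ Ico y (L.length + 1), dm L 0 x * φ x * Q75.Pt L c ip δ π y x| ≤
      8 * ∑ y ∈ Ico j₁ (L.length + 1), dm L 0 y * (p y * a y) ^ 2 +
      7 * ∑ i ∈ Ico j₁ L.length, s i * f (i + 1) ^ 2 +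
      (∑ i ∈ Ico j₁ L.length, s i * f (i + 1)) ^ 2 := by
  set A := ∑ i ∈ Ico j₁ L.length, s i * f (i + 1)
  have d0 := dm_nonneg H.mono
  rw [← sum_subset (Ico_subset_Ico_right (Nat.le_succ L.length)) fun y h1 h2 => by
    rw [mem_Ico] at h1 h2
    rw [show y = L.length by omega, sum_Ico_succ_top le_rfl, Q75.Pt, Ico_self, sum_empty, sum_empty]
    ring]
  have h1 : ∑ y ∈ Ico j₁ L.length, dm L 0 y * (p y * a y) ^ 2 ≤
      ∑ y ∈ Ico j₁ (L.length + 1), dm L 0 y * (p y * a y) ^ 2 :=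
    sum_le_sum_of_subset_of_nonneg (Ico_subset_Ico_right (Nat.le_succ _))
      fun i _ _ => mul_nonneg (d0 i) (sq_nonneg _)
  have h2 := mul_le_mul_of_nonneg_right (sum_dm_le_one H.mono (A := Ico j₁ L.length)
    fun i hi => mem_range.2 ((mem_Ico.1 hi).2.trans (Nat.lt_succ_self _))) (sq_nonneg A)
  have h3 : 2 * |∑ y ∈ Ico j₁ L.length, dm L 0 y * ψ y *
      ∑ x ∈ Ico y (L.length + 1), dm L 0 x * φ x * Q75.Pt L c ip δ π y x| ≤
      ∑ y ∈ Ico j₁ L.length, (8 * (dm L 0 y * (p y * a y) ^ 2) + 7 * (s y * f (y + 1) ^ 2) +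
        dm L 0 y * A ^ 2) := by
    refine (mul_le_mul_of_nonneg_left (abs_sum_le_sum_abs _ _) zero_le_two).trans ?_
    rw [mul_sum]
    refine sum_le_sum fun y hy => ?_
    have k1 := mul_le_mul (W'.abs_le H.mono y) (H.pi_bd W (mem_Ico.1 hy).1 (mem_Ico.1 hy).2.le)
      (abs_nonneg _) (d0 y)
    have k2 := mul_le_mul_of_nonneg_right (H.ds y) (sq_nonneg (f (y + 1)))
    have k3 := mul_nonneg (d0 y) (sq_nonneg (p y * a y - f (y + 1)))
    have k4 := mul_nonneg (d0 y) (sq_nonneg (p y * a y - A))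
    rw [abs_mul]
    nlinarith
  simp only [sum_add_distrib, ← mul_sum, ← sum_mul] at h3
  linarith

theorem NW.off_bd (H : NW L c B j₁ c₀ p s a ω b ip δ π P) (W : Wf L j₁ ip δ φ f)
    (W' : Wf L j₁ ip δ ψ f') (z : ℕ) :
    |∑ x ∈ Ico (z + 1) (L.length + 1), ∑ k ∈ Ico (z + 1) (L.length + 1),
      dm L 0 x * φ x * (dm L 0 k * ψ k) * (c.off L.length z x k * B.off L.length z x k)| ≤
      ω z * (c₀ * (f (max (z + 1) j₁) ^ 2 + f' (max (z + 1) j₁) ^ 2) +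
      ((∑ i ∈ Ico j₁ L.length, s i * f (i + 1)) ^ 2 + (∑ i ∈ Ico j₁ L.length, s i * f' (i + 1)) ^ 2) +
      ∑ i ∈ Ico j₁ L.length, s i * (f (i + 1) ^ 2 + f' (i + 1) ^ 2)) := by
  have w0 : 0 < ω z := zero_lt_one.trans_le (H.w1 z)
  have dv : ∀ {u v : ℝ}, |u| ≤ ω z * v → |u / ω z| ≤ v := fun h => by
    rwa [abs_div, abs_of_pos w0, div_le_iff₀' w0]
  have m1 := le_max_left (z + 1) j₁
  have m2 := le_max_right (z + 1) j₁
  rw [sum_cut (j := j₁) fun x hx => by simp [W.lw x hx],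
    sum_congr rfl fun x _ => sum_cut (j := j₁) (fun k hk => by simp [W'.lw k hk]) _ _]
  have A3 : 2 * ∑ i ∈ Ico j₁ L.length, s i * (f (i + 1) * f' (i + 1)) ≤
      ∑ i ∈ Ico j₁ L.length, s i * (f (i + 1) ^ 2 + f' (i + 1) ^ 2) := by
    rw [mul_sum]
    exact sum_le_sum fun i _ => by
      nlinarith [mul_nonneg (H.s0 i) (sq_nonneg (f (i + 1) - f' (i + 1)))]
  generalize max (z + 1) j₁ = m at *
  rcases le_or_gt m L.length with hm | hm
  swap
  · rw [Ico_eq_empty (by omega), sum_empty, abs_zero]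
    have := H.c1
    have : 0 ≤ ∑ i ∈ Ico j₁ L.length, s i * (f (i + 1) ^ 2 + f' (i + 1) ^ 2) :=
      sum_nonneg fun i _ => mul_nonneg (H.s0 i) (by positivity)
    positivity
  have h := sq_bd (fun x k => c.off L.length z x k / ω z) (fun i j => dm L 0 i * φ i * (dm L 0 j * ψ j) *
      ip (P z (δ i)) (P z (δ j))) m2 W.nn W'.nn H.s0 zero_le_one (K := L.length) (k0 := c₀)
    (fun x hx y hy => by
      rw [G2_ip]
      simp only [← map_smul (P z), ← map_sum (P z)]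
      exact H.bs.cs (W.nn _) (W'.nn _) ((H.bs.con _ _).trans (W.tl x (m2.trans hx)))
        ((H.bs.con _ _).trans (W'.tl y (m2.trans hy))))
    (dv (H.reg.o0 z m m m1 m1 m2 m2 hm hm))
    (fun i h1 h2 => by
      rw [one_mul, ← sub_div, ← sub_div]
      exact (H.reg.o1 z i m (by omega) m1 (by omega) m2 h2 hm).imp dv dv)
    (fun i h1 h2 => by
      have k1 := (H.reg.o1 z i (i + 1) (by omega) (by omega) (by omega) (by omega) h2 h2).1
      have k2 := (H.reg.o1 z i i (by omega) (by omega) (by omega) (by omega) h2 h2.le).1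
      rw [mx, ← sub_div, ← sub_div, ← add_div]
      refine dv ?_
      rw [abs_le] at k1 k2 ⊢
      constructor <;> linarith [k1.1, k1.2, k2.1, k2.2])
    fun i j h1 h2 h3 h4 h5 => by
      rw [mx, ← sub_div, ← sub_div, ← add_div]
      exact dv (H.reg.o2 z i j (by omega) (by omega) (by omega) (by omega) h2 h4 h5)
  rw [sum_congr rfl fun x hx => sum_congr rfl fun k hk => by
    rw [H.bs.off z x k (by have := mem_Ico.1 hx; omega) (by have := mem_Ico.1 hk; omega)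
      (by have := mem_Ico.1 hx; omega) (by have := mem_Ico.1 hk; omega), mul_left_comm,
      ← mul_div_cancel₀ (c.off L.length z x k) w0.ne', mul_assoc]]
  simp only [← mul_sum]
  rw [abs_mul, abs_of_pos w0]
  refine mul_le_mul_of_nonneg_left (h.trans ?_) w0.le
  have c1 := H.c1
  have k1 := mul_nonneg (sub_nonneg.2 c1) (sq_nonneg (f m))
  have k2 := mul_nonneg (sub_nonneg.2 c1) (sq_nonneg (f' m))
  have k3 := mul_nonneg (zero_le_one.trans c1) (sq_nonneg (f m - f' m))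
  generalize ∑ i ∈ Ico j₁ L.length, s i * f (i + 1) = A1 at *
  generalize ∑ i ∈ Ico j₁ L.length, s i * f' (i + 1) = A2 at *
  nlinarith [sq_nonneg (A1 - f' m), sq_nonneg (A2 - f m), sq_nonneg (A1 - A2)]

theorem NW.off_sum (H : NW L c B j₁ c₀ p s a ω b ip δ π P) (W : Wf L j₁ ip δ φ f)
    (W' : Wf L j₁ ip δ ψ f') :
    |∑ z ∈ range L.length, dm L 0 z * ∑ x ∈ Ico (z + 1) (L.length + 1),
      ∑ k ∈ Ico (z + 1) (L.length + 1),
      dm L 0 x * φ x * (dm L 0 k * ψ k) * (c.off L.length z x k * B.off L.length z x k)| ≤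
      c₀ * (p j₁ * (f j₁ ^ 2 + f' j₁ ^ 2)) +
      2 * ((∑ i ∈ Ico j₁ L.length, s i * f (i + 1)) ^ 2 +
        (∑ i ∈ Ico j₁ L.length, s i * f' (i + 1)) ^ 2) +
      3 * c₀ * ∑ i ∈ Ico j₁ L.length, s i * (f (i + 1) ^ 2 + f' (i + 1) ^ 2) := by
  have d0 := dm_nonneg H.mono
  have c1 := H.c1
  set g : ℕ → ℝ := fun y => f y ^ 2 + f' y ^ 2 with hg
  have g0 : ∀ y, 0 ≤ g y := fun y => by positivity
  have E0 : 0 ≤ ∑ i ∈ Ico j₁ L.length, s i * g (i + 1) :=
    sum_nonneg fun i _ => mul_nonneg (H.s0 i) (g0 _)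
  have h1 : ∑ z ∈ range L.length, dm L 0 z * ω z * g (max (z + 1) j₁) ≤
      p j₁ * g j₁ + ∑ i ∈ Ico j₁ L.length, s i * g (i + 1) := by
    have : range L.length ⊆ range j₁ ∪ Ico j₁ L.length := fun i hi => by
      simp only [mem_union, mem_range, mem_Ico] at hi ⊢; omega
    refine (sum_le_sum_of_subset_of_nonneg this fun i _ _ =>
      mul_nonneg (mul_nonneg (d0 i) (H.w0 i)) (g0 _)).trans ?_
    rw [sum_union (disjoint_left.2 fun i h1 h2 => by
      rw [mem_range] at h1; rw [mem_Ico] at h2; omega)]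
    refine add_le_add ?_ (sum_le_sum fun i hi => ?_)
    · rw [sum_congr rfl fun z hz => by
        rw [max_eq_right (mem_range.1 hz), H.wl z (mem_range.1 hz), mul_one], ← sum_mul]
      exact mul_le_mul_of_nonneg_right H.low (g0 _)
    · rw [max_eq_left ((mem_Ico.1 hi).1.trans (Nat.le_succ i))]
      exact mul_le_mul_of_nonneg_right (H.dw i) (g0 _)
  refine (abs_sum_le_sum_abs _ _).trans ((sum_le_sum fun z _ => (abs_mul _ _).trans_le
    (mul_le_mul (abs_of_nonneg (d0 z)).le (H.off_bd W W' z) (abs_nonneg _)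
      (d0 z))).trans ?_)
  have h2 : ∑ z ∈ range L.length, dm L 0 z * ω z ≤ 2 :=
    (sum_le_sum_of_subset_of_nonneg (range_subset_range.2 (Nat.le_succ _))
      fun i _ _ => mul_nonneg (d0 i) (H.w0 i)).trans H.ws
  simp only [← mul_assoc (dm L 0 _), mul_add (dm L 0 _ * ω _), sum_add_distrib, ← sum_mul,
    mul_left_comm (dm L 0 _ * ω _) c₀, ← mul_sum]
  simp only [hg, mul_add (dm L 0 _ * ω _), sum_add_distrib] at h1 E0
  have h3 := mul_le_mul_of_nonneg_left h1 (zero_le_one.trans c1)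
  have h4 := mul_le_mul_of_nonneg_right (h2.trans (show 2 ≤ 2 * c₀ by linarith)) E0
  have h5 := mul_le_mul_of_nonneg_right h2 (sq_nonneg (∑ i ∈ Ico j₁ L.length, s i * f (i + 1)))
  have h6 := mul_le_mul_of_nonneg_right h2 (sq_nonneg (∑ i ∈ Ico j₁ L.length, s i * f' (i + 1)))
  linarith

theorem NW.main_bd (H : NW L c B j₁ c₀ p s a ω b ip δ π P) (W : Wf L j₁ ip δ φ f)
    (W' : Wf L j₁ ip δ ψ f') (hj : j₁ ≤ L.length) :
    |∑ x ∈ Ico j₁ (L.length + 1), ∑ y ∈ Ico j₁ (L.length + 1), sy (LO L c) x y *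
      (dm L 0 x * φ x * (dm L 0 y * ψ y) * ip (δ x) (δ y))| ≤
      9 * (p j₁ * (f j₁ ^ 2 + f' j₁ ^ 2)) + c₀ *
      ((∑ i ∈ Ico j₁ L.length, s i * f (i + 1)) ^ 2 + (∑ i ∈ Ico j₁ L.length, s i * f' (i + 1)) ^ 2) +
      ∑ i ∈ Ico j₁ L.length, s i * (f (i + 1) ^ 2 + f' (i + 1) ^ 2) := by
  have A3 : 2 * ∑ i ∈ Ico j₁ L.length, s i * (f (i + 1) * f' (i + 1)) ≤
      ∑ i ∈ Ico j₁ L.length, s i * (f (i + 1) ^ 2 + f' (i + 1) ^ 2) := by
    rw [mul_sum]
    exact sum_le_sum fun i _ => by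
      nlinarith [mul_nonneg (H.s0 i) (sq_nonneg (f (i + 1) - f' (i + 1)))]
  have p0 := H.p0 j₁
  have h := sq_bd (sy (LO L c)) (fun i j => dm L 0 i * φ i * (dm L 0 j * ψ j) * ip (δ i) (δ j))
    (le_refl j₁) W.nn W'.nn H.s0 p0 (K := L.length) (k0 := 16 * p j₁)
    (fun x hx y hy => by
      rw [G2_ip]; exact H.bs.cs (W.nn _) (W'.nn _) (W.tl x hx) (W'.tl y hy))
    (by rw [sy_le _ le_rfl]; exact H.LO_le le_rfl hj)
    (fun i h1 h2 => by
      rw [sy_ge _ (h1.trans (Nat.le_succ i)), sy_ge _ h1, sy_le _ (h1.trans (Nat.le_succ i)),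
        sy_le _ h1]
      exact ⟨H.reg.m1 i h1 h2, H.reg.m1 i h1 h2⟩)
    (fun i h1 h2 => by
      have k := H.reg.md i h1 h2
      rw [mx, sy_le _ le_rfl, sy_ge _ (Nat.le_succ i), sy_le _ (Nat.le_succ i), sy_le _ le_rfl]
      rw [abs_le, abs_le] at k
      rw [abs_le]
      constructor <;> linarith [k.1.1, k.1.2, k.2.1, k.2.2])
    fun i j h1 h2 h3 h4 h5 => by
      rcases lt_or_gt_of_ne h5 with h | h
      · rw [mx, sy_le _ (by omega), sy_le _ (by omega), sy_le _ (by omega), sy_le _ h.le]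
        exact H.reg.m2 i j h1 h h4
      · have := H.reg.m2 j i h3 h h2
        rw [mx] at this
        rw [mx, sy_ge _ (by omega), sy_ge _ (by omega), sy_ge _ (by omega), sy_ge _ h.le, mul_comm]
        refine le_of_eq_of_le (congrArg _ (by ring)) this
  refine h.trans ?_
  have c1 := H.c1
  generalize ∑ i ∈ Ico j₁ L.length, s i * f (i + 1) = A1 at *
  generalize ∑ i ∈ Ico j₁ L.length, s i * f' (i + 1) = A2 at *
  have k1 := mul_le_mul_of_nonneg_right (H.pc j₁) (add_nonneg (sq_nonneg A1) (sq_nonneg A2))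
  have k2 := mul_le_mul_of_nonneg_right c1 (add_nonneg (sq_nonneg A1) (sq_nonneg A2))
  nlinarith [mul_nonneg p0 (sq_nonneg (A1 - f' j₁)), mul_nonneg p0 (sq_nonneg (A2 - f j₁)),
    sq_nonneg (A1 - A2), mul_nonneg p0 (sq_nonneg (f j₁ - f' j₁))]

/-- **(B) the non-local part is small** -/
theorem NW.bd (H : NW L c B j₁ c₀ p s a ω b ip δ π P) (W : Wf L j₁ ip δ φ f)
    (W' : Wf L j₁ ip δ ψ f') (hj : j₁ ≤ L.length) :
    |NL L (((Q75.wt φ ψ).mul c).mul B)| ≤ 100 * c₀ * Er2 L j₁ p s a b f f' := by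
  have d0 := dm_nonneg H.mono
  set ρ : ℕ → ℕ → ℝ := fun y x => LO L (c.mul B) y x - (LO L c y x * ip (δ x) (δ y) -
    2 * Q75.Pt L c ip δ π y x) with hρ
  have r0 : ∀ y x, 0 ≤ dm L 0 x * dm L 0 y * (p y * (b y x * a x)) := fun y x =>
    mul_nonneg (mul_nonneg (d0 x) (d0 y)) (mul_nonneg (H.p0 y) (mul_nonneg (H.b0 y x) (H.bs.a0 x)))
  have r1 : ∀ {φ ψ f f' : ℕ → ℝ}, Wf L j₁ ip δ φ f → Wf L j₁ ip δ ψ f' → ∀ n : ℕ → ℕ,
      (∀ x, n x ≤ x + 1) → |∑ x ∈ Ico j₁ (L.length + 1), ∑ y ∈ Ico j₁ (n x),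
        dm L 0 x * φ x * (dm L 0 y * ψ y) * ρ y x| ≤ 14 * ∑ x ∈ Ico j₁ (L.length + 1),
          ∑ y ∈ Ico j₁ (x + 1), dm L 0 x * dm L 0 y * (p y * (b y x * a x)) :=
    fun W W' n hn => by
      rw [mul_sum]
      refine (abs_sum_le_sum_abs _ _).trans (sum_le_sum fun x hx => ?_)
      rw [mul_sum]
      refine (abs_sum_le_sum_abs _ _).trans ((sum_le_sum fun y hy => ?_).trans
        (sum_le_sum_of_subset_of_nonneg (Ico_subset_Ico_right (hn x))
          fun y _ _ => mul_nonneg (by norm_num) (r0 y x)))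
      rw [abs_mul, abs_mul]
      have := hn x
      refine (mul_le_mul (mul_le_mul (W.abs_le H.mono x) (W'.abs_le H.mono y) (abs_nonneg _) (d0 x))
        (H.lo_dec (mem_Ico.1 hy).1 (by have := mem_Ico.1 hy; omega)
          (by have := mem_Ico.1 hx; omega)) (abs_nonneg _) (mul_nonneg (d0 x) (d0 y))).trans_eq
        (by ring)
  have k1 := r1 W W' (· + 1) fun _ => le_rfl
  have k2 := r1 W' W id Nat.le_succ
  have k3 := H.pi_sum W W'
  have k4 := H.pi_sum W' W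
  have k5 := H.main_bd W W' hj
  have k6 := H.off_sum W W'
  have e1 : ∑ x ∈ Ico j₁ (L.length + 1), ∑ y ∈ Ico j₁ (L.length + 1), sy (LO L c) x y *
      (dm L 0 x * φ x * (dm L 0 y * ψ y) * ip (δ x) (δ y)) =
      ∑ x ∈ Ico j₁ (L.length + 1), ∑ y ∈ Ico j₁ (x + 1),
        dm L 0 x * φ x * (dm L 0 y * ψ y) * (LO L c y x * ip (δ x) (δ y)) +
      ∑ y ∈ Ico j₁ (L.length + 1), ∑ x ∈ Ico j₁ y,
        dm L 0 x * φ x * (dm L 0 y * ψ y) * (LO L c x y * ip (δ y) (δ x)) := by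
    rw [← sum_Ico_Ico_comm', ← sum_add_distrib]
    refine sum_congr rfl fun x hx => ?_
    have := mem_Ico.1 hx
    rw [← sum_Ico_consecutive _ (show j₁ ≤ x + 1 by omega) (show x + 1 ≤ L.length + 1 by omega)]
    congr 1
    · exact sum_congr rfl fun y hy => by
        rw [sy_ge _ (by have := mem_Ico.1 hy; omega)]; ring
    · exact sum_congr rfl fun y hy => by
        rw [sy_le _ (by have := mem_Ico.1 hy; omega), H.bs.sym (δ y)]; ring
  have e2 : ∑ y ∈ Ico j₁ (L.length + 1), dm L 0 y * ψ y *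
      ∑ x ∈ Ico y (L.length + 1), dm L 0 x * φ x * Q75.Pt L c ip δ π y x =
      ∑ x ∈ Ico j₁ (L.length + 1), ∑ y ∈ Ico j₁ (x + 1),
        dm L 0 x * φ x * (dm L 0 y * ψ y) * Q75.Pt L c ip δ π y x := by
    rw [← sum_Ico_Ico_comm]
    exact sum_congr rfl fun y _ => by rw [mul_sum]; exact sum_congr rfl fun x _ => by ring
  have e3 : ∑ x ∈ Ico j₁ (L.length + 1), dm L 0 x * φ x *
      ∑ y ∈ Ico x (L.length + 1), dm L 0 y * ψ y * Q75.Pt L c ip δ π x y =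
      ∑ y ∈ Ico j₁ (L.length + 1), ∑ x ∈ Ico j₁ y,
        dm L 0 x * φ x * (dm L 0 y * ψ y) * Q75.Pt L c ip δ π x y := by
    rw [← sum_Ico_Ico_comm']
    refine sum_congr rfl fun x hx => ?_
    rw [sum_eq_sum_Ico_succ_bot (mem_Ico.1 hx).2, Q75.Pt, Ico_self, sum_empty, mul_zero, zero_add,
      mul_sum]
    exact sum_congr rfl fun y _ => by ring
  have e4 : ∀ y x, LO L (c.mul B) y x = LO L c y x * ip (δ x) (δ y) - 2 * Q75.Pt L c ip δ π y x +
    ρ y x := fun y x => by simp only [hρ]; ring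
  rw [e1] at k5
  rw [e2] at k3
  rw [e3] at k4
  simp only [id, mul_comm (dm L 0 _ * ψ _) (dm L 0 _ * φ _)] at k2
  rw [NL_eq H.ctr H.btr W.lw W'.lw, Er2]
  simp only [e4, mul_add (dm L 0 _ * φ _ * _), mul_sub (dm L 0 _ * φ _ * _), sum_add_distrib,
    sum_sub_distrib, mul_left_comm _ (2 : ℝ), ← mul_sum _ _ (2 : ℝ)]
  have c1 := H.c1
  have n1 : 0 ≤ p j₁ * (f j₁ ^ 2 + f' j₁ ^ 2) := mul_nonneg (H.p0 _) (by positivity)
  have n2 : 0 ≤ ∑ i ∈ Ico j₁ L.length, s i * (f (i + 1) ^ 2 + f' (i + 1) ^ 2) :=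
    sum_nonneg fun i _ => mul_nonneg (H.s0 i) (by positivity)
  have n3 : 0 ≤ ∑ y ∈ Ico j₁ (L.length + 1), dm L 0 y * (p y * a y) ^ 2 :=
    sum_nonneg fun i _ => mul_nonneg (d0 i) (sq_nonneg _)
  have n4 : 0 ≤ ∑ x ∈ Ico j₁ (L.length + 1), ∑ y ∈ Ico j₁ (x + 1),
      dm L 0 x * dm L 0 y * (p y * (b y x * a x)) :=
    sum_nonneg fun x _ => sum_nonneg fun y _ => r0 y x
  have n5 : ∑ i ∈ Ico j₁ L.length, s i * (f (i + 1) ^ 2 + f' (i + 1) ^ 2) =
      ∑ i ∈ Ico j₁ L.length, s i * f (i + 1) ^ 2 + ∑ i ∈ Ico j₁ L.length, s i * f' (i + 1) ^ 2 := by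
    simp only [mul_add, sum_add_distrib]
  have m1 := mul_le_mul_of_nonneg_right c1 n1
  have m2 := mul_le_mul_of_nonneg_right c1 n2
  have m3 := mul_le_mul_of_nonneg_right c1 n3
  have m4 := mul_le_mul_of_nonneg_right c1 n4
  have n6 := add_nonneg (sq_nonneg (∑ i ∈ Ico j₁ L.length, s i * f (i + 1)))
    (sq_nonneg (∑ i ∈ Ico j₁ L.length, s i * f' (i + 1)))
  have m5 := mul_le_mul_of_nonneg_right c1 n6
  rw [abs_le] at k1 k2 k5 k6 ⊢
  have k3' := abs_le.1 ((le_div_iff₀' two_pos).2 k3)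
  have k4' := abs_le.1 ((le_div_iff₀' two_pos).2 k4)
  constructor <;> linarith [k1.1, k1.2, k2.1, k2.2, k5.1, k5.2, k6.1, k6.2, k3'.1, k3'.2, k4'.1,
    k4'.2]


theorem NW.ind_bd (H : NW L c B j₁ c₀ p s a ω b ip δ π P) {t : ℕ} (h1 : j₁ ≤ t) (ht : t ≤ L.length) :
    |NL L ((Q75.wt (ind t) (ind t)).mul c)| ≤ 100 * c₀ * dm L 0 t ^ 2 := by
  have e : (Q75.wt (ind t) (ind t)).mul c = ((Q75.wt (ind t) (ind t)).mul c).mul ⟨1, 1, 1⟩ := by
    simp only [Tw.mul, Pi.one_apply, mul_one]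
  have e' : c.mul ⟨1, 1, 1⟩ = c := by simp only [Tw.mul, Pi.one_apply, mul_one]
  have z : ∀ x < t, ind t x = 0 := fun x hx => if_neg hx.ne
  have s1 : ∀ (g : ℕ → ℝ) (A : Finset ℕ), ∑ x ∈ A, dm L 0 x * ind t x * g x =
      if t ∈ A then dm L 0 t * g t else 0 := fun g A => by
    simp only [ind, mul_ite, ite_mul, mul_one, mul_zero, zero_mul, sum_ite_eq']
  rw [e, NL_eq (j₁ := t) H.ctr ⟨fun _ _ => rfl, fun _ _ => rfl, fun _ _ => rfl⟩ z z, e']
  have k1 : ∑ x ∈ Ico t (L.length + 1), ∑ y ∈ Ico t (x + 1),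
      dm L 0 x * ind t x * (dm L 0 y * ind t y) * LO L c y x = dm L 0 t ^ 2 * LO L c t t := by
    simp only [mul_assoc (dm L 0 _ * ind t _), ← mul_sum, s1]
    rw [if_pos (mem_Ico.2 (by omega)), if_pos (mem_Ico.2 (by omega))]
    ring
  have k2 : ∑ y ∈ Ico t (L.length + 1), ∑ x ∈ Ico t y,
      dm L 0 x * ind t x * (dm L 0 y * ind t y) * LO L c x y = 0 := sum_eq_zero fun y _ =>
    sum_eq_zero fun x hx => by
      have := mem_Ico.1 hx
      rw [ind, ind, if_neg (show y ≠ t by omega)]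
      ring
  have c0 : 0 ≤ c₀ := zero_le_one.trans H.c1
  have k3 := H.Sm_le (A := range L.length) (range_subset_range.2 (Nat.le_succ _))
    (r := dm L 0 t ^ 2 * c₀) (by positivity) (g := fun z => ∑ x ∈ Ico (z + 1) (L.length + 1),
      ∑ k ∈ Ico (z + 1) (L.length + 1), dm L 0 x * ind t x * (dm L 0 k * ind t k) *
        (c.off L.length z x k * (⟨1, 1, 1⟩ : Tw).off L.length z x k)) fun z _ => by
      simp only [mul_assoc (dm L 0 _ * ind t _), ← mul_sum, s1]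
      split_ifs with h
      · have := mem_Ico.1 h
        rw [← mul_assoc, ← sq, abs_mul, abs_of_nonneg (sq_nonneg _), mul_assoc, mul_comm c₀]
        refine mul_le_mul_of_nonneg_left ?_ (sq_nonneg _)
        simpa [Tw.off] using H.reg.o0 z t t (by omega) (by omega) h1 h1 ht ht
      · rw [abs_zero]; exact mul_nonneg (by positivity) (H.w0 z)
  have k4 := mul_le_mul_of_nonneg_left ((H.LO_le h1 ht).trans
    (mul_le_mul_of_nonneg_left (H.pc t) (by norm_num))) (sq_nonneg (dm L 0 t))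
  rw [k1, k2, add_zero]
  refine (abs_add_le _ _).trans ?_
  rw [abs_mul, abs_of_nonneg (sq_nonneg _)]
  nlinarith [mul_nonneg (sq_nonneg (dm L 0 t)) c0]

end main

theorem nhwS : NHWS := fun _ _ _ _ _ _ _ _ _ _ _ _ _ _ _ _ _ _ _ _ _ _ H h1 h2 h3 h4 h5 h6 h7 h8 =>
  have G : NW _ _ _ _ _ _ _ _ _ _ _ _ _ _ := ⟨H, h1, h2, h3, h4, h5, h6, h7⟩
  ⟨fun _ => G.ind_bd, fun W W' => G.bd W W' h8⟩

end Crest.Agent.T156.Cas.Q21

end
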