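import Crest.Agent.T156.CQ21D_52
import Crest.Agent.T156.CErr_54

/-!
# Row 156 (helper54): the word `[aU, aU]` in the test direction, final glue
-/

set_option autoImplicit false
set_option linter.unusedSectionVars false

noncomputable section

namespace Crest.Agent.T156.Cas.Q21

open Finset
open Crest.Agent.T157.E Crest.Agent.T157.Casc Crest.Agent.T157.SL
open Crest.Agent.T156.Cas.Q75
open Crest.Agent.T156.Cas.Q75.A10 (ind)
open Nu87 C40 C40.Q10

namespace Z54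

section gen
variable {Θ : Type} [Fintype Θ] {L : List (Lv Θ)} {T : List (Lv Bool)} {q q' : Rf} {j : ℕ}
  {Ω : Type} [Fintype Ω] {w : Ω → ℝ} {B : List (Lv Ω)} {h : Ω → ℝ} {U : ℕ → Ω → Ω → ℝ}

/-- additivity in the label weight -/
theorem Tm_add (A A' : ℕ → ℕ → ℝ) :
    Tm L T q j w B h U (fun x y => A x y + A' x y) =
      Tm L T q j w B h U A + Tm L T q j w B h U A' := by
  simp only [Tm, add_mul, avc_add, E91.D2, mul_add, sum_add_distrib]

/-- a factor moves from the label weight into the site edges -/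
theorem Tm_scale {A A' : ℕ → ℕ → ℝ} {α : ℕ → ℝ} (c : ℝ) (h1 : q'.1 = q.1)
    (h2 : ∀ x ≤ L.length, ∀ a b, aK q'.2.1 q'.2.2 x a b = α x * aK q.2.1 q.2.2 x a b)
    (hA : ∀ x ≤ L.length, ∀ y ≤ L.length, A x y = c * (A' x y * (α x * α y))) :
    Tm L T q j w B h U A = c * Tm L T q' j w B h U A' := by
  simp only [Tm, E91.D2, mul_sum]
  refine sum_congr rfl fun a _ => sum_congr rfl fun b _ => sum_congr rfl fun e _ =>
    sum_congr rfl fun f _ => ?_
  rw [mul_left_comm c]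
  refine congrArg _ ((avc_congr (L := L) (r := 1) (rz_tw _ j) 4 fun τ hτ => ?_).trans
    (avc_mul (L := L) (r := 1) c 4 _))
  have e : S3 T q' τ 4 5 a.succ.succ b.succ.succ e f =
      α (τ a.succ.succ b.succ.succ) * α (τ e f) * S3 T q τ 4 5 a.succ.succ b.succ.succ e f := by
    rw [S3, S3, ← TM_mul]
    refine congrArg _ (funext fun x => ?_)
    simp only [ed, h1, h2 _ (hτ.le _ _)]
    ring
  rw [e, hA _ (hτ.le _ _) _ (hτ.le _ _)]
  ring

end gen

variable {D : CD} {τ0 : ℝ}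

theorem Tj_add (q : Rf) (j : ℕ) (φ φ' : ℕ → ℝ) :
    Tj D D.B q j (fun x => φ x + φ' x) (fun x => φ x + φ' x) =
      Tj D D.B q j φ φ + Tj D D.B q j φ' φ' + (Tj D D.B q j φ' φ + Tj D D.B q j φ φ') := by
  have e1 : (fun x y => (φ x + φ' x) * (φ y + φ' y)) = fun x y =>
      φ x * φ y + φ' x * φ' y + (φ' x * φ y + φ x * φ' y) := by
    funext x y
    ring
  have e2 : (fun x y => if x = y then (φ x + φ' x) * (φ x + φ' x) * (D.u 2 x - D.del x ^ 2)
      else 0) = fun x y => (if x = y then φ x * φ x * (D.u 2 x - D.del x ^ 2) else 0) +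
        (if x = y then φ' x * φ' x * (D.u 2 x - D.del x ^ 2) else 0) +
        ((if x = y then φ' x * φ x * (D.u 2 x - D.del x ^ 2) else 0) +
          if x = y then φ x * φ' x * (D.u 2 x - D.del x ^ 2) else 0) := by
    funext x y
    split_ifs <;> ring
  simp only [Tj, e1, e2, Tm_add]
  ring

/-- the factor -/
def cc (D : CD) : ℝ := (1 + D.τ D.K) ^ 2 / 4

theorem Tj_eq (H : D.Ok τ0) {j : ℕ} (hj : j ∈ D.up) :
    Tj D D.B (D.q, fun _ => 1, D.q) j (ph D) (ph D) = cc D *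
      (Tj D D.B (Rq D) j (nu D j) (nu D j) + Tj D D.B (Rq D) j (ind j) (ind j) +
        (Tj D D.B (Rq D) j (ind j) (nu D j) + Tj D D.B (Rq D) j (nu D j) (ind j))) := by
  have hK : (1 + D.τ D.K) ≠ 0 := by have := (H.tau_mem D.K).1; positivity
  have p : ∀ x, ph D x = (1 + D.τ D.K) / 2 * ((nu D j x + ind j x) * (D.τ x / (1 + D.τ D.K))) :=
    fun x => by
      have := (CD.mem_up.1 hj).1
      simp only [ph, nu, nj, ind]
      split_ifs <;> first | omega | (field_simp; try ring)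
  have k : ∀ x ≤ D.B.length, ∀ a b, aK (Rq D).2.1 (Rq D).2.2 x a b =
      D.τ x / (1 + D.τ D.K) * aK (fun _ => 1) D.q x a b := fun x hx a b => by
    rw [D.B_len] at hx
    simp only [aK, Rq, min_eq_left hx]
    ring
  rw [← Tj_add, Tj, Tj, mul_sub]
  refine congrArg₂ (· - ·) (Tm_scale _ rfl k fun x _ y _ => ?_) (Tm_scale _ rfl k fun x _ y _ => ?_)
  · rw [p x, p y, cc]
    ring
  · split_ifs with e
    · rw [← e, p x, cc]
      ring
    · ring

theorem abs_cc (H : D.Ok τ0) : |cc D| ≤ (1 + τ0) ^ 2 / 4 := by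
  have h := H.tau_mem D.K
  rw [cc, abs_of_nonneg (by positivity)]
  gcongr
  exacts [by linarith [h.1], h.2]

theorem av0 (D : CD) (t : ℕ) : 0 ≤ av D t := Real.sqrt_nonneg _

/-- the parts of `q2a` -/
theorem q2a (H : D.Ok τ0) :
    D.Iw (fun j => av D j * (D.f0 j + D.sv D.f0 D.J + D.hi (av D) j)) ≤ D.Z ∧
      D.Iw (fun j => D.f0 j * (D.f0 j + D.sv D.f0 D.J)) ≤ D.Z := by
  have l0 := fun j => H.lw0 (fun k => mul_nonneg (H.e0 k) (av0 D k)) j
  have s0 := H.sv0 H.f00 D.J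
  have h0 : 0 ≤ D.wt * D.I (fun j => √(D.v j j) * D.lw (fun k => D.e k * √(D.v k k)) j) *
      D.dd 0 1 :=
    mul_nonneg (mul_nonneg D.wt0 (H.I0 fun j _ => mul_nonneg (av0 D j) (l0 j))) (by
      unfold CD.dd
      split <;> norm_num)
  have h1 : D.Iw (fun j => av D j * (D.f0 j + D.sv D.f0 D.J + D.hi (av D) j)) ≤
      D.Iw (fun j => √(D.v j j) * (D.f0 j + D.sv D.f0 D.J +
        D.lw (fun k => D.e k * √(D.v k k)) j + D.hi (fun k => √(D.v k k)) j)) :=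
    D.Iw_mono fun j _ => mul_le_mul_of_nonneg_left
      (add_le_add_left (le_add_of_nonneg_right (l0 j)) _) (av0 D j)
  have h2 : 0 ≤ D.Iw (fun j => av D j * (D.f0 j + D.sv D.f0 D.J + D.hi (av D) j)) :=
    D.Iw0 fun j _ => mul_nonneg (av0 D j)
      (add_nonneg (add_nonneg (H.f00 j) s0) (H.hi0 (av0 D) j))
  have h3 : 0 ≤ D.Iw (fun j => D.f0 j * (D.f0 j + D.sv D.f0 D.J)) :=
    D.Iw0 fun j _ => mul_nonneg (H.f00 j) (add_nonneg (H.f00 j) s0)
  have := H.q2a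
  constructor <;> linarith

theorem Iw_Rw (H : D.Ok τ0) : D.Iw (Rw D) ≤ 2 * D.E1 := by
  have h : D.Iw (Rw D) = _ + D.Lad1 := D.Iw_add _ _
  linarith [(q2a H).1, H.Z_le, H.Lad1_le]

theorem bd_nn (h : NNS) : Bd true fun D =>
    ∑ j ∈ D.up, D.om j * Tj D D.B (Rq D) j (nu D j) (nu D j) := fun τ0 => by
  obtain ⟨C, C0, h⟩ := h τ0
  refine ⟨C * 3, by positivity, fun D H hW => (D.abs_sum_om (h D H)).trans ?_⟩
  have l : D.Iw (fun j => ∑ y ∈ Finset.Ico 1 j, D.dx y * D.v y j) ≤ D.Lad1 :=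
    D.Iw_mono fun j _ => le_add_of_nonneg_left (mul_nonneg (H.e0 j) (D.v0 j j))
  rw [D.Iw_mul, D.Iw_add, D.Iw_add, D.Iw_const, ← CD.wt_test hW, mul_assoc]
  refine mul_le_mul_of_nonneg_left ?_ C0
  linarith [(q2a H).2, H.Z_le, H.Lad1_le, H.wtE0_le, H.E1_le hW, mul_comm D.wt D.E0]

theorem bd_bb (h : BBS) : Bd true fun D =>
    ∑ j ∈ D.up, D.om j * Tj D D.B (Rq D) j (ind j) (ind j) := fun τ0 => by
  obtain ⟨C, C0, h⟩ := h τ0
  refine ⟨C * 2, by positivity, fun D H hW => (D.abs_sum_om (h D H)).trans ?_⟩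
  have l : D.Iw (fun j => D.e j * D.v j j) ≤ D.Lad1 :=
    D.Iw_mono fun j _ => le_add_of_nonneg_right (H.sv_low0 _ _)
  rw [D.Iw_mul, D.Iw_add, mul_assoc]
  refine mul_le_mul_of_nonneg_left ?_ C0
  linarith [H.Iwdx_le, H.Lad1_le, H.E1_le hW]

theorem num {Λ s P R m E r W Z : ℝ} (hΛ : 1 / 2 ≤ Λ) (hs : 0 ≤ s) (hP : 0 ≤ P) (hR : 0 ≤ R)
    (hm : 0 ≤ m) (hE : 0 ≤ E) (hr : 0 ≤ r) (hW : 0 ≤ W)
    (h : Λ * (1 + s) ^ 2 * (P + (r + m) * R) + W + Λ * (1 + s) ^ 2 * (E * R) ≤ Z) :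
    Λ * (1 + s) * P + (m + E) * R ≤ 2 * Z := by
  have h1 : 1 + s ≤ (1 + s) ^ 2 := by nlinarith
  have h2 : Λ * (1 + s) ≤ Λ * (1 + s) ^ 2 := by gcongr
  have h3 : 1 / 2 ≤ Λ * (1 + s) ^ 2 := by nlinarith
  generalize Λ * (1 + s) ^ 2 = G at *
  have := mul_le_mul_of_nonneg_right h2 hP
  have := mul_le_mul_of_nonneg_right h3 (mul_nonneg (add_nonneg hm hE) hR)
  have : 0 ≤ G * P := by positivity
  have : 0 ≤ G * (r * R) := by positivity
  nlinarith

theorem bd_one (hB : OBS) (hA : OAS) : Bd true fun D => ∑ j ∈ D.up, D.om j *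
    (Tj D D.B (Rq D) j (ind j) (nu D j) + Tj D D.B (Rq D) j (nu D j) (ind j)) := fun τ0 => by
  obtain ⟨C, C0, h⟩ := hB τ0
  obtain ⟨C', C0', h'⟩ := hA τ0
  refine ⟨C * 3 + C' * 5, by positivity, fun D H hW => ?_⟩
  have E0 := H.Err0
  have e1 := H.E1_le hW
  have z := H.Z_le
  have r := Iw_Rw H
  rcases H.nl2 with n | ⟨a, l, A, h1, h2, h3, h4, h5⟩
  · refine (D.abs_sum_om (h D H)).trans ?_
    have l : D.Iw (fun j => √(D.u 2 j) * (D.f0 j + D.sv D.f0 D.J)) ≤ D.NLa :=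
      D.Iw_mono fun j _ => mul_le_mul (le_add_of_nonneg_right (H.f00 j))
        (le_add_of_nonneg_right (H.lw0 (fun k => mul_nonneg (H.e0 k) (av0 D k)) j))
        (add_nonneg (H.f00 j) (H.sv0 H.f00 _)) (add_nonneg (Real.sqrt_nonneg _) (H.f00 j))
    rw [D.Iw_mul, D.Iw_add]
    have : C * (D.Iw (fun j => √(D.u 2 j) * (D.f0 j + D.sv D.f0 D.J)) + D.Iw (Rw D)) ≤
        C * (3 * D.Err) := mul_le_mul_of_nonneg_left (by linarith) C0
    nlinarith [mul_nonneg C0' E0]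
  · refine (h' D H a l A h1 h2 h3 h4).trans ?_
    have g : (1 : ℝ) / 2 ≤ Real.log (D.K + 2) :=
      le_trans (by linarith [Real.log_two_gt_d9])
        (Real.log_le_log two_pos (le_add_of_nonneg_left (Nat.cast_nonneg _)))
    have k := num g (H.sv0 (fun _ => zero_le_one) D.J)
      (H.I0 fun t _ => add_nonneg (div_nonneg (mul_nonneg (sq_nonneg (a t)) (h4.1 t)) (h2 t).le)
        (mul_nonneg (h2 t).le (h4.1 t))) (Real.sqrt_nonneg _) (H.sv0 H.f00 D.J)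
      (H.I0 fun t _ => mul_nonneg (H.e0 t) (av0 D t)) (Real.sqrt_nonneg _)
      (D.Iw0 fun j _ => mul_nonneg (H.f00 j) (add_nonneg (H.f00 j) (H.sv0 H.f00 _))) h5
    rw [D.Iw_add]
    refine (mul_le_mul_of_nonneg_left (c := 5 * D.Err) ?_ C0').trans ?_
    · linarith [H.Iwdx_le]
    · nlinarith [mul_nonneg C0 E0]

end Z54

open Z54

/-- **the glue** -/
theorem q2T_of (hL : LinkT) (hN : NNS) (hB : BBS) (hO : OBS) (hA : OAS) : Q2S true :=
  (Bd.bmul (c := cc) (fun τ0 => ⟨_, fun _ H _ => abs_cc H⟩)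
    (((bd_nn hN).add (bd_bb hB)).add (bd_one hO hA))).congr fun τ0 D H hW => by
      rw [hL τ0 D H hW, ← sum_add_distrib, ← sum_add_distrib, mul_sum]
      exact sum_congr rfl fun j hj => by rw [Tj_eq H hj]; ring

end Crest.Agent.T156.Cas.Q21

end
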