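import Crest.Agent.T156.CasDef_88
import Crest.Agent.T156.BdD_27

/-!
# Row 156: the lower tail of a convex function with the true variance (helper67)

`x ↦ x⁻¹ log E exp (x G)` is convex on `(-∞, 0)` (`Bd.BdStmt`), so it lies above its tangent at
`0-`.
-/

set_option autoImplicit false
set_option linter.unusedSectionVars false

noncomputable section

namespace Crest.Agent.T156.Cas

open MeasureTheory Real Set Filter Topology
open Crest.Agent.T157.E Crest.Agent.T157.Casc Crest.Agent.T157.SL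

namespace Low

variable {ι : Type} [Fintype ι]

theorem eg_int {Φ : (ι → ℝ) → ℝ} (h : Eg Φ) : Integrable Φ (gv ι) := by
  classical
  obtain ⟨C, c, -, -, h3⟩ := h.bd
  exact ((int_exp c).const_mul C).mono' h.cont.aestronglyMeasurable (.of_forall fun g => h3 g)

/-- a convex function of linear growth is Lipschitz -/
theorem lip_of_convex {F : (ι → ℝ) → ℝ} (hc : ConvexOn ℝ univ F) (hF : Lg F) :
    ∃ c : ℝ, ∀ u w, |F u - F w| ≤ c * ‖u - w‖ := by
  obtain ⟨C, c, hC, hc0, h3⟩ := hF.bd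
  have h4 : ∀ z, |F z| ≤ C + c * ‖z‖ := fun z => h3 (0, z) trivial
  have key : ∀ u w, F u - F w ≤ c * ‖u - w‖ := by
    intro u w
    set K := 2 * (C + c * ‖w‖) with hK
    have hK0 : 0 ≤ K := by positivity
    refine le_of_forall_pos_le_add fun ε hε => ?_
    set s := ε / (K + ε) with hs
    have s0 : 0 < s := by positivity
    have s1 : s ≤ 1 := by rw [hs, div_le_one (by positivity)]; linarith
    have h5 := hc.2 (mem_univ w) (mem_univ (w + s⁻¹ • (u - w))) (sub_nonneg.2 s1) s0.le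
      (by ring)
    have e : (1 - s) • w + s • (w + s⁻¹ • (u - w)) = u := by
      rw [smul_add, smul_smul, mul_inv_cancel₀ s0.ne', one_smul, sub_smul, one_smul]; abel
    rw [e] at h5
    have h6 : ‖w + s⁻¹ • (u - w)‖ ≤ ‖w‖ + s⁻¹ * ‖u - w‖ := by
      refine (norm_add_le _ _).trans ?_
      rw [norm_smul, Real.norm_eq_abs, abs_of_pos (inv_pos.2 s0)]
    have h7 := (abs_le.1 (h4 (w + s⁻¹ • (u - w)))).2
    have h8 := (abs_le.1 (h4 w)).1
    have h9 : F (w + s⁻¹ • (u - w)) ≤ C + c * ‖w‖ + s⁻¹ * (c * ‖u - w‖) := by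
      have := mul_le_mul_of_nonneg_left h6 hc0
      nlinarith
    have h10 := mul_le_mul_of_nonneg_left h9 s0.le
    have e2 : s * (C + c * ‖w‖ + s⁻¹ * (c * ‖u - w‖)) = s * (C + c * ‖w‖) + c * ‖u - w‖ := by
      field_simp
    have h11 : s * K ≤ ε := by
      rw [hs, div_mul_eq_mul_div, div_le_iff₀ (by positivity)]; nlinarith
    have h12 := mul_le_mul_of_nonneg_left h8 s0.le
    simp only [smul_eq_mul] at h5
    rw [e2] at h10
    rw [hK] at h11
    nlinarith
  refine ⟨c, fun u w => abs_le.2 ⟨?_, key u w⟩⟩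
  have := key w u
  rw [norm_sub_rev] at this
  linarith

theorem exp_le_cub (u : ℝ) : exp u ≤ 1 + u + u ^ 2 / 2 + |u| ^ 3 * exp |u| := by
  have h := Complex.norm_exp_sub_sum_le_norm_mul_exp (u : ℂ) 3
  have e : Complex.exp (u : ℂ) - ∑ m ∈ Finset.range 3, (u : ℂ) ^ m / (m.factorial : ℂ) =
      ((exp u - (1 + u + u ^ 2 / 2) : ℝ) : ℂ) := by
    simp [Finset.sum_range_succ, Nat.factorial]
  rw [e, Complex.norm_real, Complex.norm_real, Real.norm_eq_abs, Real.norm_eq_abs] at h
  linarith [le_abs_self (exp u - (1 + u + u ^ 2 / 2))]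

/-- the centred case -/
theorem core (hB : Bd.BdStmt) {G : (ι → ℝ) → ℝ} (hc : ConvexOn ℝ univ G) (hG : Lg G)
    (h0 : ∫ g, G g ∂gv ι = 0) {t : ℝ} (ht : 0 < t) :
    log (∫ g, exp (-t * G g) ∂gv ι) ≤ t ^ 2 / 2 * ∫ g, G g ^ 2 ∂gv ι := by
  obtain ⟨c, hl⟩ := lip_of_convex hc hG
  have ie : ∀ x : ℝ, Integrable (fun g => exp (x * G g)) (gv ι) := fun x => eg_int (hG.exp x)
  have iG : Integrable G (gv ι) := eg_int hG.eg
  have i2 : Integrable (fun g => G g ^ 2) (gv ι) := eg_int (hG.eg.pow 2)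
  have hA : Lg fun g => |G g| := by
    obtain ⟨C, c, -, -, h3⟩ := hG.bd
    exact Lg.of hG.eg.cont.abs C c fun z => by simpa using h3 (0, z) trivial
  have i3 : Integrable (fun g => |G g| ^ 3 * exp (2 * t * |G g|)) (gv ι) :=
    eg_int ((hG.eg.abs.pow 3).mul (hA.exp (2 * t)))
  set V := ∫ g, G g ^ 2 ∂gv ι with hV
  set K := ∫ g, |G g| ^ 3 * exp (2 * t * |G g|) ∂gv ι with hK
  have V0 : 0 ≤ V := integral_nonneg fun g => sq_nonneg _
  have K0 : 0 ≤ K := integral_nonneg fun g => by positivity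
  have pos : ∀ x : ℝ, 0 < ∫ g, exp (x * G g) ∂gv ι := fun x => integral_exp_pos (ie x)
  -- Jensen
  have lo : ∀ x : ℝ, 0 ≤ log (∫ g, exp (x * G g) ∂gv ι) := by
    intro x
    refine log_nonneg ?_
    have : ∫ g, (1 + x * G g) ∂gv ι ≤ ∫ g, exp (x * G g) ∂gv ι :=
      integral_mono ((integrable_const _).add (iG.const_mul x)) (ie x) fun g => by
        have := add_one_le_exp (x * G g)
        simp only
        linarith
    rw [integral_add (integrable_const _) (iG.const_mul x), integral_const_mul, h0] at this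
    simpa using this
  -- Taylor
  have up : ∀ y : ℝ, 0 ≤ y → y ≤ 2 * t →
      log (∫ g, exp (-y * G g) ∂gv ι) ≤ y ^ 2 / 2 * V + y ^ 3 * K := by
    intro y y0 y1
    have a1 : Integrable (fun g => 1 + -y * G g) (gv ι) := (integrable_const _).add (iG.const_mul _)
    have a2 : Integrable (fun g => 1 + -y * G g + y ^ 2 / 2 * G g ^ 2) (gv ι) :=
      a1.add (i2.const_mul _)
    have : ∫ g, exp (-y * G g) ∂gv ι ≤ ∫ g, (1 + -y * G g + y ^ 2 / 2 * G g ^ 2 +
        y ^ 3 * (|G g| ^ 3 * exp (2 * t * |G g|))) ∂gv ι := by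
      refine integral_mono (ie _) (a2.add (i3.const_mul _)) fun g => ?_
      have b1 := exp_le_cub (-y * G g)
      have b2 : |-y * G g| = y * |G g| := by rw [abs_mul, abs_neg, abs_of_nonneg y0]
      rw [b2] at b1
      have b3 : exp (y * |G g|) ≤ exp (2 * t * |G g|) :=
        exp_le_exp.2 (mul_le_mul_of_nonneg_right y1 (abs_nonneg _))
      have b4 := mul_le_mul_of_nonneg_left b3 (by positivity : 0 ≤ (y * |G g|) ^ 3)
      simp only
      nlinarith
    rw [integral_add a2 (i3.const_mul _), integral_add a1 (i2.const_mul _),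
      integral_add (integrable_const _) (iG.const_mul _), integral_const_mul, integral_const_mul,
      integral_const_mul, h0] at this
    have b := log_le_sub_one_of_pos (pos (-y))
    simp only [integral_const, probReal_univ, smul_eq_mul] at this
    linarith
  set Λ := log (∫ g, exp (-t * G g) ∂gv ι) with hΛ
  have main : ∀ s : ℝ, 0 < s → s ≤ 1 → Λ ≤ t ^ 2 / 2 * V + s * (t ^ 2 / 2 * V + 4 * t ^ 3 * K) := by
    intro s s0 s1
    have hb := hB ι G G G c s (-(s ^ 2 * t)) (-t) s0.le s1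
      (.inr ⟨neg_lt_zero.2 (by positivity), neg_lt_zero.2 ht⟩) hl hl hl fun a b => by
        simpa using hc.2 (mem_univ a) (mem_univ b) (sub_nonneg.2 s1) s0.le (by ring)
    set r := 1 + (1 - s) * s with hr
    have r1 : 1 ≤ r := by nlinarith
    have r2 : r ≤ 1 + s := by nlinarith
    have e : (1 - s) * -(s ^ 2 * t) + s * -t = -(s * t * r) := by rw [hr]; ring
    rw [e] at hb
    have y0 : 0 < s * t * r := by positivity
    have y1 : s * t * r ≤ 2 * t := by
      have : s * r ≤ 2 := by nlinarith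
      nlinarith
    have u := up (s * t * r) y0.le y1
    have l := lo (-(s ^ 2 * t))
    have n1 : (1 - s) * ((-(s ^ 2 * t))⁻¹ * log (∫ g, exp (-(s ^ 2 * t) * G g) ∂gv ι)) ≤ 0 := by
      refine mul_nonpos_of_nonneg_of_nonpos (sub_nonneg.2 s1) (mul_nonpos_of_nonpos_of_nonneg ?_ l)
      rw [inv_nonpos, neg_nonpos]; positivity
    have n2 : -(s * t * r / 2 * V + (s * t * r) ^ 2 * K) ≤
        (-(s * t * r))⁻¹ * log (∫ g, exp (-(s * t * r) * G g) ∂gv ι) := by
      rw [inv_neg, neg_mul, neg_le_neg_iff, inv_mul_le_iff₀ y0]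
      refine u.trans (le_of_eq ?_)
      ring
    have n3 : s * (t⁻¹ * Λ) ≤ s * t * r / 2 * V + (s * t * r) ^ 2 * K := by
      have : s * ((-t)⁻¹ * Λ) = -(s * (t⁻¹ * Λ)) := by rw [inv_neg]; ring
      change _ ≤ _ + s * ((-t)⁻¹ * Λ) at hb
      linarith
    have n4 : Λ ≤ t ^ 2 / 2 * V * r + s * (t ^ 3 * K * r ^ 2) := by
      have := mul_le_mul_of_nonneg_left n3 (by positivity : 0 ≤ t / s)
      have e1 : t / s * (s * (t⁻¹ * Λ)) = Λ := by field_simp
      have e2 : t / s * (s * t * r / 2 * V + (s * t * r) ^ 2 * K) =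
          t ^ 2 / 2 * V * r + s * (t ^ 3 * K * r ^ 2) := by field_simp
      rwa [e1, e2] at this
    have n5 : t ^ 2 / 2 * V * r ≤ t ^ 2 / 2 * V * (1 + s) :=
      mul_le_mul_of_nonneg_left r2 (by positivity)
    have n6 : t ^ 3 * K * r ^ 2 ≤ t ^ 3 * K * 4 :=
      mul_le_mul_of_nonneg_left (by nlinarith) (by positivity)
    have n7 := mul_le_mul_of_nonneg_left n6 s0.le
    nlinarith
  refine le_of_forall_pos_le_add fun ε hε => ?_
  set B := t ^ 2 / 2 * V + 4 * t ^ 3 * K with hBdef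
  have B0 : 0 ≤ B := by positivity
  refine (main (ε / (B + ε)) (by positivity) (by rw [div_le_one (by positivity)]; linarith)).trans
    (add_le_add_right ?_ _)
  rw [div_mul_eq_mul_div, div_le_iff₀ (by positivity)]
  nlinarith

theorem low (hB : Bd.BdStmt) (F : (ι → ℝ) → ℝ) (hc : ConvexOn ℝ univ F) (hF : Lg F) (t : ℝ)
    (ht : 0 ≤ t) : ∫ g, exp (-(t * (F g - ∫ g', F g' ∂gv ι))) ∂gv ι ≤
      exp (t ^ 2 / 2 * ((∫ g, F g ^ 2 ∂gv ι) - (∫ g, F g ∂gv ι) ^ 2)) := by
  rcases ht.eq_or_lt with rfl | ht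
  · simp
  set m := ∫ g', F g' ∂gv ι with hm
  have iF : Integrable F (gv ι) := eg_int hF.eg
  have i2 : Integrable (fun g => F g ^ 2) (gv ι) := eg_int (hF.eg.pow 2)
  have hG : Lg fun g => F g - m := by
    obtain ⟨C, c, -, -, h3⟩ := hF.bd
    refine Lg.of (hF.eg.cont.sub continuous_const) (C + |m|) c fun z => ?_
    have h4 : |F z| ≤ C + c * ‖z‖ := h3 (0, z) trivial
    have := abs_sub (F z) m
    linarith
  have hc' : ConvexOn ℝ univ fun g => F g - m := by
    simp only [sub_eq_add_neg]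
    exact hc.add_const (-m)
  have h0 : ∫ g, (F g - m) ∂gv ι = 0 := by
    rw [integral_sub iF (integrable_const _)]; simp [hm]
  have h1 := core hB hc' hG h0 ht
  have e : ∫ g, (F g - m) ^ 2 ∂gv ι = (∫ g, F g ^ 2 ∂gv ι) - m ^ 2 := by
    have a1 : Integrable (fun g => F g ^ 2 - 2 * m * F g) (gv ι) := i2.sub (iF.const_mul _)
    rw [show (fun g => (F g - m) ^ 2) = fun g => F g ^ 2 - 2 * m * F g + m ^ 2 from
      funext fun g => by ring, integral_add a1 (integrable_const _),
      integral_sub i2 (iF.const_mul _), integral_const_mul, ← hm]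
    simp only [integral_const, probReal_univ, smul_eq_mul]
    ring
  rw [e, log_le_iff_le_exp (integral_exp_pos (eg_int (hG.exp (-t))))] at h1
  simpa only [neg_mul] using h1

end Low

theorem lowStmt : LowStmt := fun _ _ F hc hF t ht => Low.low Bd.bdStmt F hc hF t ht

end Crest.Agent.T156.Cas

end
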