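import Crest.Agent.T156.HsA_98
import Crest.Agent.T156.CaLow_67
import Crest.Agent.T156.CaTr_32

/-!
# Row 156: the Helffer–Sjöstrand inequality in the `lE` frame (helper98)

`Var f ≤ ‖∇f‖²_{-1}` for the law `∝ exp (-U) γ`, `U` convex.  No PDE: polynomials are dense in
`L²(μ)`, `(λ + A) Poly` is dense (Kato–Rellich), the kernel of `A*` is made of constants, and the
Bochner identity holds on polynomials.  Corollaries: `blStmt`, Poincaré.
-/

set_option autoImplicit false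
set_option maxHeartbeats 400000

noncomputable section

namespace Crest.Agent.T156.Cas

open MeasureTheory Real Set Filter Topology
open Crest.Agent.T157.E Crest.Agent.T157.Casc Crest.Agent.T157.SL
open scoped RealInnerProductSpace

/-- **Helffer–Sjöstrand**, dual form with the Hessian -/
def HsStmt : Prop := ∀ (ι : Type) [Fintype ι] (U f : (ι → ℝ) → ℝ) (U₁ f₁ : ι → (ι → ℝ) → ℝ)
  (U₂ : ι → ι → (ι → ℝ) → ℝ) (K : ℝ), ConvexOn ℝ univ U → Lg U → Gr U U₁ →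
  (∀ i, Gr (U₁ i) (U₂ i)) → Gr f f₁ → 0 ≤ K →
  (∀ (u : ι → (ι → ℝ) → ℝ) (u₁ : ι → ι → (ι → ℝ) → ℝ), (∀ e, Gr (u e) (u₁ e)) →
    ∑ e, lE U (fun g => f₁ e g * u e g) ≤ K * √(∑ e, ∑ j, lE U (fun g => u₁ e j g ^ 2) +
      lE U fun g => ∑ i, u i g ^ 2 + ∑ i, ∑ j, U₂ i j g * u i g * u j g)) →
  lC U f f ≤ K ^ 2

namespace Hs98

variable {ι : Type} [Fintype ι] {U f h Θ : (ι → ℝ) → ℝ} {U₁ f₁ h₁ Θ₁ : ι → (ι → ℝ) → ℝ}
  {U₂ : ι → ι → (ι → ℝ) → ℝ}

/-- the law `∝ exp (-U) γ` -/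
def mu (U : (ι → ℝ) → ℝ) : Measure (ι → ℝ) := (gv ι).tilted fun g => -U g

theorem eg_exp_neg (hU : Lg U) : Eg fun g => exp (-U g) := by
  simpa using hU.exp (-1)

theorem prob (hU : Lg U) : IsProbabilityMeasure (mu U) :=
  isProbabilityMeasure_tilted (Tr.eg_int (eg_exp_neg hU))

theorem lE_eq (U f : (ι → ℝ) → ℝ) : lE U f = ∫ g, f g ∂mu U := by
  rw [mu, integral_tilted, lE, ← integral_div]
  refine integral_congr_ae (Eventually.of_forall fun g => ?_)
  simp only [smul_eq_mul]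
  ring

theorem egi (hU : Lg U) (hf : Eg f) : Integrable f (mu U) := by
  rw [mu, integrable_tilted_iff (Tr.eg_int (eg_exp_neg hU))]
  exact Tr.eg_int ((eg_exp_neg hU).mul hf)

theorem mem2 (hU : Lg U) (hf : Eg f) : MemLp f 2 (mu U) :=
  (memLp_two_iff_integrable_sq hf.cont.aestronglyMeasurable).2 (egi hU (hf.pow 2))

theorem stein0 (hΘ : Gr Θ Θ₁) (i : ι) : ∫ g, g i * Θ g ∂gv ι = ∫ g, Θ₁ i g ∂gv ι := by
  classical
  refine T157.SL.stein (hΘ.eg.toEG univ) ((hΘ.eg' i).toEG univ) (mem_univ 0) i fun y => ?_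
  have h1 : HasDerivAt (fun s : ℝ => Function.update y i s) (Pi.single i 1) (y i) :=
    hasDerivAt_update y i (y i)
  have h2 := hΘ.hasDerivAt h1
  simp only [Function.update_eq_self] at h2
  refine h2.congr_deriv ?_
  simp [Pi.single_apply]

theorem stein_mu (hU : Lg U) (h1 : Gr U U₁) (hΘ : Gr Θ Θ₁) (i : ι) :
    ∫ g, ((g i + U₁ i g) * Θ g - Θ₁ i g) ∂mu U = 0 := by
  have h := stein0 ((h1.exp hU (-1)).mul hΘ) i
  have e1 := (hU.exp (-1))
  rw [← lE_eq, lE, div_eq_zero_iff]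
  left
  rw [← sub_eq_zero, ← integral_sub (Tr.eg_int ((Eg.coord i).mul (e1.mul hΘ.eg)))
    (Tr.eg_int (((e1.mul ((h1.eg' i).const_mul _)).mul hΘ.eg).add (e1.mul (hΘ.eg' i))))] at h
  rw [← h]
  refine integral_congr_ae (Eventually.of_forall fun g => ?_)
  simp only [neg_mul, one_mul]
  ring

/-- the generator (with a sign) on polynomials -/
def Af (U₁ : ι → (ι → ℝ) → ℝ) (p : MvPolynomial ι ℝ) (g : ι → ℝ) : ℝ :=
  ∑ i, ((g i + U₁ i g) * ev (D i p) g - ev (D i (D i p)) g)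

/-- the perturbation -/
def Bf (U₁ : ι → (ι → ℝ) → ℝ) (p : MvPolynomial ι ℝ) (g : ι → ℝ) : ℝ :=
  ∑ i, U₁ i g * ev (D i p) g

theorem eg_Af (h1 : Gr U U₁) (p : MvPolynomial ι ℝ) : Eg (Af U₁ p) :=
  Eg.sum _ fun i _ => (((Eg.coord i).add (h1.eg' i)).mul (eg_ev _)).sub (eg_ev _)

theorem eg_Bf (h1 : Gr U U₁) (p : MvPolynomial ι ℝ) : Eg (Bf U₁ p) :=
  Eg.sum _ fun i _ => (h1.eg' i).mul (eg_ev _)

theorem Af_eq (p : MvPolynomial ι ℝ) (g : ι → ℝ) : Af U₁ p g = ev (Nop p) g + Bf U₁ p g := by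
  rw [ev_Nop, Af, Bf, ← Finset.sum_add_distrib]
  exact Finset.sum_congr rfl fun _ _ => by ring

theorem green (hU : Lg U) (h1 : Gr U U₁) (hh : Gr h h₁) (p : MvPolynomial ι ℝ) :
    ∫ g, h g * Af U₁ p g ∂mu U = ∑ i, ∫ g, h₁ i g * ev (D i p) g ∂mu U := by
  have e : (fun g => h g * Af U₁ p g) = fun g => ∑ i, (((g i + U₁ i g) * (h g * ev (D i p) g) -
      (h₁ i g * ev (D i p) g + h g * ev (D i (D i p)) g)) + h₁ i g * ev (D i p) g) := by
    funext g
    rw [Af, Finset.mul_sum]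
    exact Finset.sum_congr rfl fun _ _ => by ring
  have i1 : ∀ i, Eg fun g => (g i + U₁ i g) * (h g * ev (D i p) g) -
      (h₁ i g * ev (D i p) g + h g * ev (D i (D i p)) g) := fun i =>
    (((Eg.coord i).add (h1.eg' i)).mul (hh.eg.mul (eg_ev _))).sub
      (((hh.eg' i).mul (eg_ev _)).add (hh.eg.mul (eg_ev _)))
  rw [e, integral_finsetSum _ fun i _ => egi hU ((i1 i).add ((hh.eg' i).mul (eg_ev _)))]
  refine Finset.sum_congr rfl fun i _ => ?_
  rw [integral_add (egi hU (i1 i)) (egi hU ((hh.eg' i).mul (eg_ev _))),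
    stein_mu hU h1 (hh.mul (gr_ev (D i p))) i, zero_add]

theorem gr_Af (h2 : ∀ i, Gr (U₁ i) (U₂ i)) (p : MvPolynomial ι ℝ) :
    Gr (Af U₁ p) fun j g => Af U₁ (D j p) g + ev (D j p) g + ∑ i, U₂ i j g * ev (D i p) g := by
  classical
  have h := Gr.sum Finset.univ fun i (_ : i ∈ Finset.univ) =>
    ((((gr_coord i).add (h2 i)).mul (gr_ev (D i p))).add ((gr_ev (D i (D i p))).const_mul (-1)))
  have e : Af U₁ p = fun z => ∑ i, ((z i + U₁ i z) * ev (D i p) z + -1 * ev (D i (D i p)) z) := by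
    funext z
    exact Finset.sum_congr rfl fun _ _ => by ring
  rw [e]
  refine h.congr fun j z => ?_
  have e2 : ev (D j p) z = ∑ i, (if j = i then (1 : ℝ) else 0) * ev (D i p) z := by simp
  rw [e2, Af, ← Finset.sum_add_distrib, ← Finset.sum_add_distrib]
  refine Finset.sum_congr rfl fun i _ => ?_
  rw [D_comm j i (D i p), D_comm j i p]
  convert_to _ = ((if j = i then (1 : ℝ) else 0) + U₂ i j z) * ev (D i p) z +
    (z i + U₁ i z) * ev (D i (D j p)) z + -1 * ev (D i (D i (D j p))) z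
  ring

theorem bochner (hU : Lg U) (h1 : Gr U U₁) (h2 : ∀ i, Gr (U₁ i) (U₂ i)) (p : MvPolynomial ι ℝ) :
    ∫ g, Af U₁ p g * Af U₁ p g ∂mu U = ∑ e, ∑ j, ∫ g, ev (D j (D e p)) g ^ 2 ∂mu U +
      ∫ g, (∑ i, ev (D i p) g ^ 2 + ∑ i, ∑ j, U₂ i j g * ev (D i p) g * ev (D j p) g) ∂mu U := by
  rw [green hU h1 (gr_Af h2 p) p]
  have i2 : ∀ j, Eg fun g => ev (D j p) g ^ 2 + ∑ i, U₂ i j g * ev (D i p) g * ev (D j p) g :=
    fun j => ((eg_ev _).pow 2).add
      (Eg.sum _ fun i _ => (((h2 i).eg' j).mul (eg_ev _)).mul (eg_ev _))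
  have e : (fun g => ∑ i, ev (D i p) g ^ 2 + ∑ i, ∑ j, U₂ i j g * ev (D i p) g * ev (D j p) g) =
      fun g => ∑ j, (ev (D j p) g ^ 2 + ∑ i, U₂ i j g * ev (D i p) g * ev (D j p) g) := by
    funext g
    rw [Finset.sum_add_distrib, Finset.sum_comm]
  rw [e, integral_finsetSum _ fun j _ => egi hU (i2 j), ← Finset.sum_add_distrib]
  refine Finset.sum_congr rfl fun j _ => ?_
  have e3 : (fun g => (Af U₁ (D j p) g + ev (D j p) g + ∑ i, U₂ i j g * ev (D i p) g) *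
      ev (D j p) g) = fun g => ev (D j p) g * Af U₁ (D j p) g +
        (ev (D j p) g ^ 2 + ∑ i, U₂ i j g * ev (D i p) g * ev (D j p) g) := by
    funext g
    rw [← Finset.sum_mul]
    ring
  rw [e3, integral_add (egi hU ((eg_ev _).mul (eg_Af h1 _))) (egi hU (i2 j)),
    green hU h1 (gr_ev (D j p)) (D j p)]
  simp only [sq]

theorem grad_bd (hc : ConvexOn ℝ univ U) (hU : Lg U) (h1 : Gr U U₁) :
    ∃ c : ℝ, ∀ i g, |U₁ i g| ≤ c := by
  classical
  obtain ⟨c, hc⟩ := Low.lip_of_convex hc hU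
  refine ⟨|c|, fun i g => ?_⟩
  have h := (h1.fd g).le_of_lip' (abs_nonneg c) (Eventually.of_forall fun x =>
    (hc x g).trans (mul_le_mul_of_nonneg_right (le_abs_self c) (norm_nonneg _)))
  have h2 := (Crest.Agent.R339.Guerra.dual fun x => U₁ x g).le_opNorm (Pi.single i 1)
  rw [Pi.norm_single, norm_one, mul_one] at h2
  have e : (Crest.Agent.R339.Guerra.dual fun x => U₁ x g) (Pi.single i 1) = U₁ i g := by
    simp [Pi.single_apply]
  rw [e] at h2
  exact h2.trans h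

theorem hess_nonneg (hc : ConvexOn ℝ univ U) (h1 : Gr U U₁) (h2 : ∀ i, Gr (U₁ i) (U₂ i))
    (g η : ι → ℝ) : 0 ≤ ∑ i, ∑ j, U₂ i j g * η i * η j := by
  have c1 : ConvexOn ℝ univ fun s : ℝ => U (g + s • η) := by
    have := hc.comp_affineMap (AffineMap.lineMap g (g + η))
    simp only [preimage_univ] at this
    have e : (fun s : ℝ => U (g + s • η)) = U ∘ AffineMap.lineMap g (g + η) := by
      funext s
      simp [AffineMap.lineMap_apply, add_comm]
    rw [e]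
    exact this
  have d1 := h1.line g η
  have m1 : Monotone fun s : ℝ => ∑ i, U₁ i (g + s • η) * η i := by
    have := c1.monotoneOn_deriv fun s _ => (d1 s).differentiableAt
    rw [monotoneOn_univ] at this
    convert this using 2 with s
    exact (d1 s).deriv.symm
  have d2 : HasDerivAt (fun s : ℝ => ∑ i, U₁ i (g + s • η) * η i)
      (∑ i, (∑ j, U₂ i j (g + (0 : ℝ) • η) * η j) * η i) 0 :=
    HasDerivAt.fun_sum fun i _ => ((h2 i).line g η 0).mul_const _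
  have := d2.nonneg_of_monotone m1
  simp only [zero_smul, add_zero, Finset.sum_mul] at this
  refine this.trans_eq (Finset.sum_congr rfl fun i _ => Finset.sum_congr rfl fun j _ => ?_)
  ring

/-! ### the Hilbert space -/

/-- the class of a function of exponential growth -/
def Lm (hU : Lg U) (f : (ι → ℝ) → ℝ) (hf : Eg f) : Lp ℝ 2 (mu U) := (mem2 hU hf).toLp f

theorem inner_Lm (hU : Lg U) (hf : Eg f) (ψ : Lp ℝ 2 (mu U)) :
    ⟪ψ, Lm hU f hf⟫ = ∫ g, ψ g * f g ∂mu U := by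
  rw [L2.inner_def]
  refine integral_congr_ae ?_
  filter_upwards [(mem2 hU hf).coeFn_toLp] with g hg
  rw [Lm, hg]
  simp [mul_comm]

theorem inner_Lm2 (hU : Lg U) (hf : Eg f) (hh : Eg h) :
    ⟪Lm hU h hh, Lm hU f hf⟫ = ∫ g, h g * f g ∂mu U := by
  rw [inner_Lm]
  refine integral_congr_ae ?_
  filter_upwards [(mem2 hU hh).coeFn_toLp] with g hg
  rw [Lm, hg]

theorem norm_Lm (hU : Lg U) (hf : Eg f) : ‖Lm hU f hf‖ ^ 2 = ∫ g, f g * f g ∂mu U := by
  rw [← real_inner_self_eq_norm_sq, inner_Lm2]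

theorem int_psi (hU : Lg U) (hf : Eg f) (ψ : Lp ℝ 2 (mu U)) :
    Integrable (fun g => ψ g * f g) (mu U) :=
  (Lp.memLp ψ).integrable_mul (mem2 hU hf)

/-- a linear map from polynomials -/
def mkL (hU : Lg U) (F : MvPolynomial ι ℝ → (ι → ℝ) → ℝ) (hF : ∀ p, Eg (F p))
    (ha : ∀ p q g, F (p + q) g = F p g + F q g) (hs : ∀ (c : ℝ) p g, F (c • p) g = c * F p g) :
    MvPolynomial ι ℝ →ₗ[ℝ] Lp ℝ 2 (mu U) where
  toFun p := Lm hU (F p) (hF p)
  map_add' p q := by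
    rw [Lm, Lm, Lm, ← MemLp.toLp_add]
    exact MemLp.toLp_congr _ _ (Eventually.of_forall fun g => ha p q g)
  map_smul' c p := by
    rw [Lm, Lm, RingHom.id_apply, ← MemLp.toLp_const_smul]
    exact MemLp.toLp_congr _ _ (Eventually.of_forall fun g => hs c p g)

/-- the embedding -/
def JL (hU : Lg U) : MvPolynomial ι ℝ →ₗ[ℝ] Lp ℝ 2 (mu U) := mkL hU ev eg_ev ev_add ev_smul

/-- the perturbation -/
def BL (hU : Lg U) (h1 : Gr U U₁) : MvPolynomial ι ℝ →ₗ[ℝ] Lp ℝ 2 (mu U) :=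
  mkL hU (Bf U₁) (eg_Bf h1)
    (fun p q g => by
      simp only [Bf, D, map_add, ev_add, mul_add, Finset.sum_add_distrib])
    (fun c p g => by
      simp only [Bf, D, Derivation.map_smul, ev_smul, Finset.mul_sum]
      exact Finset.sum_congr rfl fun _ _ => by ring)

/-- the generator -/
def AL (hU : Lg U) (h1 : Gr U U₁) : MvPolynomial ι ℝ →ₗ[ℝ] Lp ℝ 2 (mu U) :=
  JL hU ∘ₗ Nop + BL hU h1

theorem AL_eq (hU : Lg U) (h1 : Gr U U₁) (p : MvPolynomial ι ℝ) :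
    AL hU h1 p = Lm hU (Af U₁ p) (eg_Af h1 p) := by
  change Lm hU _ (eg_ev (Nop p)) + Lm hU _ (eg_Bf h1 p) = _
  rw [Lm, Lm, Lm, ← MemLp.toLp_add]
  exact MemLp.toLp_congr _ _ (Eventually.of_forall fun g => (Af_eq p g).symm)

theorem JL_eq (hU : Lg U) (p : MvPolynomial ι ℝ) : JL hU p = Lm hU (ev p) (eg_ev p) := rfl

theorem JA (hU : Lg U) (h1 : Gr U U₁) (p : MvPolynomial ι ℝ) :
    ⟪JL hU p, AL hU h1 p⟫ = ∑ i, ‖JL hU (D i p)‖ ^ 2 := by
  rw [AL_eq, JL_eq, inner_Lm2, green hU h1 (gr_ev p) p]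
  exact Finset.sum_congr rfl fun i _ => by rw [JL_eq, norm_Lm]

theorem eg_en (c : ℝ) : Eg fun x : ι → ℝ => exp (c * ‖x‖) :=
  (Lg.of continuous_norm 0 1 fun z => by simp).exp c

theorem dense_J (hU : Lg U) (ψ : Lp ℝ 2 (mu U)) (h : ∀ v, ⟪ψ, JL hU v⟫ = 0) : ψ = 0 := by
  have := prob hU
  rw [Lp.eq_zero_iff_ae_eq_zero]
  exact det_zero (mu U) (fun c => int_psi hU (eg_en c) ψ) fun p => by
    rw [← inner_Lm hU (eg_ev p)]; exact h p

theorem dense_S (hc : ConvexOn ℝ univ U) (hU : Lg U) (h1 : Gr U U₁) : ∃ l : ℝ, 1 ≤ l ∧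
    ∀ ψ : Lp ℝ 2 (mu U), (∀ v, ⟪ψ, (l • JL hU + AL hU h1) v⟫ = 0) → ψ = 0 := by
  obtain ⟨c, hb⟩ := grad_bd hc hU h1
  set k : ℝ := ∑ _i : ι, c ^ 2 with hk
  have hk0 : 0 ≤ k := Finset.sum_nonneg fun _ _ => sq_nonneg _
  refine ⟨8 * k + 1, by linarith, kato (JL hU) (AL hU h1) (BL hU h1) (dense_J hU)
    (fun p => ?_) fun q => ?_⟩
  · obtain ⟨q, hq⟩ := surj_pos (l := 8 * k + 1) (by linarith) p
    refine ⟨q, ?_⟩
    rw [hq, map_add, map_smul, AL, LinearMap.add_apply, LinearMap.comp_apply, add_assoc]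
  · rw [JA]
    have e1 : ‖BL hU h1 q‖ ^ 2 = ∫ g, Bf U₁ q g * Bf U₁ q g ∂mu U := norm_Lm hU (eg_Bf h1 q)
    have e2 : ∑ i, ‖JL hU (D i q)‖ ^ 2 = ∫ g, ∑ i, ev (D i q) g * ev (D i q) g ∂mu U := by
      rw [integral_finsetSum _ fun i _ => egi hU ((eg_ev _).mul (eg_ev _))]
      exact Finset.sum_congr rfl fun i _ => by rw [JL_eq, norm_Lm]
    have e3 : ∫ g, Bf U₁ q g * Bf U₁ q g ∂mu U ≤
        ∫ g, k * ∑ i, ev (D i q) g * ev (D i q) g ∂mu U := by
      refine integral_mono (egi hU ((eg_Bf h1 q).mul (eg_Bf h1 q)))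
        (egi hU ((Eg.sum _ fun i _ => (eg_ev _).mul (eg_ev _)).const_mul k)) fun g => ?_
      have a1 := Finset.sum_mul_sq_le_sq_mul_sq Finset.univ (fun i => U₁ i g)
        (fun i => ev (D i q) g)
      have a2 : ∑ i, U₁ i g ^ 2 ≤ k :=
        Finset.sum_le_sum fun i _ => sq_le_sq' (abs_le.1 (hb i g)).1 (abs_le.1 (hb i g)).2
      simp only [← sq, Bf]
      exact a1.trans (mul_le_mul_of_nonneg_right a2 (Finset.sum_nonneg fun _ _ => sq_nonneg _))
    rw [integral_const_mul, ← e2, ← e1] at e3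
    have e4 : 0 ≤ ∑ i, ‖JL hU (D i q)‖ ^ 2 := Finset.sum_nonneg fun _ _ => sq_nonneg _
    nlinarith

/-- an element orthogonal to the range of the generator has zero weak gradient -/
theorem weak (hc : ConvexOn ℝ univ U) (hU : Lg U) (h1 : Gr U U₁) (ψ : Lp ℝ 2 (mu U))
    (hψ : ∀ v, ⟪ψ, AL hU h1 v⟫ = 0) (hΘ : Gr Θ Θ₁) (i : ι) :
    ∫ g, ψ g * ((g i + U₁ i g) * Θ g - Θ₁ i g) ∂mu U = 0 := by
  obtain ⟨l, hl, hS⟩ := dense_S hc hU h1
  have eD : Eg fun g => (g i + U₁ i g) * Θ g - Θ₁ i g :=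
    (((Eg.coord i).add (h1.eg' i)).mul hΘ.eg).sub (hΘ.eg' i)
  rw [← inner_Lm hU eD]
  set a := Lm hU _ eD with ha
  set b := Lm hU _ hΘ.eg with hb
  have key : ∀ ε : ℝ, 0 < ε → |⟪ψ, a⟫| ≤ ε * (‖a‖ + ‖b‖) := by
    intro ε hε
    obtain ⟨v, hv1, hv2⟩ := kerstep (JL hU) (AL hU h1) hl hS
      (fun q => by rw [JA]; exact Finset.sum_nonneg fun _ _ => sq_nonneg _) ψ hψ hε
    rw [JA] at hv2
    have h3 : ‖JL hU (D i v)‖ ≤ ε :=
      (pow_le_pow_iff_left₀ (norm_nonneg _) hε.le two_ne_zero).1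
        ((Finset.single_le_sum (f := fun j => ‖JL hU (D j v)‖ ^ 2) (fun _ _ => sq_nonneg _)
          (Finset.mem_univ i)).trans hv2)
    have h4 : ⟪JL hU v, a⟫ = ⟪JL hU (D i v), b⟫ := by
      rw [JL_eq, JL_eq, ha, hb, inner_Lm2, inner_Lm2, ← sub_eq_zero,
        ← integral_sub (egi hU ((eg_ev _).mul eD)) (egi hU ((eg_ev _).mul hΘ.eg)),
        ← stein_mu hU h1 ((gr_ev v).mul hΘ) i]
      refine integral_congr_ae (Eventually.of_forall fun g => ?_)
      simp only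
      ring
    have h5 : ⟪ψ, a⟫ = ⟪JL hU (D i v), b⟫ - ⟪JL hU v - ψ, a⟫ := by
      rw [inner_sub_left, h4]; ring
    rw [h5]
    have h6 := abs_real_inner_le_norm (JL hU (D i v)) b
    have h7 := abs_real_inner_le_norm (JL hU v - ψ) a
    have h8 := mul_le_mul_of_nonneg_right h3 (norm_nonneg b)
    have h9 := mul_le_mul_of_nonneg_right hv1 (norm_nonneg a)
    have h10 := abs_sub ⟪JL hU (D i v), b⟫ ⟪JL hU v - ψ, a⟫
    linarith
  have hn : 0 ≤ ‖a‖ + ‖b‖ := by positivity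
  refine abs_eq_zero.1 (le_antisymm (le_of_forall_pos_le_add fun δ hδ => ?_) (abs_nonneg _))
  have := key (δ / (‖a‖ + ‖b‖ + 1)) (by positivity)
  refine this.trans ?_
  rw [zero_add, div_mul_eq_mul_div, div_le_iff₀ (by positivity)]
  nlinarith

theorem kernel (hc : ConvexOn ℝ univ U) (hU : Lg U) (h1 : Gr U U₁) (ψ : Lp ℝ 2 (mu U))
    (hψ : ∀ v, ⟪ψ, AL hU h1 v⟫ = 0) (h0 : ∫ g, ψ g ∂mu U = 0) : ψ = 0 := by
  have := prob hU
  have eU : Eg fun g => exp (1 * U g) := hU.exp 1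
  have hpos : 0 < ∫ g, exp (1 * U g) ∂mu U := integral_exp_pos (egi hU eU)
  set c : ℝ := (∫ g, ψ g * exp (1 * U g) ∂mu U) / ∫ g, exp (1 * U g) ∂mu U with hcdef
  have hint : ∀ {F : (ι → ℝ) → ℝ}, Eg F → Integrable (fun g => (ψ g - c) * F g) (mu U) := by
    intro F hF
    simp_rw [sub_mul]
    exact (int_psi hU hF ψ).sub (egi hU (hF.const_mul c))
  have hsp : ∀ {F : (ι → ℝ) → ℝ}, Eg F → ∫ g, (ψ g - c) * F g ∂mu U =
      ∫ g, ψ g * F g ∂mu U - c * ∫ g, F g ∂mu U := by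
    intro F hF
    simp_rw [sub_mul]
    rw [integral_sub (int_psi hU hF ψ) (egi hU (hF.const_mul c)), integral_const_mul]
  have hz : (fun g => (ψ g - c) * exp (1 * U g)) =ᵐ[mu U] 0 := by
    refine det_zero (mu U) (fun a => ?_) fun p => ?_
    · simp_rw [mul_assoc]
      exact hint (eU.mul (eg_en a))
    · obtain ⟨q, a, hq⟩ := surj (le_refl (0 : ℝ)) p
      have eD : ∀ i, Eg fun g => (g i + U₁ i g) * (exp (1 * U g) * ev (D i q) g) -
          (exp (1 * U g) * (1 * U₁ i g) * ev (D i q) g + exp (1 * U g) * ev (D i (D i q)) g) :=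
        fun i => (((Eg.coord i).add (h1.eg' i)).mul (eU.mul (eg_ev _))).sub
          (((h1.exp hU 1).mul (gr_ev (D i q))).eg' i)
      have e : (fun g => (ψ g - c) * exp (1 * U g) * ev p g) = fun g =>
          ∑ i, (ψ g - c) * ((g i + U₁ i g) * (exp (1 * U g) * ev (D i q) g) -
            (exp (1 * U g) * (1 * U₁ i g) * ev (D i q) g + exp (1 * U g) * ev (D i (D i q)) g)) +
          a * ((ψ g - c) * exp (1 * U g)) := by
        funext g
        have e1 : ev p g = ev (Nop q) g + a := by rw [hq]; simp [ev]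
        rw [e1, ev_Nop, mul_add, Finset.mul_sum]
        congr 1
        · exact Finset.sum_congr rfl fun _ _ => by ring
        · ring
      rw [e, integral_add (integrable_finset_sum _ fun i _ => hint (eD i))
        ((hint eU).const_mul a), integral_finsetSum _ fun i _ => hint (eD i), integral_const_mul,
        hsp eU, hcdef, div_mul_cancel₀ _ hpos.ne', sub_self, mul_zero, add_zero]
      refine Finset.sum_eq_zero fun i _ => ?_
      rw [← hcdef, hsp (eD i), weak hc hU h1 ψ hψ ((h1.exp hU 1).mul (gr_ev (D i q))) i,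
        stein_mu hU h1 ((h1.exp hU 1).mul (gr_ev (D i q))) i]
      simp
  have hψc : (ψ : (ι → ℝ) → ℝ) =ᵐ[mu U] fun _ => c := by
    filter_upwards [hz] with g hg
    simpa [sub_eq_zero] using hg
  have hc0 : c = 0 := by
    rw [integral_congr_ae hψc] at h0
    simpa using h0
  rw [Lp.eq_zero_iff_ae_eq_zero]
  rw [hc0] at hψc
  exact hψc

theorem lC_eq (hU : Lg U) (hf : Eg f) :
    lC U f f = ∫ g, (f g - lE U f) * (f g - lE U f) ∂mu U := by
  have := prob hU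
  have e : (fun g => (f g - lE U f) * (f g - lE U f)) =
      fun g => (f g * f g - (2 * lE U f) * f g) + lE U f * lE U f := by funext g; ring
  rw [e, integral_add (egi hU ((hf.mul hf).sub (hf.const_mul _))) (integrable_const _),
    integral_sub (egi hU (hf.mul hf)) (egi hU (hf.const_mul _)), integral_const_mul, lC,
    ← lE_eq, ← lE_eq]
  simp only [integral_const, probReal_univ, smul_eq_mul, one_mul]
  ring

end Hs98

open Hs98 in
theorem hsStmt : HsStmt := by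
  intro ι _ U f U₁ f₁ U₂ K hc hU h1 h2 hf hK H
  have := prob hU
  have hf' : Gr (fun g => f g - lE U f) f₁ := by
    simpa only [← sub_eq_add_neg, add_zero] using hf.add (Gr.const (-lE U f))
  set one := Lm hU (fun _ => (1 : ℝ)) (Eg.const 1) with hone
  set g0 := Lm hU _ hf'.eg with hg0
  have hn : lC U f f = ‖g0‖ ^ 2 := by rw [hg0, norm_Lm, lC_eq hU hf.eg]
  have o1 : ⟪g0, one⟫ = 0 := by
    rw [hg0, hone, inner_Lm2]
    simp only [mul_one]
    rw [integral_sub (egi hU hf.eg) (integrable_const _), ← lE_eq]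
    simp
  have o2 : ∀ v, ⟪one, AL hU h1 v⟫ = 0 := fun v => by
    rw [AL_eq, hone, inner_Lm2, green hU h1 (Gr.const 1) v]
    simp
  have o3 : ∀ v, ⟪g0, AL hU h1 v⟫ ≤ K * ‖AL hU h1 v‖ := fun v => by
    have := H (fun e => ev (D e v)) (fun e j => ev (D j (D e v))) fun e => gr_ev _
    simp only [lE_eq] at this
    rw [← bochner hU h1 h2 v, ← norm_Lm hU (eg_Af h1 v), sqrt_sq (norm_nonneg _)] at this
    rw [AL_eq, hg0, inner_Lm2, green hU h1 hf' v]
    exact this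
  have key : ∀ ε : ℝ, 0 < ε → ‖g0‖ ^ 2 ≤ K * (‖g0‖ + ε) + ε * ‖g0‖ := by
    intro ε hε
    obtain ⟨⟨v, c⟩, hv⟩ := approx ((AL hU h1).coprod (LinearMap.toSpanSingleton ℝ _ one))
      (fun ψ hψ => kernel hc hU h1 ψ (fun v => by simpa using hψ (v, 0)) (by
        have := hψ (0, 1)
        simp only [LinearMap.coprod_apply, map_zero, LinearMap.toSpanSingleton_apply, one_smul,
          zero_add] at this
        rw [hone, inner_Lm] at this
        simpa using this)) g0 hε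
    simp only [LinearMap.coprod_apply, LinearMap.toSpanSingleton_apply] at hv
    set r := AL hU h1 v + c • one - g0 with hr
    have a1 : ‖g0‖ ^ 2 = ⟪g0, AL hU h1 v⟫ - ⟪g0, r⟫ := by
      rw [hr, inner_sub_right, inner_add_right, real_inner_smul_right, o1,
        real_inner_self_eq_norm_sq]
      ring
    have a2 := norm_lin one (AL hU h1 v) c
    rw [o2] at a2
    have a3 : ‖AL hU h1 v‖ ≤ ‖c • one + AL hU h1 v‖ :=
      (pow_le_pow_iff_left₀ (norm_nonneg _) (norm_nonneg _) two_ne_zero).1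
        (by rw [a2]; nlinarith [sq_nonneg (c * ‖one‖)])
    have a4 : ‖c • one + AL hU h1 v‖ ≤ ‖g0‖ + ε := by
      have e : c • one + AL hU h1 v = g0 + r := by rw [hr]; abel
      rw [e]
      exact (norm_add_le _ _).trans (by linarith)
    have a5 := abs_real_inner_le_norm g0 r
    have a6 := neg_abs_le ⟪g0, r⟫
    have a7 := mul_le_mul_of_nonneg_left hv.le (norm_nonneg g0)
    have a8 := mul_le_mul_of_nonneg_left (a3.trans a4) hK
    have a9 := o3 v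
    linarith
  have hg := norm_nonneg g0
  have fin : ‖g0‖ ^ 2 ≤ K * ‖g0‖ := by
    refine le_of_forall_pos_le_add fun δ hδ => ?_
    have := key (δ / (K + ‖g0‖ + 1)) (by positivity)
    have e : δ / (K + ‖g0‖ + 1) * (K + ‖g0‖) ≤ δ := by
      rw [div_mul_eq_mul_div, div_le_iff₀ (by positivity)]
      nlinarith
    nlinarith
  rw [hn]
  nlinarith [sq_nonneg (K - ‖g0‖)]

/-- **Helffer–Sjöstrand** without the Hessian: `Var f ≤ ‖∇f‖²_{-1}` -/
theorem hs1 {ι : Type} [Fintype ι] {U f : (ι → ℝ) → ℝ} {U₁ f₁ : ι → (ι → ℝ) → ℝ}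
    {U₂ : ι → ι → (ι → ℝ) → ℝ} {K : ℝ} (hc : ConvexOn ℝ univ U) (hU : Lg U) (h1 : Gr U U₁)
    (h2 : ∀ i, Gr (U₁ i) (U₂ i)) (hf : Gr f f₁) (hK : 0 ≤ K)
    (H : ∀ (u : ι → (ι → ℝ) → ℝ) (u₁ : ι → ι → (ι → ℝ) → ℝ), (∀ e, Gr (u e) (u₁ e)) →
      ∀ S : ℝ, 0 ≤ S → ∑ e, ∑ j, lE U (fun g => u₁ e j g ^ 2) + ∑ e, lE U (fun g => u e g ^ 2) ≤
        S ^ 2 → ∑ e, lE U (fun g => f₁ e g * u e g) ≤ K * S) :
    lC U f f ≤ K ^ 2 := by
  refine hsStmt ι U f U₁ f₁ U₂ K hc hU h1 h2 hf hK fun u u₁ hu => H u u₁ hu _ (sqrt_nonneg _) ?_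
  have e1 : Eg fun g => ∑ i, u i g ^ 2 := Eg.sum _ fun i _ => (hu i).eg.pow 2
  have e2 : Eg fun g => ∑ i, ∑ j, U₂ i j g * u i g * u j g :=
    Eg.sum _ fun i _ => Eg.sum _ fun j _ => (((h2 i).eg' j).mul (hu i).eg).mul (hu j).eg
  have a : ∑ e, lE U (fun g => u e g ^ 2) ≤
      lE U fun g => ∑ i, u i g ^ 2 + ∑ i, ∑ j, U₂ i j g * u i g * u j g := by
    simp only [Hs98.lE_eq]
    rw [← integral_finsetSum _ fun i _ => Hs98.egi hU ((hu i).eg.pow 2)]
    exact integral_mono (Hs98.egi hU e1) (Hs98.egi hU (e1.add e2)) fun g =>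
      le_add_of_nonneg_right (Hs98.hess_nonneg hc h1 h2 g fun i => u i g)
  refine (add_le_add le_rfl a).trans ?_
  rw [sq_sqrt']
  exact le_max_left _ _

open Hs98 in
/-- **Brascamp–Lieb** -/
theorem blStmt : BLStmt := by
  intro ι _ U f Γ U₁ f₁ U₂ hc hU h1 h2 hf hΓ hΓ0 H
  have hG : 0 ≤ lE U Γ := by rw [lE_eq]; exact integral_nonneg hΓ0
  rw [← sq_sqrt hG]
  refine hsStmt ι U f U₁ f₁ U₂ _ hc hU h1 h2 hf (sqrt_nonneg _) fun u u₁ hu => ?_
  set q : (ι → ℝ) → ℝ := fun g => ∑ i, u i g ^ 2 + ∑ i, ∑ j, U₂ i j g * u i g * u j g with hq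
  have eq : Eg q := (Eg.sum _ fun i _ => (hu i).eg.pow 2).add
    (Eg.sum _ fun i _ => Eg.sum _ fun j _ => (((h2 i).eg' j).mul (hu i).eg).mul (hu j).eg)
  have q0 : ∀ g, 0 ≤ q g := fun g => add_nonneg (Finset.sum_nonneg fun _ _ => sq_nonneg _)
    (hess_nonneg hc h1 h2 g fun i => u i g)
  have ea : Eg fun g => ∑ e, f₁ e g * u e g := Eg.sum _ fun e _ => (hf.eg' e).mul (hu e).eg
  have e0 : ∑ e, lE U (fun g => f₁ e g * u e g) = ∫ g, ∑ e, f₁ e g * u e g ∂mu U := by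
    simp only [lE_eq]
    rw [integral_finsetSum _ fun e _ => egi hU ((hf.eg' e).mul (hu e).eg)]
  have key : ∀ t : ℝ, 0 ≤ lE U Γ * (t * t) + (-2 * ∫ g, ∑ e, f₁ e g * u e g ∂mu U) * t + lE U q := by
    intro t
    have : 0 ≤ ∫ g, ((t * t) * Γ g + (-2 * t) * ∑ e, f₁ e g * u e g + q g) ∂mu U := by
      refine integral_nonneg fun g => ?_
      have a1 : (∑ e, f₁ e g * u e g) ^ 2 ≤ Γ g * q g := H g fun i => u i g
      have a2 := hΓ0 g
      have a3 := q0 g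
      simp only [Pi.zero_apply]
      by_contra hneg
      push Not at hneg
      have a4 : 0 ≤ t * t * Γ g + q g := add_nonneg (mul_nonneg (mul_self_nonneg t) a2) a3
      have a5 : t * t * Γ g + q g < 2 * t * ∑ e, f₁ e g * u e g := by linarith
      have a6 := mul_self_lt_mul_self a4 a5
      have a7 := mul_le_mul_of_nonneg_left a1 (mul_self_nonneg t)
      nlinarith [sq_nonneg (t * t * Γ g - q g)]
    rw [integral_add (egi hU ((hΓ.const_mul _).add (ea.const_mul _))) (egi hU eq),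
      integral_add (egi hU (hΓ.const_mul _)) (egi hU (ea.const_mul _)), integral_const_mul,
      integral_const_mul, ← lE_eq U Γ, ← lE_eq U q] at this
    linarith
  have hd := discrim_le_zero key
  rw [discrim] at hd
  have s0 : 0 ≤ ∑ e, ∑ j, lE U fun g => u₁ e j g ^ 2 :=
    Finset.sum_nonneg fun _ _ => Finset.sum_nonneg fun _ _ => by
      rw [lE_eq]; exact integral_nonneg fun _ => sq_nonneg _
  rw [e0, ← sqrt_mul hG]
  refine (le_abs_self _).trans (abs_le_sqrt ?_)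
  nlinarith [mul_nonneg hG s0]

/-- **Poincaré inequality** with constant one under a log-concave tilt -/
theorem poin {ι : Type} [Fintype ι] {U f : (ι → ℝ) → ℝ} {U₁ f₁ : ι → (ι → ℝ) → ℝ}
    {U₂ : ι → ι → (ι → ℝ) → ℝ} (hc : ConvexOn ℝ univ U) (hU : Lg U) (h1 : Gr U U₁)
    (h2 : ∀ i, Gr (U₁ i) (U₂ i)) (hf : Gr f f₁) :
    lC U f f ≤ lE U fun g => ∑ i, f₁ i g ^ 2 :=
  blStmt ι U f _ U₁ f₁ U₂ hc hU h1 h2 hf (Eg.sum _ fun i _ => (hf.eg' i).pow 2)
    (fun _ => Finset.sum_nonneg fun _ _ => sq_nonneg _) fun g η =>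
      (Finset.sum_mul_sq_le_sq_mul_sq _ _ _).trans (mul_le_mul_of_nonneg_left
        (le_add_of_nonneg_right (Hs98.hess_nonneg hc h1 h2 g η))
        (Finset.sum_nonneg fun _ _ => sq_nonneg _))

end Crest.Agent.T156.Cas

end
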