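import Crest.Agent.T156.CaSand_41
import Crest.Agent.T156.CaSdB_90
import Crest.Agent.T156.Hs_98

/-!
# Row 156: Brascamp–Lieb on planted replica trees, arbitrary `C¹` functions of the node laws
-/

set_option autoImplicit false
set_option linter.unusedSectionVars false

noncomputable section

namespace Crest.Agent.T156.Cas.Sy41

open MeasureTheory Real Set Filter Topology
open Crest.Agent.T157.E Crest.Agent.T157.Casc Crest.Agent.T157.SL

variable {Ω : Type} [Fintype Ω] {w : Ω → ℝ}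

theorem gr_state {Φ : (Ω → ℝ) → ℝ} {Ψ : Ω → (Ω → ℝ) → ℝ} (hΦ : Gr Φ Ψ) (s : Sh) (L : List (Lv Ω))
    (h : Ω → ℝ) (a : s.Lf) (j : ℕ) : Gr (fun g => Φ (stT s L h g a j))
      fun i g => ∑ y, Ψ y (stT s L h g a j) * ft s L i a j y := by
  have e : ∀ g, stT s L h g a j = h + Lv.fld ⟨NT s L, fun y i => ft s L i a j y, 0⟩ g := fun g => by
    funext y; simp only [Sd.stT_apply s L h, Pi.add_apply, Lv.fld, mul_comm]
  simp only [e]
  exact Ric63.gr_fld hΦ ⟨NT s L, fun y i => ft s L i a j y, 0⟩ h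

theorem Hb_sum_right {ι : Type} [Fintype ι] (L : List (Lv Ω)) (z f : Ω → ℝ) (η : ι → ℝ)
    (q : ι → Ω → ℝ) : Hb w L z f (fun y => ∑ i, η i * q i y) = ∑ i, η i * Hb w L z f (q i) := by
  simp only [Hb, Finset.mul_sum, Finset.sum_mul]
  refine (Finset.sum_congr rfl fun _ _ => Finset.sum_comm).trans (Finset.sum_comm.trans ?_)
  exact Finset.sum_congr rfl fun _ _ => Finset.sum_congr rfl fun _ _ =>
    Finset.sum_congr rfl fun _ _ => by ring

theorem Hb_sum_left {ι : Type} [Fintype ι] (L : List (Lv Ω)) (z f : Ω → ℝ) (η : ι → ℝ)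
    (q : ι → Ω → ℝ) : Hb w L z (fun y => ∑ i, η i * q i y) f = ∑ i, η i * Hb w L z (q i) f := by
  simp only [Hb, Finset.mul_sum, Finset.sum_mul]
  refine (Finset.sum_congr rfl fun _ _ => Finset.sum_comm).trans (Finset.sum_comm.trans ?_)
  exact Finset.sum_congr rfl fun _ _ => Finset.sum_congr rfl fun _ _ =>
    Finset.sum_congr rfl fun _ _ => by ring

/-- the Hessian form of the tree potential -/
def HT (w : Ω → ℝ) (s : Sh) (L : List (Lv Ω)) (p u q : Pa s.Lf Ω) : ℝ :=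
  ∑ a, ∑ j ∈ Finset.range (L.length + 1), cf s L a j * Hb w (L.drop j) (p a j) (u a j) (q a j)

theorem stT0 (s : Sh) (L : List (Lv Ω)) (η : NT s L → ℝ) (a : s.Lf) (j : ℕ) :
    stT s L 0 η a j = fun y => ∑ i, η i * ft s L i a j y := by
  funext y; simp [Sd.stT_apply s L 0]

theorem HT_right (s : Sh) (L : List (Lv Ω)) (p u : Pa s.Lf Ω) (η : NT s L → ℝ) :
    ∑ i, HT w s L p u (ft s L i) * η i = HT w s L p u (stT s L 0 η) := by
  simp only [HT, stT0, Hb_sum_right, Finset.mul_sum, Finset.sum_mul]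
  refine Finset.sum_comm.trans (Finset.sum_congr rfl fun _ _ => Finset.sum_comm.trans ?_)
  exact Finset.sum_congr rfl fun _ _ => Finset.sum_congr rfl fun _ _ => by ring

theorem HT_left (s : Sh) (L : List (Lv Ω)) (p q : Pa s.Lf Ω) (η : NT s L → ℝ) :
    ∑ i, HT w s L p (ft s L i) q * η i = HT w s L p (stT s L 0 η) q := by
  simp only [HT, stT0, Hb_sum_left, Finset.mul_sum, Finset.sum_mul]
  refine Finset.sum_comm.trans (Finset.sum_congr rfl fun _ _ => Finset.sum_comm.trans ?_)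
  exact Finset.sum_congr rfl fun _ _ => Finset.sum_congr rfl fun _ _ => by ring

theorem HT_nonneg (hw : Wt w) (s : Sh) {L : List (Lv Ω)} (hL : Mono 0 L) (p u : Pa s.Lf Ω) :
    0 ≤ HT w s L p u u := Finset.sum_nonneg fun a _ => Finset.sum_nonneg fun j _ =>
  mul_nonneg (cf_nonneg s L 0 le_rfl hL a j)
    (Hess87.Hb_nonneg hw _ _ _ ((mono_drop j hL).nn le_rfl))

theorem HT_two (hw : Wt w) (s : Sh) {L : List (Lv Ω)} (hL : Mono 0 L) (p u q : Pa s.Lf Ω) (t : ℝ) :
    0 ≤ HT w s L p q q * (t * t) + 2 * HT w s L p u q * t + HT w s L p u u := by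
  have := HT_nonneg hw s hL p fun a j y => u a j y + t * q a j y
  refine this.trans_eq ?_
  simp only [HT, Hb_lin, Finset.mul_sum, Finset.sum_mul, ← Finset.sum_add_distrib]
  refine Finset.sum_congr rfl fun a _ => Finset.sum_congr rfl fun j _ => ?_
  rw [Hess87.Hb_symm hw (q a j) (u a j)]; ring

theorem eg_HT (hw : Wt w) (s : Sh) (L : List (Lv Ω)) (h : Ω → ℝ) {u q : (NT s L → ℝ) → Pa s.Lf Ω}
    (hu : ∀ a j y, Eg fun g => u g a j y) (hq : ∀ a j y, Eg fun g => q g a j y) :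
    Eg fun g => HT w s L (stT s L h g) (u g) (q g) :=
  Eg.sum _ fun a _ => Eg.sum _ fun j _ => (Eg.sum _ fun x _ => Eg.sum _ fun y _ =>
    ((hu a j x).mul (hq a j y)).mul
      ((EgP.state (eg_Hs hw (L.drop j) x y) a j).stT L h)).const_mul _

theorem gr_UT (hw : Wt w) (s : Sh) (L : List (Lv Ω)) (h : Ω → ℝ) (x : s.Lf → Ω) :
    Gr (UT w s L h x) fun i g => DP w s L x (stT s L h g) (ft s L i) := by
  classical
  rw [funext (UT_eq w s L h x)]
  have h1 := (Gr.sum Finset.univ fun a _ => Gr.sum (Finset.range (L.length + 1)) fun j _ =>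
    (gr_state (gr_X hw (L.drop j)) s L h a j).const_mul (cf s L a j)).add
    ((Gr.sum Finset.univ fun a _ => gr_state (Hs98.gr_coord (x a)) s L h a L.length).const_mul (-1))
  simp only [neg_one_mul, ← sub_eq_add_neg] at h1
  exact h1.congr fun i g => by simp [DP, Pf]

theorem gr_DP (hw : Wt w) (s : Sh) (L : List (Lv Ω)) (h : Ω → ℝ) (x : s.Lf → Ω) (q : Pa s.Lf Ω) :
    Gr (fun g => DP w s L x (stT s L h g) q) fun i g => HT w s L (stT s L h g) q (ft s L i) := by
  have h1 := (Gr.sum Finset.univ fun a _ => Gr.sum (Finset.range (L.length + 1)) fun j _ =>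
    (gr_state (Ric63.gr_Pf hw (L.drop j) (q a j)) s L h a j).const_mul (cf s L a j)).add
    (Gr.const (-∑ a, q a L.length (x a)))
  simp only [← sub_eq_add_neg] at h1
  refine h1.congr fun i g => ?_
  simp only [HT, Hb, add_zero, Finset.sum_mul]
  refine Finset.sum_congr rfl fun a _ => Finset.sum_congr rfl fun j _ => ?_
  rw [Finset.sum_comm]
  exact congrArg _ (Finset.sum_congr rfl fun _ _ => Finset.sum_congr rfl fun _ _ => by ring)

/-- the gradient of `F` is `∑ cf Bᵀ A u + v` -/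
structure Dir (w : Ω → ℝ) (s : Sh) (L : List (Lv Ω)) (h : Ω → ℝ) (F : (NT s L → ℝ) → ℝ)
    (u : (NT s L → ℝ) → Pa s.Lf Ω) (v : (NT s L → ℝ) → NT s L → ℝ) : Prop where
  egu : ∀ a j y, Eg fun g => u g a j y
  egv : ∀ i, Eg fun g => v g i
  gr : Gr F fun i g => HT w s L (stT s L h g) (u g) (ft s L i) + v g i

section dir
variable {s : Sh} {L : List (Lv Ω)} {h : Ω → ℝ} {F F' : (NT s L → ℝ) → ℝ}
  {u u' : (NT s L → ℝ) → Pa s.Lf Ω} {v v' : (NT s L → ℝ) → NT s L → ℝ}

theorem HT_comb (p u u' q : Pa s.Lf Ω) (c c' : ℝ) :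
    HT w s L p (fun a j y => c * u a j y + c' * u' a j y) q =
      c * HT w s L p u q + c' * HT w s L p u' q := by
  simp only [HT, Hb, Finset.mul_sum, ← Finset.sum_add_distrib]
  exact Finset.sum_congr rfl fun _ _ => Finset.sum_congr rfl fun _ _ =>
    Finset.sum_congr rfl fun _ _ => Finset.sum_congr rfl fun _ _ => by ring

theorem Dir.comb (H : Dir w s L h F u v) (H' : Dir w s L h F' u' v') (c c' : ℝ) :
    Dir w s L h (fun g => c * F g + c' * F' g) (fun g a j y => c * u g a j y + c' * u' g a j y)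
      fun g i => c * v g i + c' * v' g i :=
  ⟨fun a j y => ((H.egu a j y).const_mul c).add ((H'.egu a j y).const_mul c'),
    fun i => ((H.egv i).const_mul c).add ((H'.egv i).const_mul c'),
    ((H.gr.const_mul c).add (H'.gr.const_mul c')).congr fun i g => by rw [HT_comb]; ring⟩

theorem Dir.mul (H : Dir w s L h F u v) (H' : Dir w s L h F' u' v') :
    Dir w s L h (fun g => F g * F' g) (fun g a j y => F' g * u g a j y + F g * u' g a j y)
      fun g i => F' g * v g i + F g * v' g i :=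
  ⟨fun a j y => (H'.gr.eg.mul (H.egu a j y)).add (H.gr.eg.mul (H'.egu a j y)),
    fun i => (H'.gr.eg.mul (H.egv i)).add (H.gr.eg.mul (H'.egv i)),
    (H.gr.mul H'.gr).congr fun i g => by rw [HT_comb]; ring⟩

theorem gr_comp {ι : Type} [Fintype ι] {Φ : (ι → ℝ) → ℝ} {Ψ : ι → (ι → ℝ) → ℝ} (hΦ : Gr Φ Ψ)
    {φ φ' : ℝ → ℝ} (hφ : ∀ t, HasDerivAt φ (φ' t) t) (e : Eg fun g => φ (Φ g))
    (e' : Eg fun g => φ' (Φ g)) : Gr (fun g => φ (Φ g)) fun i g => φ' (Φ g) * Ψ i g :=
  ⟨e, fun i => e'.mul (hΦ.eg' i), fun g =>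
    ((hφ (Φ g)).comp_hasFDerivAt g (hΦ.fd g)).congr_fderiv
      (ContinuousLinearMap.ext fun η => by simp [Finset.mul_sum, mul_assoc])⟩

theorem Dir.comp (H : Dir w s L h F u v) {φ φ' : ℝ → ℝ} (hφ : ∀ t, HasDerivAt φ (φ' t) t)
    (e : Eg fun g => φ (F g)) (e' : Eg fun g => φ' (F g)) :
    Dir w s L h (fun g => φ (F g)) (fun g a j y => φ' (F g) * u g a j y)
      fun g i => φ' (F g) * v g i :=
  ⟨fun a j y => e'.mul (H.egu a j y), fun i => e'.mul (H.egv i),
    (gr_comp H.gr hφ e e').congr fun i g => by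
      have := HT_comb (w := w) (L := L) (stT s L h g) (u g) (u g) (ft s L i) (φ' (F g)) 0
      simp only [zero_mul, add_zero] at this
      rw [this]; ring⟩

/-- any `C¹` function, with `u = 0` (Poincaré) -/
theorem Dir.of_gr {F₁ : NT s L → (NT s L → ℝ) → ℝ} (H : Gr F F₁) :
    Dir w s L h F (fun _ => 0) fun g i => F₁ i g :=
  ⟨fun _ _ _ => Eg.const 0, H.eg', H.congr fun i g => by simp [HT, Hb]⟩

/-- weighted sums of functions of the node laws -/
theorem Dir.nodes {f : s.Lf → ℕ → (Ω → ℝ) → ℝ} {u : s.Lf → ℕ → (Ω → ℝ) → Ω → ℝ}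
    (hu : ∀ a j y, Eg fun z => u a j z y)
    (hf : ∀ a j, Gr (f a j) fun y z => ∑ x, u a j z x * Hs w (L.drop j) z x y) :
    Dir w s L h (fun g => ∑ a, ∑ j ∈ Finset.range (L.length + 1),
      cf s L a j * f a j (stT s L h g a j)) (fun g a j => u a j (stT s L h g a j)) fun _ _ => 0 :=
  ⟨fun a j y => (EgP.state (hu a j y) a j).stT L h, fun _ => Eg.const 0,
    (Gr.sum Finset.univ fun a _ => Gr.sum (Finset.range (L.length + 1)) fun j _ =>
      (gr_state (hf a j) s L h a j).const_mul (cf s L a j)).congr fun i g => by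
      simp only [HT, Hb, add_zero, Finset.sum_mul]
      refine Finset.sum_congr rfl fun a _ => Finset.sum_congr rfl fun j _ => ?_
      rw [Finset.sum_comm]
      exact congrArg _ (Finset.sum_congr rfl fun _ _ => Finset.sum_congr rfl fun _ _ => by ring)⟩

/-- **Brascamp–Lieb on a planted tree** -/
theorem bl_tree (hw : Wt w) (hL : Mono 0 L) (H : Dir w s L h F u v) (x : s.Lf → Ω) :
    lC (UT w s L h x) F F ≤
      lE (UT w s L h x) fun g => HT w s L (stT s L h g) (u g) (u g) + ∑ i, v g i ^ 2 := by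
  refine blStmt _ _ _ _ _ _ _ ?_ (Tr.lg_UT' hw s L h x) (gr_UT hw s L h x)
    (fun i => gr_DP hw s L h x (ft s L i)) H.gr
    ((eg_HT hw s L h H.egu H.egu).add (Eg.sum _ fun i _ => (H.egv i).pow 2))
    (fun g => add_nonneg (HT_nonneg hw s hL _ _) (Finset.sum_nonneg fun _ _ => sq_nonneg _))
    fun g η => ?_
  · refine ⟨convex_univ, fun g _ g' _ a b ha hb hab => ?_⟩
    have := (convexOn_UT hw s L hL x).2 (mem_univ (h, g)) (mem_univ (h, g')) ha hb hab
    simpa only [Prod.fst_add, Prod.smul_fst, Prod.snd_add, Prod.smul_snd, ← add_smul, hab,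
      one_smul] using this
  · have e : ∑ i, ∑ j, HT w s L (stT s L h g) (ft s L i) (ft s L j) * η i * η j =
        HT w s L (stT s L h g) (stT s L 0 η) (stT s L 0 η) := by
      rw [← HT_left]
      refine Finset.sum_congr rfl fun i _ => ?_
      rw [← HT_right, Finset.sum_mul]
      exact Finset.sum_congr rfl fun _ _ => by ring
    simp only [add_mul, Finset.sum_add_distrib, HT_right, e]
    have h1 := discrim_le_zero (a := HT w s L (stT s L h g) (stT s L 0 η) (stT s L 0 η) + ∑ i, η i ^ 2)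
      (b := 2 * (HT w s L (stT s L h g) (u g) (stT s L 0 η) + ∑ i, v g i * η i))
      (c := HT w s L (stT s L h g) (u g) (u g) + ∑ i, v g i ^ 2) fun t => by
        have h2 := HT_two hw s hL (stT s L h g) (u g) (stT s L 0 η) t
        have h3 : 0 ≤ ∑ i, (v g i + t * η i) ^ 2 := Finset.sum_nonneg fun _ _ => sq_nonneg _
        have h4 : ∑ i, (v g i + t * η i) ^ 2 =
            (∑ i, η i ^ 2) * (t * t) + 2 * (∑ i, v g i * η i) * t + ∑ i, v g i ^ 2 := by
          simp only [Finset.mul_sum, Finset.sum_mul, ← Finset.sum_add_distrib]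
          exact Finset.sum_congr rfl fun _ _ => by ring
        linarith
    rw [discrim] at h1
    nlinarith

/-- conditional variance given the leaves, averaged over the tree law -/
theorem bl_tX (hw : Wt w) (hL : Mono 0 L) {F : (NT s L → ℝ) → (s.Lf → Ω) → ℝ}
    {u : (s.Lf → Ω) → (NT s L → ℝ) → Pa s.Lf Ω} {v : (s.Lf → Ω) → (NT s L → ℝ) → NT s L → ℝ}
    (H : ∀ x, Dir w s L h (fun g => F g x) (u x) (v x)) :
    tX w s L h (fun g x => F g x ^ 2) - ∑ x, PT w s L h x * lE (UT w s L h x) (fun g => F g x) ^ 2 ≤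
      tX w s L h fun g x => HT w s L (stT s L h g) (u x g) (u x g) + ∑ i, v x g i ^ 2 := by
  obtain ⟨-, -, hP, dis, -⟩ := trStmt peStmt Ω w hw
  rw [dis s L h _ fun x => (H x).gr.eg.pow 2, dis s L h _ fun x =>
    (eg_HT hw s L h (H x).egu (H x).egu).add (Eg.sum _ fun i _ => ((H x).egv i).pow 2),
    ← Finset.sum_sub_distrib]
  refine Finset.sum_le_sum fun x _ => ?_
  rw [← mul_sub]
  refine mul_le_mul_of_nonneg_left ?_ ((hP s L h).1 x)
  simp only [sq (F _ x), sq (lE _ _)]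
  exact bl_tree hw hL (H x) x

end dir

/-- **Brascamp–Lieb under the path law** for invariant functions of the path -/
theorem bl_pE (hw : Wt w) {L : List (Lv Ω)} (hL : Mono 0 L) (h : Ω → ℝ) {T : Set (Equiv.Perm Ω)}
    (hT : ∀ τ ∈ T, Sym w L h τ) (htr : ∀ x y, w x ≠ 0 → w y ≠ 0 → ∃ τ ∈ T, τ x = y)
    {F : (ℕ → Ω → ℝ) → ℝ} (hF : Measurable F)
    (hinv : ∀ τ ∈ T, ∀ p, F (fun j y => p j (τ.symm y)) = F p)
    {u : (NI L → ℝ) → Pa Unit Ω} {v : (NI L → ℝ) → NI L → ℝ}
    (H : Dir w .one L h (fun g => F fun j => st L j h g) u v) :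
    pE w L h (fun g _ => F (fun j => st L j h g) ^ 2) - pE w L h (fun g _ => F fun j => st L j h g) ^ 2
      ≤ pE w L h fun g _ => HT w .one L (stT .one L h g) (u g) (u g) + ∑ i, v g i ^ 2 := by
  have eF : Eg fun g : NI L → ℝ => F fun j => st L j h g := H.gr.eg
  have eB : Eg fun g : NI L → ℝ => HT w .one L (stT .one L h g) (u g) (u g) + ∑ i, v g i ^ 2 :=
    (eg_HT hw .one L h H.egu H.egu).add (Eg.sum _ fun i _ => (H.egv i).pow 2)
  set c := pE w L h fun g _ => F fun j => st L j h g with hc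
  have e1 : c ^ 2 = ∑ x, P w L h x * c ^ 2 := by rw [← Finset.sum_mul, sum_P hw, one_mul]
  rw [e1, Pe.pE_dis hw L h _ fun _ => eF.pow 2, Pe.pE_dis hw L h _ fun _ => eB,
    ← Finset.sum_sub_distrib]
  refine Finset.sum_le_sum fun x _ => ?_
  by_cases hx : w x = 0
  · simp [P_eq_zero hx]
  rw [← mul_sub]
  refine mul_le_mul_of_nonneg_left ?_ (P_nonneg hw L h x)
  rw [hc, plantStmt peStmt symStmt Ω w hw L h T x hT (fun y hy => htr x y hx hy) F hF eF hinv]
  simp only [sq (F _), sq (lE _ _)]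
  exact bl_tree hw hL H fun _ => x

theorem gr_rr (hw : Wt w) (L : List (Lv Ω)) (l₀ : Lv Ω) : Gr (rr w L l₀)
    fun y z => ∑ x, 2 * l₀.fld (mv w L l₀ z) x * Hs w L z x y := by
  have h1 := Gr.sum Finset.univ fun i (_ : i ∈ Finset.univ) =>
    (Ric63.gr_Pf hw L fun x => l₀.A x i).mul (Ric63.gr_Pf hw L fun x => l₀.A x i)
  have e : rr w L l₀ = fun z => ∑ i, Pf w L z (fun x => l₀.A x i) * Pf w L z fun x => l₀.A x i := by
    funext z; simp only [rr, mv, sq]
  rw [e]
  refine h1.congr fun y z => ?_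
  simp only [Lv.fld, mv, Finset.mul_sum, Finset.sum_mul, ← Finset.sum_add_distrib]
  rw [Finset.sum_comm]
  exact Finset.sum_congr rfl fun _ _ => Finset.sum_congr rfl fun _ _ => by ring

theorem eg_comp_rr (hw : Wt w) (L : List (Lv Ω)) (l₀ : Lv Ω) {G : ℝ → ℝ} (hG : Continuous G) :
    Eg fun z => G (rr w L l₀ z) := by
  obtain ⟨C, hC⟩ := isCompact_Icc.exists_bound_of_continuousOn
    (s := Icc 0 (∑ i, (∑ x, |l₀.A x i|) ^ 2)) hG.continuousOn
  refine Eg.of_bdd (hG.comp (eg_rr hw L l₀).cont) C fun z => hC _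
    ⟨Finset.sum_nonneg fun _ _ => sq_nonneg _, Finset.sum_le_sum fun i _ => ?_⟩
  exact sq_le_sq' (abs_le.1 (abs_mv_le hw _ l₀ z i)).1 (abs_le.1 (abs_mv_le hw _ l₀ z i)).2

/-- **arbitrary `C¹` functions of the node overlaps**:
`Var (∑ dm_j G_j (r_j)) ≤ 4 ∑ dm_j E G_j' (r_j)² mᵀ A m` -/
theorem sync_G (hw : Wt w) {L : List (Lv Ω)} (hL : Mono 0 L) (h : Ω → ℝ) {T : Set (Equiv.Perm Ω)}
    (hT : ∀ τ ∈ T, Sym w L h τ) (htr : ∀ x y, w x ≠ 0 → w y ≠ 0 → ∃ τ ∈ T, τ x = y) (l₀ : Lv Ω)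
    (h₀ : ∀ τ ∈ T, ∀ x y, l₀.cov (τ x) (τ y) = l₀.cov x y) {G G' : ℕ → ℝ → ℝ}
    (hG : ∀ j t, HasDerivAt (G j) (G' j t) t) (hG' : ∀ j, Continuous (G' j)) :
    pE w L h (fun g _ => nsum L h (dm L 0) (fun j z => G j (rr w (L.drop j) l₀ z)) g ^ 2) -
      pE w L h (fun g _ => nsum L h (dm L 0) (fun j z => G j (rr w (L.drop j) l₀ z)) g) ^ 2
      ≤ 4 * ∑ j ∈ Finset.range L.length, dm L 0 (j + 1) * node w L (j + 1) (fun z =>
        G' (j + 1) (rr w (L.drop (j + 1)) l₀ z) ^ 2 * mAm w (L.drop (j + 1)) l₀ z) h := by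
  have cG : ∀ j, Continuous (G j) := fun j =>
    continuous_iff_continuousAt.2 fun t => (hG j t).continuousAt
  have e1 := fun j => eg_comp_rr hw (L.drop j) l₀ (cG j)
  have e2 := fun j => eg_comp_rr hw (L.drop j) l₀ (hG' j)
  have D := Dir.nodes (w := w) (s := .one) (L := L) (h := h)
    (f := fun _ j z => G j (rr w (L.drop j) l₀ z))
    (u := fun _ j z x => 2 * G' j (rr w (L.drop j) l₀ z) * l₀.fld (mv w (L.drop j) l₀ z) x)
    (fun _ j y => ((e2 j).const_mul 2).mul (eg_fld l₀ (eg_mv hw _ l₀) y))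
    fun _ j => (gr_comp (gr_rr hw (L.drop j) l₀) (hG j) (e1 j) (e2 j)).congr fun y z => by
      rw [Finset.mul_sum]; exact Finset.sum_congr rfl fun _ _ => by ring
  have su : ∀ Φ : Unit → ℕ → ℝ, ∑ a : Sh.one.Lf, ∑ j ∈ Finset.range (L.length + 1),
      cf .one L a j * Φ a j = ∑ j ∈ Finset.range L.length, dm L 0 (j + 1) * Φ () (j + 1) := by
    intro Φ
    show ∑ a : Unit, _ = _
    rw [Fintype.sum_unique, Finset.sum_range_succ']
    simp [cf]
  rw [funext fun g => su fun a j => G j (rr w (L.drop j) l₀ (stT .one L h g a j))] at D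
  have key := bl_pE hw hL h hT htr
    (F := fun p => ∑ j ∈ Finset.range L.length, dm L 0 (j + 1) *
      G (j + 1) (rr w (L.drop (j + 1)) l₀ (p (j + 1))))
    (Finset.measurable_sum _ fun j _ =>
      ((e1 _).cont.measurable.comp (measurable_pi_apply _)).const_mul _) (fun τ hτ p => ?_) D
  · refine key.trans (le_of_eq ?_)
    have e3 := fun j => ((e2 j).pow 2).mul (eg_mAm hw (L.drop j) l₀)
    rw [← pE_nsum peStmt hw L h (dm L 0) e3, ← Pe.pE_const_mul]
    congr 1
    funext g _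
    simp only [HT, Hb_smul, nsum, Finset.mul_sum, mAm, sq (0 : ℝ), mul_zero,
      Finset.sum_const_zero, add_zero]
    refine (su _).trans (Finset.sum_congr rfl fun _ _ => ?_)
    simp only [stT]; ring
  · refine Finset.sum_congr rfl fun j _ => ?_
    rw [rr_eq, rr_eq]
    congr 2
    have e := fun x => (symStmt Ω w hw L h τ (hT τ hτ)).2.1 (j + 1) (fun y => p (j + 1) (τ.symm y)) x
    simp only [Equiv.symm_apply_apply] at e
    simp only [qf, e]
    rw [← Equiv.sum_comp τ]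
    refine Finset.sum_congr rfl fun x _ => ?_
    rw [← Equiv.sum_comp τ]
    simp only [h₀ τ hτ]

end Crest.Agent.T156.Cas.Sy41

end
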