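import Crest.Agent.T156.NuC_87
import Crest.Agent.T156.Ab2_52
import Crest.Agent.T156.LpC_12
import Crest.Agent.T156.QOne_33
import Crest.Agent.T156.Ker_15

/-!
# Row 156 (helper75): the two-edge term of the cavity expansion, definitions and leaves

`Ful L T = ν(f₂) - 4 ν(f₃) + 3 ν(f₄)`: old edge `(0,1)`, `(1,2)`, `(2,3)` on 2, 3, 4 replicas,
new edge always `(0,1)`.  Positions on a leg are `t ≤ K` (a node) or `t = K + 1` (the leaf).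
-/

set_option autoImplicit false

noncomputable section

namespace Crest.Agent.T156.Cas.Q75

open Finset
open Crest.Agent.T157.E Crest.Agent.T157.Casc Crest.Agent.T157.SL
open Crest.Agent.T156.Rect52 (mx G2)
open Nu87

/-- three replicas: split levels of `(0,1)`, `(0,2)`, `(1,2)` -/
def m3 (K a b c : ℕ) : SM 3 := ![![K, a, b], ![a, K, c], ![b, c, K]]

/-- four replicas: `(0,1) = u`, `(2,3) = x`, `(0,2) = a`, `(0,3) = b`, `(1,2) = c`, `(1,3) = d` -/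
def m4 (K u x a b c d : ℕ) : SM 4 := ![![K, u, a, b], ![u, K, c, d], ![a, c, K, x], ![b, d, x, K]]

/-- a two-edge term -/
structure Tw where
  f2 : SM 2 → ℝ
  f3 : SM 3 → ℝ
  f4 : SM 4 → ℝ

namespace Tw

/-- product -/
def mul (T T' : Tw) : Tw :=
  ⟨fun σ => T.f2 σ * T'.f2 σ, fun σ => T.f3 σ * T'.f3 σ, fun σ => T.f4 σ * T'.f4 σ⟩

/-- the two edges exchanged -/
def tr (T : Tw) : Tw :=
  ⟨T.f2, fun σ => T.f3 fun a b => σ (![2, 1, 0] a) (![2, 1, 0] b),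
    fun σ => T.f4 fun a b => σ (![2, 3, 0, 1] a) (![2, 3, 0, 1] b)⟩

/-- both edges are unoriented -/
def Sy (T : Tw) (K : ℕ) : Prop := ∀ σ : SM 4, Rz K σ →
  T.f4 (fun a b => σ (![1, 0, 2, 3] a) (![1, 0, 2, 3] b)) = T.f4 σ ∧
  T.f4 (fun a b => σ (![0, 1, 3, 2] a) (![0, 1, 3, 2] b)) = T.f4 σ

/-- equality on trees -/
def Eqv (T T' : Tw) (K : ℕ) : Prop := (∀ σ, Rz K σ → T.f2 σ = T'.f2 σ) ∧
  (∀ σ, Rz K σ → T.f3 σ = T'.f3 σ) ∧ ∀ σ, Rz K σ → T.f4 σ = T'.f4 σ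

/-- both edges at the same node `x`; the new ends follow the old ones up to `t`, `t'` -/
def sN (T : Tw) (K x t t' : ℕ) : ℝ :=
  if t = K + 1 then (if t' = K + 1 then T.f2 (tw K x) else T.f3 (m3 K x t' x))
  else if t' = K + 1 then T.f3 (m3 K x t x) else T.f4 (m4 K x x t x x t')

/-- new edge at the trunk node `y ≤ x`: one end branches at `y`, the other follows an old end up
to `t ≥ y` -/
def lo (T : Tw) (K y x t : ℕ) : ℝ :=
  if t = K + 1 then T.f3 (m3 K y y x) else T.f4 (m4 K y x t (min t x) y y)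

/-- new edge at depth `k` on a branch that leaves the trunk at `z < x, k` -/
def off (T : Tw) (K z x k : ℕ) : ℝ := T.f4 (m4 K k x z z z z)

end Tw

/-- label weights `φ` (old edge) and `ψ` (new edge) -/
def wt (φ ψ : ℕ → ℝ) : Tw :=
  ⟨fun σ => φ (σ 0 1) * ψ (σ 0 1), fun σ => φ (σ 1 2) * ψ (σ 0 1), fun σ => φ (σ 2 3) * ψ (σ 0 1)⟩

section weights
variable {Θ : Type} (L : List (Lv Θ))

/-- signed sum over the positions above `x` on one leg -/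
def Lg (x : ℕ) (g : ℕ → ℝ) : ℝ := g (L.length + 1) - ∑ t ∈ Ioc x L.length, dm L 0 t * g t

/-- the same with the node `x` -/
def Lx (x : ℕ) (g : ℕ → ℝ) : ℝ := Lg L x g - ex L x * g x

variable (T : Tw)

/-- the two-edge term -/
def Ful : ℝ := avm L 1 T.f2 - 4 * avm L 2 T.f3 + 3 * avm L 3 T.f4

/-- the two-edge term, old edge at the node `x` (ordered ends: factor `2`) -/
def Ex (x : ℕ) : ℝ :=
  2 * T.f2 (tw L.length x) - 8 * avc L (tw L.length x) 1 T.f3 + 6 * avc L (tw L.length x) 2 T.f4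

/-- same node, product weights -/
def SN (x : ℕ) : ℝ := Lx L x fun t => Lx L x fun t' => T.sN L.length x t t'

/-- all positions of the free end above `u` -/
def cP (y u x : ℕ) : ℝ := Lg L u (T.lo L.length y x) + Lx L x (T.lo L.length y x)

/-- new edge at the trunk node `y ≤ x` -/
def LO (y x : ℕ) : ℝ := -2 * cP L T y y x + (dm L 0 y + ex L y) * T.lo L.length y x y

/-- the non-local part, old edge at `x` -/
def NLx (x : ℕ) : ℝ :=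
  ∑ y ∈ range (x + 1), dm L 0 y * LO L T y x +
    ∑ y ∈ Ioc x L.length, dm L 0 y * LO L T.tr x y +
    ∑ z ∈ range x, dm L 0 z * ∑ k ∈ Ioc z L.length, dm L 0 k * T.off L.length z x k

/-- the non-local part -/
def NL : ℝ := ∑ x ∈ range (L.length + 1), dm L 0 x * NLx L T x

/-- the weights of `Lx` -/
def wL (x t : ℕ) : ℝ := if t = L.length + 1 then 1 else if t = x then -ex L x else -dm L 0 t

/-- same node, positions `t ≥ y`, `t' ≥ y'` summed -/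
def Gs (x y y' : ℕ) : ℝ :=
  G2 (fun t t' => wL L x t * wL L x t' * T.sN L.length x t t') (L.length + 2) (L.length + 2) y y'

/-- **regularity of the site coefficient** above the cut `j₁`; `p y` = parity size, `s i` = step -/
structure Reg (j₁ : ℕ) (c₀ : ℝ) (p s : ℕ → ℝ) : Prop where
  l0 : ∀ y x t, j₁ ≤ y → y ≤ x → x ≤ L.length → y ≤ t → t ≤ L.length + 1 →
    |T.lo L.length y x t| ≤ p y
  m1 : ∀ x, j₁ ≤ x → x < L.length → |LO L T j₁ (x + 1) - LO L T j₁ x| ≤ p j₁ * s x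
  md : ∀ i, j₁ ≤ i → i < L.length → |LO L T (i + 1) (i + 1) - LO L T i (i + 1)| ≤ s i ∧
    |LO L T i (i + 1) - LO L T i i| ≤ s i
  m2 : ∀ i j, j₁ ≤ i → i < j → j < L.length → |mx (LO L T) i j| ≤ s i * s j
  p1 : ∀ y u x, j₁ ≤ y → y ≤ u → u < x → x < L.length →
    |cP L T y u (x + 1) - cP L T y u x| ≤ p y * s x
  o0 : ∀ z x k, z < x → z < k → j₁ ≤ x → j₁ ≤ k → x ≤ L.length → k ≤ L.length →
    |T.off L.length z x k| ≤ c₀
  o1 : ∀ z x k, z < x → z < k → j₁ ≤ x → j₁ ≤ k → x < L.length → k ≤ L.length →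
    |T.off L.length z (x + 1) k - T.off L.length z x k| ≤ s x ∧
    |T.off L.length z k (x + 1) - T.off L.length z k x| ≤ s x
  o2 : ∀ z x k, z < x → z < k → j₁ ≤ x → j₁ ≤ k → x < L.length → k < L.length → x ≠ k →
    |mx (T.off L.length z) x k| ≤ s x * s k

end weights

/-- **martingale structure of the base factor** -/
structure Bs (K : ℕ) (B : Tw) {V : Type} [AddCommGroup V] [Module ℝ V]
    (ip : LinearMap.BilinForm ℝ V) (δ : ℕ → V) (π : ℕ → ℕ → V) (P : ℕ → V →ₗ[ℝ] V)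
    (a : ℕ → ℝ) : Prop where
  sym : ∀ u v, ip u v = ip v u
  pos : ∀ u, 0 ≤ ip u u
  a0 : ∀ y, 0 ≤ a y
  lo1 : ∀ y x t, y ≤ t → t ≤ x → x ≤ K → B.lo K y x t = ip (δ x) (δ y) + ip (δ x) (π y t)
  lo2 : ∀ y x t, y ≤ x → x < t → t ≤ K + 1 → x ≤ K →
    |B.lo K y x t - (ip (δ x) (δ y) + ip (δ x) (π y x))| ≤ a y * a x
  pi0 : ∀ y, π y y = 0
  or1 : ∀ y t v, y ≤ t → t < K → v ≤ t → ip (δ v) (π y (t + 1) - π y t) = 0
  or2 : ∀ y t u, y ≤ u → u ≤ t → t < K → ip (π y u) (π y (t + 1) - π y t) = 0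
  pia : ∀ y, y ≤ K → ip (π y K) (π y K) ≤ a y ^ 2
  off : ∀ z x k, z < x → z < k → x ≤ K → k ≤ K → B.off K z x k = ip (P z (δ x)) (P z (δ k))
  con : ∀ z u, ip (P z u) (P z u) ≤ ip u u

/-- the error of the non-local part -/
def Er {Θ : Type} (L : List (Lv Θ)) (j₁ : ℕ) (p s a f f' : ℕ → ℝ) : ℝ :=
  p j₁ * (f j₁ ^ 2 + f' j₁ ^ 2) + ∑ i ∈ Ico j₁ L.length, s i * (f (i + 1) ^ 2 + f' (i + 1) ^ 2) +
    ∑ y ∈ Ico j₁ (L.length + 1), dm L 0 y * (p y * a y) ^ 2 +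
    ∑ x ∈ Ico j₁ (L.length + 1), dm L 0 x * a x * ∑ y ∈ Ico j₁ (x + 1), dm L 0 y * (p y * a y)

section inst
variable {Ω : Type} [Fintype Ω]

/-- two edges with kernels `S` (old) and `S'` (new) in one system -/
def ee (w : Ω → ℝ) (L : List (Lv Ω)) (h : Ω → ℝ) (S S' : ℕ → Ω → Ω → ℝ) : Tw :=
  ⟨fun σ => TM w L h σ fun x => ed S 0 1 x σ * ed S' 0 1 x σ,
    fun σ => TM w L h σ fun x => ed S 1 2 x σ * ed S' 0 1 x σ,
    fun σ => TM w L h σ fun x => ed S 2 3 x σ * ed S' 0 1 x σ⟩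

/-- `U = R - q` -/
def uK (l₀ : Lv Ω) (q : ℕ → ℝ) : ℕ → Ω → Ω → ℝ := fun j x y => l₀.cov x y - q j

/-- `F_y = ∑_{x ≥ y} dm_x φ_x (ρ_x - q_x)` along the path -/
def Fp (w : Ω → ℝ) (L : List (Lv Ω)) (l₀ : Lv Ω) (q c : ℕ → ℝ) (y : ℕ) (p : Lp12.Pth Ω) : ℝ :=
  ∑ x ∈ Ico y (L.length + 1), c x * (Sy41.rr w (L.drop x) l₀ (p x) - q x)

end inst

/-- `η = e e' - q` -/
def eK (q : ℕ → ℝ) : ℕ → Bool → Bool → ℝ := fun j x y =>
  Crest.ProbabilityR.SpinGlassDynamics.spin x * Crest.ProbabilityR.SpinGlassDynamics.spin y - q j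

/-! ### leaves -/

/-- (A) exact expansion -/
def ExpS : Prop := ∀ (Θ : Type) (L : List (Lv Θ)) (T : Tw), T.Sy L.length → ∀ x ≤ L.length,
  Ex L T x = 2 * SN L T x + NLx L T x

/-- (B) the non-local part is small -/
def BndS : Prop := ∀ (Θ : Type) (L : List (Lv Θ)) (c B : Tw) (j₁ : ℕ) (c₀ S : ℝ)
  (p s a φ ψ f f' : ℕ → ℝ) (V : Type) [AddCommGroup V] [Module ℝ V] (ip : LinearMap.BilinForm ℝ V)
  (δ : ℕ → V) (π : ℕ → ℕ → V) (P : ℕ → V →ₗ[ℝ] V), Mono 0 L → c.tr.Eqv c L.length →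
  B.tr.Eqv B L.length → Reg L c j₁ c₀ p s → Bs L.length B ip δ π P a → 1 ≤ c₀ → 1 ≤ S →
  (∀ i, dm L 0 i ≤ s i) → ∑ i ∈ Ico j₁ L.length, s i ≤ S → ∑ z ∈ range j₁, dm L 0 z ≤ p j₁ →
  p j₁ ≤ S → (∀ y, 0 ≤ p y) → (∀ x, |φ x| ≤ 1) → (∀ x, |ψ x| ≤ 1) → (∀ x < j₁, φ x = 0) →
  (∀ x < j₁, ψ x = 0) → (∀ y, 0 ≤ f y) → (∀ y, 0 ≤ f' y) →
  (∀ y, j₁ ≤ y → ip (∑ x ∈ Ico y (L.length + 1), (dm L 0 x * φ x) • δ x)
    (∑ x ∈ Ico y (L.length + 1), (dm L 0 x * φ x) • δ x) ≤ f y ^ 2) →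
  (∀ y, j₁ ≤ y → ip (∑ x ∈ Ico y (L.length + 1), (dm L 0 x * ψ x) • δ x)
    (∑ x ∈ Ico y (L.length + 1), (dm L 0 x * ψ x) • δ x) ≤ f' y ^ 2) →
  |NL L (((wt φ ψ).mul c).mul B)| ≤ 20 * c₀ * S ^ 2 * Er L j₁ p s a f f'

/-- (C) the base system has the martingale structure, `a² = E mᵀ C m` -/
def BaseS : Prop := ∀ (Ω : Type) [Fintype Ω] (w : Ω → ℝ) (L : List (Lv Ω)) (h : Ω → ℝ)
  (l₀ : Lv Ω) (q : ℕ → ℝ), Wt w → ∃ (V : Type) (_ : AddCommGroup V) (_ : Module ℝ V)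
    (ip : LinearMap.BilinForm ℝ V) (δ : ℕ → V) (π : ℕ → ℕ → V) (P : ℕ → V →ₗ[ℝ] V),
    Bs L.length (ee w L h (uK l₀ q) (uK l₀ q)) ip δ π P (fun y => √(Q33.vv w L l₀ h y)) ∧
    ∀ (c : ℕ → ℝ) (y : ℕ), ip (∑ x ∈ Ico y (L.length + 1), c x • δ x)
      (∑ x ∈ Ico y (L.length + 1), c x • δ x) = Lp12.EE w L h fun p => Fp w L l₀ q c y p ^ 2

/-- (D) regularity of the site coefficient `E η η` -/
def SiteS : Prop := ∃ C : ℝ, 1 ≤ C ∧ ∀ (L : List (Lv Bool)) (q p s : ℕ → ℝ) (j₁ : ℕ),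
  Ker15.R1 L → Mono 0 L → (∀ j, |q j| ≤ 1) →
  (∀ y ≤ L.length, ∃ σ, 0 < σ ∧ Ker15.tm L y ≤ σ ∧ C * (min 1 (Ker15.PB 8 σ) + |q y|) ≤ p y) →
  (∀ i < L.length, C * (Ker15.tm L (i + 1) - Ker15.tm L i + |q (i + 1) - q i| + dm L 0 i +
    dm L 0 (i + 1)) ≤ s i) →
  Reg L (ee (fun _ => 1) L 0 (eK q) (eK q)) j₁ 4 p s

/-- `χ_y = 1 - ∑_{t ≥ y} dm_t Γ_t` -/
def chi (L : List (Lv Bool)) (y : ℕ) : ℝ :=
  1 - ∑ t ∈ Icc y L.length, dm L 0 t * pi2 (fun _ => 1) L t (eK 0 t) 0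

/-- (E) the same-node site sums: `E A_x²` and `χ_y χ_y'` -/
def GsS : Prop := ∀ T₀ : ℝ, ∃ C : ℝ, 1 ≤ C ∧ ∀ (L : List (Lv Bool)) (q : ℕ → ℝ) (x : ℕ) (σ : ℝ),
  Ker15.R1 L → Mono 0 L → x ≤ L.length →
  (Gs L (ee (fun _ => 1) L 0 (eK q) (eK q)) x x x =
    node (fun _ => 1) L x (fun z => Hb (fun _ => 1) (L.drop x) z
      Crest.ProbabilityR.SpinGlassDynamics.spin Crest.ProbabilityR.SpinGlassDynamics.spin ^ 2) 0) ∧
  (Ker15.tm L x ≤ σ → σ ≤ T₀ → |q x| ≤ σ → ∀ y, x < y → y ≤ L.length + 1 →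
    |Gs L (ee (fun _ => 1) L 0 (eK q) (eK q)) x y x - chi L y * chi L (x + 1)| ≤
      C * (σ ^ 2 + ex L x * σ) ∧
    |Gs L (ee (fun _ => 1) L 0 (eK q) (eK q)) x x y - chi L (x + 1) * chi L y| ≤
      C * (σ ^ 2 + ex L x * σ) ∧
    ∀ y', x < y' → y' ≤ L.length + 1 →
      |Gs L (ee (fun _ => 1) L 0 (eK q) (eK q)) x y y' - chi L y * chi L y'| ≤ C * σ ^ 2)

end Crest.Agent.T156.Cas.Q75

end
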