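import Crest.Agent.T156.CDef_40
import Crest.Agent.T156.Q2Def_75

/-!
# Row 156 (helper10): the word `[aU, aU]` in the two-edge frame, definitions
-/

set_option autoImplicit false
set_option linter.all false

noncomputable section

namespace Crest.Agent.T156.Cas.C40.Q10

open Crest.Agent.T157.E Crest.Agent.T157.Casc Crest.Agent.T157.SL
open Crest.Agent.T156.Cas.Q75

/-- `τ / 2` on UP -/
def ph (D : CD) (j : ℕ) : ℝ := if D.J < j then D.τ j / 2 else 0

/-- the site factor `E η η` -/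
def cS (D : CD) : Tw := ee (fun _ => 1) D.S 0 (eK D.q) (eK D.q)

/-- the bulk factor `E U U` -/
def BU (D : CD) : Tw := ee (fun _ => 1) D.B 0 (oU D.q) (oU D.q)

/-- the centred bulk factor -/
def Bt (D : CD) : Tw := ee (fun _ => 1) D.B 0 (oU D.rb) (oU D.rb)

/-- the centred two-edge term -/
def Tc (D : CD) : Tw := ((wt (ph D) (ph D)).mul (cS D)).mul (Bt D)

/-- the non-local part is an error -/
def NLS : Prop := Bd false fun D => NL D.B (Tc D)

/-- the words are two-edge terms -/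
def LinkS : Prop := ∀ (τ0 : ℝ) (D : CD), D.Ok τ0 → D.W.isSome = false →
  D.tw [aU, aU] = 2 * Ful D.B (((wt (ph D) (ph D)).mul (cS D)).mul (BU D)) ∧
  D.sL [D.Sd, D.Sd] = 2 * Ful D.B (ee (fun _ => 1) D.S 0 D.Sd D.Sd) ∧
  ∀ t ∈ D.up, D.sL [D.lev t, D.lev t] = 2 * Ful D.B (ee (fun _ => 1) D.S 0 (D.lev t) (D.lev t))

end Crest.Agent.T156.Cas.C40.Q10

end
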