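import Crest.Agent.T156.Q2N_75
import Crest.Agent.T156.CQ2_10
import Crest.Agent.T156.CLink_87

/-!
# Row 156 (helper75): the leaf `Q2S false`
-/

namespace Crest.Agent.T156.Cas.C40

theorem q2S_false : Q2S false := Q10.q2_of Q10.linkS N75.nlS

end Crest.Agent.T156.Cas.C40
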