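import Crest.Agent.T156.CEx_23
import Crest.Agent.T156.AltOne_23
import Crest.Agent.T156.CErr_54

/-!
# Row 156, block C: the Taylor remainders are errors (helper23)
-/

set_option autoImplicit false

noncomputable section

namespace Crest.Agent.T156.Cas.C40

open MeasureTheory Real Set Filter Topology
open Crest.Agent.T157.E Crest.Agent.T157.Casc Crest.Agent.T157.SL
open Crest.Agent.T157.G1 (ov)
open Mul55 OneP

namespace Ex23

variable {D : CD} {τ0 : ℝ}

/-- the part of `E0` that pays for the remainders -/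
def R0 (D : CD) : ℝ := (D.X ^ 6 + 1 / D.n + (D.K + 1) ^ 2 * D.tl + D.I fun j => D.u 5 j) / 4

/-- the facts on `Err` that are used -/
def EK : Prop := ∀ (τ0 : ℝ) (D : CD), D.Ok τ0 → (D.W.isSome = false → R0 D ≤ D.Err) ∧
  (D.W.isSome = true → D.wt * R0 D + D.Iw (D.u 5) ≤ D.Err)

theorem sum_dx_lo (D : CD) (h : D.J < D.K) :
    ∑ j ∈ Finset.range (D.K + 1), (if j ≤ D.J then D.dx j else 0) = ex D.B D.J := by
  rw [← Finset.sum_filter, ← sub_zero (ex D.B D.J), ← sum_dm D.B 0 D.J]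
  refine Finset.sum_congr ?_ fun _ _ => rfl
  ext j
  simp only [Finset.mem_filter, Finset.mem_range]
  omega

theorem X_nonneg (H : D.Ok τ0) : 0 ≤ D.X := by
  refine le_trans ?_ H.x1
  rw [← sub_zero (ex D.B D.J), ← sum_dm D.B 0 D.J]
  exact Finset.sum_nonneg fun j _ => dm_nonneg H.mono j

theorem pow_le_env {r X : ℝ} (h0 : 0 ≤ r) (h1 : r ≤ 1) (hX : 0 ≤ X) (p : ℕ) :
    r ^ p ≤ X ^ p + p * max (r - X) 0 := by
  rcases le_total r X with h | h
  · exact (pow_le_pow_left₀ h0 h p).trans (le_add_of_nonneg_right (by positivity))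
  · have h2 := (le_abs_self _).trans (abs_pow_sub_pow_le (a := r) (b := X) (n := p))
    rw [abs_of_nonneg (sub_nonneg.2 h), abs_of_nonneg h0, abs_of_nonneg hX, max_eq_left h] at h2
    have h3 := mul_le_of_le_one_right (a := (r - X) * p) (mul_nonneg (sub_nonneg.2 h) p.cast_nonneg)
      (pow_le_one₀ (n := p - 1) h0 h1)
    rw [max_eq_left (sub_nonneg.2 h)]
    linarith

theorem u_lo (H : D.Ok τ0) {j : ℕ} (hj : j ≤ D.J) (p : ℕ) :
    D.u (p + 2) j ≤ D.X ^ (p + 2) + 1 / D.n + (p + 2 : ℕ) * D.tl := by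
  have hX := X_nonneg H
  have ht := H.tl0
  rcases Nat.eq_zero_or_pos j with rfl | h1
  · exact (uM_root H.pos H.ook (H.qlo 0 hj) p).trans (by
      have : 0 ≤ D.X ^ (p + 2) + (p + 2 : ℕ) * D.tl := by positivity
      linarith)
  · have h2 := Crest.Agent.T157.Casc.pi2_mono (Ω := Cube D.n) wt_one90 D.B j
      (K := fun x y => |oU D.q j x y| ^ (p + 2))
      (K' := fun x y => D.X ^ (p + 2) + (p + 2 : ℕ) * max (|ov x y| - D.X) 0) (fun x y => by
        rw [oU, H.qlo j hj, sub_zero]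
        exact pow_le_env (abs_nonneg _) (abs_ov_le x y) hX _) 0
    rw [pi2_add wt_one90, pi2_const wt_one90, pi2_const_mul] at h2
    have h3 := mul_le_mul_of_nonneg_left (H.envL j (Finset.mem_Icc.2 ⟨h1, hj⟩))
      (p + 2 : ℕ).cast_nonneg
    have h4 : (0 : ℝ) ≤ 1 / D.n := by positivity
    exact h2.trans (by rw [CD.E2] at h3; linarith)

theorem momU_le (H : D.Ok τ0) : momU D.n D.β D.M D.q 5 ≤ 20 * R0 D := by
  have hX := X_nonneg H
  have ht := H.tl0
  have h4 : (0 : ℝ) ≤ 1 / D.n := by positivity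
  have hI : 0 ≤ D.I fun j => D.u 5 j :=
    Finset.sum_nonneg fun j _ => mul_nonneg (dm_nonneg H.mono j) (uM_nonneg _ _)
  have h1 : momU D.n D.β D.M D.q 5 ≤ ∑ j ∈ Finset.range (D.K + 1), ((if j ≤ D.J then D.dx j else 0) *
      (D.X ^ 5 + 1 / D.n + 5 * D.tl) + if j ≤ D.J then 0 else D.dx j * D.u 5 j) :=
    Finset.sum_le_sum fun j _ => by
      split_ifs with h
      · rw [add_zero]
        exact mul_le_mul_of_nonneg_left (by simpa using u_lo H h 3) (dm_nonneg H.mono j)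
      · simp
  rw [Finset.sum_add_distrib, ← Finset.sum_mul, sum_dx_lo D H.cut,
    sum_up (by rw [H.top, zero_mul])] at h1
  have h2 := mul_le_mul_of_nonneg_right H.x1
    (show 0 ≤ D.X ^ 5 + 1 / D.n + 5 * D.tl by positivity)
  have h3 := mul_le_of_le_one_left (b := 1 / D.n + 5 * D.tl) (by positivity) H.X1
  have h5 : D.tl ≤ (D.K + 1) ^ 2 * D.tl := le_mul_of_one_le_left ht
    (one_le_pow₀ (le_add_of_nonneg_left D.K.cast_nonneg))
  have h6 : 0 ≤ D.X ^ 6 := by positivity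
  rw [R0, CD.I] at *
  nlinarith

theorem n_le_R0 (H : D.Ok τ0) : 1 / (D.n : ℝ) ≤ 4 * R0 D := by
  have hX := X_nonneg H
  have ht := H.tl0
  have hI : 0 ≤ D.I fun j => D.u 5 j :=
    Finset.sum_nonneg fun j _ => mul_nonneg (dm_nonneg H.mono j) (uM_nonneg _ _)
  have : 0 ≤ D.X ^ 6 + (D.K + 1) ^ 2 * D.tl := by positivity
  rw [R0]
  linarith

theorem tw_val (h : D.W.isSome = false) : D.tw = tm D.n D.β D.M D.q D.cl := by
  funext f
  rw [CD.tw, CD.dd]
  split <;> simp_all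

theorem tau_mem (H : D.Ok τ0) : 0 ≤ D.τ D.K ∧ D.τ D.K ≤ |τ0| :=
  ⟨(H.ook.oTau_le _ _ _).1, H.tau.trans (le_abs_self _)⟩

theorem rem1 (E : EK) : Bd false fun D => D.dP0 + sumW (fun _ => 1) D.tw := fun τ0 =>
  ⟨9 / 2 * |τ0| * cOp |τ0| 4 4 2 * 20, mul_nonneg (mul_nonneg (by positivity)
    (cOp_nonneg (abs_nonneg _) _ _ _)) (by norm_num), fun D H hb => by
    obtain ⟨t0, t1⟩ := tau_mem H
    have h1 := rem_val H.pos H.ook H.mono D.cl 4
    simp only [CD.dP0, sumW, tw_val hb, one_mul]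
    refine h1.trans ?_
    rw [mul_assoc _ (20 : ℝ)]
    exact mul_le_mul (mul_le_mul (by linarith) (Wrd23.cOp_mono t0 t1 _ _ _) (cOp_nonneg t0 _ _ _)
      (by positivity)) ((momU_le H).trans (mul_le_mul_of_nonneg_left ((E τ0 D H).1 hb) (by norm_num)))
      (momU_nonneg H.mono _) (mul_nonneg (by positivity) (cOp_nonneg (abs_nonneg _) _ _ _))⟩

theorem rem2 (E : EK) (c : Bool) : Bd false fun D => sumW (degC c) D.tw := fun τ0 =>
  ⟨|τ0| * 4 + 6 * |τ0| * cOp |τ0| 4 4 2 * 20, add_nonneg (by positivity) (mul_nonneg (mul_nonneg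
    (by positivity) (cOp_nonneg (abs_nonneg _) _ _ _)) (by norm_num)), fun D H hb => by
    obtain ⟨t0, t1⟩ := tau_mem H
    have h1 := rem_amp H.pos H.ook H.mono D.cl (φ := fun c' => if c' = c then 1 else 0)
      (fun _ => by split_ifs <;> simp) 3
    have e : ∀ (k : ℕ) (f : Fin k → Lt), degC c (List.ofFn f) =
        ∑ r, (if (f r).1 = c then (1 : ℝ) else 0) * dg (f r) := fun k f => by
      simp only [degC, List.map_ofFn, List.sum_ofFn, Function.comp_def, Nat.cast_sum, Nat.cast_ite,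
        Nat.cast_zero, ite_mul, one_mul, zero_mul]
    simp only [sumW, tw_val hb, e, mul_div_assoc]
    refine h1.trans ?_
    have h2 := (E τ0 D H).1 hb
    rw [add_mul, mul_assoc _ (20 : ℝ), mul_assoc _ (4 : ℝ), div_eq_mul_one_div]
    exact add_le_add (mul_le_mul t1 ((n_le_R0 H).trans
      (mul_le_mul_of_nonneg_left h2 (by norm_num))) (by positivity) (abs_nonneg _))
      (mul_le_mul (mul_le_mul (by linarith) (Wrd23.cOp_mono t0 t1 _ _ _) (cOp_nonneg t0 _ _ _)
      (by positivity)) ((momU_le H).trans (mul_le_mul_of_nonneg_left h2 (by norm_num)))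
      (momU_nonneg H.mono _) (mul_nonneg (by positivity) (cOp_nonneg (abs_nonneg _) _ _ _)))⟩

theorem rem3 (E : EK) : Bd true fun D => ∑ j ∈ D.up, D.om j * (D.rb j - D.Gam j) -
    (sumW (fun _ => 1) D.tw - sumW (fun _ => 1) D.tU) := fun τ0 =>
  ⟨(2 * cOp |τ0| 5 4 2 + 2 * cOp |τ0| 4 4 2) * 20, mul_nonneg (add_nonneg (mul_nonneg zero_le_two
    (cOp_nonneg (abs_nonneg _) _ _ _)) (mul_nonneg zero_le_two (cOp_nonneg (abs_nonneg _) _ _ _)))
    (by norm_num), fun D H hb => by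
    obtain ⟨t0, t1⟩ := tau_mem H
    have dd : ∀ x y : ℝ, D.dd x y = y := fun x y => by
      rw [CD.dd]
      split <;> simp_all
    have e : ∀ (G : ℕ → Cube D.n → Cube D.n → ℝ) (Z : ℕ → Bool → Bool → ℝ), sumW (fun _ => 1)
        (fun f => ∑ j ∈ D.up, D.om j * wB (-1) D.B (oB D.n D.β D.M D.q [])
          (f.map (lt D.n D.β D.M D.q D.cl)) (Sh.two j) (pr2 j (G j)) (pr2 j (Z j))) =
        ∑ j ∈ D.up, D.om j * ∑ k ∈ Finset.range 4,
          opP D.n D.β D.M D.q (k + 1) j (G j) (Z j) / (k + 1).factorial := fun G Z => by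
      simp only [sumW, one_mul, opC_words H.pos H.ook D.cl, Finset.sum_div, Finset.mul_sum,
        mul_div_assoc]
      rw [Finset.sum_comm]
      exact Finset.sum_congr rfl fun k _ => Finset.sum_comm
    have e0 : ∀ j (G : Cube D.n → Cube D.n → ℝ) (Z : Bool → Bool → ℝ), opP D.n D.β D.M D.q 0 j G Z =
        D.E2 j G * pi2 (fun _ => 1) D.S j Z 0 := fun j G Z => by
      rw [CD.E2, ← Wt87.tX_two wt_one90, ← Wt87.tX_two wt_one90]
      rfl
    have e1 : sumW (fun _ => 1) D.tw = _ :=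
      (congrArg _ (funext fun f => dd _ _)).trans (e (fun _ _ _ => 1) (oE D.q))
    have e2 : sumW (fun _ => 1) D.tU = _ := e (oU D.q) fun _ _ _ => 1
    beta_reduce
    rw [e1, e2, ← Finset.sum_sub_distrib, ← Finset.sum_sub_distrib]
    have hc : 0 ≤ 2 * cOp |τ0| 5 4 2 + 2 * cOp |τ0| 4 4 2 := add_nonneg (mul_nonneg zero_le_two
      (cOp_nonneg (abs_nonneg _) _ _ _)) (mul_nonneg zero_le_two (cOp_nonneg (abs_nonneg _) _ _ _))
    refine (Finset.abs_sum_le_sum_abs _ _).trans ((Finset.sum_le_sum (g := fun j =>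
      (2 * cOp |τ0| 5 4 2 + 2 * cOp |τ0| 4 4 2) * 20 * (|D.om j| * 1 * R0 D + |D.om j| * D.u 5 j))
      fun j hj => ?_).trans ?_)
    · have h1 := rem_test H.pos H.ook H.mono 3 (Finset.mem_Ioo.1 hj).2.le
      rw [Finset.sum_range_succ', Finset.sum_range_succ' (fun k =>
        opP D.n D.β D.M D.q k j (oU D.q j) (fun _ _ => 1) / k.factorial), e0, e0, E2_oU, pi2_oE,
        CD.E2, pi2_const wt_one90, pi2_const wt_one90, abs_sub_comm] at h1
      have h3 : 2 * D.u 5 j + momU D.n D.β D.M D.q 5 ≤ 20 * (R0 D + D.u 5 j) := by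
        have : 0 ≤ D.u 5 j := uM_nonneg _ _
        linarith [momU_le H]
      have h2 := h1.trans (mul_le_mul (add_le_add
        (mul_le_mul_of_nonneg_left (Wrd23.cOp_mono t0 t1 _ _ _) zero_le_two)
        (mul_le_mul_of_nonneg_left (Wrd23.cOp_mono t0 t1 _ _ _) zero_le_two)) h3
        (add_nonneg (mul_nonneg zero_le_two (uM_nonneg _ _)) (momU_nonneg H.mono _)) hc)
      rw [← mul_sub, ← mul_sub, abs_mul]
      refine (mul_le_mul_of_nonneg_left (le_of_eq_of_le (congrArg abs ?_) h2)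
        (abs_nonneg _)).trans_eq (by ring)
      simp only [CD.del, Nat.factorial_zero, Nat.cast_one]
      ring
    · rw [← Finset.mul_sum, Finset.sum_add_distrib, ← Finset.sum_mul]
      refine mul_le_mul_of_nonneg_left (le_of_eq_of_le ?_ ((E τ0 D H).2 hb)) (by positivity)
      rw [CD.wt, dd]
      rfl⟩

end Ex23

open Ex23

theorem remS_of (E : EK) : RemS := ⟨rem1 E, rem2 E, rem3 E⟩

theorem Ex23.ek : EK := fun _ D H => by
  have h : R0 D ≤ D.E0 := by
    have := H.Iu5_le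
    rw [R0]
    linarith [H.X6_le, H.n_le, H.Ktl_le]
  exact ⟨fun hb => h.trans (H.E0_le hb), fun hb => by
    rw [CD.Err_test hb]
    exact add_le_add (mul_le_mul_of_nonneg_left h D.wt0) H.Iwu5_le⟩

/-- **Taylor expansion with remainder** -/
theorem remS : RemS := remS_of Ex23.ek

end Crest.Agent.T156.Cas.C40

end
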