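import Crest.Agent.T156.CIn_12
import Crest.Agent.T156.ClZb_9
import Crest.Agent.T156.Top_31

/-!
# Row 156, block C: the static defect `|Γ_site - q|` on the models `Alt.Md` (helper12)

Two profiles with the same labels above a low zone: the overlaps differ by the area between the
graphs, weighted with `min (s, t)`.
-/

set_option autoImplicit false
set_option linter.unusedSectionVars false

noncomputable section

namespace Crest.Agent.T156.St12

open MeasureTheory Set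
open Crest.Agent.R164.GC Crest.Agent.R339.B Crest.Agent.R339.Var Crest.Agent.T157.Pf
open Crest.Agent.T156.Pp.Area50 Crest.Agent.T156.Ker

theorem cell {sig : ℕ → ℝ} {t : ℝ} (h0 : sig 0 ≤ t) :
    ∀ P : ℕ, ∃ k ≤ P, sig k ≤ t ∧ (k < P → t < sig (k + 1))
  | 0 => ⟨0, le_rfl, h0, fun h => absurd h (lt_irrefl _)⟩
  | P + 1 => by
    obtain ⟨k, h1, h2, h3⟩ := cell h0 P
    rcases lt_or_ge t (sig (k + 1)) with e | e
    · exact ⟨k, h1.trans (Nat.le_succ _), h2, fun _ => e⟩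
    · obtain rfl : k = P := le_antisymm h1 (not_lt.1 fun h => (h3 h).not_ge e)
      exact ⟨k + 1, le_rfl, e, fun h => absurd h (lt_irrefl _)⟩

/-- the tilt function of `l` is `z k` on the cells of `sig`, at most `z 0` below, `1` above -/
structure Cel (l : List (ℝ × ℝ)) (z sig : ℕ → ℝ) (P : ℕ) : Prop where
  adm : Adm 1 l
  up : Up sig P
  lv : ∀ k < P, ∀ t, sig k ≤ t → t < sig (k + 1) → lvr 1 l t = z k
  top : ∀ t, sig P ≤ t → lvr 1 l t = 1
  zP : z P = 1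
  low : ∀ t, 0 ≤ t → t < sig 0 → lvr 1 l t ≤ z 0

theorem lvr_nn {l : List (ℝ × ℝ)} (h : Adm 1 l) (t : ℝ) : 0 ≤ lvr 1 l t := by
  refine le_trans ?_ (Sc48.lvr_mem h t).1
  cases l with
  | nil => exact zero_le_one
  | cons p l => exact h.1.le

theorem Cel.sub {l : List (ℝ × ℝ)} {z sig : ℕ → ℝ} {P : ℕ} (h : Cel l z sig P) {s1 t : ℝ}
    (z0 : 0 ≤ z 0) (h1 : sig 0 ≤ s1) (ht : 0 ≤ t) : 0 ≤ stp z sig P t - lvr 1 l t ∧
      stp z sig P t - lvr 1 l t ≤ z 0 * (ind 0 t - ind s1 t) := by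
  rw [ind_pos ht]
  rcases lt_or_ge t (sig 0) with e | e
  · rw [stp_eq h.up (Nat.zero_le P) (fun k => absurd k (lt_irrefl _))
      fun k => e.trans_le (h.up 0 k), ind_neg (e.trans_le h1)]
    exact ⟨sub_nonneg.2 (h.low t ht e), by linarith [lvr_nn h.adm t]⟩
  · obtain ⟨k, k1, k2, k3⟩ := cell e P
    have : lvr 1 l t = z k := by
      rcases k1.lt_or_eq with r | r
      · exact h.lv k r t k2 (k3 r)
      · rw [r, h.zP]; exact h.top t (r ▸ k2)
    rw [stp_eq h.up k1 (fun _ => k2) k3, this, sub_self]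
    exact ⟨le_rfl, mul_nonneg z0 (sub_nonneg.2 (ind_le_one _ _))⟩

theorem TT_app (d : ℝ) : ∀ l : List (ℝ × ℝ), TT (l ++ [(1, d)]) = TT l + d
  | [] => by simp [TT]
  | p :: l => by rw [List.cons_append, TT_cons, TT_cons, TT_app d l]; ring

/-- a longer list with positive slices -/
theorem longer {l : List (ℝ × ℝ)} (h : Adm 1 l) {T1 : ℝ} (h0 : 0 ≤ T1) (l0 : 0 ≤ TT l)
    (top : ∀ t, T1 ≤ t → lvr 1 l t = 1) : ∃ u, Pr.Ok u ∧ Tp T1 u ∧ TT l ≤ TT u ∧
      (∀ t, 0 ≤ t → lvr 1 u t = lvr 1 l t) ∧ ∀ t ∈ Icc 0 (TT l), Pr.Gam u t = Pr.Gam l t := by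
  obtain ⟨u, a, b, -⟩ := Spl27.exists_ok (adm_app h0 h)
  have e : TT u = TT l + T1 := by rw [← b.tt, TT_app]
  have lv : ∀ t, 0 ≤ t → lvr 1 u t = lvr 1 l t := fun t ht => by rw [← b.lv t ht, lvr_app]
  refine ⟨u, a, ⟨a.1, ⟨h0, by linarith⟩, fun t ht => by rw [lv t (h0.trans ht), top t ht]⟩,
    by linarith, lv, (same_le h a.1 (by linarith) fun s hs _ => lv s hs.le).gam⟩

theorem WN_eq {u u' : List (ℝ × ℝ)} (h : Adm 1 u) (h' : Adm 1 u') {t T1 : ℝ} (ht : 0 ≤ t)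
    (h0 : 0 ≤ T1) : Wf u u' (min t T1) + t * Nf u u' (min t T1) T1 =
      ∫ s in (0 : ℝ)..T1, |lvr 1 u' s - lvr 1 u s| * min s t := by
  have ii : ∀ a b, IntervalIntegrable (fun s => |lvr 1 u' s - lvr 1 u s| * min s t) volume a b :=
    fun a b => ((Pp.Ode3.lvr_ii h' a b).sub (Pp.Ode3.lvr_ii h a b)).abs.mul_continuousOn
      (by fun_prop)
  rw [← intervalIntegral.integral_add_adjacent_intervals (ii 0 (min t T1)) (ii (min t T1) T1)]
  congr 1
  · refine intervalIntegral.integral_congr fun s hs => ?_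
    rw [uIcc_of_le (le_min ht h0)] at hs
    simp only [min_eq_left (hs.2.trans (min_le_left _ _)), mul_comm]
  · rcases le_total t T1 with e | e
    · rw [min_eq_left e, Nf, ← intervalIntegral.integral_const_mul]
      refine intervalIntegral.integral_congr fun s hs => ?_
      rw [uIcc_of_le e] at hs
      simp only [min_eq_right hs.1, mul_comm]
    · simp [min_eq_right e, Nf]

/-- **two profiles on the same labels** -/
theorem gam_two (T : ℝ) : ∃ C : ℝ, 1 ≤ C ∧ ∀ (l l' : List (ℝ × ℝ)) (z sig sig' : ℕ → ℝ) (P : ℕ)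
    (s1 t t' : ℝ), Cel l z sig P → Cel l' z sig' P → Up z P → 0 ≤ z 0 → 0 ≤ sig 0 → sig P ≤ T →
    sig' P ≤ T → sig 0 ≤ s1 → sig' 0 ≤ s1 → t ∈ Icc 0 (TT l) → t' ∈ Icc 0 (TT l') →
    |Pr.Gam l' t' - Pr.Gam l t| ≤ |t' - t| + C * (z 0 * (min s1 t * s1) +
      ∑ j ∈ Finset.range P, (z (j + 1) - z j) *
        (min (max (sig (j + 1)) (sig' (j + 1))) t * |sig' (j + 1) - sig (j + 1)|)) := by
  obtain ⟨C, h1, hC⟩ := fun_lip' T
  refine ⟨C, h1, fun l l' z sig sig' P s1 t t' h h' hz z0 s0 hT hT' e1 e1' ht ht' => ?_⟩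
  set T1 := max (sig P) (sig' P) with hT1
  have T0 : 0 ≤ T1 := (s0.trans (h.up.le (Nat.zero_le P) le_rfl)).trans (le_max_left _ _)
  obtain ⟨u, a1, a2, a3, a4, a5⟩ := longer h.adm T0 (ht.1.trans ht.2)
    fun s hs => h.top s ((le_max_left _ _).trans hs)
  obtain ⟨u', b1, b2, b3, b4, b5⟩ := longer h'.adm T0 (ht'.1.trans ht'.2)
    fun s hs => h'.top s ((le_max_right _ _).trans hs)
  set r := min t t' with hr
  have r0 : 0 ≤ r := le_min ht.1 ht'.1
  have r1 : r ∈ Icc 0 (TT u) := ⟨r0, (min_le_left _ _).trans (ht.2.trans a3)⟩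
  have r2 : r ∈ Icc 0 (TT u') := ⟨r0, (min_le_right _ _).trans (ht'.2.trans b3)⟩
  have k1 := Pp.Ode3.Gam_lip (.of_ok a1) r1 ⟨ht.1, ht.2.trans a3⟩
  have k2 := Pp.Ode3.Gam_lip (.of_ok b1) r2 ⟨ht'.1, ht'.2.trans b3⟩
  have k3 := (hC T1 u u' a2 b2 (max_le hT hT') r r0 r1.2 r2.2 _ _ rfl rfl).1
  have k4 : |t - r| + |t' - r| = |t' - t| := by
    rcases le_total t t' with e | e
    · rw [hr, min_eq_left e, sub_self, abs_zero, zero_add]
    · rw [hr, min_eq_right e, sub_self, abs_zero, add_zero, abs_sub_comm]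
  rw [WN_eq a1.1 b1.1 r0 T0] at k3
  have s10 : 0 ≤ s1 := s0.trans e1
  have m0 : 0 ≤ min s1 t := le_min s10 ht.1
  have ig : IntervalIntegrable (fun s => min s r) volume 0 T1 :=
    (by fun_prop : Continuous fun s : ℝ => min s r).intervalIntegrable _ _
  have g0 : ∀ s ∈ Icc 0 T1, 0 ≤ min s r := fun s hs => le_min hs.1 r0
  have i1 : IntervalIntegrable (fun s => |stp z sig' P s - stp z sig P s| * min s r) volume 0 T1 :=
    ((ii_stp_one z sig' P 0 T1).sub (ii_stp_one z sig P 0 T1)).abs.mul_continuousOn (by fun_prop)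
  have i2 := (ii_ind_sub (a := 0) (b := T1) (g := fun _ => min s1 t) intervalIntegrable_const s1
    0).const_mul (z 0)
  have k5 := area_abs_le sig sig' hz T0 ig g0
    (G := fun j => min (max (sig j) (sig' j)) t) fun j _ s _ _ e => min_le_min e (min_le_left _ _)
  have k6 : ∫ s in (0 : ℝ)..T1, z 0 * ((ind 0 s - ind s1 s) * min s1 t) ≤ z 0 * (min s1 t * s1) := by
    rw [intervalIntegral.integral_const_mul, int_ind_sub T0 intervalIntegrable_const,
      intervalIntegral.integral_const, smul_eq_mul, mul_comm (_ - _)]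
    refine mul_le_mul_of_nonneg_left (mul_le_mul_of_nonneg_left ?_ m0) z0
    have := (le_abs_self _).trans (cl_lip 0 T1 s1 0)
    rwa [sub_zero, abs_of_nonneg s10] at this
  have k7 : ∫ s in (0 : ℝ)..T1, |lvr 1 u' s - lvr 1 u s| * min s r ≤
      (∫ s in (0 : ℝ)..T1, z 0 * ((ind 0 s - ind s1 s) * min s1 t)) +
        ∫ s in (0 : ℝ)..T1, |stp z sig' P s - stp z sig P s| * min s r := by
    rw [← intervalIntegral.integral_add i2 i1]
    refine intervalIntegral.integral_mono_on T0 (((Pp.Ode3.lvr_ii b1.1 _ _).sub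
      (Pp.Ode3.lvr_ii a1.1 _ _)).abs.mul_continuousOn (by fun_prop)) (i2.add i1) fun s hs => ?_
    obtain ⟨p1, p2⟩ := h.sub z0 e1 hs.1
    obtain ⟨q1, q2⟩ := h'.sub z0 e1' hs.1
    have c1 : |lvr 1 l' s - lvr 1 l s| ≤
        z 0 * (ind 0 s - ind s1 s) + |stp z sig' P s - stp z sig P s| := by
      have := abs_le.1 (le_refl |stp z sig' P s - stp z sig P s|)
      exact abs_le.2 ⟨by linarith [this.1], by linarith [this.2]⟩
    have c2 : z 0 * (ind 0 s - ind s1 s) * min s r ≤ z 0 * ((ind 0 s - ind s1 s) * min s1 t) := by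
      rw [mul_assoc, ind_pos hs.1]
      refine mul_le_mul_of_nonneg_left ?_ z0
      rcases lt_or_ge s s1 with e | e
      · rw [ind_neg e, sub_zero, one_mul, one_mul]
        exact min_le_min e.le (min_le_left _ _)
      · rw [ind_pos e, sub_self, zero_mul, zero_mul]
    rw [a4 s hs.1, b4 s hs.1]
    nlinarith [mul_le_mul_of_nonneg_right c1 (g0 s hs)]
  have k8 : ∑ j ∈ Finset.range P, (z (j + 1) - z j) * (min (max (sig (j + 1)) (sig' (j + 1))) t *
      |cl 0 T1 (sig' (j + 1)) - cl 0 T1 (sig (j + 1))|) ≤ ∑ j ∈ Finset.range P, (z (j + 1) - z j) *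
        (min (max (sig (j + 1)) (sig' (j + 1))) t * |sig' (j + 1) - sig (j + 1)|) :=
    Finset.sum_le_sum fun j hj => by
      have hj := Finset.mem_range.1 hj
      exact mul_le_mul_of_nonneg_left (mul_le_mul_of_nonneg_left (cl_lip _ _ _ _) (le_min
        ((s0.trans (h.up.le (Nat.zero_le _) hj)).trans (le_max_left _ _)) ht.1))
        (sub_nonneg.2 (hz j hj))
  have k9 := mul_le_mul_of_nonneg_left (k7.trans (add_le_add k6 (k5.trans k8)))
    (zero_le_one.trans h1)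
  rw [← a5 t ht, ← b5 t' ht']
  have := abs_sub_le (Pr.Gam u' t') (Pr.Gam u' r) (Pr.Gam u t)
  have := abs_sub_le (Pr.Gam u' r) (Pr.Gam u r) (Pr.Gam u t)
  rw [abs_sub_comm (Pr.Gam u r)] at this
  change |Pr.Gam u t - Pr.Gam u r| ≤ _ at k1
  change |Pr.Gam u' t' - Pr.Gam u' r| ≤ _ at k2
  linarith

end Crest.Agent.T156.St12

namespace Crest.Agent.T156.Alt.CIn12

open MeasureTheory Finset
open Crest.Agent.R164.GC Crest.Agent.R339.B Crest.Agent.R339.Var Crest.Agent.T157.Pf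
open Crest.Agent.T156.Pp.Area50 Crest.Agent.T156.Cas Crest.Agent.T156.Alt.Md67
open Crest.Agent.T156.St12 Crest.Agent.T157.E Crest.Agent.T157.Casc Crest.Agent.T157.SL

/-- site time of the profile node `k` -/
def sg (M : Md) (m : ℕ) (ρ : ℕ → ℝ) (k : ℕ) : ℝ := tp M m k * ρ k + M.H k

/-- site overlap at the profile node `k` for the reference `ρ` (no cut) -/
def GamR (M : Md) (m : ℕ) (a : ℝ) (ρ : ℕ → ℝ) (k : ℕ) : ℝ :=
  Pr.Gam (opV m 1 (M.Mx a) (qx M ρ)) (sg M m ρ k)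

/-- the reference list has the labels of the model from the node `i` on, tilt `1` from `P` on -/
structure RS (M : Md) (i P : ℕ) (T : ℝ) : Prop where
  adm : Adm 1 M.lr
  iP : i ≤ P
  PN : P < M.N
  s0 : 0 ≤ M.s 0
  sm : Monotone M.s
  sN : M.s M.N ≤ TT M.lr
  sT : M.s P ≤ T
  lv : ∀ k, i ≤ k → k < P → ∀ t, M.s k ≤ t → t < M.s (k + 1) → lvr 1 M.lr t = M.z k
  lv1 : ∀ t, M.s P ≤ t → lvr 1 M.lr t = 1
  zP : M.z P = 1
  low : ∀ t, 0 ≤ t → t < M.s i → lvr 1 M.lr t ≤ M.z i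

variable {M : Md} {m : ℕ} {a : ℝ} {ρ : ℕ → ℝ} {i J P : ℕ} {T : ℝ}

theorem GamC_eq {k : ℕ} (h : J ≤ k) : GamC M m a ρ J k = GamR M m a (cq J ρ) k := by
  rw [GamR, sg, cq_ge h]; rfl

/-- the overlap of the site cascade (85's `GamF`) -/
theorem GamR_eq {x : ℝ} (h : M.Leg x) (hρ : Rf M ρ) {k : ℕ} (hk : k < M.N) :
    pi2 (fun _ => 1) (opS m 1 (M.Mx a) (qx M ρ)) (k + 1)
      (fun e e' => ProbabilityR.SpinGlassDynamics.spin e * ProbabilityR.SpinGlassDynamics.spin e')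
      0 = GamR M m a ρ k := Gam_Mx h hρ hk

theorem rs_cl {S : Sc} (h : Cl S M) (h0 : S.j0 ≤ i) (h1 : i < S.J) : RS M i S.Jp S.C :=
  ⟨h.ok.1, h1.le.trans h.i3, h.i4, h.s0.ge, h.sm, h.sN, h.sT,
    fun k hk _ => h.lv k (h0.trans hk), h.lv1, h.top _ le_rfl, fun _ _ ht =>
      (Sc48.lvr_mono h.ok.1 ht.le).trans_eq (h.lv i h0 _ le_rfl (Mp9.s_lt h h1))⟩

theorem RS.cel (h : RS M i P T) : Cel M.lr (fun j => M.z (i + j)) (fun j => M.s (i + j)) (P - i) :=
  have e : i + (P - i) = P := Nat.add_sub_cancel' h.iP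
  ⟨h.adm, fun j _ => h.sm (by omega), fun k hk => h.lv _ (by omega) (by omega),
    fun t ht => h.lv1 t (by rwa [e] at ht), by rw [e]; exact h.zP, h.low⟩

theorem rf_nn (h : Rf M ρ) : ∀ k < M.N, 0 ≤ ρ k
  | 0, _ => h.nn
  | k + 1, hk => (rf_nn h k (by omega)).trans (h.mono k hk)

theorem cel_site (G : Lg M m a) (ha : 0 < a) (hρ : Rf M ρ) (hi : i ≤ P) (hP : P < M.N)
    (zP : M.z P = 1) : Cel (opV m 1 (M.Mx a) (qx M ρ)) (fun j => M.z (i + j))
      (fun j => sg M m ρ (i + j)) (P - i) ∧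
      ∀ k < M.N, sg M m ρ k ∈ Set.Icc 0 (TT (opV m 1 (M.Mx a) (qx M ρ))) := by
  have hL := G.toLeg
  set σ : ℕ → ℝ := fun j => oTau m 1 (M.Mx a) j * qx M ρ j + fAcc (M.Mx a) j with hσ
  have s0 : σ 0 = 0 := by simp [hσ, qx, fAcc]
  have s1 : ∀ k ≤ M.N, σ (k + 1) = tp M m k * qx M ρ (k + 1) + M.H k := fun k hk => by
    simp only [hσ, oTau_tp hk, fAcc_Mx hL hk]
  have s2 : ∀ k < M.N, σ (k + 1) = sg M m ρ k := fun k hk => by rw [s1 k hk.le, qx_succ hk, sg]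
  have q0 : ∀ k, 0 ≤ qx M ρ (k + 1) := fun k => by
    rcases lt_or_ge k M.N with e | e
    exacts [qx_succ e ▸ rf_nn hρ k e, qx_top e ▸ zero_le_one]
  have up : Up σ (M.N + 1) := fun j hj => by
    rcases j with _ | k
    · rw [s0, s1 0 (Nat.zero_le _), hL.H0, add_zero]
      exact mul_nonneg (tp_mem hL 0).1 (q0 0)
    · rw [s1 k (by omega), s1 (k + 1) (by omega)]
      refine add_le_add (mul_le_mul (tp_mono hL (Nat.le_succ k)) ?_ (q0 k) (tp_mem hL _).1)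
        (hL.Hm (Nat.le_succ k))
      rw [qx_succ (by omega : k < M.N)]
      rcases lt_or_ge (k + 1) M.N with e | e
      exacts [qx_succ e ▸ hρ.mono k e, qx_top e ▸ hρ.le k (by omega)]
  have xm : Monotone (Mp9.xb M a) := monotone_nat_of_le_succ fun
    | 0 => hL.z0
    | k + 1 => hL.zm (Nat.le_succ k)
  have e := Zb9.opV_eq m 1 (M.Mx a) (qx M ρ) (Mp9.Mx_tilt M a)
  rw [len_Mx] at e
  have lv : ∀ t, lvr 1 (opV m 1 (M.Mx a) (qx M ρ)) t = stp (Mp9.xb M a) σ (M.N + 1) t := fun t => by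
    rw [e]; exact lvr_lsg (z := Mp9.xb M a) (J := M.N + 1) hL.zN up s0 t
  have eP : i + (P - i) = P := Nat.add_sub_cancel' hi
  refine ⟨⟨adm_Mx G ha hρ, fun j hj => ?_, fun k hk t h1 h2 => ?_, fun t ht => ?_,
    by rw [eP]; exact zP, fun t h0 ht => ?_⟩, fun k hk => ?_⟩
  · rw [← s2 _ (by omega), ← s2 _ (by omega)]; exact up.le (by omega) (by omega)
  · rw [← s2 _ (by omega)] at h1 h2
    rw [lv, stp_eq up (k := i + k + 1) (by omega) (fun _ => h1) fun _ => h2]; rfl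
  · rw [eP, ← s2 _ hP] at ht
    obtain ⟨k, k1, k2, k3⟩ := cell (sig := σ) (s0.le.trans ((s0.ge.trans
      (up.le (Nat.zero_le _) (by omega))).trans ht)) (M.N + 1)
    have : P + 1 ≤ k := not_lt.1 fun r => (k3 (by omega)).not_ge ((up.le r (by omega)).trans ht)
    rw [lv, stp_eq up k1 (fun _ => k2) k3]
    refine le_antisymm ((xm k1).trans_eq hL.zN) (le_trans zP.ge (xm this))
  · rw [add_zero, ← s2 _ (by omega)] at ht
    obtain ⟨k, k1, k2, k3⟩ := cell (sig := σ) (s0.le.trans h0) (M.N + 1)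
    have : k ≤ i + 1 := not_lt.1 fun r => (ht.trans_le (up.le r.le k1)).not_ge k2
    rw [lv, stp_eq up k1 (fun _ => k2) k3]
    exact xm this
  · rw [← s2 k hk, e, TT_lsg]
    exact ⟨s0.ge.trans (up.le (Nat.zero_le _) (by omega)),
      (up.le (by omega) le_rfl).trans_eq (by
        change σ (M.N + 1) = σ (M.N + 1) - σ 0
        rw [s0, sub_zero])⟩

/-- **(St)**, any admissible reference `ρ`, low zone up to the node `i` -/
theorem st_le (T : ℝ) : ∃ C : ℝ, 1 ≤ C ∧ ∀ (M : Md) (m : ℕ) (a : ℝ) (ρ : ℕ → ℝ) (i P : ℕ) (s1 : ℝ),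
    Lg M m a → 0 < a → Rf M ρ → RS M i P T → sg M m ρ P ≤ T → sg M m ρ i ≤ s1 → M.s i ≤ s1 →
    ∀ k < M.N, |GamR M m a ρ k - M.q k| ≤ |sg M m ρ k - M.s k| +
      C * (M.z i * (min s1 (M.s k) * s1) + ∑ j ∈ Ioc i P, M.dz m a j *
        (min (max (M.s j) (sg M m ρ j)) (M.s k) * |sg M m ρ j - M.s j|)) := by
  obtain ⟨C, h1, hC⟩ := gam_two T
  refine ⟨C, h1, fun M m a ρ i P s1 G ha hρ R hT e1 e2 k hk => ?_⟩
  obtain ⟨c1, c2⟩ := cel_site G ha hρ R.iP R.PN R.zP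
  have eP : i + (P - i) = P := Nat.add_sub_cancel' R.iP
  have sn : ∀ j, 0 ≤ M.s j := fun j => R.s0.trans (R.sm (Nat.zero_le j))
  have := hC _ _ _ _ _ _ s1 (M.s k) (sg M m ρ k) R.cel c1 (fun j _ => G.zm (by omega))
    (G.z_nonneg _) (sn _) (by rw [eP]; exact R.sT) (by rw [eP]; exact hT) e2 e1
    ⟨sn k, (R.sm hk.le).trans R.sN⟩ (c2 k hk)
  refine this.trans_eq ?_
  rw [← Ico_add_one_add_one_eq_Ioc, sum_Ico_eq_sum_range, show P + 1 - (i + 1) = P - i by omega]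
  congr 3
  refine sum_congr rfl fun j _ => ?_
  rw [show i + 1 + j = i + j + 1 by omega, dz_succ G.toLeg]; rfl

theorem sg_q (h : M.Leg a) (k : ℕ) : sg M m M.q k - M.s k = M.G k - M.d k / (m + 1) * M.q k := by
  rw [sg, ← (tp_mem (m := m) h k).2.2, Md.G]; ring

theorem sg_q_le (h : M.Leg a) {k : ℕ} (hk : k ≤ M.N) : sg M m M.q k ≤ M.s k + |M.G k| ∧
    |sg M m M.q k - M.s k| ≤ |M.G k| + M.b / (m + 1) := by
  have e := sg_q (m := m) h k
  have p : (0 : ℝ) < m + 1 := by positivity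
  have h0 : 0 ≤ M.d k / (m + 1) * M.q k := mul_nonneg (div_nonneg (d_nonneg h k) p.le) (q_nonneg k)
  have h1 : M.d k / (m + 1) * M.q k ≤ M.b / (m + 1) :=
    (mul_le_of_le_one_right (div_nonneg (d_nonneg h k) p.le) (q_le_one k)).trans
      (div_le_div_of_nonneg_right (h.dm hk) p.le)
  refine ⟨by linarith [le_abs_self (M.G k)], ?_⟩
  rw [e]
  exact (abs_sub _ _).trans (by rw [abs_of_nonneg h0]; linarith)

/-- **(St) for the reference `q` cut at `J`** (`J = i + 1`): `CD.Gam - CD.q` of `cd M m a M.q J` -/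
theorem st_q (T : ℝ) : ∃ C : ℝ, 1 ≤ C ∧ ∀ (M : Md) (m : ℕ) (a : ℝ) (i P : ℕ) (s1 : ℝ),
    Lg M m a → 0 < a → Rf M M.q → RS M i P T → M.b + M.H P ≤ T → M.H i ≤ s1 → M.s i ≤ s1 →
    ∀ k, i < k → k < M.N → |GamC M m a M.q (i + 1) k - M.q k| ≤ |M.G k| +
      C * (1 / m + M.z i * (min s1 (M.s k) * s1) +
        ∑ j ∈ Ioc i P, M.dz m a j * (min (M.s j + |M.G j|) (M.s k) * |M.G j|)) := by
  obtain ⟨C, h1, hC⟩ := st_le T
  refine ⟨C * (1 + T ^ 2) + |T|, by nlinarith [sq_nonneg T, abs_nonneg T],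
    fun M m a i P s1 G ha hρ R hT e1 e2 k hi hk => ?_⟩
  have hL := G.toLeg
  have eq : ∀ j, i < j → sg M m (cq (i + 1) M.q) j = sg M m M.q j := fun j hj => by
    rw [sg, cq_ge hj, sg]
  have sn : ∀ j, 0 ≤ M.s j := fun j => R.s0.trans (R.sm (Nat.zero_le j))
  have H0 : ∀ j, 0 ≤ M.H j := fun j => hL.H0.ge.trans (hL.Hm (Nat.zero_le j))
  have b0 : 0 ≤ M.b := d_nonneg hL _
  have bT : M.b ≤ |T| := by linarith [H0 P, le_abs_self T]
  have sT : ∀ ρ, Rf M ρ → ∀ j ≤ P, sg M m ρ j ≤ T := fun ρ hρ j hj => by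
    have j1 : j < M.N := hj.trans_lt R.PN
    have := mul_le_of_le_one_right (tp_mem (m := m) hL j).1 (hρ.le j j1)
    have := (tp_mem (m := m) hL j).2.1.trans (hL.dm j1.le)
    have := hL.Hm hj
    unfold sg Md.b at *
    linarith
  have m0 : (0 : ℝ) < m := by exact_mod_cast G.m0
  have bm : M.b / (m + 1) ≤ |T| * (1 / m) := by
    rw [mul_one_div]; exact div_le_div₀ (abs_nonneg _) bT m0 (by linarith)
  have := hC M m a _ i P s1 G ha (rf_cq hρ (i + 1)) R (sT _ (rf_cq hρ _) P le_rfl)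
    (by rw [sg, cq_lt (Nat.lt_succ_self i), mul_zero, zero_add]; exact e1) e2 k hk
  rw [GamC_eq hi]
  rw [eq k hi] at this
  have k1 := (sg_q_le (m := m) hL hk.le).2
  have k2 : ∑ j ∈ Ioc i P, M.dz m a j * (min (max (M.s j) (sg M m (cq (i + 1) M.q) j)) (M.s k) *
      |sg M m (cq (i + 1) M.q) j - M.s j|) ≤ ∑ j ∈ Ioc i P, (M.dz m a j *
        (min (M.s j + |M.G j|) (M.s k) * |M.G j|) + M.dz m a j * (T ^ 2 * (1 / m))) :=
    sum_le_sum fun j hj => by
      obtain ⟨j1, j2⟩ := mem_Ioc.1 hj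
      obtain ⟨p1, p2⟩ := sg_q_le (m := m) hL (j2.trans R.PN.le)
      rw [eq j j1, ← mul_add]
      refine mul_le_mul_of_nonneg_left ?_ (G.dz_nonneg j)
      set w := min (max (M.s j) (sg M m M.q j)) (M.s k)
      have w0 : 0 ≤ w := le_min ((sn j).trans (le_max_left _ _)) (sn k)
      have w1 : w ≤ min (M.s j + |M.G j|) (M.s k) :=
        min_le_min (max_le (le_add_of_nonneg_right (abs_nonneg _)) p1) le_rfl
      have w2 : w ≤ |T| := (min_le_left _ _).trans ((max_le ((R.sm j2).trans R.sT)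
        (sT _ hρ j j2)).trans (le_abs_self T))
      have w3 := mul_le_mul w2 bm (by positivity) (abs_nonneg T)
      rw [← mul_assoc, abs_mul_abs_self, ← sq] at w3
      nlinarith [mul_le_mul_of_nonneg_left p2 w0, mul_le_mul_of_nonneg_right w1 (abs_nonneg (M.G j))]
  rw [sum_add_distrib, ← sum_mul] at k2
  have k3 : (∑ j ∈ Ioc i P, M.dz m a j) * (T ^ 2 * (1 / m)) ≤ T ^ 2 * (1 / m) :=
    mul_le_of_le_one_left (by positivity) ((G.sum_dz_le _).trans (by linarith))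
  have p1 : 0 ≤ M.z i * (min s1 (M.s k) * s1) := mul_nonneg (G.z_nonneg i)
    (mul_nonneg (le_min ((sn i).trans e2) (sn k)) ((sn i).trans e2))
  have p2 : 0 ≤ ∑ j ∈ Ioc i P, M.dz m a j * (min (M.s j + |M.G j|) (M.s k) * |M.G j|) :=
    sum_nonneg fun j _ => mul_nonneg (G.dz_nonneg j) (mul_nonneg
      (le_min (add_nonneg (sn j) (abs_nonneg _)) (sn k)) (abs_nonneg _))
  have p3 : (0 : ℝ) < 1 / m := by positivity
  have C0 : 0 ≤ C := by linarith
  generalize M.z i * (min s1 (M.s k) * s1) = x at *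
  generalize ∑ j ∈ Ioc i P, M.dz m a j * (min (M.s j + |M.G j|) (M.s k) * |M.G j|) = y at *
  generalize (1 : ℝ) / m = u at *
  have k4 := mul_le_mul_of_nonneg_left (add_le_add_right (k2.trans (add_le_add_right k3 y)) x) C0
  nlinarith [mul_nonneg C0 p3.le, mul_nonneg (mul_nonneg C0 (sq_nonneg T)) (add_nonneg p1 p2),
    mul_nonneg (abs_nonneg T) (add_nonneg p1 p2)]

/-- **(St) on the class**, cut `J = i + 1` with `j0 ≤ i < S.J` -/
theorem st_cl (C₀ : ℝ) : ∃ C : ℝ, 1 ≤ C ∧ ∀ (S : Sc) (M : Md) (m : ℕ) (a : ℝ) (i : ℕ) (s1 : ℝ),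
    Cl S M → S.In m a → S.C ≤ C₀ → M.H S.Jp ≤ C₀ → S.j0 ≤ i → i < S.J → M.H i ≤ s1 → M.s i ≤ s1 →
    ∀ k, i < k → k < M.N → |GamC M m a M.q (i + 1) k - M.q k| ≤ |M.G k| +
      C * (1 / m + M.z i * (min s1 (M.s k) * s1) +
        ∑ j ∈ Ioc i S.Jp, M.dz m a j * (min (M.s j + |M.G j|) (M.s k) * |M.G j|)) := by
  obtain ⟨C, h1, hC⟩ := st_q (2 * C₀)
  refine ⟨C, h1, fun S M m a i s1 h hi hC0 hH h0 hJ => ?_⟩
  have R := rs_cl h h0 hJ
  have n0 := Mp9.n_pos h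
  exact hC M m a i S.Jp s1 (lg_cl h n0 hi) (lt_of_lt_of_le (by positivity) hi.a1) (rf_q h)
    { R with sT := by linarith [R.sT, h.C1] } (by linarith [h.b1])

end Crest.Agent.T156.Alt.CIn12

end
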