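import Crest.Agent.T156.CLink_87
import Crest.Agent.T156.CQ2A_10
import Crest.Agent.T156.CWk_55

/-!
# Row 156, block C: a marked pair and one more edge, tree forms and crude parts (helper4)
-/

set_option autoImplicit false
set_option linter.all false

noncomputable section

namespace Crest.Agent.T156.Cas.Ub4

open Finset
open Crest.Agent.T157.E Crest.Agent.T157.Casc Crest.Agent.T157.SL
open Nu87 Q75 Wt87 Tay38

theorem inj3 {α : Type} {a b c : α} (h1 : a ≠ b) (h2 : a ≠ c) (h3 : b ≠ c) :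
    Function.Injective ![a, b, c] := by
  intro i j h
  fin_cases i <;> fin_cases j <;> simp_all [h1.symm, h2.symm, h3.symm]

theorem inj4 {α : Type} {a b c d : α} (h1 : a ≠ b) (h2 : a ≠ c) (h3 : a ≠ d) (h4 : b ≠ c)
    (h5 : b ≠ d) (h6 : c ≠ d) : Function.Injective ![a, b, c, d] := by
  intro i j h
  fin_cases i <;> fin_cases j <;>
    simp_all [h1.symm, h2.symm, h3.symm, h4.symm, h5.symm, h6.symm]

theorem shr_two' (j k : ℕ) : (Sh.two j).shr (Sh.twoR j) (Sh.twoL j) k = min j k :=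
  (shr_comm _ _ _ _).trans (shr_two j k)

section tree
variable {Ω : Type} [Fintype Ω] {w : Ω → ℝ} (hw : Wt w) (L : List (Lv Ω)) (h : Ω → ℝ)
  (S S' : ℕ → Ω → Ω → ℝ)
include hw

/-- the free end is the leaf -/
theorem lo_leaf {y x : ℕ} (e : y ≤ x) (hx : x ≤ L.length) :
    (ee w L h S S').lo L.length y x (L.length + 1) = tX w (Sh.two y) L h fun g ξ =>
      S' y (ξ (Sh.twoR y)) (ξ (Sh.twoL y)) *
        Pf w (L.drop x) (stT (Sh.two y) L h g (Sh.twoL y) x) (S x (ξ (Sh.twoL y))) := by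
  have hσ : m3 L.length y y x = sm ((Sh.two y).graft (Sh.twoL y) x)
      ![(Sh.two y).emb (Sh.twoL y) x (Sh.twoR y), (Sh.two y).emb (Sh.twoL y) x (Sh.twoL y),
        (Sh.two y).nw (Sh.twoL y) x] L.length := by
    funext a b
    fin_cases a <;> fin_cases b <;>
      simp [m3, sm, shr_self, shr_emb, shr_nw, shr_nw', shr_two, shr_two'] <;> omega
  have h1 := TM_sm hw _ L h (inj3 ((emb_inj (Sh.two y) (Sh.twoL y) x).ne (two_ne y).symm)
    (emb_ne _ _ _ _) (emb_ne _ _ _ _)) fun u => S x (u 1) (u 2) * S' y (u 0) (u 1)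
  rw [← hσ] at h1
  rw [Tw.lo, if_pos rfl, ← (Cw55.three hw (Sh.two y) L h S
    (fun ξ => S' y (ξ (Sh.twoR y)) (ξ (Sh.twoL y))) (Sh.twoL y)).1 x]
  refine h1.trans (congrArg (TE w _ L h) (funext fun ξ => ?_))
  simp only [GT.ev, GT.g1, shr_self]
  exact mul_comm _ _

/-- the free end leaves the path at `t` -/
theorem lo_node {y x t : ℕ} (e : y ≤ x) (hx : x ≤ L.length) (e' : y ≤ t) (ht : t ≤ L.length) :
    (ee w L h S S').lo L.length y x t = tX w ((Sh.two y).graft (Sh.twoL y) t) L h fun g ξ =>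
      S' y (ξ ((Sh.two y).nw (Sh.twoL y) t)) (ξ ((Sh.two y).emb (Sh.twoL y) t (Sh.twoR y))) *
        Pf w (L.drop x) (stT _ L h g ((Sh.two y).emb (Sh.twoL y) t (Sh.twoL y)) x)
          (S x (ξ ((Sh.two y).emb (Sh.twoL y) t (Sh.twoL y)))) := by
  set s := (Sh.two y).graft (Sh.twoL y) t with hs
  set a : s.Lf := (Sh.two y).emb (Sh.twoL y) t (Sh.twoL y) with ha
  set b : s.Lf := (Sh.two y).emb (Sh.twoL y) t (Sh.twoR y) with hb
  set c : s.Lf := (Sh.two y).nw (Sh.twoL y) t with hc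
  have ab : ∀ k, s.shr a b k = min y k := fun k => (shr_emb _ _ _ _ _ _).trans (shr_two _ _)
  have ac : ∀ k, s.shr a c k = min t k := fun k => (shr_nw _ _ _ _ _).trans (shr_self _ _ _)
  have bc : ∀ k, s.shr b c k = min y (min t k) := fun k => (shr_nw _ _ _ _ _).trans (shr_two' _ _)
  have ba := fun k => (shr_comm s b a k).trans (ab k)
  have ca := fun k => (shr_comm s c a k).trans (ac k)
  have cb := fun k => (shr_comm s c b k).trans (bc k)
  have hσ : m4 L.length y x t (min t x) y y = sm (s.graft a x)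
      ![s.emb a x c, s.emb a x b, s.emb a x a, s.nw a x] L.length := by
    funext i j
    fin_cases i <;> fin_cases j <;>
      simp [m4, sm, shr_self, shr_emb, shr_nw, shr_nw', ab, ac, bc, ba, ca, cb] <;> omega
  have n1 : c ≠ b := (emb_ne _ _ _ _).symm
  have n2 : c ≠ a := (emb_ne _ _ _ _).symm
  have n3 : b ≠ a := (emb_inj (Sh.two y) (Sh.twoL y) t).ne (two_ne y).symm
  have h1 := TM_sm hw _ L h (inj4 ((emb_inj s a x).ne n1) ((emb_inj s a x).ne n2) (emb_ne _ _ _ _)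
    ((emb_inj s a x).ne n3) (emb_ne _ _ _ _) (emb_ne _ _ _ _))
    fun u => S x (u 2) (u 3) * S' y (u 0) (u 1)
  rw [← hσ] at h1
  rw [Tw.lo, if_neg (by omega), ← (Cw55.three hw s L h S (fun ξ => S' y (ξ c) (ξ b)) a).1 x]
  refine h1.trans (congrArg (TE w _ L h) (funext fun ξ => ?_))
  simp only [GT.ev, GT.g1, shr_self]
  exact mul_comm _ _

/-- the free end leaves at the node of the pair -/
theorem lo_diag {y x : ℕ} (e : y ≤ x) (hx : x ≤ L.length) :
    (ee w L h S S').lo L.length y x x = tX w (Sh.two y) L h fun g ξ =>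
      S' y (ξ (Sh.twoL y)) (ξ (Sh.twoR y)) *
        qf (P w (L.drop x) (stT (Sh.two y) L h g (Sh.twoL y) x)) (S x) := by
  set s := (Sh.two y).graft (Sh.twoL y) x with hs
  set a : s.Lf := (Sh.two y).emb (Sh.twoL y) x (Sh.twoL y) with ha
  set b : s.Lf := (Sh.two y).emb (Sh.twoL y) x (Sh.twoR y) with hb
  set c : s.Lf := (Sh.two y).nw (Sh.twoL y) x with hc
  have ab : ∀ k, s.shr a b k = min y k := fun k => (shr_emb _ _ _ _ _ _).trans (shr_two _ _)
  have ac : ∀ k, s.shr a c k = min x k := fun k => (shr_nw _ _ _ _ _).trans (shr_self _ _ _)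
  have bc : ∀ k, s.shr b c k = min y (min x k) := fun k => (shr_nw _ _ _ _ _).trans (shr_two' _ _)
  have ba := fun k => (shr_comm s b a k).trans (ab k)
  have ca := fun k => (shr_comm s c a k).trans (ac k)
  have cb := fun k => (shr_comm s c b k).trans (bc k)
  have hσ : m4 L.length y x x (min x x) y y = sm (s.graft c x)
      ![s.emb c x a, s.emb c x b, s.emb c x c, s.nw c x] L.length := by
    funext i j
    fin_cases i <;> fin_cases j <;>
      simp [m4, sm, shr_self, shr_emb, shr_nw, shr_nw', ab, ac, bc, ba, ca, cb] <;> omega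
  have n1 : b ≠ c := emb_ne _ _ _ _
  have n2 : a ≠ c := emb_ne _ _ _ _
  have n3 : a ≠ b := (emb_inj (Sh.two y) (Sh.twoL y) x).ne (two_ne y)
  have h1 := TM_sm hw _ L h (inj4 ((emb_inj s c x).ne n3) ((emb_inj s c x).ne n2) (emb_ne _ _ _ _)
    ((emb_inj s c x).ne n1) (emb_ne _ _ _ _) (emb_ne _ _ _ _))
    fun u => S x (u 2) (u 3) * S' y (u 0) (u 1)
  rw [← hσ] at h1
  rw [Tw.lo, if_neg (by omega), ← (Cw55.three hw (Sh.two y) L h S
    (fun ξ => S' y (ξ (Sh.twoL y)) (ξ (Sh.twoR y))) (Sh.twoL y)).2.2 x]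
  refine h1.trans (congrArg (TE w _ L h) (funext fun ξ => ?_))
  simp only [GT.ev, Wf99.gq]
  exact mul_comm _ _

end tree

section alg
variable {Θ : Type} {L : List (Lv Θ)} (hM : Mono 0 L) {T : Tw}
include hM

theorem dm_le_ex (y : ℕ) : dm L 0 y ≤ ex L y := by
  have h7 := sum_dm L 0 y
  have h8 := single_le_sum (f := fun j => dm L 0 j) (fun j _ => dm_nonneg hM j)
    (self_mem_range_succ y)
  linarith

theorem abs_LO {y x : ℕ} {b : ℝ} (e : y ≤ x) (hx : x ≤ L.length)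
    (h : ∀ t, y ≤ t → t ≤ L.length + 1 → |T.lo L.length y x t| ≤ b) : |LO L T y x| ≤ 10 * b := by
  have h1 := (A10.abs_Lg hM (e.trans hx) h).1
  have h1' := (A10.abs_Lg hM hx fun t a c => h t (e.trans a) c).2
  have h2 := h y le_rfl (by omega)
  have h5 : dm L 0 y + ex L y ≤ 2 := by linarith [dm_le_ex hM y, ex_le_one hM y]
  have h6 : |(dm L 0 y + ex L y) * T.lo L.length y x y| ≤ 2 * b := by
    rw [abs_mul, abs_of_nonneg (add_nonneg (dm_nonneg hM y) (A10.ex_nn hM y))]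
    exact mul_le_mul h5 h2 (abs_nonneg _) zero_le_two
  rw [LO, cP]
  rw [abs_le] at h1 h1' h6 ⊢
  constructor <;> linarith [h6.1, h6.2, h1.1, h1.2, h1'.1, h1'.2]

theorem abs_dm_sum (A : Finset ℕ) {F G : ℕ → ℝ} (h : ∀ k ∈ A, |F k| ≤ G k) :
    |∑ k ∈ A, dm L 0 k * F k| ≤ ∑ k ∈ A, dm L 0 k * G k :=
  (abs_sum_le_sum_abs _ _).trans (sum_le_sum fun k hk => by
    rw [abs_mul, abs_of_nonneg (dm_nonneg hM k)]
    exact mul_le_mul_of_nonneg_left (h k hk) (dm_nonneg hM k))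

/-- **the non-local part**: everything except the signed leg sums below the pair is crude -/
theorem NLx_le {J x : ℕ} (hJ : J < x) (hx : x ≤ L.length) {b c : ℕ → ℝ} (b0 : ∀ k, 0 ≤ b k)
    (bJ : ∀ k ≤ J, b k = 0) (c1 : ∀ k, J < k → k < x → ex L k ≤ c k) (c2 : ∀ k, x ≤ k → 1 ≤ c k)
    (h3 : ∀ σ : SM 3, Rz L.length σ → σ 1 2 = x → |T.f3 σ| ≤ b (σ 0 1))
    (h4 : ∀ σ : SM 4, Rz L.length σ → σ 2 3 = x → |T.f4 σ| ≤ b (σ 0 1)) :
    |NLx L T x + 2 * ∑ y ∈ Ioo J x, dm L 0 y * cP L T y y x| ≤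
      11 * ∑ k ∈ range (L.length + 1), dm L 0 k * (b k * c k) := by
  have bc : ∀ k, b k * min 1 (ex L k) ≤ b k * c k ∧ (x ≤ k → b k ≤ b k * c k) := fun k => by
    refine ⟨?_, fun e => le_mul_of_one_le_right (b0 k) (c2 k e)⟩
    rcases le_or_gt k J with e | e
    · rw [bJ k e, zero_mul, zero_mul]
    · refine mul_le_mul_of_nonneg_left ?_ (b0 k)
      rcases lt_or_ge k x with e' | e'
      exacts [(min_le_right _ _).trans (c1 k e e'), (min_le_left _ _).trans (c2 k e')]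
  have bc1 : ∀ k, b k * ex L k ≤ b k * c k := fun k => by
    have := (bc k).1
    rwa [min_eq_right (ex_le_one hM k)] at this
  have bc0 : ∀ k, 0 ≤ b k * c k := fun k => (mul_nonneg (b0 k) (A10.ex_nn hM k)).trans (bc1 k)
  have l1 : ∀ y ≤ x, ∀ t, y ≤ t → t ≤ L.length + 1 → |T.lo L.length y x t| ≤ b y :=
    fun y e t h1 h2 => by
      rw [Tw.lo]
      split_ifs with h
      exacts [h3 _ (rz_lo3 hx e) rfl, h4 _ (rz_lo4 hx e h1 (by omega)) rfl]
  have l2 : ∀ y, x ≤ y → y ≤ L.length → ∀ t, x ≤ t → t ≤ L.length + 1 →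
      |T.tr.lo L.length x y t| ≤ b y := fun y e hy t h1 h2 => by
    rw [Tw.lo]
    split_ifs with h
    exacts [h3 _ ((rz_lo3 hy e).re ![2, 1, 0]) rfl,
      h4 _ ((rz_lo4 hy e h1 (by omega)).re ![2, 3, 0, 1]) rfl]
  have s1 : |∑ y ∈ range (x + 1), dm L 0 y * LO L T y x +
      2 * ∑ y ∈ Ioo J x, dm L 0 y * cP L T y y x| ≤
      ∑ y ∈ range (x + 1), dm L 0 y * (10 * (b y * c y)) := by
    have e : 2 * ∑ y ∈ Ioo J x, dm L 0 y * cP L T y y x = ∑ y ∈ range (x + 1),
        dm L 0 y * if y ∈ Ioo J x then 2 * cP L T y y x else 0 := by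
      simp only [mul_ite, mul_zero]
      rw [← sum_filter, filter_mem_eq_inter, inter_eq_right.2 fun y hy => mem_range.2 (by
        have := mem_Ioo.1 hy; omega), mul_sum]
      exact sum_congr rfl fun _ _ => by ring
    rw [e, ← sum_add_distrib]
    simp only [← mul_add]
    refine abs_dm_sum hM _ fun y hy => ?_
    have hy' : y ≤ x := Nat.lt_succ_iff.1 (mem_range.1 hy)
    split_ifs with h
    · have e1 : LO L T y x + 2 * cP L T y y x = (dm L 0 y + ex L y) * T.lo L.length y x y := by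
        rw [LO]; ring
      rw [e1, abs_mul, abs_of_nonneg (add_nonneg (dm_nonneg hM y) (A10.ex_nn hM y))]
      have h1 := mul_le_mul (add_le_add (dm_le_ex hM y) (le_refl (ex L y)))
        (l1 y hy' y le_rfl (by omega)) (abs_nonneg _) (add_nonneg (A10.ex_nn hM y) (A10.ex_nn hM y))
      linarith [bc1 y, bc0 y]
    · rw [add_zero]
      refine (abs_LO hM hy' hx (l1 y hy')).trans (mul_le_mul_of_nonneg_left ?_ (by norm_num))
      rcases le_or_gt y J with e | e
      · rw [bJ y e, zero_mul]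
      · exact (bc y).2 (by rw [mem_Ioo] at h; omega)
  have s2 : |∑ y ∈ Ioc x L.length, dm L 0 y * LO L T.tr x y| ≤
      ∑ y ∈ Ioc x L.length, dm L 0 y * (10 * (b y * c y)) := abs_dm_sum hM _ fun y hy => by
    obtain ⟨h1, h2⟩ := mem_Ioc.1 hy
    exact (abs_LO hM h1.le h2 (l2 y h1.le h2)).trans
      (mul_le_mul_of_nonneg_left ((bc y).2 h1.le) (by norm_num))
  have s3 : |∑ z ∈ range x, dm L 0 z * ∑ k ∈ Ioc z L.length, dm L 0 k * T.off L.length z x k| ≤
      ∑ k ∈ range (L.length + 1), dm L 0 k * (b k * c k) := by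
    refine (abs_dm_sum hM _ (G := fun z => ∑ k ∈ range (L.length + 1),
      dm L 0 k * if z < k then b k else 0) fun z hz => ?_).trans ?_
    · refine (abs_dm_sum hM _ (G := fun k => if z < k then b k else 0) fun k hk => ?_).trans
        (sum_le_sum_of_subset_of_nonneg (fun k hk => mem_range.2 (by have := mem_Ioc.1 hk; omega))
          fun k _ _ => mul_nonneg (dm_nonneg hM k) (by split_ifs; exacts [b0 k, le_rfl]))
      obtain ⟨h1, h2⟩ := mem_Ioc.1 hk
      rw [if_pos h1]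
      exact h4 _ (rz_off hx (mem_range.1 hz).le h1.le h2) rfl
    · simp only [mul_sum]
      rw [sum_comm]
      refine sum_le_sum fun k _ => ?_
      simp only [mul_left_comm _ (dm L 0 k), ← mul_sum]
      refine mul_le_mul_of_nonneg_left (le_trans ?_ (bc1 k)) (dm_nonneg hM k)
      have h1 := sum_dm L 0 k
      rw [sub_zero] at h1
      rw [← h1, mul_sum]
      simp only [mul_ite, mul_zero, ← sum_filter, mul_comm (b k)]
      exact sum_le_sum_of_subset_of_nonneg (fun z hz => mem_range.2 (by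
        have := (mem_filter.1 hz).2; omega)) fun z _ _ => mul_nonneg (dm_nonneg hM z) (b0 k)
  have e2 : ∑ y ∈ range (x + 1), dm L 0 y * (10 * (b y * c y)) +
      ∑ y ∈ Ioc x L.length, dm L 0 y * (10 * (b y * c y)) =
      10 * ∑ k ∈ range (L.length + 1), dm L 0 k * (b k * c k) := by
    rw [← Finset.Ico_add_one_add_one_eq_Ioc, sum_range_add_sum_Ico _ (by omega), mul_sum]
    exact sum_congr rfl fun _ _ => by ring
  rw [NLx]
  rw [abs_le] at s1 s2 s3 ⊢
  constructor <;> linarith [s1.1, s1.2, s2.1, s2.2, s3.1, s3.2]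

/-- **the same node**: the signed weights add up to zero -/
theorem SN_le {x : ℕ} (hx : x ≤ L.length) {a b : ℝ}
    (h : ∀ t t', x ≤ t → t ≤ L.length + 1 → x ≤ t' → t' ≤ L.length + 1 →
      |T.sN L.length x t t' - a| ≤ b) : |SN L T x| ≤ 4 * b := by
  have e : ∀ g : ℕ → ℝ, Lx L x g = Lx L x fun t => g t - a := fun g => by
    simp only [Lx, Q75.Lg, mul_sub, sum_sub_distrib, ← sum_mul, A10.sum_dm_Ioc hx]
    ring
  refine ((A10.abs_Lg hM hx (b := 2 * b) fun t h1 h2 => ?_).2).trans_eq (by ring)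
  rw [e]
  exact (A10.abs_Lg hM hx (h t · h1 h2)).2

/-- **the weak form**: the leg sums against weights on the pairs above `y` -/
theorem cP_le {y : ℕ} (hy : y < L.length) {ω : ℕ → ℝ} {E : ℝ}
    (h1 : ∀ t, y < t → t ≤ L.length + 1 → ∀ m ≤ L.length,
      |∑ x ∈ Ico (y + 1) m, ω x * T.lo L.length y x t| ≤ E)
    (h2 : |∑ x ∈ Ico (y + 1) L.length, ex L x * (ω x * T.lo L.length y x x)| ≤ E) :
    |∑ x ∈ Ico (y + 1) L.length, ω x * cP L T y y x| ≤ 5 * E := by
  have E0 : 0 ≤ E := (abs_nonneg _).trans h2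
  have w1 : ∑ t ∈ Ioc y L.length, dm L 0 t * E ≤ E := by
    rw [← sum_mul, A10.sum_dm_Ioc hy.le]
    nlinarith [A10.ex_nn hM y]
  have a1 := h1 _ (by omega) le_rfl _ le_rfl
  have a2 := (abs_dm_sum hM (Ioc y L.length) fun t ht =>
    h1 t (mem_Ioc.1 ht).1 (by have := mem_Ioc.1 ht; omega) _ le_rfl).trans w1
  have a3 := (abs_dm_sum hM (Ioc y L.length) fun t ht =>
    h1 t (mem_Ioc.1 ht).1 (by have := mem_Ioc.1 ht; omega) t (mem_Ioc.1 ht).2).trans w1
  have e2 : ∑ t ∈ Ioc y L.length, dm L 0 t * ∑ x ∈ Ico (y + 1) L.length, ω x * T.lo L.length y x t =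
      ∑ x ∈ Ico (y + 1) L.length, ω x * ∑ t ∈ Ioc y L.length, dm L 0 t * T.lo L.length y x t := by
    simp only [mul_sum]
    rw [sum_comm]
    simp only [mul_left_comm]
  have e3 : ∑ t ∈ Ioc y L.length, dm L 0 t * ∑ x ∈ Ico (y + 1) t, ω x * T.lo L.length y x t =
      ∑ x ∈ Ico (y + 1) L.length, ω x * ∑ t ∈ Ioc x L.length, dm L 0 t * T.lo L.length y x t := by
    simp only [mul_sum]
    rw [sum_comm' (t' := Ico (y + 1) L.length) (s' := fun x => Ioc x L.length) fun t x => by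
      simp only [mem_Ioc, mem_Ico]; omega]
    simp only [mul_left_comm]
  have e : ∑ x ∈ Ico (y + 1) L.length, ω x * cP L T y y x =
      2 * ∑ x ∈ Ico (y + 1) L.length, ω x * T.lo L.length y x (L.length + 1) -
      ∑ x ∈ Ico (y + 1) L.length, ω x * ∑ t ∈ Ioc y L.length, dm L 0 t * T.lo L.length y x t -
      ∑ x ∈ Ico (y + 1) L.length, ω x * ∑ t ∈ Ioc x L.length, dm L 0 t * T.lo L.length y x t -
      ∑ x ∈ Ico (y + 1) L.length, ex L x * (ω x * T.lo L.length y x x) := by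
    rw [mul_sum, ← sum_sub_distrib, ← sum_sub_distrib, ← sum_sub_distrib]
    exact sum_congr rfl fun x _ => by rw [cP, Lx, Q75.Lg, Q75.Lg]; ring
  rw [e2] at a2
  rw [e3] at a3
  rw [e]
  rw [abs_le] at a1 a2 a3 h2 ⊢
  constructor <;> linarith [a1.1, a1.2, a2.1, a2.2, a3.1, a3.2, h2.1, h2.2]

end alg

end Crest.Agent.T156.Cas.Ub4

end
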