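import Crest.Agent.T156.Low_51
import Crest.Agent.T156.Lsg_89
import Crest.Agent.T156.Rp_90

/-!
# Row 156 (helper89): cluster words on two clusters

Size of `LE`, `CW`; the terms without new cluster; exact value of a graph all of whose edges join
two clusters; a marked pair inside one of them.
-/

set_option autoImplicit false
set_option linter.all false

noncomputable section

namespace Crest.Agent.T156.Cas.Y89

open MeasureTheory Real Set Filter Topology
open Crest.Agent.T157.E Crest.Agent.T157.Casc Crest.Agent.T157.SL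
open Wt87 (shr_emb shr_nw shr_nw' shr_self shr_comm shr_le shr_congr shr_min card_graft)
open Leg51 Low51 Lsg89

variable {Ω S Θ ι : Type} {ε : ℝ} {i : ℕ} {M : List (Lv Θ)} {t s : Sh}

/-! ### sizes -/

theorem abs_lgm_le (hε : |ε| ≤ 1) (hM : Mono 0 M) (o : Md) (s : Sh) (a : s.Lf)
    {Ψ : ∀ s' : Sh, (s.Lf → s'.Lf) → s'.Lf → ℝ} {β : ℝ} (hβ : 0 ≤ β)
    (h : ∀ s' e c, Fintype.card s'.Lf ≤ Fintype.card s.Lf + 1 → |Ψ s' e c| ≤ β) :
    |lgm ε i M o s a Ψ| ≤ 2 * Fintype.card s.Lf * β := by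
  have h1 : β ≤ 2 * Fintype.card s.Lf * β :=
    le_mul_of_one_le_left hβ (by linarith [Tay38.one_le_card s])
  cases o
  · exact (h s id a (Nat.le_succ _)).trans h1
  · exact abs_lg_le hε hM s a hβ h
  · exact (h _ _ _ (card_graft s a _).le).trans h1

theorem abs_LE_le (hε : |ε| ≤ 1) (hM : Mono 0 M) {Φ : EF} {n N : ℕ} {β : ℝ} (hβ : 0 ≤ β)
    (h : ∀ s cs, cs.length = n → |Φ s cs| ≤ β) : ∀ (E : List (Ed ι)) (s : Sh) (e : ι → s.Lf)
    (cs : Low51.EL s), cs.length + E.length = n → Fintype.card s.Lf + 2 * E.length ≤ N →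
    |LE ε i M E (cs' Φ) s e cs| ≤ (2 * N : ℝ) ^ (2 * E.length) * β
  | [], s, _, cs, h1, _ => (h s cs h1).trans_eq (by simp)
  | d :: E, s, e, cs, h1, h2 => by
      rw [List.length_cons] at h1 h2 ⊢
      have hs : (Fintype.card s.Lf : ℝ) ≤ N := Nat.cast_le.2 (by omega)
      refine (abs_lgm_le hε hM d.oq s _ (β := 2 * N * ((2 * N : ℝ) ^ (2 * E.length) * β))
        (by positivity) fun s1 e1 q k1 => ?_).trans ?_
      · have hs1 : (Fintype.card s1.Lf : ℝ) ≤ N := Nat.cast_le.2 (by omega)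
        refine (abs_lgm_le hε hM d.op s1 _ (β := (2 * N : ℝ) ^ (2 * E.length) * β)
          (by positivity) fun s2 e2 p k2 =>
          abs_LE_le hε hM hβ h E s2 _ _ (by simp [mv]; omega)
            (show _ ≤ N by omega)).trans ?_
        gcongr
      · calc _ ≤ 2 * N * (2 * N * ((2 * N : ℝ) ^ (2 * E.length) * β)) := by gcongr
          _ = _ := by ring

theorem nx_length (τ : GT t) (op oq : Bool) (E : List (Ed t.Lf)) :
    (nx τ op oq E).length = E.length + 1 := by simp [nx]

theorem abs_lo_le (j : ℕ) : |lo i j| ≤ 1 := by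
  unfold lo
  split_ifs <;> simp

theorem abs_CW_le (hε : |ε| ≤ 1) (hM : Mono 0 M) (hi : i ≤ M.length) {Φ : EF} {n N : ℕ} {β : ℝ}
    (hβ : 0 ≤ β) (h : ∀ s cs, cs.length = n → |Φ s cs| ≤ β) : ∀ (k : ℕ) (t : Sh)
    (E : List (Ed t.Lf)), E.length + k = n → Fintype.card t.Lf + 2 * k + 2 * n ≤ N →
    |CW ε i M Φ (List.replicate k (lo i)) t E| ≤ (5 * N ^ 2 : ℝ) ^ k * ((2 * N : ℝ) ^ (2 * n) * β)
  | 0, t, E, h1, h2 => by
      rw [pow_zero, one_mul, ← h1]
      exact abs_LE_le hε hM hβ h E t id [] (by simpa using h1) (by omega)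
  | k + 1, t, E, h1, h2 => by
      have hs : (Fintype.card t.Lf : ℝ) ≤ N := Nat.cast_le.2 (by omega)
      refine (abs_lsg_le hε hM (β := (5 * N ^ 2 : ℝ) ^ k * ((2 * N : ℝ) ^ (2 * n) * β))
        (by positivity) fun τ op oq H => ?_).trans ?_
      · have := Lsg89.LM.card H hi
        rw [abs_mul]
        exact (mul_le_of_le_one_left (abs_nonneg _) (abs_lo_le _)).trans
          (abs_CW_le hε hM hi hβ h k _ _ (by rw [nx_length]; omega) (by omega))
      · calc _ ≤ 5 * (N : ℝ) ^ 2 * ((5 * N ^ 2 : ℝ) ^ k * ((2 * N : ℝ) ^ (2 * n) * β)) := by gcongr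
          _ = _ := by ring

/-- an edge with two legs between the marks `p`, `q` -/
def PQ (p q : ι) (d : Ed ι) : Prop := d = ⟨p, q, .leg, .leg⟩ ∨ d = ⟨q, p, .leg, .leg⟩

/-- **two clusters**: up to `O (x)` all further edges join them -/
theorem CW_two (hε : |ε| ≤ 1) (hM : Mono 0 M) (hi : i < M.length) {Φ : EF} {n N : ℕ} {β : ℝ}
    (hβ : 0 ≤ β) (h : ∀ s cs, cs.length = n → |Φ s cs| ≤ β) (hs : Sep i t) {p q : t.Lf}
    (hpq : p ≠ q) (hc : ∀ a, a = p ∨ a = q) {v : ℝ} : ∀ (k : ℕ) (E : List (Ed t.Lf)),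
    E.length + k = n → Fintype.card t.Lf + 2 * k + 2 * n ≤ N →
    (∀ E', E'.length = k → (∀ d ∈ E', PQ p q d) → LE ε i M (E ++ E') (cs' Φ) t id [] = v) →
    |CW ε i M Φ (List.replicate k (lo i)) t E - 2 ^ k * v| ≤
      ex M i * ((6 * N ^ 2 : ℝ) ^ k * ((2 * N : ℝ) ^ (2 * n) * β))
  | 0, E, _, _, hv => by
      have := hv [] rfl (by simp)
      rw [List.append_nil] at this
      rw [List.replicate_zero, CW, this, pow_zero, one_mul, sub_self, abs_zero]
      have := ex_nn hM i
      positivity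
  | k + 1, E, h1, h2, hv => by
      have hN : (Fintype.card t.Lf : ℝ) ≤ N := Nat.cast_le.2 (by omega)
      have hN1 : (1 : ℝ) ≤ N := (Tay38.one_le_card t).trans hN
      have hx := ex_nn hM i
      set β' := (2 * N : ℝ) ^ (2 * n) * β with hβ'
      have b0 : 0 ≤ β' := by positivity
      have h3 := abs_lsg_sub_old (i := i) (t := t) hε hM (β := (5 * N ^ 2 : ℝ) ^ k * β')
        (Φ := fun τ op oq => lo i τ.j * CW ε i M Φ (List.replicate k (lo i)) τ.sh (nx τ op oq E))
        (by positivity) fun τ op oq H => by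
          have := Lsg89.LM.card H hi.le
          rw [abs_mul]
          exact (mul_le_of_le_one_left (abs_nonneg _) (abs_lo_le _)).trans
            (abs_CW_le hε hM hi.le hβ h k _ _ (by rw [nx_length]; omega) (by omega))
      have key : ∀ a b : t.Lf, b ≠ a → PQ p q ⟨a, b, .leg, .leg⟩ →
          |lo i (GT.g0 t M.length a b).j * CW ε i M Φ (List.replicate k (lo i)) t
            (nx (.g0 t M.length a b) true true E) - 2 ^ k * v| ≤
            ex M i * ((6 * N ^ 2 : ℝ) ^ k * β') := fun a b hab hd => by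
        have e : @Eq (List (Ed t.Lf)) (nx (.g0 t M.length a b) true true E)
            (E ++ [⟨a, b, .leg, .leg⟩]) :=
          congrArg (· ++ [(⟨a, b, .leg, .leg⟩ : Ed t.Lf)]) (List.map_id' E)
        rw [lo, if_pos (Lsg89.LM.j_le (.g0 hab) hs hi), one_mul, e]
        refine CW_two hε hM hi hβ h hs hpq hc k _ (by simp; omega) (by omega)
            fun E' hE' hd' => ?_
        rw [List.append_assoc]
        exact hv _ (by simp [hE']) fun d h' => (List.mem_cons.1 h').elim (· ▸ hd) (hd' d)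
      have k1 := key p q hpq.symm (.inl rfl)
      have k2 := key q p hpq (.inr rfl)
      rw [old_pair hpq hc] at h3
      rw [List.replicate_succ, CW]
      have h4 : 4 * (Fintype.card t.Lf : ℝ) ^ 2 * ex M i * ((5 * N ^ 2 : ℝ) ^ k * β') ≤
          4 * (N : ℝ) ^ 2 * ex M i * ((6 * N ^ 2 : ℝ) ^ k * β') := by gcongr; norm_num
      have h5 : ex M i * ((6 * N ^ 2 : ℝ) ^ k * β') ≤
          (N : ℝ) ^ 2 * (ex M i * ((6 * N ^ 2 : ℝ) ^ k * β')) :=
        le_mul_of_one_le_left (by positivity) (one_le_pow₀ hN1)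
      have h6 := abs_add_three _ _ _ |>.trans (add_le_add (add_le_add (h3.trans h4) (k1.trans h5))
        (k2.trans h5))
      refine Eq.trans_le (congrArg abs ?_) (h6.trans_eq (by ring))
      rw [pow_succ]
      exact (by intros; ring : ∀ a b c d : ℝ, a - d * 2 * v = a - (b + c) + (b - d * v) + (c - d * v)) _ _ _ _

/-! ### the exact value on two clusters -/

theorem Rc.shr {n : ℕ} {a : s.Lf} {o : Md} {s' : Sh} {e' : s.Lf → s'.Lf} {c : s'.Lf}
    (h : Rc i n s a o s' e' c) (x y : s.Lf) (k : ℕ) : s'.shr (e' x) (e' y) k = s.shr x y k := by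
  cases h with
  | fix => rfl
  | old => rfl
  | new => exact shr_emb _ _ _ _ _ _
  | gr => exact shr_emb _ _ _ _ _ _

theorem Rc.cl {n : ℕ} {a : s.Lf} {o : Md} {s' : Sh} {e' : s.Lf → s'.Lf} {c : s'.Lf}
    (h : Rc i n s a o s' e' c) : s'.shr (e' a) c (i + 1) = i + 1 := by
  cases h with
  | fix => exact shr_self _ _ _
  | old h => exact mem_cls.1 h
  | new h h1 => rw [shr_nw, min_eq_right h1]; exact mem_cls.1 h
  | gr h1 => rw [shr_nw, min_eq_right h1]; exact shr_self _ _ _

theorem shr_low {n j : ℕ} (hi : i < n) (hj : j ≤ i) {a b c d : s.Lf} (h : s.shr a b n = j)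
    (hc : s.shr a c (i + 1) = i + 1) (hd : s.shr b d (i + 1) = i + 1) : s.shr c d n = j := by
  have h1 := shr_min s a b (i + 1) n
  have h2 := shr_min s c d (i + 1) n
  rw [min_eq_left hi] at h1 h2
  have h3 := shr_congr s hc b
  have h4 := shr_congr s hd c
  rw [shr_comm s b a, shr_comm s b c] at h3
  omega

/-- ends with modes, all with the function `f` -/
def LWm (ε : ℝ) (i : ℕ) (M : List (Lv Θ)) (f : S → ℝ) (Λ : Fn S) : List (ι × Md) → MF ι S
  | [] => cst Λ
  | a :: W => fun s e F => lgm ε i M a.2 s (e a.1) fun s' e' c =>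
      LWm ε i M f Λ W s' (fun x => e' (e x)) fun x => F (fun b => x (e' b)) * f (x c)

theorem LWm_leg (f : S → ℝ) (Λ : Fn S) : ∀ W : List ι,
    LWm ε i M f Λ (W.map fun a => (a, Md.leg)) = LW ε i M (W.map fun a => (a, f)) (cst Λ)
  | [] => rfl
  | a :: W => by
      funext s e F
      rw [List.map_cons, List.map_cons, LW_lg, ← LWm_leg f Λ W]
      rfl

/-- the ends of the edges -/
def ends (E : List (Ed ι)) : List (ι × Md) := E.flatMap fun d => [(d.q, d.oq), (d.p, d.op)]

variable [Fintype Ω] {w : Ω → ℝ} {L : List (Lv Ω)} {h : Ω → ℝ}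

open R90 in
theorem Lc_congr (s : Sh) {F G : (s.Lf → Unit → Ω) → ℝ}
    (H : ∀ x : s.Lf → Unit → Ω, (∀ a b, s.shr a b (i + 1) = i + 1 → x a = x b) → F x = G x) :
    Lc w L h i Unit s F = Lc w L h i Unit s G :=
  congrArg (TK w L h _) (funext fun y => H _ fun a b e => funext fun u =>
    congrArg (fun c => y (c, u)) ((Clu22.cl_eq_iff s (i + 1) a b).2 e))

open R90 in
theorem Lc_pair (hw : Wt w) (hi : i < L.length) (s : Sh) {a b : s.Lf}
    (hab : s.shr a b L.length ≤ i) (Q : Ω → Ω → ℝ) :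
    Lc w L h i Unit s (fun y => Q (y a ()) (y b ())) = pi2 w L (s.shr a b L.length) Q h := by
  have hne : a ≠ b := fun e => by
    rw [e, shr_self] at hab
    omega
  have h1 := shr_cut hi s a b
  have h2 := shr_comm s b a (i + 1)
  have h3 := shr_comm s b a L.length
  have := Lc_eq (h := h) hw hi s (fun c : Bool => cond c a b) (fun _ => ())
    (Ker15.um_sm s id L.length) (fun c : Bool => cond c a b)
    (fun c d => by
      cases c <;> cases d <;> simp only [cond, and_true, shr_self, hne, hne.symm, iff_false] <;> omega)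
    (fun c d e => by
      cases c <;> cases d <;> simp only [cond, sm, id] at e ⊢ <;>
        first | exact absurd rfl e | omega)
    fun y => Q (y true) (y false)
  exact this.trans (TK_pair hw (Ker15.um_sm s id L.length) hne Q)

open R90 in
/-- **all edges of `E` join the clusters of `p` and `q`** -/
theorem LE_pq (hw : Wt w) (hi : i < L.length) (hl : M.length = L.length) {j : ℕ} (hj : j ≤ i)
    {R : ℕ → (Unit → Ω) → (Unit → Ω) → ℝ} {ρ : (Unit → Ω) → (Unit → Ω) → ℝ} (hR : R j = ρ)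
    (hρ : ∀ x y, ρ x y = ρ y x) {Z : ℕ → S → S → ℝ} {f : S → ℝ} (hZ : ∀ a b, Z j a b = f a * f b)
    (Λ : Fn S) {p q : ι} : ∀ (E : List (Ed ι)), (∀ d ∈ E, d.Hi i M.length ∧
      ((d.p = p ∧ d.q = q) ∨ (d.p = q ∧ d.q = p))) →
    ∀ (Rp : List (ℕ → (Unit → Ω) → (Unit → Ω) → ℝ)) (Zp : List (ℕ → S → S → ℝ)) (s : Sh)
      (e : ι → s.Lf) (cs : Low51.EL s), Rp.length = cs.length → Zp.length = cs.length →
      s.shr (e p) (e q) M.length = j →
    LE ε i M E (cs' (PhiB M.length (fun s G ξ => Lc w L h i Unit s G * Λ s ξ)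
        (Rp ++ List.replicate E.length R) (Zp ++ List.replicate E.length Z))) s e cs =
      Lc w L h i Unit s (fun y => prE M.length Rp cs y * ρ (y (e p)) (y (e q)) ^ E.length) *
        LWm ε i M f Λ (ends E) s e (prE M.length Zp cs)
  | [], _, Rp, Zp, s, e, cs, _, _, _ => by
      simp only [List.length_nil, List.replicate_zero, List.append_nil, pow_zero, mul_one]
      rfl
  | d :: E, hE, Rp, Zp, s, e, cs, h1, h2, h3 => by
      obtain ⟨hd, hpq⟩ := hE d List.mem_cons_self
      have hi' : i < M.length := hl ▸ hi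
      show lgm ε i M d.oq s (e d.q) _ = _ * lgm ε i M d.oq s (e d.q) _
      rw [← lgm_mul]
      refine lgm_congr hd.2 s _ fun s1 e1 c2 r1 => ?_
      show lgm ε i M d.op s1 (e1 (e d.p)) _ = _ * lgm ε i M d.op s1 (e1 (e d.p)) _
      rw [← lgm_mul]
      refine lgm_congr hd.1 s1 _ fun s2 e2 c1 r2 => ?_
      have sh : ∀ x y k, s2.shr (e2 (e1 x)) (e2 (e1 y)) k = s.shr x y k := fun x y k =>
        (Rc.shr r2 _ _ k).trans (Rc.shr r1 x y k)
      have c1' : s2.shr (e2 (e1 (e d.p))) c1 (i + 1) = i + 1 := Rc.cl r2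
      have c2' : s2.shr (e2 (e1 (e d.q))) (e2 c2) (i + 1) = i + 1 :=
        (Rc.shr r2 _ _ _).trans (Rc.cl r1)
      have hj' : s.shr (e d.p) (e d.q) M.length = j := by
        rcases hpq with ⟨a, b⟩ | ⟨a, b⟩ <;> rw [a, b]
        exacts [h3, (shr_comm _ _ _ _).trans h3]
      have lev : s2.shr c1 (e2 c2) M.length = j :=
        shr_low hi' hj ((sh _ _ _).trans hj') c1' c2'
      have ih := LE_pq hw hi hl hj hR hρ hZ Λ E (fun d hd => hE d (List.mem_cons_of_mem _ hd))
        (Rp ++ [R]) (Zp ++ [Z]) s2 (fun x => e2 (e1 (e x)))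
        (mv (fun x => e2 (e1 x)) cs ++ [(c1, e2 c2)]) (by simp [mv, h1]) (by simp [mv, h2])
        ((sh _ _ _).trans h3)
      rw [List.append_assoc, List.append_assoc] at ih
      refine ih.trans (congrArg₂ (· * ·) ?_ (congrArg _ (funext fun x => ?_)))
      · have := Lc_map (h := h) (ι := Unit) hw hi (s := s2) (s' := s) (fun x => e2 (e1 x)) id
          (fun a b => sh a b _)
          fun y => prE M.length Rp cs y * ρ (y (e p)) (y (e q)) ^ (E.length + 1)
        refine Eq.trans (Lc_congr s2 fun x hx => ?_) this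
        rw [prE_snoc _ R [] _ x Rp _ (by simp [mv, h1]), lev, hR,
          prE_mv fun a b => sh a b _, ← hx _ _ c1', ← hx _ _ c2', pow_succ']
        have e0 : prE M.length (Rp ++ [R]) cs (fun a => x (e2 (e1 a))) =
            prE M.length Rp cs fun a => x (e2 (e1 a)) := by
          simp only [prE]
          rw [← List.append_nil cs, List.zipWith_append h1]
          simp
        rw [e0, mul_assoc]
        rcases hpq with ⟨a, b⟩ | ⟨a, b⟩ <;> rw [a, b]
        rw [hρ (x (e2 (e1 (e q))))]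
      · rw [prE_snoc _ Z [] _ x Zp _ (by simp [mv, h2]), lev, hZ,
          prE_mv fun a b => sh a b _]
        have e0 : prE M.length (Zp ++ [Z]) cs (fun a => x (e2 (e1 a))) =
            prE M.length Zp cs fun a => x (e2 (e1 a)) := by
          simp only [prE]
          rw [← List.append_nil cs, List.zipWith_append h2]
          simp
        rw [e0]
        ring

/-! ### a marked pair inside a cluster -/

theorem LW_two_TE (hw : Wt w) (W : List (ι × (Ω → ℝ))) (r : ℕ) (Q : Ω → Ω → ℝ) :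
    ∀ (i : ℕ) (M : List (Lv Ω)) (h : Ω → ℝ), i ≤ M.length →
    LW ε i M W (cst (TEf w M h)) (.two (r + i)) (fun _ => Sh.twoL (r + i)) (pr2 (r + i) Q) =
      node w M i (fun z => LW ε 0 (M.drop i) W (cst (TEf w (M.drop i) z)) (.two r)
        (fun _ => Sh.twoL r) (pr2 r Q)) h
  | 0, M, h, _ => by rw [node_zero]; rfl
  | i + 1, l :: M, h, hi => by
      refine (LW_step_TE hw l M h W (.two (r + i)) (fun _ => Sh.twoL (r + i))
        (pr2 (r + i) Q)).trans ?_
      rw [node_cons, funext fun z => LW_two_TE hw W r Q i M z (Nat.le_of_succ_le_succ hi)]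
      rfl

/-- the marked cluster at the left leaf of `two y` -/
theorem LW_mark (hw : Wt w) (r : ℕ) (Q : Ω → Ω → ℝ) (f : Ω → ℝ) : ∀ (y : ℕ) (M : List (Lv Ω))
    (i : ℕ), y ≤ i → i ≤ M.length → ∀ (W : List ((Sh.two y).Lf × (Ω → ℝ))) (h : Ω → ℝ),
    LW ε i M W (cst (TEf w M h)) ((Sh.two y).graft (Sh.twoL y) (r + i))
        ((Sh.two y).emb (Sh.twoL y) (r + i))
        (fun x => Q (x ((Sh.two y).emb (Sh.twoL y) (r + i) (Sh.twoL y)))
          (x ((Sh.two y).nw (Sh.twoL y) (r + i))) *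
            f (x ((Sh.two y).emb (Sh.twoL y) (r + i) (Sh.twoR y)))) =
      node w M y (fun z => node w (M.drop y) (i - y) (fun z =>
          LW ε 0 (M.drop i) ((legs W (Sh.twoL y)).map fun g => ((), g))
            (cst (TEf w (M.drop i) z)) (.two r) (fun _ => Sh.twoL r) (pr2 r Q)) z *
        node w (M.drop y) (i - y) (GC ε w (M.drop i) f (legs W (Sh.twoR y))) z) h
  | 0, M, i, _, hi, W, h => by
      have h1 := LW_split (ε := ε) (i := i) M (TEf_split hw M h) W (.two (r + i)) .one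
        (fun _ => Sh.twoL (r + i)) id (pr2 (r + i) Q) fun x => f (x ())
      rw [LW_two_TE hw _ r Q i M h hi, LW_one_TE hw _ _ _ i M h hi, ← legs_unit (lft W),
        ← legs_unit (rgt W)] at h1
      rw [node_zero]
      refine h1.trans (congrArg₂ (· * ·) ?_ ?_)
      · exact congrArg (fun V : List (Ω → ℝ) => node w M i (fun z =>
          LW ε 0 (M.drop i) (V.map fun g => ((), g)) (cst (TEf w (M.drop i) z)) (.two r)
            (fun _ => Sh.twoL r) (pr2 r Q)) h) (legs_lft () W)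
      · exact congrArg (fun V : List (Ω → ℝ) => node w M i (GC ε w (M.drop i) f V) h)
          (legs_rgt () W)
  | _ + 1, _, 0, hy, _, _, _ => absurd hy (Nat.not_succ_le_zero _)
  | _ + 1, [], _ + 1, _, hi, _, _ => absurd hi (Nat.not_succ_le_zero _)
  | y + 1, l :: M, i + 1, hy, hi, W, h => by
      refine (LW_step_TE hw l M h W ((Sh.two y).graft (Sh.twoL y) (r + i)) _ _).trans ?_
      rw [node_cons, Nat.add_sub_add_right]
      exact congrArg (fun Ψ => tE l (X w M) Ψ h) (funext fun z => LW_mark hw r Q f y M i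
        (Nat.le_of_succ_le_succ hy) (Nat.le_of_succ_le_succ hi) W z)

theorem prod_two (j : ℕ) (c : (Sh.two j).Lf → ℝ) : ∏ a, c a = c (Sh.twoL j) * c (Sh.twoR j) := by
  have e : (Finset.univ : Finset (Sh.two j).Lf) = {Sh.twoL j, Sh.twoR j} := by
    ext a
    simpa using Wt87.two_cases j a
  rw [e, Finset.prod_pair (Tay38.two_ne j)]

/-- freezing two cluster values -/
theorem two_sub (hw : Wt w) {β : ℝ} (hβ : 1 ≤ β) {D A B : (Ω → ℝ) → ℝ}
    (hD : Crest.Agent.T157.Casc.Eg D) (hA : Crest.Agent.T157.Casc.Eg A)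
    (hB : Crest.Agent.T157.Casc.Eg B) {a b : ℝ} (A1 : ∀ z, |A z| ≤ β) (B1 : ∀ z, |B z| ≤ β)
    (a1 : |a| ≤ β) (b1 : |b| ≤ β) (A2 : ∀ z, |A z - a| ≤ D z) (B2 : ∀ z, |B z - b| ≤ D z)
    {M : List (Lv Ω)} {y i : ℕ} (hy : y ≤ i) (hi : i ≤ M.length) (h : Ω → ℝ) :
    |node w M y (fun z => node w (M.drop y) (i - y) A z * node w (M.drop y) (i - y) B z) h -
      a * b| ≤ 2 * β ^ 2 * node w M i D h := by
  have := abs_SK_sub hw hβ hD (.two y) M i (dep_two hy) hi
    (fun c => if c = Sh.twoL y then A else B) (fun c => if c = Sh.twoL y then a else b)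
    (fun c => by split_ifs; exacts [hA, hB]) (fun c => by split_ifs; exacts [A1, B1])
    (fun c => by split_ifs; exacts [a1, b1]) (fun c => by split_ifs; exacts [A2, B2]) h
  rw [SK_two hw y M i hy hi, prod_two, Wt87.card_two] at this
  simpa only [if_true, if_neg (Tay38.two_ne y).symm, Nat.cast_ofNat] using this

end Crest.Agent.T156.Cas.Y89

end
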