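import Crest.Agent.T156.CY3D_20
import Crest.Agent.T156.LowB_51
import Crest.Agent.T156.CY4A_89

/-!
# Row 156, block C (helper44): two low edges with deterministic coefficients, frozen site values
-/

set_option autoImplicit false
set_option linter.unusedSectionVars false
set_option linter.unusedVariables false

noncomputable section

namespace Crest.Agent.T156.Cas.Y44

open Crest.Agent.T157.E Crest.Agent.T157.Casc Crest.Agent.T157.SL
open Wt87 Leg51 Lsg89 Y20
open Low51 (prE prE_cons prE_nil)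
open Tay38 (two_ne)

variable {Θ Ω : Type} {i : ℕ} {M : List (Lv Θ)} {t : Sh}

/-- **the weight of two new clusters** -/
theorem two_id (M : List (Lv Θ)) (φ : ℕ → ℝ) (i : ℕ) : two i M .one (fun τ _ _ => φ τ.j) =
    2 * ex M i * ∑ y ∈ Finset.range (i + 1), dm M 0 y * φ y := by
  have e : ∀ i, two i M .one (fun τ _ _ => φ τ.j) = ∑ j ∈ Finset.range (i + 1), dm M 0 j *
      (∑ k ∈ Finset.range (i + 1), dm M 0 k * φ (min j k) +
        ∑ r ∈ Finset.range (i - j + 1), dm (M.drop j) 0 r * φ (r + j)) := fun i => by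
    simp only [two, Wt87.sum_one, cw_one]
    rfl
  have d0 : ∀ y, dm (M.drop y) 0 0 = ex M y := fun y => by simp [dm, exP, T157.Casc.ex]
  have d1 : ∀ y r, dm (M.drop y) 0 (r + 1) = dm M 0 (r + y + 1) := fun y r => by
    simp only [dm, exP, T157.Casc.ex, List.getElem?_drop, add_comm y, Nat.add_right_comm r 1 y]
  rw [e]
  induction i with
  | zero =>
    have := d0 0
    simp only [List.drop_zero] at this
    simp only [zero_add, Finset.range_one, Finset.sum_singleton, min_self, Nat.sub_self,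
      List.drop_zero, this]
    ring
  | succ i ih =>
    have s1 := sum_dm M 0 i
    have s2 : dm M 0 (i + 1) = ex M (i + 1) - ex M i := rfl
    have k1 : ∑ j ∈ Finset.range (i + 1), dm M 0 j *
        (∑ k ∈ Finset.range (i + 1 + 1), dm M 0 k * φ (min j k) +
          ∑ r ∈ Finset.range (i + 1 - j + 1), dm (M.drop j) 0 r * φ (r + j)) =
        ∑ j ∈ Finset.range (i + 1), (dm M 0 j *
        (∑ k ∈ Finset.range (i + 1), dm M 0 k * φ (min j k) +
          ∑ r ∈ Finset.range (i - j + 1), dm (M.drop j) 0 r * φ (r + j)) +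
          (dm M 0 (i + 1) * (dm M 0 j * φ j) + dm M 0 j * (dm M 0 (i + 1) * φ (i + 1)))) := by
      refine Finset.sum_congr rfl fun j hj => ?_
      have hj := Finset.mem_range.1 hj
      rw [Finset.sum_range_succ _ (i + 1), show i + 1 - j = i - j + 1 by omega,
        Finset.sum_range_succ _ (i - j + 1), d1, min_eq_left (by omega : j ≤ i + 1),
        show i - j + j = i by omega, show i - j + 1 + j = i + 1 by omega]
      ring
    have k2 : ∑ k ∈ Finset.range (i + 1), dm M 0 k * φ (min (i + 1) k) =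
        ∑ k ∈ Finset.range (i + 1), dm M 0 k * φ k := Finset.sum_congr rfl fun k hk => by
      rw [min_eq_right (Finset.mem_range.1 hk).le]
    rw [Finset.sum_range_succ _ (i + 1), k1, Finset.sum_add_distrib, ih, Finset.sum_add_distrib,
      ← Finset.mul_sum, ← Finset.sum_mul, s1, Finset.sum_range_succ _ (i + 1), k2,
      Finset.sum_range_succ (fun y => dm M 0 y * φ y) (i + 1), Nat.sub_self, min_self]
    simp only [zero_add, Finset.range_one, Finset.sum_singleton, d0, s2]
    ring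

theorem two_congr (hM : Mono 0 M) {Φ Ψ : GT t → Bool → Bool → ℝ}
    (h : ∀ τ, LM i M.length t τ false false → Φ τ false false = Ψ τ false false) :
    two i M t Φ = two i M t Ψ := by
  have r : ∀ {j n}, j ∈ Finset.range (n + 1) → j ≤ n := fun h =>
    Nat.lt_succ_iff.1 (Finset.mem_range.1 h)
  unfold two
  refine Finset.sum_congr rfl fun a _ => Finset.sum_congr rfl fun j hj => congrArg _ ?_
  congr 1
  · exact Finset.sum_congr rfl fun b _ => Finset.sum_congr rfl fun k hk =>
      congrArg _ (h _ (.g2 a b (r hj) (r hk)))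
  · exact Finset.sum_congr rfl fun k hk =>
      congrArg _ (h _ (.g3 a (by have := r hj; have := r hk; omega)))

theorem two_mul' (c : ℝ) (Φ : GT t → Bool → Bool → ℝ) :
    two i M t (fun τ p q => c * Φ τ p q) = c * two i M t Φ := by
  simp only [two, mul_add, Finset.mul_sum, mul_left_comm c]

/-! ### degrees -/

variable {n : ℕ} {τ : GT t} {op oq : Bool}

theorem dg_mono (H : LM i n t τ op oq) (E : Ed t) (x : t.Lf) : dgE E x ≤ dgE (nx τ E) (τ.e x) := by
  rw [nx, dgE_snoc, dgE_map (Y20.LM.inj H)]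
  omega

theorem dg_step (H : LM i n t τ op oq) {E : Ed t} {m : t.Lf} (h : ∀ a, a ≠ m → 1 ≤ dgE E a)
    (y : τ.sh.Lf) (hy : y ≠ τ.e m) : 1 ≤ dgE (nx τ E) y := by
  rcases Low51.LM.cov H y with ⟨x, rfl⟩ | ⟨-, rfl⟩ | ⟨-, rfl⟩
  · exact (h x fun e => hy (e ▸ rfl)).trans (dg_mono H E x)
  · rw [nx, dgE_snoc, if_pos rfl]; omega
  · rw [nx, dgE_snoc, if_pos rfl]; omega

theorem dg2 {α : Type} [DecidableEq α] {u v : α} (h : u ≠ v) (a : α) :
    dgE [(u, v), (u, v)] a = (if a = u ∨ a = v then 2 else 0) ∧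
      dgE [(u, v), (v, u)] a = if a = u ∨ a = v then 2 else 0 := by
  simp only [dgE_cons, dgE_nil, eq_comm (a := a)]
  by_cases h1 : u = a <;> by_cases h2 : v = a <;> simp [h1, h2]
  exact h (h1.trans h2.symm)

/-- the deterministic bulk factor of two edges -/
def bk (x0 : Ω) (n : ℕ) (b : ℕ → ℝ) (t : Sh) (E : Ed t) : ℝ :=
  prE n [fun j _ _ => b j, fun j _ _ => b j] E fun _ => x0

/-- the frozen functional -/
def W0 (x0 : Ω) (n : ℕ) (b c G : ℕ → ℝ) : VF := fun t m E => bk x0 n b t E * S0 c G t m E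

variable {x0 : Ω} {b c G : ℕ → ℝ} {ε : ℝ}

theorem bk_two (e e' : t.Lf × t.Lf) :
    bk x0 n b t [e, e'] = b (t.shr e.1 e.2 n) * b (t.shr e'.1 e'.2 n) := by
  simp only [bk, prE_cons, prE_nil, mul_one]

theorem abs_bk {β : ℝ} (hb : ∀ y, |b y| ≤ β) {E : Ed t} (hE : E.length = 2) :
    |bk x0 n b t E| ≤ β * β := by
  match E, hE with
  | [e, e'], _ =>
    rw [bk_two, abs_mul]
    exact mul_le_mul (hb _) (hb _) (abs_nonneg _) ((abs_nonneg _).trans (hb 0))

theorem ev_W0 (hc : ∀ d, Odd d → c d = 0) (hG : ∀ d, Odd d → G d = 0) : Ev (W0 x0 n b c G) :=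
  fun t m E x hx => mul_eq_zero_of_right _ (Finset.prod_eq_zero (Finset.mem_univ x) (by
    split_ifs
    exacts [hG _ hx, hc _ hx]))

/-- the second edge doubles the first one -/
theorem stp_W0 (hc : ∀ d, Odd d → c d = 0) (hG : ∀ d, Odd d → G d = 0) (m : t.Lf) {u v : t.Lf}
    (h : u ≠ v) : stp ε i M (W0 x0 n b c G) t m [(u, v)] = 2 * b (t.shr u v n) ^ 2 *
      ∏ a, if a = u ∨ a = v then (if a = m then G 2 else c 2) else if a = m then G 0 else c 0 := by
  rw [stp_close (ev_W0 hc hG) m h (by simp [dgE, h.symm]) (by simp [dgE, h])]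
  simp only [W0, S0, List.cons_append, List.nil_append, bk_two, (dg2 h _).1, (dg2 h _).2,
    shr_comm t v u]
  have : ∀ a, (if a = m then G (if a = u ∨ a = v then 2 else 0)
      else c (if a = u ∨ a = v then 2 else 0)) =
      if a = u ∨ a = v then (if a = m then G 2 else c 2) else if a = m then G 0 else c 0 :=
    fun a => by split_ifs <;> rfl
  simp only [this]
  ring

theorem stp_two (hc : ∀ d, Odd d → c d = 0) (hG : ∀ d, Odd d → G d = 0) {j : ℕ} (hj : j ≤ n)
    {u v : (Sh.two j).Lf} (h : (u = Sh.twoL j ∧ v = Sh.twoR j) ∨ (u = Sh.twoR j ∧ v = Sh.twoL j)) :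
    stp ε i M (W0 x0 n b c G) (.two j) (Sh.twoL j) [(u, v)] = 2 * b j ^ 2 * (G 2 * c 2) := by
  have ne := two_ne j
  rcases h with ⟨rfl, rfl⟩ | ⟨rfl, rfl⟩
  · rw [stp_W0 hc hG _ ne, Y89.prod_two, shr_two, min_eq_left hj]
    simp [ne.symm]
  · rw [stp_W0 hc hG _ ne.symm, Y89.prod_two, shr_comm, shr_two, min_eq_left hj]
    simp [ne.symm]

/-- **two edges on a marked cluster**: exact value -/
theorem test2 (hM : Mono 0 M) (hi : i ≤ M.length) (hc : ∀ d, Odd d → c d = 0)
    (hG : ∀ d, Odd d → G d = 0) :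
    stp (-1) i M (stp (-1) i M (W0 x0 M.length b c G)) .one () [] =
      -4 * c 2 * (G 2 - ex M i * c 2 * G 0) * ∑ y ∈ Finset.range (i + 1), dm M 0 y * b y ^ 2 := by
  refine (lsg_eq _).trans ?_
  rw [old_one, one_one, two_congr hM
    (Ψ := fun τ _ _ => 2 * (G 0 * c 2 * c 2) * b τ.j ^ 2) fun τ H => ?_, two_mul',
    two_id M fun y => b y ^ 2,
    Finset.sum_congr (g := fun y => 4 * (G 2 * c 2) * (dm M 0 y * b y ^ 2)) rfl fun y hy => ?_,
    ← Finset.mul_sum]
  · ring
  · have hy' : y ≤ M.length := (Nat.lt_succ_iff.1 (Finset.mem_range.1 hy)).trans hi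
    have e1 := stp_two (ε := -1) (i := i) (M := M) (x0 := x0) (b := b) hc hG hy' (Or.inl ⟨rfl, rfl⟩)
    have e2 := stp_two (ε := -1) (i := i) (M := M) (x0 := x0) (b := b) hc hG hy' (Or.inr ⟨rfl, rfl⟩)
    refine (congrArg _ (congrArg₂ (· + ·) e1 e2)).trans ?_
    ring
  · have n1 := Y20.LM.newp H ()
    have n2 := Y20.LM.newq H ()
    have n3 := Y20.LM.ne H
    refine (stp_W0 hc hG _ n3).trans ?_
    rw [(H.mem hi).shr, prod_three n1 n2 n3 fun a => ?_]
    · simp only [n1, n2, n1.symm, n2.symm, or_self, if_true, if_false, true_or, or_true]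
      ring
    · rcases Low51.LM.cov H a with ⟨x, rfl⟩ | ⟨-, rfl⟩ | ⟨-, rfl⟩
      exacts [Or.inl rfl, Or.inr (Or.inl rfl), Or.inr (Or.inr rfl)]

end Crest.Agent.T156.Cas.Y44

end
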