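import Crest.Agent.T156.CY2B_44
import Crest.Agent.T156.CY2C_44
import Crest.Agent.T156.CYh_14
import Crest.Agent.T156.CGl_31

/-!
# Row 156, block C (helper44): the leaf `Y2S`
-/

set_option autoImplicit false
set_option linter.unusedSectionVars false
set_option linter.unusedVariables false

noncomputable section

namespace Crest.Agent.T156.Cas.Y44

open MeasureTheory Real Set Filter Topology
open Crest.Agent.T157.E Crest.Agent.T157.Casc Crest.Agent.T157.SL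
open Crest.ProbabilityR.SpinGlassDynamics (spin)
open Mul55 C40 C40.CD Leg51 Lsg89 Y20
open One15 (xs w1)

variable {D : CD} {τ0 : ℝ} {t : Sh} {j : ℕ}

/-- a fixed configuration -/
def x0 (D : CD) : Cube D.n := fun _ => true

/-- evaluation at the fixed configuration -/
def L0 (D : CD) : Fn (Cube D.n) := fun _ G => G fun _ => x0 D

theorem cl_L0 (D : CD) (i : ℕ) : Low51.Cl i (L0 D) := fun _ _ _ _ _ => rfl

/-- the base without bulk expectation -/
def B0 (D : CD) : (s : Sh) → ((s.Lf → Cube D.n) → ℝ) → ((s.Lf → Bool) → ℝ) → ℝ :=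
  fun s G ξ => L0 D s G * TEf (fun _ => 1) D.S 0 s ξ

theorem oB_const (s : Sh) (c : ℝ) (ξ : (s.Lf → Bool) → ℝ) :
    oB D.n D.β D.M D.q [] s (fun _ => c) ξ = B0 D s (fun _ => c) ξ :=
  congrArg (· * _) (Law.TE_const wt_one90 s _ 0 c)

theorem B0_zero (s : Sh) (ξ : (s.Lf → Bool) → ℝ) : B0 D s (fun _ => 0) ξ = 0 := zero_mul _

theorem pb_hi : ∀ p ∈ [pb D, pb D], ∀ j, D.J < j → p.1 j = 0 := fun p hp j hj => by
  have : p = pb D := by simpa using hp
  subst this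
  funext x y
  exact if_neg hj.not_ge

theorem cutB (h : D.Ok τ0) : D.J < D.B.length := h.cut.trans_eq D.B_len.symm

theorem tiltBS (D : CD) : D.B.map Lv.m = D.S.map Lv.m := (tilt_opS (q := D.q)).symm

theorem sq2 (h : D.Ok τ0) : Low51.Sq D.J [oE D.q, oE D.q] (List.replicate 2 spin) := by
  have : ∀ j ≤ D.J, ∀ a b, oE D.q j a b = spin a * spin b := fun j hj a b => by
    rw [oE, h.qlo j hj, sub_zero]
  exact .cons this (.cons this .nil)

/-- the cluster values -/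
def gg (D : CD) (G : ℕ → ℝ → ℝ) {t : Sh} (E : Ed t) (m a : t.Lf) (y : ℝ) : ℝ :=
  if a = m then G (dgE E a) y else gd (D.S.drop D.J) (dgE E a) y

/-- the skeleton value -/
def VV (D : CD) (G : ℕ → ℝ → ℝ) : VF := fun t m E => bk (x0 D) D.B.length (bet D) t E *
  Leg51.SK (fun _ => 1) t D.S D.J (fun a z => gg D G E m a (xs z)) 0

/-- the frozen skeleton value -/
abbrev V0 (D : CD) (G : ℕ → ℝ → ℝ) : VF :=
  W0 (x0 D) D.B.length (bet D) (fun d => gd (D.S.drop D.J) d 0) fun d => G d 0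

theorem tv_pl {Ω ι : Type} (R : List (ℕ → Ω → Ω → ℝ)) {E : List (Low51.Ed ι)} (h : Low51.Pl E) :
    Low51.Tv R E := fun p hp e => absurd e (h _ (List.of_mem_zip hp).2).2

theorem val_eq (h : D.Ok τ0) : lamB D.B (oB D.n D.β D.M D.q []) [pb D, pb D] =
    ∑ j ∈ Finset.range (D.J + 1), D.dx j * stp (-1) D.J D.B (VV D (gd (D.S.drop D.J))) (.two j)
      (Sh.twoL j) [(Sh.twoL j, Sh.twoR j)] := by
  have e : lamB D.B (oB D.n D.β D.M D.q []) [pb D, pb D] = lamB D.B (B0 D) [pb D, pb D] :=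
    Finset.sum_congr rfl fun y _ => congrArg _ (congrArg (sg (-1) D.B _) (funext fun τ =>
      oB_const _ (bet D y * bet D τ.j) _))
  rw [e, Low51.lamB_low (cutB h) B0_zero pb_hi]
  refine Finset.sum_congr rfl fun j hj => congrArg _ (Low51.CW_stp (N := 2) (cutB h)
    (V := VV D (gd (D.S.drop D.J))) (fun t m E hE hN => ?_) 1 _ _ _
      (Low51.inv_two (Nat.lt_succ_iff.1 (Finset.mem_range.1 hj))) rfl)
  refine (Low51.LE_PhiB (cl_L0 D _) _ hE.sep (cutB h) (hE.pl.hi _ _) (tv_pl _ hE.pl) _).trans ?_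
  refine (congrArg _ (Low51.site_val (tiltBS D) (cutB h) hE (hN ▸ sq2 h) 0)).trans ?_
  simp only [VV, gg, ite_self]
  rfl

theorem test_eq (h : D.Ok τ0) (hj : j ∈ D.up) :
    wB (-1) D.B (oB D.n D.β D.M D.q []) [pb D, pb D] (Sh.two j) (fun _ => 1) (pr2 j (oE D.q j)) =
      stp (-1) D.J D.B (stp (-1) D.J D.B (VV D (Gm D j))) .one () [] := by
  obtain ⟨j1, j2⟩ := mem_up.1 hj
  have j3 : j ≤ D.B.length := j2.le.trans_eq D.B_len.symm
  have e : wB (-1) D.B (oB D.n D.β D.M D.q []) [pb D, pb D] (Sh.two j) (fun _ => 1)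
      (pr2 j (oE D.q j)) = wB (-1) D.B (B0 D) [pb D, pb D] (Sh.two j) (fun _ => 1)
        (pr2 j (oE D.q j)) :=
    congrArg (sg (-1) D.B _) (funext fun τ => congrArg (sg (-1) D.B _) (funext fun τ' =>
      oB_const _ (1 * bet D τ.j * bet D τ'.j) _))
  refine e.trans ((Low51.wB_mark (cutB h) B0_zero pb_hi j1 j3 (fun _ _ _ => 1) (oE D.q)).trans
    (Low51.CW_stpM (N := 2) (cutB h) (V := VV D (Gm D j)) (fun t m E hE hN => ?_) 2 .one () []
      (Low51.inv_one _) rfl))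
  have e' := Nat.sub_add_cancel j1.le
  have k := Low51.site_mark (tiltBS D) (Nat.sub_pos_of_lt j1) (e'.trans_le j3) hE (oE D.q)
    (hN ▸ sq2 h) 0
  rw [e'] at k
  refine (Low51.LE_PhiB (cl_L0 D _) _ hE.sep (cutB h) (fun d hd => (List.mem_cons.1 hd).elim
    (fun u => by rw [u]; exact ⟨trivial, j1, j3⟩) (hE.pl.hi _ _ d)) (fun p hp u =>
      (List.mem_cons.1 hp).elim (fun v => by rw [v]) fun v => tv_pl _ hE.pl p v u) _).trans ?_
  refine (congrArg _ k).trans (congrArg (· * _) ?_)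
  exact (Low51.prE_cons _ _ _ (m, m) (Low51.sk E) _).trans (one_mul _)

/-- admissible cluster value of degree `d` -/
def Fa (d : ℕ) (g : ℝ → ℝ) : Prop := (Eg fun z => g (xs z)) ∧ ∀ y, |g y| ≤ cB6 ∧
  (Odd d → |g y| ≤ cB6 * |y|) ∧ (Even d → |g y - g 0| ≤ cB6 * y ^ 2)

theorem fa_gd (h : D.Ok τ0) {d : ℕ} (h1 : 1 ≤ d) (hd : d ≤ 6) : Fa d (gd (D.S.drop D.J) d) := by
  obtain ⟨l, L, e, -, r, hm⟩ := site_cons h
  refine ⟨?_, fun y => e ▸ gd_facts (One15.fl_of r) hm h1 hd y⟩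
  simp only [gd, ← GC_spin]
  exact eg_GC w1 _ _ _

theorem fa_Gm (h : D.Ok τ0) (hj : j ∈ D.up) {d : ℕ} (hd : d ≤ 6) : Fa d (Gm D j d) := by
  refine ⟨?_, fun y => (Gm_facts h hj hd y).1⟩
  simp only [Gm, ← MG_xs]
  exact eg_LW w1 _ _ _ _ _ _

theorem gd_odd (h : D.Ok τ0) (d : ℕ) (hd : Odd d) : gd (D.S.drop D.J) d 0 = 0 := by
  obtain ⟨l, L, e, -, r, -⟩ := site_cons h
  rw [gd, e]
  exact gs_even_zero (One15.fl_of r) (Nat.Odd.sub_odd hd odd_one)

theorem Gm_odd (h : D.Ok τ0) (hj : j ∈ D.up) (d : ℕ) (hd : Odd d) : Gm D j d 0 = 0 := by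
  obtain ⟨l, L, e, -, r, -⟩ := site_cons h
  obtain ⟨k, hk⟩ := Nat.exists_eq_succ_of_ne_zero
    (show j - D.J ≠ 0 by have := (CD.mem_up.1 hj).1; omega)
  unfold Gm
  rw [e, hk]
  exact MG_odd_zero (One15.fl_of r) (s := .two (k + 1)) rfl
    (fun x => by simp [pr2, oE, One15.spin_not]) hd

theorem abs_bet (h : D.Ok τ0) (y : ℕ) : |bet D y| ≤ τ0 * √(D.X ^ 2 + 2 * D.tl) := by
  have t0 := h.tau0
  by_cases e : y ∈ D.lo
  · have t1 := h.tau_mem y
    rw [bet_lo e, abs_of_nonneg (by have := t1.1; positivity)]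
    exact mul_le_mul (by linarith [t1.2]) (sqrt_le_sqrt (r2_le h e)) (sqrt_nonneg _) t0
  · rw [bet_out e, abs_zero]
    positivity

/-- the constant of the freezing step -/
def cF : ℝ := 5 * cB6 ^ 7 * 40

theorem cF_nn : 0 ≤ cF := by have := one_le_cB6; unfold cF; positivity

/-- **freezing** -/
theorem frz (h : D.Ok τ0) {G : ℕ → ℝ → ℝ} (ht : t.dep ≤ D.J) (hN : Fintype.card t.Lf ≤ 5)
    {m : t.Lf} {E : Ed t} (hE : E.length = 2) (h1 : ∀ a, a ≠ m → 1 ≤ dgE E a)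
    (hG : Fa (dgE E m) (G (dgE E m))) : |VV D G t m E - V0 D G t m E| ≤ τ0 ^ 2 * cF * A0 D := by
  have b1 := one_le_cB6
  have X0 := h.X0
  have t0 := h.tl0
  have fa : ∀ a, Fa (dgE E a) (gg D G E m a) := fun a => by
    unfold gg
    split_ifs with e
    · exact e ▸ hG
    · exact fa_gd h (h1 a e) ((dgE_le E a).trans (by omega))
  have k := SK_par (rk_opS (n := D.n) (β := D.β) h.ook) (mono_S h) (i := D.J)
    (h.cut.le.trans_eq (S_len D).symm) (σ := D.X ^ 3) (by positivity) (pow_le_one₀ X0 h.X1)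
    (by rw [TT_opV h.cut.le, h.qlo _ le_rfl, mul_zero, zero_add]; exact h.h1) ht E b1
    (g := gg D G E m) (fun a => (fa a).1) (fun a y => ((fa a).2 y).1)
    (fun a o y => ((fa a).2 y).2.1 o) fun a o y => ((fa a).2 y).2.2 o
  have k1 : (Fintype.card t.Lf : ℝ) * cB6 ^ (Fintype.card t.Lf + 2) * (40 * D.X ^ 3) ≤
      5 * cB6 ^ 7 * (40 * D.X ^ 3) := mul_le_mul_of_nonneg_right (mul_le_mul (by exact_mod_cast hN)
        (pow_le_pow_right₀ b1 (by omega)) (by positivity) (by norm_num)) (by positivity)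
  have k2 := abs_bk (x0 := x0 D) (n := D.B.length) (abs_bet h) hE
  refine le_trans (le_of_eq ?_) ((mul_le_mul k2 (k.trans k1) (abs_nonneg _)
    ((abs_nonneg _).trans k2)).trans (le_of_eq ?_))
  · rw [← abs_mul, mul_sub]
    rfl
  · have := mul_self_sqrt (show 0 ≤ D.X ^ 2 + 2 * D.tl by positivity)
    unfold cF A0
    linear_combination (τ0 ^ 2 * (5 * cB6 ^ 7 * 40) * D.X ^ 3) * this

theorem XA0 (h : D.Ok τ0) : D.X * A0 D ≤ D.X ^ 6 + 2 * D.tl := by
  have : D.X ^ 4 * D.tl ≤ 1 * D.tl := mul_le_mul_of_nonneg_right (pow_le_one₀ h.X0 h.X1) h.tl0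
  unfold A0
  nlinarith

theorem S2_eq (D : CD) : ∑ y ∈ Finset.range (D.J + 1), D.dx y * bet D y ^ 2 = D.S2 / 4 := by
  rw [Finset.range_eq_Ico, Finset.sum_eq_sum_Ico_succ_bot (Nat.succ_pos _),
    bet_out (y := 0) (by simp), S2, Finset.sum_div]
  simp only [ne_eq, OfNat.ofNat_ne_zero, not_false_eq_true, zero_pow, mul_zero, zero_add]
  refine Finset.sum_congr (by ext; simp [Nat.lt_succ_iff]) fun y hy => ?_
  rw [bet_lo hy, mul_pow, sq_sqrt (r2_nn D y), r2]
  ring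

/-- **site evaluation, value** -/
theorem valB (h : D.Ok τ0) : |lamB D.B (oB D.n D.β D.M D.q []) [pb D, pb D] -
    D.lam ^ 2 * D.S2 / 2| ≤ 20 * (τ0 ^ 2 * cF) * (D.X ^ 6 + 2 * D.tl) := by
  have c0 : 0 ≤ τ0 ^ 2 * cF := mul_nonneg (sq_nonneg _) cF_nn
  have a0 := A0_nn h
  have e : D.lam ^ 2 * D.S2 / 2 = ∑ j ∈ Finset.range (D.J + 1), D.dx j * stp (-1) D.J D.B
      (V0 D (gd (D.S.drop D.J))) (.two j) (Sh.twoL j) [(Sh.twoL j, Sh.twoR j)] := by
    rw [Finset.sum_congr (g := fun y => 2 * D.lam ^ 2 * (D.dx y * bet D y ^ 2)) rfl fun y hy => ?_,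
      ← Finset.mul_sum, S2_eq]
    · ring
    · rw [stp_two (gd_odd h) (gd_odd h) ((Nat.lt_succ_iff.1 (Finset.mem_range.1 hy)).trans
        (cutB h).le) (Or.inl ⟨rfl, rfl⟩), ← Y20.lam_eq h]
      ring
  rw [val_eq h, e, ← Finset.sum_sub_distrib]
  refine (Finset.abs_sum_le_sum_abs _ _).trans ((Finset.sum_le_sum
    (g := fun y => D.dx y * (20 * (τ0 ^ 2 * cF * A0 D))) fun y hy => ?_).trans ?_)
  · have hy' := Nat.lt_succ_iff.1 (Finset.mem_range.1 hy)
    have c2 := Wt87.card_two y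
    have ne := Tay38.two_ne y
    have d1 : ∀ a, 1 ≤ dgE [(Sh.twoL y, Sh.twoR y)] a := fun a => by
      rcases Wt87.two_cases y a with rfl | rfl <;> simp [dgE, ne, ne.symm]
    rw [← mul_sub, abs_mul, abs_of_nonneg (h.dx0 y)]
    refine mul_le_mul_of_nonneg_left ?_ (h.dx0 y)
    refine (congrArg abs (lsg_sub _ _)).trans_le ((abs_lsg_le (by simp) h.mono
      (mul_nonneg c0 a0) fun τ op oq H => frz h (H.dep (dep_two hy'))
        ((LM.card H (cutB h).le).trans (by omega)) (by simp [nx])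
        (dg_step H fun a _ => d1 a) (fa_gd h ((d1 _).trans (dg_mono H _ _))
          ((dgE_le _ _).trans (by simp [nx])))).trans (le_of_eq ?_))
    rw [c2]
    norm_num
  · rw [← Finset.sum_mul, h.sum_dx]
    refine (mul_le_mul_of_nonneg_right h.x1 (by positivity)).trans ?_
    nlinarith [mul_le_mul_of_nonneg_left (XA0 h) c0]

/-- **site evaluation, test** -/
theorem testB (h : D.Ok τ0) (hj : j ∈ D.up) :
    |wB (-1) D.B (oB D.n D.β D.M D.q []) [pb D, pb D] (Sh.two j) (fun _ => 1) (pr2 j (oE D.q j)) +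
      D.lam * (Gm D j 2 0 - ex D.S D.J * D.lam * Gm D j 0 0) * D.S2| ≤
      180 * (τ0 ^ 2 * cF) * (D.X ^ 6 + 2 * D.tl) := by
  have c0 : 0 ≤ τ0 ^ 2 * cF := mul_nonneg (sq_nonneg _) cF_nn
  have a0 := A0_nn h
  have e : D.lam * (Gm D j 2 0 - ex D.S D.J * D.lam * Gm D j 0 0) * D.S2 =
      -stp (-1) D.J D.B (stp (-1) D.J D.B (V0 D (Gm D j))) .one () [] := by
    rw [test2 h.mono (cutB h).le (gd_odd h) (Gm_odd h hj), S2_eq, ← Y20.lam_eq h,
      Cav22.ex_tilt (tilt_opS (q := D.q))]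
    ring
  rw [test_eq h hj, e, ← sub_eq_add_neg]
  have k := abs_lsg_sub_old (ε := -1) (i := D.J) (M := D.B) (t := .one) (Φ := fun τ _ _ =>
    stp (-1) D.J D.B (VV D (Gm D j)) τ.sh (τ.e ()) (nx τ []) -
      stp (-1) D.J D.B (V0 D (Gm D j)) τ.sh (τ.e ()) (nx τ [])) (by simp) h.mono
    (β := 45 * (τ0 ^ 2 * cF * A0 D)) (by positivity) fun τ op oq H => by
      have c3 : Fintype.card τ.sh.Lf ≤ 3 := LM.card H (cutB h).le
      refine (congrArg abs (lsg_sub _ _)).trans_le ((abs_lsg_le (by simp) h.mono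
        (mul_nonneg c0 a0) fun τ' op' oq' H' => frz h (H'.dep (H.dep (Nat.zero_le _)))
          ((LM.card H' (cutB h).le).trans (by omega)) (by simp [nx])
          (dg_step H' (dg_step H fun a e => absurd rfl e))
          (fa_Gm h hj ((dgE_le _ _).trans (by simp [nx])))).trans ?_)
      have : (Fintype.card τ.sh.Lf : ℝ) ^ 2 ≤ 3 ^ 2 :=
        pow_le_pow_left₀ (Nat.cast_nonneg _) (by exact_mod_cast c3) 2
      exact mul_le_mul_of_nonneg_right (by linarith) (mul_nonneg c0 a0)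
  rw [old_one, sub_zero, show Fintype.card Sh.one.Lf = 1 from rfl] at k
  refine (congrArg abs (lsg_sub _ _)).trans_le (k.trans ?_)
  have := mul_le_mul_of_nonneg_right h.x1 (mul_nonneg c0 a0)
  push_cast
  nlinarith [mul_le_mul_of_nonneg_left (XA0 h) c0]

theorem stepB (b : Bool) : Bd b fun D => bw D - D.lam2 * D.S2 / 2 := by
  have c0 := cF_nn
  cases b
  · refine Bd.val fun τ0 => ⟨20 * (τ0 ^ 2 * cF) * 3, fun D h hW => ?_⟩
    unfold bw CD.lam2
    rw [dd_val hW, dd_val hW, mul_assoc (20 * (τ0 ^ 2 * cF))]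
    exact (valB h).trans (mul_le_mul_of_nonneg_left (by linarith [h.X6_le, h.tl_le])
      (by positivity))
  · refine Bd.mk' fun τ0 => ⟨180 * (τ0 ^ 2 * cF) * 3, fun D h hW => ?_⟩
    have e : bw D - D.lam2 * D.S2 / 2 = ∑ j ∈ D.up, D.om j *
        (wB (-1) D.B (oB D.n D.β D.M D.q []) [pb D, pb D] (Sh.two j) (fun _ => 1)
          (pr2 j (oE D.q j)) + D.lam * (Gm D j 2 0 - ex D.S D.J * D.lam * Gm D j 0 0) * D.S2) := by
      unfold bw CD.lam2
      rw [dd_test hW, dd_test hW, Y14.dP_eq h hW]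
      simp only [mul_add, Finset.sum_add_distrib]
      rw [sub_eq_add_neg, mul_neg, neg_mul, neg_div, neg_neg, Finset.mul_sum, Finset.sum_mul,
        Finset.sum_div]
      exact congrArg _ (Finset.sum_congr rfl fun j _ => by unfold Y14.mg Gm; ring)
    rw [e]
    refine (D.abs_sum_om fun j hj => testB h hj).trans ?_
    rw [Iw_const, ← wt_test hW, mul_assoc (180 * (τ0 ^ 2 * cF)), mul_assoc (180 * (τ0 ^ 2 * cF))]
    refine mul_le_mul_of_nonneg_left ?_ (by positivity)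
    have := mul_le_mul_of_nonneg_right (show D.X ^ 6 + 2 * D.tl ≤ 3 * D.E0 by
      linarith [h.X6_le, h.tl_le]) D.wt0
    linarith [h.wtE0_le]

end Crest.Agent.T156.Cas.Y44

namespace Crest.Agent.T156.Cas.C40

/-- **the leaf `Y2S`** -/
theorem y2S (b : Bool) : Y2S b :=
  ((Y44.stepA b).add (Y44.stepB b)).congr fun _ _ _ _ => by ring

end Crest.Agent.T156.Cas.C40

end
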