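import Crest.Agent.T156.LowB_51
import Crest.Agent.T156.CLowD_90

/-!
# Row 156 (helper51): the cluster word `L90.cw` in skeleton form
-/

set_option autoImplicit false
set_option linter.unusedSectionVars false
set_option linter.unusedVariables false

noncomputable section

namespace Crest.Agent.T156.Cas.C40.L51

open Crest.Agent.T157.E Crest.Agent.T157.Casc Crest.Agent.T157.SL
open Crest.Agent.T157.G1 (ov)
open Crest.ProbabilityR.SpinGlassDynamics (spin)
open One15 (xs w1)
open Leg51 Low51 L90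

variable {D : CD} {τ0 : ℝ}

/-- bulk kernels of a word -/
def Rb (D : CD) (f : List Lt) : List (ℕ → (Unit → Cube D.n) → (Unit → Cube D.n) → ℝ) :=
  (f.map (c1 D)).map Prod.fst
/-- site kernels of a word -/
def Zs (D : CD) (f : List Lt) : List (ℕ → Bool → Bool → ℝ) := (f.map (c1 D)).map Prod.snd
/-- the function carried by the ends of a low letter -/
def fL (a : Lt) : Bool → ℝ := if a.2 then spin else fun _ => 1
/-- the bulk functional -/
abbrev LC (D : CD) : Fn (Unit → Cube D.n) := R90.Lc (fun _ => 1) D.B 0 D.J Unit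

theorem len_B (D : CD) : D.B.length = D.K := List.length_map _

theorem tilt_BS (D : CD) : D.B.map Lv.m = D.S.map Lv.m := (tilt_opS (q := D.q)).symm

theorem cB_zero (D : CD) (s : Sh) (ξ : (s.Lf → Bool) → ℝ) : cB D s (fun _ => 0) ξ = 0 := by
  rw [cB, R90.Lc_const wt_one90, zero_mul]

theorem c1_hi {a : Lt} (ha : a.1 = true) {j : ℕ} (hj : D.J < j) : (c1 D a).1 j = 0 := by
  funext x y
  simp [c1, R90.cp, Mul55.lt, Mul55.cut, ha, CD.cl, not_le.2 hj]

theorem c1_lo {a : Lt} (ha : a.1 = true) {j : ℕ} (hj : j ≤ D.J) (x y : Unit → Cube D.n) :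
    (c1 D a).1 j x y = oUb D.n D.β D.M D.q a.2 j (x ()) (y ()) := by
  simp [c1, R90.cp, Mul55.lt, Mul55.cut, ha, CD.cl, hj]

/-- the bulk kernel of `aL` -/
theorem c1_aL (H : D.Ok τ0) (j : ℕ) (x y : Unit → Cube D.n) :
    (c1 D aL).1 j x y = D.KR j (x ()) (y ()) / 2 := by
  by_cases hj : j ≤ D.J
  · rw [c1_lo rfl hj, CD.KR, if_pos hj]
    simp only [oUb, oU, H.qlo j hj]
    ring
  · rw [c1_hi rfl (not_le.1 hj), CD.KR, if_neg hj]
    simp

theorem sq_Zs (H : D.Ok τ0) : ∀ f : List Lt, Sq D.J (Zs D f) (f.map fL)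
  | [] => .nil
  | (c, true) :: f => .cons (fun j hj a b => by
      simp [c1, Mul55.lt, oZs, oE, H.qlo j hj, fL]) (sq_Zs H f)
  | (c, false) :: f => .cons (fun j hj a b => by simp [c1, Mul55.lt, oZs, fL]) (sq_Zs H f)

theorem hV {f : List Lt} (hf : ∀ a ∈ f, a.1 = true) :
    ∀ p ∈ f.map (c1 D), ∀ j, D.J < j → p.1 j = 0 := fun p hp j hj => by
  obtain ⟨a, ha, rfl⟩ := List.mem_map.1 hp
  exact c1_hi (hf a ha) hj

theorem cut_B (H : D.Ok τ0) : D.J < D.B.length := H.cut.trans_eq (len_B D).symm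

/-- **value**: exact cluster form of any low word -/
theorem cw_val (H : D.Ok τ0) (hW : D.W = none) {a : Lt} {f : List Lt}
    (hf : ∀ b ∈ a :: f, b.1 = true) : L90.cw D (a :: f) = ∑ j ∈ Finset.range (D.J + 1), D.dx j *
      CW (-1) D.J D.B (PhiB D.B.length (cB D) (Rb D (a :: f)) (Zs D (a :: f)))
        (List.replicate f.length (lo D.J)) (Sh.two j) [e2 j] := by
  rw [L90.cw, CD.dd, hW, List.map_cons, lamB_low (cut_B H) (cB_zero D) (hV hf),
    List.length_map (f := c1 D)]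
  rfl

/-- **test**: exact cluster form of any low word -/
theorem cw_test (H : D.Ok τ0) (hW : D.W.isSome = true) {f : List Lt} (hf : ∀ b ∈ f, b.1 = true) :
    L90.cw D f = ∑ j ∈ D.up, D.om j *
      CW (-1) D.J D.B (PhiB D.B.length (cB D) ((fun _ _ _ => 1) :: Rb D f) (oE D.q :: Zs D f))
        (List.replicate f.length (lo D.J)) .one [em () j] := by
  obtain ⟨ω, hω⟩ := Option.isSome_iff_exists.1 hW
  rw [L90.cw, CD.dd, hω]
  refine Finset.sum_congr rfl fun j hj => mc ?_
  have h := Finset.mem_Ioo.1 hj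
  have := wB_mark (cut_B H) (cB_zero D) (hV (D := D) hf) h.1 (h.2.le.trans_eq (len_B D).symm)
    (fun _ _ _ => 1) (oE D.q)
  rw [List.length_map (f := c1 D)] at this
  exact this

variable {t : Sh}

theorem tv_pl {Ω ι : Type} (R : List (ℕ → Ω → Ω → ℝ)) {E : List (Ed ι)} (h : Pl E) : Tv R E :=
  fun p hp e => absurd e (h _ (List.of_mem_zip hp).2).2

theorem tv_em {Ω ι : Type} (R : List (ℕ → Ω → Ω → ℝ)) {E : List (Ed ι)} (h : Pl E) (m : ι) (k : ℕ) :
    Tv ((fun _ _ _ => 1) :: R) (em m k :: E) := fun p hp e =>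
  (List.mem_cons.1 hp).elim (fun u => by rw [u]) fun u => tv_pl R h p u e

/-- one skeleton graph, value, any low letters -/
theorem LE_val (H : D.Ok τ0) {o : Option t.Lf} {E : List (Ed t.Lf)} (hE : Inv D.J t o E)
    {f : List Lt} (hl : E.length = f.length) :
    LE (-1) D.J D.B E (cs' (PhiB D.B.length (cB D) (Rb D f) (Zs D f))) t id [] =
      LC D t (prE D.B.length (Rb D f) (sk E)) * Leg51.SK (fun _ => 1) t D.S D.J (fun a =>
        GC (-1) (fun _ => 1) (D.S.drop D.J) (pf (legs (ends false E (f.map fL)) a))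
          (legs (ends true E (f.map fL)) a)) 0 :=
  (LE_PhiB (cl_Lc wt_one90 0 (cut_B H) Unit) _ hE.sep (cut_B H) (hE.pl.hi _ _) (tv_pl _ hE.pl)
    _).trans (mc (LE_site w1 (tilt_BS D) 0 hE.sep hE.dep (cut_B H) hE.pl (sq_Zs H f)
      (hl.trans (List.length_map _).symm)))

theorem hi_em (H : D.Ok τ0) {j : ℕ} (hj : j ∈ D.up) (m : t.Lf) {E : List (Ed t.Lf)} (hE : Pl E) :
    ∀ d ∈ em m j :: E, d.Hi D.J D.B.length := fun d hd => (List.mem_cons.1 hd).elim (fun e => by
  rw [e]
  exact ⟨trivial, (Finset.mem_Ioo.1 hj).1, (Finset.mem_Ioo.1 hj).2.le.trans_eq (len_B D).symm⟩)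
    (hE.hi _ _ d)

theorem LE_em (H : D.Ok τ0) {j : ℕ} (hj : j ∈ D.up) (m : t.Lf) {o : Option t.Lf}
    {E : List (Ed t.Lf)} (hE : Inv D.J t o E) (f : List Lt) :
    LE (-1) D.J D.B (em m j :: E) (cs' (PhiB D.B.length (cB D) ((fun _ _ _ => 1) :: Rb D f)
      (oE D.q :: Zs D f))) t id [] = LC D t (prE D.B.length (Rb D f) (sk E)) *
        LE (-1) D.J D.B (em m j :: E) (cs' (PhiS D.B.length (TEf (fun _ => 1) D.S 0)
          (oE D.q :: Zs D f))) t id [] :=
  (LE_PhiB (cl_Lc wt_one90 0 (cut_B H) Unit) _ hE.sep (cut_B H) (hi_em H hj m hE.pl)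
    (tv_em _ hE.pl m j) _).trans (congrArg (fun G => LC D t G * _) (funext fun x =>
      (prE_cons _ _ _ (m, m) (sk E) x).trans (one_mul _)))

/-- one skeleton graph, test, any low letters -/
theorem LE_test (H : D.Ok τ0) {j : ℕ} (hj : j ∈ D.up) (m : t.Lf) {o : Option t.Lf}
    {E : List (Ed t.Lf)} (hE : Inv D.J t o E) {f : List Lt} (hl : E.length = f.length) :
    LE (-1) D.J D.B (em m j :: E) (cs' (PhiB D.B.length (cB D) ((fun _ _ _ => 1) :: Rb D f)
      (oE D.q :: Zs D f))) t id [] = LC D t (prE D.B.length (Rb D f) (sk E)) *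
        Leg51.SK (fun _ => 1) t D.S D.J (fun a => if a = m then
          GM (-1) (fun _ => 1) (D.S.drop D.J) (j - D.J)
            (fun x y => oE D.q j x y * pf (legs (ends false E (f.map fL)) m) x)
            (legs (ends true E (f.map fL)) a)
          else GC (-1) (fun _ => 1) (D.S.drop D.J) (pf (legs (ends false E (f.map fL)) a))
            (legs (ends true E (f.map fL)) a)) 0 := by
  have h := Finset.mem_Ioo.1 hj
  have e := Nat.sub_add_cancel h.1.le
  have := LE_siteM (ε := -1) w1 (tilt_BS D) 0 hE.sep hE.dep (Nat.sub_pos_of_lt h.1)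
    (e.trans_le (h.2.le.trans_eq (len_B D).symm)) m hE.pl (oE D.q) (sq_Zs H f)
    (hl.trans (List.length_map _).symm)
  rw [e] at this
  rw [LE_em H hj m hE, this]

/-- the bulk factor of `k` letters `aL` on a skeleton graph -/
def Bk (D : CD) (k : ℕ) (t : Sh) (E : EL t) : ℝ :=
  LC D t (prE D.B.length (List.replicate k (c1 D aL).1) E)

/-- skeleton value of `aL ^ k`, value direction -/
def Vv (D : CD) (k : ℕ) : Y20.VF := fun t _ E => Bk D k t E *
  Leg51.SK (fun _ => 1) t D.S D.J (fun a z => gs (D.S.drop D.J) (Y20.dgE E a - 1) (xs z)) 0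

/-- skeleton value of `aL ^ k`, marked pair at the level `j` in the cluster `m` -/
def Vm (D : CD) (k j : ℕ) : Y20.VF := fun t m E => Bk D k t E *
  Leg51.SK (fun _ => 1) t D.S D.J (fun a z => if a = m then Lsg89.MG (D.S.drop D.J) (.two (j - D.J))
    (pr2 (j - D.J) (oE D.q j)) (Y20.dgE E a) (xs z • spin)
    else gs (D.S.drop D.J) (Y20.dgE E a - 1) (xs z)) 0

theorem Rb_rep (k : ℕ) : Rb D (List.replicate k aL) = List.replicate k (c1 D aL).1 := by
  simp only [Rb, List.map_replicate]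

theorem sq_rep (H : D.Ok τ0) (k : ℕ) :
    Sq D.J (Zs D (List.replicate k aL)) (List.replicate k spin) := by
  have := sq_Zs H (List.replicate k aL)
  rwa [List.map_replicate] at this

/-- **`aL ^ (k + 1)`, value** -/
theorem cw_rep_val (H : D.Ok τ0) (hW : D.W = none) (k : ℕ) :
    L90.cw D (List.replicate (k + 1) aL) = ∑ j ∈ Finset.range (D.J + 1), D.dx j *
      (Y20.stp (-1) D.J D.B)^[k] (Vv D (k + 1)) (.two j) (Sh.twoL j) [(Sh.twoL j, Sh.twoR j)] := by
  rw [List.replicate_succ, cw_val H hW fun b hb => by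
    rw [List.eq_of_mem_replicate (n := k + 1) hb], List.length_replicate]
  refine Finset.sum_congr rfl fun j hj => mc (CW_stp (N := k + 1) (cut_B H) (fun t m E hE hN => ?_)
    k _ _ _ (inv_two (Nat.lt_succ_iff.1 (Finset.mem_range.1 hj))) (add_comm _ _))
  refine (LE_PhiB (cl_Lc wt_one90 0 (cut_B H) Unit) _ hE.sep (cut_B H) (hE.pl.hi _ _)
    (tv_pl _ hE.pl) _).trans ?_
  rw [← List.replicate_succ, site_val (tilt_BS D) (cut_B H) hE (hN ▸ sq_rep H _), Rb_rep]
  rfl

/-- **`aL ^ k`, test** -/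
theorem cw_rep_test (H : D.Ok τ0) (hW : D.W.isSome = true) (k : ℕ) :
    L90.cw D (List.replicate k aL) = ∑ j ∈ D.up, D.om j *
      (Y20.stp (-1) D.J D.B)^[k] (Vm D k j) .one () [] := by
  rw [cw_test H hW fun b hb => by rw [List.eq_of_mem_replicate hb], List.length_replicate]
  refine Finset.sum_congr rfl fun j hj => mc (CW_stpM (N := k) (cut_B H) (fun t m E hE hN => ?_)
    k .one () [] (inv_one _) (zero_add _))
  have h := Finset.mem_Ioo.1 hj
  have e := Nat.sub_add_cancel h.1.le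
  have := site_mark (tilt_BS D) (Nat.sub_pos_of_lt h.1)
    (e.trans_le (h.2.le.trans_eq (len_B D).symm)) hE (oE D.q) (sq_rep H _) 0
  rw [e, hN] at this
  rw [LE_em H hj m hE, this, Rb_rep]
  rfl

end Crest.Agent.T156.Cas.C40.L51

end
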