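import Crest.Agent.T156.CY3D_20
import Crest.Agent.T156.LowC_51
import Crest.Agent.T156.CLow_90

/-!
# Row 156, block C (helper20): the leaf `Y3S`
-/

set_option autoImplicit false
set_option linter.all false

noncomputable section

namespace Crest.Agent.T156.Cas.Y20

open MeasureTheory Real Set Filter Topology
open Crest.Agent.T157.E Crest.Agent.T157.Casc Crest.Agent.T157.SL
open Wt87 Leg51 Lsg89
open Low51 (prE)
open Tay38 (two_ne)

section inv
variable {Θ : Type} {i : ℕ} {M : List (Lv Θ)} {t : Sh}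

/-- skeleton graphs: no loop, no isolated cluster but (if `b`) the marked one -/
structure Iv (i : ℕ) (b : Prop) (t : Sh) (m : t.Lf) (E : Ed t) : Prop where
  sep : Sep i t
  dep : t.dep ≤ i
  ne : ∀ e ∈ E, e.1 ≠ e.2
  dg : ∀ a, (b ∧ a = m) ∨ 1 ≤ dgE E a

theorem Iv.step {b : Prop} {m : t.Lf} {E : Ed t} (h : Iv i b t m E) {n : ℕ} {τ : GT t}
    {op oq : Bool} (H : LM i n t τ op oq) : Iv i b τ.sh (τ.e m) (nx τ E) := by
  refine ⟨H.sep h.sep, H.dep h.dep, fun e he => ?_, fun y => ?_⟩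
  · rcases List.mem_append.1 he with he | he
    · obtain ⟨d, hd, rfl⟩ := List.mem_map.1 he
      exact (LM.inj H).ne (h.ne d hd)
    · rw [List.mem_singleton.1 he]
      exact LM.ne H
  · rw [nx, dgE_snoc]
    rcases Low51.LM.cov H y with ⟨x, rfl⟩ | ⟨-, rfl⟩ | ⟨-, rfl⟩
    · rw [dgE_map (LM.inj H)]
      exact (h.dg x).imp (fun u => ⟨u.1, congrArg _ u.2⟩) fun u => by omega
    · rw [if_pos rfl]
      exact .inr (by omega)
    · rw [if_pos (rfl : τ.q = τ.q)]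
      exact .inr (by omega)

theorem iv_two {j : ℕ} (hj : j ≤ i) (m : (Sh.two j).Lf) :
    Iv i False (.two j) m [(Sh.twoL j, Sh.twoR j)] :=
  ⟨sep_two hj, dep_two hj, fun e he => by rw [List.mem_singleton.1 he]; exact two_ne j,
    fun a => .inr (by rcases two_cases j a with rfl | rfl <;> simp [dgE_cons] <;> omega)⟩

theorem iv_one (i : ℕ) : Iv i True .one () [] :=
  ⟨sep_one i, Nat.zero_le _, fun _ h => absurd h List.not_mem_nil, fun _ => .inl ⟨trivial, rfl⟩⟩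

/-- graph-wise comparison of two skeleton sums -/
theorem stp_sub (hM : Mono 0 M) (hi : i ≤ M.length) {V V' : VF} {β : ℝ} (hβ : 0 ≤ β) {N n : ℕ}
    {b : Prop} (h0 : ∀ t m E, Iv i b t m E → E.length = n → Fintype.card t.Lf ≤ N →
      |V t m E - V' t m E| ≤ β) :
    ∀ k t m E, Iv i b t m E → E.length + k = n → Fintype.card t.Lf + 2 * k ≤ N →
      |(stp (-1) i M)^[k] V t m E - (stp (-1) i M)^[k] V' t m E| ≤ (5 * (N : ℝ) ^ 2) ^ k * β
  | 0, t, m, E, h, hn, hN => (h0 t m E h hn hN).trans_eq (by simp)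
  | k + 1, t, m, E, h, hn, hN => by
      rw [Function.iterate_succ_apply', Function.iterate_succ_apply', stp, stp, lsg_sub]
      refine (abs_lsg_le (by simp) hM (β := (5 * (N : ℝ) ^ 2) ^ k * β) (by positivity)
        fun τ op oq H => stp_sub hM hi hβ h0 k _ _ _ (h.step H) (by simp [nx]; omega)
          (by have := LM.card H hi; omega)).trans ?_
      have : (Fintype.card t.Lf : ℝ) ≤ N := Nat.cast_le.2 (by omega)
      rw [pow_succ' (5 * (N : ℝ) ^ 2), mul_assoc (5 * (N : ℝ) ^ 2)]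
      gcongr

end inv

section cd
open Crest.ProbabilityR.SpinGlassDynamics (spin)
open C40 One15

variable {D : CD} {τ0 : ℝ} {t : Sh}

/-- on a skeleton every leaf is a cluster -/
theorem Lc_sep {Ω : Type} [Fintype Ω] {w : Ω → ℝ} (hw : Wt w) {L : List (Lv Ω)} {i : ℕ}
    (hi : i < L.length) (hs : Sep i t) (h : Ω → ℝ) (F : (t.Lf → Ω) → ℝ) :
    R90.Lc w L h i Unit t (fun y => F fun a => y a ()) = TE w t L h F :=
  (R90.Lc_eq (h := h) hw hi t id (fun _ => ()) (Ker15.um_sm t id L.length) id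
    (fun a b => ⟨fun u => hs a b u.1, fun u => ⟨by rw [show a = b from u]; exact shr_self _ _ _, rfl⟩⟩)
    (fun a b u => by
      have h1 := R90.shr_cut hi t a b
      have h2 : t.shr a b (i + 1) ≠ i + 1 := fun e => u (hs a b e)
      change t.shr a b (i + 1) = t.shr a b L.length
      omega) F).trans (R90.TK_sm hw t Function.injective_id F)

theorem Bk_eq (h : D.Ok τ0) (hs : Sep D.J t) (E : Ed t) :
    L51.Bk D 3 t E = Bk (fun _ => 1) D.B 0 (UL D) t E :=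
  Eq.trans (congrArg (L51.LC D t) (funext fun y => congrArg List.prod
    (List.zipWith_map_left (l₁ := [UL D, UL D, UL D]) (f := R90.cp ()))))
    (Lc_sep wt_one90 (L51.cut_B h) hs 0 (prE D.B.length [UL D, UL D, UL D] E))

theorem gd_cd (h : D.Ok τ0) : (∀ d, Odd d → gd (D.S.drop D.J) d 0 = 0) ∧
    (∀ d ≤ 6, |gd (D.S.drop D.J) d 0| ≤ cB6) ∧ ∀ d ≤ 6, 1 ≤ d → ∀ y,
      |gd (D.S.drop D.J) d y| ≤ cB6 ∧ (Odd d → |gd (D.S.drop D.J) d y| ≤ cB6 * |y|) ∧
        (Even d → |gd (D.S.drop D.J) d y - gd (D.S.drop D.J) d 0| ≤ cB6 * y ^ 2) := by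
  obtain ⟨l, L, e, -, r, hm⟩ := site_cons h
  rw [e]
  exact ⟨fun d hd => gs_even_zero (fl_of r) (Nat.Odd.sub_odd hd odd_one),
    fun d hd => (abs_gs_le hm _ _).trans (le_cB6 (by omega)).1,
    fun d hd h1 => gd_facts (fl_of r) hm h1 hd⟩

theorem Gm_odd (h : D.Ok τ0) {j : ℕ} (hj : j ∈ D.up) (d : ℕ) (hd : Odd d) : Gm D j d 0 = 0 := by
  obtain ⟨l, L, e, -, r, -⟩ := site_cons h
  obtain ⟨k, hk⟩ := Nat.exists_eq_succ_of_ne_zero
    (show j - D.J ≠ 0 by have := (CD.mem_up.1 hj).1; omega)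
  unfold Gm
  rw [e, hk]
  exact MG_odd_zero (fl_of r) (s := .two (k + 1)) rfl (fun x => by simp [pr2, oE, One15.spin_not]) hd

theorem eg_gd (B : List (Lv Bool)) (d : ℕ) : Eg fun z => gd B d (xs z) :=
  (funext (GC_spin B (d - 1)) :) ▸ eg_GC w1 B _ _

theorem eg_Gm (D : CD) (j d : ℕ) : Eg fun z => Gm D j d (xs z) :=
  (funext (MG_xs _ _ _ d) :) ▸ eg_LW w1 _ _ _ _ _ _

/-- one graph: the cluster values are frozen -/
theorem frz (h : D.Ok τ0) {b : Prop} {G : ℕ → ℝ → ℝ} (he : ∀ d, Eg fun z => G d (xs z))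
    (hG : ∀ d ≤ 6, b ∨ 1 ≤ d → ∀ y, |G d y| ≤ cB6 ∧ (Odd d → |G d y| ≤ cB6 * |y|) ∧
      (Even d → |G d y - G d 0| ≤ cB6 * y ^ 2)) (t : Sh) (m : t.Lf) (E : Ed t)
    (H : Iv D.J b t m E) (hE : E.length = 3) (hc : Fintype.card t.Lf ≤ 7) :
    |L51.Bk D 3 t E * Leg51.SK (fun _ => 1) t D.S D.J (fun a z =>
        if a = m then G (dgE E a) (xs z) else gd (D.S.drop D.J) (dgE E a) (xs z)) 0 -
      V0 (fun _ => 1) D.B 0 (UL D) (fun d => gd (D.S.drop D.J) d 0) (fun d => G d 0) t m E| ≤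
      τ0 ^ 3 * (D.X ^ 3 + 3 * D.tl) * (7 * cB6 ^ 9 * (40 * D.X ^ 3)) := by
  have hd : ∀ a, dgE E a ≤ 6 := fun a => (dgE_le E a).trans_eq (by rw [hE])
  have k : ∀ a y, |(if a = m then G (dgE E a) y else gd (D.S.drop D.J) (dgE E a) y)| ≤ cB6 ∧
      (Odd (dgE E a) → |(if a = m then G (dgE E a) y else gd (D.S.drop D.J) (dgE E a) y)| ≤
        cB6 * |y|) ∧ (Even (dgE E a) →
        |(if a = m then G (dgE E a) y else gd (D.S.drop D.J) (dgE E a) y) -
          if a = m then G (dgE E a) 0 else gd (D.S.drop D.J) (dgE E a) 0| ≤ cB6 * y ^ 2) :=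
    fun a y => by
      split_ifs with e
      · exact hG _ (hd a) ((H.dg a).imp_left And.left) y
      · exact (gd_cd h).2.2 _ (hd a) ((H.dg a).resolve_left fun u => e u.2) y
  have hX := h.X0
  have h1 := SK_par (C.forall₂_sl spin (opV_nn (n := D.n) (β := D.β) h.ook))
    (Cav22.mono_tilt tilt_opS.symm h.mono) (i := D.J) (h.cut.le.trans_eq opS_length.symm)
    (σ := D.X ^ 3) (by positivity) (pow_le_one₀ hX h.X1)
    ((opV_acc h.cut.le).trans_le (by rw [h.qlo _ le_rfl, mul_zero, zero_add]; exact h.h1)) H.dep E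
    one_le_cB6 (g := fun a y => if a = m then G (dgE E a) y else gd (D.S.drop D.J) (dgE E a) y)
    (fun a => by
      split_ifs
      exacts [he _, eg_gd _ _])
    (fun a y => (k a y).1) (fun a u y => (k a y).2.1 u) fun a u y => (k a y).2.2 u
  rw [Bk_eq h H.sep, V0, ← mul_sub, abs_mul]
  refine mul_le_mul (abs_Bk_le h t hE H.ne) (h1.trans ?_) (abs_nonneg _)
    (by have := h.tau0; have := h.tl0; positivity)
  have : (Fintype.card t.Lf : ℝ) ≤ 7 := by exact_mod_cast hc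
  have := one_le_cB6
  gcongr
  omega

theorem bX_le (h : D.Ok τ0) : τ0 ^ 3 * (D.X ^ 3 + 3 * D.tl) * D.X ^ 3 ≤ 4 * τ0 ^ 3 * D.E0 := by
  have h1 := mul_le_of_le_one_right h.tl0 (pow_le_one₀ (n := 3) h.X0 h.X1)
  have := mul_le_mul_of_nonneg_left (show (D.X ^ 3 + 3 * D.tl) * D.X ^ 3 ≤ 4 * D.E0 by
    nlinarith [h.X6_le, h.tl_le]) (pow_nonneg h.tau0 3)
  linarith

theorem y3_val : Bd false fun D => L90.cw D [aL, aL, aL] - -(D.lam3 * D.S3) :=
  Bd.val fun τ0 => ⟨(5 * 7 ^ 2) ^ 2 * (280 * cB6 ^ 9) * (4 * τ0 ^ 3), fun D h hW => by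
    have hb : 0 ≤ τ0 ^ 3 * (D.X ^ 3 + 3 * D.tl) * (7 * cB6 ^ 9 * (40 * D.X ^ 3)) := by
      have := h.tau0; have := h.tl0; have := h.X0; have := one_le_cB6; positivity
    have k : ∀ j ∈ Finset.range (D.J + 1),
        |(stp (-1) D.J D.B)^[2] (L51.Vv D 3) (.two j) (Sh.twoL j) [(Sh.twoL j, Sh.twoR j)] +
          8 * D.lam ^ 3 * C2 (fun _ => 1) D.B 0 (UL D) D.J j| ≤ (5 * 7 ^ 2) ^ 2 *
          (τ0 ^ 3 * (D.X ^ 3 + 3 * D.tl) * (7 * cB6 ^ 9 * (40 * D.X ^ 3))) := fun j hj => by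
      have h1 := stp_sub h.mono (L51.cut_B h).le (V := L51.Vv D 3) (N := 7) hb
        (fun t m E H hE hc => by
          have := frz h (eg_gd _)
            (fun d hd u => (gd_cd h).2.2 d hd (u.resolve_left id)) t m E H hE hc
          simp only [ite_self] at this
          exact this)
        2 _ (Sh.twoL j) _ (iv_two (Nat.lt_succ_iff.1 (Finset.mem_range.1 hj)) _) rfl
        (by rw [card_two]; norm_num)
      have h2 := val3 (w := fun _ => 1) (L := D.B) (h := 0) (i := D.J) (ε := -1) (UL_symm h)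
        (gd_cd h).1 (gd_cd h).1 j (Sh.twoL j) (.inl rfl)
      rw [show ∀ V, (stp (-1) D.J D.B)^[2] V = stp (-1) D.J D.B (stp (-1) D.J D.B V) from
        fun _ => rfl] at h1 ⊢
      rw [show ∀ V, (stp (-1) D.J D.B)^[2] V = stp (-1) D.J D.B (stp (-1) D.J D.B V) from
        fun _ => rfl, h2, ← lam_eq h] at h1
      convert h1 using 2
      · ring
      · norm_num
    rw [show [aL, aL, aL] = List.replicate (2 + 1) aL from rfl,
      L51.cw_rep_val h (Option.isSome_eq_false_iff.1 hW |> Option.isNone_iff_eq_none.1), CD.lam3,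
      CD.dd_val hW, S3_eq h, C3, sub_neg_eq_add, ← mul_assoc, Finset.mul_sum,
      ← Finset.sum_add_distrib]
    refine (Finset.abs_sum_le_sum_abs _ _).trans ((Finset.sum_le_sum fun j hj =>
      (?_ : _ ≤ D.dx j * _)).trans ((Finset.sum_mul _ _ _).symm.trans_le
        ((mul_le_of_le_one_left (mul_nonneg (by positivity : (0 : ℝ) ≤ (5 * 7 ^ 2) ^ 2) hb)
          ((h.sum_dx _).trans_le (h.x1.trans h.X1))).trans ?_)))
    · rw [mul_left_comm, ← mul_add, abs_mul, abs_of_nonneg (h.dx0 j), mul_comm _ (8 : ℝ)]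
      exact mul_le_mul_of_nonneg_left (k j hj) (h.dx0 j)
    · have := mul_le_mul_of_nonneg_left (bX_le h) (show 0 ≤ (5 * 7 ^ 2) ^ 2 * (280 * cB6 ^ 9) by
        have := one_le_cB6; positivity)
      linarith⟩

theorem y3_test : Bd true fun D => L90.cw D [aL, aL, aL] - -(D.lam3 * D.S3) :=
  Bd.mk' fun τ0 => ⟨((5 * 7 ^ 2) ^ 3 * (280 * cB6 ^ 9) + 48 * cB6 ^ 4 +
      48 * cB6 ^ 2 * cD bM 2 0) * (4 * τ0 ^ 3), fun D h hW => by
    have c1 := one_le_cB6
    have c2 := cD_nn bM_nn 2 0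
    have hX := h.X0
    have b0 : 0 ≤ τ0 ^ 3 * (D.X ^ 3 + 3 * D.tl) := by
      have := h.tau0; have := h.tl0; positivity
    have k : ∀ j ∈ D.up, |(stp (-1) D.J D.B)^[3] (L51.Vm D 3 j) .one () [] -
        24 * (Gm D j 2 0 * D.lam ^ 2) * C3 (fun _ => 1) D.B 0 (UL D) D.J| ≤
          ((5 * 7 ^ 2) ^ 3 * (280 * cB6 ^ 9) + 48 * cB6 ^ 4) *
            (τ0 ^ 3 * (D.X ^ 3 + 3 * D.tl) * D.X ^ 3) := fun j hj => by
      have h1 := stp_sub h.mono (L51.cut_B h).le (V := L51.Vm D 3 j) (N := 7) (by positivity)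
        (frz h (eg_Gm D j) fun d hd _ y => (Gm_facts h hj hd y).1) 3 _ _ _ (iv_one _) rfl le_rfl
      have h2 := test3 (h := 0) wt_one90 h.mono (L51.cut_B h).le (UL_symm h) (gd_cd h).1
        (Gm_odd h hj) c1 (gd_cd h).2.1 (fun d hd => (Gm_facts h hj hd 0).1.1) b0 (abs_T3_le h)
      rw [← lam_eq h] at h2
      have h3 : ex D.B D.J ^ 3 * (τ0 ^ 3 * (D.X ^ 3 + 3 * D.tl) * cB6 ^ 4) ≤
          D.X ^ 3 * (τ0 ^ 3 * (D.X ^ 3 + 3 * D.tl) * cB6 ^ 4) :=
        mul_le_mul_of_nonneg_right (pow_le_pow_left₀ (h.ex0 _) h.x1 3) (by positivity)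
      refine (abs_sub_le _ _ _).trans ((add_le_add h1 h2).trans ?_)
      push_cast
      linarith
    have h1 := D.abs_sum_om k
    rw [D.Iw_const, ← CD.wt_test hW] at h1
    have hl : |D.lam| ≤ cB6 := lam_eq h ▸ (gd_cd h).2.1 2 (by norm_num)
    have h2 : |24 * D.lam ^ 2 * C3 (fun _ => 1) D.B 0 (UL D) D.J *
        (D.dP 2 [] + ∑ j ∈ D.up, D.om j * Gm D j 2 0)| ≤ 24 * cB6 ^ 2 *
          (2 * D.X ^ 2 * (τ0 ^ 3 * (D.X ^ 3 + 3 * D.tl))) * (cD bM 2 0 * D.X * D.wt) := by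
      rw [abs_mul, abs_mul, abs_mul, abs_pow, abs_of_pos (by norm_num : (0 : ℝ) < 24)]
      have := abs_C3_le h
      have := dP_two h hW
      gcongr
    have e : L90.cw D [aL, aL, aL] - -(D.lam3 * D.S3) = ∑ j ∈ D.up, D.om j *
        ((stp (-1) D.J D.B)^[3] (L51.Vm D 3 j) .one () [] -
          24 * (Gm D j 2 0 * D.lam ^ 2) * C3 (fun _ => 1) D.B 0 (UL D) D.J) +
        24 * D.lam ^ 2 * C3 (fun _ => 1) D.B 0 (UL D) D.J *
          (D.dP 2 [] + ∑ j ∈ D.up, D.om j * Gm D j 2 0) := by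
      rw [show [aL, aL, aL] = List.replicate 3 aL from rfl, L51.cw_rep_test h hW, CD.lam3,
        CD.dd_test hW, S3_eq h, mul_add, Finset.mul_sum, add_left_comm, ← Finset.sum_add_distrib,
        sub_neg_eq_add, add_comm]
      exact ac (by ring) (Finset.sum_congr rfl fun j _ => by ring)
    have h3 := mul_le_mul_of_nonneg_left ((mul_le_mul_of_nonneg_left (bX_le h) D.wt0).trans
      ((mul_left_comm _ _ _).trans_le (mul_le_mul_of_nonneg_left h.wtE0_le
        (mul_nonneg (by norm_num : (0 : ℝ) ≤ 4) (pow_nonneg h.tau0 3)))))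
      (show 0 ≤ (5 * 7 ^ 2) ^ 3 * (280 * cB6 ^ 9) + 48 * cB6 ^ 4 + 48 * cB6 ^ 2 * cD bM 2 0 by
        positivity)
    rw [e]
    refine (abs_add_le _ _).trans ?_
    linarith⟩

end cd

end Crest.Agent.T156.Cas.Y20

namespace Crest.Agent.T156.Cas.C40

/-- **the leaf `Y3`** -/
theorem y3S : ∀ b, Y3S b := fun b => by
  have := (L90.red_a3 b).bd (g := fun D => -(D.lam3 * D.S3)) (by
    cases b
    exacts [Y20.y3_val, Y20.y3_test])
  simp only [sub_neg_eq_add] at this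
  exact this

end Crest.Agent.T156.Cas.C40

end
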