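import Crest.Agent.T156.CY4B_89
import Crest.Agent.T156.CLow_90

/-!
# Row 156, block C (helper89): the leaf `Y4S`
-/

namespace Crest.Agent.T156.Cas.C40

/-- **leaf `Y4S`**, both directions -/
theorem y4S (b : Bool) : Y4S b := Y4.y4S_of b (L90.red_a4 b)

end Crest.Agent.T156.Cas.C40
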