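import Crest.Agent.T156.CGl_31
import Crest.Agent.T156.CEx_23
import Crest.Agent.T156.CRem_23
import Crest.Agent.T156.CYh_14
import Crest.Agent.T156.CY2_44
import Crest.Agent.T156.CY3_20
import Crest.Agent.T156.CY4_89
import Crest.Agent.T156.CLb_15
import Crest.Agent.T156.CMxZ_84
import Crest.Agent.T156.CQ2F_75
import Crest.Agent.T156.C3_94
import Crest.Agent.T156.CAbF_22
import Crest.Agent.T156.CCrO_32
import Crest.Agent.T156.CCr4F_6
import Crest.Agent.T156.CCr5_54
import Crest.Agent.T156.CL3_76

/-!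
# Row 156, block C: the three value heads (helper54)
-/

set_option autoImplicit false

namespace Crest.Agent.T156.Cas.C40

theorem heads : HV ∧ HL ∧ HU :=
  glueV exS remS ⟨yhS _, y2S _, y3S _, y4S _, lbS _, mxS_false, q2S_false, c3F,
    abS_false, Ck32.crO _, cr4F, cr5 _⟩ l3S

/-- (val) -/
theorem hV : HV := heads.1

/-- (amp LOW) -/
theorem hL : HL := heads.2.1

/-- (amp UP) -/
theorem hU : HU := heads.2.2

end Crest.Agent.T156.Cas.C40
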