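import Crest.Agent.T156.CY3A_20
import Crest.Agent.T156.Eg_33

/-!
# Row 156 (helper20): parity on skeletons

Odd clusters come in pairs and cost the variance of the incoming field.
-/

set_option autoImplicit false
set_option linter.all false

noncomputable section

namespace Crest.Agent.T156.Cas.Y20

open MeasureTheory Real Set Filter Topology
open Crest.Agent.T157.E Crest.Agent.T157.Casc Crest.Agent.T157.SL
open Wt87 Leg51

section gen
variable {Ω : Type} [Fintype Ω] {w : Ω → ℝ}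

theorem card_split (s t : Sh) :
    Fintype.card (Sh.split s t).Lf = Fintype.card s.Lf + Fintype.card t.Lf :=
  Fintype.card_sum (α := s.Lf) (β := t.Lf)

/-- one small cluster -/
theorem abs_SK_one (hw : Wt w) {β : ℝ} (hβ : 1 ≤ β) {D : (Ω → ℝ) → ℝ} (hD : Eg D) :
    ∀ (t : Sh) (M : List (Lv Ω)) (i : ℕ), t.dep ≤ i → i ≤ M.length →
    ∀ (Ψ : t.Lf → (Ω → ℝ) → ℝ), (∀ a, Eg (Ψ a)) → (∀ a z, |Ψ a z| ≤ β) → ∀ a,
    (∀ z, |Ψ a z| ≤ D z) → ∀ z, |SK w t M i Ψ z| ≤ β ^ Fintype.card t.Lf * node w M i D z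
  | .one, M, i, _, _, Ψ, h, _, _, hd, z => by
      have h1 := One15.abs_node_le hw (h ()) hD hd M i z
      exact h1.trans (le_mul_of_one_le_left ((abs_nonneg _).trans h1) (one_le_pow₀ hβ))
  | .step _, _, 0, hd, _, _, _, _, _, _, _ => absurd hd (Nat.not_succ_le_zero _)
  | .step _, [], _ + 1, _, hi, _, _, _, _, _, _ => absurd hi (Nat.not_succ_le_zero _)
  | .step t, l :: M, i + 1, ht, hi, Ψ, h, hb, a, hd, z => by
      have h1 := abs_tE_le hw l M (eg_SK hw t M i Ψ h) ((hD.node hw M i).const_mul _)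
        (abs_SK_one hw hβ hD t M i (Nat.le_of_succ_le_succ ht) (Nat.le_of_succ_le_succ hi) Ψ h hb
          a hd) z
      rwa [tE_const_mul] at h1
  | .split s t, M, i, ht, hi, Ψ, h, hb, .inl a, hd, z => by
      have h1 := abs_SK_one hw hβ hD s M i ((le_max_left _ _).trans ht) hi _
        (fun a => h (.inl a)) (fun a => hb (.inl a)) a hd z
      have h3 := abs_SK_le hw hβ t M i _ (fun a => h (.inr a)) (fun a => hb (.inr a)) z
      rw [card_split, SK, abs_mul]
      exact (mul_le_mul h1 h3 (abs_nonneg _) ((abs_nonneg _).trans h1)).trans_eq (by ring)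
  | .split s t, M, i, ht, hi, Ψ, h, hb, .inr a, hd, z => by
      have h1 := abs_SK_one hw hβ hD t M i ((le_max_right _ _).trans ht) hi _
        (fun a => h (.inr a)) (fun a => hb (.inr a)) a hd z
      have h3 := abs_SK_le hw hβ s M i _ (fun a => h (.inl a)) (fun a => hb (.inl a)) z
      rw [card_split, SK, abs_mul]
      exact (mul_le_mul h3 h1 (abs_nonneg _) (by positivity)).trans_eq (by ring)

/-- two small clusters -/
theorem abs_SK_two (hw : Wt w) {β : ℝ} (hβ : 1 ≤ β) {D : (Ω → ℝ) → ℝ} (hD : Eg D) :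
    ∀ (t : Sh) (M : List (Lv Ω)) (i : ℕ), t.dep ≤ i → i ≤ M.length →
    ∀ (Ψ : t.Lf → (Ω → ℝ) → ℝ), (∀ a, Eg (Ψ a)) → (∀ a z, |Ψ a z| ≤ β) → ∀ a b, a ≠ b →
    (∀ z, |Ψ a z| ≤ D z) → (∀ z, |Ψ b z| ≤ D z) → ∀ z,
    |SK w t M i Ψ z| ≤ β ^ Fintype.card t.Lf * node w M i (fun z => D z ^ 2) z
  | .one, _, _, _, _, _, _, _, _, _, hab, _, _, _ => absurd rfl hab
  | .step _, _, 0, hd, _, _, _, _, _, _, _, _, _, _ => absurd hd (Nat.not_succ_le_zero _)
  | .step _, [], _ + 1, _, hi, _, _, _, _, _, _, _, _, _ => absurd hi (Nat.not_succ_le_zero _)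
  | .step t, l :: M, i + 1, ht, hi, Ψ, h, hb, a, b, hab, ha, hb', z => by
      have h1 := abs_tE_le hw l M (eg_SK hw t M i Ψ h) (((hD.pow 2).node hw M i).const_mul _)
        (abs_SK_two hw hβ hD t M i (Nat.le_of_succ_le_succ ht) (Nat.le_of_succ_le_succ hi) Ψ h hb
          a b hab ha hb') z
      rwa [tE_const_mul] at h1
  | .split s t, M, i, ht, hi, Ψ, h, hb, .inl a, .inl b, hab, ha, hb', z => by
      have h1 := abs_SK_two hw hβ hD s M i ((le_max_left _ _).trans ht) hi _
        (fun a => h (.inl a)) (fun a => hb (.inl a)) a b (fun e => hab (congrArg _ e)) ha hb' z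
      have h3 := abs_SK_le hw hβ t M i _ (fun a => h (.inr a)) (fun a => hb (.inr a)) z
      rw [card_split, SK, abs_mul]
      exact (mul_le_mul h1 h3 (abs_nonneg _) ((abs_nonneg _).trans h1)).trans_eq (by ring)
  | .split s t, M, i, ht, hi, Ψ, h, hb, .inr a, .inr b, hab, ha, hb', z => by
      have h1 := abs_SK_two hw hβ hD t M i ((le_max_right _ _).trans ht) hi _
        (fun a => h (.inr a)) (fun a => hb (.inr a)) a b (fun e => hab (congrArg _ e)) ha hb' z
      have h3 := abs_SK_le hw hβ s M i _ (fun a => h (.inl a)) (fun a => hb (.inl a)) z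
      rw [card_split, SK, abs_mul]
      exact (mul_le_mul h3 h1 (abs_nonneg _) (by positivity)).trans_eq (by ring)
  | .split s t, M, i, ht, hi, Ψ, h, hb, .inl a, .inr b, _, ha, hb', z => by
      have h1 := abs_SK_one hw hβ hD s M i ((le_max_left _ _).trans ht) hi _
        (fun a => h (.inl a)) (fun a => hb (.inl a)) a ha z
      have h2 := abs_SK_one hw hβ hD t M i ((le_max_right _ _).trans ht) hi _
        (fun a => h (.inr a)) (fun a => hb (.inr a)) b hb' z
      rw [card_split, SK, abs_mul]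
      refine (mul_le_mul h1 h2 (abs_nonneg _) ((abs_nonneg _).trans h1)).trans ?_
      refine le_trans (le_of_eq (by ring)) (mul_le_mul_of_nonneg_left
        (Eg33.sq_node hw hD M i z) (by positivity))
  | .split s t, M, i, ht, hi, Ψ, h, hb, .inr a, .inl b, _, ha, hb', z => by
      have h1 := abs_SK_one hw hβ hD s M i ((le_max_left _ _).trans ht) hi _
        (fun a => h (.inl a)) (fun a => hb (.inl a)) b hb' z
      have h2 := abs_SK_one hw hβ hD t M i ((le_max_right _ _).trans ht) hi _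
        (fun a => h (.inr a)) (fun a => hb (.inr a)) a ha z
      rw [card_split, SK, abs_mul]
      refine (mul_le_mul h1 h2 (abs_nonneg _) ((abs_nonneg _).trans h1)).trans ?_
      refine le_trans (le_of_eq (by ring)) (mul_le_mul_of_nonneg_left
        (Eg33.sq_node hw hD M i z) (by positivity))

end gen

/-- handshake -/
theorem sum_dgE {α : Type} [Fintype α] [DecidableEq α] : ∀ E : List (α × α),
    ∑ x, dgE E x = 2 * E.length
  | [] => by simp [dgE_nil]
  | (a, b) :: E => by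
      simp only [dgE_cons, Finset.sum_add_distrib, sum_dgE E, Finset.sum_ite_eq, Finset.mem_univ,
        if_true, List.length_cons]
      ring

theorem odd_pair {α : Type} [Fintype α] [DecidableEq α] (E : List (α × α)) {x : α}
    (h : Odd (dgE E x)) : ∃ y, x ≠ y ∧ Odd (dgE E y) := by
  by_contra hc
  push Not at hc
  have h1 : Even (∑ y ∈ Finset.univ.erase x, dgE E y) :=
    Finset.even_sum _ fun y hy => Nat.not_odd_iff_even.1 (hc y (Finset.ne_of_mem_erase hy).symm)
  have h2 := sum_dgE E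
  rw [← Finset.add_sum_erase _ _ (Finset.mem_univ x)] at h2
  exact Nat.not_even_iff_odd.2 (h.add_even h1) (h2 ▸ even_two_mul _)

theorem dgE_le {α : Type} [Fintype α] [DecidableEq α] (E : List (α × α)) (x : α) :
    dgE E x ≤ 2 * E.length :=
  (Finset.single_le_sum (f := dgE E) (fun _ _ => Nat.zero_le _) (Finset.mem_univ x)).trans_eq
    (sum_dgE E)

section site
open Crest.ProbabilityR.SpinGlassDynamics (spin)
open Crest.Agent.T157.Casc.C One15

variable {L : List (Lv Bool)} {ℓ : List (ℝ × ℝ)}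

/-- second moment of the site field -/
theorem node_xs_sq (H : List.Forall₂ (Rk1 spin) L ℓ) (hM : Mono 0 L) (j : ℕ) {σ : ℝ} (h0 : 0 ≤ σ)
    (h1 : σ ≤ 1) (hσ : R339.Var.TT (ℓ.take j) ≤ σ) :
    node (fun _ => 1) L j (fun z => xs z ^ 2) 0 ≤ 40 * σ := by
  refine le_of_forall_pos_le_add fun ε hε => ?_
  have hd : 0 < min 1 (ε / 40) := lt_min one_pos (by positivity)
  have h2 := node_pow H hM j 2 (σ := σ + min 1 (ε / 40)) (by linarith) (by linarith)
  simp only [sq_abs] at h2
  rw [sq_sqrt (by linarith)] at h2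
  have h3 : √(σ + min 1 (ε / 40)) ≤ 3 / 2 :=
    sqrt_le_iff.2 ⟨by norm_num, by linarith [min_le_left 1 (ε / 40)]⟩
  have h4 : exp (1 / 2 + √(σ + min 1 (ε / 40))) ≤ 10 := by
    refine (exp_le_exp.2 (show _ ≤ 1 + 1 by linarith)).trans ?_
    rw [exp_add]
    nlinarith [exp_one_lt_d9, exp_pos 1]
  have h5 := min_le_right 1 (ε / 40)
  refine h2.trans ?_
  have h6 : ((Nat.factorial 2 : ℕ) : ℝ) = 2 := by norm_num
  rw [h6]
  nlinarith [mul_le_mul_of_nonneg_right h4 (show 0 ≤ σ + min 1 (ε / 40) by linarith)]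

/-- **parity on a skeleton**: the cluster values are frozen at zero field, for any degrees -/
theorem SK_par (H : List.Forall₂ (Rk1 spin) L ℓ) (hM : Mono 0 L) {i : ℕ} (hi : i ≤ L.length)
    {σ : ℝ} (h0 : 0 ≤ σ) (h1 : σ ≤ 1) (hσ : R339.Var.TT (ℓ.take i) ≤ σ) {t : Sh} (ht : t.dep ≤ i)
    (E : Ed t) {β : ℝ} (hβ : 1 ≤ β) {g : t.Lf → ℝ → ℝ} (he : ∀ a, Eg fun z => g a (xs z))
    (hb : ∀ a y, |g a y| ≤ β) (ho : ∀ a, Odd (dgE E a) → ∀ y, |g a y| ≤ β * |y|)
    (hv : ∀ a, Even (dgE E a) → ∀ y, |g a y - g a 0| ≤ β * y ^ 2) :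
    |SK (fun _ => 1) t L i (fun a z => g a (xs z)) 0 - ∏ a, g a 0| ≤
      Fintype.card t.Lf * β ^ (Fintype.card t.Lf + 2) * (40 * σ) := by
  have hx := node_xs_sq H hM i h0 h1 hσ
  have hc : (1 : ℝ) ≤ Fintype.card t.Lf := Nat.one_le_cast.2 (Fintype.card_pos_iff.2 ⟨t.fst⟩)
  by_cases h : ∃ a, Odd (dgE E a)
  · obtain ⟨a, ha⟩ := h
    obtain ⟨b, hab, hb'⟩ := odd_pair E ha
    have h2 := abs_SK_two w1 hβ (lg_xs.eg.abs.const_mul β) t L i ht hi _ he
      (fun a z => hb a _) a b hab (fun z => ho a ha _) (fun z => ho b hb' _) 0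
    have h3 : g a 0 = 0 := by simpa using ho a ha 0
    rw [Finset.prod_eq_zero (Finset.mem_univ a) h3, sub_zero]
    simp only [mul_pow, sq_abs, node_const_mul] at h2
    refine h2.trans ?_
    rw [← mul_assoc, ← pow_add]
    exact mul_le_mul (le_mul_of_one_le_left (by positivity) hc) hx
      (node_nonneg _ (fun z => sq_nonneg _) _ _ _) (by positivity)
  · push Not at h
    have h2 := abs_SK_sub w1 hβ ((lg_xs.eg.pow 2).const_mul β) t L i ht hi _ (fun a => g a 0) he
      (fun a z => hb a _) (fun a => hb a 0)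
      (fun a z => hv a (Nat.not_odd_iff_even.1 (h a)) _) 0
    simp only [node_const_mul] at h2
    refine h2.trans ?_
    rw [← mul_assoc, mul_assoc _ _ β, ← pow_succ]
    exact mul_le_mul (mul_le_mul_of_nonneg_left (pow_le_pow_right₀ hβ (by omega)) (by positivity))
      hx (node_nonneg _ (fun z => sq_nonneg _) _ _ _) (by positivity)

end site

end Crest.Agent.T156.Cas.Y20

end
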