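import Crest.Agent.T156.LegB_51
import Crest.Agent.T156.Mul_55

/-!
# Row 156 (helper51): words of low letters in cluster form, edge by edge

`CW` is the cluster form of a word: iterated graft sums over the skeleton, then the signed sums
`LE` over the positions of the ends of the edges inside their clusters.
-/

set_option autoImplicit false
set_option linter.unusedSectionVars false
set_option linter.unusedVariables false

noncomputable section

namespace Crest.Agent.T156.Cas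

open MeasureTheory Real Set Filter Topology
open Crest.Agent.T157.E Crest.Agent.T157.Casc Crest.Agent.T157.SL
open Wt87 (shr_emb shr_nw shr_nw' shr_self shr_comm shr_le shr_congr card_graft)
open Leg51

namespace Low51

variable {Ω S Θ ι ι' : Type} {ε : ℝ} {i : ℕ} {M : List (Lv Θ)} {t s : Sh}

/-- an end stays at its mark, is a leg in the cluster, or is grafted at the depth `k` -/
inductive Md
  | fix
  | leg
  | gr (k : ℕ)

/-- grafts are above the cut -/
def Md.Hi (i n : ℕ) : Md → Prop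
  | .gr k => i < k ∧ k ≤ n
  | _ => True

/-- the signed sum over the positions of one end -/
def lgm (ε : ℝ) (i : ℕ) (M : List (Lv Θ)) : Md → (s : Sh) → s.Lf →
    (∀ s' : Sh, (s.Lf → s'.Lf) → s'.Lf → ℝ) → ℝ
  | .fix, s, a, Ψ => Ψ s id a
  | .leg, s, a, Ψ => lg ε i M s a Ψ
  | .gr k, s, a, Ψ => Ψ (s.graft a k) (s.emb a k) (s.nw a k)

/-- edges -/
abbrev EL (s : Sh) : Type := List (s.Lf × s.Lf)
/-- functionals of edges -/
abbrev EF : Type := ∀ s : Sh, EL s → ℝ
/-- functionals of marks and edges -/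
abbrev PF (ι : Type) : Type := ∀ s : Sh, (ι → s.Lf) → EL s → ℝ

/-- edges in a larger shape -/
def mv {s s' : Sh} (e : s.Lf → s'.Lf) (cs : EL s) : EL s' := cs.map fun c => (e c.1, e c.2)

theorem mv_mv {s s' s'' : Sh} (e' : s'.Lf → s''.Lf) (e : s.Lf → s'.Lf) (cs : EL s) :
    mv e' (mv e cs) = mv (fun x => e' (e x)) cs := List.map_map

theorem mv_id (cs : EL s) : mv id cs = cs := List.map_id' cs

theorem mv_id' (cs : EL s) : mv (fun x => x) cs = cs := List.map_id' cs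

/-- forget the marks -/
def cs' (Φ : EF) : PF ι := fun s _ cs => Φ s cs

/-- a new mark at the position of an end -/
def Lm (ε : ℝ) (i : ℕ) (M : List (Lv Θ)) (o : Md) (a : ι) (Ψ : PF (Option ι)) : PF ι :=
  fun s e cs => lgm ε i M o s (e a) fun s' e' c =>
    Ψ s' (fun x => x.elim c fun y => e' (e y)) (mv e' cs)

/-- an edge between the clusters of two marks -/
structure Ed (ι : Type) where
  p : ι
  q : ι
  op : Md
  oq : Md

/-- renaming -/
def Ed.map (φ : ι → ι') (d : Ed ι) : Ed ι' := ⟨φ d.p, φ d.q, d.op, d.oq⟩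

/-- both ends above the cut -/
def Ed.Hi (i n : ℕ) (d : Ed ι) : Prop := d.op.Hi i n ∧ d.oq.Hi i n

/-- place one edge -/
def Eg (ε : ℝ) (i : ℕ) (M : List (Lv Θ)) (d : Ed ι) (Ψ : PF ι) : PF ι := fun s e cs =>
  lgm ε i M d.oq s (e d.q) fun s1 e1 q => lgm ε i M d.op s1 (e1 (e d.p)) fun s2 e2 p =>
    Ψ s2 (fun x => e2 (e1 (e x))) (mv (fun x => e2 (e1 x)) cs ++ [(p, e2 q)])

/-- **place the edges `E`** -/
def LE (ε : ℝ) (i : ℕ) (M : List (Lv Θ)) (E : List (Ed ι)) (Ψ : PF ι) : PF ι :=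
  E.foldr (Eg ε i M) Ψ

theorem LE_cons (d : Ed ι) (E : List (Ed ι)) (Ψ : PF ι) :
    LE ε i M (d :: E) Ψ = Eg ε i M d (LE ε i M E Ψ) := rfl

theorem LE_append (E E' : List (Ed ι)) (Ψ : PF ι) :
    LE ε i M (E ++ E') Ψ = LE ε i M E (LE ε i M E' Ψ) := List.foldr_append

theorem lgm_add (o : Md) (s : Sh) (a : s.Lf) (Ψ Ψ' : ∀ s' : Sh, (s.Lf → s'.Lf) → s'.Lf → ℝ) :
    lgm ε i M o s a (fun s' e c => Ψ s' e c + Ψ' s' e c) = lgm ε i M o s a Ψ + lgm ε i M o s a Ψ' := by
  cases o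
  · rfl
  · simp only [lgm, lg, mul_add, Finset.sum_add_distrib]; ring
  · rfl

theorem lgm_mul (o : Md) (s : Sh) (a : s.Lf) (r : ℝ) (Ψ : ∀ s' : Sh, (s.Lf → s'.Lf) → s'.Lf → ℝ) :
    lgm ε i M o s a (fun s' e c => r * Ψ s' e c) = r * lgm ε i M o s a Ψ := by
  cases o
  · rfl
  · exact lg_const_mul M s a r Ψ
  · rfl

theorem LE_add (Ψ Ψ' : PF ι) : ∀ E : List (Ed ι),
    LE ε i M E (fun s e F => Ψ s e F + Ψ' s e F) =
      fun s e F => LE ε i M E Ψ s e F + LE ε i M E Ψ' s e F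
  | [] => rfl
  | d :: E => by
      funext s e F
      simp only [LE_cons, LE_add Ψ Ψ' E, Eg, lgm_add]

theorem LE_mul (c : ℝ) (Ψ : PF ι) : ∀ E : List (Ed ι),
    LE ε i M E (fun s e F => c * Ψ s e F) = fun s e F => c * LE ε i M E Ψ s e F
  | [] => rfl
  | d :: E => by
      funext s e F
      simp only [LE_cons, LE_mul c Ψ E, Eg, lgm_mul]

theorem LE_sum {α : Type*} (A : Finset α) (Ψ : α → PF ι) (E : List (Ed ι)) :
    LE ε i M E (fun s e F => ∑ k ∈ A, Ψ k s e F) = fun s e F => ∑ k ∈ A, LE ε i M E (Ψ k) s e F := by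
  classical
  induction A using Finset.induction_on with
  | empty => simpa using LE_mul (ε := ε) (i := i) (M := M) 0 (fun _ _ _ => 0) E
  | insert a A ha ih => simp only [Finset.sum_insert ha, LE_add, ih]

/-- the positions reached from the mark `a` -/
inductive Rc (i n : ℕ) (s : Sh) (a : s.Lf) : Md → (s' : Sh) → (s.Lf → s'.Lf) → s'.Lf → Prop
  | fix : Rc i n s a .fix s id a
  | old {b : s.Lf} : b ∈ cls i s a → Rc i n s a .leg s id b
  | new {b : s.Lf} {k : ℕ} : b ∈ cls i s a → i < k → k ≤ n →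
      Rc i n s a .leg (s.graft b k) (s.emb b k) (s.nw b k)
  | gr {k : ℕ} : i < k → k ≤ n → Rc i n s a (.gr k) (s.graft a k) (s.emb a k) (s.nw a k)

theorem lgm_congr {o : Md} (ho : o.Hi i M.length) (s : Sh) (a : s.Lf)
    {Ψ Ψ' : ∀ s' : Sh, (s.Lf → s'.Lf) → s'.Lf → ℝ}
    (h : ∀ s' e c, Rc i M.length s a o s' e c → Ψ s' e c = Ψ' s' e c) :
    lgm ε i M o s a Ψ = lgm ε i M o s a Ψ' := by
  cases o
  · exact h _ _ _ .fix
  · exact ac (Finset.sum_congr rfl fun _ hb => h _ _ _ (.old hb)) (mc (Finset.sum_congr rfl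
      fun q hq => mc (h _ _ _ (.new (mem_cls.2 (mem_pos.1 hq).1) (mem_pos.1 hq).2.1
        (mem_pos.1 hq).2.2))))
  · exact h _ _ _ (.gr ho.1 ho.2)

theorem Rc.sk {a : s.Lf} {o : Md} {s' : Sh} {e' : s.Lf → s'.Lf} {c : s'.Lf}
    (h : Rc i M.length s a o s' e' c) {e : t.Lf → s.Lf} (H : Sk i M t s e) :
    Sk i M t s' fun x => e' (e x) := by
  cases h with
  | fix => exact H
  | old => exact H
  | new _ h1 h2 => exact H.graft _ h1 h2
  | gr h1 h2 => exact H.graft _ h1 h2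

theorem LE_congr {Ψ Ψ' : PF t.Lf} (h : ∀ s e cs, Sk i M t s e → Ψ s e cs = Ψ' s e cs) :
    ∀ (E : List (Ed t.Lf)), (∀ d ∈ E, d.Hi i M.length) → ∀ (s : Sh) (e : t.Lf → s.Lf) (cs : EL s),
    Sk i M t s e → LE ε i M E Ψ s e cs = LE ε i M E Ψ' s e cs
  | [], _, s, e, cs, H => h s e cs H
  | d :: E, hE, s, e, _, H => lgm_congr (hE d List.mem_cons_self).2 s _ fun _ _ _ h1 =>
      lgm_congr (hE d List.mem_cons_self).1 _ _ fun _ _ _ h2 =>
        LE_congr h E (fun d hd => hE d (List.mem_cons_of_mem _ hd)) _ _ _ (h2.sk (h1.sk H))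

/-- marks can be renamed -/
theorem LE_map (φ : ι → ι') (Φ : EF) : ∀ (E : List (Ed ι)) (s : Sh) (e : ι' → s.Lf) (cs : EL s),
    LE ε i M (E.map (Ed.map φ)) (cs' Φ) s e cs = LE ε i M E (cs' Φ) s (fun x => e (φ x)) cs
  | [], _, _, _ => rfl
  | d :: E, s, e, cs => congrArg (lgm ε i M d.oq s _) (funext fun _ => funext fun _ =>
      funext fun _ => congrArg (lgm ε i M d.op _ _) (funext fun _ => funext fun _ =>
        funext fun _ => LE_map φ Φ E _ _ _))

/-- an end above the cut and a new cluster commute -/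
theorem lgm_comm (hi : i ≤ M.length) {o : Md} (ho : o.Hi i M.length) (s : Sh) (a b : s.Lf) {j : ℕ}
    (hj : j ≤ i) (Φ : Q s → ℝ) :
    lgm ε i M o s b (fun s1 e1 c => Φ ⟨s1.graft (e1 a) j, fun x => s1.emb (e1 a) j (e1 x),
        s1.nw (e1 a) j, s1.emb (e1 a) j c⟩) =
      lgm ε i M o (s.graft a j) (s.emb a j b) fun s' e' c =>
        Φ ⟨s', fun x => e' (s.emb a j x), e' (s.nw a j), c⟩ := by
  cases o
  · rfl
  · refine Eq.trans ?_ (lg_graft ε M s a b (hj.trans hi)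
      (i := i) (by have := shr_le s b a (min j (i + 1)); omega) fun s' e' c =>
        Φ ⟨s', fun x => e' (s.emb a j x), e' (s.nw a j), c⟩).symm
    exact ac rfl (mc (Finset.sum_congr rfl fun p hp => mc
      (congrArg Φ (QA_eq s a j p.1 p.2 (hj.trans_lt (mem_pos.1 hp).2.1)))))
  · exact congrArg Φ (QA_eq s a j b _ (hj.trans_lt ho.1))

theorem Eg_pull (hi : i ≤ M.length) {d : Ed ι} (hd : d.Hi i M.length) (a : ι) {j : ℕ} (hj : j ≤ i)
    (Ψ : PF (Option ι)) : Eg ε i M d (Lm ε i M (.gr j) a Ψ) =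
      Lm ε i M (.gr j) a (Eg ε i M (d.map some) Ψ) := by
  funext s e cs
  have h1 := lgm_comm (ε := ε) hi hd.2 s (e a) (e d.q) hj fun τ =>
    lgm ε i M d.op τ.sh (τ.e (e d.p)) fun s2 e2 p => Ψ s2
      (fun x => x.elim (e2 τ.p) fun y => e2 (τ.e (e y))) (mv (fun x => e2 (τ.e x)) cs ++ [(p, e2 τ.q)])
  refine Eq.trans ?_ (h1.trans ?_)
  · refine congrArg (lgm ε i M d.oq s _) (funext fun s1 => funext fun e1 => funext fun q => ?_)
    have h2 := lgm_comm (ε := ε) hi hd.1 s1 (e1 (e a)) (e1 (e d.p)) hj fun τ => Ψ τ.sh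
      (fun x => x.elim τ.p fun y => τ.e (e1 (e y))) (mv (fun x => τ.e (e1 x)) cs ++ [(τ.q, τ.e q)])
    refine Eq.trans (congrArg (lgm ε i M d.op s1 _) (funext fun s2 => funext fun e2 =>
      funext fun p => ?_)) h2
    exact congrArg (Ψ _ _) (List.map_append.trans (congrArg (· ++ _) (mv_mv _ _ _)))
  · refine congrArg (lgm ε i M d.oq _ _) (funext fun s1 => funext fun e1 => funext fun q =>
      congrArg (lgm ε i M d.op _ _) (funext fun s2 => funext fun e2 => funext fun p => ?_))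
    exact congrArg₂ (Ψ s2) (funext fun x => by cases x <;> rfl)
      (congrArg (· ++ _) (mv_mv (fun x => e2 (e1 x)) (s.emb (e a) j) cs).symm)

theorem LE_pull (hi : i ≤ M.length) (a : ι) {j : ℕ} (hj : j ≤ i) (Ψ : PF (Option ι)) :
    ∀ E : List (Ed ι), (∀ d ∈ E, d.Hi i M.length) → LE ε i M E (Lm ε i M (.gr j) a Ψ) =
      Lm ε i M (.gr j) a (LE ε i M (E.map (Ed.map some)) Ψ)
  | [], _ => rfl
  | d :: E, hE => by
      rw [LE_cons, LE_pull hi a hj Ψ E fun d hd => hE d (List.mem_cons_of_mem _ hd),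
        Eg_pull hi (hE d List.mem_cons_self) a hj]
      rfl

/-- old cluster: a leg; new cluster: its leaf -/
def md (b : Bool) : Md := if b then .leg else .fix

/-- the edges after one more letter -/
def nx (τ : GT t) (op oq : Bool) (E : List (Ed t.Lf)) : List (Ed τ.sh.Lf) :=
  E.map (Ed.map τ.e) ++ [⟨τ.p, τ.q, md op, md oq⟩]

theorem hi_map {n : ℕ} {E : List (Ed ι)} (hE : ∀ d ∈ E, d.Hi i n) (φ : ι → ι') :
    ∀ d ∈ E.map (Ed.map φ), d.Hi i n := fun d hd => by
  obtain ⟨d, h, rfl⟩ := List.mem_map.1 hd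
  exact hE d h

theorem md_hi (n : ℕ) : ∀ b, (md b).Hi i n
  | true => trivial
  | false => trivial

theorem hi_nx {n : ℕ} {E : List (Ed t.Lf)} (hE : ∀ d ∈ E, d.Hi i n) (τ : GT t) (op oq : Bool) :
    ∀ d ∈ nx τ op oq E, d.Hi i n := fun d hd => (List.mem_append.1 hd).elim (hi_map hE _ d)
  fun h => by rw [List.mem_singleton.1 h]; exact ⟨md_hi n _, md_hi n _⟩

/-- one letter with the coefficient `c` -/
def St (ε : ℝ) (M : List (Lv Θ)) (c : ℕ → ℝ) (Φ : EF) : EF := fun s cs =>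
  sg ε M s fun τ => c τ.j * Φ τ.sh (mv τ.e cs ++ [(τ.p, τ.q)])

theorem map_map (φ : ι → ι') {κ : Type} (ψ : ι' → κ) (E : List (Ed ι)) :
    (E.map (Ed.map φ)).map (Ed.map ψ) = E.map (Ed.map fun x => ψ (φ x)) := List.map_map

/-- **step rule** -/
theorem LE_step (hs : Sep i t) (hi : i < M.length) (hε : ε * ε = 1) {c : ℕ → ℝ}
    (hc : ∀ j, i < j → c j = 0) (Φ : EF) {E : List (Ed t.Lf)} (hE : ∀ d ∈ E, d.Hi i M.length) :
    LE ε i M E (cs' (St ε M c Φ)) t id [] = lsg ε i M t fun τ op oq =>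
      c τ.j * LE ε i M (nx τ op oq E) (cs' Φ) τ.sh id [] := by
  have rg : ∀ {j}, j ∈ Finset.range (i + 1) → j ≤ i := fun h =>
    Nat.lt_succ_iff.1 (Finset.mem_range.1 h)
  rw [LE_congr (Ψ' := fun s e F => ∑ a, ∑ b ∈ Finset.univ.erase a, c (t.shr a b M.length) *
      Eg ε i M ⟨a, b, .leg, .leg⟩ (cs' Φ) s e F +
    ε * ∑ a, ∑ j ∈ Finset.range (i + 1), cw t M a j *
      (∑ b, c (t.shr b a j) * Lm ε i M (.gr j) a
          (Eg ε i M ⟨some (b : t.Lf), none, .leg, .fix⟩ (cs' Φ)) s e F +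
        ∑ b, c (t.shr a b j) * Lm ε i M (.gr j) a
          (Eg ε i M ⟨none, some (b : t.Lf), .fix, .leg⟩ (cs' Φ)) s e F) +
    ∑ a, ∑ j ∈ Finset.range (i + 1), cw t M a j *
      (∑ b, ∑ k ∈ Finset.range (i + 1), cw t M b k * (c (t.shr a b (min j k)) *
          Lm ε i M (.gr k) b (Lm ε i M (.gr j) (some (a : t.Lf))
            (Eg ε i M ⟨none, some none, .fix, .fix⟩ (cs' Φ))) s e F) +
        ∑ r ∈ Finset.range (i - j + 1), dm (M.drop j) 0 r * (c (r + j) *
          Lm ε i M (.gr j) a (Lm ε i M (.gr (r + j)) none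
            (Eg ε i M ⟨some none, none, .fix, .fix⟩ (cs' Φ))) s e F))) ?_ E hE t id []
      (Sk.refl i M t)]
  · simp only [LE_add, LE_mul, LE_sum, lsg]
    refine ac (ac ?_ (mc ?_)) ?_
    · refine Finset.sum_congr rfl fun a _ => Finset.sum_congr rfl fun b _ => mc ?_
      refine Eq.trans ?_ (congrArg (fun W' => LE ε i M W' (cs' Φ) t id [])
        (congrArg (· ++ [(⟨a, b, .leg, .leg⟩ : Ed t.Lf)]) (List.map_id' E)).symm)
      rw [LE_append]
      rfl
    · refine Finset.sum_congr rfl fun a _ => Finset.sum_congr rfl fun j hj => mc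
        (ac (Finset.sum_congr rfl fun b _ => mc ?_)
          (Finset.sum_congr rfl fun b _ => mc ?_))
      · rw [LE_pull hi.le a (rg hj) _ E hE]
        have h1 := LE_map (ε := ε) (i := i) (M := M)
          (fun o : Option t.Lf => o.elim (t.nw a j) fun x => t.emb a j x) Φ
          (E.map (Ed.map some) ++ [⟨some b, none, .leg, .fix⟩]) (t.graft a j) id []
        rw [LE_append, List.map_append, map_map] at h1
        exact h1.symm
      · rw [LE_pull hi.le a (rg hj) _ E hE]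
        have h1 := LE_map (ε := ε) (i := i) (M := M)
          (fun o : Option t.Lf => o.elim (t.nw a j) fun x => t.emb a j x) Φ
          (E.map (Ed.map some) ++ [⟨none, some b, .fix, .leg⟩]) (t.graft a j) id []
        rw [LE_append, List.map_append, map_map] at h1
        exact h1.symm
    · refine Finset.sum_congr rfl fun a _ => Finset.sum_congr rfl fun j hj => mc
        (ac (Finset.sum_congr rfl fun b _ => Finset.sum_congr rfl fun k hk =>
          mc (mc ?_))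
          (Finset.sum_congr rfl fun r hr => mc (mc ?_)))
      · rw [LE_pull hi.le b (rg hk) _ E hE, LE_pull hi.le _ (rg hj) _ _ (hi_map hE _)]
        have h1 := LE_map (ε := ε) (i := i) (M := M)
          (fun o : Option (Option t.Lf) => o.elim (GT.g2 t a j b k).p fun o =>
            (t.graft b k).emb (t.emb b k a) j (o.elim (t.nw b k) fun x => t.emb b k x)) Φ
          ((E.map (Ed.map some)).map (Ed.map some) ++ [⟨none, some none, .fix, .fix⟩])
          (GT.g2 t a j b k).sh id []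
        rw [LE_append, List.map_append, map_map, map_map] at h1
        exact h1.symm
      · have hr' : r + j ≤ i := by have := rg hj; have := Finset.mem_range.1 hr; omega
        rw [LE_pull hi.le a (rg hj) _ E hE, LE_pull hi.le _ hr' _ _ (hi_map hE _)]
        have h1 := LE_map (ε := ε) (i := i) (M := M)
          (fun o : Option (Option t.Lf) => o.elim (GT.g3 t a j r).q fun o =>
            (t.graft a j).emb (t.nw a j) (r + j) (o.elim (t.nw a j) fun x => t.emb a j x)) Φ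
          ((E.map (Ed.map some)).map (Ed.map some) ++ [⟨some none, none, .fix, .fix⟩])
          (GT.g3 t a j r).sh id []
        rw [LE_append, List.map_append, map_map, map_map] at h1
        exact h1.symm
  · intro s e cs H
    refine (sg_low H hs hi hε hc fun τ => Φ τ.sh (mv τ.e cs ++ [(τ.p, τ.q)])).trans ?_
    simp only [Lm, Eg, lgm, cs', mv_mv, QA, QC, Option.elim, id]
    rfl

/-- **the cluster form of a word** with the coefficients `c` -/
def CW (ε : ℝ) (i : ℕ) (M : List (Lv Θ)) (Φ : EF) : List (ℕ → ℝ) → (t : Sh) → List (Ed t.Lf) → ℝ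
  | [], t, E => LE ε i M E (cs' Φ) t id []
  | c :: C, t, E => lsg ε i M t fun τ op oq => c τ.j * CW ε i M Φ C τ.sh (nx τ op oq E)

theorem LE_St (hi : i < M.length) (hε : ε * ε = 1) (Φ : EF) : ∀ (C : List (ℕ → ℝ)),
    (∀ c ∈ C, ∀ j, i < j → c j = 0) → ∀ (t : Sh), Sep i t → ∀ E : List (Ed t.Lf),
    (∀ d ∈ E, d.Hi i M.length) →
    LE ε i M E (cs' (C.foldr (St ε M) Φ)) t id [] = CW ε i M Φ C t E
  | [], _, _, _, _, _ => rfl
  | c :: C, h, t, hs, E, hE => by
      rw [List.foldr_cons, LE_step hs hi hε (h c List.mem_cons_self) _ hE, CW]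
      exact lsg_congr fun τ op oq H => mc (LE_St hi hε Φ C
        (fun c hc => h c (List.mem_cons_of_mem _ hc)) _ (H.sep hs) _ (hi_nx hE τ op oq))

/-! ### the link with the words of `Mul_55` -/

/-- the product of the kernels along the edges; the kernels see the level of the split -/
def prE (n : ℕ) (R : List (ℕ → Ω → Ω → ℝ)) {s : Sh} (cs : EL s) : (s.Lf → Ω) → ℝ := fun x =>
  (List.zipWith (fun K (c : s.Lf × s.Lf) => K (s.shr c.1 c.2 n) (x c.1) (x c.2)) R cs).prod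

theorem prE_nil (n : ℕ) (R : List (ℕ → Ω → Ω → ℝ)) : prE n R ([] : EL s) = fun _ => 1 := by
  funext x; simp [prE]

theorem prE_cons (n : ℕ) (K : ℕ → Ω → Ω → ℝ) (R : List (ℕ → Ω → Ω → ℝ)) (c : s.Lf × s.Lf)
    (cs : EL s) (x : s.Lf → Ω) :
    prE n (K :: R) (c :: cs) x = K (s.shr c.1 c.2 n) (x c.1) (x c.2) * prE n R cs x := by
  simp [prE]

theorem prE_mv {n : ℕ} {s' : Sh} {e : s.Lf → s'.Lf} (he : ∀ a b, s'.shr (e a) (e b) n = s.shr a b n)
    (x : s'.Lf → Ω) : ∀ (R : List (ℕ → Ω → Ω → ℝ)) (cs : EL s),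
    prE n R (mv e cs) x = prE n R cs fun a => x (e a)
  | [], _ => by simp [prE]
  | _ :: _, [] => by simp [prE, mv]
  | K :: R, c :: cs => by
      rw [prE_cons, ← prE_mv he x R cs, ← he]
      exact prE_cons n K R _ _ x

theorem prE_snoc (n : ℕ) (K : ℕ → Ω → Ω → ℝ) (R' : List (ℕ → Ω → Ω → ℝ)) (c : s.Lf × s.Lf)
    (x : s.Lf → Ω) : ∀ (R : List (ℕ → Ω → Ω → ℝ)) (cs : EL s), R.length = cs.length →
    prE n (R ++ K :: R') (cs ++ [c]) x =
      prE n (R ++ K :: R') cs x * K (s.shr c.1 c.2 n) (x c.1) (x c.2)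
  | [], [], _ => by simp [prE]
  | _ :: R, _ :: cs, h => by
      rw [List.cons_append, List.cons_append, prE_cons, prE_cons,
        prE_snoc n K R' c x R cs (Nat.succ.inj h), mul_assoc]

theorem ev_prE {n : ℕ} {τ : GT s} (H : τ.Mem s n) (K : ℕ → Ω → Ω → ℝ) (R R' : List (ℕ → Ω → Ω → ℝ))
    {cs : EL s} (h : R.length = cs.length) :
    τ.ev K (prE n (R ++ K :: R') cs) = prE n (R ++ K :: R') (mv τ.e cs ++ [(τ.p, τ.q)]) := by
  funext x
  rw [prE_snoc n K R' _ x R (mv τ.e cs) (h.trans (List.length_map _).symm),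
    prE_mv fun a b => H.shr_e a b n, H.shr]
  rfl

/-- the indicator of the low levels -/
def lo (i : ℕ) : ℕ → ℝ := fun j => if j ≤ i then 1 else 0

theorem wB_zero {B : (s : Sh) → ((s.Lf → Ω) → ℝ) → ((s.Lf → S) → ℝ) → ℝ}
    (hB : ∀ s ξ, B s (fun _ => 0) ξ = 0) : ∀ (V : List ((ℕ → Ω → Ω → ℝ) × (ℕ → S → S → ℝ)))
    (s : Sh) (ξ : (s.Lf → S) → ℝ), Mul55.wB ε M B V s (fun _ => 0) ξ = 0
  | [], s, ξ => hB s ξ
  | p :: V, s, ξ => (congrArg (sg ε M s) (funext fun τ => (congrArg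
      (fun G => Mul55.wB ε M B V τ.sh G (τ.ev p.2 ξ)) (funext fun x => zero_mul _)).trans
        (wB_zero hB V _ _))).trans (sg_zero ε M s)

/-- the value of a tree with edges: bulk kernels `R`, site kernels `Z` -/
def PhiB (n : ℕ) (B : (s : Sh) → ((s.Lf → Ω) → ℝ) → ((s.Lf → S) → ℝ) → ℝ)
    (R : List (ℕ → Ω → Ω → ℝ)) (Z : List (ℕ → S → S → ℝ)) : EF :=
  fun s cs => B s (prE n R cs) (prE n Z cs)

theorem wB_St {B : (s : Sh) → ((s.Lf → Ω) → ℝ) → ((s.Lf → S) → ℝ) → ℝ}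
    (hB : ∀ s ξ, B s (fun _ => 0) ξ = 0) : ∀ (V : List ((ℕ → Ω → Ω → ℝ) × (ℕ → S → S → ℝ))),
    (∀ p ∈ V, ∀ j, i < j → p.1 j = 0) → ∀ (R : List (ℕ → Ω → Ω → ℝ)) (Z : List (ℕ → S → S → ℝ))
    (s : Sh) (cs : EL s), R.length = cs.length → Z.length = cs.length →
    Mul55.wB ε M B V s (prE M.length (R ++ V.map Prod.fst) cs) (prE M.length (Z ++ V.map Prod.snd) cs) =
      (List.replicate V.length (lo i)).foldr (St ε M)
        (PhiB M.length B (R ++ V.map Prod.fst) (Z ++ V.map Prod.snd)) s cs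
  | [], _, _, _, _, _, _, _ => rfl
  | p :: V, h, R, Z, s, cs, hR, hZ => by
      rw [List.length_cons, List.replicate_succ, List.foldr_cons, Mul55.wB, St]
      refine sg_congr ε M s fun τ H => ?_
      have ih := wB_St hB V (fun p hp => h p (List.mem_cons_of_mem _ hp)) (R ++ [p.1]) (Z ++ [p.2])
        τ.sh (mv τ.e cs ++ [(τ.p, τ.q)]) (by simp [mv, hR]) (by simp [mv, hZ])
      rw [List.append_assoc, List.append_assoc] at ih
      by_cases hj : τ.j ≤ i
      · rw [List.map_cons, List.map_cons, ev_prE H _ _ _ hR, ev_prE H _ _ _ hZ, lo, if_pos hj, one_mul]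
        exact ih
      · rw [lo, if_neg hj, zero_mul]
        refine Eq.trans (congrArg (fun G => Mul55.wB ε M B V τ.sh G _) (funext fun x => ?_))
          (wB_zero hB V _ _)
        rw [GT.ev, h p List.mem_cons_self _ (not_le.1 hj)]
        exact mul_zero _

/-- the first pair of the value: two clusters split at `j ≤ i` -/
def e2 (j : ℕ) : Ed (Sh.two j).Lf := ⟨Sh.twoL j, Sh.twoR j, .fix, .fix⟩

/-- the marked pair: split at `k > i` inside one cluster -/
def e1 (k : ℕ) : Ed Sh.one.Lf := ⟨(), (), .fix, .gr k⟩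

theorem prE_two {n j : ℕ} (hj : j ≤ n) (K : ℕ → Ω → Ω → ℝ) (R : List (ℕ → Ω → Ω → ℝ)) :
    prE n (K :: R) ([(Sh.twoL j, Sh.twoR j)] : EL (Sh.two j)) = pr2 j (K j) := by
  funext x
  have : (Sh.two j).shr (Sh.twoL j) (Sh.twoR j) n = j :=
    (shr_nw .one () j () n).trans ((shr_self .one () _).trans (min_eq_left hj))
  rw [prE_cons, prE_nil, mul_one, this]
  rfl

variable {B : (s : Sh) → ((s.Lf → Ω) → ℝ) → ((s.Lf → S) → ℝ) → ℝ}
  {V : List ((ℕ → Ω → Ω → ℝ) × (ℕ → S → S → ℝ))}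

/-- **exact cluster form, low first pair** -/
theorem wB_low (hi : i < M.length) (hB : ∀ s ξ, B s (fun _ => 0) ξ = 0)
    (hV : ∀ p ∈ V, ∀ j, i < j → p.1 j = 0) {j : ℕ} (hj : j ≤ i) (K : ℕ → Ω → Ω → ℝ)
    (Z : ℕ → S → S → ℝ) : Mul55.wB (-1) M B V (Sh.two j) (pr2 j (K j)) (pr2 j (Z j)) =
      CW (-1) i M (PhiB M.length B (K :: V.map Prod.fst) (Z :: V.map Prod.snd))
        (List.replicate V.length (lo i)) (Sh.two j) [e2 j] := by
  rw [← LE_St hi (by norm_num) _ _ (fun c hc j hj => by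
      rw [List.eq_of_mem_replicate hc, lo, if_neg (not_le.2 hj)]) _ (sep_two hj) _
      (fun d hd => by rw [List.mem_singleton.1 hd]; exact ⟨trivial, trivial⟩),
    ← prE_two (hj.trans hi.le) K (V.map Prod.fst), ← prE_two (hj.trans hi.le) Z (V.map Prod.snd)]
  exact wB_St hB V hV [K] [Z] _ _ rfl rfl

/-- **exact cluster form, marked pair above the cut** -/
theorem wB_mark (hi : i < M.length) (hB : ∀ s ξ, B s (fun _ => 0) ξ = 0)
    (hV : ∀ p ∈ V, ∀ j, i < j → p.1 j = 0) {k : ℕ} (hk : i < k) (hk' : k ≤ M.length)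
    (K : ℕ → Ω → Ω → ℝ) (Z : ℕ → S → S → ℝ) :
    Mul55.wB (-1) M B V (Sh.two k) (pr2 k (K k)) (pr2 k (Z k)) =
      CW (-1) i M (PhiB M.length B (K :: V.map Prod.fst) (Z :: V.map Prod.snd))
        (List.replicate V.length (lo i)) .one [e1 k] := by
  rw [← LE_St hi (by norm_num) _ _ (fun c hc j hj => by
      rw [List.eq_of_mem_replicate hc, lo, if_neg (not_le.2 hj)]) _ (sep_one i) _
      (fun d hd => by rw [List.mem_singleton.1 hd]; exact ⟨trivial, hk, hk'⟩),
    ← prE_two hk' K (V.map Prod.fst), ← prE_two hk' Z (V.map Prod.snd)]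
  exact wB_St hB V hV [K] [Z] _ _ rfl rfl

theorem lamB_low (hi : i < M.length) (hB : ∀ s ξ, B s (fun _ => 0) ξ = 0)
    {p : (ℕ → Ω → Ω → ℝ) × (ℕ → S → S → ℝ)} (hV : ∀ r ∈ p :: V, ∀ j, i < j → r.1 j = 0) :
    Mul55.lamB M B (p :: V) = ∑ j ∈ Finset.range (i + 1), dm M 0 j *
      CW (-1) i M (PhiB M.length B ((p :: V).map Prod.fst) ((p :: V).map Prod.snd))
        (List.replicate V.length (lo i)) (Sh.two j) [e2 j] := by
  rw [Mul55.lamB, sum_rng hi.le, Finset.sum_eq_zero (s := Finset.Ioc i M.length) fun j hj => by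
    rw [hV p List.mem_cons_self j (Finset.mem_Ioc.1 hj).1]
    exact mul_eq_zero_of_right _ (wB_zero hB V _ _), add_zero]
  exact Finset.sum_congr rfl fun j hj => mc (wB_low hi hB (fun r hr => hV r
    (List.mem_cons_of_mem _ hr)) (Nat.lt_succ_iff.1 (Finset.mem_range.1 hj)) p.1 p.2)

end Low51

end Crest.Agent.T156.Cas
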