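import Crest.Agent.T156.CY3B_20
import Crest.Agent.T156.Low_51
import Crest.Agent.T156.Lsg_89

/-!
# Row 156 (helper20): the frozen word of three low edges

With the cluster values frozen, the skeleton sum is a multiple of the triangle sum `C3`.
-/

set_option autoImplicit false
set_option linter.all false

noncomputable section

namespace Crest.Agent.T156.Cas.Y20

open MeasureTheory Real Set Filter Topology
open Crest.Agent.T157.E Crest.Agent.T157.Casc Crest.Agent.T157.SL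
open Wt87 Leg51 Lsg89
open Low51 (prE prE_cons prE_nil)
open Tay38 (emb_ne emb_inj two_ne)

variable {Ω : Type} [Fintype Ω] {w : Ω → ℝ} {L : List (Lv Ω)} {h : Ω → ℝ} {U : ℕ → Ω → Ω → ℝ}
  {i : ℕ} {t : Sh} {c G : ℕ → ℝ}

/-- the triangle -/
def T3 (w : Ω → ℝ) (L : List (Lv Ω)) (h : Ω → ℝ) (U : ℕ → Ω → Ω → ℝ) (t : Sh) (u v x : t.Lf) : ℝ :=
  TE w t L h fun y => U (t.shr u v L.length) (y u) (y v) *
    (U (t.shr u x L.length) (y u) (y x) * U (t.shr v x L.length) (y v) (y x))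

/-- the bulk factor of three edges -/
def Bk (w : Ω → ℝ) (L : List (Lv Ω)) (h : Ω → ℝ) (U : ℕ → Ω → Ω → ℝ) (t : Sh) (E : Ed t) : ℝ :=
  TE w t L h (prE L.length [U, U, U] E)

/-- the frozen site factor: `G` on the marked cluster, `c` on the others -/
def S0 (c G : ℕ → ℝ) (t : Sh) (m : t.Lf) (E : Ed t) : ℝ :=
  ∏ a, if a = m then G (dgE E a) else c (dgE E a)

/-- the frozen functional -/
def V0 (w : Ω → ℝ) (L : List (Lv Ω)) (h : Ω → ℝ) (U : ℕ → Ω → Ω → ℝ) (c G : ℕ → ℝ) : VF :=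
  fun t m E => Bk w L h U t E * S0 c G t m E

/-- the triangle on a pair split at `j` and a third leaf -/
def Tg (w : Ω → ℝ) (L : List (Lv Ω)) (h : Ω → ℝ) (U : ℕ → Ω → Ω → ℝ) (j : ℕ) (a : (Sh.two j).Lf)
    (k : ℕ) : ℝ := T3 w L h U ((Sh.two j).graft a k) ((Sh.two j).emb a k (Sh.twoL j))
      ((Sh.two j).emb a k (Sh.twoR j)) ((Sh.two j).nw a k)

/-- third leaf low -/
def C2 (w : Ω → ℝ) (L : List (Lv Ω)) (h : Ω → ℝ) (U : ℕ → Ω → Ω → ℝ) (i j : ℕ) : ℝ :=
  ∑ a, ∑ k ∈ Finset.range (i + 1), cw (Sh.two j) L a k * Tg w L h U j a k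

/-- the triangle sum -/
def C3 (w : Ω → ℝ) (L : List (Lv Ω)) (h : Ω → ℝ) (U : ℕ → Ω → Ω → ℝ) (i : ℕ) : ℝ :=
  ∑ j ∈ Finset.range (i + 1), dm L 0 j * C2 w L h U i j

theorem ev_V0 (hc : ∀ d, Odd d → c d = 0) (hG : ∀ d, Odd d → G d = 0) : Ev (V0 w L h U c G) :=
  fun t m E x hx => mul_eq_zero_of_right _ (Finset.prod_eq_zero (Finset.mem_univ x) (by
    split_ifs
    exacts [hG _ hx, hc _ hx]))

theorem T3_swap (hU : ∀ j x y, U j x y = U j y x) (u v x : t.Lf) :
    T3 w L h U t v u x = T3 w L h U t u v x :=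
  congrArg (TE w t L h) (funext fun y => by rw [shr_comm t v u, hU _ (y v) (y u)]; ring)

theorem T3_rot (hU : ∀ j x y, U j x y = U j y x) (u v x : t.Lf) :
    T3 w L h U t v x u = T3 w L h U t u v x :=
  congrArg (TE w t L h) (funext fun y => by
    rw [shr_comm t v u, hU _ (y v) (y u), shr_comm t x u, hU _ (y x) (y u)]; ring)

theorem T3_lab (hw : Wt w) {t' : Sh} {u v x : t.Lf} {u' v' x' : t'.Lf} (h1 : u ≠ v) (h2 : u ≠ x)
    (h3 : v ≠ x) (k1 : u' ≠ v') (k2 : u' ≠ x') (k3 : v' ≠ x')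
    (e1 : t.shr u v L.length = t'.shr u' v' L.length)
    (e2 : t.shr u x L.length = t'.shr u' x' L.length)
    (e3 : t.shr v x L.length = t'.shr v' x' L.length) :
    T3 w L h U t u v x = T3 w L h U t' u' v' x' := by
  have inj : ∀ {α : Type} {u v x : α}, u ≠ v → u ≠ x → v ≠ x →
      Function.Injective (![u, v, x] : Fin 3 → α) := fun h1 h2 h3 a b e => by
    fin_cases a <;> fin_cases b <;> simp_all
  have := TE_lab hw t t' L h (inj h1 h2 h3) (inj k1 k2 k3) (fun a b e => by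
      fin_cases a <;> fin_cases b <;>
        first | exact absurd rfl e | simp [e1, e2, e3, shr_comm t v u, shr_comm t x u, shr_comm t x v, shr_comm t' v' u', shr_comm t' x' u', shr_comm t' x' v'])
    fun y => U (t.shr u v L.length) (y 0) (y 1) *
      (U (t.shr u x L.length) (y 0) (y 2) * U (t.shr v x L.length) (y 1) (y 2))
  rw [T3, T3, ← e1, ← e2, ← e3]
  exact this

theorem tri_V0 (hU : ∀ j x y, U j x y = U j y x) : Tri (V0 w L h U c G) fun t m u v x =>
    T3 w L h U t u v x * S0 c G t m [(u, v), (u, x), (v, x)] := by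
  intro t m u v x _ _ _ e e' he he'
  constructor
  all_goals
    refine congrArg₂ (· * ·) (congrArg (TE w t L h) (funext fun y => ?_))
      (Finset.prod_congr rfl fun a _ => ?_)
    · rcases he with rfl | rfl <;> rcases he' with rfl | rfl <;>
        simp only [prE_cons, prE_nil, shr_comm t x u, shr_comm t x v, hU _ (y x) (y u),
          hU _ (y x) (y v)] <;> ring
    · have : ∀ E : Ed t, dgE E a = dgE [(u, v), (u, x), (v, x)] a →
          (if a = m then G (dgE E a) else c (dgE E a)) = if a = m then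
            G (dgE [(u, v), (u, x), (v, x)] a) else c (dgE [(u, v), (u, x), (v, x)] a) :=
        fun E e => by rw [e]
      refine this _ ?_
      rcases he with rfl | rfl <;> rcases he' with rfl | rfl <;> simp only [dgE_cons] <;> omega

theorem prod_three {α : Type} [Fintype α] [DecidableEq α] {u v x : α} (h1 : u ≠ v) (h2 : u ≠ x)
    (h3 : v ≠ x) (hc : ∀ a, a = u ∨ a = v ∨ a = x) (F : α → ℝ) : ∏ a, F a = F u * F v * F x := by
  have e : (Finset.univ : Finset α) = {u, v, x} := by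
    ext a
    simpa using hc a
  rw [e, Finset.prod_insert (by simp [h1, h2]), Finset.prod_pair h3, mul_assoc]

theorem S0_three {u v x m : t.Lf} (h1 : u ≠ v) (h2 : u ≠ x) (h3 : v ≠ x)
    (hc : ∀ a, a = u ∨ a = v ∨ a = x) : S0 c G t m [(u, v), (u, x), (v, x)] = G 2 * c 2 ^ 2 := by
  have := h1.symm
  have := h2.symm
  have := h3.symm
  rw [S0, prod_three h1 h2 h3 hc]
  rcases hc m with rfl | rfl | rfl <;> simp [dgE_cons, dgE_nil, *] <;> ring

theorem gr_cases (j : ℕ) (a : (Sh.two j).Lf) (k : ℕ) (b : ((Sh.two j).graft a k).Lf) :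
    b = (Sh.two j).emb a k (Sh.twoL j) ∨ b = (Sh.two j).emb a k (Sh.twoR j) ∨
      b = (Sh.two j).nw a k := by
  rcases graft_cases _ a k b with ⟨b, rfl⟩ | rfl
  · rcases two_cases j b with rfl | rfl <;> simp
  · simp

theorem erase_two {j : ℕ} {u v : (Sh.two j).Lf} (h : u ≠ v) :
    (Finset.univ.erase u).erase v = ∅ := by
  ext a
  rcases two_cases j a with rfl | rfl <;> rcases two_cases j u with rfl | rfl <;>
    rcases two_cases j v with rfl | rfl <;> simp_all

variable {ε : ℝ}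

/-- two more edges on a low pair -/
theorem val3 (hU : ∀ j x y, U j x y = U j y x) (hc : ∀ d, Odd d → c d = 0)
    (hG : ∀ d, Odd d → G d = 0) (j : ℕ) (m : (Sh.two j).Lf) {e : (Sh.two j).Lf × (Sh.two j).Lf}
    (he : e = (Sh.twoL j, Sh.twoR j) ∨ e = (Sh.twoR j, Sh.twoL j)) :
    stp ε i L (stp ε i L (V0 w L h U c G)) (Sh.two j) m [e] =
      ε * (8 * (G 2 * c 2 ^ 2) * C2 w L h U i j) := by
  have hn := two_ne j
  rcases he with rfl | rfl
  · rw [stp_stp (ev_V0 hc hG) (tri_V0 hU) m hn, erase_two hn, Finset.sum_empty, mul_zero, zero_add,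
      C2, Finset.mul_sum _ _ (8 * _)]
    refine mc (Finset.sum_congr rfl fun a _ => ?_)
    rw [Finset.mul_sum]
    refine Finset.sum_congr rfl fun k _ => ?_
    rw [S0_three ((emb_inj _ a k).ne hn) (emb_ne _ a k _) (emb_ne _ a k _) (gr_cases j a k), Tg]
    ring
  · rw [stp_stp (ev_V0 hc hG) (tri_V0 hU) m hn.symm, erase_two hn.symm, Finset.sum_empty, mul_zero,
      zero_add, C2, Finset.mul_sum _ _ (8 * _)]
    refine mc (Finset.sum_congr rfl fun a _ => ?_)
    rw [Finset.mul_sum]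
    refine Finset.sum_congr rfl fun k _ => ?_
    rw [S0_three ((emb_inj _ a k).ne hn.symm) (emb_ne _ a k _) (emb_ne _ a k _)
      fun b => by have := gr_cases j a k b; tauto, T3_swap hU, Tg]
    ring

theorem sum_lo {n : ℕ} (hi : i ≤ n) (F : ℕ → ℝ) :
    ∑ k ∈ Finset.range (n + 1), (if k ≤ i then F k else 0) = ∑ k ∈ Finset.range (i + 1), F k := by
  rw [← Finset.sum_filter]
  exact Finset.sum_congr (by ext k; simp only [Finset.mem_filter, Finset.mem_range]; omega)
    fun _ _ => rfl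

/-- the third leaf on the left path or on the right one -/
theorem C2_eq (hw : Wt w) (hi : i ≤ L.length) {j : ℕ} (hj : j ≤ i) :
    C2 w L h U i j = ∑ k ∈ Finset.range (i + 1), dm L 0 k * Tg w L h U j (Sh.twoL j) k +
      ∑ r ∈ Finset.range (i - j + 1), dm (L.drop j) 0 r * Tg w L h U j (Sh.twoR j) (r + j) := by
  have hn := two_ne j
  have nc : NC (Sh.two j) fun a k => if k ≤ i then Tg w L h U j a k else 0 := fun a b k e => by
    refine if_congr Iff.rfl (T3_lab hw ((emb_inj _ a k).ne hn) (emb_ne _ a k _) (emb_ne _ a k _)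
      ((emb_inj _ b k).ne hn) (emb_ne _ b k _) (emb_ne _ b k _) (by rw [shr_emb, shr_emb]) ?_ ?_) rfl
    all_goals
      rw [shr_nw, shr_nw]
      exact shr_congr _ (shr_lt _ a b e (min_le_left _ _)) _
  have h1 := (sum_cw_eq (Sh.two j) L _).trans ((Wn_graft' L .one () (hj.trans hi) nc).trans
    (ac (Wn_one L fun _ k => if k ≤ i then Tg w L h U j (Sh.twoL j) k else 0) rfl))
  simp only [mul_ite, mul_zero, sum_lo hi] at h1
  refine h1.trans (ac rfl ?_)
  rw [← sum_lo (i := i - j) (n := L.length - j) (by omega)]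
  exact Finset.sum_congr rfl fun r _ => if_congr (by omega) rfl rfl

theorem two_T3 (hw : Wt w) (hU : ∀ j x y, U j x y = U j y x) (hi : i ≤ L.length) :
    two i L .one (fun τ _ _ => T3 w L h U τ.sh τ.p τ.q (τ.e ())) = C3 w L h U i := by
  have e : two i L .one (fun τ _ _ => T3 w L h U τ.sh τ.p τ.q (τ.e ())) =
      ∑ j ∈ Finset.range (i + 1), dm L 0 j *
        (∑ k ∈ Finset.range (i + 1), dm L 0 k * Tg w L h U k (Sh.twoL k) j +
        ∑ r ∈ Finset.range (i - j + 1), dm (L.drop j) 0 r * Tg w L h U j (Sh.twoR j) (r + j)) := by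
    simp only [two, Wt87.sum_one, cw_one]
    refine Finset.sum_congr rfl fun j _ => mc (ac (Finset.sum_congr rfl fun k _ => mc ?_)
      (Finset.sum_congr rfl fun r _ => mc ?_))
    · exact (T3_swap hU _ _ _).trans (T3_rot hU _ _ _)
    · exact T3_rot hU _ _ _
  rw [e, C3, Finset.sum_congr rfl fun j hj => mc (a := dm L 0 j)
    (C2_eq hw hi (Nat.lt_succ_iff.1 (Finset.mem_range.1 hj)))]
  simp only [mul_add, Finset.sum_add_distrib, Finset.mul_sum]
  rw [Finset.sum_comm]
  exact ac (Finset.sum_congr rfl fun _ _ => Finset.sum_congr rfl fun _ _ => mul_left_comm _ _ _) rfl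

theorem two_sub (Φ Ψ : GT t → Bool → Bool → ℝ) (r : ℝ) :
    two i L t Φ - r * two i L t Ψ = two i L t fun τ p q => Φ τ p q - r * Ψ τ p q := by
  simp only [two, mul_sub, mul_add, Finset.sum_sub_distrib, Finset.sum_add_distrib, Finset.mul_sum,
    mul_left_comm r]
  ring

theorem abs_S0_le {β : ℝ} (hβ : 1 ≤ β) {N : ℕ} (hc : ∀ d ≤ N, |c d| ≤ β) (hG : ∀ d ≤ N, |G d| ≤ β)
    (m : t.Lf) {E : Ed t} (hE : 2 * E.length ≤ N) {r : ℕ} (hr : Fintype.card t.Lf ≤ r) :
    |S0 c G t m E| ≤ β ^ r := by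
  rw [S0, Finset.abs_prod]
  refine (Finset.prod_le_prod (fun _ _ => abs_nonneg _) fun a _ => (?_ : _ ≤ β)).trans
    ((Finset.prod_const β).trans_le (pow_le_pow_right₀ hβ hr))
  split_ifs
  exacts [hG _ ((dgE_le E a).trans hE), hc _ ((dgE_le E a).trans hE)]

/-- three edges on a marked cluster -/
theorem test3 (hw : Wt w) (hL : Mono 0 L) (hi : i ≤ L.length) (hU : ∀ j x y, U j x y = U j y x)
    (hc : ∀ d, Odd d → c d = 0) (hG : ∀ d, Odd d → G d = 0) {β b : ℝ} (hβ : 1 ≤ β)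
    (hc' : ∀ d ≤ 6, |c d| ≤ β) (hG' : ∀ d ≤ 6, |G d| ≤ β) (hb : 0 ≤ b)
    (hT : ∀ t (u v x : t.Lf), u ≠ v → u ≠ x → v ≠ x → |T3 w L h U t u v x| ≤ b) :
    |stp (-1) i L (stp (-1) i L (stp (-1) i L (V0 w L h U c G))) .one () [] -
      24 * (G 2 * c 2 ^ 2) * C3 w L h U i| ≤ 48 * ex L i ^ 3 * (b * β ^ 4) := by
  have hx := ex_nn hL i
  rw [show ∀ V, stp (-1) i L V .one () [] =
    lsg (-1) i L .one fun τ _ _ => V τ.sh (τ.e ()) (nx τ []) from fun _ => rfl, lsg_eq, old_one, one_one]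
  have e1 : ∑ j ∈ Finset.range (i + 1), dm L 0 j *
      (stp (-1) i L (stp (-1) i L (V0 w L h U c G)) (GT.g1 .one () j ()).sh
          ((GT.g1 .one () j ()).e ()) (nx (GT.g1 .one () j ()) []) +
        stp (-1) i L (stp (-1) i L (V0 w L h U c G)) (GT.g1' .one () j ()).sh
          ((GT.g1' .one () j ()).e ()) (nx (GT.g1' .one () j ()) [])) =
      -(16 * (G 2 * c 2 ^ 2) * C3 w L h U i) := by
    rw [C3, Finset.mul_sum, ← Finset.sum_neg_distrib]
    refine Finset.sum_congr rfl fun j _ => (mc (ac (val3 hU hc hG j _ (.inl rfl))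
      (val3 hU hc hG j _ (.inr rfl)))).trans (by ring)
  rw [e1, show ∀ A T : ℝ, 0 + -1 * -(16 * A * C3 w L h U i) + T - 24 * A * C3 w L h U i =
    T - 8 * A * C3 w L h U i from fun A T => by ring, ← two_T3 hw hU hi, two_sub]
  refine (abs_two_le hL (β := 24 * ex L i * (b * β ^ 4)) (by positivity) fun τ hτ => ?_).trans
    (le_of_eq (by rw [show Fintype.card Sh.one.Lf = 1 from rfl]; push_cast; ring))
  have n1 := LM.ne hτ
  have n2 := (LM.newp hτ ()).symm
  have n3 := (LM.newq hτ ()).symm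
  have hk : ∀ a, a = τ.p ∨ a = τ.q ∨ a = τ.e () := by
    cases hτ with
    | g2 a b => exact fun x => by have := gr_cases _ _ _ x; tauto
    | g3 a => exact fun x => by have := gr_cases _ _ _ x; tauto
  have hcard : Fintype.card τ.sh.Lf = 3 := by
    cases hτ with
    | g2 a b => exact (card_graft _ _ _).trans (congrArg (· + 1) (card_two _))
    | g3 a => exact (card_graft _ _ _).trans (congrArg (· + 1) (card_two _))
  have e2 : (Finset.univ.erase τ.p).erase τ.q = {τ.e ()} := by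
    ext a
    rcases hk a with rfl | rfl | rfl <;> simp [n1, n2, n3, n1.symm, n2.symm, n3.symm]
  rw [show nx τ [] = [(τ.p, τ.q)] from rfl, stp_stp (ev_V0 hc hG) (tri_V0 hU) _ n1, e2,
    Finset.sum_singleton, S0_three n1 n2 n3 hk,
    show ∀ A T R : ℝ, 8 * (T * A) + -1 * R - 8 * A * T = -R from fun A T R => by ring, abs_neg]
  refine (abs_cw_lo hL τ.sh i (β := 8 * (b * β ^ 4)) (by positivity) fun a k _ => ?_).trans
    (le_of_eq (by rw [hcard]; push_cast; ring))
  rw [abs_mul, abs_mul, abs_of_pos (by norm_num : (0 : ℝ) < 8)]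
  exact mul_le_mul_of_nonneg_left (mul_le_mul
    (hT _ _ _ _ ((emb_inj _ a k).ne n1) (emb_ne _ a k _) (emb_ne _ a k _))
    (abs_S0_le hβ hc' hG' _ le_rfl (by rw [card_graft, hcard])) (abs_nonneg _) hb) (by norm_num)

end Crest.Agent.T156.Cas.Y20

end
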