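import Crest.Agent.T156.CY3C_20
import Crest.Agent.T156.CLowD_90
import Crest.Agent.T156.CErr_54

/-!
# Row 156 (helper20): transfer from the cluster form, marked clusters, dictionary on `CD`
-/

set_option autoImplicit false
set_option linter.all false

noncomputable section

namespace Crest.Agent.T156.Cas.Y20

open MeasureTheory Real Set Filter Topology
open Crest.Agent.T157.E Crest.Agent.T157.Casc Crest.Agent.T157.SL
open Wt87 Leg51 Lsg89
open Low51 (prE prE_cons prE_nil CW LE cs' lo EF)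
open Tay38 (emb_ne emb_inj two_ne)

section transfer
variable {Θ : Type} {i : ℕ} {M : List (Lv Θ)} {t : Sh} {ε : ℝ}

theorem lsg_sub (Φ Ψ : GT t → Bool → Bool → ℝ) :
    lsg ε i M t Φ - lsg ε i M t Ψ = lsg ε i M t fun τ p q => Φ τ p q - Ψ τ p q := by
  have h1 := lsg_add (ε := ε) (i := i) (M := M) Φ fun τ p q => -1 * Ψ τ p q
  rw [lsg_mul] at h1
  simpa only [neg_one_mul, ← sub_eq_add_neg] using h1.symm

/-- the cluster form of a word against the edge-list form -/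
theorem CW_sub (hM : Mono 0 M) (hi : i < M.length) {Φ : EF} {V : VF} {β : ℝ} (hβ : 0 ≤ β) {N : ℕ}
    {P : ℕ → (t : Sh) → t.Lf → List (Low51.Ed t.Lf) → Ed t → Prop}
    (hP : ∀ k t m E E' τ op oq, P (k + 1) t m E E' → LM i M.length t τ op oq →
      P k τ.sh (τ.e m) (Low51.nx τ op oq E) (nx τ E'))
    (h0 : ∀ t m E E', P 0 t m E E' → Sep i t → Fintype.card t.Lf ≤ N →
      |LE (-1) i M E (cs' Φ) t id [] - V t m E'| ≤ β) :
    ∀ k t m E E', P k t m E E' → Sep i t → Fintype.card t.Lf + 2 * k ≤ N →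
      |CW (-1) i M Φ (List.replicate k (lo i)) t E - (stp (-1) i M)^[k] V t m E'| ≤
        (5 * (N : ℝ) ^ 2) ^ k * β
  | 0, t, m, E, E', h, hs, hN => (h0 t m E E' h hs hN).trans_eq (by simp)
  | k + 1, t, m, E, E', h, hs, hN => by
      rw [List.replicate_succ, CW, Function.iterate_succ_apply', stp, lsg_sub]
      refine (abs_lsg_le (by simp) hM (β := (5 * (N : ℝ) ^ 2) ^ k * β) (by positivity)
        fun τ op oq H => ?_).trans ?_
      · rw [lo, if_pos (LM.j_le H hs hi), one_mul]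
        exact CW_sub hM hi hβ hP h0 k _ _ _ _ (hP _ _ _ _ _ _ _ _ h H) (H.sep hs)
          (by have := LM.card H hi.le; omega)
      · have : (Fintype.card t.Lf : ℝ) ≤ N := Nat.cast_le.2 (by omega)
        rw [pow_succ' (5 * (N : ℝ) ^ 2), mul_assoc (5 * (N : ℝ) ^ 2)]
        gcongr

end transfer

theorem iter_sum {α : Type} (A : Finset α) (c : α → ℝ) {C : ℝ} : ∀ (n : ℕ) (F : α → ℝ → ℝ),
    (∀ a ∈ A, Sm n C (F a)) → iteratedDeriv n (fun y => ∑ a ∈ A, c a * F a y) =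
      fun y => ∑ a ∈ A, c a * iteratedDeriv n (F a) y
  | 0, _, _ => by simp
  | n + 1, F, h => by
      have e : deriv (fun y => ∑ a ∈ A, c a * F a y) = fun y => ∑ a ∈ A, c a * deriv (F a) y :=
        funext fun y => (HasDerivAt.fun_sum fun a ha => ((h a ha).der.1 y).const_mul (c a)).deriv
      simp only [iteratedDeriv_succ']
      rw [e, iter_sum A c n _ fun a ha => (h a ha).der.2]

section site
open Crest.ProbabilityR.SpinGlassDynamics (spin)
open Crest.Agent.T157.Casc.C One15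

variable {l : Lv Bool} {L : List (Lv Bool)} {s : Sh} {F : (s.Lf → Bool) → ℝ}

/-- parity of a marked cluster in the incoming field -/
theorem MG_neg (hL : Fl (l :: L)) (hs : s.br = 1) (hF : ∀ x, F (fun a => !x a) = F x) :
    ∀ (k : ℕ) (y : ℝ), MG (l :: L) s F k ((-y) • spin) = (-1) ^ k * MG (l :: L) s F k (y • spin)
  | 0, y => by
      have := TE_flip hL s F y
      simp only [hF] at this
      rw [pow_zero, one_mul]
      exact this
  | k + 1, y => by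
      have h1 := (lad_MG l L hs F k (-y)).comp y (hasDerivAt_neg y)
      have h2 := (lad_MG l L hs F k y).const_mul ((-1) ^ k)
      have e : (fun y : ℝ => MG (l :: L) s F k (y • spin)) ∘ Neg.neg =
          fun y : ℝ => (-1) ^ k * MG (l :: L) s F k (y • spin) := funext (MG_neg hL hs hF k)
      rw [e] at h1
      have h3 := h1.unique h2
      simp only [MG_neg hL hs hF k, gs_neg hL 0] at h3
      linear_combination -h3

theorem MG_odd_zero (hL : Fl (l :: L)) (hs : s.br = 1) (hF : ∀ x, F (fun a => !x a) = F x) {k : ℕ}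
    (hk : Odd k) : MG (l :: L) s F k ((0 : ℝ) • spin) = 0 := by
  have := MG_neg hL hs hF k 0
  rw [neg_zero, hk.neg_one_pow] at this
  linarith

variable {j : ℕ} {F : ((Sh.two (j + 1)).Lf → Bool) → ℝ}

theorem abs_MG_odd (hL : Fl (l :: L)) (hB : Mono 0 (l :: L)) (hF : ∀ x, F (fun a => !x a) = F x)
    (hF' : ∀ x, |F x| ≤ 2) {k : ℕ} (hk : Odd k) (y : ℝ) :
    |MG (l :: L) (.two (j + 1)) F k (y • spin)| ≤ cS bM 1 k * |y| := by
  have := Lad.lip (abs_m_le hB) bM_nn (lad_gs l L) (lad_MG l L (s := .two (j + 1)) rfl F)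
    (abs_gs_bM hB) (fun k y => abs_MG_two hB hF' k _) k y
  simpa only [MG_odd_zero hL (s := .two (j + 1)) rfl hF hk, sub_zero] using this

theorem abs_MG_even (hL : Fl (l :: L)) (hB : Mono 0 (l :: L)) (hF : ∀ x, F (fun a => !x a) = F x)
    (hF' : ∀ x, |F x| ≤ 2) {k : ℕ} (hk : Even k) (y : ℝ) :
    |MG (l :: L) (.two (j + 1)) F k (y • spin) - MG (l :: L) (.two (j + 1)) F k ((0 : ℝ) • spin)| ≤
      (cS bM 1 (k + 1) + 8 * bM k) * y ^ 2 := by
  have c0 := cS_nn bM_nn 1 (k + 1)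
  have c1 := bM_nn k
  refine (abs_le_of_deriv (lad_MG l L (s := .two (j + 1)) rfl F k) y
    (C := (cS bM 1 (k + 1) + 8 * bM k) * |y|) fun u hu => ?_).trans_eq
      (by rw [mul_assoc, abs_mul_abs_self, sq])
  have h1 := abs_MG_odd hL hB hF hF' hk.add_one u
  have h2 := abs_MG_two hB hF' k (u • spin)
  have h3 := abs_gs_odd hL hB Even.zero u
  have h4 : cg (0 + 1) = 4 := by norm_num [cg]
  rw [h4] at h3
  refine (abs_sub _ _).trans ?_
  rw [abs_mul, abs_mul]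
  have := mul_le_mul (mul_le_mul (abs_m_le hB) h3 (abs_nonneg _) zero_le_one) h2 (abs_nonneg _)
    (by positivity)
  have h6 := mul_le_mul_of_nonneg_left hu c0
  have h7 := mul_le_mul_of_nonneg_left hu c1
  nlinarith

/-- one constant for all cluster values with at most six legs -/
def cB6 : ℝ := 1 + ∑ k ∈ Finset.range 7,
  (cg k + 2 * cg (k + 1) + 10 * cg (k + 2) + bM k + cS bM 1 k + (cS bM 1 (k + 1) + 8 * bM k))

theorem cB6_parts (k : ℕ) : 0 ≤ cg k ∧ 0 ≤ 2 * cg (k + 1) ∧ 0 ≤ 10 * cg (k + 2) ∧ 0 ≤ bM k ∧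
    0 ≤ cS bM 1 k ∧ 0 ≤ cS bM 1 (k + 1) + 8 * bM k := by
  have := one_le_cg k
  have := one_le_cg (k + 1)
  have := one_le_cg (k + 2)
  have := bM_nn k
  have := cS_nn bM_nn 1 (k + 1)
  exact ⟨by linarith, by linarith, by linarith, by linarith, cS_nn bM_nn 1 k, by linarith⟩

theorem le_cB6 {k : ℕ} (hk : k ≤ 6) : cg k ≤ cB6 ∧ 2 * cg (k + 1) ≤ cB6 ∧ 10 * cg (k + 2) ≤ cB6 ∧
    bM k ≤ cB6 ∧ cS bM 1 k ≤ cB6 ∧ cS bM 1 (k + 1) + 8 * bM k ≤ cB6 := by
  have h := Finset.single_le_sum (f := fun k => cg k + 2 * cg (k + 1) + 10 * cg (k + 2) + bM k +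
    cS bM 1 k + (cS bM 1 (k + 1) + 8 * bM k)) (fun k _ => by
      obtain ⟨a, b, c, d, e, f⟩ := cB6_parts k
      linarith) (Finset.mem_range.2 (Nat.lt_succ_of_le hk))
  obtain ⟨a, b, c, d, e, f⟩ := cB6_parts k
  unfold cB6
  refine ⟨?_, ?_, ?_, ?_, ?_, ?_⟩ <;> linarith

theorem one_le_cB6 : 1 ≤ cB6 := (one_le_cg 0).trans (le_cB6 (Nat.zero_le 6)).1

/-- the value of a plain cluster of degree `d` -/
def gd (B : List (Lv Bool)) (d : ℕ) (y : ℝ) : ℝ := gs B (d - 1) y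

theorem gd_facts (hL : Fl (l :: L)) (hB : Mono 0 (l :: L)) {d : ℕ} (h1 : 1 ≤ d) (hd : d ≤ 6)
    (y : ℝ) : |gd (l :: L) d y| ≤ cB6 ∧ (Odd d → |gd (l :: L) d y| ≤ cB6 * |y|) ∧
      (Even d → |gd (l :: L) d y - gd (l :: L) d 0| ≤ cB6 * y ^ 2) := by
  obtain ⟨k, rfl⟩ := Nat.exists_eq_add_of_le' h1
  obtain ⟨a, b, c, -⟩ := le_cB6 (show k ≤ 6 by omega)
  refine ⟨(abs_gs_le hB k y).trans a, fun h => (abs_gs_odd hL hB (by
    simpa [Nat.odd_add_one] using h) y).trans (mul_le_mul_of_nonneg_right b (abs_nonneg _)),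
    fun h => (abs_gs_even hL hB (by simpa [Nat.even_add_one] using h) y).trans
      (mul_le_mul_of_nonneg_right c (sq_nonneg _))⟩

theorem MG_facts (hL : Fl (l :: L)) (hB : Mono 0 (l :: L)) (hF : ∀ x, F (fun a => !x a) = F x)
    (hF' : ∀ x, |F x| ≤ 2) {d : ℕ} (hd : d ≤ 6) (y : ℝ) :
    |MG (l :: L) (.two (j + 1)) F d (y • spin)| ≤ cB6 ∧
      (Odd d → |MG (l :: L) (.two (j + 1)) F d (y • spin)| ≤ cB6 * |y|) ∧
      (Even d → |MG (l :: L) (.two (j + 1)) F d (y • spin) -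
        MG (l :: L) (.two (j + 1)) F d ((0 : ℝ) • spin)| ≤ cB6 * y ^ 2) := by
  obtain ⟨-, -, -, a, b, c⟩ := le_cB6 hd
  exact ⟨(abs_MG_two hB hF' d _).trans a, fun h => (abs_MG_odd hL hB hF hF' h y).trans (by gcongr),
    fun h => (abs_MG_even hL hB hF hF' h y).trans (by gcongr)⟩

end site

/-! ### dictionary on `CD` -/

section cd
open Crest.ProbabilityR.SpinGlassDynamics (spin)
open Crest.Agent.T157.G1 (ov)
open C40 Mul55 One15

variable {D : CD} {τ0 : ℝ}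

/-- the bulk kernel of `aL` -/
def UL (D : CD) : ℕ → Cube D.n → Cube D.n → ℝ := (lt D.n D.β D.M D.q D.cl aL).1

theorem UL_eq (h : D.Ok τ0) (j : ℕ) (x y : Cube D.n) : UL D j x y = D.KR j x y / 2 := by
  by_cases hj : j ≤ D.J
  · have e : UL D j = oUb D.n D.β D.M D.q true j := if_pos (decide_eq_true hj)
    simp only [e, CD.KR, hj, if_true, oUb, oU, h.qlo j hj]
    ring
  · simp [UL, lt, cut, CD.cl, CD.KR, hj]

theorem ov_comm20 {n : ℕ} (x y : Cube n) : ov x y = ov y x := by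
  simp only [ov]
  rw [dotProduct_comm]

theorem UL_symm (h : D.Ok τ0) (j : ℕ) (x y : Cube D.n) : UL D j x y = UL D j y x := by
  simp only [UL_eq h, CD.KR, ov_comm20 x y]

theorem UL_hi (h : D.Ok τ0) {j : ℕ} (hj : D.J < j) : UL D j = 0 := by
  funext x y
  simp [UL_eq h, CD.KR, hj.not_ge]

theorem UL_zero (h : D.Ok τ0) : UL D 0 = 0 := by
  funext x y
  simp [UL_eq h, CD.KR, CD.τ, oTau, OneP.dAcc_zero]

theorem pi2_UL (h : D.Ok τ0) (j : ℕ) :
    pi2 (fun _ => 1) D.B j (fun x y => |UL D j x y| ^ 3) 0 ≤ τ0 ^ 3 * (D.X ^ 3 + 3 * D.tl) := by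
  have h0 : 0 ≤ τ0 ^ 3 * (D.X ^ 3 + 3 * D.tl) := by
    have := h.tau0; have := h.X0; have := h.tl0; positivity
  by_cases hj : j ∈ D.lo
  · have h1 := h.u_lo hj 2
    have h2 := pi2_mono (Ω := Cube D.n) wt_one90 D.B j (K := fun x y => |UL D j x y| ^ 3)
      (K' := fun x y => τ0 ^ 3 * |oU D.q j x y| ^ 3) (fun x y => by
        have := h.tau_mem j
        rw [← mul_pow, UL_eq h, CD.KR, if_pos (CD.mem_lo.1 hj).2, oU, h.qlo j (CD.mem_lo.1 hj).2,
          sub_zero, abs_div, abs_mul, abs_of_nonneg this.1, abs_two]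
        refine pow_le_pow_left₀ (by have := this.1; positivity) ?_ 3
        nlinarith [abs_nonneg (ov x y)]) 0
    rw [pi2_const_mul] at h2
    refine h2.trans (mul_le_mul_of_nonneg_left (h1.trans_eq (by norm_num)) (pow_nonneg h.tau0 3))
  · have : UL D j = 0 := by
      rw [CD.mem_lo] at hj
      rcases Nat.eq_zero_or_pos j with rfl | h1
      exacts [UL_zero h, UL_hi h (by omega)]
    simpa [this, pi2_const wt_one90] using h0

theorem abs_three (a b c : ℝ) : |a * (b * c)| ≤ (|a| ^ 3 + |b| ^ 3 + |c| ^ 3) / 3 := by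
  rw [abs_mul, abs_mul]
  have := abs_nonneg a
  have := abs_nonneg b
  have := abs_nonneg c
  nlinarith [mul_nonneg (add_nonneg (add_nonneg (abs_nonneg a) (abs_nonneg b)) (abs_nonneg c))
    (add_nonneg (add_nonneg (sq_nonneg (|a| - |b|)) (sq_nonneg (|a| - |c|))) (sq_nonneg (|b| - |c|)))]

theorem abs_TE3 (h : D.Ok τ0) (t : Sh) {p q p' q' p'' q'' : t.Lf} (h1 : p ≠ q) (h2 : p' ≠ q')
    (h3 : p'' ≠ q'') : |TE (fun _ => 1) t D.B 0 fun y => UL D (t.shr p q D.B.length) (y p) (y q) *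
      (UL D (t.shr p' q' D.B.length) (y p') (y q') *
        UL D (t.shr p'' q'' D.B.length) (y p'') (y q''))| ≤ τ0 ^ 3 * (D.X ^ 3 + 3 * D.tl) := by
  refine (abs_TE_le' wt_one90 t D.B 0 fun y => (abs_three _ _ _).trans_eq
    (div_eq_inv_mul _ _)).trans ?_
  rw [Law.TE_const_mul wt_one90, Law.TE_add wt_one90, Law.TE_add wt_one90,
    TE_pair wt_one90 t D.B 0 h1 fun x y => |UL D (t.shr p q D.B.length) x y| ^ 3,
    TE_pair wt_one90 t D.B 0 h2 fun x y => |UL D (t.shr p' q' D.B.length) x y| ^ 3,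
    TE_pair wt_one90 t D.B 0 h3 fun x y => |UL D (t.shr p'' q'' D.B.length) x y| ^ 3]
  linarith [pi2_UL h (t.shr p q D.B.length), pi2_UL h (t.shr p' q' D.B.length),
    pi2_UL h (t.shr p'' q'' D.B.length)]

theorem abs_T3_le (h : D.Ok τ0) (t : Sh) (u v x : t.Lf) (h1 : u ≠ v) (h2 : u ≠ x) (h3 : v ≠ x) :
    |T3 (fun _ => 1) D.B 0 (UL D) t u v x| ≤ τ0 ^ 3 * (D.X ^ 3 + 3 * D.tl) := abs_TE3 h t h1 h2 h3

theorem abs_Bk_le (h : D.Ok τ0) (t : Sh) {E : Ed t} (hE : E.length = 3) (hn : ∀ e ∈ E, e.1 ≠ e.2) :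
    |Bk (fun _ => 1) D.B 0 (UL D) t E| ≤ τ0 ^ 3 * (D.X ^ 3 + 3 * D.tl) := by
  match E, hE with
  | [a, b, c], _ =>
    have := abs_TE3 h t (hn a (by simp)) (hn b (by simp)) (hn c (by simp))
    refine le_trans (le_of_eq (congrArg (fun F => |TE (fun _ => 1) t D.B 0 F|) (funext fun y => ?_)))
      this
    simp only [prE_cons, prE_nil, mul_one]

theorem S3_eq (h : D.Ok τ0) : D.S3 = 8 * C3 (fun _ => 1) D.B 0 (UL D) D.J := by
  have hK : D.J < D.B.length := D.B_len ▸ h.cut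
  have e0 : C2 (fun _ => 1) D.B 0 (UL D) D.J 0 = 0 :=
    Finset.sum_eq_zero fun a _ => Finset.sum_eq_zero fun k _ => mul_eq_zero_of_right _ (by
      rw [Tg, T3, shr_emb, shr_two, Nat.zero_min, UL_zero h]
      simpa using Law.TE_const wt_one90 _ D.B 0 0)
  rw [C3, Finset.range_eq_Ico, Finset.sum_eq_sum_Ico_succ_bot (Nat.succ_pos _), e0, mul_zero,
    zero_add, Finset.mul_sum, CD.S3]
  refine Finset.sum_congr (by ext; simp [Nat.lt_succ_iff]) fun j hj => ?_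
  have hj' : j ≤ D.J := Nat.lt_succ_iff.1 (Finset.mem_Ico.1 hj).2
  refine Eq.trans (mc ?_) (mul_left_comm _ _ _)
  rw [C2, Finset.mul_sum _ _ (8 : ℝ)]
  refine Finset.sum_congr rfl fun a _ => ?_
  rw [Finset.mul_sum _ _ (8 : ℝ)]
  refine Finset.sum_congr rfl fun k hk => ?_
  have hk' : k ≤ D.B.length := by have := Finset.mem_range.1 hk; omega
  refine Eq.trans (mc ?_) (mul_left_comm _ _ _)
  rw [Tg, T3, ← Law.TE_const_mul wt_one90, shr_emb, shr_two, shr_nw, shr_nw,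
    min_eq_left hk', min_eq_left (hj'.trans hK.le)]
  refine congrArg _ (funext fun y => ?_)
  simp only [UL_eq h]
  ring

theorem abs_C3_le (h : D.Ok τ0) :
    |C3 (fun _ => 1) D.B 0 (UL D) D.J| ≤ 2 * D.X ^ 2 * (τ0 ^ 3 * (D.X ^ 3 + 3 * D.tl)) := by
  have h0 : 0 ≤ τ0 ^ 3 * (D.X ^ 3 + 3 * D.tl) := by
    have := h.tau0; have := h.X0; have := h.tl0; positivity
  have hx := h.ex0 D.J
  have h1 := abs_cw_lo h.mono .one D.J (G := fun _ j => C2 (fun _ => 1) D.B 0 (UL D) D.J j)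
    (β := 2 * ex D.B D.J * (τ0 ^ 3 * (D.X ^ 3 + 3 * D.tl))) (by positivity) fun _ j _ =>
      (abs_cw_lo h.mono _ D.J h0 fun a k _ => abs_T3_le h _ _ _ _ ((emb_inj _ a k).ne (two_ne j))
        (emb_ne _ a k _) (emb_ne _ a k _)).trans_eq (by rw [card_two]; push_cast; ring)
  simp only [Wt87.sum_one, cw_one] at h1
  refine h1.trans ?_
  rw [show Fintype.card Sh.one.Lf = 1 from rfl, Nat.cast_one, one_mul, ← mul_assoc]
  refine mul_le_mul_of_nonneg_right ?_ h0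
  nlinarith [h.x1]

/-- the site cascade above the cut -/
theorem site_cons (h : D.Ok τ0) : ∃ l L, D.S.drop D.J = l :: L ∧ l.m = ex D.B D.J ∧
    List.Forall₂ (C.Rk1 spin) (l :: L) ((opV D.n D.β D.M D.q).drop D.J) ∧ Mono 0 (l :: L) := by
  have hK : D.J < D.S.length := opS_length ▸ h.cut
  have r : List.Forall₂ (C.Rk1 spin) D.S (opV D.n D.β D.M D.q) :=
    C.forall₂_sl spin (opV_nn h.ook)
  have e := List.drop_eq_getElem_cons hK
  refine ⟨_, _, e, ?_, e ▸ List.forall₂_drop _ r,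
    e ▸ mono_drop _ (Cav22.mono_tilt tilt_opS.symm h.mono)⟩
  rw [← Cav22.ex_tilt (tilt_opS (q := D.q))]
  simp [Crest.Agent.T157.Casc.ex, hK]

theorem lam_eq (h : D.Ok τ0) : D.lam = gd (D.S.drop D.J) 2 0 := by
  obtain ⟨l, L, e, -, r, -⟩ := site_cons h
  have e1 : D.Ph = Crest.Agent.R339.B.PhiL 1 ((opV D.n D.β D.M D.q).drop D.J) :=
    funext fun y => by rw [CD.Ph, e, ← C.X_spin r]; rfl
  rw [CD.lam, e1, gd, e, (gs_at_zero r).1, iteratedDeriv_succ']

/-- the marked pair at the node `j` -/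
def Gm (D : CD) (j d : ℕ) (y : ℝ) : ℝ :=
  MG (D.S.drop D.J) (.two (j - D.J)) (pr2 (j - D.J) (oE D.q j)) d (y • spin)

theorem Gm_facts (h : D.Ok τ0) {j : ℕ} (hj : j ∈ D.up) {d : ℕ} (hd : d ≤ 6) (y : ℝ) :
    (|Gm D j d y| ≤ cB6 ∧ (Odd d → |Gm D j d y| ≤ cB6 * |y|) ∧
      (Even d → |Gm D j d y - Gm D j d 0| ≤ cB6 * y ^ 2)) ∧ Sm 2 (cS bM 2 0) (Gm D j 0) ∧
      |iteratedDeriv 2 (Gm D j 0) 0 - Gm D j 2 0| ≤ cD bM 2 0 * D.X := by
  obtain ⟨l, L, e, e', r, hm⟩ := site_cons h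
  obtain ⟨k, hk⟩ := Nat.exists_eq_succ_of_ne_zero
    (show j - D.J ≠ 0 by have := (CD.mem_up.1 hj).1; omega)
  have hF : ∀ x, pr2 (k + 1) (oE D.q j) (fun a => !x a) = pr2 (k + 1) (oE D.q j) x := fun x => by
    simp [pr2, oE, One15.spin_not]
  have hF' : ∀ x, |pr2 (k + 1) (oE D.q j) x| ≤ 2 := fun x =>
    abs_oE_le h.ook (CD.mem_up.1 hj).2.le _ _
  unfold Gm
  rw [e, hk]
  exact ⟨MG_facts (fl_of r) hm hF hF' hd y, (Lad.sm (abs_m_le hm) bM_nn (lad_gs l L)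
    (lad_MG l L (s := .two (k + 1)) rfl _) (abs_gs_bM hm) (fun k y => abs_MG_two hm hF' k _) 2 0).2,
    (MG_iter hm hF' 2 0).trans (mul_le_mul_of_nonneg_left (e'.trans_le h.x1) (cD_nn bM_nn 2 0))⟩

theorem dP_two (h : D.Ok τ0) (hW : D.W.isSome = true) :
    |D.dP 2 [] + ∑ j ∈ D.up, D.om j * Gm D j 2 0| ≤ cD bM 2 0 * D.X * D.wt := by
  have e : (fun y => D.sH D.J y []) = fun y => ∑ j ∈ D.up, D.om j * Gm D j 0 y :=
    funext fun y => by rw [CD.sH, CD.dd_test hW]; rfl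
  rw [CD.dP, e, iter_sum _ _ 2 _ fun j hj => (Gm_facts h hj (Nat.zero_le 6) 0).2.1, add_comm,
    ← sub_eq_add_neg, abs_sub_comm, ← Finset.sum_sub_distrib, CD.wt_test hW, ← D.Iw_const]
  simp only [← mul_sub]
  exact D.abs_sum_om fun j hj => (Gm_facts h hj (Nat.zero_le 6) 0).2.2

end cd

end Crest.Agent.T156.Cas.Y20

end
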