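import Crest.Agent.T156.Q2Gs_14
import Crest.Agent.T156.LegB_51
import Crest.Agent.T156.CaPe_45

/-!
# Row 156 (helper14): one site at small times: drift, second moment, covariance of odd functionals
-/

set_option autoImplicit false

noncomputable section

namespace Crest.Agent.T156.Cas.Yh14

open Finset Real Filter Topology MeasureTheory
open Crest.Agent.T157.E Crest.Agent.T157.Casc Crest.Agent.T157.SL
open Crest.ProbabilityR.SpinGlassDynamics (spin)
open One15 Ker15

variable {L : List (Lv Bool)}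

theorem xs_add (z z' : Bool → ℝ) : xs (z + z') = xs z + xs z' := by
  simp only [xs, Pi.add_apply]; ring

/-- integration by parts against the field of the site -/
theorem stein1 {l : Lv Bool} {v : ℝ} (hv : ∀ a b, l.cov a b = v * (spin a * spin b))
    (L : List (Lv Bool)) {Φ : (Bool → ℝ) → ℝ} {Ψ : Bool → (Bool → ℝ) → ℝ} (hΦ : Gr Φ Ψ)
    (h : Bool → ℝ) : tE l (X (fun _ => 1) L) (fun z => xs z * Φ z) h =
      xs h * tE l (X (fun _ => 1) L) Φ h + v * ∑ y, spin y * tE l (X (fun _ => 1) L)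
        (fun z => Ψ y z + l.m * (Φ z * P (fun _ => 1) L z y)) h := by
  have hX := lg_X w1 L
  obtain ⟨B, hB0, hB⟩ := Pe.fld_bd l
  have i2 : ∀ i, Integrable (fun g : l.ι → ℝ => g i *
      (exp (l.m * X (fun _ => 1) L (h + l.fld g)) * Φ (h + l.fld g))) (gv l.ι) := fun i =>
    Pe.eg_int ((Eg.coord i).mul (Pe.eg_comp ((hX.exp l.m).mul hΦ.eg)
      (φ := fun g => h + l.fld g) (continuous_const.add (Pe.cont_fld l)) hB0
      fun g => (norm_add_le _ _).trans (add_le_add le_rfl (hB g))))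
  have e1 : tE l (X (fun _ => 1) L) (fun z => xs z * Φ z) h =
      xs h * tE l (X (fun _ => 1) L) Φ h + ∑ i, (l.A true i - l.A false i) / 2 *
      ((∫ g, g i * (exp (l.m * X (fun _ => 1) L (h + l.fld g)) * Φ (h + l.fld g)) ∂gv l.ι) /
        ∫ g, exp (l.m * X (fun _ => 1) L (h + l.fld g)) ∂gv l.ι) := by
    rw [tE, tE]
    simp only [← mul_div_assoc, ← Finset.sum_div, ← integral_const_mul]
    rw [← add_div]
    congr 1
    rw [← integral_finsetSum _ fun i _ => (i2 i).const_mul _,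
      ← integral_add ((hX.int hΦ.eg l h).const_mul _)
        (integrable_finsetSum _ fun i _ => (i2 i).const_mul _)]
    refine integral_congr_ae (.of_forall fun g => ?_)
    have e : xs (l.fld g) = ∑ i, (l.A true i - l.A false i) / 2 * g i := by
      simp only [xs, Lv.fld, ← Finset.sum_sub_distrib, Finset.sum_div]
      exact Finset.sum_congr rfl fun i _ => by ring
    simp only [xs_add, e, add_mul, mul_add, Finset.sum_mul, Finset.mul_sum]
    exact congrArg₂ (· + ·) (by ring) (Finset.sum_congr rfl fun i _ => by ring)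
  rw [e1]
  simp only [stein_tE hΦ (gr_X w1 L) hX, Finset.mul_sum]
  rw [Finset.sum_comm]
  refine congrArg _ (Finset.sum_congr rfl fun y _ => ?_)
  have e2 : ∑ i, (l.A true i - l.A false i) / 2 * l.A y i = v * spin y := by
    have h1 := hv true y
    have h2 := hv false y
    simp only [Lv.cov] at h1 h2
    simp only [sub_div, sub_mul, Finset.sum_sub_distrib, div_mul_eq_mul_div, ← Finset.sum_div, h1, h2]
    cases y <;> simp [spin] <;> ring
  simp only [← mul_assoc]
  rw [← Finset.sum_mul, e2]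

theorem gr_xs : Gr xs fun y _ => spin y / 2 :=
  ⟨lg_xs.eg, fun _ => Eg.const _, fun h => by
    have e : xs = ⇑(Crest.Agent.R339.Guerra.dual fun y : Bool => spin y / 2) :=
      funext fun z => by rw [xs_eq, R339.Guerra.dual_apply]
    rw [e]
    exact ContinuousLinearMap.hasFDerivAt _⟩

theorem abs_Pf (L : List (Lv Bool)) (z : Bool → ℝ) : |Pf (fun _ => 1) L z spin| ≤ 1 := by
  have := abs_TE_le w1 .one L z (F := fun x => spin (x ())) fun _ => (One15.abs_spin _).le
  rwa [Law.TE_one w1] at this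

/-- the form of `stein1` with a constant derivative `c` along the field -/
theorem stein2 {l : Lv Bool} {v : ℝ} (hv : ∀ a b, l.cov a b = v * (spin a * spin b))
    (L : List (Lv Bool)) {Φ : (Bool → ℝ) → ℝ} {c : ℝ} (hΦ : Gr Φ fun y _ => c * (spin y / 2))
    (h : Bool → ℝ) : tE l (X (fun _ => 1) L) (fun z => xs z * Φ z) h =
      xs h * tE l (X (fun _ => 1) L) Φ h + v * (c + l.m * tE l (X (fun _ => 1) L)
        (fun z => Φ z * Pf (fun _ => 1) L z spin) h) := by
  have hX := lg_X w1 L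
  have e : ∀ y, Eg fun z => Φ z * P (fun _ => 1) L z y := fun y => hΦ.eg.mul (eg_P w1 L y)
  rw [stein1 hv L hΦ]
  simp only [tE_add hX (Eg.const _) ((e _).const_mul _), tE_const hX, tE_const_mul]
  simp only [Pf, Finset.mul_sum, ← mul_assoc]
  rw [tE_sum hX _ fun y _ => (e y).mul_const _]
  simp only [tE_mul_const, Fintype.sum_bool]
  simp [spin]
  ring

theorem R1.tail {l : Lv Bool} (H : R1 (l :: L)) : R1 L := fun k hk => H k (List.mem_cons_of_mem _ hk)

theorem R1.drop (H : R1 L) (j : ℕ) : R1 (L.drop j) := fun k hk => H k (List.mem_of_mem_drop hk)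

theorem tm_add (L : List (Lv Bool)) (y k : ℕ) : tm L (y + k) = tm L y + tm (L.drop y) k := by
  simp only [tm, cacc, List.take_add, List.map_append, List.sum_append]

theorem tm_nonneg (H : R1 L) (k : ℕ) : 0 ≤ tm L k := by
  simpa [tm, cacc] using H.tm_mono (Nat.zero_le k)

theorem eg_M (L : List (Lv Bool)) : Eg fun z => Pf (fun _ => 1) L z spin :=
  Eg.sum _ fun x _ => (eg_P w1 L x).mul_const _

theorem abs_tE_M (l : Lv Bool) (L : List (Lv Bool)) (h : Bool → ℝ) :
    |tE l (X (fun _ => 1) L) (fun z => Pf (fun _ => 1) L z spin) h| ≤ 1 :=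
  (Leg51.abs_tE_le w1 l L (eg_M L) (Eg.const 1) (abs_Pf L) h).trans_eq (tE_const (lg_X w1 L) l _ h)

/-- the mean of the field after one level -/
theorem tE_xs {l : Lv Bool} {v : ℝ} (hv : ∀ a b, l.cov a b = v * (spin a * spin b))
    (L : List (Lv Bool)) (h : Bool → ℝ) : tE l (X (fun _ => 1) L) xs h =
      xs h + v * (l.m * tE l (X (fun _ => 1) L) (fun z => Pf (fun _ => 1) L z spin) h) := by
  have := stein2 hv L (c := 0) ((Gr.const 1).congr fun _ _ => zero_mul _) h
  simpa only [mul_one, one_mul, zero_add, tE_const (lg_X w1 L)] using this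

/-- **drift** -/
theorem drift : ∀ {L : List (Lv Bool)}, R1 L → Mono 0 L → ∀ (k : ℕ) (z : Bool → ℝ),
    |node (fun _ => 1) L k xs z - xs z| ≤ tm L k
  | _, _, _, 0, z => by simp [tm, cacc]
  | [], _, _, _ + 1, z => by simp [tm, cacc]
  | l :: L, H, hM, k + 1, z => by
      obtain ⟨v, h0, hv⟩ := H l List.mem_cons_self
      have hX := lg_X w1 L
      have h1 := (Leg51.abs_tE_le w1 l L ((lg_xs.eg.node w1 L k).sub lg_xs.eg) (Eg.const _)
        (drift (R1.tail H) (mono_tail hM) k) z).trans_eq (tE_const hX l _ z)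
      rw [tE_sub hX (lg_xs.eg.node w1 L k) lg_xs.eg, tE_xs hv] at h1
      have h2 : |v * (l.m * tE l (X (fun _ => 1) L) (fun z => Pf (fun _ => 1) L z spin) z)| ≤ v := by
        rw [abs_mul, abs_mul, abs_of_nonneg h0]
        exact mul_le_of_le_one_right h0
          (mul_le_one₀ (Leg51.abs_m_le hM) (abs_nonneg _) (abs_tE_M l L z))
      have h3 : tm (l :: L) (k + 1) = v + tm L k := by
        rw [tm, Sd.cacc_cons, hv]; simp [spin, tm]
      rw [node_cons, h3]
      rw [abs_le] at h1 h2 ⊢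
      constructor <;> linarith [h1.1, h1.2, h2.1, h2.2]

theorem tE_sq {l : Lv Bool} (H : R1 (l :: L)) (hM : Mono 0 (l :: L)) (h : Bool → ℝ) :
    |tE l (X (fun _ => 1) L) (fun z => xs z * xs z) h - xs h * xs h - tm (l :: L) 1| ≤
      tm (l :: L) 1 * (|xs h| + tE l (X (fun _ => 1) L) (fun z => |xs z|) h) := by
  obtain ⟨v, h0, hv⟩ := H l List.mem_cons_self
  have h3 : tm (l :: L) 1 = v := by simp [tm, cacc, hv, spin]
  have h4 := Leg51.abs_tE_le w1 l L (lg_xs.eg.mul (eg_M L)) lg_xs.eg.abs (fun z => by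
    rw [abs_mul]; exact mul_le_of_le_one_right (abs_nonneg _) (abs_Pf L z)) h
  rw [stein2 hv L (c := 1) (gr_xs.congr fun _ _ => one_mul _), tE_xs hv, h3]
  set A := tE l (X (fun _ => 1) L) (fun z => Pf (fun _ => 1) L z spin) h with hA
  set B := tE l (X (fun _ => 1) L) (fun z => xs z * Pf (fun _ => 1) L z spin) h
  rw [show xs h * (xs h + v * (l.m * A)) + v * (1 + l.m * B) - xs h * xs h - v =
    v * (l.m * (xs h * A + B)) by ring, abs_mul, abs_mul, abs_of_nonneg h0]
  refine mul_le_mul_of_nonneg_left ((mul_le_of_le_one_left (abs_nonneg _)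
    (Leg51.abs_m_le hM)).trans ((abs_add_le _ _).trans (add_le_add ?_ h4))) h0
  rw [abs_mul]
  exact mul_le_of_le_one_right (abs_nonneg _) (abs_tE_M l L h)

/-- **second moment** -/
theorem second (H : R1 L) (hM : Mono 0 L) {J : ℕ} (hJ : J ≤ L.length) {A : ℝ}
    (hA : ∀ j ≤ J, node (fun _ => 1) L j (fun z => |xs z|) 0 ≤ A) : ∀ k ≤ J,
    |node (fun _ => 1) L k (fun z => xs z * xs z) 0 - tm L k| ≤ 2 * A * tm L k
  | 0, _ => by simp [tm, cacc, xs_zero]
  | k + 1, hk => by
      have ih := second H hM hJ hA k (by omega)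
      have e := List.drop_eq_getElem_cons (show k < L.length by omega)
      have H' := R1.drop H k
      have hM' : Mono 0 (L.drop k) := mono_drop k hM
      have n1 : ∀ Φ, node (fun _ => 1) L (k + 1) Φ =
          node (fun _ => 1) L k (tE L[k] (X (fun _ => 1) (L.drop (k + 1))) Φ) := fun Φ => by
        rw [add_comm, ← node_node, e, node_cons, node_zero, add_comm]
      have e2 := lg_xs.eg.mul lg_xs.eg
      have hX := lg_X w1 (L.drop (k + 1))
      rw [e] at H' hM'
      have h1 := abs_node_le w1 (((e2.tE hX _).sub e2).sub (Eg.const _))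
        ((lg_xs.eg.abs.add (lg_xs.eg.abs.tE hX _)).const_mul _) (tE_sq H' hM') L k 0
      rw [node_sub w1 ((e2.tE hX _).sub e2) (Eg.const _), node_sub w1 (e2.tE hX _) e2,
        node_const w1, node_const_mul, node_add w1 lg_xs.eg.abs (lg_xs.eg.abs.tE hX _), ← n1, ← n1,
        ← e] at h1
      have h2 := mul_le_mul_of_nonneg_left (add_le_add (hA k (by omega)) (hA _ hk))
        (tm_nonneg (R1.drop H k) 1)
      beta_reduce at h1
      rw [tm_add]
      rw [abs_le] at h1 ih ⊢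
      constructor <;> linarith [h1.1, h1.2, ih.1, ih.2]

theorem exp_le {σ : ℝ} (h : σ ≤ 1) : exp (1 / 2 + √σ) ≤ 8 := by
  have h1 : √σ ≤ 1 := sqrt_le_one.2 h
  have h2 : exp (1 / 2 + √σ) ≤ exp 1 * exp 1 := by rw [← exp_add]; exact exp_le_exp.2 (by linarith)
  nlinarith [exp_one_lt_d9, exp_pos 1]

variable {x : ℝ} {J y : ℕ}

theorem mom' (H : R1 L) (hM : Mono 0 L) (h0 : 0 ≤ x) (h1 : x ≤ 1) (hσ : tm L y ≤ x ^ 3) :
    node (fun _ => 1) L y (fun z => |xs z|) 0 ≤ 16 * x ∧
    node (fun _ => 1) L y (fun z => |xs z| * |xs z|) 0 ≤ 32 * x ^ 3 ∧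
    node (fun _ => 1) L y (fun z => xs z * xs z * (xs z * xs z)) 0 ≤ 384 * x ^ 6 := by
  have h3 : 0 ≤ x ^ 3 := by positivity
  have he := exp_le (pow_le_one₀ h0 h1 : x ^ 3 ≤ 1)
  have hs : √(x ^ 3) ≤ x := sqrt_le_iff.2 ⟨h0, pow_le_pow_of_le_one h0 h1 (by norm_num)⟩
  have m1 := Q75.Gs14.mom H hM 1 hσ
  have m2 := Q75.Gs14.mom H hM 2 hσ
  have m4 := Q75.Gs14.mom H hM 4 hσ
  rw [show (4 : ℕ) = 2 * 2 from rfl] at m4
  simp only [pow_mul, sq_sqrt h3, sq_abs, pow_one] at m1 m4
  rw [sq_sqrt h3] at m2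
  simp only [sq] at m2 m4
  norm_num [Nat.factorial] at m1 m2 m4
  refine ⟨m1.trans ?_, ?_, m4.trans ?_⟩
  · nlinarith [sqrt_nonneg (x ^ 3), exp_pos (1 / 2 + √(x ^ 3))]
  · simp only [abs_mul_abs_self]
    nlinarith
  · nlinarith [mul_nonneg h3 h3]

theorem amgm {u W : (Bool → ℝ) → ℝ} (hu : Eg u) (hW : Eg W) {A B : ℝ} (h0 : 0 ≤ x) (h1 : x ≤ 1)
    (hB : 0 ≤ B) (k1 : node (fun _ => 1) L y (fun z => u z * u z) 0 ≤ A * x ^ 3)
    (k2 : node (fun _ => 1) L y (fun z => W z * W z) 0 ≤ B * x ^ 6) :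
    2 * node (fun _ => 1) L y (fun z => u z * W z) 0 ≤ (A + B) * x ^ 4 := by
  have k : ∀ t : ℝ, t * (2 * node (fun _ => 1) L y (fun z => u z * W z) 0) ≤
      t ^ 2 * (A * x ^ 3) + B * x ^ 6 := fun t => by
    have := node_mono w1 ((hu.mul hW).const_mul (t * 2)) (((hu.mul hu).const_mul (t ^ 2)).add
      (hW.mul hW)) (fun z => by nlinarith [sq_nonneg (t * u z - W z)]) L y 0
    rw [node_add w1 ((hu.mul hu).const_mul _) (hW.mul hW), node_const_mul, node_const_mul] at this
    beta_reduce at this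
    nlinarith [mul_le_mul_of_nonneg_left k1 (sq_nonneg t)]
  rcases h0.eq_or_lt with rfl | h
  · simpa using k 1
  · refine le_of_mul_le_mul_left ((k x).trans ?_) h
    have : x ^ 6 ≤ x ^ 5 := pow_le_pow_of_le_one h0 h1 (by norm_num)
    nlinarith

/-- linear in the field up to a quadratic error -/
structure Ln (c a : ℝ) (φ : (Bool → ℝ) → ℝ) : Prop where
  eg : Eg φ
  bd : |a| ≤ c
  ap : ∀ z, |φ z - a * xs z| ≤ c * (xs z * xs z)

theorem Ln.node {c a : ℝ} {φ : (Bool → ℝ) → ℝ} (h : Ln c a φ) (H : R1 L) (hM : Mono 0 L) (k : ℕ)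
    {σ : ℝ} (hσ : tm L k ≤ σ) (z : Bool → ℝ) : |node (fun _ => 1) L k φ z - a * xs z| ≤
      c * (node (fun _ => 1) L k (fun z => xs z * xs z) z + σ) := by
  have h1 := abs_node_le w1 (h.eg.sub (lg_xs.eg.const_mul a))
    ((lg_xs.eg.mul lg_xs.eg).const_mul c) h.ap L k z
  rw [node_sub w1 h.eg (lg_xs.eg.const_mul a), node_const_mul, node_const_mul] at h1
  have h2 := mul_le_mul h.bd ((drift H hM k z).trans hσ) (abs_nonneg _)
    ((abs_nonneg _).trans h.bd)
  rw [← abs_mul, abs_le] at h2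
  beta_reduce at h1
  rw [abs_le] at h1 ⊢
  constructor <;> linarith [h1.1, h1.2, h2.1, h2.2]

/-- **covariance of two odd functionals of the state at depth `J`, split at `y ≤ J`** -/
theorem cov (H : R1 L) (hM : Mono 0 L) (hy : y ≤ J) (hJ : J ≤ L.length) (h0 : 0 ≤ x) (h1 : x ≤ 1)
    (hσ : tm L J ≤ x ^ 3) {c a b : ℝ} {φ ψ : (Bool → ℝ) → ℝ} (hφ : Ln c a φ) (hψ : Ln c b ψ) :
    |node (fun _ => 1) L y (fun z => node (fun _ => 1) (L.drop y) (J - y) φ z *
      node (fun _ => 1) (L.drop y) (J - y) ψ z) 0 - a * b * tm L y| ≤ 2000 * c ^ 2 * x ^ 4 := by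
  have hc : 0 ≤ c := (abs_nonneg _).trans hφ.bd
  have h3 : 0 ≤ x ^ 3 := by positivity
  have ht : ∀ j ≤ J, tm L j ≤ x ^ 3 := fun j hj => (H.tm_mono hj).trans hσ
  have H' := R1.drop H y
  have hM' : Mono 0 (L.drop y) := mono_drop y hM
  have hσ' : tm (L.drop y) (J - y) ≤ x ^ 3 := by
    have := tm_add L y (J - y)
    rw [Nat.add_sub_cancel' hy] at this
    linarith [tm_nonneg H y]
  have e2 := lg_xs.eg.mul lg_xs.eg
  set Q := node (fun _ => 1) (L.drop y) (J - y) (fun z => xs z * xs z) with hQ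
  have eQ : Eg Q := e2.node w1 _ _
  have eW : Eg fun z => Q z + x ^ 3 := eQ.add (Eg.const _)
  have q1 := node_mono w1 (eQ.mul eQ) ((e2.mul e2).node w1 _ _)
    (Lad79.node_sq w1 _ e2 (J - y)) L y 0
  rw [node_node, Nat.sub_add_cancel hy] at q1
  have q2 := node_mono w1 (eW.mul eW) (((eQ.mul eQ).const_mul 2).add (Eg.const (2 * x ^ 6)))
    (fun z => by nlinarith [sq_nonneg (Q z - x ^ 3)]) L y 0
  rw [node_add w1 ((eQ.mul eQ).const_mul 2) (Eg.const _), node_const_mul, node_const w1] at q2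
  beta_reduce at q2
  have q3 : node (fun _ => 1) L y (fun z => (Q z + x ^ 3) * (Q z + x ^ 3)) 0 ≤ 770 * x ^ 6 := by
    linarith [(mom' H hM h0 h1 hσ).2.2]
  have q4 := amgm lg_xs.eg.abs eW h0 h1 (by norm_num) (mom' H hM h0 h1 (ht y hy)).2.1 q3
  have q5 := second H hM hJ (fun j hj => (mom' H hM h0 h1 (ht j hj)).1) y hy
  have eφ := hφ.eg.node w1 (L.drop y) (J - y)
  have eψ := hψ.eg.node w1 (L.drop y) (J - y)
  have q6 := abs_node_le w1 ((eφ.mul eψ).sub (e2.const_mul (a * b)))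
    ((((lg_xs.eg.abs.mul eW).const_mul 2).add (eW.mul eW)).const_mul (c ^ 2)) (fun z => by
      have k1 := hφ.node H' hM' (J - y) hσ' z
      have k2 := hψ.node H' hM' (J - y) hσ' z
      rw [← hQ] at k1 k2
      set F := node (fun _ => 1) (L.drop y) (J - y) φ z
      set G := node (fun _ => 1) (L.drop y) (J - y) ψ z
      set W := Q z + x ^ 3
      rw [show F * G - a * b * (xs z * xs z) = a * xs z * (G - b * xs z) +
        b * xs z * (F - a * xs z) + (F - a * xs z) * (G - b * xs z) by ring]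
      refine (abs_add_three _ _ _).trans ?_
      simp only [abs_mul]
      have k3 := mul_le_mul (mul_le_mul_of_nonneg_right hφ.bd (abs_nonneg (xs z))) k2
        (abs_nonneg _) (by positivity)
      have k4 := mul_le_mul (mul_le_mul_of_nonneg_right hψ.bd (abs_nonneg (xs z))) k1
        (abs_nonneg _) (by positivity)
      have k5 := mul_le_mul k1 k2 (abs_nonneg _) ((abs_nonneg _).trans k1)
      nlinarith) L y 0
  rw [node_sub w1 (eφ.mul eψ) (e2.const_mul _), node_const_mul, node_const_mul,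
    node_add w1 ((lg_xs.eg.abs.mul eW).const_mul 2) (eW.mul eW), node_const_mul] at q6
  beta_reduce at q6
  have q7 : |a * b| ≤ c ^ 2 := by
    rw [abs_mul, sq]; exact mul_le_mul hφ.bd hψ.bd (abs_nonneg _) hc
  have q8 := mul_le_mul q7 (q5.trans (mul_le_mul_of_nonneg_left (ht y hy) (by positivity)))
    (abs_nonneg _) (by positivity)
  have q9 : x ^ 6 ≤ x ^ 4 := pow_le_pow_of_le_one h0 h1 (by norm_num)
  have q10 := mul_le_mul_of_nonneg_left (add_le_add q4 (q3.trans
    (mul_le_mul_of_nonneg_left q9 (by norm_num)))) (sq_nonneg c)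
  rw [← abs_mul, abs_le] at q8
  rw [abs_le] at q6 ⊢
  have q11 : 0 ≤ c ^ 2 * x ^ 4 := by positivity
  constructor <;> nlinarith [q6.1, q6.2, q8.1, q8.2]

end Crest.Agent.T156.Cas.Yh14

end
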