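import Crest.Agent.T156.CYhA_14
import Crest.Agent.T156.Lsg_89
import Crest.Agent.T156.CavR_22

/-!
# Row 156 (helper14): one low edge on a marked pair of the site
-/

set_option autoImplicit false

noncomputable section

namespace Crest.Agent.T156.Cas.Yh14

open Finset Real Filter Topology MeasureTheory
open Crest.Agent.T157.E Crest.Agent.T157.Casc Crest.Agent.T157.SL
open Crest.ProbabilityR.SpinGlassDynamics (spin)
open One15 Ker15 Leg51 Lsg89

/-! ### exact forms -/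

section exact
variable {Ω : Type} [Fintype Ω] {w : Ω → ℝ} {ε : ℝ}

theorem lw_two (hw : Wt w) (W : List (Unit × (Ω → ℝ))) (K : Ω → Ω → ℝ) (m : ℕ) :
    ∀ (i : ℕ) (L : List (Lv Ω)) (h : Ω → ℝ), i ≤ L.length →
    LW ε i L W (cst (TEf w L h)) (.two (m + i + 1)) (fun _ => (Sh.two (m + i + 1)).fst)
      (pr2 (m + i + 1) K) = node w L i (fun z => LW ε 0 (L.drop i) W (cst (TEf w (L.drop i) z))
        (.two (m + 1)) (fun _ => (Sh.two (m + 1)).fst) (pr2 (m + 1) K)) h
  | 0, L, h, _ => by rw [node_zero]; rfl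
  | i + 1, l :: L, h, hi => by
      refine (LW_step_TE hw l L h W (.two (m + i + 1)) _ _).trans ?_
      rw [node_cons]
      exact congrArg (fun Ψ => tE l (X w L) Ψ h)
        (funext fun z => lw_two hw W K m i L z (Nat.le_of_succ_le_succ hi))

/-- a new leaf at depth `y ≤ i` and one leg in the cluster of the marked pair -/
theorem lw_graft (hw : Wt w) (f u : Ω → ℝ) (K : Ω → Ω → ℝ) (m : ℕ) :
    ∀ (y i : ℕ) (L : List (Lv Ω)) (h : Ω → ℝ), y ≤ i → i ≤ L.length →
    LW ε i L [((), f)] (cst (TEf w L h))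
      ((Sh.two (m + i + 1)).graft (Sh.two (m + i + 1)).fst y)
      (fun _ => (Sh.two (m + i + 1)).emb (Sh.two (m + i + 1)).fst y (Sh.two (m + i + 1)).fst)
      (fun x => pr2 (m + i + 1) K
        (fun b => x ((Sh.two (m + i + 1)).emb (Sh.two (m + i + 1)).fst y b)) *
        u (x ((Sh.two (m + i + 1)).nw (Sh.two (m + i + 1)).fst y))) =
    node w L y (fun z => node w (L.drop y) (i - y) (fun z => LW ε 0 (L.drop i) [((), f)]
      (cst (TEf w (L.drop i) z)) (.two (m + 1)) (fun _ => (Sh.two (m + 1)).fst) (pr2 (m + 1) K)) z *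
      Pf w (L.drop y) z u) h
  | 0, i, L, h, _, hi => by
      rw [node_zero, List.drop_zero, Nat.sub_zero, ← lw_two hw _ K m i L h hi]
      refine ((LW_lg L ((), f) [] _ _ _ _).trans
        (lg_inl L (.two (m + i + 1)) .one _ _)).trans (Eq.trans ?_
        ((lg_mul_const L (.two (m + i + 1)) _ (Pf w L h u) _).trans
          (congrArg (· * _) (LW_lg L ((), f) [] _ _ _ _).symm)))
      congr 1
      funext s' e c
      refine Eq.trans ?_ ((TEf_split hw L h s' .one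
        (fun x => pr2 (m + i + 1) K (fun b => x (e b)) * f (x c)) fun x => u (x ())).trans
        (congrArg _ (Law.TE_one hw L h _)))
      exact congrArg (TEf w L h (.split s' .one)) (funext fun x => mul_right_comm _ _ _)
  | _ + 1, 0, _, _, hy, _ => absurd hy (Nat.not_succ_le_zero _)
  | y + 1, i + 1, l :: L, h, hy, hi => by
      refine (LW_step_TE hw l L h _
        ((Sh.two (m + i + 1)).graft (Sh.two (m + i + 1)).fst y) _ _).trans ?_
      rw [node_cons, Nat.add_sub_add_right]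
      exact congrArg (fun Ψ => tE l (X w L) Ψ h) (funext fun z =>
        lw_graft hw f u K m y i L z (Nat.le_of_succ_le_succ hy) (Nat.le_of_succ_le_succ hi))

end exact

variable {L : List (Lv Bool)} {x : ℝ} {J : ℕ}

/-! ### a new leaf that is alone -/

theorem alone (H : R1 L) (hM : Mono 0 L) (s : Sh) (a : s.Lf) (j : ℕ) (k : s.Lf → ℕ)
    (hN : Fintype.card s.Lf ≤ 3) {σ : ℝ} (hσ : tm L j ≤ σ) (h1 : σ ≤ 1) :
    |TE (fun _ => 1) (s.graft a j) L 0 fun x =>
      mo k (fun b => x (s.emb a j b)) * spin (x (s.nw a j))| ≤ 2048 * σ := by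
  have h0 := (tm_nonneg H j).trans hσ
  have hb : Odd (bd (s.graft a j) (pk (s.emb a j) k + Pi.single (s.nw a j) 1) (s.nw a j) j) := by
    rw [bd, Wt87.sum_graft, if_pos (Wt87.shr_self _ _ _), Finset.sum_eq_zero fun b _ => if_neg (by
      rw [Wt87.shr_nw']
      have := Wt87.shr_le s b a (min j (j + 1))
      omega)]
    simp [pk, Tay38.emb_ne]
  have hc : Continuous fun u : ℝ => PB 4 u := by unfold PB; fun_prop
  have h2 := ge_of_tendsto (x := 𝓝[>] σ) (hc.continuousAt.tendsto.mono_left nhdsWithin_le_nhds)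
    (eventually_nhdsWithin_of_forall fun u hu => par1 H hM _ _ (N := 4)
      (by rw [Wt87.card_graft]; omega) hb (h0.trans_lt hu) (hσ.trans (le_of_lt hu)))
  simp only [mo_pk, ← mo_single, ← mo_add]
  refine h2.trans ?_
  rw [PB]
  nlinarith [mul_le_mul_of_nonneg_right (exp_le h1) h0]

theorem alone' (H : R1 L) (hM : Mono 0 L) (s : Sh) (a : s.Lf) (j : ℕ) (u v r : s.Lf)
    (hN : Fintype.card s.Lf ≤ 3) {σ q : ℝ} (hσ : tm L j ≤ σ) (h1 : σ ≤ 1) (hq : |q| ≤ 1) :
    |TE (fun _ => 1) (s.graft a j) L 0 fun x =>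
      (spin (x (s.emb a j u)) * spin (x (s.emb a j v)) - q) *
        (spin (x (s.emb a j r)) * spin (x (s.nw a j)))| ≤ 4096 * σ := by
  have h2 := alone H hM s a j (Pi.single u 1 + Pi.single v 1 + Pi.single r 1) hN hσ h1
  have h3 := alone H hM s a j (Pi.single r 1) hN hσ h1
  simp only [mo_add, mo_single] at h2 h3
  simp only [sub_mul, ← mul_assoc]
  simp only [mul_assoc q]
  rw [Law.TE_sub w1, Law.TE_const_mul w1]
  refine (abs_sub _ _).trans ?_
  rw [abs_mul q]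
  linarith [mul_le_mul hq h3 (abs_nonneg _) zero_le_one]

/-! ### ladders -/

theorem ln_of_lad {c : ℝ} (hc : |c| ≤ 1) {g f : ℕ → ℝ → ℝ} (hg : Lad c (g 0) g)
    (hf : Lad c (g 0) f) (bg : ∀ k y, |g k y| ≤ bM k) (bf : ∀ k y, |f k y| ≤ bM k) (g0 : g 0 0 = 0)
    (k : ℕ) (f0 : f k 0 = 0) (y : ℝ) :
    |f k y - f (k + 1) 0 * y| ≤ (cS bM 1 (k + 1) + cS bM 1 0 * bM k) * (y * y) := by
  have n1 := cS_nn bM_nn 1 (k + 1)
  have n2 := cS_nn bM_nn 1 0
  have := abs_le_of_deriv (f := fun y => f k y - f (k + 1) 0 * y)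
    (fun y => (hf k y).fun_sub ((hasDerivAt_id y).const_mul _)) y
    (C := (cS bM 1 (k + 1) + cS bM 1 0 * bM k) * |y|) fun u hu => by
      have h1 := Lad.lip hc bM_nn hg hf bg bf (k + 1) u
      have h2 := Lad.lip hc bM_nn hg hg bg bg 0 u
      rw [g0, sub_zero] at h2
      have h3 := mul_le_mul (mul_le_mul hc h2 (abs_nonneg _) zero_le_one) (bf k u) (abs_nonneg _)
        (by positivity)
      rw [← abs_mul, ← abs_mul] at h3
      have h4 := mul_le_mul_of_nonneg_left hu (add_nonneg n1 (mul_nonneg n2 (bM_nn k)))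
      rw [mul_one, sub_right_comm]
      exact (abs_sub _ _).trans (by linarith)
  simpa only [f0, mul_zero, sub_zero, mul_assoc, abs_mul_abs_self] using this

/-- the common constant -/
def cL : ℝ := bM 1 + bM 2 + cS bM 1 1 + cS bM 1 2 + cS bM 1 0 * bM 0 + cS bM 1 0 * bM 1

theorem cL_parts : 0 ≤ bM 1 ∧ 0 ≤ bM 2 ∧ 0 ≤ cS bM 1 1 ∧ 0 ≤ cS bM 1 2 ∧ 0 ≤ cS bM 1 0 * bM 0 ∧
    0 ≤ cS bM 1 0 * bM 1 := ⟨bM_nn _, bM_nn _, cS_nn bM_nn _ _, cS_nn bM_nn _ _,
  mul_nonneg (cS_nn bM_nn _ _) (bM_nn _), mul_nonneg (cS_nn bM_nn _ _) (bM_nn _)⟩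

variable {l : Lv Bool} {m : ℕ} {F : ((Sh.two (m + 1)).Lf → Bool) → ℝ}

theorem ln_M (H : R1 (l :: L)) (hM : Mono 0 (l :: L)) :
    Ln cL (gs (l :: L) 1 0) fun z => Pf (fun _ => 1) (l :: L) z spin := by
  obtain ⟨p1, p2, p3, p4, p5, p6⟩ := cL_parts
  have g0 := gs_even_zero (fl_of H.rk) Even.zero
  refine ⟨eg_M _, (abs_gs_bM hM 1 0).trans (by unfold cL; linarith), fun z => ?_⟩
  rw [← GC_nil (ε := -1) w1]
  refine ((congrArg (fun t => |t - _|) (GC_spin (l :: L) 0 z)).trans_le (ln_of_lad (abs_m_le hM)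
    (lad_gs l L) (lad_gs l L) (abs_gs_bM hM) (abs_gs_bM hM) g0 0 g0 _)).trans ?_
  exact mul_le_mul_of_nonneg_right (by unfold cL; linarith) (mul_self_nonneg _)

theorem MG_one (H : R1 (l :: L)) (he : ∀ x, F (fun a => !x a) = F x) :
    MG (l :: L) (.two (m + 1)) F 1 ((0 : ℝ) • spin) = 0 := by
  have h1 := lad_MG l L (s := .two (m + 1)) rfl F 0 0
  rw [gs_even_zero (fl_of H.rk) Even.zero, mul_zero, zero_mul, sub_zero] at h1
  have ev : ∀ e : ℝ, MG (l :: L) (.two (m + 1)) F 0 ((-e) • spin) =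
      MG (l :: L) (.two (m + 1)) F 0 (e • spin) := fun e => by
    have := TE_flip (fl_of H.rk) _ F e
    simp only [he] at this
    exact this
  have h2 := HasDerivAt.comp (0 : ℝ) (h₂ := fun y : ℝ => MG (l :: L) (.two (m + 1)) F 0 (y • spin))
    (h := fun e : ℝ => -e) (by rw [neg_zero]; exact h1) (hasDerivAt_neg' 0)
  simp only [Function.comp_def, ev] at h2
  linarith [h1.unique h2]

theorem ln_MG (H : R1 (l :: L)) (hM : Mono 0 (l :: L)) (hF : ∀ x, |F x| ≤ 2)
    (he : ∀ x, F (fun a => !x a) = F x) :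
    Ln cL (MG (l :: L) (.two (m + 1)) F 2 0) (MG (l :: L) (.two (m + 1)) F 1) := by
  obtain ⟨p1, p2, p3, p4, p5, p6⟩ := cL_parts
  refine ⟨eg_LW w1 _ _ _ _ _ _, (abs_MG_two hM hF 2 0).trans (by unfold cL; linarith), fun z => ?_⟩
  have := ln_of_lad (abs_m_le hM) (lad_gs l L) (lad_MG l L (s := .two (m + 1)) rfl F)
    (abs_gs_bM hM) (fun k y => abs_MG_two hM hF k _) (gs_even_zero (fl_of H.rk) Even.zero) 1
    (MG_one H he) (xs z)
  rw [zero_smul, ← MG_xs] at this
  exact this.trans (mul_le_mul_of_nonneg_right (by unfold cL; linarith) (mul_self_nonneg _))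

/-! ### derivatives at the origin -/

theorem iter_X (H : R1 (l :: L)) : iteratedDeriv 2
    (fun y : ℝ => X (fun _ => 1) (l :: L) fun b => y * spin b) 0 = gs (l :: L) 1 0 := by
  have e : deriv (fun y : ℝ => X (fun _ => 1) (l :: L) fun b => y * spin b) = gs (l :: L) 0 := by
    funext y
    have h1 := (gr_X w1 (l :: L)).line 0 spin y
    simp only [zero_add] at h1
    exact h1.deriv.trans (gs_zero' _ y).symm
  rw [iteratedDeriv_succ, iteratedDeriv_one, e, (hasDerivAt_gs l L 0 0).deriv,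
    gs_even_zero (fl_of H.rk) Even.zero, mul_zero, sub_zero]

theorem iter_sum {α : Type} (A : Finset α) (ω : α → ℝ) {c : ℝ} {g : ℕ → ℝ → ℝ}
    (hg : Lad c (g 0) g) (g0 : g 0 0 = 0) {f : α → ℕ → ℝ → ℝ} (hf : ∀ a ∈ A, Lad c (g 0) (f a)) :
    iteratedDeriv 2 (fun y => ∑ a ∈ A, ω a * f a 0 y) 0 =
      ∑ a ∈ A, ω a * (f a 2 0 - c * g 1 0 * f a 0 0) := by
  have e : deriv (fun y => ∑ a ∈ A, ω a * f a 0 y) =
      fun y => ∑ a ∈ A, ω a * (f a 1 y - c * g 0 y * f a 0 y) :=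
    funext fun y => (HasDerivAt.fun_sum fun a ha => (hf a ha 0 y).const_mul (ω a)).deriv
  rw [iteratedDeriv_succ, iteratedDeriv_one, e, (HasDerivAt.fun_sum fun a ha =>
    ((hf a ha 1 0).fun_sub (((hg 0 0).const_mul c).fun_mul (hf a ha 0 0))).const_mul (ω a)).deriv]
  exact Finset.sum_congr rfl fun a _ => by rw [g0]; ring

/-! ### the two site estimates -/

theorem drop_cons (hJ : J < L.length) : L.drop J = L[J] :: L.drop (J + 1) :=
  List.drop_eq_getElem_cons hJ

theorem ln_M' (H : R1 L) (hM : Mono 0 L) (hJ : J < L.length) :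
    Ln cL (gs (L.drop J) 1 0) fun z => Pf (fun _ => 1) (L.drop J) z spin := by
  have H' := R1.drop H J
  have hM' : Mono 0 (L.drop J) := mono_drop J hM
  rw [drop_cons hJ] at H' hM' ⊢
  exact ln_M H' hM'

/-- **value**: `Γ_y = λ² h_y + O (x⁴)` -/
theorem gam_low (H : R1 L) (hM : Mono 0 L) (hJ : J < L.length) (h0 : 0 ≤ x) (h1 : x ≤ 1)
    (hσ : tm L J ≤ x ^ 3) {y : ℕ} (hy : y ≤ J) :
    |pi2 (fun _ => 1) L y (fun a b => spin a * spin b) 0 - gs (L.drop J) 1 0 ^ 2 * tm L y| ≤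
      2000 * cL ^ 2 * x ^ 4 := by
  have := cov H hM hy hJ.le h0 h1 hσ (ln_M' H hM hJ) (ln_M' H hM hJ)
  simp only [Lad79.node_Pf w1 L hy] at this
  rw [sq (gs _ _ _)]
  simp only [pi2, qf_mul]
  exact this

/-- **test**: one low edge on a marked pair -/
theorem dop_low (H : R1 L) (hM : Mono 0 L) (hj : m + J + 1 ≤ L.length) (h0 : 0 ≤ x) (h1 : x ≤ 1)
    (hσ : tm L J ≤ x ^ 3) (hx : ex L J ≤ x) {c : ℕ → ℝ} (hc0 : ∀ y, J < y → c y = 0) {γ : ℝ}
    (hγ : 0 ≤ γ) (hc : ∀ y ≤ J, |c y| ≤ γ) {q : ℝ} (hq : |q| ≤ 1) :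
    |Dop L (fun y a b => c y * (spin a * spin b)) (TEf (fun _ => 1) L 0) (.two (m + J + 1))
        (pr2 (m + J + 1) fun a b => spin a * spin b - q) +
      2 * (MG (L.drop J) (.two (m + 1)) (pr2 (m + 1) fun a b => spin a * spin b - q) 2 0 *
        gs (L.drop J) 1 0) * ∑ y ∈ range (J + 1), dm L 0 y * (c y * tm L y)| ≤
      (4000 * cL ^ 2 + 8192) * γ * x ^ 5 := by
  have hJ : J < L.length := by omega
  have hx0 := ex_nn hM J
  have ht : ∀ y ≤ J, tm L y ≤ x ^ 3 := fun y hy => (H.tm_mono hy).trans hσ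
  have h3 : x ^ 3 ≤ 1 := pow_le_one₀ h0 h1
  set K : Bool → Bool → ℝ := fun a b => spin a * spin b - q with hK
  have sk : Sk J L .one (.two (m + J + 1)) fun _ => (Sh.two (m + J + 1)).fst := by
    rw [Wt87.fst_two]
    exact (Sk.refl J L .one).graft () (by omega) hj
  have hψ : Ln cL (MG (L.drop J) (.two (m + 1)) (pr2 (m + 1) K) 2 0)
      (MG (L.drop J) (.two (m + 1)) (pr2 (m + 1) K) 1) := by
    have H' := R1.drop H J
    have hM' : Mono 0 (L.drop J) := mono_drop J hM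
    rw [drop_cons hJ] at H' hM' ⊢
    refine ln_MG H' hM' (fun x => (abs_sub _ _).trans ?_) fun x => ?_
    · linarith [Q75.Gs14.abs_ss (x (Sh.twoL (m + 1))) (x (Sh.twoR (m + 1)))]
    · simp only [pr2, hK, One15.spin_not, neg_mul_neg]
  set b := MG (L.drop J) (.two (m + 1)) (pr2 (m + 1) K) 2 0 * gs (L.drop J) 1 0 with hb
  set N : ℕ → ℝ := fun y => node (fun _ => 1) L y (fun z => node (fun _ => 1) (L.drop y) (J - y)
    (MG (L.drop J) (.two (m + 1)) (pr2 (m + 1) K) 1) z * Pf (fun _ => 1) (L.drop y) z spin) 0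
    with hN
  have k1 : ∀ y ≤ J, |N y - b * tm L y| ≤ 2000 * cL ^ 2 * x ^ 4 := fun y hy => by
    have := cov H hM hy hJ.le h0 h1 hσ hψ (ln_M' H hM hJ)
    simp only [Lad79.node_Pf w1 L hy] at this
    exact this
  set Φ : Q (.two (m + J + 1)) → ℝ := fun τ => TE (fun _ => 1) τ.sh L 0 fun x =>
    pr2 (m + J + 1) K (fun b => x (τ.e b)) * (spin (x τ.p) * spin (x τ.q)) with hΦ
  have e0 := sg_low (ε := -1) sk (sep_one J) hJ (by norm_num) hc0 Φ
  have e1 : Dop L (fun y a b => c y * (spin a * spin b)) (TEf (fun _ => 1) L 0) (.two (m + J + 1))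
      (pr2 (m + J + 1) K) = sg (-1) L (.two (m + J + 1))
        fun τ => c τ.j * Φ ⟨τ.sh, τ.e, τ.p, τ.q⟩ := by
    rw [Dop_eq_sg]
    congr 1
    funext τ
    rw [hΦ, ← Law.TE_const_mul w1]
    exact congrArg (TE _ τ.sh L 0) (funext fun x => mul_left_comm _ _ _)
  set a := (Sh.two (m + J + 1)).fst with ha
  have e2 : ∀ y ∈ range (J + 1), ∀ a' : Sh.one.Lf, ∑ b, c (Sh.one.shr b a' y) * lg (-1) J L
      ((Sh.two (m + J + 1)).graft a y) ((Sh.two (m + J + 1)).emb a y a) (fun s2 e2 p =>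
        Φ ⟨s2, fun x => e2 ((Sh.two (m + J + 1)).emb a y x), p,
          e2 ((Sh.two (m + J + 1)).nw a y)⟩) + ∑ b, c (Sh.one.shr a' b y) * lg (-1) J L
      ((Sh.two (m + J + 1)).graft a y) ((Sh.two (m + J + 1)).emb a y a) (fun s2 e2 p =>
        Φ ⟨s2, fun x => e2 ((Sh.two (m + J + 1)).emb a y x),
          e2 ((Sh.two (m + J + 1)).nw a y), p⟩) = c y * (2 * N y) := fun y hy a' => by
    have k := lw_graft (ε := -1) w1 spin spin K m y J L 0 (Nat.lt_succ_iff.1 (mem_range.1 hy)) hJ.le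
    rw [LW_lg] at k
    rw [two_mul, mul_add]
    refine ac ((Wt87.sum_one _).trans (mc (Eq.trans ?_ k)))
      ((Wt87.sum_one _).trans (mc (Eq.trans ?_ k)))
    · congr 1
      funext s e p
      exact congrArg (TE _ s L 0) (funext fun x => by ring)
    · congr 1
      funext s e p
      exact congrArg (TE _ s L 0) (funext fun x => (mul_assoc _ _ _).symm)
  have cd : ∀ (a' : (Sh.two (m + J + 1)).Lf) (k : ℕ),
      Fintype.card ((Sh.two (m + J + 1)).graft a' k).Lf ≤ 3 := fun a' k => by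
    rw [Wt87.card_graft, Wt87.card_two]
  have k2 := abs_cw_lo hM .one J (β := 2 * (ex L J * (γ * (4096 * x ^ 3)))) (by positivity)
    (G := fun a' y => ∑ b : Sh.one.Lf, ∑ k ∈ range (J + 1), cw .one L b k *
        (c (Sh.one.shr a' b (min y k)) * Φ (QA _ a y a k)) +
      ∑ r ∈ range (J - y + 1), dm (L.drop y) 0 r * (c (r + y) * Φ (QC _ a y r))) fun _ y hy => by
    have k3 := abs_cw_lo hM .one J (β := γ * (4096 * x ^ 3)) (by positivity)
      (G := fun _ k => c (min y k) * Φ (QA _ a y a k)) fun _ k hk => by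
      rw [abs_mul]
      refine mul_le_mul (hc _ ((min_le_left _ _).trans hy)) ?_ (abs_nonneg _) hγ
      have := alone' H hM ((Sh.two (m + J + 1)).graft a k) ((Sh.two (m + J + 1)).emb a k a) y
        ((Sh.two (m + J + 1)).emb a k (Sh.twoL _)) ((Sh.two (m + J + 1)).emb a k (Sh.twoR _))
        ((Sh.two (m + J + 1)).nw a k) (cd a k) (ht y hy) h3 hq
      exact (congrArg (fun F => |TE _ _ L 0 F|) (funext fun x => mc (mul_comm _ _))).trans_le this
    have k4 : |∑ r ∈ range (J - y + 1), dm (L.drop y) 0 r * (c (r + y) * Φ (QC _ a y r))| ≤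
        ex L J * (γ * (4096 * x ^ 3)) := by
      have e : ∑ r ∈ range (J - y + 1), dm (L.drop y) 0 r = ex L J := by
        rw [sum_dm, sub_zero]
        simp only [Crest.Agent.T157.Casc.ex, List.getElem?_drop, Nat.add_sub_cancel' hy]
      rw [← e, sum_mul]
      refine (abs_sum_le_sum_abs _ _).trans (sum_le_sum fun r hr => ?_)
      have h4 := dm_nonneg (mono_drop y hM) r
      have h5 : r + y ≤ J := by have := mem_range.1 hr; omega
      rw [abs_mul, abs_of_nonneg h4, abs_mul]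
      refine mul_le_mul_of_nonneg_left (mul_le_mul (hc _ h5) ?_ (abs_nonneg _) hγ) h4
      exact alone' H hM ((Sh.two (m + J + 1)).graft a y) ((Sh.two (m + J + 1)).nw a y) (r + y)
        ((Sh.two (m + J + 1)).emb a y (Sh.twoL _)) ((Sh.two (m + J + 1)).emb a y (Sh.twoR _))
        ((Sh.two (m + J + 1)).nw a y) (cd a y) (ht _ h5) h3 hq
    refine (abs_add_le _ _).trans ?_
    have : (Fintype.card Sh.one.Lf : ℝ) = 1 := Nat.cast_one
    rw [this, one_mul] at k3
    exact (add_le_add k3 k4).trans_eq (two_mul _).symm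
  have k5 := abs_cw_lo hM .one J (β := γ * (2 * (2000 * cL ^ 2 * x ^ 4))) (by positivity)
    (G := fun _ y => c y * (2 * (N y - b * tm L y))) fun _ y hy => by
      rw [abs_mul, abs_mul, abs_two]
      exact mul_le_mul (hc y hy) (mul_le_mul_of_nonneg_left (k1 y hy) zero_le_two)
        (by positivity) hγ
  have c1 : (Fintype.card Sh.one.Lf : ℝ) = 1 := Nat.cast_one
  have so : ∀ G : ℕ → ℝ, ∑ a' : Sh.one.Lf, ∑ y ∈ range (J + 1), cw .one L a' y * G y =
      ∑ y ∈ range (J + 1), dm L 0 y * G y := fun G =>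
    (Wt87.sum_one _).trans (sum_congr rfl fun y _ => congrArg (· * _) (cw_one L () y))
  rw [c1, one_mul] at k2 k5
  rw [so] at k5
  rw [e1, e0, Finset.sum_eq_zero fun a _ => Finset.sum_eq_zero fun b hb =>
    absurd rfl (Finset.ne_of_mem_erase hb), zero_add,
    (sum_congr rfl fun a' _ => sum_congr rfl fun y hy => mc (e2 y hy a')).trans (so _)]
  have e3 : ∑ y ∈ range (J + 1), dm L 0 y * (c y * (2 * (N y - b * tm L y))) =
      ∑ y ∈ range (J + 1), dm L 0 y * (c y * (2 * N y)) -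
        2 * b * ∑ y ∈ range (J + 1), dm L 0 y * (c y * tm L y) := by
    rw [mul_sum, ← sum_sub_distrib]
    exact sum_congr rfl fun y _ => by ring
  rw [e3] at k5
  have k6 : ex L J * (2 * (ex L J * (γ * (4096 * x ^ 3)))) ≤ x * (2 * (x * (γ * (4096 * x ^ 3)))) := by
    gcongr
  have k7 : ex L J * (γ * (2 * (2000 * cL ^ 2 * x ^ 4))) ≤ x * (γ * (2 * (2000 * cL ^ 2 * x ^ 4))) := by
    gcongr
  rw [abs_le] at k2 k5 ⊢
  constructor <;> linarith [k2.1, k2.2, k5.1, k5.2]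

end Crest.Agent.T156.Cas.Yh14

end
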