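import Crest.Agent.T156.CasDef_88

/-!
# Row 156: exponential Aizenman–Contucci bound under the selected law (75's tool, three-point form)
-/

set_option autoImplicit false
set_option linter.unusedSectionVars false

noncomputable section

namespace Crest.Agent.T156.Cas

open MeasureTheory Real Set Filter Topology
open Crest.Agent.T157.E Crest.Agent.T157.Casc Crest.Agent.T157.SL

/-- **exponential AC, three-point form** -/
def EacStmt : Prop := ∀ (Ω : Type) [Fintype Ω] (w : Ω → ℝ), Wt w →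
  ∀ (M₁ M₂ N : List (Lv Ω)) (h : Ω → ℝ) (T : Set (Equiv.Perm Ω)) (x₀ : Ω)
    (F₀ F₂ : (Ω → ℝ) → ℝ) (θ y : ℝ), Mono 0 (M₁ ++ M₂ ++ N) →
    (∀ τ ∈ T, Sym w (M₁ ++ M₂ ++ N) h τ) → (∀ x, w x ≠ 0 → ∃ τ ∈ T, τ x₀ = x) →
    Lg F₀ → Lg F₂ → (∀ τ ∈ T, ∀ z, F₀ (fun x => z (τ x)) = F₀ z) →
    (∀ τ ∈ T, ∀ z, F₂ (fun x => z (τ x)) = F₂ z) → 0 < θ → θ < 1 →
    (∀ z₀ z₂, X w N ((1 - θ) • z₀ + θ • z₂) ≤ (1 - θ) * F₀ z₀ + θ * F₂ z₂) →
    0 ≤ y → y ≤ ex N 0 →
    nodeT (XT F₀ M₂) M₁ (fun z => exp (y * (X w (M₂ ++ N) z - XT F₀ M₂ z))) h ≤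
      exp (y * (θ / (1 - θ) * (XT F₂ (M₁ ++ M₂) h - X w (M₁ ++ M₂ ++ N) h)))

namespace Eac5

variable {Ω : Type} [Fintype Ω] {w : Ω → ℝ} {F G F₀ F₁ F₂ Φ Φ' : (Ω → ℝ) → ℝ}

theorem exp_step' (hF : Lg F) (l : Lv Ω) (z : Ω → ℝ) :
    exp (l.m * step l F z) = ∫ g, exp (l.m * F (z + l.fld g)) ∂gv l.ι := by
  by_cases hm : l.m = 0
  · simp [hm]
  · rw [step, if_neg hm, ← mul_assoc, mul_inv_cancel₀ hm, one_mul, exp_log (hF.Z_pos l z)]

theorem egD (hG : Lg G) (hF : Lg F) (c : ℝ) : Eg fun z => exp (c * (G z - F z)) := by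
  have := (hG.exp c).mul (hF.exp (-c))
  convert this using 2 with z
  rw [← exp_add]; congr 1; ring

theorem lg_XT (hF : Lg F) : ∀ M : List (Lv Ω), Lg (XT F M)
  | [] => hF
  | l :: M => (lg_XT hF M).step l

theorem eg_nodeT (hF : Lg F) (hΦ : Eg Φ) : ∀ M : List (Lv Ω), Eg (nodeT F M Φ)
  | [] => hΦ
  | l :: M => (eg_nodeT hF hΦ M).tE (lg_XT hF M) l

theorem XT_X (w : Ω → ℝ) (L : List (Lv Ω)) : ∀ M : List (Lv Ω), XT (X w L) M = X w (M ++ L)
  | [] => rfl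
  | l :: M => by
    funext z
    show step l (XT (X w L) M) z = step l (X w (M ++ L)) z
    rw [XT_X w L M]

theorem XT_XT (F : (Ω → ℝ) → ℝ) (M₂ : List (Lv Ω)) :
    ∀ M₁ : List (Lv Ω), XT (XT F M₂) M₁ = XT F (M₁ ++ M₂)
  | [] => rfl
  | l :: M => by
    show step l (XT (XT F M₂) M) = step l (XT F (M ++ M₂))
    rw [XT_XT F M₂ M]

theorem nodeT_X (w : Ω → ℝ) (L : List (Lv Ω)) (Φ : (Ω → ℝ) → ℝ) :
    ∀ M : List (Lv Ω), nodeT (X w L) M Φ = node w (M ++ L) M.length Φ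
  | [] => by funext z; cases L <;> rfl
  | l :: M => by
    show tE l (XT (X w L) M) (nodeT (X w L) M Φ) = tE l (X w (M ++ L)) (node w (M ++ L) M.length Φ)
    rw [XT_X, nodeT_X w L Φ M]

theorem nodeT_mono (hF : Lg F) (h : Eg Φ) (h' : Eg Φ') (e : ∀ z, Φ z ≤ Φ' z) :
    ∀ (M : List (Lv Ω)) (z : Ω → ℝ), nodeT F M Φ z ≤ nodeT F M Φ' z
  | [], z => e z
  | l :: M, z => tE_mono (lg_XT hF M) (eg_nodeT hF h M) (eg_nodeT hF h' M)
      (nodeT_mono hF h h' e M) l z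

theorem nodeT_aff (hF : Lg F) (h : Eg Φ) (a b : ℝ) :
    ∀ (M : List (Lv Ω)), nodeT F M (fun z => a + b * Φ z) = fun z => a + b * nodeT F M Φ z
  | [] => rfl
  | l :: M => by
    funext z
    show tE l (XT F M) (nodeT F M fun z => a + b * Φ z) z = a + b * tE l (XT F M) (nodeT F M Φ) z
    rw [nodeT_aff hF h a b M, tE_add (lg_XT hF M) (Eg.const a) ((eg_nodeT hF h M).const_mul b),
      tE_const (lg_XT hF M), tE_const_mul]

/-- the three-point inequality passes through one level -/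
theorem step3 (h0 : Lg F₀) (h1 : Lg F₁) (h2 : Lg F₂) {θ : ℝ} (t0 : 0 ≤ θ) (t1 : θ ≤ 1)
    (H : ∀ z₀ z₂, F₁ ((1 - θ) • z₀ + θ • z₂) ≤ (1 - θ) * F₀ z₀ + θ * F₂ z₂) {l : Lv Ω}
    (hm : 0 ≤ l.m) (z₀ z₂ : Ω → ℝ) :
    step l F₁ ((1 - θ) • z₀ + θ • z₂) ≤ (1 - θ) * step l F₀ z₀ + θ * step l F₂ z₂ := by
  have hz : ∀ g, F₁ ((1 - θ) • z₀ + θ • z₂ + l.fld g) ≤
      (1 - θ) * F₀ (z₀ + l.fld g) + θ * F₂ (z₂ + l.fld g) := fun g => by
    have e : (1 - θ) • z₀ + θ • z₂ + l.fld g = (1 - θ) • (z₀ + l.fld g) + θ • (z₂ + l.fld g) := by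
      funext x; simp only [Pi.add_apply, Pi.smul_apply, smul_eq_mul]; ring
    rw [e]; exact H _ _
  rcases hm.eq_or_lt with hm | hm
  · simp only [step, ← hm, if_true]
    rw [← integral_const_mul, ← integral_const_mul,
      ← integral_add ((h0.eg.int l z₀).const_mul _) ((h2.eg.int l z₂).const_mul _)]
    exact integral_mono (h1.eg.int l _)
      (((h0.eg.int l z₀).const_mul _).add ((h2.eg.int l z₂).const_mul _)) hz
  · set c₀ := step l F₀ z₀ with hc0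
    set c₂ := step l F₂ z₂ with hc2
    rw [← mul_le_mul_iff_of_pos_left hm, ← exp_le_exp, exp_step' h1]
    set K := exp (l.m * ((1 - θ) * c₀ + θ * c₂)) with hK
    have i0 := (h0.exp l.m).int l z₀
    have i2 := (h2.exp l.m).int l z₂
    have e0 := exp_step' h0 l z₀
    have e2 := exp_step' h2 l z₂
    rw [← hc0] at e0
    rw [← hc2] at e2
    calc _ ≤ ∫ g, (K * (1 - θ) * exp (-(l.m * c₀))) * exp (l.m * F₀ (z₀ + l.fld g)) +
          (K * θ * exp (-(l.m * c₂))) * exp (l.m * F₂ (z₂ + l.fld g)) ∂gv l.ι := by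
          refine integral_mono ((h1.exp l.m).int l _) ((i0.const_mul _).add (i2.const_mul _))
            fun g => ?_
          have c := convexOn_exp.2 (mem_univ (l.m * F₀ (z₀ + l.fld g) - l.m * c₀))
            (mem_univ (l.m * F₂ (z₂ + l.fld g) - l.m * c₂)) (sub_nonneg.2 t1) t0 (by ring)
          simp only [smul_eq_mul] at c
          have d : exp (l.m * F₁ ((1 - θ) • z₀ + θ • z₂ + l.fld g)) ≤
              K * exp ((1 - θ) * (l.m * F₀ (z₀ + l.fld g) - l.m * c₀) +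
                θ * (l.m * F₂ (z₂ + l.fld g) - l.m * c₂)) := by
            rw [hK, ← exp_add, exp_le_exp]
            have := mul_le_mul_of_nonneg_left (hz g) hm.le
            linarith
          have hK0 : 0 ≤ K := (exp_pos _).le
          refine d.trans ((mul_le_mul_of_nonneg_left c hK0).trans (le_of_eq ?_))
          simp only [exp_sub, exp_neg]
          field_simp
      _ = K := by
          rw [integral_add (i0.const_mul _) (i2.const_mul _), integral_const_mul,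
            integral_const_mul, ← e0, ← e2, exp_neg, exp_neg]
          field_simp
          ring

theorem XT3 (h0 : Lg F₀) (h1 : Lg F₁) (h2 : Lg F₂) {θ : ℝ} (t0 : 0 ≤ θ) (t1 : θ ≤ 1)
    (H : ∀ z₀ z₂, F₁ ((1 - θ) • z₀ + θ • z₂) ≤ (1 - θ) * F₀ z₀ + θ * F₂ z₂) :
    ∀ M : List (Lv Ω), (∀ l ∈ M, 0 ≤ l.m) → ∀ z₀ z₂,
      XT F₁ M ((1 - θ) • z₀ + θ • z₂) ≤ (1 - θ) * XT F₀ M z₀ + θ * XT F₂ M z₂
  | [], _ => H
  | l :: M, hM => step3 (lg_XT h0 M) (lg_XT h1 M) (lg_XT h2 M) t0 t1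
      (XT3 h0 h1 h2 t0 t1 H M fun k hk => hM k (by simp [hk])) (hM l (by simp))

theorem X_conv (hw : Wt w) {L : List (Lv Ω)} (hL : ∀ l ∈ L, 0 ≤ l.m) {θ : ℝ} (t0 : 0 ≤ θ)
    (t1 : θ ≤ 1) (z₀ z₂ : Ω → ℝ) :
    X w L ((1 - θ) • z₀ + θ • z₂) ≤ (1 - θ) * X w L z₀ + θ * X w L z₂ := by
  set z := (1 - θ) • z₀ + θ • z₂ with hz
  have a0 := X_add_ge hw L hL z (z₀ - z)
  have a2 := X_add_ge hw L hL z (z₂ - z)
  rw [add_sub_cancel] at a0 a2
  have e : (1 - θ) * ∑ x, P w L z x * (z₀ - z) x + θ * ∑ x, P w L z x * (z₂ - z) x = 0 := by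
    rw [Finset.mul_sum, Finset.mul_sum, ← Finset.sum_add_distrib]
    refine Finset.sum_eq_zero fun x _ => ?_
    have : z x = (1 - θ) * z₀ x + θ * z₂ x := by rw [hz]; simp
    simp only [Pi.sub_apply, this]; ring
  have b0 := mul_le_mul_of_nonneg_left a0 (sub_nonneg.2 t1)
  have b2 := mul_le_mul_of_nonneg_left a2 t0
  linarith

theorem inv_step (hF : Lg F) {τ : Equiv.Perm Ω} (H : ∀ z, F (fun x => z (τ x)) = F z) {l : Lv Ω}
    (hc : ∀ x y, l.cov (τ x) (τ y) = l.cov x y) (z : Ω → ℝ) :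
    step l F (fun x => z (τ x)) = step l F z := by
  let l' : Lv Ω := ⟨l.ι, fun x => l.A (τ.symm x), l.m⟩
  have hcov : l'.cov = l.cov := by
    funext x y
    have := hc (τ.symm x) (τ.symm y)
    rw [Equiv.apply_symm_apply, Equiv.apply_symm_apply] at this
    exact this.symm
  have e : ∀ g, F ((fun x => z (τ x)) + l.fld g) = F (z + l'.fld g) := fun g => by
    rw [← H (z + l'.fld g)]
    congr 1
    funext x
    simp [l', Lv.fld]
  have hm := hF.eg.cont.measurable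
  simp only [step, e]
  have i1 := C.int_fld_eq hcov (G := fun u => F (z + u)) (by fun_prop)
  have i2 := C.int_fld_eq hcov (G := fun u => exp (l.m * F (z + u))) (by fun_prop)
  split_ifs
  · exact i1
  · exact congrArg (fun r => l.m⁻¹ * log r) i2

theorem inv_XT (hF : Lg F) {τ : Equiv.Perm Ω} (H : ∀ z, F (fun x => z (τ x)) = F z) :
    ∀ M : List (Lv Ω), (∀ l ∈ M, ∀ x y, l.cov (τ x) (τ y) = l.cov x y) →
      ∀ z, XT F M (fun x => z (τ x)) = XT F M z
  | [], _ => H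
  | l :: M, hM => inv_step (lg_XT hF M) (inv_XT hF H M fun k hk => hM k (by simp [hk]))
      (hM l (by simp))

/-- `E' exp (∑_{1 ≤ j ≤ |M|} D_j Δ_j)` under the base path law -/
def A (w : Ω → ℝ) (N : List (Lv Ω)) (F : (Ω → ℝ) → ℝ) : List (Lv Ω) → (Ω → ℝ) → ℝ
  | [] => fun _ => 1
  | l :: M => tE l (X w (M ++ N)) fun z =>
      exp ((ex (M ++ N) 0 - l.m) * (X w (M ++ N) z - XT F M z)) * A w N F M z

theorem eg_A (hw : Wt w) (hF : Lg F) (N : List (Lv Ω)) : ∀ M : List (Lv Ω), Eg (A w N F M)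
  | [] => Eg.const 1
  | l :: M => ((egD (lg_X hw _) (lg_XT hF M) _).mul (eg_A hw hF N M)).tE (lg_X hw _) l

omit [Fintype Ω] in
theorem mono_ex (N : List (Lv Ω)) : ∀ (M : List (Lv Ω)) (m0 : ℝ), Mono m0 (M ++ N) → m0 ≤ ex N 0
  | [], m0, h => by have := dm_nonneg h 0; simpa [dm, exP] using this
  | _ :: M, _, h => h.1.trans (mono_ex N M _ h.2)

/-- Jensen along the base path -/
theorem exp_le_A (hw : Wt w) (hF : Lg F) (N : List (Lv Ω)) : ∀ (M : List (Lv Ω)) (m0 : ℝ),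
    0 ≤ m0 → Mono m0 (M ++ N) → ∀ z,
    exp ((ex N 0 - ex (M ++ N) 0) * (X w (M ++ N) z - XT F M z)) ≤ A w N F M z
  | [], _, _, _, z => by simp [A]
  | l :: M, m0, h0, h, z => by
    have hl : 0 ≤ l.m := h0.trans h.1
    have ih := exp_le_A hw hF N M l.m hl h.2
    have hc : 0 ≤ ex N 0 - l.m := sub_nonneg.2 (mono_ex N M _ h.2)
    have hG := lg_X hw (M ++ N)
    have hH := lg_XT hF M
    have sg := step_ge (l := l) hG hH hl z
    show exp ((ex N 0 - l.m) * (step l (X w (M ++ N)) z - step l (XT F M) z)) ≤ tE l _ _ z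
    set t := step l (X w (M ++ N)) z - step l (XT F M) z with ht
    set c := ex N 0 - l.m with hcd
    have he : Eg fun u => XT F M u - X w (M ++ N) u := hH.eg.sub hG.eg
    have e1 : tE l (X w (M ++ N)) (fun u => exp (c * t) * (1 - c * t) +
        (-(exp (c * t) * c)) * (XT F M u - X w (M ++ N) u)) z = exp (c * t) * (1 - c * t) +
        (-(exp (c * t) * c)) * tE l (X w (M ++ N)) (fun u => XT F M u - X w (M ++ N) u) z := by
      rw [tE_add hG (Eg.const _) (he.const_mul _), tE_const hG, tE_const_mul]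
    refine le_trans ?_ (tE_mono hG ((Eg.const (exp (c * t) * (1 - c * t))).add
      (he.const_mul (-(exp (c * t) * c))))
      ((egD hG hH _).mul (eg_A hw hF N M)) (fun u => ?_) l z)
    · rw [e1]
      have p1 : 0 ≤ exp (c * t) * c := mul_nonneg (exp_pos _).le hc
      have p2 : tE l (X w (M ++ N)) (fun u => XT F M u - X w (M ++ N) u) z ≤ -t := by linarith
      have p3 := mul_le_mul_of_nonneg_left p2 p1
      linarith
    · have q1 := mul_le_mul_of_nonneg_left (ih u)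
        (exp_pos ((ex (M ++ N) 0 - l.m) * (X w (M ++ N) u - XT F M u))).le
      refine le_trans ?_ q1
      rw [← exp_add]
      have q2 : (ex (M ++ N) 0 - l.m) * (X w (M ++ N) u - XT F M u) +
          (ex N 0 - ex (M ++ N) 0) * (X w (M ++ N) u - XT F M u) =
          c * t + c * ((X w (M ++ N) u - XT F M u) - t) := by rw [hcd]; ring
      rw [q2, exp_add]
      have q3 := mul_le_mul_of_nonneg_left (add_one_le_exp (c * ((X w (M ++ N) u - XT F M u) - t)))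
        (exp_pos (c * t)).le
      linarith

/-- change of the tilt at one level -/
theorem tE_change (hG : Lg G) (hF : Lg F) (l : Lv Ω) (Φ : (Ω → ℝ) → ℝ) (z : Ω → ℝ) :
    tE l F Φ z = exp (l.m * (step l G z - step l F z)) *
      tE l G (fun u => exp (-l.m * (G u - F u)) * Φ u) z := by
  simp only [tE]
  rw [← exp_step' hG, ← exp_step' hF]
  have e : ∀ g, exp (l.m * G (z + l.fld g)) * (exp (-l.m * (G (z + l.fld g) - F (z + l.fld g))) *
      Φ (z + l.fld g)) = exp (l.m * F (z + l.fld g)) * Φ (z + l.fld g) := fun g => by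
    rw [← mul_assoc, ← exp_add]; congr 2; ring
  simp only [e]
  rw [mul_sub, exp_sub]
  field_simp

theorem nodeT_le_A (hw : Wt w) (hF : Lg F) (N M₂ : List (Lv Ω)) : ∀ (M₁ : List (Lv Ω)) (m0 : ℝ),
    0 ≤ m0 → Mono m0 (M₁ ++ M₂ ++ N) → ∀ z,
    nodeT (XT F M₂) M₁ (fun u => exp (ex N 0 * (X w (M₂ ++ N) u - XT F M₂ u))) z ≤
      exp (ex (M₁ ++ M₂ ++ N) 0 * (X w (M₁ ++ M₂ ++ N) z - XT F (M₁ ++ M₂) z)) *
        A w N F (M₁ ++ M₂) z
  | [], m0, h0, h, z => by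
    have q := mul_le_mul_of_nonneg_left (exp_le_A hw hF N M₂ m0 h0 h z)
      (exp_pos (ex (M₂ ++ N) 0 * (X w (M₂ ++ N) z - XT F M₂ z))).le
    refine le_trans (le_of_eq ?_) q
    rw [← exp_add]
    show exp _ = _
    congr 1; ring
  | l :: M, m0, h0, h, z => by
    have hl : 0 ≤ l.m := h0.trans h.1
    have ih := nodeT_le_A hw hF N M₂ M l.m hl h.2
    have hG := lg_X hw (M ++ M₂ ++ N)
    have hH := lg_XT hF (M ++ M₂)
    show tE l (XT (XT F M₂) M) _ z ≤ exp (l.m * (step l (X w (M ++ M₂ ++ N)) z -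
      step l (XT F (M ++ M₂)) z)) * tE l (X w (M ++ M₂ ++ N)) (fun u =>
        exp ((ex (M ++ M₂ ++ N) 0 - l.m) * (X w (M ++ M₂ ++ N) u - XT F (M ++ M₂) u)) *
          A w N F (M ++ M₂) u) z
    rw [XT_XT]
    refine (tE_mono hH (eg_nodeT (lg_XT hF M₂) (egD (lg_X hw _) (lg_XT hF M₂) _) M)
      ((egD hG hH _).mul (eg_A hw hF N _)) ih l z).trans (le_of_eq ?_)
    rw [tE_change hG hH]
    congr 2
    funext u
    rw [← mul_assoc, ← exp_add]
    congr 2; ring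

/-- the path functional -/
def Fp (w : Ω → ℝ) (N : List (Lv Ω)) (F : (Ω → ℝ) → ℝ) (M : List (Lv Ω)) (p : ℕ → Ω → ℝ) : ℝ :=
  exp (∑ j ∈ Finset.range M.length, dm (M ++ N) 0 (j + 1) *
    (X w ((M ++ N).drop (j + 1)) (p (j + 1)) - XT F (M.drop (j + 1)) (p (j + 1))))

theorem eg_Fp (hPe : PeStmt) (hw : Wt w) (hF : Lg F) (N M L : List (Lv Ω)) (h : Ω → ℝ) :
    Eg fun g : NI L → ℝ => Fp w N F M fun j => st L j h g := by
  simp only [Fp, exp_sum]
  exact Eg.prod _ fun j _ => (hPe Ω w hw).2.1 L h (j + 1) _ (egD (lg_X hw _) (lg_XT hF _) _)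

theorem meas_Fp (hw : Wt w) (hF : Lg F) (N M : List (Lv Ω)) : Measurable (Fp w N F M) := by
  unfold Fp
  refine Measurable.exp (Finset.measurable_sum _ fun j _ => Measurable.const_mul ?_ _)
  exact ((lg_X hw _).eg.cont.measurable.comp (measurable_pi_apply (j + 1))).sub
    ((lg_XT hF _).eg.cont.measurable.comp (measurable_pi_apply (j + 1)))

theorem pE_const_mul (w : Ω → ℝ) (L : List (Lv Ω)) (h : Ω → ℝ) (c : ℝ)
    (Ψ : (NI L → ℝ) → Ω → ℝ) : pE w L h (fun g x => c * Ψ g x) = c * pE w L h Ψ := by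
  simp only [pE, mul_left_comm _ c, ← Finset.mul_sum, integral_const_mul]

theorem st_zero (L : List (Lv Ω)) (h : Ω → ℝ) (g : NI L → ℝ) : st L 0 h g = h := by
  cases L <;> rfl

theorem pE_Fp (hPe : PeStmt) (hw : Wt w) (hF : Lg F) (N : List (Lv Ω)) :
    ∀ (M : List (Lv Ω)) (h : Ω → ℝ),
      pE w (M ++ N) h (fun g _ => Fp w N F M fun j => st (M ++ N) j h g) = A w N F M h
  | [], h => by
    have := (hPe Ω w hw).2.2.2.2.2.1 N h 0 (fun _ _ => 1) fun _ => Eg.const 1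
    simp only [Fp, List.length_nil, Finset.range_zero, Finset.sum_empty, exp_zero, A]
    refine this.trans ?_
    cases N <;> simp [node, sum_P hw]
  | l :: M, h => by
    have r := (hPe Ω w hw).2.2.2.2.1 l (M ++ N) h
      (fun g _ => Fp w N F (l :: M) fun j => st (l :: (M ++ N)) j h g)
      fun _ => eg_Fp hPe hw hF N (l :: M) (l :: (M ++ N)) h
    refine r.trans ?_
    show _ = tE l _ _ h
    rw [tE]
    congr 2
    funext g
    congr 1
    rw [← pE_Fp hPe hw hF N M (h + l.fld g), ← pE_const_mul]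
    congr 1
    funext g' _
    simp only [Fp]
    rw [← exp_add, List.length_cons, Finset.sum_range_succ', add_comm]
    congr 2
    show dm (l :: (M ++ N)) 0 1 * (X w (M ++ N) (st (M ++ N) 0 (h + l.fld g) g') -
      XT F M (st (M ++ N) 0 (h + l.fld g) g')) = _
    rw [st_zero]
    rfl

theorem st_aff {θ : ℝ} : ∀ (L : List (Lv Ω)) (j : ℕ) (h₀ h₂ : Ω → ℝ) (g₀ g₂ : NI L → ℝ),
    st L j ((1 - θ) • h₀ + θ • h₂) ((1 - θ) • g₀ + θ • g₂) =
      (1 - θ) • st L j h₀ g₀ + θ • st L j h₂ g₂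
  | L, 0, _, _, _, _ => by simp only [st_zero]
  | [], _ + 1, _, _, _, _ => rfl
  | l :: L, j + 1, h₀, h₂, g₀, g₂ => by
    have := st_aff (θ := θ) L j (h₀ + l.fld fun i => g₀ (.inl i)) (h₂ + l.fld fun i => g₂ (.inl i))
      (fun i => g₀ (.inr i)) fun i => g₂ (.inr i)
    refine Eq.trans ?_ this
    show st L j _ _ = _
    congr 1
    funext x
    show (1 - θ) * h₀ x + θ * h₂ x + ∑ i, l.A x i * ((1 - θ) * g₀ (.inl i) + θ * g₂ (.inl i)) =
      (1 - θ) * (h₀ x + ∑ i, l.A x i * g₀ (.inl i)) + θ * (h₂ x + ∑ i, l.A x i * g₂ (.inl i))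
    simp only [mul_add, Finset.sum_add_distrib, Finset.mul_sum, mul_left_comm (l.A x _)]
    ring

/-- Prékopa–Leindler for exponentials under the standard Gaussian -/
theorem pl_exp {ι : Type} [Fintype ι] {a b c : (ι → ℝ) → ℝ} (ha : Eg fun g => exp (a g))
    (hb : Eg fun g => exp (b g)) (hc : Eg fun g => exp (c g)) {θ : ℝ} (t0 : 0 < θ) (t1 : θ < 1)
    (H : ∀ x y, (1 - θ) * a x + θ * b y ≤ c ((1 - θ) • x + θ • y)) :
    (1 - θ) * log (∫ g, exp (a g) ∂gv ι) + θ * log (∫ g, exp (b g) ∂gv ι) ≤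
      log (∫ g, exp (c g) ∂gv ι) := by
  classical
  have I : ∀ {f : (ι → ℝ) → ℝ}, Eg f → Integrable f (gv ι) := fun hf =>
    (hf.toEG univ).int (mem_univ 0)
  have pa := integral_exp_pos (I ha)
  have pb := integral_exp_pos (I hb)
  have pc := integral_exp_pos (I hc)
  have key := Soft.lc_PL_pi ι θ t0 t1 (fun g => ENNReal.ofReal (exp (a g)))
    (fun g => ENNReal.ofReal (exp (b g))) (fun g => ENNReal.ofReal (exp (c g)))
    ha.cont.measurable.ennreal_ofReal hb.cont.measurable.ennreal_ofReal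
    hc.cont.measurable.ennreal_ofReal ?_
  · rw [← ofReal_integral_eq_lintegral_ofReal (I ha) (Eventually.of_forall fun _ => (exp_pos _).le),
      ← ofReal_integral_eq_lintegral_ofReal (I hb) (Eventually.of_forall fun _ => (exp_pos _).le),
      ← ofReal_integral_eq_lintegral_ofReal (I hc) (Eventually.of_forall fun _ => (exp_pos _).le),
      ENNReal.ofReal_rpow_of_nonneg pa.le (by linarith), ENNReal.ofReal_rpow_of_nonneg pb.le t0.le,
      ← ENNReal.ofReal_mul (rpow_nonneg pa.le _), ENNReal.ofReal_le_ofReal_iff pc.le] at key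
    have := log_le_log (mul_pos (rpow_pos_of_pos pa _) (rpow_pos_of_pos pb _)) key
    rwa [log_mul (rpow_pos_of_pos pa _).ne' (rpow_pos_of_pos pb _).ne', log_rpow pa,
      log_rpow pb] at this
  · intro x y
    rw [ENNReal.ofReal_rpow_of_nonneg (exp_pos _).le (by linarith),
      ENNReal.ofReal_rpow_of_nonneg (exp_pos _).le t0.le,
      ← ENNReal.ofReal_mul (rpow_nonneg (exp_pos _).le _), ← exp_mul, ← exp_mul, ← exp_add]
    refine ENNReal.ofReal_le_ofReal (exp_le_exp.2 ?_)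
    linarith [H x y]

/-- planted Prékopa, three-point form -/
theorem plant3 (hPe : PeStmt) (hSym : SymStmt) (hPl : PlantStmt) (hw : Wt w) {M N : List (Lv Ω)}
    {h : Ω → ℝ} {T : Set (Equiv.Perm Ω)} {x₀ : Ω} {θ : ℝ} (hM : Mono 0 (M ++ N))
    (hT : ∀ τ ∈ T, Sym w (M ++ N) h τ) (hx : ∀ x, w x ≠ 0 → ∃ τ ∈ T, τ x₀ = x)
    (h0 : Lg F₀) (h2 : Lg F₂) (i0 : ∀ τ ∈ T, ∀ z, F₀ (fun x => z (τ x)) = F₀ z)
    (i2 : ∀ τ ∈ T, ∀ z, F₂ (fun x => z (τ x)) = F₂ z) (t0 : 0 < θ) (t1 : θ < 1)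
    (H : ∀ z₀ z₂, X w N ((1 - θ) • z₀ + θ • z₂) ≤ (1 - θ) * F₀ z₀ + θ * F₂ z₂) :
    0 < A w N F₀ M h ∧ 0 < A w N F₂ M h ∧
      (1 - θ) * log (A w N F₀ M h) + θ * log (A w N F₂ M h) ≤ 0 := by
  classical
  have hnn := hM.nn le_rfl
  have hU : Lg (U w (M ++ N) h x₀) := (hPe Ω w hw).1 _ h x₀
  have eU : Eg fun g => exp (-U w (M ++ N) h x₀ g) := by simpa using hU.exp (-1)
  have I : ∀ {f : (NI (M ++ N) → ℝ) → ℝ}, Eg f → Integrable f (gv (NI (M ++ N))) := fun hf =>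
    (hf.toEG univ).int (mem_univ 0)
  have pZ := integral_exp_pos (I eU)
  -- the planted form of `A`
  let S : ((Ω → ℝ) → ℝ) → (NI (M ++ N) → ℝ) → ℝ := fun F g =>
    ∑ j ∈ Finset.range M.length, dm (M ++ N) 0 (j + 1) *
      (X w ((M ++ N).drop (j + 1)) (st (M ++ N) (j + 1) h g) -
        XT F (M.drop (j + 1)) (st (M ++ N) (j + 1) h g))
  have eS : ∀ {F : (Ω → ℝ) → ℝ}, Lg F → Eg fun g => exp (-U w (M ++ N) h x₀ g + S F g) :=
    fun hF => by simp only [exp_add]; exact eU.mul (eg_Fp hPe hw hF N M (M ++ N) h)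
  have hA : ∀ {F : (Ω → ℝ) → ℝ}, Lg F → (∀ τ ∈ T, ∀ z, F (fun x => z (τ x)) = F z) →
      A w N F M h = (∫ g, exp (-U w (M ++ N) h x₀ g + S F g) ∂gv (NI (M ++ N))) /
        ∫ g, exp (-U w (M ++ N) h x₀ g) ∂gv (NI (M ++ N)) := fun {F} hF iF => by
    rw [← pE_Fp hPe hw hF N M h, hPl hPe hSym Ω w hw (M ++ N) h T x₀ hT hx (Fp w N F M)
      (meas_Fp hw hF N M) (eg_Fp hPe hw hF N M (M ++ N) h) ?_]
    · simp only [lE, exp_add]; rfl
    · intro τ hτ p
      simp only [Fp]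
      congr 1
      refine Finset.sum_congr rfl fun j _ => ?_
      have a1 := (hSym Ω w hw (M ++ N) h τ (hT τ hτ)).1 (j + 1) fun y => p (j + 1) (τ.symm y)
      have a2 := inv_XT hF (iF τ hτ) (M.drop (j + 1)) (fun l hl => (hT τ hτ).cov l
        (List.mem_append_left _ (List.mem_of_mem_drop hl))) fun y => p (j + 1) (τ.symm y)
      simp only [Equiv.symm_apply_apply] at a1 a2
      rw [← a1, ← a2]
  have p0 := integral_exp_pos (I (eS h0))
  have p2 := integral_exp_pos (I (eS h2))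
  rw [hA h0 i0, hA h2 i2]
  refine ⟨div_pos p0 pZ, div_pos p2 pZ, ?_⟩
  rw [log_div p0.ne' pZ.ne', log_div p2.ne' pZ.ne']
  have key := pl_exp (eS h0) (eS h2) eU t0 t1 ?_
  · linarith
  intro g₀ g₂
  have sa : ∀ j, st (M ++ N) j h ((1 - θ) • g₀ + θ • g₂) =
      (1 - θ) • st (M ++ N) j h g₀ + θ • st (M ++ N) j h g₂ := fun j => by
    rw [← st_aff]; congr 1; funext x; simp only [Pi.add_apply, Pi.smul_apply, smul_eq_mul]; ring
  have sS : ∀ (F : (Ω → ℝ) → ℝ) g, S F g = ∑ j ∈ Finset.range (M ++ N).length,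
      if j < M.length then dm (M ++ N) 0 (j + 1) *
      (X w ((M ++ N).drop (j + 1)) (st (M ++ N) (j + 1) h g) -
        XT F (M.drop (j + 1)) (st (M ++ N) (j + 1) h g)) else 0 := fun F g => by
    rw [← Finset.sum_filter]
    refine Finset.sum_congr ?_ fun _ _ => rfl
    ext j
    simp only [Finset.mem_range, Finset.mem_filter, List.length_append]
    omega
  simp only [sS, U, Ph, sa, Pi.add_apply, Pi.smul_apply, smul_eq_mul]
  have term : ∑ j ∈ Finset.range (M ++ N).length, dm (M ++ N) 0 (j + 1) *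
      X w ((M ++ N).drop (j + 1)) ((1 - θ) • st (M ++ N) (j + 1) h g₀ + θ • st (M ++ N) (j + 1) h g₂)
      ≤ ∑ j ∈ Finset.range (M ++ N).length, ((1 - θ) * (dm (M ++ N) 0 (j + 1) *
        X w ((M ++ N).drop (j + 1)) (st (M ++ N) (j + 1) h g₀) -
        if j < M.length then dm (M ++ N) 0 (j + 1) *
        (X w ((M ++ N).drop (j + 1)) (st (M ++ N) (j + 1) h g₀) -
          XT F₀ (M.drop (j + 1)) (st (M ++ N) (j + 1) h g₀)) else 0) +
        θ * (dm (M ++ N) 0 (j + 1) * X w ((M ++ N).drop (j + 1)) (st (M ++ N) (j + 1) h g₂) -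
        if j < M.length then dm (M ++ N) 0 (j + 1) *
        (X w ((M ++ N).drop (j + 1)) (st (M ++ N) (j + 1) h g₂) -
          XT F₂ (M.drop (j + 1)) (st (M ++ N) (j + 1) h g₂)) else 0)) := by
    refine Finset.sum_le_sum fun j _ => ?_
    have hd := dm_nonneg hM (j + 1)
    split_ifs with hj
    · have c := XT3 h0 (lg_X hw N) h2 t0.le t1.le H (M.drop (j + 1))
        (fun l hl => hnn l (List.mem_append_left _ (List.mem_of_mem_drop hl)))
        (st (M ++ N) (j + 1) h g₀) (st (M ++ N) (j + 1) h g₂)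
      rw [XT_X, ← List.drop_append_of_le_length (by omega)] at c
      have := mul_le_mul_of_nonneg_left c hd
      linarith
    · have c := X_conv hw (L := (M ++ N).drop (j + 1)) (fun l hl => hnn l (List.mem_of_mem_drop hl))
        t0.le t1.le (st (M ++ N) (j + 1) h g₀) (st (M ++ N) (j + 1) h g₂)
      have := mul_le_mul_of_nonneg_left c hd
      linarith
  rw [Finset.sum_add_distrib, ← Finset.mul_sum, ← Finset.mul_sum, Finset.sum_sub_distrib,
    Finset.sum_sub_distrib] at term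
  linarith

end Eac5

open Eac5 in
theorem eac3 (hPe : PeStmt) (hSym : SymStmt) (hPl : PlantStmt) : EacStmt := by
  intro Ω _ w hw M₁ M₂ N h T x₀ F₀ F₂ θ y hM hT hx h0 h2 i0 i2 t0 t1 H y0 y1
  obtain ⟨p0, p2, key⟩ := plant3 hPe hSym hPl hw hM hT hx h0 h2 i0 i2 t0 t1 H
  have hnn := hM.nn le_rfl
  have b1 := nodeT_le_A hw h0 N M₂ M₁ 0 le_rfl hM h
  have b2 := exp_le_A hw h2 N (M₁ ++ M₂) 0 le_rfl hM h
  have b3 := XT3 h0 (lg_X hw N) h2 t0.le t1.le H (M₁ ++ M₂)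
    (fun l hl => hnn l (List.mem_append_left _ hl)) h h
  have hh : (1 - θ) • h + θ • h = h := by
    funext x; simp only [Pi.add_apply, Pi.smul_apply, smul_eq_mul]; ring
  rw [hh, XT_X] at b3
  set V₀ := XT F₀ (M₁ ++ M₂) h
  set V₁ := X w (M₁ ++ M₂ ++ N) h
  set V₂ := XT F₂ (M₁ ++ M₂) h
  set a := ex (M₁ ++ M₂ ++ N) 0 with ha
  set Y := ex N 0 with hY
  set s := θ / (1 - θ) * (V₂ - V₁) with hs
  have a0 : 0 ≤ a := mono_ex (M₁ ++ M₂ ++ N) [] 0 hM
  have t2 : 0 < 1 - θ := sub_pos.2 t1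
  have hs' : (1 - θ) * s = θ * (V₂ - V₁) := by rw [hs]; field_simp
  have c1 : V₁ - V₀ ≤ s := le_of_mul_le_mul_left (by linarith) t2
  have c2 : (Y - a) * (V₁ - V₂) ≤ log (A w N F₂ (M₁ ++ M₂) h) := (le_log_iff_exp_le p2).2 b2
  have c3 : log (A w N F₀ (M₁ ++ M₂) h) ≤ (Y - a) * s := by
    refine le_of_mul_le_mul_left ?_ t2
    have := mul_le_mul_of_nonneg_left c2 t0.le
    have e : (1 - θ) * ((Y - a) * s) = (Y - a) * (θ * (V₂ - V₁)) := by rw [← hs']; ring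
    rw [e]; linarith
  have c4 : nodeT (XT F₀ M₂) M₁ (fun u => exp (Y * (X w (M₂ ++ N) u - XT F₀ M₂ u))) h ≤
      exp (Y * s) := by
    refine b1.trans ?_
    rw [← exp_log p0, ← exp_add, exp_le_exp]
    have := mul_le_mul_of_nonneg_left c1 a0
    linarith
  have hG := lg_X hw (M₂ ++ N)
  have hH := lg_XT h0 M₂
  rcases (y0.trans y1).eq_or_lt with hz | hz
  · have : y = 0 := le_antisymm (hz ▸ y1) y0
    rw [this]
    rw [← hz] at c4
    simpa using c4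
  · set r := y / Y with hr
    have r0 : 0 ≤ r := div_nonneg y0 hz.le
    have r1 : r ≤ 1 := (div_le_one hz).2 y1
    have ry : r * Y = y := div_mul_cancel₀ _ hz.ne'
    refine (nodeT_mono hH (egD hG hH y) ((Eg.const (exp (y * s) * (1 - r))).add
      ((egD hG hH Y).const_mul (exp (y * s) * r * exp (-(Y * s))))) (fun u => ?_) M₁ h).trans ?_
    · have c := convexOn_exp.2 (mem_univ 0)
        (mem_univ (Y * (X w (M₂ ++ N) u - XT F₀ M₂ u) - Y * s)) (sub_nonneg.2 r1) r0 (by ring)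
      simp only [smul_eq_mul, mul_zero, zero_add, exp_zero, mul_one] at c
      have e : exp (y * (X w (M₂ ++ N) u - XT F₀ M₂ u)) =
          exp (y * s) * exp (r * (Y * (X w (M₂ ++ N) u - XT F₀ M₂ u) - Y * s)) := by
        rw [← exp_add, ← ry]; congr 1; ring
      rw [e]
      refine (mul_le_mul_of_nonneg_left c (exp_pos _).le).trans (le_of_eq ?_)
      rw [exp_sub, exp_neg]
      field_simp
    · rw [nodeT_aff hH (egD hG hH Y)]
      have := mul_le_mul_of_nonneg_left c4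
        (show 0 ≤ exp (y * s) * r * exp (-(Y * s)) by positivity)
      have e : exp (y * s) * r * exp (-(Y * s)) * exp (Y * s) = exp (y * s) * r := by
        rw [mul_assoc, ← exp_add, neg_add_cancel, exp_zero, mul_one]
      simp only
      linarith

/-- **exponential AC for a jointly convex family** `L λ = M₁ ++ M₂ ++ N λ`; `λ₁` lies strictly
between `λ₀` and `λ₂` (either order) -/
def EacFamStmt : Prop := ∀ (Ω : Type) [Fintype Ω] (w : Ω → ℝ), Wt w →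
  ∀ (M₁ M₂ : List (Lv Ω)) (N : ℝ → List (Lv Ω)) (S : Set ℝ) (h : Ω → ℝ)
    (T : Set (Equiv.Perm Ω)) (x₀ : Ω) (l₀ l₁ l₂ y : ℝ),
    ConvexOn ℝ (univ ×ˢ S) (fun p : (Ω → ℝ) × ℝ => X w (N p.2) p.1) → l₀ ∈ S → l₂ ∈ S →
    (l₀ < l₁ ∧ l₁ < l₂ ∨ l₂ < l₁ ∧ l₁ < l₀) → Mono 0 (M₁ ++ M₂ ++ N l₁) →
    (∀ τ ∈ T, ∀ l ∈ S, Sym w (M₁ ++ M₂ ++ N l) h τ) → (∀ x, w x ≠ 0 → ∃ τ ∈ T, τ x₀ = x) →
    0 ≤ y → y ≤ ex (N l₁) 0 →
    node w (M₁ ++ M₂ ++ N l₀) M₁.length
        (fun z => exp (y * (X w (M₂ ++ N l₁) z - X w (M₂ ++ N l₀) z))) h ≤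
      exp (y * ((l₁ - l₀) *
        ((X w (M₁ ++ M₂ ++ N l₂) h - X w (M₁ ++ M₂ ++ N l₁) h) / (l₂ - l₁))))

open Eac5 in
theorem eac_fam (hPe : PeStmt) (hSym : SymStmt) (hPl : PlantStmt) : EacFamStmt := by
  intro Ω _ w hw M₁ M₂ N S h T x₀ l₀ l₁ l₂ y hc s0 s2 hl hM hT hx y0 y1
  have d20 : l₂ - l₀ ≠ 0 := by rcases hl with h | h <;> intro e <;> linarith [h.1, h.2]
  have d21 : l₂ - l₁ ≠ 0 := by rcases hl with h | h <;> intro e <;> linarith [h.1, h.2]
  set θ := (l₁ - l₀) / (l₂ - l₀) with hθ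
  have t0 : 0 < θ := by
    rcases hl with h | h
    · exact div_pos (by linarith [h.1]) (by linarith [h.1, h.2])
    · exact div_pos_of_neg_of_neg (by linarith [h.2]) (by linarith [h.1, h.2])
  have e1 : 1 - θ = (l₂ - l₁) / (l₂ - l₀) := by rw [hθ]; field_simp; ring
  have t1 : θ < 1 := by
    rw [← sub_pos, e1]
    rcases hl with h | h
    · exact div_pos (by linarith [h.2]) (by linarith [h.1, h.2])
    · exact div_pos_of_neg_of_neg (by linarith [h.1]) (by linarith [h.1, h.2])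
  have e2 : (1 - θ) * l₀ + θ * l₂ = l₁ := by rw [hθ]; field_simp; ring
  have s1 : l₁ ∈ S := by
    have := hc.1 (x := (h, l₀)) ⟨trivial, s0⟩ (y := (h, l₂)) ⟨trivial, s2⟩ (sub_pos.2 t1).le t0.le
      (by ring)
    have e := this.2
    simpa only [Prod.snd_add, Prod.smul_snd, smul_eq_mul, e2] using e
  have inv : ∀ l ∈ S, ∀ τ ∈ T, ∀ z, X w (N l) (fun x => z (τ x)) = X w (N l) z := fun l hl τ hτ z => by
    have := (hSym Ω w hw _ h τ (hT τ hτ l hl)).1 (M₁ ++ M₂).length z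
    rwa [List.drop_left] at this
  have key := eac3 hPe hSym hPl Ω w hw M₁ M₂ (N l₁) h T x₀ (X w (N l₀)) (X w (N l₂)) θ y hM
    (fun τ hτ => hT τ hτ l₁ s1) hx (lg_X hw _) (lg_X hw _) (inv l₀ s0) (inv l₂ s2) t0 t1
    (fun z₀ z₂ => by
      have := hc.2 (x := (z₀, l₀)) ⟨trivial, s0⟩ (y := (z₂, l₂)) ⟨trivial, s2⟩ (sub_pos.2 t1).le
        t0.le (by ring)
      simpa only [Prod.snd_add, Prod.smul_snd, Prod.fst_add, Prod.smul_fst, smul_eq_mul, e2]
        using this) y0 y1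
  rw [XT_X, XT_X, nodeT_X, ← List.append_assoc] at key
  refine key.trans (le_of_eq ?_)
  congr 2
  rw [e1, hθ]
  field_simp

/-- **75's form**: `E_λ exp (y Δ_k) ≤ exp (y e V' (λ + e))`, `e = l₁ - l₀` of either sign, `l₁` an
interior point -/
def EacDerStmt : Prop := ∀ (Ω : Type) [Fintype Ω] (w : Ω → ℝ), Wt w →
  ∀ (M₁ M₂ : List (Lv Ω)) (N : ℝ → List (Lv Ω)) (S : Set ℝ) (h : Ω → ℝ)
    (T : Set (Equiv.Perm Ω)) (x₀ : Ω) (l₀ l₁ y V' : ℝ),
    ConvexOn ℝ (univ ×ˢ S) (fun p : (Ω → ℝ) × ℝ => X w (N p.2) p.1) → l₀ ∈ S → S ∈ 𝓝 l₁ →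
    Mono 0 (M₁ ++ M₂ ++ N l₁) →
    (∀ τ ∈ T, ∀ l ∈ S, Sym w (M₁ ++ M₂ ++ N l) h τ) → (∀ x, w x ≠ 0 → ∃ τ ∈ T, τ x₀ = x) →
    0 ≤ y → y ≤ ex (N l₁) 0 → HasDerivAt (fun l => X w (M₁ ++ M₂ ++ N l) h) V' l₁ →
    node w (M₁ ++ M₂ ++ N l₀) M₁.length
        (fun z => exp (y * (X w (M₂ ++ N l₁) z - X w (M₂ ++ N l₀) z))) h ≤
      exp (y * ((l₁ - l₀) * V')) ∧
    ∀ O : (Ω → ℝ) → ℝ, Continuous O →
      (∀ z, HasDerivWithinAt (fun l => X w (M₂ ++ N l) z) (O z) S l₀) →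
      node w (M₁ ++ M₂ ++ N l₀) M₁.length (fun z => exp (y * ((l₁ - l₀) * O z))) h ≤
        exp (y * ((l₁ - l₀) * V'))

open Eac5 in
theorem eac_der (hPe : PeStmt) (hSym : SymStmt) (hPl : PlantStmt) : EacDerStmt := by
  intro Ω _ w hw M₁ M₂ N S h T x₀ l₀ l₁ y V' hc s0 s1 hM hT hx y0 y1 hV
  have hs := hasDerivAt_iff_tendsto_slope.1 hV
  have hcont : Continuous fun r : ℝ => exp (y * ((l₁ - l₀) * r)) := by fun_prop
  have main : node w (M₁ ++ M₂ ++ N l₀) M₁.length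
      (fun z => exp (y * (X w (M₂ ++ N l₁) z - X w (M₂ ++ N l₀) z))) h ≤
      exp (y * ((l₁ - l₀) * V')) := by
    rcases lt_trichotomy l₀ l₁ with hl | hl | hl
    · have t := (hcont.tendsto V').comp (hs.mono_left (nhdsGT_le_nhdsNE l₁))
      refine ge_of_tendsto t ?_
      filter_upwards [self_mem_nhdsWithin, mem_nhdsWithin_of_mem_nhds s1] with l₂ h1 h2
      have := eac_fam hPe hSym hPl Ω w hw M₁ M₂ N S h T x₀ l₀ l₁ l₂ y hc s0 h2 (Or.inl ⟨hl, h1⟩)
        hM hT hx y0 y1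
      simpa only [Function.comp, slope_def_field] using this
    · subst hl
      simp [node_const hw]
    · have t := (hcont.tendsto V').comp (hs.mono_left (nhdsLT_le_nhdsNE l₁))
      refine ge_of_tendsto t ?_
      filter_upwards [self_mem_nhdsWithin, mem_nhdsWithin_of_mem_nhds s1] with l₂ h1 h2
      have := eac_fam hPe hSym hPl Ω w hw M₁ M₂ N S h T x₀ l₀ l₁ l₂ y hc s0 h2 (Or.inr ⟨h1, hl⟩)
        hM hT hx y0 y1
      simpa only [Function.comp, slope_def_field] using this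
  refine ⟨main, fun O hO hD => le_trans ?_ main⟩
  have hnn := hM.nn le_rfl
  have s1' : l₁ ∈ S := mem_of_mem_nhds s1
  have hS : Convex ℝ S := fun a ha b hb p q hp hq hpq =>
    (hc.1 (x := (h, a)) ⟨trivial, ha⟩ (y := (h, b)) ⟨trivial, hb⟩ hp hq hpq).2
  have cv : ∀ z, ConvexOn ℝ S fun l => X w (M₂ ++ N l) z := fun z =>
    ⟨hS, fun a ha b hb p q hp hq hpq => by
      obtain rfl : p = 1 - q := by linarith
      have := XT3 (lg_X hw (N a)) (lg_X hw (N ((1 - q) • a + q • b))) (lg_X hw (N b)) hq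
        (by linarith) (fun z₀ z₂ =>
          hc.2 (x := (z₀, a)) ⟨trivial, ha⟩ (y := (z₂, b)) ⟨trivial, hb⟩ hp hq hpq) M₂
        (fun l hl => hnn l (List.mem_append_left _ (List.mem_append_right _ hl))) z z
      have hh : (1 - q) • z + q • z = z := by
        funext x; simp only [Pi.add_apply, Pi.smul_apply, smul_eq_mul]; ring
      rwa [hh, XT_X, XT_X, XT_X] at this⟩
  have le : ∀ z, (l₁ - l₀) * O z ≤ X w (M₂ ++ N l₁) z - X w (M₂ ++ N l₀) z := fun z => by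
    rcases lt_trichotomy l₀ l₁ with hl | hl | hl
    · have := (cv z).le_slope_of_hasDerivWithinAt s0 s1' hl (hD z)
      rw [slope_def_field, le_div_iff₀ (sub_pos.2 hl)] at this
      linarith
    · subst hl; simp
    · have := (cv z).slope_le_of_hasDerivWithinAt s1' s0 hl (hD z)
      rw [slope_def_field, div_le_iff₀ (sub_pos.2 hl)] at this
      linarith
  have e1 := egD (lg_X hw (M₂ ++ N l₁)) (lg_X hw (M₂ ++ N l₀)) y
  have le' : ∀ z, exp (y * ((l₁ - l₀) * O z)) ≤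
      exp (y * (X w (M₂ ++ N l₁) z - X w (M₂ ++ N l₀) z)) := fun z =>
    exp_le_exp.2 (mul_le_mul_of_nonneg_left (le z) y0)
  refine node_mono hw (e1.of_le (by fun_prop) fun z => ?_) e1 le' _ _ _
  rw [abs_of_pos (exp_pos _), abs_of_pos (exp_pos _)]
  exact le' z

end Crest.Agent.T156.Cas

end
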