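import Crest.Agent.T156.CaSdB_90
import Crest.Agent.T156.CaPe_45

/-!
# Row 156 (helper90): grafting a new replica on a tree

`graft s a j` is the shape `s` with one more leaf, split from the path of `a` after `j` levels.
`tX_graft`: the new leaf has the node law.  `sd_rep`: the derivative of the potential as a sum
over grafted trees (replica form of the Schwinger–Dyson identities).
-/

set_option autoImplicit false
set_option linter.unusedSectionVars false

noncomputable section

namespace Crest.Agent.T156.Cas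

open MeasureTheory Real Set Filter Topology
open Crest.Agent.T157.E Crest.Agent.T157.Casc Crest.Agent.T157.SL
open Crest.Agent.R339.Guerra (mp_int mp_sum)

/-- left leaf of `two j` -/
def Sh.twoL : (j : ℕ) → (Sh.two j).Lf
  | 0 => .inl ()
  | j + 1 => Sh.twoL j

/-- right leaf of `two j` -/
def Sh.twoR : (j : ℕ) → (Sh.two j).Lf
  | 0 => .inr ()
  | j + 1 => Sh.twoR j

/-- one more leaf, split from the path of `a` after `j` levels -/
def Sh.graft : (s : Sh) → s.Lf → ℕ → Sh
  | .one, _, j => Sh.two j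
  | .step s, _, 0 => .split (.step s) .one
  | .step s, a, j + 1 => .step (s.graft a j)
  | .split s t, .inl a, j => .split (s.graft a j) t
  | .split s t, .inr a, j => .split s (t.graft a j)

/-- the old leaves -/
def Sh.emb : (s : Sh) → (a : s.Lf) → (j : ℕ) → s.Lf → (s.graft a j).Lf
  | .one, _, j => fun _ => Sh.twoL j
  | .step _, _, 0 => Sum.inl
  | .step s, a, j + 1 => s.emb a j
  | .split s _, .inl a, j => Sum.map (s.emb a j) id
  | .split _ t, .inr a, j => Sum.map id (t.emb a j)

/-- the new leaf -/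
def Sh.nw : (s : Sh) → (a : s.Lf) → (j : ℕ) → (s.graft a j).Lf
  | .one, _, j => Sh.twoR j
  | .step _, _, 0 => .inr ()
  | .step s, a, j + 1 => s.nw a j
  | .split s _, .inl a, j => .inl (s.nw a j)
  | .split _ t, .inr a, j => .inr (t.nw a j)

variable {Ω : Type} [Fintype Ω] {w : Ω → ℝ}

namespace Gf

theorem int_sum' {ι ι' : Type*} [Fintype ι] [Fintype ι'] {f : (ι ⊕ ι' → ℝ) → ℝ}
    (hf : Integrable f (gv (ι ⊕ ι'))) :
    ∫ G, f G ∂gv (ι ⊕ ι') = ∫ g', ∫ g, f (Sum.elim g g') ∂gv ι ∂gv ι' := by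
  classical
  have h1 := mp_sum (ι := ι) (κ := ι')
  exact (mp_int h1 hf.aestronglyMeasurable).symm.trans
    (integral_prod_symm _ (h1.integrable_comp_of_integrable hf))

/-- the split recursion in the other order -/
theorem tX_split' (hw : Wt w) (s t : Sh) (L : List (Lv Ω)) (h : Ω → ℝ)
    (F : (NT (.split s t) L → ℝ) → (s.Lf ⊕ t.Lf → Ω) → ℝ) (hF : ∀ x, Eg fun g => F g x) :
    tX w (.split s t) L h F =
      tX w t L h fun g' x' => tX w s L h fun g x => F (Sum.elim g g') (Sum.elim x x') := by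
  have h1 := int_sum' (ι := NT s L) (ι' := NT t L)
    (Tr.eg_int (Tr.eg_sumT hw (.split s t) L h hF))
  refine h1.trans ?_
  refine integral_congr_ae (.of_forall fun g' => ?_)
  simp only [tX, ← integral_const_mul]
  rw [← integral_finsetSum _ fun x' _ => (Tr.eg_int (Tr.eg_sumT hw s L h
    (F := fun g x => F (Sum.elim g g') (Sum.elim x x')) fun x =>
      Tr.eg_comp (hF (Sum.elim x x')) (Tr.lg_elim_left g'))).const_mul _]
  refine integral_congr_ae (.of_forall fun g => ?_)
  simp only [Finset.mul_sum]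
  rw [Finset.sum_comm, ← Fintype.sum_prod_type']
  refine (Fintype.sum_equiv (Equiv.sumArrowEquivProdArrow s.Lf t.Lf Ω).symm _ _ fun p => ?_).symm
  rw [← mul_assoc, mul_comm (denT w t L h g' p.2), ← Tr.denT_split]
  rfl

/-- one leaf on a nonempty list is a step above one leaf -/
theorem tX_one_cons (w : Ω → ℝ) (l : Lv Ω) (L : List (Lv Ω)) (h : Ω → ℝ)
    (F : (NI (l :: L) → ℝ) → (Unit → Ω) → ℝ) :
    tX w .one (l :: L) h F = tX w (.step .one) (l :: L) h F := by
  refine integral_congr_ae (.of_forall fun g => Finset.sum_congr rfl fun x _ => ?_)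
  have e : g = Sum.elim (fun i => g (.inl i)) fun i => g (.inr i) := by
    funext i; cases i <;> rfl
  have h1 : U w (l :: L) h (x ()) g = UT w (.step .one) (l :: L) h x g := by
    refine (congrArg (U w (l :: L) h (x ())) e).trans ((Pe.U_cons w l L h (x ()) _ _).trans ?_)
    show _ = U w L _ (x ()) _ + (((1 : ℕ) : ℝ) * ex L 0 - l.m) * _
    rw [Nat.cast_one, one_mul]
    rfl
  show (∏ a : Unit, w (x a)) * exp (-U w (l :: L) h (x ()) g - _) * _ = _
  rw [h1]
  rfl

/-- prepend a state to a path -/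
def cons (h : Ω → ℝ) (p : ℕ → Ω → ℝ) : ℕ → Ω → ℝ
  | 0 => h
  | j + 1 => p j

theorem stT_step (s : Sh) (l : Lv Ω) (L : List (Lv Ω)) (h : Ω → ℝ) (g : l.ι → ℝ)
    (g' : NT s L → ℝ) (a : s.Lf) :
    stT (.step s) (l :: L) h (Sum.elim g g') a = cons h (stT s L (h + l.fld g) g' a) := by
  funext j; cases j <;> rfl

theorem egP_cons {κ : Type} {Φ : Pa κ Ω → ℝ} (hΦ : EgP Φ) (h : Ω → ℝ) :
    EgP fun p : Pa κ Ω => Φ fun b => cons h (p b) :=
  hΦ.comp fun _ _ p hp a j y => by
    cases j with
    | zero => exact Tr.lg_const (h y)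
    | succ j => exact hp a j y

theorem egP_inl {κ κ' : Type} {Φ : Pa (κ ⊕ κ') Ω → ℝ} (hΦ : EgP Φ) (q : Pa κ' Ω) :
    EgP fun p : Pa κ Ω => Φ (Sum.elim p q) :=
  hΦ.comp fun _ _ p hp a j y => by
    cases a with
    | inl a => exact hp a j y
    | inr a => exact Tr.lg_const (q a j y)

theorem egP_inr {κ κ' : Type} {Φ : Pa (κ ⊕ κ') Ω → ℝ} (hΦ : EgP Φ) (q : Pa κ Ω) :
    EgP fun p : Pa κ' Ω => Φ (Sum.elim q p) :=
  hΦ.comp fun _ _ p hp a j y => by
    cases a with
    | inl a => exact Tr.lg_const (q a j y)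
    | inr a => exact hp a j y

theorem egP_emb {κ κ' : Type} {Φ : Pa κ Ω → ℝ} (hΦ : EgP Φ) (e : κ → κ') :
    EgP fun p : Pa κ' Ω => Φ fun b => p (e b) := hΦ.comp fun _ _ _ hp a j y => hp (e a) j y

theorem stT_split (s t : Sh) (L : List (Lv Ω)) (h : Ω → ℝ) (g : NT s L → ℝ) (g' : NT t L → ℝ) :
    stT (.split s t) L h (Sum.elim g g') = Sum.elim (stT s L h g) (stT t L h g') := by
  funext a; cases a <;> rfl

/-- `s'` is `s` with a new leaf `ν` that has the law of the node `(a, j)` -/
def Gft (w : Ω → ℝ) (s s' : Sh) (e : s.Lf → s'.Lf) (ν : s'.Lf) (a : s.Lf) (j : ℕ) : Prop :=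
  ∀ (L : List (Lv Ω)) (h : Ω → ℝ) (F : Pa s.Lf Ω → (s.Lf → Ω) → Ω → ℝ),
    (∀ x y, EgP fun p => F p x y) →
    tX w s' L h (fun g x => F (fun b => stT s' L h g (e b)) (fun b => x (e b)) (x ν)) =
      tX w s L h fun g x => ∑ y, P w (L.drop j) (stT s L h g a j) y * F (stT s L h g) x y

theorem egP_new (hw : Wt w) {κ : Type} {F : Pa κ Ω → Ω → ℝ} (hF : ∀ y, EgP fun p => F p y)
    (M : List (Lv Ω)) (a : κ) (j : ℕ) : EgP fun p => ∑ y, P w M (p a j) y * F p y :=
  .sum _ fun y _ => (EgP.state (eg_P hw M y) a j).mul (hF y)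

theorem gft_zero (hw : Wt w) (s : Sh) (a : s.Lf) :
    Gft w s (.split s .one) Sum.inl (.inr ()) a 0 := fun L h F hF => by
  refine (Tr.tX_split hw s .one L h _ fun x => (egP_emb (hF _ _) Sum.inl).stT L h).trans ?_
  congr 1
  funext g x
  rw [Sd.stT_zero, List.drop_zero, ← Pe.pE_leaf hw]
  exact Tr.tX_one w L h _

theorem gft_step (hw : Wt w) {s s' : Sh} {e : s.Lf → s'.Lf} {ν : s'.Lf} {a : s.Lf} {j : ℕ}
    (H : Gft w s s' e ν a j) : Gft w (.step s) (.step s') e ν a (j + 1)
  | [], h, F, hF => by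
      refine (Tr.tX_step_nil w s' h _).trans ((H [] h F hF).trans ?_)
      refine Eq.trans ?_ (Tr.tX_step_nil w s h _).symm
      simp only [Sd.stT_nil, List.drop_nil]
      rfl
  | l :: L, h, F, hF => by
      refine (Tr.tX_step_cons hw s' l L h _ fun x =>
        (egP_emb (hF _ _) e).stT (s := .step s') _ h).trans ?_
      refine Eq.trans ?_ (Tr.tX_step_cons hw s l L h _ fun x =>
        (egP_new hw (hF x) _ a (j + 1)).stT (s := .step s) _ h).symm
      congr 2
      funext g
      congr 1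
      have := H L (h + l.fld g) (fun p => F fun b => cons h (p b)) fun x y => egP_cons (hF x y) h
      simp only [stT_step]
      refine this.trans ?_
      congr 1
      funext g' x
      refine Finset.sum_congr rfl fun y _ => ?_
      congr 2
      funext b
      exact (stT_step s l L h g g' b).symm

theorem gft_inl (hw : Wt w) {s s' : Sh} (t : Sh) {e : s.Lf → s'.Lf} {ν : s'.Lf} {a : s.Lf} {j : ℕ}
    (H : Gft w s s' e ν a j) :
    Gft w (.split s t) (.split s' t) (Sum.map e id) (.inl ν) (.inl a) j := fun L h F hF => by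
  refine (tX_split' hw s' t L h _ fun x =>
    (egP_emb (hF _ _) (Sum.map e id)).stT (s := .split s' t) _ h).trans ?_
  refine Eq.trans ?_ (tX_split' hw s t L h _ fun x =>
    (egP_new hw (hF x) _ (.inl a) j).stT (s := .split s t) _ h).symm
  congr 1
  funext g' x'
  have := H L h (fun p x => F (Sum.elim p (stT t L h g')) (Sum.elim x x'))
    fun x y => egP_inl (hF _ y) _
  simp only [stT_split]
  refine Eq.trans ?_ this
  congr 1
  funext g x
  congr 1
  · funext b; cases b <;> rfl
  · funext b; cases b <;> rfl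

theorem gft_inr (hw : Wt w) (s : Sh) {t t' : Sh} {e : t.Lf → t'.Lf} {ν : t'.Lf} {a : t.Lf} {j : ℕ}
    (H : Gft w t t' e ν a j) :
    Gft w (.split s t) (.split s t') (Sum.map id e) (.inr ν) (.inr a) j := fun L h F hF => by
  refine (Tr.tX_split hw s t' L h _ fun x =>
    (egP_emb (hF _ _) (Sum.map id e)).stT (s := .split s t') _ h).trans ?_
  refine Eq.trans ?_ (Tr.tX_split hw s t L h _ fun x =>
    (egP_new hw (hF x) _ (.inr a) j).stT (s := .split s t) _ h).symm
  congr 1
  funext g x
  have := H L h (fun p x' => F (Sum.elim (stT s L h g) p) (Sum.elim x x'))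
    fun x y => egP_inr (hF _ y) _
  simp only [stT_split]
  refine Eq.trans ?_ this
  congr 1
  funext g' x'
  congr 1
  · funext b; cases b <;> rfl
  · funext b; cases b <;> rfl

theorem gft_one {s' : Sh} {e : Unit → s'.Lf} {ν : s'.Lf} {j : ℕ}
    (H : Gft w (.step .one) s' e ν () j) : Gft w .one s' e ν () j
  | [], h, F, hF => (H [] h F hF).trans (Tr.tX_step_nil w .one h _)
  | l :: L, h, F, hF => by
      refine (H (l :: L) h F hF).trans (Eq.trans ?_ (tX_one_cons w l L h _).symm)
      congr 1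
      funext g x
      have : stT (.step .one) (l :: L) h g = stT .one (l :: L) h g := by
        funext a k; cases k <;> rfl
      rw [this]

theorem gft_two (hw : Wt w) : ∀ j : ℕ,
    Gft w .one (Sh.two j) (fun _ => Sh.twoL j) (Sh.twoR j) () j
  | 0 => gft_zero hw .one ()
  | j + 1 => gft_one (gft_step hw (gft_two hw j))

theorem gft_graft (hw : Wt w) : ∀ (s : Sh) (a : s.Lf) (j : ℕ),
    Gft w s (s.graft a j) (s.emb a j) (s.nw a j) a j
  | .one, _, j => gft_two hw j
  | .step s, a, 0 => gft_zero hw (.step s) a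
  | .step s, a, j + 1 => gft_step hw (gft_graft hw s a j)
  | .split s t, .inl a, j => gft_inl hw t (gft_graft hw s a j)
  | .split s t, .inr a, j => gft_inr hw s (gft_graft hw t a j)

end Gf

/-- **the grafted leaf has the law of the node** -/
theorem tX_graft (hw : Wt w) (s : Sh) (a : s.Lf) (j : ℕ) (L : List (Lv Ω)) (h : Ω → ℝ)
    (F : Pa s.Lf Ω → (s.Lf → Ω) → Ω → ℝ) (hF : ∀ x y, EgP fun p => F p x y) :
    tX w (s.graft a j) L h (fun g x => F (fun b => stT (s.graft a j) L h g (s.emb a j b))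
        (fun b => x (s.emb a j b)) (x (s.nw a j))) =
      tX w s L h fun g x => ∑ y, P w (L.drop j) (stT s L h g a j) y * F (stT s L h g) x y :=
  Gf.gft_graft hw s a j L h F hF

/-- **replica form of the derivative of the potential**, direction `q x` depending on the leaves -/
theorem sd_rep (hw : Wt w) (s : Sh) (L : List (Lv Ω)) (h : Ω → ℝ)
    {F : Pa s.Lf Ω → (s.Lf → Ω) → ℝ} (hF : ∀ x, EgP fun p => F p x)
    (q : (s.Lf → Ω) → Pa s.Lf Ω) :
    tX w s L h (fun g x => F (stT s L h g) x * DP w s L x (stT s L h g) (q x)) =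
      ∑ a, ∑ j ∈ Finset.range (L.length + 1), cf s L a j *
        tX w (s.graft a j) L h (fun g x => F (fun b => stT (s.graft a j) L h g (s.emb a j b))
          (fun b => x (s.emb a j b)) * q (fun b => x (s.emb a j b)) a j (x (s.nw a j))) -
      ∑ a, tX w s L h fun g x => F (stT s L h g) x * q x a L.length (x a) := by
  have e1 : ∀ a j x, Eg fun g => cf s L a j * ∑ y, P w (L.drop j) (stT s L h g a j) y *
      (F (stT s L h g) x * q x a j y) := fun a j x =>
    ((Gf.egP_new hw (F := fun p y => F p x * q x a j y) (fun y => (hF x).mul (.const _)) _ a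
      j).stT L h).const_mul _
  have e2 : ∀ a x, Eg fun g => F (stT s L h g) x * q x a L.length (x a) := fun a x =>
    ((hF x).stT L h).mul_const _
  simp only [fun a j => tX_graft hw s a j L h (fun p x y => F p x * q x a j y)
    fun x y => (hF x).mul (.const _), ← Sd.tX_const_mul]
  simp only [fun a => (Sd.tX_sum hw s L h (Finset.range (L.length + 1)) fun j _ => e1 a j).symm]
  rw [← Sd.tX_sum hw s L h _ fun a _ x => Eg.sum _ fun j _ => e1 a j x,
    ← Sd.tX_sum hw s L h _ fun a _ => e2 a,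
    ← Sd.tX_sub hw s L h (fun x => Eg.sum _ fun a _ => Eg.sum _ fun j _ => e1 a j x)
      fun x => Eg.sum _ fun a _ => e2 a x]
  congr 1
  funext g x
  simp only [DP, Pf, mul_sub, Finset.mul_sum, mul_left_comm]

/-- **Schwinger–Dyson identity, replica form**, for functions of the leaves -/
theorem sd_leaf (hw : Wt w) (s : Sh) (L : List (Lv Ω)) (h : Ω → ℝ) (F : (s.Lf → Ω) → ℝ)
    (η : (s.Lf → Ω) → NT s L → ℝ) :
    tX w s L h (fun g x => (∑ i, η x i * g i) * F x) =
      ∑ a, tX w s L h (fun _ x => F x * stT s L 0 (η x) a L.length (x a)) -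
      ∑ a, ∑ j ∈ Finset.range (L.length + 1), cf s L a j *
        tX w (s.graft a j) L h fun _ x => F (fun b => x (s.emb a j b)) *
          stT s L 0 (η fun b => x (s.emb a j b)) a j (x (s.nw a j)) := by
  have h1 := stein_dir hw s L h η (F := fun _ x => F x) fun x => GrP.const (F x)
  have h2 := sd_rep hw s L h (F := fun _ x => F x) (fun x => .const _) fun x => stT s L 0 (η x)
  have h3 : tX w s L h (fun _ _ => 0) = 0 := by simp [tX]
  rw [h1, h2, h3]
  ring

end Crest.Agent.T156.Cas

end
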