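import Crest.Agent.T156.CaItp_16
import Crest.Agent.T156.Mov_21

/-!
# Row 156 (helper16): the interpolation formula on replica trees for variance moves
-/

set_option autoImplicit false
set_option linter.unusedSectionVars false

noncomputable section

namespace Crest.Agent.T156.Cas

open MeasureTheory ProbabilityTheory Real Set Filter Topology
open Crest.Agent.T157.E Crest.Agent.T157.Casc Crest.Agent.T157.SL

variable {Ω : Type} [Fintype Ω] {w : Ω → ℝ} {I : Set ℝ}

/-- the score is linear in the kernels -/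
theorem Th_cmul (hw : Wt w) (s : Sh) (L : List (Lv Ω)) (S : ℕ → Ω → Ω → ℝ) (h : Ω → ℝ)
    (x : s.Lf → Ω) (p : Pa s.Lf Ω) (c : ℝ) :
    Th w s L (fun j y y' => c * S j y y') h x p = c * Th w s L S h x p := by
  have hl := (grP_UP hw s L x).lin p
  have e : ∀ q : Pa s.Lf Ω, DP w s L x p (fun a j y => c * q a j y) = c * DP w s L x p q :=
    fun q => hl.map_smul c q
  have e2 : ∀ j z, ND w L (fun j y y' => c * S j y y') j z = c * ND w L S j z := fun j z => by
    simp only [ND, Pf, pair_eq_sum hw, pi2_const_mul, mul_sub, Finset.mul_sum, mul_left_comm]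
  simp only [Th, DD, e, e2, mul_sub, Finset.mul_sum, mul_left_comm]

theorem Th_add (hw : Wt w) (s : Sh) (L : List (Lv Ω)) (S S' : ℕ → Ω → Ω → ℝ) (h : Ω → ℝ)
    (x : s.Lf → Ω) (p : Pa s.Lf Ω) :
    Th w s L (fun j y y' => S j y y' + S' j y y') h x p = Th w s L S h x p + Th w s L S' h x p := by
  have hl := (grP_UP hw s L x).lin p
  have e : ∀ q q' : Pa s.Lf Ω, DP w s L x p (fun a j y => q a j y + q' a j y) =
      DP w s L x p q + DP w s L x p q' := fun q q' => hl.map_add q q'
  have e2 : ∀ j z, ND w L (fun j y y' => S j y y' + S' j y y') j z =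
      ND w L S j z + ND w L S' j z := fun j z => by
    simp only [ND, Pf, pair_add hw, mul_add, Finset.sum_add_distrib]
    ring
  simp only [Th, DD, e, e2, mul_add, Finset.sum_add_distrib]
  ring

theorem egP_Th (hw : Wt w) (s : Sh) (L : List (Lv Ω)) (S : ℕ → Ω → Ω → ℝ) (h : Ω → ℝ)
    (x : s.Lf → Ω) : EgP (Th w s L S h x) := by
  have h1 : ∀ q, EgP fun p => DP w s L x p q := (grP_UP hw s L x).eg'
  have h2 : EgP fun p => DD w s L x p fun a j y b k y' => S (s.shr a b (min j k)) y y' :=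
    (EgP.sum _ fun a _ => EgP.sum _ fun j _ => (EgP.const _).mul (EgP.sum _ fun y _ =>
      (EgP.state (eg_P hw (L.drop j) y) a j).mul (h1 _))).sub (EgP.sum _ fun a _ => h1 _)
  exact (h2.sub (EgP.sum _ fun a _ => EgP.sum _ fun j _ => (EgP.const _).mul
    (EgP.state (Itp16.eg_ND hw L S j) a j))).sub (EgP.const _)

/-- **variance moves on a replica tree** -/
theorem hasDerivAt_tX_mat (hw : Wt w) (hI : IsOpen I) (s : Sh) {L : List (ML Ω)}
    (hL : ∀ p ∈ L, p.Ok I) (h : Ω → ℝ) (F : (s.Lf → Ω) → ℝ) {t : ℝ} (ht : t ∈ I) :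
    HasDerivAt (fun t => tX w s (mat L t) h fun _ x => F x)
      ((tX w s (mat L t) h fun g x =>
        F x * Th w s (mat L t) (dcov L t) h x (stT s (mat L t) h g)) / 2) t := by
  have hC : ∀ k ∈ L.map ML.tl, k.C1 I := fun k hk => by
    obtain ⟨p, hp, rfl⟩ := List.mem_map.1 hk
    exact (hL p hp).c1
  have key := hasDerivAt_tX_atL hw hI s hC h F ht
  have e : Sacc (L.map ML.tl) t = fun j y y' => 1 / 2 * dcov L t j y y' :=
    funext fun j => funext fun y => funext fun y' => Sacc_tl ht y y' L hL j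
  have e1 : ∀ (t : ℝ) (G : (M : List (Lv Ω)) → ℝ), G (atL (L.map ML.tl) t) = G (mat L t) :=
    fun t G => by rw [atL_tl]
  rw [e, e1 t fun M => tX w s M h fun g x => F x *
    Th w s M (fun j y y' => 1 / 2 * dcov L t j y y') h x (stT s M h g),
    show (fun t => tX w s (atL (L.map ML.tl) t) h fun _ x => F x) =
      fun t => tX w s (mat L t) h fun _ x => F x from
      funext fun t => e1 t fun M => tX w s M h fun _ x => F x] at key
  refine key.congr_deriv ?_
  simp only [Th_cmul hw, mul_left_comm (F _), Sd.tX_const_mul]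
  ring

theorem continuousOn_tX_mat (hw : Wt w) (s : Sh) {L : List (ML Ω)} {K : Set ℝ} (hK : IsCompact K)
    (hL : ∀ p ∈ L, ContinuousOn p.v K) (h : Ω → ℝ) (F : (s.Lf → Ω) → ℝ) :
    ContinuousOn (fun t => tX w s (mat L t) h fun _ x => F x) K := by
  have := continuousOn_tX_atL hw s (tl_okC hK hL) h F
  refine this.congr fun t _ => ?_
  show tX w s (mat L t) h _ = tX w s (atL (L.map ML.tl) t) h _
  rw [atL_tl]

theorem exists_tX_mat (hw : Wt w) (s : Sh) {L : List (ML Ω)} {a c : ℝ} (hac : a < c)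
    (hC : ∀ p ∈ L, ContinuousOn p.v (Icc a c)) (hL : ∀ p ∈ L, p.Ok (Ioo a c)) (h : Ω → ℝ)
    (F : (s.Lf → Ω) → ℝ) :
    ∃ t ∈ Ioo a c, tX w s (mat L c) h (fun _ x => F x) - tX w s (mat L a) h (fun _ x => F x) =
      (c - a) * ((tX w s (mat L t) h fun g x =>
        F x * Th w s (mat L t) (dcov L t) h x (stT s (mat L t) h g)) / 2) := by
  obtain ⟨t, ht, e⟩ := exists_hasDerivAt_eq_slope (fun t => tX w s (mat L t) h fun _ x => F x)
    (fun t => (tX w s (mat L t) h fun g x =>
        F x * Th w s (mat L t) (dcov L t) h x (stT s (mat L t) h g)) / 2) hac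
    (continuousOn_tX_mat hw s isCompact_Icc hC h F)
    fun t ht => hasDerivAt_tX_mat hw isOpen_Ioo s hL h F ht
  exact ⟨t, ht, by rw [e, mul_div_cancel₀ _ (sub_pos.2 hac).ne']⟩

end Crest.Agent.T156.Cas

end
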