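import Crest.Agent.T156.CasDef_88

/-!
# Row 156: Prékopa and planted Prékopa (helper16)
-/

set_option autoImplicit false
set_option linter.unusedSectionVars false

noncomputable section

namespace Crest.Agent.T156.Cas

open MeasureTheory Real Set Filter Topology
open Crest.Agent.T157.E Crest.Agent.T157.Casc Crest.Agent.T157.SL

theorem prekStmt : PrekStmt := by
  intro ι _ V _ _ S Ψ hS hΨ hm hi
  refine ⟨hS, fun x hx y hy a b ha hb hab => ?_⟩
  rcases ha.eq_or_lt with rfl | ha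
  · obtain rfl : b = 1 := by linarith
    simp
  rcases hb.eq_or_lt with rfl | hb
  · obtain rfl : a = 1 := by linarith
    simp
  obtain rfl : a = 1 - b := by linarith
  have hz : (1 - b) • x + b • y ∈ S := hS hx hy ha.le hb.le hab
  have hI := hi x hx
  have hJ := hi y hy
  have hK := hi _ hz
  have hI0 : 0 < ∫ g, exp (-Ψ (g, x)) ∂gv ι := integral_exp_pos hI
  have hJ0 : 0 < ∫ g, exp (-Ψ (g, y)) ∂gv ι := integral_exp_pos hJ
  have hK0 : 0 < ∫ g, exp (-Ψ (g, (1 - b) • x + b • y)) ∂gv ι := integral_exp_pos hK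
  have key := Soft.lc_PL_pi ι b hb (by linarith) (fun g => ENNReal.ofReal (exp (-Ψ (g, x))))
    (fun g => ENNReal.ofReal (exp (-Ψ (g, y))))
    (fun g => ENNReal.ofReal (exp (-Ψ (g, (1 - b) • x + b • y))))
    (hm x hx).neg.exp.ennreal_ofReal (hm y hy).neg.exp.ennreal_ofReal
    (hm _ hz).neg.exp.ennreal_ofReal ?_
  · rw [← ofReal_integral_eq_lintegral_ofReal hI (Eventually.of_forall fun w => (exp_pos _).le),
      ← ofReal_integral_eq_lintegral_ofReal hJ (Eventually.of_forall fun w => (exp_pos _).le),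
      ← ofReal_integral_eq_lintegral_ofReal hK (Eventually.of_forall fun w => (exp_pos _).le),
      ENNReal.ofReal_rpow_of_nonneg hI0.le ha.le, ENNReal.ofReal_rpow_of_nonneg hJ0.le hb.le,
      ← ENNReal.ofReal_mul (rpow_nonneg hI0.le _), ENNReal.ofReal_le_ofReal_iff hK0.le] at key
    have := log_le_log (mul_pos (rpow_pos_of_pos hI0 _) (rpow_pos_of_pos hJ0 _)) key
    rw [log_mul (rpow_pos_of_pos hI0 _).ne' (rpow_pos_of_pos hJ0 _).ne', log_rpow hI0,
      log_rpow hJ0] at this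
    simpa only [smul_eq_mul] using this
  · intro u v
    rw [ENNReal.ofReal_rpow_of_nonneg (exp_pos _).le ha.le,
      ENNReal.ofReal_rpow_of_nonneg (exp_pos _).le hb.le,
      ← ENNReal.ofReal_mul (rpow_nonneg (exp_pos _).le _), ← exp_mul, ← exp_mul, ← exp_add]
    refine ENNReal.ofReal_le_ofReal (exp_le_exp.2 ?_)
    have := hΨ.2 (x := (u, x)) ⟨mem_univ _, hx⟩ (y := (v, y)) ⟨mem_univ _, hy⟩ ha.le hb.le hab
    simp only [Prod.smul_mk, Prod.mk_add_mk, smul_eq_mul] at this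
    linarith

/-- functions of exponential growth are integrable -/
theorem eg_int16 {ι : Type} [Fintype ι] {Φ : (ι → ℝ) → ℝ} (h : Eg Φ) : Integrable Φ (gv ι) := by
  obtain ⟨C, c, hC, hc, hb⟩ := h.bd
  refine Crest.Agent.R339.Guerra.integrable_of_exp_bound h.cont.aestronglyMeasurable C c
    fun g => (hb g).trans ?_
  have : ‖g‖ ≤ ∑ j, |g j| := (pi_norm_le_iff_of_nonneg
    (Finset.sum_nonneg fun j _ => abs_nonneg _)).2 fun j =>
      Finset.single_le_sum (f := fun j => |g j|) (fun j _ => abs_nonneg _) (Finset.mem_univ j)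
  gcongr

theorem exp_rem16 (x : ℝ) : |exp x - 1 - x| ≤ x ^ 2 * (1 + exp x) := by
  have h0 := exp_pos x
  have h1 := add_one_le_exp x
  rw [abs_of_nonneg (by linarith)]
  by_cases h : |x| ≤ 1
  · have := (abs_le.1 (abs_exp_sub_one_sub_id_le h)).2
    nlinarith [sq_nonneg x]
  · rcases lt_abs.1 (not_le.1 h) with h | h
    · have : 1 ≤ x ^ 2 := by nlinarith
      nlinarith
    · have : exp x ≤ 1 := exp_le_one_iff.2 (by linarith)
      nlinarith [mul_pos h0 (show 0 < x ^ 2 by nlinarith)]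

/-- second-order expansion of the exponential along `d e ~ e o` -/
theorem exp_lim16 {d : ℝ → ℝ} {o : ℝ} (h : Tendsto (fun e => d e / e) (𝓝[>] 0) (𝓝 o)) :
    Tendsto (fun e => (exp (-d e) - 1 + d e) / e ^ 2) (𝓝[>] 0) (𝓝 (o ^ 2 / 2)) := by
  have he : Tendsto (fun e : ℝ => e) (𝓝[>] 0) (𝓝 0) := tendsto_id.mono_left nhdsWithin_le_nhds
  have hd : Tendsto d (𝓝[>] 0) (𝓝 0) := by
    have := h.mul he
    rw [mul_zero] at this
    refine this.congr' ?_
    filter_upwards [self_mem_nhdsWithin] with e he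
    exact div_mul_cancel₀ _ (ne_of_gt he)
  have h1 : Tendsto (fun e => (d e / e) ^ 2 / 2) (𝓝[>] 0) (𝓝 (o ^ 2 / 2)) := (h.pow 2).div_const 2
  have h2 : Tendsto (fun e => (exp (-d e) - 1 + d e) / e ^ 2 - (d e / e) ^ 2 / 2) (𝓝[>] 0)
      (𝓝 0) := by
    have h3 : Tendsto (fun e => (d e / e) ^ 2 * |d e|) (𝓝[>] 0) (𝓝 0) := by
      simpa using (h.pow 2).mul hd.abs
    refine squeeze_zero_norm' ?_ h3
    have h4 : ∀ᶠ e in 𝓝[>] (0 : ℝ), |d e| ≤ 1 := by
      have := hd.abs
      rw [abs_zero] at this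
      exact this.eventually (eventually_le_nhds one_pos)
    filter_upwards [h4, self_mem_nhdsWithin] with e h4 he
    have he' : (0 : ℝ) < e := he
    have h5 := Real.exp_bound (x := -d e) (by rwa [abs_neg]) (n := 3) (by norm_num)
    simp only [Finset.sum_range_succ, Finset.range_zero, Finset.sum_empty, Nat.factorial,
      abs_neg] at h5
    have e1 : (exp (-d e) - 1 + d e) / e ^ 2 - (d e / e) ^ 2 / 2 =
        (exp (-d e) - (1 - d e + d e ^ 2 / 2)) / e ^ 2 := by field_simp; ring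
    have e2 : (d e / e) ^ 2 * |d e| = |d e| ^ 3 / e ^ 2 := by
      rw [div_pow, ← sq_abs (d e)]; ring
    rw [e1, e2, norm_eq_abs, abs_div, abs_of_pos (pow_pos he' 2)]
    refine div_le_div_of_nonneg_right ?_ (pow_pos he' 2).le
    have h6 : 0 ≤ |d e| ^ 3 := by positivity
    refine le_trans (le_of_eq ?_) (h5.trans ?_)
    · congr 1; norm_num; ring
    · norm_num; nlinarith
  simpa using h2.add h1

section
variable {ι : Type} [Fintype ι] {e0 : ℝ} {Ψ : (ι → ℝ) × ℝ → ℝ} {U O B : (ι → ℝ) → ℝ}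

theorem Pert.egE (h : Pert e0 Ψ U O B) {e : ℝ} (he : e ∈ Icc 0 e0) :
    Eg fun g => exp (-Ψ (g, e)) := by
  obtain ⟨C, c, hl⟩ := h.low
  refine ⟨(h.cont e he).neg.rexp, exp C, |c|, (exp_pos _).le, abs_nonneg _, fun g => ?_⟩
  rw [abs_of_pos (exp_pos _), ← exp_add]
  have := hl e he g
  have h2 : c * ‖g‖ ≤ |c| * ‖g‖ := mul_le_mul_of_nonneg_right (le_abs_self c) (norm_nonneg g)
  exact exp_le_exp.2 (by linarith)

theorem Pert.egU (h : Pert e0 Ψ U O B) : Eg fun g => exp (-U g) := by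
  simpa only [h.zero] using h.egE (e := 0) ⟨le_rfl, h.pos.le⟩

/-- second-order expansion of the partition function -/
theorem Pert.expand (h : Pert e0 Ψ U O B) :
    Tendsto (fun e => ((∫ g, exp (-Ψ (g, e)) ∂gv ι) - (∫ g, exp (-U g) ∂gv ι) +
      e * ∫ g, exp (-U g) * O g ∂gv ι) / e ^ 2) (𝓝[>] 0)
      (𝓝 (((∫ g, exp (-U g) * (O g * O g) ∂gv ι) - ∫ g, exp (-U g) * B g ∂gv ι) / 2)) := by
  obtain ⟨C, c, hl⟩ := h.low
  obtain ⟨R, hR, hd⟩ := h.dom
  have hI : ∀ᶠ e in 𝓝[>] (0 : ℝ), e ∈ Ioc 0 e0 := Ioc_mem_nhdsGT h.pos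
  have hE : Eg fun g : ι → ℝ => exp (C + c * ‖g‖) := by
    refine ⟨by fun_prop, exp C, |c|, (exp_pos _).le, abs_nonneg _, fun g => ?_⟩
    rw [abs_of_pos (exp_pos _), ← exp_add]
    have h2 : c * ‖g‖ ≤ |c| * ‖g‖ := mul_le_mul_of_nonneg_right (le_abs_self c) (norm_nonneg g)
    exact exp_le_exp.2 (by linarith)
  have hU := h.egU
  have key := tendsto_integral_filter_of_dominated_convergence (μ := gv ι) (l := 𝓝[>] (0 : ℝ))
    (F := fun e g => (exp (-Ψ (g, e)) - exp (-U g) + e * (exp (-U g) * O g)) / e ^ 2)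
    (f := fun g => (exp (-U g) * (O g * O g) - exp (-U g) * B g) / 2)
    (fun g => exp (C + c * ‖g‖) * (2 * (|O g| + e0 * R g) ^ 2 + R g)) ?_ ?_
    (eg_int16 (hE.mul ((((h.egO.abs.add (hR.const_mul e0)).pow 2).const_mul 2).add hR))) ?_
  · rw [integral_div, integral_sub (eg_int16 (hU.mul (h.egO.mul h.egO)))
      (eg_int16 (hU.mul h.egB))] at key
    refine key.congr' ?_
    filter_upwards [hI] with e he
    have h1 := eg_int16 (h.egE ⟨he.1.le, he.2⟩)
    rw [integral_div, integral_add (eg_int16 ((h.egE ⟨he.1.le, he.2⟩).sub hU))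
      ((eg_int16 (hU.mul h.egO)).const_mul e), integral_sub h1 (eg_int16 hU), integral_const_mul]
  · filter_upwards [hI] with e he
    exact ((((h.egE ⟨he.1.le, he.2⟩).sub hU).add ((hU.mul h.egO).const_mul e)).cont.div_const
      _).aestronglyMeasurable
  · filter_upwards [hI] with e he
    refine Eventually.of_forall fun g => ?_
    have he2 : 0 < e ^ 2 := pow_pos he.1 2
    have h1 := hd e ⟨he.1.le, he.2⟩ g
    have hR0 : 0 ≤ R g := nonneg_of_mul_nonneg_right ((abs_nonneg _).trans h1) he2 |> fun x => x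
    have h2 : exp (-Ψ (g, e)) ≤ exp (C + c * ‖g‖) :=
      exp_le_exp.2 (by linarith [hl e ⟨he.1.le, he.2⟩ g])
    have h3 : exp (-U g) ≤ exp (C + c * ‖g‖) :=
      exp_le_exp.2 (by linarith [hl 0 ⟨le_rfl, h.pos.le⟩ g, h.zero g])
    set d := Ψ (g, e) - U g with hdd
    have e1 : exp (-Ψ (g, e)) = exp (-U g) * exp (-d) := by rw [← exp_add]; congr 1; ring
    have h4 : |d| ≤ e * (|O g| + e0 * R g) := by
      have h5 : |d| ≤ |d - e * O g| + |e * O g| := by
        simpa using abs_add_le (d - e * O g) (e * O g)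
      rw [abs_mul, abs_of_pos he.1] at h5
      have h6 : e ^ 2 * R g ≤ e * (e0 * R g) := by
        rw [sq, mul_assoc]
        exact mul_le_mul_of_nonneg_left (mul_le_mul_of_nonneg_right he.2 hR0) he.1.le
      nlinarith
    have h7 : d ^ 2 ≤ e ^ 2 * (|O g| + e0 * R g) ^ 2 := by
      rw [← mul_pow, ← sq_abs d]
      exact pow_le_pow_left₀ (abs_nonneg _) h4 2
    have h8 := exp_rem16 (-d)
    rw [norm_eq_abs, abs_div, abs_of_pos he2, div_le_iff₀ he2]
    have e2 : exp (-Ψ (g, e)) - exp (-U g) + e * (exp (-U g) * O g) =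
        exp (-U g) * ((exp (-d) - 1 - -d) - (d - e * O g)) := by rw [e1]; ring
    have hu := exp_pos (-U g)
    rw [e2, abs_mul, abs_of_pos hu]
    have h9 : |(exp (-d) - 1 - -d) - (d - e * O g)| ≤ d ^ 2 * (1 + exp (-d)) + e ^ 2 * R g := by
      refine (abs_sub _ _).trans (add_le_add ?_ h1)
      simpa using h8
    calc _ ≤ exp (-U g) * (d ^ 2 * (1 + exp (-d)) + e ^ 2 * R g) :=
          mul_le_mul_of_nonneg_left h9 hu.le
      _ = d ^ 2 * (exp (-U g) + exp (-Ψ (g, e))) + exp (-U g) * (e ^ 2 * R g) := by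
          rw [e1]; ring
      _ ≤ e ^ 2 * (|O g| + e0 * R g) ^ 2 * (exp (C + c * ‖g‖) + exp (C + c * ‖g‖)) +
          exp (C + c * ‖g‖) * (e ^ 2 * R g) := by gcongr
      _ = _ := by ring
  · refine Eventually.of_forall fun g => ?_
    have he : Tendsto (fun e : ℝ => e) (𝓝[>] 0) (𝓝 0) := tendsto_id.mono_left nhdsWithin_le_nhds
    have h1 := h.lim g
    have h2 : Tendsto (fun e => (Ψ (g, e) - U g) / e) (𝓝[>] 0) (𝓝 (O g)) := by
      have := (h1.mul he).add_const (O g)
      rw [mul_zero, zero_add] at this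
      refine this.congr' ?_
      filter_upwards [self_mem_nhdsWithin] with e he
      have : e ≠ 0 := ne_of_gt he
      field_simp; ring
    have h3 := ((exp_lim16 h2).sub h1).const_mul (exp (-U g))
    have e0 : exp (-U g) * (O g ^ 2 / 2 - B g / 2) =
        (exp (-U g) * (O g * O g) - exp (-U g) * B g) / 2 := by ring
    rw [e0] at h3
    refine h3.congr fun e => ?_
    have e1 : exp (-Ψ (g, e)) = exp (-U g) * exp (-(Ψ (g, e) - U g)) := by
      rw [← exp_add]; congr 1; ring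
    rw [e1]; ring

end

theorem ppStmt : PPStmt := by
  intro hP ι _ e0 Ψ U O B h
  set Z : ℝ → ℝ := fun e => ∫ g, exp (-Ψ (g, e)) ∂gv ι with hZ
  set Z0 := ∫ g, exp (-U g) ∂gv ι with hZ0
  set a := lE U O with ha
  have hZp : ∀ e ∈ Icc 0 e0, 0 < Z e := fun e he => integral_exp_pos (eg_int16 (h.egE he))
  have hZ0p : 0 < Z0 := integral_exp_pos (eg_int16 h.egU)
  have hz : Z 0 = Z0 := by simp only [hZ, hZ0, h.zero]
  have hG : ConcaveOn ℝ (Icc 0 e0) fun e => log (Z e) :=
    hP ι ℝ _ Ψ (convex_Icc _ _) h.conv (fun e he => (h.cont e he).measurable)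
      fun e he => eg_int16 (h.egE he)
  have he : Tendsto (fun e : ℝ => e) (𝓝[>] 0) (𝓝 0) := tendsto_id.mono_left nhdsWithin_le_nhds
  have hx : Tendsto (fun e => (Z e / Z0 - 1 + e * a) / e ^ 2) (𝓝[>] 0)
      (𝓝 ((lE U (fun g => O g * O g) - lE U B) / 2)) := by
    have := h.expand.div_const Z0
    convert this using 2
    · simp only [ha, lE, ← hZ0, hZ]; field_simp
    · simp only [lE, ← hZ0]; field_simp
  have hs : Tendsto (fun e => (Z e / Z0 - 1) / e) (𝓝[>] 0) (𝓝 (-a)) := by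
    have := (hx.mul he).sub_const a
    rw [mul_zero, zero_sub] at this
    refine this.congr' ?_
    filter_upwards [self_mem_nhdsWithin] with e he
    have : e ≠ 0 := ne_of_gt he
    field_simp; ring
  have tail : ∀ e ∈ Icc 0 e0, Z e / Z0 ≤ exp (-(e * a)) := by
    intro e he
    rcases he.1.eq_or_lt with rfl | he0
    · rw [hz, div_self hZ0p.ne']; simp
    have hq : (log (Z e) - log Z0) / e ≤ -a := by
      refine ge_of_tendsto hs ?_
      filter_upwards [Ioo_mem_nhdsGT he0] with s hs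
      have hsI : s ∈ Icc 0 e0 := ⟨hs.1.le, hs.2.le.trans he.2⟩
      have h1 := hG.2 (show (0 : ℝ) ∈ Icc 0 e0 from ⟨le_rfl, h.pos.le⟩) he
        (sub_nonneg.2 ((div_le_one he0).2 hs.2.le)) (div_nonneg hs.1.le he0.le) (by ring)
      simp only [smul_eq_mul, mul_zero, zero_add, div_mul_cancel₀ _ he0.ne', hz] at h1
      have h2 := log_le_sub_one_of_pos (div_pos (hZp s hsI) hZ0p)
      rw [log_div (hZp s hsI).ne' hZ0p.ne'] at h2
      rw [div_le_div_iff₀ he0 hs.1]
      have h3 : s / e * (log (Z e) - log Z0) ≤ Z s / Z0 - 1 := by linarith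
      have h4 := mul_le_mul_of_nonneg_right h3 he0.le
      have e1 : s / e * (log (Z e) - log Z0) * e = (log (Z e) - log Z0) * s := by field_simp
      linarith
    rw [← log_le_iff_le_exp (div_pos (hZp e he) hZ0p), log_div (hZp e he).ne' hZ0p.ne']
    rw [div_le_iff₀ he0] at hq
    linarith
  refine ⟨?_, fun e he => ?_⟩
  · have h1 : Tendsto (fun e : ℝ => e * a / e) (𝓝[>] 0) (𝓝 a) := by
      refine tendsto_const_nhds.congr' ?_
      filter_upwards [self_mem_nhdsWithin] with e he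
      have : e ≠ 0 := ne_of_gt he
      field_simp
    have h2 := le_of_tendsto_of_tendsto hx (exp_lim16 h1) (by
      filter_upwards [Ioc_mem_nhdsGT h.pos] with e he
      exact div_le_div_of_nonneg_right (by linarith [tail e ⟨he.1.le, he.2⟩]) (sq_nonneg e))
    simp only [lC, ← ha]
    nlinarith
  · refine le_trans (le_of_eq ?_) (tail e he)
    simp only [lE, ← hZ0, hZ, ← exp_add]
    congr 2
    ext g
    congr 1
    ring

end Crest.Agent.T156.Cas

end
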