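import Crest.Agent.T156.CaTp_90

/-!
# Row 156 (helper90): relabelling and products of tree laws

`tF_co`: levels read through a map.  `X_pl`, `tX_prod`, `tF_prod`, `tX_prod_mul`: two independent
systems with the same tilts; the value is additive and the tree law is the product of the tree laws
of the same shape (the synchronised end point of the cavity interpolation).
-/

set_option autoImplicit false
set_option linter.unusedSectionVars false

noncomputable section

namespace Crest.Agent.T156.Cas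

open MeasureTheory Real Set Filter Topology
open Crest.Agent.T157.E Crest.Agent.T157.Casc Crest.Agent.T157.SL
open Crest.Agent.T157.Casc.C (Same addLv coLv push Rel)
open Crest.Agent.R339.Guerra (mp_int mp_comp)

variable {Ω Ω' : Type} [Fintype Ω] [Fintype Ω'] {w : Ω → ℝ} {w' : Ω' → ℝ}

/-! ### relabelling -/

namespace Tp

theorem tF_one_nil (hw : Wt w) (h : Ω → ℝ) (F : Pa Unit Ω → (Unit → Ω) → ℝ) :
    tF w .one [] h F = ∑ x, P w [] h x * F (fun _ _ => h) fun _ => x := by
  refine (Tr.tX_one w [] h _).trans ((Pe.pE_nil hw h _).trans ?_)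
  congr 1
  funext x
  congr 2
  funext a j
  exact Sd.stT_nil .one h _ a j

/-- paths read through a map -/
def rp (ρ : Ω → Ω') {κ : Type} (p : Pa κ Ω') : Pa κ Ω := fun a j u => p a j (ρ u)

theorem egP_rp (ρ : Ω → Ω') {κ : Type} {Φ : Pa κ Ω → ℝ} (hΦ : EgP Φ) :
    EgP fun p : Pa κ Ω' => Φ (rp ρ p) := fun ι _ _ hp => hΦ ι _ fun a j y => hp a j (ρ y)

/-- the statement for one shape and one list -/
def Co (w : Ω → ℝ) (ρ : Ω → Ω') (s : Sh) (L : List (Lv Ω')) : Prop :=
  ∀ (h : Ω' → ℝ) (F : Pa s.Lf Ω → (s.Lf → Ω') → ℝ), (∀ y, EgP fun p => F p y) →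
    tF w s (L.map (coLv ρ)) (fun x => h (ρ x)) (fun p x => F p fun a => ρ (x a)) =
      tF (push ρ w) s L h fun p => F (rp ρ p)

theorem co_step (hw : Wt w) (ρ : Ω → Ω') {s : Sh} {L : List (Lv Ω')} (H : Co w ρ s L)
    (l : Lv Ω') : Co w ρ (.step s) (l :: L) := fun h F hF => by
  refine (tF_step_cons hw s (coLv ρ l) (L.map (coLv ρ)) _ fun x => hF _).trans
    (Eq.trans ?_ (tF_step_cons (C.wt_push ρ hw) s l L h fun y => egP_rp ρ (hF y)).symm)
  refine ((C.rel_co ρ l).tE (F' := X (push ρ w) L) (c := 0) (C.lp_X hw _).meas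
    (fun z => by rw [C.X_co ρ hw, one_mul, add_zero])
    (eg_tF hw s _ fun x => Gf.egP_cons (hF _) _).cont.measurable h).trans ?_
  congr 1
  funext z
  refine (H z (fun p => F fun b => Gf.cons (fun x => h (ρ x)) (p b))
    fun y => Gf.egP_cons (hF y) _).trans ?_
  congr 1
  funext p
  congr 1
  funext b j
  cases j <;> rfl

theorem co_one (hw : Wt w) (ρ : Ω → Ω') : ∀ L : List (Lv Ω'), Co w ρ .one L
  | [] => fun h F _ => by
      refine (tF_one_nil hw _ _).trans (Eq.trans ?_ (tF_one_nil (C.wt_push ρ hw) h _).symm)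
      simp only [P, prob, div_mul_eq_mul_div, ← Finset.sum_div, mul_assoc]
      rw [C.sum_push ρ w fun y => exp (h y), C.sum_push ρ w]
      rfl
  | l :: L => fun h F hF => (tF_one_cons w _ _ _ _).trans
      ((co_step hw ρ (co_one hw ρ L) l h F hF).trans (tF_one_cons _ l L h _).symm)

theorem co_all (hw : Wt w) (ρ : Ω → Ω') : ∀ (s : Sh) (L : List (Lv Ω')), Co w ρ s L
  | .one, L => co_one hw ρ L
  | .step s, [] => fun h F hF => (tF_step_nil w s _ _).trans
      ((co_all hw ρ s [] h F hF).trans (tF_step_nil _ s h _).symm)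
  | .step s, l :: L => co_step hw ρ (co_all hw ρ s L) l
  | .split s t, L => fun h F hF => by
      refine (tF_split hw s t _ _ fun x => hF _).trans
        (Eq.trans ?_ (tF_split (C.wt_push ρ hw) s t L h fun y => egP_rp ρ (hF y)).symm)
      have e : ∀ (x : s.Lf → Ω) (y : t.Lf → Ω), (fun a => ρ (Sum.elim x y a)) =
          Sum.elim (fun a => ρ (x a)) fun a => ρ (y a) := fun x y => by
        funext a; cases a <;> rfl
      have h1 := fun p (x : s.Lf → Ω') => co_all hw ρ t L h
        (fun q y => F (Sum.elim p q) (Sum.elim x y)) fun y => Gf.egP_inr (hF _) p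
      refine Eq.trans ?_ ((co_all hw ρ s L h (fun p x => tF (push ρ w) t L h fun q y =>
        F (Sum.elim p (rp ρ q)) (Sum.elim x y)) fun x => ?_).trans ?_)
      · congr 1
        funext p x
        refine Eq.trans ?_ (h1 p _)
        congr 1
        funext q y
        exact congrArg _ (e x y)
      · refine fun ι _ p hp => eg_tX (C.wt_push ρ hw) _ _ (H := fun _ => h)
          (fun _ => Tr.lg_const _) fun y => hF _ _ _ fun a j u => ?_
        cases a with
        | inl a => exact Tr.lg_comp (hp a j u) fun i => Tr.lg_coord (Sum.inl i)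
        | inr a =>
          exact Tr.lg_stT _ _ _ _ (H := fun _ => h) (fun _ => Tr.lg_const _)
            (fun i => Tr.lg_coord (Sum.inr i)) (ρ u)
      · congr 1
        funext p x
        congr 1
        funext q y
        congr 1
        funext b; cases b <;> rfl

end Tp

/-- **levels read through a map**: the law of the images is the law for the pushed weight -/
theorem tF_co (hw : Wt w) (ρ : Ω → Ω') (s : Sh) (L : List (Lv Ω')) (h : Ω' → ℝ)
    {F : Pa s.Lf Ω → (s.Lf → Ω') → ℝ} (hF : ∀ y, EgP fun p => F p y) :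
    tF w s (L.map (coLv ρ)) (fun x => h (ρ x)) (fun p x => F p fun a => ρ (x a)) =
      tF (push ρ w) s L h fun p => F fun a j u => p a j (ρ u) := Tp.co_all hw ρ s L h F hF

theorem tX_co (hw : Wt w) (ρ : Ω → Ω') (s : Sh) (L : List (Lv Ω')) (h : Ω' → ℝ)
    (F : (s.Lf → Ω') → ℝ) :
    tX w s (L.map (coLv ρ)) (fun x => h (ρ x)) (fun _ x => F fun a => ρ (x a)) =
      tX (push ρ w) s L h fun _ => F := tF_co hw ρ s L h (F := fun _ => F) fun _ => .const _

/-! ### products -/

/-- two independent levels with the tilt of the first -/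
def pl (p : Lv Ω × Lv Ω') : Lv (Ω × Ω') := addLv (coLv Prod.fst p.1) (coLv Prod.snd p.2)

/-- additive states -/
def oa (h : Ω → ℝ) (h' : Ω' → ℝ) : Ω × Ω' → ℝ := fun x => h x.1 + h' x.2

/-- product weights -/
def ow (w : Ω → ℝ) (w' : Ω' → ℝ) : Ω × Ω' → ℝ := fun x => w x.1 * w' x.2

theorem pl_m (p : Lv Ω × Lv Ω') : (pl p).m = p.1.m := rfl

theorem pl_cov (p : Lv Ω × Lv Ω') (x y : Ω × Ω') :
    (pl p).cov x y = p.1.cov x.1 y.1 + p.2.cov x.2 y.2 := C.addLv_cov _ _ x y

theorem wt_ow (hw : Wt w) (hw' : Wt w') : Wt (ow w w') :=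
  ⟨fun x => mul_nonneg (hw.nn _) (hw'.nn _), by
    simp only [ow, Fintype.sum_prod_type, ← Finset.sum_mul_sum]
    exact mul_pos hw.pos hw'.pos⟩

/-- the noise of the product cascade -/
def iNI : (M : List (Lv Ω × Lv Ω')) → NI (M.map Prod.fst) ⊕ NI (M.map Prod.snd) ≃ NI (M.map pl)
  | [] => Equiv.sumEmpty Empty Empty
  | p :: M => (Equiv.sumSumSumComm p.1.ι _ p.2.ι _).trans (.sumCongr (.refl _) (iNI M))

/-- the noise of the product tree -/
def iNT : (s : Sh) → (M : List (Lv Ω × Lv Ω')) →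
    NT s (M.map Prod.fst) ⊕ NT s (M.map Prod.snd) ≃ NT s (M.map pl)
  | .one, M => iNI M
  | .step s, [] => iNT s []
  | .step s, p :: M => (Equiv.sumSumSumComm p.1.ι _ p.2.ι _).trans (.sumCongr (.refl _) (iNT s M))
  | .split s t, M => (Equiv.sumSumSumComm (NT s _) (NT t _) (NT s _) (NT t _)).trans
      (.sumCongr (iNT s M) (iNT t M))

namespace Tp

theorem oa_fld (p : Lv Ω × Lv Ω') (h : Ω → ℝ) (h' : Ω' → ℝ) (g : p.1.ι ⊕ p.2.ι → ℝ) :
    oa h h' + (pl p).fld g =
      oa (h + p.1.fld fun i => g (.inl i)) (h' + p.2.fld fun i => g (.inr i)) := by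
  funext x
  show h x.1 + h' x.2 + ∑ i : p.1.ι ⊕ p.2.ι, Sum.elim (p.1.A x.1) (p.2.A x.2) i * g i = _
  rw [Fintype.sum_sum_type]
  exact add_add_add_comm _ _ _ _

theorem rel_fst (l : Lv Ω) (h' : Ω' → ℝ) : Rel (fun h => oa h h') 1 (coLv Prod.fst l) l :=
  ⟨mul_one _, fun h G _ => integral_congr_ae (.of_forall fun g => congrArg G
    (funext fun x => add_right_comm (h x.1) (h' x.2) (l.fld g x.1)))⟩

theorem rel_snd (l : Lv Ω') (h : Ω → ℝ) : Rel (fun h' => oa h h') 1 (coLv Prod.snd l) l :=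
  ⟨mul_one _, fun h' G _ => integral_congr_ae (.of_forall fun g => congrArg G
    (funext fun x => add_assoc (h x.1) (h' x.2) (l.fld g x.2)))⟩

theorem st_pl : ∀ (M : List (Lv Ω × Lv Ω')) (j : ℕ) (h : Ω → ℝ) (h' : Ω' → ℝ)
    (g : NI (M.map pl) → ℝ), st (M.map pl) j (oa h h') g =
      oa (st (M.map Prod.fst) j h fun i => g (iNI M (.inl i)))
        (st (M.map Prod.snd) j h' fun i => g (iNI M (.inr i)))
  | [], 0, _, _, _ => rfl
  | _ :: _, 0, _, _, _ => rfl
  | [], _ + 1, _, _, _ => rfl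
  | p :: M, j + 1, h, h', g =>
      (congrArg (fun z => st (M.map pl) j z fun i => g (.inr i))
        (oa_fld p h h' fun i => g (.inl i))).trans (st_pl M j _ _ fun i => g (.inr i))

theorem stT_pl : ∀ (s : Sh) (M : List (Lv Ω × Lv Ω')) (h : Ω → ℝ) (h' : Ω' → ℝ)
    (g : NT s (M.map pl) → ℝ) (a : s.Lf) (j : ℕ), stT s (M.map pl) (oa h h') g a j =
      oa (stT s (M.map Prod.fst) h (fun i => g (iNT s M (.inl i))) a j)
        (stT s (M.map Prod.snd) h' (fun i => g (iNT s M (.inr i))) a j)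
  | .one, M, h, h', g, _, j => st_pl M j h h' g
  | .step s, [], h, h', g, a, j => stT_pl s [] h h' g a j
  | .step _, _ :: _, _, _, _, _, 0 => rfl
  | .step s, p :: M, h, h', g, a, j + 1 =>
      (congrArg (fun z => stT s (M.map pl) z (fun i => g (.inr i)) a j)
        (oa_fld p h h' fun i => g (.inl i))).trans (stT_pl s M _ _ (fun i => g (.inr i)) a j)
  | .split s _, M, h, h', g, .inl a, j => stT_pl s M h h' (fun i => g (.inl i)) a j
  | .split _ t, M, h, h', g, .inr a, j => stT_pl t M h h' (fun i => g (.inr i)) a j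

theorem ex_congr {L : List (Lv Ω)} {L' : List (Lv Ω')} (H : L.map Lv.m = L'.map Lv.m) (j : ℕ) :
    ex L j = ex L' j := by
  have := congrArg (fun l : List ℝ => l[j]?) H
  simp only [List.getElem?_map] at this
  unfold ex
  cases h1 : L[j]? <;> cases h2 : L'[j]? <;> simp_all

theorem cf_congr : ∀ (s : Sh) {L : List (Lv Ω)} {L' : List (Lv Ω')}, L.map Lv.m = L'.map Lv.m →
    ∀ (a : s.Lf) (j : ℕ), cf s L a j = cf s L' a j
  | .one, _, _, _, _, 0 => rfl
  | .one, L, L', H, _, j + 1 => by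
      show ex L (j + 1) - ex L j = ex L' (j + 1) - ex L' j
      rw [ex_congr H, ex_congr H]
  | .step s, [], [], H, a, j => congrArg (· + _) (cf_congr s H a j)
  | .step _, [], _ :: _, H, _, _ => by simp at H
  | .step _, _ :: _, [], H, _, _ => by simp at H
  | .step _, _ :: _, _ :: _, _, _, 0 => rfl
  | .step s, l :: L, l' :: L', H, a, j + 1 => by
      simp only [List.map_cons, List.cons.injEq] at H
      show cf s L a j + (if a = s.fst ∧ j = 0 then s.br * ex L 0 - l.m else 0) =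
        cf s L' a j + if a = s.fst ∧ j = 0 then s.br * ex L' 0 - l'.m else 0
      rw [cf_congr s H.2, ex_congr H.2, H.1]
  | .split s _, _, _, H, .inl a, j => cf_congr s H a j
  | .split _ t, _, _, H, .inr a, j => cf_congr t H a j

end Tp

/-- **the value of a product is the sum of the values** -/
theorem X_pl (hw : Wt w) (hw' : Wt w') : ∀ (M : List (Lv Ω × Lv Ω')), (∀ p ∈ M, p.1.m = p.2.m) →
    ∀ h h', X (ow w w') (M.map pl) (oa h h') =
      X w (M.map Prod.fst) h + X w' (M.map Prod.snd) h'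
  | [], _, h, h' => by
      simp only [List.map_nil, X]
      rw [← log_mul (C.sum_exp_pos hw h).ne' (C.sum_exp_pos hw' h').ne', Finset.sum_mul_sum,
        Fintype.sum_prod_type]
      simp only [ow, oa, exp_add, mul_mul_mul_comm]
  | p :: M, H, h, h' => by
      have ih := X_pl hw hw' M fun q hq => H q (by simp [hq])
      have hl := C.lp_X (wt_ow hw hw') (M.map pl)
      simp only [List.map_cons, C.X_cons]
      rw [pl, C.step_addLv (l := coLv Prod.fst p.1) (l' := coLv Prod.snd p.2) (H p (by simp)) hl]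
      have h2 : ∀ z, step (coLv Prod.snd p.2) (X (ow w w') (M.map pl)) (oa z h') =
          1 * X w (M.map Prod.fst) z + step p.2 (X w' (M.map Prod.snd)) h' := fun z => by
        have := (Tp.rel_snd p.2 z).step (c := X w (M.map Prod.fst) z) one_ne_zero hl.meas
          (C.lp_X hw' (M.map Prod.snd)) (fun u => by rw [ih]; ring) h'
        rw [this]; ring
      have := (Tp.rel_fst p.1 h').step one_ne_zero (hl.step _).meas (C.lp_X hw _) h2 h
      rwa [one_mul] at this

theorem denT_pl (hw : Wt w) (hw' : Wt w') (s : Sh) {M : List (Lv Ω × Lv Ω')}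
    (H : ∀ p ∈ M, p.1.m = p.2.m) (h : Ω → ℝ) (h' : Ω' → ℝ) (g : NT s (M.map pl) → ℝ)
    (x : s.Lf → Ω × Ω') : denT (ow w w') s (M.map pl) (oa h h') g x =
      denT w s (M.map Prod.fst) h (fun i => g (iNT s M (.inl i))) (fun a => (x a).1) *
        denT w' s (M.map Prod.snd) h' (fun i => g (iNT s M (.inr i))) fun a => (x a).2 := by
  have e1 : (M.map Prod.fst).map Lv.m = (M.map pl).map Lv.m := by
    simp only [List.map_map]; rfl
  have e2 : (M.map Prod.snd).map Lv.m = (M.map pl).map Lv.m := by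
    simp only [List.map_map]
    exact List.map_congr_left fun p hp => (H p hp).symm
  have e3 := fun j => X_pl hw hw' (M.drop j) fun p hp => H p (List.mem_of_mem_drop hp)
  simp only [List.map_drop] at e3
  simp only [denT, UT_eq, UP, Tp.stT_pl, e3, X_pl hw hw' M H, Tp.cf_congr s e1, Tp.cf_congr s e2,
    Tp.ex_congr e1, Tp.ex_congr e2, List.length_map, ow, oa, Finset.prod_mul_distrib, mul_add,
    Finset.sum_add_distrib]
  rw [mul_mul_mul_comm, ← exp_add]
  congr 2
  ring

/-- **the tree law of a product is the product of the tree laws** -/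
theorem tX_prod (hw : Wt w) (hw' : Wt w') (s : Sh) {M : List (Lv Ω × Lv Ω')}
    (H : ∀ p ∈ M, p.1.m = p.2.m) (h : Ω → ℝ) (h' : Ω' → ℝ)
    {F : (NT s (M.map pl) → ℝ) → (s.Lf → Ω × Ω') → ℝ} (hF : ∀ x, Eg fun g => F g x) :
    tX (ow w w') s (M.map pl) (oa h h') F =
      tX w s (M.map Prod.fst) h fun g x => tX w' s (M.map Prod.snd) h' fun g' x' =>
        F (fun i => Sum.elim g g' ((iNT s M).symm i)) fun a => (x a, x' a) := by
  classical
  have h0 := Tr.eg_sumT (wt_ow hw hw') s (M.map pl) (oa h h') hF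
  have h1 := mp_comp (iNT s M).symm (iNT s M).symm.injective
  refine (mp_int h1 h0.cont.aestronglyMeasurable).symm.trans
    ((Tr.int_sum (h1.integrable_comp_of_integrable (Tr.eg_int h0))).trans ?_)
  refine integral_congr_ae (.of_forall fun g => ?_)
  simp only [tX, ← integral_const_mul]
  rw [← integral_finsetSum _ fun x _ => (Tr.eg_int (Tr.eg_sumT hw' s (M.map Prod.snd) h'
    (F := fun g' x' => F (fun i => Sum.elim g g' ((iNT s M).symm i)) fun a => (x a, x' a))
      fun x' => Tr.eg_comp (hF _) fun i => Tr.lg_elim_right g _)).const_mul _]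
  refine integral_congr_ae (.of_forall fun g' => ?_)
  simp only [Finset.mul_sum, Function.comp]
  rw [← Fintype.sum_prod_type']
  refine (Fintype.sum_equiv (Equiv.arrowProdEquivProdArrow s.Lf (fun _ => Ω) fun _ => Ω').symm
    _ _ fun p => ?_).symm
  rw [denT_pl hw hw' s H, ← mul_assoc]
  simp only [Equiv.symm_apply_apply]
  rfl

theorem tF_prod (hw : Wt w) (hw' : Wt w') (s : Sh) {M : List (Lv Ω × Lv Ω')}
    (H : ∀ p ∈ M, p.1.m = p.2.m) (h : Ω → ℝ) (h' : Ω' → ℝ)
    {F : Pa s.Lf (Ω × Ω') → (s.Lf → Ω × Ω') → ℝ} (hF : ∀ x, EgP fun p => F p x) :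
    tF (ow w w') s (M.map pl) (oa h h') F =
      tF w s (M.map Prod.fst) h fun p x => tF w' s (M.map Prod.snd) h' fun p' x' =>
        F (fun a j => oa (p a j) (p' a j)) fun a => (x a, x' a) := by
  refine (tX_prod hw hw' s H h h' fun x => (hF x).stT _ _).trans ?_
  unfold tF
  congr 1
  funext g x
  congr 1
  funext g' x'
  congr 1
  funext a j
  rw [Tp.stT_pl]
  simp only [Equiv.symm_apply_apply]
  rfl

/-- functions of the leaves -/
theorem tX_prod_leaf (hw : Wt w) (hw' : Wt w') (s : Sh) {M : List (Lv Ω × Lv Ω')}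
    (H : ∀ p ∈ M, p.1.m = p.2.m) (h : Ω → ℝ) (h' : Ω' → ℝ) (F : (s.Lf → Ω × Ω') → ℝ) :
    tX (ow w w') s (M.map pl) (oa h h') (fun _ => F) =
      tX w s (M.map Prod.fst) h fun _ x => tX w' s (M.map Prod.snd) h' fun _ x' =>
        F fun a => (x a, x' a) := tX_prod hw hw' s H h h' fun _ => Eg.const _

theorem tX_prod_mul (hw : Wt w) (hw' : Wt w') (s : Sh) {M : List (Lv Ω × Lv Ω')}
    (H : ∀ p ∈ M, p.1.m = p.2.m) (h : Ω → ℝ) (h' : Ω' → ℝ) (F : (s.Lf → Ω) → ℝ)
    (F' : (s.Lf → Ω') → ℝ) :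
    tX (ow w w') s (M.map pl) (oa h h') (fun _ x => F (fun a => (x a).1) * F' fun a => (x a).2) =
      tX w s (M.map Prod.fst) h (fun _ => F) * tX w' s (M.map Prod.snd) h' fun _ => F' := by
  refine (tX_prod_leaf hw hw' s H h h' _).trans ?_
  rw [mul_comm, ← Sd.tX_const_mul]
  congr 1
  funext _ x
  exact (Sd.tX_const_mul w' s _ h' (F x) fun _ => F').trans (mul_comm _ _)

theorem PT_prod (hw : Wt w) (hw' : Wt w') (s : Sh) {M : List (Lv Ω × Lv Ω')}
    (H : ∀ p ∈ M, p.1.m = p.2.m) (h : Ω → ℝ) (h' : Ω' → ℝ) (x : s.Lf → Ω × Ω') :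
    PT (ow w w') s (M.map pl) (oa h h') x = PT w s (M.map Prod.fst) h (fun a => (x a).1) *
      PT w' s (M.map Prod.snd) h' fun a => (x a).2 := by
  rw [PT_eq_tX (wt_ow hw hw'), PT_eq_tX hw, PT_eq_tX hw', ← tX_prod_mul hw hw' s H]
  congr 1
  funext _ y
  by_cases e : y = x
  · rw [if_pos e, if_pos (by rw [e]), if_pos (by rw [e]), mul_one]
  · rw [if_neg e]
    split_ifs with e1 e2
    · exact absurd (funext fun a => Prod.ext (congrFun e1 a) (congrFun e2 a)) e
    all_goals simp

/-- one leaf: the node law -/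
theorem PT_one (hw : Wt w) (L : List (Lv Ω)) (h : Ω → ℝ) (x : Ω) :
    PT w .one L h (fun _ => x) = P w L h x := by
  refine Eq.trans (integral_congr_ae (.of_forall fun g => ?_)) (Pe.int_den hw L h x)
  show (∏ _a : Unit, w x) * exp (-U w L h x g - ((1 : ℕ) : ℝ) * ex L 0 * X w L h) = _
  rw [Fintype.prod_unique, Nat.cast_one, one_mul]
  rfl

theorem P_pl (hw : Wt w) (hw' : Wt w') {M : List (Lv Ω × Lv Ω')} (H : ∀ p ∈ M, p.1.m = p.2.m)
    (h : Ω → ℝ) (h' : Ω' → ℝ) (x : Ω × Ω') : P (ow w w') (M.map pl) (oa h h') x =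
      P w (M.map Prod.fst) h x.1 * P w' (M.map Prod.snd) h' x.2 := by
  rw [← PT_one (wt_ow hw hw'), PT_prod hw hw' .one H, ← PT_one hw, ← PT_one hw']

end Crest.Agent.T156.Cas

end
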