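import Crest.Agent.T156.CaTr_32

/-!
# Row 156 (helper90): Schwinger–Dyson identities on replica trees

The planted potential `UT` is a function `UP` of the paths of states, the paths are affine in
(state, noise).  `DP` is the derivative of `UP`.  Results: `UT_eq`, `grP_UP`, `sum_cf`,
`cf_nonneg`, the classes `EgP`, `GrP` of functions of the paths.
-/

set_option autoImplicit false
set_option linter.unusedSectionVars false

noncomputable section

namespace Crest.Agent.T156.Cas

open MeasureTheory Real Set Filter Topology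
open Crest.Agent.T157.E Crest.Agent.T157.Casc Crest.Agent.T157.SL

/-- the leftmost leaf -/
def Sh.fst : (s : Sh) → s.Lf
  | .one => ()
  | .step s => s.fst
  | .split s _ => .inl s.fst

/-- number of levels shared by two leaves among the first `j` -/
def Sh.shr : (s : Sh) → s.Lf → s.Lf → ℕ → ℕ
  | .one, _, _, j => j
  | .step _, _, _, 0 => 0
  | .step s, a, b, j + 1 => s.shr a b j + 1
  | .split s _, .inl a, .inl b, j => s.shr a b j
  | .split _ t, .inr a, .inr b, j => t.shr a b j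
  | .split _ _, .inl _, .inr _, _ => 0
  | .split _ _, .inr _, .inl _, _ => 0

theorem Sh.one_le_br90 : ∀ s : Sh, 1 ≤ s.br
  | .one => le_rfl
  | .step _ => le_rfl
  | .split s _ => s.one_le_br90.trans (Nat.le_add_right _ _)

variable {Ω : Type}

/-- paths of states, one for each leaf -/
abbrev Pa (κ Ω : Type) : Type := κ → ℕ → Ω → ℝ

/-- the weight of the node reached by the leaf `a` after `j` levels (a node shared by several
leaves is charged to the leftmost one) -/
def cf : (s : Sh) → List (Lv Ω) → s.Lf → ℕ → ℝ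
  | .one, _, _, 0 => 0
  | .one, L, _, j + 1 => dm L 0 (j + 1)
  | .step s, [], a, j => cf s [] a j + if a = s.fst ∧ j = 0 then (s.br : ℝ) - 1 else 0
  | .step _, _ :: _, _, 0 => 0
  | .step s, l :: L, a, j + 1 =>
      cf s L a j + if a = s.fst ∧ j = 0 then s.br * ex L 0 - l.m else 0
  | .split s _, L, .inl a, j => cf s L a j
  | .split _ t, L, .inr a, j => cf t L a j

/-- the feature of the noise coordinate `i` -/
def ft (s : Sh) (L : List (Lv Ω)) (i : NT s L) : Pa s.Lf Ω :=
  stT s L 0 (@Pi.single _ _ _ (Classical.decEq _) i 1)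

namespace Sd

/-! ### the paths are affine -/

theorem fld_add (l : Lv Ω) (g g' : l.ι → ℝ) : l.fld (g + g') = l.fld g + l.fld g' := by
  funext x; simp [Lv.fld, mul_add, Finset.sum_add_distrib]

theorem fld_smul (l : Lv Ω) (c : ℝ) (g : l.ι → ℝ) : l.fld (c • g) = c • l.fld g := by
  funext x; simp [Lv.fld, Finset.mul_sum, mul_left_comm]

theorem fld_zero (l : Lv Ω) : l.fld 0 = 0 := by funext x; simp [Lv.fld]

theorem st_lin (c : ℝ) : ∀ (L : List (Lv Ω)) (j : ℕ) (h h' : Ω → ℝ) (g g' : NI L → ℝ),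
    st L j (h + c • h') (g + c • g') = st L j h g + c • st L j h' g'
  | [], 0, _, _, _, _ => rfl
  | _ :: _, 0, _, _, _, _ => rfl
  | [], _ + 1, _, _, _, _ => rfl
  | l :: L, j + 1, h, h', g, g' => by
      have e : h + c • h' + l.fld (fun i => (g + c • g') (.inl i)) =
          (h + l.fld fun i => g (.inl i)) + c • (h' + l.fld fun i => g' (.inl i)) := by
        rw [show (fun i => (g + c • g') (.inl i)) =
          (fun i => g (.inl i)) + c • fun i => g' (.inl i) from rfl, fld_add, fld_smul, smul_add]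
        abel
      exact (congrArg (fun z => st L j z fun i => (g + c • g') (.inr i)) e).trans
        (st_lin c L j _ _ (fun i => g (.inr i)) fun i => g' (.inr i))

theorem stT_lin (c : ℝ) : ∀ (s : Sh) (L : List (Lv Ω)) (h h' : Ω → ℝ) (g g' : NT s L → ℝ)
    (a : s.Lf) (j : ℕ),
    stT s L (h + c • h') (g + c • g') a j = stT s L h g a j + c • stT s L h' g' a j
  | .one, L, h, h', g, g', _, j => st_lin c L j h h' g g'
  | .step s, [], h, h', g, g', a, j => stT_lin c s [] h h' g g' a j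
  | .step _, _ :: _, _, _, _, _, _, 0 => rfl
  | .step s, l :: L, h, h', g, g', a, j + 1 => by
      have e : h + c • h' + l.fld (fun i => (g + c • g') (.inl i)) =
          (h + l.fld fun i => g (.inl i)) + c • (h' + l.fld fun i => g' (.inl i)) := by
        rw [show (fun i => (g + c • g') (.inl i)) =
          (fun i => g (.inl i)) + c • fun i => g' (.inl i) from rfl, fld_add, fld_smul, smul_add]
        abel
      exact (congrArg (fun z => stT s L z (fun i => (g + c • g') (.inr i)) a j) e).trans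
        (stT_lin c s L _ _ (fun i => g (.inr i)) (fun i => g' (.inr i)) a j)
  | .split s _, L, h, h', g, g', .inl a, j =>
      stT_lin c s L h h' (fun i => g (.inl i)) (fun i => g' (.inl i)) a j
  | .split _ t, L, h, h', g, g', .inr a, j =>
      stT_lin c t L h h' (fun i => g (.inr i)) (fun i => g' (.inr i)) a j

theorem st_g0 : ∀ (L : List (Lv Ω)) (j : ℕ) (h : Ω → ℝ), st L j h 0 = h
  | [], 0, _ => rfl
  | _ :: _, 0, _ => rfl
  | [], _ + 1, _ => rfl
  | l :: L, j + 1, h => by
      show st L j (h + l.fld 0) 0 = h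
      rw [fld_zero, add_zero, st_g0 L j h]

theorem stT_g0 : ∀ (s : Sh) (L : List (Lv Ω)) (h : Ω → ℝ) (a : s.Lf) (j : ℕ),
    stT s L h 0 a j = h
  | .one, L, h, _, j => st_g0 L j h
  | .step s, [], h, a, j => stT_g0 s [] h a j
  | .step _, _ :: _, _, _, 0 => rfl
  | .step s, l :: L, h, a, j + 1 => by
      show stT s L (h + l.fld 0) 0 a j = h
      rw [fld_zero, add_zero, stT_g0 s L h a j]
  | .split s _, L, h, .inl a, j => stT_g0 s L h a j
  | .split _ t, L, h, .inr a, j => stT_g0 t L h a j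

theorem stT_zero : ∀ (s : Sh) (L : List (Lv Ω)) (h : Ω → ℝ) (g : NT s L → ℝ) (a : s.Lf),
    stT s L h g a 0 = h
  | .one, [], _, _, _ => rfl
  | .one, _ :: _, _, _, _ => rfl
  | .step s, [], h, g, a => stT_zero s [] h g a
  | .step _, _ :: _, _, _, _ => rfl
  | .split s _, L, h, _, .inl a => stT_zero s L h _ a
  | .split _ t, L, h, _, .inr a => stT_zero t L h _ a

theorem stT_nil : ∀ (s : Sh) (h : Ω → ℝ) (g : NT s ([] : List (Lv Ω)) → ℝ) (a : s.Lf) (j : ℕ),
    stT s [] h g a j = h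
  | .one, _, _, _, 0 => rfl
  | .one, _, _, _, _ + 1 => rfl
  | .step s, h, g, a, j => stT_nil s h g a j
  | .split s _, h, _, .inl a, j => stT_nil s h _ a j
  | .split _ t, h, _, .inr a, j => stT_nil t h _ a j

theorem stT_lin' (s : Sh) (L : List (Lv Ω)) (c : ℝ) (h h' : Ω → ℝ) (g g' : NT s L → ℝ) :
    stT s L (h + c • h') (g + c • g') = stT s L h g + c • stT s L h' g' :=
  funext fun a => funext fun j => stT_lin c s L h h' g g' a j

/-- the noise part of the paths as a linear map -/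
def stL (s : Sh) (L : List (Lv Ω)) : (NT s L → ℝ) →ₗ[ℝ] Pa s.Lf Ω where
  toFun g := stT s L 0 g
  map_add' g g' := by simpa using stT_lin' s L 1 0 0 g g'
  map_smul' c g := by
    have := stT_lin' s L c 0 0 0 g
    rw [show stT s L 0 0 = 0 from funext fun a => funext fun j => stT_g0 s L 0 a j] at this
    simpa using this

theorem stT_eq_add (s : Sh) (L : List (Lv Ω)) (h : Ω → ℝ) (g : NT s L → ℝ) :
    stT s L h g = (fun _ _ => h) + stT s L 0 g := by
  have := stT_lin' s L 1 h 0 0 g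
  rw [show stT s L h 0 = fun _ _ => h from funext fun a => funext fun j => stT_g0 s L h a j] at this
  simpa using this

theorem stT_eq_sum (s : Sh) (L : List (Lv Ω)) (η : NT s L → ℝ) :
    stT s L 0 η = ∑ i, η i • ft s L i := by
  classical
  have := (stL s L).pi_apply_eq_sum_univ η
  refine this.trans (Finset.sum_congr rfl fun i _ => ?_)
  congr 1
  show stT s L 0 _ = stT s L 0 _
  congr 1
  funext k
  by_cases hk : i = k
  · subst hk; simp
  · simp [hk, Ne.symm hk]

theorem stT_apply (s : Sh) (L : List (Lv Ω)) (h : Ω → ℝ) (g : NT s L → ℝ) (a : s.Lf) (j : ℕ)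
    (y : Ω) : stT s L h g a j y = h y + ∑ i, g i * ft s L i a j y := by
  rw [stT_eq_add, stT_eq_sum]
  simp [Finset.sum_apply]

end Sd

variable [Fintype Ω]

/-- the planted potential as a function of the paths -/
def UP (w : Ω → ℝ) (s : Sh) (L : List (Lv Ω)) (x : s.Lf → Ω) (p : Pa s.Lf Ω) : ℝ :=
  ∑ a, ∑ j ∈ Finset.range (L.length + 1), cf s L a j * X w (L.drop j) (p a j) -
    ∑ a, p a L.length (x a)

/-- its derivative in the direction `q` -/
def DP (w : Ω → ℝ) (s : Sh) (L : List (Lv Ω)) (x : s.Lf → Ω) (p q : Pa s.Lf Ω) : ℝ :=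
  ∑ a, ∑ j ∈ Finset.range (L.length + 1), cf s L a j * Pf w (L.drop j) (p a j) (q a j) -
    ∑ a, q a L.length (x a)

/-- functions of the paths that have exponential growth under every substitution -/
def EgP {κ : Type} (Φ : Pa κ Ω → ℝ) : Prop :=
  ∀ (ι : Type) [Fintype ι] (p : (ι → ℝ) → Pa κ Ω), (∀ a j y, Lg fun g => p g a j y) →
    Eg fun g => Φ (p g)

/-- functions of the paths with derivative `Φ'` -/
structure GrP {κ : Type} (Φ : Pa κ Ω → ℝ) (Φ' : Pa κ Ω → Pa κ Ω → ℝ) : Prop where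
  eg : EgP Φ
  eg' : ∀ q, EgP fun p => Φ' p q
  lin : ∀ p, IsLinearMap ℝ (Φ' p)
  der : ∀ (c : ℝ → Pa κ Ω) (q : Pa κ Ω) (t : ℝ),
    (∀ a j y, HasDerivAt (fun t => c t a j y) (q a j y) t) →
    HasDerivAt (fun t => Φ (c t)) (Φ' (c t) q) t

namespace EgP

variable {κ : Type} {Φ Ψ : Pa κ Ω → ℝ}

theorem const (c : ℝ) : EgP fun _ : Pa κ Ω => c := fun _ _ _ _ => Eg.const c

theorem add (h : EgP Φ) (h' : EgP Ψ) : EgP fun p => Φ p + Ψ p :=
  fun ι _ p hp => (h ι p hp).add (h' ι p hp)

theorem sub (h : EgP Φ) (h' : EgP Ψ) : EgP fun p => Φ p - Ψ p :=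
  fun ι _ p hp => (h ι p hp).sub (h' ι p hp)

theorem mul (h : EgP Φ) (h' : EgP Ψ) : EgP fun p => Φ p * Ψ p :=
  fun ι _ p hp => (h ι p hp).mul (h' ι p hp)

theorem sum {α : Type*} (S : Finset α) {Φ : α → Pa κ Ω → ℝ} (h : ∀ k ∈ S, EgP (Φ k)) :
    EgP fun p => ∑ k ∈ S, Φ k p := fun ι _ p hp => Eg.sum S fun k hk => h k hk ι p hp

theorem state {F : (Ω → ℝ) → ℝ} (h : Eg F) (a : κ) (j : ℕ) : EgP fun p : Pa κ Ω => F (p a j) :=
  fun _ _ _ hp => Tr.eg_comp h (hp a j)

theorem comp {κ' : Type} (h : EgP Φ) {T : Pa κ' Ω → Pa κ Ω}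
    (hT : ∀ (ι : Type) [Fintype ι] (p : (ι → ℝ) → Pa κ' Ω), (∀ a j y, Lg fun g => p g a j y) →
      ∀ a j y, Lg fun g => T (p g) a j y) : EgP fun p => Φ (T p) :=
  fun ι _ p hp => h ι (fun g => T (p g)) (hT ι p hp)

theorem stT {s : Sh} {Φ : Pa s.Lf Ω → ℝ} (hΦ : EgP Φ) (L : List (Lv Ω)) (h : Ω → ℝ) :
    Eg fun g => Φ (stT s L h g) :=
  hΦ _ _ fun a j => Tr.lg_stT s L a j (H := fun _ => h) (G := fun g => g)
    (fun _ => Tr.lg_const _) fun i => Tr.lg_coord i

end EgP

theorem eg_Pf {w : Ω → ℝ} (hw : Wt w) (L : List (Lv Ω)) (f : Ω → ℝ) : Eg fun z => Pf w L z f :=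
  Eg.sum _ fun x _ => (eg_P hw L x).mul_const _

theorem gr_Pf {w : Ω → ℝ} (hw : Wt w) (L : List (Lv Ω)) (f : Ω → ℝ) :
    Gr (fun z => Pf w L z f) fun y z => ∑ x, f x * Hs w L z x y := by
  have := Gr.sum Finset.univ fun x _ => (gr_P hw L x).const_mul (f x)
  simpa only [Pf, mul_comm] using this

namespace GrP

variable {κ : Type} {Φ Ψ : Pa κ Ω → ℝ} {Φ' Ψ' : Pa κ Ω → Pa κ Ω → ℝ}

theorem congr (h : GrP Φ Φ') (e : ∀ p q, Ψ' p q = Φ' p q) : GrP Φ Ψ' := by
  rwa [show Ψ' = Φ' from funext fun p => funext (e p)]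

theorem const (c : ℝ) : GrP (fun _ : Pa κ Ω => c) fun _ _ => 0 :=
  ⟨.const c, fun _ => .const 0, fun _ => ⟨by simp, by simp⟩, fun _ _ t _ => hasDerivAt_const t c⟩

theorem add (h : GrP Φ Φ') (h' : GrP Ψ Ψ') :
    GrP (fun p => Φ p + Ψ p) fun p q => Φ' p q + Ψ' p q :=
  ⟨h.eg.add h'.eg, fun q => (h.eg' q).add (h'.eg' q), fun p => ⟨fun q q' => by
    rw [(h.lin p).map_add, (h'.lin p).map_add]; ring, fun c q => by
    rw [(h.lin p).map_smul, (h'.lin p).map_smul, smul_add]⟩,
    fun c q t hc => (h.der c q t hc).add (h'.der c q t hc)⟩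

theorem mul (h : GrP Φ Φ') (h' : GrP Ψ Ψ') :
    GrP (fun p => Φ p * Ψ p) fun p q => Φ' p q * Ψ p + Φ p * Ψ' p q :=
  ⟨h.eg.mul h'.eg, fun q => ((h.eg' q).mul h'.eg).add (h.eg.mul (h'.eg' q)),
    fun p => ⟨fun q q' => by rw [(h.lin p).map_add, (h'.lin p).map_add]; ring, fun c q => by
      rw [(h.lin p).map_smul, (h'.lin p).map_smul]; simp only [smul_eq_mul]; ring⟩,
    fun c q t hc => (h.der c q t hc).mul (h'.der c q t hc)⟩

theorem const_mul (c : ℝ) (h : GrP Φ Φ') : GrP (fun p => c * Φ p) fun p q => c * Φ' p q :=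
  ((const c).mul h).congr fun _ _ => by simp

theorem sub (h : GrP Φ Φ') (h' : GrP Ψ Ψ') :
    GrP (fun p => Φ p - Ψ p) fun p q => Φ' p q - Ψ' p q := by
  simpa [sub_eq_add_neg] using h.add (h'.const_mul (-1))

theorem sum {α : Type*} (S : Finset α) {Φ : α → Pa κ Ω → ℝ} {Φ' : α → Pa κ Ω → Pa κ Ω → ℝ}
    (h : ∀ k ∈ S, GrP (Φ k) (Φ' k)) :
    GrP (fun p => ∑ k ∈ S, Φ k p) fun p q => ∑ k ∈ S, Φ' k p q := by
  classical
  induction S using Finset.induction_on with
  | empty => simpa using const (κ := κ) (Ω := Ω) 0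
  | insert a S ha ih =>
    simp only [Finset.sum_insert ha]
    exact (h a (by simp)).add (ih fun b hb => h b (by simp [hb]))

/-- a smooth function of one state -/
theorem state {F : (Ω → ℝ) → ℝ} {F₁ : Ω → (Ω → ℝ) → ℝ} (h : Gr F F₁) (a : κ) (j : ℕ) :
    GrP (fun p : Pa κ Ω => F (p a j)) fun p q => ∑ y, F₁ y (p a j) * q a j y :=
  ⟨.state h.eg a j, fun q => .sum _ fun y _ => (EgP.state (h.eg' y) a j).mul (.const _),
    fun p => ⟨fun q q' => by simp [mul_add, Finset.sum_add_distrib], fun c q => by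
      simp [Finset.mul_sum, mul_left_comm]⟩,
    fun c q t hc => h.hasDerivAt (c := fun t => c t a j) (hasDerivAt_pi.2 (hc a j))⟩

theorem coord (a : κ) (j : ℕ) (y : Ω) : GrP (fun p : Pa κ Ω => p a j y) fun _ q => q a j y :=
  ⟨.state (Eg.coord y) a j, fun _ => .const _, fun _ => ⟨fun _ _ => rfl, fun _ _ => rfl⟩,
    fun _ _ _ hc => hc a j y⟩

/-- the mean at a node; its derivative is the Hessian form -/
theorem pf {w : Ω → ℝ} (hw : Wt w) (L : List (Lv Ω)) (f : Ω → ℝ) (a : κ) (j : ℕ) :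
    GrP (fun p : Pa κ Ω => Pf w L (p a j) f) fun p q => Hb w L (p a j) f (q a j) :=
  (state (gr_Pf hw L f) a j).congr fun p q => by
    simp only [Hb, Finset.sum_mul]
    rw [Finset.sum_comm]
    exact Finset.sum_congr rfl fun _ _ => Finset.sum_congr rfl fun _ _ => by ring

end GrP

theorem grP_UP {w : Ω → ℝ} (hw : Wt w) (s : Sh) (L : List (Lv Ω)) (x : s.Lf → Ω) :
    GrP (UP w s L x) (DP w s L x) :=
  (GrP.sum _ fun a _ => GrP.sum _ fun j _ =>
    (GrP.state (gr_X hw (L.drop j)) a j).const_mul (cf s L a j)).sub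
    (GrP.sum _ fun a _ => GrP.coord a L.length (x a))

namespace Sd

theorem sum_ite (s : Sh) (n : ℕ) (c : ℝ) (G : s.Lf → ℕ → ℝ) :
    ∑ a, ∑ j ∈ Finset.range (n + 1), (if a = s.fst ∧ j = 0 then c else 0) * G a j =
      c * G s.fst 0 := by
  rw [Finset.sum_eq_single s.fst (fun a _ ha => by simp [ha]) (by simp),
    Finset.sum_eq_single 0 (fun j _ hj => by simp [hj]) (by simp)]
  simp

end Sd

/-- **the potential is a function of the paths** -/
theorem UT_eq (w : Ω → ℝ) : ∀ (s : Sh) (L : List (Lv Ω)) (h : Ω → ℝ) (x : s.Lf → Ω)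
    (g : NT s L → ℝ), UT w s L h x g = UP w s L x (stT s L h g)
  | .one, L, h, x, g => by
      show U w L h (x ()) g = ∑ a : Unit, _ - ∑ a : Unit, _
      rw [Fintype.sum_unique, Fintype.sum_unique, Finset.sum_range_succ']
      show _ = ∑ j ∈ Finset.range L.length, dm L 0 (j + 1) * Ph w L (j + 1) h g + 0 * _ - _
      rw [zero_mul, add_zero]
      rfl
  | .step s, [], h, x, g => by
      show UT w s [] h x g + (s.br - 1) * X w [] h = ∑ a : s.Lf, ∑ j ∈ Finset.range (0 + 1),
        (cf s [] a j + if a = s.fst ∧ j = 0 then (s.br : ℝ) - 1 else 0) *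
          X w (List.drop j []) (stT s [] h g a j) - ∑ a : s.Lf, stT s [] h g a 0 (x a)
      simp only [add_mul, Finset.sum_add_distrib]
      rw [Sd.sum_ite s 0 _ fun a j => X w (List.drop j []) (stT s [] h g a j), UT_eq w s [] h x g,
        Sd.stT_zero, UP]
      simp only [List.length_nil, List.drop_nil]
      ring
  | .step s, l :: L, h, x, g => by
      show UT w s L (h + l.fld fun i => g (.inl i)) x (fun i => g (.inr i)) +
        (s.br * ex L 0 - l.m) * X w L (h + l.fld fun i => g (.inl i)) =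
        ∑ a : s.Lf, ∑ j ∈ Finset.range (L.length + 1 + 1), cf (.step s) (l :: L) a j *
          X w ((l :: L).drop j) (stT (.step s) (l :: L) h g a j) -
          ∑ a : s.Lf, stT s L (h + l.fld fun i => g (.inl i)) (fun i => g (.inr i)) a L.length (x a)
      simp only [Finset.sum_range_succ' _ (L.length + 1)]
      show _ = ∑ a : s.Lf, (∑ j ∈ Finset.range (L.length + 1),
        (cf s L a j + if a = s.fst ∧ j = 0 then s.br * ex L 0 - l.m else 0) * X w (L.drop j)
          (stT s L (h + l.fld fun i => g (.inl i)) (fun i => g (.inr i)) a j) + 0 * _) - _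
      simp only [add_mul, Finset.sum_add_distrib, zero_mul, add_zero]
      rw [Sd.sum_ite s L.length _ fun a j => X w (L.drop j)
        (stT s L (h + l.fld fun i => g (.inl i)) (fun i => g (.inr i)) a j), UT_eq w s L,
        Sd.stT_zero, UP, List.drop_zero]
      ring
  | .split s t, L, h, x, g => by
      show UT w s L h (fun a => x (.inl a)) (fun i => g (.inl i)) +
        UT w t L h (fun a => x (.inr a)) (fun i => g (.inr i)) =
        ∑ a : s.Lf ⊕ t.Lf, _ - ∑ a : s.Lf ⊕ t.Lf, _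
      rw [Fintype.sum_sum_type, Fintype.sum_sum_type, UT_eq w s, UT_eq w t, UP, UP]
      show _ = (∑ a : s.Lf, ∑ j ∈ Finset.range (L.length + 1), cf s L a j *
          X w (L.drop j) (stT s L h (fun i => g (.inl i)) a j) +
        ∑ a : t.Lf, ∑ j ∈ Finset.range (L.length + 1), cf t L a j *
          X w (L.drop j) (stT t L h (fun i => g (.inr i)) a j)) -
        (∑ a : s.Lf, stT s L h (fun i => g (.inl i)) a L.length (x (.inl a)) +
          ∑ a : t.Lf, stT t L h (fun i => g (.inr i)) a L.length (x (.inr a)))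
      ring

omit [Fintype Ω] in
/-- total weight of the new replica -/
theorem sum_cf : ∀ (s : Sh) (L : List (Lv Ω)),
    ∑ a, ∑ j ∈ Finset.range (L.length + 1), cf s L a j = Fintype.card s.Lf - s.br * ex L 0
  | .one, L => by
      show ∑ a : Unit, _ = ((Fintype.card Unit : ℕ) : ℝ) - ((1 : ℕ) : ℝ) * ex L 0
      have h := sum_dm L 0 L.length
      rw [Finset.sum_range_succ', ex_length] at h
      rw [Fintype.sum_unique, Finset.sum_range_succ']
      show ∑ j ∈ Finset.range L.length, dm L 0 (j + 1) + 0 = _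
      have h0 : dm L 0 0 = ex L 0 := sub_zero _
      simp only [Fintype.card_unique, Nat.cast_one]
      linarith
  | .step s, [] => by
      show ∑ a : s.Lf, ∑ j ∈ Finset.range (0 + 1),
        (cf s [] a j + if a = s.fst ∧ j = 0 then (s.br : ℝ) - 1 else 0) =
        ((Fintype.card s.Lf : ℕ) : ℝ) - ((1 : ℕ) : ℝ) * 1
      have h1 := Sd.sum_ite s 0 ((s.br : ℝ) - 1) fun _ _ => 1
      have h2 : ∑ a : s.Lf, ∑ j ∈ Finset.range (0 + 1), cf s ([] : List (Lv Ω)) a j =
        Fintype.card s.Lf - s.br * 1 := sum_cf s []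
      simp only [mul_one] at h1 h2
      simp only [Finset.sum_add_distrib, h1, h2]
      push_cast; ring
  | .step s, l :: L => by
      show ∑ a : s.Lf, ∑ j ∈ Finset.range (L.length + 1 + 1), cf (.step s) (l :: L) a j =
        ((Fintype.card s.Lf : ℕ) : ℝ) - ((1 : ℕ) : ℝ) * l.m
      simp only [Finset.sum_range_succ' _ (L.length + 1)]
      show ∑ a : s.Lf, (∑ j ∈ Finset.range (L.length + 1),
        (cf s L a j + if a = s.fst ∧ j = 0 then s.br * ex L 0 - l.m else 0) + 0) = _
      have h1 := Sd.sum_ite s L.length (s.br * ex L 0 - l.m) fun _ _ => 1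
      simp only [mul_one] at h1
      simp only [Finset.sum_add_distrib, add_zero, h1, sum_cf s L]
      push_cast; ring
  | .split s t, L => by
      show ∑ a : s.Lf ⊕ t.Lf, _ = ((Fintype.card (s.Lf ⊕ t.Lf) : ℕ) : ℝ) -
        ((s.br + t.br : ℕ) : ℝ) * ex L 0
      rw [Fintype.sum_sum_type, Fintype.card_sum]
      show ∑ a : s.Lf, ∑ j ∈ Finset.range (L.length + 1), cf s L a j +
        ∑ a : t.Lf, ∑ j ∈ Finset.range (L.length + 1), cf t L a j = _
      rw [sum_cf s L, sum_cf t L]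
      push_cast; ring

omit [Fintype Ω] in
theorem cf_nonneg : ∀ (s : Sh) (L : List (Lv Ω)) (m0 : ℝ), 0 ≤ m0 → Mono m0 L →
    ∀ a j, 0 ≤ cf s L a j
  | .one, _, _, _, _, _, 0 => le_rfl
  | .one, L, m0, _, h, _, j + 1 => dm_nonneg h (j + 1)
  | .step s, [], m0, h0, h, a, j => add_nonneg (cf_nonneg s [] m0 h0 h a j) (by
      have : (1 : ℝ) ≤ s.br := by exact_mod_cast s.one_le_br90
      split_ifs <;> linarith)
  | .step _, _ :: _, _, _, _, _, 0 => le_rfl
  | .step s, l :: L, m0, h0, h, a, j + 1 =>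
      add_nonneg (cf_nonneg s L l.m (h0.trans h.1) h.2 a j) (by
        have h1 : (1 : ℝ) ≤ s.br := by exact_mod_cast s.one_le_br90
        have h2 : 0 ≤ ex L 0 - l.m := dm_nonneg h.2 0
        have h3 : 0 ≤ l.m := h0.trans h.1
        split_ifs <;> nlinarith)
  | .split s _, L, m0, h0, h, .inl a, j => cf_nonneg s L m0 h0 h a j
  | .split _ t, L, m0, h0, h, .inr a, j => cf_nonneg t L m0 h0 h a j

end Crest.Agent.T156.Cas

end
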