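import Crest.Agent.T156.CasDef_88

/-!
# Row 156, cascade frame, leaf `SlepStmt` (helper31)

Guerra–Slepian–Kahane comparison of two cascades with the same tilts.
-/

set_option autoImplicit false
set_option linter.unusedSectionVars false

noncomputable section

namespace Crest.Agent.T156.Cas

open MeasureTheory Real Set Filter Topology
open Crest.Agent.T157.E Crest.Agent.T157.Casc Crest.Agent.T157.SL

namespace Slep31

variable {Ω : Type}

/-- the interpolating level -/
def itp (l l' : Lv Ω) : TL Ω :=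
  ⟨l.ι ⊕ l'.ι,
    fun t x => Sum.elim (fun i => √(1 - t) * l.A x i) (fun i => √t * l'.A x i),
    fun t x => Sum.elim (fun i => -(1 / (2 * √(1 - t))) * l.A x i)
      (fun i => 1 / (2 * √t) * l'.A x i), l.m⟩

theorem itp_cov (l l' : Lv Ω) {t : ℝ} (h0 : 0 ≤ t) (h1 : t ≤ 1) (x y : Ω) :
    ((itp l l').at t).cov x y = (1 - t) * l.cov x y + t * l'.cov x y := by
  have e1 : √(1 - t) * √(1 - t) = 1 - t := Real.mul_self_sqrt (by linarith)
  have e2 : √t * √t = t := Real.mul_self_sqrt h0
  change ∑ i : l.ι ⊕ l'.ι, (itp l l').A t x i * (itp l l').A t y i = _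
  rw [Fintype.sum_sum_type, Lv.cov, Lv.cov, Finset.mul_sum, Finset.mul_sum]
  congr 1
  · refine Finset.sum_congr rfl fun i _ => ?_
    change √(1 - t) * l.A x i * (√(1 - t) * l.A y i) = _
    linear_combination (l.A x i * l.A y i) * e1
  · refine Finset.sum_congr rfl fun i _ => ?_
    change √t * l'.A x i * (√t * l'.A y i) = _
    linear_combination (l'.A x i * l'.A y i) * e2

theorem itp_S (l l' : Lv Ω) {t : ℝ} (h0 : 0 < t) (h1 : t < 1) (x y : Ω) :
    (itp l l').S t x y = (l'.cov x y - l.cov x y) / 2 := by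
  have p1 : 0 < √(1 - t) := Real.sqrt_pos.2 (by linarith)
  have p2 : 0 < √t := Real.sqrt_pos.2 h0
  change ∑ i : l.ι ⊕ l'.ι, (itp l l').A' t x i * (itp l l').A t y i = _
  rw [Fintype.sum_sum_type, Lv.cov, Lv.cov, sub_div, Finset.sum_div, Finset.sum_div,
    sub_eq_neg_add, ← Finset.sum_neg_distrib]
  congr 1
  · refine Finset.sum_congr rfl fun i _ => ?_
    change -(1 / (2 * √(1 - t))) * l.A x i * (√(1 - t) * l.A y i) = _
    field_simp
  · refine Finset.sum_congr rfl fun i _ => ?_
    change 1 / (2 * √t) * l'.A x i * (√t * l'.A y i) = _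
    field_simp

theorem itp_cont (l l' : Lv Ω) (x : Ω) (i : (itp l l').ι) :
    Continuous fun t => (itp l l').A t x i := by
  rcases i with i | i
  · change Continuous fun t : ℝ => √(1 - t) * l.A x i
    fun_prop
  · change Continuous fun t : ℝ => √t * l'.A x i
    fun_prop

theorem itp_C1 [Fintype Ω] (l l' : Lv Ω) : (itp l l').C1 (Ioo 0 1) := by
  refine ⟨fun t ht x i => ?_, fun x i => ?_⟩
  · rcases i with i | i
    · change HasDerivAt (fun t : ℝ => √(1 - t) * l.A x i) (-(1 / (2 * √(1 - t))) * l.A x i) t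
      have h1 : HasDerivAt (fun t : ℝ => 1 - t) (-1) t := by
        simpa using (hasDerivAt_id t).const_sub 1
      have h2 := (h1.sqrt (by linarith [ht.2])).mul_const (l.A x i)
      refine h2.congr_deriv ?_
      rw [neg_div]
    · change HasDerivAt (fun t : ℝ => √t * l'.A x i) (1 / (2 * √t) * l'.A x i) t
      exact (Real.hasDerivAt_sqrt ht.1.ne').mul_const _
  · rcases i with i | i
    · change ContinuousOn (fun t : ℝ => -(1 / (2 * √(1 - t))) * l.A x i) (Ioo 0 1)
      refine ContinuousOn.mul (ContinuousOn.neg (ContinuousOn.div continuousOn_const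
        (by fun_prop) fun t ht => ?_)) continuousOn_const
      have : 0 < √(1 - t) := Real.sqrt_pos.2 (by linarith [ht.2])
      positivity
    · change ContinuousOn (fun t : ℝ => 1 / (2 * √t) * l'.A x i) (Ioo 0 1)
      refine ContinuousOn.mul (ContinuousOn.div continuousOn_const
        (by fun_prop) fun t ht => ?_) continuousOn_const
      have : 0 < √t := Real.sqrt_pos.2 ht.1
      positivity

theorem cacc_cons (l : Lv Ω) (L : List (Lv Ω)) (j : ℕ) (x y : Ω) :
    cacc (l :: L) (j + 1) x y = l.cov x y + cacc L j x y := by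
  simp [cacc]

theorem facts {L L' : List (Lv Ω)} (H : List.Forall₂ (fun l l' => l.m = l'.m) L L') :
    List.Forall₂ C.Same (atL (List.zipWith itp L L') 0) L ∧
    List.Forall₂ C.Same (atL (List.zipWith itp L L') 1) L' ∧
    (List.zipWith itp L L').length = L.length ∧ L'.length = L.length ∧
    (∀ t m0, Mono m0 L → Mono m0 (atL (List.zipWith itp L L') t)) ∧
    (∀ t, 0 < t → t < 1 → ∀ j x y,
      Sacc (List.zipWith itp L L') t j x y = (cacc L' j x y - cacc L j x y) / 2) ∧
    ∀ k ∈ List.zipWith itp L L', ∃ l l', k = itp l l' := by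
  induction H with
  | nil => simp [atL, Mono, Sacc, cacc]
  | @cons l l' L L' h _ ih =>
    obtain ⟨i1, i2, i3, i4, i5, i6, i7⟩ := ih
    refine ⟨?_, ?_, by simp [i3], by simp [i4], fun t m0 hm => ?_, fun t h0 h1 j x y => ?_, ?_⟩
    · refine List.Forall₂.cons ⟨rfl, ?_⟩ i1
      funext x y
      rw [itp_cov l l' le_rfl zero_le_one]; ring
    · refine List.Forall₂.cons ⟨h, ?_⟩ i2
      funext x y
      rw [itp_cov l l' zero_le_one le_rfl]; ring
    · exact ⟨hm.1, i5 t l.m hm.2⟩
    · cases j with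
      | zero => simp [Sacc, cacc]
      | succ j =>
        have e : Sacc (List.zipWith itp (l :: L) (l' :: L')) t (j + 1) x y =
            (itp l l').S t x y + Sacc (List.zipWith itp L L') t j x y := by simp [Sacc]
        rw [e, i6 t h0 h1, itp_S l l' h0 h1, cacc_cons, cacc_cons]; ring
    · intro k hk
      rw [List.zipWith_cons_cons, List.mem_cons] at hk
      rcases hk with rfl | hk
      · exact ⟨l, l', rfl⟩
      · exact i7 k hk

variable [Fintype Ω] {w : Ω → ℝ}

/-- monotonicity of `pi2` for kernels compared on the support of the weights -/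
theorem pi2_mono' (hw : Wt w) (L : List (Lv Ω)) (j : ℕ) {K K' : Ω → Ω → ℝ}
    (h : ∀ x y, w x ≠ 0 → w y ≠ 0 → K x y ≤ K' x y) (z : Ω → ℝ) :
    pi2 w L j K z ≤ pi2 w L j K' z := by
  refine node_mono hw (eg_qf hw _ K) (eg_qf hw _ K') (fun z => ?_) L j z
  refine Finset.sum_le_sum fun x _ => Finset.sum_le_sum fun y _ => ?_
  by_cases hx : w x = 0
  · simp [P_eq_zero hx]
  by_cases hy : w y = 0
  · simp [P_eq_zero hy]
  exact mul_le_mul_of_nonneg_left (h x y hx hy) (mul_nonneg (P_nonneg hw _ z x) (P_nonneg hw _ z y))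

/-- monotonicity of `pair` for kernels compared on the support of the weights -/
theorem pair_mono' (hw : Wt w) {L : List (Lv Ω)} {m0 : ℝ} (hL : Mono m0 L)
    {K K' : ℕ → Ω → Ω → ℝ} (h : ∀ j x y, w x ≠ 0 → w y ≠ 0 → K j x y ≤ K' j x y) (z : Ω → ℝ) :
    pair w L m0 K z ≤ pair w L m0 K' z := by
  simp only [pair_eq_sum hw]
  exact Finset.sum_le_sum fun j _ => mul_le_mul_of_nonneg_left
    (pi2_mono' hw L j (h j) z) (dm_nonneg hL j)

end Slep31

open Slep31 in
theorem slepStmt : SlepStmt := by
  intro Ω _ w hw L L' δ δ' hL H hd ho h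
  obtain ⟨i1, i2, i3, i4, i5, i6, i7⟩ := facts H
  set M := List.zipWith itp L L' with hM
  obtain ⟨t, ht, e⟩ := exists_X_sub hw (L := M) (a := 0) (c := 1) zero_lt_one
    (fun k hk x i => by
      obtain ⟨l, l', rfl⟩ := i7 k hk
      exact (itp_cont l l' x i).continuousOn)
    (fun k hk => by
      obtain ⟨l, l', rfl⟩ := i7 k hk
      exact itp_C1 l l')
    (b := fun _ => h) (b' := fun _ _ => 0) (fun x => continuousOn_const)
    (fun t _ x => hasDerivAt_const t (h x))
  rw [C.X_same hw i1, C.X_same hw i2, sub_zero, one_mul, DX] at e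
  have h1 : ∑ x, P w (atL M t) h x * (0 + Sacc M t M.length x x) ≤ δ := by
    refine sum_P_le hw _ _ fun x hx => ?_
    have := hd x hx
    rw [i6 t ht.1 ht.2, i3]
    rw [i4] at this
    linarith
  have h2 : pair w (atL M t) 0 (fun _ _ _ => -δ') h ≤ pair w (atL M t) 0 (Sacc M t) h := by
    refine pair_mono' hw (i5 t 0 hL) (fun j x y hx hy => ?_) h
    have := ho j x y hx hy
    rw [i6 t ht.1 ht.2]
    linarith
  rw [pair_const hw, ← Finset.sum_mul, sum_dm, ex_length] at h2
  linarith

end Crest.Agent.T156.Cas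

end
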