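import Crest.Agent.T156.CaGf_90

/-!
# Row 156 (helper38): the smart path on replica trees, node form

`hasDerivAt_tX_node`: the derivative of `t ↦ tX w s (atL L t) h F` for a function `F` of the leaves.
-/

set_option autoImplicit false
set_option linter.unusedSectionVars false

noncomputable section

namespace Crest.Agent.T156.Cas

open MeasureTheory Real Set Filter Topology
open Crest.Agent.T157.E Crest.Agent.T157.Casc Crest.Agent.T157.SL

variable {Ω : Type}

namespace Sp38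

/-! ### features on a fixed index set -/

/-- a choice of features for every level -/
abbrev Sel (Ω : Type) : Type 1 := (l : TL Ω) → Ω → l.ι → ℝ

def fs1 (φ : Sel Ω) (u : ℝ) : (L : List (TL Ω)) → ℕ → Ω → NI (atL L u) → ℝ
  | [], _, _ => 0
  | _ :: _, 0, _ => 0
  | l :: L, j + 1, y => (Sum.elim (φ l y) (fs1 φ u L j y) : l.ι ⊕ NI (atL L u) → ℝ)

def fs (φ : Sel Ω) (u : ℝ) : (s : Sh) → (L : List (TL Ω)) → s.Lf → ℕ → Ω → NT s (atL L u) → ℝ
  | .one, L, _, j, y => fs1 φ u L j y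
  | .step s, [], a, j, y => fs φ u s [] a j y
  | .step _, _ :: _, _, 0, _ => 0
  | .step s, l :: L, a, j + 1, y => (Sum.elim (φ l y) (fs φ u s L a j y) : l.ι ⊕ NT s (atL L u) → ℝ)
  | .split s t, L, .inl a, j, y =>
      (Sum.elim (fs φ u s L a j y) 0 : NT s (atL L u) ⊕ NT t (atL L u) → ℝ)
  | .split s t, L, .inr a, j, y =>
      (Sum.elim 0 (fs φ u t L a j y) : NT s (atL L u) ⊕ NT t (atL L u) → ℝ)

def e1 (t u : ℝ) : (L : List (TL Ω)) → NI (atL L t) ≃ NI (atL L u)
  | [] => Equiv.refl _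
  | l :: L => (Equiv.sumCongr (Equiv.refl l.ι) (e1 t u L) :
      l.ι ⊕ NI (atL L t) ≃ l.ι ⊕ NI (atL L u))

def eT (t u : ℝ) : (s : Sh) → (L : List (TL Ω)) → NT s (atL L t) ≃ NT s (atL L u)
  | .one, L => e1 t u L
  | .step s, [] => eT t u s []
  | .step s, l :: L => (Equiv.sumCongr (Equiv.refl l.ι) (eT t u s L) :
      l.ι ⊕ NT s (atL L t) ≃ l.ι ⊕ NT s (atL L u))
  | .split s s', L => (Equiv.sumCongr (eT t u s L) (eT t u s' L) :
      NT s (atL L t) ⊕ NT s' (atL L t) ≃ NT s (atL L u) ⊕ NT s' (atL L u))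

theorem fe1_eq (t u : ℝ) : ∀ (L : List (TL Ω)) (j : ℕ) (y : Ω) (i : NI (atL L t)),
    fe1 (atL L t) j y i = fs1 (fun l => l.A t) u L j y (e1 t u L i)
  | [], _, _, i => Empty.elim i
  | _ :: _, 0, _, _ => rfl
  | _ :: _, _ + 1, _, .inl _ => rfl
  | _ :: L, j + 1, y, .inr i => fe1_eq t u L j y i

theorem fe_eq (t u : ℝ) : ∀ (s : Sh) (L : List (TL Ω)) (a : s.Lf) (j : ℕ) (y : Ω)
    (i : NT s (atL L t)), fe s (atL L t) a j y i = fs (fun l => l.A t) u s L a j y (eT t u s L i)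
  | .one, L, _, j, y, i => fe1_eq t u L j y i
  | .step s, [], a, j, y, i => fe_eq t u s [] a j y i
  | .step _, _ :: _, _, 0, _, _ => rfl
  | .step _, _ :: _, _, _ + 1, _, .inl _ => rfl
  | .step s, _ :: L, a, j + 1, y, .inr i => fe_eq t u s L a j y i
  | .split s _, L, .inl a, j, y, .inl i => fe_eq t u s L a j y i
  | .split _ _, _, .inl _, _, _, .inr _ => rfl
  | .split _ _, _, .inr _, _, _, .inl _ => rfl
  | .split _ s, L, .inr a, j, y, .inr i => fe_eq t u s L a j y i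

theorem fs1_self (u : ℝ) : ∀ (L : List (TL Ω)) (j : ℕ) (y : Ω) (i : NI (atL L u)),
    fs1 (fun l => l.A u) u L j y i = fe1 (atL L u) j y i
  | [], _, _, i => Empty.elim i
  | _ :: _, 0, _, _ => rfl
  | _ :: _, _ + 1, _, .inl _ => rfl
  | _ :: L, j + 1, y, .inr i => fs1_self u L j y i

theorem fs_self (u : ℝ) : ∀ (s : Sh) (L : List (TL Ω)) (a : s.Lf) (j : ℕ) (y : Ω)
    (i : NT s (atL L u)), fs (fun l => l.A u) u s L a j y i = fe s (atL L u) a j y i
  | .one, L, _, j, y, i => fs1_self u L j y i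
  | .step s, [], a, j, y, i => fs_self u s [] a j y i
  | .step _, _ :: _, _, 0, _, _ => rfl
  | .step _, _ :: _, _, _ + 1, _, .inl _ => rfl
  | .step s, _ :: L, a, j + 1, y, .inr i => fs_self u s L a j y i
  | .split s _, L, .inl a, j, y, .inl i => fs_self u s L a j y i
  | .split _ _, _, .inl _, _, _, .inr _ => rfl
  | .split _ _, _, .inr _, _, _, .inl _ => rfl
  | .split _ s, L, .inr a, j, y, .inr i => fs_self u s L a j y i

theorem fs1_ind (Q : (ℝ → ℝ) → (ℝ → ℝ) → Prop) (h0 : Q (fun _ => 0) fun _ => 0) (u : ℝ) :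
    ∀ (L : List (TL Ω)), (∀ l ∈ L, ∀ x i, Q (fun t => l.A t x i) fun t => l.A' t x i) →
    ∀ (j : ℕ) (y : Ω) (i : NI (atL L u)),
      Q (fun t => fs1 (fun l => l.A t) u L j y i) fun t => fs1 (fun l => l.A' t) u L j y i
  | [], _, _, _, i => Empty.elim i
  | _ :: _, _, 0, _, _ => h0
  | l :: _, h, _ + 1, y, .inl i => h l (by simp) y i
  | _ :: L, h, j + 1, y, .inr i => fs1_ind Q h0 u L (fun k hk => h k (by simp [hk])) j y i

theorem fs_ind (Q : (ℝ → ℝ) → (ℝ → ℝ) → Prop) (h0 : Q (fun _ => 0) fun _ => 0) (u : ℝ) :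
    ∀ (s : Sh) (L : List (TL Ω)), (∀ l ∈ L, ∀ x i, Q (fun t => l.A t x i) fun t => l.A' t x i) →
    ∀ (a : s.Lf) (j : ℕ) (y : Ω) (i : NT s (atL L u)),
      Q (fun t => fs (fun l => l.A t) u s L a j y i) fun t => fs (fun l => l.A' t) u s L a j y i
  | .one, L, h, _, j, y, i => fs1_ind Q h0 u L h j y i
  | .step s, [], h, a, j, y, i => fs_ind Q h0 u s [] h a j y i
  | .step _, _ :: _, _, _, 0, _, _ => h0
  | .step _, l :: _, h, _, _ + 1, y, .inl i => h l (by simp) y i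
  | .step s, _ :: L, h, a, j + 1, y, .inr i =>
      fs_ind Q h0 u s L (fun k hk => h k (by simp [hk])) a j y i
  | .split s _, L, h, .inl a, j, y, .inl i => fs_ind Q h0 u s L h a j y i
  | .split _ _, _, _, .inl _, _, _, .inr _ => h0
  | .split _ _, _, _, .inr _, _, _, .inl _ => h0
  | .split _ s, L, h, .inr a, j, y, .inr i => fs_ind Q h0 u s L h a j y i

theorem Sacc_nil (t : ℝ) (j : ℕ) (x y : Ω) : Sacc ([] : List (TL Ω)) t j x y = 0 := by simp [Sacc]

theorem Sacc_zero' (L : List (TL Ω)) (t : ℝ) (x y : Ω) : Sacc L t 0 x y = 0 := by simp [Sacc]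

theorem Sacc_cons' (l : TL Ω) (L : List (TL Ω)) (t : ℝ) (j : ℕ) (x y : Ω) :
    Sacc (l :: L) t (j + 1) x y = l.S t x y + Sacc L t j x y := by simp [Sacc]

theorem fs1_cov (u : ℝ) : ∀ (L : List (TL Ω)) (j k : ℕ) (y y' : Ω),
    ∑ i, fe1 (atL L u) k y' i * fs1 (fun l => l.A' u) u L j y i = Sacc L u (min j k) y y'
  | [], j, k, y, y' => by rw [Sacc_nil]; exact Finset.sum_eq_zero fun i _ => Empty.elim i
  | _ :: _, 0, k, y, y' => by
      rw [Nat.zero_min, Sacc_zero']; exact Finset.sum_eq_zero fun i _ => mul_zero _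
  | _ :: _, j + 1, 0, y, y' => by
      rw [Nat.min_zero, Sacc_zero']; exact Finset.sum_eq_zero fun i _ => zero_mul _
  | l :: L, j + 1, k + 1, y, y' => by
      rw [Nat.succ_min_succ, Sacc_cons', ← fs1_cov u L j k y y']
      show ∑ i : l.ι ⊕ NI (atL L u), Sum.elim (l.A u y') (fe1 (atL L u) k y') i *
        Sum.elim (l.A' u y) (fs1 (fun l => l.A' u) u L j y) i = _
      rw [Fintype.sum_sum_type]
      congr 1
      exact Finset.sum_congr rfl fun i _ => mul_comm _ _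

theorem fs_cov (u : ℝ) : ∀ (s : Sh) (L : List (TL Ω)) (a b : s.Lf) (j k : ℕ) (y y' : Ω),
    ∑ i, fe s (atL L u) b k y' i * fs (fun l => l.A' u) u s L a j y i =
      Sacc L u (s.shr a b (min j k)) y y'
  | .one, L, _, _, j, k, y, y' => fs1_cov u L j k y y'
  | .step s, [], a, b, j, k, y, y' => by
      rw [Sacc_nil]; exact (fs_cov u s [] a b j k y y').trans (Sacc_nil _ _ _ _)
  | .step _, _ :: _, a, b, 0, k, y, y' => by
      rw [Nat.zero_min]
      exact (Finset.sum_eq_zero fun i _ => mul_zero _).trans (Sacc_zero' _ _ _ _).symm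
  | .step _, _ :: _, a, b, j + 1, 0, y, y' => by
      rw [Nat.min_zero]
      exact (Finset.sum_eq_zero fun i _ => zero_mul _).trans (Sacc_zero' _ _ _ _).symm
  | .step s, l :: L, a, b, j + 1, k + 1, y, y' => by
      rw [Nat.succ_min_succ]
      show ∑ i : l.ι ⊕ NT s (atL L u), Sum.elim (l.A u y') (fe s (atL L u) b k y') i *
        Sum.elim (l.A' u y) (fs (fun l => l.A' u) u s L a j y) i =
          Sacc (l :: L) u (s.shr a b (min j k) + 1) y y'
      rw [Sacc_cons', ← fs_cov u s L a b j k y y', Fintype.sum_sum_type]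
      congr 1
      exact Finset.sum_congr rfl fun i _ => mul_comm _ _
  | .split s t, L, .inl a, .inl b, j, k, y, y' => by
      show ∑ i : NT s (atL L u) ⊕ NT t (atL L u),
        Sum.elim (fe s (atL L u) b k y') (0 : NT t (atL L u) → ℝ) i *
        Sum.elim (fs (fun l => l.A' u) u s L a j y) (0 : NT t (atL L u) → ℝ) i =
        Sacc L u (s.shr a b (min j k)) y y'
      rw [← fs_cov u s L a b j k y y', Fintype.sum_sum_type]
      simp
  | .split s t, L, .inr a, .inr b, j, k, y, y' => by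
      show ∑ i : NT s (atL L u) ⊕ NT t (atL L u),
        Sum.elim (0 : NT s (atL L u) → ℝ) (fe t (atL L u) b k y') i *
        Sum.elim (0 : NT s (atL L u) → ℝ) (fs (fun l => l.A' u) u t L a j y) i =
        Sacc L u (t.shr a b (min j k)) y y'
      rw [← fs_cov u t L a b j k y y', Fintype.sum_sum_type]
      simp
  | .split s t, L, .inl a, .inr b, j, k, y, y' => by
      show ∑ i : NT s (atL L u) ⊕ NT t (atL L u),
        Sum.elim (0 : NT s (atL L u) → ℝ) (fe t (atL L u) b k y') i *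
        Sum.elim (fs (fun l => l.A' u) u s L a j y) (0 : NT t (atL L u) → ℝ) i = Sacc L u 0 y y'
      rw [Sacc_zero', Fintype.sum_sum_type]
      simp
  | .split s t, L, .inr a, .inl b, j, k, y, y' => by
      show ∑ i : NT s (atL L u) ⊕ NT t (atL L u),
        Sum.elim (fe s (atL L u) b k y') (0 : NT t (atL L u) → ℝ) i *
        Sum.elim (0 : NT s (atL L u) → ℝ) (fs (fun l => l.A' u) u t L a j y) i = Sacc L u 0 y y'
      rw [Sacc_zero', Fintype.sum_sum_type]
      simp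

/-- the direction of the paths when the noise moves along a derivative feature -/
theorem stT_dir (u : ℝ) (s : Sh) (L : List (TL Ω)) (a : s.Lf) (j : ℕ) (y : Ω) :
    stT s (atL L u) 0 (fs (fun l => l.A' u) u s L a j y) =
      fun b k z => Sacc L u (s.shr a b (min j k)) y z := by
  funext b k z
  rw [stT_fe, fs_cov]
  simp

/-! ### the tilts do not move -/

theorem len_at (L : List (TL Ω)) (t : ℝ) : (atL L t).length = L.length := List.length_map _

theorem drop_at (L : List (TL Ω)) (t : ℝ) (j : ℕ) : (atL L t).drop j = atL (L.drop j) t :=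
  List.map_drop.symm

theorem ex_at (t u : ℝ) : ∀ (L : List (TL Ω)) (j : ℕ), ex (atL L t) j = ex (atL L u) j
  | [], _ => rfl
  | _ :: _, 0 => rfl
  | _ :: L, j + 1 => ex_at t u L j

theorem dm_at (t u : ℝ) (L : List (TL Ω)) (m0 : ℝ) (j : ℕ) :
    dm (atL L t) m0 j = dm (atL L u) m0 j := by
  cases j <;> simp only [dm, exP, ex_at t u]

theorem cf_step (s : Sh) (l : Lv Ω) (L : List (Lv Ω)) (a : s.Lf) (j : ℕ) :
    cf (.step s) (l :: L) a (j + 1) =
      cf s L a j + if a = s.fst ∧ j = 0 then s.br * ex L 0 - l.m else 0 := rfl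

theorem cf_at (t u : ℝ) : ∀ (s : Sh) (L : List (TL Ω)) (a : s.Lf) (j : ℕ),
    cf s (atL L t) a j = cf s (atL L u) a j
  | .one, _, _, 0 => rfl
  | .one, L, _, j + 1 => dm_at t u L 0 (j + 1)
  | .step _, [], _, _ => rfl
  | .step _, _ :: _, _, 0 => rfl
  | .step s, l :: L, a, j + 1 => by
      refine (cf_step s (l.at t) (atL L t) a j).trans
        (Eq.trans ?_ (cf_step s (l.at u) (atL L u) a j).symm)
      rw [cf_at t u s L a j, ex_at t u]
  | .split s _, L, .inl a, j => cf_at t u s L a j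
  | .split _ s, L, .inr a, j => cf_at t u s L a j

theorem Sacc_add (t : ℝ) (i : ℕ) (x y : Ω) : ∀ (L : List (TL Ω)) (j : ℕ),
    Sacc L t (j + i) x y = Sacc L t j x y + Sacc (L.drop j) t i x y
  | L, 0 => by rw [Sacc_zero', zero_add, zero_add, List.drop_zero]
  | [], j + 1 => by simp [Sacc_nil]
  | l :: L, j + 1 => by
      rw [show j + 1 + i = j + i + 1 by omega, Sacc_cons', Sacc_cons', Sacc_add t i x y L j,
        List.drop_succ_cons, add_assoc]

theorem shr_self : ∀ (s : Sh) (a : s.Lf) (j : ℕ), s.shr a a j = j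
  | .one, _, _ => rfl
  | .step _, _, 0 => rfl
  | .step s, a, j + 1 => congrArg (· + 1) (shr_self s a j)
  | .split s _, .inl a, j => shr_self s a j
  | .split _ t, .inr a, j => shr_self t a j

theorem int_equiv {ι κ : Type} [Fintype ι] [Fintype κ] (e : ι ≃ κ) (G : (ι → ℝ) → ℝ) :
    ∫ g, G g ∂gv ι = ∫ g : κ → ℝ, G (fun i => g (e i)) ∂gv κ := by
  have h := (measurePreserving_piCongrLeft (fun _ : κ => ProbabilityTheory.gaussianReal 0 1) e).symm
  exact (h.integral_comp' G).symm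

variable [Fintype Ω] {w : Ω → ℝ}

/-- the paths at time `t` on the index set of time `u` -/
def pa (u : ℝ) (s : Sh) (L : List (TL Ω)) (h : Ω → ℝ) (t : ℝ) (g : NT s (atL L u) → ℝ) :
    Pa s.Lf Ω := fun a j y => h y + ∑ i, fs (fun l => l.A t) u s L a j y i * g i

/-- their velocity -/
def pa' (u : ℝ) (s : Sh) (L : List (TL Ω)) (t : ℝ) (g : NT s (atL L u) → ℝ) :
    Pa s.Lf Ω := fun a j y => ∑ i, fs (fun l => l.A' t) u s L a j y i * g i

theorem pa_self (u : ℝ) (s : Sh) (L : List (TL Ω)) (h : Ω → ℝ) (g : NT s (atL L u) → ℝ) :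
    pa u s L h u g = stT s (atL L u) h g := by
  funext a j y
  simp only [pa, stT_fe, fs_self]

/-- the exponent of the density -/
def ee (w : Ω → ℝ) (u : ℝ) (s : Sh) (L : List (TL Ω)) (h : Ω → ℝ) (x : s.Lf → Ω)
    (p : Pt (NT s (atL L u))) : ℝ :=
  -(∑ a, ∑ j ∈ Finset.range (L.length + 1), cf s (atL L u) a j *
      XP w (L.drop j) (p.1, pa u s L h p.1 p.2 a j) - ∑ a, pa u s L h p.1 p.2 a L.length (x a)) -
    s.br * ex (atL L u) 0 * XP w L (p.1, h)

theorem tX_at (w : Ω → ℝ) (t u : ℝ) (s : Sh) (L : List (TL Ω)) (h : Ω → ℝ)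
    (F : (s.Lf → Ω) → ℝ) : tX w s (atL L t) h (fun _ x => F x) =
      ∫ g, ∑ x, (∏ a, w (x a)) * exp (ee w u s L h x (t, g)) * F x ∂gv (NT s (atL L u)) := by
  rw [tX, int_equiv (eT t u s L)]
  refine integral_congr_ae (.of_forall fun g => Finset.sum_congr rfl fun x _ => ?_)
  have e : stT s (atL L t) h (fun i => g (eT t u s L i)) = pa u s L h t g := by
    funext a j y
    rw [stT_fe, pa]
    congr 1
    simp only [fe_eq t u]
    exact (eT t u s L).sum_comp fun i => fs (fun l => l.A t) u s L a j y i * g i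
  simp only [denT, UT_eq, e, UP, ee, len_at, drop_at, cf_at t u, ex_at t u, XP]

/-- its time derivative -/
def ee' (w : Ω → ℝ) (u : ℝ) (s : Sh) (L : List (TL Ω)) (h : Ω → ℝ) (x : s.Lf → Ω)
    (p : Pt (NT s (atL L u))) : ℝ :=
  -(∑ a, ∑ j ∈ Finset.range (L.length + 1), cf s (atL L u) a j *
      (D0 w (L.drop j) (p.1, pa u s L h p.1 p.2 a j) +
        ∑ y, PP w (L.drop j) y (p.1, pa u s L h p.1 p.2 a j) * pa' u s L p.1 p.2 a j y) -
      ∑ a, pa' u s L p.1 p.2 a L.length (x a)) -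
    s.br * ex (atL L u) 0 * D0 w L (p.1, h)

/-- the regularity of one feature -/
def Rg (I : Set ℝ) (f f' : ℝ → ℝ) : Prop :=
  (∀ t ∈ I, HasDerivAt f (f' t) t) ∧ ContinuousOn f' I ∧ ∃ B, ∀ t ∈ I, |f t| ≤ B ∧ |f' t| ≤ B

theorem rg_fs {I : Set ℝ} (u : ℝ) (s : Sh) {L : List (TL Ω)} (hL : ∀ l ∈ L, l.OkD I) (a : s.Lf)
    (j : ℕ) (y : Ω) (i : NT s (atL L u)) :
    Rg I (fun t => fs (fun l => l.A t) u s L a j y i) fun t => fs (fun l => l.A' t) u s L a j y i := by
  refine fs_ind (Rg I) ⟨fun t _ => hasDerivAt_const t _, continuousOn_const, 0, by simp⟩ u s L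
    (fun l hl x i => ⟨fun t ht => (hL l hl).der t ht x i, (hL l hl).cont' x i, ?_⟩) a j y i
  obtain ⟨B, hB⟩ := (hL l hl).bd
  obtain ⟨B', hB'⟩ := (hL l hl).bd'
  exact ⟨max B B', fun t ht => ⟨(hB t ht x i).trans (le_max_left _ _),
    (hB' t ht x i).trans (le_max_right _ _)⟩⟩

theorem lG_lin {ι : Type} [Fintype ι] {I : Set ℝ} {f : ι → ℝ → ℝ} (c : ℝ)
    (hc : ∀ i, ContinuousOn (f i) I) (hb : ∀ i, ∃ B, ∀ t ∈ I, |f i t| ≤ B) :
    LG I fun p : Pt ι => c + ∑ i, f i p.1 * p.2 i := by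
  choose B hB using hb
  refine ⟨continuousOn_const.add (continuousOn_finsetSum _ fun i _ =>
    ((hc i).comp continuousOn_fst fun _ hp => hp.1).mul (by fun_prop)), |c|, ∑ i, |B i|,
    abs_nonneg _, by positivity, fun p hp => (abs_add_le _ _).trans (add_le_add le_rfl ?_)⟩
  rw [Finset.sum_mul]
  refine (Finset.abs_sum_le_sum_abs _ _).trans (Finset.sum_le_sum fun i _ => ?_)
  rw [abs_mul]
  exact mul_le_mul ((hB i p.1 hp).trans (le_abs_self _)) (norm_le_pi_norm p.2 i) (abs_nonneg _)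
    (abs_nonneg _)

theorem lG_bd {ι : Type} [Fintype ι] {I : Set ℝ} {φ : Pt ι → Ω → ℝ}
    (h : ∀ y, LG I fun p => φ p y) : ∃ A B : ℝ, 0 ≤ A ∧ 0 ≤ B ∧ ∀ p : Pt ι, p.1 ∈ I →
      ‖φ p‖ ≤ A + B * ‖p.2‖ := by
  choose C c h1 h2 h3 using fun y => (h y).bd
  refine ⟨∑ y, C y, ∑ y, c y, Finset.sum_nonneg fun y _ => h1 y, Finset.sum_nonneg fun y _ => h2 y,
    fun p hp => (pi_norm_le_iff_of_nonneg (add_nonneg (Finset.sum_nonneg fun y _ => h1 y)
      (mul_nonneg (Finset.sum_nonneg fun y _ => h2 y) (norm_nonneg _)))).2 fun y =>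
      (h3 y p hp).trans (add_le_add (Finset.single_le_sum (fun y _ => h1 y) (Finset.mem_univ y))
        (mul_le_mul_of_nonneg_right (Finset.single_le_sum (fun y _ => h2 y) (Finset.mem_univ y))
          (norm_nonneg _)))⟩

theorem eG_comp {ι : Type} [Fintype ι] {I : Set ℝ} {G : Pt Ω → ℝ} (hG : EG I G)
    {φ : Pt ι → Ω → ℝ} (h : ∀ y, LG I fun p => φ p y) : EG I fun p : Pt ι => G (p.1, φ p) := by
  classical
  obtain ⟨A, B, -, -, hb⟩ := lG_bd h
  exact hG.comp (φ := fun p : Pt ι => (p.1, φ p))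
    (continuousOn_fst.prodMk (continuousOn_pi.2 fun y => (h y).cont)) (fun _ hp => hp) A B hb

theorem lG_comp {ι : Type} [Fintype ι] {I : Set ℝ} {G : Pt Ω → ℝ} (hG : LG I G)
    {φ : Pt ι → Ω → ℝ} (h : ∀ y, LG I fun p => φ p y) : LG I fun p : Pt ι => G (p.1, φ p) := by
  obtain ⟨A, B, hA, hB, hb⟩ := lG_bd h
  obtain ⟨C, c, h1, h2, h3⟩ := hG.bd
  refine ⟨hG.cont.comp (continuousOn_fst.prodMk (continuousOn_pi.2 fun y => (h y).cont))
    fun p hp => ⟨hp.1, trivial⟩, C + c * A, c * B, by positivity, by positivity, fun p hp =>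
      (h3 (p.1, φ p) hp).trans ?_⟩
  have := mul_le_mul_of_nonneg_left (hb p hp) h2
  simp only
  linarith

section lg
variable {ι : Type} [Fintype ι] {I : Set ℝ} {F G : Pt ι → ℝ}

theorem lG_add (h : LG I F) (h' : LG I G) : LG I fun p => F p + G p := by
  obtain ⟨C, c, h1, h2, h3⟩ := h.bd
  obtain ⟨C', c', h1', h2', h3'⟩ := h'.bd
  exact ⟨h.cont.add h'.cont, C + C', c + c', by positivity, by positivity, fun p hp =>
    (abs_add_le _ _).trans (by linarith [h3 p hp, h3' p hp])⟩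

theorem lG_cmul (k : ℝ) (h : LG I F) : LG I fun p => k * F p := by
  obtain ⟨C, c, h1, h2, h3⟩ := h.bd
  refine ⟨continuousOn_const.mul h.cont, |k| * C, |k| * c, by positivity, by positivity,
    fun p hp => ?_⟩
  rw [abs_mul, mul_assoc, ← mul_add]
  exact mul_le_mul_of_nonneg_left (h3 p hp) (abs_nonneg _)

theorem lG_neg (h : LG I F) : LG I fun p => -F p := by simpa using lG_cmul (-1) h

theorem lG_sub (h : LG I F) (h' : LG I G) : LG I fun p => F p - G p := by
  simpa [sub_eq_add_neg] using lG_add h (lG_neg h')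

theorem lG_const (c : ℝ) : LG I fun _ : Pt ι => c :=
  ⟨continuousOn_const, |c|, 0, abs_nonneg _, le_rfl, fun _ _ => by simp⟩

theorem lG_sum {α : Type*} (S : Finset α) {F : α → Pt ι → ℝ} (h : ∀ k ∈ S, LG I (F k)) :
    LG I fun p => ∑ k ∈ S, F k p := by
  classical
  induction S using Finset.induction_on with
  | empty => simpa using lG_const 0
  | insert a S ha ih =>
    simp only [Finset.sum_insert ha]
    exact lG_add (h a (by simp)) (ih fun b hb => h b (by simp [hb]))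

end lg

variable {I : Set ℝ} {L : List (TL Ω)}

theorem lG_pa (hL : ∀ l ∈ L, l.OkD I) (u : ℝ) (s : Sh) (h : Ω → ℝ) (a : s.Lf) (j : ℕ) (y : Ω) :
    LG I fun p : Pt (NT s (atL L u)) => pa u s L h p.1 p.2 a j y :=
  lG_lin (f := fun i t => fs (fun l => l.A t) u s L a j y i) (h y)
    (fun i t ht => ((rg_fs u s hL a j y i).1 t ht).continuousAt.continuousWithinAt)
    fun i => (rg_fs u s hL a j y i).2.2.imp fun _ hB t ht => (hB t ht).1

theorem lG_pa' (hL : ∀ l ∈ L, l.OkD I) (u : ℝ) (s : Sh) (a : s.Lf) (j : ℕ) (y : Ω) :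
    LG I fun p : Pt (NT s (atL L u)) => pa' u s L p.1 p.2 a j y := by
  simpa only [zero_add, pa'] using lG_lin (f := fun i t => fs (fun l => l.A' t) u s L a j y i) 0
    (fun i => (rg_fs u s hL a j y i).2.1)
    fun i => (rg_fs u s hL a j y i).2.2.imp fun _ hB t ht => (hB t ht).2

theorem okD_drop (hL : ∀ l ∈ L, l.OkD I) (j : ℕ) : ∀ l ∈ L.drop j, l.OkD I :=
  fun l hl => hL l (List.mem_of_mem_drop hl)

theorem lG_ee (hw : Wt w) (hL : ∀ l ∈ L, l.OkC I)
    (u : ℝ) (s : Sh) (h : Ω → ℝ) (x : s.Lf → Ω)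
    (hp : ∀ a j y, LG I fun p : Pt (NT s (atL L u)) => pa u s L h p.1 p.2 a j y) :
    LG I (ee w u s L h x) := by
  classical
  exact lG_sub (lG_neg (lG_sub (lG_sum _ fun a _ => lG_sum _ fun j _ => lG_cmul _
    (lG_comp (lg_XP hw fun l hl => hL l (List.mem_of_mem_drop hl)) (hp a j)))
    (lG_sum _ fun a _ => hp a _ _)))
    (lG_cmul _ (lG_comp (lg_XP hw hL) fun y => lG_const (h y)))

theorem eG_ee' (hw : Wt w) (hI : IsOpen I) (hL : ∀ l ∈ L, l.OkD I) (u : ℝ) (s : Sh) (h : Ω → ℝ)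
    (x : s.Lf → Ω) : EG I (ee' w u s L h x) := by
  classical
  exact (((EG.sum _ fun a _ => EG.sum _ fun j _ =>
    ((eG_comp (sm_XP hI hw (okD_drop hL j)).ega (lG_pa hL u s h a j)).add (EG.sum _ fun y _ =>
      (eG_comp ((sm_XP hI hw (okD_drop hL j)).egb y) (lG_pa hL u s h a j)).mul
        (lG_pa' hL u s a j y).eg)).const_mul _).sub
    (EG.sum _ fun a _ => (lG_pa' hL u s a _ _).eg)).neg).sub
    ((eG_comp (sm_XP hI hw hL).ega fun y => lG_const (h y)).const_mul _)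

theorem der_pa (hL : ∀ l ∈ L, l.OkD I) (u : ℝ) (s : Sh) (h : Ω → ℝ) (g : NT s (atL L u) → ℝ)
    {t : ℝ} (ht : t ∈ I) (a : s.Lf) (j : ℕ) (y : Ω) :
    HasDerivAt (fun t => pa u s L h t g a j y) (pa' u s L t g a j y) t :=
  (HasDerivAt.fun_sum fun i _ => ((rg_fs u s hL a j y i).1 t ht).mul_const (g i)).const_add (h y)

theorem der_XP (hw : Wt w) (hI : IsOpen I) (hL : ∀ l ∈ L, l.OkD I) {b : ℝ → Ω → ℝ} {b' : Ω → ℝ}
    {t : ℝ} (ht : t ∈ I) (hb : ∀ y, HasDerivAt (fun t => b t y) (b' y) t) :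
    HasDerivAt (fun t => XP w L (t, b t)) (D0 w L (t, b t) + ∑ y, PP w L y (t, b t) * b' y) t := by
  classical
  have h1 := ((sm_XP hI hw hL).fd (t, b t) ht).comp_hasDerivAt t
    ((hasDerivAt_id t).prodMk (hasDerivAt_pi.2 hb))
  refine h1.congr_deriv ?_
  rw [D2_apply, mul_one]

theorem der_ee (hw : Wt w) (hI : IsOpen I) (hL : ∀ l ∈ L, l.OkD I) (u : ℝ) (s : Sh) (h : Ω → ℝ)
    (x : s.Lf → Ω) (g : NT s (atL L u) → ℝ) {t : ℝ} (ht : t ∈ I) :
    HasDerivAt (fun t => ee w u s L h x (t, g)) (ee' w u s L h x (t, g)) t := by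
  have h1 := HasDerivAt.fun_sum (u := Finset.univ) fun a _ =>
    HasDerivAt.fun_sum (u := Finset.range (L.length + 1)) fun j _ =>
      (der_XP hw hI (okD_drop hL j) ht (der_pa hL u s h g ht a j)).const_mul (cf s (atL L u) a j)
  have h2 := HasDerivAt.fun_sum (u := Finset.univ) fun a _ =>
    der_pa hL u s h g ht a L.length (x a)
  have h3 := (der_XP hw hI hL ht (b := fun _ => h) (b' := 0)
    fun y => hasDerivAt_const t (h y)).const_mul (s.br * ex (atL L u) 0)
  refine ((h1.fun_sub h2).fun_neg.fun_sub h3).congr_deriv ?_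
  simp [ee']

theorem hasDerivAt_raw (hw : Wt w) (hI : IsOpen I) (hL : ∀ l ∈ L, l.OkD I) {u : ℝ} (hu : u ∈ I)
    (s : Sh) (h : Ω → ℝ) (F : (s.Lf → Ω) → ℝ) :
    HasDerivAt (fun t => tX w s (atL L t) h fun _ x => F x)
      (tX w s (atL L u) h fun g x => ee' w u s L h x (u, g) * F x) u := by
  classical
  have e0 : ∀ x, EG I fun p => (∏ a, w (x a)) * exp (ee w u s L h x p) := fun x => by
    simpa only [one_mul] using ((lG_ee hw (fun l hl => (hL l hl).toOkC) u s h x
      (lG_pa hL u s h)).exp 1).const_mul (∏ a, w (x a))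
  have key := (EG.sum Finset.univ fun x _ => (e0 x).mul (EG.const (F x))).hasDerivAt_int
    (EG.sum Finset.univ fun x _ => (e0 x).mul ((eG_ee' hw hI hL u s h x).mul (EG.const (F x))))
    (hI.mem_nhds hu) fun t ht g => HasDerivAt.fun_sum fun x _ =>
      ((((der_ee hw hI hL u s h x g ht).exp).const_mul (∏ a, w (x a))).mul_const
        (F x)).congr_deriv (by ring)
  simp only [tX_at w _ u s L h F]
  refine key.congr_deriv ?_
  refine integral_congr_ae (.of_forall fun g => Finset.sum_congr rfl fun x _ => ?_)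
  simp only [denT, UT_eq, UP, ee, len_at, drop_at, pa_self, XP]

theorem continuousOn_tX (hw : Wt w) (hL : ∀ l ∈ L, l.OkC I) (s : Sh) (h : Ω → ℝ)
    (F : (s.Lf → Ω) → ℝ) : ContinuousOn (fun t => tX w s (atL L t) h fun _ x => F x) I := by
  classical
  have hq := fs_ind (fun f _ => ContinuousOn f I ∧ ∃ B, ∀ t ∈ I, |f t| ≤ B)
    ⟨continuousOn_const, 0, by simp⟩ 0 s L
    fun l hl x i => ⟨(hL l hl).cont x i, (hL l hl).bd.imp fun _ hB t ht => hB t ht x i⟩
  have e0 : ∀ x, EG I fun p => (∏ a, w (x a)) * exp (ee w 0 s L h x p) := fun x => by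
    simpa only [one_mul] using ((lG_ee hw hL 0 s h x fun a j y =>
      lG_lin (f := fun i t => fs (fun l => l.A t) 0 s L a j y i) (h y) (fun i => (hq a j y i).1)
        fun i => (hq a j y i).2).exp 1).const_mul (∏ a, w (x a))
  simp only [tX_at w _ 0 s L h F]
  exact (EG.sum Finset.univ fun x _ => (e0 x).mul (EG.const (F x))).continuousOn_int

end Sp38

end Crest.Agent.T156.Cas

end
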