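import Crest.Agent.T156.CasDef_88

/-!
# Row 156: planted Prékopa at the root, finite form (helper56)

`ff` is 94's (ii) in finite form, with the conditional Jensen step over all nodes of `M` included.
No path space is used: `R` is the planted density, defined by recursion on the levels.
-/

set_option autoImplicit false
set_option linter.unusedSectionVars false

noncomputable section

namespace Crest.Agent.T156.Cas

open MeasureTheory Real Set Filter Topology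
open Crest.Agent.T157.E Crest.Agent.T157.Casc Crest.Agent.T157.SL

variable {Ω : Type} [Fintype Ω]

/-- the level `l` with tilt `s` -/
abbrev rt (l : Lv Ω) (s : ℝ) : Lv Ω := ⟨l.ι, l.A, s⟩

namespace Trf

/-- three-function log-concavity -/
def Tri (θ : ℝ) (f f0 f1 : (Ω → ℝ) → ℝ) : Prop :=
  ∀ z0 z1, f0 z0 ^ (1 - θ) * f1 z1 ^ θ ≤ f ((1 - θ) • z0 + θ • z1)

/-- three-function convexity -/
def Cv (θ : ℝ) (F F0 F1 : (Ω → ℝ) → ℝ) : Prop :=
  ∀ z0 z1, F ((1 - θ) • z0 + θ • z1) ≤ (1 - θ) * F0 z0 + θ * F1 z1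

variable {θ : ℝ} {w : Ω → ℝ}

theorem comb_fld (l : Lv Ω) (z0 z1 : Ω → ℝ) (g0 g1 : l.ι → ℝ) :
    (1 - θ) • (z0 + l.fld g0) + θ • (z1 + l.fld g1) =
      ((1 - θ) • z0 + θ • z1) + l.fld ((1 - θ) • g0 + θ • g1) := by
  funext x
  simp only [Lv.fld, Pi.add_apply, Pi.smul_apply, smul_eq_mul, mul_add, Finset.sum_add_distrib,
    Finset.mul_sum]
  have e : ∀ (c : ℝ) (g : l.ι → ℝ), ∑ i, c * (l.A x i * g i) = ∑ i, l.A x i * (c * g i) :=
    fun c g => Finset.sum_congr rfl fun i _ => by ring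
  rw [e, e]
  ring

theorem Tri.int {f f0 f1 : (Ω → ℝ) → ℝ} (h : Tri θ f f0 f1) (h0 : 0 < θ) (h1 : θ < 1)
    (e : Eg f) (e0 : Eg f0) (e1 : Eg f1) (p : ∀ z, 0 ≤ f z) (p0 : ∀ z, 0 ≤ f0 z)
    (p1 : ∀ z, 0 ≤ f1 z) (l : Lv Ω) :
    Tri θ (fun z => ∫ g, f (z + l.fld g) ∂gv l.ι) (fun z => ∫ g, f0 (z + l.fld g) ∂gv l.ι)
      fun z => ∫ g, f1 (z + l.fld g) ∂gv l.ι := by
  intro z0 z1
  have key := Soft.lc_PL_pi l.ι θ h0 h1 (fun g => ENNReal.ofReal (f0 (z0 + l.fld g)))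
    (fun g => ENNReal.ofReal (f1 (z1 + l.fld g)))
    (fun g => ENNReal.ofReal (f ((1 - θ) • z0 + θ • z1 + l.fld g)))
    (e0.cont_fld l z0).measurable.ennreal_ofReal (e1.cont_fld l z1).measurable.ennreal_ofReal
    (e.cont_fld l _).measurable.ennreal_ofReal (fun g0 g1 => by
      rw [ENNReal.ofReal_rpow_of_nonneg (p0 _) (by linarith),
        ENNReal.ofReal_rpow_of_nonneg (p1 _) h0.le,
        ← ENNReal.ofReal_mul (Real.rpow_nonneg (p0 _) _), ← comb_fld]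
      exact ENNReal.ofReal_le_ofReal (h _ _))
  have i0 : 0 ≤ ∫ g, f0 (z0 + l.fld g) ∂gv l.ι := integral_nonneg fun g => p0 _
  have i1 : 0 ≤ ∫ g, f1 (z1 + l.fld g) ∂gv l.ι := integral_nonneg fun g => p1 _
  have i2 : 0 ≤ ∫ g, f ((1 - θ) • z0 + θ • z1 + l.fld g) ∂gv l.ι := integral_nonneg fun g => p _
  rw [← ofReal_integral_eq_lintegral_ofReal (e0.int l z0) (Eventually.of_forall fun g => p0 _),
    ← ofReal_integral_eq_lintegral_ofReal (e1.int l z1) (Eventually.of_forall fun g => p1 _),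
    ← ofReal_integral_eq_lintegral_ofReal (e.int l _) (Eventually.of_forall fun g => p _),
    ENNReal.ofReal_rpow_of_nonneg i0 (by linarith), ENNReal.ofReal_rpow_of_nonneg i1 h0.le,
    ← ENNReal.ofReal_mul (Real.rpow_nonneg i0 _), ENNReal.ofReal_le_ofReal_iff i2] at key
  exact key

theorem Tri.pen {f f0 f1 F F0 F1 : (Ω → ℝ) → ℝ} (h : Tri θ f f0 f1) (hc : Cv θ F F0 F1) {D : ℝ}
    (hD : 0 ≤ D) (p0 : ∀ z, 0 ≤ f0 z) (p1 : ∀ z, 0 ≤ f1 z) :
    Tri θ (fun z => exp (-D * F z) * f z) (fun z => exp (-D * F0 z) * f0 z)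
      fun z => exp (-D * F1 z) * f1 z := by
  intro z0 z1
  dsimp only
  rw [mul_rpow (exp_pos _).le (p0 _), mul_rpow (exp_pos _).le (p1 _), mul_mul_mul_comm,
    ← exp_mul, ← exp_mul, ← exp_add]
  refine mul_le_mul (exp_le_exp.2 ?_) (h z0 z1)
    (mul_nonneg (rpow_nonneg (p0 _) _) (rpow_nonneg (p1 _) _)) (exp_pos _).le
  have := mul_le_mul_of_nonneg_left (hc z0 z1) hD
  linarith

theorem Cv.step {F F0 F1 : (Ω → ℝ) → ℝ} (h : Cv θ F F0 F1) (h0 : 0 ≤ θ) (h1 : θ ≤ 1) (g : Lg F)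
    (g0 : Lg F0) (g1 : Lg F1) {l : Lv Ω} (hm : 0 ≤ l.m) :
    Cv θ (step l F) (step l F0) (step l F1) := by
  intro z0 z1
  set z := (1 - θ) • z0 + θ • z1 with hz
  have a0 := step_ge g (g0.shift (z0 - z)) hm z
  have a1 := step_ge g (g1.shift (z1 - z)) hm z
  have s0 : ∀ (G : (Ω → ℝ) → ℝ) (y : Ω → ℝ),
      T157.Casc.step l (fun u => G (u + (y - z))) z = T157.Casc.step l G y := fun G y => by
    have : ∀ u : Ω → ℝ, z + u + (y - z) = y + u := fun u => by abel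
    simp only [T157.Casc.step, this]
  rw [s0] at a0 a1
  have e0 := (g0.shift (z0 - z)).eg.sub g.eg
  have e1 := (g1.shift (z1 - z)).eg.sub g.eg
  have hp : 0 ≤ tE l F (fun u => (1 - θ) * (F0 (u + (z0 - z)) - F u) +
      θ * (F1 (u + (z1 - z)) - F u)) z := tE_nonneg l F (fun u => by
    have := h (u + (z0 - z)) (u + (z1 - z))
    have e : (1 - θ) • (u + (z0 - z)) + θ • (u + (z1 - z)) = u := by
      rw [hz]; module
    rw [e] at this
    linarith) z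
  rw [tE_add g (e0.const_mul _) (e1.const_mul _), tE_const_mul, tE_const_mul] at hp
  have b0 := mul_le_mul_of_nonneg_left a0 (sub_nonneg.2 h1)
  have b1 := mul_le_mul_of_nonneg_left a1 h0
  linarith

theorem cv_append (hw : Wt w) (h0 : 0 ≤ θ) (h1 : θ ≤ 1) {A B0 B1 : List (Lv Ω)}
    (h : Cv θ (X w A) (X w B0) (X w B1)) : ∀ M : List (Lv Ω), (∀ l ∈ M, 0 ≤ l.m) →
    Cv θ (X w (M ++ A)) (X w (M ++ B0)) (X w (M ++ B1))
  | [], _ => h
  | l :: M, hM => (cv_append hw h0 h1 h M fun l' h' => hM l' (by simp [h'])).step h0 h1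
      (lg_X hw _) (lg_X hw _) (lg_X hw _) (hM l (by simp))

theorem cv_X (hw : Wt w) (h0 : 0 ≤ θ) (h1 : θ ≤ 1) (L : List (Lv Ω)) (hL : ∀ l ∈ L, 0 ≤ l.m) :
    Cv θ (X w L) (X w L) (X w L) := by
  intro z0 z1
  set z := (1 - θ) • z0 + θ • z1 with hz
  have a0 := X_add_ge hw L hL z (z0 - z)
  have a1 := X_add_ge hw L hL z (z1 - z)
  rw [add_sub_cancel] at a0 a1
  have e : (1 - θ) * ∑ x, P w L z x * (z0 - z) x + θ * ∑ x, P w L z x * (z1 - z) x = 0 := by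
    rw [Finset.mul_sum, Finset.mul_sum, ← Finset.sum_add_distrib]
    refine Finset.sum_eq_zero fun x _ => ?_
    simp only [hz, Pi.sub_apply, Pi.add_apply, Pi.smul_apply, smul_eq_mul]
    ring
  have b0 := mul_le_mul_of_nonneg_left a0 (sub_nonneg.2 h1)
  have b1 := mul_le_mul_of_nonneg_left a1 h0
  linarith

theorem exp_step' {F : (Ω → ℝ) → ℝ} (hF : Lg F) (l : Lv Ω) (z : Ω → ℝ) :
    exp (l.m * step l F z) = ∫ g, exp (l.m * F (z + l.fld g)) ∂gv l.ι := by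
  by_cases hm : l.m = 0
  · simp [hm]
  · rw [step, if_neg hm, ← mul_assoc, mul_inv_cancel₀ hm, one_mul, exp_log (hF.Z_pos l z)]

/-- the planted density of the leaf `x` -/
def Q (w : Ω → ℝ) (L : List (Lv Ω)) (x : Ω) (z : Ω → ℝ) : ℝ := exp (ex L 0 * X w L z) * P w L z x

theorem eg_Q (hw : Wt w) (L : List (Lv Ω)) (x : Ω) : Eg (Q w L x) :=
  ((lg_X hw L).exp _).mul (eg_P hw L x)

theorem Q_nonneg (hw : Wt w) (L : List (Lv Ω)) (x : Ω) (z : Ω → ℝ) : 0 ≤ Q w L x z :=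
  mul_nonneg (exp_pos _).le (P_nonneg hw L z x)

theorem sum_Q (hw : Wt w) (L : List (Lv Ω)) (z : Ω → ℝ) :
    ∑ x, Q w L x z = exp (ex L 0 * X w L z) := by
  simp only [Q, ← Finset.mul_sum, sum_P hw, mul_one]

theorem Q_nil (hw : Wt w) (x : Ω) (z : Ω → ℝ) : Q w [] x z = w x * exp (z x) := by
  classical
  have hp := (wt_exp hw z).pos
  have e : ex ([] : List (Lv Ω)) 0 = 1 := rfl
  simp only [Q, X, P, prob, e, one_mul, exp_log hp]
  field_simp

theorem Q_cons (hw : Wt w) (l : Lv Ω) (L : List (Lv Ω)) (x : Ω) (z : Ω → ℝ) :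
    Q w (l :: L) x z = ∫ g, exp (-(ex L 0 - l.m) * X w L (z + l.fld g)) *
      Q w L x (z + l.fld g) ∂gv l.ι := by
  have e : ex (l :: L) 0 = l.m := rfl
  simp only [Q, X, P, e]
  rw [exp_step' (lg_X hw L), tE, mul_div_cancel₀ _ ((lg_X hw L).Z_pos l z).ne']
  refine integral_congr_ae (ae_of_all _ fun g => ?_)
  dsimp only
  rw [← mul_assoc, ← exp_add]
  congr 2
  ring

theorem mono_ex : ∀ {L : List (Lv Ω)} {m0 : ℝ}, Mono m0 L → m0 ≤ ex L 0
  | [], _, h => h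
  | _ :: _, _, h => h.1

theorem mono_le : ∀ {L : List (Lv Ω)} {m0 m1 : ℝ}, Mono m0 L → m1 ≤ m0 → Mono m1 L
  | [], _, _, h, e => e.trans h
  | _ :: _, _, _, h, e => ⟨e.trans h.1, h.2⟩

theorem ex_le_one : ∀ {L : List (Lv Ω)} {m0 : ℝ}, Mono m0 L → ex L 0 ≤ 1
  | [], _, _ => le_rfl
  | _ :: _, _, h => (mono_ex h.2).trans (ex_le_one h.2)

theorem mono_app : ∀ {M A : List (Lv Ω)} {m0 : ℝ}, Mono m0 (M ++ A) → Mono m0 A
  | [], _, _, h => h
  | _ :: _, _, _, h => mono_le (mono_app h.2) h.1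

theorem ex_app : ∀ {M A : List (Lv Ω)} {m0 : ℝ}, Mono m0 (M ++ A) → ex (M ++ A) 0 ≤ ex A 0
  | [], _, _, _ => le_rfl
  | _ :: _, _, _, h => (mono_ex h.2).trans (ex_app h.2)

theorem tri_Q (hw : Wt w) (h0 : 0 < θ) (h1 : θ < 1) (x : Ω) :
    ∀ {L : List (Lv Ω)} {m0 : ℝ}, Mono m0 L → 0 ≤ m0 → Tri θ (Q w L x) (Q w L x) (Q w L x)
  | [], _, _, _ => fun z0 z1 => by
    rw [Q_nil hw, Q_nil hw, Q_nil hw, mul_rpow (hw.nn x) (exp_pos _).le,
      mul_rpow (hw.nn x) (exp_pos _).le, mul_mul_mul_comm, ← exp_mul, ← exp_mul, ← exp_add,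
      ← rpow_add' (hw.nn x) (by linarith), sub_add_cancel, rpow_one]
    refine le_of_eq ?_
    congr 2
    simp only [Pi.add_apply, Pi.smul_apply, smul_eq_mul]
    ring
  | l :: L, _, h, hm => by
    have hl : 0 ≤ l.m := hm.trans h.1
    have e := ((lg_X hw L).exp (-(ex L 0 - l.m))).mul (eg_Q hw L x)
    have p : ∀ z, 0 ≤ exp (-(ex L 0 - l.m) * X w L z) * Q w L x z :=
      fun z => mul_nonneg (exp_pos _).le (Q_nonneg hw L x z)
    have := ((tri_Q hw h0 h1 x h.2 hl).pen (cv_X hw h0.le h1.le L (h.2.nn hl))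
      (sub_nonneg.2 (mono_ex h.2)) (Q_nonneg hw L x) (Q_nonneg hw L x)).int h0 h1 e e e p p p l
    intro z0 z1
    rw [Q_cons hw, Q_cons hw, Q_cons hw]
    exact this z0 z1

/-- the planted density with the values of the nodes of `M` read in the model `M ++ B` -/
def R (w : Ω → ℝ) (A B : List (Lv Ω)) (x : Ω) : List (Lv Ω) → (Ω → ℝ) → ℝ
  | [], z => Q w A x z
  | l :: M, z => ∫ g, exp (-(ex (M ++ A) 0 - l.m) * X w (M ++ B) (z + l.fld g)) *
      R w A B x M (z + l.fld g) ∂gv l.ι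

theorem eg_int {f : (Ω → ℝ) → ℝ} (e : Eg f) (l : Lv Ω) :
    Eg fun z => ∫ g, f (z + l.fld g) ∂gv l.ι := by
  have hz : Lg fun _ : Ω → ℝ => (0 : ℝ) := Lg.of continuous_const 0 0 fun z => by simp
  have := e.tE hz l
  convert this using 1
  funext z
  simp [tE]

theorem eg_R (hw : Wt w) (A B : List (Lv Ω)) (x : Ω) : ∀ M, Eg (R w A B x M)
  | [] => eg_Q hw A x
  | l :: M => eg_int (((lg_X hw (M ++ B)).exp _).mul (eg_R hw A B x M)) l

theorem R_nonneg (hw : Wt w) (A B : List (Lv Ω)) (x : Ω) : ∀ M z, 0 ≤ R w A B x M z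
  | [], z => Q_nonneg hw A x z
  | _ :: M, _ => integral_nonneg fun _ => mul_nonneg (exp_pos _).le (R_nonneg hw A B x M _)

theorem R_self (hw : Wt w) (A : List (Lv Ω)) (x : Ω) : ∀ M, R w A A x M = Q w (M ++ A) x
  | [] => rfl
  | l :: M => by
    funext z
    rw [List.cons_append, Q_cons hw, R, R_self hw A x M]

theorem R_zero (A B : List (Lv Ω)) {x : Ω} (hx : w x = 0) : ∀ M z, R w A B x M z = 0
  | [], z => by simp [R, Q, P_eq_zero hx]
  | l :: M, z => by simp [R, R_zero A B hx M]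

theorem tri_R (hw : Wt w) (h0 : 0 < θ) (h1 : θ < 1) (x : Ω) {A B0 B1 : List (Lv Ω)}
    (h : Cv θ (X w A) (X w B0) (X w B1)) : ∀ {M : List (Lv Ω)} {m0 : ℝ}, Mono m0 (M ++ A) →
    0 ≤ m0 → Tri θ (R w A A x M) (R w A B0 x M) (R w A B1 x M)
  | [], _, hm, h' => tri_Q hw h0 h1 x hm h'
  | l :: M, _, hm, h' => by
    have hl : 0 ≤ l.m := h'.trans hm.1
    have e : ∀ B, Eg fun z => exp (-(ex (M ++ A) 0 - l.m) * X w (M ++ B) z) * R w A B x M z :=
      fun B => ((lg_X hw _).exp _).mul (eg_R hw A B x M)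
    have p : ∀ B z, 0 ≤ exp (-(ex (M ++ A) 0 - l.m) * X w (M ++ B) z) * R w A B x M z :=
      fun B z => mul_nonneg (exp_pos _).le (R_nonneg hw A B x M z)
    exact ((tri_R hw h0 h1 x h hm.2 hl).pen (cv_append hw h0.le h1.le h M fun l' h' =>
      hm.2.nn hl l' (by simp [h'])) (sub_nonneg.2 (mono_ex hm.2)) (R_nonneg hw A B0 x M)
      (R_nonneg hw A B1 x M)).int h0 h1 (e A) (e B0) (e B1) (p A) (p B0) (p B1) l

theorem jensen {F φ : (Ω → ℝ) → ℝ} (hF : Lg F) (hφ : Lg φ) (c : ℝ) (l : Lv Ω) (z : Ω → ℝ) :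
    exp (c * tE l F φ z) ≤ tE l F (fun u => exp (c * φ u)) z := by
  set m := tE l F φ z with hm
  have e1 : tE l F (fun y => exp (c * m) * (1 + c * (φ y - m))) z = exp (c * m) := by
    rw [tE_const_mul, tE_add hF (Eg.const _) ((hφ.eg.sub (Eg.const _)).const_mul _), tE_const hF,
      tE_const_mul, tE_sub hF hφ.eg (Eg.const _), tE_const hF, ← hm]
    simp
  rw [← e1]
  refine tE_mono hF (((Eg.const _).add ((hφ.eg.sub (Eg.const _)).const_mul _)).const_mul _)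
    (hφ.exp c) (fun u => ?_) l z
  have := add_one_le_exp (c * (φ u - m))
  rw [show c * φ u = c * m + c * (φ u - m) by ring, exp_add]
  exact mul_le_mul_of_nonneg_left (by linarith) (exp_pos _).le

theorem lg_sub {F G : (Ω → ℝ) → ℝ} (hF : Lg F) (hG : Lg G) : Lg fun z => F z - G z := by
  obtain ⟨C, c, -, -, h⟩ := hF.bd
  obtain ⟨C', c', -, -, h'⟩ := hG.bd
  refine Lg.of (hF.eg.cont.sub hG.eg.cont) (C + C') (c + c') fun z => ?_
  have a := h (0, z) trivial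
  have b := h' (0, z) trivial
  have := abs_sub (F z) (G z)
  dsimp only at a b
  linarith

theorem low1 (hw : Wt w) {A B M : List (Lv Ω)} (l : Lv Ω) (z : Ω → ℝ)
    (ih : ∀ u, exp (ex (M ++ A) 0 * X w (M ++ A) u -
      (ex A 0 - ex (M ++ A) 0) * (X w (M ++ B) u - X w (M ++ A) u)) ≤ ∑ x, R w A B x M u) :
    exp (l.m * X w (l :: M ++ A) z) * tE l (X w (M ++ A))
      (fun u => exp (-(ex A 0 - l.m) * (X w (M ++ B) u - X w (M ++ A) u))) z ≤
      ∑ x, R w A B x (l :: M) z := by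
  have hA := lg_X hw (M ++ A)
  have hB := lg_X hw (M ++ B)
  have e : ∀ x, Eg fun z => exp (-(ex (M ++ A) 0 - l.m) * X w (M ++ B) z) * R w A B x M z :=
    fun x => (hB.exp _).mul (eg_R hw A B x M)
  simp only [List.cons_append, X, R]
  rw [exp_step' hA, tE, mul_div_cancel₀ _ (hA.Z_pos l z).ne',
    ← integral_finsetSum _ fun x _ => (e x).int l z]
  refine integral_mono (hA.int ((lg_sub hB hA).exp _) l z)
    (integrable_finsetSum _ fun x _ => (e x).int l z) fun g => ?_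
  dsimp only
  rw [← Finset.mul_sum, ← exp_add]
  refine le_trans (le_of_eq ?_) (mul_le_mul_of_nonneg_left (ih _) (exp_pos _).le)
  rw [← exp_add]
  congr 1
  ring

theorem low (hw : Wt w) {A B : List (Lv Ω)} : ∀ {M : List (Lv Ω)} {m0 : ℝ}, Mono m0 (M ++ A) →
    0 ≤ m0 → ∀ u, exp (ex (M ++ A) 0 * X w (M ++ A) u -
      (ex A 0 - ex (M ++ A) 0) * (X w (M ++ B) u - X w (M ++ A) u)) ≤ ∑ x, R w A B x M u
  | [], _, _, _, u => by simp [R, sum_Q hw]
  | l :: M, _, hm, h', u => by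
    have hl : 0 ≤ l.m := h'.trans hm.1
    have hA := lg_X hw (M ++ A)
    have hB := lg_X hw (M ++ B)
    refine le_trans ?_ (low1 hw l u (low hw hm.2 hl))
    have e : ex (l :: M ++ A) 0 = l.m := rfl
    have hc : 0 ≤ ex A 0 - l.m := sub_nonneg.2 ((mono_ex hm.2).trans (ex_app hm.2))
    rw [e, sub_eq_add_neg, exp_add]
    refine mul_le_mul_of_nonneg_left (le_trans (exp_le_exp.2 ?_) (jensen hA (lg_sub hB hA) _ l u))
      (exp_pos _).le
    have := mul_le_mul_of_nonneg_left (step_ge hA hB hl u) hc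
    simp only [List.cons_append, X]
    linarith

/-! ### symmetry -/

section sym
variable {τ : Equiv.Perm Ω}

theorem int_co {l : Lv Ω} (hl : ∀ x y, l.cov (τ x) (τ y) = l.cov x y) {G : (Ω → ℝ) → ℝ}
    (hG : Continuous G) (z : Ω → ℝ) :
    ∫ g, G ((fun y => z (τ y)) + l.fld g) ∂gv l.ι =
      ∫ g, G (fun y => (z + l.fld g) (τ y)) ∂gv l.ι :=
  C.int_fld_eq (l := l) (l' := C.coLv τ l) (by funext x y; exact (hl x y).symm)
    (G := fun f => G ((fun y => z (τ y)) + f)) (by fun_prop)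

theorem X_sym (hw : Wt w) (hτ : ∀ x, w (τ x) = w x) : ∀ L : List (Lv Ω),
    (∀ l ∈ L, ∀ x y, l.cov (τ x) (τ y) = l.cov x y) → ∀ z, X w L (fun y => z (τ y)) = X w L z
  | [], _, z => by
    simp only [X]
    rw [← Equiv.sum_comp τ fun x => w x * exp (z x)]
    simp only [hτ]
  | l :: L, h, z => by
    have ih := X_sym hw hτ L fun l' h' => h l' (by simp [h'])
    have hX := lg_X hw L
    simp only [X, step]
    rw [int_co (h l (by simp)) hX.eg.cont, int_co (h l (by simp)) (hX.exp l.m).cont]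
    simp only [ih]

theorem Q_sym (hw : Wt w) (hτ : ∀ x, w (τ x) = w x) (x : Ω) : ∀ L : List (Lv Ω),
    (∀ l ∈ L, ∀ x y, l.cov (τ x) (τ y) = l.cov x y) →
    ∀ z, Q w L x (fun y => z (τ y)) = Q w L (τ x) z
  | [], _, z => by rw [Q_nil hw, Q_nil hw, hτ]
  | l :: L, h, z => by
    have h' : ∀ l' ∈ L, ∀ x y, l'.cov (τ x) (τ y) = l'.cov x y := fun l' h' => h l' (by simp [h'])
    rw [Q_cons hw, Q_cons hw, int_co (h l (by simp)) (((lg_X hw L).exp _).mul (eg_Q hw L x)).cont]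
    simp only [X_sym hw hτ L h', Q_sym hw hτ x L h']

theorem R_sym (hw : Wt w) (hτ : ∀ x, w (τ x) = w x) (x : Ω) {A B : List (Lv Ω)}
    (hA : ∀ l ∈ A, ∀ x y, l.cov (τ x) (τ y) = l.cov x y)
    (hB : ∀ l ∈ B, ∀ x y, l.cov (τ x) (τ y) = l.cov x y) : ∀ M : List (Lv Ω),
    (∀ l ∈ M, ∀ x y, l.cov (τ x) (τ y) = l.cov x y) →
    ∀ z, R w A B x M (fun y => z (τ y)) = R w A B (τ x) M z
  | [], _, z => Q_sym hw hτ x A hA z
  | l :: M, h, z => by
    have h' : ∀ l' ∈ M, ∀ x y, l'.cov (τ x) (τ y) = l'.cov x y := fun l' h' => h l' (by simp [h'])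
    have h'' : ∀ l' ∈ M ++ B, ∀ x y, l'.cov (τ x) (τ y) = l'.cov x y := fun l' hl =>
      (List.mem_append.1 hl).elim (h' l') (hB l')
    rw [R, R, int_co (h l (by simp)) (((lg_X hw (M ++ B)).exp _).mul (eg_R hw A B x M)).cont]
    simp only [X_sym hw hτ _ h'', R_sym hw hτ x hA hB M h']

end sym

open Classical in
theorem sum_R (hw : Wt w) {A B M : List (Lv Ω)} {h : Ω → ℝ} {T : Set (Equiv.Perm Ω)} {x₀ : Ω}
    (sA : ∀ τ ∈ T, Sym w (M ++ A) h τ) (sB : ∀ τ ∈ T, Sym w (M ++ B) h τ)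
    (tr : ∀ x, w x ≠ 0 → ∃ τ ∈ T, τ x₀ = x) :
    ∑ x, R w A B x M h = ((Finset.univ.filter fun x => w x ≠ 0).card : ℝ) * R w A B x₀ M h := by
  rw [← nsmul_eq_mul, ← Finset.sum_const, Finset.sum_filter]
  refine Finset.sum_congr rfl fun x _ => ?_
  split_ifs with hx
  · obtain ⟨τ, hτ, rfl⟩ := tr x hx
    rw [← R_sym hw (sA τ hτ).w x₀ (fun l hl => (sA τ hτ).cov l (by simp [hl]))
      (fun l hl => (sB τ hτ).cov l (by simp [hl])) M fun l hl => (sA τ hτ).cov l (by simp [hl])]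
    simp only [(sA τ hτ).h]
  · exact R_zero A B (not_not.1 hx) M h

/-- **planted Prékopa** for the whole prefix `M` (`∑ x, R w A B x M h = exp (m X) E exp (-∑ D Δ)`) -/
theorem prek_R (hw : Wt w) (h0 : 0 < θ) (h1 : θ < 1) {A B0 B1 M : List (Lv Ω)} {h : Ω → ℝ}
    {T : Set (Equiv.Perm Ω)} {x₀ : Ω} (hc : Cv θ (X w A) (X w B0) (X w B1))
    (hm : Mono 0 (M ++ A)) (sA : ∀ τ ∈ T, Sym w (M ++ A) h τ) (s0 : ∀ τ ∈ T, Sym w (M ++ B0) h τ)
    (s1 : ∀ τ ∈ T, Sym w (M ++ B1) h τ) (tr : ∀ x, w x ≠ 0 → ∃ τ ∈ T, τ x₀ = x) :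
    (∑ x, R w A B0 x M h) ^ (1 - θ) * (∑ x, R w A B1 x M h) ^ θ ≤
      exp (ex (M ++ A) 0 * X w (M ++ A) h) := by
  have key := tri_R hw h0 h1 x₀ hc hm le_rfl h h
  have e : (1 - θ) • h + θ • h = h := by module
  rw [e] at key
  rw [← sum_Q hw]
  simp only [← R_self hw]
  rw [sum_R hw sA s0 tr, sum_R hw sA s1 tr, sum_R hw sA sA tr,
    mul_rpow (Nat.cast_nonneg _) (R_nonneg hw _ _ _ _ _),
    mul_rpow (Nat.cast_nonneg _) (R_nonneg hw _ _ _ _ _), mul_mul_mul_comm,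
    ← rpow_add' (Nat.cast_nonneg _) (by linarith), sub_add_cancel, rpow_one]
  exact mul_le_mul_of_nonneg_left key (Nat.cast_nonneg _)

/-- **finite form at the root** (94 (ii)), `D = ex A 0 - l.m` -/
theorem ff_root (hw : Wt w) (h0 : 0 < θ) (h1 : θ < 1) {A B0 B1 M : List (Lv Ω)} {l : Lv Ω}
    {h : Ω → ℝ} {T : Set (Equiv.Perm Ω)} {x₀ : Ω} (hc : Cv θ (X w A) (X w B0) (X w B1))
    (hm : Mono 0 (l :: M ++ A)) (sA : ∀ τ ∈ T, Sym w (l :: M ++ A) h τ)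
    (s0 : ∀ τ ∈ T, Sym w (l :: M ++ B0) h τ) (s1 : ∀ τ ∈ T, Sym w (l :: M ++ B1) h τ)
    (tr : ∀ x, w x ≠ 0 → ∃ τ ∈ T, τ x₀ = x) :
    tE l (X w (M ++ A))
        (fun u => exp (-(ex A 0 - l.m) * (X w (M ++ B0) u - X w (M ++ A) u))) h ^ (1 - θ) *
      tE l (X w (M ++ A))
        (fun u => exp (-(ex A 0 - l.m) * (X w (M ++ B1) u - X w (M ++ A) u))) h ^ θ ≤ 1 := by
  have key := prek_R hw h0 h1 (M := l :: M) hc hm sA s0 s1 tr
  have a0 := low1 hw (B := B0) l h (low hw hm.2 hm.1)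
  have a1 := low1 hw (B := B1) l h (low hw hm.2 hm.1)
  have p : ∀ B, 0 ≤ tE l (X w (M ++ A))
      (fun u => exp (-(ex A 0 - l.m) * (X w (M ++ B) u - X w (M ++ A) u))) h :=
    fun B => tE_nonneg _ _ (fun _ => (exp_pos _).le) _
  have e : ex (l :: M ++ A) 0 = l.m := rfl
  rw [e] at key
  have hZ := exp_pos (l.m * X w (l :: M ++ A) h)
  have b := (mul_le_mul (rpow_le_rpow (mul_nonneg hZ.le (p B0)) a0 (sub_nonneg.2 h1.le))
    (rpow_le_rpow (mul_nonneg hZ.le (p B1)) a1 h0.le) (rpow_nonneg (mul_nonneg hZ.le (p B1)) _)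
    (rpow_nonneg ((mul_nonneg hZ.le (p B0)).trans a0) _)).trans key
  rw [mul_rpow hZ.le (p B0), mul_rpow hZ.le (p B1), mul_mul_mul_comm, ← rpow_add hZ,
    sub_add_cancel, rpow_one] at b
  exact (mul_le_iff_le_one_right hZ).1 b

end Trf

end Crest.Agent.T156.Cas

end
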