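import Mathlib

/-!
# Row 156 (helper64): layer cake by support

Off a set of weight `Y / 8 ^ i` the size is at most `4 ^ i α`; the size is capped.
-/

set_option autoImplicit false

noncomputable section

namespace Crest.Agent.T156.Alt.Ck64

open Real Finset

theorem two_sum (j : ℕ) : ∑ i ∈ range j, (2 : ℝ) ^ i ≤ 2 ^ j := by
  induction j with
  | zero => norm_num
  | succ j ih => rw [sum_range_succ, pow_succ]; linarith

open Classical in
/-- **layer cake by support**, cap `D` -/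
theorem cakeS {ι : Type} (s : Finset ι) {w u : ι → ℝ} {good : ℕ → ι → Prop} {α D W Y : ℝ}
    (hw : ∀ k ∈ s, 0 ≤ w k) (h0 : ∀ k ∈ s, 0 ≤ u k) (hα : 0 < α) (D0 : 0 ≤ D) (Y0 : 0 ≤ Y)
    (hW : ∑ k ∈ s, w k ≤ W) (hu : ∀ k ∈ s, ∀ i : ℕ, good i k → u k ≤ 4 ^ i * α)
    (hD : ∀ k ∈ s, u k ≤ D)
    (hB : ∀ i : ℕ, ∑ k ∈ s.filter fun k => ¬good i k, w k ≤ Y / 8 ^ i) (q : ℕ) :
    ∑ k ∈ s, w k * u k ^ (q + 2) ≤ W * α ^ (q + 2) + 32 * (Y * (α * √(α * D) * D ^ q)) := by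
  have ex : ∃ I : ℕ, D ≤ 4 ^ I * α := by
    obtain ⟨I, hI⟩ := pow_unbounded_of_one_lt (D / α) (by norm_num : (1 : ℝ) < 4)
    rw [div_lt_iff₀ hα] at hI
    exact ⟨I, hI.le⟩
  have a1 := Nat.find_spec ex
  have a2 := fun i (hi : i < Nat.find ex) => not_le.1 (Nat.find_min ex hi)
  generalize Nat.find ex = I at a1 a2
  have pt : ∀ k ∈ s, u k ^ (q + 2) ≤ α ^ (q + 2) +
      ∑ i ∈ range I, if ¬good i k then (4 ^ (i + 1) * α) ^ 2 * D ^ q else 0 := fun k hk => by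
    have nn : ∀ i ∈ range I,
        (0 : ℝ) ≤ if ¬good i k then (4 ^ (i + 1) * α) ^ 2 * D ^ q else 0 := fun i _ => by
      split_ifs <;> positivity
    have e2 : ∃ j : ℕ, u k ≤ 4 ^ j * α := ⟨I, (hD k hk).trans a1⟩
    have b1 := Nat.find_spec e2
    have b2 := fun i (hi : i < Nat.find e2) => not_le.1 (Nat.find_min e2 hi)
    have b3 : Nat.find e2 ≤ I := Nat.find_min' e2 ((hD k hk).trans a1)
    generalize Nat.find e2 = j at b1 b2 b3
    rcases j with _ | j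
    · rw [pow_zero, one_mul] at b1
      exact (pow_le_pow_left₀ (h0 k hk) b1 _).trans (le_add_of_nonneg_right (sum_nonneg nn))
    · have ng : ¬good j k := fun g => absurd (hu k hk j g) (not_le.2 (b2 j (Nat.lt_succ_self j)))
      have c := single_le_sum nn (mem_range.2 (show j < I by omega))
      rw [if_pos ng] at c
      have d : u k ^ (q + 2) ≤ (4 ^ (j + 1) * α) ^ 2 * D ^ q := by
        rw [pow_add, mul_comm]
        exact mul_le_mul (pow_le_pow_left₀ (h0 k hk) b1 2)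
          (pow_le_pow_left₀ (h0 k hk) (hD k hk) q) (pow_nonneg (h0 k hk) q) (by positivity)
      have : 0 ≤ α ^ (q + 2) := by positivity
      linarith
  have s1 : ∑ k ∈ s, w k * u k ^ (q + 2) ≤ ∑ k ∈ s, (w k * α ^ (q + 2) +
      ∑ i ∈ range I, if ¬good i k then w k * ((4 ^ (i + 1) * α) ^ 2 * D ^ q) else 0) :=
    sum_le_sum fun k hk => (mul_le_mul_of_nonneg_left (pt k hk) (hw k hk)).trans (le_of_eq (by
      rw [mul_add, mul_sum]
      congr 1
      exact sum_congr rfl fun i _ => by split_ifs <;> simp))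
  rw [sum_add_distrib, ← sum_mul, sum_comm] at s1
  have s2 : ∑ i ∈ range I, ∑ k ∈ s, (if ¬good i k then
      w k * ((4 ^ (i + 1) * α) ^ 2 * D ^ q) else 0) ≤
      ∑ i ∈ range I, 16 * (Y * (α ^ 2 * D ^ q)) * 2 ^ i := sum_le_sum fun i _ => by
    rw [← sum_filter, ← sum_mul]
    refine (mul_le_mul_of_nonneg_right (hB i) (by positivity)).trans (le_of_eq ?_)
    have e8 : (8 : ℝ) ^ i = 2 ^ i * 2 ^ i * 2 ^ i := by rw [← mul_pow, ← mul_pow]; norm_num
    have e4 : (4 : ℝ) ^ i = 2 ^ i * 2 ^ i := by rw [← mul_pow]; norm_num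
    rw [pow_succ (4 : ℝ) i, e8, e4]; field_simp; ring
  rw [← mul_sum] at s2
  have s3 : α * ∑ i ∈ range I, (2 : ℝ) ^ i ≤ 2 * √(α * D) := by
    rcases I with _ | j
    · simp
    · have c1 := a2 j (Nat.lt_succ_self j)
      have e4 : (4 : ℝ) ^ j = 2 ^ j * 2 ^ j := by rw [← mul_pow]; norm_num
      have c3 : α * 2 ^ j ≤ √(α * D) := le_sqrt_of_sq_le (by rw [e4] at c1; nlinarith)
      have := mul_le_mul_of_nonneg_left (two_sum (j + 1)) hα.le
      rw [pow_succ] at this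
      linarith
  have s4 := mul_le_mul_of_nonneg_left s3 (show 0 ≤ 16 * (Y * (α * D ^ q)) by positivity)
  have s5 := mul_le_mul_of_nonneg_right hW (show 0 ≤ α ^ (q + 2) by positivity)
  nlinarith

open Classical in
/-- **layer cake by support**, cap `α + R` -/
theorem cakeR {ι : Type} (s : Finset ι) {w u : ι → ℝ} {good : ℕ → ι → Prop} {α R W Y : ℝ}
    (hw : ∀ k ∈ s, 0 ≤ w k) (h0 : ∀ k ∈ s, 0 ≤ u k) (hα : 0 < α) (R0 : 0 ≤ R) (Y0 : 0 ≤ Y)
    (hW : ∑ k ∈ s, w k ≤ W) (hu : ∀ k ∈ s, ∀ i : ℕ, good i k → u k ≤ 4 ^ i * α)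
    (hD : ∀ k ∈ s, u k ≤ α + R)
    (hB : ∀ i : ℕ, ∑ k ∈ s.filter fun k => ¬good i k, w k ≤ Y / 8 ^ i) (q : ℕ) :
    ∑ k ∈ s, w k * u k ^ (q + 2) ≤
      2 ^ (q + 2) * (W * α ^ (q + 2) + 16 * (Y * (α * √α * (√R * R ^ q)))) := by
  have W0 : 0 ≤ W := (sum_nonneg hw).trans hW
  rcases le_total R α with h | h
  · have : ∑ k ∈ s, w k * u k ^ (q + 2) ≤ ∑ k ∈ s, w k * (2 * α) ^ (q + 2) :=
      sum_le_sum fun k hk => mul_le_mul_of_nonneg_left
        (pow_le_pow_left₀ (h0 k hk) ((hD k hk).trans (by linarith)) _) (hw k hk)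
    rw [← sum_mul, mul_pow] at this
    have b := mul_le_mul_of_nonneg_right hW (show 0 ≤ 2 ^ (q + 2) * α ^ (q + 2) by positivity)
    have c : 0 ≤ 2 ^ (q + 2) * (16 * (Y * (α * √α * (√R * R ^ q)))) := by positivity
    nlinarith
  · have K := cakeS s hw h0 hα (show 0 ≤ 2 * R by positivity) Y0 hW hu
      (fun k hk => (hD k hk).trans (by linarith)) hB q
    have a : √(α * (2 * R)) ≤ 2 * (√α * √R) := by
      rw [← sqrt_mul hα.le]
      exact sqrt_le_iff.2 ⟨by positivity, by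
        rw [mul_pow, sq_sqrt (by positivity)]; nlinarith [mul_nonneg hα.le R0]⟩
    have b := mul_le_mul_of_nonneg_left a (show 0 ≤ 32 * (Y * (α * (2 * R) ^ q)) by positivity)
    have c : (1 : ℝ) ≤ 2 ^ (q + 2) := one_le_pow₀ one_le_two
    have d := mul_le_mul_of_nonneg_right c (show 0 ≤ W * α ^ (q + 2) by positivity)
    have e : 32 * (Y * (α * (2 * R) ^ q)) * (2 * (√α * √R)) =
        2 ^ (q + 2) * (16 * (Y * (α * √α * (√R * R ^ q)))) := by rw [mul_pow]; ring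
    nlinarith

end Crest.Agent.T156.Alt.Ck64

end
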