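import Crest.Agent.T156.CavR_22

/-!
# Row 156 (helper22): product form for kernels that are sums of tensors
-/

set_option autoImplicit false
set_option linter.unusedSectionVars false

noncomputable section

namespace Crest.Agent.T156.Cas

open MeasureTheory Real Set Filter Topology
open Crest.Agent.T157.E Crest.Agent.T157.Casc Crest.Agent.T157.SL

variable {Ω S Θ Θ' A : Type} [Fintype A]

/-- additive functionals -/
def FnLin (E : Fn Ω) : Prop :=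
  (∀ s F F', E s (fun x => F x + F' x) = E s F + E s F') ∧
    ∀ s c F, E s (fun x => c * F x) = c * E s F

theorem FnLin.sum {E : Fn Ω} (H : FnLin E) (s : Sh) {α : Type*} (T : Finset α)
    (F : α → (s.Lf → Ω) → ℝ) : E s (fun x => ∑ i ∈ T, F i x) = ∑ i ∈ T, E s (F i) := by
  classical
  induction T using Finset.induction_on with
  | empty => simpa using H.2 s 0 fun _ => 0
  | insert a T ha ih => simp only [Finset.sum_insert ha, H.1, ih]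

theorem FnLin.sub {E : Fn Ω} (H : FnLin E) (s : Sh) (F F' : (s.Lf → Ω) → ℝ) :
    E s (fun x => F x - F' x) = E s F - E s F' := by
  have := H.1 s F fun x => -1 * F' x
  rw [H.2] at this
  simpa only [neg_one_mul, ← sub_eq_add_neg] using this

theorem FnLin.itE {E : Fn Ω} (H : FnLin E) (ε : ℝ) (M : List (Lv Θ)) (K : ℕ → Ω → Ω → ℝ) :
    ∀ n, FnLin (itE ε M K E n)
  | 0 => H
  | n + 1 => ⟨fun s F F' => by
      have e : ∀ τ : GT s, τ.ev K (fun x => F x + F' x) = fun x => τ.ev K F x + τ.ev K F' x :=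
        fun τ => funext fun x => add_mul _ _ _
      simp only [Cas.itE, e, (H.itE ε M K n).1, sg_add], fun s c F => by
      have e : ∀ τ : GT s, τ.ev K (fun x => c * F x) = fun x => c * τ.ev K F x :=
        fun τ => funext fun x => mul_assoc _ _ _
      simp only [Cas.itE, e, (H.itE ε M K n).2, sg_const_mul]⟩

/-- a sum of tensor kernels -/
def tK (U : A → ℕ → Ω → Ω → ℝ) (Z : A → ℕ → S → S → ℝ) : ℕ → Ω × S → Ω × S → ℝ :=
  fun j x y => ∑ α, U α j x.1 y.1 * Z α j x.2 y.2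

/-- the `n`-fold graft sum, one tensor for each edge -/
def itM (ε : ℝ) (M : List (Lv Θ)) (U : A → ℕ → Ω → Ω → ℝ) (Z : A → ℕ → S → S → ℝ)
    (B : (s : Sh) → ((s.Lf → Ω) → ℝ) → ((s.Lf → S) → ℝ) → ℝ) :
    ℕ → (s : Sh) → ((s.Lf → Ω) → ℝ) → ((s.Lf → S) → ℝ) → ℝ
  | 0, s, G, ξ => B s G ξ
  | n + 1, s, G, ξ => ∑ α, sg ε M s fun τ => itM ε M U Z B n τ.sh (τ.ev (U α) G) (τ.ev (Z α) ξ)

theorem GT.ev_tK {s : Sh} (τ : GT s) (U : A → ℕ → Ω → Ω → ℝ) (Z : A → ℕ → S → S → ℝ)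
    (G : (s.Lf → Ω) → ℝ) (ξ : (s.Lf → S) → ℝ) :
    τ.ev (tK U Z) (tens G ξ) = fun x => ∑ α, tens (τ.ev (U α) G) (τ.ev (Z α) ξ) x := by
  funext x
  simp only [GT.ev, tens, tK, Finset.mul_sum]
  exact Finset.sum_congr rfl fun α _ => by ring

theorem itE_tK (ε : ℝ) (M : List (Lv Θ)) (U : A → ℕ → Ω → Ω → ℝ) (Z : A → ℕ → S → S → ℝ)
    {E : Fn (Ω × S)} (H : FnLin E) : ∀ (n : ℕ) (s : Sh) (G : (s.Lf → Ω) → ℝ)
    (ξ : (s.Lf → S) → ℝ), itE ε M (tK U Z) E n s (tens G ξ) =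
      itM ε M U Z (fun s G ξ => E s (tens G ξ)) n s G ξ
  | 0, _, _, _ => rfl
  | n + 1, s, G, ξ => by
      simp only [itE, itM, GT.ev_tK, (H.itE ε M _ n).sum, itE_tK ε M U Z H n, sg_sum]

theorem itM_tilt (ε : ℝ) {M : List (Lv Θ)} {M' : List (Lv Θ')} (H : M.map Lv.m = M'.map Lv.m)
    (U : A → ℕ → Ω → Ω → ℝ) (Z : A → ℕ → S → S → ℝ)
    (B : (s : Sh) → ((s.Lf → Ω) → ℝ) → ((s.Lf → S) → ℝ) → ℝ) :
    ∀ n, itM ε M U Z B n = itM ε M' U Z B n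
  | 0 => rfl
  | n + 1 => by funext s G ξ; simp only [itM, itM_tilt ε H U Z B n, sg_tilt ε H]

/-- only the levels `j ≤ M.length` of the kernel are read -/
theorem itE_congr (ε : ℝ) (M : List (Lv Θ)) {K K' : ℕ → Ω → Ω → ℝ}
    (H : ∀ j ≤ M.length, K j = K' j) (E : Fn Ω) : ∀ n, itE ε M K E n = itE ε M K' E n
  | 0 => rfl
  | n + 1 => by
      funext s F
      simp only [itE, itE_congr ε M H E n]
      refine sg_congr ε M s fun τ hτ => ?_
      congr 1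
      funext x
      rw [GT.ev, GT.ev, H _ hτ.le]

variable [Fintype Ω] [Fintype S] {w w₁ : Ω → ℝ} {w₂ : S → ℝ}

theorem fnLin_TEf (hw : Wt w) (M : List (Lv Ω)) (h : Ω → ℝ) : FnLin (TEf w M h) :=
  ⟨fun s F F' => Law.TE_add hw s M h F F', fun s c F => Law.TE_const_mul hw s M h c F⟩

theorem fnLin_iDn (hw : Wt w) (L : List (IL Ω)) (h : Ω → ℝ) (n : ℕ) (t : ℝ) :
    FnLin fun s F => iDn w L h n s F t := (fnLin_TEf hw (ipl L t) h).itE _ _ _ n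

/-- **product form at a factorised time** for a path whose velocity is a sum of tensors -/
theorem iDn_prd (h₁ : Wt w₁) (h₂ : Wt w₂) {L : List (IL (Ω × S))} {t : ℝ}
    {T : List (Lv Ω × Lv S)} (hT : List.Forall₂ Prd (ipl L t) T) {U : A → ℕ → Ω → Ω → ℝ}
    {Z : A → ℕ → S → S → ℝ} (hK : ∀ j ≤ L.length, ∀ x y, 1 / 2 * iD L j x y = tK U Z j x y)
    (z₁ : Ω → ℝ) (z₂ : S → ℝ) (n : ℕ) (s : Sh) (G : (s.Lf → Ω) → ℝ) (ξ : (s.Lf → S) → ℝ) :
    iDn (pw2 w₁ w₂) L (ad z₁ z₂) n s (tens G ξ) t = itM (-1) (L.map IL.b) U Z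
      (fun s G ξ => TE w₁ s (T.map Prod.fst) z₁ G * TE w₂ s (T.map Prod.snd) z₂ ξ) n s G ξ := by
  rw [iDn, itE_congr (-1) _ (K' := tK U Z) fun j hj => funext fun x => funext fun y =>
    hK j (by simpa using hj) x y]
  refine (itE_tK _ _ U Z (fnLin_TEf (Law.wt_pw2 h₁ h₂) (ipl L t) _) n s G ξ).trans ?_
  congr 1
  funext s G ξ
  exact Law.TE_prd h₁ h₂ s hT G ξ z₁ z₂

/-- a functional of bulk functions read on the product -/
theorem itE_fst (ε : ℝ) (M : List (Lv Θ)) (U : ℕ → Ω → Ω → ℝ) (E : Fn (Ω × S)) :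
    ∀ (n : ℕ) (s : Sh) (G : (s.Lf → Ω) → ℝ),
      itE ε M (fun j x y => U j x.1 y.1) E n s (fun x => G fun a => (x a).1) =
        itE ε M U (fun s G => E s fun x => G fun a => (x a).1) n s G
  | 0, _, _ => rfl
  | n + 1, s, G => congrArg (sg ε M s) (funext fun τ => itE_fst ε M U E n τ.sh (τ.ev U G))

theorem TE_prd_fst (h₁ : Wt w₁) (h₂ : Wt w₂) {M : List (Lv (Ω × S))} {T : List (Lv Ω × Lv S)}
    (hT : List.Forall₂ Prd M T) (z₁ : Ω → ℝ) (z₂ : S → ℝ) (s : Sh) (G : (s.Lf → Ω) → ℝ) :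
    TE (pw2 w₁ w₂) s M (ad z₁ z₂) (fun x => G fun a => (x a).1) =
      TE w₁ s (T.map Prod.fst) z₁ G := by
  have := Law.TE_prd h₁ h₂ s hT G (fun _ => 1) z₁ z₂
  simpa only [mul_one, Law.TE_const h₂] using this

/-- **remainder in the bulk system** for any path that factorises at time `u` -/
theorem abs_iDn_prd_le (h₁ : Wt w₁) (h₂ : Wt w₂) {L : List (IL (Ω × S))}
    (hL : Mono 0 (L.map IL.b)) {κ : ℝ} (hκ : ∀ j y y', |iD L j y y'| ≤ κ) {t u : ℝ}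
    (ht : t ∈ Icc (0 : ℝ) 1) (hu : u ∈ Icc (0 : ℝ) 1) {T : List (Lv Ω × Lv S)}
    (hT : List.Forall₂ Prd (ipl L u) T) {U : ℕ → Ω → Ω → ℝ}
    (hU : ∀ j ≤ L.length, ∀ x y, |1 / 2 * iD L j x y| ≤ U j x.1 y.1) (z₁ : Ω → ℝ) (z₂ : S → ℝ)
    {N n : ℕ} {s : Sh} (hs : Fintype.card s.Lf + 2 * n ≤ N) {F : (s.Lf → Ω × S) → ℝ}
    {G : (s.Lf → Ω) → ℝ} (hF : ∀ x, |F x| ≤ G fun a => (x a).1) :
    |iDn (pw2 w₁ w₂) L (ad z₁ z₂) n s F t| ≤ exp ((2 * N ^ 2 + N) * κ) *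
      itE 1 (L.map IL.b) U (TEf w₁ (T.map Prod.fst) z₁) n s G := by
  refine (abs_iDn_le (Law.wt_pw2 h₁ h₂) hL hκ _ (K := fun j x y => U j x.1 y.1) hU ht hu hs
    hF).trans_eq ?_
  rw [itE_fst]
  congr 2
  funext s G
  exact TE_prd_fst h₁ h₂ hT z₁ z₂ s G

end Crest.Agent.T156.Cas

end
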