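import Crest.Agent.T156.CaLin_22
import Crest.Agent.T156.CaTay_38
import Crest.Agent.T156.CaWt_87

/-!
# Row 156 (helper22): graft terms and the product form of the cavity expansion

`GT s` is one term of the derivative on the replica tree `s`: a larger shape, the old leaves, a
marked pair and its level.  `sg ε M s Φ` is the weighted sum over the off-diagonal terms.
-/

set_option autoImplicit false
set_option linter.unusedSectionVars false

noncomputable section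

namespace Crest.Agent.T156.Cas

open MeasureTheory Real Set Filter Topology
open Crest.Agent.T157.E Crest.Agent.T157.Casc Crest.Agent.T157.SL
open Crest.Agent.T157.Casc.C (Same addLv coLv)

variable {Ω S Θ Θ' : Type}

/-- a graft term -/
structure GT (s : Sh) where
  sh : Sh
  e : s.Lf → sh.Lf
  j : ℕ
  p : sh.Lf
  q : sh.Lf

namespace GT

/-- the function of the leaves carried by a term -/
def ev {s : Sh} (τ : GT s) (K : ℕ → Ω → Ω → ℝ) (F : (s.Lf → Ω) → ℝ) : (τ.sh.Lf → Ω) → ℝ :=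
  fun x => F (fun c => x (τ.e c)) * K τ.j (x τ.p) (x τ.q)

/-- two old leaves -/
def g0 (s : Sh) (n : ℕ) (a b : s.Lf) : GT s := ⟨s, id, s.shr a b n, a, b⟩

/-- an old leaf and a new leaf -/
def g1 (s : Sh) (a : s.Lf) (j : ℕ) (b : s.Lf) : GT s :=
  ⟨s.graft a j, s.emb a j, s.shr b a j, s.emb a j b, s.nw a j⟩

/-- a new leaf and an old leaf -/
def g1' (s : Sh) (a : s.Lf) (j : ℕ) (b : s.Lf) : GT s :=
  ⟨s.graft a j, s.emb a j, s.shr a b j, s.nw a j, s.emb a j b⟩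

/-- two new leaves grafted on old paths -/
def g2 (s : Sh) (a : s.Lf) (j : ℕ) (b : s.Lf) (k : ℕ) : GT s :=
  ⟨(s.graft b k).graft (s.emb b k a) j, fun c => (s.graft b k).emb (s.emb b k a) j (s.emb b k c),
    s.shr a b (min j k), (s.graft b k).nw (s.emb b k a) j,
    (s.graft b k).emb (s.emb b k a) j (s.nw b k)⟩

/-- two new leaves, the second one grafted on the first one -/
def g3 (s : Sh) (a : s.Lf) (j i : ℕ) : GT s :=
  ⟨(s.graft a j).graft (s.nw a j) (i + j),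
    fun b => (s.graft a j).emb (s.nw a j) (i + j) (s.emb a j b), i + j,
    (s.graft a j).emb (s.nw a j) (i + j) (s.nw a j), (s.graft a j).nw (s.nw a j) (i + j)⟩

end GT

/-- the weighted sum over the off-diagonal terms; `ε = -1` is the derivative, `ε = 1` its total
variation -/
def sg (ε : ℝ) (M : List (Lv Θ)) (s : Sh) (Φ : GT s → ℝ) : ℝ :=
  ∑ a, ∑ b ∈ Finset.univ.erase a, Φ (.g0 s M.length a b) +
  ε * ∑ a, ∑ j ∈ Finset.range (M.length + 1), cw s M a j *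
    (∑ b, Φ (.g1 s a j b) + ∑ b, Φ (.g1' s a j b)) +
  ∑ a, ∑ j ∈ Finset.range (M.length + 1), cw s M a j *
    (∑ b, ∑ k ∈ Finset.range (M.length + 1), cw s M b k * Φ (.g2 s a j b k) +
      ∑ i ∈ Finset.range (M.length - j + 1), dm (M.drop j) 0 i * Φ (.g3 s a j i))

/-- the terms that occur for `n` levels -/
inductive GT.Mem (s : Sh) (n : ℕ) : GT s → Prop
  | g0 {a b : s.Lf} : b ≠ a → Mem s n (.g0 s n a b)
  | g1 (a : s.Lf) {j : ℕ} (b : s.Lf) : j ≤ n → Mem s n (.g1 s a j b)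
  | g1' (a : s.Lf) {j : ℕ} (b : s.Lf) : j ≤ n → Mem s n (.g1' s a j b)
  | g2 (a : s.Lf) {j : ℕ} (b : s.Lf) {k : ℕ} : j ≤ n → k ≤ n → Mem s n (.g2 s a j b k)
  | g3 (a : s.Lf) {j i : ℕ} : i + j ≤ n → Mem s n (.g3 s a j i)

namespace Cav22

/-! ### only the tilts matter -/

theorem ex_tilt {M : List (Lv Θ)} {M' : List (Lv Θ')} (H : M.map Lv.m = M'.map Lv.m) (j : ℕ) :
    ex M j = ex M' j := by
  have := congrArg (·[j]?) H
  simp only [List.getElem?_map] at this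
  unfold ex
  cases h : M[j]? <;> cases h' : M'[j]? <;> simp_all

theorem dm_tilt {M : List (Lv Θ)} {M' : List (Lv Θ')} (H : M.map Lv.m = M'.map Lv.m) (m0 : ℝ)
    (j : ℕ) : dm M m0 j = dm M' m0 j := by
  cases j <;> simp only [dm, exP, ex_tilt H]

theorem len_tilt {M : List (Lv Θ)} {M' : List (Lv Θ')} (H : M.map Lv.m = M'.map Lv.m) :
    M.length = M'.length := by simpa using congrArg List.length H

theorem drop_tilt {M : List (Lv Θ)} {M' : List (Lv Θ')} (H : M.map Lv.m = M'.map Lv.m) (j : ℕ) :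
    (M.drop j).map Lv.m = (M'.drop j).map Lv.m := by rw [List.map_drop, List.map_drop, H]

theorem cf_tilt : ∀ (s : Sh) {M : List (Lv Θ)} {M' : List (Lv Θ')},
    M.map Lv.m = M'.map Lv.m → ∀ a j, cf s M a j = cf s M' a j
  | .one, _, _, _, _, 0 => rfl
  | .one, _, _, H, _, j + 1 => dm_tilt H 0 (j + 1)
  | .step s, [], [], H, a, j => congrArg (· + _) (cf_tilt s H a j)
  | .step _, [], _ :: _, H, _, _ => by simp at H
  | .step _, _ :: _, [], H, _, _ => by simp at H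
  | .step _, _ :: _, _ :: _, _, _, 0 => rfl
  | .step s, l :: L, l' :: L', H, a, j + 1 => by
      simp only [List.map_cons, List.cons.injEq] at H
      refine (Sp38.cf_step s l L a j).trans (Eq.trans ?_ (Sp38.cf_step s l' L' a j).symm)
      rw [ex_tilt H.2, H.1]
      exact congrArg (· + _) (cf_tilt s H.2 a j)
  | .split s _, _, _, H, .inl a, j => cf_tilt s H a j
  | .split _ t, _, _, H, .inr a, j => cf_tilt t H a j

theorem cw_tilt (s : Sh) {M : List (Lv Θ)} {M' : List (Lv Θ')} (H : M.map Lv.m = M'.map Lv.m)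
    (a : s.Lf) (j : ℕ) : cw s M a j = cw s M' a j := by
  rw [cw, cw, cf_tilt s H, ex_tilt H]

theorem mono_tilt : ∀ {M : List (Lv Θ)} {M' : List (Lv Θ')}, M.map Lv.m = M'.map Lv.m →
    ∀ {m0 : ℝ}, Mono m0 M → Mono m0 M'
  | [], [], _, _, h => h
  | [], _ :: _, H, _, _ => by simp at H
  | _ :: _, [], H, _, _ => by simp at H
  | l :: _, l' :: _, H, _, h => by
      simp only [List.map_cons, List.cons.injEq] at H
      exact ⟨H.1 ▸ h.1, H.1 ▸ mono_tilt H.2 h.2⟩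

theorem mono_weak : ∀ {L : List (Lv Θ)} {m m' : ℝ}, m' ≤ m → Mono m L → Mono m' L
  | [], _, _, h, h' => h.trans h'
  | _ :: _, _, _, h, h' => ⟨h.trans h'.1, h'.2⟩

theorem mono_drop : ∀ (j : ℕ) {L : List (Lv Θ)}, Mono 0 L → Mono 0 (L.drop j)
  | 0, _, h => h
  | _ + 1, [], h => h
  | j + 1, _ :: _, h => mono_drop j (mono_weak h.1 h.2)

end Cav22

theorem sg_tilt (ε : ℝ) {M : List (Lv Θ)} {M' : List (Lv Θ')} (H : M.map Lv.m = M'.map Lv.m)
    (s : Sh) (Φ : GT s → ℝ) : sg ε M s Φ = sg ε M' s Φ := by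
  simp only [sg, Cav22.cw_tilt s H, Cav22.len_tilt H,
    fun j => Cav22.dm_tilt (Cav22.drop_tilt H j)]

theorem sg_add (ε : ℝ) (M : List (Lv Θ)) (s : Sh) (Φ Ψ : GT s → ℝ) :
    sg ε M s (fun τ => Φ τ + Ψ τ) = sg ε M s Φ + sg ε M s Ψ := by
  simp only [sg, mul_add, Finset.sum_add_distrib]
  ring

theorem sg_const_mul (ε : ℝ) (M : List (Lv Θ)) (s : Sh) (c : ℝ) (Φ : GT s → ℝ) :
    sg ε M s (fun τ => c * Φ τ) = c * sg ε M s Φ := by
  simp only [sg, mul_add, Finset.mul_sum, mul_left_comm c]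

theorem sg_zero (ε : ℝ) (M : List (Lv Θ)) (s : Sh) : sg ε M s (fun _ => 0) = 0 := by simp [sg]

theorem sg_sub (ε : ℝ) (M : List (Lv Θ)) (s : Sh) (Φ Ψ : GT s → ℝ) :
    sg ε M s (fun τ => Φ τ - Ψ τ) = sg ε M s Φ - sg ε M s Ψ := by
  have h1 := sg_add ε M s Φ fun τ => -1 * Ψ τ
  rw [sg_const_mul] at h1
  simpa only [neg_one_mul, ← sub_eq_add_neg] using h1

theorem sg_sum (ε : ℝ) (M : List (Lv Θ)) (s : Sh) {α : Type*} (A : Finset α) (Φ : α → GT s → ℝ) :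
    sg ε M s (fun τ => ∑ k ∈ A, Φ k τ) = ∑ k ∈ A, sg ε M s (Φ k) := by
  classical
  induction A using Finset.induction_on with
  | empty => simpa using sg_zero ε M s
  | insert a A ha ih => simp only [Finset.sum_insert ha, sg_add, ih]

theorem sg_congr (ε : ℝ) (M : List (Lv Θ)) (s : Sh) {Φ Ψ : GT s → ℝ}
    (H : ∀ τ, τ.Mem s M.length → Φ τ = Ψ τ) : sg ε M s Φ = sg ε M s Ψ := by
  have r : ∀ {j n}, j ∈ Finset.range (n + 1) → j ≤ n := fun h =>
    Nat.lt_succ_iff.1 (Finset.mem_range.1 h)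
  unfold sg
  congr 1
  · congr 1
    · exact Finset.sum_congr rfl fun a _ => Finset.sum_congr rfl fun b hb =>
        H _ (.g0 (Finset.ne_of_mem_erase hb))
    · congr 1
      refine Finset.sum_congr rfl fun a _ => Finset.sum_congr rfl fun j hj => ?_
      simp only [fun b => H _ (.g1 a b (r hj)), fun b => H _ (.g1' a b (r hj))]
  · refine Finset.sum_congr rfl fun a _ => Finset.sum_congr rfl fun j hj => ?_
    congr 2
    · exact Finset.sum_congr rfl fun b _ => Finset.sum_congr rfl fun k hk => by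
        rw [H _ (.g2 a b (r hj) (r hk))]
    · exact Finset.sum_congr rfl fun i hi => by
        rw [H _ (.g3 a (by have := r hi; have := r hj; omega))]

theorem sg_nonneg {ε : ℝ} (hε : 0 ≤ ε) {M : List (Lv Θ)} (hM : Mono 0 M) (s : Sh) {Φ : GT s → ℝ}
    (H : ∀ τ, τ.Mem s M.length → 0 ≤ Φ τ) : 0 ≤ sg ε M s Φ := by
  have r : ∀ {j n}, j ∈ Finset.range (n + 1) → j ≤ n := fun h =>
    Nat.lt_succ_iff.1 (Finset.mem_range.1 h)
  refine add_nonneg (add_nonneg (Finset.sum_nonneg fun a _ => Finset.sum_nonneg fun b hb =>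
    H _ (.g0 (Finset.ne_of_mem_erase hb))) (mul_nonneg hε (Finset.sum_nonneg fun a _ =>
    Finset.sum_nonneg fun j hj => mul_nonneg (cw_nonneg s hM a j) (add_nonneg
      (Finset.sum_nonneg fun b _ => H _ (.g1 a b (r hj)))
      (Finset.sum_nonneg fun b _ => H _ (.g1' a b (r hj)))))))
    (Finset.sum_nonneg fun a _ => Finset.sum_nonneg fun j hj => mul_nonneg (cw_nonneg s hM a j)
      (add_nonneg (Finset.sum_nonneg fun b _ => Finset.sum_nonneg fun k hk =>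
        mul_nonneg (cw_nonneg s hM b k) (H _ (.g2 a b (r hj) (r hk))))
      (Finset.sum_nonneg fun i hi => mul_nonneg (dm_nonneg (Cav22.mono_drop j hM) i)
        (H _ (.g3 a (by have := r hi; have := r hj; omega))))))

theorem sg_mono {ε : ℝ} (hε : 0 ≤ ε) {M : List (Lv Θ)} (hM : Mono 0 M) (s : Sh) {Φ Ψ : GT s → ℝ}
    (H : ∀ τ, τ.Mem s M.length → Φ τ ≤ Ψ τ) : sg ε M s Φ ≤ sg ε M s Ψ := by
  rw [← sub_nonneg, ← sg_sub]
  exact sg_nonneg hε hM s fun τ hτ => sub_nonneg.2 (H τ hτ)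

theorem sg_affine (ε : ℝ) (M : List (Lv Θ)) (s : Sh) (Φ : GT s → ℝ) :
    sg ε M s Φ = sg 0 M s Φ + ε * (sg 1 M s Φ - sg 0 M s Φ) := by
  simp only [sg]
  ring

/-- the signed sum is dominated by the total variation -/
theorem abs_sg_le {M : List (Lv Θ)} (hM : Mono 0 M) (s : Sh) {Φ Ψ : GT s → ℝ}
    (H : ∀ τ, τ.Mem s M.length → |Φ τ| ≤ Ψ τ) : |sg (-1) M s Φ| ≤ sg 1 M s Ψ := by
  have key : ∀ Φ : GT s → ℝ, (∀ τ, τ.Mem s M.length → 0 ≤ Φ τ) →
      0 ≤ sg 0 M s Φ ∧ 0 ≤ sg 1 M s Φ - sg 0 M s Φ := fun Φ h => by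
    refine ⟨sg_nonneg le_rfl hM s h, ?_⟩
    by_contra hc
    push Not at hc
    have h1 := sg_nonneg (ε := (sg 0 M s Φ + 1) / -(sg 1 M s Φ - sg 0 M s Φ))
      (div_nonneg (by linarith [sg_nonneg le_rfl hM s h]) (by linarith)) hM s h
    rw [sg_affine, div_neg, neg_mul, div_mul_cancel₀ _ hc.ne] at h1
    linarith
  have h1 := key (fun τ => Ψ τ - Φ τ) fun τ hτ => sub_nonneg.2 ((le_abs_self _).trans (H τ hτ))
  have h2 := key (fun τ => Ψ τ + Φ τ) fun τ hτ => by linarith [(abs_le.1 (H τ hτ)).1]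
  simp only [sg_sub, sg_add] at h1 h2
  rw [sg_affine (-1), abs_le]
  constructor <;> linarith [h1.1, h1.2, h2.1, h2.2]

/-- total weight: `4 k²` for `ε = 1`, `0` for `ε = -1` -/
theorem sg_const (ε : ℝ) (M : List (Lv Θ)) (s : Sh) (c : ℝ) :
    sg ε M s (fun _ => c) = 2 * (1 + ε) * (Fintype.card s.Lf : ℝ) ^ 2 * c := by
  have h1 : ∀ j, ∑ i ∈ Finset.range (M.length - j + 1), dm (M.drop j) 0 i * c = c := fun j => by
    have := sum_dm (M.drop j) 0 (M.drop j).length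
    rw [ex_length, List.length_drop, sub_zero] at this
    rw [← Finset.sum_mul, this, one_mul]
  have h2 : ∀ a : s.Lf, ((Finset.univ.erase a).card : ℝ) = Fintype.card s.Lf - 1 := fun a => by
    rw [Finset.card_erase_of_mem (Finset.mem_univ a), Finset.card_univ,
      Nat.cast_sub (Fintype.card_pos_iff.2 ⟨a⟩), Nat.cast_one]
  simp only [sg, h1, ← Finset.sum_mul, sum_cw, Finset.sum_const, nsmul_eq_mul, h2,
    Finset.card_univ]
  ring

/-! ### iteration -/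

/-- `n`-fold graft sum of a functional of (shape, function of the leaves) -/
def itE (ε : ℝ) (M : List (Lv Θ)) (K : ℕ → Ω → Ω → ℝ)
    (E : (s : Sh) → ((s.Lf → Ω) → ℝ) → ℝ) : ℕ → (s : Sh) → ((s.Lf → Ω) → ℝ) → ℝ
  | 0, s, F => E s F
  | n + 1, s, F => sg ε M s fun τ => itE ε M K E n τ.sh (τ.ev K F)

/-- the same for a functional of a bulk function and a site function -/
def itB (ε : ℝ) (M : List (Lv Θ)) (U : ℕ → Ω → Ω → ℝ) (Z : ℕ → S → S → ℝ)
    (B : (s : Sh) → ((s.Lf → Ω) → ℝ) → ((s.Lf → S) → ℝ) → ℝ) :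
    ℕ → (s : Sh) → ((s.Lf → Ω) → ℝ) → ((s.Lf → S) → ℝ) → ℝ
  | 0, s, G, ξ => B s G ξ
  | n + 1, s, G, ξ => sg ε M s fun τ => itB ε M U Z B n τ.sh (τ.ev U G) (τ.ev Z ξ)

/-- product of a bulk function and a site function -/
def tens {κ : Type} (G : (κ → Ω) → ℝ) (ξ : (κ → S) → ℝ) : (κ → Ω × S) → ℝ :=
  fun x => G (fun a => (x a).1) * ξ fun a => (x a).2

theorem GT.ev_tens {s : Sh} (τ : GT s) (U : ℕ → Ω → Ω → ℝ) (Z : ℕ → S → S → ℝ)
    (G : (s.Lf → Ω) → ℝ) (ξ : (s.Lf → S) → ℝ) :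
    τ.ev (fun j x y => U j x.1 y.1 * Z j x.2 y.2) (tens G ξ) = tens (τ.ev U G) (τ.ev Z ξ) := by
  funext x
  simp only [GT.ev, tens]
  ring

theorem itE_tens (ε : ℝ) (M : List (Lv Θ)) (U : ℕ → Ω → Ω → ℝ) (Z : ℕ → S → S → ℝ)
    (E : (s : Sh) → ((s.Lf → Ω × S) → ℝ) → ℝ) : ∀ (n : ℕ) (s : Sh) (G : (s.Lf → Ω) → ℝ)
    (ξ : (s.Lf → S) → ℝ), itE ε M (fun j x y => U j x.1 y.1 * Z j x.2 y.2) E n s (tens G ξ) =
      itB ε M U Z (fun s G ξ => E s (tens G ξ)) n s G ξ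
  | 0, _, _, _ => rfl
  | n + 1, s, G, ξ => by simp only [itE, itB, GT.ev_tens, itE_tens ε M U Z E n]

theorem itE_tilt (ε : ℝ) {M : List (Lv Θ)} {M' : List (Lv Θ')} (H : M.map Lv.m = M'.map Lv.m)
    (K : ℕ → Ω → Ω → ℝ) (E : (s : Sh) → ((s.Lf → Ω) → ℝ) → ℝ) :
    ∀ n, itE ε M K E n = itE ε M' K E n
  | 0 => rfl
  | n + 1 => by funext s F; simp only [itE, itE_tilt ε H K E n, sg_tilt ε H]

theorem itB_tilt (ε : ℝ) {M : List (Lv Θ)} {M' : List (Lv Θ')} (H : M.map Lv.m = M'.map Lv.m)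
    (U : ℕ → Ω → Ω → ℝ) (Z : ℕ → S → S → ℝ)
    (B : (s : Sh) → ((s.Lf → Ω) → ℝ) → ((s.Lf → S) → ℝ) → ℝ) :
    ∀ n, itB ε M U Z B n = itB ε M' U Z B n
  | 0 => rfl
  | n + 1 => by funext s G ξ; simp only [itB, itB_tilt ε H U Z B n, sg_tilt ε H]

theorem Dop_eq_sg (M : List (Lv Ω)) (K : ℕ → Ω → Ω → ℝ) (E : Fn Ω) (s : Sh)
    (F : (s.Lf → Ω) → ℝ) : Dop M K E s F = sg (-1) M s fun τ => E τ.sh (τ.ev K F) := by
  have h : ∀ a : s.Lf, ∑ b, (if a = b then 0 else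
      E s fun x => F x * K (s.shr a b M.length) (x a) (x b)) = ∑ b ∈ Finset.univ.erase a,
        E s fun x => F x * K (s.shr a b M.length) (x a) (x b) := fun a => by
    rw [← Finset.add_sum_erase _ _ (Finset.mem_univ a), if_pos rfl, zero_add]
    exact Finset.sum_congr rfl fun b hb => if_neg (Finset.ne_of_mem_erase hb).symm
  rw [Dop, Dop1, sg, neg_one_mul, ← sub_eq_add_neg]
  simp only [h]
  rfl

theorem Dop_iter_eq (M : List (Lv Ω)) (K : ℕ → Ω → Ω → ℝ) (E : Fn Ω) :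
    ∀ n, (Dop M K)^[n] E = itE (-1) M K E n
  | 0 => rfl
  | n + 1 => by
      funext s F
      rw [Function.iterate_succ_apply', Dop_eq_sg, Dop_iter_eq M K E n]
      rfl

theorem GT.Mem.ne {s : Sh} {n : ℕ} {τ : GT s} (H : τ.Mem s n) : τ.p ≠ τ.q := by
  have key : ∀ (s : Sh) (a : s.Lf) (j : ℕ) (b : s.Lf), s.emb a j b ≠ s.nw a j := fun s a j b e => by
    have h1 := Wt87.sum_graft s a j fun c => if c = s.nw a j then (1 : ℕ) else 0
    have h2 := Finset.single_le_sum (f := fun c => if s.emb a j c = s.nw a j then (1 : ℕ) else 0)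
      (fun _ _ => Nat.zero_le _) (Finset.mem_univ b)
    simp only [Finset.sum_ite_eq', Finset.mem_univ, if_true, e] at h1 h2
    omega
  cases H with
  | g0 h => exact h.symm
  | g1 a b => exact key s a _ b
  | g1' a b => exact (key s a _ b).symm
  | g2 a b => exact (key _ _ _ _).symm
  | g3 a => exact key _ _ _ _

/-- the level of a term is the number of levels shared by its pair -/
theorem GT.Mem.shr {s : Sh} {n : ℕ} {τ : GT s} (H : τ.Mem s n) : τ.sh.shr τ.p τ.q n = τ.j := by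
  cases H with
  | g0 => rfl
  | g1 a b hj => exact (Wt87.shr_nw s a _ b n).trans (by rw [min_eq_left hj]; rfl)
  | g1' a b hj =>
    exact (Wt87.shr_nw' s a _ b n).trans (by rw [min_eq_left hj, Wt87.shr_comm]; rfl)
  | @g2 a j b k hj hk =>
    refine (Wt87.shr_nw' (s.graft b k) _ j _ n).trans ?_
    rw [min_eq_left hj, Wt87.shr_nw', min_comm]
    rfl
  | @g3 a j i h =>
    refine (Wt87.shr_nw (s.graft a j) _ (i + j) _ n).trans ?_
    rw [min_eq_left h, Wt87.shr_self]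
    rfl

theorem GT.Mem.le {s : Sh} {n : ℕ} {τ : GT s} (H : τ.Mem s n) : τ.j ≤ n :=
  H.shr ▸ Wt87.shr_le _ _ _ _

theorem GT.Mem.shr_e {s : Sh} {n : ℕ} {τ : GT s} (H : τ.Mem s n) (b c : s.Lf) (k : ℕ) :
    τ.sh.shr (τ.e b) (τ.e c) k = s.shr b c k := by
  cases H with
  | g0 => rfl
  | g1 => exact Wt87.shr_emb _ _ _ _ _ _
  | g1' => exact Wt87.shr_emb _ _ _ _ _ _
  | g2 => exact (Wt87.shr_emb _ _ _ _ _ _).trans (Wt87.shr_emb _ _ _ _ _ _)
  | g3 => exact (Wt87.shr_emb _ _ _ _ _ _).trans (Wt87.shr_emb _ _ _ _ _ _)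

theorem GT.Mem.card {s : Sh} {n : ℕ} {τ : GT s} (H : τ.Mem s n) :
    Fintype.card τ.sh.Lf ≤ Fintype.card s.Lf + 2 := by
  cases H with
  | g0 => exact Nat.le_add_right _ _
  | g1 => exact (Wt87.card_graft _ _ _).trans_le (by omega)
  | g1' => exact (Wt87.card_graft _ _ _).trans_le (by omega)
  | g2 => exact (Wt87.card_graft _ _ _).trans_le (by rw [Wt87.card_graft])
  | g3 => exact (Wt87.card_graft _ _ _).trans_le (by rw [Wt87.card_graft])

variable [Fintype Ω] [Fintype S] {w : Ω → ℝ}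

/-- the old leaves keep their law -/
theorem TE_emb (hw : Wt w) (s : Sh) (a : s.Lf) (j : ℕ) (M : List (Lv Ω)) (h : Ω → ℝ)
    (F : (s.Lf → Ω) → ℝ) : TE w (s.graft a j) M h (fun x => F fun c => x (s.emb a j c)) =
      TE w s M h F := by
  refine (graft_leaf hw s a j M h fun x _ => F x).trans ?_
  simp only [← Finset.sum_mul, sum_P hw, one_mul, TE]

theorem GT.Mem.TE_e (hw : Wt w) {s : Sh} {n : ℕ} {τ : GT s} (H : τ.Mem s n) (M : List (Lv Ω))
    (h : Ω → ℝ) (F : (s.Lf → Ω) → ℝ) :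
    TE w τ.sh M h (fun x => F fun c => x (τ.e c)) = TE w s M h F := by
  cases H with
  | g0 => rfl
  | g1 a b => exact TE_emb hw s a _ M h F
  | g1' a b => exact TE_emb hw s a _ M h F
  | @g2 a j b k =>
    exact (TE_emb hw (s.graft b k) _ j M h fun x => F fun c => x (s.emb b k c)).trans
      (TE_emb hw s b k M h F)
  | @g3 a j i =>
    exact (TE_emb hw (s.graft a j) _ (i + j) M h fun x => F fun c => x (s.emb a j c)).trans
      (TE_emb hw s a j M h F)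

/-- the derivative in off-diagonal form -/
theorem dT_eq_sg (hw : Wt w) (s : Sh) (M : List (Lv Ω)) (h : Ω → ℝ) {K : ℕ → Ω → Ω → ℝ} {c : ℝ}
    (hK : ∀ y, K M.length y y = c) (F : (s.Lf → Ω) → ℝ) :
    dT w s M h K F = sg (-1) M s fun τ => TE w τ.sh M h (τ.ev K F) := by
  have h1 : ∀ a j, tX w (s.graft a j) M h (fun _ x => F (fun c => x (s.emb a j c)) *
      K M.length (x (s.nw a j)) (x (s.nw a j))) = TE w s M h F * c := fun a j => by
    simp only [hK]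
    exact (Law.TE_mul_const hw _ M h c _).trans (by rw [TE_emb hw])
  have h2 : ∀ a, ∑ b, tX w s M h (fun _ x => F x * K (s.shr a b M.length) (x a) (x b)) =
      TE w s M h F * c + ∑ b ∈ Finset.univ.erase a,
        tX w s M h (fun _ x => F x * K (s.shr a b M.length) (x a) (x b)) := fun a => by
    rw [← Finset.add_sum_erase _ _ (Finset.mem_univ a), Sp38.shr_self]
    simp only [hK]
    congr 1
    exact Law.TE_mul_const hw _ M h c _
  have h3 := congrArg (· * (TE w s M h F * c)) (sum_cw s M)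
  simp only [Finset.sum_mul] at h3
  simp only [dT, h1, h2, mul_add (cw s M _ _) _ (TE w s M h F * c), Finset.sum_add_distrib, h3,
    Finset.sum_const, Finset.card_univ, nsmul_eq_mul]
  rw [sg, neg_one_mul, ← sub_eq_add_neg, add_comm (_ * _), add_sub_add_right_eq_sub]
  rfl

/-! ### the linear path -/

theorem tilt_ipl (L : List (IL Ω)) (t : ℝ) : (ipl L t).map Lv.m = (L.map IL.b).map Lv.m := by
  simp only [ipl_eq, List.map_map]
  rfl

/-- the `n`-th derivative along the linear path -/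
def iDn (w : Ω → ℝ) (L : List (IL Ω)) (h : Ω → ℝ) (n : ℕ) (s : Sh) (F : (s.Lf → Ω) → ℝ) (t : ℝ) :
    ℝ := itE (-1) (L.map IL.b) (fun j x y => 1 / 2 * iD L j x y)
      (fun s F => TE w s (ipl L t) h F) n s F

theorem hasDerivAt_sg {ε : ℝ} {M : List (Lv Θ)} {s : Sh} {Φ : ℝ → GT s → ℝ} {Φ' : GT s → ℝ} {u : ℝ}
    (H : ∀ τ, HasDerivAt (fun t => Φ t τ) (Φ' τ) u) :
    HasDerivAt (fun t => sg ε M s (Φ t)) (sg ε M s Φ') u :=
  ((HasDerivAt.fun_sum fun _ _ => HasDerivAt.fun_sum fun _ _ => H _).fun_add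
    ((HasDerivAt.fun_sum fun _ _ => HasDerivAt.fun_sum fun _ _ => ((HasDerivAt.fun_sum fun _ _ =>
      H _).fun_add (HasDerivAt.fun_sum fun _ _ => H _)).const_mul _).const_mul ε)).fun_add
    (HasDerivAt.fun_sum fun _ _ => HasDerivAt.fun_sum fun _ _ => ((HasDerivAt.fun_sum fun _ _ =>
      HasDerivAt.fun_sum fun _ _ => (H _).const_mul _).fun_add
      (HasDerivAt.fun_sum fun _ _ => (H _).const_mul _)).const_mul _)

theorem continuousOn_sg {ε : ℝ} {M : List (Lv Θ)} {s : Sh} {Φ : ℝ → GT s → ℝ} {I : Set ℝ}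
    (H : ∀ τ, ContinuousOn (fun t => Φ t τ) I) : ContinuousOn (fun t => sg ε M s (Φ t)) I := by
  unfold sg
  fun_prop

theorem hasDerivAt_iDn (hw : Wt w) (L : List (IL Ω)) (h : Ω → ℝ) {c : ℝ}
    (hc : ∀ y, iD L L.length y y = c) {t : ℝ} (ht : t ∈ Ioo (0 : ℝ) 1) :
    ∀ (n : ℕ) (s : Sh) (F : (s.Lf → Ω) → ℝ),
      HasDerivAt (iDn w L h n s F) (iDn w L h (n + 1) s F t) t
  | 0, s, F => by
      have := hasDerivAt_tX_t hw isOpen_Ioo (c1_ipl L) ht s h F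
      rw [Sacc_ipl L ht, dT_eq_sg hw (c := 1 / 2 * c) _ _ _ (fun y => by
        rw [Sp38.len_at, List.length_map, hc])] at this
      exact this.congr_deriv (sg_tilt _ (tilt_ipl L t) _ _)
  | n + 1, s, F => hasDerivAt_sg
      (Φ := fun t τ => iDn w L h n τ.sh (GT.ev τ (fun j x y => 1 / 2 * iD L j x y) F) t)
      (Φ' := fun τ => iDn w L h (n + 1) τ.sh (GT.ev τ (fun j x y => 1 / 2 * iD L j x y) F) t)
      fun τ => hasDerivAt_iDn hw L h hc ht n τ.sh _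

theorem continuousOn_iDn (hw : Wt w) (L : List (IL Ω)) (h : Ω → ℝ) :
    ∀ (n : ℕ) (s : Sh) (F : (s.Lf → Ω) → ℝ), ContinuousOn (iDn w L h n s F) (Icc 0 1)
  | 0, s, F => continuousOn_tX_ipl hw s L h F
  | n + 1, _, F => continuousOn_sg
      (Φ := fun t τ => iDn w L h n τ.sh (GT.ev τ (fun j x y => 1 / 2 * iD L j x y) F) t)
      fun τ => continuousOn_iDn hw L h n τ.sh _

/-- Taylor's formula with integral remainder, derivatives inside the interval only -/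
theorem Cav22.taylor {f : ℕ → ℝ → ℝ} (hc : ∀ n, ContinuousOn (f n) (Icc 0 1))
    (hd : ∀ n, ∀ t ∈ Ioo (0 : ℝ) 1, HasDerivAt (f n) (f (n + 1) t) t) {T : ℝ}
    (hT : T ∈ Icc (0 : ℝ) 1) (J : ℕ) :
    f 0 T = ∑ n ∈ Finset.range (J + 1), f n 0 * T ^ n / n.factorial +
      ∫ t in (0 : ℝ)..T, f (J + 1) t * (T - t) ^ J / J.factorial := by
  have hs : Icc 0 T ⊆ Icc (0 : ℝ) 1 := Icc_subset_Icc_right hT.2
  have key : ∀ J : ℕ, ∀ t ∈ Ioo (0 : ℝ) 1, HasDerivAt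
      (fun t => ∑ n ∈ Finset.range (J + 1), f n t * (T - t) ^ n / n.factorial)
      (f (J + 1) t * (T - t) ^ J / J.factorial) t := fun J t ht => by
    induction J with
    | zero => simpa using hd 0 t ht
    | succ J ih =>
      simp only [Finset.sum_range_succ _ (J + 1)]
      refine (ih.fun_add (((hd (J + 1) t ht).fun_mul
        (((hasDerivAt_id' t).const_sub T).fun_pow (J + 1))).div_const _)).congr_deriv ?_
      have : (J.factorial : ℝ) ≠ 0 := by positivity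
      rw [Nat.factorial_succ]
      push_cast
      field_simp
      ring
  have hf := fun n => (hc n).mono hs
  rw [intervalIntegral.integral_eq_sub_of_hasDerivAt_of_le hT.1 (by fun_prop)
    (fun t ht => key J t ⟨ht.1, ht.2.trans_le hT.2⟩)
    (ContinuousOn.intervalIntegrable_of_Icc hT.1 (by fun_prop))]
  simp [Finset.sum_range_succ']

theorem Cav22.taylor_le {f : ℕ → ℝ → ℝ} (hc : ∀ n, ContinuousOn (f n) (Icc 0 1))
    (hd : ∀ n, ∀ t ∈ Ioo (0 : ℝ) 1, HasDerivAt (f n) (f (n + 1) t) t) {T : ℝ}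
    (hT : T ∈ Icc (0 : ℝ) 1) (J : ℕ) {B : ℝ} (hB : ∀ t ∈ Icc 0 T, |f (J + 1) t| ≤ B) :
    |f 0 T - ∑ n ∈ Finset.range (J + 1), f n 0 * T ^ n / n.factorial| ≤
      B * T ^ (J + 1) / J.factorial := by
  rw [Cav22.taylor hc hd hT J, add_sub_cancel_left, ← Real.norm_eq_abs,
    show B * T ^ (J + 1) / J.factorial = B * T ^ J / J.factorial * |T - 0| by
      rw [sub_zero, abs_of_nonneg hT.1]; ring]
  refine intervalIntegral.norm_integral_le_of_norm_le_const fun t ht => ?_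
  rw [uIoc_of_le hT.1] at ht
  have h1 : 0 ≤ T - t := sub_nonneg.2 ht.2
  rw [Real.norm_eq_abs, abs_div, abs_mul, abs_pow, abs_of_nonneg h1, Nat.abs_cast]
  have h2 := hB t ⟨ht.1.le, ht.2⟩
  have h3 : (T - t) ^ J ≤ T ^ J := pow_le_pow_left₀ h1 (by linarith [ht.1]) J
  gcongr
  exact (abs_nonneg _).trans h2

/-- **Taylor expansion along the linear path** -/
theorem taylor_ipl (hw : Wt w) (L : List (IL Ω)) (h : Ω → ℝ) {c : ℝ}
    (hc : ∀ y, iD L L.length y y = c) (s : Sh) (F : (s.Lf → Ω) → ℝ) {T : ℝ}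
    (hT : T ∈ Icc (0 : ℝ) 1) (J : ℕ) :
    TE w s (ipl L T) h F = ∑ n ∈ Finset.range (J + 1), iDn w L h n s F 0 * T ^ n / n.factorial +
      ∫ t in (0 : ℝ)..T, iDn w L h (J + 1) s F t * (T - t) ^ J / J.factorial :=
  Cav22.taylor (f := fun n => iDn w L h n s F) (fun n => continuousOn_iDn hw L h n s F)
    (fun n _ ht => hasDerivAt_iDn hw L h hc ht n s F) hT J

/-! ### the cavity path -/

variable {w₁ : Ω → ℝ} {w₂ : S → ℝ}

theorem prd_cav (z : Lv S) {L : List (CL Ω S)} (hv : ∀ c ∈ L, 0 ≤ c.v) :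
    List.Forall₂ Prd (cav z L 0) (L.map fun c => (c.b, c.sl z)) := by
  rw [cav, ipl_eq, List.map_map]
  refine Lin22.forall₂_map _ _ L fun c hc => ⟨rfl, rfl, fun x y => ?_⟩
  refine (CL.cov_at z (hv c hc) ⟨le_rfl, zero_le_one⟩ x y).trans ?_
  simp only [CL.sl_cov z (hv c hc)]
  ring

theorem X_cav_zero (h₁ : Wt w₁) (h₂ : Wt w₂) (z : Lv S) {L : List (CL Ω S)}
    (hv : ∀ c ∈ L, 0 ≤ c.v) (z₁ : Ω → ℝ) (z₂ : S → ℝ) :
    X (pw2 w₁ w₂) (cav z L 0) (ad z₁ z₂) = X w₁ (L.map CL.b) z₁ + X w₂ (L.map (CL.sl z)) z₂ := by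
  simpa only [List.map_map, Function.comp_def] using Law.X_prd h₁ h₂ (prd_cav z hv) z₁ z₂

theorem TE_cav_zero (h₁ : Wt w₁) (h₂ : Wt w₂) (z : Lv S) {L : List (CL Ω S)}
    (hv : ∀ c ∈ L, 0 ≤ c.v) (z₁ : Ω → ℝ) (z₂ : S → ℝ) (s : Sh) (G : (s.Lf → Ω) → ℝ)
    (ξ : (s.Lf → S) → ℝ) : TE (pw2 w₁ w₂) s (cav z L 0) (ad z₁ z₂) (tens G ξ) =
      TE w₁ s (L.map CL.b) z₁ G * TE w₂ s (L.map (CL.sl z)) z₂ ξ := by
  have := Law.TE_prd h₁ h₂ s (prd_cav z hv) G ξ z₁ z₂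
  rw [List.map_map, List.map_map] at this
  exact this

/-- the Taylor coefficients at the decoupled endpoint:
`∑ c · E_bulk [G ∏ U / 2] · E_site [ξ ∏ z]` -/
def cavC (w₁ : Ω → ℝ) (w₂ : S → ℝ) (z : Lv S) (L : List (CL Ω S)) (z₁ : Ω → ℝ) (z₂ : S → ℝ) :=
  itB (-1) (L.map CL.b) (fun j x y => 1 / 2 * cU L j x y) (fun _ => z.cov)
    fun s G ξ => TE w₁ s (L.map CL.b) z₁ G * TE w₂ s (L.map (CL.sl z)) z₂ ξ

/-- the derivatives along the cavity path in product form -/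
theorem iDn_cav (w : Ω × S → ℝ) (z : Lv S) {L : List (CL Ω S)} (hv : ∀ c ∈ L, 0 ≤ c.v)
    (h : Ω × S → ℝ) (n : ℕ) (s : Sh) (G : (s.Lf → Ω) → ℝ) (ξ : (s.Lf → S) → ℝ) (t : ℝ) :
    iDn w (L.map (CL.il z)) h n s (tens G ξ) t =
      itB (-1) (L.map CL.b) (fun j x y => 1 / 2 * cU L j x y) (fun _ => z.cov)
        (fun s G ξ => TE w s (cav z L t) h (tens G ξ)) n s G ξ := by
  rw [iDn, ← itE_tens, itE_tilt (-1) (M' := L.map CL.b) (by simp only [List.map_map]; rfl)]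
  simp only [iD_cav z hv, mul_assoc, cav]

theorem iDn_cav_zero (h₁ : Wt w₁) (h₂ : Wt w₂) (z : Lv S) {L : List (CL Ω S)}
    (hv : ∀ c ∈ L, 0 ≤ c.v) (z₁ : Ω → ℝ) (z₂ : S → ℝ) (n : ℕ) (s : Sh) (G : (s.Lf → Ω) → ℝ)
    (ξ : (s.Lf → S) → ℝ) : iDn (pw2 w₁ w₂) (L.map (CL.il z)) (ad z₁ z₂) n s (tens G ξ) 0 =
      cavC w₁ w₂ z L z₁ z₂ n s G ξ := by
  simp only [iDn_cav _ z hv, TE_cav_zero h₁ h₂ z hv, cavC]

/-- **the cavity expansion** -/
theorem taylor_cav (h₁ : Wt w₁) (h₂ : Wt w₂) (z : Lv S) {L : List (CL Ω S)}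
    (hv : ∀ c ∈ L, 0 ≤ c.v) {c ζ : ℝ} (hc : ∀ y, cU L L.length y y = c) (hz : ∀ e, z.cov e e = ζ)
    (z₁ : Ω → ℝ) (z₂ : S → ℝ) (s : Sh) (G : (s.Lf → Ω) → ℝ) (ξ : (s.Lf → S) → ℝ) {T : ℝ}
    (hT : T ∈ Icc (0 : ℝ) 1) (J : ℕ) :
    TE (pw2 w₁ w₂) s (cav z L T) (ad z₁ z₂) (tens G ξ) =
      ∑ n ∈ Finset.range (J + 1), cavC w₁ w₂ z L z₁ z₂ n s G ξ * T ^ n / n.factorial +
      ∫ t in (0 : ℝ)..T, iDn (pw2 w₁ w₂) (L.map (CL.il z)) (ad z₁ z₂) (J + 1) s (tens G ξ) t *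
        (T - t) ^ J / J.factorial := by
  simp only [← iDn_cav_zero h₁ h₂ z hv]
  exact taylor_ipl (Law.wt_pw2 h₁ h₂) _ _ (c := c * ζ)
    (fun y => by rw [iD_cav z hv, List.length_map, hc, hz]) s _ hT J

end Crest.Agent.T156.Cas

end
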