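import Crest.Agent.T156.FlowC_26
import Crest.Agent.T156.Crv_56
import Crest.Agent.T156.Clo_5

/-!
# Row 156: the chain `SK n → model n → model n' → SK n'` gives the closure hypothesis (helper26)

All comparisons are asked in absolute units, on a window `[a₀, a₁]` of root tilts, under a bound
`Wb` for `Wd` on that window.
-/

set_option autoImplicit false
set_option linter.unusedSectionVars false

noncomputable section

namespace Crest.Agent.T156.Cas.Chain26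

open MeasureTheory Real Set Filter Topology
open Crest.Agent.T157.E Crest.Agent.T157.Casc Crest.Agent.T157.SL
open Crest.Agent.T156.Soft Crest.Agent.T156.Soft.Fin26 Crest.Agent.T156.Cas.Flow26

/-! ### paths -/

/-- integration of a bound for the right derivative (breakpoints are allowed) -/
theorem path_le {F d g : ℝ → ℝ} {t₀ t₁ e : ℝ} (hF : ContinuousOn F (Icc t₀ t₁))
    (hd : ∀ t ∈ Ioo t₀ t₁, HasDerivWithinAt F (d t) (Ioi t) t)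
    (hb : ∀ t ∈ Ioo t₀ t₁, |d t| ≤ g t) (hg : IntegrableOn g (Icc t₀ t₁))
    (he : ∫ t in t₀..t₁, g t ≤ e) : ∀ t ∈ Icc t₀ t₁, |F t - F t₀| ≤ e := by
  intro t ht
  have sub : Icc t₀ t ⊆ Icc t₀ t₁ := Icc_subset_Icc_right ht.2
  have sub' : Ioo t₀ t ⊆ Ioo t₀ t₁ := Ioo_subset_Ioo_right ht.2
  have h1 := intervalIntegral.sub_le_integral_of_hasDeriv_right_of_le ht.1 (hF.mono sub)
    (fun x hx => hd x (sub' hx)) (hg.mono_set sub) fun x hx => (le_abs_self _).trans (hb x (sub' hx))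
  have h2 := intervalIntegral.sub_le_integral_of_hasDeriv_right_of_le (g := fun x => -F x)
    (g' := fun x => -d x) ht.1 (hF.mono sub).neg (fun x hx => (hd x (sub' hx)).neg)
    (hg.mono_set sub) fun x hx => (neg_le_abs _).trans (hb x (sub' hx))
  have h01 : t₀ ≤ t₁ := ht.1.trans ht.2
  have i1 : IntervalIntegrable g volume t₀ t :=
    (intervalIntegrable_iff_integrableOn_Icc_of_le ht.1).2 (hg.mono_set sub)
  have i2 : IntervalIntegrable g volume t t₁ :=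
    (intervalIntegrable_iff_integrableOn_Icc_of_le ht.2).2
      (hg.mono_set (Icc_subset_Icc_left ht.1))
  have h3 := intervalIntegral.integral_add_adjacent_intervals i1 i2
  have h4 : 0 ≤ ∫ x in t..t₁, g x := by
    rw [intervalIntegral.integral_of_le ht.2, integral_Ioc_eq_integral_Ioo]
    exact setIntegral_nonneg measurableSet_Ioo fun x hx =>
      (abs_nonneg _).trans (hb x ⟨ht.1.trans_lt hx.1, hx.2⟩)
  rw [abs_le]
  constructor <;> linarith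

/-- a bound `c / (t + ε)`-type costs a logarithm -/
theorem path_log {F d : ℝ → ℝ} {t₀ t₁ c : ℝ} (h0 : 0 < t₀) (h01 : t₀ ≤ t₁)
    (hF : ContinuousOn F (Icc t₀ t₁))
    (hd : ∀ t ∈ Ioo t₀ t₁, HasDerivWithinAt F (d t) (Ioi t) t)
    (hb : ∀ t ∈ Ioo t₀ t₁, |d t| ≤ c / t) : ∀ t ∈ Icc t₀ t₁, |F t - F t₀| ≤ c * log (t₁ / t₀) := by
  refine path_le (g := fun t => c / t) hF hd hb
    ((continuousOn_const.div continuousOn_id fun x hx => (h0.trans_le hx.1).ne').integrableOn_Icc)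
    (le_of_eq ?_)
  simp only [div_eq_mul_inv c]
  rw [intervalIntegral.integral_const_mul, integral_inv_of_pos h0 (h0.trans_le h01)]

/-! ### the curvature on the window -/

variable {Ω : Type} [Fintype Ω] {w : Ω → ℝ}

theorem Wd_add (l : Lv Ω) (L : List (Lv Ω)) (h : Ω → ℝ) (a b c : ℝ) :
    Wd w l L h a b + Wd w l L h b c = Wd w l L h a c := by
  unfold Wd; ring

theorem Wd_mono (hw : Wt w) (l : Lv Ω) (L : List (Lv Ω)) (h : Ω → ℝ) {a₀ a a' a₁ : ℝ} (h0 : a₀ ≤ a)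
    (h1 : a' ≤ a₁) : Wd w l L h a a' ≤ Wd w l L h a₀ a₁ := by
  have := Wd_nonneg hw l L h h0
  have := Wd_nonneg hw l L h h1
  unfold Wd at *
  linarith

/-- the window may start a little below the base point `b` -/
theorem Wd_le_win (hw : Wt w) (l : Lv Ω) (L : List (Lv Ω)) (h : Ω → ℝ) {a₀ a₁ b b' D : ℝ}
    (h0 : 0 < a₀) (h1 : a₀ ≤ b) (h2 : b ≤ 2 * a₀) (h3 : a₀ ≤ a₁) (h4 : 2 * a₁ ≤ b') (h5 : 2 * b ≤ b')
    (hD : X w (rt l b' :: L) h - X w (rt l b :: L) h ≤ D) : Wd w l L h a₀ a₁ ≤ 6 * D := by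
  have hF := lg_X hw L
  have b0 : 0 < b := h0.trans_le h1
  have k1 := W_le hw l L h h0 h3 (show a₁ < 2 * a₁ by linarith)
  rw [show 2 * a₁ / (2 * a₁ - a₁) = 2 by
    rw [show 2 * a₁ - a₁ = a₁ by ring]; field_simp [(h0.trans_le h3).ne']] at k1
  have k2 := X_rt_mono hw l L h h4
  have k3 := X_rt_mono hw l L h h5
  have t1 := Flow26.tan hF l h b a₀
  have t2 := Flow26.tan hF l h b (2 * b)
  have t3 := step_le_tE hF l h b0.le
  have e : ∀ a, step (rt l a) (X w L) h = X w (rt l a :: L) h := fun _ => rfl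
  simp only [e] at t1 t2 t3
  set E := tE (rt l b) (X w L) (X w L) h
  set Vb := X w (rt l b :: L) h
  set V0 := X w (rt l a₀ :: L) h
  set V2 := X w (rt l (2 * b) :: L) h
  have u1 : E - Vb ≤ 2 * (V2 - Vb) := le_of_mul_le_mul_left (by linarith) b0
  have u2 : Vb - V0 ≤ E - Vb := by
    refine le_of_mul_le_mul_left ?_ h0
    nlinarith [mul_nonneg (show 0 ≤ 2 * a₀ - b by linarith) (show 0 ≤ E - Vb by linarith)]
  unfold Wd
  linarith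

/-! ### the chain -/

/-- value of a model of size `m` at the root tilt `a` -/
abbrev Vv {m : ℕ} (l : Lv (Cube m)) (L : List (Lv (Cube m))) (a : ℝ) : ℝ :=
  X (fun _ => 1) (rt l a :: L) 0

/-- tilted mean of the root value -/
abbrev Ev {m : ℕ} (l : Lv (Cube m)) (L : List (Lv (Cube m))) (a : ℝ) : ℝ :=
  tE (rt l a) (X (fun _ => 1) L) (X (fun _ => 1) L) 0

/-- the defect of the flow in `n` -/
def Kv {m : ℕ} (l : Lv (Cube m)) (L : List (Lv (Cube m))) (l' : Lv (Cube (m + 1)))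
    (L' : List (Lv (Cube (m + 1)))) (a : ℝ) : ℝ :=
  Vv l' L' a - Vv l L a - Ev l L a / (6 * m)

/-- Models `(l m t, L m t)` of the sizes `n ≤ m ≤ n'`, `t ∈ T`; `t₀` is (almost) SK, the flow in `m`
runs at `t₁`.  Root tilts in `[a₀, A]`; `ε (Wb + E)` is the error when `Wd ≤ Wb` on the window. -/
structure Chn (β : ℝ) (n n' : ℕ) (a₀ A M ε E : ℝ) {ι : Type} (T : Set ι) (t₀ t₁ : ι)
    (l : ∀ m, ι → Lv (Cube m)) (L : ∀ m, ι → List (Lv (Cube m))) : Prop where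
  m0 : t₀ ∈ T
  m1 : t₁ ∈ T
  var : ∀ m, n ≤ m → m ≤ n' → ∀ t ∈ T, ∀ x, (l m t).cov x x ≤ M * m
  good : ∀ m, n ≤ m → m < n' → Good (fun _ => 1) (l m t₁) (L m t₁) 0 A (M * m)
  start : ∀ m, m = n ∨ m = n' → ∀ a₁ ∈ Icc a₀ A, ∀ Wb, 0 ≤ Wb →
    Wd (fun _ => 1) (l m t₀) (L m t₀) 0 a₀ a₁ ≤ Wb →
    Wd (fun _ => 1) (wl m β 1 1) [] 0 a₀ a₁ ≤ Wb → ∀ a ∈ Icc a₀ a₁, ∀ a' ∈ Icc a₀ a₁,
      |Vv (l m t₀) (L m t₀) a - Vv (l m t₀) (L m t₀) a' -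
        (Vv (wl m β 1 1) [] a - Vv (wl m β 1 1) [] a')| ≤ ε * (Wb + E)
  path : ∀ m, m = n ∨ m = n' → ∀ a₁ ∈ Icc a₀ A, ∀ Wb, 0 ≤ Wb →
    (∀ t ∈ T, Wd (fun _ => 1) (l m t) (L m t) 0 a₀ a₁ ≤ Wb) →
    ∀ a ∈ Icc a₀ a₁, ∀ a' ∈ Icc a₀ a₁, ∀ t ∈ T,
      |Vv (l m t) (L m t) a - Vv (l m t) (L m t) a' -
        (Vv (l m t₀) (L m t₀) a - Vv (l m t₀) (L m t₀) a')| ≤ ε * (Wb + E)
  flow : ∀ a₁ ∈ Icc a₀ A, ∀ Wb, 0 ≤ Wb →
    (∀ m, n ≤ m → m ≤ n' → Wd (fun _ => 1) (l m t₁) (L m t₁) 0 a₀ a₁ ≤ Wb) →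
    ∀ m, n ≤ m → m < n' → ∀ a ∈ Icc a₀ a₁, ∀ a' ∈ Icc a₀ a₁,
      |Kv (l m t₁) (L m t₁) (l (m + 1) t₁) (L (m + 1) t₁) a -
        Kv (l m t₁) (L m t₁) (l (m + 1) t₁) (L (m + 1) t₁) a'| ≤ ε * (Wb + E) / n

theorem wt1 (m : ℕ) : Wt (fun _ : Cube m => (1 : ℝ)) := ⟨fun _ => zero_le_one, by simp⟩

theorem wl_var {m : ℕ} (hm : 0 < m) (β : ℝ) (x : Cube m) :
    (wl m β 1 1).cov x x ≤ β ^ 2 / 2 * m := by
  rw [linkStmt.1 m β 1 1 x x hm zero_le_one]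
  have e : T157.G1.ov x x = 1 := by
    have hm' : (m : ℝ) ≠ 0 := by exact_mod_cast hm.ne'
    have : sv x ⬝ᵥ sv x = m := by
      simp only [dotProduct]
      rw [Finset.sum_congr rfl fun i _ => (show sv x i * sv x i = 1 by
        unfold sv ProbabilityR.SpinGlassDynamics.spin; cases x i <;> simp)]
      simp
    rw [T157.G1.ov, this, div_self hm']
  rw [e]
  exact le_of_eq (by ring)

theorem Good.anti {l : Lv Ω} {L : List (Lv Ω)} {h : Ω → ℝ} {a₁ A B : ℝ} (H : Good w l L h A B)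
    (ha : a₁ ≤ A) : Good w l L h a₁ B :=
  ⟨H.wt, Trf.mono_le H.mono ha, H.sym, H.var⟩

theorem tau_le {n m : ℕ} (hn : 1 ≤ n) (hm : n ≤ m) :
    (m : ℝ) ^ (-(1 : ℝ) / 6) ≤ (n : ℝ) ^ (-(1 : ℝ) / 6) :=
  Real.rpow_le_rpow_of_nonpos (by exact_mod_cast hn) (by exact_mod_cast hm) (by norm_num)

theorem tau_ge {n m : ℕ} (hm : 1 ≤ m) (hn : 1 ≤ n) (h : m ≤ 2 * n) :
    (n : ℝ) ^ (-(1 : ℝ) / 6) ≤ 2 * (m : ℝ) ^ (-(1 : ℝ) / 6) := by
  have n0 : (0 : ℝ) < n := by exact_mod_cast hn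
  have m0 : (0 : ℝ) < m := by exact_mod_cast hm
  have h1 : ((2 : ℝ) * n) ^ (-(1 : ℝ) / 6) ≤ (m : ℝ) ^ (-(1 : ℝ) / 6) :=
    Real.rpow_le_rpow_of_nonpos m0 (by exact_mod_cast h) (by norm_num)
  rw [Real.mul_rpow (by norm_num) n0.le] at h1
  have h2 : (2 : ℝ) ^ (-1 : ℝ) ≤ (2 : ℝ) ^ (-(1 : ℝ) / 6) :=
    Real.rpow_le_rpow_of_exponent_le (by norm_num) (by norm_num)
  rw [Real.rpow_neg_one] at h2
  have h3 := mul_le_mul_of_nonneg_right h2 (show 0 ≤ (n : ℝ) ^ (-(1 : ℝ) / 6) by positivity)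
  linarith

/-- a bound for the curve gives a bound for `Wd` on the common window -/
theorem Wd_of_crv {n n' m : ℕ} (hn : 1 ≤ n) (h1 : n ≤ m) (h2 : m ≤ n') (h3 : n' ≤ 2 * n)
    (l : Lv (Cube m)) (L : List (Lv (Cube m))) {s₁ u B : ℝ} (hs : 0 < s₁) (hu : s₁ ≤ u)
    (hB : crv m s₁ (fun _ => 1) l L 0 (4 * u) ≤ B) :
    Wd (fun _ => 1) l L 0 (s₁ * (n' : ℝ) ^ (-(1 : ℝ) / 6)) (u * (n : ℝ) ^ (-(1 : ℝ) / 6)) ≤
      12 * B / (n : ℝ) ^ (-(1 : ℝ) / 6) := by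
  have B0 : 0 ≤ B := (crv_nonneg (wt1 m) m l L 0 (by linarith)).trans hB
  have p1 := tau_le hn h1
  have p2 := tau_le (hn.trans h1) h2
  have p3 := tau_ge (hn.trans h1) hn (h2.trans h3)
  have p4 := tau_ge (hn.trans (h1.trans h2)) (hn.trans h1) (h3.trans (by omega))
  have m0 : (0 : ℝ) < (m : ℝ) ^ (-(1 : ℝ) / 6) :=
    rpow_pos_of_pos (by exact_mod_cast hn.trans h1) _
  have n0 : (0 : ℝ) < (n' : ℝ) ^ (-(1 : ℝ) / 6) :=
    rpow_pos_of_pos (by exact_mod_cast hn.trans (h1.trans h2)) _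
  unfold crv at hB
  generalize (m : ℝ) ^ (-(1 : ℝ) / 6) = τ at *
  generalize (n : ℝ) ^ (-(1 : ℝ) / 6) = σ at *
  generalize (n' : ℝ) ^ (-(1 : ℝ) / 6) = ρ at *
  have u0 : 0 < u := by linarith
  have k := Wd_le_win (wt1 m) l L 0 (a₀ := s₁ * ρ) (a₁ := u * σ) (b := s₁ * τ) (b' := 4 * u * τ)
    (D := B / τ) (by positivity) (by gcongr) (by nlinarith) (by gcongr; linarith) (by nlinarith)
    (by nlinarith [mul_pos u0 m0, mul_le_mul_of_nonneg_right hu m0.le])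
    (by rw [le_div_iff₀ m0]; linarith)
  refine k.trans ?_
  rw [← mul_div_assoc, div_le_div_iff₀ m0 (by linarith)]
  nlinarith

/-- **the chain gives the class hypothesis of the closure** (`l = 4`, `r = 1`) -/
theorem cls_of_chn {β s₁ c k C' D M : ℝ} {J n₀ : ℕ} (s1 : 1 ≤ s₁) (hc : 0 < c) (hc' : c ≤ 1 / 6)
    (hk : 0 < k) (hC : 0 ≤ C') (hJ : 1 + k ≤ c * J) (hD : 0 ≤ D) (hM : 0 ≤ M) (hn₀ : 1 ≤ n₀)
    (hA : ∀ n : ℕ, n₀ ≤ n → 4 ^ J * (n : ℝ) ^ k * (n : ℝ) ^ (-(1 : ℝ) / 6) ≤ 1)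
    (H : ∀ n n' : ℕ, n₀ ≤ n → n ≤ n' → n' ≤ 2 * n → ∀ s ∈ Icc s₁ ((n : ℝ) ^ k),
      ∃ (ι : Type) (T : Set ι) (t₀ t₁ : ι) (l : ∀ m, ι → Lv (Cube m))
        (L : ∀ m, ι → List (Lv (Cube m))),
        Chn β n n' (s₁ * (n' : ℝ) ^ (-(1 : ℝ) / 6)) (4 ^ J * s * (n : ℝ) ^ (-(1 : ℝ) / 6)) M
          (D * (n : ℝ) ^ (-c)) ((n : ℝ) ^ ((1 : ℝ) / 6) * s ^ C') T t₀ t₁ l L) :
    Cls (fun n => Ln n β s₁) s₁ 4 (M + β ^ 2) 1 (72 * D + 4 * M) c k C' J n₀ := by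
  have sp : 0 < s₁ := by linarith
  have lnc : ∀ m : ℕ, 0 < m → ∀ u, s₁ ≤ u →
      Ln m β s₁ u = crv m s₁ (fun _ => 1) (wl m β 1 1) [] 0 u := fun m hm u hu =>
    Ln_eq_crv hm β 1 sp.ne' (by linarith)
  have triv : ∀ (m : ℕ) (l : Lv (Cube m)) (L : List (Lv (Cube m))) (K : ℝ), 0 < m → 0 ≤ K →
      (∀ x, l.cov x x ≤ K * m) → ∀ u, s₁ ≤ u → crv m s₁ (fun _ => 1) l L 0 u ≤ K / 2 * u * m := by
    intro m l L K hm hK hv u hu
    refine (crv_le' (wt1 m) hm l L 0 (by positivity) hv hu).trans ?_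
    nlinarith [mul_nonneg sp.le (show 0 ≤ K * m by positivity)]
  refine ⟨s1, by norm_num, hc, hk, zero_le_one, hC, hJ, fun n hn s hs => ?_,
    fun n n' hn h1 h2 s hs => ?_⟩
  · have n0 : 0 < n := by omega
    rw [lnc n n0 s hs, rpow_one]
    refine (triv n _ _ _ n0 (by positivity) (wl_var n0 β) s hs).trans ?_
    have : 0 < s := by linarith
    gcongr
    nlinarith [sq_nonneg β]
  obtain ⟨ι, T, t₀, t₁, l, L, h⟩ := H n n' hn h1 h2 s hs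
  have n1 : 1 ≤ n := hn₀.trans hn
  have n0 : 0 < n := n1
  have n0' : 0 < n' := by omega
  have nR : (1 : ℝ) ≤ n := by exact_mod_cast n1
  have nR' : (n' : ℝ) ≤ 2 * n := by exact_mod_cast h2
  set cv : ∀ m, ι → ℝ → ℝ := fun m t => crv m s₁ (fun _ => 1) (l m t) (L m t) 0 with hcv
  refine ⟨{f | f = (fun u => Ln n β s₁ u) ∨ f = (fun u => Ln n' β s₁ u) ∨
      (∃ t ∈ T, f = cv n t ∨ f = cv n' t) ∨ ∃ m, n ≤ m ∧ m ≤ n' ∧ f = cv m t₁},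
    Or.inr (Or.inl rfl), ?_, ?_⟩
  · have tr : ∀ m, n ≤ m → m ≤ n' → ∀ t ∈ T, ∀ u, s₁ ≤ u → cv m t u ≤ (M + β ^ 2) * u * n := by
      intro m a1 a2 t ht u hu
      refine (triv m _ _ _ (by omega) hM (h.var m a1 a2 t ht) u hu).trans ?_
      have mR : (m : ℝ) ≤ 2 * n := by exact_mod_cast a2.trans h2
      have u0 : 0 < u := by linarith
      nlinarith [mul_nonneg (mul_nonneg hM u0.le) (sub_nonneg.2 mR),
        mul_nonneg (mul_nonneg (sq_nonneg β) u0.le) (show (0 : ℝ) ≤ n by linarith)]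
    have ts : ∀ m, n ≤ m → m ≤ n' → ∀ u, s₁ ≤ u → Ln m β s₁ u ≤ (M + β ^ 2) * u * n := by
      intro m a1 a2 u hu
      have m0 : 0 < m := by omega
      rw [lnc m m0 u hu]
      refine (triv m _ _ _ m0 (by positivity) (wl_var m0 β) u hu).trans ?_
      have mR : (m : ℝ) ≤ 2 * n := by exact_mod_cast a2.trans h2
      have u0 : 0 < u := by linarith
      nlinarith [mul_nonneg (mul_nonneg (sq_nonneg β) u0.le) (sub_nonneg.2 mR),
        mul_nonneg (mul_nonneg hM u0.le) (show (0 : ℝ) ≤ n by linarith),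
        mul_nonneg (mul_nonneg (sq_nonneg β) u0.le) (show (0 : ℝ) ≤ n by linarith)]
    rintro f (rfl | rfl | ⟨t, ht, rfl | rfl⟩ | ⟨m, a1, a2, rfl⟩) u hu <;> rw [rpow_one]
    exacts [ts n le_rfl h1 u hu.1, ts n' h1 le_rfl u hu.1, tr n le_rfl h1 t ht u hu.1,
      tr n' h1 le_rfl t ht u hu.1, tr m a1 a2 t₁ h.m1 u hu.1]
  intro u hu B B0 hB
  set σ := (n : ℝ) ^ (-(1 : ℝ) / 6) with hσ
  set ρ := (n' : ℝ) ^ (-(1 : ℝ) / 6) with hρ
  have σ0 : 0 < σ := rpow_pos_of_pos (by linarith) _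
  have ρ0 : 0 < ρ := rpow_pos_of_pos (by exact_mod_cast n0') _
  have ρσ : ρ ≤ σ := tau_le n1 h1
  have u0 : 0 < u := by linarith [hu.1]
  have u4 : 4 * u ∈ Icc s₁ (4 * u) := ⟨by linarith [hu.1], le_rfl⟩
  have a1m : u * σ ∈ Icc (s₁ * ρ) (4 ^ J * s * σ) :=
    ⟨by gcongr; exact hu.1, mul_le_mul_of_nonneg_right hu.2 σ0.le⟩
  set Wb := 12 * B / σ with hWb
  have W0 : 0 ≤ Wb := by positivity
  set ε := D * (n : ℝ) ^ (-c) with hε
  have ε0 : 0 ≤ ε := by positivity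
  set E := (n : ℝ) ^ ((1 : ℝ) / 6) * s ^ C' with hE
  have s0 : 0 < s := by linarith [hs.1]
  have E0 : 0 ≤ E := by positivity
  have e0 : 0 ≤ ε * (Wb + E) := by positivity
  have sC : 1 ≤ s ^ C' := Real.one_le_rpow (s1.trans hs.1) hC
  have σE : σ * E = s ^ C' := by
    rw [hE, ← mul_assoc, hσ, ← Real.rpow_add (by linarith)]
    norm_num
  have σe : σ * (ε * (Wb + E)) ≤ 12 * ε * (B + s ^ C') := by
    have : σ * (ε * (Wb + E)) = ε * (12 * B + s ^ C') := by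
      rw [← σE, hWb]; field_simp
    rw [this]
    nlinarith [mul_nonneg ε0 (show 0 ≤ s ^ C' by linarith)]
  have wd : ∀ m, n ≤ m → m ≤ n' → ∀ (l' : Lv (Cube m)) (L' : List (Lv (Cube m))),
      crv m s₁ (fun _ => 1) l' L' 0 (4 * u) ≤ B →
      Wd (fun _ => 1) l' L' 0 (s₁ * ρ) (u * σ) ≤ Wb := fun m a1 a2 l' L' hb =>
    Wd_of_crv n1 a1 a2 h2 l' L' sp hu.1 hb
  -- from absolute differences to curves
  have cmp : ∀ m, n ≤ m → m ≤ n' → ∀ (l' l'' : Lv (Cube m)) (L' L'' : List (Lv (Cube m))),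
      (∀ a ∈ Icc (s₁ * ρ) (u * σ), ∀ a' ∈ Icc (s₁ * ρ) (u * σ),
        |Vv l' L' a - Vv l' L' a' - (Vv l'' L'' a - Vv l'' L'' a')| ≤ ε * (Wb + E)) →
      |crv m s₁ (fun _ => 1) l' L' 0 u - crv m s₁ (fun _ => 1) l'' L'' 0 u| ≤
        12 * ε * (B + s ^ C') := by
    intro m a1 a2 l' l'' L' L'' hb
    have p1 : (m : ℝ) ^ (-(1 : ℝ) / 6) ≤ σ := tau_le n1 a1
    have p2 : ρ ≤ (m : ℝ) ^ (-(1 : ℝ) / 6) := tau_le (n1.trans a1) a2
    have k := hb (u * (m : ℝ) ^ (-(1 : ℝ) / 6)) ⟨by gcongr; exact hu.1, by gcongr⟩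
      (s₁ * (m : ℝ) ^ (-(1 : ℝ) / 6)) ⟨by gcongr, by gcongr; exact hu.1⟩
    unfold crv
    rw [← mul_sub, abs_mul, abs_of_nonneg (ρ0.le.trans p2)]
    exact (mul_le_mul p1 k (abs_nonneg _) σ0.le).trans σe
  have mem : ∀ m, m = n ∨ m = n' → n ≤ m ∧ m ≤ n' := by
    rintro m (rfl | rfl)
    exacts [⟨le_rfl, h1⟩, ⟨h1, le_rfl⟩]
  have wT : ∀ m, m = n ∨ m = n' → ∀ t ∈ T, Wd (fun _ => 1) (l m t) (L m t) 0 (s₁ * ρ) (u * σ) ≤ Wb := by
    intro m hm t ht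
    refine wd m (mem m hm).1 (mem m hm).2 _ _ (hB (cv m t) (Or.inr (Or.inr (Or.inl ⟨t, ht, ?_⟩))) _ u4)
    rcases hm with rfl | rfl
    exacts [Or.inl rfl, Or.inr rfl]
  have c1 : ∀ m, m = n ∨ m = n' → |cv m t₀ u - Ln m β s₁ u| ≤ 12 * ε * (B + s ^ C') := by
    intro m hm
    obtain ⟨a1, a2⟩ := mem m hm
    have m0 : 0 < m := by omega
    rw [lnc m m0 u hu.1]
    refine cmp m a1 a2 _ _ _ _ (h.start m hm _ a1m Wb W0 (wT m hm t₀ h.m0) (wd m a1 a2 _ _ ?_))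
    rw [← lnc m m0 _ u4.1]
    refine hB (fun u => Ln m β s₁ u) ?_ _ u4
    rcases hm with rfl | rfl
    exacts [Or.inl rfl, Or.inr (Or.inl rfl)]
  have c2 : ∀ m, m = n ∨ m = n' → ∀ t ∈ T, |cv m t u - cv m t₀ u| ≤ 12 * ε * (B + s ^ C') :=
    fun m hm t ht => cmp m (mem m hm).1 (mem m hm).2 _ _ _ _ fun a ha a' ha' =>
      h.path m hm _ a1m Wb W0 (wT m hm) a ha a' ha' t ht
  have c3 : ∀ m, n ≤ m → m ≤ n' →
      |cv m t₁ u - cv n t₁ u| ≤ (24 * D + 4 * M) * (n : ℝ) ^ (-c) * (B + s ^ C') := by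
    intro m a1 a2
    have fl := flowT_of_good (w := fun m _ => 1) (l := fun m => l m t₁) (L := fun m => L m t₁)
      (h := fun _ => 0) (κ := fun m => Kv (l m t₁) (L m t₁) (l (m + 1) t₁) (L (m + 1) t₁) (s₁ * ρ))
      (n := n) (n' := n') (a₀ := s₁ * ρ) (a₁ := u * σ) (M := M) (e := ε * (Wb + E) / n)
      (by positivity) (fun m b1 b2 => Good.anti (h.good m b1 b2) a1m.2)
      (fun m b1 b2 a ha => h.flow _ a1m Wb W0 (fun m' d1 d2 => wd m' d1 d2 _ _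
        (hB (cv m' t₁) (Or.inr (Or.inr (Or.inr ⟨m', d1, d2, rfl⟩))) _ u4)) m b1 b2 a ha _
        ⟨le_rfl, a1m.1⟩)
    have k := flowT_tele fl n1 h2 hM (by positivity) (by positivity) sp hu.1 le_rfl le_rfl a1 a2
    refine le_trans k ?_
    rw [mul_div_cancel₀ _ (show (n : ℝ) ≠ 0 by linarith), ← hσ]
    have a3 : u * σ ≤ 1 := a1m.2.trans (le_trans (by gcongr; exact hs.2) (hA n hn))
    have a4 : σ ≤ (n : ℝ) ^ (-c) := Real.rpow_le_rpow_of_exponent_le nR (by linarith)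
    have a5 : σ * (M * (1 + u * σ)) ≤ (n : ℝ) ^ (-c) * (M * 2) * (B + s ^ C') :=
      le_trans (by gcongr; linarith) (le_mul_of_one_le_right (by positivity) (by linarith))
    have a6 : (24 * D + 4 * M) * (n : ℝ) ^ (-c) * (B + s ^ C') =
      2 * (12 * ε * (B + s ^ C') + (n : ℝ) ^ (-c) * (M * 2) * (B + s ^ C')) := by rw [hε]; ring
    rw [a6, mul_add σ]
    linarith
  have tot : (72 * D + 4 * M) * (n : ℝ) ^ (-c) * (B + s ^ C') =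
      4 * (12 * ε * (B + s ^ C')) + (24 * D + 4 * M) * (n : ℝ) ^ (-c) * (B + s ^ C') := by
    rw [hε]; ring
  have q0 : 0 ≤ 12 * ε * (B + s ^ C') := by positivity
  have q1 : 0 ≤ (24 * D + 4 * M) * (n : ℝ) ^ (-c) * (B + s ^ C') := by positivity
  have d1 := abs_le.1 (c1 n (Or.inl rfl))
  have d2 := abs_le.1 (c1 n' (Or.inr rfl))
  have d3 := abs_le.1 (c2 n (Or.inl rfl) t₁ h.m1)
  have d4 := abs_le.1 (c2 n' (Or.inr rfl) t₁ h.m1)
  have d5 := abs_le.1 (c3 n' h1 le_rfl)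
  rw [tot]
  rintro f (rfl | rfl | ⟨t, ht, rfl | rfl⟩ | ⟨m, a1, a2, rfl⟩)
  · simp only [sub_self, abs_zero]
    linarith
  · rw [abs_le]
    constructor <;> linarith [d1.1, d1.2, d2.1, d2.2, d3.1, d3.2, d4.1, d4.2, d5.1, d5.2]
  · have d6 := abs_le.1 (c2 n (Or.inl rfl) t ht)
    rw [abs_le]
    constructor <;> linarith [d1.1, d1.2, d6.1, d6.2]
  · have d6 := abs_le.1 (c2 n' (Or.inr rfl) t ht)
    rw [abs_le]
    constructor <;> linarith [d1.1, d1.2, d3.1, d3.2, d4.1, d4.2, d5.1, d5.2, d6.1, d6.2]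
  · have d6 := abs_le.1 (c3 m a1 a2)
    rw [abs_le]
    constructor <;> linarith [d1.1, d1.2, d3.1, d3.2, d6.1, d6.2]

/-- **the chain and a lower bound for the SK curve give `Key`** -/
theorem key_of_chn {β s₁ c k C' D M q c₀ : ℝ} {n₀ : ℕ} (s1 : 1 ≤ s₁) (hc : 0 < c) (hc' : c ≤ 1 / 6)
    (hk : 0 < k) (hk' : k < 1 / 6) (hC : 0 ≤ C') (hD : 0 ≤ D) (hM : 0 ≤ M)
    (H : ∀ J : ℕ, ∃ n₁ : ℕ, ∀ n n' : ℕ, n₁ ≤ n → n ≤ n' → n' ≤ 2 * n → ∀ s ∈ Icc s₁ ((n : ℝ) ^ k),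
      ∃ (ι : Type) (T : Set ι) (t₀ t₁ : ι) (l : ∀ m, ι → Lv (Cube m))
        (L : ∀ m, ι → List (Lv (Cube m))),
        Chn β n n' (s₁ * (n' : ℝ) ^ (-(1 : ℝ) / 6)) (4 ^ J * s * (n : ℝ) ^ (-(1 : ℝ) / 6)) M
          (D * (n : ℝ) ^ (-c)) ((n : ℝ) ^ ((1 : ℝ) / 6) * s ^ C') T t₀ t₁ l L)
    (hq : k * (C' - q) < c) (h0 : 0 < c₀)
    (hlb : ∀ δ : ℝ, 0 < δ → δ ≤ 1 → ∃ᶠ n : ℕ in atTop,
      c₀ * (δ * (n : ℝ) ^ k) ^ q ≤ Ln n β s₁ (δ * (n : ℝ) ^ k)) : Key β := by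
  obtain ⟨J, hJ⟩ := exists_nat_ge ((1 + k) / c)
  obtain ⟨n₁, h₁⟩ := H J
  obtain ⟨n₂, h₂⟩ := eventually_atTop.1 ((ev_small (c := 1 / 6 - k) (by linarith) (4 ^ J) 1
    one_pos).and (eventually_ge_atTop 1))
  refine key_of_cls' (cls_of_chn (J := J) (n₀ := max (max n₁ n₂) 1) s1 hc hc' hk hC
    (by rwa [div_le_iff₀' hc] at hJ) hD hM (le_max_right _ _) (fun n hn => ?_)
    fun n n' hn => h₁ n n' ((le_max_left _ _).trans ((le_max_left _ _).trans hn))) hq h0 hlb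
  obtain ⟨a1, a2⟩ := h₂ n ((le_max_right _ _).trans ((le_max_left _ _).trans hn))
  rw [mul_assoc, ← Real.rpow_add (by exact_mod_cast a2), show k + -(1 : ℝ) / 6 = -(1 / 6 - k) by ring]
  exact a1

end Crest.Agent.T156.Cas.Chain26

end
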