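import Crest.Agent.T156.CakeS_64
import Crest.Agent.T156.Sun_9

/-!
# Row 156 (helper16): the label clock between two good nodes (rising sun and layer cake)
-/

set_option autoImplicit false

noncomputable section

namespace Crest.Agent.T156.Alt.Ck16

open Real Finset

/-- the data: `p`, `q` are good towards the outside, the size is known on cones -/
structure CK (r dz u h : ℕ → ℝ) (a p q b : ℕ) (v C k0 w Λ : ℝ) : Prop where
  rm : Monotone r
  pq : p ≤ q
  v0 : 0 < v
  C0 : 0 ≤ C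
  dz : ∀ y, p < y → y < q → 0 ≤ dz y ∧ dz y ≤ C * v
  k00 : 0 < k0
  w0 : 0 < w
  Λ0 : 0 < Λ
  h0 : ∀ y, p < y → y < q → 0 ≤ h y
  u0 : ∀ y, p < y → y < q → 0 ≤ u y
  lo : ∀ i, a ≤ i → i ≤ p → r p - r i ≤ k0 * (((p : ℝ) - i) * v)
  hi : ∀ i, q ≤ i → i ≤ b → r i - r q ≤ k0 * (((i : ℝ) - q) * v)
  sz : ∀ y, p < y → y < q → ∀ k e, k0 ≤ k → k ≤ max k0 (8 * ((r q - r p) / w) ^ ((3 : ℝ) / 2)) →
    0 ≤ e → e ≤ r q - r p → (∀ i, a ≤ i → i ≤ b → |r i - r y| ≤ e + k * (|(i : ℝ) - y| * v)) →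
    u y ≤ Λ * (k ^ ((2 : ℝ) / 3) * w + e + h y)

variable {r dz u h : ℕ → ℝ} {a p q b : ℕ} {v C k0 w Λ : ℝ}

theorem CK.cone (H : CK r dz u h a p q b v C k0 w Λ) {y : ℕ} (h1 : p < y) (h2 : y < q) {k e : ℝ}
    (hk : k0 ≤ k) (hin : ∀ i, p ≤ i → i ≤ q → |r i - r y| ≤ e + k * (|(i : ℝ) - y| * v))
    (i : ℕ) (ha : a ≤ i) (hb : i ≤ b) : |r i - r y| ≤ e + k * (|(i : ℝ) - y| * v) := by
  have v0 := H.v0
  have p1 : (p : ℝ) ≤ y := by exact_mod_cast h1.le
  have q1 : (y : ℝ) ≤ q := by exact_mod_cast h2.le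
  rcases le_total i p with c | c
  · have c1 : (i : ℝ) ≤ p := by exact_mod_cast c
    have e1 := hin p le_rfl H.pq
    have e2 := (H.lo i ha c).trans (mul_le_mul_of_nonneg_right hk (by nlinarith))
    rw [abs_of_nonpos (sub_nonpos.2 (H.rm h1.le)), abs_of_nonpos (by linarith)] at e1
    rw [abs_of_nonpos (sub_nonpos.2 (H.rm (c.trans h1.le))), abs_of_nonpos (by linarith)]
    linarith
  rcases le_total i q with d | d
  · exact hin i c d
  · have c1 : (q : ℝ) ≤ i := by exact_mod_cast d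
    have e1 := hin q H.pq le_rfl
    have e2 := (H.hi i d hb).trans (mul_le_mul_of_nonneg_right hk (by nlinarith))
    rw [abs_of_nonneg (sub_nonneg.2 (H.rm h2.le)), abs_of_nonneg (by linarith)] at e1
    rw [abs_of_nonneg (sub_nonneg.2 (H.rm (h2.le.trans d))), abs_of_nonneg (by linarith)]
    linarith

theorem pw8 (i : ℕ) {k : ℝ} (hk : 0 ≤ k) :
    ((8 : ℝ) ^ i * k) ^ ((2 : ℝ) / 3) = 4 ^ i * k ^ ((2 : ℝ) / 3) := by
  have e : (8 : ℝ) ^ ((2 : ℝ) / 3) = 4 := by
    rw [show (8 : ℝ) = 2 ^ (3 : ℝ) by norm_num, ← rpow_mul (by norm_num)]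
    norm_num
  rw [mul_rpow (by positivity) hk, ← rpow_natCast, ← rpow_mul (by norm_num), mul_comm (i : ℝ),
    rpow_mul (by norm_num), e, rpow_natCast]

open Classical in
/-- **any power** -/
theorem CK.pow (H : CK r dz u h a p q b v C k0 w Λ) (n : ℕ) :
    ∑ y ∈ Ioo p q, dz y * u y ^ (n + 2) ≤ 2 ^ (2 * n + 8) * C * Λ ^ (n + 2) *
      (((q : ℝ) - p) * v * (k0 ^ ((2 : ℝ) / 3) * w) ^ (n + 2) +
        (r q - r p) ^ (n + 1) * √((r q - r p) * w ^ 3)) +
      2 ^ (n + 1) * Λ ^ (n + 2) * ∑ y ∈ Ioo p q, dz y * h y ^ (n + 2) := by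
  have v0 := H.v0
  have C0 := H.C0
  have k00 := H.k00
  have w0 := H.w0
  have Λ0 := H.Λ0
  have R0 : 0 ≤ r q - r p := sub_nonneg.2 (H.rm H.pq)
  have pq : (0 : ℝ) ≤ (q : ℝ) - p := sub_nonneg.2 (by exact_mod_cast H.pq)
  obtain ⟨R, hR⟩ : ∃ R, R = r q - r p := ⟨_, rfl⟩
  obtain ⟨κ, hκ⟩ : ∃ κ, κ = k0 ^ ((2 : ℝ) / 3) := ⟨_, rfl⟩
  have κ0 : 0 < κ := hκ ▸ rpow_pos_of_pos k00 _
  rw [← hR] at R0 ⊢
  rw [← hκ]
  have cap : ∀ y ∈ Ioo p q, max (u y - Λ * h y) 0 ≤ Λ * (κ * w) + Λ * R := fun y hy => by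
    obtain ⟨h1, h2⟩ := mem_Ioo.1 hy
    have := H.sz y h1 h2 k0 R le_rfl (le_max_left _ _) R0 hR.le (H.cone h1 h2 le_rfl
      fun i c d => le_add_of_le_of_nonneg (abs_le.2
        ⟨by linarith [H.rm c, H.rm h2.le], by linarith [H.rm d, H.rm h1.le]⟩) (by positivity))
    rw [← hκ] at this
    exact max_le (by linarith) (by positivity)
  have K := Ck64.cakeR (Ioo p q) (w := dz) (u := fun y => max (u y - Λ * h y) 0)
    (good := fun i y => Sun9.Good (fun j => (j : ℝ) * v) r (8 ^ i * k0) p q y)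
    (α := Λ * (κ * w)) (R := Λ * R) (W := C * v * ((q : ℝ) - p)) (Y := 2 * C * R / k0)
    (fun y hy => (H.dz y (mem_Ioo.1 hy).1 (mem_Ioo.1 hy).2).1) (fun y _ => le_max_right _ _)
    (by positivity) (by positivity) (by positivity)
    ((sum_le_card_nsmul _ _ (C * v) fun y hy =>
      (H.dz y (mem_Ioo.1 hy).1 (mem_Ioo.1 hy).2).2).trans (by
        rw [nsmul_eq_mul, mul_comm, Nat.card_Ioo, ← Nat.cast_sub H.pq]
        exact mul_le_mul_of_nonneg_left (Nat.cast_le.2 (Nat.sub_le _ _)) (by positivity)))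
    (fun y hy i g => by
      obtain ⟨h1, h2⟩ := mem_Ioo.1 hy
      have i1 : k0 ≤ 8 ^ i * k0 := le_mul_of_one_le_left k00.le (one_le_pow₀ (by norm_num))
      rcases le_total (8 ^ i * k0) (max k0 (8 * (R / w) ^ ((3 : ℝ) / 2))) with c | c
      · have := H.sz y h1 h2 _ 0 i1 (hR ▸ c) le_rfl (hR ▸ R0) (H.cone h1 h2 i1 fun j c d => by
          rw [zero_add]
          rcases le_total j y with f | f
          · have f1 : (j : ℝ) ≤ y := by exact_mod_cast f
            rw [abs_of_nonpos (sub_nonpos.2 (H.rm f)), abs_of_nonpos (by linarith)]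
            have := g.2 j c f
            linarith
          · have f1 : (y : ℝ) ≤ j := by exact_mod_cast f
            rw [abs_of_nonneg (sub_nonneg.2 (H.rm f)), abs_of_nonneg (by linarith)]
            have := g.1 j f d
            linarith)
        rw [pw8 i k00.le, ← hκ] at this
        exact max_le (by linarith) (by positivity)
      · rcases i with _ | i
        · have := H.sz y h1 h2 k0 0 le_rfl (le_max_left _ _) le_rfl (hR ▸ R0)
            (H.cone h1 h2 le_rfl fun j c d => by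
              rw [zero_add]
              rw [pow_zero, one_mul] at g
              rcases le_total j y with f | f
              · have f1 : (j : ℝ) ≤ y := by exact_mod_cast f
                rw [abs_of_nonpos (sub_nonpos.2 (H.rm f)), abs_of_nonpos (by linarith)]
                have := g.2 j c f
                linarith
              · have f1 : (y : ℝ) ≤ j := by exact_mod_cast f
                rw [abs_of_nonneg (sub_nonneg.2 (H.rm f)), abs_of_nonneg (by linarith)]
                have := g.1 j f d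
                linarith)
          rw [← hκ] at this
          exact max_le (by linarith) (by positivity)
        · have c2 := rpow_le_rpow (by positivity) ((le_max_right _ _).trans c)
            (by norm_num : (0 : ℝ) ≤ 2 / 3)
          have c3 := pw8 1 (show 0 ≤ (R / w) ^ ((3 : ℝ) / 2) by positivity)
          rw [pow_one, pow_one, ← rpow_mul (by positivity), show (3 : ℝ) / 2 * (2 / 3) = 1 by
            norm_num, rpow_one] at c3
          rw [c3, pw8 _ k00.le, ← hκ, ← mul_div_assoc, div_le_iff₀ w0] at c2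
          have c4 : (1 : ℝ) ≤ 4 ^ i := one_le_pow₀ (by norm_num)
          have c5 := mul_le_mul_of_nonneg_left c2 Λ0.le
          have c6 := mul_le_mul_of_nonneg_right c4 (show 0 ≤ Λ * (κ * w) by positivity)
          refine (cap y hy).trans ?_
          rw [pow_succ] at c5 ⊢
          nlinarith)
    cap (fun i => by
      have cb := Sun9.card_bad (x := fun j => (j : ℝ) * v) (Λ := 8 ^ i * k0) H.rm (by positivity)
        H.pq (μ := v) fun j _ _ => by push_cast; linarith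
      refine (sum_le_card_nsmul _ _ (C * v) fun y hy => ?_).trans ?_
      · have := mem_Ioo.1 (mem_filter.1 hy).1
        exact (H.dz y this.1 this.2).2
      · have c1 : ((((Ioo p q).filter fun y => ¬Sun9.Good (fun j => (j : ℝ) * v) r (8 ^ i * k0) p q
            y).card : ℕ) : ℝ) ≤ (((Icc p q).filter fun y => ¬Sun9.Good (fun j => (j : ℝ) * v) r
            (8 ^ i * k0) p q y).card : ℕ) :=
          Nat.cast_le.2 (card_le_card (filter_subset_filter _ Ioo_subset_Icc_self))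
        have c2 := (mul_le_mul_of_nonneg_left c1 (show 0 ≤ 8 ^ i * k0 * v by positivity)).trans cb
        rw [nsmul_eq_mul, le_div_iff₀ (by positivity), le_div_iff₀ k00]
        have := mul_le_mul_of_nonneg_left c2 C0
        rw [← hR] at this
        linarith) n
  have s1 : ∑ y ∈ Ioo p q, dz y * u y ^ (n + 2) ≤ ∑ y ∈ Ioo p q,
      (2 ^ (n + 1) * (dz y * max (u y - Λ * h y) 0 ^ (n + 2)) +
        2 ^ (n + 1) * Λ ^ (n + 2) * (dz y * h y ^ (n + 2))) := sum_le_sum fun y hy => by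
    obtain ⟨h1, h2⟩ := mem_Ioo.1 hy
    have a1 := H.h0 y h1 h2
    have a2 := (pow_le_pow_left₀ (H.u0 y h1 h2) (show u y ≤ max (u y - Λ * h y) 0 + Λ * h y by
      linarith [le_max_left (u y - Λ * h y) 0]) (n + 2)).trans
      (add_pow_le (le_max_right _ _) (by positivity) (n + 2))
    refine (mul_le_mul_of_nonneg_left a2 (H.dz y h1 h2).1).trans_eq ?_
    rw [show n + 2 - 1 = n + 1 from rfl, mul_pow]
    ring
  rw [sum_add_distrib, ← mul_sum, ← mul_sum] at s1
  refine s1.trans (add_le_add_left ((mul_le_mul_of_nonneg_left K (by positivity)).trans ?_) _)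
  have e1 : κ * √κ = k0 := by
    rw [hκ, sqrt_eq_rpow, ← rpow_mul k00.le, ← rpow_add k00]
    norm_num
  have e2 : Λ * (κ * w) * √(Λ * (κ * w)) * √(Λ * R) = Λ ^ 2 * k0 * √(R * w ^ 3) := by
    rw [sqrt_mul Λ0.le, sqrt_mul Λ0.le, sqrt_mul κ0.le, sqrt_mul R0, pow_succ w 2,
      sqrt_mul (by positivity), sqrt_sq w0.le, ← e1]
    have := mul_self_sqrt Λ0.le
    calc _ = Λ * (√Λ * √Λ) * (κ * √κ) * (√R * (w * √w)) := by ring
      _ = _ := by rw [this]; ring
  have e3 : 2 * C * R / k0 * (Λ * (κ * w) * √(Λ * (κ * w)) * (√(Λ * R) * (Λ * R) ^ n)) =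
      2 * C * Λ ^ (n + 2) * (R ^ (n + 1) * √(R * w ^ 3)) := by
    rw [← mul_assoc (Λ * (κ * w) * _), e2, mul_pow]
    field_simp
    ring
  rw [e3, mul_pow Λ]
  have : 0 ≤ 2 ^ (2 * n) * C * Λ ^ (n + 2) * (((q : ℝ) - p) * v * (κ * w) ^ (n + 2)) := by
    positivity
  have e4 : (2 : ℝ) ^ (2 * n + 8) = 2 ^ (2 * n) * 256 := by rw [pow_add]; norm_num
  have e5 : (2 : ℝ) ^ (n + 1) * 2 ^ (n + 2) = 2 ^ (2 * n) * 8 := by
    rw [← pow_add, show n + 1 + (n + 2) = 2 * n + 3 by ring, pow_add]; norm_num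
  rw [← mul_assoc, e5, e4]
  nlinarith

/-- **the label clock** -/
theorem CK.two (H : CK r dz u h a p q b v C k0 w Λ) :
    ∑ y ∈ Ioo p q, dz y * u y ^ 2 ≤ 256 * C * Λ ^ 2 *
      (((q : ℝ) - p) * v * (k0 ^ ((2 : ℝ) / 3) * w) ^ 2 + (r q - r p) * √((r q - r p) * w ^ 3)) +
      2 * Λ ^ 2 * ∑ y ∈ Ioo p q, dz y * h y ^ 2 := by
  have := H.pow 0
  norm_num at this ⊢
  exact this

end Crest.Agent.T156.Alt.Ck16

end
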