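import Crest.Agent.T156.ClZb_9
import Crest.Agent.T156.ClReg_29
import Crest.Agent.T156.RigD_63

/-!
Row 156, ALT, text (L) (helper63): what an a priori bound of `∫ (rb - q)² dx` gives for a member of
the class: sup location of the nodes, sandwich of the profiles, area and `H⁻¹` sizes.
-/

set_option autoImplicit false

noncomputable section

namespace Crest.Agent.T156.Alt.Ap63

open Finset

/-! ### two monotone sequences -/

theorem tel (z : ℕ → ℝ) {p q : ℕ} (h : p ≤ q) : ∑ j ∈ Ioc p q, (z j - z (j - 1)) = z q - z p := by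
  induction q, h using Nat.le_induction with
  | base => simp
  | succ q h ih => rw [sum_Ioc_succ_top h, ih, Nat.add_sub_cancel]; ring

/-- the weighted sum -/
def Sx (z y : ℕ → ℝ) (lo hi i : ℕ) : ℝ := ∑ k ∈ Ioc lo hi, (z k - z (k - 1)) * |y k| ^ i

variable {z y f g : ℕ → ℝ} {lo hi : ℕ}

theorem w_nn (hz : Monotone z) (k : ℕ) : 0 ≤ z k - z (k - 1) := sub_nonneg.2 (hz (Nat.sub_le _ _))

theorem Sx_nn (hz : Monotone z) (i : ℕ) : 0 ≤ Sx z y lo hi i :=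
  sum_nonneg fun k _ => mul_nonneg (w_nn hz k) (by positivity)

theorem blk_le (hz : Monotone z) {p q : ℕ} (h1 : lo ≤ p) (h2 : p ≤ q) (h3 : q ≤ hi) {ρ : ℝ}
    (h0 : 0 ≤ ρ) (h : ∀ j, p < j → j ≤ q → ρ ≤ |y j|) (i : ℕ) :
    ρ ^ i * (z q - z p) ≤ Sx z y lo hi i := by
  rw [← tel z h2, mul_sum]
  calc _ ≤ ∑ k ∈ Ioc p q, (z k - z (k - 1)) * |y k| ^ i := sum_le_sum fun k hk => by
        rw [mul_comm]
        exact mul_le_mul_of_nonneg_left (pow_le_pow_left₀ h0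
          (h k (mem_Ioc.1 hk).1 (mem_Ioc.1 hk).2) i) (w_nn hz k)
    _ ≤ _ := sum_le_sum_of_subset_of_nonneg (Ioc_subset_Ioc h1 h3) fun k _ _ =>
        mul_nonneg (w_nn hz k) (by positivity)

/-- Cauchy-Schwarz, total weight at most one -/
theorem Sx_one (hz : Monotone z) (h : lo ≤ hi) (h1 : z hi - z lo ≤ 1) :
    Sx z y lo hi 1 ≤ √(Sx z y lo hi 2) := by
  refine Real.le_sqrt_of_sq_le ?_
  have := sum_sq_le_sum_mul_sum_of_sq_le_mul (Ioc lo hi) (r := fun k => (z k - z (k - 1)) * |y k| ^ 1)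
    (f := fun k => z k - z (k - 1)) (g := fun k => (z k - z (k - 1)) * |y k| ^ 2)
    (fun k _ => w_nn hz k) (fun k _ => mul_nonneg (w_nn hz k) (by positivity)) fun k _ => le_of_eq (by ring)
  rw [tel z h] at this
  have h2 := Sx_nn (y := y) (lo := lo) (hi := hi) hz 2
  unfold Sx at h2 ⊢
  nlinarith

theorem Sx_le (hz : Monotone z) (h : lo ≤ hi) (h1 : z hi - z lo ≤ 1) {y1 y2 : ℕ → ℝ} {c e : ℝ}
    (he : 0 ≤ e) (H : ∀ k, lo < k → k ≤ hi → |y k| ≤ c * |y1 k| + |y2 k| + e) :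
    Sx z y lo hi 1 ≤ c * Sx z y1 lo hi 1 + Sx z y2 lo hi 1 + e ∧
      Sx z y lo hi 2 ≤ 3 * (c ^ 2 * Sx z y1 lo hi 2 + Sx z y2 lo hi 2 + e ^ 2) := by
  have t := tel z h
  constructor
  · calc _ ≤ ∑ k ∈ Ioc lo hi, (c * ((z k - z (k - 1)) * |y1 k| ^ 1) +
          (z k - z (k - 1)) * |y2 k| ^ 1 + e * (z k - z (k - 1))) := sum_le_sum fun k hk => by
          have := mul_le_mul_of_nonneg_left (H k (mem_Ioc.1 hk).1 (mem_Ioc.1 hk).2) (w_nn hz k)
          simp only [pow_one]; linarith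
      _ ≤ _ := by
          rw [sum_add_distrib, sum_add_distrib, ← mul_sum, ← mul_sum, t]
          unfold Sx; nlinarith
  · calc _ ≤ ∑ k ∈ Ioc lo hi, 3 * (c ^ 2 * ((z k - z (k - 1)) * |y1 k| ^ 2) +
          (z k - z (k - 1)) * |y2 k| ^ 2 + e ^ 2 * (z k - z (k - 1))) := sum_le_sum fun k hk => by
          have a := pow_le_pow_left₀ (abs_nonneg _) (H k (mem_Ioc.1 hk).1 (mem_Ioc.1 hk).2) 2
          have b : (c * |y1 k| + |y2 k| + e) ^ 2 ≤ 3 * (c ^ 2 * |y1 k| ^ 2 + |y2 k| ^ 2 + e ^ 2) := by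
            nlinarith [sq_nonneg (c * |y1 k| - |y2 k|), sq_nonneg (c * |y1 k| - e),
              sq_nonneg (|y2 k| - e)]
          have := mul_le_mul_of_nonneg_left (a.trans b) (w_nn hz k)
          linarith
      _ ≤ _ := by
          rw [← mul_sum, sum_add_distrib, sum_add_distrib, ← mul_sum, ← mul_sum, t]
          unfold Sx; nlinarith [sq_nonneg e]

/-- `f` ahead of `g` -/
theorem up (hz : Monotone z) (hf : Monotone f) {L e ρ : ℝ} (hL : 0 ≤ L)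
    (gm : ∀ i k, i ≤ k → k ≤ hi → g i ≤ g k)
    (lip : ∀ i k, lo ≤ i → i ≤ k → k < hi → g (k + 1) - g i ≤ L * (z k - z i) + e) {k : ℕ}
    (h1 : lo < k) (h2 : k ≤ hi) (h0 : 0 ≤ ρ) (h : 2 * ρ ≤ f k - g k) (i : ℕ) :
    ρ ^ i * (z hi - z (k - 1)) ≤ Sx z (fun j => f j - g j) lo hi i ∨
      ρ ^ i * (ρ - e) ≤ L * Sx z (fun j => f j - g j) lo hi i := by
  have key : ∀ q, k ≤ q → q ≤ hi → g q ≤ g k + ρ →
      ρ ^ i * (z q - z (k - 1)) ≤ Sx z (fun j => f j - g j) lo hi i := fun q a b c =>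
    blk_le hz (by omega) (by omega) b h0 (fun j d e => le_trans (by
      linarith [hf (show k ≤ j by omega), gm j q e b]) (le_abs_self _)) i
  by_cases hh : g hi ≤ g k + ρ
  · exact Or.inl (key hi h2 le_rfl hh)
  right
  have ex : ∃ q, k ≤ q ∧ q ≤ hi ∧ g k + ρ < g q := ⟨hi, h2, le_rfl, not_le.1 hh⟩
  obtain ⟨a, b, c⟩ := Nat.find_spec ex
  have mn := fun q (hq : q < Nat.find ex) => Nat.find_min ex hq
  generalize Nat.find ex = q at a b c mn
  have : k < q := lt_of_le_of_ne a fun e => by rw [← e] at c; linarith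
  obtain ⟨q, rfl⟩ : ∃ r, q = r + 1 := ⟨q - 1, by omega⟩
  have d := key q (by omega) (by omega) (not_lt.1 fun e => mn q (by omega) ⟨by omega, by omega, e⟩)
  have l := lip k q h1.le (by omega) (by omega)
  have w := mul_le_mul_of_nonneg_left (w_nn hz k) hL
  have p : ρ - e ≤ L * (z q - z (k - 1)) := by nlinarith
  have r : 0 ≤ ρ ^ i := by positivity
  nlinarith [mul_le_mul_of_nonneg_left p r, mul_le_mul_of_nonneg_left d hL]

/-- `f` behind `g` -/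
theorem dn (hz : Monotone z) (hf : Monotone f) {L e ρ : ℝ} (hL : 0 ≤ L)
    (gm : ∀ i k, i ≤ k → k ≤ hi → g i ≤ g k)
    (lip : ∀ i k, lo ≤ i → i ≤ k → k < hi → g (k + 1) - g i ≤ L * (z k - z i) + e) {k : ℕ}
    (h1 : lo < k) (h2 : k ≤ hi) (h0 : 0 ≤ ρ) (h : 2 * ρ ≤ g k - f k) (i : ℕ) :
    g k ≤ g (lo + 1) + ρ ∨ ρ ^ i * (ρ - e) ≤ L * Sx z (fun j => f j - g j) lo hi i := by
  have ex : ∃ p, lo ≤ p ∧ g k ≤ g (p + 1) + ρ :=
    ⟨k - 1, by omega, by rw [show k - 1 + 1 = k by omega]; linarith⟩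
  obtain ⟨a, c⟩ := Nat.find_spec ex
  have mn := fun q (hq : q < Nat.find ex) => Nat.find_min ex hq
  have b : Nat.find ex ≤ k - 1 :=
    Nat.find_min' ex ⟨by omega, by rw [show k - 1 + 1 = k by omega]; linarith⟩
  generalize Nat.find ex = p at a b c mn
  rcases a.eq_or_lt with rfl | a
  · exact Or.inl c
  right
  have d := blk_le (y := fun j => f j - g j) hz a.le (show p ≤ k by omega) h2 h0 (fun j d e =>
    le_trans (by linarith [hf e, gm (p + 1) j d (e.trans h2)]) (neg_le_abs _)) i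
  have m := mn (p - 1) (by omega)
  rw [show p - 1 + 1 = p by omega, not_and, not_le] at m
  have l := lip p (k - 1) a.le b (by omega)
  rw [show k - 1 + 1 = k by omega] at l
  have w := mul_le_mul_of_nonneg_left (w_nn hz k) hL
  have p : ρ - e ≤ L * (z k - z p) := by nlinarith [m (by omega)]
  have r : 0 ≤ ρ ^ i := by positivity
  nlinarith [mul_le_mul_of_nonneg_left p r, mul_le_mul_of_nonneg_left d hL]

/-! ### the class -/

variable {S : Sc} {M : Md}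

/-- the sup location from `∑_{lo < k ≤ Jp} dx (f - g)² ≤ R³` and the spread `γ` on the plateau -/
def VV (S : Sc) (M : Md) (lo : ℕ) (R γ : ℝ) : ℝ :=
  2 * (S.C ^ 2 * R + S.C ^ 3 * S.v + 2 * (S.C * S.v) + γ + M.s lo)

/-- `g` is slower than the reference times, spread `γ` on the plateau -/
structure Sw (S : Sc) (M : Md) (g : ℕ → ℝ) (γ : ℝ) : Prop where
  mono : ∀ i k, i ≤ k → k ≤ S.Jp → g i ≤ g k
  slow : ∀ i k, i ≤ k → k ≤ S.Jp → g k - g i ≤ M.s k - M.s i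
  le : ∀ k ≤ S.Jp, g k ≤ M.s k
  pl : g S.Jp - g S.J ≤ γ

theorem s_z (h : Cl S M) {i k : ℕ} (h0 : S.j0 ≤ i) (hik : i ≤ k) (hk : k < S.J) :
    M.s k - M.s i ≤ S.C ^ 2 * (M.z k - M.z i) := by
  have C0 := h.C0
  calc _ ≤ _ := (h.s_tel hik hk.le).2
    _ = S.C ^ 2 * (((k : ℝ) - i) * (S.v / S.C)) := by field_simp
    _ ≤ _ := mul_le_mul_of_nonneg_left (h.z_tel h0 hik hk).1 (by positivity)

theorem q_slow (h : Cl S M) {i k : ℕ} (hik : i ≤ k) (hk : k ≤ S.Jp) :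
    M.q k - M.q i ≤ M.s k - M.s i := by
  have a := (h.href (h.s_nn i) (h.sm hik) (h.sm hk)).1
  have b : 0 ≤ S.ms (M.s i) / S.C * (M.s k - M.s i) :=
    mul_nonneg (div_pos (h.ms_pos (h.s_nn i)) h.C0).le (sub_nonneg.2 (h.sm hik))
  have c := sub_nonneg.2 (h.q_mono hik (hk.trans h.i4.le))
  have d := mul_le_mul_of_nonneg_right h.b_ge c
  unfold Md.q at *
  linarith

theorem sw_q (h : Cl S M) {γ : ℝ} (hγ : M.q S.Jp - M.q S.J ≤ γ) : Sw S M M.q γ :=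
  ⟨fun _ _ a b => h.q_mono a (b.trans h.i4.le), fun _ _ => q_slow h,
    fun _ a => h.q_le_s (a.trans h.i4.le), hγ⟩

theorem sw_s (h : Cl S M) {γ : ℝ} (hγ : M.s S.Jp - M.s S.J ≤ γ) : Sw S M M.s γ :=
  ⟨fun _ _ a _ => h.sm a, fun _ _ _ _ => le_rfl, fun _ _ => le_rfl, hγ⟩

theorem Sw.g0 {γ : ℝ} (H : Sw S M g γ) (h : Cl S M) : 0 ≤ γ :=
  (sub_nonneg.2 (H.mono _ _ h.i3 le_rfl)).trans H.pl

theorem Sw.lip {γ : ℝ} (H : Sw S M g γ) (h : Cl S M) (i k : ℕ) (h0 : S.j0 ≤ i) (hik : i ≤ k)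
    (hk : k < S.Jp) : g (k + 1) - g i ≤
      S.C ^ 2 * (M.z k - M.z i) + (S.C ^ 3 * S.v + S.C * S.v + γ) := by
  have C0 := h.C0
  have v0 := h.v0
  have g0 := H.g0 h
  have p1 : 0 ≤ S.C ^ 3 * S.v := by positivity
  have p2 : 0 ≤ S.C * S.v := by positivity
  have zm := fun {i k : ℕ} (e : i ≤ k) =>
    mul_le_mul_of_nonneg_left (h.leg.zm e) (show 0 ≤ S.C ^ 2 by positivity)
  rcases lt_or_ge (k + 1) S.J with a | a
  · have b := s_z h h0 (hik.trans (Nat.le_succ k)) a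
    have c := mul_le_mul_of_nonneg_left (h.zs k (h0.trans hik) a).2 (show 0 ≤ S.C ^ 2 by positivity)
    have d := H.slow i (k + 1) (by omega) hk
    nlinarith
  have b := H.mono (k + 1) _ hk le_rfl
  have pl := H.pl
  rcases lt_or_ge i S.J with c | c
  · have d := s_z h h0 (show i ≤ S.J - 1 by omega) (by omega)
    have e := (h.ss (S.J - 1) (by omega)).2
    rw [show S.J - 1 + 1 = S.J by omega] at e
    have f := H.slow i S.J c.le h.i3
    have := zm (show S.J - 1 ≤ k by omega)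
    nlinarith
  · have := H.mono _ _ c (show i ≤ S.Jp by omega)
    have := zm hik
    nlinarith

theorem s_lo1 (h : Cl S M) (l1 : lo < S.J) : M.s (lo + 1) ≤ M.s lo + S.C * S.v := by
  linarith [(h.ss _ l1).2]

theorem VV_ge (h : Cl S M) (lo : ℕ) {R γ : ℝ} (hR : 0 ≤ R) (hγ : 0 ≤ γ) :
    2 * (M.s lo + 2 * (S.C * S.v)) ≤ VV S M lo R γ ∧ 0 ≤ VV S M lo R γ := by
  have C0 := h.C0
  have v0 := h.v0
  have := h.s_nn lo
  have p0 : 0 ≤ S.C ^ 2 * R := by positivity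
  have p1 : 0 ≤ S.C ^ 3 * S.v := by positivity
  have p2 : 0 ≤ S.C * S.v := by positivity
  unfold VV
  constructor <;> linarith

private theorem cub {C R ρ e Φ : ℝ} (C1 : 1 ≤ C) (hR : 0 ≤ R) (he : 0 ≤ e) (hΦ : Φ ≤ R ^ 3)
    (h : C ^ 2 * R + e < ρ) : C ^ 2 * Φ < ρ ^ 2 * (ρ - e) := by
  have c2 : 1 ≤ C ^ 2 := one_le_pow₀ C1
  have a : R ≤ ρ := by nlinarith
  have r0 : 0 < ρ := by nlinarith
  have b : R ^ 2 ≤ ρ ^ 2 := pow_le_pow_left₀ hR a 2
  calc C ^ 2 * Φ ≤ C ^ 2 * R ^ 3 := by gcongr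
    _ = R ^ 2 * (C ^ 2 * R) := by ring
    _ ≤ ρ ^ 2 * (C ^ 2 * R) := by gcongr
    _ < _ := mul_lt_mul_of_pos_left (by linarith) (by positivity)

/-- the a priori bound: `f` monotone, nonnegative, `∑_{lo < k ≤ Jp} dx (f - g)² ≤ R³` -/
structure Pri (S : Sc) (M : Md) (lo : ℕ) (f g : ℕ → ℝ) (R γ : ℝ) : Prop where
  cl : Cl S M
  l0 : S.j0 ≤ lo
  l1 : lo < S.J
  sw : Sw S M g γ
  fm : Monotone f
  f0 : ∀ k, 0 ≤ f k
  R0 : 0 ≤ R
  R1 : R ≤ 1
  le : Sx M.z (fun j => f j - g j) lo S.Jp 2 ≤ R ^ 3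

namespace Pri
variable {R γ : ℝ} (H : Pri S M lo f g R γ)
include H

theorem V0 : 0 ≤ VV S M lo R γ := (VV_ge H.cl lo H.R0 (H.sw.g0 H.cl)).2
theorem V1 : 2 * (M.s lo + 2 * (S.C * S.v)) ≤ VV S M lo R γ :=
  (VV_ge H.cl lo H.R0 (H.sw.g0 H.cl)).1

/-- never far behind -/
theorem dn {k : ℕ} (hk : k ≤ S.Jp) : g k - f k ≤ VV S M lo R γ := by
  have h := H.cl
  have C0 := h.C0
  have v0 := h.v0
  have g0 := H.sw.g0 h
  have hR := H.R0
  have p0 : 0 ≤ S.C ^ 2 * R := by positivity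
  have p1 : 0 ≤ S.C ^ 3 * S.v := by positivity
  have p2 : 0 ≤ S.C * S.v := by positivity
  have s0 := h.s_nn lo
  have := H.f0 k
  by_contra c
  rw [not_le, VV] at c
  rcases le_or_gt k lo with a | a
  · linarith [H.sw.le k hk, h.sm a]
  rcases Ap63.dn (ρ := (g k - f k) / 2) h.leg.zm H.fm (by positivity) H.sw.mono
    (fun i k a => H.sw.lip h i k (H.l0.trans a)) a hk (by linarith) (by linarith) 2 with b | b
  · linarith [H.sw.le _ (H.l1.trans_le h.i3), s_lo1 h H.l1]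
  · exact absurd b (not_le.2 (cub h.C1 hR (by positivity) H.le (by linarith)))

/-- far ahead only on a small weight -/
theorem pl {k : ℕ} (h1 : lo < k) (hk : k ≤ S.Jp) : f k - g k ≤ VV S M lo R γ ∨
    (f k - g k) ^ 2 * (1 - M.z (k - 1)) ≤ 4 * R ^ 3 := by
  have h := H.cl
  have C0 := h.C0
  have v0 := h.v0
  have g0 := H.sw.g0 h
  have hR := H.R0
  have p0 : 0 ≤ S.C ^ 2 * R := by positivity
  have p1 : 0 ≤ S.C ^ 3 * S.v := by positivity
  have p2 : 0 ≤ S.C * S.v := by positivity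
  have s0 := h.s_nn lo
  refine or_iff_not_imp_left.2 fun c => ?_
  rw [not_le, VV] at c
  rcases Ap63.up (ρ := (f k - g k) / 2) h.leg.zm H.fm (by positivity) H.sw.mono
    (fun i k a => H.sw.lip h i k (H.l0.trans a)) h1 hk (by linarith) (by linarith) 2 with b | b
  · rw [h.top _ le_rfl] at b
    nlinarith [H.le]
  · exact absurd b (not_le.2 (cub h.C1 hR (by positivity) H.le (by linarith)))

/-- not far ahead below a label weight `1 / C'` -/
theorem up' {C' : ℝ} (c0 : 0 < C') (c1 : C' * R ≤ S.C ^ 4) {k : ℕ} (h1 : lo < k) (hk : k ≤ S.Jp)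
    (w : 1 / C' ≤ 1 - M.z (k - 1)) : f k - g k ≤ VV S M lo R γ := by
  have h := H.cl
  refine (H.pl h1 hk).elim id fun b => not_lt.1 fun c => ?_
  have C0 := h.C0
  have v0 := h.v0
  have g0 := H.sw.g0 h
  have hR := H.R0
  have p0 : 0 ≤ S.C ^ 2 * R := by positivity
  have p1 : 0 ≤ S.C ^ 3 * S.v := by positivity
  have p2 : 0 ≤ S.C * S.v := by positivity
  have s0 := h.s_nn lo
  rw [VV] at c
  have a : (2 * (S.C ^ 2 * R)) ^ 2 < (f k - g k) ^ 2 :=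
    pow_lt_pow_left₀ (by linarith) (by positivity) two_ne_zero
  have d : 4 * R ^ 3 ≤ (2 * (S.C ^ 2 * R)) ^ 2 * (1 / C') := by
    rw [mul_one_div, le_div_iff₀ c0]
    nlinarith [mul_le_mul_of_nonneg_left c1 (sq_nonneg R)]
  have e := mul_lt_mul_of_pos_right a (show 0 < 1 / C' by positivity)
  have := mul_le_mul_of_nonneg_left w (sq_nonneg (f k - g k))
  linarith

/-- not far ahead on the sloped part -/
theorem up {k : ℕ} (h1 : lo < k) (hk : k ≤ S.J) : f k - g k ≤ VV S M lo R γ := by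
  have h := H.cl
  refine H.up' h.C0 ?_ h1 (hk.trans h.i3)
    (by linarith [h.atom.2, h.leg.zm (show k - 1 ≤ S.J - 1 by omega)])
  calc _ ≤ S.C * 1 := mul_le_mul_of_nonneg_left H.R1 h.C0.le
    _ = S.C ^ 1 := by ring
    _ ≤ _ := pow_le_pow_right₀ h.C1 (by norm_num)

theorem abs {k : ℕ} (h1 : lo < k) (hk : k ≤ S.J) : |f k - g k| ≤ VV S M lo R γ :=
  abs_le.2 ⟨by linarith [H.dn (hk.trans H.cl.i3)], H.up h1 hk⟩

/-- the low zone -/
theorem low {k : ℕ} (hk : k ≤ lo + 1) : f k ≤ M.s lo + S.C * S.v + VV S M lo R γ := by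
  linarith [H.fm hk, H.up (Nat.lt_succ_self _) H.l1, H.sw.le _ (H.l1.trans_le H.cl.i3),
    s_lo1 H.cl H.l1]

theorem low' {k : ℕ} (hk : k ≤ lo + 1) : f k ≤ 2 * VV S M lo R γ := by
  linarith [H.low hk, H.V1, H.V0, H.cl.s_nn lo, mul_pos H.cl.C0 H.cl.v0]

/-- all nodes up to `J` -/
theorem abs' {k : ℕ} (hk : k ≤ S.J) : |f k - g k| ≤ 2 * VV S M lo R γ ∨ g k < 0 := by
  refine (lt_or_ge (g k) 0).elim Or.inr fun c => Or.inl ?_
  rcases le_or_gt k lo with a | a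
  · exact abs_le.2 ⟨by linarith [H.dn (hk.trans H.cl.i3), H.V0],
      by linarith [H.low' (a.trans (Nat.le_succ _))]⟩
  · linarith [H.abs a hk, H.V0]

/-- crude location in the form of `L0` -/
theorem le_s {k : ℕ} (hk : k ≤ S.J) : f k ≤ M.s k + 2 * VV S M lo R γ := by
  rcases le_or_gt k lo with a | a
  · linarith [H.low' (a.trans (Nat.le_succ _)), H.cl.s_nn k]
  · linarith [H.up a hk, H.V0, H.sw.le k (hk.trans H.cl.i3)]

end Pri

theorem blk_all (h : Cl S M) : M.blk S 0 S.C = Ioc S.j0 S.Jp :=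
  filter_true_of_mem fun k hk => ⟨h.s_nn k, h.s_le_C (mem_Ioc.1 hk).2⟩

theorem En_eq (h : Cl S M) (m : ℕ) (a : ℝ) (c : ℕ → ℝ) (i : ℕ) :
    M.En S m a c i 0 S.C = Sx M.z (fun k => M.rb m a k - c k) S.j0 S.Jp i := by
  rw [Md.En, blk_all h]; rfl

/-- the form of `Md.sq` -/
theorem Sx_two (z y : ℕ → ℝ) (lo hi : ℕ) :
    Sx z y lo hi 2 = ∑ k ∈ Ioc lo hi, (z k - z (k - 1)) * y k ^ 2 := by simp only [Sx, sq_abs]

theorem wt_le (h : Cl S M) (lo : ℕ) : M.z S.Jp - M.z lo ≤ 1 := by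
  linarith [h.leg.z1 S.Jp, h.z_pos lo]

end Crest.Agent.T156.Alt.Ap63

namespace Crest.Agent.T156.Alt.Mp9.At

open MeasureTheory Set Ap63
open Crest.Agent.R164.GC Crest.Agent.R339.B Crest.Agent.R339.Var Crest.Agent.T157.Pf
open Crest.Agent.T156.Pp.Area50 Crest.Agent.T156.Spl27 Crest.Agent.T156.Zb9
open Crest.Agent.T156.Cut8 (LB)

variable {S : Sc} {M : Md} {m : ℕ} {a T : ℝ} {lo : ℕ} {R γ : ℝ}

/-- the displacement of the node times -/
def _root_.Crest.Agent.T156.Alt.Mp9.dsb (M : Md) (m : ℕ) (a : ℝ) (k : ℕ) : ℝ :=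
  sb M m a (k + 1) - M.s k

/-- a priori data for `rb` against `q` -/
theorem pri_rb (A : At S M m a T) (l0 : S.j0 ≤ lo) (l1 : lo < S.J) (hγ : M.q S.Jp - M.q S.J ≤ γ)
    (R0 : 0 ≤ R) (R1 : R ≤ 1) (h : Sx M.z (M.del m a) lo S.Jp 2 ≤ R ^ 3) :
    Pri S M lo (M.rb m a) M.q R γ :=
  ⟨A.cl, l0, l1, sw_q A.cl hγ, rb_mono A.m_pos, fun k => (rb_mem A.m_pos k).1, R0, R1, h⟩

/-- a priori data for `sb` against `s` -/
theorem pri_sb (A : At S M m a T) (l0 : S.j0 ≤ lo) (l1 : lo < S.J) (hγ : M.s S.Jp - M.s S.J ≤ γ)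
    (R0 : 0 ≤ R) (R1 : R ≤ 1) (h : Sx M.z (dsb M m a) lo S.Jp 2 ≤ R ^ 3) :
    Pri S M lo (fun k => sb M m a (k + 1)) M.s R γ :=
  ⟨A.cl, l0, l1, sw_s A.cl hγ, fun _ _ h => A.sb_mono (Nat.succ_le_succ h),
    fun k => A.sb_mono (Nat.zero_le (k + 1)), R0, R1, h⟩

/-- sums of `sb - s` from those of `del` and `G` -/
theorem dsb_sum (A : At S M m a T) (l1 : lo ≤ S.Jp) :
    Sx M.z (dsb M m a) lo S.Jp 1 ≤
      S.C * Sx M.z (M.del m a) lo S.Jp 1 + Sx M.z M.G lo S.Jp 1 + S.C / (m + 1) ∧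
    Sx M.z (dsb M m a) lo S.Jp 2 ≤
      3 * (S.C ^ 2 * Sx M.z (M.del m a) lo S.Jp 2 + Sx M.z M.G lo S.Jp 2 + (S.C / (m + 1)) ^ 2) :=
  Sx_le A.cl.leg.zm l1 (wt_le A.cl lo) (by have := A.c_pos; positivity)
    fun _ _ h => A.sub_le (A.jp_le h)

/-- and back -/
theorem del_sum (A : At S M m a T) (l1 : lo ≤ S.Jp) :
    Sx M.z (M.del m a) lo S.Jp 1 ≤
      1 * Sx M.z (dsb M m a) lo S.Jp 1 + Sx M.z M.G lo S.Jp 1 + S.C / (m + 1) ∧
    Sx M.z (M.del m a) lo S.Jp 2 ≤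
      3 * (1 ^ 2 * Sx M.z (dsb M m a) lo S.Jp 2 + Sx M.z M.G lo S.Jp 2 + (S.C / (m + 1)) ^ 2) :=
  Sx_le A.cl.leg.zm l1 (wt_le A.cl lo) (by have := A.c_pos; positivity)
    fun _ _ h => by rw [one_mul]; exact A.del_le (A.jp_le h)

theorem dsb_one (A : At S M m a T) (l1 : lo ≤ S.Jp) {P g : ℝ} (g0 : 0 ≤ g)
    (hP : Sx M.z (M.del m a) lo S.Jp 2 ≤ P) (hg : Sx M.z M.G lo S.Jp 2 ≤ g ^ 2) :
    Sx M.z (dsb M m a) lo S.Jp 1 ≤ S.C * √P + g + S.C / (m + 1) := by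
  have p := (Sx_one A.cl.leg.zm l1 (wt_le A.cl lo)).trans (Real.sqrt_le_sqrt hP)
  have q := (Sx_one A.cl.leg.zm l1 (wt_le A.cl lo)).trans (Real.sqrt_le_sqrt hg)
  rw [Real.sqrt_sq g0] at q
  linarith [(A.dsb_sum l1).1, mul_le_mul_of_nonneg_left p A.c_pos.le]

theorem T0 (A : At S M m a T) : 0 ≤ T := (s_nn A.cl _).trans A.t2

theorem zb_mono (A : At S M m a T) : Monotone (lvr 1 (lb M S m a T)) := Sc48.lvr_mono A.okb.1.1
theorem zh_mono (A : At S M m a T) : Monotone (lvr 1 (lh M T)) := Sc48.lvr_mono A.okh.1.1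

theorem LB_uu (A : At S M m a T) : LB T (uu M S m a T) :=
  (LB.of_mono A.zb_mono).sub (LB.of_mono A.zh_mono)

/-- **the area between the two graphs** -/
theorem area (A : At S M m a T) (l0 : S.j0 ≤ lo) (l1 : lo < S.J) {B : ℝ}
    (h1 : sb M m a (lo + 1) ≤ B) (h2 : M.s lo ≤ B) :
    ∫ t in (0 : ℝ)..T, |uu M S m a T t| ≤
      M.z lo * (B + M.s S.j0) + Sx M.z (dsb M m a) lo S.Jp 1 := by
  have T0 := A.T0
  have s0 := s_nn A.cl S.j0
  have lJ : lo ≤ S.Jp := l1.le.trans A.cl.i3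
  have sT : M.s S.j0 ≤ T := (A.cl.sm A.j0_le).trans A.t2
  have a0 := A.a_pos
  have zj : M.z S.j0 ≤ M.z lo := A.cl.leg.zm l0
  have az : a ≤ M.z S.j0 := A.xb_mono (Nat.zero_le (S.j0 + 1))
  have lS : LB T fun t => |stp (xb M a) (sb M m a) (S.Jp + 1) t -
      stp (xb M a) (sh M S) (S.Jp + 1) t| :=
    ((LB.of_mono (stp_mono _ A.ux)).sub (LB.of_mono (stp_mono _ A.ux))).abs
  have li : LB T fun t => 1 - ind (M.s S.j0) t := (LB.const 1).sub (LB.of_mono (ind_mono _))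
  have m0 : (0 : ℝ) ∈ Icc 0 T := ⟨le_rfl, T0⟩
  have mT : T ∈ Icc 0 T := ⟨T0, le_rfl⟩
  have e1 : ∫ t in (0 : ℝ)..T, |uu M S m a T t| ≤ ∫ t in (0 : ℝ)..T,
      (|stp (xb M a) (sb M m a) (S.Jp + 1) t - stp (xb M a) (sh M S) (S.Jp + 1) t| +
        M.z lo * (1 - ind (M.s S.j0) t)) := by
    refine intervalIntegral.integral_mono_on T0 (A.LB_uu.abs.ii m0 mT)
      ((lS.add ((LB.const _).mul li)).ii m0 mT) fun t ht => ?_
    rcases le_or_gt (M.s S.j0) t with c | c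
    · rw [A.uu_eq c, ind_pos c]; simp
    · have p1 : stp (xb M a) (sh M S) (S.Jp + 1) t = a :=
        stp_eq A.uh (Nat.zero_le _) (fun h => absurd h (lt_irrefl _)) fun _ => by
          simpa [sh] using c
      have p2 : lvr 1 (lh M T) t ≤ M.z S.j0 := by
        rw [← A.lvh_node le_rfl A.cl.j0_lt]; exact A.zh_mono c.le
      have p3 : 0 ≤ lvr 1 (lh M T) t := (Sc48.lvr_pos A.okh.1.1 t).le
      rw [ind_neg c, p1, uu, A.lvb ht.1]
      have := abs_sub_le (stp (xb M a) (sb M m a) (S.Jp + 1) t) a (lvr 1 (lh M T) t)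
      have q : |a - lvr 1 (lh M T) t| ≤ M.z lo := abs_le.2 ⟨by linarith, by linarith⟩
      linarith
  have e2 : ∫ t in (0 : ℝ)..T, (1 - ind (M.s S.j0) t) = M.s S.j0 := by
    have := int_ind T0 (g := fun _ => (1 : ℝ)) intervalIntegrable_const (M.s S.j0)
    simp only [mul_one] at this
    rw [intervalIntegral.integral_sub intervalIntegrable_const
      ((LB.of_mono (ind_mono _)).ii m0 mT), this, cl_of_mem s0 sT]
    simp
  rw [intervalIntegral.integral_add (lS.ii m0 mT) (((LB.const _).mul li).ii m0 mT),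
    intervalIntegral.integral_const_mul, e2] at e1
  have e3 := area_L1' (sh M S) (sb M m a) A.ux T0
  rw [Finset.range_eq_Ico, ← Finset.sum_Ico_consecutive _ (Nat.zero_le (lo + 1))
    (Nat.succ_le_succ lJ)] at e3
  have e4 : ∑ j ∈ Finset.Ico (lo + 1) (S.Jp + 1), (xb M a (j + 1) - xb M a j) *
      |sb M m a (j + 1) - sh M S (j + 1)| = Sx M.z (dsb M m a) lo S.Jp 1 := by
    rw [Finset.Ico_add_one_add_one_eq_Ioc, ← sum_eq (S := S) (fun k hk => by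
      have := (Finset.mem_Ioc.1 hk).1; omega) fun u => |u|]
    simp only [Sx, dsb, pow_one]
  have e5 : ∑ j ∈ Finset.Ico 0 (lo + 1), (xb M a (j + 1) - xb M a j) *
      |sb M m a (j + 1) - sh M S (j + 1)| ≤ M.z lo * B := by
    calc _ ≤ ∑ j ∈ Finset.Ico 0 (lo + 1), (xb M a (j + 1) - xb M a j) * B :=
          Finset.sum_le_sum fun j hj => by
            have hj := (Finset.mem_Ico.1 hj).2
            refine mul_le_mul_of_nonneg_left (abs_le.2 ⟨?_, ?_⟩)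
              (sub_nonneg.2 (A.xb_mono (Nat.le_succ j)))
            · have p := A.sh_mono (show j + 1 ≤ lo + 1 by omega)
              rw [A.sh_succ l0] at p
              have q : (0 : ℝ) ≤ sb M m a (j + 1) := A.sb_mono (Nat.zero_le _)
              linarith
            · have p := A.sb_mono (show j + 1 ≤ lo + 1 by omega)
              have q : (0 : ℝ) ≤ sh M S (j + 1) := A.sh_mono (Nat.zero_le _)
              linarith
      _ = (M.z lo - a) * B := by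
          rw [← Finset.sum_mul, ← Finset.range_eq_Ico, Finset.sum_range_sub]; rfl
      _ ≤ _ := by nlinarith [(s_nn A.cl lo).trans h2]
  linarith

/-- `H⁻¹` sizes from the area -/
theorem J_le_63 (A : At S M m a T) {j : ℝ} (h : ∫ t in (0 : ℝ)..T, |uu M S m a T t| ≤ j) {t : ℝ}
    (ht : t ∈ Icc 0 T) : |Cut8.Jf T (lvr 1 (lh M T)) (lvr 1 (lb M S m a T)) t| ≤ j := by
  have mT : T ∈ Icc 0 T := ⟨A.T0, le_rfl⟩
  refine (intervalIntegral.abs_integral_le_integral_abs ht.2).trans (le_trans ?_ h)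
  exact intervalIntegral.integral_mono_interval ht.1 ht.2 le_rfl
    (Filter.Eventually.of_forall fun _ => abs_nonneg _) (A.LB_uu.abs.ii ⟨le_rfl, A.T0⟩ mT)

theorem LB_J (A : At S M m a T) : LB T (Cut8.Jf T (lvr 1 (lh M T)) (lvr 1 (lb M S m a T))) :=
  .of_cont (A.LB_uu.tail ⟨A.T0, le_rfl⟩)

theorem J_int (A : At S M m a T) {j : ℝ} (h : ∫ t in (0 : ℝ)..T, |uu M S m a T t| ≤ j) :
    ∫ t in (0 : ℝ)..T, |Cut8.Jf T (lvr 1 (lh M T)) (lvr 1 (lb M S m a T)) t| ≤ T * j := by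
  have := intervalIntegral.integral_mono_on A.T0 (A.LB_J.abs.ii ⟨le_rfl, A.T0⟩ ⟨A.T0, le_rfl⟩)
    intervalIntegrable_const fun t ht => A.J_le_63 h ht
  simpa using this

theorem J_sq (A : At S M m a T) {j : ℝ} (h : ∫ t in (0 : ℝ)..T, |uu M S m a T t| ≤ j) {x y : ℝ}
    (hx : 0 ≤ x) (hxy : x ≤ y) (hy : y ≤ T) :
    ∫ t in x..y, Cut8.Jf T (lvr 1 (lh M T)) (lvr 1 (lb M S m a T)) t ^ 2 ≤ (y - x) * j ^ 2 := by
  have := intervalIntegral.integral_mono_on hxy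
    (A.LB_J.sq.ii ⟨hx, hxy.trans hy⟩ ⟨hx.trans hxy, hy⟩) (intervalIntegrable_const (c := j ^ 2))
    fun t ht => by
      rw [← sq_abs]
      exact pow_le_pow_left₀ (abs_nonneg _) (A.J_le_63 h ⟨hx.trans ht.1, ht.2.trans hy⟩) 2
  simpa using this

/-- the field `hj` of `Mid`, `Pl` -/
theorem hj (A : At S M m a T) {j : ℝ} (h : ∫ t in (0 : ℝ)..T, |uu M S m a T t| ≤ j) :
    ∀ t ∈ Icc 0 T, |Sc48.Jf (lh M T) (lb M S m a T) T t| +
      ∫ s in (0 : ℝ)..T, |Sc48.Jf (lh M T) (lb M S m a T) T s| ≤ (1 + T) * j := fun t ht => by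
  have p := A.J_le_63 h ht
  have q := A.J_int h
  unfold Cut8.Jf at p q
  unfold Sc48.Jf
  linarith

/-- the field `hp` of `Wd` -/
theorem hp (A : At S M m a T) {j : ℝ} (h : ∫ t in (0 : ℝ)..T, |uu M S m a T t| ≤ j) :
    ∀ t ∈ Icc 0 T, Rig.Hp (lh M T) (lb M S m a T) t ≤ (1 + T) * j := fun t ht => by
  unfold Rig.Hp
  rw [A.okh.2]
  exact A.hj h t ht

/-- plateau nodes, `L¹` form -/
theorem plat_one (A : At S M m a T) {k : ℕ} (h1 : lo < k) (hk : k ≤ S.Jp) :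
    (sb M m a (k + 1) - M.s S.Jp) * (1 - M.z (k - 1)) ≤ Sx M.z (dsb M m a) lo S.Jp 1 := by
  have w : 0 ≤ 1 - M.z (k - 1) := sub_nonneg.2 (A.cl.leg.z1 _)
  rcases le_total (sb M m a (k + 1) - M.s S.Jp) 0 with c | c
  · exact (mul_nonpos_of_nonpos_of_nonneg c w).trans (Sx_nn A.cl.leg.zm 1)
  have := blk_le (y := dsb M m a) A.cl.leg.zm (show lo ≤ k - 1 by omega)
    (show k - 1 ≤ S.Jp by omega) le_rfl c (fun j p q => le_trans (by
      unfold dsb
      linarith [A.sb_mono (show k + 1 ≤ j + 1 by omega), A.cl.sm q]) (le_abs_self _)) 1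
  rwa [pow_one, A.cl.top _ le_rfl] at this

/-! ### the sandwich of the profiles -/

section sand
variable (A : At S M m a T) {V : ℝ}
include A

/-- `zb t ≤ zh (t + V)` at all times -/
theorem zb_le (hV : ∀ k ≤ S.Jp, M.s k - sb M m a (k + 1) ≤ V) (h0 : M.s S.j0 ≤ V) {t : ℝ}
    (ht : 0 ≤ t) : lvr 1 (lb M S m a T) t ≤ lvr 1 (lh M T) (t + V) := by
  rw [A.lvb ht, A.lvh (by linarith)]
  refine stp_le A.ux fun j hj h => ?_
  rcases le_total j S.j0 with c | c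
  · simp only [sh, max_eq_right c]; linarith
  · rw [A.sh_succ c]; linarith [hV j (by omega)]

/-- `zh (t - V) ≤ zb t` below the atom -/
theorem le_zb (hV : ∀ k < S.J, sb M m a (k + 1) - M.s (max k S.j0) ≤ V) {t : ℝ}
    (h0 : M.s S.j0 + V ≤ t) (h1 : t < M.s S.J + V) (ht : 0 ≤ t) :
    lvr 1 (lh M T) (t - V) ≤ lvr 1 (lb M S m a T) t := by
  rw [A.lvb ht, A.lvh (by linarith)]
  refine stp_le A.ux fun j hj h => ?_
  simp only [sh] at h
  have : j < S.J := lt_of_not_ge fun c => by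
    linarith [A.cl.sm (c.trans (le_max_left j S.j0))]
  linarith [hV j this]

theorem zh_le {t : ℝ} (h0 : 0 ≤ t) (h1 : t < M.s S.J) :
    lvr 1 (lh M T) t ≤ S.C * (t + 2 * S.v) := by
  have := (A.cl.lip 0 t le_rfl h0 h1).2
  rw [A.lvh' h0]
  linarith [A.cl.lv0]

/-- upper bound of `u` -/
theorem uu_le (hV : ∀ k ≤ S.Jp, M.s k - sb M m a (k + 1) ≤ V) (h0 : M.s S.j0 ≤ V) {t : ℝ}
    (ht : 0 ≤ t) (h1 : t + V < M.s S.J) : uu M S m a T t ≤ S.C * V + S.C * S.v := by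
  have V0 := (s_nn A.cl _).trans h0
  have := (A.sl h1 t (t + V) ht (by linarith) le_rfl).2
  unfold uu
  linarith [A.zb_le hV h0 ht]

/-- lower bound of `u` on all of `[0, s J)` -/
theorem le_uu (hV : ∀ k < S.J, sb M m a (k + 1) - M.s (max k S.j0) ≤ V) (V0 : 0 ≤ V) {t : ℝ}
    (ht : 0 ≤ t) (h1 : t < M.s S.J) :
    -(S.C * (V + M.s S.j0 + 2 * S.v)) ≤ uu M S m a T t := by
  have C0 := A.c_pos
  have v0 := v_pos A.cl
  have s0 := s_nn A.cl S.j0
  unfold uu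
  rcases le_total (M.s S.j0 + V) t with c | c
  · have := (A.sl h1 (t - V) t (by linarith) (by linarith) le_rfl).2
    nlinarith [A.le_zb hV c (by linarith) ht, mul_pos C0 v0, mul_nonneg C0.le s0]
  · have p := A.zh_le ht h1
    have q : 0 ≤ lvr 1 (lb M S m a T) t := (Sc48.lvr_pos A.okb.1.1 t).le
    nlinarith [mul_le_mul_of_nonneg_left c C0.le]

end sand

section pri
variable (A : At S M m a T) (H : Pri S M lo (fun k => sb M m a (k + 1)) M.s R γ)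
include A H

theorem zb_le' {t : ℝ} (ht : 0 ≤ t) :
    lvr 1 (lb M S m a T) t ≤ lvr 1 (lh M T) (t + VV S M lo R γ) :=
  A.zb_le (fun _ h => H.dn h) (by
    linarith [H.V1, A.cl.sm H.l0, s_nn A.cl lo, mul_pos A.c_pos (v_pos A.cl)]) ht

omit A in
theorem sb_up {k : ℕ} (hk : k < S.J) :
    sb M m a (k + 1) - M.s (max k S.j0) ≤ 2 * VV S M lo R γ := by
  linarith [H.le_s hk.le, H.cl.sm (le_max_left k S.j0)]

/-- **sup of `u`**, upper side -/
theorem uu_le' {t : ℝ} (ht : 0 ≤ t) (h1 : t + VV S M lo R γ < M.s S.J) :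
    uu M S m a T t ≤ S.C * VV S M lo R γ + S.C * S.v :=
  A.uu_le (fun _ h => H.dn h) (by
    linarith [H.V1, A.cl.sm H.l0, s_nn A.cl lo, mul_pos A.c_pos (v_pos A.cl)]) ht h1

/-- **sup of `u`**, lower side, up to the atom -/
theorem le_uu' {t : ℝ} (ht : 0 ≤ t) (h1 : t < M.s S.J) :
    -(4 * S.C * VV S M lo R γ) ≤ uu M S m a T t := by
  have p := A.le_uu (fun _ h => sb_up H h) (by linarith [H.V0]) ht h1
  have v0 := v_pos A.cl
  have q : S.v ≤ S.C * S.v := le_mul_of_one_le_left v0.le A.cl.C1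
  have r : 2 * VV S M lo R γ + M.s S.j0 + 2 * S.v ≤ 4 * VV S M lo R γ := by
    linarith [H.V1, H.V0, A.cl.sm H.l0, s_nn A.cl lo]
  nlinarith [mul_le_mul_of_nonneg_left r A.c_pos.le]

theorem abs_uu {t : ℝ} (ht : 0 ≤ t) (h1 : t + VV S M lo R γ < M.s S.J) :
    |uu M S m a T t| ≤ 4 * S.C * VV S M lo R γ := by
  have v0 := v_pos A.cl
  have q : S.v ≤ S.C * S.v := le_mul_of_one_le_left v0.le A.cl.C1
  have r : S.v ≤ VV S M lo R γ := by linarith [H.V1, s_nn A.cl lo]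
  refine abs_le.2 ⟨A.le_uu' H ht (by linarith [H.V0]), (A.uu_le' H ht h1).trans ?_⟩
  nlinarith [mul_le_mul_of_nonneg_left r A.c_pos.le, mul_nonneg A.c_pos.le H.V0]

/-- **the area** from the a priori bound -/
theorem area' : ∫ t in (0 : ℝ)..T, |uu M S m a T t| ≤
    M.z lo * (3 * VV S M lo R γ) + Sx M.z (dsb M m a) lo S.Jp 1 := by
  have s0 := s_nn A.cl lo
  have p := mul_pos A.c_pos (v_pos A.cl)
  refine (A.area H.l0 H.l1 (H.low' (Nat.le_succ lo)) (by linarith [H.V1])).trans ?_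
  have r : 2 * VV S M lo R γ + M.s S.j0 ≤ 3 * VV S M lo R γ := by
    linarith [H.V1, A.cl.sm H.l0]
  linarith [mul_le_mul_of_nonneg_left r (A.cl.z_pos lo).le]

end pri

end Crest.Agent.T156.Alt.Mp9.At
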