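import Crest.Agent.T156.ClAp_63

/-!
Row 156, ALT, text (L) (helper63): `∫ (zb - zh)² dt` from the node sum `∑ dx (sb - s)²`.
-/

set_option autoImplicit false

noncomputable section

namespace Crest.Agent.T156.Alt.Ap63

open Finset
open Crest.Agent.T156.Pp.Area50 Crest.Agent.T156.Zb9

theorem sq_tel (x : ℕ → ℝ) (c : ℝ) {i k : ℕ} (h : i ≤ k) :
    ∑ j ∈ Ico i k, (x (j + 1) - x j) * (x (j + 1) + x j - 2 * c) = (x k - c) ^ 2 - (x i - c) ^ 2 := by
  induction k, h using Nat.le_induction with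
  | base => simp
  | succ k h ih => rw [sum_Ico_succ_top h, ih]; ring

/-- pointwise bound of the square of the difference of two step functions -/
theorem stp_sq {x sb sh w : ℕ → ℝ} {J : ℕ} (hx : Up x J) (hb : Up sb J) (hh : Up sh J) {t : ℝ}
    (w0 : ∀ j < J, 0 ≤ w j)
    (h1 : ∀ j < J, sb (j + 1) ≤ t → t < sh (j + 1) → x (j + 1) - stp x sh J t ≤ w j)
    (h2 : ∀ j < J, sh (j + 1) ≤ t → t < sb (j + 1) → stp x sh J t - x j ≤ w j) :
    (stp x sb J t - stp x sh J t) ^ 2 ≤ ∑ j ∈ range J,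
      2 * ((x (j + 1) - x j) * w j) * |ind (sb (j + 1)) t - ind (sh (j + 1)) t| := by
  obtain ⟨k, ck⟩ := exists_Cell hb t
  obtain ⟨i, ci⟩ := exists_Cell hh t
  rw [ci.stp hh] at h1 h2
  rw [ck.stp hb, ci.stp hh]
  have nn : ∀ j ∈ range J, 0 ≤ 2 * ((x (j + 1) - x j) * w j) *
      |ind (sb (j + 1)) t - ind (sh (j + 1)) t| := fun j hj =>
    mul_nonneg (mul_nonneg two_pos.le (mul_nonneg (sub_nonneg.2 (hx j (mem_range.1 hj)))
      (w0 j (mem_range.1 hj)))) (abs_nonneg _)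
  rcases le_total i k with c | c
  · have e := sq_tel x (x i) c
    rw [sub_self, zero_pow two_ne_zero, sub_zero] at e
    rw [← e]
    refine le_trans (sum_le_sum fun j hj => ?_) (sum_le_sum_of_subset_of_nonneg
      (s := Ico i k) (fun j hj => mem_range.2 ((mem_Ico.1 hj).2.trans_le ck.1)) fun j hj _ => nn j hj)
    obtain ⟨p, q⟩ := mem_Ico.1 hj
    have jJ : j < J := q.trans_le ck.1
    have a : sb (j + 1) ≤ t := (hb.le q ck.1).trans (ck.2.1 (by omega))
    have b : t < sh (j + 1) := (ci.2.2 (by omega)).trans_le (hh.le (by omega) jJ)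
    rw [ind_pos a, ind_neg b, sub_zero, abs_one]
    have := hx j jJ
    nlinarith [h1 j jJ a b]
  · have e := sq_tel x (x i) c
    rw [sub_self, zero_pow two_ne_zero, zero_sub, eq_comm, neg_eq_iff_eq_neg, ← sum_neg_distrib] at e
    rw [e]
    refine le_trans (sum_le_sum fun j hj => ?_) (sum_le_sum_of_subset_of_nonneg
      (s := Ico k i) (fun j hj => mem_range.2 ((mem_Ico.1 hj).2.trans_le ci.1)) fun j hj _ => nn j hj)
    obtain ⟨p, q⟩ := mem_Ico.1 hj
    have jJ : j < J := q.trans_le ci.1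
    have a : sh (j + 1) ≤ t := (hh.le q ci.1).trans (ci.2.1 (by omega))
    have b : t < sb (j + 1) := (ck.2.2 (by omega)).trans_le (hb.le (by omega) jJ)
    rw [ind_pos a, ind_neg b, zero_sub, abs_neg, abs_one]
    have := hx j jJ
    nlinarith [h2 j jJ a b]

theorem int_ind_le {a b : ℝ} (hab : a ≤ b) (u u' : ℝ) :
    ∫ t in a..b, |ind u' t - ind u t| = |cl a b u' - cl a b u| := by
  have := int_abs_ind hab (g := fun _ => (1 : ℝ)) intervalIntegrable_const u u'
  simp only [mul_one, intervalIntegral.integral_const, smul_eq_mul] at this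
  rw [this]
  rcases le_total u u' with c | c
  · rw [min_eq_left c, max_eq_right c, abs_of_nonneg (sub_nonneg.2 (cl_mono a b c))]
  · rw [min_eq_right c, max_eq_left c, abs_sub_comm, abs_of_nonneg (sub_nonneg.2 (cl_mono a b c))]

end Crest.Agent.T156.Alt.Ap63

namespace Crest.Agent.T156.Alt.Mp9.At

open MeasureTheory Set Ap63
open Crest.Agent.R164.GC Crest.Agent.R339.B Crest.Agent.R339.Var Crest.Agent.T157.Pf
open Crest.Agent.T156.Pp.Area50 Crest.Agent.T156.Spl27 Crest.Agent.T156.Zb9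
open Crest.Agent.T156.Cut8 (LB)

variable {S : Sc} {M : Md} {m : ℕ} {a T : ℝ} {lo hi : ℕ} {R γ : ℝ}

/-- **`∫ u² dt` from the nodes** `lo < k ≤ hi` whose times surround `[x, y]` -/
theorem dz_sq_le (A : At S M m a T) (l0 : S.j0 ≤ lo) (l1 : lo ≤ hi) (l2 : hi < S.J) {x y : ℝ}
    (hxy : x ≤ y) (x1 : M.s lo ≤ x) (x2 : sb M m a (lo + 1) ≤ x) (y1 : y < M.s (hi + 1))
    (y2 : y < sb M m a (hi + 2)) :
    ∫ t in x..y, uu M S m a T t ^ 2 ≤
      4 * S.C * Sx M.z (dsb M m a) lo hi 2 + 2 * S.C * S.v ^ 2 * (M.z hi - M.z lo) := by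
  have C0 := A.c_pos
  have v0 := v_pos A.cl
  have xj : M.s S.j0 ≤ x := (A.cl.sm l0).trans x1
  have x0 : 0 ≤ x := (s_nn A.cl _).trans xj
  have yJ : y < M.s S.J := y1.trans_le (A.cl.sm l2)
  have hJ : hi ≤ S.Jp := l2.le.trans A.cl.i3
  have yT : y ≤ T := yJ.le.trans ((A.cl.sm A.cl.i3).trans A.t2)
  have mx : x ∈ Icc 0 T := ⟨x0, hxy.trans yT⟩
  have my : y ∈ Icc 0 T := ⟨x0.trans hxy, yT⟩
  set w : ℕ → ℝ := fun j => S.C * |sb M m a (j + 1) - sh M S (j + 1)| + 2 * (S.C * S.v) with hw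
  have li : ∀ j, IntervalIntegrable (fun t => 2 * ((xb M a (j + 1) - xb M a j) * w j) *
      |ind (sb M m a (j + 1)) t - ind (sh M S (j + 1)) t|) volume x y := fun j =>
    ((LB.const _).mul ((LB.of_mono (ind_mono _)).sub (LB.of_mono (ind_mono _))).abs).ii mx my
  have e1 : ∫ t in x..y, uu M S m a T t ^ 2 ≤ ∫ t in x..y, ∑ j ∈ Finset.range (S.Jp + 1),
      2 * ((xb M a (j + 1) - xb M a j) * w j) *
        |ind (sb M m a (j + 1)) t - ind (sh M S (j + 1)) t| := by
    refine intervalIntegral.integral_mono_on hxy (A.LB_uu.sq.ii mx my)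
      (by
        have := IntervalIntegrable.sum (Finset.range (S.Jp + 1)) fun j _ => li j
        rwa [Finset.sum_fn] at this)
      fun t ht => ?_
    have tj := xj.trans ht.1
    have t0 := x0.trans ht.1
    rw [A.uu_eq tj]
    refine stp_sq A.ux A.ub A.uh (fun j _ => by positivity) (fun j hj p q => ?_) fun j hj p q => ?_
    · have j1 : j ≤ hi := not_lt.1 fun c => by
        linarith [A.sb_mono (show hi + 2 ≤ j + 1 by omega), ht.2]
      have j2 : S.j0 ≤ j := not_lt.1 fun c => by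
        simp only [sh, max_eq_right c.le] at q; linarith
      rw [A.sh_succ j2] at q
      have r := (A.sl (A.cl.s_lt (j1.trans_lt l2) (j1.trans_lt l2)) t (M.s j) t0 q.le le_rfl).2
      rw [A.lvh_node j2 (j1.trans_lt l2), A.lvh tj] at r
      have r2 : M.s j - t ≤ |sb M m a (j + 1) - sh M S (j + 1)| := by
        rw [A.sh_succ j2]; linarith [neg_abs_le (sb M m a (j + 1) - M.s j)]
      show M.z j - _ ≤ _
      nlinarith [mul_le_mul_of_nonneg_left r2 C0.le, mul_pos C0 v0]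
    · have j1 : lo < j := not_le.1 fun c => by
        linarith [A.sb_mono (show j + 1 ≤ lo + 1 by omega), ht.1]
      have j2 : S.j0 ≤ j := l0.trans j1.le
      rw [A.sh_succ j2] at p
      have j3 : j < S.J := lt_of_not_ge fun c => by linarith [A.cl.sm c, ht.2]
      have r := (A.sl yJ (M.s j) t (s_nn A.cl j) p ht.2).2
      rw [A.lvh_node j2 j3, A.lvh tj] at r
      have r2 : t - M.s j ≤ |sb M m a (j + 1) - sh M S (j + 1)| := by
        rw [A.sh_succ j2]; linarith [le_abs_self (sb M m a (j + 1) - M.s j)]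
      obtain ⟨j, rfl⟩ : ∃ i, j = i + 1 := ⟨j - 1, by omega⟩
      have r3 := (A.cl.zs j (by omega) j3).2
      show _ - M.z j ≤ _
      nlinarith [mul_le_mul_of_nonneg_left r2 C0.le]
  rw [intervalIntegral.integral_finsetSum fun j _ => li j] at e1
  simp only [intervalIntegral.integral_const_mul, int_ind_le hxy] at e1
  refine e1.trans ?_
  rw [← Finset.sum_subset (s₁ := Finset.Ioc lo hi) (fun j hj => Finset.mem_range.2 (by
    have := (Finset.mem_Ioc.1 hj).2; omega)) fun j _ hj => ?_]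
  · rw [← tel M.z l1, Sx, Finset.mul_sum, Finset.mul_sum, ← Finset.sum_add_distrib]
    refine Finset.sum_le_sum fun j hj => ?_
    have j1 := (Finset.mem_Ioc.1 hj).1
    have p := cl_lip x y (sb M m a (j + 1)) (sh M S (j + 1))
    simp only [hw]
    rw [A.sh_succ (l0.trans j1.le)] at p ⊢
    obtain ⟨j, rfl⟩ : ∃ i, j = i + 1 := ⟨j - 1, by omega⟩
    have d := sub_nonneg.2 (A.cl.leg.zm (Nat.le_succ j))
    simp only [xb, dsb, Nat.add_sub_cancel]
    generalize |sb M m a (j + 1 + 1) - M.s (j + 1)| = D at p ⊢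
    have D0 : 0 ≤ D := (abs_nonneg _).trans p
    calc _ ≤ 2 * ((M.z (j + 1) - M.z j) * (S.C * D + 2 * (S.C * S.v))) * D := by gcongr
      _ ≤ _ := by nlinarith [mul_nonneg (mul_nonneg C0.le d) (sq_nonneg (D - S.v))]
  · rw [Finset.mem_Ioc, not_and_or, not_lt, not_le] at hj
    rcases hj with c | c
    · have p := A.sh_mono (show j + 1 ≤ lo + 1 by omega)
      rw [A.sh_succ l0] at p
      rw [cl_of_le ((A.sb_mono (show j + 1 ≤ lo + 1 by omega)).trans x2), cl_of_le (p.trans x1)]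
      simp
    · have p := A.sh_mono (show hi + 2 ≤ j + 1 by omega)
      rw [A.sh_succ (by omega)] at p
      rw [cl_of_ge hxy (y2.le.trans (A.sb_mono (show hi + 2 ≤ j + 1 by omega))),
        cl_of_ge hxy (y1.le.trans p)]
      simp

theorem Sx_sub (A : At S M m a T) (y : ℕ → ℝ) {lo' hi' : ℕ} (h1 : lo' ≤ lo) (h2 : hi ≤ hi') (i : ℕ) :
    Sx M.z y lo hi i ≤ Sx M.z y lo' hi' i :=
  Finset.sum_le_sum_of_subset_of_nonneg (Finset.Ioc_subset_Ioc h1 h2) fun k _ _ =>
    mul_nonneg (w_nn A.cl.leg.zm k) (by positivity)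

/-- the a priori form: any window between the root zone and the corner -/
theorem dz_sq_le' (A : At S M m a T) (H : Pri S M lo (fun k => sb M m a (k + 1)) M.s R γ) {x y : ℝ}
    (hxy : x ≤ y) (h1 : 2 * VV S M lo R γ ≤ x) (h2 : y + VV S M lo R γ < M.s S.J) :
    ∫ t in x..y, uu M S m a T t ^ 2 ≤
      4 * S.C * Sx M.z (dsb M m a) lo S.Jp 2 + 2 * S.C * S.v ^ 2 := by
  have l1 := H.l1
  have e : S.J - 1 + 1 = S.J := by omega
  have p := mul_pos A.c_pos (v_pos A.cl)
  have s0 := s_nn A.cl lo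
  have := A.dz_sq_le H.l0 (show lo ≤ S.J - 1 by omega) (by omega) hxy (by linarith [H.V1, H.V0])
    ((H.low' (Nat.le_succ lo)).trans h1) (by rw [e]; linarith [H.V0])
    (by rw [show S.J - 1 + 2 = S.J + 1 by omega]; linarith [H.dn A.cl.i3])
  have q := A.Sx_sub (dsb M m a) (le_refl lo) (show S.J - 1 ≤ S.Jp by have := A.cl.i3; omega) 2
  have r : M.z (S.J - 1) - M.z lo ≤ 1 := by linarith [A.cl.leg.z1 (S.J - 1), A.cl.z_pos lo]
  have C0 := A.c_pos
  have w : 0 ≤ 2 * S.C * S.v ^ 2 := by positivity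
  nlinarith [mul_le_mul_of_nonneg_left q C0.le, mul_le_mul_of_nonneg_left r w]

end Crest.Agent.T156.Alt.Mp9.At
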