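import Crest.Agent.T156.Ea_38

/-!
# Row 156 (helper38): leaf E-a, the crude classes
-/

set_option autoImplicit false
set_option linter.unusedSectionVars false

noncomputable section

namespace Crest.Agent.T156.Cas.Ea38

open MeasureTheory Real Set Filter Topology
open Crest.Agent.T157.E Crest.Agent.T157.Casc Crest.Agent.T157.SL
open Crest.ProbabilityR.SpinGlassDynamics (spin)
open Crest.Agent.T157.G1 (ov)
open Wt87 Ws38 OneP

section generic
variable {Ω : Type} [Fintype Ω] {w : Ω → ℝ} {L : List (Lv Ω)} {h : Ω → ℝ} {s : Sh} {j : ℕ}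

theorem hold (hw : Wt w) {A B C D F : (s.Lf → Ω) → ℝ} {a b c d k k' z z' : ℝ} (hA : Q4 w s L h A a)
    (hB : Q4 w s L h B b) (hC : Q4 w s L h C c) (hD : Q4 w s L h D d) (hk : |k| ≤ k')
    (hF : ∀ x, F x = k * (A x * B x * C x * D x)) (hz : |z| ≤ z') :
    |TE w s L h F * z| ≤ k' * (a * b * c * d) * z' := by
  rw [funext hF, Law.TE_const_mul hw, abs_mul, abs_mul]
  have h0 := (abs_nonneg _).trans hk
  exact mul_le_mul (mul_le_mul hk (holder hw hA hB hC hD) (abs_nonneg _) h0) hz (abs_nonneg _)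
    (mul_nonneg h0 ((abs_nonneg _).trans (holder hw hA hB hC hD)))

theorem I_const (c : ℝ) : I L j (fun _ => c) = 2 * c := by
  rw [I, ← Finset.sum_mul, sum_dm, ex_length]
  ring

theorem I_mono' (hM : Mono 0 L) (ht : dm L 0 L.length = 0) (hj : j < L.length) {f g : ℕ → ℝ}
    (H : ∀ y < L.length, f y ≤ g y) : I L j f ≤ I L j g := by
  simp only [I, Finset.sum_range_succ, ht, zero_mul, add_zero]
  exact add_le_add (Finset.sum_le_sum fun y hy => mul_le_mul_of_nonneg_left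
    (H y (Finset.mem_range.1 hy)) (dm_nonneg hM y)) (H j hj)

theorem W2p (hM : Mono 0 L) (hj : j ≤ L.length) {f g : ℕ → ℝ} {c : ℝ} (hc : 0 ≤ c)
    (hf : ∀ y, 0 ≤ f y) (hg : ∀ y, 0 ≤ g y) {Φ : (τ : GT (Sh.two j)) → GT τ.sh → ℝ}
    (H : ∀ τ, τ.Mem _ L.length → ∀ τ', τ'.Mem _ L.length → |Φ τ τ'| ≤ c * (f τ.j * g τ'.j)) :
    |sg (-1) L (Sh.two j) fun τ => sg (-1) L τ.sh (Φ τ)| ≤
      4500 ^ 2 * c * (I L j f * I L j g + I L j fun y => f y * g y) := by
  refine (W2 hM hj (D := fun y y' => c * (f y * g y'))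
    (fun y y' => mul_nonneg hc (mul_nonneg (hf y) (hg y'))) H).trans_eq ?_
  simp only [I_add, I_mul, I_mul']
  ring

end generic

variable {n : ℕ} {β : ℝ} {M : List (ℝ × ℝ × ℝ)} {q u σ : ℕ → ℝ} {T : ℝ} {j : ℕ}

/-- parity size seen from the test node -/
def gz (n : ℕ) (β : ℝ) (M : List (ℝ × ℝ × ℝ)) (q σ : ℕ → ℝ) (j y : ℕ) : ℝ :=
  if y < j then min 1 (Ker15.PB 6 (σ y)) + q y + ex (bL n β M) y else 1

/-- the constant of (E1c) -/
def c1 (T : ℝ) : ℝ := 4 * cOp T 2 1 2 + 2 * cOp T 1 1 2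

/-- the constant of the crude classes -/
def c2 (T : ℝ) : ℝ := 2 * cOp T 4 3 2 + 8 * cOp T 3 3 2 + 8 * cOp T 2 3 2 + 80 * T +
  480 * (T * c1 T) + 4500 ^ 2 * 20 * T ^ 2 + 4500 ^ 3 * 40 * T ^ 3

theorem c1_nonneg (h : 0 ≤ T) : 0 ≤ c1 T := by
  have := cOp_nonneg h 2 1 2
  have := cOp_nonneg h 1 1 2
  unfold c1
  positivity

theorem c2_nonneg (h : 0 ≤ T) : 0 ≤ c2 T := by
  have := cOp_nonneg h 2 3 2
  have := cOp_nonneg h 3 3 2
  have := cOp_nonneg h 4 3 2
  have := c1_nonneg h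
  unfold c2
  positivity

section words
variable (U : Cube n → Cube n → ℝ) (Z : Bool → Bool → ℝ)

theorem Pk (k : ℕ) : opP n β M q k j U Z =
    ∑ f : Fin k → Bool, opW n β M q (List.ofFn f) (Sh.two j) (pr2 j U) (pr2 j Z) := opC_eq_sum _ _ _ _

theorem sum1 (F : List Bool → ℝ) : ∑ f : Fin 1 → Bool, F (List.ofFn f) = F [true] + F [false] := by
  rw [Hy.sum_succ, Hy.sum_zero fun l => F (true :: l), Hy.sum_zero fun l => F (false :: l)]

theorem sum2 (F : List Bool → ℝ) : ∑ f : Fin 2 → Bool, F (List.ofFn f) =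
    F [true, true] + F [true, false] + (F [false, true] + F [false, false]) := by
  rw [Hy.sum_succ, sum1 fun l => F (true :: l), sum1 fun l => F (false :: l)]

theorem P1 : opP n β M q 1 j (oU q j) Z = opW n β M q [true] (Sh.two j) (pr2 j (oU q j)) (pr2 j Z) +
    opW n β M q [false] (Sh.two j) (pr2 j (oU q j)) (pr2 j Z) :=
  (Pk _ Z 1).trans (sum1 fun l => opW n β M q l _ _ _)

theorem P2 : opP n β M q 2 j U Z = opW n β M q [true, true] (Sh.two j) (pr2 j U) (pr2 j Z) +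
    opW n β M q [true, false] (Sh.two j) (pr2 j U) (pr2 j Z) +
    (opW n β M q [false, true] (Sh.two j) (pr2 j U) (pr2 j Z) +
      opW n β M q [false, false] (Sh.two j) (pr2 j U) (pr2 j Z)) :=
  (Pk U Z 2).trans (sum2 fun l => opW n β M q l _ _ _)

theorem P3 : opP n β M q 3 j U Z = opW n β M q [true, true, true] (Sh.two j) (pr2 j U) (pr2 j Z) +
    opW n β M q [true, true, false] (Sh.two j) (pr2 j U) (pr2 j Z) +
    (opW n β M q [true, false, true] (Sh.two j) (pr2 j U) (pr2 j Z) +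
      opW n β M q [true, false, false] (Sh.two j) (pr2 j U) (pr2 j Z)) +
    (opW n β M q [false, true, true] (Sh.two j) (pr2 j U) (pr2 j Z) +
      opW n β M q [false, true, false] (Sh.two j) (pr2 j U) (pr2 j Z) +
      (opW n β M q [false, false, true] (Sh.two j) (pr2 j U) (pr2 j Z) +
        opW n β M q [false, false, false] (Sh.two j) (pr2 j U) (pr2 j Z))) := by
  rw [Pk, Hy.sum_succ 2 fun l => opW n β M q l _ _ _, sum2 fun l => opW n β M q (true :: l) _ _ _,
    sum2 fun l => opW n β M q (false :: l) _ _ _]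

end words

namespace Hy

variable (H : Hy n β M q u σ T)
include H

theorem gz_mem (hj : j ≤ M.length) (y : ℕ) : gz n β M q σ j y ∈ Icc (0 : ℝ) 3 := by
  unfold gz
  split_ifs with h
  · have h1 := H.ok.mem (h.le.trans hj)
    have h2 := le_min zero_le_one (Ker15.PB_nonneg 6 (H.s0 y))
    constructor <;> linarith [h1.1, h1.2, min_le_left 1 (Ker15.PB 6 (σ y)),
      Nu87.ex_nonneg H.mono y, Tay38.ex_le_one H.mono y]
  · norm_num

theorem site1 (hj : j ≤ M.length) {s : Sh} (hN : Fintype.card s.Lf ≤ 8) {a b c d : s.Lf} {y : ℕ}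
    (hab : s.shr a b (bL n β M).length = j) (hcd : s.shr c d (bL n β M).length = y)
    {F : (s.Lf → Bool) → ℝ} (hF : ∀ x, F x = oE q j (x a) (x b) * oE q y (x c) (x d)) :
    |TE (fun _ => 1) s (opS n β M q) 0 F| ≤ 4 * gz n β M q σ j y := by
  rw [len] at hab hcd
  have hy : y ≤ M.length := hcd ▸ shr_le _ _ _ _
  unfold gz
  split_ifs with h
  · have h1 := H.ok.mem hy
    have h2 := site H.r1 H.monoS hN (h.trans_le hj) (k := k2 c d) (p := c)
      (by rw [bd_cross (h.trans_le hj) hcd (.inl (by rw [shr_self]; omega))]; exact odd_one)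
      (hab ▸ h) (H.s0 y) (H.st y) (H.ok.mem hj) (c := q y) (fun x => by
        rw [mo_k2, oE, sub_sub_cancel_left, abs_neg, abs_of_nonneg h1.1]) hF
    linarith [Nu87.ex_nonneg H.mono y, h1.1]
  · refine H.abs_site fun x => ?_
    rw [hF, abs_mul]
    linarith [mul_le_mul (abs_oE_le H.ok hj (x a) (x b)) (abs_oE_le H.ok hy (x c) (x d))
      (abs_nonneg _) zero_le_two]

theorem site3 (hj : j ≤ M.length) {s : Sh} (hN : Fintype.card s.Lf ≤ 8) {a b c d c' d' c'' d'' : s.Lf}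
    {y : ℕ} (hy : y < j) (hab : s.shr a b (bL n β M).length = j)
    (h1 : s.shr c d (bL n β M).length = y) (h2 : s.shr c' d' (bL n β M).length = y)
    (h3 : s.shr c'' d'' (bL n β M).length = y) (hc : ¬3 ≤ cl (bL n β M).length y s)
    {F : (s.Lf → Bool) → ℝ} (hF : ∀ x, F x = oE q j (x a) (x b) *
      (oE q y (x c) (x d) * oE q y (x c') (x d') * oE q y (x c'') (x d''))) :
    |TE (fun _ => 1) s (opS n β M q) 0 F| ≤ 16 * gz n β M q σ j y := by
  rw [len] at hab h1 h2 h3 hc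
  have hK := hy.trans_le hj
  have key : ∀ {e f : s.Lf}, s.shr e f M.length = y → One15.bd s (k2 e f) c y = 1 := fun e =>
    bd_cross hK e (by
      by_contra hn
      push Not at hn
      exact hc (three_le_cl hK hn.1 hn.2 e.le))
  have h4 := H.ok.mem hK.le
  have h5 := site H.r1 H.monoS hN hK (k := k2 c d + k2 c' d' + k2 c'' d'') (p := c)
    (by rw [bd_add, bd_add, key h1, key h2, key h3]; decide) (hab ▸ hy) (H.s0 y) (H.st y)
    (H.ok.mem hj) (c := 7 * q y) (fun x => by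
      rw [One15.mo_add, One15.mo_add, mo_k2, mo_k2, mo_k2]
      exact cub7 (abs_spin2 _ _) (abs_spin2 _ _) (abs_spin2 _ _) h4) hF
  have h6 := le_min zero_le_one (Ker15.PB_nonneg 6 (H.s0 y))
  rw [gz, if_pos hy]
  linarith [Nu87.ex_nonneg H.mono y, h4.1]

theorem ht (y : ℕ) : |oTau n β M y / 2| ≤ T ∧ |-(oTau n β M y / 4)| ≤ T := by
  have h1 := H.t0 y
  have h2 := H.tT y
  constructor <;> rw [abs_le] <;> constructor <;> linarith

theorem ht2 {a b : ℝ} (ha : |a| ≤ T) (hb : |b| ≤ T) : |a * b| ≤ T ^ 2 := by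
  rw [abs_mul, sq]
  exact mul_le_mul ha hb (abs_nonneg _) H.T0

theorem qb (hj : j ≤ M.length) (h : oTau n β M j ≠ 0) :
    Q4 (fun _ => 1) (Sh.two j) (bL n β M) 0 (pr2 j (oU q j)) (u j) := Uc_eq h ▸ H.q2 hj

theorem Ub (hj : j < M.length) (h : oTau n β M j ≠ 0) :
    |opW n β M q [false] (Sh.two j) (pr2 j (oU q j)) (pr2 j fun _ _ => 1)| ≤
      80 * T * (u j * I (bL n β M) j fun y => u y ^ 2) := by
  rw [opW1]
  refine (W1 H.mono (len (n := n) (β := β) ▸ hj.le) (D := fun y => T * u j * u y ^ 2)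
    (fun y => mul_nonneg (mul_nonneg H.T0 (H.u0 j)) (sq_nonneg _)) fun τ hτ => ?_).trans_eq
    (by rw [I_mul]; ring)
  refine (hold wt_one90 ((H.qb hj.le h).e wt_one90 hτ) (H.qe hτ) (H.qe hτ) (Q4.one wt_one90)
    (H.ht τ.j).2 (fun x => ?_) (z' := 1) (H.abs_site fun x => ?_)).trans_eq (by ring)
  · simp only [GT.ev, be_eq]
    ring
  · simp [GT.ev, pr2, oZs]

theorem Ua (hj : j < M.length) (h : oTau n β M j ≠ 0) :
    |opW n β M q [true] (Sh.two j) (pr2 j (oU q j)) (pr2 j fun _ _ => 1)| ≤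
      80 * (T * c1 T) * (u j * (4 * (I (bL n β M) j (fun y => u y ^ 2) - u j ^ 2) +
        2 * I (bL n β M) j fun y => u y ^ 2)) := by
  rw [opW1]
  refine (W1 H.mono (len (n := n) (β := β) ▸ hj.le)
    (D := fun y => |oTau n β M y / 2| * (u j * u y * 1 * 1) * |E38.rj n β M q y|)
    (fun y => by have := H.u0 j; have := H.u0 y; positivity) fun τ hτ => ?_).trans ?_
  · refine hold wt_one90 ((H.qb hj.le h).e wt_one90 hτ) (H.qe hτ) (Q4.one wt_one90)
      (Q4.one wt_one90) le_rfl (fun x => ?_) (le_of_eq ?_)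
    · simp only [GT.ev, al_eq]
      ring
    · rw [E38.rj, ← GT.Mem.TE_pair wt_one90 (by rw [opS_length]; exact len (n := n) (β := β) ▸ hτ)]
      congr 2
      funext x
      exact one_mul _
  · set N := I (bL n β M) j (fun y => u y ^ 2) - u j ^ 2 with hN
    have N0 : 0 ≤ N := by
      rw [hN, I, add_sub_cancel_right]
      exact Tay38.N0_nonneg H.mono fun _ => sq_nonneg _
    have c0 : 0 ≤ c1 T := c1_nonneg H.T0
    refine (mul_le_mul_of_nonneg_left (I_mono' H.mono (by rw [len]; exact H.top) (by rwa [len])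
      (g := fun y => T * c1 T * u j * (2 * N + 2 * u y ^ 2)) fun y hy => ?_) (by norm_num)).trans_eq
      (by rw [I_mul, I_add, I_const, I_mul]; ring)
    have p0 : 0 ≤ N + u y ^ 2 := add_nonneg N0 (sq_nonneg _)
    by_cases ht : oTau n β M y = 0
    · simp only [ht, zero_div, abs_zero, zero_mul]
      exact mul_nonneg (mul_nonneg (mul_nonneg H.T0 c0) (H.u0 j)) (by linarith)
    have h1 : |E38.rj n β M q y| ≤ c1 T * (N + u y ^ 2) := by
      refine (H.e1c (len (n := n) (β := β) ▸ hy) ht).trans_eq ?_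
      rw [hN, I, I, add_sub_cancel_right, c1]
    have h2 := mul_le_mul (mul_le_mul (H.ht y).1 (mul_le_mul_of_nonneg_left (H.u2 y) (H.u0 j))
      (mul_nonneg (H.u0 j) (H.u0 y)) H.T0) h1 (abs_nonneg _)
      (mul_nonneg H.T0 (mul_nonneg (H.u0 j) zero_le_two))
    simp only [mul_one]
    linarith

theorem Uaa (hj : j < M.length) (h : oTau n β M j ≠ 0) :
    |opW n β M q [true, true] (Sh.two j) (pr2 j (oU q j)) (pr2 j fun _ _ => 1)| ≤
      4500 ^ 2 * (4 * T ^ 2 * u j) *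
        (I (bL n β M) j u * I (bL n β M) j u + I (bL n β M) j fun y => u y * u y) := by
  rw [opW2]
  refine W2p H.mono (len (n := n) (β := β) ▸ hj.le)
    (mul_nonneg (by positivity) (H.u0 j)) H.u0 H.u0 fun τ hτ τ' hτ' => ?_
  refine (hold wt_one90 (((H.qb hj.le h).e wt_one90 hτ).e wt_one90 hτ') ((H.qe hτ).e wt_one90 hτ')
    (H.qe hτ') (Q4.one wt_one90) (H.ht2 (H.ht τ.j).1 (H.ht τ'.j).1) (fun x => ?_)
    (H.abs_site (H.ev2 hτ' (H.ev2 hτ (c := 1) fun x => abs_one.le)))).trans_eq (by ring)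
  simp only [GT.ev, al_eq]
  ring

theorem sh2 (hj : j ≤ M.length) {τ : GT (Sh.two j)} (hτ : τ.Mem _ (bL n β M).length) {τ' : GT τ.sh}
    (hτ' : τ'.Mem _ (bL n β M).length) : Fintype.card τ'.sh.Lf ≤ 6 ∧ τ'.sh.shr
      (τ'.e (τ.e (Sh.twoL j))) (τ'.e (τ.e (Sh.twoR j))) (bL n β M).length = j := by
  have h1 := hτ.card
  have h2 := hτ'.card
  rw [card_two] at h1
  exact ⟨by omega, by rw [hτ'.shr_e, hτ.shr_e, shr_two, len, min_eq_left hj]⟩

theorem Eab (hj : j < M.length) :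
    |opW n β M q [true, false] (Sh.two j) (pr2 j fun _ _ => 1) (pr2 j (oE q j))| ≤
      4500 ^ 2 * (4 * T ^ 2) * (I (bL n β M) j (fun y => gz n β M q σ j y * u y) *
        I (bL n β M) j (fun y => u y ^ 2) +
        I (bL n β M) j fun y => gz n β M q σ j y * u y * u y ^ 2) := by
  rw [opW2]
  refine W2p H.mono (len (n := n) (β := β) ▸ hj.le) (by positivity)
    (fun y => mul_nonneg (H.gz_mem hj.le y).1 (H.u0 y)) (fun _ => sq_nonneg _)
    fun τ hτ τ' hτ' => ?_
  have h1 := H.sh2 hj.le hτ hτ'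
  refine (hold wt_one90 ((H.qe hτ).e wt_one90 hτ') (H.qe hτ') (H.qe hτ') (Q4.one wt_one90)
    (H.ht2 (H.ht τ.j).1 (H.ht τ'.j).2) (fun x => ?_) (H.site1 hj.le (h1.1.trans (by norm_num)) h1.2
      ((hτ'.shr_e _ _ _).trans hτ.shr) fun x => mul_one _)).trans_eq (by ring)
  simp only [GT.ev, al_eq, be_eq, pr2]
  ring

theorem Eba (hj : j < M.length) :
    |opW n β M q [false, true] (Sh.two j) (pr2 j fun _ _ => 1) (pr2 j (oE q j))| ≤
      4500 ^ 2 * (4 * T ^ 2) * (I (bL n β M) j (fun y => u y ^ 2) *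
        I (bL n β M) j (fun y => gz n β M q σ j y * u y) +
        I (bL n β M) j fun y => u y ^ 2 * (gz n β M q σ j y * u y)) := by
  rw [opW2]
  refine W2p H.mono (len (n := n) (β := β) ▸ hj.le) (by positivity) (fun _ => sq_nonneg _)
    (fun y => mul_nonneg (H.gz_mem hj.le y).1 (H.u0 y)) fun τ hτ τ' hτ' => ?_
  have h1 := H.sh2 hj.le hτ hτ'
  refine (hold wt_one90 ((H.qe hτ).e wt_one90 hτ') ((H.qe hτ).e wt_one90 hτ') (H.qe hτ')
    (Q4.one wt_one90) (H.ht2 (H.ht τ.j).2 (H.ht τ'.j).1) (fun x => ?_)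
    (H.site1 hj.le (h1.1.trans (by norm_num)) h1.2 hτ'.shr fun x =>
      congrArg (· * _) (mul_one _))).trans_eq (by ring)
  simp only [GT.ev, al_eq, be_eq, pr2]
  ring

theorem Eaaa (hj : j < M.length) :
    |opW n β M q [true, true, true] (Sh.two j) (pr2 j fun _ _ => 1) (pr2 j (oE q j))| ≤
      4500 ^ 3 * (16 * T ^ 3) * (3 * I (bL n β M) j u ^ 3 +
        9 * (I (bL n β M) j u * I (bL n β M) j fun y => u y ^ 2) +
        3 * I (bL n β M) j fun y => gz n β M q σ j y * u y ^ 3) := by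
  have hj' : j ≤ (bL n β M).length := len (n := n) (β := β) ▸ hj.le
  have T0 := H.T0
  have c0 : 0 ≤ 16 * T ^ 3 := by positivity
  have g := H.gz_mem hj.le
  have u3 : ∀ y y' y'', 0 ≤ u y * u y' * u y'' := fun y y' y'' =>
    mul_nonneg (mul_nonneg (H.u0 _) (H.u0 _)) (H.u0 _)
  set D : ℕ → ℕ → ℕ → ℝ := fun y y' y'' => 16 * T ^ 3 * (u y * u y' * u y'' *
    if y' = y ∧ y'' = y then gz n β M q σ j y else 1) with hD
  have D0 : ∀ y y' y'', 0 ≤ D y y' y'' := fun y y' y'' => mul_nonneg c0 (mul_nonneg (u3 _ _ _)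
    (by split_ifs; exacts [(g y).1, zero_le_one]))
  have D3 : ∀ y y' y'', D y y' y'' ≤ 16 * T ^ 3 * (3 * (u y * u y' * u y'')) := fun y y' y'' =>
    mul_le_mul_of_nonneg_left ((mul_le_mul_of_nonneg_left
      (by split_ifs; exacts [(g y).2, by norm_num]) (u3 _ _ _)).trans_eq (mul_comm _ _)) c0
  rw [opW3]
  refine (W3 H.mono hj' D0 (E := fun y => 16 * T ^ 3 * u y ^ 3)
    (fun y => mul_nonneg c0 (pow_nonneg (H.u0 y) 3)) fun τ hτ τ' hτ' τ'' hτ'' => ?_).trans ?_
  · have key : ∀ z, |TE (fun _ => 1) τ''.sh (opS n β M q) 0 (τ''.ev (oZs q true)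
        (τ'.ev (oZs q true) (τ.ev (oZs q true) (pr2 j (oE q j)))))| ≤ 16 * z → _ ≤
          16 * T ^ 3 * (u τ.j * u τ'.j * u τ''.j * z) := fun z hz =>
      (hold wt_one90 (((H.qe hτ).e wt_one90 hτ').e wt_one90 hτ'') ((H.qe hτ').e wt_one90 hτ'')
        (H.qe hτ'') (Q4.one wt_one90) (k' := T ^ 2 * T)
        (k := oTau n β M τ.j / 2 * (oTau n β M τ'.j / 2) * (oTau n β M τ''.j / 2))
        (F := τ''.ev (oUb n β M q true) (τ'.ev (oUb n β M q true) (τ.ev (oUb n β M q true)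
          (pr2 j fun _ _ => 1))))
        ((abs_mul _ _).trans_le (mul_le_mul (H.ht2 (H.ht τ.j).1 (H.ht τ'.j).1) (H.ht τ''.j).1
          (abs_nonneg _) (sq_nonneg _))) (fun x => by
            simp only [GT.ev, al_eq, pr2]
            ring) hz).trans_eq (by ring)
    have k1 := key 1 (H.abs_site fun x =>
      (H.ev2 hτ'' (H.ev2 hτ' (H.ev2 hτ (H.eta2 hj.le))) x).trans_eq (by norm_num))
    have e0 : 0 ≤ if τ.j < j ∧ 3 ≤ cl (bL n β M).length τ.j τ''.sh then 16 * T ^ 3 * u τ.j ^ 3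
        else 0 := by split_ifs; exacts [mul_nonneg c0 (pow_nonneg (H.u0 _) 3), le_rfl]
    by_cases h1 : τ'.j = τ.j ∧ τ''.j = τ.j
    · by_cases h2 : τ.j < j
      · by_cases h3 : 3 ≤ cl (bL n β M).length τ.j τ''.sh
        · rw [if_pos ⟨h2, h3⟩]
          refine le_add_of_nonneg_of_le (D0 _ _ _) (k1.trans_eq ?_)
          rw [h1.1, h1.2]
          ring
        · refine le_add_of_le_of_nonneg ?_ e0
          simp only [hD, if_pos h1]
          have h4 := H.sh2 hj.le hτ hτ'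
          refine key _ (H.site3 hj.le (hτ''.card.trans (by omega)) h2 ((hτ''.shr_e _ _ _).trans h4.2)
            ((hτ''.shr_e _ _ _).trans ((hτ'.shr_e _ _ _).trans hτ.shr))
            ((hτ''.shr_e _ _ _).trans (hτ'.shr.trans h1.1)) (hτ''.shr.trans h1.2) h3 fun x => ?_)
          simp only [GT.ev, oZs, pr2, h1.1, h1.2]
          ring
      · refine le_add_of_le_of_nonneg ?_ e0
        simpa only [hD, if_pos h1, gz, if_neg h2] using k1
    · refine le_add_of_le_of_nonneg ?_ e0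
      simpa only [hD, if_neg h1] using k1
  · rw [mul_assoc]
    refine mul_le_mul_of_nonneg_left ?_ (by norm_num)
    have a1 : ∀ y y', I (bL n β M) j (D y y') ≤
        16 * T ^ 3 * 3 * (u y * (u y' * I (bL n β M) j u)) := fun y y' =>
      (I_mono H.mono hj' fun y'' _ => D3 y y' y'').trans_eq (by simp only [I_mul]; ring)
    have a2 : ∀ y, I (bL n β M) j (T3 (bL n β M) j D y) + T3 (bL n β M) j D y y ≤
        16 * T ^ 3 * (3 * I (bL n β M) j u ^ 2 + 3 * I (bL n β M) j fun y => u y ^ 2) * u y +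
        (16 * T ^ 3 * 6 * I (bL n β M) j u * u y ^ 2 +
          16 * T ^ 3 * 2 * (gz n β M q σ j y * u y ^ 3)) := fun y => by
      have b1 := I_mono H.mono hj' (f := T3 (bL n β M) j D y) (g := fun y' =>
        16 * T ^ 3 * 3 * (u y * I (bL n β M) j u + u y ^ 2) * u y' +
          16 * T ^ 3 * 3 * u y * u y' ^ 2) fun y' _ => by
          rw [T3]
          linarith [a1 y y', D3 y y' y, D3 y y' y']
      rw [I_add, I_mul, I_mul] at b1
      have b2 : D y y y = 16 * T ^ 3 * (gz n β M q σ j y * u y ^ 3) := by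
        simp only [hD, and_self, if_true]
        ring
      rw [T3, b2]
      linarith [a1 y y]
    have a3 := (I_mono H.mono hj' fun y _ => a2 y).trans_eq
      (by rw [I_add, I_add, I_mul, I_mul, I_mul])
    have a4 : ∑ y ∈ Finset.range ((bL n β M).length + 1), dm (bL n β M) 0 y *
        (if y < j then ex (bL n β M) y * (16 * T ^ 3 * u y ^ 3) else 0) ≤
        16 * T ^ 3 * I (bL n β M) j fun y => gz n β M q σ j y * u y ^ 3 := by
      rw [← I_mul, I]
      refine le_add_of_le_of_nonneg (Finset.sum_le_sum fun y _ =>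
        mul_le_mul_of_nonneg_left ?_ (dm_nonneg H.mono y))
        (mul_nonneg c0 (mul_nonneg (g j).1 (pow_nonneg (H.u0 j) 3)))
      split_ifs with h
      · rw [mul_left_comm, gz, if_pos h]
        refine mul_le_mul_of_nonneg_left (mul_le_mul_of_nonneg_right ?_ (pow_nonneg (H.u0 y) 3)) c0
        linarith [(H.ok.mem (h.trans hj).le).1, le_min zero_le_one (Ker15.PB_nonneg 6 (H.s0 y))]
      · exact mul_nonneg c0 (mul_nonneg (g y).1 (pow_nonneg (H.u0 y) 3))
    linarith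

/-- words of degree at least four -/
theorem w4 (hj : j ≤ M.length) (m : ℕ) (l : List (Bool × ℕ)) (hp : m + (l.map Prod.snd).sum = 3 + 1)
    (hl : ∀ r ∈ l, r.2 = 1 ∨ r = (false, 2)) {U : Cube n → Cube n → ℝ} {Z : Bool → Bool → ℝ}
    (hU : ∀ x x', |U x x'| ≤ |Uc n β M q j x x'| ^ m) (hZ : ∀ a b, |Z a b| ≤ 2) :
    |opW n β M q (l.map Prod.fst) (Sh.two j) (pr2 j U) (pr2 j Z)| ≤
      cOp T l.length 3 2 * 2 * (2 * I (bL n β M) j fun y => u y ^ 4) := by
  have := H.wd_le ⟨le_rfl, zero_le_one⟩ (m := m) (p := 3)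
    (l := l.map fun r => (oLt n β M q r.1, r.2)) (by rwa [List.map_map]) (fun r hr y hy x x' => by
      obtain ⟨r, hr', rfl⟩ := List.mem_map.1 hr
      rcases hl r hr' with e | rfl
      · exact (H.lt_le r.1 hy x x').1.trans_eq (by rw [e])
      · exact (H.lt_le false hy x x').2) hj (Q := fun x x' => U x.1 x'.1 * Z x.2 x'.2) zero_le_two
    (fun x x' => by
      rw [abs_mul, mul_comm]
      exact mul_le_mul (hZ _ _) (hU _ _) (abs_nonneg _) zero_le_two) fun y hy => H.a4 hy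
  rw [List.map_map, List.length_map] at this
  rw [← WdO_op_zero H.hn H.ok, List.map_map]
  exact this

theorem main (hj : j < M.length) (h : oTau n β M j ≠ 0) {R : ℝ} (R0 : 0 ≤ R)
    (r1 : I (bL n β M) j u ^ 3 ≤ R) (r2 : I (bL n β M) j u * I (bL n β M) j (fun y => u y ^ 2) ≤ R)
    (r3 : I (bL n β M) j (fun y => gz n β M q σ j y * u y ^ 3) ≤ R)
    (r4 : I (bL n β M) j (fun y => u y ^ 4) ≤ R) :
    |E38.rj n β M q j +
      opW n β M q [true, true] (Sh.two j) (pr2 j fun _ _ => 1) (pr2 j (oE q j)) / 2| ≤ c2 T * R := by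
  have hj' : j ≤ (bL n β M).length := len (n := n) (β := β) ▸ hj.le
  have T0 := H.T0
  have g := H.gz_mem hj.le
  have k1 : ∀ x x' : Cube n, |(1 : ℝ)| ≤ |Uc n β M q j x x'| ^ 0 := fun _ _ => by simp
  have k2 : ∀ x x', |oU q j x x'| ≤ |Uc n β M q j x x'| ^ 1 := fun _ _ => by simp [Uc_eq h]
  have k3 : ∀ _ _ : Bool, |(1 : ℝ)| ≤ 2 := fun _ _ => by simp
  have k4 := abs_oE_le H.ok hj.le
  have b4 : ∀ k, cOp T k 3 2 * 2 * (2 * I (bL n β M) j fun y => u y ^ 4) ≤ 4 * cOp T k 3 2 * R :=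
    fun k => by nlinarith [mul_le_mul_of_nonneg_left r4 (cOp_nonneg T0 k 3 2)]
  have t1 := H.tay 0 3 hj.le k1 k4 fun y hy => H.a4 hy
  have t2 := H.tay 1 2 hj.le k2 k3 fun y hy => H.a4 hy
  have w1 := (H.w4 hj.le 0 [(false, 2), (false, 2)] rfl (by simp) k1 k4).trans (b4 _)
  have w2 := (H.w4 hj.le 0 [(true, 1), (true, 1), (false, 2)] rfl (by simp) k1 k4).trans (b4 _)
  have w3 := (H.w4 hj.le 0 [(true, 1), (false, 2), (true, 1)] rfl (by simp) k1 k4).trans (b4 _)
  have w5 := (H.w4 hj.le 0 [(true, 1), (false, 1), (false, 2)] rfl (by simp) k1 k4).trans (b4 _)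
  have w6 := (H.w4 hj.le 0 [(false, 2), (true, 1), (true, 1)] rfl (by simp) k1 k4).trans (b4 _)
  have w7 := (H.w4 hj.le 0 [(false, 2), (true, 1), (false, 1)] rfl (by simp) k1 k4).trans (b4 _)
  have w8 := (H.w4 hj.le 0 [(false, 2), (false, 1), (true, 1)] rfl (by simp) k1 k4).trans (b4 _)
  have w9 := (H.w4 hj.le 0 [(false, 2), (false, 1), (false, 1)] rfl (by simp) k1 k4).trans (b4 _)
  have v1 := (H.w4 hj.le 1 [(true, 1), (false, 2)] rfl (by simp) k2 k3).trans (b4 _)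
  have v2 := (H.w4 hj.le 1 [(false, 2), (true, 1)] rfl (by simp) k2 k3).trans (b4 _)
  have v3 := (H.w4 hj.le 1 [(false, 2), (false, 1)] rfl (by simp) k2 k3).trans (b4 _)
  have i0 := I_nonneg (j := j) H.mono H.u0
  have i2 := I_nonneg (j := j) H.mono (f := fun y => u y ^ 2) fun _ => sq_nonneg _
  have i1 : u j ≤ I (bL n β M) j u := le_add_of_nonneg_left (Tay38.N0_nonneg H.mono H.u0)
  have i3 : u j * I (bL n β M) j (fun y => u y ^ 2) ≤ R :=
    (mul_le_mul_of_nonneg_right i1 i2).trans r2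
  have i4 : I (bL n β M) j (fun y => gz n β M q σ j y * u y) * I (bL n β M) j (fun y => u y ^ 2) ≤
      3 * R := by
    have := (I_mono H.mono hj' (f := fun y => gz n β M q σ j y * u y) fun y _ =>
      mul_le_mul_of_nonneg_right (g y).2 (H.u0 y)).trans_eq (I_mul 3 u)
    linarith [mul_le_mul_of_nonneg_right this i2]
  have c0 : 0 ≤ c1 T := c1_nonneg T0
  have x1 := (H.Ub hj h).trans (mul_le_mul_of_nonneg_left i3 (by positivity))
  have x2 := (H.Ua hj h).trans (mul_le_mul_of_nonneg_left (c := 6 * R)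
    (by nlinarith [mul_nonneg (H.u0 j) (sq_nonneg (u j))]) (by positivity))
  have x3 : |opW n β M q [true, true] (Sh.two j) (pr2 j (oU q j)) (pr2 j fun _ _ => 1)| ≤
      4500 ^ 2 * (4 * T ^ 2) * (2 * R) := by
    refine (H.Uaa hj h).trans ?_
    simp only [← sq]
    rw [← mul_assoc, mul_assoc (_ * _)]
    refine mul_le_mul_of_nonneg_left ?_ (by positivity)
    nlinarith [mul_le_mul_of_nonneg_right i1 (sq_nonneg (I (bL n β M) j u))]
  have x4 := (H.Eab hj).trans (mul_le_mul_of_nonneg_left (c := 4 * R) (by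
    rw [show (fun y => gz n β M q σ j y * u y * u y ^ 2) = fun y => gz n β M q σ j y * u y ^ 3 from
      funext fun y => by ring]
    linarith) (by positivity))
  have x5 := (H.Eba hj).trans (mul_le_mul_of_nonneg_left (c := 4 * R) (by
    rw [show (fun y => u y ^ 2 * (gz n β M q σ j y * u y)) = fun y => gz n β M q σ j y * u y ^ 3 from
      funext fun y => by ring]
    linarith) (by positivity))
  have x6 := (H.Eaaa hj).trans (mul_le_mul_of_nonneg_left (c := 15 * R) (by linarith)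
    (by positivity))
  have s1 := b4 4
  have s2 := b4 3
  rw [H.sym] at t1
  simp only [Finset.sum_range_succ, Finset.range_zero, Finset.sum_empty, H.P0E, H.P0U hj h,
    H.P1E hj, P1, P2, P3, zero_add, Nat.factorial, Nat.reduceAdd] at t1 t2
  simp only [List.map_cons, List.map_nil, List.length_cons, List.length_nil, zero_add,
    Nat.reduceAdd] at w1 w2 w3 w5 w6 w7 w8 w9 v1 v2 v3
  push_cast at t1 t2
  have n2 := mul_nonneg (cOp_nonneg T0 2 3 2) R0
  have n3 := mul_nonneg (cOp_nonneg T0 3 3 2) R0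
  have n4 := mul_nonneg (cOp_nonneg T0 4 3 2) R0
  have n5 := mul_nonneg (sq_nonneg T) R0
  have n6 := mul_nonneg (pow_nonneg T0 3) R0
  rw [abs_le] at t1 t2 w1 w2 w3 w5 w6 w7 w8 w9 v1 v2 v3 x1 x2 x3 x4 x5 x6 ⊢
  rw [c2]
  constructor
  · linarith [t1.1, t1.2, t2.1, t2.2, w1.2, w2.2, w3.2, w5.2, w6.2, w7.2, w8.2, w9.2, v1.1, v2.1, v3.1,
      x1.1, x2.1, x3.1, x4.2, x5.2, x6.2]
  · linarith [t1.1, t1.2, t2.1, t2.2, w1.1, w2.1, w3.1, w5.1, w6.1, w7.1, w8.1, w9.1, v1.2, v2.2, v3.2,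
      x1.2, x2.2, x3.2, x4.1, x5.1, x6.1]

end Hy

theorem young {a b N2 N3 N4 : ℝ} (ha : 0 ≤ a) (h2 : a ≤ 2) (hb : 0 ≤ b) (n2 : 0 ≤ N2) (n3 : 0 ≤ N3)
    (n4 : 0 ≤ N4) {R : ℝ} (hR : a ^ 3 + N3 + (a + b) * (N2 + b ^ 2) + N4 ≤ R) :
    (b + a) ^ 3 ≤ 4 * R ∧ (b + a) * (N2 + a ^ 2) ≤ 4 * R ∧ N3 + a ^ 3 ≤ 4 * R ∧
      N4 + a ^ 4 ≤ 4 * R := by
  have p1 := mul_nonneg ha n2
  have p2 := mul_nonneg hb n2
  have p3 := pow_nonneg ha 3
  have p4 := pow_nonneg hb 3
  have p5 := mul_nonneg ha (sq_nonneg b)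
  have p6 := mul_nonneg (add_nonneg ha hb) (sq_nonneg (a - b))
  have p7 := mul_le_mul_of_nonneg_right h2 p3
  refine ⟨?_, ?_, ?_, ?_⟩ <;> nlinarith

/-- **leaf E-a** -/
theorem eaS (p : Bool) : E91.EaS p := fun tb => by
  refine ⟨c1 (2 * |tb|) + 12 * c2 (2 * |tb|), add_nonneg (c1_nonneg (by positivity))
    (mul_nonneg (by norm_num) (c2_nonneg (by positivity))),
    fun n β M q l0 un sg ms hn ok hl D hD O j hj ht _ => ?_⟩
  subst hD
  have c1' := c1_nonneg (T := 2 * |tb|) (by positivity)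
  have c2' := c2_nonneg (T := 2 * |tb|) (by positivity)
  have hK := Br55.opD_K (β := β) (M := M) (q := q) (l0 := l0) un sg ms
  have ne : ∀ {y}, oTau n β M y ≠ 0 → oTau n β M y / 2 ≠ 0 := fun h => div_ne_zero h two_ne_zero
  have H : Hy n β M q un sg (2 * |tb|) :=
    ⟨hn, ok, O.mono, by linarith [le_abs_self tb, (abs_le.1 (O.tb M.length)).2,
        show (E91.opD n β M q l0 un sg ms).t M.length = oTau n β M M.length / 2 from rfl],
      fun y => (O.un0 y).1, fun y => (O.un0 y).2,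
      fun y hy h => Br55.opD_U0 (β := β) (M := M) hl un sg ms ▸ O.mom y (hK ▸ hy) (ne h),
      fun y hy h => Br55.opD_U0 (β := β) (M := M) hl un sg ms ▸ O.cen y (hK ▸ hy) (ne h),
      hK ▸ O.top, O.r1, O.sg0, O.sgt⟩
  have h : oTau n β M j ≠ 0 := fun e => ht (div_eq_zero_iff.2 (.inl e))
  rw [hK] at hj
  set D := E91.opD n β M q l0 un sg ms with hD
  have N0 : ∀ k, 0 ≤ D.N k := fun k =>
    Tay38.N0_nonneg H.mono fun y => pow_nonneg (H.u0 y) k
  have e1 : I (bL n β M) j un = D.N 1 + un j := by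
    simp only [E91.Dat.N, pow_one]
    rfl
  have e2 : ∀ k, I (bL n β M) j (fun y => un y ^ k) = D.N k + un j ^ k := fun _ => rfl
  have e3 : I (bL n β M) j (fun y => gz n β M q sg j y * un y ^ 3) = D.N3p j + un j ^ 3 := by
    rw [I, show gz n β M q sg j j = 1 from if_neg (lt_irrefl j), one_mul]
    rfl
  have g := H.gz_mem hj.le
  have P0 : 0 ≤ D.N3p j := Tay38.N0_nonneg H.mono fun y => mul_nonneg (g y).1 (pow_nonneg (H.u0 y) 3)
  have P3 : D.N3p j ≤ 3 * D.N 3 := by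
    rw [E91.Dat.N3p, E91.Dat.N, E91.Dat.I, E91.Dat.I, Finset.mul_sum]
    refine Finset.sum_le_sum fun y _ => ?_
    rw [mul_left_comm 3]
    exact mul_le_mul_of_nonneg_left (mul_le_mul_of_nonneg_right (g y).2 (pow_nonneg (H.u0 y) 3))
      (dm_nonneg H.mono y)
  have u0 := H.u0 j
  refine ⟨(H.e1c hj h).trans ?_, ?_⟩
  · rw [e2]
    refine mul_le_mul (le_add_of_nonneg_right (by positivity)) ?_
      (add_nonneg (N0 2) (sq_nonneg _)) (by positivity)
    change _ ≤ (un j + _) ^ 2 + _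
    nlinarith [N0 1, mul_nonneg u0 (N0 1)]
  · have C0 : ∀ x, 0 ≤ x → un j ^ 3 + x + (un j + D.N 1) * (D.N 2 + D.N 1 ^ 2) + D.N 4 ≤
        D.crude x j ∧ 0 ≤ un j ^ 3 + (un j + D.N 1) * (D.N 2 + D.N 1 ^ 2) + D.N 4 := fun x _ =>
      ⟨le_add_of_nonneg_right O.ms0, by have := N0 1; have := N0 2; have := N0 4; positivity⟩
    have hR : un j ^ 3 + D.N3p j + (un j + D.N 1) * (D.N 2 + D.N 1 ^ 2) + D.N 4 ≤
        3 * D.crude (if p then D.N3p j else D.N 3) j := by
      cases p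
      · have := C0 _ (N0 3)
        simp only [Bool.false_eq_true, if_false]
        linarith [this.1, this.2]
      · have := C0 _ P0
        simp only [if_true]
        linarith [this.1, this.2]
    obtain ⟨y1, y2, y3, y4⟩ := young u0 (H.u2 j) (N0 1) (N0 2) P0 (N0 4) hR
    have R0 : 0 ≤ D.crude (if p then D.N3p j else D.N 3) j := by
      linarith [pow_nonneg u0 3]
    rw [← Br55.opW_W2 hn ok hl un sg ms hj.le]
    refine (H.main hj h (by positivity) (e1 ▸ y1) (e1 ▸ e2 2 ▸ y2) (e3 ▸ y3) (e2 4 ▸ y4)).trans ?_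
    nlinarith [mul_nonneg c1' R0]

end Crest.Agent.T156.Cas.Ea38

end
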