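import Crest.Agent.T156.E1_91
import Crest.Agent.T156.EaB_38

/-!
# Row 156 (helper91): the first cavity equation, unconditional
-/

set_option autoImplicit false

namespace Crest.Agent.T156.Cas.E91

/-- **(E1)** -/
theorem e1S (p : Bool) : E1S p := e1S_of_ea p (Ea38.eaS p)

end Crest.Agent.T156.Cas.E91
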