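import Crest.Agent.T156.Ef_49
import Crest.Agent.T156.BrB_55
import Crest.Agent.T156.HmC_32

/-!
# Row 156 (helper49): leaf E-f for `E91.Dat.kap`

Constants drop out of the site number, and the level after the node may have variance zero.
-/

set_option autoImplicit false

noncomputable section

namespace Crest.Agent.T156.Cas.Ef49

open MeasureTheory Real Set Filter Topology
open Crest.Agent.T157.E Crest.Agent.T157.Casc Crest.Agent.T157.SL
open Crest.Agent.T157.Casc.C (Same Rk1)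
open Crest.Agent.R339.Var Crest.Agent.R339.B Crest.Agent.T157.Pf
open Crest.ProbabilityR.SpinGlassDynamics (spin)
open Crest.Agent.T156.Cas.Ker15 Crest.Agent.T156.Cas.One15

section drop

variable {Ω : Type} [Fintype Ω] {w : Ω → ℝ}

theorem dop_one (hw : Wt w) (M : List (Lv Ω)) (h : Ω → ℝ) {S : ℕ → Ω → Ω → ℝ}
    (hS : S ∈ Mul55.Ok Ω M.length) (s : Sh) (v : ℝ) : Dop M S (TEf w M h) s (fun _ => v) = 0 := by
  obtain ⟨h0, c, hc⟩ := hS
  rw [← dT_eq_Dop hw s M h hc, Mul55.dT_const' hw s M h h0]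

/-- a kernel which does not see the configurations does not move the law -/
theorem dop_cst (hw : Wt w) (M : List (Lv Ω)) (h : Ω → ℝ) {φ : ℕ → ℝ} (h0 : φ 0 = 0) (s : Sh)
    (F : (s.Lf → Ω) → ℝ) : Dop M (fun k _ _ => φ k) (TEf w M h) s F = 0 := by
  have k : ∀ G : (s.Lf → Ω) → ℝ, Dop M (fun k _ _ => φ k) (TEf w M h) s G =
      TE w s M h G * sg (-1) M s fun τ => φ τ.j := fun G => by
    rw [Dop_eq_sg, ← sg_const_mul]
    refine sg_congr _ _ _ fun τ hτ => ?_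
    rw [← hτ.TE_e hw M h G]
    exact Law.TE_mul_const hw _ M h _ _
  have z := dop_one hw M h (S := fun k _ _ => φ k)
    ⟨by funext x y; exact h0, _, fun _ => rfl⟩ s 1
  rw [k, Law.TE_const hw, one_mul] at z
  rw [k, z, mul_zero]

theorem dop_add_cst (hw : Wt w) (M : List (Lv Ω)) (h : Ω → ℝ) (S : ℕ → Ω → Ω → ℝ) {φ : ℕ → ℝ}
    (h0 : φ 0 = 0) : Dop M (fun k x y => S k x y + φ k) (TEf w M h) = Dop M S (TEf w M h) := by
  funext s F
  have := (isLin_TEf hw M h).dopS M 1 1 S (fun k _ _ => φ k) s F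
  simpa only [one_mul, dop_cst hw M h h0, add_zero] using this

/-- **constants drop** in a word of two letters and in the test function -/
theorem two_drop (hw : Wt w) (M : List (Lv Ω)) (h : Ω → ℝ) {S : ℕ → Ω → Ω → ℝ}
    (hS : S ∈ Mul55.Ok Ω M.length) {φ : ℕ → ℝ} (h0 : φ 0 = 0) (j : ℕ) (Q : Ω → Ω → ℝ) (c : ℝ) :
    twoF j (fun x y => Q x y + c) (Dop M (fun k x y => S k x y + φ k)
      (Dop M (fun k x y => S k x y + φ k) (TEf w M h))) =
    twoF j Q (Dop M S (Dop M S (TEf w M h))) := by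
  obtain ⟨s0, c0, hc⟩ := id hS
  rw [dop_add_cst hw M h S h0, Dop_comm hw M h (c := c0 + φ M.length) (c' := c0)
    (by funext x y; simp [s0, h0]) s0 (fun y => by rw [hc]) hc, dop_add_cst hw M h S h0]
  have l := ((isLin_TEf hw M h).dop M S).dop M S (Sh.two j) 1 c
    (fun x => Q (x (Sh.twoL j)) (x (Sh.twoR j))) fun _ => 1
  have z : Dop M S (Dop M S (TEf w M h)) (Sh.two j) (fun _ => 1) = 0 :=
    pd_wordO hw h M (l := [S]) ((FL.ev (Sh.two j) fun _ => 1).dop M S) (fun M' H => by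
      have := dop_one hw M' h (S := S) (by rwa [Cav22.len_tilt H]) (Sh.two j) 1
      rwa [Dop_tilt H] at this) fun T hT => by rw [List.mem_singleton.1 hT]; exact hS
  simp only [one_mul, mul_one, z, mul_zero, add_zero] at l
  exact l

end drop

variable {L : List (Lv Bool)} {ℓ : List (ℝ × ℝ)}

theorem ek_ok {j K : ℕ} (h0 : 0 < j) (hj : j < K) : ek j ∈ Mul55.Ok Bool K :=
  ⟨by funext x y; simp [ek, h0.ne], 0, fun y => by simp [ek, hj.ne']⟩

/-- any centring of the kernel and of the test function, any scale -/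
theorem kap_gen {j : ℕ} (h0 : 0 < j) (hj : j < L.length) (c q q' : ℝ) :
    twoF j (fun a b => spin a * spin b - q) ((Dop L fun k a b =>
      if k = j then c * (spin a * spin b - q') else 0)^[2] (TEf (fun _ => 1) L 0)) =
      c ^ 2 * kap1 L j := by
  have e : (fun k a b => if k = j then c * (spin a * spin b - q') else 0) =
      fun k a b => c * (ek j k a b + if k = j then -q' else 0) := by
    funext k a b
    unfold ek
    split_ifs <;> ring
  rw [e, twoF, dop2_smul]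
  congr 1
  exact two_drop w1 L 0 (ek_ok h0 hj) (φ := fun k => if k = j then -q' else 0)
    (if_neg h0.ne) j (fun a b => spin a * spin b) (-q)

theorem kap_kap1 {Ω : Type} [Fintype Ω] (D : E91.Dat Ω) (ht : D.L.map Lv.m = D.T.map Lv.m) {j : ℕ}
    (h0 : 0 < j) (hj : j < D.K) : D.kap j = kap1 D.T j := by
  have k := kap_gen (L := D.T) h0 (Cav22.len_tilt ht ▸ hj) 1 (D.q j) (D.q j)
  have e : Mul55.cut (· = j) D.eta = fun k a b =>
      if k = j then 1 * (spin a * spin b - D.q j) else 0 := by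
    funext k a b
    unfold Mul55.cut
    split_ifs with c
    · rw [c, one_mul]; rfl
    · rfl
  rw [one_pow, one_mul] at k
  rw [Br55.kap_Dop D ht h0 hj, e, ← k]
  rfl

section zero

variable {A B : List (ℝ × ℝ)} {m' v' m : ℝ}

theorem adm_v (h : Adm 1 (l2 A B m' v' m 0 0)) {ε : ℝ} (h0 : 0 ≤ ε) :
    Adm 1 (l2 A B m' v' m ε 0) := by
  have a := adm_suf A h
  exact adm_app A h ⟨a.1, a.2.1, a.2.2.1, a.2.2.2.1, a.2.2.2.2.1, by simpa using h0,
    a.2.2.2.2.2.2⟩ rfl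

theorem tk_v (ε : ℝ) (k : ℕ) : tk (l2 A B m' v' m ε 0) k =
    tk (l2 A B m' v' m 0 0) k + if A.length + 2 ≤ k then ε else 0 := by
  rw [l2, l2, tk_app, tk_app, add_assoc]
  congr 1
  have : A.length + 2 ≤ k ↔ 2 ≤ k - A.length := by omega
  simp only [this]
  rcases k - A.length with _ | _ | i
  · simp [tk, R339.Var.TT]
  · simp [tk, R339.Var.TT]
  · simp only [tk, List.take_succ_cons, One15.TT_cons]
    rw [if_pos (by omega)]
    ring

theorem st_v (ε : ℝ) : ST (cs (l2 A B m' v' m 0 0)) (cs (l2 A B m' v' m ε 0)) := by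
  simp [Ker15.ST, cs, l2, Function.comp_def, C.sl]

theorem lin_lim : Tay38.Lin fun f a => Tendsto f (𝓝[>] (0 : ℝ)) (𝓝 a) :=
  ⟨tendsto_const_nhds, fun h h' => h.add h', fun c _ _ h => h.const_mul c⟩

theorem lim_of {f : ℝ → ℝ} {a C : ℝ} (H : ∀ ε ∈ Ioo (0 : ℝ) 1, |f ε - a| ≤ C * ε) :
    Tendsto f (𝓝[>] 0) (𝓝 a) := by
  have lim : Tendsto (fun T : ℝ => C * T) (𝓝[>] 0) (𝓝 (C * 0)) :=
    ((by fun_prop : Continuous fun T : ℝ => C * T).tendsto 0).mono_left nhdsWithin_le_nhds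
  rw [mul_zero] at lim
  refine tendsto_sub_nhds_zero_iff.1 (squeeze_zero_norm' ?_ lim)
  filter_upwards [Ioo_mem_nhdsGT one_pos] with T hT using H T hT

theorem kap_lim (h : Adm 1 (l2 A B m' v' m 0 0)) (j : ℕ) :
    Tendsto (fun ε => kap1 (cs (l2 A B m' v' m ε 0)) j) (𝓝[>] 0)
      (𝓝 (kap1 (cs (l2 A B m' v' m 0 0)) j)) := by
  have e : ∀ ε, Dop (cs (l2 A B m' v' m ε 0)) = Dop (cs (l2 A B m' v' m 0 0)) := fun ε =>
    (Dop_tilt (st_v ε)).symm
  simp only [kap1, e, twoF]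
  refine lin_lim.iter (cs (l2 A B m' v' m 0 0)) (ek j)
    (Λ := fun ε => TEf (fun _ => 1) (cs (l2 A B m' v' m ε 0)) 0) (fun s F => ?_) 2 _ _
  obtain ⟨b, hb⟩ := (Set.finite_range fun x => |F x|).bddAbove
  refine lim_of (C := 2 * (Fintype.card s.Lf : ℝ) ^ 2 * b) fun ε hε => ?_
  have d : ∀ k x y, dC (cs (l2 A B m' v' m 0 0)) (cs (l2 A B m' v' m ε 0)) k x y =
      (if A.length + 2 ≤ k then ε else 0) * (spin x * spin y) := fun k x y => by
    rw [dC, cacc_rk (rk_cs h), cacc_rk (rk_cs (adm_v h hε.1.le)), tk_v]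
    ring
  refine (ker1 w1 (mono0 h) (st_v ε) (fun y => by rw [d, ← sq, One15.spin_sq, mul_one]) s le_rfl 0
    (fun x => hb ⟨x, rfl⟩) (g := ε) fun k _ x y => ?_).trans_eq (by ring)
  rw [d, abs_mul, abs_mul, One15.abs_spin, One15.abs_spin, mul_one, mul_one]
  split_ifs
  · exact (abs_of_pos hε.1).le
  · simpa using hε.1.le

theorem lvr_le_app : ∀ (A : List (ℝ × ℝ)) {X X' : List (ℝ × ℝ)},
    (∀ t, lvr 1 X' t ≤ lvr 1 X t) → ∀ t, lvr 1 (A ++ X') t ≤ lvr 1 (A ++ X) t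
  | [], _, _, h, t => h t
  | p :: A, _, _, h, t => by
    simp only [List.cons_append, lvr]
    split_ifs
    exacts [le_rfl, lvr_le_app A h _]

theorem lvr_v (h : Adm 1 (l2 A B m' v' m 0 0)) {ε : ℝ} (h0 : 0 ≤ ε) (t : ℝ) :
    lvr 1 (l2 A B m' v' m ε 0) t ≤ lvr 1 (l2 A B m' v' m 0 0) t := by
  have a := adm_suf A h
  refine lvr_le_app A (fun t => ?_) t
  simp only [lvr]
  split_ifs with c1 c2 c3 c4
  · exact le_rfl
  · exact le_rfl
  · exact a.2.2.2.2.1.trans (Pp.Ode3.headLv_le_lvr a.2.2.2.2.2.2 _)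
  · exact absurd (by linarith) c2
  · exact Pp.Ode3.lvr_mono a.2.2.2.2.2.2 (by linarith)

theorem zs_app : ∀ A X : List (ℝ × ℝ), Ker.Zs (A ++ X) = Ker.Zs A + Ker.Zs X
  | [], _ => (zero_add _).symm
  | p :: A, X => by simp only [List.cons_append, Ker.Zs, zs_app A X, add_assoc]

theorem fun_lim (h : Adm 1 (l2 A B m' v' m 0 0)) {σ : ℝ}
    (hσ : σ ∈ Icc 0 (R339.Var.TT (l2 A B m' v' m 0 0))) :
    Tendsto (fun ε => Pr.NN (l2 A B m' v' m ε 0) σ) (𝓝[>] 0) (𝓝 (Pr.NN (l2 A B m' v' m 0 0) σ)) ∧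
    Tendsto (fun ε => Pr.AA (l2 A B m' v' m ε 0) σ) (𝓝[>] 0)
      (𝓝 (Pr.AA (l2 A B m' v' m 0 0) σ)) := by
  set l := l2 A B m' v' m 0 0 with hl
  obtain ⟨C, c1, hC⟩ := Hm.fun_H (R339.Var.TT l + 1)
  have m0 : 0 < m := (adm_suf A h).2.2.2.1
  have T0 : 0 ≤ R339.Var.TT l := hσ.1.trans hσ.2
  have key : ∀ ε ∈ Ioo (0 : ℝ) 1,
      |Pr.NN (l2 A B m' v' m ε 0) σ - Pr.NN l σ| ≤ C * (R339.Var.TT l + 2) * ε ∧
      |Pr.AA (l2 A B m' v' m ε 0) σ - Pr.AA l σ| ≤ C * (R339.Var.TT l + 2) * ε := fun ε hε => by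
    have a1 := Ker.adm_app hε.1.le h
    have a2 := adm_v h hε.1.le
    have t1 : R339.Var.TT (l ++ [(1, ε)]) = R339.Var.TT l + ε := by
      rw [Ker.TT_append]; simp [R339.Var.TT]
    have t2 : R339.Var.TT (l2 A B m' v' m ε 0) = R339.Var.TT (l ++ [(1, ε)]) := by
      rw [t1, hl, TT_l2, TT_l2]; ring
    have S := Ker.same_le h a1 (by rw [t1]; linarith [hε.1]) fun s _ _ => Ker.lvr_app ε l s
    have ii := fun a b => (Ker.lvr_ii (l ++ [(1, ε)]) a b).sub (Ker.lvr_ii (l2 A B m' v' m ε 0) a b)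
    have J : ∀ s ∈ Icc 0 (R339.Var.TT (l ++ [(1, ε)])),
        |Sc48.Jf (l ++ [(1, ε)]) (l2 A B m' v' m ε 0) (R339.Var.TT (l ++ [(1, ε)])) s| ≤ ε := by
      intro s hs
      have p : ∀ r, 0 ≤ lvr 1 (l ++ [(1, ε)]) r - lvr 1 (l2 A B m' v' m ε 0) r := fun r => by
        rw [Ker.lvr_app]; exact sub_nonneg.2 (lvr_v h hε.1.le r)
      have b1 := intervalIntegral.integral_mono_interval hs.1 hs.2 le_rfl
        (Eventually.of_forall p) (ii _ _)
      have b2 := intervalIntegral.integral_nonneg (μ := volume) hs.2 fun r _ => p r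
      rw [intervalIntegral.integral_sub (a := 0) (Ker.lvr_ii _ _ _) (Ker.lvr_ii _ _ _),
        ← Ker.Zs_int (nn_adm a1), ← t2, ← Ker.Zs_int (nn_adm a2), t2] at b1
      have z : Ker.Zs (l ++ [(1, ε)]) - Ker.Zs (l2 A B m' v' m ε 0) = ε - m * ε := by
        simp only [Ker.Zs, hl, l2, zs_app]
        ring
      rw [Sc48.Jf, ← abs_neg, ← intervalIntegral.integral_neg]
      simp only [neg_sub]
      rw [abs_of_nonneg b2]
      nlinarith [hε.1]
    have hσ' : σ ∈ Icc 0 (R339.Var.TT (l ++ [(1, ε)])) := ⟨hσ.1, by rw [t1]; linarith [hσ.2, hε.1]⟩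
    have k := (hC _ _ a1 a2 t2 (by rw [t1]; linarith [hε.2]) σ hσ' _ rfl).1
    have i := intervalIntegral.norm_integral_le_of_norm_le_const (a := 0)
      (b := R339.Var.TT (l ++ [(1, ε)])) (C := ε) (f := fun s => |Sc48.Jf (l ++ [(1, ε)])
        (l2 A B m' v' m ε 0) (R339.Var.TT (l ++ [(1, ε)])) s|) fun s hs => by
        rw [uIoc_of_le (hσ'.1.trans hσ'.2)] at hs
        rw [Real.norm_eq_abs, abs_abs]
        exact J s ⟨hs.1.le, hs.2⟩
    rw [sub_zero, abs_of_nonneg (hσ'.1.trans hσ'.2), Real.norm_eq_abs] at i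
    have b : |Sc48.Jf (l ++ [(1, ε)]) (l2 A B m' v' m ε 0) (R339.Var.TT (l ++ [(1, ε)])) σ| +
        Hm.IJ (l ++ [(1, ε)]) (l2 A B m' v' m ε 0) 0 (R339.Var.TT (l ++ [(1, ε)])) ≤
        (R339.Var.TT l + 2) * ε := by
      have i2 := (le_abs_self _).trans i
      have := J σ hσ'
      unfold Hm.IJ
      rw [t1] at i2 this ⊢
      nlinarith [hε.1, hε.2]
    have b' := mul_le_mul_of_nonneg_left b (zero_le_one.trans c1)
    rw [← S.nn σ hσ, ← S.aa σ hσ, mul_assoc]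
    exact ⟨k.2.2.2.1.trans b', k.2.2.1.trans b'⟩
  exact ⟨lim_of fun ε hε => (key ε hε).1, lim_of fun ε hε => (key ε hε).2⟩

theorem kap_split0 {v : ℝ} (h : Adm 1 (l2 A B m' v' m v 0)) :
    |kap1 (cs (l2 A B m' v' m v 0)) (A.length + 1) -
      4 * (Pr.NN (l2 A B m' v' m v 0) (R339.Var.TT A + v') -
      2 * m * Pr.AA (l2 A B m' v' m v 0) (R339.Var.TT A + v'))| ≤ 15360 * (m - m') := by
  have a := adm_suf A h
  have hv : 0 ≤ v - 0 := a.2.2.2.2.2.1
  rcases (show 0 ≤ v by linarith).eq_or_lt with rfl | hv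
  · have a1 : 0 ≤ v' + 0 := a.2.2.1
    have a2 := One15.TT_nonneg (nn_adm a.2.2.2.2.2.2)
    have a3 := One15.TT_nonneg (nn_adm (Ker.adm_pre _ h))
    obtain ⟨f1, f2⟩ := fun_lim h (σ := R339.Var.TT A + v') ⟨by linarith, by rw [TT_l2]; linarith⟩
    refine le_of_tendsto ((kap_lim h _).sub ((f1.sub (f2.const_mul (2 * m))).const_mul 4)).abs ?_
    filter_upwards [self_mem_nhdsWithin] with ε hε using kap_split (adm_v h (le_of_lt hε)) hε
  · exact kap_split h hv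

end zero

/-- **E-f, normalised kernel, no positivity** -/
theorem kap1_le (H : List.Forall₂ (Rk1 spin) L ℓ) (h : Adm 1 ℓ) {j : ℕ} (h1 : 0 < j)
    (hj : j < L.length) :
    |kap1 L j - 4 * (Pr.NN ℓ (tm L j) - 2 * T157.Casc.ex L j * Pr.AA ℓ (tm L j))| ≤
      15360 * dm L 0 j := by
  obtain ⟨i, rfl⟩ : ∃ i, j = i + 1 := ⟨j - 1, by omega⟩
  rw [H.length_eq] at hj
  have hi : i < ℓ.length := by omega
  have e : ℓ = l2 (ℓ.take i) (ℓ.drop (i + 2)) ℓ[i].1 ℓ[i].2 ℓ[i + 1].1 ℓ[i + 1].2 0 := by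
    rw [l2, add_zero, sub_zero]
    conv_lhs => rw [← List.take_append_drop i ℓ, List.drop_eq_getElem_cons hi,
      List.drop_eq_getElem_cons hj]
  have len : (ℓ.take i).length = i := List.length_take_of_le hi.le
  have k := kap_split0 (e ▸ h)
  have t := tk_l2_node (ℓ.take i) (ℓ.drop (i + 2)) ℓ[i].1 ℓ[i].2 ℓ[i + 1].1 ℓ[i + 1].2 0
  have d := dm_l2 (ℓ.take i) (ℓ.drop (i + 2)) ℓ[i].1 ℓ[i].2 ℓ[i + 1].1 ℓ[i + 1].2 0
  rw [← e, len] at k t d
  rw [add_zero] at t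
  have tl : L.map Lv.m = (cs ℓ).map Lv.m := (tilt_of H).trans (tilt_of (rk_cs h)).symm
  have x : T157.Casc.ex L (i + 1) = ℓ[i + 1].1 := by
    rw [Cav22.ex_tilt tl]
    simp [T157.Casc.ex, cs, hj, C.sl]
  rw [← t, ← d, ← Cav22.dm_tilt tl] at k
  rw [kap1, Dop_tilt tl, TEf_same w1 (same_of H (rk_cs h)), tm_eq H, x]
  exact k

/-- **E-f** for the site number of `EDef_91` -/
theorem kap_le {Ω : Type} [Fintype Ω] (D : E91.Dat Ω) (ht : D.L.map Lv.m = D.T.map Lv.m)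
    (H : List.Forall₂ (Rk1 spin) D.T ℓ) (h : Adm 1 ℓ) {j : ℕ} (h1 : 0 < j) (hj : j < D.K) :
    |D.kap j - 4 * (Pr.NN ℓ (tm D.T j) - 2 * T157.Casc.ex D.L j * Pr.AA ℓ (tm D.T j))| ≤
      15360 * dm D.L 0 j := by
  rw [kap_kap1 D ht h1 hj, Cav22.ex_tilt ht, Cav22.dm_tilt ht]
  exact kap1_le H h h1 (Cav22.len_tilt ht ▸ hj)

/-- **E-f** on the one path -/
theorem kap_op {n : ℕ} {β : ℝ} {M : List (ℝ × ℝ × ℝ)} {q : ℕ → ℝ} (H : OOk M q)
    (h : Adm 1 (opV n β M q)) (l0 : Lv (Cube n)) (un sg : ℕ → ℝ) (ms : ℝ) {j : ℕ} (h1 : 0 < j)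
    (hj : j < M.length) :
    |(E91.opD n β M q l0 un sg ms).kap j -
      4 * (Pr.NN (opV n β M q) (oTau n β M j * q j + fAcc M j) - 2 * T157.Casc.ex (M.map (mxL n β)) j *
        Pr.AA (opV n β M q) (oTau n β M j * q j + fAcc M j))| ≤
      15360 * dm (M.map (mxL n β)) 0 j := by
  have r : List.Forall₂ (Rk1 spin) (opS n β M q) (opV n β M q) := C.forall₂_sl spin (opV_nn H)
  have k := kap_le (E91.opD n β M q l0 un sg ms) tilt_opS.symm r h h1
    (by rwa [Br55.opD_K])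
  have e : tm (E91.opD n β M q l0 un sg ms).T j = oTau n β M j * q j + fAcc M j :=
    (tm_eq r j).trans (opV_acc hj.le)
  rw [e] at k
  exact k

end Crest.Agent.T156.Cas.Ef49

end
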