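import Crest.Agent.T156.ClZb_9
import Crest.Agent.T156.MdOne_67
import Crest.Agent.T156.EfB_49
import Crest.Agent.T156.EgB_33
import Crest.Agent.T156.E1F_91
import Crest.Agent.T156.L0_49

/-!
# Row 156 (helper61): the first cavity equation (E1) on the abstract models
-/

set_option autoImplicit false
set_option linter.unusedSectionVars false

noncomputable section

namespace Crest.Agent.T156.Alt.E61

open MeasureTheory Real Set Filter Topology
open Crest.Agent.T157.E Crest.Agent.T157.Casc Crest.Agent.T157.SL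
open Crest.Agent.T157.G1 (ov)
open Crest.Agent.T156.Cas Crest.Agent.T156.Cas.Sy41 Crest.Agent.T156.Cas.Q33
open Crest.Agent.T156.Alt.Md67 Crest.Agent.T156.Alt.Mp9
open Crest.ProbabilityR.SpinGlassDynamics (spin)

/-- the majorant in cascade indices -/
def ux (M : Md) (u : ℕ → ℝ) : ℕ → ℝ
  | 0 => 0
  | k + 1 => if k < M.N then u k else 2

/-- the data of (E1): reference `rb`, majorant `u`, mesh `ms` -/
def eD (M : Md) (m : ℕ) (a : ℝ) (u : ℕ → ℝ) (ms : ℝ) : E91.Dat (Cube m) :=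
  E91.opD m 1 (M.Mx a) (qx M (M.rb m a)) (sl m) (ux M u)
    (fun y => Ker15.tm (opS m 1 (M.Mx a) (qx M (M.rb m a))) y + ms) ms

/-- `u k` majorises the `L⁴` norm of `R - rb k` at the split `k` -/
structure Mj (M : Md) (m : ℕ) (a : ℝ) (u : ℕ → ℝ) : Prop where
  u0 : ∀ k, 0 ≤ u k ∧ u k ≤ 2
  mom : ∀ k < M.N, M.E2 m a (fun r => (r - M.rb m a k) ^ 4) k ≤ u k ^ 4

/-- `N_i = ∑ dz u^i` -/
def Nu (M : Md) (m : ℕ) (a : ℝ) (u : ℕ → ℝ) (i : ℕ) : ℝ :=
  ∑ k ∈ Finset.range M.N, M.dz m a k * u k ^ i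

/-- parity size of the node `k` -/
def pb (M : Md) (m : ℕ) (a ms : ℝ) (k : ℕ) : ℝ :=
  min 1 (2600 * (sb M m a (k + 1) + ms)) + M.rb m a k + M.z k

/-- parity form of `N_3` seen from the node `j` -/
def N3 (M : Md) (m : ℕ) (a : ℝ) (u : ℕ → ℝ) (ms : ℝ) (j : ℕ) : ℝ :=
  ∑ k ∈ Finset.range M.N, M.dz m a k * ((if k < j then pb M m a ms k else 1) * u k ^ 3)

/-- `Var (rh k)` -/
def r2 (M : Md) (m : ℕ) (a : ℝ) (k : ℕ) : ℝ :=
  node (fun _ => 1) (M.L m a) (k + 1) (fun z => (M.rh m a k z - M.rb m a k) ^ 2) 0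

/-- `E (R - rb)² - Var (rh)` -/
def Vn (M : Md) (m : ℕ) (a : ℝ) (k : ℕ) : ℝ :=
  tc (fun _ => 1) (M.L m a) (sl m) 0 (k + 1) + 2 * vv (fun _ => 1) (M.L m a) (sl m) 0 (k + 1)

/-- `VV` -/
def VVn (M : Md) (m : ℕ) (a : ℝ) (j : ℕ) : ℝ :=
  ∑ k ∈ Finset.range j, M.dz m a k * Eg33.vt (fun _ => 1) (M.L m a) (sl m) 0 (k + 1) (j + 1)

/-- the node error without the `Γ''` term -/
def en (M : Md) (m : ℕ) (a : ℝ) (u : ℕ → ℝ) (ms n3 G : ℝ) (k : ℕ) : ℝ :=
  15360 * ms * r2 M m a k + pb M m a ms k * Vn M m a k + G * (u k + Nu M m a u 1) + VVn M m a k +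
    (u k ^ 3 + n3 + (u k + Nu M m a u 1) * (Nu M m a u 2 + Nu M m a u 1 ^ 2) + Nu M m a u 4 + ms)

variable {S : Sc} {M : Md} {m : ℕ} {a T ms : ℝ} {u : ℕ → ℝ}

theorem ux_succ {k : ℕ} (hk : k < M.N) : ux M u (k + 1) = u k := if_pos hk

theorem eD_L : (eD M m a u ms).L = M.L m a := rfl
theorem eD_K : (eD M m a u ms).K = M.N + 1 := len_L
theorem eD_t (y : ℕ) : (eD M m a u ms).t y = oTau m 1 (M.Mx a) y / 2 := rfl
theorem eD_t0 : (eD M m a u ms).t 0 = 0 := by rw [eD_t, oTau_zero, zero_div]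
theorem eD_q {k : ℕ} (hk : k < M.N) : (eD M m a u ms).q (k + 1) = M.rb m a k := qx_succ hk
theorem eD_un {k : ℕ} (hk : k < M.N) : (eD M m a u ms).un (k + 1) = u k := ux_succ hk

theorem oTau_nn {x : ℝ} (h : M.Leg x) (y : ℕ) : 0 ≤ oTau m 1 (M.Mx a) y :=
  mul_nonneg (sq_nonneg _) (List.sum_nonneg fun p hp => by
    obtain ⟨c, hc, rfl⟩ := List.mem_map.1 hp
    exact (Mx_nn h c (List.mem_of_mem_take hc)).1)

theorem rk {x : ℝ} (h : M.Leg x) (hm : 0 < m) : List.Forall₂ (C.Rk1 spin)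
    (opS m 1 (M.Mx a) (qx M (M.rb m a))) (opV m 1 (M.Mx a) (qx M (M.rb m a))) :=
  rk_opS ((rf_rb hm a).ook h)

theorem eD_U0 (hm : 0 < m) {k : ℕ} (hk : k < M.N) :
    (eD M m a u ms).U0 (k + 1) = fun x x' => ov x x' - M.rb m a k := by
  funext x x'
  rw [E91.Dat.U0, eD_q hk, ← sl_cov hm]; rfl

/-- **admissible data** -/
theorem eD_ok (G : Lg M m a) (ht : Top M) (hu : Mj M m a u) (h0 : 0 < ms) {tb : ℝ}
    (hb : M.b ≤ tb) : (eD M m a u ms).Ok tb := by
  have hm := G.m0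
  have r := rk (a := a) G.toLeg hm
  have O := (rf_rb (M := M) hm a).ook (a := a) G.toLeg
  have b0 : 0 ≤ M.b := d_nonneg G.toLeg _
  refine ⟨Link33.wt1, G.monoL, tilt_opS.symm, Ker15.r1_of r, fun y => ?_,
    fun y => le_add_of_nonneg_right h0.le, fun y hy => ?_, fun y hy => O.mono y (by
      rw [len_Mx]; rwa [eD_K] at hy), fun x x' => ?_, fun y => ?_, fun y => ?_,
    fun y hy h => ?_, fun y hy h => ?_, ?_, h0.le⟩
  · have := (Ker15.r1_of r).tm_mono (Nat.zero_le y)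
    have e : Ker15.tm (opS m 1 (M.Mx a) (qx M (M.rb m a))) 0 = 0 := by simp [Ker15.tm, cacc]
    show 0 < Ker15.tm _ y + ms
    linarith
  · rcases y with _ | k
    · exact ⟨le_rfl, zero_le_one⟩
    · rcases lt_or_ge k M.N with hk | hk
      · rw [eD_q hk]; exact ⟨rb_nonneg hm k, rb_le_one hm k⟩
      · rw [show (eD M m a u ms).q (k + 1) = 1 from qx_top hk]; exact ⟨zero_le_one, le_rfl⟩
  · rw [show (eD M m a u ms).l0.cov x x' = ov x x' from sl_cov hm x x']; exact abs_ov_le x x'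
  · have := oTau_nn (m := m) (a := a) G.toLeg y
    have := oTau_le (m := m) (a := a) G.toLeg y
    rw [eD_t, abs_of_nonneg (by linarith)]; linarith
  · rcases y with _ | k
    · exact ⟨le_rfl, zero_le_two⟩
    · show 0 ≤ ux M u (k + 1) ∧ ux M u (k + 1) ≤ 2
      rw [ux]
      split_ifs
      exacts [hu.u0 k, ⟨zero_le_two, le_rfl⟩]
  · rcases y with _ | k
    · exact absurd eD_t0 h
    · rcases lt_or_ge k M.N with hk | hk
      · rw [eD_U0 hm hk, eD_un hk]; exact hu.mom k hk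
      · rw [show (eD M m a u ms).un (k + 1) = 2 from if_neg (by omega)]
        refine (T157.Casc.pi2_mono Link33.wt1 _ _ (K' := fun _ _ => 2 ^ 4) (fun x x' => ?_) _).trans
          (pi2_const Link33.wt1 _ _ _ _).le
        rw [E91.Dat.U0, show (eD M m a u ms).q (k + 1) = 1 from qx_top hk,
          show (eD M m a u ms).l0.cov x x' = ov x x' from sl_cov hm x x',
          ← Even.pow_abs (by decide)]
        have := abs_le.1 (abs_ov_le x x')
        exact pow_le_pow_left₀ (abs_nonneg _) (abs_le.2 ⟨by linarith, by linarith⟩) _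
  · rcases y with _ | k
    · exact absurd eD_t0 h
    · rw [eD_K] at hy
      rw [eD_U0 hm (by omega)]
      have := E2_sub (M := M) (m := m) (a := a) id (fun _ => M.rb m a k) k
      rw [E2_const] at this
      exact this.trans (sub_self _)
  · rw [eD_K]; exact dz_last G.toLeg ht

theorem I_eq (G : Lg M m a) (ht : Top M) {g : ℕ → ℝ} (h0 : g 0 = 0) :
    (eD M m a u ms).I g = ∑ k ∈ Finset.range M.N, M.dz m a k * g (k + 1) := by
  have := sum_top (m := m) (a := a) G.toLeg ht g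
  rw [h0, mul_zero, zero_add, len_Mx, ← eD_K (m := m) (a := a) (u := u) (ms := ms)] at this
  exact this

theorem N_eq (G : Lg M m a) (ht : Top M) {i : ℕ} (hi : i ≠ 0) :
    (eD M m a u ms).N i = Nu M m a u i := by
  rw [E91.Dat.N, I_eq G ht (show (0 : ℝ) ^ i = 0 from zero_pow hi)]
  exact Finset.sum_congr rfl fun k hk => by rw [eD_un (Finset.mem_range.1 hk)]

theorem tm_eq (G : Lg M m a) {k : ℕ} (hk : k < M.N) :
    Ker15.tm (eD M m a u ms).T (k + 1) = sb M m a (k + 1) := by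
  refine (Ker15.tm_eq (rk G.toLeg G.m0) _).trans ((TT_Mx G.toLeg hk).trans ?_)
  simp only [sb, tp, kp]; ring

theorem min_PB {σ : ℝ} (h : 0 < σ) : min 1 (Ker15.PB 6 σ) ≤ min 1 (2600 * σ) := by
  refine le_min (min_le_left _ _) ?_
  rcases le_total σ 1 with h1 | h1
  · refine (min_le_right _ _).trans ?_
    have a1 : √σ ≤ 1 := sqrt_le_iff.2 ⟨zero_le_one, by rwa [one_pow]⟩
    have a2 : exp (1 / 2 + √σ) ≤ exp (1 / 2) * exp 1 := by
      rw [← exp_add]; exact exp_le_exp.2 (by linarith)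
    have a3 : exp (1 / 2) ≤ 1.65 := by
      refine abs_le_of_sq_le_sq' ?_ (by norm_num) |>.2
      rw [sq, ← exp_add, add_halves]
      linarith [exp_one_lt_d9]
    have a4 : exp (1 / 2) * exp 1 ≤ 1.65 * 2.72 :=
      mul_le_mul a3 (by linarith [exp_one_lt_d9]) (exp_pos _).le (by norm_num)
    rw [Ker15.PB]
    refine mul_le_mul_of_nonneg_right ?_ h.le
    push_cast
    linarith
  · exact (min_le_left _ _).trans (by linarith)

theorem sb_nn (G : Lg M m a) (k : ℕ) : 0 ≤ sb M m a (k + 1) :=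
  add_nonneg (mul_nonneg (mul_nonneg (kp_mem m).1 (d_nonneg G.toLeg k)) (rb_nonneg G.m0 k))
    (H_nonneg G.toLeg k)

theorem pz_le (G : Lg M m a) (h0 : 0 < ms) {k : ℕ} (hk : k < M.N) :
    (eD M m a u ms).pz (k + 1) ≤ pb M m a ms k := by
  have e : (eD M m a u ms).sg (k + 1) = sb M m a (k + 1) + ms :=
    congrArg (· + ms) (tm_eq (u := u) (ms := ms) G hk)
  have := min_PB (add_pos_of_nonneg_of_pos (sb_nn G k) h0)
  rw [E91.Dat.pz, e, eD_q hk, eD_L, ex_succ G.toLeg, pb]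
  linarith

theorem pb_nn (G : Lg M m a) (h0 : 0 < ms) (k : ℕ) : 0 ≤ pb M m a ms k :=
  add_nonneg (add_nonneg (le_min zero_le_one (by have := sb_nn G k; positivity))
    (rb_nonneg G.m0 k)) (G.z_nonneg k)

theorem pb_le (G : Lg M m a) (k : ℕ) : pb M m a ms k ≤ 3 := by
  have := min_le_left 1 (2600 * (sb M m a (k + 1) + ms))
  have := rb_le_one (M := M) (a := a) G.m0 k
  have := G.z1 k
  rw [pb]; linarith

theorem gz_le (G : Lg M m a) (h0 : 0 < ms) (j : ℕ) {k : ℕ} (hk : k < M.N) :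
    (eD M m a u ms).gz (j + 1) (k + 1) ≤ if k < j then pb M m a ms k else 1 := by
  rw [E91.Dat.gz]
  by_cases h : k < j
  · rw [if_pos h, if_pos (Nat.succ_lt_succ h)]; exact pz_le G h0 hk
  · rw [if_neg h, if_neg (by omega)]

theorem N3p_le (G : Lg M m a) (ht : Top M) (hu : Mj M m a u) (h0 : 0 < ms) (j : ℕ) :
    (eD M m a u ms).N3p (j + 1) ≤ N3 M m a u ms j := by
  rw [E91.Dat.N3p, I_eq G ht (by rw [show (eD M m a u ms).un 0 = 0 from rfl]; simp)]
  refine Finset.sum_le_sum fun k hk => mul_le_mul_of_nonneg_left ?_ (G.dz_nonneg k)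
  rw [eD_un (Finset.mem_range.1 hk)]
  exact mul_le_mul_of_nonneg_right (gz_le G h0 j (Finset.mem_range.1 hk)) (pow_nonneg (hu.u0 k).1 3)

theorem rt2_eq (hm : 0 < m) {k : ℕ} (hk : k < M.N) : (eD M m a u ms).rt2 (k + 1) = r2 M m a k := by
  rw [E91.Dat.rt2, eD_q hk, r2, rh_eq (sl_cov hm)]; rfl

theorem V_eq (k : ℕ) : (eD M m a u ms).V (k + 1) = Vn M m a k := Eg33.V_eq' _ Link33.wt1 _

theorem r2_nn (k : ℕ) : 0 ≤ r2 M m a k := node_nonneg _ (fun _ => sq_nonneg _) _ _ _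

theorem Vn_nn (k : ℕ) : 0 ≤ Vn M m a k :=
  add_nonneg (tc_nonneg _ _ _ _) (mul_nonneg zero_le_two (vv_nonneg Link33.wt1 _ _ _ _))

theorem VV_le (G : Lg M m a) (j : ℕ) : (eD M m a u ms).VV (j + 1) ≤ VVn M m a j := by
  rw [Eg33.VV_eq _ Link33.wt1, ← Finset.range_eq_Ico, Finset.sum_range_succ', Eg33.cw,
    if_pos eD_t0, zero_mul, add_zero]
  exact Finset.sum_le_sum fun k _ => mul_le_mul_of_nonneg_right (Eg33.cw_le _ G.monoL _)
    (Eg33.vt_nonneg Link33.wt1 _ _ _ _ _)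

theorem lg (A : At S M m a T) : Lg M m a := lg_cl A.cl (n_pos A.cl) A.mem

theorem sb_same (A : At S M m a T) {k : ℕ} (hk : k ≤ S.Jp) :
    sb M m a (k + 1) ∈ Icc 0 (min T (kp m * M.b + M.H M.N)) := by
  have G := lg A
  refine ⟨sb_nn G k, le_min (A.sb_mem hk).2 ?_⟩
  have h1 := mul_le_mul_of_nonneg_left (d_le_b G.toLeg (A.jp_le hk)) (kp_mem m).1
  have h2 := mul_le_of_le_one_right (mul_nonneg (kp_mem m).1 (d_nonneg G.toLeg k))
    (rb_le_one (M := M) (a := a) G.m0 k)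
  have h3 := G.Hm (A.jp_le hk)
  simp only [sb]; linarith

theorem same (A : At S M m a T) : Ker.Same (lb M S m a T) (opV m 1 (M.Mx a) (qx M (M.rb m a)))
    (min T (kp m * M.b + M.H M.N)) :=
  (A.same_op ((rf_rb A.m_pos a).ook A.cl.leg) fun _ hk => qx_succ (hk.trans_lt A.cl.i4)).2.2.2

theorem sig_eq (k : ℕ) :
    tp M m k * M.rb m a k + M.H k = sb M m a (k + 1) := by simp only [sb, tp, kp]; ring

/-- the residual of `EDef_91` is the residual of `ClZb_9` -/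
theorem res_eq (A : At S M m a T) {k : ℕ} (hk : k ≤ S.Jp) :
    (eD M m a u ms).res (k + 1) = res M S m a T k := by
  have G := lg A
  have k1 := hk.trans_lt A.cl.i4
  have e := pi2_sub One15.w1 (eD M m a u ms).T (k + 1) (fun e e' => spin e * spin e')
    (fun _ _ => (eD M m a u ms).q (k + 1)) 0
  rw [pi2_const One15.w1, eD_q k1] at e
  have g := Gam_Mx (m := m) (a := a) G.toLeg (rf_rb G.m0 a) k1
  rw [sig_eq, (same A).gam _ (sb_same A hk)] at g
  rw [res, ← g, E91.Dat.res]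
  rw [← eD_q (m := m) (a := a) (u := u) (ms := ms) k1] at e ⊢
  exact e

/-- the site number against `Γ''` of the mean profile -/
theorem kap_le (A : At S M m a T) {k : ℕ} (h1 : S.jl ≤ k) (hk : k ≤ S.Jp) :
    |(eD M m a u ms).kap (k + 1) - 4 * L0.Gd (lb M S m a T) (sb M m a (k + 1))| ≤
      15360 * M.dz m a k := by
  have G := lg A
  have k1 := hk.trans_lt A.cl.i4
  have e := Ef49.kap_op (n := m) (β := 1) ((rf_rb G.m0 a).ook (a := a) G.toLeg)
    (adm_Mx G A.a_pos (rf_rb G.m0 a)) (sl m) (ux M u)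
    (fun y => Ker15.tm (opS m 1 (M.Mx a) (qx M (M.rb m a))) y + ms) ms (Nat.succ_pos k)
    (by rw [len_Mx]; omega)
  rw [oTau_tp k1.le, qx_succ k1, fAcc_Mx G.toLeg k1.le, sig_eq, (same A).nn _ (sb_same A hk),
    (same A).aa _ (sb_same A hk)] at e
  erw [ex_succ G.toLeg] at e
  rw [← A.lvb_node h1 hk] at e
  exact e

theorem d_lo (h : Cl S M) (k : ℕ) : 1 / S.C ≤ M.d k := by
  have c : 1 / S.C ≤ 1 := (div_le_one (by linarith [h.C1])).2 h.C1
  have := h.b0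
  have := h.leg.dm (Nat.zero_le k)
  linarith

theorem t_ne (A : At S M m a T) {k : ℕ} (hk : k ≤ S.Jp) : (eD M m a u ms).t (k + 1) ≠ 0 := by
  have : 0 < M.d k := (one_div_pos.2 A.c_pos).trans_le (d_lo A.cl k)
  have m0 : (0 : ℝ) < m := Nat.cast_pos.2 A.m_pos
  rw [eD_t, oTau_tp (A.jp_le hk), tp]
  positivity

theorem eta0_le (A : At S M m a T) (h0 : 0 < ms) {k : ℕ} (h1 : S.jl ≤ k) (hk : k ≤ S.Jp)
    (hd : M.dz m a k ≤ ms) {n3 n3' : ℝ} (h3 : n3 ≤ n3') (G : ℝ) :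
    (eD M m a u ms).eta0 n3 G (k + 1) ≤ en M m a u ms n3' G k +
      4 * r2 M m a k * |L0.Gd (lb M S m a T) (sb M m a (k + 1))| := by
  have L := lg A
  have t := top_cl A.cl
  have k1 := hk.trans_lt A.cl.i4
  have a1 := kap_le (u := u) (ms := ms) A h1 hk
  have a2 : |(eD M m a u ms).kap (k + 1)| ≤
      15360 * ms + 4 * |L0.Gd (lb M S m a T) (sb M m a (k + 1))| := by
    have := abs_sub_abs_le_abs_sub ((eD M m a u ms).kap (k + 1))
      (4 * L0.Gd (lb M S m a T) (sb M m a (k + 1)))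
    rw [abs_mul, abs_of_pos (show (0 : ℝ) < 4 by norm_num)] at this
    linarith
  have a3 := mul_le_mul_of_nonneg_right a2 (r2_nn (M := M) (m := m) (a := a) k)
  have a4 := mul_le_mul_of_nonneg_right (pz_le (u := u) L h0 k1) (Vn_nn (M := M) (m := m) (a := a) k)
  have a5 := VV_le (u := u) (ms := ms) L k
  rw [E91.Dat.eta0, E91.Dat.crude, rt2_eq L.m0 k1, V_eq, eD_un k1, N_eq L t one_ne_zero,
    N_eq L t two_ne_zero, N_eq L t (by decide : 4 ≠ 0), en, show (eD M m a u ms).ms = ms from rfl]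
  linarith

theorem Nu_nn (G : Lg M m a) (hu : Mj M m a u) (i : ℕ) : 0 ≤ Nu M m a u i :=
  Finset.sum_nonneg fun k _ => mul_nonneg (G.dz_nonneg k) (pow_nonneg (hu.u0 k).1 i)

theorem rb_sub (A : At S M m a T) {i j : ℕ} (hij : i ≤ j) :
    M.rb m a j - M.rb m a i ≤ 2 * S.C * (sb M m a (j + 1) - sb M m a (i + 1)) := by
  have G := lg A
  have m1 : (1 : ℝ) ≤ m := Nat.one_le_cast.2 A.m_pos
  have k1 : 1 / 2 ≤ kp m := by rw [kp, div_le_div_iff₀ two_pos (by positivity)]; linarith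
  have c0 := A.c_pos
  have p : 1 / 2 * (1 / S.C) ≤ kp m * M.d i :=
    mul_le_mul k1 (d_lo A.cl i) (by positivity) (kp_mem m).1
  have q := mul_le_mul_of_nonneg_right (mul_le_mul_of_nonneg_left (G.dm hij) (kp_mem m).1)
    (rb_nonneg (M := M) (a := a) G.m0 j)
  have r := mul_le_mul_of_nonneg_right p (sub_nonneg.2 (Md67.rb_mono (M := M) (a := a) G.m0 hij))
  have := G.Hm hij
  rw [← div_le_iff₀' (by positivity), show (M.rb m a j - M.rb m a i) / (2 * S.C) =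
    1 / 2 * (1 / S.C) * (M.rb m a j - M.rb m a i) by field_simp]
  simp only [sb]; linarith

theorem clk_le (A : At S M m a T) (hu : Mj M m a u) {i j : ℕ} (hij : i < j) (hj : j ≤ S.Jp) :
    (eD M m a u ms).clk (i + 1) (j + 1) ≤
      (1 + 2 * S.C) * Nu M m a u 2 * (sb M m a (j + 1) - sb M m a (i + 1)) +
        (Nu M m a u 2 * (M.z j - M.z i) + ∑ k ∈ Finset.Ioo i j, M.dz m a k * u k ^ 2) := by
  have G := lg A
  have j1 := hj.trans_lt A.cl.i4
  have e : ∑ y ∈ Finset.Ioo (i + 1) (j + 1), dm (eD M m a u ms).L 0 y * (eD M m a u ms).un y ^ 2 =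
      ∑ k ∈ Finset.Ioo i j, M.dz m a k * u k ^ 2 := by
    rw [← Finset.map_add_right_Ioo, Finset.sum_map]
    exact Finset.sum_congr rfl fun k hk => by
      have := (Finset.mem_Ioo.1 hk).2
      show M.dz m a k * (eD M m a u ms).un (k + 1) ^ 2 = _
      rw [eD_un (by omega)]
  have := mul_le_mul_of_nonneg_left (rb_sub A hij.le) (Nu_nn G hu 2)
  rw [E91.Dat.clk, e, N_eq G (top_cl A.cl) two_ne_zero, tm_eq G j1, tm_eq G (hij.trans j1), eD_L,
    ex_succ G.toLeg, ex_succ G.toLeg, eD_q j1, eD_q (hij.trans j1)]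
  linarith

/-- `N 3` or its parity form -/
def n3 (p : Bool) (M : Md) (m : ℕ) (a : ℝ) (u : ℕ → ℝ) (ms : ℝ) (j : ℕ) : ℝ :=
  if p then N3 M m a u ms j else Nu M m a u 3

/-- a test node: in `[jl, Jp]`, small weight, weak input `G` -/
structure Tn (S : Sc) (M : Md) (m : ℕ) (a : ℝ) (u : ℕ → ℝ) (ms : ℝ) (k : ℕ) (G : ℝ) : Prop where
  lo : S.jl ≤ k
  hi : k ≤ S.Jp
  dz : M.dz m a k ≤ ms
  gm : (eD M m a u ms).Gm (k + 1) G

/-- **(E1) on the class**, absolute and difference form -/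
def E1C (p : Bool) : Prop := ∀ tb : ℝ, ∃ C : ℝ, 0 ≤ C ∧ ∀ (S : Sc) (M : Md) (m : ℕ) (a T : ℝ)
  (u : ℕ → ℝ) (ms : ℝ), At S M m a T → M.b ≤ tb → Mj M m a u → 0 < ms → ∀ i G, Tn S M m a u ms i G →
    |res M S m a T i| ≤ C * (en M m a u ms (n3 p M m a u ms i) G i +
      4 * r2 M m a i * |L0.Gd (lb M S m a T) (sb M m a (i + 1))| + Nu M m a u 2) ∧
    ∀ j G', Tn S M m a u ms j G' → i < j → |res M S m a T j - res M S m a T i| ≤
      C * (en M m a u ms (n3 p M m a u ms i) G i +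
        4 * r2 M m a i * |L0.Gd (lb M S m a T) (sb M m a (i + 1))| +
        (en M m a u ms (n3 p M m a u ms j) G' j +
        4 * r2 M m a j * |L0.Gd (lb M S m a T) (sb M m a (j + 1))|) +
        ((1 + 2 * S.C) * Nu M m a u 2 * (sb M m a (j + 1) - sb M m a (i + 1)) +
        (Nu M m a u 2 * (M.z j - M.z i) + ∑ k ∈ Finset.Ioo i j, M.dz m a k * u k ^ 2)))

theorem e1C_of {p : Bool} (h : E91.E1S p) : E1C p := fun tb => by
  obtain ⟨C, C0, h⟩ := h tb
  refine ⟨C, C0, fun S M m a T u ms A hb hu h0 i G Ti => ?_⟩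
  have L := lg A
  have t := top_cl A.cl
  have h3 : ∀ k, (if p then (eD M m a u ms).N3p (k + 1) else (eD M m a u ms).N 3) ≤
      n3 p M m a u ms k := fun k => by
    cases p
    · exact (N_eq L t (by decide : 3 ≠ 0)).le
    · exact N3p_le L t hu h0 k
  have K : ∀ k ≤ S.Jp, k + 1 < (eD M m a u ms).K := fun k hk => by
    rw [eD_K]; exact Nat.succ_lt_succ (hk.trans_lt A.cl.i4)
  obtain ⟨h1, h2⟩ := h m 1 _ _ _ _ _ _ L.m0 ((rf_rb L.m0 a).ook L.toLeg) (sl_cov L.m0)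
    (eD M m a u ms) rfl (eD_ok L t hu h0 hb) (i + 1) (K i Ti.hi) (t_ne A Ti.hi) Ti.dz G Ti.gm
  have ei := eta0_le (u := u) A h0 Ti.lo Ti.hi Ti.dz (h3 i) G
  refine ⟨?_, fun j G' Tj hij => ?_⟩
  · rw [res_eq A Ti.hi, N_eq L t two_ne_zero] at h1
    exact h1.trans (mul_le_mul_of_nonneg_left (by linarith) C0)
  · have := h2 (j + 1) (K j Tj.hi) (Nat.succ_lt_succ hij) (t_ne A Tj.hi) Tj.dz G' Tj.gm
    rw [res_eq A Ti.hi, res_eq A Tj.hi] at this
    have ej := eta0_le (u := u) A h0 Tj.lo Tj.hi Tj.dz (h3 j) G'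
    have ck := clk_le (ms := ms) A hu hij Tj.hi
    exact this.trans (mul_le_mul_of_nonneg_left (by linarith) C0)

theorem e1C (p : Bool) : E1C p := e1C_of (E91.e1S p)

end Crest.Agent.T156.Alt.E61

end
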