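import Crest.Agent.T156.QOne_33

/-!
# Row 156, block (Q): fluctuations about the mean profile (helper5)

Sandwich between two windows of nodes, abstract window systems, sliding windows, optimisation of
the window length, gaps and good nodes, higher moments.
-/

set_option autoImplicit false
set_option linter.unusedSectionVars false

noncomputable section

namespace Crest.Agent.T156.Cas.Wr5

open MeasureTheory Real Set Filter Topology
open Crest.Agent.T157.E Crest.Agent.T157.Casc Crest.Agent.T157.SL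
open Crest.Agent.T156.Cas.Sy41 Crest.Agent.T156.Cas.Q33

/-! ### frame-free facts -/

theorem sum_ind {N : ℕ} {U : Finset ℕ} (hU : ∀ k ∈ U, 1 ≤ k ∧ k ≤ N) (d G : ℕ → ℝ) (c : ℝ) :
    ∑ k ∈ Finset.range N, d (k + 1) * (if k + 1 ∈ U then c else 0) * G (k + 1) =
      c * ∑ k ∈ U, d k * G k := by
  rw [Finset.range_eq_Ico, Finset.sum_Ico_add' (fun k => d k * (if k ∈ U then c else 0) * G k) 0 N 1,
    zero_add, Finset.mul_sum]
  rw [← Finset.sum_subset (s₁ := U) (fun k hk => by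
    have := hU k hk; exact Finset.mem_Ico.2 ⟨this.1, by omega⟩) fun k _ hk => by simp [hk]]
  exact Finset.sum_congr rfl fun k hk => by rw [if_pos hk]; ring

/-- double sums with bounded multiplicity -/
theorem sum_mult {S E : Finset ℕ} {W : ℕ → Finset ℕ} {F : ℕ → ℝ} {u : ℕ} (hW : ∀ j ∈ S, W j ⊆ E)
    (hF : ∀ k ∈ E, 0 ≤ F k) (hu : ∀ k ∈ E, (S.filter fun j => k ∈ W j).card ≤ u) :
    ∑ j ∈ S, ∑ k ∈ W j, F k ≤ u * ∑ k ∈ E, F k := by
  have e : ∀ j ∈ S, ∑ k ∈ W j, F k = ∑ k ∈ E, if k ∈ W j then F k else 0 := fun j hj => by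
    rw [← Finset.sum_filter]
    congr 1
    ext k
    simp only [Finset.mem_filter]
    exact ⟨fun h => ⟨hW j hj h, h⟩, fun h => h.2⟩
  rw [Finset.sum_congr rfl e, Finset.sum_comm, Finset.mul_sum]
  refine Finset.sum_le_sum fun k hk => ?_
  rw [← Finset.sum_filter, Finset.sum_const, nsmul_eq_mul]
  exact mul_le_mul_of_nonneg_right (by exact_mod_cast hu k hk) (hF k hk)

theorem avg_le {U : Finset ℕ} {d r : ℕ → ℝ} (hd : ∀ k, 0 ≤ d k) (hM : 0 < ∑ k ∈ U, d k) {q e : ℝ}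
    (he : ∀ k ∈ U, |r k - q| ≤ e) :
    ((∑ k ∈ U, d k)⁻¹ * ∑ k ∈ U, d k * r k - q) ^ 2 ≤ e ^ 2 := by
  set M := ∑ k ∈ U, d k with hMd
  have e1 : M⁻¹ * ∑ k ∈ U, d k * r k - q = M⁻¹ * ∑ k ∈ U, d k * (r k - q) := by
    simp only [mul_sub, Finset.sum_sub_distrib, ← Finset.sum_mul, ← hMd]
    field_simp
  have e2 : |∑ k ∈ U, d k * (r k - q)| ≤ M * e := by
    refine (Finset.abs_sum_le_sum_abs _ _).trans ?_
    rw [hMd, Finset.sum_mul]
    refine Finset.sum_le_sum fun k hk => ?_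
    rw [abs_mul, abs_of_nonneg (hd k)]
    exact mul_le_mul_of_nonneg_left (he k hk) (hd k)
  have e3 : |M⁻¹ * ∑ k ∈ U, d k * (r k - q)| ≤ e := by
    rw [abs_mul, abs_of_pos (inv_pos.2 hM), inv_mul_le_iff₀ hM]
    exact e2
  rw [e1, ← sq_abs]
  exact pow_le_pow_left₀ (abs_nonneg _) e3 2

/-- excess form of the moment interpolation -/
theorem pow_le_exc (t : ℝ) {M : ℝ} (hM : 0 ≤ M) (k : ℕ) :
    |t| ^ (k + 2) ≤ (2 * M) ^ k * t ^ 2 + 2 ^ (k + 2) * max (|t| - M) 0 ^ (k + 2) := by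
  have h0 := abs_nonneg t
  have h1 : 0 ≤ (2 * M) ^ k * t ^ 2 := by positivity
  have h2 : (0 : ℝ) ≤ 2 ^ (k + 2) * max (|t| - M) 0 ^ (k + 2) := by positivity
  rcases le_total |t| (2 * M) with h | h
  · rw [pow_add, sq_abs]
    exact le_add_of_le_of_nonneg
      (mul_le_mul_of_nonneg_right (pow_le_pow_left₀ h0 h k) (sq_nonneg t)) h2
  · rw [← mul_pow]
    refine le_add_of_nonneg_of_le h1 (pow_le_pow_left₀ h0 ?_ _)
    linarith [le_max_left (|t| - M) 0]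

/-- moment form of the interpolation -/
theorem pow_le_mom (t : ℝ) {M : ℝ} (hM : 0 < M) (k d : ℕ) :
    |t| ^ (k + 2) ≤ M ^ k * t ^ 2 + |t| ^ (k + 2 + d) / M ^ d := by
  have h0 := abs_nonneg t
  rcases le_total |t| M with h | h
  · rw [pow_add, sq_abs]
    exact le_add_of_le_of_nonneg
      (mul_le_mul_of_nonneg_right (pow_le_pow_left₀ h0 h k) (sq_nonneg t)) (by positivity)
  · refine le_add_of_nonneg_of_le (by positivity) ?_
    rw [le_div_iff₀ (by positivity), pow_add _ (k + 2) d]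
    exact mul_le_mul_of_nonneg_left (pow_le_pow_left₀ hM.le h d) (by positivity)

theorem eg_exc {α : Type} [Fintype α] {F : (α → ℝ) → ℝ} (hF : Eg F) (M : ℝ) :
    Eg fun z => max (|F z| - M) 0 := by
  have e : ∀ z, max (|F z| - M) 0 = 1 / 2 * (|F z| - M + |(|F z| - M)|) := fun z => by
    rcases le_total (|F z| - M) 0 with k | k
    · rw [max_eq_right k, abs_of_nonpos k]; ring
    · rw [max_eq_left k, abs_of_nonneg k]; ring
  simp only [e]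
  exact ((hF.abs.sub (Eg.const M)).add (hF.abs.sub (Eg.const M)).abs).const_mul _

variable {Ω : Type} [Fintype Ω] {w : Ω → ℝ}

/-- `E (ρ_j - q)²` -/
def sq2 (w : Ω → ℝ) (L : List (Lv Ω)) (l₀ : Lv Ω) (h : Ω → ℝ) (q : ℝ) (j : ℕ) : ℝ :=
  node w L j (fun z => (rr w (L.drop j) l₀ z - q) ^ 2) h

/-- `Var ρ_j` -/
def vr (w : Ω → ℝ) (L : List (Lv Ω)) (l₀ : Lv Ω) (h : Ω → ℝ) (j : ℕ) : ℝ :=
  sq2 w L l₀ h (rho w L l₀ h j) j

/-- `∑_S dm_k E mᵀ A m` -/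
def al (w : Ω → ℝ) (L : List (Lv Ω)) (l₀ : Lv Ω) (h : Ω → ℝ) (S : Finset ℕ) : ℝ :=
  ∑ k ∈ S, dm L 0 k * aa w L l₀ h k

/-- `∑_S dm_k E V` -/
def vl (w : Ω → ℝ) (L : List (Lv Ω)) (l₀ : Lv Ω) (h : Ω → ℝ) (S : Finset ℕ) : ℝ :=
  ∑ k ∈ S, dm L 0 k * vv w L l₀ h k

variable {L : List (Lv Ω)} {l₀ : Lv Ω}

theorem sq2_nonneg (L : List (Lv Ω)) (l₀ : Lv Ω) (h : Ω → ℝ) (q : ℝ) (j : ℕ) :
    0 ≤ sq2 w L l₀ h q j := node_nonneg w (fun _ => sq_nonneg _) L j h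

theorem vr_nonneg (L : List (Lv Ω)) (l₀ : Lv Ω) (h : Ω → ℝ) (j : ℕ) : 0 ≤ vr w L l₀ h j :=
  sq2_nonneg L l₀ h _ j

/-- bias plus variance -/
theorem sq2_eq (hw : Wt w) (L : List (Lv Ω)) (l₀ : Lv Ω) (h : Ω → ℝ) (q : ℝ) (j : ℕ) :
    sq2 w L l₀ h q j = vr w L l₀ h j + (rho w L l₀ h j - q) ^ 2 := by
  have er := eg_rr hw (L.drop j) l₀
  have e : ∀ q : ℝ, sq2 w L l₀ h q j = node w L j (fun z => rr w (L.drop j) l₀ z ^ 2) h +
      (-(2 * q)) * rho w L l₀ h j + q ^ 2 := fun q => by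
    have e1 : (fun z => (rr w (L.drop j) l₀ z - q) ^ 2) = fun z =>
        rr w (L.drop j) l₀ z ^ 2 + (-(2 * q)) * rr w (L.drop j) l₀ z + q ^ 2 := by
      funext z; ring
    rw [sq2, e1, node_add hw ((er.pow 2).add (er.const_mul _)) (Eg.const _),
      node_add hw (er.pow 2) (er.const_mul _), node_const_mul]
    simp only [C.node_const hw]
    rfl
  rw [vr, e, e]; ring

theorem al_nonneg (hw : Wt w) (hL : Mono 0 L) (l₀ : Lv Ω) (h : Ω → ℝ) (S : Finset ℕ) :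
    0 ≤ al w L l₀ h S :=
  Finset.sum_nonneg fun k _ => mul_nonneg (dm_nonneg hL k) (aa_nonneg hw hL l₀ h k)

theorem vl_nonneg (hw : Wt w) (hL : Mono 0 L) (l₀ : Lv Ω) (h : Ω → ℝ) (S : Finset ℕ) :
    0 ≤ vl w L l₀ h S :=
  Finset.sum_nonneg fun k _ => mul_nonneg (dm_nonneg hL k) (vv_nonneg hw l₀ h L k)

theorem vl_le (hw : Wt w) (hL : Mono 0 L) (l₀ : Lv Ω) (h : Ω → ℝ) {S : Finset ℕ} {x : ℝ}
    (hx : 0 < x) (hx' : ∀ j ∈ S, x ≤ ex L j) : vl w L l₀ h S ≤ al w L l₀ h S / x :=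
  vv_win hw hL l₀ h (fun k _ => dm_nonneg hL k) hx hx'

/-- pairs: `E (R - q)² = E (ρ - q)² + tr C² + 2 V` -/
theorem pair_eq (hw : Wt w) (L : List (Lv Ω)) (l₀ : Lv Ω) (h : Ω → ℝ) (q : ℝ) (j : ℕ) :
    pi2 w L j (fun x y => (l₀.cov x y - q) ^ 2) h =
      sq2 w L l₀ h q j + tc w L l₀ h j + 2 * vv w L l₀ h j := by
  rw [pi2_sq hw, sq2, tc, vv]; ring

/-! ### higher moments -/

theorem node_exc (hw : Wt w) (L : List (Lv Ω)) (l₀ : Lv Ω) (h : Ω → ℝ) (q : ℝ) (j : ℕ) {M : ℝ}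
    (hM : 0 ≤ M) (k : ℕ) :
    node w L j (fun z => |rr w (L.drop j) l₀ z - q| ^ (k + 2)) h ≤ (2 * M) ^ k * sq2 w L l₀ h q j +
      2 ^ (k + 2) * node w L j (fun z => max (|rr w (L.drop j) l₀ z - q| - M) 0 ^ (k + 2)) h := by
  have er := (eg_rr hw (L.drop j) l₀).sub (Eg.const q)
  exact node_le2 hw (er.abs.pow _) (er.pow 2) ((eg_exc er M).pow _) (fun z => pow_le_exc _ hM k) L j h

theorem node_mom (hw : Wt w) (L : List (Lv Ω)) (l₀ : Lv Ω) (h : Ω → ℝ) (q : ℝ) (j : ℕ) {M : ℝ}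
    (hM : 0 < M) (k d : ℕ) :
    node w L j (fun z => |rr w (L.drop j) l₀ z - q| ^ (k + 2)) h ≤ M ^ k * sq2 w L l₀ h q j +
      node w L j (fun z => |rr w (L.drop j) l₀ z - q| ^ (k + 2 + d)) h / M ^ d := by
  have er := (eg_rr hw (L.drop j) l₀).sub (Eg.const q)
  rw [div_eq_inv_mul]
  exact node_le2 hw (er.abs.pow _) (er.pow 2) (er.abs.pow _)
    (fun z => by rw [← div_eq_inv_mul]; exact pow_le_mom _ hM k d) L j h

theorem pi2_le2 (hw : Wt w) (L : List (Lv Ω)) (j : ℕ) {K A B : Ω → Ω → ℝ} {a b : ℝ}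
    (e : ∀ x y, K x y ≤ a * A x y + b * B x y) (h : Ω → ℝ) :
    pi2 w L j K h ≤ a * pi2 w L j A h + b * pi2 w L j B h :=
  node_le2 hw (eg_qf hw _ K) (eg_qf hw _ A) (eg_qf hw _ B) (fun z => by
    rw [← qf_const_mul, ← qf_const_mul, ← qf_add]
    exact qf_mono (P_nonneg hw _ z) e) L j h

theorem pair_exc (hw : Wt w) (L : List (Lv Ω)) (l₀ : Lv Ω) (h : Ω → ℝ) (q : ℝ) (j : ℕ) {M : ℝ}
    (hM : 0 ≤ M) (k : ℕ) :
    pi2 w L j (fun x y => |l₀.cov x y - q| ^ (k + 2)) h ≤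
      (2 * M) ^ k * (sq2 w L l₀ h q j + tc w L l₀ h j + 2 * vv w L l₀ h j) +
      2 ^ (k + 2) * pi2 w L j (fun x y => max (|l₀.cov x y - q| - M) 0 ^ (k + 2)) h := by
  rw [← pair_eq hw]
  exact pi2_le2 hw L j (fun x y => pow_le_exc _ hM k) h

theorem pair_mom (hw : Wt w) (L : List (Lv Ω)) (l₀ : Lv Ω) (h : Ω → ℝ) (q : ℝ) (j : ℕ) {M : ℝ}
    (hM : 0 < M) (k d : ℕ) :
    pi2 w L j (fun x y => |l₀.cov x y - q| ^ (k + 2)) h ≤
      M ^ k * (sq2 w L l₀ h q j + tc w L l₀ h j + 2 * vv w L l₀ h j) +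
      pi2 w L j (fun x y => |l₀.cov x y - q| ^ (k + 2 + d)) h / M ^ d := by
  rw [← pair_eq hw, div_eq_inv_mul]
  exact pi2_le2 hw L j (fun x y => by rw [← div_eq_inv_mul]; exact pow_le_mom _ hM k d) h

/-! ### windows -/

section win
variable (hw : Wt w) (hL : Mono 0 L) (h : Ω → ℝ) {T : Set (Equiv.Perm Ω)}
  (hT : ∀ τ ∈ T, Sym w L h τ) (htr : ∀ x y, w x ≠ 0 → w y ≠ 0 → ∃ τ ∈ T, τ x = y)
  (h₀ : ∀ τ ∈ T, ∀ x y, l₀.cov (τ x) (τ y) = l₀.cov x y)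
include hw hL hT htr h₀

/-- **one node between two windows** -/
theorem sq_win {j : ℕ} {U D : Finset ℕ} (hU : ∀ k ∈ U, j ≤ k ∧ 1 ≤ k ∧ k ≤ L.length)
    (hD : ∀ k ∈ D, k ≤ j ∧ 1 ≤ k ∧ k ≤ L.length) {M M' : ℝ} (hM : 0 < M) (hM' : 0 < M')
    (h1 : M ≤ ∑ k ∈ U, dm L 0 k) (h2 : M' ≤ ∑ k ∈ D, dm L 0 k) {q e e' : ℝ}
    (he : ∀ k ∈ U, |rho w L l₀ h k - q| ≤ e) (he' : ∀ k ∈ D, |rho w L l₀ h k - q| ≤ e') :
    sq2 w L l₀ h q j ≤ 8 * (al w L l₀ h U / M ^ 2) + 8 * (al w L l₀ h D / M' ^ 2) + 2 * e ^ 2 +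
      2 * e' ^ 2 + 8 * vv w L l₀ h j + 8 * (vl w L l₀ h D / M') := by
  have p1 := hM.trans_le h1
  have p2 := hM'.trans_le h2
  have a1 := avg_le (r := rho w L l₀ h) (dm_nonneg hL) p1 he
  have a2 := avg_le (r := rho w L l₀ h) (dm_nonneg hL) p2 he'
  have u1 : ∀ k ∈ U, 1 ≤ k ∧ k ≤ L.length := fun k hk => (hU k hk).2
  have u2 : ∀ k ∈ D, 1 ≤ k ∧ k ≤ L.length := fun k hk => (hD k hk).2
  set MU := ∑ k ∈ U, dm L 0 k with hMU
  set MD := ∑ k ∈ D, dm L 0 k with hMD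
  have i1 := inv_pos.2 p1
  have i2 := inv_pos.2 p2
  have key := sand hw hL h hT htr l₀ h₀ j (φ := fun k => if k ∈ U then MU⁻¹ else 0)
    (φ' := fun k => if k ∈ D then MD⁻¹ else 0) (b := MU⁻¹ + MD⁻¹)
    (fun k => by split_ifs <;> constructor <;> linarith)
    (fun k => by split_ifs <;> constructor <;> linarith)
    (by have := sum_ind u1 (dm L 0) (fun _ => 1) MU⁻¹
        simp only [mul_one] at this
        rw [this, ← hMU, inv_mul_cancel₀ p1.ne'])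
    (by have := sum_ind u2 (dm L 0) (fun _ => 1) MD⁻¹
        simp only [mul_one] at this
        rw [this, ← hMD, inv_mul_cancel₀ p2.ne'])
    (fun k hk => if_neg fun hk' => by have := (hU k hk').1; omega)
    (fun k hk => if_neg fun hk' => by have := (hD k hk').1; omega) q
  have e1 : ∀ (S : Finset ℕ) (c : ℝ) (k : ℕ), (if k ∈ S then c else 0) ^ 2 =
      if k ∈ S then c ^ 2 else 0 := fun S c k => by split_ifs <;> simp
  simp only [e1, mul_add, add_mul, Finset.sum_add_distrib] at key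
  rw [sum_ind u1 (dm L 0) (fun k => node w L k (mAm w (L.drop k) l₀) h),
    sum_ind u2 (dm L 0) (fun k => node w L k (mAm w (L.drop k) l₀) h),
    sum_ind u1 (dm L 0) (rho w L l₀ h), sum_ind u2 (dm L 0) (rho w L l₀ h),
    sum_ind u2 (dm L 0) (fun k => node w L k (Vq w (L.drop k) l₀) h)] at key
  have b1 : MU⁻¹ ^ 2 * al w L l₀ h U ≤ al w L l₀ h U / M ^ 2 := by
    rw [inv_pow, ← div_eq_inv_mul]
    exact div_le_div_of_nonneg_left (al_nonneg hw hL l₀ h U) (by positivity)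
      (pow_le_pow_left₀ hM.le h1 2)
  have b2 : MD⁻¹ ^ 2 * al w L l₀ h D ≤ al w L l₀ h D / M' ^ 2 := by
    rw [inv_pow, ← div_eq_inv_mul]
    exact div_le_div_of_nonneg_left (al_nonneg hw hL l₀ h D) (by positivity)
      (pow_le_pow_left₀ hM'.le h2 2)
  have b3 : MD⁻¹ * vl w L l₀ h D ≤ vl w L l₀ h D / M' := by
    rw [← div_eq_inv_mul]
    exact div_le_div_of_nonneg_left (vl_nonneg hw hL l₀ h D) hM' h2
  simp only [al, vl, aa, vv] at b1 b2 b3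
  simp only [sq2, al, vl, aa, vv]
  linarith

/-- **abstract window system**: masses `≥ M`, multiplicity `≤ u` -/
theorem sq_sys {S E : Finset ℕ} {U D : ℕ → Finset ℕ} (hE : ∀ k ∈ E, 1 ≤ k ∧ k ≤ L.length)
    (hU : ∀ j ∈ S, U j ⊆ E ∧ ∀ k ∈ U j, j ≤ k) (hD : ∀ j ∈ S, D j ⊆ E ∧ ∀ k ∈ D j, k ≤ j)
    {M : ℝ} (hM : 0 < M) (h1 : ∀ j ∈ S, M ≤ ∑ k ∈ U j, dm L 0 k)
    (h2 : ∀ j ∈ S, M ≤ ∑ k ∈ D j, dm L 0 k) {u : ℕ}
    (m1 : ∀ k ∈ E, (S.filter fun j => k ∈ U j).card ≤ u)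
    (m2 : ∀ k ∈ E, (S.filter fun j => k ∈ D j).card ≤ u) {q e e' c : ℕ → ℝ}
    (he : ∀ j ∈ S, ∀ k ∈ U j, |rho w L l₀ h k - q j| ≤ e j)
    (he' : ∀ j ∈ S, ∀ k ∈ D j, |rho w L l₀ h k - q j| ≤ e' j) {κ : ℝ} (hκ : 0 ≤ κ)
    (hc : ∀ j ∈ S, 0 ≤ c j ∧ c j ≤ κ) :
    ∑ j ∈ S, c j * sq2 w L l₀ h (q j) j ≤
      κ * u * (16 * (al w L l₀ h E / M ^ 2) + 8 * (vl w L l₀ h E / M)) +
      2 * ∑ j ∈ S, c j * (e j ^ 2 + e' j ^ 2) + 8 * ∑ j ∈ S, c j * vv w L l₀ h j := by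
  have s1 := sum_mult (fun j hj => (hU j hj).1) (fun k _ =>
    mul_nonneg (dm_nonneg hL k) (aa_nonneg hw hL l₀ h k)) m1
  have s2 := sum_mult (fun j hj => (hD j hj).1) (fun k _ =>
    mul_nonneg (dm_nonneg hL k) (aa_nonneg hw hL l₀ h k)) m2
  have s3 := sum_mult (fun j hj => (hD j hj).1) (fun k _ =>
    mul_nonneg (dm_nonneg hL k) (vv_nonneg hw l₀ h L k)) m2
  have t : ∑ j ∈ S, c j * sq2 w L l₀ h (q j) j ≤ ∑ j ∈ S,
      (κ * (8 / M ^ 2) * al w L l₀ h (U j) + κ * (8 / M ^ 2) * al w L l₀ h (D j) +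
        κ * (8 / M) * vl w L l₀ h (D j) + 2 * (c j * (e j ^ 2 + e' j ^ 2)) +
        8 * (c j * vv w L l₀ h j)) := by
    refine Finset.sum_le_sum fun j hj => ?_
    have k1 := sq_win hw hL h hT htr h₀ (j := j)
      (fun k hk => ⟨(hU j hj).2 k hk, hE k ((hU j hj).1 hk)⟩)
      (fun k hk => ⟨(hD j hj).2 k hk, hE k ((hD j hj).1 hk)⟩) hM hM (h1 j hj) (h2 j hj)
      (he j hj) (he' j hj)
    have k2 : 0 ≤ 8 * (al w L l₀ h (U j) / M ^ 2) + 8 * (al w L l₀ h (D j) / M ^ 2) +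
        8 * (vl w L l₀ h (D j) / M) := by
      have := al_nonneg hw hL l₀ h (U j)
      have := al_nonneg hw hL l₀ h (D j)
      have := vl_nonneg hw hL l₀ h (D j)
      positivity
    have k3 := mul_le_mul_of_nonneg_left k1 (hc j hj).1
    have k4 := mul_le_mul_of_nonneg_right (hc j hj).2 k2
    calc _ ≤ _ := k3
      _ = c j * (8 * (al w L l₀ h (U j) / M ^ 2) + 8 * (al w L l₀ h (D j) / M ^ 2) +
          8 * (vl w L l₀ h (D j) / M)) + 2 * (c j * (e j ^ 2 + e' j ^ 2)) +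
          8 * (c j * vv w L l₀ h j) := by ring
      _ ≤ κ * (8 * (al w L l₀ h (U j) / M ^ 2) + 8 * (al w L l₀ h (D j) / M ^ 2) +
          8 * (vl w L l₀ h (D j) / M)) + 2 * (c j * (e j ^ 2 + e' j ^ 2)) +
          8 * (c j * vv w L l₀ h j) := by linarith
      _ = _ := by ring
  simp only [Finset.sum_add_distrib, ← Finset.mul_sum] at t
  have q1 : 0 ≤ κ * (8 / M ^ 2) := by positivity
  have q2 : 0 ≤ κ * (8 / M) := by positivity
  have r1 := mul_le_mul_of_nonneg_left s1 q1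
  have r2 := mul_le_mul_of_nonneg_left s2 q1
  have r3 := mul_le_mul_of_nonneg_left s3 q2
  simp only [al, vl] at t ⊢
  calc _ ≤ _ := t
    _ ≤ κ * (8 / M ^ 2) * (u * ∑ k ∈ E, dm L 0 k * aa w L l₀ h k) +
        κ * (8 / M ^ 2) * (u * ∑ k ∈ E, dm L 0 k * aa w L l₀ h k) +
        κ * (8 / M) * (u * ∑ k ∈ E, dm L 0 k * vv w L l₀ h k) +
        2 * ∑ j ∈ S, c j * (e j ^ 2 + e' j ^ 2) + 8 * ∑ j ∈ S, c j * vv w L l₀ h j := by linarith
    _ = _ := by ring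

/-- **sliding windows** of `u` nodes -/
theorem var_blk {lo hi lo' hi' u : ℕ} (hu : 1 ≤ u) (h1 : 1 ≤ lo') (h2 : lo' + u ≤ lo) (hl : lo ≤ hi)
    (h3 : hi + u ≤ hi') (h4 : hi' ≤ L.length + 1) {δ κ J R A x : ℝ} (hδ : 0 < δ)
    (hd : ∀ k ∈ Finset.Ico lo' hi', δ ≤ dm L 0 k) (hx : 0 < x)
    (hx' : ∀ k ∈ Finset.Ico lo' hi', x ≤ ex L k) (hJ0 : 0 ≤ J)
    (hJ : ∀ i, lo' ≤ i → i < hi → rho w L l₀ h (i + u) - rho w L l₀ h i ≤ J)
    (hR : rho w L l₀ h hi' - rho w L l₀ h lo' ≤ R) (hA : al w L l₀ h (Finset.Ico lo' hi') ≤ A)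
    {c : ℕ → ℝ} (hκ : 0 ≤ κ) (hc : ∀ j ∈ Finset.Ico lo hi, 0 ≤ c j ∧ c j ≤ κ) :
    ∑ j ∈ Finset.Ico lo hi, c j * vr w L l₀ h j ≤
      κ * (16 * A / (u * δ ^ 2) + 4 * u * (J * R) + 16 * A / (x * δ)) := by
  have hρ := rho_mono hw L l₀ h
  have u0 : (0 : ℝ) < u := by exact_mod_cast hu
  have sU : ∀ j ∈ Finset.Ico lo hi, Finset.Ico j (j + u) ⊆ Finset.Ico lo' hi' := fun j hj => by
    have := Finset.mem_Ico.1 hj
    exact Finset.Ico_subset_Ico (by omega) (by omega)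
  have sD : ∀ j ∈ Finset.Ico lo hi, Finset.Ico (j + 1 - u) (j + 1) ⊆ Finset.Ico lo' hi' :=
    fun j hj => by
      have := Finset.mem_Ico.1 hj
      exact Finset.Ico_subset_Ico (by omega) (by omega)
  have ms : ∀ S ⊆ Finset.Ico lo' hi', S.card = u → u * δ ≤ ∑ k ∈ S, dm L 0 k := fun S hS e => by
    have := Finset.card_nsmul_le_sum S (dm L 0) δ fun k hk => hd k (hS hk)
    rwa [e, nsmul_eq_mul] at this
  have key := sq_sys hw hL h hT htr h₀ (S := Finset.Ico lo hi) (E := Finset.Ico lo' hi')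
    (U := fun j => Finset.Ico j (j + u)) (D := fun j => Finset.Ico (j + 1 - u) (j + 1))
    (fun k hk => by have := Finset.mem_Ico.1 hk; omega)
    (fun j hj => ⟨sU j hj, fun k hk => (Finset.mem_Ico.1 hk).1⟩)
    (fun j hj => ⟨sD j hj, fun k hk => by have := Finset.mem_Ico.1 hk; omega⟩)
    (M := u * δ) (by positivity) (fun j hj => ms _ (sU j hj) (by simp))
    (fun j hj => ms _ (sD j hj) (by have := Finset.mem_Ico.1 hj; rw [Nat.card_Ico]; omega)) (u := u)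
    (fun k _ => (Finset.card_le_card (t := Finset.Ico (k + 1 - u) (k + 1)) fun j hj => by
      have := Finset.mem_Ico.1 (Finset.mem_filter.1 hj).2
      exact Finset.mem_Ico.2 (by omega)).trans (by rw [Nat.card_Ico]; omega))
    (fun k _ => (Finset.card_le_card (t := Finset.Ico k (k + u)) fun j hj => by
      have := Finset.mem_Ico.1 (Finset.mem_filter.1 hj).2
      exact Finset.mem_Ico.2 (by omega)).trans (by rw [Nat.card_Ico]; omega))
    (q := rho w L l₀ h) (e := fun j => rho w L l₀ h (j + u) - rho w L l₀ h j)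
    (e' := fun j => rho w L l₀ h j - rho w L l₀ h (j - u)) (c := c)
    (fun j _ k hk => by
      have := Finset.mem_Ico.1 hk
      rw [abs_of_nonneg (sub_nonneg.2 (hρ this.1))]
      exact sub_le_sub_right (hρ this.2.le) _)
    (fun j _ k hk => by
      have := Finset.mem_Ico.1 hk
      rw [abs_sub_comm, abs_of_nonneg (sub_nonneg.2 (hρ (by omega)))]
      exact sub_le_sub_left (hρ (by omega)) _) hκ hc
  have R0 : 0 ≤ R := (sub_nonneg.2 (hρ (by omega))).trans hR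
  have s1 : ∑ j ∈ Finset.Ico lo hi, (rho w L l₀ h (j + u) - rho w L l₀ h j) ≤ u * R := by
    have := shift_sum_le hρ (u' := 0) (u := u) (lo := lo + u) (hi := hi + u) (Nat.zero_le _)
      (by omega) (by omega)
    rw [← Finset.sum_Ico_add' (fun J => rho w L l₀ h (J - 0) - rho w L l₀ h (J - u)) lo hi u] at this
    simp only [Nat.sub_zero, Nat.add_sub_cancel] at this
    exact this.trans (mul_le_mul_of_nonneg_left
      ((sub_le_sub (hρ h3) (hρ (by omega))).trans hR) u0.le)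
  have s2 : ∑ j ∈ Finset.Ico lo hi, (rho w L l₀ h j - rho w L l₀ h (j - u)) ≤ u * R := by
    have := shift_sum_le hρ (u' := 0) (u := u) (lo := lo) (hi := hi) (Nat.zero_le _) (by omega) hl
    simp only [Nat.sub_zero] at this
    exact this.trans (mul_le_mul_of_nonneg_left
      ((sub_le_sub (hρ (by omega)) (hρ (by omega))).trans hR) u0.le)
  have s3 : ∑ j ∈ Finset.Ico lo hi, c j * ((rho w L l₀ h (j + u) - rho w L l₀ h j) ^ 2 +
      (rho w L l₀ h j - rho w L l₀ h (j - u)) ^ 2) ≤ κ * (J * (u * R + u * R)) := by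
    refine (wsum_le (fun j hj => (hc j hj).2) fun j _ => by positivity).trans
      (mul_le_mul_of_nonneg_left ?_ hκ)
    refine le_trans ?_ (mul_le_mul_of_nonneg_left (add_le_add s1 s2) hJ0)
    rw [← Finset.sum_add_distrib, Finset.mul_sum]
    refine Finset.sum_le_sum fun j hj => ?_
    have hj' := Finset.mem_Ico.1 hj
    have a1 := hJ j (by omega) hj'.2
    have a2 := hJ (j - u) (by omega) (by omega)
    rw [Nat.sub_add_cancel (by omega)] at a2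
    have a3 := sub_nonneg.2 (hρ (Nat.le_add_right j u))
    have a4 := sub_nonneg.2 (hρ (Nat.sub_le j u))
    nlinarith [mul_le_mul_of_nonneg_right a1 a3, mul_le_mul_of_nonneg_right a2 a4]
  have v1 : vl w L l₀ h (Finset.Ico lo' hi') ≤ A / x :=
    (vl_le hw hL l₀ h hx hx').trans (div_le_div_of_nonneg_right hA hx.le)
  have s4 : ∑ j ∈ Finset.Ico lo hi, c j * vv w L l₀ h j ≤ κ * (A / x / δ) := by
    refine (wsum_le (fun j hj => (hc j hj).2) fun j _ => vv_nonneg hw l₀ h L j).trans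
      (mul_le_mul_of_nonneg_left ?_ hκ)
    rw [le_div_iff₀ hδ, Finset.sum_mul]
    refine le_trans ?_ v1
    have sS : Finset.Ico lo hi ⊆ Finset.Ico lo' hi' := Finset.Ico_subset_Ico (by omega) (by omega)
    refine (Finset.sum_le_sum fun j hj => ?_).trans (Finset.sum_le_sum_of_subset_of_nonneg sS
      fun k _ _ => mul_nonneg (dm_nonneg hL k) (vv_nonneg hw l₀ h L k))
    rw [mul_comm]
    exact mul_le_mul_of_nonneg_right (hd j (sS hj)) (vv_nonneg hw l₀ h L j)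
  have s5 : κ * u * (16 * (al w L l₀ h (Finset.Ico lo' hi') / (u * δ) ^ 2) +
      8 * (vl w L l₀ h (Finset.Ico lo' hi') / (u * δ))) ≤
      κ * u * (16 * (A / (u * δ) ^ 2) + 8 * (A / x / (u * δ))) := by gcongr
  have e : κ * u * (16 * (A / (u * δ) ^ 2) + 8 * (A / x / (u * δ))) + 2 * (κ * (J * (u * R + u * R))) +
      8 * (κ * (A / x / δ)) = κ * (16 * A / (u * δ ^ 2) + 4 * u * (J * R) + 16 * A / (x * δ)) := by
    field_simp
    ring
  simp only [vr]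
  linarith

/-- **(W′)**: the optimal window length -/
theorem var_sqrt {lo hi lo' hi' u₀ : ℕ} (hu : 1 ≤ u₀) (h1 : 1 ≤ lo') (h2 : lo' + u₀ ≤ lo)
    (hl : lo ≤ hi) (h3 : hi + u₀ ≤ hi') (h4 : hi' ≤ L.length + 1) {δ κ J R A x : ℝ} (hδ : 0 < δ)
    (hd : ∀ k ∈ Finset.Ico lo' hi', δ ≤ dm L 0 k) (hx : 0 < x)
    (hx' : ∀ k ∈ Finset.Ico lo' hi', x ≤ ex L k) (hJ0 : 0 < J) (hR0 : 0 < R)
    (hJ : ∀ i, lo' ≤ i → i < hi → rho w L l₀ h (i + u₀) - rho w L l₀ h i ≤ J)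
    (hR : rho w L l₀ h hi' - rho w L l₀ h lo' ≤ R) (hA : al w L l₀ h (Finset.Ico lo' hi') ≤ A)
    (hs : A ≤ (u₀ * δ) ^ 2 * (J * R))
    {c : ℕ → ℝ} (hκ : 0 ≤ κ) (hc : ∀ j ∈ Finset.Ico lo hi, 0 ≤ c j ∧ c j ≤ κ) :
    ∑ j ∈ Finset.Ico lo hi, c j * vr w L l₀ h j ≤
      κ * (20 * √(A * (J * R)) / δ + 4 * (J * R) + 16 * A / (x * δ)) := by
  have hρ := rho_mono hw L l₀ h
  have A0 : 0 ≤ A := (al_nonneg hw hL l₀ h _).trans hA
  set Q := J * R with hQ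
  have Q0 : 0 < Q := mul_pos hJ0 hR0
  set s := √(A * Q) with hsd
  have s0 : 0 ≤ s := sqrt_nonneg _
  have s2 : s ^ 2 = A * Q := sq_sqrt (by positivity)
  have t1 : s / (Q * δ) ≤ u₀ := by
    rw [div_le_iff₀ (by positivity), hsd]
    refine sqrt_le_iff.2 ⟨by positivity, ?_⟩
    nlinarith [mul_le_mul_of_nonneg_right hs Q0.le]
  set u := max 1 ⌈s / (Q * δ)⌉₊ with hud
  have u1 : 1 ≤ u := le_max_left _ _
  have u2 : u ≤ u₀ := max_le hu (Nat.ceil_le.2 t1)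
  have u0 : (0 : ℝ) < u := by exact_mod_cast u1
  have u3 : s / (Q * δ) ≤ u :=
    (Nat.le_ceil _).trans (by exact_mod_cast le_max_right 1 ⌈s / (Q * δ)⌉₊)
  have u4 : (u : ℝ) ≤ s / (Q * δ) + 1 := by
    have h5 : 0 ≤ s / (Q * δ) := by positivity
    rw [hud, Nat.cast_max, Nat.cast_one]
    exact max_le (by linarith) (Nat.ceil_lt_add_one h5).le
  refine (var_blk hw hL h hT htr h₀ u1 h1 (by omega) hl (by omega) h4 hδ hd hx hx' hJ0.le
    (fun i a b => (sub_le_sub_right (hρ (by omega)) _).trans (hJ i a b)) hR hA hκ hc).trans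
    (mul_le_mul_of_nonneg_left ?_ hκ)
  have b1 : 16 * A / (u * δ ^ 2) ≤ 16 * s / δ := by
    rw [div_le_iff₀ (by positivity)] at u3
    rw [div_le_div_iff₀ (by positivity) hδ]
    have : A * Q ≤ s * (u * δ) * Q := by nlinarith [mul_le_mul_of_nonneg_left u3 s0]
    nlinarith [mul_le_mul_of_nonneg_right (le_of_mul_le_mul_right this Q0) hδ.le]
  have b2 : 4 * u * Q ≤ 4 * s / δ + 4 * Q := by
    have e : (s / (Q * δ) + 1) * Q = s / δ + Q := by field_simp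
    have := mul_le_mul_of_nonneg_right u4 Q0.le
    rw [e] at this
    rw [mul_div_assoc]
    linarith
  have e : 20 * s / δ = 16 * s / δ + 4 * s / δ := by ring
  linarith

end win

/-! ### blocks of uniform mass -/

variable {τ : ℕ → ℝ} {Λ σ : ℝ} {A B : ℕ}

/-- the bound on `∑ a_J` over `N` nodes: rise `R₀` inside, look-back slope `g` -/
def lb (Λ σ : ℝ) (D N : ℕ) (top R₀ g : ℝ) : ℝ :=
  (D + 2) * (N * top / (σ * 2 ^ D) + D * ((R₀ + 2 * g * N) / σ) + Λ * (R₀ + g))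

/-- **(Q1) on a gap** whose look-back is Lipschitz -/
theorem aa_lip (H : Blk w L l₀ τ Λ σ A B) (h : Ω → ℝ) {D lo hi : ℕ} (h1 : A + 2 ^ D ≤ lo)
    (hl : lo ≤ hi) (h2 : hi ≤ B + 1) {top R₀ g : ℝ} (hR : 0 ≤ R₀) (hg0 : 0 ≤ g)
    (ht : rho w L l₀ h (hi - 1) ≤ top)
    (hg : ∀ t : ℕ, 1 ≤ t → t ≤ 2 ^ D → rho w L l₀ h (hi - 1) - rho w L l₀ h (lo - t) ≤ R₀ + g * t) :
    ∑ J ∈ Finset.Ico lo hi, aa w L l₀ h J ≤ lb Λ σ D (hi - lo) top R₀ g := by
  have hσ := H.pos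
  have hρ := rho_mono H.wt L l₀ h
  have h3 : 1 ≤ 2 ^ D := Nat.one_le_two_pow
  refine (H.aa_win h h1 hl h2).trans (mul_le_mul_of_nonneg_left ?_ (by positivity))
  refine add_le_add (add_le_add ?_ ?_) ?_
  · exact div_le_div_of_nonneg_right (mul_le_mul_of_nonneg_left ((hρ (by omega)).trans ht)
      (Nat.cast_nonneg _)) (by positivity)
  · refine (Finset.sum_le_card_nsmul _ _ ((R₀ + 2 * g * ((hi - lo : ℕ) : ℝ)) / σ) fun i hiD => ?_).trans
      (le_of_eq (by simp))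
    have h4 : 2 ^ (i + 1) ≤ 2 ^ D := Nat.pow_le_pow_right two_pos (Finset.mem_range.1 hiD)
    have h5 : 1 ≤ 2 ^ i := Nat.one_le_two_pow
    have h6 := (sub_le_sub_right (hρ (show hi - 2 ^ i ≤ hi - 1 by omega)) _).trans
      (hg (2 ^ (i + 1)) Nat.one_le_two_pow h4)
    have h7 : ((min (2 ^ i) (hi - lo) : ℕ) : ℝ) ≤ 2 ^ i := by exact_mod_cast min_le_left _ _
    have h8 : ((min (2 ^ i) (hi - lo) : ℕ) : ℝ) ≤ ((hi - lo : ℕ) : ℝ) := by
      exact_mod_cast min_le_right _ _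
    have h9 := mul_le_mul_of_nonneg_left h6 (Nat.cast_nonneg (α := ℝ) (min (2 ^ i) (hi - lo)))
    rw [div_le_div_iff₀ (by positivity) hσ]
    rw [Nat.cast_pow, Nat.cast_ofNat, pow_succ (2 : ℝ) i] at h9
    generalize ((min (2 ^ i) (hi - lo) : ℕ) : ℝ) = m at h7 h8 h9 ⊢
    have p0 : (0 : ℝ) < 2 ^ i := by positivity
    generalize (2 : ℝ) ^ i = p at h7 h9 p0 ⊢
    have k1 := mul_le_mul_of_nonneg_right h7 hR
    have k2 := mul_le_mul_of_nonneg_right h8 (show 0 ≤ g * (p * 2) by positivity)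
    have k3 : m * (rho w L l₀ h (hi - 2 ^ i) - rho w L l₀ h (lo - 2 ^ (i + 1))) ≤
        (R₀ + 2 * g * ((hi - lo : ℕ) : ℝ)) * p := by nlinarith
    nlinarith [mul_le_mul_of_nonneg_right k3 hσ.le]
  · have := hg 1 le_rfl h3
    rw [Nat.cast_one, mul_one] at this
    exact mul_le_mul_of_nonneg_left this H.lam_nonneg

theorem al_lip (H : Blk w L l₀ τ Λ σ A B) (h : Ω → ℝ) {D lo hi : ℕ} (h1 : A + 2 ^ D ≤ lo)
    (hl : lo ≤ hi) (h2 : hi ≤ B + 1) {top R₀ g κ : ℝ} (hR : 0 ≤ R₀) (hg0 : 0 ≤ g)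
    (ht : rho w L l₀ h (hi - 1) ≤ top)
    (hg : ∀ t : ℕ, 1 ≤ t → t ≤ 2 ^ D → rho w L l₀ h (hi - 1) - rho w L l₀ h (lo - t) ≤ R₀ + g * t)
    (hκ : 0 ≤ κ) (hd : ∀ k ∈ Finset.Ico lo hi, dm L 0 k ≤ κ) :
    al w L l₀ h (Finset.Ico lo hi) ≤ κ * lb Λ σ D (hi - lo) top R₀ g :=
  (wsum_le hd fun j _ => aa_nonneg H.wt H.mono l₀ h j).trans
    (mul_le_mul_of_nonneg_left (aa_lip H h h1 hl h2 hR hg0 ht hg) hκ)

/-- the bound on `a` near a good node -/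
def ag (Λ σ : ℝ) (D : ℕ) (top g : ℝ) : ℝ := (D + 2) * (top / (σ * 2 ^ D) + 3 * D * g / σ + Λ * g)

section blk
variable (H : Blk w L l₀ τ Λ σ A B) (h : Ω → ℝ) {T : Set (Equiv.Perm Ω)}
  (hT : ∀ τ ∈ T, Sym w L h τ) (htr : ∀ x y, w x ≠ 0 → w y ≠ 0 → ∃ τ ∈ T, τ x = y)
  (h₀ : ∀ τ ∈ T, ∀ x y, l₀.cov (τ x) (τ y) = l₀.cov x y)
include H

/-- a good node: `a` at the node and summed over the double window -/
theorem aa_good {D j u : ℕ} (hu : 1 ≤ u) (h1 : A + 2 ^ D + u ≤ j + 1) (h2 : j + u ≤ B + 1)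
    {g top : ℝ} (ht : rho w L l₀ h (j + u) ≤ top)
    (hg : ∀ t : ℕ, 1 ≤ t → t ≤ u + 2 ^ D → rho w L l₀ h (j + t) - rho w L l₀ h (j - t) ≤ g * t) :
    aa w L l₀ h j ≤ ag Λ σ D top g ∧
      ∑ k ∈ Finset.Ico (j + 1 - u) (j + u), aa w L l₀ h k ≤ 2 * u * ag Λ σ D top g := by
  have hσ := H.pos
  have hΛ := H.lam_nonneg
  have hρ := rho_mono H.wt L l₀ h
  have h3 : 1 ≤ 2 ^ D := Nat.one_le_two_pow
  have g0 : 0 ≤ g := by
    have := (sub_nonneg.2 (hρ (show j - 1 ≤ j + 1 by omega))).trans (hg 1 le_rfl (by omega))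
    simpa using this
  have t0 : 0 ≤ top := (rho_nonneg l₀ h L _).trans ht
  have u1 : (1 : ℝ) ≤ u := by exact_mod_cast hu
  constructor
  · have := aa_lip H h (D := D) (lo := j) (hi := j + 1) (by omega) (by omega) (by omega) (top := top)
      (R₀ := 0) le_rfl g0 ((hρ (by omega)).trans ht) fun t a b => by
        rw [zero_add]
        exact (sub_le_sub_right (hρ (by omega)) _).trans (hg t a (by omega))
    rw [Nat.Ico_succ_singleton, Finset.sum_singleton, Nat.add_sub_cancel_left] at this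
    refine this.trans (mul_le_mul_of_nonneg_left ?_ (by positivity))
    have : 0 ≤ D * g / σ := by positivity
    simp only [Nat.cast_one, one_mul, zero_add, mul_one]
    have e1 : D * (2 * g / σ) = 2 * (D * g / σ) := by ring
    have e2 : 3 * D * g / σ = 3 * (D * g / σ) := by ring
    rw [e1, e2]
    linarith
  · have := aa_lip H h (D := D) (lo := j + 1 - u) (hi := j + u) (by omega) (by omega) h2 (top := top)
      (R₀ := g * u) (by positivity) g0 ((hρ (by omega)).trans ht) fun t a b => by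
        have := hg (u + t) (by omega) (by omega)
        rw [Nat.cast_add, mul_add] at this
        exact (sub_le_sub (hρ (by omega)) (hρ (by omega))).trans this
    refine this.trans ?_
    have hN : ((j + u - (j + 1 - u) : ℕ) : ℝ) ≤ 2 * u := by
      exact_mod_cast (by omega : j + u - (j + 1 - u) ≤ 2 * u)
    rw [lb, ag, mul_left_comm]
    refine mul_le_mul_of_nonneg_left ?_ (by positivity)
    generalize ((j + u - (j + 1 - u) : ℕ) : ℝ) = N at hN ⊢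
    have p1 : 0 ≤ top / (σ * 2 ^ D) := by positivity
    have p2 : 0 ≤ D * g / σ := by positivity
    have p3 : 0 ≤ Λ * g := by positivity
    have e1 : N * top / (σ * 2 ^ D) + D * ((g * u + 2 * g * N) / σ) + Λ * (g * u + g) =
        N * (top / (σ * 2 ^ D)) + (u + 2 * N) * (D * g / σ) + (u + 1) * (Λ * g) := by ring
    have e2 : 3 * D * g / σ = 3 * (D * g / σ) := by ring
    rw [e1, e2]
    nlinarith [mul_le_mul_of_nonneg_right hN p1, mul_le_mul_of_nonneg_right hN p2,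
      mul_le_mul_of_nonneg_right u1 p3, mul_nonneg (zero_le_one.trans u1) p2]

include hT htr h₀

/-- **good nodes**: slope `≤ g` at all scales around `j` -/
theorem var_good {D j u : ℕ} (hu : 1 ≤ u) (h1 : A + 2 ^ D + u ≤ j + 1) (h2 : j + u ≤ B + 1)
    {g top δ κ x : ℝ} (ht : rho w L l₀ h (j + u) ≤ top)
    (hg : ∀ t : ℕ, 1 ≤ t → t ≤ u + 2 ^ D → rho w L l₀ h (j + t) - rho w L l₀ h (j - t) ≤ g * t)
    (hδ : 0 < δ) (hd : ∀ k ∈ Finset.Ico (j + 1 - u) (j + u), δ ≤ dm L 0 k ∧ dm L 0 k ≤ κ)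
    (hx : 0 < x) (hx' : ∀ k ∈ Finset.Ico (j + 1 - u) (j + u), x ≤ ex L k) :
    vr w L l₀ h j ≤ 32 * (κ * ag Λ σ D top g / (u * δ ^ 2)) + 4 * (g * u) ^ 2 +
      8 * (ag Λ σ D top g / x) + 16 * (κ * ag Λ σ D top g / (x * δ)) := by
  have hw := H.wt
  have hL := H.mono
  have hρ := rho_mono hw L l₀ h
  have hB := H.len
  have h3 : 1 ≤ 2 ^ D := Nat.one_le_two_pow
  obtain ⟨a1, a2⟩ := aa_good H h hu h1 h2 ht hg
  have u0 : (0 : ℝ) < u := by exact_mod_cast hu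
  have hj : j ∈ Finset.Ico (j + 1 - u) (j + u) := Finset.mem_Ico.2 (by omega)
  have κ0 : 0 ≤ κ := (dm_nonneg hL j).trans (hd j hj).2
  have sU : Finset.Ico j (j + u) ⊆ Finset.Ico (j + 1 - u) (j + u) :=
    Finset.Ico_subset_Ico (by omega) le_rfl
  have sD : Finset.Ico (j + 1 - u) (j + 1) ⊆ Finset.Ico (j + 1 - u) (j + u) :=
    Finset.Ico_subset_Ico le_rfl (by omega)
  have ms : ∀ S ⊆ Finset.Ico (j + 1 - u) (j + u), S.card = u → u * δ ≤ ∑ k ∈ S, dm L 0 k :=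
    fun S hS e => by
      have := Finset.card_nsmul_le_sum S (dm L 0) δ fun k hk => (hd k (hS hk)).1
      rwa [e, nsmul_eq_mul] at this
  have as : ∀ S ⊆ Finset.Ico (j + 1 - u) (j + u), al w L l₀ h S ≤ κ * (2 * u * ag Λ σ D top g) :=
    fun S hS => (wsum_le (fun k hk => (hd k (hS hk)).2) fun k _ => aa_nonneg hw hL l₀ h k).trans
      (mul_le_mul_of_nonneg_left ((Finset.sum_le_sum_of_subset_of_nonneg hS
        fun k _ _ => aa_nonneg hw hL l₀ h k).trans a2) κ0)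
  have es : ∀ k ∈ Finset.Ico (j + 1 - u) (j + u), |rho w L l₀ h k - rho w L l₀ h j| ≤ g * u :=
    fun k hk => by
      have hk' := Finset.mem_Ico.1 hk
      have b1 := hg u hu (by omega)
      have b2 := hρ (show k ≤ j + u by omega)
      have b3 := hρ (show j - u ≤ k by omega)
      have b4 := hρ (Nat.le_add_right j u)
      have b5 := hρ (Nat.sub_le j u)
      exact abs_le.2 ⟨by linarith, by linarith⟩
  have key := sq_win hw hL h hT htr h₀ (j := j) (U := Finset.Ico j (j + u))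
    (D := Finset.Ico (j + 1 - u) (j + 1)) (fun k hk => by have := Finset.mem_Ico.1 hk; omega)
    (fun k hk => by have := Finset.mem_Ico.1 hk; omega) (M := u * δ) (M' := u * δ) (by positivity)
    (by positivity) (ms _ sU (by simp)) (ms _ sD (by rw [Nat.card_Ico]; omega))
    (fun k hk => es k (sU hk)) fun k hk => es k (sD hk)
  have c1 : ∀ S ⊆ Finset.Ico (j + 1 - u) (j + u),
      al w L l₀ h S / (u * δ) ^ 2 ≤ 2 * (κ * ag Λ σ D top g / (u * δ ^ 2)) := fun S hS =>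
    (div_le_div_of_nonneg_right (as S hS) (by positivity)).trans (le_of_eq (by field_simp))
  have c2 : vl w L l₀ h (Finset.Ico (j + 1 - u) (j + 1)) / (u * δ) ≤
      2 * (κ * ag Λ σ D top g / (x * δ)) :=
    (div_le_div_of_nonneg_right ((vl_le hw hL l₀ h hx fun k hk => hx' k (sD hk)).trans
      (div_le_div_of_nonneg_right (as _ sD) hx.le)) (by positivity)).trans (le_of_eq (by field_simp))
  have c3 : vv w L l₀ h j ≤ ag Λ σ D top g / x := by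
    rw [le_div_iff₀ hx, mul_comm]
    exact (vv_le hw hL l₀ h (hx' j hj)).trans a1
  rw [vr]
  linarith [c1 _ sU, c1 _ sD]

/-- **(W′) on a block**: only the top value, the total rise `R` and the local rise `J` enter -/
theorem wr {D lo hi lo' hi' u₀ : ℕ} (hu : 1 ≤ u₀) (h1 : A + 2 ^ D ≤ lo') (h2 : lo' + u₀ ≤ lo)
    (hl : lo ≤ hi) (h3 : hi + u₀ ≤ hi') (h4 : hi' ≤ B + 1) {δ δ' κ J R top a x : ℝ} (hδ : 0 < δ)
    (hd : ∀ k ∈ Finset.Ico lo' hi', δ ≤ dm L 0 k ∧ dm L 0 k ≤ δ') (hx : 0 < x)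
    (hx' : ∀ k ∈ Finset.Ico lo' hi', x ≤ ex L k) (hJ0 : 0 < J) (hR0 : 0 < R)
    (hJ : ∀ i, lo' ≤ i → i < hi → rho w L l₀ h (i + u₀) - rho w L l₀ h i ≤ J)
    (ht : rho w L l₀ h hi' ≤ top) (hR : rho w L l₀ h hi' - rho w L l₀ h (lo' - 2 ^ D) ≤ R)
    (ha : δ' * qb Λ σ D (hi' - lo') top R ≤ a) (hs : a ≤ (u₀ * δ) ^ 2 * (J * R))
    {c : ℕ → ℝ} (hκ : 0 ≤ κ) (hc : ∀ j ∈ Finset.Ico lo hi, 0 ≤ c j ∧ c j ≤ κ) :
    ∑ j ∈ Finset.Ico lo hi, c j * vr w L l₀ h j ≤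
      κ * (20 * √(a * (J * R)) / δ + 4 * (J * R) + 16 * a / (x * δ)) := by
  have hρ := rho_mono H.wt L l₀ h
  have hB := H.len
  have h5 : 1 ≤ 2 ^ D := Nat.one_le_two_pow
  have d0 : 0 ≤ δ' := (dm_nonneg H.mono lo').trans (hd lo' (Finset.mem_Ico.2 (by omega))).2
  exact var_sqrt H.wt H.mono h hT htr h₀ hu (by omega) h2 hl h3 (by omega) hδ
    (fun k hk => (hd k hk).1) hx hx' hJ0 hR0 hJ ((sub_le_sub_left (hρ (Nat.sub_le _ _)) _).trans hR)
    ((H.q1 h h1 (by omega) h4 ((hρ (Nat.sub_le _ _)).trans ht)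
      ((sub_le_sub_right (hρ (Nat.sub_le _ _)) _).trans hR) d0 fun k hk => (hd k hk).2).trans ha)
    hs hκ hc

end blk

/-! ### summed moments -/

theorem node_sum_exc (hw : Wt w) (L : List (Lv Ω)) (l₀ : Lv Ω) (h : Ω → ℝ) {S : Finset ℕ}
    {c : ℕ → ℝ} (hc : ∀ j ∈ S, 0 ≤ c j) (q : ℕ → ℝ) {M : ℝ} (hM : 0 ≤ M) (k : ℕ) :
    ∑ j ∈ S, c j * node w L j (fun z => |rr w (L.drop j) l₀ z - q j| ^ (k + 2)) h ≤
      (2 * M) ^ k * (∑ j ∈ S, c j * vr w L l₀ h j + ∑ j ∈ S, c j * (rho w L l₀ h j - q j) ^ 2) +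
      2 ^ (k + 2) * ∑ j ∈ S, c j *
        node w L j (fun z => max (|rr w (L.drop j) l₀ z - q j| - M) 0 ^ (k + 2)) h := by
  simp only [← Finset.sum_add_distrib, Finset.mul_sum]
  refine Finset.sum_le_sum fun j hj => ?_
  have := mul_le_mul_of_nonneg_left (node_exc hw L l₀ h (q j) j hM k) (hc j hj)
  rw [sq2_eq hw] at this
  linarith

theorem pair_sum_exc (hw : Wt w) (L : List (Lv Ω)) (l₀ : Lv Ω) (h : Ω → ℝ) {S : Finset ℕ}
    {c : ℕ → ℝ} (hc : ∀ j ∈ S, 0 ≤ c j) (q : ℕ → ℝ) {M : ℝ} (hM : 0 ≤ M) (k : ℕ) :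
    ∑ j ∈ S, c j * pi2 w L j (fun x y => |l₀.cov x y - q j| ^ (k + 2)) h ≤
      (2 * M) ^ k * (∑ j ∈ S, c j * vr w L l₀ h j + ∑ j ∈ S, c j * (rho w L l₀ h j - q j) ^ 2 +
        ∑ j ∈ S, c j * tc w L l₀ h j + 2 * ∑ j ∈ S, c j * vv w L l₀ h j) +
      2 ^ (k + 2) * ∑ j ∈ S, c j *
        pi2 w L j (fun x y => max (|l₀.cov x y - q j| - M) 0 ^ (k + 2)) h := by
  simp only [← Finset.sum_add_distrib, Finset.mul_sum]
  refine Finset.sum_le_sum fun j hj => ?_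
  have := mul_le_mul_of_nonneg_left (pair_exc hw L l₀ h (q j) j hM k) (hc j hj)
  rw [sq2_eq hw] at this
  linarith

theorem node_sum_mom (hw : Wt w) (L : List (Lv Ω)) (l₀ : Lv Ω) (h : Ω → ℝ) {S : Finset ℕ}
    {c : ℕ → ℝ} (hc : ∀ j ∈ S, 0 ≤ c j) (q : ℕ → ℝ) {M : ℝ} (hM : 0 < M) (k d : ℕ) :
    ∑ j ∈ S, c j * node w L j (fun z => |rr w (L.drop j) l₀ z - q j| ^ (k + 2)) h ≤
      M ^ k * (∑ j ∈ S, c j * vr w L l₀ h j + ∑ j ∈ S, c j * (rho w L l₀ h j - q j) ^ 2) +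
      (∑ j ∈ S, c j * node w L j (fun z => |rr w (L.drop j) l₀ z - q j| ^ (k + 2 + d)) h) / M ^ d := by
  simp only [← Finset.sum_add_distrib, Finset.mul_sum, Finset.sum_div]
  refine Finset.sum_le_sum fun j hj => ?_
  have := mul_le_mul_of_nonneg_left (node_mom hw L l₀ h (q j) j hM k d) (hc j hj)
  rw [sq2_eq hw] at this
  rw [mul_div_assoc]
  linarith

theorem pair_sum_mom (hw : Wt w) (L : List (Lv Ω)) (l₀ : Lv Ω) (h : Ω → ℝ) {S : Finset ℕ}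
    {c : ℕ → ℝ} (hc : ∀ j ∈ S, 0 ≤ c j) (q : ℕ → ℝ) {M : ℝ} (hM : 0 < M) (k d : ℕ) :
    ∑ j ∈ S, c j * pi2 w L j (fun x y => |l₀.cov x y - q j| ^ (k + 2)) h ≤
      M ^ k * (∑ j ∈ S, c j * vr w L l₀ h j + ∑ j ∈ S, c j * (rho w L l₀ h j - q j) ^ 2 +
        ∑ j ∈ S, c j * tc w L l₀ h j + 2 * ∑ j ∈ S, c j * vv w L l₀ h j) +
      (∑ j ∈ S, c j * pi2 w L j (fun x y => |l₀.cov x y - q j| ^ (k + 2 + d)) h) / M ^ d := by
  simp only [← Finset.sum_add_distrib, Finset.mul_sum, Finset.sum_div]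
  refine Finset.sum_le_sum fun j hj => ?_
  have := mul_le_mul_of_nonneg_left (pair_mom hw L l₀ h (q j) j hM k d) (hc j hj)
  rw [sq2_eq hw] at this
  rw [mul_div_assoc]
  linarith

end Crest.Agent.T156.Cas.Wr5

end
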