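import Crest.Agent.T156.L0B_49
import Crest.Agent.T156.Sun_9

/-!
Row 156 (helper49): length bounds for the gaps between consecutive good nodes
(docs/T156_69.md sec. 4 (a), (b)), node form.
-/

set_option autoImplicit false

namespace Crest.Agent.T156.L0

open MeasureTheory Set Filter Topology
open Crest.Agent.R164.GC Crest.Agent.R339.B Crest.Agent.R339.Var Crest.Agent.T157.Pf
open Crest.Agent.T156.Pp Crest.Agent.T156.Pp.Ode3 Crest.Agent.T156.Str

noncomputable section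

variable {l : List (ℝ × ℝ)} {T : ℝ}

/-- `ρ = b Γ - σ` -/
def rho (b : ℝ) (l : List (ℝ × ℝ)) (t : ℝ) : ℝ := b * Gam l t - t

theorem cub_low {k d y : ℝ} (hk : 0 < k) (hd : 0 ≤ d) (hy : 0 ≤ y) :
    -(22 * d ^ 3 / k ^ 2) ≤ k / 12 * y ^ 3 - d * y ^ 2 := by
  have e : 22 * d ^ 3 / k ^ 2 = 22 * k * (d / k) ^ 3 := by field_simp
  have e2 : d = k * (d / k) := by field_simp
  rw [e]
  set a := d / k
  have a0 : 0 ≤ a := by positivity
  rw [e2]
  have : 0 ≤ y ^ 3 / 12 - a * y ^ 2 + 22 * a ^ 3 := by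
    nlinarith [mul_nonneg (sq_nonneg (y - 8 * a)) (by positivity : 0 ≤ y + 4 * a), pow_nonneg a0 3]
  nlinarith [mul_nonneg hk.le this]

theorem dcub (p q w u r : ℝ) : HasDerivAt (fun r => p * (r - u) + q / 2 * (r - u) ^ 2 +
    w / 3 * (r - u) ^ 3) (p + q * (r - u) + w * (r - u) ^ 2) r := by
  have d := (hasDerivAt_id' r).sub_const u
  have := ((d.const_mul p).add ((d.pow 2).const_mul (q / 2))).add ((d.pow 3).const_mul (w / 3))
  refine this.congr_deriv ?_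
  push_cast
  ring

/-- continuation above an unstable end: first a stretch of small label move, then one gap -/
theorem floor_up (h : AP l) (hT : TT l ≤ T) {b t t2 t1 τ δ θ g : ℝ} (hb : 0 ≤ b) (h0 : 0 ≤ t)
    (h1 : t ≤ t2) (h2 : t2 ≤ t1) (ht : t1 ≤ TT l) (hδ : 0 ≤ δ) (hθ : 12 * θ ≤ kc T)
    (hτ : lvr 1 l t2 ≤ lvr 1 l t + τ) (hD : lvr 1 l t1 ≤ lvr 1 l t2 + (δ + θ * (t1 - t2)))
    (hp : 2 * τ ≤ Gd l t) (hg : 1 + g ≤ b * Gp l t) :
    g * (t1 - t) - 22 * b * δ ^ 3 / kc T ^ 2 ≤ rho b l t1 - rho b l t := by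
  have m := lvr_mono h.adm
  have k0 := kc_pos T
  have mono : ∀ r ∈ Icc t t2, Gp l t ≤ Gp l r := fun r hr => by
    have b3 := Gp_right h hT h0 hr.1 (hr.2.trans (h2.trans ht)) (Z := lvr 1 l t + τ)
      fun v hv => (m (hv.2.le.trans hr.2)).trans hτ
    have b4 : 0 ≤ (Gd l t - 2 * (lvr 1 l t + τ - lvr 1 l t)) * (r - t) :=
      mul_nonneg (by linarith) (sub_nonneg.2 hr.1)
    have b5 : 0 ≤ kc T / 2 * (r - t) ^ 2 := by positivity
    linarith
  have a1 := le_rho h (b := b) (g := g) h0 h1 (h2.trans ht) fun r hr =>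
    hg.trans (mul_le_mul_of_nonneg_left (mono r ⟨hr.1, hr.2.le⟩) hb)
  have a2 : 0 ≤ Gd l t2 := by
    have := Gd_mono h hT h0 h1 (h2.trans ht)
    have := mul_nonneg k0.le (sub_nonneg.2 h1)
    linarith
  have a3 := hg.trans (mul_le_mul_of_nonneg_left (mono t2 ⟨h1, le_rfl⟩) hb)
  set D := δ + θ * (t1 - t2) with hDd
  have s0 := h0.trans h1
  have a4 := le_of_rder (f := fun r => ((1 + g) * (r - t2) + -(2 * b * D) / 2 * (r - t2) ^ 2 +
      b * kc T / 2 / 3 * (r - t2) ^ 3) - b * Gam l r) h2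
    ((by fun_prop : ContinuousOn (fun r => (1 + g) * (r - t2) + -(2 * b * D) / 2 * (r - t2) ^ 2 +
      b * kc T / 2 / 3 * (r - t2) ^ 3) _).sub
      (continuousOn_const.mul ((Gam_cont h).mono (Icc_subset_Icc s0 ht))))
    (fun r hr => (dcub _ _ _ t2 r).hasDerivWithinAt.sub
      ((Gam_rder h (s0.trans hr.1) (hr.2.trans_le ht)).const_mul b))
    (fun r hr => by
      have b3 := Gp_right h hT s0 hr.1 (hr.2.le.trans ht) (Z := lvr 1 l t2 + D)
        fun v hv => (m (hv.2.le.trans hr.2.le)).trans hD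
      have b4 := mul_nonneg a2 (sub_nonneg.2 hr.1)
      have b5 := mul_le_mul_of_nonneg_left (show -(2 * D) * (r - t2) + kc T / 2 * (r - t2) ^ 2 ≤
        Gp l r - Gp l t2 by linarith) hb
      linarith)
  simp only [sub_self] at a4
  have y0 := sub_nonneg.2 h2
  have a5 := mul_le_mul_of_nonneg_left (cub_low k0 hδ y0) hb
  have a6 := mul_le_mul_of_nonneg_right hθ (by positivity : 0 ≤ b * (t1 - t2) ^ 3)
  have e : 22 * b * δ ^ 3 / kc T ^ 2 = b * (22 * δ ^ 3 / kc T ^ 2) := by ring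
  unfold rho
  rw [e]
  rw [hDd] at a4
  nlinarith

/-- continuation below an unstable end -/
theorem floor_down (h : AP l) (hT : TT l ≤ T) {b s s2 s1 τ δ θ g : ℝ} (hb : 0 ≤ b) (h0 : 0 ≤ s1)
    (h1 : s1 ≤ s2) (h2 : s2 ≤ s) (ht : s ≤ TT l) (hδ : 0 ≤ δ) (hθ : 12 * θ ≤ kc T)
    (hτ : lvr 1 l s ≤ lvr 1 l s2 + τ) (hD : lvr 1 l s2 ≤ lvr 1 l s1 + (δ + θ * (s2 - s1)))
    (hp : Gd l s ≤ -(2 * τ)) (hg : 1 + g ≤ b * Gp l s) :
    g * (s - s1) - 22 * b * δ ^ 3 / kc T ^ 2 ≤ rho b l s - rho b l s1 := by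
  have m := lvr_mono h.adm
  have k0 := kc_pos T
  have s0 := h0.trans h1
  have mono : ∀ r ∈ Icc s2 s, Gp l s ≤ Gp l r := fun r hr => by
    have b3 := Gp_left h hT (s0.trans hr.1) hr.2 ht
    have z : lvr 1 l s2 ≤ lvr 1 l r := m hr.1
    have b4 : (Gd l s + 2 * (lvr 1 l s - lvr 1 l r)) * (s - r) ≤ 0 :=
      mul_nonpos_of_nonpos_of_nonneg (by linarith) (sub_nonneg.2 hr.2)
    have b5 : 0 ≤ kc T / 2 * (s - r) ^ 2 := by positivity
    linarith
  have a1 := le_rho h (b := b) (g := g) s0 h2 ht fun r hr =>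
    hg.trans (mul_le_mul_of_nonneg_left (mono r ⟨hr.1, hr.2.le⟩) hb)
  have a2 : Gd l s2 ≤ 0 := by
    have := Gd_mono h hT s0 h2 ht
    have := mul_nonneg k0.le (sub_nonneg.2 h2)
    linarith
  have a3 := hg.trans (mul_le_mul_of_nonneg_left (mono s2 ⟨le_rfl, h2⟩) hb)
  set D := δ + θ * (s2 - s1) with hDd
  have a4 := le_of_rder (f := fun r => ((1 + g) * (r - s2) + 2 * b * D / 2 * (r - s2) ^ 2 +
      b * kc T / 2 / 3 * (r - s2) ^ 3) - b * Gam l r) h1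
    ((by fun_prop : ContinuousOn (fun r => (1 + g) * (r - s2) + 2 * b * D / 2 * (r - s2) ^ 2 +
      b * kc T / 2 / 3 * (r - s2) ^ 3) _).sub
      (continuousOn_const.mul ((Gam_cont h).mono (Icc_subset_Icc h0 (h2.trans ht)))))
    (fun r hr => (dcub _ _ _ s2 r).hasDerivWithinAt.sub
      ((Gam_rder h (h0.trans hr.1) (hr.2.trans_le (h2.trans ht))).const_mul b))
    (fun r hr => by
      have b3 := Gp_left h hT (h0.trans hr.1) hr.2.le (h2.trans ht)
      have z : lvr 1 l s1 ≤ lvr 1 l r := m hr.1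
      have b4 : (Gd l s2 + 2 * (lvr 1 l s2 - lvr 1 l r)) * (s2 - r) ≤ 2 * D * (s2 - r) :=
        mul_le_mul_of_nonneg_right (by linarith) (sub_nonneg.2 hr.2.le)
      have b5 := mul_le_mul_of_nonneg_left (show Gp l s2 - Gp l r ≤
        2 * D * (s2 - r) - kc T / 2 * (s2 - r) ^ 2 by linarith) hb
      nlinarith)
  simp only [sub_self] at a4
  have y0 := sub_nonneg.2 h1
  have a5 := mul_le_mul_of_nonneg_left (cub_low k0 hδ y0) hb
  have a6 := mul_le_mul_of_nonneg_right hθ (by positivity : 0 ≤ b * (s2 - s1) ^ 3)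
  have e : 22 * b * δ ^ 3 / kc T ^ 2 = b * (22 * δ ^ 3 / kc T ^ 2) := by ring
  unfold rho
  rw [e]
  rw [hDd] at a4
  nlinarith

/-- a long gap has an unstable end -/
theorem unstable_end (h : AP l) (hT : TT l ≤ T) {b s t D δ : ℝ} (hb : 0 ≤ b) (h0 : 0 ≤ s)
    (hst : s < t) (ht : t ≤ TT l) (hD : lvr 1 l t ≤ lvr 1 l s + D) (hκ : 8 * D ≤ kc T * (t - s))
    (hδ : -δ ≤ rho b l t - rho b l s) :
    (kc T / 4 * (t - s) ≤ Gd l t ∧
        1 + (b * kc T / 24 * (t - s) ^ 2 - δ / (t - s)) ≤ b * Gp l t) ∨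
      (Gd l s ≤ -(kc T / 4 * (t - s)) ∧
        1 + (b * kc T / 24 * (t - s) ^ 2 - δ / (t - s)) ≤ b * Gp l s) := by
  have m := lvr_mono h.adm
  have k0 := kc_pos T
  have L0 : 0 < t - s := sub_pos.2 hst
  have a := mul_le_mul_of_nonneg_left (area h hT (D := D) h0 hst.le ht fun r hr => by
    have : lvr 1 l r ≤ lvr 1 l t := m hr.2.le
    linarith) hb
  set g := b * kc T / 24 * (t - s) ^ 2 - δ / (t - s) with hg
  have a1 : 2 * (1 + g) ≤ b * Gp l s + b * Gp l t := by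
    refine le_of_mul_le_mul_left ?_ L0
    have e : (t - s) * (δ / (t - s)) = δ := mul_div_cancel₀ _ L0.ne'
    have a2 := mul_le_mul_of_nonneg_left hκ (by positivity : 0 ≤ b * (t - s) ^ 2)
    unfold rho at hδ
    rw [hg]
    nlinarith
  rcases le_total (Gp l s) (Gp l t) with hc | hc
  · left
    have b1 := Gp_left h hT h0 hst.le ht
    have b2 : kc T / 2 * (t - s) ≤ Gd l t + 2 * (lvr 1 l t - lvr 1 l s) := by
      refine le_of_mul_le_mul_right ?_ L0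
      nlinarith
    have b7 := mul_le_mul_of_nonneg_left hc hb
    constructor <;> linarith
  · right
    have b1 := Gp_right h hT h0 hst.le ht (Z := lvr 1 l t) fun v hv => m hv.2.le
    have b2 : Gd l s - 2 * (lvr 1 l t - lvr 1 l s) ≤ -(kc T / 2 * (t - s)) := by
      refine le_of_mul_le_mul_right ?_ L0
      nlinarith
    have b7 := mul_le_mul_of_nonneg_left hc hb
    constructor <;> linarith

/-- node data on the index window `[u,v]`: times `σ`, marks `hm`, good nodes `Gn` -/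
structure Nd (b : ℝ) (l : List (ℝ × ℝ)) (σ hm : ℕ → ℝ) (Gn : ℕ → Prop) (u v : ℕ)
    (δ θ η lam M : ℝ) : Prop where
  nn : 0 ≤ σ u
  top : σ v ≤ TT l
  mono : ∀ i j, u ≤ i → i ≤ j → j ≤ v → σ i ≤ σ j
  δ0 : 0 ≤ δ
  M0 : 0 ≤ M
  gap : ∀ i j, u ≤ i → i < j → j ≤ v → Gn i → Gn j → (∀ k, i < k → k < j → ¬ Gn k) →
    lvr 1 l (σ j) ≤ lvr 1 l (σ i) + (δ + θ * (σ j - σ i))
  e1 : ∀ i j, u ≤ i → i ≤ j → j ≤ v → Gn i → Gn j →
    |rho b l (σ j) + hm j - (rho b l (σ i) + hm i)| ≤ η + lam * (σ j - σ i)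
  ceil : ∀ i j, u ≤ i → i ≤ j → j ≤ v → hm j - hm i ≤ M * (lvr 1 l (σ j) - lvr 1 l (σ i))

namespace Nd

variable {b δ θ η lam M : ℝ} {σ hm : ℕ → ℝ} {Gn : ℕ → Prop} {u v p q : ℕ}

theorem mem (N : Nd b l σ hm Gn u v δ θ η lam M) {i : ℕ} (h1 : u ≤ i) (h2 : i ≤ v) :
    0 ≤ σ i ∧ σ i ≤ TT l :=
  ⟨N.nn.trans (N.mono u i le_rfl h1 h2), (N.mono i v h1 h2 le_rfl).trans N.top⟩

/-- drop of `ρ` across a gap -/
theorem drop (N : Nd b l σ hm Gn u v δ θ η lam M) (hu : u ≤ p) (hpq : p < q) (hv : q ≤ v)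
    (gp : Gn p) (gq : Gn q) (hbad : ∀ k, p < k → k < q → ¬ Gn k) :
    -(η + M * δ + (lam + M * θ) * (σ q - σ p)) ≤ rho b l (σ q) - rho b l (σ p) := by
  have a1 := N.gap p q hu hpq hv gp gq hbad
  have a2 := (abs_le.1 (N.e1 p q hu hpq.le hv gp gq)).1
  have a3 := N.ceil p q hu hpq.le hv
  have a4 := mul_le_mul_of_nonneg_left (show lvr 1 l (σ q) - lvr 1 l (σ p) ≤
    δ + θ * (σ q - σ p) by linarith) N.M0
  nlinarith

/-- **(a) length of a gap, one-sided Plefka at both ends** -/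
theorem len_plefka (N : Nd b l σ hm Gn u v δ θ η lam M) (h : AP l) (hT : TT l ≤ T) (hb : 0 ≤ b)
    (hθ : 16 * θ ≤ kc T) (hu : u ≤ p) (hpq : p < q) (hv : q ≤ v) (gp : Gn p) (gq : Gn q)
    (hbad : ∀ k, p < k → k < q → ¬ Gn k) {g : ℝ} (h1 : b * Gp l (σ p) ≤ 1 + g)
    (h2 : b * Gp l (σ q) ≤ 1 + g) :
    kc T * (σ q - σ p) < 16 * δ ∨
      b * kc T / 24 * (σ q - σ p) ^ 3 ≤ η + M * δ + (g + lam + M * θ) * (σ q - σ p) := by
  rcases lt_or_ge (kc T * (σ q - σ p)) (16 * δ) with c | c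
  · exact Or.inl c
  right
  have L0 := N.mono p q hu hpq.le hv
  have a1 := N.gap p q hu hpq hv gp gq hbad
  have a2 := N.drop hu hpq hv gp gq hbad
  have a3 := gap_plefka h hT (D := δ + θ * (σ q - σ p))
    (δ := η + M * δ + (lam + M * θ) * (σ q - σ p)) hb (N.mem hu (hpq.le.trans hv)).1 L0
    (N.mem (hu.trans hpq.le) hv).2 (fun r hr => (lvr_mono h.adm hr.2.le).trans a1) h1 h2
    (by unfold rho at a2; linarith)
  have a4 := mul_le_mul_of_nonneg_right hθ (sub_nonneg.2 L0)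
  have a5 := mul_le_mul_of_nonneg_left (show 8 * (δ + θ * (σ q - σ p)) ≤ kc T * (σ q - σ p) by
    linarith) (by positivity : 0 ≤ b * (σ q - σ p) ^ 2)
  nlinarith

/-- **(b) length of a gap under a floor `m dx ≤ dh`** -/
theorem len_floor (N : Nd b l σ hm Gn u v δ θ η lam M) (h : AP l) (hT : TT l ≤ T) (hb : 0 ≤ b)
    (hθ : 16 * θ ≤ kc T) (hu : u ≤ p) (hpq : p < q) (hv : q ≤ v) (gp : Gn p)
    (gq : Gn q) (hbad : ∀ k, p < k → k < q → ¬ Gn k) {m τ : ℝ} (hm0 : 0 ≤ m) (hτ0 : 0 < τ)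
    (hfl : ∀ i j, u ≤ i → i ≤ j → j ≤ v → m * (lvr 1 l (σ j) - lvr 1 l (σ i)) ≤ hm j - hm i)
    (hup : ∃ j, q ≤ j ∧ j ≤ v ∧ Gn j ∧ lvr 1 l (σ q) + τ ≤ lvr 1 l (σ j))
    (hdn : ∃ i, u ≤ i ∧ i ≤ p ∧ Gn i ∧ lvr 1 l (σ i) + τ ≤ lvr 1 l (σ p))
    (hτ : η + 22 * b * δ ^ 3 / kc T ^ 2 < m * τ) :
    kc T * (σ q - σ p) < 8 * τ ∨ kc T * (σ q - σ p) < 16 * δ ∨
      b * kc T / 24 * (σ q - σ p) ^ 3 < η + M * δ + (2 * lam + M * θ) * (σ q - σ p) := by
  classical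
  by_contra hn
  simp only [not_or, not_lt] at hn
  obtain ⟨c1, c2, c3⟩ := hn
  have k0 := kc_pos T
  have L0 : 0 < σ q - σ p := by
    by_contra hc
    have := mul_nonpos_of_nonneg_of_nonpos k0.le (not_lt.1 hc)
    linarith
  have a1 := N.gap p q hu hpq hv gp gq hbad
  have a4 := mul_le_mul_of_nonneg_right hθ L0.le
  have mp := N.mem hu (hpq.le.trans hv)
  have mq := N.mem (hu.trans hpq.le) hv
  have a2 := unstable_end h hT hb mp.1 (sub_pos.1 L0) mq.2 a1 (by linarith)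
    (N.drop hu hpq hv gp gq hbad)
  have g1 : lam ≤ b * kc T / 24 * (σ q - σ p) ^ 2 -
      (η + M * δ + (lam + M * θ) * (σ q - σ p)) / (σ q - σ p) := by
    rw [le_sub_comm, div_le_iff₀ L0]
    nlinarith
  have θ12 : 12 * θ ≤ kc T := by linarith
  rcases a2 with ⟨d1, d2⟩ | ⟨d1, d2⟩
  · obtain ⟨j1, j2, j3, j4⟩ := Nat.find_spec hup
    set j := Nat.find hup with hj
    have qj : q < j := lt_of_le_of_ne j1 fun e => by rw [← e] at j4; linarith
    have i1 : q ≤ Nat.findGreatest Gn (j - 1) := Nat.le_findGreatest (by omega) gq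
    have i2 : Nat.findGreatest Gn (j - 1) ≤ j - 1 := Nat.findGreatest_le _
    have i3 : Gn (Nat.findGreatest Gn (j - 1)) := Nat.findGreatest_spec (by omega : q ≤ j - 1) gq
    have i4 : ∀ k, Nat.findGreatest Gn (j - 1) < k → k < j → ¬ Gn k := fun k a c =>
      Nat.findGreatest_is_greatest a (by omega)
    set i := Nat.findGreatest Gn (j - 1)
    have i5 : lvr 1 l (σ i) ≤ lvr 1 l (σ q) + τ := by
      by_contra hc
      exact Nat.find_min hup (m := i) (by omega) ⟨i1, by omega, i3, (not_le.1 hc).le⟩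
    have uq := hu.trans hpq.le
    have f := floor_up h hT (g := lam) hb mq.1 (N.mono q i uq i1 (by omega))
      (N.mono i j (by omega) (by omega) j2) (N.mem (by omega) j2).2 N.δ0 θ12 i5
      (N.gap i j (by omega) (by omega) j2 i3 j3 i4) (by linarith) (by linarith)
    have e1 := (abs_le.1 (N.e1 q j uq j1 j2 gq j3)).2
    have e2 := hfl q j uq j1 j2
    have e3 := mul_le_mul_of_nonneg_left (show τ ≤ lvr 1 l (σ j) - lvr 1 l (σ q) by linarith) hm0
    linarith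
  · obtain ⟨i0, o1, o2, o3, o4⟩ := hdn
    set P : ℕ → Prop := fun i => u ≤ i ∧ Gn i ∧ lvr 1 l (σ i) + τ ≤ lvr 1 l (σ p) with hP
    obtain ⟨i1, i3, i4⟩ : P (Nat.findGreatest P p) := Nat.findGreatest_spec o2 ⟨o1, o3, o4⟩
    have i2 : Nat.findGreatest P p ≤ p := Nat.findGreatest_le _
    have i5 : ∀ k, Nat.findGreatest P p < k → k ≤ p → ¬ P k := fun k a c =>
      Nat.findGreatest_is_greatest a c
    set i := Nat.findGreatest P p
    have ip : i < p := lt_of_le_of_ne i2 fun e => by rw [e] at i4; linarith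
    have ex : ∃ j, i < j ∧ Gn j := ⟨p, ip, gp⟩
    obtain ⟨j1, j2⟩ := Nat.find_spec ex
    have j3 : Nat.find ex ≤ p := Nat.find_min' ex ⟨ip, gp⟩
    have j4 : ∀ k, i < k → k < Nat.find ex → ¬ Gn k := fun k a c e => Nat.find_min ex c ⟨a, e⟩
    set j := Nat.find ex
    have j5 : lvr 1 l (σ p) ≤ lvr 1 l (σ j) + τ := by
      by_contra hc
      exact i5 j j1 j3 ⟨by omega, j2, (not_le.1 hc).le⟩
    have pv := hpq.le.trans hv
    have f := floor_down h hT (g := lam) hb (N.mem i1 (by omega)).1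
      (N.mono i j i1 j1.le (by omega)) (N.mono j p (by omega) j3 pv) mp.2 N.δ0 θ12 j5
      (N.gap i j i1 j1 (by omega) i3 j2 j4) (by linarith) (by linarith)
    have e1 := (abs_le.1 (N.e1 i p i1 i2 pv i3 gp)).2
    have e2 := hfl i p i1 i2 pv
    have e3 := mul_le_mul_of_nonneg_left (show τ ≤ lvr 1 l (σ p) - lvr 1 l (σ i) by linarith) hm0
    linarith

end Nd

/-- solving the cubic alternative: `c L³ ≤ A + B L`, `A ≤ c λ³/2`, `B ≤ c λ²/2` give `L ≤ λ` -/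
theorem le_of_cub {c A B L lam : ℝ} (hc : 0 < c) (hl : 0 ≤ lam) (H : c * L ^ 3 ≤ A + B * L)
    (hA : 2 * A ≤ c * lam ^ 3) (hB : 2 * B ≤ c * lam ^ 2) : L ≤ lam := by
  by_contra hn
  have hn := not_le.1 hn
  have L0 : 0 < L := hl.trans_lt hn
  have a1 : lam ^ 3 < L ^ 3 := pow_lt_pow_left₀ hn hl (by norm_num)
  have a2 : lam ^ 2 ≤ L ^ 2 := pow_le_pow_left₀ hl hn.le 2
  have a3 := mul_lt_mul_of_pos_left a1 hc
  have a4 := mul_le_mul_of_nonneg_right (hB.trans (mul_le_mul_of_nonneg_left a2 hc.le)) L0.le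
  nlinarith

/-- the field `Nd.gap` from the rising sun lemma -/
theorem gap_of_sun {x r σ : ℕ → ℝ} {Λ μ μ' b : ℝ} {u v : ℕ} (hr : Monotone r) (hΛ : 0 < Λ)
    (hμ0 : 0 < μ) (hb : 0 < b)
    (hμ : ∀ i, u ≤ i → i < v → μ ≤ x (i + 1) - x i ∧ x (i + 1) - x i ≤ μ')
    (hσ : ∀ i j, u ≤ i → i ≤ j → j ≤ v → b * (r j - r i) ≤ σ j - σ i) {U V : ℕ} :
    ∀ i j, u ≤ i → i < j → j ≤ v → Sun9.Good x r Λ U V i → Sun9.Good x r Λ U V j →
      (∀ k, i < k → k < j → ¬ Sun9.Good x r Λ U V k) →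
      x j ≤ x i + (μ' + 2 * μ' / (Λ * μ * b) * (σ j - σ i)) := by
  intro i j hi hij hj gi gj hbad
  have a := Sun9.gap_len hr hΛ.le gi gj hij hbad hμ0.le fun k c d => hμ k (by omega) (by omega)
  have h0 : 0 ≤ μ' := by
    have := hμ i hi (by omega)
    linarith [this.1, this.2]
  have a1 := mul_le_mul_of_nonneg_left (hσ i j hi hij.le hj) (by positivity : 0 ≤ 2 * μ')
  have a2 := mul_le_mul_of_nonneg_left a hb.le
  have a3 : x j - x i - μ' ≤ 2 * μ' / (Λ * μ * b) * (σ j - σ i) := by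
    rw [div_mul_eq_mul_div, le_div_iff₀ (by positivity)]
    nlinarith
  linarith

end

end Crest.Agent.T156.L0
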