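import Crest.Agent.T156.ClTk_9
import Crest.Agent.T156.L0C_49

/-!
Row 156, ALT, text (L) (helper9): good nodes of a member of the class and the lengths of the gaps.
-/

set_option autoImplicit false

noncomputable section

namespace Crest.Agent.T156.Alt.Mp9

open MeasureTheory Set Real
open Crest.Agent.R164.GC Crest.Agent.R339.B Crest.Agent.R339.Var Crest.Agent.T157.Pf
open Crest.Agent.T156.Pp.Area50 Crest.Agent.T156.Spl27 Crest.Agent.T156.Zb9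
open Crest.Agent.T156.L0 (Nd kc kc_pos le_of_cub)

theorem Nx.mono {Gn : ℕ → Prop} {u v u' v' i k : ℕ} (n : Nx Gn u' v' i k) (hu : u ≤ u')
    (hv : v' ≤ v) : Nx Gn u v i k := ⟨hu.trans n.1, n.2.1, n.2.2.1.trans hv, n.2.2.2⟩

section nd
variable {l : List (ℝ × ℝ)} {T b δ θ η lam Mc Γ : ℝ} {σ hm : ℕ → ℝ} {Gn : ℕ → Prop} {u v : ℕ}

/-- **all gaps are short**, Plefka form -/
theorem gaps_plefka (N : Nd b l σ hm Gn u v δ θ η lam Mc) (h : Pp.Ode3.AP l) (hT : TT l ≤ T)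
    (hb : 0 < b) (hθ : 16 * θ ≤ kc T) {g : ℝ}
    (hg : ∀ k, u ≤ k → k ≤ v → Gn k → b * Pp.Ode3.Gp l (σ k) ≤ 1 + g) (hΓ : 0 ≤ Γ)
    (h1 : 16 * δ ≤ kc T * Γ) (h2 : 2 * (η + Mc * δ) ≤ b * kc T / 24 * Γ ^ 3)
    (h3 : 2 * (g + lam + Mc * θ) ≤ b * kc T / 24 * Γ ^ 2) {i k : ℕ} (n : Nx Gn u v i k) :
    σ k - σ i ≤ Γ := by
  obtain ⟨n1, n2, n3, n4, n5, n6⟩ := n
  have k0 := kc_pos T
  rcases n2.eq_or_lt with rfl | c
  · simpa using hΓ
  rcases N.len_plefka h hT hb.le hθ n1 c n3 n4 n5 n6 (hg i n1 (n2.trans n3) n4)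
    (hg k (n1.trans n2) n3 n5) with p | p
  · exact (lt_of_mul_lt_mul_left (p.trans_le h1) k0.le).le
  · exact le_of_cub (by positivity) hΓ p h2 h3

/-- **all inner gaps are short**, floor form -/
theorem gaps_floor (N : Nd b l σ hm Gn u v δ θ η lam Mc) (h : Pp.Ode3.AP l) (hT : TT l ≤ T)
    (hb : 0 < b) (hθ : 16 * θ ≤ kc T) (gu : Gn u) (gv : Gn v) {u' v' : ℕ} (hu : u ≤ u')
    (hv : v' ≤ v) {μ τ : ℝ} (hμ : 0 ≤ μ) (hτ0 : 0 < τ)
    (hfl : ∀ i j, u ≤ i → i ≤ j → j ≤ v → μ * (lvr 1 l (σ j) - lvr 1 l (σ i)) ≤ hm j - hm i)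
    (t1 : lvr 1 l (σ u) + τ ≤ lvr 1 l (σ u')) (t2 : lvr 1 l (σ v') + τ ≤ lvr 1 l (σ v))
    (hτ : η + 22 * b * δ ^ 3 / kc T ^ 2 < μ * τ) (hΓ : 0 ≤ Γ) (h0 : 8 * τ ≤ kc T * Γ)
    (h1 : 16 * δ ≤ kc T * Γ) (h2 : 2 * (η + Mc * δ) ≤ b * kc T / 24 * Γ ^ 3)
    (h3 : 2 * (2 * lam + Mc * θ) ≤ b * kc T / 24 * Γ ^ 2) {i k : ℕ} (n : Nx Gn u' v' i k) :
    σ k - σ i ≤ Γ := by
  obtain ⟨n1, n2, n3, n4, n5, n6⟩ := n
  have k0 := kc_pos T
  have mo := Sc48.lvr_mono h.adm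
  rcases n2.eq_or_lt with rfl | c
  · simpa using hΓ
  rcases N.len_floor h hT hb.le hθ (hu.trans n1) c (n3.trans hv) n4 n5 n6 hμ hτ0 hfl
    ⟨v, n3.trans hv, le_rfl, gv, by linarith [mo (N.mono k v' (by omega) n3 hv)]⟩
    ⟨u, le_rfl, hu.trans n1, gu, by linarith [mo (N.mono u' i hu n1 (by omega))]⟩ hτ with p | p | p
  · exact (lt_of_mul_lt_mul_left (p.trans_le h0) k0.le).le
  · exact (lt_of_mul_lt_mul_left (p.trans_le h1) k0.le).le
  · exact le_of_cub (by positivity) hΓ p.le h2 h3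

end nd

/-- good nodes: slopes of `rb` against the labels at most `Λ` at all scales inside `[U, V]` -/
abbrev Gd (M : Md) (m : ℕ) (a Λ : ℝ) (U V k : ℕ) : Prop := Sun9.Good M.z (M.rb m a) Λ U V k

namespace At
variable {S : Sc} {M : Md} {m : ℕ} {a T : ℝ}

theorem kp_half (A : At S M m a T) : 1 / 2 ≤ kp m := by
  have : (1 : ℝ) ≤ m := by exact_mod_cast A.m_pos
  rw [kp, le_div_iff₀ (by positivity)]; linarith

theorem sb_rb (A : At S M m a T) {i k : ℕ} (h : i ≤ k) (hk : k ≤ M.N) :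
    (M.rb m a k - M.rb m a i) / 2 + (M.H k - M.H i) ≤ sb M m a (k + 1) - sb M m a (i + 1) := by
  have p := (d_mem A.cl (h.trans hk)).1
  have q := A.cl.leg.dm h
  have r := sub_nonneg.2 (rb_mono (M := M) (a := a) A.m_pos h)
  have s := (rb_mem (M := M) (a := a) A.m_pos k).1
  have t := A.kp_half
  have h1 : kp m * M.d i * M.rb m a k ≤ kp m * M.d k * M.rb m a k :=
    mul_le_mul_of_nonneg_right (mul_le_mul_of_nonneg_left q (by linarith)) s
  have h2 : 1 / 2 * 1 * (M.rb m a k - M.rb m a i) ≤ kp m * M.d i * (M.rb m a k - M.rb m a i) :=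
    mul_le_mul_of_nonneg_right (mul_le_mul t p zero_le_one (by linarith)) r
  simp only [sb]
  linarith

/-- increments of `sb` above the W-mark, upper bound -/
theorem sb_rb' (A : At S M m a T) {i k : ℕ} (hi : S.jl < i) (h : i ≤ k) (hk : k ≤ M.N) :
    sb M m a (k + 1) - sb M m a (i + 1) ≤ S.C * (M.rb m a k - M.rb m a i) + (M.H k - M.H i) := by
  have r := sub_nonneg.2 (rb_mono (M := M) (a := a) A.m_pos h)
  have h2 : kp m * M.b * (M.rb m a k - M.rb m a i) ≤ 1 * S.C * (M.rb m a k - M.rb m a i) :=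
    mul_le_mul_of_nonneg_right (mul_le_mul (kp_mem m).2 A.cl.b1
      (by linarith [(d_mem A.cl (le_refl M.N)).1, (show M.d M.N = M.b from rfl)]) zero_le_one) r
  simp only [sb, d_top A.cl hi (h.trans hk), d_top A.cl (hi.trans_le h) hk]
  linarith

/-- good nodes exist in every long enough index window -/
theorem exists_good (A : At S M m a T) {Λ : ℝ} (hΛ : 0 ≤ Λ) {U V p q : ℕ} (h0 : S.j0 ≤ U)
    (h1 : U ≤ p) (h2 : p ≤ q) (h3 : q ≤ V) (h4 : V < S.J)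
    (hbig : 2 * S.C * (M.rb m a V - M.rb m a U) < Λ * S.v * ((q : ℝ) - p + 1)) :
    ∃ i, p ≤ i ∧ i ≤ q ∧ Gd M m a Λ U V i := by
  have C0 := A.c_pos
  refine Sun9.exists_good (rb_mono A.m_pos) hΛ h1 h2 h3 (div_pos (v_pos A.cl) C0).le
    (fun i a b => (A.cl.zs i (h0.trans a) (by omega)).1) ?_
  rw [show Λ * (S.v / S.C) * ((q : ℝ) - p + 1) = Λ * S.v * ((q : ℝ) - p + 1) / S.C by ring,
    lt_div_iff₀ C0]
  linarith

/-- the field `gap` for good nodes of the sloped part -/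
theorem gap_good (A : At S M m a T) {Λ : ℝ} (hΛ : 0 < Λ) {U V u v i k : ℕ} (h0 : S.j0 ≤ u)
    (h1 : v < S.J) (n : Nx (Gd M m a Λ U V) u v i k) : M.z k ≤ M.z i +
      (S.C * S.v + 4 * S.C ^ 2 / Λ * (sb M m a (k + 1) - sb M m a (i + 1))) := by
  obtain ⟨n1, n2, n3, n4, n5, n6⟩ := n
  have C0 := A.c_pos
  have v0 := v_pos A.cl
  rcases n2.eq_or_lt with rfl | c
  · simp only [sub_self, mul_zero, add_zero, le_add_iff_nonneg_right]; positivity
  have p := Sun9.gap_len (rb_mono A.m_pos) hΛ.le n4 n5 c n6 (div_pos v0 C0).le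
    fun j a b => A.cl.zs j (by omega) (by omega)
  have q := A.sb_rb n2 (A.jp_le (by have := A.cl.i3; omega))
  have r := A.cl.leg.Hm n2
  have s : Λ * (M.z k - M.z i - S.C * S.v) ≤ 2 * S.C ^ 2 * (M.rb m a k - M.rb m a i) := by
    refine le_of_mul_le_mul_right ?_ (div_pos v0 C0)
    calc _ = Λ * (S.v / S.C) * (M.z k - M.z i - S.C * S.v) := by ring
      _ ≤ _ := p
      _ = _ := by field_simp
  have t : 2 * S.C ^ 2 * (M.rb m a k - M.rb m a i) ≤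
      4 * S.C ^ 2 * (sb M m a (k + 1) - sb M m a (i + 1)) := by nlinarith [sq_nonneg S.C]
  have : M.z k - M.z i - S.C * S.v ≤ 4 * S.C ^ 2 / Λ * (sb M m a (k + 1) - sb M m a (i + 1)) := by
    rw [div_mul_eq_mul_div, le_div_iff₀ hΛ]; linarith
  linarith

/-- reference times against labels -/
theorem s_z (A : At S M m a T) {i k : ℕ} (h0 : S.j0 ≤ i) (h : i ≤ k) (hk : k < S.J) :
    1 / S.C ^ 2 * (M.z k - M.z i) ≤ M.s k - M.s i ∧ M.s k - M.s i ≤ S.C ^ 2 * (M.z k - M.z i) := by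
  have C0 := A.c_pos
  refine tele2 (lo := i) (hi := k) (fun j a b => ?_) le_rfl h le_rfl
  obtain ⟨p1, p2⟩ := A.cl.zs j (h0.trans a) (by omega)
  obtain ⟨q1, q2⟩ := A.cl.ss j (by omega)
  constructor
  · calc _ ≤ 1 / S.C ^ 2 * (S.C * S.v) := mul_le_mul_of_nonneg_left p2 (by positivity)
      _ = S.v / S.C := by field_simp
      _ ≤ _ := q1
  · calc _ ≤ S.C * S.v := q2
      _ = S.C ^ 2 * (S.v / S.C) := by field_simp
      _ ≤ _ := mul_le_mul_of_nonneg_left p1 (by positivity)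

/-- floor and ceiling of the reference marks `H - G` -/
theorem href_fc (A : At S M m a T) {u v : ℕ} (hu : S.jl < u) (hv : v < S.J) :
    FC M.z (fun k => M.H k - M.G k) u v (S.ms (M.s u) / S.C ^ 3) (S.C ^ 3 * S.ms (M.s v)) 0 := by
  intro i k h1 h2 h3
  have C0 := A.c_pos
  have vp : v ≤ S.Jp := hv.le.trans A.cl.i3
  obtain ⟨p1, p2⟩ := A.Mf_sl (s_nn A.cl u) (A.cl.sm vp) _ _ (A.cl.sm h1) (A.cl.sm h2) (A.cl.sm h3)
  obtain ⟨q1, q2⟩ := A.s_z (A.cl.i1.trans (hu.le.trans h1)) h2 (h3.trans_lt hv)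
  rw [A.Mf_node (by omega) (by omega), A.Mf_node (by omega) (by omega)] at p1 p2
  have m1 := A.ms_pos (s_nn A.cl u)
  have m2 := A.ms_pos (s_nn A.cl v)
  have r1 := mul_le_mul_of_nonneg_left q1 (div_pos m1 C0).le
  have r2 := mul_le_mul_of_nonneg_left q2 (mul_pos C0 m2).le
  have e1 : S.ms (M.s u) / S.C * (1 / S.C ^ 2 * (M.z k - M.z i)) =
      S.ms (M.s u) / S.C ^ 3 * (M.z k - M.z i) := by field_simp
  constructor <;> simp only [] <;> linarith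

/-- **the node data of `L0C_49`**; `hm'` are any marks close to `H` at good nodes -/
theorem nd (A : At S M m a T) {Gn : ℕ → Prop} {u v : ℕ} {δ θ er la g Mc : ℝ} {hm' : ℕ → ℝ}
    (hu : S.jl < u) (huv : u ≤ v) (hv : v ≤ S.Jp) (δ0 : 0 ≤ δ) (M0 : 0 ≤ Mc)
    (gap : ∀ i k, Nx Gn u v i k → M.z k ≤ M.z i + (δ + θ * (sb M m a (k + 1) - sb M m a (i + 1))))
    (e1 : ∀ i k, u ≤ i → i ≤ k → k ≤ v → Gn i → Gn k → |res M S m a T k - res M S m a T i| ≤
      er + la * (sb M m a (k + 1) - sb M m a (i + 1)))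
    (hg : ∀ k, u ≤ k → k ≤ v → Gn k → |hm' k - M.H k| ≤ g)
    (ceil : ∀ i k, u ≤ i → i ≤ k → k ≤ v → hm' k - hm' i ≤ Mc * (M.z k - M.z i)) :
    Nd M.b (lb M S m a T) (fun k => sb M m a (k + 1)) hm' Gn u v δ θ
      (S.C * er + 2 * g + S.C / (m + 1)) (S.C * la) Mc where
  nn := (A.sb_mem (huv.trans hv)).1
  top := by rw [A.okb.2]; exact (A.sb_mem hv).2
  mono := fun _ _ _ h _ => A.sb_mono (Nat.succ_le_succ h)
  δ0 := δ0
  M0 := M0
  gap := fun i k h1 h2 h3 g1 g2 g3 => by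
    rw [A.lvb_node (by omega) (by omega), A.lvb_node (by omega) (by omega)]
    exact gap i k ⟨h1, h2.le, h3, g1, g2, g3⟩
  e1 := fun i k h1 h2 h3 g1 g2 => by
    have a1 := A.Mf_b (k := i) (by omega) (by omega)
    have a2 := A.Mf_b (k := k) (by omega) (by omega)
    have b0 : 1 ≤ M.b := (d_mem A.cl le_rfl).1
    have a3 : |M.b * res M S m a T k - M.b * res M S m a T i| ≤
        S.C * (er + la * (sb M m a (k + 1) - sb M m a (i + 1))) := by
      rw [← mul_sub, abs_mul, abs_of_nonneg (by linarith)]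
      exact mul_le_mul A.cl.b1 (e1 i k h1 h2 h3 g1 g2) (abs_nonneg _) A.c_pos.le
    obtain ⟨t1, t2⟩ := A.tail_mem (k := i) (A.jp_le (by omega))
    obtain ⟨t3, t4⟩ := A.tail_mem (k := k) (A.jp_le (by omega))
    rw [d_top A.cl (by omega) (A.jp_le (by omega))] at t1 t2 t3 t4
    have c1 := abs_le.1 (hg i h1 (h2.trans h3) g1)
    have c2 := abs_le.1 (hg k (h1.trans h2) h3 g2)
    simp only [Rig.Mf] at a1 a2
    simp only [L0.rho]
    refine abs_le.2 ⟨?_, ?_⟩ <;> linarith [(abs_le.1 a3).1, (abs_le.1 a3).2, c1.1, c1.2, c2.1, c2.2]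
  ceil := fun i k h1 h2 h3 => by
    rw [A.lvb_node (by omega) (by omega), A.lvb_node (by omega) (by omega)]
    exact ceil i k h1 h2 h3

/-- the hypothesis `hfl` of `gaps_floor` from a floor in labels -/
theorem hfl (A : At S M m a T) {u v : ℕ} {μ : ℝ} {hm' : ℕ → ℝ} (hu : S.jl ≤ u) (hv : v ≤ S.Jp)
    (h : ∀ i k, u ≤ i → i ≤ k → k ≤ v → μ * (M.z k - M.z i) ≤ hm' k - hm' i) (i k : ℕ)
    (h1 : u ≤ i) (h2 : i ≤ k) (h3 : k ≤ v) :
    μ * (lvr 1 (lb M S m a T) (sb M m a (k + 1)) - lvr 1 (lb M S m a T) (sb M m a (i + 1))) ≤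
      hm' k - hm' i := by
  rw [A.lvb_node (by omega) (by omega), A.lvb_node (by omega) (by omega)]
  exact h i k h1 h2 h3

end At

end Crest.Agent.T156.Alt.Mp9

end
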