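import Crest.Agent.T156.ClE1s_49
import Crest.Agent.T156.ClNd_9

/-!
# Row 156 (helper49): path sizes for (E1) on the class
-/

set_option autoImplicit false
set_option linter.unusedSectionVars false

noncomputable section

namespace Crest.Agent.T156.Alt.E49

open MeasureTheory Real Set Filter Topology
open Crest.Agent.T157.E Crest.Agent.T157.Casc Crest.Agent.T157.SL
open Crest.Agent.T156.Cas Crest.Agent.T156.Cas.Sy41 Crest.Agent.T156.Cas.Q33
open Crest.Agent.T156.Alt.Md67 Crest.Agent.T156.Alt.E61 Crest.Agent.T156.Alt.C33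
open Crest.Agent.T156.Alt.Cost41 (aM Phi RW)

/-- `F / (n ms t)` -/
def gg (S : Sc) (t : ℝ) : ℝ := S.F / (S.n * S.ms t)

/-- tilt times field per node above the base `i` -/
def sg (S : Sc) (M : Md) (i : ℕ) : ℝ := M.z i * (S.ms (M.s i) / S.F * S.v / S.C)

/-- the number of dyadic scales -/
structure Kb (S : Sc) (M : Md) (K : ℕ) : Prop where
  N : M.N ≤ 2 ^ K
  H : M.H S.Jp ≤ 2 ^ K * sg S M 0

/-- plateau data: node weights `≤ v p`, rise below the corner, weighted rise on the plateau -/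
structure Pt (S : Sc) (M : Md) (m : ℕ) (a : ℝ) (p : ℕ → ℝ) (l Λ R : ℝ) : Prop where
  anti : Antitone p
  nn : ∀ j, 0 ≤ p j
  l0 : 0 < l
  p0 : p (S.J - 2) ≤ 1 / l
  dz : ∀ k, S.J ≤ k → k < S.Jp → M.dz m a k ≤ S.v * p (k - 1)
  Λ0 : 0 ≤ Λ
  up : ∀ i, S.J / 2 + i < S.J - 1 →
    M.rb m a (S.J - 1) - M.rb m a (S.J - 1 - 1 - i) ≤ Λ * (i * S.v + l)
  R : ∑ j ∈ Finset.Ioc (S.J - 1) S.Jp, (M.rb m a j - M.rb m a (j - 1)) * p (j - 2) ≤ R

/-- the size of `∑ dz aM` on the plateau -/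
def pA (S : Sc) (K : ℕ) (l Λ R : ℝ) : ℝ := (K + 2) * (2 * (1 + K) * (110592 * S.C ^ 14 * gg S 1) *
  (12 * S.C ^ 3 + Λ * (1 + log (1 + S.C ^ 2 / l)) + R) + S.v / l)

/-- the size of `∑ dz tM` on the plateau -/
def pT (S : Sc) (l R : ℝ) : ℝ := 2 * S.C * (110592 * S.C ^ 14 * gg S 1) * R + 2 * S.C ^ 2 * (S.v / l)

variable {S : Sc} {M : Md} {m : ℕ} {a ms : ℝ} {u : ℕ → ℝ} {K : ℕ}

theorem num_vv {C K : ℝ} (C1 : 1 ≤ C) (K0 : 0 ≤ K) :
    3 * C ^ 2 + 8 * C ^ 4 + 2 * (K + 2) ^ 2 * C ≤ 5 * C ^ 4 * (K + 2) ^ 2 ∧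
      8 * C ^ 4 + (K + 2) * C ≤ 5 * C ^ 5 * (K + 2) ^ 2 := by
  have k4 : (4 : ℝ) ≤ (K + 2) ^ 2 := by nlinarith
  have k2 : K + 2 ≤ (K + 2) ^ 2 := by nlinarith
  have c1 : C ≤ C ^ 4 := le_self_pow₀ C1 (by norm_num)
  have c2 : C ^ 2 ≤ C ^ 4 := pow_le_pow_right₀ C1 (by norm_num)
  have c3 : C ^ 4 ≤ C ^ 5 := pow_le_pow_right₀ C1 (by norm_num)
  constructor
  · linarith [mul_le_mul_of_nonneg_left k4 (by positivity : 0 ≤ C ^ 4),
      mul_le_mul_of_nonneg_left c1 (by positivity : 0 ≤ (K + 2) ^ 2), (by positivity : 0 ≤ C ^ 4)]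
  · linarith [mul_le_mul_of_nonneg_left k4 (by positivity : 0 ≤ C ^ 5),
      mul_le_mul k2 (c1.trans c3) (by positivity) (by positivity : 0 ≤ (K + 2) ^ 2),
      (by positivity : 0 ≤ C ^ 5)]

section fn
variable (F : Fn S M m a)
include F

theorem ms_quad {t t' : ℝ} (h0 : 0 < t) (h : t ≤ t') : S.ms t' * t ^ 2 ≤ 4 * t' ^ 2 * S.ms t := by
  obtain ⟨r, h1, h2⟩ := exists_nat_pow_near ((one_le_div h0).2 h) one_lt_two
  rw [le_div_iff₀ h0] at h1
  rw [div_lt_iff₀ h0] at h2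
  have a1 := (F.msm h2.le).trans (F.ms_pow h0.le (r + 1))
  have a2 := pow_le_pow_left₀ (by positivity) h1 2
  have e : (4 : ℝ) ^ (r + 1) * t ^ 2 = 4 * (2 ^ r * t) ^ 2 := by
    rw [mul_pow, ← pow_mul, mul_comm r 2, pow_mul]; norm_num; ring
  have a3 := mul_le_mul_of_nonneg_right a1 (sq_nonneg t)
  have a4 := mul_le_mul_of_nonneg_right a2 (F.ms_pos h0.le).le
  rw [mul_right_comm, e] at a3
  linarith

theorem gg_pos {t : ℝ} (h0 : 0 ≤ t) : 0 < gg S t := by
  have := F.F0; have := F.ms_pos h0; have := F.n1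
  unfold gg; positivity

theorem gg_anti {t t' : ℝ} (h0 : 0 ≤ t) (h : t ≤ t') : gg S t' ≤ gg S t := by
  have := F.F0; have := F.ms_pos h0; have := F.n1; have := F.msm h
  unfold gg; gcongr

theorem gg_quad {t t' : ℝ} (h0 : 0 < t) (h : t ≤ t') : gg S t * t ^ 2 ≤ 4 * t' ^ 2 * gg S t' := by
  have f := F.F0; have m1 := F.ms_pos h0.le; have n1 := F.n1
  have m2 := F.ms_pos (h0.le.trans h)
  have := mul_le_mul_of_nonneg_left (ms_quad F h0 h) (mul_nonneg f.le (zero_le_one.trans n1))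
  rw [gg, gg, div_mul_eq_mul_div, mul_div_assoc', div_le_div_iff₀ (by positivity) (by positivity)]
  linarith

theorem sg_pos (i : ℕ) : 0 < sg S M i := by
  have := F.F0; have := F.ms_pos (F.s_nonneg i); have := F.z_pos i; have := F.v0; have := F.C0
  unfold sg; positivity

theorem sg_mono {i k : ℕ} (h : i ≤ k) : sg S M i ≤ sg S M k := by
  have := F.F0; have := F.ms_pos (F.s_nonneg i); have := F.z_pos k; have := F.v0; have := F.C0
  have := F.msm (F.sm h); have := F.leg.zm h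
  unfold sg; gcongr

theorem sg_le {i k : ℕ} (h0 : S.jl ≤ i) (h : i ≤ k) (hk : k < S.Jp) :
    sg S M i ≤ M.z k * (M.H (k + 1) - M.H k) := by
  refine (sg_mono F h).trans (mul_le_mul_of_nonneg_left ?_ (F.z_pos k).le)
  refine le_trans (le_of_eq ?_) (F.flr k (h0.trans h) hk)
  have := F.F0; have := F.C0
  field_simp

theorem m0 : (0 : ℝ) < m := zero_lt_one.trans_le (F.n1.trans F.nm)

theorem sg_le' {i k : ℕ} (h0 : S.jl ≤ i) (h : i ≤ k) (hk : k < S.Jp) :
    m * sg S M i ≤ M.z k * ((M.H (k + 1) - M.H k) * m) := by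
  linarith [mul_le_mul_of_nonneg_left (sg_le F h0 h hk) (m0 F).le]

theorem rate (i : ℕ) : S.v / (m * sg S M i) ≤ S.C * gg S (M.s i) / M.z i := by
  have := F.F0; have := F.ms_pos (F.s_nonneg i); have := F.z_pos i; have := F.v0; have := F.C0
  have := F.n1; have := F.nm
  calc _ ≤ S.v / (S.n * sg S M i) := by have := sg_pos F i; gcongr
    _ = _ := by unfold sg gg; field_simp

theorem z_top {i : ℕ} (h0 : S.jl ≤ i) (h1 : i < S.J) (h : S.J ≤ 8 * i) :
    1 ≤ 48 * S.C ^ 5 * M.z i ∧ 1 ≤ 24 * S.C ^ 4 * M.s i := by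
  have C0 := F.C0
  have a1 : (S.J : ℝ) * S.v ≤ 8 * (i * S.v) := by
    have : (S.J : ℝ) ≤ 8 * i := by exact_mod_cast h
    linarith [mul_le_mul_of_nonneg_right this F.v0.le]
  have a2 := F.J_lo.trans (mul_le_mul_of_nonneg_left a1 (by positivity))
  constructor
  · linarith [mul_le_mul_of_nonneg_left (F.z_lo (F.i1.trans h0) h1)
      (by positivity : 0 ≤ 24 * S.C ^ 3)]
  · linarith [mul_le_mul_of_nonneg_left (F.s_mem h1.le).1 (by positivity : 0 ≤ 24 * S.C ^ 3)]

theorem gg_top {i : ℕ} (h0 : S.jl ≤ i) (h1 : i < S.J) (h : S.J ≤ 8 * i) :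
    gg S (M.s i) ≤ 2304 * S.C ^ 8 * gg S 1 := by
  have C1 := F.C1
  have c1 : 1 ≤ 24 * S.C ^ 4 := by nlinarith [one_le_pow₀ (n := 4) C1]
  have c0 : 0 < 1 / (24 * S.C ^ 4) := by positivity
  have a1 : 1 / (24 * S.C ^ 4) ≤ M.s i := by
    rw [div_le_iff₀' (by positivity)]; exact (z_top F h0 h1 h).2
  have a2 := gg_quad F c0 ((div_le_one (by positivity)).2 c1)
  refine (gg_anti F c0.le a1).trans ?_
  rw [div_pow, one_pow, mul_one_div, div_le_iff₀ (by positivity)] at a2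
  linarith

theorem rate_top {i : ℕ} (h0 : S.jl ≤ i) (h1 : i < S.J) (h : S.J ≤ 8 * i) :
    S.v / (m * sg S M i) ≤ 110592 * S.C ^ 14 * gg S 1 := by
  have C0 := F.C0
  have g1 := gg_pos F zero_le_one
  refine (rate F i).trans ?_
  rw [div_le_iff₀ (F.z_pos i)]
  have a1 := mul_le_mul_of_nonneg_left (gg_top F h0 h1 h) C0.le
  have a2 := mul_le_mul_of_nonneg_left (z_top F h0 h1 h).1
    (by positivity : 0 ≤ 2304 * S.C ^ 9 * gg S 1)
  linarith

theorem Phi_le (B : Kb S M K) {i k : ℕ} (h : i ≤ k) (hk : k ≤ S.Jp) :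
    Phi M k - Phi M i ≤ 2 ^ K * sg S M i := by
  rw [Cost41.Phi_sub M h]
  refine (Finset.sum_le_sum fun j _ => mul_le_of_le_one_left (dH_nonneg F.leg j)
    (F.leg.z1 j)).trans ?_
  rw [Finset.sum_Ico_sub _ h]
  have := mul_le_mul_of_nonneg_left (sg_mono F (Nat.zero_le i)) (by positivity : (0 : ℝ) ≤ 2 ^ K)
  linarith [B.H, F.leg.Hm hk, H_nonneg F.leg i]

theorem Phi_ge {i j k : ℕ} (h0 : S.jl ≤ i) (h : i ≤ j) (hjk : j ≤ k) (hk : k ≤ S.Jp) :
    ((k : ℝ) - j) * sg S M i ≤ Phi M k - Phi M j := by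
  have := Finset.card_nsmul_le_sum (Finset.Ico j k) (fun j => M.z j * (M.H (j + 1) - M.H j))
    (sg S M i) fun x hx => sg_le F h0 (h.trans (Finset.mem_Ico.1 hx).1)
      ((Finset.mem_Ico.1 hx).2.trans_le hk)
  rwa [Nat.card_Ico, nsmul_eq_mul, Nat.cast_sub hjk, ← Cost41.Phi_sub M hjk] at this

theorem dz_mem {k : ℕ} (h0 : S.j0 < k) (hk : k < S.J) :
    S.v / S.C ≤ M.dz m a k ∧ M.dz m a k ≤ S.C * S.v := by
  obtain ⟨k, rfl⟩ : ∃ j, k = j + 1 := ⟨k - 1, by omega⟩
  rw [dz_succ F.leg]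
  exact F.zs k (by omega) hk

/-- **the sloped part**: location `rb ≤ y`, weights `f` -/
theorem slope_sum (B : Kb S M K) {k1 b : ℕ} (h0 : S.jl ≤ k1) (h1 : k1 ≤ b) (hb : b < S.J)
    {y f : ℕ → ℝ} {A f1 : ℝ} (ym : Monotone y) (y0 : 0 < y k1)
    (hy : ∀ k, k1 ≤ k → k ≤ b → M.rb m a k ≤ y k) (f0 : ∀ k, 0 ≤ f k ∧ f k ≤ f1) (A0 : 0 ≤ A)
    (hA : ∀ i, k1 ≤ i → i < b → f (i + 1) * y i * gg S (M.s i) ≤ A * M.z i) :
    ∑ k ∈ Finset.Ioc k1 b, M.dz m a k * f k * aM M m a k ≤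
      (K + 2) * (2 * (1 + K) * (S.C ^ 2 * A * (1 + log (y b / y k1))) + f1 * (S.C * S.v)) := by
  have G := F.lg
  have C0 := F.C0; have v0 := F.v0; have n1 := F.n1; have F0 := F.F0
  have i1 := F.i1; have i3 := F.i3; have i4 := F.i4
  have yp : ∀ k, k1 ≤ k → 0 < y k := fun k hk => y0.trans_le (ym hk)
  have f10 : 0 ≤ f1 := (f0 0).1.trans (f0 0).2
  have := Cost41.cost G (c := fun k => M.dz m a k * f k) (W := fun j => S.n * S.C ^ 2 * A / y j)
    (cm := f1 * (S.C * S.v)) (j0 := k1) (N := b) (K := K) (sg_pos F k1) h1 (by omega)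
    (fun i p q => sg_le F h0 p (by omega)) (Phi_le F B h1 (by omega))
    (fun k _ _ => mul_nonneg (G.dz_nonneg k) (f0 k).1) (by positivity)
    (fun k p q => by
      rw [mul_comm]
      exact mul_le_mul (f0 k).2 (dz_mem F (by omega) (by omega)).2 (G.dz_nonneg k) f10)
    (fun j p _ => by have := yp j p; positivity) fun j k p q r => by
      rw [Cost41.Phi_sub M q.le, Finset.mul_sum, ← Finset.Ico_add_one_add_one_eq_Ioc,
        ← Finset.sum_Ico_add']
      refine Finset.sum_le_sum fun i hi => ?_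
      obtain ⟨p1, p2⟩ := Finset.mem_Ico.1 hi
      have yi := yp i (by omega)
      have yj := yp j p
      have mi := F.ms_pos (F.s_nonneg i)
      have b1 := mul_le_mul_of_nonneg_right (dz_mem F (k := i + 1) (by omega) (by omega)).2
        (f0 (i + 1)).1
      have b2 : S.C * S.v * f (i + 1) ≤ S.n * S.C ^ 2 * A / y i * sg S M i := by
        have := hA i (by omega) (by omega)
        rw [gg, mul_div_assoc', div_le_iff₀ (by positivity)] at this
        rw [sg, show S.n * S.C ^ 2 * A / y i * (M.z i * (S.ms (M.s i) / S.F * S.v / S.C)) =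
          S.C * S.v * (A * M.z i * (S.n * S.ms (M.s i)) / (y i * S.F)) by field_simp]
        refine mul_le_mul_of_nonneg_left ?_ (by positivity)
        rw [le_div_iff₀ (by positivity)]
        linarith
      refine (b1.trans b2).trans (mul_le_mul ?_ (sg_le F (by omega) le_rfl (by omega))
        (sg_pos F i).le (by positivity))
      exact div_le_div_of_nonneg_left (by positivity) yj (ym p1)
  refine this.trans (mul_le_mul_of_nonneg_left (add_le_add ?_ le_rfl) (by positivity))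
  have r := Cost41.RW_low (ρ := M.rb m a) (B := S.n * S.C ^ 2 * A) (Λ := 1) h1 (by positivity)
    zero_le_one y0 ym fun j p q => by rw [one_mul]; exact hy j p q
  have l0 : 0 ≤ 1 + log (y b / y k1) := by
    linarith [log_nonneg ((one_le_div y0).2 (ym h1))]
  have m' := m0 F
  rw [div_mul_eq_mul_div, div_le_iff₀ m']
  have r1 := mul_le_mul_of_nonneg_left r (by positivity : (0 : ℝ) ≤ 2 * (1 + K))
  have r2 := mul_le_mul_of_nonneg_left F.nm
    (by positivity : (0 : ℝ) ≤ 2 * (1 + K) * (S.C ^ 2 * A * (1 + log (y b / y k1))))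
  linarith

/-- a window of the sloped part, no location -/
theorem win_sum (B : Kb S M K) {i b : ℕ} (h0 : S.jl ≤ i) (h1 : i ≤ b) (hb : b < S.J) :
    ∑ k ∈ Finset.Ioc i b, M.dz m a k * aM M m a k ≤
      (K + 2) * (2 * (1 + K) * (S.C * (S.v / (m * sg S M i)) * M.rb m a b) + S.C * S.v) := by
  have G := F.lg
  have C0 := F.C0; have v0 := F.v0; have σ0 := sg_pos F i; have m' := m0 F
  have i1 := F.i1; have i3 := F.i3; have i4 := F.i4
  have := Cost41.cost G (c := M.dz m a) (W := fun _ => S.C * S.v / sg S M i)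
    (cm := S.C * S.v) (j0 := i) (N := b) (K := K) σ0 h1 (by omega)
    (fun i p q => sg_le F h0 p (by omega)) (Phi_le F B h1 (by omega))
    (fun k _ _ => G.dz_nonneg k) (by positivity)
    (fun k p q => (dz_mem F (by omega) (by omega)).2) (fun j p _ => by positivity)
    fun j k p q r => by
      refine (Finset.sum_le_card_nsmul _ _ (S.C * S.v) fun x hx => (dz_mem F
        (by have := (Finset.mem_Ioc.1 hx).1; omega)
        (by have := (Finset.mem_Ioc.1 hx).2; omega)).2).trans ?_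
      rw [Nat.card_Ioc, nsmul_eq_mul, Nat.cast_sub q.le]
      refine le_trans (le_of_eq ?_) (mul_le_mul_of_nonneg_left (Phi_ge F h0 p q.le (by omega))
        (by positivity))
      field_simp
  refine this.trans (mul_le_mul_of_nonneg_left (add_le_add ?_ le_rfl) (by positivity))
  have r := RW_top (W := fun _ => S.C * S.v / sg S M i) (Md67.rb_mono (M := M) (a := a) G.m0)
    (rb_nonneg G.m0 i) h1 fun _ _ _ => le_rfl
  refine (mul_le_mul_of_nonneg_left (mul_le_mul_of_nonneg_left r (by positivity))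
    (by positivity)).trans (le_of_eq ?_)
  field_simp

section plat
variable {p : ℕ → ℝ} {l Λ R : ℝ} (P : Pt S M m a p l Λ R) (hJ : 4 * S.jl ≤ S.J)
include P hJ

theorem Pt.dz' {k : ℕ} (h1 : S.J ≤ k) (h2 : k < S.Jp) : M.dz m a k ≤ S.v / l :=
  (P.dz k h1 h2).trans ((mul_le_mul_of_nonneg_left ((P.anti (by omega)).trans P.p0) F.v0.le).trans_eq
    (mul_one_div _ _))

theorem Pt.R0 : 0 ≤ R := le_trans (Finset.sum_nonneg fun _ _ =>
  mul_nonneg (sub_nonneg.2 (Md67.rb_mono F.lg.m0 (Nat.sub_le _ _))) (P.nn _)) P.R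

/-- **the plateau**: `∑ dz aM` -/
theorem plat_sum (B : Kb S M K) :
    ∑ k ∈ Finset.Ico S.J S.Jp, M.dz m a k * aM M m a k ≤ pA S K l Λ R := by
  have G := F.lg
  have C0 := F.C0; have v0 := F.v0; have σ0 := sg_pos F (S.J / 2); have m' := m0 F
  have i0 := F.i0; have i1 := F.i1; have i3 := F.i3; have i4 := F.i4; have l0 := P.l0
  have ρm := Md67.rb_mono (M := M) (a := a) G.m0
  set σ := sg S M (S.J / 2) with hσ
  set W : ℕ → ℝ := fun j => S.v / σ *
    if j < S.J then 1 / (((S.J - 1 - j : ℕ) : ℝ) * S.v + l) else p j with hW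
  have W0 : ∀ j, 0 ≤ W j := fun j => mul_nonneg (by positivity) (by
    split_ifs
    exacts [by positivity, P.nn j])
  have := Cost41.cost G (c := fun k => if S.J ≤ k then M.dz m a k else 0) (W := W)
    (cm := S.v / l) (j0 := S.J / 2) (N := S.Jp - 1) (K := K) σ0 (by omega) (by omega)
    (fun i p q => sg_le F (by omega) p (by omega)) (Phi_le F B (by omega) (by omega))
    (fun k _ _ => by
      split_ifs
      exacts [G.dz_nonneg k, le_rfl]) (by positivity)
    (fun k p q => by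
      split_ifs with h
      exacts [P.dz' F hJ h (by omega), by positivity]) (fun j _ _ => W0 j) fun j k hp q r => by
      refine le_trans ?_ (mul_le_mul_of_nonneg_left (Phi_ge F (i := S.J / 2) (by omega) hp q.le
        (by omega)) (W0 j))
      by_cases h : j < S.J
      · rw [hW]
        simp only [if_pos h]
        rcases lt_or_ge k S.J with hk | hk
        · rw [Finset.sum_eq_zero fun i hi => if_neg (by have := (Finset.mem_Ioc.1 hi).2; omega)]
          have : (0 : ℝ) ≤ (k : ℝ) - j := sub_nonneg.2 (Nat.cast_le.2 q.le)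
          positivity
        · rw [← Finset.sum_Ioc_consecutive _ (show j ≤ S.J - 1 by omega) (show S.J - 1 ≤ k by omega),
            Finset.sum_eq_zero fun i hi => if_neg (by have := (Finset.mem_Ioc.1 hi).2; omega),
            zero_add, Finset.sum_congr rfl fun i hi =>
              if_pos (by have := (Finset.mem_Ioc.1 hi).1; omega)]
          have b1 := G.sum_dz_le (Finset.Ioc (S.J - 1) k)
          have b2 := Finset.sum_le_card_nsmul (Finset.Ioc (S.J - 1) k) (M.dz m a) (S.v / l)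
            fun x hx => P.dz' F hJ (by have := (Finset.mem_Ioc.1 hx).1; omega)
              (by have := (Finset.mem_Ioc.1 hx).2; omega)
          rw [Nat.card_Ioc, nsmul_eq_mul, mul_div_assoc', le_div_iff₀ l0] at b2
          have e : (k : ℝ) - j = ((k - (S.J - 1) : ℕ) : ℝ) + ((S.J - 1 - j : ℕ) : ℝ) := by
            rw [← Nat.cast_add, ← Nat.cast_sub q.le]; congr 1; omega
          have b3 := mul_le_mul_of_nonneg_right (b1.trans (sub_le_self 1 G.a0))
            (by positivity : 0 ≤ ((S.J - 1 - j : ℕ) : ℝ) * S.v)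
          rw [show S.v / σ * (1 / (((S.J - 1 - j : ℕ) : ℝ) * S.v + l)) * (((k : ℝ) - j) * σ) =
            S.v * ((k : ℝ) - j) / (((S.J - 1 - j : ℕ) : ℝ) * S.v + l) by field_simp,
            le_div_iff₀ (by positivity), e]
          linarith
      · rw [hW]
        simp only [if_neg h]
        refine (Finset.sum_le_card_nsmul _ _ (S.v * p j) fun x hx => ?_).trans (le_of_eq ?_)
        · obtain ⟨x1, x2⟩ := Finset.mem_Ioc.1 hx
          rw [if_pos (by omega)]
          exact (P.dz x (by omega) (by omega)).trans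
            (mul_le_mul_of_nonneg_left (P.anti (by omega)) v0.le)
        · rw [Nat.card_Ioc, nsmul_eq_mul, Nat.cast_sub q.le, ← hσ]; field_simp
  have e : ∑ k ∈ Finset.Ico S.J S.Jp, M.dz m a k * aM M m a k = ∑ k ∈ Finset.Ioc (S.J / 2)
      (S.Jp - 1), (if S.J ≤ k then M.dz m a k else 0) * aM M m a k := by
    simp only [ite_mul, zero_mul]
    rw [← Finset.sum_filter]
    refine Finset.sum_congr ?_ fun _ _ => rfl
    ext k
    simp only [Finset.mem_Ico, Finset.mem_filter, Finset.mem_Ioc]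
    omega
  rw [e]
  refine this.trans (mul_le_mul_of_nonneg_left (add_le_add ?_ le_rfl) (by positivity))
  have r1 : M.rb m a (S.J / 2) * W (S.J / 2) ≤ S.v / σ * (12 * S.C ^ 3) := by
    refine (mul_le_of_le_one_left (W0 _) (rb_le_one G.m0 _)).trans ?_
    rw [hW]
    simp only [if_pos (show S.J / 2 < S.J by omega)]
    refine mul_le_mul_of_nonneg_left ?_ (by positivity)
    have b1 : (S.J : ℝ) ≤ 4 * ((S.J - 1 - S.J / 2 : ℕ) : ℝ) := by
      exact_mod_cast (by omega : S.J ≤ 4 * (S.J - 1 - S.J / 2))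
    have b2 := mul_le_mul_of_nonneg_left (mul_le_mul_of_nonneg_right b1 v0.le)
      (by positivity : 0 ≤ 3 * S.C ^ 3)
    rw [div_le_iff₀ (by positivity)]
    linarith [F.J_lo, (by positivity : 0 ≤ 12 * S.C ^ 3 * l)]
  have r2 : ∑ j ∈ Finset.Ioc (S.J / 2) (S.J - 1), (M.rb m a j - M.rb m a (j - 1)) * W j ≤
      S.v / σ * (Λ * (1 + log (1 + S.C ^ 2 / l))) := by
    have b1 := RW_up (ρ := M.rb m a) (c := S.J / 2) (b := S.J - 1) (by omega) v0.le l0 P.Λ0 P.up
    have b2 : ((S.J - 1 : ℕ) : ℝ) * S.v ≤ S.C ^ 2 := by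
      have := (F.s_mem (k := S.J - 1) (by omega)).1
      have := mul_le_mul_of_nonneg_left ((F.sm (show S.J - 1 ≤ S.Jp by omega)).trans F.sT) C0.le
      linarith
    refine le_trans (le_of_eq ?_) (mul_le_mul_of_nonneg_left (b1.trans
      (mul_le_mul_of_nonneg_left (add_le_add le_rfl (log_le_log (by positivity) (by gcongr))) P.Λ0))
      (by positivity))
    rw [Finset.mul_sum]
    refine Finset.sum_congr rfl fun j hj => ?_
    rw [hW]
    simp only [if_pos (show j < S.J by have := (Finset.mem_Ioc.1 hj).2; omega)]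
    ring
  have r3 : ∑ j ∈ Finset.Ioc (S.J - 1) (S.Jp - 1), (M.rb m a j - M.rb m a (j - 1)) * W j ≤
      S.v / σ * R := by
    refine le_trans ?_ (mul_le_mul_of_nonneg_left P.R (by positivity))
    rw [Finset.mul_sum]
    refine le_trans (Finset.sum_le_sum fun j hj => ?_) (Finset.sum_le_sum_of_subset_of_nonneg
      (Finset.Ioc_subset_Ioc_right (Nat.sub_le _ 1)) fun j _ _ => mul_nonneg (by positivity)
        (mul_nonneg (sub_nonneg.2 (ρm (Nat.sub_le _ _))) (P.nn _)))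
    rw [hW]
    simp only [if_neg (show ¬ j < S.J by have := (Finset.mem_Ioc.1 hj).1; omega)]
    rw [mul_left_comm]
    exact mul_le_mul_of_nonneg_left (mul_le_mul_of_nonneg_left (P.anti (Nat.sub_le _ _))
      (sub_nonneg.2 (ρm (Nat.sub_le _ _)))) (by positivity)
  have r4 : RW (M.rb m a) W (S.J / 2) (S.Jp - 1) ≤
      S.v / σ * (12 * S.C ^ 3 + Λ * (1 + log (1 + S.C ^ 2 / l)) + R) := by
    rw [Cost41.RW_split _ _ (show S.J / 2 ≤ S.J - 1 by omega) (show S.J - 1 ≤ S.Jp - 1 by omega),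
      RW]
    linarith
  have Y0 : 0 ≤ 12 * S.C ^ 3 + Λ * (1 + log (1 + S.C ^ 2 / l)) + R := by
    have := log_nonneg (le_add_of_nonneg_right (by positivity : 0 ≤ S.C ^ 2 / l))
    have := P.Λ0
    have := P.R0 F hJ
    positivity
  have r5 := mul_le_mul_of_nonneg_right (rate_top F (i := S.J / 2) (by omega) (by omega) (by omega)) Y0
  calc _ ≤ 2 / m * ((1 + K) * (S.v / σ * (12 * S.C ^ 3 + Λ * (1 + log (1 + S.C ^ 2 / l)) + R))) := by
        gcongr
    _ = 2 * (1 + K) * (S.v / (m * σ) * (12 * S.C ^ 3 + Λ * (1 + log (1 + S.C ^ 2 / l)) + R)) := by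
        field_simp
    _ ≤ _ := by rw [mul_assoc (2 * (1 + (K : ℝ)))]; gcongr

/-- **the plateau**: `∑ dz tM` -/
theorem plat_tM : ∑ k ∈ Finset.Ico S.J S.Jp, M.dz m a k * tM M m a k ≤ pT S l R := by
  have G := F.lg
  have C0 := F.C0; have v0 := F.v0; have σ0 := sg_pos F (S.J / 2); have m' := m0 F
  have i0 := F.i0; have i1 := F.i1; have i3 := F.i3; have i4 := F.i4; have l0 := P.l0
  have ρm := Md67.rb_mono (M := M) (a := a) G.m0
  set σ := m * sg S M (S.J / 2) with hσ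
  have key : ∀ k ∈ Finset.Ico S.J S.Jp, M.dz m a k * tM M m a k ≤
      2 * S.C * (S.v / σ) * ((M.rb m a (k + 1) - M.rb m a k) * p (k - 1)) +
        2 * S.C ^ 2 * (S.v / l) * (M.rb m a (k + 1) - M.rb m a k) := fun k hk => by
    obtain ⟨k1, k2⟩ := Finset.mem_Ico.1 hk
    have d0 : 0 ≤ M.rb m a (k + 1) - M.rb m a k := sub_nonneg.2 (ρm k.le_succ)
    have b1 := tM_le G (k := k) (by omega) (σ := σ) (x := 1 / S.C) (by positivity) (by positivity)
      (by rw [div_le_iff₀' C0]; exact F.z_top (by omega)) (sg_le' F (by omega) (by omega) k2)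
    refine (mul_le_mul_of_nonneg_left b1 (G.dz_nonneg k)).trans ?_
    have b2 := mul_le_mul_of_nonneg_right (P.dz k k1 k2)
      (by positivity : 0 ≤ 2 * S.C / σ * (M.rb m a (k + 1) - M.rb m a k))
    have b3 := mul_le_mul_of_nonneg_right (P.dz' F hJ k1 k2)
      (by positivity : 0 ≤ 2 * S.C ^ 2 * (M.rb m a (k + 1) - M.rb m a k))
    rw [show 2 / (σ * (1 / S.C)) + 2 / (1 / S.C) ^ 2 = 2 * S.C / σ + 2 * S.C ^ 2 by field_simp]
    refine le_trans (le_of_eq (by ring)) ((add_le_add b2 b3).trans (le_of_eq (by ring)))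
  refine (Finset.sum_le_sum key).trans ?_
  rw [Finset.sum_add_distrib, ← Finset.mul_sum, ← Finset.mul_sum, Finset.sum_Ico_sub _ i3]
  have e : ∑ k ∈ Finset.Ico S.J S.Jp, (M.rb m a (k + 1) - M.rb m a k) * p (k - 1) ≤ R := by
    refine le_trans ?_ P.R
    rw [← Finset.Ico_add_one_add_one_eq_Ioc, ← Finset.sum_Ico_add']
    exact Finset.sum_le_sum_of_subset_of_nonneg (Finset.Ico_subset_Ico_left (Nat.sub_le _ 1))
      fun j _ _ => mul_nonneg (sub_nonneg.2 (ρm j.le_succ)) (P.nn _)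
  have r := rate_top F (i := S.J / 2) (by omega) (by omega) (by omega)
  have R0 := P.R0 F hJ
  refine add_le_add (le_trans (mul_le_mul_of_nonneg_left e (by positivity)) (by gcongr))
    (mul_le_of_le_one_right (by positivity) ?_)
  linarith [rb_le_one (M := M) (a := a) G.m0 S.Jp, rb_nonneg (M := M) (a := a) G.m0 S.J]

end plat

/-- plateau data from a lower bound of the density, no location -/
theorem pt_den {d : ℝ} (d0 : 0 < d)
    (hd : ∀ k, S.J ≤ k → k < S.Jp → d ≤ S.den (M.z (k - 1))) :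
    Pt S M m a (fun _ => S.C / d) (d / S.C) (S.C / d) (S.C / d) := by
  have G := F.lg
  have C0 := F.C0; have v0 := F.v0; have i2 := F.i2; have i3 := F.i3
  refine ⟨antitone_const, fun _ => by positivity, by positivity, (one_div_div _ _).ge,
    fun k h1 h2 => ?_, by positivity, fun i _ => ?_, ?_⟩
  · have := (F.plat k h1 h2).2
    rw [← dz_up (m := m) (a := a) F.leg (by omega)] at this
    rw [mul_div_assoc', le_div_iff₀ d0]
    linarith [mul_le_mul_of_nonneg_left (hd k h1 h2) (G.dz_nonneg k)]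
  · have e : S.C / d * (d / S.C) = 1 := by field_simp
    have : 0 ≤ S.C / d * (i * S.v) := by positivity
    linarith [rb_le_one (M := M) (a := a) G.m0 (S.J - 1),
      rb_nonneg (M := M) (a := a) G.m0 (S.J - 1 - 1 - i)]
  · rw [← Finset.sum_mul, Cost41.tele _ (by omega)]
    refine mul_le_of_le_one_left (by positivity) ?_
    linarith [rb_le_one (M := M) (a := a) G.m0 S.Jp, rb_nonneg (M := M) (a := a) G.m0 (S.J - 1)]

/-- plateau data from `d ≤ den (1 - x)`, the rise `c y + V` below the corner and the mean rise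
`Rp` on the plateau -/
theorem pt_top (hJ : 4 * S.jl ≤ S.J) {d c V Rp : ℝ} (d0 : 0 < d) (d1 : d ≤ 1) (c0 : 0 ≤ c)
    (V0 : 0 ≤ V)
    (hd : ∀ k, S.J ≤ k → k < S.Jp → d ≤ S.den (M.z (k - 1)) * (1 - M.z (k - 1)))
    (hV : ∀ i, S.J / 2 ≤ i → i < S.J →
      M.rb m a (S.J - 1) - M.rb m a i ≤ c * ((S.J - 1 - i : ℕ) * S.v) + V)
    (hR : ∑ k ∈ Finset.Icc S.J S.Jp, M.dz m a k * (M.rb m a k - M.rb m a (S.J - 1)) ≤ Rp) :
    Pt S M m a (fun j => S.C * (1 - M.z j) / d) (d / S.C) (c + S.C * (c * S.v + V) / d)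
      (S.C * (Rp + 2 * (S.C * S.v / d + S.ue)) / d) := by
  have G := F.lg
  have C0 := F.C0; have v0 := F.v0; have i0 := F.i0; have i1 := F.i1; have i2 := F.i2
  have i3 := F.i3
  have ρm := Md67.rb_mono (M := M) (a := a) G.m0
  have z1 : ∀ j, 0 ≤ 1 - M.z j := fun j => sub_nonneg.2 (G.z1 j)
  have dz : ∀ k, S.J ≤ k → k < S.Jp → M.dz m a k ≤ S.v * (S.C * (1 - M.z (k - 1)) / d) :=
    fun k h1 h2 => by
      have := (F.plat k h1 h2).2
      rw [← dz_up (m := m) (a := a) F.leg (by omega)] at this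
      rw [mul_div_assoc', le_div_iff₀ d0]
      linarith [mul_le_mul_of_nonneg_left (hd k h1 h2) (G.dz_nonneg k),
        mul_le_mul_of_nonneg_right this (z1 (k - 1))]
  have ue0 : 0 ≤ S.ue := (z1 _).trans F.last
  have dm : ∀ k, S.J - 1 ≤ k → k ≤ S.Jp → M.dz m a k ≤ S.C * S.v / d + S.ue := fun k h1 h2 => by
    have p0 : 0 ≤ S.C * S.v / d := by positivity
    rcases h2.eq_or_lt with rfl | h2
    · rw [dz_up F.leg (by omega)]
      linarith [F.last, G.z1 S.Jp]
    rcases lt_or_ge k S.J with h3 | h3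
    · have := (dz_mem F (k := k) (by omega) h3).2
      have := le_div_self (by positivity : 0 ≤ S.C * S.v) d0 d1
      linarith
    · have := dz k h3 h2
      have : S.v * (S.C * (1 - M.z (k - 1)) / d) ≤ S.v * (S.C * 1 / d) := by
        gcongr; linarith [G.z_nonneg (k - 1)]
      have e : S.v * (S.C * 1 / d) = S.C * S.v / d := by ring
      linarith
  refine ⟨fun i j h => by have := G.zm h; gcongr, fun j => by
    have := z1 j; positivity, by positivity, ?_, dz, by positivity, fun i hi => ?_, ?_⟩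
  · rw [one_div_div]
    exact div_le_div_of_nonneg_right (mul_le_of_le_one_right C0.le
      (by linarith [G.z_nonneg (S.J - 2)])) d0.le
  · have := hV (S.J - 1 - 1 - i) (by omega) (by omega)
    rw [show S.J - 1 - (S.J - 1 - 1 - i) = i + 1 by omega] at this
    push_cast at this
    have e : S.C * (c * S.v + V) / d * (d / S.C) = c * S.v + V := by field_simp
    have : 0 ≤ S.C * (c * S.v + V) / d * (i * S.v) := by positivity
    have : 0 ≤ c * (d / S.C) := by positivity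
    linarith
  · have e : ∀ j, (M.rb m a j - M.rb m a (j - 1)) * (S.C * (1 - M.z (j - 2)) / d) =
        S.C * ((M.rb m a j - M.rb m a (j - 1)) * (1 - M.z (j - 2))) / d := fun j => by ring
    simp only [e]
    rw [← Finset.sum_div, ← Finset.mul_sum]
    gcongr
    have b1 := abel_top (ρ := M.rb m a) (z := M.z) (show S.J - 1 ≤ S.Jp by omega)
    rw [F.top _ le_rfl] at b1
    have b2 : ∑ k ∈ Finset.Ioc (S.J - 1) S.Jp, (M.z k - M.z (k - 1)) *
        (M.rb m a (k - 1) - M.rb m a (S.J - 1)) ≤ Rp := by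
      refine le_trans ?_ hR
      rw [show Finset.Icc S.J S.Jp = Finset.Ioc (S.J - 1) S.Jp by
        ext k; simp only [Finset.mem_Icc, Finset.mem_Ioc]; omega]
      refine Finset.sum_le_sum fun k hk => ?_
      rw [← dz_up (m := m) (a := a) F.leg (by have := (Finset.mem_Ioc.1 hk).1; omega)]
      exact mul_le_mul_of_nonneg_left (sub_le_sub_right (ρm (Nat.sub_le _ _)) _) (G.dz_nonneg k)
    have b3 : ∑ j ∈ Finset.Ioc (S.J - 1) S.Jp, (M.rb m a j - M.rb m a (j - 1)) *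
        (2 * (S.C * S.v / d + S.ue)) ≤ 2 * (S.C * S.v / d + S.ue) := by
      rw [← Finset.sum_mul, Cost41.tele _ (by omega)]
      refine mul_le_of_le_one_left (by positivity) ?_
      linarith [rb_le_one (M := M) (a := a) G.m0 S.Jp, rb_nonneg (M := M) (a := a) G.m0 (S.J - 1)]
    refine le_trans ?_ (add_le_add (b1.trans_le b2) b3)
    rw [← Finset.sum_add_distrib]
    refine Finset.sum_le_sum fun j hj => ?_
    obtain ⟨j1, j2⟩ := Finset.mem_Ioc.1 hj
    rw [← mul_add]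
    refine mul_le_mul_of_nonneg_left ?_ (sub_nonneg.2 (ρm (Nat.sub_le _ _)))
    have c1 := dm j j1.le j2
    have c2 := dm (j - 1) (by omega) (by omega)
    rw [dz_up F.leg (by omega)] at c1 c2
    rw [show j - 1 - 1 = j - 2 from rfl] at c2
    linarith

/-- the parity weight seen from the test node `j` -/
def gj (M : Md) (m : ℕ) (a ms : ℝ) (j k : ℕ) : ℝ := if k < j then pb M m a ms k else 1

theorem gj_mem (h0 : 0 < ms) (j k : ℕ) : 0 < gj M m a ms j k ∧ gj M m a ms j k ≤ 3 := by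
  unfold gj
  split_ifs
  · refine ⟨?_, pb_le F.lg k⟩
    have := sb_nn F.lg k
    have := rb_nonneg (M := M) (a := a) F.lg.m0 k
    have := F.z_pos k
    unfold pb; positivity
  · norm_num

/-- **the weak input on the class** -/
theorem gm_cl (B : Kb S M K) (hu : Mj M m a u) (h0 : 0 < ms) {p : ℕ → ℝ} {l Λ R : ℝ}
    (P : Pt S M m a p l Λ R) (hJ : 4 * S.jl ≤ S.J) {k1 j : ℕ} (k0 : S.jl ≤ k1) (kJ : k1 < S.J)
    {y : ℕ → ℝ} {A G : ℝ} (ym : Monotone y) (y0 : 0 < y k1)
    (hy : ∀ k, k1 ≤ k → k < S.J → M.rb m a k ≤ y k) (A0 : 0 ≤ A)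
    (hA : ∀ i, k1 ≤ i → i + 1 < S.J →
      gj M m a ms j (i + 1) ^ 2 * y i * gg S (M.s i) ≤ A * M.z i) (G0 : 0 ≤ G)
    (hG : (10 + 2 * log (1 / M.z 0)) *
      (∑ k ∈ Finset.range (k1 + 1), M.dz m a k * gj M m a ms j k ^ 2 * u k ^ 2 +
        (K + 2) * (2 * (1 + K) * (S.C ^ 2 * A * (1 + log (y (S.J - 1) / y k1))) +
          9 * (S.C * S.v)) + 9 * pA S K l Λ R + 36 * S.ue) ≤ G ^ 2) :
    (eD M m a u ms).Gm (j + 1) G := by
  have L := F.lg
  have i2 := F.i2; have i3 := F.i3; have i4 := F.i4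
  have g9 : ∀ k, 0 ≤ gj M m a ms j k ^ 2 ∧ gj M m a ms j k ^ 2 ≤ 9 := fun k =>
    ⟨sq_nonneg _, by nlinarith [gj_mem F h0 j k]⟩
  refine gm_of_sum L (top_cl F.toCl) hu h0 (F.z_pos 0) (g := gj M m a ms j)
    (fun k _ => (gj_mem F h0 j k).1) (fun k _ => le_rfl) G0 (le_trans
      (mul_le_mul_of_nonneg_left ?_ (by
        linarith [log_nonneg ((one_le_div (F.z_pos 0)).2 (L.z1 0))])) hG)
  rw [← Finset.sum_range_add_sum_Ico _ (show k1 + 1 ≤ M.N by omega),
    ← Finset.sum_Ico_consecutive _ (show k1 + 1 ≤ S.J by omega) (show S.J ≤ M.N by omega),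
    ← Finset.sum_Ico_consecutive _ i3 i4.le, Finset.sum_eq_sum_Ico_succ_bot i4,
    Finset.sum_eq_zero (s := Finset.Ico (S.Jp + 1) M.N) fun k hk => by
      rw [dz_hi F.toCl (Finset.mem_Ico.1 hk).1, zero_mul, zero_mul]]
  have a1 : ∑ k ∈ Finset.range (k1 + 1), M.dz m a k * gj M m a ms j k ^ 2 * aM M m a k ≤
      ∑ k ∈ Finset.range (k1 + 1), M.dz m a k * gj M m a ms j k ^ 2 * u k ^ 2 :=
    Finset.sum_le_sum fun k hk => mul_le_mul_of_nonneg_left
      (aM_le_u L hu (by have := Finset.mem_range.1 hk; omega))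
      (mul_nonneg (L.dz_nonneg k) (sq_nonneg _))
  have a2 := slope_sum F B k0 (b := S.J - 1) (by omega) (by omega) ym y0
    (fun k p q => hy k p (by omega)) g9 A0 fun i p q => hA i p (by omega)
  rw [show Finset.Ioc k1 (S.J - 1) = Finset.Ico (k1 + 1) S.J by
    ext k; simp only [Finset.mem_Ico, Finset.mem_Ioc]; omega] at a2
  have a3 : ∑ k ∈ Finset.Ico S.J S.Jp, M.dz m a k * gj M m a ms j k ^ 2 * aM M m a k ≤
      9 * pA S K l Λ R := by
    refine le_trans ?_ (mul_le_mul_of_nonneg_left (plat_sum F P hJ B) (by norm_num))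
    rw [Finset.mul_sum]
    refine Finset.sum_le_sum fun k _ => ?_
    have := mul_le_mul_of_nonneg_right (g9 k).2 (mul_nonneg (L.dz_nonneg k) (Cost41.aM_nonneg L k))
    linarith
  have a4 : M.dz m a S.Jp * gj M m a ms j S.Jp ^ 2 * aM M m a S.Jp ≤ 36 * S.ue := by
    have b1 : M.dz m a S.Jp ≤ S.ue := by
      rw [dz_up F.leg (by omega)]; linarith [F.last, L.z1 S.Jp]
    have b2 : aM M m a S.Jp ≤ 4 := (aM_le_u L hu i4).trans (by nlinarith [hu.u0 S.Jp])
    have := mul_le_mul (mul_le_mul b1 (g9 S.Jp).2 (g9 S.Jp).1 ((L.dz_nonneg _).trans b1)) b2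
      (Cost41.aM_nonneg L _) (mul_nonneg ((L.dz_nonneg _).trans b1) (by norm_num))
    linarith
  linarith

set_option maxHeartbeats 600000 in
/-- `VV` from the window below `j' ≤ min j J` -/
theorem VVn_core (B : Kb S M K) {j j' : ℕ} (h0 : 4 * S.jl ≤ j') (h1 : j' ≤ S.J) (h2 : j' ≤ j)
    (h3 : j ≤ S.Jp) {TP AP : ℝ} (hT : ∑ k ∈ Finset.Ico j' j, M.dz m a k * tM M m a k ≤ TP)
    (hA : ∑ k ∈ Finset.Ico j' j, M.dz m a k * aM M m a k ≤ AP) :
    VVn M m a j ≤ 5 * S.C ^ 5 * (K + 2) ^ 2 *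
      ((gg S (M.s (j' / 4)) * M.rb m a j + S.v) / M.z (j' / 4) ^ 2) + 4 * S.C ^ 3 * TP +
        AP / M.z (j' / 4) := by
  have G := F.lg
  have C0 := F.C0; have C1 := F.C1; have v0 := F.v0; have m' := m0 F
  have i0 := F.i0; have i1 := F.i1; have i3 := F.i3; have i4 := F.i4
  have ρm := Md67.rb_mono (M := M) (a := a) G.m0
  set i := j' / 4 with hi
  set t := j' / 2 with ht
  have σ0 : 0 < m * sg S M i := mul_pos m' (sg_pos F i)
  have x0 := F.z_pos i
  have hr := rate F i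
  set σ := m * sg S M i with hσ
  set x := M.z i with hx
  set r := S.v / σ with hr'
  set ρ := M.rb m a j with hρ
  have ρ0 : 0 ≤ ρ := rb_nonneg G.m0 j
  have ρ1 : ρ ≤ 1 := rb_le_one G.m0 j
  have x1 : x ≤ 1 := G.z1 i
  have r0 : 0 < r := by positivity
  have t0 : (0 : ℝ) < t := Nat.cast_pos.2 (by omega)
  have tt : (t : ℝ) ≤ (j' : ℝ) - t := by
    have : (2 * t : ℝ) ≤ j' := by exact_mod_cast (by omega : 2 * t ≤ j')
    linarith
  have hS : t * σ ≤ ∑ k ∈ Finset.Ico t j, M.z k * ((M.H (k + 1) - M.H k) * m) := by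
    have := Finset.card_nsmul_le_sum (Finset.Ico t j) _ σ fun k hk => sg_le' F (i := i) (by omega)
      (by have := (Finset.mem_Ico.1 hk).1; omega) ((Finset.mem_Ico.1 hk).2.trans_le h3)
    rw [Nat.card_Ico, nsmul_eq_mul] at this
    exact (mul_le_mul_of_nonneg_right (Nat.cast_le.2 (by omega)) σ0.le).trans this
  have hW : t * (S.v / S.C) ≤ ∑ k ∈ Finset.Ico t j, M.dz m a k := by
    have := Finset.card_nsmul_le_sum (Finset.Ico t j') _ _ fun k hk => (dz_mem F (k := k)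
      (by have := (Finset.mem_Ico.1 hk).1; omega) ((Finset.mem_Ico.1 hk).2.trans_le h1)).1
    rw [Nat.card_Ico, nsmul_eq_mul] at this
    exact ((mul_le_mul_of_nonneg_right (Nat.cast_le.2 (by omega)) (by positivity)).trans this).trans
      (Finset.sum_le_sum_of_subset_of_nonneg (Finset.Ico_subset_Ico_right h2)
        fun k _ _ => G.dz_nonneg k)
  have key := VVn_win G (t := t) (j := j) (by omega) (by omega) x0 (G.zm (by omega))
    (by positivity) hS (by positivity) hW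
  have zt := F.z_hi (k := t) (by omega) (by omega)
  have xt : x ≤ 3 * S.C ^ 2 * (t * S.v) := (G.zm (by omega)).trans zt
  have a1 : ρ / (t * σ) ≤ 3 * S.C ^ 2 * (r * ρ / x) := by
    rw [hr', div_le_iff₀ (by positivity), show 3 * S.C ^ 2 * (S.v / σ * ρ / x) * (t * σ) =
      3 * S.C ^ 2 * (t * S.v) * ρ / x by field_simp, le_div_iff₀ x0, mul_comm]
    exact mul_le_mul_of_nonneg_right xt ρ0
  have a2 : 1 + M.z t / (t * (S.v / S.C)) ≤ 4 * S.C ^ 3 := by
    have : M.z t / (t * (S.v / S.C)) ≤ 3 * S.C ^ 3 := by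
      rw [div_le_iff₀ (by positivity)]
      exact zt.trans (le_of_eq (by field_simp))
    linarith [one_le_pow₀ (n := 3) C1]
  have a3 : ∑ k ∈ Finset.Ico t j', M.dz m a k * tM M m a k ≤
      2 * S.C * (r * ρ / x) + 2 * S.C * (S.v / x ^ 2) := by
    refine (Finset.sum_le_sum (g := fun k => S.C * S.v * (2 / (σ * x) + 2 / x ^ 2) *
      (M.rb m a (k + 1) - M.rb m a k)) fun k hk => ?_).trans ?_
    · obtain ⟨k1, k2⟩ := Finset.mem_Ico.1 hk
      rw [mul_assoc (S.C * S.v)]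
      exact mul_le_mul (dz_mem F (by omega) (by omega)).2 (tM_le G (by omega) σ0 x0
        (G.zm (by omega)) (sg_le' F (by omega) (by omega) (by omega))) (tM_nn k) (by positivity)
    · rw [← Finset.mul_sum, Finset.sum_Ico_sub _ (by omega)]
      have b1 : M.rb m a j' - M.rb m a t ≤ ρ := by
        linarith [ρm h2, rb_nonneg (M := M) (a := a) G.m0 t]
      refine (mul_le_mul_of_nonneg_left b1 (by positivity)).trans ?_
      have b2 := mul_le_of_le_one_right (by positivity : 0 ≤ 2 * S.C * (S.v / x ^ 2)) ρ1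
      refine le_trans (le_of_eq ?_) (add_le_add le_rfl b2)
      rw [hr']; field_simp
  have a4 : ∑ k ∈ Finset.Ico t j', M.dz m a k * aM M m a k ≤
      (K + 2) * (2 * (1 + K) * (S.C * r * ρ) + S.C * S.v) := by
    refine le_trans (Finset.sum_le_sum_of_subset_of_nonneg (fun k hk => ?_) fun k _ _ =>
      mul_nonneg (G.dz_nonneg k) (Cost41.aM_nonneg G k))
      ((win_sum F B (i := i) (b := j' - 1) (by omega) (by omega) (by omega)).trans ?_)
    · simp only [Finset.mem_Ico, Finset.mem_Ioc] at hk ⊢; omega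
    · have := ρm (show j' - 1 ≤ j by omega)
      gcongr
  rw [← Finset.sum_Ico_consecutive _ (show t ≤ j' by omega) h2,
    ← Finset.sum_Ico_consecutive _ (show t ≤ j' by omega) h2] at key
  have T0 : 0 ≤ ∑ k ∈ Finset.Ico t j', M.dz m a k * tM M m a k +
      ∑ k ∈ Finset.Ico j' j, M.dz m a k * tM M m a k :=
    add_nonneg (Finset.sum_nonneg fun k _ => mul_nonneg (G.dz_nonneg k) (tM_nn k))
      (Finset.sum_nonneg fun k _ => mul_nonneg (G.dz_nonneg k) (tM_nn k))
  have a5 := mul_le_mul a2 (add_le_add a3 hT) T0 (by positivity)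
  have a6 := div_le_div_of_nonneg_right (add_le_add a4 hA) x0.le
  set α := r * ρ / x with hα
  set β := S.v / x ^ 2 with hβ
  have α0 : 0 ≤ α := by positivity
  have β0 : 0 ≤ β := by positivity
  have a7 : (K + 2) * (2 * (1 + K) * (S.C * r * ρ) + S.C * S.v) / x ≤
      2 * (K + 2) ^ 2 * S.C * α + (K + 2) * S.C * β := by
    have b1 : S.v / x ≤ β := div_le_div_of_nonneg_left v0.le (by positivity)
      (by rw [sq]; exact mul_le_of_le_one_left x0.le x1)
    have b2 := mul_le_mul_of_nonneg_left b1 (by positivity : 0 ≤ ((K : ℝ) + 2) * S.C)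
    have b3 : 0 ≤ 2 * ((K : ℝ) + 2) * S.C * α := by positivity
    rw [show (K + 2) * (2 * (1 + K) * (S.C * r * ρ) + S.C * S.v) / x =
      2 * (K + 2) * (1 + K) * S.C * α + (K + 2) * S.C * (S.v / x) by rw [hα]; ring]
    linarith only [b2, b3]
  have a8 : α ≤ S.C * (gg S (M.s i) * ρ / x ^ 2) := by
    rw [hα]
    refine (div_le_div_of_nonneg_right (mul_le_mul_of_nonneg_right hr ρ0) x0.le).trans
      (le_of_eq (by field_simp))
  obtain ⟨d1, d2⟩ := num_vv C1 (Nat.cast_nonneg K)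
  have d3 := mul_le_mul d1 a8 α0 (by positivity)
  have d4 := mul_le_mul_of_nonneg_right d2 β0
  have fin := key.trans (add_le_add (add_le_add a1 a5) (a6.trans_eq (add_div _ _ _)))
  rw [add_div, mul_add, ← hβ]
  linarith only [fin, a7, d3, d4]

/-- **`VV` at a sloped node** -/
theorem VVn_slope (B : Kb S M K) {j : ℕ} (h0 : 4 * S.jl ≤ j) (h1 : j ≤ S.J) :
    VVn M m a j ≤ 5 * S.C ^ 5 * (K + 2) ^ 2 *
      ((gg S (M.s (j / 4)) * M.rb m a j + S.v) / M.z (j / 4) ^ 2) := by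
  simpa using VVn_core F B h0 h1 le_rfl (h1.trans F.i3) (TP := 0) (AP := 0) (by simp) (by simp)

/-- **`VV` at a plateau node** -/
theorem VVn_plat (B : Kb S M K) {p : ℕ → ℝ} {l Λ R : ℝ} (P : Pt S M m a p l Λ R)
    (hJ : 4 * S.jl ≤ S.J) {j : ℕ} (h1 : S.J ≤ j) (h2 : j ≤ S.Jp) :
    VVn M m a j ≤ 5 * S.C ^ 5 * (K + 2) ^ 2 *
      (2304 * S.C ^ 10 * (2304 * S.C ^ 8 * gg S 1 + S.v)) + 4 * S.C ^ 3 * pT S l R +
        48 * S.C ^ 5 * pA S K l Λ R := by
  have G := F.lg
  have C0 := F.C0; have v0 := F.v0; have i0 := F.i0; have i1 := F.i1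
  have A0 := le_trans (Finset.sum_nonneg fun k _ =>
    mul_nonneg (G.dz_nonneg k) (Cost41.aM_nonneg G k)) (plat_sum F P hJ B)
  refine (VVn_core F B hJ le_rfl h1 h2 (le_trans (Finset.sum_le_sum_of_subset_of_nonneg
    (Finset.Ico_subset_Ico_right h2) fun k _ _ => mul_nonneg (G.dz_nonneg k) (tM_nn k))
    (plat_tM F P hJ)) (le_trans (Finset.sum_le_sum_of_subset_of_nonneg
    (Finset.Ico_subset_Ico_right h2) fun k _ _ => mul_nonneg (G.dz_nonneg k)
      (Cost41.aM_nonneg G k)) (plat_sum F P hJ B))).trans (add_le_add (add_le_add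
        (mul_le_mul_of_nonneg_left ?_ (by positivity)) le_rfl) ?_)
  all_goals
    have z1 := (z_top F (i := S.J / 4) (by omega) (by omega) (by omega)).1
    have z0 := F.z_pos (S.J / 4)
  · have g1 := gg_top F (i := S.J / 4) (by omega) (by omega) (by omega)
    have g0 := gg_pos F (F.s_nonneg (S.J / 4))
    have := mul_le_of_le_one_right g0.le (rb_le_one (M := M) (a := a) G.m0 j)
    have z2 := pow_le_pow_left₀ zero_le_one z1 2
    rw [div_le_iff₀ (by positivity)]
    have := mul_le_mul_of_nonneg_left z2 (by linarith : 0 ≤ 2304 * S.C ^ 8 * gg S 1 + S.v)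
    linarith
  · rw [div_le_iff₀ z0]
    linarith [mul_le_mul_of_nonneg_left z1 A0]

theorem blk {U : ℕ} (h0 : S.jl ≤ U) :
    Blk (fun _ => 1) (M.L m a) (sl m) (M.τ m) 1 (m * sg S M U) (U + 1) (S.Jp + 1) :=
  ⟨C33.dt F.lg, by rw [len_L]; have := F.i4; omega, mul_pos (m0 F) (sg_pos F U), fun k h1 h2 => by
    obtain ⟨k, rfl⟩ : ∃ i, k = i + 1 := ⟨k - 1, by omega⟩
    rw [ex_succ F.leg, C33.tau_succ]
    exact sg_le' F h0 (by omega) (by omega)⟩

/-- the size of `aM` at a node with slope `g` per node on the window of half width `d` -/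
def aG (σ : ℝ) (K d : ℕ) (top g : ℝ) : ℝ := (K + 2) * (4 * top / (σ * d) + 3 * K * g / σ + g)

section good
variable (B : Kb S M K) {U k d : ℕ} {top g : ℝ} (h0 : S.jl ≤ U) (h1 : U + d ≤ k)
  (h2 : k + d ≤ S.Jp) (d2 : 2 ≤ d) (ht : M.rb m a (k + d) ≤ top)
  (hg : ∀ t : ℕ, 1 ≤ t → t ≤ d → M.rb m a (k + t) - M.rb m a (k - t) ≤ g * t)
include B h0 h1 h2 d2 ht hg

theorem g_nn : 0 ≤ g := by
  have := (sub_nonneg.2 (Md67.rb_mono (M := M) (a := a) F.lg.m0
    (show k - 1 ≤ k + 1 by omega))).trans (hg 1 le_rfl (by omega))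
  simpa using this

theorem ag_le : 2 ^ Nat.log 2 (d / 2) ≤ d / 2 ∧
    Wr5.ag 1 (m * sg S M U) (Nat.log 2 (d / 2)) top g ≤ aG (m * sg S M U) K d top g := by
  have σ0 := mul_pos (m0 F) (sg_pos F U)
  have g0 := g_nn F B h0 h1 h2 d2 ht hg
  have t0 : 0 ≤ top := (rb_nonneg F.lg.m0 _).trans ht
  have a1 := Nat.pow_log_le_self 2 (show d / 2 ≠ 0 by omega)
  have a2 := Nat.lt_pow_succ_log_self one_lt_two (d / 2)
  refine ⟨a1, ?_⟩
  set D := Nat.log 2 (d / 2)
  have a3 : D ≤ K := (Nat.pow_le_pow_iff_right one_lt_two).1 (by have := B.N; have := F.i4; omega)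
  have a4 : (d : ℝ) ≤ 4 * 2 ^ D := by
    rw [pow_succ] at a2
    exact_mod_cast (by omega : d ≤ 4 * 2 ^ D)
  have a5 : (D : ℝ) ≤ K := Nat.cast_le.2 a3
  have d0 : (0 : ℝ) < d := Nat.cast_pos.2 (by omega)
  have a6 : top / (m * sg S M U * 2 ^ D) ≤ 4 * top / (m * sg S M U * d) := by
    rw [div_le_div_iff₀ (by positivity) (by positivity)]
    linarith [mul_le_mul_of_nonneg_left a4 (mul_nonneg t0 σ0.le)]
  rw [Wr5.ag, aG, one_mul]
  gcongr

theorem hg' {w : ℕ} (hw : 2 * w ≤ d) (t : ℕ) (t1 : 1 ≤ t) (t2 : t ≤ w + 2 ^ Nat.log 2 (d / 2)) :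
    rho (fun _ => 1) (M.L m a) (sl m) 0 (k + 1 + t) -
      rho (fun _ => 1) (M.L m a) (sl m) 0 (k + 1 - t) ≤ g * t := by
  have := (ag_le F B h0 h1 h2 d2 ht hg).1
  rw [show k + 1 + t = k + t + 1 by omega, show k + 1 - t = k - t + 1 by omega,
    ← rb_eq (sl_cov F.lg.m0), ← rb_eq (sl_cov F.lg.m0)]
  exact hg t t1 (by omega)

theorem ht' {w : ℕ} (hw : 2 * w ≤ d) :
    rho (fun _ => 1) (M.L m a) (sl m) 0 (k + 1 + w) ≤ top := by
  rw [show k + 1 + w = k + w + 1 by omega, ← rb_eq (sl_cov F.lg.m0)]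
  exact (Md67.rb_mono F.lg.m0 (by omega)).trans ht

theorem aM_good : aM M m a k ≤ aG (m * sg S M U) K d top g := by
  obtain ⟨a1, a2⟩ := ag_le F B h0 h1 h2 d2 ht hg
  exact (Wr5.aa_good (blk F h0) 0 (u := 1) le_rfl (by omega) (by omega)
    (ht' F B h0 h1 h2 d2 ht hg d2) (hg' F B h0 h1 h2 d2 ht hg d2)).1.trans a2

/-- **`Vn` at a good node** -/
theorem Vn_good : Vn M m a k ≤ (2 / (m * sg S M U * M.z k) + 2 / M.z k ^ 2) * g +
    2 * (aG (m * sg S M U) K d top g / M.z k) := by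
  have G := F.lg
  have σ0 := mul_pos (m0 F) (sg_pos F U)
  have z0 := F.z_pos k
  have a1 := tM_le G (k := k) (by have := F.i4; omega) σ0 z0 le_rfl
    (sg_le' F h0 (by omega) (by omega))
  have a2 : M.rb m a (k + 1) - M.rb m a k ≤ g := by
    have := hg 1 le_rfl (by omega)
    rw [Nat.cast_one, mul_one] at this
    linarith [Md67.rb_mono (M := M) (a := a) G.m0 (Nat.sub_le k 1)]
  rw [Vn_eq]
  exact add_le_add (a1.trans (mul_le_mul_of_nonneg_left a2 (by positivity)))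
    (mul_le_mul_of_nonneg_left ((vM_le G z0 le_rfl).trans (div_le_div_of_nonneg_right
      (aM_good F B h0 h1 h2 d2 ht hg) z0.le)) zero_le_two)

/-- **`r2` at a good node**, window of `w` nodes with weights in `[δ, κ]` -/
theorem r2_good {w : ℕ} (w1 : 1 ≤ w) (hw : 2 * w ≤ d) {δ κ : ℝ} (δ0 : 0 < δ)
    (hd : ∀ i, k < i + w → i < k + w → δ ≤ M.dz m a i ∧ M.dz m a i ≤ κ) :
    r2 M m a k ≤ 32 * (κ * aG (m * sg S M U) K d top g / (w * δ ^ 2)) + 4 * (g * w) ^ 2 +
      8 * (aG (m * sg S M U) K d top g / M.z U) +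
      16 * (κ * aG (m * sg S M U) K d top g / (M.z U * δ)) := by
  have G := F.lg
  obtain ⟨a1, a2⟩ := ag_le F B h0 h1 h2 d2 ht hg
  have z0 := F.z_pos U
  have κ0 : 0 ≤ κ := (G.dz_nonneg k).trans (hd k (by omega) (by omega)).2
  rw [r2_eq G.m0]
  refine (Wr5.var_good (blk F h0) 0 G.sym ts_trans (ts_cov (sl_cov G.m0)) w1 (by omega) (by omega)
    (ht' F B h0 h1 h2 d2 ht hg hw) (hg' F B h0 h1 h2 d2 ht hg hw) δ0 (κ := κ) (fun i hi => ?_) z0
    fun i hi => ?_).trans (by gcongr)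
  all_goals
    obtain ⟨i1, i2⟩ := Finset.mem_Ico.1 hi
    obtain ⟨i, rfl⟩ : ∃ j, i = j + 1 := ⟨i - 1, by omega⟩
  · exact hd i (by omega) (by omega)
  · rw [ex_succ F.leg]; exact G.zm (by omega)

end good

theorem z_lip {i j : ℕ} (h0 : S.j0 ≤ i) (h : i ≤ j) (hj : j < S.J) :
    M.z j - M.z i ≤ S.C * S.v * ((j : ℝ) - i) := by
  rw [← sum_dz (m := m) (a := a) F.leg h]
  refine (Finset.sum_le_card_nsmul _ _ (S.C * S.v) fun k hk => (dz_mem F
    (by have := (Finset.mem_Ioc.1 hk).1; omega)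
    (by have := (Finset.mem_Ioc.1 hk).2; omega)).2).trans ?_
  rw [Nat.card_Ioc, nsmul_eq_mul, Nat.cast_sub h, mul_comm]

/-- slope per node at a rising-sun good node of the sloped part -/
theorem gd_slope {Λ : ℝ} (Λ0 : 0 ≤ Λ) {U V k d : ℕ} (h0 : S.jl ≤ U) (hV : V < S.J)
    (h1 : U + d ≤ k) (h2 : k + d ≤ V) (hk : Mp9.Gd M m a Λ U V k) (t : ℕ) (_ : 1 ≤ t)
    (t2 : t ≤ d) : M.rb m a (k + t) - M.rb m a (k - t) ≤ 2 * S.C * Λ * S.v * t := by
  have a1 := hk.1 (k + t) (by omega) (by omega)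
  have a2 := hk.2 (k - t) (by omega) (by omega)
  have a3 := z_lip F (i := k - t) (j := k + t) (by have := F.i1; omega) (by omega) (by omega)
  rw [Nat.cast_sub (by omega), Nat.cast_add] at a3
  linarith [mul_le_mul_of_nonneg_left a3 Λ0]

end fn

end Crest.Agent.T156.Alt.E49

end
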