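import Crest.Agent.T156.ClE1t_49
import Crest.Agent.T156.AltReg_29

/-!
# Row 156 (helper49): the weak input with a crude low zone, look-back bounds, numbers of scales
-/

set_option autoImplicit false
set_option linter.unusedSectionVars false

noncomputable section

namespace Crest.Agent.T156.Alt.E49

open MeasureTheory Real Set Filter Topology
open Crest.Agent.T157.E Crest.Agent.T157.Casc Crest.Agent.T157.SL
open Crest.Agent.T156.Cas Crest.Agent.T156.Cas.Sy41 Crest.Agent.T156.Cas.Q33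
open Crest.Agent.T156.Alt.Md67 Crest.Agent.T156.Alt.E61 Crest.Agent.T156.Alt.C33
open Crest.Agent.T156.Alt.Cost41 (aM Phi RW)

section gen
open Crest.Agent.T156.Cas.Eg33
variable {Ω : Type} [Fintype Ω] {w : Ω → ℝ} (hw : Wt w) (L : List (Lv Ω)) (l₀ : Lv Ω) (h : Ω → ℝ)
include hw

theorem eg_sum (T : Finset ℕ) (c r : ℕ → ℝ) :
    Eg fun g => (∑ j ∈ T, c j * (rs w L l₀ h j g - r j)) ^ 2 :=
  (Eg.sum _ fun j _ => ((eg_rs hw L l₀ h j).sub (Eg.const _)).const_mul _).pow 2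

theorem ms_le_rs {T : Finset ℕ} {c b ω : ℕ → ℝ} (r : ℕ → ℝ) (hc : ∀ j ∈ T, |c j| ≤ b j)
    (hω : ∀ j ∈ T, 0 < ω j) :
    pE w L h (fun g x => (∑ j ∈ T, c j * (ms w L l₀ h j g x - r j)) ^ 2) ≤
      2 * pE w L h (fun g _ => (∑ j ∈ T, c j * (rs w L l₀ h j g - r j)) ^ 2) +
        2 * ((∑ j ∈ T, b j * ω j) * ∑ j ∈ T, b j / ω j * vv w L l₀ h j) := by
  have e2 := pi_sum hw L l₀ h hc hω
  have g1 := eg_sum hw L l₀ h T c r
  have g2 : ∀ x, Eg fun g => (∑ j ∈ T, c j * (ms w L l₀ h j g x - rs w L l₀ h j g)) ^ 2 := fun x =>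
    (Eg.sum _ fun j _ => ((eg_ms hw L l₀ h j x).sub (eg_rs hw L l₀ h j)).const_mul _).pow 2
  refine (pE_mono' hw L h (fun x => (Eg.sum _ fun j _ =>
    ((eg_ms hw L l₀ h j x).sub (Eg.const _)).const_mul _).pow 2)
    (fun x => (g1.const_mul 2).add ((g2 x).const_mul 2)) fun g x => ?_).trans ?_
  · have e : ∑ j ∈ T, c j * (ms w L l₀ h j g x - r j) = ∑ j ∈ T, c j * (rs w L l₀ h j g - r j) +
        ∑ j ∈ T, c j * (ms w L l₀ h j g x - rs w L l₀ h j g) := by
      rw [← Finset.sum_add_distrib]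
      exact Finset.sum_congr rfl fun _ _ => by ring
    rw [e]
    exact add_sq_le.trans (le_of_eq (mul_add _ _ _))
  · rw [pE_add' hw L h (fun _ => g1.const_mul 2) fun x => (g2 x).const_mul 2, Pe.pE_const_mul,
      Pe.pE_const_mul]
    linarith

theorem rs_low {T : Finset ℕ} {c b : ℕ → ℝ} (hc : ∀ j ∈ T, |c j| ≤ b j) :
    pE w L h (fun g _ => (∑ j ∈ T, c j * (rs w L l₀ h j g - rho w L l₀ h j)) ^ 2) ≤
      (∑ j ∈ T, b j) * ∑ j ∈ T, b j * Wr5.vr w L l₀ h j := by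
  have e := fun j => ((eg_rs hw L l₀ h j).sub (Eg.const (rho w L l₀ h j))).pow 2
  refine (pE_mono' hw L h (fun _ => eg_sum hw L l₀ h T c _)
    (fun _ => (Eg.sum _ fun j _ => (e j).const_mul _).const_mul _)
    fun g _ => wcs hc (ω := fun _ => 1) (fun _ _ => one_pos) _).trans (le_of_eq ?_)
  rw [Pe.pE_const_mul, pE_sum' hw L h _ fun j _ => (e j).const_mul _]
  simp only [Pe.pE_const_mul, mul_one, div_one]
  congr 1
  refine Finset.sum_congr rfl fun j _ => ?_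
  congr 1
  exact Pe.pE_node1 hw (((eg_rr hw _ l₀).sub (Eg.const _)).pow 2) L j h

theorem rs_add (T : Finset ℕ) (p : ℕ → Prop) [DecidablePred p] (c r : ℕ → ℝ) :
    pE w L h (fun g _ => (∑ j ∈ T, c j * (rs w L l₀ h j g - r j)) ^ 2) ≤
      2 * pE w L h (fun g _ => (∑ j ∈ T.filter p, c j * (rs w L l₀ h j g - r j)) ^ 2) +
      2 * pE w L h (fun g _ =>
        (∑ j ∈ T.filter (fun j => ¬ p j), c j * (rs w L l₀ h j g - r j)) ^ 2) := by
  have g1 := eg_sum hw L l₀ h (T.filter p) c r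
  have g2 := eg_sum hw L l₀ h (T.filter fun j => ¬ p j) c r
  refine (pE_mono' hw L h (fun _ => eg_sum hw L l₀ h T c r)
    (fun _ => (g1.const_mul 2).add (g2.const_mul 2)) fun g _ => ?_).trans (le_of_eq ?_)
  · rw [← Finset.sum_filter_add_sum_filter_not T p]
    exact add_sq_le.trans (le_of_eq (mul_add _ _ _))
  · rw [pE_add' hw L h (fun _ => g1.const_mul 2) fun _ => g2.const_mul 2, Pe.pE_const_mul,
      Pe.pE_const_mul]

end gen

variable {S : Sc} {M : Md} {m : ℕ} {a ms : ℝ} {u : ℕ → ℝ} {K : ℕ}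

theorem mem_Sl {y : ℕ} (hy : y ∈ Eg33.Sl (eD M m a u ms)) : ∃ k < M.N, y = k + 1 := by
  obtain ⟨h1, h2⟩ := Finset.mem_filter.1 hy
  have : y ≠ 0 := fun e => h2 (e ▸ eD_t0)
  rw [Finset.mem_range, eD_K] at h1
  exact ⟨y - 1, by omega, by omega⟩

theorem sum_Sl' {f : ℕ → ℝ} (f0 : ∀ k < M.N, 0 ≤ f (k + 1)) (p : ℕ → Prop) [DecidablePred p] :
    ∑ y ∈ (Eg33.Sl (eD M m a u ms)).filter p, f y ≤
      ∑ k ∈ (Finset.range M.N).filter fun k => p (k + 1), f (k + 1) := by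
  rw [Finset.sum_filter, Finset.sum_filter]
  exact sum_Sl (f := fun y => if p y then f y else 0) fun k hk => by
    split_ifs
    exacts [f0 k hk, le_rfl]

/-- **the weak input, crude below `k1`** -/
theorem gm_split (G : Lg M m a) (ht : Top M) (hu : Mj M m a u) (h0 : 0 < ms) (z0 : 0 < M.z 0)
    {j k1 : ℕ} (hk : k1 < M.N) {g : ℕ → ℝ} (g0 : ∀ k < M.N, 0 < g k)
    (hg : ∀ k < M.N, (if k < j then pb M m a ms k else 1) ≤ g k) {X γ υ B : ℝ} (hX : M.z k1 ≤ X)
    (hl : ∀ k ≤ k1, g k ≤ γ ∧ u k ≤ υ) (B0 : 0 ≤ B)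
    (hB : (18 + 2 * log (1 / M.z 0)) * ((X * γ * υ) ^ 2 +
      ∑ k ∈ Finset.Ico (k1 + 1) M.N, M.dz m a k * g k ^ 2 * aM M m a k) ≤ B ^ 2) :
    (eD M m a u ms).Gm (j + 1) B := by
  have zp : ∀ k, 0 < M.z k := fun k => z0.trans_le (G.zm (Nat.zero_le k))
  have H := eD_ok G ht hu h0 le_rfl
  refine ⟨B0, fun φ h1 h2 => ?_⟩
  simp only [Eg33.I_eq H h2]
  set T := Eg33.Sl (eD M m a u ms) with hT
  set A := ∑ k ∈ Finset.Ico (k1 + 1) M.N, M.dz m a k * g k ^ 2 * aM M m a k with hA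
  have b1 : ∀ y ∈ T, |φ y| ≤ g (y - 1) := fun y hy => by
    obtain ⟨k, hk, rfl⟩ := mem_Sl hy
    exact (h1 _).trans ((gz_le G h0 j hk).trans (hg k hk))
  have b2 : ∀ y ∈ T, |dm (M.L m a) 0 y * φ y| ≤ dm (M.L m a) 0 y * g (y - 1) := fun y hy => by
    rw [abs_mul, abs_of_nonneg (dm_nonneg G.monoL y)]
    exact mul_le_mul_of_nonneg_left (b1 y hy) (dm_nonneg G.monoL y)
  have t0 : ∀ k, 0 ≤ M.dz m a k * g k ^ 2 * aM M m a k := fun k =>
    mul_nonneg (mul_nonneg (G.dz_nonneg k) (sq_nonneg _)) (Cost41.aM_nonneg G k)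
  have A0 : 0 ≤ A := Finset.sum_nonneg fun k _ => t0 k
  have γ0 : 0 ≤ γ := (g0 0 (by omega)).le.trans (hl 0 (Nat.zero_le _)).1
  have X0 : 0 ≤ X := (zp k1).le.trans hX
  have eL : ((Finset.range M.N).filter fun k => k + 1 ≤ k1 + 1) = Finset.range (k1 + 1) := by
    ext k; simp only [Finset.mem_filter, Finset.mem_range]; omega
  have eH : ((Finset.range M.N).filter fun k => ¬ k + 1 ≤ k1 + 1) = Finset.Ico (k1 + 1) M.N := by
    ext k; simp only [Finset.mem_filter, Finset.mem_range, Finset.mem_Ico]; omega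
  have ms1 : ∀ c : ℝ, 0 ≤ c → ∑ k ∈ Finset.range (k1 + 1), M.dz m a k * c ≤ X * c := fun c hc => by
    rw [← Finset.sum_mul, sum_dz_range G.toLeg]
    exact mul_le_mul_of_nonneg_right (by linarith [G.a0]) hc
  have uu : ∀ k ≤ k1, u k ^ 2 ≤ υ ^ 2 := fun k h => pow_le_pow_left₀ (hu.u0 k).1 (hl k h).2 2
  have dg : ∀ k < M.N, 0 ≤ M.dz m a k * g k := fun k h => mul_nonneg (G.dz_nonneg k) (g0 k h).le
  have r1 := rs_low Link33.wt1 (M.L m a) (sl m) 0 (T := T.filter (· ≤ k1 + 1))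
    fun y hy => b2 y (Finset.mem_filter.1 hy).1
  have r2' : (∑ y ∈ T.filter (· ≤ k1 + 1), dm (M.L m a) 0 y * g (y - 1)) *
      ∑ y ∈ T.filter (· ≤ k1 + 1), dm (M.L m a) 0 y * g (y - 1) *
        Wr5.vr (fun _ => 1) (M.L m a) (sl m) 0 y ≤ (X * γ * υ) ^ 2 := by
    have c0 : ∀ k < M.N, 0 ≤ M.dz m a k * g k * Wr5.vr (fun _ => 1) (M.L m a) (sl m) 0 (k + 1) :=
      fun k h => mul_nonneg (dg k h) (by rw [← r2_eq G.m0]; exact r2_nn k)
    refine (mul_le_mul ((sum_Sl' dg _).trans (le_trans ?_ (ms1 γ γ0)))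
      ((sum_Sl' c0 _).trans (le_trans ?_ (ms1 (γ * υ ^ 2) (by positivity))))
      (Finset.sum_nonneg fun y hy => ?_) (by positivity)).trans (le_of_eq (by ring))
    · rw [eL]
      exact Finset.sum_le_sum fun k h => mul_le_mul_of_nonneg_left
        (hl k (by have := Finset.mem_range.1 h; omega)).1 (G.dz_nonneg k)
    · rw [eL]
      refine Finset.sum_le_sum fun k h => ?_
      have k0 : k ≤ k1 := by have := Finset.mem_range.1 h; omega
      rw [mul_assoc, ← r2_eq G.m0]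
      exact mul_le_mul_of_nonneg_left (mul_le_mul (hl k k0).1
        ((r2_le_u G.m0 hu (by omega)).trans (uu k k0)) (r2_nn k) γ0) (G.dz_nonneg k)
    · obtain ⟨k, h, rfl⟩ := mem_Sl (Finset.mem_filter.1 hy).1
      exact c0 k h
  have r3 := Eg33.gm_rs_sup Link33.wt1 G.monoL 0 G.sym ts_trans (ts_cov (sl_cov G.m0))
    (S := T.filter fun y => ¬ y ≤ k1 + 1) (fun y hy => by
      obtain ⟨k, h, rfl⟩ := mem_Sl (Finset.mem_filter.1 hy).1
      rw [len_L]; omega) (φ := φ) (g := fun y => g (y - 1))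
    fun y hy => b1 y (Finset.mem_filter.1 hy).1
  have r4 : ∑ y ∈ T.filter (fun y => ¬ y ≤ k1 + 1), dm (M.L m a) 0 y * g (y - 1) ^ 2 *
      aa (fun _ => 1) (M.L m a) (sl m) 0 y ≤ A := by
    refine (sum_Sl' (fun k _ => t0 k) _).trans (le_of_eq ?_)
    rw [eH]; rfl
  have r5 := rs_add Link33.wt1 (M.L m a) (sl m) 0 T (· ≤ k1 + 1)
    (fun y => dm (M.L m a) 0 y * φ y) (rho (fun _ => 1) (M.L m a) (sl m) 0)
  have r6 := ms_le_rs Link33.wt1 (M.L m a) (sl m) 0 (rho (fun _ => 1) (M.L m a) (sl m) 0) b2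
    (ω := fun y => 1 / (g (y - 1) * M.z (y - 1))) fun y hy => by
      obtain ⟨k, hk, rfl⟩ := mem_Sl hy
      have := g0 k hk
      have := zp k
      simp only [Nat.add_sub_cancel]
      positivity
  have a2 : ∑ y ∈ T, dm (M.L m a) 0 y * g (y - 1) * (1 / (g (y - 1) * M.z (y - 1))) ≤
      1 + log (1 / M.z 0) := by
    refine (sum_Sl fun k hk => ?_).trans ?_
    · have := g0 k hk
      have := zp k
      have := G.dz_nonneg k
      simp only [Nat.add_sub_cancel, dm_succ]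
      positivity
    · have := sum_dz_div G z0 M.N
      rw [Finset.sum_range_succ, dz_last G.toLeg ht, zero_div, add_zero, G.zN] at this
      refine le_trans (le_of_eq (Finset.sum_congr rfl fun k hk => ?_)) this
      have := (g0 k (Finset.mem_range.1 hk)).ne'
      have := (zp k).ne'
      simp only [Nat.add_sub_cancel, dm_succ]
      field_simp
  have t3 : ∀ k < M.N, 0 ≤ M.dz m a k * g k / (1 / (g k * M.z k)) * vM M m a k := fun k hk => by
    have := g0 k hk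
    have := zp k
    have := G.dz_nonneg k
    have := vM_nn (M := M) (m := m) (a := a) k
    positivity
  have a3 : ∑ y ∈ T, dm (M.L m a) 0 y * g (y - 1) / (1 / (g (y - 1) * M.z (y - 1))) *
      vv (fun _ => 1) (M.L m a) (sl m) 0 y ≤ (X * γ * υ) ^ 2 + A := by
    refine (sum_Sl t3).trans ?_
    have e : ∀ k, dm (M.L m a) 0 (k + 1) * g (k + 1 - 1) / (1 / (g (k + 1 - 1) * M.z (k + 1 - 1))) *
        vv (fun _ => 1) (M.L m a) (sl m) 0 (k + 1) =
        M.dz m a k * (g k ^ 2 * (M.z k * vM M m a k)) := fun k => by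
      simp only [Nat.add_sub_cancel, dm_succ, vM, one_div, div_inv_eq_mul]
      ring
    simp only [e]
    rw [← Finset.sum_range_add_sum_Ico _ (show k1 + 1 ≤ M.N by omega)]
    refine add_le_add (le_trans (Finset.sum_le_sum fun k h => ?_)
      ((ms1 (γ ^ 2 * (X * υ ^ 2)) (by positivity)).trans (le_of_eq (by ring))))
      (Finset.sum_le_sum fun k _ => ?_)
    · have k0 : k ≤ k1 := by have := Finset.mem_range.1 h; omega
      have v1 : vM M m a k ≤ υ ^ 2 := by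
        have := Vn_le_u G.m0 hu (show k < M.N by omega)
        rw [Vn_eq] at this
        linarith [tM_nn (M := M) (m := m) (a := a) k, vM_nn (M := M) (m := m) (a := a) k, uu k k0]
      exact mul_le_mul_of_nonneg_left (mul_le_mul (pow_le_pow_left₀ (g0 k (by omega)).le
        (hl k k0).1 2) (mul_le_mul ((G.zm k0).trans hX) v1 (vM_nn k) X0)
        (mul_nonneg (zp k).le (vM_nn k)) (by positivity)) (G.dz_nonneg k)
    · rw [mul_assoc]
      exact mul_le_mul_of_nonneg_left (mul_le_mul_of_nonneg_left (z_vM G k) (sq_nonneg _))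
        (G.dz_nonneg k)
  have a4 : 0 ≤ ∑ y ∈ T, dm (M.L m a) 0 y * g (y - 1) / (1 / (g (y - 1) * M.z (y - 1))) *
      vv (fun _ => 1) (M.L m a) (sl m) 0 y := Finset.sum_nonneg fun y hy => by
    obtain ⟨k, hk, rfl⟩ := mem_Sl hy
    exact t3 k hk
  have l0 : 0 ≤ log (1 / M.z 0) := log_nonneg ((one_le_div z0).2 (G.z1 0))
  have a5 := mul_le_mul a2 a3 a4 (by linarith)
  have q0 : 0 ≤ (X * γ * υ) ^ 2 := sq_nonneg _
  have l1 := mul_nonneg l0 (add_nonneg q0 A0)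
  have f1 := r5.trans (add_le_add (mul_le_mul_of_nonneg_left (r1.trans r2') zero_le_two)
    (mul_le_mul_of_nonneg_left (r3.trans (mul_le_mul_of_nonneg_left r4 (by norm_num))) zero_le_two))
  exact ⟨f1.trans (by linarith), (r6.trans (add_le_add (mul_le_mul_of_nonneg_left f1 zero_le_two)
    (mul_le_mul_of_nonneg_left a5 zero_le_two))).trans (by linarith)⟩

section down
variable (F : Fn S M m a) (B : Kb S M K) {U k d : ℕ} {top g : ℝ} (h0 : S.jl ≤ U) (h1 : U + d ≤ k)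
  (h2 : k ≤ S.Jp) (d1 : 1 ≤ d) (ht : M.rb m a k ≤ top)
  (hg : ∀ t : ℕ, 1 ≤ t → t ≤ d → M.rb m a k - M.rb m a (k - t) ≤ g * t)
include F B h0 h1 h2 d1 ht hg

/-- **`aM` from the look-back slope only** -/
theorem aM_down : aM M m a k ≤ aG (m * sg S M U) K d top g := by
  have G := F.lg
  have σ0 := mul_pos (m0 F) (sg_pos F U)
  have ρm := Md67.rb_mono (M := M) (a := a) G.m0
  have g1 := hg 1 le_rfl d1
  rw [Nat.cast_one, mul_one] at g1
  have g0 : 0 ≤ g := (sub_nonneg.2 (ρm (Nat.sub_le k 1))).trans g1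
  have t0 : 0 ≤ top := (rb_nonneg G.m0 _).trans ht
  have a1 := Nat.pow_log_le_self 2 (show d ≠ 0 by omega)
  have a2 := Nat.lt_pow_succ_log_self one_lt_two d
  set D := Nat.log 2 d
  have a3 : D ≤ K := (Nat.pow_le_pow_iff_right one_lt_two).1 (by have := B.N; have := F.i4; omega)
  have a4 : (d : ℝ) ≤ 4 * 2 ^ D := by
    rw [pow_succ] at a2
    exact_mod_cast (by omega : d ≤ 4 * 2 ^ D)
  have a5 : (D : ℝ) ≤ K := Nat.cast_le.2 a3
  have d0 : (0 : ℝ) < d := Nat.cast_pos.2 (by omega)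
  have e : ∀ t ≤ d, rho (fun _ => 1) (M.L m a) (sl m) 0 (k + 1 - t) = M.rb m a (k - t) :=
    fun t h => by rw [show k + 1 - t = k - t + 1 by omega, ← rb_eq (sl_cov G.m0)]
  refine ((blk F h0).aa_node 0 (D := D) (J := k + 1) (by omega) (by omega)).trans ?_
  set σ := m * sg S M U
  have b1 : rho (fun _ => 1) (M.L m a) (sl m) 0 (k + 1 - 2 ^ D) / (σ * 2 ^ D) ≤
      4 * top / (σ * d) := by
    rw [e _ a1, div_le_div_iff₀ (by positivity) (by positivity)]
    have := mul_le_mul ((ρm (Nat.sub_le k (2 ^ D))).trans ht) (mul_le_mul_of_nonneg_left a4 σ0.le)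
      (by positivity) t0
    linarith
  have b2 : ∑ i ∈ Finset.range D, (rho (fun _ => 1) (M.L m a) (sl m) 0 (k + 1 - 2 ^ i) -
      rho (fun _ => 1) (M.L m a) (sl m) 0 (k + 1 - 2 ^ (i + 1))) / (σ * 2 ^ i) ≤ 3 * K * g / σ := by
    refine (Finset.sum_le_card_nsmul _ _ (2 * g / σ) fun i hi => ?_).trans ?_
    · have c1 : 2 ^ (i + 1) ≤ d :=
        (Nat.pow_le_pow_right two_pos (Finset.mem_range.1 hi)).trans a1
      have c2 := hg _ Nat.one_le_two_pow c1
      rw [e _ c1, e _ ((Nat.pow_le_pow_right two_pos i.le_succ).trans c1),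
        div_le_div_iff₀ (by positivity) σ0]
      push_cast at c2
      have := mul_le_mul_of_nonneg_right ((sub_le_sub_right (ρm (Nat.sub_le k (2 ^ i))) _).trans c2)
        σ0.le
      rw [pow_succ (2 : ℝ)] at this
      linarith
    · rw [Finset.card_range, nsmul_eq_mul, mul_div_assoc']
      refine div_le_div_of_nonneg_right ?_ σ0.le
      linarith [mul_le_mul_of_nonneg_right a5 g0, mul_nonneg (Nat.cast_nonneg K : (0 : ℝ) ≤ K) g0]
  have b3 : 1 * (rho (fun _ => 1) (M.L m a) (sl m) 0 (k + 1) -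
      rho (fun _ => 1) (M.L m a) (sl m) 0 (k + 1 - 1)) ≤ g := by
    rw [one_mul, e 1 d1, ← rb_eq (sl_cov G.m0)]; exact g1
  exact mul_le_mul (by linarith) (add_le_add (add_le_add b1 b2) b3)
    (add_nonneg (add_nonneg (div_nonneg (rho_nonneg _ _ _ _) (by positivity))
      (Finset.sum_nonneg fun i _ => div_nonneg (sub_nonneg.2 (rho_mono Link33.wt1 _ _ _
        (Nat.sub_le_sub_left (Nat.pow_le_pow_right two_pos i.le_succ) _))) (by positivity)))
      (mul_nonneg zero_le_one (sub_nonneg.2 (rho_mono Link33.wt1 _ _ _ (Nat.sub_le _ _)))))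
    (by positivity)

/-- **`Vn` from the look-back slope and one step up** -/
theorem Vn_down (hk : k < S.Jp) (hu : M.rb m a (k + 1) - M.rb m a k ≤ g) :
    Vn M m a k ≤ (2 / (m * sg S M U * M.z k) + 2 / M.z k ^ 2) * g +
      2 * (aG (m * sg S M U) K d top g / M.z k) := by
  have G := F.lg
  have σ0 := mul_pos (m0 F) (sg_pos F U)
  have z0 := F.z_pos k
  have a1 := tM_le G (k := k) (by have := F.i4; omega) σ0 z0 le_rfl (sg_le' F h0 (by omega) hk)
  rw [Vn_eq]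
  exact add_le_add (a1.trans (mul_le_mul_of_nonneg_left hu (by positivity)))
    (mul_le_mul_of_nonneg_left ((vM_le G z0 le_rfl).trans (div_le_div_of_nonneg_right
      (aM_down F B h0 h1 h2 d1 ht hg) z0.le)) zero_le_two)

end down

/-! ### the number of scales -/

/-- a large member with `K` dyadic scales -/
structure Big (S : Sc) (M : Md) (m : ℕ) (a : ℝ) (K : ℕ) : Prop extends Fn S M m a where
  A3 : 3 ≤ S.A
  C3 : S.C ^ 3 ≤ S.n
  hK : S.n ^ (S.A + 4) ≤ 2 ^ K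

theorem ev_big (C D : ℝ) {A : ℕ} (hA : 3 ≤ A) {η : ℝ} (hη : 0 < η) : ∀ᶠ n : ℕ in atTop,
    ∃ K : ℕ, D * ((K : ℝ) + 2) ^ 4 ≤ (n : ℝ) ^ η ∧ ∀ (S : Sc) (M : Md), S.C = C → S.A = A →
      S.n = n → Cl S M → ∀ m a, S.In m a → Big S M m a K := by
  have h5 : 0 < η / 5 := by positivity
  filter_upwards [ev_fn C (show 2 ≤ A by omega),
    tendsto_natCast_atTop_atTop.eventually_ge_atTop (C ^ 3), Pre29.ev_log h5,
    Pre29.ev_K (max D 0 * (5 * (A + 4)) ^ 4) h5, Pre29.ev_K 1 h5, eventually_ge_atTop 1]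
    with n F c3 e1 e2 e3 n1
  refine ⟨Nat.clog 2 n * (A + 4), ?_, fun S M b1 b2 b3 H m a I =>
    ⟨F S M b1 b2 b3 H m a I, by omega, by rwa [b1, b3], ?_⟩⟩
  · have n0 : (0 : ℝ) < n := Nat.cast_pos.2 n1
    set x := (n : ℝ) ^ (η / 5)
    have a1 : (Nat.clog 2 n : ℝ) ≤ 3 * x := by
      rcases Nat.eq_zero_or_pos (Nat.clog 2 n) with h | h
      · rw [h, Nat.cast_zero]; linarith
      have b1 : 2 ^ (Nat.clog 2 n - 1) < n := by
        rw [← Nat.lt_clog_iff_pow_lt one_lt_two]; omega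
      have b2 : ((Nat.clog 2 n - 1 : ℕ) : ℝ) * log 2 ≤ log n := by
        rw [← log_pow]
        exact log_le_log (by positivity) (by exact_mod_cast b1.le)
      rw [Nat.cast_sub h, Nat.cast_one] at b2
      have b3 : (0 : ℝ) ≤ (Nat.clog 2 n : ℝ) - 1 := sub_nonneg.2 (Nat.one_le_cast.2 h)
      nlinarith [log_two_gt_d9]
    have a2 : ((Nat.clog 2 n * (A + 4) : ℕ) : ℝ) + 2 ≤ 5 * (A + 4) * x := by
      push_cast
      nlinarith [(Nat.cast_nonneg A : (0 : ℝ) ≤ A)]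
    have a3 := pow_le_pow_left₀ (by positivity) a2 4
    have e : (n : ℝ) ^ η = x * x ^ 4 := by
      rw [← pow_succ', ← rpow_natCast, ← rpow_mul n0.le]; norm_num
    calc _ ≤ max D 0 * (5 * (A + 4) * x) ^ 4 :=
          mul_le_mul (le_max_left _ _) a3 (by positivity) (le_max_right _ _)
      _ = max D 0 * (5 * (A + 4)) ^ 4 * x ^ 4 := by ring
      _ ≤ _ := by rw [e]; gcongr
  · rw [b2, b3, pow_mul]
    exact Nat.pow_le_pow_left (Nat.le_pow_clog one_lt_two n) _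

theorem log_le_K {x : ℝ} (h0 : 0 < x) (h : x ≤ 2 ^ K) : log x ≤ K := by
  refine (log_le_log h0 h).trans ?_
  rw [log_pow]
  exact mul_le_of_le_one_right (Nat.cast_nonneg K) (by linarith [log_two_lt_d9])

namespace Big
variable (B : Big S M m a K)
include B

theorem hK' : (S.n : ℝ) ^ (S.A + 4) ≤ 2 ^ K := by exact_mod_cast B.hK

theorem z0 : 1 ≤ S.n * M.z 0 ^ 2 := by
  have n1 := B.n1
  have a1 : (S.n : ℝ) ^ (-(1 : ℝ) / 6) ≤ M.z 0 := by linarith [B.a1, B.a2, B.leg.z0]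
  have a2 : (S.n : ℝ) ^ (-(1 : ℝ) / 2) ≤ (S.n : ℝ) ^ (-(1 : ℝ) / 6) :=
    rpow_le_rpow_of_exponent_le n1 (by norm_num)
  have a3 := pow_le_pow_left₀ (by positivity) (a2.trans a1) 2
  rw [← rpow_natCast, ← rpow_mul (by positivity), show -(1 : ℝ) / 2 * (2 : ℕ) = -1 by norm_num,
    rpow_neg_one, ← one_div, div_le_iff₀' (by positivity)] at a3
  exact a3

theorem z0' : 1 ≤ S.n * M.z 0 := by
  have := B.z_pos 0
  have := mul_le_mul_of_nonneg_left (B.leg.z1 0) (mul_nonneg (zero_le_one.trans B.n1) this.le)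
  linarith [B.z0]

theorem n2 : 2 * (S.n : ℝ) ≤ 2 ^ K := by
  have n3 : (3 : ℝ) ≤ S.n := by exact_mod_cast B.n3
  have := pow_le_pow_right₀ B.n1 (show 2 ≤ S.A + 4 by omega)
  nlinarith [B.hK']

theorem log_z0 : log (1 / M.z 0) ≤ K := by
  have := B.z_pos 0
  refine log_le_K (by positivity) ?_
  rw [div_le_iff₀ this]
  nlinarith [B.z0', B.n2]

/-- the mesh is negligible -/
theorem hv : S.v * (S.n * S.C) ≤ M.z 0 ^ 2 := by
  have n1 := B.n1
  have C1 := B.C1
  have a1 := (mul_le_mul_of_nonneg_left (pow_le_pow_right₀ n1 B.A3) B.v0.le).trans B.v2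
  have a2 : S.C ^ 2 ≤ S.n := (pow_le_pow_right₀ C1 (by norm_num)).trans B.C3
  refine le_of_mul_le_mul_left (a := (S.n : ℝ) ^ 2) ?_ (by positivity)
  have a3 := mul_le_mul_of_nonneg_right a1 B.C0.le
  have a4 := mul_le_mul_of_nonneg_left B.z0 (zero_le_one.trans n1)
  linarith

theorem v_w3 {t : ℝ} (h0 : 0 < t) (h1 : t ≤ S.C) : S.v ≤ M.z 0 ^ 2 * S.w3 t := by
  have n1 := B.n1
  have m1 := B.ms_pos h0.le
  have a1 : 1 / (S.n * S.C) ≤ S.w3 t := by
    rw [Sc.w3]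
    refine div_le_div₀ B.F0.le B.F1 (by positivity) ?_
    rw [mul_assoc]
    exact mul_le_mul_of_nonneg_left ((mul_le_of_le_one_right h0.le (B.ms_le_one t)).trans h1)
      (by positivity)
  refine le_trans ?_ (mul_le_mul_of_nonneg_left a1 (sq_nonneg _))
  rw [mul_one_div, le_div_iff₀ (by have := B.C0; positivity)]
  exact B.hv

theorem v_gg {t : ℝ} (h0 : 0 ≤ t) : S.C * S.v ≤ gg S t := by
  have n1 := B.n1
  have m1 := B.ms_pos h0
  have := pow_le_one₀ (n := 2) (B.z_pos 0).le (B.leg.z1 0)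
  rw [gg, le_div_iff₀ (by positivity)]
  have a := mul_le_of_le_one_right (by have := B.v0; have := B.C0; positivity :
    0 ≤ S.v * (S.n * S.C)) (B.ms_le_one t)
  linarith [B.hv, B.F1]

theorem kb (hF : S.F ≤ S.n) (hH : M.H S.Jp ≤ S.C) : Kb S M K := by
  have n1 := B.n1
  have C0 := B.C0
  have F0 := B.F0
  have v0 := B.v0
  have z0 := B.z_pos 0
  constructor
  · have := (B.card.trans (pow_le_pow_right₀ n1 (show S.A + 1 ≤ S.A + 4 by omega))).trans B.hK'
    exact_mod_cast this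
  · refine hH.trans (le_trans ?_ (mul_le_mul_of_nonneg_right B.hK' (sg_pos B.toFn 0).le))
    have a1 : 1 ≤ S.n * S.ms 0 := by
      have := B.ms0
      rwa [rpow_neg_one, ← one_div, div_le_iff₀' (by positivity)] at this
    have a2 := B.v1
    rw [div_le_iff₀' C0] at a2
    rw [sg, B.s0, show (S.n : ℝ) ^ (S.A + 4) * (M.z 0 * (S.ms 0 / S.F * S.v / S.C)) =
      S.n * M.z 0 * (S.n * S.ms 0) * (S.C * (S.v * S.n ^ S.A)) * (S.n * S.n) /
        (S.F * S.C ^ 2) by field_simp; ring, le_div_iff₀ (by positivity)]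
    have a3 := one_le_mul_of_one_le_of_one_le (one_le_mul_of_one_le_of_one_le B.z0' a1) a2
    have a4 := mul_le_mul B.C3 hF F0.le (by positivity)
    nlinarith [mul_le_mul_of_nonneg_right a3 (by positivity : (0 : ℝ) ≤ S.n * S.n)]

end Big

end Crest.Agent.T156.Alt.E49

end
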