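import Crest.Agent.T156.Reg_48
import Crest.Agent.T156.RigD_63

/-!
Row 156 (helper36): the corner of the top plateau without a Plefka bound.  One time `f` with
`b G ≤ 1 + g₀` whose label is at most `t` below `x*` controls `1 - b G` from below up to `M`.
-/

set_option autoImplicit false

namespace Crest.Agent.T156.Pr.Cor36

open MeasureTheory Set
open Crest.Agent.R164.GC Crest.Agent.R339.B Crest.Agent.R339.Var Crest.Agent.T157.Pf
open Crest.Agent.T156.Pr.Reg48

noncomputable section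

/-- `G'` of `lb` at the time `s` against `G'` of `lh` at the time `s₁` -/
theorem Gd_two (T0 : ℝ) : ∃ C : ℝ, 1 ≤ C ∧ ∀ lb lh, Ok lb → Ok lh → TT lb = TT lh → TT lh ≤ T0 →
    ∀ s ∈ Icc 0 (TT lh), ∀ s1, 0 ≤ s1 → s1 ≤ s → ∀ j,
      |Sc48.Jf lh lb (TT lh) s| + Hm.IJ lh lb 0 (TT lh) ≤ j →
      Real.exp (-(4 * T0)) ≤ AA lb s ∧ AA lb s ≤ 1 ∧
      Gd lb s ≤ Gd lh s1 - 2 * AA lb s * (lvr 1 lb s - lvr 1 lh s1) + C * (j + (s - s1)) := by
  obtain ⟨C, c1, hC⟩ := Hm.fun_H T0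
  obtain ⟨K, k1, hK⟩ := Atom48.NN_lip T0
  obtain ⟨C', -, hO⟩ := Pp.Ode3.odeS T0
  refine ⟨3 * C + K + 30, by linarith, fun lb lh hb hh e hT s hs s1 h0 h1 j hj => ?_⟩
  obtain ⟨⟨-, g, a, n, -⟩, -⟩ := hC lh lb hh.1 hb.1 e hT s hs _ rfl
  have m := mul_le_mul_of_nonneg_left hj (by linarith : 0 ≤ C)
  have j0 : 0 ≤ j := le_trans (by
    have : 0 ≤ C * (|Sc48.Jf lh lb (TT lh) s| + Hm.IJ lh lb 0 (TT lh)) := (abs_nonneg _).trans g
    exact (mul_nonneg_iff_of_pos_left (by linarith)).1 this) hj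
  have a1 := (abs_le.1 (a.trans m)).1
  have n1 := (abs_le.1 (n.trans m)).2
  have n2 := (abs_le.1 (hK lh hh hT s1 s h0 h1 hs.2)).2
  obtain ⟨-, -, -, hbd⟩ := hO lh hh hT
  obtain ⟨-, -, -, -, -, -, -, -, -, -, -, -, a2⟩ := hbd s hs
  have a3 := (abs_le.1 (a2 s1 ⟨h0, h1.trans hs.2⟩).1).1
  rw [abs_of_nonneg (sub_nonneg.2 h1)] at a3
  have z1 := Pp.Ode3.lvr_pos hh.1 s1
  have z2 := Pp.Ode3.lvr_le_one hh.1 s1
  have hsb : s ∈ Icc 0 (TT lb) := by rwa [e]
  refine ⟨Rig.Am_ge (Pp.Ode3.AP.of_ok hb) (e.trans_le hT) hsb, ((ode hb).2.2.2 s hsb).2, ?_⟩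
  have d0 := sub_nonneg.2 h1
  have p : lvr 1 lh s1 * (AA lh s1 - AA lb s) ≤ C * j + 15 * (s - s1) := by
    have q : AA lh s1 - AA lb s ≤ C * j + 15 * (s - s1) := by linarith
    have q0 : 0 ≤ C * j + 15 * (s - s1) := by positivity
    exact (mul_le_mul_of_nonneg_left q z1.le).trans (mul_le_of_le_one_left q0 z2)
  have r1 : 0 ≤ C * (s - s1) := by positivity
  have r2 : 0 ≤ K * j := by positivity
  unfold Gd
  nlinarith

/-- data at the corner `(σ, xs)` of the reference `lh` -/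
structure Cn (lb lh : List (ℝ × ℝ)) (T σ xs f M t c θ j D : ℝ) : Prop where
  okb : Ok lb
  okh : Ok lh
  tb : TT lb = T
  th : TT lh = T
  f0 : 0 ≤ f
  MT : M ≤ T
  nn : 0 ≤ t ∧ 0 < c ∧ c ≤ 1 ∧ 0 ≤ θ ∧ 0 ≤ j ∧ 0 ≤ D
  MD : M - σ ≤ D
  zf : xs - t ≤ lvr 1 lb f
  slope : ∀ s, f ≤ s → s < σ → lvr 1 lh s ≤ xs - c * (σ - s) + t
  gd : ∀ s, f ≤ s → s < σ → Gd lh s ≤ θ
  ref : ∃ s1, 0 ≤ s1 ∧ s1 ≤ σ ∧ σ - s1 ≤ t ∧ lvr 1 lh s1 ≤ xs + t ∧ Gd lh s1 ≤ θ
  hj : ∀ s ∈ Icc 0 T, |Sc48.Jf lh lb T s| + Hm.IJ lh lb 0 T ≤ j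

/-- the sign and the size of `G'` of `lb` on `[f, M)` -/
structure Sg (lb : List (ℝ × ℝ)) (σ f M a : ℝ) : Prop where
  ok : Ok lb
  f0 : 0 ≤ f
  MT : M ≤ TT lb
  a0 : 0 ≤ a
  Ma : M ≤ σ + a
  neg : ∀ s, f ≤ s → s < M → s ≤ σ - a → Gd lb s ≤ 0
  le : ∀ s, f ≤ s → s < M → Gd lb s ≤ a

/-- **corner lemma** -/
theorem cor_sg (T0 : ℝ) : ∃ C : ℝ, 1 ≤ C ∧ ∀ lb lh T σ xs f M t c θ j D a,
    Cn lb lh T σ xs f M t c θ j D → T ≤ T0 → C * (θ + j + t + D) ≤ c * a → Sg lb σ f M a := by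
  obtain ⟨C, c1, hC⟩ := Gd_two T0
  set e := Real.exp (-(4 * T0)) with he
  have e0 : 0 < e := Real.exp_pos _
  refine ⟨C + 4 + C / e, by have := div_pos (by linarith : 0 < C) e0; linarith,
    fun lb lh T σ xs f M t c θ j D a h hT ha => ?_⟩
  obtain ⟨t0, c0, c1', θ0, j0, D0⟩ := h.nn
  have ce : 0 < C / e := div_pos (by linarith) e0
  have S0 : 0 ≤ θ + j + t + D := by positivity
  have a0 : 0 ≤ a := by
    have : 0 ≤ c * a := le_trans (by positivity) ha
    exact (mul_nonneg_iff_of_pos_left c0).1 this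
  have ca : c * a ≤ a := mul_le_of_le_one_left a0 c1'
  have big : C * (θ + j + t + D) + 4 * (θ + j + t + D) ≤ a := by
    have : 0 ≤ C / e * (θ + j + t + D) := by positivity
    nlinarith
  have cS : θ + j + t + D ≤ C * (θ + j + t + D) := le_mul_of_one_le_left S0 c1
  have mono := Pp.Ode3.lvr_mono h.okb.1
  have key := fun s (s0 : f ≤ s) (s1 : s < M) =>
    hC lb lh h.okb h.okh (h.tb.trans h.th.symm) (h.th.trans_le hT) s
      ⟨h.f0.trans s0, by rw [h.th]; linarith [h.MT]⟩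
  have hj := fun s (s0 : f ≤ s) (s1 : s < M) => h.hj s ⟨h.f0.trans s0, by linarith [h.MT]⟩
  refine ⟨h.okb, h.f0, by rw [h.tb]; exact h.MT, a0, by linarith [h.MD], fun s s0 s1 s2 => ?_,
    fun s s0 s1 => ?_⟩
  · rcases a0.eq_or_lt with z | z
    · have S : θ + j + t + D = 0 := by nlinarith
      have z1 : θ = 0 := by linarith
      have z2 : j = 0 := by linarith
      have z3 : t = 0 := by linarith
      rcases lt_or_ge s σ with u | u
      · obtain ⟨k1, k2, k3⟩ := key s s0 s1 s (h.f0.trans s0) le_rfl j (by rw [h.th]; exact hj s s0 s1)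
        have := h.gd s s0 u
        have q := h.slope s s0 u
        have q1 := mono s0
        have q2 := h.zf
        have q3 : 0 ≤ c * (σ - s) := by have := sub_pos.2 u; positivity
        have q4 : 0 ≤ AA lb s * (lvr 1 lb s - lvr 1 lh s) :=
          mul_nonneg (by linarith) (by linarith)
        rw [z2] at k3
        nlinarith
      · have := h.MD
        linarith
    · have u : s < σ := by linarith
      obtain ⟨k1, k2, k3⟩ := key s s0 s1 s (h.f0.trans s0) le_rfl j (by rw [h.th]; exact hj s s0 s1)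
      have := h.gd s s0 u
      have q := h.slope s s0 u
      have q1 := mono s0
      have q2 := h.zf
      have q3 : c * a ≤ c * (σ - s) := mul_le_mul_of_nonneg_left (by linarith) c0.le
      have q5 : C / e * (θ + j + t + D) ≤ lvr 1 lb s - lvr 1 lh s := by nlinarith
      have q6 : e * (C / e * (θ + j + t + D)) ≤ AA lb s * (lvr 1 lb s - lvr 1 lh s) :=
        mul_le_mul k1 q5 (by positivity) (by linarith)
      have q7 : e * (C / e * (θ + j + t + D)) = C * (θ + j + t + D) := by field_simp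
      have q8 : C * j ≤ C * (θ + j + t + D) := mul_le_mul_of_nonneg_left (by linarith) (by linarith)
      nlinarith
  · have q1 := mono s0
    have q2 := h.zf
    rcases lt_or_ge s σ with u | u
    · obtain ⟨k1, k2, k3⟩ := key s s0 s1 s (h.f0.trans s0) le_rfl j (by rw [h.th]; exact hj s s0 s1)
      have := h.gd s s0 u
      have q := h.slope s s0 u
      have q3 : 0 ≤ c * (σ - s) := by have := sub_pos.2 u; positivity
      have q4 : AA lb s * (lvr 1 lh s - lvr 1 lb s) ≤ 2 * t :=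
        (mul_le_mul_of_nonneg_left (by linarith) (by linarith)).trans
          (mul_le_of_le_one_left (by linarith) k2)
      have q8 : C * j ≤ C * (θ + j + t + D) := mul_le_mul_of_nonneg_left (by linarith) (by linarith)
      nlinarith
    · obtain ⟨s1', r0, r1, r2, r3, r4⟩ := h.ref
      obtain ⟨k1, k2, k3⟩ := key s s0 s1 s1' r0 (r1.trans u) j (by rw [h.th]; exact hj s s0 s1)
      have q4 : AA lb s * (lvr 1 lh s1' - lvr 1 lb s) ≤ 2 * t :=
        (mul_le_mul_of_nonneg_left (by linarith) (by linarith)).trans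
          (mul_le_of_le_one_left (by linarith) k2)
      have q8 : C * (j + (s - s1')) ≤ C * (θ + j + t + D) :=
        mul_le_mul_of_nonneg_left (by linarith [h.MD]) (by linarith)
      nlinarith

namespace Sg

variable {lb : List (ℝ × ℝ)} {σ f M a b g0 L p q s : ℝ}

/-- `G` does not increase before `σ - a` -/
theorem G_lo (h : Sg lb σ f M a) (s0 : f ≤ s) (s1 : s ≤ M) (s2 : s ≤ σ - a) :
    GG lb s ≤ GG lb f := by
  simpa using GG_up h.ok h.f0 s0 (s1.trans h.MT) (K := 0) fun r hr =>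
    h.neg r hr.1 (hr.2.trans_le s1) (hr.2.le.trans s2)

/-- `G` on the whole of `[f, M]` -/
theorem G_le (h : Sg lb σ f M a) (hL : M - f ≤ L) (s0 : f ≤ s) (s1 : s ≤ M) :
    GG lb s ≤ GG lb f + a * min (2 * a) L := by
  have a0 := h.a0
  have m0 : 0 ≤ min (2 * a) L := le_min (by linarith) (by linarith)
  rcases le_total s (σ - a) with u | u
  · have := h.G_lo s0 s1 u
    have := mul_nonneg a0 m0
    linarith
  · have w0 : f ≤ max f (σ - a) := le_max_left _ _
    have w1 : max f (σ - a) ≤ s := max_le s0 u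
    have k1 : GG lb (max f (σ - a)) ≤ GG lb f := by
      rcases le_total f (σ - a) with v | v
      · rw [max_eq_right v]; exact h.G_lo v (u.trans s1) le_rfl
      · rw [max_eq_left v]
    have k2 := GG_up h.ok (h.f0.trans w0) w1 (s1.trans h.MT) (K := a) fun r hr =>
      h.le r (w0.trans hr.1) (hr.2.trans_le s1)
    have k3 : s - max f (σ - a) ≤ min (2 * a) L :=
      le_min (by linarith [le_max_right f (σ - a), h.Ma]) (by linarith)
    have := mul_le_mul_of_nonneg_left k3 a0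
    linarith

/-- the input `atM` of `Pl` -/
theorem mu (h : Sg lb σ f M a) (hb : 0 < b) (hf : b * GG lb f ≤ 1 + g0) (hL : M - f ≤ L)
    (s0 : f ≤ s) (s1 : s ≤ M) : b * GG lb s ≤ 1 + (g0 + b * a * min (2 * a) L) := by
  have := mul_le_mul_of_nonneg_left (h.G_le hL s0 s1) hb.le
  nlinarith

/-- **`M(s) = s - b Γ(s)` is almost increasing on `[f, M]`** -/
theorem rise (h : Sg lb σ f M a) (hb : 0 < b) (hf : b * GG lb f ≤ 1 + g0) (hL : M - f ≤ L)
    (p0 : f ≤ p) (pq : p ≤ q) (q1 : q ≤ M) :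
    p - b * Gam lb p - (g0 * (q - p) + b * a * min (2 * a) L ^ 2) ≤ q - b * Gam lb q := by
  have a0 := h.a0
  set m := min (2 * a) L with hm
  have m0 : 0 ≤ m := le_min (by linarith) (by linarith)
  set w := min q (max p (σ - a)) with hw
  have w0 : p ≤ w := le_min pq (le_max_left _ _)
  have w1 : w ≤ q := min_le_left _ _
  have k1 := Mh_ge h.ok hb (h.f0.trans p0) w0 ((w1.trans q1).trans h.MT) (e := -g0) fun r hr => by
    have r2 : r ≤ σ - a := by
      have : r < max p (σ - a) := hr.2.trans_le (min_le_right _ _)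
      rcases lt_max_iff.1 this with v | v
      · linarith [hr.1]
      · exact v.le
    have := mul_le_mul_of_nonneg_left
      (h.G_lo (p0.trans hr.1) (hr.2.le.trans (w1.trans q1)) r2) hb.le
    linarith
  have k2 := Mh_ge h.ok hb ((h.f0.trans p0).trans w0) w1 (q1.trans h.MT)
    (e := -(g0 + b * a * m)) fun r hr => by
      have := h.mu hb hf hL ((p0.trans w0).trans hr.1) (hr.2.le.trans q1)
      linarith
  have k3 : q - w ≤ m := by
    rcases le_total q (max p (σ - a)) with v | v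
    · rw [hw, min_eq_left v]; linarith
    · rw [hw, min_eq_right v]
      exact le_min (by linarith [le_max_right p (σ - a), h.Ma])
        (by linarith [le_max_left p (σ - a)])
  have k4 : b * a * m * (q - w) ≤ b * a * m * m :=
    mul_le_mul_of_nonneg_left k3 (by positivity)
  nlinarith

/-- upper bound of the residual from the PREVIOUS good time (use where `dz ≥ 0`) -/
theorem prev {η hp hs Dh : ℝ} (h : Sg lb σ f M a) (hb : 0 < b) (hf : b * GG lb f ≤ 1 + g0)
    (hL : M - f ≤ L) (p0 : f ≤ p) (ps : p ≤ s) (s1 : s ≤ M)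
    (hη : Gam lb p - (p - hp) / b ≤ η) (hD : hs - hp ≤ Dh) :
    Gam lb s - (s - hs) / b ≤ η + (Dh + g0 * (s - p) + b * a * min (2 * a) L ^ 2) / b := by
  have k := h.rise hb hf hL p0 ps s1
  have e : ∀ x y z : ℝ, x - (y - z) / b = (b * x - y + z) / b := fun x y z => by field_simp; ring
  rw [e] at hη ⊢
  rw [div_le_iff₀ hb] at hη
  rw [div_le_iff₀ hb, add_mul, div_mul_cancel₀ _ hb.ne']
  linarith

/-- lower bound of the residual from the NEXT good time (use where `dz ≤ 0`) -/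
theorem next {η hq hs Dh : ℝ} (h : Sg lb σ f M a) (hb : 0 < b) (hf : b * GG lb f ≤ 1 + g0)
    (hL : M - f ≤ L) (s0 : f ≤ s) (sq : s ≤ q) (q1 : q ≤ M)
    (hη : -η ≤ Gam lb q - (q - hq) / b) (hD : hq - hs ≤ Dh) :
    -(η + (Dh + g0 * (q - s) + b * a * min (2 * a) L ^ 2) / b) ≤ Gam lb s - (s - hs) / b := by
  have k := h.rise hb hf hL s0 sq q1
  have e : ∀ x y z : ℝ, x - (y - z) / b = (b * x - y + z) / b := fun x y z => by field_simp; ring
  rw [e] at hη ⊢
  rw [le_div_iff₀ hb] at hη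
  rw [le_div_iff₀ hb, neg_mul, add_mul, div_mul_cancel₀ _ hb.ne']
  linarith

end Sg

/-- **floor point**: a rise of `M(s) = s - b Γ(s)` gives a time with `b G ≤ 1 + g₀` -/
theorem floor_pt {l : List (ℝ × ℝ)} {b g0 p q : ℝ} (h : Ok l) (hb : 0 < b) (hp : 0 ≤ p)
    (pq : p ≤ q) (hq : q ≤ TT l)
    (hr : p - b * Gam l p - g0 * (q - p) < q - b * Gam l q) :
    ∃ f, p ≤ f ∧ f < q ∧ b * GG l f ≤ 1 + g0 := by
  by_contra hc
  push Not at hc
  have := Mh_le h hb hp pq hq (e := -g0) fun r hr => by linarith [hc r hr.1 hr.2]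
  linarith

end

end Crest.Agent.T156.Pr.Cor36
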