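import Crest.Agent.T156.Mid_8
import Crest.Agent.T156.Cor_36

/-!
# Row 156, text (L) (helper36): the middle zone, sharp form (after `Mid_8`)
-/

set_option autoImplicit false

noncomputable section

namespace Crest.Agent.T156.Pr.Mid36

open MeasureTheory Set
open Crest.Agent.R164.GC Crest.Agent.R339.B Crest.Agent.R339.Var Crest.Agent.T157.Pf
open Crest.Agent.T156.Cut8 Crest.Agent.T156.Pr.Reg48 Crest.Agent.T156.Pr.Mid8
open Crest.Agent.T156.Pr.Mid8.Mid (mk' ff)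

variable {lb lh : List (ℝ × ℝ)} {T b : ℝ}

/-- bound of the negative part of `dz` -/
def d2 (σ' w d1 t : ℝ) : ℝ := (if t < σ' - w then 0 else d1) + if t < σ' then 0 else 1

theorem LB_d2 (σ' w d1 : ℝ) : LB T (d2 σ' w d1) :=
  (LB_ite (LB.const 0) (LB.const d1)).add (LB_ite (LB.const 0) (LB.const 1))

theorem d2_nn {σ' w d1 : ℝ} (h : 0 ≤ d1) (t : ℝ) : 0 ≤ d2 σ' w d1 t := by
  unfold d2; split_ifs <;> linarith

theorem int_step {x k s m l : ℝ} (hs : 0 ≤ s) (h2 : s ≤ m) (hT : m ≤ T) (k0 : 0 ≤ k) (l0 : 0 ≤ l)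
    (hl : m - x ≤ l) : ∫ t in s..m, (if t < x then 0 else k) ≤ k * l := by
  have p := mul_nonneg k0 l0
  rcases le_total x s with c | c
  · have := int_le_const (T := T) (f := fun t => if t < x then 0 else k)
      (LB_ite (LB.const 0) (LB.const k)) (K := k) hs h2 hT fun t _ _ => by
        split_ifs <;> linarith
    have q := mul_le_mul_of_nonneg_left (show m - s ≤ l by linarith) k0
    linarith
  rcases le_total x m with d | d
  · rw [int_ite (LB.const 0) (LB.const k) hs c d hT]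
    simp only [intervalIntegral.integral_zero, intervalIntegral.integral_const, smul_eq_mul]
    have q := mul_le_mul_of_nonneg_left hl k0
    linarith
  · rw [int_zero h2 fun t _ t1 => if_pos (t1.trans_le d)]
    exact p

theorem int_d2 {σ' w d1 s m γ : ℝ} (hs : 0 ≤ s) (h2 : s ≤ m) (hT : m ≤ T) (h0 : 0 ≤ d1)
    (w0 : 0 ≤ w) (hγ0 : 0 ≤ γ) (hγ : m - σ' ≤ γ) :
    ∫ t in s..m, d2 σ' w d1 t ≤ d1 * (w + γ) + γ := by
  have ms : s ∈ Icc 0 T := ⟨hs, by linarith⟩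
  have mm : m ∈ Icc 0 T := ⟨by linarith, hT⟩
  unfold d2
  rw [intervalIntegral.integral_add ((LB_ite (LB.const 0) (LB.const d1)).ii ms mm)
    ((LB_ite (LB.const 0) (LB.const 1)).ii ms mm)]
  have a := int_step (x := σ' - w) hs h2 hT h0 (l := w + γ) (by linarith) (by linarith)
  have c := int_step (x := σ') hs h2 hT zero_le_one hγ0 hγ
  linarith

/-- data of the middle zone `[s, M)`: `lh` rises from below `xs` to `1` during `[σ', σ]`,
`t - b Γ t` is increasing up to `Rs`, `dz ≥ 0` before `σ' - w`, `mM` = mark at the good time `M` -/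
structure Md2 (lb lh : List (ℝ × ℝ))
    (T b σ' σ γ s M c0 η Rs w d1 e e1 C1 δ xs G0 Gm Gp mM : ℝ) : Prop where
  okb : Ok lb
  okh : Ok lh
  tb : TT lb = T
  th : TT lh = T
  b0 : 0 < b
  s0 : 0 < s
  sσ : s ≤ σ
  σσ : σ' ≤ σ
  spr : σ - σ' ≤ γ
  sM : s ≤ M
  σT : σ ≤ T
  MT : M ≤ T
  nn : 0 ≤ η ∧ 0 ≤ Rs ∧ 0 ≤ d1 ∧ 0 < e ∧ 0 ≤ e1 ∧ 0 ≤ C1 ∧ 0 ≤ δ ∧ 0 < G0 ∧ 0 < Gm ∧ 0 ≤ Gp
  w0 : 0 ≤ w
  top : ∀ t, σ ≤ t → lvr 1 lh t = 1
  below : ∀ t ∈ Ico s σ, xs - lvr 1 lh t ≤ C1 * (σ - t) + δ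
  xs0 : 0 ≤ xs
  pos : ∀ t, s ≤ t → t < σ' - w → 0 ≤ lvr 1 lb t - lvr 1 lh t
  dlo : ∀ t ∈ Ico s σ', -d1 ≤ lvr 1 lb t - lvr 1 lh t
  rise : ∀ p q, s ≤ p → p ≤ q → q ≤ M → p - b * Gam lb p - Rs ≤ q - b * Gam lb q
  elo : ∀ r, s ≤ r → r < T → e ≤ 1 - b * GG lh r
  eup : ∀ r ∈ Ico s σ, 1 - b * GG lh r ≤ e1
  atM : -η ≤ Gam lb M - (M - mM) / b - c0 ∧ mM ≤ σ - b * Gam lh σ + Gp
  net : ∀ t, s ≤ t → t < σ → t < M → ∃ p mp : ℝ, s ≤ p ∧ p ≤ t ∧
    Gam lb p - (p - mp) / b - c0 ≤ η ∧ σ - b * Gam lh σ - mp ≤ Gm ∧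
    (σ - b * Gam lh σ - mp) * √(max (lvr 1 lb t - xs) 0) ≤ G0

variable {σ' σ γ s M c0 η Rs w d1 e e1 C1 δ xs G0 Gm Gp mM : ℝ}

namespace Md2

theorem dlo' (h : Md2 lb lh T b σ' σ γ s M c0 η Rs w d1 e e1 C1 δ xs G0 Gm Gp mM) {t : ℝ}
    (ht : s ≤ t) : -d2 σ' w d1 t ≤ lvr 1 lb t - lvr 1 lh t := by
  unfold d2
  split_ifs with c c' c'
  · linarith [h.pos t ht c]
  · linarith [h.pos t ht c]
  · linarith [h.dlo t ⟨ht, c'⟩]
  · linarith [Sc48.lvr_pos h.okb.1 t, (Sc48.lvr_mem h.okh.1 t).2, h.nn.2.2.1]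

theorem coer (h : Md2 lb lh T b σ' σ γ s M c0 η Rs w d1 e e1 C1 δ xs G0 Gm Gp mM) {t : ℝ}
    (h1 : s ≤ t) (h2 : t < M) :
    e / b * (|t - σ| * ff lb lh σ t) ≤ mk' lb lh b σ t * (lvr 1 lb t - lvr 1 lh t) := by
  have b0 := h.b0
  have s0 := h.s0
  unfold mk' ff
  split_ifs with c c'
  · rw [max_eq_right c'.le]; simp
  · have a := Mh_ge h.okh b0 (p := t) (s := σ) (e := e) (by linarith) c.le (h.th ▸ h.σT)
      fun r hr => h.elo r (h1.trans hr.1) (hr.2.trans_le h.σT)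
    rw [max_eq_left (not_lt.mp c'), mul_one, ← mul_assoc, abs_of_neg (sub_neg.mpr c)]
    refine mul_le_mul_of_nonneg_right ?_ (not_lt.mp c')
    rw [div_mul_eq_mul_div]
    exact div_le_div_of_nonneg_right (by linarith) b0.le
  · have c1 := not_lt.mp c
    have a := Mh_ge h.okh b0 (p := σ) (s := t) (e := e) (by linarith [h.sσ]) c1
      (h.th ▸ (h2.le.trans h.MT)) fun r hr => h.elo r (h.sσ.trans hr.1)
        (hr.2.trans (h2.trans_le h.MT))
    have z : lvr 1 lb t - lvr 1 lh t ≤ 0 := by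
      rw [h.top t c1]; linarith [(Sc48.lvr_mem h.okb.1 t).2]
    rw [abs_of_nonpos z, abs_of_nonneg (sub_nonneg.mpr c1), mul_one, ← mul_assoc,
      div_mul_eq_mul_div, div_mul_eq_mul_div, div_mul_eq_mul_div]
    refine div_le_div_of_nonneg_right ?_ b0.le
    nlinarith

theorem pair (h : Md2 lb lh T b σ' σ γ s M c0 η Rs w d1 e e1 C1 δ xs G0 Gm Gp mM) {t : ℝ} (h1 : s ≤ t) (h2 : t < M) :
    (Gam lb t - Gam lh t + mk' lb lh b σ t - c0) * (lvr 1 lb t - lvr 1 lh t) ≤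
      (η + (Gp + Rs) / b) * |lvr 1 lb t - lvr 1 lh t| +
      (if t < σ then (η + (Gp + Rs + e1 * (w + γ)) / b) * d2 σ' w d1 t +
        (e / 8 * ((σ - t) * max (lvr 1 lb t - lvr 1 lh t) 0) +
          (2 * G0 ^ 2 * (1 / (e / 8 * (σ - t) + G0)) +
            16 * C1 * Gm ^ 3 / e * (1 / (e / 8 * (σ - t) + Gm)) + Gm * δ)) / b else 0) := by
  obtain ⟨η0, g0, d0, e0, e10, C0, δ0, G00, Gm0, Gp0⟩ := h.nn
  have b0 := h.b0
  have s0 := h.s0
  have w0 := h.w0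
  have γ0 : 0 ≤ γ := by linarith [h.σσ, h.spr]
  have hT := h2.le.trans h.MT
  have inc : ∀ p q, s ≤ p → p ≤ q → q ≤ M →
      Gam lb q - q / b ≤ Gam lb p - p / b + Rs / b := fun p q a1 a2 a3 => by
    have a := div_le_div_of_nonneg_right (h.rise p q a1 a2 a3) b0.le
    have e1 : ∀ x : ℝ, b * x / b = x := fun x => by field_simp
    simp only [sub_div, e1] at a
    linarith
  have p1 : 0 ≤ η + (Gp + Rs + e1 * (w + γ)) / b := by positivity
  have eb : ∀ x : ℝ, b * x / b = x := fun x => by field_simp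
  unfold mk'
  split_ifs with c c'
  · have τ0 : 0 ≤ σ - t := by linarith
    have tw : σ' - w ≤ t := not_lt.mp fun q => by linarith [h.pos t h1 q]
    have m := Mh_le h.okh b0 (p := t) (s := σ) (e := e1) (by linarith) c.le (h.th ▸ h.σT)
      fun r hr => h.eup r ⟨h1.trans hr.1, hr.2⟩
    have m2 := mul_le_mul_of_nonneg_left (show σ - t ≤ w + γ by linarith [h.spr]) e10
    obtain ⟨a1, a2⟩ := h.atM
    have m3 := div_le_div_of_nonneg_right
      (show mM ≤ t - b * Gam lh t + e1 * (w + γ) + Gp by linarith) b0.le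
    have lo : -(η + (Gp + Rs + e1 * (w + γ)) / b) ≤ Gam lb t - Gam lh t - c0 := by
      have i := inc t M h1 h2.le le_rfl
      simp only [sub_div, add_div, eb] at *
      linarith
    have q1 := mul_le_mul_of_nonneg_right lo (neg_nonneg.mpr c'.le)
    have q2 := mul_le_mul_of_nonneg_left (h.dlo' h1) p1
    have q3 : 0 ≤ (η + (Gp + Rs) / b) * |lvr 1 lb t - lvr 1 lh t| := by positivity
    have q4 : 0 ≤ (e / 8 * ((σ - t) * max (lvr 1 lb t - lvr 1 lh t) 0) +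
        (2 * G0 ^ 2 * (1 / (e / 8 * (σ - t) + G0)) +
          16 * C1 * Gm ^ 3 / e * (1 / (e / 8 * (σ - t) + Gm)) + Gm * δ)) / b := by positivity
    linarith
  · have z := not_lt.mp c'
    obtain ⟨p, mp, a1, a2, a3, a4, a5⟩ := h.net t h1 c h2
    have st := stat_pt e0 G00 Gm0 C0 δ0 (sub_nonneg.mpr c.le) (le_max_right _ _)
      (max_le (by linarith [(Sc48.lvr_mem h.okb.1 t).2, h.xs0]) zero_le_one) z
      (by linarith [h.below t ⟨h1, c⟩, le_max_left (lvr 1 lb t - xs) 0]) a5 a4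
    have st' := div_le_div_of_nonneg_right st b0.le
    have up : Gam lb t - Gam lh t + (σ - b * Gam lh σ - (t - b * Gam lh t)) / b * 1 - c0 ≤
        η + (Gp + Rs) / b + (σ - b * Gam lh σ - mp) / b := by
      have i := inc p t a1 a2 h2.le
      have : 0 ≤ Gp / b := by positivity
      simp only [sub_div, add_div, mul_one, eb] at *
      linarith
    have q1 := mul_le_mul_of_nonneg_right up z
    have q2 := mul_nonneg p1 (d2_nn (σ' := σ') (w := w) d0 t)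
    rw [abs_of_nonneg z, max_eq_left z]
    rw [mul_div_right_comm] at st'
    linarith
  · have c1 := not_lt.mp c
    have z : lvr 1 lb t - lvr 1 lh t ≤ 0 := by
      rw [h.top t c1]; linarith [(Sc48.lvr_mem h.okb.1 t).2]
    obtain ⟨a1, a2⟩ := h.atM
    have lo : -(η + (Gp + Rs) / b) ≤
        Gam lb t - Gam lh t + (σ - b * Gam lh σ - (t - b * Gam lh t)) / b * 1 - c0 := by
      have i := inc t M h1 h2.le le_rfl
      have := div_le_div_of_nonneg_right a2 b0.le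
      simp only [sub_div, add_div, mul_one, eb] at *
      linarith
    have q1 := mul_le_mul_of_nonneg_right lo (neg_nonneg.mpr z)
    rw [abs_of_nonpos z]
    linarith

/-- **the middle zone**, local energy -/
theorem resL (h : Md2 lb lh T b σ' σ γ s M c0 η Rs w d1 e e1 C1 δ xs G0 Gm Gp mM) {c C' : ℝ}
    (F : Fr T c C' (Spl27.okT T) (lvr 1) Gam GG)
    {H r1 r2 ω β ξ : ℝ → ℝ}
    (R : Res T (fun t => lvr 1 lb t - lvr 1 lh t) (fun t => Gam lb t - Gam lh t) H r1 r2 ω β ξ 0 s)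
    (hc : r2 s = c0) (β0 : 0 ≤ β s) {a1 a2 θ N : ℝ} (h1 : 0 ≤ a1) (h2 : 0 < a2) (hθ : 0 < θ)
    (hN : 0 ≤ N) (ha : η + (Gp + Rs) / b + β s ≤ a1 + a2) (h3 : (4 * a1) ^ 3 ≤ θ * N ^ 2)
    {A0 E : ℝ} (hA0 : 0 ≤ A0) (hA : A0 ≤ s)
    (hE : ∫ t in A0..T, Jf T (lvr 1 lh) (lvr 1 lb) t ^ 2 ≤ E) :
    ∃ (H' r1' r2' ω' β' ξ' : ℝ → ℝ) (Z : ℝ),
      Res T (fun t => lvr 1 lb t - lvr 1 lh t) (fun t => Gam lb t - Gam lh t)
        H' r1' r2' ω' β' ξ' 0 M ∧ r2' 0 = r2 0 ∧ β' 0 = β 0 ∧ r2' M = c0 ∧ β' M = β s ∧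
      ∫ t in (0 : ℝ)..M, ω' t ^ 2 = ∫ t in (0 : ℝ)..s, ω t ^ 2 ∧
      ∫ t in (0 : ℝ)..M, H' t * (lvr 1 lb t - lvr 1 lh t) =
        (∫ t in (0 : ℝ)..s, H t * (lvr 1 lb t - lvr 1 lh t)) + Z ∧ 0 ≤ Z ∧
      e / b * (∫ t in s..M, |t - σ| * ff lb lh σ t) ≤ Z ∧
      ∫ t in (0 : ℝ)..M, ξ' t ≤ (∫ t in (0 : ℝ)..s, ξ t) +
        (8 * θ * E + Z / 4 +
          (N + 32 * a2 ^ 2 * b / e +
            (2 * a1 + a2 + (η + (Gp + Rs + e1 * (w + γ)) / b)) * (d1 * (w + γ) + γ) +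
            St T b e C1 δ G0 Gm)) := by
  obtain ⟨η0, g0, d0, e0, e10, C0, δ0, G00, Gm0, Gp0⟩ := h.nn
  have b0 := h.b0
  have s0 := h.s0
  have sM := h.sM
  have MT := h.MT
  have sσ := h.sσ
  have σT := h.σT
  have w0 := h.w0
  have γ0 : 0 ≤ γ := by linarith [h.σσ, h.spr]
  have ob : Spl27.okT T lb := ⟨h.okb, h.tb⟩
  have oh : Spl27.okT T lh := ⟨h.okh, h.th⟩
  have ms' : s ∈ Icc 0 T := ⟨s0.le, by linarith⟩
  have mM' : M ∈ Icc 0 T := ⟨by linarith, MT⟩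
  have ld : LB T fun t => lvr 1 lb t - lvr 1 lh t := (F.lbz ob).sub (F.lbz oh)
  have lf : LB T (ff lb lh σ) := LB_ite (LB_max ld) ld.abs
  have f0 : ∀ t, 0 ≤ ff lb lh σ t := fun t => by unfold ff; split_ifs <;> positivity
  have f1 : ∀ t, ff lb lh σ t ≤ 1 := fun t => by
    have := F.dz_le ob oh t
    unfold ff
    split_ifs
    · exact max_le ((le_abs_self _).trans this) zero_le_one
    · exact this
  have lw : LB T fun t => |t - σ| * ff lb lh σ t :=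
    (LB.of_cont (f := fun t => |t - σ|) (by fun_prop)).mul lf
  have lH : LB T (mk' lb lh b σ) := by
    refine (((LB.const _).sub ((LB.of_cont continuousOn_id).sub
      ((LB.const b).mul (F.lbΓ oh (by linarith))))).div b).mul (LB_ite ?_ (LB.const 1))
    exact .of_meas (Measurable.ite (measurableSet_lt ((Sc48.lvr_meas lb).sub (Sc48.lvr_meas lh))
      measurable_const) measurable_const measurable_const) (K := 1) fun t _ => by
        split_ifs <;> simp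
  set B2 := η + (Gp + Rs + e1 * (w + γ)) / b with hB2
  have B20 : 0 ≤ B2 := by positivity
  have α0 : 0 < e / 8 := by positivity
  have k1 := (LB.const (T := T) (2 * G0 ^ 2)).mul (LB_ker σ α0 G00)
  have k2 := (LB.const (T := T) (16 * C1 * Gm ^ 3 / e)).mul (LB_ker σ α0 Gm0)
  have lr := ((LB.const B2).mul (LB_d2 σ' w d1)).add (((k1.add k2).add (LB.const (Gm * δ))).div b)
  have lk := ((LB.const (e / b / 8)).mul lw).add (LB_ite (M := σ) lr (LB.const 0))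
  obtain ⟨H', r1', r2', ω', β', ξ', R', q1, q2, q3, q4, q5, q6, q7⟩ :=
    R.mid (B1 := η + (Gp + Rs) / b) ld s0 sM MT β0 (by positivity) lH lk
      (fun t t0 t1 => le_trans (by have := f0 t; positivity) (h.coer t0 t1))
      (fun t _ _ => add_nonneg (by have := f0 t; positivity)
        (by have := d2_nn (σ' := σ') (w := w) d0 t; unfold ker; split_ifs <;> positivity))
      fun t t0 t1 => by
        rw [hc]
        refine (h.pair t0 t1).trans (add_le_add le_rfl ?_)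
        unfold ff ker
        split_ifs with c
        · rw [max_eq_left (sub_nonneg.mpr c.le), abs_of_neg (sub_neg.mpr c)]
          exact le_of_eq (by ring)
        · positivity
  have z1 := int_mono ((LB.const (e / b)).mul lw) (lH.mul ld) s0.le sM MT
    fun t t0 t1 => h.coer t0.le t1
  rw [intervalIntegral.integral_const_mul] at z1
  have W0 : 0 ≤ ∫ t in s..M, |t - σ| * ff lb lh σ t :=
    intervalIntegral.integral_nonneg sM fun t _ => by have := f0 t; positivity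
  refine ⟨H', r1', r2', ω', β', ξ', _, R', q1, q2, q3.trans hc, q4, q5, q7,
    le_trans (by positivity) z1, z1, ?_⟩
  have m0 : s ≤ min σ M := le_min sσ sM
  have m1 : min σ M ≤ σ := min_le_left _ _
  have m2 : min σ M ≤ M := min_le_right _ _
  have mm : min σ M ∈ Icc 0 T := ⟨by linarith, by linarith⟩
  have i1 := mul_le_mul_of_nonneg_left (int_ker' s0.le m0 m1 σT α0 G00)
    (show 0 ≤ 2 * G0 ^ 2 by positivity)
  have i2 := mul_le_mul_of_nonneg_left (int_ker' s0.le m0 m1 σT α0 Gm0)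
    (show 0 ≤ 16 * C1 * Gm ^ 3 / e by positivity)
  have i3 := mul_le_mul_of_nonneg_right (show min σ M - s ≤ T by linarith)
    (show 0 ≤ Gm * δ by positivity)
  have i0 := int_d2 (T := T) (σ' := σ') s0.le m0 mm.2 d0 w0 γ0
    (show min σ M - σ' ≤ γ by linarith [h.spr])
  have i4 := mul_le_mul_of_nonneg_left i0 B20
  have i5 : ((2 * G0 ^ 2 * ∫ t in s..min σ M, ker (e / 8) G0 σ t) +
      (16 * C1 * Gm ^ 3 / e * ∫ t in s..min σ M, ker (e / 8) Gm σ t) +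
      (min σ M - s) * (Gm * δ)) / b ≤ St T b e C1 δ G0 Gm := by
    refine div_le_div_of_nonneg_right ?_ b0.le
    have r1 : 2 * G0 ^ 2 * (Real.log (1 + e / 8 * T / G0) / (e / 8)) =
        16 * G0 ^ 2 / e * Real.log (1 + e / 8 * T / G0) := by field_simp; ring
    have r2 : 16 * C1 * Gm ^ 3 / e * (Real.log (1 + e / 8 * T / Gm) / (e / 8)) =
        128 * C1 * Gm ^ 3 / e ^ 2 * Real.log (1 + e / 8 * T / Gm) := by field_simp; ring
    linarith
  rw [q6, intervalIntegral.integral_add (((LB.const _).mul lw).ii ms' mM')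
      ((LB_ite lr (LB.const 0)).ii ms' mM'), int_cut lr s0.le sσ sM MT,
    intervalIntegral.integral_add (((LB.const _).mul (LB_d2 σ' w d1)).ii ms' mm)
      ((((k1.add k2).add (LB.const _)).div b).ii ms' mm), intervalIntegral.integral_div,
    intervalIntegral.integral_add ((k1.add k2).ii ms' mm) ((LB.const _).ii ms' mm),
    intervalIntegral.integral_add (k1.ii ms' mm) (k2.ii ms' mm),
    intervalIntegral.integral_const_mul, intervalIntegral.integral_const_mul,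
    intervalIntegral.integral_const_mul, intervalIntegral.integral_const_mul,
    intervalIntegral.integral_const, smul_eq_mul]
  have E0 : 0 ≤ E := (intervalIntegral.integral_nonneg (by linarith) fun _ _ => sq_nonneg _).trans hE
  obtain ⟨y, y0, y3'⟩ : ∃ y : ℝ, 0 ≤ y ∧ y ^ 3 = 8 * E :=
    ⟨_, by positivity, Real.rpow_inv_natCast_pow (by positivity) three_ne_zero⟩
  have jy : ∀ t, s ≤ t → t ≤ T → |Jf T (lvr 1 lh) (lvr 1 lb) t| ≤ y := fun t t0 t1 =>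
    (pow_le_pow_iff_left₀ (abs_nonneg _) y0 three_ne_zero).mp
      ((J_cube_loc ld (F.dz_le ob oh) hA0 (hA.trans t0) t1).trans (by linarith))
  have v1 := area_loc ld (LB_d2 σ' w d1) s0.le m0 mm.2 (d2_nn d0) (jy _ le_rfl ms'.2) (jy _ m0 mm.2)
    (.inl fun t t0 _ => h.dlo' t0.le)
  have v2 := area_loc ld (LB.const 0) mm.1 m2 MT (fun _ => le_rfl) (jy _ m0 mm.2) (jy _ sM MT)
    (.inr fun t t0 t1 => by
      rw [h.top t (by rcases min_lt_iff.mp t0 with c | c <;> linarith)]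
      linarith [(Sc48.lvr_mem h.okb.1 t).2])
  rw [intervalIntegral.integral_zero] at v2
  have v3 := int_split ld.abs ms' mm mM'
  have l5 := LB_ite (M := σ) (LB_d2 (T := T) σ' w d1) (LB.const 0)
  have v5 := int_mono ld.abs (lf.add l5) s0.le sM MT fun t t0 _ => by
    unfold ff
    split_ifs with c
    · exact abs_le.mpr ⟨by linarith [h.dlo' t0.le, le_max_right (lvr 1 lb t - lvr 1 lh t) 0],
        by linarith [le_max_left (lvr 1 lb t - lvr 1 lh t) 0, d2_nn (σ' := σ') (w := w) d0 t]⟩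
    · linarith
  rw [intervalIntegral.integral_add (lf.ii ms' mM') (l5.ii ms' mM'),
    int_cut (LB_d2 σ' w d1) s0.le sσ sM MT] at v5
  have v6 := bath2 lf (σ := σ) (r := 16 * a2 * b / e) s0.le sM MT (by positivity) f0 f1
  have V0 : 0 ≤ ∫ t in s..M, |lvr 1 lb t - lvr 1 lh t| :=
    intervalIntegral.integral_nonneg sM fun _ _ => abs_nonneg _
  have w0 := mul_le_mul_of_nonneg_right ha V0
  have w1 := mul_le_mul_of_nonneg_left
    (show ∫ t in s..M, |lvr 1 lb t - lvr 1 lh t| ≤ 4 * y + 2 * (d1 * (w + γ) + γ) by linarith) h1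
  have w2 := mul_le_mul_of_nonneg_left
    (show ∫ t in s..M, |lvr 1 lb t - lvr 1 lh t| ≤ 2 * (16 * a2 * b / e) +
      (∫ t in s..M, |t - σ| * ff lb lh σ t) / (16 * a2 * b / e) + (d1 * (w + γ) + γ) by linarith) h2.le
  have w3 := y3 y0 hN hθ h3
  have r3 : ∀ W : ℝ, a2 * (2 * (16 * a2 * b / e) + W / (16 * a2 * b / e) + (d1 * (w + γ) + γ)) =
      32 * a2 ^ 2 * b / e + e / b * W / 16 + a2 * (d1 * (w + γ) + γ) := fun W => by field_simp; ring
  rw [r3] at w2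
  rw [y3'] at w3
  have w4 : 0 ≤ e / b * ∫ t in s..M, |t - σ| * ff lb lh σ t := by positivity
  linarith

/-- the error of the zone -/
def Er (T b γ η Rs w d1 e e1 C1 δ G0 Gm Gp a1 a2 N : ℝ) : ℝ :=
  N + 32 * a2 ^ 2 * b / e +
    (2 * a1 + a2 + (η + (Gp + Rs + e1 * (w + γ)) / b)) * (d1 * (w + γ) + γ) +
    St T b e C1 δ G0 Gm

/-- **the continuation from `s`, given the continuation from `M`** -/
theorem ext (h : Md2 lb lh T b σ' σ γ s M c0 η Rs w d1 e e1 C1 δ xs G0 Gm Gp mM) {c C' : ℝ}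
    (F : Fr T c C' (Spl27.okT T) (lvr 1) Gam GG)
    {βs a1 a2 θ N : ℝ} (β0 : 0 ≤ βs) (h1 : 0 ≤ a1) (h2 : 0 < a2) (hθ : 0 < θ)
    (hN : 0 ≤ N) (ha : η + (Gp + Rs) / b + βs ≤ a1 + a2) (h3 : (4 * a1) ^ 3 ≤ θ * N ^ 2)
    {A0 E τ : ℝ} (hA0 : 0 ≤ A0) (hA : A0 ≤ s)
    (hE : ∫ t in A0..T, Jf T (lvr 1 lh) (lvr 1 lb) t ^ 2 ≤ E) {Q : ℝ → Prop}
    (cont : ∀ H' r1' r2' ω' β' ξ' : ℝ → ℝ,
      Res T (fun t => lvr 1 lb t - lvr 1 lh t) (fun t => Gam lb t - Gam lh t)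
        H' r1' r2' ω' β' ξ' 0 M → r2' M = c0 → β' M = βs → ∃ X Z, Q Z ∧
      Ext T (fun t => lvr 1 lb t - lvr 1 lh t) (fun t => Gam lb t - Gam lh t)
        H' r2' ω' β' ξ' M T X Z ∧ X ≤ τ + Z / 4)
    (H r1 r2 ω β ξ : ℝ → ℝ)
    (R : Res T (fun t => lvr 1 lb t - lvr 1 lh t) (fun t => Gam lb t - Gam lh t) H r1 r2 ω β ξ 0 s)
    (hc : r2 s = c0) (hβ : β s = βs) :
    ∃ X Z, (∃ Z1 Z2, Z = Z1 + Z2 ∧ 0 ≤ Z1 ∧
        e / b * (∫ t in s..M, |t - σ| * ff lb lh σ t) ≤ Z1 ∧ Q Z2) ∧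
      Ext T (fun t => lvr 1 lb t - lvr 1 lh t) (fun t => Gam lb t - Gam lh t)
        H r2 ω β ξ s T X Z ∧
      X ≤ 8 * θ * E + τ + Z / 4 + Er T b γ η Rs w d1 e e1 C1 δ G0 Gm Gp a1 a2 N := by
  subst hβ
  obtain ⟨H', r1', r2', ω', β', ξ', Z, R', q1, q2, q3, q4, q5, q6, q7, q8, q9⟩ :=
    h.resL F R hc β0 h1 h2 hθ hN ha h3 hA0 hA hE
  obtain ⟨X, Z', w1, w2, w3⟩ := cont _ _ _ _ _ _ R' q3 q4
  exact ⟨_, _, ⟨Z, Z', rfl, q7, q8, w1⟩, Ext.trans q1 q2 q5.le q9 q6 w2, by unfold Er; linarith⟩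

end Md2

end Crest.Agent.T156.Pr.Mid36

end
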