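import Crest.Agent.T156.ClMid_8
import Crest.Agent.T156.Mid2_36

/-!
# Row 156, text (L) (helper36): the corner and the sharp middle zone for a member of the class
-/

set_option autoImplicit false

noncomputable section

namespace Crest.Agent.T156.Alt.Mp9.At

open MeasureTheory Set Real
open Crest.Agent.R164.GC Crest.Agent.R339.B Crest.Agent.R339.Var Crest.Agent.T157.Pf
open Crest.Agent.T156.Spl27 Crest.Agent.T156.Zb9 Crest.Agent.T156.Pr.Mid8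
open Crest.Agent.T156.Pr.Cor36 Crest.Agent.T156.Pr.Mid36
open Crest.Agent.T156.Gap27 (resN)

variable {S : Sc} {M : Md} {m : ℕ} {a T : ℝ}

/-- lower slope of the reference below the atom -/
theorem slope36 (A : At S M m a T) {s : ℝ} (h0 : 0 ≤ s) (h : s < M.s S.J) :
    lvr 1 (lh M T) s ≤ M.z (S.J - 1) - 1 / S.C * (M.s S.J - s) + 2 * (S.C * S.v) := by
  have c0 := A.c_pos
  have v0 := v_pos A.cl
  have c1 : 1 / S.C ≤ 1 := (div_le_one c0).2 A.cl.C1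
  have c2 : 0 ≤ 1 / S.C := by positivity
  have cv : 0 ≤ S.C * S.v := by positivity
  obtain ⟨p1, p2⟩ := A.s_pred
  have q : 1 / S.C * (M.s S.J - M.s (S.J - 1)) ≤ 1 * (S.C * S.v) :=
    mul_le_mul c1 p2 (by linarith) zero_le_one
  rcases le_total s (M.s (S.J - 1)) with c | c
  · have := ((A.sl p1) s _ h0 c le_rfl).1
    rw [A.zh_pred] at this
    linarith
  · have := A.zh_le_8 h
    have := mul_le_mul_of_nonneg_left
      (show M.s S.J - s ≤ M.s S.J - M.s (S.J - 1) by linarith) c2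
    linarith

theorem gd36 (A : At S M m a T) {tl r : ℝ} (l0 : 0 < tl) (a1 : tl ≤ r) (a2 : r < M.s S.J) :
    Pr.Reg48.Gd (lh M T) r ≤ S.C * S.θ / tl := by
  have θ0 : 0 ≤ S.θ := (A.ms_pos le_rfl).le.trans (A.cl.ms1 0)
  refine le_trans ((le_abs_self _).trans (A.gd_h (l0.le.trans a1) a2)) ?_
  rw [mul_div_assoc]
  exact mul_le_mul_of_nonneg_left (div_le_div₀ θ0 (A.cl.ms1 r) l0 (a1.trans (le_max_left _ _)))
    A.c_pos.le

/-- the corner data -/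
theorem cn36 (A : At S M m a T) {f Mt τ tl jj D : ℝ} (l0 : 0 < tl) (l1 : tl ≤ f)
    (l2 : tl ≤ M.s (S.J - 1)) (hM : Mt ≤ T) (hτ : 2 * (S.C * S.v) ≤ τ) (D0 : 0 ≤ D)
    (hD : Mt - M.s S.J ≤ D) (zf : M.z (S.J - 1) - τ ≤ lvr 1 (lb M S m a T) f)
    (hj : ∀ t ∈ Icc 0 T, |Sc48.Jf (lh M T) (lb M S m a T) T t| +
      ∫ s in (0 : ℝ)..T, |Sc48.Jf (lh M T) (lb M S m a T) T s| ≤ jj) :
    Cn (lb M S m a T) (lh M T) T (M.s S.J) (M.z (S.J - 1)) f Mt τ (1 / S.C) (S.C * S.θ / tl) jj D := by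
  have c0 := A.c_pos
  have v0 := v_pos A.cl
  have cv : 0 ≤ S.C * S.v := by positivity
  have θ0 : 0 ≤ S.θ := (A.ms_pos le_rfl).le.trans (A.cl.ms1 0)
  have T0 : 0 ≤ T := (s_nn A.cl _).trans A.t2
  have j0 : 0 ≤ jj := le_trans (add_nonneg (abs_nonneg _) (intervalIntegral.integral_nonneg T0
    fun _ _ => abs_nonneg _)) (hj 0 ⟨le_rfl, T0⟩)
  obtain ⟨p1, p2⟩ := A.s_pred
  refine ⟨A.okb.1, A.okh.1, A.okb.2, A.okh.2, by linarith, hM,
    ⟨by linarith, by positivity, (div_le_one c0).2 A.cl.C1, by positivity, j0, D0⟩, hD, zf,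
    fun s a1 a2 => by linarith [A.slope36 (s := s) (by linarith) a2],
    fun s a1 a2 => A.gd36 l0 (l1.trans a1) a2,
    ⟨M.s (S.J - 1), s_nn A.cl _, p1.le, by linarith, by rw [A.zh_pred]; linarith,
      A.gd36 l0 l2 p1⟩, fun s hs => ?_⟩
  unfold Hm.IJ
  rw [A.okh.2]
  exact hj s hs

/-- **the sign of `G'` at the corner** -/
theorem sg36 (T0 : ℝ) : ∃ C0 : ℝ, 1 ≤ C0 ∧ ∀ {S : Sc} {M : Md} {m : ℕ} {a T : ℝ},
    At S M m a T → T ≤ T0 → ∀ {f Mt τ tl jj D aa : ℝ}, 0 < tl → tl ≤ f → tl ≤ M.s (S.J - 1) →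
    Mt ≤ T → 2 * (S.C * S.v) ≤ τ → 0 ≤ D → Mt - M.s S.J ≤ D →
    M.z (S.J - 1) - τ ≤ lvr 1 (lb M S m a T) f →
    (∀ t ∈ Icc 0 T, |Sc48.Jf (lh M T) (lb M S m a T) T t| +
      ∫ s in (0 : ℝ)..T, |Sc48.Jf (lh M T) (lb M S m a T) T s| ≤ jj) →
    C0 * S.C * (S.C * S.θ / tl + jj + τ + D) ≤ aa → Sg (lb M S m a T) (M.s S.J) f Mt aa := by
  obtain ⟨C0, c1, h⟩ := cor_sg T0
  refine ⟨C0, c1, fun A hT _ _ _ _ _ _ _ l0 l1 l2 hM hτ D0 hD zf hj ha =>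
    h _ _ _ _ _ _ _ _ _ _ _ _ _ (A.cn36 l0 l1 l2 hM hτ D0 hD zf hj) hT ?_⟩
  rw [one_div_mul_eq_div, le_div_iff₀ A.c_pos]
  linarith

/-- **the sharp middle zone between the nodes `v ≤ w`** -/
theorem mid2 (A : At S M m a T) {v w : ℕ} {f γ er g0 L τ aa e t0 G0 Gm Gp : ℝ} (hv : S.jl < v)
    (hvw : v ≤ w) (hw : w ≤ S.Jp) (hJ : sb M m a (v + 1) ≤ M.s S.Jp)
    (hγ : M.s S.Jp - M.s S.J ≤ γ) (sg : Sg (lb M S m a T) (M.s S.J) f (sb M m a (w + 1)) aa)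
    (fs : f ≤ sb M m a (v + 1)) (hf : M.b * Pr.GG (lb M S m a T) f ≤ 1 + g0)
    (zf : M.z (S.J - 1) - τ ≤ lvr 1 (lb M S m a T) f) (hτ : 2 * (S.C * S.v) ≤ τ)
    (hL : sb M m a (w + 1) - f ≤ L) (er0 : 0 ≤ er) (g00 : 0 ≤ g0) (e0 : 0 < e)
    (G00 : 0 < G0) (Gm0 : 0 < Gm) (Gp0 : 0 ≤ Gp) (t00 : 0 ≤ t0) (t1 : t0 ≤ sb M m a (v + 1))
    (he : e ≤ S.ms t0 / S.C) (he1 : e ≤ 1)
    (atM : res M S m a T v - res M S m a T w ≤ er) (Gw : M.G w ≤ Gp)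
    (net : ∀ k, v ≤ k → k < w → sb M m a (k + 1) < M.s S.Jp → ∃ i, v ≤ i ∧ i ≤ k ∧
      res M S m a T i - res M S m a T v ≤ er ∧ S.C * S.θ * (M.s S.Jp - M.s i) - M.G i ≤ Gm ∧
      (S.C * S.θ * (M.s S.Jp - M.s i) - M.G i) * √(max (M.z k - M.z (S.J - 1)) 0) ≤ G0) :
    Md2 (lb M S m a T) (lh M T) T M.b (M.s S.J) (M.s S.Jp) γ (sb M m a (v + 1)) (sb M m a (w + 1))
      (resN (lb M S m a T) M.b (sb M m a) (hb M) (v + 1)) (er + 1 / (m + 1))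
      (g0 * L + M.b * aa * min (2 * aa) L ^ 2) (2 * S.C * τ) τ e
      (S.C * S.θ) S.C (S.C * S.v) (M.z (S.J - 1)) G0 Gm Gp (M.H w) := by
  have c0 := A.c_pos
  have v0 := v_pos A.cl
  have b0 := A.b_pos
  have aa0 := sg.a0
  have cv : 0 ≤ S.C * S.v := by positivity
  have τ0 : 0 ≤ τ := by linarith
  have θ0 : 0 ≤ S.θ := (A.ms_pos le_rfl).le.trans (A.cl.ms1 0)
  have hv' := hvw.trans hw
  have s0 : 0 < sb M m a (v + 1) := by
    have a1 := A.sb_lt (k := S.jl) le_rfl (by omega)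
    have a2 := A.sb_mono (show S.jl + 2 ≤ v + 1 by omega)
    linarith [(A.sb_mem (k := S.jl) (by omega)).1]
  have sJ : M.s S.J ≤ M.s S.Jp := A.cl.sm A.cl.i3
  have sM := A.sb_mono (Nat.succ_le_succ hvw)
  have L0 : 0 ≤ L := by linarith
  have m1 : (0 : ℝ) < m + 1 := by positivity
  have rb1 : ∀ i, v ≤ i → M.rb m a v / (m + 1) ≤ M.rb m a i / (m + 1) ∧
      M.rb m a i / (m + 1) ≤ M.rb m a v / (m + 1) + 1 / (m + 1) := fun i hi =>
    ⟨div_le_div_of_nonneg_right (rb_mono A.m_pos hi) m1.le, by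
      rw [← add_div]
      exact div_le_div_of_nonneg_right
        (by linarith [(rb_mem (M := M) (a := a) A.m_pos v).1, (rb_mem (M := M) (a := a) A.m_pos i).2])
        m1.le⟩
  have p1 : (0 : ℝ) ≤ 1 / (m + 1) := by positivity
  refine ⟨A.okb.1, A.okh.1, A.okb.2, A.okh.2, b0, s0, hJ, sJ, hγ, sM, A.t2, (A.sb_mem hw).2,
    ⟨by positivity, by positivity, τ0, e0, by positivity, c0.le, cv, G00, Gm0, Gp0⟩,
    by positivity, fun t ht => by rw [A.lvh' ((s_nn A.cl _).trans ht), A.cl.lv1 t ht],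
    fun t ht => A.below (s0.le.trans ht.1) ht.2,
    le_trans (by positivity) A.cl.atom.1, fun t a1 a2 => ?_,
    fun t ht => A.dlo_of zf (fs.trans ht.1) ht.2, fun p q a1 a2 a3 => ?_,
    fun r a1 a2 => A.e_lo t00 (by linarith) he he1 (t1.trans a1) a2.le,
    fun r hr => A.e_up (s0.le.trans hr.1) hr.2.le, ⟨?_, ?_⟩, fun t a1 a2 a3 => ?_⟩
  · have w0 : 0 ≤ 2 * S.C * τ := by positivity
    have k1 := A.slope36 (s := t) (s0.le.trans a1) (by linarith)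
    have k2 := Sc48.lvr_mono A.okb.1.1 (fs.trans a1)
    have k3 : 2 * τ ≤ 1 / S.C * (M.s S.J - t) := by
      rw [one_div_mul_eq_div, le_div_iff₀ c0]; linarith
    linarith
  · have k := sg.rise b0 hf hL (fs.trans a1) a2 a3
    have := mul_le_mul_of_nonneg_left (show q - p ≤ L by linarith) g00
    linarith
  · rw [A.R_node (by omega) hw, A.resN_eq hv hv']
    linarith [(rb1 w hvw).1]
  · linarith [(A.deficit (k := w) (by omega) hw).1]
  · obtain ⟨k, k1, k2, c⟩ := A.exists_cell hw a1 a3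
    have tk := c.2.1 (Nat.succ_pos k)
    obtain ⟨i, i1, i2, i3, i4, i5⟩ := net k k1 k2 (tk.trans_lt a2)
    have df := (A.deficit (k := i) (by omega) (by omega)).2
    refine ⟨sb M m a (i + 1), M.H i, A.sb_mono (Nat.succ_le_succ i1),
      (A.sb_mono (Nat.succ_le_succ i2)).trans tk, ?_, df.trans i4, ?_⟩
    · rw [A.R_node (by omega) (by omega), A.resN_eq hv hv']
      linarith [(rb1 i i1).2]
    · rw [A.lvb_cell c]
      exact (mul_le_mul_of_nonneg_right df (sqrt_nonneg _)).trans i5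

end Crest.Agent.T156.Alt.Mp9.At

end
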