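import Crest.Agent.T156.ClLev_27
import Crest.Agent.T156.NetD_27

/-!
Row 156, ALT, text (L) (helper27): residual data of the bulk from node data on the class.
-/

set_option autoImplicit false

noncomputable section

namespace Crest.Agent.T156.Alt.Mp9

open MeasureTheory Set Real
open Crest.Agent.R164.GC Crest.Agent.R339.B Crest.Agent.R339.Var Crest.Agent.T157.Pf
open Crest.Agent.T156.Pp.Area50 Crest.Agent.T156.Spl27 Crest.Agent.T156.Zb9
open Crest.Agent.T156.Cut8 (LB Res int_split int_mono int_le_const int_sub_le abs_int_le)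
open Crest.Agent.T156.Gap27 (yN HN Nodes Cons resN betN gl NumM HLip cA0 cA1 cA2 xi)

/-- floor mass at the node `y` -/
def mn (M : Md) (S : Sc) (y : ℕ) : ℝ := S.ms (M.s y) / (384 * S.C ^ 5 * S.F)
/-- size of `Γ''` of the reference at the node `y` -/
def jn (M : Md) (S : Sc) (y : ℕ) : ℝ := min (S.ms (M.s y) / M.s y) (M.s y)
/-- a node function read along the mean profile -/
def nb (M : Md) (S : Sc) (m : ℕ) (a : ℝ) (w : ℕ → ℝ) (t : ℝ) : ℝ :=
  stp (fun j => w (j - 1)) (sb M m a) (S.Jp + 1) t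
/-- the gap length -/
def gB (M : Md) (m : ℕ) (a : ℝ) (Gn : ℕ → Prop) (u v : ℕ) (t : ℝ) : ℝ :=
  gl (sb M m a) (fun j => Gn (j - 1)) (u + 1) (v + 1) t
/-- ceiling mass -/
def Mx (M : Md) (S : Sc) (m : ℕ) (a t : ℝ) : ℝ := S.C ^ 2 * S.F * S.ms (lev M S m a t)
/-- the residual in the reference time, crude below `s (jl + 1)` -/
def g2 (M : Md) (S : Sc) (t : ℝ) : ℝ :=
  if t < M.s (S.jl + 1) then S.C * S.ms (M.s (S.jl + 1)) * M.s (S.jl + 1) else gt M S t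
/-- the clock density -/
def pw (M : Md) (S : Sc) (c : ℕ → ℝ) (u v : ℕ) (l0 t : ℝ) : ℝ := l0 + S.C ^ 2 * cc M S c u v t

/-- the clock density with the gap part -/
def pw2 (M : Md) (S : Sc) (m : ℕ) (a : ℝ) (Gn : ℕ → Prop) (c : ℕ → ℝ) (u v : ℕ) (l0 ka t : ℝ) : ℝ :=
  pw M S c u v l0 t + ka * gB M m a Gn u v t ^ 2

/-- **bulk data in node form** -/
structure Bd (S : Sc) (M : Md) (m : ℕ) (a T : ℝ) (Gn : ℕ → Prop) (u v : ℕ)
    (en on c al om Ga : ℕ → ℝ) (l0 ka th ε : ℝ) : Prop where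
  A : At S M m a T
  up : ∀ k, S.jl + 1 ≤ k → k < S.J → M.H (k + 1) - M.H k ≤ S.C * S.F * S.ms (M.s k) * S.v
  sub : ∀ t t', 0 ≤ t → t ≤ t' → S.ms t' ≤ S.ms t + t' ^ 2
  θ1 : S.θ ≤ 1
  hu : S.jl < u
  uv : u < v
  vJ : v < S.J
  gu : Gn u
  gv : Gn v
  hJ : sb M m a (v + 1) < M.s S.J
  lo : 2 * M.s (S.jl + 1) ≤ M.s u
  me : 8 * S.C ^ 2 * S.v ≤ M.s u
  ε0 : 0 ≤ ε
  ε1 : ε ≤ 1
  th0 : 0 ≤ th
  th1 : 1536 * S.C ^ 7 * S.F ^ 2 * th ≤ ε
  l00 : 0 ≤ l0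
  l01 : l0 ≤ ε * mn M S u
  ka0 : 0 ≤ ka
  ka1 : ka ≤ 1
  c0 : ∀ y, 0 ≤ c y
  c1 : ∀ y, u < y → y ≤ v → c y ≤ ε * mn M S y
  e1 : ∀ i k, u ≤ i → i ≤ k → k ≤ v → Gn i → Gn k → |res M S m a T k - res M S m a T i| ≤
    en i + on i * |L0.Gd (lb M S m a T) (sb M m a (i + 1))| +
      (en k + on k * |L0.Gd (lb M S m a T) (sb M m a (k + 1))|) +
      (l0 * (sb M m a (k + 1) - sb M m a (i + 1)) +
        ka * (∫ r in sb M m a (i + 1)..sb M m a (k + 1), gB M m a Gn u v r ^ 2) +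
        (Om M c u v (M.z k) - Om M c u v (M.z i)))
  gap : ∀ i k, Nx Gn u v i k →
    M.z k ≤ M.z i + (S.C * S.v + th * (sb M m a (k + 1) - sb M m a (i + 1))) ∧
    0 ≤ en i ∧ 0 ≤ en k ∧ 0 ≤ on i ∧ ∀ y, i ≤ y → y ≤ k →
      sb M m a (k + 1) - sb M m a (i + 1) ≤ Ga y ∧ en i + en k ≤ al y ∧ on i ≤ om y ∧ on k ≤ om y
  nd : ∀ y, u ≤ y → y ≤ v → om y ≤ ε * mn M S y ∧ om y * jn M S y ≤ al y ∧
    384 * S.C ^ 5 * S.F * Ga y ^ 2 ≤ ε ^ 2 * mn M S y

namespace At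
variable {S : Sc} {M : Md} {m : ℕ} {a T : ℝ}

theorem cell_in (A : At S M m a T) {i k : ℕ} {t : ℝ} (hk : S.jl ≤ k) (kJ : k < S.Jp) (ik : i ≤ k)
    (h1 : sb M m a (i + 1) ≤ t) (h2 : t ≤ sb M m a (k + 1)) :
    ∃ y, i ≤ y ∧ y ≤ k ∧ Cell (sb M m a) (S.Jp + 1) (y + 1) t := by
  obtain ⟨y, p, q, c⟩ := A.exists_cell (u := i) (v := k + 1) kJ h1 (h2.trans_lt (A.sb_lt hk kJ))
  exact ⟨y, p, by omega, c⟩

theorem mn_le (A : At S M m a T) {y : ℕ} {t : ℝ} (c : Cell (sb M m a) (S.Jp + 1) (y + 1) t) :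
    mn M S y ≤ mm M S m a t :=
  div_le_div_of_nonneg_right (A.cl.msm (A.lev_cell c ▸ le_max_right _ _)) A.K_pos.le

theorem mn_mono (A : At S M m a T) : Monotone (mn M S) := fun _ _ h =>
  div_le_div_of_nonneg_right (A.cl.msm (A.cl.sm h)) A.K_pos.le

theorem mn_pos (A : At S M m a T) (y : ℕ) : 0 < mn M S y := div_pos (A.ms_pos (s_nn A.cl y)) A.K_pos

theorem nb_cell (A : At S M m a T) (w : ℕ → ℝ) {y : ℕ} {t : ℝ}
    (c : Cell (sb M m a) (S.Jp + 1) (y + 1) t) : nb M S m a w t = w y := c.stp A.ub _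

theorem zh_le' (A : At S M m a T) {t : ℝ} (h0 : 0 ≤ t) (h1 : t < M.s S.J) :
    lvr 1 (lh M T) t ≤ S.C * t + 2 * (S.C * S.v) := by
  have := (A.sl h1 0 t le_rfl h0 le_rfl).2
  rw [A.lvh' le_rfl] at this
  linarith [A.cl.lv0]

/-- distance of the time from the reference time of its label -/
theorem dist_le (A : At S M m a T) {y : ℕ} {t : ℝ} (c : Cell (sb M m a) (S.Jp + 1) (y + 1) t)
    (h0 : S.j0 ≤ y) (hy : y < S.J) (t0 : 0 ≤ t) (ht : t < M.s S.J) :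
    |t - M.s y| ≤ S.C * (|uu M S m a T t| + S.C * S.v) := by
  have C0 := A.c_pos
  have sy : M.s y < M.s S.J := (s_lt A.cl hy).trans_le (A.cl.sm hy)
  have e : uu M S m a T t = lvr 1 (lh M T) (M.s y) - lvr 1 (lh M T) t := by
    rw [uu, A.lvb_cell c, A.lvh_node h0 hy]
  rcases le_total t (M.s y) with h | h
  · have := (A.sl sy t _ t0 h le_rfl).1
    rw [one_div_mul_eq_div, sub_le_iff_le_add, div_le_iff₀ C0, ← e] at this
    rw [abs_of_nonpos (by linarith)]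
    nlinarith [le_abs_self (uu M S m a T t)]
  · have := (A.sl ht _ t (s_nn A.cl y) h le_rfl).1
    rw [one_div_mul_eq_div, sub_le_iff_le_add, div_le_iff₀ C0] at this
    rw [abs_of_nonneg (by linarith)]
    nlinarith [mul_le_mul_of_nonneg_right (neg_abs_le (uu M S m a T t)) C0.le]

/-- `Γ''` of the reference near the time `t` -/
theorem gd_near (A : At S M m a T) {y : ℕ} {t s g : ℝ} (c : Cell (sb M m a) (S.Jp + 1) (y + 1) t)
    (h0 : S.j0 ≤ y) (hy : y < S.J) (t0 : 0 ≤ t) (ht : t < M.s S.J) (s0 : 0 ≤ s) (hs : s < M.s S.J)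
    (hg : |s - t| ≤ g) (me : 8 * S.C ^ 2 * S.v ≤ M.s y) : |L0.Gd (lh M T) s| ≤
      13 * S.C * jn M S y + 12 * S.C * g + 12 * S.C ^ 2 * |uu M S m a T t| + 16 * S.C ^ 3 * S.v := by
  have C0 := A.c_pos
  have C1 := A.cl.C1
  have v0 := v_pos A.cl
  have c2 : 1 ≤ S.C ^ 2 := one_le_pow₀ C1
  have sp : 0 < M.s y := lt_of_lt_of_le (by positivity) me
  have m0 := A.ms_pos sp.le
  have j0 : 0 ≤ jn M S y := le_min (by positivity) sp.le
  have g0 := (abs_nonneg _).trans hg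
  have sT : s ∈ Icc 0 (TT (lh M T)) :=
    ⟨s0, by rw [A.okh.2]; exact (hs.le.trans (A.cl.sm A.cl.i3)).trans A.t2⟩
  have par : |L0.Gd (lh M T) s| ≤ 6 * S.C * s + 4 * (S.C * S.v) := by
    have p1 := L0.Gd_le (ap_of_ok A.okh.1) sT
    have p2 := A.zh_le' s0 hs
    have p3 := Pp.Ode3.Am_le_one A.okh.1.1 s
    have p4 : 0 ≤ Pp.Ode3.Nm (lh M T) s := Pp.Ode3.Nm_nonneg _ s
    have p5 := Sc48.lvr_pos A.okh.1.1 s
    refine abs_le.2 ⟨?_, by nlinarith [mul_pos C0 v0]⟩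
    unfold L0.Gd
    nlinarith [mul_le_mul_of_nonneg_left p3 p5.le]
  have cv : S.C * S.v ≤ S.C ^ 3 * S.v := by nlinarith [mul_pos C0 v0]
  have q0 : 0 ≤ 12 * S.C * g + 12 * S.C ^ 2 * |uu M S m a T t| + 16 * S.C ^ 3 * S.v := by positivity
  by_cases h : M.s y ≤ 2 * s ∧ s ≤ 2 * M.s y
  · have : |L0.Gd (lh M T) s| ≤ 13 * S.C * jn M S y := by
      rw [jn, mul_min_of_nonneg _ _ (by positivity)]
      refine le_min ((A.gd_h s0 hs).trans ?_) (by nlinarith)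
      have a1 := (A.cl.msm h.2).trans (A.cl.ms2 _ sp.le)
      have a2 : S.ms s / max s (M.s S.j0) ≤ 4 * S.ms (M.s y) / (M.s y / 2) :=
        div_le_div₀ (by positivity) a1 (by positivity) (le_max_of_le_left (by linarith))
      have a3 : 4 * S.ms (M.s y) / (M.s y / 2) = 8 * (S.ms (M.s y) / M.s y) := by field_simp; ring
      nlinarith [mul_le_mul_of_nonneg_left a2 C0.le, div_pos m0 sp]
    linarith
  · have d := A.dist_le c h0 hy t0 ht
    have a1 : s ≤ 2 * |s - M.s y| := by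
      rcases not_and_or.1 h with h | h
      · linarith [neg_abs_le (s - M.s y), not_le.1 h]
      · linarith [le_abs_self (s - M.s y), not_le.1 h]
    have a2 := abs_sub_le s t (M.s y)
    nlinarith [mul_le_mul_of_nonneg_left (a1.trans (mul_le_mul_of_nonneg_left
      (a2.trans (add_le_add hg d)) zero_le_two)) C0.le, mul_nonneg C0.le j0]

/-- floor of the mark term below `s (jl + 1)` -/
theorem fl_low (A : At S M m a T) {k : ℕ} {t : ℝ} (h2 : k < S.J)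
    (c : Cell (sb M m a) (S.Jp + 1) (k + 1) t) (t0 : 0 ≤ t) (ht : t < M.s (S.jl + 1))
    (lo : 2 * M.s (S.jl + 1) ≤ M.s k) (me : 8 * S.C ^ 2 * S.v ≤ M.s k) :
    mm M S m a t * uu M S m a T t ^ 2 - S.C * S.ms (M.s (S.jl + 1)) * M.s (S.jl + 1) *
      |uu M S m a T t| ≤ yN (lh M T) M.b (sb M m a) (hb M) (S.Jp + 1) t * uu M S m a T t := by
  have C0 := A.c_pos
  have C1 := A.cl.C1
  have v0 := v_pos A.cl
  have F0 : 0 < S.F := by linarith [A.cl.F1]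
  have i2 := A.cl.i2
  have sk : M.s k < M.s S.J := (s_lt A.cl h2).trans_le (A.cl.sm h2)
  have jk : S.jl + 1 ≤ k := le_of_not_gt fun h => by linarith [A.cl.sm h.le]
  have j0 : S.j0 ≤ k := by have := A.cl.i1; omega
  have el : lev M S m a t = M.s k := by rw [A.lev_cell c, max_eq_right (by linarith)]
  obtain ⟨j, p1, p2, p3, p4⟩ := A.exists_ref (i := S.jl + 1) (j := k) (t := M.s k / 2)
    (by linarith) (by linarith)
  have cv : S.C * S.v ≤ S.C ^ 2 * S.v := by nlinarith [mul_pos C0 v0]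
  have q := (A.cl.ss j (by omega)).2
  have k0 := s_nn A.cl k
  have d1 := A.cl.ms2 (M.s k / 2) (by linarith)
  have d2 := A.cl.ms2 (M.s k / 4) (by linarith)
  rw [show 2 * (M.s k / 2) = M.s k by ring] at d1
  rw [show 2 * (M.s k / 4) = M.s k / 2 by ring] at d2
  have d3 : S.ms (M.s k) ≤ 16 * S.ms (M.s j) := by
    linarith [A.cl.msm (show M.s k / 4 ≤ M.s j by linarith)]
  have jj : S.j0 ≤ j := by have := A.cl.i1; omega
  have f := A.h_fl (u := j) (by omega) le_rfl p2.le h2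
  have l1 := (A.sl sk _ _ (s_nn A.cl j) (A.cl.sm p2.le) le_rfl).1
  have l2 := A.zh_le' k0 sk
  rw [A.lvh_node j0 h2, A.lvh_node jj (by omega)] at l1
  rw [A.lvh_node j0 h2] at l2
  have l4 : M.s k ≤ (M.z k - M.z j) * (4 * S.C) := by
    rw [one_div_mul_eq_div, sub_le_iff_le_add, div_le_iff₀ C0] at l1
    nlinarith
  have l6 : M.z k ≤ 24 * S.C ^ 2 * (M.z k - M.z j) := by nlinarith
  have mk := A.ms_pos k0
  set ν := S.ms (M.s k) / (384 * S.C ^ 4 * S.F) with hν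
  have e : ν * (24 * S.C ^ 2 * (M.z k - M.z j)) =
      S.ms (M.s k) / 16 / (S.C ^ 2 * S.F) * (M.z k - M.z j) := by rw [hν]; field_simp; ring
  have ν0 : 0 ≤ ν := by positivity
  have g1 := mul_le_mul_of_nonneg_left l6 ν0
  have g2 := mul_le_mul_of_nonneg_right (div_le_div_of_nonneg_right
    (show S.ms (M.s k) / 16 ≤ S.ms (M.s j) by linarith) (show 0 ≤ S.C ^ 2 * S.F by positivity))
    (sub_nonneg.2 (A.cl.leg.zm p2.le))
  have Hj : 0 ≤ M.H j := A.cl.leg.H0 ▸ A.cl.leg.Hm (Nat.zero_le j)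
  have tJ : M.s (S.jl + 1) ≤ M.s S.Jp := A.cl.sm (by have := A.cl.i3; omega)
  have m2 := (A.Mf_sl le_rfl tJ 0 t le_rfl t0 ht.le).2
  have m0 : Rig.Mf M.b (lh M T) 0 = 0 := by
    show 0 - M.b * Pr.Gam (lh M T) 0 = 0
    rw [show Pr.Gam (lh M T) 0 = 0 from Pp.Ode3.Gam_zero (ap_of_ok A.okh.1)]; ring
  have ms0 := A.ms_pos (s_nn A.cl (S.jl + 1))
  have m3 := mul_le_mul_of_nonneg_left ht.le (mul_pos C0 ms0).le
  have z1 := Sc48.lvr_pos A.okh.1.1 t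
  have z2 := Sc48.lvr_mono A.okh.1.1 (show t ≤ M.s k by linarith)
  rw [A.lvh_node j0 h2] at z2
  have eu : uu M S m a T t = M.z k - lvr 1 (lh M T) t := by rw [uu, A.lvb_cell c]
  have u0 : 0 ≤ uu M S m a T t := by linarith
  obtain ⟨b1, b2⟩ := A.b_mem
  have w3 : mm M S m a t * M.b ≤ ν := (mul_le_mul_of_nonneg_left b2 (A.mm_pos t0).le).trans_eq
    (by rw [hν, mm, el]; field_simp)
  change _ ≤ (hm M S m a t - Rig.Mf M.b (lh M T) t) / M.b * uu M S m a T t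
  rw [A.hm_cell c, abs_of_nonneg u0, div_mul_eq_mul_div _ M.b, le_div_iff₀ (by linarith)]
  set ζ := S.C * S.ms (M.s (S.jl + 1)) * M.s (S.jl + 1)
  have ζ0 : 0 ≤ ζ := mul_nonneg (mul_pos C0 ms0).le (s_nn A.cl _)
  have y1 : ν * uu M S m a T t - ζ ≤ M.H k - Rig.Mf M.b (lh M T) t := by
    nlinarith [mul_le_mul_of_nonneg_left (show uu M S m a T t ≤ M.z k by linarith) ν0]
  nlinarith [mul_le_mul_of_nonneg_right w3 (sq_nonneg (uu M S m a T t)),
    mul_le_mul_of_nonneg_left b1 (mul_nonneg ζ0 u0), mul_le_mul_of_nonneg_right y1 u0]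

end At

end Crest.Agent.T156.Alt.Mp9

end
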