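import Crest.Agent.T156.ClE1b_61

/-!
# Row 156 (helper61): real tools for the sizes (layer cake in closed form, dyadic sums)
-/

set_option autoImplicit false

noncomputable section

namespace Crest.Agent.T156.Alt.E61

open Real Finset

theorem two_pow_sum (j : ℕ) : ∑ i ∈ range (j + 1), (2 : ℝ) ^ i ≤ 2 * 2 ^ j := by
  induction j with
  | zero => norm_num
  | succ j ih => rw [sum_range_succ, pow_succ]; linarith

/-- **layer cake, closed forms**: slopes `8 ^ i κ`, sizes `4 ^ i α` -/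
theorem cake3 {ι : Type} (s : Finset ι) {w u : ι → ℝ} {e : ℕ → ι → ℝ} {lam α D X Y : ℝ}
    (hw : ∀ k ∈ s, 0 ≤ w k) (h0 : ∀ k ∈ s, 0 ≤ u k) (l0 : 0 < lam) (hα : 0 < α) (Y0 : 0 ≤ Y)
    (hX : ∑ k ∈ s, w k ≤ X) (hu : ∀ k ∈ s, ∀ i : ℕ, u k ≤ lam * (4 ^ i * α + e i k))
    (hD : ∀ k ∈ s, u k ≤ lam * (α + D)) (hB : ∀ i : ℕ, ∑ k ∈ s, w k * e i k ^ 2 ≤ Y / 8 ^ i) :
    ∑ k ∈ s, w k * u k ^ 2 ≤ lam ^ 2 * (4 * (X * α ^ 2) + 128 * Y) ∧
    ∑ k ∈ s, w k * u k ^ 3 ≤ lam ^ 3 * (8 * (X * α ^ 3) + 1024 * (α * Y)) ∧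
    ∑ k ∈ s, w k * u k ^ 4 ≤ lam ^ 4 * (16 * (X * α ^ 4) + 8192 * (α * √(α * D) * Y)) := by
  have ex : ∃ I : ℕ, α + D ≤ 2 * (4 ^ I * α) := by
    obtain ⟨I, hI⟩ := pow_unbounded_of_one_lt ((α + D) / (2 * α)) (by norm_num : (1 : ℝ) < 4)
    rw [div_lt_iff₀ (by positivity)] at hI
    exact ⟨I, by linarith⟩
  have a1 := Nat.find_spec ex
  have a2 := fun i (hi : i < Nat.find ex) => not_le.1 (Nat.find_min ex hi)
  generalize Nat.find ex = I at a1 a2
  have K := cake s (w := w) (u := u) (α := fun i => lam * (4 ^ i * α))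
    (B := fun i => lam ^ 2 * (Y / 8 ^ i)) (e := fun i k => lam * e i k) (I := I) hw h0
    (fun i => by positivity) hX (fun k hk i _ => by rw [← mul_add]; exact hu k hk i)
    (fun k hk => (hD k hk).trans (by nlinarith)) (fun i _ => by
      refine le_trans (le_of_eq ?_) (mul_le_mul_of_nonneg_left (hB i) (sq_nonneg lam))
      rw [mul_sum]; exact sum_congr rfl fun _ _ => by ring)
  have g := sum_geometric_two_le I
  have e8 : ∀ i : ℕ, (8 : ℝ) ^ i = 2 ^ i * 2 ^ i * 2 ^ i := fun i => by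
    rw [← mul_pow, ← mul_pow]; norm_num
  have e4 : ∀ i : ℕ, (4 : ℝ) ^ i = 2 ^ i * 2 ^ i := fun i => by rw [← mul_pow]; norm_num
  refine ⟨(K 2).trans ?_, (K 3).trans ?_, (K 4).trans ?_⟩
  · have : ∑ i ∈ range I, (2 * (lam * (4 ^ (i + 1) * α))) ^ 2 / (lam * (4 ^ i * α)) ^ 2 *
        (lam ^ 2 * (Y / 8 ^ i)) ≤ ∑ i ∈ range I, 64 * (lam ^ 2 * Y) * (1 / 2) ^ i :=
      sum_le_sum fun i _ => by
        have p : (1 : ℝ) ≤ 2 ^ i := one_le_pow₀ one_le_two
        have q : (2 * (lam * (4 ^ (i + 1) * α))) ^ 2 / (lam * (4 ^ i * α)) ^ 2 *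
            (lam ^ 2 * (Y / 8 ^ i)) = 64 * (lam ^ 2 * Y) * (1 / 2) ^ i / (2 ^ i * 2 ^ i) := by
          rw [pow_succ (4 : ℝ) i, e8, one_div, inv_pow]; field_simp; ring
        rw [q]
        exact div_le_self (by positivity) (by nlinarith)
    rw [← mul_sum] at this
    have := mul_le_mul_of_nonneg_left g (show 0 ≤ 64 * (lam ^ 2 * Y) by positivity)
    simp only [pow_zero, one_mul]
    nlinarith
  · have : ∑ i ∈ range I, (2 * (lam * (4 ^ (i + 1) * α))) ^ 3 / (lam * (4 ^ i * α)) ^ 2 *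
        (lam ^ 2 * (Y / 8 ^ i)) = ∑ i ∈ range I, 512 * (lam ^ 3 * (α * Y)) * (1 / 2) ^ i :=
      sum_congr rfl fun i _ => by
        rw [pow_succ (4 : ℝ) i, e8, e4, one_div, inv_pow]; field_simp; ring
    rw [this, ← mul_sum]
    have := mul_le_mul_of_nonneg_left g (show 0 ≤ 512 * (lam ^ 3 * (α * Y)) by positivity)
    simp only [pow_zero, one_mul]
    nlinarith
  · have : ∑ i ∈ range I, (2 * (lam * (4 ^ (i + 1) * α))) ^ 4 / (lam * (4 ^ i * α)) ^ 2 *
        (lam ^ 2 * (Y / 8 ^ i)) = ∑ i ∈ range I, 4096 * (lam ^ 4 * (α * Y)) * (α * 2 ^ i) :=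
      sum_congr rfl fun i _ => by
        rw [pow_succ (4 : ℝ) i, e8, e4]; field_simp; ring
    rw [this, ← mul_sum, ← mul_sum]
    have b : α * ∑ i ∈ range I, (2 : ℝ) ^ i ≤ 2 * √(α * D) := by
      rcases I with _ | j
      · simp
      · have c1 := a2 j (Nat.lt_succ_self j)
        have c2 : α ≤ 4 ^ j * α := le_mul_of_one_le_left hα.le (one_le_pow₀ (by norm_num))
        have c3 : α * 2 ^ j ≤ √(α * D) := le_sqrt_of_sq_le (by rw [e4] at c1 c2; nlinarith)
        nlinarith [mul_le_mul_of_nonneg_left (two_pow_sum j) hα.le]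
    have := mul_le_mul_of_nonneg_left b (show 0 ≤ 4096 * (lam ^ 4 * (α * Y)) by positivity)
    simp only [pow_zero, one_mul]
    nlinarith

/-- the choice of the first slope -/
theorem opt2 {A B r s : ℝ} (hA : 0 < A) (hB : 0 ≤ B) (i j : ℕ) (h : 0 < i + j)
    (hr : r = j / (i + j)) (hs : s = i / (i + j)) :
    ∃ y : ℝ, 1 ≤ y ∧ A * y ^ i + B / y ^ j ≤ 2 * (A + A ^ r * B ^ s) := by
  have p1 : (0 : ℝ) < i + j := by exact_mod_cast h
  set y := (B / A) ^ ((1 : ℝ) / (i + j)) with hy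
  have y0 : 0 ≤ y := by positivity
  have e1 : y ^ (i + j) = B / A := by
    rw [hy, ← rpow_natCast, ← rpow_mul (by positivity)]
    push_cast
    rw [one_div, inv_mul_cancel₀ p1.ne', rpow_one]
  have e2 : A * y ^ i = A ^ r * B ^ s := by
    rw [hy, ← rpow_natCast, ← rpow_mul (by positivity), div_rpow hB hA.le,
      show (1 : ℝ) / (i + j) * i = s by rw [hs]; ring,
      show r = 1 - s by rw [hr, hs]; field_simp; ring, rpow_sub hA, rpow_one]
    ring
  have e3 : B = A * y ^ (i + j) := by rw [e1]; field_simp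
  have n2 : 0 ≤ A * y ^ i := by positivity
  rw [← e2]
  rcases le_total 1 y with c | c
  · refine ⟨y, c, ?_⟩
    have : B / y ^ j = A * y ^ i := by
      rw [div_eq_iff (by positivity), mul_assoc, ← pow_add]; exact e3
    linarith
  · refine ⟨1, le_rfl, ?_⟩
    have : B ≤ A := by
      rw [e3]; exact mul_le_of_le_one_right hA.le (pow_le_one₀ y0 c)
    simp only [one_pow, mul_one, div_one]
    linarith

/-- **dyadic sums** -/
theorem dyad (U : Finset ℕ) {f : ℕ → ℝ} {p0 N : ℕ} {B : ℝ} (p1 : 1 ≤ p0)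
    (hU : ∀ k ∈ U, p0 ≤ k ∧ k ≤ N)
    (hB : ∀ p, p0 ≤ p → ∑ k ∈ U.filter fun k => p ≤ k ∧ k < 2 * p, f k ≤ B) :
    ∑ k ∈ U, f k ≤ ((Nat.log 2 N : ℝ) + 1) * B := by
  have key : ∀ i : ℕ, ∑ k ∈ U.filter fun k => k < 2 ^ i * p0, f k ≤ i * B := fun i => by
    induction i with
    | zero =>
      rw [filter_false_of_mem fun k hk => by have := (hU k hk).1; omega]; simp
    | succ i ih =>
      have q : p0 ≤ 2 ^ i * p0 := Nat.le_mul_of_pos_left _ (by positivity)
      have h := hB _ q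
      rw [← sum_filter_add_sum_filter_not _ fun k => k < 2 ^ i * p0, filter_filter, filter_filter]
      have e : 2 ^ (i + 1) * p0 = 2 * (2 ^ i * p0) := by ring
      rw [e]
      generalize 2 ^ i * p0 = p at *
      rw [filter_congr (q := fun k => k < p) fun k _ => by omega,
        filter_congr (p := fun k => k < 2 * p ∧ ¬k < p) (q := fun k => p ≤ k ∧ k < 2 * p)
          fun k _ => by omega]
      push_cast
      linarith
  have := key (Nat.log 2 N + 1)
  rw [filter_true_of_mem fun k hk => by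
    have a := Nat.lt_pow_succ_log_self (by norm_num : 1 < 2) N
    have b : 2 ^ (Nat.log 2 N + 1) ≤ 2 ^ (Nat.log 2 N + 1) * p0 := Nat.le_mul_of_pos_right _ p1
    have := (hU k hk).2
    omega] at this
  push_cast at this
  exact this

end Crest.Agent.T156.Alt.E61

end
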