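import Crest.Agent.T156.TL0A_9
import Crest.Agent.T156.SzE_9
import Crest.Agent.T156.LDef_69

/-!
Row 156, block (L) (helper9): calculus of the crude location, numerics for (L0).
-/

set_option autoImplicit false

noncomputable section

namespace Crest.Agent.T156.Alt.Sz9

open Real Finset
open Crest.Agent.T156.Alt.E61 Crest.Agent.T156.Alt.Mp9 Crest.Agent.T156.Alt.L69
open Crest.Agent.T156.Alt.Md67 (Lg dz_succ)

variable {S : Sc} {M : Md} {m : ℕ} {a T : ℝ}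

/-- the crude location -/
def cc (S : Sc) (t : ℝ) : ℝ := cr S t * t

theorem cr1 (S : Sc) (t : ℝ) : 1 ≤ cr S t := le_max_left _ _

theorem cube_rp {y : ℝ} (h : 0 ≤ y) : (y ^ ((1 : ℝ) / 3)) ^ 3 = y := by
  rw [← rpow_natCast, ← rpow_mul h]; norm_num

theorem cr_cube (h : Cl S M) {t : ℝ} (ht : 0 < t) : cr S t ^ 3 = max 1 (S.F * S.ms t / t ^ 2) := by
  have y0 : 0 ≤ S.F * S.ms t / t ^ 2 := by
    have := h.F1; have := h.ms_pos ht.le; positivity
  unfold cr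
  rcases le_total (S.F * S.ms t / t ^ 2) 1 with c | c
  · rw [max_eq_left c, max_eq_left (rpow_le_one y0 c (by norm_num)), one_pow]
  · rw [max_eq_right c, max_eq_right (one_le_rpow c (by norm_num)), cube_rp y0]

theorem cc_ge (S : Sc) {t : ℝ} (ht : 0 ≤ t) : t ≤ cc S t := le_mul_of_one_le_left ht (cr1 S t)

theorem cc_cube (h : Cl S M) {t : ℝ} (ht : 0 < t) : cc S t ^ 3 = max (t ^ 3) (S.F * S.ms t * t) := by
  rw [cc, mul_pow, cr_cube h ht, max_mul_of_nonneg _ _ (by positivity), one_mul]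
  congr 1; field_simp

theorem cc_mono (h : Cl S M) {t t' : ℝ} (ht : 0 < t) (htt : t ≤ t') : cc S t ≤ cc S t' := by
  have t0 := ht.trans_le htt
  refine le_of_pow_le_pow_left₀ three_ne_zero (t0.le.trans (cc_ge S t0.le)) ?_
  rw [cc_cube h ht, cc_cube h t0]
  have := h.F1; have := h.ms_pos ht.le; have := h.msm htt
  have F0 : 0 ≤ S.F := by linarith
  exact max_le_max (by gcongr) (mul_le_mul (mul_le_mul_of_nonneg_left (h.msm htt) F0) htt ht.le
    (mul_nonneg F0 (h.ms_pos t0.le).le))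

theorem cr_dbl (h : Cl S M) {t t' : ℝ} (ht : 0 < t) (htt : t ≤ t') : cr S t' ≤ 2 * cr S t := by
  have t0 := ht.trans_le htt
  refine le_of_pow_le_pow_left₀ three_ne_zero (by linarith [cr1 S t]) ?_
  rw [mul_pow, cr_cube h ht, cr_cube h t0]
  have p := h.ms_mul ht.le (k := t' / t) ((one_le_div ht).2 htt)
  rw [div_mul_cancel₀ _ ht.ne'] at p
  have F0 : 0 ≤ S.F := zero_le_one.trans h.F1
  have q : S.F * S.ms t' / t' ^ 2 ≤ 4 * (S.F * S.ms t / t ^ 2) := by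
    refine (div_le_div_of_nonneg_right (mul_le_mul_of_nonneg_left p F0) (sq_nonneg _)).trans_eq ?_
    field_simp
  have r1 := le_max_left 1 (S.F * S.ms t / t ^ 2)
  have r2 := le_max_right 1 (S.F * S.ms t / t ^ 2)
  exact max_le (by linarith) (by linarith)

theorem cc_mul (h : Cl S M) {t t' K : ℝ} (ht : 0 < t) (h1 : t ≤ t') (h2 : t' ≤ K * t) :
    cc S t' ≤ 2 * K * cc S t := by
  have := mul_le_mul (cr_dbl h ht h1) h2 (ht.le.trans h1) (by linarith [cr1 S t])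
  unfold cc; linarith

/-- weighted geometric means scale -/
theorem geo9 {x y x' y' k s r : ℝ} (x0 : 0 ≤ x) (y0 : 0 ≤ y) (x1 : 0 ≤ x') (y1 : 0 ≤ y') (k0 : 0 < k)
    (s0 : 0 ≤ s) (r0 : 0 ≤ r) (e : s + r = 1) (hx : x ≤ k * x') (hy : y ≤ k * y') :
    x ^ s * y ^ r ≤ k * (x' ^ s * y' ^ r) := by
  refine (mul_le_mul (rpow_le_rpow x0 hx s0) (rpow_le_rpow y0 hy r0) (by positivity)
    (by positivity)).trans_eq ?_
  rw [mul_rpow k0.le x1, mul_rpow k0.le y1, mul_mul_mul_comm, ← rpow_add k0, e, rpow_one]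

theorem min_sc {x y x' y' k : ℝ} (k0 : 0 ≤ k) (hx : x ≤ k * x') (hy : y ≤ k * y') :
    min x y ≤ k * min x' y' := by
  rw [mul_min_of_nonneg _ _ k0]; exact min_le_min hx hy

/-- the numbers of the bulk sums for the crude location `Λ₀ cc` -/
theorem sn_of (h : Cl S M) {E E' l0 l V X Lg X2 X3 G0 Λ τ : ℝ} {η : ℝ → ℝ}
    (N : LN E S M l0 l V X Lg X2 X3 G0 η) (hE : E' ≤ E) (Λ1 : 1 ≤ Λ) (τ0 : 0 < τ) (hτ : l ≤ τ)
    (hX : M.En S m a M.q 2 0 S.C ≤ X) : SN' E' S M m a τ X (Λ ^ 3 * X2) (Λ ^ 5 * X3)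
      (fun t => Λ * cc S t) fun t => Λ ^ 4 * η t := by
  have Λ0 : 0 < Λ := by linarith
  have X0 := N.X0
  have key : ∀ t, τ ≤ t → 0 < t ∧ 0 ≤ Λ * cc S t ∧ 0 ≤ cl S V t ∧ Λ * cc S t ≤ Λ * cl S V t ∧
      0 ≤ wc S (fun t => Λ * cc S t) t ∧ 0 ≤ ws S V t ∧
      wc S (fun t => Λ * cc S t) t ≤ Λ * ws S V t ∧
      min X ((Λ * cc S t) ^ 3) ≤ Λ ^ 3 * min X (cl S V t ^ 3) := fun t ht => by
    have t0 := τ0.trans_le ht
    have c0 := t0.le.trans (cc_ge S t0.le)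
    have c1 : cc S t ≤ cl S V t := le_add_of_nonneg_right N.V0
    have c2 := c0.trans c1
    have w0 : 0 ≤ S.w3 t ^ ((1 : ℝ) / 3) := rpow_nonneg (by
      have := h.F1; have := h.ms_pos t0.le; unfold Sc.w3; positivity) _
    refine ⟨t0, by positivity, c2, by gcongr, by unfold wc; positivity, by unfold ws; positivity,
      ?_, min_sc (by positivity) (le_mul_of_one_le_left X0.le (one_le_pow₀ Λ1))
        (by rw [← mul_pow]; gcongr)⟩
    unfold wc ws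
    rw [← mul_assoc, ← mul_div_assoc]
    gcongr
    exact mul_le_mul_of_nonneg_left c1 Λ0.le
  have pw : ∀ {x y : ℝ} (t : ℝ) (i j : ℕ), 0 < t → 0 ≤ x → 0 ≤ y → i ≤ j → x ≤ Λ * y →
      t * x ^ i ≤ Λ ^ j * (t * y ^ i) := fun {x y} t i j t0 x0 y0 ij h => by
    calc _ ≤ t * (Λ * y) ^ i := by gcongr
      _ = Λ ^ i * (t * y ^ i) := by rw [mul_pow]; ring
      _ ≤ _ := mul_le_mul_of_nonneg_right (pow_le_pow_right₀ Λ1 ij) (by positivity)
  have ck : ∀ t, τ ≤ t → t * wc S (fun t => Λ * cc S t) t ^ 3 +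
      (t * wc S (fun t => Λ * cc S t) t ^ 3) ^ ((1 : ℝ) / 7) *
        (wc S (fun t => Λ * cc S t) t * min X ((Λ * cc S t) ^ 3)) ^ ((6 : ℝ) / 7) ≤
      Λ ^ 4 * (t * ws S V t ^ 3 + (t * ws S V t ^ 3) ^ ((1 : ℝ) / 7) *
        (ws S V t * min X (cl S V t ^ 3)) ^ ((6 : ℝ) / 7)) := fun t ht => by
    obtain ⟨t0, a1, a2, -, a4, a5, a6, a7⟩ := key t ht
    have b1 := pw t 3 4 t0 a4 a5 (by norm_num) a6
    have m1 : 0 ≤ min X ((Λ * cc S t) ^ 3) := le_min X0.le (by positivity)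
    have m2 : 0 ≤ min X (cl S V t ^ 3) := le_min X0.le (by positivity)
    rw [mul_add]
    exact add_le_add b1 (geo9 (by positivity) (by positivity) (by positivity) (by positivity)
      (by positivity) (by norm_num) (by norm_num) (by norm_num) b1
      ((mul_le_mul a6 a7 m1 (by positivity)).trans_eq (by ring)))
  refine ⟨hX, X0, (mul_le_mul_of_nonneg_right hE X0.le).trans N.X1, fun t h1 h2 => ?_,
    fun t h1 h2 => ?_, fun t t' h1 h2 h3 => (ck t' (h1.trans h2)).trans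
      (mul_le_mul_of_nonneg_left (N.ηc t t' (hτ.trans h1) h2 h3) (by positivity))⟩
  · obtain ⟨t0, a1, a2, a3, a4, a5, a6, a7⟩ := key t h1
    have b1 := pw t 2 3 t0 a4 a5 (by norm_num) a6
    refine (min_sc (by positivity) (pw t 2 3 t0 a1 a2 (by norm_num) a3) ?_).trans
      (mul_le_mul_of_nonneg_left (N.x2b t (N.l0l.trans (hτ.trans h1)) h2) (by positivity))
    rw [mul_add]
    exact add_le_add b1 (geo9 (by positivity) (le_min X0.le (by positivity)) (by positivity)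
      (le_min X0.le (by positivity)) (by positivity) (by norm_num) (by norm_num) (by norm_num) b1 a7)
  · obtain ⟨t0, a1, a2, a3, a4, a5, a6, a7⟩ := key t h1
    have b1 := min_sc (by positivity) (pw t 3 4 t0 a1 a2 (by norm_num) a3) (ck t h1)
    have b2 : min 1 (Λ * cc S t) ≤ Λ * min 1 (cl S V t) := min_sc Λ0.le (by linarith) a3
    have m1 : 0 ≤ min X ((Λ * cc S t) ^ 3) := le_min X0.le (by positivity)
    refine (mul_le_mul b2 b1 (le_min (by positivity) (by positivity))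
      (mul_nonneg Λ0.le (le_min zero_le_one a2))).trans ?_
    have := mul_le_mul_of_nonneg_left (N.x3b t (N.l0l.trans (hτ.trans h1)) h2)
      (by positivity : 0 ≤ Λ ^ 5)
    exact (le_of_eq (by ring)).trans this

/-- consequences of the thickness conditions at one level -/
theorem nums {D τ c μ U x g G0 F η : ℝ} (D2 : 16 ≤ D) (τ0 : 0 < τ) (τc : τ ≤ c) (μ0 : 0 < μ)
    (F1 : 1 ≤ F) (FD : F ^ 2 ≤ D) (μ1 : F * μ ≤ 1) (τD : D ^ 4 * τ ≤ 2)
    (hc : c ^ 3 = max (τ ^ 3) (F ^ 2 * μ * τ)) (hX : D ^ 12 * τ ^ 4 ≤ 16 * μ) (U0 : 0 ≤ U)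
    (x0 : 0 ≤ x) (g0 : 0 ≤ g) (G00 : 0 ≤ G0) (h1 : U ^ 3 ≤ η) (h2 : x ^ 3 ≤ η)
    (h3 : D ^ 12 * η ≤ μ * τ) (h4 : D ^ 12 * U ^ 2 ≤ μ) (h5 : D ^ 12 * x ^ 2 ≤ μ)
    (h6 : D ^ 12 * G0 ^ 4 ≤ μ ^ 3) (h7 : g ^ 2 ≤ τ * U ^ 3) :
    D * c ≤ 2 ∧ μ * τ ≤ c ^ 3 ∧ D * c ^ 4 ≤ μ ∧ D * (c * g) ≤ μ ∧ D * (c * G0) ≤ μ ∧
      D * (c * x ^ 2) ≤ μ ∧ D * (c ^ 2 * U) ≤ μ ∧ D * (c ^ 2 * x) ≤ μ ∧ D * x ^ 2 ≤ c ^ 2 ∧
      D * (U ^ 2 * c) ≤ μ * τ ∧ D * η ≤ μ * τ := by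
  have D1 : 1 ≤ D := by linarith
  have D0 : 0 < D := by linarith
  have c0 := τ0.trans_le τc
  have η0 : 0 ≤ η := (pow_nonneg U0 3).trans h1
  have dn : ∀ (i : ℕ) (y z : ℝ), i ≤ 12 → 0 ≤ y → D ^ 12 * y ≤ z → D ^ i * y ≤ z :=
    fun i y z hi y0 h => (mul_le_mul_of_nonneg_right (pow_le_pow_right₀ D1 hi) y0).trans h
  have FD' : F ≤ D := (le_self_pow₀ F1 two_ne_zero).trans FD
  have μτ := mul_pos μ0 τ0
  have k1 : μ * τ ≤ c ^ 3 := by
    rw [hc, mul_assoc]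
    exact (le_mul_of_one_le_left μτ.le (one_le_pow₀ F1)).trans (le_max_right _ _)
  have τ1 : D * τ ≤ 2 := (mul_le_mul_of_nonneg_right (le_self_pow₀ D1 (by norm_num)) τ0.le).trans τD
  have k0 : D * c ≤ 2 := by
    refine le_of_pow_le_pow_left₀ three_ne_zero zero_le_two ?_
    rw [mul_pow, hc, mul_max_of_nonneg _ _ (by positivity), ← mul_pow]
    refine max_le (pow_le_pow_left₀ (by positivity) τ1 3) ?_
    calc _ = F * (F * μ) * (D ^ 3 * τ) := by ring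
      _ ≤ D * 1 * (D ^ 3 * τ) := by gcongr
      _ ≤ _ := by linarith [show D * 1 * (D ^ 3 * τ) = D ^ 4 * τ by ring]
  have c1 : c ≤ 1 := by nlinarith
  have k2 : D ^ 2 * c ^ 4 ≤ μ := by
    rcases le_total (F ^ 2 * μ * τ) (τ ^ 3) with e | e
    · have : c = τ := (pow_left_inj₀ c0.le τ0.le three_ne_zero).1 (hc.trans (max_eq_left e))
      subst this
      have a1 : 16 ≤ D ^ 10 := D2.trans (le_self_pow₀ D1 (by norm_num))
      have a2 := mul_le_mul_of_nonneg_right a1 (by positivity : 0 ≤ D ^ 2 * c ^ 4)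
      linarith [show D ^ 10 * (D ^ 2 * c ^ 4) = D ^ 12 * c ^ 4 by ring]
    · rw [max_eq_right e] at hc
      have a1 : D ^ 3 * τ ≤ 1 := by
        have := mul_le_mul_of_nonneg_right D2 (by positivity : 0 ≤ D ^ 3 * τ)
        linarith [show D * (D ^ 3 * τ) = D ^ 4 * τ by ring]
      calc _ = c * (F ^ 2 * (D ^ 2 * τ)) * μ := by rw [pow_succ c 3, hc]; ring
        _ ≤ 1 * (D * (D ^ 2 * τ)) * μ := by gcongr
        _ = D ^ 3 * τ * μ := by ring
        _ ≤ _ := mul_le_of_le_one_left μ0.le a1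
  have e1 := dn 0 _ _ (by norm_num) η0 h3
  have e2 := dn 0 _ _ (by norm_num) (sq_nonneg U) h4
  have e3 := dn 0 _ _ (by norm_num) (sq_nonneg x) h5
  rw [pow_zero, one_mul] at e1 e2 e3
  refine ⟨k0, k1, (mul_le_mul_of_nonneg_right (le_self_pow₀ D1 two_ne_zero) (by positivity)).trans k2,
    le_of_pow_le_pow_left₀ two_ne_zero μ0.le ?_, le_of_pow_le_pow_left₀ four_ne_zero μ0.le ?_, ?_,
    le_of_pow_le_pow_left₀ two_ne_zero μ0.le ?_, le_of_pow_le_pow_left₀ two_ne_zero μ0.le ?_, ?_, ?_,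
    by simpa using dn 1 _ _ (by norm_num) η0 h3⟩
  · calc _ = D ^ 2 * c ^ 2 * g ^ 2 := by ring
      _ ≤ D ^ 2 * c ^ 2 * (c * (μ * c)) := by
          refine mul_le_mul_of_nonneg_left (h7.trans ?_) (by positivity)
          exact mul_le_mul τc ((h1.trans e1).trans (by gcongr)) (by positivity) c0.le
      _ = D ^ 2 * c ^ 4 * μ := by ring
      _ ≤ μ * μ := by gcongr
      _ = _ := by ring
  · calc _ = D ^ 2 * c ^ 4 * (D ^ 2 * G0 ^ 4) := by ring
      _ ≤ μ * μ ^ 3 := mul_le_mul k2 (dn 2 _ _ (by norm_num) (by positivity) h6) (by positivity) μ0.le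
      _ = _ := by ring
  · have := dn 1 _ _ (by norm_num) (sq_nonneg x) h5
    rw [pow_one] at this
    exact (mul_le_mul_of_nonneg_left (mul_le_of_le_one_left (sq_nonneg x) c1) D0.le).trans this
  · calc _ = D ^ 2 * c ^ 4 * U ^ 2 := by ring
      _ ≤ μ * μ := mul_le_mul k2 e2 (sq_nonneg _) μ0.le
      _ = _ := by ring
  · calc _ = D ^ 2 * c ^ 4 * x ^ 2 := by ring
      _ ≤ μ * μ := mul_le_mul k2 e3 (sq_nonneg _) μ0.le
      _ = _ := by ring
  · have a1 : D ^ 4 * x ≤ c := le_of_pow_le_pow_left₀ three_ne_zero c0.le (by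
      calc _ = D ^ 12 * x ^ 3 := by ring
        _ ≤ D ^ 12 * η := by gcongr
        _ ≤ _ := h3.trans k1)
    calc _ ≤ D ^ 8 * x ^ 2 := mul_le_mul_of_nonneg_right (le_self_pow₀ D1 (by norm_num)) (sq_nonneg _)
      _ = (D ^ 4 * x) ^ 2 := by ring
      _ ≤ _ := pow_le_pow_left₀ (by positivity) a1 2
  · rcases le_total (F ^ 2 * μ * τ) (τ ^ 3) with e | e
    · have : c = τ := (pow_left_inj₀ c0.le τ0.le three_ne_zero).1 (hc.trans (max_eq_left e))
      subst this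
      have := dn 1 _ _ (by norm_num) (sq_nonneg U) h4
      rw [pow_one] at this
      rw [← mul_assoc]
      exact mul_le_mul_of_nonneg_right this c0.le
    · rw [max_eq_right e] at hc
      refine le_of_pow_le_pow_left₀ three_ne_zero μτ.le ?_
      have a1 : D ^ 2 * U ^ 3 ≤ μ * τ := dn 2 _ _ (by norm_num) (by positivity)
        ((mul_le_mul_of_nonneg_left h1 (by positivity)).trans h3)
      calc _ = D ^ 3 * (U ^ 3) ^ 2 * F ^ 2 * (μ * τ) := by rw [mul_pow, mul_pow, hc]; ring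
        _ ≤ D ^ 3 * (U ^ 3) ^ 2 * D * (μ * τ) := by gcongr
        _ = (D ^ 2 * U ^ 3) ^ 2 * (μ * τ) := by ring
        _ ≤ (μ * τ) ^ 2 * (μ * τ) := by gcongr
        _ = _ := by ring

/-- the node error from its parts -/
theorem en_num {L y U x g z z' u G W n1 n2 n3 n4 r ms : ℝ} (L1 : 62000 ≤ L) (U0 : 0 ≤ U)
    (x0 : 0 ≤ x) (g0 : 0 ≤ g) (z0 : 0 ≤ z) (z1 : 0 ≤ z') (u0 : 0 ≤ u) (n10 : 0 ≤ n1) (m0 : 0 ≤ ms)
    (hu : u ≤ L * U) (hG : G ≤ L ^ 22 * (g + z')) (hW : W ≤ L * y)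
    (h1 : n1 ≤ L ^ 16 * (x + z)) (h2 : n2 ≤ L ^ 32 * (x ^ 2 + z')) (h12 : n1 ^ 2 ≤ n2)
    (h3 : n3 ≤ L ^ 49 * (2 * y)) (h4 : n4 ≤ L ^ 49 * (2 * y)) (hr : r ≤ 4) (hm : ms ≤ y)
    (hU : U ^ 3 ≤ y) (hP : (g + x ^ 2 + z') * (U + x + z) ≤ 7 * y) :
    15360 * ms * r + W + G * (u + n1) + (u ^ 3 + n3 + (u + n1) * (n2 + n1 ^ 2) + n4 + ms) ≤
      L ^ 50 * y := by
  have l1 : 1 ≤ L := by linarith
  have y0 : 0 ≤ y := m0.trans hm
  have P : ∀ i : ℕ, i ≤ 49 → L ^ i * y ≤ L ^ 49 * y := fun i hi =>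
    mul_le_mul_of_nonneg_right (pow_le_pow_right₀ l1 hi) y0
  have a1 : u + n1 ≤ L ^ 16 * (U + x + z) := by
    have := mul_le_mul_of_nonneg_right (le_self_pow₀ l1 (show 16 ≠ 0 by norm_num)) U0
    linarith
  have a0 : 0 ≤ u + n1 := by positivity
  have a2 : G * (u + n1) ≤ 7 * (L ^ 38 * y) :=
    calc _ ≤ L ^ 22 * (g + x ^ 2 + z') * (L ^ 16 * (U + x + z)) :=
          mul_le_mul (hG.trans (by gcongr; linarith [sq_nonneg x])) a1 a0 (by positivity)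
      _ = L ^ 38 * ((g + x ^ 2 + z') * (U + x + z)) := by ring
      _ ≤ L ^ 38 * (7 * y) := by gcongr
      _ = _ := by ring
  have a3 : (u + n1) * (n2 + n1 ^ 2) ≤ 14 * (L ^ 48 * y) :=
    calc _ ≤ L ^ 16 * (U + x + z) * (2 * (L ^ 32 * (g + x ^ 2 + z'))) := by
          refine mul_le_mul a1 ?_ (by linarith [sq_nonneg n1]) (by positivity)
          have : L ^ 32 * (x ^ 2 + z') ≤ L ^ 32 * (g + x ^ 2 + z') := by gcongr; linarith
          linarith
      _ = 2 * (L ^ 48 * ((g + x ^ 2 + z') * (U + x + z))) := by ring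
      _ ≤ 2 * (L ^ 48 * (7 * y)) := by gcongr
      _ = _ := by ring
  have a4 : u ^ 3 ≤ L ^ 3 * y := (pow_le_pow_left₀ u0 hu 3).trans (by rw [mul_pow]; gcongr)
  have a5 := mul_le_mul_of_nonneg_left hr m0
  have p0 := P 0 (by norm_num)
  have p1 := P 1 (by norm_num)
  rw [pow_zero, one_mul] at p0
  rw [pow_one] at p1
  have a6 := mul_le_mul_of_nonneg_right L1 (by positivity : 0 ≤ L ^ 49 * y)
  calc _ ≤ L * (L ^ 49 * y) := by
        linarith [P 38 (by norm_num), P 48 (by norm_num), P 3 (by norm_num)]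
    _ = _ := by ring

theorem ev_win {f : ℕ → ℝ} {c : ℝ} {p q p' q' k : ℕ} (h1 : p ≤ p') (h2 : q' ≤ q) :
    Env96.ev f c p' q' k ≤ Env96.ev f c p q k :=
  Env96.ev_le Env96.ev_nonneg fun _ b d => Env96.cone (h1.trans b) (d.trans h2)

theorem gd_win {κ : ℝ} {p q p' q' k : ℕ} (h1 : p ≤ p') (h2 : q' ≤ q) (g : Gd M m a κ p q k) :
    Gd M m a κ p' q' k := ⟨fun i b d => g.1 i b (d.trans h2), fun i b d => g.2 i (h1.trans b) d⟩

/-- nodes above the level `τ`: bulk and top -/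
theorem up_sum9 (h : Cl S M) (G : Lg M m a) {f : ℕ → ℝ} (f0 : ∀ k, 0 ≤ f k) {τ : ℝ} {j : ℕ}
    (hj : τ ≤ M.s j) : ∑ k ∈ Ico j M.N, M.dz m a k * f k ≤
      ∑ k ∈ Bu S M τ, M.dz m a k * f k + ∑ k ∈ Tp S M, M.dz m a k * f k := by
  have n0 : ∀ k, 0 ≤ M.dz m a k * f k := fun k => mul_nonneg (G.dz_nonneg k) (f0 k)
  rw [← sum_filter_add_sum_filter_not (Ico j M.N) fun k => k + k / 3 < S.J]
  refine add_le_add (sum_le_sum_of_subset_of_nonneg (fun k hk => ?_) fun k _ _ => n0 k)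
    (sum_le_sum_of_subset_of_nonneg (fun k hk => ?_) fun k _ _ => n0 k)
  · simp only [Bu, Bk, mem_filter, mem_Ico, mem_range] at hk ⊢
    exact ⟨⟨hk.1.2, hk.2⟩, hj.trans (h.sm hk.1.1)⟩
  · simp only [Tp, mem_filter, mem_Ico, mem_range] at hk ⊢
    exact ⟨hk.1.2, hk.2⟩

/-- **the start**: location from the a priori bound -/
theorem start (A : At S M m a T) {X R : ℝ} (hX : M.En S m a M.q 2 0 S.C ≤ X) (R0 : 0 < R)
    (hR : X ≤ R ^ 3) (h1 : 2 * S.C * R ≤ 1) {k : ℕ} (h2 : 2 * S.C * M.z k ≤ 1) :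
    M.rb m a k ≤ S.C * (M.z k + R + 2 * (S.C * S.v)) + R := by
  classical
  have h := A.cl
  have C0 := A.c_pos
  wlog hk : S.j0 ≤ k generalizing k
  · have e := h.low k (not_le.1 hk).le
    exact (rb_mono A.m_pos (not_le.1 hk).le).trans (e ▸ this (e ▸ h2) le_rfl)
  have hex : ∃ j, M.z k + R ≤ M.z j := ⟨S.J - 1, le_trans (by
    rw [le_div_iff₀ C0]; linarith) h.atom.1⟩
  have p1 := Nat.find_spec hex
  have p2 : Nat.find hex ≤ S.J - 1 := Nat.find_min' hex (le_trans (by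
    rw [le_div_iff₀ C0]; linarith) h.atom.1)
  have p3 : k < Nat.find hex := lt_of_not_ge fun c => by linarith [h.leg.zm c]
  obtain ⟨j, hj⟩ : ∃ j, Nat.find hex = j + 1 := ⟨Nat.find hex - 1, by omega⟩
  have p4 := not_le.1 (Nat.find_min hex (show j < Nat.find hex by omega))
  rw [hj] at p1 p2 p3
  have jJ : j + 1 < S.J := by have := h.i2; omega
  have jN := (jJ.trans h.J_lt).le
  have p5 := (h.zs j (by omega) jJ).2
  have p6 := (h.z_s (k := j + 1) (by omega) jJ).1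
  rw [sub_le_iff_le_add, div_le_iff₀ C0] at p6
  have p7 := h.q_le_s jN
  have key : M.rb m a k - M.q (j + 1) ≤ R := by
    by_contra c
    have c := not_le.1 c
    have s1 : ∑ i ∈ Ioc k (j + 1), (M.z i - M.z (i - 1)) * (M.rb m a k - M.q (j + 1)) ^ 2 ≤
        M.En S m a M.q 2 0 S.C := by
      rw [Md.En, A.blk_all]
      refine (sum_le_sum fun i hi => mul_le_mul_of_nonneg_left ?_ (A.dz_nn i)).trans
        (sum_le_sum_of_subset_of_nonneg (Ioc_subset_Ioc hk (jJ.le.trans h.i3)) fun i _ _ =>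
          mul_nonneg (A.dz_nn i) (by positivity))
      refine pow_le_pow_left₀ (by linarith) (le_trans ?_ (le_abs_self _)) 2
      linarith [rb_mono (M := M) (a := a) A.m_pos (mem_Ioc.1 hi).1.le,
        h.q_mono (mem_Ioc.1 hi).2 jN]
    rw [← sum_mul, At.sum_dz M p3.le] at s1
    have s2 := mul_lt_mul' (show R ≤ M.z (j + 1) - M.z k by linarith)
      (pow_lt_pow_left₀ c R0.le two_ne_zero) (sq_nonneg _) (by linarith)
    linarith [show R * R ^ 2 = R ^ 3 by ring]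
  have := mul_le_mul_of_nonneg_right (show M.z (j + 1) + S.C * S.v ≤
    M.z k + R + 2 * (S.C * S.v) by linarith) C0.le
  linarith

end Crest.Agent.T156.Alt.Sz9

end
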