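import Crest.Agent.T156.LDef_69
import Crest.Agent.T156.ClE1b_61

/-!
# Row 156, block (L) (helper5): the two sizes read by `TLt`
-/

set_option autoImplicit false

noncomputable section

namespace Crest.Agent.T156.Alt.L69

open Real Finset
open Crest.Agent.T156.Alt.E61

/-- the hypotheses of `TLt` -/
structure TH (E : ℝ) (S : Sc) (M : Md) (m : ℕ) (a l0 X Xp Vt X2 u1 j γ Lp : ℝ) : Prop where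
  HJ : M.H S.Jp ≤ S.C
  X0 : 0 < X
  X1 : E * X ≤ 1
  Xp0 : 0 < Xp
  Xp1 : E * Xp ≤ 1
  Vt0 : 0 ≤ Vt
  l0s : E * M.s S.jl ≤ l0
  l0w : S.w3 l0 ≤ l0 ^ 3
  l01 : E * l0 ≤ 1
  x2a : l0 * cl S (X ^ ((1 : ℝ) / 3)) l0 ^ 2 ≤ X2
  x2b : ∀ t, l0 ≤ t → t ≤ S.C → min (t * cl S (X ^ ((1 : ℝ) / 3)) t ^ 2)
    (t * ws S (X ^ ((1 : ℝ) / 3)) t ^ 2 +
      (t * ws S (X ^ ((1 : ℝ) / 3)) t ^ 2) ^ ((3 : ℝ) / 7) * X ^ ((4 : ℝ) / 7)) ≤ X2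
  u0 : 0 < S.u0
  rev : ∃ k1, S.Jp ≤ k1 ∧ k1 ≤ M.N ∧ 1 / S.C ≤ ((k1 : ℝ) - S.Jp) * S.v ∧
    ∀ k, S.Jp ≤ k → k < k1 → S.θ * S.v / (S.C * S.F) ≤ M.H (k + 1) - M.H k
  u1a : S.ue ≤ u1
  u1b : E * u1 ≤ 1
  γ0 : M.s S.Jp - M.s S.J ≤ γ
  γ1 : E * γ ≤ 1
  Lp0 : E ≤ Lp
  Lp1 : Lp ≤ S.n
  far : Far M S Xp Vt γ u1 Lp
  n2 : Np M S Xp Vt γ u1 Lp 2 ≤ X2
  pri : Ap S M m a l0 X Xp Vt u1 j

/-- `N 2` over all nodes (root node, low zone, bulk, top window, plateau) -/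
def SzN2 : Prop := CL fun E Λ S M m a => ∀ l0 X Xp Vt X2 u1 j γ Lp,
  TH E S M m a l0 X Xp Vt X2 u1 j γ Lp → Nu M m a (u4 M m a) 2 ≤ Λ * X2

/-- a good node in every shell of the upper half of the plateau -/
def SzG : Prop := CL fun E Λ S M m a => ∀ l0 X Xp Vt X2 u1 j γ Lp,
  TH E S M m a l0 X Xp Vt X2 u1 j γ Lp → ∀ k, S.J ≤ k → k ≤ S.Jp → 2 * u1 ≤ du M k →
    du M k ≤ dl M S k → Lp * ap M S Xp Vt γ k ≤ 1 →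
    ∃ i, k ≤ i ∧ i < S.Jp ∧ du M k / 2 < du M i ∧ u4 M m a i ≤ Λ * (Lp * ap M S Xp Vt γ k)

end Crest.Agent.T156.Alt.L69

end
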