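import Crest.Agent.T156.SzD_9
import Crest.Agent.T156.ClSzA_61
import Crest.Agent.T156.QCone_98
import Crest.Agent.T156.ClAp_63

/-!
# Row 156, block (L) (helper61): sizes of the centred overlap on the sloped part
-/

set_option autoImplicit false
set_option linter.unusedSectionVars false

noncomputable section

namespace Crest.Agent.T156.Alt.Sz9

open Real Finset Filter
open Crest.Agent.T156.Alt.E61 Crest.Agent.T156.Alt.Md67 Crest.Agent.T156.Alt.C33
open Crest.Agent.T156.Alt.QS98 Crest.Agent.T156.Env96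

variable {S : Sc} {M : Md} {m : ℕ} {a lam : ℝ}

/-- statements that depend on the class constant -/
theorem CL_dep {P : ℝ → CP} (H : ∀ C, CL (P C)) : CL fun E Λ S M m a => P S.C E Λ S M m a := by
  intro C
  filter_upwards [H C C] with A H ε hε η hη
  filter_upwards [H ε hε η hη] with n H S M b1 b2 b3 b4 m a b5
  rw [b1]; exact H S M b1 b2 b3 b4 m a b5

theorem CL_fn : CL fun _ _ S M m a => Fn S M m a := fun C => by
  filter_upwards [eventually_ge_atTop 2] with A hA ε _ η _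
  exact ev_fn C hA

/-- the context at a fixed size -/
structure Kx (lam : ℝ) (S : Sc) (M : Md) (m : ℕ) (a : ℝ) : Prop where
  fn : Fn S M m a
  l2 : 2 ≤ lam
  cn : 9 * S.C ^ 4 ≤ S.n
  lgN : (Nat.log 2 M.N : ℝ) + 1 ≤ lam
  cone : ∀ κ t l k0 k1 j, Cone (9 * S.C ^ 3) κ S M m a t l k0 k1 j →
    Inn (9 * S.C ^ 3) S t k0 k1 j → u4 M m a j ≤ lam * κ * l
  low : ∀ κ t, 0 < t → M.s S.jl ≤ t → S.w3 t ≤ t ^ 3 → Crude κ S M m a t S.jl → ∀ k ≤ M.N,
    u4 M m a k ≤ lam * κ * max (M.z k) t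

theorem Kx.mono (X : Kx lam S M m a) {lam' : ℝ} (h : lam ≤ lam') : Kx lam' S M m a :=
  ⟨X.fn, X.l2.trans h, X.cn, X.lgN.trans h, fun κ t l k0 k1 j H I => (X.cone κ t l k0 k1 j H I).trans
    (by have := H.l0; have := H.crude.1; gcongr), fun κ t a1 a2 a3 H k hk =>
    (X.low κ t a1 a2 a3 H k hk).trans (by have := H.1; gcongr)⟩

theorem kx_ev : CL fun _ Λ S M m a => Kx Λ S M m a := by
  refine (((CL_dep fun C => qConeS (9 * max C 1 ^ 3) 2 (by
    nlinarith [one_le_pow₀ (n := 3) (le_max_right C 1)])).and (qLowS 2)).and CL_fn).glue'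
    (fun _ _ _ _ _ _ _ _ h X => X.mono h) 0 le_rfl 0 3 fun C A ε η _ _ =>
    ⟨9 * C ^ 4, fun S M m a G _ _ _ h _ ⟨⟨H1, H2⟩, F⟩ => ?_⟩
  have l3 := G.num_le
  have a1 := G.A_le
  have a2 := G.log_le
  have a3 := G.log1
  generalize (S.n : ℝ) ^ η = l at *
  have e3 : 2 * l ≤ l ^ 3 := by nlinarith [mul_pos (show 0 < l by linarith) (show 0 < l by linarith)]
  rw [max_eq_left h.C1] at H1
  refine ⟨F, by linarith, ?_, ?_, fun κ t ℓ k0 k1 j H I => ?_, fun κ t b1 b2 b3 H k hk => ?_⟩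
  · rw [G.hC]; exact G.K_log.trans ((log_le_sub_one_of_pos G.N0).trans (by linarith))
  · have b1 : (Nat.log 2 M.N : ℝ) ≤ logb 2 M.N := by exact_mod_cast natLog_le_logb M.N 2
    have b0 : (0 : ℝ) < M.N := Nat.cast_pos.2 (Nat.zero_lt_of_lt h.i4)
    have b2 := log_le_log b0 h.card
    rw [log_pow, G.hA] at b2
    push_cast at b2
    rw [logb, le_div_iff₀ (log_pos one_lt_two)] at b1
    have b3 : ((A : ℝ) + 1) * log S.n ≤ 2 * l * l :=
      mul_le_mul (by linarith) a2 (by linarith) (by linarith)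
    have b4 : (Nat.log 2 M.N : ℝ) ≤ 4 * l * l := by
      nlinarith [log_two_gt_d9, Nat.cast_nonneg (α := ℝ) (Nat.log 2 M.N)]
    nlinarith [mul_pos (show 0 < l by linarith) (show 0 < l by linarith)]
  · have := H.l0
    have := H.crude.1
    refine (u4_le (by positivity) ((H1 κ t ℓ k0 k1 j H).2 I).2).trans ?_
    gcongr; linarith
  · have := H.1
    have e := (H2 κ t b1 b2 b3 H k hk).2
    refine (u4_le_c (c := 0) (b := l * κ * max (M.z k) t) (by positivity)
      (by simpa only [sub_zero] using e)).2.trans ?_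
    rw [← mul_assoc, ← mul_assoc]
    gcongr

theorem QB_mono {K K' t : ℝ} {k0 k1 : ℕ} (h : Cl S M) (B : QB K S M t k0 k1) (hK : K ≤ K') :
    QB K' S M t k0 k1 :=
  ⟨B.t0, B.k0l, B.k01, B.k1p, B.lo.trans (mul_le_mul_of_nonneg_right hK (h.s_nn _)),
    B.hi.trans (mul_le_mul_of_nonneg_right hK B.t0.le), B.wt⟩

theorem Inn_mono {K K' t : ℝ} {k0 k1 j : ℕ} (I : Inn K S t k0 k1 j) (t0 : 0 ≤ t) (K0 : 0 < K)
    (hK : K ≤ K') : Inn K' S t k0 k1 j :=
  ⟨(div_le_div_of_nonneg_left t0 K0 hK).trans I.1, (div_le_div_of_nonneg_left t0 K0 hK).trans I.2⟩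

theorem Crude_mono {κ κ' t : ℝ} {k0 k0' : ℕ} (H : Crude κ S M m a t k0) (t0 : 0 ≤ t) (h : κ ≤ κ')
    (hk : k0 ≤ k0') : Crude κ' S M m a t k0' :=
  ⟨H.1.trans h, fun k a1 a2 => (H.2 k (hk.trans a1) a2).trans
    (mul_le_mul_of_nonneg_right h (t0.trans (le_max_right _ _)))⟩

/-- **the cone of the envelope** -/
theorem cone_ev {K κ t α : ℝ} {k0 k1 : ℕ} (B : QB K S M t k0 k1) (hJ : k1 ≤ S.J)
    (H : Crude κ S M m a t k0) (α0 : 0 < α) (hα : S.w3 t * κ ^ 2 ≤ α ^ 3) (hn : κ ≤ S.n) (j : ℕ) :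
    Cone K κ S M m a t ((α + ev (M.rb m a) (κ * S.v) k0 k1 j) / κ) k0 k1 j := by
  have e0 : 0 ≤ ev (M.rb m a) (κ * S.v) k0 k1 j := ev_nonneg
  have c := fun i => Env96.cone (f := M.rb m a) (c := κ * S.v) (a := k0) (b := k1) (k := j) (i := i)
  generalize ev (M.rb m a) (κ * S.v) k0 k1 j = e at *
  have k1 := H.1
  have k0 : 0 < κ := by linarith
  have t0 := B.t0
  have w : S.w3 t ≤ κ * ((α + e) / κ) ^ 3 := by
    rw [show κ * ((α + e) / κ) ^ 3 = (α + e) ^ 3 / κ ^ 2 by field_simp, le_div_iff₀ (by positivity)]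
    exact hα.trans (pow_le_pow_left₀ α0.le (by linarith) 3)
  refine ⟨B, H, by positivity, ?_, w.trans (by gcongr), fun i a1 a2 => (c i a1 a2).trans ?_,
    fun _ y _ _ a1 a2 => by omega⟩
  · rcases min_choice ((α + e) / κ) t with h | h <;> rw [h]
    exacts [w, B.wt.trans (le_mul_of_one_le_left (by positivity) k1)]
  · rw [QS98.cone, mul_add, mul_div_cancel₀ _ k0.ne']
    linarith

theorem w3_anti (F : Fn S M m a) {t t' : ℝ} (h0 : 0 < t) (h : t ≤ t') : S.w3 t' ≤ S.w3 t := by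
  have := F.ms_pos h0.le
  have := F.n1
  have : 0 < t' := h0.trans_le h
  have := F.F0
  unfold Sc.w3
  gcongr
  exact F.msm h

theorem w3_ge (F : Fn S M m a) {t : ℝ} (h0 : 0 < t) : 1 ≤ S.w3 t * (S.n * t) := by
  have := F.ms_pos h0.le
  have := F.n1
  rw [Sc.w3, div_mul_eq_mul_div, le_div_iff₀ (by positivity), one_mul, mul_comm]
  exact mul_le_mul_of_nonneg_right ((F.ms_le_one t).trans F.F1) (by positivity)

namespace Kx

variable (X : Kx lam S M m a)
include X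

theorem K1 : 1 ≤ 9 * S.C ^ 3 := by nlinarith [one_le_pow₀ (n := 3) X.fn.C1]

/-- **pointwise size**, free slope -/
theorem pt {κ t α : ℝ} {k0 k1 j : ℕ} (B : QB (9 * S.C ^ 3) S M t k0 k1) (hJ : k1 ≤ S.J)
    (I : Inn (9 * S.C ^ 3) S t k0 k1 j) (H : Crude κ S M m a t k0) (α0 : 0 < α)
    (hα : S.w3 t * κ ^ 2 ≤ α ^ 3) :
    u4 M m a j ≤ lam * (α + ev (M.rb m a) (κ * S.v) k0 k1 j) := by
  have F := X.fn
  have e0 : 0 ≤ ev (M.rb m a) (κ * S.v) k0 k1 j := ev_nonneg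
  have k1 := H.1
  have l2 := X.l2
  rcases le_total 1 α with c | c
  · exact ((mj_u4 F.lg.m0).u0 j).2.trans (by nlinarith)
  have n1 := F.n1
  have hn : κ ≤ S.n := by
    have t0 := B.t0
    have a1 : t ≤ S.n := (F.t_le B X.K1).trans (by linarith [X.cn])
    have a2 := mul_le_mul_of_nonneg_right (w3_ge F t0) (sq_nonneg κ)
    have a3 := mul_le_mul_of_nonneg_right (hα.trans (pow_le_one₀ α0.le c))
      (show 0 ≤ S.n * t by positivity)
    have a4 := mul_le_mul_of_nonneg_left a1 (show (0 : ℝ) ≤ S.n by positivity)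
    exact le_of_pow_le_pow_left₀ two_ne_zero (by positivity) (by nlinarith)
  refine (X.cone _ _ _ _ _ _ (cone_ev B hJ H α0 hα hn j) I).trans_eq ?_
  rw [mul_assoc, mul_div_cancel₀ _ (by linarith)]

/-- **block sums**, free first slope -/
theorem blk {κ t α D Y : ℝ} {k0 k1 : ℕ} (B : QB (9 * S.C ^ 3) S M t k0 k1) (h0 : S.j0 < k0)
    (hJ : k1 < S.J) (s : Finset ℕ) (I : ∀ j ∈ s, Inn (9 * S.C ^ 3) S t k0 k1 j)
    (H : Crude κ S M m a t k0) (α0 : 0 < α) (hα : S.w3 t * κ ^ 2 ≤ α ^ 3)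
    (hD : ∀ i, k0 ≤ i → i ≤ k1 → |M.del m a i| ≤ D)
    (hY : D ^ 3 + ∑ i ∈ Icc k0 k1, M.dz m a i * M.del m a i ^ 2 ≤ Y) :
    ∑ k ∈ s, M.dz m a k * u4 M m a k ^ 2 ≤ 30000 * S.C ^ 5 * lam ^ 2 * (t * α ^ 2 + Y / κ) ∧
    ∑ k ∈ s, M.dz m a k * u4 M m a k ^ 3 ≤ 700000 * S.C ^ 6 * lam ^ 3 * (t * α ^ 3 + α * (Y / κ)) ∧
    ∑ k ∈ s, M.dz m a k * u4 M m a k ^ 4 ≤
      20000000 * S.C ^ 7 * lam ^ 4 * (t * α ^ 4 + α * √(α * D) * (Y / κ)) := by
  have F := X.fn
  have h := F.toCl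
  have L := F.lg
  have C1 := F.C1
  have C0 := F.C0
  have v0 := F.v0
  have t0 := B.t0
  have k1' := H.1
  have l2 := X.l2
  have k01 := B.k01
  have D0 : 0 ≤ D := (abs_nonneg _).trans (hD k0 le_rfl k01)
  have E0 : 0 ≤ ∑ i ∈ Icc k0 k1, M.dz m a i * M.del m a i ^ 2 :=
    sum_nonneg fun i _ => mul_nonneg (L.dz_nonneg i) (sq_nonneg _)
  have Y0 : 0 ≤ Y := le_trans (by positivity) hY
  have mem : ∀ j ∈ s, k0 < j ∧ j < k1 := fun j hj => by
    have p : 0 < t / (9 * S.C ^ 3) := by positivity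
    have a1 := pos_of_mul_pos_left (p.trans_le (I j hj).1) v0.le
    have a2 := pos_of_mul_pos_left (p.trans_le (I j hj).2) v0.le
    exact ⟨by exact_mod_cast sub_pos.1 a1, by exact_mod_cast sub_pos.1 a2⟩
  have dzb : ∀ i, k0 ≤ i → i ≤ k1 → S.v / S.C ≤ M.dz m a i ∧ M.dz m a i ≤ S.C * S.v :=
    fun i a1 a2 => by
      obtain ⟨i, rfl⟩ : ∃ r, i = r + 1 := ⟨i - 1, by omega⟩
      rw [dz_succ h.leg]
      exact h.zs i (by omega) (by omega)
  have hq : ∀ k, k0 ≤ k → k < k1 → 0 ≤ M.q (k + 1) - M.q k ∧ M.q (k + 1) - M.q k ≤ S.C * S.v :=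
    fun k _ a2 => by
      have i3 := h.i3
      have i4 := h.i4
      exact ⟨sub_nonneg.2 (h.q_mono k.le_succ (by omega)),
        (Ap63.q_slow h k.le_succ (by omega)).trans (h.ss k (by omega)).2⟩
  have hf : ∀ k, k0 ≤ k → k < k1 → M.rb m a k ≤ M.rb m a (k + 1) := fun k _ _ =>
    Md67.rb_mono L.m0 k.le_succ
  have p8 : ∀ i : ℕ, (1 : ℝ) ≤ 8 ^ i := fun i => one_le_pow₀ (by norm_num)
  have sl : ∀ i : ℕ, 3 * S.C ≤ 8 ^ i * (3 * S.C * κ) ∧ κ ≤ 3 * S.C * κ := fun i => by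
    have a1 : 3 * S.C ≤ 3 * S.C * κ := le_mul_of_one_le_right (by positivity) k1'
    exact ⟨a1.trans (le_mul_of_one_le_left (by positivity) (p8 i)),
      le_mul_of_one_le_left (by positivity) (by linarith)⟩
  have pt : ∀ k ∈ s, ∀ i : ℕ, u4 M m a k ≤ lam * (4 ^ i * (3 * S.C * α) +
      ev (M.rb m a) (8 ^ i * (3 * S.C * κ) * S.v) k0 k1 k) := fun k hk i => by
    refine X.pt B hJ.le (I k hk) (Crude_mono H t0.le ((sl i).2.trans
      (le_mul_of_one_le_left (by positivity) (p8 i))) le_rfl) (by positivity) ?_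
    have e : ((8 : ℝ) ^ i) ^ 2 = (4 ^ i) ^ 3 := by
      rw [← pow_mul, ← pow_mul, mul_comm i, mul_comm i, pow_mul, pow_mul]; norm_num
    calc _ = (8 ^ i) ^ 2 * ((3 * S.C) ^ 2 * (S.w3 t * κ ^ 2)) := by ring
      _ ≤ (4 ^ i) ^ 3 * ((3 * S.C) ^ 3 * α ^ 3) := by
        have := (F.w3_pos t0).le
        rw [e]; gcongr
        · linarith
        · norm_num
      _ = _ := by ring
  obtain ⟨r2, r3, r4⟩ := cake3 s (w := M.dz m a) (u := u4 M m a) (lam := lam) (α := 3 * S.C * α)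
    (D := 2 * D) (X := 9 * S.C ^ 3 * t) (Y := 224 * S.C ^ 3 * (Y / κ))
    (e := fun i k => ev (M.rb m a) (8 ^ i * (3 * S.C * κ) * S.v) k0 k1 k)
    (fun k _ => L.dz_nonneg k) (fun k _ => u4_nn k) (by linarith) (by positivity) (by positivity)
    (by
      refine (sum_le_sum_of_subset_of_nonneg (t := Ioc k0 k1) (fun j hj => mem_Ioc.2
        ⟨(mem j hj).1, (mem j hj).2.le⟩) fun i _ _ => L.dz_nonneg i).trans ?_
      rw [sum_dz h.leg k01]
      linarith [B.hi, h.z_pos k0]) pt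
    (fun k hk => (pt k hk 0).trans (by
      have := ev_le_sup (f := M.rb m a) (c := 8 ^ 0 * (3 * S.C * κ) * S.v) hq
        (by nlinarith [mul_le_mul_of_nonneg_right (sl 0).1 v0.le]) hD (mem k hk).1.le (mem k hk).2.le
      rw [pow_zero (4 : ℝ), one_mul (3 * S.C * α)]
      gcongr))
    (fun i => by
      have p := p8 i
      have s1 := sum_sq (f := M.rb m a) (c := 8 ^ i * (3 * S.C * κ) * S.v) k01 (by positivity)
        (by positivity) (by nlinarith [mul_le_mul_of_nonneg_right (sl i).1 v0.le]) hf hq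
        (hD k0 le_rfl k01) (hD k1 k01 le_rfl)
      have s2 : S.v * ∑ k ∈ Icc k0 k1, (M.rb m a k - M.q k) ^ 2 ≤
          S.C * ∑ i ∈ Icc k0 k1, M.dz m a i * M.del m a i ^ 2 := by
        rw [mul_sum, mul_sum]
        refine sum_le_sum fun k hk => ?_
        have := (dzb k (mem_Icc.1 hk).1 (mem_Icc.1 hk).2).1
        rw [div_le_iff₀' C0] at this
        rw [← mul_assoc]
        exact mul_le_mul_of_nonneg_right this (sq_nonneg _)
      have s3 : 2 * D ^ 3 + 4 * (S.C * S.v) * ∑ k ∈ Icc k0 k1, (M.rb m a k - M.q k) ^ 2 ≤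
          4 * S.C ^ 2 * Y := by
        have c2 : 1 ≤ S.C ^ 2 := one_le_pow₀ C1
        have d3 : 0 ≤ D ^ 3 := by positivity
        nlinarith [mul_le_mul_of_nonneg_left s2 C0.le, mul_le_mul_of_nonneg_left hY (sq_nonneg S.C),
          mul_le_mul_of_nonneg_right c2 d3]
      calc _ ≤ ∑ k ∈ s, S.C * S.v * ev (M.rb m a) (8 ^ i * (3 * S.C * κ) * S.v) k0 k1 k ^ 2 :=
            sum_le_sum fun k hk => mul_le_mul_of_nonneg_right
              (dzb k (mem k hk).1.le (mem k hk).2.le).2 (sq_nonneg _)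
        _ ≤ S.C * S.v * (56 / (8 ^ i * (3 * S.C * κ) * S.v) * (4 * S.C ^ 2 * Y)) := by
            rw [← mul_sum]
            refine mul_le_mul_of_nonneg_left (le_trans (sum_le_sum_of_subset_of_nonneg
              (fun j hj => mem_Icc.2 ⟨(mem j hj).1.le, (mem j hj).2.le⟩) fun _ _ _ => sq_nonneg _)
              (s1.trans (mul_le_mul_of_nonneg_left s3 (by positivity)))) (by positivity)
        _ = 224 * S.C ^ 3 * (Y / κ) / 8 ^ i / (3 * S.C) := by field_simp; ring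
        _ ≤ _ := div_le_self (by positivity) (by linarith))
  have y0 : 0 ≤ Y / κ := by positivity
  generalize Y / κ = y at *
  have c : ∀ {i j : ℕ}, i ≤ j → S.C ^ i ≤ S.C ^ j := fun e => pow_le_pow_right₀ C1 e
  refine ⟨r2.trans ?_, r3.trans ?_, r4.trans ?_⟩
  · rw [mul_comm _ (lam ^ 2), mul_assoc (lam ^ 2)]
    refine mul_le_mul_of_nonneg_left ?_ (by positivity)
    have p1 : 0 ≤ S.C ^ 5 * (t * α ^ 2) := by positivity
    have p2 : 0 ≤ S.C ^ 5 * y := by positivity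
    nlinarith [mul_le_mul_of_nonneg_right (c (show 3 ≤ 5 by norm_num)) y0]
  · rw [mul_comm _ (lam ^ 3), mul_assoc (lam ^ 3)]
    refine mul_le_mul_of_nonneg_left ?_ (by positivity)
    have p1 : 0 ≤ S.C ^ 6 * (t * α ^ 3) := by positivity
    have p2 : 0 ≤ α * y := by positivity
    have p3 : 0 ≤ S.C ^ 6 * (α * y) := by positivity
    nlinarith [mul_le_mul_of_nonneg_right (c (show 4 ≤ 6 by norm_num)) p2]
  · rw [mul_comm _ (lam ^ 4), mul_assoc (lam ^ 4)]
    refine mul_le_mul_of_nonneg_left ?_ (by positivity)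
    have p1 : 0 ≤ S.C ^ 7 * (t * α ^ 4) := by positivity
    have p3 : √(3 * S.C * α * (2 * D)) ≤ 3 * S.C * √(α * D) := by
      refine sqrt_le_iff.2 ⟨by positivity, ?_⟩
      rw [mul_pow, sq_sqrt (by positivity)]
      have : 0 ≤ S.C * (α * D) := by positivity
      nlinarith [mul_le_mul_of_nonneg_right C1 this]
    have p2 : 0 ≤ α * √(α * D) * y := by positivity
    have p4 := mul_le_mul_of_nonneg_left p3 (show 0 ≤ S.C ^ 4 * α * y by positivity)
    have p5 : 0 ≤ S.C ^ 7 * (α * √(α * D) * y) := by positivity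
    nlinarith [mul_le_mul_of_nonneg_right (c (show 5 ≤ 7 by norm_num)) p2]

end Kx

/-! ### the crude location -/

namespace Cf

variable {E l0 : ℝ} {cf : ℝ → ℝ} (H : Cf E S M m a l0 cf) (F : Fn S M m a) (hE : 8 * S.C ^ 2 ≤ E)
include H F hE

theorem sl : M.s S.jl ≤ l0 := by
  have := F.s_nonneg S.jl
  nlinarith [H.l0s, one_le_pow₀ (n := 2) F.C1]

theorem pos : 0 < l0 := (F.toCl.s_pos (F.i0.trans F.i1)).trans_le (H.sl F hE)

theorem le {t x K : ℝ} (ht : l0 ≤ t) (hx : l0 ≤ x) (h : x ≤ K * t) (hK : 1 ≤ K) :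
    cf x ≤ 2 * K * cf t := by
  have t0 := (H.pos F hE).trans_le ht
  have c0 := t0.trans_le (H.ge t ht)
  rcases le_total x t with c | c
  · exact (H.mono x t hx c).trans (by nlinarith)
  · have := H.dbl t x ht c
    rw [div_le_iff₀ (t0.trans_le c)] at this
    calc _ ≤ 2 * (cf t / t) * (K * t) := this.trans (by gcongr)
      _ = _ := by field_simp

theorem crude {t κ : ℝ} (ht : l0 ≤ t) (h : cf t ≤ κ * t) (k0 : ℕ) : Crude (2 * κ) S M m a t k0 := by
  have t0 := (H.pos F hE).trans_le ht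
  have k1 : 1 ≤ κ := le_of_mul_le_mul_right (by linarith [H.ge t ht]) t0
  refine ⟨by linarith, fun k _ hk => (H.cru k hk).trans ?_⟩
  have := H.le F hE (x := max (M.z k) l0) (K := max (M.z k) t / t) ht (le_max_right _ _)
    (by rw [div_mul_cancel₀ _ t0.ne']; exact max_le_max le_rfl ht)
    (by rw [le_div_iff₀ t0, one_mul]; exact le_max_right _ _)
  calc _ ≤ 2 * (max (M.z k) t / t) * (κ * t) := this.trans (by gcongr)
    _ = _ := by field_simp

theorem wt {t : ℝ} (ht : l0 ≤ t) : S.w3 t ≤ t ^ 3 :=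
  (w3_anti F (H.pos F hE) ht).trans (H.l0w.trans (pow_le_pow_left₀ (H.pos F hE).le ht 3))

theorem idx {p : ℕ} (h : l0 ≤ M.s p) (hp : p ≤ S.J) : 8 * S.jl ≤ p := by
  have a1 := (F.s_mem F.toCl.jl_lt.le).1
  have a2 := (F.s_mem hp).2
  have a3 := mul_le_mul_of_nonneg_right hE (F.s_nonneg S.jl)
  have C0 := F.C0
  have a4 : S.C * S.v * (8 * S.jl) ≤ S.C * S.v * p := by
    nlinarith [H.l0s, mul_le_mul_of_nonneg_left a1 C0.le]
  exact_mod_cast le_of_mul_le_mul_left a4 (mul_pos C0 F.v0)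

theorem v_le : S.v ≤ S.C * l0 := by
  have a1 := (F.s_mem F.toCl.jl_lt.le).1
  have a2 : (1 : ℝ) ≤ S.jl := by exact_mod_cast F.i0.trans F.i1
  nlinarith [mul_le_mul_of_nonneg_right a2 F.v0.le, mul_le_mul_of_nonneg_left (H.sl F hE) F.C0.le]

/-- labels of the low zone -/
theorem z_low {k : ℕ} (hk : k < S.J) (h : M.s k ≤ l0) : M.z k ≤ 3 * S.C ^ 2 * l0 := by
  have a1 : M.s (max k S.jl) ≤ l0 := by
    rcases max_choice k S.jl with e | e <;> rw [e]
    exacts [h, H.sl F hE]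
  have a2 := F.z_le_s (k := max k S.jl) (F.i1.trans (le_max_right _ _)) (max_lt hk F.toCl.jl_lt)
  have a3 := F.leg.zm (le_max_left k S.jl)
  have a4 := H.v_le F hE
  have a5 := le_mul_of_one_le_left (H.pos F hE).le F.C1
  nlinarith [mul_le_mul_of_nonneg_left (show M.s (max k S.jl) + 2 * S.v ≤ 3 * (S.C * l0) by
    linarith) F.C0.le]

end Cf

/-- crude size -/
theorem Kx.cru (X : Kx lam S M m a) {E l0 : ℝ} {cf : ℝ → ℝ} (H : Cf E S M m a l0 cf)
    (hE : 8 * S.C ^ 2 ≤ E) {t K : ℝ} (ht : l0 ≤ t) (hK : 1 ≤ K) {k : ℕ} (hk : k ≤ M.N)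
    (h : M.z k ≤ K * t) : u4 M m a k ≤ 2 * K * lam * cf t := by
  have t0 := (H.pos X.fn hE).trans_le ht
  have c0 := t0.trans_le (H.ge t ht)
  have l2 := X.l2
  have := X.low _ t t0 ((H.sl X.fn hE).trans ht) (H.wt X.fn hE ht)
    (H.crude X.fn hE (κ := cf t / t) ht (div_mul_cancel₀ _ t0.ne').ge _) k hk
  calc _ ≤ lam * (2 * (cf t / t)) * (K * t) := this.trans (mul_le_mul_of_nonneg_left
        (max_le h (le_mul_of_one_le_left t0.le hK)) (by positivity))
    _ = _ := by field_simp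

/-- the usual passage from the context -/
theorem of_kx {R : CP} (hR : MoL R) (K : ℝ → ℝ) (k : ℕ) (h : ∀ E lam S M m a, Kx lam S M m a →
    K S.C ≤ lam → lam ≤ E → R E (lam ^ k) S M m a) : CL R :=
  kx_ev.glue' hR 0 le_rfl 1 k fun C _ _ _ _ _ => ⟨K C, fun S M m a G _ b1 _ _ _ X => by
    rw [pow_one]
    exact h _ _ S M m a X (by rw [G.hC]; exact G.K_le) (Pre29.rp_le G.n1 (by simpa using b1))⟩

theorem szL : SzL := by
  refine of_kx (fun E Λ Λ' S M m a l1 h H l0 cf c k hk => (H l0 cf c k hk).trans ?_)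
    (fun C => 8 * C ^ 2) 2 fun E lam S M m a X b1 b2 l0 cf H k hk => ?_
  · rcases le_total 0 (cf (max (M.z k) l0)) with e | e
    · exact mul_le_mul_of_nonneg_right h e
    · have := (u4_nn k).trans (H l0 cf c k hk)
      nlinarith
  · have l2 := X.l2
    have c0 := ((H.pos X.fn (b1.trans b2)).trans_le (le_max_right (M.z k) l0)).trans_le
      (H.ge _ (le_max_right _ _))
    refine (X.cru H (b1.trans b2) (le_max_right _ _) le_rfl hk.le
      (by rw [one_mul]; exact le_max_left _ _)).trans ?_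
    gcongr; nlinarith

theorem rp3 {x : ℝ} (hx : 0 ≤ x) : (x ^ ((1 : ℝ) / 3)) ^ 3 = x := by
  rw [← rpow_natCast, ← rpow_mul hx]; norm_num

theorem rp23 {x : ℝ} (hx : 0 ≤ x) : (x ^ ((2 : ℝ) / 3)) ^ 3 = x ^ 2 := by
  rw [← rpow_natCast, ← rpow_mul hx, ← rpow_natCast]; norm_num

theorem szP : SzP := by
  refine of_kx (fun E Λ Λ' S M m a l1 h H l0 cf c k κ a1 a2 a3 a4 =>
    (H l0 cf c k κ a1 a2 a3 a4).trans ?_)
    (fun C => 8 * C ^ 2) 2 fun E lam S M m a X b1 b2 l0 cf H k κ a1 a2 a3 _ => ?_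
  · have := (u4_nn k).trans (H l0 cf c k κ a1 a2 a3 a4)
    exact mul_le_mul_of_nonneg_right h (nonneg_of_mul_nonneg_right this (by linarith) |> fun e => e)
  · have hE := b1.trans b2
    have F := X.fn
    have l2 := X.l2
    have C0 := F.C0
    have v0 := F.v0
    have i1 := H.idx F hE a1 (by omega)
    have i2 := F.i0.trans F.i1
    obtain ⟨B, I⟩ := std_blk F (j := k) (by omega) (by omega) a2 (H.wt F hE a1)
    have c := H.crude F hE a1 a3 (k - k / 3)
    have k0 : 0 < κ := by linarith [c.1]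
    have w0 := F.w3_pos B.t0
    have e1 : 6 * S.C ^ 3 ≤ 9 * S.C ^ 3 := by gcongr; norm_num
    have := X.pt (α := 2 * (κ ^ ((2 : ℝ) / 3) * w1 S (M.s k))) (QB_mono F.toCl B e1) a2.le
      (Inn_mono I B.t0.le (by positivity) e1) c (by unfold w1; positivity) (by
        rw [mul_pow, mul_pow, mul_pow, w1, rp3 w0.le, rp23 k0.le]
        nlinarith [mul_pos w0 (pow_pos k0 2)])
    have e2 := ev_anti (f := M.rb m a) (a := k - k / 3) (b := k + k / 3) (k := k)
      (show κ * S.v ≤ 2 * κ * S.v by nlinarith [mul_pos k0 v0])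
    have e3 : 0 ≤ ev (M.rb m a) (κ * S.v) (k - k / 3) (k + k / 3) k := ev_nonneg
    have e4 : 0 ≤ κ ^ ((2 : ℝ) / 3) * w1 S (M.s k) := by unfold w1; positivity
    calc _ ≤ lam * (2 * (κ ^ ((2 : ℝ) / 3) * w1 S (M.s k) +
          ev (M.rb m a) (κ * S.v) (k - k / 3) (k + k / 3) k)) :=
          this.trans (mul_le_mul_of_nonneg_left (by linarith) (by linarith))
      _ ≤ _ := by rw [← mul_assoc]; gcongr; nlinarith

/-! ### sup location from the energy, below the top window -/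

theorem del_le (F : Fn S M m a) {R : ℝ} (R0 : 0 ≤ R) (R1 : R ≤ 1)
    (h : Ap63.Sx M.z (M.del m a) S.j0 S.Jp 2 ≤ R ^ 3) {k : ℕ} (h0 : 2 * S.j0 ≤ k)
    (h1 : S.J ≤ 16 * (S.J - k)) : |M.del m a k| ≤ 14 * S.C ^ 2 * R + 2 * (S.C * S.v) := by
  have C0 := F.C0
  have C1 := F.C1
  have v0 := F.v0
  have i0 := F.i0
  have i2 := F.i2
  have i3 := F.i3
  have i4 := F.i4
  have kJ : k < S.J := by omega
  have c2 : 1 ≤ S.C ^ 2 := one_le_pow₀ C1
  have g0 : 0 < S.C * S.v := by positivity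
  have p0 : 0 ≤ S.C ^ 2 * R := by positivity
  have hq : ∀ {i j : ℕ}, i ≤ j → j ≤ S.J → M.q j - M.q i ≤ ((j : ℝ) - i) * (S.C * S.v) :=
    fun a1 a2 => (Ap63.q_slow F.toCl a1 (by omega)).trans (F.toCl.s_tel a1 a2).2
  have rm := Md67.rb_mono (M := M) (a := a) F.lg.m0
  have cub : ∀ ρ e : ℝ, 0 ≤ e → ρ ^ 2 * (ρ - e) ≤ S.C ^ 2 * R ^ 3 → ρ ≤ S.C ^ 2 * R + e :=
    fun ρ e e0 hρ => not_lt.1 fun c => by
      have a1 : R ≤ S.C ^ 2 * R := le_mul_of_one_le_left R0 c2
      have a2 : R ^ 2 ≤ ρ ^ 2 := pow_le_pow_left₀ R0 (by linarith) 2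
      have a3 := mul_lt_mul_of_pos_left (show S.C ^ 2 * R < ρ - e by linarith)
        (show 0 < ρ ^ 2 by have : 0 < ρ := by linarith
                           positivity)
      nlinarith [mul_le_mul_of_nonneg_right a2 p0]
  set ρ := |M.del m a k| / 2 with hρ
  have ρ0 : 0 ≤ ρ := by positivity
  have f1 := Nat.floor_le (show 0 ≤ ρ / (S.C * S.v) by positivity)
  have f2 := Nat.lt_floor_add_one (ρ / (S.C * S.v))
  generalize ⌊ρ / (S.C * S.v)⌋₊ = r at f1 f2
  rw [le_div_iff₀ g0] at f1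
  rw [div_lt_iff₀ g0] at f2
  suffices ρ ≤ 7 * (S.C ^ 2 * R) + S.C * S.v by linarith
  rcases abs_cases (M.del m a k) with ⟨e, -⟩ | ⟨e, -⟩
  · have key : ∀ r' : ℕ, r' ≤ r → k + r' < S.J → ρ ^ 2 * ((r' + 1) * (S.v / S.C)) ≤ R ^ 3 :=
      fun r' a1 a2 => by
        have b := Ap63.blk_le (y := M.del m a) (lo := S.j0) (hi := S.Jp) (p := k - 1) (q := k + r')
          F.leg.zm (by omega) (by omega) (by omega) ρ0 (fun j b1 b2 => le_trans (by
            have c1 := hq (show k ≤ j by omega) (by omega)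
            have c2 : ((j : ℝ) - k) ≤ r := by
              have : (j : ℝ) ≤ ((k + r : ℕ) : ℝ) := by exact_mod_cast (by omega : j ≤ k + r)
              push_cast at this; linarith
            have c3 := rm (show k ≤ j by omega)
            unfold Md.del at *
            nlinarith [mul_le_mul_of_nonneg_right c2 g0.le]) (le_abs_self _)) 2
        have c := (F.toCl.z_tel (i := k - 1) (j := k + r') (by omega) (by omega) a2).1
        rw [Nat.cast_sub (by omega)] at c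
        push_cast at c
        refine le_trans (mul_le_mul_of_nonneg_left (le_trans (le_of_eq ?_) c) (sq_nonneg ρ))
          (b.trans h)
        ring
    rcases lt_or_ge (k + r) S.J with c | c
    · have a1 := mul_le_mul_of_nonneg_left (key r le_rfl c) (sq_nonneg S.C)
      have a2 : S.C ^ 2 * (ρ ^ 2 * ((r + 1) * (S.v / S.C))) = ρ ^ 2 * ((r + 1) * (S.C * S.v)) := by
        field_simp
      have := cub ρ 0 le_rfl (by nlinarith [mul_le_mul_of_nonneg_left f2.le (sq_nonneg ρ)])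
      linarith
    · have a1 := key (S.J - k - 1) (by omega) (by omega)
      have a2 : (S.J : ℝ) ≤ 16 * (((S.J - k - 1 : ℕ) : ℝ) + 1) := by
        exact_mod_cast (by omega : S.J ≤ 16 * (S.J - k - 1 + 1))
      have a3 : 1 ≤ 48 * S.C ^ 4 * ((((S.J - k - 1 : ℕ) : ℝ) + 1) * (S.v / S.C)) :=
        calc _ ≤ 3 * S.C ^ 3 * (16 * (((S.J - k - 1 : ℕ) : ℝ) + 1) * S.v) :=
              F.J_lo.trans (by gcongr)
          _ = _ := by field_simp; ring
      have a4 := mul_le_mul_of_nonneg_left a3 (sq_nonneg ρ)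
      have a5 := mul_le_mul_of_nonneg_left a1 (show 0 ≤ 48 * S.C ^ 4 by positivity)
      have a6 : R ^ 3 ≤ R ^ 2 := pow_le_pow_of_le_one R0 R1 (by norm_num)
      have a7 := mul_le_mul_of_nonneg_left a6 (show 0 ≤ 48 * S.C ^ 4 by positivity)
      have : ρ ≤ 7 * (S.C ^ 2 * R) :=
        le_of_pow_le_pow_left₀ two_ne_zero (by positivity) (by nlinarith [sq_nonneg (S.C ^ 2 * R)])
      linarith
  · have a0 : 2 * ρ ≤ S.C * (k * S.v) := by
      have := F.toCl.q_le_s (k := k) (by omega)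
      have := (F.s_mem kJ.le).2
      have := rb_nonneg (M := M) (a := a) F.lg.m0 k
      unfold Md.del at *
      linarith
    have a1 : 2 * r ≤ k := by
      have : S.C * S.v * (2 * r) ≤ S.C * S.v * k := by nlinarith
      exact_mod_cast le_of_mul_le_mul_left this g0
    have b := Ap63.blk_le (y := M.del m a) (lo := S.j0) (hi := S.Jp) (p := k - r) (q := k)
      F.leg.zm (by omega) (by omega) (by omega) ρ0 (fun j b1 b2 => le_trans (by
        have c1 := hq b2 kJ.le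
        have c2 : ((k : ℝ) - j) ≤ r := by
          have : (k : ℝ) ≤ ((j + r : ℕ) : ℝ) := by exact_mod_cast (by omega : k ≤ j + r)
          push_cast at this; linarith
        have c3 := rm b2
        unfold Md.del at *
        nlinarith [mul_le_mul_of_nonneg_right c2 g0.le]) (neg_le_abs _)) 2
    have c := (F.toCl.z_tel (i := k - r) (j := k) (by omega) (by omega) kJ).1
    rw [Nat.cast_sub (by omega), sub_sub_cancel] at c
    have a2 := mul_le_mul_of_nonneg_left ((mul_le_mul_of_nonneg_left c (sq_nonneg ρ)).trans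
      (b.trans h)) (sq_nonneg S.C)
    have a3 : S.C ^ 2 * (ρ ^ 2 * (r * (S.v / S.C))) = ρ ^ 2 * (r * (S.C * S.v)) := by field_simp
    have := cub ρ (S.C * S.v) g0.le (by nlinarith [mul_le_mul_of_nonneg_left f2.le (sq_nonneg ρ)])
    linarith

end Crest.Agent.T156.Alt.Sz9

end
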