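import Crest.Agent.T156.LocG_69

/-!
# Row 156, block (L): local rigidity from good times, thin regime (helper69)

`Tk.crude`: the potential without any condition on the gaps; `Tk.thin`: labels from the potential
and a one-sided Lipschitz bound.
-/

set_option autoImplicit false

namespace Crest.Agent.T156.Rig

open Set Real

/-- uniform convexity costs oscillation -/
theorem PC2.conv_le {S : Finset ℝ} {a b : ℝ} {W ω ν : ℝ → ℝ} (h : PC2 S a b W ω ν) {k B : ℝ}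
    (hab : a ≤ b) (hW : ∀ t ∈ Icc a b, |W t| ≤ B) (hν : ∀ t ∈ Ioo a b, t ∉ S → k ≤ ν t) :
    k * (b - a) ^ 2 ≤ 16 * B := by
  have h' : PC2 S a b (fun t => B - k / 2 * ((t - a) * (b - t)))
      (fun t => -(k / 2 * (a + b - 2 * t))) fun _ => k := by
    refine PC2.of_smooth S a b (fun t => ?_) fun t => ?_
    · have := ((((hasDerivAt_id' t).sub_const a).fun_mul
        ((hasDerivAt_id' t).const_sub b)).const_mul (k / 2)).const_sub B
      exact this.congr_deriv (by ring)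
    · have := ((((hasDerivAt_id' t).const_mul 2).const_sub (a + b)).const_mul (k / 2)).fun_neg
      exact this.congr_deriv (by ring)
  have hm : (a + b) / 2 ∈ Icc a b := ⟨by linarith, by linarith⟩
  have := h.cmp h' (by simpa using (abs_le.1 (hW a ⟨le_rfl, hab⟩)).2)
    (by simpa using (abs_le.1 (hW b ⟨hab, le_rfl⟩)).2) (fun u hu hS _ => hν u hu hS) _ hm
  have h2 := (abs_le.1 (hW _ hm)).1
  nlinarith

namespace Tk

variable {S : Finset ℝ} {a b : ℝ} {W ω ν u : ℝ → ℝ} {gp : ℝ → ℝ → Prop}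
  {b₀ b₁ p₀ d D err C₁ δ : ℝ}

private theorem crude_up (h : Tk S a b W ω ν u gp b₀ b₁ p₀ d D err C₁ δ) {Γ R : ℝ}
    (hs : Sh a b gp a b Γ) (hR : ∀ t ∈ Icc a b, |u t| ≤ R) {t : ℝ} (ht : t ∈ Icc a b) :
    W t ≤ err + D * R + Γ ^ 2 / 8 * (2 * b₁ * R + p₀) := by
  obtain ⟨s, s', hg, h1, h2, h3, h4⟩ := h.cov t ht
  have hss : s ≤ s' := h2.trans h3
  have hl := hs s s' hg h1 hss h4 (hss.trans h4) (h1.trans hss)
  have hR0 : 0 ≤ R := (abs_nonneg _).trans (hR t ht)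
  have e : ∀ {r m : ℝ}, r ∈ Icc a b → d ≤ m → m ≤ D → |W r - m * u r| ≤ err →
      W r ≤ err + D * R := fun {r m} hr m1 m2 m3 => by
    have := (abs_le.1 m3).2
    have h5 : m * u r ≤ D * R :=
      (mul_le_mul_of_nonneg_left (abs_le.1 (hR r hr)).2 (h.d0.le.trans m1)).trans
        (mul_le_mul_of_nonneg_right m2 hR0)
    linarith
  obtain ⟨m, m1, m2, m3⟩ := h.eL s s' hg h1 hss h4
  obtain ⟨m', n1, n2, n3⟩ := h.eR s s' hg h1 hss h4
  have hA : 0 ≤ 2 * b₁ * R + p₀ := by have := h.b1; have := h.p0; positivity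
  have hc := (h.pc.mono h1 h4 (Finset.Subset.refl S)).chord hA (e ⟨h1, hss.trans h4⟩ m1 m2 m3)
    (e ⟨h1.trans hss, h4⟩ n1 n2 n3) (fun r hr hS => by
      have hr' : r ∈ Ioo a b := ⟨h1.trans_lt hr.1, hr.2.trans_le h4⟩
      obtain ⟨β, β1, β2, β3⟩ := h.rel r hr' hS
      have hβ : 0 ≤ β := h.b0.trans β1
      have h5 := (abs_le.1 β3).1
      have h6 := (abs_le.1 (hR r (Ioo_subset_Icc_self hr'))).1
      have h8 : β * -u r ≤ b₁ * R :=
        (mul_le_mul_of_nonneg_left (by linarith) hβ).trans (mul_le_mul_of_nonneg_right β2 hR0)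
      linarith) t ⟨h2, h3⟩
  have hsq : (s' - s) ^ 2 ≤ Γ ^ 2 := pow_le_pow_left₀ (sub_nonneg.2 hss) hl 2
  have : (s' - s) ^ 2 / 8 * (2 * b₁ * R + p₀) ≤ Γ ^ 2 / 8 * (2 * b₁ * R + p₀) := by gcongr
  linarith

/-- the potential, no condition on the gaps -/
theorem crude (h : Tk S a b W ω ν u gp b₀ b₁ p₀ d D err C₁ δ) {Γ R : ℝ}
    (hs : Sh a b gp a b Γ) (hR : ∀ t ∈ Icc a b, |u t| ≤ R) {t : ℝ} (ht : t ∈ Icc a b) :
    |W t| ≤ err + D * R + Γ ^ 2 / 8 * (2 * b₁ * R + p₀) :=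
  abs_le.2 ⟨by linarith [h.neg.crude_up hs (fun r hr => by simpa using hR r hr) ht],
    h.crude_up hs hR ht⟩

/-- **labels from the potential and a one-sided Lipschitz bound** -/
theorem thin' (h : Tk S a b W ω ν u gp b₀ b₁ p₀ d D err C₁ δ) {a' b' B C₂ δ' ℓ : ℝ}
    (ha : a ≤ a') (hb : b' ≤ b) (hb₀ : 0 < b₀) (hℓ : 0 < ℓ) (hC₂ : 0 ≤ C₂) (_hδ' : 0 ≤ δ')
    (hW : ∀ t ∈ Icc a' b', |W t| ≤ B)
    (hlip : ∀ t t', a' ≤ t → t ≤ t' → t' ≤ b' → u t - (C₂ * (t' - t) + δ') ≤ u t')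
    {t : ℝ} (ht : t ∈ Icc (a' + ℓ) (b' - ℓ)) :
    |u t| ≤ C₂ * ℓ + δ' + p₀ / (2 * b₀) + 8 * B / (b₀ * ℓ ^ 2) := by
  have t1 : a' ≤ t := by linarith [ht.1]
  have t2 : t ≤ b' := by linarith [ht.2]
  have hB : 0 ≤ B := (abs_nonneg _).trans (hW t ⟨t1, t2⟩)
  have hp := h.p0
  have fin : ∀ y : ℝ, (2 * b₀ * y - p₀) * ℓ ^ 2 ≤ 16 * B →
      y ≤ p₀ / (2 * b₀) + 8 * B / (b₀ * ℓ ^ 2) := fun y hy => by
    rw [div_add_div _ _ (by positivity) (by positivity), le_div_iff₀ (by positivity)]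
    nlinarith [mul_le_mul_of_nonneg_left hy hb₀.le]
  have z0 : 0 ≤ p₀ / (2 * b₀) + 8 * B / (b₀ * ℓ ^ 2) := by positivity
  refine abs_le.2 ⟨?_, ?_⟩
  · rcases le_or_gt (-u t - (C₂ * ℓ + δ')) 0 with c | c
    · linarith
    have := (h.pc.mono (a' := t - ℓ) (b' := t) (by linarith [ht.1]) (t2.trans hb)
      (Finset.Subset.refl S)).neg.conv_le (k := 2 * b₀ * (-u t - (C₂ * ℓ + δ')) - p₀) (B := B)
      (by linarith) (fun r hr => by
        rw [abs_neg]; exact hW r ⟨by linarith [hr.1, ht.1], hr.2.trans t2⟩) fun r hr hS => by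
        obtain ⟨β, β1, -, β3⟩ := h.rel r ⟨by linarith [hr.1, ht.1], hr.2.trans_le (t2.trans hb)⟩ hS
        have h5 := (abs_le.1 β3).2
        have h6 := hlip r t (by linarith [hr.1, ht.1]) hr.2.le t2
        have h7 : C₂ * (t - r) ≤ C₂ * ℓ := mul_le_mul_of_nonneg_left (by linarith [hr.1]) hC₂
        have h8 : b₀ * (-u t - (C₂ * ℓ + δ')) ≤ β * -u r :=
          mul_le_mul β1 (by linarith) c.le (hb₀.le.trans β1)
        show _ ≤ -ν r
        linarith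
    rw [sub_sub_cancel] at this
    linarith [fin _ this]
  · rcases le_or_gt (u t - (C₂ * ℓ + δ')) 0 with c | c
    · linarith
    have := (h.pc.mono (a' := t) (b' := t + ℓ) (ha.trans t1) (by linarith [ht.2])
      (Finset.Subset.refl S)).conv_le (k := 2 * b₀ * (u t - (C₂ * ℓ + δ')) - p₀) (B := B)
      (by linarith) (fun r hr => hW r ⟨t1.trans hr.1, by linarith [hr.2, ht.2]⟩) fun r hr hS => by
        obtain ⟨β, β1, -, β3⟩ := h.rel r ⟨(ha.trans t1).trans_lt hr.1, by linarith [hr.2, ht.2]⟩ hS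
        have h5 := (abs_le.1 β3).1
        have h6 := hlip t r t1 hr.1.le (by linarith [hr.2, ht.2])
        have h7 : C₂ * (r - t) ≤ C₂ * ℓ := mul_le_mul_of_nonneg_left (by linarith [hr.2]) hC₂
        have h8 : b₀ * (u t - (C₂ * ℓ + δ')) ≤ β * u r :=
          mul_le_mul β1 (by linarith) c.le (hb₀.le.trans β1)
        linarith
    rw [add_sub_cancel_left] at this
    linarith [fin _ this]

/-- **thin regime** -/
theorem thin (h : Tk S a b W ω ν u gp b₀ b₁ p₀ d D err C₁ δ) {Γ R C₂ δ' ℓ : ℝ}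
    (hs : Sh a b gp a b Γ) (hR : ∀ t ∈ Icc a b, |u t| ≤ R) (hb₀ : 0 < b₀) (hℓ : 0 < ℓ)
    (hC₂ : 0 ≤ C₂) (hδ' : 0 ≤ δ')
    (hlip : ∀ t t', a ≤ t → t ≤ t' → t' ≤ b → u t - (C₂ * (t' - t) + δ') ≤ u t')
    {t : ℝ} (ht : t ∈ Icc (a + ℓ) (b - ℓ)) :
    |u t| ≤ C₂ * ℓ + δ' + p₀ / (2 * b₀) +
      8 * (err + D * R + Γ ^ 2 / 8 * (2 * b₁ * R + p₀)) / (b₀ * ℓ ^ 2) :=
  h.thin' le_rfl le_rfl hb₀ hℓ hC₂ hδ' (fun _ hr => h.crude hs hR hr) hlip ht

end Tk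

end Crest.Agent.T156.Rig
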