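import Crest.Agent.T156.ClZb_9
import Crest.Agent.T156.RigD_63
import Crest.Agent.T156.LocH_69

/-!
Row 156, ALT, text (L) (helper9): the local rigidity data `Rig.Tk` of a member of the class, from
good nodes on a window of the sloped part.
-/

set_option autoImplicit false

noncomputable section

namespace Crest.Agent.T156.Alt.Mp9

open MeasureTheory Set Real
open Crest.Agent.R164.GC Crest.Agent.R339.B Crest.Agent.R339.Var Crest.Agent.T157.Pf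
open Crest.Agent.T156.Pp.Area50 Crest.Agent.T156.Spl27 Crest.Agent.T156.Zb9

/-- no good node strictly between the good nodes `i ≤ j` of `[u, v]` -/
def Nx (Gn : ℕ → Prop) (u v i j : ℕ) : Prop :=
  u ≤ i ∧ i ≤ j ∧ j ≤ v ∧ Gn i ∧ Gn j ∧ ∀ k, i < k → k < j → ¬ Gn k

/-- the gaps in times -/
def gp (σ : ℕ → ℝ) (Gn : ℕ → Prop) (u v : ℕ) (s s' : ℝ) : Prop :=
  ∃ i j, Nx Gn u v i j ∧ s = σ i ∧ s' = σ j

/-- every time of the window lies in a gap -/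
theorem exists_nx {σ : ℕ → ℝ} {Gn : ℕ → Prop} {u v : ℕ} (huv : u ≤ v) (gu : Gn u) (gv : Gn v)
    {t : ℝ} (h1 : σ u ≤ t) (h2 : t ≤ σ v) : ∃ i j, Nx Gn u v i j ∧ σ i ≤ t ∧ t ≤ σ j := by
  classical
  have ex : ∃ j, u ≤ j ∧ Gn j ∧ t ≤ σ j := ⟨v, huv, gv, h2⟩
  obtain ⟨j1, j2, j3⟩ := Nat.find_spec ex
  have jv : Nat.find ex ≤ v := Nat.find_min' ex ⟨huv, gv, h2⟩
  rcases j1.eq_or_lt with e | e
  · exact ⟨u, Nat.find ex, ⟨le_rfl, j1, jv, gu, j2, fun k a b => by omega⟩, h1, j3⟩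
  · set j := Nat.find ex with hj
    have p : ∃ i, i ≤ j - 1 ∧ u ≤ i ∧ Gn i := ⟨u, by omega, le_rfl, gu⟩
    have q := Nat.findGreatest_spec (P := fun i => u ≤ i ∧ Gn i) (m := u) (n := j - 1) (by omega)
      ⟨le_rfl, gu⟩
    have r := Nat.findGreatest_le (P := fun i => u ≤ i ∧ Gn i) (j - 1)
    refine ⟨_, j, ⟨q.1, by omega, jv, q.2, j2, fun k a b c => ?_⟩, ?_, j3⟩
    · exact Nat.findGreatest_is_greatest a (by omega) ⟨q.1.trans a.le, c⟩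
    · by_contra hc
      exact Nat.find_min ex (show Nat.findGreatest (fun i => u ≤ i ∧ Gn i) (j - 1) < j by omega)
        ⟨q.1, q.2, (not_le.1 hc).le⟩

/-- **window data**: good nodes `u ≤ v` above the W-mark, both times in `[a', b']` below the atom;
label gap `δ + θ Δσ`, residual `c ± er` and `|G| ≤ g` at good nodes, `H⁻¹` size `≤ j` -/
structure Wd (S : Sc) (M : Md) (m : ℕ) (a T : ℝ) (Gn : ℕ → Prop) (u v : ℕ)
    (a' b' δ θ c er g j : ℝ) : Prop where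
  at' : At S M m a T
  ju : S.jl < u
  uv : u ≤ v
  gu : Gn u
  gv : Gn v
  a0 : 0 ≤ a'
  b1 : b' < M.s S.J
  su : a' ≤ M.s u
  sv : M.s v ≤ b'
  bu : a' ≤ sb M m a (u + 1)
  bv : sb M m a (v + 1) ≤ b'
  δ0 : 0 ≤ δ
  θ0 : 0 ≤ θ
  gap : ∀ i k, Nx Gn u v i k → M.z k ≤ M.z i + (δ + θ * (sb M m a (k + 1) - sb M m a (i + 1)))
  e1 : ∀ k, u ≤ k → k ≤ v → Gn k → |res M S m a T k - c| ≤ er
  hg : ∀ k, u ≤ k → k ≤ v → Gn k → |M.G k| ≤ g
  hp : ∀ t ∈ Icc (sb M m a (u + 1)) (sb M m a (v + 1)), Rig.Hp (lh M T) (lb M S m a T) t ≤ j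

/-- the potential -/
def WW (M : Md) (S : Sc) (m : ℕ) (a T c t : ℝ) : ℝ :=
  Rig.Mf M.b (lb M S m a T) t - Rig.Mf M.b (lh M T) t - -(M.b * c)

/-- the error at good nodes -/
def errW (S : Sc) (m : ℕ) (b' er g : ℝ) : ℝ :=
  S.C * er + g + S.C / (m + 1) + S.C ^ 3 * S.ms b' * S.v

/-- the error in the length of a gap -/
def errL (S : Sc) (b' δ er g : ℝ) : ℝ :=
  2 * (S.C * er) + 2 * g + S.C ^ 2 * S.ms b' * (δ + S.C * S.v)

namespace Wd
variable {S : Sc} {M : Md} {m : ℕ} {a T : ℝ} {Gn : ℕ → Prop} {u v : ℕ} {a' b' δ θ c er g j : ℝ}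

theorem vJ (W : Wd S M m a T Gn u v a' b' δ θ c er g j) : v < S.J :=
  lt_of_not_ge fun h => absurd (W.at'.cl.sm h) (not_le.2 (W.sv.trans_lt W.b1))

theorem vJp (W : Wd S M m a T Gn u v a' b' δ θ c er g j) : v ≤ S.Jp :=
  W.vJ.le.trans W.at'.cl.i3

theorem ms (W : Wd S M m a T Gn u v a' b' δ θ c er g j) {k : ℕ} (h1 : u ≤ k) (h2 : k ≤ v) :
    M.s k ∈ Icc a' b' := ⟨W.su.trans (W.at'.cl.sm h1), (W.at'.cl.sm h2).trans W.sv⟩

theorem mb (W : Wd S M m a T Gn u v a' b' δ θ c er g j) {k : ℕ} (h1 : u ≤ k) (h2 : k ≤ v) :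
    sb M m a (k + 1) ∈ Icc a' b' := ⟨W.bu.trans (W.at'.sb_mono (Nat.succ_le_succ h1)),
  (W.at'.sb_mono (Nat.succ_le_succ h2)).trans W.bv⟩

theorem b_mem (W : Wd S M m a T Gn u v a' b' δ θ c er g j) : 1 ≤ M.b ∧ M.b ≤ S.C :=
  ⟨(d_mem W.at'.cl le_rfl).1, W.at'.cl.b1⟩

theorem er0 (W : Wd S M m a T Gn u v a' b' δ θ c er g j) : 0 ≤ er :=
  (abs_nonneg _).trans (W.e1 u le_rfl W.uv W.gu)

theorem g0 (W : Wd S M m a T Gn u v a' b' δ θ c er g j) : 0 ≤ g :=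
  (abs_nonneg _).trans (W.hg u le_rfl W.uv W.gu)

theorem ab (W : Wd S M m a T Gn u v a' b' δ θ c er g j) : a' ≤ b' :=
  (W.ms le_rfl W.uv).1.trans (W.ms le_rfl W.uv).2

theorem errW0 (W : Wd S M m a T Gn u v a' b' δ θ c er g j) : 0 ≤ errW S m b' er g := by
  have := W.er0; have := W.g0; have := W.at'.c_pos; have := v_pos W.at'.cl
  have := W.at'.ms_pos (W.a0.trans W.ab)
  unfold errW; positivity

theorem errL0 (W : Wd S M m a T Gn u v a' b' δ θ c er g j) : 0 ≤ errL S b' δ er g := by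
  have := W.er0; have := W.g0; have := W.at'.c_pos; have := v_pos W.at'.cl
  have := W.at'.ms_pos (W.a0.trans W.ab); have := W.δ0
  unfold errL; positivity

theorem bres (W : Wd S M m a T Gn u v a' b' δ θ c er g j) {k : ℕ} (h1 : u ≤ k) (h2 : k ≤ v)
    (hk : Gn k) : |M.b * res M S m a T k - M.b * c| ≤ S.C * er := by
  rw [← mul_sub, abs_mul, abs_of_nonneg (by linarith [W.b_mem.1])]
  exact mul_le_mul W.b_mem.2 (W.e1 k h1 h2 hk) (abs_nonneg _) W.at'.c_pos.le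

/-- `W = μ u ± err` at a good node -/
theorem node (W : Wd S M m a T Gn u v a' b' δ θ c er g j) {k : ℕ} (h1 : u ≤ k) (h2 : k ≤ v)
    (hk : Gn k) : ∃ μ, S.ms a' / S.C ^ 2 ≤ μ ∧ μ ≤ S.C ^ 2 * S.ms b' ∧
      |WW M S m a T c (sb M m a (k + 1)) - μ * uu M S m a T (sb M m a (k + 1))| ≤
        errW S m b' er g := by
  obtain ⟨μ, m1, m2⟩ := W.at'.W_rep W.a0 W.b1 (W.ju.trans_le h1) (W.ms h1 h2) (W.mb h1 h2)
  have p := abs_le.1 (W.bres h1 h2 hk)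
  have q := W.hg k h1 h2 hk
  refine ⟨μ, m1.1, m1.2, ?_⟩
  unfold WW errW
  refine abs_le.2 ⟨?_, ?_⟩ <;> linarith [(abs_le.1 m2).1, (abs_le.1 m2).2, p.1, p.2]

/-- **the data of the local rigidity lemmas** -/
theorem tk (T0 : ℝ) : ∃ K : ℝ, 1 ≤ K ∧ ∀ {S : Sc} {M : Md} {m : ℕ} {a T : ℝ} {Gn : ℕ → Prop}
    {u v : ℕ} {a' b' δ θ c er g j : ℝ}, Wd S M m a T Gn u v a' b' δ θ c er g j → T ≤ T0 →
    Rig.Tk (Rig.brk (lb M S m a T) ∪ Rig.brk (lh M T)) (sb M m a (u + 1)) (sb M m a (v + 1))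
      (WW M S m a T c) (fun t => Rig.muf M.b (lb M S m a T) t - Rig.muf M.b (lh M T) t)
      (fun t => Rig.nuf M.b (lb M S m a T) t - Rig.nuf M.b (lh M T) t) (uu M S m a T)
      (gp (fun k => sb M m a (k + 1)) Gn u v) (exp (-(4 * T0))) S.C (K * S.C * j)
      (S.ms a' / S.C ^ 2) (S.C ^ 2 * S.ms b') (errW S m b' er g) (θ + S.C) (δ + S.C * S.v) := by
  obtain ⟨K, K1, H⟩ := Rig.rel' T0
  refine ⟨K, K1, fun {S M m a T Gn u v a' b' δ θ c er g j} W hT => ?_⟩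
  have A := W.at'
  have C0 := A.c_pos
  have C1 := A.cl.C1
  have v0 := v_pos A.cl
  have mu := A.sb_mem (W.uv.trans W.vJp)
  have mv := A.sb_mem W.vJp
  have uv := A.sb_mono (Nat.succ_le_succ W.uv)
  have b0 : 0 ≤ M.b := by linarith [W.b_mem.1]
  have hp0 : ∀ t, t ≤ T → 0 ≤ Rig.Hp (lh M T) (lb M S m a T) t := fun t _ =>
    add_nonneg (abs_nonneg _) (intervalIntegral.integral_nonneg (by rw [A.okh.2]; exact mu.1.trans mu.2)
      fun _ _ => abs_nonneg _)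
  have j0 : 0 ≤ j := (hp0 _ mu.2).trans (W.hp _ ⟨le_rfl, uv⟩)
  have p1 := A.ms_pos W.a0
  have p2 := A.cl.msm W.ab
  refine ⟨Rig.pc2_pair (ap_of_ok A.okb.1) (ap_of_ok A.okh.1) _ _ mu.1 (by rw [A.okb.2]; exact mv.2)
    (by rw [A.okh.2]; exact mv.2), (exp_pos _).le, C0.le, by positivity, by positivity, ?_,
    by linarith [W.θ0], by linarith [W.δ0, mul_pos C0 v0], fun t ht _ => ?_, fun t ht => ?_, ?_, ?_, ?_⟩
  · have C2 : 1 ≤ S.C ^ 2 := one_le_pow₀ C1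
    exact ((div_le_self p1.le C2).trans p2).trans (le_mul_of_one_le_left (by linarith) C2)
  · obtain ⟨be, h1, h2⟩ := H _ _ (ap_of_ok A.okb.1) (ap_of_ok A.okh.1) (A.okb.2.trans A.okh.2.symm)
      (by rwa [A.okh.2]) M.b b0 t (by rw [A.okh.2]; exact ⟨mu.1.trans ht.1.le, ht.2.le.trans mv.2⟩)
    refine ⟨be, (le_mul_of_one_le_left (exp_pos _).le W.b_mem.1).trans h1.1, h1.2.trans W.b_mem.2,
      h2.trans ?_⟩
    exact mul_le_mul (mul_le_mul_of_nonneg_left W.b_mem.2 (by linarith)) (W.hp t ⟨ht.1.le, ht.2.le⟩)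
      (hp0 t (ht.2.le.trans mv.2)) (by positivity)
  · obtain ⟨i, k, n, h1, h2⟩ := exists_nx (σ := fun k => sb M m a (k + 1)) W.uv W.gu W.gv ht.1 ht.2
    exact ⟨_, _, ⟨i, k, n, rfl, rfl⟩, A.sb_mono (Nat.succ_le_succ n.1), h1, h2,
      A.sb_mono (Nat.succ_le_succ n.2.2.1)⟩
  · rintro _ _ ⟨i, k, n, rfl, rfl⟩ - - -
    exact W.node n.1 (n.2.1.trans n.2.2.1) n.2.2.2.1
  · rintro _ _ ⟨i, k, n, rfl, rfl⟩ - - -
    exact W.node (n.1.trans n.2.1) n.2.2.1 n.2.2.2.2.1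
  · rintro _ _ ⟨i, k, n, rfl, rfl⟩ - - - t ht t' ht'
    have i1 : S.jl ≤ i := W.ju.le.trans n.1
    have k1 : k ≤ S.Jp := n.2.2.1.trans W.vJp
    exact osc_gap (Sc48.lvr_mono A.okb.1.1) (Sc48.lvr_mono A.okh.1.1) (A.sl W.b1)
      (W.a0.trans (W.mb n.1 (n.2.1.trans n.2.2.1)).1) (W.mb (n.1.trans n.2.1) n.2.2.1).2 le_rfl W.δ0
      W.θ0 C0.le (mul_pos C0 v0).le (by
        rw [A.lvb_node i1 (n.2.1.trans k1), A.lvb_node (i1.trans n.2.1) k1]; exact W.gap i k n) ht ht'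

/-- short gaps, from the nodes -/
theorem sh {σ : ℕ → ℝ} {Γ p q p' q' : ℝ} (h : ∀ i k, Nx Gn u v i k → σ k - σ i ≤ Γ) :
    Rig.Sh p q (gp σ Gn u v) p' q' Γ := by
  rintro _ _ ⟨i, k, n, rfl, rfl⟩ - - - - -
  exact h i k n

/-- hypothesis `hlip` of `Tk.thin` -/
theorem hlip (W : Wd S M m a T Gn u v a' b' δ θ c er g j) (t t' : ℝ) (h1 : sb M m a (u + 1) ≤ t)
    (h2 : t ≤ t') (h3 : t' ≤ sb M m a (v + 1)) :
    uu M S m a T t - (S.C * (t' - t) + S.C * S.v) ≤ uu M S m a T t' := by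
  linarith [(W.at'.aosl W.a0 W.ab W.b1).lower t t' (W.bu.trans h1) h2 (h3.trans W.bv)]

/-- increments of the marks between two nodes of the window -/
theorem H_le (W : Wd S M m a T Gn u v a' b' δ θ c er g j) {i k : ℕ} (h1 : u ≤ i) (h2 : i ≤ k)
    (h3 : k ≤ v) : M.H k - M.H i ≤
      S.C ^ 2 * S.ms b' * (M.z k - M.z i + S.C * S.v) + (M.G k - M.G i) := by
  have A := W.at'
  have C0 := A.c_pos
  have mi := W.ms h1 (h2.trans h3)
  have mk := W.ms (h1.trans h2) h3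
  have j0 : S.j0 ≤ i := A.cl.i1.trans (W.ju.le.trans h1)
  have p := (A.Mf_sl W.a0 (W.b1.le.trans (A.cl.sm A.cl.i3)) _ _ mi.1 (A.cl.sm h2) mk.2).2
  rw [A.Mf_node (W.ju.trans_le (h1.trans h2)) (h3.trans W.vJp),
    A.Mf_node (W.ju.trans_le h1) ((h2.trans h3).trans W.vJp)] at p
  have q := (A.sl W.b1 _ _ (W.a0.trans mi.1) (A.cl.sm h2) mk.2).1
  rw [A.lvh_node j0 ((h2.trans h3).trans_lt W.vJ), A.lvh_node (j0.trans h2) (h3.trans_lt W.vJ),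
    one_div_mul_eq_div, sub_le_iff_le_add, div_le_iff₀ C0] at q
  have r := mul_le_mul_of_nonneg_left q (mul_pos C0 (A.ms_pos (W.a0.trans W.ab))).le
  nlinarith

/-- hypothesis `hlen` of `Tk.thick`, with `μ₁ = ms a' / (2 C)` -/
theorem hlen (W : Wd S M m a T Gn u v a' b' δ θ c er g j)
    (hθ : S.C ^ 2 * S.ms b' * θ ≤ S.ms a' / (2 * S.C)) (s s' : ℝ)
    (h : gp (fun k => sb M m a (k + 1)) Gn u v s s') (_ : sb M m a (u + 1) ≤ s) (_ : s ≤ s')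
    (_ : s' ≤ sb M m a (v + 1)) : WW M S m a T c s' - WW M S m a T c s ≤
      errL S b' δ er g - S.ms a' / (2 * S.C) * (s' - s) := by
  obtain ⟨i, k, n, rfl, rfl⟩ := h
  have A := W.at'
  obtain ⟨n1, n2, n3, n4, n5, -⟩ := id n
  have mi := W.mb n1 (n2.trans n3)
  have mk := W.mb (n1.trans n2) n3
  have ik := A.sb_mono (Nat.succ_le_succ n2)
  have p := (A.Mf_sl W.a0 (W.b1.le.trans (A.cl.sm A.cl.i3)) _ _ mi.1 ik mk.2).1
  have q := W.H_le n1 n2 n3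
  have r := W.gap i k n
  have e1 := abs_le.1 (W.bres n1 (n2.trans n3) n4)
  have e2 := abs_le.1 (W.bres (n1.trans n2) n3 n5)
  have g1 := abs_le.1 (W.hg i n1 (n2.trans n3) n4)
  have g2 := abs_le.1 (W.hg k (n1.trans n2) n3 n5)
  have t1 : M.b * M.rb m a i / (m + 1) ≤ M.b * M.rb m a k / (m + 1) :=
    div_le_div_of_nonneg_right (mul_le_mul_of_nonneg_left (rb_mono A.m_pos n2)
      (by linarith [W.b_mem.1])) (by positivity)
  have D0 : 0 ≤ S.C ^ 2 * S.ms b' := mul_nonneg (sq_nonneg _) (A.ms_pos (W.a0.trans W.ab)).le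
  have t2 := mul_le_mul_of_nonneg_left (show M.z k - M.z i + S.C * S.v ≤ δ + S.C * S.v +
    θ * (sb M m a (k + 1) - sb M m a (i + 1)) by linarith) D0
  have t3 := mul_le_mul_of_nonneg_right hθ (sub_nonneg.2 ik)
  have t4 : S.ms a' / S.C = 2 * (S.ms a' / (2 * S.C)) := by have := A.c_pos; field_simp
  simp only [WW, errL]
  rw [A.Mf_b (W.ju.trans_le (n1.trans n2)) (n3.trans W.vJp),
    A.Mf_b (W.ju.trans_le n1) ((n2.trans n3).trans W.vJp)]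
  rw [t4] at p
  linarith

end Wd

end Crest.Agent.T156.Alt.Mp9

end
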