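import Crest.Agent.T156.ClResB_27
import Crest.Agent.T156.Lag_8

/-!
Row 156, ALT, text (L) (helper27): the gap terms and the global energy from the bulk data `Bd`.
-/

set_option autoImplicit false

noncomputable section

namespace Crest.Agent.T156.Gap27

open MeasureTheory Set
open Crest.Agent.T156.Cut8 Crest.Agent.T156.Pp.Area50

/-- **the gap lengths are paid by the quartic term** -/
theorem gl_four {T c1 κ : ℝ} {σ : ℕ → ℝ} {Gn : ℕ → Prop} {u v J : ℕ} {d : ℝ → ℝ} (us : Up σ J)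
    (vJ : v ≤ J) (hm : ∀ k ≤ v, σ k ∈ Icc 0 T) (ld : LB T d) (hc : 0 < c1)
    (h : ∀ i j, Cons Gn u v i j → ∀ s t, σ i ≤ s → s ≤ t → t ≤ σ j →
      c1 * (t - s) - c1 / 4 * (σ j - σ i) - κ ≤ d s - d t)
    {i j : ℕ} (hi : u ≤ i) (ij : i ≤ j) (jv : j ≤ v) (gi : Gn i) (gj : Gn j) :
    c1 ^ 4 * ∫ t in σ i..σ j, gl σ Gn u v t ^ 4 ≤
      32768 * (∫ t in σ i..σ j, d t ^ 4) + 4096 * κ ^ 4 * (σ j - σ i) := by
  have l1 : LB T fun t => gl σ Gn u v t ^ 4 := by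
    simpa [← pow_mul] using (LB_gl (σ := σ) (Gn := Gn) (u := u) (v := v) T).sq.sq
  have l2 : LB T fun t => d t ^ 4 := by simpa [← pow_mul] using ld.sq.sq
  have E : ∀ i j, i ≤ v → j ≤ v → ∫ t in σ i..σ j, (32768 * d t ^ 4 + 4096 * κ ^ 4 -
      c1 ^ 4 * gl σ Gn u v t ^ 4) = 32768 * (∫ t in σ i..σ j, d t ^ 4) +
        4096 * κ ^ 4 * (σ j - σ i) - c1 ^ 4 * ∫ t in σ i..σ j, gl σ Gn u v t ^ 4 := fun i j a c => by
    rw [intervalIntegral.integral_sub ((((LB.const _).mul l2).add (LB.const _)).ii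
      (hm i a) (hm j c)) (((LB.const _).mul l1).ii (hm i a) (hm j c)),
      intervalIntegral.integral_add (((LB.const _).mul l2).ii (hm i a) (hm j c))
        ((LB.const _).ii (hm i a) (hm j c))]
    simp only [intervalIntegral.integral_const_mul, intervalIntegral.integral_const, smul_eq_mul]
    ring
  have := int_gaps (Gn := Gn) (u := u) ((((LB.const 32768).mul l2).add
    (LB.const (4096 * κ ^ 4))).sub ((LB.const (c1 ^ 4)).mul l1)) hm
    (fun i j C => ?_) hi gi j ij jv gj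
  · rw [E i j (ij.trans jv) jv] at this
    linarith
  · have iv := C.ij.trans C.jv
    rw [E i j iv C.jv]
    have pq := us.le C.ij (C.jv.trans vJ)
    obtain ⟨p0, pT⟩ := hm i iv
    obtain ⟨q0, qT⟩ := hm j C.jv
    have a1 := gap_cube ld p0 pq qT hc (h i j C)
    have a2 := int_le_const (K := (σ j - σ i) ^ 4) l1 p0 pq qT fun t a c =>
      pow_le_pow_left₀ (gl_nn _) (gl_in us vJ C a c) 4
    set g := σ j - σ i with hg
    have g0 : 0 ≤ g := by linarith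
    have a3 := int_mono ((LB.const (128 * (c1 ^ 2 * g ^ 2))).mul ld.sq)
      (((LB.const 8192).mul l2).add (LB.const (c1 ^ 4 * g ^ 4 / 2))) p0 pq qT
      fun t _ _ => by nlinarith [sq_nonneg (128 * d t ^ 2 - c1 ^ 2 * g ^ 2)]
    rw [intervalIntegral.integral_add (((LB.const _).mul l2).ii ⟨p0, pT⟩ ⟨q0, qT⟩)
      ((LB.const _).ii ⟨p0, pT⟩ ⟨q0, qT⟩)] at a3
    simp only [intervalIntegral.integral_const_mul, intervalIntegral.integral_const,
      smul_eq_mul, ← hg] at a3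
    have b1 := mul_le_mul_of_nonneg_left a2 (pow_pos hc 4).le
    have b2 := mul_le_mul_of_nonneg_left a1 (show 0 ≤ c1 ^ 2 * g ^ 2 by positivity)
    have b3 := mul_nonneg g0 (sq_nonneg (c1 ^ 2 * g ^ 2 - 64 * κ ^ 2))
    nlinarith

end Crest.Agent.T156.Gap27

namespace Crest.Agent.T156.Alt.Mp9

open MeasureTheory Set Real
open Crest.Agent.R164.GC Crest.Agent.R339.B Crest.Agent.R339.Var Crest.Agent.T157.Pf
open Crest.Agent.T156.Pp.Area50 Crest.Agent.T156.Spl27 Crest.Agent.T156.Zb9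
open Crest.Agent.T156.Cut8 (LB Res Fr Cont Jf int_split int_mono int_le_const int_sub_le abs_int_le)
open Crest.Agent.T156.Gap27 (yN HN Cons resN gl NumM HLip xi)

theorem At.LB_uu' {S : Sc} {M : Md} {m : ℕ} {a T : ℝ} (A : At S M m a T) : LB T (uu M S m a T) :=
  (LB.of_mono (Sc48.lvr_mono A.okb.1.1)).sub (LB.of_mono (Sc48.lvr_mono A.okh.1.1))

namespace Bd
variable {S : Sc} {M : Md} {m : ℕ} {a T : ℝ} {Gn : ℕ → Prop} {u v : ℕ}
  {en on c al om Ga : ℕ → ℝ} {l0 ka th ε : ℝ}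
  (B : Bd S M m a T Gn u v en on c al om Ga l0 ka th ε)
include B

theorem slope {i k : ℕ} (n : Nx Gn u v i k) {s t : ℝ} (h1 : sb M m a (i + 1) ≤ s) (st : s ≤ t)
    (h2 : t ≤ sb M m a (k + 1)) : 1 / S.C * (t - s) - 1 / S.C / 4 *
      (sb M m a (k + 1) - sb M m a (i + 1)) - 2 * (S.C * S.v) ≤ uu M S m a T s - uu M S m a T t := by
  have A := B.A
  have C0 := A.c_pos
  have hu := B.hu
  have vp := B.vp
  obtain ⟨n1, n2, n3, -⟩ := id n
  have kJ := (A.sb_mono (Nat.succ_le_succ n3)).trans_lt B.hJ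
  have p := (A.sl kJ s t ((A.sb_mem (k := i) (by omega)).1.trans h1) st h2).1
  have a1 := Sc48.lvr_mono A.okb.1.1 h1
  have a2 := Sc48.lvr_mono A.okb.1.1 h2
  rw [A.lvb_node (by omega) (by omega)] at a1 a2
  have z := (B.gap i k n).1
  have th : th ≤ 1 / S.C / 4 := by
    rw [le_div_iff₀ (by norm_num), le_div_iff₀ C0]
    nlinarith [B.th_le, mul_nonneg C0.le B.th0]
  have := mul_le_mul_of_nonneg_right th (show 0 ≤ sb M m a (k + 1) - sb M m a (i + 1) by linarith)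
  unfold uu
  linarith

theorem mem (k : ℕ) (hk : k ≤ v + 1) : sb M m a k ∈ Icc 0 T :=
  B.A.datB.mem (hk.trans (Nat.succ_le_succ B.vp.le))

/-- the gap part of the source -/
theorem gapM {i k : ℕ} (hi : u ≤ i) (ik : i ≤ k) (kv : k ≤ v) (gi : Gn i) (gk : Gn k) :
    ∫ t in sb M m a (i + 1)..sb M m a (k + 1), mm M S m a t * gB M m a Gn u v t ^ 2 ≤
      2048 * S.C ^ 2 * (∫ t in sb M m a (i + 1)..sb M m a (k + 1),
        mm M S m a t * uu M S m a T t ^ 2) + 2048 * S.C ^ 4 * S.v ^ 2 * T := by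
  have A := B.A
  have C0 := A.c_pos
  have h := Gap27.gl_mass (K := 4) (κ := 2 * (S.C * S.v)) (c1 := 1 / S.C)
    (Gn := fun j => Gn (j - 1)) (u := u + 1) A.ub
    (Nat.succ_le_succ B.vp.le) B.mem A.LB_uu' A.LB_mm (by positivity) (by norm_num)
    (fun i k K s t h1 st h2 => by
      obtain ⟨i, k, rfl, rfl, n⟩ := nx_of K
      have s0 := (B.mem (i + 1) (by have := n.2.1; have := n.2.2.1; omega)).1.trans h1
      have := A.mm_pos s0
      have := A.mm_mono st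
      exact ⟨B.slope n h1 st h2, by linarith, by linarith,
        (A.mm_mono h2).trans (B.mm_dbl n h1 (st.trans h2))⟩)
    (Nat.succ_le_succ hi) (Nat.succ_le_succ ik) (Nat.succ_le_succ kv) gi gk
  obtain ⟨p0, -⟩ := B.mem (i + 1) (by omega)
  obtain ⟨-, qT⟩ := B.mem (k + 1) (by omega)
  have a1 := int_le_const (K := 1) A.LB_mm p0 (A.sb_mono (Nat.succ_le_succ ik)) qT
    fun t _ _ => B.mm1 t
  have a2 := mul_le_mul_of_nonneg_left (a1.trans (show _ ≤ T by linarith))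
    (show 0 ≤ 2048 * S.C ^ 4 * S.v ^ 2 by positivity)
  have a3 := mul_le_mul_of_nonneg_left h (sq_nonneg S.C)
  rw [← mul_assoc, show S.C ^ 2 * (1 / S.C) ^ 2 = 1 by field_simp, one_mul] at a3
  unfold gB
  linarith

/-- the gap part of the clock -/
theorem gap4 {i k : ℕ} (hi : u ≤ i) (ik : i ≤ k) (kv : k ≤ v) (gi : Gn i) (gk : Gn k) :
    ∫ t in sb M m a (i + 1)..sb M m a (k + 1), gB M m a Gn u v t ^ 4 ≤
      32768 * S.C ^ 4 * (∫ t in sb M m a (i + 1)..sb M m a (k + 1), uu M S m a T t ^ 4) +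
        65536 * S.C ^ 8 * S.v ^ 4 * T := by
  have A := B.A
  have C0 := A.c_pos
  have h := Gap27.gl_four (κ := 2 * (S.C * S.v)) (c1 := 1 / S.C)
    (Gn := fun j => Gn (j - 1)) (u := u + 1) A.ub
    (Nat.succ_le_succ B.vp.le) B.mem A.LB_uu' (by positivity)
    (fun i k K s t h1 st h2 => by
      obtain ⟨i, k, rfl, rfl, n⟩ := nx_of K
      exact B.slope n h1 st h2)
    (Nat.succ_le_succ hi) (Nat.succ_le_succ ik) (Nat.succ_le_succ kv) gi gk
  obtain ⟨p0, -⟩ := B.mem (i + 1) (by omega)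
  obtain ⟨-, qT⟩ := B.mem (k + 1) (by omega)
  have a2 := mul_le_mul_of_nonneg_left (show sb M m a (k + 1) - sb M m a (i + 1) ≤ T by linarith)
    (show 0 ≤ 65536 * S.C ^ 8 * S.v ^ 4 by positivity)
  have a3 := mul_le_mul_of_nonneg_left h (pow_pos C0 4).le
  rw [← mul_assoc, show S.C ^ 4 * (1 / S.C) ^ 4 = 1 by field_simp, one_mul] at a3
  unfold gB
  linarith

theorem mass {t : ℝ} (t0 : 0 ≤ t) : mm M S m a t * uu M S m a T t ^ 2 ≤
    HN (lb M S m a T) (lh M T) M.b (sb M m a) (hb M) (S.Jp + 1) (mm M S m a) (Mx M S m a) t *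
      uu M S m a T t := Gap27.HN_floor (B.mm_le_Mx t0)

/-- the source between two good nodes -/
theorem intF (K θ : ℝ) {i k : ℕ} (hi : u ≤ i) (ik : i ≤ k) (kv : k ≤ v) (gi : Gn i) (gk : Gn k) :
    ∫ t in sb M m a (i + 1)..sb M m a (k + 1), fB M S m a Gn u v al ε K θ t ≤
      (∫ t in sb M m a (i + 1)..sb M m a (k + 1), fN M S m a al K θ t) +
      4 * ((200 + 48 * K) * S.C * ε) ^ 2 / θ ^ 2 * (2048 * S.C ^ 2 *
        (∫ t in sb M m a (i + 1)..sb M m a (k + 1), mm M S m a t * uu M S m a T t ^ 2) +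
          2048 * S.C ^ 4 * S.v ^ 2 * T) := by
  have mi := B.mem (i + 1) (by omega)
  have mk := B.mem (k + 1) (by omega)
  unfold fB
  rw [intervalIntegral.integral_add ((B.LB_fN K θ).ii mi mk)
    (((LB.const _).mul (B.A.LB_mm.mul LB_gB.sq)).ii mi mk), intervalIntegral.integral_const_mul]
  exact add_le_add le_rfl (mul_le_mul_of_nonneg_left (B.gapM hi ik kv gi gk) (by positivity))

/-- the clock between two good nodes -/
theorem intW {i k : ℕ} (hi : u ≤ i) (ik : i ≤ k) (kv : k ≤ v) (gi : Gn i) (gk : Gn k) :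
    ∫ t in sb M m a (i + 1)..sb M m a (k + 1), pw2 M S m a Gn c u v l0 ka t ^ 2 ≤
      2 * (∫ t in sb M m a (i + 1)..sb M m a (k + 1), pw M S c u v l0 t ^ 2) +
      2 * ka ^ 2 * (32768 * S.C ^ 4 *
        (∫ t in sb M m a (i + 1)..sb M m a (k + 1), uu M S m a T t ^ 4) +
          65536 * S.C ^ 8 * S.v ^ 4 * T) := by
  have mi := B.mem (i + 1) (by omega)
  have mk := B.mem (k + 1) (by omega)
  have l4 : LB T fun t => gB M m a Gn u v t ^ 4 := by
    simpa [← pow_mul] using (LB_gB (T := T) (M := M) (m := m) (a := a) (Gn := Gn) (u := u)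
      (v := v)).sq.sq
  have a1 := int_mono B.LB_pw2.sq (((LB.const 2).mul B.LB_pw.sq).add
    ((LB.const (2 * ka ^ 2)).mul l4)) mi.1 (B.A.sb_mono (Nat.succ_le_succ ik)) mk.2 fun t _ _ => by
      unfold pw2
      nlinarith [sq_nonneg (pw M S c u v l0 t - ka * gB M m a Gn u v t ^ 2)]
  rw [intervalIntegral.integral_add (((LB.const 2).mul B.LB_pw.sq).ii mi mk)
    (((LB.const _).mul l4).ii mi mk), intervalIntegral.integral_const_mul,
    intervalIntegral.integral_const_mul] at a1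
  exact a1.trans (add_le_add le_rfl
    (mul_le_mul_of_nonneg_left (B.gap4 hi ik kv gi gk) (by positivity)))

theorem A_pos : 0 < sb M m a (u + 1) := by
  have i2 := B.A.cl.i2
  have i3 := B.A.cl.i3
  exact ((B.A.sb_mem (k := S.jl) (by omega)).1.trans_lt (B.A.sb_lt le_rfl (by omega))).trans_le
    (B.A.sb_mono (Nat.succ_le_succ B.hu))

/-- the area below the window -/
theorem area {ρ D w s : ℝ} (ρ0 : 0 ≤ ρ) (D1 : M.z u ≤ D)
    (D2 : lvr 1 (lh M T) (sb M m a (u + 1)) ≤ D) (w0 : 0 ≤ w) (ws : w ≤ s)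
    (As : sb M m a (u + 1) ≤ s) (sT : s ≤ T) :
    ρ * ∫ t in (0 : ℝ)..w, |uu M S m a T t| ≤ ρ * (sb M m a (u + 1) * D) +
      4 * ρ ^ 2 * w / mm M S m a (sb M m a (u + 1)) +
      (∫ t in sb M m a (u + 1)..s, mm M S m a t * uu M S m a T t ^ 2) / 16 := by
  have A := B.A
  have A0 := B.A_pos
  have μ0 := A.mm_pos A0.le
  have lu := A.LB_uu'
  have AT := As.trans sT
  have z1 := A.lvb_node (k := u) B.hu.le (B.uv.trans B.vp).le
  have a1 : ∫ t in (0 : ℝ)..sb M m a (u + 1), |uu M S m a T t| ≤ (sb M m a (u + 1) - 0) * D :=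
    int_le_const lu.abs le_rfl A0.le AT fun t _ h => abs_le.2
      ⟨by unfold uu; linarith [Sc48.lvr_pos A.okb.1.1 t, Sc48.lvr_mono A.okh.1.1 h.le],
        by unfold uu; linarith [Sc48.lvr_pos A.okh.1.1 t, Sc48.lvr_mono A.okb.1.1 h.le]⟩
  rw [sub_zero] at a1
  have nn : ∀ t, sb M m a (u + 1) < t → 0 ≤ mm M S m a t * uu M S m a T t ^ 2 := fun t h =>
    mul_nonneg (A.mm_pos (A0.le.trans h.le)).le (sq_nonneg _)
  have p0 : 0 ≤ 4 * ρ ^ 2 * w / mm M S m a (sb M m a (u + 1)) := by positivity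
  rcases le_total w (sb M m a (u + 1)) with h | h
  · have a2 := int_sub_le lu.abs le_rfl le_rfl w0 h AT fun _ _ _ => abs_nonneg _
    have a3 := int_sub_le (A.LB_mm.mul lu.sq) A0.le le_rfl le_rfl As sT fun t a _ => nn t a
    rw [intervalIntegral.integral_same] at a3
    linarith [mul_le_mul_of_nonneg_left (a2.trans a1) ρ0]
  · have mA : sb M m a (u + 1) ∈ Icc 0 T := ⟨A0.le, AT⟩
    have mw : w ∈ Icc 0 T := ⟨w0, ws.trans sT⟩
    set μ := mm M S m a (sb M m a (u + 1))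
    have a2 := int_mono ((LB.const ρ).mul lu.abs) ((LB.const (4 * ρ ^ 2 / μ)).add
      ((A.LB_mm.mul lu.sq).div 16)) A0.le h mw.2 fun t ht _ => by
        have b1 := mul_le_mul_of_nonneg_right (A.mm_mono ht.le) (sq_nonneg (uu M S m a T t))
        have b2 : ρ * |uu M S m a T t| ≤ 4 * ρ ^ 2 / μ + μ * uu M S m a T t ^ 2 / 16 := by
          rw [← sq_abs (uu M S m a T t), ← sub_le_iff_le_add, le_div_iff₀ μ0]
          nlinarith [sq_nonneg (μ * |uu M S m a T t| - 8 * ρ)]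
        linarith
    rw [intervalIntegral.integral_add ((LB.const _).ii mA mw)
      (((A.LB_mm.mul lu.sq).div 16).ii mA mw), intervalIntegral.integral_const_mul,
      intervalIntegral.integral_const, intervalIntegral.integral_div, smul_eq_mul] at a2
    have a3 := int_sub_le (A.LB_mm.mul lu.sq) A0.le le_rfl h ws sT fun t a _ => nn t a
    have a4 := mul_le_mul_of_nonneg_right (show w - sb M m a (u + 1) ≤ w by linarith)
      (show 0 ≤ 4 * ρ ^ 2 / μ by positivity)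
    rw [int_split lu.abs ⟨le_rfl, mw.1.trans mw.2⟩ mA mw, mul_add,
      show 4 * ρ ^ 2 * w / μ = w * (4 * ρ ^ 2 / μ) by ring]
    linarith [mul_le_mul_of_nonneg_left a1 ρ0]

/-- **the global energy** -/
theorem top {K θ cm c0 ρ D w lam τ P0 : ℝ} {Q : ℝ → Prop}
    (F : Fr T c0 K (okT T) (lvr 1) Pr.Gam Pr.GG) (hA : HLip Pr.AA T K) (hN : HLip Pr.NN T K)
    (hθ : 0 < θ) (s2 : θ ≤ 1 / 8) (s4 : θ * (3 * (4096 * S.C ^ 2) + (1 + T ^ 2)) ≤ c0 / 8)
    (hε : (17 + 24 * K + 96 * S.C ^ 2) * ε + (24 * K * ε) ^ 2 / θ ≤ θ)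
    (hε2 : 2 ^ 17 * ((200 + 48 * K) * S.C ^ 2 * ε) ^ 2 ≤ θ)
    (hka : 2 ^ 16 * S.C ^ 4 * ka ^ 2 ≤ θ * c0) (cm0 : 0 ≤ cm)
    (hcm : ∀ y, u < y → y ≤ v → sb M m a (v + 1) ≤ M.s y → c y ≤ cm) (ρ0 : 0 ≤ ρ)
    (ab : ∀ i, u ≤ i → i ≤ v → Gn i → |res M S m a T i| ≤
      en i + on i * |L0.Gd (lb M S m a T) (sb M m a (i + 1))| + ρ +
        (l0 * (sb M m a (i + 1) - sb M m a (u + 1)) +
          ka * (∫ r in sb M m a (u + 1)..sb M m a (i + 1), gB M m a Gn u v r ^ 2) +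
          (Om M c u v (M.z i) - Om M c u v (lvr 1 (lh M T) (sb M m a (u + 1))))))
    (D1 : M.z u ≤ D) (D2 : lvr 1 (lh M T) (sb M m a (u + 1)) ≤ D) (w0 : 0 < w)
    (ws : w ≤ sb M m a (v + 1)) (lam0 : 0 ≤ lam)
    (la1 : ρ + K * sb M m a (u + 1) ^ 2 * D ≤ θ * lam ^ 3) (la2 : K * sb M m a (u + 1) ≤ θ * lam)
    (ct : Cont T (fun t => lvr 1 (lb M S m a T) t - lvr 1 (lh M T) t)
      (fun t => Pr.Gam (lb M S m a T) t - Pr.Gam (lh M T) t)
      (resN (lb M S m a T) M.b (sb M m a) (hb M) (v + 1))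
      (en v + 1 / (m + 1) + S.C * S.v + on v * |L0.Gd (lb M S m a T) (sb M m a (v + 1))| +
        cm * |uu M S m a T (sb M m a (v + 1))|) 0 (sb M m a (v + 1)) τ Q)
    (hτ : τ ≤ c0 / 8 * (∫ t in (0 : ℝ)..T, Jf T (lvr 1 (lh M T)) (lvr 1 (lb M S m a T)) t ^ 2) + P0) :
    ∃ Z, 0 ≤ Z ∧ Q Z ∧
      c0 / 8 * (∫ t in (0 : ℝ)..T, Jf T (lvr 1 (lh M T)) (lvr 1 (lb M S m a T)) t ^ 2) +
        (∫ t in sb M m a (u + 1)..sb M m a (v + 1), HN (lb M S m a T) (lh M T) M.b (sb M m a) (hb M)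
          (S.Jp + 1) (mm M S m a) (Mx M S m a) t * uu M S m a T t) / 8 + Z / 4 ≤
      θ * (sb M m a (u + 1) * (2 * lam ^ 4) +
        ∫ t in sb M m a (u + 1)..sb M m a (v + 1), fN M S m a al K θ t) +
      ((S.C * S.v) ^ 2 * T + 3 * (4096 * S.C ^ 2 * (S.C * S.v) ^ 2 * T ^ 3 +
        8 * (S.C * S.v) ^ 4 * T + 6 * S.v) + 2 * S.C ^ 4 * S.v ^ 4 * T) + P0 +
      (16 * ρ ^ 2 / (c0 * w) + ρ * (sb M m a (u + 1) * D) +
        4 * ρ ^ 2 * w / mm M S m a (sb M m a (u + 1))) +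
      2 * (∫ t in sb M m a (u + 1)..sb M m a (v + 1), pw M S c u v l0 t ^ 2) / c0 := by
  have A := B.A
  have C0 := A.c_pos
  have v0 := v_pos A.cl
  have hc := F.c_pos
  have K0 := F.C_nn
  have A0 := B.A_pos
  have hu := B.hu
  have uv := B.uv
  have vp := B.vp
  have vJ := B.vJ
  have i1 := A.cl.i1
  have As : sb M m a (u + 1) < sb M m a (v + 1) :=
    (A.sb_lt hu.le (by omega)).trans_le (A.sb_mono (by omega))
  have sT := (B.mem (v + 1) le_rfl).2
  have hT := A0.le.trans (As.le.trans sT)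
  have lu := A.LB_uu'
  have l4 : LB T fun t => uu M S m a T t ^ 4 := by simpa [← pow_mul] using lu.sq.sq
  obtain ⟨r1, r2, β, R, nd, be, aR, -⟩ := B.resB K0 hA hN hθ (by linarith) hε cm0 hcm
  have bJ : max (sb M m a (v + 1)) (M.s v) < M.s S.J :=
    max_lt B.hJ ((s_lt A.cl vJ).trans_le (A.cl.sm vJ))
  have mH : ∫ t in sb M m a (u + 1)..sb M m a (v + 1), mm M S m a t * uu M S m a T t ^ 2 ≤
      ∫ t in sb M m a (u + 1)..sb M m a (v + 1), HN (lb M S m a T) (lh M T) M.b (sb M m a) (hb M)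
        (S.Jp + 1) (mm M S m a) (Mx M S m a) t * uu M S m a T t :=
    int_mono (A.LB_mm.mul lu.sq) (R.lH.mul lu) A0.le As.le sT fun t a _ => B.mass (A0.le.trans a.le)
  set κ := 4 * ((200 + 48 * K) * S.C * ε) ^ 2 / θ ^ 2 with hκ
  have κ0 : 0 ≤ κ := by positivity
  have k3 : θ * (κ * (2048 * S.C ^ 2)) ≤ 1 / 16 := by
    rw [show θ * (κ * (2048 * S.C ^ 2)) = 2 ^ 17 * ((200 + 48 * K) * S.C ^ 2 * ε) ^ 2 / θ / 16 by
      rw [hκ]; field_simp; ring]
    exact div_le_div_of_nonneg_right ((div_le_one hθ).2 hε2) (by norm_num)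
  have pE : 0 ≤ ∫ t in (0 : ℝ)..T, Jf T (lvr 1 (lh M T)) (lvr 1 (lb M S m a T)) t ^ 2 :=
    intervalIntegral.integral_nonneg hT fun _ _ => sq_nonneg _
  have p4 := int_sub_le l4 le_rfl A0.le As.le le_rfl sT fun _ _ _ => by positivity
  have p4' : 0 ≤ ∫ t in (0 : ℝ)..sb M m a (v + 1), uu M S m a T t ^ 4 :=
    intervalIntegral.integral_nonneg (A0.le.trans As.le) fun _ _ => by positivity
  obtain ⟨Z, ⟨z0, hQ⟩, h⟩ := F.top0 (pb := lb M S m a T) (ph := lh M T) A.okb A.okh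
    (Q := fun Z => 0 ≤ Z ∧ Q Z) (b := max (sb M m a (v + 1)) (M.s v)) (l := w) (D := D) (ρ := ρ)
    (f0 := 2 * lam ^ 4) (C1 := S.C) (δ := S.C * S.v) (P0 := P0)
    (Ω := (2 * (∫ t in sb M m a (u + 1)..sb M m a (v + 1), pw M S c u v l0 t ^ 2) +
      2 * ka ^ 2 * (65536 * S.C ^ 8 * S.v ^ 4 * T)) / c0)
    (Ff := (∫ t in sb M m a (u + 1)..sb M m a (v + 1), fN M S m a al K θ t) +
      κ * (2048 * S.C ^ 4 * S.v ^ 2 * T)) (K3 := κ * (2048 * S.C ^ 2))
    (Ar := ρ * (sb M m a (u + 1) * D) + 4 * ρ ^ 2 * w / mm M S m a (sb M m a (u + 1)))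
    A0.le As (le_max_left _ _) (bJ.le.trans ((A.cl.sm A.cl.i3).trans A.t2)) C0 hθ A.LB_mm
    (B.LB_fB K θ) R (fun t a _ => B.mass (A0.le.trans a.le))
    (by
      have := B.intF K θ le_rfl uv.le le_rfl B.gu B.gv
      have a1 := mul_le_mul_of_nonneg_left mH (show 0 ≤ κ * (2048 * S.C ^ 2) by positivity)
      simp only [uu] at this a1
      linarith) k3
    (fun s t a b c => (A.sl bJ s t a b c).2) (by rw [A.lvh' le_rfl]; exact A.cl.lv0)
    (fun t h => by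
      have a1 := Sc48.lvr_mono A.okb.1.1 h.le
      have a2 := Sc48.lvr_mono A.okh.1.1 (le_max_right (sb M m a (v + 1)) (M.s v))
      rw [A.lvb_node (by omega) vp.le] at a1
      rw [A.lvh_node (by omega) vJ] at a2
      linarith [mul_pos C0 v0])
    (by rw [A.lvb_node hu.le (by omega)]; exact D1) D2 ρ0 (aR ρ ab) (by positivity)
    (.inl ⟨lam, lam0, la1, by
      rw [zero_add, div_le_iff₀ hθ]
      nlinarith [pow_le_pow_left₀ (by positivity) la2 2], le_rfl⟩) w0 (ws.trans sT)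
    (by
      have := B.area ρ0 D1 D2 w0.le ws As.le sT
      simp only [uu] at this mH
      linarith [mul_nonneg hc.le pE])
    (by
      have := A.mm_pos A0.le
      have := (Sc48.lvr_pos A.okh.1.1 _).le.trans D2
      positivity)
    (fun H' r1' r2' ω' β' ξ' R' e1 e2 => by
      obtain ⟨X, Z, q, E, hX⟩ := ct.top (A0.trans As) H' r1' r2' ω' β' ξ' R'
        (e1.trans (nd v uv.le le_rfl B.gv)) (e2.trans be)
      exact ⟨X, Z, q, E, by linarith⟩)
    (by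
      have a1 := B.intW le_rfl uv.le le_rfl B.gu B.gv
      have a2 := mul_le_mul_of_nonneg_left p4 (show 0 ≤ 2 ^ 16 * S.C ^ 4 * ka ^ 2 by positivity)
      have a3 := mul_le_mul_of_nonneg_right hka p4'
      rw [div_le_iff₀ hc, add_mul, div_mul_cancel₀ _ hc.ne']
      simp only [uu] at a1 a2 a3
      linarith) s4 s2
  refine ⟨Z, z0, hQ, ?_⟩
  have e1 : θ * (κ * (2048 * S.C ^ 4 * S.v ^ 2 * T)) ≤ (S.C * S.v) ^ 2 * T := by
    have := mul_le_mul_of_nonneg_right k3 (show 0 ≤ (S.C * S.v) ^ 2 * T by positivity)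
    have : 0 ≤ (S.C * S.v) ^ 2 * T := by positivity
    linarith
  have e2 : 2 * ka ^ 2 * (65536 * S.C ^ 8 * S.v ^ 4 * T) / c0 ≤ 2 * S.C ^ 4 * S.v ^ 4 * T := by
    rw [div_le_iff₀ hc]
    have := mul_le_mul_of_nonneg_right (hka.trans (mul_le_of_le_one_left hc.le (by linarith)))
      (show 0 ≤ 2 * S.C ^ 4 * S.v ^ 4 * T by positivity)
    linarith
  have e3 : 6 * (S.C * S.v) / S.C = 6 * S.v := by field_simp
  have e4 := mul_le_mul_of_nonneg_right (show θ ≤ 1 by linarith)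
    (show 0 ≤ 3 * (4096 * S.C ^ 2 * (S.C * S.v) ^ 2 * T ^ 3 + 8 * (S.C * S.v) ^ 4 * T + 6 * S.v) by
      positivity)
  rw [e3, add_div] at h
  simp only [uu]
  linarith

end Bd

end Crest.Agent.T156.Alt.Mp9

end
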