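import Mathlib

/-!
# Row 156, soft recursion: the plateau move and the closing by backward induction (helper26)

Frame free.  Level `k` has the tilt `z k`, node `k` carries the labels `[z (k-1), z k)`.
-/

set_option autoImplicit false

noncomputable section

namespace Crest.Agent.T156.SrP26

open Real Finset

/-! ### closing -/

/-- **backward induction**: `φ` is the size of a state, `Inv` an invariant class -/
theorem closing {St : Type} (Inv : St → Prop) (u φ : St → ℝ) {l K d₁ dv C Λ : ℝ} {J : ℕ}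
    (hl : 0 ≤ l) (hK : 0 ≤ K) (hdv : 0 < dv) (hC : 1 ≤ C) (hΛ : (2 * C) ^ (J + 1) ≤ Λ)
    (step : ∀ x, Inv x → d₁ ≤ K ^ J * u x → u x < d₁ → ∀ B B' : ℝ, l ≤ B' → B' ≤ B → B ≤ Λ * l →
      (∀ y, Inv y → u x + dv ≤ u y → φ y ≤ B) → (∀ y, Inv y → K * u x ≤ u y → φ y ≤ B') →
      φ x ≤ C * B' + C * l)
    (term : ∀ x, Inv x → d₁ ≤ u x → φ x ≤ C * l) (hd : 0 < d₁) (hK1 : 1 ≤ K) :
    ∀ x, Inv x → d₁ ≤ K ^ J * u x → φ x ≤ (2 * C) ^ (J + 1) * l := by
  have C2 : 1 ≤ 2 * C := by linarith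
  have main : ∀ j, j ≤ J → ∀ x, Inv x → d₁ ≤ K ^ j * u x → φ x ≤ (2 * C) ^ (j + 1) * l := by
    intro j
    induction j with
    | zero =>
      intro _ x hx h
      have := term x hx (by simpa using h)
      have h2 : 0 ≤ C * l := by positivity
      simp only [zero_add, pow_one]
      linarith
    | succ j ih =>
      intro hj
      have p1 : (1 : ℝ) ≤ (2 * C) ^ (j + 1) := one_le_pow₀ C2
      have inner : ∀ i : ℕ, ∀ x, Inv x → d₁ ≤ K ^ (j + 1) * u x → d₁ ≤ u x + i * dv →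
          φ x ≤ (2 * C) ^ (j + 1 + 1) * l := by
        have tm : ∀ x, Inv x → d₁ ≤ u x → φ x ≤ (2 * C) ^ (j + 1 + 1) * l := by
          intro x hx h
          refine (term x hx h).trans (mul_le_mul_of_nonneg_right ?_ hl)
          rw [pow_succ]
          nlinarith
        intro i
        induction i with
        | zero => exact fun x hx _ h => tm x hx (by simpa using h)
        | succ i ihi =>
          intro x hx h1 h2
          rcases le_or_gt d₁ (u x) with h3 | h3
          · exact tm x hx h3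
          have u0 : 0 < u x := pos_of_mul_pos_left' hd h1 (by positivity)
          have hJ : d₁ ≤ K ^ J * u x :=
            h1.trans (mul_le_mul_of_nonneg_right (pow_le_pow_right₀ hK1 hj) u0.le)
          have := step x hx hJ h3 ((2 * C) ^ (j + 1 + 1) * l) ((2 * C) ^ (j + 1) * l)
            (le_mul_of_one_le_left hl p1)
            (mul_le_mul_of_nonneg_right (pow_le_pow_right₀ C2 (by omega)) hl)
            (mul_le_mul_of_nonneg_right ((pow_le_pow_right₀ C2 (by omega)).trans hΛ) hl)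
            (fun y hy hu => ihi y hy (h1.trans (mul_le_mul_of_nonneg_left (by linarith)
              (by positivity))) (by push_cast at h2; linarith))
            (fun y hy hu => ih (by omega) y hy (h1.trans (by
              rw [pow_succ, mul_assoc]
              exact mul_le_mul_of_nonneg_left hu (by positivity))))
          refine this.trans ?_
          rw [pow_succ (2 * C) (j + 1)]
          nlinarith [mul_le_mul_of_nonneg_right p1 (show 0 ≤ C * l by positivity)]
      intro x hx h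
      obtain ⟨i, hi⟩ := exists_nat_ge ((d₁ - u x) / dv)
      rw [div_le_iff₀ hdv] at hi
      exact inner i x hx h (by linarith)
  exact main J le_rfl
where
  pos_of_mul_pos_left' {d a b : ℝ} (hd : 0 < d) (h : d ≤ a * b) (ha : 0 ≤ a) : 0 < b := by
    by_contra hb
    nlinarith [mul_nonneg ha (neg_nonneg.2 (not_lt.1 hb))]

/-- the truncated step size -/
def tr (T a : ℝ) : ℝ := min 1 (T / a)

theorem tr_mem {T a : ℝ} (hT : 0 ≤ T) (ha : 0 ≤ a) : 0 ≤ tr T a ∧ tr T a ≤ 1 :=
  ⟨le_min zero_le_one (div_nonneg hT ha), min_le_left _ _⟩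

theorem tr_mul_le {T a : ℝ} (hT : 0 ≤ T) (ha : 0 ≤ a) : tr T a * a ≤ T := by
  rcases ha.eq_or_lt with rfl | ha
  · simpa using hT
  · exact (mul_le_mul_of_nonneg_right (min_le_right _ _) ha.le).trans_eq (div_mul_cancel₀ _ ha.ne')

theorem tr_eq_one {T a : ℝ} (ha : 0 < a) (h : a ≤ T) : tr T a = 1 :=
  min_eq_left ((one_le_div ha).2 h)

/-- the truncated base inequality is as good as the full one -/
theorem trunc_le {T a B l : ℝ} (hl : 0 < l) (hT : l ≤ T) (ha : 0 ≤ a) (hB : 0 ≤ B)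
    (h : tr T a * a ^ 2 ≤ tr T a * a * B + l ^ 2) : a ≤ B + l := by
  by_contra hc
  rw [not_le] at hc
  have a0 : 0 < a := by linarith
  have : l ≤ tr T a * a := by
    rcases le_total a T with h1 | h1
    · rw [tr_eq_one a0 h1]; linarith
    · rw [tr, min_eq_right ((div_le_one a0).2 h1), div_mul_cancel₀ _ a0.ne']; exact hT
  nlinarith [mul_le_mul this (show l ≤ a - B by linarith) hl.le (by linarith), mul_pos hl hl,
    mul_lt_mul_of_pos_left (show l < a - B by linarith) (show 0 < tr T a * a by linarith)]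

/-- a number below all `|f k| + e` on a window of mass `m` -/
theorem le_of_window {S : Finset ℕ} {d f : ℕ → ℝ} {y e m : ℝ} (hm : 0 < m) (hd : ∀ k ∈ S, 0 ≤ d k)
    (hS : m ≤ ∑ k ∈ S, d k) (h : ∀ k ∈ S, y ≤ |f k| + e) :
    y ≤ e + √((∑ k ∈ S, d k * f k ^ 2) / m) := by
  rcases le_or_gt y e with h0 | h0
  · linarith [sqrt_nonneg ((∑ k ∈ S, d k * f k ^ 2) / m)]
  have : y - e ≤ √((∑ k ∈ S, d k * f k ^ 2) / m) := by
    refine le_sqrt_of_sq_le ?_
    rw [le_div_iff₀ hm]
    calc (y - e) ^ 2 * m ≤ (y - e) ^ 2 * ∑ k ∈ S, d k := by gcongr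
      _ = ∑ k ∈ S, d k * (y - e) ^ 2 := by rw [mul_sum]; exact sum_congr rfl fun _ _ => mul_comm _ _
      _ ≤ _ := sum_le_sum fun k hk => mul_le_mul_of_nonneg_left (by
        rw [← sq_abs (f k)]
        exact pow_le_pow_left₀ (by linarith) (by linarith [h k hk]) 2) (hd k hk)
  linarith

/-! ### the plateau -/

/-- distance to the ends of the plateau -/
def rho (xs u0 ue x : ℝ) : ℝ := min (x - xs + u0) (1 - x + ue)

theorem rho_lip (xs u0 ue : ℝ) {x y d : ℝ} (h1 : x ≤ y + d) (h2 : y ≤ x + d) :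
    rho xs u0 ue x ≤ rho xs u0 ue y + d := by
  unfold rho
  rw [← min_add_add_right]
  exact min_le_min (by linarith) (by linarith)

/-- the grid of the plateau: nodes `J ≤ k ≤ Jp` -/
structure Pt (z : ℕ → ℝ) (J Jp : ℕ) (u0 ue h : ℝ) : Prop where
  J1 : 1 ≤ J
  JJ : J ≤ Jp
  mono : Monotone z
  z0 : 0 ≤ z (J - 1)
  top : z Jp = 1
  mesh : ∀ k, J ≤ k → k < Jp → z k - z (k - 1) ≤ h
  last : 1 - z (Jp - 1) ≤ ue
  h0 : 0 < h
  hu : 16 * h ≤ u0
  he : 16 * h ≤ ue

/-- the accumulated change of the marks at the node `k` -/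
def Gm (N : ℕ) (w : ℕ → ℝ) (xi : ℕ → ℕ) (k : ℕ) : ℝ :=
  ∑ i ∈ range N, w i * ((if xi i < k then 1 else 0) - if i < k then 1 else 0)

theorem tele {z : ℕ → ℝ} (a : ℕ) : ∀ b, a ≤ b → ∑ k ∈ Ioc a b, (z k - z (k - 1)) = z b - z a := by
  intro b hb
  induction b, hb using Nat.le_induction with
  | base => simp
  | succ b hb ih => rw [sum_Ioc_succ_top hb, ih]; simp

namespace Pt

variable {z : ℕ → ℝ} {J Jp : ℕ} {u0 ue h : ℝ}

/-- the weight of the node `k` -/
def r (_P : Pt z J Jp u0 ue h) (k : ℕ) : ℝ := rho (z (J - 1)) u0 ue (z k)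

variable (P : Pt z J Jp u0 ue h)
include P

theorem r_ge {k : ℕ} (h1 : J ≤ k) (h2 : k ≤ Jp) : 16 * h ≤ P.r k := by
  have a1 := P.mono (show J - 1 ≤ k by omega)
  have a2 := P.mono h2
  rw [P.top] at a2
  exact le_min (by linarith [P.hu]) (by linarith [P.he])

theorem r_pos {k : ℕ} (h1 : J ≤ k) (h2 : k ≤ Jp) : 0 < P.r k :=
  lt_of_lt_of_le (by linarith [P.h0]) (P.r_ge h1 h2)

theorem dm_nn (k : ℕ) : 0 ≤ z k - z (k - 1) := sub_nonneg.2 (P.mono (Nat.sub_le _ _))

/-- `∫ dx / ρ` is a logarithm -/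
theorem sum_inv : ∑ k ∈ Icc J Jp, (z k - z (k - 1)) / P.r k ≤
    log (1 + 1 / u0) + 2 * log (1 + 1 / ue) := by
  have u0p : 0 < u0 := by linarith [P.h0, P.hu]
  have uep : 0 < ue := by linarith [P.h0, P.he]
  have J1 := P.J1
  have JJ := P.JJ
  have lg : ∀ {a b : ℝ}, 0 < a → 0 < b → (b - a) / b ≤ log b - log a := by
    intro a b ha hb
    have := log_le_sub_one_of_pos (div_pos ha hb)
    rw [log_div ha.ne' hb.ne'] at this
    rw [sub_div, div_self hb.ne']
    linarith
  set F : ℕ → ℝ := fun k => log (z k - z (J - 1) + u0) - 2 * log (1 - z k + ue) with hF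
  have e : Icc J Jp = Ioc (J - 1) Jp := by ext k; simp only [mem_Icc, mem_Ioc]; omega
  have k1 : ∑ k ∈ Icc J Jp, (z k - z (k - 1)) / P.r k ≤ ∑ k ∈ Ioc (J - 1) Jp, (F k - F (k - 1)) := by
    rw [e]
    refine sum_le_sum fun k hk => ?_
    rw [mem_Ioc] at hk
    have a1 := P.mono (show J - 1 ≤ k - 1 by omega)
    have a2 := P.mono hk.2
    rw [P.top] at a2
    have a3 := P.dm_nn k
    have a4 : z k - z (k - 1) ≤ ue := by
      rcases hk.2.eq_or_lt with rfl | h3
      · rw [P.top]; exact P.last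
      · linarith [P.mesh k (by omega) h3, P.he, P.h0]
    have b1 := lg (a := z (k - 1) - z (J - 1) + u0) (b := z k - z (J - 1) + u0) (by linarith)
      (by linarith)
    have b2 := lg (a := 1 - z k + ue) (b := 1 - z (k - 1) + ue) (by linarith) (by linarith)
    have b3 : (z k - z (k - 1)) / (1 - z k + ue) ≤
        2 * ((1 - z (k - 1) + ue - (1 - z k + ue)) / (1 - z (k - 1) + ue)) := by
      rw [← mul_div_assoc, div_le_div_iff₀ (by linarith) (by linarith)]
      nlinarith [mul_nonneg a3 (show 0 ≤ 2 * (1 - z k + ue) - (1 - z (k - 1) + ue) by linarith)]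
    have b4 : (z k - z (k - 1)) / P.r k ≤ (z k - z (k - 1)) / (z k - z (J - 1) + u0) +
        (z k - z (k - 1)) / (1 - z k + ue) := by
      have c1 : 0 ≤ (z k - z (k - 1)) / (z k - z (J - 1) + u0) := div_nonneg a3 (by linarith)
      have c2 : 0 ≤ (z k - z (k - 1)) / (1 - z k + ue) := div_nonneg a3 (by linarith)
      unfold r rho
      rcases min_choice (z k - z (J - 1) + u0) (1 - z k + ue) with c | c <;> rw [c] <;> linarith
    rw [show z k - z (J - 1) + u0 - (z (k - 1) - z (J - 1) + u0) = z k - z (k - 1) by ring] at b1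
    simp only [hF]
    linarith
  rw [tele (z := F) _ _ (by omega)] at k1
  refine k1.trans ?_
  simp only [hF, P.top, sub_self, zero_add]
  have z0 := P.z0
  have z1 : z (J - 1) ≤ 1 := P.top ▸ P.mono (by omega)
  have d1 : log (1 - z (J - 1) + u0) - log u0 ≤ log (1 + 1 / u0) := by
    rw [← log_div (by linarith) u0p.ne']
    refine log_le_log (div_pos (by linarith) u0p) ?_
    rw [div_le_iff₀ u0p, add_mul, one_div_mul_cancel u0p.ne']
    linarith
  have d2 : log (1 - z (J - 1) + ue) - log ue ≤ log (1 + 1 / ue) := by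
    rw [← log_div (by linarith) uep.ne']
    refine log_le_log (div_pos (by linarith) uep) ?_
    rw [div_le_iff₀ uep, add_mul, one_div_mul_cancel uep.ne']
    linarith
  linarith

/-- the square integral from the weighted sup norm -/
theorem phi_le {D : ℕ → ℝ} {Z : ℝ} (hZ : ∀ k, J ≤ k → k ≤ Jp → √(P.r k) * |D k| ≤ Z) :
    ∑ k ∈ Icc J Jp, (z k - z (k - 1)) * D k ^ 2 ≤
      (log (1 + 1 / u0) + 2 * log (1 + 1 / ue)) * Z ^ 2 := by
  refine le_trans ?_ (mul_le_mul_of_nonneg_right P.sum_inv (sq_nonneg Z))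
  rw [sum_mul]
  refine sum_le_sum fun k hk => ?_
  rw [mem_Icc] at hk
  have r0 := P.r_pos hk.1 hk.2
  have a1 := pow_le_pow_left₀ (by positivity) (hZ k hk.1 hk.2) 2
  rw [mul_pow, sq_sqrt r0.le, sq_abs] at a1
  rw [div_mul_eq_mul_div, le_div_iff₀ r0, mul_assoc]
  exact mul_le_mul_of_nonneg_left (by linarith) (P.dm_nn k)

end Pt

/-- what a move delivers -/
structure Mv (z dc : ℕ → ℝ) (J Jp N : ℕ) (w₀ l : ℝ) (w : ℕ → ℝ) (xi : ℕ → ℕ) : Prop where
  nn : ∀ k, 0 ≤ w k
  le : ∀ k, w k ≤ w₀ * dc k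
  supp : ∀ k, w k ≠ 0 → J ≤ k ∧ k + 1 < Jp
  tgt : ∀ k, xi k = k ∨ (J ≤ xi k ∧ xi k + 1 < Jp)
  G0 : ∀ k, k ≤ J ∨ Jp ≤ k → Gm N w xi k = 0
  G2 : ∑ k ∈ Icc 1 N, (z k - z (k - 1)) * Gm N w xi k ^ 2 ≤ (w₀ * l) ^ 2

/-- one window, one target -/
theorem win_move {z dc : ℕ → ℝ} {J Jp N : ℕ} {w₀ l C r σ : ℝ} (hz : Monotone z) (hN : Jp ≤ N)
    (hdc : ∀ k, 0 ≤ dc k) (hw : 0 < w₀) (hl : 0 < l) (hC : 1 ≤ C) (hr : 0 < r)
    (A : Finset ℕ) (t lo hi : ℕ) (hσ : σ = 1 ∨ σ = -1) (h1 : J ≤ lo) (h2 : hi + 1 < Jp)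
    (hA : ∀ j ∈ A, lo ≤ j ∧ j ≤ hi ∧ 5 * r / 16 ≤ σ * (z t - z j) ∧ σ * (z t - z j) ≤ 5 * r / 8)
    (ht : lo ≤ t ∧ t ≤ hi) (hlh : z hi - z lo ≤ r) (hm : l / (8 * C * √r) ≤ ∑ j ∈ A, dc j) :
    ∃ w xi, Mv z dc J Jp N w₀ l w xi ∧ (∀ k ∈ A, xi k = t) ∧ ∀ (R R' : ℕ → ℝ) (q d d' X : ℝ),
      0 ≤ d → (∀ k ∈ A, d ≤ σ * (R k - q)) → (∀ k ∈ A, |R' k - q| ≤ d') →
      ∑ k ∈ range N, w k * (z (xi k) - z k) * R k ≤
        ∑ k ∈ range N, w k * (z (xi k) - z k) * R' k + X →
      √r * d ≤ 2 * (√r * d') + 26 * C * (max X 0 / (w₀ * l)) := by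
  classical
  have sr : 0 < √r := sqrt_pos.2 hr
  set W := l / (8 * C * √r) with hW
  have W0 : 0 < W := by positivity
  set S := ∑ j ∈ A, dc j with hS
  have S0 : 0 < S := W0.trans_le hm
  have AN : A ⊆ range N := fun j hj => mem_range.2 (by have := hA j hj; omega)
  set w : ℕ → ℝ := fun k => if k ∈ A then w₀ * (W / S) * dc k else 0 with hwd
  set xi : ℕ → ℕ := fun k => if k ∈ A then t else k with hxi
  have wnn : ∀ k, 0 ≤ w k := fun k => by
    simp only [hwd]; split
    · have := hdc k; positivity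
    · exact le_rfl
  have red : ∀ f : ℕ → ℝ, ∑ k ∈ range N, w k * f k = ∑ k ∈ A, w k * f k := fun f =>
    (sum_subset AN fun k _ hk => by simp [hwd, hk]).symm
  have tot : ∑ k ∈ A, w k = w₀ * W := by
    rw [sum_congr rfl fun k hk => (if_pos hk : w k = w₀ * (W / S) * dc k), ← mul_sum, ← hS]
    field_simp
  have G0 : ∀ k, k ≤ lo ∨ hi < k → Gm N w xi k = 0 := by
    intro k hk
    rw [Gm, red]
    refine sum_eq_zero fun j hj => ?_
    have := hA j hj
    simp only [hxi, if_pos hj]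
    rcases hk with hk | hk
    · rw [if_neg (by omega), if_neg (by omega)]; simp
    · rw [if_pos (by omega), if_pos (by omega)]; simp
  have G1 : ∀ k, |Gm N w xi k| ≤ w₀ * W := by
    intro k
    rw [Gm, red, ← tot]
    refine (abs_sum_le_sum_abs _ _).trans (sum_le_sum fun j _ => ?_)
    rw [abs_mul, abs_of_nonneg (wnn j)]
    refine mul_le_of_le_one_right (wnn j) ?_
    split <;> split <;> simp
  refine ⟨w, xi, ⟨wnn, fun k => ?_, fun k hk => ?_, fun k => ?_, fun k hk => G0 k (by omega), ?_⟩,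
    fun k hk => if_pos hk, fun R R' q d d' X hd hR hR' hX => ?_⟩
  · simp only [hwd]; split
    · rw [mul_assoc]
      exact mul_le_mul_of_nonneg_left (mul_le_of_le_one_left (hdc k) ((div_le_one S0).2 hm)) hw.le
    · have := hdc k; positivity
  · by_cases hk' : k ∈ A
    · have := hA k hk'; omega
    · simp [hwd, hk'] at hk
  · by_cases hk' : k ∈ A
    · right; simp only [hxi, if_pos hk']; omega
    · left; simp [hxi, hk']
  · have sub : Ioc lo hi ⊆ Icc 1 N := fun k hk => by rw [mem_Ioc] at hk; rw [mem_Icc]; omega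
    rw [← sum_subset sub fun k _ hk => by rw [G0 k (by rw [mem_Ioc] at hk; omega)]; simp]
    calc _ ≤ ∑ k ∈ Ioc lo hi, (z k - z (k - 1)) * (w₀ * W) ^ 2 := sum_le_sum fun k _ =>
          mul_le_mul_of_nonneg_left (by
            rw [← sq_abs]; exact pow_le_pow_left₀ (abs_nonneg _) (G1 k) 2)
            (sub_nonneg.2 (hz (Nat.sub_le _ _)))
      _ = (z hi - z lo) * (w₀ * W) ^ 2 := by rw [← sum_mul, tele _ _ (by omega)]
      _ ≤ r * (w₀ * W) ^ 2 := by gcongr
      _ = (w₀ * l) ^ 2 / (8 * C) ^ 2 := by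
          rw [hW]
          have : r = √r ^ 2 := (sq_sqrt hr.le).symm
          nth_rewrite 1 [this]
          field_simp
      _ ≤ _ := div_le_self (sq_nonneg _) (one_le_pow₀ (by linarith))
  · simp only [mul_assoc] at hX
    rw [red, red] at hX
    have σσ : σ * σ = 1 := by rcases hσ with rfl | rfl <;> norm_num
    have k1 : ∑ k ∈ A, w k * (5 * r / 16 * d - 5 * r / 8 * d') ≤
        ∑ k ∈ A, (w k * ((z (xi k) - z k) * R k) - w k * ((z (xi k) - z k) * R' k)) := by
      refine sum_le_sum fun k hk => ?_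
      obtain ⟨-, -, a1, a2⟩ := hA k hk
      have a3 := hR k hk
      have a4 := hR' k hk
      rw [← mul_sub, show xi k = t from if_pos hk]
      refine mul_le_mul_of_nonneg_left ?_ (wnn k)
      have e : (z t - z k) * R k - (z t - z k) * R' k =
          σ * (z t - z k) * (σ * (R k - q)) - σ * (z t - z k) * (σ * (R' k - q)) := by
        linear_combination (-(z t - z k) * (R k - R' k)) * σσ
      have a5 : σ * (R' k - q) ≤ d' := by
        rw [abs_le] at a4
        rcases hσ with rfl | rfl <;> linarith [a4.1, a4.2]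
      have a6 : 0 ≤ d' := (abs_nonneg _).trans a4
      rw [e]
      have b1 := mul_le_mul a1 a3 hd (by linarith)
      have b2 := mul_le_mul_of_nonneg_left a5 (show 0 ≤ σ * (z t - z k) by linarith)
      have b3 := mul_le_mul_of_nonneg_right a2 a6
      linarith
    rw [← sum_mul, tot, sum_sub_distrib] at k1
    have k2 : w₀ * W * (5 * r / 16 * d - 5 * r / 8 * d') ≤ max X 0 := by
      linarith [le_max_left X 0]
    have e2 : w₀ * W * (5 * r / 16 * d - 5 * r / 8 * d') =
        w₀ * l * (5 / (128 * C)) * (√r * d - 2 * (√r * d')) := by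
      rw [hW]
      have : r = √r ^ 2 := (sq_sqrt hr.le).symm
      generalize √r = s at *
      subst this
      field_simp
      ring
    rw [e2] at k2
    have k3 : √r * d - 2 * (√r * d') ≤ max X 0 / (w₀ * l * (5 / (128 * C))) := by
      rw [le_div_iff₀ (by positivity)]; linarith
    have k4 : max X 0 / (w₀ * l * (5 / (128 * C))) = 128 / 5 * C * (max X 0 / (w₀ * l)) := by
      field_simp
    have k5 : 0 ≤ C * (max X 0 / (w₀ * l)) := by have := le_max_right X 0; positivity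
    rw [k4] at k3
    linarith

end Crest.Agent.T156.SrP26

end
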