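import Crest.Agent.T156.SRDef_19
import Crest.Agent.T156.ClReg_29
import Crest.Agent.T156.SrP_26

/-!
# Row 156, SR (helper64): the deposit clock exists (`Sr.ClkS`)
-/

set_option autoImplicit false

noncomputable section

namespace Crest.Agent.T156.Alt.Clk64

open Real Finset
open Crest.Agent.T156.Alt.Sr
open Crest.Agent.T156.SrP26 (Pt rho)

variable {E l Ys Y T : ℝ} {S : Sc} {M : Md}

/-- the extra part of the clock: a taper below the plateau, the shape `shp` on it -/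
def ext (T Y : ℝ) (S : Sc) (M : Md) (k : ℕ) : ℝ :=
  if k ≤ S.J then -max 0 (T ^ ((1 : ℝ) / 3) - (M.ck S.J - M.ck k) / 2)
  else shp T Y (M.xs S) (M.z (k - 1)) - √T / √(1 - M.xs S + Y)

theorem cube_third (hT : 0 ≤ T) : (T ^ ((1 : ℝ) / 3)) ^ 3 = T := by
  rw [← rpow_natCast, ← rpow_mul hT]
  norm_num

theorem ext_lo {k : ℕ} (hk : k ≤ S.J) :
    ext T Y S M k = -max 0 (T ^ ((1 : ℝ) / 3) - (M.ck S.J - M.ck k) / 2) := if_pos hk

theorem ext_hi (hT : 0 < T) {k : ℕ} (hk : S.J ≤ k) :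
    ext T Y S M k = shp T Y (M.xs S) (M.z (k - 1)) - √T / √(1 - M.xs S + Y) := by
  rcases hk.eq_or_lt with e | e
  · subst e
    have p0 : 0 < T ^ ((1 : ℝ) / 3) := rpow_pos_of_pos hT _
    have p3 := cube_third hT.le
    rw [ext_lo le_rfl, shp, Md.xs]
    generalize T ^ ((1 : ℝ) / 3) = p at *
    have s0 : 0 < √p := sqrt_pos.2 p0
    have e1 : √T = p * √p := by
      rw [sqrt_eq_iff_mul_self_eq hT.le (by positivity), ← p3]
      nlinarith [mul_self_sqrt p0.le]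
    rw [sub_self, sub_self, zero_div, sub_zero, zero_add, max_eq_right p0.le, e1,
      mul_div_assoc, mul_div_assoc p (√p) (√p), div_self s0.ne']
    ring
  · exact if_neg e.not_ge

theorem div_sqrt_le {a x y : ℝ} (ha : 0 ≤ a) (hx : 0 < x) (h : x ≤ y) : a / √y ≤ a / √x :=
  div_le_div_of_nonneg_left ha (sqrt_pos.2 hx) (sqrt_le_sqrt h)

theorem shp_mono (hT : 0 < T) (hY : 0 < Y) {xs x x' : ℝ} (h0 : xs ≤ x) (h1 : x ≤ x')
    (h2 : x' ≤ 1) : shp T Y xs x ≤ shp T Y xs x' := by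
  have p0 : 0 < T ^ ((1 : ℝ) / 3) := rpow_pos_of_pos hT _
  have a1 := div_sqrt_le (sqrt_nonneg T) (x := 1 - x' + Y) (y := 1 - x + Y) (by linarith)
    (by linarith)
  have a2 := div_sqrt_le (sqrt_nonneg T) (x := x - xs + T ^ ((1 : ℝ) / 3))
    (y := x' - xs + T ^ ((1 : ℝ) / 3)) (by linarith) (by linarith)
  simp only [shp]
  linarith

theorem sq_sub_le {a b c : ℝ} (hc : 0 ≤ c) (hca : c ≤ a) (hb : 0 ≤ b) :
    (a - b - c) ^ 2 ≤ a ^ 2 + b ^ 2 := by
  nlinarith [mul_nonneg (sub_nonneg.2 hca) hb, mul_nonneg hc (sub_nonneg.2 hca)]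

/-- the taper costs `2 C² T` -/
theorem sum_lo (h : Cl S M) (hT : 0 < T) :
    ∑ k ∈ Ioc S.jl (S.J - 1), M.dx k * ext T Y S M k ^ 2 ≤ 2 * S.C ^ 2 * T := by
  have p0 : 0 < T ^ ((1 : ℝ) / 3) := rpow_pos_of_pos hT _
  have p3 := cube_third hT.le
  have C0 := h.C0
  have jl := h.jl_lt
  have i1 := h.i1
  have i3 := h.i3
  set w := 2 * S.C ^ 2 * T ^ ((1 : ℝ) / 3) with hw
  have w0 : 0 < w := by positivity
  have hs : ∀ k ∈ Ioc S.jl (S.J - 1), M.dx k * ext T Y S M k ^ 2 ≤ (T ^ ((1 : ℝ) / 3)) ^ 2 *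
      (max (M.z k) (M.xs S - w) - max (M.z (k - 1)) (M.xs S - w)) := by
    intro k hk
    obtain ⟨k1, k2⟩ := mem_Ioc.1 hk
    have m1 : M.z (k - 1) ≤ M.z k := h.leg.zm (Nat.sub_le k 1)
    rw [ext_lo (by omega)]
    have c1 := (h.ck_tel (i := k) (j := S.J) (by omega) (by omega) i3).1
    have kJ : (k : ℝ) ≤ S.J := by exact_mod_cast (by omega : k ≤ S.J)
    have v0 := h.v0
    have c0 : 0 ≤ ((S.J : ℝ) - k) * (S.v / S.C) := mul_nonneg (by linarith) (by positivity)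
    rcases le_or_gt (T ^ ((1 : ℝ) / 3) - (M.ck S.J - M.ck k) / 2) 0 with c | c
    · rw [max_eq_left c]
      have := max_le_max m1 (le_refl (M.xs S - w))
      simp only [neg_zero, ne_eq, OfNat.ofNat_ne_zero, not_false_eq_true, zero_pow, mul_zero]
      exact mul_nonneg (sq_nonneg _) (by linarith)
    · have c2 := (h.z_tel (i := k - 1) (j := S.J - 1) (by omega) (by omega) (by omega)).2
      rw [Nat.cast_sub (by omega), Nat.cast_sub (by omega)] at c2
      have c3 : ((S.J : ℝ) - k) * (S.C * S.v) = S.C ^ 2 * (((S.J : ℝ) - k) * (S.v / S.C)) := by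
        field_simp
      have c4 : S.C ^ 2 * (((S.J : ℝ) - k) * (S.v / S.C)) ≤ S.C ^ 2 * (2 * T ^ ((1 : ℝ) / 3)) :=
        mul_le_mul_of_nonneg_left (by linarith) (sq_nonneg _)
      have c5 : M.xs S - w ≤ M.z (k - 1) := by
        simp only [Md.xs, Nat.cast_one] at c2 ⊢
        nlinarith
      rw [max_eq_left c5, max_eq_left (c5.trans m1), max_eq_right c.le, Md.dx, mul_comm]
      refine mul_le_mul_of_nonneg_right ?_ (by linarith)
      rw [neg_sq]
      exact pow_le_pow_left₀ c.le (by linarith) 2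
  refine (sum_le_sum hs).trans ?_
  rw [← mul_sum, SrP26.tele (z := fun k => max (M.z k) (M.xs S - w)) S.jl (S.J - 1) (by omega)]
  have a1 : max (M.z (S.J - 1)) (M.xs S - w) = M.xs S := max_eq_left (by simp only [Md.xs]; linarith)
  have a2 := le_max_right (M.z S.jl) (M.xs S - w)
  calc _ ≤ (T ^ ((1 : ℝ) / 3)) ^ 2 * w := mul_le_mul_of_nonneg_left (by linarith) (sq_nonneg _)
    _ = 2 * S.C ^ 2 * (T ^ ((1 : ℝ) / 3)) ^ 3 := by rw [hw]; ring
    _ = _ := by rw [p3]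

/-- the plateau costs `3 T log` -/
theorem sum_hi (h : Cl S M) (hT : 0 < T) (hY : Y ≤ T ^ ((1 : ℝ) / 3)) {d : ℝ}
    (P : Pt M.z S.J S.Jp (T ^ ((1 : ℝ) / 3)) Y d) :
    ∑ k ∈ Icc S.J S.Jp, M.dx k * ext T Y S M k ^ 2 ≤
      3 * T * (log (1 + 1 / T ^ ((1 : ℝ) / 3)) + 2 * log (1 + 1 / Y)) := by
  have d0 := P.h0
  have hu := P.hu
  have he := P.he
  refine le_trans ?_ (mul_le_mul_of_nonneg_left P.sum_inv (by positivity))
  rw [mul_sum]
  refine sum_le_sum fun k hk => ?_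
  obtain ⟨k1, k2⟩ := mem_Icc.1 hk
  have m0 : M.xs S ≤ M.z (k - 1) := h.leg.zm (by omega)
  have m1 : M.z (k - 1) ≤ M.z k := h.leg.zm (Nat.sub_le k 1)
  have m2 := h.leg.z1 k
  have r0 := P.r_pos k1 k2
  have r1 : P.r k ≤ M.z k - M.xs S + T ^ ((1 : ℝ) / 3) := min_le_left _ _
  have r2 : P.r k ≤ 1 - M.z k + Y := min_le_right _ _
  have r3 : P.r k / 2 ≤ M.z (k - 1) - M.xs S + T ^ ((1 : ℝ) / 3) := by
    rcases k2.eq_or_lt with e | e
    · have := P.top
      rw [← e] at this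
      linarith
    · have := P.mesh k k1 e
      linarith
  rw [ext_hi hT k1, shp]
  have a1 := sq_sub_le (a := √T / √(1 - M.z (k - 1) + Y))
    (b := √T / √(M.z (k - 1) - M.xs S + T ^ ((1 : ℝ) / 3))) (c := √T / √(1 - M.xs S + Y))
    (by positivity) (div_sqrt_le (sqrt_nonneg T) (by linarith) (by linarith)) (by positivity)
  rw [div_pow, div_pow, sq_sqrt hT.le, sq_sqrt (by linarith), sq_sqrt (by linarith)] at a1
  have a2 : T / (1 - M.z (k - 1) + Y) ≤ T / P.r k :=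
    div_le_div_of_nonneg_left hT.le r0 (by linarith)
  have a3 : T / (M.z (k - 1) - M.xs S + T ^ ((1 : ℝ) / 3)) ≤ T / (P.r k / 2) :=
    div_le_div_of_nonneg_left hT.le (by linarith) r3
  have a4 : T / (P.r k / 2) = 2 * (T / P.r k) := by field_simp
  calc _ ≤ M.dx k * (3 * (T / P.r k)) :=
        mul_le_mul_of_nonneg_left (by linarith) (by simp only [Md.dx]; linarith)
    _ = _ := by simp only [Md.dx]; ring

/-- **the clock** -/
theorem exists_ax (h : Cl S M) (H : SH E S M l Ys Y) (A2 : 2 ≤ S.A) (n3 : 3 ≤ S.n)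
    (hE : 16 * S.C ^ 4 + 36 * log S.n ≤ E) : ∃ c, Ax E S M Y c := by
  have C1 := h.C1
  have N3 : (3 : ℝ) ≤ S.n := by exact_mod_cast n3
  have N0 := h.N0
  have lg0 : 0 ≤ log (S.n : ℝ) := log_nonneg (by linarith)
  have C4 : 1 ≤ S.C ^ 4 := one_le_pow₀ C1
  have C24 : S.C ^ 2 ≤ S.C ^ 4 := pow_le_pow_right₀ C1 (by norm_num)
  have C34 : S.C ^ 3 ≤ S.C ^ 4 := pow_le_pow_right₀ C1 (by norm_num)
  have E16 : 16 ≤ E := by linarith
  have E1 : 1 ≤ E := by linarith
  have Yn : 1 / (S.n : ℝ) ≤ Y := by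
    refine le_trans ?_ H.Y0
    rw [one_div, ← rpow_neg_one]
    exact rpow_le_rpow_of_exponent_le (by linarith) (by norm_num)
  have Y0 : 0 < Y := lt_of_lt_of_le (by positivity) Yn
  have Y1 : E ^ 200 * Y ≤ 1 :=
    H.Y1.trans (rpow_le_one_of_one_le_of_nonpos (by linarith) (by norm_num))
  have Ep : ∀ i ≤ 200, E ^ i * Y ≤ 1 := fun i hi =>
    (mul_le_mul_of_nonneg_right (pow_le_pow_right₀ E1 hi) Y0.le).trans Y1
  have n16 : (16 : ℝ) ≤ S.n := by
    have a1 := Ep 1 (by norm_num)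
    have a2 : E ^ 1 * (1 / (S.n : ℝ)) ≤ 1 :=
      (mul_le_mul_of_nonneg_left Yn (by positivity)).trans a1
    rw [pow_one, mul_one_div, div_le_one N0] at a2
    linarith
  set T := E ^ 99 * Y with hT
  have YT : Y ≤ T := le_mul_of_one_le_left Y0.le (one_le_pow₀ E1)
  have T0 : 0 < T := by linarith
  have p0 : 0 < T ^ ((1 : ℝ) / 3) := rpow_pos_of_pos T0 _
  have p3 := cube_third T0.le
  have Yp : Y ≤ T ^ ((1 : ℝ) / 3) := by
    refine le_of_pow_le_pow_left₀ (n := 3) (by norm_num) p0.le ?_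
    have a1 : Y ≤ 1 := by simpa using Ep 0 (by norm_num)
    have a2 : Y ^ 3 ≤ Y ^ 1 := pow_le_pow_of_le_one Y0.le a1 (by norm_num)
    rw [p3]
    linarith [pow_one Y]
  have pE : E * T ^ ((1 : ℝ) / 3) ≤ 1 := by
    refine le_of_pow_le_pow_left₀ (n := 3) (by norm_num) zero_le_one ?_
    rw [mul_pow, p3, hT, one_pow, ← mul_assoc, ← pow_add]
    exact Ep _ (by norm_num)
  have lp : l ≤ T ^ ((1 : ℝ) / 3) :=
    le_of_pow_le_pow_left₀ (n := 3) (by norm_num) p0.le (by rw [p3]; linarith [H.l3])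
  have n2 : 16 * (1 / (S.n : ℝ) ^ 2) ≤ Y := by
    refine le_trans ?_ Yn
    rw [mul_one_div, div_le_div_iff₀ (by positivity) N0]
    nlinarith
  have v0 := h.v0
  have vp : S.v ≤ S.C * T ^ ((1 : ℝ) / 3) := by
    have a1 : S.v * (S.n : ℝ) ^ 1 ≤ S.C := (mul_le_mul_of_nonneg_left
      (pow_le_pow_right₀ (by linarith) (by omega)) v0.le).trans h.v2
    rw [pow_one, ← le_div_iff₀ N0, div_eq_mul_one_div] at a1
    exact a1.trans (mul_le_mul_of_nonneg_left (Yn.trans Yp) (by linarith))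
  have jl := h.jl_lt
  have i1 := h.i1
  have i2 := h.i2
  have i3 := h.i3
  have i4 := h.i4
  have P : Pt M.z S.J S.Jp (T ^ ((1 : ℝ) / 3)) Y (1 / (S.n : ℝ) ^ 2) :=
    ⟨by omega, i3, h.leg.zm, (h.z_pos _).le, h.top _ le_rfl, fun k k1 k2 => H.mesh k k1 k2.le, by
      have a1 := H.mesh S.Jp i3 le_rfl
      have a2 : (0 : ℝ) < 1 / (S.n : ℝ) ^ 2 := by positivity
      rw [Md.dx, h.top _ le_rfl] at a1
      linarith, by positivity, n2.trans Yp, n2⟩
  have ckm : ∀ i j, S.jl ≤ i → i ≤ j → j ≤ S.Jp → M.ck i ≤ M.ck j := fun i j a1 a2 a3 => by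
    have b1 := (h.ck_tel (i1.trans a1) a2 a3).1
    have b2 : (i : ℝ) ≤ j := by exact_mod_cast a2
    have : 0 ≤ ((j : ℝ) - i) * (S.v / S.C) := mul_nonneg (by linarith) (by positivity)
    linarith
  have xs0 : ∀ k, S.J ≤ k → M.xs S ≤ M.z (k - 1) := fun k hk => h.leg.zm (by omega)
  have dlo : ∀ k, S.jl < k → k < S.J → -((M.ck (k + 1) - M.ck k) / 2) ≤
      ext T Y S M (k + 1) - ext T Y S M k ∧ ext T Y S M (k + 1) - ext T Y S M k ≤ 0 := by
    intro k k1 k2
    have a1 := ckm k (k + 1) k1.le k.le_succ (by omega)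
    rw [ext_lo k2, ext_lo k2.le]
    constructor <;> simp only [max_def] <;> split_ifs <;> linarith
  have dhi : ∀ k, S.J ≤ k → ext T Y S M (k + 1) - ext T Y S M k =
      shp T Y (M.xs S) (M.z k) - shp T Y (M.xs S) (M.z (k - 1)) := fun k hk => by
    rw [ext_hi T0 hk, ext_hi T0 (k := k + 1) (by omega), Nat.add_sub_cancel]
    ring
  have lo : ∀ k, S.jl < k → M.z k ≤ 1 / (2 * S.C) → M.ck k + ext T Y S M k = M.q k := by
    intro k k1 k2
    have a0 : 1 / S.C = 2 * (1 / (2 * S.C)) := by field_simp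
    have a1 := h.atom.1
    have a2 : (0 : ℝ) < 1 / (2 * S.C) := by positivity
    have kJ : k < S.J - 1 := by
      by_contra hc
      have := h.leg.zm (not_lt.1 hc)
      linarith
    have c1 := (h.ck_tel (i := k) (j := S.J - 1) (by omega) (by omega) (by omega)).1
    have c2 := (h.z_tel (i := k) (j := S.J - 1) (by omega) (by omega) (by omega)).2
    have c0 := ckm (S.J - 1) S.J (by omega) (by omega) i3
    generalize (((S.J - 1 : ℕ) : ℝ) - k) = d at c1 c2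
    have c3 : d * (S.C * S.v) = S.C ^ 2 * (d * (S.v / S.C)) := by field_simp
    have c4 : 1 / (2 * S.C) ≤ S.C ^ 2 * (M.ck S.J - M.ck k) := by
      have := mul_le_mul_of_nonneg_left c1 (sq_nonneg S.C)
      nlinarith [mul_le_mul_of_nonneg_left c0 (sq_nonneg S.C)]
    rw [div_le_iff₀ (by positivity)] at c4
    have c5 : T ^ ((1 : ℝ) / 3) - (M.ck S.J - M.ck k) / 2 ≤ 0 := by
      by_contra hc
      have b1 : S.C ^ 3 * (M.ck S.J - M.ck k) ≤ S.C ^ 3 * (2 * T ^ ((1 : ℝ) / 3)) :=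
        mul_le_mul_of_nonneg_left (by linarith) (by positivity)
      have b2 : 16 * S.C ^ 3 * T ^ ((1 : ℝ) / 3) ≤ E * T ^ ((1 : ℝ) / 3) :=
        mul_le_mul_of_nonneg_right (by linarith) p0.le
      nlinarith
    rw [ext_lo (by omega), max_eq_left c5, h.ckq k k2]
    ring
  refine ⟨fun k => M.ck k + ext T Y S M k, lo, fun k k1 k2 => ?_, fun k k1 k2 => ?_,
    fun k k1 k2 => ?_, ?_, ?_, fun k k1 k2 => ?_⟩
  · have a1 := ckm k (k + 1) k1.le k.le_succ k2
    rcases lt_or_ge k S.J with c | c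
    · linarith [(dlo k k1 c).1]
    · have a2 := shp_mono T0 Y0 (xs0 k c) (h.leg.zm (Nat.sub_le k 1)) (h.leg.z1 k)
      linarith [dhi k c]
  · linarith [(dlo k k1 k2).2]
  · linarith [dhi k k1, ckm k (k + 1) (by omega) k.le_succ k2]
  · have a1 : M.sq S (fun k => M.ck k + ext T Y S M k - M.q k) ≤
        2 * M.sq S (fun k => M.ck k - M.q k) + 2 * M.sq S (ext T Y S M) := by
      simp only [Md.sq, mul_sum, ← sum_add_distrib]
      refine sum_le_sum fun k _ => ?_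
      have b1 : 0 ≤ M.dx k := sub_nonneg.2 (h.leg.zm (Nat.sub_le k 1))
      nlinarith [mul_nonneg b1 (sq_nonneg (M.ck k - M.q k - ext T Y S M k))]
    have a2 : M.sq S (ext T Y S M) = ∑ k ∈ Ioc S.jl (S.J - 1), M.dx k * ext T Y S M k ^ 2 +
        ∑ k ∈ Icc S.J S.Jp, M.dx k * ext T Y S M k ^ 2 := by
      rw [show Icc S.J S.Jp = Ioc (S.J - 1) S.Jp by ext k; simp only [mem_Icc, mem_Ioc]; omega,
        sum_Ioc_consecutive _ (by omega) (by omega), Md.sq]
    have a3 := sum_lo (Y := Y) h T0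
    have a4 := sum_hi h T0 Yp P
    have lg : ∀ x, Y ≤ x → log (1 + 1 / x) ≤ 2 * log S.n := fun x hx => by
      have b1 : 1 / x ≤ S.n := by
        rw [div_le_iff₀ (by linarith)]
        have := Yn.trans hx
        rw [div_le_iff₀ N0] at this
        linarith
      have b2 : 0 < 1 / x := one_div_pos.2 (by linarith)
      have b3 : log (1 + 1 / x) ≤ log ((S.n : ℝ) ^ 2) := log_le_log (by linarith) (by nlinarith)
      rw [log_pow] at b3
      exact_mod_cast b3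
    have a5 := lg _ Yp
    have a6 := lg _ le_rfl
    have a7 : 3 * T * (log (1 + 1 / T ^ ((1 : ℝ) / 3)) + 2 * log (1 + 1 / Y)) ≤
        3 * T * (6 * log S.n) := mul_le_mul_of_nonneg_left (by linarith) (by positivity)
    have a8 : (2 + 4 * S.C ^ 2 + 36 * log S.n) * T ≤ E * T :=
      mul_le_mul_of_nonneg_right (by linarith) T0.le
    have a9 : E ^ 100 * Y = E * T := by rw [hT]; ring
    have := H.ck
    linarith
  · have a1 := (h.z_s (k := S.jl + 1) (by omega) i2).2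
    have a2 := (h.ss S.jl jl).2
    have a3 := H.jl
    have a4 : M.z (S.jl + 1) ≤ 1 / (2 * S.C) := by
      rw [le_div_iff₀ (by positivity)]
      have b1 : S.C * S.v ≤ S.C * (S.C * T ^ ((1 : ℝ) / 3)) :=
        mul_le_mul_of_nonneg_left vp (by linarith)
      have b2 : T ^ ((1 : ℝ) / 3) ≤ S.C * T ^ ((1 : ℝ) / 3) := le_mul_of_one_le_left p0.le C1
      have b3 : S.C * T ^ ((1 : ℝ) / 3) ≤ S.C * (S.C * T ^ ((1 : ℝ) / 3)) :=
        le_mul_of_one_le_left (by positivity) C1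
      have b4 : M.z (S.jl + 1) ≤ S.C * (4 * (S.C * (S.C * T ^ ((1 : ℝ) / 3)))) :=
        a1.trans (mul_le_mul_of_nonneg_left (by linarith) (by linarith))
      have b5 := mul_le_mul_of_nonneg_right b4 (by positivity : 0 ≤ 2 * S.C)
      have b6 : 16 * S.C ^ 4 * T ^ ((1 : ℝ) / 3) ≤ E * T ^ ((1 : ℝ) / 3) :=
        mul_le_mul_of_nonneg_right (by linarith) p0.le
      nlinarith [mul_pos (by linarith : 0 < S.C ^ 4) p0]
    show 0 ≤ M.ck _ + ext T Y S M _ ∧ M.ck _ + ext T Y S M _ ≤ _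
    rw [lo _ (Nat.lt_succ_self _) a4]
    exact ⟨h.q_nn (by omega), h.q_le_s (by omega)⟩
  · have a1 := (ckm k S.Jp k1.le k2 le_rfl).trans H.ckT
    have a2 : ext T Y S M k ≤ E ^ 50 := by
      rcases le_total k S.J with c | c
      · rw [ext_lo c]
        have := le_max_left 0 (T ^ ((1 : ℝ) / 3) - (M.ck S.J - M.ck k) / 2)
        have : 0 ≤ E ^ 50 := by positivity
        linarith
      · rw [ext_hi T0 c, shp]
        have b1 := div_sqrt_le (sqrt_nonneg T) Y0 (y := 1 - M.z (k - 1) + Y)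
          (by linarith [h.leg.z1 (k - 1)])
        have b2 : √T / √Y ≤ E ^ 50 := by
          rw [← sqrt_div T0.le, hT, mul_div_assoc, div_self Y0.ne', mul_one]
          refine sqrt_le_iff.2 ⟨by positivity, ?_⟩
          rw [← pow_mul]
          exact pow_le_pow_right₀ E1 (by norm_num)
        have b3 : 0 ≤ √T / √(M.z (k - 1) - M.xs S + T ^ ((1 : ℝ) / 3)) := by positivity
        have b4 : 0 ≤ √T / √(1 - M.xs S + Y) := by positivity
        linarith
    have a3 : E ^ 1 ≤ E ^ 50 := pow_le_pow_right₀ E1 (by norm_num)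
    have a4 : 2 * E ^ 50 ≤ E * E ^ 50 := mul_le_mul_of_nonneg_right (by linarith) (by positivity)
    show M.ck k + ext T Y S M k ≤ E ^ 51
    rw [pow_one] at a3
    calc _ ≤ E * E ^ 50 := by linarith
      _ = _ := by ring

/-- `E ≥ 16 C⁴ + 36 log n` in the class prefix -/
theorem E_ge {C ε η : ℝ} {A : ℕ} (H : RgC C A η (C ^ 4) S) (hη : (2 : ℕ) * η ≤ ε) :
    16 * S.C ^ 4 + 36 * log S.n ≤ (S.n : ℝ) ^ ε := by
  have a1 : (S.n : ℝ) ^ η * (S.n : ℝ) ^ η ≤ (S.n : ℝ) ^ ε := by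
    rw [← rpow_add H.N0]
    refine rpow_le_rpow_of_exponent_le H.N1.le ?_
    push_cast at hη
    linarith
  have a2 := mul_le_mul_of_nonneg_right H.num_le (H.rp0 η).le
  have a3 := H.K_le
  have a4 := H.log_le
  have a5 := H.rp0 η
  rw [H.hC]
  linarith

/-- **`ClkS`** -/
theorem clkS : ClkS :=
  CL.intro (fun _ _ _ _ _ _ _ _ _ h => h) 2 2 0 fun C _ _ _ _ _ => ⟨C ^ 4,
    fun _ _ _ _ H _ hη _ h _ _ _ _ G => exists_ax h G (H.hA ▸ H.A2) H.n3 (E_ge H hη)⟩

end Crest.Agent.T156.Alt.Clk64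

end
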