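import Crest.Agent.T156.CluB_22

/-!
# Row 156 (helper22): words of legs on the clusters of a split matrix

`Fit t ε j K σ D`: the split matrix `σ` consists of the clusters `D v` above the depth `j` and of
the skeleton `t`.  The notion is closed under grafts, and a word of legs summed over the positions
inside the clusters is a product of derivatives in the incoming states (`gW_fit`).
-/

set_option autoImplicit false
set_option linter.unusedSectionVars false

noncomputable section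

namespace Crest.Agent.T156.Cas

open MeasureTheory Real Set Filter Topology
open Crest.Agent.T157.E Crest.Agent.T157.Casc Crest.Agent.T157.SL
open Nu87 Function

/-- one cluster: split matrix, labels, observable -/
structure Cd (Ω : Type) (R : ℕ) where
  n : ℕ
  ρ : SM (n + 1)
  ι : Fin (n + 1) → Fin R
  F : (Fin (n + 1) → Ω) → ℝ

variable {Ω : Type} {R V : ℕ}

namespace Cd

/-- a new label `0` elsewhere -/
def sh (C : Cd Ω R) : Cd Ω (R + 1) := ⟨C.n, C.ρ, fun a => (C.ι a).succ, C.F⟩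

/-- a leg on an old leaf -/
def old (C : Cd Ω R) (a : Fin (C.n + 1)) (f : Ω → ℝ) : Cd Ω R :=
  ⟨C.n, C.ρ, C.ι, fun x => C.F x * f (x a)⟩

/-- a leg on a new leaf of the cluster -/
def gft (C : Cd Ω R) (N : ℕ) (a : Fin (C.n + 1)) (k : ℕ) (f : Ω → ℝ) : Cd Ω (R + 1) :=
  ⟨C.n + 1, gr N C.ρ a k, Fin.cons 0 fun b => (C.ι b).succ,
    fun x => C.F (fun c => x c.succ) * f (x 0)⟩

/-- a new cluster with one leaf -/
def new (R N : ℕ) (f : Ω → ℝ) : Cd Ω (R + 1) := ⟨0, fun _ _ => N, fun _ => 0, fun x => f (x 0)⟩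

/-- the observable read on the labels -/
def ev (C : Cd Ω R) (x : Fin R → Ω) : ℝ := C.F fun a => x (C.ι a)

/-- the cluster sits in `σ` above the depth `j` -/
structure In (C : Cd Ω R) (j K : ℕ) (σ : SM R) : Prop where
  rz : Rz (K - j) C.ρ
  inj : Injective C.ι
  ins : ∀ a b, σ (C.ι a) (C.ι b) = C.ρ a b + j

/-- two different clusters -/
structure Out (C C' : Cd Ω R) (σ : SM R) (m : ℕ) : Prop where
  dis : ∀ a b, C.ι a ≠ C'.ι b
  out : ∀ a b, σ (C.ι a) (C'.ι b) = m

variable {C C' : Cd Ω R} {j K m : ℕ} {σ : SM R}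

theorem In.sh (h : C.In j K σ) (c : Fin R) (i : ℕ) : C.sh.In j K (gr K σ c i) :=
  ⟨h.rz, fun _ _ e => h.inj (Fin.succ_injective _ e), h.ins⟩

theorem Out.sh (h : C.Out C' σ m) (c : Fin R) (i : ℕ) : C.sh.Out C'.sh (gr K σ c i) m :=
  ⟨fun a b e => h.dis a b (Fin.succ_injective _ e), h.out⟩

theorem Out.symm (h : C.Out C' σ m) (hσ : Rz K σ) : C'.Out C σ m :=
  ⟨fun a b e => h.dis b a e.symm, fun a b => (hσ.comm _ _).trans (h.out b a)⟩

theorem In.gft (h : C.In j K σ) (hj : j ≤ K) (a : Fin (C.n + 1)) (k : ℕ) (f : Ω → ℝ) :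
    (C.gft (K - j) a k f).In j K (gr K σ (C.ι a) (k + j)) := by
  refine ⟨h.rz.gr a k, Fin.cons_injective_iff.2 ⟨?_, fun _ _ e => h.inj (Fin.succ_injective _ e)⟩,
    fun b c => ?_⟩
  · rintro ⟨b, hb⟩
    exact Fin.succ_ne_zero _ hb
  · have e : ∀ c, min (k + j) (σ (C.ι c) (C.ι a)) = min k (C.ρ c a) + j := fun c => by
      rw [h.ins]; omega
    refine Fin.cases ?_ (fun b => ?_) b <;> refine Fin.cases ?_ (fun c => ?_) c
    · exact (Nat.sub_add_cancel hj).symm
    · exact e c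
    · exact e b
    · exact h.ins b c

theorem Out.gft (h : C.Out C' σ m) (hσ : Rz K σ) (hm : m ≤ j) (N : ℕ) (a : Fin (C.n + 1)) (k : ℕ)
    (f : Ω → ℝ) : (C.gft N a k f).Out C'.sh (gr K σ (C.ι a) (k + j)) m := by
  refine ⟨fun b c => ?_, fun b c => ?_⟩ <;> refine Fin.cases ?_ (fun b => ?_) b
  · exact (Fin.succ_ne_zero _).symm
  · exact fun e => h.dis b c (Fin.succ_injective _ e)
  · show min (k + j) (σ (C'.ι c) (C.ι a)) = m
    rw [(hσ.comm _ _).trans (h.out a c)]; omega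
  · exact h.out b c

end Cd

/-- `σ` consists of the clusters `D v` on the skeleton `t` -/
structure Fit (t : Sh) (ε : Fin V ≃ t.Lf) (j K : ℕ) (σ : SM R) (D : Fin V → Cd Ω R) : Prop where
  le : j ≤ K
  rz : Rz K σ
  ins : ∀ v, (D v).In j K σ
  out : ∀ v v', v ≠ v' → (D v).Out (D v') σ (t.shr (ε v) (ε v') j)

/-- the product observable -/
def cval (D : Fin V → Cd Ω R) (x : Fin R → Ω) : ℝ := ∏ v, (D v).ev x

/-- a leg on an old leaf of the cluster `v` -/
def oldAt (D : Fin V → Cd Ω R) (v : Fin V) (a : Fin ((D v).n + 1)) (f : Ω → ℝ) : Fin V → Cd Ω R :=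
  update D v ((D v).old a f)

/-- a leg on a new leaf of the cluster `v` -/
def gftAt (D : Fin V → Cd Ω R) (N : ℕ) (v : Fin V) (a : Fin ((D v).n + 1)) (k : ℕ) (f : Ω → ℝ) :
    Fin V → Cd Ω (R + 1) := update (fun u => (D u).sh) v ((D v).gft N a k f)

/-- a leg on a new cluster -/
def newAt (D : Fin V → Cd Ω R) (N : ℕ) (f : Ω → ℝ) : Fin (V + 1) → Cd Ω (R + 1) :=
  Fin.cons (Cd.new R N f) fun u => (D u).sh

theorem prod_upd {β : Type} (D : Fin V → β) (v : Fin V) (b : β) (φ : Fin V → β → ℝ) :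
    ∏ u, φ u (update D v b u) = φ v b * ∏ u ∈ Finset.univ.erase v, φ u (D u) := by
  rw [← Finset.mul_prod_erase _ _ (Finset.mem_univ v), update_self]
  exact congrArg _ (Finset.prod_congr rfl fun u hu => by rw [update_of_ne (Finset.ne_of_mem_erase hu)])

theorem cval_old (D : Fin V → Cd Ω R) (v : Fin V) (a : Fin ((D v).n + 1)) (f : Ω → ℝ)
    (x : Fin R → Ω) : cval (oldAt D v a f) x = cval D x * f (x ((D v).ι a)) := by
  rw [cval, oldAt, prod_upd D v _ fun _ C => C.ev x, cval,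
    ← Finset.mul_prod_erase _ _ (Finset.mem_univ v), mul_right_comm]
  rfl

theorem cval_gft (D : Fin V → Cd Ω R) (N : ℕ) (v : Fin V) (a : Fin ((D v).n + 1)) (k : ℕ)
    (f : Ω → ℝ) (x : Fin (R + 1) → Ω) :
    cval (gftAt D N v a k f) x = cval D (fun c => x c.succ) * f (x 0) := by
  rw [cval, gftAt, prod_upd _ v _ fun _ (C : Cd Ω (R + 1)) => C.ev x, cval,
    ← Finset.mul_prod_erase _ _ (Finset.mem_univ v), mul_right_comm]
  rfl

theorem cval_new (D : Fin V → Cd Ω R) (N : ℕ) (f : Ω → ℝ) (x : Fin (R + 1) → Ω) :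
    cval (newAt D N f) x = cval D (fun c => x c.succ) * f (x 0) := by
  rw [cval, Fin.prod_univ_succ, mul_comm]
  rfl

namespace Fit

variable {t : Sh} {ε : Fin V ≃ t.Lf} {j K : ℕ} {σ : SM R} {D : Fin V → Cd Ω R}

theorem upd (H : Fit t ε j K σ D) (v : Fin V) {C : Cd Ω R} (h1 : C.In j K σ)
    (h2 : ∀ u, v ≠ u → C.Out (D u) σ (t.shr (ε v) (ε u) j)) : Fit t ε j K σ (update D v C) := by
  refine ⟨H.le, H.rz, fun u => ?_, fun u u' h => ?_⟩
  · rcases eq_or_ne u v with rfl | hu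
    · rwa [update_self]
    · rw [update_of_ne hu]; exact H.ins u
  · rcases eq_or_ne u v with rfl | hu
    · rw [update_self, update_of_ne h.symm]; exact h2 u' h
    · rw [update_of_ne hu]
      rcases eq_or_ne u' v with rfl | hu'
      · rw [update_self, Wt87.shr_comm]; exact (h2 u h.symm).symm H.rz
      · rw [update_of_ne hu']; exact H.out u u' h

theorem sh (H : Fit t ε j K σ D) (c : Fin R) (i : ℕ) :
    Fit t ε j K (gr K σ c i) fun u => (D u).sh :=
  ⟨H.le, H.rz.gr c i, fun u => (H.ins u).sh c i, fun u u' h => (H.out u u' h).sh c i⟩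

theorem old (H : Fit t ε j K σ D) (v : Fin V) (a : Fin ((D v).n + 1)) (f : Ω → ℝ) :
    Fit t ε j K σ (oldAt D v a f) :=
  H.upd v ⟨(H.ins v).rz, (H.ins v).inj, (H.ins v).ins⟩ fun u h =>
    ⟨(H.out v u h).dis, (H.out v u h).out⟩

/-- a graft inside a cluster -/
theorem gft (H : Fit t ε j K σ D) (v : Fin V) (a : Fin ((D v).n + 1)) (k : ℕ) (f : Ω → ℝ) :
    Fit t ε j K (gr K σ ((D v).ι a) (k + j)) (gftAt D (K - j) v a k f) :=
  (H.sh _ _).upd v ((H.ins v).gft H.le a k f) fun u h =>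
    (H.out v u h).gft H.rz (Wt87.shr_le _ _ _ _) _ a k f

/-- a graft below the cut -/
theorem new (H : Fit t ε j K σ D) (v : Fin V) (a : Fin ((D v).n + 1)) {i : ℕ} (hi : i ≤ j)
    (f : Ω → ℝ) : Fit (t.graft (ε v) i) (grE ε (ε v) i) j K (gr K σ ((D v).ι a) i)
      (newAt D (K - j) f) := by
  have hr := H.rz.gr ((D v).ι a) i
  have e : ∀ u, (Cd.new R (K - j) f).Out (D u).sh (gr K σ ((D v).ι a) i)
      ((t.graft (ε v) i).shr (t.nw (ε v) i) (t.emb (ε v) i (ε u)) j) := fun u => by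
    refine ⟨fun _ _ => (Fin.succ_ne_zero _).symm, fun _ b => ?_⟩
    show min i (σ ((D u).ι b) ((D v).ι a)) = _
    rw [Wt87.shr_nw', min_eq_left hi]
    rcases eq_or_ne u v with rfl | hu
    · rw [(H.ins u).ins b a, Wt87.shr_self]; omega
    · have := Wt87.shr_min t (ε u) (ε v) i j
      rw [min_eq_left hi] at this
      rw [(H.out u v hu).out b a, this]
  refine ⟨H.le, hr, fun u => ?_, fun u u' => ?_⟩
  · refine Fin.cases ?_ (fun u => (H.ins u).sh _ _) u
    exact ⟨rz_one _, fun a b _ => Subsingleton.elim (α := Fin 1) a b,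
      fun _ _ => (Nat.sub_add_cancel H.le).symm⟩
  · refine Fin.cases ?_ (fun u => ?_) u <;> refine Fin.cases ?_ (fun u' => ?_) u'
    · exact fun h => absurd rfl h
    · exact fun _ => e u'
    · exact fun _ => Wt87.shr_comm _ _ _ _ ▸ (e u).symm hr
    · intro h
      rw [grE_succ, grE_succ, Wt87.shr_emb]
      exact (H.out u u' fun e => h (congrArg _ e)).sh _ _

/-- one replica -/
theorem one {j K : ℕ} (hj : j ≤ K) (f : Ω → ℝ) :
    Fit .one (Equiv.ofUnique (Fin 1) Unit :) j K (fun _ _ => K) fun _ => Cd.new 0 (K - j) f :=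
  ⟨hj, rz_one K, fun _ => ⟨rz_one _, fun a b _ => Subsingleton.elim (α := Fin 1) a b,
    fun _ _ => (Nat.sub_add_cancel hj).symm⟩, fun v v' h => absurd (Subsingleton.elim v v') h⟩

end Fit

variable [Fintype Ω] {w : Ω → ℝ}

/-- **the clusters are independent given the states at the cut** -/
theorem TM_fit (hw : Wt w) {t : Sh} {ε : Fin V ≃ t.Lf} {j : ℕ} {L : List (Lv Ω)} {σ : SM R}
    {D : Fin V → Cd Ω R} (H : Fit t ε j L.length σ D) (h : Ω → ℝ) :
    TM w L h σ (cval D) =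
      tF w t L h fun p _ => ∏ v, TM w (L.drop j) (p (ε v) j) (D v).ρ (D v).F := by
  have := TM_clu hw t (r := fun α => (D (ε.symm α)).n + 1) L h H.le H.rz
    (ρ := fun α => (D (ε.symm α)).ρ) (fun α => (H.ins _).rz)
    (ι := fun c => (D (ε.symm c.1)).ι c.2) ?_ (fun α a b _ => (H.ins _).ins a b)
    (fun α β a b hab => ((H.out _ _ fun e => hab (ε.symm.injective e)).out a b).trans
      (by rw [ε.apply_symm_apply, ε.apply_symm_apply])) fun α => (D (ε.symm α)).F
  · refine Eq.trans (congrArg _ (funext fun x => (ε.symm.prod_comp fun v => (D v).ev x).symm))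
      (this.trans (congrArg _ (funext fun p => funext fun _ => ?_)))
    rw [← ε.symm.prod_comp]
    simp only [ε.apply_symm_apply]
  · rintro ⟨α, a⟩ ⟨β, b⟩ e
    obtain rfl : α = β := by
      by_contra hab
      exact (H.out _ _ fun e => hab (ε.symm.injective e)).dis a b e
    exact congrArg (Sigma.mk α) ((H.ins _).inj e)

/-- a word of legs on one cluster, previous tilt `m` -/
def dW (w : Ω → ℝ) (N : List (Lv Ω)) (m : ℝ) (z : Ω → ℝ) : List (Ω → ℝ) → {r : ℕ} → SM (r + 1) →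
    ((Fin (r + 1) → Ω) → ℝ) → ℝ
  | [], _, ρ, F => TM w N z ρ F
  | f :: l, _, ρ, F => ∑ a, dW w N m z l ρ (fun x => F x * f (x a)) -
      Ws N ρ (fun a k => dW w N m z l (gr N.length ρ a k) fun x => F (fun c => x c.succ) * f (x 0)) +
      m * dW w N m z l (gr N.length ρ 0 0) fun x => F (fun c => x c.succ) * f (x 0)

/-- a word of legs on the clusters, summed over the positions above the cut -/
def gW (w : Ω → ℝ) (L : List (Lv Ω)) (h : Ω → ℝ) (j : ℕ) (m : ℝ) : List (Fin V × (Ω → ℝ)) →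
    {R : ℕ} → SM R → (Fin V → Cd Ω R) → ℝ
  | [], _, σ, D => TM w L h σ (cval D)
  | c :: l, _, σ, D => ∑ a, gW w L h j m l σ (oldAt D c.1 a c.2) -
      Ws (L.drop j) (D c.1).ρ (fun a k => gW w L h j m l (gr L.length σ ((D c.1).ι a) (k + j))
        (gftAt D (L.length - j) c.1 a k c.2)) +
      m * gW w L h j m l (gr L.length σ ((D c.1).ι 0) (0 + j)) (gftAt D (L.length - j) c.1 0 0 c.2)

/-- the legs on the cluster `v` -/
def legs (l : List (Fin V × (Ω → ℝ))) (v : Fin V) : List (Ω → ℝ) :=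
  (l.filter fun c => c.1 = v).map Prod.snd

namespace Clu22

theorem eg_Ws {κ : Type} [Fintype κ] (N : List (Lv Ω)) (σ : κ → κ → ℕ) {ι : Type} [Fintype ι]
    {G : (ι → ℝ) → κ → ℕ → ℝ} (h : ∀ a k, Eg fun z => G z a k) : Eg fun z => Ws N σ (G z) := by
  simp only [Ws, div_eq_mul_inv]
  exact (Eg.sum _ fun a _ => h a _).add (Eg.sum _ fun k _ =>
    (Eg.sum _ fun a _ => ((h a _).sub (h a _)).mul_const _).const_mul _)

theorem eg_TM (hw : Wt w) (N : List (Lv Ω)) {r : ℕ} {ρ : SM r} (hρ : Rz N.length ρ)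
    (F : (Fin r → Ω) → ℝ) : Eg fun z => TM w N z ρ F := by
  obtain ⟨s, e, rfl⟩ := hρ
  simp only [TM_sm hw s N _ e.injective]
  exact eg_TE hw s N _

theorem eg_dW (hw : Wt w) (N : List (Lv Ω)) (m : ℝ) : ∀ (l : List (Ω → ℝ)) {r : ℕ}
    {ρ : SM (r + 1)}, Rz N.length ρ → ∀ F, Eg fun z => dW w N m z l ρ F
  | [], _, _, hρ, F => eg_TM hw N hρ F
  | _ :: l, _, _, hρ, _ => ((Eg.sum _ fun _ _ => eg_dW hw N m l hρ _).sub
      (eg_Ws N _ fun a k => eg_dW hw N m l (hρ.gr a k) _)).add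
      ((eg_dW hw N m l (hρ.gr 0 0) _).const_mul m)

theorem tF_Ws (hw : Wt w) (t : Sh) (L : List (Lv Ω)) (h : Ω → ℝ) {κ : Type} [Fintype κ]
    (N : List (Lv Ω)) (σ : κ → κ → ℕ) {G : Pa t.Lf Ω → κ → ℕ → ℝ}
    (hG : ∀ a k, EgP fun p => G p a k) :
    tF w t L h (fun p _ => Ws N σ (G p)) = Ws N σ fun a k => tF w t L h fun p _ => G p a k := by
  have e := fun a k => (hG a k).stT (s := t) L h
  simp only [Ws, tF, div_eq_inv_mul]
  rw [Sd.tX_add hw t L h (fun _ => Eg.sum _ fun a _ => e a _) fun _ => Eg.sum _ fun k _ =>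
      (Eg.sum _ fun a _ => ((e a _).sub (e a _)).const_mul _).const_mul _,
    Sd.tX_sum hw t L h _ fun a _ _ => e a _, Sd.tX_sum hw t L h _ fun k _ _ =>
      (Eg.sum _ fun a _ => ((e a _).sub (e a _)).const_mul _).const_mul _]
  refine congrArg _ (Finset.sum_congr rfl fun k _ => ?_)
  rw [Sd.tX_const_mul, Sd.tX_sum hw t L h _ fun a _ _ => ((e a _).sub (e a _)).const_mul _]
  refine congrArg _ (Finset.sum_congr rfl fun a _ => ?_)
  rw [Sd.tX_const_mul, Sd.tX_sub hw t L h (fun _ => e a _) fun _ => e a _]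

theorem TM_gr_zero (hw : Wt w) (N : List (Lv Ω)) (z : Ω → ℝ) {r : ℕ} {ρ : SM r}
    (hρ : Rz N.length ρ) (a : Fin r) (f : Ω → ℝ) (F : (Fin r → Ω) → ℝ) :
    TM w N z (gr N.length ρ a 0) (fun x => F (fun c => x c.succ) * f (x 0)) =
      TM w N z ρ F * Pf w N z f := by
  obtain ⟨s, e, rfl⟩ := hρ
  rw [← sm_gr, TM_sm hw _ N z (grE e (e a) 0).injective, TM_sm hw s N z e.injective]
  exact One15.graft_zero hw s (e a) N z f fun x => F fun c => x (e c)

end Clu22

open Clu22

/-- **a word of legs is an iterated derivative of `e^{m X} TM`** -/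
theorem hasDerivAt_dW (hw : Wt w) (N : List (Lv Ω)) (m : ℝ) (z g : Ω → ℝ) (e : ℝ) :
    ∀ (l : List (Ω → ℝ)) {r : ℕ} {ρ : SM (r + 1)}, Rz N.length ρ → ∀ F,
    HasDerivAt (fun e : ℝ => exp (m * X w N (z + e • g)) * dW w N m (z + e • g) l ρ F)
      (exp (m * X w N (z + e • g)) * dW w N m (z + e • g) (l ++ [g]) ρ F) e
  | [], _, ρ, hρ, F => by
      have h1 : HasDerivAt (fun e : ℝ => X w N (z + e • g)) (Pf w N (z + e • g) g) e := by
        simpa only [Pf, mul_comm] using (gr_X hw N).line z g e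
      refine ((h1.const_mul m).exp.mul (hasDerivAt_dL hw N z hρ g F e)).congr_deriv ?_
      simp only [List.nil_append, dW, dL, TM_gr_zero hw N _ hρ]
      ring
  | f :: l, _, ρ, hρ, F => by
      simp only [List.cons_append, dW, mul_add, mul_sub, Finset.mul_sum, ← Ws_mul,
        mul_left_comm _ m]
      exact ((HasDerivAt.fun_sum fun a _ => hasDerivAt_dW hw N m z g e l hρ _).sub
        (hasDerivAt_Ws N ρ fun a k => hasDerivAt_dW hw N m z g e l (hρ.gr a k) _)).add
        ((hasDerivAt_dW hw N m z g e l (hρ.gr 0 0) _).const_mul m)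

/-- **words of legs factorise over the clusters** -/
theorem gW_fit (hw : Wt w) {t : Sh} {ε : Fin V ≃ t.Lf} {j : ℕ} (L : List (Lv Ω)) (h : Ω → ℝ)
    (m : ℝ) : ∀ (l : List (Fin V × (Ω → ℝ))) {R : ℕ} {σ : SM R} {D : Fin V → Cd Ω R},
    Fit t ε j L.length σ D → gW w L h j m l σ D = tF w t L h fun p _ =>
      ∏ v, dW w (L.drop j) m (p (ε v) j) (legs l v) (D v).ρ (D v).F
  | [], _, _, _, H => TM_fit hw H h
  | (v, f) :: l, _, σ, D, H => by
      have hz : ∀ u, Rz (L.drop j).length (D u).ρ := fun u => by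
        rw [List.length_drop]; exact (H.ins u).rz
      let B : Pa t.Lf Ω → ℝ := fun p => ∏ u ∈ Finset.univ.erase v,
        dW w (L.drop j) m (p (ε u) j) (legs l u) (D u).ρ (D u).F
      have hB : EgP B := egP_prod _ fun u _ => .state (eg_dW hw _ m _ (hz u) _) (ε u) j
      have e1 : ∀ a, gW w L h j m l σ (oldAt D v a f) = tF w t L h fun p _ =>
          dW w (L.drop j) m (p (ε v) j) (legs l v) (D v).ρ (fun x => (D v).F x * f (x a)) * B p :=
        fun a => (gW_fit hw L h m l (H.old v a f)).trans (congrArg _ (funext fun p => funext fun _ =>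
          prod_upd D v _ fun u C => dW w (L.drop j) m (p (ε u) j) (legs l u) C.ρ C.F))
      have e2 : ∀ a k, gW w L h j m l (gr L.length σ ((D v).ι a) (k + j))
          (gftAt D (L.length - j) v a k f) = tF w t L h fun p _ =>
          dW w (L.drop j) m (p (ε v) j) (legs l v) (gr (L.drop j).length (D v).ρ a k)
            (fun x => (D v).F (fun c => x c.succ) * f (x 0)) * B p := fun a k => by
        rw [List.length_drop]
        exact (gW_fit hw L h m l (H.gft v a k f)).trans (congrArg _ (funext fun p => funext fun _ =>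
          prod_upd _ v _ fun u (C : Cd Ω _) => dW w (L.drop j) m (p (ε u) j) (legs l u) C.ρ C.F))
      have g1 := fun a => (EgP.state (eg_dW hw _ m (legs l v) (hz v)
        fun x => (D v).F x * f (x a)) (ε v) j).mul hB
      have g2 := fun a k => (EgP.state (eg_dW hw _ m (legs l v) ((hz v).gr a k)
        fun x => (D v).F (fun c => x c.succ) * f (x 0)) (ε v) j).mul hB
      simp only [gW, e1, e2]
      rw [← tF_Ws hw t L h _ _ g2, ← tF_const_mul]
      simp only [tF]
      rw [← Sd.tX_sum hw t L h _ fun a _ _ => (g1 a).stT L h,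
        ← Sd.tX_sub hw t L h (fun _ => Eg.sum _ fun a _ => (g1 a).stT L h)
          fun _ => eg_Ws _ _ fun a k => (g2 a k).stT L h,
        ← Sd.tX_add hw t L h (fun _ => (Eg.sum _ fun a _ => (g1 a).stT L h).sub
          (eg_Ws _ _ fun a k => (g2 a k).stT L h)) fun _ => ((g2 0 0).stT L h).const_mul m]
      refine congrArg _ (funext fun g => funext fun _ => ?_)
      rw [← Finset.mul_prod_erase _ _ (Finset.mem_univ v)]
      have l1 : legs ((v, f) :: l) v = f :: legs l v := by simp [legs]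
      have l2 : ∀ u ∈ Finset.univ.erase v, legs ((v, f) :: l) u = legs l u := fun u hu => by
        simp [legs, (Finset.ne_of_mem_erase hu).symm]
      rw [l1, Finset.prod_congr rfl fun u hu => by rw [l2 u hu]]
      simp only [dW, mul_comm _ (B _), Ws_mul, ← Finset.mul_sum]
      ring

/-! ### the weights -/

/-- every label lies in a cluster -/
def Sur (D : Fin V → Cd Ω R) : Prop := ∀ c, ∃ v a, (D v).ι a = c

/-- the leaves of the skeleton split below the depth `j` -/
def Str (t : Sh) (j : ℕ) : Prop := ∀ a b : t.Lf, a ≠ b → t.shr a b j < j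

omit [Fintype Ω] in
theorem sur_upd {D : Fin V → Cd Ω R} (v : Fin V) (C : Cd Ω R) (c : Fin R)
    (h : (∃ a, C.ι a = c) ∨ ∃ u a, u ≠ v ∧ (D u).ι a = c) : ∃ u a, (update D v C u).ι a = c := by
  rcases h with h | ⟨u, a, hu, h⟩
  · exact ⟨v, by rwa [update_self]⟩
  · exact ⟨u, by rw [update_of_ne hu]; exact ⟨a, h⟩⟩

omit [Fintype Ω] in
theorem Sur.old {D : Fin V → Cd Ω R} (H : Sur D) (v : Fin V) (a : Fin ((D v).n + 1)) (f : Ω → ℝ) :
    Sur (oldAt D v a f) := fun c => by
  obtain ⟨u, b, h⟩ := H c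
  refine sur_upd v _ c ?_
  rcases eq_or_ne u v with rfl | hu
  · exact .inl ⟨b, h⟩
  · exact .inr ⟨u, b, hu, h⟩

omit [Fintype Ω] in
theorem Sur.gft {D : Fin V → Cd Ω R} (H : Sur D) (N : ℕ) (v : Fin V) (a : Fin ((D v).n + 1))
    (k : ℕ) (f : Ω → ℝ) : Sur (gftAt D N v a k f) := fun c => by
  refine sur_upd v _ c (Fin.cases (.inl ⟨0, rfl⟩) (fun c => ?_) c)
  obtain ⟨u, b, h⟩ := H c
  rcases eq_or_ne u v with rfl | hu
  · exact .inl ⟨b.succ, congrArg Fin.succ h⟩
  · exact .inr ⟨u, b, hu, congrArg Fin.succ h⟩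

omit [Fintype Ω] in
theorem Sur.new {D : Fin V → Cd Ω R} (H : Sur D) (N : ℕ) (f : Ω → ℝ) : Sur (newAt D N f) :=
  fun c => by
    refine Fin.cases ⟨0, 0, rfl⟩ (fun c => ?_) c
    obtain ⟨u, b, h⟩ := H c
    exact ⟨u.succ, b, congrArg Fin.succ h⟩

theorem Str.graft {t : Sh} {j i : ℕ} (H : Str t j) (a : t.Lf) (hi : i < j) :
    Str (t.graft a i) j := fun b c h => by
  rcases Wt87.graft_cases t a i b with ⟨b, rfl⟩ | rfl <;>
    rcases Wt87.graft_cases t a i c with ⟨c, rfl⟩ | rfl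
  · rw [Wt87.shr_emb]; exact H b c fun e => h (congrArg _ e)
  · rw [Wt87.shr_nw]; exact (Wt87.shr_le _ _ _ _).trans_lt ((min_le_left _ _).trans_lt hi)
  · rw [Wt87.shr_nw']; exact (Wt87.shr_le _ _ _ _).trans_lt ((min_le_left _ _).trans_lt hi)
  · exact absurd rfl h

theorem str_one (j : ℕ) : Str .one j := fun _ _ h => absurd rfl h

omit [Fintype Ω] in
/-- the labels as pairs (cluster, leaf) -/
def Fit.eqv {t : Sh} {ε : Fin V ≃ t.Lf} {j K : ℕ} {σ : SM R} {D : Fin V → Cd Ω R}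
    (H : Fit t ε j K σ D) (hs : Sur D) : (Σ v, Fin ((D v).n + 1)) ≃ Fin R :=
  Equiv.ofBijective (fun c => (D c.1).ι c.2) ⟨by
    rintro ⟨α, a⟩ ⟨β, b⟩ e
    obtain rfl : α = β := by
      by_contra hab
      exact (H.out _ _ hab).dis a b e
    exact congrArg (Sigma.mk α) ((H.ins _).inj e), fun c => by
    obtain ⟨v, a, h⟩ := hs c
    exact ⟨⟨v, a⟩, h⟩⟩

omit [Fintype Ω] in
theorem Fit.sum {t : Sh} {ε : Fin V ≃ t.Lf} {j K : ℕ} {σ : SM R} {D : Fin V → Cd Ω R}
    (H : Fit t ε j K σ D) (hs : Sur D) {M : Type*} [AddCommMonoid M] (G : Fin R → M) :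
    ∑ c, G c = ∑ v, ∑ a, G ((D v).ι a) :=
  ((H.eqv hs).sum_comp G).symm.trans (Fintype.sum_sigma _)

omit [Fintype Ω] in
/-- **the positions above the cut are the positions in the clusters**, with the previous tilt -/
theorem Ws_up_fit {t : Sh} {ε : Fin V ≃ t.Lf} {j : ℕ} {L : List (Lv Ω)} {σ : SM R}
    {D : Fin V → Cd Ω R} (H : Fit t ε j L.length σ D) (hs : Sur D) (ht : Str t j)
    {G : Fin R → ℕ → ℝ} (hG : ∀ v a, G ((D v).ι a) j = G ((D v).ι 0) j) :
    Ws L σ (fun a i => if j ≤ i then G a i else 0) =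
      ∑ v, (Ws (L.drop j) (D v).ρ (fun a k => G ((D v).ι a) (k + j)) -
        exP L 0 j * G ((D v).ι 0) j) := by
  have lt : ∀ v u a b, v ≠ u → σ ((D v).ι a) ((D u).ι b) < j := fun v u a b h =>
    ((H.out v u h).out a b).trans_lt (ht _ _ fun e => h (ε.injective e))
  rw [Ws_cut L σ _ H.le, Ws_equiv _ (H.eqv hs), Ws_sigma _ _ _ fun v u a b h =>
    Nat.sub_eq_zero_of_le (lt v u a b h).le, Finset.sum_sub_distrib, sub_eq_add_neg]
  congr 1
  · refine Finset.sum_congr rfl fun v _ => ?_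
    congr 1
    · funext a b
      exact (congrArg (· - j) ((H.ins v).ins a b)).trans (Nat.add_sub_cancel _ _)
    · funext a k
      exact if_pos (Nat.le_add_left _ _)
  · cases j with
    | zero => simp [exP]
    | succ j =>
      have hc : ∀ v a, cls σ ((D v).ι a) (j + 1) = (D v).n + 1 := fun v a => by
        rw [cls, Finset.card_filter, H.sum hs, Finset.sum_eq_single v (fun u _ hu =>
          Finset.sum_eq_zero fun b _ => if_neg (lt v u a b hu.symm).not_ge) (by simp)]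
        simp [(H.ins v).ins]
      rw [Finset.sum_range_succ, Finset.sum_eq_zero fun i hi => ?_, zero_add, H.sum hs, exP,
        ← Finset.mul_sum, ← mul_neg, ← Finset.sum_neg_distrib]
      · refine congrArg _ (Finset.sum_congr rfl fun v _ => ?_)
        have : ((D v).n + 1 : ℝ) ≠ 0 := by positivity
        simp only [hc, hG, Nat.not_succ_le_self, if_false, le_refl, if_true, Finset.sum_const,
          Finset.card_univ, Fintype.card_fin, nsmul_eq_mul]
        push_cast
        field_simp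
        ring
      · have := Finset.mem_range.1 hi
        simp only [if_neg (show ¬j + 1 ≤ i by omega), if_neg (show ¬j + 1 ≤ i + 1 by omega)]
        simp

omit [Fintype Ω] in
/-- low and high positions -/
theorem Ws_lo_up {κ : Type} [Fintype κ] (L : List (Lv Ω)) (σ : κ → κ → ℕ) (G : κ → ℕ → ℝ) (j : ℕ) :
    Ws L σ G = Ws L σ (fun a i => if i < j then G a i else 0) +
      Ws L σ fun a i => if j ≤ i then G a i else 0 := by
  rw [← Ws_add]
  congr 1
  funext a i
  by_cases h : i < j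
  · simp [h, h.not_ge]
  · simp [h, not_lt.1 h]

end Crest.Agent.T156.Cas

end
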