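import Crest.Agent.T156.CondB_31
import Crest.Agent.T156.EDef_91

/-!
# Row 156 (helper31): the bulk factor of two edges at the level of the test node
-/

set_option autoImplicit false
set_option linter.unusedSectionVars false

noncomputable section

namespace Crest.Agent.T156.Cas.Cond31

open MeasureTheory Real Set Filter Topology
open Crest.Agent.T157.E Crest.Agent.T157.Casc Crest.Agent.T157.SL
open Wt87 Law Nu87 E91

variable {Ω : Type} [Fintype Ω] (D : Dat Ω)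

theorem rt_U0 (hw : Wt D.w) (j : ℕ) (z : Ω → ℝ) :
    rt D.w D.L j (D.U0 j) z = Sy41.rr D.w (D.L.drop j) D.l0 z - D.q j := by
  rw [Sy41.rr_eq, ← qf_const (sum_P hw (D.L.drop j) z) (D.q j), ← qf_sub]
  rfl

theorem rt2_eq (hw : Wt D.w) (j : ℕ) :
    D.rt2 j = node D.w D.L j (fun z => rt D.w D.L j (D.U0 j) z ^ 2) D.h := by
  simp only [rt_U0 D hw]
  rfl

theorem V_eq (hw : Wt D.w) (j : ℕ) : D.V j = Vr D.w D.L D.h j (D.U0 j) := by
  rw [Dat.V, rt2_eq D hw]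
  rfl

theorem V_nonneg (hw : Wt D.w) (j : ℕ) : 0 ≤ D.V j := by
  rw [V_eq D hw]
  exact Vr_nonneg hw _ _ _ _

theorem rt2_nonneg (j : ℕ) : 0 ≤ D.rt2 j := node_nonneg D.w (fun _ => sq_nonneg _) _ _ _

theorem rt2_le (hw : Wt D.w) (j : ℕ) :
    D.rt2 j ≤ pi2 D.w D.L j (fun x x' => D.U0 j x x' ^ 2) D.h := sub_nonneg.1 (V_nonneg D hw j)

theorem Bf_eq (c d e f : Fin 6) (τ : SM 6) : D.Bf c d e f τ = D.t (τ c d) * D.t (τ e f) *
    TM D.w D.L D.h τ fun x => D.U0 (τ c d) (x c) (x d) * D.U0 (τ e f) (x e) (x f) := by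
  rw [← TM_mul]
  exact congrArg (TM D.w D.L D.h τ) (funext fun x => by simp only [ed, Dat.U]; ring)

/-- both edges on one node of depth `j` -/
theorem Bf_near (hw : Wt D.w) {τ : SM 6} (hτ : Rz D.K τ) {j : ℕ} {c d e f : Fin 6} (hcd : c ≠ d)
    (hef : e ≠ f) (h1 : τ c d = j) (h2 : τ e f = j) (h3 : j ≤ τ c e) :
    |D.Bf c d e f τ - D.t j ^ 2 * D.rt2 j| ≤ D.t j ^ 2 * D.V j := by
  rw [Bf_eq, h1, h2, ← sq, ← mul_sub, abs_mul, abs_of_nonneg (sq_nonneg _), rt2_eq D hw, V_eq D hw]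
  exact mul_le_mul_of_nonneg_left (TM_two_edges' hw hτ hcd hef h1 h2 h3 _) (sq_nonneg _)

/-- both edges at level `j`, on any nodes -/
theorem Bf_far (hw : Wt D.w) {τ : SM 6} (hτ : Rz D.K τ) {j : ℕ} {c d e f : Fin 6} (hcd : c ≠ d)
    (hef : e ≠ f) (h1 : τ c d = j) (h2 : τ e f = j) :
    |D.Bf c d e f τ - D.t j ^ 2 * D.rt2 j| ≤
      D.t j ^ 2 * (2 * pi2 D.w D.L j (fun x x' => D.U0 j x x' ^ 2) D.h) := by
  rw [Bf_eq, h1, h2, ← sq, ← mul_sub, abs_mul, abs_of_nonneg (sq_nonneg _), rt2_eq D hw]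
  exact mul_le_mul_of_nonneg_left (TM_two_edges_crude hw hτ hcd hef h1 h2 _) (sq_nonneg _)

theorem pi2_U0_sq_le {tb : ℝ} (H : D.Ok tb) {j : ℕ} (hj : j ≤ D.K) :
    pi2 D.w D.L j (fun x x' => D.U0 j x x' ^ 2) D.h ≤ 4 := by
  refine (pi2_mono H.wt D.L j (K' := fun _ _ => 4) (fun x x' => ?_) D.h).trans_eq
    (pi2_const H.wt _ _ _ _)
  have h1 := abs_le.1 (H.cov1 x x')
  have h2 := H.q01 j hj
  unfold Dat.U0
  nlinarith [h1.1, h1.2, h2.1, h2.2]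

/-- second moment from the fourth -/
theorem pi2_U0_sq_le_un {tb : ℝ} (H : D.Ok tb) {j : ℕ} (hj : j ≤ D.K) (ht : D.t j ≠ 0) :
    pi2 D.w D.L j (fun x x' => D.U0 j x x' ^ 2) D.h ≤ D.un j ^ 2 := by
  set a := pi2 D.w D.L j (fun x x' => D.U0 j x x' ^ 2) D.h with ha
  have h0 := pi2_nonneg H.wt D.L j (K := fun x x' => D.U0 j x x' ^ 4 - 2 * a * D.U0 j x x' ^ 2 +
    a ^ 2) (fun x x' => by nlinarith [sq_nonneg (D.U0 j x x' ^ 2 - a)]) D.h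
  rw [pi2_add H.wt, pi2_sub H.wt, pi2_const_mul, pi2_const H.wt, ← ha] at h0
  have h1 := H.mom j hj ht
  exact abs_le_of_sq_le_sq' (a := a) (b := D.un j ^ 2) (by nlinarith) (sq_nonneg _) |>.2

theorem sq_t_le {tb : ℝ} (H : D.Ok tb) (j : ℕ) : D.t j ^ 2 ≤ tb ^ 2 := by
  rw [← sq_abs]
  exact pow_le_pow_left₀ (abs_nonneg _) (H.tb j) 2

theorem Bf_near' {tb : ℝ} (H : D.Ok tb) {τ : SM 6} (hτ : Rz D.K τ) {j : ℕ} {c d e f : Fin 6}
    (hcd : c ≠ d) (hef : e ≠ f) (h1 : τ c d = j) (h2 : τ e f = j) (h3 : j ≤ τ c e) :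
    |D.Bf c d e f τ - D.t j ^ 2 * D.rt2 j| ≤ tb ^ 2 * D.V j :=
  (Bf_near D H.wt hτ hcd hef h1 h2 h3).trans
    (mul_le_mul_of_nonneg_right (sq_t_le D H j) (V_nonneg D H.wt j))

theorem Bf_far' {tb : ℝ} (H : D.Ok tb) {τ : SM 6} (hτ : Rz D.K τ) {j : ℕ} {c d e f : Fin 6}
    (hcd : c ≠ d) (hef : e ≠ f) (h1 : τ c d = j) (h2 : τ e f = j) :
    |D.Bf c d e f τ - D.t j ^ 2 * D.rt2 j| ≤ D.t j ^ 2 * 8 := by
  refine (Bf_far D H.wt hτ hcd hef h1 h2).trans (mul_le_mul_of_nonneg_left ?_ (sq_nonneg _))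
  have := pi2_U0_sq_le D H (j := j) (h1 ▸ hτ.le c d)
  linarith

/-- crude size of the bulk factor, any pattern -/
theorem abs_Bf_le {tb : ℝ} (H : D.Ok tb) {τ : SM 6} (hτ : Rz D.K τ) {c d e f : Fin 6}
    (hcd : c ≠ d) (hef : e ≠ f) :
    |D.Bf c d e f τ| ≤ tb ^ 2 * ((D.un (τ c d) ^ 2 + D.un (τ e f) ^ 2) / 2) := by
  rw [Bf_eq]
  by_cases h1 : D.t (τ c d) = 0
  · rw [h1, zero_mul, zero_mul, abs_zero]; positivity
  by_cases h2 : D.t (τ e f) = 0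
  · rw [h2, mul_zero, zero_mul, abs_zero]; positivity
  have a1 := pi2_U0_sq_le_un D H (hτ.le c d) h1
  have a2 := pi2_U0_sq_le_un D H (hτ.le e f) h2
  have a3 := abs_TM_edges (h := D.h) H.wt hτ hcd hef (D.U0 (τ c d)) (D.U0 (τ e f))
  rw [abs_mul, abs_mul, sq tb]
  have h0 := (abs_nonneg _).trans (H.tb 0)
  exact mul_le_mul (mul_le_mul (H.tb _) (H.tb _) (abs_nonneg _) h0) (by linarith) (abs_nonneg _)
    (mul_nonneg h0 h0)

end Crest.Agent.T156.Cas.Cond31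

end
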