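import Crest.Agent.T156.Lag_8

/-!
# Row 156, text (L) (helper84): the pairing above a lower end `A` from a window and a continuation
-/

set_option autoImplicit false

noncomputable section

namespace Crest.Agent.T156.Cut8

open MeasureTheory Set intervalIntegral

variable {T : ℝ} {dz ρ : ℝ → ℝ}

theorem LB.head {f : ℝ → ℝ} (hf : LB T f) {a : ℝ} (ha : a ∈ Icc 0 T) :
    LB T fun t => ∫ s in a..t, f s :=
  .of_cont ((hf.tail ha).neg.congr fun t _ => by simp only [Pi.neg_apply]; rw [integral_symm])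

/-- `|I t|³ ≤ 8 ∫ I²` for `I t = ∫_A^t dz` -/
theorem head_cube (ld : LB T dz) (h1 : ∀ t, |dz t| ≤ 1) {A t B : ℝ} (hA : 0 ≤ A) (h2 : A ≤ t)
    (h3 : t ≤ B) (hB : B ≤ T) :
    |∫ r in A..t, dz r| ^ 3 ≤ 8 * ∫ x in A..B, (∫ r in A..x, dz r) ^ 2 := by
  have mA : A ∈ Icc 0 T := ⟨hA, by linarith⟩
  have lip : ∀ x y, 0 ≤ x → x ≤ y → y ≤ T → |∫ r in x..y, dz r| ≤ y - x := fun x y a b c =>
    (abs_integral_le_integral_abs b).trans
      (by simpa using int_le_const ld.abs (K := 1) a b c fun t _ _ => h1 t)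
  have lI := (ld.head mA).sq
  have jt := lip A t hA h2 (by linarith)
  obtain ⟨j, hj⟩ : ∃ j, j = |∫ r in A..t, dz r| := ⟨_, rfl⟩
  have j0 : 0 ≤ j := hj ▸ abs_nonneg _
  rw [← hj] at jt ⊢
  have m1 := int_mono (LB.const ((j / 2) ^ 2)) lI (a := t - j / 2) (b := t) (by linarith)
    (by linarith) (by linarith) fun x x0 x1 => by
      have e := int_split ld mA (b := x) (c := t) ⟨by linarith, by linarith⟩
        ⟨by linarith, by linarith⟩
      have l := lip x t (by linarith) x1.le (by linarith)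
      have a := abs_add_le (∫ r in A..x, dz r) (∫ r in x..t, dz r)
      rw [← e, ← hj] at a
      rw [← sq_abs (∫ r in A..x, dz r)]
      exact pow_le_pow_left₀ (by positivity) (by linarith) 2
  have m2 := int_sub_le lI hA (show A ≤ t - j / 2 by linarith) (show t - j / 2 ≤ t by linarith) h3 hB
    fun _ _ _ => sq_nonneg _
  rw [intervalIntegral.integral_const, smul_eq_mul] at m1
  nlinarith

/-- the tail integral seen from `A` -/
theorem Jf_head {zb zh : ℝ → ℝ} (ld : LB T fun t => zb t - zh t) {A t : ℝ} (hA : A ∈ Icc 0 T)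
    (ht : t ∈ Icc 0 T) : |Jf T zh zb t - Jf T zh zb A| = |∫ r in A..t, (zb r - zh r)| := by
  rw [abs_sub_comm, Lab36.jf_sub ld hA ht]

/-- **a continuation read at its lower end** -/
theorem Cont.at {c0 βs s τ ε : ℝ} {Q : ℝ → Prop} (ld : LB T dz) (lρ : LB T ρ) (s0 : 0 < s)
    (sT : s ≤ T) (β0 : 0 ≤ βs) (ε0 : 0 < ε)
    (h : ∀ A, 0 ≤ A → A < s → Cont T dz ρ c0 βs A s τ Q) :
    ∃ Z c', 0 ≤ Z ∧ Q Z ∧ |c' - c0| ≤ βs ∧
      (∫ t in s..T, (ρ t - c') * dz t) + 3 / 4 * Z ≤ τ + ε := by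
  have lξ : LB T fun t => |ρ t - c0| * |dz t| + βs * |dz t| :=
    ((lρ.sub (.const c0)).abs.mul ld.abs).add ((LB.const βs).mul ld.abs)
  obtain ⟨K, hK⟩ := lξ.2
  have K0 : 0 ≤ K := (abs_nonneg _).trans (hK s ⟨s0.le, sT⟩)
  obtain ⟨A, A0, As, AK⟩ : ∃ A, 0 ≤ A ∧ A < s ∧ (s - A) * K ≤ ε / 2 := by
    refine ⟨max 0 (s - ε / (2 * (K + 1))), le_max_left _ _,
      max_lt s0 (sub_lt_self _ (by positivity)), ?_⟩
    have a : s - max 0 (s - ε / (2 * (K + 1))) ≤ ε / (2 * (K + 1)) := by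
      linarith [le_max_right 0 (s - ε / (2 * (K + 1)))]
    refine (mul_le_mul_of_nonneg_right a K0).trans ?_
    rw [div_mul_eq_mul_div, div_le_div_iff₀ (by positivity) two_pos]
    nlinarith
  have mA : A ∈ Icc 0 T := ⟨A0, by linarith⟩
  have ms : s ∈ Icc 0 T := ⟨s0.le, sT⟩
  have mT : T ∈ Icc 0 T := ⟨by linarith, le_rfl⟩
  have iξ : ∫ t in A..s, (|ρ t - c0| * |dz t| + βs * |dz t|) ≤ ε / 2 :=
    (int_le_const lξ A0 As.le sT fun t t0 t1 =>
      (le_abs_self _).trans (hK t ⟨by linarith, by linarith⟩)).trans AK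
  have R : Res T dz ρ (fun _ => 0) (fun t => ρ t - c0) (fun _ => c0) (fun _ => 0) (fun _ => βs)
      (fun t => |ρ t - c0| * |dz t| + βs * |dz t|) A s :=
    ⟨.const 0, .const 0, lξ, fun t _ _ => by ring, fun _ _ _ => le_rfl,
      fun _ _ _ _ _ => by simp; linarith, fun _ _ _ => by simp, fun _ _ _ => by positivity,
      fun t _ _ => by rw [← abs_mul]; linarith [le_abs_self ((ρ t - c0) * dz t)]⟩
  obtain ⟨Z, z0, q, H', r1', r2', ω', β', ξ', R', a1, a3, a4, a5⟩ := h A A0 As _ _ _ _ _ _ R rfl rfl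
  have o0 : ∀ x y, A ≤ x → x ≤ y → y ≤ T → ∫ u in x..y, ω' u ≤ 0 := fun x y b1 b2 b3 => by
    have c1 := Gap27.sq_int_le R'.lω (A0.trans b1) b2 b3
    have c2 := int_sub_le R'.lω.sq A0 b1 b2 b3 le_rfl fun _ _ _ => sq_nonneg _
    have c3 : ∫ u in x..y, ω' u ^ 2 ≤ 0 := by simpa using c2.trans a3
    have c4 : (∫ u in x..y, |ω' u|) ^ 2 ≤ 0 :=
      c1.trans (mul_nonpos_of_nonneg_of_nonpos (by linarith) c3)
    have c5 := pow_eq_zero_iff (two_ne_zero) |>.1 (le_antisymm c4 (sq_nonneg _))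
    exact ((le_abs_self _).trans (abs_integral_le_integral_abs b2)).trans c5.le
  obtain ⟨r', q1, q2⟩ := exists_reg (r := r2') (Ω := fun _ => 0) (β := β') mA.2 fun x hx y hy => by
    rw [sub_self, abs_zero]
    rcases le_total x y with e | e
    · linarith [le_abs_self (r2' y - r2' x), R'.slow x y hx.1 e hy.2, o0 x y hx.1 e hy.2]
    · linarith [neg_abs_le (r2' x - r2' y), R'.slow y x hy.1 e hx.2, o0 y x hy.1 e hx.2]
  have cst : ∀ t ∈ Icc A T, r' t = r' A := fun t ht => by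
    have := q1 A ⟨le_rfl, mA.2⟩ t ht
    rw [sub_self, abs_zero, abs_nonpos_iff] at this
    linarith
  have hc : |r' A - c0| ≤ βs := by
    have := q2 A ⟨le_rfl, mA.2⟩
    rwa [(a1 A As).2.2.1, (a1 A As).2.2.2] at this
  have l1 : LB T fun t => (ρ t - r' A) * dz t := (lρ.sub (.const _)).mul ld
  have m1 := int_mono (l1.add (R'.lH.mul ld)) R'.lξ A0 mA.2 le_rfl fun t t0 t1 => by
    have e1 := R'.eq t t0 t1
    have e2 := R'.pair t t0 t1
    have e3 := q2 t ⟨t0.le, t1.le⟩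
    rw [cst t ⟨t0.le, t1.le⟩, abs_sub_comm] at e3
    have e4 := mul_le_mul_of_nonneg_right e3 (abs_nonneg (dz t))
    rw [← abs_mul] at e4
    have e5 : (ρ t - r' A) * dz t + H' t * dz t = r1' t * dz t + (r2' t - r' A) * dz t := by
      linear_combination dz t * e1
    linarith [le_abs_self ((r2' t - r' A) * dz t)]
  have m2 := int_mono ((LB.const (-1)).mul l1) lξ A0 As.le sT fun t _ _ => by
    have e1 : |ρ t - r' A| ≤ |ρ t - c0| + βs := by
      have := abs_sub_le (ρ t) c0 (r' A)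
      rw [abs_sub_comm c0] at this
      linarith
    have e2 := mul_le_mul_of_nonneg_right e1 (abs_nonneg (dz t))
    rw [← abs_mul] at e2
    linarith [neg_abs_le ((ρ t - r' A) * dz t)]
  rw [integral_add (l1.ii mA mT) ((R'.lH.mul ld).ii mA mT), a5, int_split l1 mA ms mT] at m1
  rw [intervalIntegral.integral_const_mul] at m2
  simp only [zero_mul, intervalIntegral.integral_zero] at m1
  exact ⟨Z, r' A, z0, q, hc, by linarith⟩

/-- the pairing on a window `[A, s]` against a constant near `r2 s` -/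
theorem Res.win {H r1 r2 ω β ξ : ℝ → ℝ} {A s c' x η : ℝ} (R : Res T dz ρ H r1 r2 ω β ξ A s)
    (ld : LB T dz) (lρ : LB T ρ) (hA : 0 ≤ A) (hs : A ≤ s) (sT : s ≤ T) (η0 : 0 < η)
    (hc : |c' - r2 s| ≤ x) :
    (∫ t in A..s, (ρ t - c') * dz t) + ∫ t in A..s, H t * dz t ≤
      (∫ t in A..s, ξ t) + η * (∫ t in A..s, (∫ r in A..t, dz r) ^ 2) +
        (∫ t in A..s, ω t ^ 2) / η + (β s + x) * |∫ r in A..s, dz r| := by
  have mA : A ∈ Icc 0 T := ⟨hA, by linarith⟩
  have ms : s ∈ Icc 0 T := ⟨by linarith, sT⟩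
  have eΩ : ∀ p t, A ≤ p → p ≤ t → t ≤ s →
      |(∫ u in A..t, ω u) - ∫ u in A..p, ω u| = ∫ u in p..t, ω u := fun p t s0 s1 s2 => by
    rw [int_split R.lω mA (b := p) (c := t) ⟨by linarith, by linarith⟩ ⟨by linarith, by linarith⟩,
      add_sub_cancel_left, abs_of_nonneg]
    simpa using int_mono (LB.const 0) R.lω (by linarith) s1 (by linarith) fun u u0 u1 =>
      R.ω_nn u (by linarith) (by linarith)
  obtain ⟨r', q1, q2⟩ := exists_reg (r := r2) (Ω := fun t => ∫ u in A..t, ω u) (β := β) hs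
    fun p hp t ht => by
      rcases le_total p t with e | e
      · rw [eΩ p t hp.1 e ht.2]
        linarith [le_abs_self (r2 t - r2 p), R.slow p t hp.1 e ht.2]
      · rw [abs_sub_comm, eΩ t p ht.1 e hp.2]
        linarith [neg_abs_le (r2 p - r2 t), R.slow t p ht.1 e hp.2]
  obtain ⟨w, lw, w1, w2⟩ := exists_dens (r := r') R.lω hA hs sT fun p t s0 s1 s2 => by
    rw [← eΩ p t s0 s1 s2]; exact q1 p ⟨s0, by linarith⟩ t ⟨by linarith, s2⟩
  have l2 : LB T fun t => r' A + ∫ u in A..t, w u := (LB.const _).add (lw.head mA)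
  have lI := ld.head mA
  have l1 : LB T fun t => (ρ t - c') * dz t := (lρ.sub (.const _)).mul ld
  have i1 := ibp (f := fun t => r' A + ∫ u in A..t, w u) hs (lw.ii mA ms) (ld.ii mA ms)
    fun t _ => by simp
  have i2 : ∫ t in A..s, w t * ∫ u in t..s, dz u =
      (∫ t in A..s, w t) * (∫ u in A..s, dz u) - ∫ t in A..s, w t * ∫ u in A..t, dz u := by
    rw [← intervalIntegral.integral_mul_const, ← integral_sub
      ((lw.mul (.const _)).ii mA ms) ((lw.mul lI).ii mA ms)]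
    refine integral_congr_Ioo_of_le hs fun t ht => ?_
    rw [int_split ld mA (b := t) (c := s) ⟨by linarith [ht.1], by linarith [ht.2]⟩ ms]
    ring
  have i3 := int_mono ((LB.const (-1)).mul (lw.mul lI)) (((LB.const η).mul lI.sq).add (lw.sq.div η))
    hA hs sT fun t _ _ => by
      have : η * (∫ r in A..t, dz r) ^ 2 + w t ^ 2 / η + 2 * (w t * ∫ r in A..t, dz r) =
          (η * (∫ r in A..t, dz r) + w t) ^ 2 / η := by field_simp; ring
      have h0 : 0 ≤ (η * (∫ r in A..t, dz r) + w t) ^ 2 / η := by positivity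
      have h1 : 0 ≤ η * (∫ r in A..t, dz r) ^ 2 + w t ^ 2 / η := by positivity
      linarith
  rw [intervalIntegral.integral_const_mul, integral_add (((LB.const η).mul lI.sq).ii mA ms)
    ((lw.sq.div η).ii mA ms), intervalIntegral.integral_const_mul, intervalIntegral.integral_div] at i3
  have m1 := int_mono (l1.add (R.lH.mul ld)) ((R.lξ.add (l2.mul ld)).sub ((LB.const c').mul ld))
    hA hs sT fun t t0 t1 => by
      have e1 := R.eq t t0 t1
      have e2 := R.pair t t0 t1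
      have e3 := q2 t ⟨t0.le, t1.le⟩
      rw [w1 t ⟨t0.le, t1.le⟩, abs_sub_comm] at e3
      have e4 := mul_le_mul_of_nonneg_right e3 (abs_nonneg (dz t))
      rw [← abs_mul] at e4
      have e5 : (ρ t - c') * dz t + H t * dz t = r1 t * dz t +
          (r2 t - (r' A + ∫ u in A..t, w u)) * dz t + (r' A + ∫ u in A..t, w u) * dz t -
          c' * dz t := by linear_combination dz t * e1
      linarith [le_abs_self ((r2 t - (r' A + ∫ u in A..t, w u)) * dz t)]
  rw [integral_add (l1.ii mA ms) ((R.lH.mul ld).ii mA ms),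
    integral_sub ((R.lξ.add (l2.mul ld)).ii mA ms) (((LB.const c').mul ld).ii mA ms),
    integral_add (R.lξ.ii mA ms) ((l2.mul ld).ii mA ms), i1, i2,
    intervalIntegral.integral_const_mul] at m1
  have e1 := w1 s ⟨hs, le_rfl⟩
  have e2 : |r' s - c'| ≤ β s + x := by
    have := abs_sub_le (r' s) (r2 s) c'
    rw [abs_sub_comm (r2 s)] at this
    linarith [q2 s ⟨hs, le_rfl⟩]
  have e3 := mul_le_mul_of_nonneg_right e2 (abs_nonneg (∫ r in A..s, dz r))
  rw [← abs_mul, e1] at e3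
  have e4 := div_le_div_of_nonneg_right w2 η0.le
  simp only [integral_same, add_zero] at m1
  nlinarith [le_abs_self ((r' A + (∫ u in A..s, w u) - c') * ∫ r in A..s, dz r)]

/-- **window and continuation**: the right side of the local energy inequality -/
theorem Res.top {H r1 r2 ω β ξ : ℝ → ℝ} {A s τ ε η : ℝ} {Q : ℝ → Prop}
    (R : Res T dz ρ H r1 r2 ω β ξ A s) (ld : LB T dz) (lρ : LB T ρ) (hA : 0 ≤ A) (hs : A ≤ s)
    (s0 : 0 < s) (sT : s ≤ T) (β0 : 0 ≤ β s) (ε0 : 0 < ε) (η0 : 0 < η)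
    (h : ∀ A', 0 ≤ A' → A' < s → Cont T dz ρ (r2 s) (β s) A' s τ Q) :
    ∃ Z c', 0 ≤ Z ∧ Q Z ∧ |c' - r2 s| ≤ β s ∧
      (∫ t in A..T, (ρ t - c') * dz t) + (∫ t in A..s, H t * dz t) + 3 / 4 * Z ≤
        τ + ε + (∫ t in A..s, ξ t) + η * (∫ t in A..s, (∫ r in A..t, dz r) ^ 2) +
          (∫ t in A..s, ω t ^ 2) / η + 2 * β s * |∫ r in A..s, dz r| := by
  obtain ⟨Z, c', z0, q, hc, m⟩ := Cont.at ld lρ s0 sT β0 ε0 h
  have m' := R.win ld lρ hA hs sT η0 hc
  refine ⟨Z, c', z0, q, hc, ?_⟩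
  rw [int_split ((lρ.sub (.const c')).mul ld) (a := A) (b := s) (c := T) ⟨hA, by linarith⟩
    ⟨s0.le, sT⟩ ⟨by linarith, le_rfl⟩]
  linarith

end Crest.Agent.T156.Cut8

end
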