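import Crest.Agent.T156.Cost_41
import Crest.Agent.T156.PlW_13

/-!
# Row 156: the majorant of a move of the static marks on the top window (helper41)
-/

set_option autoImplicit false
set_option linter.unusedSectionVars false

noncomputable section

namespace Crest.Agent.T156.Alt.Cost41

open Real Set
open Crest.Agent.T156.Alt.Plt13 Crest.Agent.T156.Alt.Md67

/-- `F (xs) u₀ ≍ la² log n` -/
def E0 (p : Pm) (μ : ℝ) : ℝ := FF p μ p.xs * u0 p μ

/-- the majorant, extended below `xs` -/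
def Fh (p : Pm) (μ y : ℝ) : ℝ := if y ≤ p.xs then E0 p μ / (p.xs - y + u0 p μ) else FF p μ y

/-- the top window: nodes `j1 ≤ J ≤ N`, `z J = xs`; the field `Φ` dominates `β dz` below `xs` and
`β α d rF` above -/
structure Tw (p : Pm) (μ K α β : ℝ) (z Φ : ℕ → ℝ) (j1 J N : ℕ) : Prop where
  nm : Nm p μ
  K1 : 1 ≤ K
  α0 : 0 < α
  α1 : α ≤ 1
  β0 : 0 < β
  i1 : j1 ≤ J
  i2 : J ≤ N
  zJ : z J = p.xs
  zm : Monotone z
  z0 : 0 ≤ z 0
  mesh : ∀ i, j1 ≤ i → i ≤ J → z i - z (i - 1) ≤ u0 p μ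
  sh : Shg p μ (fun i => z (J + i)) (N - J)
  top : 1 - z N ≤ p.la μ ^ 2
  xs1 : 1 / K ≤ 1 - p.xs
  xs0 : 1 / K ≤ p.xs - z j1
  g1 : ∀ i, j1 ≤ i → i < J → β * (z (i + 1) - z i) ≤ Φ (i + 1) - Φ i
  g2 : ∀ i, J ≤ i → i < N → β * α * (p.rF μ (z (i + 1)) - p.rF μ (z i)) ≤ Φ (i + 1) - Φ i

/-- the size of the move on the top window -/
structure Mv (p : Pm) (μ B : ℝ) (z φ : ℕ → ℝ) (j1 J N : ℕ) : Prop where
  p1 : ∀ i, j1 < i → i ≤ J → |φ i| ≤ B * u0 p μ
  p2 : ∀ i, j1 < i → i ≤ J → log p.n * u0 p μ < p.xs - z (i - 1) → |φ i| ≤ B * p.la μ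
  p3 : ∀ i, J < i → i ≤ N → |φ i| ≤ B * env p μ (z (i - 1))

theorem tel_le {f g : ℕ → ℝ} {a b : ℕ} (h : a ≤ b)
    (H : ∀ i, a ≤ i → i < b → f (i + 1) - f i ≤ g (i + 1) - g i) : f b - f a ≤ g b - g a := by
  induction b, h using Nat.le_induction with
  | base => simp
  | succ b hb ih => linarith [ih fun i h1 h2 => H i h1 (by omega), H b hb b.lt_succ_self]

theorem u0_cube {p : Pm} {μ : ℝ} (h : Nm p μ) : u0 p μ ^ 3 = p.la μ ^ 2 := by
  rw [u0, ← rpow_natCast, ← rpow_mul h.lp.le]; norm_num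

theorem la_sqrt {p : Pm} {μ : ℝ} (h : Nm p μ) : p.la μ * √(u0 p μ) = u0 p μ ^ 2 := by
  have e := h.fb_u0
  have s := sqrt_pos.2 h.u0p
  have := mul_self_sqrt h.u0p.le
  rw [fb, div_eq_iff s.ne'] at e
  rw [e, mul_assoc, this, sq]

namespace Tw

variable {p : Pm} {μ K α β B : ℝ} {z Φ φ : ℕ → ℝ} {j1 J N : ℕ} (T : Tw p μ K α β z Φ j1 J N)
include T

theorem K0 : 0 < K := by linarith [T.K1]

theorem iK : 1 / K ^ 2 ≤ 1 / K :=
  one_div_le_one_div_of_le T.K0 (by nlinarith [T.K1])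

theorem E_le : E0 p μ ≤ 32000 * K * (log p.n * p.la μ ^ 2) := by
  have h := T.nm
  have u := h.u0p
  have K0 := T.K0
  have a : gg p μ p.xs ≤ K * √(u0 p μ) := by
    refine (h.gg_bot le_rfl).trans (sqrt_le_iff.2 ⟨by positivity, ?_⟩)
    rw [sub_self, zero_add, mul_pow, sq_sqrt u.le, div_le_iff₀ h.D_pos]
    have : 1 / K ^ 2 ≤ DD p μ := by unfold DD; linarith [T.iK, T.xs1]
    rw [div_le_iff₀ (by positivity)] at this
    nlinarith
  have b := mul_le_mul_of_nonneg_right (mul_le_mul_of_nonneg_left a h.KK_nn) u.le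
  refine b.trans (le_of_eq ?_)
  rw [← u0_cube h]
  linear_combination (32000 * log p.n * K * u0 p μ) * la_sqrt h

theorem E_ge : 16000 * (log p.n * p.la μ ^ 2) ≤ K * E0 p μ := by
  have h := T.nm
  have u := h.u0p
  have K0 := T.K0
  have a : √(u0 p μ) ≤ 2 * K * gg p μ p.xs := by
    have s : √(u0 p μ) ≤ K * √((p.xs - p.xs + u0 p μ) * (1 - p.xs)) := by
      refine sqrt_le_iff.2 ⟨by positivity, ?_⟩
      rw [sub_self, zero_add, mul_pow, sq_sqrt (mul_nonneg u.le (by linarith [h.xs1]))]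
      have := T.iK.trans T.xs1
      rw [div_le_iff₀ (by positivity)] at this
      nlinarith
    refine s.trans ?_
    rw [gg, mul_comm 2 K, mul_assoc]
    refine mul_le_mul_of_nonneg_left ?_ K0.le
    rw [← mul_div_assoc, le_div_iff₀ h.D_pos]
    nlinarith [h.D_le, sqrt_nonneg ((p.xs - p.xs + u0 p μ) * (1 - p.xs))]
  have b := mul_le_mul_of_nonneg_right (mul_le_mul_of_nonneg_left a h.KK_nn) u.le
  have e : 32000 * log p.n * p.la μ * √(u0 p μ) * u0 p μ = 32000 * (log p.n * p.la μ ^ 2) := by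
    rw [← u0_cube h]
    linear_combination (32000 * log p.n * u0 p μ) * la_sqrt h
  rw [e] at b
  unfold E0 FF
  linarith

theorem E_nn : 0 ≤ E0 p μ := mul_nonneg (T.nm.FF_nn _) T.nm.u0p.le

theorem z_le {i : ℕ} (hi : i ≤ J) : z i ≤ p.xs := T.zJ ▸ T.zm hi

theorem Fh_lo {i : ℕ} (hi : i ≤ J) : Fh p μ (z i) = E0 p μ / (p.xs - z i + u0 p μ) :=
  if_pos (T.z_le hi)

theorem Fh_hi {i : ℕ} (hi : J ≤ i) : Fh p μ (z i) = FF p μ (z i) := by
  have := T.nm.u0p
  rcases (T.zJ ▸ T.zm hi : p.xs ≤ z i).eq_or_lt with e | e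
  · rw [← e, Fh, if_pos le_rfl, E0, sub_self, zero_add]; field_simp
  · exact if_neg (not_le.2 e)

theorem Fh_nn (i : ℕ) : 0 ≤ Fh p μ (z i) := by
  rcases le_total i J with h | h
  · rw [T.Fh_lo h]; exact div_nonneg T.E_nn (by linarith [T.z_le h, T.nm.u0p])
  · rw [T.Fh_hi h]; exact T.nm.FF_nn _

theorem dz_nn (i : ℕ) : 0 ≤ z i - z (i - 1) := sub_nonneg.2 (T.zm (by omega))

variable (V : Mv p μ B z φ j1 J N)
include V

/-- the sloped part -/
theorem slo {j m : ℕ} (h1 : j1 ≤ j) (h2 : j ≤ m) (h3 : m ≤ J) :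
    ∑ i ∈ Finset.Ioc j m, (z i - z (i - 1)) * φ i ^ 2 ≤
      B ^ 2 * (2 * K * Fh p μ (z (j - 1))) * (z m - z j) := by
  have h := T.nm
  have u := h.u0p
  have L1 := h.l1
  set u0' := u0 p μ with hu0
  set L := log (p.n : ℝ) with hL
  have key : ∀ b, j ≤ b → b ≤ J → ∑ i ∈ Finset.Ioc j b, (z i - z (i - 1)) * φ i ^ 2 ≤
      B ^ 2 * (p.la μ ^ 2 * (z b - z j) + u0' ^ 2 * min (z b - z j) (max 0 (z b - p.xs + L * u0'))) :=
    fun b hb => by
    induction b, hb using Nat.le_induction with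
    | base => simp
    | succ b hb ih =>
      intro hJ
      rw [Finset.sum_Ioc_succ_top hb, Nat.add_sub_cancel]
      have d : 0 ≤ z (b + 1) - z b := sub_nonneg.2 (T.zm b.le_succ)
      have ih := ih (by omega)
      rcases le_or_gt (p.xs - z b) (L * u0') with c | c
      · have a := pow_le_pow_left₀ (abs_nonneg _) (V.p1 (b + 1) (by omega) hJ) 2
        rw [sq_abs, mul_pow] at a
        have m1 : min (z b - z j) (max 0 (z b - p.xs + L * u0')) + (z (b + 1) - z b) ≤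
            min (z (b + 1) - z j) (max 0 (z (b + 1) - p.xs + L * u0')) := by
          rw [max_eq_right (by linarith), max_eq_right (by linarith)]
          exact le_min (by linarith [min_le_left (z b - z j) (z b - p.xs + L * u0')])
            (by linarith [min_le_right (z b - z j) (z b - p.xs + L * u0')])
        have a1 := mul_le_mul_of_nonneg_left a d
        have a2 := mul_le_mul_of_nonneg_left m1 (by positivity : 0 ≤ B ^ 2 * u0' ^ 2)
        have a3 : 0 ≤ B ^ 2 * p.la μ ^ 2 * (z (b + 1) - z b) := by positivity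
        nlinarith
      · have a := pow_le_pow_left₀ (abs_nonneg _) (V.p2 (b + 1) (by omega) hJ (by simpa using c)) 2
        rw [sq_abs, mul_pow] at a
        have m1 : min (z b - z j) (max 0 (z b - p.xs + L * u0')) ≤
            min (z (b + 1) - z j) (max 0 (z (b + 1) - p.xs + L * u0')) :=
          min_le_min (by linarith) (max_le_max le_rfl (by linarith))
        have a1 := mul_le_mul_of_nonneg_left a d
        have a2 := mul_le_mul_of_nonneg_left m1 (by positivity : 0 ≤ B ^ 2 * u0' ^ 2)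
        nlinarith
  refine (key m h2 h3).trans ?_
  rw [mul_assoc (B ^ 2)]
  refine mul_le_mul_of_nonneg_left ?_ (sq_nonneg B)
  have zj := T.z_le (h2.trans h3)
  have zm := T.z_le h3
  have d : 0 ≤ z m - z j := sub_nonneg.2 (T.zm h2)
  have ms := T.mesh j h1 (h2.trans h3)
  have dj := T.dz_nn j
  have z0 : 0 ≤ z (j - 1) := T.z0.trans (T.zm (Nat.zero_le _))
  rw [T.Fh_lo (by omega)]
  set A := p.xs - z (j - 1) + u0' with hA
  have A0 : 0 < A := by linarith
  have A2 : A ≤ 2 := by linarith [h.xs1, h.u0_le]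
  have E := T.E_ge
  have l2 : 0 ≤ p.la μ ^ 2 := sq_nonneg _
  have e3 := u0_cube h
  have k1 : p.la μ ^ 2 * A ≤ K * E0 p μ := by nlinarith
  have k2 : u0' ^ 2 * min (z m - z j) (max 0 (z m - p.xs + L * u0')) * A ≤
      4 * (L * p.la μ ^ 2) * (z m - z j) := by
    rw [← e3]
    rcases le_total (p.xs - z j) (2 * L * u0') with c | c
    · have a1 : A ≤ 4 * L * u0' := by nlinarith
      have a2 := mul_le_mul (min_le_left (z m - z j) (max 0 (z m - p.xs + L * u0'))) a1 A0.le d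
      have := mul_le_mul_of_nonneg_left a2 (sq_nonneg u0')
      nlinarith
    · rcases le_total (z m - p.xs + L * u0') 0 with c' | c'
      · rw [max_eq_left c', min_eq_right d]
        simp only [mul_zero, zero_mul]; positivity
      · have a1 : A ≤ 4 * (z m - z j) := by nlinarith
        have a2 : min (z m - z j) (max 0 (z m - p.xs + L * u0')) ≤ L * u0' :=
          (min_le_right _ _).trans (max_le (by positivity) (by linarith))
        have a3 := mul_le_mul a2 a1 A0.le (by positivity)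
        have := mul_le_mul_of_nonneg_left a3 (sq_nonneg u0')
        nlinarith
  rw [show 2 * K * (E0 p μ / A) * (z m - z j) = 2 * K * E0 p μ * (z m - z j) / A by ring,
    le_div_iff₀ A0]
  have k3 := mul_le_mul_of_nonneg_right k1 d
  have k4 := mul_le_mul_of_nonneg_right E d
  have k5 : 0 ≤ L * p.la μ ^ 2 * (z m - z j) := by positivity
  nlinarith

theorem pla_env {j k : ℕ} (h1 : J ≤ j) (h2 : j ≤ k) (h3 : k ≤ N) :
    ∑ i ∈ Finset.Ioc j k, (z i - z (i - 1)) * φ i ^ 2 ≤ B ^ 2 * ∑ i ∈ Finset.Ico (j - J) (k - J),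
      (z (J + (i + 1)) - z (J + i)) * env p μ (z (J + i)) ^ 2 := by
  obtain ⟨j, rfl⟩ := Nat.exists_eq_add_of_le h1
  obtain ⟨k, rfl⟩ : ∃ i, k = J + i := Nat.exists_eq_add_of_le (by omega)
  rw [Nat.add_sub_cancel_left, Nat.add_sub_cancel_left, ← Finset.Ico_add_one_add_one_eq_Ioc,
    show J + j + 1 = j + (J + 1) by omega, show J + k + 1 = k + (J + 1) by omega,
    ← Finset.sum_Ico_add', Finset.mul_sum]
  refine Finset.sum_le_sum fun i hi => ?_
  have hi' := Finset.mem_Ico.1 hi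
  have a := pow_le_pow_left₀ (abs_nonneg _) (V.p3 (i + (J + 1)) (by omega) (by omega)) 2
  have d := T.dz_nn (i + (J + 1))
  rw [sq_abs, mul_pow] at a
  rw [show i + (J + 1) - 1 = J + i by omega] at *
  rw [show J + (i + 1) = i + (J + 1) by omega]
  have := mul_le_mul_of_nonneg_left a d
  linarith

/-- the plateau -/
theorem pla {j k : ℕ} (h1 : J ≤ j) (h2 : j ≤ k) (h3 : k ≤ N) :
    ∑ i ∈ Finset.Ioc j k, (z i - z (i - 1)) * φ i ^ 2 ≤
      B ^ 2 * (FF p μ (z j) * (p.rF μ (z k) - p.rF μ (z j))) := by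
  refine (T.pla_env V h1 h2 h3).trans (mul_le_mul_of_nonneg_left ?_ (sq_nonneg B))
  have := T.sh.maj T.nm (j := j - J) (k := k - J) (by omega) (by omega)
  simpa only [Nat.add_sub_cancel' h1, Nat.add_sub_cancel' (h1.trans h2)] using this

theorem pla_tot {k : ℕ} (h2 : J ≤ k) (h3 : k ≤ N) :
    ∑ i ∈ Finset.Ioc J k, (z i - z (i - 1)) * φ i ^ 2 ≤ B ^ 2 * (K * E0 p μ) := by
  refine (T.pla_env V le_rfl h2 h3).trans (mul_le_mul_of_nonneg_left ?_ (sq_nonneg B))
  have a := T.sh.sum_env T.nm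
  have b := T.E_ge
  have c : 0 ≤ log (p.n : ℝ) * p.la μ ^ 2 := mul_nonneg (by linarith [T.nm.l1]) (sq_nonneg _)
  refine le_trans (Finset.sum_le_sum_of_subset_of_nonneg (fun i hi => ?_) fun i _ _ =>
    mul_nonneg (sub_nonneg.2 (T.zm (by omega))) (sq_nonneg _)) (a.trans (by linarith))
  simp only [Finset.mem_Ico, Finset.mem_range] at *
  omega

end Tw

/-- **the majorant** -/
def Wt (p : Pm) (μ K α β B : ℝ) (z : ℕ → ℝ) (j : ℕ) : ℝ :=
  5 * K * B ^ 2 / (β * α) * Fh p μ (z (j - 1))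

namespace Tw

variable {p : Pm} {μ K α β B : ℝ} {z Φ φ : ℕ → ℝ} {j1 J N : ℕ} (T : Tw p μ K α β z Φ j1 J N)
include T

theorem cf_nn (B : ℝ) : 0 ≤ 5 * K * B ^ 2 / (β * α) := by
  have := T.K0; have := T.α0; have := T.β0; positivity

theorem Wt_nn (B : ℝ) (j : ℕ) : 0 ≤ Wt p μ K α β B z j := mul_nonneg (T.cf_nn B) (T.Fh_nn _)

theorem G1 {j m : ℕ} (h1 : j1 ≤ j) (h2 : j ≤ m) (h3 : m ≤ J) : β * α * (z m - z j) ≤ Φ m - Φ j := by
  have := tel_le (f := fun i => β * z i) (g := Φ) h2 fun i a b => by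
    linarith [T.g1 i (by omega) (by omega)]
  have d : 0 ≤ z m - z j := sub_nonneg.2 (T.zm h2)
  have := mul_le_mul_of_nonneg_left T.α1 (mul_nonneg T.β0.le d)
  linarith

theorem G2 {j k : ℕ} (h1 : J ≤ j) (h2 : j ≤ k) (h3 : k ≤ N) :
    β * α * (p.rF μ (z k) - p.rF μ (z j)) ≤ Φ k - Φ j := by
  have := tel_le (f := fun i => β * α * p.rF μ (z i)) (g := Φ) h2 fun i a b => by
    linarith [T.g2 i (by omega) (by omega)]
  linarith

theorem z_lt {k : ℕ} (h1 : J ≤ k) (h3 : k ≤ N) : z k < 1 := by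
  simpa only [Nat.add_sub_cancel' h1] using T.sh.lt T.nm (i := k - J) (by omega)

theorem R_nn {j k : ℕ} (h1 : J ≤ j) (h2 : j ≤ k) (h3 : k ≤ N) :
    0 ≤ p.rF μ (z k) - p.rF μ (z j) :=
  sub_nonneg.2 (T.nm.clw.le (T.zJ ▸ T.zm h1) (T.zm h2) (T.z_lt (h1.trans h2) h3))

theorem maj (V : Mv p μ B z φ j1 J N) {j k : ℕ} (h1 : j1 ≤ j) (h2 : j ≤ k) (h3 : k ≤ N) :
    ∑ i ∈ Finset.Ioc j k, (z i - z (i - 1)) * φ i ^ 2 ≤ Wt p μ K α β B z j * (Φ k - Φ j) := by
  have h := T.nm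
  have K1 := T.K1
  have βα := mul_pos T.β0 T.α0
  have F0 := T.Fh_nn (j - 1)
  have fin : ∀ {S g : ℝ}, S ≤ B ^ 2 * (5 * K * Fh p μ (z (j - 1))) * g → β * α * g ≤ Φ k - Φ j →
      S ≤ Wt p μ K α β B z j * (Φ k - Φ j) := fun {S g} a b => by
    refine a.trans (le_trans (le_of_eq ?_) (mul_le_mul_of_nonneg_left b (T.Wt_nn B j)))
    have := T.β0.ne'
    have := T.α0.ne'
    rw [Wt]; field_simp
  rcases le_or_gt k J with c | c
  · refine fin ((T.slo V h1 h2 c).trans ?_) (T.G1 h1 h2 c)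
    have d : 0 ≤ z k - z j := sub_nonneg.2 (T.zm h2)
    gcongr; norm_num
  rcases le_or_gt j J with c' | c'
  · have a1 := T.slo V h1 c' le_rfl
    have a2 := T.pla V le_rfl c.le h3
    have a3 := T.pla_tot V c.le h3
    have R0 := T.R_nn le_rfl c.le h3
    have d : 0 ≤ z J - z j := sub_nonneg.2 (T.zm c')
    refine fin (g := z J - z j + (p.rF μ (z k) - p.rF μ (z J))) ?_
      (by linarith [T.G1 h1 c' le_rfl, T.G2 le_rfl c.le h3])
    rw [← Finset.sum_Ioc_consecutive _ c' c.le]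
    have u := h.u0p
    have ms := T.mesh j h1 c'
    have dj := T.dz_nn j
    have E0' := T.E_nn
    have eF := T.Fh_lo (i := j - 1) (by omega)
    set F := Fh p μ (z (j - 1))
    set R := p.rF μ (z k) - p.rF μ (z J)
    rw [T.zJ] at *
    have A0 : 0 < p.xs - z (j - 1) + u0 p μ := by linarith
    rw [eq_div_iff A0.ne'] at eF
    have a4 : ∑ i ∈ Finset.Ioc J k, (z i - z (i - 1)) * φ i ^ 2 ≤
        B ^ 2 * (3 * K * F * (p.xs - z j + R)) := by
      rcases le_total (p.xs - z j) (u0 p μ) with e | e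
      · refine a2.trans (mul_le_mul_of_nonneg_left ?_ (sq_nonneg B))
        have b1 : FF p μ p.xs ≤ 3 * F := by
          refine le_of_mul_le_mul_right ?_ u
          have := mul_le_mul_of_nonneg_left
            (show p.xs - z (j - 1) + u0 p μ ≤ 3 * u0 p μ by linarith) F0
          rw [E0] at eF
          linarith
        have b2 := mul_le_mul_of_nonneg_right b1 R0
        have b3 := mul_le_mul_of_nonneg_right K1 (mul_nonneg F0 R0)
        have b4 : 0 ≤ K * F * (p.xs - z j) := by positivity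
        nlinarith
      · refine a3.trans (mul_le_mul_of_nonneg_left ?_ (sq_nonneg B))
        have := mul_le_mul_of_nonneg_left
          (show p.xs - z (j - 1) + u0 p μ ≤ 3 * (p.xs - z j + R) by linarith) F0
        have := mul_le_mul_of_nonneg_left (eF ▸ this) T.K0.le
        linarith
    have a5 : 0 ≤ B ^ 2 * (K * F * R) := by positivity
    nlinarith
  · refine fin ((T.pla V c'.le h2 h3).trans ?_) (T.G2 c'.le h2 h3)
    have R := T.R_nn c'.le h2 h3
    rw [mul_assoc (B ^ 2), T.Fh_hi (by omega)]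
    refine mul_le_mul_of_nonneg_left (mul_le_mul_of_nonneg_right ?_ R) (sq_nonneg B)
    have s := (le_min_iff.1 (T.sh.sh (j - 1 - J) (by omega))).1
    simp only [show J + (j - 1 - J + 1) = j by omega, show J + (j - 1 - J) = j - 1 by omega] at s
    have x0 : p.xs ≤ z (j - 1) := T.zJ ▸ T.zm (by omega)
    have g := h.gg_up x0 (T.zm (show j - 1 ≤ j by omega)) (T.z_lt c'.le (h2.trans h3)).le
      (by linarith [h.u0p])
    have := mul_le_mul_of_nonneg_left g h.KK_nn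
    have F := h.FF_nn (z (j - 1))
    have := mul_le_mul_of_nonneg_right K1 F
    unfold FF at *
    linarith

theorem Fh_j1 {i : ℕ} (hi : i ≤ j1) : Fh p μ (z i) ≤ 32000 * K ^ 2 * (log p.n * p.la μ ^ 2) := by
  have a := T.zm hi
  have K0 := T.K0
  rw [T.Fh_lo (hi.trans T.i1)]
  refine (div_le_div_of_nonneg_left T.E_nn (one_div_pos.2 K0)
    (by linarith [T.xs0, T.nm.u0p])).trans ?_
  rw [div_div_eq_mul_div, div_one]
  nlinarith [T.E_le]

theorem iD : 1 / DD p μ ≤ K ^ 2 := by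
  have K0 := T.K0
  have : 1 / K ^ 2 ≤ DD p μ := by unfold DD; linarith [T.iK, T.xs1, T.nm.u0p]
  rw [div_le_iff₀ (by positivity)] at this
  rw [div_le_iff₀ T.nm.D_pos]
  linarith

theorem Fh_N : Fh p μ (z N) ≤ 32000 * K * (log p.n * p.la μ ^ 2) := by
  have h := T.nm
  have K0 := T.K0
  have l0 := h.lp
  rw [T.Fh_hi T.i2]
  have a : gg p μ (z N) ≤ K * p.la μ := by
    refine (h.gg_top (T.z_lt T.i2 le_rfl).le).trans (sqrt_le_iff.2 ⟨by positivity, ?_⟩)
    rw [div_eq_mul_one_div, mul_pow, mul_comm (K ^ 2)]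
    exact mul_le_mul T.top T.iD (one_div_pos.2 h.D_pos).le (by positivity)
  have := mul_le_mul_of_nonneg_left a h.KK_nn
  unfold FF
  linarith

/-- the rises on the top window -/
theorem rw_top {ρ q : ℕ → ℝ} {V : ℝ} (ρ0 : ∀ j, 0 ≤ ρ j) (ρ1 : ∀ j, ρ j ≤ 1) (q0 : 0 ≤ q j1)
    (q1 : q N ≤ 1) (qm : ∀ i j, j1 ≤ i → i ≤ j → j ≤ N → q i ≤ q j)
    (q2 : ∀ j, j1 < j → j ≤ J → q j - q (j - 1) ≤ K * (z j - z (j - 1)))
    (q3 : q N - q J ≤ K * p.la μ) (V0 : 0 ≤ V)
    (hV : ∑ j ∈ Finset.Ioc j1 N, (z j - z (j - 1)) * |ρ j - q j| ^ 2 ≤ V ^ 2) :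
    ∑ j ∈ Finset.Ioc j1 N, (ρ j - ρ (j - 1)) * Fh p μ (z (j - 1)) ≤
      150000 * K ^ 2 * log p.n ^ 2 * (p.la μ * (p.la μ + V)) := by
  have h := T.nm
  have K1 := T.K1
  have L1 := h.l1
  have l0 := h.lp
  have u := h.u0p
  have E := T.E_nn
  have E1 := T.E_le
  have iN := T.i1.trans T.i2
  have qq := qm j1 N le_rfl iN le_rfl
  set L := log (p.n : ℝ) with hL
  have A0 : ∀ j ≤ J, u0 p μ ≤ p.xs - z j + u0 p μ := fun j hj => by linarith [T.z_le hj]
  have k := ab_top (ρ := ρ) (q := q) (W := fun j => Fh p μ (z (j - 1)))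
    (dz := fun j => z j - z (j - 1)) (ω := fun j => if j ≤ J then E0 p μ ^ 2 / u0 p μ ^ 2 *
      (1 / (p.xs - z j + u0 p μ) - 1 / (p.xs - z (j - 1) + u0 p μ)) else
      (FF p μ (z j) - FF p μ (z (j - 1))) ^ 2 / (z j - z (j - 1))) iN
    (abs_le.2 ⟨by linarith [ρ0 j1], by linarith [ρ1 j1]⟩)
    (abs_le.2 ⟨by linarith [ρ0 N], by linarith [ρ1 N]⟩) (T.Fh_nn _) (T.Fh_nn _) V0
    (Ω := 96000 * K * L ^ 2 * p.la μ) (by positivity) (fun j _ _ => T.dz_nn j)
    (fun j _ _ => by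
      split_ifs with c
      · exact mul_nonneg (by positivity) (sub_nonneg.2 (one_div_le_one_div_of_le
          (u.trans_le (A0 j c)) (by linarith [T.dz_nn j])))
      · exact div_nonneg (sq_nonneg _) (T.dz_nn j)) hV
    (fun j j0 _ => by
      have d := T.dz_nn j
      simp only [Nat.add_sub_cancel]
      split_ifs with c
      · rw [T.Fh_lo c, T.Fh_lo (by omega)]
        have a1 := A0 j c
        have a2 := A0 (j - 1) (by omega)
        have e : z j - z (j - 1) = (p.xs - z (j - 1) + u0 p μ) - (p.xs - z j + u0 p μ) := by ring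
        rw [e] at d ⊢
        set A := p.xs - z j + u0 p μ
        set A' := p.xs - z (j - 1) + u0 p μ
        have p1 : 0 < A := by linarith
        have p2 : 0 < A' := by linarith
        have e1 : (E0 p μ / A - E0 p μ / A') ^ 2 =
            (A' - A) ^ 2 * E0 p μ ^ 2 / (A * A') * (1 / (A * A')) := by field_simp
        have e2 : (A' - A) * (E0 p μ ^ 2 / u0 p μ ^ 2 * (1 / A - 1 / A')) =
            (A' - A) ^ 2 * E0 p μ ^ 2 / (A * A') * (1 / u0 p μ ^ 2) := by field_simp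
        rw [e1, e2]
        exact mul_le_mul_of_nonneg_left (one_div_le_one_div_of_le (by positivity)
          (by rw [sq]; exact mul_le_mul a1 a2 u.le p1.le)) (by positivity)
      · rw [T.Fh_hi (by omega), T.Fh_hi (by omega)]
        rcases d.eq_or_lt with e | e
        · rw [show z j = z (j - 1) by linarith]; simp
        · exact le_of_eq (by field_simp))
    (by
      rw [← Finset.sum_Ioc_consecutive _ T.i1 T.i2,
        Finset.sum_congr rfl fun j hj => if_pos (Finset.mem_Ioc.1 hj).2,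
        Finset.sum_congr (s₁ := Finset.Ioc J N) rfl fun j hj =>
          if_neg (not_le.2 (Finset.mem_Ioc.1 hj).1), ← Finset.mul_sum,
        tele (fun j => 1 / (p.xs - z j + u0 p μ)) T.i1]
      have b1 : E0 p μ ^ 2 / u0 p μ ^ 2 * (1 / (p.xs - z J + u0 p μ) -
          1 / (p.xs - z j1 + u0 p μ)) ≤ (32000 * K * L * p.la μ) ^ 2 := by
        have a1 := one_div_pos.2 (u.trans_le (A0 j1 T.i1))
        rw [T.zJ, sub_self, zero_add]
        refine (mul_le_mul_of_nonneg_left (sub_le_self _ a1.le) (by positivity)).trans ?_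
        rw [div_mul_div_comm, mul_one, ← pow_succ, u0_cube h, div_le_iff₀ (by positivity)]
        refine (pow_le_pow_left₀ E E1 2).trans (le_of_eq (by ring))
      have b2 : ∑ j ∈ Finset.Ioc J N, (FF p μ (z j) - FF p μ (z (j - 1))) ^ 2 / (z j - z (j - 1)) ≤
          (32000 * L * p.la μ) ^ 2 * (7 * L * K ^ 2) := by
        refine le_trans (le_of_eq ?_) ((T.sh.sum_dFF h).trans (mul_le_mul_of_nonneg_left ?_
          (sq_nonneg _)))
        · rw [← Finset.Ico_add_one_add_one_eq_Ioc, Finset.sum_Ico_eq_sum_range,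
            show N + 1 - (J + 1) = N - J by omega]
          refine Finset.sum_congr rfl fun i _ => ?_
          rw [show J + 1 + i - 1 = J + i by omega, show J + 1 + i = J + (i + 1) by omega]
        · rw [div_eq_mul_one_div]
          exact mul_le_mul_of_nonneg_left T.iD (by positivity)
      have b3 : 0 ≤ (32000 * K * L * p.la μ) ^ 2 := sq_nonneg _
      have b4 : 1 + 7 * L ≤ 9 * L ^ 2 := by nlinarith
      have b5 := mul_le_mul_of_nonneg_left b4 b3
      linarith)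
  refine k.trans ?_
  simp only [Nat.add_sub_cancel]
  have s1 : ∑ j ∈ Finset.Ioc j1 J, (q j - q (j - 1)) * Fh p μ (z (j - 1)) ≤
      K * E0 p μ * (2 * L) := by
    have t := tele (fun j => -log (p.xs - z j + u0 p μ)) T.i1
    refine (Finset.sum_le_sum (g := fun j => K * E0 p μ * (-log (p.xs - z j + u0 p μ) -
      -log (p.xs - z (j - 1) + u0 p μ))) fun j hj => ?_).trans ?_
    · obtain ⟨j0, c⟩ := Finset.mem_Ioc.1 hj
      refine (mul_le_mul_of_nonneg_right (q2 j j0 c) (T.Fh_nn _)).trans ?_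
      have p1 := u.trans_le (A0 j c)
      have p2 := u.trans_le (A0 (j - 1) (by omega))
      have l := one_sub_inv_le_log_of_pos (div_pos p2 p1)
      rw [log_div p2.ne' p1.ne', inv_div] at l
      have := mul_le_mul_of_nonneg_left l (mul_nonneg T.K0.le E)
      rw [T.Fh_lo (by omega)]
      refine le_trans (le_of_eq ?_) (this.trans (le_of_eq (by ring)))
      field_simp; ring
    · rw [← Finset.mul_sum, t, T.zJ, sub_self, zero_add]
      refine mul_le_mul_of_nonneg_left ?_ (mul_nonneg T.K0.le E)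
      have z0 : 0 ≤ z j1 := T.z0.trans (T.zm (Nat.zero_le _))
      have a1 : log (p.xs - z j1 + u0 p μ) ≤ L :=
        log_le_log (u.trans_le (A0 j1 T.i1)) (by linarith [h.xs1, h.u0_le, h.n2])
      have a2 := log_le_log (one_div_pos.2 h.np) (h.nl.trans h.l_le_u0)
      rw [one_div, log_inv] at a2
      linarith
  have s2 : ∑ j ∈ Finset.Ioc J N, (q j - q (j - 1)) * Fh p μ (z (j - 1)) ≤
      K * p.la μ * (16000 * L * p.la μ) := by
    refine (Finset.sum_le_sum (g := fun j => (q j - q (j - 1)) * (16000 * L * p.la μ))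
      fun j hj => ?_).trans ?_
    · obtain ⟨j0, c⟩ := Finset.mem_Ioc.1 hj
      rw [T.Fh_hi (by omega)]
      exact mul_le_mul_of_nonneg_left (h.FF_le _)
        (sub_nonneg.2 (qm _ _ (by have := T.i1; omega) (by omega) c))
    · rw [← Finset.sum_mul, tele q T.i2]
      exact mul_le_mul_of_nonneg_right q3 (by positivity)
  rw [← Finset.sum_Ioc_consecutive _ T.i1 T.i2]
  have s3 := T.Fh_j1 le_rfl
  have s4 := T.Fh_N
  have s5 := mul_le_mul_of_nonneg_right (mul_le_mul_of_nonneg_left E1 T.K0.le)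
    (by positivity : 0 ≤ 2 * L)
  have K2 : K ≤ K ^ 2 := by nlinarith
  have L2 : L ≤ L ^ 2 := by nlinarith
  have c1 : K * L * p.la μ ^ 2 ≤ K ^ 2 * L ^ 2 * p.la μ ^ 2 := by gcongr
  have c2 : K ^ 2 * L * p.la μ ^ 2 ≤ K ^ 2 * L ^ 2 * p.la μ ^ 2 := by gcongr
  have c3 : K * (L ^ 2 * p.la μ * V) ≤ K ^ 2 * (L ^ 2 * p.la μ * V) := by gcongr
  have c4 : 0 ≤ K ^ 2 * (L ^ 2 * p.la μ * V) := by positivity
  have c5 : 0 ≤ K ^ 2 * L ^ 2 * p.la μ ^ 2 := by positivity
  linarith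

end Tw

/-- location of `ρ`: crude below `j1`, rms on the top window -/
structure Lc (p : Pm) (μ K Λ V : ℝ) (z y q ρ : ℕ → ℝ) (j0 j1 J N : ℕ) : Prop where
  Λ0 : 0 ≤ Λ
  V0 : 0 ≤ V
  y0 : 0 < y j0
  ym : Monotone y
  lo : ∀ j, j0 ≤ j → j ≤ j1 → ρ j ≤ Λ * y j
  q0 : 0 ≤ q j1
  q1 : q N ≤ 1
  qm : ∀ i j, j1 ≤ i → i ≤ j → j ≤ N → q i ≤ q j
  q2 : ∀ j, j1 < j → j ≤ J → q j - q (j - 1) ≤ K * (z j - z (j - 1))
  q3 : q N - q J ≤ K * p.la μ
  rms : ∑ j ∈ Finset.Ioc j1 N, (z j - z (j - 1)) * |ρ j - q j| ^ 2 ≤ V ^ 2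

variable {p : Pm} {μ K α β B B0 Λ V σ cm : ℝ} {φ y q : ℕ → ℝ} {j0 j1 J N D : ℕ} {M : Md} {m : ℕ}
  {a : ℝ}

/-- **the cost of a move of the marks** -/
theorem costP (G : Lg M m a) (T : Tw p μ K α β M.z (Phi M) j1 J N) (F : Mv p μ B M.z φ j1 J N)
    (C : Lc p μ K Λ V M.z y q (M.rb m a) j0 j1 J N) (σ0 : 0 < σ) (h : j0 ≤ j1) (hN : N ≤ M.N)
    (hΦ : ∀ i, j0 ≤ i → i < N → σ ≤ M.z i * (M.H (i + 1) - M.H i))
    (hD : Phi M N - Phi M j0 ≤ 2 ^ D * σ) (cm0 : 0 ≤ cm)
    (c1 : ∀ k, j0 < k → k ≤ N → (M.z k - M.z (k - 1)) * φ k ^ 2 ≤ cm) (B00 : 0 ≤ B0)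
    (hlo : ∀ i, j0 ≤ i → i < j1 → (M.z (i + 1) - M.z i) * φ (i + 1) ^ 2 ≤
      B0 / y i * (M.z i * (M.H (i + 1) - M.H i))) :
    ∑ k ∈ Finset.Ioc j0 N, (M.z k - M.z (k - 1)) * φ k ^ 2 * aM M m a k ≤
      (D + 2) * (2 / m * ((1 + D) * (Λ * B0 * (1 + log (y j1 / y j0)) +
        10 ^ 6 * K ^ 3 * log p.n ^ 2 * B ^ 2 / (β * α) * (p.la μ * (p.la μ + V)))) + cm) := by
  have iN := T.i1.trans T.i2
  have yp : ∀ j, j0 ≤ j → 0 < y j := fun j hj => C.y0.trans_le (C.ym hj)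
  have hΦ' : ∀ i, j0 ≤ i → i < N → σ ≤ Phi M (i + 1) - Phi M i := fun i a b => by
    rw [Phi_succ]; exact hΦ i a b
  have Pm := fun i j => step_le (i := i) (j := j) σ0.le hΦ'
  have w1 := T.Wt_nn B j1
  have lo : ∀ j k, j0 ≤ j → j ≤ k → k ≤ j1 → ∑ i ∈ Finset.Ioc j k, (M.z i - M.z (i - 1)) * φ i ^ 2 ≤
      B0 / y j * (Phi M k - Phi M j) := fun j k h0 hk => by
    induction k, hk using Nat.le_induction with
    | base => simp
    | succ k hk ih =>
      intro h1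
      have a1 := hlo k (by omega) h1
      rw [← Phi_succ] at a1
      have a2 := mul_le_mul_of_nonneg_right (div_le_div_of_nonneg_left B00 (yp j h0) (C.ym hk))
        (σ0.le.trans (hΦ' k (by omega) (by omega)))
      rw [Finset.sum_Ioc_succ_top hk, Nat.add_sub_cancel]
      linarith [ih (by omega)]
  refine (cost G (W := fun j => if j ≤ j1 then B0 / y j + Wt p μ K α β B M.z j1 else
    Wt p μ K α β B M.z j) σ0 (h.trans iN) hN hΦ hD
    (fun k _ _ => mul_nonneg (T.dz_nn k) (sq_nonneg _)) cm0 c1 (fun j h0 _ => ?_)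
    fun j k h0 hk kN => ?_).trans ?_
  · split_ifs
    · exact add_nonneg (div_nonneg B00 (yp j h0).le) w1
    · exact T.Wt_nn B j
  · have b0 := div_nonneg B00 (yp j h0).le
    split_ifs with c
    · rcases le_total k j1 with c' | c'
      · have := mul_nonneg w1 (sub_nonneg.2 (Pm j k h0 hk.le kN))
        linarith [lo j k h0 hk.le c']
      · have := mul_nonneg w1 (sub_nonneg.2 (Pm j j1 h0 c iN))
        have := mul_nonneg b0 (sub_nonneg.2 (Pm j1 k h c' kN))
        rw [← Finset.sum_Ioc_consecutive _ c c']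
        linarith [lo j j1 h0 c le_rfl, T.maj F le_rfl c' kN]
    · exact T.maj F (by omega) hk.le kN
  refine mul_le_mul_of_nonneg_left (add_le_add (mul_le_mul_of_nonneg_left
    (mul_le_mul_of_nonneg_left ?_ (by positivity)) (by positivity)) le_rfl) (by positivity)
  rw [RW_split _ _ h iN]
  have r1 := RW_mono (ρ := M.rb m a) (W := fun j => if j ≤ j1 then B0 / y j + Wt p μ K α β B M.z j1
    else Wt p μ K α β B M.z j) (W' := fun j => B0 / y j + Wt p μ K α β B M.z j1) (rb_mono G.m0)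
    (rb_nonneg G.m0 _) h fun j _ c => (if_pos c).le
  rw [RW_add] at r1
  have r2 := RW_low h B00 C.Λ0 C.y0 C.ym C.lo
  have r3 := RW_const (ρ := M.rb m a) (W := fun _ => Wt p μ K α β B M.z j1) (rb_mono G.m0)
    (rb_nonneg G.m0 _) h (rb_le_one G.m0 _) w1 fun _ _ _ => le_rfl
  have r4 := mul_le_mul_of_nonneg_left (T.rw_top (rb_nonneg (M := M) (a := a) G.m0)
    (rb_le_one G.m0) C.q0 C.q1 C.qm C.q2 C.q3 C.V0 C.rms) (T.cf_nn B)
  have r5 := mul_le_mul_of_nonneg_left (T.Fh_j1 (Nat.sub_le j1 1)) (T.cf_nn B)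
  rw [Finset.mul_sum] at r4
  have e : ∑ j ∈ Finset.Ioc j1 N, (M.rb m a j - M.rb m a (j - 1)) * (if j ≤ j1 then
      B0 / y j + Wt p μ K α β B M.z j1 else Wt p μ K α β B M.z j) = ∑ j ∈ Finset.Ioc j1 N,
      5 * K * B ^ 2 / (β * α) * ((M.rb m a j - M.rb m a (j - 1)) * Fh p μ (M.z (j - 1))) :=
    Finset.sum_congr rfl fun j hj => by
      rw [if_neg (not_le.2 (Finset.mem_Ioc.1 hj).1), Wt]; ring
  rw [e]
  have L1 := T.nm.l1
  have l0 := T.nm.lp
  have V0 := C.V0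
  have c : 32000 * K ^ 2 * (log p.n * p.la μ ^ 2) + 150000 * K ^ 2 * log p.n ^ 2 *
      (p.la μ * (p.la μ + V)) ≤ 200000 * K ^ 2 * log p.n ^ 2 * (p.la μ * (p.la μ + V)) := by
    have L2 : log p.n * p.la μ ^ 2 ≤ log p.n ^ 2 * (p.la μ * (p.la μ + V)) :=
      mul_le_mul (by nlinarith) (by nlinarith) (by positivity) (by positivity)
    have := mul_le_mul_of_nonneg_left L2 (sq_nonneg K)
    have : 0 ≤ K ^ 2 * log p.n ^ 2 * (p.la μ * (p.la μ + V)) := by positivity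
    linarith
  have r6 := mul_le_mul_of_nonneg_left c (T.cf_nn B)
  have e2 : 5 * K * B ^ 2 / (β * α) * (200000 * K ^ 2 * log p.n ^ 2 * (p.la μ * (p.la μ + V))) =
    10 ^ 6 * K ^ 3 * log p.n ^ 2 * B ^ 2 / (β * α) * (p.la μ * (p.la μ + V)) := by ring
  have e3 : Wt p μ K α β B M.z j1 = 5 * K * B ^ 2 / (β * α) * Fh p μ (M.z (j1 - 1)) := rfl
  linarith

end Crest.Agent.T156.Alt.Cost41

end
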