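import Crest.Agent.T156.CutA_93
import Crest.Agent.T156.NetC_27

/-!
# Row 156, text (L) (helper94): nested lower cuts in mass form
(the first proof follows `CutA_93`, the last two follow `CutN_93`, `CutM_93`)
-/

set_option autoImplicit false

noncomputable section

namespace Crest.Agent.T156.Cut8

open MeasureTheory Set intervalIntegral Filter Topology

variable {T : ℝ} {P : Type} {c C : ℝ} {ok : P → Prop} {z Γ G : P → ℝ → ℝ}

theorem Fr.finK (F : Fr T c C ok z Γ G) {pb ph ps : P} (hb : ok pb) (hh : ok ph) (hs : ok ps)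
    {A A' B' B a a1 b0 b α D L M η ε B0 : ℝ} (hA : 0 ≤ A) (h0 : A ≤ a) (h1 : a ≤ a1) (h1' : a1 ≤ A')
    (h2 : A' ≤ B') (h2' : B' ≤ b0) (h3 : b0 ≤ b) (h4 : b ≤ B) (hBT : B ≤ T) (hL1 : a1 - a ≤ L)
    (hL2 : b - b0 ≤ L) (hM : 0 < M) (hη0 : 0 ≤ η) (hE0 : 0 ≤ 20 * α / L + D)
    (h : Cmp T (z ph) (z pb) (z ps) a a1 b0 b α (20 * α / L + D)) {H r1 r2 ω β ξ k : ℝ → ℝ}
    (lk : LB T k) (k0 : ∀ t, A < t → t < B → 0 ≤ k t)
    (R : Res T (fun t => z pb t - z ph t) (fun t => Γ pb t - Γ ph t) H r1 r2 ω β ξ A B)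
    (hH : ∀ t, A < t → t < B → t < a1 ∨ b0 ≤ t → H t ^ 2 ≤ M * (H t * (z pb t - z ph t)))
    (hη : ∀ t, A < t → t < B → t < a1 ∨ b0 ≤ t → Ab (|r1 t| + β t) η (k t) M)
    (hε : (∫ t in (0 : ℝ)..A', |Jf T (z ph) (z pb) t|) + (∫ t in B'..T, |Jf T (z ph) (z pb) t|) ≤ ε ∨
      (∫ t in (0 : ℝ)..a, |Jf T (z ph) (z pb) t|) + (∫ t in b..T, |Jf T (z ph) (z pb) t|) ≤ ε)
    (hB0 : 0 ≤ B0) (hB : a1 = 0 → (|r2 0| + β 0) * |Jf T (z ph) (z pb) 0| ≤ B0) :
    c / 2 * (∫ t in A'..B', Jf T (z ph) (z pb) t ^ 2) +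
        (∫ t in A'..B', H t * (z pb t - z ph t)) / 2 ≤
      (∫ t in A..B, ξ t) + (∫ t in A..B, k t) + B0 + (∫ t in A..B, ω t ^ 2) / c +
        cutErr' c C L M η α D ε (B - A) := by
  have ha : 0 ≤ a := by linarith
  have hab : a ≤ b := by linarith
  have hbT : b ≤ T := by linarith
  have hT : 0 ≤ T := by linarith
  have hc := F.c_pos
  have ma : a ∈ Icc 0 T := ⟨ha, by linarith⟩
  have mT : T ∈ Icc 0 T := right_mem_Icc.mpr hT
  have lz : LB T fun t => z pb t - z ph t := (F.lbz hb).sub (F.lbz hh)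
  have lJ := F.lbJ hh hb mT
  have eΩ : ∀ s t, a ≤ s → s ≤ t → t ≤ b →
      |(∫ u in a..t, ω u) - ∫ u in a..s, ω u| = ∫ u in s..t, ω u := fun s t s0 s1 s2 => by
    rw [int_split R.lω ma (b := s) (c := t) ⟨by linarith, by linarith⟩ ⟨by linarith, by linarith⟩,
      add_sub_cancel_left, abs_of_nonneg]
    simpa using int_mono (LB.const 0) R.lω (by linarith) s1 (by linarith) fun u u0 u1 =>
      R.ω_nn u (by linarith) (by linarith)
  obtain ⟨r', q1, q2⟩ := exists_reg (r := r2) (Ω := fun t => ∫ u in a..t, ω u) (β := β) hab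
    fun s hs t ht => by
      rcases le_total s t with e | e
      · rw [eΩ s t hs.1 e ht.2]
        linarith [le_abs_self (r2 t - r2 s), R.slow s t (h0.trans hs.1) e (ht.2.trans h4)]
      · rw [abs_sub_comm, eΩ t s ht.1 e hs.2]
        linarith [neg_abs_le (r2 s - r2 t), R.slow t s (h0.trans ht.1) e (hs.2.trans h4)]
  obtain ⟨w, lw, w1, w2⟩ := exists_dens (r := r') R.lω ha hab hbT fun s t s0 s1 s2 => by
    rw [← eΩ s t s0 s1 s2]; exact q1 s ⟨s0, by linarith⟩ t ⟨by linarith, s2⟩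
  have l2 : LB T fun t => r' a + ∫ s in a..t, w s := by
    refine (LB.const _).add (.of_cont ((lw.tail ma).neg.congr fun t _ => ?_))
    simp only [Pi.neg_apply]; rw [integral_symm]
  have lρ : LB T fun t => Γ pb t - Γ ph t + H t := ((F.lbΓ hb hT).sub (F.lbΓ hh hT)).add R.lH
  have dev : ∀ t, a < t → t < b →
      |Γ pb t - Γ ph t + H t - (r' a + ∫ s in a..t, w s) - r1 t| ≤ β t := fun t t0 t1 => by
    have e := R.eq t (by linarith) (by linarith)
    rw [← w1 t ⟨t0.le, t1.le⟩, e, abs_sub_comm]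
    convert q2 t ⟨t0.le, t1.le⟩ using 2
    ring
  have hε' : (∫ t in (0 : ℝ)..a, |Jf T (z ph) (z pb) t|) +
      (∫ t in b..T, |Jf T (z ph) (z pb) t|) ≤ ε := by
    rcases hε with e | e
    · have m1 := int_sub_le lJ.abs le_rfl le_rfl ha (show a ≤ A' by linarith) (by linarith)
        fun _ _ _ => abs_nonneg _
      have m2 := int_sub_le lJ.abs (show 0 ≤ B' by linarith) (show B' ≤ b by linarith) hbT le_rfl
        le_rfl fun _ _ _ => abs_nonneg _
      linarith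
    · exact e
  have m := F.cut_est' hb hh hs ha h1 (by linarith) h3 hbT hL1 hL2 hM hη0 hE0 h lk
    (fun t t0 t1 => k0 t (by linarith) (by linarith)) R.lH (lρ.sub l2) l2 lw
    (fun t _ _ => by ring) (fun t _ => by simp)
    (fun t t0 t1 => R.H_nn t (by linarith) (by linarith))
    (fun t t0 t1 => hH t (by linarith) (by linarith))
    (fun t t0 t1 hw v hv => by
      refine le_trans (mul_le_mul_of_nonneg_right ?_ hv) (hη t (by linarith) (by linarith) hw v hv)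
      have e2 := abs_add_le (Γ pb t - Γ ph t + H t - (r' a + ∫ s in a..t, w s) - r1 t) (r1 t)
      rw [sub_add_cancel] at e2
      linarith [dev t t0 t1]) hε' hB0 fun e => by
      have ea : a = 0 := by linarith
      subst ea
      refine le_trans ?_ (hB e)
      have e1 := q2 0 (left_mem_Icc.mpr hab)
      have e2 := abs_add_le (r' 0 - r2 0) (r2 0)
      rw [sub_add_cancel] at e2
      rw [integral_same, add_zero]
      refine (le_abs_self _).trans ?_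
      rw [abs_mul]
      exact mul_le_mul_of_nonneg_right (by linarith) (abs_nonneg _)
  have m1 := int_sub_le lJ.sq (show 0 ≤ a1 by linarith) h1' h2 h2' (by linarith)
    fun _ _ _ => sq_nonneg _
  have m2 := int_sub_le (R.lH.mul lz) ha (show a ≤ A' by linarith) h2 (show B' ≤ b by linarith) hbT
    fun t t0 t1 => R.H_nn t (by linarith) (by linarith)
  have m3 := int_mono ((lρ.sub l2).mul lz) R.lξ ha hab hbT fun t t0 t1 => by
    have e1 := mul_le_mul_of_nonneg_right (dev t t0 t1) (abs_nonneg (z pb t - z ph t))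
    rw [← abs_mul] at e1
    have e2 := R.pair t (by linarith) (by linarith)
    linarith [le_abs_self ((Γ pb t - Γ ph t + H t - (r' a + ∫ s in a..t, w s) - r1 t) *
      (z pb t - z ph t))]
  have m4 := int_sub_le R.lξ hA h0 hab h4 hBT R.ξ_nn
  have m4' := int_sub_le lk hA h0 hab h4 hBT k0
  have m5 := div_le_div_of_nonneg_right
    (w2.trans (int_sub_le R.lω.sq hA h0 hab h4 hBT fun _ _ _ => sq_nonneg _)) hc.le
  have m6 := mul_le_mul_of_nonneg_left m1 (show 0 ≤ c / 2 by positivity)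
  have m7 : 2 * C ^ 2 / c * (800 * L * α ^ 2 + (b - a) * (ε + 40 * L * α) ^ 2) ≤
      2 * C ^ 2 / c * (800 * L * α ^ 2 + (B - A) * (ε + 40 * L * α) ^ 2) :=
    mul_le_mul_of_nonneg_left (add_le_add le_rfl
      (mul_le_mul_of_nonneg_right (by linarith) (sq_nonneg _))) (by positivity)
  unfold cutErr'
  linarith

/-- **lower cut**, the price `k` of the margin is paid on the margin only -/
theorem Fr.lowK (F : Fr T c C ok z Γ G) {pb ph : P} (hb : ok pb) (hh : ok ph)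
    {A A' α D L M ε c1 δ0 : ℝ} (hA : 0 ≤ A) (h2 : A' ≤ T) (hL : 0 < L)
    (hM : 0 < M) (lo : Mar T (z ph) (z pb) A A' A (A' - L) L c1 δ0 D α)
    {H r1 r2 ω β ξ k : ℝ → ℝ} (lk : LB T k) (k0 : ∀ t, A < t → t < A' → 0 ≤ k t)
    (R : Res T (fun t => z pb t - z ph t) (fun t => Γ pb t - Γ ph t) H r1 r2 ω β ξ A T)
    (hH : ∀ t, A < t → t < A' → H t ^ 2 ≤ M * (H t * (z pb t - z ph t)))
    (hη : ∀ t, A < t → t < A' → Ab (|r1 t| + β t) 0 (k t) M)
    (hε : ∫ t in (0 : ℝ)..A', |Jf T (z ph) (z pb) t| ≤ ε) :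
    c / 2 * (∫ t in A'..T, Jf T (z ph) (z pb) t ^ 2) +
        (∫ t in A'..T, H t * (z pb t - z ph t)) / 2 ≤
      (∫ t in A..T, ξ t) + (∫ t in A..A', k t) + (∫ t in A..T, ω t ^ 2) / c +
        cutErr' c C L M 0 α D ε (T - A) := by
  have l1 := lo.lt
  obtain ⟨a, a0, a1, pa⟩ := F.pt hb hh hA (by linarith) lo
  obtain ⟨ps, hs, h⟩ := F.cmp_low hb hh (a := a) (by linarith) hL (by linarith)
    (pa a a0.le (by linarith))
  have e := Pr.Reg48.int_ite (M := A') lk (LB.const 0) hA (by linarith) h2 le_rfl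
  rw [intervalIntegral.integral_zero, add_zero] at e
  have := F.finK hb hh hs (B0 := 0) (B' := T) (ε := ε) hA a0.le (by linarith) (by linarith) h2
    le_rfl le_rfl le_rfl le_rfl (by linarith) (by linarith) hM le_rfl (lo.nn hL) h
    (Pr.Reg48.LB_ite (M := A') lk (LB.const 0)) (fun t t0 _ => by
      split_ifs with q
      · exact k0 t t0 q
      · exact le_rfl) R
    (fun t t0 t1 e => hH t t0 (by rcases e with e | e <;> linarith))
    (fun t t0 t1 e => by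
      have q : t < A' := by rcases e with e | e <;> linarith
      rw [if_pos q]; exact hη t t0 q)
    (.inl (by simpa using hε)) le_rfl fun e => by linarith
  rw [e] at this
  linarith

/-- the mixed numbers give the absorbed form -/
theorem ab_numM {θ m f A0 A1 A2 e d J ι M : ℝ} (hθ : 0 < θ) (hθ1 : θ ≤ 1) (hM : m ≤ M)
    (h1 : 0 ≤ A1) (h : e ≤ A0 + A1 * |d| + A2 * (|J| + ι)) (hN : Gap27.NumM θ m f A0 A1 A2) :
    Ab e 0 (Gap27.xi θ m f ι d J) M := fun v hv => by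
  obtain ⟨a0, g, f1, lam, p1, p2, p3, p4, p5, p6, p7, p8⟩ := hN
  have f0 : 0 ≤ f1 := by
    by_contra hc
    nlinarith [mul_pos (mul_pos (pow_pos hθ 2) p2) (neg_pos.2 (not_le.1 hc)), sq_nonneg a0]
  have y1 : a0 * v ≤ θ * f1 + θ * m * v ^ 2 / 4 := by
    refine (abs_le_of_sq_le_sq' ?_ (by positivity)).2
    nlinarith [mul_le_mul_of_nonneg_right p4 (sq_nonneg v), sq_nonneg (θ * f1 - θ * m * v ^ 2 / 4)]
  have y2 : g * v ≤ θ * lam ^ 4 + θ * v ^ 4 := by
    have a : lam ^ 3 * v ≤ lam ^ 4 + v ^ 4 := by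
      rcases le_total v lam with q | q
      · nlinarith [mul_le_mul_of_nonneg_left q (pow_nonneg p6 3), pow_nonneg hv 4]
      · nlinarith [mul_le_mul_of_nonneg_right (pow_le_pow_left₀ p6 q 3) hv, pow_nonneg p6 4]
    nlinarith [mul_le_mul_of_nonneg_right p7 hv, mul_le_mul_of_nonneg_left a hθ.le]
  have q2 : 0 ≤ A2 ^ 2 / θ := by positivity
  have tm := mul_pos hθ p2
  have y3 : A1 * |d| * v ≤ θ * m * d ^ 2 + θ * m * v ^ 2 / 4 := by
    have a := mul_le_mul_of_nonneg_right (show A1 ≤ θ * m by linarith)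
      (mul_nonneg (abs_nonneg d) hv)
    have b : |d| * v ≤ d ^ 2 + v ^ 2 / 4 := by nlinarith [sq_nonneg (|d| - v / 2), sq_abs d]
    linarith [mul_le_mul_of_nonneg_left b tm.le]
  have y4 : A2 * (|J| + ι) * v ≤ θ * (J ^ 2 + ι ^ 2) + θ * m * v ^ 2 / 2 := by
    have a : A2 * (|J| + ι) * v ≤ θ * (|J| + ι) ^ 2 / 2 + A2 ^ 2 / θ * v ^ 2 / 2 := by
      have : θ * (|J| + ι) ^ 2 / 2 + A2 ^ 2 / θ * v ^ 2 / 2 - A2 * (|J| + ι) * v =
          (θ * (|J| + ι) - A2 * v) ^ 2 / (2 * θ) := by field_simp; ring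
      linarith [show 0 ≤ (θ * (|J| + ι) - A2 * v) ^ 2 / (2 * θ) by positivity]
    have b : (|J| + ι) ^ 2 ≤ 2 * (J ^ 2 + ι ^ 2) := by nlinarith [sq_nonneg (|J| - ι), sq_abs J]
    linarith [mul_le_mul_of_nonneg_right (show A2 ^ 2 / θ ≤ θ * m by linarith) (sq_nonneg v),
      mul_le_mul_of_nonneg_left b hθ.le]
  have y5 : θ * m * v ^ 2 ≤ M * v ^ 2 :=
    mul_le_mul_of_nonneg_right (by nlinarith) (sq_nonneg v)
  have y6 : θ * v ^ 4 ≤ v ^ 4 := by nlinarith [pow_nonneg hv 4]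
  have y7 := mul_le_mul_of_nonneg_left p8 hθ.le
  have y8 : 0 ≤ θ * d ^ 4 := by positivity
  have y9 : 0 ≤ θ * m * d ^ 2 := by positivity
  have y10 : 0 ≤ θ * lam ^ 4 := by positivity
  unfold Gap27.xi
  linarith [mul_le_mul_of_nonneg_right (show e ≤ a0 + g + A1 * |d| + A2 * (|J| + ι) by linarith) hv]

/-- the constant of a cut -/
def Kw (T c C c1 : ℝ) : ℝ := 1200 + 228 * c1 ^ 2 + 2 * C ^ 2 / c * (800 + 3200 * T ^ 2)

theorem cutErr'_le {L M α D ε len c1 : ℝ} (hc : 0 < c) (hc1 : 0 < c1) (hL : 0 < L)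
    (hM0 : 0 ≤ M) (hM : M ≤ L ^ 2) (hα : 0 ≤ α) (hD0 : 0 ≤ D) (hD : D ^ 2 ≤ c1 * α)
    (ha : 80 * α ≤ c1 * L ^ 2) (h0 : 0 ≤ len) (hlen : len * L ≤ T ^ 2) :
    cutErr' c C L M 0 α D ε len ≤ Kw T c C c1 * (L * α ^ 2) + 29 * (M ^ 2 * D ^ 2 / L) +
      4 * C ^ 2 / c * (len * ε ^ 2) := by
  obtain ⟨y, rfl⟩ : ∃ y, α = L * y := ⟨α / L, by field_simp⟩
  have y0 : 0 ≤ y := by
    by_contra q
    linarith [mul_pos hL (neg_pos.2 (not_le.1 q))]
  have y1 : 80 * y ≤ c1 * L := le_of_mul_le_mul_left (by linarith) hL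
  have d1 : D ≤ c1 * L / 8 := by
    refine (abs_le_of_sq_le_sq' ?_ (by positivity)).2
    nlinarith [mul_le_mul_of_nonneg_left y1 (mul_pos hc1 hL).le, mul_pos hc1 hL]
  have r1 : 20 * (L * y) / L = 20 * y := by field_simp
  have e2 : M * (L * y) * y ≤ L * (L * y) ^ 2 := by
    nlinarith [mul_le_mul_of_nonneg_right hM (mul_nonneg hL.le (sq_nonneg y))]
  have e3 : 2 * (M * (L * y) * D) ≤ L * (L * y) ^ 2 + M ^ 2 * D ^ 2 / L := by
    have : L * (L * y) ^ 2 + M ^ 2 * D ^ 2 / L - 2 * (M * (L * y) * D) =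
        (L * (L * y) - M * D) ^ 2 / L := by field_simp; ring
    linarith [show 0 ≤ (L * (L * y) - M * D) ^ 2 / L by positivity]
  have e5 : (20 * y + D) ^ 2 ≤ 12 * c1 * (L * y) := by
    nlinarith [sq_nonneg (20 * y - D), mul_le_mul_of_nonneg_left y1 y0]
  have e6 : (20 * y + D) ^ 2 * (L * y) * (20 * y + D) ≤ 6 * c1 ^ 2 * (L * (L * y) ^ 2) := by
    have := mul_le_mul (mul_le_mul_of_nonneg_right e5 (mul_nonneg hL.le y0))
      (show 20 * y + D ≤ c1 * L / 2 by linarith [mul_pos hc1 hL]) (by positivity) (by positivity)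
    linarith
  have e4 : len * (ε + 40 * L * (L * y)) ^ 2 ≤
      2 * (len * ε ^ 2) + 3200 * T ^ 2 * (L * (L * y) ^ 2) := by
    have a1 : (ε + 40 * L * (L * y)) ^ 2 ≤ 2 * ε ^ 2 + 3200 * (L * (L * y)) ^ 2 := by
      nlinarith [sq_nonneg (ε - 40 * L * (L * y))]
    nlinarith [mul_le_mul_of_nonneg_left a1 h0,
      mul_le_mul_of_nonneg_right hlen (show 0 ≤ L * (L * y) ^ 2 by positivity)]
  have e7 := mul_le_mul_of_nonneg_left e4 (show 0 ≤ 2 * C ^ 2 / c by positivity)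
  have p1 : 0 ≤ L * (L * y) ^ 2 := by positivity
  have p2 : 0 ≤ M ^ 2 * D ^ 2 / L := by positivity
  unfold cutErr' Kw
  have r3 : 4 * C ^ 2 / c = 2 * (2 * C ^ 2 / c) := by ring
  rw [r1, r3]
  linarith

/-- a second bound of the mean square improves the margin -/
theorem Mar.shrink {zh zb : ℝ → ℝ} {x y x' y' L c1 δ D α v : ℝ}
    (h : Mar T zh zb x y x' y' L c1 δ D α) (hv : 0 < v)
    (h2 : 2 * ∫ s in x'..y', (zb s - zh s) ^ 2 ≤ (y' - x') * v ^ 2) :
    Mar T zh zb x y x' y' L c1 δ (min D (δ + v)) α := by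
  refine ⟨h.c_pos, h.δ_nn, lt_min h.δ_lt (by linarith), h.α_pos, h.lt, h.slope, h.hJ, ?_,
    le_trans (pow_le_pow_left₀ (le_min (h.δ_nn.trans h.δ_lt.le) (by linarith [h.δ_nn]))
      (min_le_left _ _) 2) h.hD, h.hα⟩
  rcases le_total D (δ + v) with q | q
  · rw [min_eq_left q]; exact h.hd
  · rw [min_eq_right q, add_sub_cancel_left]; exact h2

/-- the zone `[x, y]` of the lower margins: mass `M`, floor `M / Km`, size `j0` of `J` -/
structure Mw (T : ℝ) (zh zb H e k m : ℝ → ℝ) (x y γ M Km j0 c1 C1 δ : ℝ) : Prop where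
  lo : ∀ t t', x ≤ t → t ≤ t' → t' ≤ y → c1 * (t' - t) - δ ≤ zh t' - zh t
  crude : ∀ t, x ≤ t → t ≤ y → |zb t - zh t| + δ ≤ 2 * C1 * γ
  hH : ∀ t, x < t → t < y → H t ^ 2 ≤ M * (H t * (zb t - zh t))
  ab : ∀ t, x < t → t < y → Ab (e t) 0 (k t) M
  fl : ∀ t, x < t → t < y → M ≤ Km * m t
  hJ : ∀ t, x < t → t < y → |Jf T zh zb t| ≤ j0

/-- numbers of the nest -/
structure Nw (T γ g L M Km j0 c1 C1 δ μ : ℝ) : Prop where
  γ0 : 0 ≤ γ
  γL : γ ≤ L
  g0 : 0 < g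
  L0 : 0 < L
  M0 : 0 < M
  ML : M ≤ L ^ 2
  K0 : 0 < Km
  c0 : 0 < c1
  C0 : 0 < C1
  δ0 : 0 < δ
  μ0 : 0 < μ
  hμ : δ ^ 2 * T ^ 3 + δ ^ 4 * T + δ / C1 ≤ μ
  small : 6400 * kap c1 (64 * C1 + 3) ^ 2 * ((γ + g + L) * j0 ^ 2 + μ) ≤ c1 ^ 2 * L ^ 4 * g

/-- the contraction factor of one cut -/
def rhoW (T c C θ K2 Km c1 C1 L g : ℝ) : ℝ :=
  2 * θ * (3 * (64 * C1 + 3) ^ 2 + 1 + 2 * T ^ 2 + 2 * c * K2) +
    (Kw T c C c1 * kap c1 (64 * C1 + 3) ^ 2 + 116 * Km * (K2 * c + 1)) * (L / g)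

/-- the sources of one cut -/
def srcW (T c C θ e2 Ff Ω Km L g μ ε : ℝ) : ℝ :=
  2 * θ * (Ff + 2 * e2) + 2 * Ω + (4 * θ + 4 * C ^ 2 / c) * (T * ε ^ 2) + 58 * μ +
    116 * Km * (L / g) * e2

variable {pb ph : P} {H r1 r2 ω β m f : ℝ → ℝ}
  {θ a s b K2 e2 F0 Ff Ω γ g L M Km j0 c1 C1 δ μ E0 a' ε Gm K3 θ1 P0 : ℝ} {Q : ℝ → Prop}

set_option maxHeartbeats 1600000 in
/-- **one lower cut in mass form** -/
theorem Fr.lowW (F : Fr T c C ok z Γ G) (hb : ok pb) (hh : ok ph)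
    (Z : Zn T c θ (z ph) (z pb) (fun t => Γ pb t - Γ ph t) H r1 r2 ω β m f a s K2 e2 Ff Ω)
    (e0 : 0 ≤ e2) (n : Nw T γ g L M Km j0 c1 C1 δ μ)
    (lo : Mw T (z ph) (z pb) H (fun t => |r1 t| + β t)
      (fun t => Gap27.xi θ (m t) (f t) (∫ u in (0 : ℝ)..T, |Jf T (z ph) (z pb) u|)
        (z pb t - z ph t) (Jf T (z ph) (z pb) t)) m a a' γ M Km j0 c1 C1 δ)
    (hs : s ≤ b) (hT : b ≤ T) (ha' : a' ≤ s)
    (up : ∀ s t, a ≤ s → s ≤ t → t ≤ b → z ph t - z ph s ≤ C1 * (t - s) + δ)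
    (h1 : ∀ t, t < s → z pb t ≤ z ph b + δ)
    (hε : ∫ t in (0 : ℝ)..a', |Jf T (z ph) (z pb) t| ≤ ε)
    (ext : ∀ A E, a ≤ A → A ≤ a' → (∫ t in A..T, Jf T (z ph) (z pb) t ^ 2) +
      (∫ t in (0 : ℝ)..A, |Jf T (z ph) (z pb) t|) ^ 2 ≤ E → ∃ Y, 0 ≤ Y ∧ Q Y ∧
      ExtA T (fun t => z pb t - z ph t) (fun t => Γ pb t - Γ ph t) H r1 ω β
        (fun t => Gap27.xi θ (m t) (f t) (∫ u in (0 : ℝ)..T, |Jf T (z ph) (z pb) u|)
          (z pb t - z ph t) (Jf T (z ph) (z pb) t)) A s T (θ1 * E + Y / 4 + P0) Y)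
    {x : ℝ} (hx : a ≤ x) (hx' : x + (γ + g + L) ≤ a') :
    ∃ Y, 0 ≤ Y ∧ Q Y ∧ EL T c (z ph) (z pb) H (x + (γ + g + L)) s + Y / 4 ≤
      srcW T c C θ e2 Ff Ω Km L g μ ε + θ1 * ε ^ 2 + P0 +
        (rhoW T c C θ K2 Km c1 C1 L g + θ1) * (2 / c * EL T c (z ph) (z pb) H x s + μ) := by
  obtain ⟨γ0, γL, g0, L0, M0, ML, K0, c0, C0, δ0, μ0, hμ, small⟩ := n
  have hc := F.c_pos
  have a0 := Z.a0
  have T0 : 0 ≤ T := by linarith
  have lz : LB T fun t => z pb t - z ph t := (F.lbz hb).sub (F.lbz hh)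
  have lJ := F.lbJ hh hb (right_mem_Icc.mpr T0)
  have pH : 0 ≤ ∫ t in x..s, H t * (z pb t - z ph t) := by
    simpa using int_mono (LB.const 0) (Z.R.lH.mul lz) (by linarith) (show x ≤ s by linarith)
      (by linarith) fun t t0 t1 => Z.R.H_nn t (by linarith) (by linarith)
  have pJ : 0 ≤ ∫ t in x..T, Jf T (z ph) (z pb) t ^ 2 :=
    integral_nonneg (by linarith) fun _ _ => sq_nonneg _
  have E1 : 0 ≤ EL T c (z ph) (z pb) H x s := by unfold EL; positivity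
  have eJ : ∫ t in x..T, Jf T (z ph) (z pb) t ^ 2 ≤ 2 / c * EL T c (z ph) (z pb) H x s := by
    rw [div_mul_eq_mul_div, le_div_iff₀ hc]; unfold EL; linarith
  have eH : ∫ t in x..s, H t * (z pb t - z ph t) ≤
      c * (2 / c * EL T c (z ph) (z pb) H x s + μ) := by
    rw [mul_add, ← mul_assoc, mul_div_cancel₀ _ hc.ne']
    unfold EL
    linarith [mul_pos hc μ0, mul_nonneg hc.le pJ]
  set Bn := 2 / c * EL T c (z ph) (z pb) H x s + μ with hBn
  have Bp : 0 < Bn := by positivity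
  have sJ : ∀ p q, x ≤ p → p ≤ q → q ≤ T → ∫ t in p..q, Jf T (z ph) (z pb) t ^ 2 ≤
      ∫ t in x..T, Jf T (z ph) (z pb) t ^ 2 := fun p q u1 u2 u3 =>
    int_sub_le lJ.sq (by linarith) u1 u2 u3 le_rfl fun _ _ _ => sq_nonneg _
  have sH : ∀ p q, x ≤ p → p ≤ q → q ≤ s → ∫ t in p..q, H t * (z pb t - z ph t) ≤ c * Bn :=
    fun p q u1 u2 u3 => (int_sub_le (Z.R.lH.mul lz) (a := x) (b := s) (by linarith) u1 u2 u3
      (by linarith) fun t t0 t1 => Z.R.H_nn t (by linarith) (by linarith)).trans eH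
  have mesh : ∀ y, 0 ≤ y → y ≤ T → δ ^ 2 * y ^ 3 + δ ^ 4 * y ≤ μ := fun y y0 y1 => by
    have a : δ ^ 4 * y ≤ δ ^ 4 * T := by gcongr
    have b : δ ^ 2 * y ^ 3 ≤ δ ^ 2 * T ^ 3 := by gcongr
    linarith [show 0 ≤ δ / C1 by positivity]
  have up' : ∀ s t, x ≤ s → s ≤ t → t ≤ b → z ph t - z ph s ≤ C1 * (t - s) + δ :=
    fun s t u1 u2 u3 => up s t (by linarith) u2 u3
  have out : ∀ p, 0 ≤ p → p ≤ a' → ∫ t in (0 : ℝ)..p, |Jf T (z ph) (z pb) t| ≤ ε :=
    fun p p0 p1 => (int_sub_le lJ.abs le_rfl le_rfl p0 p1 (by linarith)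
      fun _ _ _ => abs_nonneg _).trans hε
  have sr := Z.src lz (A := x + γ) (B := s) (len := T) (ε := ε) (Bn := Bn)
    (C5 := 64 * C1 + 3) (by linarith) (by linarith) le_rfl (by linarith)
    ((F.four_loc hb hh (a := x) (by linarith) γ0 le_rfl (by linarith) hs hT C0 δ0 up'
      (lo.crude _ (by linarith) (by linarith)) h1).trans
      (mul_le_mul_of_nonneg_left (by linarith) (sq_nonneg _)))
    ((sJ _ _ (by linarith) (by linarith) (by linarith)).trans (by linarith))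
    (io_sq lJ (x := x) (y := T) (by linarith) (by linarith) le_rfl (by linarith)
      (by simpa using out x (by linarith) (by linarith)) (by linarith))
    (sH _ _ (by linarith) (by linarith) le_rfl)
  obtain ⟨Y, Y0, hQ, H', r1', r2', ω', β', ξ', R, eq, a3, a4, a5⟩ :=
    ext (x + γ) (Bn + ε ^ 2) (by linarith) (by linarith) (add_le_add
      ((sJ _ _ (by linarith) (by linarith) le_rfl).trans (by linarith))
      (pow_le_pow_left₀ (integral_nonneg (by linarith) fun _ _ => abs_nonneg _)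
        (out _ (by linarith) (by linarith)) 2))
  refine ⟨Y, Y0, hQ, ?_⟩
  obtain ⟨B, hB⟩ : ∃ B, B = (∫ t in x..x + (γ + g + L), Jf T (z ph) (z pb) t ^ 2) + μ := ⟨_, rfl⟩
  have pB : 0 ≤ ∫ t in x..x + (γ + g + L), Jf T (z ph) (z pb) t ^ 2 :=
    integral_nonneg (by linarith) fun _ _ => sq_nonneg _
  have B0 : 0 < B := by linarith
  have B1 : B ≤ Bn := by linarith [sJ x (x + (γ + g + L)) le_rfl (by linarith) (by linarith)]
  have B2 : B ≤ (γ + g + L) * j0 ^ 2 + μ := by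
    have := int_le_const lJ.sq (K := j0 ^ 2) (a := x) (b := x + (γ + g + L)) (by linarith)
      (by linarith) (by linarith) fun t t0 t1 => by
        have := abs_le.1 (lo.hJ t (by linarith) (by linarith))
        exact sq_le_sq' this.1 this.2
    rw [add_sub_cancel_left] at this
    linarith
  have nm : Nm L g M 0 B c1 (64 * C1 + 3) δ := ⟨L0, g0, M0, ML, le_rfl, B0, c0, by positivity, δ0.le,
    by linarith [mesh g g0.le (by linarith), show 0 ≤ δ ^ 2 * g ^ 3 by positivity],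
    (mul_le_mul_of_nonneg_left B2 (by positivity)).trans small⟩
  have mg := F.mg hb hh (H := fun _ => 0) (e := fun _ => 0) (a := x) (x := x + γ) (x' := x + γ)
    (y' := x + (γ + g + L) - L) (y := x + (γ + g + L)) (b := x + (γ + g + L)) (M := M) (η := 0)
    (B := B) (by linarith) γ0 le_rfl g0.le (by linarith) (by linarith) (by linarith) C0
    (fun t t' u1 u2 u3 => lo.lo t t' (by linarith) u2 (by linarith))
    (fun s t u1 u2 u3 => up' s t u1 u2 (by linarith))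
    (fun t t0 t1 => lo.crude t (by linarith) (by linarith))
    (by linarith [mesh (x + (γ + g + L) - x) (by linarith) (by linarith)])
    (fun _ _ _ => by simp) fun _ _ _ => le_rfl
  have ma := mg.mar lz (by linarith) (by linarith) nm
  obtain ⟨U, hU⟩ : ∃ U, U = Km * ((K2 * c + 1) * Bn + e2) := ⟨_, rfl⟩
  have K20 := Z.K0
  have U0 : 0 < U := by rw [hU]; positivity
  have hv : √(2 * U / (M * g)) ^ 2 = 2 * U / (M * g) := Real.sq_sqrt (by positivity)
  have ma' := ma.shrink (v := √(2 * U / (M * g))) (Real.sqrt_pos.2 (by positivity)) (by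
    have m1 := int_mono ((LB.const M).mul lz.sq) ((LB.const Km).mul (Z.lm.mul lz.sq))
      (a := x + γ) (b := x + (γ + g + L) - L) (by linarith) (by linarith) (by linarith)
      fun t t0 t1 => by
        linarith [mul_le_mul_of_nonneg_right (lo.fl t (by linarith) (by linarith))
          (sq_nonneg (z pb t - z ph t))]
    rw [intervalIntegral.integral_const_mul, intervalIntegral.integral_const_mul] at m1
    have m2 := (Z.mass (x + γ) (x + (γ + g + L) - L) (by linarith) (by linarith) (by linarith)).trans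
      (add_le_add_left (mul_le_mul_of_nonneg_left
        (sH _ _ (by linarith) (by linarith) (by linarith)) K20) e2)
    have m3 := mul_le_mul_of_nonneg_left m2 K0.le
    rw [hv, show x + (γ + g + L) - L - (x + γ) = g by ring,
      show g * (2 * U / (M * g)) = 2 * U / M by field_simp, le_div_iff₀ M0, hU]
    linarith [mul_pos K0 Bp])
  generalize √(2 * U / (M * g)) = v at ma' hv
  have hα : L * (kap c1 (64 * C1 + 3) * √(B / g)) ^ 2 ≤ kap c1 (64 * C1 + 3) ^ 2 * (L / g) * Bn := by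
    rw [mul_pow, Real.sq_sqrt (by positivity), show L * (kap c1 (64 * C1 + 3) ^ 2 * (B / g)) =
      kap c1 (64 * C1 + 3) ^ 2 * (L / g) * B by ring]
    exact mul_le_mul_of_nonneg_left B1 (by positivity)
  generalize kap c1 (64 * C1 + 3) * √(B / g) = α at ma' hα
  obtain ⟨D, hD, ma'⟩ : ∃ D, D ≤ δ + |v| ∧
      Mar T (z ph) (z pb) (x + γ) (x + (γ + g + L)) (x + γ) (x + (γ + g + L) - L) L c1 δ D α :=
    ⟨_, (min_le_right _ _).trans (by linarith [le_abs_self v]), ma'⟩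
  have D0 := ma'.δ_nn.trans ma'.δ_lt.le
  have cut := F.lowK hb hh (ε := ε) (by linarith) (by linarith) L0 M0 ma' Z.R.lξ
    (fun t t0 t1 => Z.R.ξ_nn t (by linarith) (by linarith)) R
    (fun t t0 t1 => by rw [(eq t (by linarith)).1]; exact lo.hH t (by linarith) (by linarith))
    (fun t t0 t1 => by
      rw [(eq t (by linarith)).2.1, (eq t (by linarith)).2.2]
      exact lo.ab t (by linarith) (by linarith)) (out _ (by linarith) hx')
  have ce := cutErr'_le (T := T) (C := C) (ε := ε) (len := T - (x + γ)) hc c0 L0 M0.le ML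
    ma'.α_pos.le D0 ma'.hD ma'.hα (by linarith)
    (by rw [pow_two]; exact mul_le_mul (by linarith) (by linarith) L0.le T0)
  have cd : M ^ 2 * D ^ 2 / L ≤ 2 * μ + 4 * (L / g) * U := by
    have d1 : D ^ 2 ≤ 2 * δ ^ 2 + 2 * v ^ 2 := by
      nlinarith [pow_le_pow_left₀ D0 hD 2, sq_nonneg (δ - |v|), sq_abs v]
    have d2 : M ^ 2 * δ ^ 2 / L ≤ δ ^ 2 * L ^ 3 := by
      rw [div_le_iff₀ L0]
      nlinarith [mul_le_mul_of_nonneg_right (pow_le_pow_left₀ M0.le ML 2) (sq_nonneg δ)]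
    have d3 : M ^ 2 * v ^ 2 / L ≤ 2 * (L / g) * U := by
      rw [hv, show M ^ 2 * (2 * U / (M * g)) / L = M * (2 * U / (g * L)) by field_simp,
        show 2 * (L / g) * U = L ^ 2 * (2 * U / (g * L)) by field_simp]
      exact mul_le_mul_of_nonneg_right ML (by positivity)
    have d4 := div_le_div_of_nonneg_right (mul_le_mul_of_nonneg_left d1 (sq_nonneg M)) L0.le
    rw [show M ^ 2 * (2 * δ ^ 2 + 2 * v ^ 2) / L =
      2 * (M ^ 2 * δ ^ 2 / L) + 2 * (M ^ 2 * v ^ 2 / L) by ring] at d4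
    linarith [mesh L L0.le (by linarith), show 0 ≤ δ ^ 4 * L by positivity]
  have ck := mul_le_mul_of_nonneg_left hα (show 0 ≤ Kw T c C c1 by unfold Kw; positivity)
  have q := mul_le_mul_of_nonneg_left (mul_le_mul_of_nonneg_right
    (show T - (x + γ) ≤ T by linarith) (sq_nonneg ε)) (show 0 ≤ 4 * C ^ 2 / c by positivity)
  have mA : x + γ ∈ Icc 0 T := ⟨by linarith, by linarith⟩
  have mA' : x + (γ + g + L) ∈ Icc 0 T := ⟨by linarith, by linarith⟩
  have s1 := int_split (R.lH.mul lz) mA mA' ⟨T0, le_rfl⟩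
  have s2 := int_split (Z.R.lH.mul lz) mA mA' (c := s) ⟨by linarith, by linarith⟩
  have s3 : ∫ t in x + γ..x + (γ + g + L), H' t * (z pb t - z ph t) =
      ∫ t in x + γ..x + (γ + g + L), H t * (z pb t - z ph t) :=
    intervalIntegral.integral_congr_Ioo_of_le (by linarith) fun t ht => by
      simp only [(eq t (by linarith [ht.2])).1]
  have s4 := int_sub_le Z.R.lξ (a := x + γ) (a' := x + γ) (b' := x + (γ + g + L)) (b := s)
    (by linarith) le_rfl (by linarith) (by linarith) (by linarith)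
    fun t t0 t1 => Z.R.ξ_nn t (by linarith) t1
  have s5 : 0 ≤ (∫ t in x + γ..s, ω t ^ 2) / c :=
    div_nonneg (integral_nonneg (by linarith) fun _ _ => sq_nonneg _) hc.le
  have t3 := div_le_div_of_nonneg_right a3 hc.le
  simp only at a5
  rw [hU] at cd
  unfold srcW rhoW EL
  linarith

theorem Mw.sub {zh zb H e k m : ℝ → ℝ} {x y x' : ℝ}
    (h : Mw T zh zb H e k m x y γ M Km j0 c1 C1 δ) (hx : x ≤ x') :
    Mw T zh zb H e k m x' y γ M Km j0 c1 C1 δ :=
  ⟨fun t t' u v w => h.lo t t' (hx.trans u) v w, fun t u v => h.crude t (hx.trans u) v,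
    fun t u v => h.hH t (hx.trans_lt u) v, fun t u v => h.ab t (hx.trans_lt u) v,
    fun t u v => h.fl t (hx.trans_lt u) v, fun t u v => h.hJ t (hx.trans_lt u) v⟩

/-- **`K + 1` nested lower cuts in mass form** -/
theorem Fr.nestW (F : Fr T c C ok z Γ G) (hb : ok pb) (hh : ok ph)
    (Z : Zn T c θ (z ph) (z pb) (fun t => Γ pb t - Γ ph t) H r1 r2 ω β m f a s K2 e2 F0 Ω)
    (e0 : 0 ≤ e2) (G0 : 0 ≤ Gm) (K30 : 0 ≤ K3)
    (hF : ∀ x, a ≤ x → x + Gm ≤ s → ∫ t in x + Gm..s, f t ≤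
      Ff + K3 * ∫ t in x..s, H t * (z pb t - z ph t))
    (n : Nw T γ g L M Km j0 c1 C1 δ μ)
    (lo : Mw T (z ph) (z pb) H (fun t => |r1 t| + β t)
      (fun t => Gap27.xi θ (m t) (f t) (∫ u in (0 : ℝ)..T, |Jf T (z ph) (z pb) u|)
        (z pb t - z ph t) (Jf T (z ph) (z pb) t)) m a a' γ M Km j0 c1 C1 δ)
    (hs : s ≤ b) (hT : b ≤ T) (ha' : a' ≤ s)
    (up : ∀ s t, a ≤ s → s ≤ t → t ≤ b → z ph t - z ph s ≤ C1 * (t - s) + δ)
    (h1 : ∀ t, t < s → z pb t ≤ z ph b + δ)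
    (hε : ∫ t in (0 : ℝ)..a', |Jf T (z ph) (z pb) t| ≤ ε)
    (ext : ∀ A E, a ≤ A → A ≤ a' → (∫ t in A..T, Jf T (z ph) (z pb) t ^ 2) +
      (∫ t in (0 : ℝ)..A, |Jf T (z ph) (z pb) t|) ^ 2 ≤ E → ∃ Y, 0 ≤ Y ∧ Q Y ∧
      ExtA T (fun t => z pb t - z ph t) (fun t => Γ pb t - Γ ph t) H r1 ω β
        (fun t => Gap27.xi θ (m t) (f t) (∫ u in (0 : ℝ)..T, |Jf T (z ph) (z pb) u|)
          (z pb t - z ph t) (Jf T (z ph) (z pb) t)) A s T (θ1 * E + Y / 4 + P0) Y)
    {K : ℕ} (hK : a + (K + 1) * (Gm + (γ + g + L)) ≤ a') (hE : EL T c (z ph) (z pb) H a s ≤ E0)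
    {r X : ℝ} (hr : (rhoW T c C θ K2 Km c1 C1 L g + θ1) * (2 / c) + 4 * θ * K3 ≤ r)
    (hθ1 : 0 ≤ θ1) (hr2 : r ≤ 1 / 2)
    (hX : srcW T c C θ e2 Ff Ω Km L g μ ε + θ1 * ε ^ 2 + P0 +
      (rhoW T c C θ K2 Km c1 C1 L g + θ1) * μ ≤ X) (X0 : 0 ≤ X) :
    ∃ Y, 0 ≤ Y ∧ Q Y ∧ EL T c (z ph) (z pb) H a' s + Y / 4 ≤ 2 * X + r ^ (K + 1) * E0 := by
  have γ0 := n.γ0
  have W0 : 0 ≤ γ + g + L := by linarith [n.g0, n.L0]
  have hc := F.c_pos
  have a0 := Z.a0
  have θ0 := Z.θ0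
  have hρ : 0 ≤ rhoW T c C θ K2 Km c1 C1 L g + θ1 := by
    have := Z.K0
    have := n.K0
    have := n.L0
    have := n.g0
    unfold rhoW Kw; positivity
  have hr0 : 0 ≤ r := le_trans (by positivity) hr
  have K0 : 0 ≤ (K : ℝ) * (Gm + (γ + g + L)) := by positivity
  have T0 : 0 ≤ T := by linarith
  have lz : LB T fun t => z pb t - z ph t := (F.lbz hb).sub (F.lbz hh)
  have lJ := F.lbJ hh hb (right_mem_Icc.mpr T0)
  have mono : ∀ p p', a ≤ p → p ≤ p' → p' ≤ s →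
      EL T c (z ph) (z pb) H p' s ≤ EL T c (z ph) (z pb) H p s := fun p p' u1 u2 u3 => by
    have m1 := int_sub_le lJ.sq (by linarith) u2 (by linarith) le_rfl le_rfl
      fun _ _ _ => sq_nonneg _
    have m2 := int_sub_le (Z.R.lH.mul lz) (by linarith) u2 u3 le_rfl (by linarith)
      fun t t0 t1 => Z.R.H_nn t (by linarith) (by linarith)
    have := mul_le_mul_of_nonneg_left m1 (show 0 ≤ c / 2 by positivity)
    unfold EL
    linarith
  have step : ∀ k : ℕ, k ≤ K → ∃ Y, 0 ≤ Y ∧ Q Y ∧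
      EL T c (z ph) (z pb) H (a + (k + 1) * (Gm + (γ + g + L))) s + Y / 4 ≤
        X + r * EL T c (z ph) (z pb) H (a + k * (Gm + (γ + g + L))) s := fun k hk => by
    have k0 : 0 ≤ (k : ℝ) * (Gm + (γ + g + L)) := by positivity
    have k1 : (k : ℝ) * (Gm + (γ + g + L)) ≤ K * (Gm + (γ + g + L)) :=
      mul_le_mul_of_nonneg_right (by exact_mod_cast hk) (by linarith)
    obtain ⟨x, hx⟩ : ∃ x, x = a + k * (Gm + (γ + g + L)) := ⟨_, rfl⟩
    rw [show a + (k + 1) * (Gm + (γ + g + L)) = x + Gm + (γ + g + L) by rw [hx]; ring, ← hx]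
    have x0 : a ≤ x := by linarith
    have x1 : x + Gm + (γ + g + L) ≤ a' := by linarith
    have m1 := mono x (x + Gm) x0 (by linarith) (by linarith [n.g0, n.L0])
    obtain ⟨Y, Y0, hQ, h⟩ := F.lowW hb hh (Z.sub (x := x + Gm) (y := s) (by linarith) le_rfl
      (hF x x0 (by linarith))) e0 n (lo.sub (by linarith)) hs hT ha'
      (fun s t u1 u2 u3 => up s t (by linarith) u2 u3) h1 hε
      (fun A E u1 u2 u3 => ext A E (by linarith) u2 u3) le_rfl x1
    refine ⟨Y, Y0, hQ, ?_⟩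
    have pJ : 0 ≤ c / 2 * ∫ t in x..T, Jf T (z ph) (z pb) t ^ 2 :=
      mul_nonneg (by positivity) (integral_nonneg (by linarith) fun _ _ => sq_nonneg _)
    have p : 0 ≤ EL T c (z ph) (z pb) H x s := by
      refine le_trans ?_ (mono _ s x0 (by linarith) le_rfl)
      have : 0 ≤ ∫ t in s..T, Jf T (z ph) (z pb) t ^ 2 :=
        integral_nonneg (by linarith) fun _ _ => sq_nonneg _
      unfold EL
      rw [intervalIntegral.integral_same]
      positivity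
    have q := mul_le_mul_of_nonneg_right hr p
    have q1 := mul_le_mul_of_nonneg_left m1 (mul_nonneg hρ (show 0 ≤ 2 / c by positivity))
    have q2 := mul_le_mul_of_nonneg_left (show ∫ t in x..s, H t * (z pb t - z ph t) ≤
      2 * EL T c (z ph) (z pb) H x s by unfold EL; linarith) (mul_nonneg θ0 K30)
    unfold srcW at h hX
    linarith
  have h := geo_rec (E := fun k => EL T c (z ph) (z pb) H (a + k * (Gm + (γ + g + L))) s) hr0 hr2 X0
    (by simpa using hE) K fun k hk => by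
      obtain ⟨Y, Y0, -, h⟩ := step k hk.le
      simp only [Nat.cast_add, Nat.cast_one]
      linarith
  obtain ⟨Y, Y0, hQ, h2⟩ := step K le_rfl
  refine ⟨Y, Y0, hQ, ?_⟩
  have h3 := mul_le_mul_of_nonneg_left h hr0
  have h4 := mono _ a' (by linarith) hK (by linarith)
  rw [pow_succ]
  nlinarith

end Crest.Agent.T156.Cut8

end
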