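import Crest.Agent.T156.CutN_93

/-!
# Row 156, text (L) (helper93): nested cuts, part of the source absorbed in the energy
-/

set_option autoImplicit false

noncomputable section

namespace Crest.Agent.T156.Cut8

open MeasureTheory Set intervalIntegral Filter Topology

variable {T : ℝ}

theorem Zn.sub {c θ : ℝ} {zh zb ρ H r1 r2 ω β m f : ℝ → ℝ} {a s K2 e2 Ff Ω x y F1 : ℝ}
    (Z : Zn T c θ zh zb ρ H r1 r2 ω β m f a s K2 e2 Ff Ω) (hx : a ≤ x) (hy : y ≤ s)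
    (hF : ∫ t in x..y, f t ≤ F1) : Zn T c θ zh zb ρ H r1 r2 ω β m f x y K2 e2 F1 Ω :=
  ⟨Z.R.sub hx hy, Z.a0.trans hx, hy.trans Z.sT, Z.θ0, Z.K0, Z.lm, Z.lf,
    fun t u v => Z.f0 t (by linarith) (by linarith), hF,
    fun p q u v w => Z.mass p q (hx.trans u) v (w.trans hy),
    fun p q u v w => Z.om p q (hx.trans u) v (w.trans hy)⟩

theorem Mz.sub {zh zb H e : ℝ → ℝ} {x y γ M η c1 C1 δ x' y' : ℝ}
    (h : Mz zh zb H e x y γ M η c1 C1 δ) (hx : x ≤ x') (hy : y' ≤ y) :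
    Mz zh zb H e x' y' γ M η c1 C1 δ :=
  ⟨fun t t' u v w => h.lo t t' (hx.trans u) v (w.trans hy),
    fun t u v => h.crude t (hx.trans u) (v.trans hy),
    fun t u v => h.hH t (hx.trans u) (v.trans_le hy),
    fun t u v => h.hη t (hx.trans u) (v.trans_le hy)⟩

theorem srcN_add (c C θ e2 Ff Ω M η c1 L len ε I : ℝ) :
    srcN c C θ e2 (Ff + I) Ω M η c1 L len ε = srcN c C θ e2 Ff Ω M η c1 L len ε + θ * I := by
  unfold srcN; ring

variable {P : Type} {c C : ℝ} {ok : P → Prop} {z Γ G : P → ℝ → ℝ} {pb ph : P}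
  {H r1 r2 ω β m f : ℝ → ℝ}
  {θ a b s K2 e2 F0 Ff Ω γ g L M η c1 C1 δ μ E0 a' b' len ε Gm K3 θ1 P0 : ℝ} {Q : ℝ → Prop}

/-- **`K` nested two-sided cuts**, `∫ f` controlled by the energy on a `Gm`-neighbourhood -/
theorem Fr.nest2' (F : Fr T c C ok z Γ G) (hb : ok pb) (hh : ok ph)
    (Z : Zn T c θ (z ph) (z pb) (fun t => Γ pb t - Γ ph t) H r1 r2 ω β m f a b K2 e2 F0 Ω)
    (G0 : 0 ≤ Gm) (K30 : 0 ≤ K3)
    (hF : ∀ x y, a ≤ x → x + Gm ≤ y - Gm → y ≤ b → ∫ t in x + Gm..y - Gm, f t ≤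
      Ff + K3 * ∫ t in x..y, H t * (z pb t - z ph t))
    (n : Nn T c γ g L M η c1 C1 δ μ E0)
    (lo : Mz (z ph) (z pb) H (fun t => |r1 t| + β t) a a' γ M η c1 C1 δ)
    (hi : Mz (z ph) (z pb) H (fun t => |r1 t| + β t) b' b γ M η c1 C1 δ)
    (up : ∀ s t, a ≤ s → s ≤ t → t ≤ b → z ph t - z ph s ≤ C1 * (t - s) + δ)
    (crude : ∀ t, a ≤ t → t ≤ b → |z pb t - z ph t| + δ ≤ 2 * C1 * γ) (hab : a' ≤ b')
    (hl : b - a ≤ len) (hε : (∫ t in (0 : ℝ)..a', |Jf T (z ph) (z pb) t|) +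
      (∫ t in b'..T, |Jf T (z ph) (z pb) t|) ≤ ε) {K : ℕ}
    (hK : a + K * (Gm + (γ + g + L)) ≤ a') (hK' : b' ≤ b - K * (Gm + (γ + g + L)))
    (hE : Eg T c (z ph) (z pb) H a b ≤ E0) {r X : ℝ}
    (hr : rhoN T c C θ K2 c1 C1 L g len * (2 / c) + 2 * θ * K3 ≤ r)
    (hρ : 0 ≤ rhoN T c C θ K2 c1 C1 L g len) (hr2 : r ≤ 1 / 2)
    (hX : srcN c C θ e2 Ff Ω M η c1 L len ε + rhoN T c C θ K2 c1 C1 L g len * μ ≤ X)
    (X0 : 0 ≤ X) : Eg T c (z ph) (z pb) H a' b' ≤ 2 * X + r ^ K * E0 := by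
  have W0 : 0 ≤ γ + g + L := by linarith [n.γ0, n.g0, n.L0]
  have hc := F.c_pos
  have a0 := Z.a0
  have bT := Z.sT
  have θ0 := Z.θ0
  have hr0 : 0 ≤ r := le_trans (by positivity) hr
  have K0 : 0 ≤ (K : ℝ) * (Gm + (γ + g + L)) := by positivity
  have T0 : 0 ≤ T := by linarith
  have lz : LB T fun t => z pb t - z ph t := (F.lbz hb).sub (F.lbz hh)
  have lJ := F.lbJ hh hb (right_mem_Icc.mpr T0)
  have mono : ∀ p p' q' q, a ≤ p → p ≤ p' → p' ≤ q' → q' ≤ q → q ≤ b →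
      Eg T c (z ph) (z pb) H p' q' ≤ Eg T c (z ph) (z pb) H p q := fun p p' q' q u1 u2 u3 u4 u5 => by
    have m1 := int_sub_le lJ.sq (by linarith) u2 u3 u4 (by linarith) fun _ _ _ => sq_nonneg _
    have m2 := int_sub_le (Z.R.lH.mul lz) (by linarith) u2 u3 u4 (by linarith)
      fun t t0 t1 => Z.R.H_nn t (by linarith) (by linarith)
    have := mul_le_mul_of_nonneg_left m1 (show 0 ≤ c / 2 by positivity)
    unfold Eg
    linarith
  refine (mono _ _ _ _ (by linarith) hK hab hK' (by linarith)).trans (geo_rec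
    (E := fun k => Eg T c (z ph) (z pb) H (a + k * (Gm + (γ + g + L)))
      (b - k * (Gm + (γ + g + L)))) hr0 hr2 X0 (by simpa using hE) K fun k hk => ?_)
  have k0 : 0 ≤ (k : ℝ) * (Gm + (γ + g + L)) := by positivity
  have k1 : ((k : ℝ) + 1) * (Gm + (γ + g + L)) ≤ K * (Gm + (γ + g + L)) :=
    mul_le_mul_of_nonneg_right (by exact_mod_cast hk) (by linarith)
  simp only [Nat.cast_add, Nat.cast_one]
  obtain ⟨x, hx⟩ : ∃ x, x = a + k * (Gm + (γ + g + L)) := ⟨_, rfl⟩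
  obtain ⟨y, hy⟩ : ∃ y, y = b - k * (Gm + (γ + g + L)) := ⟨_, rfl⟩
  rw [show a + (k + 1) * (Gm + (γ + g + L)) = x + Gm + (γ + g + L) by rw [hx]; ring,
    show b - (k + 1) * (Gm + (γ + g + L)) = y - Gm - (γ + g + L) by rw [hy]; ring, ← hx, ← hy]
  have x0 : a ≤ x := by linarith
  have x1 : x + Gm + (γ + g + L) ≤ a' := by linarith
  have y0 : y ≤ b := by linarith
  have y1 : b' ≤ y - Gm - (γ + g + L) := by linarith
  have m1 := mono x (x + Gm) (y - Gm) y x0 (by linarith) (by linarith) (by linarith) y0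
  have s := F.twoE hb hh (Z.sub (x := x + Gm) (y := y - Gm) (by linarith) (by linarith)
    (hF x y x0 (by linarith) y0)) n (lo.sub (by linarith) le_rfl) (hi.sub le_rfl (by linarith))
    (fun s t u1 u2 u3 => up s t (by linarith) u2 (by linarith))
    (fun t u1 u2 => crude t (by linarith) (by linarith)) hab (len := len) (by linarith) hε
    le_rfl x1 y1 le_rfl (m1.trans ((mono _ _ _ _ le_rfl x0 (by linarith) y0 le_rfl).trans hE))
  rw [srcN_add] at s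
  have p : 0 ≤ Eg T c (z ph) (z pb) H x y := by
    have := mono x a' a' y x0 (by linarith) le_rfl (by linarith) y0
    simpa [Eg] using this
  have q := mul_le_mul_of_nonneg_right hr p
  have q1 := mul_le_mul_of_nonneg_left m1 (mul_nonneg hρ (show 0 ≤ 2 / c by positivity))
  have q2 := mul_le_mul_of_nonneg_left (F.H_le (pb := pb) (ph := ph) (H := H)
    (show x ≤ y by linarith)) (mul_nonneg θ0 K30)
  linarith

/-- **`K + 1` nested lower cuts**, `∫ f` controlled by the energy on a `Gm`-neighbourhood -/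
theorem Fr.nest' (F : Fr T c C ok z Γ G) (hb : ok pb) (hh : ok ph)
    (Z : Zn T c θ (z ph) (z pb) (fun t => Γ pb t - Γ ph t) H r1 r2 ω β m f a s K2 e2 F0 Ω)
    (G0 : 0 ≤ Gm) (K30 : 0 ≤ K3)
    (hF : ∀ x, a ≤ x → x + Gm ≤ s → ∫ t in x + Gm..s, f t ≤
      Ff + K3 * ∫ t in x..s, H t * (z pb t - z ph t))
    (n : Nn T c γ g L M η c1 C1 δ μ E0)
    (lo : Mz (z ph) (z pb) H (fun t => |r1 t| + β t) a a' γ M η c1 C1 δ)
    (hs : s ≤ b) (hT : b ≤ T) (ha' : a' + γ ≤ s)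
    (up : ∀ s t, a ≤ s → s ≤ t → t ≤ b → z ph t - z ph s ≤ C1 * (t - s) + δ)
    (h1 : ∀ t, t < s → z pb t ≤ z ph b + δ)
    (hε : ∫ t in (0 : ℝ)..a', |Jf T (z ph) (z pb) t| ≤ ε)
    (ext : ∀ A E, a ≤ A → A ≤ a' → (∫ t in A..T, Jf T (z ph) (z pb) t ^ 2) +
      (∫ t in (0 : ℝ)..A, |Jf T (z ph) (z pb) t|) ^ 2 ≤ E → ∃ Y, 0 ≤ Y ∧ Q Y ∧
      ExtA T (fun t => z pb t - z ph t) (fun t => Γ pb t - Γ ph t) H r1 ω β
        (fun t => Gap27.xi θ (m t) (f t) (∫ u in (0 : ℝ)..T, |Jf T (z ph) (z pb) u|)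
          (z pb t - z ph t) (Jf T (z ph) (z pb) t)) A s T (θ1 * E + Y / 4 + P0) Y)
    {K : ℕ} (hK : a + (K + 1) * (Gm + (γ + g + L)) ≤ a') (hE : EL T c (z ph) (z pb) H a s ≤ E0)
    {r X : ℝ} (hr : (rhoN T c C θ K2 c1 C1 L g T + θ1) * (2 / c) + 2 * θ * K3 ≤ r)
    (hρ : 0 ≤ rhoN T c C θ K2 c1 C1 L g T + θ1) (hr2 : r ≤ 1 / 2)
    (hX : srcN c C θ e2 Ff Ω M η c1 L T ε + θ1 * ε ^ 2 + P0 +
      (rhoN T c C θ K2 c1 C1 L g T + θ1) * μ ≤ X) (X0 : 0 ≤ X) :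
    ∃ Y, 0 ≤ Y ∧ Q Y ∧ EL T c (z ph) (z pb) H a' s + Y / 4 ≤ 2 * X + r ^ (K + 1) * E0 := by
  have γ0 := n.γ0
  have W0 : 0 ≤ γ + g + L := by linarith [n.g0, n.L0]
  have hc := F.c_pos
  have a0 := Z.a0
  have θ0 := Z.θ0
  have hr0 : 0 ≤ r := le_trans (by positivity) hr
  have K0 : 0 ≤ (K : ℝ) * (Gm + (γ + g + L)) := by positivity
  have T0 : 0 ≤ T := by linarith
  have lz : LB T fun t => z pb t - z ph t := (F.lbz hb).sub (F.lbz hh)
  have lJ := F.lbJ hh hb (right_mem_Icc.mpr T0)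
  have mono : ∀ p p', a ≤ p → p ≤ p' → p' ≤ s →
      EL T c (z ph) (z pb) H p' s ≤ EL T c (z ph) (z pb) H p s := fun p p' u1 u2 u3 => by
    have m1 := int_sub_le lJ.sq (by linarith) u2 (by linarith) le_rfl le_rfl
      fun _ _ _ => sq_nonneg _
    have m2 := int_sub_le (Z.R.lH.mul lz) (by linarith) u2 u3 le_rfl (by linarith)
      fun t t0 t1 => Z.R.H_nn t (by linarith) (by linarith)
    have := mul_le_mul_of_nonneg_left m1 (show 0 ≤ c / 2 by positivity)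
    unfold EL
    linarith
  have step : ∀ k : ℕ, k ≤ K → ∃ Y, 0 ≤ Y ∧ Q Y ∧
      EL T c (z ph) (z pb) H (a + (k + 1) * (Gm + (γ + g + L))) s + Y / 4 ≤
        X + r * EL T c (z ph) (z pb) H (a + k * (Gm + (γ + g + L))) s := fun k hk => by
    have k0 : 0 ≤ (k : ℝ) * (Gm + (γ + g + L)) := by positivity
    have k1 : (k : ℝ) * (Gm + (γ + g + L)) ≤ K * (Gm + (γ + g + L)) :=
      mul_le_mul_of_nonneg_right (by exact_mod_cast hk) (by linarith)
    obtain ⟨x, hx⟩ : ∃ x, x = a + k * (Gm + (γ + g + L)) := ⟨_, rfl⟩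
    rw [show a + (k + 1) * (Gm + (γ + g + L)) = x + Gm + (γ + g + L) by rw [hx]; ring, ← hx]
    have x0 : a ≤ x := by linarith
    have x1 : x + Gm + (γ + g + L) ≤ a' := by linarith
    have m1 := mono x (x + Gm) x0 (by linarith) (by linarith [n.g0, n.L0])
    obtain ⟨Y, Y0, hQ, h⟩ := F.lowE hb hh (Z.sub (x := x + Gm) (y := s) (by linarith) le_rfl
      (hF x x0 (by linarith))) n (lo.sub (by linarith) le_rfl) hs hT ha'
      (fun s t u1 u2 u3 => up s t (by linarith) u2 u3) h1 hε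
      (fun A E u1 u2 u3 => ext A E (by linarith) u2 u3) le_rfl x1
      (m1.trans ((mono _ _ le_rfl x0 (by linarith)).trans hE))
    refine ⟨Y, Y0, hQ, ?_⟩
    rw [srcN_add] at h
    have pJ : 0 ≤ c / 2 * ∫ t in x..T, Jf T (z ph) (z pb) t ^ 2 :=
      mul_nonneg (by positivity) (integral_nonneg (by linarith) fun _ _ => sq_nonneg _)
    have p : 0 ≤ EL T c (z ph) (z pb) H x s := by
      refine le_trans ?_ (mono _ s x0 (by linarith) le_rfl)
      have : 0 ≤ ∫ t in s..T, Jf T (z ph) (z pb) t ^ 2 :=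
        integral_nonneg (by linarith) fun _ _ => sq_nonneg _
      unfold EL
      rw [intervalIntegral.integral_same]
      positivity
    have q := mul_le_mul_of_nonneg_right hr p
    have q1 := mul_le_mul_of_nonneg_left m1 (mul_nonneg hρ (show 0 ≤ 2 / c by positivity))
    have q2 := mul_le_mul_of_nonneg_left (show ∫ t in x..s, H t * (z pb t - z ph t) ≤
      2 * EL T c (z ph) (z pb) H x s by unfold EL; linarith) (mul_nonneg θ0 K30)
    linarith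
  have h := geo_rec (E := fun k => EL T c (z ph) (z pb) H (a + k * (Gm + (γ + g + L))) s) hr0 hr2 X0
    (by simpa using hE) K fun k hk => by
      obtain ⟨Y, Y0, -, h⟩ := step k hk.le
      simp only [Nat.cast_add, Nat.cast_one]
      linarith
  obtain ⟨Y, Y0, hQ, h2⟩ := step K le_rfl
  refine ⟨Y, Y0, hQ, ?_⟩
  have h3 := mul_le_mul_of_nonneg_left h hr0
  have h4 := mono _ a' (by linarith) hK (by linarith)
  rw [pow_succ]
  nlinarith

end Crest.Agent.T156.Cut8
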