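import Crest.Agent.T156.CutM_93
import Crest.Agent.T156.TopL_27

/-!
# Row 156, text (L) (helper89): the global energy when the source `f` is partly paid by the mass
-/

set_option autoImplicit false

noncomputable section

namespace Crest.Agent.T156.Cut8

open MeasureTheory Set intervalIntegral Filter Topology

variable {T : ℝ}

theorem rhoN_nn {c C θ K2 c1 C1 L g len : ℝ} (hc : 0 < c) (hθ : 0 ≤ θ) (hK : 0 ≤ K2) (hL : 0 ≤ L)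
    (hg : 0 ≤ g) : 0 ≤ rhoN T c C θ K2 c1 C1 L g len := by
  unfold rhoN Kc; positivity

variable {P : Type} {c C : ℝ} {ok : P → Prop} {z Γ G : P → ℝ → ℝ} {pb ph : P}

/-- **global energy bound**, the source partly absorbed in the mass term -/
theorem Fr.topR' (F : Fr T c C ok z Γ G) (hb : ok pb) (hh : ok ph) {H r1 r2 ω β m f : ℝ → ℝ}
    {A s b l D ρ f0 C1 δ θ P0 Ω Ff K3 : ℝ} {Q : ℝ → Prop} (hA : 0 ≤ A) (hAs : A ≤ s) (hs : s ≤ b)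
    (hT : b ≤ T) (hC : 0 < C1) (hθ : 0 < θ) (lm : LB T m) (lf : LB T f)
    (R : Res T (fun t => z pb t - z ph t) (fun t => Γ pb t - Γ ph t) H r1 r2 ω β
      (fun t => Gap27.xi θ (m t) (f t) (∫ s in (0 : ℝ)..T, |Jf T (z ph) (z pb) s|)
        (z pb t - z ph t) (Jf T (z ph) (z pb) t)) A s)
    (mass : ∀ t, A < t → t < s → m t * (z pb t - z ph t) ^ 2 ≤ H t * (z pb t - z ph t))
    (hF : ∫ t in A..s, f t ≤ Ff + K3 * ∫ t in A..s, H t * (z pb t - z ph t))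
    (s3 : θ * K3 ≤ 1 / 8)
    (up : ∀ s t, 0 ≤ s → s ≤ t → t ≤ b → z ph t - z ph s ≤ C1 * (t - s) + δ)
    (h0 : z ph 0 ≤ δ) (h1 : ∀ t, t < s → z pb t ≤ z ph b + δ)
    (l0 : 0 < l) (Al : A ≤ l) (lT : l ≤ T) (D1 : z pb l ≤ D) (D2 : z ph l ≤ D) (β0 : 0 ≤ β A)
    (hρ : |r2 A| + β A ≤ ρ) (hf0 : 0 ≤ f0)
    (num : Gap27.Num θ 0 f0 (ρ + C * l ^ 2 * D) 0 (C * l))
    (ext : ∀ H' r1' r2' ω' β' ξ' : ℝ → ℝ,
      Res T (fun t => z pb t - z ph t) (fun t => Γ pb t - Γ ph t) H' r1' r2' ω' β' ξ' 0 s →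
      r2' s = r2 s → β' s = β s → ∃ X Z, Q Z ∧
        Ext T (fun t => z pb t - z ph t) (fun t => Γ pb t - Γ ph t) H' r2' ω' β' ξ' s T X Z ∧
        X ≤ c / 8 * (∫ t in (0 : ℝ)..T, Jf T (z ph) (z pb) t ^ 2) + Z / 4 + P0)
    (hΩ : (∫ t in A..s, ω t ^ 2) / c ≤ Ω + θ * ∫ t in (0 : ℝ)..s, (z pb t - z ph t) ^ 4)
    (s4 : θ * (3 * (4096 * C1 ^ 2) + (1 + T ^ 2)) ≤ c / 8) (s2 : θ ≤ 1 / 8) :
    ∃ Z, Q Z ∧ c / 8 * (∫ t in (0 : ℝ)..T, Jf T (z ph) (z pb) t ^ 2) +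
        (∫ t in A..s, H t * (z pb t - z ph t)) / 8 + Z / 4 ≤
      θ * (l * f0 + Ff +
        3 * (4096 * C1 ^ 2 * δ ^ 2 * T ^ 3 + 8 * δ ^ 4 * T + 6 * δ / C1)) + P0 +
        (8 * ρ ^ 2 / (c * l) + ρ * (l * D)) + Ω := by
  obtain ⟨Z, hQ, h⟩ := F.topR hb hh hA hAs hs hT hC hθ lm lf R mass up h0 h1 l0 Al lT D1 D2 β0 hρ
    hf0 num ext hΩ s4 s2
  refine ⟨Z, hQ, ?_⟩
  have lz : LB T fun t => z pb t - z ph t := (F.lbz hb).sub (F.lbz hh)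
  have pH : 0 ≤ ∫ t in A..s, H t * (z pb t - z ph t) := by
    simpa using int_mono (LB.const 0) (R.lH.mul lz) hA hAs (by linarith)
      fun t t0 t1 => R.H_nn t t0 t1
  have q := mul_le_mul_of_nonneg_right s3 pH
  have q' := mul_le_mul_of_nonneg_left hF hθ.le
  linarith

end Crest.Agent.T156.Cut8

end
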