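import Crest.Agent.T156.CutL_94

/-!
# Row 156, text (L) (helper94): nested lower cuts, one bulk for each cut, constants packaged
-/

set_option autoImplicit false

noncomputable section

namespace Crest.Agent.T156.Cut8

open MeasureTheory Set intervalIntegral Filter Topology

/-- the bulk above the time `A`; `W` bounds all the sources -/
structure Lb (T θ W : ℝ) (zh zb ρ H m : ℝ → ℝ) (A a' s : ℝ) (Q : ℝ → ℝ → Prop)
    (r1 r2 ω β f : ℝ → ℝ) : Prop where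
  R : Res T (fun t => zb t - zh t) ρ H r1 r2 ω β (fun t => Gap27.xi θ (m t) (f t)
    (∫ u in (0 : ℝ)..T, |Jf T zh zb u|) (zb t - zh t) (Jf T zh zb t)) A s
  lf : LB T f
  hF : ∫ t in A..s, f t ≤ W + ∫ t in A..s, H t * (zb t - zh t)
  hΩ : ∫ t in A..s, ω t ^ 2 ≤ W + θ ^ 2 * ∫ t in A..s, (zb t - zh t) ^ 4
  nm : ∀ t, A < t → t < s → ∃ A0 A1 A2, 0 ≤ A1 ∧ Gap27.NumM θ (m t) (f t) A0 A1 A2 ∧
    |r1 t| + β t ≤ A0 + A1 * |zb t - zh t| +
      A2 * (|Jf T zh zb t| + ∫ u in (0 : ℝ)..T, |Jf T zh zb u|)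
  ext : ∀ A' E, A ≤ A' → A' ≤ a' → (∫ t in A'..T, Jf T zh zb t ^ 2) +
    (∫ t in (0 : ℝ)..A', |Jf T zh zb t|) ^ 2 ≤ E → ∃ Y, 0 ≤ Y ∧ Q E Y ∧
    ExtA T (fun t => zb t - zh t) ρ H r1 ω β (fun t => Gap27.xi θ (m t) (f t)
      (∫ u in (0 : ℝ)..T, |Jf T zh zb u|) (zb t - zh t) (Jf T zh zb t)) A' s T
      (θ * E + Y / 4 + W) Y

theorem Lb.mono {T θ W W' : ℝ} {zh zb ρ H m : ℝ → ℝ} {A a' s : ℝ} {Q : ℝ → ℝ → Prop}
    {r1 r2 ω β f : ℝ → ℝ} (h : Lb T θ W zh zb ρ H m A a' s Q r1 r2 ω β f) (hW : W ≤ W') :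
    Lb T θ W' zh zb ρ H m A a' s Q r1 r2 ω β f :=
  ⟨h.R, h.lf, by linarith [h.hF], by linarith [h.hΩ], h.nm, fun A' E a b c => by
    obtain ⟨Y, p, q, r⟩ := h.ext A' E a b c
    exact ⟨Y, p, q, r.mono (by linarith)⟩⟩

theorem numM_nn {θ m f A0 A1 A2 : ℝ} (hθ : 0 < θ) (h : Gap27.NumM θ m f A0 A1 A2) : 0 ≤ f := by
  obtain ⟨a0, g, f1, lam, -, p2, -, p4, -, -, -, p8⟩ := h
  have f0 : 0 ≤ f1 := by
    by_contra hc
    nlinarith [mul_pos (mul_pos (pow_pos hθ 2) p2) (neg_pos.2 (not_le.1 hc)), sq_nonneg a0]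
  linarith [show 0 ≤ lam ^ 4 by positivity]

/-- the data of the nested lower cuts in `[a, a']` -/
structure Lw (T θ κ K Km c1 C1 : ℝ) (zh zb ρ H m : ℝ → ℝ)
    (a a' s b γ g Gm M j0 δ μ W ε : ℝ) (n : ℕ) (Q : ℝ → ℝ → Prop) : Prop where
  a0 : 0 ≤ a
  as : a' ≤ s
  sb : s ≤ b
  bT : b ≤ T
  lm : LB T m
  lH : LB T H
  H0 : ∀ t, a < t → t < s → 0 ≤ H t * (zb t - zh t)
  mass : ∀ t, a < t → t < s → m t * (zb t - zh t) ^ 2 ≤ H t * (zb t - zh t)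
  bk : ∀ x, a ≤ x → x ≤ a' → ∃ A r1 r2 ω β f, x ≤ A ∧ A ≤ x + Gm ∧
    Lb T θ W zh zb ρ H m A a' s Q r1 r2 ω β f
  mM : ∀ t, a < t → t < a' → m t ≤ M ∧ M ≤ Km * m t ∧ H t ^ 2 ≤ M * (H t * (zb t - zh t)) ∧
    |Jf T zh zb t| ≤ j0
  sl : ∀ p q, a ≤ p → p ≤ q → q ≤ b →
    c1 * (q - p) - δ ≤ zh q - zh p ∧ zh q - zh p ≤ C1 * (q - p) + δ
  top : ∀ t, t < s → zb t ≤ zh b + δ
  crude : ∀ t, a ≤ t → t ≤ a' → |zb t - zh t| + δ ≤ 2 * C1 * γ
  γ0 : 0 ≤ γ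
  γ1 : γ ≤ κ * g
  g0 : 0 < g
  G1 : Gm ≤ g
  M0 : 0 < M
  M1 : M ≤ (κ * g) ^ 2
  δ0 : 0 < δ
  hμ : δ ^ 2 * T ^ 3 + δ ^ 4 * T + δ / C1 ≤ μ
  μW : μ ≤ W
  sj : K * j0 ^ 2 ≤ g ^ 4
  sμ : K * μ ≤ g ^ 5
  len : a + (n + 1) * (5 * g) ≤ a'
  hE : (∫ t in a..T, Jf T zh zb t ^ 2) + ∫ t in a..s, H t * (zb t - zh t) ≤ 2 ^ n * W
  hε : ∫ t in (0 : ℝ)..a', |Jf T zh zb t| ≤ ε
  εW : ε ^ 2 ≤ W

variable {T : ℝ} {P : Type} {c C : ℝ} {ok : P → Prop} {z Γ G : P → ℝ → ℝ} {pb ph : P}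
  {H m : ℝ → ℝ} {θ κ K Km c1 C1 a a' s b γ g Gm M j0 δ μ W ε : ℝ} {n : ℕ}
  {Q : ℝ → ℝ → Prop}

theorem Fr.EL_mono (F : Fr T c C ok z Γ G) (hb : ok pb) (hh : ok ph) (lH : LB T H) (a0 : 0 ≤ a)
    (sT : s ≤ T) (h0 : ∀ t, a < t → t < s → 0 ≤ H t * (z pb t - z ph t)) {p p' : ℝ} (u1 : a ≤ p)
    (u2 : p ≤ p') (u3 : p' ≤ s) : EL T c (z ph) (z pb) H p' s ≤ EL T c (z ph) (z pb) H p s ∧
      0 ≤ ∫ t in p..s, H t * (z pb t - z ph t) ∧ 0 ≤ ∫ t in p..T, Jf T (z ph) (z pb) t ^ 2 := by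
  have hc := F.c_pos
  have lz : LB T fun t => z pb t - z ph t := (F.lbz hb).sub (F.lbz hh)
  have lJ := F.lbJ hh hb (right_mem_Icc.mpr (show 0 ≤ T by linarith))
  have m1 := int_sub_le lJ.sq (by linarith) u2 (by linarith) le_rfl le_rfl
    fun _ _ _ => sq_nonneg _
  have m2 := int_sub_le (lH.mul lz) (by linarith) u2 u3 le_rfl sT
    fun t t0 t1 => h0 t (by linarith) t1
  have := mul_le_mul_of_nonneg_left m1 (show 0 ≤ c / 2 by positivity)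
  refine ⟨by unfold EL; linarith, ?_, integral_nonneg (by linarith) fun _ _ => sq_nonneg _⟩
  simpa using int_mono (LB.const 0) (lH.mul lz) (by linarith) (show p ≤ s by linarith) sT
    fun t t0 t1 => h0 t (by linarith) t1

/-- one step of the nest -/
theorem Fr.stepV (F : Fr T c C ok z Γ G) (hb : ok pb) (hh : ok ph)
    (D : Lw T θ κ K Km c1 C1 (z ph) (z pb) (fun t => Γ pb t - Γ ph t) H m
      a a' s b γ g Gm M j0 δ μ W ε n Q) (θ0 : 0 < θ) (θ1 : θ ≤ 1) (θc : θ ≤ c) (κ0 : 0 < κ)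
    (κ1 : κ ≤ 1) (K0 : 0 < Km) (c0 : 0 < c1) (C0 : 0 < C1)
    (hK : 25600 * kap c1 (64 * C1 + 3) ^ 2 ≤ c1 ^ 2 * κ ^ 4 * K)
    (hr : (rhoW T c C θ 1 Km c1 C1 κ 1 + θ + 2 * θ * (64 * C1 + 3) ^ 2) * (2 / c) + 4 * θ ≤ 1 / 2)
    {x : ℝ} (x0 : a ≤ x) (x1 : x + 5 * g ≤ a') :
    ∃ Y E, 0 ≤ Y ∧ Q E Y ∧ E ≤ 2 / c * EL T c (z ph) (z pb) H x s + W ∧
      EL T c (z ph) (z pb) H (x + 5 * g) s + Y / 4 ≤
        (62 + 2 / c + (4 + 4 * C ^ 2 / c) * T + c / 4) * W + 1 / 2 * EL T c (z ph) (z pb) H x s := by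
  have hc := F.c_pos
  have a0 := D.a0
  have g0 := D.g0
  have γ0 := D.γ0
  have G1 := D.G1
  have δ0 := D.δ0
  have as := D.as
  have sT := D.sb.trans D.bT
  have T0 : 0 ≤ T := by linarith
  have L0 : 0 < κ * g := by positivity
  have L1 : κ * g ≤ g := mul_le_of_le_one_left g0.le κ1
  have γ1 := D.γ1
  have μ0 : 0 < μ := lt_of_lt_of_le (by positivity) D.hμ
  have W0 : 0 < W := μ0.trans_le D.μW
  have lz : LB T fun t => z pb t - z ph t := (F.lbz hb).sub (F.lbz hh)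
  have lJ := F.lbJ hh hb (right_mem_Icc.mpr T0)
  have Kp : 0 < K := by
    by_contra q
    have := mul_nonpos_of_nonneg_of_nonpos (show 0 ≤ c1 ^ 2 * κ ^ 4 by positivity) (not_lt.1 q)
    have : 0 < kap c1 (64 * C1 + 3) := by unfold kap; positivity
    linarith [show 0 < kap c1 (64 * C1 + 3) ^ 2 by positivity]
  have N : Nw T γ g (κ * g) M Km j0 c1 C1 δ μ := ⟨γ0, γ1, g0, L0, D.M0, D.M1, K0, c0, C0, δ0, μ0,
    D.hμ, by
      refine le_of_mul_le_mul_left ?_ Kp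
      have p1 := mul_le_mul (show γ + g + κ * g ≤ 3 * g by linarith) D.sj (by positivity)
        (by positivity)
      have p2 : K * ((γ + g + κ * g) * j0 ^ 2 + μ) ≤ 4 * g ^ 5 := by linarith [D.sμ]
      have p3 := mul_le_mul_of_nonneg_left p2
        (show 0 ≤ 6400 * kap c1 (64 * C1 + 3) ^ 2 by positivity)
      have p4 := mul_le_mul_of_nonneg_right hK (show 0 ≤ g ^ 5 by positivity)
      linarith⟩
  obtain ⟨A, r1, r2, ω, β, f, A1, A2, B⟩ := D.bk (x + γ) (by linarith) (by linarith)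
  have mono := fun p p' => F.EL_mono hb hh D.lH a0 sT D.H0 (p := p) (p' := p')
  obtain ⟨m2, pH, pJ⟩ := mono x A x0 (by linarith) (by linarith)
  obtain ⟨m3, -, -⟩ := mono (A + (γ + g + κ * g)) (x + 5 * g) (by linarith) (by linarith)
    (by linarith)
  obtain ⟨e, he⟩ : ∃ e, e = EL T c (z ph) (z pb) H x s := ⟨_, rfl⟩
  have eJ : ∫ t in x..T, Jf T (z ph) (z pb) t ^ 2 ≤ 2 / c * e := by
    rw [div_mul_eq_mul_div, le_div_iff₀ hc, he]; unfold EL; linarith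
  have e0 : 0 ≤ e := by rw [he]; unfold EL; positivity
  have eH : ∫ t in A..s, H t * (z pb t - z ph t) ≤ 2 * e := by
    have := int_sub_le (D.lH.mul lz) (by linarith) (show x ≤ A by linarith)
      (show A ≤ s by linarith) le_rfl sT fun t t0 t1 => D.H0 t (by linarith) t1
    rw [he]; unfold EL
    linarith [mul_nonneg hc.le pJ]
  have e4 := (F.four_loc hb hh (a := x) (x := A) (by linarith) γ0 A1 (by linarith) D.sb D.bT
    C0 δ0 (fun p q u v w => (D.sl p q (by linarith) v w).2)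
    (D.crude _ (by linarith) (by linarith)) D.top).trans
    (mul_le_mul_of_nonneg_left (add_le_add eJ D.hμ) (sq_nonneg _))
  have Z : Zn T c θ (z ph) (z pb) (fun t => Γ pb t - Γ ph t) H r1 r2 ω β m f A s 1 0
      (W + 2 * e) (W / c + θ * ((64 * C1 + 3) ^ 2 * (2 / c * e + μ))) :=
    ⟨B.R, by linarith, sT, θ0.le, zero_le_one, D.lm, B.lf,
      fun t u v => by
        obtain ⟨_, _, _, -, q, -⟩ := B.nm t u v
        exact numM_nn θ0 q,
      B.hF.trans (by linarith),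
      fun p q u v w => by
        rw [one_mul, add_zero]
        exact int_mono (D.lm.mul lz.sq) (D.lH.mul lz) (by linarith) v (by linarith)
          fun t t0 t1 => D.mass t (by linarith) (by linarith),
      fun p q u v w => by
        have y1 := int_sub_le B.R.lω.sq (show 0 ≤ A by linarith) u v w sT
          fun _ _ _ => sq_nonneg _
        have y2 := B.hΩ
        have y3 : 0 ≤ ∫ t in p..q, (z pb t - z ph t) ^ 4 :=
          integral_nonneg v fun _ _ => by positivity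
        have y4 := mul_le_mul (show θ ^ 2 ≤ θ * c by nlinarith) e4
          (integral_nonneg (by linarith) fun _ _ => by positivity) (by positivity)
        refine le_trans ?_ (le_add_of_nonneg_right (mul_nonneg θ0.le y3))
        rw [div_le_iff₀ hc, add_mul, div_mul_cancel₀ _ hc.ne']
        linarith⟩
  have lo : Mw T (z ph) (z pb) H (fun t => |r1 t| + β t)
      (fun t => Gap27.xi θ (m t) (f t) (∫ u in (0 : ℝ)..T, |Jf T (z ph) (z pb) u|)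
        (z pb t - z ph t) (Jf T (z ph) (z pb) t)) m A a' γ M Km j0 c1 C1 δ :=
    ⟨fun t t' u v w => (D.sl t t' (by linarith) v (by linarith [D.sb])).1,
      fun t u v => D.crude t (by linarith) v, fun t u v => (D.mM t (by linarith) v).2.2.1,
      fun t u v => by
        obtain ⟨A0, A1, A2, q1, q2, q3⟩ := B.nm t u (by linarith)
        exact ab_numM θ0 θ1 (D.mM t (by linarith) v).1 q1 q3 q2,
      fun t u v => (D.mM t (by linarith) v).2.1, fun t u v => (D.mM t (by linarith) v).2.2.2⟩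
  obtain ⟨Y, Y0, ⟨E, hQ, hE⟩, h⟩ := F.lowW hb hh (θ1 := θ) (P0 := W)
    (Q := fun Y => ∃ E, Q E Y ∧ E ≤ 2 / c * e + W) Z le_rfl N lo D.sb D.bT as
    (fun p q u v w => (D.sl p q (by linarith) v w).2) D.top D.hε
    (fun A' E u1 u2 u3 => by
      obtain ⟨Y, Y0, q, X⟩ := B.ext A' _ u1 u2 le_rfl
      refine ⟨Y, Y0, ⟨_, q, add_le_add ?_ ?_⟩, X.mono ?_⟩
      · exact (int_sub_le lJ.sq (show 0 ≤ x by linarith) (by linarith) (by linarith) le_rfl le_rfl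
          fun _ _ _ => sq_nonneg _).trans eJ
      · refine (pow_le_pow_left₀ (integral_nonneg (by linarith) fun _ _ => abs_nonneg _) ?_ 2).trans
          D.εW
        exact (int_sub_le lJ.abs le_rfl le_rfl (by linarith) u2 (by linarith)
          fun _ _ _ => abs_nonneg _).trans D.hε
      · linarith [mul_le_mul_of_nonneg_left u3 θ0.le]) le_rfl (by linarith)
  refine ⟨Y, E, Y0, hQ, he ▸ hE, ?_⟩
  have eρ : rhoW T c C θ 1 Km c1 C1 (κ * g) g = rhoW T c C θ 1 Km c1 C1 κ 1 := by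
    unfold rhoW; rw [mul_div_cancel_right₀ _ g0.ne', div_one]
  rw [eρ] at h
  have ρ0 : 0 ≤ rhoW T c C θ 1 Km c1 C1 κ 1 := by unfold rhoW Kw; positivity
  generalize rhoW T c C θ 1 Km c1 C1 κ 1 = ρ at h hr ρ0
  rw [← he] at m2 ⊢
  have q1 := mul_le_mul_of_nonneg_left m2 (show 0 ≤ (ρ + θ) * (2 / c) by positivity)
  have q2 := mul_le_mul_of_nonneg_right hr e0
  have q3 : ρ + θ + 2 * θ * (64 * C1 + 3) ^ 2 ≤ c / 4 := by
    have : (ρ + θ + 2 * θ * (64 * C1 + 3) ^ 2) * (2 / c) ≤ 1 / 2 := by linarith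
    rw [← mul_div_assoc, div_le_iff₀ hc] at this
    linarith
  have q4 := mul_le_mul q3 D.μW μ0.le (by positivity)
  have q5 := mul_le_mul_of_nonneg_right θ1 W0.le
  have q6 := mul_le_mul θ1 D.εW (sq_nonneg _) zero_le_one
  have q7 := mul_le_mul (show 4 * θ + 4 * C ^ 2 / c ≤ 4 + 4 * C ^ 2 / c by linarith)
    (mul_le_mul_of_nonneg_left D.εW T0) (by positivity) (by positivity)
  have q8 : W / c = 1 / 2 * (2 / c * W) := by field_simp
  unfold srcW at h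
  linarith [D.μW]

/-- **the nested lower cuts with their constants** -/
theorem nestV (T c C Km c1 C1 : ℝ) (hc : 0 < c) (T0 : 0 ≤ T) (K0 : 0 < Km) (c0 : 0 < c1)
    (C0 : 0 < C1) : ∃ θ κ K : ℝ, 0 < θ ∧ θ ≤ 1 ∧ 0 < κ ∧ κ ≤ 1 ∧ 1 ≤ K ∧
    ∀ (P : Type) (ok : P → Prop) (z Γ G : P → ℝ → ℝ) (pb ph : P) (H m : ℝ → ℝ)
      (a a' s b γ g Gm M j0 δ μ W ε : ℝ) (n : ℕ) (Q : ℝ → ℝ → Prop), Fr T c C ok z Γ G → ok pb →
      ok ph → Lw T θ κ K Km c1 C1 (z ph) (z pb) (fun t => Γ pb t - Γ ph t) H m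
        a a' s b γ g Gm M j0 δ μ W ε n Q →
      ∃ Y E, 0 ≤ Y ∧ Q E Y ∧ E ≤ K * W ∧ Y ≤ K * W ∧
        ∫ t in a'..T, Jf T (z ph) (z pb) t ^ 2 ≤ K * W ∧
        ∫ t in a'..s, H t * (z pb t - z ph t) ≤ K * W := by
  obtain ⟨A, hA⟩ : ∃ A, A = (2 * (3 * (64 * C1 + 3) ^ 2 + 1 + 2 * T ^ 2 + 2 * c * 1) + 1 +
    2 * (64 * C1 + 3) ^ 2) * (2 / c) + 4 := ⟨_, rfl⟩
  obtain ⟨B, hB⟩ : ∃ B, B = (Kw T c C c1 * kap c1 (64 * C1 + 3) ^ 2 + 116 * Km * (1 * c + 1)) *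
    (2 / c) := ⟨_, rfl⟩
  obtain ⟨X, hX⟩ : ∃ X, X = 62 + 2 / c + (4 + 4 * C ^ 2 / c) * T + c / 4 := ⟨_, rfl⟩
  have A0 : 0 < A := by rw [hA]; positivity
  have B0 : 0 < B := by rw [hB]; unfold Kw; positivity
  have X0 : 0 < X := by rw [hX]; positivity
  obtain ⟨θ, θ0, θ1, θc, θA⟩ : ∃ θ : ℝ, 0 < θ ∧ θ ≤ 1 ∧ θ ≤ c ∧ θ * A ≤ 1 / 4 :=
    ⟨min 1 (min c (1 / 4 / A)), by positivity, min_le_left _ _,
      (min_le_right _ _).trans (min_le_left _ _),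
      (le_div_iff₀ A0).1 ((min_le_right _ _).trans (min_le_right _ _))⟩
  obtain ⟨κ, κ0, κ1, κB⟩ : ∃ κ : ℝ, 0 < κ ∧ κ ≤ 1 ∧ κ * B ≤ 1 / 4 :=
    ⟨min 1 (1 / 4 / B), by positivity, min_le_left _ _, (le_div_iff₀ B0).1 (min_le_right _ _)⟩
  obtain ⟨U, hU⟩ : ∃ U, U = 2 * X + (c + 1) := ⟨_, rfl⟩
  have U0 : 0 < U := by rw [hU]; positivity
  obtain ⟨K, K1, K2, K3, K4⟩ : ∃ K : ℝ, 1 ≤ K ∧
      25600 * kap c1 (64 * C1 + 3) ^ 2 / (c1 ^ 2 * κ ^ 4) ≤ K ∧ 2 / c * U + 1 ≤ K ∧ 4 * U ≤ K :=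
    ⟨max (max 1 _) (max _ _), le_max_of_le_left (le_max_left _ _),
      le_max_of_le_left (le_max_right _ _), le_max_of_le_right (le_max_left _ _),
      le_max_of_le_right (le_max_right _ _)⟩
  refine ⟨θ, κ, K, θ0, θ1, κ0, κ1, K1, ?_⟩
  intro P ok z Γ G pb ph H m a a' s b γ g Gm M j0 δ μ W ε n Q F hb hh D
  rw [div_le_iff₀ (by positivity), mul_comm K] at K2
  have st := fun x => F.stepV hb hh D θ0 θ1 θc κ0 κ1 K0 c0 C0 K2 (by
    unfold rhoW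
    rw [hA] at θA
    rw [hB] at κB
    rw [div_one]
    linarith) (x := x)
  rw [← hX] at st
  have g0 := D.g0
  have W0 : 0 ≤ W := (sq_nonneg _).trans D.εW
  have sT := D.sb.trans D.bT
  have as := D.as
  have len := D.len
  have mono := fun p p' => F.EL_mono hb hh D.lH D.a0 sT D.H0 (p := p) (p' := p')
  have n0 : 0 ≤ (n : ℝ) * (5 * g) := by positivity
  obtain ⟨-, pH, pJ⟩ := mono a a le_rfl le_rfl (by linarith)
  have h := geo_rec (E := fun k => EL T c (z ph) (z pb) H (a + k * (5 * g)) s) (r := 1 / 2)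
    (E0 := (c + 1) * (2 ^ n * W)) (by norm_num) le_rfl (mul_nonneg X0.le W0) (by
      have := mul_le_mul_of_nonneg_left D.hE (show 0 ≤ c + 1 by positivity)
      simp only [Nat.cast_zero, zero_mul, add_zero]
      unfold EL
      linarith [mul_nonneg hc.le pH, mul_nonneg hc.le pJ]) n fun k hk => by
      have k0 : 0 ≤ (k : ℝ) * (5 * g) := by positivity
      have k1 : (k : ℝ) * (5 * g) ≤ n * (5 * g) :=
        mul_le_mul_of_nonneg_right (by exact_mod_cast hk.le) (by linarith)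
      obtain ⟨Y, E, Y0, -, -, h⟩ := st (a + k * (5 * g)) (by linarith) (by linarith)
      simp only [Nat.cast_add, Nat.cast_one]
      rw [show a + (k + 1) * (5 * g) = a + k * (5 * g) + 5 * g by ring]
      linarith
  rw [show (1 / 2 : ℝ) ^ n * ((c + 1) * (2 ^ n * W)) = (c + 1) * W by
    rw [one_div, inv_pow]; field_simp] at h
  obtain ⟨Y, E, Y0, hQ, h1, h2⟩ := st (a + n * (5 * g)) (by linarith) (by linarith)
  obtain ⟨m1, -, -⟩ := mono (a + n * (5 * g) + 5 * g) a' (by linarith) (by linarith) as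
  obtain ⟨-, qH, qJ⟩ := mono a' a' (by linarith) le_rfl as
  have hU' : EL T c (z ph) (z pb) H (a + n * (5 * g)) s ≤ U * W := by rw [hU]; linarith
  have h3 : EL T c (z ph) (z pb) H a' s + Y / 4 ≤ U * W := by
    rw [hU]; linarith [mul_nonneg hc.le W0]
  have k3 := mul_le_mul_of_nonneg_right K3 W0
  have k4 := mul_le_mul_of_nonneg_right K4 W0
  have UW := mul_nonneg U0.le W0
  have cJ := mul_nonneg hc.le qJ
  unfold EL at h3
  refine ⟨Y, E, Y0, hQ, ?_, by linarith, ?_, by linarith⟩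
  · linarith [mul_le_mul_of_nonneg_left hU' (show 0 ≤ 2 / c by positivity)]
  · have : ∫ t in a'..T, Jf T (z ph) (z pb) t ^ 2 ≤ 2 / c * (U * W) := by
      rw [div_mul_eq_mul_div, le_div_iff₀ hc]; linarith
    linarith

end Crest.Agent.T156.Cut8

end
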