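import Crest.Agent.T156.CaTrf_56
import Crest.Agent.T156.CaSand_41
import Crest.Agent.T156.CaGf_90
import Crest.Agent.T156.Mov_21

/-!
# Row 156: sensitivity to the root tilt (helper12)

`Δ_a f ≤ √((a' - a) W) · sd f`, the root variance is at most the total variance, and double
differences along a path of models.
-/

set_option autoImplicit false
set_option linter.unusedSectionVars false

noncomputable section

namespace Crest.Agent.T156.Cas.Del12

open MeasureTheory Real Set Filter Topology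
open Crest.Agent.T157.E Crest.Agent.T157.Casc Crest.Agent.T157.SL

variable {Ω : Type} [Fintype Ω] {F φ ψ f : (Ω → ℝ) → ℝ} {w : Ω → ℝ}

/-! ### one level -/

/-- `W = E_{a'} F - E_a F` -/
def Wd (l : Lv Ω) (F : (Ω → ℝ) → ℝ) (h : Ω → ℝ) (a a' : ℝ) : ℝ :=
  tE (rt l a') F F h - tE (rt l a) F F h

theorem cT_nonneg (hF : Lg F) (hφ : Eg φ) (l : Lv Ω) (h : Ω → ℝ) : 0 ≤ cT l F φ φ h := by
  simpa using Trf.cT_quad hF hφ hφ l h 1 0

theorem cont_tE (hF : Lg F) (hφ : Eg φ) (l : Lv Ω) (h : Ω → ℝ) :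
    Continuous fun s => tE (rt l s) F φ h :=
  continuous_iff_continuousAt.2 fun s => (Trf.der_tE hF hφ l h s).continuousAt

theorem cont_cT (hF : Lg F) (hφ : Eg φ) (hψ : Eg ψ) (l : Lv Ω) (h : Ω → ℝ) :
    Continuous fun s => cT (rt l s) F φ ψ h :=
  (cont_tE hF (hφ.mul hψ) l h).sub ((cont_tE hF hφ l h).mul (cont_tE hF hψ l h))

theorem Wd_eq (hF : Lg F) (l : Lv Ω) (h : Ω → ℝ) (a a' : ℝ) :
    Wd l F h a a' = ∫ s in a..a', cT (rt l s) F F F h :=
  (intervalIntegral.integral_eq_sub_of_hasDerivAt (fun s _ => Trf.der_tE hF hF.eg l h s)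
    ((cont_cT hF hF.eg hF.eg l h).intervalIntegrable _ _)).symm

theorem Wd_nonneg (hF : Lg F) (l : Lv Ω) (h : Ω → ℝ) {a a' : ℝ} (haa : a ≤ a') :
    0 ≤ Wd l F h a a' := by
  rw [Wd_eq hF]
  exact intervalIntegral.integral_nonneg haa fun s _ => cT_nonneg hF hF.eg _ h

theorem Wd_mono (hF : Lg F) (l : Lv Ω) (h : Ω → ℝ) {a a' b b' : ℝ} (h1 : b ≤ a) (h2 : a' ≤ b') :
    Wd l F h a a' ≤ Wd l F h b b' := by
  have e1 := Wd_nonneg hF l h h1
  have e2 := Wd_nonneg hF l h h2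
  simp only [Wd] at *
  linarith

/-- `W` from values on a larger interval (56's `W_le`) -/
theorem Wd_le (hw : Wt w) (l : Lv Ω) (M : List (Lv Ω)) (h : Ω → ℝ) {a a' a₁ : ℝ} (h0 : 0 < a)
    (h1 : a ≤ a') (h2 : a' < a₁) : Wd l (X w M) h a a' ≤
      a₁ / (a₁ - a') * (X w (rt l a₁ :: M) h - X w (rt l a :: M) h) := W_le hw l M h h0 h1 h2

theorem tE_aff (hF : Lg F) (hψ : Eg ψ) (hf : Eg f) (l : Lv Ω) (h : Ω → ℝ) (c : ℝ) :
    tE l F (fun z => ψ z - c * f z) h = tE l F ψ h - c * tE l F f h := by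
  rw [tE_sub hF hψ (hf.const_mul c), tE_const_mul]

theorem cT_aff (hF : Lg F) (hφ : Eg φ) (hψ : Eg ψ) (hf : Eg f) (l : Lv Ω) (h : Ω → ℝ) (c : ℝ) :
    cT l F φ (fun z => ψ z - c * f z) h = cT l F φ ψ h - c * cT l F φ f h := by
  have e : (fun z => φ z * (ψ z - c * f z)) = fun z => φ z * ψ z - c * (φ z * f z) := by
    funext z; ring
  simp only [cT]
  rw [e, tE_aff hF (hφ.mul hψ) (hφ.mul hf), tE_aff hF hψ hf]
  ring

theorem cT_symm (l : Lv Ω) (F φ ψ : (Ω → ℝ) → ℝ) (h : Ω → ℝ) : cT l F φ ψ h = cT l F ψ φ h := by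
  simp only [cT, mul_comm]

theorem cont_var_aff (hF : Lg F) (hψ : Eg ψ) (hf : Eg f) (l : Lv Ω) (h : Ω → ℝ) :
    Continuous fun s => cT (rt l s) F (fun z => ψ z - s * f z) (fun z => ψ z - s * f z) h := by
  have e : ∀ s, cT (rt l s) F (fun z => ψ z - s * f z) (fun z => ψ z - s * f z) h =
      cT (rt l s) F ψ ψ h - s * cT (rt l s) F ψ f h -
        s * (cT (rt l s) F f ψ h - s * cT (rt l s) F f f h) := fun s => by
    rw [cT_aff hF (hψ.sub (hf.const_mul s)) hψ hf, cT_symm _ _ _ ψ, cT_symm _ _ _ f,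
      cT_aff hF hψ hψ hf, cT_aff hF hf hψ hf]
  simp only [e]
  exact ((cont_cT hF hψ hψ l h).sub (continuous_id.mul (cont_cT hF hψ hf l h))).sub
    (continuous_id.mul ((cont_cT hF hf hψ l h).sub (continuous_id.mul (cont_cT hF hf hf l h))))

theorem der_aff (hF : Lg F) (hψ : Eg ψ) (hf : Eg f) (l : Lv Ω) (h : Ω → ℝ) (s : ℝ) :
    HasDerivAt (fun s => tE (rt l s) F (fun z => ψ z - s * f z) h)
      (cT (rt l s) F F (fun z => ψ z - s * f z) h - tE (rt l s) F f h) s := by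
  simp only [tE_aff hF hψ hf, cT_aff hF hF.eg hψ hf]
  exact ((Trf.der_tE hF hψ l h s).sub
    ((hasDerivAt_id' s).mul (Trf.der_tE hF hf l h s))).congr_deriv (by ring)

/-- **sensitivity to the root tilt**, observable `ψ - s f` (the first mass is `m₁ - s`) -/
theorem delta_aff (hF : Lg F) (hψ : Eg ψ) (hf : Eg f) (l : Lv Ω) (h : Ω → ℝ) {a a' : ℝ}
    (haa : a ≤ a') :
    (tE (rt l a') F (fun z => ψ z - a' * f z) h - tE (rt l a) F (fun z => ψ z - a * f z) h +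
        ∫ s in a..a', tE (rt l s) F f h) ^ 2 ≤
      Wd l F h a a' *
        ∫ s in a..a', cT (rt l s) F (fun z => ψ z - s * f z) (fun z => ψ z - s * f z) h := by
  have c1 : Continuous fun s => cT (rt l s) F F (fun z => ψ z - s * f z) h := by
    simp only [cT_aff hF hF.eg hψ hf]
    exact (cont_cT hF hF.eg hψ l h).sub (continuous_id.mul (cont_cT hF hF.eg hf l h))
  have c2 := cont_tE hF hf l h
  have c3 := cont_var_aff hF hψ hf l h
  have c4 := cont_cT hF hF.eg hF.eg l h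
  have e1 := intervalIntegral.integral_eq_sub_of_hasDerivAt (a := a) (b := a')
    (fun s _ => der_aff hF hψ hf l h s) ((c1.sub c2).intervalIntegrable _ _)
  rw [intervalIntegral.integral_sub (c1.intervalIntegrable _ _) (c2.intervalIntegrable _ _)] at e1
  rw [← e1, sub_add_cancel]
  refine Trf.sq_le_of_forall (Wd_nonneg hF l h haa) (intervalIntegral.integral_nonneg haa
    fun s _ => cT_nonneg hF (hψ.sub (hf.const_mul s)) _ h) fun η hη => ?_
  rw [Wd_eq hF, ← intervalIntegral.integral_const_mul, ← intervalIntegral.integral_div,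
    ← intervalIntegral.integral_add ((c4.const_mul _).intervalIntegrable _ _)
      ((c3.div_const _).intervalIntegrable _ _)]
  refine (intervalIntegral.abs_integral_le_integral_abs haa).trans
    (intervalIntegral.integral_mono_on haa (c1.abs.intervalIntegrable _ _)
      (((c4.const_mul _).add (c3.div_const _)).intervalIntegrable _ _) fun s _ => ?_)
  exact Trf.cT_abs hF hF.eg (hψ.sub (hf.const_mul s)) _ h hη

/-- **sensitivity to the root tilt**, integral form -/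
theorem delta_int (hF : Lg F) (hφ : Eg φ) (l : Lv Ω) (h : Ω → ℝ) {a a' : ℝ} (haa : a ≤ a') :
    (tE (rt l a') F φ h - tE (rt l a) F φ h) ^ 2 ≤
      Wd l F h a a' * ∫ s in a..a', cT (rt l s) F φ φ h := by
  have := delta_aff hF hφ (Eg.const 0) l h haa
  simpa [tE_const hF] using this

theorem int_le_const {v : ℝ → ℝ} (hv : Continuous v) {a a' V : ℝ} (haa : a ≤ a')
    (hV : ∀ s ∈ Icc a a', v s ≤ V) : ∫ s in a..a', v s ≤ (a' - a) * V := by
  simpa using intervalIntegral.integral_mono_on (μ := volume) haa (hv.intervalIntegrable _ _)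
    (continuous_const.intervalIntegrable _ _) hV

/-- **sensitivity to the root tilt** -/
theorem delta_le (hF : Lg F) (hφ : Eg φ) (l : Lv Ω) (h : Ω → ℝ) {a a' V W : ℝ} (haa : a ≤ a')
    (hW : Wd l F h a a' ≤ W) (hV : ∀ s ∈ Icc a a', cT (rt l s) F φ φ h ≤ V) :
    |tE (rt l a') F φ h - tE (rt l a) F φ h| ≤ √((a' - a) * W * V) := by
  refine abs_le_sqrt ((delta_int hF hφ l h haa).trans ?_)
  have e := int_le_const (cont_cT hF hφ hφ l h) haa hV
  have p : 0 ≤ ∫ s in a..a', cT (rt l s) F φ φ h :=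
    intervalIntegral.integral_nonneg haa fun s _ => cT_nonneg hF hφ _ h
  calc _ ≤ W * ((a' - a) * V) := mul_le_mul hW e p ((Wd_nonneg hF l h haa).trans hW)
    _ = _ := by ring

/-- the same with the moving first mass -/
theorem delta_aff_le (hF : Lg F) (hψ : Eg ψ) (hf : Eg f) (l : Lv Ω) (h : Ω → ℝ) {a a' V W κ : ℝ}
    (haa : a ≤ a') (hW : Wd l F h a a' ≤ W)
    (hV : ∀ s ∈ Icc a a', cT (rt l s) F (fun z => ψ z - s * f z) (fun z => ψ z - s * f z) h ≤ V)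
    (hκ : ∀ s ∈ Icc a a', |tE (rt l s) F f h| ≤ κ) :
    |tE (rt l a') F (fun z => ψ z - a' * f z) h - tE (rt l a) F (fun z => ψ z - a * f z) h| ≤
      √((a' - a) * W * V) + (a' - a) * κ := by
  have e := int_le_const (cont_var_aff hF hψ hf l h) haa hV
  have p : 0 ≤ ∫ s in a..a', cT (rt l s) F (fun z => ψ z - s * f z) (fun z => ψ z - s * f z) h :=
    intervalIntegral.integral_nonneg haa fun s _ => cT_nonneg hF (hψ.sub (hf.const_mul s)) _ h
  have k := abs_le_sqrt ((delta_aff hF hψ hf l h haa).trans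
    ((mul_le_mul hW e p ((Wd_nonneg hF l h haa).trans hW)).trans_eq
      (show W * ((a' - a) * V) = (a' - a) * W * V by ring)))
  have k2 : |∫ s in a..a', tE (rt l s) F f h| ≤ (a' - a) * κ :=
    (intervalIntegral.abs_integral_le_integral_abs haa).trans
      (int_le_const (cont_tE hF hf l h).abs haa hκ)
  rw [abs_le] at k k2 ⊢
  constructor <;> linarith [k.1, k.2, k2.1, k2.2]

/-! ### the root variance is at most the total variance -/

theorem sq_node_le (hw : Wt w) (hφ : Eg φ) (L : List (Lv Ω)) (j : ℕ) (z : Ω → ℝ) :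
    node w L j φ z ^ 2 ≤ node w L j (fun y => φ y ^ 2) z := by
  set c := node w L j φ z with hc
  have p := node_nonneg w (Φ := fun y => φ y ^ 2 + (-(2 * c)) * φ y + c ^ 2)
    (fun y => (sq_nonneg (φ y - c)).trans_eq (by ring)) L j z
  rw [node_add hw ((hφ.pow 2).add (hφ.const_mul _)) (Eg.const _), node_add hw (hφ.pow 2)
    (hφ.const_mul _), node_const_mul, node_const hw] at p
  simp only [← hc] at p
  nlinarith

theorem root_node (hw : Wt w) (hφ : Eg φ) (l : Lv Ω) (M : List (Lv Ω)) (j : ℕ) (h : Ω → ℝ) :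
    cT l (X w M) (node w M j φ) (node w M j φ) h ≤
      node w (l :: M) (j + 1) (fun y => φ y ^ 2) h - node w (l :: M) (j + 1) φ h ^ 2 := by
  rw [cT, node_cons, node_cons, ← sq]
  refine sub_le_sub_right (tE_mono (lg_X hw M) ((hφ.node hw M j).mul (hφ.node hw M j))
    ((hφ.pow 2).node hw M j) (fun z => ?_) l h) _
  rw [← sq]
  exact sq_node_le hw hφ M j z

/-- functions of one node -/
theorem delta_node (hw : Wt w) (hφ : Eg φ) (l : Lv Ω) (M : List (Lv Ω)) (j : ℕ) (h : Ω → ℝ)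
    {a a' V W : ℝ} (haa : a ≤ a') (hW : Wd l (X w M) h a a' ≤ W)
    (hV : ∀ s ∈ Icc a a', node w (rt l s :: M) (j + 1) (fun y => φ y ^ 2) h -
      node w (rt l s :: M) (j + 1) φ h ^ 2 ≤ V) :
    |node w (rt l a' :: M) (j + 1) φ h - node w (rt l a :: M) (j + 1) φ h| ≤
      √((a' - a) * W * V) :=
  delta_le (lg_X hw M) (hφ.node hw M j) l h haa hW fun s hs =>
    (root_node hw hφ (rt l s) M j h).trans (hV s hs)

theorem eg_int {ι : Type} [Fintype ι] {H : (Ω ⊕ ι → ℝ) → ℝ} (hH : Eg H) :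
    Eg fun z : Ω → ℝ => ∫ g, H (Sum.elim z g) ∂gv ι := by
  classical
  exact eg_of_EG (T157.Casc.eg_int (hH.toEG univ)) (mem_univ 0)

/-- a tree expectation is a function of exponential growth of the starting state -/
theorem eg_tX (hw : Wt w) (s : Sh) (M : List (Lv Ω)) {G : Pa s.Lf Ω → (s.Lf → Ω) → ℝ}
    (hG : ∀ x, EgP fun p => G p x) : Eg fun z => tX w s M z fun g x => G (stT s M z g) x := by
  have l1 : ∀ y, Lg fun p : Ω ⊕ NT s M → ℝ => p (.inl y) := fun y => Tr.lg_coord _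
  have l2 : ∀ i, Lg fun p : Ω ⊕ NT s M → ℝ => p (.inr i) := fun i => Tr.lg_coord _
  refine eg_int (H := fun p => ∑ x, denT w s M (fun y => p (.inl y)) (fun i => p (.inr i)) x *
    G (stT s M (fun y => p (.inl y)) fun i => p (.inr i)) x) (Eg.sum _ fun x _ => Eg.mul ?_ ?_)
  · refine Eg.const_mul _ (Pe.eg_exp (Tr.lg_sub (Tr.lg_neg ?_) (Tr.lg_cmul _ ?_)))
    · exact Tr.lg_UT hw s M x l1 l2
    · exact Tr.lg_comp (lg_X hw M) l1
  · exact hG x _ _ fun a j => Tr.lg_stT s M a j l1 l2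

theorem tX_const (hw : Wt w) (s : Sh) (L : List (Lv Ω)) (h : Ω → ℝ) (c : ℝ) :
    tX w s L h (fun _ _ => c) = c := by
  simpa [Tr.tX_unit peStmt hw] using Sd.tX_const_mul w s L h c fun _ _ => 1

theorem sq_tX_le (hw : Wt w) (s : Sh) (L : List (Lv Ω)) (h : Ω → ℝ)
    {G : (NT s L → ℝ) → (s.Lf → Ω) → ℝ} (hG : ∀ x, Eg fun g => G g x) :
    tX w s L h G ^ 2 ≤ tX w s L h fun g x => G g x ^ 2 := by
  set c := tX w s L h G with hc
  have p := Sd.tX_nonneg hw s L h (F := fun g x => G g x ^ 2 + (-(2 * c)) * G g x + c ^ 2)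
    fun g x => (sq_nonneg (G g x - c)).trans_eq (by ring)
  rw [Sd.tX_add hw s L h (fun x => ((hG x).pow 2).add ((hG x).const_mul _)) fun _ => Eg.const _,
    Sd.tX_add hw s L h (fun x => (hG x).pow 2) fun x => (hG x).const_mul _, Sd.tX_const_mul,
    tX_const hw] at p
  simp only [← hc] at p
  nlinarith

/-- the conditional mean of a tree observable given the root noise -/
def cm (w : Ω → ℝ) (s : Sh) (M : List (Lv Ω)) (h : Ω → ℝ) (G : Pa s.Lf Ω → (s.Lf → Ω) → ℝ)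
    (z : Ω → ℝ) : ℝ := tX w s M z fun g x => G (fun a => Gf.cons h (stT s M z g a)) x

theorem eg_cm (hw : Wt w) (s : Sh) (M : List (Lv Ω)) (h : Ω → ℝ)
    {G : Pa s.Lf Ω → (s.Lf → Ω) → ℝ} (hG : ∀ x, EgP fun p => G p x) : Eg (cm w s M h G) :=
  eg_tX hw s M (G := fun p x => G (fun a => Gf.cons h (p a)) x) fun x => Gf.egP_cons (hG x) h

theorem tX_root (hw : Wt w) (s : Sh) (l : Lv Ω) (M : List (Lv Ω)) (h : Ω → ℝ)
    {G : Pa s.Lf Ω → (s.Lf → Ω) → ℝ} (hG : ∀ x, EgP fun p => G p x) :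
    tX w (.step s) (l :: M) h (fun g x => G (stT (.step s) (l :: M) h g) x) =
      tE l (X w M) (cm w s M h G) h := by
  refine (Tr.tX_step_cons hw s l M h _ fun x => (hG x).stT (s := .step s) _ h).trans ?_
  have e : ∀ (g : l.ι → ℝ) (g' : NT s M → ℝ), stT (.step s) (l :: M) h (Sum.elim g g') =
      fun a => Gf.cons h (stT s M (h + l.fld g) g' a) := fun g g' =>
    funext fun a => Gf.stT_step s l M h g g' a
  simp only [e]
  rfl

theorem root_tX (hw : Wt w) (s : Sh) (l : Lv Ω) (M : List (Lv Ω)) (h : Ω → ℝ)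
    {G : Pa s.Lf Ω → (s.Lf → Ω) → ℝ} (hG : ∀ x, EgP fun p => G p x) :
    cT l (X w M) (cm w s M h G) (cm w s M h G) h ≤
      tX w (.step s) (l :: M) h (fun g x => G (stT (.step s) (l :: M) h g) x ^ 2) -
        tX w (.step s) (l :: M) h (fun g x => G (stT (.step s) (l :: M) h g) x) ^ 2 := by
  have h2 : ∀ x, EgP fun p => G p x ^ 2 := fun x => by
    simpa only [sq] using (hG x).mul (hG x)
  rw [tX_root hw s l M h hG, tX_root hw s l M h (G := fun p x => G p x ^ 2) h2, cT, ← sq]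
  refine sub_le_sub_right (tE_mono (lg_X hw M) ((eg_cm hw s M h hG).mul (eg_cm hw s M h hG))
    (eg_cm hw s M h h2) (fun z => ?_) l h) _
  rw [← sq]
  exact sq_tX_le hw s M z fun x => (Gf.egP_cons (hG x) h).stT M z

/-- **tree observables** (any shape whose leaves share the root level; functions of the leaves and
of the paths) -/
theorem delta_tX (hw : Wt w) (s : Sh) (l : Lv Ω) (M : List (Lv Ω)) (h : Ω → ℝ)
    {G : Pa s.Lf Ω → (s.Lf → Ω) → ℝ} (hG : ∀ x, EgP fun p => G p x) {a a' V W : ℝ} (haa : a ≤ a')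
    (hW : Wd l (X w M) h a a' ≤ W)
    (hV : ∀ t ∈ Icc a a',
      tX w (.step s) (rt l t :: M) h (fun g x => G (stT (.step s) (rt l t :: M) h g) x ^ 2) -
        tX w (.step s) (rt l t :: M) h (fun g x => G (stT (.step s) (rt l t :: M) h g) x) ^ 2 ≤ V) :
    |tX w (.step s) (rt l a' :: M) h (fun g x => G (stT (.step s) (rt l a' :: M) h g) x) -
      tX w (.step s) (rt l a :: M) h (fun g x => G (stT (.step s) (rt l a :: M) h g) x)| ≤
      √((a' - a) * W * V) := by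
  rw [tX_root hw s _ M h hG, tX_root hw s _ M h hG]
  exact delta_le (lg_X hw M) (eg_cm hw s M h hG) l h haa hW fun t ht =>
    (root_tX hw s (rt l t) M h hG).trans (hV t ht)

/-- functions of the leaves -/
theorem delta_leaf (hw : Wt w) (s : Sh) (l : Lv Ω) (M : List (Lv Ω)) (h : Ω → ℝ)
    (G : (s.Lf → Ω) → ℝ) {a a' V W : ℝ} (haa : a ≤ a') (hW : Wd l (X w M) h a a' ≤ W)
    (hV : ∀ t ∈ Icc a a', tX w (.step s) (rt l t :: M) h (fun _ x => G x ^ 2) -
        tX w (.step s) (rt l t :: M) h (fun _ x => G x) ^ 2 ≤ V) :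
    |tX w (.step s) (rt l a' :: M) h (fun _ x => G x) -
      tX w (.step s) (rt l a :: M) h (fun _ x => G x)| ≤ √((a' - a) * W * V) :=
  delta_tX hw s l M h (G := fun _ x => G x) (fun x => EgP.const (G x)) haa hW hV

/-! ### one path, sums over the nodes -/

theorem stT_one (l : Lv Ω) (M : List (Lv Ω)) (h : Ω → ℝ) (g : NI (l :: M) → ℝ) :
    stT (.step .one) (l :: M) h g = fun _ j => st (l :: M) j h g := by
  funext a k; cases k <;> rfl

theorem pE_eq_tX (w : Ω → ℝ) (l : Lv Ω) (M : List (Lv Ω)) (h : Ω → ℝ)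
    (G : (ℕ → Ω → ℝ) → Ω → ℝ) :
    pE w (l :: M) h (fun g x => G (fun j => st (l :: M) j h g) x) =
      tX w (.step .one) (l :: M) h fun g x => G (stT (.step .one) (l :: M) h g ()) (x ()) := by
  refine Eq.trans ?_ (Gf.tX_one_cons w l M h _)
  rw [Tr.tX_one]
  simp only [stT_one]

/-- **path observables** -/
theorem delta_pE (hw : Wt w) (l : Lv Ω) (M : List (Lv Ω)) (h : Ω → ℝ)
    {G : (ℕ → Ω → ℝ) → Ω → ℝ} (hG : ∀ x, EgP fun p : Pa Unit Ω => G (p ()) x) {a a' V W : ℝ}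
    (haa : a ≤ a') (hW : Wd l (X w M) h a a' ≤ W)
    (hV : ∀ t ∈ Icc a a', pE w (rt l t :: M) h (fun g x => G (fun j => st (rt l t :: M) j h g) x ^ 2) -
        pE w (rt l t :: M) h (fun g x => G (fun j => st (rt l t :: M) j h g) x) ^ 2 ≤ V) :
    |pE w (rt l a' :: M) h (fun g x => G (fun j => st (rt l a' :: M) j h g) x) -
      pE w (rt l a :: M) h (fun g x => G (fun j => st (rt l a :: M) j h g) x)| ≤
      √((a' - a) * W * V) := by
  rw [pE_eq_tX, pE_eq_tX]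
  refine delta_tX hw .one l M h (G := fun p x => G (p ()) (x ())) (fun x => hG (x ())) haa hW
    fun t ht => ?_
  have := hV t ht
  rwa [pE_eq_tX w _ M h fun p x => G p x ^ 2, pE_eq_tX] at this

/-- the conditional mean of `nsum` given the root noise -/
def cn (w : Ω → ℝ) (M : List (Lv Ω)) (c : ℕ → ℝ) (f : ℕ → (Ω → ℝ) → ℝ) (z : Ω → ℝ) : ℝ :=
  ∑ j ∈ Finset.range (M.length + 1), c (j + 1) * node w M j (f (j + 1)) z

theorem eg_cn (hw : Wt w) (M : List (Lv Ω)) (c : ℕ → ℝ) {f : ℕ → (Ω → ℝ) → ℝ}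
    (hf : ∀ j, Eg (f j)) : Eg (cn w M c f) :=
  Eg.sum _ fun j _ => ((hf (j + 1)).node hw M j).const_mul _

theorem tE_cn (hw : Wt w) (l : Lv Ω) (M : List (Lv Ω)) (c : ℕ → ℝ) {f : ℕ → (Ω → ℝ) → ℝ}
    (hf : ∀ j, Eg (f j)) (h : Ω → ℝ) : tE l (X w M) (cn w M c f) h =
      ∑ j ∈ Finset.range (M.length + 1), c (j + 1) * node w (l :: M) (j + 1) (f (j + 1)) h := by
  unfold cn
  rw [tE_sum (lg_X hw M) _ fun j _ => ((hf (j + 1)).node hw M j).const_mul _]
  simp only [tE_const_mul, node_cons]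

theorem root_nsum (hw : Wt w) (l : Lv Ω) (M : List (Lv Ω)) (h : Ω → ℝ) (c : ℕ → ℝ)
    {f : ℕ → (Ω → ℝ) → ℝ} (hf : ∀ j, Eg (f j)) :
    cT l (X w M) (cn w M c f) (cn w M c f) h ≤
      pE w (l :: M) h (fun g _ => Sy41.nsum (l :: M) h c f g ^ 2) -
        pE w (l :: M) h (fun g _ => Sy41.nsum (l :: M) h c f g) ^ 2 := by
  set G : Pa Unit Ω → (Unit → Ω) → ℝ := fun p _ =>
    ∑ j ∈ Finset.range (M.length + 1), c (j + 1) * f (j + 1) (p () (j + 1)) with hGd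
  have hG : ∀ x, EgP fun p => G p x := fun _ =>
    EgP.sum _ fun j _ => (EgP.const _).mul (EgP.state (hf (j + 1)) () (j + 1))
  have key := root_tX hw .one l M h hG
  have e : cm w .one M h G = cn w M c f := by
    funext z
    refine (Tr.tX_one w M z _).trans ?_
    have := Sy41.pE_sum peStmt hw M z (Finset.range (M.length + 1)) (fun j => c (j + 1))
      (Φ := fun j g => f (j + 1) (st M j z g)) fun j => Pe.eg_st M z j (hf (j + 1))
    refine this.trans (Finset.sum_congr rfl fun j _ => ?_)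
    rw [Sy41.pE_st peStmt hw M z j (hf (j + 1))]
  rw [e] at key
  refine key.trans_eq ?_
  rw [← pE_eq_tX w l M h fun p _ => (∑ j ∈ Finset.range (M.length + 1),
    c (j + 1) * f (j + 1) (p (j + 1))) ^ 2, ← pE_eq_tX w l M h fun p _ =>
      ∑ j ∈ Finset.range (M.length + 1), c (j + 1) * f (j + 1) (p (j + 1))]
  rfl

/-- `∑_{j ≥ 1} dm_j φ_j E f_j(node j)` in the model with root tilt `s` -/
def Ob (w : Ω → ℝ) (l : Lv Ω) (M : List (Lv Ω)) (h : Ω → ℝ) (φ : ℕ → ℝ)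
    (f : ℕ → (Ω → ℝ) → ℝ) (s : ℝ) : ℝ :=
  ∑ j ∈ Finset.range (M.length + 1),
    dm (rt l s :: M) 0 (j + 1) * φ (j + 1) * node w (rt l s :: M) (j + 1) (f (j + 1)) h

theorem cn_dm (l : Lv Ω) (M : List (Lv Ω)) (φ : ℕ → ℝ) (f : ℕ → (Ω → ℝ) → ℝ) (s : ℝ) :
    cn w M (fun j => dm (rt l s :: M) 0 j * φ j) f =
      fun z => cn w M (fun j => dm (rt l 0 :: M) 0 j * φ j) f z - s * (φ 1 * f 1 z) := by
  funext z
  simp only [cn, Finset.sum_range_succ', dm_cons_succ, node_zero, zero_add]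
  have e : ∀ j, dm M s (j + 1) = dm M 0 (j + 1) := fun _ => rfl
  have e0 : dm M s 0 = dm M 0 0 - s := by simp [dm, exP]
  simp only [e, e0]
  ring

/-- **sums over the nodes with the masses of the model**: the hypothesis `hV` is the left side of
41's `sync` / `sync_ov` -/
theorem delta_Ob (hw : Wt w) (l : Lv Ω) (M : List (Lv Ω)) (h : Ω → ℝ) (φ : ℕ → ℝ)
    {f : ℕ → (Ω → ℝ) → ℝ} (hf : ∀ j, Eg (f j)) {a a' V W κ : ℝ} (haa : a ≤ a')
    (hW : Wd l (X w M) h a a' ≤ W)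
    (hV : ∀ s ∈ Icc a a', pE w (rt l s :: M) h (fun g _ =>
        Sy41.nsum (rt l s :: M) h (fun j => dm (rt l s :: M) 0 j * φ j) f g ^ 2) -
      pE w (rt l s :: M) h (fun g _ =>
        Sy41.nsum (rt l s :: M) h (fun j => dm (rt l s :: M) 0 j * φ j) f g) ^ 2 ≤ V)
    (hκ : ∀ s ∈ Icc a a', |φ 1 * node w (rt l s :: M) 1 (f 1) h| ≤ κ) :
    |Ob w l M h φ f a' - Ob w l M h φ f a| ≤ √((a' - a) * W * V) + (a' - a) * κ := by
  have e : ∀ s, Ob w l M h φ f s = tE (rt l s) (X w M)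
      (fun z => cn w M (fun j => dm (rt l 0 :: M) 0 j * φ j) f z - s * (φ 1 * f 1 z)) h := fun s => by
    rw [← cn_dm, tE_cn hw _ M _ hf]
    rfl
  rw [e, e]
  refine delta_aff_le (lg_X hw M) (eg_cn hw M _ hf) ((hf 1).const_mul _) l h haa hW
    (fun s hs => ?_) fun s hs => ?_
  · rw [← cn_dm]
    exact (root_nsum hw (rt l s) M h _ hf).trans (hV s hs)
  · have := hκ s hs
    rwa [node_cons, node_zero, ← tE_const_mul] at this

theorem Ob_add (hw : Wt w) (l : Lv Ω) (M : List (Lv Ω)) (h : Ω → ℝ) (φ : ℕ → ℝ)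
    {f f' : ℕ → (Ω → ℝ) → ℝ} (hf : ∀ j, Eg (f j)) (hf' : ∀ j, Eg (f' j)) (s : ℝ) :
    Ob w l M h φ (fun j z => f j z + f' j z) s = Ob w l M h φ f s + Ob w l M h φ f' s := by
  simp only [Ob, node_add hw (hf _) (hf' _), mul_add, Finset.sum_add_distrib]

/-- the absolute bound -/
theorem Ob_abs (l : Lv Ω) (M : List (Lv Ω)) (h : Ω → ℝ) (φ : ℕ → ℝ) (f : ℕ → (Ω → ℝ) → ℝ)
    {a a' A : ℝ} (h1 : |Ob w l M h φ f a| ≤ A) (h2 : |Ob w l M h φ f a'| ≤ A) :
    |Ob w l M h φ f a' - Ob w l M h φ f a| ≤ 2 * A :=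
  (abs_sub _ _).trans (by linarith)

/-- **window averages of the overlap** (41's `sync_ov` plugged in) -/
theorem delta_ov (hw : Wt w) (l : Lv Ω) (M : List (Lv Ω)) (h : Ω → ℝ) {a a' V W κ b : ℝ}
    (h0 : 0 ≤ a) (haa : a ≤ a') (hM : Mono a' M) {T : Set (Equiv.Perm Ω)}
    (hT : ∀ τ ∈ T, Sym w (l :: M) h τ) (htr : ∀ x y, w x ≠ 0 → w y ≠ 0 → ∃ τ ∈ T, τ x = y)
    (l₀ : Lv Ω) (h₀ : ∀ τ ∈ T, ∀ x y, l₀.cov (τ x) (τ y) = l₀.cov x y) {φ : ℕ → ℝ}
    (hφ : ∀ j, 0 ≤ φ j ∧ φ j ≤ b) (hW : Wd l (X w M) h a a' ≤ W)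
    (hV : ∀ s ∈ Icc a a', 4 * ∑ j ∈ Finset.range (M.length + 1),
      dm (rt l s :: M) 0 (j + 1) * φ (j + 1) ^ 2 *
        node w (rt l s :: M) (j + 1) (Sy41.mAm w (M.drop j) l₀) h ≤ V)
    (hκ : ∀ s ∈ Icc a a', |φ 1 * pi2 w (rt l s :: M) 1 l₀.cov h| ≤ κ) :
    |∑ j ∈ Finset.range (M.length + 1),
        dm (rt l a' :: M) 0 (j + 1) * φ (j + 1) * pi2 w (rt l a' :: M) (j + 1) l₀.cov h -
      ∑ j ∈ Finset.range (M.length + 1),
        dm (rt l a :: M) 0 (j + 1) * φ (j + 1) * pi2 w (rt l a :: M) (j + 1) l₀.cov h| ≤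
      √((a' - a) * W * V) + (a' - a) * κ := by
  have er : ∀ L : List (Lv Ω), Sy41.rr w L l₀ = fun z => qf (P w L z) l₀.cov := fun L =>
    funext (Sy41.rr_eq L l₀)
  have key := delta_Ob hw l M h φ (f := fun j => Sy41.rr w ((l :: M).drop j) l₀)
    (fun j => Sy41.eg_rr hw _ l₀) haa hW (V := V) (κ := κ) (fun s hs => ?_) fun s hs => ?_
  · simpa only [Ob, er, pi2, List.drop_succ_cons] using key
  · refine le_trans ?_ (hV s hs)
    exact Sy41.sync_ov peStmt symStmt plantStmt hw (L := rt l s :: M)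
      ⟨h0.trans hs.1, Trf.mono_le hM hs.2⟩ h (T := T) (fun τ hτ => ⟨(hT τ hτ).w, (hT τ hτ).h,
        fun k hk => by
          rcases List.mem_cons.1 hk with rfl | hk
          · exact (hT τ hτ).cov l (by simp)
          · exact (hT τ hτ).cov k (by simp [hk])⟩) htr l₀ h₀ hφ
  · simpa only [er, pi2, List.drop_succ_cons] using hκ s hs

/-! ### double differences along a path of models -/

/-- **double difference**: two curves whose derivatives differ by at most `c` -/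
theorem dd_le {V₀ V₁ D₀ D₁ c : ℝ → ℝ} {θ₀ θ₁ : ℝ} (hθ : θ₀ ≤ θ₁)
    (c0 : ContinuousOn V₀ (Icc θ₀ θ₁)) (c1 : ContinuousOn V₁ (Icc θ₀ θ₁))
    (d0 : ∀ θ ∈ Ioo θ₀ θ₁, HasDerivAt V₀ (D₀ θ) θ) (d1 : ∀ θ ∈ Ioo θ₀ θ₁, HasDerivAt V₁ (D₁ θ) θ)
    (hc : IntegrableOn c (Icc θ₀ θ₁)) (hb : ∀ θ ∈ Ioo θ₀ θ₁, |D₁ θ - D₀ θ| ≤ c θ) :
    |(V₁ θ₁ - V₀ θ₁) - (V₁ θ₀ - V₀ θ₀)| ≤ ∫ θ in θ₀..θ₁, c θ := by
  have a1 := intervalIntegral.sub_le_integral_of_hasDeriv_right_of_le hθ (c1.sub c0)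
    (fun θ h => ((d1 θ h).sub (d0 θ h)).hasDerivWithinAt) hc fun θ h => (abs_le.1 (hb θ h)).2
  have a2 := intervalIntegral.sub_le_integral_of_hasDeriv_right_of_le hθ (c0.sub c1)
    (fun θ h => ((d0 θ h).sub (d1 θ h)).hasDerivWithinAt) hc fun θ h => by
      linarith [(abs_le.1 (hb θ h)).1]
  simp only [Pi.sub_apply] at a1 a2
  rw [abs_le]
  constructor <;> linarith

/-- the moving root level with tilt `s` -/
def mr (p : ML Ω) (s : ℝ) : ML Ω := ⟨rt p.l s, p.v, p.v'⟩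

theorem mat_mr (p : ML Ω) (L : List (ML Ω)) (s θ : ℝ) :
    mat (mr p s :: L) θ = rt (p.at θ) s :: mat L θ := rfl

/-- the pair observable of a move -/
def mf (w : Ω → ℝ) (p : ML Ω) (L : List (ML Ω)) (θ : ℝ) (j : ℕ) (z : Ω → ℝ) : ℝ :=
  qf (P w ((mat (p :: L) θ).drop j) z) (dcov (p :: L) θ j)

theorem dcov_mr (p : ML Ω) (L : List (ML Ω)) (s θ : ℝ) (j : ℕ) :
    dcov (mr p s :: L) θ j = dcov (p :: L) θ j := by
  cases j with
  | zero => rw [dcov_zero, dcov_zero]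
  | succ j => funext x y; rw [dcov_cons, dcov_cons]; rfl

theorem mD_mr (hw : Wt w) (p : ML Ω) (L : List (ML Ω)) (h : Ω → ℝ) (s θ : ℝ) {c : ℝ}
    (hd : ∀ x, w x ≠ 0 → dcov (p :: L) θ (L.length + 1) x x = c) :
    mD w (mr p s :: L) h θ = (c - Ob w (p.at θ) (mat L θ) h (fun _ => 1) (mf w p L θ) s) / 2 := by
  rw [mD, Finset.sum_range_succ', dcov_zero, pi2_const hw, mul_zero, add_zero]
  congr 2
  · simp only [List.length_cons, dcov_mr]
    rw [← one_mul c, ← sum_P hw (mat (mr p s :: L) θ) h, Finset.sum_mul]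
    refine Finset.sum_congr rfl fun x _ => ?_
    by_cases hx : w x = 0
    · simp [P_eq_zero hx]
    · exact congrArg _ (hd x hx)
  · simp only [Ob, mat_length, List.length_cons, mul_one, dcov_mr]
    rfl

/-- **double difference along 21's moves**: the diagonal of the moved covariance is constant -/
theorem mov_dd (hw : Wt w) (p : ML Ω) (L : List (ML Ω)) (h : Ω → ℝ) {a a' θ₀ θ₁ : ℝ}
    (hθ : θ₀ ≤ θ₁) (hC : ∀ q ∈ p :: L, ContinuousOn q.v (Icc θ₀ θ₁))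
    (hL : ∀ q ∈ p :: L, q.Ok (Ioo θ₀ θ₁)) {dg c : ℝ → ℝ}
    (hd : ∀ θ ∈ Ioo θ₀ θ₁, ∀ x, w x ≠ 0 → dcov (p :: L) θ (L.length + 1) x x = dg θ)
    (hc : IntegrableOn c (Icc θ₀ θ₁))
    (hb : ∀ θ ∈ Ioo θ₀ θ₁, |Ob w (p.at θ) (mat L θ) h (fun _ => 1) (mf w p L θ) a' -
      Ob w (p.at θ) (mat L θ) h (fun _ => 1) (mf w p L θ) a| ≤ 2 * c θ) :
    |(X w (rt (p.at θ₁) a' :: mat L θ₁) h - X w (rt (p.at θ₁) a :: mat L θ₁) h) -
      (X w (rt (p.at θ₀) a' :: mat L θ₀) h - X w (rt (p.at θ₀) a :: mat L θ₀) h)| ≤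
      ∫ θ in θ₀..θ₁, c θ := by
  have k1 : ∀ s, ∀ q ∈ mr p s :: L, ContinuousOn q.v (Icc θ₀ θ₁) := fun s q hq => by
    rcases List.mem_cons.1 hq with rfl | hq
    · exact hC p (by simp)
    · exact hC q (by simp [hq])
  have k2 : ∀ s, ∀ q ∈ mr p s :: L, q.Ok (Ioo θ₀ θ₁) := fun s q hq => by
    rcases List.mem_cons.1 hq with rfl | hq
    · exact hL p (by simp)
    · exact hL q (by simp [hq])
  refine dd_le (V₀ := fun θ => X w (mat (mr p a :: L) θ) h)
    (V₁ := fun θ => X w (mat (mr p a' :: L) θ) h) hθ (mov_cont hw isCompact_Icc (k1 a) h)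
    (mov_cont hw isCompact_Icc (k1 a') h) (fun θ hθ => mov hw isOpen_Ioo (k2 a) hθ h)
    (fun θ hθ => mov hw isOpen_Ioo (k2 a') hθ h) hc fun θ hθ => ?_
  rw [mD_mr hw p L h a' θ (hd θ hθ), mD_mr hw p L h a θ (hd θ hθ)]
  have := abs_le.1 (hb θ hθ)
  rw [abs_le]
  constructor <;> linarith [this.1, this.2]

/-- the remainder of the Guerra move from the root is an `Ob` -/
theorem gR_eq_Ob (N : List (Lv Ω)) (lW lF : Lv Ω) (a v0 : ℝ) (ℓ : List (ℝ × ℝ × ℝ))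
    (R : Ω → Ω → ℝ) (h : Ω → ℝ) (d : ℝ) :
    gR w [] N lW lF a v0 ℓ R h d = Ob w (lv lW (v0 - d) 0) (gF lF ℓ d ++ N) h (fun _ => 1)
      (fun j z => qf (P w ((gF lF ℓ d ++ N).drop (j - 1)) z) fun x y => (R x y - gq ℓ (j - 1)) ^ 2)
      a := by
  have hl : (gF lF ℓ d ++ N).length = ℓ.length + N.length := by simp [gF]
  simp only [gR, Ob, hl, mul_one, List.length_nil, zero_add, Nat.add_sub_cancel]
  refine Finset.sum_congr rfl fun j _ => ?_
  rw [add_comm 1 j, dm_cons_succ]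
  rfl

/-- **double difference along the Guerra move** from the root -/
theorem gue_dd (hw : Wt w) (N : List (Lv Ω)) {lW lF : Lv Ω} (v0 : ℝ) {ℓ : List (ℝ × ℝ × ℝ)}
    {R : Ω → Ω → ℝ} {c : ℝ} (hR : ∀ x, R x x = 1) (hW : ∀ x y, lW.cov x y = c / 2 * R x y ^ 2)
    (hF : ∀ x y, lF.cov x y = c * R x y) (h : Ω → ℝ) {a a' d₀ d₁ : ℝ} (h01 : d₀ ≤ d₁)
    (hd : d₁ ≤ v0) (hℓ : ∀ p ∈ ℓ, p.2.2 = 0 ∨ ∀ d ∈ Ioo d₀ d₁, 0 < p.2.1 + p.2.2 * d) {e : ℝ → ℝ}
    (he : IntegrableOn e (Icc d₀ d₁))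
    (hb : ∀ d ∈ Ioo d₀ d₁,
      |c / 4 * (gR w [] N lW lF a' v0 ℓ R h d - gR w [] N lW lF a v0 ℓ R h d)| ≤ e d) :
    |(X w (gL [] N lW lF a' v0 ℓ d₁) h - X w (gL [] N lW lF a v0 ℓ d₁) h) -
      (X w (gL [] N lW lF a' v0 ℓ d₀) h - X w (gL [] N lW lF a v0 ℓ d₀) h)| ≤
      ∫ d in d₀..d₁, e d := by
  have k : ∀ s, ContinuousOn (fun d => X w (gL [] N lW lF s v0 ℓ d) h - d * (c / 4 * gc ℓ))
      (Icc d₀ d₁) := fun s =>
    ((gue_cont hw [] N lW lF s v0 ℓ h).sub (continuous_id.mul continuous_const)).continuousOn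
  have k' := fun s (d : ℝ) (hd' : d ∈ Ioo d₀ d₁) => gue hw [] N s v0 hR hW hF h
    (hd'.2.trans_le hd) fun p hp => (hℓ p hp).imp_right fun H => H d hd'
  have := dd_le h01 (k a) (k a') (k' a) (k' a') he fun d hd' => by
    rw [← mul_sub]; exact hb d hd'
  refine le_of_eq_of_le ?_ this
  congr 1
  ring

end Crest.Agent.T156.Cas.Del12

end
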