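import Crest.Agent.T156.CaSand_41

/-!
# Row 156: budget bound for `tr A²`, windows inside blocks
-/

set_option autoImplicit false
set_option linter.unusedSectionVars false

noncomputable section

namespace Crest.Agent.T156.Cas.Sy41

open MeasureTheory Real Set Filter Topology
open Crest.Agent.T157.E Crest.Agent.T157.Casc Crest.Agent.T157.SL

variable {Ω : Type} [Fintype Ω] {w : Ω → ℝ}

theorem rr_nonneg (L : List (Lv Ω)) (l₀ : Lv Ω) (z : Ω → ℝ) : 0 ≤ rr w L l₀ z :=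
  Finset.sum_nonneg fun _ _ => sq_nonneg _

theorem rr_le_one (hw : Wt w) (L : List (Lv Ω)) {l₀ : Lv Ω} (h1 : ∀ x, l₀.cov x x ≤ 1)
    (z : Ω → ℝ) : rr w L l₀ z ≤ 1 := by
  refine le_trans ?_ (sum_P_le hw L z fun x _ => h1 x)
  simp only [rr, Lv.cov, Finset.mul_sum]
  rw [Finset.sum_comm]
  refine Finset.sum_le_sum fun i _ => ?_
  have := Hess87.Cb_nonneg hw L z fun x => l₀.A x i
  rw [Cb_A, Pf] at this
  linarith [sq (mv w L l₀ z i)]

omit [Fintype Ω] in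
theorem fld_sq_le {l₀ : Lv Ω} (h1 : ∀ x, l₀.cov x x ≤ 1) (x : Ω) (v : l₀.ι → ℝ) :
    l₀.fld v x ^ 2 ≤ 1 * ∑ i, v i ^ 2 :=
  (Finset.sum_mul_sq_le_sq_mul_sq _ _ _).trans (mul_le_mul_of_nonneg_right
    (by simpa only [Lv.cov, sq] using h1 x) (Finset.sum_nonneg fun _ _ => sq_nonneg _))

theorem trA2_step (hw : Wt w) {L : List (Lv Ω)} (hL : ∀ l ∈ L, 0 ≤ l.m) {l₀ : Lv Ω}
    (h1 : ∀ x, l₀.cov x x ≤ 1) {B : Ω → l₀.ι → ℝ} {s m : ℝ} (hB : ∀ x i, B x i = s * l₀.A x i)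
    (hm : 0 ≤ m) (hm1 : m ≤ 1) (z : Ω → ℝ) :
    s ^ 2 * trA2 w (⟨l₀.ι, B, m⟩ :: L) l₀ z ≤ (2 + 2 * s ^ 2) *
      (tE ⟨l₀.ι, B, m⟩ (X w L) (rr w L l₀) z - rr w (⟨l₀.ι, B, m⟩ :: L) l₀ z) := by
  set l : Lv Ω := ⟨l₀.ι, B, m⟩ with hl
  have hX := lg_X hw L
  have em := eg_mv hw L l₀
  have mc : ∀ i, mv w (l :: L) l₀ z i = tE l (X w L) (fun z => mv w L l₀ z i) z := fun i =>
    Hess87.Pf_cons hw l L z _
  set v : l₀.ι → ℝ := fun i => tE l (X w L) (fun z => mv w L l₀ z i ^ 2) z -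
    mv w (l :: L) l₀ z i ^ 2 with hv
  have eΔ : tE l (X w L) (rr w L l₀) z - rr w (l :: L) l₀ z = ∑ i, v i := by
    unfold rr
    rw [tE_sum hX _ fun i _ => (em i).pow 2, ← Finset.sum_sub_distrib]
  have v0 : ∀ i, 0 ≤ v i := fun i => by
    simp only [hv, mc]; exact Ric63.var_nonneg hX (em i) l z
  have d1 : ∑ i, v i ≤ 1 := by
    rw [← eΔ]
    have := tE_mono hX (eg_rr hw L l₀) (Eg.const 1) (rr_le_one hw L h1) l z
    rw [tE_const hX] at this
    linarith [rr_nonneg (w := w) (l :: L) l₀ z]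
  have b1 : ∀ k, s ^ 2 * ∑ i, tE l (X w L)
      (fun z => Hb w L z (fun x => l₀.A x k) fun x => l₀.A x i) z ^ 2 ≤ v k := fun k => by
    have := budStmt Ω w hw l L z _ _ hm hL (Ric63.gr_Pf hw L fun x => l₀.A x k)
    simp only [hv, mc]
    refine le_trans (le_of_eq ?_) this
    rw [Finset.mul_sum]
    refine Finset.sum_congr rfl fun i _ => ?_
    rw [← mul_pow, ← tE_const_mul]
    congr 2
    funext z
    have hA : ∀ x (i : l₀.ι), l.A x i = s * l₀.A x i := hB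
    simp only [Hb, Finset.mul_sum, Finset.sum_mul]
    exact Finset.sum_comm.trans (Finset.sum_congr rfl fun _ _ => Finset.sum_congr rfl fun _ _ => by
      rw [hA]; ring)
  have b2 : ∀ i k, (tE l (X w L) (fun z => mv w L l₀ z i * mv w L l₀ z k) z -
      mv w (l :: L) l₀ z i * mv w (l :: L) l₀ z k) ^ 2 ≤ v i * v k := fun i k => by
    have h2 := Ric63.tE_cs hX ((em i).sub (Eg.const (mv w (l :: L) l₀ z i)))
      ((em k).sub (Eg.const (mv w (l :: L) l₀ z k))) l z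
    rw [Ric63.tE_var hX (em i), Ric63.tE_var hX (em k), ← mc, ← mc] at h2
    have e : (fun z' => (mv w L l₀ z' i - mv w (l :: L) l₀ z i) *
        (mv w L l₀ z' k - mv w (l :: L) l₀ z k)) = fun z' => mv w L l₀ z' i * mv w L l₀ z' k -
        mv w (l :: L) l₀ z k * mv w L l₀ z' i - mv w (l :: L) l₀ z i * mv w L l₀ z' k +
        mv w (l :: L) l₀ z i * mv w (l :: L) l₀ z k := by funext z'; ring
    have e1 := (em i).mul (em k)
    have e2 := (em i).const_mul (mv w (l :: L) l₀ z k)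
    have e3 := (em k).const_mul (mv w (l :: L) l₀ z i)
    rw [e, tE_add hX ((e1.sub e2).sub e3) (Eg.const _), tE_sub hX (e1.sub e2) e3, tE_sub hX e1 e2,
      tE_const_mul, tE_const_mul, tE_const hX, ← mc, ← mc] at h2
    simp only [hv]
    convert h2 using 2 <;> ring
  have b3 : trA2 w (l :: L) l₀ z ≤ 2 * ∑ k, ∑ i, tE l (X w L)
      (fun z => Hb w L z (fun x => l₀.A x k) fun x => l₀.A x i) z ^ 2 + 2 * (∑ i, v i) ^ 2 := by
    simp only [trA2, sq (∑ i, v i), Finset.sum_mul_sum, Finset.mul_sum _ _ (2 : ℝ),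
      ← Finset.sum_add_distrib]
    refine Finset.sum_le_sum fun k _ => Finset.sum_le_sum fun i _ => ?_
    rw [Hess87.Hb_cons hw]
    have h3 := b2 k i
    simp only [mv] at h3
    generalize tE l (X w L) (fun z => Pf w L z (fun x => l₀.A x k) * Pf w L z fun x => l₀.A x i) z -
      Pf w (l :: L) z (fun x => l₀.A x k) * Pf w (l :: L) z (fun x => l₀.A x i) = c at h3 ⊢
    generalize tE l (X w L) (fun z => Hb w L z (fun x => l₀.A x k) fun x => l₀.A x i) z = A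
    have h4 : (m * c) ^ 2 ≤ c ^ 2 := by
      rw [mul_pow]; exact mul_le_of_le_one_left (sq_nonneg _) (pow_le_one₀ hm hm1)
    show (A + m * c) ^ 2 ≤ _
    nlinarith [sq_nonneg (A - m * c)]
  have b4 := Finset.sum_le_sum fun k (_ : k ∈ Finset.univ) => b1 k
  rw [← Finset.mul_sum] at b4
  have b5 : (∑ i, v i) ^ 2 ≤ ∑ i, v i := by
    nlinarith [Finset.sum_nonneg fun i (_ : i ∈ Finset.univ) => v0 i]
  rw [eΔ]
  nlinarith [mul_le_mul_of_nonneg_left b3 (sq_nonneg s), mul_le_mul_of_nonneg_left b5 (sq_nonneg s)]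

theorem trA2_node (hw : Wt w) {L : List (Lv Ω)} (hL : Mono 0 L) {l₀ : Lv Ω}
    (h1 : ∀ x, l₀.cov x x ≤ 1) {B : Ω → l₀.ι → ℝ} {s m : ℝ} (hB : ∀ x i, B x i = s * l₀.A x i)
    {j : ℕ} (hj : L.drop j = ⟨l₀.ι, B, m⟩ :: L.drop (j + 1)) (h : Ω → ℝ) :
    s ^ 2 * node w L j (trA2 w (L.drop j) l₀) h ≤
      (2 + 2 * s ^ 2) * (rho w L l₀ h (j + 1) - rho w L l₀ h j) := by
  have hm := mono_drop j hL
  rw [hj] at hm
  rw [← rho_sub hw L l₀ (Nat.le_succ j), ← congrFun (node_const_mul w _ _ L j) h,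
    ← congrFun (node_const_mul w _ _ L j) h]
  refine node_mono hw ((eg_trA2 hw _ l₀).const_mul _)
    ((((eg_rr hw _ l₀).node hw _ _).sub (eg_rr hw _ l₀)).const_mul _) (fun z => ?_) L j h
  rw [Nat.succ_eq_add_one, Nat.add_sub_cancel_left]
  conv_lhs => rw [hj]
  conv_rhs => enter [2]; rw [hj]
  rw [node_cons, node_zero]
  exact trA2_step (m := m) hw (hm.2.nn hm.1) h1 hB hm.1 (Hess87.mono_le_one hm.2) z

/-! ### windows -/

theorem log_step {W μ : ℝ} (hμ : 0 ≤ μ) (hW : 0 < W) : μ / (μ + W) ≤ log (μ + W) - log W := by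
  have h := Real.log_le_sub_one_of_pos (div_pos hW (by positivity : 0 < μ + W))
  rw [Real.log_div hW.ne' (by positivity)] at h
  have : W / (μ + W) - 1 = -(μ / (μ + W)) := by field_simp; ring
  linarith

theorem blk_up {μ : ℕ → ℝ} (hμ : ∀ k, 0 ≤ μ k) {α : ℝ} (hα : 0 < α) : ∀ m s : ℕ,
    ∑ i ∈ Finset.range m, μ (s + i) / (∑ k ∈ Finset.Ico (s + i) (s + m), μ k + α) ≤
      log (∑ k ∈ Finset.Ico s (s + m), μ k + α) - log α
  | 0, s => by simp
  | m + 1, s => by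
    have ih := blk_up hμ hα m (s + 1)
    have e : ∑ k ∈ Finset.Ico s (s + (m + 1)), μ k = μ s + ∑ k ∈ Finset.Ico (s + 1) (s + 1 + m), μ k := by
      rw [Finset.sum_eq_sum_Ico_succ_bot (by omega), show s + (m + 1) = s + 1 + m by omega]
    have h0 : 0 ≤ ∑ k ∈ Finset.Ico (s + 1) (s + 1 + m), μ k := Finset.sum_nonneg fun k _ => hμ k
    have h1 := log_step (hμ s) (by positivity : 0 < ∑ k ∈ Finset.Ico (s + 1) (s + 1 + m), μ k + α)
    rw [Finset.sum_range_succ', add_zero, e, add_assoc (μ s)]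
    have e2 : ∑ i ∈ Finset.range m, μ (s + (i + 1)) /
        (∑ k ∈ Finset.Ico (s + (i + 1)) (s + (m + 1)), μ k + α) = ∑ i ∈ Finset.range m,
        μ (s + 1 + i) / (∑ k ∈ Finset.Ico (s + 1 + i) (s + 1 + m), μ k + α) :=
      Finset.sum_congr rfl fun i _ => by
        rw [show s + (i + 1) = s + 1 + i by omega, show s + (m + 1) = s + 1 + m by omega]
    linarith

theorem blk_dn {μ : ℕ → ℝ} (hμ : ∀ k, 0 ≤ μ k) {α : ℝ} (hα : 0 < α) (s : ℕ) : ∀ m : ℕ,
    ∑ i ∈ Finset.range m, μ (s + i) / (∑ k ∈ Finset.Ico s (s + i + 1), μ k + α) ≤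
      log (∑ k ∈ Finset.Ico s (s + m), μ k + α) - log α
  | 0 => by simp
  | m + 1 => by
    have ih := blk_dn hμ hα s m
    have h0 : 0 ≤ ∑ k ∈ Finset.Ico s (s + m), μ k := Finset.sum_nonneg fun k _ => hμ k
    have h1 := log_step (hμ (s + m)) (by positivity : 0 < ∑ k ∈ Finset.Ico s (s + m), μ k + α)
    rw [Finset.sum_range_succ, ← add_assoc, Finset.sum_Ico_succ_top (by omega),
      add_comm _ (μ (s + m)), add_assoc (μ (s + m))]
    linarith

theorem sum_blocks (f : ℕ → ℝ) (m : ℕ) : ∀ B : ℕ,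
    ∑ j ∈ Finset.range (m * B), f j = ∑ b ∈ Finset.range B, ∑ i ∈ Finset.range m, f (m * b + i)
  | 0 => by simp
  | B + 1 => by rw [Nat.mul_succ, Finset.sum_range_add, sum_blocks f m B, Finset.sum_range_succ]

theorem win {μ e : ℕ → ℝ} (hμ : ∀ k, 0 ≤ μ k) (h1 : ∀ S : Finset ℕ, ∑ k ∈ S, μ k ≤ 1)
    (he : ∀ j, e j ≤ 1) {α γ : ℝ} (hα : 0 < α) (hγ : 0 ≤ γ) (m B : ℕ)
    (H : ∀ b, ∀ i < m, μ (m * b + i) ≠ 0 → e (m * b + i) ≤
      8 * α / ∑ k ∈ Finset.Ico (m * b + i) (m * b + m), μ k +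
      8 * α / ∑ k ∈ Finset.Ico (m * b) (m * b + i + 1), μ k + γ) :
    ∑ j ∈ Finset.range (m * B), μ j * e j ≤ 18 * α * B * log (1 + 1 / α) + γ := by
  have hl : ∀ S : Finset ℕ, log (∑ k ∈ S, μ k + α) - log α ≤ log (1 + 1 / α) := fun S => by
    have h0 : 0 ≤ ∑ k ∈ S, μ k := Finset.sum_nonneg fun k _ => hμ k
    rw [← Real.log_div (by positivity) hα.ne']
    refine Real.log_le_log (by positivity) ?_
    rw [add_div, div_self hα.ne', add_comm]
    gcongr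
    exact h1 S
  have key : ∀ b, ∀ i ∈ Finset.range m, μ (m * b + i) * e (m * b + i) ≤
      9 * α * (μ (m * b + i) / (∑ k ∈ Finset.Ico (m * b + i) (m * b + m), μ k + α)) +
      9 * α * (μ (m * b + i) / (∑ k ∈ Finset.Ico (m * b) (m * b + i + 1), μ k + α)) +
      γ * μ (m * b + i) := fun b i hi => by
    by_cases h0 : μ (m * b + i) = 0
    · simp [h0]
    have h2 := H b i (Finset.mem_range.1 hi) h0
    have h3 := he (m * b + i)
    have w1 : 0 ≤ ∑ k ∈ Finset.Ico (m * b + i) (m * b + m), μ k := Finset.sum_nonneg fun k _ => hμ k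
    have w2 : 0 ≤ ∑ k ∈ Finset.Ico (m * b) (m * b + i + 1), μ k := Finset.sum_nonneg fun k _ => hμ k
    generalize ∑ k ∈ Finset.Ico (m * b + i) (m * b + m), μ k = W at h2 w1 ⊢
    generalize ∑ k ∈ Finset.Ico (m * b) (m * b + i + 1), μ k = W' at h2 w2 ⊢
    have a1 : ∀ W, 0 ≤ W → W ≤ 8 * α → 1 ≤ 9 * α / (W + α) := fun W h h' => by
      rw [le_div_iff₀ (by positivity)]; linarith
    have a2 : ∀ W, 8 * α ≤ W → 8 * α / W ≤ 9 * α / (W + α) := fun W h => by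
      have : 0 < W := by linarith
      rw [div_le_div_iff₀ this (by positivity)]; nlinarith
    have p1 : 0 ≤ 9 * α / (W + α) := by positivity
    have p2 : 0 ≤ 9 * α / (W' + α) := by positivity
    have h4 : e (m * b + i) ≤ 9 * α / (W + α) + 9 * α / (W' + α) + γ := by
      rcases le_total W (8 * α) with h | h
      · linarith [a1 W w1 h]
      rcases le_total W' (8 * α) with h' | h'
      · linarith [a1 W' w2 h']
      linarith [a2 W h, a2 W' h']
    refine (mul_le_mul_of_nonneg_left h4 (hμ _)).trans (le_of_eq ?_)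
    ring
  have h5 := h1 (Finset.range (m * B))
  rw [sum_blocks] at h5 ⊢
  have h6 : ∀ b ∈ Finset.range B, ∑ i ∈ Finset.range m, μ (m * b + i) * e (m * b + i) ≤
      18 * α * log (1 + 1 / α) + γ * ∑ i ∈ Finset.range m, μ (m * b + i) := fun b _ => by
    refine (Finset.sum_le_sum (key b)).trans ?_
    simp only [Finset.sum_add_distrib, ← Finset.mul_sum]
    have u1 := (blk_up hμ hα m (m * b)).trans (hl _)
    have u2 := (blk_dn hμ hα (m * b) m).trans (hl _)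
    nlinarith
  refine (Finset.sum_le_sum h6).trans ?_
  rw [Finset.sum_add_distrib, ← Finset.mul_sum _ _ γ, Finset.sum_const, Finset.card_range,
    nsmul_eq_mul]
  nlinarith

omit [Fintype Ω] in
theorem dm_eq_zero (L : List (Lv Ω)) {k : ℕ} (hk : L.length ≤ k) : dm L 0 (k + 1) = 0 := by
  simp [dm, exP, ex, List.getElem?_eq_none hk, List.getElem?_eq_none (hk.trans (Nat.le_succ k))]

theorem wsum {μ : ℕ → ℝ} {N : ℕ} (h0 : ∀ k, N ≤ k → μ k = 0) (S : Finset ℕ) (c : ℝ) (F : ℕ → ℝ) :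
    ∑ k ∈ Finset.range N, μ k * (if k ∈ S then c else 0) * F k = c * ∑ k ∈ S, μ k * F k := by
  have e : ∀ k, μ k * (if k ∈ S then c else 0) * F k = if k ∈ S then c * (μ k * F k) else 0 :=
    fun k => by split_ifs <;> ring
  simp only [e]
  rw [Finset.sum_ite_mem, Finset.mul_sum]
  refine Finset.sum_subset Finset.inter_subset_right fun k hk hk' => ?_
  rw [h0 k (by by_contra hh; exact hk' (Finset.mem_inter.2 ⟨Finset.mem_range.2 (by omega), hk⟩))]
  simp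

/-- the sandwich for two uniform windows -/
theorem sand_win (hw : Wt w) {L : List (Lv Ω)} (hL : Mono 0 L) (h : Ω → ℝ)
    {T : Set (Equiv.Perm Ω)} (hT : ∀ τ ∈ T, Sym w L h τ)
    (htr : ∀ x y, w x ≠ 0 → w y ≠ 0 → ∃ τ ∈ T, τ x = y) (l₀ : Lv Ω)
    (h₀ : ∀ τ ∈ T, ∀ x y, l₀.cov (τ x) (τ y) = l₀.cov x y) (j : ℕ) {S S' : Finset ℕ}
    (hS : ∀ k ∈ S, j ≤ k) (hS' : ∀ k ∈ S', k ≤ j) (hj : j ∈ S) (hj' : j ∈ S')
    (hm : dm L 0 (j + 1) ≠ 0) {α V η q : ℝ}
    (ha : ∀ k, dm L 0 (k + 1) ≠ 0 → node w L (k + 1) (mAm w (L.drop (k + 1)) l₀) h ≤ α)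
    (hV : ∀ k, dm L 0 (k + 1) ≠ 0 → node w L (k + 1) (Vq w (L.drop (k + 1)) l₀) h ≤ V)
    (hρ : ∀ k ∈ S ∪ S', dm L 0 (k + 1) ≠ 0 → |rho w L l₀ h (k + 1) - q| ≤ η) :
    node w L (j + 1) (fun z => (rr w (L.drop (j + 1)) l₀ z - q) ^ 2) h ≤
      8 * α / ∑ k ∈ S, dm L 0 (k + 1) + 8 * α / ∑ k ∈ S', dm L 0 (k + 1) + (4 * η ^ 2 + 16 * V) := by
  have μ0 : ∀ k, 0 ≤ dm L 0 (k + 1) := fun k => dm_nonneg hL _
  have pos : ∀ S : Finset ℕ, j ∈ S → 0 < ∑ k ∈ S, dm L 0 (k + 1) := fun S hj =>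
    ((μ0 j).lt_of_ne' hm).trans_le (Finset.single_le_sum (fun k _ => μ0 k) hj)
  have ws := wsum (μ := fun k => dm L 0 (k + 1)) fun k hk => dm_eq_zero L hk
  have avg : ∀ (S : Finset ℕ) (F : ℕ → ℝ) (c : ℝ), j ∈ S → (∀ k ∈ S, dm L 0 (k + 1) ≠ 0 → F k ≤ c) →
      (∑ k ∈ S, dm L 0 (k + 1))⁻¹ * ∑ k ∈ S, dm L 0 (k + 1) * F k ≤ c := fun S F c hj H => by
    rw [inv_mul_le_iff₀ (pos S hj), Finset.sum_mul]
    refine Finset.sum_le_sum fun k hk => ?_
    by_cases h0 : dm L 0 (k + 1) = 0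
    · simp [h0]
    · exact mul_le_mul_of_nonneg_left (H k hk h0) (μ0 k)
  have dev : ∀ S : Finset ℕ, j ∈ S → (∀ k ∈ S, dm L 0 (k + 1) ≠ 0 → |rho w L l₀ h (k + 1) - q| ≤ η) →
      ((∑ k ∈ S, dm L 0 (k + 1))⁻¹ * ∑ k ∈ S, dm L 0 (k + 1) * rho w L l₀ h (k + 1) - q) ^ 2 ≤
        η ^ 2 := fun S hj H => by
    have h1 := avg S (fun k => rho w L l₀ h (k + 1)) (q + η) hj fun k hk h0 => by linarith [(abs_le.1 (H k hk h0)).2]
    have h2 := avg S (fun k => -rho w L l₀ h (k + 1)) (η - q) hj fun k hk h0 => by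
      linarith [(abs_le.1 (H k hk h0)).1]
    simp only [mul_neg, Finset.sum_neg_distrib] at h2
    exact sq_le_sq' (by linarith) (by linarith)
  set c := (∑ k ∈ S, dm L 0 (k + 1))⁻¹ with hc
  set c' := (∑ k ∈ S', dm L 0 (k + 1))⁻¹ with hc'
  have c0 : 0 ≤ c := inv_nonneg.2 (pos S hj).le
  have c0' : 0 ≤ c' := inv_nonneg.2 (pos S' hj').le
  have key := sand hw hL h hT htr l₀ h₀ (j + 1) (b := c + c')
    (φ := fun k => if k - 1 ∈ S ∧ 0 < k then c else 0)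
    (φ' := fun k => if k - 1 ∈ S' ∧ 0 < k then c' else 0)
    (fun k => by split_ifs <;> constructor <;> linarith)
    (fun k => by split_ifs <;> constructor <;> linarith)
    (by simpa [inv_mul_cancel₀ (pos S hj).ne', hc] using ws S c fun _ => 1)
    (by simpa [inv_mul_cancel₀ (pos S' hj').ne', hc'] using ws S' c' fun _ => 1)
    (fun k hk => if_neg fun hh => by have := hS _ hh.1; omega)
    (fun k hk => if_neg fun hh => by have := hS' _ hh.1; omega) q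
  simp only [Nat.add_sub_cancel, Nat.succ_pos, and_true, ite_pow, sq (0 : ℝ), mul_zero,
    mul_add, add_mul, Finset.sum_add_distrib, ws] at key
  have a1 := mul_le_mul_of_nonneg_left (avg S _ α hj fun k _ => ha k) c0
  have a2 := mul_le_mul_of_nonneg_left (avg S' _ α hj' fun k _ => ha k) c0'
  have d1 := dev S hj fun k hk => hρ k (Finset.mem_union_left _ hk)
  have d2 := dev S' hj' fun k hk => hρ k (Finset.mem_union_right _ hk)
  have v1 := hV j hm
  have v2 := avg S' _ V hj' fun k _ => hV k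
  rw [← hc] at a1 d1
  rw [← hc'] at a2 d2 v2
  rw [div_eq_mul_inv, div_eq_mul_inv, ← hc, ← hc']
  nlinarith

end Crest.Agent.T156.Cas.Sy41

end
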