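import Crest.Agent.T156.CondC_31

/-!
# Row 156 (helper6): (E1) from its leaves
-/

set_option autoImplicit false
set_option linter.unusedSectionVars false

noncomputable section

namespace Crest.Agent.T156.Cas.E91

open MeasureTheory Real Set Filter Topology
open Crest.Agent.T157.E Crest.Agent.T157.Casc Crest.Agent.T157.SL
open Nu87

namespace G6

theorem D2_add (Φ Ψ : Fin 6 → Fin 6 → Fin 6 → Fin 6 → ℝ) :
    D2 (fun c d e f => Φ c d e f + Ψ c d e f) = D2 Φ + D2 Ψ := by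
  simp only [D2, mul_add, Finset.sum_add_distrib]

theorem D2_sub (Φ Ψ : Fin 6 → Fin 6 → Fin 6 → Fin 6 → ℝ) :
    D2 (fun c d e f => Φ c d e f - Ψ c d e f) = D2 Φ - D2 Ψ := by
  simp only [D2, mul_sub, Finset.sum_sub_distrib]

theorem D2_mul (a : ℝ) (Φ : Fin 6 → Fin 6 → Fin 6 → Fin 6 → ℝ) :
    D2 (fun c d e f => a * Φ c d e f) = a * D2 Φ := by
  simp only [D2, Finset.mul_sum, mul_left_comm a]

theorem abs_sum_fin {n : ℕ} {f : Fin n → ℝ} {X : ℝ} (h : ∀ i, |f i| ≤ X) : |∑ i, f i| ≤ n * X :=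
  (Finset.abs_sum_le_sum_abs _ _).trans ((Finset.sum_le_card_nsmul _ _ X fun i _ => h i).trans_eq
    (by simp))

theorem abs_D2_le {Φ : Fin 6 → Fin 6 → Fin 6 → Fin 6 → ℝ} {X : ℝ} (hX : 0 ≤ X)
    (h : ∀ c d e f, c ≠ d → e ≠ f → |Φ c d e f| ≤ X) : |D2 Φ| ≤ 69120 * X := by
  have key : ∀ (c d : Fin 4) (e f : Fin 6),
      |cf 1 c d * cf 3 e f * Φ c.succ.succ d.succ.succ e f| ≤ 120 * X := fun c d e f => by
    by_cases hcd : c = d
    · rw [hcd, cf_self 1 d, zero_mul, zero_mul, abs_zero]; positivity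
    by_cases hef : e = f
    · rw [hef, cf_self 3 f, mul_zero, zero_mul, abs_zero]; positivity
    have h1 := abs_cf_le 1 c d
    have h2 := abs_cf_le 3 e f
    have h3 := h c.succ.succ d.succ.succ e f (by simpa using hcd) hef
    rw [abs_mul, abs_mul]
    refine mul_le_mul ((mul_le_mul h1 h2 (abs_nonneg _) (by positivity)).trans_eq (by norm_num)) h3
      (abs_nonneg _) (by norm_num)
  refine (abs_sum_fin fun c => abs_sum_fin fun d => abs_sum_fin fun e => abs_sum_fin fun f =>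
    key c d e f).trans_eq ?_
  push_cast
  ring

variable {Ω : Type} [Fintype Ω] (D : Dat Ω) {tb : ℝ}

/-- the source -/
def Src (j : ℕ) : ℝ := D2 fun c d e f => D.src c d e f j

theorem W2_split (j : ℕ) : D.W2 j =
    D2 (fun c d e f => D.A j fun τ => if τ c d = j ∧ τ e f = j then
      (D.Bf c d e f τ - D.t j ^ 2 * D.rt2 j) * D.Sf c d e f τ else 0) +
    D.t j ^ 2 * D.rt2 j * D.kap j +
    D2 (fun c d e f => D.A j fun τ =>
      if τ c d ≠ τ e f then D.Bf c d e f τ * D.Sf c d e f τ else 0) + Src D j := by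
  rw [Dat.kap, Src, ← D2_mul, ← D2_add, ← D2_add, ← D2_add, Dat.W2]
  congr 1
  funext c d e f
  simp only [Dat.src, Dat.A]
  rw [← avc_mul, ← avc_add, ← avc_add, ← avc_add]
  congr 1
  funext τ
  by_cases h1 : τ c d = τ e f
  · by_cases h2 : τ c d = j
    · have h3 : τ e f = j := h1 ▸ h2
      simp only [h2, h3, and_self, if_true, ne_eq, not_true, if_false, and_false]
      ring
    · rw [if_neg fun h => h2 h.1, if_neg fun h => h2 h.1, if_neg (not_not.2 h1), if_pos ⟨h1, h2⟩]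
      ring
  · rw [if_neg fun h => h1 (h.1.trans h.2.symm), if_neg fun h => h1 (h.1.trans h.2.symm), if_pos h1,
      if_neg fun h => h1 h.1]
    ring

variable {D}

theorem I_nonneg (H : D.Ok tb) {g : ℕ → ℝ} (hg : ∀ y ≤ D.K, 0 ≤ g y) : 0 ≤ D.I g :=
  Finset.sum_nonneg fun y hy => mul_nonneg (dm_nonneg H.mono y)
    (hg y (Nat.lt_succ_iff.1 (Finset.mem_range.1 hy)))

theorem N_nonneg (H : D.Ok tb) (k : ℕ) : 0 ≤ D.N k :=
  I_nonneg H fun y _ => pow_nonneg (H.un0 y).1 k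

theorem pz_nonneg (H : D.Ok tb) {y : ℕ} (hy : y ≤ D.K) : 0 ≤ D.pz y :=
  add_nonneg (add_nonneg (le_min zero_le_one (Ker15.PB_nonneg 6 (H.sg0 y))) (H.q01 y hy).1)
    (Nu87.ex_nonneg H.mono y)

theorem gz_nonneg (H : D.Ok tb) (j : ℕ) {y : ℕ} (hy : y ≤ D.K) : 0 ≤ D.gz j y := by
  unfold Dat.gz
  split_ifs
  exacts [pz_nonneg H hy, zero_le_one]

theorem N3p_nonneg (H : D.Ok tb) (j : ℕ) : 0 ≤ D.N3p j :=
  I_nonneg H fun y hy => mul_nonneg (gz_nonneg H j hy) (pow_nonneg (H.un0 y).1 3)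

theorem ms_le_crude (H : D.Ok tb) {n3 : ℝ} (h3 : 0 ≤ n3) (j : ℕ) : D.ms ≤ D.crude n3 j := by
  have h1 := (H.un0 j).1
  have h2 := N_nonneg H
  have h4 : 0 ≤ (D.un j + D.N 1) * (D.N 2 + D.N 1 ^ 2) :=
    mul_nonneg (add_nonneg h1 (h2 1)) (add_nonneg (h2 2) (sq_nonneg _))
  unfold Dat.crude
  linarith [pow_nonneg h1 3, h2 4]

theorem q_le (H : D.Ok tb) {j j' : ℕ} (h : j ≤ j') (h' : j' ≤ D.K) : D.q j ≤ D.q j' := by
  induction j', h using Nat.le_induction with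
  | base => exact le_rfl
  | succ k _ ih => exact (ih (by omega)).trans (H.qm k h')

theorem clk_nonneg (H : D.Ok tb) {j j' : ℕ} (h : j ≤ j') (h' : j' ≤ D.K) : 0 ≤ D.clk j j' := by
  have h1 : Monotone (ex D.L) :=
    monotone_nat_of_le_succ fun i => sub_nonneg.1 (dm_nonneg H.mono (i + 1))
  exact add_nonneg (mul_nonneg (N_nonneg H 2) (by
    linarith [H.r1.tm_mono h, h1 h, q_le H h h'])) (Finset.sum_nonneg fun y _ =>
      mul_nonneg (dm_nonneg H.mono y) (sq_nonneg _))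

end G6

open G6 in
/-- **(E1)** from the leaves -/
theorem e1S_of (p : Bool) (ha : EaS p) (hb : EbS) (hc : EcS) (he : EeS) : E1S p := by
  intro tb
  obtain ⟨Ca, a0, ha⟩ := ha tb
  obtain ⟨Cb, b0, hb⟩ := hb tb
  obtain ⟨Cc, c0, hc⟩ := hc tb
  obtain ⟨Ce, e0, he⟩ := he tb
  set C1 := Ca + 69120 * Cb + tb ^ 2 + 69120 * Cc with hC1
  have C0 : 0 ≤ C1 := by positivity
  refine ⟨C1 + 69120 * Ce, by positivity, fun n β M q l0 un sg ms hn hM hl D hD H => ?_⟩
  have h3 : ∀ j, 0 ≤ if p then D.N3p j else D.N 3 := fun j => by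
    split_ifs
    exacts [N3p_nonneg H j, N_nonneg H 3]
  have key : ∀ j < D.K, D.t j ≠ 0 → dm D.L 0 j ≤ D.ms → ∀ G, D.Gm j G →
      |D.res j + Src D j / 2| ≤ C1 * D.eta0 (if p then D.N3p j else D.N 3) G j ∧
      D.VV j + D.ms + G * D.N 1 ≤ D.eta0 (if p then D.N3p j else D.N 3) G j ∧
      0 ≤ D.eta0 (if p then D.N3p j else D.N 3) G j := fun j hj ht hm G hG => by
    have h1 := (ha n β M q l0 un sg ms hn hM hl D hD H j hj ht hm).2
    obtain ⟨hV, h2⟩ := hb _ D H j hj hm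
    have x1 : 0 ≤ |D.kap j| * D.rt2 j := mul_nonneg (abs_nonneg _) (Cond31.rt2_nonneg D j)
    have x2 : 0 ≤ D.pz j * D.V j := mul_nonneg (pz_nonneg H hj.le) hV
    have x3 : 0 ≤ G * D.N 1 := mul_nonneg hG.1 (N_nonneg H 1)
    have x3' : 0 ≤ G * D.un j := mul_nonneg hG.1 (H.un0 j).1
    have x4 := (he _ D H 0 1 0 1 (by decide) (by decide) j hj).1
    have x5 := ms_le_crude H (h3 j) j
    have x6 := H.ms0
    have h4 := abs_D2_le (mul_nonneg b0 (add_nonneg x2 x6)) h2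
    have h5 := abs_D2_le (mul_nonneg c0 (mul_nonneg hG.1 (add_nonneg (H.un0 j).1 (N_nonneg H 1))))
      (hc _ D H j hj ht G hG)
    have h6 : |D.t j ^ 2 * D.rt2 j * D.kap j| ≤ tb ^ 2 * (|D.kap j| * D.rt2 j) := by
      rw [abs_mul, abs_of_nonneg (mul_nonneg (sq_nonneg _) (Cond31.rt2_nonneg D j)), mul_assoc,
        mul_comm (D.rt2 j)]
      exact mul_le_mul_of_nonneg_right (Cond31.sq_t_le D H j) x1
    rw [W2_split] at h1
    generalize (if p then D.N3p j else D.N 3) = n3 at *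
    have hE : D.eta0 n3 G j = |D.kap j| * D.rt2 j + D.pz j * D.V j + (G * D.un j + G * D.N 1) +
        D.VV j + D.crude n3 j := by rw [Dat.eta0]; ring
    have y0 : 0 ≤ D.eta0 n3 G j := by linarith
    have y1 := mul_le_mul_of_nonneg_left (show D.crude n3 j ≤ D.eta0 n3 G j by linarith) a0
    have y2 := mul_le_mul_of_nonneg_left
      (show D.pz j * D.V j + D.ms ≤ D.eta0 n3 G j by linarith) b0
    have y3 := mul_le_mul_of_nonneg_left
      (show |D.kap j| * D.rt2 j ≤ D.eta0 n3 G j by linarith) (sq_nonneg tb)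
    have y4 := mul_le_mul_of_nonneg_left
      (show G * (D.un j + D.N 1) ≤ D.eta0 n3 G j by linarith) c0
    have y5 := mul_nonneg b0 y0
    have y6 := mul_nonneg (sq_nonneg tb) y0
    have y7 := mul_nonneg c0 y0
    refine ⟨?_, by linarith, y0⟩
    rw [abs_le] at h1 h4 h5 h6 ⊢
    rw [hC1]
    constructor <;> linarith [h1.1, h1.2, h4.1, h4.2, h5.1, h5.2, h6.1, h6.2]
  intro j hj ht hm G hG
  obtain ⟨k1, k2, k3⟩ := key j hj ht hm G hG
  have n2 := N_nonneg H 2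
  refine ⟨?_, fun j' hj' hjj ht' hm' G' hG' => ?_⟩
  · have h1 : |Src D j| ≤ _ := abs_D2_le (mul_nonneg e0 n2) fun c d e f hcd hef =>
      (he _ D H c d e f hcd hef j hj).2.1
    have y1 := mul_nonneg e0 k3
    have y2 := mul_nonneg C0 n2
    have y3 := mul_nonneg e0 n2
    rw [abs_le] at h1 k1 ⊢
    constructor <;> linarith [h1.1, h1.2, k1.1, k1.2]
  · obtain ⟨l1, -, l3⟩ := key j' hj' ht' hm' G' hG'
    have z0 := clk_nonneg H hjj.le hj'.le
    have x4 := (he _ D H 0 1 0 1 (by decide) (by decide) j hj).1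
    have x3 : 0 ≤ G * D.N 1 := mul_nonneg hG.1 (N_nonneg H 1)
    have h1 := abs_D2_le (mul_nonneg e0 (by linarith [H.ms0])) fun c d e f hcd hef =>
      (he _ D H c d e f hcd hef j hj).2.2 j' hj' hjj hm hm' G hG
    rw [D2_sub] at h1
    change |Src D j' - Src D j| ≤ _ at h1
    have y1 := mul_le_mul_of_nonneg_left k2 e0
    have y2 := mul_nonneg C0 z0
    have y3 := mul_nonneg e0 z0
    have y4 := mul_nonneg e0 k3
    have y5 := mul_nonneg e0 l3
    rw [abs_le] at h1 k1 l1 ⊢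
    constructor <;> linarith [h1.1, h1.2, k1.1, k1.2, l1.1, l1.2]

end Crest.Agent.T156.Cas.E91

end
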