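import Crest.Agent.T156.EcB_52
import Crest.Agent.T156.EcSite_6
import Crest.Agent.T156.CondC_31

/-!
# Row 156, (E1): the leaf E-c in the names of `EDef_91` (helper52)
-/

set_option autoImplicit false
set_option linter.unusedSectionVars false

noncomputable section

namespace Crest.Agent.T156.Cas.Ec52

open Crest.Agent.T157.E Crest.Agent.T157.Casc Crest.Agent.T157.SL
open Nu87 Wp52 E91

variable {Ω : Type} [Fintype Ω] {D : Dat Ω} {tb : ℝ}

theorem gz_nonneg (H : D.Ok tb) {j : ℕ} (hj : j ≤ D.K) (y : ℕ) : 0 ≤ D.gz j y := by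
  unfold Dat.gz Dat.pz
  split_ifs with hy
  · have := (H.q01 y (hy.le.trans hj)).1
    have := ex_nonneg H.mono y
    have := le_min zero_le_one (Ker15.PB_nonneg 6 (H.sg0 y))
    linarith
  · exact zero_le_one

theorem Pf_U (hw : Wt D.w) (y : ℕ) (z : Ω → ℝ) (x : Ω) : Pf D.w (D.L.drop y) z (D.U y x) =
    D.t y * (D.l0.fld (Sy41.mv D.w (D.L.drop y) D.l0 z) x - D.q y) := by
  have e : D.l0.fld (Sy41.mv D.w (D.L.drop y) D.l0 z) x
      = ∑ x', P D.w (D.L.drop y) z x' * D.l0.cov x x' := by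
    simp only [Lv.fld, Sy41.mv, Pf, Lv.cov, Finset.mul_sum]
    exact Finset.sum_comm.trans (Finset.sum_congr rfl fun _ _ => Finset.sum_congr rfl fun _ _ => by
      ring)
  rw [e]
  simp only [Pf, Dat.U, Dat.U0, mul_left_comm _ (D.t y), ← Finset.mul_sum, mul_sub,
    Finset.sum_sub_distrib, ← Finset.sum_mul, sum_P hw, one_mul]

theorem qf_U (hw : Wt D.w) (y : ℕ) (z : Ω → ℝ) : qf (P D.w (D.L.drop y) z) (D.U y) =
    D.t y * (Sy41.rr D.w (D.L.drop y) D.l0 z - D.q y) := by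
  rw [← Cond31.rt_U0 D hw]
  exact qf_const_mul _ _ _

theorem fr_of (H : D.Ok tb) {j : ℕ} (hj : j ≤ D.K) {G : ℝ} (hG : D.Gm j G) :
    Fr D.w D.L D.h (tw D.K j) j D.U D.U (fun y => 8 * D.gz j y) (fun y => |tb| * D.un y)
      (8 * (|tb| + 1) * G) where
  hw := H.wt
  hL := H.mono
  h0 := rz_tw _ _
  hj a b hab := by
    fin_cases a <;> fin_cases b
    exacts [absurd rfl hab, tw_01 hj, ((rz_tw _ _).comm _ _).trans (tw_01 hj), absurd rfl hab]
  hg y := mul_nonneg (by norm_num) (gz_nonneg H hj y)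
  hu y := mul_nonneg (abs_nonneg _) (H.un0 y).1
  hG := mul_nonneg (by positivity) hG.1
  hU y hy := by
    simp only [Dat.U, mul_pow, pi2_const_mul, sq_abs]
    by_cases ht : D.t y = 0
    · rw [ht, sq, zero_mul, zero_mul]; positivity
    · exact mul_le_mul (Cond31.sq_t_le D H y) (Cond31.pi2_U0_sq_le_un D H hy ht)
        (pi2_nonneg H.wt _ _ (fun _ _ => sq_nonneg _) _) (sq_nonneg _)
  gm φ hφ := by
    have c0 : 0 < 8 * (|tb| + 1) := by positivity
    set c := 8 * (|tb| + 1) with hc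
    obtain ⟨h1, h2⟩ := hG.2 (fun y => φ y * D.t y / c) (fun y => by
      rw [abs_div, abs_of_pos c0, div_le_iff₀ c0, abs_mul]
      refine (mul_le_mul (hφ y) (show _ ≤ |tb| + 1 by linarith [H.tb y, le_abs_self tb])
        (abs_nonneg _) (mul_nonneg (by norm_num) (gz_nonneg H hj y))).trans (le_of_eq ?_)
      rw [hc]; ring) fun y hy => by rw [hy, mul_zero, zero_div]
    have e : ∀ Z : ℕ → ℝ, (∑ y ∈ Finset.range (D.L.length + 1), dm D.L 0 y * φ y * (D.t y * Z y)) ^ 2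
        = c ^ 2 * (D.I fun y => φ y * D.t y / c * Z y) ^ 2 := fun Z => by
      rw [← mul_pow, Dat.I, Finset.mul_sum]
      congr 1
      exact Finset.sum_congr rfl fun y _ => by field_simp
    simp only [Pf_U H.wt, qf_U H.wt, e, Pe.pE_const_mul, mul_pow c]
    exact ⟨mul_le_mul_of_nonneg_left h2 (sq_nonneg _), mul_le_mul_of_nonneg_left h1 (sq_nonneg _)⟩

/-- **leaf E-c** -/
theorem ecS : EcS := fun tb => ⟨12 * (cW 1 4 3 * (8 * (|tb| + 1)) * |tb|),
  by have := cW_nonneg 1 4 3; positivity, fun Ω _ D H j hj _ G hG c d e f hcd hef => by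
  have F := fr_of H hj.le hG
  have hU : ∀ y x x', D.U y x x' = D.U y x' x := fun y x x' => by
    simp only [Dat.U, Dat.U0, Lv.cov, mul_comm]
  have h1 := ec (k := 4) F hU hcd hef
    (S := fun τ => if τ 4 5 = j ∧ τ c d ≠ τ e f ∧ τ c d ≠ j then D.Sf c d e f τ else 0)
    (fun τ hτ => by
      split_ifs with hp
      · exact sf_le D H hτ hp.1 hp.2.1
      · rw [abs_zero]; exact F.hg _)
    fun τ _ hs => ⟨(of_cut hs).1.2.2, (of_cut hs).1.2.1⟩
  have h2 := ec (k := 4) F hU hef hcd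
    (S := fun τ => if τ 4 5 = j ∧ τ c d ≠ τ e f ∧ τ c d = j then D.Sf e f c d τ else 0)
    (fun τ hτ => by
      split_ifs with hp
      · exact sf_le D H hτ hp.1 hp.2.1.symm
      · rw [abs_zero]; exact F.hg _)
    fun τ _ hs => ⟨fun h => (of_cut hs).1.2.1 ((of_cut hs).1.2.2.trans h.symm),
      (of_cut hs).1.2.1.symm⟩
  refine le_trans (le_of_eq ?_) ((abs_add_le _ _).trans ((add_le_add h1 h2).trans (le_of_eq ?_)))
  · rw [← avc_add, Dat.A]
    congr 1
    refine avc_congr' (rz_tw _ _) 4 fun τ _ hτ => ?_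
    have h45 : τ 4 5 = j := (hτ 0 1).trans (tw_01 hj.le)
    have e1 : D.Sf e f c d τ = D.Sf c d e f τ := by simp only [Dat.Sf, mul_right_comm]
    have e2 : (TM D.w D.L D.h τ fun x => ed D.U e f x τ * ed D.U c d x τ) = D.Bf c d e f τ := by
      simp only [Dat.Bf, mul_comm]
    rw [e1, e2, ← Dat.Bf]
    by_cases a1 : τ c d = τ e f <;> by_cases a2 : τ c d = j <;> simp [a1, a2, h45, mul_comm]
  · rw [Br_mul, show Br D.L D.un = D.N 1 by simp only [Dat.N, Dat.I, Br, pow_one]]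
    ring⟩

end Crest.Agent.T156.Cas.Ec52

end
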