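import Crest.Agent.T156.EDef_91
import Crest.Agent.T156.CaKkt_28

/-!
# Row 156 (helper43): the move of the bulk factor (`E91.EdS`)
-/

set_option autoImplicit false
set_option linter.unusedSectionVars false

noncomputable section

namespace Crest.Agent.T156.Cas.Ed43

open MeasureTheory Real Set Filter Topology
open Crest.Agent.T157.E Crest.Agent.T157.Casc Crest.Agent.T157.SL
open Nu87 Wt87

variable {Ω : Type} [Fintype Ω] {w : Ω → ℝ}

/-- the pair form of two functions -/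
def pp (w : Ω → ℝ) (M : List (Lv Ω)) (k : ℕ) (f g : Ω → ℝ) (z : Ω → ℝ) : ℝ :=
  pi2 w M k (fun x y => f x * g y) z

/-- its increment -/
def dl (w : Ω → ℝ) (M : List (Lv Ω)) (k k' : ℕ) (f g : Ω → ℝ) (z : Ω → ℝ) : ℝ :=
  pp w M k' f g z - pp w M k f g z

theorem pp_swap (M : List (Lv Ω)) (k : ℕ) (f g : Ω → ℝ) (z : Ω → ℝ) :
    pp w M k f g z = pp w M k g f z := by
  simp only [pp, pi2, qf_mul]
  simp only [mul_comm]

theorem pp_one (hw : Wt w) (M : List (Lv Ω)) (k : ℕ) (f : Ω → ℝ) (z : Ω → ℝ) :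
    pi2 w M k (fun x _ => f x) z = Pf w M z f := by
  have e : ∀ z', qf (P w (M.drop k) z') (fun x _ => f x) = ∑ x, P w (M.drop k) z' x * f x :=
    fun z' => by simpa [sum_P hw] using qf_mul (P w (M.drop k) z') f fun _ => 1
  simp only [pi2, e]
  exact node_sum_P hw f M k z

theorem pp_one' (hw : Wt w) (M : List (Lv Ω)) (k : ℕ) (f : Ω → ℝ) (z : Ω → ℝ) :
    pi2 w M k (fun _ y => f y) z = Pf w M z f := by
  rw [← pp_one hw M k f z]
  simp only [pi2]
  congr 1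
  funext z'
  exact qf_swap _ fun x _ => f x

theorem pp_cen (hw : Wt w) (M : List (Lv Ω)) (k : ℕ) (f g : Ω → ℝ) (t a : ℝ) (z : Ω → ℝ) :
    pp w M k (fun x => t * (f x - a)) (fun x => t * (g x - a)) z =
      t ^ 2 * (pp w M k f g z - a * Pf w M z f - a * Pf w M z g + a ^ 2) := by
  rw [← pp_one hw M k f z, ← pp_one' hw M k g z, ← pi2_const hw M k (a ^ 2) z, pp, pp,
    ← pi2_const_mul, ← pi2_const_mul, ← pi2_sub hw, ← pi2_sub hw, ← pi2_add hw, ← pi2_const_mul]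
  congr 1
  funext x y
  ring

theorem dl_nonneg (hw : Wt w) (M : List (Lv Ω)) {k k' : ℕ} (hk : k ≤ k') (f : Ω → ℝ) (z : Ω → ℝ) :
    0 ≤ dl w M k k' f f z := by
  have := Kkt28.pi2_mono hw (⟨Unit, fun x _ => f x, 0⟩ : Lv Ω) M z hk
  have e : (⟨Unit, fun x _ => f x, 0⟩ : Lv Ω).cov = fun x y => f x * f y := by
    funext x y
    simp [Lv.cov]
  rw [e] at this
  exact sub_nonneg.2 this

theorem pp_comb (hw : Wt w) (M : List (Lv Ω)) (k : ℕ) (f g : Ω → ℝ) (ε : ℝ) (z : Ω → ℝ) :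
    pp w M k (fun x => f x + ε * g x) (fun x => f x + ε * g x) z =
      pp w M k f f z + 2 * ε * pp w M k f g z + ε ^ 2 * pp w M k g g z := by
  have e : pp w M k (fun x => f x + ε * g x) (fun x => f x + ε * g x) z =
      pp w M k f f z + ε * pp w M k f g z + ε * pp w M k g f z + ε ^ 2 * pp w M k g g z := by
    simp only [pp, ← pi2_const_mul, ← pi2_add hw]
    congr 1
    funext x y
    ring
  rw [e, pp_swap M k g f]
  ring

/-- the increments are positive forms -/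
theorem abs_dl_le (hw : Wt w) (M : List (Lv Ω)) {k k' : ℕ} (hk : k ≤ k') (f g : Ω → ℝ)
    (z : Ω → ℝ) : |dl w M k k' f g z| ≤ (dl w M k k' f f z + dl w M k k' g g z) / 2 := by
  have h1 := dl_nonneg hw M hk (fun x => f x + 1 * g x) z
  have h2 := dl_nonneg hw M hk (fun x => f x + (-1) * g x) z
  simp only [dl, pp_comb hw] at h1 h2 ⊢
  rw [abs_le]
  constructor <;> nlinarith

theorem pp_le (hw : Wt w) (M : List (Lv Ω)) (k : ℕ) (f : Ω → ℝ) (z : Ω → ℝ) :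
    pp w M k f f z ≤ Pf w M z fun x => f x ^ 2 := by
  have : pi2 w M k (fun x y => f x * f y) z ≤
      pi2 w M k (fun x y => 1 / 2 * f x ^ 2 + 1 / 2 * f y ^ 2) z :=
    node_mono hw (eg_qf hw _ _) (eg_qf hw _ _) (fun z => qf_mono (P_nonneg hw _ z)
      fun x y => by nlinarith [sq_nonneg (f x - f y)]) M k z
  rw [pi2_add hw, pi2_const_mul, pi2_const_mul, pp_one hw M k fun x => f x ^ 2,
    pp_one' hw M k fun x => f x ^ 2] at this
  unfold pp
  linarith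

/-- a pair split at `k + y` grafted on the leaf `a` at `y` -/
abbrev G2 (s : Sh) (a : s.Lf) (y k : ℕ) : Sh := (s.graft a y).graft (s.nw a y) (k + y)

/-- the old leaves -/
def oe (s : Sh) (a : s.Lf) (y k : ℕ) (b : s.Lf) : (G2 s a y k).Lf :=
  (s.graft a y).emb (s.nw a y) (k + y) (s.emb a y b)

/-- the first new leaf -/
def n1 (s : Sh) (a : s.Lf) (y k : ℕ) : (G2 s a y k).Lf :=
  (s.graft a y).emb (s.nw a y) (k + y) (s.nw a y)

/-- the second new leaf -/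
def n2 (s : Sh) (a : s.Lf) (y k : ℕ) : (G2 s a y k).Lf := (s.graft a y).nw (s.nw a y) (k + y)

/-- the law of a grafted pair -/
theorem TE_G2 (hw : Wt w) (s : Sh) (a : s.Lf) (y k : ℕ) (L : List (Lv Ω)) (h : Ω → ℝ)
    (K : (s.Lf → Ω) → Ω → Ω → ℝ) :
    TE w (G2 s a y k) L h (fun x => K (fun b => x (oe s a y k b)) (x (n1 s a y k)) (x (n2 s a y k))) =
      tX w s L h fun g x => pi2 w (L.drop y) k (K x) (stT s L h g a y) := by
  classical
  have e1 : ∀ (x : s.Lf → Ω) (φ : (s.Lf → Ω) → ℝ), ∑ v, (if x = v then 1 else 0) * φ v = φ x :=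
    fun x φ => by simp
  have h1 := fun v => graft_pi2 hw s a y k L h (fun x => if x = v then 1 else 0) (K v)
  have h2 := Finset.sum_congr (rfl : (Finset.univ : Finset (s.Lf → Ω)) = _) fun v _ => h1 v
  have h3 := Sd.tX_sum hw (G2 s a y k) L h (Finset.univ : Finset (s.Lf → Ω))
    (F := fun v _ x => (if (fun b => x (oe s a y k b)) = v then 1 else 0) *
      K v (x (n1 s a y k)) (x (n2 s a y k))) fun v _ x => Eg.const _
  have h4 := Sd.tX_sum hw s L h (Finset.univ : Finset (s.Lf → Ω))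
    (F := fun v g x => (if x = v then 1 else 0) * pi2 w (L.drop y) k (K v) (stT s L h g a y))
    fun v _ x => (Sp38.eg_node s L h (eg_pi2 hw _ k (K v)) a y).const_mul _
  have h5 := h3.trans (h2.trans h4.symm)
  simp only [e1] at h5
  exact h5

variable {κ : Type} [Finite κ]

/-- any tree with the same split matrix on the labels -/
theorem TE_lab2 (hw : Wt w) (L : List (Lv Ω)) (h : Ω → ℝ) {s s₂ : Sh} {a : s.Lf} {y k : ℕ}
    (hk : k + y ≤ L.length) {ι : κ → s.Lf} {ι₂ : κ → s₂.Lf} (hι : Function.Injective ι)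
    (hι₂ : Function.Injective ι₂) {c e : s₂.Lf} (hce : c ≠ e) (hc : ∀ b, c ≠ ι₂ b)
    (he : ∀ b, e ≠ ι₂ b) (h1 : s₂.shr c e L.length = k + y) (h2 : ∀ b, s₂.shr c (ι₂ b) L.length = y)
    (h3 : ∀ b, s₂.shr e (ι₂ b) L.length = y) (h4 : ∀ b, s.shr (ι b) a y = y)
    (h5 : ∀ b b', s₂.shr (ι₂ b) (ι₂ b') L.length = s.shr (ι b) (ι b') L.length)
    (Φ : (κ → Ω) → Ω → Ω → ℝ) :
    TE w s₂ L h (fun x => Φ (fun b => x (ι₂ b)) (x c) (x e)) =
      tX w s L h fun g x => pi2 w (L.drop y) k (Φ fun b => x (ι b)) (stT s L h g a y) := by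
  rw [← TE_G2 hw s a y k L h fun x => Φ fun b => x (ι b)]
  have hy : y ≤ L.length := by omega
  have s12 : (G2 s a y k).shr (n1 s a y k) (n2 s a y k) L.length = k + y := by
    rw [n1, n2, shr_nw, shr_self, min_eq_left hk]
  have s1o : ∀ b, (G2 s a y k).shr (n1 s a y k) (oe s a y k (ι b)) L.length = y := fun b => by
    rw [n1, oe, shr_emb, shr_nw', min_eq_left hy, h4]
  have s2o : ∀ b, (G2 s a y k).shr (n2 s a y k) (oe s a y k (ι b)) L.length = y := fun b => by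
    rw [n2, oe, shr_nw', shr_nw, min_eq_left hk, min_eq_left (Nat.le_add_left y k), h4]
  have soo : ∀ b b', (G2 s a y k).shr (oe s a y k (ι b)) (oe s a y k (ι b')) L.length =
      s.shr (ι b) (ι b') L.length := fun b b' => by rw [oe, oe, shr_emb, shr_emb]
  have n12 : n1 s a y k ≠ n2 s a y k := Tay38.emb_ne _ _ _ _
  have n1o : ∀ b, n1 s a y k ≠ oe s a y k b := fun b e =>
    Tay38.emb_ne _ _ _ _ (Tay38.emb_inj _ _ _ e).symm
  have n2o : ∀ b, n2 s a y k ≠ oe s a y k b := fun b e => Tay38.emb_ne _ _ _ _ e.symm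
  refine TE_lab hw (κ := Bool ⊕ κ) s₂ (G2 s a y k) L h
    (e := Sum.elim (fun b => cond b c e) ι₂)
    (e' := Sum.elim (fun b => cond b (n1 s a y k) (n2 s a y k)) fun b => oe s a y k (ι b)) ?_ ?_ ?_
    fun v => Φ (fun b => v (.inr b)) (v (.inl true)) (v (.inl false))
  · rintro ((_ | _) | b) ((_ | _) | b') hh <;> simp only [Sum.elim_inl, Sum.elim_inr, cond] at hh
    exacts [rfl, (hce hh.symm).elim, (he _ hh).elim, (hce hh).elim, rfl, (hc _ hh).elim,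
      (he _ hh.symm).elim, (hc _ hh.symm).elim, congrArg _ (hι₂ hh)]
  · rintro ((_ | _) | b) ((_ | _) | b') hh <;> simp only [Sum.elim_inl, Sum.elim_inr, cond] at hh
    exacts [rfl, (n12 hh.symm).elim, (n2o _ hh).elim, (n12 hh).elim, rfl, (n1o _ hh).elim,
      (n2o _ hh.symm).elim, (n1o _ hh.symm).elim,
      congrArg _ (hι (Tay38.emb_inj _ _ _ (Tay38.emb_inj _ _ _ hh)))]
  · rintro ((_ | _) | b) ((_ | _) | b') hh <;> simp only [Sum.elim_inl, Sum.elim_inr, cond]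
    · exact (hh rfl).elim
    · rw [shr_comm, h1, shr_comm, s12]
    · rw [h3, s2o]
    · rw [h1, s12]
    · exact (hh rfl).elim
    · rw [h2, s1o]
    · rw [shr_comm, h3, shr_comm, s2o]
    · rw [shr_comm, h2, shr_comm, s1o]
    · rw [h5, soo]

/-- matrix form -/
theorem TM_lab2 (hw : Wt w) (L : List (Lv Ω)) (h : Ω → ℝ) {s : Sh} {a : s.Lf} {y k r : ℕ}
    (hk : k + y ≤ L.length) {ι : κ → s.Lf} {τ : SM r} (hτ : Rz L.length τ) {ι₂ : κ → Fin r}
    (hι : Function.Injective ι) (hι₂ : Function.Injective ι₂) {c e : Fin r} (hce : c ≠ e)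
    (hc : ∀ b, c ≠ ι₂ b) (he : ∀ b, e ≠ ι₂ b) (h1 : τ c e = k + y) (h2 : ∀ b, τ c (ι₂ b) = y)
    (h3 : ∀ b, τ e (ι₂ b) = y) (h4 : ∀ b, s.shr (ι b) a y = y)
    (h5 : ∀ b b', τ (ι₂ b) (ι₂ b') = s.shr (ι b) (ι b') L.length) (Φ : (κ → Ω) → Ω → Ω → ℝ) :
    TM w L h τ (fun x => Φ (fun b => x (ι₂ b)) (x c) (x e)) =
      tX w s L h fun g x => pi2 w (L.drop y) k (Φ fun b => x (ι b)) (stT s L h g a y) := by
  obtain ⟨s₂, e₂, rfl⟩ := hτ
  rw [TM_sm hw s₂ L h e₂.injective]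
  exact TE_lab2 hw L h hk hι (e₂.injective.comp hι₂) (fun e => hce (e₂.injective e))
    (fun b e => hc b (e₂.injective e)) (fun b e => he b (e₂.injective e)) h1 h2 h3 h4 h5 Φ

theorem cov_comm (l : Lv Ω) (x y : Ω) : l.cov x y = l.cov y x := by
  simp only [Lv.cov, mul_comm]

open E91

/-- `lam3` read on any tree -/
theorem lam3_eq (D : Dat Ω) (hw : Wt D.w) {s : Sh} {a b : s.Lf} {y k : ℕ} (hk : k + y ≤ D.K)
    (hb : s.shr b a y = y) : D.lam3 y (k + y) = tX D.w s D.L D.h fun g x =>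
      pp D.w (D.L.drop y) k (fun u => D.l0.cov u (x b)) (fun u => D.l0.cov u (x b))
        (stT s D.L D.h g a y) := by
  have hy : y ≤ D.K := by omega
  have t10 : tw D.K y 1 0 = y := min_eq_left hy
  refine TM_lab2 hw D.L D.h (κ := Unit) hk (ι := fun _ => b) ((rz_tw D.K y).gr 0 (k + y))
    (ι₂ := fun _ => 2) (fun _ _ _ => rfl) (fun _ _ _ => rfl) (c := 0) (e := 1) (by decide)
    (fun _ => by decide) (fun _ => by decide) ?_ (fun _ => ?_) (fun _ => ?_) (fun _ => hb)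
    (fun _ _ => ?_) fun v u u' => D.l0.cov u (v ()) * D.l0.cov u' (v ())
  · exact min_eq_left hk
  · show min (k + y) (tw D.K y 1 0) = y
    rw [t10, min_eq_right (Nat.le_add_left y k)]
  · exact tw_01 hy
  · rw [shr_self]
    rfl

theorem eg_pp (hw : Wt w) (s : Sh) (L : List (Lv Ω)) (h : Ω → ℝ) (M : List (Lv Ω)) (k : ℕ)
    (f g : Ω → ℝ) (a : s.Lf) (y : ℕ) : Eg fun p => pp w M k f g (stT s L h p a y) :=
  Sp38.eg_node s L h (eg_pi2 hw M k _) a y

theorem lam3_sub (D : Dat Ω) (hw : Wt D.w) {s : Sh} {a b : s.Lf} {y k k' : ℕ} (hkk : k ≤ k')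
    (hk : k' + y ≤ D.K) (hb : s.shr b a y = y) :
    D.lam3 y (k' + y) - D.lam3 y (k + y) = tX D.w s D.L D.h fun g x =>
      dl D.w (D.L.drop y) k k' (fun u => D.l0.cov u (x b)) (fun u => D.l0.cov u (x b))
        (stT s D.L D.h g a y) := by
  rw [lam3_eq D hw hk hb, lam3_eq D hw (by omega) hb,
    ← Sd.tX_sub hw _ _ _ (fun _ => eg_pp hw _ _ _ _ _ _ _ _ _) fun _ => eg_pp hw _ _ _ _ _ _ _ _ _]
  rfl

theorem lam3_le (D : Dat Ω) (hw : Wt D.w) {y i : ℕ} (h1 : y ≤ i) (h2 : i ≤ D.K) :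
    D.lam3 y i ≤ pi2 D.w D.L y (fun x x' => D.l0.cov x x' ^ 2) D.h := by
  obtain ⟨k, rfl⟩ : ∃ k, i = k + y := ⟨i - y, by omega⟩
  rw [lam3_eq D hw (s := .one) (a := ()) (b := ()) h2 rfl, ← tX_two hw]
  refine le_trans ?_ (graft_leaf hw .one () y D.L D.h fun x u => D.l0.cov (x ()) u ^ 2).ge
  refine Sd.tX_mono hw _ _ _ (fun _ => eg_pp hw _ _ _ _ _ _ _ _ _)
    (fun _ => Eg.sum _ fun u _ => (Sp38.eg_node .one D.L D.h (eg_P hw _ u) () y).mul_const _)
    fun g x => (pp_le hw _ _ _ _).trans_eq ?_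
  simp only [Pf, cov_comm D.l0 (x ())]

theorem lam3_mono (D : Dat Ω) (hw : Wt D.w) {y i i' : ℕ} (h1 : y ≤ i) (h2 : i ≤ i')
    (h3 : i' ≤ D.K) : D.lam3 y i ≤ D.lam3 y i' := by
  obtain ⟨k, rfl⟩ : ∃ k, i = k + y := ⟨i - y, by omega⟩
  obtain ⟨k', rfl⟩ : ∃ k', i' = k' + y := ⟨i' - y, by omega⟩
  rw [← sub_nonneg, lam3_sub D hw (s := .one) (a := ()) (b := ()) (by omega) h3 rfl]
  exact Sd.tX_nonneg hw _ _ _ fun g x => dl_nonneg hw _ (by omega) _ _

/-- **the move of the bulk factor, any jump** -/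
theorem edJ (D : Dat Ω) (hw : Wt D.w) {y i i' : ℕ} (hyi : y < i) (hi : i < D.K) (hii : i ≤ i')
    (hi' : i' ≤ D.K) {τ τ' : SM 6} {c d e f : Fin 6} (hτ : Rz D.K τ) (hτ' : Rz D.K τ')
    (hcd : τ c d = y) (hef : τ e f = y) (hce : τ c e = i) (hce' : τ' c e = i')
    (H : ∀ a ∈ ({c, d, e, f} : Finset (Fin 6)), ∀ b ∈ ({c, d, e, f} : Finset (Fin 6)),
      ¬(a = c ∧ b = e) → ¬(a = e ∧ b = c) → τ' a b = τ a b) :
    |D.Bf c d e f τ' - D.Bf c d e f τ| ≤ D.t y ^ 2 * (D.lam3 y i' - D.lam3 y i) := by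
  obtain ⟨k, rfl⟩ : ∃ k, i = k + y := ⟨i - y, by omega⟩
  obtain ⟨k', rfl⟩ : ∃ k', i' = k' + y := ⟨i' - y, by omega⟩
  have hkk : k ≤ k' := by omega
  have eg_dl : ∀ (s : Sh) (f g : Ω → ℝ) (a : s.Lf),
      Eg fun p => dl D.w (D.L.drop y) k k' f g (stT s D.L D.h p a y) := fun s f g a =>
    (eg_pp hw _ _ _ _ _ _ _ _ _).sub (eg_pp hw _ _ _ _ _ _ _ _ _)
  have hK : D.K = D.L.length := rfl
  have u1 := hτ.ultra c e f
  have u2 := hτ.ultra e c d
  have u3 := hτ.ultra e c f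
  have u4 := hτ.ultra c e d
  have u5 := hτ.ultra d c f
  have c1 := hτ.comm c e
  have c2 := hτ.comm f c
  have c3 := hτ.comm d e
  have c4 := hτ.comm d c
  have hcf : τ c f = y := by omega
  have hed : τ e d = y := by omega
  have hdf : y ≤ τ d f := by omega
  have ne : ∀ {a b : Fin 6}, τ a b < D.K → a ≠ b := fun {a b} hab e => by
    rw [e, hτ.self] at hab
    omega
  have nce : c ≠ e := ne (by omega)
  have g2 : ∀ b : {b : Fin 6 // b = d ∨ b = f}, τ c b.1 = y := by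
    rintro ⟨b, rfl | rfl⟩ <;> assumption
  have g3 : ∀ b : {b : Fin 6 // b = d ∨ b = f}, τ e b.1 = y := by
    rintro ⟨b, rfl | rfl⟩ <;> assumption
  have nc : ∀ b : {b : Fin 6 // b = d ∨ b = f}, c ≠ b.1 := fun b => ne (by rw [g2]; omega)
  have ne' : ∀ b : {b : Fin 6 // b = d ∨ b = f}, e ≠ b.1 := fun b => ne (by rw [g3]; omega)
  have mem : ∀ b : {b : Fin 6 // b = d ∨ b = f}, b.1 ∈ ({c, d, e, f} : Finset (Fin 6)) := by
    rintro ⟨b, rfl | rfl⟩ <;> simp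
  have g2' : ∀ b : {b : Fin 6 // b = d ∨ b = f}, τ' c b.1 = y := fun b =>
    (H c (by simp) b.1 (mem b) (fun h => ne' b h.2.symm) fun h => nce h.1).trans (g2 b)
  have g3' : ∀ b : {b : Fin 6 // b = d ∨ b = f}, τ' e b.1 = y := fun b =>
    (H e (by simp) b.1 (mem b) (fun h => nce h.1.symm) fun h => nc b h.2.symm).trans (g3 b)
  have g5 : ∀ b b' : {b : Fin 6 // b = d ∨ b = f}, τ' b.1 b'.1 = τ b.1 b'.1 := fun b b' =>
    H b.1 (mem b) b'.1 (mem b') (fun h => nc b h.1.symm) fun h => ne' b h.1.symm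
  obtain ⟨s, e₀, hs⟩ := id hτ
  have g4 : ∀ b : {b : Fin 6 // b = d ∨ b = f}, s.shr (e₀ b.1) (e₀ d) y = y := by
    have key : ∀ b, y ≤ τ b d → s.shr (e₀ b) (e₀ d) y = y := fun b hb => by
      have := shr_min s (e₀ b) (e₀ d) y D.K
      rw [min_eq_left (by omega)] at this
      rw [hs] at hb
      rw [this]
      exact min_eq_left hb
    rintro ⟨b, rfl | rfl⟩
    · exact key _ (by rw [hτ.self]; omega)
    · exact key _ (by rw [hτ.comm]; exact hdf)
  have inj : Function.Injective fun b : {b : Fin 6 // b = d ∨ b = f} => e₀ b.1 :=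
    e₀.injective.comp Subtype.val_injective
  have B0 := TM_lab2 hw D.L D.h (k := k) (by omega) hτ inj Subtype.val_injective nce nc ne' hce g2 g3 g4
    (fun b b' => by rw [hs]; rfl)
    fun v u u' => D.U y u (v ⟨d, .inl rfl⟩) * D.U y u' (v ⟨f, .inr rfl⟩)
  have B1 := TM_lab2 hw D.L D.h hi' hτ' inj Subtype.val_injective nce nc ne' hce' g2' g3' g4
    (fun b b' => by rw [g5, hs]; rfl)
    fun v u u' => D.U y u (v ⟨d, .inl rfl⟩) * D.U y u' (v ⟨f, .inr rfl⟩)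
  have hcd' : τ' c d = y := g2' ⟨d, .inl rfl⟩
  have hef' : τ' e f = y := g3' ⟨f, .inr rfl⟩
  have e1 : D.Bf c d e f τ' - D.Bf c d e f τ = D.t y ^ 2 * tX D.w s D.L D.h fun g x =>
      dl D.w (D.L.drop y) k k' (fun u => D.l0.cov u (x (e₀ d))) (fun u => D.l0.cov u (x (e₀ f)))
        (stT s D.L D.h g (e₀ d) y) := by
    simp only [Dat.Bf, ed, hcd, hef, hcd', hef']
    rw [B0, B1, ← Sd.tX_const_mul, ← Sd.tX_sub hw _ _ _
      (fun _ => Sp38.eg_node s D.L D.h (eg_pi2 hw _ _ _) _ y)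
      fun _ => Sp38.eg_node s D.L D.h (eg_pi2 hw _ _ _) _ y]
    congr 1
    funext g x
    have a1 := pp_cen hw (D.L.drop y) k' (fun u => D.l0.cov u (x (e₀ d)))
      (fun u => D.l0.cov u (x (e₀ f))) (D.t y) (D.q y) (stT s D.L D.h g (e₀ d) y)
    have a2 := pp_cen hw (D.L.drop y) k (fun u => D.l0.cov u (x (e₀ d)))
      (fun u => D.l0.cov u (x (e₀ f))) (D.t y) (D.q y) (stT s D.L D.h g (e₀ d) y)
    refine (congrArg₂ (· - ·) a1 a2).trans ?_
    rw [dl]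
    ring
  have l1 := lam3_sub D hw hkk hi' (g4 ⟨d, .inl rfl⟩)
  have l2 := lam3_sub D hw hkk hi' (g4 ⟨f, .inr rfl⟩)
  rw [e1, abs_mul, abs_of_nonneg (sq_nonneg _)]
  refine mul_le_mul_of_nonneg_left ?_ (sq_nonneg _)
  have l3 : D.lam3 y (k' + y) - D.lam3 y (k + y) = tX D.w s D.L D.h fun g x => 1 / 2 *
      (dl D.w (D.L.drop y) k k' (fun u => D.l0.cov u (x (e₀ d))) (fun u => D.l0.cov u (x (e₀ d)))
        (stT s D.L D.h g (e₀ d) y) +
      dl D.w (D.L.drop y) k k' (fun u => D.l0.cov u (x (e₀ f))) (fun u => D.l0.cov u (x (e₀ f)))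
        (stT s D.L D.h g (e₀ d) y)) := by
    rw [Sd.tX_const_mul, Sd.tX_add hw _ _ _ (fun _ => eg_dl _ _ _ _) fun _ => eg_dl _ _ _ _, ← l1,
      ← l2]
    ring
  rw [l3, abs_le]
  refine ⟨?_, Sd.tX_mono hw _ _ _ (fun _ => eg_dl _ _ _ _)
    (fun _ => ((eg_dl _ _ _ _).add (eg_dl _ _ _ _)).const_mul _) fun g x => by
      linarith [(abs_le.1 (abs_dl_le hw (D.L.drop y) hkk (fun u => D.l0.cov u (x (e₀ d)))
        (fun u => D.l0.cov u (x (e₀ f))) (stT s D.L D.h g (e₀ d) y))).2]⟩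
  rw [← neg_one_mul, ← Sd.tX_const_mul]
  exact Sd.tX_mono hw _ _ _ (fun _ => (((eg_dl _ _ _ _).add (eg_dl _ _ _ _)).const_mul _).const_mul _)
    (fun _ => eg_dl _ _ _ _) fun g x => by
      linarith [(abs_le.1 (abs_dl_le hw (D.L.drop y) hkk (fun u => D.l0.cov u (x (e₀ d)))
        (fun u => D.l0.cov u (x (e₀ f))) (stT s D.L D.h g (e₀ d) y))).1]

/-- **E-d** -/
theorem edS : EdS := fun _ _ D hw _ _ hyi hi =>
  ⟨lam3_mono D hw hyi.le (Nat.le_succ _) hi, lam3_le D hw (by omega) hi,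
    fun _ _ _ _ _ _ hτ hτ' hcd hef hce hce' _ H =>
      edJ D hw hyi hi (Nat.le_succ _) hi hτ hτ' hcd hef hce hce' H⟩

end Crest.Agent.T156.Cas.Ed43

end
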