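import Crest.Agent.T156.CondC_31
import Crest.Agent.T156.SclT_90

/-!
# Row 156 (helper31): leaf E-d2, two different nodes of the same depth
-/

set_option autoImplicit false
set_option linter.unusedSectionVars false

noncomputable section

namespace Crest.Agent.T156.Cas.Eb31

open MeasureTheory Real Set Filter Topology
open Crest.Agent.T157.E Crest.Agent.T157.Casc Crest.Agent.T157.SL
open Wt87 Law Nu87 E91 Cond31

variable {Ω : Type} [Fintype Ω] {w : Ω → ℝ}

theorem cl_eq (s : Sh) {K j : ℕ} (hj : j ≤ K) (a b : s.Lf) :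
    s.cl j a = s.cl j b ↔ j ≤ s.shr a b K := by
  have := shr_min s a b j K
  rw [min_eq_left hj] at this
  rw [Clu22.cl_eq_iff, this]
  omega

/-- a pair split at its node of depth `j`, given the states at depth `j` -/
theorem cE_edge (hw : Wt w) (s : Sh) (L : List (Lv Ω)) {j : ℕ} {c d : s.Lf} (hcd : c ≠ d)
    (h1 : s.shr c d L.length = j) (U : Ω → Ω → ℝ) (z : (s.cut j).Lf → Ω → ℝ) :
    cE w (L.drop j) s j z (fun x => U (x c) (x d)) = Cond31.rt w L j U (z (s.cl j c)) := by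
  have hj : j ≤ L.length := h1 ▸ shr_le s c d _
  obtain ⟨c', hc'⟩ := Clu22.exists_inj s j c
  obtain ⟨d', hd'⟩ : ∃ b, s.inj j (s.cl j c) b = d := by
    rw [(cl_eq s hj c d).2 h1.ge]
    exact Clu22.exists_inj s j d
  have e := Clu22.cE_inj hw (L.drop j) s j z (s.cl j c) fun x => U (x c') (x d')
  simp only [hc', hd'] at e
  have e2 := Clu22.shr_inj s j _ c' d' (L.length - j)
  rw [Nat.sub_add_cancel hj, hc', hd', h1] at e2
  rw [e, TE_pair hw _ _ _ (fun e => hcd (by rw [← hc', ← hd', e])) U, List.length_drop,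
    show (s.up j (s.cl j c)).shr c' d' (L.length - j) = 0 by omega, pi2_zero]
  rfl

/-- **two edges on different nodes of depth `j`**: only the node means count -/
theorem TE_sep (hw : Wt w) (s : Sh) (L : List (Lv Ω)) (h : Ω → ℝ) {j : ℕ} {c d e f : s.Lf}
    (hcd : c ≠ d) (hef : e ≠ f) (h1 : s.shr c d L.length = j) (h2 : s.shr e f L.length = j)
    (h3 : s.shr c e L.length < j) (U U' : Ω → Ω → ℝ) :
    TE w s L h (fun x => U (x c) (x d) * U' (x e) (x f)) = tF w (s.cut j) L h fun p _ =>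
      Cond31.rt w L j U (p (s.cl j c) j) * Cond31.rt w L j U' (p (s.cl j e) j) := by
  have hj : j ≤ L.length := h1 ▸ shr_le s c d _
  have hd := (cl_eq s hj c d).2 h1.ge
  have hf := (cl_eq s hj e f).2 h2.ge
  have hne : ¬s.cl j e = s.cl j c := fun h => not_le.2 h3 ((cl_eq s hj c e).1 h.symm)
  rw [TE_cut hw s j]
  refine congrArg (tF w (s.cut j) L h) (funext fun p => funext fun _ => ?_)
  rw [Clu22.cE_mul hw _ s j _ (· = s.cl j c) (fun x x' h => by simp only [h c rfl, h d hd.symm])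
    (fun x x' h => by simp only [h e hne, h f fun e => hne (hf.trans e)]), cE_edge hw s L hcd h1,
    cE_edge hw s L hef h2]

theorem tF_state (hw : Wt w) (s : Sh) (a : s.Lf) (L : List (Lv Ω)) (h : Ω → ℝ) (j : ℕ)
    {Φ : (Ω → ℝ) → ℝ} (hΦ : Eg Φ) : tF w s L h (fun p _ => Φ (p a j)) = node w L j Φ h := by
  rw [tF_marg_node hw s a L h j (Φ := fun _ => Φ) fun _ => hΦ]
  simp only [← Finset.sum_mul, sum_P hw, one_mul]

theorem abs_TE_sep (hw : Wt w) (s : Sh) (L : List (Lv Ω)) (h : Ω → ℝ) {j : ℕ} {c d e f : s.Lf}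
    (hcd : c ≠ d) (hef : e ≠ f) (h1 : s.shr c d L.length = j) (h2 : s.shr e f L.length = j)
    (h3 : s.shr c e L.length < j) (U U' : Ω → Ω → ℝ) :
    |TE w s L h (fun x => U (x c) (x d) * U' (x e) (x f))| ≤
      (node w L j (fun z => Cond31.rt w L j U z ^ 2) h + node w L j (fun z => Cond31.rt w L j U' z ^ 2) h) / 2 := by
  have g1 := (EgP.state (eg_rt_sq hw L j U) (s.cl j c) j).stT L h
  have g2 := (EgP.state (eg_rt_sq hw L j U') (s.cl j e) j).stT L h
  rw [TE_sep hw s L h hcd hef h1 h2 h3, ← tF_state hw (s.cut j) (s.cl j c) L h j (eg_rt_sq hw L j U),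
    ← tF_state hw (s.cut j) (s.cl j e) L h j (eg_rt_sq hw L j U'), tF, tF, tF,
    ← Sd.tX_add hw _ L h (fun _ => g1) (fun _ => g2), div_eq_inv_mul, ← Sd.tX_const_mul]
  refine Lin23.abs_tX_le hw _ L h (fun _ => (g1.add g2).const_mul _) fun g x => ?_
  rw [abs_le]
  constructor
  · nlinarith [sq_nonneg (Cond31.rt w L j U (stT _ L h g (s.cl j c) j) +
      Cond31.rt w L j U' (stT _ L h g (s.cl j e) j))]
  · nlinarith [sq_nonneg (Cond31.rt w L j U (stT _ L h g (s.cl j c) j) -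
      Cond31.rt w L j U' (stT _ L h g (s.cl j e) j))]

theorem abs_TM_sep (hw : Wt w) {r : ℕ} {L : List (Lv Ω)} {h : Ω → ℝ} {σ : SM r}
    (hσ : Rz L.length σ) {j : ℕ} {c d e f : Fin r} (hcd : c ≠ d) (hef : e ≠ f) (h1 : σ c d = j)
    (h2 : σ e f = j) (h3 : σ c e < j) (U : Ω → Ω → ℝ) :
    |TM w L h σ (fun x => U (x c) (x d) * U (x e) (x f))| ≤
      node w L j (fun z => Cond31.rt w L j U z ^ 2) h := by
  obtain ⟨s, e', rfl⟩ := hσ
  rw [TM_sm hw s L h e'.injective]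
  exact (abs_TE_sep hw s L h (fun e => hcd (e'.injective e)) (fun e => hef (e'.injective e))
    h1 h2 h3 U U).trans_eq (by ring)

variable (D : Dat Ω) {tb : ℝ}

theorem Bf_sep (hw : Wt D.w) {τ : SM 6} (hτ : Rz D.K τ) {y : ℕ} {c d e f : Fin 6} (hcd : c ≠ d)
    (hef : e ≠ f) (h1 : τ c d = y) (h2 : τ e f = y) (h3 : τ c e < y) :
    |D.Bf c d e f τ| ≤ D.t y ^ 2 * D.rt2 y := by
  rw [Bf_eq, h1, h2, ← sq, abs_mul, abs_of_nonneg (sq_nonneg _), rt2_eq D hw]
  exact mul_le_mul_of_nonneg_left (abs_TM_sep hw hτ hcd hef h1 h2 h3 _) (sq_nonneg _)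

/-- one level of the weak input -/
theorem Gm_one (H : D.Ok tb) {j y : ℕ} (hy : y ≤ D.K) (hj : j ≤ y) {G : ℝ} (hG : D.Gm j G)
    (ht : D.t y ≠ 0) : dm D.L 0 y ^ 2 * D.rt2 y ≤ G ^ 2 := by
  have h1 := (hG.2 (fun i => if i = y then 1 else 0) (fun i => by
    unfold Dat.gz
    by_cases h1 : i = y
    · rw [if_pos h1, if_neg (by omega), abs_one]
    · rw [if_neg h1, abs_zero]
      split_ifs with h2
      · exact add_nonneg (add_nonneg (le_min zero_le_one (Ker15.PB_nonneg 6 (H.sg0 i)))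
          (H.q01 i (by omega)).1) (Nu87.ex_nonneg H.mono i)
      · exact zero_le_one) fun i hi => if_neg fun e : i = y => ht (e ▸ hi)).1
  have e : ∀ g : ℕ → ℝ, (D.I fun i => (if i = y then 1 else 0) * g i) = dm D.L 0 y * g y := fun g => by
    simp [Dat.I, Finset.sum_ite_eq', hy]
  simp only [e, mul_pow] at h1
  rwa [Pe.pE_const_mul, Pe.pE_node1 H.wt
    (Φ := fun z => (Sy41.rr D.w (D.L.drop y) D.l0 z - D.q y) ^ 2)
    (((Sy41.eg_rr H.wt _ _).sub (Eg.const _)).pow 2)] at h1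

theorem rt2_le_un (H : D.Ok tb) {y : ℕ} (hy : y ≤ D.K) (ht : D.t y ≠ 0) : D.rt2 y ≤ D.un y ^ 2 :=
  (rt2_le D H.wt y).trans (pi2_U0_sq_le_un D H hy ht)

/-- **leaf E-d2** -/
theorem eiS : EiS := fun _ _ D _ H y hy =>
  ⟨fun _ _ _ _ _ hτ hcd hef h1 h2 h3 => Bf_sep D H.wt hτ hcd hef h1 h2 h3, fun j hj G hG ht => by
    have h1 := Gm_one D H hy hj hG ht
    have h2 := mul_le_mul_of_nonneg_left (rt2_le_un D H hy ht) (sq_nonneg (dm D.L 0 y))
    have h3 := mul_nonneg (sq_nonneg (dm D.L 0 y)) (rt2_nonneg D y)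
    have h4 := mul_nonneg (dm_nonneg H.mono y) (H.un0 y).1
    refine (abs_le_of_sq_le_sq' ?_ (mul_nonneg hG.1 h4)).2
    rw [sq, mul_pow G, mul_pow (dm D.L 0 y)]
    exact mul_le_mul h1 h2 h3 (sq_nonneg _)⟩

end Crest.Agent.T156.Cas.Eb31

end
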