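import Crest.Agent.T156.Ee_91
import Crest.Agent.T156.E1G_6
import Crest.Agent.T156.Eb_31
import Crest.Agent.T156.Ei_31
import Crest.Agent.T156.Ed_43
import Crest.Agent.T156.EcC_52

/-!
# Row 156 (helper91): the first cavity equation from the Taylor expansion
-/

set_option autoImplicit false

namespace Crest.Agent.T156.Cas.E91

theorem eeS : EeS := eeS_of Ed43.edS Eb31.eiS

theorem e1S_of_ea (p : Bool) (h : EaS p) : E1S p := e1S_of p h Eb31.ebS Ec52.ecS eeS

end Crest.Agent.T156.Cas.E91
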