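import Crest.Agent.T156.EDef_91
import Crest.Agent.T156.Wp_52
import Crest.Agent.T156.Clu_22

/-!
# Row 156 (helper15): leaf E-b, both edges at the level of the test node
-/

set_option autoImplicit false
set_option linter.unusedSectionVars false

noncomputable section

namespace Crest.Agent.T156.Cas.Eb15

open MeasureTheory Real Set Filter Topology
open Crest.Agent.T157.E Crest.Agent.T157.Casc Crest.Agent.T157.SL
open Crest.ProbabilityR.SpinGlassDynamics (spin)
open Nu87 Ker15 E91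

section bulk

variable {Ω : Type} [Fintype Ω] {w : Ω → ℝ}

/-- functions of one cluster -/
theorem TE_up (hw : Wt w) : ∀ (s : Sh) (j : ℕ) (α : (s.cut j).Lf) (L : List (Lv Ω)) (h : Ω → ℝ)
    (F : ((s.up j α).Lf → Ω) → ℝ), TE w s L h (fun x => F fun b => x (s.inj j α b)) =
      node w L j (fun z => TE w (s.up j α) (L.drop j) z F) h
  | .one, j, _, L, h, F => One15.TE_one_node hw L j h F
  | .step _, 0, _, _, _, _ => by rw [node_zero]; rfl
  | .step s, j + 1, α, [], h, F => (Law.TE_step_nil w s h _).trans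
      ((TE_up hw s j α [] h F).trans (by rw [node_nil, node_nil, List.drop_nil, List.drop_nil]; rfl))
  | .step s, j + 1, α, l :: L, h, F => (Law.TE_step hw s l L h _).trans
      (congrArg (fun Φ => tE l (X w L) Φ h) (funext fun z => TE_up hw s j α L z F))
  | .split _ _, 0, _, _, _, _ => by rw [node_zero]; rfl
  | .split s t, j + 1, .inl α, L, h, F => (Law.TE_split hw s t L h _).trans
      ((congrArg (TE w s L h) (funext fun x =>
        Law.TE_const hw t L h (F fun b => x (s.inj (j + 1) α b)))).trans (TE_up hw s (j + 1) α L h F))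
  | .split s t, j + 1, .inr α, L, h, F => (Law.TE_split hw s t L h _).trans
      ((Law.TE_const hw s L h (TE w t L h fun x => F fun b => x (t.inj (j + 1) α b))).trans
        (TE_up hw t (j + 1) α L h F))

/-- mean square of the conditional mean of `U` at a node of depth `j` -/
def B0 (w : Ω → ℝ) (L : List (Lv Ω)) (h : Ω → ℝ) (j : ℕ) (U : Ω → Ω → ℝ) : ℝ :=
  node w L j (fun z => qf (P w (L.drop j) z) U ^ 2) h

theorem eg_sq (hw : Wt w) (L : List (Lv Ω)) (U : Ω → Ω → ℝ) :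
    Eg fun z => qf (P w L z) U ^ 2 := by
  simp only [sq]
  exact (eg_qf hw L U).mul (eg_qf hw L U)

theorem qf_quad (hw : Wt w) (L : List (Lv Ω)) (z : Ω → ℝ) (U : Ω → Ω → ℝ) (a b c : ℝ) :
    qf (P w L z) (fun x y => a * U x y ^ 2 + b * U x y + c) =
      a * qf (P w L z) (fun x y => U x y ^ 2) + b * qf (P w L z) U + c := by
  rw [qf_add, qf_add, qf_const_mul, qf_const_mul, qf_const (sum_P hw L z)]

theorem B0_nonneg (L : List (Lv Ω)) (h : Ω → ℝ) (j : ℕ) (U : Ω → Ω → ℝ) : 0 ≤ B0 w L h j U :=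
  node_nonneg w (fun _ => sq_nonneg _) L j h

theorem B0_le (hw : Wt w) (L : List (Lv Ω)) (h : Ω → ℝ) (j : ℕ) (U : Ω → Ω → ℝ) :
    B0 w L h j U ≤ pi2 w L j (fun x y => U x y ^ 2) h :=
  node_mono hw (eg_sq hw _ U) (eg_qf hw _ _) (fun z => by
    have h1 := qf_quad hw (L.drop j) z U 1 (-2 * qf (P w (L.drop j) z) U)
      (qf (P w (L.drop j) z) U ^ 2)
    have h2 := qf_nonneg (P_nonneg hw (L.drop j) z) (K := fun x y => 1 * U x y ^ 2 +
      -2 * qf (P w (L.drop j) z) U * U x y + qf (P w (L.drop j) z) U ^ 2) fun x y => by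
        nlinarith [sq_nonneg (U x y - qf (P w (L.drop j) z) U)]
    linarith) L j h

/-- two edges split at the root -/
theorem root_le (hw : Wt w) (s : Sh) (L : List (Lv Ω)) (z : Ω → ℝ) {c d e f : s.Lf} (hcd : c ≠ d)
    (hef : e ≠ f) (h1 : s.shr c d L.length = 0) (h2 : s.shr e f L.length = 0) (U : Ω → Ω → ℝ) :
    |TE w s L z (fun x => U (x c) (x d) * U (x e) (x f)) - qf (P w L z) U ^ 2| ≤
      qf (P w L z) (fun x y => U x y ^ 2) - qf (P w L z) U ^ 2 := by
  have key : ∀ a b c' : ℝ, TE w s L z (fun x => (a * U (x c) (x d) ^ 2 + b * U (x c) (x d) + c') +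
      (a * U (x e) (x f) ^ 2 + b * U (x e) (x f) + c')) =
      2 * (a * qf (P w L z) (fun x y => U x y ^ 2) + b * qf (P w L z) U + c') := fun a b c' => by
    rw [Law.TE_add hw, Tay38.TE_pair hw (fun x y => a * U x y ^ 2 + b * U x y + c') s L z c d hcd,
      Tay38.TE_pair hw (fun x y => a * U x y ^ 2 + b * U x y + c') s L z e f hef, h1, h2,
      Tay38.pi2_zero38, qf_quad hw, two_mul]
  have u1 := (Law.TE_mono hw s L z (F := fun x => U (x c) (x d) * U (x e) (x f)) fun x => by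
    nlinarith [sq_nonneg (U (x c) (x d) - U (x e) (x f))]).trans_eq (key (1 / 2) 0 0)
  have u2 := (key (-1 / 2) (2 * qf (P w L z) U) (-qf (P w L z) U ^ 2)).symm.trans_le
    (Law.TE_mono hw s L z (G := fun x => U (x c) (x d) * U (x e) (x f)) fun x => by
      nlinarith [sq_nonneg (U (x c) (x d) + U (x e) (x f) - 2 * qf (P w L z) U)])
  rw [abs_le]
  constructor <;> linarith

theorem ex_inj (s : Sh) (j : ℕ) {α : (s.cut j).Lf} {a : s.Lf} (h : s.cl j a = α) :
    ∃ b, s.inj j α b = a := h ▸ Clu22.exists_inj s j a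

theorem cl_eq (s : Sh) {j K : ℕ} (hj : j ≤ K) {a b : s.Lf} (h : j ≤ s.shr a b K) :
    s.cl j b = s.cl j a := by
  have := Wt87.shr_min s a b j K
  rw [min_eq_left hj, min_eq_left h] at this
  exact ((Clu22.cl_eq_iff s j a b).2 this).symm

/-- **two edges split at the same node** -/
theorem same_le (hw : Wt w) (s : Sh) (L : List (Lv Ω)) (h : Ω → ℝ) {j : ℕ} {c d e f : s.Lf}
    (hcd : c ≠ d) (hef : e ≠ f) (h1 : s.shr c d L.length = j) (h2 : s.shr e f L.length = j)
    (h3 : j ≤ s.shr c e L.length) (U : Ω → Ω → ℝ) :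
    |TE w s L h (fun x => U (x c) (x d) * U (x e) (x f)) - B0 w L h j U| ≤
      pi2 w L j (fun x y => U x y ^ 2) h - B0 w L h j U := by
  have hj : j ≤ L.length := h1 ▸ Wt87.shr_le _ _ _ _
  obtain ⟨α, hc⟩ : ∃ α, s.cl j c = α := ⟨_, rfl⟩
  have hd := (cl_eq s hj h1.ge).trans hc
  have he := (cl_eq s hj h3).trans hc
  have hf := (cl_eq s hj h2.ge).trans he
  obtain ⟨c, rfl⟩ := ex_inj s j hc
  obtain ⟨d, rfl⟩ := ex_inj s j hd
  obtain ⟨e, rfl⟩ := ex_inj s j he
  obtain ⟨f, rfl⟩ := ex_inj s j hf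
  have k1 := Clu22.shr_inj s j α c d (L.length - j)
  have k2 := Clu22.shr_inj s j α e f (L.length - j)
  rw [Nat.sub_add_cancel hj, ← List.length_drop] at k1 k2
  have e1 := Law.eg_TE hw (s.up j α) (L.drop j) fun x => U (x c) (x d) * U (x e) (x f)
  have e2 := eg_sq hw (L.drop j) U
  have e3 := eg_qf hw (L.drop j) fun x y => U x y ^ 2
  rw [TE_up hw s j α L h fun x => U (x c) (x d) * U (x e) (x f), B0, pi2,
    ← congrFun (node_sub hw e1 e2 L j) h, ← congrFun (node_sub hw e3 e2 L j) h]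
  exact One15.abs_node_le hw (e1.sub e2) (e3.sub e2) (fun z => root_le hw _ _ z
    (fun e => hcd (congrArg _ e)) (fun e => hef (congrArg _ e)) (by omega) (by omega) U) L j h

/-- two edges split at the same level -/
theorem crude_le (hw : Wt w) (s : Sh) (L : List (Lv Ω)) (h : Ω → ℝ) {j : ℕ} {c d e f : s.Lf}
    (hcd : c ≠ d) (hef : e ≠ f) (h1 : s.shr c d L.length = j) (h2 : s.shr e f L.length = j)
    (U : Ω → Ω → ℝ) : |TE w s L h (fun x => U (x c) (x d) * U (x e) (x f)) - B0 w L h j U| ≤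
      2 * pi2 w L j (fun x y => U x y ^ 2) h := by
  have u1 := (Law.abs_TE_le hw s L h fun x => U (x c) (x d) * U (x e) (x f)).trans
    (Law.TE_mono hw s L h (G := fun x => 1 / 2 * (U (x c) (x d) ^ 2 + U (x e) (x f) ^ 2)) fun x =>
      abs_le.2 ⟨by nlinarith [sq_nonneg (U (x c) (x d) + U (x e) (x f))],
        by nlinarith [sq_nonneg (U (x c) (x d) - U (x e) (x f))]⟩)
  rw [Law.TE_const_mul hw, Law.TE_add hw, Tay38.TE_pair hw (fun x y => U x y ^ 2) s L h c d hcd,
    Tay38.TE_pair hw (fun x y => U x y ^ 2) s L h e f hef, h1, h2, abs_le] at u1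
  have u2 := B0_nonneg (w := w) L h j U
  have u3 := B0_le hw L h j U
  rw [abs_le]
  constructor <;> linarith [u1.1, u1.2]

variable {r : ℕ} {L : List (Lv Ω)} {τ : SM r} {j : ℕ} {c d e f : Fin r}

theorem TM_same (hw : Wt w) (hτ : Rz L.length τ) (h : Ω → ℝ) (hcd : c ≠ d) (hef : e ≠ f)
    (h1 : τ c d = j) (h2 : τ e f = j) (h3 : j ≤ τ c e) (U : Ω → Ω → ℝ) :
    |TM w L h τ (fun x => U (x c) (x d) * U (x e) (x f)) - B0 w L h j U| ≤
      pi2 w L j (fun x y => U x y ^ 2) h - B0 w L h j U := by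
  obtain ⟨s, ε, rfl⟩ := hτ
  rw [TM_sm hw s L h ε.injective]
  exact same_le hw s L h (ε.injective.ne hcd) (ε.injective.ne hef) h1 h2 h3 U

theorem TM_crude (hw : Wt w) (hτ : Rz L.length τ) (h : Ω → ℝ) (hcd : c ≠ d) (hef : e ≠ f)
    (h1 : τ c d = j) (h2 : τ e f = j) (U : Ω → Ω → ℝ) :
    |TM w L h τ (fun x => U (x c) (x d) * U (x e) (x f)) - B0 w L h j U| ≤
      2 * pi2 w L j (fun x y => U x y ^ 2) h := by
  obtain ⟨s, ε, rfl⟩ := hτ
  rw [TM_sm hw s L h ε.injective]
  exact crude_le hw s L h (ε.injective.ne hcd) (ε.injective.ne hef) h1 h2 U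

theorem abs_TM_le (hw : Wt w) (hτ : Rz L.length τ) (h : Ω → ℝ) {F : (Fin r → Ω) → ℝ} {B : ℝ}
    (hF : ∀ x, |F x| ≤ B) : |TM w L h τ F| ≤ B := by
  obtain ⟨s, ε, rfl⟩ := hτ
  rw [TM_sm hw s L h ε.injective]
  exact One15.abs_TE_le hw s L h fun _ => hF _

theorem qf_cen (hw : Wt w) (L : List (Lv Ω)) (l : Lv Ω) (z : Ω → ℝ) (q : ℝ) :
    qf (P w L z) (fun x y => l.cov x y - q) = Sy41.rr w L l z - q := by
  rw [qf_sub, qf_const (sum_P hw L z)]
  congr 1
  unfold Lv.cov
  simp only [qf_sum, qf_mul, Sy41.rr, Sy41.mv, Pf, sq]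

end bulk

section weights

variable {Ω : Type} [Fintype Ω] {M : List (Lv Ω)} {r j : ℕ}

/-- every node of depth `j` is on the path of `o` -/
def P1 (j : ℕ) (τ : SM r) (o : Fin r) : Prop := ∀ c d, τ c d = j → j ≤ τ c o

/-- no third branch between `o` and `o'` -/
def P2 (j : ℕ) (τ : SM r) (o o' : Fin r) : Prop := ∀ c, τ c o = j → τ c o' ≠ j

open Classical in
/-- indicator of the failure of `p` -/
def ng (p : Prop) : ℝ := if p then 0 else 1

theorem ng_pos {p : Prop} (h : p) : ng p = 0 := if_pos h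

theorem ng_neg {p : Prop} (h : ¬p) : ng p = 1 := if_neg h

theorem ng_nonneg (p : Prop) : 0 ≤ ng p := by
  by_cases h : p
  exacts [(ng_pos h).ge, (ng_neg h).symm ▸ zero_le_one]

theorem ng_le (p : Prop) : ng p ≤ 1 := by
  by_cases h : p
  exacts [(ng_pos h).symm ▸ zero_le_one, (ng_neg h).le]

/-- a property that one graft destroys with weight at most `ω` -/
theorem avc_bad (hM : Mono 0 M) {σ : SM (r + 1)} (hσ : Rz M.length σ)
    {Q : ∀ n, SM (n + 1) → Fin (n + 1) → Fin (n + 1) → Prop} {ω : ℝ} (hω : 0 ≤ ω)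
    (hs : ∀ n τ o o', Rz M.length τ → Q n τ o o' →
      up1 M (fun τ' => ng (Q (n + 1) τ' o.succ o'.succ)) τ ≤ ω) {a b : Fin (r + 1)}
    (h0 : Q r σ a b) : ∀ k : ℕ,
    avc M σ k (fun τ => ng (Q (r + k) τ (old k a) (old k b))) ≤ k * ω
  | 0 => (ng_pos h0).trans_le (by simp)
  | k + 1 => by
      refine (avc_mono hM hσ k (ψ := fun τ => ng (Q (r + k) τ (old k a) (old k b)) + ω)
        fun τ hτ => ?_).trans ?_
      · by_cases h : Q (r + k) τ (old k a) (old k b)
        · exact (hs _ τ _ _ hτ h).trans (le_add_of_nonneg_left (ng_nonneg _))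
        · refine ((up1_mono hM hτ fun _ _ => ng_le _).trans_eq (congrFun (up1_const 1) τ)).trans ?_
          rw [ng_neg h]
          linarith
      · rw [avc_add, avc_const]
        have := avc_bad hM hσ hω hs h0 k
        push_cast
        linarith

theorem P1.gr {K : ℕ} {τ : SM r} (hτ : Rz K τ) (hj : j < K) {o : Fin r} (H : P1 j τ o) (a : Fin r)
    {y : ℕ} (hy : y = j → ∃ b, τ a b = j) : P1 j (gr K τ a y) o.succ := by
  have key : ∀ b, min y (τ b a) = j → j ≤ τ a o := fun b hb => by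
    by_cases h : y = j
    · obtain ⟨b', hb'⟩ := hy h
      exact H a b' hb'
    · exact H a b (by rw [hτ.comm]; omega)
  intro c d
  refine Fin.cases ?_ (fun c => ?_) c <;> refine Fin.cases ?_ (fun d => ?_) d
  · exact fun h => absurd h hj.ne'
  · intro h
    have h1 := key d h
    rw [gr_0s] at h ⊢
    rw [hτ.comm] at h1
    omega
  · intro h
    have h1 := key c h
    have h2 := hτ.ultra c a o
    rw [gr_s0] at h
    rw [gr_ss]
    omega
  · exact H c d

theorem step1 (hM : Mono 0 M) (hj : j < M.length) {τ : SM (r + 1)} (hτ : Rz M.length τ)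
    {o : Fin (r + 1)} (H : P1 j τ o) : up1 M (fun τ' => ng (P1 j τ' o.succ)) τ ≤ dm M 0 j := by
  rw [up1, div_le_iff₀ (by positivity)]
  refine (Wp52.Ws_le hM hτ fun _ _ _ => ng_nonneg _).trans
    ((Finset.sum_le_card_nsmul _ _ (dm M 0 j) fun a _ => ?_).trans_eq (by simp [mul_comm]))
  rw [Finset.sum_eq_zero fun b _ => by rw [ng_pos (H.gr hτ hj a fun h => ⟨b, h⟩), mul_zero],
    add_zero]
  refine (Wp52.Br_mono hM (g' := fun y => if y = j then 1 else 0) fun y _ => ?_).trans_eq ?_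
  · split_ifs with h
    exacts [ng_le _, (ng_pos (H.gr hτ hj a fun h' => absurd h' h)).le]
  · simp [Wp52.Br, hj.le]

theorem step2 (hM : Mono 0 M) {τ : SM (r + 1)} (hτ : Rz M.length τ) {o o' : Fin (r + 1)}
    (H : P2 j τ o o') : up1 M (fun τ' => ng (P2 j τ' o.succ o'.succ)) τ ≤ ex M j := by
  rw [up1, div_le_iff₀ (by positivity)]
  refine (Ws_mono hM hτ (hτ.ncm fun τ' => ng (P2 j τ' o.succ o'.succ))
    (G' := fun _ y => if y ≤ j then 1 else 0) (fun _ _ _ _ => rfl) fun a y hy => ?_).trans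
    ((Ws_low hM τ j).trans_eq (by push_cast; ring))
  split_ifs with h
  · exact ng_le _
  · refine (ng_pos fun c => Fin.cases ?_ (fun c => H c) c).le
    have := H a
    rw [gr_0s, gr_0s, hτ.comm o, hτ.comm o']
    omega

theorem avc_P1 (hM : Mono 0 M) (hj : j < M.length) (k : ℕ) :
    avc (r := 1) M (tw M.length j) k (fun τ => ng (P1 j τ (old k 0))) ≤ k * dm M 0 j :=
  avc_bad hM (rz_tw _ j) (Q := fun _ τ o _ => P1 j τ o) (dm_nonneg hM j)
    (fun _ _ _ _ hτ H => step1 hM hj hτ H) (b := 0) (fun c _ _ => by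
      fin_cases c
      exacts [hj.le, (min_eq_left hj.le).ge]) k

theorem avc_P2 (hM : Mono 0 M) (hj : j < M.length) (k : ℕ) :
    avc (r := 1) M (tw M.length j) k (fun τ => ng (P2 j τ (old k 0) (old k 1))) ≤ k * ex M j :=
  avc_bad hM (rz_tw _ j) (Q := fun _ τ o o' => P2 j τ o o') (ex_nonneg hM j)
    (fun _ _ _ _ hτ H => step2 hM hτ H) (fun c h => by
      fin_cases c
      exacts [absurd h hj.ne', hj.ne']) k

theorem abs_avc (hM : Mono 0 M) {σ : SM (r + 1)} (h0 : Rz M.length σ) (k : ℕ)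
    {f g : SM (r + k + 1) → ℝ} (e : ∀ τ, Rz M.length τ →
      (∀ a b, τ (old k a) (old k b) = σ a b) → |f τ| ≤ g τ) : |avc M σ k f| ≤ avc M σ k g := by
  have h1 := avc_mono' hM h0 k fun τ hτ ho => (abs_le.1 (e τ hτ ho)).2
  have h2 := avc_mono' hM h0 k (φ := fun τ => -1 * g τ) (ψ := f) fun τ hτ ho => by
    linarith [(abs_le.1 (e τ hτ ho)).1]
  rw [avc_mul] at h2
  rw [abs_le]
  constructor <;> linarith

end weights

section site

variable {r j K : ℕ} {τ : SM r} {o o' c d e f : Fin r}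

/-- an edge of level `j` crosses between the two branches -/
theorem one_side (hτ : Rz K τ) (h0 : τ o o' = j) (p1 : P1 j τ o) (p2 : P2 j τ o o')
    (h : τ c d = j) : (if j < τ o c then 1 else 0) + (if j < τ o d then 1 else 0) = 1 := by
  have a1 := p1 c d h
  have a2 := p1 d c (hτ.comm _ _ ▸ h)
  have a3 := p2 c
  have a4 := p2 d
  have a5 := hτ.ultra c o o'
  have a6 := hτ.ultra d o o'
  have a7 := hτ.ultra c o d
  have a8 := hτ.ultra c o' d
  have a9 := hτ.comm o c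
  have a10 := hτ.comm o d
  have a11 := hτ.comm o' d
  split_ifs <;> omega

theorem bm_add (k k' : Fin r → ℕ) (a : Fin r) (i : ℕ) :
    bm τ (k + k') a i = bm τ k a i + bm τ k' a i := by
  simp only [bm, Pi.add_apply, ite_add_zero, Finset.sum_add_distrib]

theorem bm_single (c a : Fin r) (i : ℕ) :
    bm τ (Pi.single c 1) a i = if i < τ a c then 1 else 0 := by
  rw [bm, Finset.sum_eq_single c (fun b _ hb => by simp [hb]) (by simp)]
  simp

theorem spin2 (a b : Bool) : spin a * spin b = 1 ∨ spin a * spin b = -1 := by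
  cases a <;> cases b <;> simp [spin]

theorem tri {A B C q : ℝ} (hA : A = 1 ∨ A = -1) (hB : B = 1 ∨ B = -1) (hC : C = 1 ∨ C = -1)
    (q0 : 0 ≤ q) (q1 : q ≤ 1) :
    |(A - q) * (B - q) * (C - q) - A * B * C| ≤ 7 * q ∧ |(A - q) * (B - q) * (C - q)| ≤ 8 := by
  have h2 : q * q ≤ q := by nlinarith
  have h3 : q * (q * q) ≤ q * q := by nlinarith [mul_nonneg q0 q0]
  have h4 := mul_nonneg q0 (mul_nonneg q0 q0)
  have h5 := mul_nonneg q0 q0
  rcases hA with rfl | rfl <;> rcases hB with rfl | rfl <;> rcases hC with rfl | rfl <;>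
    refine ⟨abs_le.2 ⟨?_, ?_⟩, abs_le.2 ⟨?_, ?_⟩⟩ <;> nlinarith

variable {T : List (Lv Bool)}

theorem site_crude (hτ : Rz T.length τ) {q : ℝ} (q0 : 0 ≤ q) (q1 : q ≤ 1) :
    |TM (fun _ => 1) T 0 τ fun x => (spin (x o) * spin (x o') - q) *
      (spin (x c) * spin (x d) - q) * (spin (x e) * spin (x f) - q)| ≤ 8 :=
  abs_TM_le One15.w1 hτ 0 fun _ => (tri (spin2 _ _) (spin2 _ _) (spin2 _ _) q0 q1).2

/-- three edges across a binary node -/
theorem site_le (H : R1 T) (hM : Mono 0 T) (hτ : Rz T.length τ) (hj : j < T.length)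
    (h0 : τ o o' = j) (h1 : τ c d = j) (h2 : τ e f = j) (p1 : P1 j τ o) (p2 : P2 j τ o o') {σ q : ℝ}
    (hσ : 0 < σ) (ht : tm T j ≤ σ) (q0 : 0 ≤ q) (q1 : q ≤ 1) :
    |TM (fun _ => 1) T 0 τ fun x => (spin (x o) * spin (x o') - q) *
      (spin (x c) * spin (x d) - q) * (spin (x e) * spin (x f) - q)| ≤ min 1 (PB r σ) + 7 * q := by
  set k : Fin r → ℕ := Pi.single o 1 + Pi.single o' 1 + (Pi.single c 1 + Pi.single d 1) +
    (Pi.single e 1 + Pi.single f 1) with hk
  have a1 : |TM (fun _ => 1) T 0 τ (One15.mo k)| ≤ min 1 (PB r σ) := by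
    refine le_min (abs_TM_le One15.w1 hτ 0 fun x => (One15.abs_mo k x).le) ?_
    have a2 : bm τ k o j = 3 := by
      simp only [hk, bm_add, bm_single, one_side hτ h0 p1 p2 h0, one_side hτ h0 p1 p2 h1,
        one_side hτ h0 p1 p2 h2]
    obtain ⟨s, ε, rfl⟩ := hτ
    rw [TM_sm One15.w1 s T 0 ε.injective]
    exact par1_m H hM ε.injective (Nat.one_le_iff_ne_zero.2 o.pos.ne') (Fintype.card_fin r).le hj
      (a := o) (by rw [a2]; decide) hσ ht
  have a3 := abs_TM_le (L := T) One15.w1 hτ 0 (F := fun x => (spin (x o) * spin (x o') - q) *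
      (spin (x c) * spin (x d) - q) * (spin (x e) * spin (x f) - q) - One15.mo k x) fun x => by
    simp only [hk, One15.mo_add, One15.mo_single]
    exact (tri (spin2 _ _) (spin2 _ _) (spin2 _ _) q0 q1).1
  rw [TM_sub] at a3
  linarith [abs_sub_abs_le_abs_sub (TM (fun _ => 1) T 0 τ fun x => (spin (x o) * spin (x o') - q) *
      (spin (x c) * spin (x d) - q) * (spin (x e) * spin (x f) - q))
      (TM (fun _ => 1) T 0 τ (One15.mo k))]

end site

variable {Ω : Type} [Fintype Ω]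

theorem rt2_eq (D : Dat Ω) (hw : Wt D.w) (j : ℕ) : D.rt2 j = B0 D.w D.L D.h j (D.U0 j) := by
  rw [Dat.rt2, B0]
  simp only [← qf_cen hw]
  rfl

theorem V_nonneg (D : Dat Ω) (hw : Wt D.w) (j : ℕ) : 0 ≤ D.V j := by
  rw [Dat.V, rt2_eq D hw]
  exact sub_nonneg.2 (B0_le hw _ _ _ _)

/-- **E-b**, with local hypotheses only -/
theorem eb_core (D : Dat Ω) (hw : Wt D.w) (hM : Mono 0 D.L) (ht : D.L.map Lv.m = D.T.map Lv.m)
    (hr : R1 D.T) {j : ℕ} (hj : j < D.K) (h0 : 0 < D.sg j) (hs : tm D.T j ≤ D.sg j)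
    (q0 : 0 ≤ D.q j) (q1 : D.q j ≤ 1) (c d e f : Fin 6) :
    |D.A j fun τ => if τ c d = j ∧ τ e f = j then
      (D.Bf c d e f τ - D.t j ^ 2 * D.rt2 j) * D.Sf c d e f τ else 0| ≤
      D.t j ^ 2 * (32 * (D.pz j * D.V j) +
        64 * (dm D.L 0 j * pi2 D.w D.L j (fun x x' => D.U0 j x x' ^ 2) D.h)) := by
  have hl : D.L.length = D.T.length := Cav22.len_tilt ht
  have V0 := V_nonneg D hw j
  have hV : D.V j = _ - B0 D.w D.L D.h j (D.U0 j) := congrArg (_ - ·) (rt2_eq D hw j)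
  set u := pi2 D.w D.L j (fun x x' => D.U0 j x x' ^ 2) D.h
  have u0 : 0 ≤ u := pi2_nonneg hw _ _ (fun _ _ => sq_nonneg _) _
  set m := min 1 (PB 6 (D.sg j)) with hm
  have m0 : 0 ≤ m := le_min zero_le_one (PB_nonneg _ h0)
  have t0 := sq_nonneg (D.t j)
  refine (abs_avc (r := 1) hM (rz_tw _ j) 4 (g := fun τ => D.t j ^ 2 * (D.V j * (m + 7 * D.q j) +
    (8 * D.V j * ng (P2 j τ (old 4 0) (old 4 1)) + 16 * u * ng (P1 j τ (old 4 0)))))
    fun τ hτ ho => ?_).trans ?_
  · have n1 := ng_nonneg (P1 j τ (old 4 0))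
    have n2 := ng_nonneg (P2 j τ (old 4 0) (old 4 1))
    split_ifs with h
    swap
    · rw [abs_zero]
      positivity
    have h45 : τ 4 5 = j := (ho 0 1).trans (tw_01 hj.le)
    have ne : ∀ {a b}, τ a b = j → a ≠ b := fun h e => hj.ne' ((hτ.self _).symm.trans (e ▸ h))
    have eB : D.Bf c d e f τ = D.t j ^ 2 * TM D.w D.L D.h τ fun x =>
        D.U0 j (x c) (x d) * D.U0 j (x e) (x f) := by
      rw [← TM_mul, Dat.Bf]
      simp only [ed, h.1, h.2, Dat.U]
      congr 1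
      funext x
      ring
    have eS : D.Sf c d e f τ = TM (fun _ => 1) D.T 0 τ fun x =>
        (spin (x 4) * spin (x 5) - D.q j) * (spin (x c) * spin (x d) - D.q j) *
          (spin (x e) * spin (x f) - D.q j) := by
      simp only [Dat.Sf, ed, h.1, h.2, h45, Dat.eta]
    rw [eB, rt2_eq D hw, ← mul_sub, mul_assoc, abs_mul, abs_of_nonneg t0, abs_mul, eS]
    refine mul_le_mul_of_nonneg_left ?_ t0
    have s8 := site_crude (o := 4) (o' := 5) (c := c) (d := d) (e := e) (f := f) (hl ▸ hτ) q0 q1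
    by_cases p1 : P1 j τ 4
    · have b1 := TM_same hw hτ D.h (ne h.1) (ne h.2) h.1 h.2 (by
        have a1 := p1 c d h.1
        have a2 := p1 e f h.2
        have a3 := hτ.ultra c 4 e
        have a4 := hτ.comm 4 e
        omega) (D.U0 j)
      rw [← hV] at b1
      by_cases p2 : P2 j τ 4 5
      · refine (mul_le_mul b1 (site_le hr (Cav22.mono_tilt ht hM) (hl ▸ hτ) (hl ▸ hj) h45 h.1 h.2
          p1 p2 h0 hs q0 q1) (abs_nonneg _) V0).trans (le_add_of_nonneg_right (by positivity))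
      · refine (mul_le_mul b1 s8 (abs_nonneg _) V0).trans ?_
        rw [show ng (P2 j τ (old 4 0) (old 4 1)) = 1 from ng_neg p2]
        have : 0 ≤ D.V j * (m + 7 * D.q j) + 16 * u * ng (P1 j τ (old 4 0)) := by positivity
        linarith
    · refine (mul_le_mul (TM_crude hw hτ D.h (ne h.1) (ne h.2) h.1 h.2 (D.U0 j)) s8 (abs_nonneg _)
        (by positivity)).trans ?_
      rw [show ng (P1 j τ (old 4 0)) = 1 from ng_neg p1]
      have : 0 ≤ D.V j * (m + 7 * D.q j) + 8 * D.V j * ng (P2 j τ (old 4 0) (old 4 1)) := by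
        positivity
      linarith
  · rw [avc_mul, avc_add, avc_add, avc_const, avc_mul, avc_mul]
    refine mul_le_mul_of_nonneg_left ?_ t0
    have a1 := mul_le_mul_of_nonneg_left (avc_P1 hM hj 4) u0
    have a2 := mul_le_mul_of_nonneg_left (avc_P2 hM hj 4) V0
    have a3 := mul_nonneg V0 m0
    have a4 := mul_nonneg V0 q0
    rw [Dat.pz, ← hm]
    push_cast at a1 a2
    linarith

theorem u2_le (D : Dat Ω) (hw : Wt D.w) (hc : ∀ x x', |D.l0.cov x x'| ≤ 1) {j : ℕ}
    (q0 : 0 ≤ D.q j) (q1 : D.q j ≤ 1) : pi2 D.w D.L j (fun x x' => D.U0 j x x' ^ 2) D.h ≤ 4 := by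
  refine (pi2_mono hw _ j (K' := fun _ _ => 4) (fun x x' => ?_) _).trans_eq ?_
  · have := abs_le.1 (hc x x')
    rw [Dat.U0]
    nlinarith [this.1, this.2]
  · simp only [pi2, qf_const (sum_P hw _ _), node_const hw]

/-- **leaf E-b** -/
theorem ebS : EbS := fun tb => ⟨256 * tb ^ 2, by positivity, fun Ω _ D H j hj hm =>
  ⟨V_nonneg D H.wt j, fun c d e f _ _ => by
    have q01 := H.q01 j hj.le
    refine (eb_core D H.wt H.mono H.tilt H.r1 hj (H.sg0 j) (H.sgt j) q01.1 q01.2 c d e f).trans ?_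
    have p0 : 0 ≤ D.pz j * D.V j := mul_nonneg (add_nonneg (add_nonneg
      (le_min zero_le_one (PB_nonneg _ (H.sg0 j))) q01.1) (ex_nonneg H.mono j)) (V_nonneg D H.wt j)
    have m0 := H.ms0
    have t2 : D.t j ^ 2 ≤ tb ^ 2 := sq_le_sq' (abs_le.1 (H.tb j)).1 (abs_le.1 (H.tb j)).2
    have a1 := (mul_le_mul_of_nonneg_left (u2_le D H.wt H.cov1 q01.1 q01.2)
      (dm_nonneg H.mono j)).trans (mul_le_mul_of_nonneg_right hm (by norm_num))
    refine (mul_le_mul_of_nonneg_left (c := 256 * (D.pz j * D.V j + D.ms)) (by linarith)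
      (sq_nonneg _)).trans ?_
    nlinarith [mul_le_mul_of_nonneg_right t2 (add_nonneg p0 m0)]⟩⟩

end Crest.Agent.T156.Cas.Eb15

end
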