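import Crest.Agent.T156.Ec_52
import Crest.Agent.T156.CaSpB_38

/-!
# Row 156, (E1): two edges at different levels, the weak core (helper52)
-/

set_option autoImplicit false
set_option linter.unusedSectionVars false

noncomputable section

namespace Crest.Agent.T156.Cas.Ec52

open Crest.Agent.T157.E Crest.Agent.T157.Casc Crest.Agent.T157.SL
open Nu87 Wp52

variable {Ω : Type} [Fintype Ω] {w : Ω → ℝ} {r n m : ℕ} {L : List (Lv Ω)} {h : Ω → ℝ}

/-- Cauchy–Schwarz between the leaves and one path -/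
theorem weak_core (hw : Wt w) (s : Sh) (a : s.Lf) (S : Finset ℕ) (c : ℕ → ℝ)
    (F : (s.Lf → Ω) → ℝ) {Y : ℕ → (Ω → ℝ) → Ω → ℝ} (hY : ∀ y x, Eg fun z => Y y z x) {u G : ℝ}
    (hu : 0 ≤ u) (hG : 0 ≤ G) (hF : TE w s L h (fun x => F x ^ 2) ≤ u ^ 2)
    (hP : pE w L h (fun g x => (∑ y ∈ S, c y * Y y (st L y h g) x) ^ 2) ≤ G ^ 2) :
    |∑ y ∈ S, c y * tX w s L h fun g x => F x * Y y (stT s L h g a y) (x a)| ≤ G * u := by
  have hZ : ∀ {κ : Type} (b : κ) (x : Ω), EgP fun p : Pa κ Ω => ∑ y ∈ S, c y * Y y (p b y) x :=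
    fun b x => .sum S fun y _ => (EgP.const _).mul (.state (hY y x) b y)
  set Z : (NT s L → ℝ) → (s.Lf → Ω) → ℝ := fun g x =>
    ∑ y ∈ S, c y * Y y (stT s L h g a y) (x a) with hZd
  have eZ : ∀ x, Eg fun g => Z g x := fun x => (hZ a (x a)).stT L h
  have e1 : (∑ y ∈ S, c y * tX w s L h fun g x => F x * Y y (stT s L h g a y) (x a))
      = tX w s L h fun g x => F x * Z g x := by
    simp only [← Sd.tX_const_mul]
    rw [← Sd.tX_sum hw s L h S fun y _ x =>
      (((EgP.state (hY y (x a)) a y).stT L h).const_mul _).const_mul _]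
    simp only [hZd, Finset.mul_sum, mul_left_comm (F _)]
  have e2 : tX w s L h (fun g x => Z g x * Z g x) ≤ G ^ 2 := by
    refine le_of_eq_of_le ((tF_marg hw s a L h (fun p x => (∑ y ∈ S, c y * Y y (p () y) x) *
      ∑ y ∈ S, c y * Y y (p () y) x) fun x => (hZ () x).mul (hZ () x)).trans
      (Tr.tX_one w L h _)) ?_
    simp only [sq] at hP ⊢
    exact hP
  have key : ∀ ε : ℝ, ε * ε = 1 → ε * (tX w s L h fun g x => F x * Z g x) ≤ G * u := fun ε hε => by
    have := Rect52.le_sqrt_of_forall (x := ε * tX w s L h fun g x => F x * Z g x)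
      (sq_nonneg u) (sq_nonneg G) fun t ht => by
        have h1 := Sd.tX_mono hw s L h (F := fun g x => ε * (F x * Z g x))
          (G := fun g x => t / 2 * F x ^ 2 + 1 / (2 * t) * (Z g x * Z g x))
          (fun x => ((eZ x).const_mul _).const_mul _)
          (fun x => (Eg.const _).add (((eZ x).mul (eZ x)).const_mul _)) fun g x => by
            have e : t / 2 * F x ^ 2 + 1 / (2 * t) * (Z g x * Z g x) - ε * (F x * Z g x)
                = 1 / (2 * t) * (t * F x - ε * Z g x) ^ 2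
                  + 1 / (2 * t) * (1 - ε * ε) * (Z g x * Z g x) := by
              field_simp; ring
            rw [hε, sub_self, mul_zero, zero_mul, add_zero] at e
            have : 0 ≤ 1 / (2 * t) * (t * F x - ε * Z g x) ^ 2 := by positivity
            linarith
        rw [Sd.tX_const_mul, Sd.tX_add hw s L h (F := fun _ x => t / 2 * F x ^ 2)
          (G := fun g x => 1 / (2 * t) * (Z g x * Z g x)) (fun x => Eg.const _)
          (fun x => ((eZ x).mul (eZ x)).const_mul _), Sd.tX_const_mul, Sd.tX_const_mul] at h1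
        have h2 := mul_le_mul_of_nonneg_left hF (show 0 ≤ t / 2 by positivity)
        have h3 := mul_le_mul_of_nonneg_left e2 (show 0 ≤ 1 / (2 * t) by positivity)
        have e : (t * u ^ 2 + G ^ 2 / t) / 2 = t / 2 * u ^ 2 + 1 / (2 * t) * G ^ 2 := by
          field_simp
        rw [e]
        exact h1.trans (add_le_add h2 h3)
    rwa [Real.sqrt_sq hu, Real.sqrt_sq hG, mul_comm u] at this
  rw [e1, abs_le]
  have := key 1 (by ring)
  have := key (-1) (by ring)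
  constructor <;> linarith

theorem tm_leaf (hw : Wt w) {s : Sh} (e : Fin n ≃ s.Lf) (a : Fin n) (y : ℕ)
    (F : (Fin n → Ω) → ℝ) (U : Ω → Ω → ℝ) :
    TM w L h (gr L.length (sm s e L.length) a y)
        (fun x => F (fun b => x b.succ) * U (x a.succ) (x 0)) =
      tX w s L h fun g x => F (fun b => x (e b)) *
        Pf w (L.drop y) (stT s L h g (e a) y) (U (x (e a))) := by
  rw [← sm_gr, TM_sm hw _ L h (grE e (e a) y).injective]
  refine (graft_leaf hw s (e a) y L h fun x z => F (fun b => x (e b)) * U (x (e a)) z).trans ?_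
  simp only [Pf, Finset.mul_sum, mul_left_comm (F _)]

theorem tm_node (hw : Wt w) {s : Sh} (e : Fin n ≃ s.Lf) (a : Fin n) (y : ℕ)
    (F : (Fin n → Ω) → ℝ) (U : Ω → Ω → ℝ) :
    TM w L h (gr L.length (gr L.length (sm s e L.length) a y) 0 y)
        (fun x => F (fun b => x b.succ.succ) * U (x (Fin.succ 0)) (x 0)) =
      tX w s L h fun g x => F (fun b => x (e b)) *
        qf (P w (L.drop y) (stT s L h g (e a) y)) U := by
  have key : ∀ i, i = 0 + y → TM w L h (gr L.length (gr L.length (sm s e L.length) a y) 0 i)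
      (fun x => F (fun b => x b.succ.succ) * U (x (Fin.succ 0)) (x 0)) =
      tX w s L h fun g x => F (fun b => x (e b)) *
        qf (P w (L.drop y) (stT s L h g (e a) y)) U := fun i hi => by
    subst hi
    rw [← sm_gr, ← sm_gr, TM_sm hw _ L h (grE _ _ _).injective]
    refine (graft_pi2 hw s (e a) y 0 L h (fun x => F fun b => x (e b)) U).trans ?_
    simp only [pi2, node, List.drop_zero]
  exact key y (Nat.zero_add y).symm

/-- the weak inputs: leaf form and node form -/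
def GmW (w : Ω → ℝ) (L : List (Lv Ω)) (h : Ω → ℝ) (U : ℕ → Ω → Ω → ℝ) (g : ℕ → ℝ) (G : ℝ) : Prop :=
  ∀ φ : ℕ → ℝ, (∀ y, |φ y| ≤ g y) →
    pE w L h (fun p x => (∑ y ∈ Finset.range (L.length + 1),
      dm L 0 y * φ y * Pf w (L.drop y) (st L y h p) (U y x)) ^ 2) ≤ G ^ 2 ∧
    pE w L h (fun p _ => (∑ y ∈ Finset.range (L.length + 1),
      dm L 0 y * φ y * qf (P w (L.drop y) (st L y h p)) (U y)) ^ 2) ≤ G ^ 2

theorem res_cons {K : ℕ} {τ : SM m} (hτ : Rz K τ) (ι : Fin n → Fin m) (a : Fin n) (d : Fin m)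
    {y : ℕ} (hy : τ (ι a) d = y) (hf : ∀ b, τ d (ι b) ≤ y) :
    (fun b c => τ ((Fin.cons d ι : Fin (n + 1) → Fin m) b) ((Fin.cons d ι : Fin (n + 1) → Fin m) c))
      = gr K (fun b c => τ (ι b) (ι c)) a y := by
  have key : ∀ b, τ d (ι b) = min y (τ (ι b) (ι a)) := fun b => by
    have h1 := hτ.ultra d (ι a) (ι b)
    have h2 := hτ.ultra (ι a) d (ι b)
    have h3 := hf b
    rw [hτ.comm d (ι a), hy, hτ.comm (ι a)] at h1
    rw [hy, hτ.comm (ι a)] at h2
    omega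
  funext b c
  refine Fin.cases ?_ (fun b => ?_) b <;> refine Fin.cases ?_ (fun c => ?_) c
  · exact hτ.self d
  · exact key c
  · exact (hτ.comm _ _).trans (key b)
  · rfl

section cases

variable {σ₀ : SM (r + 1)} {j k : ℕ} {U U' : ℕ → Ω → Ω → ℝ} {g u : ℕ → ℝ} {G : ℝ}

/-- the data shared by all cases -/
structure Fr (w : Ω → ℝ) (L : List (Lv Ω)) (h : Ω → ℝ) (σ₀ : SM (r + 1)) (j : ℕ)
    (U U' : ℕ → Ω → Ω → ℝ) (g u : ℕ → ℝ) (G : ℝ) : Prop where
  hw : Wt w
  hL : Mono 0 L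
  h0 : Rz L.length σ₀
  hj : ∀ a b, a ≠ b → σ₀ a b = j
  hg : ∀ y, 0 ≤ g y
  hu : ∀ y, 0 ≤ u y
  hG : 0 ≤ G
  hU : ∀ y ≤ L.length, pi2 w L y (fun x x' => U' y x x' ^ 2) h ≤ u y ^ 2
  gm : GmW w L h U g G

theorem Fr.sq (H : Fr w L h σ₀ j U U' g u G) {s : Sh} (ε : Fin n ≃ s.Lf) {e f : Fin n}
    (hef : e ≠ f) : TE w s L h (fun x => U' (sm s ε L.length e f) (x (ε e)) (x (ε f)) ^ 2)
      ≤ u (sm s ε L.length e f) ^ 2 := by
  have hρ : Rz L.length (sm s ε L.length) := ⟨s, ε, rfl⟩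
  have := TM_pair H.hw (h := h) hρ hef fun x x' => U' (sm s ε L.length e f) x x' ^ 2
  rw [TM_sm H.hw s L h ε.injective] at this
  exact this.trans_le (H.hU _ (hρ.le e f))

theorem ec_leaf (H : Fr w L h σ₀ j U U' g u G) {ι : Fin (n + 1) → Fin (r + k + 1)}
    (hι : Function.Injective ι) (a : Fin (n + 1)) {e f : Fin (n + 1)} (hef : e ≠ f)
    {d : Fin (r + k + 1)} (hd : d ∉ Set.range ι) {S : SM (r + k + 1) → ℝ}
    (hS : ∀ τ, Rz L.length τ → |S τ| ≤ g (τ (ι a) d))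
    (hB : ∀ τ, Rz L.length τ → S τ ≠ 0 → τ (ι a) d ≠ j ∧ (∀ b, τ d (ι b) ≤ τ (ι a) d) ∧
      ∀ b c, b ≠ c → τ (ι b) (ι c) ≠ τ (ι a) d) :
    |avc L σ₀ k fun τ => S τ * TM w L h τ fun x => ed U (ι a) d x τ * ed U' (ι e) (ι f) x τ|
      ≤ cW r k (n + 1) * G * (u j + Br L u) := by
  refine push H.hL H.h0 H.hj hι hef (c := ι a) (d := d) (fun e => hd ⟨a, e⟩)
    (B := fun ρ y => TM w L h (gr L.length ρ a y)
      fun x => U' (ρ e f) (x e.succ) (x f.succ) * U y (x a.succ) (x 0)) H.hg H.hu H.hG hS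
    (fun τ hτ hs => ?_) fun ρ hρ φ hφ => ?_
  · obtain ⟨h1, h2, h3⟩ := hB τ hτ hs
    refine ⟨?_, h1, h3⟩
    rw [← res_cons hτ ι a d rfl h2, ← TM_inj H.hw hτ (Fin.cons_injective_iff.2 ⟨hd, hι⟩)]
    simp only [ed, Fin.cons_succ, Fin.cons_zero, mul_comm]
  · obtain ⟨s, ε, rfl⟩ := hρ
    simp only [fun y => tm_leaf (L := L) (h := h) H.hw ε a y
      (fun x => U' (sm s ε L.length e f) (x e) (x f)) (U y)]
    exact weak_core H.hw s (ε a) _ (fun y => dm L 0 y * φ y) _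
      (Y := fun y z x => Pf w (L.drop y) z (U y x))
      (fun y x => Eg.sum _ fun z _ => (eg_P H.hw _ z).mul_const _) (H.hu _) H.hG (H.sq ε hef)
      (H.gm φ hφ).1

theorem ec_node (H : Fr w L h σ₀ j U U' g u G) {ι : Fin (n + 1) → Fin (r + k + 1)}
    (hι : Function.Injective ι) (a : Fin (n + 1)) {e f : Fin (n + 1)} (hef : e ≠ f)
    {c d : Fin (r + k + 1)} (hcd : c ≠ d) (hc : c ∉ Set.range ι) (hd : d ∉ Set.range ι)
    {S : SM (r + k + 1) → ℝ} (hS : ∀ τ, Rz L.length τ → |S τ| ≤ g (τ c d))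
    (hB : ∀ τ, Rz L.length τ → S τ ≠ 0 → τ c d ≠ j ∧ τ (ι a) c = τ c d ∧
      (∀ b, τ c (ι b) ≤ τ c d) ∧ (∀ b, τ d (ι b) ≤ τ c d) ∧
      ∀ b b', b ≠ b' → τ (ι b) (ι b') ≠ τ c d) :
    |avc L σ₀ k fun τ => S τ * TM w L h τ fun x => ed U c d x τ * ed U' (ι e) (ι f) x τ|
      ≤ cW r k (n + 1) * G * (u j + Br L u) := by
  refine push H.hL H.h0 H.hj hι hef hcd
    (B := fun ρ y => TM w L h (gr L.length (gr L.length ρ a y) 0 y)
      fun x => U' (ρ e f) (x e.succ.succ) (x f.succ.succ) * U y (x (Fin.succ 0)) (x 0))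
    H.hg H.hu H.hG hS (fun τ hτ hs => ?_) fun ρ hρ φ hφ => ?_
  · obtain ⟨h1, h2, h3, h4, h5⟩ := hB τ hτ hs
    refine ⟨?_, h1, h5⟩
    have hι' : Function.Injective (Fin.cons c ι : Fin (n + 2) → _) :=
      Fin.cons_injective_iff.2 ⟨hc, hι⟩
    have hd' : d ∉ Set.range (Fin.cons c ι : Fin (n + 2) → _) := by
      rintro ⟨b, hb⟩
      revert hb
      exact Fin.cases (fun hb => hcd hb) (fun b hb => hd ⟨b, hb⟩) b
    rw [← res_cons hτ ι a c h2 h3, ← res_cons hτ (Fin.cons c ι) 0 d (y := τ c d) rfl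
      (Fin.cases (hτ.comm _ _).le h4), ← TM_inj H.hw hτ (Fin.cons_injective_iff.2 ⟨hd', hι'⟩)]
    simp only [ed, Fin.cons_succ, Fin.cons_zero, mul_comm]
  · obtain ⟨s, ε, rfl⟩ := hρ
    simp only [fun y => tm_node (L := L) (h := h) H.hw ε a y
      (fun x => U' (sm s ε L.length e f) (x e) (x f)) (U y)]
    exact weak_core H.hw s (ε a) _ (fun y => dm L 0 y * φ y) _
      (Y := fun y z _ => qf (P w (L.drop y) z) (U y))
      (fun y x => Eg.sum _ fun z _ => Eg.sum _ fun z' _ =>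
        ((eg_P H.hw _ z).mul (eg_P H.hw _ z')).mul_const _) (H.hu _) H.hG (H.sq ε hef)
      (H.gm φ hφ).2

theorem cW_le (r k : ℕ) : cW r k 2 ≤ cW r k 3 := by
  have : (1 : ℝ) ≤ k + 2 := by linarith [Nat.cast_nonneg (α := ℝ) k]
  unfold cW
  gcongr <;> norm_num

theorem abs_cut {p : Prop} [Decidable p] {a b : ℝ} (hab : |a| ≤ b) : |if p then a else 0| ≤ b := by
  split_ifs
  · exact hab
  · simpa using (abs_nonneg a).trans hab

theorem of_cut {p : Prop} [Decidable p] {a : ℝ} (h : (if p then a else 0) ≠ 0) : p ∧ a ≠ 0 := by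
  split_ifs at h with hp
  exacts [⟨hp, h⟩, absurd rfl h]

theorem avc_cut (p : SM (r + k + 1) → Prop) [DecidablePred p] (S Φ : SM (r + k + 1) → ℝ) :
    |avc L σ₀ k fun τ => S τ * Φ τ| ≤ |avc L σ₀ k fun τ => (if p τ then S τ else 0) * Φ τ| +
      |avc L σ₀ k fun τ => (if ¬p τ then S τ else 0) * Φ τ| := by
  refine le_of_eq_of_le ?_ (abs_add_le _ _)
  rw [← avc_add]
  congr 2
  funext τ
  by_cases hp : p τ <;> simp [hp]

theorem inj2 {e f : Fin m} (hef : e ≠ f) : Function.Injective ![e, f] := fun a b hab => by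
  fin_cases a <;> fin_cases b
  exacts [rfl, absurd hab hef, absurd hab.symm hef, rfl]

theorem nmem2 {d e f : Fin m} (h1 : d ≠ e) (h2 : d ≠ f) : d ∉ Set.range ![e, f] := by
  rintro ⟨b, hb⟩
  fin_cases b
  exacts [h1 hb.symm, h2 hb.symm]

theorem off2 {K y : ℕ} {τ : SM m} (hτ : Rz K τ) {e f : Fin m} (h : τ e f ≠ y) :
    ∀ b c : Fin 2, b ≠ c → τ (![e, f] b) (![e, f] c) ≠ y := fun b c hbc => by
  fin_cases b <;> fin_cases c
  exacts [absurd rfl hbc, h, (hτ.comm f e).trans_ne h, absurd rfl hbc]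

theorem ec_free (H : Fr w L h σ₀ j U U' g u G) {c d e f : Fin (r + k + 1)} (hcd : c ≠ d)
    (hef : e ≠ f) (hde : d ≠ e) (hdf : d ≠ f) {S : SM (r + k + 1) → ℝ}
    (hS : ∀ τ, Rz L.length τ → |S τ| ≤ g (τ c d))
    (hB : ∀ τ, Rz L.length τ → S τ ≠ 0 →
      τ c d ≠ j ∧ τ c d ≠ τ e f ∧ τ d e ≤ τ c d ∧ τ d f ≤ τ c d) :
    |avc L σ₀ k fun τ => S τ * TM w L h τ fun x => ed U c d x τ * ed U' e f x τ|
      ≤ 3 * (cW r k 3 * G * (u j + Br L u)) := by
  have p0 : 0 ≤ G * (u j + Br L u) :=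
    mul_nonneg H.hG (add_nonneg (H.hu j) (Br_nonneg H.hL fun y _ => H.hu y))
  have p2 := mul_nonneg (cW_nonneg r k 2) p0
  have p3 := mul_le_mul_of_nonneg_right (cW_le r k) p0
  have fr : ∀ τ, Rz L.length τ → S τ ≠ 0 → ∀ b : Fin 2, τ d (![e, f] b) ≤ τ c d :=
    fun τ hτ hs b => by
      fin_cases b
      exacts [(hB τ hτ hs).2.2.1, (hB τ hτ hs).2.2.2]
  have lf : ∀ a : Fin 2, ![e, f] a = c → |avc L σ₀ k fun τ => S τ * TM w L h τ
      fun x => ed U c d x τ * ed U' e f x τ| ≤ 3 * (cW r k 3 * G * (u j + Br L u)) := fun a ha => by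
    subst ha
    have := ec_leaf H (inj2 hef) a (e := 0) (f := 1) (by decide) (nmem2 hde hdf) hS
      fun τ hτ hs => ⟨(hB τ hτ hs).1, fr τ hτ hs, off2 hτ (hB τ hτ hs).2.1.symm⟩
    refine this.trans ?_
    norm_num
    linarith
  by_cases hce : c = e
  · exact lf 0 hce.symm
  by_cases hcf : c = f
  · exact lf 1 hcf.symm
  have nd : ∀ (a : Fin 2) (S' : SM (r + k + 1) → ℝ), (∀ τ, Rz L.length τ → |S' τ| ≤ g (τ c d)) →
      (∀ τ, S' τ ≠ 0 → S τ ≠ 0 ∧ τ c (![e, f] a) = τ c d) → |avc L σ₀ k fun τ => S' τ * TM w L h τ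
      fun x => ed U c d x τ * ed U' e f x τ| ≤ cW r k 3 * G * (u j + Br L u) :=
    fun a S' h1 h2 => by
      have := ec_node H (inj2 hef) a (e := 0) (f := 1) (by decide) hcd (nmem2 hce hcf)
        (nmem2 hde hdf) h1 fun τ hτ hs => by
          obtain ⟨hs, h3⟩ := h2 τ hs
          obtain ⟨b1, b2, b3, b4⟩ := hB τ hτ hs
          refine ⟨b1, (hτ.comm _ _).trans h3, fun b => ?_, fr τ hτ hs, off2 hτ b2.symm⟩
          have u1 := hτ.ultra e c f
          have u2 := hτ.ultra c e f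
          have u3 := hτ.ultra c f e
          have u4 := hτ.ultra d c e
          have u5 := hτ.ultra d c f
          have u6 := hτ.ultra e d f
          have u7 := hτ.ultra d e f
          have u8 := hτ.ultra d f e
          rw [hτ.comm e c] at u1
          rw [hτ.comm f e] at u3 u8
          rw [hτ.comm d c] at u4 u5
          rw [hτ.comm e d] at u6
          fin_cases a <;> fin_cases b <;> simp at h3 ⊢ <;> omega
      refine this.trans ?_
      norm_num
      linarith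
  have h1 := nd 0 (fun τ => if τ c e = τ c d then S τ else 0) (fun τ hτ => abs_cut (hS τ hτ))
    fun τ hs => (of_cut hs).symm
  have h2 := nd 1 (fun τ => if τ c f = τ c d then (if ¬τ c e = τ c d then S τ else 0) else 0)
    (fun τ hτ => abs_cut (abs_cut (hS τ hτ))) fun τ hs => ⟨(of_cut (of_cut hs).2).2, (of_cut hs).1⟩
  have h3 := ec_leaf H (ι := Fin.cons c ![e, f])
    (Fin.cons_injective_iff.2 ⟨nmem2 hce hcf, inj2 hef⟩) 0 (e := 1) (f := 2) (by decide) (d := d)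
    (by
      rintro ⟨b, hb⟩
      revert hb
      exact Fin.cases (fun hb => hcd hb) (fun b hb => nmem2 hde hdf ⟨b, hb⟩) b)
    (S := fun τ => if ¬τ c f = τ c d then (if ¬τ c e = τ c d then S τ else 0) else 0)
    (fun τ hτ => abs_cut (abs_cut (hS τ hτ))) fun τ hτ hs => by
      obtain ⟨a1, hs⟩ := of_cut hs
      obtain ⟨a2, hs⟩ := of_cut hs
      obtain ⟨b1, b2, -, -⟩ := hB τ hτ hs
      refine ⟨b1, Fin.cases (hτ.comm _ _).le (fr τ hτ hs), fun b b' hb => ?_⟩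
      fin_cases b <;> fin_cases b'
      exacts [absurd rfl hb, a2, a1, (hτ.comm e c).trans_ne a2, absurd rfl hb, b2.symm,
        (hτ.comm f c).trans_ne a1, (hτ.comm f e).trans_ne b2.symm, absurd rfl hb]
  refine (avc_cut (fun τ => τ c e = τ c d) _ _).trans ((add_le_add h1
    ((avc_cut (fun τ => τ c f = τ c d) _ _).trans (add_le_add h2 h3))).trans (le_of_eq ?_))
  norm_num
  ring

/-- **two edges at different levels, the edge `(c, d)` in weak form** -/
theorem ec (H : Fr w L h σ₀ j U U' g u G) (hU : ∀ y x x', U y x x' = U y x' x)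
    {c d e f : Fin (r + k + 1)} (hcd : c ≠ d) (hef : e ≠ f) {S : SM (r + k + 1) → ℝ}
    (hS : ∀ τ, Rz L.length τ → |S τ| ≤ g (τ c d))
    (hB : ∀ τ, Rz L.length τ → S τ ≠ 0 → τ c d ≠ j ∧ τ c d ≠ τ e f) :
    |avc L σ₀ k fun τ => S τ * TM w L h τ fun x => ed U c d x τ * ed U' e f x τ|
      ≤ 6 * (cW r k 3 * G * (u j + Br L u)) := by
  have p3 : 0 ≤ cW r k 3 * G * (u j + Br L u) := mul_nonneg (mul_nonneg (cW_nonneg r k 3) H.hG)
    (add_nonneg (H.hu j) (Br_nonneg H.hL fun y _ => H.hu y))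
  have z : ∀ S' Φ : SM (r + k + 1) → ℝ, (∀ τ, Rz L.length τ → S' τ = 0) →
      |avc L σ₀ k fun τ => S' τ * Φ τ| ≤ 3 * (cW r k 3 * G * (u j + Br L u)) := fun S' Φ hz => by
    rw [avc_congr H.h0 k (ψ := fun _ => 0) fun τ hτ => by rw [hz τ hτ, zero_mul], avc_const,
      abs_zero]
    linarith
  refine (avc_cut (fun τ => d ≠ e ∧ d ≠ f ∧ τ d e ≤ τ c d ∧ τ d f ≤ τ c d) _ _).trans
    ((add_le_add (b := 3 * (cW r k 3 * G * (u j + Br L u)))
      (d := 3 * (cW r k 3 * G * (u j + Br L u))) ?_ ?_).trans (le_of_eq (by ring)))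
  · by_cases hd : d ≠ e ∧ d ≠ f
    · exact ec_free H hcd hef hd.1 hd.2 (fun τ hτ => abs_cut (hS τ hτ)) fun τ hτ hs =>
        ⟨(hB τ hτ (of_cut hs).2).1, (hB τ hτ (of_cut hs).2).2, (of_cut hs).1.2.2⟩
    · exact z _ _ fun τ _ => if_neg fun hx => hd ⟨hx.1, hx.2.1⟩
  · have fc : ∀ τ, Rz L.length τ → (if ¬(d ≠ e ∧ d ≠ f ∧ τ d e ≤ τ c d ∧ τ d f ≤ τ c d) then S τ
        else 0) ≠ 0 → c ≠ e ∧ c ≠ f ∧ τ c e ≤ τ c d ∧ τ c f ≤ τ c d := fun τ hτ hs => by
      obtain ⟨a1, hs⟩ := of_cut hs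
      obtain ⟨-, b2⟩ := hB τ hτ hs
      have u1 := hτ.ultra e c f
      have u2 := hτ.ultra c e f
      have u3 := hτ.ultra c f e
      have u4 := hτ.ultra c d e
      have u5 := hτ.ultra c d f
      have u6 := hτ.ultra e d f
      have u7 := hτ.ultra d e f
      have u8 := hτ.ultra d f e
      have u9 := hτ.ultra c e d
      have u0 := hτ.ultra c f d
      rw [hτ.comm e c] at u1
      rw [hτ.comm f e] at u3 u8
      rw [hτ.comm e d] at u6 u9
      rw [hτ.comm f d] at u0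
      have v1 := hτ.le c d
      have v2 := hτ.le e f
      have d1 : d = e → τ d e = L.length := fun e => e ▸ hτ.self _
      have d2 : d = f → τ d f = L.length := fun e => e ▸ hτ.self _
      have d3 : c = e → τ c e = L.length ∧ τ d e = τ c d ∧ τ c f = τ e f :=
        fun e => e ▸ ⟨hτ.self _, hτ.comm _ _, rfl⟩
      have d4 : c = f → τ c f = L.length ∧ τ d f = τ c d ∧ τ c e = τ e f :=
        fun e => e ▸ ⟨hτ.self _, hτ.comm _ _, hτ.comm _ _⟩
      have d5 : d = e → τ c e = τ c d ∧ τ d f = τ e f := fun e => e ▸ ⟨rfl, rfl⟩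
      have d6 : d = f → τ c f = τ c d ∧ τ d e = τ e f := fun e => e ▸ ⟨rfl, hτ.comm _ _⟩
      have n1 : c = e → d ≠ e := fun h1 h2 => hcd (h1.trans h2.symm)
      have n2 : c = f → d ≠ f := fun h1 h2 => hcd (h1.trans h2.symm)
      have n3 : c = e → c ≠ f := fun h1 h2 => hef (h1.symm.trans h2)
      have n4 : d = e → d ≠ f := fun h1 h2 => hef (h1.symm.trans h2)
      by_cases x1 : c = e <;> by_cases x2 : c = f <;> by_cases x3 : d = e <;>
        by_cases x4 : d = f <;> simp only [x1, x2, x3, x4, ne_eq, not_true, not_false_iff,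
          forall_true_left, true_and, false_and, IsEmpty.forall_iff] at * <;> omega
    by_cases hc : c ≠ e ∧ c ≠ f
    · rw [avc_congr H.h0 k (ψ := fun τ => (if ¬(d ≠ e ∧ d ≠ f ∧ τ d e ≤ τ c d ∧ τ d f ≤ τ c d)
        then S τ else 0) * TM w L h τ fun x => ed U d c x τ * ed U' e f x τ) fun τ hτ => by
          simp only [ed, hτ.comm d c, hU _ (_ : Ω) (_ : Ω)]]
      exact ec_free H hcd.symm hef hc.1 hc.2
        (fun τ hτ => by rw [hτ.comm d c]; exact abs_cut (hS τ hτ)) fun τ hτ hs => by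
          rw [hτ.comm d c]
          exact ⟨(hB τ hτ (of_cut hs).2).1, (hB τ hτ (of_cut hs).2).2, (fc τ hτ hs).2.2⟩
    · exact z _ _ fun τ hτ => by_contra fun hs => hc ⟨(fc τ hτ hs).1, (fc τ hτ hs).2.1⟩

end cases

end Crest.Agent.T156.Cas.Ec52

end
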