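import Crest.Agent.T156.Cpl_91
import Crest.Agent.T156.CondC_31

/-!
# Row 156 (helper91): the source term of the first cavity equation (leaf E-e)
-/

set_option autoImplicit false
set_option linter.unusedSectionVars false

noncomputable section

namespace Crest.Agent.T156.Cas.E91

open MeasureTheory Real Set Filter Topology
open Crest.Agent.T157.E Crest.Agent.T157.Casc Crest.Agent.T157.SL
open Crest.ProbabilityR.SpinGlassDynamics (spin)
open Nu87

variable {Ω : Type} [Fintype Ω] {D : Dat Ω} {tb : ℝ} {c d e f : Fin 6} {τ τ' : SM 6} {i j j' y : ℕ}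

theorem tele91 {a Φ : ℕ → ℝ} {j j' : ℕ} (h : j ≤ j')
    (H : ∀ i, j ≤ i → i < j' → |a (i + 1) - a i| ≤ Φ (i + 1) - Φ i) : |a j' - a j| ≤ Φ j' - Φ j := by
  induction j', h using Nat.le_induction with
  | base => simp
  | succ n hn ih =>
    linarith [abs_sub_le (a (n + 1)) (a n) (a j), ih fun i h1 h2 => H i h1 (by omega),
      H n hn (by omega)]

theorem TM_loc91 {r : ℕ} {w h : Ω → ℝ} {L : List (Lv Ω)} (hw : Wt w) {τ τ' : SM r}
    (hτ : Rz L.length τ) (hτ' : Rz L.length τ') (p : Fin r → Prop)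
    (H : ∀ a b, p a → p b → τ' a b = τ a b) (G : ({a // p a} → Ω) → ℝ) :
    TM w L h τ' (fun x => G fun a => x a) = TM w L h τ fun x => G fun a => x a := by
  obtain ⟨s, e, rfl⟩ := hτ
  obtain ⟨s', e', rfl⟩ := hτ'
  rw [TM_sm hw s L h e.injective, TM_sm hw s' L h e'.injective]
  exact TE_lab hw s' s L h (e'.injective.comp Subtype.val_injective)
    (e.injective.comp Subtype.val_injective) (fun a b _ => H a.1 b.1 a.2 b.2) G

theorem Bf_loc91 (hw : Wt D.w) (hτ : Rz D.K τ) (hτ' : Rz D.K τ')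
    (H : ∀ a b, (a = c ∨ a = d ∨ a = e ∨ a = f) → (b = c ∨ b = d ∨ b = e ∨ b = f) →
      τ' a b = τ a b) : D.Bf c d e f τ' = D.Bf c d e f τ := by
  simp only [Dat.Bf, ed]
  rw [H c d (by simp) (by simp), H e f (by simp) (by simp)]
  exact TM_loc91 hw hτ hτ' _ H fun z => D.U (τ c d) (z ⟨c, by simp⟩) (z ⟨d, by simp⟩) *
    D.U (τ e f) (z ⟨e, by simp⟩) (z ⟨f, by simp⟩)

theorem U_comm91 (y : ℕ) (x x' : Ω) : D.U y x x' = D.U y x' x := by
  simp only [Dat.U, Dat.U0, Lv.cov, mul_comm]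

theorem Bf_cd91 (hτ : Rz D.K τ) : D.Bf d c e f τ = D.Bf c d e f τ := by
  simp only [Dat.Bf, ed, hτ.comm d c, fun x : Fin 6 → Ω => U_comm91 (D := D) (τ c d) (x d) (x c)]

theorem Bf_ef91 (hτ : Rz D.K τ) : D.Bf c d f e τ = D.Bf c d e f τ := by
  simp only [Dat.Bf, ed, hτ.comm f e, fun x : Fin 6 → Ω => U_comm91 (D := D) (τ e f) (x f) (x e)]

theorem lift_eq91 {r K : ℕ} {τ : SM r} (hτ : Rz K τ) {o a b : Fin r}
    (h : ¬(τ a b = i ∧ i ≤ τ a o ∧ i ≤ τ b o)) : lift i o τ a b = τ a b := by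
  have := hτ.ultra b a o
  rw [hτ.comm b a] at this
  exact if_neg (by omega)

theorem Bf_mv91 (hE : EdS) (hw : Wt D.w) (hτ : Rz D.K τ) (hy : y < i) (hi : i < D.K) (o : Fin 6)
    (h1 : τ c d = y) (h2 : τ e f = y) (h3 : τ c e = i) (h4 : i ≤ τ c o) :
    |D.Bf c d e f (lift i o τ) - D.Bf c d e f τ| ≤ D.t y ^ 2 * (D.lam3 y (i + 1) - D.lam3 y i) := by
  have u1 := hτ.ultra e c o
  have u2 := hτ.ultra c o d
  have u3 := hτ.ultra e o f
  rw [hτ.comm e c] at u1
  rw [hτ.comm o d] at u2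
  rw [hτ.comm o f] at u3
  refine (hE Ω D hw y i hy hi).2.2 τ _ c d e f hτ (rz_lift hτ hi o) h1 h2 h3 (if_pos ⟨h3, h4⟩)
    (if_pos ⟨(hτ.comm e c).trans h3, by omega⟩) fun a ha b hb n1 n2 => lift_eq91 hτ ?_
  rintro ⟨k1, k2, k3⟩
  have hab : a ≠ b := fun h => by
    rw [h, hτ.self] at k1
    omega
  simp only [Finset.mem_insert, Finset.mem_singleton] at ha hb
  have ha' : a = c ∨ a = e := by
    rcases ha with h | h | h | h
    exacts [.inl h, by rw [h] at k2; omega, .inr h, by rw [h] at k2; omega]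
  have hb' : b = c ∨ b = e := by
    rcases hb with h | h | h | h
    exacts [.inl h, by rw [h] at k3; omega, .inr h, by rw [h] at k3; omega]
  rcases ha' with h | h <;> rcases hb' with h' | h'
  exacts [hab (h.trans h'.symm), n1 ⟨h, h'⟩, n2 ⟨h, h'⟩, hab (h.trans h'.symm)]

theorem Bf_lift91 (hE : EdS) (hw : Wt D.w) (hτ : Rz D.K τ) (hy : y < i) (hi : i < D.K) (o : Fin 6)
    (h1 : τ c d = y) (h2 : τ e f = y) :
    |D.Bf c d e f (lift i o τ) - D.Bf c d e f τ| ≤ D.t y ^ 2 * (D.lam3 y (i + 1) - D.lam3 y i) := by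
  have hl := rz_lift hτ hi o
  have h1' := (hτ.comm d c).trans h1
  have h2' := (hτ.comm f e).trans h2
  by_cases k1 : τ c e = i ∧ i ≤ τ c o
  · exact Bf_mv91 hE hw hτ hy hi o h1 h2 k1.1 k1.2
  by_cases k2 : τ c f = i ∧ i ≤ τ c o
  · rw [← Bf_ef91 hl, ← Bf_ef91 hτ]
    exact Bf_mv91 hE hw hτ hy hi o h1 h2' k2.1 k2.2
  by_cases k3 : τ d e = i ∧ i ≤ τ d o
  · rw [← Bf_cd91 hl, ← Bf_cd91 hτ]
    exact Bf_mv91 hE hw hτ hy hi o h1' h2 k3.1 k3.2
  by_cases k4 : τ d f = i ∧ i ≤ τ d o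
  · rw [← Bf_cd91 hl, ← Bf_cd91 hτ, ← Bf_ef91 hl, ← Bf_ef91 hτ]
    exact Bf_mv91 hE hw hτ hy hi o h1' h2' k4.1 k4.2
  rw [Bf_loc91 hw hτ hl fun a b ha hb => lift_eq91 hτ ?_, sub_self, abs_zero]
  · exact mul_nonneg (sq_nonneg _) (sub_nonneg.2 (hE Ω D hw y i hy hi).1)
  · have s1 := hτ.self c
    have s2 := hτ.self d
    have s3 := hτ.self e
    have s4 := hτ.self f
    have s5 := hτ.comm c e
    have s6 := hτ.comm c f
    have s7 := hτ.comm d e
    have s8 := hτ.comm d f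
    rcases ha with h | h | h | h <;> rcases hb with h' | h' | h' | h' <;> rw [h, h'] <;> omega

theorem abs_TM91 {r : ℕ} {w h : Ω → ℝ} {L : List (Lv Ω)} (hw : Wt w) {τ : SM r}
    (hτ : Rz L.length τ) {F : (Fin r → Ω) → ℝ} {b : ℝ} (hF : ∀ x, |F x| ≤ b) : |TM w L h τ F| ≤ b :=
  abs_le.2 ⟨(TM_const hw hτ (-b)).ge.trans (TM_mono hw hτ fun x => (abs_le.1 (hF x)).1),
    (TM_mono hw hτ fun x => (abs_le.1 (hF x)).2).trans_eq (TM_const hw hτ b)⟩

theorem abs_eta91 (hD : D.Ok tb) (hy : y ≤ D.K) (a b : Bool) : |D.eta y a b| ≤ 2 := by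
  have := hD.q01 y hy
  refine (abs_sub _ _).trans ?_
  rw [OneP.abs_spin2, abs_of_nonneg this.1]
  linarith [this.2]

theorem abs_eta2 (hD : D.Ok tb) {y' : ℕ} (hy : y ≤ D.K) (hy' : y' ≤ D.K) (a b a' b' : Bool) :
    |D.eta y a b * D.eta y' a' b'| ≤ 4 := by
  rw [abs_mul]
  nlinarith [abs_eta91 hD hy a b, abs_eta91 hD hy' a' b', abs_nonneg (D.eta y a b),
    abs_nonneg (D.eta y' a' b')]

theorem abs_eta3 (hD : D.Ok tb) {y' y'' : ℕ} (hy : y ≤ D.K) (hy' : y' ≤ D.K) (hy'' : y'' ≤ D.K)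
    (a b a' b' a'' b'' : Bool) : |D.eta y a b * D.eta y' a' b' * D.eta y'' a'' b''| ≤ 8 := by
  rw [abs_mul]
  nlinarith [abs_eta2 hD hy hy' a b a' b', abs_eta91 hD hy'' a'' b'', abs_nonneg (D.eta y'' a'' b''),
    abs_nonneg (D.eta y a b * D.eta y' a' b')]

theorem abs_Sf91 (hD : D.Ok tb) (hτ : Rz D.K τ) : |D.Sf c d e f τ| ≤ 8 :=
  abs_TM91 One15.w1 (Cav22.len_tilt hD.tilt ▸ hτ) fun _ =>
    abs_eta3 hD (hτ.le _ _) (hτ.le _ _) (hτ.le _ _) _ _ _ _ _ _

theorem TM_move91 (hD : D.Ok tb) (hτ : Rz D.K τ) (hτ' : Rz D.K τ') (hi : i < D.K)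
    (H : Ker15.Mv i τ τ') {F : (Fin 6 → Bool) → ℝ} {b : ℝ} (hF : ∀ x, |F x| ≤ b) :
    |TM (fun _ => 1) D.T 0 τ' F - TM (fun _ => 1) D.T 0 τ F| ≤
      72 * (b * (Ker15.tm D.T (i + 1) - Ker15.tm D.T i)) := by
  have hT : D.K = D.T.length := Cav22.len_tilt hD.tilt
  rw [hT] at hτ hτ' hi
  obtain ⟨s, e, rfl⟩ := hτ
  obtain ⟨s', e', rfl⟩ := hτ'
  rw [TM_sm One15.w1 s D.T 0 e.injective, TM_sm One15.w1 s' D.T 0 e'.injective]
  refine (Ker15.move1 One15.w1 (Cav22.mono_tilt hD.tilt hD.mono) hi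
    (s := fun b => match b with | true => s' | false => s)
    (e := fun b => match b with | true => e' | false => e)
    (fun b => match b with | true => e'.injective | false => e.injective) H (N := 6) (by norm_num)
    (by simp) 0 hF (v := Ker15.tm D.T (i + 1) - Ker15.tm D.T i) fun x y => ?_).trans_eq
      (by norm_num)
  rw [Ker15.cv, hD.r1.cacc, hD.r1.cacc, ← sub_mul, abs_mul, OneP.abs_spin2, mul_one,
    abs_of_nonneg (sub_nonneg.2 (hD.r1.tm_mono (Nat.le_succ i)))]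

theorem Sf_lift91 (hD : D.Ok tb) (hτ : Rz D.K τ) (hi : i < D.K) (h45 : τ 4 5 = i)
    (h1 : τ c d ≠ i) (h2 : τ e f ≠ i) : |D.Sf c d e f (lift i 4 τ) - D.Sf c d e f τ| ≤
      576 * (Ker15.tm D.T (i + 1) - Ker15.tm D.T i) + 4 * (D.q (i + 1) - D.q i) := by
  have e0 : lift i 4 τ 4 5 = i + 1 := if_pos ⟨h45, by rw [hτ.self]; exact hi.le⟩
  have e1 : lift i 4 τ c d = τ c d := if_neg fun h => h1 h.1
  have e2 : lift i 4 τ e f = τ e f := if_neg fun h => h2 h.1
  simp only [Dat.Sf, ed, e0, e1, e2, h45]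
  refine (abs_sub_le _ _ _).trans (add_le_add ((TM_move91 hD hτ (rz_lift hτ hi 4) hi
    (fun a b => ?_) fun x => abs_eta3 hD hi (hτ.le _ _) (hτ.le _ _) _ _ _ _ _ _).trans_eq
      (by ring)) ?_)
  · simp only [lift]
    split_ifs with h
    exacts [.inr ⟨h.1, rfl⟩, .inl rfl]
  · rw [← TM_sub]
    refine abs_TM91 One15.w1 (Cav22.len_tilt hD.tilt ▸ hτ) fun x => ?_
    have h3 := abs_eta2 hD (hτ.le c d) (hτ.le e f) (x c) (x d) (x e) (x f)
    have h4 := sub_nonneg.2 (hD.qm i hi)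
    rw [mul_assoc, mul_assoc, ← sub_mul, abs_mul, Dat.eta, Dat.eta, sub_sub_sub_cancel_left,
      abs_sub_comm, abs_of_nonneg h4, mul_comm]
    exact mul_le_mul_of_nonneg_right h3 h4

theorem P1_tw91 {K : ℕ} (hi : i ≤ K) (h : P1 (tw K i) y) : y = i := by
  obtain ⟨a, b, hab, e⟩ := h
  fin_cases a <;> fin_cases b
  · exact absurd rfl hab
  · exact e.symm.trans (min_eq_left hi)
  · exact e.symm.trans (min_eq_left hi)
  · exact absurd rfl hab

theorem Psi_tw91 {K : ℕ} (hi : i ≤ K) {g : ℕ → ℝ} (g0 : g i = 0) : Psi K g (tw K i) = 0 :=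
  Finset.sum_eq_zero fun y _ => by
    by_cases h : P1 (tw K i) y
    · rw [P1_tw91 hi h, g0, zero_mul]
    · rw [ind_neg h, mul_zero]

theorem A_le91 (hL : Mono 0 D.L) (hi : i ≤ D.K) {g : ℕ → ℝ} (hg : ∀ y, 0 ≤ g y) (g0 : g i = 0)
    (hcd : c ≠ d) {ψ : SM 6 → ℝ} (H : ∀ τ, Rz D.K τ → τ 4 5 = i → |ψ τ| ≤ g (τ c d)) :
    |D.A i ψ| ≤ 4 * Wp52.Br D.L g := by
  refine (abs_avc_le (r := 1) hL (rz_tw _ _) 4 (ψ := Psi D.K g) fun τ hτ h =>
    (H τ hτ ((h 0 1).trans (tw_01 hi))).trans (le_Psi hg hτ hcd)).trans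
    ((avc_Psi hL (rz_tw _ _) hg 4).trans_eq ?_)
  rw [Psi_tw91 hi g0, zero_add]
  norm_num

theorem abs_BS91 (hD : D.Ok tb) (hτ : Rz D.K τ) (hcd : c ≠ d) (hef : e ≠ f) (h : τ c d = τ e f) :
    |D.Bf c d e f τ| ≤ tb ^ 2 * D.un (τ c d) ^ 2 ∧
      |D.Bf c d e f τ * D.Sf c d e f τ| ≤ 8 * tb ^ 2 * D.un (τ c d) ^ 2 := by
  have h1 := Cond31.abs_Bf_le D hD hτ hcd hef
  rw [← h, add_self_div_two] at h1
  refine ⟨h1, ?_⟩
  rw [abs_mul]
  nlinarith [abs_Sf91 (c := c) (d := d) (e := e) (f := f) hD hτ, abs_nonneg (D.Bf c d e f τ),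
    abs_nonneg (D.Sf c d e f τ)]

theorem Br_le_N91 (hL : Mono 0 D.L) {p : ℕ → Prop} [DecidablePred p] {a : ℝ} (ha : 0 ≤ a) :
    Wp52.Br D.L (fun y => if p y then a * D.un y ^ 2 else 0) ≤ a * D.N 2 := by
  refine (Wp52.Br_mono hL (g' := fun y => a * D.un y ^ 2) fun y _ => ?_).trans_eq
    (Wp52.Br_mul _ _ _)
  split_ifs
  exacts [le_rfl, by positivity]

/-- the part of the source which is transported -/
def phE (D : Dat Ω) (c d e f : Fin 6) (j j' : ℕ) (τ : SM 6) : ℝ :=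
  if τ c d = τ e f ∧ (τ c d < j ∨ (j' < τ c d ∧ τ c d ≤ τ c e)) then
    D.Bf c d e f τ * D.Sf c d e f τ else 0

/-- the potential of the transport -/
def poE (D : Dat Ω) (tb : ℝ) (j i : ℕ) : ℝ :=
  tb ^ 2 * D.N 2 * (256 * ∑ k ∈ Finset.range i, dm D.L 0 k + 2304 * Ker15.tm D.T i + 16 * D.q i) +
    32 * ∑ y ∈ Finset.range j, dm D.L 0 y * (D.t y ^ 2 * D.lam3 y i)

theorem step91 (hE : EdS) (hD : D.Ok tb) (hcd : c ≠ d) (hef : e ≠ f) (h1 : j ≤ i) (h2 : i < j')
    (h3 : j' < D.K) : |D.A (i + 1) (phE D c d e f j j') - D.A i (phE D c d e f j j')| ≤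
      poE D tb j (i + 1) - poE D tb j i := by
  have hi : i < D.K := h2.trans h3
  have hv := sub_nonneg.2 (hD.r1.tm_mono (Nat.le_succ i))
  have hq := sub_nonneg.2 (hD.qm i hi)
  set v := 576 * (Ker15.tm D.T (i + 1) - Ker15.tm D.T i) + 4 * (D.q (i + 1) - D.q i) with hvd
  have hv0 : 0 ≤ v := by positivity
  have hl : ∀ y < j, 0 ≤ D.t y ^ 2 * (D.lam3 y (i + 1) - D.lam3 y i) := fun y hy =>
    mul_nonneg (sq_nonneg _) (sub_nonneg.2 (hE Ω D hD.wt y i (by omega) hi).1)
  have c1 := cpl (r := 1) hD.mono (rz_tw D.K i)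
    (g := fun y => if y < j ∨ j' < y then 8 * tb ^ 2 * D.un y ^ 2 else 0)
    (fun y => by split_ifs <;> positivity) hi (if_neg (by omega)) (if_neg (by omega)) 0 4 0
    (phE D c d e f j j') le_rfl fun τ hτ => by
      rw [add_zero]
      refine le_trans ?_ (le_Psi (fun y => by split_ifs <;> positivity) hτ hcd)
      rw [phE]
      split_ifs with k1 k2 k2
      · exact (abs_BS91 hD hτ hcd hef k1.1).2
      · omega
      · rw [abs_zero]; positivity
      · rw [abs_zero]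
  rw [lift_tw hi, Psi_tw91 hi.le (if_neg (by omega))] at c1
  have c2 := A_le91 hD.mono hi.le (g := fun y =>
    (if y < j ∨ j' < y then tb ^ 2 * v * D.un y ^ 2 else 0) +
      8 * if y ∈ Finset.range j then D.t y ^ 2 * (D.lam3 y (i + 1) - D.lam3 y i) else 0)
    (fun y => add_nonneg (by split_ifs <;> positivity) (mul_nonneg (by norm_num) (by
      split_ifs with h
      exacts [hl y (Finset.mem_range.1 h), le_rfl])))
    (by rw [if_neg (by omega), if_neg (by simpa using h1)]; simp) hcd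
    (ψ := fun τ => phE D c d e f j j' (lift i 4 τ) - phE D c d e f j j' τ) fun τ hτ h45 => by
      have g0 : 0 ≤ (if τ c d ∈ Finset.range j then
          D.t (τ c d) ^ 2 * (D.lam3 (τ c d) (i + 1) - D.lam3 (τ c d) i) else 0) := by
        split_ifs with h
        exacts [hl _ (Finset.mem_range.1 h), le_rfl]
      by_cases k : τ c d = τ e f ∧ (τ c d < j ∨ (j' < τ c d ∧ τ c d ≤ τ c e))
      · have k' : lift i 4 τ c d = lift i 4 τ e f ∧ (lift i 4 τ c d < j ∨
            (j' < lift i 4 τ c d ∧ lift i 4 τ c d ≤ lift i 4 τ c e)) := by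
          simp only [lift]
          split_ifs <;> omega
        have b1 := (abs_BS91 hD hτ hcd hef k.1).1
        have b2 := Sf_lift91 (c := c) (d := d) (e := e) (f := f) hD hτ hi h45 (by omega) (by omega)
        have b3 := abs_Sf91 (c := c) (d := d) (e := e) (f := f) hD (rz_lift hτ hi 4)
        have b4 : |D.Bf c d e f (lift i 4 τ) - D.Bf c d e f τ| ≤ (if τ c d ∈ Finset.range j then
            D.t (τ c d) ^ 2 * (D.lam3 (τ c d) (i + 1) - D.lam3 (τ c d) i) else 0) := by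
          split_ifs with h
          · exact Bf_lift91 hE hD.wt hτ (by have := Finset.mem_range.1 h; omega) hi 4 rfl k.1.symm
          · rw [Finset.mem_range] at h
            rw [Bf_loc91 hD.wt hτ (rz_lift hτ hi 4) fun a b ha hb => if_neg fun k2 => ?_, sub_self,
              abs_zero]
            have m : ∀ a, (a = c ∨ a = d ∨ a = e ∨ a = f) → j' < τ c a := fun a ha => by
              have s1 := hτ.self c
              have s2 := hτ.ultra c e f
              rcases ha with h | h | h | h <;> rw [h] <;> omega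
            have s3 := hτ.ultra a c b
            rw [hτ.comm a c] at s3
            have := m a ha
            have := m b hb
            omega
        simp only [phE, if_pos k, if_pos k', if_pos (show τ c d < j ∨ j' < τ c d by omega)]
        rw [show ∀ a b a' b' : ℝ, a' * b' - a * b = a * (b' - b) + (a' - a) * b' from fun _ _ _ _ => by
          ring]
        refine (abs_add_le _ _).trans (add_le_add ?_ ?_) <;> rw [abs_mul]
        · exact (mul_le_mul b1 b2 (abs_nonneg _) (by positivity)).trans_eq (by ring)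
        · exact (mul_le_mul b4 b3 (abs_nonneg _) g0).trans_eq (mul_comm _ _)
      · have k' : ¬(lift i 4 τ c d = lift i 4 τ e f ∧ (lift i 4 τ c d < j ∨
            (j' < lift i 4 τ c d ∧ lift i 4 τ c d ≤ lift i 4 τ c e))) := by
          simp only [lift]
          split_ifs <;> omega
        simp only [phE, if_neg k, if_neg k', sub_self, abs_zero]
        exact add_nonneg (by split_ifs <;> positivity) (mul_nonneg (by norm_num) g0)
  have c3 := Br_le_N91 (p := fun y => y < j ∨ j' < y) hD.mono (a := 8 * tb ^ 2) (by positivity)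
  have c4 := Br_le_N91 (p := fun y => y < j ∨ j' < y) hD.mono (a := tb ^ 2 * v) (by positivity)
  have c5 : Wp52.Br D.L (fun y => if y ∈ Finset.range j then
      D.t y ^ 2 * (D.lam3 y (i + 1) - D.lam3 y i) else 0) =
      ∑ y ∈ Finset.range j, dm D.L 0 y * (D.t y ^ 2 * D.lam3 y (i + 1)) -
        ∑ y ∈ Finset.range j, dm D.L 0 y * (D.t y ^ 2 * D.lam3 y i) := by
    simp only [Wp52.Br, mul_ite, mul_zero, Finset.sum_ite_mem]
    rw [Finset.inter_eq_right.2 (Finset.range_subset_range.2 (by have : D.K = D.L.length := rfl; omega)),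
      ← Finset.sum_sub_distrib]
    exact Finset.sum_congr rfl fun _ _ => by ring
  rw [Wp52.Br_add, Wp52.Br_mul, c5, Dat.A, avc_sub] at c2
  have c6 := mul_le_mul_of_nonneg_left c3 (dm_nonneg hD.mono i)
  refine ((abs_sub_le _ _ _).trans (add_le_add c1 c2)).trans ?_
  rw [poE, poE, Finset.sum_range_succ]
  push_cast
  rw [hvd] at c4 ⊢
  linarith

theorem end91 (hI : EiS) (hD : D.Ok tb) (hcd : c ≠ d) (hef : e ≠ f) (hj : j < j') (h3 : j' < D.K)
    (hi : i = j ∨ i = j') (m1 : dm D.L 0 j ≤ D.ms) (m2 : dm D.L 0 j' ≤ D.ms) {G : ℝ}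
    (hG : D.Gm j G) : |D.src c d e f i - D.A i (phE D c d e f j j')| ≤
      32 * tb ^ 2 * (∑ y ∈ Finset.Ioo j j', dm D.L 0 y * D.un y ^ 2 + 8 * D.ms) +
        128 * tb ^ 2 * (G * D.N 1) := by
  have hiK : i ≤ D.K := by omega
  set g : ℕ → ℝ := fun y => if j ≤ y ∧ y ≤ j' ∧ y ≠ i then 8 * tb ^ 2 * D.un y ^ 2 else 0 with hgd
  set k : ℕ → ℝ := fun y => if j' < y then 8 * (D.t y ^ 2 * D.rt2 y) else 0 with hkd
  have hg : ∀ y, 0 ≤ g y := fun y => by simp only [hgd]; split_ifs <;> positivity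
  have hk : ∀ y, 0 ≤ k y := fun y => by
    have := Cond31.rt2_nonneg D y
    simp only [hkd]; split_ifs <;> positivity
  rw [Dat.src, Dat.A, Dat.A, ← avc_sub]
  refine (abs_avc_le (r := 1) hD.mono (rz_tw _ _) 4 (ψ := fun τ => Psi D.K g τ +
    ∑ y ∈ Finset.range (D.K + 1), k y * ind (P2 τ y)) fun τ hτ _ => ?_).trans ?_
  · have s0 : 0 ≤ ∑ y ∈ Finset.range (D.K + 1), k y * ind (P2 τ y) :=
      Finset.sum_nonneg fun y _ => mul_nonneg (hk y) (ind_nonneg _)
    have s1 := Psi_nonneg (K := D.K) hg τ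
    rw [phE]
    split_ifs with k1 k2 k2
    · rw [sub_self, abs_zero]; positivity
    · rw [sub_zero]
      by_cases k3 : j' < τ c d
      · refine le_add_of_nonneg_of_le s1 (le_trans ?_ (Finset.single_le_sum
          (f := fun y => k y * ind (P2 τ y)) (fun y _ => mul_nonneg (hk y) (ind_nonneg _))
          (Finset.mem_range.2 (Nat.lt_succ_of_le (hτ.le c d)))))
        have k4 : τ c e < τ c d := by omega
        have b1 := (hI Ω D tb hD _ (hτ.le c d)).1 τ c d e f hτ hcd hef rfl k1.1.symm k4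
        rw [ind_pos ⟨c, d, e, f, hcd, hef, rfl, k1.1.symm, k4⟩, mul_one, abs_mul]
        simp only [hkd, if_pos k3]
        exact (mul_le_mul b1 (abs_Sf91 hD hτ) (abs_nonneg _) ((abs_nonneg _).trans b1)).trans_eq
          (mul_comm _ _)
      · refine le_add_of_le_of_nonneg (le_trans ?_ (le_Psi hg hτ hcd)) s0
        simp only [hgd, if_pos (show j ≤ τ c d ∧ τ c d ≤ j' ∧ τ c d ≠ i by omega)]
        exact (abs_BS91 hD hτ hcd hef k1.1).2
    · omega
    · rw [sub_self, abs_zero]; positivity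
  rw [avc_add, avc_sum]
  refine add_le_add ((avc_Psi hD.mono (rz_tw _ _) hg 4).trans ?_) ?_
  · rw [Psi_tw91 hiK (if_neg (by omega)), zero_add]
    have b1 := Wp52.Br_mono hD.mono (g := g) (g' := fun y => 8 * tb ^ 2 *
      ((if y ∈ Finset.Ioo j j' then D.un y ^ 2 else 0) + 4 * ind (y = j) + 4 * ind (y = j')))
      fun y _ => by
        have u1 := ind_nonneg (y = j)
        have u2 := ind_nonneg (y = j')
        have u3 : D.un y ^ 2 ≤ 4 := by nlinarith [hD.un0 y]
        simp only [hgd, Finset.mem_Ioo]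
        split_ifs with k1 k2 k2
        · exact mul_le_mul_of_nonneg_left (by linarith) (by positivity)
        · refine mul_le_mul_of_nonneg_left ?_ (by positivity)
          rcases (by omega : y = j ∨ y = j') with h | h <;> rw [ind_pos h] <;> linarith
        · positivity
        · positivity
    rw [Wp52.Br_mul, Wp52.Br_add, Wp52.Br_add, Wp52.Br_mul, Wp52.Br_mul] at b1
    have b2 := Br_single j hD.mono
    have b3 := Br_single j' hD.mono
    have b4 : Wp52.Br D.L (fun y => if y ∈ Finset.Ioo j j' then D.un y ^ 2 else 0) ≤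
        ∑ y ∈ Finset.Ioo j j', dm D.L 0 y * D.un y ^ 2 := by
      simp only [Wp52.Br, mul_ite, mul_zero, Finset.sum_ite_mem]
      exact Finset.sum_le_sum_of_subset_of_nonneg Finset.inter_subset_right fun y _ _ =>
        mul_nonneg (dm_nonneg hD.mono y) (sq_nonneg _)
    push_cast
    nlinarith [sq_nonneg tb]
  · rw [Dat.N, Dat.I, Finset.mul_sum, Finset.mul_sum]
    refine Finset.sum_le_sum fun y hy => ?_
    have u0 : 0 ≤ G * (dm D.L 0 y * D.un y) :=
      mul_nonneg hG.1 (mul_nonneg (dm_nonneg hD.mono y) (hD.un0 y).1)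
    rw [avc_mul, pow_one]
    simp only [hkd]
    split_ifs with k1
    · have b1 := avc_P2 (r := 1) hD.mono (rz_tw D.K i) (y := y)
        (fun h => by have := P1_tw91 hiK h; omega) 4
      have b0 := mul_nonneg (sq_nonneg (D.t y)) (Cond31.rt2_nonneg D y)
      refine (mul_le_mul_of_nonneg_left b1 (by positivity)).trans ?_
      by_cases ht : D.t y = 0
      · rw [ht]
        nlinarith [mul_nonneg (sq_nonneg tb) u0]
      · have b2 := (hI Ω D tb hD y (Nat.lt_succ_iff.1 (Finset.mem_range.1 hy))).2 j (by omega) G hG ht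
        have b3 := mul_le_mul (Cond31.sq_t_le D hD y) b2
          (mul_nonneg (sq_nonneg _) (Cond31.rt2_nonneg D y)) (sq_nonneg _)
        push_cast
        linarith
    · rw [zero_mul]
      positivity

/-- **leaf E-e** -/
theorem eeS_of (hE : EdS) (hI : EiS) : EeS := fun tb =>
  ⟨2400 * tb ^ 2, by positivity, fun Ω _ D hD c d e f hcd hef j hj => by
    have hp : ∀ y < j, 0 ≤ pi2 D.w D.L y (fun x x' => D.l0.cov x x' ^ 2) D.h - D.lam3 y j :=
      fun y hy => sub_nonneg.2 ((hE Ω D hD.wt y j hy hj).1.trans (hE Ω D hD.wt y j hy hj).2.1)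
    have hV : 0 ≤ D.VV j := Finset.sum_nonneg fun y hy => by
      split_ifs
      exacts [le_rfl, mul_nonneg (dm_nonneg hD.mono y) (hp y (Finset.mem_range.1 hy))]
    have hN : ∀ k, 0 ≤ D.N k := fun k => Wp52.Br_nonneg hD.mono (g := fun y => D.un y ^ k)
      fun y _ => pow_nonneg (hD.un0 y).1 k
    refine ⟨hV, ?_, fun j' hj' hjj m1 m2 G hG => ?_⟩
    · refine (A_le91 hD.mono hj.le (g := fun y => if y ≠ j then 8 * tb ^ 2 * D.un y ^ 2 else 0)
        (fun y => by split_ifs <;> positivity) (if_neg (by simp)) hcd fun τ hτ _ => ?_).trans ?_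
      · split_ifs with k1 k2 k2
        · exact (abs_BS91 hD hτ hcd hef k1.1).2
        · exact absurd k1.2 k2
        · rw [abs_zero]; positivity
        · rw [abs_zero]
      · have := Br_le_N91 (p := fun y => y ≠ j) hD.mono (a := 8 * tb ^ 2) (by positivity)
        nlinarith [mul_nonneg (sq_nonneg tb) (hN 2)]
    have a1 := end91 hI hD hcd hef hjj hj' (.inl rfl) m1 m2 hG
    have a2 := end91 hI hD hcd hef hjj hj' (.inr rfl) m1 m2 hG
    have a3 := tele91 (a := fun i => D.A i (phE D c d e f j j')) (Φ := poE D tb j) hjj.le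
      fun i h1 h2 => step91 hE hD hcd hef h1 h2 hj'
    have x1 : ∑ k ∈ Finset.range j', dm D.L 0 k ≤ ex D.L j' := by
      have := sum_dm D.L 0 j'
      rw [Finset.sum_range_succ] at this
      linarith [dm_nonneg hD.mono j']
    have x2 : ex D.L j - D.ms ≤ ∑ k ∈ Finset.range j, dm D.L 0 k := by
      have := sum_dm D.L 0 j
      rw [Finset.sum_range_succ] at this
      linarith
    have x3 : ex D.L j ≤ ex D.L j' := by
      have h1 := sum_dm D.L 0 j
      have h2 := sum_dm D.L 0 j'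
      have := Finset.sum_le_sum_of_subset_of_nonneg (f := dm D.L 0)
        (Finset.range_subset_range.2 (by omega : j + 1 ≤ j' + 1)) fun y _ _ => dm_nonneg hD.mono y
      linarith
    have x4 := hD.r1.tm_mono hjj.le
    have x5 : D.q j ≤ D.q j' := by
      have := tele91 (a := fun _ => 0) (Φ := D.q) hjj.le fun i _ h2 => by
        simpa using hD.qm i (h2.trans hj')
      simpa using this
    have x6 : ∑ y ∈ Finset.range j, dm D.L 0 y * (D.t y ^ 2 * D.lam3 y j') -
        ∑ y ∈ Finset.range j, dm D.L 0 y * (D.t y ^ 2 * D.lam3 y j) ≤ tb ^ 2 * D.VV j := by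
      rw [← Finset.sum_sub_distrib, Dat.VV, Finset.mul_sum]
      refine Finset.sum_le_sum fun y hy => ?_
      have hy' := Finset.mem_range.1 hy
      split_ifs with ht
      · simp [ht]
      · obtain ⟨i, rfl⟩ : ∃ i, j' = i + 1 := ⟨j' - 1, by omega⟩
        have b1 := (hE Ω D hD.wt y i (by omega) (by omega)).2.1
        have b2 := mul_nonneg (dm_nonneg hD.mono y) (hp y hy')
        have b3 := mul_le_mul_of_nonneg_right (Cond31.sq_t_le D hD y) b2
        have b4 := mul_le_mul_of_nonneg_left b1 (mul_nonneg (dm_nonneg hD.mono y) (sq_nonneg (D.t y)))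
        linarith
    have x7 : D.N 2 ≤ 4 := (Wp52.Br_mono hD.mono (g := fun y => D.un y ^ 2) (g' := fun _ => 4 * 1)
      fun y _ => by nlinarith [hD.un0 y]).trans_eq (by rw [Wp52.Br_mul, Wp52.Br_one, mul_one])
    have x8 : 0 ≤ ∑ y ∈ Finset.Ioo j j', dm D.L 0 y * D.un y ^ 2 :=
      Finset.sum_nonneg fun y _ => mul_nonneg (dm_nonneg hD.mono y) (sq_nonneg _)
    have x9 := mul_nonneg hG.1 (hN 1)
    have t0 := sq_nonneg tb
    have n0 := mul_nonneg t0 (hN 2)
    have y1 := mul_le_mul_of_nonneg_left x1 n0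
    have y2 := mul_le_mul_of_nonneg_left x2 n0
    have y3 := mul_le_mul_of_nonneg_left x3 n0
    have y4 := mul_le_mul_of_nonneg_left x4 n0
    have y5 := mul_le_mul_of_nonneg_left x5 n0
    have y6 := mul_le_mul_of_nonneg_left x7 (mul_nonneg t0 hD.ms0)
    have y7 := mul_nonneg t0 x8
    have y8 := mul_nonneg t0 x9
    have y9 := mul_nonneg t0 hD.ms0
    have y10 := mul_nonneg t0 hV
    have a4 := abs_sub_le (D.src c d e f j') (D.A j' (phE D c d e f j j')) (D.src c d e f j)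
    have a5 := abs_sub_le (D.A j' (phE D c d e f j j')) (D.A j (phE D c d e f j j'))
      (D.src c d e f j)
    rw [abs_sub_comm] at a1
    simp only [poE] at a3
    rw [Dat.clk]
    linarith⟩

end Crest.Agent.T156.Cas.E91
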