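import Crest.Agent.T156.Ker_15
import Crest.Agent.T156.Mul_55
import Crest.Agent.T156.Top_31
import Crest.Agent.T156.Spl_27
import Crest.Agent.T156.L0B_49

/-!
# Row 156 (helper49): leaf E-f of docs/T156_91E.md

The second tree derivative of the site overlap at the node `j` in the direction of the node `j`
is `Γ'' = N - 2 ζ A` up to the weight of the node.
-/

set_option autoImplicit false

noncomputable section

namespace Crest.Agent.T156.Cas.Ef49

open MeasureTheory Real Set Filter Topology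
open Crest.Agent.T157.E Crest.Agent.T157.Casc Crest.Agent.T157.SL
open Crest.Agent.T157.Casc.C (Same Rk1)
open Crest.Agent.R339.Var Crest.Agent.R339.B Crest.Agent.T157.Pf
open Crest.ProbabilityR.SpinGlassDynamics (spin)
open Crest.Agent.T156.Cas.Ker15 Crest.Agent.T156.Cas.One15

/-- `ε ε'` at the level `j` only -/
def ek (j : ℕ) : ℕ → Bool → Bool → ℝ := fun k a b => if k = j then spin a * spin b else 0

/-- the site number, normalised kernel -/
def kap1 (L : List (Lv Bool)) (j : ℕ) : ℝ :=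
  twoF j (fun a b => spin a * spin b) ((Dop L (ek j))^[2] (TEf (fun _ => 1) L 0))

/-- the model cascade of a list -/
def cs (ℓ : List (ℝ × ℝ)) : List (Lv Bool) := ℓ.map (C.sl spin)

/-- accumulated variance -/
def tk (ℓ : List (ℝ × ℝ)) (k : ℕ) : ℝ := R339.Var.TT (ℓ.take k)

variable {L L' : List (Lv Bool)} {ℓ : List (ℝ × ℝ)}

theorem same_of (H : List.Forall₂ (Rk1 spin) L ℓ) : ∀ {L' : List (Lv Bool)},
    List.Forall₂ (Rk1 spin) L' ℓ → List.Forall₂ Same L L' := by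
  induction H with
  | nil => intro L' H'; cases H'; exact .nil
  | cons h1 _ ih =>
    intro L' H'
    cases H' with
    | cons h2 h3 =>
      exact .cons ⟨h1.1.trans h2.1.symm, funext fun a => funext fun b =>
        (h1.2.2 a b).trans (h2.2.2 a b).symm⟩ (ih h3)

theorem tilt_of (H : List.Forall₂ (Rk1 spin) L ℓ) : L.map Lv.m = ℓ.map Prod.fst := by
  induction H with
  | nil => rfl
  | cons h1 _ ih => rw [List.map_cons, List.map_cons, ih, h1.1]

theorem nn_adm : ∀ {ℓ : List (ℝ × ℝ)}, Adm 1 ℓ → ∀ p ∈ ℓ, 0 ≤ p.2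
  | [], _, _, h => absurd h List.not_mem_nil
  | _ :: _, h, p, hp => by
    rcases List.mem_cons.1 hp with rfl | hp
    · exact h.2.2.1
    · exact nn_adm h.2.2.2 p hp

theorem rk_cs (h : Adm 1 ℓ) : List.Forall₂ (Rk1 spin) (cs ℓ) ℓ := C.forall₂_sl spin (nn_adm h)

theorem mono_cs : ∀ {ℓ : List (ℝ × ℝ)}, Adm 1 ℓ → ∀ {m : ℝ}, m ≤ headLv 1 ℓ → Mono m (cs ℓ)
  | [], _, _, h => h
  | _ :: _, h, _, hm => ⟨hm, mono_cs h.2.2.2 h.2.1⟩

theorem mono0 (h : Adm 1 ℓ) : Mono 0 (cs ℓ) := mono_cs h (h.head_pos one_pos).le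

theorem cacc_rk (H : List.Forall₂ (Rk1 spin) L ℓ) (a b : Bool) :
    ∀ k, cacc L k a b = tk ℓ k * (spin a * spin b) := by
  induction H with
  | nil => intro k; simp [cacc, tk, R339.Var.TT]
  | cons h1 _ ih =>
    intro k
    cases k with
    | zero => simp [cacc, tk, R339.Var.TT]
    | succ k =>
      rw [Sd.cacc_cons, ih, h1.2.2, tk, tk, List.take_succ_cons, One15.TT_cons]
      ring

theorem tk_app (A X : List (ℝ × ℝ)) (k : ℕ) : tk (A ++ X) k = tk A k + tk X (k - A.length) := by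
  rw [tk, List.take_append, Ker.TT_append]
  rfl

theorem adm_app : ∀ (A : List (ℝ × ℝ)) {X X' : List (ℝ × ℝ)}, Adm 1 (A ++ X) → Adm 1 X' →
    headLv 1 X' = headLv 1 X → Adm 1 (A ++ X')
  | [], _, _, _, h, _ => h
  | [_], _, _, h, h', e => ⟨h.1, h.2.1.trans_eq e.symm, h.2.2.1, h'⟩
  | _ :: q :: A, _, _, h, h', e => ⟨h.1, h.2.1, h.2.2.1, adm_app (q :: A) h.2.2.2 h' e⟩

theorem adm_suf : ∀ (A : List (ℝ × ℝ)) {X : List (ℝ × ℝ)}, Adm 1 (A ++ X) → Adm 1 X
  | [], _, h => h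
  | _ :: A, _, h => adm_suf A h.2.2.2

theorem lvr_app : ∀ (A : List (ℝ × ℝ)) {X X' : List (ℝ × ℝ)}, (∀ t, lvr 1 X' t = lvr 1 X t) →
    ∀ t, lvr 1 (A ++ X') t = lvr 1 (A ++ X) t
  | [], _, _, h, t => h t
  | p :: A, _, _, h, t => by simp only [List.cons_append, lvr, lvr_app A h]

theorem lvr_shift : ∀ (A : List (ℝ × ℝ)) {X : List (ℝ × ℝ)}, (∀ p ∈ A, 0 ≤ p.2) → ∀ t, 0 ≤ t →
    lvr 1 (A ++ X) (R339.Var.TT A + t) = lvr 1 X t
  | [], _, _, t, _ => by simp [R339.Var.TT]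
  | p :: A, X, h, t, ht => by
    have h0 := One15.TT_nonneg fun q hq => h q (List.mem_cons_of_mem _ hq)
    simp only [List.cons_append, lvr, One15.TT_cons]
    rw [if_neg (by linarith), show p.2 + R339.Var.TT A + t - p.2 = R339.Var.TT A + t by ring,
      lvr_shift A (fun q hq => h q (List.mem_cons_of_mem _ hq)) t ht]

theorem gam_cs (h : Adm 1 ℓ) {j : ℕ} (hj : j ≤ ℓ.length) :
    TE (fun _ => 1) (Sh.two j) (cs ℓ) 0 (fun x => spin (x (Sh.twoL j)) * spin (x (Sh.twoR j))) =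
      Pr.Gam ℓ (tk ℓ j) := by
  have h1 := twoF_TEf w1 j (fun a b => spin a * spin b) (cs ℓ) 0
  have h2 := pi2_spin (rk_cs h) hj 0
  rw [zero_smul] at h2
  refine (h1.trans h2).trans ?_
  unfold Pr.Gam Pr.Et Pr.Dk tk
  rw [Pp.Dn_zero]

theorem abs_ss {κ : Type} (a b : κ) (x : κ → Bool) : |spin (x a) * spin (x b)| ≤ 1 := by
  rw [abs_mul, One15.abs_spin, One15.abs_spin, one_mul]

theorem coef {α β C D : ℝ} (H : ∀ T ∈ Ioo (0 : ℝ) 1, |α * T + β * T ^ 2 / 2| ≤ C * T ^ 3 + D * T ^ 2) :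
    |β| ≤ 6 * D := by
  have key : ∀ T ∈ Ioo (0 : ℝ) 1, |β| ≤ 6 * D + 5 * C * T := fun T hT => by
    have a1 := abs_le.1 (H T hT)
    have a2 := abs_le.1 (H (T / 2) ⟨by linarith [hT.1], by linarith [hT.1, hT.2]⟩)
    have p : 0 < T ^ 2 := pow_pos hT.1 2
    rw [abs_le]
    constructor
    · refine le_of_mul_le_mul_right ?_ p
      nlinarith [a1.1, a2.2]
    · refine le_of_mul_le_mul_right ?_ p
      nlinarith [a1.2, a2.1]
  have lim : Tendsto (fun T : ℝ => 6 * D + 5 * C * T) (𝓝[>] 0) (𝓝 (6 * D + 5 * C * 0)) :=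
    ((by fun_prop : Continuous fun T : ℝ => 6 * D + 5 * C * T).tendsto 0).mono_left
      nhdsWithin_le_nhds
  rw [mul_zero, add_zero] at lim
  refine ge_of_tendsto lim ?_
  filter_upwards [Ioo_mem_nhdsGT one_pos] with T hT using key T hT

/-- second order expansion of `Γ` to the right of a point where the tilt is locally constant -/
theorem gam_taylor (h : Adm 1 ℓ) {σ v m : ℝ} (h0 : 0 ≤ σ) (hv : σ + v ≤ R339.Var.TT ℓ)
    (hm : ∀ e, 0 ≤ e → e < v → lvr 1 ℓ (σ + e) = m) : ∃ C : ℝ, ∀ e, 0 ≤ e → e < v →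
    |Pr.Gam ℓ (σ + e) - Pr.Gam ℓ σ - Pr.GG ℓ σ * e -
      (Pr.NN ℓ σ - 2 * m * Pr.AA ℓ σ) * e ^ 2 / 2| ≤ C * e ^ 3 := by
  obtain ⟨u, hu, q, -⟩ := Spl27.exists_ok h
  have S := Ker.same_le h hu.1 q.tt.le fun s h1 _ => (q.lv s h1.le).symm
  have ap := L0.ap_of_ok hu
  obtain ⟨C, c1, hC⟩ := L0.Gd_up (R339.Var.TT u)
  refine ⟨C, fun e e0 e1 => ?_⟩
  have t1 : σ + e ≤ R339.Var.TT u := by rw [← q.tt]; linarith
  have ms : σ ∈ Icc 0 (R339.Var.TT ℓ) := ⟨h0, by linarith⟩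
  rw [← S.gam _ ⟨by linarith, by linarith⟩, ← S.gam _ ms, ← S.gg _ ms, ← S.nn _ ms, ← S.aa _ ms]
  have lv : ∀ r ∈ Icc σ (σ + e), lvr 1 u r = m := fun r hr => by
    rw [← q.lv r (h0.trans hr.1), ← hm (r - σ) (by linarith [hr.1]) (by linarith [hr.2])]
    congr 1
    ring
  have e2 : Pr.NN u σ - 2 * m * Pr.AA u σ = L0.Gd u σ := by
    unfold L0.Gd
    rw [lv σ ⟨le_rfl, by linarith⟩]
    rfl
  rw [e2, L0.Gam_eq, L0.GG_eq]
  have le : σ ≤ σ + e := by linarith
  have g1 : ∀ r ∈ Icc σ (σ + e), |Pp.Ode3.Gp u r - Pp.Ode3.Gp u σ - L0.Gd u σ * (r - σ)| ≤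
      C * e * e := fun r hr => by
    have := abs_sub_le_of_rder (f := fun r => Pp.Ode3.Gp u r - L0.Gd u σ * r) (C := C * e)
      (((Pp.Ode3.Gp_cont ap).mono (Icc_subset_Icc h0 t1)).sub (by fun_prop))
      (fun s hs => (Pp.Ode3.Gp_rder ap (h0.trans hs.1) (hs.2.trans_le t1)).sub
        ((hasDerivWithinAt_id s _).const_mul (L0.Gd u σ))) ⟨le_rfl, le⟩ hr (fun s hs => by
        rw [min_eq_left hr.1, max_eq_right hr.1] at hs
        have s1 : s ≤ σ + e := hs.2.le.trans hr.2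
        have := hC u ap le_rfl σ s h0 hs.1 (s1.trans t1)
        rw [lv s ⟨hs.1, s1⟩, lv σ ⟨le_rfl, le⟩, sub_self, mul_zero, add_zero] at this
        rw [mul_one]
        exact this.trans (mul_le_mul_of_nonneg_left (by linarith) (by linarith)))
    rw [abs_of_nonneg (sub_nonneg.2 hr.1)] at this
    calc _ = |Pp.Ode3.Gp u r - L0.Gd u σ * r - (Pp.Ode3.Gp u σ - L0.Gd u σ * σ)| := by
          congr 1; ring
      _ ≤ _ := this
      _ ≤ _ := mul_le_mul_of_nonneg_left (by linarith [hr.2]) (by positivity)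
  have := abs_sub_le_of_rder (f := fun r => Pp.Ode3.Gam u r -
      (Pp.Ode3.Gp u σ * (r - σ) + L0.Gd u σ / 2 * (r - σ) ^ 2)) (C := C * e * e)
    (((Pp.Ode3.Gam_cont ap).mono (Icc_subset_Icc h0 t1)).sub (by fun_prop))
    (fun s hs => (Pp.Ode3.Gam_rder ap (h0.trans hs.1) (hs.2.trans_le t1)).sub
      (L0.dquad _ _ σ s).hasDerivWithinAt) ⟨le_rfl, le⟩ ⟨le, le_rfl⟩ (fun s hs => by
      rw [min_eq_left le, max_eq_right le] at hs
      rw [← sub_sub]
      exact g1 s ⟨hs.1, hs.2.le⟩)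
  simp only [add_sub_cancel_left, sub_self, abs_of_nonneg e0] at this
  calc _ = |Pp.Ode3.Gam u (σ + e) - (Pp.Ode3.Gp u σ * e + L0.Gd u σ / 2 * e ^ 2) -
        (Pp.Ode3.Gam u σ - (Pp.Ode3.Gp u σ * 0 + L0.Gd u σ / 2 * 0 ^ 2))| := by congr 1; ring
    _ ≤ _ := this
    _ = _ := by ring

section split

variable (A B : List (ℝ × ℝ)) (m' v' m v : ℝ)

/-- the node moved by `e` -/
def l2 (e : ℝ) : List (ℝ × ℝ) := A ++ (m', v' + e) :: (m, v - e) :: B

/-- the refined list: the tilt jumps at `u`, the node sits at `e` -/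
def l3 (u e : ℝ) : List (ℝ × ℝ) := A ++ (m', v' + u) :: (m, e - u) :: (m, v - e) :: B

theorem tk_l2 (e : ℝ) (k : ℕ) : tk (l2 A B m' v' m v e) k =
    tk (l2 A B m' v' m v 0) k + if k = A.length + 1 then e else 0 := by
  rw [l2, l2, tk_app, tk_app, add_assoc]
  congr 1
  have : k = A.length + 1 ↔ k - A.length = 1 := by omega
  simp only [this]
  rcases k - A.length with _ | _ | i
  · simp [tk, R339.Var.TT]
  · simp [tk, R339.Var.TT]
  · simp only [tk, List.take_succ_cons, One15.TT_cons]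
    rw [if_neg (by omega)]
    ring

theorem tk_l3 (u e : ℝ) (k : ℕ) : tk (l3 A B m' v' m v u e) k = tk (l3 A B m' v' m v 0 0) k +
    ((if k = A.length + 1 then u else 0) + if k = A.length + 2 then e else 0) := by
  rw [l3, l3, tk_app, tk_app, add_assoc]
  congr 1
  have h1 : k = A.length + 1 ↔ k - A.length = 1 := by omega
  have h2 : k = A.length + 2 ↔ k - A.length = 2 := by omega
  simp only [h1, h2]
  rcases k - A.length with _ | _ | _ | i
  · simp [tk, R339.Var.TT]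
  · simp [tk, R339.Var.TT]
  · simp only [tk, List.take_succ_cons, List.take_zero, One15.TT_cons]
    norm_num
    ring
  · simp only [tk, List.take_succ_cons, One15.TT_cons]
    rw [if_neg (by omega), if_neg (by omega)]
    ring

theorem tk_l2_node (e : ℝ) : tk (l2 A B m' v' m v e) (A.length + 1) = R339.Var.TT A + v' + e := by
  rw [l2, tk_app, Nat.add_sub_cancel_left, tk, List.take_of_length_le (Nat.le_succ _)]
  simp [tk, R339.Var.TT, add_assoc]

theorem tk_l3_node (u e : ℝ) : tk (l3 A B m' v' m v u e) (A.length + 2) = R339.Var.TT A + v' + e := by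
  rw [l3, tk_app, Nat.add_sub_cancel_left, tk, List.take_of_length_le (Nat.le_add_right _ _)]
  simp only [tk, List.take_succ_cons, List.take_zero, One15.TT_cons]
  simp only [R339.Var.TT, List.map_nil, List.sum_nil]
  ring

theorem TT_l2 (e : ℝ) : R339.Var.TT (l2 A B m' v' m v e) = R339.Var.TT A + v' + v + R339.Var.TT B := by
  simp only [l2, Ker.TT_append, One15.TT_cons]
  ring

theorem TT_l3 (u e : ℝ) : R339.Var.TT (l3 A B m' v' m v u e) = R339.Var.TT A + v' + v + R339.Var.TT B := by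
  simp only [l3, Ker.TT_append, One15.TT_cons]
  ring

theorem st_l2 (e e' : ℝ) : ST (cs (l2 A B m' v' m v e)) (cs (l2 A B m' v' m v e')) := by
  simp [Ker15.ST, cs, l2, Function.comp_def, C.sl]

theorem st_l3 (u e u' e' : ℝ) :
    ST (cs (l3 A B m' v' m v u e)) (cs (l3 A B m' v' m v u' e')) := by
  simp [Ker15.ST, cs, l3, Function.comp_def, C.sl]

theorem len_l2 (e : ℝ) : (l2 A B m' v' m v e).length = A.length + 2 + B.length := by
  simp [l2]; omega

theorem len_l3 (u e : ℝ) : (l3 A B m' v' m v u e).length = A.length + 3 + B.length := by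
  simp [l3]; omega

theorem dm_l3 (u e : ℝ) : dm (cs (l3 A B m' v' m v u e)) 0 (A.length + 1) = m - m' := by
  simp [dm, exP, T157.Casc.ex, cs, l3, C.sl]

theorem dm_l2 (e : ℝ) : dm (cs (l2 A B m' v' m v e)) 0 (A.length + 1) = m - m' := by
  simp [dm, exP, T157.Casc.ex, cs, l2, C.sl]

variable {A B m' v' m v}

theorem adm_l2 (h : Adm 1 (l2 A B m' v' m v 0)) {e : ℝ} (h0 : 0 ≤ e) (h1 : e ≤ v) :
    Adm 1 (l2 A B m' v' m v e) := by
  have a := adm_suf A h
  have a1 : 0 ≤ v' + 0 := a.2.2.1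
  exact adm_app A h ⟨a.1, a.2.1, by linarith, a.2.2.2.1, a.2.2.2.2.1, sub_nonneg.2 h1,
    a.2.2.2.2.2.2⟩ rfl

theorem adm_l3 (h : Adm 1 (l2 A B m' v' m v 0)) {u e : ℝ} (h0 : 0 ≤ u) (h2 : u ≤ e) (h1 : e ≤ v) :
    Adm 1 (l3 A B m' v' m v u e) := by
  have a := adm_suf A h
  have a1 : 0 ≤ v' + 0 := a.2.2.1
  exact adm_app A h ⟨a.1, a.2.1, by linarith, a.2.2.2.1, le_rfl, sub_nonneg.2 h2, a.2.2.2.1,
    a.2.2.2.2.1, sub_nonneg.2 h1, a.2.2.2.2.2.2⟩ rfl

theorem lvr_l3 {u e : ℝ} (h1 : e ≤ v) (t : ℝ) :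
    lvr 1 (l3 A B m' v' m v u e) t = lvr 1 (l2 A B m' v' m v u) t := by
  refine lvr_app A (fun t => ?_) t
  simp only [lvr]
  split_ifs with a b c d c
  · rfl
  · rfl
  · exact absurd (by linarith) c
  · rfl
  · exact absurd (by linarith) c
  · exact absurd (by linarith) d
  · congr 1
    ring

theorem gam_l3 (h : Adm 1 (l2 A B m' v' m v 0)) {u e : ℝ} (h0 : 0 ≤ u) (h2 : u ≤ e) (h1 : e ≤ v) :
    Pr.Gam (l3 A B m' v' m v u e) (R339.Var.TT A + v' + e) =
      Pr.Gam (l2 A B m' v' m v u) (R339.Var.TT A + v' + e) := by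
  have a := adm_suf A h
  have a1 : 0 ≤ v' + 0 := a.2.2.1
  have a2 := One15.TT_nonneg (nn_adm a.2.2.2.2.2.2)
  have a3 := One15.TT_nonneg (nn_adm (Ker.adm_pre _ h))
  refine (Ker.same_le (adm_l2 h h0 (h2.trans h1)) (adm_l3 h h0 h2 h1)
    (by rw [TT_l2, TT_l3]) fun s _ _ => lvr_l3 h1 s).gam _ ⟨by linarith, ?_⟩
  rw [TT_l2]
  linarith

/-- moving the jump of the tilt costs the weight of the node -/
theorem jump (h : Adm 1 (l2 A B m' v' m v 0)) : ∃ K : ℝ, ∀ e, 0 ≤ e → e ≤ v →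
    |Pr.Gam (l2 A B m' v' m v e) (R339.Var.TT A + v' + e) - Pr.Gam (l2 A B m' v' m v 0) (R339.Var.TT A + v' + e) -
      K * e| ≤ 640 * (m - m') * e ^ 2 := by
  set j := A.length + 1 with hj
  set s := Sh.two (A.length + 2) with hs
  set F : (s.Lf → Bool) → ℝ := fun x => spin (x (Sh.twoL _)) * spin (x (Sh.twoR _)) with hF
  set M0 := cs (l3 A B m' v' m v 0 0) with hM0
  set E : ℕ → Bool → Bool → ℝ := fun k a b => 1 / 2 * ek j k a b with hE
  refine ⟨sg (-1) M0 s fun τ => TE (fun _ => 1) τ.sh M0 0 (τ.ev E F), fun e e0 e1 => ?_⟩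
  have a0 := adm_l3 h le_rfl le_rfl (e0.trans e1)
  have a1 := adm_l3 h le_rfl e0 e1
  have a2 := adm_l3 h e0 le_rfl e1
  rw [← gam_l3 h e0 le_rfl e1, ← gam_l3 h le_rfl e0 e1]
  have g1 := gam_cs a1 (j := A.length + 2) (by rw [len_l3]; omega)
  have g2 := gam_cs a2 (j := A.length + 2) (by rw [len_l3]; omega)
  rw [tk_l3_node] at g1 g2
  rw [← g1, ← g2]
  set M1 := cs (l3 A B m' v' m v 0 e) with hM1
  set M2 := cs (l3 A B m' v' m v e e) with hM2
  have H : ST M1 M2 := st_l3 ..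
  have H0 : ST M0 M1 := st_l3 ..
  have len : M1.length = A.length + 3 + B.length := by rw [hM1, cs, List.length_map, len_l3]
  have d : ∀ k a b, dC M1 M2 k a b = e * ek j k a b := fun k a b => by
    rw [dC, cacc_rk (rk_cs a1), cacc_rk (rk_cs a2), tk_l3 _ _ _ _ _ _ e e, tk_l3 _ _ _ _ _ _ 0 e, ek]
    split_ifs <;> ring
  obtain ⟨θ, hθ, eq⟩ := ker1_eq w1 H (c := 0) (fun y => by
    rw [d, ek, if_neg (by omega), mul_zero]) s 0 F
  rw [eq, ← sg_tilt _ H0, mul_comm _ e, ← sg_const_mul, ← sg_sub]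
  have mo := mono0 a0
  refine (abs_sg_le mo s (Ψ := fun τ => (fun k => if k = j then 16 * e ^ 2 else 0) τ.j)
    fun τ hτ => ?_).trans ((sg_lvl mo s (g := fun k => if k = j then 16 * e ^ 2 else 0)
      fun k => by split_ifs <;> positivity).trans (le_of_eq ?_))
  · have e3 : τ.ev (hK M1 M2) F = fun x => e * τ.ev E F x := by
      funext x
      simp only [GT.ev, hK, d, hE]
      ring
    rw [e3, Law.TE_const_mul w1, ← mul_sub, abs_mul, abs_of_nonneg e0]
    by_cases hτj : τ.j = j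
    · simp only [hτj, if_true]
      have k := ker1 w1 mo (H0.trans (st_mid H θ).symm) (c := 0) (fun y => by
          rw [dC, cacc_mid ⟨hθ.1.le, hθ.2.le⟩ _ _ H, d, cacc_rk (rk_cs a1), cacc_rk (rk_cs a0),
            tk_l3 _ _ _ _ _ _ 0 e, ek, H0.len, len, if_neg (by omega), if_neg (by omega),
            if_neg (by omega)]
          ring) τ.sh (N := 4) (hτ.card.trans (by rw [hs, Wt87.card_two])) 0
        (F := τ.ev E F) (b := 1 * (1 / 2)) (g := e) (abs_ev τ (abs_ss _ _) fun x y => by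
          rw [hE]
          simp only [ek, hτj, if_true, abs_mul, One15.abs_spin]
          norm_num) fun k _ x y => by
          rw [dC, cacc_mid ⟨hθ.1.le, hθ.2.le⟩ _ _ H, d, cacc_rk (rk_cs a1), cacc_rk (rk_cs a0),
            tk_l3 _ _ _ _ _ _ 0 e, ek]
          have hs1 : |spin x * spin y| = 1 := by rw [abs_mul, One15.abs_spin, One15.abs_spin, one_mul]
          by_cases c1 : k = j
          · rw [if_pos c1, if_pos c1, if_neg (by omega), show (tk (l3 A B m' v' m v 0 0) k +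
              (0 + 0)) * (spin x * spin y) + θ * (e * (spin x * spin y)) -
              tk (l3 A B m' v' m v 0 0) k * (spin x * spin y) = θ * e * (spin x * spin y) by ring,
              abs_mul, hs1, mul_one, abs_of_nonneg (mul_nonneg hθ.1.le e0)]
            exact mul_le_of_le_one_left e0 hθ.2.le
          · rw [if_neg c1, if_neg c1]
            split_ifs
            · rw [show (tk (l3 A B m' v' m v 0 0) k + (0 + e)) * (spin x * spin y) + θ * (e * 0) -
                tk (l3 A B m' v' m v 0 0) k * (spin x * spin y) = e * (spin x * spin y) by ring,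
                abs_mul, hs1, mul_one, abs_of_nonneg e0]
            · simpa using e0
      have := mul_le_mul_of_nonneg_left k e0
      push_cast at this
      nlinarith
    · have z : τ.ev E F = fun _ => 0 := by
        funext x
        simp only [GT.ev, hE, ek, if_neg hτj, mul_zero]
      simp only [z, Law.TE_const w1, if_neg hτj, sub_self, abs_zero, mul_zero, le_refl]
  · have len0 : (cs (l3 A B m' v' m v 0 0)).length = A.length + 3 + B.length := H0.len.trans len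
    rw [Nv, hs, Tay38.prs_two, Wt87.shr_comm _ (Sh.twoR _), Wt87.shr_two, Wt87.card_two,
      min_eq_left (by omega), if_neg (by omega)]
    simp only [mul_ite, mul_zero, Finset.sum_ite_eq', Finset.mem_range]
    rw [if_pos (by omega), dm_l3]
    push_cast
    ring

theorem dop2_smul {M : List (Lv Bool)} (c : ℝ) (S : ℕ → Bool → Bool → ℝ) (s : Sh)
    (F : (s.Lf → Bool) → ℝ) :
    (Dop M fun j x y => c * S j x y)^[2] (TEf (fun _ => 1) M 0) s F =
      c ^ 2 * (Dop M S)^[2] (TEf (fun _ => 1) M 0) s F := by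
  have e : (fun j x y => c * S j x y) = fun j x y => c * S j x y + 0 * S j x y := by
    funext j x y; ring
  have h1 : Dop M (fun j x y => c * S j x y) (TEf (fun _ => 1) M 0) = fun s F =>
      c * Dop M S (TEf (fun _ => 1) M 0) s F + 0 * Dop M S (TEf (fun _ => 1) M 0) s F := by
    funext s F
    rw [e]
    exact (isLin_TEf w1 M 0).dopS M c 0 S S s F
  show Dop M _ (Dop M _ _) s F = c ^ 2 * Dop M S (Dop M S _) s F
  rw [h1, ((FL.ev s F).dop M _).lin c 0, e, ((isLin_TEf w1 M 0).dop M S).dopS M c 0 S S s F]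
  ring

/-- Taylor expansion of the overlap at the moving node -/
theorem move (h : Adm 1 (l2 A B m' v' m v 0)) (hv : 0 ≤ v) : ∃ a C : ℝ, ∀ T ∈ Icc (0 : ℝ) 1,
    |Pr.Gam (l2 A B m' v' m v (T * v)) (R339.Var.TT A + v' + T * v) -
      Pr.Gam (l2 A B m' v' m v 0) (R339.Var.TT A + v' + 0) - a * T -
      (v / 2) ^ 2 * kap1 (cs (l2 A B m' v' m v 0)) (A.length + 1) * T ^ 2 / 2| ≤ C * T ^ 3 := by
  set j := A.length + 1 with hj
  set F : ((Sh.two j).Lf → Bool) → ℝ := fun x => spin (x (Sh.twoL _)) * spin (x (Sh.twoR _))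
    with hF
  have a1 := adm_l2 h hv le_rfl
  set M := cs (l2 A B m' v' m v 0) with hM
  set M1 := cs (l2 A B m' v' m v v) with hM1
  have H : ST M M1 := st_l2 ..
  have len : M.length = A.length + 2 + B.length := by rw [hM, cs, List.length_map, len_l2]
  have d : ∀ k a b, dC M M1 k a b = v * ek j k a b := fun k a b => by
    rw [dC, cacc_rk (rk_cs a1), cacc_rk (rk_cs h), tk_l2 _ _ _ _ _ _ v, ek]
    split_ifs <;> ring
  obtain ⟨C, hC⟩ := isCompact_Icc.exists_bound_of_continuousOn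
    (continuousOn_iDn w1 (sgm M M1) 0 3 (Sh.two j) F)
  refine ⟨iDn (fun _ => 1) (sgm M M1) 0 1 (Sh.two j) F 0, C, fun T hT => ?_⟩
  have t := taylor_ipl w1 (sgm M M1) 0 (c := 0) (fun y => by
    rw [len_sgm H, iD_sgm H, d, ek, if_neg (by omega), mul_zero]) (Sh.two j) F hT 2
  have aT := adm_l2 h (mul_nonneg hT.1 hv) (mul_le_of_le_one_left hv hT.2)
  have g0 := gam_cs h (j := j) (by rw [len_l2]; omega)
  have gT := gam_cs aT (j := j) (by rw [len_l2]; omega)
  rw [tk_l2_node] at g0 gT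
  have e0 : iDn (fun _ => 1) (sgm M M1) 0 0 (Sh.two j) F 0 = TE (fun _ => 1) (Sh.two j) M 0 F :=
    Law.TE_same w1 _ (same0 H) F 0
  have eT : TE (fun _ => 1) (Sh.two j) (ipl (sgm M M1) T) 0 F =
      TE (fun _ => 1) (Sh.two j) (cs (l2 A B m' v' m v (T * v))) 0 F := by
    have S1 : ST (cs (l2 A B m' v' m v (T * v))) (mid M M1 T) :=
      (st_l2 ..).trans (st_mid H T).symm
    have z : ∀ k x y, dC (cs (l2 A B m' v' m v (T * v))) (mid M M1 T) k x y = 0 := fun k x y => by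
      rw [dC, cacc_mid hT _ _ H, d, cacc_rk (rk_cs aT), cacc_rk (rk_cs h),
        tk_l2 _ _ _ _ _ _ (T * v), ek]
      split_ifs <;> ring
    have k := ker1 w1 (mono0 aT) S1 (c := 0) (fun y => z _ y y) (Sh.two j) le_rfl 0 (F := F)
      (g := 0) (abs_ss _ _) fun k _ x y => by rw [z, abs_zero]
    simp only [mul_zero] at k
    exact sub_eq_zero.1 (abs_nonpos_iff.1 k)
  have e2 : iDn (fun _ => 1) (sgm M M1) 0 2 (Sh.two j) F 0 = (v / 2) ^ 2 * kap1 M j := by
    have f1 : (fun s F => TE (fun _ => 1) s (ipl (sgm M M1) 0) 0 F) = TEf (fun _ => 1) M 0 :=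
      TEf_same w1 (same0 H) 0
    have f2 : (fun j x y => 1 / 2 * iD (sgm M M1) j x y) = fun k x y => v / 2 * ek j k x y := by
      funext k x y
      rw [iD_sgm H, d]
      ring
    rw [iDn, f1, f2, itE_tilt _ (sgm_spec H).2.2.1, ← Dop_iter_eq, dop2_smul]
    rfl
  simp only [Finset.sum_range_succ, Finset.range_zero, Finset.sum_empty, e0, e2, eT] at t
  rw [← g0, ← gT, t]
  have b := intervalIntegral.norm_integral_le_of_norm_le_const (a := 0) (b := T) (C := C * T ^ 2)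
    (f := fun t => iDn (fun _ => 1) (sgm M M1) 0 (2 + 1) (Sh.two j) F t * (T - t) ^ 2 /
      (Nat.factorial 2 : ℕ)) fun t ht => by
      rw [uIoc_of_le hT.1] at ht
      have c1 := hC t ⟨ht.1.le, ht.2.trans hT.2⟩
      have c2 : (T - t) ^ 2 ≤ T ^ 2 := pow_le_pow_left₀ (sub_nonneg.2 ht.2) (by linarith [ht.1]) 2
      rw [Real.norm_eq_abs] at c1 ⊢
      rw [abs_div, abs_mul, abs_of_nonneg (sq_nonneg (T - t))]
      have c3 := mul_le_mul c1 c2 (sq_nonneg _) ((abs_nonneg _).trans c1)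
      have c4 : 0 ≤ C * T ^ 2 := mul_nonneg ((abs_nonneg _).trans c1) (sq_nonneg _)
      norm_num [Nat.factorial]
      linarith
  rw [Real.norm_eq_abs, sub_zero, abs_of_nonneg hT.1] at b
  refine le_trans (le_of_eq ?_) (b.trans_eq (by ring))
  congr 1
  norm_num [Nat.factorial]
  ring

theorem kap_split (h : Adm 1 (l2 A B m' v' m v 0)) (hv : 0 < v) :
    |kap1 (cs (l2 A B m' v' m v 0)) (A.length + 1) - 4 * (Pr.NN (l2 A B m' v' m v 0) (R339.Var.TT A + v') -
      2 * m * Pr.AA (l2 A B m' v' m v 0) (R339.Var.TT A + v'))| ≤ 15360 * (m - m') := by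
  have a := adm_suf A h
  have a1 : 0 ≤ v' + 0 := a.2.2.1
  have a2 := One15.TT_nonneg (nn_adm a.2.2.2.2.2.2)
  have a3 := One15.TT_nonneg (nn_adm (Ker.adm_pre _ h))
  obtain ⟨K, hK⟩ := jump h
  obtain ⟨α, C, hC⟩ := move h hv.le
  obtain ⟨C', hC'⟩ := gam_taylor h (σ := R339.Var.TT A + v') (v := v) (m := m) (by linarith)
    (by rw [TT_l2]; linarith) fun e e0 e1 => by
      rw [l2, add_assoc, lvr_shift A (nn_adm (Ker.adm_pre _ h)) _ (by linarith)]
      simp only [lvr]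
      rw [if_neg (by linarith), if_pos (by linarith)]
  set κ := kap1 (cs (l2 A B m' v' m v 0)) (A.length + 1)
  set G2 := Pr.NN (l2 A B m' v' m v 0) (R339.Var.TT A + v') -
    2 * m * Pr.AA (l2 A B m' v' m v 0) (R339.Var.TT A + v')
  have c := coef (α := α - (Pr.GG (l2 A B m' v' m v 0) (R339.Var.TT A + v') + K) * v)
    (β := (v / 2) ^ 2 * κ - G2 * v ^ 2) (C := C + C' * v ^ 3) (D := 640 * (m - m') * v ^ 2)
    fun T hT => by
      have e0 : 0 ≤ T * v := mul_nonneg hT.1.le hv.le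
      have e1 : T * v < v := mul_lt_of_lt_one_left hv hT.2
      have b1 := abs_le.1 (hK _ e0 e1.le)
      have b2 := abs_le.1 (hC T ⟨hT.1.le, hT.2.le⟩)
      have b3 := abs_le.1 (hC' _ e0 e1)
      rw [add_zero] at b2
      rw [abs_le]
      constructor <;> nlinarith [b1.1, b1.2, b2.1, b2.2, b3.1, b3.2]
  have p : 0 < v ^ 2 / 4 := by positivity
  rw [show (v / 2) ^ 2 * κ - G2 * v ^ 2 = (κ - 4 * G2) * (v ^ 2 / 4) by ring, abs_mul,
    abs_of_pos p] at c
  refine le_of_mul_le_mul_right (c.trans_eq (by ring)) p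

end split

/-- **E-f, normalised kernel** -/
theorem kap1_eq (H : List.Forall₂ (Rk1 spin) L ℓ) (h : Adm 1 ℓ) {j : ℕ} (h1 : 1 ≤ j)
    (hj : j < ℓ.length) (hv : 0 < ℓ[j].2) :
    |kap1 L j - 4 * (Pr.NN ℓ (R339.Var.TT (ℓ.take j)) - 2 * ℓ[j].1 * Pr.AA ℓ (R339.Var.TT (ℓ.take j)))| ≤
      15360 * dm L 0 j := by
  obtain ⟨i, rfl⟩ : ∃ i, j = i + 1 := ⟨j - 1, by omega⟩
  have hi : i < ℓ.length := by omega
  have e : ℓ = l2 (ℓ.take i) (ℓ.drop (i + 2)) ℓ[i].1 ℓ[i].2 ℓ[i + 1].1 ℓ[i + 1].2 0 := by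
    rw [l2, add_zero, sub_zero]
    conv_lhs => rw [← List.take_append_drop i ℓ, List.drop_eq_getElem_cons hi,
      List.drop_eq_getElem_cons hj]
  have len : (ℓ.take i).length = i := List.length_take_of_le hi.le
  have k := kap_split (e ▸ h) hv
  have t := tk_l2_node (ℓ.take i) (ℓ.drop (i + 2)) ℓ[i].1 ℓ[i].2 ℓ[i + 1].1 ℓ[i + 1].2 0
  have d := dm_l2 (ℓ.take i) (ℓ.drop (i + 2)) ℓ[i].1 ℓ[i].2 ℓ[i + 1].1 ℓ[i + 1].2 0
  rw [← e, len] at k t d
  rw [add_zero] at t
  have tl : L.map Lv.m = (cs ℓ).map Lv.m := (tilt_of H).trans (tilt_of (rk_cs h)).symm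
  rw [← t, ← d, ← Cav22.dm_tilt tl] at k
  rw [kap1, Dop_tilt tl, TEf_same w1 (same_of H (rk_cs h))]
  exact k

end Crest.Agent.T156.Cas.Ef49

end
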