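import Crest.Agent.T156.TL2D_63
import Crest.Agent.T156.SprL_11

/-!
# Row 156 (helper91): location of the END model, statements
-/

set_option autoImplicit false

noncomputable section

namespace Crest.Agent.T156.Alt.En91

open Real Finset
open Crest.Agent.T156.Alt.L69

/-- facts on the END model -/
structure Fe (K : ℝ) (p : Pm) (P : Pl) (S : Sc) (M : Md) : Prop where
  cl : Cl S M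
  cei : Cei S M
  eC : S.C = K
  eA : S.A = p.A
  en : S.n = p.n
  ea : S.amax = p.am
  em : S.ms = p.ms 1 p.ye
  eF : S.F = 1
  e0 : S.j0 = p.jf
  el : S.jl = p.jf
  eJ : S.J = p.J
  eP : S.Jp = p.Jp P
  HJ : M.H S.Jp ≤ S.C
  sj : M.s S.jl ≤ 2 * (p.s * (p.n : ℝ) ^ (p.c / 13 - 1 / 6))
  G0 : ∀ k, S.jl < k → M.G k = 0
  mesh : ∀ k, S.J ≤ k → k < S.Jp → M.z k - M.z (k - 1) ≤ (p.n : ℝ) ^ (-(2 : ℝ))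
  ue : S.ue ≤ (p.n : ℝ) ^ (-(2 : ℝ))
  u0 : (p.n : ℝ) ^ (-(7 / 20) - p.c) ≤ S.u0 ∧ S.u0 ≤ (p.n : ℝ) ^ (-(1 / 3 : ℝ))
  d1 : ∀ k, S.J ≤ k → k ≤ S.Jp → S.ue ≤ du M k →
    (p.n : ℝ) ^ (-(7 / 20) - p.c) ≤ S.den (M.z (k - 1)) * ds M S k
  d3 : ∀ k, S.J ≤ k → k ≤ S.Jp →
    S.den (M.z (k - 1)) * du M k ≤ du M k + (p.n : ℝ) ^ (-(7 / 20 : ℝ))
  rev : ∃ k1, S.Jp ≤ k1 ∧ k1 ≤ M.N ∧ 1 / S.C ≤ ((k1 : ℝ) - S.Jp) * S.v ∧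
    ∀ k, S.Jp ≤ k → k < k1 → S.θ * S.v / (S.C * S.F) ≤ M.H (k + 1) - M.H k
  spr : M.s S.Jp - M.s S.J ≤ (p.n : ℝ) ^ (-(7 / 20 : ℝ))

section num
variable (p : Pm)
/-- the numbers of the call (`X = Xp = nx ^ 3`, `Vt = 1`, `Lp = nL ^ 3`, `u1 = u2 = nu`, `G1 = g = 0`,
`ℓ = ye`, `X4 = nN`, `η = ne`) -/
def nx : ℝ := p.s * (p.n : ℝ) ^ (2 / 3 * p.c - 1 / 6)
def nl0 : ℝ := p.s * (p.n : ℝ) ^ (3 / 2 * p.c - 1 / 6)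
def nl : ℝ := p.s * (p.n : ℝ) ^ (9 * p.c - 1 / 6)
def nL : ℝ := (p.n : ℝ) ^ (p.c / 3)
def nX2 : ℝ := p.s ^ 3 * (p.n : ℝ) ^ (5 * p.c - 1 / 2)
def nX3 : ℝ := p.s ^ 3 * (p.n : ℝ) ^ (3 * p.c - 1 / 2)
def nG : ℝ := (p.n : ℝ) ^ (-(1 / 3 : ℝ))
def ne : ℝ := p.s ^ 3 * (p.n : ℝ) ^ (4 * p.c - 1 / 2)
def nu : ℝ := (p.n : ℝ) ^ (10 * p.c - 13 / 20)
def nj : ℝ := (p.n : ℝ) ^ (-(1 / 6 : ℝ))
def nγ : ℝ := (p.n : ℝ) ^ (-(7 / 20 : ℝ))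
def nLc : ℝ := (p.n : ℝ) ^ (1 / 7 : ℝ)
def nη : ℝ := p.s ^ 3 * (p.n : ℝ) ^ (-(9 / 20 : ℝ))
def nτ : ℝ := p.s * (p.n : ℝ) ^ (-(3 / 10 : ℝ))
def nN : ℝ := p.s ^ 4 * (p.n : ℝ) ^ (12 * p.c - 13 / 20)
def nt : ℝ := (p.n : ℝ) ^ (-(5 * p.c))
def nE : ℝ := p.s ^ 4 * (p.n : ℝ) ^ (13 * p.c - 13 / 20)
def np : ℝ := p.s ^ 2 * (p.n : ℝ) ^ (9 * p.c - 13 / 40)
end num

/-- (plateau numbers) -/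
def LPS : Prop := ∀ (β c0 C0 : ℝ) (A : ℕ) (c η K₀ : ℝ) (p : Pm), Reg β c0 C0 A c η K₀ p →
  c ≤ 1 / 100000 → 1000 * η ≤ c → ∀ (K : ℝ) (P : Pl) (S : Sc) (M : Md), K ≤ (p.n : ℝ) ^ η →
  Fe K p P S M → ∀ E : ℝ, 1 ≤ E → E ≤ (p.n : ℝ) ^ (c / 100) →
  LP E S M (nx p ^ 3) 1 (nL p) (nL p ^ 3) (nX2 p) (nX3 p) (nG p) 0 (nu p) (nu p) (nj p) (nγ p)
    (nLc p) (nη p) (nτ p) (fun _ => ne p) (nN p)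

/-- (facts) -/
def FeS (β : ℝ) : Prop := Cst β fun K p => 5 ≤ p.A → ∀ P, p.SpOk (7 / 20) P →
  ∃ S, Fe K p P S (p.tst P p.ye)

/-- (output of SR) -/
def SrE (β : ℝ) : Prop := Sml β fun _ p => ∀ P, p.SpOk (7 / 20) P → ∀ m a, p.InW m a →
  p.ph2 P (p.tst P p.ye) m a ≤ p.s ^ 3 * (p.n : ℝ) ^ (2 * p.c - 1 / 2)

/-- **location of the END model** -/
structure LocE (p : Pm) (P : Pl) (M : Md) (m : ℕ) (a : ℝ) : Prop where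
  sup : ∀ k, 2 * (p.s * (p.n : ℝ) ^ (9 * p.c - 1 / 6)) ≤ M.s k → M.s k + p.ye ≤ M.s p.J →
    |M.del m a k| ≤ (p.n : ℝ) ^ (13 * p.c) *
      (p.s ^ 3 * (p.n : ℝ) ^ (-(1 / 2 : ℝ)) / M.s k ^ 2 + p.s ^ 2 * (p.n : ℝ) ^ (-(13 / 40 : ℝ)))
  top : ∑ k ∈ (Ioc p.jf (p.Jp P)).filter fun k => p.ye ≤ M.s k,
    (M.z k - M.z (k - 1)) * M.del m a k ^ 2 ≤ p.s ^ 4 * (p.n : ℝ) ^ (22 * p.c - 13 / 20)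
  qua : ∑ k ∈ (Ioo p.jf p.J).filter fun k => p.ye ≤ M.s k,
    (M.z k - M.z (k - 1)) * M.del m a k ^ 4 ≤ p.s ^ 4 * (p.n : ℝ) ^ (22 * p.c - 13 / 20)

def LocS (β : ℝ) : Prop := Sml β fun _ p => ∀ P, p.SpOk (7 / 20) P → ∀ m a, p.InW m a →
  LocE p P (p.tst P p.ye) m a

end Crest.Agent.T156.Alt.En91

end
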