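import Crest.Agent.T156.SprFa_59

/-!
# Row 156, R2 (helper13): the member facts of the END model
-/

set_option autoImplicit false

noncomputable section

namespace Crest.Agent.T156.Alt

open Real Set Filter Topology
open Plt13 Mem37 Fa59

/-- facts on the END model `M = p.tst P p.ye` (`Fa K 0` with the clock lines of the pure spread) -/
structure Fe0 (K : ℝ) (p : Pm) (P : Pl) (S : Sc) (M : Md) : Prop where
  cl : Cl S M
  cei : Cei S M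
  eC : S.C = 8 * K ^ 2
  eA : S.A = p.A
  en : S.n = p.n
  ev : S.v = p.v
  ea : S.amax = p.am
  em : S.ms = p.ms 1 p.ye
  eF : S.F = 1
  e0 : S.j0 = p.jf
  el : S.jl = p.jf
  eJ : S.J = p.J
  eP : S.Jp = p.Jp P
  ex : M.z (S.J - 1) = p.xs
  HJ : M.H S.Jp ≤ S.C
  sj : M.s S.jl ≤ 2 * (p.s * (p.n : ℝ) ^ (p.c / 13 - 1 / 6))
  gr : ∀ t, M.s S.jl < t → S.gr t = 0
  g2 : S.g2 = 0
  G : ∀ k, S.jl < k → M.G k = 0
  mesh : ∀ k, S.J ≤ k → k < S.Jp → M.z k - M.z (k - 1) ≤ (p.n : ℝ) ^ (-(2 : ℝ))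
  ue : S.ue = (p.n : ℝ) ^ (-(2 : ℝ))
  u0 : S.u0 = 64 * (p.n : ℝ) ^ (-(7 / 20 : ℝ)) / p.lL
  u0' : (p.n : ℝ) ^ (-(71 / 200 : ℝ)) ≤ S.u0 ∧ S.u0 ^ 3 ≤ p.la p.μe ^ 2
  u1 : (p.n : ℝ) ^ (-(7 / 20) - p.c) ≤ S.u0 ∧ S.u0 ≤ (p.n : ℝ) ^ (-(69 / 200 : ℝ))
  n2 : (2 : ℝ) ≤ p.n
  lL : 6 ≤ p.lL ∧ p.lL ≤ 18 * log p.n ∧ 2 * p.lL ≤ (p.n : ℝ) ^ p.c
  ck : M.ck S.Jp - M.ck S.J ≤ K * log p.n
  den : ∀ x, S.den x = (p.n : ℝ) ^ (-(7 / 20 : ℝ)) * p.ld ((p.n : ℝ) ^ (-(7 / 20 : ℝ))) x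
  d1 : ∀ x, p.xs ≤ x → (p.n : ℝ) ^ (-(3 : ℝ)) ≤ 1 - x →
    (p.n : ℝ) ^ (-(7 / 20 : ℝ)) / (2 * p.lL) ≤ S.den x * min (x - p.xs + S.u0) (1 - x) ∧
      S.den x * min (x - p.xs + S.u0) (1 - x) ≤ (p.n : ℝ) ^ (-(7 / 20 : ℝ))
  d1' : ∀ x, p.xs ≤ x → S.ue ≤ 1 - x →
    (p.n : ℝ) ^ (-(7 / 20 : ℝ) - p.c) ≤ S.den x * min (x - p.xs + S.u0) (1 - x)
  d3 : ∀ x, p.xs ≤ x → x < 1 → S.den x ≤ 1 + (p.n : ℝ) ^ (-(7 / 20 : ℝ)) / (1 - x)
  rev : ∃ k1, S.Jp ≤ k1 ∧ k1 ≤ M.N ∧ 1 / S.C ≤ ((k1 : ℝ) - S.Jp) * S.v ∧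
    ∀ k, S.Jp ≤ k → k < k1 → S.θ * S.v / (S.C * S.F) ≤ M.H (k + 1) - M.H k
  spr : M.s S.Jp - M.s S.J ≤ (p.n : ℝ) ^ (-(7 / 20 : ℝ))
  θ : S.θ = p.μe
  dj : 1 ≤ S.C * S.den (M.z (S.J - 1)) ∧ S.den (M.z (S.J - 1)) ≤ S.C

namespace Fe13

variable {p : Pm} {K c0 C0 η : ℝ} {Q : Pl}

theorem fe_gen (N : AlN K c0 C0 η p) (hP : p.SpOk (7 / 20) Q) (A : AlM K c0 C0 0 p Q)
    (hA : 1 ≤ p.A) (hs : 1 ≤ p.s) (hc : 0 ≤ p.c)
    (ms : ∀ i < Q.I, Q.x (i + 1) - Q.x i ≤ (p.n : ℝ) ^ (-(2 : ℝ)))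
    (l1 : 2 * p.lL ≤ (p.n : ℝ) ^ p.c) (l2 : 2 * p.lL ≤ (p.n : ℝ) ^ (1 / 200 : ℝ)) :
    Fe0 K p Q (p.alS K 0 Q) (p.tst Q p.ye) := by
  have D := alD_spOk N hP
  have h := N.nm
  have m := A.mem
  have G := m.geo
  have jJ := m.jlJ
  have K1 := N.K1
  have l1' := h.l1
  have np := h.np
  have n1 : (1 : ℝ) ≤ p.n := by linarith [h.n2]
  have n1' : 1 ≤ p.n := by exact_mod_cast n1
  have v0 := h.v0
  have xI := N.x_lt D le_rfl
  have JJ := J_le (p := p) (P := Q)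
  have eγ := hP.g'
  set γ := (p.n : ℝ) ^ (-(7 / 20 : ℝ)) with hγ
  have γ0 : 0 < γ := rpow_pos_of_pos np _
  have eU : p.alU Q.γ = p.l0' γ := by rw [eγ]; exact if_neg γ0.ne'
  have eU' : p.alU Q.γ = 64 * γ / p.lL := by
    rw [eU]
    refine p.l0'_eq ((one_div_le_one_div_of_le np (by linarith)).trans ?_)
    rw [one_div, ← rpow_neg_one]
    exact rp_le' h (by norm_num)
  have L0 := p.lL_pos
  have L6 := p.lL_ge
  have w := p.l0'_pos γ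
  have eD : ∀ x, p.alDen 0 Q.γ x = γ * p.ld γ x := fun x => by
    rw [Pm.alDen, zero_mul, zero_add, eγ]
  have q0 : 0 < (p.n : ℝ) ^ (-(71 / 200 : ℝ)) := rpow_pos_of_pos np _
  have q : (p.n : ℝ) ^ (-(71 / 200 : ℝ)) * (2 * p.lL) ≤ γ := by
    refine (mul_le_mul_of_nonneg_left l2 q0.le).trans_eq ?_
    rw [← rpow_add np]; norm_num [hγ]
  have d1 : ∀ x, p.xs ≤ x → (p.n : ℝ) ^ (-(3 : ℝ)) ≤ 1 - x →
      γ / (2 * p.lL) ≤ p.alDen 0 Q.γ x * min (x - p.xs + p.alU Q.γ) (1 - x) ∧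
        p.alDen 0 Q.γ x * min (x - p.xs + p.alU Q.γ) (1 - x) ≤ γ := fun x a b => by
    obtain ⟨c, d⟩ := p.ld_min γ a ((p.l1'_le3 n1').trans b)
    rw [eD, eU, mul_assoc]
    refine ⟨?_, mul_le_of_le_one_right γ0.le (d.trans ?_)⟩
    · rw [div_eq_mul_one_div]; exact mul_le_mul_of_nonneg_left c γ0.le
    · rw [div_le_one L0]; linarith
  have ex : (p.tst Q p.ye).z ((p.alS K 0 Q).J - 1) = p.xs := by
    show p.zP Q (max (p.J - 1) p.jf) = p.xs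
    rw [max_eq_left (by omega), zP_lo (by omega)]; rfl
  have d3 : ∀ x, p.xs ≤ x → x < 1 → p.alDen 0 Q.γ x ≤ 1 + γ / (1 - x) := fun x a b => by
    rw [eD]
    have u : 0 < 1 / (1 - x) := one_div_pos.2 (by linarith)
    have d := mul_le_mul_of_nonneg_left (p.ld_le γ a b) γ0.le
    have e1 : γ * (1 / (x - p.xs + p.l0' γ)) / p.lL ≤ 1 / 64 := by
      rw [mul_one_div, div_div, div_le_div_iff₀ (mul_pos (by linarith) (by linarith)) (by norm_num)]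
      nlinarith [p.γ_l0' γ, mul_nonneg (sub_nonneg.2 a) p.lL_pos.le]
    have e2 : γ * (1 / (1 - x)) / p.lL ≤ γ * (1 / (1 - x)) :=
      div_le_self (by positivity) (by linarith)
    have e3 : γ * ((1 / (x - p.xs + p.l0' γ) + 1 / (1 - x)) / p.lL) =
      γ * (1 / (x - p.xs + p.l0' γ)) / p.lL + γ * (1 / (1 - x)) / p.lL := by ring
    have e4 : γ / (1 - x) = γ * (1 / (1 - x)) := by ring
    linarith
  have dj : 1 ≤ 8 * K ^ 2 * p.alDen 0 Q.γ p.xs ∧ p.alDen 0 Q.γ p.xs ≤ 8 * K ^ 2 := by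
    have K0 : 0 < K := by linarith
    have k0 := one_div_pos.2 K0
    have x2 := N.x2
    have x1 : p.xs < 1 := by linarith
    have d0 : 0 ≤ p.alDen 0 Q.γ p.xs := (A.cl.den0 _).le
    constructor
    · have a : (p.n : ℝ) ^ (-(3 : ℝ)) ≤ 1 / p.n := by
        rw [one_div, ← rpow_neg_one]; exact rp_le' h (by norm_num)
      have b := (d1 p.xs le_rfl (by linarith [h.x1])).1.trans
        (mul_le_mul_of_nonneg_left (min_le_left _ _) d0)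
      rw [sub_self, zero_add, eU', ← mul_div_assoc, div_le_div_iff₀ (by linarith) L0] at b
      have c : 1 ≤ 128 * p.alDen 0 Q.γ p.xs :=
        le_of_mul_le_mul_right (by linarith) (mul_pos γ0 L0)
      nlinarith [mul_le_mul_of_nonneg_right (show 128 ≤ 8 * K ^ 2 by nlinarith) d0]
    · have a : γ ≤ 1 := rpow_le_one_of_one_le_of_nonpos n1 (by norm_num)
      have b : γ / (1 - p.xs) ≤ K := by
        rw [div_le_iff₀ (by linarith)]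
        have := mul_le_mul_of_nonneg_left (show 1 / K ≤ 1 - p.xs by linarith) K0.le
        rw [mul_one_div_cancel K0.ne'] at this
        linarith
      nlinarith [d3 p.xs le_rfl x1]
  refine ⟨A.cl, A.cei, rfl, rfl, rfl, rfl, rfl, rfl, rfl, rfl, rfl, rfl, rfl, ex, ?_, ?_,
    fun t ht => if_neg (not_le.2 ht), ?_, fun k hk => ?_, fun k a b => ?_, rfl, eU', ?_, ?_, h.n2,
    ⟨L6, p.lL_le h.n2, l1⟩, ?_, eD, d1, fun x a b => ?_, d3,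
    ⟨p.NP Q, Nat.le_add_right _ _, le_rfl, ?_, fun k a b => ?_⟩, ?_, A.m1, ex ▸ dj⟩
  · show p.HO Q _ (p.b 1 p.ye + 0) (p.Jp Q) + 0 ≤ 8 * K ^ 2
    rw [MemD.H_hi (by omega), hP.hs]
    have e := mul_nonneg (show 0 ≤ p.b 1 p.ye + 0 by linarith [m.b0])
      (Gam_nn (p.lO Q (p.om 1 p.ye)) (p.sO Q (p.om 1 p.ye) (p.Jp Q)))
    unfold Pr.Spr41.mk
    simp only [Pi.zero_apply]
    nlinarith [m.sT]
  · show p.sO Q (p.om 1 p.ye) p.jf ≤ _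
    have X : 1 / p.n ≤ p.s * (p.n : ℝ) ^ (p.c / 13 - 1 / 6) := by
      refine le_trans ?_ (le_mul_of_one_le_left (by positivity) hs)
      rw [one_div, ← rpow_neg_one]
      exact rpow_le_rpow_of_exponent_le n1 (by linarith)
    have X0 := (one_div_pos.2 np).trans_le X
    have h2 := (Nat.ceil_lt_add_one (div_pos X0 v0).le).le
    rw [div_add_one v0.ne', le_div_iff₀ v0] at h2
    rw [sP_lo (by omega)]
    have := G.hom.nn p.jf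
    unfold Pr.sig Pm.jf at *
    linarith [h.vn]
  · show p.alG2 K 0 = 0
    simp [Pm.alG2]
  · rw [Pm.tst_eq, m.G_hi hk, hP.hs]; rfl
  · obtain ⟨i, rfl⟩ := Nat.exists_eq_add_of_le a
    have hi : i < Q.I := Nat.lt_of_add_lt_add_left b
    change p.zP Q (max (p.J + i) p.jf) - p.zP Q (max (p.J + i - 1) p.jf) ≤ _
    rw [max_eq_left (by omega), max_eq_left (by omega), G.zP_x hi.le,
      show p.J + i = p.J + (i + 1) - 1 from rfl, G.zP_x hi]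
    exact ms i hi
  · show _ ≤ p.alU Q.γ ∧ p.alU Q.γ ^ 3 ≤ _
    rw [eU]
    constructor
    · refine le_of_mul_le_mul_right (q.trans ?_) (by linarith : 0 < 2 * p.lL)
      nlinarith [p.γ_l0' γ, mul_pos L0 w]
    · rw [← u0_cube h]
      exact pow_le_pow_left₀ w.le (N.l0'_le le_rfl) 3
  · show _ ≤ p.alU Q.γ ∧ p.alU Q.γ ≤ _
    rw [eU', rpow_sub np, show (-(69 / 200) : ℝ) = 1 / 200 + -(7 / 20) by norm_num, rpow_add np]
    constructor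
    · rw [div_le_div_iff₀ (by positivity) L0]
      exact (mul_le_mul_of_nonneg_left (show p.lL ≤ 64 * (p.n : ℝ) ^ p.c by linarith) γ0.le).trans_eq
        (by ring)
    · rw [div_le_iff₀ L0]
      nlinarith [mul_le_mul l2 L6 (by norm_num) (by positivity)]
  · show p.qO Q _ (p.Jp Q) + Q.rs (p.xP Q (p.Jp Q)) - (p.qO Q _ p.J + Q.rs (p.xP Q p.J)) ≤ _
    rw [hP.rs]
    have b : p.qO Q (p.om 1 p.ye) (p.Jp Q) ≤ 1 := Pp.Ode3.Gam_le_one _ _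
    have c : 0 ≤ p.qO Q (p.om 1 p.ye) p.J := Gam_nn _ _
    simp only [Pi.zero_apply]
    nlinarith
  · refine le_trans ?_ (d1 x a ((rp_le' h (by norm_num)).trans b)).1
    rw [rpow_sub np]
    exact div_le_div_of_nonneg_left γ0.le (by linarith) l1
  · show 1 / (8 * K ^ 2) ≤ (((p.Jp Q + p.Nr : ℕ) : ℝ) - (p.Jp Q : ℕ)) * p.v
    have n3 : 3 ≤ p.n := by
      by_contra hh
      have a : (p.n : ℝ) ≤ 2 := by exact_mod_cast (by omega : p.n ≤ 2)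
      have b := log_le_sub_one_of_pos np
      nlinarith [N.lg, N.C1]
    have := p.one_le_Nr v0 hA n3
    push_cast
    rw [add_sub_cancel_left]
    exact le_trans ((div_le_one (by positivity)).2 (by nlinarith)) this
  · have c := A.rev k a b
    show p.ms 1 p.ye 1 * p.v / (8 * K ^ 2 * 1) ≤
      p.HO Q _ (p.b 1 p.ye + 0) (k + 1) + 0 - (p.HO Q _ (p.b 1 p.ye + 0) k + 0)
    change _ ≤ p.HO Q _ (p.b 1 p.ye + 0) (k + 1) + 0 - (p.HO Q _ (p.b 1 p.ye + 0) k + 0) at c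
    rw [A.m1, mul_one, mul_div_right_comm]
    have := mul_le_mul_of_nonneg_right (div_le_div_of_nonneg_left N.μ0.le m.K0 m.KC) v0.le
    linarith
  · show p.sO Q _ (p.Jp Q) - p.sO Q _ p.J ≤ _
    linarith [G.sP_Jp_le, G.sP_J, D.g1]

end Fe13

/-- the facts on the END model -/
def FeE (K : ℝ) (p : Pm) : Prop := 5 ≤ p.A → ∀ P, p.SpOk (7 / 20) P →
  Fe0 K p P (p.alS K 0 P) (p.tst P p.ye)

theorem feE {β : ℝ} (hβ : 1 < β) : Cst β FeE := by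
  intro c0 C0 hc0 hC0
  obtain ⟨K, K1, H⟩ := memAl β hβ c0 C0 hc0 hC0
  refine ⟨K, K1, fun A hA c hc hc' => ?_⟩
  obtain ⟨K', H'⟩ := fin_ne hβ (show (1:ℝ) / 3 ≤ 7 / 20 by norm_num) (by norm_num) c0 C0 c hc0 hC0 hc
  filter_upwards [H K le_rfl A hA c hc hc', ev_Big K' one_pos,
    ev_log 36 (show (0:ℝ) < 1 / 200 by norm_num), ev_log 36 hc]
    with n h hB hl hl' p e1 e2 e3 e4 hp A5 P hP
  obtain ⟨N, M⟩ := h p e1 e2 e3 e4 hp
  have E := H' p e4 A5 ⟨e1, hp, hc0, hC0, e3 ▸ hA, e4 ▸ hc, e4 ▸ hc', one_pos, e2 ▸ hB⟩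
  rw [← e2] at hl hl'
  rw [← e4] at hl'
  have L := p.lL_le N.nm.n2
  exact Fe13.fe_gen N hP (M _ _ (alD_spOk N hP)) (by omega) hp.s1 (e4 ▸ hc.le)
    (E.alOk_of_spOk hP).ms (le_trans (by linarith) hl') (le_trans (by linarith) hl)

end Crest.Agent.T156.Alt

end
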