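import Crest.Agent.T156.EnFs_13

/-!
# Row 156 (helper91): the END model, facts with the junction
-/

set_option autoImplicit false

noncomputable section

namespace Crest.Agent.T156.Alt.En91

open Real Filter Plt13 Mem37 Fa59

/-- (facts with the junction) -/
def FeJ (β : ℝ) : Prop := Cst β fun K p => 5 ≤ p.A → ∀ P, p.SpOk (7 / 20) P →
  ∃ S, Fe K p P S (p.tst P p.ye) ∧ 1 ≤ S.C * S.den ((p.tst P p.ye).z (S.J - 1)) ∧
    S.den ((p.tst P p.ye).z (S.J - 1)) ≤ S.C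

theorem fe_dj {K : ℝ} {p : Pm} {P : Pl} {S : Sc} {M : Md} (h : Fe0 K p P S M) (K1 : 500 ≤ K)
    (x2 : p.xs ≤ 1 - 1 / K) : 1 ≤ S.C * S.den (M.z (S.J - 1)) ∧ S.den (M.z (S.J - 1)) ≤ S.C := by
  have K0 : 0 < K := by linarith
  have n2 := h.n2
  have xs1 : p.xs < 1 := by linarith [one_div_pos.2 K0]
  have g1 : (p.n : ℝ) ^ (-(7 / 20 : ℝ)) ≤ 1 :=
    rpow_le_one_of_one_le_of_nonpos (by linarith) (by norm_num)
  have g2 : 1 / ((p.n : ℝ) + 1) ≤ (p.n : ℝ) ^ (-(7 / 20 : ℝ)) := by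
    refine (one_div_le_one_div_of_le (by linarith) (by linarith : (p.n : ℝ) ≤ p.n + 1)).trans ?_
    rw [one_div, ← rpow_neg_one]
    exact rpow_le_rpow_of_exponent_le (by linarith) (by norm_num)
  rw [h.ex, h.eC]
  constructor
  · have a := ld_xs xs1 g2
    rw [← h.den] at a
    nlinarith [mul_le_mul_of_nonneg_left a (show 0 ≤ 8 * K ^ 2 by positivity)]
  · have a : (p.n : ℝ) ^ (-(7 / 20 : ℝ)) / (1 - p.xs) ≤ K := by
      rw [div_le_iff₀ (by linarith)]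
      rw [le_sub_comm, div_le_iff₀ K0] at x2
      linarith
    nlinarith [h.d3 _ le_rfl xs1]

theorem feJ {β : ℝ} (hβ : 1 < β) : FeJ β := by
  intro c0 C0 hc0 hC0
  obtain ⟨K, K1, H⟩ := memAl β hβ c0 C0 hc0 hC0
  refine ⟨8 * K ^ 2, by nlinarith, fun A hA c hc hc' => ?_⟩
  obtain ⟨K', H'⟩ := fin_ne hβ (show (1:ℝ) / 3 ≤ 7 / 20 by norm_num) (by norm_num) c0 C0 c hc0 hC0 hc
  filter_upwards [H K le_rfl A hA c hc hc', ev_Big K' one_pos,
    ev_log 36 (show (0:ℝ) < 1 / 200 by norm_num), ev_log 36 hc]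
    with n h hB hl hl' p e1 e2 e3 e4 hp A5 P hP
  obtain ⟨N, M⟩ := h p e1 e2 e3 e4 hp
  have E := H' p e4 A5 ⟨e1, hp, hc0, hC0, e3 ▸ hA, e4 ▸ hc, e4 ▸ hc', one_pos, e2 ▸ hB⟩
  rw [← e2] at hl hl'
  rw [← e4] at hl'
  have L := p.lL_le N.nm.n2
  have f := Fe13.fe_gen N hP (M _ _ (alD_spOk N hP)) (by omega) hp.s1 (e4 ▸ hc.le)
    (E.alOk_of_spOk hP).ms (le_trans (by linarith) hl') (le_trans (by linarith) hl)
  exact ⟨_, f.fe, fe_dj f N.K1 N.x2⟩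

end Crest.Agent.T156.Alt.En91

end
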