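import Crest.Agent.T156.EnFe_13
import Crest.Agent.T156.EnD_91

/-!
# Row 156, R2 (helper13): `FeS`
-/

set_option autoImplicit false

noncomputable section

namespace Crest.Agent.T156.Alt

open Real

theorem Fe0.fe {K : ℝ} {p : Pm} {P : Pl} {S : Sc} {M : Md} (h : Fe0 K p P S M) :
    En91.Fe (8 * K ^ 2) p P S M := by
  have n1 : (1 : ℝ) ≤ p.n := by linarith [h.n2]
  have x0 : ∀ k, S.J ≤ k → p.xs ≤ M.z (k - 1) := fun k hk =>
    h.ex ▸ h.cl.leg.zm (Nat.sub_le_sub_right hk 1)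
  refine ⟨h.cl, h.cei, h.eC, h.eA, h.en, h.ea, h.em, h.eF, h.e0, h.el, h.eJ, h.eP, h.HJ, h.sj, h.G,
    h.mesh, h.ue.le, ⟨h.u1.1, h.u1.2.trans (rpow_le_rpow_of_exponent_le n1 (by norm_num))⟩,
    fun k a _ c => ?_, fun k a _ => ?_, h.rev, h.spr⟩
  · unfold L69.ds L69.dl
    rw [h.ex]
    exact h.d1' _ (x0 k a) c
  · unfold L69.du
    rcases (h.cl.leg.z1 (k - 1)).eq_or_lt with e | e
    · rw [e, sub_self, mul_zero, zero_add]; positivity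
    · have u : 0 < 1 - M.z (k - 1) := sub_pos.2 e
      have := mul_le_mul_of_nonneg_right (h.d3 _ (x0 k a) e) u.le
      rwa [add_mul, one_mul, div_mul_cancel₀ _ u.ne'] at this

theorem En91.feS {β : ℝ} (hβ : 1 < β) : En91.FeS β := by
  intro c0 C0 hc0 hC0
  obtain ⟨K, K1, H⟩ := feE hβ c0 C0 hc0 hC0
  exact ⟨8 * K ^ 2, by nlinarith, fun A hA c hc hc' => (H A hA c hc hc').mono
    fun _ h p e1 e2 e3 e4 hp A5 P hP => ⟨_, (h p e1 e2 e3 e4 hp A5 P hP).fe⟩⟩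

/-- `FeS` with the junction density -/
theorem En91.feD {β : ℝ} (hβ : 1 < β) : Cst β fun K p => 5 ≤ p.A → ∀ P, p.SpOk (7 / 20) P →
    ∃ S, En91.Fe K p P S (p.tst P p.ye) ∧
      1 ≤ S.C * S.den ((p.tst P p.ye).z (S.J - 1)) ∧ S.den ((p.tst P p.ye).z (S.J - 1)) ≤ S.C := by
  intro c0 C0 hc0 hC0
  obtain ⟨K, K1, H⟩ := feE hβ c0 C0 hc0 hC0
  exact ⟨8 * K ^ 2, by nlinarith, fun A hA c hc hc' => (H A hA c hc hc').mono
    fun _ h p e1 e2 e3 e4 hp A5 P hP =>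
      ⟨_, (h p e1 e2 e3 e4 hp A5 P hP).fe, (h p e1 e2 e3 e4 hp A5 P hP).dj⟩⟩

end Crest.Agent.T156.Alt

end
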