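import Crest.Agent.T156.LoG_63

/-!
# Row 156, block (L): the global energy from the root, the bulk and the continuation (helper63)
-/

set_option autoImplicit false

noncomputable section

namespace Crest.Agent.T156.Alt.L31

open MeasureTheory Set Real
open Crest.Agent.R164.GC Crest.Agent.R339.B Crest.Agent.R339.Var Crest.Agent.T157.Pf
open Crest.Agent.T156.Cut8
open Crest.Agent.T156.Alt.Mp9 Crest.Agent.T156.Alt.L69 Crest.Agent.T156.Alt.C74

variable {S : Sc} {M : Md} {m : ℕ} {a T B c : ℝ}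

/-- smallness of the pairing constant -/
structure Th (T C c θ0 : ℝ) : Prop where
  s1 : θ0 ≤ c
  s2 : θ0 ≤ 1 / 16
  s4 : θ0 * (3 * (4096 * C ^ 2) + (1 + T ^ 2)) ≤ c / 8
  s5 : θ0 * ((1 + T ^ 2) * (1 + 16 / c)) ≤ c / 16

theorem exTh (T C : ℝ) (hc : 0 < c) : ∃ θ0, 0 < θ0 ∧ θ0 ≤ 1 ∧ Th T C c θ0 := by
  have p4 : 0 < 3 * (4096 * C ^ 2) + (1 + T ^ 2) := by positivity
  have p5 : 0 < (1 + T ^ 2) * (1 + 16 / c) := by positivity
  refine ⟨min (min c (1 / 16)) (min (c / 8 / (3 * (4096 * C ^ 2) + (1 + T ^ 2)))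
    (c / 16 / ((1 + T ^ 2) * (1 + 16 / c)))), by positivity,
    ((min_le_left _ _).trans (min_le_right _ _)).trans (by norm_num),
    (min_le_left _ _).trans (min_le_left _ _), (min_le_left _ _).trans (min_le_right _ _), ?_, ?_⟩
  · exact (le_div_iff₀ p4).1 ((min_le_right _ _).trans (min_le_left _ _))
  · exact (le_div_iff₀ p5).1 ((min_le_right _ _).trans (min_le_right _ _))

/-- the loss of the energy -/
def κE (c : ℝ) : ℝ := (7 + 17 / c) * (8 + 16 / c)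

/-- **the global energy** -/
theorem en63 (F : Fr T c B (Spl27.okT T) (lvr 1) Pr.Gam Pr.GG) (A : At S M m a T)
    {r1 r2 ω β f : ℝ → ℝ} {A0 s l' D ρ f0 θ0 Ar X0 : ℝ} {Q : ℝ → Prop} (th : Th T S.C c θ0)
    (Z : Rt T B θ0 (lvr 1 (lh M T)) (lvr 1 (lb M S m a T))
      (fun t => Pr.Gam (lb M S m a T) t - Pr.Gam (lh M T) t) (HH M S m a T) r1 r2 ω β (mm M S m a) f
      A0 s l' D ρ f0 S.C (2 * (S.C * S.v)))
    (As : A0 < s) (sJ : s < M.s S.J) (zs : ∀ t < s, lvr 1 (lb M S m a T) t ≤ M.z (S.J - 1))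
    (ls : l' ≤ s)
    (ar : ρ * ∫ t in (0 : ℝ)..l', |uu M S m a T t| ≤ Ar +
      (∫ t in A0..s, HH M S m a T t * uu M S m a T t) / 16 +
      c / 32 * ∫ t in (0 : ℝ)..s, JJ M S m a T t ^ 2) (Ar0 : 0 ≤ Ar)
    (rt : A0 * f0 + ρ ^ 2 / l' + Ar + mf S A0 * D ^ 2 * A0 ≤ X0 +
      θ0 ^ 2 * ((∫ t in (0 : ℝ)..A0, JJ M S m a T t ^ 2) + A0 * io M S m a T ^ 2))
    (hF : ∫ t in A0..s, f t ≤ X0 + ∫ t in A0..s, HH M S m a T t * uu M S m a T t)
    (hΩ : ∫ t in A0..s, ω t ^ 2 ≤ X0 + θ0 ^ 2 * ∫ t in A0..s, uu M S m a T t ^ 4)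
    (ext : Cont T (uu M S m a T) (fun t => Pr.Gam (lb M S m a T) t - Pr.Gam (lh M T) t) (r2 s) (β s)
      0 s (c / 8 * (∫ t in (0 : ℝ)..T, JJ M S m a T t ^ 2) + X0) Q)
    (hv : 4096 * S.C ^ 2 * (2 * (S.C * S.v)) ^ 2 * T ^ 3 + 8 * (2 * (S.C * S.v)) ^ 4 * T +
      6 * (2 * (S.C * S.v)) / S.C ≤ X0) :
    ∃ z, 0 ≤ z ∧ Q z ∧ ∫ t in (0 : ℝ)..T, JJ M S m a T t ^ 2 ≤ κE c * X0 ∧
      ∫ t in A0..s, HH M S m a T t * uu M S m a T t ≤ κE c * X0 ∧ z ≤ κE c * X0 ∧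
      mf S A0 * D ^ 2 * A0 ≤ κE c * X0 := by
  have hc := F.c_pos
  have θp := Z.θ0
  have hA := Z.hA
  have sT := Z.sT
  have C0 := A.c_pos
  have v0 := v_pos A.cl
  have cv := mul_pos C0 v0
  have i2 := A.cl.i2
  have T0 : 0 ≤ T := by linarith
  have lu : LB T (uu M S m a T) := A.LB_u
  have lJ : LB T (JJ M S m a T) := F.lbJ A.okh A.okb (right_mem_Icc.mpr T0)
  have l4 : LB T fun t => uu M S m a T t ^ 4 := by simpa only [← pow_mul] using lu.sq.sq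
  have X00 : 0 ≤ X0 := le_trans (by positivity) hv
  have sJ1 : M.s (S.J - 1) < M.s S.J := by
    have := s_lt A.cl (show S.J - 1 < S.J by omega)
    rwa [Nat.sub_add_cancel (by omega)] at this
  have bJ : max s (M.s (S.J - 1)) < M.s S.J := max_lt sJ sJ1
  have j1 := int_sub_le lJ.sq le_rfl le_rfl (hA.trans As.le) sT le_rfl fun _ _ _ => sq_nonneg _
  have j2 := int_sub_le lJ.sq le_rfl le_rfl hA (As.le.trans sT) le_rfl fun _ _ _ => sq_nonneg _
  have j3 := int_sub_le l4 le_rfl hA As.le le_rfl sT fun _ _ _ => by positivity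
  have j4 : 0 ≤ ∫ t in A0..s, uu M S m a T t ^ 4 :=
    intervalIntegral.integral_nonneg As.le fun _ _ => by positivity
  have pE : 0 ≤ ∫ t in (0 : ℝ)..T, JJ M S m a T t ^ 2 :=
    intervalIntegral.integral_nonneg T0 fun _ _ => sq_nonneg _
  have pH : 0 ≤ ∫ t in A0..s, HH M S m a T t * uu M S m a T t := by
    simpa using int_mono (LB.const 0) (Z.R.lH.mul lu) hA As.le sT Z.R.H_nn
  have ι2 : io M S m a T ^ 2 ≤ (T - 0) * ∫ t in (0 : ℝ)..T, JJ M S m a T t ^ 2 :=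
    Gap27.sq_int_le lJ le_rfl T0 le_rfl
  obtain ⟨z, ⟨z0, q⟩, k⟩ := F.top0 A.okb A.okh (b := max s (M.s (S.J - 1))) (K3 := 1) (Ff := X0)
    (P0 := X0) (Ω := X0 / c) (Q := fun z => 0 ≤ z ∧ Q z) hA As (le_max_left _ _)
    (bJ.le.trans A.sJ_T) C0 θp Z.lm Z.lf Z.R Z.mass (by rw [one_mul]; exact hF)
    (by linarith [th.s2]) (fun x y h1 h2 h3 => by linarith [(A.sl bJ x y h1 h2 h3).2]) Z.h0
    (fun t ht => by
      have e1 := zs t ht
      have e2 := Sc48.lvr_mono A.okh.1.1 (le_max_right s (M.s (S.J - 1)))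
      rw [A.lvh_node (by have := A.cl.i1; omega) (by omega)] at e2
      linarith) Z.D1 Z.D2 Z.ρ0 Z.ab Z.hf0 Z.num Z.l0 (ls.trans sT)
    (ar.trans (add_le_add le_rfl (mul_le_mul_of_nonneg_left j1 (by positivity)))) Ar0
    (fun H' r1' r2' ω' β' ξ' R e1 e2 => by
      obtain ⟨X, z, q, e, hX⟩ := ext.top (hA.trans_lt As) H' r1' r2' ω' β' ξ' R e1 e2
      exact ⟨X, z, q, e, hX.trans (le_of_eq (by unfold JJ; ring))⟩)
    (by
      rw [div_le_iff₀ hc, add_mul, div_mul_cancel₀ _ hc.ne']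
      refine hΩ.trans (add_le_add le_rfl ?_)
      have e1 : θ0 ^ 2 ≤ θ0 * c := by rw [sq]; exact mul_le_mul_of_nonneg_left th.s1 θp.le
      exact (mul_le_mul e1 j3 j4 (by positivity)).trans (le_of_eq (by unfold uu; ring)))
    th.s4 (by linarith [th.s2])
  change c / 8 * (∫ t in (0 : ℝ)..T, JJ M S m a T t ^ 2) +
    (∫ t in A0..s, HH M S m a T t * uu M S m a T t) / 8 + z / 4 ≤ _ at k
  generalize (∫ t in (0 : ℝ)..T, JJ M S m a T t ^ 2) = I at *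
  generalize (∫ t in A0..s, HH M S m a T t * uu M S m a T t) = Hh at *
  generalize (∫ t in (0 : ℝ)..A0, JJ M S m a T t ^ 2) = I1 at *
  generalize 4096 * S.C ^ 2 * (2 * (S.C * S.v)) ^ 2 * T ^ 3 + 8 * (2 * (S.C * S.v)) ^ 4 * T +
      6 * (2 * (S.C * S.v)) / S.C = δ at *
  have l0 := Z.l0
  have θ1 : θ0 ≤ 1 := by linarith [th.s2]
  have a1 : 0 ≤ A0 * f0 := mul_nonneg hA Z.hf0
  have a2 : 0 ≤ ρ ^ 2 / l' := by positivity
  have a3 : 0 ≤ mf S A0 * D ^ 2 * A0 :=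
    mul_nonneg (mul_nonneg (L25.mf_pos' A.cl hA).le (sq_nonneg _)) hA
  have ic : 0 < 1 / c := by positivity
  have g1 : A0 * io M S m a T ^ 2 ≤ T ^ 2 * I :=
    (mul_le_mul (As.le.trans sT) ι2 (sq_nonneg _) T0).trans (le_of_eq (by ring))
  have g2 : θ0 ^ 2 * (I1 + A0 * io M S m a T ^ 2) ≤ θ0 * ((1 + T ^ 2) * I) := by
    refine (mul_le_mul_of_nonneg_left (show _ ≤ (1 + T ^ 2) * I by linarith) (sq_nonneg _)).trans
      (mul_le_mul_of_nonneg_right (by nlinarith) (by positivity))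
  have g3 : (1 + 16 / c) * (θ0 * ((1 + T ^ 2) * I)) ≤ c / 16 * I := by
    linarith [mul_le_mul_of_nonneg_right th.s5 pE]
  have g0 : 0 ≤ θ0 * ((1 + T ^ 2) * I) := by positivity
  generalize θ0 * ((1 + T ^ 2) * I) = G at *
  have e1 : 16 * ρ ^ 2 / (c * l') = 16 * (1 / c * (ρ ^ 2 / l')) := by field_simp
  have e2 : X0 / c = 1 / c * X0 := by ring
  have e3 : 16 / c = 16 * (1 / c) := by ring
  have e4 : κE c * X0 = (8 + 16 * (1 / c)) * ((7 + 17 * (1 / c)) * X0) := by unfold κE; ring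
  rw [e1, e2] at k
  rw [e3] at g3
  rw [e4]
  have e5 : c * (1 / c) = 1 := by field_simp
  generalize 1 / c = i at *
  have b1 : θ0 * (A0 * f0 + X0 + 3 * δ) ≤ A0 * f0 + 4 * X0 :=
    (mul_le_mul_of_nonneg_left (show _ ≤ A0 * f0 + 4 * X0 by linarith) θp.le).trans
      (mul_le_of_le_one_left (by linarith) θ1)
  have b2 : i * (ρ ^ 2 / l') ≤ i * (X0 + G) := mul_le_mul_of_nonneg_left (by linarith) ic.le
  have iX : 0 ≤ i * X0 := by positivity
  have iG : 0 ≤ i * G := by positivity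
  have cI : 0 ≤ c * I := by positivity
  have fin : c / 16 * I + Hh / 8 + z / 4 ≤ (6 + 17 * i) * X0 := by linarith
  have y0 : 0 ≤ (7 + 17 * i) * X0 := by positivity
  have y1 : 0 ≤ i * ((7 + 17 * i) * X0) := by positivity
  refine ⟨z, z0, q, ?_, by linarith, by linarith, by linarith⟩
  have y2 := mul_le_mul_of_nonneg_left (show c * I ≤ 16 * ((7 + 17 * i) * X0) by linarith) ic.le
  have y3 : i * (c * I) = I := by rw [← mul_assoc, mul_comm i, e5, one_mul]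
  linarith

end Crest.Agent.T156.Alt.L31

end
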