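import Crest.Agent.T156.PlS_64
import Crest.Agent.T156.ClAp_63

/-!
# Row 156, block (L) for members with loss `F = 1` and `ms t ≤ t²` (helper11): the bulk numbers
`LN`, `L4` with a constant residual size
-/

set_option autoImplicit false
set_option linter.unusedSectionVars false

noncomputable section

namespace Crest.Agent.T156.Alt.Lt11

open Real Finset
open Crest.Agent.T156.Alt.L69 Crest.Agent.T156.Alt.Ps64

theorem geo_le {a b Y p q : ℝ} (ha : 0 ≤ a) (hb : 0 ≤ b) (h1 : a ≤ Y) (h2 : b ≤ Y) (hp : 0 < p)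
    (hq : 0 < q) (e : p + q = 1) : a ^ p * b ^ q ≤ Y := by
  have Y0 := ha.trans h1
  calc _ ≤ Y ^ p * Y ^ q :=
        mul_le_mul (rpow_le_rpow ha h1 hp.le) (rpow_le_rpow hb h2 hq.le) (by positivity)
          (by positivity)
    _ = Y := by rw [← rpow_add' Y0 (by rw [e]; norm_num), e, rpow_one]

theorem third {x : ℝ} (hx : 0 ≤ x) : (x ^ 3) ^ ((1 : ℝ) / 3) = x := by
  rw [← rpow_natCast, ← rpow_mul hx]; norm_num

theorem four3 {x : ℝ} (hx : 0 ≤ x) : (x ^ 3) ^ ((4 : ℝ) / 3) = x ^ 4 := by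
  rw [← rpow_natCast, ← rpow_mul hx, ← rpow_natCast]; norm_num

/-- pure numbers of the bulk; `μ = ms l`, `g ≥ 1 / (n μ)`, `ω³ ≥ g / l`, `X = x³` -/
structure NN (E n C μ l g ω ν x Lg X2 X3 X4 G0 e : ℝ) : Prop where
  E1 : 1 ≤ E
  l0 : 0 < l
  l1 : E * l ≤ 1
  g0 : 1 ≤ g * (n * μ)
  ω0 : 0 < ω
  ωg : g ≤ l * ω ^ 3
  ωl : ω ≤ l
  ν0 : 0 < ν
  ν1 : 1 ≤ n ^ 2 * ν ^ 3
  x0 : 0 < x
  x1 : E * x ^ 3 ≤ 1
  x43 : E * x ^ 4 ≤ μ
  g04 : E * G0 ^ 4 ≤ μ ^ 3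
  Lg0 : E ≤ Lg
  Lg1 : Lg ≤ n
  a2 : 4 * l ^ 3 ≤ X2
  b2 : 512 * C * g ^ 2 ≤ X2 ^ 3
  c2 : 2 * x ^ 3 ≤ X2
  a3 : 16 * l ^ 5 ≤ X3
  b3 : 16 * g ≤ X3
  c3 : 4 * ω * x ^ 3 ≤ X3
  ga : 4 * l ^ 3 ≤ G0
  gb : 8 * l ^ 2 * g ≤ G0 ^ 2
  eb : Lg ^ 6 * ω ^ 3 + Lg ^ 4 * (ν / l) + (√(Lg * g) + G0 + X2) * (Lg ^ 2 * ω + √X2) + X3 +
    1 / n ≤ e
  t1 : E * e ≤ μ ^ ((3 : ℝ) / 2)
  t2 : E * (Lg ^ 2 * ω) ^ 2 ≤ μ
  t3 : E * X2 ≤ μ
  t4 : E * e ≤ μ * l
  x4 : 16 * g * ω + (2 * ω) ^ ((3 : ℝ) / 2) * (x ^ 3) ^ ((7 : ℝ) / 6) ≤ X4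

/-- the facts on the member -/
structure FN (E : ℝ) (S : Sc) (M : Md) (l : ℝ) : Prop where
  cl : Cl S M
  F1 : S.F = 1
  HJ : M.H S.Jp ≤ S.C
  l0s : E * M.s S.jl ≤ l
  sub : ∀ t t', 0 ≤ t → t ≤ t' → S.ms t' ≤ S.ms t + t' ^ 2
  ml : ∀ t, l ≤ t → S.ms t ≤ t ^ 2

section

variable {E l g ω ν x Lg X2 X3 X4 G0 e : ℝ} {S : Sc} {M : Md} (h : FN E S M l)
  (N : NN E S.n S.C (S.ms l) l g ω ν x Lg X2 X3 X4 G0 e)
include h N

theorem mf_eq (t : ℝ) : mf S t = S.ms t := by rw [mf, h.F1, div_one]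

theorem cr_eq {t : ℝ} (ht : l ≤ t) : cr S t = 1 := by
  have t0 := N.l0.trans_le ht
  have m0 := h.cl.ms_pos t0.le
  rw [cr, h.F1, one_mul]
  exact max_eq_left (rpow_le_one (by positivity) ((div_le_one (by positivity)).2 (h.ml t ht))
    (by norm_num))

theorem cl_eq {t : ℝ} (ht : l ≤ t) : cl S (cr S l * l) t = t + l := by
  rw [cl, cr_eq h N ht, cr_eq h N le_rfl, one_mul, one_mul]

theorem g_pos : 0 < g := by
  have := mul_pos h.cl.N0 (h.cl.ms_pos N.l0.le)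
  by_contra c
  nlinarith [N.g0, not_lt.1 c]

theorem gg_le {t : ℝ} (ht : l ≤ t) : 0 < gg S t ∧ gg S t ≤ g := by
  have n0 := h.cl.N0
  have m0 := h.cl.ms_pos (N.l0.trans_le ht).le
  rw [gg, h.F1]
  refine ⟨by positivity, ?_⟩
  rw [div_le_iff₀ (by positivity)]
  exact N.g0.trans (mul_le_mul_of_nonneg_left (mul_le_mul_of_nonneg_left (h.cl.msm ht) n0.le)
    (g_pos h N).le)

theorem w3_eq {t : ℝ} (ht : l ≤ t) : t * S.w3 t = gg S t := by
  have n0 := h.cl.N0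
  have t0 := N.l0.trans_le ht
  have m0 := h.cl.ms_pos t0.le
  rw [Sc.w3, gg]; field_simp

theorem w3_pos {t : ℝ} (ht : l ≤ t) : 0 < S.w3 t := by
  have a := (gg_le h N ht).1
  rw [← w3_eq h N ht] at a
  exact (mul_pos_iff_of_pos_left (N.l0.trans_le ht)).1 a

theorem w3_le {t : ℝ} (ht : l ≤ t) : S.w3 t ≤ ω ^ 3 := by
  have a := (gg_le h N ht).2.trans N.ωg
  rw [← w3_eq h N ht] at a
  exact le_of_mul_le_mul_left ((mul_le_mul_of_nonneg_right ht (w3_pos h N ht).le).trans a) N.l0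

/-- `w` -/
theorem w_bd {t : ℝ} (ht : l ≤ t) : ∃ w, S.w3 t ^ ((1 : ℝ) / 3) = w ∧ 0 < w ∧ w ≤ ω ∧
    t * w ^ 3 ≤ g ∧ w ^ 2 * (S.ms t / t) ≤ ν / l ∧ 0 ≤ ws S (cr S l * l) t ∧
    ws S (cr S l * l) t ≤ 2 * w := by
  have p := w3_pos h N ht
  have t0 := N.l0.trans_le ht
  have n0 := h.cl.N0
  have m0 := h.cl.ms_pos t0.le
  have l0 := N.l0
  have ν0 := N.ν0
  have c := cube3 p.le
  set w := S.w3 t ^ ((1 : ℝ) / 3) with hw
  have w0 : 0 < w := rpow_pos_of_pos p _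
  refine ⟨w, rfl, w0, le_of_pow_le_pow_left₀ (n := 3) (by norm_num) N.ω0.le (c ▸ w3_le h N ht),
    by rw [c, w3_eq h N ht]; exact (gg_le h N ht).2, ?_, ?_, ?_⟩
  · refine le_trans (le_of_pow_le_pow_left₀ (n := 3) (by norm_num) (by positivity) ?_)
      (div_le_div_of_nonneg_left ν0.le l0 ht)
    have e1 : (w ^ 2 * (S.ms t / t)) ^ 3 = S.ms t / ((S.n : ℝ) ^ 2 * t ^ 5) := by
      have : (w ^ 2 * (S.ms t / t)) ^ 3 = (w ^ 3) ^ 2 * (S.ms t / t) ^ 3 := by ring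
      rw [this, c, Sc.w3, h.F1]; field_simp
    rw [e1, div_pow, div_le_div_iff₀ (by positivity) (by positivity)]
    have a := mul_le_mul (h.ml t ht) N.ν1 zero_le_one (sq_nonneg t)
    nlinarith [mul_le_mul_of_nonneg_right a (pow_pos t0 3).le]
  · rw [ws, cl_eq h N ht]; positivity
  · rw [ws, cl_eq h N ht]
    exact mul_le_mul_of_nonneg_right ((div_le_iff₀ t0).2 (by linarith)) w0.le

theorem cub {t : ℝ} (ht : l ≤ t) : t * ws S (cr S l * l) t ^ 3 +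
    (t * ws S (cr S l * l) t ^ 3) ^ ((1 : ℝ) / 7) *
      (ws S (cr S l * l) t * min (x ^ 3) (cl S (cr S l * l) t ^ 3)) ^ ((6 : ℝ) / 7) ≤ X3 := by
  obtain ⟨w, -, w0, w1, w2, -, s0, s1⟩ := w_bd h N ht
  have t0 := N.l0.trans_le ht
  have x0 := N.x0
  have l0 := N.l0
  have a : t * ws S (cr S l * l) t ^ 3 ≤ X3 / 2 := by
    have := mul_le_mul_of_nonneg_left (pow_le_pow_left₀ s0 s1 3) t0.le
    linarith [N.b3]
  have m0 : 0 ≤ min (x ^ 3) (cl S (cr S l * l) t ^ 3) := by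
    rw [cl_eq h N ht]; positivity
  have b : ws S (cr S l * l) t * min (x ^ 3) (cl S (cr S l * l) t ^ 3) ≤ X3 / 2 := by
    have := mul_le_mul (s1.trans (by linarith : 2 * w ≤ 2 * ω)) (min_le_left (x ^ 3) _) m0
      (by linarith [N.ω0])
    linarith [N.c3]
  linarith [geo_le (p := 1 / 7) (q := 6 / 7) (by positivity) (mul_nonneg s0 m0) a b (by norm_num)
    (by norm_num) (by norm_num)]

theorem X2_pos : 0 < X2 := by linarith [N.a2, pow_pos N.l0 3]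
theorem X3_pos : 0 < X3 := by linarith [N.b3, g_pos h N]
theorem G0_pos : 0 < G0 := by linarith [N.ga, pow_pos N.l0 3]
theorem Lg_pos : 0 < Lg := by linarith [N.E1, N.Lg0]

theorem X3_le : X3 ≤ e := by
  have := N.ω0
  have := N.ν0
  have := N.l0
  have := h.cl.N0
  have := X2_pos h N
  have := G0_pos h N
  have := Lg_pos h N
  have : 0 ≤ Lg ^ 6 * ω ^ 3 + Lg ^ 4 * (ν / l) + (√(Lg * g) + G0 + X2) * (Lg ^ 2 * ω + √X2) +
    1 / (S.n : ℝ) := by positivity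
  linarith [N.eb]

theorem e_pos : 0 < e := (X3_pos h N).trans_le (X3_le h N)

/-- **the bulk numbers** -/
theorem ln : LN E S M l l (cr S l * l) (x ^ 3) Lg X2 X3 G0 fun _ => e := by
  have l0 := N.l0
  have x0 := N.x0
  have E1 := N.E1
  have L0 := Lg_pos h N
  have e0 := e_pos h N
  have Y0 := X2_pos h N
  have m0 := h.cl.ms_pos l0.le
  have c1 := cl_eq h N le_rfl
  refine ⟨h.HJ, h.l0s, (w3_le h N le_rfl).trans (pow_le_pow_left₀ N.ω0.le N.ωl 3), le_rfl, N.l1,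
    h.sub, by rw [cr_eq h N le_rfl]; linarith, by positivity, N.x1,
    by rw [h.F1]; linarith [N.Lg0], N.Lg1,
    mul_le_mul_of_nonneg_right N.Lg0 (by rw [cr_eq h N le_rfl]; linarith), ?_,
    by rw [mf_eq h N]; exact N.g04, by rw [c1]; linarith [N.a2], fun t a b => ?_,
    by rw [c1]; linarith [N.a3], fun t a b => ?_, by rw [c1]; linarith [N.ga], fun t a b => ?_,
    fun _ _ _ => le_rfl, fun _ _ => by linarith, fun t a b => ?_,
    fun t t' a b c => (cub h N (a.trans b)).trans (X3_le h N), fun t a b => ?_, fun t a b => ?_,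
    by rw [mf_eq h N]; exact N.t3, fun t a b => ?_⟩
  · rw [four3 x0.le, mf_eq h N]
    exact N.x43
  · obtain ⟨w, -, w0, w1, w2, -, s0, s1⟩ := w_bd h N a
    have t0 := l0.trans_le a
    have u : t * ws S (cr S l * l) t ^ 2 ≤ X2 / 2 := by
      refine (mul_le_mul_of_nonneg_left (pow_le_pow_left₀ s0 s1 2) t0.le).trans
        (le_of_pow_le_pow_left₀ (n := 3) (by norm_num) (by positivity) ?_)
      have := mul_le_mul b (pow_le_pow_left₀ (by positivity) w2 2) (by positivity) h.cl.C0.le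
      nlinarith [N.b2]
    have m1 : 0 ≤ min (x ^ 3) (cl S (cr S l * l) t ^ 3) := by rw [cl_eq h N a]; positivity
    have := geo_le (p := 3 / 7) (q := 4 / 7) (by positivity) m1 u
      ((min_le_left _ _).trans (by linarith [N.c2])) (by norm_num) (by norm_num) (by norm_num)
    exact (min_le_right _ _).trans (by linarith)
  · have t0 := l0.trans_le a
    obtain ⟨w, -, -, -, -, -, s0, -⟩ := w_bd h N a
    have m1 : 0 ≤ cl S (cr S l * l) t := by rw [cl_eq h N a]; positivity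
    refine (mul_le_of_le_one_left (le_min (by positivity) (by positivity)) (min_le_left _ _)).trans
      ((min_le_right _ _).trans (cub h N a))
  · obtain rfl := le_antisymm a b
    rw [c1]
    have := mul_le_mul_of_nonneg_left (gg_le h N le_rfl).2 (show 0 ≤ 8 * l ^ 2 by positivity)
    refine le_trans (le_of_eq ?_) (this.trans N.gb)
    field_simp; ring
  · obtain ⟨w, ew, w0, w1, w2, w3, -⟩ := w_bd h N a
    have G := G0_pos h N
    have t0 := l0.trans_le a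
    have m1 := h.cl.ms_pos t0.le
    rw [uw, ew, cr_eq h N a, mul_one]
    refine le_trans ?_ N.eb
    have a1 : (Lg ^ 2 * w) ^ 2 * min (S.ms t / t) t ≤ Lg ^ 4 * (ν / l) := by
      have := mul_le_mul_of_nonneg_left ((mul_le_mul_of_nonneg_left (min_le_left (S.ms t / t) t)
        (sq_nonneg w)).trans w3) (pow_pos L0 4).le
      linarith
    have a2 : (Lg ^ 2 * w) ^ 3 ≤ Lg ^ 6 * ω ^ 3 := by
      have := mul_le_mul_of_nonneg_left (pow_le_pow_left₀ w0.le w1 3) (pow_pos L0 6).le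
      linarith
    have a3 : (√(Lg * gg S t) + G0 + X2) * (Lg ^ 2 * w + √X2) ≤
        (√(Lg * g) + G0 + X2) * (Lg ^ 2 * ω + √X2) := by
      gcongr
      exact (gg_le h N a).2
    rw [mul_one]
    linarith
  · rw [mf_eq h N]
    exact N.t1.trans (rpow_le_rpow m0.le (h.cl.msm a) (by norm_num))
  · obtain ⟨w, ew, w0, w1, -⟩ := w_bd h N a
    rw [mf_eq h N, uw, ew, cr_eq h N a, mul_one]
    refine le_trans ?_ (N.t2.trans (h.cl.msm a))
    gcongr
  · rw [mf_eq h N]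
    exact N.t4.trans (mul_le_mul (h.cl.msm a) a l0.le (m0.le.trans (h.cl.msm a)))

/-- **the quartic sum** -/
theorem l4 (T : ℝ) : L4 S (cr S l * l) (x ^ 3) l T X4 := fun t a _ => by
  obtain ⟨w, -, w0, w1, w2, -, s0, s1⟩ := w_bd h N a
  have t0 := N.l0.trans_le a
  have x0 := N.x0
  have l0 := N.l0
  have m1 : 0 ≤ min (x ^ 3) (cl S (cr S l * l) t ^ 3) := by rw [cl_eq h N a]; positivity
  refine le_trans (add_le_add ?_ ?_) N.x4
  · have b := mul_le_mul_of_nonneg_left (pow_le_pow_left₀ s0 s1 4) t0.le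
    have c := mul_le_mul w2 w1 w0.le (g_pos h N).le
    nlinarith
  · exact mul_le_mul (rpow_le_rpow s0 (by linarith) (by norm_num))
      (rpow_le_rpow m1 (min_le_left _ _) (by norm_num)) (by positivity) (by have := N.ω0; positivity)

end

end Crest.Agent.T156.Alt.Lt11

end
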