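import Crest.Agent.T156.AltMem_37
import Crest.Agent.T156.SprDef_59
import Crest.Agent.T156.SRDef_19
import Crest.Agent.T156.ClReg_29

/-!
Row 156 (helper3): the hypotheses of SR on the members of stage C (structural part).
-/

set_option autoImplicit false
set_option linter.unusedSectionVars false

noncomputable section

namespace Crest.Agent.T156.Alt

open Real Finset Filter
open Mem37 Sr

/-- `∑ dx / max (r, s)² ≤ 4 C² / r` on the sloped part -/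
theorem Cl.sum_inv {S : Sc} {M : Md} (h : Cl S M) {r : ℝ} (hr : 0 < r) :
    ∑ k ∈ Ioo S.jl S.J, M.dx k * (1 / max r (M.s k) ^ 2) ≤ 4 * S.C ^ 2 / r := by
  have C0 := h.C0
  have a : ∀ k, S.jl < k → k < S.J → M.dx k * (1 / max r (M.s k) ^ 2) ≤
      4 * S.C ^ 2 * (1 / (M.s (k - 1) + r) - 1 / (M.s k + r)) := fun k h1 h2 => by
    obtain ⟨j, rfl⟩ : ∃ j, k = j + 1 := ⟨k - 1, by omega⟩
    have i1 := h.i1
    have z := (h.zs j (by omega) h2).2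
    have s := (h.ss j (by omega)).1
    rw [div_le_iff₀ C0] at s
    have s0 := h.s_nn j
    have sm := h.sm (Nat.le_succ j)
    simp only [Nat.succ_eq_add_one] at sm
    have m0 : 0 < max r (M.s (j + 1)) := lt_max_of_lt_left hr
    have m1 := le_max_left r (M.s (j + 1))
    have m2 := le_max_right r (M.s (j + 1))
    have d : M.dx (j + 1) ≤ S.C ^ 2 * (M.s (j + 1) - M.s j) := by
      unfold Md.dx; rw [Nat.add_sub_cancel]; nlinarith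
    have e : 1 / (M.s j + r) - 1 / (M.s (j + 1) + r) =
        (M.s (j + 1) - M.s j) * (1 / ((M.s j + r) * (M.s (j + 1) + r))) := by
      have : 0 < M.s j + r := by linarith
      have : 0 < M.s (j + 1) + r := by linarith
      field_simp; ring
    have f : 1 / max r (M.s (j + 1)) ^ 2 ≤ 4 * (1 / ((M.s j + r) * (M.s (j + 1) + r))) := by
      rw [mul_one_div, div_le_div_iff₀ (by positivity) (mul_pos (by linarith) (by linarith))]
      nlinarith [mul_le_mul (show M.s j + r ≤ 2 * max r (M.s (j + 1)) by linarith)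
        (show M.s (j + 1) + r ≤ 2 * max r (M.s (j + 1)) by linarith) (by linarith) (by linarith)]
    rw [Nat.add_sub_cancel, e]
    have g := mul_le_mul d f (by positivity) (mul_nonneg (sq_nonneg _) (by linarith))
    linarith
  have b : ∀ n, S.jl + 1 ≤ n → n ≤ S.J → ∑ k ∈ Ico (S.jl + 1) n, M.dx k * (1 / max r (M.s k) ^ 2) ≤
      4 * S.C ^ 2 * (1 / r - 1 / (M.s (n - 1) + r)) := fun n hn => by
    induction n, hn using Nat.le_induction with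
    | base =>
      intro _
      rw [Ico_self, sum_empty]
      exact mul_nonneg (by positivity) (sub_nonneg.2 (one_div_le_one_div_of_le hr
        (by linarith [h.s_nn (S.jl + 1 - 1)])))
    | succ n hn ih =>
      intro h2
      rw [sum_Ico_succ_top hn, Nat.add_sub_cancel]
      linarith [ih (by omega), a n (by omega) h2]
  have c := b S.J h.i2.le le_rfl
  rw [show Ioo S.jl S.J = Ico (S.jl + 1) S.J from rfl]
  have d : 0 ≤ 4 * S.C ^ 2 * (1 / (M.s (S.J - 1) + r)) :=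
    mul_nonneg (by positivity) (one_div_nonneg.2 (by linarith [h.s_nn (S.J - 1)]))
  rw [div_eq_mul_one_div]
  linarith

theorem Cl.dx_nn {S : Sc} {M : Md} (h : Cl S M) (k : ℕ) : 0 ≤ M.dx k :=
  sub_nonneg.2 (h.leg.zm (Nat.sub_le k 1))

theorem Cl.sum_dx {S : Sc} {M : Md} (h : Cl S M) : ∑ k ∈ Ioc S.jl S.Jp, M.dx k ≤ 1 := by
  have b : ∀ n, S.jl ≤ n → ∑ k ∈ Ioc S.jl n, M.dx k = M.z n - M.z S.jl := fun n hn => by
    induction n, hn using Nat.le_induction with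
    | base => simp
    | succ n hn ih => rw [sum_Ioc_succ_top hn, ih, Md.dx, Nat.add_sub_cancel]; ring
  rw [b _ (h.jl_lt.le.trans h.i3)]
  linarith [h.leg.z1 S.Jp, h.z_pos S.jl]

/-- the members of stage C -/
abbrev Pm.cM (p : Pm) (Q : Pl) (g : ℕ → ℝ) : Md :=
  p.famO Q (p.om 1 p.ye) p.jf (p.b 1 p.ye) 0 g

namespace SrC3

/-- a member of stage C: marks `μe rs + g`, `W` bounds `∫ rs²`, `D` the size of `g`, `Γ` the
spread -/
structure Mc (K W D Γ : ℝ) (p : Pm) (Q : Pl) (g : ℕ → ℝ) (S : Sc) : Prop where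
  mem : ∃ c0 C0 η den g2 u0 ue, MemD K c0 C0 η (2 * p.ye) p Q (p.om 1 p.ye) p.jf (p.b 1 p.ye) 0
    (p.ms 1 p.ye) den g2 u0 ue
  cl : Cl S (p.cM Q g)
  cei : Cei S (p.cM Q g)
  eC : S.C = 8 * K ^ 2
  en : S.n = p.n
  eA : S.A = p.A
  eam : S.amax = p.am
  ev : S.v = p.v
  ems : S.ms = p.ms 1 p.ye
  j0 : S.j0 = p.jf
  jl : S.jl = p.jf
  eJ : S.J = p.J
  eJp : S.Jp = p.Jp Q
  eF : S.F = 1
  r0 : 0 < p.r
  ry : p.r ≤ p.ye
  y1 : p.ye ≤ 1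
  k0 : 0 < p.κ
  k1 : p.κ ≤ 1
  hs : ∀ x, Q.hs x = p.μe * Q.rs x
  top : ∀ k, p.jf < k → k ≤ p.Jp Q →
    Q.rs (p.xP Q k) = 0 ∨ p.ms 1 p.ye (p.sO Q (p.om 1 p.ye) k) = p.μe
  sum : ∑ k ∈ Ioc p.jf (p.Jp Q), (p.zP Q k - p.zP Q (k - 1)) * Q.rs (p.xP Q k) ^ 2 ≤ W
  rI : Q.rs (Q.x Q.I) ≤ 6 * log p.n
  mesh : ∀ i < Q.I, Q.x (i + 1) - Q.x i ≤ 1 / (p.n : ℝ) ^ 2
  last : 1 - Q.x Q.I ≤ 1 / (p.n : ℝ) ^ 2
  flat : p.sO Q (p.om 1 p.ye) (p.Jp Q) - p.sO Q (p.om 1 p.ye) p.J ≤ Γ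
  slo : ∀ i ≤ Q.I, Q.γ * p.lsp Q.γ (Q.x i) ≤ Q.x i - p.xs
  x1 : Q.x Q.I < 1
  D0 : 0 ≤ D
  g0 : ∀ k ≤ p.jf, g k = 0
  lo : ∀ k ≤ p.J, |g k| ≤ D * p.sO Q (p.om 1 p.ye) k
  al : ∀ k, |g k| ≤ D

/-- numbers for `SH` -/
structure Nc (E K W D Γ l Ys Y : ℝ) (p : Pm) (Q : Pl) (S : Sc) : Prop where
  E0 : 0 ≤ E
  b1 : 1 + 2 / E ≤ p.b 1 p.ye
  th1 : 2 * p.μe * log p.n ≤ 1
  flat : Γ ^ 2 ≤ Y
  dj : S.den p.xs ≤ S.C
  u0 : 0 < S.u0 ∧ S.u0 ^ 3 ≤ Y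
  ue : S.ue ≤ Y
  ckT : 1 + 6 * log p.n ≤ E
  ck : W ≤ Y
  gr : ∀ t, p.sO Q (p.om 1 p.ye) p.jf < t → S.gr t ≤ (p.n : ℝ) ^ (-(1 : ℝ) / 3) * t
  G2 : 2 * W + 2 * D ^ 2 * (4 * S.C ^ 2 / (p.κ ^ 2 * p.r) + S.C ^ 2 / p.μe ^ 2) ≤ E * Y
  g2 : S.g2 ≤ E * p.μe ^ 2 * Y
  rt : 2 * (E ^ 10 * (p.n : ℝ) ^ (-(1 : ℝ) / 6)) ≤ p.jf * p.v
  jl : p.jf * p.v ≤ l
  l3 : l ^ 3 ≤ Y
  lY : p.jf * p.v ≤ Ys
  star : E ^ 30 * (p.n : ℝ) ^ (-(1 : ℝ) / 3) ≤ p.κ * min Ys p.ye ^ 2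
  Y0 : (p.n : ℝ) ^ (-(1 : ℝ) / 2) ≤ Y
  Y1 : E ^ 200 * Y ≤ (p.n : ℝ) ^ (-(1 : ℝ) / 10)
  Y2 : Ys * (p.n : ℝ) ^ (-(1 : ℝ) / 3) ≤ Y
  Y3 : Ys * (p.jf * p.v) ^ 5 ≤ Y ^ 2
  Hd : 2 * K * D ≤ p.κ * p.r ^ 2
  Hv : 4 * K ≤ p.κ * p.r ^ 2 * p.jf

namespace Mc

variable {K W D Γ : ℝ} {p : Pm} {Q : Pl} {g : ℕ → ℝ} {S : Sc} (h : Mc K W D Γ p Q g S)
include h

theorem ms_eq (t : ℝ) : p.ms 1 p.ye t = p.κ * max p.r (min t p.ye) ^ 2 := by
  unfold Pm.ms; rw [one_mul]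

theorem μe_eq : p.μe = p.κ * p.ye ^ 2 := by unfold Pm.μe Pm.μ; rw [one_mul]

theorem μe0 : 0 < p.μe := by rw [h.μe_eq]; exact mul_pos h.k0 (pow_pos (h.r0.trans_le h.ry) 2)

theorem ms_top {t : ℝ} (ht : p.ye ≤ t) : p.ms 1 p.ye t = p.μe := by
  rw [h.ms_eq, h.μe_eq, min_eq_right ht, max_eq_right h.ry]

theorem θ_eq : S.θ = p.μe := by rw [Sc.θ, h.ems, h.ms_top h.y1]

theorem ms_zero : p.ms 1 p.ye 0 = p.κ * p.r ^ 2 := by
  rw [h.ms_eq, min_eq_left (h.r0.le.trans h.ry), max_eq_left h.r0.le]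

theorem jJ : p.jf + 1 < p.J := by obtain ⟨_, _, _, _, _, _, _, m⟩ := h.mem; exact m.jlJ

theorem dx_eq {k : ℕ} (hk : p.jf < k) : (p.cM Q g).dx k = p.zP Q k - p.zP Q (k - 1) := by
  show p.zP Q (max k p.jf) - p.zP Q (max (k - 1) p.jf) = _
  rw [max_eq_left hk.le, max_eq_left (by omega)]

theorem xs_eq : (p.cM Q g).xs S = p.xs := by
  have := h.jJ
  show p.zP Q (max (S.J - 1) p.jf) = _
  rw [h.eJ, max_eq_left (by omega), zP_lo (by omega)]; rfl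

theorem G_eq {k : ℕ} (hk : p.jf < k) : (p.cM Q g).G k = p.μe * Q.rs (p.xP Q k) + g k := by
  obtain ⟨_, _, _, _, _, _, _, m⟩ := h.mem
  have a : (if k ≤ p.jf then p.b 1 p.ye else p.b 1 p.ye + 0) * p.qO Q (p.om 1 p.ye) k +
    (p.HO Q (p.om 1 p.ye) (p.b 1 p.ye + 0) k + 0) - p.sO Q (p.om 1 p.ye) k = _ := m.G_hi hk
  rw [h.hs] at a
  show (if k ≤ p.jf then p.b 1 p.ye else p.b 1 p.ye + 0) * p.qO Q (p.om 1 p.ye) k +
    (p.HO Q (p.om 1 p.ye) (p.b 1 p.ye + 0) k + g k) - p.sO Q (p.om 1 p.ye) k = _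
  linarith

theorem s_jf : p.jf * p.v / 2 ≤ p.sO Q (p.om 1 p.ye) p.jf ∧
    p.sO Q (p.om 1 p.ye) p.jf ≤ p.jf * p.v := by
  obtain ⟨_, _, _, _, _, _, _, m⟩ := h.mem
  have j := h.jJ
  constructor
  · have := tel_ge (f := p.sO Q (p.om 1 p.ye)) (c := p.v / 2) (Nat.zero_le p.jf)
      fun k _ hk => (m.geo.ds_lo (by omega)).1
    rw [m.geo.sP_zero] at this
    push_cast at this
    linarith
  · rw [sP_lo (by omega)]
    unfold Pr.sig
    linarith [m.geo.hom.nn p.jf]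

theorem sq_ck : (p.cM Q g).sq S (fun k => (p.cM Q g).ck k - (p.cM Q g).q k) ≤ W := by
  unfold Md.sq
  rw [h.jl, h.eJp]
  refine le_of_eq_of_le (sum_congr rfl fun k hk => ?_) h.sum
  rw [h.dx_eq (mem_Ioc.1 hk).1]
  congr 2
  show p.qO Q (p.om 1 p.ye) k + Q.rs (p.xP Q k) - p.qO Q (p.om 1 p.ye) k = _
  ring

theorem dx_le {k : ℕ} (h1 : p.J ≤ k) (h2 : k ≤ p.Jp Q) :
    (p.cM Q g).dx k ≤ 1 / (p.n : ℝ) ^ 2 ∧
      (p.cM Q g).s k - (p.cM Q g).s p.J ≤ (p.cM Q g).z (k - 1) - (p.cM Q g).z (p.J - 1) := by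
  obtain ⟨_, _, _, _, _, _, _, m⟩ := h.mem
  have j := h.jJ
  obtain ⟨i, rfl⟩ := Nat.exists_eq_add_of_le h1
  have hi : i ≤ Q.I := by unfold Pm.Jp at h2; omega
  constructor
  · rw [h.dx_eq (by omega), m.geo.zP_x hi]
    rcases hi.eq_or_lt with rfl | c
    · rw [zP_hi (show p.Jp Q ≤ p.J + Q.I from le_rfl)]
      exact h.last
    · rw [show p.J + i = p.J + (i + 1) - 1 from rfl, m.geo.zP_x c]
      exact h.mesh i c
  · show p.sO Q (p.om 1 p.ye) (p.J + i) - p.sO Q (p.om 1 p.ye) p.J ≤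
      p.zP Q (max (p.J + i - 1) p.jf) - p.zP Q (max (p.J - 1) p.jf)
    rw [max_eq_left (by omega), max_eq_left (by omega), m.geo.zP_x hi, zP_lo (by omega),
      m.geo.sP_hi h1, m.geo.sP_J, m.geo.xP_x hi, Nat.sub_eq_zero_of_le h2]
    have := h.slo i hi
    unfold Pm.xs at this
    push_cast; linarith

theorem zJ : (p.cM Q g).z (S.Jp - 1) < 1 := by
  obtain ⟨_, _, _, _, _, _, _, m⟩ := h.mem
  have j := h.jJ
  have JJ := J_le (p := p) (P := Q)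
  rw [h.eJp]
  show p.zP Q (max (p.J + Q.I - 1) p.jf) < 1
  rw [max_eq_left (by omega), m.geo.zP_x le_rfl]
  exact h.x1

/-- the residual in units of the mass -/
theorem sq_G {ν : ℝ} (hν : 0 ≤ ν) :
    (p.cM Q g).sq S (fun k => (p.cM Q g).G k / (S.ms ((p.cM Q g).s k) + ν)) ≤
      2 * W + 2 * D ^ 2 * (4 * S.C ^ 2 / (p.κ ^ 2 * p.r) + S.C ^ 2 / p.μe ^ 2) := by
  obtain ⟨_, _, _, _, _, _, _, m⟩ := h.mem
  have c := h.cl
  have m0 := h.μe0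
  have k0 := h.k0
  have C1 := c.C1
  have a : ∀ k ∈ Ioc S.jl S.Jp, (p.cM Q g).dx k *
      ((p.cM Q g).G k / (S.ms ((p.cM Q g).s k) + ν)) ^ 2 ≤
      2 * ((p.zP Q k - p.zP Q (k - 1)) * Q.rs (p.xP Q k) ^ 2) + 2 * D ^ 2 * (1 / p.κ ^ 2 *
        (if k < S.J then (p.cM Q g).dx k * (1 / max p.r ((p.cM Q g).s k) ^ 2) else 0) +
        S.C ^ 2 / p.μe ^ 2 * (p.cM Q g).dx k) := fun k hk => by
    obtain ⟨k1, k2⟩ := mem_Ioc.1 hk
    have sC := c.s_le_C k2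
    have s0 := c.s_nn k
    have mp := c.ms_pos s0
    rw [h.jl] at k1
    rw [h.eJp] at k2
    rw [h.ems] at mp ⊢
    change p.sO Q (p.om 1 p.ye) k ≤ _ at sC
    change 0 ≤ p.sO Q (p.om 1 p.ye) k at s0
    change 0 < p.ms 1 p.ye (p.sO Q (p.om 1 p.ye) k) at mp
    have d0 := c.dx_nn k
    rw [h.G_eq k1, ← h.dx_eq k1]
    show _ * ((p.μe * Q.rs (p.xP Q k) + g k) / (p.ms 1 p.ye (p.sO Q (p.om 1 p.ye) k) + ν)) ^ 2 ≤
      _ + _ * (_ * (if k < S.J then _ * (1 / max p.r (p.sO Q (p.om 1 p.ye) k) ^ 2) else 0) + _)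
    set s := p.sO Q (p.om 1 p.ye) k with hs
    set w := p.ms 1 p.ye s with hw
    have w0 : 0 < w + ν := by linarith
    have a1 : (p.μe * Q.rs (p.xP Q k) / (w + ν)) ^ 2 ≤ Q.rs (p.xP Q k) ^ 2 := by
      rcases h.top k k1 k2 with e | e
      · rw [e]; simp
      · rw [mul_div_right_comm, mul_pow]
        refine mul_le_of_le_one_left (sq_nonneg _) (pow_le_one₀ (by positivity) ?_)
        rw [div_le_one w0, ← e]; linarith
    have a2 : (g k / (w + ν)) ^ 2 ≤ D ^ 2 * (1 / p.κ ^ 2 *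
        (if k < S.J then 1 / max p.r s ^ 2 else 0) + S.C ^ 2 / p.μe ^ 2) := by
      have q : ∀ {x : ℝ}, |g k| ≤ x * w → (g k / (w + ν)) ^ 2 ≤ x ^ 2 := fun {x} hx => by
        refine sq_le_sq' ?_ ?_
        all_goals
          have x0 : 0 ≤ x := nonneg_of_mul_nonneg_left ((abs_nonneg _).trans hx) mp
          have := mul_nonneg x0 hν
          first | rw [le_div_iff₀ w0] | rw [div_le_iff₀ w0]
          linarith [(abs_le.1 hx).1, (abs_le.1 hx).2]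
      have D0 := h.D0
      have t0 : 0 ≤ 1 / p.κ ^ 2 * (if k < S.J then 1 / max p.r s ^ 2 else 0) := by positivity
      rcases le_total p.ye s with e | e
      · refine (q (x := D * (S.C / p.μe)) ?_).trans ?_
        · rw [hw, h.ms_top e, mul_assoc, div_mul_cancel₀ _ m0.ne']
          exact (h.al k).trans (le_mul_of_one_le_right D0 C1)
        · rw [mul_pow, div_pow]
          exact mul_le_mul_of_nonneg_left (by linarith) (sq_nonneg _)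
      · have kJ : k < p.J := by
          by_contra hc
          have := m.geo.sP_mono (not_lt.1 hc)
          rw [m.geo.sP_J] at this
          linarith [m.geo.hY, h.r0, h.ry]
        have x0 : 0 < max p.r s := lt_max_of_lt_left h.r0
        refine (q (x := D * (1 / (p.κ * max p.r s))) ?_).trans ?_
        · rw [hw, h.ms_eq, min_eq_left e]
          refine (h.lo k kJ.le).trans ?_
          rw [mul_assoc]
          refine mul_le_mul_of_nonneg_left ((le_max_right p.r s).trans_eq ?_) D0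
          field_simp
        · rw [mul_pow, if_pos (h.eJ ▸ kJ)]
          refine mul_le_mul_of_nonneg_left (le_add_of_le_of_nonneg (le_of_eq ?_) (by positivity))
            (sq_nonneg _)
          field_simp
    have a3 : ((p.μe * Q.rs (p.xP Q k) + g k) / (w + ν)) ^ 2 ≤ 2 * Q.rs (p.xP Q k) ^ 2 +
        2 * (D ^ 2 * (1 / p.κ ^ 2 * (if k < S.J then 1 / max p.r s ^ 2 else 0) +
          S.C ^ 2 / p.μe ^ 2)) := by
      rw [add_div]
      nlinarith [sq_nonneg (p.μe * Q.rs (p.xP Q k) / (w + ν) - g k / (w + ν))]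
    refine (mul_le_mul_of_nonneg_left a3 d0).trans (le_of_eq ?_)
    split_ifs <;> ring
  refine (sum_le_sum a).trans ?_
  rw [sum_add_distrib, ← mul_sum, ← mul_sum, sum_add_distrib, ← mul_sum, ← mul_sum, ← sum_filter,
    show (Ioc S.jl S.Jp).filter (· < S.J) = Ioo S.jl S.J by
      ext k; have := c.i3; simp only [mem_filter, mem_Ioc, mem_Ioo]; omega]
  have b1 := h.sum
  rw [← h.jl, ← h.eJp] at b1
  have b2 := mul_le_mul_of_nonneg_left (c.sum_inv h.r0) (show 0 ≤ 1 / p.κ ^ 2 by positivity)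
  have b3 := mul_le_of_le_one_right (show 0 ≤ S.C ^ 2 / p.μe ^ 2 by positivity) c.sum_dx
  rw [show 1 / p.κ ^ 2 * (4 * S.C ^ 2 / p.r) = 4 * S.C ^ 2 / (p.κ ^ 2 * p.r) by
    have := h.r0; field_simp] at b2
  exact add_le_add (mul_le_mul_of_nonneg_left b1 zero_le_two)
    (mul_le_mul_of_nonneg_left (add_le_add b2 b3) (by positivity))

theorem H_jf1 (Hd : 2 * K * D ≤ p.κ * p.r ^ 2) (Hv : 4 * K ≤ p.κ * p.r ^ 2 * p.jf) :
    p.v ≤ (p.cM Q g).H (p.jf + 1) := by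
  obtain ⟨_, _, _, _, _, _, _, m⟩ := h.mem
  have j := h.jJ
  have JJ := J_le (p := p) (P := Q)
  have K0 := m.K0
  have v0 := m.geo.v0
  show p.v ≤ p.HO Q (p.om 1 p.ye) (p.b 1 p.ye + 0) (p.jf + 1) + g (p.jf + 1)
  rw [MemD.H_hi (Nat.lt_succ_self _), (m.low0 le_rfl).2]
  have s0 := m.geo.sP_nn (p.jf + 1)
  have a := (m.inc le_rfl s0 (m.geo.sP_mono (by omega))).1.1
  rw [m.mk0, h.ms_zero] at a
  have b := (abs_le.1 (h.lo (p.jf + 1) j.le)).1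
  have c := h.s_jf.1.trans (m.geo.sP_mono (Nat.le_succ _))
  simp only [Nat.succ_eq_add_one] at c
  set s := p.sO Q (p.om 1 p.ye) (p.jf + 1)
  have d : D ≤ p.κ * p.r ^ 2 / K / 2 := by rw [div_div, le_div_iff₀ (by positivity)]; linarith
  have e := mul_le_mul_of_nonneg_right d s0
  have f : 4 ≤ p.κ * p.r ^ 2 / K * p.jf := by
    rw [div_mul_eq_mul_div, le_div_iff₀ K0]; linarith
  have f1 := mul_le_mul_of_nonneg_right f v0.le
  have f2 := mul_le_mul_of_nonneg_left c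
    (show 0 ≤ p.κ * p.r ^ 2 / K by have := h.k0; positivity)
  linarith

theorem H_Jp : (p.cM Q g).H (p.Jp Q) ≤ K * p.μe * (K + 1) + p.μe * (6 * log p.n) + D := by
  obtain ⟨_, _, _, _, _, _, _, m⟩ := h.mem
  have j := h.jJ
  have JJ := J_le (p := p) (P := Q)
  have K0 := m.K0
  show p.HO Q (p.om 1 p.ye) (p.b 1 p.ye + 0) (p.Jp Q) + g (p.Jp Q) ≤ _
  rw [MemD.H_hi (by omega), m.geo.xP_top le_rfl, h.hs]
  have s0 := m.geo.sP_nn (p.Jp Q)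
  have a := (m.inc le_rfl s0 le_rfl).1.2
  rw [m.mk0, sub_zero, sub_zero] at a
  have b := m.ms1 (p.sO Q (p.om 1 p.ye) (p.Jp Q))
  rw [h.ms_top h.y1] at b
  have c := mul_le_mul (mul_le_mul_of_nonneg_left b K0.le) m.sT s0 (mul_pos K0 h.μe0).le
  linarith [mul_le_mul_of_nonneg_left h.rI h.μe0.le, (abs_le.1 (h.al (p.Jp Q))).2]

/-- **the hypotheses of SR** -/
theorem sh {E l Ys Y : ℝ} (N : Nc E K W D Γ l Ys Y p Q S) : SH E S (p.cM Q g) l Ys Y := by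
  obtain ⟨_, _, _, _, _, _, _, m⟩ := h.mem
  have j := h.jJ
  have JJ := J_le (p := p) (P := Q)
  obtain ⟨s1, s2⟩ := h.s_jf
  have s0 := m.geo.sP_nn p.jf
  have nu' : nu S = (p.n : ℝ) ^ (-(1 : ℝ) / 3) := by rw [nu, h.en]
  have n0 : 0 ≤ (p.n : ℝ) ^ (-(1 : ℝ) / 3) := by positivity
  have Ys0 : 0 ≤ Ys := s0.trans (s2.trans N.lY)
  have es : (p.cM Q g).s S.jl = p.sO Q (p.om 1 p.ye) p.jf := by rw [h.jl]; rfl
  refine ⟨h.eF, h.cei, h.j0.trans h.jl.symm, ?_, ?_, ?_, by rw [h.θ_eq, h.en]; exact N.th1, ?_,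
    fun k a b => h.eJ ▸ (h.dx_le (h.eJ ▸ a) (h.eJp ▸ b)).2,
    fun k a b => h.en ▸ (h.dx_le (h.eJ ▸ a) (h.eJp ▸ b)).1, h.xs_eq ▸ N.dj, N.u0, N.ue, ?_,
    h.sq_ck.trans N.ck, fun t a => nu' ▸ N.gr t (es ▸ a), (h.sq_G (nu' ▸ n0)).trans N.G2,
    h.θ_eq ▸ N.g2, by rw [es, h.en]; linarith [N.rt], es ▸ s2.trans N.jl, N.l3,
    es ▸ s2.trans N.lY, fun t a _ => ?_, h.en ▸ N.Y0, h.en ▸ N.Y1, ?_, ?_, ?_⟩
  · rw [h.jl]
    show p.HO Q (p.om 1 p.ye) (p.b 1 p.ye + 0) p.jf + g p.jf = 0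
    rw [MemD.H_lo le_rfl, h.g0 _ le_rfl, add_zero]
  · show (if 0 ≤ p.jf then p.b 1 p.ye else p.b 1 p.ye + 0) =
      if p.NP Q ≤ p.jf then p.b 1 p.ye else p.b 1 p.ye + 0
    simp
  · show _ ≤ if 0 ≤ p.jf then p.b 1 p.ye else p.b 1 p.ye + 0
    rw [if_pos (Nat.zero_le _)]; exact N.b1
  · rw [h.eJ, h.eJp]
    exact (pow_le_pow_left₀ (sub_nonneg.2 (m.geo.sP_mono JJ)) h.flat 2).trans N.flat
  · rw [h.eJp]
    show (p.cM Q g).q (p.Jp Q) + Q.rs (p.xP Q (p.Jp Q)) ≤ E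
    rw [m.geo.xP_top le_rfl]
    linarith [Cl.q_le_one (M := p.cM Q g) (p.Jp Q), h.rI, N.ckT]
  · rw [nu', h.ems, h.ms_eq]
    exact N.star.trans (mul_le_mul_of_nonneg_left (pow_le_pow_left₀
      (le_min Ys0 (h.r0.le.trans h.ry)) (le_max_of_le_right (min_le_min_right _ a)) 2) h.k0.le)
  · rw [nu']
    exact (mul_le_mul_of_nonneg_right (min_le_left _ _) n0).trans N.Y2
  · rw [es]
    exact (mul_le_mul (min_le_left _ _) (pow_le_pow_left₀ s0 s2 5) (pow_nonneg s0 5) Ys0).trans N.Y3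
  · rw [h.ev, h.jl]; exact h.H_jf1 N.Hd N.Hv

theorem sub (t t' : ℝ) : S.ms t' ≤ S.ms t + t' ^ 2 := by
  rw [h.ems, h.ms_eq, h.ms_eq]
  have a : p.κ * p.r ^ 2 ≤ p.κ * max p.r (min t p.ye) ^ 2 :=
    mul_le_mul_of_nonneg_left (pow_le_pow_left₀ h.r0.le (le_max_left _ _) 2) h.k0.le
  rcases le_total p.r (min t' p.ye) with e | e
  · rw [max_eq_right e]
    have b := pow_le_pow_left₀ (h.r0.le.trans e) (min_le_left t' p.ye) 2
    have c := mul_le_of_le_one_left (sq_nonneg (min t' p.ye)) h.k1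
    linarith [mul_pos h.k0 (pow_pos h.r0 2)]
  · rw [max_eq_left e]; linarith [sq_nonneg t']

theorem rev : ∃ k₁, S.Jp ≤ k₁ ∧ k₁ ≤ (p.cM Q g).N ∧ 1 / S.C ≤ ((k₁ : ℝ) - S.Jp) * S.v ∧
    ∀ k, S.Jp ≤ k → k < k₁ → S.v / S.C ≤ (p.cM Q g).s (k + 1) - (p.cM Q g).s k := by
  obtain ⟨_, _, _, _, _, _, _, m⟩ := h.mem
  have C1 := h.cl.C1
  have v0 := m.geo.v0
  refine ⟨p.NP Q, by rw [h.eJp, NP_eq]; omega, le_rfl, ?_, fun k a _ => ?_⟩
  · rw [h.eJp, h.ev, NP_eq]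
    push_cast
    have a : p.A * log p.n / p.v ≤ p.Nr := Nat.le_ceil _
    rw [div_le_iff₀ v0] at a
    have A : (1 : ℝ) ≤ p.A := by exact_mod_cast m.A1
    have b := one_le_mul_of_one_le_of_one_le A m.lg
    have c : 1 / S.C ≤ 1 := by rw [div_le_one (by linarith)]; exact C1
    linarith
  · rw [h.ev]
    exact (div_le_self v0.le C1).trans (m.geo.ds_hi (h.eJp ▸ a)).ge

end Mc

end SrC3

end Crest.Agent.T156.Alt

end
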