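import Crest.Agent.T156.EnN_91
import Crest.Agent.T156.EnFj_91
import Crest.Agent.T156.SprLN_11
import Crest.Agent.T156.SrC_3

/-!
# Row 156 (helper91): location of the END model from `TL2x`
-/

set_option autoImplicit false
set_option linter.unusedSectionVars false

noncomputable section

namespace Crest.Agent.T156.Alt.En91

open Real Finset
open Crest.Agent.T156.Alt.L69 Crest.Agent.T156.Alt.L63
open Crest.Agent.T156.Alt.Lt11 (geo_le third four3)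
open Crest.Agent.T156.Alt.Ps64 (cube3)

/-- the context -/
structure Cx (E K Λ : ℝ) (p : Pm) (P : Pl) (S : Sc) (M : Md) : Prop where
  f : Fe K p P S M
  o : Ps p
  b : Nb E S.C Λ p
  E1 : 1 ≤ E
  Λ0 : 0 ≤ Λ
  ry : p.r ≤ p.ye
  y1 : p.ye ≤ 1
  κ1 : p.κ ≤ 1

namespace Cx

variable {E K Λ t : ℝ} {p : Pm} {P : Pl} {S : Sc} {M : Md} (h : Cx E K Λ p P S M)
include h

theorem ms_eq (t : ℝ) : S.ms t = p.κ * max p.r (min t p.ye) ^ 2 := by rw [h.f.em, Pm.ms, one_mul]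

theorem mf_eq (t : ℝ) : mf S t = S.ms t := by rw [mf, h.f.eF, div_one]

theorem ms_top (ht : p.ye ≤ t) : S.ms t = p.κ * p.ye ^ 2 := by
  rw [h.ms_eq, min_eq_right ht, max_eq_right h.ry]

theorem θ_eq : S.θ = p.κ * p.ye ^ 2 := h.ms_top h.y1

theorem ms_one (t : ℝ) : S.ms t ≤ 1 :=
  (h.f.cl.ms1 t).trans (h.θ_eq.trans_le (mul_le_one₀ h.κ1 (sq_nonneg _)
    (pow_le_one₀ h.o.y.le h.y1)))

theorem ms_up (ht : p.r ≤ t) : S.ms t ≤ p.κ * t ^ 2 := by
  rw [h.ms_eq]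
  exact mul_le_mul_of_nonneg_left (pow_le_pow_left₀ (h.o.r.le.trans (le_max_left _ _))
    (max_le ht (min_le_left _ _)) 2) h.o.κ.le

theorem ms_lo (h0 : 0 ≤ t) (h1 : t ≤ S.C) : (nμ p * t) ^ 2 ≤ S.ms t := by
  rcases le_total t p.ye with c | c
  · rw [h.ms_eq, min_eq_left c, mul_pow]
    exact mul_le_mul h.b.e4 (pow_le_pow_left₀ h0 (le_max_right _ _) 2) (sq_nonneg _) h.o.κ.le
  · rw [h.ms_top c, mul_pow]
    exact (mul_le_mul_of_nonneg_left (pow_le_pow_left₀ h0 h1 2) (sq_nonneg _)).trans h.b.e3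

theorem l0l : nl0 p ≤ nl p := by linarith [h.b.a3, h.o.l0]
theorem l1 : nl p ≤ 1 := by nlinarith [h.b.a4, h.o.l, h.E1]
theorem t1 : nt p ≤ 1 := by nlinarith [h.b.a6, h.o.t, h.E1]
theorem x1 : nx p ^ 3 ≤ 1 := by nlinarith [h.b.a9, pow_pos h.o.x 3, h.E1]
theorem L1 : 1 ≤ nL p := h.E1.trans h.b.b1

theorem ρ_ms (ht : nl p ≤ t) : nρ p ^ 2 ≤ S.ms t :=
  (pow_le_pow_left₀ h.o.ρ.le h.b.e1 2).trans
    ((h.ms_lo h.o.l.le (h.l1.trans h.f.cl.C1)).trans (h.f.cl.msm ht))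

theorem cr_eq (ht : nl0 p ≤ t) : cr S t = 1 := by
  have t0 := h.o.l0.trans_le ht
  have m0 := h.f.cl.ms_pos t0.le
  rw [cr, h.f.eF, one_mul]
  refine max_eq_left (rpow_le_one (by positivity) ((div_le_one (by positivity)).2 ?_) (by norm_num))
  exact (h.ms_up (h.b.a7.trans ht)).trans (mul_le_of_le_one_left (sq_nonneg _) h.κ1)

theorem cl_eq (ht : nl0 p ≤ t) : cl S (nx p) t = t + nx p := by rw [cl, h.cr_eq ht, one_mul]

theorem cl_bd (ht : nl0 p ≤ t) : 0 ≤ cl S (nx p) t ∧ cl S (nx p) t ≤ 2 * t := by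
  rw [h.cl_eq ht]
  constructor <;> linarith [h.o.l0, h.o.x, h.b.a8]

theorem gg_le (h0 : 0 < t) (h1 : t ≤ S.C) : 0 < gg S t ∧ gg S t ≤ nω p ^ 3 / t ^ 2 := by
  have n0 := h.f.cl.N0
  have m0 := h.f.cl.ms_pos h0.le
  have ω0 := h.o.ω
  rw [gg, h.f.eF]
  refine ⟨by positivity, ?_⟩
  rw [div_le_div_iff₀ (by positivity) (by positivity)]
  have a := mul_le_mul_of_nonneg_left (h.ms_lo h0.le h1) (mul_pos n0 (pow_pos ω0 3)).le
  have b := mul_le_mul_of_nonneg_right h.b.e2 (sq_nonneg t)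
  rw [← h.f.en] at b
  nlinarith

theorem w3_le (h0 : 0 < t) (h1 : t ≤ S.C) : 0 < S.w3 t ∧ S.w3 t ≤ (nω p / t) ^ 3 := by
  have e : S.w3 t = gg S t / t := by
    have n0 := h.f.cl.N0
    have m0 := h.f.cl.ms_pos h0.le
    rw [Sc.w3, gg]; field_simp
  obtain ⟨a, b⟩ := h.gg_le h0 h1
  rw [e]
  exact ⟨by positivity, (div_le_div_of_nonneg_right b h0.le).trans_eq (by field_simp)⟩

theorem w_le (h0 : 0 < t) (h1 : t ≤ S.C) :
    0 < S.w3 t ^ ((1 : ℝ) / 3) ∧ S.w3 t ^ ((1 : ℝ) / 3) ≤ nω p / t := by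
  obtain ⟨a, b⟩ := h.w3_le h0 h1
  have ω0 := h.o.ω
  exact ⟨rpow_pos_of_pos a _, le_of_pow_le_pow_left₀ (n := 3) (by norm_num) (by positivity)
    (by rw [cube3 a.le]; exact b)⟩

theorem ws_le (ht : nl0 p ≤ t) (h1 : t ≤ S.C) :
    0 ≤ ws S (nx p) t ∧ ws S (nx p) t ≤ 2 * (nω p / t) := by
  have t0 := h.o.l0.trans_le ht
  obtain ⟨a, b⟩ := h.w_le t0 h1
  obtain ⟨c, d⟩ := h.cl_bd ht
  rw [ws]
  exact ⟨by positivity, mul_le_mul ((div_le_iff₀ t0).2 d) b a.le zero_le_two⟩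

theorem uw_le (ht : nl0 p ≤ t) (h1 : t ≤ S.C) :
    0 ≤ uw S (nL p) t ∧ uw S (nL p) t ≤ nL p ^ 2 * (nω p / t) := by
  obtain ⟨a, b⟩ := h.w_le (h.o.l0.trans_le ht) h1
  rw [uw, h.cr_eq ht, mul_one]
  exact ⟨by positivity, mul_le_mul_of_nonneg_left b (sq_nonneg _)⟩

theorem uw_U (ht : nl p ≤ t) (h1 : t ≤ S.C) : uw S (nL p) t ≤ nU p :=
  (h.uw_le (h.l0l.trans ht) h1).2.trans ((mul_le_mul_of_nonneg_left
    (div_le_div_of_nonneg_left h.o.ω.le h.o.l ht) (sq_nonneg _)).trans h.b.c6)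

theorem mn_bd (ht : nl0 p ≤ t) : 0 ≤ min (nx p ^ 3) (cl S (nx p) t ^ 3) :=
  le_min (pow_pos h.o.x 3).le (pow_nonneg (h.cl_bd ht).1 3)

theorem cub (ht : nl0 p ≤ t) (h1 : t ≤ S.C) : t * ws S (nx p) t ^ 3 +
    (t * ws S (nx p) t ^ 3) ^ ((1 : ℝ) / 7) *
      (ws S (nx p) t * min (nx p ^ 3) (cl S (nx p) t ^ 3)) ^ ((6 : ℝ) / 7) ≤ nX3 p := by
  have t0 := h.o.l0.trans_le ht
  have l0 := h.o.l0
  have ω0 := h.o.ω
  have x0 := h.o.x
  obtain ⟨s0, s1⟩ := h.ws_le ht h1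
  have a : t * ws S (nx p) t ^ 3 ≤ nX3 p / 2 := by
    have a1 := mul_le_mul_of_nonneg_left (pow_le_pow_left₀ s0 s1 3) t0.le
    have a2 : t * (2 * (nω p / t)) ^ 3 = 8 * (nω p ^ 3 / t ^ 2) := by field_simp; ring
    have a3 : nω p ^ 3 / t ^ 2 ≤ nω p ^ 3 / nl0 p ^ 2 := by gcongr
    have a4 : 0 ≤ nω p ^ 3 / nl0 p ^ 2 := by positivity
    linarith [h.b.c2]
  have m0 := h.mn_bd ht
  have b : ws S (nx p) t * min (nx p ^ 3) (cl S (nx p) t ^ 3) ≤ nX3 p / 2 := by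
    have b1 : nω p / t ≤ nω p / nl0 p := by gcongr
    have b2 := mul_le_mul (s1.trans (by linarith : _ ≤ 2 * (nω p / nl0 p)))
      (min_le_left (nx p ^ 3) _) m0 (by positivity)
    have b3 : 0 ≤ nω p / nl0 p * nx p ^ 3 := by positivity
    linarith [h.b.c3]
  linarith [geo_le (p := 1 / 7) (q := 6 / 7) (by positivity) (mul_nonneg s0 m0) a b (by norm_num)
    (by norm_num) (by norm_num)]

/-- **the bulk numbers** -/
theorem ln : LN E S M (nl0 p) (nl p) (nx p) (nx p ^ 3) (nL p) (nX2 p) (nX3 p) (nG p)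
    fun _ => ne p := by
  have l0 := h.o.l0
  have l := h.o.l
  have x0 := h.o.x
  have ω0 := h.o.ω
  have E1 := h.E1
  have e0 := h.o.e
  have ρ0 := h.o.ρ
  have L1 := h.L1
  have C1 := h.f.cl.C1
  have l01 := h.l0l.trans h.l1
  obtain ⟨c0, c1⟩ := h.cl_bd le_rfl
  have q2 : nl0 p * cl S (nx p) (nl0 p) ^ 2 ≤ 4 * nl0 p ^ 3 :=
    (mul_le_mul_of_nonneg_left (pow_le_pow_left₀ c0 c1 2) l0.le).trans_eq (by ring)
  have q4 : nl0 p * cl S (nx p) (nl0 p) ^ 4 ≤ 16 * nl0 p ^ 5 :=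
    (mul_le_mul_of_nonneg_left (pow_le_pow_left₀ c0 c1 4) l0.le).trans_eq (by ring)
  refine ⟨h.f.HJ, ?_, (h.w3_le l0 (l01.trans C1)).2.trans (pow_le_pow_left₀ (by positivity)
      ((div_le_iff₀ l0).2 (h.b.a2.trans_eq (sq _))) 3), h.l0l, h.b.a4, fun t t' a b => ?_, x0.le,
    by positivity, h.b.a9, by rw [h.f.eF]; linarith [h.b.b1], h.f.en ▸ h.b.b2, ?_, ?_, ?_,
    by linarith [h.b.b7, pow_pos l0 3], fun t a b => ?_, by linarith [h.b.c1, pow_pos l0 5],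
    fun t a b => ?_, by linarith [h.b.c4, pow_pos l0 3], fun t a b => ?_, fun _ _ _ => le_rfl,
    fun _ _ => by linarith, fun t a b => ?_,
    fun t t' a b c => (h.cub (h.l0l.trans (a.trans b)) c).trans (by linarith [h.b.d4, h.o.X3]),
    fun t a b => ?_, fun t a b => ?_, ?_, fun t a b => ?_⟩
  · have a := mul_le_mul_of_nonneg_left h.f.sj (by linarith : 0 ≤ E)
    have b := h.b.a1
    have c : 0 ≤ 10 * (E * (p.s * (p.n : ℝ) ^ (p.c / 13 - 1 / 6))) → 0 ≤ nl0 p := fun _ => l0.le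
    linarith
  · rcases le_total t' p.r with c | c
    · exact (le_of_eq (by rw [h.ms_eq, h.ms_eq, max_eq_left ((min_le_left _ _).trans c),
        max_eq_left ((min_le_left _ _).trans (b.trans c))])).trans
        (le_add_of_nonneg_right (sq_nonneg _))
    · linarith [h.ms_up c, mul_le_of_le_one_left (sq_nonneg t') h.κ1, h.f.cl.ms_pos a]
  · rw [h.cr_eq h.l0l, one_mul]
    exact (h.b.b3.trans h.b.b4).trans (le_mul_of_one_le_left l.le L1)
  · rw [four3 x0.le, h.mf_eq]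
    exact h.b.b5.trans (h.ρ_ms le_rfl)
  · rw [h.mf_eq]
    exact h.b.b6.trans (pow_le_pow_left₀ (sq_nonneg _) (h.ρ_ms le_rfl) 3)
  · have t0 := l0.trans_le a
    obtain ⟨s0, s1⟩ := h.ws_le a b
    have u : t * ws S (nx p) t ^ 2 ≤ nX2 p / 2 := by
      have a1 := mul_le_mul_of_nonneg_left (pow_le_pow_left₀ s0 s1 2) t0.le
      have a2 : t * (2 * (nω p / t)) ^ 2 = 4 * (nω p ^ 2 / t) := by field_simp; ring
      have a3 : nω p ^ 2 / t ≤ nω p ^ 2 / nl0 p := by gcongr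
      have a4 : 0 ≤ nω p ^ 2 / nl0 p := by positivity
      linarith [h.b.b8]
    have := geo_le (p := 3 / 7) (q := 4 / 7) (by positivity) (h.mn_bd a) u
      ((min_le_left _ _).trans (by linarith [h.b.b9, pow_pos x0 3])) (by norm_num) (by norm_num)
      (by norm_num)
    exact (min_le_right _ _).trans (by linarith)
  · have t0 := l0.trans_le a
    have s0 := (h.ws_le a b).1
    have m1 := (h.cl_bd a).1
    have m2 := h.mn_bd a
    exact (mul_le_of_le_one_left (le_min (by positivity) (by positivity)) (min_le_left _ _)).trans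
      ((min_le_right _ _).trans (h.cub a b))
  · have t0 := l0.trans_le a
    obtain ⟨d0, d1⟩ := h.cl_bd a
    obtain ⟨g0, g1⟩ := h.gg_le t0 (b.trans (h.l1.trans C1))
    have a1 := mul_le_mul (div_le_div_of_nonneg_right (pow_le_pow_left₀ d0 d1 3) t0.le) g1 g0.le
      (by positivity)
    have a2 : (2 * t) ^ 3 / t * (nω p ^ 3 / t ^ 2) = 8 * nω p ^ 3 := by field_simp; ring
    linarith [h.b.c5, pow_pos ω0 3]
  · have t0 := l.trans_le a
    have G0 := h.o.G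
    have U0 := h.o.U
    obtain ⟨u0, u1⟩ := h.uw_le (h.l0l.trans a) b
    have u2 := h.uw_U a b
    have a1 := pow_le_pow_left₀ u0 u2 3
    have a2 : uw S (nL p) t ^ 2 * min (S.ms t / t) t ≤ nL p ^ 4 * (nω p ^ 2 / nl p) := by
      refine (mul_le_mul (pow_le_pow_left₀ u0 u1 2) (min_le_right _ _)
        (le_min (div_nonneg (h.f.cl.ms_pos t0.le).le t0.le) t0.le) (by positivity)).trans ?_
      rw [show (nL p ^ 2 * (nω p / t)) ^ 2 * t = nL p ^ 4 * (nω p ^ 2 / t) by field_simp]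
      gcongr
    have a3 : √(nL p * cr S t * gg S t) ≤ nG p := by
      rw [h.cr_eq (h.l0l.trans a), mul_one, sqrt_le_left G0.le]
      refine le_trans ?_ h.b.c9
      gcongr
      exact (h.gg_le t0 b).2.trans (by gcongr)
    have a4 : √(nX2 p) ≤ nU p := (sqrt_le_left U0.le).2 h.b.d2
    have a5 := mul_le_mul (show √(nL p * cr S t * gg S t) + nG p + nX2 p ≤ 3 * nG p by
      linarith [h.b.d1]) (show uw S (nL p) t + √(nX2 p) ≤ 2 * nU p by linarith) (by positivity)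
      (by positivity)
    have a6 := h.b.d5
    rw [← h.f.en] at a6
    linarith [h.b.c7, h.b.c8, h.b.d3, h.b.d4]
  · rw [h.mf_eq]
    refine h.b.d6.trans (le_of_eq_of_le ?_
      (rpow_le_rpow (sq_nonneg _) (h.ρ_ms a) (by norm_num : (0 : ℝ) ≤ 3 / 2)))
    rw [← rpow_natCast _ 2, ← rpow_mul ρ0.le, ← rpow_natCast]
    norm_num
  · rw [h.mf_eq]
    exact (mul_le_mul_of_nonneg_left (pow_le_pow_left₀ (h.uw_le (h.l0l.trans a) b).1 (h.uw_U a b) 2)
      (by linarith)).trans (h.b.d7.trans (h.ρ_ms a))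
  · rw [h.mf_eq]
    exact h.b.d8.trans (h.ρ_ms le_rfl)
  · rw [h.mf_eq]
    exact h.b.d9.trans (mul_le_mul (h.ρ_ms a) a l.le (h.f.cl.ms_pos (l.trans_le a).le).le)

theorem l4 : L4 S (nx p) (nx p ^ 3) (nt p / 2) S.C (nN p) := fun t a b => by
  have t0 := h.o.t
  have ω0 := h.o.ω
  have x0 := h.o.x
  have a' : nl0 p ≤ t := by linarith [h.l0l, h.b.a5, h.o.l]
  obtain ⟨s0, s1⟩ := h.ws_le a' b
  have s2 : ws S (nx p) t ≤ 4 * (nω p / nt p) := by
    have : nω p / t ≤ nω p / (nt p / 2) := by gcongr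
    rw [div_div_eq_mul_div, mul_div_right_comm] at this
    linarith
  have w0 : 0 < nω p / nt p := by positivity
  have a1 := mul_le_mul b (pow_le_pow_left₀ s0 s2 4) (by positivity) h.f.cl.C0.le
  have m0 := h.mn_bd a'
  have a2 := mul_le_mul ((rpow_le_self_of_le_one s0 (by linarith [h.b.f1])
    (by norm_num : (1 : ℝ) ≤ 3 / 2)).trans s2) ((rpow_le_self_of_le_one m0
      ((min_le_left _ _).trans h.x1) (by norm_num : (1 : ℝ) ≤ 7 / 6)).trans (min_le_left _ _))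
    (by positivity) (by positivity)
  have a3 : 0 ≤ S.C * (nω p / nt p) ^ 4 := mul_nonneg h.f.cl.C0.le (by positivity)
  nlinarith [h.b.f2, h.b.f3]

theorem bs_le (a : nl p ≤ t) (b : t ≤ S.C) : 0 ≤ bs S (nL p) (nX2 p) 0 (fun _ => ne p) t ∧
    bs S (nL p) (nX2 p) 0 (fun _ => ne p) t ≤ nb p / t ^ 2 := by
  have l := h.o.l
  have t0 := l.trans_le a
  have μ0 := h.o.μ
  have e0 := h.o.e
  have X0 := h.o.X2
  have ω0 := h.o.ω
  have L0 := h.o.L
  have m0 := h.f.cl.ms_pos t0.le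
  have m1 := h.ms_lo t0.le b
  obtain ⟨u0, u1⟩ := h.uw_le (h.l0l.trans a) b
  rw [bs, h.mf_eq, add_zero]
  refine ⟨by positivity, ?_⟩
  have a1 : ne p / S.ms t ≤ ne p / nμ p ^ 2 / t ^ 2 := by
    rw [div_div, ← mul_pow]; gcongr
  have a2 : (nX2 p + uw S (nL p) t ^ 2) / √(S.ms t) ≤
      (nX2 p * S.C / nμ p + nL p ^ 4 * nω p ^ 2 / (nμ p * nl p)) / t ^ 2 := by
    refine (div_le_div₀ (by positivity) (add_le_add le_rfl (pow_le_pow_left₀ u0 u1 2))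
      (by positivity) (le_sqrt_of_sq_le m1)).trans ?_
    rw [show (nX2 p + (nL p ^ 2 * (nω p / t)) ^ 2) / (nμ p * t) =
      (nX2 p * t / nμ p + nL p ^ 4 * nω p ^ 2 / (nμ p * t)) / t ^ 2 by field_simp]
    gcongr
  refine (add_le_add a1 a2).trans ?_
  rw [← add_div]
  exact div_le_div_of_nonneg_right (by linarith [h.b.f4, h.b.f5, h.b.f6, h.o.b]) (sq_nonneg _)

theorem GS0 (t t' : ℝ) : GS M S t t' = 0 := sum_eq_zero fun k hk => by
  rw [h.f.G0 k (mem_Ioo.1 (mem_filter.1 hk).1).1]; ring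

theorem GP0 : GP M S = 0 := sum_eq_zero fun k hk => by
  rw [h.f.G0 k (h.f.cl.jl_lt.trans_le (mem_Icc.1 hk).1)]; ring

theorem cB_le : cB M S (fun _ => ne p) (nt p / 2) S.C ≤ 4 * (ne p ^ 2 / (nμ p * nt p) ^ 2) := by
  have t0 := h.o.t
  have μ0 := h.o.μ
  have i3 := h.f.cl.i3
  refine (sum_le_sum (g := fun k => M.dx k * (4 * (ne p ^ 2 / (nμ p * nt p) ^ 2)))
    fun k hk => ?_).trans ?_
  · obtain ⟨a, b, c⟩ := mem_filter.1 hk
    refine mul_le_mul_of_nonneg_left ?_ (h.f.cl.dx_nn k)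
    rw [h.cr_eq (by linarith [h.l0l, h.b.a5, h.o.l]), one_mul, h.f.G0 k (mem_Ioo.1 a).1, h.mf_eq]
    have a1 : ne p ^ 2 / S.ms (M.s k) ≤ ne p ^ 2 / (nμ p * (nt p / 2)) ^ 2 :=
      div_le_div_of_nonneg_left (sq_nonneg _) (by positivity)
        (le_trans (by gcongr) (h.ms_lo (by linarith) c))
    have a2 : ne p ^ 2 / (nμ p * (nt p / 2)) ^ 2 = 4 * (ne p ^ 2 / (nμ p * nt p) ^ 2) := by
      field_simp; ring
    have a3 : min (|(0 : ℝ)| ^ ((4 : ℝ) / 3)) (0 ^ 2 / S.ms (M.s k)) ≤ 0 :=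
      (min_le_right _ _).trans_eq (by simp)
    linarith
  · rw [← sum_mul]
    refine mul_le_of_le_one_left (by positivity) (le_trans (sum_le_sum_of_subset_of_nonneg
      (fun k hk => ?_) fun k _ _ => h.f.cl.dx_nn k) h.f.cl.sum_dx)
    have := mem_Ioo.1 (mem_filter.1 hk).1
    exact mem_Ioc.2 ⟨this.1, by omega⟩

theorem sum_bs : ∑ k ∈ (Ioo S.jl S.J).filter fun k => nl p ≤ M.s k ∧ M.s k ≤ M.s S.J,
    dx M k * bs S (nL p) (nX2 p) 0 (fun _ => ne p) (M.s k) ≤ 4 * (nb p * (S.C ^ 2 / nl p)) := by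
  have b0 := h.o.b
  refine (sum_le_sum (g := fun k => nb p * (M.dx k * (1 / max (nl p) (M.s k) ^ 2)))
    fun k hk => ?_).trans ((sum_le_sum_of_subset_of_nonneg (filter_subset _ _) fun k _ _ =>
      mul_nonneg b0.le (mul_nonneg (h.f.cl.dx_nn k) (by positivity))).trans ?_)
  · obtain ⟨a, b, -⟩ := mem_filter.1 hk
    rw [max_eq_right b]
    exact (mul_le_mul_of_nonneg_left (h.bs_le b (h.f.cl.s_le_C
      ((mem_Ioo.1 a).2.le.trans h.f.cl.i3))).2 (h.f.cl.dx_nn k)).trans_eq (by ring)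
  · rw [← mul_sum]
    exact (mul_le_mul_of_nonneg_left (h.f.cl.sum_inv h.o.l) b0.le).trans_eq (by ring)

theorem sq_ms (ht : p.r ≤ t) : E * √(p.κ * t ^ 2) ≤ t := by
  have E0 : 0 < E := by linarith [h.E1]
  have t0 := h.o.r.trans_le ht
  rw [← le_div_iff₀' E0, sqrt_le_left (by positivity)]
  exact (mul_le_mul_of_nonneg_right h.b.e5 (sq_nonneg t)).trans_eq (by ring)

theorem ρ_sqrt : nρ p ≤ √(S.ms (nl p)) := le_sqrt_of_sq_le (h.ρ_ms le_rfl)

theorem sJ : 1 ≤ 3 * S.C ^ 3 * M.s S.J := by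
  have c := h.f.cl
  have C0 := c.C0
  have a := c.atom.1
  have i0 := c.i0
  have i1 := c.i1
  have i2 := c.i2
  have b1 := (c.z_s (k := S.J - 1) (by omega) (by omega)).2
  have b2 := (c.s_bds (k := S.J - 1) (by omega)).1
  have b3 : (1 : ℝ) ≤ ((S.J - 1 : ℕ) : ℝ) := by exact_mod_cast (by omega : 1 ≤ S.J - 1)
  have b4 := mul_le_mul_of_nonneg_right b3 (div_pos c.v0 C0).le
  have b5 : S.v ≤ S.C * M.s (S.J - 1) := by rw [← div_le_iff₀' C0]; linarith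
  have b6 := mul_le_mul_of_nonneg_left b5 C0.le
  have b7 := mul_le_mul_of_nonneg_right c.C1 (mul_nonneg C0.le (c.s_nn (S.J - 1)))
  have b := (show M.z (S.J - 1) ≤ 3 * S.C ^ 2 * M.s (S.J - 1) by linarith).trans
    (mul_le_mul_of_nonneg_left (c.sm (Nat.sub_le S.J 1)) (by positivity))
  rw [div_le_iff₀ C0] at a
  linarith [mul_le_mul_of_nonneg_right b C0.le]

theorem le_sJ {x : ℝ} (x0 : 0 ≤ x) (hx : 10 * (S.C ^ 3 * x) ≤ 1) : x ≤ M.s S.J := by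
  have C0 := h.f.cl.C0
  refine le_of_mul_le_mul_left (a := 3 * S.C ^ 3) ?_ (by positivity)
  have := mul_nonneg (pow_pos C0 3).le x0
  linarith [h.sJ]

/-- **the numbers of the thick zone** -/
theorem lt : LT2 E S M (nl0 p) (nl p) (nx p ^ 3) (nx p ^ 3) (nL p) (nX2 p) (nN p) (fun _ => 0) (nt p)
    (M.s S.J) p.ye (nN p) (nE p) (np p) fun _ => ne p := by
  have x0 := h.o.x
  have l := h.o.l
  have t0 := h.o.t
  have y0 := h.o.y
  have E0 : 0 ≤ E := by linarith [h.E1]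
  have lt : nl p ≤ nt p := by linarith [h.b.a5]
  refine ⟨h.f.eF, by linarith [h.b.a3, h.o.l0], fun _ => le_rfl,
    fun _ k a _ _ _ _ => by rw [h.f.G0 k a, abs_zero], fun t a _ => ?_,
    by rw [h.GS0, mul_zero]; exact h.o.E.le, ?_, ?_, fun t a b => ?_, ?_,
    h.le_sJ (by positivity) h.b.i2, le_rfl, by linarith [h.b.a5], h.le_sJ (by positivity) h.b.i1,
    h.b.e7, ?_, ?_, ?_, h.b.g6.trans h.b.b4, by linarith [h.b.g6, h.b.b4, h.b.e9]⟩
  · rw [mul_zero]; exact rpow_nonneg (h.f.cl.ms_pos (l.le.trans a)).le _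
  · rw [third x0.le]; exact h.b.b3.trans h.b.b4
  · rw [third x0.le]
    exact (show E * nx p ≤ p.ye by linarith [h.b.b3, h.b.b4, h.b.e9]).trans
      (le_mul_of_one_le_left y0.le h.L1)
  · have c := h.b.a7.trans (h.l0l.trans a)
    exact (mul_le_mul_of_nonneg_left (sqrt_le_sqrt (h.ms_up c)) E0).trans (h.sq_ms c)
  · rw [h.θ_eq]; exact h.sq_ms h.ry
  · rw [third x0.le]; exact h.l4
  · obtain ⟨b0, b1⟩ := h.bs_le lt (h.t1.trans h.f.cl.C1)
    have a := div_le_div_of_nonneg_right (pow_le_pow_left₀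
      (mul_nonneg (h.f.cl.ms_pos t0.le).le b0)
      ((mul_le_of_le_one_left b0 (h.ms_one _)).trans b1) 2) t0.le
    linarith [h.cB_le, h.b.f7, h.b.f8, h.b.f9, h.b.g1, h.b.g2, h.o.E]
  · have p0 := h.o.p0
    have e0 := h.o.E
    have C0 := h.f.cl.C0
    have s0 : 0 < M.s S.J := by
      by_contra c
      linarith [h.sJ, mul_nonneg (show 0 ≤ 3 * S.C ^ 3 by positivity) (neg_nonneg.2 (not_lt.1 c))]
    have a1 : √(nE p) ≤ np p / 10 := (sqrt_le_left (by positivity)).2 h.b.g3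
    have a2 : √(nE p / M.s S.J) ≤ np p / 10 := by
      refine (sqrt_le_left (by positivity)).2 (le_trans ?_ h.b.i3)
      rw [div_le_iff₀ s0]
      nlinarith [mul_le_mul_of_nonneg_left h.sJ e0.le, mul_pos (mul_pos (pow_pos C0 3) e0) s0]
    have a3 : 0 ≤ nb p * (S.C ^ 2 / nl p) := by have := h.o.b; positivity
    linarith [h.sum_bs, h.b.g5]

theorem jg : E * (nj p + nγ p) ≤ nL p * p.ye :=
  (show E * (nj p + nγ p) ≤ p.ye by linarith [h.b.i7, h.b.i8, h.o.y]).trans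
    (le_mul_of_one_le_left h.o.y.le h.L1)

variable {m : ℕ} {a : ℝ}

theorem En_le (t t' : ℝ) : M.En S m a M.q 2 t t' ≤ p.ph2 P M m a := by
  rw [Md.En, Pm.ph2, ← h.f.e0, ← h.f.eP]
  simp only [sq_abs]
  exact sum_le_sum_of_subset_of_nonneg (filter_subset _ _) fun k _ _ =>
    mul_nonneg (h.f.cl.dx_nn k) (sq_nonneg _)

theorem jn (d : 1 ≤ S.C * S.den (M.z (S.J - 1)) ∧ S.den (M.z (S.J - 1)) ≤ S.C) :
    Jn S M (nx p ^ 3) (nu p) := by
  refine ⟨d.1, d.2, le_trans (pow_le_pow_left₀ (le_trans (rpow_pos_of_pos h.o.n _).le h.f.u0.1)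
    h.f.u0.2 3) h.b.i4, fun k a b c => h.b.i5.trans ?_⟩
  rw [h.f.en]
  exact mul_le_mul_of_nonneg_left (h.f.d1 k a b ((h.f.ue.trans h.b.i6).trans c)) h.o.n.le

theorem ap (d : 1 ≤ S.C * S.den (M.z (S.J - 1)) ∧ S.den (M.z (S.J - 1)) ≤ S.C) (hm : 0 < m)
    (hΦ : p.ph2 P M m a ≤ nx p ^ 3) :
    Ap S M m a (nl0 p) (nx p ^ 3) (nx p ^ 3) 1 (nu p) (nj p) := by
  refine ⟨(h.En_le _ _).trans hΦ, (h.En_le _ _).trans hΦ, fun k _ b _ => ?_, ?_, h.jn d⟩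
  · linarith [(Mp9.rb_mem (M := M) (a := a) hm k).2, h.f.cl.q_nn (b.trans h.f.cl.i4.le),
      show M.del m a k = M.rb m a k - M.q k from rfl]
  · have j0 := h.o.j
    have a1 : √(nx p ^ 3) ≤ nj p / 10 := (sqrt_le_left (by positivity)).2 h.b.g7
    rw [h.GS0, h.GP0, add_zero, sqrt_zero]
    linarith [h.b.g8]

/-- **the output** -/
theorem out (h1 : ∀ k, 2 * nl p ≤ M.s k → M.s k + p.ye ≤ M.s S.J →
      |M.del m a k| ≤ Λ * (np p + bs S (nL p) (nX2 p) 0 (fun _ => ne p) (M.s k)))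
    (h2 : LO Λ S M m a (2 * nt p) (nu p) (nE p + nt p * np p ^ 2)) : LocE p P M m a := by
  have Λ0 := h.Λ0
  have t0 := h.o.t
  have y0 := h.o.y
  have Y0 := h.o.Y
  have i3 := h.f.cl.i3
  have θ0 : 0 < p.κ * p.ye ^ 2 := mul_pos h.o.κ (pow_pos y0 2)
  have e2 : nE p + nt p * np p ^ 2 ≤ 2 * nE p := by linarith [h.b.h3]
  have e3 : (nE p + nt p * np p ^ 2) / (p.κ * p.ye ^ 2) ≤ 2 * (nE p / (p.κ * p.ye ^ 2)) :=
    (div_le_div_of_nonneg_right e2 θ0.le).trans_eq (by ring)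
  refine ⟨fun k a b => ?_, ?_, ?_⟩
  · rw [← h.f.eJ] at b
    have l := h.o.l
    have c := h.bs_le (t := M.s k) (by change 2 * nl p ≤ _ at a; linarith)
      (by linarith [h.f.cl.s_le_C i3])
    refine (h1 k a b).trans ((mul_le_mul_of_nonneg_left (add_le_add le_rfl c.2) Λ0).trans ?_)
    have d := div_le_div_of_nonneg_right h.b.h2 (sq_nonneg (M.s k))
    rw [mul_div_assoc, mul_div_assoc] at d
    linarith [h.b.h1]
  · have a1 := h2.two p.ye S.C (by linarith [h.b.e9]) (h.y1.trans h.f.cl.C1)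
    have a2 := h2.pla
    rw [h.GS0, add_zero, h.mf_eq, h.ms_top le_rfl, h.f.en] at a1
    rw [h.GP0, add_zero, h.θ_eq, h.f.en] at a2
    have a3 : (M.s S.Jp - M.s S.J) ^ 2 ≤ nγ p ^ 2 :=
      pow_le_pow_left₀ (sub_nonneg.2 (h.f.cl.sm i3)) h.f.spr 2
    have a4 := a1.trans (mul_le_mul_of_nonneg_left
      (add_le_add ((min_le_right _ _).trans e3) le_rfl) Λ0)
    have a5 := a2.trans (mul_le_mul_of_nonneg_left (add_le_add (add_le_add (add_le_add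
      ((min_le_right _ _).trans e3) le_rfl) a3) le_rfl) Λ0)
    have a6 : ∑ k ∈ (Ioc p.jf (p.Jp P)).filter fun k => p.ye ≤ M.s k,
        (M.z k - M.z (k - 1)) * M.del m a k ^ 2 ≤
        ∑ k ∈ (M.blk S p.ye S.C).filter (· < S.J), dx M k * M.del m a k ^ 2 + Pla M S m a 2 := by
      rw [Pla, ← h.f.e0, ← h.f.eP]
      simp only [sq_abs]
      rw [← sum_union (disjoint_left.2 fun k a b => by
        have := (mem_filter.1 a).2; have := (mem_Icc.1 b).1; omega)]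
      refine sum_le_sum_of_subset_of_nonneg (fun k hk => ?_) fun k _ _ =>
        mul_nonneg (h.f.cl.dx_nn k) (sq_nonneg _)
      obtain ⟨a, b⟩ := mem_filter.1 hk
      rcases lt_or_ge k S.J with c | c
      · exact mem_union_left _ (mem_filter.2 ⟨mem_filter.2
          ⟨a, b, h.f.cl.s_le_C (mem_Ioc.1 a).2⟩, c⟩)
      · exact mem_union_right _ (mem_Icc.2 ⟨c, (mem_Ioc.1 a).2⟩)
    change _ ≤ nY p
    linarith [h.b.h4, h.b.h5, h.b.h6, h.b.h7]
  · have a1 := h2.four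
    rw [sum_eq_zero (s := (M.blk S (2 * nt p) S.C).filter (· < S.J))
      (f := fun k => dx M k * M.G k ^ 4) fun k hk => by
        rw [h.f.G0 k (by
          have := (mem_Ioc.1 (mem_filter.1 (mem_filter.1 hk).1).1).1
          rwa [h.f.e0, ← h.f.el] at this)]
        ring, add_zero, h.f.en] at a1
    have a4 := a1.trans (mul_le_mul_of_nonneg_left (add_le_add e2 le_rfl) Λ0)
    have a6 : ∑ k ∈ (Ioo p.jf p.J).filter fun k => p.ye ≤ M.s k,
        (M.z k - M.z (k - 1)) * M.del m a k ^ 4 ≤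
        ∑ k ∈ (M.blk S (2 * nt p) S.C).filter (· < S.J), dx M k * M.del m a k ^ 4 := by
      rw [← h.f.e0, ← h.f.eJ]
      refine sum_le_sum_of_subset_of_nonneg (fun k hk => ?_) fun k _ _ =>
        mul_nonneg (h.f.cl.dx_nn k) (by positivity)
      obtain ⟨a, b⟩ := mem_filter.1 hk
      have c := mem_Ioo.1 a
      exact mem_filter.2 ⟨mem_filter.2 ⟨mem_Ioc.2 ⟨c.1, c.2.le.trans i3⟩,
        by linarith [h.b.e9], h.f.cl.s_le_C (c.2.le.trans i3)⟩, c.2⟩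
    change _ ≤ nY p
    linarith [h.b.h8, h.b.h9]

end Cx

/-- **location of the END model** -/
theorem locS_of {β : ℝ} (hβ : 1 < β) (hT : TL2x) (hP : LPS) (hS : SrE β) : LocS β := by
  refine Sml.glueCL hβ (feJ hβ) hS hT (fun K => K) (fun c => c / 100) (fun c hc => by positivity)
    fun K hK c0 C0 _ _ => ⟨5, fun A hA => ⟨1 / 100000, by norm_num, fun c hc c0' =>
      ⟨c / 1000, by positivity, fun η hη _ => ⟨K, fun p H hf hs L P hP' m a hm => ?_⟩⟩⟩⟩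
  obtain ⟨S, f, d⟩ := hf (H.hA ▸ hA) P hP'
  have hη' : 1000 * η ≤ c := by linarith
  have E1 : 1 ≤ (p.n : ℝ) ^ (p.c / 100) := one_le_rpow H.N1.le (by rw [H.hc]; positivity)
  have E2 : (p.n : ℝ) ^ (p.c / 100) ≤ (p.n : ℝ) ^ (c / 100) := by rw [H.hc]
  have h : Cx ((p.n : ℝ) ^ (p.c / 100)) K ((p.n : ℝ) ^ η) p P S (p.tst P p.ye) :=
    ⟨f, ps H, nbd H hc hη' E1 E2 f.cl.C1 (f.eC ▸ H.K_le), E1, H.Λ0.le, H.r_le_ye, H.ye1, H.κ1⟩
  have x0 := h.o.x
  obtain ⟨o1, o2⟩ := L S _ f.eC f.eA f.en f.cl m a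
    ⟨f.en ▸ hm.m1, f.en ▸ hm.m2, f.en ▸ hm.a1, f.ea ▸ hm.a2⟩ _ _ _ _ _ _ _ _ _ _ _ _ _ _ _ _ _ _ _ _ _ _ _
    _ _ _ _ ⟨f.cei.toG f.cl, by rw [third x0.le]; exact h.ln,
      hP β c0 C0 A c η K p H hc hη' K P S _ H.K_le f _ E1 E2,
      h.ap d (H.n0.trans_le hm.m1) ((hs P hP' m a hm).trans h.b.g9), h.lt, h.jg⟩ (Or.inl h.b.e8)
  exact h.out o1 o2

end Crest.Agent.T156.Alt.En91

end
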