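import Crest.Agent.T156.EnD_91
import Crest.Agent.T156.GrReg_29

/-!
# Row 156 (helper91): location of the END model, monomial inequalities
-/

set_option autoImplicit false
set_option linter.unusedSectionVars false

noncomputable section

namespace Crest.Agent.T156.Alt.En91

open Real

section num
variable (p : Pm)
def nω : ℝ := (p.n : ℝ) ^ (5 / 2 * p.c - 1 / 3)
def nμ : ℝ := (p.n : ℝ) ^ (-(18 / 5 * p.c))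
def nρ : ℝ := p.s * (p.n : ℝ) ^ (5 * p.c - 1 / 6)
def nU : ℝ := (p.n : ℝ) ^ (-(5 * p.c) - 1 / 6)
def nb : ℝ := p.s ^ 3 * (p.n : ℝ) ^ (12 * p.c - 1 / 2)
def nY : ℝ := p.s ^ 4 * (p.n : ℝ) ^ (22 * p.c - 13 / 20)
end num

/-- positivity -/
structure Ps (p : Pm) : Prop where
  x : 0 < nx p
  l0 : 0 < nl0 p
  l : 0 < nl p
  L : 0 < nL p
  X2 : 0 < nX2 p
  X3 : 0 < nX3 p
  G : 0 < nG p
  e : 0 < ne p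
  u : 0 < nu p
  j : 0 < nj p
  γ : 0 < nγ p
  N : 0 < nN p
  t : 0 < nt p
  E : 0 < nE p
  p0 : 0 < np p
  ω : 0 < nω p
  μ : 0 < nμ p
  ρ : 0 < nρ p
  U : 0 < nU p
  b : 0 < nb p
  Y : 0 < nY p
  κ : 0 < p.κ
  y : 0 < p.ye
  r : 0 < p.r
  n : (0 : ℝ) < p.n

/-- the inequalities -/
structure Nb (E C Λ : ℝ) (p : Pm) : Prop where
  a1 : 10 * (E * (p.s * (p.n : ℝ) ^ (p.c / 13 - 1 / 6))) ≤ nl0 p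
  a2 : nω p ≤ nl0 p ^ 2
  a3 : 10 * nl0 p ≤ nl p
  a4 : E * nl p ≤ 1
  a5 : 10 * nl p ≤ nt p
  a6 : E * nt p ≤ 1
  a7 : p.r ≤ nl0 p
  a8 : nx p ≤ nl0 p
  a9 : E * nx p ^ 3 ≤ 1
  b1 : E ≤ nL p
  b2 : nL p ≤ p.n
  b3 : E * nx p ≤ nρ p
  b4 : nρ p ≤ nl p
  b5 : E * nx p ^ 4 ≤ nρ p ^ 2
  b6 : E * nG p ^ 4 ≤ (nρ p ^ 2) ^ 3
  b7 : 10 * nl0 p ^ 3 ≤ nX2 p
  b8 : 10 * (nω p ^ 2 / nl0 p) ≤ nX2 p
  b9 : 10 * nx p ^ 3 ≤ nX2 p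
  c1 : 100 * nl0 p ^ 5 ≤ nX3 p
  c2 : 100 * (nω p ^ 3 / nl0 p ^ 2) ≤ nX3 p
  c3 : 10 * (nω p / nl0 p * nx p ^ 3) ≤ nX3 p
  c4 : 10 * nl0 p ^ 3 ≤ nG p
  c5 : 10 * nω p ^ 3 ≤ nG p ^ 2
  c6 : nL p ^ 2 * (nω p / nl p) ≤ nU p
  c7 : 10 * nU p ^ 3 ≤ ne p
  c8 : 10 * (nL p ^ 4 * (nω p ^ 2 / nl p)) ≤ ne p
  c9 : nL p * (nω p ^ 3 / nl p ^ 2) ≤ nG p ^ 2
  d1 : nX2 p ≤ nG p
  d2 : nX2 p ≤ nU p ^ 2
  d3 : 100 * (nG p * nU p) ≤ ne p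
  d4 : 10 * nX3 p ≤ ne p
  d5 : 10 * (1 / (p.n : ℝ)) ≤ ne p
  d6 : E * ne p ≤ nρ p ^ 3
  d7 : E * nU p ^ 2 ≤ nρ p ^ 2
  d8 : E * nX2 p ≤ nρ p ^ 2
  d9 : E * ne p ≤ nρ p ^ 2 * nl p
  e1 : nρ p ≤ nμ p * nl p
  e2 : 1 ≤ p.n * nμ p ^ 2 * nω p ^ 3
  e3 : nμ p ^ 2 * C ^ 2 ≤ p.κ * p.ye ^ 2
  e4 : nμ p ^ 2 ≤ p.κ
  e5 : p.κ ≤ (1 / E) ^ 2
  e6 : E * p.ye ≤ 1
  e7 : E * nx p ^ 3 ≤ nt p ^ 4
  e8 : E * nx p ^ 3 ≤ p.ye ^ 3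
  e9 : 10 * nt p ≤ p.ye
  f1 : 10 * (nω p / nt p) ≤ 1
  f2 : 1000 * (C * (nω p / nt p) ^ 4) ≤ nN p
  f3 : 10 * (nω p / nt p * nx p ^ 3) ≤ nN p
  f4 : 10 * (ne p / nμ p ^ 2) ≤ nb p
  f5 : 10 * (nX2 p * C / nμ p) ≤ nb p
  f6 : 10 * (nL p ^ 4 * nω p ^ 2 / (nμ p * nl p)) ≤ nb p
  f7 : 100 * (ne p ^ 2 / (nμ p * nt p) ^ 2) ≤ nE p
  f8 : 10 * nX2 p ^ 2 ≤ nE p
  f9 : 10 * nN p ≤ nE p
  g1 : 10 * (nl p ^ 3 * nx p ^ 3) ≤ nE p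
  g2 : 10 * ((nb p / nt p ^ 2) ^ 2 / nt p) ≤ nE p
  g3 : nE p ≤ (np p / 10) ^ 2
  g4 : 10 * (nl p * nx p) ≤ np p
  g5 : 100 * (nb p * (C ^ 2 / nl p)) ≤ np p
  g6 : E * np p ≤ nρ p
  g7 : nx p ^ 3 ≤ (nj p / 10) ^ 2
  g8 : 10 * nl0 p ^ 2 ≤ nj p
  g9 : p.s ^ 3 * (p.n : ℝ) ^ (2 * p.c - 1 / 2) ≤ nx p ^ 3
  h1 : Λ * np p ≤ (p.n : ℝ) ^ (13 * p.c) * (p.s ^ 2 * (p.n : ℝ) ^ (-(13 / 40 : ℝ)))
  h2 : Λ * nb p ≤ (p.n : ℝ) ^ (13 * p.c) * (p.s ^ 3 * (p.n : ℝ) ^ (-(1 / 2 : ℝ)))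
  h3 : nt p * np p ^ 2 ≤ nE p
  h4 : 100 * (Λ * (nE p / (p.κ * p.ye ^ 2))) ≤ nY p
  h5 : 10 * (Λ * nu p) ≤ nY p
  h6 : 10 * (Λ * nγ p ^ 2) ≤ nY p
  h7 : 10 * (Λ * (1 / (p.n : ℝ) ^ 2)) ≤ nY p
  h8 : 100 * (Λ * nE p) ≤ nY p
  h9 : 10 * (Λ * (1 / (p.n : ℝ) ^ 4)) ≤ nY p
  i1 : 10 * (C ^ 3 * (E * nt p)) ≤ 1
  i2 : 10 * (C ^ 3 * (E * p.ye)) ≤ 1
  i3 : 10 * (C ^ 3 * nE p) ≤ (np p / 10) ^ 2
  i4 : nG p ^ 3 ≤ nx p ^ 3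
  i5 : 1 ≤ p.n * (p.n : ℝ) ^ (-(7 / 20) - p.c)
  i6 : (p.n : ℝ) ^ (-(2 : ℝ)) ≤ nu p
  i7 : 10 * (E * nj p) ≤ p.ye
  i8 : 10 * (E * nγ p) ≤ p.ye

variable {β c0 C0 c η K₀ : ℝ} {A : ℕ} {p : Pm} (H : Reg β c0 C0 A c η K₀ p)
include H

theorem ps : Ps p := by
  have := H.s0
  have := H.N0
  refine ⟨?_, ?_, ?_, ?_, ?_, ?_, ?_, ?_, ?_, ?_, ?_, ?_, ?_, ?_, ?_, ?_, ?_, ?_, ?_, ?_, ?_, H.κ0,
    H.ye0, H.r0, H.N0⟩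
  all_goals
    simp only [nx, nl0, nl, nL, nX2, nX3, nG, ne, nu, nj, nγ, nN, nt, nE, np, nω, nμ, nρ, nU, nb, nY]
    positivity

theorem lg1 (a : ℝ) : logb p.n (p.s * (p.n : ℝ) ^ a) = logb p.n p.s + a := by
  rw [logb_mul H.s0.ne' (H.rp0 _).ne', H.lg_rp]

theorem lgk (k : ℕ) (a : ℝ) : logb p.n (p.s ^ k * (p.n : ℝ) ^ a) = k * logb p.n p.s + a := by
  rw [logb_mul (pow_pos H.s0 k).ne' (H.rp0 _).ne', H.lg_rp, logb_pow]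

set_option maxHeartbeats 1000000 in
theorem nbd (hc : c ≤ 1 / 100000) (hη : 1000 * η ≤ c) {E C : ℝ} (E1 : 1 ≤ E)
    (E2 : E ≤ (p.n : ℝ) ^ (c / 100)) (C1 : 1 ≤ C) (C2 : C ≤ (p.n : ℝ) ^ η) :
    Nb E C ((p.n : ℝ) ^ η) p := by
  obtain ⟨_, _, _, _, _, _, _, _, _, _, _, _, _, _, _, _, _, _, _, _, _, _, _, _, _⟩ := ps H
  have s0 := H.s0
  have E0 : 0 < E := by linarith
  have C0 : 0 < C := by linarith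
  have e := H.hc
  have l1 : logb p.n (nx p) = _ := lg1 H _
  have l2 : logb p.n (nl0 p) = _ := lg1 H _
  have l3 : logb p.n (nl p) = _ := lg1 H _
  have l4 : logb p.n (nL p) = _ := H.lg_rp _
  have l5 : logb p.n (nX2 p) = _ := lgk H _ _
  have l6 : logb p.n (nX3 p) = _ := lgk H _ _
  have l7 : logb p.n (nG p) = _ := H.lg_rp _
  have l8 : logb p.n (ne p) = _ := lgk H _ _
  have l9 : logb p.n (nu p) = _ := H.lg_rp _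
  have l10 : logb p.n (nj p) = _ := H.lg_rp _
  have l11 : logb p.n (nγ p) = _ := H.lg_rp _
  have l12 : logb p.n (nN p) = _ := lgk H _ _
  have l13 : logb p.n (nt p) = _ := H.lg_rp _
  have l14 : logb p.n (nE p) = _ := lgk H _ _
  have l15 : logb p.n (np p) = _ := lgk H _ _
  have l16 : logb p.n (nω p) = _ := H.lg_rp _
  have l17 : logb p.n (nμ p) = _ := H.lg_rp _
  have l18 : logb p.n (nρ p) = _ := lg1 H _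
  have l19 : logb p.n (nU p) = _ := H.lg_rp _
  have l20 : logb p.n (nb p) = _ := lgk H _ _
  have l21 : logb p.n (nY p) = _ := lgk H _ _
  have k1 := H.lg_κ
  have k2 := H.lg_ye
  have k3 := H.lg_r
  have k4 := H.lg_n
  obtain ⟨k5, k6⟩ := H.lg_s
  obtain ⟨k7, k8⟩ := H.lg_cst C1 C2
  have k9 := H.lg_nn E1
  have k10 := (H.lg_mono E0 E2).trans_eq (H.lg_rp _)
  obtain ⟨k11, k12⟩ := H.lg_num (x := 10) (by norm_num) (by norm_num)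
  have k13 := (H.lg_num (x := 100) (by norm_num) (by norm_num)).2
  have k14 := (H.lg_num (x := 1000) (by norm_num) (by norm_num)).2
  have k15 := H.c_pos
  have k16 := H.η_pos
  push_cast at l5 l6 l8 l12 l14 l15 l20 l21
  constructor
  all_goals
    refine H.le_of_lg (by positivity) (by positivity) ?_
    try lg_norm
    simp only [l1, l2, l3, l4, l5, l6, l7, l8, l9, l10, l11, l12, l13, l14, l15, l16, l17, l18, l19,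
      l20, l21, k1, k2, k3, k4, e]
    linarith

end Crest.Agent.T156.Alt.En91

end
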