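import Crest.Agent.T156.LPt_57

/-!
# Row 156 (helper78): the top zone of a model with a short (spread) plateau; location and sizes
-/

set_option autoImplicit false
set_option linter.unusedSectionVars false
set_option linter.unusedVariables false
set_option maxHeartbeats 400000

noncomputable section

namespace Crest.Agent.T156.Alt.R62.Eq78

open Real Finset Filter
open Crest.Agent.T156.Alt.C33 Crest.Agent.T156.Alt.Md67 Crest.Agent.T156.Alt.Pl57

/-- the inputs: energy `x ^ 3`, shells of clock length in `[lm, γ]` -/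
structure EI (E : ℝ) (S : Sc) (M : Md) (m : ℕ) (a x lm γ : ℝ) : Prop where
  x0 : 0 < x
  xs : E * x ≤ 1
  vx : S.v ≤ x ^ 3
  ue : 4 * S.ue ≤ x ^ 3
  jl : 64 * M.s S.jl < M.s S.J
  u0 : 0 < S.u0
  uγ : S.u0 ≤ γ
  γx : γ ^ 2 ≤ x ^ 3
  spr : M.s S.Jp - M.s S.J ≤ γ
  qs : ∀ k, S.J ≤ k → k < S.Jp → M.q (k + 1) - M.q k ≤ S.C * S.v
  lsb : ∀ k, S.J ≤ k → k < S.Jp → lm ≤ ls S M k ∧ ls S M k ≤ γ
  fine : E * S.v ≤ lm
  dj : S.den (M.z (S.J - 1)) ≤ S.C
  rev : ∃ k1, S.Jp ≤ k1 ∧ k1 ≤ M.N ∧ 1 / S.C ≤ ((k1 : ℝ) - S.Jp) * S.v ∧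
    ∀ k, S.Jp ≤ k → k < k1 → S.θ * S.v / (S.C * S.F) ≤ M.H (k + 1) - M.H k
  h3 : E * (S.w3 1 * γ) ≤ lm ^ 2 * (x * S.u0)
  h4 : E * (S.w3 1 * γ) ≤ lm ^ 2 * x ^ 3
  en : ∑ y ∈ sb S M (T0 S M / 4) S.C ∪ Icc S.J S.Jp, lw M y * M.del m a y ^ 2 ≤ x ^ 3

/-- the context at a fixed size -/
structure Ex (lam : ℝ) (S : Sc) (M : Md) (m : ℕ) (a x lm γ : ℝ) : Prop
    extends EI (lam ^ 30) S M m a x lm γ where
  F : Fn S M m a
  big : 1000 ≤ lam
  Cl : S.C ≤ lam
  lg : log S.n ≤ lam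
  Al : (S.A : ℝ) ≤ lam
  θ : S.C * S.θ ≤ 1 / 2

def uA (S : Sc) (M : Md) (x : ℝ) (k : ℕ) : ℝ := √(x ^ 3 / (dl S M k + x))
def uB (M : Md) (x : ℝ) (k : ℕ) : ℝ := √(x ^ 3 / (du M k + x ^ 3))
/-- the tolerance on the plateau -/
def tq (S : Sc) (M : Md) (x : ℝ) (k : ℕ) : ℝ := 16 * S.C * (uA S M x k + uB M x k)
/-- the unit of the windows -/
def r0 (S : Sc) (lm : ℝ) : ℝ := lm / (16 * S.C ^ 2)
/-- the windows on the plateau -/
def rq (S : Sc) (M : Md) (x lm : ℝ) (k : ℕ) : ℝ := r0 S lm / x * (uA S M x k + min (uB M x k) x)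

/-- the indices of the block -/
structure Ix (S : Sc) (M : Md) (x : ℝ) (kb n k0 : ℕ) : Prop where
  e0 : k0 = kb + n
  n1 : x ≤ n * S.v
  n2 : n * S.v ≤ 2 * x
  jl : S.jl < kb
  sb : T0 S M / 4 ≤ M.s kb
  k0J : k0 < S.J
  s0 : M.s k0 ≤ T0 S M / 2

/-- the envelope of the location on the slope -/
structure TT (S : Sc) (M : Md) (m : ℕ) (a x : ℝ) (k0 : ℕ) (T : ℕ → ℝ) : Prop where
  lip : ∀ k k' : ℕ, T k ≤ T k' + |(k : ℝ) - k'| * (4 * (S.C * S.v))
  loc : ∀ k, k0 ≤ k → k < S.J → |M.del m a k| ≤ T k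
  top : tq S M x S.J ≤ T S.J
  le : ∀ k, T k ≤ tq S M x S.J
  sl : ∀ k, k0 ≤ k → k < S.J → T k ≤ Env96.ev (M.rb m a) (3 * (S.C * S.v)) k0 (S.J - 1) k +
    |M.del m a k| + max (tq S M x S.J - ((S.J : ℝ) - k) * S.v) 0

/-- the tolerance on the block -/
def ta (S : Sc) (M : Md) (x : ℝ) (T : ℕ → ℝ) (k : ℕ) : ℝ :=
  if k < S.J then T k + √(x ^ 3) else tq S M x (min k S.Jp)

/-- the zone -/
def zn (S : Sc) (M : Md) : Finset ℕ := (range S.Jp).filter fun k => T0 S M ≤ M.s k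

/-- the output: an envelope of the pair overlap on the zone -/
structure EO (Λ : ℝ) (S : Sc) (M : Md) (m : ℕ) (a x : ℝ) (G : ℕ → ℝ) : Prop where
  pos : ∀ k ∈ zn S M, 0 < G k
  mom : ∀ k ∈ zn S M, M.E2 m a (fun R => (R - M.q k) ^ (2 * 4)) k ≤ G k ^ (2 * 4)
  env : ∀ k ∈ zn S M, Env S M m a k (G k)
  s2 : ∑ k ∈ zn S M, M.dz m a k * G k ^ 2 ≤ Λ * x ^ 3
  pt : ∀ k ∈ zn S M, ∀ u, 0 < u → u ≤ du M k → G k ≤ Λ * (x + √(x ^ 3 / u))

/-- **the top zone of a model with a short plateau** -/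
def EqS : Prop := CL fun E Λ S M m a => ∀ x lm γ, EI E S M m a x lm γ → ∃ G, EO Λ S M m a x G

theorem sq_ratio {c p q : ℝ} (hc : 0 ≤ c) (hp : 0 < p) (h : p ≤ q) :
    √(c / q) ≤ √(c / p) ∧ √(c / p) - √(c / q) ≤ √(c / q) * ((q - p) / p) := by
  have hq := hp.trans_le h
  refine ⟨by gcongr, ?_⟩
  have e : √(c / p) ≤ √(c / q) * (q / p) := by
    refine sqrt_le_iff.2 ⟨by positivity, ?_⟩
    rw [mul_pow, sq_sqrt (by positivity)]
    have : 1 ≤ q / p := by rwa [one_le_div hp]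
    calc c / p = c / q * (q / p) * 1 := by field_simp
      _ ≤ c / q * (q / p) * (q / p) := by gcongr
      _ = _ := by ring
  have : (q - p) / p = q / p - 1 := by field_simp
  rw [this]; linarith

theorem sq_two {c p q : ℝ} (hc : 0 ≤ c) (hp : 0 < p) (hq : 0 < q) (h : q ≤ 2 * p) :
    √(c / p) ≤ 2 * √(c / q) := by
  refine sqrt_le_iff.2 ⟨by positivity, ?_⟩
  rw [mul_pow, sq_sqrt (by positivity), ← mul_div_assoc, div_le_div_iff₀ hp hq]
  nlinarith

namespace Ex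

variable {lam : ℝ} {S : Sc} {M : Md} {m : ℕ} {a x lm γ : ℝ} (X : Ex lam S M m a x lm γ)
include X

theorem h : Alt.Cl S M := X.F.toCl
theorem l1 : 1 ≤ lam := by linarith [X.big]
theorem pw {i j : ℕ} (h : i ≤ j) : lam ^ i ≤ lam ^ j := pow_le_pow_right₀ X.l1 h
theorem P0 : 0 < x ^ 3 := pow_pos X.x0 3
theorem xm {j : ℕ} (hj : j ≤ 30) : lam ^ j * x ≤ 1 :=
  le_trans (mul_le_mul_of_nonneg_right (X.pw hj) X.x0.le) X.xs
theorem x1 : x ≤ 1 := by simpa using X.xm (j := 0) (by norm_num)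
theorem Cx : 1000 * (S.C ^ 4 * x) ≤ 1 := by
  refine le_trans ?_ (X.xm (j := 5) (by norm_num))
  have := X.x0
  have := X.big
  rw [← mul_assoc, pow_succ' lam 4]
  gcongr
  exacts [X.h.C0.le, X.Cl]
theorem Px : x ^ 3 ≤ x ^ 2 ∧ x ^ 3 ≤ x := by
  have := X.x0
  have := X.x1
  constructor <;> nlinarith [mul_pos X.x0 X.x0]
theorem vp : S.v ≤ x := X.vx.trans X.Px.2
theorem γ0 : 0 < γ := X.u0.trans_le X.uγ
theorem γb : γ ≤ √(x ^ 3) := le_sqrt_of_sq_le X.γx
theorem bx : √(x ^ 3) ≤ x := sqrt_le_iff.2 ⟨X.x0.le, X.Px.1⟩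
theorem b0 : 0 < √(x ^ 3) := sqrt_pos.2 X.P0
theorem γp : γ ≤ x := X.γb.trans X.bx
theorem up : S.u0 ≤ x := X.uγ.trans X.γp
theorem lm0 : 0 < lm := by
  have := X.big
  exact lt_of_lt_of_le (mul_pos (by positivity) X.h.v0) X.fine

theorem du0 (y : ℕ) : 0 ≤ du M y := sub_nonneg.2 (X.h.leg.z1 _)
theorem du1 (y : ℕ) : du M y ≤ 1 := by have := X.h.z_pos (y - 1); unfold du; linarith
theorem dl0 {y : ℕ} (h1 : S.J ≤ y) : S.u0 ≤ dl S M y := by
  have := x_ge X.h h1; unfold dl; linarith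
theorem dl2 (y : ℕ) : dl S M y ≤ 2 := by
  have := X.h.z_pos (S.J - 1); have := X.h.leg.z1 (y - 1); have := X.up; have := X.x1
  unfold dl; linarith
theorem du_anti {i k : ℕ} (h : i ≤ k) : du M k ≤ du M i :=
  sub_le_sub_left (X.h.leg.zm (by omega)) 1
theorem dl_mono {i k : ℕ} (h : i ≤ k) : dl S M i ≤ dl S M k := by
  have := X.h.leg.zm (show i - 1 ≤ k - 1 by omega); unfold dl; linarith
theorem duJ : 1 ≤ S.C * du M S.J := by
  have := X.h.atom.2
  rw [← div_le_iff₀' X.F.C0]; unfold du; linarith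
theorem duP : 4 * du M S.Jp ≤ x ^ 3 := by have := X.h.last; have := X.ue; unfold du; linarith
theorem lw0 (k : ℕ) : 0 ≤ lw M k := sub_nonneg.2 (X.h.leg.zm (Nat.sub_le _ _))

theorem JJ : S.J < S.Jp := by
  by_contra hh
  have e : S.Jp = S.J := by have := X.h.i3; omega
  have e1 := X.duP
  rw [e] at e1
  have C1 := X.h.C1
  have e2 : S.C * x ≤ S.C ^ 4 * x :=
    mul_le_mul_of_nonneg_right (le_self_pow₀ C1 (by norm_num)) X.x0.le
  nlinarith [X.duJ, X.Cx, X.Px.2, X.x0]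

theorem lmγ : lm ≤ γ := (X.lsb _ le_rfl X.JJ).1.trans (X.lsb _ le_rfl X.JJ).2

theorem fin (y : ℕ) (h1 : S.J ≤ y) (h2 : y < S.Jp) : 8 * S.C * S.v ≤ Pl57.ls S M y := by
  refine le_trans ?_ (X.fine.trans (X.lsb y h1 h2).1)
  have := X.F.v0
  have := X.big
  gcongr
  calc _ ≤ lam * lam := by gcongr; exacts [X.F.C0.le, by linarith, X.Cl]
    _ = lam ^ 2 := by ring
    _ ≤ _ := X.pw (by norm_num)

theorem lw_le {y : ℕ} (h1 : S.J ≤ y) (h2 : y < S.Jp) : 8 * lw M y ≤ min (dl S M y) (du M y) := by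
  refine le_of_mul_le_mul_left ?_ (X.h.den0 (M.z (y - 1)))
  have e1 := X.fin y h1 h2
  have e2 := (X.h.plat y h1 h2).2
  change _ ≤ S.den _ * min (dl S M y) (du M y) at e1
  unfold lw
  linarith

theorem lw_lm {y : ℕ} (h1 : S.J ≤ y) (h2 : y < S.Jp) :
    lm * lw M y ≤ S.C * S.v * min (dl S M y) (du M y) := by
  have e1 := mul_le_mul_of_nonneg_right (X.lsb y h1 h2).1 (X.lw0 y)
  have e2 := (X.h.plat y h1 h2).2
  have e3 : 0 ≤ min (dl S M y) (du M y) := le_min (X.u0.le.trans (X.dl0 h1)) (X.du0 y)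
  have e4 := mul_le_mul_of_nonneg_right e2 e3
  unfold ls lw at *
  linarith

theorem du_succ (k : ℕ) : du M (k + 1) = du M k - lw M k := by simp [du, lw]
theorem dl_succ (k : ℕ) : dl S M (k + 1) = dl S M k + lw M k := by simp [dl, lw]; ring

theorem T0_ge : 1 ≤ 48 * S.C ^ 4 * T0 S M := by
  have e := X.F.J_lo
  have e1 := (X.F.s_mem le_rfl).1
  have := X.F.C0
  unfold T0
  nlinarith [mul_le_mul_of_nonneg_left e1 (show 0 ≤ 3 * S.C ^ 3 by positivity)]

theorem T0_pos : 0 < T0 S M := by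
  have C0 := X.F.C0
  by_contra hh
  nlinarith [X.T0_ge, mul_le_mul_of_nonneg_left (not_lt.1 hh) (show 0 ≤ 48 * S.C ^ 4 by positivity)]

theorem T0_big : 1000 * (S.C * x) ≤ T0 S M := by
  have e := X.T0_ge
  have := X.big
  have C0 := X.F.C0
  have T := X.T0_pos
  have x0 := X.x0
  have e2 : 48 * S.C ^ 4 ≤ lam ^ 5 := by
    rw [pow_succ' lam 4]; gcongr; exacts [by linarith, X.Cl]
  refine le_of_mul_le_mul_left (a := lam ^ 5) ?_ (by positivity)
  calc _ ≤ lam ^ 5 * (lam * (lam * x)) := by gcongr; exact X.Cl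
    _ = lam ^ 7 * x := by ring
    _ ≤ _ := (X.xm (by norm_num)).trans (e.trans (by gcongr))

theorem qs' (y : ℕ) (h : y < S.Jp) :
    0 ≤ M.q (y + 1) - M.q y ∧ M.q (y + 1) - M.q y ≤ S.C * S.v := by
  refine ⟨sub_nonneg.2 (X.h.q_mono y.le_succ (by have := X.h.i4; omega)), ?_⟩
  rcases lt_or_ge y S.J with e | e
  · exact (X.h.q_tel X.θ y.le_succ h).2.trans (X.h.ss y e).2
  · exact X.qs y e h

theorem sl (y : ℕ) (h : y < S.Jp) : M.del m a y - S.C * S.v ≤ M.del m a (y + 1) := by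
  have := rb_mono (M := M) (a := a) X.F.lg.m0 y.le_succ
  have := (X.qs' y h).2
  unfold Md.del
  linarith

theorem dmono {i k : ℕ} (h0 : S.J ≤ i) (h : i ≤ k) (h1 : k ≤ S.Jp) :
    M.del m a i - γ ≤ M.del m a k := by
  have := rb_mono (M := M) (a := a) X.F.lg.m0 h
  have := (X.h.q_tel X.θ h h1).2
  have := X.h.sm h0
  have := X.h.sm h1
  have := X.spr
  unfold Md.del
  linarith

theorem del1 {k : ℕ} (h : k ≤ S.Jp) : |M.del m a k| ≤ 1 := by
  have := rb_nonneg (M := M) (a := a) X.F.lg.m0 k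
  have := rb_le_one (M := M) (a := a) X.F.lg.m0 k
  have := X.h.q_nn (h.trans X.h.i4.le)
  have := Cl.q_le_one (M := M) k
  unfold Md.del
  exact abs_le.2 ⟨by linarith, by linarith⟩

theorem en' : ∑ y ∈ sb S M (T0 S M / 4) S.C ∪ Icc S.J S.Jp,
    (M.z y - M.z (y - 1)) * |M.del m a y| ^ 2 ≤ x ^ 3 := by
  simpa only [sq_abs, lw] using X.en

theorem ex_ix : ∃ kb n k0, Ix S M x kb n k0 := by
  have h := X.h
  have v0 := h.v0
  have C1 := h.C1
  have p0 := X.x0
  have T1 := X.T0_big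
  have Cp : 0 < S.C * x := by positivity
  obtain ⟨k0, a1, a2, -, a4⟩ := h.exists_node (t := T0 S M / 2) (by linarith)
    (by unfold T0 at *; linarith)
  set n := ⌈x / S.v⌉₊ with hn
  have n1 : x ≤ n * S.v := by rw [← div_le_iff₀ v0]; exact Nat.le_ceil _
  have n2 : n * S.v ≤ 2 * x := by
    have := Nat.ceil_lt_add_one (show 0 ≤ x / S.v by positivity)
    have e := mul_le_mul_of_nonneg_right this.le v0.le
    rw [add_mul, div_mul_cancel₀ _ v0.ne'] at e
    linarith [X.vp]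
  have c1 : n * (S.C * S.v) ≤ 2 * (S.C * x) := by nlinarith
  have c2 : S.C * S.v ≤ S.C * x := by gcongr; exact X.vp
  have nk : n ≤ k0 := by
    by_contra hh
    have : (k0 : ℝ) ≤ n := by exact_mod_cast (by omega : k0 ≤ n)
    nlinarith [(h.s_bds a1.le).2, mul_le_mul_of_nonneg_right this (show 0 ≤ S.C * S.v by positivity)]
  have sk : T0 S M / 4 ≤ M.s (k0 - n) := by
    have := (h.s_tel (i := k0 - n) (j := k0) (by omega) a1.le).2
    rw [Nat.cast_sub nk, sub_sub_cancel] at this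
    linarith
  have jl : S.jl < k0 - n := by
    by_contra hh
    have := X.jl
    unfold T0 at sk
    linarith [h.sm (not_lt.1 hh)]
  exact ⟨k0 - n, n, k0, by omega, n1, n2, jl, sk, a1, a2⟩

/-! ### the two profiles -/

theorem uA_sq {k : ℕ} (h0 : S.J ≤ k) : uA S M x k ^ 2 * (dl S M k + x) = x ^ 3 := by
  have := X.u0.trans_le (X.dl0 h0)
  have := X.x0
  rw [uA, sq_sqrt (by positivity), div_mul_cancel₀ _ (by positivity)]

theorem uB_sq (k : ℕ) : uB M x k ^ 2 * (du M k + x ^ 3) = x ^ 3 := by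
  have := X.du0 k
  have := X.x0
  rw [uB, sq_sqrt (by positivity), div_mul_cancel₀ _ (by positivity)]

theorem uA_ge {k : ℕ} (h0 : S.J ≤ k) {z y : ℝ} (h : dl S M k + x ≤ z)
    (hx : y ^ 2 * z ≤ x ^ 3) : y ≤ uA S M x k := by
  have := X.u0.trans_le (X.dl0 h0)
  have := X.x0
  refine le_sqrt_of_sq_le ?_
  rw [le_div_iff₀ (by positivity)]
  exact le_trans (by gcongr) hx

theorem uB_ge {k : ℕ} {z y : ℝ} (h : du M k + x ^ 3 ≤ z) (hx : y ^ 2 * z ≤ x ^ 3) :
    y ≤ uB M x k := by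
  have := X.du0 k
  have := X.x0
  refine le_sqrt_of_sq_le ?_
  rw [le_div_iff₀ (by positivity)]
  exact le_trans (by gcongr) hx

theorem uA_b {k : ℕ} (h0 : S.J ≤ k) : √(x ^ 3) / 2 ≤ uA S M x k :=
  X.uA_ge h0 (z := 4) (by linarith [X.dl2 k, X.x1]) (by rw [div_pow, sq_sqrt X.P0.le]; linarith)

theorem uB_b (k : ℕ) : √(x ^ 3) / 2 ≤ uB M x k :=
  X.uB_ge (z := 4) (by linarith [X.du1 k, X.x1, X.Px.2])
    (by rw [div_pow, sq_sqrt X.P0.le]; linarith)

theorem uA_le {k : ℕ} (h0 : S.J ≤ k) : uA S M x k ≤ x := by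
  have := X.u0.trans_le (X.dl0 h0)
  have x0 := X.x0
  refine sqrt_le_iff.2 ⟨x0.le, ?_⟩
  rw [div_le_iff₀ (by positivity)]
  nlinarith [mul_pos x0 x0]

theorem uB_le (k : ℕ) : uB M x k ≤ 1 := by
  have := X.du0 k
  have := X.P0
  refine sqrt_le_iff.2 ⟨zero_le_one, ?_⟩
  rw [div_le_iff₀ (by positivity)]
  linarith

theorem uB_mono {i k : ℕ} (h : i ≤ k) : uB M x i ≤ uB M x k :=
  (sq_ratio X.P0.le (by linarith [X.du0 k, X.P0]) (by linarith [X.du_anti h])).1

theorem uA_anti {i k : ℕ} (h0 : S.J ≤ i) (h : i ≤ k) : uA S M x k ≤ uA S M x i :=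
  (sq_ratio X.P0.le (by linarith [X.dl0 h0, X.u0, X.x0]) (by linarith [X.dl_mono h])).1

theorem uB_u {k : ℕ} {u : ℝ} (hu : 0 < u) (h : u ≤ du M k) : uB M x k ≤ √(x ^ 3 / u) :=
  (sq_ratio X.P0.le hu (by linarith [X.P0])).1

theorem uBJ : uB M x S.J ≤ S.C * x := by
  have C1 := X.h.C1
  have p0 := X.x0
  have d0 := X.du0 S.J
  have P0 := X.P0
  refine sqrt_le_iff.2 ⟨by positivity, ?_⟩
  rw [div_le_iff₀ (by positivity)]
  have e := X.duJ
  calc x ^ 3 ≤ x ^ 2 * 1 * 1 := by linarith [X.Px.1]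
    _ ≤ x ^ 2 * S.C * (S.C * (du M S.J + x ^ 3)) := by gcongr; nlinarith
    _ = _ := by ring

theorem uAJ : x / 2 ≤ uA S M x S.J :=
  X.uA_ge le_rfl (z := 2 * x) (by simp only [dl, sub_self]; linarith [X.up])
    (by nlinarith [X.P0])

theorem tq_ge {k : ℕ} (h0 : S.J ≤ k) : 16 * (uA S M x k + uB M x k) ≤ tq S M x k := by
  have a1 : 0 ≤ uA S M x k := sqrt_nonneg _
  have a2 : 0 ≤ uB M x k := sqrt_nonneg _
  unfold tq
  nlinarith [X.h.C1]

theorem tq_b {k : ℕ} (h0 : S.J ≤ k) : √(x ^ 3) ≤ tq S M x k := by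
  linarith [X.tq_ge h0, X.uA_b h0, X.uB_b k, X.b0]

theorem tq_le {k : ℕ} (h0 : S.J ≤ k) : tq S M x k ≤ 32 * S.C := by
  have := X.h.C0
  unfold tq
  nlinarith [X.uA_le h0, X.uB_le k, X.x1]

theorem tqJ : 8 * (S.C * x) ≤ tq S M x S.J ∧ tq S M x S.J ≤ 32 * (S.C ^ 2 * x) := by
  have C1 := X.h.C1
  have a2 : 0 ≤ uB M x S.J := sqrt_nonneg _
  have a3 : x ≤ S.C * x := le_mul_of_one_le_left X.x0.le C1
  have a4 := X.uA_le le_rfl
  unfold tq
  constructor <;> nlinarith [X.uAJ, X.uBJ]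

/-- a small tolerance: far from the top -/
theorem far {k : ℕ} (h0 : S.J ≤ k) (h : tq S M x k < 1) : 3 * x ^ 3 ≤ du M k ∧ k < S.Jp := by
  have a1 : 0 ≤ uA S M x k := sqrt_nonneg _
  have e : 3 * x ^ 3 ≤ du M k := by
    by_contra hh
    have := X.uB_ge (k := k) (z := 4 * x ^ 3) (y := 1 / 2) (by linarith) (by linarith)
    linarith [X.tq_ge h0]
  refine ⟨e, ?_⟩
  by_contra hh
  linarith [X.du_anti (not_lt.1 hh), X.duP, X.P0]

/-- the shell -/
theorem shp {k i : ℕ} (h0 : S.J ≤ k) (hu : 3 * x ^ 3 ≤ du M k) (i0 : S.J ≤ i)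
    (hd : |(i : ℝ) - k| * S.v ≤ 2 * r0 S lm) :
    i < S.Jp ∧ |M.z (i - 1) - M.z (k - 1)| ≤ uu S M (M.z (k - 1)) / 2 := by
  have C0 := X.h.C0
  have v0 := X.h.v0
  have P0 := X.P0
  have kp : k < S.Jp := by
    by_contra hh
    linarith [X.du_anti (not_lt.1 hh), X.duP]
  have key : ∀ j, S.J ≤ j → j < S.Jp → |(j : ℝ) - k| * S.v ≤ 2 * r0 S lm →
      |M.z (j - 1) - M.z (k - 1)| ≤ uu S M (M.z (k - 1)) / 2 := fun j a1 a2 a3 => by
    refine shell X.h X.u0 X.fin h0 kp a1 a2 ?_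
    rw [abs_sub_comm]
    have e : 4 * S.C ^ 2 * (2 * r0 S lm) = lm / 2 := by unfold r0; field_simp; ring
    have e1 := mul_le_mul_of_nonneg_left a3 (show 0 ≤ 4 * S.C ^ 2 by positivity)
    have e2 : lm ≤ Pl57.ls S M k := (X.lsb k h0 kp).1
    linarith [X.lm0]
  have ip : i < S.Jp := by
    by_contra hh
    have f1 : ((S.Jp - 1 : ℕ) : ℝ) ≤ i := by exact_mod_cast (by omega : S.Jp - 1 ≤ i)
    have f2 : (k : ℝ) ≤ (S.Jp - 1 : ℕ) := by exact_mod_cast (by omega : k ≤ S.Jp - 1)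
    have e := key (S.Jp - 1) (by omega) (by omega) (le_trans (by
      gcongr ?_ * _
      rw [abs_of_nonneg (by linarith), abs_of_nonneg (by linarith)]; linarith) hd)
    have e1 := (X.lw_le (y := S.Jp - 1) (by omega) (by omega)).trans (min_le_right _ _)
    have e2 := X.du_succ (S.Jp - 1)
    rw [show S.Jp - 1 + 1 = S.Jp by omega] at e2
    have e3 : uu S M (M.z (k - 1)) ≤ du M k := min_le_right _ _
    have e4 := (abs_le.1 e).2
    have e5 := X.duP
    unfold du at *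
    linarith
  exact ⟨ip, key i i0 ip hd⟩

theorem tq_shell {i k : ℕ} (i0 : S.J ≤ i) (h0 : S.J ≤ k)
    (hs : |M.z (i - 1) - M.z (k - 1)| ≤ uu S M (M.z (k - 1)) / 2) :
    tq S M x i ≤ 2 * tq S M x k := by
  have P0 := X.P0
  have p0 := X.x0
  have u0 := X.u0
  have C0 := X.h.C0
  obtain ⟨b1, b2⟩ := abs_le.1 hs
  have b3 : uu S M (M.z (k - 1)) ≤ dl S M k := min_le_left _ _
  have b4 : uu S M (M.z (k - 1)) ≤ du M k := min_le_right _ _
  have e2 : uA S M x i ≤ 2 * uA S M x k := sq_two P0.le (by linarith [X.dl0 i0])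
    (by linarith [X.dl0 h0]) (by unfold dl at *; linarith)
  have e3 : uB M x i ≤ 2 * uB M x k := sq_two P0.le (by linarith [X.du0 i])
    (by linarith [X.du0 k]) (by unfold du at *; linarith)
  unfold tq
  nlinarith

/-! ### location -/

theorem upB {k : ℕ} (h0 : S.J ≤ k) (h1 : k ≤ S.Jp) : M.del m a k ≤ 3 * uB M x k + γ := by
  have P0 := X.P0
  have d0 := X.du0 k
  have j1 : 1 ≤ S.J := by have := X.h.i2; omega
  have e := X.uB_sq k
  have b0 : 0 ≤ uB M x k := sqrt_nonneg _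
  rcases le_total (x ^ 3) (du M k) with c | c
  · have := persist X.h.leg.zm (f := M.del m a) (a := k - 1) (b := S.Jp) (by omega)
      (fun y hy => mem_union_right _ (by simp only [mem_Ioc, mem_Icc] at *; omega)) two_ne_zero X.en'
      (W := du M k + x ^ 3) (by positivity) (by rw [X.h.top _ le_rfl]; unfold du at *; linarith) b0
      e.ge (F := M.del m a k - γ) fun y a b => (X.dmono h0 (by omega) b).trans (le_abs_self _)
    linarith
  · have e1 := X.uB_ge (k := k) (z := 2 * x ^ 3) (y := 1 / 2) (by linarith) (by linarith)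
    linarith [(abs_le.1 (X.del1 h1)).2, X.γ0]

section loc
variable {kb n k0 : ℕ} (I : Ix S M x kb n k0)
include I

theorem memT {y : ℕ} (h0 : kb ≤ y) (h1 : y ≤ S.Jp) :
    y ∈ sb S M (T0 S M / 4) S.C ∪ Icc S.J S.Jp := by
  rcases lt_or_ge y S.J with e | e
  · exact mem_union_left _ (mem_filter.2 ⟨mem_Ioo.2 ⟨I.jl.trans_le h0, e⟩,
      I.sb.trans (X.h.sm h0), X.h.s_le_C h1⟩)
  · exact mem_union_right _ (mem_Icc.2 ⟨e, h1⟩)

theorem sup {k : ℕ} (h0 : k0 ≤ k) (h1 : k ≤ S.J) : |M.del m a k| ≤ 6 * (S.C * x) := by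
  have h := X.h
  have v0 := h.v0
  have C1 := h.C1
  have p0 := X.x0
  have e0 := I.e0
  have kJ := I.k0J
  have Jp := X.JJ
  have n1 := I.n1
  have n0 : 0 < n := by
    by_contra hh
    rw [show n = 0 by omega] at n1
    simp at n1; linarith
  have c1 : S.C * (n * S.v) ≤ 2 * (S.C * x) := by nlinarith [I.n2]
  have c2 : S.C * S.v ≤ S.C * x := by gcongr; exact X.vp
  have c3 : γ ≤ S.C * x := X.γp.trans (le_mul_of_one_le_left p0.le C1)
  have hV : x ^ 3 ≤ (S.C * x) ^ 2 * (2 * (n * (S.v / S.C))) := by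
    calc x ^ 3 = x ^ 2 * x := by ring
      _ ≤ S.C * x ^ 2 * (2 * (n * S.v)) := by
          gcongr
          exacts [le_mul_of_one_le_left (by positivity) C1, by linarith]
      _ = _ := by field_simp
  have lo : ∀ k, k0 ≤ k → k < S.J → -M.del m a k ≤ 4 * (S.C * x) := fun k a' b => by
    have := lo_slope h (f := M.del m a) (K := S.C) (kb := kb) (k := k) (n := n) h.C0.le
      (by have := h.i1; have := I.jl; omega) n0 (by omega) b (fun y _ _ => X.sl y (by omega))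
      (fun y hy => X.memT I (mem_Ioc.1 hy).1.le (by have := (mem_Ioc.1 hy).2; omega)) two_ne_zero
      X.en' (by positivity) hV
    linarith
  have uJ := X.upB le_rfl Jp.le
  have tJ := X.uBJ
  have s : Qf24.Sl (M.del m a) (S.C * S.v) kb S.Jp := fun y _ b => X.sl y b
  refine abs_le.2 ⟨?_, ?_⟩
  · rcases lt_or_eq_of_le h1 with e | e
    · linarith [lo k h0 e, mul_pos h.C0 p0]
    · have e1 := X.sl (S.J - 1) (by omega)
      rw [show S.J - 1 + 1 = S.J by omega] at e1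
      rw [e]
      linarith [lo (S.J - 1) (by omega) (by omega), mul_pos h.C0 p0]
  · rcases le_or_gt S.J (k + n) with e | e
    · have := s.le' (by positivity) (i := k) (j := S.J) (U := n) (by omega) h1 Jp.le e
      linarith
    · have z := (h.z_tel (i := k) (j := k + n) (by have := h.i1; have := I.jl; omega)
        (by omega) e).1
      push_cast at z
      rw [add_sub_cancel_left] at z
      have := persist h.leg.zm (f := M.del m a) (a := k) (b := k + n) (by omega)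
        (fun y hy => X.memT I (by have := (mem_Ioc.1 hy).1; omega)
          (by have := (mem_Ioc.1 hy).2; omega)) two_ne_zero X.en'
        (by positivity) (by linarith) (by positivity) hV
        (F := M.del m a k - S.C * S.v * n) fun y a b =>
          (s.le' (by positivity) (i := k) (j := y) (U := n) (by omega) a.le (by omega) b).trans
            (le_abs_self _)
      linarith [mul_pos h.C0 p0]

theorem loc {k : ℕ} (h0 : S.J ≤ k) (h1 : k ≤ S.Jp) : |M.del m a k| ≤ tq S M x k := by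
  have d0 := X.u0.trans_le (X.dl0 h0)
  have u0 := X.u0
  have p0 := X.x0
  have up := X.up
  have C1 := X.h.C1
  have j1 : 1 ≤ S.J := by have := X.h.i2; omega
  have A0 : 0 ≤ uA S M x k := sqrt_nonneg _
  have B0 : 0 ≤ uB M x k := sqrt_nonneg _
  have g : γ ≤ 2 * uA S M x k := by linarith [X.γb, X.uA_b h0]
  have t := X.tq_ge h0
  refine abs_le.2 ⟨?_, by linarith [X.upB h0 h1]⟩
  rcases le_total x (M.z (k - 1) - M.z (S.J - 1)) with c | c
  · have := persist X.h.leg.zm (f := M.del m a) (a := S.J - 1) (b := k - 1) (by omega)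
      (fun y hy => mem_union_right _ (by simp only [mem_Ioc, mem_Icc] at *; omega)) two_ne_zero X.en'
      (W := (dl S M k + x) / 2) (l := 2 * uA S M x k) (by positivity)
      (by unfold dl; linarith) (by positivity)
      (by nlinarith [X.uA_sq h0, X.P0]) (F := -M.del m a k - γ) fun y a' b => by
        linarith [X.dmono (i := y) (k := k) (by omega) (by omega) h1, neg_le_abs (M.del m a y)]
    linarith
  · have e := X.uA_ge h0 (y := x / 2) (z := 3 * x) (by unfold dl; linarith) (by nlinarith [X.P0])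
    have e1 := (abs_le.1 (X.sup I I.k0J.le le_rfl)).1
    have e2 := X.dmono le_rfl h0 h1
    unfold tq
    nlinarith [mul_le_mul_of_nonneg_left e (show 0 ≤ S.C by linarith)]

end loc

/-! ### the windows on the plateau -/

theorem r00 : 0 < r0 S lm := by
  have := X.lm0
  have := X.h.C0
  unfold r0; positivity

theorem r0b : 16 * (S.C ^ 2 * r0 S lm) ≤ √(x ^ 3) := by
  have := X.h.C0
  have e : 16 * (S.C ^ 2 * r0 S lm) = lm := by unfold r0; field_simp
  linarith [X.lmγ, X.γb]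

theorem r0c : 16 * (S.C * r0 S lm) ≤ √(x ^ 3) ∧ 16 * r0 S lm ≤ √(x ^ 3) := by
  have C1 := X.h.C1
  have r := X.r00
  have a1 : S.C * r0 S lm ≤ S.C ^ 2 * r0 S lm := by gcongr; nlinarith
  have a2 : r0 S lm ≤ S.C * r0 S lm := le_mul_of_one_le_left r.le C1
  constructor <;> linarith [X.r0b]

theorem rq_le {k : ℕ} (h0 : S.J ≤ k) : rq S M x lm k ≤ 2 * r0 S lm := by
  have r := X.r00
  have x0 := X.x0
  calc _ ≤ r0 S lm / x * (x + x) := by
        unfold rq; gcongr; exacts [X.uA_le h0, min_le_right _ _]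
    _ = _ := by field_simp; ring

theorem rq_A {k : ℕ} : r0 S lm / x * uA S M x k ≤ rq S M x lm k := by
  have r := X.r00
  have x0 := X.x0
  have : 0 ≤ min (uB M x k) x := le_min (sqrt_nonneg _) x0.le
  unfold rq; gcongr; linarith

theorem rq_B {k : ℕ} : r0 S lm / x * min (uB M x k) x ≤ rq S M x lm k := by
  have r := X.r00
  have x0 := X.x0
  have : 0 ≤ uA S M x k := sqrt_nonneg _
  unfold rq; gcongr; linarith

theorem rq_b {k : ℕ} (h0 : S.J ≤ k) : r0 S lm / x * (√(x ^ 3) / 2) ≤ rq S M x lm k := by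
  have r := X.r00
  have x0 := X.x0
  exact le_trans (by gcongr; exact X.uA_b h0) X.rq_A

theorem rqJ : r0 S lm / 2 ≤ rq S M x lm S.J := by
  have r := X.r00
  have x0 := X.x0
  calc _ = r0 S lm / x * (x / 2) := by field_simp
    _ ≤ r0 S lm / x * uA S M x S.J := by gcongr; exact X.uAJ
    _ ≤ _ := X.rq_A

theorem rq_tq {k : ℕ} (h0 : S.J ≤ k) : x * rq S M x lm k ≤ r0 S lm * tq S M x k := by
  have r := X.r00
  have x0 := X.x0
  have a1 : 0 ≤ uA S M x k := sqrt_nonneg _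
  have a2 : 0 ≤ uB M x k := sqrt_nonneg _
  calc _ = r0 S lm * (uA S M x k + min (uB M x k) x) := by unfold rq; field_simp
    _ ≤ _ := by gcongr; linarith [X.tq_ge h0, min_le_left (uB M x k) x]

theorem rq_lip {k : ℕ} (h0 : S.J ≤ k) (h1 : k < S.Jp) :
    |rq S M x lm (k + 1) - rq S M x lm k| ≤ S.v := by
  have r := X.r00
  have x0 := X.x0
  have P0 := X.P0
  have u0 := X.u0
  have v0 := X.h.v0
  have C1 := X.h.C1
  have l0 := X.lm0
  have w0 := X.lw0 k
  have d0 := X.dl0 h0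
  have w1 := (X.lw_le h0 h1).trans (min_le_right _ _)
  have w2 := X.lw_lm h0 h1
  have m1 := mul_le_mul_of_nonneg_left (min_le_left (dl S M k) (du M k))
    (show 0 ≤ S.C * S.v by positivity)
  have m2 := mul_le_mul_of_nonneg_left (min_le_right (dl S M k) (du M k))
    (show 0 ≤ S.C * S.v by positivity)
  have d1 := X.du0 (k + 1)
  obtain ⟨a1, a2⟩ := sq_ratio P0.le (show 0 < dl S M k + x by linarith)
    (show dl S M k + x ≤ dl S M (k + 1) + x by linarith [X.dl_succ k])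
  obtain ⟨b1, b2⟩ := sq_ratio P0.le (show 0 < du M (k + 1) + x ^ 3 by linarith)
    (show du M (k + 1) + x ^ 3 ≤ du M k + x ^ 3 by linarith [X.du_succ k])
  change uA S M x (k + 1) ≤ uA S M x k at a1
  change uA S M x k - uA S M x (k + 1) ≤ uA S M x (k + 1) * _ at a2
  change uB M x k ≤ uB M x (k + 1) at b1
  change uB M x (k + 1) - uB M x k ≤ uB M x k * _ at b2
  have z0 : 0 ≤ 2 * (S.C * S.v) / lm := by positivity
  have a3 : (dl S M (k + 1) + x - (dl S M k + x)) / (dl S M k + x) ≤ 2 * (S.C * S.v) / lm := by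
    rw [div_le_div_iff₀ (by linarith) l0, X.dl_succ]
    nlinarith [mul_pos (mul_pos X.h.C0 v0) x0, mul_pos (mul_pos X.h.C0 v0) (u0.trans_le d0)]
  have b3 : (du M k + x ^ 3 - (du M (k + 1) + x ^ 3)) / (du M (k + 1) + x ^ 3) ≤
      2 * (S.C * S.v) / lm := by
    rw [div_le_div_iff₀ (by linarith) l0, X.du_succ]
    nlinarith [mul_pos (mul_pos X.h.C0 v0) P0, mul_le_mul_of_nonneg_left w1
      (show 0 ≤ S.C * S.v by positivity), mul_nonneg (mul_pos X.h.C0 v0).le w0]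
  have a4 : uA S M x k - uA S M x (k + 1) ≤ x * (2 * (S.C * S.v) / lm) :=
    a2.trans (mul_le_mul (X.uA_le (by omega)) a3 (div_nonneg (by linarith [X.dl_succ k])
      (by linarith)) x0.le)
  have b4 : min (uB M x (k + 1)) x - min (uB M x k) x ≤ x * (2 * (S.C * S.v) / lm) := by
    rcases le_total (uB M x k) x with c | c
    · rw [min_eq_left c]
      refine le_trans (by linarith [min_le_left (uB M x (k + 1)) x]) (b2.trans ?_)
      exact mul_le_mul c b3 (div_nonneg (by linarith [X.du_succ k]) (by linarith)) x0.le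
    · rw [min_eq_right c]
      linarith [min_le_right (uB M x (k + 1)) x, mul_nonneg x0.le z0]
  have b5 := min_le_min_right x b1
  have e : r0 S lm / x * (x * (2 * (S.C * S.v) / lm)) ≤ S.v := by
    have : r0 S lm / x * (x * (2 * (S.C * S.v) / lm)) = S.v / (8 * S.C) := by
      unfold r0; field_simp; ring
    rw [this]
    exact div_le_self v0.le (by linarith)
  unfold rq
  rw [← mul_sub, abs_mul, abs_of_pos (show 0 < r0 S lm / x by positivity)]
  refine le_trans (mul_le_mul_of_nonneg_left (abs_le.2 ⟨?_, ?_⟩) (by positivity)) e <;> linarith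

end Ex

end Crest.Agent.T156.Alt.R62.Eq78

end
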