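import Crest.Agent.T156.QGen_57

/-!
# Row 156, block Q: increments over long windows (helper58)
-/

set_option autoImplicit false
set_option maxHeartbeats 400000
set_option linter.unusedVariables false

noncomputable section

namespace Crest.Agent.T156.Q57

open MeasureTheory Finset Real Crest.Agent.T156.Q21

/-- increments between any two inner nodes -/
theorem syncD (i : ℕ) (K : ℝ) (hi : 1 ≤ i) : ∃ C : ℝ, 1 ≤ C ∧
  ∀ (α ι : Type) [MeasurableSpace α] [Fintype ι] (S : Sys α ι) (L J j0 j1 : ℕ) (v l2 l3 e P Z : ℝ)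
    (N : ℕ → ℕ) (τ c g : ℕ → ℝ), S.Ok → S.Good L v l2 l3 (e ^ 2 ^ i) j0 j1 →
    S.Win L v l2 l3 K j0 j1 N τ c g → 0 ≤ e → e ≤ v → e ≤ l3 → 1 ≤ P → (2 : ℝ) ^ (L + 3) ≤ P ^ 2 ^ i →
    1 ≤ Z → 4 / v ≤ Z ^ 2 ^ J → ∀ j j', j0 + (J + 1) * (8 * 2 ^ L) ≤ j → j ≤ j' →
      j' + (J + 1) * (8 * 2 ^ L) ≤ j1 →
        Nb S.μ (2 ^ i) (fun a => sq2 (S.m j' a - S.m j a))
          (C * P * Z * (τ j + τ j' + ((j' : ℝ) - j) * v)) := by
  have hN := N89.nbS
  have hQ := N89.qvS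
  obtain ⟨CB, CB1, hB⟩ := blpS i
  set B0 : ℝ := 16 * (2 ^ i : ℕ) * (16 * K * (2 * CB + K + 7) + K + 9) with hB0
  refine ⟨|(2 * CB + K + 7) * B0 * 6| + 4, by linarith [abs_nonneg ((2 * CB + K + 7) * B0 * 6)],
    fun α ι _ _ S L J j0 j1 v l2 l3 e P Z N τ c g H hG W e0 ev e3 P1 hP Z1 hZ j j' h0 h2 h1 => ?_⟩
  have := H.prob
  obtain ⟨Bad, mB, μB, hG⟩ := hG.ex
  have hp : 1 ≤ 2 ^ i := Nat.one_le_two_pow
  have hp2 : 2 ≤ 2 ^ i := by
    calc 2 = 2 ^ 1 := rfl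
      _ ≤ 2 ^ i := Nat.pow_le_pow_right two_pos hi
  have pr : (1 : ℝ) ≤ (2 ^ i : ℕ) := by exact_mod_cast hp
  have dok := dat_ok (Bad := Bad) (L := L) (j1 := j1) (l2 := l2) (N := N) (c := c) hN H hp mB μB e0
    W.v0 W.l30.le
  have X : Ctx S (ns hN S.μ hp) Bad L j0 j1 v l2 l3 e K CB (16 * (2 ^ i : ℕ) * P) N τ c g := by
    refine ⟨H, W, dok, fun t a b => dat_gd H W.v0 W.l20.le W.l30.le hG (W.N1 _) a b, ev, e3, CB1,
      by nlinarith, fun j => ?_, fun J φ γ h => ?_, fun b h n X hn hX => ?_⟩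
    · refine nr_le hp ((hQ α ι S H).2.1 _ j (N j) (c j) _ hp2 (W.N1 j) ?_)
      have : (fun a => max ((dat S Bad L j1 v l2 l3 e N c).rb (j, true) a -
          (dat S Bad L j1 v l2 l3 e N c).γ (j, true)) 0) =
          fun a => max (av j (N j) (fun y => S.rho y a) - c j) 0 := funext fun a => by
        rw [dat_rb]; rfl
      show Nb _ _ _ (nr S.μ _ _)
      rw [this]; exact nb_nr hp _
    · refine nr_le hp ((hN α S.μ _ hp).2.2.1 _ _ ?_ (hB α ι S H J φ γ (nb_of_le hp h)))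
      exact (ns hN S.μ hp).c_sum _ fun y _ => (ns hN S.μ hp).c_cmul _ ((ns hN S.μ hp).c_cmul _
        ((ns hN S.μ hp).c_sub (dok.cρ y) (bm_const _)))
    · refine nr_le hp ((hQ α ι S H).1 _ b h n X P hp2 P1 (le_trans ?_ hP)
        fun i hi => nb_of_le hp (hX i hi))
      exact_mod_cast hn
  have K1 := W.K1
  have t0 := X.τ0 j
  have t0' := X.τ0 j'
  have v0 := W.v0
  have d0 : 0 ≤ ((j' : ℝ) - j) * v :=
    mul_nonneg (by rw [sub_nonneg]; exact_mod_cast h2) v0.le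
  have a0 := abs_nonneg ((2 * CB + K + 7) * B0 * 6)
  have PZ : 1 ≤ P * Z := by nlinarith
  refine nb_of_le hp ?_
  cases J with
  | zero =>
    have c4 := (ns hN S.μ hp).mono' (dok.cinc j j') (bm_const 4) fun a => by
      rw [abs_of_nonneg (Dat.inc0 _ _ _)]
      have : (dat S Bad L j1 v l2 l3 e N c).inc j j' a ≤ 2 * (S.rho j' a + S.rho j a) := by
        simp only [Dat.inc, Sys.rho, sq2, mul_sum, ← sum_add_distrib]
        exact sum_le_sum fun k _ => by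
          show (S.m j' a k - S.m j a k) ^ 2 ≤ _
          nlinarith [sq_nonneg (S.m j' a k + S.m j a k)]
      linarith [H.bd j a, H.bd j' a]
    refine (c4.trans ((ns hN S.μ hp).const 4 (by norm_num))).trans ?_
    rw [pow_zero, pow_one, div_le_iff₀ W.v0] at hZ
    have b1 := mul_le_mul_of_nonneg_left (X.v_le j) (zero_le_one.trans Z1)
    have b3 : 1 ≤ (|(2 * CB + K + 7) * B0 * 6| + 4) * P := by nlinarith
    have b2 : Z * τ j ≤ Z * (τ j + τ j' + ((j' : ℝ) - j) * v) := by gcongr; linarith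
    calc (4 : ℝ) ≤ 1 * (Z * (τ j + τ j' + ((j' : ℝ) - j) * v)) := by linarith
      _ ≤ (|(2 * CB + K + 7) * B0 * 6| + 4) * P * (Z * (τ j + τ j' + ((j' : ℝ) - j) * v)) := by
          gcongr
      _ = _ := by ring
  | succ J =>
    have I := X.iter (B := B0 * P) (by rw [hB0]; ring) Z1 hZ J (Nat.le_succ J)
    rw [show J + 1 - J = 1 by omega, pow_one, ← mul_pow] at I
    have B1 : 1 ≤ B0 := by
      have a : 0 ≤ 16 * K * (2 * CB + K + 7) := by positivity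
      nlinarith
    have BP : 1 ≤ B0 * P * Z := by nlinarith
    have hj : Rg L j0 j1 (J + 1) j := ⟨h0, by omega⟩
    have hj' : Rg L j0 j1 (J + 1) j' := ⟨by omega, h1⟩
    have k := X.inc_le (one_le_pow₀ BP) I (i := j) (j := j') (hj.near (by omega) (by omega))
      (hj'.near (by omega) (by omega)) (d := j' - j) h2 (by omega)
    rw [sqrt_sq (by positivity), Nat.cast_sub h2] at k
    refine le_trans k ?_
    set y := τ j + τ j' + ((j' : ℝ) - j) * v with hy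
    have y0 : 0 ≤ y := by positivity
    have b1 := mul_le_mul_of_nonneg_left (show 6 * τ j + 2 * τ j' ≤ 6 * y by linarith)
      (show 0 ≤ (2 * CB + K + 7) * (B0 * P * Z) by positivity)
    have b3 : 0 ≤ P * Z * y := by positivity
    have b4 := mul_le_mul_of_nonneg_right (le_abs_self ((2 * CB + K + 7) * B0 * 6)) b3
    have b5 := mul_le_mul_of_nonneg_right PZ y0
    have b6 : ((j' : ℝ) - j) * v ≤ y := by linarith
    nlinarith

end Crest.Agent.T156.Q57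

namespace Crest.Agent.T156.Cas.G58

open MeasureTheory Real Finset
open Crest.Agent.T157.E Crest.Agent.T157.Casc Crest.Agent.T157.SL
open Crest.Agent.T156.Cas.Sy41 Crest.Agent.T156.Q57 Crest.Agent.T156.Cas.Lp12
open QCas98 G57

/-- long increments on a cascade, any window system -/
theorem inc_cas (r i : ℕ) (K : ℝ) (hi : 1 ≤ i) (hr : r ≤ i) : ∃ C : ℝ, 1 ≤ C ∧
    ∀ (Ω : Type) [Fintype Ω] (w : Ω → ℝ) (L : List (Lv Ω)) (h : Ω → ℝ) (l₀ : Lv Ω) (τ : ℕ → ℝ)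
      (t' : ℕ → ℕ) (LL j0 j1 j2 : ℕ) (x v w3 lam : ℝ) (N : ℕ → ℕ) (tol c g : ℕ → ℝ),
      Dat w L h l₀ τ → Ric L τ t' LL j0 j1 j2 x v w3 K → C ≤ lam → Pol r LL j1 v lam →
      (sysC w L h l₀).Win LL v (lam * w3 / x) (lam * K * w3) K j0 j1 N tol c g →
      ∀ j j', j0 + (r + 2) * (8 * 2 ^ LL) ≤ j → j ≤ j' → j' + (r + 2) * (8 * 2 ^ LL) ≤ j1 →
        Mo w L h (2 ^ i) (iP w L l₀ j j') (lam ^ 3 * (tol j + tol j' + ((j' : ℝ) - j) * v)) := by
  obtain ⟨C3, C31, h3⟩ := syncD i K hi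
  obtain ⟨C2, C21, h2⟩ := goodS (1 + r * 3 + r * 2 ^ i)
  refine ⟨max C2 C3, le_max_of_le_right C31, ?_⟩
  intro Ω _ w L h l₀ τ t' LL j0 j1 j2 x v w3 lam N tol c g D R hC P W j j' hj hjj hj'
  have := D.ok.prob
  have c2 : C2 ≤ lam := (le_max_left _ _).trans hC
  have c3 : C3 ≤ lam := (le_max_right _ _).trans hC
  have l1 : 1 ≤ lam := C31.trans c3
  have v0 := R.v0
  have K1 := R.K1
  have w0 : 0 < w3 := by linarith [R.vw]
  have G := h2 Ω w D.hw L h l₀ τ t' LL j0 j1 j2 x v w3 K lam D.mono D.one D.dom R.x0 R.v0 R.vw R.K1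
    l1 R.j12 R.j2L R.blk R.top R.up R.sum
  set M := lam ^ r with hM
  have M8 : 8 ≤ M := by
    refine le_trans ?_ P.L1
    rw [pow_add]
    have : (1 : ℝ) ≤ 2 ^ LL := one_le_pow₀ one_le_two
    linarith
  have LM : (LL : ℝ) + 2 ≤ M := by
    refine le_trans ?_ P.L1
    have : LL + 3 < 2 ^ (LL + 3) := Nat.lt_two_pow_self
    have : ((LL + 3 : ℕ) : ℝ) < ((2 ^ (LL + 3) : ℕ) : ℝ) := by exact_mod_cast this
    push_cast at this
    linarith
  have hη : C2 * ((LL + 2) * (j1 + 1) ^ 2) / lam ^ (1 + r * 3 + r * 2 ^ i) ≤ v ^ 2 ^ i := by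
    rw [div_le_iff₀ (by positivity), pow_add, pow_add, pow_one, pow_mul, pow_mul, ← hM]
    have a1 : C2 * ((LL + 2) * (j1 + 1) ^ 2) ≤ lam * M ^ 3 := by
      have : ((LL : ℝ) + 2) * (j1 + 1) ^ 2 ≤ M * M ^ 2 :=
        mul_le_mul LM (pow_le_pow_left₀ (by positivity) P.j1 2) (by positivity) (by positivity)
      calc _ ≤ lam * (M * M ^ 2) := mul_le_mul c2 this (by positivity) (by positivity)
        _ = _ := by ring
    have a2 : 1 ≤ v ^ 2 ^ i * M ^ 2 ^ i := by rw [← mul_pow]; exact one_le_pow₀ P.v1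
    calc _ ≤ lam * M ^ 3 * 1 := by rwa [mul_one]
      _ ≤ lam * M ^ 3 * (v ^ 2 ^ i * M ^ 2 ^ i) := mul_le_mul_of_nonneg_left a2 (by positivity)
      _ = _ := by ring
  have G' := G.mono v0.le le_rfl le_rfl hη
  have q1 : v ≤ lam * K * w3 := by
    have : 1 ≤ lam * K := one_le_mul_of_one_le_of_one_le l1 K1
    nlinarith [R.vw]
  have q2 : (2 : ℝ) ^ (LL + 3) ≤ lam ^ 2 ^ i :=
    P.L1.trans (pow_le_pow_right₀ l1 (hr.trans Nat.lt_two_pow_self.le))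
  have q3 : 4 / v ≤ lam ^ 2 ^ (r + 1) := by
    have a1 : 4 / v ≤ M * M := by
      rw [div_le_iff₀ v0]
      nlinarith [P.v1]
    refine a1.trans ?_
    rw [hM, ← pow_add]
    refine pow_le_pow_right₀ l1 ?_
    have : r < 2 ^ r := Nat.lt_two_pow_self
    rw [pow_succ]; omega
  have key := h3 _ _ (sysC w L h l₀) LL (r + 1) j0 j1 v _ _ v lam lam N tol c g D.ok G' W v0.le
    le_rfl q1 l1 q2 l1 q3 j j' hj hjj hj'
  have t0 : ∀ j, 0 ≤ tol j := fun j => le_trans (by positivity) (W.Nv j)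
  have d0 : 0 ≤ ((j' : ℝ) - j) * v :=
    mul_nonneg (by rw [sub_nonneg]; exact_mod_cast hjj) v0.le
  have b0 : C3 * lam * lam ≤ lam ^ 3 := by
    nlinarith [mul_pos (zero_lt_one.trans_le l1) (zero_lt_one.trans_le l1)]
  exact mo_of_nb D.hw (ep_iP D.hw j j') (Blk24.nb_le key
    (mul_le_mul_of_nonneg_right b0 (by linarith [t0 j, t0 j'])))

/-- **long increments for windows `ρ` and a tolerance `tl`** (prefix of `G57.gen_syn`) -/
theorem gen_inc (r i : ℕ) (K : ℝ) (hi : 1 ≤ i) (hr : r ≤ i) : ∃ C : ℝ, 1 ≤ C ∧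
    ∀ (Ω : Type) [Fintype Ω] (w : Ω → ℝ) (L : List (Lv Ω)) (h : Ω → ℝ) (l₀ : Lv Ω) (τ : ℕ → ℝ)
      (t' : ℕ → ℕ) (LL j0 j1 j2 a0 a1 : ℕ) (x v w3 lam : ℝ) (c ρ tl : ℕ → ℝ),
      Dat w L h l₀ τ → Ric L τ t' LL j0 j1 j2 x v w3 K → C ≤ lam → Pol r LL j1 v lam →
      GB w L h l₀ LL j0 j1 x v w3 K lam c ρ tl →
      j0 + (r + 3) * (8 * 2 ^ LL) ≤ a0 → a1 + (r + 3) * (8 * 2 ^ LL) ≤ j1 →
      ∀ j j', a0 ≤ j → j ≤ j' → j' ≤ a1 →
        Mo w L h (2 ^ i) (iP w L l₀ j j') (lam ^ 3 * (tl j + tl j' + ((j' : ℝ) - j) * v)) := by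
  obtain ⟨C, C1, H⟩ := inc_cas r i K hi hr
  refine ⟨C, C1, ?_⟩
  intro Ω _ w L h l₀ τ t' LL j0 j1 j2 a0 a1 x v w3 lam c ρ tl D R hC P B h0 h1 j j' b0 b1 b2
  have hP : 0 < 2 ^ LL := Nat.two_pow_pos LL
  have l1 : 1 ≤ lam := C1.trans hC
  have e : (r + 3) * (8 * 2 ^ LL) = (r + 2) * (8 * 2 ^ LL) + 8 * 2 ^ LL := by ring
  have S := H Ω w L h l₀ τ t' LL (j0 + 2 ^ LL + 1) (j1 - 2 ^ LL) j2 x v w3 lam _ _ _ _ D
    (R.sub (by omega) (by omega)) hC ⟨P.v1, P.L1, le_trans (by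
      have : ((j1 - 2 ^ LL : ℕ) : ℝ) ≤ j1 := by exact_mod_cast Nat.sub_le _ _
      linarith) P.j1⟩ (B.win D R (by linarith) (Nat.lt_succ_self _) (by omega)) j j' (by omega) b1
      (by omega)
  rwa [cl_eq tl (by omega) (by omega), cl_eq tl (by omega) (by omega)] at S

end Crest.Agent.T156.Cas.G58

end
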