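import Crest.Agent.T156.QPr_57

/-!
# Row 156, block Q: the centred pair bound on dyadic chains (helper57)
-/

set_option autoImplicit false
set_option linter.unusedSectionVars false
set_option linter.unusedVariables false

noncomputable section

namespace Crest.Agent.T156.Cas.Pr57

open MeasureTheory Real Finset
open Crest.Agent.T157.E Crest.Agent.T157.Casc Crest.Agent.T157.SL
open Crest.Agent.T156.Cas.Sy41 Crest.Agent.T156.Cas.Lp12 Crest.Agent.T156.Cas.QCas98
open Crest.Agent.T156.Cas.LpR43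

variable {Ω : Type} [Fintype Ω] {w : Ω → ℝ} {L : List (Lv Ω)} {h : Ω → ℝ} {l₀ : Lv Ω} {τ : ℕ → ℝ}

/-- **pairs**: tolerance in the cone `β (N + |i - j|)` on `[j - 2 ^ LL, j + Dn]` -/
theorem pairL (D : Dat w L h l₀ τ) {t' : ℕ → ℕ} {LL j0 j1 j2 : ℕ} {x v w3 K : ℝ}
    (R : Ric L τ t' LL j0 j1 j2 x v w3 K) {n j N Dn : ℕ} (hn : 1 ≤ n) {c T : ℕ → ℝ} {A β B C : ℝ}
    (N1 : 1 ≤ N) (ND : N ≤ Dn) (DU : Dn ≤ 2 ^ LL) (h0 : j0 + 2 ^ LL ≤ j) (h1 : j + 2 ^ LL ≤ j1)
    (loc : ∀ i, j ≤ i → i ≤ j + N → Mo w L h (2 * n) (fun q => rP w L l₀ i q - c i) (A * T i))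
    (inc : ∀ i i', j ≤ i + 2 ^ LL → i ≤ i' → i' ≤ j + 2 ^ LL →
      Mo w L h (2 * n) (iP w L l₀ i i') (A * (T i + T i' + ((i' : ℝ) - i) * v)))
    (cone : ∀ i, j ≤ i + 2 ^ LL → i ≤ j + Dn → T i ≤ β * (N + |(i : ℝ) - j|)) (vβ : v ≤ β)
    (A1 : 1 ≤ A) (clk : |c (j + N) - c j| ≤ N * v) (hC : cK n ≤ C ^ (2 * n))
    (b1 : C ^ 2 * (8 * A * β * (w3 / (x * v))) ≤ B ^ 2) (b2 : C ^ 2 * (4 * (w3 / (x * (Dn * v)))) ≤ B ^ 2)
    (b3 : 4 * A * β * N ≤ B) :
    pi2 w L j (fun x y => (l₀.cov x y - c j) ^ (2 * n)) h ≤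
      (120 * (LL + 4) ^ 2 * B) ^ (2 * n) := by
  have hw := D.hw
  have v0 := R.v0
  have x0 := R.x0
  have w0 : 0 < w3 := by linarith [R.vw]
  have β0 : 0 < β := v0.trans_le vβ
  have N0 : (1 : ℝ) ≤ N := by exact_mod_cast N1
  have D0 : (N : ℝ) ≤ Dn := by exact_mod_cast ND
  have B0 : 0 < B := lt_of_lt_of_le (by positivity) b3
  have pU : 2 ^ LL ≤ (2 ^ (LL + 1) - 1) * N := by
    have := Nat.two_pow_pos LL
    exact le_trans (by rw [pow_succ]; omega) (Nat.le_mul_of_pos_right _ N1)
  have fin : ∀ y : ℝ, 0 ≤ y → C ^ 2 * y ≤ B ^ 2 → cK n * y ^ n ≤ B ^ (2 * n) := fun y y0 e => by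
    refine (mul_le_mul_of_nonneg_right hC (by positivity)).trans ?_
    rw [pow_mul, pow_mul, ← mul_pow]
    exact pow_le_pow_left₀ (by positivity) e n
  have stp : ∀ a : ℕ, 1 ≤ a → cK n * (w3 / (x * (a * v)) * (8 * A * β * a)) ^ n ≤ B ^ (2 * n) :=
    fun a ha => by
      have : (0 : ℝ) < a := by exact_mod_cast ha
      exact fin _ (by positivity) (le_trans (le_of_eq (by field_simp)) b1)
  have sg : ∀ (i i' a b : ℕ), j ≤ i + 2 ^ LL → i ≤ i' → i' ≤ j + Dn → N ≤ a → b ≤ 2 * a →
      j ≤ i + b → i' ≤ j + b → i' ≤ i + b → Mo w L h (2 * n) (iP w L l₀ i i') (8 * A * β * a) :=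
    fun i i' a b e1 e2 e3 e4 e5 e6 e7 e8 => by
      refine (inc i i' e1 e2 (by omega)).mono ?_
      have ab : ∀ y : ℕ, j ≤ y + b → y ≤ j + b → |(y : ℝ) - j| ≤ b := fun y f1 f2 => by
        have g1 : (j : ℝ) ≤ y + b := by exact_mod_cast f1
        have g2 : (y : ℝ) ≤ j + b := by exact_mod_cast f2
        exact abs_le.2 ⟨by linarith, by linarith⟩
      have f4 : (N : ℝ) ≤ a := by exact_mod_cast e4
      have f5 : (b : ℝ) ≤ 2 * a := by exact_mod_cast e5
      have f8 : (i' : ℝ) ≤ i + b := by exact_mod_cast e8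
      have c1 := (cone i e1 (by omega)).trans (show _ ≤ β * (a + 2 * a) by
        gcongr; exact (ab i e6 (by omega)).trans f5)
      have c2 := (cone i' (by omega) e3).trans (show _ ≤ β * (a + 2 * a) by
        gcongr; exact (ab i' (by omega) e7).trans f5)
      have c3 : ((i' : ℝ) - i) * v ≤ 2 * a * β :=
        mul_le_mul (by linarith) vβ v0.le (by positivity)
      calc _ ≤ A * (8 * β * a) := by gcongr; linarith
        _ = _ := by ring
  set f : ℕ → ℕ := fun l => min (2 ^ l * N) Dn with hf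
  set b : ℕ → ℕ := fun l => min ((2 ^ l - 1) * N) (2 ^ LL) with hb
  have fN : ∀ l, N ≤ f l := fun l => le_min (Nat.le_mul_of_pos_left _ (Nat.two_pow_pos l)) ND
  have fD : ∀ l, f l ≤ Dn := fun l => min_le_right _ _
  have f0 : f 0 = N := by simp [hf, ND]
  have f2 : ∀ l, f (l + 1) ≤ 2 * f l := fun l => by
    simp only [hf, pow_succ, mul_right_comm _ 2 N]
    omega
  have fK : f (LL + 1) = Dn := min_eq_right (DU.trans (pU.trans (by gcongr; omega)))
  have bU : ∀ l, b l ≤ 2 ^ LL := fun l => min_le_right _ _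
  have bm : ∀ l, b l ≤ b (l + 1) := fun l => min_le_min_right _ (by gcongr <;> omega)
  have b2' : ∀ l, b (l + 1) ≤ 2 * (b l + N) := fun l => by
    have := Nat.two_pow_pos l
    obtain ⟨k, hk⟩ : ∃ k, 2 ^ l = k + 1 := ⟨2 ^ l - 1, by omega⟩
    have e : ((k + 1) * 2 - 1) * N = 2 * (k * N) + N := by
      rw [show (k + 1) * 2 - 1 = 2 * k + 1 by omega]; ring
    simp only [hb, pow_succ, hk, Nat.add_sub_cancel, e]
    omega
  have bK : b (LL + 1) = 2 ^ LL := min_eq_right pU
  have T0 : A * T j ≤ B := by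
    have := cone j (by omega) (by omega)
    rw [sub_self, abs_zero, add_zero] at this
    nlinarith [mul_le_mul_of_nonneg_left this (show 0 ≤ A by linarith),
      show 0 ≤ A * β * N by positivity]
  have T1 : A * T (j + N) + |c (j + N) - c j| ≤ B := by
    have := cone (j + N) (by omega) (by omega)
    push_cast at this
    rw [add_sub_cancel_left, Nat.abs_cast] at this
    have e : N * v ≤ A * β * N := by
      rw [mul_comm]; gcongr; exact vβ.trans (le_mul_of_one_le_left β0.le A1)
    nlinarith [mul_le_mul_of_nonneg_left this (show 0 ≤ A by linarith),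
      show 0 ≤ A * β * N by positivity]
  have key := pairC D hn (j := j) (K := LL + 1) (c := fun l => j + f l) (y := fun l => j - b l)
    (θ := fun l => w3 / (x * (f l * v))) (σ := fun l => if l ≤ LL then 8 * A * β * f l else 4)
    (θ' := fun l => w3 / (x * ((b l + N : ℕ) * v)))
    (σ' := fun l => if l ≤ LL then 8 * A * β * (b l + N : ℕ) else 4) (q := c j) B0
    (monotone_nat_of_le_succ fun l => Nat.add_le_add_left (min_le_min_right _ (by gcongr <;> omega)) j)
    (fun l _ => R.win (by omega) (N1.trans (fN l)) le_rfl (by have := fD l; omega))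
    (fun l hl => by
      have := fD (l + 1)
      rw [if_pos (by omega)]
      exact (sg _ _ _ (f (l + 1)) (by omega) (by omega) (by omega) (fN l) (f2 l) (by omega)
        le_rfl le_rfl).lyap hw (by omega))
    (by simp) (fun l hl => by
      split_ifs with e
      · exact stp _ (N1.trans (fN l))
      · rw [show l = LL + 1 by omega, fK]
        exact fin _ (by positivity) (le_trans (le_of_eq (by ring)) b2))
    (by simp [hb]) (fun l _ => by
      have := bU l
      rw [f0]
      exact R.win (by omega) (by omega) (by omega) (by omega))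
    (fun l => by have := bm l; omega)
    (fun l hl => by
      have := bU (l + 1)
      have := bm l
      rw [if_pos (by omega)]
      exact (sg _ _ _ (b (l + 1)) (by omega) (by omega) (by omega) (by omega) (b2' l) (by omega)
        (by omega) (by omega)).lyap hw (by omega))
    (by simp) (fun l hl => by
      split_ifs with e
      · exact stp _ (by omega)
      · rw [show l = LL + 1 by omega, bK]
        have : (Dn : ℝ) ≤ ((2 ^ LL + N : ℕ) : ℝ) := by exact_mod_cast (by omega)
        have : (0 : ℝ) < Dn := by linarith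
        refine fin _ (by positivity) (le_trans ?_ b2)
        rw [mul_comm _ (4 : ℝ)]
        gcongr)
    (by
      rw [f0]
      refine (inc j (j + N) (by omega) (by omega) (by omega)).mono ?_
      have a1 := cone j (by omega) (by omega)
      have a2 := cone (j + N) (by omega) (by omega)
      push_cast at a2 ⊢
      rw [sub_self, abs_zero, add_zero] at a1
      rw [add_sub_cancel_left, Nat.abs_cast] at a2
      rw [add_sub_cancel_left]
      have : N * v ≤ β * N := by rw [mul_comm]; gcongr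
      calc _ ≤ A * (4 * β * N) := by gcongr; linarith
        _ ≤ _ := by linarith)
    ((loc j le_rfl (by omega)).mono T0)
    (by
      rw [f0]
      exact ((((loc (j + N) (by omega) le_rfl).add hw (Mo.const hw (c (j + N) - c j))).congr
        fun _ => by ring).mono T1))
  exact key.trans_eq (by push_cast; ring)

end Crest.Agent.T156.Cas.Pr57

end
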