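import Crest.Agent.T156.EnS_57
import Crest.Agent.T156.QTw_57

/-!
# Row 156 (helper78): the top zone of a model with a short plateau; the frame of block Q
-/

set_option autoImplicit false
set_option linter.unusedSectionVars false
set_option linter.unusedVariables false
set_option maxHeartbeats 400000

noncomputable section

namespace Crest.Agent.T156.Alt.R62.Eq78

open Real Finset Filter
open Crest.Agent.T156.Alt.C33 Crest.Agent.T156.Alt.Md67 Crest.Agent.T156.Alt.Pl57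

/-- the windows on the block -/
def ro (S : Sc) (M : Md) (x lm : ℝ) (T : ℕ → ℝ) (k : ℕ) : ℝ :=
  if k < S.J then min (ta S M x T k / (8 * S.C)) (rq S M x lm S.J + ((S.J : ℝ) - k) * S.v / 2)
  else rq S M x lm (min k S.Jp)

namespace Ex

variable {lam : ℝ} {S : Sc} {M : Md} {m : ℕ} {a x lm γ : ℝ} (X : Ex lam S M m a x lm γ)
include X

theorem w0 : 0 < S.w3 1 := X.F.w3_pos one_pos

theorem l30 : 4096 * S.C ^ 4 ≤ lam ^ 30 := by
  have := X.big
  have := X.h.C0
  calc _ ≤ lam ^ 2 * lam ^ 4 := by gcongr; exacts [by nlinarith, X.Cl]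
    _ = lam ^ 6 := by ring
    _ ≤ _ := X.pw (by norm_num)

theorem rr : lm = 16 * S.C ^ 2 * r0 S lm := by
  have := X.h.C0
  unfold r0; field_simp

theorem g3 : 16 * (S.w3 1 * γ) ≤ r0 S lm ^ 2 * (x * S.u0) := by
  have e := X.h3
  have C0 := X.h.C0
  have e1 := mul_le_mul_of_nonneg_right X.l30 (mul_pos X.w0 X.γ0).le
  rw [show lm ^ 2 = (16 * S.C ^ 2 * r0 S lm) ^ 2 by rw [← X.rr]] at e
  refine le_of_mul_le_mul_left (a := 256 * S.C ^ 4) ?_ (by positivity)
  linarith

theorem g4 : 16 * (S.w3 1 * γ) ≤ r0 S lm ^ 2 * x ^ 3 := by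
  have e := X.h4
  have C0 := X.h.C0
  have e1 := mul_le_mul_of_nonneg_right X.l30 (mul_pos X.w0 X.γ0).le
  rw [show lm ^ 2 = (16 * S.C ^ 2 * r0 S lm) ^ 2 by rw [← X.rr]] at e
  refine le_of_mul_le_mul_left (a := 256 * S.C ^ 4) ?_ (by positivity)
  linarith

theorem g5 : 16 * S.w3 1 ≤ r0 S lm ^ 2 * x := by
  refine le_of_mul_le_mul_right ?_ X.γ0
  have := X.x0
  have e : r0 S lm ^ 2 * (x * S.u0) ≤ r0 S lm ^ 2 * (x * γ) := by gcongr; exact X.uγ
  linarith [X.g3]

theorem g6 : 256 * (S.C ^ 2 * S.w3 1) ≤ r0 S lm * x ^ 3 := by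
  have r := X.r00
  have P := X.P0
  have C0 := X.h.C0
  have w := X.w0
  refine le_of_mul_le_mul_right ?_ r
  have e : S.w3 1 * (16 * S.C ^ 2 * r0 S lm) ≤ S.w3 1 * γ := by gcongr; rw [← X.rr]; exact X.lmγ
  linarith [X.g4]

theorem g7 : 256 * S.w3 1 ≤ r0 S lm * x ^ 3 := by
  have := mul_le_mul_of_nonneg_right (one_le_pow₀ (n := 2) X.h.C1) X.w0.le
  linarith [X.g6]

theorem rx : 16 * r0 S lm ≤ x := X.r0c.2.trans X.bx

theorem tq1 {k : ℕ} (h : S.Jp ≤ k) : 1 ≤ tq S M x k := by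
  by_contra hh
  have := X.far (X.JJ.le.trans h) (not_le.1 hh)
  omega

theorem duJ3 : 3 * x ^ 3 ≤ du M S.J := by
  have C1 := X.h.C1
  have e2 : S.C * x ≤ S.C ^ 4 * x :=
    mul_le_mul_of_nonneg_right (le_self_pow₀ C1 (by norm_num)) X.x0.le
  refine le_of_mul_le_mul_left ?_ X.h.C0
  nlinarith [X.duJ, X.Cx, mul_le_mul_of_nonneg_left X.Px.2 X.h.C0.le, mul_pos X.h.C0 X.x0]

/-- the mass clause on the plateau -/
theorem plm {k : ℕ} (h0 : S.J ≤ k) (h1 : k < S.Jp) (hu : 3 * x ^ 3 ≤ du M k) :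
    S.w3 1 * S.den (M.z (k - 1)) ≤ tq S M x k * rq S M x lm k ^ 2 := by
  have x0 := X.x0
  have P0 := X.P0
  have r := X.r00
  have u0 := X.u0
  have w := X.w0
  have d0 := X.dl0 h0
  have A0 : 0 ≤ uA S M x k := sqrt_nonneg _
  have B0 : 0 ≤ uB M x k := sqrt_nonneg _
  have t := X.tq_ge h0
  have l2 := (X.lsb k h0 h1).2
  have ub : S.u0 ≤ √(x ^ 3) := X.uγ.trans X.γb
  have q0 : 0 ≤ r0 S lm / x := by positivity
  have ds : 0 < min (dl S M k) (du M k) := lt_min (by linarith) (by linarith)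
  refine le_of_mul_le_mul_right ?_ ds
  have e0 : S.w3 1 * S.den (M.z (k - 1)) * min (dl S M k) (du M k) ≤ S.w3 1 * γ := by
    rw [mul_assoc]; gcongr; exact l2
  refine e0.trans ?_
  have g3 : 16 * (S.w3 1 * γ) ≤ (r0 S lm / x) ^ 2 * (x ^ 3 * S.u0) :=
    X.g3.trans_eq (by field_simp)
  rcases le_total (dl S M k) (du M k) with c | c
  · rw [min_eq_left c]
    have e1 : x ^ 3 * S.u0 ≤ 8 * (uA S M x k ^ 3 * dl S M k) := by
      rcases le_total (dl S M k) x with c' | c'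
      · have := X.uA_ge h0 (y := x / 2) (z := 2 * x) (by linarith) (by nlinarith)
        calc _ = 8 * ((x / 2) ^ 3 * S.u0) := by ring
          _ ≤ _ := by gcongr
      · have e := X.uA_sq h0
        have e2 : x ^ 3 ≤ 2 * (uA S M x k ^ 2 * dl S M k) := by nlinarith [sq_nonneg (uA S M x k)]
        have e3 : S.u0 ≤ 2 * uA S M x k := by linarith [X.uA_b h0]
        calc _ ≤ 2 * (uA S M x k ^ 2 * dl S M k) * (2 * uA S M x k) :=
              mul_le_mul e2 e3 u0.le (P0.le.trans e2)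
          _ ≤ _ := by nlinarith [mul_nonneg (pow_nonneg A0 3) (u0.le.trans d0)]
    calc _ ≤ (r0 S lm / x) ^ 2 * (8 * (uA S M x k ^ 3 * dl S M k)) := by
          nlinarith [mul_le_mul_of_nonneg_left e1 (sq_nonneg (r0 S lm / x)), mul_pos w X.γ0]
      _ = 8 * uA S M x k * (r0 S lm / x * uA S M x k) ^ 2 * dl S M k := by ring
      _ ≤ _ := by gcongr; exacts [by linarith, by linarith, by linarith, X.rq_A]
  · rw [min_eq_right c]
    have e := X.uB_sq k
    have e2 : x ^ 3 ≤ 2 * (uB M x k ^ 2 * du M k) := by nlinarith [sq_nonneg (uB M x k)]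
    have m0 : 0 ≤ min (uB M x k) x := le_min B0 x0.le
    refine le_trans ?_ (show 8 * uB M x k * (r0 S lm / x * min (uB M x k) x) ^ 2 * du M k ≤ _ by
      gcongr; exacts [by linarith, by linarith, by linarith, X.rq_B])
    rcases le_total (uB M x k) x with c' | c'
    · rw [min_eq_left c']
      have e3 : S.u0 ≤ 2 * uB M x k := by linarith [X.uB_b k]
      have e1 : x ^ 3 * S.u0 ≤ 2 * (uB M x k ^ 2 * du M k) * (2 * uB M x k) :=
        mul_le_mul e2 e3 u0.le (P0.le.trans e2)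
      nlinarith [mul_le_mul_of_nonneg_left e1 (sq_nonneg (r0 S lm / x)), mul_pos w X.γ0]
    · rw [min_eq_right c', div_mul_cancel₀ _ x0.ne']
      have e3 : uB M x k ^ 2 * du M k ≤ uB M x k * du M k :=
        mul_le_mul_of_nonneg_right (by nlinarith [X.uB_le k]) (X.du0 k)
      nlinarith [X.g4, mul_le_mul_of_nonneg_left e2 (sq_nonneg (r0 S lm)),
        mul_le_mul_of_nonneg_left e3 (sq_nonneg (r0 S lm)), mul_pos w X.γ0]

section frame
variable {kb n k0 : ℕ} (I : Ix S M x kb n k0) {T : ℕ → ℝ} (Y : TT S M m a x k0 T)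
include I Y

omit X I Y in
theorem ta_lo {k : ℕ} (h : k < S.J) : ta S M x T k = T k + √(x ^ 3) := if_pos h
omit X I Y in
theorem ta_hi {k : ℕ} (h : S.J ≤ k) : ta S M x T k = tq S M x (min k S.Jp) := if_neg h.not_gt
omit X I Y in
theorem ro_lo {k : ℕ} (h : k < S.J) : ro S M x lm T k =
    min (ta S M x T k / (8 * S.C)) (rq S M x lm S.J + ((S.J : ℝ) - k) * S.v / 2) := if_pos h
omit X I Y in
theorem ro_hi {k : ℕ} (h : S.J ≤ k) : ro S M x lm T k = rq S M x lm (min k S.Jp) := if_neg h.not_gt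

omit I Y in
theorem mJ {k : ℕ} (h : S.J ≤ k) : S.J ≤ min k S.Jp := le_min h X.JJ.le

theorem ta_b {k : ℕ} (h0 : k0 ≤ k) : √(x ^ 3) ≤ ta S M x T k := by
  rcases lt_or_ge k S.J with c | c
  · rw [ta_lo c]; linarith [Y.loc k h0 c, abs_nonneg (M.del m a k)]
  · rw [ta_hi c]; exact X.tq_b (X.mJ c)

theorem ta0 {k : ℕ} (h0 : k0 ≤ k) : 0 < ta S M x T k := X.b0.trans_le (X.ta_b I Y h0)

theorem ta_le (k : ℕ) : ta S M x T k ≤ 33 * S.C := by
  have C1 := X.h.C1
  rcases lt_or_ge k S.J with c | c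
  · rw [ta_lo c]; linarith [Y.le k, X.tq_le le_rfl, X.bx, X.x1]
  · rw [ta_hi c]; linarith [X.tq_le (X.mJ c)]

theorem ta_sl {k : ℕ} (c : k < S.J) : ta S M x T k ≤ 33 * (S.C ^ 2 * x) := by
  have := mul_le_mul_of_nonneg_right (one_le_pow₀ (n := 2) X.h.C1) X.x0.le
  rw [ta_lo c]; linarith [Y.le k, X.tqJ.2, X.bx]

theorem ta_J {k : ℕ} (c : k < S.J) :
    tq S M x S.J ≤ ta S M x T k + 4 * S.C * (((S.J : ℝ) - k) * S.v) := by
  have e := Y.lip S.J k
  have f : (k : ℝ) ≤ S.J := by exact_mod_cast c.le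
  rw [abs_of_nonneg (by linarith)] at e
  rw [ta_lo c]; linarith [Y.top, X.b0]

theorem ta_lip {i k : ℕ} (c : k < S.J) (c' : i < S.J) :
    ta S M x T i ≤ ta S M x T k + 4 * S.C * (|(i : ℝ) - k| * S.v) := by
  rw [ta_lo c, ta_lo c']; linarith [Y.lip i k]

theorem ro_sl {k : ℕ} (h0 : k0 ≤ k) (c : k < S.J) :
    r0 S lm / 2 ≤ ro S M x lm T k ∧ 8 * S.C * ro S M x lm T k ≤ ta S M x T k ∧
      ro S M x lm T k ≤ 2 * r0 S lm + ((S.J : ℝ) - k) * S.v / 2 := by
  have C0 := X.h.C0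
  have v0 := X.h.v0
  have f : (0 : ℝ) ≤ S.J - k := by rw [sub_nonneg]; exact_mod_cast c.le
  rw [ro_lo c]
  refine ⟨le_min ?_ ?_, ?_, (min_le_right _ _).trans (by linarith [X.rq_le le_rfl])⟩
  · rw [le_div_iff₀ (by positivity)]
    linarith [X.r0c.1, X.ta_b I Y h0, X.b0]
  · linarith [X.rqJ, mul_nonneg f v0.le]
  · rw [← le_div_iff₀' (by positivity)]; exact min_le_left _ _

theorem ro_b {k : ℕ} (h0 : k0 ≤ k) : r0 S lm * √(x ^ 3) / 2 ≤ ro S M x lm T k := by
  have r := X.r00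
  have x0 := X.x0
  have b := X.b0
  rcases lt_or_ge k S.J with c | c
  · nlinarith [(X.ro_sl I Y h0 c).1, X.bx, X.x1]
  · rw [ro_hi c]
    refine le_trans ?_ (X.rq_b (X.mJ c))
    rw [mul_div_assoc]
    gcongr
    exact le_div_self r.le x0 X.x1

theorem ro0 {k : ℕ} (h0 : k0 ≤ k) : 0 < ro S M x lm T k := by
  have r := X.r00
  have b := X.b0
  exact lt_of_lt_of_le (by positivity) (X.ro_b I Y h0)

theorem ro_ta {k : ℕ} (h0 : k0 ≤ k) : ro S M x lm T k ≤ ta S M x T k := by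
  rcases lt_or_ge k S.J with c | c
  · nlinarith [(X.ro_sl I Y h0 c).2.1, X.ro0 I Y h0, X.h.C1]
  · rw [ro_hi c]
    linarith [X.rq_le (X.mJ c), X.ta_b I Y h0, X.r0c.2, X.r00]

theorem ro1 {k : ℕ} (h0 : k0 ≤ k) : ro S M x lm T k ≤ 1 := by
  have C1 := X.h.C1
  rcases lt_or_ge k S.J with c | c
  · have e2 : S.C ^ 2 * x ≤ S.C ^ 4 * x :=
      mul_le_mul_of_nonneg_right (pow_le_pow_right₀ C1 (by norm_num)) X.x0.le
    linarith [X.ro_ta I Y h0, X.ta_sl I Y c, X.Cx, mul_pos (pow_pos X.h.C0 4) X.x0]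
  · rw [ro_hi c]
    linarith [X.rq_le (X.mJ c), X.rx, X.x1, X.r00]

theorem w4 {k : ℕ} (h0 : k0 ≤ k) : S.w3 1 ≤ √(x ^ 3) * ro S M x lm T k := by
  have e := mul_le_mul_of_nonneg_left (X.ro_b I Y h0) X.b0.le
  have e1 := mul_self_sqrt X.P0.le
  nlinarith [X.g7, X.w0, X.r00]

theorem ro_lip {k : ℕ} (h0 : k0 ≤ k) : |ro S M x lm T (k + 1) - ro S M x lm T k| ≤ S.v := by
  have C0 := X.h.C0
  have v0 := X.h.v0
  have JJ := X.JJ
  rcases lt_or_ge (k + 1) S.J with c | c
  · rw [ro_lo c, ro_lo (show k < S.J by omega)]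
    refine (abs_min_sub_min_le_max _ _ _ _).trans (max_le ?_ ?_)
    · have e1 := X.ta_lip I Y c (show k < S.J by omega)
      have e2 := X.ta_lip I Y (show k < S.J by omega) c
      simp only [Nat.cast_add, Nat.cast_one, add_sub_cancel_left, sub_add_cancel_left, abs_neg,
        abs_one, one_mul] at e1 e2
      rw [← sub_div, abs_div, abs_of_pos (show 0 < 8 * S.C by positivity),
        div_le_iff₀ (by positivity)]
      exact abs_le.2 ⟨by nlinarith [mul_pos C0 v0], by nlinarith [mul_pos C0 v0]⟩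
    · push_cast
      exact abs_le.2 ⟨by linarith, by linarith⟩
  rcases lt_or_ge k S.J with c' | c'
  · have e : S.J = k + 1 := by omega
    have e1 := X.ta_J I Y c'
    have f : (S.J : ℝ) - k = 1 := by rw [e]; push_cast; ring
    rw [ro_hi c, ro_lo c', ← e, min_eq_left JJ.le, f]
    rw [f] at e1
    have e2 : rq S M x lm S.J - S.v / 2 ≤ ta S M x T k / (8 * S.C) := by
      rw [le_div_iff₀ (by positivity)]
      have : rq S M x lm S.J ≤ x := by linarith [X.rq_le le_rfl, X.rx, X.r00]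
      nlinarith [X.tqJ.1, mul_le_mul_of_nonneg_left this C0.le]
    have e3 := min_le_right (ta S M x T k / (8 * S.C)) (rq S M x lm S.J + 1 * S.v / 2)
    have e4 : rq S M x lm S.J - S.v / 2 ≤
        min (ta S M x T k / (8 * S.C)) (rq S M x lm S.J + 1 * S.v / 2) := le_min e2 (by linarith)
    exact abs_le.2 ⟨by linarith, by linarith⟩
  rw [ro_hi c, ro_hi c']
  rcases lt_or_ge k S.Jp with d | d
  · rw [min_eq_left d.le, min_eq_left (show k + 1 ≤ S.Jp by omega)]
    exact X.rq_lip c' d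
  · rw [min_eq_right d, min_eq_right (show S.Jp ≤ k + 1 by omega), sub_self, abs_zero]
    exact v0.le

/-- a small tolerance on the plateau -/
theorem sm {k : ℕ} (c : S.J ≤ k) (h : ta S M x T k < 1) : 3 * x ^ 3 ≤ du M k ∧ k < S.Jp ∧
    ta S M x T k = tq S M x k ∧ ro S M x lm T k = rq S M x lm k := by
  rw [ta_hi c] at h ⊢
  rw [ro_hi c]
  have e := X.far (X.mJ c) h
  have e1 : min k S.Jp = k := by omega
  rw [e1] at e ⊢
  exact ⟨e.1, e.2, rfl, rfl⟩

theorem nr {k i : ℕ} (c : S.J ≤ k) (hd : |(i : ℝ) - k| * S.v ≤ 2 * r0 S lm) :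
    ta S M x T i ≤ 33 * S.C * ta S M x T k := by
  have C1 := X.h.C1
  have v0 := X.h.v0
  have t0 := X.ta0 I Y (I.k0J.le.trans c)
  rcases le_or_gt 1 (ta S M x T k) with d | d
  · nlinarith [X.ta_le I Y i]
  obtain ⟨e1, e2, e3, -⟩ := X.sm I Y c d
  rcases lt_or_ge i S.J with c' | c'
  · have f1 : (i : ℝ) ≤ S.J := by exact_mod_cast c'.le
    have f2 : (S.J : ℝ) ≤ k := by exact_mod_cast c
    have e := X.tq_shell le_rfl c (X.shp c e1 le_rfl (le_trans (by
      gcongr ?_ * _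
      rw [abs_of_nonpos (by linarith), abs_of_nonpos (by linarith)]; linarith) hd)).2
    rw [ta_lo c']
    nlinarith [Y.le i, X.tq_b c]
  · obtain ⟨e4, e5⟩ := X.shp c e1 c' hd
    rw [ta_hi c', min_eq_left e4.le]
    nlinarith [X.tq_shell c' c e5]

theorem fw {k i : ℕ} (h0 : k0 ≤ k) (h : k ≤ i)
    (hd : ((i : ℝ) - k) * S.v ≤ max (ro S M x lm T k) (r0 S lm / 2)) :
    ta S M x T i ≤ 33 * S.C * ta S M x T k := by
  have C1 := X.h.C1
  have v0 := X.h.v0
  have r := X.r00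
  have t0 := X.ta0 I Y h0
  have f : (0 : ℝ) ≤ i - k := by rw [sub_nonneg]; exact_mod_cast h
  rcases lt_or_ge k S.J with c | c
  · obtain ⟨e1, e2, e3⟩ := X.ro_sl I Y h0 c
    rw [max_eq_left e1] at hd
    have e4 := mul_le_mul_of_nonneg_left hd (show 0 ≤ 4 * S.C by linarith)
    rcases lt_or_ge i S.J with c' | c'
    · have e := X.ta_lip I Y c c'
      rw [abs_of_nonneg f] at e
      nlinarith
    · have f1 : (k : ℝ) ≤ S.J := by exact_mod_cast c.le
      have f2 : (S.J : ℝ) ≤ i := by exact_mod_cast c'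
      obtain ⟨e5, e6⟩ := X.shp le_rfl X.duJ3 c' (by
        rw [abs_of_nonneg (by linarith)]
        nlinarith [mul_nonneg (sub_nonneg.2 f1) v0.le])
      have e7 := X.tq_shell c' le_rfl e6
      have e8 := X.ta_J I Y c
      have e9 : 4 * S.C * (((S.J : ℝ) - k) * S.v) ≤ 4 * S.C * (((i : ℝ) - k) * S.v) := by gcongr
      rw [ta_hi c', min_eq_left e5.le]
      nlinarith
  · refine X.nr I Y c ?_
    rw [abs_of_nonneg f]
    refine hd.trans (max_le ?_ (by linarith))
    rw [ro_hi c]; exact X.rq_le (X.mJ c)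

theorem dn {i k : ℕ} (h0 : k0 ≤ i) (h : i ≤ k) : ta S M x T i * ro S M x lm T k ≤
    34 * S.C ^ 2 * ta S M x T k * (ro S M x lm T k + ((k : ℝ) - i) * S.v) := by
  have C1 := X.h.C1
  have C2 : S.C ≤ S.C ^ 2 := le_self_pow₀ C1 (by norm_num)
  have v0 := X.h.v0
  have r := X.r00
  have t0 := X.ta0 I Y (h0.trans h)
  have r1 := X.ro0 I Y (h0.trans h)
  have f : (0 : ℝ) ≤ k - i := by rw [sub_nonneg]; exact_mod_cast h
  have fv := mul_nonneg f v0.le
  have p1 := mul_pos t0 r1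
  have p2 := mul_nonneg t0.le fv
  have p3 := mul_le_mul_of_nonneg_right (C1.trans C2) p1.le
  have p4 := mul_le_mul_of_nonneg_right (C1.trans C2) p2
  rcases lt_or_ge k S.J with c | c
  · have e := X.ta_lip I Y c (show i < S.J by omega)
    rw [abs_sub_comm, abs_of_nonneg f] at e
    have e1 := mul_le_mul_of_nonneg_right e r1.le
    have e2 := mul_le_mul_of_nonneg_right (X.ro_sl I Y (h0.trans h) c).2.1 fv
    nlinarith
  rcases le_total (((k : ℝ) - i) * S.v) (r0 S lm) with d | d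
  · have e := X.nr I Y (i := i) c (by rw [abs_sub_comm, abs_of_nonneg f]; linarith)
    have e1 := mul_le_mul_of_nonneg_right e r1.le
    have e2 := mul_le_mul_of_nonneg_right C2 p1.le
    nlinarith
  · have e : ta S M x T i ≤ 33 * (S.C ^ 2 * x) + ta S M x T k := by
      rcases lt_or_ge i S.J with c' | c'
      · linarith [X.ta_sl I Y c']
      · rw [ta_hi c', ta_hi c]
        have a1 := X.uA_le (X.mJ c')
        have a2 := X.uB_mono (i := min i S.Jp) (k := min k S.Jp) (by omega)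
        have a3 : 0 ≤ uA S M x (min k S.Jp) := sqrt_nonneg _
        have a4 := mul_le_mul_of_nonneg_right C2 X.x0.le
        unfold tq
        nlinarith [mul_pos X.h.C0 X.x0]
    have e1 : x * ro S M x lm T k ≤ r0 S lm * ta S M x T k := by
      rw [ro_hi c, ta_hi c]; exact X.rq_tq (X.mJ c)
    have e2 := mul_le_mul_of_nonneg_right e r1.le
    have e3 := mul_le_mul_of_nonneg_left (e1.trans (mul_le_mul_of_nonneg_right d t0.le))
      (sq_nonneg S.C)
    nlinarith

/-- the mass clause on the slope -/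
theorem slm {k : ℕ} (h0 : k0 ≤ k) (c : k < S.J) :
    S.w3 1 ≤ ta S M x T k * ro S M x lm T k ^ 2 := by
  have C1 := X.h.C1
  have C0 := X.h.C0
  have v0 := X.h.v0
  have r := X.r00
  have x0 := X.x0
  have b0 := X.b0
  have t0 := X.ta0 I Y h0
  rcases le_total (((S.J : ℝ) - k) * S.v) x with d | d
  · have e1 := X.ta_J I Y c
    have e2 : x ≤ ta S M x T k := by
      nlinarith [X.tqJ.1, mul_le_mul_of_nonneg_left d C0.le]
    calc _ ≤ x * (r0 S lm / 2) ^ 2 := by nlinarith [X.g5, X.w0]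
      _ ≤ _ := by gcongr; exact (X.ro_sl I Y h0 c).1
  · have e : √(x ^ 3) / (8 * S.C) ≤ ro S M x lm T k := by
      rw [ro_lo c]
      refine le_min (by gcongr; exact X.ta_b I Y h0) ?_
      have : √(x ^ 3) / (8 * S.C) ≤ √(x ^ 3) / 2 := by gcongr; linarith
      linarith [X.rqJ, X.bx]
    calc _ ≤ √(x ^ 3) * (√(x ^ 3) / (8 * S.C)) ^ 2 := by
          rw [div_pow, sq_sqrt X.P0.le, ← mul_div_assoc, le_div_iff₀ (by positivity)]
          nlinarith [X.g6, mul_le_mul_of_nonneg_right X.r0c.2 X.P0.le, mul_pos r X.P0]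
      _ ≤ _ := by gcongr; exact X.ta_b I Y h0

theorem den {k y : ℕ} (h0 : k0 ≤ k) (y0 : k0 < y) (hd : |(y : ℝ) - k| * S.v ≤ ro S M x lm T k) :
    1 ≤ ta S M x T k ∨
      S.w3 1 * S.v ≤ S.C ^ 3 * M.dz m a y * (ta S M x T k * ro S M x lm T k ^ 2) := by
  have h := X.h
  have C1 := h.C1
  have C0 := h.C0
  have v0 := h.v0
  have r := X.r00
  have x0 := X.x0
  have w := X.w0
  have t0 := X.ta0 I Y h0
  have jl : S.jl < y := by have := I.jl; have := I.e0; omega
  have z0 := X.F.lg.dz_nonneg (m := m) (a := a) y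
  have lo : y < S.J → S.w3 1 ≤ ta S M x T k * ro S M x lm T k ^ 2 →
      S.w3 1 * S.v ≤ S.C ^ 3 * M.dz m a y * (ta S M x T k * ro S M x lm T k ^ 2) := fun c e =>
    (T57.den_lo (m := m) (a := a) h jl c (by positivity) v0.le e).trans (by
      gcongr; exact le_self_pow₀ C1 (by norm_num))
  have dz : M.dz m a y = M.z y - M.z (y - 1) := dz_up h.leg (by omega)
  rcases lt_or_ge k S.J with c | c
  · right
    have e := X.slm I Y h0 c
    rcases lt_or_ge y S.J with c' | c'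
    · exact lo c' e
    have f1 : (k : ℝ) ≤ S.J := by exact_mod_cast c.le
    have f2 : (S.J : ℝ) ≤ y := by exact_mod_cast c'
    rw [abs_of_nonneg (by linarith)] at hd
    obtain ⟨e5, e6⟩ := X.shp le_rfl X.duJ3 c' (by
      rw [abs_of_nonneg (by linarith)]
      nlinarith [mul_nonneg (sub_nonneg.2 f1) v0.le, (X.ro_sl I Y h0 c).2.2])
    have e1 := (step h le_rfl (x_lt h le_rfl X.JJ) c' e5 e6).1
    rw [← dz] at e1
    calc _ ≤ ta S M x T k * ro S M x lm T k ^ 2 * (S.C ^ 2 * S.C * M.dz m a y) := by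
          gcongr
          exact e1.trans (by gcongr; exact X.dj)
      _ = _ := by ring
  rcases le_or_gt 1 (ta S M x T k) with d | d
  · exact Or.inl d
  right
  obtain ⟨e1, e2, e3, e4⟩ := X.sm I Y c d
  have hd' : |(y : ℝ) - k| * S.v ≤ 2 * r0 S lm := hd.trans (by rw [e4]; exact X.rq_le c)
  rcases lt_or_ge y S.J with c' | c'
  · refine lo c' ?_
    have f1 : (y : ℝ) ≤ S.J := by exact_mod_cast c'.le
    have f2 : (S.J : ℝ) ≤ k := by exact_mod_cast c
    have e := (X.shp c e1 le_rfl (le_trans (by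
      gcongr ?_ * _
      rw [abs_of_nonpos (by linarith), abs_of_nonpos (by linarith)]; linarith) hd')).2
    have b3 : uu S M (M.z (k - 1)) ≤ dl S M k := min_le_left _ _
    have e5 := X.uA_ge c (y := x / 2) (z := 3 * x)
      (by have := (abs_le.1 e).1; have := X.up; unfold dl at *; linarith) (by nlinarith [X.P0])
    have e6 : r0 S lm / 2 ≤ rq S M x lm k :=
      calc _ = r0 S lm / x * (x / 2) := by field_simp
        _ ≤ r0 S lm / x * uA S M x k := by gcongr
        _ ≤ _ := X.rq_A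
    have B0 : 0 ≤ uB M x k := sqrt_nonneg _
    rw [e3, e4]
    calc _ ≤ x * (r0 S lm / 2) ^ 2 := by nlinarith [X.g5]
      _ ≤ _ := by
          have : x ≤ tq S M x k := by linarith [X.tq_ge c]
          exact mul_le_mul this (pow_le_pow_left₀ (by positivity) e6 2) (by positivity) (by linarith)
  · obtain ⟨e5, e6⟩ := X.shp c e1 c' hd'
    have e7 := (step h (x_ge h c) (x_lt h c e2) c' e5 e6).1
    rw [← dz] at e7
    rw [e3, e4]
    calc _ ≤ S.w3 1 * (S.C ^ 2 * S.den (M.z (k - 1)) * M.dz m a y) := by gcongr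
      _ = S.C ^ 2 * M.dz m a y * (S.w3 1 * S.den (M.z (k - 1))) := by ring
      _ ≤ _ := by
          have := h.den0 (M.z (k - 1))
          exact mul_le_mul (mul_le_mul_of_nonneg_right (pow_le_pow_right₀ C1 (by norm_num)) z0)
            (X.plm c e2 e1) (by positivity) (by positivity)

theorem qw {k1 : ℕ} (a1 : S.Jp ≤ k1) (a2 : k1 ≤ M.N)
    (a3 : ∀ k, S.Jp ≤ k → k < k1 → S.θ * S.v / (S.C * S.F) ≤ M.H (k + 1) - M.H k) :
    QW (200 * S.C ^ 5) (200 * S.C ^ 5) S M m a 1 k0 k1 (fun k => M.q (min k S.Jp))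
      (ro S M x lm T) (ta S M x T) := by
  have h := X.h
  have C1 := h.C1
  have C0 := h.C0
  have v0 := h.v0
  have kJ := I.k0J
  have JJ := X.JJ
  have i4 := h.i4
  have c5 : ∀ j ≤ 5, S.C ^ j ≤ S.C ^ 5 := fun j hj => pow_le_pow_right₀ C1 hj
  have C5 : S.C ≤ S.C ^ 5 := le_self_pow₀ C1 (by norm_num)
  have K1 : 1 ≤ 200 * S.C ^ 5 := by linarith
  have w0 := X.w0
  have b1 : √(x ^ 3) ≤ 1 := X.bx.trans X.x1
  have wr : ∀ k, k0 ≤ k → S.w3 1 ≤ ro S M x lm T k := fun k hk =>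
    (X.w4 I Y hk).trans (mul_le_of_le_one_left (X.ro0 I Y hk).le b1)
  refine ⟨⟨one_pos, by have := I.jl; have := I.e0; omega, by omega, by omega, a2, ?_,
      (h.leg.z1 _).trans (by linarith), ?_, fun k a' b => le_trans ?_ (a3 k a' b)⟩,
    T57.crude_top X.F.lg.m0 K1 (by linarith), h.q_nn (by omega), fun k a' b => ?_,
    fun k a' b => (X.ro_lip I Y a').trans (le_mul_of_one_le_left v0.le K1),
    fun k a' b => ?_, fun k a' _ => X.ro_ta I Y a', fun k a' b => ?_, fun k i a' b c d => ?_,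
    fun i k a' b c => (X.dn I Y a' b).trans ?_, fun k a' b => ?_, fun k y a' b c d e => ?_⟩
  · have e := X.T0_ge
    have e1 := I.sb.trans (h.sm (show kb ≤ k0 by have := I.e0; omega))
    have s0 := h.s_nn k0
    nlinarith [mul_le_mul_of_nonneg_left e1 (show 0 ≤ S.C ^ 4 by positivity),
      mul_le_mul_of_nonneg_right (c5 4 (by norm_num)) s0]
  · rw [one_pow]; exact (wr k0 le_rfl).trans (X.ro1 I Y le_rfl)
  · have := h.F1
    have := h.θ0
    gcongr
    exacts [h.ms1 _, le_mul_of_one_le_left C0.le K1]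
  · rcases lt_or_ge k S.Jp with c | c
    · obtain ⟨e1, e2⟩ := X.qs' k c
      simp only [min_eq_left c.le, min_eq_left (show k + 1 ≤ S.Jp by omega)]
      exact ⟨by linarith, by nlinarith⟩
    · simp only [min_eq_right c, min_eq_right (show S.Jp ≤ k + 1 by omega)]
      exact ⟨le_rfl, by nlinarith⟩
  · have n1 := X.F.n1
    have e1 : 1 ≤ S.n * S.w3 1 := by
      have m0 := h.ms_pos zero_le_one
      rw [Sc.w3, mul_one, ← mul_div_assoc, le_div_iff₀ (by positivity)]
      nlinarith [X.F.ms_le_one 1, h.F1]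
    exact e1.trans (by gcongr; exact wr k a')
  · rcases lt_or_ge k S.J with c | c
    · simp only [min_eq_left (show k ≤ S.Jp by omega), ta_lo c]
      exact (Y.loc k a' c).trans (by linarith [X.b0])
    rw [ta_hi c]
    rcases le_total k S.Jp with d | d
    · simp only [min_eq_left d]
      exact X.loc I c d
    · simp only [min_eq_right d]
      refine le_trans ?_ (X.tq1 le_rfl)
      have := rb_nonneg (M := M) (a := a) X.F.lg.m0 k
      have := rb_le_one (M := M) (a := a) X.F.lg.m0 k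
      have := h.q_nn i4.le
      have := Cl.q_le_one (M := M) S.Jp
      exact abs_le.2 ⟨by linarith, by linarith⟩
  · refine (X.fw I Y a' b (d.trans (le_max_left _ _))).trans ?_
    have := X.ta0 I Y a'
    gcongr ?_ * _
    linarith
  · have := X.ta0 I Y (a'.trans b)
    have := X.ro0 I Y (a'.trans b)
    have f : (0 : ℝ) ≤ k - i := by rw [sub_nonneg]; exact_mod_cast b
    gcongr ?_ * _ * _
    linarith [c5 2 (by norm_num)]
  · rw [min_eq_left (X.ro1 I Y a'), mul_one]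
    refine (X.w4 I Y a').trans ?_
    gcongr
    exacts [(X.ro0 I Y a').le, X.ta_b I Y a']
  · rw [min_eq_left (X.ro1 I Y a')]
    refine (X.den I Y a' c e).imp id fun f => f.trans ?_
    have := X.ta0 I Y a'
    have := X.F.lg.dz_nonneg (m := m) (a := a) y
    gcongr ?_ * _ * _
    linarith [c5 3 (by norm_num)]

omit Y in
theorem zn_mem {k : ℕ} (hk : k ∈ zn S M) :
    k0 ≤ k ∧ k < S.Jp ∧ 1 / (200 * S.C ^ 5) ≤ ((k : ℝ) - k0) * S.v := by
  have h := X.h
  have C1 := h.C1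
  have C0 := h.C0
  have v0 := h.v0
  have T := X.T0_ge
  have T1 := X.T0_pos
  obtain ⟨e1, e2⟩ := mem_filter.1 hk
  have e0 : ∀ j, T0 S M ≤ M.s j → k0 ≤ j := fun j a2 => by
    by_contra hh
    linarith [h.sm (not_le.1 hh).le, I.s0]
  have key : ∀ j, j ≤ S.J → T0 S M ≤ M.s j → 1 / (200 * S.C ^ 5) ≤ ((j : ℝ) - k0) * S.v :=
    fun j a1 a2 => by
      have e := (h.s_tel (e0 j a2) a1).2
      have e1 : T0 S M / 2 ≤ S.C * (((j : ℝ) - k0) * S.v) := by linarith [I.s0]
      rw [div_le_iff₀ (by positivity)]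
      nlinarith [mul_le_mul_of_nonneg_left e1 (show 0 ≤ S.C ^ 4 by positivity),
        mul_pos (pow_pos C0 4) T1]
  refine ⟨e0 k e2, mem_range.1 e1, ?_⟩
  rcases le_total k S.J with e | e
  · exact key k e e2
  · refine (key S.J le_rfl (by unfold T0 at *; linarith)).trans ?_
    gcongr

theorem pt {k : ℕ} (h0 : k0 ≤ k) (h1 : k < S.Jp) {u : ℝ} (hu : 0 < u) (h : u ≤ du M k) :
    ta S M x T k ≤ lam ^ 3 * (x + √(x ^ 3 / u)) := by
  have C1 := X.h.C1
  have x0 := X.x0
  have s0 := sqrt_nonneg (x ^ 3 / u)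
  have big := X.big
  refine le_trans ?_ (show 33 * S.C ^ 2 * (x + √(x ^ 3 / u)) ≤ _ by
    rw [pow_succ' lam 2]; gcongr; exacts [by linarith, X.Cl])
  rcases lt_or_ge k S.J with c | c
  · nlinarith [X.ta_sl I Y c, mul_nonneg (sq_nonneg S.C) s0]
  · rw [ta_hi c, min_eq_left h1.le, tq]
    have := X.uA_le c
    have := X.uB_u hu h
    have A0 : 0 ≤ uA S M x k := sqrt_nonneg _
    have B0 : 0 ≤ uB M x k := sqrt_nonneg _
    exact mul_le_mul (by nlinarith) (by linarith) (by positivity) (by positivity)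

theorem main {k1 j : ℕ} (a1 : S.Jp ≤ k1) (a2 : 1 / S.C ≤ ((k1 : ℝ) - S.Jp) * S.v)
    (Q : ∀ p, p = 4 ∨ p = j + 1 → QOW (200 * S.C ^ 5) (lam * (200 * S.C ^ 5)) p S M m a 1 k0 k1
      (fun k => M.q (min k S.Jp)) (ro S M x lm T) (ta S M x T))
    (hj : (S.n : ℝ) ^ (3 * (S.A + 1)) ≤ lam ^ j)
    (hs : ∑ k ∈ Ico k0 S.Jp, lw M k * ta S M x T k ^ 2 ≤ lam ^ 30 * x ^ 3) :
    EO (lam ^ 50) S M m a x fun k => lam ^ 9 * ta S M x T k := by
  have h := X.h
  have C1 := h.C1
  have C0 := h.C0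
  have v0 := h.v0
  have big := X.big
  have l1 := X.l1
  have P0 := X.P0
  have r := X.r00
  have jl : 0 < k0 := by have := I.jl; have := I.e0; omega
  have C5 : S.C ≤ S.C ^ 5 := le_self_pow₀ C1 (by norm_num)
  set K := 200 * S.C ^ 5 with hK
  have K1 : 1 ≤ K := by linarith
  have Kl : lam * K ≤ lam ^ 7 := by
    rw [show lam ^ 7 = lam * (lam * lam ^ 5) by ring, hK]
    gcongr
    exacts [by linarith, X.Cl]
  have pr : ∀ p, p = 4 ∨ p = j + 1 → ∀ k ∈ zn S M, M.E2 m a (fun R => (R - M.q k) ^ (2 * p)) k ≤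
      (lam * K * (2 * ta S M x T k)) ^ (2 * p) := fun p hp k hk => by
    obtain ⟨e1, e2, e3⟩ := X.zn_mem I hk
    have t0 := X.ta0 I Y e1
    have r1 := X.ro0 I Y e1
    have f : (k : ℝ) ≤ S.Jp := by exact_mod_cast e2.le
    have e := (Q p hp).pair k (r0 S lm / 2) ⟨e3, le_trans (by gcongr; linarith) (a2.trans (by
      gcongr))⟩ (by linarith) (by linarith) fun i b c d => by
        have f : (0 : ℝ) ≤ i - k := by rw [sub_nonneg]; exact_mod_cast b
        calc _ ≤ 33 * S.C * ta S M x T k * ro S M x lm T k := by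
              gcongr; exact X.fw I Y e1 b (d.trans (le_max_right _ _))
          _ ≤ _ := by gcongr; exacts [by linarith, le_add_of_nonneg_right (by positivity)]
    simp only [min_eq_left e2.le] at e
    refine e.trans ?_
    have e4 : √(S.w3 1 / min (r0 S lm / 2) 1) ≤ √(x ^ 3) := by
      rw [min_eq_left (by linarith [X.rx, X.x1])]
      gcongr
      rw [div_le_iff₀ (by positivity)]
      linarith [X.g7, X.w0]
    gcongr
    linarith [X.ta_b I Y e1]
  have g : ∀ k ∈ zn S M, lam * (lam * K * (2 * ta S M x T k)) ≤ lam ^ 9 * ta S M x T k :=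
    fun k hk => by
      have t0 := X.ta0 I Y (X.zn_mem I hk).1
      calc _ = 2 * lam * (lam * K) * ta S M x T k := by ring
        _ ≤ lam * lam * lam ^ 7 * ta S M x T k := by gcongr; linarith
        _ = _ := by ring
  refine ⟨fun k hk => ?_, fun k hk => (pr 4 (Or.inl rfl) k hk).trans ?_, fun k hk => ?_, ?_,
    fun k hk u hu hd => ?_⟩
  · have t0 := X.ta0 I Y (X.zn_mem I hk).1
    positivity
  · have t0 := X.ta0 I Y (X.zn_mem I hk).1
    exact pow_le_pow_left₀ (by positivity)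
      ((le_mul_of_one_le_left (by positivity) l1).trans (g k hk)) _
  · have t0 := X.ta0 I Y (X.zn_mem I hk).1
    have B0 : 0 < lam * K * (2 * ta S M x T k) := by positivity
    rcases le_total (lam * K * (2 * ta S M x T k)) 1 with c | c
    · refine (CIn12.env_pair' (l := lam) B0 (by positivity) (by simpa using g k hk)
        (pr _ (Or.inr rfl) k hk)).trans ?_
      have n1 := X.F.n1
      calc _ ≤ 1 / lam ^ j := by gcongr; omega
        _ ≤ _ := by rw [one_div]; exact inv_anti₀ (by positivity) hj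
    · refine (CIn12.env_triv ?_).trans (CIn12.tlD_nn S 3)
      rw [abs_of_nonneg (h.q_nn (by have := (X.zn_mem I hk).2.1; have := h.i4; omega))]
      nlinarith [Cl.q_le_one (M := M) k, g k hk]
  · calc _ = lam ^ 18 * ∑ k ∈ zn S M, lw M k * ta S M x T k ^ 2 := by
          rw [mul_sum]
          refine sum_congr rfl fun k hk => ?_
          rw [dz_up h.leg (by have := (X.zn_mem I hk).1; omega), lw]
          ring
      _ ≤ lam ^ 20 * (lam ^ 30 * x ^ 3) := by
          refine mul_le_mul (X.pw (by norm_num)) (le_trans (sum_le_sum_of_subset_of_nonneg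
            (fun k hk => mem_Ico.2 ⟨(X.zn_mem I hk).1, (X.zn_mem I hk).2.1⟩) fun y hy _ => ?_) hs)
            (sum_nonneg fun y hy => ?_) (by positivity) <;>
            exact mul_nonneg (X.lw0 y) (sq_nonneg _)
      _ = _ := by ring
  · obtain ⟨e1, e2, -⟩ := X.zn_mem I hk
    have x0 := X.x0
    calc _ ≤ lam ^ 9 * (lam ^ 3 * (x + √(x ^ 3 / u))) := by gcongr; exact X.pt I Y e1 e2 hu hd
      _ = lam ^ 12 * (x + √(x ^ 3 / u)) := by ring
      _ ≤ _ := by gcongr; norm_num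

end frame

end Ex

/-- the envelope on the slope and its sum -/
def SumS : Prop := ∀ {lam : ℝ} {S : Sc} {M : Md} {m : ℕ} {a x lm γ : ℝ} {kb n k0 : ℕ},
  Ex lam S M m a x lm γ → Ix S M x kb n k0 → ∃ T, TT S M m a x k0 T ∧
    ∑ k ∈ Ico k0 S.Jp, lw M k * ta S M x T k ^ 2 ≤ lam ^ 30 * x ^ 3

theorem eqS_of (hS : SumS) : EqS := by
  intro C
  filter_upwards [eventually_ge_atTop 2] with A hA ε hε η hη
  set η' := min (min ε η) 1 / 100 with hη'
  have e0 : 0 < η' := by positivity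
  set j : ℕ := ⌈((3 * (A + 1) : ℕ) : ℝ) / η'⌉₊ with hj
  filter_upwards [T57.qGenWU (le_max_left 1 (200 * C ^ 5)) C hA e0 4,
    T57.qGenWU (le_max_left 1 (200 * C ^ 5)) C hA e0 (j + 1), ev_rgc C hA e0 0, ev_fn C hA]
    with n a1 a1' a2 a3 S M e1 e2 e3 h m a I x lm γ H
  have Q' := a1' S M e1 e2 e3 h m a I
  have G := a2 S e1 e2 e3
  have F := a3 S M e1 e2 e3 h m a I
  have Q := a1 S M e1 e2 e3 h m a I
  subst e1 e2 e3
  have n1 := G.N1.le
  have pw : ∀ (j : ℕ) (x : ℝ), η' * j ≤ x → ((S.n : ℝ) ^ η') ^ j ≤ (S.n : ℝ) ^ x := fun j x hx => by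
    rw [← rpow_mul_natCast G.N0.le]; exact rpow_le_rpow_of_exponent_le n1 hx
  have m1 := min_le_left (min ε η) 1
  have m2 := min_le_right (min ε η) 1
  have m3 := min_le_left ε η
  have m4 := min_le_right ε η
  have E := pw 30 ε (by push_cast; linarith)
  have w0 := F.w3_pos one_pos
  have g0 := H.u0.trans_le H.uγ
  have x0 := H.x0
  have v0 := F.v0
  have X : Ex ((S.n : ℝ) ^ η') S M m a x lm γ :=
    ⟨{ H with
        xs := le_trans (by gcongr) H.xs
        fine := le_trans (by gcongr) H.fine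
        h3 := le_trans (by gcongr) H.h3
        h4 := le_trans (by gcongr) H.h4 }, F, G.num_le, G.C_le h, G.log_le, G.A_le, G.Cθ h⟩
  obtain ⟨kb, n, k0, J⟩ := X.ex_ix
  obtain ⟨T, Y, hs⟩ := hS X J
  obtain ⟨k1, b1, b2, b3, b4⟩ := H.rev
  rw [max_eq_right (by nlinarith [one_le_pow₀ (n := 5) h.C1])] at Q Q'
  have W := X.qw J Y b1 b2 b4
  have O := X.main J Y (j := j) b1 b3 (fun p hp => by
    rcases hp with rfl | rfl
    exacts [Q _ _ _ _ _ _ _ W, Q' _ _ _ _ _ _ _ W]) (by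
      rw [← rpow_mul_natCast G.N0.le, ← rpow_natCast]
      refine rpow_le_rpow_of_exponent_le n1 ?_
      have := Nat.le_ceil (((3 * (S.A + 1) : ℕ) : ℝ) / η')
      rw [div_le_iff₀ e0] at this
      linarith) hs
  have L := pw 50 η (by push_cast; linarith)
  exact ⟨_, O.pos, O.mom, O.env, O.s2.trans (by gcongr),
    fun k hk u hu hd => (O.pt k hk u hu hd).trans (by gcongr)⟩

theorem eqS : EqS := eqS_of fun X I => (X.ex_tt I).imp fun _ Y => ⟨Y, X.sum_ta I Y⟩

end Crest.Agent.T156.Alt.R62.Eq78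

end
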