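import Crest.Agent.T156.EnQ_78

/-!
# Row 156 (helper57): the envelope on the slope and the square sum of the tolerance
-/

set_option autoImplicit false
set_option linter.unusedSectionVars false
set_option linter.unusedVariables false
set_option maxHeartbeats 400000

noncomputable section

namespace Crest.Agent.T156.Alt.R62.Eq78

open Real Finset Filter
open Crest.Agent.T156.Alt.C33 Crest.Agent.T156.Alt.Md67 Crest.Agent.T156.Alt.Pl57

namespace Ex

variable {lam : ℝ} {S : Sc} {M : Md} {m : ℕ} {a x lm γ : ℝ} (X : Ex lam S M m a x lm γ)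
include X

theorem logP : log (3 / x ^ 3) ≤ lam ^ 3 / 4 := by
  have P0 := X.P0
  have C0 := X.h.C0
  have n1 := X.F.n1
  have big := X.big
  have e : 3 / x ^ 3 ≤ 3 * S.C * (S.n : ℝ) ^ S.A := by
    have e1 := X.h.v1
    rw [div_le_iff₀ C0] at e1
    rw [div_le_iff₀ P0]
    have := mul_le_mul_of_nonneg_right X.vx (show 0 ≤ (S.n : ℝ) ^ S.A * S.C by positivity)
    nlinarith
  refine (log_le_log (by positivity) e).trans ?_
  rw [log_mul (by positivity) (by positivity), log_pow]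
  have e1 := log_le_sub_one_of_pos (show 0 < 3 * S.C by positivity)
  have e2 : (S.A : ℝ) * log S.n ≤ lam * lam :=
    mul_le_mul X.Al X.lg (log_nonneg n1) (by linarith)
  nlinarith [X.Cl, mul_le_mul_of_nonneg_right big (show 0 ≤ lam * lam by positivity)]

theorem sumA : ∑ k ∈ Ico S.J S.Jp, lw M k * uA S M x k ^ 2 ≤ lam ^ 3 * x ^ 3 := by
  have P0 := X.P0
  have p0 := X.x0
  have u0 := X.u0
  have e := tel (fun k => log (dl S M k + x)) X.JJ.le
  have e1 : ∑ k ∈ Ico S.J S.Jp, lw M k * uA S M x k ^ 2 ≤ ∑ k ∈ Ico S.J S.Jp,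
      2 * x ^ 3 * (log (dl S M (k + 1) + x) - log (dl S M k + x)) := sum_le_sum fun k hk => by
    obtain ⟨a1, a2⟩ := mem_Ico.1 hk
    have d0 := u0.trans_le (X.dl0 a1)
    have w0 := X.lw0 k
    have w1 := (X.lw_le a1 a2).trans (min_le_left _ _)
    have f := one_sub_inv_le_log_of_pos
      (show 0 < (dl S M k + lw M k + x) / (dl S M k + x) by positivity)
    rw [uA, sq_sqrt (by positivity), X.dl_succ k, ← log_div (by positivity) (by positivity)]
    refine le_trans ?_ (mul_le_mul_of_nonneg_left f (by positivity))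
    rw [inv_div, one_sub_div (by positivity), ← mul_div_assoc, ← mul_div_assoc,
      div_le_div_iff₀ (by positivity) (by positivity)]
    nlinarith [mul_nonneg (mul_nonneg w0 P0.le) (show 0 ≤ dl S M k + x - lw M k by linarith)]
  rw [← mul_sum, e] at e1
  refine e1.trans ?_
  have d0 := u0.trans_le (X.dl0 le_rfl)
  have d1 := u0.trans_le (X.dl0 X.JJ.le)
  rw [← log_div (by positivity) (by positivity)]
  have e2 : log ((dl S M S.Jp + x) / (dl S M S.J + x)) ≤ log (3 / x ^ 3) := by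
    gcongr
    exacts [by linarith [X.dl2 S.Jp, X.x1], by linarith [X.Px.2]]
  nlinarith [mul_le_mul_of_nonneg_left (e2.trans X.logP) P0.le,
    mul_pos (pow_pos (show 0 < lam by linarith [X.big]) 3) P0]

theorem sumB : ∑ k ∈ Ico S.J S.Jp, lw M k * uB M x k ^ 2 ≤ lam ^ 3 * x ^ 3 := by
  have P0 := X.P0
  have e := tel (fun k => -log (du M k + x ^ 3)) X.JJ.le
  have e1 : ∑ k ∈ Ico S.J S.Jp, lw M k * uB M x k ^ 2 ≤ ∑ k ∈ Ico S.J S.Jp,
      x ^ 3 * (-log (du M (k + 1) + x ^ 3) - -log (du M k + x ^ 3)) := sum_le_sum fun k hk => by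
    have d0 := X.du0 k
    have d1 := X.du0 (k + 1)
    have d : lw M k = du M k - du M (k + 1) := by simp [du, lw]
    have f := log_le_sub_one_of_pos
      (show 0 < (du M (k + 1) + x ^ 3) / (du M k + x ^ 3) by positivity)
    rw [log_div (by positivity) (by positivity), div_sub_one (by positivity)] at f
    rw [uB, sq_sqrt (by positivity), d, mul_comm, div_mul_eq_mul_div, mul_div_assoc]
    gcongr
    rw [show du M (k + 1) + x ^ 3 - (du M k + x ^ 3) = -(du M k - du M (k + 1)) by ring,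
      neg_div] at f
    linarith
  rw [← mul_sum, e] at e1
  refine e1.trans ?_
  have d0 := X.du0 S.J
  have d1 := X.du0 S.Jp
  rw [neg_sub_neg, ← log_div (by positivity) (by positivity)]
  have e2 : log ((du M S.J + x ^ 3) / (du M S.Jp + x ^ 3)) ≤ log (3 / x ^ 3) := by
    gcongr
    exacts [by linarith [X.du1 S.J, X.x1, X.Px.2], by linarith]
  nlinarith [mul_le_mul_of_nonneg_left (e2.trans X.logP) P0.le,
    mul_pos (pow_pos (show 0 < lam by linarith [X.big]) 3) P0]

/-- the square sum on the plateau -/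
theorem sum_tq : ∑ k ∈ Ico S.J S.Jp, lw M k * tq S M x k ^ 2 ≤ lam ^ 7 * x ^ 3 := by
  have P0 := X.P0
  have big := X.big
  have C0 := X.h.C0
  calc _ ≤ ∑ k ∈ Ico S.J S.Jp, 512 * S.C ^ 2 * (lw M k * uA S M x k ^ 2 + lw M k * uB M x k ^ 2) :=
        sum_le_sum fun k _ => by
          have w0 := X.lw0 k
          have : tq S M x k ^ 2 ≤ 512 * S.C ^ 2 * (uA S M x k ^ 2 + uB M x k ^ 2) := by
            unfold tq
            nlinarith [mul_nonneg (sq_nonneg S.C) (sq_nonneg (uA S M x k - uB M x k))]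
          nlinarith [mul_le_mul_of_nonneg_left this w0]
    _ ≤ 512 * lam ^ 2 * (lam ^ 3 * x ^ 3 + lam ^ 3 * x ^ 3) := by
        rw [← mul_sum, sum_add_distrib]
        have := add_le_add X.sumA X.sumB
        have f : 0 ≤ ∑ k ∈ Ico S.J S.Jp, lw M k * uA S M x k ^ 2 +
            ∑ k ∈ Ico S.J S.Jp, lw M k * uB M x k ^ 2 :=
          add_nonneg (sum_nonneg fun k _ => mul_nonneg (X.lw0 k) (sq_nonneg _))
            (sum_nonneg fun k _ => mul_nonneg (X.lw0 k) (sq_nonneg _))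
        have := X.Cl
        gcongr 512 * ?_ ^ 2 * ?_
    _ = 1024 * (lam ^ 5 * x ^ 3) := by ring
    _ ≤ lam ^ 2 * (lam ^ 5 * x ^ 3) := by gcongr; nlinarith
    _ = _ := by ring

variable {kb n k0 : ℕ} (I : Ix S M x kb n k0)
include I

/-- the envelope on the slope exists -/
theorem ex_tt : ∃ T, TT S M m a x k0 T := by
  have v0 := X.h.v0
  have C1 := X.h.C1
  have kJ := I.k0J
  have Jp := X.JJ
  have p0 := X.x0
  have cv : 0 < S.C * S.v := by positivity
  set β : ℕ → ℝ := fun k => if k < S.J then |M.del m a k| else tq S M x S.J with hβ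
  obtain ⟨T, t1, t2, t3⟩ := env' β kJ.le (show 0 ≤ 4 * (S.C * S.v) by positivity)
  obtain ⟨j1, j2⟩ := X.tqJ
  have bs : ∀ k, k < S.J → β k = |M.del m a k| := fun k b => if_pos b
  have bt : ∀ k, S.J ≤ k → β k = tq S M x S.J := fun k b => if_neg b.not_gt
  have Cx : 0 < S.C * x := by positivity
  refine ⟨T, t2, fun k a' b => bs k b ▸ t1 k a' b.le, bt _ le_rfl ▸ t1 _ kJ.le le_rfl,
    fun k => t3 k _ fun i c d => ?_, fun k a' b => t3 k _ fun i c d => ?_⟩
  · have : 0 ≤ |(i : ℝ) - k| * (4 * (S.C * S.v)) := by positivity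
    rcases lt_or_ge i S.J with e | e
    · rw [bs i e]; linarith [X.sup I c d]
    · rw [bt i e]; linarith
  · have e0 := @Env96.ev_nonneg (M.rb m a) (3 * (S.C * S.v)) k0 (S.J - 1) k
    have e1 := abs_nonneg (M.del m a k)
    rcases le_or_gt S.J i with e | e
    · have f1 : (S.J : ℝ) ≤ i := by exact_mod_cast e
      have f2 : (k : ℝ) ≤ S.J := by exact_mod_cast b.le
      rw [abs_of_nonneg (show (0 : ℝ) ≤ i - k by linarith), bt i e]
      have e4 : ((S.J : ℝ) - k) * S.v ≤ ((i : ℝ) - k) * (4 * (S.C * S.v)) :=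
        mul_le_mul (by linarith) (by nlinarith) v0.le (by linarith)
      linarith [le_max_left (tq S M x S.J - ((S.J : ℝ) - k) * S.v) 0]
    · have e2 := Env96.cone (f := M.rb m a) (c := 3 * (S.C * S.v)) (a := k0) (b := S.J - 1) (k := k)
        c (show i ≤ S.J - 1 by omega)
      have e3 := Env96.abs_tele (q := M.q) (g := S.C * S.v) (a := k0) (b := S.J)
        (fun y _ b => X.qs' y (by omega)) c e.le a' b.le
      have e6 := le_max_right (tq S M x S.J - ((S.J : ℝ) - k) * S.v) 0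
      rw [bs i e]
      obtain ⟨f1, f2⟩ := abs_le.1 e2
      obtain ⟨f3, f4⟩ := abs_le.1 e3
      have f5 := le_abs_self (M.del m a k)
      have f6 := neg_abs_le (M.del m a k)
      unfold Md.del at *
      exact abs_le.2 ⟨by linarith, by linarith⟩

variable {T : ℕ → ℝ} (Y : TT S M m a x k0 T)
include Y

/-- the square sum on the slope -/
theorem sum_sl : ∑ k ∈ Ico k0 S.J, lw M k * (T k + √(x ^ 3)) ^ 2 ≤ lam ^ 23 * x ^ 3 := by
  have h := X.h
  have Jp := X.JJ
  have kJ := I.k0J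
  have p0 := X.x0
  have P0 := X.P0
  have big := X.big
  have l1 := X.l1
  have v0 := h.v0
  have C1 := h.C1
  have jl : S.j0 < k0 := by have := h.i1; have := I.jl; have := I.e0; omega
  have zs : ∀ k ∈ Ico k0 S.J, S.v / S.C ≤ lw M k ∧ lw M k ≤ S.C * S.v := fun k hk => by
    obtain ⟨a1, a2⟩ := mem_Ico.1 hk
    have := h.zs (k - 1) (by omega) (by omega)
    rwa [show k - 1 + 1 = k by omega] at this
  have sd : ∑ k ∈ Ico k0 S.J, lw M k * M.del m a k ^ 2 ≤ x ^ 3 :=
    le_trans (sum_le_sum_of_subset_of_nonneg (fun k hk => X.memT I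
      (by have := (mem_Ico.1 hk).1; have := I.e0; omega) (by have := (mem_Ico.1 hk).2; omega))
      fun k _ _ => mul_nonneg (X.lw0 k) (sq_nonneg _)) X.en
  have sd' : S.v * ∑ k ∈ Ico k0 S.J, M.del m a k ^ 2 ≤ S.C * x ^ 3 := by
    refine le_trans ?_ (mul_le_mul_of_nonneg_left sd h.C0.le)
    rw [mul_sum, mul_sum]
    refine sum_le_sum fun k hk => ?_
    have := (zs k hk).1
    rw [div_le_iff₀ h.C0] at this
    nlinarith [mul_le_mul_of_nonneg_right this (sq_nonneg (M.del m a k))]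
  have cx : 6 * (S.C * x) ≤ lam ^ 2 * x := by
    rw [← mul_assoc, sq]; gcongr; exacts [by linarith, X.Cl]
  have se := Env96.sum_sq (f := M.rb m a) (q := M.q) (g := S.C * S.v) (c := 3 * (S.C * S.v))
    (a := k0) (b := S.J - 1) (D := lam ^ 2 * x) (by omega) (by positivity) (by positivity) le_rfl
    (fun y _ _ => rb_mono X.F.lg.m0 y.le_succ) (fun y _ b => X.qs' y (by omega))
    ((X.sup I le_rfl kJ.le).trans cx) ((X.sup I (by omega) (by omega)).trans cx)
  rw [show Icc k0 (S.J - 1) = Ico k0 S.J by ext; simp only [mem_Icc, mem_Ico]; omega] at se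
  have se' : S.C * S.v * ∑ k ∈ Ico k0 S.J, Env96.ev (M.rb m a) (3 * (S.C * S.v)) k0 (S.J - 1) k ^ 2 ≤
      lam ^ 22 * x ^ 3 := by
    refine (mul_le_mul_of_nonneg_left se (by positivity)).trans ?_
    calc _ = 56 / 3 * (2 * lam ^ 6 * x ^ 3 +
          4 * S.C * (S.v * ∑ k ∈ Ico k0 S.J, M.del m a k ^ 2)) := by
          unfold Md.del; field_simp
      _ ≤ 56 / 3 * (2 * lam ^ 6 * x ^ 3 + 4 * lam * (lam ^ 5 * x ^ 3)) := by
          gcongr _ * (_ + _ * ?_ * ?_)
          exacts [X.Cl, sd'.trans (by gcongr; exact X.Cl.trans (le_self_pow₀ l1 (by norm_num)))]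
      _ = 112 * lam ^ 6 * x ^ 3 := by ring
      _ ≤ lam ^ 16 * lam ^ 6 * x ^ 3 := by
          gcongr; exact le_trans (by linarith) (le_self_pow₀ l1 (by norm_num))
      _ = _ := by ring
  have tJ : 0 ≤ tq S M x S.J ∧ tq S M x S.J ≤ lam ^ 7 * x := by
    refine ⟨X.b0.le.trans (X.tq_b le_rfl), X.tqJ.2.trans ?_⟩
    calc _ ≤ lam * (lam ^ 2 * x) := by gcongr; exacts [by linarith, X.Cl]
      _ = lam ^ 3 * x := by ring
      _ ≤ _ := by gcongr; norm_num
  have sc : S.v * ∑ k ∈ Ico k0 S.J, max (tq S M x S.J - ((S.J : ℝ) - k) * S.v) 0 ^ 2 ≤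
      lam ^ 21 * x ^ 3 := by
    have e := tel (fun k : ℕ => max (tq S M x S.J - ((S.J : ℝ) - k) * S.v) 0 ^ 3) kJ.le
    rw [mul_sum]
    refine (sum_le_sum fun k _ => ?_).trans (e.le.trans ?_)
    · refine (Tx.cube_step _ _ v0.le).trans (le_of_eq ?_)
      push_cast
      congr 3
      ring
    · rw [sub_self, zero_mul, sub_zero, max_eq_left tJ.1]
      have f := pow_le_pow_left₀ tJ.1 tJ.2 3
      rw [mul_pow, show (lam ^ 7) ^ 3 = lam ^ 21 by ring] at f
      have := le_max_right (tq S M x S.J - ((S.J : ℝ) - k0) * S.v) 0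
      have : 0 ≤ max (tq S M x S.J - ((S.J : ℝ) - k0) * S.v) 0 ^ 3 := by positivity
      linarith
  have s1 : ∑ k ∈ Ico k0 S.J, lw M k ≤ 1 := by
    rw [(Tx.lw_sum kJ.le).resolve_right (by omega)]
    linarith [X.du1 k0, X.du0 S.J]
  calc _ ≤ ∑ k ∈ Ico k0 S.J, (4 * (S.C * S.v * Env96.ev (M.rb m a) (3 * (S.C * S.v)) k0 (S.J - 1) k ^ 2)
        + 4 * (lw M k * M.del m a k ^ 2) +
        4 * S.C * (S.v * max (tq S M x S.J - ((S.J : ℝ) - k) * S.v) 0 ^ 2) +
        4 * x ^ 3 * lw M k) := sum_le_sum fun k hk => by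
        obtain ⟨a1, a2⟩ := mem_Ico.1 hk
        have t0 : 0 ≤ T k := (abs_nonneg _).trans (Y.loc k a1 a2)
        have b0 := X.b0
        have e := pow_le_pow_left₀ (show 0 ≤ T k + √(x ^ 3) by positivity)
          (add_le_add_left (Y.sl k a1 a2) (√(x ^ 3))) 2
        have w0 := X.lw0 k
        have w1 := (zs k hk).2
        have q1 : √(x ^ 3) ^ 2 = x ^ 3 := sq_sqrt P0.le
        rw [← sq_abs (M.del m a k)]
        generalize Env96.ev (M.rb m a) (3 * (S.C * S.v)) k0 (S.J - 1) k = u at *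
        generalize |M.del m a k| = y at *
        generalize max (tq S M x S.J - ((S.J : ℝ) - k) * S.v) 0 = z at *
        generalize √(x ^ 3) = w at *
        rw [← q1]
        have e1 : (T k + w) ^ 2 ≤ 4 * (u ^ 2 + y ^ 2 + z ^ 2 + w ^ 2) := by
          nlinarith [sq_nonneg (u - y), sq_nonneg (u - z), sq_nonneg (u - w), sq_nonneg (y - z),
            sq_nonneg (y - w), sq_nonneg (z - w)]
        nlinarith [mul_le_mul_of_nonneg_left e1 w0, mul_le_mul_of_nonneg_right w1 (sq_nonneg u),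
          mul_le_mul_of_nonneg_right w1 (sq_nonneg z)]
    _ ≤ 4 * (lam ^ 22 * x ^ 3) + 4 * (lam ^ 22 * x ^ 3) + 4 * lam * (lam ^ 21 * x ^ 3) +
        4 * (lam ^ 22 * x ^ 3) * 1 := by
        simp only [sum_add_distrib, ← mul_sum]
        have f0 : x ^ 3 ≤ lam ^ 22 * x ^ 3 := le_mul_of_one_le_left P0.le (one_le_pow₀ l1)
        have f1 := sd.trans f0
        have f2 := X.Cl
        have f4 : 0 ≤ ∑ i ∈ Ico k0 S.J, lw M i := sum_nonneg fun k _ => X.lw0 k
        gcongr 4 * ?_ + 4 * ?_ + 4 * ?_ * ?_ + 4 * ?_ * ?_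
    _ = 16 * (lam ^ 22 * x ^ 3) := by ring
    _ ≤ lam * (lam ^ 22 * x ^ 3) := by gcongr; linarith
    _ = _ := by ring

/-- **the square sum of the tolerance** -/
theorem sum_ta : ∑ k ∈ Ico k0 S.Jp, lw M k * ta S M x T k ^ 2 ≤ lam ^ 30 * x ^ 3 := by
  have P0 := X.P0
  have big := X.big
  rw [← sum_Ico_consecutive _ I.k0J.le X.JJ.le]
  have e1 : ∑ k ∈ Ico k0 S.J, lw M k * ta S M x T k ^ 2 =
      ∑ k ∈ Ico k0 S.J, lw M k * (T k + √(x ^ 3)) ^ 2 :=
    sum_congr rfl fun k hk => by rw [ta, if_pos (mem_Ico.1 hk).2]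
  have e2 : ∑ k ∈ Ico S.J S.Jp, lw M k * ta S M x T k ^ 2 =
      ∑ k ∈ Ico S.J S.Jp, lw M k * tq S M x k ^ 2 :=
    sum_congr rfl fun k hk => by
      rw [ta, if_neg (mem_Ico.1 hk).1.not_gt, min_eq_left (mem_Ico.1 hk).2.le]
  rw [e1, e2]
  have f1 : lam ^ 23 * x ^ 3 ≤ lam ^ 29 * x ^ 3 := by gcongr; exacts [X.l1, by norm_num]
  have f2 : lam ^ 7 * x ^ 3 ≤ lam ^ 29 * x ^ 3 := by gcongr; exacts [X.l1, by norm_num]
  have f3 : 2 * (lam ^ 29 * x ^ 3) ≤ lam * (lam ^ 29 * x ^ 3) := by gcongr; linarith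
  have := X.sum_sl I Y
  have := X.sum_tq
  linarith

end Ex

end Crest.Agent.T156.Alt.R62.Eq78

end
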