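import Crest.Agent.T156.SrP2_41
import Crest.Agent.T156.EnD_91

/-!
# Row 156 (helper41): the output of SR on the END model, in the form `En91.SrE`
-/

set_option autoImplicit false

noncomputable section

namespace Crest.Agent.T156.Alt.En91

open Real

theorem srE {β : ℝ} (hβ : 1 < β) (hS : Sr.SrS2) : SrE β := by
  refine Sml.glue' hβ (Sp41.srE hβ hS) 2 one_pos 1 ?_
  intro c0 C0 A c η _ _ _ _
  refine ⟨1, fun p H _ _ _ h P hP m a w => (h P hP m a w).trans ?_⟩
  have s0 := H.s0
  exact mul_le_mul_of_nonneg_left (Pre29.rp_le H.n1 (by linarith [H.c_pos, H.hc])) (by positivity)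

end Crest.Agent.T156.Alt.En91

end
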