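import Crest.Agent.T156.LDef_69
import Crest.Agent.T156.SrP_26

/-!
# Row 156, block (L) (helper64): the plateau sums of `LDef_69` in closed form
-/

set_option autoImplicit false
set_option linter.unusedSectionVars false

noncomputable section

namespace Crest.Agent.T156.Alt.Ps64

open Real Finset
open Crest.Agent.T156.Alt.L69
open Crest.Agent.T156.SrP26 (Pt rho)

/-- the plateau nodes below the last shell -/
abbrev nd (S : Sc) (M : Md) (u1 : ℝ) : Finset ℕ := (Icc S.J S.Jp).filter fun k => u1 ≤ du M k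

/-- plateau data: mesh `h`, cut `u1`, `∫ den ≤ D`, `den ρ ≥ lm`, `den ρ² ≥ dm`, logarithms `≤ Λ` -/
structure PD (S : Sc) (M : Md) (h u1 Xp D lm dm Λ : ℝ) : Prop where
  cl : Cl S M
  h0 : 0 < h
  mesh : ∀ k, S.J ≤ k → k < S.Jp → dx M k ≤ h
  ue : S.ue < u1
  hu1 : 16 * h ≤ u1
  hu0 : 16 * h ≤ S.u0
  X0 : 0 < Xp
  hX : 16 * h ≤ Xp ^ ((1 : ℝ) / 3)
  ck : S.C ^ 2 * (M.ck S.Jp - M.ck S.J) ≤ D
  lm0 : 0 < lm
  lm1 : ∀ k ∈ nd S M u1, lm ≤ S.den (M.z (k - 1)) * ds M S k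
  dm0 : 0 < dm
  dm1 : ∀ k ∈ nd S M u1, dm ≤ S.den (M.z (k - 1)) * ds M S k ^ 2
  l0 : 2 * (log (1 + 1 / S.u0) + 2 * log (1 + 1 / u1)) ≤ Λ
  lX : 2 * (log (1 + 1 / Xp ^ ((1 : ℝ) / 3)) + 2 * log (1 + 1 / u1)) ≤ Λ

theorem cube3 {x : ℝ} (hx : 0 ≤ x) : (x ^ ((1 : ℝ) / 3)) ^ 3 = x := by
  rw [← rpow_natCast, ← rpow_mul hx]
  norm_num

theorem young {a s : ℝ} (ha : 0 ≤ a) (hs : 0 < s) : a ^ 2 ≤ 2 / (3 * s) * a ^ 3 + s ^ 2 / 3 := by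
  have h := mul_nonneg (sq_nonneg (a - s)) (by positivity : 0 ≤ 2 * a + s)
  rw [← sub_nonneg]
  have e : 2 / (3 * s) * a ^ 3 + s ^ 2 / 3 - a ^ 2 = (a - s) ^ 2 * (2 * a + s) / (3 * s) := by
    field_simp
    ring
  rw [e]
  positivity

namespace PD

variable {S : Sc} {M : Md} {h u1 Xp D lm dm Λ Vt γ : ℝ} (P : PD S M h u1 Xp D lm dm Λ)
include P

theorem lt {k : ℕ} (hk : k ∈ nd S M u1) : S.J ≤ k ∧ k < S.Jp ∧ u1 ≤ du M k := by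
  obtain ⟨a, b⟩ := mem_filter.1 hk
  obtain ⟨a1, a2⟩ := mem_Icc.1 a
  refine ⟨a1, lt_of_le_of_ne a2 fun e => ?_, b⟩
  have := P.cl.last
  have := P.ue
  rw [e, du] at b
  linarith

theorem dx0 (k : ℕ) : 0 ≤ dx M k := sub_nonneg.2 (P.cl.leg.zm (Nat.sub_le k 1))

theorem xs_le {k : ℕ} (hk : k ∈ nd S M u1) : M.z (S.J - 1) ≤ M.z (k - 1) :=
  P.cl.leg.zm (by have := (P.lt hk).1; omega)

theorem u10 : 0 < u1 := by linarith [P.h0, P.hu1]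

theorem ds0 {k : ℕ} (hk : k ∈ nd S M u1) : 0 < ds M S k :=
  lt_min (by have := P.xs_le hk; have := P.h0; have := P.hu0; rw [dl]; linarith)
    (P.u10.trans_le (P.lt hk).2.2)

theorem pt {p : ℝ} (hp : 16 * h ≤ p) : Pt M.z S.J S.Jp p u1 h :=
  ⟨by have := P.cl.jl_lt; omega, P.cl.i3, P.cl.leg.zm, (P.cl.z_pos _).le, P.cl.top _ le_rfl,
    P.mesh, P.cl.last.trans P.ue.le, P.h0, hp, P.hu1⟩

theorem sum_one : ∑ k ∈ nd S M u1, dx M k ≤ 1 := by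
  have i3 := P.cl.i3
  have j1 := P.cl.jl_lt
  calc _ ≤ ∑ k ∈ Ioc (S.J - 1) S.Jp, (M.z k - M.z (k - 1)) :=
        sum_le_sum_of_subset_of_nonneg (fun k hk => by
          have := P.lt hk
          simp only [mem_Ioc]
          omega) fun k _ _ => P.dx0 k
    _ ≤ 1 := by
        rw [SrP26.tele _ _ (by omega)]
        linarith [P.cl.leg.z1 S.Jp, P.cl.z_pos (S.J - 1)]

theorem sum_inv {p : ℝ} (hp : 16 * h ≤ p) :
    ∑ k ∈ nd S M u1, dx M k / min (M.z (k - 1) - M.z (S.J - 1) + p) (du M k) ≤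
      2 * (log (1 + 1 / p) + 2 * log (1 + 1 / u1)) := by
  have Q := P.pt hp
  refine le_trans ?_ (mul_le_mul_of_nonneg_left Q.sum_inv zero_le_two)
  rw [mul_sum]
  refine (sum_le_sum fun k hk => ?_).trans (sum_le_sum_of_subset_of_nonneg (filter_subset _ _)
    fun k hk _ => mul_nonneg zero_le_two
      (div_nonneg (Q.dm_nn k) (Q.r_pos (mem_Icc.1 hk).1 (mem_Icc.1 hk).2).le))
  obtain ⟨a1, a2, a3⟩ := P.lt hk
  have r0 := Q.r_pos a1 a2.le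
  have r1 : Q.r k ≤ M.z k - M.z (S.J - 1) + p := min_le_left _ _
  have r2 : Q.r k ≤ 1 - M.z k + u1 := min_le_right _ _
  have b1 := P.mesh k a1 a2
  have b2 := P.dx0 k
  have b3 := P.xs_le hk
  have b4 := P.h0
  simp only [dx, du] at b1 b2 a3 ⊢
  calc _ ≤ (M.z k - M.z (k - 1)) / (Q.r k / 2) :=
        div_le_div_of_nonneg_left b2 (by linarith) (le_min (by linarith) (by linarith))
    _ = _ := by field_simp

/-- `∫ dx / ρ ≤ Λ` -/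
theorem sum_ds : ∑ k ∈ nd S M u1, dx M k / ds M S k ≤ Λ := (P.sum_inv P.hu0).trans P.l0

theorem Λ0 : 0 ≤ Λ :=
  (sum_nonneg fun k hk => div_nonneg (P.dx0 k) (P.ds0 hk).le).trans P.sum_ds

/-- `∫ den dx ≤ D` -/
theorem sum_den : ∑ k ∈ nd S M u1, dx M k * S.den (M.z (k - 1)) ≤ D := by
  have c := P.cl
  have C0 := c.C0
  have j0 := c.j0_lt
  calc _ ≤ ∑ k ∈ Ico S.J S.Jp, dx M k * S.den (M.z (k - 1)) :=
        sum_le_sum_of_subset_of_nonneg (fun k hk => mem_Ico.2 ⟨(P.lt hk).1, (P.lt hk).2.1⟩)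
          fun k _ _ => mul_nonneg (P.dx0 k) (c.den0 _).le
    _ ≤ ∑ k ∈ Ico S.J S.Jp, S.C ^ 2 * (M.ck (k + 1) - M.ck k) := by
        refine sum_le_sum fun k hk => ?_
        obtain ⟨k1, k2⟩ := mem_Ico.1 hk
        have a1 := (c.plat k k1 k2).2
        have a2 := (c.ckm k (by omega) k2).1
        rw [div_le_iff₀ C0] at a2
        have := mul_le_mul_of_nonneg_left a2 C0.le
        simp only [dx]
        nlinarith
    _ ≤ D := by rw [← mul_sum, sum_Ico_sub _ c.i3]; exact P.ck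

theorem Rp0 (hV : 0 ≤ Vt) (hγ : 0 ≤ γ) (k : ℕ) : 0 ≤ Rp M S Xp Vt γ k :=
  add_nonneg (add_nonneg (sqrt_nonneg _) (le_min hV (sqrt_nonneg _))) hγ

theorem Rp_le (k : ℕ) : Rp M S Xp Vt γ k ≤ Xp ^ ((1 : ℝ) / 3) + Vt + γ := by
  have p0 : 0 < Xp ^ ((1 : ℝ) / 3) := rpow_pos_of_pos P.X0 _
  have p3 := cube3 P.X0.le
  have a1 : √(Xp / max (dl M S k - S.u0) (Xp ^ ((1 : ℝ) / 3))) ≤ Xp ^ ((1 : ℝ) / 3) := by
    refine sqrt_le_iff.2 ⟨p0.le, (div_le_div_of_nonneg_left P.X0.le p0 (le_max_right _ _)).trans ?_⟩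
    rw [div_le_iff₀ p0]
    nlinarith
  have a2 := min_le_left Vt (√(Xp / du M k))
  rw [Rp]
  linarith

/-- `∫ R² dx` -/
theorem sum_Rp (hV : 0 ≤ Vt) :
    ∑ k ∈ nd S M u1, dx M k * Rp M S Xp Vt γ k ^ 2 ≤ 9 * Xp * Λ + 3 * γ ^ 2 := by
  have p0 : 0 < Xp ^ ((1 : ℝ) / 3) := rpow_pos_of_pos P.X0 _
  have X0 := P.X0
  have s1 := (P.sum_inv P.hX).trans P.lX
  have s2 := P.sum_one
  calc _ ≤ ∑ k ∈ nd S M u1, (9 * Xp * (dx M k /
          min (M.z (k - 1) - M.z (S.J - 1) + Xp ^ ((1 : ℝ) / 3)) (du M k)) + 3 * γ ^ 2 * dx M k) := by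
        refine sum_le_sum fun k hk => ?_
        have b3 := P.xs_le hk
        have b4 := P.u10.trans_le (P.lt hk).2.2
        set r := min (M.z (k - 1) - M.z (S.J - 1) + Xp ^ ((1 : ℝ) / 3)) (du M k) with hr
        have r0 : 0 < r := lt_min (by linarith) b4
        have r1 : r / 2 ≤ max (dl M S k - S.u0) (Xp ^ ((1 : ℝ) / 3)) := by
          have c1 := le_max_left (dl M S k - S.u0) (Xp ^ ((1 : ℝ) / 3))
          have c2 := le_max_right (dl M S k - S.u0) (Xp ^ ((1 : ℝ) / 3))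
          have c3 : r ≤ _ := min_le_left _ _
          simp only [dl] at c1 c2 ⊢
          linarith
        have a1 : √(Xp / max (dl M S k - S.u0) (Xp ^ ((1 : ℝ) / 3))) ^ 2 ≤ 2 * (Xp / r) := by
          rw [sq_sqrt (by positivity)]
          exact (div_le_div_of_nonneg_left X0.le (by linarith) r1).trans_eq (by field_simp)
        have a2 : min Vt (√(Xp / du M k)) ^ 2 ≤ Xp / r :=
          (pow_le_pow_left₀ (le_min hV (sqrt_nonneg _)) (min_le_right _ _) 2).trans (by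
            rw [sq_sqrt (by positivity)]
            exact div_le_div_of_nonneg_left X0.le r0 (min_le_right _ _))
        have a3 : Rp M S Xp Vt γ k ^ 2 ≤ 9 * (Xp / r) + 3 * γ ^ 2 := by
          rw [Rp]
          generalize √(Xp / max (dl M S k - S.u0) (Xp ^ ((1 : ℝ) / 3))) = x at *
          generalize min Vt (√(Xp / du M k)) = y at *
          nlinarith [sq_nonneg (x - y), sq_nonneg (x - γ), sq_nonneg (y - γ)]
        exact (mul_le_mul_of_nonneg_left a3 (P.dx0 k)).trans_eq (by ring)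
    _ ≤ _ := by
        rw [sum_add_distrib, ← mul_sum, ← mul_sum]
        have := mul_le_mul_of_nonneg_left s1 (by positivity : 0 ≤ 9 * Xp)
        have := mul_le_mul_of_nonneg_left s2 (by positivity : 0 ≤ 3 * γ ^ 2)
        linarith

theorem sum_Rp3 (hV : 0 ≤ Vt) (hγ : 0 ≤ γ) : ∑ k ∈ nd S M u1, dx M k * Rp M S Xp Vt γ k ^ 3 ≤
    (Xp ^ ((1 : ℝ) / 3) + Vt + γ) * (9 * Xp * Λ + 3 * γ ^ 2) := by
  have p0 : 0 < Xp ^ ((1 : ℝ) / 3) := rpow_pos_of_pos P.X0 _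
  refine le_trans ?_ (mul_le_mul_of_nonneg_left (P.sum_Rp (γ := γ) hV) (by positivity))
  rw [mul_sum]
  refine sum_le_sum fun k _ => ?_
  have := mul_le_mul_of_nonneg_left (P.Rp_le (Vt := Vt) (γ := γ) k)
    (mul_nonneg (P.dx0 k) (sq_nonneg (Rp M S Xp Vt γ k)))
  nlinarith

end PD

theorem third_nn (x : ℝ) : 0 ≤ x ^ ((1 : ℝ) / 3) := by
  rcases le_or_gt 0 x with h | h
  · exact rpow_nonneg h _
  · rw [rpow_def_of_neg h, show (1 : ℝ) / 3 * π = π / 3 by ring, cos_pi_div_three]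
    positivity

/-- the cube of the synchronisation part of `ap` -/
def a0 (S : Sc) (M : Md) (Xp Vt γ : ℝ) (k : ℕ) : ℝ := S.w3 1 *
  (S.den (M.z (k - 1)) + (Rp M S Xp Vt γ k + Xp ^ ((1 : ℝ) / 3)) ^ 2 /
    (ds M S k ^ 2 * S.den (M.z (k - 1))))
/-- the cube of the first part of `ap` -/
def aA (S : Sc) (M : Md) (Xp Vt γ : ℝ) (k : ℕ) : ℝ :=
  (a0 S M Xp Vt γ k ^ ((1 : ℝ) / 3) + √(S.w3 1 / lsh M S k)) ^ 3
/-- the second part of `ap` -/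
def aB (S : Sc) (M : Md) (k : ℕ) : ℝ := S.w3 1 / (S.den (M.z (k - 1)) * ds M S k ^ 2)

theorem aA_third (S : Sc) (M : Md) (Xp Vt γ : ℝ) (k : ℕ) : aA S M Xp Vt γ k ^ ((1 : ℝ) / 3) =
    a0 S M Xp Vt γ k ^ ((1 : ℝ) / 3) + √(S.w3 1 / lsh M S k) := by
  rw [aA, ← rpow_natCast, ← rpow_mul (add_nonneg (third_nn _) (sqrt_nonneg _))]
  norm_num

theorem ap_eq0 (S : Sc) (M : Md) (Xp Vt γ : ℝ) (k : ℕ) : ap M S Xp Vt γ k =
    a0 S M Xp Vt γ k ^ ((1 : ℝ) / 3) + aB S M k + √(S.w3 1 / lsh M S k) := rfl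

theorem ap_eq (S : Sc) (M : Md) (Xp Vt γ : ℝ) (k : ℕ) :
    ap M S Xp Vt γ k = aA S M Xp Vt γ k ^ ((1 : ℝ) / 3) + aB S M k := by
  rw [aA_third, ap_eq0]; ring

/-- bound of `∫ aA dx` -/
def ZA (w D R lm Λ : ℝ) : ℝ := 4 * (w * (D + R ^ 2 / lm * Λ) + w / lm * √(w / lm))

namespace PD

variable {S : Sc} {M : Md} {h u1 Xp D lm dm Λ Vt γ w R s : ℝ} (P : PD S M h u1 Xp D lm dm Λ)
include P

theorem w0 : 0 < S.w3 1 := by
  have := P.cl.ms_pos zero_le_one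
  have := P.cl.N0
  have := P.cl.F1
  rw [Sc.w3]
  positivity

theorem a00 (k : ℕ) : 0 ≤ a0 S M Xp Vt γ k := by
  have := P.w0
  have := P.cl.den0 (M.z (k - 1))
  rw [a0]
  positivity

theorem aA0 (k : ℕ) : 0 ≤ aA S M Xp Vt γ k :=
  pow_nonneg (add_nonneg (third_nn _) (sqrt_nonneg _)) 3

theorem aB0 (k : ℕ) : 0 ≤ aB S M k := by
  have := P.w0
  have := P.cl.den0 (M.z (k - 1))
  rw [aB]
  positivity

theorem ap0 (k : ℕ) : 0 ≤ ap M S Xp Vt γ k := by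
  rw [ap_eq]
  exact add_nonneg (third_nn _) (P.aB0 k)

theorem a0_le (hV : 0 ≤ Vt) (hγ : 0 ≤ γ) (hw : S.w3 1 ≤ w)
    (hR : 2 * Xp ^ ((1 : ℝ) / 3) + Vt + γ ≤ R) {k : ℕ} (hk : k ∈ nd S M u1) :
    a0 S M Xp Vt γ k ≤ w * (S.den (M.z (k - 1)) + R ^ 2 / (lm * ds M S k)) := by
  have d0 := P.cl.den0 (M.z (k - 1))
  have s0 := P.ds0 hk
  have l0 := P.lm0
  refine mul_le_mul hw (add_le_add le_rfl (div_le_div₀ (sq_nonneg _)
    (pow_le_pow_left₀ (add_nonneg (P.Rp0 hV hγ k) (rpow_nonneg P.X0.le _))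
      (by linarith [P.Rp_le (Vt := Vt) (γ := γ) k]) 2) (by positivity) ?_))
    (by positivity) (P.w0.le.trans hw)
  nlinarith [mul_le_mul_of_nonneg_right (P.lm1 k hk) s0.le]

theorem aC_le (hw : S.w3 1 ≤ w) {k : ℕ} (hk : k ∈ nd S M u1) :
    √(S.w3 1 / lsh M S k) ≤ √(w / lm) :=
  sqrt_le_sqrt (div_le_div₀ (P.w0.le.trans hw) hw P.lm0 (P.lm1 k hk))

theorem aA_le0 (hw : S.w3 1 ≤ w) {k : ℕ} (hk : k ∈ nd S M u1) :
    aA S M Xp Vt γ k ≤ 4 * (a0 S M Xp Vt γ k + w / lm * √(w / lm)) := by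
  have b := add_pow_le (third_nn (a0 S M Xp Vt γ k)) (sqrt_nonneg (S.w3 1 / lsh M S k)) 3
  have c := pow_le_pow_left₀ (sqrt_nonneg _) (P.aC_le hw hk) 3
  have l0 := P.lm0
  have w0 := P.w0.le.trans hw
  rw [pow_succ (√(w / lm)) 2, sq_sqrt (by positivity)] at c
  rw [cube3 (P.a00 k)] at b
  rw [aA]
  norm_num at b
  linarith

theorem aA_le (hV : 0 ≤ Vt) (hγ : 0 ≤ γ) (hw : S.w3 1 ≤ w)
    (hR : 2 * Xp ^ ((1 : ℝ) / 3) + Vt + γ ≤ R) {k : ℕ} (hk : k ∈ nd S M u1) :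
    aA S M Xp Vt γ k ≤
      4 * (w * (S.den (M.z (k - 1)) + R ^ 2 / (lm * ds M S k)) + w / lm * √(w / lm)) := by
  linarith [P.aA_le0 (Vt := Vt) (γ := γ) hw hk, P.a0_le hV hγ hw hR hk]

theorem sum_a0 (hV : 0 ≤ Vt) (hγ : 0 ≤ γ) (hw : S.w3 1 ≤ w)
    (hR : 2 * Xp ^ ((1 : ℝ) / 3) + Vt + γ ≤ R) :
    ∑ k ∈ nd S M u1, dx M k * a0 S M Xp Vt γ k ≤ w * (D + R ^ 2 / lm * Λ) := by
  have l0 := P.lm0
  calc _ ≤ ∑ k ∈ nd S M u1, w * (dx M k * S.den (M.z (k - 1)) + R ^ 2 / lm * (dx M k / ds M S k)) :=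
        sum_le_sum fun k hk => (mul_le_mul_of_nonneg_left (P.a0_le hV hγ hw hR hk)
          (P.dx0 k)).trans_eq (by have := (P.ds0 hk).ne'; field_simp)
    _ ≤ _ := by
        rw [← mul_sum, sum_add_distrib, ← mul_sum]
        exact mul_le_mul_of_nonneg_left (add_le_add P.sum_den
          (mul_le_mul_of_nonneg_left P.sum_ds (by positivity))) (P.w0.le.trans hw)

/-- from any bound `Z` of `∫ a0 dx` -/
theorem sum_aA0 (hw : S.w3 1 ≤ w) {Z : ℝ} (hZ : ∑ k ∈ nd S M u1, dx M k * a0 S M Xp Vt γ k ≤ Z) :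
    ∑ k ∈ nd S M u1, dx M k * aA S M Xp Vt γ k ≤ 4 * (Z + w / lm * √(w / lm)) := by
  have l0 := P.lm0
  have w0 := P.w0.le.trans hw
  calc _ ≤ ∑ k ∈ nd S M u1, (4 * (dx M k * a0 S M Xp Vt γ k) +
        4 * (w / lm * √(w / lm)) * dx M k) := sum_le_sum fun k hk =>
          (mul_le_mul_of_nonneg_left (P.aA_le0 hw hk) (P.dx0 k)).trans_eq (by ring)
    _ ≤ _ := by
        rw [sum_add_distrib, ← mul_sum, ← mul_sum]
        have := mul_le_mul_of_nonneg_left P.sum_one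
          (show 0 ≤ 4 * (w / lm * √(w / lm)) by positivity)
        linarith

theorem sum_aA (hV : 0 ≤ Vt) (hγ : 0 ≤ γ) (hw : S.w3 1 ≤ w)
    (hR : 2 * Xp ^ ((1 : ℝ) / 3) + Vt + γ ≤ R) :
    ∑ k ∈ nd S M u1, dx M k * aA S M Xp Vt γ k ≤ ZA w D R lm Λ :=
  P.sum_aA0 hw (P.sum_a0 hV hγ hw hR)

theorem aB_le (hw : S.w3 1 ≤ w) {k : ℕ} (hk : k ∈ nd S M u1) :
    aB S M k ≤ w / dm ∧ aB S M k ≤ w / lm / ds M S k := by
  have s0 := P.ds0 hk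
  have l0 := P.lm0
  refine ⟨div_le_div₀ (P.w0.le.trans hw) hw P.dm0 (P.dm1 k hk), ?_⟩
  rw [div_div]
  exact div_le_div₀ (P.w0.le.trans hw) hw (by positivity)
    (by nlinarith [mul_le_mul_of_nonneg_right (P.lm1 k hk) s0.le])

theorem sum_aB (hw : S.w3 1 ≤ w) (i : ℕ) :
    ∑ k ∈ nd S M u1, dx M k * aB S M k ^ (i + 1) ≤ (w / dm) ^ i * (w / lm * Λ) := by
  have w0 := P.w0.le.trans hw
  have l0 := P.lm0
  have d0 := P.dm0
  calc _ ≤ ∑ k ∈ nd S M u1, (w / dm) ^ i * (w / lm * (dx M k / ds M S k)) :=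
        sum_le_sum fun k hk => by
          have a := mul_le_mul (pow_le_pow_left₀ (P.aB0 k) (P.aB_le hw hk).1 i) (P.aB_le hw hk).2
            (P.aB0 k) (by positivity)
          rw [pow_succ]
          exact (mul_le_mul_of_nonneg_left a (P.dx0 k)).trans_eq (by ring)
    _ ≤ _ := by
        rw [← mul_sum, ← mul_sum]
        exact mul_le_mul_of_nonneg_left (mul_le_mul_of_nonneg_left P.sum_ds (by positivity))
          (by positivity)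

/-- `∫ a² dx` -/
theorem sum_ap2 (hV : 0 ≤ Vt) (hγ : 0 ≤ γ) (hw : S.w3 1 ≤ w) (hR : 2 * Xp ^ ((1 : ℝ) / 3) + Vt + γ ≤ R)
    (hs : 0 < s) (hs3 : ZA w D R lm Λ ≤ s ^ 3) :
    ∑ k ∈ nd S M u1, dx M k * ap M S Xp Vt γ k ^ 2 ≤ 2 * s ^ 2 + 2 * (w / dm * (w / lm * Λ)) := by
  have a1 := (P.sum_aA hV hγ hw hR).trans hs3
  have a2 := P.sum_aB hw 1
  have a3 := P.sum_one
  calc _ ≤ ∑ k ∈ nd S M u1, (4 / (3 * s) * (dx M k * aA S M Xp Vt γ k) + 2 * s ^ 2 / 3 * dx M k +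
          2 * (dx M k * aB S M k ^ (1 + 1))) := by
        refine sum_le_sum fun k _ => ?_
        have b1 := young (rpow_nonneg (P.aA0 (Vt := Vt) (γ := γ) k) ((1 : ℝ) / 3)) hs
        rw [cube3 (P.aA0 k)] at b1
        have b2 : ap M S Xp Vt γ k ^ 2 ≤ 2 * (2 / (3 * s) * aA S M Xp Vt γ k + s ^ 2 / 3) +
            2 * aB S M k ^ 2 := by
          rw [ap_eq]
          nlinarith [sq_nonneg (aA S M Xp Vt γ k ^ ((1 : ℝ) / 3) - aB S M k)]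
        exact (mul_le_mul_of_nonneg_left b2 (P.dx0 k)).trans_eq (by ring)
    _ ≤ _ := by
        rw [sum_add_distrib, sum_add_distrib, ← mul_sum, ← mul_sum, ← mul_sum]
        have c1 := mul_le_mul_of_nonneg_left a1 (by positivity : 0 ≤ 4 / (3 * s))
        have c2 := mul_le_mul_of_nonneg_left a3 (by positivity : 0 ≤ 2 * s ^ 2 / 3)
        have c3 : 4 / (3 * s) * s ^ 3 = 4 * s ^ 2 / 3 := by field_simp
        rw [pow_one] at a2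
        linarith

/-- `∫ a³ dx` -/
theorem sum_ap3 (hV : 0 ≤ Vt) (hγ : 0 ≤ γ) (hw : S.w3 1 ≤ w)
    (hR : 2 * Xp ^ ((1 : ℝ) / 3) + Vt + γ ≤ R) : ∑ k ∈ nd S M u1, dx M k * ap M S Xp Vt γ k ^ 3 ≤
      4 * ZA w D R lm Λ + 4 * ((w / dm) ^ 2 * (w / lm * Λ)) := by
  have a1 := P.sum_aA hV hγ hw hR
  have a2 := P.sum_aB hw 2
  calc _ ≤ ∑ k ∈ nd S M u1, (4 * (dx M k * aA S M Xp Vt γ k) + 4 * (dx M k * aB S M k ^ (2 + 1))) := by
        refine sum_le_sum fun k _ => ?_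
        have b1 := add_pow_le (rpow_nonneg (P.aA0 (Vt := Vt) (γ := γ) k) ((1 : ℝ) / 3)) (P.aB0 k) 3
        rw [cube3 (P.aA0 k), ← ap_eq] at b1
        exact (mul_le_mul_of_nonneg_left b1 (P.dx0 k)).trans_eq (by ring)
    _ ≤ _ := by
        rw [sum_add_distrib, ← mul_sum, ← mul_sum]
        linarith

/-- `∫ a⁴ dx`; `dM` bounds the density, `ρ₀` the distance to the ends from below -/
theorem sum_ap4 (hV : 0 ≤ Vt) (hγ : 0 ≤ γ) (hw : S.w3 1 ≤ w) (hR : 2 * Xp ^ ((1 : ℝ) / 3) + Vt + γ ≤ R)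
    {aM : ℝ} (h0 : 0 ≤ aM)
    (hM : ∀ k ∈ nd S M u1, 4 * (w * (S.den (M.z (k - 1)) + R ^ 2 / (lm * ds M S k)) +
      w / lm * √(w / lm)) ≤ aM ^ 3) :
    ∑ k ∈ nd S M u1, dx M k * ap M S Xp Vt γ k ^ 4 ≤
      8 * (aM * ZA w D R lm Λ) + 8 * ((w / dm) ^ 3 * (w / lm * Λ)) := by
  have a1 := mul_le_mul_of_nonneg_left (P.sum_aA hV hγ hw hR) h0
  have a2 := P.sum_aB hw 3
  calc _ ≤ ∑ k ∈ nd S M u1,
          (8 * (aM * (dx M k * aA S M Xp Vt γ k)) + 8 * (dx M k * aB S M k ^ (3 + 1))) := by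
        refine sum_le_sum fun k hk => ?_
        have b0 := rpow_nonneg (P.aA0 (Vt := Vt) (γ := γ) k) ((1 : ℝ) / 3)
        have b1 := add_pow_le b0 (P.aB0 k) 4
        have b2 : aA S M Xp Vt γ k ^ ((1 : ℝ) / 3) ≤ aM :=
          le_of_pow_le_pow_left₀ (n := 3) (by norm_num) h0
            (by rw [cube3 (P.aA0 k)]; exact (P.aA_le hV hγ hw hR hk).trans (hM k hk))
        have b3 := mul_le_mul_of_nonneg_right b2 (P.aA0 (Vt := Vt) (γ := γ) k)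
        rw [pow_succ (aA S M Xp Vt γ k ^ ((1 : ℝ) / 3)) 3, cube3 (P.aA0 k), ← ap_eq] at b1
        have b4 : ap M S Xp Vt γ k ^ 4 ≤ 8 * (aM * aA S M Xp Vt γ k) + 8 * aB S M k ^ 4 := by
          norm_num at b1
          nlinarith
        exact (mul_le_mul_of_nonneg_left b4 (P.dx0 k)).trans_eq (by ring)
    _ ≤ _ := by
        rw [sum_add_distrib, ← mul_sum, ← mul_sum, ← mul_sum]
        linarith

theorem Np_le (Lp : ℝ) (p : ℕ) : Np M S Xp Vt γ u1 Lp p ≤ u1 +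
    ((Lp ^ ((2 : ℝ) / 3)) ^ p * ∑ k ∈ nd S M u1, dx M k * ap M S Xp Vt γ k ^ p +
      (∑ k ∈ nd S M u1, dx M k * Rp M S Xp Vt γ k ^ p) / Lp) := by
  rw [Np, mul_sum, sum_div, ← sum_add_distrib]
  refine add_le_add le_rfl (sum_le_sum fun k _ => ?_)
  exact (mul_le_mul_of_nonneg_left (add_le_add le_rfl (min_le_left _ _)) (P.dx0 k)).trans_eq
    (by ring)

/-- **`Np 2`** -/
theorem Np2 (hV : 0 ≤ Vt) (hγ : 0 ≤ γ) (hw : S.w3 1 ≤ w) (hR : 2 * Xp ^ ((1 : ℝ) / 3) + Vt + γ ≤ R)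
    (hs : 0 < s) (hs3 : ZA w D R lm Λ ≤ s ^ 3) {L : ℝ} (hL : 0 < L) :
    Np M S Xp Vt γ u1 (L ^ 3) 2 ≤ u1 + (L ^ 4 * (2 * s ^ 2 + 2 * (w / dm * (w / lm * Λ))) +
      (9 * Xp * Λ + 3 * γ ^ 2) / L ^ 3) := by
  have e : ((L ^ 3) ^ ((2 : ℝ) / 3)) ^ 2 = L ^ 4 := by
    rw [← rpow_natCast L 3, ← rpow_mul hL.le, ← rpow_natCast, ← rpow_mul hL.le, ← rpow_natCast]
    norm_num
  refine (P.Np_le _ _).trans ?_
  rw [e]
  gcongr
  exacts [P.sum_ap2 hV hγ hw hR hs hs3, P.sum_Rp hV]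

/-- **`Np 3`** -/
theorem Np3 (hV : 0 ≤ Vt) (hγ : 0 ≤ γ) (hw : S.w3 1 ≤ w) (hR : 2 * Xp ^ ((1 : ℝ) / 3) + Vt + γ ≤ R)
    {L : ℝ} (hL : 0 < L) : Np M S Xp Vt γ u1 (L ^ 3) 3 ≤ u1 +
      (L ^ 6 * (4 * ZA w D R lm Λ + 4 * ((w / dm) ^ 2 * (w / lm * Λ))) +
        R * (9 * Xp * Λ + 3 * γ ^ 2) / L ^ 3) := by
  have e : ((L ^ 3) ^ ((2 : ℝ) / 3)) ^ 3 = L ^ 6 := by
    rw [← rpow_natCast L 3, ← rpow_mul hL.le, ← rpow_natCast, ← rpow_mul hL.le, ← rpow_natCast]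
    norm_num
  have a0 := P.Λ0
  have a1 := P.X0
  have p0 : 0 < Xp ^ ((1 : ℝ) / 3) := rpow_pos_of_pos P.X0 _
  refine (P.Np_le _ _).trans ?_
  rw [e]
  gcongr
  exacts [P.sum_ap3 hV hγ hw hR,
    (P.sum_Rp3 hV hγ).trans (mul_le_mul_of_nonneg_right (by linarith) (by positivity))]

/-- **the cost `c1`**, cubic branch -/
theorem c1_three (hV : 0 ≤ Vt) (hγ : 0 ≤ γ) (hw : S.w3 1 ≤ w)
    (hR : 2 * Xp ^ ((1 : ℝ) / 3) + Vt + γ ≤ R) (Lg : ℝ) : ∑ k ∈ nd S M u1,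
      dx M k * min ((Lg ^ 2 * ap M S Xp Vt γ k) ^ 3) ((Lg ^ 2 * ap M S Xp Vt γ k) ^ 4 / S.θ) ≤
      Lg ^ 6 * (4 * ZA w D R lm Λ + 4 * ((w / dm) ^ 2 * (w / lm * Λ))) := by
  refine le_trans ?_ (mul_le_mul_of_nonneg_left (P.sum_ap3 hV hγ hw hR) (by positivity))
  rw [mul_sum]
  exact sum_le_sum fun k _ =>
    (mul_le_mul_of_nonneg_left (min_le_left _ _) (P.dx0 k)).trans_eq (by ring)

/-- **the cost `c1`**, quartic branch -/
theorem c1_four (hV : 0 ≤ Vt) (hγ : 0 ≤ γ) (hw : S.w3 1 ≤ w)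
    (hR : 2 * Xp ^ ((1 : ℝ) / 3) + Vt + γ ≤ R) (Lg : ℝ) {aM : ℝ} (h0 : 0 ≤ aM)
    (hM : ∀ k ∈ nd S M u1, 4 * (w * (S.den (M.z (k - 1)) + R ^ 2 / (lm * ds M S k)) +
      w / lm * √(w / lm)) ≤ aM ^ 3) :
    ∑ k ∈ nd S M u1,
      dx M k * min ((Lg ^ 2 * ap M S Xp Vt γ k) ^ 3) ((Lg ^ 2 * ap M S Xp Vt γ k) ^ 4 / S.θ) ≤
      Lg ^ 8 / S.θ *
        (8 * (aM * ZA w D R lm Λ) + 8 * ((w / dm) ^ 3 * (w / lm * Λ))) := by
  have θ0 := P.cl.θ0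
  refine le_trans ?_ (mul_le_mul_of_nonneg_left (P.sum_ap4 hV hγ hw hR h0 hM) (by positivity))
  rw [mul_sum]
  exact sum_le_sum fun k _ =>
    (mul_le_mul_of_nonneg_left (min_le_right _ _) (P.dx0 k)).trans_eq (by ring)

end PD

end Crest.Agent.T156.Alt.Ps64

end
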