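import Crest.Agent.T156.EnD_91
import Crest.Agent.T156.PlS_64

/-!
# Row 156 (helper88): the plateau numbers `LP` on the END model
-/

set_option autoImplicit false
set_option linter.unusedSectionVars false

noncomputable section

namespace Crest.Agent.T156.Alt.En88

open Real Finset
open Crest.Agent.T156.Alt.L69 Crest.Agent.T156.Alt.Ps64 Crest.Agent.T156.Alt.En91

theorem third {x : ℝ} (hx : 0 ≤ x) : (x ^ 3) ^ ((1 : ℝ) / 3) = x := by
  rw [← rpow_natCast, ← rpow_mul hx]; norm_num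

/-- a plateau with a logarithmic clock -/
structure Cx (S : Sc) (M : Md) (h u x D lm Λ γ w a B : ℝ) : Prop where
  P : PD S M h u (x ^ 3) D lm (lm * u) Λ
  x0 : 0 < x
  x1 : x ≤ 1
  γ0 : 0 ≤ γ
  γx : γ ≤ x
  uu : u ≤ S.u0
  l1 : lm ≤ 1
  d3 : ∀ k, S.J ≤ k → k ≤ S.Jp → S.den (M.z (k - 1)) * du M k ≤ du M k + γ
  w1 : S.w3 1 = w
  ea : w / lm = a
  au : a ≤ u
  B0 : 0 ≤ B
  B1 : 8 * w ^ 2 + 1312 * (a ^ 2 * x ^ 3) ≤ B ^ 3

namespace Cx

variable {S : Sc} {M : Md} {h u x D lm Λ γ w a B : ℝ} (C : Cx S M h u x D lm Λ γ w a B)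
include C

theorem w0 : 0 < w := C.w1 ▸ C.P.w0
theorem apos : 0 < a := C.ea ▸ div_pos C.w0 C.P.lm0

theorem du1 (k : ℕ) : du M k ≤ 1 := by rw [du]; linarith [C.P.cl.z_pos (k - 1)]

theorem ds_ge {k : ℕ} (hk : k ∈ nd S M u) : u ≤ ds M S k :=
  le_min (by have := C.P.xs_le hk; have := C.uu; rw [dl]; linarith) (C.P.lt hk).2.2

theorem dd {k : ℕ} (hk : k ∈ nd S M u) : S.den (M.z (k - 1)) * ds M S k ≤ 2 := by
  have a1 := C.d3 k (C.P.lt hk).1 (C.P.lt hk).2.1.le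
  have a2 := mul_le_mul_of_nonneg_left (min_le_right (dl M S k) (du M k))
    (C.P.cl.den0 (M.z (k - 1))).le
  rw [ds]; linarith [C.du1 k, C.γx, C.x1]

theorem T_le (k : ℕ) : √(x ^ 3 / max (dl M S k - S.u0) ((x ^ 3) ^ ((1 : ℝ) / 3))) ≤ x := by
  have x0 := C.x0
  rw [third x0.le]
  exact sqrt_le_iff.2 ⟨x0.le, (div_le_div_of_nonneg_left (by positivity) x0
    (le_max_right _ _)).trans (le_of_eq (by field_simp))⟩

theorem m_le {k : ℕ} (hk : k ∈ nd S M u) : min 1 √(x ^ 3 / du M k) ^ 2 * ds M S k ≤ x ^ 3 := by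
  have x0 := C.x0
  have y0 := C.P.u10.trans_le (C.P.lt hk).2.2
  have a1 : min 1 √(x ^ 3 / du M k) ^ 2 ≤ x ^ 3 / du M k :=
    (pow_le_pow_left₀ (le_min zero_le_one (sqrt_nonneg _)) (min_le_right _ _) 2).trans_eq
      (sq_sqrt (by positivity))
  exact (mul_le_mul a1 (min_le_right _ _) (C.P.ds0 hk).le (by positivity)).trans_eq (by field_simp)

theorem R_le (k : ℕ) : Rp M S (x ^ 3) 1 γ k ≤ 2 * x + min 1 √(x ^ 3 / du M k) := by
  rw [Rp]; linarith [C.T_le k, C.γx]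

theorem R4 {k : ℕ} (hk : k ∈ nd S M u) :
    (Rp M S (x ^ 3) 1 γ k + x) ^ 4 * ds M S k ≤ 656 * x ^ 3 := by
  have x0 := C.x0
  have s0 := C.P.ds0 hk
  have s1 : ds M S k ≤ 1 := (min_le_right _ _).trans (C.du1 k)
  have m1 := C.m_le hk
  have r0 := C.P.Rp0 (Vt := 1) zero_le_one C.γ0 k
  have r1 := C.R_le k
  set m := min 1 √(x ^ 3 / du M k)
  have m0 : 0 ≤ m := le_min zero_le_one (sqrt_nonneg _)
  have m2 : m ≤ 1 := min_le_left _ _
  have b1 : (Rp M S (x ^ 3) 1 γ k + x) ^ 4 ≤ (3 * x + m) ^ 4 :=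
    pow_le_pow_left₀ (by positivity) (by linarith) 4
  have b2 := add_pow_le (show 0 ≤ 3 * x by positivity) m0 4
  have b3 : m ^ 4 ≤ m ^ 2 := pow_le_pow_of_le_one m0 m2 (by norm_num)
  have b4 : x ^ 4 ≤ x ^ 3 := pow_le_pow_of_le_one x0.le C.x1 (by norm_num)
  have b5 : (Rp M S (x ^ 3) 1 γ k + x) ^ 4 ≤ 648 * x ^ 3 + 8 * m ^ 2 := by
    norm_num at b2; nlinarith
  have b6 := mul_le_mul_of_nonneg_right b5 s0.le
  nlinarith [mul_le_mul_of_nonneg_left s1 (show 0 ≤ x ^ 3 by positivity)]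

theorem Rds {k : ℕ} (hk : k ∈ nd S M u) : Rp M S (x ^ 3) 1 γ k * ds M S k ≤ 3 * x := by
  have x0 := C.x0
  have s0 := C.P.ds0 hk
  have s1 : ds M S k ≤ 1 := (min_le_right _ _).trans (C.du1 k)
  have m1 := C.m_le hk
  have r1 := mul_le_mul_of_nonneg_right (C.R_le k) s0.le
  set m := min 1 √(x ^ 3 / du M k)
  have m0 : 0 ≤ m := le_min zero_le_one (sqrt_nonneg _)
  have b : m * ds M S k ≤ x := by
    refine le_of_pow_le_pow_left₀ (n := 2) two_ne_zero x0.le ?_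
    have b4 : x ^ 3 ≤ x ^ 2 := pow_le_pow_of_le_one x0.le C.x1 (by norm_num)
    nlinarith [mul_le_mul_of_nonneg_left s1 (show 0 ≤ m ^ 2 * ds M S k by positivity)]
  nlinarith

theorem aB_le {k : ℕ} (hk : k ∈ nd S M u) : aB S M k ≤ a / ds M S k ∧ aB S M k ≤ 1 := by
  have b := (C.P.aB_le C.w1.le hk).2
  rw [C.ea] at b
  exact ⟨b, b.trans ((div_le_one (C.P.ds0 hk)).2 (C.au.trans (C.ds_ge hk)))⟩

theorem aC_le {k : ℕ} (hk : k ∈ nd S M u) : √(S.w3 1 / lsh M S k) ^ 2 ≤ a / ds M S k ∧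
    √(S.w3 1 / lsh M S k) ≤ 1 := by
  have s0 := C.P.ds0 hk
  have s1 : ds M S k ≤ 1 := (min_le_right _ _).trans (C.du1 k)
  have b := C.P.aC_le C.w1.le hk
  rw [C.ea] at b
  have a1 : a ≤ 1 := C.au.trans ((C.ds_ge hk).trans s1)
  exact ⟨((pow_le_pow_left₀ (sqrt_nonneg _) b 2).trans_eq (sq_sqrt C.apos.le)).trans
    (le_div_self C.apos.le s0 s1), b.trans (sqrt_le_one.2 a1)⟩

theorem aA_le {k : ℕ} (hk : k ∈ nd S M u) : a0 S M (x ^ 3) 1 γ k * ds M S k ≤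
    2 * w + a * (Rp M S (x ^ 3) 1 γ k + x) ^ 2 := by
  have s0 := C.P.ds0 hk
  have d0 := C.P.cl.den0 (M.z (k - 1))
  have l0 := C.P.lm0
  have w0 := C.w0
  have b1 := C.dd hk
  have b2 := div_le_div_of_nonneg_left (sq_nonneg (Rp M S (x ^ 3) 1 γ k + x)) l0 (C.P.lm1 k hk)
  rw [a0, third C.x0.le, C.w1, ← C.ea]
  calc _ = w * (S.den (M.z (k - 1)) * ds M S k +
        (Rp M S (x ^ 3) 1 γ k + x) ^ 2 / (S.den (M.z (k - 1)) * ds M S k)) := by field_simp
    _ ≤ w * (2 + (Rp M S (x ^ 3) 1 γ k + x) ^ 2 / lm) := by gcongr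
    _ = _ := by ring

theorem w_le : w ≤ a := by
  rw [← C.ea]; exact le_div_self C.w0.le C.P.lm0 C.l1

theorem ap2 : ∑ k ∈ nd S M u, dx M k * ap M S (x ^ 3) 1 γ k ^ 2 ≤ 3 * (B + 2 * a) * Λ := by
  have := C.B0
  have := C.apos
  refine le_trans ?_ (mul_le_mul_of_nonneg_left C.P.sum_ds (by positivity))
  rw [mul_sum]
  refine sum_le_sum fun k hk => ?_
  have s0 := C.P.ds0 hk
  have s1 : ds M S k ≤ 1 := (min_le_right _ _).trans (C.du1 k)
  have A0 := C.P.a00 (Vt := 1) (γ := γ) k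
  have b1 : (a0 S M (x ^ 3) 1 γ k ^ ((1 : ℝ) / 3)) ^ 2 ≤ B / ds M S k := by
    refine le_of_pow_le_pow_left₀ (n := 3) (by norm_num) (by positivity) ?_
    rw [← pow_mul, mul_comm 2 3, pow_mul, cube3 A0, div_pow, le_div_iff₀ (by positivity)]
    have c1 := pow_le_pow_left₀ (by positivity) (C.aA_le hk) 2
    have c2 := add_pow_le (show 0 ≤ 2 * w by have := C.w0; positivity)
      (show 0 ≤ a * (Rp M S (x ^ 3) 1 γ k + x) ^ 2 by positivity) 2
    have c3 := mul_le_mul_of_nonneg_left (C.R4 hk) (sq_nonneg a)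
    have c4 := mul_le_mul_of_nonneg_right (c1.trans c2) s0.le
    have c5 := mul_le_mul_of_nonneg_left s1 (sq_nonneg w)
    have := C.B1
    norm_num at c4
    nlinarith
  have b2 : aB S M k ^ 2 ≤ a / ds M S k := by
    nlinarith [(C.aB_le hk).1, (C.aB_le hk).2, C.P.aB0 k]
  have b3 : ap M S (x ^ 3) 1 γ k ^ 2 ≤ 3 * (B / ds M S k) + 6 * (a / ds M S k) := by
    have b4 := (C.aC_le hk).1
    rw [ap_eq0]
    generalize a0 S M (x ^ 3) 1 γ k ^ ((1 : ℝ) / 3) = y1 at *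
    generalize aB S M k = y2 at *
    generalize √(S.w3 1 / lsh M S k) = y3 at *
    nlinarith only [sq_nonneg (y1 - y2), sq_nonneg (y1 - y3), sq_nonneg (y2 - y3), b1, b2, b4]
  exact (mul_le_mul_of_nonneg_left b3 (C.P.dx0 k)).trans_eq (by ring)

theorem ap3 : ∑ k ∈ nd S M u, dx M k * ap M S (x ^ 3) 1 γ k ^ 3 ≤ 308 * a * Λ := by
  have := C.apos
  refine le_trans ?_ (mul_le_mul_of_nonneg_left C.P.sum_ds (by positivity))
  rw [mul_sum]
  refine sum_le_sum fun k hk => ?_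
  have s0 := C.P.ds0 hk
  have A0 := C.P.a00 (Vt := 1) (γ := γ) k
  have r0 := C.P.Rp0 (Vt := 1) zero_le_one C.γ0 k
  have r1 : Rp M S (x ^ 3) 1 γ k + x ≤ 4 := by
    linarith [C.R_le k, C.x1, min_le_left 1 √(x ^ 3 / du M k)]
  have b1 : a0 S M (x ^ 3) 1 γ k ≤ 18 * (a / ds M S k) := by
    rw [← mul_div_assoc, le_div_iff₀ s0]
    have c1 : (Rp M S (x ^ 3) 1 γ k + x) ^ 2 ≤ 4 ^ 2 :=
      pow_le_pow_left₀ (by have := C.x0; positivity) r1 2
    nlinarith [C.aA_le hk, C.w_le]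
  have b2 : aB S M k ^ 3 ≤ a / ds M S k :=
    (pow_le_of_le_one (C.P.aB0 k) (C.aB_le hk).2 (by norm_num)).trans (C.aB_le hk).1
  have b3 := add_pow_le (rpow_nonneg A0 ((1 : ℝ) / 3)) (C.P.aB0 k) 3
  have b5 := add_pow_le (add_nonneg (rpow_nonneg A0 ((1 : ℝ) / 3)) (C.P.aB0 k))
    (sqrt_nonneg (S.w3 1 / lsh M S k)) 3
  have b6 : √(S.w3 1 / lsh M S k) ^ 3 ≤ a / ds M S k :=
    (pow_le_pow_of_le_one (sqrt_nonneg _) (C.aC_le hk).2 (by norm_num)).trans (C.aC_le hk).1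
  rw [cube3 A0] at b3
  rw [← ap_eq0] at b5
  have b4 : ap M S (x ^ 3) 1 γ k ^ 3 ≤ 308 * (a / ds M S k) := by
    norm_num at b3 b5; linarith only [b1, b2, b3, b5, b6]
  exact (mul_le_mul_of_nonneg_left b4 (C.P.dx0 k)).trans_eq (by ring)

theorem pL {L : ℝ} (L0 : 0 ≤ L) (i : ℕ) : ((L ^ 3) ^ ((2 : ℝ) / 3)) ^ i = L ^ (2 * i) := by
  rw [← rpow_natCast L 3, ← rpow_mul L0, pow_mul, ← rpow_natCast L 2]; norm_num

theorem R2 : ∑ k ∈ nd S M u, dx M k * Rp M S (x ^ 3) 1 γ k ^ 2 ≤ 9 * x ^ 3 * Λ + 3 * γ ^ 2 :=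
  C.P.sum_Rp zero_le_one

theorem n2 {L : ℝ} (L1 : 1 ≤ L) : 0 ≤ Np M S (x ^ 3) 1 γ u (L ^ 3) 2 ∧
    Np M S (x ^ 3) 1 γ u (L ^ 3) 2 ≤
      u + (L ^ 4 * (3 * (B + 2 * a) * Λ) + (9 * x ^ 3 * Λ + 3 * γ ^ 2)) := by
  have L0 : 0 ≤ L := by linarith
  refine ⟨add_nonneg C.P.u10.le (sum_nonneg fun k _ => mul_nonneg (C.P.dx0 k) ?_),
    (C.P.Np_le _ _).trans ?_⟩
  · have := C.P.Rp0 (Vt := 1) zero_le_one C.γ0 k
    exact add_nonneg (sq_nonneg _) (le_min (by positivity) (by positivity))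
  · rw [C.pL L0]
    exact add_le_add le_rfl (add_le_add (mul_le_mul_of_nonneg_left C.ap2 (by positivity))
      ((div_le_self (sum_nonneg fun k _ => mul_nonneg (C.P.dx0 k) (sq_nonneg _))
        (one_le_pow₀ L1)).trans C.R2))

theorem n3 {L : ℝ} (L1 : 1 ≤ L) : Np M S (x ^ 3) 1 γ u (L ^ 3) 3 ≤
    u + (L ^ 6 * (308 * a * Λ) + 3 * (9 * x ^ 3 * Λ + 3 * γ ^ 2)) := by
  have L0 : 0 ≤ L := by linarith
  have := C.P.Λ0
  have := C.x0
  refine (C.P.Np_le _ _).trans ?_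
  rw [C.pL L0]
  refine add_le_add le_rfl (add_le_add (mul_le_mul_of_nonneg_left C.ap3 (by positivity))
    ((div_le_self (sum_nonneg fun k _ => mul_nonneg (C.P.dx0 k)
      (pow_nonneg (C.P.Rp0 zero_le_one C.γ0 k) 3)) (one_le_pow₀ L1)).trans
      ((C.P.sum_Rp3 zero_le_one C.γ0).trans (mul_le_mul_of_nonneg_right ?_ (by positivity)))))
  rw [third C.x0.le]; linarith [C.x1, C.γx]

theorem mem {k : ℕ} (a1 : S.J ≤ k) (a2 : k ≤ S.Jp) (a3 : u ≤ du M k) : k ∈ nd S M u :=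
  mem_filter.2 ⟨mem_Icc.2 ⟨a1, a2⟩, a3⟩

theorem far {Lp : ℝ} (h1 : γ ≤ Lp * lm) (h2 : w ≤ Lp * (x * lm ^ 2)) :
    Far M S (x ^ 3) 1 γ u Lp := by
  intro i k hi hik hk hu
  have hd : du M k ≤ du M i := by
    rw [du, du]; linarith [C.P.cl.leg.zm (show i - 1 ≤ k - 1 by omega)]
  have mk := C.mem (hi.trans hik) hk hu
  have yk := C.P.u10.trans_le hu
  have l0 := C.P.lm0
  have lk : lm ≤ lsh M S k := C.P.lm1 k mk
  have dk := C.P.cl.den0 (M.z (k - 1))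
  have di := C.P.cl.den0 (M.z (i - 1))
  have w0 := C.w0
  have x0 := C.x0
  have L0 : 0 ≤ Lp := by
    by_contra c
    nlinarith [mul_pos x0 (pow_pos l0 2)]
  have b1 : lm ≤ S.den (M.z (k - 1)) * du M i :=
    lk.trans (mul_le_mul_of_nonneg_left ((min_le_right _ _).trans hd) dk.le)
  have b2 : S.den (M.z (i - 1)) ≤ 1 + Lp * S.den (M.z (k - 1)) := by
    refine le_of_mul_le_mul_right ((C.d3 i hi (hik.trans hk)).trans ?_) (yk.trans_le hd)
    nlinarith [mul_le_mul_of_nonneg_left b1 L0]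
  have b3 : x * lm ^ 2 ≤ (lsh M S k + x) * lsh M S k ^ 2 :=
    mul_le_mul (by linarith) (pow_le_pow_left₀ l0.le lk 2) (by positivity) (by linarith)
  have s0 : 0 < lsh M S k := l0.trans_le lk
  rw [third x0.le, C.w1]
  refine le_trans ?_ (le_mul_of_one_le_right (by positivity) (one_le_pow₀ (le_max_left _ _)))
  nlinarith [mul_le_mul_of_nonneg_left b2 w0.le, mul_le_mul_of_nonneg_left b3 L0]

end Cx

set_option hygiene false in
local macro "lg" : tactic => `(tactic| ((try lg_norm); linarith only [σ0, σ1, c0', hc, η0, hη, lE,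
  ln, lx, lL, lX, lY, lG, le, lu, lj, lγ, lLc, lec, lτ, lN, ll, lh, lΛ, lB, lU, lθ, lw]))

set_option hygiene false in
local macro "lg'" : tactic => `(tactic| ((try lg_norm); linarith only [σ0, σ1, c0', hc, η0, hη, lE,
  ln, lx, lX, lG, lj, lLc, lec, lθ, lw, l1]))

set_option maxHeartbeats 1600000 in
/-- **the plateau numbers of the END model** -/
theorem lpS : LPS := by
  intro β c0 C0 A c η K₀ p H hc hη K P S M _ F E E1 E2
  have n0 := H.N0
  have s0 := H.s0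
  have c0' := H.c_pos
  have η0 := H.η_pos
  obtain ⟨σ0, σ1⟩ := H.lg_s
  have ln := H.lg_n
  have ec := H.hc
  have E0 : 0 < E := by linarith
  have lE : logb p.n E ≤ c / 100 := (H.lg_mono E0 E2).trans_eq (H.lg_rp _)
  have t : ∀ {y z : ℝ}, 0 < y → 0 < z → logb p.n y + η ≤ logb p.n z → 1000 * y ≤ z :=
    fun {y z} hy hz h => H.le_of_lg (by positivity) hz (by
      rw [logb_mul (by norm_num) hy.ne']
      linarith [(H.lg_num (x := 1000) (by norm_num) le_rfl).2])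
  have t' : ∀ {y z : ℝ}, 0 < y → 0 < z → logb p.n y ≤ logb p.n z → y ≤ z :=
    fun hy hz h => H.le_of_lg hy hz h
  have mo : ∀ (i : ℕ) (e : ℝ), 0 < p.s ^ i * (p.n : ℝ) ^ e ∧
      logb p.n (p.s ^ i * (p.n : ℝ) ^ e) = i * logb p.n p.s + e := fun i e =>
    ⟨by positivity, by rw [logb_mul (by positivity) (by positivity), logb_pow, H.lg_rp]⟩
  have m1 : ∀ e : ℝ, 0 < p.s * (p.n : ℝ) ^ e ∧
      logb p.n (p.s * (p.n : ℝ) ^ e) = logb p.n p.s + e := fun e => by simpa using mo 1 e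
  have m0 : ∀ e : ℝ, 0 < (p.n : ℝ) ^ e ∧ logb p.n ((p.n : ℝ) ^ e) = e := fun e =>
    ⟨by positivity, H.lg_rp e⟩
  obtain ⟨x0, lx⟩ : 0 < nx p ∧ logb p.n (nx p) = _ := m1 _
  obtain ⟨L0, lL⟩ : 0 < nL p ∧ logb p.n (nL p) = _ := m0 _
  obtain ⟨X0, lX⟩ : 0 < nX2 p ∧ logb p.n (nX2 p) = _ := mo _ _
  obtain ⟨Y0, lY⟩ : 0 < nX3 p ∧ logb p.n (nX3 p) = _ := mo _ _
  obtain ⟨G0, lG⟩ : 0 < nG p ∧ logb p.n (nG p) = _ := m0 _
  obtain ⟨e0, le⟩ : 0 < ne p ∧ logb p.n (ne p) = _ := mo _ _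
  obtain ⟨u0, lu⟩ : 0 < nu p ∧ logb p.n (nu p) = _ := m0 _
  obtain ⟨j0, lj⟩ : 0 < nj p ∧ logb p.n (nj p) = _ := m0 _
  obtain ⟨γ0, lγ⟩ : 0 < nγ p ∧ logb p.n (nγ p) = _ := m0 _
  obtain ⟨Lc0, lLc⟩ : 0 < nLc p ∧ logb p.n (nLc p) = _ := m0 _
  obtain ⟨ec0, lec⟩ : 0 < nη p ∧ logb p.n (nη p) = _ := mo _ _
  obtain ⟨τ0, lτ⟩ : 0 < nτ p ∧ logb p.n (nτ p) = _ := m1 _
  obtain ⟨N0, lN⟩ : 0 < nN p ∧ logb p.n (nN p) = _ := mo _ _
  obtain ⟨l0, ll⟩ := m0 (-(7 / 20) - p.c)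
  obtain ⟨h0, lh⟩ := m0 (-(2 : ℝ))
  obtain ⟨Λ0, lΛ⟩ := m0 (2 * η)
  obtain ⟨B0, lB⟩ := m1 (-(53 / 100))
  obtain ⟨U0, lU⟩ := m0 (-(1 / 3 : ℝ))
  have spr : M.s S.Jp - M.s S.J ≤ nγ p := F.spr
  have d3 : ∀ k, S.J ≤ k → k ≤ S.Jp → S.den (M.z (k - 1)) * du M k ≤ du M k + nγ p := F.d3
  have d1 := F.d1
  have me := F.mesh
  have ue := F.ue
  obtain ⟨uL, uU⟩ := F.u0
  have ΛL : 12 * log (p.n : ℝ) ≤ (p.n : ℝ) ^ (2 * η) := by
    rw [two_mul, rpow_add n0]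
    exact mul_le_mul (le_trans (by norm_num) H.num_le) H.log_le (by linarith only [H.log1]) H.Λ0.le
  have θ0 := F.cl.θ0
  have lθ : logb p.n S.θ = -(7 * c) := by
    have k0 := H.κ0
    have y0 := H.ye0
    rw [show S.θ = S.ms 1 from rfl, F.em, Pm.ms, min_eq_right H.ye1, max_eq_right H.r_le_ye]
    lg_norm
    rw [H.lg_κ, H.lg_ye]; ring
  have ew : S.w3 1 = 1 / (p.n * S.θ) := by rw [Sc.w3, F.eF, F.en, mul_one]; rfl
  have eg : gg S 1 = S.w3 1 := by rw [Sc.w3, gg, mul_one]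
  have mf1 : mf S 1 = S.θ := by rw [mf, F.eF, div_one]; rfl
  have w0 : 0 < S.w3 1 := by rw [ew]; positivity
  have lw : logb p.n (S.w3 1) = 7 * c - 1 := by
    rw [ew]; lg_norm; rw [ln, lθ]; ring
  have GP0 : GP M S = 0 := sum_eq_zero fun k hk => by
    rw [F.G0 k (F.cl.jl_lt.trans_le (mem_Icc.1 hk).1)]; ring
  have GS0 : ∀ a b, GS M S a b = 0 := fun a b => sum_eq_zero fun k hk => by
    rw [F.G0 k (mem_Ioo.1 (mem_filter.1 hk).1).1]; ring
  rw [ec] at lx lL lX lY le lu lN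
  generalize nx p = x at *
  generalize nL p = L at *
  generalize nX2 p = X2 at *
  generalize nX3 p = X3 at *
  generalize nG p = G at *
  generalize ne p = e at *
  generalize nu p = u at *
  generalize nj p = j at *
  generalize nγ p = γ at *
  generalize nLc p = Lc at *
  generalize nη p = ηc at *
  generalize nτ p = τ at *
  generalize nN p = N at *
  generalize (p.n : ℝ) ^ (-(7 / 20) - p.c) = lm at *
  generalize (p.n : ℝ) ^ (-(2 : ℝ)) = h at *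
  generalize (p.n : ℝ) ^ (2 * η) = Λ at *
  generalize p.s * (p.n : ℝ) ^ (-(53 / 100 : ℝ)) = B at *
  generalize (p.n : ℝ) ^ (-(1 / 3 : ℝ)) = U at *
  rw [ec] at ll
  push_cast at lX lY le lec lN
  set w := S.w3 1 with hw
  set θ := S.θ with hθ
  have x1 : x ≤ 1 := t' x0 one_pos (by rw [logb_one]; lg)
  have γx : γ ≤ x := t' γ0 x0 (by lg)
  have ux : u ≤ x := t' u0 x0 (by lg)
  have ul : u ≤ lm := t' u0 l0 (by lg)
  have hu : 1000 * h ≤ u := t h0 u0 (by lg)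
  have L1 : 1 ≤ L := t' one_pos L0 (by rw [logb_one]; lg)
  have U1 : U ≤ 1 := t' U0 one_pos (by rw [logb_one]; lg)
  have e3 := third x0.le
  have lgy : ∀ y, u ≤ y → log (1 + 1 / y) ≤ 2 * log (p.n : ℝ) := fun y hy => by
    have a1 : 1 / y ≤ 1 / u := one_div_le_one_div_of_le u0 hy
    have a2 : 1 / u ≤ p.n := t' (by positivity) n0 (by lg)
    have a3 : 0 < 1 / y := by have := u0.trans_le hy; positivity
    rw [show 2 * log (p.n : ℝ) = log ((p.n : ℝ) ^ 2) by rw [log_pow]; norm_num]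
    exact log_le_log (by linarith only [a3]) (by nlinarith only [H.N3, a1, a2])
  have lm1 : ∀ k, S.J ≤ k → k ≤ S.Jp → u ≤ du M k → lm ≤ S.den (M.z (k - 1)) * ds M S k :=
    fun k a b d => d1 k a b (by linarith only [d, ue, hu, h0])
  have ds1 : ∀ k ∈ nd S M u, u ≤ ds M S k := fun k hk => le_min (by
    have := F.cl.leg.zm (show S.J - 1 ≤ k - 1 by have := (mem_Icc.1 (mem_filter.1 hk).1).1; omega)
    rw [dl]; linarith only [this, ul, uL]) (mem_filter.1 hk).2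
  have C : Cx S M h u x (S.C ^ 2 * (M.ck S.Jp - M.ck S.J)) lm Λ γ w (w / lm) B := by
    refine ⟨⟨F.cl, h0, me, by linarith only [ue, hu, h0], by linarith only [hu, h0],
      by linarith only [hu, h0, ul, uL], by positivity,
      by rw [e3]; linarith only [hu, h0, ux], le_rfl, l0, fun k hk => ?_, by positivity, fun k hk => ?_, ?_, ?_⟩,
      x0, x1, γ0.le, γx, ul.trans uL, t' l0 one_pos (by rw [logb_one]; lg), d3, rfl, rfl,
      t' (by positivity) u0 (by lg), B0.le, ?_⟩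
    · obtain ⟨a, b⟩ := mem_filter.1 hk
      exact lm1 k (mem_Icc.1 a).1 (mem_Icc.1 a).2 b
    · obtain ⟨a, b⟩ := mem_filter.1 hk
      have b1 := lm1 k (mem_Icc.1 a).1 (mem_Icc.1 a).2 b
      exact (mul_le_mul b1 (ds1 k hk) u0.le (l0.le.trans b1)).trans_eq (by ring)
    · linarith only [lgy S.u0 (ul.trans uL), lgy u le_rfl, ΛL]
    · rw [e3]; linarith only [lgy x ux, lgy u le_rfl, ΛL]
    · have a1 : 1000 * w ^ 2 ≤ B ^ 3 := t (by positivity) (by positivity) (by lg)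
      have a2 : 1000 * (1000 * ((w / lm) ^ 2 * x ^ 3)) ≤ B ^ 3 :=
        t (by positivity) (by positivity) (by
          have l3 := (H.lg_num (x := 1000) (by norm_num) le_rfl).2
          lg_norm
          linarith only [l3, σ0, hc, c0', η0, hη, lw, ll, lx, lB])
      have : 0 < (w / lm) ^ 2 * x ^ 3 := by positivity
      linarith only [a1, a2, this, sq_nonneg w]
  have N2 : Np M S (x ^ 3) 1 γ u (L ^ 3) 2 ≤ X2 := by
    have a1 : 1000 * u ≤ X2 := t u0 X0 (by lg)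
    have a2 : 1000 * (L ^ 4 * (B * Λ)) ≤ X2 := t (by positivity) X0 (by lg)
    have a3 : 1000 * (L ^ 4 * (w / lm * Λ)) ≤ X2 := t (by positivity) X0 (by lg)
    have a4 : 1000 * (x ^ 3 * Λ) ≤ X2 := t (by positivity) X0 (by lg)
    have a5 : 1000 * γ ^ 2 ≤ X2 := t (by positivity) X0 (by lg)
    linarith only [(C.n2 L1).2, a1, a2, a3, a4, a5, X0]
  have gx : 1000 * (w * x) ≤ lm * G ^ 2 := t (by positivity) (by positivity) (by lg)
  have wx : 0 < w * x := by positivity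
  have sx : √(x ^ 3) ≤ x := sqrt_le_iff.2 ⟨x0.le, pow_le_pow_of_le_one x0.le x1 (by norm_num)⟩
  have A1 : θ + j + τ + γ ≤ 2 * θ := by
    have a1 : 1000 * j ≤ θ := t j0 θ0 (by lg)
    have a2 : 1000 * τ ≤ θ := t τ0 θ0 (by lg)
    have a3 : 1000 * γ ≤ θ := t γ0 θ0 (by lg)
    linarith only [a1, a2, a3, θ0]
  refine
    { u0 := l0.trans_le uL
      rev := F.rev
      Xp0 := ⟨by positivity, t' (by positivity) one_pos (by lg)⟩
      Vt0 := zero_le_one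
      u1a := by linarith only [ue, hu, h0]
      u1b := ⟨le_rfl, t' (by positivity) one_pos (by lg)⟩
      γ0 := spr
      γ1 := t' (by positivity) one_pos (by lg)
      Lp1 := ⟨one_le_pow₀ L1, by rw [F.en]; exact t' (by positivity) n0 (by lg)⟩
      Lp2 := le_rfl
      far := C.far (t' γ0 (by positivity) (by lg))
        (t' w0 (by positivity) (by lg))
      n2 := N2
      n3 := ?_
      g0p := ⟨t' u0 G0 (by lg), fun k a b d => ?_⟩
      g0c := ⟨lm, l0, lm1, ?_⟩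
      g0d := Or.inr ⟨lm, l0, fun k a b d => ?_, ?_⟩
      g0e := Or.inr ⟨ue.trans (t' h0 (by positivity) (by lg)), fun k a b d f => ?_⟩
      c1 := ?_
      c1' := fun e' he => ?_
      c2 := ?_
      c3 := ?_
      c4 := ?_
      c6 := t' (by positivity) N0 (by lg)
      c8 := (min_le_right _ _).trans (t' (by positivity) N0 (by lg))
      tw := t' w0 (by positivity) (by lg)
      c9 := ?_
      Lc1 := ⟨t' L0 Lc0 (by lg), by rw [F.en]; exact t' Lc0 n0 (by lg)⟩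
      ηc1 := fun u' hu' => ?_
      τ0 := ?_
      τ1 := by rw [e3]; exact t' τ0 x0 (by lg)
      j1 := ?_
      c5 := fun A' B' hA hB => ?_ }
  · have a1 : 1000 * u ≤ X3 := t u0 Y0 (by lg)
    have a3 : 1000 * (L ^ 6 * (w / lm * Λ)) ≤ X3 := t (by positivity) Y0 (by lg)
    have a4 : 1000 * (x ^ 3 * Λ) ≤ X3 := t (by positivity) Y0 (by lg)
    have a5 : 1000 * γ ^ 2 ≤ X3 := t (by positivity) Y0 (by lg)
    linarith only [C.n3 L1, a1, a3, a4, a5, Y0]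
  · have mk := C.mem a b d
    have d0 := F.cl.den0 (M.z (k - 1))
    have r0 := C.P.Rp0 (Vt := 1) zero_le_one γ0.le k
    have a1 : Rp M S (x ^ 3) 1 γ k / S.den (M.z (k - 1)) ≤ 3 * x / lm := by
      rw [div_le_div_iff₀ d0 l0]
      linarith only [mul_le_mul_of_nonneg_left (lm1 k a b d) r0,
        mul_le_mul_of_nonneg_right (C.Rds mk) d0.le]
    have a2 : ds M S k ≤ 1 := (min_le_right _ _).trans (C.du1 k)
    have a3 : 1000 * (w * (x / lm)) ≤ G ^ 2 := t (by positivity) (by positivity) (by lg)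
    have a4 : 1000 * w ≤ G ^ 2 := t w0 (by positivity) (by lg)
    have a5 := mul_le_mul_of_nonneg_left (add_le_add a1 a2) w0.le
    have a6 : w * (3 * x / lm + 1) = 3 * (w * (x / lm)) + w := by ring
    have : 0 < G ^ 2 := by positivity
    linarith only [a3, a4, a5, a6, this]
  · rw [e3]
    have a1 : S.u0 * x ≤ x := mul_le_of_le_one_left x0.le (uU.trans U1)
    linarith only [gx, wx, mul_le_mul_of_nonneg_left (show √(x ^ 3) + γ + u + S.u0 * x ≤ 4 * x by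
      linarith only [a1, sx, γx, ux]) w0.le]
  · exact (lm1 k a b d).trans (mul_le_of_le_one_right (F.cl.den0 _).le
      ((min_le_right _ _).trans (C.du1 k)))
  · rw [e3]
    linarith only [gx, wx,
      mul_le_mul_of_nonneg_left (show x + γ ≤ 2 * x by linarith only [γx]) w0.le]
  · have d0 := F.cl.den0 (M.z (k - 1))
    have a1 : lm ≤ S.den (M.z (k - 1)) * u :=
      (d1 k a b d).trans (mul_le_mul_of_nonneg_left ((min_le_right _ _).trans f.le) d0.le)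
    have a2 := mul_le_mul_of_nonneg_right a1 (sq_nonneg G)
    have a3 := mul_le_mul_of_nonneg_left ux w0.le
    exact le_of_mul_le_mul_right (by linarith only [a2, a3, gx, wx]) u0
  · have a3 : 1000 * (L ^ 6 * (w / lm * Λ)) ≤ N := t (by positivity) N0 (by lg)
    have a4 := mul_le_mul_of_nonneg_left C.ap3 (show 0 ≤ L ^ 6 by positivity)
    rw [mul_sum] at a4
    refine (sum_le_sum fun k _ => ?_).trans (a4.trans (by linarith only [a3, N0]))
    exact (mul_le_mul_of_nonneg_left (min_le_left _ _) (C.P.dx0 k)).trans_eq (by ring)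
  · have a1 : e ≤ X2 := t' e0 X0 (by lg)
    have a2 : G ^ 2 ≤ X2 := t' (by positivity) X0 (by lg)
    have a3 : 1000 * (X2 ^ 2 / θ) ≤ N := t (by positivity) N0 (by lg)
    have a4 := (C.n2 L1).1
    have a5 : e' ≤ 5 * X2 := by rw [he, e3]; linarith only [a1, a2, N2, mul_le_mul_of_nonneg_left x1 X0.le]
    have a6 : 0 ≤ e' := by rw [he, e3]; positivity
    have a7 : e' ^ 2 / θ ≤ (5 * X2) ^ 2 / θ := by gcongr
    have a8 : (5 * X2) ^ 2 / θ = 25 * (X2 ^ 2 / θ) := by ring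
    exact (min_le_right _ _).trans (by linarith only [a3, a7, a8, N0])
  · rw [GP0, GS0]
    simpa using t' (y := (θ * γ) ^ 2 / θ) (by positivity) N0 (by lg)
  · have a1 : 1000 * (θ * τ ^ 3) ≤ N := t (by positivity) N0 (by lg)
    have a2 : 1000 * (θ * U ^ 3) ≤ N := t (by positivity) N0 (by lg)
    have a3 := mul_le_mul_of_nonneg_left (pow_le_pow_left₀ (l0.trans_le uL).le uU 3) θ0.le
    linarith only [a1, a2, a3, N0]
  · rw [GP0]
    have a1 : 1000 * u ^ 2 ≤ N := t (by positivity) N0 (by lg)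
    have a2 : 1000 * (u * e) ≤ N := t (by positivity) N0 (by lg)
    have a3 : 1000 * (u * X2) ≤ N := t (by positivity) N0 (by lg)
    have a4 : 1000 * (u * (θ * γ)) ≤ N := t (by positivity) N0 (by lg)
    have a5 : 1000 * (u * θ) ^ ((3 : ℝ) / 2) ≤ N := t (by positivity) N0 (by lg)
    have a6 : 1000 * (γ * e) ≤ N := t (by positivity) N0 (by lg)
    have a7 : 1000 * (γ * X2) ≤ N := t (by positivity) N0 (by lg)
    have a8 : 1000 * γ ^ ((15 : ℝ) / 7) ≤ N := t (by positivity) N0 (by lg)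
    have a9 : √((0 + 0 ^ 2) / u) = 0 := by simp
    rw [a9]; linarith only [a1, a2, a3, a4, a5, a6, a7, a8, N0]
  · have a1 : 1000 * (w * x ^ 3) ^ ((3 : ℝ) / 4) ≤ N := t (by positivity) N0 (by lg)
    have a2 : 1000 * (θ * j ^ 9) ≤ N := t (by positivity) N0 (by lg)
    have a3 : 1000 * (θ * (x ^ 3) ^ 3) ≤ N := t (by positivity) N0 (by lg)
    linarith only [a1, a2, a3, N0]
  · have u1 : 0 < u' := by rw [hu']; positivity
    have l1 : logb p.n u' = 7 * c / 3 - 5 / 21 := by rw [hu']; lg_norm; linarith only [lLc, lw]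
    rw [e3, mf1, eg, F.en]
    refine ⟨?_, t' (by positivity) θ0 (by lg')⟩
    have a1 : 1000 * u' ^ 3 ≤ ηc := t (by positivity) ec0 (by lg')
    have a2 : 1000 * (u' ^ 2 * θ) ≤ ηc := t (by positivity) ec0 (by lg')
    have a3 : 1000 * (u' ^ 2 * j) ≤ ηc := t (by positivity) ec0 (by lg')
    have a4 : 1000 * (u' ^ 2 * x) ≤ ηc := t (by positivity) ec0 (by lg')
    have a5 : 1000 * (√(Lc * w) * u') ≤ ηc := t (by positivity) ec0 (by lg')
    have a6 : 1000 * (√(Lc * w) * √X2) ≤ ηc := t (by positivity) ec0 (by lg')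
    have a7 : 1000 * (G * u') ≤ ηc := t (by positivity) ec0 (by lg')
    have a8 : 1000 * (G * √X2) ≤ ηc := t (by positivity) ec0 (by lg')
    have a9 : 1000 * (X2 * u') ≤ ηc := t (by positivity) ec0 (by lg')
    have b1 : 1000 * (X2 * √X2) ≤ ηc := t (by positivity) ec0 (by lg')
    have b2 : 1000 * X3 ≤ ηc := t Y0 ec0 (by lg)
    have b3 : 1000 * (1 / (p.n : ℝ)) ≤ ηc := t (by positivity) ec0 (by lg)
    linarith only [a1, a2, a3, a4, a5, a6, a7, a8, a9, b1, b2, b3, ec0]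
  · rw [e3, mf1]
    have a1 : 1000 * (x / Lc) ≤ τ := t (by positivity) τ0 (by lg)
    have a2 : 1000 * (ηc / θ) ≤ τ := t (by positivity) τ0 (by lg)
    linarith only [a1, a2, τ0]
  · have a1 : 1000 * (E * j) ≤ 1 := t (by positivity) one_pos (by lg)
    have a2 : 1000 * (E * τ) ≤ 1 := t (by positivity) one_pos (by lg)
    linarith only [a1, a2]
  · rw [e3] at hB ⊢
    have A0 : 0 ≤ A' := by rw [hA]; positivity
    have A2 : A' ≤ 2 * θ := hA ▸ A1
    have q0 : 0 ≤ min A' x := le_min A0 x0.le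
    have q1 : min A' x ≤ x := min_le_right _ _
    have a1 : X2 * x ≤ θ * x ^ 2 := t' (by positivity) (by positivity) (by lg)
    have a2 : 1000 * ((θ * x ^ 2) ^ 2 / θ) ≤ N := t (by positivity) N0 (by lg)
    have a3 : A' * min A' x ^ 2 ≤ 2 * θ * x ^ 2 := by gcongr
    have a4 : B' ^ 2 / θ ≤ (3 * (θ * x ^ 2)) ^ 2 / θ := by
      have : 0 ≤ B' := by rw [hB]; positivity
      have : B' ≤ 3 * (θ * x ^ 2) := by rw [hB]; linarith only [a1, a3]
      gcongr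
    have a5 : (3 * (θ * x ^ 2)) ^ 2 / θ = 9 * ((θ * x ^ 2) ^ 2 / θ) := by ring
    have a6 : 1000 * (E * X2) ≤ θ := t (by positivity) θ0 (by lg)
    have a7 : 1000 * (E * (θ * x)) ≤ θ := t (by positivity) θ0 (by lg)
    have a8 : E * (A' * min A' x) ≤ E * (2 * θ * x) := by gcongr
    exact ⟨(min_le_right _ _).trans (by linarith only [a2, a4, a5, N0]),
      Or.inr (by linarith only [a6, a7, a8, θ0])⟩

end Crest.Agent.T156.Alt.En88

end
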