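import Crest.Agent.T156.EnL_91
import Crest.Agent.T156.EndP_88
import Crest.Agent.T156.EnSr_41

/-!
# Row 156 (helper91): location of the END model from `TL2x` and `SrS2`
-/

set_option autoImplicit false

namespace Crest.Agent.T156.Alt.En91

theorem locS {β : ℝ} (hβ : 1 < β) (hT : L63.TL2x) (hS : Sr.SrS2) : LocS β :=
  locS_of hβ hT En88.lpS (srE hβ hS)

end Crest.Agent.T156.Alt.En91
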