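import Crest.Agent.T156.Gir_68

/-!
# Row 156, cascade frame (helper68): energy, Euler identity, entropy as a mark
-/

set_option autoImplicit false
set_option linter.unusedSectionVars false

noncomputable section

namespace Crest.Agent.T156.Cas.Gir68

open MeasureTheory Real Set Filter Topology
open Crest.Agent.T157.E Crest.Agent.T157.Casc Crest.Agent.T157.SL

variable {Ω : Type} [Fintype Ω] {w w' : Ω → ℝ}

/-! ### energy -/

theorem cacc_zero (L : List (Lv Ω)) : cacc L 0 = fun _ _ => 0 := by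
  ext x y; simp [cacc]

theorem cacc_cons (l : Lv Ω) (L : List (Lv Ω)) (j : ℕ) :
    cacc (l :: L) (j + 1) = fun x y => l.cov x y + cacc L j x y := by
  ext x y; simp [cacc]

theorem eg_Pf (hw : Wt w) (L : List (Lv Ω)) (f : Ω → ℝ) : Eg fun z => Pf w L z f :=
  Eg.sum _ fun x _ => (eg_P hw L x).mul_const _

theorem eg_Pfz (hw : Wt w) (L : List (Lv Ω)) : Eg fun z => Pf w L z z :=
  Eg.sum _ fun x _ => (eg_P hw L x).mul (Eg.coord x)

theorem tE_Pf (hw : Wt w) (l : Lv Ω) (L : List (Lv Ω)) (f h : Ω → ℝ) :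
    tE l (X w L) (fun z => Pf w L z f) h = Pf w (l :: L) h f := by
  simp only [Pf]
  rw [tE_sum (lg_X hw L) _ fun x _ => (eg_P hw L x).mul_const _]
  simp only [tE_mul_const]
  rfl

/-- integration by parts for the energy of one level -/
theorem tE_Pfz (hw : Wt w) (l : Lv Ω) (L : List (Lv Ω)) (h : Ω → ℝ) :
    tE l (X w L) (fun z => Pf w L z z) h = Pf w (l :: L) h (fun x => h x + l.cov x x) -
      tE l (X w L) (pair w L l.m fun _ => l.cov) h := by
  have hX := lg_X hw L
  have e0 : ∀ x y, Eg fun z => Hs w L z x y + l.m * (P w L z x * P w L z y) :=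
    fun x y => (eg_Hs hw L x y).add (((eg_P hw L x).mul (eg_P hw L y)).const_mul _)
  have i1 : ∀ x, Integrable (fun g => exp (l.m * X w L (h + l.fld g)) * P w L (h + l.fld g) x)
      (gv l.ι) := fun x => hX.int (eg_P hw L x) l h
  obtain ⟨B, hB0, hB⟩ := Pe.fld_bd l
  have i2 : ∀ x i, Integrable (fun g : l.ι → ℝ => g i *
      (exp (l.m * X w L (h + l.fld g)) * P w L (h + l.fld g) x)) (gv l.ι) := fun x i =>
    Pe.eg_int ((Eg.coord i).mul (Pe.eg_comp ((hX.exp l.m).mul (eg_P hw L x))
      (φ := fun g => h + l.fld g) (continuous_const.add (Pe.cont_fld l)) hB0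
      fun g => (norm_add_le _ _).trans (add_le_add le_rfl (hB g))))
  have e1 : tE l (X w L) (fun z => Pf w L z z) h = Pf w (l :: L) h h + ∑ x, ∑ i, l.A x i *
      ((∫ g, g i * (exp (l.m * X w L (h + l.fld g)) * P w L (h + l.fld g) x) ∂gv l.ι) /
        ∫ g, exp (l.m * X w L (h + l.fld g)) ∂gv l.ι) := by
    rw [← tE_Pf hw, tE, tE]
    simp only [← mul_div_assoc, ← Finset.sum_div, ← integral_const_mul]
    rw [← add_div]
    congr 1
    have e2 : ∀ x, ∑ i, ∫ g : l.ι → ℝ, l.A x i * (g i *
        (exp (l.m * X w L (h + l.fld g)) * P w L (h + l.fld g) x)) ∂gv l.ι =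
        ∫ g : l.ι → ℝ, ∑ i, l.A x i * (g i *
        (exp (l.m * X w L (h + l.fld g)) * P w L (h + l.fld g) x)) ∂gv l.ι := fun x =>
      (integral_finsetSum _ fun i _ => (i2 x i).const_mul _).symm
    simp only [e2]
    rw [← integral_finsetSum _ fun x _ => integrable_finsetSum _ fun i _ => (i2 x i).const_mul _,
      ← integral_add (hX.int (eg_Pf hw L h) l h) (integrable_finsetSum _ fun x _ =>
        integrable_finsetSum _ fun i _ => (i2 x i).const_mul _)]
    refine integral_congr_ae (.of_forall fun g => ?_)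
    simp only [Pf, Finset.mul_sum, ← Finset.sum_add_distrib]
    refine Finset.sum_congr rfl fun x _ => ?_
    rw [show (h + l.fld g) x = h x + ∑ i, l.A x i * g i from rfl, mul_add, mul_add,
      Finset.mul_sum, Finset.mul_sum]
    congr 1
    exact Finset.sum_congr rfl fun i _ => by ring
  have e3 : ∑ x, ∑ i, l.A x i * ∑ y, l.A y i * tE l (X w L)
      (fun z => Hs w L z x y + l.m * (P w L z x * P w L z y)) h =
      tE l (X w L) (fun z => Pf w L z (fun x => l.cov x x) - pair w L l.m (fun _ => l.cov) z) h := by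
    simp only [Pf, ← sum_Hs hw l.cov L l.m]
    rw [tE_sum hX _ fun x _ => Eg.sum _ fun y _ => (e0 x y).const_mul _]
    refine Finset.sum_congr rfl fun x _ => ?_
    rw [tE_sum hX _ fun y _ => (e0 x y).const_mul _]
    simp only [tE_const_mul]
    simp only [Lv.cov, Finset.mul_sum, Finset.sum_mul]
    exact Finset.sum_comm.trans (Finset.sum_congr rfl fun y _ => Finset.sum_congr rfl fun i _ =>
      by ring)
  rw [e1]
  simp only [stein_tE (gr_P hw L _) (gr_X hw L) hX]
  rw [e3, tE_sub hX (eg_Pf hw L _) (eg_pair hw _ _ _), tE_Pf hw]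
  simp only [Pf, mul_add, Finset.sum_add_distrib]
  ring

/-- **energy of the leaf** -/
theorem energy (hw : Wt w) : ∀ (L : List (Lv Ω)) (m0 : ℝ) (h : Ω → ℝ),
    node w L L.length (fun z => Pf w [] z z) h =
      Pf w L h (fun x => h x + cacc L L.length x x) - pair w L m0 (cacc L) h
  | [], m0, h => by simp [pair, cacc_zero, qf]
  | l :: L, m0, h => by
    have hX := lg_X hw L
    have e1 : node w L L.length (fun z => Pf w [] z z) = fun z =>
        Pf w L z z + Pf w L z (fun x => cacc L L.length x x) - pair w L l.m (cacc L) z := by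
      ext z
      rw [energy hw L l.m z]
      simp only [Pf, mul_add, Finset.sum_add_distrib]
    have e2 : pair w (l :: L) m0 (cacc (l :: L)) h = tE l (X w L) (fun z =>
        pair w L l.m (fun _ => l.cov) z + pair w L l.m (cacc L) z) h := by
      simp only [pair, cacc_zero, cacc_cons, qf, mul_zero, Finset.sum_const_zero, zero_add]
      congr 1
      ext z
      exact pair_add hw L l.m _ _ z
    rw [List.length_cons, node_cons, e1, e2,
      tE_sub hX ((eg_Pfz hw L).add (eg_Pf hw L _)) (eg_pair hw _ _ _),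
      tE_add hX (eg_Pfz hw L) (eg_Pf hw L _), tE_add hX (eg_pair hw _ _ _) (eg_pair hw _ _ _),
      tE_Pfz hw, tE_Pf hw, cacc_cons]
    simp only [Pf, mul_add, Finset.sum_add_distrib]
    ring

/-! ### jumps of the value and the Euler identity -/

/-- the list `L` with level `j` split at time `ρ` -/
def spl (L : List (Lv Ω)) (j : ℕ) (l : Lv Ω) (ρ : ℝ) : List (Lv Ω) :=
  L.take j ++ lv l ρ l.m :: lv l (1 - ρ) l.m :: L.drop (j + 1)

/-- `(m_j / 2) ∫ ρ dh` over level `j` -/
def jm (w : Ω → ℝ) (L : List (Lv Ω)) (j : ℕ) (h : Ω → ℝ) : ℝ := match L[j]? with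
  | none => 0
  | some l => l.m / 2 * ∫ ρ in (0 : ℝ)..1, pi2 w (spl L j l ρ) (j + 1) l.cov h

theorem jump (hw : Wt w) (L₁ L₂ : List (Lv Ω)) (l : Lv Ω) (h : Ω → ℝ) :
    node w (L₁ ++ l :: L₂) (L₁.length + 1) (X w L₂) h -
      node w (L₁ ++ l :: L₂) L₁.length (X w (l :: L₂)) h = l.m / 2 * ∫ ρ in (0 : ℝ)..1,
      pi2 w (L₁ ++ lv l ρ l.m :: lv l (1 - ρ) l.m :: L₂) (L₁.length + 1) l.cov h := by
  rw [gir hw hw, ← intervalIntegral.integral_const_mul]
  refine intervalIntegral.integral_congr fun ρ _ => ?_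
  have e : (L₁ ++ lv l ρ l.m :: lv l (1 - ρ) l.m :: L₂).drop (L₁.length + 1) =
      lv l (1 - ρ) l.m :: L₂ := by simp
  have e2 : dri w w l.m l.cov (lv l (1 - ρ) l.m :: L₂) =
      fun y => l.m / 2 * qf (P w (lv l (1 - ρ) l.m :: L₂) y) l.cov := by
    ext y
    show l.m * qf _ _ - _ = _
    ring
  simp only [pi2, e, e2, node_const_mul]

theorem jm_eq (hw : Wt w) (L : List (Lv Ω)) {j : ℕ} (hj : j < L.length) (h : Ω → ℝ) :
    node w L (j + 1) (X w (L.drop (j + 1))) h - node w L j (X w (L.drop j)) h = jm w L j h := by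
  have e := jump hw (L.take j) (L.drop (j + 1)) L[j] h
  rw [List.length_take_of_le hj.le, ← List.drop_eq_getElem_cons hj, List.take_append_drop] at e
  rw [e, jm, List.getElem?_eq_getElem hj]
  rfl

/-- thermal entropy (relative to `w`) at the end of the path -/
def Sn (w z : Ω → ℝ) : ℝ := X w [] z - Pf w [] z z

theorem eg_Sn (hw : Wt w) : Eg (Sn w) := (lg_X hw []).eg.sub (eg_Pfz hw [])

/-- **Euler identity**: mean value at node `i` = energy + entropy − later jumps -/
theorem euler (hw : Wt w) (L : List (Lv Ω)) (m0 : ℝ) (h : Ω → ℝ) {i : ℕ} (hi : i ≤ L.length) :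
    node w L i (X w (L.drop i)) h = Pf w L h (fun x => h x + cacc L L.length x x) -
      pair w L m0 (cacc L) h + node w L L.length (Sn w) h -
        ∑ j ∈ Finset.Ico i L.length, jm w L j h := by
  have e1 := tele w L (fun j => X w (L.drop j)) h hi
  rw [Finset.sum_congr rfl fun j hj => jm_eq hw L (Finset.mem_Ico.1 hj).2 h, List.drop_length] at e1
  have e2 := congrFun (node_sub hw (lg_X hw []).eg (eg_Pfz hw []) L L.length) h
  rw [energy hw L m0] at e2
  change node w L L.length (Sn w) h = _ at e2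
  linarith

/-! ### a last level of tilt one changes nothing below it -/

theorem tE_shift (l : Lv Ω) (F Φ : (Ω → ℝ) → ℝ) (c : ℝ) :
    tE l (fun z => F z + c) Φ = tE l F Φ := by
  ext h
  simp only [tE, mul_add, exp_add, mul_right_comm _ (exp (l.m * c)), integral_mul_const]
  rw [mul_div_mul_right _ _ (exp_pos _).ne']

theorem step_shift {F : (Ω → ℝ) → ℝ} (hF : Lg F) (l : Lv Ω) (c : ℝ) :
    step l (fun z => F z + c) = fun h => step l F h + c := by
  ext h
  by_cases hm : l.m = 0
  · simp only [step, if_pos hm]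
    rw [integral_add (hF.eg.int l h) (integrable_const _)]
    simp
  · simp only [step, if_neg hm, mul_add, exp_add, integral_mul_const]
    rw [log_mul (hF.Z_pos l h).ne' (exp_pos _).ne', log_exp]
    field_simp

theorem sum_shift {v : ℝ} {f : Ω → ℝ} (hv : ∀ x, w x ≠ 0 → f x = v) (h : Ω → ℝ) (x : Ω) :
    w x * exp ((h + f) x) = w x * exp (h x) * exp v := by
  by_cases hx : w x = 0
  · simp [hx]
  · rw [Pi.add_apply, hv x hx, exp_add, mul_assoc]

variable {l : Lv Ω} {v : ℝ}

open Classical in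
theorem X_rev (hw : Wt w) (hm : l.m = 1) (hv : ∀ x, w x ≠ 0 → l.cov x x = v) :
    ∀ L : List (Lv Ω), X w (L ++ [l]) = fun h => X w L h + v / 2
  | [] => by
    ext h
    rw [List.nil_append, C.X_annealed hw hm]
    simp only [X, sum_shift (v := v / 2) (f := fun x => l.cov x x / 2)
      (fun x hx => by rw [hv x hx]) h, ← Finset.sum_mul]
    rw [log_mul (wt_exp hw h).pos.ne' (exp_pos _).ne', log_exp]
  | k :: L => by
    rw [List.cons_append, C.X_cons, X_rev hw hm hv L, step_shift (lg_X hw L)]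
    rfl

theorem P_rev (hw : Wt w) (hm : l.m = 1) (hv : ∀ x, w x ≠ 0 → l.cov x x = v) (x : Ω) :
    ∀ L : List (Lv Ω), (fun h => P w (L ++ [l]) h x) = fun h => P w L h x
  | [] => by
    ext h
    rw [List.nil_append, C.P_annealed hw hm]
    simp only [P, prob, sum_shift (v := v / 2) (f := fun x => l.cov x x / 2)
      (fun x hx => by rw [hv x hx]) h, ← Finset.sum_mul]
    rw [mul_div_mul_right _ _ (exp_pos _).ne']
  | k :: L => by
    show tE k (X w (L ++ [l])) (fun h => P w (L ++ [l]) h x) = _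
    rw [X_rev hw hm hv L, tE_shift, P_rev hw hm hv x L]
    rfl

theorem node_rev (hw : Wt w) (hm : l.m = 1) (hv : ∀ x, w x ≠ 0 → l.cov x x = v)
    (Φ : (Ω → ℝ) → ℝ) : ∀ (L : List (Lv Ω)) (j : ℕ), j ≤ L.length →
    node w (L ++ [l]) j Φ = node w L j Φ
  | _, 0, _ => by simp
  | [], _ + 1, hj => absurd hj (by simp)
  | k :: L, j + 1, hj => by
    rw [List.cons_append, node_cons, node_cons, X_rev hw hm hv L, tE_shift,
      node_rev hw hm hv Φ L j (by simpa using hj)]

theorem pi2_rev (hw : Wt w) (hm : l.m = 1) (hv : ∀ x, w x ≠ 0 → l.cov x x = v)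
    (K : Ω → Ω → ℝ) (L : List (Lv Ω)) {j : ℕ} (hj : j ≤ L.length) :
    pi2 w (L ++ [l]) j K = pi2 w L j K := by
  ext h
  simp only [pi2]
  rw [node_rev hw hm hv _ L j hj, List.drop_append_of_le_length hj]
  congr 1
  ext z
  congr 1
  ext x
  exact congrFun (P_rev hw hm hv x _) z

/-- **entropy is a mark** -/
theorem ent_mark (hw : Wt w) (hm : l.m = 1) (hv : ∀ x, w x ≠ 0 → l.cov x x = v)
    (L : List (Lv Ω)) (h : Ω → ℝ) :
    node w L L.length (Sn w) h = node w (L ++ [l]) (L.length + 1) (Sn w) h + (v -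
      ∫ ρ in (0 : ℝ)..1, pi2 w (L ++ [lv l ρ 1, lv l (1 - ρ) 1]) (L.length + 1) l.cov h) / 2 := by
  have e1 := jump hw L [] l h
  rw [hm] at e1
  have e2 : tE l (X w []) (fun z => Pf w [] z z) = fun z => Pf w [] z z + v := by
    ext z
    rw [tE_Pfz hw, hm]
    have e3 : pair w ([] : List (Lv Ω)) 1 (fun _ => l.cov) = fun _ => 0 := by ext; simp [pair]
    rw [e3, tE_const (lg_X hw [])]
    have e4 : ∀ x, P w [l] z x = P w [] z x := fun x => congrFun (P_rev hw hm hv x []) z
    have e5 : ∑ x, P w [] z x * l.cov x x = v := by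
      rw [← one_mul v, ← sum_P hw [] z, Finset.sum_mul]
      refine Finset.sum_congr rfl fun x _ => ?_
      by_cases hx : w x = 0
      · simp [P_eq_zero hx]
      · rw [hv x hx]
    simp only [Pf, e4, mul_add, Finset.sum_add_distrib, e5, sub_zero]
  have e6 : node w (L ++ [l]) (L.length + 1) (fun z => Pf w [] z z) h =
      node w L L.length (fun z => Pf w [] z z) h + v := by
    rw [add_comm L.length, ← node_node, List.drop_left, node_cons, node_zero, e2,
      node_rev hw hm hv _ L _ le_rfl, node_add hw (eg_Pfz hw []) (Eg.const v), node_const hw]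
  have e7 : node w (L ++ [l]) L.length (X w [l]) h = node w L L.length (X w []) h + v / 2 := by
    rw [node_rev hw hm hv _ L _ le_rfl, show X w [l] = _ from X_rev hw hm hv [],
      node_add hw (lg_X hw []).eg (Eg.const _), node_const hw]
  have e8 := congrFun (node_sub hw (lg_X hw []).eg (eg_Pfz hw []) L L.length) h
  have e9 := congrFun (node_sub hw (lg_X hw []).eg (eg_Pfz hw []) (L ++ [l]) (L.length + 1)) h
  change node w L L.length (Sn w) h = _ at e8
  change node w (L ++ [l]) (L.length + 1) (Sn w) h = _ at e9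
  linarith

/-! ### the entropy after a strong mark -/

open Classical in
theorem Sn_eq (hw : Wt w) (z : Ω → ℝ) :
    exp (X w [] z) * Sn w z = ∑ x, w x * exp (z x) * (X w [] z - z x) := by
  have e : ∀ x, exp (X w [] z) * P w [] z x = w x * exp (z x) := fun x => by
    rw [C.exp_X_nil hw]
    simp only [P, prob]
    rw [mul_div_cancel₀ _ (wt_exp hw z).pos.ne']
  simp only [Sn, Pf, mul_sub, Finset.sum_sub_distrib, Finset.mul_sum, ← mul_assoc, e,
    ← Finset.sum_mul]
  rw [C.exp_X_nil hw]

theorem Sn_nonneg (hw : Wt w) (h01 : ∀ x, w x = 0 ∨ w x = 1) (z : Ω → ℝ) : 0 ≤ Sn w z := by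
  refine (mul_nonneg_iff_of_pos_left (exp_pos (X w [] z))).1 ?_
  rw [Sn_eq hw]
  refine Finset.sum_nonneg fun x _ => ?_
  rcases h01 x with hx | hx
  · simp [hx]
  · refine mul_nonneg (mul_nonneg (hw.nn x) (exp_pos _).le) (sub_nonneg.2 (exp_le_exp.1 ?_))
    rw [C.exp_X_nil hw, ← one_mul (exp (z x)), ← hx]
    exact Finset.single_le_sum (f := fun x => w x * exp (z x))
      (fun y _ => mul_nonneg (hw.nn y) (exp_pos _).le) (Finset.mem_univ x)

open Classical in
theorem Sn_le (hw : Wt w) (h01 : ∀ x, w x = 0 ∨ w x = 1) (z : Ω → ℝ) :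
    exp (X w [] z) * Sn w z ≤
      2 * ∑ x, ∑ y ∈ Finset.univ.erase x, w x * w y * exp ((z x + z y) / 2) := by
  rw [Sn_eq hw, Finset.mul_sum]
  refine Finset.sum_le_sum fun x _ => ?_
  have a0 : ∀ y, 0 ≤ w y * exp (z y / 2) := fun y => mul_nonneg (hw.nn y) (exp_pos _).le
  rcases h01 x with hx | hx
  · simp [hx]
  · set A := ∑ y ∈ Finset.univ.erase x, w y * exp (z y / 2) with hA
    have A0 : 0 ≤ A := Finset.sum_nonneg fun y _ => a0 y
    have hp := exp_pos (z x / 2)
    have h1 : exp (X w [] z) ≤ (exp (z x / 2) + A) ^ 2 := by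
      have h2 : exp (z x / 2) + A = ∑ y, w y * exp (z y / 2) := by
        rw [← Finset.add_sum_erase _ _ (Finset.mem_univ x), hx, one_mul]
      rw [h2, C.exp_X_nil hw]
      refine le_trans (le_of_eq (Finset.sum_congr rfl fun y _ => ?_))
        (Finset.sum_sq_le_sq_sum_of_nonneg fun y _ => a0 y)
      rw [mul_pow, sq (exp _), ← exp_add, add_halves]
      rcases h01 y with hy | hy <;> simp [hy]
    have h3 : exp (z x / 2) + A ≤ exp (z x / 2 + A / exp (z x / 2)) := by
      rw [exp_add]
      have := mul_le_mul_of_nonneg_left (add_one_le_exp (A / exp (z x / 2))) hp.le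
      rw [mul_add, mul_div_cancel₀ _ hp.ne', mul_one] at this
      linarith
    have h4 : X w [] z ≤ 2 * (z x / 2 + A / exp (z x / 2)) := by
      refine exp_le_exp.1 (h1.trans ?_)
      rw [two_mul, exp_add, ← sq]
      exact pow_le_pow_left₀ (by positivity) h3 2
    have h5 : ∑ y ∈ Finset.univ.erase x, w x * w y * exp ((z x + z y) / 2) =
        exp (z x / 2) * A := by
      rw [hA, Finset.mul_sum]
      exact Finset.sum_congr rfl fun y _ => by rw [hx, add_div, exp_add]; ring
    have h6 : exp (z x) = exp (z x / 2) * exp (z x / 2) := by rw [← exp_add, add_halves]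
    rw [h5, hx, one_mul, h6]
    have h7 : exp (z x / 2) * (A / exp (z x / 2)) = A := mul_div_cancel₀ _ hp.ne'
    have h8 := mul_le_mul_of_nonneg_left (show X w [] z - z x ≤ 2 * (A / exp (z x / 2)) by
      linarith) (mul_pos hp hp).le
    calc _ ≤ _ := h8
      _ = 2 * (exp (z x / 2) * (exp (z x / 2) * (A / exp (z x / 2)))) := by ring
      _ = _ := by rw [h7]

open Classical in
/-- the entropy left after a mark of tilt one -/
theorem tE_Sn_le (hw : Wt w) (h01 : ∀ x, w x = 0 ∨ w x = 1) (hm : l.m = 1)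
    (hv : ∀ x, w x ≠ 0 → l.cov x x = v) {B : ℝ} (hB : ∀ x, w x ≠ 0 →
      ∑ y ∈ Finset.univ.erase x, w y * exp (-(v - l.cov x y) / 4) ≤ B) (h : Ω → ℝ) :
    tE l (X w []) (Sn w) h ≤ 2 * B := by
  have e1 : ∀ x y, ∀ g, exp (((h + l.fld g) x + (h + l.fld g) y) / 2) =
      exp ((h x + h y) / 2) * exp (∑ i, (l.A x i + l.A y i) / 2 * g i) := fun x y g => by
    rw [← exp_add]
    congr 1
    simp only [Pi.add_apply, Lv.fld, div_mul_eq_mul_div, add_mul, ← Finset.sum_div,
      Finset.sum_add_distrib]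
    ring
  have i1 : ∀ x y, Integrable (fun g => w x * w y *
      exp (((h + l.fld g) x + (h + l.fld g) y) / 2)) (gv l.ι) := fun x y => by
    simp only [e1]
    exact ((C.integrable_exp_lin _).const_mul _).const_mul _
  have e2 : ∀ x y, ∫ g, w x * w y * exp (((h + l.fld g) x + (h + l.fld g) y) / 2) ∂gv l.ι =
      w x * w y * exp ((h x + h y) / 2) * exp (-(v - l.cov x y) / 4) * exp (v / 2) := by
    intro x y
    by_cases hx : w x = 0
    · simp [hx]
    by_cases hy : w y = 0
    · simp [hy]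
    simp only [e1]
    rw [integral_const_mul, integral_const_mul, C.int_exp_lin]
    have e3 : ∑ i, (l.A x i + l.A y i) / 2 * ((l.A x i + l.A y i) / 2) =
        (l.cov x x + l.cov y y + 2 * l.cov x y) / 4 := by
      simp only [Lv.cov, Finset.mul_sum, ← Finset.sum_add_distrib, Finset.sum_div]
      exact Finset.sum_congr rfl fun i _ => by ring
    rw [e3, hv x hx, hv y hy, show (v + v + 2 * l.cov x y) / 4 / 2 =
      -(v - l.cov x y) / 4 + v / 2 by ring, exp_add]
    ring
  have e4 : ∫ g, exp (X w [] (h + l.fld g)) ∂gv l.ι = (∑ x, w x * exp (h x)) * exp (v / 2) := by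
    rw [C.int_exp_X_nil hw, Finset.sum_mul]
    exact Finset.sum_congr rfl fun x _ => sum_shift (v := v / 2) (f := fun x => l.cov x x / 2)
      (fun x hx => by rw [hv x hx]) h x
  have hZ := (lg_X hw []).Z_pos l h
  have hi := (lg_X hw []).int (eg_Sn hw) l h
  rw [tE, div_le_iff₀ hZ]
  simp only [hm, one_mul] at hi ⊢
  refine (integral_mono hi ((integrable_finsetSum _ fun x _ => integrable_finsetSum _ fun y _ =>
    i1 x y).const_mul 2) fun g => Sn_le hw h01 _).trans ?_
  rw [integral_const_mul, integral_finsetSum _ fun x _ => integrable_finsetSum _ fun y _ => i1 x y,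
    e4, mul_assoc]
  refine mul_le_mul_of_nonneg_left ?_ zero_le_two
  simp only [integral_finsetSum _ fun y _ => i1 _ y, e2, ← Finset.sum_mul]
  rw [← mul_assoc]
  refine mul_le_mul_of_nonneg_right ?_ (exp_pos _).le
  have am : ∀ x y, w x * w y * exp ((h x + h y) / 2) * exp (-(v - l.cov x y) / 4) ≤
      (w x * exp (h x) * (w y * exp (-(v - l.cov x y) / 4)) +
        w y * exp (h y) * (w x * exp (-(v - l.cov y x) / 4))) / 2 := fun x y => by
    have h1 : exp ((h x + h y) / 2) ≤ (exp (h x) + exp (h y)) / 2 := by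
      have := convexOn_exp.2 (mem_univ (h x)) (mem_univ (h y)) (show (0 : ℝ) ≤ 1 / 2 by norm_num)
        (show (0 : ℝ) ≤ 1 / 2 by norm_num) (by norm_num)
      simp only [smul_eq_mul] at this
      rw [show (h x + h y) / 2 = 1 / 2 * h x + 1 / 2 * h y by ring]
      linarith
    have h2 := mul_le_mul_of_nonneg_left h1 (mul_nonneg (mul_nonneg (hw.nn x) (hw.nn y))
      (exp_pos (-(v - l.cov x y) / 4)).le)
    rw [cov_symm l y x]
    linarith
  have sw : ∑ x, ∑ y ∈ Finset.univ.erase x, w y * exp (h y) * (w x * exp (-(v - l.cov y x) / 4)) =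
      ∑ x, ∑ y ∈ Finset.univ.erase x, w x * exp (h x) * (w y * exp (-(v - l.cov x y) / 4)) :=
    Finset.sum_comm' fun x y => by simp [eq_comm]
  refine (Finset.sum_le_sum fun x _ => Finset.sum_le_sum fun y _ => am x y).trans ?_
  simp only [← Finset.sum_div, Finset.sum_add_distrib, sw, add_self_div_two]
  rw [Finset.mul_sum]
  refine Finset.sum_le_sum fun x _ => ?_
  rw [← Finset.mul_sum, mul_comm B]
  by_cases hx : w x = 0
  · simp [hx]
  · exact mul_le_mul_of_nonneg_left (hB x hx) (mul_nonneg (hw.nn x) (exp_pos _).le)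

open Classical in
theorem node_Sn_le (hw : Wt w) (h01 : ∀ x, w x = 0 ∨ w x = 1) (hm : l.m = 1)
    (hv : ∀ x, w x ≠ 0 → l.cov x x = v) {B : ℝ} (hB : ∀ x, w x ≠ 0 →
      ∑ y ∈ Finset.univ.erase x, w y * exp (-(v - l.cov x y) / 4) ≤ B) (L : List (Lv Ω))
    (h : Ω → ℝ) : 0 ≤ node w (L ++ [l]) (L.length + 1) (Sn w) h ∧
      node w (L ++ [l]) (L.length + 1) (Sn w) h ≤ 2 * B := by
  refine ⟨node_nonneg w (Sn_nonneg hw h01) _ _ _, ?_⟩
  rw [add_comm L.length, ← node_node, List.drop_left, node_cons, node_zero]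
  exact node_le hw ((eg_Sn hw).tE (lg_X hw []) l) (tE_Sn_le hw h01 hm hv hB) _ _ _

/-- the Hamming sum on the cube -/
theorem sum_cube (n : ℕ) (U : ℝ) (x : Cube n) :
    ∑ y ∈ Finset.univ.erase x, exp (-(U * n - U * ∑ i, sv x i * sv y i) / 4) =
      (1 + exp (-U / 2)) ^ n - 1 := by
  have e1 : ∀ y : Cube n, exp (-(U * n - U * ∑ i, sv x i * sv y i) / 4) =
      ∏ i, if y i = x i then 1 else exp (-U / 2) := fun y => by
    have e2 : -(U * n - U * ∑ i, sv x i * sv y i) / 4 =
        ∑ i, -(U - U * (sv x i * sv y i)) / 4 := by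
      rw [← Finset.sum_div, Finset.sum_neg_distrib, Finset.sum_sub_distrib, ← Finset.mul_sum]
      simp [mul_comm]
    rw [e2, exp_sum]
    refine Finset.prod_congr rfl fun i _ => ?_
    simp only [sv]
    cases x i <;> cases y i <;>
      simp [Crest.ProbabilityR.SpinGlassDynamics.spin] <;> ring_nf
  rw [eq_sub_iff_add_eq]
  simp only [e1]
  have e3 := Finset.sum_erase_add Finset.univ
    (fun y : Cube n => ∏ i, if y i = x i then (1 : ℝ) else exp (-U / 2)) (Finset.mem_univ x)
  simp only [if_true, Finset.prod_const_one] at e3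
  rw [e3, ← Fintype.piFinset_univ,
    ← Finset.prod_univ_sum (fun _ => Finset.univ) fun i b => if b = x i then (1 : ℝ) else exp (-U / 2)]
  have e4 : ∀ i, ∑ b : Bool, (if b = x i then (1 : ℝ) else exp (-U / 2)) = 1 + exp (-U / 2) :=
    fun i => by cases x i <;> simp [add_comm]
  simp only [e4, Finset.prod_const, Finset.card_univ, Fintype.card_fin]

/-- the entropy left after revealing every spin with a field of variance `U` -/
theorem node_Sn_cube (n : ℕ) {U : ℝ} (hU : 0 ≤ U) (L : List (Lv (Cube n))) (h : Cube n → ℝ) :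
    0 ≤ node (fun _ => 1) (L ++ [T157.G1.fl n 1 (1, U)]) (L.length + 1) (Sn fun _ => 1) h ∧
      node (fun _ => 1) (L ++ [T157.G1.fl n 1 (1, U)]) (L.length + 1) (Sn fun _ => 1) h ≤
        2 * ((1 + exp (-U / 2)) ^ n - 1) := by
  have hc : ∀ x y : Cube n, (T157.G1.fl n 1 (1, U)).cov x y = U * ∑ i, sv x i * sv y i :=
    fun x y => by
      show ∑ i, 1 * √U * sv x i * (1 * √U * sv y i) = _
      rw [Finset.mul_sum]
      refine Finset.sum_congr rfl fun i _ => ?_
      linear_combination (sv x i * sv y i) * mul_self_sqrt hU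
  refine node_Sn_le ⟨fun _ => zero_le_one, by simp⟩ (fun _ => Or.inr rfl) rfl (v := U * n)
    (fun x _ => ?_) (fun x _ => ?_) L h
  · rw [hc]
    congr 1
    have : ∀ i, sv x i * sv x i = 1 := fun i => by
      simp only [sv]
      cases x i <;> simp [Crest.ProbabilityR.SpinGlassDynamics.spin]
    simp [this]
  · simp only [hc, one_mul]
    refine le_of_eq ?_
    convert sum_cube n U x

end Crest.Agent.T156.Cas.Gir68

end
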