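import Crest.Agent.T156.SrLip_25

/-!
# Row 156 (helper96): the cone envelope of a monotone profile

`ev f c a b k` is the smallest `e ≥ 0` with `|f i - f k| ≤ e + c |i - k|` on `[a, b]`.
-/

set_option autoImplicit false

noncomputable section

namespace Crest.Agent.T156.Env96

open Finset Crest.Agent.T156.Sr25

/-- the cone envelope -/
def ev (f : ℕ → ℝ) (c : ℝ) (a b k : ℕ) : ℝ :=
  (Icc a b).fold max 0 fun i => |f i - f k| - c * |(i : ℝ) - k|

variable {f q : ℕ → ℝ} {c g D : ℝ} {a b k : ℕ}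

theorem ev_nonneg : 0 ≤ ev f c a b k := (le_fold_max _).2 (Or.inl le_rfl)

/-- **the cone property** -/
theorem cone {i : ℕ} (h1 : a ≤ i) (h2 : i ≤ b) : |f i - f k| ≤ ev f c a b k + c * |(i : ℝ) - k| := by
  have : |f i - f k| - c * |(i : ℝ) - k| ≤ ev f c a b k :=
    (le_fold_max _).2 (Or.inr ⟨i, mem_Icc.2 ⟨h1, h2⟩, le_rfl⟩)
  linarith

theorem ev_le {B : ℝ} (B0 : 0 ≤ B)
    (h : ∀ i, a ≤ i → i ≤ b → |f i - f k| ≤ B + c * |(i : ℝ) - k|) : ev f c a b k ≤ B :=
  (fold_max_le _).2 ⟨B0, fun i hi => by linarith [h i (mem_Icc.1 hi).1 (mem_Icc.1 hi).2]⟩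

theorem ev_anti {c' : ℝ} (h : c ≤ c') : ev f c' a b k ≤ ev f c a b k :=
  ev_le ev_nonneg fun i h1 h2 => (cone h1 h2).trans
    (by linarith [mul_le_mul_of_nonneg_right h (abs_nonneg ((i : ℝ) - k))])

/-- the envelope is `c`-Lipschitz up to the rise of `f` -/
theorem ev_le_ev {j : ℕ} (c0 : 0 ≤ c) :
    ev f c a b k ≤ ev f c a b j + |f j - f k| + c * |(j : ℝ) - k| := by
  refine ev_le (by have := @ev_nonneg f c a b j; positivity) fun i h1 h2 => ?_
  have t1 := abs_sub_le (f i) (f j) (f k)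
  have t2 := cone (f := f) (c := c) (k := j) h1 h2
  have t3 := abs_sub_le (i : ℝ) k j
  rw [abs_sub_comm (k : ℝ) j] at t3
  linarith [mul_le_mul_of_nonneg_left t3 c0]

theorem tele (h : ∀ k, a ≤ k → k < b → 0 ≤ q (k + 1) - q k ∧ q (k + 1) - q k ≤ g) {i j : ℕ}
    (h1 : a ≤ i) (hij : i ≤ j) (h2 : j ≤ b) : 0 ≤ q j - q i ∧ q j - q i ≤ g * ((j : ℝ) - i) := by
  induction j, hij using Nat.le_induction with
  | base => simp
  | succ j h' ih =>
    have := ih (by omega)
    have := h j (by omega) (by omega)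
    push_cast
    constructor <;> nlinarith

theorem abs_tele (h : ∀ k, a ≤ k → k < b → 0 ≤ q (k + 1) - q k ∧ q (k + 1) - q k ≤ g) {i j : ℕ}
    (h1 : a ≤ i) (h2 : i ≤ b) (h3 : a ≤ j) (h4 : j ≤ b) : |q i - q j| ≤ g * |(i : ℝ) - j| := by
  rcases le_total i j with l | l
  · have := tele h h1 l h4
    have l' : (i : ℝ) ≤ j := by exact_mod_cast l
    rw [abs_sub_comm, abs_of_nonneg this.1, abs_sub_comm, abs_of_nonneg (by linarith)]
    exact this.2
  · have := tele h h3 l h2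
    have l' : (j : ℝ) ≤ i := by exact_mod_cast l
    rw [abs_of_nonneg this.1, abs_of_nonneg (by linarith)]
    exact this.2

/-- from a sup location -/
theorem ev_le_sup (hq : ∀ k, a ≤ k → k < b → 0 ≤ q (k + 1) - q k ∧ q (k + 1) - q k ≤ g)
    (hc : g ≤ c) (hD : ∀ i, a ≤ i → i ≤ b → |f i - q i| ≤ D) (h1 : a ≤ k) (h2 : k ≤ b) :
    ev f c a b k ≤ 2 * D := by
  have D0 : 0 ≤ D := (abs_nonneg _).trans (hD k h1 h2)
  refine ev_le (by linarith) fun i i1 i2 => ?_
  have t1 := abs_le.1 (hD i i1 i2)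
  have t2 := abs_le.1 (hD k h1 h2)
  have t3 := abs_le.1 (abs_tele hq i1 i2 h1 h2)
  have t4 := mul_le_mul_of_nonneg_right hc (abs_nonneg ((i : ℝ) - k))
  exact abs_le.2 ⟨by linarith, by linarith⟩

theorem mono_le (hf : ∀ k, a ≤ k → k < b → f k ≤ f (k + 1)) {i j : ℕ} (h1 : a ≤ i) (hij : i ≤ j)
    (h2 : j ≤ b) : f i ≤ f j := by
  induction j, hij using Nat.le_induction with
  | base => exact le_rfl
  | succ j h' ih => exact (ih (by omega)).trans (hf j (by omega) (by omega))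

/-- **between two nodes with a one-sided cone the envelope is at most the rise** -/
theorem ev_le_gap (hf : ∀ k, a ≤ k → k < b → f k ≤ f (k + 1)) (c0 : 0 ≤ c) {u v : ℕ} {e : ℝ}
    (e0 : 0 ≤ e) (h0 : a ≤ u) (h1 : u ≤ k) (h2 : k ≤ v) (h3 : v ≤ b)
    (hu : ∀ i, a ≤ i → i ≤ u → f u - f i ≤ e + c * ((u : ℝ) - i))
    (hv : ∀ i, v ≤ i → i ≤ b → f i - f v ≤ e + c * ((i : ℝ) - v)) :
    ev f c a b k ≤ f v - f u + e := by
  have m1 := mono_le hf h0 h1 (h2.trans h3)
  have m2 := mono_le hf (h0.trans h1) h2 h3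
  have r1 : (u : ℝ) ≤ k := by exact_mod_cast h1
  have r2 : (k : ℝ) ≤ v := by exact_mod_cast h2
  refine ev_le (by linarith) fun i i1 i2 => ?_
  have p0 : 0 ≤ c * |(i : ℝ) - k| := by positivity
  rcases le_total i k with l | l
  · have m3 := mono_le hf i1 l (h2.trans h3)
    rw [abs_sub_comm, abs_of_nonneg (by linarith)]
    rcases le_total i u with l' | l'
    · have t := hu i i1 l'
      have : c * ((u : ℝ) - i) ≤ c * |(i : ℝ) - k| :=
        mul_le_mul_of_nonneg_left (by linarith [neg_abs_le ((i : ℝ) - k)]) c0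
      linarith
    · linarith [mono_le hf h0 l' i2]
  · have m3 := mono_le hf (h0.trans h1) l i2
    rw [abs_of_nonneg (by linarith)]
    rcases le_total i v with l' | l'
    · linarith [mono_le hf i1 l' h3]
    · have t := hv i l' i2
      have : c * ((i : ℝ) - v) ≤ c * |(i : ℝ) - k| :=
        mul_le_mul_of_nonneg_left (by linarith [le_abs_self ((i : ℝ) - k)]) c0
      linarith

/-- shifted and mirrored sequences -/
def sh (f : ℕ → ℝ) (a : ℕ) (i : ℕ) : ℝ := f (a + i)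
def mi (f : ℕ → ℝ) (b : ℕ) (i : ℕ) : ℝ := -f (b - i)

theorem le_df {F : ℕ → ℝ} {i j : ℕ} (h : i ≤ j) :
    F j - F i - c * ((j : ℝ) - i) ≤ df F (fun _ => c) j := by
  have t1 := lm_sub_le (f := F) (c := fun _ => c) h
  have t2 := lm_le (f := F) (c := fun _ => c) i
  rw [sum_const, Nat.card_Ico, nsmul_eq_mul, Nat.cast_sub h] at t1
  simp only [df]
  linarith

theorem ev_le_df (hf : ∀ k, a ≤ k → k < b → f k ≤ f (k + 1)) (h1 : a ≤ k) (h2 : k ≤ b) :
    ev f c a b k ≤ df (sh f a) (fun _ => c) (k - a) + df (mi f b) (fun _ => c) (b - k) := by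
  have d1 := df_nonneg (f := sh f a) (c := fun _ => c) (k - a)
  have d2 := df_nonneg (f := mi f b) (c := fun _ => c) (b - k)
  refine ev_le (by linarith) fun i i1 i2 => ?_
  rcases le_total i k with l | l
  · have t := le_df (c := c) (F := sh f a) (show i - a ≤ k - a by omega)
    have l' : (i : ℝ) ≤ k := by exact_mod_cast l
    simp only [sh, Nat.add_sub_cancel' h1, Nat.add_sub_cancel' i1, Nat.cast_sub h1,
      Nat.cast_sub i1] at t
    rw [abs_sub_comm, abs_of_nonneg (by linarith [mono_le hf i1 l h2]), abs_sub_comm,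
      abs_of_nonneg (by linarith)]
    have e : ((k : ℝ) - a - (i - a)) = k - i := by ring
    rw [e] at t
    linarith
  · have t := le_df (c := c) (F := mi f b) (show b - i ≤ b - k by omega)
    have l' : (k : ℝ) ≤ i := by exact_mod_cast l
    simp only [mi, Nat.sub_sub_self h2, Nat.sub_sub_self i2, Nat.cast_sub h2, Nat.cast_sub i2] at t
    rw [abs_of_nonneg (by linarith [mono_le hf h1 l i2]), abs_of_nonneg (by linarith)]
    have e : ((b : ℝ) - k - (b - i)) = i - k := by ring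
    rw [e] at t
    linarith

theorem one_side {F Q : ℕ → ℝ} {N : ℕ} (c0 : 0 < c) (g0 : 0 ≤ g) (hc : 3 * g ≤ c)
    (hF : ∀ k < N, F k ≤ F (k + 1))
    (hQ : ∀ k < N, 0 ≤ Q (k + 1) - Q k ∧ Q (k + 1) - Q k ≤ g) (h0 : |F 0 - Q 0| ≤ D)
    (hN : |F N - Q N| ≤ D) : ∑ i ∈ range (N + 1), df F (fun _ => c) i ^ 2 ≤
      14 / c * (2 * D ^ 3 + 4 * g * ∑ i ∈ range (N + 1), (F i - Q i) ^ 2) := by
  have t := base_w (f := F) (q := Q) (c := fun _ => c) (N := N) (ω := fun _ => 1) (ρ := 1 / c)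
    (A := g) (by positivity) hF (fun k hk => by linarith [(hQ k hk).1])
    (fun k hk => by linarith [(hQ k hk).2]) (fun k _ => by rw [one_div, inv_mul_cancel₀ c0.ne'])
    (fun _ _ => zero_le_one) g0 (fun k hk => by linarith [(hQ k hk).2])
    (fun k hk => by linarith [(hQ k hk).2])
  simp only [one_mul] at t
  have D0 : 0 ≤ D := (abs_nonneg _).trans h0
  have t1 : (F N - Q N) ^ 3 ≤ D ^ 3 :=
    (le_abs_self _).trans (by rw [abs_pow]; exact pow_le_pow_left₀ (abs_nonneg _) hN 3)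
  have t2 : -(F 0 - Q 0) ^ 3 ≤ D ^ 3 :=
    (neg_le_abs _).trans (by rw [abs_pow]; exact pow_le_pow_left₀ (abs_nonneg _) h0 3)
  refine t.trans ?_
  rw [mul_one_div]
  exact mul_le_mul_of_nonneg_left (by linarith) (by positivity)

theorem sum_sh (hab : a ≤ b) (F : ℕ → ℝ) :
    ∑ k ∈ Icc a b, F k = ∑ i ∈ range (b - a + 1), F (a + i) := by
  rw [← Ico_add_one_right_eq_Icc, sum_Ico_eq_sum_range, show b + 1 - a = b - a + 1 by omega]

theorem sum_mi (hab : a ≤ b) (F : ℕ → ℝ) :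
    ∑ k ∈ Icc a b, F k = ∑ i ∈ range (b - a + 1), F (b - i) := by
  rw [sum_sh hab, ← sum_range_reflect]
  exact sum_congr rfl fun i hi => by
    have := mem_range.1 hi
    congr 1; omega

/-- **the envelope is paid by the energy, with the gain `g / c`** -/
theorem sum_sq (hab : a ≤ b) (c0 : 0 < c) (g0 : 0 ≤ g) (hc : 3 * g ≤ c)
    (hf : ∀ k, a ≤ k → k < b → f k ≤ f (k + 1))
    (hq : ∀ k, a ≤ k → k < b → 0 ≤ q (k + 1) - q k ∧ q (k + 1) - q k ≤ g)
    (ha : |f a - q a| ≤ D) (hb : |f b - q b| ≤ D) :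
    ∑ k ∈ Icc a b, ev f c a b k ^ 2 ≤
      56 / c * (2 * D ^ 3 + 4 * g * ∑ k ∈ Icc a b, (f k - q k) ^ 2) := by
  have e : a + (b - a) = b := by omega
  have s1 := one_side (F := sh f a) (Q := sh q a) (N := b - a) (D := D) c0 g0 hc
    (fun k hk => hf (a + k) (by omega) (by omega)) (fun k hk => hq (a + k) (by omega) (by omega))
    (by simpa [sh] using ha) (by simpa [sh, e] using hb)
  have s2 := one_side (F := mi f b) (Q := mi q b) (N := b - a) (D := D) c0 g0 hc
    (fun k hk => by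
      have := hf (b - (k + 1)) (by omega) (by omega)
      rw [show b - (k + 1) + 1 = b - k by omega] at this
      simp only [mi]; linarith)
    (fun k hk => by
      have := hq (b - (k + 1)) (by omega) (by omega)
      rw [show b - (k + 1) + 1 = b - k by omega] at this
      simp only [mi]; constructor <;> linarith [this.1, this.2])
    (by simp only [mi, Nat.sub_zero]; rw [← abs_neg]; convert hb using 2; ring)
    (by simp only [mi, Nat.sub_sub_self hab]; rw [← abs_neg]; convert ha using 2; ring)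
  have e1 : ∑ i ∈ range (b - a + 1), (sh f a i - sh q a i) ^ 2 = ∑ k ∈ Icc a b, (f k - q k) ^ 2 :=
    (sum_sh hab fun k => (f k - q k) ^ 2).symm
  have e2 : ∑ i ∈ range (b - a + 1), (mi f b i - mi q b i) ^ 2 = ∑ k ∈ Icc a b, (f k - q k) ^ 2 := by
    rw [sum_mi hab fun k => (f k - q k) ^ 2]
    exact sum_congr rfl fun i _ => by simp only [mi]; ring
  have e3 : ∑ k ∈ Icc a b, df (sh f a) (fun _ => c) (k - a) ^ 2 =
      ∑ i ∈ range (b - a + 1), df (sh f a) (fun _ => c) i ^ 2 := by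
    rw [sum_sh hab]; exact sum_congr rfl fun i _ => by rw [Nat.add_sub_cancel_left]
  have e4 : ∑ k ∈ Icc a b, df (mi f b) (fun _ => c) (b - k) ^ 2 =
      ∑ i ∈ range (b - a + 1), df (mi f b) (fun _ => c) i ^ 2 := by
    rw [sum_mi hab]
    exact sum_congr rfl fun i hi => by
      have := mem_range.1 hi
      rw [Nat.sub_sub_self (by omega)]
  rw [e1] at s1
  rw [e2] at s2
  calc _ ≤ ∑ k ∈ Icc a b, (2 * df (sh f a) (fun _ => c) (k - a) ^ 2 +
          2 * df (mi f b) (fun _ => c) (b - k) ^ 2) := sum_le_sum fun k hk => by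
        have t := ev_le_df (c := c) hf (mem_Icc.1 hk).1 (mem_Icc.1 hk).2
        have t' := pow_le_pow_left₀ ev_nonneg t 2
        nlinarith [sq_nonneg (df (sh f a) (fun _ => c) (k - a) - df (mi f b) (fun _ => c) (b - k))]
    _ ≤ _ := by
        rw [sum_add_distrib, ← mul_sum, ← mul_sum, e3, e4, show 56 / c = 4 * (14 / c) by ring]
        linarith

/-- higher powers from any sup bound `B` of the envelope -/
theorem sum_pow {B X : ℝ} {J : Finset ℕ} (hJ : J ⊆ Icc a b) (hB : ∀ k ∈ J, ev f c a b k ≤ B)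
    (hX : ∑ k ∈ Icc a b, ev f c a b k ^ 2 ≤ X) (B0 : 0 ≤ B) (p : ℕ) :
    ∑ k ∈ J, ev f c a b k ^ (p + 2) ≤ B ^ p * X := by
  calc _ ≤ ∑ k ∈ J, B ^ p * ev f c a b k ^ 2 := sum_le_sum fun k hk => by
        rw [pow_add]
        exact mul_le_mul_of_nonneg_right (pow_le_pow_left₀ ev_nonneg (hB k hk) p) (sq_nonneg _)
    _ ≤ _ := by
        rw [← mul_sum]
        exact mul_le_mul_of_nonneg_left ((sum_le_sum_of_subset_of_nonneg hJ
          fun _ _ _ => sq_nonneg _).trans hX) (by positivity)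

/-- **sizes**: `un ≤ lam (τ + ev)`, weights `≤ W` -/
theorem sum_un {B X lam τ W : ℝ} {J : Finset ℕ} {un ω : ℕ → ℝ} (hJ : J ⊆ Icc a b)
    (hB : ∀ k ∈ J, ev f c a b k ≤ B) (hX : ∑ k ∈ Icc a b, ev f c a b k ^ 2 ≤ X) (B0 : 0 ≤ B)
    (l0 : 0 ≤ lam) (t0 : 0 ≤ τ) (W0 : 0 ≤ W) (hω : ∀ k ∈ J, 0 ≤ ω k ∧ ω k ≤ W)
    (hu : ∀ k ∈ J, 0 ≤ un k ∧ un k ≤ lam * (τ + ev f c a b k)) (p : ℕ) :
    ∑ k ∈ J, ω k * un k ^ (p + 2) ≤
      2 ^ (p + 1) * lam ^ (p + 2) * ((∑ k ∈ J, ω k) * τ ^ (p + 2) + W * (B ^ p * X)) := by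
  have s := sum_pow hJ hB hX B0 p
  calc _ ≤ ∑ k ∈ J, 2 ^ (p + 1) * lam ^ (p + 2) *
          (ω k * τ ^ (p + 2) + W * ev f c a b k ^ (p + 2)) := sum_le_sum fun k hk => by
        have e0 : 0 ≤ ev f c a b k := ev_nonneg
        have t1 := pow_le_pow_left₀ (hu k hk).1 (hu k hk).2 (p + 2)
        have t2 := add_pow_le t0 e0 (p + 2)
        rw [mul_pow] at t1
        rw [show p + 2 - 1 = p + 1 from rfl] at t2
        have t3 := mul_le_mul_of_nonneg_left (t1.trans (mul_le_mul_of_nonneg_left t2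
          (by positivity))) (hω k hk).1
        have t4 := mul_le_mul_of_nonneg_right (hω k hk).2 (pow_nonneg e0 (p + 2))
        have t5 := mul_le_mul_of_nonneg_left t4
          (show 0 ≤ 2 ^ (p + 1) * lam ^ (p + 2) by positivity)
        nlinarith
    _ ≤ _ := by
        rw [← mul_sum, sum_add_distrib, ← sum_mul, ← mul_sum]
        exact mul_le_mul_of_nonneg_left (by linarith [mul_le_mul_of_nonneg_left s W0])
          (by positivity)

/-- the choice of the slope -/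
theorem opt {α β κ0 : ℝ} (a0 : 0 < α) (b0 : 0 ≤ β) (k0 : 0 < κ0) (p : ℕ) :
    ∃ κ, κ0 ≤ κ ∧ α * κ ^ p + β / κ ≤
      2 * (α * κ0 ^ p) + 2 * (α ^ ((1 : ℝ) / (p + 1)) * β ^ ((p : ℝ) / (p + 1))) := by
  have p1 : (0 : ℝ) < p + 1 := by positivity
  set y := (β / α) ^ ((1 : ℝ) / (p + 1)) with hy
  have y0 : 0 ≤ y := by positivity
  have e1 : y ^ (p + 1) = β / α := by
    rw [hy, ← Real.rpow_natCast, ← Real.rpow_mul (by positivity)]
    push_cast
    rw [one_div, inv_mul_cancel₀ p1.ne', Real.rpow_one]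
  have e2 : α * y ^ p = α ^ ((1 : ℝ) / (p + 1)) * β ^ ((p : ℝ) / (p + 1)) := by
    rw [hy, ← Real.rpow_natCast, ← Real.rpow_mul (by positivity), Real.div_rpow b0 a0.le,
      show (1 : ℝ) / (p + 1) * p = p / (p + 1) by ring,
      show (1 : ℝ) / (p + 1) = 1 - p / (p + 1) by field_simp; ring, Real.rpow_sub a0,
      Real.rpow_one]
    ring
  have e3 : β = α * y ^ (p + 1) := by rw [e1]; field_simp
  have n1 : 0 ≤ α * κ0 ^ p := by positivity
  have n2 : 0 ≤ α * y ^ p := by positivity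
  rw [← e2]
  rcases le_total κ0 y with h | h
  · refine ⟨y, h, ?_⟩
    have y1 : 0 < y := k0.trans_le h
    have : β / y = α * y ^ p := by rw [div_eq_iff y1.ne', mul_assoc, ← pow_succ]; exact e3
    linarith
  · refine ⟨κ0, le_rfl, ?_⟩
    have : β / κ0 ≤ α * κ0 ^ p := by
      rw [div_le_iff₀ k0, e3, mul_assoc, ← pow_succ]
      exact mul_le_mul_of_nonneg_left (pow_le_pow_left₀ y0 h _) a0.le
    linarith

/-- the one-sided defects are below the envelope -/
theorem df_sh_le (h1 : a ≤ k) (h2 : k ≤ b) : df (sh f a) (fun _ => c) (k - a) ≤ ev f c a b k := by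
  refine df_le fun j hj => ?_
  have t := cone (f := f) (c := c) (k := k) (a := a) (b := b) (i := a + j) (by omega) (by omega)
  have l : ((a + j : ℕ) : ℝ) ≤ k := by exact_mod_cast (show a + j ≤ k by omega)
  rw [abs_sub_comm ((a + j : ℕ) : ℝ), abs_of_nonneg (sub_nonneg.2 l)] at t
  rw [sum_const, Nat.card_Ico, nsmul_eq_mul, Nat.cast_sub hj, Nat.cast_sub h1]
  simp only [sh, Nat.add_sub_cancel' h1]
  push_cast at t
  nlinarith [neg_abs_le (f (a + j) - f k)]

theorem df_mi_le (h1 : a ≤ k) (h2 : k ≤ b) : df (mi f b) (fun _ => c) (b - k) ≤ ev f c a b k := by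
  refine df_le fun j hj => ?_
  have t := cone (f := f) (c := c) (k := k) (a := a) (b := b) (i := b - j) (by omega) (by omega)
  have jb : j ≤ b := by omega
  have l : (k : ℝ) ≤ ((b - j : ℕ) : ℝ) := by exact_mod_cast (show k ≤ b - j by omega)
  rw [abs_of_nonneg (sub_nonneg.2 l), Nat.cast_sub jb] at t
  rw [sum_const, Nat.card_Ico, nsmul_eq_mul, Nat.cast_sub hj, Nat.cast_sub h2]
  simp only [mi, Nat.sub_sub_self h2]
  nlinarith [le_abs_self (f (b - j) - f k)]

theorem inj {s t : Finset ℕ} {F : ℕ → ℝ} (φ : ℕ → ℕ) (G : ℕ → ℝ) (h1 : ∀ k ∈ s, φ k ∈ t)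
    (h2 : ∀ k ∈ s, ∀ k' ∈ s, φ k = φ k' → k = k') (h3 : ∀ k ∈ s, G k = F (φ k + 1)) (c0 : 0 ≤ c) :
    ∑ k ∈ s, c * G k ^ 2 ≤ ∑ i ∈ t, c * F (i + 1) ^ 2 := by
  rw [sum_congr rfl fun k hk => by rw [h3 k hk],
    ← sum_image (g := φ) (f := fun i => c * F (i + 1) ^ 2) fun k hk k' hk' => h2 k hk k' hk']
  exact sum_le_sum_of_subset_of_nonneg (image_subset_iff.2 h1) fun _ _ _ => by positivity

/-- **local cubic bound** on a window `[u, v]` (shells of the plateau) -/
theorem win (c0 : 0 ≤ c) (hf : ∀ k, a ≤ k → k < b → f k ≤ f (k + 1)) {u v : ℕ} (h0 : a ≤ u)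
    (huv : u ≤ v) (h3 : v ≤ b) : c * ∑ k ∈ Ioo u v, ev f c a b k ^ 2 ≤
      2 * ((ev f c a b u + (f v - f u)) ^ 3 + (ev f c a b v + (f v - f u)) ^ 3) := by
  have m := mono_le hf h0 huv h3
  have w1 := win_le (f := sh f a) (c := fun _ => c) (a := u - a) (b := v - a) (by omega)
    (fun k x y => hf (a + k) (by omega) (by omega)) fun _ _ _ => c0
  have w2 := win_le (f := mi f b) (c := fun _ => c) (a := b - v) (b := b - u) (by omega)
    (fun k x y => by
      have := hf (b - (k + 1)) (by omega) (by omega)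
      rw [show b - (k + 1) + 1 = b - k by omega] at this
      simp only [mi]; linarith) fun _ _ _ => c0
  have z1 : sh f a (v - a) - sh f a (u - a) = f v - f u := by
    simp only [sh, Nat.add_sub_cancel' h0, Nat.add_sub_cancel' (h0.trans huv)]
  have z2 : mi f b (b - u) - mi f b (b - v) = f v - f u := by
    simp only [mi, Nat.sub_sub_self h3, Nat.sub_sub_self (huv.trans h3)]; ring
  rw [z1] at w1
  rw [z2] at w2
  have d1 := df_nonneg (f := sh f a) (c := fun _ => c) (u - a)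
  have d2 := df_nonneg (f := mi f b) (c := fun _ => c) (b - v)
  have b1 := w1.trans (pow_le_pow_left₀ (by linarith) (add_le_add_left
    (df_sh_le (f := f) (c := c) h0 (huv.trans h3)) _) 3)
  have b2 := w2.trans (pow_le_pow_left₀ (by linarith) (add_le_add_left
    (df_mi_le (f := f) (c := c) (h0.trans huv) h3) _) 3)
  have s1 : ∑ k ∈ Ioo u v, c * df (sh f a) (fun _ => c) (k - a) ^ 2 ≤
      ∑ i ∈ Ico (u - a) (v - a), c * df (sh f a) (fun _ => c) (i + 1) ^ 2 := by
    exact inj (fun k => k - a - 1) (fun k => df (sh f a) (fun _ => c) (k - a))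
      (fun k hk => by have := mem_Ioo.1 hk; exact mem_Ico.2 ⟨by omega, by omega⟩)
      (fun k hk k' hk' e => by
        have := mem_Ioo.1 hk; have := mem_Ioo.1 hk'; omega)
      (fun k hk => by have := mem_Ioo.1 hk; congr 1; omega) c0
  have s2 : ∑ k ∈ Ioo u v, c * df (mi f b) (fun _ => c) (b - k) ^ 2 ≤
      ∑ i ∈ Ico (b - v) (b - u), c * df (mi f b) (fun _ => c) (i + 1) ^ 2 := by
    exact inj (fun k => b - k - 1) (fun k => df (mi f b) (fun _ => c) (b - k))
      (fun k hk => by have := mem_Ioo.1 hk; exact mem_Ico.2 ⟨by omega, by omega⟩)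
      (fun k hk k' hk' e => by
        have := mem_Ioo.1 hk; have := mem_Ioo.1 hk'; omega)
      (fun k hk => by have := mem_Ioo.1 hk; congr 1; omega) c0
  calc _ = ∑ k ∈ Ioo u v, c * ev f c a b k ^ 2 := mul_sum _ _ _
    _ ≤ ∑ k ∈ Ioo u v, (2 * (c * df (sh f a) (fun _ => c) (k - a) ^ 2) +
          2 * (c * df (mi f b) (fun _ => c) (b - k) ^ 2)) := sum_le_sum fun k hk => by
        have hk' := mem_Ioo.1 hk
        have t := ev_le_df (c := c) hf (show a ≤ k by omega) (show k ≤ b by omega)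
        have t' := pow_le_pow_left₀ ev_nonneg t 2
        have t2 : ev f c a b k ^ 2 ≤ 2 * df (sh f a) (fun _ => c) (k - a) ^ 2 +
            2 * df (mi f b) (fun _ => c) (b - k) ^ 2 := by
          nlinarith [sq_nonneg (df (sh f a) (fun _ => c) (k - a) - df (mi f b) (fun _ => c) (b - k))]
        nlinarith [mul_le_mul_of_nonneg_left t2 c0]
    _ ≤ _ := by
        rw [sum_add_distrib, ← mul_sum _ _ 2, ← mul_sum _ _ 2]
        linarith

end Crest.Agent.T156.Env96

end
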