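import Crest.Agent.T156.ErrRE_35
import Crest.Agent.T156.CLfE_21
import Crest.Agent.T156.CLfG_24

/-!
# Row 156, R1: the block leaf of the error table (helper24)
-/

set_option autoImplicit false

noncomputable section

namespace Crest.Agent.T156.Alt.E35

open Real Finset
open Crest.Agent.T156.Cas Crest.Agent.T156.Cas.C40 Crest.Agent.T156.Alt.CIn12
open Crest.Agent.T156.Alt.Md67 Crest.Agent.T156.Alt.Lb24 Crest.Agent.T156.Alt.C33

/-- `Lb24.kc_of` with explicit numbers -/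
theorem kc_of' {S : Sc} {M : Md} {m : ℕ} {a lam l Λ : ℝ} (F : Fn S M m a) (A2 : 2 ≤ S.A)
    (l0 : 1000 ≤ lam) (Cl : S.C ≤ lam) (lg : log S.n ≤ lam) (hK : 4 * (S.A : ℝ) + 9 ≤ lam)
    (ln : lam ^ 10 ≤ S.n) (key : lam / S.n ≤ (S.n : ℝ) ^ (-(1 : ℝ) / 6)) (hF : S.F ≤ S.n)
    (L1 : 1 ≤ Λ) (lo : ∀ k ≤ M.N, M.E2 m a (fun R => R ^ 2) k ≤ (Λ * max (M.z k) l) ^ 2) :
    ∃ D, Kc lam l Λ D S M m a := by
  have h := F.toCl
  have I := F.toIn
  have N0 := h.N0
  have C1 := h.C1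
  have v0 := h.v0
  have F1 := h.F1
  have N1 := F.n1
  have N3 : (3 : ℝ) ≤ S.n := by exact_mod_cast F.n3
  have Al : (S.A : ℝ) ≤ lam := by linarith [Nat.cast_nonneg (α := ℝ) S.A]
  have g1 : 1 ≤ log (S.n : ℝ) := by
    rw [le_log_iff_exp_le N0]; linarith [exp_one_lt_d9]
  have vn : S.v * S.n ≤ M.z 0 := by
    refine le_trans ?_ (key.trans (by linarith [I.a1, I.a2, h.leg.z0]))
    rw [le_div_iff₀ N0, mul_assoc, ← sq]
    exact ((mul_le_mul_of_nonneg_left (pow_le_pow_right₀ N1 A2) v0.le).trans h.v2).trans Cl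
  have l5 : lam ^ 5 ≤ S.n := (pow_le_pow_right₀ (by linarith) (by norm_num)).trans ln
  set D := ⌈2 * (2 * (S.A : ℝ) + 3) * log S.n⌉₊ with hD
  have D1 : 2 * (2 * (S.A : ℝ) + 3) * log S.n ≤ D := Nat.le_ceil _
  have D2 : (D : ℝ) ≤ 2 * (2 * (S.A : ℝ) + 3) * log S.n + 1 :=
    (Nat.ceil_lt_add_one (by positivity)).le
  refine ⟨D, F, vn, l0, Cl, ?_, h.HN.trans ?_, ?_, L1, lo, ln, lg⟩
  · nlinarith [mul_le_mul hK lg (by linarith) (by linarith)]
  · have e1 : (S.n : ℝ) ^ (2 * S.A + 3) ≤ 2 ^ D := by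
      have h3 : (1 : ℝ) / 2 ≤ log 2 := by linarith [log_two_gt_d9]
      rw [← log_le_log_iff (by positivity) (by positivity), log_pow, log_pow]
      push_cast
      nlinarith [mul_le_mul_of_nonneg_left h3 (Nat.cast_nonneg (α := ℝ) D)]
    have e2 : 1 ≤ S.C * (S.v * (S.n : ℝ) ^ S.A) := by
      have := h.v1
      rwa [div_le_iff₀' (by linarith)] at this
    rw [← mul_div_assoc, le_div_iff₀ (by positivity)]
    calc _ ≤ S.C * S.A * log S.n * (S.n * S.n) * (S.C * (S.v * (S.n : ℝ) ^ S.A)) ^ 2 :=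
          le_trans (by gcongr) (le_mul_of_one_le_right (by positivity) (one_le_pow₀ e2))
      _ = S.C ^ 3 * S.A * log S.n * (S.n : ℝ) ^ (2 * S.A + 2) * S.v ^ 2 := by ring
      _ ≤ lam ^ 3 * lam * lam * (S.n : ℝ) ^ (2 * S.A + 2) * S.v ^ 2 := by gcongr
      _ = lam ^ 5 * (S.n : ℝ) ^ (2 * S.A + 2) * S.v ^ 2 := by ring
      _ ≤ S.n * (S.n : ℝ) ^ (2 * S.A + 2) * S.v ^ 2 := by gcongr
      _ ≤ _ := by rw [← pow_succ']; gcongr
  · have : (S.n : ℝ)⁻¹ ≤ a := by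
      refine le_trans ?_ ((div_le_div_of_nonneg_right key two_pos.le).trans I.a1)
      rw [div_div, le_div_iff₀ (by positivity)]
      field_simp
      linarith
    have := log_le_log (by positivity) this
    rw [log_inv] at this
    linarith

/-- the constants on the frame -/
theorem Dt.Ok.kc {d : Dt} (h : d.Ok) : ∃ D, Kc d.E d.b.l (3 * d.E) D d.S d.M d.m d.x := by
  have H := h.H
  have E0 := H.num_le
  have N0 := H.N0
  have n1 : 1 ≤ d.p.n := le_trans (by norm_num) H.n3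
  have η1 : 10 * d.η ≤ 1 := by linarith [h.hη, h.hc, H.η_pos]
  have F := h.loc.bk.fn
  refine kc_of' F (H.hA ▸ H.A2 : 2 ≤ d.p.A) E0 h.km.sc.C H.log_le ?_ ?_ ?_ F.n1 (by linarith)
    fun k hk => ?_
  · change 4 * (d.p.A : ℝ) + 9 ≤ _
    rw [H.hA]; linarith [H.K_le]
  · change _ ≤ (d.p.n : ℝ)
    rw [Pre29.rp_pow]
    exact (Pre29.rp_le n1 (by push_cast; linarith)).trans (rpow_one _).le
  · change _ / (d.p.n : ℝ) ≤ (d.p.n : ℝ) ^ (-(1 : ℝ) / 6)
    rw [← rpow_sub_one N0.ne']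
    exact Pre29.rp_le n1 (by linarith)
  · have z0 : 0 < max (d.M.z k) d.b.l := lt_max_of_lt_left (F.z_pos k)
    have := mom_pair (M := d.M) (m := d.m) (a := d.x) (k := k) (p := 8) (i := 2) (c := 0) (q := 0)
      (B := d.E * max (d.M.z k) d.b.l) (by positivity) (by norm_num)
      (by simpa only [sub_zero] using h.loc.bk.low k hk)
    simp only [sub_zero, sq_abs, abs_zero, add_zero] at this
    refine this.trans ?_
    rw [mul_assoc, mul_pow 3]
    gcongr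
    norm_num

/-- **the block leaf** -/
theorem bqG : BqG := by
  intro d h W
  obtain ⟨D, K⟩ := h.kc
  have H := h.H
  have F := K.fn
  have E0 := K.l0
  have C1 := F.C1
  have Cl := K.Cl
  obtain ⟨m0, m1⟩ := H.mtG_mem (Gr29.oct_mem h.cx.oct).1
  have L := h.km.kn.L1
  obtain ⟨τ, ε, T, hT⟩ := K.topK (shp_px h.km.gd (.inl h.cx.pl) (H.hA ▸ h.A4) m0 m1) h.loc.lk
    (L.1.trans L.2.1) h.km.nx.PL
  have e : d.b.Λ₀ * d.S.w3 1 = d.b.Λ₀ / (d.p.n * d.S.θ) := by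
    rw [Sc.w3, h.km.sc.F, mul_one, mul_one_div]; rfl
  have p0 : 0 ≤ d.b.Λ₀ * d.S.w3 1 := mul_nonneg (by linarith [L.1, L.2.1]) (F.w3_pos one_pos).le
  generalize hE : d.E = E at *
  have E2 : 1000 * E ≤ E ^ 2 := by nlinarith
  have E3 : 1000 * E ^ 2 ≤ E ^ 3 := by nlinarith
  have E4 : 1000 * E ^ 3 ≤ E ^ 4 := by nlinarith
  have E5 : 1000 * E ^ 4 ≤ E ^ 5 := by nlinarith
  unfold Dt.BQ Dt.T
  rw [hE, ← e]
  refine Lb21.bqS E _ _ D _ _ _ _ _ τ ε _ (2 * E ^ 3) _ _ K W.j8 T ?_ (hT.trans ?_) (by positivity)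
    (rf_q F.toCl) (by positivity) (fun k a b => ?_) ?_ ?_
  · rw [show E ^ 24 * (3 * E) ^ 2 = 9 * E ^ 26 by ring, pow_succ' E 26]
    gcongr; linarith
  · gcongr <;> [linarith; norm_num]
  · have z0 := F.z_pos k
    have a1 := W.Hp k a b
    rw [hE] at a1
    have a2 := (q_le_s F.toCl (b.le.trans (F.i3.trans F.i4.le))).trans
      (F.s_le_z (F.i1.trans a.le) b)
    have a3 : d.S.C * d.M.q k ≤ E * (2 * E * d.M.z k) :=
      (mul_le_mul_of_nonneg_left a2 F.C0.le).trans (by gcongr)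
    refine le_trans ?_ (mul_le_mul_of_nonneg_left (le_max_left _ _) (by positivity))
    nlinarith [mul_le_mul_of_nonneg_right E3 z0.le, mul_pos (show 0 < E ^ 2 by positivity) z0]
  · nlinarith [mul_le_mul_of_nonneg_right Cl (show 0 ≤ 2 * E ^ 3 + 2 by positivity)]
  · have a1 : (d.S.A : ℝ) ≤ E := by
      change (d.p.A : ℝ) ≤ E
      rw [H.hA, ← hE]; exact H.A_le
    have a2 : d.S.C * d.S.A * log d.S.n ≤ E * E * E := by
      have := log_nonneg F.n1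
      gcongr
      exact K.lgn
    nlinarith [F.HN]

end Crest.Agent.T156.Alt.E35

end
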