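import Crest.Agent.T156.ErrRE_35

/-!
# Row 156, R1 (helper6): the frame of the error table (`E35.FrameG`)
-/

set_option autoImplicit false

noncomputable section

namespace Crest.Agent.T156.Alt.E35

open Real Finset
open Crest.Agent.T156.Alt.Md67 Crest.Agent.T156.Alt.R62 Crest.Agent.T156.Alt.R77
open Crest.Agent.T156.Alt.R82 Crest.Agent.T156.Alt.SD56

/-- the frame from one kit -/
theorem fr_of6 {β c0 C0 c η K σ σ' t a a' Q l Φ l0 Λ₀ Pt u1 V4 : ℝ} {A m : ℕ} {p : Pm} {P : Pl}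
    {S : Sc} {Pf : ℝ → ℝ} (H : Reg β c0 C0 A c η K p) (x : Cx p σ σ' P t a a' Q m)
    (f : Fx ((p.n : ℝ) ^ η) p P t a a' Q m) (sc : ScG ((p.n : ℝ) ^ η) p P t S)
    (nr : NR ((p.n : ℝ) ^ η) (1 / ((p.n : ℝ) ^ η) ^ 200) p S (p.gst P t) l Φ Pf l0 Λ₀ Pt u1 V4)
    (bk : ∀ y, S.In m y → ∃ G, BK ((p.n : ℝ) ^ η) S (p.gst P t) m y l Φ Pf l0 Λ₀ Pt u1 V4 G) :
    Fr ((p.n : ℝ) ^ η) p P t a a' Q m S l Φ Pf l0 Λ₀ Pt u1 V4 (2 * (Nat.log 2 p.n + 1)) := by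
  have N1 := H.N1
  have E1 := H.num_le
  have En : (p.n : ℝ) ^ η ≤ p.n := by
    simpa using rpow_le_rpow_of_exponent_le N1.le (show η ≤ 1 by linarith [H.η_le, H.c_le])
  refine ⟨f, ⟨Leg_mono f.leg (by linarith [f.a1, f.am0]), f.m0, f.a0.le, f.aa, x.Q0, f.W⟩, sc, nr,
    fun y hy => bk y ⟨sc.n ▸ x.m1, sc.n ▸ x.m2, sc.n ▸ x.win.lo.trans hy.1,
      sc.am ▸ hy.2.trans f.a1⟩, ?_, ?_, E1, H.N0, by exact_mod_cast x.m2, H.ok.s1, H.r0,
    H.r_le_ye, H.ye1, by rw [Sc.θ, sc.ms, H.msG_hi t H.ye1]⟩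
  · have a1 : (p.n : ℝ) ≤ 2 ^ (Nat.log 2 p.n + 1) := by
      exact_mod_cast (Nat.lt_pow_succ_log_self one_lt_two p.n).le
    have a2 : (p.n : ℝ)⁻¹ ≤ l0 := by
      refine le_trans ?_ nr.r0
      rw [← rpow_neg_one, Pm.r]
      exact (rpow_le_rpow_of_exponent_le N1.le (by linarith [H.c_pos, H.hc])).trans
        (le_mul_of_one_le_left (H.rp0 _).le H.ok.s1)
    have a3 := (sc.cl.s_le_C sc.cl.i3).trans sc.C
    calc T0 S (p.gst P t) ≤ (p.n : ℝ)⁻¹ * (p.n : ℝ) ^ 2 := by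
          rw [T0, show (p.n : ℝ)⁻¹ * (p.n : ℝ) ^ 2 = p.n by field_simp]
          linarith
      _ ≤ _ := by
          rw [pow_mul']
          have := (inv_pos.2 H.N0).le.trans a2
          gcongr
  · have a1 : (2 : ℝ) ^ Nat.log 2 p.n ≤ p.n := by
      exact_mod_cast Nat.pow_log_le_self 2 H.n0.ne'
    have a2 := log_le_log (by positivity) a1
    rw [log_pow] at a2
    have a3 : (Nat.log 2 p.n : ℝ) * (1 / 2) ≤ Nat.log 2 p.n * log 2 :=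
      mul_le_mul_of_nonneg_left (by linarith [log_two_gt_d9]) (Nat.cast_nonneg _)
    push_cast
    nlinarith [H.log_le]

theorem log_big6 {x η B : ℝ} (hx : 0 < x) (hη : 0 < η) (hB : 0 < B) (h : (2 * B / η) ^ 2 ≤ x ^ η) :
    B * log x ≤ x ^ η := by
  have a1 := log_le_rpow_div hx.le (half_pos hη)
  have a2 : x ^ η = (x ^ (η / 2)) ^ 2 := by rw [← rpow_mul_natCast hx.le]; norm_num
  have a0 := rpow_pos_of_pos hx (η / 2)
  rw [a2] at h ⊢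
  have a3 := le_of_sq_le_sq h a0.le
  calc B * log x ≤ B * (x ^ (η / 2) / (η / 2)) := mul_le_mul_of_nonneg_left a1 hB.le
    _ = 2 * B / η * x ^ (η / 2) := by field_simp
    _ ≤ _ := by rw [sq]; gcongr

/-- **the frame leaf** -/
theorem frameG : FrameG := fun T β hβ hC hK => by
  refine Sml.gain (Sml.glue' hβ ((hK.and (fxS hβ)).and hC) 4 (c1 := 1 / 1000) (by norm_num)
    (10 ^ 6) ?_)
  intro c0 C0 A c η _ _ _ η0
  refine ⟨4 * A + 10 ^ 8 + (2 * 10 ^ 8 / η) ^ 2, fun p H hA hc hη ⟨⟨K, F⟩, co⟩ σ σ' P t a a' Q m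
    x y hy w f w0 w2 D => ?_⟩
  obtain ⟨K', c1, C1, η1, b, Λ', k⟩ := K σ t P x.oct' x.pl
  have fr := fr_of6 H x (F σ σ' P t a a' Q m x) k.sc k.nr fun z hz => (k.loc m z hz).imp fun _ g => g.bk
  have hx : y ∈ Set.Icc a a' := by
    rcases hy with rfl | rfl
    exacts [⟨le_rfl, x.win.le⟩, ⟨x.win.le, le_rfl⟩]
  have inn : (p.scG K' σ t P).In m y := ⟨x.m1, x.m2, x.win.lo.trans hx.1, hx.2.trans x.win.hi⟩
  obtain ⟨G, g⟩ := k.loc m y inn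
  obtain ⟨Ev, e1, e2⟩ := T ⟨β, c0, C0, A, c, η, p, σ, σ', P, t, a, a', Q, m, K', c1, C1, η1, b, Λ', _,
    y, G⟩ ⟨H.mono_K (le_add_of_nonneg_right (by positivity)), hA, hc, by exact_mod_cast hη,
      log_big6 H.N0 η0 (by norm_num) (le_trans (le_add_of_nonneg_left (by positivity)) H.K_le),
      x, k, fr, hx, inn, g, co.2.2.2.2.2⟩ w f w0 w2 D
  refine ⟨Ev, e1, ?_⟩
  rw [mul_left_comm]
  refine fr.bud (e2.trans ?_) le_rfl
  have := fr.E0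
  have := mul_nonneg x.Q0 fr.n20.le
  rw [mul_assoc]
  show _ * (_ * n5 p) ≤ _
  gcongr
  linarith

end Crest.Agent.T156.Alt.E35

end
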