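import Crest.Agent.T156.R1Fr_56

/-!
# Row 156, R1: the budgets `C2R` and `LinR` (helper56)
-/

set_option autoImplicit false
set_option linter.unusedSectionVars false

noncomputable section

namespace Crest.Agent.T156.Alt.SD56

open Real Finset
open Crest.Agent.T156.Cas Crest.Agent.T156.Cas.C40 Crest.Agent.T156.Alt.CIn12
open Crest.Agent.T156.Alt.Md67 Crest.Agent.T156.Alt.R62 Crest.Agent.T156.Alt.R77
open Crest.Agent.T156.Alt.R82 Crest.Agent.T156.Alt.Alg77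

namespace Fr

variable {E t a a' Q l Φ l0 Λ₀ Pt u1 V4 : ℝ} {p : Pm} {P : Pl} {m I : ℕ} {S : Sc} {Pf : ℝ → ℝ}
  (F : Fr E p P t a a' Q m S l Φ Pf l0 Λ₀ Pt u1 V4 I)
include F

theorem pw {i j : ℕ} (h : i ≤ j) : E ^ i ≤ E ^ j := pow_le_pow_right₀ F.E1' h

/-- a bound `x ≤ c E^i δ² n4` as a variance -/
theorem var_le {x c : ℝ} {i j : ℕ} (hx : x ≤ (1 / E ^ 200) ^ 2 * n4 p) (c0 : 0 ≤ c)
    (hc : c ≤ E ^ 2) (h : i + 2 ≤ 2 * j) :
    c * E ^ i * x / p.n ≤ (E ^ j * (1 / E ^ 200) * n2 p) ^ 2 := by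
  have E0 := F.E0
  have n0 := F.n0
  have n4' := F.n40
  rw [mul_pow, mul_pow, F.n2_sq, ← pow_mul, mul_assoc (E ^ (j * 2)), ← mul_div_assoc,
    ← mul_div_assoc]
  refine div_le_div_of_nonneg_right ?_ n0.le
  calc c * E ^ i * x ≤ E ^ 2 * E ^ i * ((1 / E ^ 200) ^ 2 * n4 p) :=
        (mul_le_mul_of_nonneg_left hx (by positivity)).trans (by gcongr)
    _ ≤ _ := by
      rw [← pow_add]
      exact mul_le_mul_of_nonneg_right (F.pw (by omega)) (by positivity)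

theorem mx_le {τ : ℝ} (h : l0 ≤ τ) : max τ l / τ ^ 2 ≤ l ^ 2 / l0 ^ 3 := by
  have a0 := F.l00
  have a1 := F.nr.l0l
  have τ0 := a0.trans_le h
  rw [div_le_div_iff₀ (by positivity) (by positivity)]
  rcases le_total τ l with c | c
  · rw [max_eq_right c]
    calc l * l0 ^ 3 = l * l0 * l0 ^ 2 := by ring
      _ ≤ l * l * τ ^ 2 := by have := a0.trans_le a1; gcongr
      _ = _ := by ring
  · rw [max_eq_left c]
    calc τ * l0 ^ 3 = l0 ^ 2 * (τ * l0) := by ring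
      _ ≤ l ^ 2 * (τ * τ) := by gcongr
      _ = _ := by ring

theorem lo_le : S.ms l0 * l ^ 3 ≤ 1 / E ^ 200 * n5 p := F.nr.l3 ▸ F.nr.a

theorem en_le : S.θ * u1 ≤ 1 / E ^ 200 * n5 p :=
  (mul_le_mul_of_nonneg_left F.nr.Pt0.2.2.2 F.θ0.le).trans F.nr.d

theorem C2 : S.C ^ 2 ≤ E ^ 2 := pow_le_pow_left₀ F.cl.C0.le F.sc.C 2

/-- **squares against a coefficient of the size of the mass** -/
theorem c2_le {c : ℕ → ℝ} (hc : ∀ k, p.jf < k → k ≤ p.Jp P → |c k| ≤ E * S.ms ((p.gst P t).s k)) :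
    m * |Da (p.gst P t) m a a' (Ioo S.jl (p.gst P t).N) fun s k =>
      c k * (p.gst P t).E2 m s (fun r => (r - (p.gst P t).q k) ^ 2) k| ≤ E⁻¹ * Bud p Q := by
  have E0 := F.E0
  have E1 := F.E1
  have n0 := F.n0
  have θ0 := F.θ0
  have l00 := F.l00
  have l0' := F.l0'
  have a2 := F.n20
  have a5 := F.n50
  have Q0 := F.W.Q0
  have m0 := F.cl.ms_pos l00.le
  have L0 : 0 ≤ Λ₀ := by linarith [F.nr.L1]
  have P0 := F.nr.Pt0
  have H := F.pf_of (B := fun y => E * S.ms y) (A := fun τ => E * (4 * |S.ms τ|))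
    (Al := E * S.ms l0) (At := E * S.θ) hc
    (fun y _ h => mul_le_mul_of_nonneg_left (F.cl.msm h) E0.le)
    (fun τ y h _ h2 => mul_le_mul_of_nonneg_left (((F.cl.msm h2).trans
      (F.cl.ms2 τ (l00.le.trans h))).trans (by linarith [le_abs_self (S.ms τ)])) E0.le)
    (fun y _ => mul_le_mul_of_nonneg_left (F.cl.ms1 y) E0.le) (by positivity)
    (fun τ => by positivity) (by positivity)
  have e1 : l ^ 2 / (p.n * l0 ^ 3) ≤ 1 / E ^ 200 * n5 p := le_trans (le_add_of_nonneg_right (by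
    positivity)) F.nr.e
  have e2 : Λ₀ / p.n ≤ 1 / E ^ 200 * n5 p := le_trans (le_add_of_nonneg_left (by positivity)) F.nr.e
  have K := F.W.sq_MK F.cl H l00.le F.hI (v := E ^ 3 * (1 / E ^ 200) * n2 p) (by positivity)
    (w := 4 * E ^ 2 * (1 / E ^ 200 * n5 p)) (by positivity) (by norm_num) F.pk
    (fun τ h1 h2 => by
      have τ0 := l00.trans_le h1
      have m1 := F.cl.ms_pos τ0.le
      refine le_trans (le_of_eq ?_) (F.var_le (x := S.ms τ * Pf τ / τ) (c := 16) (i := 3)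
        (le_trans ?_ (F.nr.b τ h1 h2)) (by norm_num) (by nlinarith) (by norm_num))
      · rw [F.w3_eq, abs_of_pos m1]; field_simp; ring
      · have := (F.nr.P0 τ).1
        rw [show S.ms τ * Pf τ / τ = S.ms τ * Pf τ * τ ^ 3 / τ ^ 4 by field_simp]
        gcongr
        exact le_max_left _ _)
    (by
      refine le_trans (le_of_eq ?_) (F.var_le (x := S.θ * Λ₀ * Pt) (c := 1) (i := 3)
        (le_trans ?_ F.nr.c) (by norm_num) (by nlinarith) (by norm_num))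
      · rw [F.w3_one]; field_simp
      · gcongr
        linarith [pow_pos F.r0 4])
    (fun τ h1 _ => by
      have τ0 := l00.trans_le h1
      have m1 := F.cl.ms_pos τ0.le
      calc _ = 4 * E ^ 2 * (max τ l / τ ^ 2 / p.n) := by
            rw [F.w3_eq, abs_of_pos m1]; field_simp
        _ ≤ 4 * E ^ 2 * (l ^ 2 / l0 ^ 3 / p.n) := mul_le_mul_of_nonneg_left
            (div_le_div_of_nonneg_right (F.mx_le h1) n0.le) (by positivity)
        _ ≤ _ := by rw [div_div, mul_comm (l0 ^ 3)]; gcongr)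
    (calc _ = 1 * E ^ 2 * (Λ₀ / p.n) := by rw [F.w3_one]; field_simp
      _ ≤ _ := by gcongr; norm_num)
  refine F.bud (α := E ^ 7) (K.trans ?_) (F.pw (by norm_num))
  have b1 : E * S.ms l0 * (E * l) ^ 2 * (S.C ^ 2 * l0) ≤ E ^ 5 * (1 / E ^ 200 * n5 p) :=
    calc _ ≤ E * S.ms l0 * (E * l) ^ 2 * (E ^ 2 * l) := mul_le_mul_of_nonneg_left
          (mul_le_mul F.C2 F.nr.l0l l00.le (by positivity)) (by positivity)
      _ = E ^ 5 * (S.ms l0 * l ^ 3) := by ring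
      _ ≤ _ := mul_le_mul_of_nonneg_left F.lo_le (by positivity)
  have b2 : E * (S.θ * u1) ≤ E ^ 5 * (1 / E ^ 200 * n5 p) :=
    mul_le_mul (le_self_pow₀ F.E1' (by norm_num)) F.en_le (mul_nonneg θ0.le P0.1) (by positivity)
  have b3 : (I + 1) * (4 * E ^ 2 * (1 / E ^ 200 * n5 p)) ≤ E ^ 2 * (4 * E ^ 3 * (1 / E ^ 200 * n5 p)) := by
    gcongr
    exacts [F.I1, F.E1', by norm_num]
  have b4 : Q * (4 * (√(I + 1) * (E ^ 3 * (1 / E ^ 200) * n2 p))) ≤
      Q * (E ^ 3 * (E * (E ^ 3 * (1 / E ^ 200) * n2 p))) := by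
    gcongr
    exacts [le_trans (by linarith) (le_self_pow₀ F.E1' (by norm_num)), F.rt]
  have b5 : 152 * (E ^ 5 * (1 / E ^ 200 * n5 p)) ≤ E ^ 2 * (E ^ 5 * (1 / E ^ 200 * n5 p)) := by
    gcongr
    nlinarith
  linarith

/-- the density scale -/
theorem mt_le {y x : ℝ} (hy : S.ms y ≤ x) {w : ℝ} (w0 : 0 < w) (hw : w ≤ max y p.r) (x0 : 0 ≤ x) :
    R82.mt p t y ≤ x / w := by
  rw [R82.mt, ← F.sc.ms]
  exact div_le_div₀ x0 hy w0 hw

theorem mt0 {y : ℝ} (hy : 0 ≤ y) : 0 ≤ R82.mt p t y := by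
  rw [R82.mt, ← F.sc.ms]
  exact div_nonneg (F.cl.ms_pos hy).le (hy.trans (le_max_left _ _))

/-- **linear terms against the size of the linear residual** -/
theorem lin_le {c : ℕ → ℝ} (hc : ∀ k, p.jf < k → k ≤ p.Jp P → |c k| ≤
      E * (R82.mt p t ((p.gst P t).s k) * p.r ^ 2 + S.θ * |(p.gst P t).G k|)) :
    m * |Da (p.gst P t) m a a' (Ioo S.jl (p.gst P t).N) fun s k =>
      c k * ((p.gst P t).rb m s k - (p.gst P t).q k)| ≤ E⁻¹ * Bud p Q := by
  have E0 := F.E0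
  have E1 := F.E1
  have n0 := F.n0
  have θ0 := F.θ0
  have θ1 := F.θ1
  have l00 := F.l00
  have l0' := F.l0'
  have a2 := F.n20
  have a5 := F.n50
  have Q0 := F.W.Q0
  have r0 := F.r0
  have r1 := F.ry.trans F.y1
  have m0 := F.cl.ms_pos l00.le
  have L0 : 0 ≤ Λ₀ := by linarith [F.nr.L1]
  have P0 := F.nr.Pt0
  have T1 := F.T0_ge
  have T0' : 0 < T0 S (p.gst P t) := by
    by_contra h
    nlinarith [mul_nonneg (show 0 ≤ 48 * E ^ 4 by positivity) (neg_nonneg.2 (not_lt.1 h))]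
  obtain ⟨G0, K0⟩ := F.bk a F.W.lo
  have d1 : ∀ {y x : ℝ}, S.ms y ≤ x → 0 ≤ x → R82.mt p t y * p.r ^ 2 ≤ x * p.r := fun h x0 =>
    (mul_le_mul_of_nonneg_right (F.mt_le h r0 (le_max_right _ _) x0) (sq_nonneg _)).trans
      (le_of_eq (by field_simp))
  have g1 : ∀ k, p.jf < k → k ≤ p.Jp P → |c k| ≤ 2 * E ^ 2 * S.θ := fun k h1 h2 => by
    have a := K0.gup k (F.sc.jl ▸ h1) (F.sc.Jp ▸ h2)
    have b := (d1 (F.cl.ms1 ((p.gst P t).s k)) θ0.le).trans
      (mul_le_mul_of_nonneg_left (r1.trans F.E1') θ0.le)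
    refine (hc k h1 h2).trans ((mul_le_mul_of_nonneg_left (add_le_add b
      (mul_le_mul θ1 a (abs_nonneg _) zero_le_one)) E0.le).trans (le_of_eq (by ring)))
  have H : SD56.Pf S (p.gst P t) l0 u1 c (E * (S.ms l0 * p.r)) (fun _ => 2 * E ^ 2 * S.θ)
      (2 * E ^ 2 * S.θ) := by
    refine ⟨fun k hk => ?_, fun τ _ _ k hk => g1 k (F.rng_sb hk).1 (F.rng_sb hk).2,
      fun k hk h => g1 k (F.rng_top hk) (F.sc.Jp ▸ h), by positivity, fun _ => by positivity,
      by positivity⟩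
    have a : (p.gst P t).s k ≤ 1 / E := by
      refine (mem_filter.1 hk).2.le.trans (F.nr.l0l.trans (F.nr.ly.trans ?_))
      exact (mul_le_of_le_one_right (by positivity) F.y1).trans
        (one_div_le_one_div_of_le E0 (le_self_pow₀ F.E1' (by norm_num)))
    refine (hc k (F.rng_lz hk).1 (F.rng_lz hk).2).trans ?_
    rw [K0.glo k (F.sc.jl ▸ (F.rng_lz hk).1) a, abs_zero, mul_zero, add_zero]
    exact mul_le_mul_of_nonneg_left (d1 (F.ms_low hk) m0.le) E0.le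
  have H1 := F.pf_of (c := fun k => R82.mt p t ((p.gst P t).s k) * p.r ^ 2)
    (B := fun y => |R82.mt p t y * p.r ^ 2|) (A := fun τ => 4 * |S.ms τ / τ| * p.r ^ 2)
    (Al := S.ms l0 * p.r) (At := 48 * E ^ 4 * S.θ * p.r ^ 2) (fun _ _ _ => le_rfl)
    (fun y h0 h => by
      rw [abs_of_nonneg (mul_nonneg (F.mt0 h0) (sq_nonneg _))]
      exact d1 (F.cl.msm h) m0.le)
    (fun τ y h h1 h2 => by
      have τ0 := l00.trans_le h
      have m1 := F.cl.ms_pos τ0.le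
      rw [abs_of_nonneg (mul_nonneg (F.mt0 (τ0.le.trans h1)) (sq_nonneg _)),
        abs_of_pos (div_pos m1 τ0), ← mul_div_assoc]
      exact mul_le_mul_of_nonneg_right (F.mt_le ((F.cl.msm h2).trans (F.cl.ms2 τ τ0.le)) τ0
        (h1.trans (le_max_left _ _)) (by positivity)) (sq_nonneg _))
    (fun y h => by
      rw [abs_of_nonneg (mul_nonneg (F.mt0 (T0'.le.trans h)) (sq_nonneg _))]
      refine mul_le_mul_of_nonneg_right ((F.mt_le (F.cl.ms1 y) T0' (h.trans (le_max_left _ _))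
        θ0.le).trans ?_) (sq_nonneg _)
      rw [div_le_iff₀ T0']
      nlinarith)
    (by positivity) (fun τ => by positivity) (by positivity)
  set v := E ^ 6 * (1 / E ^ 200) * n2 p with hv
  have v0 : 0 < v := by positivity
  have K := F.W.lin_le (pos_of S _) (gd_sub (l0 := l0) (u1 := u1) F.cl) c (p.gst P t).q
    (V := 2 * E ^ 2 * v) (by positivity)
    (A := 2 ^ (1 + 1) * (E * (S.ms l0 * p.r) * (E * l) ^ 1 * (S.C ^ 2 * l0) +
      2 * E ^ 2 * S.θ * 2 ^ 1 * (2 * u1))) (fun s hs => ?_) fun s hs => ?_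
  · refine F.bud (α := E ^ 9) (K.trans ?_) (F.pw (by norm_num))
    have b1 : E * (S.ms l0 * p.r) * (E * l) ^ 1 * (S.C ^ 2 * l0) ≤ E ^ 4 * (1 / E ^ 200 * n5 p) :=
      calc _ ≤ E * (S.ms l0 * l) * (E * l) ^ 1 * (E ^ 2 * l) := mul_le_mul (by
            gcongr; exact F.nr.r0.trans F.nr.l0l)
            (mul_le_mul F.C2 F.nr.l0l l00.le (by positivity)) (by positivity) (by positivity)
        _ = E ^ 4 * (S.ms l0 * l ^ 3) := by ring
        _ ≤ _ := mul_le_mul_of_nonneg_left F.lo_le (by positivity)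
    have b2 : E ^ 2 * (S.θ * u1) ≤ E ^ 4 * (1 / E ^ 200 * n5 p) :=
      mul_le_mul (F.pw (by norm_num)) F.en_le (mul_nonneg θ0.le P0.1) (by positivity)
    have b4 : Q * (4 * (E ^ 2 * v)) ≤ Q * (E * (E ^ 2 * v)) := by gcongr; linarith
    have b5 : 72 * (E ^ 4 * (1 / E ^ 200 * n5 p)) ≤ E ^ 5 * (E ^ 4 * (1 / E ^ 200 * n5 p)) := by
      gcongr
      exact le_trans (by linarith) (le_self_pow₀ F.E1' (by norm_num))
    rw [hv] at b4 ⊢
    linarith
  · obtain ⟨G, K⟩ := F.bk s hs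
    have j1 := F.W.ja_le F.cl H1 l00.le F.hI v0.le hs K.mk'.a0 K.mk'.c0
      (fun τ h1 h2 => by
        have τ0 := l00.trans_le h1
        have m1 := F.cl.ms_pos τ0.le
        refine le_trans (le_of_eq ?_) (F.var_le (c := 16) (i := 1) (F.nr.f τ h1 h2) (by norm_num)
          (by nlinarith) (by norm_num))
        rw [F.w3_eq, abs_of_pos (div_pos m1 τ0)]; field_simp; norm_num)
      (by
        refine le_trans (le_of_eq ?_) (F.var_le (x := S.θ * Λ₀ * p.r ^ 4) (c := 48 ^ 2) (i := 9)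
          (le_trans ?_ F.nr.c) (by norm_num) (by nlinarith) (by norm_num))
        · rw [F.w3_one]; field_simp
        · gcongr
          linarith)
    have j0 : ∀ k ∈ Ioo S.jl (p.gst P t).N, 0 ≤ (p.gst P t).dz m s k *
        JA (p.gst P t) m s 0 ((p.gst P t).q k) k := fun k hk =>
      mul_nonneg (F.W.dz0 s (pos_of S _ k hk)) (JA_nonneg (F.W.lg hs) _ _ _)
    have j2 : S.θ ^ 2 * ∑ k ∈ gd S (p.gst P t) l0 u1, (p.gst P t).dz m s k *
        ((p.gst P t).G k ^ 2 * ja (p.gst P t) m s 0 k) ≤ v ^ 2 := by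
      refine le_trans (mul_le_mul_of_nonneg_left ((sum_le_sum_of_subset_of_nonneg
        (fun k hk => mem_sdiff.2 ⟨gd_sub F.cl hk, fun e => ?_⟩) fun k hk _ => ?_).trans K.gsq)
        (sq_nonneg _)) (le_trans (le_of_eq ?_) (F.var_le (x := S.θ ^ 2 * (S.θ * Λ₀ * Pt)) (c := 1)
          (i := 1) (le_trans ?_ F.nr.c) (by norm_num) (by nlinarith) (by norm_num)))
      · obtain ⟨e1, e2⟩ := mem_sdiff.1 e
        rcases mem_union.1 hk with h | h
        · exact absurd (mem_Ico.1 e1).1 (mem_Ioo.1 (mem_filter.1 h).1).2.not_ge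
        · exact e2 h
      · rw [mul_left_comm]
        exact mul_nonneg (sq_nonneg _) (j0 k (mem_sdiff.1 hk).1)
      · rw [F.w3_one]; field_simp
      · have := P0.1.trans P0.2.1
        refine (mul_le_of_le_one_left (by positivity) (pow_le_one₀ θ0.le θ1)).trans ?_
        gcongr
        linarith [pow_pos r0 4]
    have j3 : (√(I + 1) * v) ^ 2 ≤ (E * v) ^ 2 := by gcongr; exact F.rt
    have j4 : v ^ 2 ≤ (E * v) ^ 2 := by gcongr; exact le_mul_of_one_le_left v0.le F.E1'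
    refine (sum_le_sum (g := fun k => 2 * E ^ 2 * ((p.gst P t).dz m s k *
      (R82.mt p t ((p.gst P t).s k) * p.r ^ 2) ^ 2 * JA (p.gst P t) m s 0 ((p.gst P t).q k) k +
      S.θ ^ 2 * ((p.gst P t).dz m s k * ((p.gst P t).G k ^ 2 * ja (p.gst P t) m s 0 k))))
      fun k hk => ?_).trans ?_
    · have hk' := mem_Ioo.1 (gd_sub F.cl hk)
      have k2 : k ≤ p.Jp P := by
        rcases mem_union.1 hk with h | h
        · exact F.sc.Jp ▸ (mem_Ioo.1 (mem_filter.1 h).1).2.le.trans F.cl.i3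
        · exact F.sc.Jp ▸ (mem_pl.1 h).1.2.le
      have a := pow_le_pow_left₀ (abs_nonneg _) (hc k (F.sc.jl ▸ hk'.1) k2) 2
      have b : c k ^ 2 ≤ 2 * E ^ 2 * ((R82.mt p t ((p.gst P t).s k) * p.r ^ 2) ^ 2 +
          S.θ ^ 2 * (p.gst P t).G k ^ 2) := by
        rw [sq_abs, mul_pow] at a
        rw [← sq_abs ((p.gst P t).G k), ← mul_pow]
        nlinarith [mul_nonneg (sq_nonneg E) (sq_nonneg (R82.mt p t ((p.gst P t).s k) * p.r ^ 2 -
          S.θ * |(p.gst P t).G k|))]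
      refine le_trans (le_of_eq (by ring)) ((mul_le_mul_of_nonneg_right b
        (j0 k (gd_sub F.cl hk))).trans (le_of_eq ?_))
      change _ = 2 * E ^ 2 * (_ + _ * (_ * (_ * JA (p.gst P t) m s 0 ((p.gst P t).q k) k)))
      ring
    · rw [← mul_sum, sum_add_distrib, ← mul_sum]
      calc _ ≤ 2 * E ^ 2 * ((E * v) ^ 2 + (E * v) ^ 2) := by gcongr <;> linarith
        _ = _ := by ring
  · obtain ⟨G, K⟩ := F.mkk s hs
    refine bad K F.cl H l00.le (by omega) fun k => ?_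
    simp only [pow_one]
    refine le_trans (le_of_eq ?_) (abs_E2_le (fun R => R - (p.gst P t).q k) k)
    rw [E2_sub, E2_const]; rfl

end Fr

/-- **`C2R`** -/
theorem from_C2R : From C2R := fun _ hβ hC hK =>
  Sml.gain (Sml.glue' hβ (hC.and (frS hβ hK)) 2 one_pos 1 fun _ _ _ _ _ _ _ _ _ =>
    ⟨0, fun p _ _ _ _ ⟨C, F⟩ σ σ' P t a a' Q m x => by
      obtain ⟨S, l, Φ, Pf, l0, Λ₀, Pt, u1, V4, I, F⟩ := F σ σ' P t a a' Q m x
      beta_reduce
      rw [F.W.I_u2 (Nat.succ_pos _), F.t_Da, F.up_eq]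
      exact F.c2_le fun k h1 h2 => by
        rw [abs_mul, abs_of_pos F.fx.t0, F.sc.ms]
        exact C.2.1 σ σ' P t a a' Q m x a F.W.lo k h1 h2⟩)

/-- **`LinR`** -/
theorem from_LinR : From LinR := fun _ hβ hC hK =>
  Sml.gain (Sml.glue' hβ (hC.and (frS hβ hK)) 2 one_pos 1 fun _ _ _ _ _ _ _ _ _ =>
    ⟨0, fun p _ _ _ _ ⟨C, F⟩ σ σ' P t a a' Q m x => by
      obtain ⟨S, l, Φ, Pf, l0, Λ₀, Pt, u1, V4, I, F⟩ := F σ σ' P t a a' Q m x
      beta_reduce
      rw [F.W.I_del (Nat.succ_pos _), F.t_Da, F.up_eq]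
      exact F.lin_le fun k h1 h2 => by
        rw [abs_mul, abs_of_pos F.fx.t0, F.th]
        exact C.2.2.2.1 σ σ' P t a a' Q m x a F.W.lo k h1 h2⟩)

end Crest.Agent.T156.Alt.SD56

end
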