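import Crest.Agent.T156.ErrRE_35
import Crest.Agent.T156.R1C2_56

/-!
# Row 156, R1: the number leaf of the error table (helper4)
-/

set_option autoImplicit false

noncomputable section

namespace Crest.Agent.T156.Alt.E35

open Real Finset Pre29
open Crest.Agent.T156.Alt.R62 Crest.Agent.T156.Alt.R77 Crest.Agent.T156.Alt.R82

/-- **the numbers of the blocks** -/
theorem nuG : NuG := fun d h w B lev tt al A Q => by
  have H := h.H
  have F := h.fr
  have M := h.cx.mem
  have X := h.km.nx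
  have c0 := H.c_pos
  have η0 := H.η_pos
  have hη := h.hη
  have hc := h.hc
  have E0 := F.E0
  have E1 := F.E1
  have n0 := H.N0
  have l0 := F.l0'
  have s0 := H.s0
  have θ0 := F.θ0
  have lE : logb d.p.n d.E = d.η := H.lg_rp _
  have l1 : d.b.l ≤ 1 := (F.nr.ly.trans (mul_le_of_le_one_left F.fx.y0.le
    ((div_le_one (pow_pos E0 _)).2 (one_le_pow₀ F.E1')))).trans F.y1
  have Φ0 : 0 < d.b.Φ := F.nr.l3 ▸ pow_pos l0 3
  have ph : d.b.Φ ≤ (d.p.n : ℝ) ^ (d.c / 1000) * d.p.PhG ((d.p.n : ℝ) ^ (d.c / 1000)) d.t :=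
    H.hc ▸ X.ph
  have e1 : 1 ≤ (d.p.n : ℝ) ^ (d.c / 1000) := one_le_rpow H.N1.le (by positivity)
  have jv : (d.S.jl : ℝ) * d.S.v = d.p.jf * d.p.v := by rw [F.sc.jl, F.sc.v]
  have t0 : ∀ i, 0 < tt i := fun i => (H.jfv0.trans_le (jv ▸ Q.t0)).trans_le (Q.tm (Nat.zero_le i))
  have L0 : 0 < d.b.Λ₀ := by linarith [h.km.kn.L1.1, h.km.kn.L1.2.1]
  have l5 : logb d.p.n d.δ = -(200 * d.η) - 5 / 6 + 5 * logb d.p.n d.p.s := by
    rw [Dt.δ, n5]; lg_norm; rw [H.lg_n]; ring
  have δ0 : 0 < d.δ := by have := F.n50; positivity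
  refine ⟨fun cc e h1 h2 => H.nbH hc (by linarith) (by linarith) M e1 le_rfl (one_le_pow₀ F.E1')
    (H.le_of_lg (by positivity) (by positivity) (by lg_norm; rw [H.lg_n]; linarith)) l0 l1
    (F.nr.l3 ▸ ph) Q.tm ?_ (fun i _ => (Q.tL i).trans (F.pw (by norm_num)))
    (Q.BL.trans (by rw [← pow_mul]; exact F.pw (by norm_num))) (fun i _ => h1 i) (fun i _ => h2 i)
    (fun _ _ => le_rfl) Q.bp.al0 fun i hi => ?_, fun N N1 N3 i hi => ?_, ?_, ?_⟩
  · refine le_trans ?_ (H.jf_bds.1.trans (jv ▸ Q.t0))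
    exact (rp_le H.n1 (by linarith)).trans (le_mul_of_one_le_left (H.rp0 _).le H.ok.s1)
  · have a := t0 i
    have k : ∀ {y z : ℝ}, 0 ≤ z → y ≤ d.E ^ 27 * z → y ≤ d.E ^ 40 * z := fun z0 e =>
      e.trans (mul_le_mul_of_nonneg_right (F.pw (by norm_num)) z0)
    rcases Q.sz i hi with ⟨e, e'⟩ | ⟨e, e'⟩ | ⟨e, e'⟩
    · rw [F.sc.F, mul_one, F.sc.n, F.sc.ms] at e
      have := H.msG_pos M (tt i)
      exact .inl (.inl ⟨k (by positivity) e, k (by positivity) e'⟩)
    · refine .inr ⟨e.trans ?_, k (by positivity) e'⟩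
      have := H.jfv0
      have := H.rj0
      rw [jv]
      refine H.le_of_lg (by positivity) (by positivity) ?_
      rw [logb_mul (by positivity) (by positivity), logb_mul (by positivity) (by positivity),
        logb_mul (by positivity) H.rj0.ne', logb_pow, lE, H.lg_rj]
      push_cast
      linarith [H.lg_jf.2, (H.lg_num (x := 4) (by norm_num) (by norm_num)).2]
    · refine .inl (.inr ⟨F.y1.trans e, e'.trans ?_⟩)
      rw [Dt.T, F.th, ← mul_div_assoc]
      refine div_le_div_of_nonneg_right ((mul_le_mul_of_nonneg_left X.L0 (by positivity)).trans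
        (H.le_of_lg (by positivity) (by positivity) ?_)) (mul_pos n0 (H.muG_pos M)).le
      lg_norm
      rw [H.lg_n]
      linarith
  · have a := t0 i
    have N0 : 0 ≤ N := (sq_nonneg _).trans N1
    have l4 : d.b.l ^ 4 ≤ N ^ 2 := by
      rw [show d.b.l ^ 4 = (d.b.l ^ 2) ^ 2 by ring]; gcongr
    refine (abs_le_of_sq_le_sq' ?_ (by positivity)).2
    rw [mul_pow, ← pow_mul]
    have k : ∀ {j : ℕ} {z : ℝ}, j ≤ 24 * 2 → z ≤ N ^ 2 → al i ^ 2 ≤ d.E ^ j * z →
        al i ^ 2 ≤ d.E ^ (24 * 2) * N ^ 2 := fun hj hz e =>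
      (e.trans (mul_le_mul_of_nonneg_left hz (by positivity))).trans
        (mul_le_mul_of_nonneg_right (F.pw hj) (by positivity))
    rcases Q.sz i hi with ⟨e, e'⟩ | ⟨e, e'⟩ | ⟨-, e'⟩
    · rcases le_total (tt i) d.b.l with c | c
      · refine k (by norm_num) (le_trans ?_ l4) e'
        rw [max_eq_right c]
        calc _ ≤ d.b.l ^ 2 * d.b.l ^ 2 := by gcongr
          _ = _ := by ring
      · rw [F.sc.F, mul_one, max_eq_left c, F.sc.n] at e
        refine k (by norm_num) (le_trans ?_ l4) e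
        have m0 := F.cl.ms_pos l0.le
        have m1 := F.cl.msm c
        have w0 := F.nr.w0 d.b.l (by linarith [F.nr.l0l, F.l00]) (l1.trans F.cl.C1)
        rw [F.w3_eq] at w0
        calc _ ≤ tt i / (d.p.n * tt i * d.S.ms d.b.l) := by gcongr
          _ = d.b.l * (1 / (d.p.n * d.b.l * d.S.ms d.b.l)) := by field_simp
          _ ≤ d.b.l * d.b.l ^ 3 := by gcongr
          _ = _ := by ring
    · have b : tt i ≤ d.E ^ 3 * d.b.l :=
        calc _ ≤ 4 * d.E * (d.E * d.b.l) := e.trans (mul_le_mul_of_nonneg_left w.jv (by positivity))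
          _ ≤ d.E * d.E * (d.E * d.b.l) := by gcongr; linarith
          _ = _ := by ring
      have b' : max (tt i) d.b.l ≤ d.E ^ 3 * d.b.l :=
        max_le b (le_mul_of_one_le_left l0.le (one_le_pow₀ F.E1'))
      refine k (j := 39) (by norm_num) l4 (e'.trans ?_)
      calc _ ≤ d.E ^ 27 * ((d.E ^ 3 * d.b.l) ^ 2 * (d.E ^ 3 * d.b.l) ^ 2) := by gcongr
        _ = _ := by ring
    · exact k (by norm_num) ((F.th ▸ X.Lw).trans N3) e'
  · have a1 := H.lamG_pos M H.ye0
    have a2 := H.dlG_pos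
    have b1 := H.lg_thetaG (ε := d.c / 1000) (by linarith) (by linarith) M e1 le_rfl Φ0 ph
    have b2 := (H.lg_PhG_bds (ε := d.c / 1000) (by linarith) (by linarith) M e1 le_rfl).2
    have b3 := H.lg_mono Φ0 ph
    rw [logb_mul (H.rp0 _).ne' (H.PhG0 M (by positivity)).ne', H.lg_rp] at b3
    obtain ⟨-, b4, -, b5⟩ := H.lg_lamG M H.ye0
    refine H.le_of_lg (by positivity) δ0 ?_
    rw [l5]
    lg_norm
    rw [H.lg_n, H.lg_dlG]
    rcases (H.lg_muG66 M).1 with b6 | b6 <;> linarith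
  · have a2 := H.dlG_pos
    refine H.le_of_lg (by positivity) δ0 ?_
    rw [l5]
    lg_norm
    rw [H.lg_n, H.lg_dlG]
    linarith

end Crest.Agent.T156.Alt.E35

end
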