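import Crest.Agent.T156.ErrRE_35

/-!
# Row 156, R1 (helper52): the mesh and size fields of `E35.Dt.Pw`
-/

set_option autoImplicit false
set_option linter.unusedSectionVars false

noncomputable section

namespace Crest.Agent.T156.Alt.E35.Pw52

open Real Finset
open Crest.Agent.T156.Cas Crest.Agent.T156.Cas.C40 Crest.Agent.T156.Alt.CIn12
open Crest.Agent.T156.Alt.Md67 Crest.Agent.T156.Alt.R62 Crest.Agent.T156.Alt.R77
open Crest.Agent.T156.Alt.R82 Crest.Agent.T156.Alt.Lb24 Crest.Agent.T156.Alt.SD56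
open Crest.Agent.T156.Alt.Alg77

variable (d : Dt) (h : d.Ok)
include h

theorem dz_hi {k : ℕ} (hk : d.S.Jp < k) : d.M.dz d.m d.x k = 0 := by
  rw [dz_up h.fr.fx.leg (by omega), h.fr.cl.top k hk.le, h.fr.cl.top (k - 1) (by omega), sub_self]

theorem dz : ∀ k, d.S.jl < k → k < d.M.N → d.M.dz d.m d.x k ≤ 1 / d.p.n := fun k k0 _ => by
  have H := h.H
  have cl := h.fr.cl
  have N0 := H.N0
  have v0 := H.v0
  have A4 : (4 : ℝ) ≤ d.A := by exact_mod_cast h.A4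
  have eta : d.η ≤ 1 / 200 := H.η_le.trans H.c_le
  have i1 := cl.i1
  have i2 := cl.i2
  have ej : d.S.jl = d.p.jf := rfl
  have eJ : d.S.J = d.p.J := rfl
  have eP : d.S.Jp = d.p.J + d.P.I := rfl
  rcases lt_trichotomy k d.S.Jp with a | a | a
  · rw [dz_up h.fr.fx.leg (by omega)]
    rcases lt_or_ge k d.S.J with b | b
    · have c := (cl.zs (k - 1) (by omega) (by omega)).2
      rw [Nat.sub_add_cancel (by omega)] at c
      refine c.trans ((mul_le_mul_of_nonneg_right h.fr.sc.C cl.v0.le).trans ?_)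
      have L0 := H.Λ0
      refine H.le_of_lg (x := d.E * d.p.v) (by positivity) (by positivity) ?_
      lg_norm
      rw [H.lg_n]
      linarith [H.lg_v_le]
    · have M := H.mtG_mem (Gr29.oct_mem h.cx.oct).1
      have c := Plt13.x_mesh (h.km.gd.nb.la _ M.1 M.2).1 h.cx.pl.ok (i := k - d.p.J)
        (show k - d.p.J < d.P.I by omega)
      have e1 : d.M.z k = d.P.x (k - d.p.J + 1) := by
        rw [gst_z _ _ _ (by omega), Pm.zP, if_neg (by omega), if_pos (show k < d.p.Jp d.P from a)]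
        congr 1
        omega
      have e2 : d.M.z (k - 1) = d.P.x (k - d.p.J) := by
        rw [gst_z _ _ _ (by omega), Pm.zP]
        split_ifs with u u'
        · rw [show k - d.p.J = 0 by omega, show k - 1 = d.p.J - 1 by omega]
          exact h.cx.pl.ok.x0.symm
        · congr 1
          omega
        · exact absurd (show k - 1 < d.S.Jp by omega) u'
      rw [e1, e2]
      refine le_trans c (H.le_of_lg (by positivity) (by positivity) ?_)
      lg_norm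
      linarith [H.lg_v_le, H.lg_n, (H.lg_num (x := 624) (by norm_num) (by norm_num)).2]
  · rw [dz_up h.fr.fx.leg (by omega), cl.top k a.ge, a]
    refine cl.last.trans ?_
    rw [one_div, ← rpow_neg_one]
    exact rpow_le_rpow_of_exponent_le H.N1.le (by norm_num)
  · rw [dz_hi d h a]
    positivity

theorem r_le : d.p.r ≤ d.b.l := h.fr.nr.r0.trans h.fr.nr.l0l

theorem n_r : 1 / (d.p.n : ℝ) ≤ d.p.r ^ 6 := by
  have H := h.H
  have N0 := H.N0
  have r0 := H.r0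
  refine H.le_of_lg (by positivity) (by positivity) ?_
  lg_norm
  linarith [H.lg_r, H.lg_n, H.lg_s.1, H.c_pos]

theorem gq : ∀ k, d.S.jl < k → k < d.M.N → d.M.dz d.m d.x k ≠ 0 →
    (D0 d.p d.P d.t d.m d.x).gq (k + 1) ≤ |d.M.G k| + 2 * d.E ^ 2 * d.b.l ^ 2 := fun k k0 _ e => by
  have k1 : k ≤ d.S.Jp := not_lt.1 fun u => e (dz_hi d h u)
  have r0 := h.H.r0
  have E1 := h.fr.E1'
  have a := (h.co _ _ _ _ _ _ _ _ h.cx d.x h.hx k k0 k1).2
  have b : d.M.s k ≤ d.E := (h.fr.cl.s_le_C k1).trans h.fr.sc.C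
  have c : d.p.r ^ 2 ≤ d.b.l ^ 2 := pow_le_pow_left₀ r0.le (r_le d h) 2
  have f : 1 / (d.p.n : ℝ) ≤ d.E * d.b.l ^ 2 := ((n_r d h).trans ((pow_le_pow_of_le_one r0.le
    (h.fr.ry.trans h.fr.y1) (by norm_num)).trans c)).trans (le_mul_of_one_le_left (sq_nonneg _) E1)
  have g := mul_le_mul b c (sq_nonneg _) (by linarith)
  have := mul_le_mul_of_nonneg_left (add_le_add g f) (show 0 ≤ d.E by linarith)
  exact a.trans (by linarith)

theorem J8 : 8 * d.p.ye ≤ ((d.S.J - 1 : ℕ) : ℝ) * d.p.v := by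
  have H := h.H
  have cl := h.fr.cl
  have L0 := H.Λ0
  have y0 := H.ye0
  have v0 := H.v0
  have i2 := cl.i2
  have a := h.fr.T0_ge
  have b := (cl.s_bds le_rfl).2
  have c : (d.S.J : ℝ) ≤ 2 * ((d.S.J - 1 : ℕ) : ℝ) := by exact_mod_cast (by omega)
  have e : d.M.s d.S.J ≤ 2 * ((d.S.J - 1 : ℕ) : ℝ) * (d.E * d.p.v) :=
    b.trans (mul_le_mul c (mul_le_mul_of_nonneg_right h.fr.sc.C v0.le)
      (mul_nonneg cl.C0.le cl.v0.le) (by positivity))
  have f : 48 * d.E ^ 5 * d.p.ye ≤ 1 := H.le_of_lg (by positivity) one_pos (by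
    lg_norm
    linarith [H.lg_ye, show logb d.p.n d.E = d.η from H.lg_rp _, h.hη, H.η_pos,
      (H.lg_num (x := 48) (by norm_num) (by norm_num)).2])
  have g := mul_le_mul_of_nonneg_left e (show 0 ≤ 3 * d.E ^ 4 by positivity)
  rw [T0] at a
  exact le_of_mul_le_mul_left (a := 6 * d.E ^ 5) (by linarith) (by positivity)

theorem j8 : 8 * d.S.jl < d.S.J := by
  have a : (8 * d.p.jf : ℝ) * d.p.v ≤ ((d.S.J - 1 : ℕ) : ℝ) * d.p.v := by
    linarith [J8 d h, h.fr.fx.jr, h.fr.ry]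
  have b : 8 * d.p.jf ≤ d.S.J - 1 := by exact_mod_cast le_of_mul_le_mul_right a h.H.v0
  have := h.fr.cl.i2
  have ej : d.S.jl = d.p.jf := rfl
  omega

theorem jv : d.S.jl * d.S.v ≤ d.E * d.b.l :=
  (h.fr.fx.jr.trans (r_le d h)).trans (le_mul_of_one_le_left h.fr.l0'.le h.fr.E1')

theorem card : (d.M.N : ℝ) ≤ (d.p.n : ℝ) ^ (d.A + 1) := h.H.hA ▸ h.fr.cl.card

theorem tl : √(tlD d.S 3) ≤ d.b.Φ ∧ tlD d.S 3 ≤ 1 ∧ ((d.M.N : ℝ) + 2) ^ 2 * tlD d.S 3 ≤ d.δ := by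
  have H := h.H
  have N0 := H.N0
  have N1 := H.N1.le
  have r0 := H.r0
  have l0 := h.fr.l0'
  have L0 := H.Λ0
  have s0 := H.s0
  have A4 : (4 : ℝ) ≤ d.A := by exact_mod_cast h.A4
  have e : tlD d.S 3 = (((d.p.n : ℝ) ^ (d.A + 1)) ^ 3)⁻¹ := by
    rw [tlD, ← pow_mul', ← H.hA]; rfl
  have W1 : (1 : ℝ) ≤ (d.p.n : ℝ) ^ (d.A + 1) := one_le_pow₀ N1
  have a : tlD d.S 3 ≤ 1 / d.p.n := by
    rw [e, one_div]
    exact inv_anti₀ N0 ((le_self_pow₀ N1 (by omega)).trans (le_self_pow₀ W1 (by norm_num)))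
  refine ⟨?_, a.trans ((div_le_one N0).2 N1), ?_⟩
  · rw [← h.fr.nr.l3]
    refine sqrt_le_iff.2 ⟨by positivity, (a.trans (n_r d h)).trans ?_⟩
    rw [← pow_mul]
    exact pow_le_pow_left₀ r0.le (r_le d h) _
  · have b : ((d.M.N : ℝ) + 2) ^ 2 ≤ (3 * (d.p.n : ℝ) ^ (d.A + 1)) ^ 2 :=
      pow_le_pow_left₀ (by positivity) (by linarith [card d h]) 2
    refine (mul_le_mul_of_nonneg_right b (tlD_nn _ _)).trans ?_
    rw [e, show (3 * (d.p.n : ℝ) ^ (d.A + 1)) ^ 2 * (((d.p.n : ℝ) ^ (d.A + 1)) ^ 3)⁻¹ =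
      9 / (d.p.n : ℝ) ^ (d.A + 1) by field_simp; norm_num, Dt.δ, n5]
    refine H.le_of_lg (by positivity) (by positivity) ?_
    lg_norm
    rw [H.lg_n]
    push_cast
    linarith [H.lg_s.1, h.hη, h.hc, H.η_pos, (H.lg_num (x := 9) (by norm_num) (by norm_num)).2]

theorem lg : log ((d.M.N : ℝ) + 3) ≤ d.E ^ 2 := by
  have H := h.H
  have N0 := H.N0
  have W1 : (1 : ℝ) ≤ (d.p.n : ℝ) ^ (d.A + 1) := one_le_pow₀ H.N1.le
  have a : (d.M.N : ℝ) + 3 ≤ (d.p.n : ℝ) ^ (d.A + 3) := by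
    have := mul_le_mul_of_nonneg_left (show (4 : ℝ) ≤ (d.p.n : ℝ) ^ 2 by nlinarith [H.N3])
      (zero_le_one.trans W1)
    rw [← pow_add] at this
    linarith [card d h]
  refine (log_le_log (by positivity) a).trans ?_
  rw [log_pow, sq]
  refine mul_le_mul ?_ H.log_le (by linarith [H.log1]) H.Λ0.le
  have := H.K_le
  have : (0 : ℝ) ≤ d.A := Nat.cast_nonneg _
  push_cast
  linarith

end Crest.Agent.T156.Alt.E35.Pw52

end
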