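import Crest.Agent.T156.ErPwB_52

/-!
# Row 156, R1: pointwise facts of the error table (helper21)
-/

set_option autoImplicit false

noncomputable section

namespace Crest.Agent.T156.Alt.E35.Pw21

open Real Finset

variable {d : Dt} (h : d.Ok)
include h

theorem zj : d.M.z d.S.jl ≤ d.E ^ 2 * d.b.l := by
  have F := h.loc.bk.fn
  have C0 := F.C0
  have C1 := F.C1
  have jl := F.toCl.jl_lt
  have a1 := F.z_le_s F.i1 jl
  have a2 := (F.s_mem jl.le).1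
  have a3 : d.S.v ≤ d.S.jl * d.S.v :=
    le_mul_of_one_le_left F.v0.le (by exact_mod_cast F.i0.trans F.i1)
  have a4 := h.fr.nr.jl.trans h.fr.nr.l0l
  have s0 := F.s_nonneg d.S.jl
  have a5 : d.S.C ^ 2 ≤ d.E ^ 2 := pow_le_pow_left₀ C0.le h.fr.sc.C 2
  have a6 := mul_le_mul_of_nonneg_right a5 h.fr.l0'.le
  have a7 := mul_le_mul_of_nonneg_left a4 (sq_nonneg d.S.C)
  have a8 : d.M.s d.S.jl + 2 * d.S.v ≤ 3 * (d.S.C * d.M.s d.S.jl) := by
    linarith [le_mul_of_one_le_left s0 C1]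
  have a9 := mul_le_mul_of_nonneg_left a8 C0.le
  nlinarith [mul_nonneg (sq_nonneg d.S.C) s0]

theorem HJ : d.M.H d.S.jl ≤ d.b.l ^ 3 := by
  have e : d.M.H d.S.jl = 0 := by simp [Dt.M, Dt.S, Pm.gst, Pm.famO, Pm.HO, Pm.scG, Pm.scl]
  rw [e]
  exact (pow_pos h.fr.l0' 3).le

theorem Hp : ∀ k, d.S.jl < k → k < d.S.J → d.M.H k ≤ d.E ^ 3 * d.M.z k := by
  intro k k0 k1
  have F := h.loc.bk.fn
  have c := h.fr.sc.cei
  have C0 := F.C0
  have C1 := F.C1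
  have v0 := F.v0
  have i1 := F.i1
  have i3 := F.i3
  have K1 := h.km.K1
  have l8 : 8 ≤ log (d.S.n : ℝ) := by
    have := h.km.gd.nb.lg
    rw [h.fr.sc.n]
    linarith [one_le_pow₀ (n := 3) K1]
  have θ8 : ∀ t, d.S.ms t ≤ 1 / 8 := fun t => by
    nlinarith [F.msθ, F.ms1 t, mul_le_mul_of_nonneg_left l8 F.toCl.θ0.le]
  have eF : d.S.F = 1 := h.fr.sc.F
  have a1 := tel_le (f := d.M.H) (c := d.S.C * (1 / 8) * d.S.v) (show d.S.jl + 1 ≤ k from k0)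
    fun i a b => (c.up i a (by omega)).trans (by rw [eF, mul_one]; gcongr; exact θ8 _)
  have a2 := c.bot
  rw [eF, mul_one] at a2
  have s0 := F.s_nonneg d.S.jl
  have z0 := (F.z_pos k).le
  have a3 := (F.sm k0.le).trans (F.s_le_z (by omega) k1)
  have a4 := F.z_lo (k := k) (by omega) k1
  have a5 : d.S.C * d.S.ms (d.M.s d.S.jl) * d.M.s d.S.jl ≤ d.S.C * (1 / 8) * (2 * d.S.C * d.M.z k) := by
    gcongr; exact θ8 _
  have a6 : ((k : ℝ) - (d.S.jl + 1 : ℕ)) * (d.S.C * (1 / 8) * d.S.v) ≤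
      d.S.C * (1 / 8) * (2 * d.S.C ^ 2 * d.M.z k) := by
    have : ((k : ℝ) - (d.S.jl + 1 : ℕ)) * d.S.v ≤ k * d.S.v :=
      mul_le_mul_of_nonneg_right (sub_le_self _ (Nat.cast_nonneg _)) v0.le
    have := mul_le_mul_of_nonneg_left (this.trans a4) (show 0 ≤ d.S.C * (1 / 8) by positivity)
    linarith
  have a7 : d.S.C ^ 3 * d.M.z k ≤ d.E ^ 3 * d.M.z k :=
    mul_le_mul_of_nonneg_right (pow_le_pow_left₀ C0.le h.fr.sc.C 3) z0
  have a8 : d.S.C ^ 2 * d.M.z k ≤ d.S.C ^ 3 * d.M.z k :=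
    mul_le_mul_of_nonneg_right (pow_le_pow_right₀ C1 (by norm_num)) z0
  have a9 : 0 ≤ d.S.C ^ 3 * d.M.z k := by positivity
  linarith

theorem tau : d.M.b ≤ d.p.β ^ 2 := by
  have e : d.M.b = d.p.bG d.t := by simp [Md.b, Dt.M, Pm.gst, Pm.famO]
  rw [e]
  exact h.fr.fx.b1

end Crest.Agent.T156.Alt.E35.Pw21

namespace Crest.Agent.T156.Alt.E35

/-- **the pointwise leaf** -/
theorem pwG : PwG := fun d h => ⟨Pw21.zj h, Pw21.HJ h, Pw21.Hp h, Pw21.tau h, Pw52.dz d h,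
  Pw52.gq d h, Pw52.J8 d h, Pw52.j8 d h, Pw52.jv d h, Pw52.tl d h, Pw52.lg d h⟩

end Crest.Agent.T156.Alt.E35

end
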