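import Crest.Agent.T156.ErrSA_4

/-!
# Row 156, R1: the sums of the error table (helper4)
-/

set_option autoImplicit false
set_option linter.unusedSectionVars false

noncomputable section

namespace Crest.Agent.T156.Alt.E35

open Real Finset
open Crest.Agent.T156.Alt.Md67 Crest.Agent.T156.Alt.R62 Crest.Agent.T156.Alt.R77
open Crest.Agent.T156.Alt.R82 Crest.Agent.T156.Alt.SD56

namespace S4

/-- Cauchy-Schwarz for a product -/
theorem cs2 {U : Finset ℕ} {w f g : ℕ → ℝ} {A B v : ℝ} (w0 : ∀ k ∈ U, 0 ≤ w k)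
    (hA : ∑ k ∈ U, w k * f k ^ 2 ≤ A) (hB : ∑ k ∈ U, w k * g k ^ 2 ≤ B) (v0 : 0 ≤ v)
    (h : A * B ≤ v ^ 2) : ∑ k ∈ U, w k * (f k * g k) ≤ v := by
  have n : ∀ f : ℕ → ℝ, ∀ k ∈ U, 0 ≤ w k * f k ^ 2 := fun f k hk =>
    mul_nonneg (w0 k hk) (sq_nonneg _)
  have a := sum_sq_le_sum_mul_sum_of_sq_le_mul U (r := fun k => w k * (f k * g k))
    (f := fun k => w k * f k ^ 2) (g := fun k => w k * g k ^ 2) (n f) (n g)
    fun k _ => le_of_eq (by ring)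
  exact (abs_le_of_sq_le_sq' ((a.trans (mul_le_mul hA hB (sum_nonneg (n g))
    ((sum_nonneg (n f)).trans hA))).trans h) v0).2

variable {E t a a' Q l Φ l0 Λ₀ Pt u1 V4 x N : ℝ} {p : Pm} {P : Pl} {m I : ℕ} {S : Sc} {Pf : ℝ → ℝ}
  {G μ : ℕ → ℝ} (F : Fr E p P t a a' Q m S l Φ Pf l0 Λ₀ Pt u1 V4 I)
  (K : BK E S (p.gst P t) m x l Φ Pf l0 Λ₀ Pt u1 V4 G)
include F K

theorem s6 : ∑ k ∈ Ioo S.jl (p.gst P t).N, (p.gst P t).dz m x k * (|(p.gst P t).G k| * G k) ≤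
    E ^ 12 * Φ := by
  have E0 := F.E0
  have θ0 := F.θ0
  have Φ0 : 0 < Φ := F.nr.l3 ▸ pow_pos F.l0' 3
  refine cs2 (A := E * S.θ ^ 2 * Pt) (fun k hk => dz0 F hk) (by simpa only [sq_abs] using K.g2)
    K.mk'.tot (by positivity) ?_
  have P1 := F.nr.Pt0.1.trans F.nr.Pt0.2.1
  calc _ ≤ E * 1 ^ 2 * Φ * (E * Φ) := by gcongr; exacts [F.θ1, F.nr.Pt0.2.2.1]
    _ = (E ^ 1 * Φ) ^ 2 := by ring
    _ ≤ _ := by gcongr; exacts [F.E1', by norm_num]

theorem s5 (hx : ∑ k ∈ Ioo S.jl (p.gst P t).N, (p.gst P t).dz m x k *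
      max (|(p.gst P t).G k| - (p.n : ℝ) ^ (-(1 : ℝ) / 6)) 0 ^ 2 ≤ E * S.θ ^ 2 * V4) :
    S.θ * ∑ k ∈ Ioo S.jl (p.gst P t).N, (p.gst P t).dz m x k * (|(p.gst P t).G k| * G k ^ 2) ≤
      E ^ 12 * (1 / E ^ 200 * n5 p) := by
  have E0 := F.E0
  have E1 := F.E1
  have θ0 := F.θ0
  have θ1 := F.θ1
  have n0 := F.n0
  have l00 := F.l00
  have l0' := F.l0'
  have a4 := F.n40
  have a5 := F.n50
  have P0 := F.nr.Pt0
  have V0 : 0 ≤ V4 := P0.1.trans P0.2.2.2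
  have L1 := F.nr.L1
  have e5 : (p.n : ℝ) ^ (-(1 : ℝ) / 6) * n4 p ≤ n5 p := by
    rw [n5, n4, ← mul_assoc, ← rpow_add n0, show -(1 : ℝ) / 6 + -(2 : ℝ) / 3 = -(5 : ℝ) / 6 by norm_num]
    exact mul_le_mul_of_nonneg_left (pow_le_pow_right₀ F.s1 (by norm_num)) (by positivity)
  have δ1 : 1 / E ^ 200 ≤ 1 / E :=
    one_div_le_one_div_of_le E0 (le_self_pow₀ F.E1' (by norm_num))
  have δ2 : 1 / E ^ 200 ≤ 1 := (div_le_one (by positivity)).2 (one_le_pow₀ F.E1')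
  have ly : l ≤ 1 / E := (F.nr.ly.trans (mul_le_of_le_one_right (by positivity) F.y1)).trans δ1
  have hi := F.nr.i
  have hc := F.nr.c
  have hd := F.nr.d
  have h5 := F.nr.l5
  have ν0 : 0 < (p.n : ℝ) ^ (-(1 : ℝ) / 6) := by positivity
  generalize (p.n : ℝ) ^ (-(1 : ℝ) / 6) = ν at hx e5 ν0
  have δ0 : 0 < 1 / E ^ 200 := by positivity
  generalize 1 / E ^ 200 = δ at hi hc hd h5 δ0 δ2 ⊢
  have e6 : ν * (δ ^ 2 * n4 p) ≤ δ * n5 p :=
    calc _ = δ * (δ * (ν * n4 p)) := by ring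
      _ ≤ δ * (1 * n5 p) := by gcongr
      _ = _ := by ring
  let c : ℕ → ℝ := fun k => if 1 / E < (p.gst P t).s k then ν else 0
  have c0 : ∀ k, 0 ≤ c k := fun k => by simp only [c]; split_ifs <;> positivity
  have c1 : ∀ k, c k ≤ ν := fun k => by simp only [c]; split_ifs; exacts [le_rfl, ν0.le]
  have cz : ∀ U : Finset ℕ, (∀ k ∈ U, (p.gst P t).s k ≤ 1 / E) →
      ∑ k ∈ U, (p.gst P t).dz m x k * (c k * G k ^ 2) ≤ 2 * E ^ 2 * (δ * n5 p) / S.θ :=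
    fun U hU => (sum_eq_zero fun k hk => by
      simp only [c, if_neg (not_lt.2 (hU k hk)), zero_mul, mul_zero]).trans_le (by positivity)
  have k1 := dec F (g := fun k => (p.gst P t).dz m x k * (c k * G k ^ 2))
    (v := 2 * E ^ 2 * (δ * n5 p) / S.θ)
    (fun k hk => mul_nonneg (dz0 F hk) (mul_nonneg (c0 k) (sq_nonneg _))) (by positivity)
    (cz _ fun k hk => (mem_filter.1 hk).2.le.trans (F.nr.l0l.trans ly))
    (fun τ h1 h2 => by
      have τ0 := l00.trans_le h1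
      rcases le_total (2 * τ) (1 / E) with e | e
      · exact cz _ fun k hk => (mem_sb.1 hk).2.2.trans e
      refine (fac (g := fun k => G k ^ 2) (fun k hk => dz0 F (sb_sub F.cl hk)) (fun _ => sq_nonneg _)
        ν0.le (fun k _ => c1 k) (K.mk'.b2 τ h1 h2)).trans ?_
      have P1 := (F.nr.P0 τ).1
      rw [div_le_iff₀ E0] at e
      rw [le_div_iff₀ θ0]
      calc _ = E * ν * (S.θ * 1 * (1 * Pf τ)) := by ring
        _ ≤ E * ν * (S.θ * Λ₀ * (2 * τ * E * Pf τ)) := by gcongr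
        _ = 2 * E ^ 2 * (ν * (S.θ * Λ₀ * (τ * Pf τ))) := by ring
        _ ≤ _ := mul_le_mul_of_nonneg_left
          ((mul_le_mul_of_nonneg_left (hi τ h1 h2) ν0.le).trans e6) (by positivity))
    (by
      refine (fac (g := fun k => G k ^ 2) (fun k hk => dz0 F (top_sub F hk)) (fun _ => sq_nonneg _)
        ν0.le (fun k _ => c1 k) K.mk'.t2).trans ?_
      have P1 := P0.1.trans P0.2.1
      rw [le_div_iff₀ θ0]
      calc _ = E * (ν * (S.θ * 1 * Pt)) := by ring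
        _ ≤ 2 * E ^ 2 * (ν * (S.θ * Λ₀ * (Pt + V4 + p.r ^ 4))) := by
          gcongr
          · nlinarith
          · linarith [pow_pos F.r0 4]
        _ ≤ _ := mul_le_mul_of_nonneg_left
          ((mul_le_mul_of_nonneg_left hc ν0.le).trans e6) (by positivity))
  have k2 := cs2 (g := fun k => G k ^ 2) (v := E * S.θ * (l ^ 5 + V4)) (B := E * (Φ * l ^ 2 + V4))
    (fun k hk => dz0 F hk) hx (by simpa only [← pow_mul] using K.mk'.qua) (by positivity) (by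
      rw [← F.nr.l3]
      calc _ = (E * S.θ) ^ 2 * (V4 * (l ^ 5 + V4)) := by ring
        _ ≤ (E * S.θ) ^ 2 * ((l ^ 5 + V4) * (l ^ 5 + V4)) := by
          gcongr; exact le_add_of_nonneg_left (by positivity)
        _ = _ := by ring)
  have k3 : ∑ k ∈ Ioo S.jl (p.gst P t).N, (p.gst P t).dz m x k * (|(p.gst P t).G k| * G k ^ 2) ≤
      E ^ 3 * (2 * E ^ 2 * (δ * n5 p) / S.θ) + E * S.θ * (l ^ 5 + V4) := by
    refine le_trans ?_ (add_le_add k1 k2)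
    rw [← sum_add_distrib]
    refine sum_le_sum fun k hk => ?_
    rw [← mul_add, ← add_mul]
    refine mul_le_mul_of_nonneg_left (mul_le_mul_of_nonneg_right ?_ (sq_nonneg _)) (dz0 F hk)
    simp only [c]
    split_ifs with e
    · linarith [le_max_left (|(p.gst P t).G k| - ν) 0]
    · rw [K.glo k (mem_Ioo.1 hk).1 (not_lt.1 e), abs_zero, zero_add]
      exact le_max_right _ _
  have b1 : S.θ * (E * S.θ * (l ^ 5 + V4)) ≤ 2 * E ^ 5 * (δ * n5 p) :=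
    calc _ = S.θ * E * (S.θ * l ^ 5 + S.θ * V4) := by ring
      _ ≤ 1 * E ^ 5 * (δ * n5 p + δ * n5 p) := by
        gcongr; exact le_self_pow₀ F.E1' (by norm_num)
      _ = _ := by ring
  have b2 : 4 * E ^ 5 * (δ * n5 p) ≤ E ^ 12 * (δ * n5 p) := by
    gcongr
    exact le_trans (by nlinarith [pow_pos E0 5]) (F.pw (show 6 ≤ 12 by norm_num))
  refine (mul_le_mul_of_nonneg_left k3 θ0.le).trans ?_
  rw [mul_add, show S.θ * (E ^ 3 * (2 * E ^ 2 * (δ * n5 p) / S.θ)) = 2 * E ^ 5 * (δ * n5 p) by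
    field_simp]
  linarith

end S4

/-- **the sums of the error table** -/
theorem sumS : SumS := fun _ _ _ _ _ _ _ _ _ _ _ _ _ _ _ _ _ _ _ _ _ _ F K L hx μ0 h h0 =>
  ⟨S4.s1 F K L, S4.s2 F μ0 h h0, S4.s3 F K μ0 h h0, S4.s4 F K L μ0 h h0, S4.s5 F K hx, S4.s6 F K⟩

end Crest.Agent.T156.Alt.E35

end
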