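import Crest.Agent.T156.PlX_13
import Crest.Agent.T156.KnR_72
import Crest.Agent.T156.R1Cx_77
import Crest.Agent.T156.ClReg_29

/-!
# Row 156 (helper79): the residual `G` of the graded members (`gx`, `gup`, `glo`, `g2`)
-/

set_option autoImplicit false
set_option linter.unusedSectionVars false

noncomputable section

namespace Crest.Agent.T156.Alt.Gx79

open Real Finset Plt13 Mem37 R62 R77 Md67

theorem G_hs (p : Pm) (P : Pl) (t : ℝ) {k : ℕ} (hk : p.jf < k) :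
    (p.gst P t).G k = P.hs (p.xP P k) := by
  rw [Md.G, gst_d]
  change p.bG t * p.qO P (p.omG t) k + (p.HO P (p.omG t) (p.bG t + 0) k + 0) -
    p.sO P (p.omG t) k = _
  rw [Pm.HO, if_neg hk.not_ge]
  ring

/-- `R77.PX` (unfolded) gives `Pm.PlX` -/
theorem plX_of {p : Pm} {σ σ' : ℝ} {Q : Pl} (h : p.PlG (p.muG σ) Q ∨ ∃ P P' t,
    t ∈ Set.Icc (0 : ℝ) 1 ∧ p.PlG (p.muG σ) P ∧ p.PlG (p.muG σ') P' ∧ Q = P.mix P' t) :
    p.PlX σ σ' Q :=
  h.elim (plX_self σ') fun ⟨P, P', t, a, b, c, d⟩ => ⟨P, P', t, a, b, Or.inr c, d⟩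

theorem ft_log {p : Pm} {ν u : ℝ} (h : Nm p ν) (hu : (p.n : ℝ) ^ (-(3 : ℝ)) ≤ u) :
    ft (p.Vc ν) (p.la ν) u ≤ 3 * p.Vc ν * log p.n := by
  have np := h.np
  have n2 := h.n2
  have V := h.Vp
  have e3 : (p.n : ℝ) ^ (-(3 : ℝ)) = 1 / (p.n : ℝ) ^ 3 := by rw [rpow_neg np.le]; norm_num
  have s : 1 / (p.n : ℝ) ^ 2 ≤ √u := le_sqrt_of_sq_le (by
    rw [div_pow, one_pow, ← pow_mul]
    exact (one_div_le_one_div_of_le (by positivity)
      (pow_le_pow_right₀ (by linarith) (by norm_num))).trans (e3.ge.trans hu))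
  have s0 : 0 < √u := lt_of_lt_of_le (by positivity) s
  have a : p.la ν / (p.Vc ν * √u) ≤ (p.n : ℝ) ^ 2 := by
    rw [div_le_iff₀ (by positivity)]
    rw [div_le_iff₀ (by positivity)] at s
    nlinarith [mul_le_mul_of_nonneg_left s V.le, h.lV]
  have b : log (1 + p.la ν / (p.Vc ν * √u)) ≤ log ((p.n : ℝ) ^ 3) :=
    log_le_log (by have := h.lp; positivity) (by nlinarith [sq_nonneg (p.n : ℝ)])
  rw [log_pow] at b
  unfold ft
  push_cast at b
  linarith [mul_le_mul_of_nonneg_left b V.le]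

section lab

variable {K θ ν w c0 C0 η Y : ℝ} {p : Pm} {Q : Pl} {om : ℕ → ℝ} (X : XK K θ ν p Q)
include X

/-- sloped labels -/
theorem hs_lo (K1 : 1 ≤ K) (kx : 1 / K ≤ 1 - p.xs) {x : ℝ} (hx : x ≤ p.xs) :
    |Q.hs x| ≤ 2 * (θ * u0 p ν) + 4 * (θ * K * p.la ν) := by
  have h := X.nm
  have K0 : 0 < K := by linarith
  have b := X.hsB x (hx.trans_lt h.xs1)
  have iK : 0 < 1 / K := by positivity
  have iK1 : 1 / K ≤ 1 := (div_le_one K0).2 K1
  have e : 1 / K ≤ √(1 - x) := le_sqrt_of_sq_le (by nlinarith)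
  have f : p.la ν / √(1 - x) ≤ K * p.la ν :=
    (div_le_div_of_nonneg_left h.lp.le iK e).trans_eq (by field_simp)
  have g := mul_le_mul_of_nonneg_left f X.θ0
  have a1 := mul_nonneg X.θ0 h.u0p.le
  have a2 := mul_nonneg (mul_nonneg X.θ0 K0.le) h.lp.le
  rw [abs_le]
  constructor <;> linarith [b.1, b.2]

/-- plateau labels -/
theorem hs_hi (h2 : 8 * (θ * u0 p ν) + 24 * (θ * p.Vc ν * log p.n) ≤ w) {x : ℝ} (h0 : p.xs ≤ x)
    (hx : (p.n : ℝ) ^ (-(3 : ℝ)) ≤ 1 - x) :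
    max (|Q.hs x| - w) 0 ^ 2 ≤ 64 * θ ^ 2 * ft 1 (√(p.u2 ν)) (1 - x) ^ 2 := by
  have h := X.nm
  have x1 : x < 1 := by linarith [rpow_pos_of_pos h.np (-(3 : ℝ))]
  have a := X.hsE x h0 x1
  have b : fb (p.la ν) (x - p.xs + u0 p ν) ≤ u0 p ν :=
    (div_le_div_of_nonneg_left h.lp.le (sqrt_pos.2 h.u0p) (sqrt_le_sqrt (by linarith))).trans_eq
      h.fb_u0
  have c := ft_log h hx
  have d := ft_nn one_pos h.sp.le (1 - x)
  have e : max (|Q.hs x| - w) 0 ≤ 8 * θ * ft 1 (√(p.u2 ν)) (1 - x) := by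
    refine max_le ?_ (by have := X.θ0; positivity)
    unfold env at a
    linarith [mul_le_mul_of_nonneg_left b X.θ0, mul_le_mul_of_nonneg_left c X.θ0]
  exact (pow_le_pow_left₀ (le_max_right _ _) e 2).trans_eq (by ring)

/-- **the excess of the field, label form** -/
theorem gx_lab (G : Geo c0 C0 η Y p Q om) (K1 : 1 ≤ K) (kx : 1 / K ≤ 1 - p.xs) {jl : ℕ}
    (hj : jl < p.J) (h1 : 2 * (θ * u0 p ν) + 4 * (θ * K * p.la ν) ≤ w)
    (h2 : 8 * (θ * u0 p ν) + 24 * (θ * p.Vc ν * log p.n) ≤ w) :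
    ∑ k ∈ Ioc jl (p.Jp Q), (p.zP Q k - p.zP Q (k - 1)) * max (|Q.hs (p.xP Q k)| - w) 0 ^ 2 ≤
      4160 * log p.n * θ ^ 2 * p.u2 ν := by
  have h := X.nm
  have S := X.shg
  have J0 := G.J0
  have l1 := h.l1
  have np := h.np
  have u2 := h.u2p
  rw [← sum_Ioc_consecutive _ (show jl ≤ p.J - 1 by omega)
    (show p.J - 1 ≤ p.Jp Q from (Nat.sub_le _ _).trans J_le)]
  have A : ∑ k ∈ Ioc jl (p.J - 1),
      (p.zP Q k - p.zP Q (k - 1)) * max (|Q.hs (p.xP Q k)| - w) 0 ^ 2 = 0 := by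
    refine sum_eq_zero fun k hk => ?_
    have hk := mem_Ioc.1 hk
    have x1 : p.z (k - 1) ≤ p.xs := G.base.lab.mono (by omega)
    rw [xP_lo (by have := J_le (p := p) (P := Q); omega), zP_lo (k := k - 1) (by omega),
      max_eq_right (by linarith [hs_lo X K1 kx x1])]
    simp
  have e : Ioc (p.J - 1) (p.Jp Q) = Ico p.J (p.J + (Q.I + 1)) := by
    ext k; simp only [mem_Ioc, mem_Ico, Pm.Jp]; omega
  rw [A, zero_add, e, sum_Ico_eq_sum_range, Nat.add_sub_cancel_left, sum_range_succ]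
  have b := sum_ft_two one_pos h.sp (fun i => 1 - Q.x i) Q.I (by linarith [S.lo, h.x0])
    (fun i hi => by linarith [S.lt h hi.le]) (fun i hi => by linarith [S.mono i hi])
    (fun i hi => by linarith [S.lt h (i := i + 1) hi])
  have ns : 1 ≤ √(p.u2 ν) * p.n := by have := h.ns; rwa [div_le_iff₀ np] at this
  have c : log (1 + 1 / √(p.u2 ν)) ≤ 2 * log p.n := by
    have a : 1 / √(p.u2 ν) ≤ p.n := by rw [div_le_iff₀ h.sp]; linarith
    have := log_le_log (x := 1 + 1 / √(p.u2 ν)) (y := (p.n : ℝ) ^ 2)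
      (by have := h.sp; positivity) (by nlinarith [h.n2])
    rwa [log_pow] at this
  rw [sq_sqrt u2.le] at b
  have B : ∑ i ∈ range Q.I, (p.zP Q (p.J + i) - p.zP Q (p.J + i - 1)) *
      max (|Q.hs (p.xP Q (p.J + i))| - w) 0 ^ 2 ≤ 64 * θ ^ 2 * (32 * p.u2 ν * (2 * log p.n)) := by
    refine le_trans ?_ (mul_le_mul_of_nonneg_left
      (b.trans (mul_le_mul_of_nonneg_left c (by positivity))) (by positivity))
    rw [mul_sum]
    refine sum_le_sum fun i hi => ?_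
    have hi := mem_range.1 hi
    have z := G.zP_x (i := i + 1) hi
    rw [show p.J + (i + 1) - 1 = p.J + i by omega] at z
    rw [z, G.zP_x hi.le, G.xP_x hi.le]
    exact (mul_le_mul_of_nonneg_left (hs_hi X h2 (S.ge hi.le) (S.top hi.le))
      (sub_nonneg.2 (S.mono i hi))).trans_eq (by ring)
  have C : (p.zP Q (p.J + Q.I) - p.zP Q (p.J + Q.I - 1)) *
      max (|Q.hs (p.xP Q (p.J + Q.I))| - w) 0 ^ 2 ≤ 64 * θ ^ 2 * p.u2 ν := by
    rw [zP_hi (k := p.J + Q.I) le_rfl, G.zP_x le_rfl, G.xP_x le_rfl]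
    have u : 0 < 1 - Q.x Q.I := sub_pos.2 (S.lt h le_rfl)
    have f := pow_le_pow_left₀ (ft_nn one_pos h.sp.le _) (ft_le one_pos h.sp.le (1 - Q.x Q.I)) 2
    rw [div_pow, sq_sqrt u2.le, sq_sqrt u.le, le_div_iff₀ u] at f
    have g := mul_le_mul_of_nonneg_left (hs_hi X h2 (S.ge le_rfl) (S.top le_rfl)) u.le
    linarith [mul_le_mul_of_nonneg_left f (show 0 ≤ 64 * θ ^ 2 by positivity)]
  linarith [mul_le_mul_of_nonneg_right l1 (show 0 ≤ θ ^ 2 * p.u2 ν by positivity)]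

end lab

/-- **`KN` forces `u₂ ≲ V₄`** -/
theorem u2_le {S : Sc} {M : Md} {la V u2 E l Φ l0 Λ₀ Λ₁ Pt Vt u1 V4 : ℝ} {P : ℝ → ℝ}
    (D : Kn72.SD S M la V u2) (h : KN S M E l Φ P l0 Λ₀ Λ₁ Pt Vt u1 V4) (v0 : 0 < S.v)
    (hC : 2 * S.C * u2 ≤ 1) (sh : ∀ k, S.J ≤ k → k < S.Jp → du M k ≤ 2 * du M (k + 1)) :
    u2 ≤ 1024 * V4 := by
  have c := D.cl
  have u10 : 0 < u1 := v0.trans_le h.u1P.1
  have C0 : 0 < S.C := by linarith [c.C1]
  have pl0 : 0 ≤ Pt * l ^ 2 := mul_nonneg (u10.le.trans h.u1P.2) (sq_nonneg _)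
  have nn : ∀ k, 0 ≤ lw M k := fun k => sub_nonneg.2 (c.leg.zm (Nat.sub_le k 1))
  have nn' : ∀ k, 0 ≤ lw M k * (ls S M k ^ 4 + min (√(Pt / du M k)) (Vt + Λ₁ * ls S M k) ^ 4) :=
    fun k => mul_nonneg (nn k) (by positivity)
  have s4 := h.s4
  rcases le_or_gt u2 (4 * u1) with e | e
  · linarith [sum_nonneg fun k (_ : k ∈ pl S M u1) => nn' k]
  have iC : 2 * u2 ≤ 1 / S.C := by rw [le_div_iff₀ C0]; linarith
  have dp : du M S.Jp < u1 := by unfold du; linarith [c.last, h.ue]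
  have an : ∀ i j, i ≤ j → du M j ≤ du M i := fun i j hij => by
    unfold du; linarith [c.leg.zm (Nat.sub_le_sub_right hij 1)]
  have ex0 : ∃ k, du M k ≤ u2 := ⟨S.Jp, by linarith⟩
  have ex1 : ∃ k, du M k < u1 := ⟨S.Jp, dp⟩
  obtain ⟨k0, a0, b0⟩ : ∃ k, du M k ≤ u2 ∧ ∀ j < k, u2 < du M j :=
    ⟨Nat.find ex0, Nat.find_spec ex0, fun j hj => not_le.1 (Nat.find_min ex0 hj)⟩
  obtain ⟨k1, a1, b1⟩ : ∃ k, du M k < u1 ∧ ∀ j < k, u1 ≤ du M j :=
    ⟨Nat.find ex1, Nat.find_spec ex1, fun j hj => not_lt.1 (Nat.find_min ex1 hj)⟩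
  have k1p : k1 ≤ S.Jp := not_lt.1 fun x => absurd (b1 _ x) dp.not_ge
  have k0p : k0 ≤ S.Jp := not_lt.1 fun x => by linarith [b0 _ x]
  have Jk : S.J < k0 := not_le.1 fun x => by
    have := an _ _ x
    unfold du at this a0
    linarith [c.atom.2]
  have d0 : u2 < 2 * du M k0 := by
    have := sh (k0 - 1) (by omega) (by omega)
    rw [Nat.sub_add_cancel (by omega)] at this
    linarith [b0 (k0 - 1) (by omega)]
  have k01 : k0 ≤ k1 := not_lt.1 fun x => by linarith [an _ _ x.le]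
  have t : ∑ k ∈ Ico k0 k1, lw M k = du M k0 - du M k1 := by
    have := sum_Ico_sub (fun k => -du M k) k01
    rw [show du M k0 - du M k1 = -du M k1 - -du M k0 by ring, ← this]
    refine sum_congr rfl fun k _ => ?_
    unfold lw du
    rw [Nat.add_sub_cancel]; ring
  have s : ∑ k ∈ Ico k0 k1, lw M k * (1 / 4) ^ 4 ≤ ∑ k ∈ pl S M u1,
      lw M k * (ls S M k ^ 4 + min (√(Pt / du M k)) (Vt + Λ₁ * ls S M k) ^ 4) := by
    refine le_trans (sum_le_sum fun k hk => ?_) (sum_le_sum_of_subset_of_nonneg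
      (s := Ico k0 k1) (fun k hk => ?_) fun k _ _ => nn' k)
    · have hk := mem_Ico.1 hk
      have d := u10.trans_le (b1 k hk.2)
      have d2 := (an _ _ hk.1).trans a0
      have f : 1 / 4 ≤ ls S M k := by
        rw [D.ls_eq (by omega) d]
        exact D.nu.fin d (by linarith [D.sum_ge k]) d2
      refine mul_le_mul_of_nonneg_left ?_ (nn k)
      exact le_add_of_le_of_nonneg (pow_le_pow_left₀ (by norm_num) f 4) (by positivity)
    · have hk := mem_Ico.1 hk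
      exact mem_filter.2 ⟨mem_Ico.2 ⟨by omega, by omega⟩, b1 k hk.2⟩
  rw [← sum_mul, t] at s
  linarith

section gst

variable {β c0 C0 c0' C0' η' : ℝ} {A : ℕ} {c η K K' : ℝ} {p : Pm} {σ σ' : ℝ} {Q : Pl}

theorem dz_gst (D : GrD K' c0' C0' η' p σ σ' Q) (m : ℕ) (a : ℝ) {k : ℕ} (hk : p.jf < k) :
    (p.gst Q σ').dz m a k = p.zP Q k - p.zP Q (k - 1) := by
  rw [dz_up D.cl.1.leg (by omega), gst_z p Q σ' hk.le, gst_z p Q σ' (by omega)]

/-- node sums are label sums -/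
theorem sum_gst (D : GrD K' c0' C0' η' p σ σ' Q) (m : ℕ) (a : ℝ) (f : ℝ → ℝ) :
    ∑ k ∈ Ioo p.jf (p.gst Q σ').N, (p.gst Q σ').dz m a k * f ((p.gst Q σ').G k) =
      ∑ k ∈ Ioc p.jf (p.Jp Q), (p.zP Q k - p.zP Q (k - 1)) * f (Q.hs (p.xP Q k)) := by
  have i4 : p.Jp Q < (p.gst Q σ').N := D.cl.1.i4
  rw [← sum_subset (s₁ := Ioc p.jf (p.Jp Q)) (fun k hk => by
      simp only [mem_Ioc, mem_Ioo] at *
      omega) fun k h1 h2 => by
      simp only [mem_Ioc, mem_Ioo] at h1 h2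
      rw [dz_gst D m a h1.1, zP_hi (by omega), zP_hi (by omega), sub_self, zero_mul]]
  exact sum_congr rfl fun k hk => by rw [dz_gst D m a (mem_Ioc.1 hk).1, G_hs _ _ _ (mem_Ioc.1 hk).1]

/-- **`glo`** -/
theorem glo (D : GrD K' c0' C0' η' p σ σ' Q) {L : ℝ} (hL : 6 * (p.scG K' σ σ' Q).C ^ 3 ≤ L) (k : ℕ)
    (hk : (p.scG K' σ σ' Q).jl < k) (hs : (p.gst Q σ').s k ≤ 1 / L) : (p.gst Q σ').G k = 0 := by
  have c := D.cl.1
  have g : ∀ t, (p.gst Q σ').s (p.scG K' σ σ' Q).jl < t → (p.scG K' σ σ' Q).gr t = 0 :=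
    fun t ht => if_neg ht.not_ge
  generalize p.scG K' σ σ' Q = S at *
  generalize p.gst Q σ' = M at *
  have C0 := c.C0
  have C1 := c.C1
  have i2 := c.i2
  have i01 := c.i0.trans c.i1
  have L0 : 0 < L := lt_of_lt_of_le (by positivity) hL
  have z : ∀ j, S.jl ≤ j → j < S.J → M.s j ≤ 1 / L → M.z j ≤ 1 / (2 * S.C) := fun j a b e => by
    have a1 := (c.z_s (c.i1.trans a) b).2
    have a2 := (c.s_bds b.le).1
    have a3 : (1 : ℝ) ≤ j := by exact_mod_cast i01.trans a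
    have a4 := mul_le_mul_of_nonneg_right a3 (div_pos c.v0 C0).le
    have a5 : S.v ≤ S.C * M.s j := by rw [← div_le_iff₀' C0]; linarith
    have a6 := mul_le_mul_of_nonneg_left a5 C0.le
    have a7 := mul_le_mul_of_nonneg_right C1 (mul_nonneg C0.le (c.s_nn j))
    have a8 := mul_le_mul_of_nonneg_right hL (c.s_nn j)
    rw [le_div_iff₀ L0] at e
    rw [le_div_iff₀ (by positivity)]
    linarith [mul_le_mul_of_nonneg_left (show M.z j ≤ 3 * S.C ^ 2 * M.s j by linarith) C0.le]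
  have kJ : k < S.J := not_le.1 fun x => by
    have a := z (S.J - 1) (by omega) (by omega) ((c.sm (by omega)).trans hs)
    have b := one_div_lt_one_div_of_lt C0 (show S.C < 2 * S.C by linarith)
    linarith [c.atom.1]
  have a := c.Gmi k hk.le (z k hk.le kJ hs)
  rw [g _ (c.s_lt hk c.jl_lt)] at a
  exact abs_nonpos_iff.1 a

variable (H : Reg β c0 C0 A c η K p) (o : p.OctR σ σ') (D : GrD K' c0' C0' η' p σ σ' Q)
include H o D

theorem nums : 32 * (p.muG σ' * u0 p (Kn72.nu p σ)) ≤ (p.n : ℝ) ^ (-(1 : ℝ) / 6) ∧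
    32 * (p.muG σ' * K' * p.la (Kn72.nu p σ)) ≤ (p.n : ℝ) ^ (-(1 : ℝ) / 6) ∧
    32 * (p.muG σ' * p.Vc (Kn72.nu p σ) * log p.n) ≤ (p.n : ℝ) ^ (-(1 : ℝ) / 6) := by
  obtain ⟨M, M'⟩ := Gr29.oct_mem o
  have m := H.muG0 (H.σ0 M)
  have m' := H.muG0 (H.σ0 M')
  have n0 := Kn72.nu0 H o
  have a := H.lg_mono m' (H.oct_mu o).2
  rw [logb_mul two_ne_zero m.ne'] at a
  have b := (H.lg_mt' m).1
  have d := (Kn72.lg_nu H o).2
  have e := (H.lg_muG' M').2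
  have l0 := H.la0 n0
  have V0 : 0 < p.Vc (Kn72.nu p σ) := H.Vc0
  have L := H.log1
  have K1 := D.nb.K1
  have kl : K' ≤ (p.n : ℝ) ^ η := by
    refine le_trans ?_ (D.nb.lg.trans H.log_le)
    nlinarith [one_le_pow₀ (n := 2) K1]
  have k := (H.lg_cst K1 kl).2
  have q := (H.lg_num (x := 32) (by norm_num) (by norm_num)).2
  have la := H.lg_la n0
  have Vc := H.lg_Vc n0
  have m1 := min_le_left (-(logb p.n (Kn72.nu p σ) + 1 / 3) / 3) (-(logb p.n (Kn72.nu p σ) + 1 / 3) / 2)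
  have m2 := min_le_right (-(logb p.n (Kn72.nu p σ) + 1 / 3) / 3) (-(logb p.n (Kn72.nu p σ) + 1 / 3) / 2)
  have u : 0 < u0 p (Kn72.nu p σ) := rpow_pos_of_pos l0 _
  have lu : logb p.n (u0 p (Kn72.nu p σ)) = 2 / 3 * logb p.n (p.la (Kn72.nu p σ)) :=
    logb_rpow_eq_mul_logb_of_pos l0
  have t := H.lg_two.2
  have c0 := H.c_pos
  have c1 := H.c_le
  have η1 := H.η_le
  change logb p.n (p.muG σ) ≤ logb p.n (Kn72.nu p σ) at b
  refine ⟨H.le_of_lg (by positivity) (H.rp0 _) ?_, H.le_of_lg (by positivity) (H.rp0 _) ?_,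
    H.le_of_lg (by positivity) (H.rp0 _) ?_⟩
  · rw [logb_mul (by norm_num) (by positivity), logb_mul m'.ne' u.ne', H.lg_rp, lu, la]
    linarith
  · rw [logb_mul (by norm_num) (by positivity), logb_mul (by positivity) l0.ne',
      logb_mul m'.ne' (by positivity), H.lg_rp, la]
    linarith
  · rw [logb_mul (by norm_num) (by positivity), logb_mul (by positivity) (by positivity),
      logb_mul m'.ne' V0.ne', H.lg_rp, Vc]
    have g := H.lg_log.2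
    rcases max_cases 0 (-(logb p.n (Kn72.nu p σ) + 1 / 3) / 3) with ⟨r, _⟩ | ⟨r, _⟩ <;> rw [r] <;>
      linarith

variable (X : p.PlX σ σ' Q)
include X

/-- **`gx` at `u₂`** -/
theorem gx_u2 (m : ℕ) (a : ℝ) :
    ∑ k ∈ Ioo (p.scG K' σ σ' Q).jl (p.gst Q σ').N, (p.gst Q σ').dz m a k *
        max (|(p.gst Q σ').G k| - (p.n : ℝ) ^ (-(1 : ℝ) / 6)) 0 ^ 2 ≤
      4160 * log p.n * (p.scG K' σ σ' Q).θ ^ 2 * p.u2 (Kn72.nu p σ) := by
  have Y := xk_of H o D X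
  obtain ⟨a1, a2, a3⟩ := nums H o D
  have E := D.memD
  have r := H.rp0 (-(1 : ℝ) / 6)
  have e : (p.scG K' σ σ' Q).θ = p.muG σ' := D.top
  rw [e]
  exact (sum_gst D m a fun y => max (|y| - (p.n : ℝ) ^ (-(1 : ℝ) / 6)) 0 ^ 2).trans_le
    (gx_lab Y E.geo D.nb.K1 (by linarith [E.atom.2]) (by have := E.jlJ; omega) (by linarith)
      (by linarith))

/-- `u₂ ≤ 1024 V₄` for every admissible table of numbers -/
theorem u2_V4 {E l Φ l0 Λ₀ Λ₁ Pt Vt u1 V4 : ℝ} {P : ℝ → ℝ}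
    (h : KN (p.scG K' σ σ' Q) (p.gst Q σ') E l Φ P l0 Λ₀ Λ₁ Pt Vt u1 V4) :
    p.u2 (Kn72.nu p σ) ≤ 1024 * V4 := by
  have Y := xk_of H o D X
  have G := D.memD.geo
  have j : p.jf + 1 < p.J := D.cl.1.i2
  refine u2_le (Kn72.sd_gst H o D) h H.v0 (Kn72.n_fin H o D) fun k h1 h2 => ?_
  obtain ⟨i, rfl⟩ := Nat.exists_eq_add_of_le (show p.J ≤ k from h1)
  have hi : i < Q.I := by change p.J + i < p.J + Q.I at h2; omega
  unfold du
  rw [gst_z p Q σ' (by omega), gst_z p Q σ' (by omega), G.zP_x hi.le, add_assoc, G.zP_x hi]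
  linarith [(le_min_iff.1 (Y.shg.sh i hi)).2]

/-- **`gx`** -/
theorem gx {E l Φ l0 Λ₀ Λ₁ Pt Vt u1 V4 L : ℝ} {P : ℝ → ℝ}
    (h : KN (p.scG K' σ σ' Q) (p.gst Q σ') E l Φ P l0 Λ₀ Λ₁ Pt Vt u1 V4)
    (hL : 4259840 * log p.n ≤ L) (m : ℕ) (a : ℝ) :
    ∑ k ∈ Ioo (p.scG K' σ σ' Q).jl (p.gst Q σ').N, (p.gst Q σ').dz m a k *
        max (|(p.gst Q σ').G k| - (p.n : ℝ) ^ (-(1 : ℝ) / 6)) 0 ^ 2 ≤
      L * (p.scG K' σ σ' Q).θ ^ 2 * V4 := by
  have u := u2_V4 H o D X h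
  have u0 := H.u20 (Kn72.nu0 H o)
  have l := H.log1
  refine (gx_u2 H o D X m a).trans ((mul_le_mul_of_nonneg_left u (by positivity)).trans ?_)
  have := mul_le_mul_of_nonneg_right hL
    (mul_nonneg (sq_nonneg (p.scG K' σ σ' Q).θ) (show 0 ≤ V4 by linarith))
  linarith

/-- **`gup`** (all nodes above the first mark) -/
theorem gup {L : ℝ} (hL : 6 * log p.n ≤ L) (k : ℕ) (hk : (p.scG K' σ σ' Q).jl < k) :
    |(p.gst Q σ').G k| ≤ L * (p.scG K' σ σ' Q).θ := by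
  have Y := xk_of H o D X
  have G := D.memD.geo
  have e : (p.scG K' σ σ' Q).θ = p.muG σ' := D.top
  have x : p.xP Q k ≤ Q.x Q.I := by
    rw [← G.zP_x le_rfl]
    exact G.zP_mono (Nat.sub_le_sub_right (min_le_right _ _) 1)
  rw [e, G_hs _ _ _ hk]
  linarith [Y.hsL _ x, mul_le_mul_of_nonneg_right hL Y.θ0]

/-- **`g2`** -/
theorem g2 {L Pt : ℝ} (hP : p.la (p.mt (p.muG σ)) ^ 2 ≤ Pt)
    (hL : 5 * (406 + 8 * K') * log p.n ≤ L) (m : ℕ) (a : ℝ) :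
    ∑ k ∈ Ioo (p.scG K' σ σ' Q).jl (p.gst Q σ').N, (p.gst Q σ').dz m a k * (p.gst Q σ').G k ^ 2 ≤
      L * (p.scG K' σ σ' Q).θ ^ 2 * Pt := by
  have Y := xk_of H o D X
  have e : (p.scG K' σ σ' Q).θ = p.muG σ' := D.top
  have K1 := D.nb.K1
  have l := H.log1
  rw [e]
  refine (sum_gst D m a fun y => y ^ 2).trans_le (Y.g2.trans ?_)
  have a1 := mul_le_mul hL (mul_le_mul_of_nonneg_left hP (sq_nonneg (p.muG σ'))) (by positivity)
    (le_trans (by positivity) hL)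
  linarith

end gst

end Crest.Agent.T156.Alt.Gx79

end
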