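import Crest.Agent.T156.CHd_50

/-!
# Row 156 (helper77): the main terms of the test head in site words (exact algebra)
-/

set_option autoImplicit false
set_option linter.unusedSectionVars false

noncomputable section

namespace Crest.Agent.T156.Cas.Alg77

open Finset Filter Topology
open Crest.Agent.T157.E Crest.Agent.T157.Casc Crest.Agent.T157.SL
open Crest.ProbabilityR.SpinGlassDynamics (spin)
open Mul55 R1J Sch6

/-! ### a first level without noise -/

section dead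

variable {Ω : Type} [Fintype Ω] {w : Ω → ℝ} {l : Lv Ω}

theorem tE_dead (hl : ∀ x i, l.A x i = 0) (F Φ : (Ω → ℝ) → ℝ) (h : Ω → ℝ) : tE l F Φ h = Φ h := by
  have e : ∀ g, h + l.fld g = h := fun g => by
    funext x
    simp [Lv.fld, hl]
  simp only [tE, e, MeasureTheory.integral_const, MeasureTheory.probReal_univ, one_smul]
  field_simp

theorem two_dead0 (hw : Wt w) (hl : ∀ x i, l.A x i = 0) (M : List (Lv Ω)) (h : Ω → ℝ) (j : ℕ)
    (Q : Ω → Ω → ℝ) : twoF (j + 1) Q (TEf w (l :: M) h) = twoF j Q (TEf w M h) :=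
  (Wt87.tX_two hw Q (j + 1) _ h).trans ((tE_dead hl _ _ h).trans (Wt87.tX_two hw Q j M h).symm)

theorem der_cons (hw : Wt w) (h : Ω → ℝ) (l : Lv Ω) (M : List (Lv Ω)) (S : ℕ → Ω → Ω → ℝ)
    (p v : ℝ × ℝ × ℝ) (t : ℝ) (s : Sh) (F : (s.Lf → Ω) → ℝ) :
    HasDerivAt (fun t : ℝ => TEf w (l :: aug (p + t • v) M S S) h s F)
      (Dfu (l :: M) (fun j => Nat.casesOn j 0 (Sq S S M.length v (p + t • v)))
        (TEf w (l :: aug (p + t • v) M S S) h) s F) t := by
  have := hasDerivAt_TEf hw isOpen_univ (L := l.cst :: aT (fun t => p + t • v) (fun _ => v) M S S)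
    (fun k hk => by
      rcases List.mem_cons.1 hk with rfl | hk
      · exact ⟨fun t _ x i => hasDerivAt_const _ _, fun x i => continuousOn_const⟩
      · exact c1_aT p v M S S k hk) (Set.mem_univ t) h s F
  have e : ∀ t, atL (l.cst :: aT (fun t => p + t • v) (fun _ => v) M S S) t =
      l :: aug (p + t • v) M S S := fun t => congrArg (List.cons _) (atL_aT _ _ t M S S)
  rw [show Sacc (l.cst :: aT (fun t => p + t • v) (fun _ => v) M S S) t =
      fun j => Nat.casesOn j 0 (Sq S S M.length v (p + t • v)) from funext fun j => by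
    rcases j with _ | j
    · funext x y
      exact Sp38.Sacc_zero' _ _ x y
    · funext x y
      rw [Sp38.Sacc_cons', Sacc_aT]
      simp [TL.S, Lv.cst]] at this
  simp only [e] at this
  rwa [Dfu_tilt (M' := l :: M) (by rw [List.map_cons, List.map_cons, m_aug])] at this

theorem pd_cons (hw : Wt w) (h : Ω → ℝ) (l : Lv Ω) (M0 : List (Lv Ω)) {Φ Ψ : Fn Ω → ℝ}
    (hΦ : FL Φ) (hΨ : FL Ψ)
    (H : ∀ M : List (Lv Ω), M.map Lv.m = M0.map Lv.m → Φ (TEf w (l :: M) h) = Ψ (TEf w M h))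
    {S : ℕ → Ω → Ω → ℝ} (h0 : S 0 = 0) (h1 : S 1 = 0) (M : List (Lv Ω))
    (hM : M.map Lv.m = M0.map Lv.m) :
    Φ (Dfu (l :: M0) S (TEf w (l :: M) h)) = Ψ (Dfu M0 (fun j => S (j + 1)) (TEf w M h)) := by
  rw [← Dfu_tilt hM, ← Dfu_tilt (M := l :: M) (by rw [List.map_cons, List.map_cons, hM])]
  set S' : ℕ → Ω → Ω → ℝ := fun j => S (j + 1) with hS'
  have p1 : ∀ t : ℝ, ((0, 0, 0) : ℝ × ℝ × ℝ) + t • ((1, 0, 0) : ℝ × ℝ × ℝ) = (t, 0, 0) :=
    fun t => by simp
  have c1 : Continuous fun e : ℝ => Φ (Dfu (l :: M) S (TEf w (l :: aug (e, 0, 0) M S' S') h)) := by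
    refine continuous_iff_continuousAt.2 fun t => ?_
    have := (hΦ.dfu (l :: M) S).der (der_cons hw h l M S' (0, 0, 0) (1, 0, 0) t)
    simp only [p1] at this
    exact this.continuousAt
  have c2 : Continuous fun e : ℝ => Ψ (Dfu M S' (TEf w (aug (e, 0, 0) M S' S') h)) := by
    refine continuous_iff_continuousAt.2 fun t => ?_
    have := (hΨ.dfu M S').der (Com6.der_aug hw h M S' S' (0, 0, 0) (1, 0, 0) t)
    simp only [p1] at this
    exact this.continuousAt
  have := eq_of_ne c1 c2 fun e he => by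
    have d1 := hΦ.der (der_cons hw h l M S' (e, 0, 0) (0, 1, 0) 0)
    have d2 := hΨ.der (Com6.der_aug hw h M S' S' (e, 0, 0) (0, 1, 0) 0)
    simp only [fun q => H _ ((m_aug q M S' S').trans hM), zero_smul, add_zero] at d1 d2
    rw [Com6.Dfu_e1 M h1 h1 e (isLin_TEf hw _ h), hΨ.lin, zero_mul, add_zero] at d2
    have e1 : Dfu (l :: M) (fun j => Nat.casesOn j 0 (Sq S' S' M.length (0, 1, 0) (e, 0, 0)))
        (TEf w (l :: aug (e, 0, 0) M S' S') h) = fun s F =>
        e * Dfu (l :: M) S (TEf w (l :: aug (e, 0, 0) M S' S') h) s F +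
          0 * TEf w (l :: aug (e, 0, 0) M S' S') h s F := by
      funext s F
      rw [Dfu_congrS (l :: M) (S' := fun j x y => e * S j x y + 0 * S j x y) fun j hj => by
        rcases j with _ | j
        · funext x y
          simp [h0]
        · refine (Sq_zero h1 h1 _ _ _ _ (Nat.le_of_succ_le_succ hj)).trans ?_
          funext x y
          simp [hS'], (isLin_TEf hw _ h).dfuS]
      ring
    rw [e1, hΦ.lin, zero_mul, add_zero] at d1
    exact mul_left_cancel₀ he (d1.unique d2)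
  rwa [show ((0, 0, 0) : ℝ × ℝ × ℝ) = 0 from rfl, TEf_same hw (same_aug M S' S'),
    TEf_same hw (.cons ⟨rfl, rfl⟩ (same_aug M S' S'))] at this

theorem pd_cons_word (hw : Wt w) (h : Ω → ℝ) (l : Lv Ω) (M0 : List (Lv Ω)) :
    ∀ (V : List (ℕ → Ω → Ω → ℝ)) {Φ Ψ : Fn Ω → ℝ}, FL Φ → FL Ψ →
    (∀ M : List (Lv Ω), M.map Lv.m = M0.map Lv.m → Φ (TEf w (l :: M) h) = Ψ (TEf w M h)) →
    (∀ S ∈ V, S 0 = 0 ∧ S 1 = 0) → ∀ M : List (Lv Ω), M.map Lv.m = M0.map Lv.m →
      Φ (WdF (l :: M0) V (TEf w (l :: M) h)) =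
        Ψ (WdF M0 (V.map fun S j => S (j + 1)) (TEf w M h))
  | [], _, _, _, _, H, _ => H
  | S :: V, _, _, hΦ, hΨ, H, h0 => pd_cons_word hw h l M0 V (hΦ.dfu _ S) (hΨ.dfu _ _)
      (pd_cons hw h l M0 hΦ hΨ H (h0 S List.mem_cons_self).1 (h0 S List.mem_cons_self).2)
      fun T hT => h0 T (List.mem_cons_of_mem _ hT)

theorem fl_twoF (j : ℕ) (Q : Ω → Ω → ℝ) : FL (twoF j Q) := FL.ev _ _

/-- **a first level without noise can be removed, whatever its tilt** -/
theorem two_dead (hw : Wt w) (hl : ∀ x i, l.A x i = 0) (M : List (Lv Ω)) (h : Ω → ℝ)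
    {V : List (ℕ → Ω → Ω → ℝ)}
    (hV : ∀ S ∈ V, S 0 = 0 ∧ S 1 = 0 ∧ ∃ c, ∀ y, S (M.length + 1) y y = c) (j : ℕ)
    (Q : Ω → Ω → ℝ) : twoF (j + 1) Q (WdO (l :: M) V (TEf w (l :: M) h)) =
      twoF j Q (WdO M (V.map fun S j => S (j + 1)) (TEf w M h)) := by
  rw [WdO_eq hw (l :: M) h V fun S hS => ⟨(hV S hS).1, (hV S hS).2.2⟩, WdO_eq hw M h _ fun S hS => by
    obtain ⟨T, hT, rfl⟩ := List.mem_map.1 hS
    exact (hV T hT).2]
  exact pd_cons_word hw h l M V (fl_twoF _ Q) (fl_twoF _ Q) (fun M' _ => two_dead0 hw hl M' h j Q)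
    (fun S hS => ⟨(hV S hS).1, (hV S hS).2.1⟩) M rfl

end dead

/-! ### site words -/

theorem w1 : Wt fun _ : Bool => (1 : ℝ) := One15.w1

theorem sk_mem (K : ℕ) {f : ℕ → ℝ} (h : f 0 = 0) : sk f ∈ Ok Bool K :=
  ⟨by funext a b; simp [sk, h], f K / 2, fun y => by cases y <;> simp [sk, spin]⟩

theorem sm_W (T : List (Lv Bool)) (k : ℕ) : Mul55.SM (Ok Bool T.length) fun U =>
    twoF k (fun a b => spin a * spin b) (WdO T U (TEf (fun _ => 1) T 0)) :=
  sm_WdO w1 T 0 (fl_twoF k _)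

variable {T : List (Lv Bool)} {k : ℕ} {f g h : ℕ → ℝ} {V V' : List (ℕ → ℝ)}

theorem W_perm (p : V.Perm V') (hV : ∀ f ∈ V, f 0 = 0) : W T k V = W T k V' :=
  (sm_W T k).perm (p.map sk) fun S hS => by
    obtain ⟨f, hf, rfl⟩ := List.mem_map.1 hS
    exact sk_mem _ (hV f hf)

theorem W_lin (T : List (Lv Bool)) (k : ℕ) (a b : ℝ) (f g : ℕ → ℝ) (V : List (ℕ → ℝ)) :
    W T k ((fun j => a * f j + b * g j) :: V) = a * W T k (f :: V) + b * W T k (g :: V) := by
  refine Eq.trans ?_ ((sm_W T k).lin a b (sk f) (sk g) (V.map sk))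
  have : sk (fun j => a * f j + b * g j) = a • sk f + b • sk g := by
    funext j x y
    simp only [sk, Pi.add_apply, Pi.smul_apply, smul_eq_mul]
    ring
  rw [← this]
  rfl

theorem W_smul (T : List (Lv Bool)) (k : ℕ) (a : ℝ) (f : ℕ → ℝ) (V : List (ℕ → ℝ)) :
    W T k ((fun j => a * f j) :: V) = a * W T k (f :: V) := by
  simpa using W_lin T k a 0 f f V

theorem W_add (T : List (Lv Bool)) (k : ℕ) (f g : ℕ → ℝ) (V : List (ℕ → ℝ)) :
    W T k ((fun j => f j + g j) :: V) = W T k (f :: V) + W T k (g :: V) := by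
  simpa using W_lin T k 1 1 f g V

theorem W_sub (T : List (Lv Bool)) (k : ℕ) (f g : ℕ → ℝ) (V : List (ℕ → ℝ)) :
    W T k ((fun j => f j - g j) :: V) = W T k (f :: V) - W T k (g :: V) := by
  simpa [sub_eq_add_neg] using W_lin T k 1 (-1) f g V

/-- the value at the node `t` is split off -/
theorem W_split (T : List (Lv Bool)) (k t : ℕ) (f : ℕ → ℝ) (V : List (ℕ → ℝ)) :
    W T k (f :: V) = f t * W T k (ind t :: V) + W T k (off t f :: V) := by
  have := W_lin T k (f t) 1 (ind t) (off t f) V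
  rw [one_mul] at this
  rw [← this]
  congr 2
  funext j
  by_cases e : j = t <;> simp [ind, off, e]

theorem W_swap (hf : f 0 = 0) (hg : g 0 = 0) (hV : ∀ f ∈ V, f 0 = 0) :
    W T k (f :: g :: V) = W T k (g :: f :: V) :=
  W_perm (.swap _ _ _) (by simpa [hf, hg] using hV)

theorem ind_zero {t : ℕ} (ht : 0 < t) : ind t 0 = 0 := if_neg ht.ne

theorem off_zero (t : ℕ) (hf : f 0 = 0) : off t f 0 = 0 := by simp [off, hf]

/-- the tilt of an empty root level does not matter -/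
theorem W_dead {l : Lv Bool} (hl : ∀ x i, l.A x i = 0) (T : List (Lv Bool))
    (hV : ∀ f ∈ V, f 0 = 0 ∧ f 1 = 0) (k : ℕ) :
    W (l :: T) (k + 1) V = W T k (V.map fun f j => f (j + 1)) := by
  rw [W, two_dead w1 hl T 0 fun S hS => by
    obtain ⟨f, hf, rfl⟩ := List.mem_map.1 hS
    exact ⟨(sk_mem 0 (hV f hf).1).1, by funext a b; simp [sk, (hV f hf).2],
      (sk_mem _ (hV f hf).1).2⟩, W, List.map_map, List.map_map]
  rfl

/-- symmetry: the test weight is one more letter -/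
theorem W_sym (T : List (Lv Bool)) (hf : f 0 = 0) (hg : g 0 = 0) (hV : ∀ u ∈ V, u 0 = 0) :
    ∑ j ∈ range (T.length + 1), dm T 0 j * (f j * W T j (g :: V)) =
      ∑ j ∈ range (T.length + 1), dm T 0 j * (g j * W T j (f :: V)) := by
  have e : ∀ (f : ℕ → ℝ) (V : List (ℕ → ℝ)), ∑ j ∈ range (T.length + 1), dm T 0 j * (f j * W T j V) =
      2 * Lam (fun _ => 1) T 0 (sk f :: V.map sk) := fun f V => by
    rw [Lam_cons, pairF, mul_sum]
    refine sum_congr rfl fun j _ => ?_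
    have := ((isLin_TEf w1 T 0).wdO T (V.map sk)) (Sh.two j) (f j / 2) 0
      (fun x => spin (x (Sh.twoL j)) * spin (x (Sh.twoR j))) fun _ => 0
    simp only [mul_zero, add_zero, zero_mul] at this
    rw [show twoF j (sk f j) (WdO T (V.map sk) (TEf (fun _ => 1) T 0)) = f j / 2 * W T j V from this]
    ring
  rw [e, e]
  congr 1
  refine (sm_Lam w1 T 0).perm (.swap _ _ _) fun S hS => ?_
  obtain ⟨u, hu, rfl⟩ := List.mem_map.1 (show S ∈ (f :: g :: V).map sk from hS)
  exact sk_mem _ (by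
    rcases List.mem_cons.1 hu with rfl | hu
    · exact hf
    · rcases List.mem_cons.1 hu with rfl | hu
      exacts [hg, hV u hu])

/-- letters matter only below the top node -/
theorem dW_top (hT : dm T 0 T.length = 0) {t : ℕ} (h0 : 0 < t) (ht : t ≤ T.length) (hf : f 0 = 0)
    (hg : g 0 = 0) (hV : ∀ u ∈ V, u 0 = 0) (e : ∀ j < T.length, f j = g j) :
    dm T 0 t * W T t (f :: V) = dm T 0 t * W T t (g :: V) := by
  have := W_sym T (g := fun j => f j - g j) (ind_zero h0) (by simp [hf, hg]) hV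
  rw [sum_eq_single t (fun j _ hj => by simp [ind, hj]) (fun h => absurd (mem_range.2 (by omega)) h),
    sum_eq_zero fun j hj => by
      rcases (Nat.lt_succ_iff.1 (mem_range.1 hj)).lt_or_eq with h | h
      · simp [e j h]
      · rw [h, hT, zero_mul], W_sub] at this
  simp only [ind, if_true, one_mul] at this
  linarith

/-! ### the main terms -/

open C40

/-- the centred letter -/
def lq (D : CD) (g : ℕ → ℝ) : SK := fun j a b => g j / 2 * (spin a * spin b - D.q j)

/-- `τ δ` on UP -/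
def gd (D : CD) (j : ℕ) : ℝ := if j ∈ D.up then D.τ j * D.del j else 0

/-- a test measure with density `f` -/
structure Tw (D : CD) (f : ℕ → ℝ) : Prop where
  tst : D.W.isSome = true
  cut : D.J < D.K
  top : D.dx D.K = 0
  lo : ∀ j ≤ D.J, f j = 0
  om : ∀ j ∈ D.up, D.om j = D.dx j * f j

/-- the off-diagonal bilinear form -/
def Bq (D : CD) (f g h : ℕ → ℝ) : ℝ := D.I fun t => g t * W D.S t [off t h, f]

variable {D : CD}

theorem lenS (D : CD) : D.S.length = D.K := opS_length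

theorem dmS (D : CD) (j : ℕ) : dm D.S 0 j = D.dx j := by
  rw [Cav22.dm_tilt tilt_opS]

theorem gd_lo (D : CD) {j : ℕ} (h : j ≤ D.J) : gd D j = 0 :=
  if_neg fun e => absurd (mem_Ioo.1 e).1 (by omega)

theorem gd_up (D : CD) {j : ℕ} (h : j ∈ D.up) : gd D j = D.τ j * D.del j := if_pos h

theorem I_congr (D : CD) {a b : ℕ → ℝ} (h : ∀ j ∈ D.up, D.dx j * a j = D.dx j * b j) :
    D.I a = D.I b := sum_congr rfl h

theorem I_ind (D : CD) {t : ℕ} (ht : t ∈ D.up) (c : ℝ) (a : ℕ → ℝ) :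
    D.I (fun j => c * ind t j * a j) = D.dx t * (c * a t) := by
  rw [CD.I, sum_eq_single t (fun j _ hj => by simp [ind, hj]) fun h => absurd ht h]
  simp [ind]

theorem dd_tst (H : D.W.isSome = true) (x y : ℝ) : D.dd x y = y := by
  unfold CD.dd
  cases e : D.W with
  | none => simp [e] at H
  | some _ => rfl

/-- the test head for any test measure -/
theorem sL_om (H : D.W.isSome = true) (hg : g 0 = 0) (hV : ∀ u ∈ V, u 0 = 0) :
    D.sL ((g :: V).map (lq D)) = ∑ j ∈ D.up, D.om j * W D.S j (g :: V) := by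
  rw [CD.sL, CD.sH, dd_tst H]
  refine sum_congr rfl fun j _ => ?_
  rw [← Hd50.s6 D.S j (D.q j) g V D.q (by simpa [hg] using hV)]
  simp only [List.drop_zero, Nat.sub_zero, add_zero, List.map_id', zero_mul]
  rfl

theorem lev_eq (D : CD) (t : ℕ) : D.lev t = lq D fun j => 2 * ind t j := by
  funext j a b
  by_cases e : j = t <;> simp [CD.lev, lq, ind, e, oE]

theorem Sd_eq (D : CD) : D.Sd = lq D fun j => if D.J < j then D.τ j * D.del j else 0 := by
  funext j a b
  by_cases e : D.J < j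
  · simp only [CD.Sd, lq, e, oE, if_true]
    ring
  · simp [CD.Sd, lq, e]

namespace Tw

variable (H : Tw D f)
include H

theorem dd (x y : ℝ) : D.dd x y = y := dd_tst H.tst x y

theorem f0 : f 0 = 0 := H.lo 0 (Nat.zero_le _)

theorem sum_up (hg : ∀ j ≤ D.J, g j = 0) (a : ℕ → ℝ) :
    ∑ j ∈ range (D.S.length + 1), dm D.S 0 j * (g j * a j) = D.I fun j => g j * a j := by
  simp only [lenS, dmS, CD.I]
  refine (sum_subset (fun j hj => mem_range.2 (by have := mem_Ioo.1 hj; omega))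
    fun j h1 h2 => ?_).symm
  rcases le_or_gt j D.J with e | e
  · rw [hg j e, zero_mul, mul_zero]
  · rw [show j = D.K by rw [mem_range] at h1; rw [mem_Ioo] at h2; omega, H.top, zero_mul]

/-- symmetry on UP -/
theorem sym (hg : ∀ j ≤ D.J, g j = 0) (hh : ∀ j ≤ D.J, h j = 0) (hV : ∀ u ∈ V, u 0 = 0) :
    (D.I fun j => g j * W D.S j (h :: V)) = D.I fun j => h j * W D.S j (g :: V) := by
  rw [← H.sum_up hg, ← H.sum_up hh]
  exact W_sym _ (hg 0 (Nat.zero_le _)) (hh 0 (Nat.zero_le _)) hV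

/-- **the test head in site words** -/
theorem sL_eq (hg : ∀ j ≤ D.J, g j = 0) (hV : ∀ u ∈ V, u 0 = 0) :
    D.sL ((g :: V).map (lq D)) = D.I fun t => g t * W D.S t (f :: V) := by
  rw [← H.sym H.lo hg hV, sL_om H.tst (hg 0 (Nat.zero_le _)) hV]
  exact sum_congr rfl fun j hj => by rw [H.om j hj, mul_assoc]

theorem top' {t : ℕ} (ht : t ∈ D.up) (hg : g 0 = 0) (hh : h 0 = 0) (hV : ∀ u ∈ V, u 0 = 0)
    (e : ∀ j < D.K, g j = h j) : D.dx t * W D.S t (g :: V) = D.dx t * W D.S t (h :: V) := by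
  have := mem_Ioo.1 ht
  simpa only [dmS] using dW_top (T := D.S) (t := t) (by rw [lenS, dmS, H.top]) (by omega)
    (by rw [lenS]; omega) hg hh hV (by rwa [lenS])

theorem f1_eq : D.f1' = D.I fun t => D.τ t * D.del t * W D.S t [f] := by
  rw [CD.f1', Sd_eq]
  refine (H.sL_eq (V := []) (fun j hj => if_neg (by omega)) (by simp)).trans
    (I_congr D fun j hj => by rw [if_pos (mem_Ioo.1 hj).1])

theorem ind_lo {t : ℕ} (ht : t ∈ D.up) (c : ℝ) : ∀ j ≤ D.J, c * ind t j = 0 := fun j hj => by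
  have := mem_Ioo.1 ht
  rw [ind, if_neg (by omega), mul_zero]

theorem lev1 {t : ℕ} (ht : t ∈ D.up) : D.sL [D.lev t] = 2 * (D.dx t * W D.S t [f]) := by
  rw [lev_eq]
  refine (H.sL_eq (V := []) (H.ind_lo ht 2) (by simp)).trans ?_
  rw [I_ind D ht]
  ring

theorem lev2 {t : ℕ} (ht : t ∈ D.up) :
    D.sL [D.lev t, D.lev t] = 4 * (D.dx t * W D.S t [ind t, f]) := by
  have i0 := H.ind_lo ht 2 0 (Nat.zero_le _)
  rw [lev_eq]
  refine (H.sL_eq (V := [_]) (H.ind_lo ht 2) (by simpa using i0)).trans ?_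
  rw [I_ind D ht, W_swap H.f0 i0 (by simp), W_smul]
  ring

theorem lev3 {t : ℕ} (ht : t ∈ D.up) :
    D.sL [D.lev t, D.lev t, D.lev t] = 8 * (D.dx t * W D.S t [ind t, ind t, f]) := by
  have i0 := H.ind_lo ht 2 0 (Nat.zero_le _)
  have i1 : ind t 0 = 0 := by linarith
  rw [lev_eq]
  refine (H.sL_eq (V := [_, _]) (H.ind_lo ht 2) (by simpa using i0)).trans ?_
  rw [I_ind D ht, W_perm (V' := [fun j => 2 * ind t j, fun j => 2 * ind t j, f])
    (List.perm_append_singleton f [_, _]).symm (by simp [H.f0, i1]), W_smul,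
    W_swap i1 i0 (by simp [H.f0]), W_smul]
  ring

theorem QM_eq : D.QM =
    D.I (fun t => (D.τ t * D.del t) ^ 2 * W D.S t [ind t, f]) + Bq D f (gd D) (gd D) := by
  have g0 : (fun j => if D.J < j then D.τ j * D.del j else 0) 0 = 0 := if_neg (by omega)
  rw [CD.QM, Sd_eq]
  refine (H.sL_eq (V := [_]) (fun j hj => if_neg (by omega)) (by simp)).trans ?_
  rw [Bq, CD.I, CD.I, CD.I, ← sum_add_distrib]
  refine sum_congr rfl fun t ht => ?_
  have := H.top' (g := fun j => if D.J < j then D.τ j * D.del j else 0) ht g0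
    (gd_lo D (Nat.zero_le _)) (V := [f]) (by simp [H.f0]) fun j hj => by simp [gd, hj]
  rw [W_swap (g := fun j => if D.J < j then D.τ j * D.del j else 0) H.f0 g0 (by simp), if_pos (mem_Ioo.1 ht).1, mul_left_comm, this, W_split _ _ t,
    gd_up D ht]
  ring

theorem q2_eq : D.q2 =
    (D.I (fun t => D.τ t ^ 2 * D.u 2 t * W D.S t [ind t, f]) + Bq D f (gd D) (gd D)) / 2 := by
  rw [CD.q2, H.dd, H.QM_eq, CD.LOC, add_right_comm _ (Bq _ _ _ _), CD.I, CD.I,
    ← sum_add_distrib, zero_mul, neg_zero, zero_div, zero_add]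
  congr 2
  exact sum_congr rfl fun t ht => by rw [H.lev2 ht]; ring

theorem c3_eq :
    D.c3 = D.I (fun t => D.τ t ^ 3 * D.u3 t * W D.S t [ind t, ind t, f]) / 6 := by
  rw [CD.c3, CD.LOC3, CD.I]
  congr 1
  exact sum_congr rfl fun t ht => by rw [H.lev3 ht]; ring

/-- **the main terms of the test head** -/
theorem main_eq : D.main = (D.yh + D.y2 + D.y3 + D.y4 + D.mx) +
    D.I (fun t => D.τ t * D.del t * W D.S t [f]) +
    D.I (fun t => D.τ t ^ 2 * D.u 2 t * W D.S t [ind t, f]) / 2 + Bq D f (gd D) (gd D) / 2 +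
    D.I (fun t => D.τ t ^ 3 * D.u3 t * W D.S t [ind t, ind t, f]) / 6 := by
  rw [CD.main, H.f1_eq, H.q2_eq, H.c3_eq]
  ring

theorem Bq_symm (hg : ∀ j ≤ D.J, g j = 0) (hh : ∀ j ≤ D.J, h j = 0) :
    Bq D f g h = Bq D f h g := by
  have e : ∀ g h : ℕ → ℝ, Bq D f g h = D.I (fun t => g t * W D.S t [h, f]) -
      D.I fun t => g t * h t * W D.S t [ind t, f] := fun g h => by
    rw [Bq, CD.I, CD.I, CD.I, ← sum_sub_distrib]
    exact sum_congr rfl fun t _ => by rw [W_split _ _ t h]; ring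
  rw [e, e, H.sym hg hh (by simp [H.f0])]
  simp only [mul_comm (g _) (h _)]

/-- the difference of two quadratic terms is linear in the difference -/
theorem Bq_sub (hg : ∀ j ≤ D.J, g j = 0) (hh : ∀ j ≤ D.J, h j = 0) : Bq D f h h - Bq D f g g =
    D.I fun t => (h t - g t) * W D.S t [off t fun j => g j + h j, f] := by
  have e : ∀ t, W D.S t [off t fun j => g j + h j, f] = W D.S t [off t g, f] + W D.S t [off t h, f] :=
    fun t => by
      rw [← W_add]
      congr 2
      funext j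
      by_cases e : j = t <;> simp [off, e]
  have s := H.Bq_symm hg hh
  simp only [Bq, CD.I, e, sub_mul, mul_add, mul_sub, sum_add_distrib, sum_sub_distrib] at s ⊢
  linarith

end Tw

/-- the signed part of the off-diagonal response -/
theorem W_off (T : List (Lv Bool)) (t : ℕ) (hf : f 0 = 0) (hh : h 0 = 0) :
    W T t [off t h, f] = f t * R1J.J T h t + W T t [off t f, off t h] := by
  rw [W_swap (off_zero t hh) hf (by simp), W_split _ _ t, R1J.J]

end Crest.Agent.T156.Cas.Alg77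

end
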