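import Crest.Agent.T156.R1S_95
import Crest.Agent.T156.R1K_60
import Crest.Agent.T156.CQ2A_10
import Crest.Agent.T156.CLink_87

/-!
# Row 156 (helper39): the site leaves (S1) and (S3) of `R1J_60`
-/

set_option autoImplicit false
set_option linter.unusedSectionVars false

noncomputable section

namespace Crest.Agent.T156.Cas.R1S39

open MeasureTheory Real Set Filter Topology
open Crest.Agent.T157.E Crest.Agent.T157.Casc Crest.Agent.T157.SL Crest.Agent.T157.Casc.C
open Crest.Agent.R339.B Crest.Agent.R339.Var Crest.Agent.T157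
open Crest.ProbabilityR.SpinGlassDynamics (spin)
open Nu87 One15 Site94 Wp52 Q75
open R1J (Nd W ind off sk n1 G)

variable {L : List (Lv Bool)} {k : ℕ} {P : ℝ}

theorem ex_le (N : Nd L k P) : ex L k ≤ P := by
  have h0 : 0 ≤ Ker15.tm L k := by
    simpa [Ker15.tm, cacc] using N.r1.tm_mono (Nat.zero_le k)
  exact (le_min (Tay38.ex_le_one N.mono k) (le_add_of_nonneg_right h0)).trans N.par

/-- an odd cluster at a cut below the node costs the parity size -/
theorem sf_odd (N : Nd L k P) {ι : Type} [DecidableEq ι] {r : ℕ} {σ : SM r} {p p' : ι → Fin r}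
    {B : Finset ι} (hσ : Rz L.length σ) {j : ℕ} (hj : j ≤ k) (ho : OddAt σ p p' B j) :
    |SF L (fun _ => 0) p p' B σ| ≤ 2 ^ B.card * (cP r 1 * P) := by
  obtain ⟨ℓ, H, hP⟩ := R1S95.Nd_par N
  have h1 : ∀ e ∈ B, |(fun _ : ι => (0 : ℕ → ℝ)) e (σ (p e) (p' e))| ≤ 1 := fun _ _ => by simp
  rcases le_or_gt 1 P with h | h
  · obtain ⟨a, -⟩ := ho
    exact (abs_SF_le hσ h1).trans (le_mul_of_one_le_right (by positivity)
      (one_le_mul_of_one_le_of_one_le (one_le_cP a 1) h))
  · have hT : R339.Var.TT (ℓ.take k) ≤ P := (min_le_iff.1 hP).resolve_left h.not_ge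
    refine (SF_odd H N.mono hσ h1 ho N.p0 ((R1S95.TT_take_mono H hj).trans hT)
      fun _ _ _ => by simp [N.p0.le]).trans ?_
    exact mul_le_mul_of_nonneg_left (mul_le_mul_of_nonneg_right (cP_mono _ h.le) N.p0.le)
      (by positivity)

/-- two edges, one end of the second edge alone above the node -/
theorem two_odd (N : Nd L k P) {r : ℕ} (hr : r ≤ 4) {σ : SM r} (hσ : Rz L.length σ)
    {a b c d : Fin r} (hab : σ a b ≤ k)
    (h : (σ a c ≤ k ∧ σ a d ≤ k) ∨ (σ b c ≤ k ∧ σ b d ≤ k)) :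
    |TM (fun _ => 1) L 0 σ fun x => ed (eK 0) c d x σ * ed (eK 0) a b x σ| ≤ 4 * (cP 4 1 * P) := by
  have e : (TM (fun _ => 1) L 0 σ fun x => ed (eK 0) c d x σ * ed (eK 0) a b x σ) =
      SF L (fun _ => 0) ![c, a] ![d, b] Finset.univ σ :=
    congrArg _ (funext fun x => by rw [Fin.prod_univ_two]; rfl)
  have hk := N.kK
  have hc : cP r 1 ≤ cP 4 1 := by
    unfold Site94.cP
    have : (r : ℝ) ≤ (4 : ℕ) := by exact_mod_cast hr
    gcongr
  rw [e]
  refine (sf_odd N hσ le_rfl ?_).trans ((mul_le_mul_of_nonneg_left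
    (mul_le_mul_of_nonneg_right hc N.p0.le) (by positivity)).trans_eq (by norm_num))
  have s1 := hσ.self a
  have s2 := hσ.self b
  have s3 := hσ.comm a b
  rcases h with h | h
  · refine ⟨a, ?_⟩
    have h1 : ¬Crs σ a k c d := by unfold Crs; omega
    have h2 : Crs σ a k a b := by unfold Crs; omega
    rw [Finset.card_filter, Fin.sum_univ_two]
    simp [h1, h2]
  · refine ⟨b, ?_⟩
    have h1 : ¬Crs σ b k c d := by unfold Crs; omega
    have h2 : Crs σ b k a b := by unfold Crs; omega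
    rw [Finset.card_filter, Fin.sum_univ_two]
    simp [h1, h2]

/-- the site coefficient -/
abbrev cc (L : List (Lv Bool)) : Tw := ee (fun _ => 1) L 0 (eK 0) (eK 0)

theorem eK_sy (j : ℕ) (x y : Bool) : eK 0 j x y = eK 0 j y x := by simp only [eK, mul_comm]

theorem sk_sy (f : ℕ → ℝ) (j : ℕ) (x y : Bool) : sk f j x y = sk f j y x := by
  simp only [sk, mul_comm]

theorem ee_eqv (f : ℕ → ℝ) : (ee (fun _ => 1) L 0 (eK 0) (sk f)).Eqv
    ((wt (fun _ => 1) fun j => f j / 2).mul (cc L)) L.length := by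
  have key : ∀ {r : ℕ} (σ : SM r) (a b c d : Fin r),
      (TM (fun _ => 1) L 0 σ fun x => ed (eK 0) c d x σ * ed (sk f) a b x σ) =
        1 * (f (σ a b) / 2) * TM (fun _ => 1) L 0 σ
          fun x => ed (eK 0) c d x σ * ed (eK 0) a b x σ := fun σ a b c d => by
    rw [← TM_mul]
    refine congrArg _ (funext fun x => ?_)
    simp only [ed, sk, eK, Pi.zero_apply, sub_zero]
    ring
  exact ⟨fun σ _ => key σ 0 1 0 1, fun σ _ => key σ 0 1 1 2, fun σ _ => key σ 0 1 2 3⟩

/-- **exact form of one letter**: local part and non-local part -/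
theorem W_exp (H : Ker15.R1 L) (hM : Mono 0 L) (hk : k ≤ L.length) {f : ℕ → ℝ} (h0 : f 0 = 0) :
    W L k [f] = f k * G L k + NLx L ((wt (fun _ => 1) fun j => f j / 2).mul (cc L)) k := by
  have e1 := L87.twoF_ex (L := L) (h := 0) w1 eK_sy (sk_sy f) (R1J.sk_mem _ h0) hk
  have e2 : eK 0 k = fun a b => spin a * spin b := by
    funext a b; simp [eK]
  obtain ⟨C, -, hC⟩ := gsS 0
  have e3 := (hC L 0 k 0 H hM hk).1
  rw [e2, L87.Ex_congr (ee_eqv f), expS _ _ _ (A10.Sy_mul (A10.Sy_wt _ _)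
    (L87.ee_sy w1 eK_sy eK_sy)) k hk, A10.SN_wt _ _ hk, SN_eq L hk, e3] at e1
  refine e1.trans ?_
  rw [G]
  ring

/-- the node letter at the node -/
theorem W_ind (N : Nd L k P) : |W L k [ind k] - G L k| ≤ 22 * (cP 4 1 * P) * dm L 0 k := by
  have hM := N.mono
  have ht := N.kK.le
  rw [W_exp N.r1 hM ht (R1J.ind_zero N.k0), ind, if_pos rfl, one_mul, add_sub_cancel_left]
  set b := 2 * (cP 4 1 * P) with hb
  set T := (wt (fun _ => 1) fun j => ind k j / 2).mul (cc L) with hT
  have d0 := dm_nonneg hM k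
  have b0 : 0 ≤ b := mul_nonneg zero_le_two (mul_nonneg (cP_nonneg _ _) N.p0.le)
  have z1 : ∀ y u, y ≠ k → T.lo L.length y k u = 0 := fun y u h => by
    rw [hT, lo_mul, A10.lo_wt]
    simp [ind, h]
  have z2 : ∀ y u, y ≠ k → T.tr.lo L.length k y u = 0 := fun y u h => by
    rw [hT, A10.lo_wt_tr]
    simp [ind, h]
  have z3 : ∀ z v, T.off L.length z k v = 1 * (ind k v / 2) * (cc L).off L.length z k v :=
    fun _ _ => rfl
  have l1 : ∀ y, y ≠ k → LO L T y k = 0 := fun y h => by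
    simp only [LO, Q75.cP, Lx, Q75.Lg, z1 y _ h]; simp
  have l2 : ∀ y, y ≠ k → LO L T.tr k y = 0 := fun y h => by
    simp only [LO, Q75.cP, Lx, Q75.Lg, z2 y _ h]; simp
  have half : ∀ v : ℝ, |v| ≤ 4 * (cP 4 1 * P) → |1 * ((1 : ℝ) / 2) * v| ≤ b := fun v hv => by
    rw [abs_mul, hb]
    norm_num
    linarith
  have b1 : ∀ u, k ≤ u → u ≤ L.length + 1 → |T.lo L.length k k u| ≤ b := fun u h1 h2 => by
    rw [hT, lo_mul, A10.lo_wt, ind, if_pos rfl, Tw.lo]
    refine half _ ?_
    split_ifs with h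
    · exact two_odd N (by norm_num) (rz_lo3 ht le_rfl) (a := 0) (b := 1) (c := 1) (d := 2) le_rfl
        (.inl ⟨le_rfl, le_rfl⟩)
    · exact two_odd N le_rfl (rz_lo4 ht le_rfl h1 (by omega)) (a := 0) (b := 1) (c := 2) (d := 3)
        le_rfl (.inr ⟨le_rfl, le_rfl⟩)
  have b2 : |LO L T k k| ≤ 10 * b := by
    have h1 := A10.abs_Lg hM ht b1
    have h2 := b1 k le_rfl (by omega)
    have h5 : dm L 0 k + ex L k ≤ 2 := by
      linarith [R1S95.dm_le_one hM ht, Tay38.ex_le_one hM k]
    have h6 : |(dm L 0 k + ex L k) * T.lo L.length k k k| ≤ 2 * b := by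
      rw [abs_mul, abs_of_nonneg (add_nonneg d0 (A10.ex_nn hM k))]
      exact mul_le_mul h5 h2 (abs_nonneg _) zero_le_two
    rw [LO, Q75.cP]
    have h7 := abs_le.1 h1.1
    have h8 := abs_le.1 h1.2
    rw [abs_le] at h6 ⊢
    constructor <;> linarith [h6.1, h6.2, h7.1, h7.2, h8.1, h8.2]
  have b3 : |∑ z ∈ Finset.range k, dm L 0 z * ∑ v ∈ Finset.Ioc z L.length,
      dm L 0 v * T.off L.length z k v| ≤ dm L 0 k * b := by
    have h5 : ∑ z ∈ Finset.range k, dm L 0 z ≤ 1 := by
      have h1 := sum_dm L 0 L.length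
      rw [ex_length, sub_zero] at h1
      rw [← h1]
      exact Finset.sum_le_sum_of_subset_of_nonneg (Finset.range_subset_range.2 (by omega))
        fun j _ _ => dm_nonneg hM j
    refine (Finset.abs_sum_le_sum_abs _ _).trans ((Finset.sum_le_sum
      (g := fun z => dm L 0 z * (dm L 0 k * b)) fun z hz => ?_).trans ?_)
    · have hz := Finset.mem_range.1 hz
      rw [Finset.sum_eq_single k (fun v _ hv => by simp [z3, ind, hv])
        (fun h => absurd (Finset.mem_Ioc.2 ⟨hz, ht⟩) h), z3, ind, if_pos rfl, abs_mul,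
        abs_mul, abs_of_nonneg (dm_nonneg hM z), abs_of_nonneg d0]
      exact mul_le_mul_of_nonneg_left (mul_le_mul_of_nonneg_left (half _
        (two_odd N le_rfl (rz_off ht hz.le hz.le ht) (a := 0) (b := 1) (c := 2) (d := 3) le_rfl
          (.inl ⟨hz.le, hz.le⟩))) d0) (dm_nonneg hM z)
    · rw [← Finset.sum_mul]
      exact mul_le_of_le_one_left (mul_nonneg d0 b0) h5
  rw [NLx, Finset.sum_eq_single k (fun y _ h => by rw [l1 y h, mul_zero])
      (fun h => absurd (Finset.self_mem_range_succ k) h),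
    Finset.sum_eq_zero fun y hy => by rw [l2 y (Finset.mem_Ioc.1 hy).1.ne', mul_zero], add_zero]
  have h9 : |dm L 0 k * LO L T k k| ≤ dm L 0 k * (10 * b) := by
    rw [abs_mul, abs_of_nonneg d0]
    exact mul_le_mul_of_nonneg_left b2 d0
  refine ((abs_add_le _ _).trans (add_le_add h9 b3)).trans_eq ?_
  rw [hb]
  ring

theorem node_le (hM : Mono 0 L) (hk : k ≤ L.length) (f : ℕ → ℝ) : dm L 0 k * |f k| ≤ n1 L f :=
  Finset.single_le_sum (f := fun j => dm L 0 j * |f j|)
    (fun j _ => mul_nonneg (dm_nonneg hM j) (abs_nonneg _)) (Finset.mem_range.2 (by omega))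

theorem Nm_off (hM : Mono 0 L) (f : ℕ → ℝ) : R1S95.Nm L (fun j => off k f j / 2) ≤ n1 L f :=
  Finset.sum_le_sum fun y _ => mul_le_mul_of_nonneg_left (by
    rw [abs_div, abs_two, off]
    split_ifs
    · simp
    · linarith [abs_nonneg (f y)]) (dm_nonneg hM y)

/-- one letter off the node -/
theorem W_off (N : Nd L k P) (f : ℕ → ℝ) :
    |W L k [off k f]| ≤ 320 * R1S95.cO 4 * (P * n1 L f) := by
  obtain ⟨ℓ, H, hP⟩ := R1S95.Nd_par N
  have h := R1S95.s1 (q := 0) H N.mono (by simp) N.kK.le hP (by simp [N.p0.le])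
    (R1S95.sk_eq (off k f))
  rw [R1J.off_self, zero_div, zero_mul, sub_zero] at h
  rw [R1S95.W_eq]
  exact h.trans (mul_le_mul_of_nonneg_left (mul_le_mul_of_nonneg_left (Nm_off N.mono f) N.p0.le)
    (mul_nonneg (by norm_num) (R1S95.cO_pos 4).le))

/-- **(S1)** -/
theorem s1S : R1J.S1 := by
  have c1 := R1S95.one_le_cO 4
  have c2 := cP_nonneg 4 1
  refine ⟨320 * R1S95.cO 4 + 22 * cP 4 1, by linarith, fun L k P N f _ => ?_⟩
  have h1 := W_off N f
  have h2 : |f k * (W L k [ind k] - G L k)| ≤ 22 * cP 4 1 * (P * n1 L f) := by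
    rw [abs_mul]
    refine (mul_le_mul_of_nonneg_left (W_ind N) (abs_nonneg _)).trans ?_
    have := mul_le_mul_of_nonneg_left (node_le N.mono N.kK.le f)
      (mul_nonneg (mul_nonneg (by norm_num : (0 : ℝ) ≤ 22) c2) N.p0.le)
    linarith
  rw [R1J.W_split f, show ∀ a b c d : ℝ, a * b + c - a * d = a * (b - d) + c from
    fun _ _ _ _ => by ring]
  exact ((abs_add_le _ _).trans (add_le_add h2 h1)).trans_eq (by ring)

/-! ### two letters -/

/-- three edges at the node -/
theorem W_ind2 (N : Nd L k P) :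
    |W L k [ind k, ind k]| ≤ 6 ^ 8 * (2 * (cP 6 1 * P + 15 ^ 4 * (P + 2 * dm L 0 k))) := by
  have hM := N.mono
  have hk := N.kK.le
  have d0 := dm_nonneg hM k
  have n0 := mul_nonneg (cP_nonneg 6 1) N.p0.le
  have p0 := N.p0.le
  have nD : ∀ j, 0 ≤ ind k j := fun j => by unfold ind; positivity
  have hO := R1J.sk_mem L.length (R1J.ind_zero N.k0)
  have e1 := twoF_eq_nW (L := L) (h := 0) w1 (U := [sk (ind k), sk (ind k)])
    (fun S hS => by
      simp only [List.mem_cons, List.not_mem_nil, or_false, or_self] at hS; exact hS ▸ hO)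
    hk fun _ a b => spin a * spin b
  have e2 := nW_range (w := fun _ => 1) (L := L) (h := 0) (fun _ => sk (ind k)) (tw L.length k)
    (ed (fun _ a b => spin a * spin b) 0 1) 2
  have e3 := nuc_nDv (w := fun _ => 1) (L := L) (h := 0) (tw L.length k) (fun _ => sk (ind k))
    (ed (fun _ a b => spin a * spin b) 0 1) 2 fun _ => 1
  simp only [one_mul] at e3
  refine (congrArg abs (e1.trans (e2.trans e3))).trans_le ((abs_sum_nCG_le
    (B := 2 * (cP 6 1 * P + 15 ^ 4 * (P + 2 * dm L 0 k))) (by positivity) fun f _ => ?_).trans_eq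
      (by norm_num))
  set a : Fin 6 := old (r := 1) 4 0 with ha
  set b : Fin 6 := old (r := 1) 4 1 with hb
  refine (abs_avc_le (r := 1) hM (rz_tw _ k) 4 (g := fun σ => 2 * (cP 6 1 * P +
    if Out id σ a b then ind k (σ a b) else 0)) fun σ hσ ho => ?_).trans ?_
  · have hab : σ a b = k := (ho 0 1).trans (tw_01 hk)
    have o0 : 0 ≤ if Out id σ a b then ind k (σ a b) else 0 := by
      split_ifs
      exacts [nD _, le_rfl]
    have e : (TM (fun _ => 1) L 0 σ fun x =>
        RF.re (ed (fun _ a b => spin a * spin b) 0 1) (old (r := 1) (2 * 2)) x σ *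
          ∏ i : Fin 2, ed (sk (ind k)) (f i).1 (f i).2 x σ) =
        ind k (σ (f 0).1 (f 0).2) * ind k (σ (f 1).1 (f 1).2) / 4 *
          SF L (fun _ => 0) ![a, (f 0).1, (f 1).1] ![b, (f 0).2, (f 1).2] Finset.univ σ := by
      rw [SF, ← TM_mul]
      refine congrArg _ (funext fun x => ?_)
      simp only [Fin.prod_univ_two, Fin.prod_univ_three, RF.re, ed, sk, et, Pi.zero_apply, sub_zero,
        Matrix.cons_val_zero, Matrix.cons_val_one, Matrix.cons_val_two, Matrix.head_cons,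
        Matrix.tail_cons, ha, hb]
      ring
    refine (congrArg abs e).trans_le ?_
    by_cases h0 : σ (f 0).1 (f 0).2 = k
    swap
    · simp only [ind, if_neg h0, zero_mul, zero_div, abs_zero]
      exact mul_nonneg zero_le_two (add_nonneg n0 o0)
    by_cases h1 : σ (f 1).1 (f 1).2 = k
    swap
    · simp only [ind, if_neg h1, mul_zero, zero_mul, zero_div, abs_zero]
      exact mul_nonneg zero_le_two (add_nonneg n0 o0)
    have hl : ∀ e : Fin 3, σ (![a, (f 0).1, (f 1).1] e) (![b, (f 0).2, (f 1).2] e) = k := fun e => by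
      fin_cases e
      exacts [hab, h0, h1]
    have c8 : (2 : ℝ) ^ (Finset.univ : Finset (Fin 3)).card = 8 := by norm_num
    have i1 : ind k k = 1 := if_pos rfl
    rw [h0, h1, i1, abs_mul, show |(1 : ℝ) * 1 / 4| = 1 / 4 by norm_num]
    rcases good_three hσ (c := id) monotone_id (fun _ => le_rfl) (p := ![a, (f 0).1, (f 1).1])
      (p' := ![b, (f 0).2, (f 1).2])
      (fun ⟨i₀, _, i₂, _, _, _, _, h, _⟩ => by rw [hl, hl] at h; exact lt_irrefl _ h) with
      ⟨j, hj, hj'⟩ | hj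
    · have := sf_odd N hσ ((hj' 0 (Finset.mem_univ _)).trans_eq (hl 0)) hj
      rw [c8] at this
      linarith
    · have := abs_SF_le (L := L) (q := fun _ => 0) (p := ![a, (f 0).1, (f 1).1])
        (p' := ![b, (f 0).2, (f 1).2]) (B := Finset.univ) hσ fun _ _ => by simp
      have h2 : Out id σ a b := hj 0 (Finset.mem_univ _)
      rw [c8] at this
      rw [if_pos h2, hab, i1]
      linarith
  · have h3 := avc_out hM hk 4 (c := id) (fun _ => le_rfl) nD (a := a) (b := b) (by decide)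
    have one : Br L (ind k) = dm L 0 k := by
      simp only [Br, ind, mul_ite, mul_one, mul_zero, Finset.sum_ite_eq', Finset.mem_range]
      exact if_pos (by omega)
    have m1 : (Br L fun v => if k ≤ id v then ind k v else 0) ≤ dm L 0 k :=
      (Br_mono hM fun v _ => by
        split_ifs
        exacts [le_rfl, nD v]).trans_eq one
    have m2 : (Br L fun v => ex L (id v) * ind k v) ≤ dm L 0 k :=
      (Br_mono hM fun v _ => mul_le_of_le_one_left (nD v) (Tay38.ex_le_one hM v)).trans_eq one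
    have m3 : ex L (id k) * ind k k ≤ P := by
      rw [ind, if_pos rfl, mul_one]
      exact ex_le N
    rw [avc_mul, avc_add, avc_const]
    refine mul_le_mul_of_nonneg_left (add_le_add le_rfl (h3.trans ?_)) zero_le_two
    rw [show (3 * (1 + ((4 : ℕ) : ℝ))) ^ 4 = 15 ^ 4 by norm_num]
    exact mul_le_mul_of_nonneg_left (by linarith) (by norm_num)

/-- a letter off the node and the node letter -/
theorem W_off_ind (N : Nd L k P) (f : ℕ → ℝ) :
    |W L k [off k f, ind k]| ≤ 4500 ^ 2 * 16 * n1 L f := by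
  have hM := N.mono
  have h := R1S95.w2_crude (q := 0) hM (by simp) N.kK.le (R1S95.sk_eq (off k f))
    (R1S95.sk_eq (ind k))
  have e1 : R1S95.Nm L (fun y => off k f y / 2 * (ind k y / 2)) = 0 :=
    Finset.sum_eq_zero fun y _ => by
      by_cases h : y = k <;> simp [off, ind, h]
  have e2 : R1S95.Nm L (fun y => ind k y / 2) ≤ 1 / 2 :=
    (Br_mono hM (g := fun y => |ind k y / 2|) (g' := fun _ => 1 / 2) fun y _ => by
      unfold ind
      split_ifs <;> norm_num).trans_eq (Br_const _)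
  have e3 : |ind k k / 2| = 1 / 2 := by
    rw [ind, if_pos rfl]
    norm_num
  rw [e1, e3, R1J.off_self, zero_div, abs_zero, add_zero, add_zero] at h
  rw [R1S95.W_eq]
  refine h.trans (mul_le_mul_of_nonneg_left ?_ (by norm_num))
  exact (mul_le_of_le_one_right (R1S95.Nm_nonneg hM _) (by linarith)).trans (Nm_off hM f)

/-- **(S3)** -/
theorem s3S : R1J.S3 := by
  have c2 := cP_nonneg 6 1
  refine ⟨6 ^ 8 * (2 * (cP 6 1 + 15 ^ 4 * 2)) + 4500 ^ 2 * 16, by nlinarith,
    fun L k P N f h0 => ?_⟩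
  have h1 := W_off_ind N f
  have h2 := mul_le_mul_of_nonneg_left (W_ind2 N) (abs_nonneg (f k))
  have h3 := node_le N.mono N.kK.le f
  have h4 := mul_nonneg N.p0.le (abs_nonneg (f k))
  have h5 := (mul_nonneg (dm_nonneg N.mono k) (abs_nonneg (f k))).trans h3
  rw [R1J.W_swap (R1J.ind_zero N.k0) h0, R1J.W_split f]
  refine (abs_add_le _ _).trans ?_
  rw [abs_mul]
  nlinarith [mul_nonneg c2 h4, mul_nonneg c2 h5]

end Crest.Agent.T156.Cas.R1S39

/-- **(S1)** of `R1J_60` -/
theorem Crest.Agent.T156.Cas.R1J.s1 : Crest.Agent.T156.Cas.R1J.S1 :=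
  Crest.Agent.T156.Cas.R1S39.s1S

/-- **(S3)** of `R1J_60` -/
theorem Crest.Agent.T156.Cas.R1J.s3 : Crest.Agent.T156.Cas.R1J.S3 :=
  Crest.Agent.T156.Cas.R1S39.s3S

end
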