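import Crest.Agent.T156.R1S5_21
import Crest.Agent.T156.R1S_39
import Crest.Agent.T156.SW_76

/-!
# Row 156: the site leaves `S1`-`S5` together (helper21)
-/

namespace Crest.Agent.T156.Cas.R1J

/-- **(S5)** -/
theorem s5 : S5 := S21.s5_of s1 s2 s3 s4

end Crest.Agent.T156.Cas.R1J
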