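import Crest.Agent.T156.R1L_60
import Crest.Agent.T156.R1Alg_77
import Crest.Agent.T156.R1S5B_21

/-!
# Row 156 (helper60): the size of `J` read on a window, and the size of the off-diagonal response
-/

set_option autoImplicit false
set_option linter.unusedSectionVars false

noncomputable section

namespace Crest.Agent.T156.Cas.C40.R1L

open Finset
open Crest.Agent.T157.E Crest.Agent.T157.Casc Crest.Agent.T157.SL
open Crest.ProbabilityR.SpinGlassDynamics (spin)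
open R1J
open Alg77 (Tw gd gd_lo gd_up Bq)

/-- facts that do not mention the envelopes -/
structure Bs (D : CD) (τ0 : ℝ) : Prop where
  ook : OOk D.M D.q
  mono : Mono 0 D.B
  top : D.dx D.K = 0
  tau : ∀ j, 0 ≤ D.τ j ∧ D.τ j ≤ τ0

variable {D : CD} {τ0 : ℝ}

namespace Bs

variable (H : Bs D τ0)
include H

theorem dx0 (j : ℕ) : 0 ≤ D.dx j := dm_nonneg H.mono j

theorem tmS {j : ℕ} (hj : j ≤ D.K) : Ker15.tm D.S j = D.sig j :=
  (Ker15.tm_eq (rk_opS H.ook) j).trans (TT_opV hj)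

theorem nd {j : ℕ} (hj : j ∈ D.up) {p : ℝ} (p0 : 0 < p) (hp : min 1 (ex D.B j + D.sig j) ≤ p) :
    Nd D.S j p :=
  ⟨Ker15.r1_of (rk_opS H.ook), mono_opS H.mono, Nat.zero_lt_of_lt (CD.mem_up.1 hj).1,
    (lenS D).symm ▸ (CD.mem_up.1 hj).2, p0, by rw [exS, H.tmS (CD.mem_up.1 hj).2.le]; exact hp⟩

theorem nd1 {j : ℕ} (hj : j ∈ D.up) : Nd D.S j 1 := H.nd hj one_pos (min_le_left _ _)

theorem n1_up {f : ℕ → ℝ} (hf : ∀ j ≤ D.J, f j = 0) : n1 D.S f = D.I fun j => |f j| := by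
  simp only [n1, lenS, dmS, CD.I]
  refine (sum_subset (fun j hj => mem_range.2 (by have := mem_Ioo.1 hj; omega))
    fun j h1 h2 => ?_).symm
  rcases le_or_gt j D.J with e | e
  · rw [hf j e, abs_zero, mul_zero]
  · rw [show j = D.K by rw [mem_range] at h1; rw [mem_Ioo] at h2; omega, H.top, zero_mul]

theorem I0 {a : ℕ → ℝ} (ha : ∀ j ∈ D.up, 0 ≤ a j) : 0 ≤ D.I a :=
  sum_nonneg fun j hj => mul_nonneg (H.dx0 j) (ha j hj)

theorem I_mono {a b : ℕ → ℝ} (ha : ∀ j ∈ D.up, a j ≤ b j) : D.I a ≤ D.I b :=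
  sum_le_sum fun j hj => mul_le_mul_of_nonneg_left (ha j hj) (H.dx0 j)

theorem abs_I {a b : ℕ → ℝ} (ha : ∀ j ∈ D.up, |a j| ≤ b j) : |D.I a| ≤ D.I b :=
  (abs_sum_le_sum_abs _ _).trans (sum_le_sum fun j hj => by
    rw [abs_mul, abs_of_nonneg (H.dx0 j)]; exact mul_le_mul_of_nonneg_left (ha j hj) (H.dx0 j))

theorem abs_gd (j : ℕ) : |gd D j| ≤ τ0 * |D.del j| := by
  unfold gd
  split_ifs
  · rw [abs_mul, abs_of_nonneg (H.tau j).1]
    exact mul_le_mul_of_nonneg_right (H.tau j).2 (abs_nonneg _)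
  · rw [abs_zero]; exact mul_nonneg ((H.tau j).1.trans (H.tau j).2) (abs_nonneg _)

end Bs

theorem abs_u3 (D : CD) (t : ℕ) : |D.u3 t| ≤ D.u 3 t := by
  have h1 := T157.Casc.pi2_mono wt_one90 D.B t (K := fun x y => oU D.q t x y ^ 3)
    (fun x y => (le_abs_self _).trans_eq (abs_pow _ _)) 0
  have h2 := T157.Casc.pi2_mono wt_one90 D.B t (K := fun x y => -1 * oU D.q t x y ^ 3)
    (fun x y => (neg_one_mul _).trans_le ((neg_le_abs _).trans_eq (abs_pow _ _))) 0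
  rw [pi2_const_mul, neg_one_mul] at h2
  exact abs_le.2 ⟨neg_le.1 h2, h1⟩

/-- a test density of mass zero and height `w / p` carried by the nodes `≤ i`, which have size
`p`, with the numbers it reads -/
structure WJ (D : CD) (f : ℕ → ℝ) (i : ℕ) (K w p γ N Φ g : ℝ) : Prop where
  tw : Tw D f
  iu : i ∈ D.up
  K1 : 1 ≤ K
  w0 : 0 < w
  p0 : 0 < p
  p1 : p ≤ 1
  hi : ∀ j, i < j → f j = 0
  ht : ∀ j, p * |f j| ≤ w
  mass : D.I f = 0
  gap : w * p ≤ K * D.I fun j => f j * D.sig j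
  sz : ex D.B i + D.sig i ≤ p
  msh : ∀ j, D.J < j → j < i → D.sig (j + 1) - D.sig j + D.dx j + D.dx (j + 1) ≤ g
  ms1 : ∀ j, D.J < j → j ≤ i → D.dx j ≤ g
  gam : ∑ j ∈ Icc (D.J + 1) i, D.dx j * |D.del j| ≤ γ
  gp : 2 * K ^ 2 * γ ≤ p ^ 2
  gle : g ≤ p
  nN : D.I (fun j => |D.del j|) ≤ N
  Np : N ≤ p
  u2 : D.I (D.u 2) ≤ Φ
  u3 : D.I (D.u 3) ≤ Φ
  u3' : ∑ j ∈ Icc (D.J + 1) i, D.dx j * D.u 3 j ≤ p * Φ
  g1 : ∀ j, D.J < j → j ≤ i → |1 - D.τ j * G D.S j| ≤ K * p ^ 2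
  gq : ∀ j, D.J < j → j ≤ i → |D.Gam j - D.q j| ≤ g
  low : |D.yh + D.y2 + D.y3 + D.y4 + D.mx| ≤ w * Φ

namespace WJ

variable {f : ℕ → ℝ} {i : ℕ} {K w p γ N Φ g : ℝ} (H : Bs D K) (A : WJ D f i K w p γ N Φ g)
include A

theorem sub : Icc (D.J + 1) i ⊆ D.up := fun j hj => by
  have := mem_Icc.1 hj
  have := CD.mem_up.1 A.iu
  exact CD.mem_up.2 ⟨by omega, by omega⟩

theorem sum (a : ℕ → ℝ) : ∑ j ∈ D.up, D.om j * a j = ∑ j ∈ Icc (D.J + 1) i, D.om j * a j :=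
  (sum_subset A.sub fun j hj hj' => by
    have := CD.mem_up.1 hj
    rw [mem_Icc] at hj'
    rw [A.tw.om j hj, A.hi j (by omega), mul_zero, zero_mul]).symm

theorem sumI (a : ℕ → ℝ) : ∑ j ∈ D.up, D.om j * a j = D.I fun j => f j * a j :=
  sum_congr rfl fun j hj => by rw [A.tw.om j hj, mul_assoc]

include H

theorem sig0 : 0 ≤ D.sig i := by
  rw [← H.tmS (CD.mem_up.1 A.iu).2.le]
  have := (H.nd1 A.iu).r1.tm_mono (Nat.zero_le i)
  rwa [show Ker15.tm D.S 0 = 0 by simp [Ker15.tm, cacc]] at this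

theorem sdx : ∑ j ∈ Icc (D.J + 1) i, D.dx j ≤ ex D.B i := by
  have := sum_dm D.B 0 i
  rw [sub_zero] at this
  exact (sum_le_sum_of_subset_of_nonneg (fun j hj => mem_range.2 (Nat.lt_succ_of_le
    (mem_Icc.1 hj).2)) fun j _ _ => H.dx0 j).trans_eq this

/-- window averages -/
theorem avg {a : ℕ → ℝ} {x : ℝ} (h0 : ∀ j, 0 ≤ a j)
    (h : ∑ j ∈ Icc (D.J + 1) i, D.dx j * a j ≤ p * x) :
    ∑ j ∈ Icc (D.J + 1) i, |D.om j| * a j ≤ w * x := by
  refine le_of_mul_le_mul_left (le_trans ?_ ((mul_le_mul_of_nonneg_left h A.w0.le).trans_eq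
    (by ring))) A.p0
  rw [mul_sum, mul_sum]
  refine sum_le_sum fun j hj => ?_
  rw [A.tw.om j (A.sub hj), abs_mul, abs_of_nonneg (H.dx0 j)]
  have := mul_le_mul_of_nonneg_right (A.ht j) (mul_nonneg (H.dx0 j) (h0 j))
  linarith

theorem abs_sum {a b : ℕ → ℝ} {x : ℝ} (h0 : ∀ j, 0 ≤ b j) (hab : ∀ j ∈ Icc (D.J + 1) i, |a j| ≤ b j)
    (h : ∑ j ∈ Icc (D.J + 1) i, D.dx j * b j ≤ p * x) : |∑ j ∈ D.up, D.om j * a j| ≤ w * x := by
  rw [A.sum]
  exact ((abs_sum_le_sum_abs _ _).trans (sum_le_sum fun j hj => by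
    rw [abs_mul]; exact mul_le_mul_of_nonneg_left (hab j hj) (abs_nonneg _))).trans (A.avg H h0 h)

theorem sdp : ∑ j ∈ Icc (D.J + 1) i, D.dx j ≤ p := by linarith [A.sdx H, A.sig0 H, A.sz]

theorem wt : ∑ j ∈ Icc (D.J + 1) i, |D.om j| ≤ w := by
  simpa using A.avg H (a := fun _ => 1) (x := 1) (fun _ => zero_le_one) (by simpa using A.sdp H)

theorem If {a : ℕ → ℝ} : D.I (fun j => |f j| * a j) = ∑ j ∈ Icc (D.J + 1) i, |D.om j| * a j := by
  refine (sum_subset A.sub fun j hj hj' => ?_).symm.trans (sum_congr rfl fun j hj => ?_)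
  · have := CD.mem_up.1 hj
    rw [mem_Icc] at hj'
    simp only [A.hi j (by omega), abs_zero, zero_mul, mul_zero]
  · simp only [A.tw.om j (A.sub hj), abs_mul, abs_of_nonneg (H.dx0 j), mul_assoc]

theorem n1f : R1J.n1 D.S f ≤ w := by
  have := A.If H (a := fun _ => 1)
  simp only [mul_one] at this
  rw [H.n1_up A.tw.lo, this]
  exact A.wt H

theorem nd {j : ℕ} (hj : j ∈ Icc (D.J + 1) i) : Nd D.S j p :=
  (H.nd A.iu A.p0 ((min_le_right _ _).trans A.sz)).anti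
    (Nat.zero_lt_of_lt (mem_Icc.1 hj).1) (mem_Icc.1 hj).2

theorem wn : R1J.Wn D.S (D.J + 1) i p g D.om :=
  ⟨Nat.succ_pos _, A.nd H (mem_Icc.2 ⟨(CD.mem_up.1 A.iu).1, le_rfl⟩), by
    have := (A.sum fun _ => 1).symm.trans (A.sumI _)
    simp only [mul_one] at this
    exact this.trans A.mass, fun j a b => by
      have := CD.mem_up.1 A.iu
      rw [H.tmS (by omega), H.tmS (by omega), dmS, dmS]
      exact A.msh j a b, fun j hj => (dmS D j).symm ▸ A.ms1 j (mem_Icc.1 hj).1 (mem_Icc.1 hj).2⟩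

theorem loc {C : ℝ} (c : 1 ≤ C) (h3 : ∀ (T : List (Lv Bool)) (k : ℕ) (p : ℝ), Nd T k p →
    ∀ f : ℕ → ℝ, f 0 = 0 → |W T k [ind k, f]| ≤ C * (p * |f k| + n1 T f)) :
    |D.LOC| ≤ 2 * C * K ^ 2 * (w * Φ) := by
  have w0 := A.w0
  have e : D.LOC = D.I fun t => D.τ t ^ 2 * vr D t * W D.S t [ind t, f] :=
    sum_congr rfl fun t ht => by simp only [A.tw.lev2 ht, vr]; ring
  have k : ∀ t ∈ D.up, |W D.S t [ind t, f]| ≤ C * (2 * w) := fun t ht => by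
    rcases le_or_gt t i with a | a
    · refine (h3 _ _ _ (A.nd H (mem_Icc.2 ⟨(CD.mem_up.1 ht).1, a⟩)) f A.tw.f0).trans ?_
      gcongr
      linarith [A.ht t, A.n1f H]
    · refine (h3 _ _ _ (H.nd1 ht) f A.tw.f0).trans ?_
      rw [A.hi t a, abs_zero, mul_zero]
      gcongr
      linarith [A.n1f H]
  rw [e]
  refine (H.abs_I (b := fun t => 2 * C * K ^ 2 * w * D.u 2 t) fun t ht => ?_).trans ?_
  · have t2 : D.τ t ^ 2 ≤ K ^ 2 := pow_le_pow_left₀ (H.tau t).1 (H.tau t).2 2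
    rw [abs_mul, abs_of_nonneg (mul_nonneg (sq_nonneg _) (vr0 D t))]
    exact (mul_le_mul (mul_le_mul t2 (vr_le D t) (vr0 D t) (sq_nonneg _)) (k t ht) (abs_nonneg _)
      (mul_nonneg (sq_nonneg _) (D.u0 2 t))).trans_eq (by ring)
  · rw [D.I_mul, mul_assoc _ w]
    have := A.u2
    gcongr

theorem cub {C : ℝ} (c : 1 ≤ C) (h4 : ∀ (T : List (Lv Bool)) (k : ℕ) (p : ℝ), Nd T k p →
    ∀ f : ℕ → ℝ, f 0 = 0 → |W T k [ind k, ind k, f]| ≤ C * (|f k| + p * n1 T f)) :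
    |D.c3| ≤ C * K ^ 3 * (w * Φ) := by
  have w0 := A.w0
  have K1 := A.K1
  have k : |D.I fun t => D.τ t ^ 3 * D.u3 t * W D.S t [ind t, ind t, f]| ≤
      D.I fun t => C * K ^ 3 * (|f t| * D.u 3 t + w * D.u 3 t) := H.abs_I fun t ht => by
    have t3 : D.τ t ^ 3 ≤ K ^ 3 := pow_le_pow_left₀ (H.tau t).1 (H.tau t).2 3
    have a := (h4 _ _ _ (H.nd1 ht) f A.tw.f0).trans (mul_le_mul_of_nonneg_left
      (show _ ≤ |f t| + w by linarith [A.n1f H]) (by linarith))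
    rw [abs_mul, abs_mul, abs_of_nonneg (pow_nonneg (H.tau t).1 3)]
    exact (mul_le_mul (mul_le_mul t3 (abs_u3 D t) (abs_nonneg _) (by positivity)) a (abs_nonneg _)
      (mul_nonneg (by positivity) (D.u0 3 t))).trans_eq (by ring)
  rw [D.I_mul, D.I_add, D.I_mul, A.If H] at k
  have a1 := A.avg H (D.u0 3) A.u3'
  have a2 := mul_le_mul_of_nonneg_left A.u3 w0.le
  have a3 : 0 ≤ w * Φ := mul_nonneg w0.le ((H.I0 fun j _ => D.u0 3 j).trans A.u3)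
  rw [A.tw.c3_eq, abs_div, abs_of_pos (by norm_num : (0 : ℝ) < 6), div_le_iff₀ (by norm_num)]
  refine (k.trans (mul_le_mul_of_nonneg_left (add_le_add a1 a2) (by positivity))).trans ?_
  have : 0 ≤ C * K ^ 3 * (w * Φ) := by positivity
  linarith

theorem ω_le (j : ℕ) : |Hd50.ω D j| ≤ K * |D.del j| := by
  unfold Hd50.ω
  split_ifs
  · rw [abs_mul, abs_of_nonneg (H.tau j).1]
    exact mul_le_mul_of_nonneg_right (H.tau j).2 (abs_nonneg _)
  · rw [abs_zero]; exact mul_nonneg ((H.tau j).1.trans (H.tau j).2) (abs_nonneg _)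

theorem gl_le : R1J.gl D.S (D.J + 1) i (Hd50.ω D) ≤ K * γ := by
  refine le_trans ?_ (mul_le_mul_of_nonneg_left A.gam (by linarith [A.K1]))
  rw [mul_sum]
  exact sum_le_sum fun j _ => by
    rw [dmS, mul_left_comm]; exact mul_le_mul_of_nonneg_left (A.ω_le H j) (H.dx0 j)

theorem jE_le : jE D.S (D.J + 1) i p g D.om (Hd50.ω D) ≤
    5 * K ^ 2 * (w * (p * γ + g + Φ + p ^ 2 * N)) := by
  have hM := mono_opS H.mono (q := D.q)
  have K1 := A.K1
  have p0 := A.p0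
  have p1 := A.p1
  have w0 := A.w0
  have iu := CD.mem_up.1 A.iu
  have g0 : 0 ≤ g := (H.dx0 i).trans (A.ms1 i iu.1 le_rfl)
  have a1 := A.gl_le H
  have a2 : n1 D.S (Hd50.ω D) ≤ K * N := by
    rw [H.n1_up fun j hj => Hd50.ω_lo D hj]
    refine (H.I_mono fun j _ => A.ω_le H j).trans ?_
    rw [D.I_mul]
    exact mul_le_mul_of_nonneg_left A.nN (by linarith)
  have sq : ∀ j, Hd50.ω D j ^ 2 ≤ K ^ 2 * D.u 2 j := fun j => by
    rw [← sq_abs]
    refine (pow_le_pow_left₀ (abs_nonneg _) (A.ω_le H j) 2).trans ?_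
    rw [mul_pow, sq_abs]
    exact mul_le_mul_of_nonneg_left (del_sq D j) (sq_nonneg _)
  have a3 : n1 D.S (fun j => Hd50.ω D j * Hd50.ω D j) ≤ K ^ 2 * Φ := by
    rw [H.n1_up fun j hj => by rw [Hd50.ω_lo D hj, zero_mul]]
    refine (H.I_mono fun j _ => (show _ ≤ K ^ 2 * D.u 2 j by
      rw [← pow_two, abs_of_nonneg (sq_nonneg _)]; exact sq j)).trans ?_
    rw [D.I_mul]
    exact mul_le_mul_of_nonneg_left A.u2 (sq_nonneg _)
  have a4 : R1J.lo D.S i (fun j => Hd50.ω D j * Hd50.ω D j) ≤ K ^ 2 * Φ :=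
    (sum_le_sum_of_subset_of_nonneg (range_mono (by rw [lenS]; omega)) fun j _ _ =>
      mul_nonneg (dm_nonneg hM j) (abs_nonneg _)).trans a3
  have l0 : 0 ≤ Ker15.tm D.S i - Ker15.tm D.S (D.J + 1) :=
    sub_nonneg.2 ((H.nd1 A.iu).r1.tm_mono iu.1)
  have t0 : 0 ≤ Ker15.tm D.S (D.J + 1) := by
    have := (H.nd1 A.iu).r1.tm_mono (Nat.zero_le (D.J + 1))
    rwa [show Ker15.tm D.S 0 = 0 by simp [Ker15.tm, cacc]] at this
  have x0 : 0 ≤ ∑ j ∈ Icc (D.J + 1) i, D.dx j := sum_nonneg fun j _ => H.dx0 j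
  have l1 : Ker15.tm D.S i - Ker15.tm D.S (D.J + 1) + ∑ j ∈ Icc (D.J + 1) i, dm D.S 0 j ≤ p := by
    simp only [dmS]
    rw [H.tmS iu.2.le]
    linarith [A.sz, A.sdx H]
  have l2 : Ker15.tm D.S i - Ker15.tm D.S (D.J + 1) ≤ p := by
    simp only [dmS] at l1
    linarith
  have n0 := n1_nonneg hM (Hd50.ω D)
  have gl0 : 0 ≤ R1J.gl D.S (D.J + 1) i (Hd50.ω D) :=
    sum_nonneg fun j _ => mul_nonneg (dm_nonneg hM j) (abs_nonneg _)
  have γ0 : 0 ≤ γ := (sum_nonneg fun j _ => mul_nonneg (H.dx0 j) (abs_nonneg _)).trans A.gam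
  have N0 : 0 ≤ N := (H.I0 fun j _ => abs_nonneg _).trans A.nN
  have Φ0 : 0 ≤ Φ := (H.I0 fun j _ => D.u0 2 j).trans A.u2
  have a5 : osc D.S (D.J + 1) i (Hd50.ω D) ≤ K * γ + p * (K * N) := by
    unfold osc
    gcongr
  have o0 : 0 ≤ osc D.S (D.J + 1) i (Hd50.ω D) := add_nonneg gl0 (mul_nonneg (add_nonneg l0
    (sum_nonneg fun j _ => dm_nonneg hM j)) n0)
  have a6 : ∑ j ∈ Icc (D.J + 1) i, |D.om j| * |Hd50.ω D j| ≤ w * p := by
    refine A.avg H (fun _ => abs_nonneg _) (le_trans ?_ (show K * γ ≤ p * p by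
      nlinarith [A.gp, mul_nonneg (sub_nonneg.2 K1) γ0]))
    simpa only [R1J.gl, dmS] using a1
  have a7 : ∑ j ∈ Icc (D.J + 1) i, |D.om j| * Hd50.ω D j ^ 2 ≤ w * (K ^ 2 * Φ / p) := by
    refine A.avg H (fun _ => sq_nonneg _) ?_
    rw [mul_div_cancel₀ _ p0.ne']
    refine le_trans ?_ (mul_le_mul_of_nonneg_left A.u2 (sq_nonneg _))
    rw [← D.I_mul]
    exact (sum_le_sum fun j _ => mul_le_mul_of_nonneg_left (sq j) (H.dx0 j)).trans
      (sum_le_sum_of_subset_of_nonneg A.sub fun j _ _ =>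
        mul_nonneg (H.dx0 j) (mul_nonneg (sq_nonneg _) (D.u0 2 j)))
  have a8 := A.wt H
  have gle := A.gle
  have Np := A.Np
  have n2 := n1_nonneg hM fun j => Hd50.ω D j * Hd50.ω D j
  have n3 := lo_nonneg hM i fun j => Hd50.ω D j * Hd50.ω D j
  calc jE D.S (D.J + 1) i p g D.om (Hd50.ω D) ≤
      w * ((p + p) * (K * γ) + p * (p * (K * N) + (K * γ + p * (K * N))) +
        (p * (K * N * (K * p)) + 1 * (K ^ 2 * Φ) + K ^ 2 * Φ)) +
      w * p * (K * γ + p * (K * N) + 1 * g) + (p + p) * (w * (K ^ 2 * Φ / p)) := by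
        unfold jE
        gcongr
        exact a2.trans (by gcongr)
    _ = w * (4 * K * (p * γ) + p * g + 4 * K ^ 2 * Φ + (3 * K + K ^ 2) * (p ^ 2 * N)) := by
        field_simp
        ring
    _ ≤ w * (5 * K ^ 2 * (p * γ) + 5 * K ^ 2 * g + 5 * K ^ 2 * Φ + 5 * K ^ 2 * (p ^ 2 * N)) := by
        gcongr <;> nlinarith
    _ = _ := by ring

end WJ

theorem ar60 {M L c O x y r J e b1 b2 b3 b4 b5 : ℝ} (h : |M - L - c - O / 2 + (x - y - r) - J| ≤ e)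
    (h1 : |x| ≤ b1) (h2 : |y| ≤ b2) (h3 : |L| ≤ b3) (h4 : |O| ≤ b4) (h5 : |c| ≤ b5) :
    |J| ≤ |r - M| + (b1 + b2 + b3 + b4 / 2 + b5 + e) := by
  rw [abs_le] at *
  constructor <;> linarith [le_abs_self (r - M), neg_abs_le (r - M), h.1, h.2, h1.1, h1.2, h2.1,
    h2.2, h3.1, h3.2, h4.1, h4.2, h5.1, h5.2]

/-- **the size of `J` below a window** -/
theorem jwin : ∃ C : ℝ, 1 ≤ C ∧ ∀ (D : CD) (f : ℕ → ℝ) (i : ℕ) (K w p γ N Φ g : ℝ), Bs D K →
    WJ D f i K w p γ N Φ g → ∀ k, D.J < k → k ≤ i → w * p * |J D.S (gd D) k| ≤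
      C * K ^ 4 * (|∑ j ∈ D.up, D.om j * (D.rb j - D.Gam j) - D.main| +
        w * (p * γ + g + Φ + p ^ 2 * N)) := by
  obtain ⟨C, c, h⟩ := jsite s1 s2 s3 s5
  obtain ⟨C3, c3, h3⟩ := s3
  obtain ⟨C4, c4, h4⟩ := s4
  obtain ⟨C5, c5, h5⟩ := J_lip s3
  refine ⟨2 * (3 + C3 + C4 + 5 * C), by linarith, fun D f i K w p γ N Φ g H A k k0 k1 => ?_⟩
  have hk : k ∈ Icc (D.J + 1) i := mem_Icc.2 ⟨k0, k1⟩
  have ω0 := Hd50.ω_lo D (Nat.zero_le D.J)
  obtain ⟨-, h2⟩ := h D.S _ i _ g _ (A.wn H) (Hd50.ω D) ω0 k hk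
  obtain ⟨a, ha⟩ := Option.isSome_iff_exists.1 A.tw.tst
  have K1 := A.K1
  have p0 := A.p0
  have w0 := A.w0
  have eJ : J D.S (gd D) k = J D.S (Hd50.ω D) k := by
    have k1 := h5 D.S k _ (A.nd H hk) (gd D) _ (gd_lo D (Nat.zero_le _)) ω0
    rw [H.n1_up fun j hj => by rw [gd_lo D hj, Hd50.ω_lo D hj, sub_zero], CD.I,
      sum_eq_zero fun j hj => by rw [gd_up D hj, Hd50.ω_up D hj, sub_self, abs_zero, mul_zero],
      mul_zero] at k1
    exact sub_eq_zero.1 (abs_nonpos_iff.1 k1)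
  have γ0 : 0 ≤ γ := (sum_nonneg fun j _ => mul_nonneg (H.dx0 j) (abs_nonneg _)).trans A.gam
  have N0 : 0 ≤ N := (H.I0 fun j _ => abs_nonneg _).trans A.nN
  have Φ0 : 0 ≤ Φ := (H.I0 fun j _ => D.u0 2 j).trans A.u2
  have g0 : 0 ≤ g := (H.dx0 i).trans (A.ms1 i (CD.mem_up.1 A.iu).1 le_rfl)
  have e1 : ∑ j ∈ Icc (D.J + 1) i, D.om j * (Ker15.tm D.S j + Hd50.ω D j) =
      (D.I fun j => f j * D.sig j) + ∑ j ∈ D.up, D.om j * Hd50.ω D j := by
    rw [← A.sumI, A.sum, A.sum, ← sum_add_distrib]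
    exact sum_congr rfl fun j hj => by rw [H.tmS (CD.mem_up.1 (A.sub hj)).2.le, mul_add]
  have b1 := A.abs_sum H (a := Hd50.ω D) (x := K * γ / p) (fun _ => abs_nonneg _)
    (fun _ _ => le_rfl) (by
      rw [mul_div_cancel₀ _ p0.ne']
      simpa only [R1J.gl, dmS] using A.gl_le H)
  have b2 : w * p ≤ 2 * K * |∑ j ∈ Icc (D.J + 1) i, D.om j * (Ker15.tm D.S j + Hd50.ω D j)| := by
    have q1 : 2 * K * (w * (K * γ / p)) ≤ w * p := by
      rw [show 2 * K * (w * (K * γ / p)) = w * (2 * K ^ 2 * γ / p) by ring]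
      gcongr
      rw [div_le_iff₀ p0]
      linarith [A.gp]
    have q2 := mul_le_mul_of_nonneg_left ((abs_le.1 b1).1) (show 0 ≤ 2 * K by linarith)
    refine le_trans ?_ (mul_le_mul_of_nonneg_left (le_abs_self _) (by linarith))
    rw [e1]
    linarith [A.gap]
  have b3 := A.abs_sum H (a := fun j => D.del j * (1 - D.τ j * G D.S j))
    (b := fun j => K * p ^ 2 * |D.del j|) (x := K * (p * γ)) (fun _ => by positivity)
    (fun j hj => by
      rw [abs_mul, mul_comm]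
      exact mul_le_mul_of_nonneg_right (A.g1 j (mem_Icc.1 hj).1 (mem_Icc.1 hj).2) (abs_nonneg _))
    (by
      simp only [mul_left_comm _ (K * p ^ 2), ← mul_sum]
      exact (mul_le_mul_of_nonneg_left A.gam (by positivity)).trans_eq (by ring))
  have b4 := A.abs_sum H (a := fun j => D.Gam j - D.q j) (b := fun _ => g) (x := g) (fun _ => g0)
    (fun j hj => A.gq j (mem_Icc.1 hj).1 (mem_Icc.1 hj).2) (by
      rw [← sum_mul]; exact mul_le_mul_of_nonneg_right (A.sdp H) g0)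
  have b5 := A.low
  have b6 := A.loc H c3 h3
  have b7 := A.cub H c4 h4
  have b8 := mul_le_mul_of_nonneg_left (A.jE_le H) (show 0 ≤ C by linarith)
  have e3 : ∑ j ∈ D.up, D.om j * (W D.S j [Hd50.ω D] + W D.S j [Hd50.ω D, Hd50.ω D] / 2 -
      Hd50.ω D j * G D.S j) = D.f1' + D.QM / 2 +
      (∑ j ∈ D.up, D.om j * (D.del j * (1 - D.τ j * G D.S j)) -
        ∑ j ∈ D.up, D.om j * (D.Gam j - D.q j) - ∑ j ∈ D.up, D.om j * (D.rb j - D.Gam j)) := by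
    rw [Hd50.f1_test ha, Hd50.QM_test ha, ← om_eq ha, sum_div]
    simp only [← sum_sub_distrib, ← sum_add_distrib]
    refine sum_congr rfl fun j hj => ?_
    rw [Hd50.ω_up D hj, CD.del]
    ring
  have e4 : D.f1' + D.QM / 2 = D.main - (D.yh + D.y2 + D.y3 + D.y4 + D.mx) - D.c3 - D.LOC / 2 := by
    rw [CD.main, CD.q2, CD.dd_test A.tw.tst]
    ring
  rw [← A.sum, e3, e4] at h2
  set R := p * γ + g + Φ + p ^ 2 * N with hR
  set E := ∑ j ∈ D.up, D.om j * (D.rb j - D.Gam j) - D.main with hE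
  have z1 := mul_nonneg (sq_nonneg p) N0
  have z2 := mul_nonneg p0.le γ0
  have r1 : w * (p * γ) ≤ w * R :=
    mul_le_mul_of_nonneg_left (by linarith only [hR, z1, g0, Φ0]) w0.le
  have r2 : w * g ≤ w * R := mul_le_mul_of_nonneg_left (by linarith only [hR, z1, z2, Φ0]) w0.le
  have r3 : w * Φ ≤ w * R := mul_le_mul_of_nonneg_left (by linarith only [hR, z1, z2, g0]) w0.le
  have r0 : 0 ≤ w * R := (mul_nonneg w0.le g0).trans r2
  have k3 : 1 ≤ K ^ 3 := one_le_pow₀ K1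
  have k2 : K ^ 2 ≤ K ^ 3 := pow_le_pow_right₀ K1 (by norm_num)
  have k1' : K ≤ K ^ 3 := le_self_pow₀ K1 (by norm_num)
  have b9 : |J D.S (Hd50.ω D) k * ∑ j ∈ Icc (D.J + 1) i, D.om j * (Ker15.tm D.S j + Hd50.ω D j)| ≤
      |E| + (3 + C3 + C4 + 5 * C) * K ^ 3 * (w * R) := by
    have c1 : w * (K * (p * γ)) ≤ K ^ 3 * (w * R) := by
      rw [mul_left_comm]; exact mul_le_mul k1' r1 (by positivity) (by positivity)
    have c2 : w * g ≤ K ^ 3 * (w * R) := r2.trans (le_mul_of_one_le_left r0 k3)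
    have c3' : w * Φ ≤ K ^ 3 * (w * R) := r3.trans (le_mul_of_one_le_left r0 k3)
    have c4' : C3 * K ^ 2 * (w * Φ) ≤ C3 * K ^ 3 * (w * R) := by gcongr
    have c5' : C4 * K ^ 3 * (w * Φ) ≤ C4 * K ^ 3 * (w * R) := by gcongr
    have c6 : C * (5 * K ^ 2 * (w * R)) ≤ C * (5 * K ^ 3 * (w * R)) := by gcongr
    refine (ar60 h2 b3 b4 b5 b6 b7).trans ?_
    rw [← hE]
    clear_value R E
    linarith only [c1, c2, c3', c4', c5', c6, b8]
  rw [abs_mul] at b9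
  rw [eJ]
  have E0 := abs_nonneg E
  calc w * p * |J D.S (Hd50.ω D) k| ≤ 2 * K * (|J D.S (Hd50.ω D) k| *
      |∑ j ∈ Icc (D.J + 1) i, D.om j * (Ker15.tm D.S j + Hd50.ω D j)|) :=
        (mul_le_mul_of_nonneg_right b2 (abs_nonneg _)).trans_eq (by ring)
    _ ≤ 2 * K * ((3 + C3 + C4 + 5 * C) * K ^ 3 * |E| + (3 + C3 + C4 + 5 * C) * K ^ 3 * (w * R)) := by
        gcongr
        exact b9.trans (add_le_add (le_mul_of_one_le_left E0 (one_le_mul_of_one_le_of_one_le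
          (by linarith only [c, c3, c4]) k3)) le_rfl)
    _ = _ := by ring

end Crest.Agent.T156.Cas.C40.R1L

end
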