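import Crest.Agent.T156.R1PD_60
import Crest.Agent.T156.R1M_60

/-!
# Row 156 (helper60): the size of `J` on the frame; glue for the error table
-/

set_option autoImplicit false

noncomputable section

namespace Crest.Agent.T156.Alt.P60

open Real Finset
open Crest.Agent.T156.Cas Crest.Agent.T156.Cas.C40 Crest.Agent.T156.Alt.CIn12
open Crest.Agent.T156.Alt.Alg77 Crest.Agent.T156.Alt.R77 Crest.Agent.T156.Alt.R62
open Crest.Agent.T156.Alt.R82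

/-- **the density times `J`** -/
def JwG (E : ℝ) (p : Pm) : Prop := ∀ σ σ' P t a a' Q m, Cx p σ σ' P t a a' Q m →
  ∀ S l Φ Pf l0 Λ₀ Pt u1 V4 I, SD56.Fr E p P t a a' Q m S l Φ Pf l0 Λ₀ Pt u1 V4 I →
    ∀ x, x = a ∨ x = a' → ∀ k, p.jf < k → k ≤ p.Jp P → ∃ R, 0 ≤ R ∧
      (2 * p.ye < (p.gst P t).s k → R = 0) ∧
      S.ms (max ((p.gst P t).s k) l) * R ^ 2 ≤
        E ^ 200 * ((1 / E ^ 200) ^ 2 * n4 p) * max ((p.gst P t).s k) l ^ 2 ∧
      R ≤ E ^ 100 * max ((p.gst P t).s k) l ^ 2 ∧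
      t * |sv p t k| * |R1J.J (D0 p P t m x).S (Cas.Alg77.gd (D0 p P t m x)) (k + 1)| ≤
        (if k < p.J then 1 / E ^ 12 * Bud p Q / m / max ((p.gst P t).s k) l ^ 2 else 0) +
          p.lamG t ((p.gst P t).s k) * R

/-- **the off-off half** -/
def PhOff : Prop := ∀ β : ℝ, 1 < β → Sml β Co → Sml β MsG → Sml β JwG → Sml β PhP

theorem lamG_nn {p : Pm} (hκ : 0 ≤ p.κ) (hy : 0 ≤ p.ye) {t y : ℝ} (ht : 0 ≤ t) (h : 0 ≤ y) :
    0 ≤ p.lamG t y :=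
  mul_nonneg hκ (le_min (le_min h hy) (mul_nonneg ht (sqrt_nonneg _)))

theorem min_mul {u σ k : ℝ} (hu : 0 ≤ u) (hσ : 0 ≤ σ) (hk : 1 ≤ k) {u' : ℝ} (h : u' ≤ k * u) :
    min u' (σ * √u') ≤ k * min u (σ * √u) := by
  rw [mul_min_of_nonneg _ _ (by linarith : 0 ≤ k)]
  refine min_le_min h ?_
  have : √u' ≤ k * √u := sqrt_le_iff.2 ⟨by positivity, by
    rw [mul_pow, sq_sqrt hu]; nlinarith [mul_nonneg (mul_nonneg (sub_nonneg.2 hk) hu) (by linarith : 0 ≤ k)]⟩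
  nlinarith [mul_le_mul_of_nonneg_left this hσ]

/-- the profile is sublinear -/
theorem lamG_mul {p : Pm} (hκ : 0 ≤ p.κ) (hy : 0 ≤ p.ye) {t y y' k : ℝ} (ht : 0 ≤ t) (h : 0 ≤ y)
    (hk : 1 ≤ k) (h' : y' ≤ k * y) : p.lamG t y' ≤ k * p.lamG t y := by
  rw [Pm.lamG, Pm.lamG, mul_left_comm]
  refine mul_le_mul_of_nonneg_left (min_mul (le_min h hy) ht hk ?_) hκ
  rw [mul_min_of_nonneg _ _ (by linarith : 0 ≤ k)]
  exact min_le_min h' (le_mul_of_one_le_left hy hk)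

variable {Λ t a a' Q : ℝ} {p : Pm} {P : Pl} {m : ℕ}

/-- the test density is below the profile -/
theorem sv_lam (h : Fx Λ p P t a a' Q m) (hκ : 0 ≤ p.κ) (hv : 0 ≤ p.v) (k : ℕ) :
    t * |sv p t k| ≤ 4 * p.lamG t (k * p.v) := by
  have k0 : 0 ≤ k * p.v := by positivity
  rcases le_total (2 * p.ye) (k * p.v) with e | e
  · rw [h.sv_hi e, abs_zero, mul_zero]
    linarith [lamG_nn hκ h.y0.le h.t0.le k0]
  · refine (h.t_sv k).trans ?_
    have a1 := (Gr29.gS_bds h.t0.le k0).2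
    have a2 := min_mul (le_min k0 h.y0.le) h.t0.le one_le_two (u' := k * p.v) (by
      rw [mul_min_of_nonneg _ _ (by norm_num : (0 : ℝ) ≤ 2)]
      exact le_min (by linarith) e)
    have a3 := mul_le_mul_of_nonneg_left (Grd92.cut_le p.ye (k * p.v))
      (mul_nonneg hκ (Gr29.gS_nn h.t0.le k0))
    have a4 := mul_le_mul_of_nonneg_left (a1.trans (mul_le_mul_of_nonneg_left a2 zero_le_two)) hκ
    rw [Pm.omG, Pm.lamG]
    linarith

theorem den_sv (h : Fx Λ p P t a a' Q m) (hκ : 0 ≤ p.κ) (hv : 0 ≤ p.v) : Den p t t (sv p t) :=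
  ⟨fun k => (sv_lam h hκ hv k).trans (by
    linarith [lamG_nn hκ h.y0.le h.t0.le (show 0 ≤ k * p.v by positivity)]),
    fun k e => h.sv_hi (by linarith [h.y0])⟩

theorem mo_ErrG : Mo fun δ p => 0 ≤ p.s → ErrG δ p :=
  fun _ _ _ _ h H hs σ σ' P t a a' Q m c x hx w f a1 a2 a3 =>
    (H hs σ σ' P t a a' Q m c x hx w f a1 a2 a3).imp fun _ e =>
      ⟨e.1, e.2.trans (mul_le_mul_of_nonneg_right h (Bud_nonneg hs c.Q0))⟩

theorem mo_RsG : Mo fun δ p => 0 ≤ p.s → RsG δ p :=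
  fun _ _ _ _ h H hs σ σ' P t a a' Q m c x hx f a1 =>
    (H hs σ σ' P t a a' Q m c x hx f a1).trans
      (mul_le_mul_of_nonneg_right h (Bud_nonneg hs c.Q0))

/-- **`ErrR` from the table for any density** -/
theorem errR_of {β : ℝ} (hβ : 1 < β) (h : Gain β ErrG) : Gain β ErrR := by
  have k1 := (h.mono fun _ p _ _ H (_ : 0 ≤ p.s) => H).sml 1 mo_ErrG
  refine Sml.gain (Sml.glue' hβ (k1.and (fxS hβ)) 2 one_pos 1 fun c0 C0 A c η _ _ _ _ =>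
    ⟨0, fun p H _ _ _ ⟨g, F⟩ σ σ' P t a a' Q m X x hx => ?_⟩)
  have f := F σ σ' P t a a' Q m X
  have t2 : t ≤ 2 := X.mem.2.trans (sqrt_le_iff.2 ⟨by norm_num, by linarith [H.ye1]⟩)
  simpa only [pow_one] using g (by linarith [H.ok.s1]) σ σ' P t a a' Q m X x hx t _ f.t0 t2
    (den_sv f H.κ0.le H.v0.le)

/-- **the test head for any density** -/
theorem rsG_of {β : ℝ} (hβ : 1 < β) (hT : HT) (h : Gain β ErrG) : Gain β RsG := by
  obtain ⟨C, hC, hT⟩ := hT (β ^ 2)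
  have k1 := (h.mono fun _ p _ _ H (_ : 0 ≤ p.s) => H).sml 2 mo_ErrG
  refine Sml.gain (Sml.glue' hβ k1 2 one_pos 1 fun c0 C0 A c η _ _ _ _ =>
    ⟨C, fun p H _ _ _ g σ σ' P t a a' Q m X x hx f hf => ?_⟩)
  have s0 : 0 ≤ p.s := by linarith [H.ok.s1]
  obtain ⟨E, o, e⟩ := g s0 σ σ' P t a a' Q m X x hx 1 f one_pos one_le_two hf
  have b := mul_le_mul_of_nonneg_left (hT _ (H.hβ ▸ o) rfl) m.cast_nonneg
  have L0 := H.rp0 η
  rw [one_mul] at e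
  calc _ ≤ C * (((p.n : ℝ) ^ η)⁻¹ ^ 2 * Bud p Q) :=
        b.trans ((mul_left_comm _ _ _).trans_le (mul_le_mul_of_nonneg_left e hC))
    _ ≤ (p.n : ℝ) ^ η * (((p.n : ℝ) ^ η)⁻¹ ^ 2 * Bud p Q) :=
        mul_le_mul_of_nonneg_right H.K_le (mul_nonneg (by positivity) (Bud_nonneg s0 X.Q0))
    _ = _ := by field_simp

end Crest.Agent.T156.Alt.P60

end
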