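import Crest.Agent.T156.ErrRE_35
import Crest.Agent.T156.ErrS_4
import Crest.Agent.T156.R1PE_60
import Crest.Agent.T156.R1Gx_79

/-!
# Row 156, R1 (helper79): the sum leaf of the error table
-/

set_option autoImplicit false

noncomputable section

namespace Crest.Agent.T156.Alt.E35

open Real Finset
open Crest.Agent.T156.Alt.R62 Crest.Agent.T156.Alt.R77 Crest.Agent.T156.Alt.R82
open Crest.Agent.T156.Alt.SD56

namespace Su79

/-- the profile against the density scale -/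
theorem lam_mt {β c0 C0 c η K t y k : ℝ} {A : ℕ} {p : Pm} (H : Reg β c0 C0 A c η K p) (t0 : 0 < t)
    (hk : 1 ≤ k) (hy : y ≤ k * p.ye) : p.lamG t y ≤ k * R82.mt p t y := by
  have x0 := H.xc0 y
  have κ0 := H.κ0
  have r0 := H.r0
  have a := (H.msG_bds t0 y).1
  have b : min y p.ye ≤ Gr29.xc p y := le_max_right _ _
  have c : p.lamG t y ≤ p.κ * min (Gr29.xc p y) (t * √(Gr29.xc p y)) :=
    mul_le_mul_of_nonneg_left (min_le_min b (mul_le_mul_of_nonneg_left (sqrt_le_sqrt b) t0.le)) κ0.le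
  have d : max y p.r ≤ k * Gr29.xc p y := by
    have e : Gr29.xc p y ≤ k * Gr29.xc p y := le_mul_of_one_le_left x0.le hk
    refine max_le ?_ ((Gr29.r_le_xc p y).trans e)
    rcases le_total y p.ye with f | f
    · exact (min_eq_left f).ge.trans (b.trans e)
    · rw [H.xc_hi f]; exact hy
  have m0 : 0 ≤ p.κ * min (Gr29.xc p y) (t * √(Gr29.xc p y)) :=
    mul_nonneg κ0.le (le_min x0.le (by positivity))
  rw [R82.mt, ← mul_div_assoc, le_div_iff₀ (r0.trans_le (le_max_right _ _))]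
  have := mul_le_mul c d (r0.le.trans (le_max_right _ _)) m0
  linarith [mul_le_mul_of_nonneg_left a (show 0 ≤ k by linarith)]

theorem sq_min {x a b : ℝ} (ha : x ≤ a ^ 2) (hb : x ≤ b ^ 2) : x ≤ min a b ^ 2 := by
  rcases min_choice a b with e | e <;> rwa [e]

end Su79

open Su79

/-- **the sum leaf** -/
theorem suG : SuG := fun d h w f w0 D => by
  have H := h.H
  have F := h.fr
  have c := F.cl
  have nr := F.nr
  have nx := h.km.nx
  have bk := h.loc.bk
  have E1 := F.E1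
  have E0 := F.E0
  have l0 := F.l0'
  have C0 := c.C0
  have C1 := c.C1
  have v0 := H.v0
  have y0 := H.ye0
  have t0 := F.fx.t0
  have L := H.log1
  have hC : 8 * d.S.C ≤ d.E := by
    have a := h.km.gd.nb.lg
    have b := h.km.K1
    have e : d.S.C = 8 * d.K ^ 2 := rfl
    have := mul_le_mul_of_nonneg_left b (sq_nonneg d.K)
    linarith [h.lg]
  have hy : d.E ^ 6 * d.p.ye ≤ 1 := H.le_of_lg (by positivity) one_pos (by
    rw [logb_mul (by positivity) y0.ne', logb_pow, H.lg_rp, H.lg_ye, logb_one]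
    push_cast
    linarith [h.hη, H.c_pos])
  have sk : ∀ k, k ≤ d.S.J → k * d.p.v ≤ d.S.C * d.M.s k ∧ d.M.s k ≤ d.S.C * (k * d.p.v) :=
    fun k hk => by
      obtain ⟨a, b⟩ := c.s_bds hk
      rw [← mul_div_assoc, div_le_iff₀' C0] at a
      exact ⟨a, b.trans_eq (by change _ * (_ * d.p.v) = _; ring)⟩
  have T0J : T0 d.S d.M ≤ d.M.s d.S.J := by unfold T0; linarith [c.s_nn d.S.J]
  have hi : ∀ k, T0 d.S d.M ≤ d.M.s k → 8 * d.p.ye ≤ k * d.p.v := fun k hk => by
    have a : T0 d.S d.M ≤ d.S.C * (k * d.p.v) := by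
      rcases le_total k d.S.J with e | e
      · exact hk.trans (sk k e).2
      · exact T0J.trans ((sk _ le_rfl).2.trans (by gcongr))
    have b := F.T0_ge
    have kv : 0 ≤ k * d.p.v := by positivity
    have a1 := mul_le_mul_of_nonneg_left (a.trans (mul_le_mul_of_nonneg_right
      (show d.S.C ≤ d.E / 8 by linarith) kv)) (show 0 ≤ 48 * d.E ^ 4 by positivity)
    have a2 := mul_le_mul_of_nonneg_right E1 (show 0 ≤ d.E ^ 5 * d.p.ye by positivity)
    refine le_of_mul_le_mul_left ?_ (show 0 < 6 * d.E ^ 5 by positivity)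
    linarith [show 0 ≤ d.E ^ 5 * d.p.ye by positivity]
  have lo : ∀ k : ℕ, w * |f k| ≠ 0 → k < d.S.J ∧ d.M.s k ≤ 8 * d.S.C * d.p.ye := fun k hk => by
    have a : k * d.p.v < 8 * d.p.ye := not_le.1 fun e => hk (by rw [D.2 k e]; simp)
    have b : k < d.S.J := not_le.1 fun e => a.not_ge (hi k (T0J.trans (c.sm e)))
    exact ⟨b, (sk k b.le).2.trans (by linarith [mul_le_mul_of_nonneg_left a.le C0.le])⟩
  have l1 : d.b.l ≤ 1 := nr.ly.trans ((mul_le_of_le_one_left y0.le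
    ((div_le_one (by positivity)).2 (one_le_pow₀ F.E1'))).trans F.y1)
  have l2 : d.b.l ^ 2 ≤ d.E * d.b.l := by
    linarith [mul_le_mul_of_nonneg_right (l1.trans F.E1') l0.le]
  have l3 : d.b.Φ ≤ d.b.l ^ 2 := by
    rw [← nr.l3]; exact pow_le_pow_of_le_one l0.le l1 (by norm_num)
  have l4 : d.E * d.b.l ^ 2 ≤ (d.E * d.b.l) ^ 2 := by
    linarith [mul_le_mul_of_nonneg_right F.E1' (show 0 ≤ d.E * d.b.l ^ 2 by positivity)]
  have l5 : d.b.l ^ 2 ≤ d.E * d.b.l ^ 2 := le_mul_of_one_le_left (sq_nonneg _) F.E1'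
  obtain ⟨p1, p2, p3, -⟩ := nr.Pt0
  have Φ0 : 0 ≤ d.b.Φ := by linarith
  have n3 : d.b.Pt ≤ min d.b.N (d.E * d.b.l) ^ 2 := sq_min nx.N3 (by linarith)
  have a3 : d.S.θ * min d.b.N (d.E * d.b.l) * d.b.Φ ≤ 1 / d.E ^ 200 * n5 d.p := by
    refine le_trans ?_ nx.a3
    rw [nr.l3, ← F.th]
    exact mul_le_mul_of_nonneg_right (mul_le_mul_of_nonneg_left (min_le_left _ _) F.θ0.le) Φ0
  have NL : NL (1 / d.E ^ 200) d.p d.S d.M d.b.l d.b.Φ d.b.P d.b.l0 d.b.Pt d.b.u1
      (min d.b.N (d.E * d.b.l)) := by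
    refine ⟨le_min nx.N1 l2, fun x x0 x1 => sq_min (nx.N2 x (nr.l0l.trans x0) x1) ?_, n3,
      le_min nx.N4 (by linarith), a3, fun u u0 u1 => le_trans ?_ (nx.a4 u u0 u1)⟩
    · have a : x ≤ d.E := x1.trans (T0J.trans ((c.s_le_C c.i3).trans (by linarith)))
      exact (mul_le_mul a ((nr.P0 x).2.trans l3) (nr.P0 x).1 E0.le).trans l4
    · exact mul_le_mul_of_nonneg_left (min_le_left _ _)
        (mul_nonneg (H.msG0 t0 u).le (nr.P0 u).1)
  refine ⟨min d.b.N (d.E * d.b.l), NL.N1, min_le_right _ _, n3, by linarith, ?_, fun k k0 _ hk => ?_⟩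
  · refine sumS _ _ _ _ _ _ _ _ _ _ _ _ _ _ _ _ _ _ _ _ _ _ F bk NL
      (Gx79.gx H h.cx.oct' h.km.gd (Plt13.plX_self _ h.cx.pl) h.km.kn (by linarith [h.lg]) _ _)
      (fun k => by positivity) (fun k _ => ?_) fun k hk => by rw [D.2 k (hi k hk)]; simp
    have m0 : 0 ≤ R82.mt d.p d.t (d.M.s k) :=
      div_nonneg (H.msG0 t0 _).le (H.r0.le.trans (le_max_right _ _))
    by_cases e : w * |f k| = 0
    · rw [e]; positivity
    obtain ⟨a, b⟩ := lo k e
    have a1 := P60.lamG_mul H.κ0.le y0.le t0.le (c.s_nn k) C1 (sk k a.le).1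
    have a2 := mul_le_mul_of_nonneg_left (lam_mt H t0 (by linarith) b) C0.le
    have a3 := mul_le_mul_of_nonneg_right (pow_le_pow_left₀ (by positivity) hC 2) m0
    linarith [D.1 k]
  · obtain ⟨a, b⟩ := lo k hk
    refine ⟨bk.glo k k0 (b.trans ?_), bk.mk'.sl k k0.le a⟩
    rw [le_div_iff₀ E0]
    have a1 := mul_le_mul_of_nonneg_right hC (show 0 ≤ d.p.ye * d.E by positivity)
    have a2 := mul_le_mul_of_nonneg_right (pow_le_pow_right₀ F.E1' (show 2 ≤ 6 by norm_num)) y0.le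
    linarith

end Crest.Agent.T156.Alt.E35

end
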