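import Crest.Agent.T156.ErrU_35
import Crest.Agent.T156.CInT_12

/-!
# Row 156: the numbers of the error table (helper35)
-/

set_option autoImplicit false

noncomputable section

namespace Crest.Agent.T156.Alt.E35

open Real Finset
open Crest.Agent.T156.Cas Crest.Agent.T156.Cas.C40 Crest.Agent.T156.Alt.CIn12

/-- the residual vanishes on the support of the density -/
theorem nm_of {M : Md} {m : ℕ} {a : ℝ} {T : Finset ℕ} {f g G : ℕ → ℝ}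
    {γ y n1 n2 n4 b0 b1 b2 d1 d2 dm : ℝ} (z0 : ∀ k, 0 ≤ M.dz m a k) (G0 : ∀ k, 0 < G k) (γ0 : 0 ≤ γ)
    (h : ∀ k ∈ T, f k ≠ 0 → g k = 0 ∧ G k ≤ y)
    (h1 : ∑ k ∈ T, M.dz m a k * G k ≤ n1) (h2 : ∑ k ∈ T, M.dz m a k * G k ^ 2 ≤ n2)
    (h4 : ∑ k ∈ T, M.dz m a k * G k ^ 4 ≤ n4) (e0 : ∑ k ∈ T, M.dz m a k * |f k| ≤ b0)
    (e1 : ∑ k ∈ T, M.dz m a k * (|f k| * G k) ≤ b1)
    (e2 : ∑ k ∈ T, M.dz m a k * (|f k| * G k ^ 2) ≤ b2)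
    (r1 : ∑ k ∈ T, M.dz m a k * (|g k| * G k) ≤ d1)
    (r2 : ∑ k ∈ T, M.dz m a k * (|g k| * G k ^ 2) ≤ d2) (hd : ∀ k ∈ T, M.dz m a k ≤ dm) :
    Nm M m a T f (fun k => |g k| + γ) G n1 n2 n4 b0 b1 b2 (y ^ 2 * b2) (γ * b0) (γ * b1) (γ * b2)
      (d1 + γ * n1) (d2 + γ * n2) dm := by
  have k : ∀ {u v : ℕ → ℝ} {x c : ℝ}, 0 ≤ c → (∀ k ∈ T, f k ≠ 0 → u k ≤ c * v k) →
      ∑ k ∈ T, M.dz m a k * (|f k| * v k) ≤ x → ∑ k ∈ T, M.dz m a k * (|f k| * u k) ≤ c * x :=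
    fun {u v x c} c0 hu hx => le_trans (by
      rw [mul_sum]
      refine sum_le_sum fun k hk => ?_
      rcases eq_or_ne (f k) 0 with e | e
      · simp [e]
      · linarith [mul_le_mul_of_nonneg_left (hu k hk e) (mul_nonneg (z0 k) (abs_nonneg (f k)))])
      (mul_le_mul_of_nonneg_left hx c0)
  have k' : ∀ {v : ℕ → ℝ} {x x' : ℝ}, ∑ k ∈ T, M.dz m a k * (|g k| * v k) ≤ x →
      ∑ k ∈ T, M.dz m a k * v k ≤ x' → ∑ k ∈ T, M.dz m a k * ((|g k| + γ) * v k) ≤ x + γ * x' :=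
    fun {v x x'} a1 a2 => le_trans (le_of_eq (by
      rw [mul_sum, ← sum_add_distrib]; exact sum_congr rfl fun _ _ => by ring))
      (add_le_add a1 (mul_le_mul_of_nonneg_left a2 γ0))
  refine ⟨h1, h2, h4, e0, e1, e2, k (sq_nonneg y) (fun k hk e => ?_) e2,
    k (v := fun _ => 1) γ0 (fun k hk e => by simp [(h k hk e).1]) (by simpa using e0),
    k γ0 (fun k hk e => by simp [(h k hk e).1]) e1, k γ0 (fun k hk e => by simp [(h k hk e).1]) e2,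
    k' r1 h1, k' r2 h2, hd⟩
  linarith [mul_le_mul_of_nonneg_right (pow_le_pow_left₀ (G0 k).le (h k hk e).2 2) (sq_nonneg (G k))]

/-- the inputs in natural units; `b0 b1 b2 SW` are the sums of the unscaled density -/
structure Hn (E δ θ l N V4 w τ X tl n m d2 b0 b1 b2 SA SW : ℝ) : Prop where
  E1 : 1000 ≤ E
  θ0 : 0 ≤ θ
  l0 : 0 < l
  l1 : l ≤ 1
  V0 : 0 ≤ V4
  w0 : 0 < w
  n0 : 0 < n
  nm : n ≤ m
  mn : m ≤ 2 * n
  N1 : l ^ 2 ≤ N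
  N2 : N ≤ E * l
  τ0 : 0 ≤ τ ∧ τ ≤ E
  X0 : 0 ≤ X ∧ X ≤ E ^ 6 * l
  tl0 : 0 ≤ tl ∧ √tl ≤ l ^ 3 ∧ tl ≤ 1
  nn : 0 ≤ d2 ∧ 0 ≤ b0 ∧ 0 ≤ b1 ∧ 0 ≤ b2 ∧ 0 ≤ SA ∧ 0 ≤ SW
  hd : θ * d2 ≤ E ^ 12 * δ
  h0 : w * b0 ≤ E ^ 12 * θ
  h1 : l ^ 3 * (w * b1) ≤ E ^ 12 * δ
  h2 : N * (w * b2) ≤ E ^ 12 * δ
  hA : SA ≤ E ^ 27 * N
  hW : l ^ 3 * (w * SW) ≤ E ^ 3 * δ
  l5 : θ * l ^ 5 ≤ δ
  ln : θ * (1 / n) ≤ δ
  l4 : θ * V4 ≤ δ
  l3 : θ * (l ^ 3 * N) ≤ δ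

theorem Hn.pe {E δ θ l N V4 w τ X tl n m d2 b0 b1 b2 SA SW : ℝ}
    (h : Hn E δ θ l N V4 w τ X tl n m d2 b0 b1 b2 SA SW) :
    w * Pe (E ^ 4) (E ^ 30) (3 * (E ^ 12 * N)) (9 * (E * l ^ 3)) (lowL τ X tl)
      (3 * (E ^ 12 * N) + SA) X m (1 / n) (160 * (E * (l ^ 3 * l ^ 2 + V4)))
      (3 * (E ^ 12 * l ^ 3 + 2 * E ^ 2 * l ^ 2 * (E ^ 12 * N)))
      (9 * (d2 + 2 * E ^ 2 * l ^ 2 * (E * l ^ 3))) √tl (3 * b1 + SW) b0 (3 * b1) (9 * b2)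
      (1 / n * b0) (160 * ((E * l) ^ 2 * b2)) (9 * (2 * E ^ 2 * l ^ 2 * b2))
      (3 * (2 * E ^ 2 * l ^ 2 * b1)) (2 * E ^ 2 * l ^ 2 * b0) ≤ 200 * ((E ^ 30) ^ 5 * δ) := by
  obtain ⟨d0, b00, b10, b20, A0, W0⟩ := h.nn
  obtain ⟨τ0, τ1⟩ := h.τ0
  obtain ⟨X0, X1⟩ := h.X0
  obtain ⟨t0, t1, t2⟩ := h.tl0
  have E1 := h.E1
  have E1' : 1 ≤ E := by linarith
  have E0 : 0 < E := by linarith
  have θ0 := h.θ0
  have l0 := h.l0
  have w0 := h.w0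
  have V0 := h.V0
  have n0 := h.n0
  have m0 : 0 < m := n0.trans_le h.nm
  have N0 : 0 ≤ N := (sq_nonneg l).trans h.N1
  have δ0 : 0 ≤ δ := (mul_nonneg θ0 V0).trans h.l4
  have ΦN : l ^ 3 ≤ N := (pow_le_pow_of_le_one l0.le h.l1 (by norm_num)).trans h.N1
  have q : ∀ (i : ℕ) {x : ℝ}, i ≤ 29 → 0 ≤ x → 1000 * (E ^ i * x) ≤ E ^ 30 * x ∧ 0 ≤ E ^ i * x :=
    fun i x hi x0 => ⟨by
      rw [← mul_assoc, pow_succ' E 29]
      exact mul_le_mul_of_nonneg_right (mul_le_mul E1 (pow_le_pow_right₀ E1' hi) (by positivity)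
        E0.le) x0, by positivity⟩
  have Φ0 : 0 ≤ l ^ 3 := by positivity
  have X3 : X ^ 3 ≤ E ^ 18 * l ^ 3 := (pow_le_pow_left₀ X0 X1 3).trans_eq (by ring)
  have X2 : X ^ 2 ≤ E ^ 12 * l ^ 2 := (pow_le_pow_left₀ X0 X1 2).trans_eq (by ring)
  have t3 : tl ≤ l ^ 3 := le_trans (by
    nlinarith [sq_sqrt t0, sqrt_nonneg tl, sqrt_le_one.2 t2]) t1
  have τ2 : τ ^ 2 ≤ E ^ 2 := pow_le_pow_left₀ τ0 τ1 2
  have E2 : 1 ≤ E ^ 2 := one_le_pow₀ E1'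
  have a1 : (2 * τ ^ 2 + 1) * X ^ 3 ≤ 3 * E ^ 2 * (E ^ 18 * l ^ 3) :=
    mul_le_mul (by linarith) X3 (by positivity) (by positivity)
  have a2 : (15 * τ ^ 2 + 2) * √tl ≤ 17 * E ^ 2 * l ^ 3 :=
    mul_le_mul (by linarith) t1 (by positivity) (by positivity)
  have a3 : E ^ 14 * l ^ 2 * N ≤ E ^ 14 * l ^ 2 * (E * l) :=
    mul_le_mul_of_nonneg_left h.N2 (by positivity)
  have a4 : 1 / n * (w * b0) ≤ E ^ 12 * δ :=
    (mul_le_mul_of_nonneg_left h.h0 (by positivity)).trans (by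
      linarith [mul_le_mul_of_nonneg_left h.ln (show 0 ≤ E ^ 12 by positivity)])
  have a5 : E ^ 2 * (l ^ 2 * (w * b2)) ≤ E ^ 2 * (E ^ 12 * δ) := mul_le_mul_of_nonneg_left
    ((mul_le_mul_of_nonneg_right h.N1 (by positivity)).trans h.h2) (by positivity)
  have a6 : E ^ 3 * (θ * l ^ 5) ≤ E ^ 3 * δ := mul_le_mul_of_nonneg_left h.l5 (by positivity)
  have a7 : N * (E ^ 2 * l ^ 2 * (w * b1)) ≤ E * l * (E ^ 2 * l ^ 2 * (w * b1)) :=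
    mul_le_mul_of_nonneg_right h.N2 (by positivity)
  have a8 : E ^ 3 * (l ^ 3 * (w * b1)) ≤ E ^ 3 * (E ^ 12 * δ) :=
    mul_le_mul_of_nonneg_left h.h1 (by positivity)
  have a9 : E ^ 2 * l ^ 5 * (w * b0) ≤ E ^ 2 * l ^ 5 * (E ^ 12 * θ) :=
    mul_le_mul_of_nonneg_left h.h0 (by positivity)
  have a10 : E ^ 14 * (θ * l ^ 5) ≤ E ^ 14 * δ := mul_le_mul_of_nonneg_left h.l5 (by positivity)
  have a11 : 1 / n ≤ 2 * (1 / m) := by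
    rw [mul_one_div, div_le_div_iff₀ n0 m0]; linarith [h.mn]
  have a12 : θ * (1 / m) ≤ δ :=
    (mul_le_mul_of_nonneg_left (one_div_le_one_div_of_le n0 h.nm) θ0).trans h.ln
  have L0 : 0 ≤ lowL τ X tl := by unfold lowL; positivity
  rw [Pe_smul]
  refine PeH.le (θ := θ) (l := l) (Φ := l ^ 3) (N := N) (V4 := V4)
    ⟨one_le_pow₀ E1', θ0, Φ0, ΦN, V0, m0, ⟨by positivity, by positivity, by positivity,
      by positivity, L0, by positivity, X0, by positivity, by positivity, by positivity,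
      by positivity⟩, ⟨by positivity, by positivity, by positivity, by positivity, by positivity,
      by positivity, by positivity⟩, pow_le_pow_right₀ E1' (by norm_num), le_rfl, ?_, ?_, ?_, ?_, ?_,
      ?_, ?_, ?_, ?_, t1, ?_, ?_, ?_, ?_, ?_, ?_, ?_, ?_, ?_, ?_, (le_of_eq (by ring)).trans h.l5,
      le_trans (mul_le_mul_of_nonneg_left ((sq _).trans_le (mul_le_mul_of_nonneg_left ΦN Φ0)) θ0)
        h.l3, a12, h.l4, h.l3⟩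
  · linarith [q 12 (by norm_num) N0]
  · linarith [q 1 (by norm_num) Φ0]
  · unfold lowL
    linarith [q 20 (by norm_num) Φ0, q 2 (by norm_num) Φ0, q 0 (by norm_num) Φ0]
  · linarith [q 12 (by norm_num) N0, q 27 (by norm_num) N0, h.hA]
  · linarith [q 18 (by norm_num) Φ0]
  · linarith [q 12 (by norm_num) (sq_nonneg l)]
  · linarith [q 0 (by norm_num) (show 0 ≤ 1 / m by positivity)]
  · linarith [q 1 (by norm_num) (show 0 ≤ l ^ 3 * l ^ 2 + V4 by positivity)]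
  · linarith [q 12 (by norm_num) Φ0, q 15 (by norm_num) Φ0]
  · linarith [q 12 (by norm_num) θ0, h.h0]
  · linarith [q 12 (by norm_num) δ0]
  · linarith [q 14 (by norm_num) δ0]
  · linarith [q 14 (by norm_num) δ0]
  · linarith [q 12 (by norm_num) δ0, q 3 (by norm_num) δ0, h.hd]
  · linarith [q 15 (by norm_num) δ0]
  · linarith [q 14 (by norm_num) δ0]
  · linarith [q 12 (by norm_num) δ0, h.h1]
  · linarith [q 12 (by norm_num) δ0, q 3 (by norm_num) δ0, h.h1, h.hW]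
  · linarith [q 12 (by norm_num) δ0, h.h2]

end Crest.Agent.T156.Alt.E35

end
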