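import Crest.Agent.T156.ErrRE_35
import Crest.Agent.T156.ErrV_35

/-!
# Row 156, R1 (helper52): the sums and numbers read by the error table
-/

set_option autoImplicit false
set_option linter.unusedSectionVars false

noncomputable section

namespace Crest.Agent.T156.Alt.E35.Tb52

open Real Finset
open Crest.Agent.T156.Cas Crest.Agent.T156.Cas.C40 Crest.Agent.T156.Alt.CIn12
open Crest.Agent.T156.Alt.Md67 Crest.Agent.T156.Alt.R62 Crest.Agent.T156.Alt.R77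
open Crest.Agent.T156.Alt.R82 Crest.Agent.T156.Alt.Lb24 Crest.Agent.T156.Alt.SD56
open Crest.Agent.T156.Alt.Alg77

variable {d : Dt} (h : d.Ok) (pw : d.Pw)
include h pw

theorem hγ : ∀ k, d.S.jl < k → k < d.M.N → d.M.dz d.m d.x k ≠ 0 →
    |GamC d.M d.m d.x d.M.q (d.S.jl + 1) k - d.M.q k| ≤ |d.M.G k| + 2 * d.E ^ 2 * d.b.l ^ 2 :=
  fun k k0 k1 e => by
  have := pw.gq k k0 k1 e
  have k2 : d.p.jf + 1 ≤ k := k0
  rwa [CD.gq, cd_Gam _ _ _ (h.fr.fx.lg h.hx.1 h.hx.2).toLeg (rf_q h.fr.cl) k2 k1,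
    cd_q _ _ _ _ _ k2 k1] at this

theorem nmHn {w N SA SW : ℝ} {f : ℕ → ℝ} (w0 : 0 < w) (su : d.Su N fun k => w * |f k|)
    (A0 : 0 ≤ SA) (hA : SA ≤ d.E ^ 27 * N) (W0 : 0 ≤ SW)
    (hW : d.b.l ^ 3 * (w * SW) ≤ d.E ^ 3 * d.δ) : ∃ d2 b0 b1 b2,
    Nm d.M d.m d.x (Ioo d.S.jl d.M.N) f (fun k => |d.M.G k| + 2 * d.E ^ 2 * d.b.l ^ 2) d.G
      (d.E ^ 12 * N) (d.E * d.b.l ^ 3) (d.E * (d.b.l ^ 3 * d.b.l ^ 2 + d.b.V4)) b0 b1 b2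
      ((d.E * d.b.l) ^ 2 * b2) (2 * d.E ^ 2 * d.b.l ^ 2 * b0) (2 * d.E ^ 2 * d.b.l ^ 2 * b1)
      (2 * d.E ^ 2 * d.b.l ^ 2 * b2)
      (d.E ^ 12 * d.b.l ^ 3 + 2 * d.E ^ 2 * d.b.l ^ 2 * (d.E ^ 12 * N))
      (d2 + 2 * d.E ^ 2 * d.b.l ^ 2 * (d.E * d.b.l ^ 3)) (1 / d.p.n) ∧
    Hn d.E d.δ d.S.θ d.b.l N d.b.V4 w (d.p.β ^ 2) (d.E ^ 4 * max (d.M.z d.S.jl) d.b.l) (tlD d.S 3)
      d.p.n d.m d2 b0 b1 b2 SA SW := by
  have F := h.fr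
  have K := h.loc.bk.mk'
  have z0 := (F.fx.lg h.hx.1 h.hx.2).dz_nonneg
  have G0 := K.pos
  have l3 := F.nr.l3
  have E0 := F.E0
  have E1 := F.E1'
  have l0 := F.l0'
  have n0 := F.n0
  have l1 : d.b.l ≤ 1 := (F.nr.ly.trans (mul_le_of_le_one_left F.fx.y0.le
    ((div_le_one (by positivity)).2 (one_le_pow₀ E1)))).trans F.y1
  have e : ∀ g : ℕ → ℝ, w * ∑ k ∈ Ioo d.S.jl d.M.N, d.M.dz d.m d.x k * (|f k| * g k) =
      ∑ k ∈ Ioo d.S.jl d.M.N, d.M.dz d.m d.x k * (w * |f k| * g k) := fun g => by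
    rw [mul_sum]; exact sum_congr rfl fun _ _ => by ring
  have nn : ∀ g : ℕ → ℝ, (∀ k, 0 ≤ g k) → 0 ≤ ∑ k ∈ Ioo d.S.jl d.M.N, d.M.dz d.m d.x k * g k :=
    fun g hg => sum_nonneg fun k _ => mul_nonneg (z0 k) (hg k)
  refine ⟨_, _, _, _, nm_of z0 G0 (by positivity) (fun k hk e => su.g0 k (mem_Ioo.1 hk).1
    (mem_Ioo.1 hk).2 (mul_pos w0 (abs_pos.2 e)).ne') su.sums.s1 (l3 ▸ K.tot) (l3 ▸ K.qua)
    le_rfl le_rfl le_rfl (l3 ▸ su.sums.s6) le_rfl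
    fun k hk => pw.dz k (mem_Ioo.1 hk).1 (mem_Ioo.1 hk).2, F.E1, F.θ0.le, l0, l1,
    F.nr.Pt0.1.trans F.nr.Pt0.2.2.2, w0, n0, by exact_mod_cast h.cx.m1, F.m2, su.N1, su.N2,
    ⟨sq_nonneg _, h.H.hβ ▸ h.H.β_le⟩, ⟨by have := l0.trans_le (le_max_right (d.M.z d.S.jl) _); positivity, ?_⟩,
    ⟨tlD_nn _ _, l3 ▸ pw.tl.1, pw.tl.2.1⟩,
    ⟨nn _ fun k => by positivity, nn _ fun k => abs_nonneg _,
      nn _ fun k => mul_nonneg (abs_nonneg _) (G0 k).le, nn _ fun k => by positivity, A0, W0⟩,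
    su.sums.s5, ?_, ?_, ?_, hA, hW, F.nr.l5, ?_, F.nr.d, l3 ▸ su.a3⟩
  · refine (mul_le_mul_of_nonneg_left (max_le pw.zj (le_mul_of_one_le_left l0.le
      (one_le_pow₀ E1))) (by positivity)).trans_eq (by ring)
  · rw [mul_sum]
    exact (sum_congr rfl fun _ _ => by ring).trans_le su.sums.s2
  · rw [e, l3]; exact su.sums.s3
  · rw [e]; exact su.sums.s4
  · have a := F.nr.e
    have l00 := F.l00
    have b : 0 ≤ d.b.l ^ 2 / (d.p.n * d.b.l0 ^ 3) := by positivity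
    have c : 1 / (d.p.n : ℝ) ≤ d.Λ' / d.p.n := div_le_div_of_nonneg_right F.nr.L1 n0.le
    exact (mul_le_of_le_one_left (by positivity) F.θ1).trans (by linarith)

end Crest.Agent.T156.Alt.E35.Tb52

end
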