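import Crest.Agent.T156.ErrL_35

/-!
# Row 156: the block sums of `ErrL_35` from two inequalities per block (helper35)
-/

set_option autoImplicit false
set_option linter.unusedSectionVars false

noncomputable section

namespace Crest.Agent.T156.Cas.C40

open Real Finset ErrL

/-- numbers: `E` majorises `t, c, e`; `lam` majorises the density; `Λ` is the loss -/
structure NB (B : ℕ) (t c e al ab lam E : ℕ → ℝ) (Λ w δ : ℝ) : Prop where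
  l0 : ∀ i, 0 < lam i
  lm : Monotone lam
  Em : Monotone E
  Λ1 : 1 ≤ Λ
  BΛ : (B : ℝ) ≤ Λ
  w0 : 0 < w
  δ0 : 0 ≤ δ
  tE : ∀ i < B, t i ≤ E i
  cE : ∀ i < B, c i ≤ E i
  eE : ∀ i < B, e i ≤ E i
  EΛ : ∀ i < B, E i ≤ Λ
  abl : ∀ i < B, ab i ≤ lam i
  lw : ∀ i < B, lam i ≤ w
  n1 : ∀ i < B, lam i * E i * al i ^ 2 ≤ δ * t i
  n2 : ∀ i < B, w * (E i ^ 2 * al i ^ 2) ≤ δ * t i

namespace ErrL

theorem mul_le_of_sq {x y δ : ℝ} (hδ : 0 ≤ δ) (h : (x * y) ^ 2 ≤ δ ^ 2) : x * y ≤ δ :=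
  (abs_le_of_sq_le_sq' h hδ).2

theorem Sg_le' {B : ℕ} {f : ℕ → ℝ} {x Λ : ℝ} (hB : (B : ℝ) ≤ Λ) (hx : 0 ≤ x)
    (h : ∀ i < B, f i ≤ x) : Sg B f ≤ Λ * x :=
  (Sg_le h).trans (mul_le_mul_of_nonneg_right hB hx)

theorem mul_Sg (B : ℕ) (x : ℝ) (f : ℕ → ℝ) : x * Sg B f = Sg B fun i => x * f i := mul_sum _ _ _

theorem mul_ph {B i : ℕ} {al : ℕ → ℝ} {x y Λ : ℝ} (hB : (B : ℝ) ≤ Λ) (hy : 0 ≤ y)
    (h : ∀ k, i ≤ k → k < B → x * al k ≤ y) : x * ph B al i ≤ Λ * y := by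
  have : x * ph B al i = ph B (fun k => x * al k) i := mul_sum _ _ _
  rw [this]
  exact (ph_le hy h).trans (mul_le_mul_of_nonneg_right hB hy)

end ErrL

namespace BD

variable {D : CD} {B : ℕ} {lev : ℕ → ℕ} {t c e al A : ℕ → ℝ} (h : BD D B lev t c e al A)
include h

/-- sums over a set of upper nodes whose blocks lie in `T` -/
theorem sub_le {U T : Finset ℕ} (hU : U ⊆ D.up) (hT : ∀ j ∈ U, lev j ∈ T) {w W : ℕ → ℝ}
    (w0 : ∀ j ∈ D.up, 0 ≤ w j) (hw : ∀ j ∈ D.up, D.dx j ≠ 0 → w j ≤ W (lev j))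
    (W0 : ∀ i, 0 ≤ W i) : ∑ j ∈ U, D.dx j * (w j * √(D.v j j)) ≤ ∑ i ∈ T, W i * al i := by
  rw [← sum_fiberwise_of_maps_to hT]
  refine sum_le_sum fun i _ => le_trans ?_ (mul_le_mul_of_nonneg_left (h.sqrt_blk i) (W0 i))
  rw [mul_sum]
  refine (sum_le_sum_of_subset_of_nonneg (filter_subset_filter _ hU) fun j hj _ => mul_nonneg
    (h.dx0 j) (mul_nonneg (w0 j (mem_filter.1 hj).1) (sqrt_nonneg _))).trans
    (sum_le_sum fun j hj => ?_)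
  obtain ⟨h1, h2⟩ := mem_filter.1 hj
  rcases eq_or_ne (D.dx j) 0 with h0 | h0
  · simp [h0]
  · have := mul_le_mul_of_nonneg_right (hw j h1 h0) (mul_nonneg (h.dx0 j) (sqrt_nonneg (D.v j j)))
    rw [h2] at this
    linarith

theorem hi_le {j : ℕ} (hj : j ∈ D.up) : D.hi (fun k => √(D.v k k)) j ≤ ph B al (lev j) := by
  have s : Ioo j D.K ⊆ D.up := Ioo_subset_Ioo_left (mem_Ioo.1 hj).1.le
  simpa [CD.hi, ph] using h.sub_le (T := Ico (lev j) B) s (fun k hk => mem_Ico.2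
    ⟨h.mono (mem_Ioo.1 hk).1.le, h.lt k (s hk)⟩) (w := fun _ => 1) (W := fun _ => 1)
    (fun _ _ => zero_le_one) (fun _ _ _ => le_rfl) fun _ => zero_le_one

theorem lw_le {j : ℕ} (hj : j ∈ D.up) : D.lw (fun k => D.e k * √(D.v k k)) j ≤
    Sg (lev j + 1) fun i => e i * al i :=
  h.sub_le (T := range (lev j + 1)) (Ioo_subset_Ioo_right (mem_Ioo.1 hj).2.le) (fun k hk =>
    mem_range.2 (Nat.lt_succ_of_le (h.mono (mem_Ioo.1 hk).2.le))) h.e0 h.env h.ee0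

theorem hi0 (j : ℕ) : 0 ≤ D.hi (fun k => √(D.v k k)) j :=
  sum_nonneg fun k _ => mul_nonneg (h.dx0 k) (sqrt_nonneg _)

theorem lw0 {j : ℕ} (hj : j ∈ D.up) : 0 ≤ D.lw (fun k => D.e k * √(D.v k k)) j :=
  sum_nonneg fun k hk => mul_nonneg (h.dx0 k) (mul_nonneg
    (h.e0 k (Ioo_subset_Ioo_right (mem_Ioo.1 hj).2.le hk)) (sqrt_nonneg _))

variable {a ab lam E : ℕ → ℝ} {Λ w δ : ℝ} (N : NB B t c e al ab lam E Λ w δ)
include N

theorem E0 {i : ℕ} (hi : i < B) : 0 < E i := (h.t0 i).trans_le (N.tE i hi)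
theorem Λ0 : 0 ≤ Λ := zero_le_one.trans N.Λ1

theorem q1 {i : ℕ} (hi : i < B) : lam i * al i ^ 2 ≤ δ := by
  have := (N.n1 i hi).trans (mul_le_mul_of_nonneg_left (N.tE i hi) N.δ0)
  refine le_of_mul_le_mul_right ?_ (h.E0 N hi)
  linarith

theorem q2 {i : ℕ} (hi : i < B) : w * (E i * al i ^ 2) ≤ δ := by
  have := (N.n2 i hi).trans (mul_le_mul_of_nonneg_left (N.tE i hi) N.δ0)
  refine le_of_mul_le_mul_right ?_ (h.E0 N hi)
  linarith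

theorem q3 {i : ℕ} (hi : i < B) : w * (E i * al i) ^ 2 ≤ δ * Λ := by
  have := (N.n2 i hi).trans (mul_le_mul_of_nonneg_left ((N.tE i hi).trans (N.EΛ i hi)) N.δ0)
  rw [mul_pow]; exact this

/-- `√w E al ≤ √(δ Λ)` -/
theorem u_le {i k : ℕ} (hi : i ≤ k) (hk : k < B) : √w * E i * al k ≤ √(δ * Λ) := by
  refine le_trans ?_ (le_sqrt_of_sq_le (x := √w * E k * al k) ?_)
  · exact mul_le_mul_of_nonneg_right (mul_le_mul_of_nonneg_left (N.Em hi) (sqrt_nonneg _))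
      (h.al0 k)
  · rw [mul_assoc, mul_pow, sq_sqrt N.w0.le]; exact h.q3 N hk

/-- `lam al ≤ √w √δ` -/
theorem r_le {i k : ℕ} (hi : i ≤ k) (hk : k < B) : lam i * al k ≤ √w * √δ := by
  rw [← sqrt_mul N.w0.le]
  refine (mul_le_mul_of_nonneg_right (N.lm hi) (h.al0 k)).trans (le_sqrt_of_sq_le ?_)
  have := mul_le_mul (N.lw k hk) (h.q1 N hk) (mul_nonneg (N.l0 k).le (sq_nonneg _)) N.w0.le
  linarith

theorem sq_δ : √(δ * Λ) * √δ ≤ Λ * δ := by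
  have h1 : √Λ ≤ Λ := sqrt_le_self_iff.2 (Or.inr N.Λ1)
  rw [sqrt_mul N.δ0, mul_right_comm, mul_self_sqrt N.δ0, mul_comm]
  exact mul_le_mul_of_nonneg_right h1 N.δ0

theorem SV_le : √w * SV B c al ≤ Λ ^ 2 * √(δ * Λ) := by
  rw [SV, mul_Sg, sq, mul_assoc]
  refine Sg_le' N.BΛ (mul_nonneg (h.Λ0 N) (sqrt_nonneg _)) fun i hi => ?_
  have k := mul_ph (i := i) (al := al) N.BΛ (sqrt_nonneg _) fun k h1 h2 => h.u_le N h1 h2
  have := mul_le_mul_of_nonneg_left (mul_le_mul_of_nonneg_right (N.cE i hi) (ph0 (B := B) h.al0 i))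
    (sqrt_nonneg w)
  linarith

theorem ea_le {i : ℕ} (hi : i ≤ B) : √w * Sg i (fun k => e k * al k) ≤ Λ * √(δ * Λ) := by
  rw [mul_Sg]
  refine Sg_le' ((Nat.cast_le.2 hi).trans N.BΛ) (sqrt_nonneg _) fun k hk => ?_
  have := mul_le_mul_of_nonneg_left (mul_le_mul_of_nonneg_right (N.eE k (hk.trans_le hi))
    (h.al0 k)) (sqrt_nonneg w)
  linarith [h.u_le N le_rfl (hk.trans_le hi)]

/-- a number `x ≤ y √(δ Λ) / √w` against a number `z ≤ √w √δ` -/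
theorem ur {x y z : ℝ} (x0 : 0 ≤ x) (hx : √w * x ≤ y * √(δ * Λ)) (y0 : 0 ≤ y)
    (hz : z ≤ √w * √δ) : z * x ≤ y * (Λ * δ) :=
  calc z * x ≤ √w * √δ * x := mul_le_mul_of_nonneg_right hz x0
    _ = √w * x * √δ := by ring
    _ ≤ y * √(δ * Λ) * √δ := mul_le_mul_of_nonneg_right hx (sqrt_nonneg _)
    _ ≤ _ := by rw [mul_assoc]; exact mul_le_mul_of_nonneg_left (h.sq_δ N) y0

theorem ph_sq {i : ℕ} {x : ℝ} (x0 : 0 ≤ x) (hx : ∀ k, i ≤ k → k < B → x * al k ^ 2 ≤ δ) :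
    x * ph B al i ^ 2 ≤ Λ ^ 2 * δ := by
  have k := mul_ph (i := i) (al := al) (x := √x) N.BΛ (sqrt_nonneg δ) fun k h1 h2 =>
    le_sqrt_of_sq_le (by rw [mul_pow, sq_sqrt x0]; exact hx k h1 h2)
  have := pow_le_pow_left₀ (mul_nonneg (sqrt_nonneg _) (ph0 h.al0 i)) k 2
  rwa [mul_pow, mul_pow, sq_sqrt x0, sq_sqrt N.δ0] at this

theorem lam_sq {i k : ℕ} (hi : i ≤ k) (hk : k < B) : lam i * al k ^ 2 ≤ δ :=
  (mul_le_mul_of_nonneg_right (N.lm hi) (sq_nonneg _)).trans (h.q1 N hk)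

theorem wE_sq {i k : ℕ} (hi : i ≤ k) (hk : k < B) : w * E i * al k ^ 2 ≤ δ := by
  have := mul_le_mul_of_nonneg_right (mul_le_mul_of_nonneg_left (N.Em hi) N.w0.le)
    (sq_nonneg (al k))
  linarith [h.q2 N hk]

/-- **Lad0** -/
theorem Lad0_N : w * D.Lad0 ≤ w * (D.X ^ 2 * D.Lv1) + 2 * (Λ * δ) := by
  have k1 : w * Sg B (fun i => e i ^ 2 * (al i ^ 2 / t i)) ≤ Λ * δ := by
    rw [mul_Sg]
    refine Sg_le' N.BΛ N.δ0 fun i hi => ?_
    rw [← mul_div_assoc, ← mul_div_assoc, div_le_iff₀ (h.t0 i)]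
    refine le_trans (mul_le_mul_of_nonneg_left (mul_le_mul_of_nonneg_right
      (pow_le_pow_left₀ (h.ee0 i) (N.eE i hi) 2) (sq_nonneg _)) N.w0.le) (N.n2 i hi)
  have k2 : w * Sg B (fun i => e i * al i ^ 2) ≤ Λ * δ := by
    rw [mul_Sg]
    exact Sg_le' N.BΛ N.δ0 fun i hi => (mul_le_mul_of_nonneg_left (mul_le_mul_of_nonneg_right
      (N.eE i hi) (sq_nonneg _)) N.w0.le).trans (h.q2 N hi)
  have := mul_le_mul_of_nonneg_left h.Lad0_le N.w0.le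
  linarith

/-- **VF** -/
theorem VF_N : w * D.VF ≤ 2 * (Λ ^ 5 * δ) := by
  have L0 := h.Λ0 N
  have k1 : w * SV B c al ^ 2 ≤ Λ ^ 5 * δ := by
    have := pow_le_pow_left₀ (mul_nonneg (sqrt_nonneg _) h.SV0) (h.SV_le N) 2
    rw [mul_pow, mul_pow, sq_sqrt N.w0.le, sq_sqrt (mul_nonneg N.δ0 L0)] at this
    linarith
  have k2 : w * Sg B (fun i => c i * ph B al i ^ 2) ≤ Λ * (Λ ^ 2 * δ) := by
    rw [mul_Sg]
    refine Sg_le' N.BΛ (mul_nonneg (sq_nonneg _) N.δ0) fun i hi => ?_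
    have := h.ph_sq N (i := i) (mul_nonneg N.w0.le (h.E0 N hi).le) fun k h1 h2 => h.wE_sq N h1 h2
    have := mul_le_mul_of_nonneg_left (mul_le_mul_of_nonneg_right (N.cE i hi)
      (sq_nonneg (ph B al i))) N.w0.le
    linarith
  have k3 : Λ ^ 3 * δ ≤ Λ ^ 5 * δ :=
    mul_le_mul_of_nonneg_right (pow_le_pow_right₀ N.Λ1 (by norm_num)) N.δ0
  have := mul_le_mul_of_nonneg_left h.VF_le N.w0.le
  linarith

/-- `I (√v · lw (e √v))` -/
theorem alw_N : w * D.I (fun j => √(D.v j j) * D.lw (fun k => D.e k * √(D.v k k)) j) ≤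
    Λ ^ 2 * δ := by
  have k := h.I_sqrt (w := fun j => D.lw (fun k => D.e k * √(D.v k k)) j)
    (W := fun i => Sg (i + 1) fun k => e k * al k) (fun j hj _ => h.lw_le hj)
    fun i => Sg0 fun k _ => mul_nonneg (h.ee0 k) (h.al0 k)
  simp only [mul_comm (D.lw _ _)] at k
  refine (mul_le_mul_of_nonneg_left k N.w0.le).trans ?_
  rw [mul_Sg, sq, mul_assoc]
  refine Sg_le' N.BΛ (mul_nonneg (h.Λ0 N) N.δ0) fun i hi => ?_
  rw [mul_comm (Sg _ _), ← mul_assoc, mul_Sg]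
  refine Sg_le' (le_trans (by exact_mod_cast hi) N.BΛ) N.δ0 fun k hk => ?_
  have hk' : k ≤ i := Nat.lt_succ_iff.1 hk
  have kB := hk'.trans_lt hi
  have a1 := mul_le_mul (h.wE_sq N hk' hi) (h.wE_sq N le_rfl kB) (mul_nonneg
    (mul_nonneg N.w0.le (h.E0 N kB).le) (sq_nonneg _)) N.δ0
  have a2 : w * al i * (E k * al k) ≤ δ := mul_le_of_sq N.δ0 (by linarith)
  exact (mul_le_mul_of_nonneg_left (mul_le_mul_of_nonneg_right (N.eE k kB) (h.al0 k))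
    (mul_nonneg N.w0.le (h.al0 i))).trans a2

/-- `sv f0` and `I (e √v)` against a number below `√w √δ` -/
theorem SV_r {z : ℝ} (hz : z ≤ √w * √δ) : z * SV B c al ≤ Λ ^ 3 * δ :=
  (h.ur N h.SV0 (h.SV_le N) (sq_nonneg _) hz).trans_eq (by ring)

theorem ea_r {i : ℕ} (hi : i ≤ B) {z : ℝ} (hz : z ≤ √w * √δ) :
    z * Sg i (fun k => e k * al k) ≤ Λ ^ 2 * δ :=
  (h.ur N (Sg0 fun k _ => mul_nonneg (h.ee0 k) (h.al0 k)) (h.ea_le N hi) (h.Λ0 N) hz).trans_eq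
    (by ring)

variable (d : Den D lev a ab)
include d

theorem wt_N : D.Iw (fun _ => 1) ≤ Λ ^ 2 * w := by
  refine (h.Iw_one d).trans ((Sg_le' N.BΛ (mul_nonneg N.w0.le (h.Λ0 N)) fun i hi =>
    mul_le_mul ((N.abl i hi).trans (N.lw i hi)) ((N.tE i hi).trans (N.EΛ i hi)) (h.t0 i).le
      N.w0.le).trans_eq (by ring))

theorem ab_sq {i : ℕ} (hi : i < B) : ab i * al i ^ 2 ≤ δ :=
  (mul_le_mul_of_nonneg_right (N.abl i hi) (sq_nonneg _)).trans (h.q1 N hi)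

theorem ab_r {i : ℕ} (hi : i < B) : ab i * al i ≤ √w * √δ :=
  (mul_le_mul_of_nonneg_right (N.abl i hi) (h.al0 i)).trans (h.r_le N le_rfl hi)

/-- **Lad1** -/
theorem Lad1_N : D.Lad1 ≤ 2 * (Λ * δ) := by
  have k1 : Sg B (fun i => ab i * e i * (al i ^ 2 / t i)) ≤ Λ * δ := by
    refine Sg_le' N.BΛ N.δ0 fun i hi => ?_
    rw [← mul_div_assoc, div_le_iff₀ (h.t0 i)]
    exact (mul_le_mul_of_nonneg_right (mul_le_mul (N.abl i hi) (N.eE i hi) (h.ee0 i)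
      (N.l0 i).le) (sq_nonneg _)).trans (N.n1 i hi)
  have k2 : Sg B (fun i => ab i * al i ^ 2) ≤ Λ * δ :=
    Sg_le' N.BΛ N.δ0 fun i hi => h.ab_sq N d hi
  linarith [h.Lad1_le d]

theorem aph {i : ℕ} (hi : i < B) : ab i * al i * ph B al i ≤ Λ * δ :=
  mul_ph N.BΛ N.δ0 fun k h1 h2 => by
    have a1 := mul_le_mul (h.q1 N hi) (h.lam_sq N h1 h2)
      (mul_nonneg (N.l0 i).le (sq_nonneg _)) N.δ0
    have a2 : lam i * al i * al k ≤ δ := mul_le_of_sq N.δ0 (by linarith)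
    exact (mul_le_mul_of_nonneg_right (mul_le_mul_of_nonneg_right (N.abl i hi) (h.al0 i))
      (h.al0 k)).trans a2

/-- the marked leg term -/
theorem leg_N : D.Iw (fun j => √(D.v j j) * (D.f0 j + D.sv D.f0 D.J +
    D.lw (fun k => D.e k * √(D.v k k)) j + D.hi (fun k => √(D.v k k)) j)) ≤ 4 * (Λ ^ 4 * δ) := by
  rw [h.Iw_eq d]
  have s0 := h.SV0
  have g0 : ∀ i, 0 ≤ Sg i fun k => e k * al k := fun i =>
    Sg0 fun k _ => mul_nonneg (h.ee0 k) (h.al0 k)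
  have k := h.I_sqrt (w := fun j => |a j| * (D.f0 j + D.sv D.f0 D.J +
    D.lw (fun k => D.e k * √(D.v k k)) j + D.hi (fun k => √(D.v k k)) j))
    (W := fun i => ab i * (ph B al i + SV B c al + Sg (i + 1) (fun k => e k * al k) + ph B al i))
    (fun j hj _ => mul_le_mul (d.le j hj) (add_le_add (add_le_add (add_le_add (h.f0 j hj)
      (h.sv_f0 le_rfl)) (h.lw_le hj)) (h.hi_le hj)) (add_nonneg (add_nonneg (add_nonneg
        (h.f00 j hj) (h.sv0 h.f00)) (h.lw0 hj)) (h.hi0 j)) (d.ab0 _))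
    fun i => mul_nonneg (d.ab0 i) (by linarith [ph0 (B := B) h.al0 i, g0 (i + 1)])
  refine le_trans (le_of_eq (sum_congr rfl fun j _ => by ring)) (k.trans ?_)
  refine (Sg_le' (x := 4 * (Λ ^ 3 * δ)) N.BΛ (by have := h.Λ0 N; have := N.δ0; positivity)
    fun i hi => ?_).trans_eq (by ring)
  have a1 := h.aph N d hi
  have a2 := h.SV_r N (h.ab_r N d hi)
  have a3 := h.ea_r N (i := i + 1) hi (h.ab_r N d hi)
  have b1 : Λ ^ 1 * δ ≤ Λ ^ 3 * δ :=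
    mul_le_mul_of_nonneg_right (pow_le_pow_right₀ N.Λ1 (by norm_num)) N.δ0
  have b2 : Λ ^ 2 * δ ≤ Λ ^ 3 * δ :=
    mul_le_mul_of_nonneg_right (pow_le_pow_right₀ N.Λ1 (by norm_num)) N.δ0
  rw [pow_one] at b1
  linarith

theorem ff_Sg : Sg B (fun i => ab i * t i * (ph B al i * (ph B al i + SV B c al))) ≤
    2 * (Λ ^ 6 * δ) := by
  have L0 := h.Λ0 N
  refine (Sg_le' (x := Λ * (2 * (Λ ^ 4 * δ))) N.BΛ (by have := N.δ0; positivity)
    fun i hi => ?_).trans_eq (by ring)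
  have p0 := ph0 (B := B) h.al0 i
  have a1 := h.ph_sq N (i := i) (N.l0 i).le fun k h1 h2 => h.lam_sq N h1 h2
  have a2 := mul_ph (i := i) (al := al) (x := lam i) N.BΛ
    (mul_nonneg (sqrt_nonneg w) (sqrt_nonneg δ)) fun k h1 h2 => h.r_le N h1 h2
  have a3 := mul_le_mul_of_nonneg_left (h.SV_r N le_rfl) L0
  have a4 := mul_le_mul_of_nonneg_right a2 h.SV0
  have b2 : Λ ^ 2 * δ ≤ Λ ^ 4 * δ :=
    mul_le_mul_of_nonneg_right (pow_le_pow_right₀ N.Λ1 (by norm_num)) N.δ0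
  have a5 : lam i * (ph B al i * (ph B al i + SV B c al)) ≤ 2 * (Λ ^ 4 * δ) := by linarith
  have a6 : 0 ≤ ph B al i * (ph B al i + SV B c al) := mul_nonneg p0 (add_nonneg p0 h.SV0)
  have a7 := mul_le_mul (N.abl i hi) ((N.tE i hi).trans (N.EΛ i hi)) (h.t0 i).le (N.l0 i).le
  have a8 := mul_le_mul_of_nonneg_right a7 a6
  have a9 := mul_le_mul_of_nonneg_left a5 L0
  linarith

/-- `Iw (f0 (f0 + sv f0))` -/
theorem ff_N : D.Iw (fun j => D.f0 j * (D.f0 j + D.sv D.f0 D.J)) ≤ 2 * (Λ ^ 6 * δ) :=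
  (h.Iw_blk d (G := fun i => ph B al i * (ph B al i + SV B c al)) (fun j hj _ =>
    mul_le_mul (h.f0 j hj) (add_le_add (h.f0 j hj) (h.sv_f0 le_rfl))
      (add_nonneg (h.f00 j hj) (h.sv0 h.f00)) (ph0 h.al0 _)) fun i =>
    mul_nonneg (ph0 h.al0 i) (add_nonneg (ph0 h.al0 i) h.SV0)).trans (h.ff_Sg N d)

theorem sqrt_ab : √(Sg B fun i => ab i ^ 2 * al i ^ 2) ≤ Λ * (√w * √δ) := by
  refine sqrt_le_iff.2 ⟨by have := h.Λ0 N; positivity, ?_⟩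
  refine (Sg_le' N.BΛ (sq_nonneg (√w * √δ)) fun i hi => ?_).trans ?_
  · rw [← mul_pow]; exact pow_le_pow_left₀ (mul_nonneg (d.ab0 i) (h.al0 i)) (h.ab_r N d hi) 2
  · rw [mul_pow Λ]
    exact mul_le_mul_of_nonneg_right (by nlinarith [N.Λ1]) (sq_nonneg _)

theorem sqrt_e : √w * √(Sg B fun i => e i ^ 2 * al i ^ 2) ≤ Λ * √(δ * Λ) := by
  have L0 := h.Λ0 N
  rw [← sqrt_mul N.w0.le, mul_Sg]
  refine sqrt_le_iff.2 ⟨by positivity, ?_⟩
  refine (Sg_le' N.BΛ (mul_nonneg N.δ0 L0) fun i hi => le_trans ?_ (h.q3 N hi)).trans ?_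
  · rw [mul_pow]
    exact mul_le_mul_of_nonneg_left (mul_le_mul_of_nonneg_right
      (pow_le_pow_left₀ (h.ee0 i) (N.eE i hi) 2) (sq_nonneg _)) N.w0.le
  · rw [mul_pow, sq_sqrt (mul_nonneg N.δ0 L0)]
    exact mul_le_mul_of_nonneg_right (by nlinarith [N.Λ1]) (mul_nonneg N.δ0 L0)

/-- **TF** -/
theorem TF_N (hK : log ((D.K : ℝ) + 2) ≤ Λ) : TF D.K B t c e al ab lam ≤ 18 * (Λ ^ 9 * δ) := by
  have L0 := h.Λ0 N
  have L1 := N.Λ1
  have d0 := N.δ0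
  have k1 : Sg B (fun i => (ab i ^ 2 / lam i + lam i) * al i ^ 2) ≤ Λ * (2 * δ) := by
    refine Sg_le' N.BΛ (by positivity) fun i hi => ?_
    have : ab i ^ 2 / lam i ≤ lam i := by
      rw [div_le_iff₀ (N.l0 i), ← sq]; exact pow_le_pow_left₀ (d.ab0 i) (N.abl i hi) 2
    have := mul_le_mul_of_nonneg_right this (sq_nonneg (al i))
    linarith [h.q1 N hi]
  have k2 := h.ur N (sqrt_nonneg _) (h.sqrt_e N d) L0 le_rfl
  have k3 := h.SV_r N le_rfl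
  have k4 : (√(Sg B fun i => e i ^ 2 * al i ^ 2) + SV B c al) *
      √(Sg B fun i => ab i ^ 2 * al i ^ 2) ≤ Λ * (Λ * (Λ * δ) + Λ ^ 3 * δ) := by
    have := mul_le_mul_of_nonneg_left (h.sqrt_ab N d)
      (add_nonneg (sqrt_nonneg (Sg B fun i => e i ^ 2 * al i ^ 2)) h.SV0)
    have := mul_le_mul_of_nonneg_left (add_le_add k2 k3) L0
    linarith
  have k5 : Sg B c ≤ Λ * Λ := Sg_le' N.BΛ L0 fun i hi => (N.cE i hi).trans (N.EΛ i hi)
  have k6 : 0 ≤ Sg B c := Sg0 fun i _ => h.c0 i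
  have k7 : (1 + Sg B c) ^ 2 ≤ (2 * Λ ^ 2) ^ 2 :=
    pow_le_pow_left₀ (by linarith) (by nlinarith) 2
  have b : ∀ i j : ℕ, i ≤ j → Λ ^ i * δ ≤ Λ ^ j * δ := fun i j e =>
    mul_le_mul_of_nonneg_right (pow_le_pow_right₀ L1 e) d0
  have k8 : Sg B (fun i => (ab i ^ 2 / lam i + lam i) * al i ^ 2) +
      (√(Sg B fun i => e i ^ 2 * al i ^ 2) + SV B c al) *
        √(Sg B fun i => ab i ^ 2 * al i ^ 2) ≤ 4 * (Λ ^ 4 * δ) := by
    linarith [b 1 4 (by norm_num), b 3 4 (by norm_num)]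
  have k9 : 0 ≤ Sg B (fun i => (ab i ^ 2 / lam i + lam i) * al i ^ 2) +
      (√(Sg B fun i => e i ^ 2 * al i ^ 2) + SV B c al) *
        √(Sg B fun i => ab i ^ 2 * al i ^ 2) := add_nonneg (Sg0 fun i _ => mul_nonneg (add_nonneg
    (div_nonneg (sq_nonneg _) (N.l0 i).le) (N.l0 i).le) (sq_nonneg _))
    (mul_nonneg (add_nonneg (sqrt_nonneg _) h.SV0) (sqrt_nonneg _))
  have k10 := mul_le_mul (mul_le_mul hK k7 (sq_nonneg _) L0) k8 k9 (by positivity)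
  unfold TF
  linarith [h.ff_Sg N d, b 6 9 (by norm_num)]

end BD

end Crest.Agent.T156.Cas.C40

end
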