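import Crest.Agent.T156.GrDef_62
import Crest.Agent.T156.AltReg_29

/-!
# Row 156, SR: the exponent table of the graded family (S10, helper66)

`yS E σ`: last thin level (absolute units, may exceed `1`); `PhS E σ`: the size of `∫ (rb - q)²`.
-/

set_option autoImplicit false

noncomputable section

namespace Crest.Agent.T156.Alt

open Real Set

theorem gS_bds {σ t : ℝ} (hσ : 0 ≤ σ) (ht : 0 ≤ t) :
    min t (σ * √t) ≤ gS σ t ∧ gS σ t ≤ 2 * min t (σ * √t) := by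
  have h1 := mul_self_sqrt ht
  have h2 := sqrt_nonneg t
  rcases le_total √t σ with h | h
  · have : t ≤ σ * √t := by nlinarith
    rw [gS_lo h, min_eq_left this]; constructor <;> linarith
  · have : σ * √t ≤ t := by nlinarith
    rw [gS_hi ht h, min_eq_right this]; constructor <;> nlinarith

theorem gS_pos {σ t : ℝ} (hσ : 0 < σ) (ht : 0 < t) : 0 < gS σ t :=
  (lt_min ht (mul_pos hσ (sqrt_pos.2 ht))).trans_le (gS_bds hσ.le ht.le).1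

namespace Pm

variable (p : Pm)

/-- the clipped level -/
def Tc (t : ℝ) : ℝ := max p.r (min t p.ye)
/-- the level where `κ σ t^{3/2} = E n^{-1/3}` -/
def yA (E σ : ℝ) : ℝ := (E / ((p.n : ℝ) ^ ((1 : ℝ) / 3) * p.κ * σ)) ^ ((2 : ℝ) / 3)
/-- the level where `κ t² = E n^{-1/3}` -/
def yB (E : ℝ) : ℝ := √(E / ((p.n : ℝ) ^ ((1 : ℝ) / 3) * p.κ))
/-- all levels are thin -/
def Flat (E σ : ℝ) : Prop := p.muG σ * (p.n : ℝ) ^ ((1 : ℝ) / 3) ≤ E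
open Classical in
/-- **the last thin level** -/
def yS (E σ : ℝ) : ℝ := max (max (p.yA E σ) (p.yB E)) (if p.Flat E σ then 1 else 0)
/-- an upper bound of the amplitude of the static marks -/
def laB (μ : ℝ) : ℝ := (p.n : ℝ) ^ (-(1 / 6) - p.c / 2) *
  min (p.mu' μ ^ (-(1 : ℝ) / 3)) (p.mu' μ ^ (-(1 : ℝ) / 2))
/-- **the size of the energy** -/
def PhS (E σ : ℝ) : ℝ :=
  (p.n : ℝ) ^ (-(1 : ℝ) / 3) * p.yS E σ + p.r ^ 3 + p.laB (p.muG σ) ^ 2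

theorem msG_eq (σ t : ℝ) : p.msG σ t = p.κ * p.Tc t * gS σ (p.Tc t) := rfl

end Pm

namespace Reg

variable {β c0 C0 : ℝ} {A : ℕ} {c η K : ℝ} {p : Pm} (H : Reg β c0 C0 A c η K p) {σ E t : ℝ}
include H

theorem Tc0 (t : ℝ) : 0 < p.Tc t := H.r0.trans_le (le_max_left _ _)
theorem Tc_le_ye (t : ℝ) : p.Tc t ≤ p.ye := max_le H.r_le_ye (min_le_right _ _)
omit H in
theorem r_le_Tc (t : ℝ) : p.r ≤ p.Tc t := le_max_left _ _
theorem Tc_top (h : p.ye ≤ t) : p.Tc t = p.ye := by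
  rw [Pm.Tc, min_eq_right h, max_eq_right H.r_le_ye]
omit H in
theorem Tc_mid (h : p.r ≤ t) (h' : t ≤ p.ye) : p.Tc t = t := by
  rw [Pm.Tc, min_eq_left h', max_eq_right h]
omit H in
theorem Tc_low (h : t ≤ p.r) : p.Tc t = p.r := max_eq_left ((min_le_left _ _).trans h)
omit H in
theorem Tc_le (h : p.r ≤ t) : p.Tc t ≤ t := max_le h (min_le_left _ _)

theorem sg0_pos : 0 < p.sg0 :=
  div_pos H.μ00 (mul_pos (mul_pos H.κ0 H.ye0) (sqrt_pos.2 H.ye0))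

theorem sgG_pos (M : p.MemG σ) : 0 < σ := H.sg0_pos.trans_le M.1

theorem lg_sg066 : logb p.n p.sg0 = -(2 / 3) + 7 / 2 * c := by
  have := H.μ00; have := H.κ0; have := H.ye0
  rw [Pm.sg0]; lg_norm; rw [H.lg_μ0, H.lg_κ, H.lg_ye]; ring

theorem lg_two66 : 0 ≤ logb p.n 2 ∧ logb p.n 2 ≤ η := H.lg_num (by norm_num) (by norm_num)

theorem lg_sgG (M : p.MemG σ) :
    -(2 / 3) + 7 / 2 * c ≤ logb p.n σ ∧ logb p.n σ ≤ -(3 / 2 * c) + η / 2 := by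
  refine ⟨H.lg_sg066 ▸ H.lg_mono H.sg0_pos M.1, (H.lg_mono (H.sgG_pos M) M.2).trans ?_⟩
  have := H.ye0
  rw [Pm.sg1]; lg_norm; rw [H.lg_ye]; linarith [H.lg_two66.2]

theorem msG_pos (M : p.MemG σ) (t : ℝ) : 0 < p.msG σ t :=
  mul_pos (mul_pos H.κ0 (H.Tc0 t)) (gS_pos (H.sgG_pos M) (H.Tc0 t))

theorem msG_top (h : p.ye ≤ t) : p.msG σ t = p.muG σ := by rw [Pm.msG_eq, H.Tc_top h, Pm.muG]

theorem muG_pos (M : p.MemG σ) : 0 < p.muG σ := H.msG_top le_rfl ▸ H.msG_pos M p.ye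

theorem lg_Tc (t : ℝ) : logb p.n p.r ≤ logb p.n (p.Tc t) ∧ logb p.n (p.Tc t) ≤ -(3 * c) :=
  ⟨H.lg_mono H.r0 (r_le_Tc t), H.lg_ye ▸ H.lg_mono (H.Tc0 t) (H.Tc_le_ye t)⟩

/-- the exponent of the mass -/
theorem lg_msG66 (M : p.MemG σ) (t : ℝ) :
    (-c + 2 * logb p.n (p.Tc t) ≤ logb p.n (p.msG σ t) ∨
      -c + logb p.n σ + 3 / 2 * logb p.n (p.Tc t) ≤ logb p.n (p.msG σ t)) ∧
    logb p.n (p.msG σ t) ≤ -c + 2 * logb p.n (p.Tc t) + η ∧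
    logb p.n (p.msG σ t) ≤ -c + logb p.n σ + 3 / 2 * logb p.n (p.Tc t) + η := by
  have a0 := H.Tc0 t
  have a1 := H.sgG_pos M
  have a2 := H.κ0
  have a3 := gS_pos a1 a0
  have a4 : 0 < σ * √(p.Tc t) := by positivity
  obtain ⟨b1, b2⟩ := gS_bds a1.le a0.le
  have c1 := H.lg_mono (lt_min a0 a4) b1
  have c2 := H.lg_mono a3 b2
  rw [logb_mul two_ne_zero (lt_min a0 a4).ne'] at c2
  rw [lg_min H.N1 a0 a4, logb_mul a1.ne' (sqrt_pos.2 a0).ne', lg_sqrt _ a0.le] at c1 c2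
  have e : logb p.n (p.msG σ t) = -c + logb p.n (p.Tc t) + logb p.n (gS σ (p.Tc t)) := by
    rw [Pm.msG_eq]; lg_norm; rw [H.lg_κ]
  have d1 := min_le_left (logb p.n (p.Tc t)) (logb p.n σ + logb p.n (p.Tc t) / 2)
  have d2 := min_le_right (logb p.n (p.Tc t)) (logb p.n σ + logb p.n (p.Tc t) / 2)
  have d3 := H.lg_two66.2
  refine ⟨?_, by linarith, by linarith⟩
  rcases min_choice (logb p.n (p.Tc t)) (logb p.n σ + logb p.n (p.Tc t) / 2) with h | h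
  · left; linarith
  · right; linarith

theorem lg_muG66 (M : p.MemG σ) :
    (-(7 * c) ≤ logb p.n (p.muG σ) ∨ logb p.n σ - 11 / 2 * c ≤ logb p.n (p.muG σ)) ∧
    logb p.n (p.muG σ) ≤ -(7 * c) + η ∧ logb p.n (p.muG σ) ≤ logb p.n σ - 11 / 2 * c + η := by
  have h := H.lg_msG66 M p.ye
  rw [H.msG_top le_rfl, H.Tc_top le_rfl, H.lg_ye] at h
  refine ⟨h.1.imp (fun h => by linarith) fun h => by linarith, by linarith [h.2.1],
    by linarith [h.2.2]⟩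

theorem yA_pos (M : p.MemG σ) (hE : 0 < E) : 0 < p.yA E σ := by
  have := H.N0; have := H.κ0; have := H.sgG_pos M
  rw [Pm.yA]; positivity

theorem yB_pos (hE : 0 < E) : 0 < p.yB E := by
  have := H.N0; have := H.κ0
  rw [Pm.yB]; positivity

theorem yS_pos (hE : 0 < E) : 0 < p.yS E σ :=
  (H.yB_pos hE).trans_le ((le_max_right _ _).trans (le_max_left _ _))

theorem laB_pos {μ : ℝ} (hμ : 0 < μ) : 0 < p.laB μ := by
  have := H.N0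
  have : 0 < p.mu' μ := by rw [Pm.mu']; positivity
  rw [Pm.laB]; positivity

/-- the exponent of the amplitude of the static marks -/
theorem lg_laB {μ : ℝ} (hμ : 0 < μ) :
    2 * logb p.n (p.laB μ) ≤ -(1 / 3) - c - 2 / 3 * (logb p.n μ + 1 / 3) ∧
    2 * logb p.n (p.laB μ) ≤ -(1 / 3) - c - (logb p.n μ + 1 / 3) ∧
    (2 * logb p.n (p.laB μ) = -(1 / 3) - c - 2 / 3 * (logb p.n μ + 1 / 3) ∨
      2 * logb p.n (p.laB μ) = -(1 / 3) - c - (logb p.n μ + 1 / 3)) := by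
  have a0 := H.N0
  have a1 : 0 < p.mu' μ := by rw [Pm.mu']; positivity
  have e : logb p.n (p.mu' μ) = logb p.n μ + 1 / 3 := by
    rw [Pm.mu']; lg_norm; rw [H.lg_n]; ring
  have b1 : 0 < p.mu' μ ^ (-(1 : ℝ) / 3) := by positivity
  have b2 : 0 < p.mu' μ ^ (-(1 : ℝ) / 2) := by positivity
  have f : logb p.n (p.laB μ) = -(1 / 6) - c / 2 +
      min (-(1 : ℝ) / 3 * (logb p.n μ + 1 / 3)) (-(1 : ℝ) / 2 * (logb p.n μ + 1 / 3)) := by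
    rw [Pm.laB, logb_mul (Pre29.rp_pos H.n1 _).ne' (lt_min b1 b2).ne', H.lg_rp, lg_min H.N1 b1 b2,
      logb_rpow_eq_mul_logb_of_pos a1, logb_rpow_eq_mul_logb_of_pos a1, e, H.hc]
  have d1 := min_le_left (-(1 : ℝ) / 3 * (logb p.n μ + 1 / 3)) (-(1 : ℝ) / 2 * (logb p.n μ + 1 / 3))
  have d2 := min_le_right (-(1 : ℝ) / 3 * (logb p.n μ + 1 / 3))
    (-(1 : ℝ) / 2 * (logb p.n μ + 1 / 3))
  refine ⟨by linarith, by linarith, ?_⟩
  rcases min_choice (-(1 : ℝ) / 3 * (logb p.n μ + 1 / 3)) (-(1 : ℝ) / 2 * (logb p.n μ + 1 / 3))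
    with h | h
  · left; linarith
  · right; linarith

theorem PhS_pos (hE : 0 < E) : 0 < p.PhS E σ := by
  have := H.N0; have := H.r0; have := H.yS_pos (σ := σ) hE
  rw [Pm.PhS]; positivity

theorem lg_yA (M : p.MemG σ) (hE : 0 < E) :
    logb p.n (p.yA E σ) = 2 / 3 * (logb p.n E - 1 / 3 + c - logb p.n σ) := by
  have := H.N0; have := H.κ0; have := H.sgG_pos M
  rw [Pm.yA]; lg_norm; rw [H.lg_κ, H.lg_n]; ring

theorem lg_yB (hE : 0 < E) : logb p.n (p.yB E) = (logb p.n E - 1 / 3 + c) / 2 := by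
  have := H.N0; have := H.κ0
  rw [Pm.yB]; lg_norm; rw [H.lg_κ, H.lg_n]; ring

theorem lg_flat (M : p.MemG σ) (hE : 0 < E) :
    p.Flat E σ ↔ logb p.n (p.muG σ) + 1 / 3 ≤ logb p.n E := by
  have := H.N0; have := H.muG_pos M
  rw [Pm.Flat, ← logb_le_logb H.N1 (by positivity) hE]; lg_norm; rw [H.lg_n, mul_one]

/-- the exponent of `yS`: lower bounds, and it is one of three values -/
theorem lg_yS (M : p.MemG σ) (hE : 0 < E) :
    2 / 3 * (logb p.n E - 1 / 3 + c - logb p.n σ) ≤ logb p.n (p.yS E σ) ∧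
    (logb p.n E - 1 / 3 + c) / 2 ≤ logb p.n (p.yS E σ) ∧
    (p.Flat E σ → 0 ≤ logb p.n (p.yS E σ)) ∧
    (logb p.n (p.yS E σ) = 2 / 3 * (logb p.n E - 1 / 3 + c - logb p.n σ) ∨
      logb p.n (p.yS E σ) = (logb p.n E - 1 / 3 + c) / 2 ∨
      logb p.n (p.yS E σ) = 0 ∧ p.Flat E σ) := by
  have a := H.yA_pos M hE
  have b := H.yB_pos hE
  refine ⟨H.lg_yA M hE ▸ H.lg_mono a ((le_max_left _ _).trans (le_max_left _ _)),
    H.lg_yB hE ▸ H.lg_mono b ((le_max_right _ _).trans (le_max_left _ _)), fun h => H.lg_nn ?_, ?_⟩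
  · rw [Pm.yS, if_pos h]; exact le_max_right _ _
  · rw [← H.lg_yA M hE, ← H.lg_yB hE, Pm.yS]
    by_cases h : p.Flat E σ
    · rw [if_pos h]
      rcases max_choice (max (p.yA E σ) (p.yB E)) 1 with k | k <;> rw [k]
      · rcases max_choice (p.yA E σ) (p.yB E) with k | k <;> rw [k] <;> simp
      · simp [h]
    · rw [if_neg h, max_eq_left (a.le.trans (le_max_left _ _))]
      rcases max_choice (p.yA E σ) (p.yB E) with k | k <;> rw [k] <;> simp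

/-- the exponent of `PhS` -/
theorem lg_PhS (M : p.MemG σ) (hE : 0 < E) :
    logb p.n (p.yS E σ) - 1 / 3 ≤ logb p.n (p.PhS E σ) ∧
    3 * logb p.n p.r ≤ logb p.n (p.PhS E σ) ∧
    2 * logb p.n (p.laB (p.muG σ)) ≤ logb p.n (p.PhS E σ) ∧
    (logb p.n (p.PhS E σ) ≤ logb p.n (p.yS E σ) - 1 / 3 + η ∨
      logb p.n (p.PhS E σ) ≤ 3 * logb p.n p.r + η ∨
      logb p.n (p.PhS E σ) ≤ 2 * logb p.n (p.laB (p.muG σ)) + η) := by
  have a0 := H.N0; have a1 := H.r0; have a2 := H.yS_pos (σ := σ) hE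
  have a3 := H.PhS_pos (σ := σ) hE
  have a4 := H.laB_pos (H.muG_pos M)
  have b1 : 0 < (p.n : ℝ) ^ (-(1 : ℝ) / 3) * p.yS E σ := by positivity
  have b2 : 0 < p.r ^ 3 := by positivity
  have b3 : 0 < p.laB (p.muG σ) ^ 2 := by positivity
  have e1 : logb p.n ((p.n : ℝ) ^ (-(1 : ℝ) / 3) * p.yS E σ) = logb p.n (p.yS E σ) - 1 / 3 := by
    lg_norm; rw [H.lg_n]; ring
  have e2 : logb p.n (p.r ^ 3) = 3 * logb p.n p.r := by lg_norm
  have e3 : logb p.n (p.laB (p.muG σ) ^ 2) = 2 * logb p.n (p.laB (p.muG σ)) := by lg_norm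
  have d := (H.lg_num (x := 3) (by norm_num) (by norm_num)).2
  have k : ∀ x, 0 < x → p.PhS E σ ≤ 3 * x → logb p.n (p.PhS E σ) ≤ logb p.n x + η := fun x hx h => by
    have k := H.lg_mono a3 h
    rw [logb_mul three_ne_zero hx.ne'] at k
    linarith
  refine ⟨e1 ▸ H.lg_mono b1 (by rw [Pm.PhS]; linarith), e2 ▸ H.lg_mono b2 (by rw [Pm.PhS]; linarith),
    e3 ▸ H.lg_mono b3 (by rw [Pm.PhS]; linarith), ?_⟩
  rw [← e1, ← e2, ← e3]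
  by_cases h1 : p.PhS E σ ≤ 3 * ((p.n : ℝ) ^ (-(1 : ℝ) / 3) * p.yS E σ)
  · exact .inl (k _ b1 h1)
  by_cases h2 : p.PhS E σ ≤ 3 * p.r ^ 3
  · exact .inr (.inl (k _ b2 h2))
  · exact .inr (.inr (k _ b3 (by rw [Pm.PhS] at h1 h2 ⊢; linarith)))

/-- the exponent of the clipped level in terms of the level -/
theorem lg_Tc_cases (ht : 0 < t) :
    (logb p.n t ≤ logb p.n p.r ∧ logb p.n (p.Tc t) = logb p.n p.r) ∨
    (logb p.n p.r ≤ logb p.n t ∧ logb p.n t ≤ -(3 * c) ∧ logb p.n (p.Tc t) = logb p.n t) ∨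
    (-(3 * c) ≤ logb p.n t ∧ logb p.n (p.Tc t) = -(3 * c) ∧ p.msG σ t = p.muG σ) := by
  rcases le_total t p.r with h | h
  · exact .inl ⟨H.lg_mono ht h, by rw [Tc_low h]⟩
  rcases le_total t p.ye with h' | h'
  · exact .inr (.inl ⟨H.lg_mono H.r0 h, H.lg_ye ▸ H.lg_mono ht h', by rw [Tc_mid h h']⟩)
  · exact .inr (.inr ⟨H.lg_ye ▸ H.lg_mono H.ye0 h', by rw [H.Tc_top h', H.lg_ye], H.msG_top h'⟩)

/-- **the table in exponents.**  `φ` exponent of the energy bound, `u` of the level, `μ` of its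
mass.  THIN (the cost `n^{2/3} ms Φ / t` is `≤ n^{-ε} s⁴`), ROOT, or one of two THICK cases. -/
theorem dich_lg {ε Φ : ℝ} (hc : c ≤ 1 / 1000) (hη : η ≤ ε) (hε : 1000 * ε ≤ c) (M : p.MemG σ)
    (E1 : 1 ≤ E) (E2 : E ≤ (p.n : ℝ) ^ ε) (Φ0 : 0 < Φ) (hΦ : Φ ≤ (p.n : ℝ) ^ ε * p.PhS E σ)
    (ht : (p.n : ℝ) ^ (c / 100 - 1 / 6) ≤ t) :
    ε + 2 / 3 + logb p.n (p.msG σ t) + logb p.n Φ - logb p.n t ≤ 4 * logb p.n p.s ∨
    (logb p.n t ≤ logb p.n p.r + 50 * ε ∧ logb p.n Φ ≤ 3 * (logb p.n p.r + 50 * ε)) ∨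
    (logb p.n p.r + 50 * ε ≤ logb p.n t ∧ -(1 / 3) - 14 * ε ≤ logb p.n (p.msG σ t) ∧
      c / 2 - 1 / 6 - 8 * ε ≤ logb p.n t ∧
      (logb p.n Φ ≤ logb p.n t - 1 / 3 + 14 * ε ∨ logb p.n Φ ≤ 3 * logb p.n p.r + 2 * ε)) ∨
    (-(10 * c) ≤ logb p.n t ∧ -(1 / 3) - 11 * c ≤ logb p.n (p.msG σ t) ∧
      logb p.n Φ ≤ -(1 / 3) + 7 * c) := by
  have E0 : 0 < E := by linarith
  have t0 : 0 < t := (Pre29.rp_pos H.n1 _).trans_le ht
  have a1 := H.lg_mono (Pre29.rp_pos H.n1 _) ht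
  rw [H.lg_rp] at a1
  have a2 := H.lg_mono Φ0 hΦ
  rw [logb_mul (Pre29.rp_pos H.n1 _).ne' (H.PhS_pos E0).ne', H.lg_rp] at a2
  have a3 := H.lg_nn E1
  have a4 := (H.lg_mono E0 E2).trans_eq (H.lg_rp _)
  obtain ⟨-, m2, m3⟩ := H.lg_msG66 M t
  obtain ⟨u1, u2, u3⟩ := H.lg_muG66 M
  obtain ⟨-, -, -, y4⟩ := H.lg_yS M E0
  obtain ⟨-, -, -, p4⟩ := H.lg_PhS M E0
  obtain ⟨l1, l2, -⟩ := H.lg_laB (H.muG_pos M)
  obtain ⟨s1, s2⟩ := H.lg_s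
  have r1 := H.lg_r
  have c0 := H.c_pos
  have η0 := H.η_pos
  have fl := (H.lg_flat M E0).1
  have tc := H.lg_Tc_cases (σ := σ) t0
  have mm : logb p.n (p.msG σ t) ≤ logb p.n (p.muG σ) + η := by
    obtain ⟨-, t2⟩ := H.lg_Tc t
    rcases u1 with u1 | u1 <;> linarith
  generalize logb p.n (p.PhS E σ) = ph at *
  generalize logb p.n (p.yS E σ) = y at *
  generalize logb p.n (p.laB (p.muG σ)) = la at *
  generalize logb p.n Φ = φ at *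
  generalize logb p.n E = e at *
  generalize logb p.n σ = x at *
  generalize logb p.n p.s = s at *
  generalize logb p.n p.r = r at *
  generalize logb p.n (p.Tc t) = T at *
  generalize logb p.n t = u at *
  by_cases hthin : ε + 2 / 3 + logb p.n (p.msG σ t) + φ - u ≤ 4 * s
  · exact .inl hthin
  right
  push Not at hthin
  have hA : ∀ _ : r ≤ u, -(1 / 3) - 14 * ε ≤ logb p.n (p.msG σ t) → c / 2 - 1 / 6 - 8 * ε ≤ u →
      (φ ≤ u - 1 / 3 + 14 * ε ∨ φ ≤ 3 * r + 2 * ε) →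
      (u ≤ r + 50 * ε ∧ φ ≤ 3 * (r + 50 * ε)) ∨
      (r + 50 * ε ≤ u ∧ -(1 / 3) - 14 * ε ≤ logb p.n (p.msG σ t) ∧ c / 2 - 1 / 6 - 8 * ε ≤ u ∧
        (φ ≤ u - 1 / 3 + 14 * ε ∨ φ ≤ 3 * r + 2 * ε)) ∨
      (-(10 * c) ≤ u ∧ -(1 / 3) - 11 * c ≤ logb p.n (p.msG σ t) ∧ φ ≤ -(1 / 3) + 7 * c) := by
    intro _ h2 h3 h4
    rcases le_total u (r + 50 * ε) with h | h
    · exact .inl ⟨h, by rcases h4 with h4 | h4 <;> linarith⟩
    · exact .inr (.inl ⟨h, h2, h3, h4⟩)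
  rcases p4 with p4 | p4 | p4
  · rcases y4 with y4 | y4 | ⟨y4, y5⟩
    · rcases tc with ⟨t1, t2⟩ | ⟨t1, t2, t3⟩ | ⟨t1, t2, -⟩
      · exact .inl ⟨by linarith, by linarith⟩
      · exact hA t1 (by linarith) (by linarith) (.inl (by linarith))
      · exact hA (by linarith) (by linarith) (by linarith) (.inl (by linarith))
    · rcases tc with ⟨t1, t2⟩ | ⟨t1, t2, t3⟩ | ⟨t1, t2, -⟩
      · exact .inl ⟨by linarith, by linarith⟩
      · exact hA t1 (by linarith) (by linarith) (.inl (by linarith))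
      · exact hA (by linarith) (by linarith) (by linarith) (.inl (by linarith))
    · have f := fl y5
      have f2 : -(1 / 3) + 11 / 2 * c + e ≥ x := by rcases u1 with u1 | u1 <;> linarith
      rcases tc with ⟨t1, t2⟩ | ⟨t1, t2, t3⟩ | ⟨t1, t2, -⟩
      · exfalso; linarith
      · exact .inr (.inr ⟨by linarith, by linarith, by linarith⟩)
      · exact .inr (.inr ⟨by linarith, by linarith, by linarith⟩)
  · rcases tc with ⟨t1, t2⟩ | ⟨t1, t2, t3⟩ | ⟨t1, t2, -⟩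
    · exact .inl ⟨by linarith, by linarith⟩
    · exact hA t1 (by linarith) (by linarith) (.inr (by linarith))
    · exact hA (by linarith) (by linarith) (by linarith) (.inr (by linarith))
  · rcases tc with ⟨t1, t2⟩ | ⟨t1, t2, t3⟩ | ⟨t1, t2, t3⟩
    · exfalso; rcases u1 with u1 | u1 <;> linarith
    · rcases u1 with u1 | u1 <;> exact .inr (.inr ⟨by linarith, by linarith, by linarith⟩)
    · rw [t3] at *
      exact .inr (.inr ⟨by linarith, by linarith, by linarith⟩)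

/-- crude bounds: `n^{-1/2} ≤ PhS ≤ n^{-1/9 + c}` -/
theorem lg_PhS_bds {ε : ℝ} (hη : η ≤ ε) (hε : 1000 * ε ≤ c) (M : p.MemG σ)
    (E1 : 1 ≤ E) (E2 : E ≤ (p.n : ℝ) ^ ε) :
    -(1 / 2) + c / 2 ≤ logb p.n (p.PhS E σ) ∧ logb p.n (p.PhS E σ) ≤ -(1 / 9) + c := by
  have E0 : 0 < E := by linarith
  have a3 := H.lg_nn E1
  have a4 := (H.lg_mono E0 E2).trans_eq (H.lg_rp _)
  obtain ⟨u1, -, -⟩ := H.lg_muG66 M
  obtain ⟨-, y2, -, y4⟩ := H.lg_yS M E0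
  obtain ⟨p1, -, -, p4⟩ := H.lg_PhS M E0
  obtain ⟨l1, l2, -⟩ := H.lg_laB (H.muG_pos M)
  obtain ⟨s1, s2⟩ := H.lg_s
  obtain ⟨x1, x2⟩ := H.lg_sgG M
  have r1 := H.lg_r
  have c0 := H.c_pos
  have c1 := H.c_le
  refine ⟨by linarith, ?_⟩
  rcases p4 with p4 | p4 | p4
  · rcases y4 with y4 | y4 | ⟨y4, -⟩ <;> linarith
  · linarith
  · rcases u1 with u1 | u1 <;> linarith

/-- the low words: `n^{5/6} θ Φ^{5/3} ≤ n^{-ε} s⁵` -/
theorem lg_theta {ε Φ : ℝ} (hη : η ≤ ε) (hε : 1000 * ε ≤ c) (M : p.MemG σ)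
    (E1 : 1 ≤ E) (E2 : E ≤ (p.n : ℝ) ^ ε) (Φ0 : 0 < Φ) (hΦ : Φ ≤ (p.n : ℝ) ^ ε * p.PhS E σ) :
    c + 5 / 6 + logb p.n (p.muG σ) + 5 / 3 * logb p.n Φ ≤ 5 * logb p.n p.s := by
  have E0 : 0 < E := by linarith
  have a2 := H.lg_mono Φ0 hΦ
  rw [logb_mul (Pre29.rp_pos H.n1 _).ne' (H.PhS_pos E0).ne', H.lg_rp] at a2
  have a3 := H.lg_nn E1
  have a4 := (H.lg_mono E0 E2).trans_eq (H.lg_rp _)
  obtain ⟨u1, u2, u3⟩ := H.lg_muG66 M
  obtain ⟨-, -, -, y4⟩ := H.lg_yS M E0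
  obtain ⟨-, -, -, p4⟩ := H.lg_PhS M E0
  obtain ⟨l1, l2, -⟩ := H.lg_laB (H.muG_pos M)
  obtain ⟨s1, s2⟩ := H.lg_s
  obtain ⟨x1, x2⟩ := H.lg_sgG M
  have r1 := H.lg_r
  have c0 := H.c_pos
  have c1 := H.c_le
  have fl := (H.lg_flat M E0).1
  rcases p4 with p4 | p4 | p4
  · rcases y4 with y4 | y4 | ⟨y4, y5⟩
    · rcases le_total (logb p.n σ) (-(1 / 4)) with h | h <;> linarith
    · linarith
    · linarith [fl y5]
  · linarith
  · rcases u1 with u1 | u1 <;> linarith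

/-- above `yS` the mass is at least `E n^{-1/3}` (unless all levels are thin) -/
theorem thick_of_yS (M : p.MemG σ) (hE : 0 < E) (hf : ¬p.Flat E σ) (ht : p.yS E σ ≤ t) :
    E ≤ p.msG σ t * (p.n : ℝ) ^ ((1 : ℝ) / 3) := by
  have t0 : 0 < t := (H.yS_pos hE).trans_le ht
  have a0 := H.N0
  have a1 := H.msG_pos M t
  have a2 := H.lg_mono (H.yS_pos hE) ht
  obtain ⟨y1, y2, -, -⟩ := H.lg_yS M hE
  obtain ⟨m1, -, -⟩ := H.lg_msG66 M t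
  rw [H.lg_flat M hE, not_le] at hf
  refine H.le_of_lg hE (by positivity) ?_
  lg_norm
  rw [H.lg_n]
  rcases H.lg_Tc_cases (σ := σ) t0 with ⟨t1, t2⟩ | ⟨t1, t2, t3⟩ | ⟨t1, t2, t3⟩
  · rcases m1 with m1 | m1 <;> linarith
  · rcases m1 with m1 | m1 <;> linarith
  · rw [t3]; linarith

/-- the floor of (VAR): above `l`, `l³ ≥ PhS`, the window `w = (n t ms)^{-1/3}` is below the level and
`t w² ≤ PhS` (exponent form, `t ≤ n^ε`) -/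
theorem lg_var {ε : ℝ} (hη : η ≤ ε) (hε : 1000 * ε ≤ c) (M : p.MemG σ) (E1 : 1 ≤ E)
    (E2 : E ≤ (p.n : ℝ) ^ ε) (t0 : 0 < t) (h1 : p.PhS E σ ≤ t ^ 3) (h2 : t ≤ (p.n : ℝ) ^ ε) :
    0 ≤ 1 + 4 * logb p.n t + logb p.n (p.msG σ t) ∧
    logb p.n t - 2 / 3 * (1 + logb p.n t + logb p.n (p.msG σ t)) ≤ logb p.n (p.PhS E σ) := by
  have E0 : 0 < E := by linarith
  have a1 := H.lg_mono (H.PhS_pos E0) h1
  rw [logb_pow] at a1
  have a2 := (H.lg_mono t0 h2).trans_eq (H.lg_rp _)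
  have a3 := H.lg_nn E1
  obtain ⟨m1, -, -⟩ := H.lg_msG66 M t
  obtain ⟨y1, y2, -, -⟩ := H.lg_yS M E0
  obtain ⟨p1, p2, -, -⟩ := H.lg_PhS M E0
  obtain ⟨b1, b2⟩ := H.lg_PhS_bds hη hε M E1 E2
  obtain ⟨x1, x2⟩ := H.lg_sgG M
  have c0 := H.c_pos
  have c1 := H.c_le
  push_cast at a1
  rcases H.lg_Tc_cases (σ := σ) t0 with ⟨t1, t2⟩ | ⟨t1, t2, t3⟩ | ⟨t1, t2, -⟩ <;>
    rcases m1 with m1 | m1 <;> exact ⟨by linarith, by linarith⟩

end Reg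

variable (p : Pm) (σ ε Φ t : ℝ)

/-- THIN: the SD cost of the block is small -/
def ThinB : Prop :=
  (p.n : ℝ) ^ ε * ((p.n : ℝ) ^ ((2 : ℝ) / 3) * p.msG σ t * Φ / t) ≤ p.s ^ 4
/-- ROOT: everything is of the size of `r` -/
def RootB : Prop := t ≤ (p.n : ℝ) ^ (50 * ε) * p.r ∧ Φ ≤ ((p.n : ℝ) ^ (50 * ε) * p.r) ^ 3
/-- THICK (units: `m⁵ S ≥ n^ε`, `Φ^{1/3} n^ε ≤ S min(1, m³)`, `S ≥ n^{c/3}`) -/
structure ThickB : Prop where
  ms : (p.n : ℝ) ^ ε ≤ (p.msG σ t * (p.n : ℝ) ^ ((1 : ℝ) / 3)) ^ 5 * (t * (p.n : ℝ) ^ ((1 : ℝ) / 6))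
  sup : (p.n : ℝ) ^ (3 * ε) * Φ ≤ t ^ 3
  gap : (p.n : ℝ) ^ (3 * ε) * Φ ≤ (t * (p.msG σ t * (p.n : ℝ) ^ ((1 : ℝ) / 3)) ^ 3) ^ 3
  lev : (p.n : ℝ) ^ (p.c / 3 - 1 / 6) ≤ t
  rt : (p.n : ℝ) ^ (50 * ε) * p.r ≤ t

variable {p σ ε Φ t}

namespace Reg

variable {β c0 C0 : ℝ} {A : ℕ} {c η K : ℝ} (H : Reg β c0 C0 A c η K p) {E : ℝ}
include H

/-- **THE TRICHOTOMY** of the levels -/
theorem dich (hc : c ≤ 1 / 1000) (hη : η ≤ ε) (hε : 1000 * ε ≤ c) (M : p.MemG σ)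
    (E1 : 1 ≤ E) (E2 : E ≤ (p.n : ℝ) ^ ε) (Φ0 : 0 < Φ) (hΦ : Φ ≤ (p.n : ℝ) ^ ε * p.PhS E σ)
    (ht : (p.n : ℝ) ^ (c / 100 - 1 / 6) ≤ t) :
    ThinB p σ ε Φ t ∨ RootB p ε Φ t ∨ ThickB p σ ε Φ t := by
  have t0 : 0 < t := (Pre29.rp_pos H.n1 _).trans_le ht
  have a0 := H.N0; have a1 := H.msG_pos M t; have a2 := H.s0; have a3 := H.r0
  obtain ⟨s1, s2⟩ := H.lg_s
  have r1 := H.lg_r
  have c0 := H.c_pos
  have η0 := H.η_pos
  rcases H.dich_lg hc hη hε M E1 E2 Φ0 hΦ ht with h | ⟨h1, h2⟩ | h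
  · refine .inl (H.le_of_lg (by positivity) (by positivity) ?_)
    lg_norm; rw [H.lg_n]; linarith
  · refine .inr (.inl ⟨H.le_of_lg t0 (by positivity) ?_, H.le_of_lg Φ0 (by positivity) ?_⟩) <;>
      lg_norm <;> rw [H.lg_n] <;> linarith
  · refine .inr (.inr ⟨?_, ?_, ?_, ?_, ?_⟩) <;>
      refine H.le_of_lg (by positivity) (by positivity) ?_ <;> lg_norm <;>
      simp only [H.lg_n, H.hc] <;>
      rcases h with ⟨h1, h2, h3, h4 | h4⟩ | ⟨h1, h2, h3⟩ <;> linarith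

/-- the absolute cost of the root zone -/
theorem root_cost (hε0 : 0 ≤ ε) (hε : 1000 * ε ≤ c) :
    (p.n : ℝ) ^ (30 * ε) * ((p.n : ℝ) ^ ((5 : ℝ) / 6) * p.κ * ((p.n : ℝ) ^ (50 * ε) * p.r) ^ 5) ≤
      p.s ^ 5 := by
  have a0 := H.N0; have a1 := H.κ0; have a2 := H.s0; have a3 := H.r0
  refine H.le_of_lg (by positivity) (by positivity) ?_
  lg_norm; rw [H.lg_n, H.lg_κ, H.lg_r]; linarith

end Reg

end Crest.Agent.T156.Alt

end
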