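import Crest.Agent.T156.ErrM_35
import Crest.Agent.T156.SrN_66

/-!
# Row 156: the two block inequalities of `ErrM_35` on the graded family (helper35)
-/

set_option autoImplicit false
set_option linter.unusedSectionVars false

noncomputable section

namespace Crest.Agent.T156.Alt

open Real Set
open Crest.Agent.T156.Cas.C40 (NB)

namespace Pm

variable (p : Pm)

/-- majorant of the density of the test measure -/
def lamG (σ t : ℝ) : ℝ := p.κ * min (min t p.ye) (σ * √(min t p.ye))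
/-- the budget -/
def dlG : ℝ := (p.n : ℝ) ^ (-(5 : ℝ) / 6 - p.c / 30) * p.s ^ 5
/-- the size of a block of the level `t` -/
def AlG (σ L l t al : ℝ) : Prop :=
  (al ^ 2 ≤ L * (max t l / (p.n * t * p.msG σ t)) ∧ al ^ 2 ≤ L * (t ^ 2 * max t l ^ 2)) ∨
  (p.ye ≤ t ∧ al ^ 2 ≤ (p.n : ℝ) ^ ((1 : ℝ) / 10) / (p.n * p.muG σ))

theorem lamG_mono {p : Pm} (hκ : 0 ≤ p.κ) {σ : ℝ} (hσ : 0 ≤ σ) : Monotone (p.lamG σ) :=
  fun _ _ h => mul_le_mul_of_nonneg_left (min_le_min (min_le_min_right _ h)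
    (mul_le_mul_of_nonneg_left (sqrt_le_sqrt (min_le_min_right _ h)) hσ)) hκ

theorem lamG_le {p : Pm} (hκ : 0 ≤ p.κ) {σ : ℝ} (hσ : 0 ≤ σ) (t : ℝ) :
    p.lamG σ t ≤ p.lamG σ p.ye := by
  rcases le_total t p.ye with h | h
  · exact lamG_mono hκ hσ h
  · rw [lamG, lamG, min_eq_right h, min_self]

end Pm

namespace Reg

variable {β c0 C0 : ℝ} {A : ℕ} {c η K : ℝ} {p : Pm} (H : Reg β c0 C0 A c η K p)
  {σ E ε L l t al : ℝ}
include H

theorem lamG_pos (M : p.MemG σ) (ht : 0 < t) : 0 < p.lamG σ t := by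
  have h := lt_min ht H.ye0
  exact mul_pos H.κ0 (lt_min h (mul_pos (H.sgG_pos M) (sqrt_pos.2 h)))

theorem lg_lamG (M : p.MemG σ) (ht : 0 < t) :
    logb p.n (p.lamG σ t) ≤ -c + logb p.n t ∧ logb p.n (p.lamG σ t) ≤ -(4 * c) ∧
    logb p.n (p.lamG σ t) ≤ -c + logb p.n σ + logb p.n t / 2 ∧
    logb p.n (p.lamG σ t) ≤ logb p.n σ - 5 / 2 * c := by
  have h := lt_min ht H.ye0
  have a1 := H.sgG_pos M
  have a4 : 0 < σ * √(min t p.ye) := mul_pos a1 (sqrt_pos.2 h)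
  have e : logb p.n (p.lamG σ t) = -c + min (logb p.n (min t p.ye))
      (logb p.n σ + logb p.n (min t p.ye) / 2) := by
    rw [Pm.lamG, logb_mul H.κ0.ne' (lt_min h a4).ne', H.lg_κ, lg_min H.N1 h a4,
      logb_mul a1.ne' (sqrt_pos.2 h).ne', lg_sqrt _ h.le]
  have b1 := H.lg_mono h (min_le_left _ _)
  have b2 := H.lg_mono h (min_le_right _ _)
  rw [H.lg_ye] at b2
  have d1 := min_le_left (logb p.n (min t p.ye)) (logb p.n σ + logb p.n (min t p.ye) / 2)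
  have d2 := min_le_right (logb p.n (min t p.ye)) (logb p.n σ + logb p.n (min t p.ye) / 2)
  exact ⟨by linarith, by linarith, by linarith, by linarith⟩

theorem dlG_pos : 0 < p.dlG := mul_pos (Pre29.rp_pos H.n1 _) (pow_pos H.s0 5)

theorem lg_dlG : logb p.n p.dlG = -(5 / 6) - c / 30 + 5 * logb p.n p.s := by
  have := H.s0
  have := H.N0
  rw [Pm.dlG]; lg_norm; rw [H.lg_n, H.hc]; ring

/-- the four sizes of the crude level -/
theorem lg_l35 (hη : η ≤ ε) (hε : 1000 * ε ≤ c) (M : p.MemG σ) (E1 : 1 ≤ E)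
    (E2 : E ≤ (p.n : ℝ) ^ ε) (l0 : 0 < l) (hl : l ^ 3 ≤ (p.n : ℝ) ^ ε * p.PhS E σ) :
    3 * logb p.n l ≤ -(1 / 9) + c + ε ∧
    (3 * logb p.n l ≤ 2 / 3 * (-(1 / 3) + c - logb p.n σ) - 1 / 3 + 3 * ε ∨
      3 * logb p.n l ≤ c / 2 - 1 / 2 + 3 * ε ∨ 3 * logb p.n l ≤ 3 * logb p.n p.r + 2 * ε ∨
      (3 * logb p.n l ≤ 2 / 3 * (-(1 / 3) + c - logb p.n σ) - 1 / 3 + 4 * c ∧
        -(8 * c) ≤ 2 / 3 * (-(1 / 3) + c - logb p.n σ))) := by
  have E0 : 0 < E := by linarith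
  have P0 := H.PhS_pos (σ := σ) E0
  have k := H.lg_mono (pow_pos l0 3) hl
  rw [logb_pow, logb_mul (Pre29.rp_pos H.n1 _).ne' P0.ne', H.lg_rp] at k
  push_cast at k
  have e1 := H.lg_nn E1
  have e2 := H.lg_mono E0 E2
  rw [H.lg_rp] at e2
  have cl := H.c_le
  have cp := H.c_pos
  have ep := H.η_pos
  refine ⟨by linarith [(H.lg_PhS_bds hη hε M E1 E2).2], ?_⟩
  obtain ⟨m1, -, -⟩ := H.lg_muG66 M
  rcases (H.lg_PhS M E0).2.2.2 with h | h | h
  · rcases (H.lg_yS M E0).2.2.2 with y | y | ⟨y, f⟩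
    · left; linarith
    · right; left; linarith
    · rw [H.lg_flat M E0] at f
      rcases m1 with m | m
      · exfalso; linarith
      · right; right; right; constructor <;> linarith
  · right; right; left; linarith
  · obtain ⟨b1, b2, -⟩ := H.lg_laB (H.muG_pos M)
    rcases m1 with m | m
    · right; left; linarith
    · rcases le_total (2 / 3 * (-(1 / 3) + c - logb p.n σ)) (-(7 * c)) with y | y
      · left; linarith
      · right; right; right; constructor <;> linarith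

/-- exponent form of `AlG` -/
theorem lg_AlG (M : p.MemG σ) (L1 : 1 ≤ L) (L2 : L ≤ (p.n : ℝ) ^ ε) (l0 : 0 < l) (t0 : 0 < t)
    (a0 : 0 < al) (h : p.AlG σ L l t al) :
    (2 * logb p.n al ≤ ε + max (logb p.n t) (logb p.n l) - 1 - logb p.n t -
        logb p.n (p.msG σ t) ∧
      2 * logb p.n al ≤ ε + 2 * logb p.n t + 2 * max (logb p.n t) (logb p.n l)) ∨
    (-(3 * c) ≤ logb p.n t ∧ 2 * logb p.n al ≤ 1 / 10 - 1 - logb p.n (p.muG σ)) := by
  have L0 : 0 < L := by linarith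
  have e2 := H.lg_mono L0 L2
  rw [H.lg_rp] at e2
  have m0 : 0 < max t l := lt_max_of_lt_left t0
  have := H.N0
  have := H.msG_pos M t
  have := H.muG_pos M
  have em := lg_max H.N1 t0 l0
  rcases h with ⟨h1, h2⟩ | ⟨h1, h2⟩
  · have k1 := H.lg_mono (pow_pos a0 2) h1
    have k2 := H.lg_mono (pow_pos a0 2) h2
    revert k1 k2
    lg_norm
    rw [H.lg_n, em]
    exact fun k1 k2 => Or.inl ⟨by linarith, by linarith⟩
  · have k1 := H.lg_mono H.ye0 h1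
    have k2 := H.lg_mono (pow_pos a0 2) h2
    revert k2
    lg_norm
    rw [H.lg_n]
    rw [H.lg_ye] at k1
    exact fun k2 => Or.inr ⟨k1, by linarith⟩

variable (hc : c ≤ 1 / 1000) (hη : η ≤ ε) (hε : 1000 * ε ≤ c) (M : p.MemG σ) (E1 : 1 ≤ E)
  (E2 : E ≤ (p.n : ℝ) ^ ε) (L1 : 1 ≤ L) (L2 : L ≤ (p.n : ℝ) ^ ε) (l0 : 0 < l)
  (hl : l ^ 3 ≤ (p.n : ℝ) ^ ε * p.PhS E σ) (t1 : (p.n : ℝ) ^ (c / 14 - 1 / 6) ≤ t) (t2 : t ≤ L)
  (a0 : 0 ≤ al) (h : p.AlG σ L l t al)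
include hc hη hε M E1 E2 L1 L2 l0 hl t1 t2 a0 h

/-- **first inequality** -/
theorem n1G : L * p.lamG σ t * (L * max t l) * al ^ 2 ≤ p.dlG * t := by
  have t0 : 0 < t := (Pre29.rp_pos H.n1 _).trans_le t1
  have d0 := H.dlG_pos
  rcases a0.eq_or_lt with a0 | a0
  · rw [← a0]; simp only [ne_eq, OfNat.ofNat_ne_zero, not_false_eq_true, zero_pow, mul_zero]
    positivity
  have L0 : 0 < L := by linarith
  have e2 := H.lg_mono L0 L2
  have u1 := H.lg_mono (Pre29.rp_pos H.n1 _) t1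
  rw [H.lg_rp] at e2 u1
  have m0 : 0 < max t l := lt_max_of_lt_left t0
  have b0 := H.lamG_pos M t0
  refine H.le_of_lg (by positivity) (by positivity) ?_
  lg_norm
  rw [H.lg_dlG, lg_max H.N1 t0 l0]
  obtain ⟨b1, b2, b3, b4⟩ := H.lg_lamG M t0
  obtain ⟨l1, l2⟩ := H.lg_l35 hη hε M E1 E2 l0 hl
  obtain ⟨m1, -, -⟩ := H.lg_muG66 M
  obtain ⟨x1, -, -⟩ := H.lg_msG66 M t
  have s0 := H.lg_s.1
  have r := H.lg_r
  have cp := H.c_pos
  have ep := H.η_pos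
  rcases H.lg_AlG M L1 L2 l0 t0 a0 h with ⟨k1, k2⟩ | ⟨k1, k2⟩
  · rcases le_total (logb p.n l) (logb p.n t) with q | q
    · rw [max_eq_left q] at k1 k2 ⊢
      rcases H.lg_Tc_cases (σ := σ) t0 with ⟨y1, y2⟩ | ⟨-, -, y2⟩ | ⟨y1, y2, -⟩ <;>
        rcases x1 with x | x <;> linarith
    · rw [max_eq_right q] at k1 k2 ⊢
      have k3 : logb p.n (p.lamG σ t) + logb p.n t ≤ logb p.n (p.msG σ t) := by
        rcases H.lg_Tc_cases (σ := σ) t0 with ⟨y1, y2⟩ | ⟨-, -, y2⟩ | ⟨y1, y2, -⟩ <;>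
          rcases x1 with x | x <;> linarith
      rcases l2 with y | y | y | ⟨y, y'⟩ <;> linarith
  · rw [max_eq_left (by linarith)]
    rcases m1 with m | m <;> linarith

/-- **second inequality** -/
theorem n2G : L * p.lamG σ p.ye * ((L * max t l) ^ 2 * al ^ 2) ≤ p.dlG * t := by
  have t0 : 0 < t := (Pre29.rp_pos H.n1 _).trans_le t1
  have d0 := H.dlG_pos
  rcases a0.eq_or_lt with a0 | a0
  · rw [← a0]; simp only [ne_eq, OfNat.ofNat_ne_zero, not_false_eq_true, zero_pow, mul_zero]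
    positivity
  have L0 : 0 < L := by linarith
  have e2 := H.lg_mono L0 L2
  have u1 := H.lg_mono (Pre29.rp_pos H.n1 _) t1
  have u2 := H.lg_mono t0 t2
  rw [H.lg_rp] at e2 u1
  have m0 : 0 < max t l := lt_max_of_lt_left t0
  have b0 := H.lamG_pos M H.ye0
  refine H.le_of_lg (by positivity) (by positivity) ?_
  lg_norm
  rw [H.lg_dlG, lg_max H.N1 t0 l0]
  obtain ⟨-, b2, -, b4⟩ := H.lg_lamG M H.ye0
  obtain ⟨l1, l2⟩ := H.lg_l35 hη hε M E1 E2 l0 hl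
  obtain ⟨m1, -, -⟩ := H.lg_muG66 M
  obtain ⟨x1, -, -⟩ := H.lg_msG66 M t
  have g := (H.lg_sgG M).1
  have s0 := H.lg_s.1
  have r := H.lg_r
  have cp := H.c_pos
  have ep := H.η_pos
  rcases H.lg_AlG M L1 L2 l0 t0 a0 h with ⟨k1, k2⟩ | ⟨k1, k2⟩
  · rcases le_total (logb p.n l) (logb p.n t) with q | q
    · rw [max_eq_left q] at k1 k2 ⊢
      rcases H.lg_Tc_cases (σ := σ) t0 with ⟨y1, y2⟩ | ⟨-, -, y2⟩ | ⟨y1, y2, -⟩ <;>
        rcases x1 with x | x <;> linarith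
    · rw [max_eq_right q] at k1 k2 ⊢
      rcases l2 with y | y | y | ⟨y, y'⟩ <;> linarith
  · rw [max_eq_left (by linarith)]
    rcases m1 with m | m <;> linarith

end Reg

namespace Reg

variable {β c0 C0 : ℝ} {A : ℕ} {c η K : ℝ} {p : Pm} (H : Reg β c0 C0 A c η K p) {σ E ε L l : ℝ}
include H

/-- **the numbers of the main test measure** -/
theorem nbG (hc : c ≤ 1 / 1000) (hη : η ≤ ε) (hε : 1000 * ε ≤ c) (M : p.MemG σ) (E1 : 1 ≤ E)
    (E2 : E ≤ (p.n : ℝ) ^ ε) (L1 : 1 ≤ L) (L2 : L ≤ (p.n : ℝ) ^ ε) (l0 : 0 < l) (l1 : l ≤ 1)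
    (hl : l ^ 3 ≤ (p.n : ℝ) ^ ε * p.PhS E σ) {B : ℕ} {t cc e al ab : ℕ → ℝ} (tm : Monotone t)
    (t1 : (p.n : ℝ) ^ (c / 14 - 1 / 6) ≤ t 0) (t2 : ∀ i < B, t i ≤ L) (hB : (B : ℝ) ≤ L ^ 2)
    (hcc : ∀ i < B, cc i ≤ L * max (t i) l) (he : ∀ i < B, e i ≤ L * max (t i) l)
    (hab : ∀ i < B, ab i ≤ L * p.lamG σ (t i)) (a0 : ∀ i, 0 ≤ al i)
    (ha : ∀ i < B, p.AlG σ L l (t i) (al i)) :
    NB B t cc e al ab (fun i => L * p.lamG σ (t i)) (fun i => L * max (t i) l) (L ^ 2)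
      (L * p.lamG σ p.ye) p.dlG := by
  have L0 : 0 < L := by linarith
  have t1' : ∀ i, (p.n : ℝ) ^ (c / 14 - 1 / 6) ≤ t i := fun i => t1.trans (tm (Nat.zero_le i))
  have t0 : ∀ i, 0 < t i := fun i => (Pre29.rp_pos H.n1 _).trans_le (t1' i)
  have s0 := (H.sgG_pos M).le
  exact
    { l0 := fun i => mul_pos L0 (H.lamG_pos M (t0 i))
      lm := fun i j h => mul_le_mul_of_nonneg_left (Pm.lamG_mono H.κ0.le s0 (tm h)) L0.le
      Em := fun i j h => mul_le_mul_of_nonneg_left (max_le_max_right _ (tm h)) L0.le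
      Λ1 := one_le_pow₀ L1
      BΛ := hB
      w0 := mul_pos L0 (H.lamG_pos M H.ye0)
      δ0 := H.dlG_pos.le
      tE := fun i _ => (le_max_left _ l).trans
        (le_mul_of_one_le_left ((t0 i).le.trans (le_max_left _ _)) L1)
      cE := hcc
      eE := he
      EΛ := fun i hi => by
        rw [sq]; exact mul_le_mul_of_nonneg_left (max_le (t2 i hi) (l1.trans L1)) L0.le
      abl := hab
      lw := fun i _ => mul_le_mul_of_nonneg_left (Pm.lamG_le H.κ0.le s0 _) L0.le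
      n1 := fun i hi => H.n1G hc hη hε M E1 E2 L1 L2 l0 hl (t1' i) (t2 i hi) (a0 i) (ha i hi)
      n2 := fun i hi => H.n2G hc hη hε M E1 E2 L1 L2 l0 hl (t1' i) (t2 i hi) (a0 i) (ha i hi) }

end Reg

end Crest.Agent.T156.Alt

end
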