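import Crest.Agent.T156.ErrM_35

/-!
# Row 156: the clauses `nl`, `nl2`, `q2a` of `CD.Ok` from block data (helper35)
-/

set_option autoImplicit false
set_option linter.unusedSectionVars false

noncomputable section

namespace Crest.Agent.T156.Cas.C40.BD

open Real Finset ErrL

variable {D : CD} {B : ℕ} {lev : ℕ → ℕ} {t c e al A : ℕ → ℝ} (h : BD D B lev t c e al A)
  {a ab lam E : ℕ → ℝ} {Λ w δ : ℝ} (N : NB B t c e al ab lam E Λ w δ) (d : Den D lev a ab)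
include h N d

theorem pw {i j : ℕ} (k : i ≤ j) : Λ ^ i * δ ≤ Λ ^ j * δ :=
  mul_le_mul_of_nonneg_right (pow_le_pow_right₀ N.Λ1 k) N.δ0

/-- the total weight times a nonnegative number, in the test direction -/
theorem wt_dd {x y : ℝ} (x0 : 0 ≤ x) (hx : w * x ≤ y) : D.wt * x * D.dd 0 1 ≤ Λ ^ 2 * y := by
  have y0 : 0 ≤ y := (mul_nonneg N.w0.le x0).trans hx
  have k := mul_le_mul_of_nonneg_right (h.wt_N N d) x0
  have k2 := mul_le_mul_of_nonneg_left hx (sq_nonneg Λ)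
  unfold CD.wt CD.dd
  cases D.W with
  | none => simpa using mul_nonneg (sq_nonneg Λ) y0
  | some ω => simp only [mul_one]; linarith

/-- the left side of `q2a` -/
theorem q2a_N : D.wt * D.I (fun j => √(D.v j j) * D.lw (fun k => D.e k * √(D.v k k)) j) *
    D.dd 0 1 + D.Iw (fun j => √(D.v j j) * (D.f0 j + D.sv D.f0 D.J +
      D.lw (fun k => D.e k * √(D.v k k)) j + D.hi (fun k => √(D.v k k)) j)) +
    D.Iw (fun j => D.f0 j * (D.f0 j + D.sv D.f0 D.J)) ≤ 7 * (Λ ^ 6 * δ) := by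
  have k := h.wt_dd N d (sum_nonneg fun j hj => mul_nonneg (h.dx0 j)
    (mul_nonneg (sqrt_nonneg (D.v j j)) (h.lw0 hj))) (h.alw_N N)
  have k1 := h.leg_N N d
  have k2 := h.ff_N N d
  have k3 := h.pw N d (i := 4) (j := 6) (by norm_num)
  unfold CD.I
  linarith

/-- the extra term of `nl2` -/
theorem nlx_N (hK : log ((D.K : ℝ) + 2) ≤ Λ) : log ((D.K : ℝ) + 2) *
    (1 + D.sv (fun _ => 1) D.J) ^ 2 * (D.I (fun t => D.e t * √(D.v t t)) *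
      √(D.I fun t => a t ^ 2 * A t)) ≤ 4 * (Λ ^ 8 * δ) := by
  have L0 := h.Λ0 N
  have L1 := N.Λ1
  have d0 := N.δ0
  have k3 : √(D.I fun j => a j ^ 2 * A j) ≤ Λ * (√w * √δ) := (sqrt_le_sqrt
    (h.I_A (fun j hj _ => h.a_sq d hj) fun _ => sq_nonneg _)).trans (h.sqrt_ab N d)
  have g0 : 0 ≤ Sg B fun k => e k * al k := Sg0 fun k _ => mul_nonneg (h.ee0 k) (h.al0 k)
  have k4 := mul_le_mul h.I_ea k3 (sqrt_nonneg _) g0
  have k5 := mul_le_mul_of_nonneg_left (h.ea_r N le_rfl (z := √w * √δ) le_rfl) L0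
  have k6 : D.I (fun t => D.e t * √(D.v t t)) * √(D.I fun t => a t ^ 2 * A t) ≤ Λ ^ 3 * δ := by
    linarith
  have k0 : 0 ≤ D.I (fun t => D.e t * √(D.v t t)) * √(D.I fun t => a t ^ 2 * A t) :=
    mul_nonneg (sum_nonneg fun j hj => mul_nonneg (h.dx0 j)
      (mul_nonneg (h.e0 j hj) (sqrt_nonneg _))) (sqrt_nonneg _)
  have k7 : Sg B c ≤ Λ * Λ := Sg_le' N.BΛ L0 fun i hi => (N.cE i hi).trans (N.EΛ i hi)
  have k8 : 0 ≤ D.sv (fun _ => 1) D.J := h.sv0 fun _ _ => zero_le_one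
  have k9 : (1 + D.sv (fun _ => 1) D.J) ^ 2 ≤ (2 * Λ ^ 2) ^ 2 :=
    pow_le_pow_left₀ (by linarith) (by nlinarith [h.sv_one]) 2
  have := mul_le_mul (mul_le_mul hK k9 (sq_nonneg _) L0) k6 k0 (by positivity)
  linarith

/-- **the clause `q2a`** -/
theorem q2a (hZ : 22 * (Λ ^ 9 * δ) ≤ D.Z) :
    D.wt * D.I (fun j => √(D.v j j) * D.lw (fun k => D.e k * √(D.v k k)) j) * D.dd 0 1 +
    D.Iw (fun j => √(D.v j j) * (D.f0 j + D.sv D.f0 D.J +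
      D.lw (fun k => D.e k * √(D.v k k)) j + D.hi (fun k => √(D.v k k)) j)) +
    D.Iw (fun j => D.f0 j * (D.f0 j + D.sv D.f0 D.J)) ≤ D.Z := by
  have := h.pw N d (i := 6) (j := 9) (by norm_num)
  have := mul_nonneg (pow_nonneg (h.Λ0 N) 9) N.δ0
  linarith [h.q2a_N N d]

/-- **the clause `nl2`** -/
theorem nl2 (hK : log ((D.K : ℝ) + 2) ≤ Λ) (hZ : 22 * (Λ ^ 9 * δ) ≤ D.Z) :
    D.NLa ≤ D.Z ∨ ∃ a l A : ℕ → ℝ, (∀ j ∈ D.up, D.om j = D.dx j * a j) ∧ (∀ j, 0 < l j) ∧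
    (∀ j, l j ≤ l (j + 1)) ∧ D.Add A ∧ D.TFa a l A + log (D.K + 2) *
      (1 + D.sv (fun _ => 1) D.J) ^ 2 *
        (D.I (fun t => D.e t * √(D.v t t)) * √(D.I fun t => a t ^ 2 * A t)) ≤ D.Z :=
  Or.inr ⟨a, fun j => lam (lev j), A, d.om, fun _ => N.l0 _,
    fun j => N.lm (h.mono (Nat.le_succ j)), h.add, by
      linarith [h.TFa_le d N.l0, h.TF_N N d hK, h.nlx_N N d hK,
        h.pw N d (i := 8) (j := 9) (by norm_num)]⟩

/-- **the clause `nl`** -/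
theorem nl1 (hK : log ((D.K : ℝ) + 2) ≤ Λ) (hZ : 22 * (Λ ^ 9 * δ) ≤ D.Z) :
    D.NLa ≤ D.Z ∨ ∃ a l A : ℕ → ℝ, (∀ j ∈ D.up, D.om j = D.dx j * a j) ∧ (∀ j, 0 < l j) ∧
    (∀ j, l j ≤ l (j + 1)) ∧ D.Add A ∧ D.TFa a l A ≤ D.Z :=
  h.nl d N.l0 N.lm (by
    linarith [h.TF_N N d hK, mul_nonneg (pow_nonneg (h.Λ0 N) 9) N.δ0])

/-- the ladder and weak-variance part of `Err` in the test direction -/
theorem lad_N (hW : D.W.isSome = true) (x0 : 0 ≤ D.X ^ 2 * D.Lv1) :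
    D.wt * (D.Lad0 + D.VF) + D.Lad1 ≤ Λ ^ 2 * (w * (D.X ^ 2 * D.Lv1)) + 6 * (Λ ^ 7 * δ) := by
  have l0 : 0 ≤ D.Lad0 := add_nonneg (add_nonneg x0 (sum_nonneg fun j _ => mul_nonneg (h.dx0 j)
    (mul_nonneg (sq_nonneg _) (h.v0 j j)))) (sum_nonneg fun j hj => mul_nonneg (h.dx0 j)
      (mul_nonneg (h.e0 j hj) (h.lad0 j)))
  have v0 : 0 ≤ D.VF := add_nonneg (sq_nonneg _) (h.sv0 fun _ _ => sq_nonneg _)
  have k := h.wt_dd N d (add_nonneg l0 v0)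
    (y := w * (D.X ^ 2 * D.Lv1) + 2 * (Λ * δ) + 2 * (Λ ^ 5 * δ))
    (by linarith [h.Lad0_N N, h.VF_N N])
  have e1 : D.dd 0 1 = 1 := by
    unfold CD.dd
    cases hw : D.W with
    | none => simp [hw] at hW
    | some ω => rfl
  rw [e1, mul_one] at k
  have := h.pw N d (i := 1) (j := 7) (by norm_num)
  have := h.pw N d (i := 3) (j := 7) (by norm_num)
  linarith [h.Lad1_N N d]

end Crest.Agent.T156.Cas.C40.BD

end
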