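import Crest.Agent.T156.ErrN_35
import Crest.Agent.T156.SrNB_66

/-!
# Row 156: the numbers `NB` on the graded family for the size `PhG` (helper35)
-/

set_option autoImplicit false
set_option linter.unusedSectionVars false

noncomputable section

namespace Crest.Agent.T156.Alt

open Real Set
open Crest.Agent.T156.Cas.C40 (NB)

/-- `AlG`, or a crude block at the level of the first mark -/
def Pm.AlH (p : Pm) (σ L l t al : ℝ) : Prop :=
  p.AlG σ L l t al ∨ (t ≤ L * p.rj ∧ al ^ 2 ≤ L * (t ^ 2 * max t l ^ 2))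

namespace Reg

variable {β c0 C0 : ℝ} {A : ℕ} {c η K : ℝ} {p : Pm} (H : Reg β c0 C0 A c η K p)
  {σ E ε L l t al : ℝ}
include H

theorem lg_AlH (M : p.MemG σ) (L1 : 1 ≤ L) (L2 : L ≤ (p.n : ℝ) ^ ε) (l0 : 0 < l) (t0 : 0 < t)
    (a0 : 0 < al) (h : p.AlH σ L l t al) :
    ((2 * logb p.n al ≤ ε + max (logb p.n t) (logb p.n l) - 1 - logb p.n t -
        logb p.n (p.msG σ t) ∧
      2 * logb p.n al ≤ ε + 2 * logb p.n t + 2 * max (logb p.n t) (logb p.n l)) ∨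
    (-(3 * c) ≤ logb p.n t ∧ 2 * logb p.n al ≤ 1 / 10 - 1 - logb p.n (p.muG σ))) ∨
    (logb p.n t ≤ ε + (logb p.n p.s + c / 13 - 1 / 6) ∧
      2 * logb p.n al ≤ ε + 2 * logb p.n t + 2 * max (logb p.n t) (logb p.n l)) := by
  refine h.imp (H.lg_AlG M L1 L2 l0 t0 a0) fun ⟨h1, h2⟩ => ?_
  have L0 : 0 < L := by linarith
  have e2 := H.lg_mono L0 L2
  rw [H.lg_rp] at e2
  have m0 : 0 < max t l := lt_max_of_lt_left t0
  have r0 := H.rj0
  have k1 := H.lg_mono t0 h1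
  have k2 := H.lg_mono (pow_pos a0 2) h2
  revert k1 k2
  lg_norm
  rw [lg_max H.N1 t0 l0, H.lg_rj]
  exact fun k1 k2 => ⟨by linarith, by linarith⟩

variable (hc : c ≤ 1 / 1000) (hη : η ≤ ε) (hε : 1000 * ε ≤ c) (M : p.MemG σ) (E1 : 1 ≤ E)
  (E2 : E ≤ (p.n : ℝ) ^ ε) (L1 : 1 ≤ L) (L2 : L ≤ (p.n : ℝ) ^ ε) (l0 : 0 < l)
  (hl : l ^ 3 ≤ (p.n : ℝ) ^ ε * p.PhG E σ) (t1 : (p.n : ℝ) ^ (c / 14 - 1 / 6) ≤ t) (t2 : t ≤ L)
  (a0 : 0 ≤ al) (h : p.AlH σ L l t al)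
include hc hη hε M E1 E2 L1 L2 l0 hl t1 t2 a0 h

/-- **first inequality** -/
theorem n1H : L * p.lamG σ t * (L * max t l) * al ^ 2 ≤ p.dlG * t := by
  have t0 : 0 < t := (Pre29.rp_pos H.n1 _).trans_le t1
  have d0 := H.dlG_pos
  rcases a0.eq_or_lt with a0 | a0
  · rw [← a0]; simp only [ne_eq, OfNat.ofNat_ne_zero, not_false_eq_true, zero_pow, mul_zero]
    positivity
  have L0 : 0 < L := by linarith
  have e2 := H.lg_mono L0 L2
  have u1 := H.lg_mono (Pre29.rp_pos H.n1 _) t1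
  rw [H.lg_rp] at e2 u1
  have m0 : 0 < max t l := lt_max_of_lt_left t0
  have b0 := H.lamG_pos M t0
  refine H.le_of_lg (by positivity) (by positivity) ?_
  lg_norm
  rw [H.lg_dlG, lg_max H.N1 t0 l0]
  obtain ⟨b1, b2, b3, b4⟩ := H.lg_lamG M t0
  have l2 := H.lg_Phi hη hε M E1 E2 (pow_pos l0 3) hl
  have l1 := H.lg_mono (pow_pos l0 3) hl
  rw [logb_mul (H.rp0 _).ne' (H.PhG0 M (by linarith)).ne', H.lg_rp] at l1
  have l3 := (H.lg_PhG_bds hη hε M E1 E2).2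
  rw [logb_pow] at l1 l2
  push_cast at l1 l2
  obtain ⟨m1, m2, m3⟩ := H.lg_muG66 M
  obtain ⟨x1, -, -⟩ := H.lg_msG66 M t
  have s0 := H.lg_s.1
  have s1 := H.lg_s.2
  have r := H.lg_r
  have cp := H.c_pos
  have ep := H.η_pos
  rcases H.lg_AlH M L1 L2 l0 t0 a0 h with (⟨k1, k2⟩ | ⟨k1, k2⟩) | ⟨k1, k2⟩
  · rcases le_total (logb p.n l) (logb p.n t) with q | q
    · rw [max_eq_left q] at k1 k2 ⊢
      rcases H.lg_Tc_cases (σ := σ) t0 with ⟨y1, y2⟩ | ⟨-, -, y2⟩ | ⟨y1, y2, -⟩ <;>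
        rcases x1 with x | x <;> linarith
    · rw [max_eq_right q] at k1 k2 ⊢
      have k3 : logb p.n (p.lamG σ t) + logb p.n t ≤ logb p.n (p.msG σ t) := by
        rcases H.lg_Tc_cases (σ := σ) t0 with ⟨y1, y2⟩ | ⟨-, -, y2⟩ | ⟨y1, y2, -⟩ <;>
          rcases x1 with x | x <;> linarith
      rcases l2 with y | y | ⟨y, y', y''⟩ | y | ⟨y, y'⟩ | y | y | ⟨y, y', y''⟩ | ⟨y, y'⟩ | y | ⟨y, y'⟩ <;>
        rcases m1 with m | m <;> linarith
  · rw [max_eq_left (by linarith)]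
    rcases m1 with m | m <;> linarith
  · rcases le_total (logb p.n l) (logb p.n t) with q | q
    · rw [max_eq_left q] at k2 ⊢
      linarith
    · rw [max_eq_right q] at k2 ⊢
      rcases l2 with y | y | ⟨y, y', y''⟩ | y | ⟨y, y'⟩ | y | y | ⟨y, y', y''⟩ | ⟨y, y'⟩ | y | ⟨y, y'⟩ <;>
        rcases m1 with m | m <;> linarith

/-- **second inequality** -/
theorem n2H : L * p.lamG σ p.ye * ((L * max t l) ^ 2 * al ^ 2) ≤ p.dlG * t := by
  have t0 : 0 < t := (Pre29.rp_pos H.n1 _).trans_le t1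
  have d0 := H.dlG_pos
  rcases a0.eq_or_lt with a0 | a0
  · rw [← a0]; simp only [ne_eq, OfNat.ofNat_ne_zero, not_false_eq_true, zero_pow, mul_zero]
    positivity
  have L0 : 0 < L := by linarith
  have e2 := H.lg_mono L0 L2
  have u1 := H.lg_mono (Pre29.rp_pos H.n1 _) t1
  have u2 := H.lg_mono t0 t2
  rw [H.lg_rp] at e2 u1
  have m0 : 0 < max t l := lt_max_of_lt_left t0
  have b0 := H.lamG_pos M H.ye0
  refine H.le_of_lg (by positivity) (by positivity) ?_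
  lg_norm
  rw [H.lg_dlG, lg_max H.N1 t0 l0]
  obtain ⟨-, b2, -, b4⟩ := H.lg_lamG M H.ye0
  have l2 := H.lg_Phi hη hε M E1 E2 (pow_pos l0 3) hl
  have l1 := H.lg_mono (pow_pos l0 3) hl
  rw [logb_mul (H.rp0 _).ne' (H.PhG0 M (by linarith)).ne', H.lg_rp] at l1
  have l3 := (H.lg_PhG_bds hη hε M E1 E2).2
  rw [logb_pow] at l1 l2
  push_cast at l1 l2
  obtain ⟨m1, m2, m3⟩ := H.lg_muG66 M
  obtain ⟨x1, -, -⟩ := H.lg_msG66 M t
  have g := (H.lg_sgG M).1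
  have s0 := H.lg_s.1
  have s1 := H.lg_s.2
  have r := H.lg_r
  have cp := H.c_pos
  have ep := H.η_pos
  rcases H.lg_AlH M L1 L2 l0 t0 a0 h with (⟨k1, k2⟩ | ⟨k1, k2⟩) | ⟨k1, k2⟩
  · rcases le_total (logb p.n l) (logb p.n t) with q | q
    · rw [max_eq_left q] at k1 k2 ⊢
      rcases H.lg_Tc_cases (σ := σ) t0 with ⟨y1, y2⟩ | ⟨-, -, y2⟩ | ⟨y1, y2, -⟩ <;>
        rcases x1 with x | x <;> linarith
    · rw [max_eq_right q] at k1 k2 ⊢
      rcases l2 with y | y | ⟨y, y', y''⟩ | y | ⟨y, y'⟩ | y | y | ⟨y, y', y''⟩ | ⟨y, y'⟩ | y | ⟨y, y'⟩ <;>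
        rcases m1 with m | m <;> linarith
  · rw [max_eq_left (by linarith)]
    rcases m1 with m | m <;> linarith
  · rcases le_total (logb p.n l) (logb p.n t) with q | q
    · rw [max_eq_left q] at k2 ⊢
      linarith
    · rw [max_eq_right q] at k2 ⊢
      rcases l2 with y | y | ⟨y, y', y''⟩ | y | ⟨y, y'⟩ | y | y | ⟨y, y', y''⟩ | ⟨y, y'⟩ | y | ⟨y, y'⟩ <;>
        rcases m1 with m | m <;> linarith

end Reg

namespace Reg

variable {β c0 C0 : ℝ} {A : ℕ} {c η K : ℝ} {p : Pm} (H : Reg β c0 C0 A c η K p) {σ E ε L l : ℝ}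
include H

/-- **the numbers of the main test measure** -/
theorem nbH (hc : c ≤ 1 / 1000) (hη : η ≤ ε) (hε : 1000 * ε ≤ c) (M : p.MemG σ) (E1 : 1 ≤ E)
    (E2 : E ≤ (p.n : ℝ) ^ ε) (L1 : 1 ≤ L) (L2 : L ≤ (p.n : ℝ) ^ ε) (l0 : 0 < l) (l1 : l ≤ 1)
    (hl : l ^ 3 ≤ (p.n : ℝ) ^ ε * p.PhG E σ) {B : ℕ} {t cc e al ab : ℕ → ℝ} (tm : Monotone t)
    (t1 : (p.n : ℝ) ^ (c / 14 - 1 / 6) ≤ t 0) (t2 : ∀ i < B, t i ≤ L) (hB : (B : ℝ) ≤ L ^ 2)
    (hcc : ∀ i < B, cc i ≤ L * max (t i) l) (he : ∀ i < B, e i ≤ L * max (t i) l)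
    (hab : ∀ i < B, ab i ≤ L * p.lamG σ (t i)) (a0 : ∀ i, 0 ≤ al i)
    (ha : ∀ i < B, p.AlH σ L l (t i) (al i)) :
    NB B t cc e al ab (fun i => L * p.lamG σ (t i)) (fun i => L * max (t i) l) (L ^ 2)
      (L * p.lamG σ p.ye) p.dlG := by
  have L0 : 0 < L := by linarith
  have t1' : ∀ i, (p.n : ℝ) ^ (c / 14 - 1 / 6) ≤ t i := fun i => t1.trans (tm (Nat.zero_le i))
  have t0 : ∀ i, 0 < t i := fun i => (Pre29.rp_pos H.n1 _).trans_le (t1' i)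
  have s0 := (H.sgG_pos M).le
  exact
    { l0 := fun i => mul_pos L0 (H.lamG_pos M (t0 i))
      lm := fun i j h => mul_le_mul_of_nonneg_left (Pm.lamG_mono H.κ0.le s0 (tm h)) L0.le
      Em := fun i j h => mul_le_mul_of_nonneg_left (max_le_max_right _ (tm h)) L0.le
      Λ1 := one_le_pow₀ L1
      BΛ := hB
      w0 := mul_pos L0 (H.lamG_pos M H.ye0)
      δ0 := H.dlG_pos.le
      tE := fun i _ => (le_max_left _ l).trans
        (le_mul_of_one_le_left ((t0 i).le.trans (le_max_left _ _)) L1)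
      cE := hcc
      eE := he
      EΛ := fun i hi => by
        rw [sq]; exact mul_le_mul_of_nonneg_left (max_le (t2 i hi) (l1.trans L1)) L0.le
      abl := hab
      lw := fun i _ => mul_le_mul_of_nonneg_left (Pm.lamG_le H.κ0.le s0 _) L0.le
      n1 := fun i hi => H.n1H hc hη hε M E1 E2 L1 L2 l0 hl (t1' i) (t2 i hi) (a0 i) (ha i hi)
      n2 := fun i hi => H.n2H hc hη hε M E1 E2 L1 L2 l0 hl (t1' i) (t2 i hi) (a0 i) (ha i hi) }

end Reg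

end Crest.Agent.T156.Alt

end
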