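import Crest.Agent.T156.R1Fr_56
import Crest.Agent.T156.ErrN_35

/-!
# Row 156 (helper60): statements read by the off-diagonal budget `PhiR`
-/

set_option autoImplicit false

noncomputable section

namespace Crest.Agent.T156.Alt.P60

open Real Finset
open Crest.Agent.T156.Cas Crest.Agent.T156.Cas.C40 Crest.Agent.T156.Alt.CIn12
open Crest.Agent.T156.Alt.Alg77 Crest.Agent.T156.Alt.R77 Crest.Agent.T156.Alt.R62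
open Crest.Agent.T156.Alt.R82

/-- a test density below the profile -/
def Den (p : Pm) (t w : ℝ) (f : ℕ → ℝ) : Prop :=
  (∀ k : ℕ, w * |f k| ≤ 8 * p.lamG t (k * p.v)) ∧ ∀ k : ℕ, 8 * p.ye ≤ k * p.v → f k = 0

/-- **the error table for any density** -/
def ErrG (δ : ℝ) (p : Pm) : Prop := ∀ σ σ' P t a a' Q m, Cx p σ σ' P t a a' Q m →
  ∀ x, x = a ∨ x = a' → ∀ w f, 0 < w → w ≤ 2 → Den p t w f → ∃ E : CIn12.Ev,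
    (cdf (p.gst P t) m x (p.gst P t).q (p.jf + 1) f E).Ok (p.β ^ 2) ∧
    w * (m * (cdf (p.gst P t) m x (p.gst P t).q (p.jf + 1) f E).Err) ≤ δ * Bud p Q

/-- **the test head for any density** -/
def RsG (δ : ℝ) (p : Pm) : Prop := ∀ σ σ' P t a a' Q m, Cx p σ σ' P t a a' Q m →
  ∀ x, x = a ∨ x = a' → ∀ f, Den p t 1 f →
    m * |Rs (cdf (p.gst P t) m x (p.gst P t).q (p.jf + 1) f E0)| ≤ δ * Bud p Q

/-- `∫ |del| dx` over the sloped nodes of time `≤ y` -/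
def cum (S : Sc) (M : Md) (m : ℕ) (x y : ℝ) : ℝ :=
  ∑ k ∈ (Ioo S.jl S.J).filter fun k => M.s k ≤ y, M.dz m x k * |M.del m x k|

/-- **sums of moments**; `d = δ² n4` -/
structure MS (E d : ℝ) (p : Pm) (t : ℝ) (S : Sc) (M : Md) (m : ℕ) (x l Λ₀ : ℝ) : Prop where
  sup : ∀ k, S.jl < k → k < S.J → |M.del m x k| ≤ 4 * E * l
  N1 : S.θ * Λ₀ * (∑ k ∈ Ioo S.jl M.N, M.dz m x k * |M.del m x k|) ^ 2 ≤ E ^ 10 * d
  N2 : ∑ k ∈ Ioo S.jl M.N, M.dz m x k * |M.del m x k| ≤ E * l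
  Ga : ∀ y, l ≤ y → y ≤ T0 S M → S.ms y * cum S M m x y ^ 2 ≤ E ^ 10 * d * y ^ 2
  Gb : ∀ y, l ≤ y → cum S M m x y ^ 2 ≤ E ^ 4 * (y * l ^ 3)
  A1 : Λ₀ * (∑ k ∈ (Ioo S.jl S.J).filter fun k => M.s k ≤ 2 * p.ye,
    M.dz m x k * (mt p t (M.s k) * |M.del m x k|)) ^ 2 ≤ E ^ 10 * (S.θ * d)
  u2 : ∑ k ∈ Ioo S.jl M.N, M.dz m x k * M.E2 m x (fun R => |R - M.q k| ^ 2) k ≤ E ^ 2 * l ^ 3
  u3 : ∑ k ∈ Ioo S.jl M.N, M.dz m x k * M.E2 m x (fun R => |R - M.q k| ^ 3) k ≤ E ^ 2 * l ^ 3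
  u3' : ∑ k ∈ Ioo S.jl S.J, M.dz m x k * M.E2 m x (fun R => |R - M.q k| ^ 3) k ≤ E ^ 3 * l ^ 4
  s0 : S0 M m x ≤ E ^ 9 * l ^ 3

/-- the sums on the frame -/
def MsG (E : ℝ) (p : Pm) : Prop := ∀ σ σ' P t a a' Q m, Cx p σ σ' P t a a' Q m →
  ∀ S l Φ Pf l0 Λ₀ Pt u1 V4 I, SD56.Fr E p P t a a' Q m S l Φ Pf l0 Λ₀ Pt u1 V4 I →
    ∀ x ∈ Set.Icc a a', MS E ((1 / E ^ 200) ^ 2 * n4 p) p t S (p.gst P t) m x l Λ₀

def MsS : Prop := ∀ β : ℝ, 1 < β → Sml β MsG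

/-- **the profile of the off-diagonal response** `c k = t φ (k + 1)`; `d = δ² n4` -/
structure PhK (E d : ℝ) (p : Pm) (P : Pl) (t Q : ℝ) (m : ℕ) (S : Sc) (l Λ₀ : ℝ) (c : ℕ → ℝ)
    (e B : ℝ) : Prop where
  e0 : 0 ≤ e
  e1 : m * e ≤ 1 / E ^ 10 * Bud p Q
  B0 : 0 ≤ B
  B1 : Λ₀ * B ^ 2 ≤ E ^ 300 * (S.θ * d)
  B2 : B ≤ E ^ 150 * S.θ
  nd : ∀ k, p.jf < k → k ≤ p.Jp P → ∃ R, 0 ≤ R ∧ (2 * p.ye < (p.gst P t).s k → R = 0) ∧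
    S.ms (max ((p.gst P t).s k) l) * R ^ 2 ≤ E ^ 300 * d * max ((p.gst P t).s k) l ^ 2 ∧
    R ≤ E ^ 150 * max ((p.gst P t).s k) l ^ 2 ∧
    |c k| ≤ (if k < p.J then e / max ((p.gst P t).s k) l ^ 2 else 0) +
      p.lamG t ((p.gst P t).s k) * R +
      (min 1 ((p.gst P t).s k) + if p.ye ≤ (p.gst P t).s k then 1 else 0) * B

/-- the profile on the frame -/
def PhP (E : ℝ) (p : Pm) : Prop := ∀ σ σ' P t a a' Q m, Cx p σ σ' P t a a' Q m →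
  ∀ S l Φ Pf l0 Λ₀ Pt u1 V4 I, SD56.Fr E p P t a a' Q m S l Φ Pf l0 Λ₀ Pt u1 V4 I →
    ∃ e B, PhK E ((1 / E ^ 200) ^ 2 * n4 p) p P t Q m S l Λ₀
      (fun k => t * phi (D0 p P t m a) (D0 p P t m a') (fd p t) (k + 1)) e B

/-- **the SD half** -/
def PhSD : Prop := ∀ β : ℝ, 1 < β → Sml β Kit → Sml β MsG → Sml β PhP → Gain β PhiR

end Crest.Agent.T156.Alt.P60

end
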