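import Crest.Agent.T156.R1Kit_82
import Crest.Agent.T156.R1PD_60
import Crest.Agent.T156.ErrRD_35
import Crest.Agent.T156.ErrQ_35

/-!
# Row 156, R1: the frame of the error table and its last leaves (helper35)
-/

set_option autoImplicit false

noncomputable section

namespace Crest.Agent.T156.Alt.E35

open Real Finset
open Crest.Agent.T156.Cas Crest.Agent.T156.Cas.C40 Crest.Agent.T156.Alt.CIn12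
open Crest.Agent.T156.Alt.Md67 Crest.Agent.T156.Alt.R62 Crest.Agent.T156.Alt.R77
open Crest.Agent.T156.Alt.R82 Crest.Agent.T156.Alt.Lb24 Crest.Agent.T156.Alt.SD56
open Crest.Agent.T156.Alt.Alg77

/-- all the data at one root tilt `x` -/
structure Dt where
  β : ℝ
  c0 : ℝ
  C0 : ℝ
  A : ℕ
  c : ℝ
  η : ℝ
  p : Pm
  σ : ℝ
  σ' : ℝ
  P : Pl
  t : ℝ
  a : ℝ
  a' : ℝ
  Q : ℝ
  m : ℕ
  K : ℝ
  c1 : ℝ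
  C1 : ℝ
  η1 : ℝ
  b : Nb
  Λ' : ℝ
  I : ℕ
  x : ℝ
  G : ℕ → ℝ

namespace Dt

variable (d : Dt)

abbrev E : ℝ := (d.p.n : ℝ) ^ d.η
abbrev S : Sc := d.p.scG d.K d.σ d.t d.P
abbrev M : Md := d.p.gst d.P d.t
/-- the budget -/
abbrev δ : ℝ := 1 / d.E ^ 200 * n5 d.p

/-- **the frame** -/
structure Ok : Prop where
  H : Reg d.β d.c0 d.C0 d.A d.c d.η (4 * d.A + 10 ^ 8) d.p
  A4 : 4 ≤ d.A
  hc : d.c ≤ 1 / 1000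
  hη : 10 ^ 6 * d.η ≤ d.c
  lg : 10 ^ 8 * log d.p.n ≤ d.E
  cx : Cx d.p d.σ d.σ' d.P d.t d.a d.a' d.Q d.m
  km : KitM d.E d.p d.σ d.t d.P d.K d.c1 d.C1 d.η1 d.b d.Λ'
  fr : Fr d.E d.p d.P d.t d.a d.a' d.Q d.m d.S d.b.l d.b.Φ d.b.P d.b.l0 d.Λ' d.b.Pt d.b.u1 d.b.V4 d.I
  hx : d.x ∈ Set.Icc d.a d.a'
  inn : d.S.In d.m d.x
  loc : At d.E d.S d.M d.m d.x d.b d.Λ' d.G
  co : CoG d.E d.p

/-- block data -/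
abbrev BQ (T : ℝ) (B : ℕ) (lev : ℕ → ℕ) (tt al A : ℕ → ℝ) : Prop :=
  E35.BQ d.E (d.E ^ 27) d.b.l T (d.E ^ 5) d.S d.M d.m d.x B lev tt al A

/-- size of the top block -/
def T : ℝ := d.E ^ 47 * (d.b.Λ₀ / (d.p.n * d.S.θ))

/-- pointwise facts -/
structure Pw : Prop where
  zj : d.M.z d.S.jl ≤ d.E ^ 2 * d.b.l
  HJ : d.M.H d.S.jl ≤ d.b.l ^ 3
  Hp : ∀ k, d.S.jl < k → k < d.S.J → d.M.H k ≤ d.E ^ 3 * d.M.z k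
  tau : d.M.b ≤ d.p.β ^ 2
  dz : ∀ k, d.S.jl < k → k < d.M.N → d.M.dz d.m d.x k ≤ 1 / d.p.n
  gq : ∀ k, d.S.jl < k → k < d.M.N → d.M.dz d.m d.x k ≠ 0 →
    (D0 d.p d.P d.t d.m d.x).gq (k + 1) ≤ |d.M.G k| + 2 * d.E ^ 2 * d.b.l ^ 2
  J8 : 8 * d.p.ye ≤ ((d.S.J - 1 : ℕ) : ℝ) * d.p.v
  j8 : 8 * d.S.jl < d.S.J
  jv : d.S.jl * d.S.v ≤ d.E * d.b.l
  tl : √(tlD d.S 3) ≤ d.b.Φ ∧ tlD d.S 3 ≤ 1 ∧ ((d.M.N : ℝ) + 2) ^ 2 * tlD d.S 3 ≤ d.δ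
  lg : log ((d.M.N : ℝ) + 3) ≤ d.E ^ 2

/-- sums for the density `μ = w |f|` -/
structure Su (N : ℝ) (μ : ℕ → ℝ) : Prop where
  N1 : d.b.l ^ 2 ≤ N
  N2 : N ≤ d.E * d.b.l
  N3 : d.b.Pt ≤ N ^ 2
  a3 : d.S.θ * (d.b.Φ * N) ≤ d.δ
  sums : Sums d.E d.p d.S d.M d.m d.x d.b.Φ N d.G μ
  g0 : ∀ k, d.S.jl < k → k < d.M.N → μ k ≠ 0 → d.M.G k = 0 ∧ d.G k ≤ d.E * d.b.l

/-- numbers of the blocks; `ab i = E ^ 40 * lamG t (tt i)` -/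
structure Nu (B : ℕ) (tt al : ℕ → ℝ) : Prop where
  nb : ∀ cc e : ℕ → ℝ, (∀ i, cc i ≤ d.E ^ 40 * max (tt i) d.b.l) →
    (∀ i, e i ≤ d.E ^ 40 * max (tt i) d.b.l) →
    NB B tt cc e al (fun i => d.E ^ 40 * d.p.lamG d.t (tt i)) (fun i => d.E ^ 40 * d.p.lamG d.t (tt i))
      (fun i => d.E ^ 40 * max (tt i) d.b.l) ((d.E ^ 40) ^ 2) (d.E ^ 40 * d.p.lamG d.t d.p.ye) d.p.dlG
  al : ∀ N, d.b.l ^ 2 ≤ N → d.b.Pt ≤ N ^ 2 → ∀ i < B, al i ≤ d.E ^ 24 * N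
  w : d.b.Φ * (√(d.E ^ 40 * d.p.lamG d.t d.p.ye) * √d.p.dlG) ≤ d.δ
  dl : ((d.E ^ 40) ^ 2) ^ 9 * d.p.dlG ≤ d.δ

end Dt

/-- pointwise leaf -/
def PwG : Prop := ∀ d : Dt, d.Ok → d.Pw

/-- block leaf -/
def BqG : Prop := ∀ d : Dt, d.Ok → d.Pw → ∃ B lev tt al A, d.BQ d.T B lev tt al A

/-- sum leaf -/
def SuG : Prop := ∀ d : Dt, d.Ok → ∀ w f, 0 < w → P60.Den d.p d.t w f →
  ∃ N, d.Su N fun k => w * |f k|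

/-- number leaf -/
def NuG : Prop := ∀ d : Dt, d.Ok → d.Pw → ∀ B lev tt al A, d.BQ d.T B lev tt al A → d.Nu B tt al

/-- the table at one root tilt -/
def TbG : Prop := ∀ d : Dt, d.Ok → ∀ w f, 0 < w → w ≤ 2 → P60.Den d.p d.t w f → ∃ Ev : CIn12.Ev,
  (cdf d.M d.m d.x d.M.q (d.p.jf + 1) f Ev).Ok (d.p.β ^ 2) ∧
    w * (cdf d.M d.m d.x d.M.q (d.p.jf + 1) f Ev).Err ≤ d.E ^ 190 * d.δ

/-- the frame leaf -/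
def FrameG : Prop := TbG → ∀ β : ℝ, 1 < β → Sml β Co → Sml β Kit' → Gain β P60.ErrG

end Crest.Agent.T156.Alt.E35

end
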