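import Crest.Agent.T156.ErrV_35
import Crest.Agent.T156.ErrRE_35
import Crest.Agent.T156.R1PE_60
import Crest.Agent.T156.ErFr_6
import Crest.Agent.T156.ErNu_4
import Crest.Agent.T156.ErSu_79
import Crest.Agent.T156.ErBq_24
import Crest.Agent.T156.ErPw_21

/-!
# Row 156, R1: the error table at one root tilt from its four leaves (helper35)
-/

set_option autoImplicit false

noncomputable section

namespace Crest.Agent.T156.Alt.E35

open Real Finset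
open Crest.Agent.T156.Cas Crest.Agent.T156.Cas.C40 Crest.Agent.T156.Alt.CIn12
open Crest.Agent.T156.Alt.Md67 Crest.Agent.T156.Alt.R62 Crest.Agent.T156.Alt.R77
open Crest.Agent.T156.Alt.R82 Crest.Agent.T156.Alt.Lb24 Crest.Agent.T156.Alt.SD56
open Crest.Agent.T156.Alt.Alg77 Crest.Agent.T156.Cas.C40.ErrL

namespace Dt.Ok

variable {d : Dt} (h : d.Ok)
include h

theorem l1 : d.E ^ 200 * d.b.l ≤ 1 := h.km.kn.l1

theorem l_le : d.b.l ≤ 1 :=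
  (le_mul_of_one_le_left h.fr.l0'.le (one_le_pow₀ h.fr.E1')).trans h.l1

theorem X_le (W : d.Pw) : d.E ^ 4 * max (d.M.z d.S.jl) d.b.l ≤ d.E ^ 6 * d.b.l := by
  have E0 := h.fr.E0
  rw [show d.E ^ 6 * d.b.l = d.E ^ 4 * (d.E ^ 2 * d.b.l) by ring]
  exact mul_le_mul_of_nonneg_left (max_le W.zj
    (le_mul_of_one_le_left h.fr.l0'.le (one_le_pow₀ h.fr.E1'))) (by positivity)

theorem kd (W : d.Pw) : KD' d.S d.M d.m d.x (d.S.jl + 1) d.E (d.E ^ 4) d.b.l (d.p.β ^ 2) (d.E ^ 3) := by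
  have F := h.loc.bk.fn
  have E1 := h.fr.E1
  have E0 := h.fr.E0
  have l0 := h.fr.l0'
  have i2 := F.i2
  have i3 := F.i3
  have i4 := F.i4
  have c3 : d.S.C ^ 3 ≤ d.E ^ 3 := pow_le_pow_left₀ (zero_le_one.trans F.C1) h.fr.sc.C 3
  have e1 : d.E ≤ d.E ^ 3 := le_self_pow₀ h.fr.E1' (by norm_num)
  have e2 : 1000 * d.E ^ 3 ≤ d.E ^ 4 :=
    (mul_le_mul_of_nonneg_right E1 (by positivity)).trans_eq (by ring)
  refine ⟨F, F.i1.trans (Nat.le_succ _), by omega, l0, h.loc.lowE, E0.le, by positivity,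
    by linarith, W.tau, (h.X_le W).trans (le_trans ?_ h.l1), W.HJ.trans ?_, fun k k1 k2 =>
      (W.Hp k k1 k2).trans (mul_le_mul_of_nonneg_left (le_max_left _ _) (by positivity))⟩
  · exact mul_le_mul_of_nonneg_right (pow_le_pow_right₀ h.fr.E1' (by norm_num)) l0.le
  · exact pow_le_pow_left₀ l0.le ((le_max_right _ _).trans (le_mul_of_one_le_left
      (l0.le.trans (le_max_right _ _)) (one_le_pow₀ h.fr.E1'))) 3

theorem den (W : d.Pw) {T : ℝ} {B : ℕ} {lev : ℕ → ℕ} {tt al A : ℕ → ℝ} (Q : d.BQ T B lev tt al A)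
    {w : ℝ} {f : ℕ → ℝ} (w0 : 0 < w) (hf : P60.Den d.p d.t w f) (k : ℕ) (k1 : d.S.jl < k) :
    |f k| ≤ w⁻¹ * (d.E ^ 40 * d.p.lamG d.t (tt (lev k))) := by
  have H := h.H
  have E0 := h.fr.E0
  have p0 := H.lamG_pos h.fr.fx.mem (Q.bp.t0 (lev k))
  rcases lt_or_ge k (d.S.J - 1) with e | e
  · rw [← div_eq_inv_mul, le_div_iff₀' w0]
    have a1 := P60.lamG_mul H.κ0.le H.ye0.le h.fr.fx.t0.le (Q.bp.t0 (lev k)).le one_le_two
      (h.fr.sc.v ▸ Q.kv k k1 e)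
    have a2 : 16 ≤ d.E ^ 40 :=
      le_trans (by linarith [h.fr.E1]) (le_self_pow₀ h.fr.E1' (by norm_num))
    linarith [hf.1 k, mul_le_mul_of_nonneg_right a2 p0.le]
  · rw [hf.2 k (W.J8.trans (mul_le_mul_of_nonneg_right (Nat.cast_le.2 e) H.v0.le)), abs_zero]
    positivity

theorem gam (W : d.Pw) (k : ℕ) (k1 : d.S.jl < k) (k2 : k < d.M.N) (e : d.M.dz d.m d.x k ≠ 0) :
    |GamC d.M d.m d.x d.M.q (d.S.jl + 1) k - d.M.q k| ≤ |d.M.G k| + 2 * d.E ^ 2 * d.b.l ^ 2 := by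
  have a := W.gq k k1 k2 e
  rw [h.fr.sc.jl] at k1 ⊢
  rwa [CD.gq, cd_Gam d.m _ _ h.loc.bk.fn.lg.toLeg (rf_q h.fr.cl) k1 k2, cd_q d.m d.x _ _ _ k1 k2] at a

end Dt.Ok

/-- **the table at one root tilt** -/
theorem tbG (h1 : PwG) (h2 : BqG) (h3 : SuG) (h4 : NuG) : TbG := by
  intro d h w f w0 w2 hf
  have W := h1 d h
  obtain ⟨B, lev, tt, al, A, Q⟩ := h2 d h W
  obtain ⟨N, U⟩ := h3 d h w f w0 hf
  have V := h4 d h W B lev tt al A Q
  have F := h.fr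
  have K := h.loc.bk
  have L := K.fn.lg
  have H := h.H
  have E1 := F.E1
  have E1' := F.E1'
  have E0 := F.E0
  have l0 := F.l0'
  have l1 := h.l_le
  have l3 := F.nr.l3
  have δ0 : 0 ≤ d.δ := by have := F.n50; positivity
  have N0 : 0 ≤ N := (sq_nonneg _).trans U.N1
  have mx : ∀ i, 0 < max (tt i) d.b.l := fun i => l0.trans_le (le_max_right _ _)
  have sc : ∀ g : ℕ → ℝ, w * ∑ k ∈ Ioo d.S.jl d.M.N, d.M.dz d.m d.x k * (|f k| * g k) =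
      ∑ k ∈ Ioo d.S.jl d.M.N, d.M.dz d.m d.x k * (w * |f k| * g k) := fun g => by
    rw [mul_sum]; exact sum_congr rfl fun _ _ => by ring
  have sc0 : w * ∑ k ∈ Ioo d.S.jl d.M.N, d.M.dz d.m d.x k * |f k| =
      ∑ k ∈ Ioo d.S.jl d.M.N, d.M.dz d.m d.x k * (w * |f k|) := by
    rw [mul_sum]; exact sum_congr rfl fun _ _ => by ring
  have G0 := K.mk'.pos
  have z0 := L.dz_nonneg
  have nm := nm_of (T := Ioo d.S.jl d.M.N) (f := f) (g := d.M.G) (γ := 2 * d.E ^ 2 * d.b.l ^ 2)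
    (y := d.E * d.b.l) z0 G0 (by positivity)
    (fun k hk e => U.g0 k (mem_Ioo.1 hk).1 (mem_Ioo.1 hk).2
      (mul_ne_zero w0.ne' (abs_ne_zero.2 e))) U.sums.s1 K.mk'.tot K.mk'.qua le_rfl le_rfl le_rfl
    U.sums.s6 le_rfl fun k hk => W.dz k (mem_Ioo.1 hk).1 (mem_Ioo.1 hk).2
  have e56 : d.E ^ 5 ≤ d.E ^ 6 := pow_le_pow_right₀ E1' (by norm_num)
  have e7 : ∀ i : ℕ, 7 ≤ i → 2 * d.E ^ 4 * d.E ^ 2 + d.E ^ 5 ≤ d.E ^ i := fun i hi =>
    le_trans (by linarith [mul_le_mul_of_nonneg_right E1 (pow_pos E0 6).le, pow_pos E0 6])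
      (pow_le_pow_right₀ E1' hi)
  have e5 : 0 ≤ d.E ^ 5 := by positivity
  have hV : Sg B (fun i => (2 * d.E ^ 4 * d.E ^ 2 + d.E ^ 5) * max (tt i) d.b.l) ≤ d.E ^ 30 :=
    (Sg_le' Q.BL (x := d.E ^ 24 * d.E ^ 3) (by positivity) fun i _ => mul_le_mul (e7 24 (by norm_num))
      (max_le (Q.tL i) (l1.trans (one_le_pow₀ E1'))) (mx i).le (by positivity)).trans_eq (by ring)
  have ab0 : ∀ i, 0 ≤ d.E ^ 40 * d.p.lamG d.t (tt i) := fun i =>
    mul_nonneg (by positivity) (H.lamG_pos F.fx.mem (Q.bp.t0 i)).le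
  obtain ⟨ok0, bd, den, tc, nz⟩ := lv2b (ab := fun i => w⁻¹ * (d.E ^ 40 * d.p.lamG d.t (tt i)))
    (h.kd W) (ge_mk K.mk' h.loc.env (Nat.le_succ _)) (by norm_num) Q E1' e5
    (fun k k1 _ => h.den W Q w0 hf k k1) (fun i => mul_nonneg (inv_pos.2 w0).le (ab0 i)) K.mk'.le2
    (h.gam W) nm hV
  have nb := V.nb (fun i => (2 * d.E ^ 4 * d.E ^ 2 + d.E ^ 5) * max (tt i) d.b.l)
    (fun i => d.E ^ 4 * d.E ^ 2 * max (tt i) d.b.l)
    (fun i => mul_le_mul_of_nonneg_right (e7 40 (by norm_num)) (mx i).le)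
    fun i => mul_le_mul_of_nonneg_right (le_trans (by linarith [pow_pos E0 6])
      (e7 40 (by norm_num))) (mx i).le
  obtain ⟨z, okz, er⟩ := err_Z ok0 tc nz bd (nb.smul (inv_pos.2 w0)) den (by
    rw [cd_K]; push_cast
    exact ((congrArg log (by ring)).trans_le W.lg).trans
      (pow_le_pow_left₀ E0.le (le_self_pow₀ E1' (by norm_num)) 2))
  have SW : w * Sg B (fun i => w⁻¹ * (d.E ^ 40 * d.p.lamG d.t (tt i)) * al i) ≤
      d.E ^ 3 * (√(d.E ^ 40 * d.p.lamG d.t d.p.ye) * √d.p.dlG) := by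
    rw [mul_Sg]
    refine Sg_le' Q.BL (by positivity) fun i hi => le_trans (le_of_eq ?_) (bd.r_le nb le_rfl hi)
    rw [mul_assoc w⁻¹, mul_inv_cancel_left₀ w0.ne']
  have Φ0 : 0 ≤ d.b.Φ := l3 ▸ pow_nonneg l0.le 3
  have p0 : ∀ {g : ℕ → ℝ}, (∀ k, 0 ≤ g k) → 0 ≤ ∑ k ∈ Ioo d.S.jl d.M.N, d.M.dz d.m d.x k * g k :=
    fun hg => sum_nonneg fun k _ => mul_nonneg (z0 k) (hg k)
  have n1 : (1 : ℝ) / d.p.n ≤ d.δ := by
    have a1 := F.nr.e
    have a2 : 0 ≤ d.b.l ^ 2 / (d.p.n * d.b.l0 ^ 3) := by have := F.l00; positivity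
    have a3 : (1 : ℝ) / d.p.n ≤ d.Λ' / d.p.n := div_le_div_of_nonneg_right F.nr.L1 F.n0.le
    linarith
  have pe := Hn.pe (E := d.E) (δ := d.δ) (θ := d.S.θ) (l := d.b.l) (N := N) (V4 := d.b.V4) (w := w)
    (τ := d.p.β ^ 2) (X := d.E ^ 4 * max (d.M.z d.S.jl) d.b.l) (tl := tlD d.S 3) (n := d.p.n)
    (m := d.m) (SA := Sg B al)
    ⟨E1, F.θ0.le, l0, l1, F.nr.Pt0.1.trans F.nr.Pt0.2.2.2, w0, F.n0, Nat.cast_le.2 h.cx.m1, F.m2,
      U.N1, U.N2, ⟨sq_nonneg _, H.hβ ▸ H.β_le⟩,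
      ⟨mul_nonneg (by positivity) (l0.le.trans (le_max_right _ _)), h.X_le W⟩,
      ⟨tlD_nn _ _, l3 ▸ W.tl.1, W.tl.2.1⟩,
      ⟨p0 fun k => mul_nonneg (abs_nonneg _) (sq_nonneg _), p0 fun k => abs_nonneg _,
        p0 fun k => mul_nonneg (abs_nonneg _) (G0 k).le,
        p0 fun k => mul_nonneg (abs_nonneg _) (sq_nonneg _), Sg0 fun i _ => Q.bp.al0 i,
        Sg0 fun i _ => mul_nonneg (mul_nonneg (inv_pos.2 w0).le (ab0 i)) (Q.bp.al0 i)⟩,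
      U.sums.s5, sc0.trans_le U.sums.s2, by rw [sc, l3]; exact U.sums.s3,
      by rw [sc]; exact U.sums.s4,
      (Sg_le' Q.BL (by positivity) (V.al N U.N1 U.N3)).trans_eq (by ring),
      by
        rw [l3]
        linarith [mul_le_mul_of_nonneg_left SW Φ0,
          mul_le_mul_of_nonneg_left V.w (pow_pos E0 3).le],
      F.nr.l5, (mul_le_of_le_one_left (by have := F.n0; positivity) F.θ1).trans n1, F.nr.d,
      l3 ▸ U.a3⟩
  rw [l3] at pe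
  refine ⟨{ evK d.S d.M d.m d.x (d.S.jl + 1) (some fun k => d.M.dz d.m 0 k * f k) (d.E ^ 4) d.b.l
    d.G (fun k => ph B al (lev k)) (fun k => ph B (fun i =>
      w⁻¹ * (d.E ^ 40 * d.p.lamG d.t (tt i)) * al i) (lev k)) with Z := z }, okz, ?_⟩
  have er' := mul_le_mul_of_nonneg_left er w0.le
  rw [mul_add, mul_add, cd_K] at er'
  refine er'.trans ?_
  have t1 : (((d.M.N + 1 : ℕ) : ℝ) + 1) ^ 2 * tlD d.S 3 ≤ d.δ := by
    push_cast
    exact (congrArg (fun y => y ^ 2 * tlD d.S 3) (by ring)).trans_le W.tl.2.2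
  have t2 : w * (1 + ∑ k ∈ Ioo d.S.jl d.M.N, d.M.dz d.m d.x k * |f k|) ≤ 2 + d.E ^ 12 := by
    rw [mul_add, mul_one, sc0]
    exact add_le_add w2 (U.sums.s2.trans (mul_le_of_le_one_right (by positivity) F.θ1))
  have t3 := mul_le_mul t2 t1 (mul_nonneg (sq_nonneg _) (tlD_nn _ _)) (by positivity)
  have t4 : w * (28 * (((d.E ^ 40) ^ 2) ^ 9 * (w⁻¹ * d.p.dlG))) ≤ 28 * d.δ := by
    rw [show w * (28 * (((d.E ^ 40) ^ 2) ^ 9 * (w⁻¹ * d.p.dlG))) =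
      28 * (((d.E ^ 40) ^ 2) ^ 9 * d.p.dlG) by field_simp]
    linarith [V.dl]
  have q : ∀ i : ℕ, i ≤ 189 → 1000 * (d.E ^ i * d.δ) ≤ d.E ^ 190 * d.δ := fun i hi => by
    rw [← mul_assoc, pow_succ' d.E 189]
    exact mul_le_mul_of_nonneg_right (mul_le_mul E1 (pow_le_pow_right₀ E1' hi) (by positivity)
      E0.le) δ0
  have q0 := q 0 (by norm_num)
  have q1 := q 12 (by norm_num)
  have q2 := q 150 (by norm_num)
  rw [pow_zero, one_mul] at q0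
  rw [← pow_mul] at pe
  rw [mul_assoc] at t3
  refine (add_le_add (add_le_add pe t3) t4).trans ?_
  rw [add_mul]
  exact (fun (x y u v : ℝ) (a : 1000 * x ≤ v) (b : 1000 * y ≤ v) (c : 1000 * u ≤ v) (e : 0 ≤ x) =>
    show 200 * u + (2 * x + y) + 28 * x ≤ v by linarith) _ _ _ _ q0 q1 q2 δ0

/-- **the error table for any density** -/
theorem errG {β : ℝ} (hβ : 1 < β) (hC : Sml β Co) (hK : Sml β Kit') : Gain β P60.ErrG :=
  frameG (tbG pwG bqG suG nuG) β hβ hC hK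

/-- **`ErrR`** -/
theorem from'_ErrR : From' ErrR := fun _ hβ hC hK => P60.errR_of hβ (errG hβ hC hK)

end Crest.Agent.T156.Alt.E35

end
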