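import Crest.Agent.T156.ErrRD_35

/-!
# Row 156, R1: the sum `s5` of `E35.Sums` (helper17)
-/

set_option autoImplicit false

noncomputable section

namespace Crest.Agent.T156.Alt.E35

open Real Finset
open Crest.Agent.T156.Alt.Md67 Crest.Agent.T156.Alt.R62 Crest.Agent.T156.Alt.R77
open Crest.Agent.T156.Alt.R82 Crest.Agent.T156.Alt.SD56

theorem le_of_sq_le_sq_17 {x y : ℝ} (hy : 0 ≤ y) (h : x ^ 2 ≤ y ^ 2) : x ≤ y :=
  (abs_le_of_sq_le_sq' h hy).2

theorem s5_17 {E t a a' Q l Φ l0 Λ₀ Pt u1 V4 x : ℝ} {p : Pm} {P : Pl} {m I : ℕ} {S : Sc}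
    {Pf : ℝ → ℝ} {G : ℕ → ℝ} (F : Fr E p P t a a' Q m S l Φ Pf l0 Λ₀ Pt u1 V4 I)
    (B : BK E S (p.gst P t) m x l Φ Pf l0 Λ₀ Pt u1 V4 G)
    (hx : ∑ k ∈ Ioo S.jl (p.gst P t).N, (p.gst P t).dz m x k *
      max (|(p.gst P t).G k| - (p.n : ℝ) ^ (-(1 : ℝ) / 6)) 0 ^ 2 ≤ E * S.θ ^ 2 * V4) :
    S.θ * ∑ k ∈ Ioo S.jl (p.gst P t).N, (p.gst P t).dz m x k * (|(p.gst P t).G k| * G k ^ 2) ≤
      E ^ 12 * (1 / E ^ 200 * n5 p) := by
  have h := F.cl
  have N := F.nr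
  have K := B.mk'
  have E0 := F.E0
  have E1 := F.E1'
  have E2 := F.E1
  have θ0 := F.θ0
  have θ1 := F.θ1
  have a5 := F.n50
  have a4 := F.n40
  have n0 := F.n0
  have l0' := F.l0'
  have L1 := N.L1
  have e4 : (p.n : ℝ) ^ (-(1 : ℝ) / 6) * n4 p ≤ n5 p := by
    rw [n4, n5, ← mul_assoc, ← rpow_add n0]
    norm_num
    gcongr
    exacts [F.s1, by norm_num]
  have w0 : 0 < (p.n : ℝ) ^ (-(1 : ℝ) / 6) := rpow_pos_of_pos n0 _
  have lE : l0 ≤ 1 / E := by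
    refine N.l0l.trans (N.ly.trans ((mul_le_of_le_one_right (by positivity) F.y1).trans ?_))
    exact one_div_le_one_div_of_le E0 (le_self_pow₀ E1 (by norm_num))
  have glo := B.glo
  have dz := (lg_cl h h.n1 B.fn.toIn).dz_nonneg
  generalize (p.n : ℝ) ^ (-(1 : ℝ) / 6) = w at *
  have δ1 : 1 / E ^ 200 ≤ 1 := (div_le_one (by positivity)).2 (one_le_pow₀ E1)
  have δ0 : 0 < 1 / E ^ 200 := by positivity
  have hI := F.hI
  have I1 := F.I1
  have l00 := F.l00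
  clear F B
  generalize 1 / E ^ 200 = δ at *
  generalize p.gst P t = M at *
  have P0 : 0 ≤ Pt := N.Pt0.1.trans N.Pt0.2.1
  have V0 : 0 ≤ V4 := N.Pt0.1.trans N.Pt0.2.2.2
  let g : ℕ → ℝ := fun k => if M.G k = 0 then 0 else S.θ * (M.dz m x k * G k ^ 2)
  have q0 : ∀ k, 0 ≤ M.dz m x k * G k ^ 2 := fun k => mul_nonneg (dz k) (sq_nonneg _)
  have g0 : ∀ k, 0 ≤ g k := fun k => by
    simp only [g]; split_ifs; exacts [le_rfl, mul_nonneg θ0.le (q0 k)]
  have g1 : ∀ T : Finset ℕ, ∑ k ∈ T, g k ≤ S.θ * ∑ k ∈ T, M.dz m x k * G k ^ 2 := fun T => by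
    rw [mul_sum]
    refine sum_le_sum fun k _ => ?_
    simp only [g]; split_ifs; exacts [mul_nonneg θ0.le (q0 k), le_rfl]
  have tp : ∀ T ⊆ sb S M (T0 S M) S.C ∪ Ico S.J M.N, ∑ k ∈ T, g k ≤ E * (δ ^ 2 * n4 p) :=
    fun T hT => by
      have c : S.θ * Pt ≤ δ ^ 2 * n4 p := le_trans (by
        rw [mul_assoc]
        refine mul_le_mul_of_nonneg_left (le_trans ?_ (le_mul_of_one_le_left (by positivity) L1))
          θ0.le
        linarith [show 0 ≤ p.r ^ 4 by positivity]) N.c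
      have := mul_le_mul_of_nonneg_left
        ((sum_le_sum_of_subset_of_nonneg hT fun k _ _ => q0 k).trans K.t2) θ0.le
      nlinarith [g1 T, mul_le_mul_of_nonneg_left c E0.le]
  have b1 := dyad (g := g) (v := 2 * E ^ 2 * (δ ^ 2 * n4 p)) h (fun k _ => g0 k) (by positivity) hI
    l00.le (fun τ t1 t2 => by
      rcases le_or_gt (2 * τ) (1 / E) with c | c
      · rw [sum_eq_zero fun k hk => if_pos (glo k (mem_sb.1 hk).1.1 ((mem_sb.1 hk).2.2.trans c))]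
        positivity
      · rw [div_lt_iff₀ E0] at c
        have p0 := mul_nonneg θ0.le (N.P0 τ).1
        have i : τ * (S.θ * Pf τ) ≤ δ ^ 2 * n4 p := le_trans (by
          have := le_mul_of_one_le_left (mul_nonneg (l00.le.trans t1) p0) L1
          linarith) (N.i τ t1 t2)
        have j := mul_le_mul_of_nonneg_right c.le p0
        have k := mul_le_mul_of_nonneg_left i (show 0 ≤ 2 * E by positivity)
        have o : S.θ * Pf τ ≤ 2 * E * (δ ^ 2 * n4 p) := by linarith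
        nlinarith [g1 (sb S M τ (2 * τ)), mul_le_mul_of_nonneg_left (K.b2 τ t1 t2) θ0.le,
          mul_le_mul_of_nonneg_left o E0.le])
    (tp (tz S M u1) (union_subset_union_right ((filter_subset _ _).trans
      (Ico_subset_Ico_right h.i4.le))))
  have b2 : ∑ k ∈ Ioo S.jl M.N \ gd S M l0 u1, g k ≤ E * (δ ^ 2 * n4 p) := by
    refine ((sum_le_sum_of_subset_of_nonneg bad_sub fun k _ _ => g0 k).trans
      (sum_union_le fun k _ => g0 k)).trans ?_
    rw [sum_eq_zero (s := lz S M l0) (f := g) fun k hk => if_pos (glo k (mem_Ioo.1 (mem_filter.1 hk).1).1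
      ((mem_filter.1 hk).2.le.trans lE)), zero_add]
    exact tp _ (sdiff_subset.trans subset_union_right)
  have b3 : ∑ k ∈ Ioo S.jl M.N, g k ≤ 4 * E ^ 4 * (δ * n4 p) := by
    rw [← sum_sdiff (gd_sub (l0 := l0) (u1 := u1) h)]
    have c1 : (I : ℝ) * (2 * E ^ 2 * (δ ^ 2 * n4 p)) ≤ E ^ 2 * (2 * E ^ 2 * (δ ^ 2 * n4 p)) :=
      mul_le_mul_of_nonneg_right (by linarith) (by positivity)
    have c2 : E * (δ ^ 2 * n4 p) ≤ E ^ 4 * (δ ^ 2 * n4 p) :=
      mul_le_mul_of_nonneg_right (le_self_pow₀ E1 (by norm_num)) (by positivity)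
    have c3 : E ^ 4 * (δ ^ 2 * n4 p) ≤ E ^ 4 * (δ * n4 p) := by
      gcongr; nlinarith
    linarith
  have b4 : S.θ * ∑ k ∈ Ioo S.jl M.N, M.dz m x k * (max (|M.G k| - w) 0 * G k ^ 2) ≤
      2 * E * (δ * n5 p) := by
    have c := sum_sq_le_sum_mul_sum_of_sq_le_mul (Ioo S.jl M.N)
      (r := fun k => M.dz m x k * (max (|M.G k| - w) 0 * G k ^ 2))
      (f := fun k => M.dz m x k * max (|M.G k| - w) 0 ^ 2) (g := fun k => M.dz m x k * G k ^ 4)
      (fun k _ => mul_nonneg (dz k) (sq_nonneg _)) (fun k _ => mul_nonneg (dz k) (by positivity))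
      fun k _ => le_of_eq (by ring)
    have d := c.trans (mul_le_mul hx K.qua (sum_nonneg fun k _ => mul_nonneg (dz k) (by positivity))
      (by positivity))
    refine le_of_sq_le_sq_17 (by positivity) ?_
    rw [mul_pow]
    refine (mul_le_mul_of_nonneg_left d (sq_nonneg _)).trans ?_
    rw [← N.l3]
    calc _ = E ^ 2 * S.θ ^ 2 * ((S.θ * V4) * (S.θ * l ^ 5 + S.θ * V4)) := by ring
      _ ≤ E ^ 2 * 1 ^ 2 * ((δ * n5 p) * (δ * n5 p + δ * n5 p)) := by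
          refine mul_le_mul (by gcongr) (mul_le_mul N.d (add_le_add N.l5 N.d) ?_ ?_) ?_ ?_ <;>
            positivity
      _ ≤ _ := by nlinarith [sq_nonneg (E * (δ * n5 p))]
  have b5 : S.θ * ∑ k ∈ Ioo S.jl M.N, M.dz m x k * (|M.G k| * G k ^ 2) ≤ w * ∑ k ∈ Ioo S.jl M.N, g k +
      S.θ * ∑ k ∈ Ioo S.jl M.N, M.dz m x k * (max (|M.G k| - w) 0 * G k ^ 2) := by
    rw [mul_sum, mul_sum, mul_sum, ← sum_add_distrib]
    refine sum_le_sum fun k _ => ?_
    have r := mul_nonneg θ0.le (q0 k)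
    simp only [g]
    split_ifs with c
    · rw [c, abs_zero]
      nlinarith [mul_nonneg r (le_max_right (0 - w) 0)]
    · nlinarith [mul_le_mul_of_nonneg_left (le_max_left (|M.G k| - w) 0) r]
  have b6 := mul_le_mul_of_nonneg_left b3 w0.le
  have b7 := mul_le_mul_of_nonneg_left e4 (show 0 ≤ 4 * E ^ 4 * δ by positivity)
  have b8 : 4 * E ^ 4 + 2 * E ≤ E ^ 12 := by
    have c1 : E ≤ E ^ 4 := le_self_pow₀ E1 (by norm_num)
    have c2 : E ≤ E ^ 8 := le_self_pow₀ E1 (by norm_num)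
    nlinarith [mul_le_mul_of_nonneg_left (show 6 ≤ E ^ 8 by linarith) (show 0 ≤ E ^ 4 by positivity)]
  linarith [mul_le_mul_of_nonneg_right b8 (show 0 ≤ δ * n5 p by positivity)]

end Crest.Agent.T156.Alt.E35

end
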