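import Crest.Agent.T156.ErrRD_35
import Crest.Agent.T156.R1C2_56
import Crest.Agent.T156.AltPG_3

/-!
# Row 156, R1: the sums `s1`-`s4` of the error table (helper4)
-/

set_option autoImplicit false
set_option linter.unusedSectionVars false

noncomputable section

namespace Crest.Agent.T156.Alt.E35.S4

open Real Finset
open Crest.Agent.T156.Alt.Md67 Crest.Agent.T156.Alt.R62 Crest.Agent.T156.Alt.R77
open Crest.Agent.T156.Alt.R82 Crest.Agent.T156.Alt.SD56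

/-- Cauchy-Schwarz against a weight -/
theorem cs {U : Finset ℕ} {w g : ℕ → ℝ} {A B v : ℝ} (w0 : ∀ k ∈ U, 0 ≤ w k)
    (hA : ∑ k ∈ U, w k ≤ A) (hB : ∑ k ∈ U, w k * g k ^ 2 ≤ B) (v0 : 0 ≤ v) (h : A * B ≤ v ^ 2) :
    ∑ k ∈ U, w k * g k ≤ v := by
  have a := sum_sq_le_sum_mul_sum_of_sq_le_mul U (r := fun k => w k * g k) (f := w)
    (g := fun k => w k * g k ^ 2) w0 (fun k hk => mul_nonneg (w0 k hk) (sq_nonneg _))
    fun k _ => le_of_eq (by ring)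
  refine abs_le_of_sq_le_sq' ((a.trans ?_).trans h) v0 |>.2
  exact mul_le_mul hA hB (sum_nonneg fun k hk => mul_nonneg (w0 k hk) (sq_nonneg _))
    ((sum_nonneg w0).trans hA)

/-- a factor bounded on the set -/
theorem fac {U : Finset ℕ} {w μ g : ℕ → ℝ} {B v : ℝ} (w0 : ∀ k ∈ U, 0 ≤ w k)
    (g0 : ∀ k, 0 ≤ g k) (B0 : 0 ≤ B) (hμ : ∀ k ∈ U, μ k ≤ B) (hv : ∑ k ∈ U, w k * g k ≤ v) :
    ∑ k ∈ U, w k * (μ k * g k) ≤ B * v := by
  refine (sum_le_sum (g := fun k => B * (w k * g k)) fun k hk => ?_).trans ?_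
  · rw [mul_left_comm]
    exact mul_le_mul_of_nonneg_right (hμ k hk) (mul_nonneg (w0 k hk) (g0 k))
  · rw [← mul_sum]
    exact mul_le_mul_of_nonneg_left hv B0

variable {E t a a' Q l Φ l0 Λ₀ Pt u1 V4 x N : ℝ} {p : Pm} {P : Pl} {m I : ℕ} {S : Sc} {Pf : ℝ → ℝ}
  {G μ : ℕ → ℝ} (F : Fr E p P t a a' Q m S l Φ Pf l0 Λ₀ Pt u1 V4 I)
include F

theorem lz_sub {y : ℝ} : lz S (p.gst P t) y ⊆ Ioo S.jl (p.gst P t).N := fun k hk => by
  have := mem_Ioo.1 (mem_filter.1 hk).1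
  have := F.cl.J_lt
  exact mem_Ioo.2 (by omega)

theorem top_sub : sb S (p.gst P t) (T0 S (p.gst P t)) S.C ∪ Ico S.J (p.gst P t).N ⊆
    Ioo S.jl (p.gst P t).N := union_subset (sb_sub F.cl) fun k hk => by
  have := mem_Ico.1 hk
  have := F.cl.jl_lt
  exact mem_Ioo.2 (by omega)

theorem dz0 {k : ℕ} (hk : k ∈ Ioo S.jl (p.gst P t).N) : 0 ≤ (p.gst P t).dz m x k :=
  F.W.dz0 x (pos_of S _ k hk)

/-- **low zone, dyadic blocks, top** -/
theorem dec {g : ℕ → ℝ} {v : ℝ} (g0 : ∀ k ∈ Ioo S.jl (p.gst P t).N, 0 ≤ g k) (v0 : 0 ≤ v)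
    (h1 : ∑ k ∈ lz S (p.gst P t) l0, g k ≤ v)
    (h2 : ∀ τ, l0 ≤ τ → τ ≤ T0 S (p.gst P t) → ∑ k ∈ sb S (p.gst P t) τ (2 * τ), g k ≤ v)
    (h3 : ∑ k ∈ sb S (p.gst P t) (T0 S (p.gst P t)) S.C ∪ Ico S.J (p.gst P t).N, g k ≤ v) :
    ∑ k ∈ Ioo S.jl (p.gst P t).N, g k ≤ E ^ 3 * v := by
  have c := F.cl
  have e1 : en S (p.gst P t) u1 ⊆
      sb S (p.gst P t) (T0 S (p.gst P t)) S.C ∪ Ico S.J (p.gst P t).N :=
    sdiff_subset.trans subset_union_right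
  have e2 : tz S (p.gst P t) u1 ⊆
      sb S (p.gst P t) (T0 S (p.gst P t)) S.C ∪ Ico S.J (p.gst P t).N :=
    union_subset_union Subset.rfl fun k hk => by
      have := (mem_pl.1 hk).1
      have := c.i4
      exact mem_Ico.2 (by omega)
  have k : ∀ U, U ⊆ sb S (p.gst P t) (T0 S (p.gst P t)) S.C ∪ Ico S.J (p.gst P t).N →
      ∑ k ∈ U, g k ≤ v := fun U hU =>
    (sum_le_sum_of_subset_of_nonneg hU fun k hk _ => g0 k (top_sub F hk)).trans h3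
  have a1 := dyad (u1 := u1) c g0 v0 F.hI F.l00.le h2 (k _ e2)
  have a2 : ∑ k ∈ Ioo S.jl (p.gst P t).N \ gd S (p.gst P t) l0 u1, g k ≤ v + v :=
    (sum_le_sum_of_subset_of_nonneg bad_sub fun k hk _ =>
      g0 k (union_subset (lz_sub F) (e1.trans (top_sub F)) hk)).trans
      ((sum_union_le fun k hk => g0 k (top_sub F (e1 hk))).trans (add_le_add h1 (k _ e1)))
  rw [← sum_sdiff (gd_sub (l0 := l0) (u1 := u1) c)]
  have a3 : (I + 3 : ℝ) ≤ E ^ 3 := by nlinarith [F.I1, F.E1]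
  nlinarith

theorem lz_w {y : ℝ} (hy : 0 ≤ y) : ∑ k ∈ lz S (p.gst P t) y, (p.gst P t).dz m x k ≤ E ^ 2 * y :=
  (lz_wt F.cl hy).trans (mul_le_mul_of_nonneg_right F.C2 hy)

theorem sb_w {τ : ℝ} (h : l0 ≤ τ) :
    ∑ k ∈ sb S (p.gst P t) τ (2 * τ), (p.gst P t).dz m x k ≤ E ^ 2 * (3 * τ) := by
  have τ0 := F.l00.trans_le h
  refine le_trans (sum_le_sum_of_subset_of_nonneg (fun k hk => ?_) fun k hk _ =>
    dz0 F (lz_sub F hk)) (lz_w F (y := 3 * τ) (by positivity))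
  have := mem_sb.1 hk
  exact mem_filter.2 ⟨mem_Ioo.2 this.1, by linarith [this.2.2]⟩

theorem l_ye : l ≤ p.ye := F.nr.ly.trans (mul_le_of_le_one_left F.fx.y0.le
  ((div_le_one (pow_pos F.E0 _)).2 (one_le_pow₀ F.E1')))

theorem l0_T : l0 ≤ T0 S (p.gst P t) := by
  have E0 := F.E0
  have a1 : l0 ≤ 1 / E ^ 200 :=
    F.nr.l0l.trans (F.nr.ly.trans (mul_le_of_le_one_right (by positivity) F.y1))
  have a2 : 48 * E ^ 4 ≤ E ^ 200 :=
    le_trans (by nlinarith [F.E1, pow_pos E0 4]) (F.pw (show 5 ≤ 200 by norm_num))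
  rw [le_div_iff₀ (by positivity)] at a1
  refine le_of_mul_le_mul_left (le_trans ?_ F.T0_ge) (by positivity : 0 < 48 * E ^ 4)
  nlinarith [F.l00]

/-- the density scale is monotone below `ye` -/
theorem mt_lo {y y' : ℝ} (h : y ≤ y') (h1 : p.r ≤ y') (h2 : y' ≤ p.ye) :
    R82.mt p t y ≤ S.ms y' / y' := by
  have r0 := F.r0
  have y0 := r0.trans_le h1
  have κ0 : 0 ≤ p.κ := rpow_nonneg F.n0.le _
  have b : 0 < max p.r y := r0.trans_le (le_max_left _ _)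
  rw [R82.mt, F.sc.ms, Pm.msG, Pm.msG, min_eq_left (h.trans h2), min_eq_left h2, max_eq_right h1,
    max_comm y, mul_right_comm, mul_div_cancel_right₀ _ b.ne', mul_right_comm,
    mul_div_cancel_right₀ _ y0.ne']
  exact mul_le_mul_of_nonneg_left (PG3.gS_mono F.fx.t0.le (max_le h1 h)) κ0

theorem mu_lo (h : ∀ k, S.jl < k → μ k ≤ E ^ 2 * R82.mt p t ((p.gst P t).s k)) :
    ∀ k ∈ lz S (p.gst P t) l0, μ k ≤ E ^ 2 * (S.ms l0 / l0) := fun k hk =>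
  (h k (mem_Ioo.1 (lz_sub F hk)).1).trans (mul_le_mul_of_nonneg_left
    (mt_lo F (mem_filter.1 hk).2.le F.nr.r0 (F.nr.l0l.trans (l_ye F))) (sq_nonneg _))

theorem mu_sb (h : ∀ k, S.jl < k → μ k ≤ E ^ 2 * R82.mt p t ((p.gst P t).s k)) {τ : ℝ}
    (h1 : l0 ≤ τ) : ∀ k ∈ sb S (p.gst P t) τ (2 * τ), μ k ≤ E ^ 2 * (4 * S.ms τ / τ) := fun k hk =>
  (h k (mem_sb.1 hk).1.1).trans (mul_le_mul_of_nonneg_left (F.mt_le (F.ms_blk h1 hk)
    (F.l00.trans_le h1) ((mem_sb.1 hk).2.1.trans (le_max_left _ _))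
    (by have := F.cl.ms_pos (F.l00.le.trans h1); positivity)) (sq_nonneg _))

theorem mu_top (h : ∀ k, T0 S (p.gst P t) ≤ (p.gst P t).s k → μ k = 0) (g : ℕ → ℝ) :
    ∑ k ∈ sb S (p.gst P t) (T0 S (p.gst P t)) S.C ∪ Ico S.J (p.gst P t).N,
      (p.gst P t).dz m x k * (μ k * g k) = 0 := sum_eq_zero fun k hk => by
  rw [h k, zero_mul, mul_zero]
  rcases mem_union.1 hk with e | e
  · exact (mem_sb.1 e).2.1
  · have := F.cl.sm (mem_Ico.1 e).1
    have := F.cl.s_nn S.J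
    unfold T0
    linarith

variable (K : BK E S (p.gst P t) m x l Φ Pf l0 Λ₀ Pt u1 V4 G)
include K

theorem G_lo : ∑ k ∈ lz S (p.gst P t) l0, (p.gst P t).dz m x k * G k ≤ E * l * (E ^ 2 * l0) := by
  have := fac (μ := G) (g := fun _ => 1) (B := E * l) (v := E ^ 2 * l0)
    (fun k hk => dz0 (x := x) F (lz_sub F hk)) (fun _ => zero_le_one)
    (mul_pos F.E0 F.l0').le (fun k hk => K.mk'.sl k (mem_Ioo.1 (lz_sub F hk)).1.le
      (mem_Ioo.1 (mem_filter.1 hk).1).2) (by simpa using lz_w F F.l00.le)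
  simpa using this

theorem G_sb {τ v : ℝ} (h1 : l0 ≤ τ) (h2 : τ ≤ T0 S (p.gst P t)) (v0 : 0 ≤ v)
    (h : 3 * E ^ 3 * (τ * Pf τ) ≤ v ^ 2) :
    ∑ k ∈ sb S (p.gst P t) τ (2 * τ), (p.gst P t).dz m x k * G k ≤ v :=
  cs (fun k hk => dz0 F (sb_sub F.cl hk)) (sb_w F h1) (K.mk'.b2 τ h1 h2) v0 (by linarith)

theorem s1 (L : NL (1 / E ^ 200) p S (p.gst P t) l Φ Pf l0 Pt u1 N) :
    ∑ k ∈ Ioo S.jl (p.gst P t).N, (p.gst P t).dz m x k * G k ≤ E ^ 12 * N := by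
  have E0 := F.E0
  have E1 := F.E1
  have l0' := F.l0'
  have N0 : 0 ≤ N := (sq_nonneg _).trans L.N1
  have e6 : 3 * E ^ 3 ≤ (E ^ 3) ^ 2 := by
    have : 3 ≤ E ^ 3 := le_trans (by linarith) (le_self_pow₀ F.E1' (by norm_num))
    nlinarith [pow_pos E0 3]
  refine (dec F (v := E ^ 3 * N) (fun k hk => mul_nonneg (dz0 F hk) (K.mk'.pos k).le)
    (by positivity) ((G_lo F K).trans ?_) (fun τ h1 h2 => G_sb F K h1 h2 (by positivity) ?_)
    (cs (fun k hk => dz0 F (top_sub F hk)) (F.W.wt_le x (top_sub F)) K.mk'.t2 (by positivity)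
      ?_)).trans ?_
  · calc E * l * (E ^ 2 * l0) ≤ E * l * (E ^ 2 * l) := by gcongr; exact F.nr.l0l
      _ = E ^ 3 * l ^ 2 := by ring
      _ ≤ _ := by gcongr; exact L.N1
  · have τ0 := F.l00.trans_le h1
    have b : τ * Pf τ ≤ N ^ 2 := by
      rcases le_total τ l with c | c
      · rw [F.nr.Plo τ c, ← F.nr.l3]
        calc τ * l ^ 3 ≤ l * l ^ 3 := by gcongr
          _ = (l ^ 2) ^ 2 := by ring
          _ ≤ _ := by gcongr; exact L.N1
      · exact L.N2 τ c h2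
    rw [mul_pow]
    exact mul_le_mul e6 b (mul_nonneg τ0.le (F.nr.P0 τ).1) (by positivity)
  · rw [one_mul, mul_pow, ← pow_mul]
    exact mul_le_mul (le_self_pow₀ F.E1' (by norm_num)) L.N3
      (F.nr.Pt0.1.trans F.nr.Pt0.2.1) (by positivity)
  · rw [← mul_assoc, ← pow_add]
    exact mul_le_mul_of_nonneg_right (F.pw (by norm_num)) N0

omit K in
theorem s2 (μ0 : ∀ k, 0 ≤ μ k) (h : ∀ k, S.jl < k → μ k ≤ E ^ 2 * R82.mt p t ((p.gst P t).s k))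
    (h0 : ∀ k, T0 S (p.gst P t) ≤ (p.gst P t).s k → μ k = 0) :
    ∑ k ∈ Ioo S.jl (p.gst P t).N, (p.gst P t).dz m x k * μ k ≤ E ^ 12 * S.θ := by
  have E0 := F.E0
  have E1 := F.E1
  have θ0 := F.θ0
  have l00 := F.l00
  have m0 := F.cl.ms_pos l00.le
  have k := dec F (g := fun k => (p.gst P t).dz m x k * (μ k * 1)) (v := E ^ 5 * S.θ)
    (fun k hk => mul_nonneg (dz0 F hk) (mul_nonneg (μ0 k) zero_le_one)) (by positivity)
    ((fac (v := E ^ 2 * l0) (fun k hk => dz0 F (lz_sub F hk)) (fun _ => zero_le_one) (by positivity)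
      (mu_lo F h) (by simpa using lz_w F l00.le)).trans (by
        calc _ = E ^ 4 * S.ms l0 := by field_simp
          _ ≤ _ := mul_le_mul (F.pw (by norm_num)) (F.cl.ms1 _) m0.le (by positivity)))
    (fun τ h1 _ => by
      have τ0 := l00.trans_le h1
      have m1 := F.cl.ms_pos τ0.le
      refine (fac (v := E ^ 2 * (3 * τ)) (fun k hk => dz0 F (sb_sub F.cl hk)) (fun _ => zero_le_one)
        (by positivity) (mu_sb F h h1) (by simpa using sb_w F h1)).trans ?_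
      calc _ = 12 * E ^ 4 * S.ms τ := by field_simp; ring
        _ ≤ _ := mul_le_mul (by nlinarith [pow_pos E0 4]) (F.cl.ms1 _) m1.le (by positivity))
    ((mu_top F h0 fun _ => 1).trans_le (by positivity))
  simp only [mul_one] at k
  refine k.trans ?_
  rw [← mul_assoc, ← pow_add]
  exact mul_le_mul_of_nonneg_right (F.pw (by norm_num)) θ0.le

theorem s3 (μ0 : ∀ k, 0 ≤ μ k) (h : ∀ k, S.jl < k → μ k ≤ E ^ 2 * R82.mt p t ((p.gst P t).s k))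
    (h0 : ∀ k, T0 S (p.gst P t) ≤ (p.gst P t).s k → μ k = 0) :
    Φ * ∑ k ∈ Ioo S.jl (p.gst P t).N, (p.gst P t).dz m x k * (μ k * G k) ≤
      E ^ 12 * (1 / E ^ 200 * n5 p) := by
  have E0 := F.E0
  have E1 := F.E1
  have θ0 := F.θ0
  have n0 := F.n0
  have l00 := F.l00
  have l0' := F.l0'
  have a5 := F.n50
  have m0 := F.cl.ms_pos l00.le
  have Φ0 : 0 < Φ := F.nr.l3 ▸ pow_pos l0' 3
  have G0 := fun k => (K.mk'.pos k).le
  have e5 : p.s ^ 6 / p.n * n4 p = n5 p ^ 2 := by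
    rw [n5, n4, mul_pow, ← rpow_natCast, ← rpow_natCast ((p.n : ℝ) ^ _), ← rpow_mul n0.le,
      show (-(5 : ℝ) / 6 * ((2 : ℕ) : ℝ)) = -(2 : ℝ) / 3 - 1 by norm_num, rpow_sub_one n0.ne',
      rpow_natCast]
    field_simp
  generalize hD : 1 / E ^ 200 = δ at *
  have δ0 : 0 < δ := hD ▸ by positivity
  rw [← le_div_iff₀' Φ0]
  refine (dec F (v := E ^ 5 * (δ * n5 p) / Φ)
    (fun k hk => mul_nonneg (dz0 F hk) (mul_nonneg (μ0 k) (G0 k))) (by positivity)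
    ((fac (fun k hk => dz0 F (lz_sub F hk)) G0 (by positivity) (mu_lo F h) (G_lo F K)).trans ?_)
    (fun τ h1 h2 => ?_) ((mu_top F h0 G).trans_le (by positivity))).trans ?_
  · rw [le_div_iff₀ Φ0]
    have a := hD ▸ F.nr.a
    calc _ = E ^ 5 * (l * (S.ms l0 * Φ)) := by field_simp
      _ ≤ E ^ 5 * (1 * (δ * n5 p)) := by
        gcongr
        exact (l_ye F).trans F.y1
      _ = _ := by ring
  · have τ0 := l00.trans_le h1
    have m1 := F.cl.ms_pos τ0.le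
    have P0 := (F.nr.P0 τ).1
    have j := hD ▸ F.nr.j τ h1 h2
    have b : Φ ^ 2 * (S.ms τ ^ 2 * Pf τ / τ) ≤ (δ * n5 p) ^ 2 := by
      refine le_of_mul_le_mul_left ?_ θ0
      calc _ = S.θ * Φ ^ 2 * (S.ms τ ^ 2 * Pf τ / τ) := by ring
        _ ≤ Λ₀ * p.s ^ 6 / p.n * (S.ms τ ^ 2 * Pf τ / τ) :=
          mul_le_mul_of_nonneg_right F.nr.n (by positivity)
        _ = p.s ^ 6 / p.n * (Λ₀ * S.ms τ ^ 2 * Pf τ / τ) := by ring
        _ ≤ p.s ^ 6 / p.n * (S.θ * (δ ^ 2 * n4 p)) :=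
          mul_le_mul_of_nonneg_left j (by have := F.s1; positivity)
        _ = _ := by rw [mul_pow, ← e5]; ring
    refine (fac (v := 2 * E ^ 2 * (δ * n5 p) / Φ * τ / S.ms τ)
      (fun k hk => dz0 F (sb_sub F.cl hk)) G0 (by positivity) (mu_sb F h h1)
      (G_sb F K h1 h2 (by positivity) ?_)).trans ?_
    · calc _ = 3 * E ^ 3 * (τ / S.ms τ / Φ) ^ 2 * (Φ ^ 2 * (S.ms τ ^ 2 * Pf τ / τ)) := by field_simp
        _ ≤ 4 * E ^ 4 * (τ / S.ms τ / Φ) ^ 2 * (δ * n5 p) ^ 2 := by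
          gcongr
          exacts [by norm_num, F.E1', by norm_num]
        _ = _ := by field_simp; ring
    · calc _ = 8 * E ^ 4 * (δ * n5 p) / Φ := by field_simp; ring
        _ ≤ _ := by gcongr; nlinarith [pow_pos E0 4]
  · calc _ = E ^ 8 * (δ * n5 p) / Φ := by ring
      _ ≤ _ := by gcongr; exacts [F.E1', by norm_num]

theorem s4 (L : NL (1 / E ^ 200) p S (p.gst P t) l Φ Pf l0 Pt u1 N) (μ0 : ∀ k, 0 ≤ μ k)
    (h : ∀ k, S.jl < k → μ k ≤ E ^ 2 * R82.mt p t ((p.gst P t).s k))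
    (h0 : ∀ k, T0 S (p.gst P t) ≤ (p.gst P t).s k → μ k = 0) :
    N * ∑ k ∈ Ioo S.jl (p.gst P t).N, (p.gst P t).dz m x k * (μ k * G k ^ 2) ≤
      E ^ 12 * (1 / E ^ 200 * n5 p) := by
  have E0 := F.E0
  have E1 := F.E1
  have l00 := F.l00
  have a5 := F.n50
  have m0 := F.cl.ms_pos l00.le
  have N0 : 0 < N := (pow_pos F.l0' 2).trans_le L.N1
  have a4 := L.a4
  generalize hD : 1 / E ^ 200 = δ at *
  have δ0 : 0 < δ := hD ▸ by positivity
  have k : ∀ τ, l0 ≤ τ → τ ≤ T0 S (p.gst P t) →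
      E ^ 2 * (4 * S.ms τ / τ) * (E * Pf τ) ≤ E ^ 4 * (δ * n5 p) / N := fun τ h1 h2 => by
    have τ0 := l00.trans_le h1
    have b := (div_le_iff₀ τ0).2 (a4 τ h1 h2)
    rw [le_div_iff₀ N0]
    calc _ = 4 * E ^ 3 * (S.ms τ * Pf τ * N / τ) := by field_simp
      _ ≤ 4 * E ^ 3 * (δ * n5 p) := by gcongr
      _ ≤ _ := by gcongr; nlinarith [pow_pos E0 3]
  rw [← le_div_iff₀' N0]
  refine (dec F (v := E ^ 4 * (δ * n5 p) / N)
    (fun k hk => mul_nonneg (dz0 F hk) (mul_nonneg (μ0 k) (sq_nonneg _))) (by positivity)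
    ((fac (g := fun k => G k ^ 2) (fun k hk => dz0 F (lz_sub F hk)) (fun _ => sq_nonneg _)
      (by positivity) (mu_lo F h) ((sum_le_sum_of_subset_of_nonneg (lz_sub F) fun k hk _ =>
        mul_nonneg (dz0 F hk) (sq_nonneg _)).trans K.mk'.tot)).trans
      (le_trans ?_ (k l0 le_rfl (l0_T F))))
    (fun τ h1 h2 => (fac (g := fun k => G k ^ 2) (fun k hk => dz0 F (sb_sub F.cl hk))
      (fun _ => sq_nonneg _) (by
        have := F.cl.ms_pos (l00.le.trans h1)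
        have := l00.trans_le h1
        positivity) (mu_sb F h h1) (K.mk'.b2 τ h1 h2)).trans (k τ h1 h2))
    ((mu_top F h0 fun k => G k ^ 2).trans_le (by positivity))).trans ?_
  · rw [F.nr.Plo l0 F.nr.l0l]
    have Φ0 : 0 < Φ := F.nr.l3 ▸ pow_pos F.l0' 3
    gcongr
    linarith
  · calc _ = E ^ 7 * (δ * n5 p) / N := by ring
      _ ≤ _ := by gcongr; exacts [F.E1', by norm_num]

end Crest.Agent.T156.Alt.E35.S4

end
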