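import Crest.Agent.T156.ErrP_35

/-!
# Row 156: the polynomial `Pe` against one budget (helper35)
-/

set_option autoImplicit false

noncomputable section

namespace Crest.Agent.T156.Cas.C40

/-- natural sizes `θ l Φ N V4`, loss `Λ`, budget `d` -/
structure PeH (Λ d θ l Φ N V4 B V N' Φ' L F X n dI U S2 S3 r F' W a1 a2 dW UW S1 S4 S5 : ℝ) :
    Prop where
  Λ1 : 1 ≤ Λ
  θ0 : 0 ≤ θ
  Φ0 : 0 ≤ Φ
  ΦN : Φ ≤ N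
  V40 : 0 ≤ V4
  n0 : 0 < n
  nn : 0 ≤ B ∧ 0 ≤ V ∧ 0 ≤ N' ∧ 0 ≤ Φ' ∧ 0 ≤ L ∧ 0 ≤ F ∧ 0 ≤ X ∧ 0 ≤ F' ∧ 0 ≤ W ∧ 0 ≤ a1 ∧ 0 ≤ a2
  nn' : 0 ≤ dI ∧ 0 ≤ U ∧ 0 ≤ S2 ∧ 0 ≤ S3 ∧ 0 ≤ r ∧ 0 ≤ S4 ∧ 0 ≤ S5
  hB : B ≤ Λ
  hV : V ≤ Λ
  hN : N' ≤ Λ * N
  hΦ : Φ' ≤ Λ * Φ
  hL : L ≤ Λ * Φ
  hF : F ≤ Λ * N
  X3 : X ^ 3 ≤ Λ * Φ
  X2 : X ^ 2 ≤ Λ * l ^ 2
  hI : dI ≤ Λ * (1 / n)
  hU : U ≤ Λ * (Φ * l ^ 2 + V4)
  hS2 : S2 ≤ Λ * Φ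
  hr : r ≤ Φ
  hW : W ≤ Λ * θ
  hdW : dW ≤ Λ * d
  hUW : UW ≤ Λ * d
  hS1 : S1 ≤ Λ * d
  hS3 : θ * S3 ≤ Λ * d
  hS4 : N * S4 ≤ Λ * d
  hS5 : Φ * S5 ≤ Λ * d
  ha1 : Φ * a1 ≤ Λ * d
  hF' : Φ * F' ≤ Λ * d
  ha2 : N * a2 ≤ Λ * d
  l5 : θ * (Φ * l ^ 2) ≤ d
  l6 : θ * Φ ^ 2 ≤ d
  ln : θ * (1 / n) ≤ d
  l4 : θ * V4 ≤ d
  l3 : θ * (Φ * N) ≤ d

theorem PeH.le {Λ d θ l Φ N V4 B V N' Φ' L F X n dI U S2 S3 r F' W a1 a2 dW UW S1 S4 S5 : ℝ}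
    (h : PeH Λ d θ l Φ N V4 B V N' Φ' L F X n dI U S2 S3 r F' W a1 a2 dW UW S1 S4 S5) :
    Pe B V N' Φ' L F X n dI U S2 S3 r F' W a1 a2 dW UW S1 S4 S5 ≤ 200 * (Λ ^ 5 * d) := by
  obtain ⟨B0, V0, N0', Φ0', L0, F0, X0, F0', W0, a10, a20⟩ := h.nn
  obtain ⟨I0, U0, S20, S30, r0, S40, S50⟩ := h.nn'
  have Λ1 := h.Λ1
  have Λ0 : 0 ≤ Λ := zero_le_one.trans Λ1
  have θ0 := h.θ0
  have Φ0 := h.Φ0
  have N0 : 0 ≤ N := Φ0.trans h.ΦN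
  have V40 := h.V40
  have n0 := h.n0
  have d0 : 0 ≤ d := (mul_nonneg θ0 V40).trans h.l4
  have p : ∀ i : ℕ, i ≤ 5 → Λ ^ i * d ≤ Λ ^ 5 * d := fun i hi =>
    mul_le_mul_of_nonneg_right (pow_le_pow_right₀ Λ1 hi) d0
  have k : ∀ {x y : ℝ} (i : ℕ), 0 ≤ x → x ≤ Λ ^ i * y → θ * y ≤ d → W * x ≤ Λ ^ (i + 1) * d :=
    fun {x y} i x0 hx hy =>
    calc W * x ≤ Λ * θ * (Λ ^ i * y) := mul_le_mul h.hW hx x0 (by positivity)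
      _ = Λ ^ (i + 1) * (θ * y) := by ring
      _ ≤ _ := mul_le_mul_of_nonneg_left hy (by positivity)
  have k' : ∀ {x y z : ℝ}, 0 ≤ z → x ≤ Λ * y → y * z ≤ Λ * d → x * z ≤ Λ ^ 2 * d :=
    fun {x y z} z0 hx hy =>
    calc x * z ≤ Λ * y * z := mul_le_mul_of_nonneg_right hx z0
      _ = Λ * (y * z) := by ring
      _ ≤ Λ * (Λ * d) := mul_le_mul_of_nonneg_left hy Λ0
      _ = _ := by ring
  have m : ∀ {x y x' y' : ℝ}, 0 ≤ y → 0 ≤ x' → x ≤ Λ * x' → y ≤ Λ * y' →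
      x * y ≤ Λ ^ 2 * (x' * y') := fun {x y x' y'} y0 x0 hx hy =>
    (mul_le_mul hx hy y0 (by positivity)).trans_eq (by ring)
  have b1 := k (x := X ^ 3 * X ^ 3) (y := Φ ^ 2) 2 (by positivity)
    ((m (pow_nonneg X0 3) Φ0 h.X3 h.X3).trans_eq (by ring)) h.l6
  have b2 := k (x := X ^ 2 * L) (y := Φ * l ^ 2) 2 (by positivity)
    ((m L0 (sq_nonneg l) h.X2 h.hL).trans_eq (by ring)) h.l5
  have b3 := k (x := 1 / n) 0 (by positivity) (by simp) h.ln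
  have b4 := k (x := dI) 1 I0 (by rw [pow_one]; exact h.hI) h.ln
  have b5 : W * U ≤ 2 * (Λ ^ 2 * d) :=
    calc W * U ≤ Λ * θ * (Λ * (Φ * l ^ 2 + V4)) := mul_le_mul h.hW h.hU U0 (by positivity)
      _ = Λ ^ 2 * (θ * (Φ * l ^ 2) + θ * V4) := by ring
      _ ≤ Λ ^ 2 * (d + d) := mul_le_mul_of_nonneg_left (add_le_add h.l5 h.l4) (by positivity)
      _ = _ := by ring
  have b6 := k' a10 h.hS2 h.ha1
  have b7 := k' S30 h.hW h.hS3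
  have b8 := k 2 (mul_nonneg S20 N0') (m N0' Φ0 h.hS2 h.hN) h.l3
  have b9 := k' S40 h.hN h.hS4
  have b10 := k' S50 h.hΦ h.hS5
  have c1 : r * F' ≤ Λ * d := (mul_le_mul_of_nonneg_right h.hr F0').trans h.hF'
  have c2 := k (x := r * F) (y := Φ * N) 1 (mul_nonneg r0 F0)
    ((mul_le_mul h.hr h.hF F0 Φ0).trans_eq (by ring)) h.l3
  have v1 : 1 + V ≤ 2 * Λ := by linarith [h.hV]
  have c3 : r * ((1 + V) * (2 * F' + 2 * B * F * W)) ≤ 2 * Λ * (2 * (Λ * d) + 2 * Λ * (Λ ^ 2 * d)) :=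
    calc _ = (1 + V) * (2 * (r * F') + 2 * B * (W * (r * F))) := by ring
      _ ≤ _ := mul_le_mul v1 (add_le_add (by linarith) (mul_le_mul (by linarith [h.hB]) c2
          (by positivity) (by positivity))) (by positivity) (by positivity)
  have e1 := k 2 (mul_nonneg L0 N0') (m N0' Φ0 h.hL h.hN) h.l3
  have e2 := k 2 (mul_nonneg L0 F0) (m F0 Φ0 h.hL h.hF) h.l3
  have e3 := k 2 (mul_nonneg Φ0' N0') (m N0' Φ0 h.hΦ h.hN) h.l3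
  have e4 := k 2 (mul_nonneg Φ0' F0) (m F0 Φ0 h.hΦ h.hF) h.l3
  have e5 := k (y := Φ ^ 2) 2 (mul_nonneg L0 Φ0') ((m Φ0' Φ0 h.hL h.hΦ).trans_eq (by ring)) h.l6
  have e6 := k' a10 h.hL h.ha1
  have e7 := k' F0' h.hL h.hF'
  have e8 := k' a10 h.hΦ h.ha1
  have e9 := k' F0' h.hΦ h.hF'
  have e10 := k' a20 (h.hL.trans (mul_le_mul_of_nonneg_left h.ΦN Λ0)) h.ha2
  have e11 := k' a20 h.hN h.ha2
  have e12 := k' a20 h.hF h.ha2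
  have q23 : Λ ^ 2 * d ≤ Λ ^ 3 * d :=
    mul_le_mul_of_nonneg_right (pow_le_pow_right₀ Λ1 (by norm_num)) d0
  have e : W * ((L + Φ') * (N' + F) + L * Φ') + (L + Φ') * (a1 + F') + (L + N' + F) * a2 ≤
      12 * (Λ ^ 3 * d) := by
    linear_combination e1 + e2 + e3 + e4 + e5 + e6 + e7 + e8 + e9 + e10 + e11 + e12 + 7 * q23
  have f : 7 * B * (1 + V) * (W * ((L + Φ') * (N' + F) + L * Φ') + (L + Φ') * (a1 + F') +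
      (L + N' + F) * a2) ≤ 7 * Λ * (2 * Λ) * (12 * (Λ ^ 3 * d)) :=
    mul_le_mul (mul_le_mul (by linarith [h.hB]) v1 (by positivity) (by positivity)) e
      (by positivity) (by positivity)
  have p1 := p 1 (by norm_num)
  have p2 := p 2 (by norm_num)
  have p3 := p 3 (by norm_num)
  have p4 := p 4 (by norm_num)
  have p0 : 0 ≤ Λ ^ 5 * d := by positivity
  unfold Pe
  linear_combination b1 + b2 + b3 + b4 + b5 + b6 + b7 + b8 + b9 + 2 * b10 + c3 + f + h.hdW +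
    h.hUW + h.hS1 + 4 * p1 + 12 * p2 + 3 * p3 + 4 * p4 + 9 * p0

end Crest.Agent.T156.Cas.C40

end
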