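import Crest.Agent.T156.Ent_68
import Crest.Agent.T156.CaTrf_56
import Crest.Agent.T156.CaSym_84
import Crest.Agent.T156.CaConc_68
import Crest.Agent.T156.CaLc_44
import Crest.Agent.T156.CaHess_87
import Crest.Agent.T156.SgnCas_69
import Crest.Agent.T156.Mov_21

/-!
# Row 156: the root tilt (helper43)

`(a V)' = E_a Φ₀`, concentration of invariant Lipschitz functions at a node, the regularity
hypotheses of `Fin26.Flow`, and the Euler identity for kernels `α R² + φ R`.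
-/

set_option autoImplicit false
set_option linter.unusedSectionVars false

noncomputable section

namespace Crest.Agent.T156.Cas.Eul43

open MeasureTheory Real Set Filter Topology
open Crest.Agent.T157.E Crest.Agent.T157.Casc Crest.Agent.T157.SL

variable {Ω : Type} [Fintype Ω] {w : Ω → ℝ}

/-! ### concentration at a node -/

omit [Fintype Ω] in
theorem cacc_nonneg (L : List (Lv Ω)) (j : ℕ) (x : Ω) : 0 ≤ cacc L j x x :=
  List.sum_nonneg fun a ha => by
    obtain ⟨l, -, rfl⟩ := List.mem_map.1 ha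
    exact Finset.sum_nonneg fun i _ => mul_self_nonneg _

theorem st_lip : ∀ (L : List (Lv Ω)) (j : ℕ) (h h' : Ω → ℝ) (g g' : NI L → ℝ) (x : Ω),
    (st L j h g x - st L j h' g' x - (h x - h' x)) ^ 2 ≤ cacc L j x x * ∑ i, (g i - g' i) ^ 2
  | [], 0, _, _, _, _, _ => by simp [st, cacc]
  | _ :: _, 0, _, _, _, _, _ => by simp [st, cacc]
  | [], _ + 1, _, _, _, _, _ => by simp [st, cacc]
  | l :: L, j + 1, h, h', g, g', x => by
    have ih := st_lip L j (h + l.fld fun i => g (.inl i)) (h' + l.fld fun i => g' (.inl i))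
      (fun i => g (.inr i)) (fun i => g' (.inr i)) x
    have cs := Finset.sum_mul_sq_le_sq_mul_sq Finset.univ (l.A x) fun i => g (.inl i) - g' (.inl i)
    have e1 : ∑ i : NI (l :: L), (g i - g' i) ^ 2 =
        ∑ i, (g (.inl i) - g' (.inl i)) ^ 2 + ∑ i, (g (.inr i) - g' (.inr i)) ^ 2 :=
      Fintype.sum_sum_type _
    have e2 : ∑ i, l.A x i ^ 2 = l.cov x x := by simp only [Lv.cov, sq]
    have e3 : ∑ i, l.A x i * (g (.inl i) - g' (.inl i)) =
        l.fld (fun i => g (.inl i)) x - l.fld (fun i => g' (.inl i)) x := by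
      simp only [Lv.fld, mul_sub, Finset.sum_sub_distrib]
    rw [e2, e3] at cs
    rw [e1, Gir68.cacc_cons]
    simp only [Pi.add_apply] at ih
    set A := st L j (h + l.fld fun i => g (.inl i)) (fun i => g (.inr i)) x with hA
    set A' := st L j (h' + l.fld fun i => g' (.inl i)) (fun i => g' (.inr i)) x with hA'
    change (A - A' - (h x - h' x)) ^ 2 ≤ _
    set p := l.fld (fun i => g (.inl i)) x - l.fld (fun i => g' (.inl i)) x with hp
    set q := A - A' - (h x + l.fld (fun i => g (.inl i)) x - (h' x + l.fld (fun i => g' (.inl i)) x))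
      with hq
    have e4 : A - A' - (h x - h' x) = p + q := by rw [hp, hq]; ring
    rw [e4]
    have c1 : 0 ≤ l.cov x x := e2 ▸ Finset.sum_nonneg fun i _ => sq_nonneg _
    have c2 := cacc_nonneg L j x
    set s := ∑ i, (g (.inl i) - g' (.inl i)) ^ 2
    set t := ∑ i, (g (.inr i) - g' (.inr i)) ^ 2
    have s0 : 0 ≤ s := by positivity
    have t0 : 0 ≤ t := by positivity
    have key : 2 * (p * q) ≤ l.cov x x * t + cacc L j x x * s := by
      refine abs_le_of_sq_le_sq' ?_ (by positivity) |>.2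
      have := mul_le_mul cs ih (sq_nonneg _) (by positivity)
      nlinarith [sq_nonneg (l.cov x x * t - cacc L j x x * s)]
    nlinarith

/-- **concentration at a node**: `G` invariant and `1`-Lipschitz for the sup norm -/
theorem conc_node (hw : Wt w) {L : List (Lv Ω)} (hL : Mono 0 L) {h : Ω → ℝ}
    {T : Set (Equiv.Perm Ω)} {x₀ : Ω} (hT : ∀ τ ∈ T, Sym w L h τ)
    (htr : ∀ x, w x ≠ 0 → ∃ τ ∈ T, τ x₀ = x) (j : ℕ) {G : (Ω → ℝ) → ℝ} (hG : C.Lp G)
    (hGT : ∀ τ ∈ T, ∀ z, G (fun y => z (τ.symm y)) = G z) {v : ℝ} (hv : ∀ x, cacc L j x x ≤ v)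
    (t : ℝ) :
    node w L j (fun z => exp (t * (G z - node w L j G h))) h ≤ exp (t ^ 2 * v) := by
  have lG : Lg G := Lg.of hG.cont |G 0| 1 fun z => by
    have := hG.abs_sub z 0
    rw [sub_zero] at this
    have h2 := abs_add_le (G 0) (G z - G 0)
    rw [add_sub_cancel] at h2
    linarith
  have v0 : 0 ≤ v := (cacc_nonneg L j x₀).trans (hv x₀)
  have pl : ∀ {Φ : (Ω → ℝ) → ℝ}, Eg Φ → (∀ τ ∈ T, ∀ z, Φ (fun y => z (τ.symm y)) = Φ z) →
      node w L j Φ h = lE (U w L h x₀) fun g => Φ (st L j h g) := fun {Φ} hΦ hi => by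
    rw [← plantStmt peStmt symStmt Ω w hw L h T x₀ hT htr (fun p => Φ (p j))
      (hΦ.cont.measurable.comp (measurable_pi_apply j)) ((peStmt Ω w hw).2.1 L h j Φ hΦ)
      fun τ hτ p => hi τ hτ (p j), (peStmt Ω w hw).2.2.2.2.2.1 L h j (fun _ => Φ) fun _ => hΦ]
    simp only [← Finset.sum_mul, sum_P hw, one_mul]
  rw [pl ((Pe.lg_sub lG (Pe.lg_const _)).exp t) fun τ hτ z => by rw [hGT τ hτ], pl lG.eg hGT,
    ← sq_sqrt v0]
  refine concStmt _ _ _ _ ?_ (Pe.lg_U hw L h x₀) (fun g g' => ?_) t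
  · have := ((lcStmt Ω w hw L hL).2.2.1 x₀)
    refine ⟨convex_univ, fun g _ g' _ a b ha hb hab => ?_⟩
    have h2 := this.2 (mem_univ (h, g)) (mem_univ (h, g')) ha hb hab
    simpa [← add_smul, hab] using h2
  · rw [sq_sqrt v0]
    have s0 : 0 ≤ v * ∑ i, (g i - g' i) ^ 2 := by positivity
    have h1 : ‖st L j h g - st L j h g'‖ ≤ √(v * ∑ i, (g i - g' i) ^ 2) :=
      (pi_norm_le_iff_of_nonneg (sqrt_nonneg _)).2 fun x => by
        have := st_lip L j h h g g' x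
        rw [sub_self, sub_zero] at this
        exact abs_le_sqrt (this.trans (mul_le_mul_of_nonneg_right (hv x) (by positivity)))
    rw [← sq_abs, ← sq_sqrt s0]
    exact pow_le_pow_left₀ (abs_nonneg _) ((hG.abs_sub _ _).trans h1) 2

theorem sq_le_cosh (y : ℝ) : y ^ 2 ≤ exp y + exp (-y) - 2 := by
  have h1 : ∀ y : ℝ, 0 ≤ y → y ^ 2 ≤ exp y + exp (-y) - 2 := fun y hy => by
    have a := Real.self_le_sinh_iff.2 (show 0 ≤ y / 2 by positivity)
    have b : exp y + exp (-y) - 2 = (2 * sinh (y / 2)) ^ 2 := by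
      have e1 : exp y = exp (y / 2) * exp (y / 2) := by rw [← exp_add]; ring_nf
      have e2 : exp (-y) = exp (-(y / 2)) * exp (-(y / 2)) := by rw [← exp_add]; ring_nf
      have e3 : exp (y / 2) * exp (-(y / 2)) = 1 := by rw [← exp_add]; simp
      rw [sinh_eq, e1, e2]
      nlinarith
    rw [b]
    exact pow_le_pow_left₀ hy (by linarith) 2
  rcases le_total 0 y with hy | hy
  · exact h1 y hy
  · have := h1 (-y) (by linarith)
    rw [neg_neg, neg_sq] at this
    linarith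

/-- variance from two-sided sub-Gaussian moments -/
theorem var_node (hw : Wt w) (L : List (Lv Ω)) (j : ℕ) (h : Ω → ℝ) {Y : (Ω → ℝ) → ℝ} (hY : Lg Y)
    {v : ℝ} (hv : 0 ≤ v) (H : ∀ t, node w L j (fun z => exp (t * Y z)) h ≤ exp (t ^ 2 * v)) :
    node w L j (fun z => Y z ^ 2) h ≤ 4 * v := by
  refine le_of_forall_pos_le_add fun ε hε => ?_
  have p : 0 < v + ε / 4 := by positivity
  set t := (√(v + ε / 4))⁻¹ with ht
  have e1 : t ^ 2 * (v + ε / 4) = 1 := by rw [ht, inv_pow, sq_sqrt p.le, inv_mul_cancel₀ p.ne']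
  have e2 : exp (t ^ 2 * v) ≤ 3 :=
    (exp_le_exp.2 (by nlinarith [sq_nonneg t])).trans (exp_one_lt_d9.le.trans (by norm_num))
  have h1 := (H t).trans e2
  have h2 := H (-t)
  rw [neg_sq] at h2
  have h3 := node_mono hw (hY.eg.pow 2)
    ((((hY.exp t).add (hY.exp (-t))).sub (Eg.const 2)).const_mul (v + ε / 4)) (fun z => by
      have h4 := sq_le_cosh (t * Y z)
      have e3 : Y z ^ 2 = (v + ε / 4) * (t * Y z) ^ 2 := by
        rw [mul_pow, ← mul_assoc, mul_comm (v + _), e1, one_mul]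
      rw [e3, neg_mul]
      exact mul_le_mul_of_nonneg_left h4 p.le) L j h
  rw [node_const_mul, node_sub hw ((hY.exp t).add (hY.exp (-t))) (Eg.const 2),
    node_add hw (hY.exp t) (hY.exp (-t)), node_const hw] at h3
  nlinarith [h2.trans e2]

/-! ### the root tilt -/

/-- `E_a Φ₀` -/
def EE (w : Ω → ℝ) (l : Lv Ω) (M : List (Lv Ω)) (h : Ω → ℝ) (a : ℝ) : ℝ :=
  tE (rt l a) (X w M) (X w M) h

theorem EE_eq (l : Lv Ω) (M : List (Lv Ω)) (h : Ω → ℝ) (a : ℝ) :
    EE w l M h a = node w (rt l a :: M) 1 (X w ((rt l a :: M).drop 1)) h := by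
  rw [node_cons, node_zero]; rfl

/-- `(a V)' = E_a Φ₀` -/
theorem der_aV (hw : Wt w) (l : Lv Ω) (M : List (Lv Ω)) (h : Ω → ℝ) (a : ℝ) :
    HasDerivAt (fun a => a * X w (rt l a :: M) h) (EE w l M h a) a := by
  have hX := lg_X hw M
  have e : (fun a => a * X w (rt l a :: M) h) =
      fun a => log (∫ g, exp (a * X w M (h + l.fld g)) * 1 ∂gv l.ι) := by
    funext a
    simp only [mul_one]
    exact (log_exp _).symm.trans (congrArg log (Pe.exp_X_cons hw (rt l a) M h))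
  rw [e]
  have hZ : (∫ g, exp (a * X w M (h + l.fld g)) ∂gv l.ι) ≠ 0 := (hX.Z_pos (rt l a) h).ne'
  have := (Trf.der_num hX (Eg.const 1) l h a).log (by simpa using hZ)
  simp only [mul_one] at this ⊢
  exact this

theorem der_EE (hw : Wt w) (l : Lv Ω) (M : List (Lv Ω)) (h : Ω → ℝ) (a : ℝ) :
    HasDerivAt (EE w l M h) (cT (rt l a) (X w M) (X w M) (X w M) h) a :=
  Trf.der_tE (lg_X hw M) (lg_X hw M).eg l h a

theorem cT_nonneg (hw : Wt w) (l : Lv Ω) (M : List (Lv Ω)) (h : Ω → ℝ) :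
    0 ≤ cT l (X w M) (X w M) (X w M) h :=
  sub_nonneg.2 (Hess87.sq_tE_le (lg_X hw M) (lg_X hw M).eg l h)

/-- `Var_a Φ₀ ≤ 4 v` -/
theorem var_root (hw : Wt w) {l : Lv Ω} {M : List (Lv Ω)} (hL : Mono 0 (l :: M)) {h : Ω → ℝ}
    {T : Set (Equiv.Perm Ω)} {x₀ : Ω} (hT : ∀ τ ∈ T, Sym w (l :: M) h τ)
    (htr : ∀ x, w x ≠ 0 → ∃ τ ∈ T, τ x₀ = x) {v : ℝ} (hv : ∀ x, l.cov x x ≤ v) :
    cT l (X w M) (X w M) (X w M) h ≤ 4 * v := by
  have hX := lg_X hw M
  have hv' : ∀ x, cacc (l :: M) 1 x x ≤ v := fun x => by simpa [cacc] using hv x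
  have h1 := var_node hw (l :: M) 1 h (Pe.lg_sub hX (Pe.lg_const (node w (l :: M) 1 (X w M) h)))
    ((cacc_nonneg _ 1 x₀).trans (hv' x₀)) (conc_node hw hL hT htr 1 (C.lp_X hw M)
      (fun τ hτ z => by
        have := (symStmt Ω w hw (l :: M) h τ (hT τ hτ)).1 1 fun y => z (τ.symm y)
        simpa using this.symm) hv')
  simp only [node_cons, node_zero] at h1
  refine le_of_eq_of_le ?_ h1
  set c := tE l (X w M) (X w M) h with hc
  have e : (fun z => (X w M z - c) ^ 2) = fun z => X w M z * X w M z - 2 * c * X w M z + c ^ 2 := by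
    funext z; ring
  rw [e, tE_add hX ((hX.eg.mul hX.eg).sub (hX.eg.const_mul _)) (Eg.const _),
    tE_sub hX (hX.eg.mul hX.eg) (hX.eg.const_mul _), tE_const_mul, tE_const hX, cT, ← hc]
  ring

omit [Fintype Ω] in
theorem sym_rt {l : Lv Ω} {M : List (Lv Ω)} {h : Ω → ℝ} {τ : Equiv.Perm Ω}
    (H : Sym w (l :: M) h τ) (a : ℝ) : Sym w (rt l a :: M) h τ :=
  ⟨H.w, H.h, fun k hk => by
    rcases List.mem_cons.1 hk with rfl | hk
    · exact H.cov l List.mem_cons_self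
    · exact H.cov k (List.mem_cons_of_mem _ hk)⟩

omit [Fintype Ω] in
theorem mono_rt {M : List (Lv Ω)} {a₁ a : ℝ} (hM : Mono a₁ M) (l : Lv Ω) (h0 : 0 ≤ a)
    (h1 : a ≤ a₁) : Mono 0 (rt l a :: M) := by
  refine ⟨h0, ?_⟩
  cases M with
  | nil => exact h1.trans hM
  | cons k M => exact ⟨h1.trans hM.1, hM.2⟩

/-- `E_a Φ₀` is nondecreasing and `4 v`-Lipschitz on `[0, a₁]` -/
theorem lip_EE (hw : Wt w) {l : Lv Ω} {M : List (Lv Ω)} {a₁ : ℝ} (hM : Mono a₁ M) {h : Ω → ℝ}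
    {T : Set (Equiv.Perm Ω)} {x₀ : Ω} (hT : ∀ τ ∈ T, Sym w (l :: M) h τ)
    (htr : ∀ x, w x ≠ 0 → ∃ τ ∈ T, τ x₀ = x) {v : ℝ} (hv : ∀ x, l.cov x x ≤ v) {a a' : ℝ}
    (h0 : 0 ≤ a') (h1 : a' ≤ a) (h2 : a ≤ a₁) :
    0 ≤ EE w l M h a - EE w l M h a' ∧ EE w l M h a - EE w l M h a' ≤ 4 * v * (a - a') := by
  rcases h1.eq_or_lt with rfl | h1
  · simp
  obtain ⟨s, hs, e⟩ := exists_hasDerivAt_eq_slope (EE w l M h) _ h1
    (fun s _ => (der_EE hw l M h s).continuousAt.continuousWithinAt) fun s _ => der_EE hw l M h s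
  rw [eq_div_iff (sub_pos.2 h1).ne'] at e
  rw [← e]
  exact ⟨mul_nonneg (cT_nonneg hw _ M h) (sub_pos.2 h1).le, mul_le_mul_of_nonneg_right
    (var_root hw (mono_rt hM l (h0.trans hs.1.le) (hs.2.le.trans h2))
      (fun τ hτ => sym_rt (hT τ hτ) s) htr hv) (sub_pos.2 h1).le⟩

/-! ### crude bounds on the value -/

theorem step_zero_fun (l : Lv Ω) (h : Ω → ℝ) : step l (fun _ => 0) h = 0 := by simp [step]

theorem tE_zero_fun (l : Lv Ω) (Φ : (Ω → ℝ) → ℝ) (h : Ω → ℝ) :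
    tE l (fun _ => 0) Φ h = ∫ g, Φ (h + l.fld g) ∂gv l.ι := by simp [tE]

theorem mean_le_step {F : (Ω → ℝ) → ℝ} (hF : Lg F) {l : Lv Ω} (hm : 0 ≤ l.m) (h : Ω → ℝ) :
    ∫ g, F (h + l.fld g) ∂gv l.ι ≤ step l F h := by
  simpa [step_zero_fun, tE_zero_fun] using step_ge (Pe.lg_const 0) hF hm h

theorem step_le_tE {F : (Ω → ℝ) → ℝ} (hF : Lg F) {l : Lv Ω} (hm : 0 ≤ l.m) (h : Ω → ℝ) :
    step l F h ≤ tE l F F h := by
  have := step_ge hF (Pe.lg_const 0) hm h
  simp only [step_zero_fun, zero_sub, tE_neg] at this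
  linarith

theorem step_le_one {F : (Ω → ℝ) → ℝ} (hF : Lg F) {l : Lv Ω} (hm : 0 ≤ l.m) (h1 : l.m ≤ 1)
    (h : Ω → ℝ) : step l F h ≤ step (rt l 1) F h := by
  rcases hm.eq_or_lt with hm | hm
  · rw [C.step_zero hm.symm]
    exact mean_le_step hF (l := rt l 1) zero_le_one h
  · have := Hess87.boost_step (Pe.lg_const 0) hF (rt l 1) h hm h1
    simp only [step_zero_fun, tE_zero_fun, sub_zero] at this
    rw [C.step_ne hm.ne', inv_mul_le_iff₀ hm, log_le_iff_le_exp (hF.Z_pos l h)]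
    exact this

theorem nil_le_X (hw : Wt w) : ∀ (L : List (Lv Ω)), (∀ l ∈ L, 0 ≤ l.m) → ∀ h, X w [] h ≤ X w L h
  | [], _, _ => le_rfl
  | l :: L, hL, h => by
    have hm := hL l List.mem_cons_self
    refine le_trans ?_ (step_mono (lg_X hw []) (lg_X hw L) hm
      (nil_le_X hw L fun k hk => hL k (List.mem_cons_of_mem _ hk)) h)
    refine le_trans ?_ (mean_le_step (lg_X hw []) hm h)
    have i : ∀ i, Integrable (fun g : l.ι → ℝ => g i) (gv l.ι) := fun i => Pe.eg_int (Eg.coord i)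
    have i0 : ∀ i, ∫ g : l.ι → ℝ, g i ∂gv l.ι = 0 := fun i => by
      rw [integral_eval (μ := fun _ => ProbabilityTheory.gaussianReal 0 1)]
      simp
    have i1 : ∀ x, Integrable (fun g => P w [] h x * l.fld g x) (gv l.ι) := fun x =>
      (integrable_finsetSum _ fun j _ => (i j).const_mul _).const_mul _
    have h1 := integral_mono ((integrable_const (X w [] h)).add (integrable_finsetSum _ fun x _ =>
      i1 x)) ((lg_X hw []).eg.int l h) fun g => X_add_ge hw [] (by simp) h (l.fld g)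
    rw [integral_add' (integrable_const _) (integrable_finsetSum _ fun x _ => i1 x),
      integral_finsetSum _ fun x _ => i1 x] at h1
    have e : ∀ x, ∫ g, P w [] h x * l.fld g x ∂gv l.ι = 0 := fun x => by
      simp only [Lv.fld]
      rw [integral_const_mul, integral_finsetSum _ fun j _ => (i j).const_mul _]
      simp [integral_const_mul, i0]
    simpa [e] using h1

theorem X_le_ann (hw : Wt w) : ∀ (L : List (Lv Ω)), (∀ l ∈ L, 0 ≤ l.m ∧ l.m ≤ 1) → ∀ h,
    X w L h ≤ X w [] (h + fun x => cacc L L.length x x / 2)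
  | [], _, h => by simp [cacc, show (fun _ : Ω => (0 : ℝ)) = 0 from rfl]
  | l :: L, hL, h => by
    have hm := hL l List.mem_cons_self
    set f : Ω → ℝ := fun x => cacc L L.length x x / 2 with hf
    have h1 := step_mono (l := l) (lg_X hw L) ((lg_X hw []).shift f) hm.1
      (X_le_ann hw L fun k hk => hL k (List.mem_cons_of_mem _ hk)) h
    have h2 := step_le_one ((lg_X hw []).shift f) hm.1 hm.2 h
    have h3 : step (rt l 1) (fun z => X w [] (z + f)) h = X w [rt l 1] (h + f) := by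
      simp only [X, step, add_right_comm h f]
    rw [h3, C.X_annealed hw rfl] at h2
    refine (h1.trans h2).trans (le_of_eq ?_)
    congr 1
    funext x
    simp only [hf, List.length_cons, Gir68.cacc_cons, Pi.add_apply, Lv.cov]
    ring

theorem X_le_ann' (hw : Wt w) {L : List (Lv Ω)} (hL : ∀ l ∈ L, 0 ≤ l.m ∧ l.m ≤ 1) {c : ℝ}
    (hc : ∀ x, cacc L L.length x x ≤ c) (h : Ω → ℝ) : X w L h ≤ X w [] h + c / 2 :=
  (X_le_ann hw L hL h).trans (C.X_le hw hw (fun x => mul_le_mul_of_nonneg_left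
    (exp_le_exp.2 (by linarith [hc x])) (hw.nn x)) [] h)

omit [Fintype Ω] in
theorem mono_mem : ∀ {L : List (Lv Ω)} {m0 : ℝ}, Mono m0 L → ∀ l ∈ L, m0 ≤ l.m ∧ l.m ≤ 1
  | [], _, _, _, h => by simp at h
  | k :: L, _, hL, l, h => by
    rcases List.mem_cons.1 h with rfl | h
    · exact ⟨hL.1, Hess87.mono_le_one hL.2⟩
    · exact ⟨hL.1.trans (mono_mem hL.2 l h).1, (mono_mem hL.2 l h).2⟩

/-- `X w [] h ≤ E_a Φ₀ ≤ X w [] h + c / 2 + 4 v a` -/
theorem bd_EE (hw : Wt w) {l : Lv Ω} {M : List (Lv Ω)} {a₁ : ℝ} (hM : Mono a₁ M) {h : Ω → ℝ}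
    {T : Set (Equiv.Perm Ω)} {x₀ : Ω} (hT : ∀ τ ∈ T, Sym w (l :: M) h τ)
    (htr : ∀ x, w x ≠ 0 → ∃ τ ∈ T, τ x₀ = x) {v c : ℝ} (hv : ∀ x, l.cov x x ≤ v)
    (hc : ∀ x, cacc (l :: M) (M.length + 1) x x ≤ c) {a : ℝ} (h0 : 0 ≤ a) (h2 : a ≤ a₁) :
    X w [] h ≤ EE w l M h a ∧ EE w l M h a ≤ X w [] h + c / 2 + 4 * v * a := by
  refine ⟨(nil_le_X hw _ (fun k hk => (mono_mem (mono_rt hM l h0 h2) k hk).1) h).trans
    (step_le_tE (lg_X hw M) (l := rt l a) h0 h), ?_⟩
  have h1 := (lip_EE hw hM hT htr hv le_rfl h0 h2).2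
  have h3 := X_le_ann' hw (mono_mem (mono_rt hM l le_rfl (h0.trans h2))) (c := c)
    (fun x => by simpa [Gir68.cacc_cons, Lv.cov] using hc x) h
  have e : EE w l M h 0 = X w (rt l 0 :: M) h := by simp [EE, tE, X, step]
  linarith

/-! ### Euler identity for kernels `α R² + φ R` -/

/-- the levels have covariance `α_j R² + φ_j R` -/
def QL (L : List (Lv Ω)) (R : Ω → Ω → ℝ) (α φ : ℕ → ℝ) : Prop :=
  ∀ j (hj : j < L.length) x y, L[j].cov x y = α j * R x y ^ 2 + φ j * R x y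

omit [Fintype Ω] in
theorem QL.cacc {L : List (Lv Ω)} {R : Ω → Ω → ℝ} {α φ : ℕ → ℝ} (H : QL L R α φ) :
    ∀ j ≤ L.length, ∀ x y, cacc L j x y =
      (∑ k ∈ Finset.range j, α k) * R x y ^ 2 + (∑ k ∈ Finset.range j, φ k) * R x y
  | 0, _, x, y => by simp [Cas.cacc]
  | j + 1, hj, x, y => by
    have ih := H.cacc j (by omega) x y
    simp only [Cas.cacc] at ih ⊢
    rw [List.take_add_one, List.map_append, List.sum_append, ih, List.getElem?_eq_getElem hj,
      Finset.sum_range_succ, Finset.sum_range_succ]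
    simp only [Option.toList_some, List.map_cons, List.map_nil, List.sum_cons, List.sum_nil,
      H j hj x y]
    ring

/-- `∫₀¹ E K` for two replicas split inside level `j` -/
def ins (w : Ω → ℝ) (L : List (Lv Ω)) (j : ℕ) (K : Ω → Ω → ℝ) (h : Ω → ℝ) : ℝ := match L[j]? with
  | none => 0
  | some l => ∫ ρ in (0 : ℝ)..1, pi2 w (Gir68.spl L j l ρ) (j + 1) K h

theorem int_spl (hw : Wt w) (L : List (Lv Ω)) (j : ℕ) (l : Lv Ω)
    (K : Ω → Ω → ℝ) (h : Ω → ℝ) :
    IntervalIntegrable (fun ρ => pi2 w (Gir68.spl L j l ρ) (j + 1) K h) volume 0 1 := by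
  have := mov_cont_pi2 hw (L := (L.take j).map ML.cst ++ ML.aff l 0 1 l.m :: ML.aff l 1 (-1) l.m ::
    (L.drop (j + 1)).map ML.cst) (isCompact_Icc (a := 0) (b := 1)) (fun p hp => by
      simp only [List.mem_append, List.mem_cons, List.mem_map] at hp
      rcases hp with ⟨k, -, rfl⟩ | rfl | rfl | ⟨k, -, rfl⟩
      · exact continuousOn_const
      · show ContinuousOn (fun t : ℝ => 0 + 1 * t) _
        fun_prop
      · show ContinuousOn (fun t : ℝ => 1 + -1 * t) _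
        fun_prop
      · exact continuousOn_const) (j + 1) K h
  refine ContinuousOn.intervalIntegrable_of_Icc zero_le_one ?_
  simpa only [mat_append, mat_cons, mat_cst, ML.aff_at, zero_add, one_mul, neg_one_mul,
    ← sub_eq_add_neg, Gir68.spl] using this

theorem jm_QL (hw : Wt w) {L : List (Lv Ω)} {R : Ω → Ω → ℝ} {α φ : ℕ → ℝ} (H : QL L R α φ) {j : ℕ}
    (hj : j < L.length) (h : Ω → ℝ) : Gir68.jm w L j h =
      ex L j / 2 * (α j * ins w L j (fun x y => R x y ^ 2) h + φ j * ins w L j R h) := by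
  simp only [Gir68.jm, ins, T157.Casc.ex, List.getElem?_eq_getElem hj]
  rw [show L[j].cov = fun x y => α j * R x y ^ 2 + φ j * R x y from
    funext fun x => funext fun y => H j hj x y]
  simp only [pi2_add hw, pi2_const_mul]
  rw [intervalIntegral.integral_add ((int_spl hw L j _ _ h).const_mul _)
    ((int_spl hw L j _ _ h).const_mul _), intervalIntegral.integral_const_mul,
    intervalIntegral.integral_const_mul]

/-- **Euler identity** (60 (1)): `A_j = ∑_{k<j} α_k`, `B_j = ∑_{k<j} φ_k` -/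
theorem euler_QL (hw : Wt w) {L : List (Lv Ω)} {R : Ω → Ω → ℝ} (hR : ∀ x, R x x = 1)
    {α φ : ℕ → ℝ} (H : QL L R α φ) (h : Ω → ℝ) {i : ℕ} (hi : i ≤ L.length) :
    node w L i (X w (L.drop i)) h = Pf w L h h +
      (∑ k ∈ Finset.range L.length, α k + ∑ k ∈ Finset.range L.length, φ k) -
      ∑ j ∈ Finset.range (L.length + 1), dm L 0 j *
        ((∑ k ∈ Finset.range j, α k) * pi2 w L j (fun x y => R x y ^ 2) h +
          (∑ k ∈ Finset.range j, φ k) * pi2 w L j R h) +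
      node w L L.length (Gir68.Sn w) h -
      ∑ j ∈ Finset.Ico i L.length,
        ex L j / 2 * (α j * ins w L j (fun x y => R x y ^ 2) h + φ j * ins w L j R h) := by
  rw [Gir68.euler hw L 0 h hi, pair_eq_sum hw,
    Finset.sum_congr rfl fun j hj => jm_QL hw H (Finset.mem_Ico.1 hj).2 h]
  congr 3
  · simp only [Pf, H.cacc _ le_rfl, hR, one_pow, mul_one, mul_add, Finset.sum_add_distrib,
      ← Finset.sum_mul, sum_P hw, one_mul]
  · refine Finset.sum_congr rfl fun j hj => ?_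
    rw [show cacc L j = fun x y => _ from funext fun x => funext fun y =>
      H.cacc j (Nat.lt_succ_iff.1 (Finset.mem_range.1 hj)) x y, pi2_add hw, pi2_const_mul,
      pi2_const_mul]

/-! ### the hypotheses `der`, `bd`, `lip` of `Fin26.Flow` on the cube -/

theorem X_nil_cube (n : ℕ) : X (fun _ : Cube n => (1 : ℝ)) [] 0 = n * log 2 := by
  simp [X, Cube]

theorem wt_one (n : ℕ) : Wt fun _ : Cube n => (1 : ℝ) :=
  ⟨fun _ => zero_le_one, by simp⟩

theorem flow_cube {n : ℕ} {l : Lv (Cube n)} {M : List (Lv (Cube n))} {a₁ : ℝ} (hM : Mono a₁ M)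
    (hO : ∀ k ∈ l :: M, OvLv k) {v c : ℝ} (hv : ∀ x, l.cov x x ≤ v)
    (hc : ∀ x, cacc (l :: M) (M.length + 1) x x ≤ c) {a : ℝ} (h0 : 0 ≤ a) (h2 : a ≤ a₁) :
    HasDerivAt (fun a => a * X (fun _ => 1) (rt l a :: M) 0) (EE (fun _ => 1) l M 0 a) a ∧
    |EE (fun _ => 1) l M 0 a| ≤ n + c / 2 + 4 * v * a ∧
    ∀ a', 0 ≤ a' → a' ≤ a →
      |EE (fun _ => 1) l M 0 a - EE (fun _ => 1) l M 0 a'| ≤ 4 * v * (a - a') := by
  have hT := sym_act₀ hO
  have htr : ∀ x : Cube n, (1 : ℝ) ≠ 0 → ∃ τ ∈ TS n, τ (fun _ => true) = x :=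
    fun x _ => TS_trans _ x
  refine ⟨der_aV (wt_one n) l M 0 a, ?_, fun a' h3 h4 => ?_⟩
  · obtain ⟨h5, h6⟩ := bd_EE (wt_one n) hM hT htr hv hc h0 h2
    rw [X_nil_cube] at h5 h6
    have p1 : 0 ≤ log 2 := log_nonneg one_le_two
    have p2 : log 2 ≤ 1 := by linarith [log_two_lt_d9]
    have p3 : (0 : ℝ) ≤ n := Nat.cast_nonneg n
    rw [abs_of_nonneg ((mul_nonneg p3 p1).trans h5)]
    nlinarith
  · obtain ⟨h5, h6⟩ := lip_EE (wt_one n) hM hT htr hv h3 h4 h2
    rwa [abs_of_nonneg h5]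

end Crest.Agent.T156.Cas.Eul43

end
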