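import Crest.Agent.T156.FamDer_77
import Crest.Agent.T156.GrDef_62

/-!
# Row 156, ALT route: `d/dt V` along `famO` for a `C¹` displacement (helper77)
-/

set_option autoImplicit false
set_option linter.unusedSectionVars false

noncomputable section

namespace Crest.Agent.T156.Alt.Md77

open MeasureTheory Real Set Filter Topology
open Crest.Agent.T156.Cas.D28 (C1)

/-- a `C¹` family of displacements `om t` and of defects `eps t` on the open set `I` -/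
structure OP (p : Pm) (I : Set ℝ) (om om' : ℝ → ℕ → ℝ) (eps : ℝ → ℝ) (Y : ℝ) : Prop where
  op : IsOpen I
  v0 : 0 < p.v
  lab : Pr.Lab p.z p.J
  hY : Y ≤ p.J * p.v
  hom : ∀ t ∈ I, Pr.Om p.v Y (1 / 2) (om t)
  der : ∀ t ∈ I, ∀ j, HasDerivAt (fun t => om t j) (om' t j) t
  cont : ∀ j, ContinuousOn (fun t => om' t j) I
  ce : C1 I eps

/-- reference node of the profile node `k` (static plateau) -/
def nu (p : Pm) (P : Pl) (k : ℕ) : ℕ := if k ≤ p.J then k else p.J + (k - p.Jp P)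

/-- the reference list and the W variance -/
abbrev lo (p : Pm) (om : ℕ → ℝ) : List (ℝ × ℝ) := Pr.lo p.z p.v om (p.J + p.Nr)
abbrev bo (p : Pm) (om : ℝ → ℕ → ℝ) (eps : ℝ → ℝ) (t : ℝ) : ℝ := Pr.bb (lo p (om t)) (eps t)

/-- velocity of the displacement at the profile node `k` -/
def dom (p : Pm) (om' : ℝ → ℕ → ℝ) (t : ℝ) (k : ℕ) : ℝ := if k ≤ p.J then om' t k else 0

/-- `b' q + H' = - om' - b q'` -/
def ph (p : Pm) (P : Pl) (om om' : ℝ → ℕ → ℝ) (eps : ℝ → ℝ) (t : ℝ) (k : ℕ) : ℝ :=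
  -dom p om' t k - bo p om eps t * deriv (fun t => p.qO P (om t) k) t

/-- `H'` -/
def dH (p : Pm) (P : Pl) (om om' : ℝ → ℕ → ℝ) (eps : ℝ → ℝ) (t : ℝ) (k : ℕ) : ℝ :=
  if k ≤ p.jf then 0 else ph p P om om' eps t k - deriv (bo p om eps) t * p.qO P (om t) k

theorem nu_le (p : Pm) (P : Pl) {k : ℕ} (hk : k ≤ p.NP P) : nu p P k ≤ p.J + p.Nr := by
  unfold nu Pm.NP Pm.Jp at *
  split_ifs <;> omega

namespace OP

variable {p : Pm} {I : Set ℝ} {om om' : ℝ → ℕ → ℝ} {eps : ℝ → ℝ} {Y : ℝ} {P : Pl} {t : ℝ}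
  (h : OP p I om om' eps Y)
include h

theorem np : Pr.NP I (fun t => Pr.sig p.v (om t)) fun t j => -om' t j :=
  ⟨h.op, fun t ht j => (h.der t ht j).const_sub _, fun j => (h.cont j).neg,
    fun t ht => (h.hom t ht).sig0, fun t ht => (h.hom t ht).sm h.v0 le_rfl⟩

theorem labN : Pr.Lab p.z (p.J + p.Nr) := h.lab.up (Nat.le_add_right _ _)

theorem c1_b : C1 I (bo p om eps) := h.np.c1_bb h.labN h.ce

theorem hi {j : ℕ} (hj : p.J ≤ j) : Y ≤ j * p.v :=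
  h.hY.trans (mul_le_mul_of_nonneg_right (by exact_mod_cast hj) h.v0.le)

theorem om'_hi (ht : t ∈ I) {j : ℕ} (hj : p.J ≤ j) : om' t j = 0 :=
  (h.der t ht j).unique ((hasDerivAt_const t (0 : ℝ)).congr_of_eventuallyEq (by
    filter_upwards [h.op.mem_nhds ht] with u hu using (h.hom u hu).supp j (h.hi hj)))

theorem dom_eq (ht : t ∈ I) (P : Pl) (k : ℕ) : dom p om' t k = om' t (nu p P k) := by
  unfold dom nu
  split_ifs
  · rfl
  · exact (h.om'_hi ht (Nat.le_add_right _ _)).symm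

theorem sO_eq (hg : P.γ = 0) (ht : t ∈ I) (k : ℕ) :
    p.sO P (om t) k = Pr.sig p.v (om t) (nu p P k) := by
  unfold Pm.sO nu
  split_ifs
  · rfl
  · rw [(h.hom t ht).sig_eq (h.hi (Nat.le_add_right _ _)), hg]
    push_cast
    ring

theorem qO_eq (hg : P.γ = 0) (ht : t ∈ I) (k : ℕ) : p.qO P (om t) k =
    qr p.z (p.J + p.Nr) (fun t => Pr.sig p.v (om t)) (nu p P k) t := by
  rw [Pm.qO, Pm.lO, if_pos hg, h.sO_eq hg ht]
  rfl

theorem dq_eq (hg : P.γ = 0) (ht : t ∈ I) (k : ℕ) : deriv (fun t => p.qO P (om t) k) t =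
    deriv (qr p.z (p.J + p.Nr) (fun t => Pr.sig p.v (om t)) (nu p P k)) t :=
  EventuallyEq.deriv_eq (by
    filter_upwards [h.op.mem_nhds ht] with u hu using h.qO_eq hg hu k)

theorem c1_q (hg : P.γ = 0) {k : ℕ} (hk : k ≤ p.NP P) : C1 I fun t => p.qO P (om t) k :=
  (h.np.c1_Gam p.z (nu_le p P hk)).congr h.op fun _ ht => h.qO_eq hg ht k

theorem dH_eq (hg : P.γ = 0) (ht : t ∈ I) : dH p P om om' eps t =
    hr p.z (p.J + p.Nr) p.jf (nu p P) (fun t => Pr.sig p.v (om t)) (fun t j => -om' t j)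
      (bo p om eps) t := by
  funext k
  rw [dH, hr, ph, h.dom_eq ht P, h.dq_eq hg ht, h.qO_eq hg ht]
  split_ifs
  · rfl
  · ring

/-- **the family is a path** (`M t` any models with the data of `famO P (om t) jf (b t) 0 g`) -/
theorem path (hg : P.γ = 0) {t0 t1 : ℝ} (hI : Icc t0 t1 ⊆ I) {M : ℝ → Md} {g : ℕ → ℝ}
    (hg0 : ∀ k ≤ p.jf, g k = 0) (hN : ∀ t, (M t).N = p.NP P) (hz : ∀ t, (M t).z = (M t0).z)
    (hd : ∀ t k, (M t).d k = bo p om eps t)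
    (hH : ∀ t k, (M t).H k = p.HO P (om t) (bo p om eps t) k + g k)
    (inc : ∀ t ∈ Ioo t0 t1, Inc (M t)) :
    Path M (fun t _ => deriv (bo p om eps) t) (dH p P om om' eps) t0 t1 := by
  have := path_ref (z₀ := p.z) (N₀ := p.J + p.Nr) (j := p.jf) (ν := nu p P)
    (g := fun k => P.hs (p.xP P k) + g k) (M := M) h.np h.c1_b hI (fun t => by rw [hN, hN]) hz
    (fun k hk => nu_le p P (hN t0 ▸ hk)) (fun t _ k _ => hd t k) (fun t ht k _ => by
      rw [hH, Pm.HO, h.sO_eq hg ht, h.qO_eq hg ht]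
      split_ifs with a
      · rw [hg0 k a, add_zero]
      · ring) inc
  exact ⟨this.hN, this.hz, this.cd, this.cH, this.hd, fun t ht => by
    rw [h.dH_eq hg (hI (Ioo_subset_Icc_self ht))]
    exact this.hH t ht, fun t => if_pos p.jf.zero_le, inc⟩

theorem path_famO (hg : P.γ = 0) {t0 t1 : ℝ} (hI : Icc t0 t1 ⊆ I) {g : ℕ → ℝ}
    (hg0 : ∀ k ≤ p.jf, g k = 0)
    (inc : ∀ t ∈ Ioo t0 t1, Inc (p.famO P (om t) p.jf (bo p om eps t) 0 g)) :
    Path (fun t => p.famO P (om t) p.jf (bo p om eps t) 0 g) (fun t _ => deriv (bo p om eps) t)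
      (dH p P om om' eps) t0 t1 :=
  h.path hg hI hg0 (fun _ => rfl) (fun _ => rfl) (fun t k => by simp [Pm.famO])
    (fun t k => by simp [Pm.famO]) inc

/-- **the derivative around the reference** -/
theorem DV_sub (hg : P.γ = 0) (ht : t ∈ I) (M : Md) (m : ℕ) (a a' : ℝ)
    (hj : ∀ k, 1 ≤ k → k ≤ p.jf → M.dz m a k = 0) :
    DV M m a' (fun _ => deriv (bo p om eps) t) (dH p P om om' eps t) -
      DV M m a (fun _ => deriv (bo p om eps) t) (dH p P om om' eps t) =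
      -(m * (deriv (bo p om eps) t / 4 *
      (M.dz m a' 0 * M.E2 m a' (fun r => r ^ 2) 0 - M.dz m a 0 * M.E2 m a (fun r => r ^ 2) 0) +
      ∑ k ∈ Finset.Ioc p.jf M.N, M.dz m a k * (deriv (bo p om eps) t / 4 *
        (M.E2 m a' (fun r => (r - p.qO P (om t) k) ^ 2) k -
          M.E2 m a (fun r => (r - p.qO P (om t) k) ^ 2) k) +
        ph p P om om' eps t k / 2 * (M.rb m a' k - M.rb m a k)))) := by
  rw [h.dH_eq hg ht, DV_ref_sub M m a a' t hj]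
  simp only [ph, h.dom_eq ht P, h.dq_eq hg ht, h.qO_eq hg ht]

theorem tp (ht : t ∈ I) : Ker.Tp (p.J * p.v) (lo p (om t)) :=
  (Ker.lo_same h.lab le_rfl (Nat.le_add_right _ _) (h.hom t ht) h.v0 le_rfl h.hY).2.1

end OP

theorem Dw_neg (z : ℕ → ℝ) (N : ℕ) (c σ : ℕ → ℝ) : Pr.Dw z N c (fun j => -σ j) = Pr.Dw z N c σ := by
  simp only [Pr.Dw, abs_neg]

/-- **sizes of `b'` and of `φ`**: `φ_k = - e_k om'_k + O (Loff)` -/
theorem ph_bd (T : ℝ) : ∃ C : ℝ, 1 ≤ C ∧ ∀ (p : Pm) (I : Set ℝ) (om om' : ℝ → ℕ → ℝ) (eps : ℝ → ℝ)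
    (Y : ℝ), OP p I om om' eps Y → p.J * p.v ≤ T → ∀ t ∈ I, 0 ≤ eps t → eps t ≤ 1 / 4 →
    (3 / 4 ≤ bo p om eps t ∧ bo p om eps t ≤ C ∧
      |deriv (bo p om eps) t| ≤ C * (Pr.Dw p.z (p.J + p.Nr) 1 (om' t) + |deriv eps t|)) ∧
    ∀ P : Pl, P.γ = 0 → ∀ k ≤ p.NP P,
      |ph p P om om' eps t k + Pr.ee (lo p (om t)) (eps t) (p.sO P (om t) k) * dom p om' t k| ≤
        C * Pr.Dw p.z (p.J + p.Nr) (fun j => min (Pr.sig p.v (om t) j) (p.sO P (om t) k)) (om' t) := by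
  obtain ⟨C, c1, hC⟩ := Pr.node_der T
  obtain ⟨D, d1, hD⟩ := Pr.ee_der T
  refine ⟨D * C, one_le_mul_of_one_le_of_one_le d1 c1, fun p I om om' eps Y h hT t ht e0 e1 => ?_⟩
  obtain ⟨⟨b1, b2, b3⟩, -⟩ := hD I _ _ p.z _ _ eps h.np h.labN (fun _ => h.tp) hT h.ce t ht e0 e1
  rw [Dw_neg] at b3
  have hDC : D ≤ D * C := le_mul_of_one_le_right (by linarith) c1
  refine ⟨⟨b1, b2.trans hDC, b3.trans (mul_le_mul_of_nonneg_right hDC ?_)⟩, fun P hg k hk => ?_⟩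
  · exact (mul_nonneg_iff_of_pos_left (by linarith : 0 < D)).1 ((abs_nonneg _).trans b3)
  · have := (hC I _ _ p.z _ _ h.np h.labN (fun _ => h.tp) hT t ht _ (nu_le p P hk)).1
    rw [Dw_neg] at this
    rw [ph, h.dom_eq ht P, h.dq_eq hg ht, h.sO_eq hg ht, Pr.ee]
    have e : ∀ o b q G : ℝ, -o - b * q + (1 - b * G) * o = -(b * (q - G * -o)) := fun _ _ _ _ => by
      ring
    rw [e, abs_neg, abs_mul, abs_of_nonneg (le_trans (by norm_num) b1 : 0 ≤ bo p om eps t), mul_assoc]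
    exact mul_le_mul b2 this (abs_nonneg _) (by linarith)

/-! ### the graded path -/

theorem hasDerivAt_pos_sq (u : ℝ) : HasDerivAt (fun u : ℝ => max 0 u ^ 2) (2 * max 0 u) u := by
  rcases lt_trichotomy u 0 with h | rfl | h
  · rw [max_eq_left h.le, mul_zero]
    exact (hasDerivAt_const u (0 : ℝ)).congr_of_eventuallyEq (by
      filter_upwards [Iio_mem_nhds h] with v hv
      rw [max_eq_left (le_of_lt hv)]
      ring)
  · rw [max_self, mul_zero, hasDerivAt_iff_isLittleO]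
    have h2 : (fun u' : ℝ => (u' - 0) ^ 2) =o[𝓝 0] fun u' => u' - 0 := by
      simpa using Asymptotics.isLittleO_pow_sub_sub (0 : ℝ) (m := 2) (by norm_num)
    refine (Asymptotics.IsBigO.of_bound' (Eventually.of_forall fun v => ?_)).trans_isLittleO h2
    simp only [max_self, smul_zero, sub_zero, Real.norm_eq_abs, abs_pow, sq_abs, ne_eq,
      OfNat.ofNat_ne_zero, not_false_eq_true, zero_pow]
    rcases le_total v 0 with a | a
    · rw [max_eq_left a]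
      nlinarith [sq_nonneg v]
    · rw [max_eq_right a]
  · rw [max_eq_right h.le]
    refine HasDerivAt.congr_of_eventuallyEq (f := fun v : ℝ => v ^ 2)
      (by simpa using hasDerivAt_pow 2 u) ?_
    filter_upwards [Ioi_mem_nhds h] with v hv
    rw [max_eq_right (le_of_lt hv)]

/-- `∂_σ gS σ t = 2 (√t - σ)₊` -/
theorem hasDerivAt_gS (σ t : ℝ) : HasDerivAt (fun σ => gS σ t) (2 * max 0 (√t - σ)) σ := by
  have := ((hasDerivAt_pos_sq (√t - σ)).comp σ ((hasDerivAt_id' σ).const_sub √t)).const_sub t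
  exact this.congr_deriv (by ring)

theorem gS_le (σ t : ℝ) : gS σ t ≤ t := sub_le_self _ (sq_nonneg _)

theorem gS_nn {σ t : ℝ} (hσ : 0 ≤ σ) (ht : 0 ≤ t) : 0 ≤ gS σ t := by
  rcases le_total (√t) σ with h | h
  · rwa [gS_lo h]
  · rw [gS_hi ht h]
    nlinarith

theorem gS_inc {σ t t' : ℝ} (hσ : 0 ≤ σ) (ht : 0 ≤ t) (h : t ≤ t') :
    0 ≤ gS σ t' - gS σ t ∧ gS σ t' - gS σ t ≤ t' - t := by
  have a := sqrt_le_sqrt h
  have b := sq_sqrt ht
  have c := sq_sqrt (ht.trans h)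
  have d := sqrt_nonneg t
  rcases le_total (√t) σ with h1 | h1 <;> rcases le_total (√t') σ with h2 | h2
  · rw [gS_lo h1, gS_lo h2]
    constructor <;> linarith
  · rw [gS_lo h1, gS_hi (ht.trans h) h2]
    constructor <;> nlinarith [sq_nonneg (√t' - σ)]
  · rw [gS_hi ht h1, gS_lo h2]
    constructor <;> nlinarith
  · rw [gS_hi ht h1, gS_hi (ht.trans h) h2]
    constructor <;> nlinarith

theorem omG_Om (p : Pm) {σ : ℝ} (hv : 0 < p.v) (hκ : 0 ≤ p.κ) (hσ : 0 ≤ σ) (hy : 0 < p.ye) :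
    Pr.Om p.v (2 * p.ye) (4 * p.κ) (p.omG σ) := by
  have z : ∀ t, 2 * p.ye ≤ t → sm (t / p.ye - 1) = 1 := fun t h =>
    Rs13.sm_one (by rw [le_sub_iff_add_le, le_div_iff₀ hy]; linarith)
  refine ⟨by simp [Pm.omG, gS_lo (t := 0) (by simpa using hσ)], fun j => ?_, fun j h => ?_,
    fun j => ?_⟩
  · exact mul_nonneg (mul_nonneg hκ (gS_nn hσ (by positivity))) (sub_nonneg.2 (Rs13.sm_le _))
  · rw [Pm.omG, z _ h]
    ring
  · have t0 : 0 ≤ (j : ℝ) * p.v := by positivity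
    have e : ((j + 1 : ℕ) : ℝ) * p.v = j * p.v + p.v := by push_cast; ring
    rw [Pm.omG, Pm.omG, e, mul_assoc, mul_assoc, ← mul_sub, abs_mul, abs_of_nonneg hκ,
      show 4 * p.κ * p.v = p.κ * (4 * p.v) by ring]
    refine mul_le_mul_of_nonneg_left ?_ hκ
    generalize (j : ℝ) * p.v = t at t0
    rcases le_total (2 * p.ye) t with h | h
    · rw [z _ h, z _ (by linarith)]
      simpa using hv.le
    · obtain ⟨g1, g2⟩ := gS_inc hσ t0 (t' := t + p.v) (by linarith)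
      obtain ⟨s1, s2⟩ := Rs13.sm_sub (u := t / p.ye - 1) (u' := (t + p.v) / p.ye - 1)
        (by gcongr; linarith)
      have s3 : gS σ t * (sm ((t + p.v) / p.ye - 1) - sm (t / p.ye - 1)) ≤ 3 * p.v :=
        (mul_le_mul ((gS_le σ t).trans h) s2 s1 (by positivity)).trans (le_of_eq (by field_simp; ring))
      have s4 := mul_nonneg (gS_nn hσ t0) s1
      have s5 := mul_nonneg g1 (sub_nonneg.2 (Rs13.sm_le ((t + p.v) / p.ye - 1)))
      have s6 := mul_nonneg g1 (Rs13.sm_nn ((t + p.v) / p.ye - 1))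
      rw [abs_le]
      constructor <;> nlinarith

/-- `∂_σ omG` -/
def omG' (p : Pm) (σ : ℝ) (j : ℕ) : ℝ :=
  p.κ * (2 * max 0 (√(j * p.v) - σ)) * (1 - sm (j * p.v / p.ye - 1))

/-- `∂_σ epsG` -/
theorem hasDerivAt_epsG (p : Pm) (σ : ℝ) :
    HasDerivAt p.epsG (p.κ * p.r * (2 * max 0 (√p.r - σ))) σ := (hasDerivAt_gS σ p.r).const_mul _

theorem op_gst (p : Pm) (hv : 0 < p.v) (hl : Pr.Lab p.z p.J) (hκ : 0 ≤ p.κ) (hκ' : p.κ ≤ 1 / 8)
    (hy : 0 < p.ye) (hY : 2 * p.ye ≤ p.J * p.v) :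
    OP p (Ioi 0) p.omG (omG' p) p.epsG (2 * p.ye) where
  op := isOpen_Ioi
  v0 := hv
  lab := hl
  hY := hY
  hom σ hσ :=
    have h := omG_Om p hv hκ (le_of_lt hσ) hy
    ⟨h.zero, h.nn, h.supp, fun j => (h.lip j).trans (by nlinarith)⟩
  der σ _ j := ((hasDerivAt_gS σ _).const_mul _).mul_const _
  cont j := by unfold omG'; fun_prop
  ce := ⟨_, fun σ _ => hasDerivAt_epsG p σ, by fun_prop⟩

theorem bo_gst (p : Pm) : bo p p.omG p.epsG = p.bG := rfl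

/-- **the graded family is a path** -/
theorem path_gst {p : Pm} {Y : ℝ} (h : OP p (Ioi 0) p.omG (omG' p) p.epsG Y) {P : Pl} (hg : P.γ = 0)
    {σ σ' : ℝ} (h0 : 0 < σ) (inc : ∀ t ∈ Ioo σ σ', Inc (p.gst P t)) :
    Path (p.gst P) (fun t _ => deriv p.bG t) (dH p P p.omG (omG' p) p.epsG) σ σ' :=
  h.path_famO hg (fun _ ht => h0.trans_le ht.1) (fun _ _ => rfl) inc

/-- the `σ`-derivative of `V a' - V a` at the member `σ`, up to the factor `-m` -/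
def DG (p : Pm) (P : Pl) (σ : ℝ) (m : ℕ) (a a' : ℝ) : ℝ :=
  deriv p.bG σ / 4 * ((p.gst P σ).dz m a' 0 * (p.gst P σ).E2 m a' (fun r => r ^ 2) 0 -
      (p.gst P σ).dz m a 0 * (p.gst P σ).E2 m a (fun r => r ^ 2) 0) +
    ∑ k ∈ Finset.Ioc p.jf (p.NP P), (p.gst P σ).dz m a k * (deriv p.bG σ / 4 *
      ((p.gst P σ).E2 m a' (fun r => (r - (p.gst P σ).q k) ^ 2) k -
        (p.gst P σ).E2 m a (fun r => (r - (p.gst P σ).q k) ^ 2) k) +
      ph p P p.omG (omG' p) p.epsG σ k / 2 * ((p.gst P σ).rb m a' k - (p.gst P σ).rb m a k))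

theorem dz_low (M : Md) (m : ℕ) (a : ℝ) {k : ℕ} (h1 : 1 ≤ k) (hk : k < M.N)
    (hz : M.z k = M.z (k - 1)) : M.dz m a k = 0 := by
  obtain ⟨k, rfl⟩ := Nat.exists_eq_add_of_le' h1
  have e : ∀ j < M.N, T157.Casc.ex (M.L m a) (j + 1) = M.z j := fun j hj => by
    simp [T157.Casc.ex, Md.L, Md.Mx, Md.Mu, hj, Cas.mxL_m]
  rw [Md.dz, T157.Casc.dm, T157.Casc.exP, e _ hk, e _ (by omega), hz]
  simp

/-- **one octave (or any interval) of the graded path from a bound of `σ |DG|`** -/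
theorem go_gst {p : Pm} {Y : ℝ} (h : OP p (Ioi 0) p.omG (omG' p) p.epsG Y) {P : Pl} (hg : P.γ = 0)
    (hn : 0 < p.n) (hs : 0 ≤ p.s) (hj : p.jf < p.NP P) {σ σ' ε : ℝ} (h0 : 0 < σ) (h1 : σ ≤ σ')
    (hε : 0 ≤ ε) (leg : ∀ t ∈ Icc σ σ', (p.gst P t).Leg p.am ∧ p.bG t ≤ p.β ^ 2)
    (hb : ∀ a a' Q : ℝ, Win p.n p.s p.ga a a' → 0 ≤ Q → WT p.n (p.gst P '' Icc σ σ') a a' Q →
      ∀ m, p.n ≤ m → m ≤ 2 * p.n → ∀ t ∈ Ioo σ σ', t * (m * |DG p P t m a a'|) ≤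
        ε * ((p.n : ℝ) ^ ((1 : ℝ) / 6) * (Q * p.s ^ 2 + p.s ^ 5))) :
    Go (ε * log (σ' / σ)) p (p.gst P σ) (p.gst P σ') := by
  refine ⟨_, (path_gst h hg h0 fun t ht => inc_of_leg (leg t (Ioo_subset_Icc_self ht)).1).stage_log
    h0 h1 hn hs hε (fun t ht => ⟨(leg t ht).1, by simpa [Pm.gst, Pm.famO] using (leg t ht).2⟩)
    fun a a' Q hw hQ hW m m1 m2 t ht => ?_, σ', ⟨h1, le_rfl⟩, rfl⟩
  have := h.DV_sub hg (show t ∈ Ioi 0 from h0.trans ht.1) (p.gst P t) m a a' fun k k1 k2 =>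
    dz_low _ m a k1 (k2.trans_lt hj) (by
      simp only [Pm.gst, Pm.famO, max_eq_right k2, max_eq_right ((Nat.sub_le k 1).trans k2)])
  rw [bo_gst] at this
  rw [this, abs_neg, abs_mul, Nat.abs_cast]
  exact hb a a' Q hw hQ hW m m1 m2 t ht

end Crest.Agent.T156.Alt.Md77

end
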