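import Crest.Agent.T156.PrB_28
import Crest.Agent.T156.PCmp_3
import Crest.Agent.T156.PArea_50

/-!
Row 156 (helper81): text (P), leaf (Sharp): the labels of a base profile near `0`,
`2 χ³ z_j = k² j v + O((j v)² + √η + v)`, and the bounds on `χ`, `k`.
-/

set_option autoImplicit false

namespace Crest.Agent.T156.Pr

open MeasureTheory Set
open Crest.Agent.R164.GC Crest.Agent.R339.B Crest.Agent.R339.Var Crest.Agent.T157.Pf
open Crest.Agent.T156.Pp (Dn)

noncomputable section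

/-- **(Sharp)** -/
def SharpS : Prop := ∀ b0 c C T0 : ℝ, 1 ≤ b0 → 0 < c → 1 ≤ C → ∃ c2 C2 η0 : ℝ, 0 < c2 ∧ 1 ≤ C2 ∧
  0 < η0 ∧ ∀ (η v : ℝ) (J : ℕ) (z : ℕ → ℝ), Base b0 c C η v J z → η ≤ η0 → v ≤ η0 →
  ∀ N : ℕ, J ≤ N → N * v ≤ T0 →
    (∀ j : ℕ, j < J → |2 * chi (lo z v 0 N) ^ 3 * z j - k4 (lo z v 0 N) ^ 2 * (j * v)| ≤
      C2 * ((j * v) ^ 2 + √η + v)) ∧
    (∀ t, 0 ≤ t → t < J * v →
      |2 * chi (lo z v 0 N) ^ 3 * lvr 1 (lo z v 0 N) t - k4 (lo z v 0 N) ^ 2 * t| ≤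
        C2 * (t ^ 2 + √η + v)) ∧
    c2 ≤ k4 (lo z v 0 N) ^ 2 ∧ k4 (lo z v 0 N) ^ 2 ≤ C2 ∧ |b0 * chi (lo z v 0 N) ^ 2 - 1| ≤ η

namespace Sharp81

variable {l : List (ℝ × ℝ)}

theorem chi_ge (h : Ok l) {T0 : ℝ} (hT : TT l ≤ T0) : Real.exp (-T0) ≤ chi l := by
  have a := Pp.lo2_PhiL h.1 0
  have hA := Pp.Ode3.AP.of_ok h
  have z0 := Pp.Ode3.D0_zero h.1
  rw [Pp.Dn_zero] at z0
  rw [z0] at a
  have e : chi l = deriv (deriv (PhiL 1 l)) 0 := by
    unfold chi Dk; rw [PhiT_zero hA.nn, Pp.Dn_one]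
  rw [e]
  have : Real.exp (-T0) ≤ Real.exp (-TT l) := Real.exp_le_exp.2 (by linarith)
  nlinarith

theorem k4_le (h : Ok l) {T0 : ℝ} (hT : TT l ≤ T0) :
    k4 l ≤ -(2 * Real.exp (-(3 * T0)) * chi l ^ 2) := by
  have hA := Pp.Ode3.AP.of_ok h
  have a := Pp.Hop.d4 (PhiL_inv one_pos h.1) (Pp.hop_PhiL h.1)
  have e : chi l = deriv (deriv (PhiL 1 l)) 0 := by
    unfold chi Dk; rw [PhiT_zero hA.nn, Pp.Dn_one]
  have e' : k4 l = deriv (deriv (deriv (deriv (PhiL 1 l)))) 0 := by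
    unfold k4 Dk; rw [PhiT_zero hA.nn, Pp.Dn_three]
  rw [e', e]
  refine a.trans (neg_le_neg ?_)
  have : Real.exp (-(3 * T0)) ≤ Real.exp (-(3 * TT l)) := Real.exp_le_exp.2 (by linarith)
  have := mul_le_mul_of_nonneg_right this (sq_nonneg (deriv (deriv (PhiL 1 l)) 0))
  linarith

/-- `k² ≥ 4 e^{-10 T0}` -/
theorem k4_sq_ge (h : Ok l) {T0 : ℝ} (hT : TT l ≤ T0) :
    4 * Real.exp (-(10 * T0)) ≤ k4 l ^ 2 := by
  have a := k4_le h hT
  have b := pow_le_pow_left₀ (Real.exp_pos _).le (chi_ge h hT) 2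
  have e : Real.exp (-(5 * T0)) = Real.exp (-(3 * T0)) * Real.exp (-T0) ^ 2 := by
    rw [sq, ← Real.exp_add, ← Real.exp_add]; congr 1; ring
  have c : 2 * Real.exp (-(5 * T0)) ≤ -k4 l := by
    have := mul_le_mul_of_nonneg_left b (Real.exp_pos (-(3 * T0))).le
    rw [e]; linarith
  have d := pow_le_pow_left₀ (by positivity) c 2
  have e2 : Real.exp (-(10 * T0)) = Real.exp (-(5 * T0)) ^ 2 := by
    rw [sq, ← Real.exp_add]; congr 1; ring
  rw [e2]; nlinarith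

theorem k4_sq_le (T0 : ℝ) : ∃ K : ℝ, 1 ≤ K ∧ ∀ l, Ok l → TT l ≤ T0 → k4 l ^ 2 ≤ K := by
  obtain ⟨C, h1, hC⟩ := Pp.Ode3.Dn_PhiT T0 3
  refine ⟨C ^ 2, one_le_pow₀ h1, fun l h hT => ?_⟩
  have := hC l h.1 hT 0 le_rfl 3 le_rfl 0
  rw [← sq_abs]
  exact pow_le_pow_left₀ (abs_nonneg _) this 2

/-- mean value inequality for right derivatives, against a linear function -/
theorem mvt_lin {f f' : ℝ → ℝ} {a u g E : ℝ} (hu : 0 ≤ u) (hf : ContinuousOn f (Icc a (a + u)))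
    (hd : ∀ r ∈ Ico a (a + u), HasDerivWithinAt f (f' r) (Ici r) r)
    (hb : ∀ r ∈ Ico a (a + u), |f' r - g| ≤ E) : |f (a + u) - f a - g * u| ≤ E * u := by
  have := norm_image_sub_le_of_norm_deriv_right_le_segment (f := fun r => f r - g * r)
    (f' := fun r => f' r - g) (C := E) (a := a) (b := a + u)
    (hf.sub (by fun_prop)) (fun r hr => (hd r hr).sub (by
      simpa using ((hasDerivAt_id r).const_mul g).hasDerivWithinAt)) hb (a + u)
    ⟨by linarith, le_rfl⟩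
  rw [Real.norm_eq_abs, add_sub_cancel_left] at this
  convert this using 2
  ring

/-- `N(t) = k² t + O(t²)` -/
theorem NN_near (T0 : ℝ) : ∃ K : ℝ, 1 ≤ K ∧ ∀ l, Ok l → TT l ≤ T0 → ∀ t ∈ Icc 0 (TT l),
    |NN l t - k4 l ^ 2 * t| ≤ K * t ^ 2 := by
  obtain ⟨C, h1, hC⟩ := Pp.Ode3.odeS T0
  refine ⟨7 * C, by linarith, fun l h hT t ht => ?_⟩
  obtain ⟨⟨-, -, -, cN, -, -⟩, hd, ⟨-, -, -, N0, -⟩, hb⟩ := hC l h hT
  have := mvt_lin (f := NN l) (f' := fun r => N4 l r - 6 * lvr 1 l r * BB l r) (a := 0) (u := t)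
    (g := k4 l ^ 2) (E := 7 * C * t) ht.1
    (cN.mono (Icc_subset_Icc le_rfl (by linarith [ht.2])))
    (fun r hr => (hd r hr.1 (by linarith [hr.2, ht.2])).2.2) (fun r hr => by
      have hr' : r ∈ Icc 0 (TT l) := ⟨hr.1, by linarith [hr.2, ht.2]⟩
      obtain ⟨-, -, -, -, -, -, -, -, b1, b2, b3, b4, -⟩ := hb r hr'
      have z1 := Pp.Ode3.lvr_pos h.1 r
      have z2 := Pp.Ode3.lvr_le_one h.1 r
      have r1 : C * r ≤ C * t := mul_le_mul_of_nonneg_left (by linarith [hr.2]) (by linarith)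
      have p1 : lvr 1 l r * BB l r ≤ BB l r := mul_le_of_le_one_left b1 z2
      have p2 : 0 ≤ lvr 1 l r * BB l r := mul_nonneg z1.le b1
      have := abs_le.1 b4
      rw [abs_le]; constructor <;> nlinarith)
  rw [zero_add, N0, sub_zero] at this
  calc _ ≤ 7 * C * t * t := this
    _ = _ := by ring

/-- the derivative of `G` near the origin -/
theorem Gd_near (T0 : ℝ) : ∃ K : ℝ, 1 ≤ K ∧ ∀ l, Ok l → TT l ≤ T0 → ∀ t ∈ Icc 0 (TT l),
    |NN l t - 2 * lvr 1 l t * AA l t - (k4 l ^ 2 * t - 2 * chi l ^ 3 * lvr 1 l t)| ≤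
      K * t ^ 2 + 30 * (lvr 1 l t * t) := by
  obtain ⟨K, h1, hK⟩ := NN_near T0
  obtain ⟨C, -, hC⟩ := Pp.Ode3.odeS T0
  refine ⟨K, h1, fun l h hT t ht => ?_⟩
  obtain ⟨-, -, -, hb⟩ := hC l h hT
  obtain ⟨-, -, -, -, -, -, -, a1, -⟩ := hb t ht
  have z1 := Pp.Ode3.lvr_pos h.1 t
  have a2 : |lvr 1 l t * (AA l t - chi l ^ 3)| ≤ lvr 1 l t * (15 * t) := by
    rw [abs_mul, abs_of_pos z1]; exact mul_le_mul_of_nonneg_left a1 z1.le
  have a3 := abs_le.1 (hK l h hT t ht)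
  have a4 := abs_le.1 a2
  rw [abs_le]; constructor <;> nlinarith

variable {b0 c C η v : ℝ} {J : ℕ} {z : ℕ → ℝ}

theorem sig_zero (v : ℝ) : sig v 0 = fun j : ℕ => (j:ℝ) * v := by
  funext j; simp [sig]

theorem lo_zero (z : ℕ → ℝ) (v : ℝ) (N : ℕ) : lo z v 0 N = lst z (fun j => j * v) N := by
  rw [lo, sig_zero]

theorem grid_sm (hv : 0 < v) : StrictMono fun j : ℕ => (j:ℝ) * v := fun _ _ h =>
  mul_lt_mul_of_pos_right (Nat.cast_lt.2 h) hv

theorem lab_lip (h : Base b0 c C η v J z) {i : ℕ} : ∀ d : ℕ, i + d < J →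
    c * v * d ≤ z (i + d) - z i ∧ z (i + d) - z i ≤ C * v * d
  | 0, _ => by simp
  | d + 1, hd => by
    obtain ⟨a1, a2⟩ := lab_lip h (i := i) d (by omega)
    obtain ⟨b1, b2⟩ := h.slo (i + d) (by omega)
    unfold dm at b1 b2
    rw [← add_assoc]
    push_cast
    constructor <;> nlinarith

theorem lab_abs (h : Base b0 c C η v J z) {i j : ℕ} (hi : i < J) (hj : j < J) :
    |z i - z j| ≤ C * |(i:ℝ) * v - j * v| := by
  wlog hij : j ≤ i generalizing i j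
  · rw [abs_sub_comm, abs_sub_comm ((i:ℝ) * v)]
    exact this hj hi (le_of_not_ge hij)
  obtain ⟨d, rfl⟩ := Nat.exists_eq_add_of_le hij
  have a := (lab_lip h d hi).2
  have b : 0 ≤ z (j + d) - z j := sub_nonneg.2 (h.lab.mono (Nat.le_add_right j d))
  have hv := h.v_pos
  rw [abs_of_nonneg b, show ((j + d : ℕ):ℝ) * v - j * v = v * d by push_cast; ring,
    abs_of_nonneg (by positivity)]
  linarith

theorem eta_nn (h : Base b0 c C η v J z) : 0 ≤ η :=
  (abs_nonneg _).trans (h.crit J le_rfl 0 ⟨le_rfl, by have := h.v_pos; positivity⟩)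

theorem base_area (h : Base b0 c C η v J z) {N : ℕ} (hN : J ≤ N) :
    Ok (lo z v 0 N) ∧ TT (lo z v 0 N) = N * v ∧ ∀ t, 0 ≤ t → t < J * v →
      ∃ i : ℕ, i < J ∧ i * v ≤ t ∧ t < i * v + v ∧ lvr 1 (lo z v 0 N) t = z i := by
  obtain ⟨⟨a1, a2, a3, -⟩, -⟩ := areaS z (fun j => j * v) N (h.lab.up hN) (by simp)
    (grid_sm h.v_pos)
  rw [lo_zero]
  refine ⟨a1, a2, fun t h0 h1 => ?_⟩
  obtain ⟨i, hi, b1, b2⟩ := exists_cell (s := fun j : ℕ => (j:ℝ) * v) (t := t) (by simpa using h0) J h1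
  refine ⟨i, hi, b1, ?_, a3 i t b1 b2⟩
  have : ((i + 1 : ℕ):ℝ) * v = i * v + v := by push_cast; ring
  linarith

/-- the tilt function of a base profile is Lipschitz at the grid scale -/
theorem lvr_lip (h : Base b0 c C η v J z) (hC : 0 ≤ C) {N : ℕ} (hN : J ≤ N) {s t : ℝ} (hs : 0 ≤ s)
    (hs' : s < J * v) (ht : 0 ≤ t) (ht' : t < J * v) :
    |lvr 1 (lo z v 0 N) s - lvr 1 (lo z v 0 N) t| ≤ C * (|s - t| + v) := by
  obtain ⟨-, -, a⟩ := base_area h hN
  obtain ⟨i, hi, i1, i2, i3⟩ := a s hs hs'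
  obtain ⟨j, hj, j1, j2, j3⟩ := a t ht ht'
  rw [i3, j3]
  refine (lab_abs h hi hj).trans (mul_le_mul_of_nonneg_left ?_ hC)
  have := le_abs_self (s - t)
  have := neg_abs_le (s - t)
  rw [abs_le]; constructor <;> linarith

theorem lvr_lin (h : Base b0 c C η v J z) (hC : 0 ≤ C) {N : ℕ} (hN : J ≤ N) {t : ℝ} (ht : 0 ≤ t)
    (ht' : t < J * v) : lvr 1 (lo z v 0 N) t ≤ C * t + η := by
  obtain ⟨-, -, a⟩ := base_area h hN
  obtain ⟨j, -, j1, -, j3⟩ := a t ht ht'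
  rw [j3]
  exact (h.lin j).trans (by gcongr)

theorem GG_osc (h : Base b0 c C η v J z) (hb : 1 ≤ b0) {N : ℕ} (hN : J ≤ N) {s t : ℝ}
    (hs : s ∈ Icc 0 (J * v)) (ht : t ∈ Icc 0 (J * v)) :
    |GG (lo z v 0 N) t - GG (lo z v 0 N) s| ≤ 2 * η := by
  rw [lo_zero]
  have a := abs_le.1 (h.crit N hN s hs)
  have b := abs_le.1 (h.crit N hN t ht)
  have : |b0 * (GG (lst z (fun j => j * v) N) t - GG (lst z (fun j => j * v) N) s)| ≤ 2 * η := by
    rw [abs_le]; constructor <;> nlinarith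
  rw [abs_mul, abs_of_nonneg (by linarith : 0 ≤ b0)] at this
  nlinarith [abs_nonneg (GG (lst z (fun j => j * v) N) t - GG (lst z (fun j => j * v) N) s)]

end Sharp81

open Sharp81 in
theorem sharpS : SharpS := by
  intro b0 c C T0 hb hc hC
  obtain ⟨K, hK1, hK⟩ := Gd_near T0
  obtain ⟨K4, hK41, hK4⟩ := k4_sq_le T0
  obtain ⟨C0, -, hO⟩ := Pp.Ode3.odeS T0
  refine ⟨4 * Real.exp (-(10 * T0)), 2 * (K + 30 * C + 30) + K4 + 4 * C + 2,
    min (1 / 4) (min (c / 4) ((c / 4) ^ 2)), by positivity, by linarith, by positivity,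
    fun η v J z h hη hv N hN hT => ?_⟩
  obtain ⟨ok, hTT, cell⟩ := base_area h hN
  have hT' : TT (lo z v 0 N) ≤ T0 := hTT.le.trans hT
  have v0 := h.v_pos
  have η0 := eta_nn h
  have η1 : η ≤ 1 / 4 := hη.trans (min_le_left _ _)
  have v1 : v ≤ 1 / 4 := hv.trans (min_le_left _ _)
  have v2 : v ≤ c / 4 := hv.trans ((min_le_right _ _).trans (min_le_left _ _))
  have s0 := Real.sqrt_nonneg η
  have ss : √η * √η = η := Real.mul_self_sqrt η0
  have s1 : √η ≤ 1 / 2 := Real.sqrt_le_iff.2 ⟨by norm_num, by linarith⟩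
  have s2 : √η ≤ c / 4 := Real.sqrt_le_iff.2
    ⟨by positivity, hη.trans ((min_le_right _ _).trans (min_le_right _ _))⟩
  have JN : (J:ℝ) * v ≤ TT (lo z v 0 N) := by
    rw [hTT]; exact mul_le_mul_of_nonneg_right (Nat.cast_le.2 hN) v0.le
  obtain ⟨⟨-, cG, -⟩, hd, ⟨-, G0, -, -, -, χ0, χ1⟩, -⟩ := hO _ ok hT'
  have k1 := hK4 _ ok hT'
  set l := lo z v 0 N with hl
  have main : ∀ t, 0 ≤ t → t < J * v → |2 * chi l ^ 3 * lvr 1 l t - k4 l ^ 2 * t| ≤
      (2 * (K + 30 * C + 30) + K4 + 4 * C + 2) * (t ^ 2 + √η + v) := by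
    intro t t0 t1
    set u := √η + v with hu
    have u0 : 0 < u := by positivity
    have u1 : u ≤ 1 := by linarith
    obtain ⟨a, a0, a1, a2, a3⟩ : ∃ a : ℝ, 0 ≤ a ∧ a + u ≤ J * v ∧ t - u ≤ a ∧ a ≤ t := by
      rcases le_or_gt (t + u) (J * v) with q | q
      · exact ⟨t, t0, q, by linarith, le_rfl⟩
      · exact ⟨t - u, by linarith [h.lo], by linarith, le_rfl, by linarith⟩
    set E := (K + 30 * C + 30) * (t + u) ^ 2 + K4 * u + 4 * C * u with hE
    have χ3 : chi l ^ 3 ≤ 1 := pow_le_one₀ χ0.le χ1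
    have χ4 : 0 < chi l ^ 3 := by positivity
    have m := mvt_lin (f := GG l) (f' := fun r => NN l r - 2 * lvr 1 l r * AA l r) (a := a) (u := u)
      (g := k4 l ^ 2 * t - 2 * chi l ^ 3 * lvr 1 l t) (E := E) u0.le
      (cG.mono (Icc_subset_Icc a0 (a1.trans JN)))
      (fun r hr => (hd r (a0.trans hr.1) (by linarith [hr.2])).2.1) (fun r hr => by
        have r0 : 0 ≤ r := a0.trans hr.1
        have r1 : r < J * v := hr.2.trans_le a1
        have r2 : r ≤ t + u := by linarith [hr.2]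
        have r3 : |r - t| ≤ u := abs_le.2 ⟨by linarith [hr.1], by linarith⟩
        have e1 := abs_le.1 (hK l ok hT' r ⟨r0, r1.le.trans JN⟩)
        have e2 := lvr_lip h (by linarith) hN r0 r1 t0 t1
        have e3 := lvr_lin h (by linarith) hN r0 r1
        rw [← hl] at e2 e3
        have e4 : |chi l ^ 3 * (lvr 1 l r - lvr 1 l t)| ≤ 2 * C * u := by
          rw [abs_mul, abs_of_pos χ4]
          refine (mul_le_of_le_one_left (abs_nonneg _) χ3).trans (e2.trans ?_)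
          have : |r - t| + v ≤ 2 * u := by linarith
          have := mul_le_mul_of_nonneg_left this (show 0 ≤ C by linarith)
          linarith
        have e5 : |k4 l ^ 2 * (r - t)| ≤ K4 * u := by
          rw [abs_mul, abs_of_nonneg (sq_nonneg _)]
          exact mul_le_mul k1 r3 (abs_nonneg _) (by linarith)
        have e6 : r ^ 2 ≤ (t + u) ^ 2 := pow_le_pow_left₀ r0 r2 2
        have e7 : η ≤ t + u := by
          have : √η * √η ≤ 1 * √η := mul_le_mul_of_nonneg_right (by linarith) s0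
          linarith
        have e8 : η * r ≤ (t + u) ^ 2 := by
          rw [sq]; exact mul_le_mul e7 r2 r0 (by linarith)
        have e9 : lvr 1 l r * r ≤ (C + 1) * (t + u) ^ 2 := by
          have := mul_le_mul_of_nonneg_right e3 r0
          have := mul_le_mul_of_nonneg_left e6 (show 0 ≤ C by linarith)
          linarith
        have e10 := mul_le_mul_of_nonneg_left e6 (show 0 ≤ K by linarith)
        have e4' := abs_le.1 e4
        have e5' := abs_le.1 e5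
        have e11 : K * r ^ 2 + 30 * (lvr 1 l r * r) ≤ (K + 30 * C + 30) * (t + u) ^ 2 := by
          linarith
        rw [hE, abs_le]; constructor <;> linarith [e1.1, e1.2, e4'.1, e4'.2, e5'.1, e5'.2])
    have o := abs_le.1 (GG_osc h hb hN (s := a) (t := a + u) ⟨a0, by linarith⟩ ⟨by linarith, a1⟩)
    rw [← hl] at o
    have m' := abs_le.1 m
    have w : 2 * η ≤ 2 * √η * u := by
      have : 0 ≤ √η * v := by positivity
      rw [hu]; linarith
    have f : |2 * chi l ^ 3 * lvr 1 l t - k4 l ^ 2 * t| ≤ E + 2 * √η := by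
      rw [abs_le]
      constructor
      · refine le_of_mul_le_mul_right ?_ u0
        linarith [m'.1, m'.2, o.1, o.2]
      · refine le_of_mul_le_mul_right ?_ u0
        linarith [m'.1, m'.2, o.1, o.2]
    refine f.trans ?_
    have g1 : (t + u) ^ 2 ≤ 2 * (t ^ 2 + u) := by
      have := sq_nonneg (t - u)
      have : u * u ≤ 1 * u := mul_le_mul_of_nonneg_right u1 u0.le
      linarith
    have g2 := mul_le_mul_of_nonneg_left g1 (show 0 ≤ K + 30 * C + 30 by linarith)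
    have g3 : 0 ≤ (K4 + 4 * C + 2) * t ^ 2 := by positivity
    have g4 : t ^ 2 + √η + v = t ^ 2 + u := by rw [hu]; ring
    have g5 : √η ≤ u := by linarith
    rw [g4, hE]
    linarith
  refine ⟨fun j hj => ?_, main, k4_sq_ge ok hT', by linarith, ?_⟩
  · have jv : (j:ℝ) * v < J * v := mul_lt_mul_of_pos_right (Nat.cast_lt.2 hj) v0
    have := main (j * v) (by positivity) jv
    obtain ⟨i, -, i1, i2, i3⟩ := cell (j * v) (by positivity) jv
    have hij : i = j := by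
      have p1 : (i:ℝ) ≤ j := le_of_mul_le_mul_right i1 v0
      have p2 : (j:ℝ) < i + 1 := lt_of_mul_lt_mul_right (by linarith) v0.le
      have p3 : i ≤ j := by exact_mod_cast p1
      have p4 : j < i + 1 := by exact_mod_cast p2
      omega
    rwa [i3, hij] at this
  · have := h.crit N hN 0 ⟨le_rfl, by positivity⟩
    rwa [← lo_zero, ← hl, G0] at this

end

end Crest.Agent.T156.Pr
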