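import Crest.Agent.T156.CaSpB_38
import Crest.Agent.T156.CaLaw_45
import Crest.Agent.T156.Mov_21

/-!
# Row 156 (helper52): self-adjointness of the linearised cavity equation

`Bq2 w L h S' S` is the derivative in the kernel direction `S` of the first variation `Gk1 w L h S'`
of the value.  It is symmetric (Schwarz).  The skeleton `dS` of `dT` gives linearity, transport and
the factorisation of `dT` on product systems.
-/

set_option autoImplicit false
set_option linter.unusedSectionVars false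

noncomputable section

namespace Crest.Agent.T156.Cas

open MeasureTheory Real Set Filter Topology
open Crest.Agent.T157.E Crest.Agent.T157.Casc Crest.Agent.T157.SL
open Crest.Agent.T157.Casc.C (Same addLv addLv_cov X_same)

namespace SA52

variable {Ω Ω' : Type} {V W : Type} [AddCommGroup V] [Module ℝ V] [AddCommGroup W] [Module ℝ W]

/-! ### the skeleton of `dT` -/

/-- the terms of `dT`: shape, embedding of the old leaves, depth, the two leaves of the kernel -/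
abbrev Tm (s : Sh) (V : Type) : Type := (s' : Sh) → (s.Lf → s'.Lf) → ℕ → s'.Lf → s'.Lf → V

/-- the weights of `dT` applied to arbitrary terms -/
def dS (s : Sh) (M : List (Lv Ω)) (T : Tm s V) : V :=
  ∑ a, ∑ b, T s id (s.shr a b M.length) a b -
  ∑ a, ∑ j ∈ Finset.range (M.length + 1), cw s M a j •
    (∑ b, T (s.graft a j) (s.emb a j) (s.shr b a j) (s.emb a j b) (s.nw a j) +
      ∑ b, T (s.graft a j) (s.emb a j) (s.shr a b j) (s.nw a j) (s.emb a j b) +
      T (s.graft a j) (s.emb a j) M.length (s.nw a j) (s.nw a j)) +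
  ∑ a, ∑ j ∈ Finset.range (M.length + 1), cw s M a j •
    (∑ b, ∑ k ∈ Finset.range (M.length + 1), cw s M b k •
      T ((s.graft b k).graft (s.emb b k a) j)
        (fun c => (s.graft b k).emb (s.emb b k a) j (s.emb b k c)) (s.shr a b (min j k))
        ((s.graft b k).nw (s.emb b k a) j) ((s.graft b k).emb (s.emb b k a) j (s.nw b k)) +
    ∑ i ∈ Finset.range (M.length - j + 1), dm (M.drop j) 0 i •
      T ((s.graft a j).graft (s.nw a j) (i + j))
        (fun b => (s.graft a j).emb (s.nw a j) (i + j) (s.emb a j b)) (i + j)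
        ((s.graft a j).emb (s.nw a j) (i + j) (s.nw a j)) ((s.graft a j).nw (s.nw a j) (i + j)))

/-- the old leaves keep their law -/
def Mg (s s' : Sh) (e : s.Lf → s'.Lf) : Prop :=
  ∀ (Ω : Type) [Fintype Ω] (w : Ω → ℝ), Wt w → ∀ (L : List (Lv Ω)) (h : Ω → ℝ)
    (F : (s.Lf → Ω) → ℝ), TE w s' L h (fun x => F fun c => x (e c)) = TE w s L h F

theorem mg_id (s : Sh) : Mg s s id := fun _ _ _ _ _ _ _ => rfl

theorem mg_emb (s : Sh) (a : s.Lf) (j : ℕ) : Mg s (s.graft a j) (s.emb a j) :=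
  fun _ _ w hw L h F => by
    refine (graft_leaf hw s a j L h fun x _ => F x).trans ?_
    simp only [← Finset.sum_mul, sum_P hw, one_mul]
    rfl

theorem Mg.comp {s s' s'' : Sh} {e : s.Lf → s'.Lf} {e' : s'.Lf → s''.Lf} (H : Mg s s' e)
    (H' : Mg s' s'' e') : Mg s s'' fun c => e' (e c) := fun Ω _ w hw L h F =>
  (H' Ω w hw L h fun x => F fun c => x (e c)).trans (H Ω w hw L h F)

theorem shr_le : ∀ (s : Sh) (a b : s.Lf) (j : ℕ), s.shr a b j ≤ j
  | .one, _, _, _ => le_rfl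
  | .step _, _, _, 0 => le_rfl
  | .step s, a, b, j + 1 => Nat.succ_le_succ (shr_le s a b j)
  | .split s _, .inl a, .inl b, j => shr_le s a b j
  | .split _ t, .inr a, .inr b, j => shr_le t a b j
  | .split _ _, .inl _, .inr _, _ => Nat.zero_le _
  | .split _ _, .inr _, .inl _, _ => Nat.zero_le _

theorem dS_mem (s : Sh) (M : List (Lv Ω)) {T : Tm s V} (N : Submodule ℝ V)
    (H : ∀ s' e j u v, j ≤ M.length → Mg s s' e → T s' e j u v ∈ N) : dS s M T ∈ N := by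
  refine N.add_mem (N.sub_mem (N.sum_mem fun a _ => N.sum_mem fun b _ =>
    H _ _ _ _ _ (shr_le s a b _) (mg_id s)) (N.sum_mem fun a _ => N.sum_mem fun j hj =>
      N.smul_mem _ ?_)) (N.sum_mem fun a _ => N.sum_mem fun j hj => N.smul_mem _ ?_)
  · have hj' : j ≤ M.length := Nat.lt_succ_iff.1 (Finset.mem_range.1 hj)
    exact N.add_mem (N.add_mem
      (N.sum_mem fun b _ => H _ _ _ _ _ ((shr_le s b a j).trans hj') (mg_emb s a j))
      (N.sum_mem fun b _ => H _ _ _ _ _ ((shr_le s a b j).trans hj') (mg_emb s a j)))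
      (H _ _ _ _ _ le_rfl (mg_emb s a j))
  · have hj' : j ≤ M.length := Nat.lt_succ_iff.1 (Finset.mem_range.1 hj)
    refine N.add_mem (N.sum_mem fun b _ => N.sum_mem fun k _ => N.smul_mem _ (H _ _ _ _ _
      ((shr_le s a b _).trans ((min_le_left j k).trans hj')) ((mg_emb s b k).comp (mg_emb _ _ _))))
      (N.sum_mem fun i hi => N.smul_mem _ (H _ _ _ _ _ ?_ ((mg_emb s a j).comp (mg_emb _ _ _))))
    have := Finset.mem_range.1 hi
    omega

theorem dS_map (s : Sh) (M : List (Lv Ω)) (T : Tm s V) (φ : V →ₗ[ℝ] W) :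
    φ (dS s M T) = dS s M fun s' e j u v => φ (T s' e j u v) := by
  simp only [dS, map_add, map_sub, map_sum, map_smul]

theorem dS_congr (s : Sh) (M : List (Lv Ω)) {T T' : Tm s V}
    (H : ∀ s' e j u v, j ≤ M.length → Mg s s' e → T s' e j u v = T' s' e j u v) :
    dS s M T = dS s M T' := by
  have := dS_mem s M (T := fun s' e j u v => (T s' e j u v, T' s' e j u v))
    (LinearMap.eqLocus (LinearMap.fst ℝ V V) (LinearMap.snd ℝ V V)) H
  rwa [LinearMap.mem_eqLocus, dS_map, dS_map] at this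

theorem dS_add (s : Sh) (M : List (Lv Ω)) (T T' : Tm s V) :
    dS s M (fun s' e j u v => T s' e j u v + T' s' e j u v) = dS s M T + dS s M T' := by
  have := dS_map s M (fun s' e j u v => (T s' e j u v, T' s' e j u v))
    (LinearMap.fst ℝ V V + LinearMap.snd ℝ V V)
  rw [LinearMap.add_apply, dS_map, dS_map] at this
  exact this.symm

theorem dS_mul (s : Sh) (M : List (Lv Ω)) (c : ℝ) (T : Tm s ℝ) :
    dS s M (fun s' e j u v => c * T s' e j u v) = c * dS s M T :=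
  (dS_map s M T (LinearMap.mul ℝ ℝ c)).symm

theorem dS_apply {P : Type} (s : Sh) (M : List (Lv Ω)) (T : Tm s (P → ℝ)) (p : P) :
    dS s M T p = dS s M fun s' e j u v => T s' e j u v p :=
  dS_map s M T (LinearMap.proj p)

/-- same tilts -/
def Tl (M : List (Lv Ω)) (M' : List (Lv Ω')) : Prop := M.map Lv.m = M'.map Lv.m

theorem Tl.len {M : List (Lv Ω)} {M' : List (Lv Ω')} (H : Tl M M') : M.length = M'.length := by
  simpa using congrArg List.length H

theorem Tl.ex {M : List (Lv Ω)} {M' : List (Lv Ω')} (H : Tl M M') (j : ℕ) : ex M j = ex M' j := by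
  have := congrArg (·[j]?) H
  simp only [List.getElem?_map] at this
  unfold T157.Casc.ex
  cases h1 : M[j]? <;> cases h2 : M'[j]? <;> simp_all

theorem Tl.dm {M : List (Lv Ω)} {M' : List (Lv Ω')} (H : Tl M M') (m0 : ℝ) (j : ℕ) :
    dm M m0 j = dm M' m0 j := by
  cases j <;> simp only [T157.Casc.dm, exP, H.ex]

theorem Tl.drop {M : List (Lv Ω)} {M' : List (Lv Ω')} (H : Tl M M') (j : ℕ) :
    Tl (M.drop j) (M'.drop j) := by
  unfold Tl
  rw [List.map_drop, List.map_drop, H]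

theorem Tl.cf : ∀ (s : Sh) {M : List (Lv Ω)} {M' : List (Lv Ω')}, Tl M M' → ∀ a j,
    cf s M a j = cf s M' a j
  | .one, _, _, _, _, 0 => rfl
  | .one, _, _, H, _, j + 1 => H.dm 0 (j + 1)
  | .step s, [], [], H, a, j => by
      show Cas.cf s [] a j + _ = Cas.cf s [] a j + _
      rw [Tl.cf s H a j]
  | .step _, [], _ :: _, H, _, _ => by simp [Tl] at H
  | .step _, _ :: _, [], H, _, _ => by simp [Tl] at H
  | .step _, _ :: _, _ :: _, _, _, 0 => rfl
  | .step s, l :: M, l' :: M', H, a, j + 1 => by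
      have H' : l.m = l'.m ∧ Tl M M' := by simpa [Tl] using H
      refine (Sp38.cf_step s l M a j).trans (Eq.trans ?_ (Sp38.cf_step s l' M' a j).symm)
      rw [Tl.cf s H'.2 a j, H'.2.ex, H'.1]
  | .split s _, _, _, H, .inl a, j => Tl.cf s H a j
  | .split _ t, _, _, H, .inr a, j => Tl.cf t H a j

theorem Tl.cw (s : Sh) {M : List (Lv Ω)} {M' : List (Lv Ω')} (H : Tl M M') (a : s.Lf) (j : ℕ) :
    cw s M a j = cw s M' a j := by
  rw [Cas.cw, Cas.cw, H.cf, H.ex]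

theorem Tl.dS (s : Sh) {M : List (Lv Ω)} {M' : List (Lv Ω')} (H : Tl M M') (T : Tm s V) :
    dS s M T = dS s M' T := by
  simp only [SA52.dS, H.len, H.cw, (H.drop _).dm]

theorem tl_same {M M' : List (Lv Ω)} (H : List.Forall₂ Same M M') : Tl M M' := by
  induction H with
  | nil => rfl
  | cons h _ ih => simp only [Tl, List.map_cons, h.1]; exact congrArg _ ih

theorem tl_map {α : Type*} (T : List α) {f : α → Lv Ω} {g : α → Lv Ω'} (H : ∀ a, (f a).m = (g a).m) :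
    Tl (T.map f) (T.map g) := by
  simp only [Tl, List.map_map]
  exact List.map_congr_left fun a _ => H a

theorem fa2_map {α β γ : Type*} {R : β → γ → Prop} (f : α → β) (g : α → γ) :
    ∀ M : List α, (∀ a ∈ M, R (f a) (g a)) → List.Forall₂ R (M.map f) (M.map g)
  | [], _ => .nil
  | a :: M, H => .cons (H a (by simp)) (fa2_map f g M fun b hb => H b (by simp [hb]))

variable [Fintype Ω] {w : Ω → ℝ}

theorem dT_eq (w : Ω → ℝ) (s : Sh) (M : List (Lv Ω)) (h : Ω → ℝ) (S : ℕ → Ω → Ω → ℝ)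
    (F : (s.Lf → Ω) → ℝ) : dT w s M h S F = dS s M fun s' e j u v =>
      TE w s' M h fun x => F (fun c => x (e c)) * S j (x u) (x v) := rfl

end SA52

open SA52

variable {Ω : Type} [Fintype Ω] {w : Ω → ℝ}

theorem dT_same52 (hw : Wt w) (s : Sh) {M M' : List (Lv Ω)} (H : List.Forall₂ Same M M') (h : Ω → ℝ)
    (S : ℕ → Ω → Ω → ℝ) (F : (s.Lf → Ω) → ℝ) : dT w s M h S F = dT w s M' h S F := by
  rw [dT_eq, dT_eq, (tl_same H).dS]
  exact dS_congr s M' fun s' _ _ _ _ _ _ => Law.TE_same hw s' H _ h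

theorem dT_congr52 (s : Sh) (M : List (Lv Ω)) (h : Ω → ℝ) {S S' : ℕ → Ω → Ω → ℝ}
    (H : ∀ j ≤ M.length, ∀ x y, S j x y = S' j x y) (F : (s.Lf → Ω) → ℝ) :
    dT w s M h S F = dT w s M h S' F := by
  rw [dT_eq, dT_eq]
  exact dS_congr s M fun s' _ j _ _ hj _ => by simp only [H j hj]

theorem dT_addS52 (hw : Wt w) (s : Sh) (M : List (Lv Ω)) (h : Ω → ℝ) (S S' : ℕ → Ω → Ω → ℝ)
    (F : (s.Lf → Ω) → ℝ) : dT w s M h (fun j x y => S j x y + S' j x y) F =
      dT w s M h S F + dT w s M h S' F := by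
  simp only [dT_eq, mul_add, Law.TE_add hw, dS_add]

theorem dT_mulS52 (hw : Wt w) (s : Sh) (M : List (Lv Ω)) (h : Ω → ℝ) (c : ℝ) (S : ℕ → Ω → Ω → ℝ)
    (F : (s.Lf → Ω) → ℝ) : dT w s M h (fun j x y => c * S j x y) F = c * dT w s M h S F := by
  simp only [dT_eq, mul_left_comm _ c, Law.TE_const_mul hw, dS_mul]

theorem dT_addF52 (hw : Wt w) (s : Sh) (M : List (Lv Ω)) (h : Ω → ℝ) (S : ℕ → Ω → Ω → ℝ)
    (F G : (s.Lf → Ω) → ℝ) : dT w s M h S (fun x => F x + G x) =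
      dT w s M h S F + dT w s M h S G := by
  simp only [dT_eq, add_mul, Law.TE_add hw, dS_add]

theorem dT_mulF52 (hw : Wt w) (s : Sh) (M : List (Lv Ω)) (h : Ω → ℝ) (c : ℝ) (S : ℕ → Ω → Ω → ℝ)
    (F : (s.Lf → Ω) → ℝ) : dT w s M h S (fun x => c * F x) = c * dT w s M h S F := by
  simp only [dT_eq, mul_assoc, Law.TE_const_mul hw, dS_mul]

theorem dT_subS52 (hw : Wt w) (s : Sh) (M : List (Lv Ω)) (h : Ω → ℝ) (S S' : ℕ → Ω → Ω → ℝ)
    (F : (s.Lf → Ω) → ℝ) : dT w s M h (fun j x y => S j x y - S' j x y) F =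
      dT w s M h S F - dT w s M h S' F := by
  have := dT_addS52 hw s M h S (fun j x y => -1 * S' j x y) F
  rw [dT_mulS52 hw] at this
  simpa only [neg_one_mul, ← sub_eq_add_neg] using this

theorem dT_subF52 (hw : Wt w) (s : Sh) (M : List (Lv Ω)) (h : Ω → ℝ) (S : ℕ → Ω → Ω → ℝ)
    (F G : (s.Lf → Ω) → ℝ) : dT w s M h S (fun x => F x - G x) =
      dT w s M h S F - dT w s M h S G := by
  have := dT_addF52 hw s M h S F fun x => -1 * G x
  rw [dT_mulF52 hw] at this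
  simpa only [neg_one_mul, ← sub_eq_add_neg] using this

/-- **`dT` on a product system, kernel on the second factor** -/
theorem dT_prd52 {Ω₁ Ω₂ : Type} [Fintype Ω₁] [Fintype Ω₂] {w₁ : Ω₁ → ℝ} {w₂ : Ω₂ → ℝ}
    (h₁ : Wt w₁) (h₂ : Wt w₂) (s : Sh) {L : List (Lv (Ω₁ × Ω₂))} {T : List (Lv Ω₁ × Lv Ω₂)}
    (H : List.Forall₂ Prd L T) (G₁ : (s.Lf → Ω₁) → ℝ) (G₂ : (s.Lf → Ω₂) → ℝ) (z₁ : Ω₁ → ℝ)
    (z₂ : Ω₂ → ℝ) (S : ℕ → Ω₂ → Ω₂ → ℝ) :
    dT (pw2 w₁ w₂) s L (ad z₁ z₂) (fun j x y => S j x.2 y.2)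
        (fun x => G₁ (fun a => (x a).1) * G₂ fun a => (x a).2) =
      TE w₁ s (T.map Prod.fst) z₁ G₁ * dT w₂ s (T.map Prod.snd) z₂ S G₂ := by
  have ht : Tl L (T.map Prod.snd) := by
    induction H with
    | nil => rfl
    | cons h _ ih => simp only [Tl, List.map_cons, h.2.1]; exact congrArg _ ih
  rw [dT_eq, dT_eq, ht.dS, ← dS_mul]
  refine dS_congr s _ fun s' e j u v _ hm => ?_
  rw [← hm Ω₁ w₁ h₁, ← Law.TE_prd h₁ h₂ s' H]
  simp only [mul_assoc]

/-- a constant has derivative zero -/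
theorem dT_const52 (hw : Wt w) (s : Sh) {I : Set ℝ} (hI : IsOpen I) {L : List (TL Ω)}
    (hL : ∀ l ∈ L, l.C1 I) {u : ℝ} (hu : u ∈ I) (h : Ω → ℝ) (c : ℝ) :
    dT w s (atL L u) h (Sacc L u) (fun _ => c) = 0 := by
  have h1 := hasDerivAt_tX_t hw hI hL hu s h fun _ => c
  have e : (fun t => tX w s (atL L t) h fun _ _ => c) = fun _ => c :=
    funext fun t => Law.TE_const hw s _ h c
  rw [e] at h1
  exact h1.unique (hasDerivAt_const u c)

/-- first variation of the value in the kernel direction `S` -/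
def Gk1 (w : Ω → ℝ) (L : List (Lv Ω)) (h : Ω → ℝ) (S : ℕ → Ω → Ω → ℝ) : ℝ :=
  TE w .one L h (fun x => S L.length (x ()) (x ())) -
    ∑ j ∈ Finset.range (L.length + 1), dm L 0 j *
      TE w (Sh.two j) L h fun x => S j (x (Sh.twoL j)) (x (Sh.twoR j))

/-- second variation: the derivative of `Gk1 w L h S'` in the kernel direction `S` -/
def Bq2 (w : Ω → ℝ) (L : List (Lv Ω)) (h : Ω → ℝ) (S' S : ℕ → Ω → Ω → ℝ) : ℝ :=
  dT w .one L h S (fun x => S' L.length (x ()) (x ())) -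
    ∑ j ∈ Finset.range (L.length + 1), dm L 0 j *
      dT w (Sh.two j) L h S fun x => S' j (x (Sh.twoL j)) (x (Sh.twoR j))

namespace SA52

theorem two_ne : ∀ j : ℕ, Sh.twoL j ≠ Sh.twoR j
  | 0 => Sum.inl_ne_inr
  | j + 1 => two_ne j

theorem Gk1_same (hw : Wt w) {M M' : List (Lv Ω)} (H : List.Forall₂ Same M M') (h : Ω → ℝ)
    (S : ℕ → Ω → Ω → ℝ) : Gk1 w M h S = Gk1 w M' h S := by
  simp only [Gk1, H.length_eq, (tl_same H).dm, Law.TE_same hw _ H]

theorem Bq2_same (hw : Wt w) {M M' : List (Lv Ω)} (H : List.Forall₂ Same M M') (h : Ω → ℝ)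
    (S' S : ℕ → Ω → Ω → ℝ) : Bq2 w M h S' S = Bq2 w M' h S' S := by
  simp only [Bq2, H.length_eq, (tl_same H).dm, dT_same52 hw _ H]

theorem Gk1_eq (hw : Wt w) (L : List (Lv Ω)) (h : Ω → ℝ) {S : ℕ → Ω → Ω → ℝ}
    (hS : ∀ j x y, S j x y = S j y x) :
    Gk1 w L h S = Pf w L h (fun x => S L.length x x) - pair w L 0 S h := by
  rw [Gk1, Law.TE_one hw, pair_eq_sum hw]
  congr 1
  exact Finset.sum_congr rfl fun j _ => by rw [Law.TE_two hw (S j) j L h _ _ (two_ne j) (hS j)]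

theorem atL_tl (L : List (TL Ω)) (t u : ℝ) : Tl (atL L t) (atL L u) := tl_map L fun _ => rfl

theorem hasDerivAt_X' (hw : Wt w) {I : Set ℝ} (hI : IsOpen I) {L : List (TL Ω)}
    (hL : ∀ l ∈ L, l.C1 I) {u : ℝ} (hu : u ∈ I) (h : Ω → ℝ)
    (hS : ∀ j x y, Sacc L u j x y = Sacc L u j y x) :
    HasDerivAt (fun t => X w (atL L t) h) (Gk1 w (atL L u) h (Sacc L u)) u := by
  refine (hasDerivAt_X hw hI hL hu (b := fun _ => h) (b' := 0)
    fun x => hasDerivAt_const u (h x)).congr_deriv ?_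
  rw [Gk1_eq hw _ h hS, DX, Sp38.len_at]
  simp [Pf]

theorem hasDerivAt_Gk1 (hw : Wt w) {I : Set ℝ} (hI : IsOpen I) {L : List (TL Ω)}
    (hL : ∀ l ∈ L, l.C1 I) {u : ℝ} (hu : u ∈ I) (h : Ω → ℝ) (S' : ℕ → Ω → Ω → ℝ) :
    HasDerivAt (fun t => Gk1 w (atL L t) h S') (Bq2 w (atL L u) h S' (Sacc L u)) u := by
  simp only [Gk1, Bq2, Sp38.len_at, fun t => (atL_tl L t u).dm]
  exact (hasDerivAt_tX_t hw hI hL hu .one h _).sub (HasDerivAt.fun_sum fun j _ =>
    (hasDerivAt_tX_t hw hI hL hu (Sh.two j) h _).const_mul _)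

theorem continuousOn_Gk1 (hw : Wt w) {I : Set ℝ} {L : List (TL Ω)} (hL : ∀ l ∈ L, l.OkC I)
    (h : Ω → ℝ) (S' : ℕ → Ω → Ω → ℝ) : ContinuousOn (fun t => Gk1 w (atL L t) h S') I := by
  simp only [Gk1, Sp38.len_at, fun t => (atL_tl L t 0).dm]
  exact (Sp38.continuousOn_tX hw hL .one h _).sub (continuousOn_finsetSum _ fun j _ =>
    continuousOn_const.mul (Sp38.continuousOn_tX hw hL (Sh.two j) h _))

/-! ### Schwarz at a corner -/

theorem mvt2 {f g G : ℝ → ℝ → ℝ} {e : ℝ} (he : 0 < e) (he1 : e ≤ 1)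
    (c1 : ∀ t ∈ Icc (0 : ℝ) 1, ContinuousOn (fun s => f s t) (Icc 0 1))
    (d1 : ∀ t ∈ Icc (0 : ℝ) 1, ∀ s ∈ Ioo (0 : ℝ) 1, HasDerivAt (fun s => f s t) (g s t) s)
    (c2 : ∀ s ∈ Icc (0 : ℝ) 1, ContinuousOn (g s) (Icc 0 1))
    (d2 : ∀ s ∈ Icc (0 : ℝ) 1, ∀ t ∈ Ioo (0 : ℝ) 1, HasDerivAt (g s) (G s t) t) :
    ∃ s ∈ Ioo 0 e, ∃ t ∈ Ioo 0 e, f e e - f e 0 - (f 0 e - f 0 0) = e * e * G s t := by
  have hI : Icc 0 e ⊆ Icc (0 : ℝ) 1 := Icc_subset_Icc le_rfl he1
  have hO : Ioo 0 e ⊆ Ioo (0 : ℝ) 1 := Ioo_subset_Ioo le_rfl he1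
  have h0 : (0 : ℝ) ∈ Icc (0 : ℝ) 1 := ⟨le_rfl, zero_le_one⟩
  have h1 : e ∈ Icc (0 : ℝ) 1 := ⟨he.le, he1⟩
  obtain ⟨s, hs, e1⟩ := exists_hasDerivAt_eq_slope (fun s => f s e - f s 0) (fun s => g s e - g s 0)
    he (((c1 e h1).sub (c1 0 h0)).mono hI) fun s hs => (d1 e h1 s (hO hs)).sub (d1 0 h0 s (hO hs))
  have hs' : s ∈ Icc (0 : ℝ) 1 := Ioo_subset_Icc_self (hO hs)
  obtain ⟨t, ht, e2⟩ := exists_hasDerivAt_eq_slope (g s) (G s) he ((c2 s hs').mono hI)
    fun t ht => d2 s hs' t (hO ht)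
  refine ⟨s, hs, t, ht, ?_⟩
  rw [e2, e1, sub_zero, div_div, mul_div_cancel₀ _ (mul_pos he he).ne']

/-- functions with a Lipschitz bound at the corner -/
def LipC : Submodule ℝ (ℝ × ℝ → ℝ) where
  carrier := {φ | ∃ C, ∀ s ∈ Icc (0 : ℝ) 1, ∀ t ∈ Icc (0 : ℝ) 1, |φ (s, t) - φ (0, 0)| ≤ C * (s + t)}
  zero_mem' := ⟨0, fun _ _ _ _ => by simp⟩
  add_mem' := by
    rintro φ ψ ⟨C, hC⟩ ⟨D, hD⟩
    refine ⟨C + D, fun s hs t ht => ?_⟩
    have := abs_add_le (φ (s, t) - φ (0, 0)) (ψ (s, t) - ψ (0, 0))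
    simp only [Pi.add_apply]
    rw [show φ (s, t) + ψ (s, t) - (φ (0, 0) + ψ (0, 0)) =
      φ (s, t) - φ (0, 0) + (ψ (s, t) - ψ (0, 0)) by ring]
    linarith [hC s hs t ht, hD s hs t ht]
  smul_mem' := by
    rintro c φ ⟨C, hC⟩
    refine ⟨|c| * C, fun s hs t ht => ?_⟩
    simp only [Pi.smul_apply, smul_eq_mul]
    rw [← mul_sub, abs_mul, mul_assoc]
    exact mul_le_mul_of_nonneg_left (hC s hs t ht) (abs_nonneg c)

/-- bounded functions -/
def Bdd (P : Type) : Submodule ℝ (P → ℝ) where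
  carrier := {φ | ∃ C, ∀ p, |φ p| ≤ C}
  zero_mem' := ⟨0, fun _ => by simp⟩
  add_mem' := by
    rintro φ ψ ⟨C, hC⟩ ⟨D, hD⟩
    exact ⟨C + D, fun p => (abs_add_le _ _).trans (add_le_add (hC p) (hD p))⟩
  smul_mem' := by
    rintro c φ ⟨C, hC⟩
    refine ⟨|c| * C, fun p => ?_⟩
    simp only [Pi.smul_apply, smul_eq_mul]
    rw [abs_mul]
    exact mul_le_mul_of_nonneg_left (hC p) (abs_nonneg c)

theorem dT_mem {P : Type} (N : Submodule ℝ (P → ℝ)) (s : Sh) {M : P → List (Lv Ω)}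
    {M₀ : List (Lv Ω)} (hM : ∀ p, Tl (M p) M₀) (h : Ω → ℝ)
    (H : ∀ s' F', (fun p => TE w s' (M p) h F') ∈ N) (S : ℕ → Ω → Ω → ℝ) (F : (s.Lf → Ω) → ℝ) :
    (fun p => dT w s (M p) h S F) ∈ N := by
  have e : (fun p => dT w s (M p) h S F) = dS s M₀ fun s' e j u v p =>
      TE w s' (M p) h fun x => F (fun c => x (e c)) * S j (x u) (x v) :=
    funext fun p => by rw [dS_apply, dT_eq, (hM p).dS]
  rw [e]
  exact dS_mem s M₀ N fun _ _ _ _ _ _ _ => H _ _

theorem Bq2_mem {P : Type} (N : Submodule ℝ (P → ℝ)) {M : P → List (Lv Ω)}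
    {M₀ : List (Lv Ω)} (hM : ∀ p, Tl (M p) M₀) (h : Ω → ℝ)
    (H : ∀ s' F', (fun p => TE w s' (M p) h F') ∈ N) (S' S : ℕ → Ω → Ω → ℝ) :
    (fun p => Bq2 w (M p) h S' S) ∈ N := by
  have e : (fun p => Bq2 w (M p) h S' S) =
      (fun p => dT w .one (M p) h S fun x => S' M₀.length (x ()) (x ())) -
        ∑ j ∈ Finset.range (M₀.length + 1), dm M₀ 0 j • fun p =>
          dT w (Sh.two j) (M p) h S fun x => S' j (x (Sh.twoL j)) (x (Sh.twoR j)) :=
    funext fun p => by simp only [Bq2, (hM p).len, (hM p).dm, Pi.sub_apply, Finset.sum_apply,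
      Pi.smul_apply, smul_eq_mul]
  rw [e]
  exact N.sub_mem (dT_mem N _ hM h H S _) (N.sum_mem fun j _ => N.smul_mem _ (dT_mem N _ hM h H S _))

theorem TE_bdd (hw : Wt w) {P : Type} (M : P → List (Lv Ω)) (h : Ω → ℝ) (s : Sh)
    (F : (s.Lf → Ω) → ℝ) : (fun p => TE w s (M p) h F) ∈ Bdd P := by
  classical
  refine ⟨∑ x, |F x|, fun p => (Law.abs_TE_le hw s _ h F).trans ?_⟩
  refine (Law.TE_mono hw s _ h (G := fun _ => ∑ x, |F x|) fun x => ?_).trans
    (Law.TE_const hw s _ h _).le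
  exact Finset.single_le_sum (f := fun x => |F x|) (fun _ _ => abs_nonneg _) (Finset.mem_univ x)

/-! ### the two-parameter family -/

/-- covariance `b + t k` -/
def t1 (b k : Lv Ω) : TL Ω :=
  ⟨b.ι ⊕ k.ι, fun t x => Sum.elim (b.A x) fun i => √t * k.A x i,
    fun t x => Sum.elim 0 fun i => 1 / (2 * √t) * k.A x i, b.m⟩

theorem t1_cov (b k : Lv Ω) {t : ℝ} (ht : 0 ≤ t) (x y : Ω) :
    ((t1 b k).at t).cov x y = b.cov x y + t * k.cov x y := by
  refine (Fintype.sum_sum_type (α₁ := b.ι) (α₂ := k.ι) _).trans ?_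
  congr 1
  rw [Lv.cov, Finset.mul_sum]
  refine Finset.sum_congr rfl fun i _ => ?_
  show √t * k.A x i * (√t * k.A y i) = _
  linear_combination (k.A x i * k.A y i) * mul_self_sqrt ht

theorem t1_S (b k : Lv Ω) {t : ℝ} (ht : 0 < t) (x y : Ω) :
    (t1 b k).S t x y = 1 / 2 * k.cov x y := by
  refine (Fintype.sum_sum_type (α₁ := b.ι) (α₂ := k.ι) _).trans ?_
  rw [Lv.cov, Finset.mul_sum]
  refine (congrArg₂ (· + ·) (Finset.sum_eq_zero fun i _ => zero_mul _)
    (Finset.sum_congr rfl fun i _ => ?_)).trans (zero_add _)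
  show 1 / (2 * √t) * k.A x i * (√t * k.A y i) = _
  have := (sqrt_pos.2 ht).ne'
  field_simp

theorem t1_c1 (b k : Lv Ω) : (t1 b k).C1 (Ioi 0) := by
  refine ⟨fun t ht x i => ?_, fun x i => ?_⟩
  · rcases i with i | i
    · exact hasDerivAt_const _ _
    · exact (hasDerivAt_sqrt (ne_of_gt ht)).mul_const _
  · rcases i with i | i
    · exact continuousOn_const
    · refine ContinuousOn.mul (ContinuousOn.div continuousOn_const (by fun_prop) fun t ht => ?_)
        continuousOn_const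
      have := sqrt_pos.2 (show (0 : ℝ) < t from ht)
      positivity

theorem t1_okC (b k : Lv Ω) : (t1 b k).OkC (Icc 0 1) :=
  TL.okC_of_compact isCompact_Icc fun x i => by
    rcases i with i | i
    · exact continuousOn_const
    · show ContinuousOn (fun t => √t * k.A x i) _
      fun_prop

variable {α : Type}

/-- half the accumulated covariance -/
def hk (T : List α) (k : α → Lv Ω) (j : ℕ) (x y : Ω) : ℝ := 1 / 2 * cacc (T.map k) j x y

theorem hk_symm (T : List α) (k : α → Lv Ω) (j : ℕ) (x y : Ω) : hk T k j x y = hk T k j y x := by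
  simp only [hk, cacc, Lv.cov, mul_comm]

theorem Sacc_t1 (T : List α) (b k : α → Lv Ω) {t : ℝ} (ht : 0 < t) :
    Sacc (T.map fun p => t1 (b p) (k p)) t = hk T k := by
  funext j x y
  simp only [Sacc, hk, cacc, ← List.map_take, List.map_map, Function.comp_def, t1_S _ _ ht,
    List.sum_map_mul_left]

/-- the cascade with covariances `b + s k + t k'` -/
def Q2 (T : List α) (b k k' : α → Lv Ω) (s t : ℝ) : List (Lv Ω) :=
  atL (T.map fun p => t1 ((t1 (b p) (k' p)).at t) (k p)) s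

theorem Q2_swap (T : List α) (b k k' : α → Lv Ω) {s t : ℝ} (hs : 0 ≤ s) (ht : 0 ≤ t) :
    List.Forall₂ Same (Q2 T b k k' s t) (Q2 T b k' k t s) := by
  simp only [Q2, atL, List.map_map]
  refine fa2_map _ _ T fun p _ => ⟨rfl, funext fun x => funext fun y => ?_⟩
  simp only [Function.comp, t1_cov _ _ hs, t1_cov _ _ ht]
  ring

theorem Q2_zero (T : List α) (b k k' : α → Lv Ω) :
    List.Forall₂ Same (Q2 T b k k' 0 0) (T.map b) := by
  simp only [Q2, atL, List.map_map]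
  refine fa2_map _ _ T fun p _ => ⟨rfl, funext fun x => funext fun y => ?_⟩
  simp only [Function.comp, t1_cov _ _ le_rfl]
  ring

theorem Q2_tl (T : List α) (b k k' : α → Lv Ω) (s t : ℝ) : Tl (Q2 T b k k' s t) (T.map b) := by
  simp only [Q2, atL, List.map_map]
  exact tl_map T fun _ => rfl

theorem c1_map (T : List α) (b k : α → Lv Ω) :
    ∀ l ∈ T.map fun p => t1 (b p) (k p), l.C1 (Ioi 0) := fun l hl => by
  obtain ⟨p, -, rfl⟩ := List.mem_map.1 hl
  exact t1_c1 _ _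

theorem okC_map (T : List α) (b k : α → Lv Ω) :
    ∀ l ∈ T.map fun p => t1 (b p) (k p), l.OkC (Icc 0 1) := fun l hl => by
  obtain ⟨p, -, rfl⟩ := List.mem_map.1 hl
  exact t1_okC _ _

theorem TE_lip1 (hw : Wt w) (T : List α) (b k k' : α → Lv Ω) (h : Ω → ℝ) (s' : Sh)
    (F : (s'.Lf → Ω) → ℝ) : ∃ C, ∀ s ∈ Icc (0 : ℝ) 1, ∀ t,
      |TE w s' (Q2 T b k k' s t) h F - TE w s' (Q2 T b k k' 0 t) h F| ≤ C * s := by
  obtain ⟨C, hC⟩ := dT_mem (Bdd (ℝ × ℝ)) s' (fun p => Q2_tl T b k k' p.1 p.2) h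
    (TE_bdd hw _ h) (hk T k) F
  refine ⟨C, fun s hs t => ?_⟩
  rcases hs.1.eq_or_lt with rfl | h0
  · simp
  obtain ⟨u, hu, e⟩ := exists_hasDerivAt_eq_slope (fun s => TE w s' (Q2 T b k k' s t) h F)
    (fun s => dT w s' (Q2 T b k k' s t) h (hk T k) F) h0
    ((Sp38.continuousOn_tX hw (okC_map T _ k) s' h F).mono (Icc_subset_Icc le_rfl hs.2))
    fun u hu => by
      have := hasDerivAt_tX_t hw isOpen_Ioi (c1_map T (fun p => (t1 (b p) (k' p)).at t) k) hu.1 s' h F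
      rwa [Sacc_t1 T _ k hu.1] at this
  have : |dT w s' (Q2 T b k k' u t) h (hk T k) F| ≤ C := hC (u, t)
  rw [e, sub_zero, abs_div, abs_of_pos h0, div_le_iff₀ h0] at this
  exact this

theorem TE_lip (hw : Wt w) (T : List α) (b k k' : α → Lv Ω) (h : Ω → ℝ) (s' : Sh)
    (F : (s'.Lf → Ω) → ℝ) : (fun p : ℝ × ℝ => TE w s' (Q2 T b k k' p.1 p.2) h F) ∈ LipC := by
  obtain ⟨C, hC⟩ := TE_lip1 hw T b k k' h s' F
  obtain ⟨D, hD⟩ := TE_lip1 hw T b k' k h s' F
  refine ⟨max C D, fun s hs t ht => ?_⟩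
  have h1 := hC s hs t
  have h2 := hD t ht 0
  rw [← Law.TE_same hw s' (Q2_swap T b k k' le_rfl ht.1),
    ← Law.TE_same hw s' (Q2_swap T b k k' le_rfl le_rfl)] at h2
  have h3 := abs_sub_le (TE w s' (Q2 T b k k' s t) h F) (TE w s' (Q2 T b k k' 0 t) h F)
    (TE w s' (Q2 T b k k' 0 0) h F)
  have h4 := mul_le_mul_of_nonneg_right (le_max_left C D) hs.1
  have h5 := mul_le_mul_of_nonneg_right (le_max_right C D) ht.1
  simp only
  linarith

theorem corner (hw : Wt w) (T : List α) (b k k' : α → Lv Ω) (h : Ω → ℝ) {e : ℝ} (he : 0 < e)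
    (he1 : e ≤ 1) : ∃ s ∈ Ioo 0 e, ∃ t ∈ Ioo 0 e,
      X w (Q2 T b k k' e e) h - X w (Q2 T b k k' e 0) h -
        (X w (Q2 T b k k' 0 e) h - X w (Q2 T b k k' 0 0) h) =
      e * e * Bq2 w (Q2 T b k k' s t) h (hk T k) (hk T k') := by
  refine mvt2 (f := fun s t => X w (Q2 T b k k' s t) h)
    (g := fun s t => Gk1 w (Q2 T b k k' s t) h (hk T k))
    (G := fun s t => Bq2 w (Q2 T b k k' s t) h (hk T k) (hk T k')) he he1
    (fun t _ => continuousOn_X hw (okC_map T _ k) (b := fun _ => h) fun _ => continuousOn_const)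
    (fun t _ s hs => ?_) (fun s hs => ?_) fun s hs t ht => ?_
  · have := hasDerivAt_X' hw isOpen_Ioi (c1_map T (fun p => (t1 (b p) (k' p)).at t) k) hs.1 h
      (by rw [Sacc_t1 T _ k hs.1]; exact hk_symm T k)
    rwa [Sacc_t1 T _ k hs.1] at this
  · exact (continuousOn_Gk1 hw (okC_map T (fun p => (t1 (b p) (k p)).at s) k') h (hk T k)).congr
      fun t ht => Gk1_same hw (Q2_swap T b k k' hs.1 ht.1) h _
  · have := hasDerivAt_Gk1 hw isOpen_Ioi (c1_map T (fun p => (t1 (b p) (k p)).at s) k') ht.1 h (hk T k)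
    rw [Sacc_t1 T _ k' ht.1] at this
    rw [Bq2_same hw (Q2_swap T b k k' hs.1 ht.1.le)]
    refine this.congr_of_eventuallyEq ?_
    filter_upwards [Ioi_mem_nhds ht.1] with u hu
    exact Gk1_same hw (Q2_swap T b k k' hs.1 (le_of_lt hu)) h _

theorem Bq2_hk (hw : Wt w) (T : List α) (b k k' : α → Lv Ω) (h : Ω → ℝ) :
    Bq2 w (T.map b) h (hk T k) (hk T k') = Bq2 w (T.map b) h (hk T k') (hk T k) := by
  obtain ⟨C, hC⟩ := Bq2_mem LipC (fun p : ℝ × ℝ => Q2_tl T b k k' p.1 p.2) h (TE_lip hw T b k k' h)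
    (hk T k) (hk T k')
  obtain ⟨D, hD⟩ := Bq2_mem LipC (fun p : ℝ × ℝ => Q2_tl T b k' k p.1 p.2) h (TE_lip hw T b k' k h)
    (hk T k') (hk T k)
  simp only [Bq2_same hw (Q2_zero T b _ _)] at hC hD
  refine eq_of_forall_dist_le fun ε hε => ?_
  set e := min 1 (ε / (2 * (|C| + |D| + 1))) with he
  have hp : 0 < 2 * (|C| + |D| + 1) := by positivity
  have e0 : 0 < e := lt_min one_pos (by positivity)
  have e1 : e ≤ 1 := min_le_left _ _
  have e2 : e * (2 * (|C| + |D| + 1)) ≤ ε := (le_div_iff₀ hp).1 (min_le_right _ _)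
  obtain ⟨s, hs, t, ht, E⟩ := corner hw T b k k' h e0 e1
  obtain ⟨s', hs', t', ht', E'⟩ := corner hw T b k' k h e0 e1
  rw [X_same hw (Q2_swap T b k' k e0.le e0.le), X_same hw (Q2_swap T b k' k e0.le le_rfl),
    X_same hw (Q2_swap T b k' k le_rfl e0.le), X_same hw (Q2_swap T b k' k le_rfl le_rfl)] at E'
  have E2 : Bq2 w (Q2 T b k k' s t) h (hk T k) (hk T k') =
      Bq2 w (Q2 T b k' k s' t') h (hk T k') (hk T k) :=
    mul_left_cancel₀ (mul_pos e0 e0).ne' (by linarith)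
  have m : ∀ {u : ℝ}, u ∈ Ioo 0 e → u ∈ Icc (0 : ℝ) 1 := fun hu => ⟨hu.1.le, hu.2.le.trans e1⟩
  have h1 := hC s (m hs) t (m ht)
  have h2 := hD s' (m hs') t' (m ht')
  rw [E2] at h1
  have h3 : C * (s + t) ≤ |C| * (2 * e) := (mul_le_mul_of_nonneg_right (le_abs_self C)
    (by linarith [hs.1, ht.1])).trans (mul_le_mul_of_nonneg_left (by linarith [hs.2, ht.2])
      (abs_nonneg C))
  have h4 : D * (s' + t') ≤ |D| * (2 * e) := (mul_le_mul_of_nonneg_right (le_abs_self D)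
    (by linarith [hs'.1, ht'.1])).trans (mul_le_mul_of_nonneg_left (by linarith [hs'.2, ht'.2])
      (abs_nonneg D))
  rw [Real.dist_eq, abs_le]
  rw [abs_le] at h1 h2
  constructor <;> nlinarith [h1.1, h1.2, h2.1, h2.2]

open Classical in
/-- a symmetric kernel is a difference of two covariances -/
def pm (D : Ω → Ω → ℝ) (σ : ℝ) : Lv Ω :=
  ⟨Ω, fun x i => (D x i + σ * if x = i then 1 else 0) / 2, 0⟩

theorem pm_cov {D : Ω → Ω → ℝ} (hD : ∀ x y, D x y = D y x) (x y : Ω) :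
    (pm D 1).cov x y - (pm D (-1)).cov x y = D x y := by
  classical
  have e : (pm D 1).cov x y - (pm D (-1)).cov x y = ∑ i : Ω,
      ((if y = i then D x i / 2 else 0) + if x = i then D y i / 2 else 0) := by
    refine (Finset.sum_sub_distrib (s := Finset.univ) (fun i : Ω => (pm D 1).A x i * (pm D 1).A y i)
      fun i : Ω => (pm D (-1)).A x i * (pm D (-1)).A y i).symm.trans ?_
    refine Finset.sum_congr rfl fun i _ => ?_
    simp only [pm]
    split_ifs <;> ring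
  rw [e, Finset.sum_add_distrib, Finset.sum_ite_eq, Finset.sum_ite_eq, if_pos (Finset.mem_univ _),
    if_pos (Finset.mem_univ _), hD y x]
  ring

theorem ex_hk (K : ℕ) {S : ℕ → Ω → Ω → ℝ} (hS : ∀ j x y, S j x y = S j y x)
    (h0 : ∀ x y, S 0 x y = 0) : ∃ k k' : ℕ → Lv Ω, ∀ j ≤ K, ∀ x y,
      S j x y = hk (List.range K) k j x y - hk (List.range K) k' j x y := by
  refine ⟨fun i => pm (fun x y => 2 * (S (i + 1) x y - S i x y)) 1,
    fun i => pm (fun x y => 2 * (S (i + 1) x y - S i x y)) (-1), fun j hj x y => ?_⟩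
  simp only [hk, cacc, ← List.map_take, List.take_range, min_eq_left hj, List.map_map]
  clear hj
  induction j with
  | zero => simp [h0]
  | succ j ih =>
    have := pm_cov (D := fun x y => 2 * (S (j + 1) x y - S j x y))
      (fun x y => by rw [hS _ x y, hS j x y]) x y
    simp only [List.range_succ, List.map_append, List.sum_append, List.map_cons, List.map_nil,
      List.sum_cons, List.sum_nil, Function.comp] at ih ⊢
    linarith

theorem Bq2_congr (L : List (Lv Ω)) (h : Ω → ℝ) {S₁ S₂ S₁' S₂' : ℕ → Ω → Ω → ℝ}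
    (H' : ∀ j ≤ L.length, ∀ x y, S₁' j x y = S₂' j x y)
    (H : ∀ j ≤ L.length, ∀ x y, S₁ j x y = S₂ j x y) : Bq2 w L h S₁' S₁ = Bq2 w L h S₂' S₂ := by
  simp only [Bq2, dT_congr52 _ L h H, H' _ le_rfl]
  congr 1
  exact Finset.sum_congr rfl fun j hj => by
    simp only [H' j (Nat.lt_succ_iff.1 (Finset.mem_range.1 hj))]

theorem Bq2_sub (hw : Wt w) (L : List (Lv Ω)) (h : Ω → ℝ) (A A' B B' : ℕ → Ω → Ω → ℝ) :
    Bq2 w L h (fun j x y => A j x y - A' j x y) (fun j x y => B j x y - B' j x y) =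
      Bq2 w L h A B - Bq2 w L h A B' - (Bq2 w L h A' B - Bq2 w L h A' B') := by
  simp only [Bq2, dT_subS52 hw, dT_subF52 hw, mul_sub, Finset.sum_sub_distrib]
  ring

end SA52

/-- **self-adjointness** -/
theorem Bq2_symm (hw : Wt w) (L : List (Lv Ω)) (h : Ω → ℝ) {S S' : ℕ → Ω → Ω → ℝ}
    (hS : ∀ j x y, S j x y = S j y x) (h0 : ∀ x y, S 0 x y = 0)
    (hS' : ∀ j x y, S' j x y = S' j y x) (h0' : ∀ x y, S' 0 x y = 0) :
    Bq2 w L h S' S = Bq2 w L h S S' := by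
  obtain ⟨k, k', e⟩ := ex_hk L.length hS h0
  obtain ⟨l, l', e'⟩ := ex_hk L.length hS' h0'
  have hL : (List.range L.length).map (fun i => L.getD i ⟨Empty, fun _ => Empty.elim, 0⟩) = L :=
    List.ext_getElem (by simp) fun i h1 h2 => by simp [List.getElem?_eq_getElem h2]
  have key := Bq2_hk hw (List.range L.length) (fun i => L.getD i ⟨Empty, fun _ => Empty.elim, 0⟩)
  rw [hL] at key
  rw [Bq2_congr L h e' e, Bq2_congr L h e e', Bq2_sub hw, Bq2_sub hw, key l k, key l k', key l' k,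
    key l' k']
  ring

/-- constants have `dT = 0` for every symmetric kernel family -/
theorem dT_one52 (hw : Wt w) (s : Sh) (L : List (Lv Ω)) (h : Ω → ℝ) {S : ℕ → Ω → Ω → ℝ}
    (hS : ∀ j x y, S j x y = S j y x) (h0 : ∀ x y, S 0 x y = 0) (c : ℝ) :
    dT w s L h S (fun _ => c) = 0 := by
  obtain ⟨k, k', e⟩ := ex_hk L.length hS h0
  set b : ℕ → Lv Ω := fun i => L.getD i ⟨Empty, fun _ => Empty.elim, 0⟩
  have hL : (List.range L.length).map b = L :=
    List.ext_getElem (by simp) fun i h1 h2 => by simp [b, List.getElem?_eq_getElem h2]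
  have key : ∀ k : ℕ → Lv Ω, dT w s L h (hk (List.range L.length) k) (fun _ => c) = 0 := fun k => by
    obtain ⟨C, hC⟩ := dT_mem LipC s (fun p : ℝ × ℝ => Q2_tl (List.range L.length) b k k p.1 p.2) h
      (TE_lip hw _ b k k h) (hk (List.range L.length) k) fun _ => c
    simp only [dT_same52 hw s (Q2_zero _ b k k), hL] at hC
    refine eq_of_forall_dist_le fun ε hε => ?_
    set u := min 1 (ε / (|C| + 1)) with hu
    have hp : 0 < |C| + 1 := by positivity
    have u0 : 0 < u := lt_min one_pos (by positivity)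
    have u2 : u * (|C| + 1) ≤ ε := (le_div_iff₀ hp).1 (min_le_right _ _)
    have h1 := hC u ⟨u0.le, min_le_left _ _⟩ 0 ⟨le_rfl, zero_le_one⟩
    have h2 := dT_const52 hw s isOpen_Ioi
      (c1_map (List.range L.length) (fun p => (t1 (b p) (k p)).at 0) k) u0 h c
    rw [Sacc_t1 _ _ k u0] at h2
    rw [show dT w s (Q2 (List.range L.length) b k k u 0) h _ _ = 0 from h2, zero_sub, abs_neg] at h1
    rw [Real.dist_eq, sub_zero]
    nlinarith [le_abs_self C]
  rw [dT_congr52 s L h e, dT_subS52 hw, key, key, sub_zero]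

/-- if the top kernels are constant on the diagonal only the pair terms survive -/
theorem selfadj_pairs (hw : Wt w) (L : List (Lv Ω)) (h : Ω → ℝ) {S S' : ℕ → Ω → Ω → ℝ}
    (hS : ∀ j x y, S j x y = S j y x) (h0 : ∀ x y, S 0 x y = 0)
    (hS' : ∀ j x y, S' j x y = S' j y x) (h0' : ∀ x y, S' 0 x y = 0) {c c' : ℝ}
    (hc : ∀ x, S L.length x x = c) (hc' : ∀ x, S' L.length x x = c') :
    ∑ j ∈ Finset.range (L.length + 1), dm L 0 j *
        dT w (Sh.two j) L h S (fun x => S' j (x (Sh.twoL j)) (x (Sh.twoR j))) =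
      ∑ j ∈ Finset.range (L.length + 1), dm L 0 j *
        dT w (Sh.two j) L h S' fun x => S j (x (Sh.twoL j)) (x (Sh.twoR j)) := by
  have := Bq2_symm hw L h hS h0 hS' h0'
  simp only [Bq2, hc, hc', dT_one52 hw _ L h hS h0, dT_one52 hw _ L h hS' h0'] at this
  linarith

/-- **the first-order term of the tested cavity equation** at the product endpoint (bulk × site):
row kernel `U j ⊗ z`, test kernel `σ j • z` -/
theorem selfadj_prd {Ω₁ Ω₂ : Type} [Fintype Ω₁] [Fintype Ω₂] {w₁ : Ω₁ → ℝ} {w₂ : Ω₂ → ℝ}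
    (h₁ : Wt w₁) (h₂ : Wt w₂) {L : List (Lv (Ω₁ × Ω₂))} {T : List (Lv Ω₁ × Lv Ω₂)}
    (H : List.Forall₂ Prd L T) (z₁ : Ω₁ → ℝ) (z₂ : Ω₂ → ℝ) {U : ℕ → Ω₁ → Ω₁ → ℝ}
    (hU : ∀ j x y, U j x y = U j y x) (hU0 : ∀ x y, U 0 x y = 0) {c : ℝ}
    (hc : ∀ x, U L.length x x = c) {z : Ω₂ → Ω₂ → ℝ} (hz : ∀ x y, z x y = z y x) {v : ℝ}
    (hv : ∀ x, z x x = v) {σ : ℕ → ℝ} (hσ : σ 0 = 0) :
    ∑ j ∈ Finset.range (L.length + 1), dm L 0 j * (σ j *
        dT (pw2 w₁ w₂) (Sh.two j) L (ad z₁ z₂) (fun j x y => U j x.1 y.1 * z x.2 y.2)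
          fun x => z (x (Sh.twoL j)).2 (x (Sh.twoR j)).2) =
      ∑ j ∈ Finset.range (L.length + 1), dm L 0 j * (pi2 w₁ (T.map Prod.fst) j (U j) z₁ *
        dT w₂ (Sh.two j) (T.map Prod.snd) z₂ (fun j x y => σ j * z x y)
          fun x => z (x (Sh.twoL j)) (x (Sh.twoR j))) := by
  have hw := Law.wt_pw2 h₁ h₂
  have := selfadj_pairs hw L (ad z₁ z₂) (S := fun j x y => U j x.1 y.1 * z x.2 y.2)
    (S' := fun j x y => σ j * z x.2 y.2) (c := c * v) (c' := σ L.length * v)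
    (fun j x y => by rw [hU, hz]) (fun x y => by rw [hU0, zero_mul]) (fun j x y => by rw [hz])
    (fun x y => by rw [hσ, zero_mul]) (fun x => by rw [hc, hv]) fun x => by rw [hv]
  simp only [dT_mulF52 hw] at this
  rw [this]
  refine Finset.sum_congr rfl fun j _ => ?_
  rw [← Law.TE_two h₁ (U j) j _ z₁ _ _ (two_ne j) (hU j)]
  exact congrArg _ (dT_prd52 h₁ h₂ (Sh.two j) H (fun x => U j (x (Sh.twoL j)) (x (Sh.twoR j)))
    (fun x => z (x (Sh.twoL j)) (x (Sh.twoR j))) z₁ z₂ fun j x y => σ j * z x y)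

/-- variance moves in replica form -/
theorem hasDerivAt_TE_mat52 (hw : Wt w) {I : Set ℝ} (hI : IsOpen I) (s : Sh) {L : List (ML Ω)}
    (hL : ∀ p ∈ L, p.Ok I) (h : Ω → ℝ) (F : (s.Lf → Ω) → ℝ) {t : ℝ} (ht : t ∈ I) :
    HasDerivAt (fun t => TE w s (mat L t) h F) (dT w s (mat L t) h (dcov L t) F / 2) t := by
  have hC : ∀ k ∈ L.map ML.tl, k.C1 I := fun k hk => by
    obtain ⟨p, hp, rfl⟩ := List.mem_map.1 hk
    exact (hL p hp).c1
  have key : HasDerivAt (fun t => TE w s (atL (L.map ML.tl) t) h F) _ t :=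
    hasDerivAt_tX_t hw hI hC ht s h F
  have e : Sacc (L.map ML.tl) t = fun j y y' => 1 / 2 * dcov L t j y y' :=
    funext fun j => funext fun y => funext fun y' => Sacc_tl ht y y' L hL j
  simp only [atL_tl, e, dT_mulS52 hw] at key
  exact key.congr_deriv (by ring)

/-- the derivative of a pair expectation at fixed tilts (`Γ_j` for `K = z`) -/
theorem hasDerivAt_pi2_mat52 (hw : Wt w) {I : Set ℝ} (hI : IsOpen I) {L : List (ML Ω)}
    (hL : ∀ p ∈ L, p.Ok I) (h : Ω → ℝ) (j : ℕ) {K : Ω → Ω → ℝ} (hK : ∀ x y, K x y = K y x) {t : ℝ}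
    (ht : t ∈ I) : HasDerivAt (fun t => pi2 w (mat L t) j K h)
      (dT w (Sh.two j) (mat L t) h (dcov L t) (fun x => K (x (Sh.twoL j)) (x (Sh.twoR j))) / 2) t := by
  have := hasDerivAt_TE_mat52 hw hI (Sh.two j) hL h (fun x => K (x (Sh.twoL j)) (x (Sh.twoR j))) ht
  simpa only [Law.TE_two hw K j _ h _ _ (two_ne j) hK] using this

end Crest.Agent.T156.Cas

end
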