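import Crest.Agent.T156.PrB_28
import Crest.Agent.T156.One_15
import Crest.Agent.T156.SelfAdj_52
import Crest.Agent.T156.Sch_6

/-!
Row 156, ALT, text (P) (helper28): the node values `Γ(σ_j)`, `G(σ_j)`, `A(σ_j)`, `χ` are `C¹`
along every `C¹` path of node times; dictionary with the site cascade.
-/

set_option autoImplicit false
set_option linter.unusedSectionVars false

noncomputable section

namespace Crest.Agent.T156.Cas

open MeasureTheory Real Set Filter Topology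
open Crest.Agent.T157.E Crest.Agent.T157.Casc Crest.Agent.T157.SL Crest.Agent.T157.Casc.C
open Crest.ProbabilityR.SpinGlassDynamics (spin)

namespace D28

/-- `C¹` on `I` -/
def C1 (I : Set ℝ) (f : ℝ → ℝ) : Prop :=
  ∃ f' : ℝ → ℝ, (∀ t ∈ I, HasDerivAt f (f' t) t) ∧ ContinuousOn f' I

theorem C1.der {I : Set ℝ} {f : ℝ → ℝ} (h : C1 I f) {t : ℝ} (ht : t ∈ I) :
    HasDerivAt f (deriv f t) t := by
  obtain ⟨f', a, -⟩ := h
  exact (a t ht).differentiableAt.hasDerivAt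

theorem C1.cont' {I : Set ℝ} {f : ℝ → ℝ} (h : C1 I f) : ContinuousOn (deriv f) I := by
  obtain ⟨f', a, b⟩ := h
  exact b.congr fun t ht => (a t ht).deriv

theorem C1.cont {I : Set ℝ} {f : ℝ → ℝ} (h : C1 I f) : ContinuousOn f I :=
  fun _ ht => (h.der ht).continuousAt.continuousWithinAt

theorem C1.const (I : Set ℝ) (c : ℝ) : C1 I fun _ => c :=
  ⟨fun _ => 0, fun t _ => hasDerivAt_const t c, continuousOn_const⟩

theorem C1.sub {I : Set ℝ} {f g : ℝ → ℝ} (h : C1 I f) (h' : C1 I g) : C1 I fun t => f t - g t :=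
  ⟨_, fun _ ht => (h.der ht).sub (h'.der ht), h.cont'.sub h'.cont'⟩

theorem C1.add {I : Set ℝ} {f g : ℝ → ℝ} (h : C1 I f) (h' : C1 I g) : C1 I fun t => f t + g t :=
  ⟨_, fun _ ht => (h.der ht).add (h'.der ht), h.cont'.add h'.cont'⟩

theorem C1.mul {I : Set ℝ} {f g : ℝ → ℝ} (h : C1 I f) (h' : C1 I g) : C1 I fun t => f t * g t :=
  ⟨_, fun _ ht => (h.der ht).mul (h'.der ht), (h.cont'.mul h'.cont).add (h.cont.mul h'.cont')⟩

theorem C1.div {I : Set ℝ} {f g : ℝ → ℝ} (h : C1 I f) (h' : C1 I g) (h0 : ∀ t ∈ I, g t ≠ 0) :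
    C1 I fun t => f t / g t :=
  ⟨_, fun t ht => (h.der ht).div (h'.der ht) (h0 t ht),
    ((h.cont'.mul h'.cont).sub (h.cont.mul h'.cont')).div (h'.cont.pow 2)
      fun t ht => pow_ne_zero 2 (h0 t ht)⟩

theorem C1.congr {I : Set ℝ} (hI : IsOpen I) {f g : ℝ → ℝ} (h : C1 I f) (e : ∀ t ∈ I, g t = f t) :
    C1 I g :=
  ⟨_, fun _ ht => (h.der ht).congr_of_eventuallyEq (by
    filter_upwards [hI.mem_nhds ht] with u hu using e u hu), h.cont'⟩

variable {Ω : Type} [Fintype Ω] {w : Ω → ℝ}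

theorem dcov_cont {I : Set ℝ} (x y : Ω) : ∀ {L : List (ML Ω)}, (∀ p ∈ L, p.Ok I) → ∀ j,
    ContinuousOn (fun t => dcov L t j x y) I
  | [], _, j => by simp only [dcov_nil]; exact continuousOn_const
  | _ :: _, _, 0 => by simp only [dcov_zero]; exact continuousOn_const
  | p :: L, h, j + 1 => by
    simp only [dcov_cons]
    refine ContinuousOn.add (ContinuousOn.mul ?_ continuousOn_const)
      (dcov_cont x y (fun q hq => h q (List.mem_cons_of_mem _ hq)) j)
    rcases h p List.mem_cons_self with a | a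
    · exact a.2
    · exact continuousOn_const.congr fun t _ => (a t).2

theorem mat_m (L : List (ML Ω)) (s t : ℝ) : (mat L s).map Lv.m = (mat L t).map Lv.m := by
  simp only [mat, List.map_map]; rfl

theorem dT_cont (hw : Wt w) {I : Set ℝ} (hI : IsOpen I) (s : Sh) {L : List (ML Ω)}
    (hL : ∀ p ∈ L, p.Ok I) (h : Ω → ℝ) (F : (s.Lf → Ω) → ℝ) :
    ContinuousOn (fun t => dT w s (mat L t) h (dcov L t) F) I := by
  have cf : Sch6.CF w h (mat L 0) fun t : I => mat L t := ⟨fun t => mat_m L _ _, fun s x => by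
    simp only [Law.PT_eq]
    exact ContinuousOn.domRestrict (f := fun t => TE w s (mat L t) h _)
      fun t ht => (hasDerivAt_TE_mat52 hw hI s hL h _ ht).continuousAt.continuousWithinAt⟩
  exact continuousOn_iff_continuous_domRestrict.2 (cf.dT hw s (S := fun t : I => dcov L t)
    (fun j x y => (dcov_cont x y hL j).domRestrict)
    (F := fun _ => F) fun _ => continuous_const)

theorem c1_TE (hw : Wt w) {I : Set ℝ} (hI : IsOpen I) (s : Sh) {L : List (ML Ω)}
    (hL : ∀ p ∈ L, p.Ok I) (h : Ω → ℝ) (F : (s.Lf → Ω) → ℝ) : C1 I fun t => TE w s (mat L t) h F :=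
  ⟨_, fun _ ht => hasDerivAt_TE_mat52 hw hI s hL h F ht, (dT_cont hw hI s hL h F).div_const 2⟩

/-- a tree expectation for all lists with the tilts of `M` -/
def TR (w : Ω → ℝ) (M : List (Lv Ω)) (Φ : List (Lv Ω) → (Ω → ℝ) → ℝ) : Prop :=
  ∃ (s : Sh) (F : (s.Lf → Ω) → ℝ), ∀ L, L.map Lv.m = M.map Lv.m → ∀ z, Φ L z = TE w s L z F

variable {M : List (Lv Ω)} {Φ Ψ : List (Lv Ω) → (Ω → ℝ) → ℝ}

theorem TR.c1 (hw : Wt w) {I : Set ℝ} (hI : IsOpen I) {L : List (ML Ω)} (hL : ∀ p ∈ L, p.Ok I)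
    (H : TR w (mat L 0) Φ) (h : Ω → ℝ) : C1 I fun t => Φ (mat L t) h := by
  obtain ⟨s, F, e⟩ := H
  simp only [fun t => e (mat L t) (mat_m L t 0)]
  exact c1_TE hw hI s hL h F

theorem TR.congr (H : TR w M Φ) (e : ∀ L, L.map Lv.m = M.map Lv.m → ∀ z, Ψ L z = Φ L z) :
    TR w M Ψ := by
  obtain ⟨s, F, a⟩ := H
  exact ⟨s, F, fun L hL z => (e L hL z).trans (a L hL z)⟩

theorem TR.const (hw : Wt w) (M : List (Lv Ω)) (c : ℝ) : TR w M fun _ _ => c :=
  ⟨.one, fun _ => c, fun L _ z => (Law.TE_const hw _ L z c).symm⟩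

theorem TR.mul (hw : Wt w) (H : TR w M Φ) (H' : TR w M Ψ) : TR w M fun L z => Φ L z * Ψ L z := by
  obtain ⟨s, F, a⟩ := H
  obtain ⟨t, G, b⟩ := H'
  refine ⟨.split s t, fun x => F (fun c => x (.inl c)) * G fun c => x (.inr c), fun L hL z => ?_⟩
  beta_reduce
  rw [Law.TE_split hw, a L hL, b L hL]
  simp only [Sum.elim_inl, Sum.elim_inr, Law.TE_eq hw, Finset.sum_mul, Finset.mul_sum]
  rw [Finset.sum_comm]
  exact Finset.sum_congr rfl fun x _ => Finset.sum_congr rfl fun y _ => by ring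

theorem TR.add (hw : Wt w) (H : TR w M Φ) (H' : TR w M Ψ) : TR w M fun L z => Φ L z + Ψ L z := by
  obtain ⟨s, F, a⟩ := H
  obtain ⟨t, G, b⟩ := H'
  refine ⟨.split s t, fun x => F (fun c => x (.inl c)) + G fun c => x (.inr c), fun L hL z => ?_⟩
  beta_reduce
  rw [Law.TE_split hw, a L hL, b L hL]
  simp only [Sum.elim_inl, Sum.elim_inr, Law.TE_add hw, Law.TE_const hw]

theorem TR.sum (hw : Wt w) {κ : Type} (S : Finset κ) {Φ : κ → List (Lv Ω) → (Ω → ℝ) → ℝ}
    (H : ∀ k ∈ S, TR w M (Φ k)) : TR w M fun L z => ∑ k ∈ S, Φ k L z := by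
  classical
  induction S using Finset.induction_on with
  | empty => simpa using TR.const hw M 0
  | insert k S hk ih =>
    simp only [Finset.sum_insert hk]
    exact (H k (Finset.mem_insert_self _ _)).add hw
      (ih fun j hj => H j (Finset.mem_insert_of_mem hj))

theorem TR.node (hw : Wt w) : ∀ (j : ℕ) {M : List (Lv Ω)}, TR w (M.drop j) Φ →
    TR w M fun L z => node w L j (Φ (L.drop j)) z
  | 0, _, H => H.congr fun L _ z => by simp
  | j + 1, [], H => H.congr fun L hL z => by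
    obtain rfl : L = [] := by simpa using hL
    simp
  | j + 1, m :: M, H => by
    obtain ⟨s, F, a⟩ := TR.node hw j (M := M) H
    refine ⟨.step s, F, fun L hL z => ?_⟩
    rcases L with _ | ⟨l, L⟩
    · simp at hL
    · have hL' : L.map Lv.m = M.map Lv.m := by simpa using (List.cons.inj hL).2
      refine Eq.trans ?_ (Law.TE_step hw s l L z F).symm
      exact congrArg (fun G => tE l (X w L) G z) (funext (a L hL'))

theorem TR.pf (hw : Wt w) (M : List (Lv Ω)) (f : Ω → ℝ) : TR w M fun L z => Pf w L z f :=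
  ⟨.one, fun x => f (x ()), fun L _ z => (Law.TE_one hw L z fun x => f (x ())).symm⟩

theorem TR.pi2 (hw : Wt w) (M : List (Lv Ω)) (j : ℕ) {K : Ω → Ω → ℝ} (hK : ∀ x y, K x y = K y x) :
    TR w M fun L z => pi2 w L j K z :=
  ⟨Sh.two j, fun x => K (x (Sh.twoL j)) (x (Sh.twoR j)), fun L _ z =>
    (Law.TE_two hw K j L z _ _ (SA52.two_ne j) hK).symm⟩

theorem Hb_eq (hw : Wt w) (L : List (Lv Ω)) (z f : Ω → ℝ) : Hb w L z f f =
    Pf w L z (fun x => f x * f x) - ∑ j ∈ Finset.range (L.length + 1),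
      dm L 0 j * pi2 w L j (fun x y => f x * f y) z := by
  have := sum_Hs hw (fun x y => f x * f y) L 0 z
  simp only [zero_mul, add_zero, pair_eq_sum hw] at this
  exact this

theorem TR.hb (hw : Wt w) (M : List (Lv Ω)) (f : Ω → ℝ) : TR w M fun L z => Hb w L z f f := by
  refine ((TR.pf hw M fun x => f x * f x).add hw (TR.sum hw (Finset.range (M.length + 1))
    fun j _ => (TR.const hw M (-dm M 0 j)).mul hw
      (TR.pi2 hw M j (K := fun x y => f x * f y) fun x y => mul_comm _ _))).congr fun L hL z => ?_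
  rw [Hb_eq hw, Sch6.len_congr hL]
  simp only [Sch6.dm_congr hL, neg_mul, Finset.sum_neg_distrib]
  ring

end D28

end Crest.Agent.T156.Cas

namespace Crest.Agent.T156.Pr

open MeasureTheory Set Filter Topology
open Crest.Agent.T157.E Crest.Agent.T157.Casc Crest.Agent.T157.SL Crest.Agent.T157.Casc.C
open Crest.Agent.R339.B Crest.Agent.R339.Var Crest.Agent.T157.Pf
open Crest.Agent.T156.Cas Crest.Agent.T156.Cas.D28 Crest.Agent.T156.Pp
open Crest.ProbabilityR.SpinGlassDynamics (spin)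

/-- a `C¹` path of node times -/
structure NP (I : Set ℝ) (s s' : ℝ → ℕ → ℝ) : Prop where
  op : IsOpen I
  der : ∀ τ ∈ I, ∀ j, HasDerivAt (fun τ => s τ j) (s' τ j) τ
  cont : ∀ j, ContinuousOn (fun τ => s' τ j) I
  zero : ∀ τ ∈ I, s τ 0 = 0
  sm : ∀ τ ∈ I, StrictMono (s τ)

/-- the moving site cascade -/
def sML (z : ℕ → ℝ) (s s' : ℝ → ℕ → ℝ) (N : ℕ) : List (ML Bool) :=
  List.ofFn fun k : Fin N =>
    ⟨sl spin (z k, 1), fun τ => s τ (k + 1) - s τ k, fun τ => s' τ (k + 1) - s' τ k⟩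

variable {I : Set ℝ} {s s' : ℝ → ℕ → ℝ} {z : ℕ → ℝ} {N : ℕ}

theorem NP.ok (h : NP I s s') (z : ℕ → ℝ) (N : ℕ) : ∀ p ∈ sML z s s' N, p.Ok I := by
  intro p hp
  obtain ⟨k, rfl⟩ := (List.mem_ofFn' _ _).1 hp
  exact Or.inl ⟨fun τ hτ => ⟨(h.der τ hτ _).sub (h.der τ hτ _),
    sub_pos.2 (h.sm τ hτ (Nat.lt_succ_self _))⟩, (h.cont _).sub (h.cont _)⟩

theorem NP.rk (h : NP I s s') (z : ℕ → ℝ) (N : ℕ) {τ : ℝ} (hτ : τ ∈ I) :
    List.Forall₂ (Rk1 spin) (mat (sML z s s' N) τ) (lst z (s τ) N) := by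
  rw [mat, sML, List.map_ofFn, lst, List.forall₂_iff_get]
  refine ⟨by simp, fun i h1 h2 => ?_⟩
  have p : 0 ≤ s τ (i + 1) - s τ i := (sub_pos.2 (h.sm τ hτ (Nat.lt_succ_self _))).le
  simp only [List.get_eq_getElem, List.getElem_ofFn, Function.comp]
  refine ⟨rfl, p, fun a b => ?_⟩
  show ∑ _i : Unit, √(s τ (i + 1) - s τ i) * (√1 * spin a) *
    (√(s τ (i + 1) - s τ i) * (√1 * spin b)) = (s τ (i + 1) - s τ i) * (spin a * spin b)
  simp only [Finset.univ_unique, Finset.sum_singleton, Real.sqrt_one, one_mul]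
  linear_combination (spin a * spin b) * Real.mul_self_sqrt p

theorem TT_take (z s : ℕ → ℝ) : ∀ {j N : ℕ}, j ≤ N → TT ((lst z s N).take j) = s j - s 0 := by
  intro j N hj
  induction j with
  | zero => simp [TT]
  | succ j ih =>
    have hl : j < (lst z s N).length := by simp [lst]; omega
    rw [List.take_succ_eq_append_getElem hl]
    have := ih (by omega)
    unfold TT at this ⊢
    rw [List.map_append, List.sum_append, this]
    simp [lst]

/-- node values as cascade expectations -/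
theorem NP.node (h : NP I s s') (z : ℕ → ℝ) {N j : ℕ} (hj : j ≤ N) {τ : ℝ} (hτ : τ ∈ I)
    (a b : ℕ) : (Et (lst z (s τ) N) (s τ j) fun x =>
      Dk 0 (lst z (s τ) N) (s τ j) x ^ a * Dk 1 (lst z (s τ) N) (s τ j) x ^ b) =
    node (fun _ => 1) (mat (sML z s s' N) τ) j (fun y =>
      Pf (fun _ => 1) ((mat (sML z s s' N) τ).drop j) y spin ^ a *
        Hb (fun _ => 1) ((mat (sML z s s' N) τ).drop j) y spin spin ^ b) 0 := by
  have := One15.node_G (h.rk z N hτ) (j := j) (by simpa [lst] using hj)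
    (G := fun u v => u ^ a * v ^ b) (by fun_prop) 0
  rw [TT_take z _ hj, h.zero τ hτ, sub_zero, zero_smul] at this
  rw [this]
  unfold Et Dk
  rw [Dn_zero, Dn_one]

theorem NP.Gam_pi2 (h : NP I s s') (z : ℕ → ℝ) {N j : ℕ} (hj : j ≤ N) {τ : ℝ} (hτ : τ ∈ I) :
    Gam (lst z (s τ) N) (s τ j) =
      pi2 (fun _ => 1) (mat (sML z s s' N) τ) j (fun a b => spin a * spin b) 0 := by
  have := One15.pi2_spin (h.rk z N hτ) (j := j) (by simpa [lst] using hj) 0
  rw [TT_take z _ hj, h.zero τ hτ, sub_zero, zero_smul] at this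
  rw [this]
  unfold Gam Et Dk
  rw [Dn_zero]

theorem TR.pow {Ω : Type} [Fintype Ω] {w : Ω → ℝ} (hw : Wt w) {M : List (Lv Ω)}
    {Φ : List (Lv Ω) → (Ω → ℝ) → ℝ} (H : TR w M Φ) : ∀ k : ℕ, TR w M fun L z => Φ L z ^ k
  | 0 => (TR.const hw M 1).congr fun _ _ _ => pow_zero _
  | k + 1 => ((TR.pow hw H k).mul hw H).congr fun _ _ _ => pow_succ _ _

theorem NP.c1_node (h : NP I s s') (z : ℕ → ℝ) {N j : ℕ} (hj : j ≤ N) (a b : ℕ) :
    C1 I fun τ => Et (lst z (s τ) N) (s τ j) fun x =>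
      Dk 0 (lst z (s τ) N) (s τ j) x ^ a * Dk 1 (lst z (s τ) N) (s τ j) x ^ b :=
  ((TR.node One15.w1 j (((TR.pow One15.w1 (TR.pf One15.w1 _ spin) a).mul One15.w1
    (TR.pow One15.w1 (TR.hb One15.w1 _ spin) b)))).c1 One15.w1 h.op (h.ok z N) 0).congr h.op
    fun _ hτ => h.node z hj hτ a b

theorem NP.c1_Gam (h : NP I s s') (z : ℕ → ℝ) {N j : ℕ} (hj : j ≤ N) :
    C1 I fun τ => Gam (lst z (s τ) N) (s τ j) := by
  simpa [Gam] using h.c1_node z hj 2 0

theorem NP.c1_GG (h : NP I s s') (z : ℕ → ℝ) {N j : ℕ} (hj : j ≤ N) :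
    C1 I fun τ => GG (lst z (s τ) N) (s τ j) := by
  simpa [GG] using h.c1_node z hj 0 2

theorem NP.c1_AA (h : NP I s s') (z : ℕ → ℝ) {N j : ℕ} (hj : j ≤ N) :
    C1 I fun τ => AA (lst z (s τ) N) (s τ j) := by
  simpa [AA] using h.c1_node z hj 0 3

theorem NP.c1_chi (h : NP I s s') (z : ℕ → ℝ) (N : ℕ) : C1 I fun τ => chi (lst z (s τ) N) := by
  refine (h.c1_node z (Nat.zero_le N) 0 1).congr h.op fun τ hτ => ?_
  rw [h.zero τ hτ]
  unfold Et chi
  rw [One15.EX_zero _ (One15.nn_of (h.rk z N hτ))]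
  simp

theorem NP.c1_s (h : NP I s s') (j : ℕ) : C1 I fun τ => s τ j :=
  ⟨_, fun τ hτ => h.der τ hτ j, h.cont j⟩

/-- the derivative of `q_j` in replica form -/
theorem NP.hasDerivAt_Gam (h : NP I s s') (z : ℕ → ℝ) {N j : ℕ} (hj : j ≤ N) {τ : ℝ} (hτ : τ ∈ I) :
    HasDerivAt (fun τ => Gam (lst z (s τ) N) (s τ j))
      (dT (fun _ => 1) (Sh.two j) (mat (sML z s s' N) τ) 0 (dcov (sML z s s' N) τ)
        (fun x => spin (x (Sh.twoL j)) * spin (x (Sh.twoR j))) / 2) τ :=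
  (hasDerivAt_pi2_mat52 One15.w1 h.op (h.ok z N) 0 j (K := fun a b => spin a * spin b)
    (fun _ _ => mul_comm _ _) hτ).congr_of_eventuallyEq (by
      filter_upwards [h.op.mem_nhds hτ] with u hu using h.Gam_pi2 z hj hu)

theorem dcov_sML (z : ℕ → ℝ) (s s' : ℝ → ℕ → ℝ) (τ : ℝ) (a b : Bool) {j N : ℕ} (hj : j ≤ N) :
    dcov (sML z s s' N) τ j a b = (s' τ j - s' τ 0) * (spin a * spin b) := by
  induction j with
  | zero => simp [dcov]
  | succ j ih =>
    have hl : j < (sML z s s' N).length := by simp [sML]; omega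
    have := ih (by omega)
    unfold dcov at this ⊢
    rw [List.take_succ_eq_append_getElem hl, List.map_append, List.sum_append, this]
    simp only [sML, List.getElem_ofFn, List.map_cons, List.map_nil, List.sum_cons, List.sum_nil,
      (rk1_sl spin (p := (z j, 1)) zero_le_one).2.2]
    ring

end Crest.Agent.T156.Pr

end
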