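import Crest.Agent.T156.PrG_28
import Crest.Agent.T156.PrD_28
import Crest.Agent.T156.PSharp_81

/-!
Row 156, ALT, text (P) (helper28): derivatives of the node values along any `C¹` path of node
times; constants depend only on the time where the tilt reaches `1`.
-/

set_option autoImplicit false

namespace Crest.Agent.T156.Pr

open MeasureTheory Set Filter Topology
open Crest.Agent.R164.GC Crest.Agent.R339.B Crest.Agent.R339.Var Crest.Agent.T157.Pf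
open Crest.Agent.T156.Pp Crest.Agent.T156.Ker Crest.Agent.T156.Cas.D28

noncomputable section

theorem tend_abs {f : ℝ → ℝ} {f' τ : ℝ} (hf : HasDerivAt f f' τ) :
    Tendsto (fun u => |f u - f τ| / |u - τ|) (𝓝[≠] τ) (𝓝 |f'|) := by
  refine (hasDerivAt_iff_tendsto_slope.1 hf).abs.congr fun u => ?_
  rw [slope_def_field, abs_div]

theorem der_le {ι : Type} (S S' : Finset ι) {f : ℝ → ℝ} {g : ι → ℝ → ℝ} {f' τ K : ℝ} {g' d : ι → ℝ}
    (hf : HasDerivAt f f' τ) (hg : ∀ i, HasDerivAt (g i) (g' i) τ)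
    (h : ∀ᶠ u in 𝓝 τ, |f u - f τ| ≤
      ∑ i ∈ S, d i * |g i u - g i τ| + K * (∑ i ∈ S', |g i u - g i τ|) ^ 2) :
    |f'| ≤ ∑ i ∈ S, d i * |g' i| := by
  have t1 := tendsto_finsetSum S fun i _ => (tend_abs (hg i)).const_mul (d i)
  have t2 := tendsto_finsetSum S' fun i _ => tend_abs (hg i)
  have t3 : Tendsto (fun u => ∑ i ∈ S', |g i u - g i τ|) (𝓝[≠] τ) (𝓝 0) := by
    have := tendsto_finsetSum S' fun i _ =>
      (((hg i).continuousAt.tendsto.sub_const (g i τ)).abs).mono_left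
        (nhdsWithin_le_nhds (s := {τ}ᶜ))
    simpa using this
  have t4 := t1.add ((t3.mul t2).const_mul K)
  rw [zero_mul, mul_zero, add_zero] at t4
  refine le_of_tendsto_of_tendsto (tend_abs hf) t4 ?_
  filter_upwards [h.filter_mono nhdsWithin_le_nhds] with u hu
  refine (div_le_div_of_nonneg_right hu (abs_nonneg _)).trans (le_of_eq ?_)
  simp only [← Finset.sum_div, ← mul_div_assoc]
  ring

variable {I : Set ℝ} {s s' : ℝ → ℕ → ℝ} {z : ℕ → ℝ} {N : ℕ}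

theorem NP.d0 (h : NP I s s') {τ : ℝ} (hτ : τ ∈ I) : s' τ 0 = 0 :=
  (h.der τ hτ 0).unique ((hasDerivAt_const τ (0:ℝ)).congr_of_eventuallyEq (by
    filter_upwards [h.op.mem_nhds hτ] with u hu using h.zero u hu))

theorem NP.pair (h : NP I s s') (hz : Lab z N) {T1 : ℝ} (hT : ∀ τ ∈ I, Tp T1 (lst z (s τ) N))
    {τ : ℝ} (hτ : τ ∈ I) {k : ℕ} (hk : k ≤ N) : ∀ᶠ u in 𝓝 τ,
    Pair z N k T1 (∑ j ∈ Finset.range (N + 1), |s u j - s τ j|) (s τ) (s u) ∧
      s u N ≤ s τ N + 1 := by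
  have c := fun j => (h.der τ hτ j).continuousAt
  have e1 : ∀ᶠ u in 𝓝 τ, ∀ j ∈ Finset.range k, s τ j < s u k ∧ s u j < s τ k :=
    (Finset.eventually_all _).2 fun j hj =>
      have a := h.sm τ hτ (Finset.mem_range.1 hj)
      ((c k).eventually (lt_mem_nhds a)).and ((c j).eventually (gt_mem_nhds a))
  filter_upwards [h.op.mem_nhds hτ, e1, (c N).eventually (gt_mem_nhds (lt_add_one (s τ N)))]
    with u hu a b
  refine ⟨⟨hz, hk, h.zero τ hτ, h.zero u hu, h.sm τ hτ, h.sm u hu, hT τ hτ, hT u hu,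
    fun j hj => Finset.single_le_sum (f := fun j => |s u j - s τ j|) (fun _ _ => abs_nonneg _)
      (Finset.mem_range.2 (Nat.lt_succ_of_le hj)), fun j hj => ?_⟩, b.le⟩
  obtain ⟨a1, a2⟩ := a j (Finset.mem_range.2 hj)
  exact ⟨le_min (h.sm τ hτ hj).le a1.le, le_min a2.le (h.sm u hu hj).le⟩

theorem sum_sh (N : ℕ) (f : ℕ → ℝ) (d : ℕ → ℝ) : ∑ j ∈ Finset.range N, d j * f (j + 1) =
    ∑ j ∈ Finset.Ico 1 (N + 1), d (j - 1) * f j := by
  rw [Finset.sum_Ico_eq_sum_range]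
  simp [add_comm]

/-- `∑ dm_j c_j |σ_j'|` -/
def Dw (z : ℕ → ℝ) (N : ℕ) (c σ : ℕ → ℝ) : ℝ :=
  ∑ j ∈ Finset.range N, dm z j * (c (j + 1) * |σ (j + 1)|)

theorem der_le' {f : ℝ → ℝ} {f' τ K C : ℝ} {c : ℕ → ℝ} (hf : HasDerivAt f f' τ)
    (hg : ∀ j, HasDerivAt (fun u => s u j) (s' τ j) τ)
    (h : ∀ᶠ u in 𝓝 τ, |f u - f τ| ≤ C * Dw z N c (fun j => s u j - s τ j) +
      K * (∑ j ∈ Finset.range (N + 1), |s u j - s τ j|) ^ 2) : |f'| ≤ C * Dw z N c (s' τ) := by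
  have e : ∀ σ : ℕ → ℝ, C * Dw z N c σ =
      ∑ j ∈ Finset.Ico 1 (N + 1), C * dm z (j - 1) * c j * |σ j| := fun σ => by
    rw [Dw, sum_sh N (fun j => c j * |σ j|), Finset.mul_sum]
    exact Finset.sum_congr rfl fun j _ => by ring
  simp only [e] at h ⊢
  exact der_le _ _ hf hg h

/-- **derivatives of `Γ(σ_k)` and `G(σ_k)`** -/
theorem node_der (T : ℝ) : ∃ C : ℝ, 1 ≤ C ∧ ∀ (I : Set ℝ) (s s' : ℝ → ℕ → ℝ) (z : ℕ → ℝ) (N : ℕ)
    (T1 : ℝ), NP I s s' → Lab z N → (∀ τ ∈ I, Tp T1 (lst z (s τ) N)) → T1 ≤ T → ∀ τ ∈ I, ∀ k ≤ N,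
    |deriv (fun u => Gam (lst z (s u) N) (s u k)) τ - GG (lst z (s τ) N) (s τ k) * s' τ k| ≤
      C * Dw z N (K1 (s τ) k) (s' τ) ∧
    |deriv (fun u => GG (lst z (s u) N) (s u k)) τ -
      Gl z (lst z (s τ) N) k (s τ k) * s' τ k| ≤ C * Dw z N (K2 (s τ) k) (s' τ) ∧
    ∀ C0 η : ℝ, 0 ≤ C0 → 0 ≤ η → s τ k ≤ T1 →
      (∀ r, 0 ≤ r → r < s τ k → lvr 1 (lst z (s τ) N) r ≤ C0 * r + η) →
      |deriv (fun u => GG (lst z (s u) N) (s u k)) τ - deriv (fun u => GG (lst z (s u) N) (s u 0)) τ -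
        Gl z (lst z (s τ) N) k (s τ k) * s' τ k - 2 * ∑ j ∈ Finset.range N, dm z j *
          ((if j + 1 < k then AA (lst z (s τ) N) (s τ (j + 1)) else 0) * s' τ (j + 1))| ≤
      C * ((1 + C0) * s τ k ^ 2 + η * s τ k) * Dw z N 1 (s' τ) := by
  obtain ⟨C, c1, hC⟩ := pair_exp T
  refine ⟨C, c1, fun I s s' z N T1 h hz hT h1 τ hτ k hk => ?_⟩
  obtain ⟨K, -, hK⟩ := hC (s τ N + 1)
  have P := h.pair hz hT hτ hk
  have d := h.der τ hτ
  refine ⟨der_le' (K := K) (((h.c1_Gam z hk).der hτ).sub ((d k).const_mul _)) d ?_,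
    der_le' (K := K) (((h.c1_GG z hk).der hτ).sub ((d k).const_mul _)) d ?_,
    fun C0 η c0 e0 a b => der_le' (K := K) (((((h.c1_GG z hk).der hτ).sub
      ((h.c1_GG z (Nat.zero_le N)).der hτ)).sub ((d k).const_mul _)).sub
      ((HasDerivAt.fun_sum fun j _ => ((d (j + 1)).const_mul _).const_mul _).const_mul 2)) d ?_⟩
  · filter_upwards [P] with u hu
    refine le_trans (le_of_eq ?_) (hK _ _ _ _ _ _ _ hu.1 h1 (by linarith) hu.2).1
    congr 1
    simp only [Pi.sub_apply]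
    ring
  · filter_upwards [P] with u hu
    refine le_trans (le_of_eq ?_) (hK _ _ _ _ _ _ _ hu.1 h1 (by linarith) hu.2).2.1
    congr 1
    simp only [Pi.sub_apply]
    ring
  · filter_upwards [P] with u hu
    refine (le_of_eq ?_).trans (((hK _ _ _ _ _ _ _ hu.1 h1 (by linarith) hu.2).2.2 C0 η c0 e0
      a b).trans (le_of_eq ?_))
    · congr 1
      simp only [Pi.sub_apply, hu.1.s0, hu.1.u0, mul_sub, Finset.sum_sub_distrib]
      ring
    · simp [Dw]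

theorem Tp_chi {T T1 : ℝ} {l : List (ℝ × ℝ)} (h : Tp T1 l) (hT : T1 ≤ T) :
    Real.exp (-T) ≤ chi l := by
  obtain ⟨u, o, tu, su, -⟩ := red h
  rw [su.chi]
  exact Sharp81.chi_ge o (tu.trans_le hT)

theorem NP.c1_bb (h : NP I s s') (hz : Lab z N) {eps : ℝ → ℝ} (he : C1 I eps) :
    C1 I fun τ => bb (lst z (s τ) N) (eps τ) := by
  have c := h.c1_chi z N
  refine (((C1.const I 1).sub he).div (c.mul c) fun τ hτ => ?_).congr h.op fun τ _ => by
    unfold bb; rw [sq]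
  have o := (areaS z (s τ) N hz (h.zero τ hτ) (h.sm τ hτ)).1.1
  have := (Real.exp_pos _).trans_le (Sharp81.chi_ge o le_rfl)
  positivity

theorem NP.c1_ee (h : NP I s s') (hz : Lab z N) {eps : ℝ → ℝ} (he : C1 I eps) {k : ℕ}
    (hk : k ≤ N) : C1 I fun τ => ee (lst z (s τ) N) (eps τ) (s τ k) :=
  (C1.const I 1).sub ((h.c1_bb hz he).mul (h.c1_GG z hk))

/-- the marks `h_k = σ_k - b q_k` -/
theorem NP.c1_hh (h : NP I s s') (hz : Lab z N) {eps : ℝ → ℝ} (he : C1 I eps) {k : ℕ}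
    (hk : k ≤ N) :
    C1 I fun τ => s τ k - bb (lst z (s τ) N) (eps τ) * Gam (lst z (s τ) N) (s τ k) :=
  (h.c1_s k).sub ((h.c1_bb hz he).mul (h.c1_Gam z hk))

/-- **derivatives of `b` and of `e(σ_k)`** -/
theorem ee_der (T : ℝ) : ∃ C : ℝ, 1 ≤ C ∧ ∀ (I : Set ℝ) (s s' : ℝ → ℕ → ℝ) (z : ℕ → ℝ) (N : ℕ)
    (T1 : ℝ) (eps : ℝ → ℝ), NP I s s' → Lab z N → (∀ τ ∈ I, Tp T1 (lst z (s τ) N)) → T1 ≤ T →
    C1 I eps → ∀ τ ∈ I, 0 ≤ eps τ → eps τ ≤ 1 / 4 →
    (3 / 4 ≤ bb (lst z (s τ) N) (eps τ) ∧ bb (lst z (s τ) N) (eps τ) ≤ C ∧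
      |deriv (fun u => bb (lst z (s u) N) (eps u)) τ| ≤ C * (Dw z N 1 (s' τ) + |deriv eps τ|)) ∧
    ∀ k ≤ N,
      deriv (fun u => ee (lst z (s u) N) (eps u) (s u k)) τ =
        -deriv (fun u => bb (lst z (s u) N) (eps u)) τ * GG (lst z (s τ) N) (s τ k) -
          bb (lst z (s τ) N) (eps τ) * deriv (fun u => GG (lst z (s u) N) (s u k)) τ ∧
      ∀ C0 η : ℝ, 0 ≤ C0 → 0 ≤ η → s τ k ≤ T1 →
      (∀ r, 0 ≤ r → r < s τ k → lvr 1 (lst z (s τ) N) r ≤ C0 * r + η) →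
      |deriv (fun u => ee (lst z (s u) N) (eps u) (s u k)) τ - deriv eps τ +
        bb (lst z (s τ) N) (eps τ) * (Gl z (lst z (s τ) N) k (s τ k) * s' τ k +
          2 * ∑ j ∈ Finset.range N, dm z j *
          ((if j + 1 < k then AA (lst z (s τ) N) (s τ (j + 1)) else 0) * s' τ (j + 1)))| ≤
      C * (Dw z N 1 (s' τ) + |deriv eps τ|) * ((1 + C0) * s τ k ^ 2 + η * s τ k +
        |ee (lst z (s τ) N) (eps τ) (s τ k) - eps τ|) := by
  obtain ⟨C, c1, hC⟩ := node_der T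
  set X := Real.exp |T| ^ 2 with hX
  have X1 : 1 ≤ X := one_le_pow₀ (Real.one_le_exp (abs_nonneg T))
  have X2 : 1 ≤ X * X * C := one_le_mul_of_one_le_of_one_le (by nlinarith) c1
  refine ⟨2 * (X * X * C), by linarith, fun I s s' z N T1 eps h hz hT h1 he τ hτ e0 e1 => ?_⟩
  have hN := hC I s s' z N T1 h hz hT h1 τ hτ
  have g0 : ∀ u ∈ I, GG (lst z (s u) N) (s u 0) = chi (lst z (s u) N) ^ 2 ∧
      0 < chi (lst z (s u) N) ∧ chi (lst z (s u) N) ≤ 1 := fun u hu => by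
    obtain ⟨C0, -, hO⟩ := Ode3.odeS (TT (lst z (s u) N))
    obtain ⟨-, -, ⟨-, a, -, -, -, b⟩, -⟩ :=
      hO _ (areaS z (s u) N hz (h.zero u hu) (h.sm u hu)).1.1 le_rfl
    rw [h.zero u hu]
    exact ⟨a, b⟩
  have db := (h.c1_bb hz he).der hτ
  have dg := fun k (hk : k ≤ N) => (h.c1_GG z hk).der hτ
  have bm : ∀ u ∈ I, bb (lst z (s u) N) (eps u) * GG (lst z (s u) N) (s u 0) = 1 - eps u :=
    fun u hu => by rw [(g0 u hu).1]; exact bb_mul (g0 u hu).2.1 _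
  have id0 := (db.mul (dg 0 (Nat.zero_le N))).unique
    (((he.der hτ).const_sub 1).congr_of_eventuallyEq (by
      filter_upwards [h.op.mem_nhds hτ] with u hu using bm u hu))
  have b0 := bm τ hτ
  have a0 := (hN 0 (Nat.zero_le N)).2.1
  rw [h.d0 hτ, mul_zero, sub_zero, show K2 (s τ) 0 = 1 from funext fun j => by simp [K2]] at a0
  have x1 : 1 ≤ X * GG (lst z (s τ) N) (s τ 0) := by
    rw [(g0 τ hτ).1, hX, ← mul_pow]
    refine one_le_pow₀ ?_
    have := mul_le_mul_of_nonneg_left (Tp_chi (hT τ hτ) (h1.trans (le_abs_self T)))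
      (Real.exp_pos |T|).le
    rwa [← Real.exp_add, add_neg_cancel, Real.exp_zero] at this
  have x2 : GG (lst z (s τ) N) (s τ 0) ≤ 1 := by
    rw [(g0 τ hτ).1]; exact pow_le_one₀ (g0 τ hτ).2.1.le (g0 τ hτ).2.2
  have x3 : 0 ≤ bb (lst z (s τ) N) (eps τ) := div_nonneg (by linarith) (sq_nonneg _)
  have D0 : 0 ≤ Dw z N 1 (s' τ) := Finset.sum_nonneg fun j _ =>
    mul_nonneg (hz.dm_nn j) (mul_nonneg zero_le_one (abs_nonneg _))
  set b := bb (lst z (s τ) N) (eps τ)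
  set b' := deriv (fun u => bb (lst z (s u) N) (eps u)) τ
  set g := GG (lst z (s τ) N) (s τ 0)
  set g' := deriv (fun u => GG (lst z (s u) N) (s u 0)) τ
  set D := Dw z N 1 (s' τ)
  set ε' := deriv eps τ
  have y1 : 3 / 4 ≤ b := by nlinarith only [b0, x2, x3, e1]
  have y2 : b ≤ X := by nlinarith only [b0, x1, x3, e0, X1]
  have a1 := abs_nonneg ε'
  have y3 : |b'| ≤ X * X * C * (D + |ε'|) := by
    have g1 : 0 ≤ g := by nlinarith only [x1, X1]
    have q1 : |b'| * g ≤ |ε'| + X * (C * D) := by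
      rw [← abs_of_nonneg g1, ← abs_mul, show b' * g = -ε' - b * g' by linarith only [id0]]
      refine (abs_sub _ _).trans ?_
      rw [abs_neg, abs_mul, abs_of_nonneg x3]
      exact add_le_add le_rfl (mul_le_mul y2 a0 (abs_nonneg _) (by linarith only [X1]))
    have q2 := mul_le_mul_of_nonneg_left q1 (show 0 ≤ X by linarith only [X1])
    have q3 := mul_le_mul_of_nonneg_left x1 (abs_nonneg b')
    have q4 : X ≤ X * X * C := by nlinarith only [X1, c1, mul_nonneg (sub_nonneg.2 X1) (sub_nonneg.2 c1)]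
    have q5 := mul_le_mul_of_nonneg_right q4 a1
    linarith only [q2, q3, q5]
  have p0 : 0 ≤ X * X * C * (D + |ε'|) := by positivity
  refine ⟨⟨y1, by nlinarith only [y2, X1, c1, mul_nonneg (sub_nonneg.2 X1) (sub_nonneg.2 c1)],
    by linarith only [y3, p0]⟩, fun k hk => ?_⟩
  have de : deriv (fun u => ee (lst z (s u) N) (eps u) (s u k)) τ =
      -b' * GG (lst z (s τ) N) (s τ k) - b * deriv (fun u => GG (lst z (s u) N) (s u k)) τ :=
    ((db.mul (dg k hk)).const_sub 1).deriv.trans (by ring)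
  refine ⟨de, fun C0 η c0 η0 a c => ?_⟩
  have q := (hN k hk).2.2 C0 η c0 η0 a c
  have sk : 0 ≤ s τ k := h.zero τ hτ ▸ (h.sm τ hτ).monotone (Nat.zero_le k)
  have w1 : ee (lst z (s τ) N) (eps τ) (s τ k) - eps τ = -b * (GG (lst z (s τ) N) (s τ k) - g) := by
    unfold ee; linear_combination -b0
  have w2 : |GG (lst z (s τ) N) (s τ k) - g| ≤ 2 * |ee (lst z (s τ) N) (eps τ) (s τ k) - eps τ| := by
    rw [w1, abs_mul, abs_neg, abs_of_nonneg x3]
    nlinarith only [y1, abs_nonneg (GG (lst z (s τ) N) (s τ k) - g)]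
  have w3 := mul_le_mul y3 w2 (abs_nonneg _) p0
  have w4 := mul_le_mul y2 q (abs_nonneg _) (by linarith only [X1])
  rw [← abs_mul] at w3
  rw [← abs_of_nonneg x3, ← abs_mul] at w4
  set R := (1 + C0) * s τ k ^ 2 + η * s τ k
  have R0 : 0 ≤ R := by positivity
  have w5 : X * (C * R * D) ≤ 2 * (X * X * C) * (D + |ε'|) * R := by
    have : X * C * D ≤ 2 * (X * X * C) * (D + |ε'|) :=
      mul_le_mul (by nlinarith only [X1, c1, mul_nonneg (sub_nonneg.2 X1) (sub_nonneg.2 c1)])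
        (by linarith only [a1]) D0 (by positivity)
    have := mul_le_mul_of_nonneg_right this R0
    linarith only [this]
  have w6 := abs_le.1 (w4.trans w5)
  have w7 := abs_le.1 w3
  rw [de, abs_le]
  constructor <;> linarith only [w6.1, w6.2, w7.1, w7.2, id0, congrArg (b * ·) id0]

end

end Crest.Agent.T156.Pr
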