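import Crest.Agent.T156.AltDef_88

/-!
# Row 156, ALT: calculus of `sm`, `om`, `zz`, `rs` (helper13)
-/

set_option autoImplicit false

noncomputable section

namespace Crest.Agent.T156.Alt.Rs13

open Real Set

/-! ### the step -/

/-- clamp to `[0, 1]` -/
def cl (u : ℝ) : ℝ := max 0 (min u 1)

theorem cl_nn (u : ℝ) : 0 ≤ cl u := le_max_left _ _
theorem cl_le (u : ℝ) : cl u ≤ 1 := max_le zero_le_one (min_le_right _ _)
theorem cl_mono : Monotone cl := fun _ _ h => max_le_max le_rfl (min_le_min h le_rfl)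
theorem cl_sub {u u' : ℝ} (h : u ≤ u') : cl u' - cl u ≤ u' - u := by
  unfold cl
  rcases le_total u 1 with a | a <;> rcases le_total u' 1 with b | b <;>
  rcases le_total 0 u with c | c <;> rcases le_total 0 u' with d | d <;>
  simp only [min_def, max_def] <;> split_ifs <;> linarith

theorem sm_eq (u : ℝ) : sm u = 3 * cl u ^ 2 - 2 * cl u ^ 3 := rfl

theorem sm_zero {u : ℝ} (h : u ≤ 0) : sm u = 0 := by
  have : cl u = 0 := max_eq_left ((min_le_left _ _).trans h)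
  rw [sm_eq, this]; ring

theorem sm_one {u : ℝ} (h : 1 ≤ u) : sm u = 1 := by
  have : cl u = 1 := by unfold cl; rw [min_eq_right h]; exact max_eq_right zero_le_one
  rw [sm_eq, this]; ring

theorem sm_mid {u : ℝ} (h0 : 0 ≤ u) (h1 : u ≤ 1) : sm u = 3 * u ^ 2 - 2 * u ^ 3 := by
  have : cl u = u := by unfold cl; rw [min_eq_left h1]; exact max_eq_right h0
  rw [sm_eq, this]

theorem sm_nn (u : ℝ) : 0 ≤ sm u := by
  have a := cl_nn u
  have b := cl_le u
  rw [sm_eq]; nlinarith [mul_nonneg (sq_nonneg (cl u)) (sub_nonneg.2 b), sq_nonneg (cl u)]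

theorem sm_le (u : ℝ) : sm u ≤ 1 := by
  have a := cl_nn u
  have b := cl_le u
  rw [sm_eq]; nlinarith [mul_nonneg (sq_nonneg (1 - cl u)) a, sq_nonneg (1 - cl u)]

/-- increments: monotone, slope at most `3 / 2` -/
theorem sm_sub {u u' : ℝ} (h : u ≤ u') : 0 ≤ sm u' - sm u ∧ sm u' - sm u ≤ 3 / 2 * (u' - u) := by
  have a := cl_nn u
  have b := cl_le u'
  have c := cl_mono h
  have d := cl_sub h
  set s := cl u
  set t := cl u'
  have e : sm u' - sm u = (t - s) * (3 * (t + s) - 2 * (t ^ 2 + t * s + s ^ 2)) := by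
    rw [sm_eq, sm_eq]; ring
  have f0 : 0 ≤ 3 * (t + s) - 2 * (t ^ 2 + t * s + s ^ 2) := by nlinarith
  have f1 : 3 * (t + s) - 2 * (t ^ 2 + t * s + s ^ 2) ≤ 3 / 2 := by
    nlinarith [sq_nonneg (t + s - 1), sq_nonneg (t - s)]
  rw [e]
  refine ⟨mul_nonneg (by linarith) f0, ?_⟩
  nlinarith [mul_le_mul_of_nonneg_left f1 (sub_nonneg.2 c)]

theorem sm_mono : Monotone sm := fun _ _ h => by linarith [(sm_sub h).1]

theorem sm_lip (u u' : ℝ) : |sm u' - sm u| ≤ 3 / 2 * |u' - u| := by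
  rcases le_total u u' with h | h
  · rw [abs_of_nonneg (sm_sub h).1, abs_of_nonneg (sub_nonneg.2 h)]; exact (sm_sub h).2
  · rw [abs_sub_comm, abs_sub_comm u', abs_of_nonneg (sm_sub h).1, abs_of_nonneg (sub_nonneg.2 h)]
    exact (sm_sub h).2

theorem cont_cl : Continuous cl := by unfold cl; fun_prop
theorem cont_sm : Continuous sm := by unfold sm; fun_prop

/-- the derivative of the step -/
def sm' (u : ℝ) : ℝ := 6 * cl u * (1 - cl u)

theorem sm'_nn (u : ℝ) : 0 ≤ sm' u :=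
  mul_nonneg (mul_nonneg (by norm_num) (cl_nn u)) (sub_nonneg.2 (cl_le u))
theorem sm'_le (u : ℝ) : sm' u ≤ 3 / 2 := by unfold sm'; nlinarith [sq_nonneg (2 * cl u - 1)]
theorem sm'_zero {u : ℝ} (h : u ≤ 0) : sm' u = 0 := by
  have : cl u = 0 := max_eq_left ((min_le_left _ _).trans h)
  simp [sm', this]
theorem sm'_one {u : ℝ} (h : 1 ≤ u) : sm' u = 0 := by
  have : cl u = 1 := by unfold cl; rw [min_eq_right h]; exact max_eq_right zero_le_one
  simp [sm', this]
theorem cont_sm' : Continuous sm' := by unfold sm'; have := cont_cl; fun_prop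

/-- Taylor remainder of the step -/
theorem sm_taylor (u u' : ℝ) : |sm u' - sm u - sm' u * (u' - u)| ≤ 9 * (u' - u) ^ 2 := by
  have a := cl_nn u
  have a' := cl_le u
  have b := cl_nn u'
  have b' := cl_le u'
  have hd : |cl u' - cl u| ≤ |u' - u| := by
    rcases le_total u u' with h | h
    · rw [abs_of_nonneg (sub_nonneg.2 (cl_mono h)), abs_of_nonneg (sub_nonneg.2 h)]; exact cl_sub h
    · rw [abs_sub_comm, abs_sub_comm u', abs_of_nonneg (sub_nonneg.2 (cl_mono h)),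
        abs_of_nonneg (sub_nonneg.2 h)]; exact cl_sub h
  have hd2 : (cl u' - cl u) ^ 2 ≤ (u' - u) ^ 2 := sq_le_sq.2 hd
  -- the linear term
  have hl : |sm' u * ((u' - u) - (cl u' - cl u))| ≤ 6 * (u' - u) ^ 2 := by
    unfold sm' cl
    rcases le_total u 0 with c | c
    · rw [max_eq_left ((min_le_left u 1).trans c)]; simp; positivity
    rcases le_total 1 u with d | d
    · rw [min_eq_right d, max_eq_right zero_le_one]; simp; positivity
    rw [min_eq_left d, max_eq_right c]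
    rcases le_total u' 0 with e | e
    · rw [max_eq_left ((min_le_left u' 1).trans e), abs_le]
      constructor <;> nlinarith [mul_nonneg c (sub_nonneg.2 d), mul_nonneg c (neg_nonneg.2 e),
        mul_nonneg (mul_nonneg c c) (neg_nonneg.2 e), sq_nonneg u, sq_nonneg u',
        mul_nonneg (mul_nonneg c (sub_nonneg.2 d)) (neg_nonneg.2 e)]
    rcases le_total 1 u' with f | f
    · rw [min_eq_right f, max_eq_right zero_le_one, abs_le]
      constructor <;> nlinarith [mul_nonneg c (sub_nonneg.2 d),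
        mul_nonneg (sub_nonneg.2 d) (sub_nonneg.2 f),
        mul_nonneg (mul_nonneg (sub_nonneg.2 d) (sub_nonneg.2 d)) (sub_nonneg.2 f),
        sq_nonneg (1 - u), sq_nonneg (u' - 1),
        mul_nonneg (mul_nonneg c (sub_nonneg.2 d)) (sub_nonneg.2 f)]
    · rw [min_eq_left f, max_eq_right e]; simp; positivity
  have e : sm u' - sm u - sm' u * (u' - u) =
      (cl u' - cl u) ^ 2 * (3 - 4 * cl u - 2 * cl u') - sm' u * ((u' - u) - (cl u' - cl u)) := by
    rw [sm_eq, sm_eq]; unfold sm'; ring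
  rw [e]
  have h3 : |(cl u' - cl u) ^ 2 * (3 - 4 * cl u - 2 * cl u')| ≤ 3 * (u' - u) ^ 2 := by
    rw [abs_le]; constructor <;> nlinarith [sq_nonneg (cl u' - cl u)]
  have h4 := abs_sub ((cl u' - cl u) ^ 2 * (3 - 4 * cl u - 2 * cl u'))
    (sm' u * ((u' - u) - (cl u' - cl u)))
  linarith

theorem hasDerivAt_sm (u : ℝ) : HasDerivAt sm (sm' u) u := by
  rw [hasDerivAt_iff_isLittleO]
  have h2 : (fun u' : ℝ => (u' - u) ^ 2) =o[nhds u] fun u' => u' - u := by
    have := Asymptotics.isLittleO_pow_sub_sub u (m := 2) (by norm_num)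
    refine Asymptotics.IsBigO.trans_isLittleO ?_ this
    refine Asymptotics.IsBigO.of_bound 1 (Filter.Eventually.of_forall fun x => ?_)
    simp
  refine Asymptotics.IsBigO.trans_isLittleO ?_ h2
  refine Asymptotics.IsBigO.of_bound 9 (Filter.Eventually.of_forall fun x => ?_)
  have := sm_taylor u x
  rw [Real.norm_eq_abs, Real.norm_eq_abs, abs_of_nonneg (sq_nonneg (x - u)), smul_eq_mul,
    mul_comm (x - u)]
  exact this

/-! ### the bump `t (1 - sm (t / y - 1))` -/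

/-- shape of the displacement -/
def bu (y t : ℝ) : ℝ := t * (1 - sm (t / y - 1))

theorem bu_nn {y t : ℝ} (ht : 0 ≤ t) : 0 ≤ bu y t := mul_nonneg ht (sub_nonneg.2 (sm_le _))
theorem bu_le {y t : ℝ} (ht : 0 ≤ t) : bu y t ≤ t := by unfold bu; nlinarith [sm_nn (t / y - 1)]
theorem bu_lo {y t : ℝ} (hy : 0 < y) (h : t ≤ y) : bu y t = t := by
  unfold bu; rw [sm_zero (by rw [sub_nonpos, div_le_one hy]; exact h)]; ring
theorem bu_hi {y t : ℝ} (hy : 0 < y) (h : 2 * y ≤ t) : bu y t = 0 := by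
  unfold bu; rw [sm_one (by rw [le_sub_iff_add_le, le_div_iff₀ hy]; linarith)]; ring

theorem bu_sub {y t t' : ℝ} (hy : 0 < y) (ht : 0 ≤ t) (h : t ≤ t') :
    -(3 * (t' - t)) ≤ bu y t' - bu y t ∧ bu y t' - bu y t ≤ t' - t := by
  have a := sm_sub (u := t / y - 1) (u' := t' / y - 1)
    (by linarith [div_le_div_of_nonneg_right h hy.le])
  have b := sm_le (t' / y - 1)
  have c := sm_nn (t' / y - 1)
  have e : bu y t' - bu y t = (t' - t) * (1 - sm (t' / y - 1)) -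
      t * (sm (t' / y - 1) - sm (t / y - 1)) := by unfold bu; ring
  constructor
  · rcases le_total (2 * y) t with d | d
    · rw [bu_hi hy d, bu_hi hy (d.trans h)]; linarith
    · have f : t * (sm (t' / y - 1) - sm (t / y - 1)) ≤ 2 * y * (3 / 2 * (t' / y - 1 - (t / y - 1))) :=
        mul_le_mul d a.2 a.1 (by linarith)
      have g : 2 * y * (3 / 2 * (t' / y - 1 - (t / y - 1))) = 3 * (t' - t) := by field_simp; ring
      rw [e]; nlinarith [mul_nonneg (sub_nonneg.2 h) (sub_nonneg.2 b)]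
  · rw [e]; nlinarith [mul_nonneg ht a.1, mul_nonneg (sub_nonneg.2 h) c]

/-- monotone and Lipschitz in `y`; nothing moves outside `[y, 2 y']` -/
theorem bu_y {y y' t : ℝ} (hy : 0 < y) (h : y ≤ y') (ht : 0 ≤ t) :
    0 ≤ bu y' t - bu y t ∧ bu y' t - bu y t ≤ 6 * (y' / y) * (y' - y) := by
  have hy' : 0 < y' := hy.trans_le h
  have a := sm_sub (u := t / y' - 1) (u' := t / y - 1)
    (by linarith [div_le_div_of_nonneg_left ht hy h])
  have e : bu y' t - bu y t = t * (sm (t / y - 1) - sm (t / y' - 1)) := by unfold bu; ring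
  refine ⟨by rw [e]; exact mul_nonneg ht a.1, ?_⟩
  rcases le_total (2 * y') t with d | d
  · rw [bu_hi hy' d, bu_hi hy (by linarith)]; simp only [sub_self]
    exact mul_nonneg (by positivity) (sub_nonneg.2 h)
  · have g : t / y - 1 - (t / y' - 1) = t * ((y' - y) / (y * y')) := by field_simp; ring
    have k : 0 ≤ (y' - y) / (y * y') := div_nonneg (sub_nonneg.2 h) (by positivity)
    have f : t * (sm (t / y - 1) - sm (t / y' - 1)) ≤
        2 * y' * (3 / 2 * (2 * y' * ((y' - y) / (y * y')))) := by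
      refine mul_le_mul d (a.2.trans ?_) a.1 (by linarith)
      rw [g]; nlinarith [mul_le_mul_of_nonneg_right d k]
    rw [e]
    refine f.trans (le_of_eq ?_)
    field_simp; ring

theorem hasDerivAt_bu_y {y : ℝ} (hy : 0 < y) (t : ℝ) :
    HasDerivAt (fun y => bu y t) (t ^ 2 / y ^ 2 * sm' (t / y - 1)) y := by
  have a : HasDerivAt (fun y : ℝ => t / y - 1) (-(t / y ^ 2)) y := by
    have := ((hasDerivAt_inv hy.ne').const_mul t).sub_const 1
    have e : -(t / y ^ 2) = t * -(y ^ 2)⁻¹ := by ring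
    rw [e]
    simpa only [div_eq_mul_inv] using this
  have b := (((hasDerivAt_sm (t / y - 1)).comp y a).const_sub 1).const_mul t
  have e : t ^ 2 / y ^ 2 * sm' (t / y - 1) = t * -(sm' (t / y - 1) * -(t / y ^ 2)) := by ring
  rw [e]
  exact b

theorem dbu_bd {y : ℝ} (hy : 0 < y) {t : ℝ} (ht : 0 ≤ t) :
    0 ≤ t ^ 2 / y ^ 2 * sm' (t / y - 1) ∧ t ^ 2 / y ^ 2 * sm' (t / y - 1) ≤ 6 ∧
    ((t ≤ y ∨ 2 * y ≤ t) → t ^ 2 / y ^ 2 * sm' (t / y - 1) = 0) := by
  have z : (t ≤ y ∨ 2 * y ≤ t) → t ^ 2 / y ^ 2 * sm' (t / y - 1) = 0 := by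
    rintro (h | h)
    · rw [sm'_zero (by rw [sub_nonpos, div_le_one hy]; exact h), mul_zero]
    · rw [sm'_one (by rw [le_sub_iff_add_le, le_div_iff₀ hy]; linarith), mul_zero]
  refine ⟨mul_nonneg (by positivity) (sm'_nn _), ?_, z⟩
  rcases le_total (2 * y) t with d | d
  · rw [z (Or.inr d)]; norm_num
  · have a : t ^ 2 / y ^ 2 ≤ 4 := by rw [div_le_iff₀ (by positivity)]; nlinarith
    nlinarith [mul_le_mul a (sm'_le (t / y - 1)) (sm'_nn _) (by norm_num : (0:ℝ) ≤ 4)]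

theorem om_eq (p : Pm) (τ y : ℝ) (j : ℕ) : p.om τ y j = τ * p.κ * bu y (j * p.v) := by
  unfold Pm.om bu; ring

/-- **the displacement is admissible** -/
theorem om_Om (p : Pm) {τ y : ℝ} (hv : 0 < p.v) (hκ : 0 ≤ p.κ) (h0 : 0 ≤ τ) (h1 : τ ≤ 1)
    (hy : 0 < y) : Pr.Om p.v (2 * y) (4 * p.κ) (p.om τ y) := by
  have hτ : 0 ≤ τ * p.κ := mul_nonneg h0 hκ
  refine ⟨by simp [om_eq, bu], fun j => ?_, fun j h => ?_, fun j => ?_⟩
  · rw [om_eq]; exact mul_nonneg hτ (bu_nn (by positivity))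
  · rw [om_eq, bu_hi hy h, mul_zero]
  · have a := bu_sub (y := y) (t := j * p.v) (t' := ((j + 1 : ℕ) : ℝ) * p.v) hy (by positivity)
      (by push_cast; nlinarith)
    have e : ((j + 1 : ℕ) : ℝ) * p.v - j * p.v = p.v := by push_cast; ring
    rw [e] at a
    rw [om_eq, om_eq, ← mul_sub, abs_mul, abs_of_nonneg hτ]
    have b : |bu y (((j + 1 : ℕ) : ℝ) * p.v) - bu y (j * p.v)| ≤ 4 * p.v :=
      abs_le.2 ⟨by linarith [a.1], by linarith [a.2]⟩
    have c : τ * p.κ ≤ p.κ := by nlinarith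
    nlinarith [mul_le_mul c b (abs_nonneg _) hκ]

theorem om_mono (p : Pm) {τ y τ' y' : ℝ} (hv : 0 < p.v) (hκ : 0 ≤ p.κ) (h0 : 0 ≤ τ) (hτ : τ ≤ τ')
    (hy : 0 < y) (h : y ≤ y') (j : ℕ) : p.om τ y j ≤ p.om τ' y' j := by
  rw [om_eq, om_eq]
  have a := (bu_y hy h (t := j * p.v) (by positivity)).1
  exact mul_le_mul (mul_le_mul_of_nonneg_right hτ hκ) (by linarith) (bu_nn (by positivity))
    (mul_nonneg (h0.trans hτ) hκ)

/-! ### labels -/

section zz
variable {p : Pm} {b0 c C η : ℝ}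

theorem zz_base (p : Pm) {k : ℕ} (h : k < p.J) : p.zz k = p.z k := by simp [Pm.zz, h]
theorem zz_plat (p : Pm) {k : ℕ} (h : p.J ≤ k) (h' : k < p.J + p.I) :
    p.zz k = p.xs + ((k : ℝ) + 1 - p.J) * p.v := by simp [Pm.zz, not_lt.2 h, h']
theorem zz_top (p : Pm) {k : ℕ} (h : p.J + p.I ≤ k) : p.zz k = 1 := by
  have : ¬ k < p.J := by omega
  simp [Pm.zz, this, not_lt.2 h]

/-- also at `k = J - 1` -/
theorem zz_plat' (p : Pm) {k : ℕ} (h : p.J ≤ k + 1) (h' : k < p.J + p.I) :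
    p.zz k = p.xs + ((k : ℝ) + 1 - p.J) * p.v := by
  rcases Nat.lt_or_ge k p.J with a | a
  · have e : p.J = k + 1 := by omega
    rw [zz_base p a, Pm.xs, e]; simp
  · exact zz_plat p a h'

theorem z_le_one (h : Pr.Lab p.z p.J) (k : ℕ) : p.z k ≤ 1 := by
  have := h.mono (le_max_left k p.J)
  rwa [h.top _ (le_max_right _ _)] at this

theorem I_le (hv : 0 < p.v) (hx : p.xs ≤ 1) (hI : 0 < p.I) : p.xs + (p.I + 1) * p.v ≤ 1 := by
  have a : (⌊(1 - p.xs) / p.v⌋₊ : ℝ) ≤ (1 - p.xs) / p.v :=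
    Nat.floor_le (div_nonneg (by linarith) hv.le)
  have b : ⌊(1 - p.xs) / p.v⌋₊ = p.I + 1 := by unfold Pm.I at hI ⊢; omega
  rw [b, le_div_iff₀ hv] at a
  push_cast at a
  linarith

theorem lt_I (hv : 0 < p.v) : 1 < p.xs + (p.I + 2) * p.v := by
  have a : (1 - p.xs) / p.v < (⌊(1 - p.xs) / p.v⌋₊ : ℝ) + 1 := Nat.lt_floor_add_one _
  have b : ⌊(1 - p.xs) / p.v⌋₊ ≤ p.I + 1 := by unfold Pm.I; omega
  have b' : (⌊(1 - p.xs) / p.v⌋₊ : ℝ) ≤ p.I + 1 := by exact_mod_cast b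
  rw [div_lt_iff₀ hv] at a
  nlinarith

/-- plateau labels stay below `1 - v` -/
theorem zz_plat_le (hv : 0 < p.v) (hx : p.xs ≤ 1) {k : ℕ} (h : p.J ≤ k) (h' : k < p.J + p.I) :
    p.zz k ≤ 1 - p.v := by
  have a := I_le hv hx (by omega)
  have b : (k : ℝ) + 1 ≤ p.J + p.I := by exact_mod_cast h'
  rw [zz_plat p h h']
  nlinarith

theorem zz_le_one (hv : 0 < p.v) (hl : Pr.Lab p.z p.J) (k : ℕ) : p.zz k ≤ 1 := by
  rcases Nat.lt_or_ge k p.J with a | a
  · rw [zz_base p a]; exact z_le_one hl k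
  rcases Nat.lt_or_ge k (p.J + p.I) with b | b
  · linarith [zz_plat_le hv (z_le_one hl _) a b]
  · rw [zz_top p b]

theorem zz_mono (hv : 0 < p.v) (hl : Pr.Lab p.z p.J) : Monotone p.zz := by
  refine monotone_nat_of_le_succ fun k => ?_
  rcases Nat.lt_or_ge (k + 1) p.J with a | a
  · rw [zz_base p a, zz_base p (by omega)]; exact hl.mono (Nat.le_succ k)
  rcases Nat.lt_or_ge (k + 1) (p.J + p.I) with b | b
  · rw [zz_plat p a b, zz_plat' p a (by omega)]; push_cast; nlinarith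
  · rw [zz_top p b]; exact zz_le_one hv hl k

theorem zz_pos (hv : 0 < p.v) (hl : Pr.Lab p.z p.J) (hJ : 0 < p.J) (k : ℕ) : 0 < p.zz k := by
  have := zz_mono hv hl (Nat.zero_le k)
  rw [zz_base p hJ] at this
  exact hl.pos.trans_le this

theorem xs_le_zz (hv : 0 < p.v) (hl : Pr.Lab p.z p.J) (hJ : 0 < p.J) {k : ℕ} (h : p.J ≤ k + 1) :
    p.xs ≤ p.zz k := by
  have := zz_mono hv hl (show p.J - 1 ≤ k by omega)
  rwa [zz_base p (by omega)] at this

theorem zz_le_xs (hl : Pr.Lab p.z p.J) {k : ℕ} (h : k < p.J) : p.zz k ≤ p.xs := by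
  rw [zz_base p h]; exact hl.mono (by omega)

/-- mesh on the plateau -/
theorem zz_step (p : Pm) {k : ℕ} (hk : 1 ≤ k) (h : p.J ≤ k) (h' : k < p.J + p.I) :
    p.zz k - p.zz (k - 1) = p.v := by
  rw [zz_plat p h h', zz_plat' p (k := k - 1) (by omega) (by omega), Nat.cast_sub hk]
  push_cast; ring

/-- the last step up to the label `1` -/
theorem zz_last (hv : 0 < p.v) (hx : p.xs ≤ 1) (hI : 0 < p.I) :
    p.v ≤ 1 - p.zz (p.J + p.I - 1) ∧ 1 - p.zz (p.J + p.I - 1) < 2 * p.v := by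
  have e : p.zz (p.J + p.I - 1) = p.xs + p.I * p.v := by
    rw [zz_plat p (by omega) (by omega), Nat.cast_sub (by omega)]; push_cast; ring
  have a := I_le hv hx hI
  have b := lt_I (p := p) hv
  rw [e]; constructor <;> linarith

end zz

/-! ### times -/

theorem ss_base (p : Pm) (τ y : ℝ) {k : ℕ} (h : k ≤ p.J) :
    p.ss τ y k = k * p.v - p.om τ y k := by simp [Pm.ss, h, Pr.sig]

theorem ss_plat (p : Pm) {τ y : ℝ} (hJ : p.om τ y p.J = 0) {k : ℕ} (h : p.J ≤ k)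
    (h' : k ≤ p.J + p.I) : p.ss τ y k = p.J * p.v := by
  rcases h.eq_or_lt with a | a
  · rw [← a, ss_base p τ y le_rfl, hJ, sub_zero]
  · simp [Pm.ss, not_le.2 a, h']

theorem ss_top (p : Pm) {τ y : ℝ} (hJ : p.om τ y p.J = 0) {k : ℕ} (h : p.J + p.I ≤ k) :
    p.ss τ y k = ((k : ℝ) - p.I) * p.v := by
  rcases h.eq_or_lt with a | a
  · rw [ss_plat p hJ (by omega) a.ge, ← a]; push_cast; ring
  · have : ¬ k ≤ p.J := by omega
    simp [Pm.ss, this, not_le.2 a]

theorem H_lo (p : Pm) (τ y : ℝ) {k : ℕ} (h : k ≤ p.j0) : p.H τ y k = 0 := by simp [Pm.H, h]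

theorem H_hi (p : Pm) (τ y : ℝ) {k : ℕ} (h : p.j0 < k) : p.H τ y k =
    p.ss τ y k - p.b τ y * p.q τ y k + p.μ τ y * p.rs τ y (p.zz (k - 1)) := by
  simp [Pm.H, not_le.2 h]

/-- on the plateau only the static marks are deposited -/
theorem H_plat (p : Pm) {τ y : ℝ} (hJ : p.om τ y p.J = 0) (hj : p.j0 < p.J) {k : ℕ} (h : p.J ≤ k)
    (h' : k < p.J + p.I) : p.H τ y (k + 1) - p.H τ y k =
      p.μ τ y * (p.rs τ y (p.zz k) - p.rs τ y (p.zz (k - 1))) := by
  rw [H_hi p τ y (k := k + 1) (by omega), H_hi p τ y (k := k) (by omega)]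
  unfold Pm.q
  rw [ss_plat p hJ (k := k + 1) (by omega) (by omega), ss_plat p hJ h h'.le, Nat.add_sub_cancel]
  ring

/-! ### static marks -/

/-- lower part -/
def r1 (w lg xs x : ℝ) : ℝ :=
  if x ≤ xs then -(w ^ ((2 : ℝ) / 3) * sm (1 - (xs - x) / (lg * w ^ ((2 : ℝ) / 3))))
    else -(w / √(x - xs + w ^ ((2 : ℝ) / 3)))

/-- upper part -/
def r2 (w v x : ℝ) : ℝ := log ((1 + w / √(1 - max x (1 / 2) + v)) / (1 + w / √(1 / 2 + v)))

theorem rs_eq (p : Pm) (τ y x : ℝ) :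
    p.rs τ y x = r1 (p.wt τ y) (log p.n) p.xs x + r2 (p.wt τ y) p.v x := rfl

theorem div_sqrt_W {w : ℝ} (hw : 0 < w) : w / √(w ^ ((2 : ℝ) / 3)) = w ^ ((2 : ℝ) / 3) := by
  rw [Real.sqrt_eq_rpow, ← Real.rpow_mul hw.le, div_eq_iff (by positivity), ← Real.rpow_add hw]
  norm_num

/-- increments of `w / √u` -/
theorem inv_sqrt_sub {w u u' : ℝ} (hw : 0 ≤ w) (hu : 0 < u) (h : u ≤ u') :
    w * (u' - u) / (2 * (u' * √u')) ≤ w / √u - w / √u' ∧
      w / √u - w / √u' ≤ w * (u' - u) / (2 * (u * √u)) := by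
  have hu' : 0 < u' := hu.trans_le h
  obtain ⟨s, hs, rfl⟩ : ∃ s : ℝ, 0 < s ∧ u = s ^ 2 := ⟨√u, sqrt_pos.2 hu, (sq_sqrt hu.le).symm⟩
  obtain ⟨t, ht, rfl⟩ : ∃ t : ℝ, 0 < t ∧ u' = t ^ 2 := ⟨√u', sqrt_pos.2 hu', (sq_sqrt hu'.le).symm⟩
  have hst : s ≤ t := by nlinarith
  rw [sqrt_sq hs.le, sqrt_sq ht.le]
  have e : w / s - w / t = w * (t - s) / (s * t) := by field_simp
  rw [e]
  have k : 0 ≤ w * (t - s) := mul_nonneg hw (sub_nonneg.2 hst)
  constructor
  · rw [div_le_div_iff₀ (by positivity) (by positivity)]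
    have : (t + s) * (s * t) ≤ 2 * (t ^ 2 * t) := by
      nlinarith [mul_pos hs ht, mul_le_mul_of_nonneg_left hst ht.le,
        mul_nonneg (mul_pos hs ht).le (sub_nonneg.2 hst), mul_nonneg (mul_pos ht ht).le (sub_nonneg.2 hst)]
    nlinarith [mul_le_mul_of_nonneg_left this k]
  · rw [div_le_div_iff₀ (by positivity) (by positivity)]
    have : 2 * (s ^ 2 * s) ≤ (t + s) * (s * t) := by
      nlinarith [mul_pos hs ht, mul_le_mul_of_nonneg_left hst hs.le,
        mul_nonneg (mul_pos hs ht).le (sub_nonneg.2 hst), mul_nonneg (mul_pos hs hs).le (sub_nonneg.2 hst)]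
    nlinarith [mul_le_mul_of_nonneg_left this k]

section r
variable {w lg xs v x x' : ℝ}

theorem r1_lo (h : x ≤ xs) :
    r1 w lg xs x = -(w ^ ((2 : ℝ) / 3) * sm (1 - (xs - x) / (lg * w ^ ((2 : ℝ) / 3)))) := by
  simp [r1, h]

theorem r1_hi (hw : 0 < w) (h : xs ≤ x) : r1 w lg xs x = -(w / √(x - xs + w ^ ((2 : ℝ) / 3))) := by
  rcases h.eq_or_lt with a | a
  · rw [r1_lo a.ge, ← a, sub_self, zero_div, sub_zero, sm_one le_rfl, zero_add, div_sqrt_W hw, mul_one]
  · simp [r1, not_le.2 a]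

theorem r1_xs (hw : 0 < w) : r1 w lg xs xs = -w ^ ((2 : ℝ) / 3) := by
  rw [r1_hi hw le_rfl, sub_self, zero_add, div_sqrt_W hw]

theorem r1_zero (hw : 0 < w) (hl : 0 < lg) (h : x + lg * w ^ ((2 : ℝ) / 3) ≤ xs) :
    r1 w lg xs x = 0 := by
  have a : 0 < lg * w ^ ((2 : ℝ) / 3) := by positivity
  rw [r1_lo (by linarith), sm_zero, mul_zero, neg_zero]
  rw [sub_nonpos, le_div_iff₀ a]; linarith

/-- below `xs`: decreasing with slope at most `3 / (2 lg)` -/
theorem r1_sub_lo (hw : 0 < w) (hl : 0 < lg) (h : x ≤ x') (h' : x' ≤ xs) :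
    -(3 / (2 * lg) * (x' - x)) ≤ r1 w lg xs x' - r1 w lg xs x ∧ r1 w lg xs x' - r1 w lg xs x ≤ 0 := by
  have hW : 0 < w ^ ((2 : ℝ) / 3) := by positivity
  set W := w ^ ((2 : ℝ) / 3) with hWd
  have a := sm_sub (u := 1 - (xs - x) / (lg * W)) (u' := 1 - (xs - x') / (lg * W))
    (by linarith [div_le_div_of_nonneg_right (show xs - x' ≤ xs - x by linarith) (mul_pos hl hW).le])
  rw [r1_lo h', r1_lo (h.trans h'), ← hWd]
  have e : W * (3 / 2 * (1 - (xs - x') / (lg * W) - (1 - (xs - x) / (lg * W)))) =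
      3 / (2 * lg) * (x' - x) := by field_simp; ring
  constructor
  · nlinarith [mul_le_mul_of_nonneg_left a.2 hW.le]
  · nlinarith [mul_nonneg hW.le a.1]

/-- above `xs`: increasing, two-sided increments -/
theorem r1_sub_hi (hw : 0 < w) (h : xs ≤ x) (h' : x ≤ x') :
    w * (x' - x) / (2 * ((x' - xs + w ^ ((2 : ℝ) / 3)) * √(x' - xs + w ^ ((2 : ℝ) / 3)))) ≤
      r1 w lg xs x' - r1 w lg xs x ∧
    r1 w lg xs x' - r1 w lg xs x ≤
      w * (x' - x) / (2 * ((x - xs + w ^ ((2 : ℝ) / 3)) * √(x - xs + w ^ ((2 : ℝ) / 3)))) := by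
  have hW : 0 < w ^ ((2 : ℝ) / 3) := by positivity
  have a := inv_sqrt_sub (w := w) (u := x - xs + w ^ ((2 : ℝ) / 3)) (u' := x' - xs + w ^ ((2 : ℝ) / 3))
    hw.le (by linarith) (by linarith)
  have e : x' - xs + w ^ ((2 : ℝ) / 3) - (x - xs + w ^ ((2 : ℝ) / 3)) = x' - x := by ring
  rw [e] at a
  rw [r1_hi hw h, r1_hi hw (h.trans h')]
  constructor <;> linarith [a.1, a.2]

theorem r1_lt (hw : 0 < w) (h : xs ≤ x) (h' : x < x') : r1 w lg xs x < r1 w lg xs x' := by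
  have hW : 0 < w ^ ((2 : ℝ) / 3) := by positivity
  have a := (r1_sub_hi (lg := lg) hw h h'.le).1
  have u : 0 < x' - xs + w ^ ((2 : ℝ) / 3) := by linarith
  have b : 0 < w * (x' - x) / (2 * ((x' - xs + w ^ ((2 : ℝ) / 3)) * √(x' - xs + w ^ ((2 : ℝ) / 3)))) :=
    div_pos (mul_pos hw (sub_pos.2 h')) (by have := sqrt_pos.2 u; positivity)
  linarith

theorem r1_bd (hw : 0 < w) (x : ℝ) : -w ^ ((2 : ℝ) / 3) ≤ r1 w lg xs x ∧ r1 w lg xs x ≤ 0 := by
  have hW : 0 < w ^ ((2 : ℝ) / 3) := by positivity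
  rcases le_total x xs with a | a
  · rw [r1_lo a]
    constructor
    · nlinarith [sm_le (1 - (xs - x) / (lg * w ^ ((2 : ℝ) / 3)))]
    · nlinarith [sm_nn (1 - (xs - x) / (lg * w ^ ((2 : ℝ) / 3)))]
  · constructor
    · rcases a.eq_or_lt with b | b
      · rw [← b, r1_xs hw]
      · rw [← r1_xs (lg := lg) (xs := xs) hw]; exact (r1_lt hw le_rfl b).le
    · rw [r1_hi hw a]; exact neg_nonpos.2 (div_nonneg hw.le (sqrt_nonneg _))

theorem r2_eq (hw : 0 ≤ w) (x : ℝ) :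
    r2 w v x = log (1 + w / √(1 - max x (1 / 2) + v)) - log (1 + w / √(1 / 2 + v)) := by
  unfold r2
  rw [log_div (by positivity) (by positivity)]

theorem r2_zero (hw : 0 ≤ w) (h : x ≤ 1 / 2) : r2 w v x = 0 := by
  rw [r2_eq hw, max_eq_right h]; norm_num

theorem log_sub_bd {a b : ℝ} (ha : 0 ≤ a) (h : a ≤ b) :
    (b - a) / (1 + b) ≤ log (1 + b) - log (1 + a) ∧ log (1 + b) - log (1 + a) ≤ (b - a) / (1 + a) := by
  have hb : 0 ≤ b := ha.trans h
  constructor
  · have := log_le_sub_one_of_pos (x := (1 + a) / (1 + b)) (by positivity)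
    rw [log_div (by positivity) (by positivity)] at this
    have e : (1 + a) / (1 + b) - 1 = -((b - a) / (1 + b)) := by field_simp; ring
    linarith
  · have := log_le_sub_one_of_pos (x := (1 + b) / (1 + a)) (by positivity)
    rw [log_div (by positivity) (by positivity)] at this
    have e : (1 + b) / (1 + a) - 1 = (b - a) / (1 + a) := by field_simp; ring
    linarith

/-- two-sided increments on `[1/2, 1]`, `u = 1 - x + v`, `u' = 1 - x' + v` -/
theorem r2_sub (hw : 0 ≤ w) (hv : 0 < v) (h0 : 1 / 2 ≤ x) (h : x ≤ x') (h1 : x' ≤ 1) :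
    w * (x' - x) / (2 * ((1 - x + v) * √(1 - x + v))) / (1 + w / √(1 - x' + v)) ≤
      r2 w v x' - r2 w v x ∧
    r2 w v x' - r2 w v x ≤
      w * (x' - x) / (2 * ((1 - x' + v) * √(1 - x' + v))) / (1 + w / √(1 - x + v)) := by
  have a := inv_sqrt_sub (w := w) (u := 1 - x' + v) (u' := 1 - x + v) hw (by linarith) (by linarith)
  have e : 1 - x + v - (1 - x' + v) = x' - x := by ring
  rw [e] at a
  have k : 0 ≤ w * (x' - x) / (2 * ((1 - x + v) * √(1 - x + v))) :=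
    div_nonneg (mul_nonneg hw (sub_nonneg.2 h))
      (mul_nonneg zero_le_two (mul_nonneg (by linarith) (sqrt_nonneg _)))
  have b := log_sub_bd (a := w / √(1 - x + v)) (b := w / √(1 - x' + v)) (by positivity)
    (by linarith [a.1])
  rw [r2_eq hw, r2_eq hw, max_eq_left h0, max_eq_left (h0.trans h)]
  constructor
  · refine le_trans (div_le_div_of_nonneg_right a.1 (by positivity)) ?_
    linarith [b.1]
  · refine le_trans ?_ (div_le_div_of_nonneg_right a.2 (by positivity))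
    linarith [b.2]

theorem r2_max (w v x : ℝ) : r2 w v (max x (1 / 2)) = r2 w v x := by
  unfold r2; rw [max_assoc, max_self]

/-- monotone and Lipschitz on `(-∞, 1]` -/
theorem r2_sub' (hw : 0 ≤ w) (hv : 0 < v) (h : x ≤ x') (h1 : x' ≤ 1) :
    0 ≤ r2 w v x' - r2 w v x ∧
      r2 w v x' - r2 w v x ≤ w * (x' - x) / (2 * ((1 - x' + v) * √(1 - x' + v))) := by
  have k : 0 ≤ w * (x' - x) / (2 * ((1 - x' + v) * √(1 - x' + v))) :=
    div_nonneg (mul_nonneg hw (sub_nonneg.2 h))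
      (mul_nonneg zero_le_two (mul_nonneg (by linarith) (sqrt_nonneg _)))
  rcases le_total x' (1 / 2) with a | a
  · rw [r2_zero hw a, r2_zero hw (h.trans a), sub_self]; exact ⟨le_rfl, k⟩
  have hm : max x (1 / 2) ≤ x' := max_le h a
  have b := r2_sub hw hv (le_max_right x (1 / 2)) hm h1
  rw [r2_max] at b
  have u : 0 < 1 - max x (1 / 2) + v := by linarith
  have u' : 0 < 1 - x' + v := by linarith
  constructor
  · refine le_trans ?_ b.1
    exact div_nonneg (div_nonneg (mul_nonneg hw (sub_nonneg.2 hm)) (by positivity)) (by positivity)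
  · refine b.2.trans ((div_le_self ?_ ?_).trans ?_)
    · exact div_nonneg (mul_nonneg hw (sub_nonneg.2 hm)) (by positivity)
    · have : 0 ≤ w / √(1 - max x (1 / 2) + v) := by positivity
      linarith
    · exact div_le_div_of_nonneg_right
        (mul_le_mul_of_nonneg_left (by linarith [le_max_left x (1 / 2)]) hw) (by positivity)

theorem r2_bd (hw : 0 ≤ w) (hv : 0 < v) (h1 : x ≤ 1) :
    0 ≤ r2 w v x ∧ r2 w v x ≤ log (1 + w / √v) ∧ r2 w v x ≤ w / √(1 - x + v) := by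
  have z : 0 ≤ log (1 + w / √(1 / 2 + v)) := log_nonneg (by
    have : 0 ≤ w / √(1 / 2 + v) := by positivity
    linarith)
  have hm : max x (1 / 2) ≤ 1 := max_le h1 (by norm_num)
  refine ⟨?_, ?_, ?_⟩
  · have := (r2_sub' hw hv (min_le_left x (1 / 2)) h1).1
    rw [r2_zero hw (min_le_right x (1 / 2))] at this
    linarith
  · rw [r2_eq hw]
    have : log (1 + w / √(1 - max x (1 / 2) + v)) ≤ log (1 + w / √v) := by
      refine log_le_log (by positivity) ?_
      have := div_le_div_of_nonneg_left hw (sqrt_pos.2 hv)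
        (sqrt_le_sqrt (show v ≤ 1 - max x (1 / 2) + v by linarith))
      linarith
    linarith
  · rcases le_total x (1 / 2) with a | a
    · rw [r2_zero hw a]; positivity
    · rw [r2_eq hw, max_eq_left a]
      have := log_le_sub_one_of_pos (x := 1 + w / √(1 - x + v)) (by positivity)
      linarith

end r

section rs
variable {p : Pm} {τ y x x' : ℝ}

/-- **strictly increasing on `[xs, 1]`** -/
theorem rs_lt (hw : 0 < p.wt τ y) (hv : 0 < p.v) (h0 : p.xs ≤ x) (h : x < x') (h1 : x' ≤ 1) :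
    p.rs τ y x < p.rs τ y x' := by
  rw [rs_eq, rs_eq]
  linarith [r1_lt (lg := log p.n) hw h0 h, (r2_sub' hw.le hv h.le h1).1]

theorem rs_le (hw : 0 < p.wt τ y) (hv : 0 < p.v) (h0 : p.xs ≤ x) (h : x ≤ x') (h1 : x' ≤ 1) :
    p.rs τ y x ≤ p.rs τ y x' := by
  rcases h.eq_or_lt with a | a
  · rw [a]
  · exact (rs_lt hw hv h0 a h1).le

/-- **below `xs`** the slope is at least `-3 / (2 log n)` -/
theorem rs_sub_lo (hw : 0 < p.wt τ y) (hv : 0 < p.v) (hl : 0 < log p.n) (hx : p.xs ≤ 1)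
    (h : x ≤ x') (h' : x' ≤ p.xs) :
    -(3 / (2 * log p.n) * (x' - x)) ≤ p.rs τ y x' - p.rs τ y x ∧
      p.rs τ y x' - p.rs τ y x ≤
        p.wt τ y * (x' - x) / (2 * ((1 - x' + p.v) * √(1 - x' + p.v))) := by
  have a := r1_sub_lo hw hl h h'
  have b := r2_sub' hw.le hv h (h'.trans hx)
  rw [rs_eq, rs_eq]
  constructor <;> linarith [a.1, a.2, b.1, b.2]

theorem rs_bd (hw : 0 < p.wt τ y) (hv : 0 < p.v) (h1 : x ≤ 1) :
    -p.wt τ y ^ ((2 : ℝ) / 3) ≤ p.rs τ y x ∧ p.rs τ y x ≤ log (1 + p.wt τ y / √p.v) ∧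
      p.rs τ y x ≤ p.wt τ y / √(1 - x + p.v) := by
  have a := r1_bd (lg := log p.n) (xs := p.xs) hw x
  have b := r2_bd hw.le hv h1
  rw [rs_eq]
  refine ⟨by linarith [a.1, b.1], by linarith [a.2, b.2.1], by linarith [a.2, b.2.2]⟩

/-- no static marks at low labels -/
theorem rs_zero (hw : 0 < p.wt τ y) (hl : 0 < log p.n) (h : x ≤ 1 / 2)
    (h' : x + log p.n * p.wt τ y ^ ((2 : ℝ) / 3) ≤ p.xs) : p.rs τ y x = 0 := by
  rw [rs_eq, r1_zero hw hl h', r2_zero hw.le h, add_zero]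

theorem wt_pos (hn : 0 < p.n) (hμ : 0 < p.μ τ y) : 0 < p.wt τ y := by
  unfold Pm.wt
  have : (0 : ℝ) < p.n := by exact_mod_cast hn
  positivity

/-- **marks strictly increase on the plateau** -/
theorem H_plat_lt (hn : 0 < p.n) (hμ : 0 < p.μ τ y) (hv : 0 < p.v) (hl : Pr.Lab p.z p.J)
    (hJ : p.om τ y p.J = 0) (hj : p.j0 < p.J) {k : ℕ} (h : p.J ≤ k) (h' : k < p.J + p.I) :
    p.H τ y k < p.H τ y (k + 1) := by
  have e := H_plat p hJ hj h h'
  have s := zz_step p (k := k) (by omega) h h'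
  have a := rs_lt (wt_pos hn hμ) hv (xs_le_zz hv hl (by omega) (k := k - 1) (by omega))
    (show p.zz (k - 1) < p.zz k by linarith) (zz_le_one hv hl k)
  nlinarith [mul_pos hμ (sub_pos.2 a)]

/-- from the node `J` on the static part of the marks never decreases -/
theorem rs_step_nn (hw : 0 < p.wt τ y) (hv : 0 < p.v) (hl : Pr.Lab p.z p.J) (hJ : 0 < p.J) {k : ℕ}
    (h : p.J ≤ k) : p.rs τ y (p.zz (k - 1)) ≤ p.rs τ y (p.zz k) :=
  rs_le hw hv (xs_le_zz hv hl hJ (by omega)) (zz_mono hv hl (Nat.sub_le k 1)) (zz_le_one hv hl k)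

end rs

end Crest.Agent.T156.Alt.Rs13

end
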