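import Crest.Agent.T156.MdDer_77
import Crest.Agent.T156.AltFam_88
import Crest.Agent.T156.PrH_28
import Crest.Agent.T156.Rs_13

/-!
# Row 156, ALT route: a differentiable family of models is a stage (helper77)
-/

set_option autoImplicit false
set_option linter.unusedSectionVars false

noncomputable section

namespace Crest.Agent.T156.Alt.Md77

open MeasureTheory Real Set Filter Topology
open Crest.Agent.T156.Cas.D28 (C1)

/-- a family with fixed tilts, continuous on `[t0, t1]`, differentiable inside -/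
structure Path (M : ℝ → Md) (d' H' : ℝ → ℕ → ℝ) (t0 t1 : ℝ) : Prop where
  hN : ∀ t, (M t).N = (M t0).N
  hz : ∀ t, (M t).z = (M t0).z
  cd : ∀ k ≤ (M t0).N, ContinuousOn (fun t => (M t).d k) (Icc t0 t1)
  cH : ∀ k ≤ (M t0).N, ContinuousOn (fun t => (M t).H k) (Icc t0 t1)
  hd : ∀ t ∈ Ioo t0 t1, ∀ k ≤ (M t0).N, HasDerivAt (fun t => (M t).d k) (d' t k) t
  hH : ∀ t ∈ Ioo t0 t1, ∀ k ≤ (M t0).N, HasDerivAt (fun t => (M t).H k) (H' t k) t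
  h0 : ∀ t, H' t 0 = 0
  inc : ∀ t ∈ Ioo t0 t1, Inc (M t)

namespace Path

variable {M : ℝ → Md} {d' H' : ℝ → ℕ → ℝ} {t0 t1 : ℝ} {m : ℕ}

theorem cont (h : Path M d' H' t0 t1) (m : ℕ) (a : ℝ) :
    ContinuousOn (fun t => (M t).V m a) (Icc t0 t1) := V_cont h.hN h.hz h.cd h.cH

theorem der (h : Path M d' H' t0 t1) (hm : 0 < m) (a : ℝ) {t : ℝ} (ht : t ∈ Ioo t0 t1) :
    HasDerivAt (fun t => (M t).V m a) (DV (M t) m a (d' t) (H' t)) t :=
  hasDerivWithinAt_univ.1 (V_der hm h.hN h.hz (fun k hk => (h.hd t ht k hk).hasDerivWithinAt)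
    (fun k hk => (h.hH t ht k hk).hasDerivWithinAt) (h.h0 t) (h.inc t ht)
    (eventually_of_mem (nhdsWithin_le_nhds (Ioo_mem_nhds ht.1 ht.2)) h.inc))

/-- **integrated form**: a bound by the derivative of a clock `Φ` -/
theorem le_clock (h : Path M d' H' t0 t1) (hm : 0 < m) (a a' : ℝ) {Φ φ : ℝ → ℝ}
    (hc : ContinuousOn Φ (Icc t0 t1)) (hΦ : ∀ t ∈ Ioo t0 t1, HasDerivAt Φ (φ t) t)
    (hb : ∀ t ∈ Ioo t0 t1, |DV (M t) m a' (d' t) (H' t) - DV (M t) m a (d' t) (H' t)| ≤ φ t)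
    {t : ℝ} (ht : t ∈ Icc t0 t1) :
    |(M t).V m a' - (M t).V m a - ((M t0).V m a' - (M t0).V m a)| ≤ Φ t - Φ t0 := by
  rcases ht.1.eq_or_lt with rfl | h0
  · simp
  have s1 : Icc t0 t ⊆ Icc t0 t1 := Icc_subset_Icc_right ht.2
  have s2 : Ioo t0 t ⊆ Ioo t0 t1 := Ioo_subset_Ioo_right ht.2
  have key : ∀ σ : ℝ, |σ| = 1 → σ * ((M t).V m a' - (M t).V m a - ((M t0).V m a' - (M t0).V m a)) ≤
      Φ t - Φ t0 := fun σ hσ => by
    obtain ⟨u, hu, e⟩ := exists_hasDerivAt_eq_slope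
      (fun t => Φ t - σ * ((M t).V m a' - (M t).V m a)) _ h0
      ((hc.sub (continuousOn_const.mul ((h.cont m a').sub (h.cont m a)))).mono s1)
      fun u hu => (hΦ u (s2 hu)).fun_sub
        (((h.der hm a' (s2 hu)).fun_sub (h.der hm a (s2 hu))).const_mul σ)
    have p : 0 ≤ φ u - σ * (DV (M u) m a' (d' u) (H' u) - DV (M u) m a (d' u) (H' u)) := by
      have := le_abs_self (σ * (DV (M u) m a' (d' u) (H' u) - DV (M u) m a (d' u) (H' u)))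
      rw [abs_mul, hσ, one_mul] at this
      linarith [hb u (s2 hu)]
    rw [e, le_div_iff₀ (sub_pos.2 h0)] at p
    linarith
  have k1 := key 1 abs_one
  have k2 := key (-1) (by simp)
  exact abs_le.2 ⟨by linarith, by linarith⟩

/-- **a path is a stage** (clock form) -/
theorem stage (h : Path M d' H' t0 t1) (h01 : t0 ≤ t1) {n : ℕ} (hn : 0 < n) {s γ C δ : ℝ}
    (hs : 0 ≤ s) (leg : ∀ t ∈ Icc t0 t1, (M t).Leg (s * (n : ℝ) ^ (γ - 1 / 6)) ∧ (M t).d 0 ≤ C)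
    {Φ φ : ℝ → ℝ} (hc : ContinuousOn Φ (Icc t0 t1)) (hΦ : ∀ t ∈ Ioo t0 t1, HasDerivAt Φ (φ t) t)
    (hδ : ∀ t ∈ Icc t0 t1, Φ t - Φ t0 ≤ δ)
    (hb : ∀ a a' Q : ℝ, Win n s γ a a' → 0 ≤ Q → WT n (M '' Icc t0 t1) a a' Q → ∀ m, n ≤ m →
      m ≤ 2 * n → ∀ t ∈ Ioo t0 t1, |DV (M t) m a' (d' t) (H' t) - DV (M t) m a (d' t) (H' t)| ≤
        φ t * ((n : ℝ) ^ ((1 : ℝ) / 6) * (Q * s ^ 2 + s ^ 5))) :
    Stage n s γ C δ (M t0) (M '' Icc t0 t1) := by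
  refine ⟨⟨t0, ⟨le_rfl, h01⟩, rfl⟩, ?_, fun a a' Q hw hQ hW m m1 m2 => ?_⟩
  · rintro _ ⟨t, ht, rfl⟩
    exact leg t ht
  · rintro _ ⟨t, ht, rfl⟩
    have := h.le_clock (hn.trans_le m1) a a'
      (Φ := fun t => Φ t * ((n : ℝ) ^ ((1 : ℝ) / 6) * (Q * s ^ 2 + s ^ 5)))
      (hc.mul continuousOn_const) (fun t ht => (hΦ t ht).mul_const _) (hb a a' Q hw hQ hW m m1 m2) ht
    rw [← sub_mul] at this
    rw [mul_assoc]
    exact this.trans (mul_le_mul_of_nonneg_right (hδ t ht) (by positivity))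

/-- constant bound: `(t1 - t0) |∂| ≤ δ …` -/
theorem stage_lin (h : Path M d' H' t0 t1) (h01 : t0 ≤ t1) {n : ℕ} (hn : 0 < n) {s γ C ε : ℝ}
    (hs : 0 ≤ s) (hε : 0 ≤ ε)
    (leg : ∀ t ∈ Icc t0 t1, (M t).Leg (s * (n : ℝ) ^ (γ - 1 / 6)) ∧ (M t).d 0 ≤ C)
    (hb : ∀ a a' Q : ℝ, Win n s γ a a' → 0 ≤ Q → WT n (M '' Icc t0 t1) a a' Q → ∀ m, n ≤ m →
      m ≤ 2 * n → ∀ t ∈ Ioo t0 t1, |DV (M t) m a' (d' t) (H' t) - DV (M t) m a (d' t) (H' t)| ≤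
        ε * ((n : ℝ) ^ ((1 : ℝ) / 6) * (Q * s ^ 2 + s ^ 5))) :
    Stage n s γ C (ε * (t1 - t0)) (M t0) (M '' Icc t0 t1) :=
  h.stage h01 hn hs leg (Φ := fun t => ε * t) (φ := fun _ => ε) (by fun_prop)
    (fun t _ => by simpa using (hasDerivAt_id' t).const_mul ε)
    (fun t ht => by nlinarith [ht.2]) hb

/-- logarithmic bound: `t |∂| ≤ ε …` -/
theorem stage_log (h : Path M d' H' t0 t1) (h0 : 0 < t0) (h01 : t0 ≤ t1) {n : ℕ} (hn : 0 < n)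
    {s γ C ε : ℝ} (hs : 0 ≤ s) (hε : 0 ≤ ε)
    (leg : ∀ t ∈ Icc t0 t1, (M t).Leg (s * (n : ℝ) ^ (γ - 1 / 6)) ∧ (M t).d 0 ≤ C)
    (hb : ∀ a a' Q : ℝ, Win n s γ a a' → 0 ≤ Q → WT n (M '' Icc t0 t1) a a' Q → ∀ m, n ≤ m →
      m ≤ 2 * n → ∀ t ∈ Ioo t0 t1, t * |DV (M t) m a' (d' t) (H' t) - DV (M t) m a (d' t) (H' t)| ≤
        ε * ((n : ℝ) ^ ((1 : ℝ) / 6) * (Q * s ^ 2 + s ^ 5))) :
    Stage n s γ C (ε * log (t1 / t0)) (M t0) (M '' Icc t0 t1) :=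
  h.stage h01 hn hs leg (Φ := fun t => ε * log t) (φ := fun t => ε * t⁻¹)
    (continuousOn_const.mul (continuousOn_log.mono fun t ht => (h0.trans_le ht.1).ne'))
    (fun t ht => (hasDerivAt_log (h0.trans ht.1).ne').const_mul ε)
    (fun t ht => by
      rw [log_div (h0.trans_le h01).ne' h0.ne', ← mul_sub]
      exact mul_le_mul_of_nonneg_left
        (sub_le_sub_right (log_le_log (h0.trans_le ht.1) ht.2) _) hε)
    fun a a' Q hw hQ hW m m1 m2 t ht => by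
      have := hb a a' Q hw hQ hW m m1 m2 t ht
      rw [mul_right_comm, ← div_eq_mul_inv, le_div_iff₀ (h0.trans ht.1), mul_comm]
      exact this

end Path

/-! ### families read off a `C¹` path of reference times -/

section ref
variable {I : Set ℝ} {s s' : ℝ → ℕ → ℝ} {z₀ : ℕ → ℝ} {N₀ j : ℕ} {ν : ℕ → ℕ} {b : ℝ → ℝ}
  {g : ℕ → ℝ} {M : ℝ → Md} {t0 t1 : ℝ}

/-- reference overlap at the reference node `i` -/
def qr (z₀ : ℕ → ℝ) (N₀ : ℕ) (s : ℝ → ℕ → ℝ) (i : ℕ) (t : ℝ) : ℝ :=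
  Pr.Gam (Pr.lst z₀ (s t) N₀) (s t i)

/-- velocity of the marks `s - b q + g` above `j` -/
def hr (z₀ : ℕ → ℝ) (N₀ j : ℕ) (ν : ℕ → ℕ) (s s' : ℝ → ℕ → ℝ) (b : ℝ → ℝ) (t : ℝ) (k : ℕ) : ℝ :=
  if k ≤ j then 0 else s' t (ν k) - (deriv b t * qr z₀ N₀ s (ν k) t + b t * deriv (qr z₀ N₀ s (ν k)) t)

theorem path_ref (h : Pr.NP I s s') (hb : C1 I b) (hI : Icc t0 t1 ⊆ I)
    (hN : ∀ t, (M t).N = (M t0).N) (hz : ∀ t, (M t).z = (M t0).z) (hν : ∀ k ≤ (M t0).N, ν k ≤ N₀)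
    (hd : ∀ t ∈ I, ∀ k ≤ (M t0).N, (M t).d k = b t)
    (hH : ∀ t ∈ I, ∀ k ≤ (M t0).N, (M t).H k =
      if k ≤ j then 0 else s t (ν k) - b t * qr z₀ N₀ s (ν k) t + g k)
    (inc : ∀ t ∈ Ioo t0 t1, Inc (M t)) :
    Path M (fun t _ => deriv b t) (hr z₀ N₀ j ν s s' b) t0 t1 := by
  have dd : ∀ t ∈ I, ∀ k ≤ (M t0).N, HasDerivAt (fun t => (M t).d k) (deriv b t) t :=
    fun t ht k hk => (hb.der ht).congr_of_eventuallyEq (by
      filter_upwards [h.op.mem_nhds ht] with u hu using hd u hu k hk)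
  have dH : ∀ t ∈ I, ∀ k ≤ (M t0).N,
      HasDerivAt (fun t => (M t).H k) (hr z₀ N₀ j ν s s' b t k) t := fun t ht k hk => by
    refine HasDerivAt.congr_of_eventuallyEq (f := fun t =>
      if k ≤ j then 0 else s t (ν k) - b t * qr z₀ N₀ s (ν k) t + g k) ?_ (by
      filter_upwards [h.op.mem_nhds ht] with u hu using hH u hu k hk)
    unfold hr
    split_ifs
    · exact hasDerivAt_const _ _
    · exact ((h.der t ht _).fun_sub ((hb.der ht).fun_mul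
        ((h.c1_Gam z₀ (hν k hk)).der ht))).add_const _
  exact ⟨hN, hz, fun k hk t ht => (dd t (hI ht) k hk).continuousAt.continuousWithinAt,
    fun k hk t ht => (dH t (hI ht) k hk).continuousAt.continuousWithinAt,
    fun t ht => dd t (hI (Ioo_subset_Icc_self ht)), fun t ht => dH t (hI (Ioo_subset_Icc_self ht)),
    fun t => if_pos j.zero_le, inc⟩

/-- **the derivative around the reference**: only the root and the nodes above `j` appear, with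
`b' q + H' = s' - b q'` -/
theorem DV_ref_sub (M : Md) (m : ℕ) (a a' t : ℝ) (hj : ∀ k, 1 ≤ k → k ≤ j → M.dz m a k = 0) :
    DV M m a' (fun _ => deriv b t) (hr z₀ N₀ j ν s s' b t) -
      DV M m a (fun _ => deriv b t) (hr z₀ N₀ j ν s s' b t) = -(m * (deriv b t / 4 *
      (M.dz m a' 0 * M.E2 m a' (fun r => r ^ 2) 0 - M.dz m a 0 * M.E2 m a (fun r => r ^ 2) 0) +
      ∑ k ∈ Finset.Ioc j M.N, M.dz m a k * (deriv b t / 4 *
        (M.E2 m a' (fun r => (r - qr z₀ N₀ s (ν k) t) ^ 2) k -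
          M.E2 m a (fun r => (r - qr z₀ N₀ s (ν k) t) ^ 2) k) +
        (s' t (ν k) - b t * deriv (qr z₀ N₀ s (ν k)) t) / 2 * (M.rb m a' k - M.rb m a k)))) := by
  rw [DV_sub M a a' (fun k => qr z₀ N₀ s (ν k) t) (if_pos j.zero_le)]
  congr 3
  rw [Finset.range_eq_Ico, Finset.sum_Ico_add' (fun k => M.dz m a k * (deriv b t / 4 *
        (M.E2 m a' (fun r => (r - qr z₀ N₀ s (ν k) t) ^ 2) k -
          M.E2 m a (fun r => (r - qr z₀ N₀ s (ν k) t) ^ 2) k) +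
        (deriv b t * qr z₀ N₀ s (ν k) t + hr z₀ N₀ j ν s s' b t k) / 2 *
          (M.rb m a' k - M.rb m a k))) 0 M.N 1]
  symm
  refine Finset.sum_subset_zero_on_sdiff (fun k hk => ?_) (fun k hk => ?_) fun k hk => ?_
  · simp only [Finset.mem_Ioc, Finset.mem_Ico] at *
    omega
  · simp only [Finset.mem_sdiff, Finset.mem_Ioc, Finset.mem_Ico] at hk
    rw [hj k (by omega) (by omega), zero_mul]
  · rw [hr, if_neg (not_le.2 (Finset.mem_Ioc.1 hk).1)]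
    ring

end ref

end Crest.Agent.T156.Alt.Md77

end
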