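import Crest.Agent.T156.FamSr_28
import Crest.Agent.T156.AltMem_37

/-!
# Row 156, ALT route (helper28): membership data at `τ = 1` for every plateau of slope
`γ ≤ n^{-7/20}`; the logarithmic spread
-/

set_option autoImplicit false

noncomputable section

namespace Crest.Agent.T156.Alt

open MeasureTheory Real Set Filter Topology
open Crest.Agent.R164.GC Crest.Agent.R339.B Crest.Agent.R339.Var Crest.Agent.T157.Pf
open Crest.Agent.T156.Pr Crest.Agent.T156.Pr.Spr41 Crest.Agent.T156.Ker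

/-- the plateau part of `MemD` (`θ` = top mass, `m₀` = smallest mass on the zone of `hs`) -/
structure PlD (K : ℝ) (p : Pm) (P : Pl) (y : ℝ) (den : ℝ → ℝ) (g2 u0 ue : ℝ) : Prop where
  g0 : 0 ≤ P.γ
  g1 : P.γ ≤ (p.n : ℝ) ^ (-(7 / 20 : ℝ))
  x0 : P.x 0 = p.xs
  xm : ∀ i < P.I, P.x i < P.x (i + 1)
  x1 : P.x P.I ≤ 1
  Iv : P.I * p.v ≤ 100 * log p.n
  z0 : ∀ x, x ≤ 1 / (2 * K) → P.rs x = 0 ∧ P.hs x = 0
  sl : ∀ k, p.jf < k → k < p.J → -(p.v / (8 * K)) ≤ P.rs (p.z k) - P.rs (p.z (k - 1)) ∧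
    P.rs (p.z k) - P.rs (p.z (k - 1)) ≤ K * p.v ∧
    -(p.ms 1 y (sig p.v (p.om 1 y) k) * p.v / (4 * K)) ≤ P.hs (p.z k) - P.hs (p.z (k - 1))
  pc : ∀ i < P.I, p.v / K ≤ P.γ * (p.lsp P.γ (P.x (i + 1)) - p.lsp P.γ (P.x i)) +
      (P.rs (P.x (i + 1)) - P.rs (P.x i)) ∧
    P.γ * (p.lsp P.γ (P.x (i + 1)) - p.lsp P.γ (P.x i)) + (P.rs (P.x (i + 1)) - P.rs (P.x i)) ≤
      K * p.v ∧
    0 ≤ P.rs (P.x (i + 1)) - P.rs (P.x i) ∧
    p.μ 1 y / K * (P.rs (P.x (i + 1)) - P.rs (P.x i)) ≤ P.hs (P.x (i + 1)) - P.hs (P.x i)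
  hN : P.hs (P.x P.I) ≤ K * p.A * log p.n
  Gtp : ∑ k ∈ Finset.Ioc p.jf (p.Jp P), (p.zP P k - p.zP P (k - 1)) * P.hs (p.xP P k) ^ 2 ≤ g2
  plat : ∀ i < P.I, p.v / K ≤ (P.x (i + 1) - P.x i) * den (P.x i) ∧
    (P.x (i + 1) - P.x i) * den (P.x i) ≤ K * p.v
  den0 : ∀ x, 0 < den x
  dens : ∀ x x', p.xs ≤ x → x ≤ x' → x' < 1 → x' - x ≤ min (x - p.xs + u0) (1 - x') →
    den x ≤ K * den x' ∧ den x' ≤ K * den x
  last : 1 - P.x P.I ≤ ue

/-- membership data at `τ = 1` -/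
def MemT (c0 C0 K : ℝ) (p : Pm) : Prop := ∀ (y : ℝ) (P : Pl) (den : ℝ → ℝ) (g2 u0 ue : ℝ),
  p.r ≤ y → y ≤ p.ye → PlD K p P y den g2 u0 ue →
    MemD K c0 C0 (C0 / (p.n : ℝ) ^ p.A) (2 * y) p P (p.om 1 y) p.jf (p.b 1 y) 0 (p.ms 1 y) den
      g2 u0 ue ∧ p.ms 1 y 1 = p.μ 1 y ∧ p.ms 1 y 0 = p.κ * p.r ^ 2 ∧ CrF K p P y ∧ 3 ≤ p.jf ∧
      p.ms 1 y (p.J * p.v) = p.μ 1 y

theorem CrF.mono {C C' : ℝ} {p : Pm} {P : Pl} {y : ℝ} (h : CrF C p P y) (h0 : 0 < C) (hC : C ≤ C')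
    (g0 : 0 ≤ P.γ) (he : C' * P.γ ≤ p.κ * p.r ^ 2) (mn : ∀ t, 0 ≤ p.ms 1 y t) : CrF C' p P y :=
  ⟨h.b1, h.b2, h.sT.trans hC, h.γJ, h.γN, he, h.tr.mono hC g0,
    fun t ht => ⟨le_trans (div_le_div_of_nonneg_left (mn t) h0 hC) (h.crit t ht).1,
      (h.crit t ht).2.trans (mul_le_mul_of_nonneg_right hC (mn t))⟩,
    fun s0 a b t c d => (h.gpp s0 a b t c d).trans (mul_le_mul_of_nonneg_right hC
      (div_nonneg (mn t) (le_max_of_le_left c)))⟩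

theorem ev_log (K : ℝ) {a : ℝ} (ha : 0 < a) :
    ∀ᶠ n : ℕ in atTop, K * log (n : ℝ) ≤ (n : ℝ) ^ a := by
  have := ((isLittleO_log_rpow_atTop ha).comp_tendsto
    tendsto_natCast_atTop_atTop).bound (show (0:ℝ) < 1 / (|K| + 1) by positivity)
  filter_upwards [this] with n h
  simp only [Function.comp, norm_eq_abs] at h
  rw [abs_of_nonneg (log_natCast_nonneg n), abs_of_nonneg (a := (n:ℝ) ^ a) (by positivity), one_div,
    ← div_eq_inv_mul, le_div_iff₀ (by positivity)] at h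
  nlinarith [log_natCast_nonneg n, le_abs_self K]

theorem memT (β : ℝ) (hβ : 1 < β) (c0 C0 : ℝ) (hc0 : 0 < c0) (hC0 : 1 ≤ C0) :
    ∃ K1 : ℝ, 1 ≤ K1 ∧ ∀ K, K1 ≤ K → ∀ A : ℕ, 2 ≤ A → ∀ c : ℝ, 0 < c → c ≤ 1 / 200 →
      ∀ᶠ n : ℕ in atTop, All β c0 C0 A c n (MemT c0 C0 K) := by
  have hb : 1 < β ^ 2 := one_lt_pow₀ hβ (by norm_num)
  obtain ⟨C1, c1, H1⟩ := crS β hβ c0 C0 hc0 hC0
  obtain ⟨C2, c2, H2⟩ := gpO β hβ c0 C0 hc0 hC0
  obtain ⟨C3, -, H3⟩ := gp β hβ c0 C0 hc0 hC0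
  have ic : 0 < 1 / c0 := by positivity
  refine ⟨C1 + C2 + C0 + β ^ 2 + 1 / c0, by linarith, fun K hK A hA c hc hc' => ?_⟩
  have K1 : 1 ≤ K := by linarith
  have d0 : 0 < min (c0 / 8) (1 / (32 * C0 * K ^ 2)) := by positivity
  have t1 := (tendsto_rpow_atTop (y := c / 20) (by positivity)).comp
    (tendsto_natCast_atTop_atTop (R := ℝ))
  filter_upwards [H1 A hA c hc hc', H2 A hA c hc hc', H3 A hA c hc hc',
    PP3.ev_small β c0 C0 hA hc hc' d0, ev_spr K c hc', ev_log 1 hc,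
    ev_log (β ^ 2 + 101 + A) one_pos, t1.eventually_ge_atTop (2 / c0)]
    with n h1 h2 h3 hS h4 h5 h6 h7 p e1 e2 e3 e4 hp y P den g2 u0 ue y1 y2 D
  have mem : p.Mem 1 y := Or.inr ⟨rfl, y1, y2⟩
  have S := hS p e1 e2 e3 e4 hp
  obtain ⟨k0, r0, m0, -, -, -, yd, -⟩ := PP3.mem_facts S hp.s1 mem
  obtain ⟨⟨-, a1, a2, a3, a4, a5⟩, -⟩ := h2 p e1 e2 e3 e4 hp
  have y0 : 0 < y := by linarith
  obtain ⟨ho, -⟩ := h3 p e1 e2 e3 e4 hp 1 y zero_le_one le_rfl y0 y2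
  have a6 := h4 p e2 e4 hp.s1
  have F0 := h1 p e1 e2 e3 e4 hp
  simp only [Function.comp] at h7
  rw [← e2] at h5 h6 h7
  rw [← e4] at h5 h7 hc hc'
  rw [← e3] at h6 hA
  clear h1 h2 h3 hS h4 t1 H1 H2 H3
  subst e1
  have v0 := hp.base.v_pos
  have n1 := S.n1
  have n0 : (0:ℝ) < p.n := by linarith
  have dK : min (c0 / 8) (1 / (32 * C0 * K ^ 2)) ≤ 1 / (32 * K) :=
    (min_le_right _ _).trans (one_div_le_one_div_of_le (by positivity) (by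
      have := one_le_mul_of_one_le_of_one_le hC0 K1
      nlinarith only [this, K1]))
  have d8 : 1 / (32 * K) ≤ 1 / 32 := one_div_le_one_div_of_le (by norm_num) (by linarith)
  generalize hδ : min (c0 / 8) (1 / (32 * C0 * K ^ 2)) = δ at S yd d0 dK
  have dc : δ ≤ c0 / 8 := hδ ▸ min_le_left _ _
  have dC : δ ≤ 1 / (32 * C0 * K ^ 2) := hδ ▸ min_le_right _ _
  have vδ : p.v ≤ δ := by
    have := S.ηv
    have : 0 ≤ C0 / (p.n:ℝ) ^ p.A := by positivity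
    have := mul_le_of_le_one_right d0.le S.μ1
    linarith
  have lg : 1 ≤ log (p.n:ℝ) :=
    S.lg.trans (mul_le_of_le_one_left (log_natCast_nonneg _) (by linarith))
  have G : Mem37.Geo c0 C0 (C0 / (p.n : ℝ) ^ p.A) (2 * y) p P (p.om 1 y) :=
    ⟨hp.base, ⟨ho.zero, ho.nn, ho.supp, fun j => (ho.lip j).trans
      (mul_le_mul_of_nonneg_right (by linarith [S.κ]) v0.le)⟩, by linarith, a2, D.g0, D.x0, D.xm,
      D.x1⟩
  have l0 : 0 ≤ 1 * p.κ := by linarith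
  have mn : ∀ t, 0 ≤ p.ms 1 y t := fun t => mul_nonneg l0 (sq_nonneg _)
  have F := (F0 _ _ _ _ P y y1 y2 G D.g1).mono (by linarith) (show C1 ≤ K by linarith) D.g0
    ((mul_le_mul_of_nonneg_left D.g1 (by linarith)).trans a6) mn
  have e0 : p.ms 1 y 0 = p.κ * p.r ^ 2 := by
    unfold Pm.ms; rw [one_mul, min_eq_left y0.le, max_eq_left r0.le]
  have e1 : p.ms 1 y 1 = p.μ 1 y := by
    unfold Pm.ms Pm.μ; rw [min_eq_right (by linarith), max_eq_right y1]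
  have μκ : p.μ 1 y ≤ p.κ := by
    unfold Pm.μ; rw [one_mul]
    exact mul_le_of_le_one_right k0.le (pow_le_one₀ y0.le (by linarith))
  have x0 : 0 < p.s * (p.n : ℝ) ^ (p.c / 13 - 1 / 6) :=
    mul_pos (by linarith [hp.s1]) (rpow_pos_of_pos n0 _)
  have jf1 : 1 ≤ p.jf := Nat.ceil_pos.2 (div_pos x0 v0)
  have jf2 : p.s * (p.n : ℝ) ^ (p.c / 13 - 1 / 6) ≤ p.jf * p.v :=
    (div_le_iff₀ v0).1 (Nat.le_ceil _)
  have jJ : p.jf + 1 < p.J := by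
    have : ((p.jf + 1 : ℕ) : ℝ) * p.v < p.J * p.v := by
      push_cast; linarith [S.r, hp.base.lo]
    exact_mod_cast lt_of_mul_lt_mul_right this v0.le
  obtain ⟨z1, z2⟩ := PP3.z_bds hp.base p.jf (by omega)
  have sj : p.sO P (p.om 1 y) p.jf = sig p.v (p.om 1 y) p.jf := Mem37.sP_lo (by omega)
  refine ⟨⟨G, K1, ?_, by linarith, by linarith, hb.le, lg, by omega, by linarith,
    D.g1.trans (rpow_le_one_of_one_le_of_nonpos n1 (by norm_num)), ?_, jf1, le_rfl, jJ, ?_, ?_,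
    ms_mono28 p y l0 r0.le, fun t _ => PP3.ms_two p l0 r0.le y0.le le_rfl, ?_, fun t => ?_, ?_, ?_,
    F.b1, le_rfl, by linarith [F.b2], mul_nonneg (by linarith) (mn _), ⟨?_, ?_⟩, ?_, ?_, D.z0,
    fun k a b => ?_, e1 ▸ D.pc, D.hN, D.Gtp, D.plat, D.den0, D.dens, D.last⟩, e1, e0, F, ?_, ?_⟩
  · rw [← div_le_iff₀' hc0]; linarith
  · have b1 : (p.Nr : ℝ) * p.v ≤ p.A * log p.n + p.v := by
      have a : 0 ≤ p.A * log p.n / p.v := by positivity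
      have := mul_le_mul_of_nonneg_right (Nat.ceil_lt_add_one a).le v0.le
      rwa [add_mul, div_mul_cancel₀ _ v0.ne', one_mul] at this
    have b2 : (p.n:ℝ) ^ (p.A + 1) * p.v = p.n * p.β ^ 2 := by
      unfold Pm.v; field_simp; ring
    refine le_of_mul_le_mul_right ?_ v0
    rw [b2, Pm.NP, rpow_one] at *
    push_cast
    have b3 := le_mul_of_one_le_right n0.le hb.le
    have b4 := mul_le_mul_of_nonneg_left lg (show 0 ≤ p.β ^ 2 + 1 by positivity)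
    linarith [D.Iv, hp.base.hi]
  · refine le_trans ?_ ((mul_le_mul_of_nonneg_left jf2 hc0.le).trans z1)
    have b1 : (p.n : ℝ) ^ (p.c / 20) * (p.n : ℝ) ^ (p.ga - 1 / 6) ≤
        (p.n : ℝ) ^ (p.c / 13 - 1 / 6) := by
      rw [← rpow_add n0]
      exact rpow_le_rpow_of_exponent_le n1 (by unfold Pm.ga; linarith)
    have b2 := mul_le_mul_of_nonneg_right ((div_le_iff₀' hc0).1 h7)
      (rpow_pos_of_pos n0 (p.ga - 1 / 6)).le
    have b3 := mul_le_mul_of_nonneg_left b1 hc0.le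
    have b4 := mul_le_mul_of_nonneg_left (show 2 * (p.n : ℝ) ^ (p.ga - 1 / 6) ≤
      c0 * (p.n : ℝ) ^ (p.c / 13 - 1 / 6) by linarith) (show 0 ≤ p.s by linarith [hp.s1])
    unfold Pm.am; linarith
  · have b1 : C0 * p.v + C0 * (p.jf * p.v) ≤ C0 * (2 * δ) := by
      rw [← mul_add]; exact mul_le_mul_of_nonneg_left (by linarith [S.r]) (by linarith)
    have b2 : C0 * (2 * (1 / (32 * C0 * K ^ 2))) = 1 / (16 * K ^ 2) := by field_simp; norm_num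
    have b3 := mul_le_mul_of_nonneg_left dC (show 0 ≤ 2 * C0 by linarith)
    linarith
  · rw [e0]
    exact le_trans (rpow_le_rpow_of_exponent_le n1 (by linarith)) S.μκ
  · rw [e1]
    exact mul_le_mul_of_nonneg_left (pow_le_pow_left₀ (le_max_of_le_left r0.le)
      (max_le y1 (min_le_right _ _)) 2) l0
  · rw [e1]
    refine (mul_le_mul μκ (one_mul (log (p.n:ℝ)) ▸ h5) (by linarith) k0.le).trans_eq ?_
    rw [Pm.κ, ← rpow_add n0]; simp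
  · have := mul_le_mul_of_nonneg_left (μκ.trans (S.κ.trans dK)) (show 0 ≤ K by linarith)
    rw [show K * (1 / (32 * K)) = 1 / 32 by field_simp] at this
    rw [e1]; linarith
  · exact (one_div_le_one_div_of_le (by linarith) (by linarith)).trans a3
  · have : 1 / K ≤ 1 / C2 := one_div_le_one_div_of_le (by linarith) (by linarith)
    linarith
  · rw [add_zero]; exact F.crit
  · refine F.gpp _ ?_ ?_
    · rw [sj, ← G.hom.sig0]; exact G.hom.sm v0 le_rfl jf1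
    · rw [sj]; unfold sig; linarith [ho.nn p.jf]
  · rw [Mem37.sP_lo b.le]; exact D.sl k a b
  · have b1 : p.μ0 ≤ (p.n : ℝ) ^ (p.c / 13 - 1 / 6) :=
      rpow_le_rpow_of_exponent_le n1 (by linarith)
    have b2 := le_mul_of_one_le_left (rpow_pos_of_pos n0 (p.c / 13 - 1 / 6)).le hp.s1
    have b3 := S.ηv
    have b4 : 0 ≤ C0 / (p.n:ℝ) ^ p.A := by positivity
    have b5 := mul_le_mul_of_nonneg_right (dK.trans d8) m0.le
    have : ((3:ℕ):ℝ) * p.v ≤ p.jf * p.v := by push_cast; linarith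
    exact_mod_cast le_of_mul_le_mul_right this v0
  · unfold Pm.ms Pm.μ; rw [min_eq_right (by linarith), max_eq_right y1]

/-- clock density and scales of the spread models -/
def Pm.spDen (p : Pm) (γ x : ℝ) : ℝ := γ * p.ld γ x
def Pm.spS (p : Pm) (C y : ℝ) (P : Pl) : Sc :=
  p.scl P (p.om 1 y) C p.jf (p.ms 1 y) (p.spDen P.γ) 0 (p.l0' P.γ) ((p.n : ℝ) ^ (-(2 : ℝ)))

/-- the logarithmic spread -/
theorem Pm.SpOk.plD {p : Pm} {P : Pl} (h : p.SpOk (7 / 20) P) {K y : ℝ} (hK : 6 ≤ K)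
    (hn : 3 ≤ p.n) (hv : 0 < p.v) (hx : 0 ≤ p.xs) (hL : 9 * p.lL * p.v ≤ P.γ) :
    PlD K p P y (p.spDen P.γ) 0 (p.l0' P.γ) ((p.n : ℝ) ^ (-(2 : ℝ))) := by
  have n1 : 1 ≤ p.n := by omega
  have g0 := h.γ0 n1
  have a1 : p.v / K ≤ p.v / 6 := div_le_div_of_nonneg_left hv.le (by norm_num) hK
  have a2 : 6 * p.v ≤ K * p.v := mul_le_mul_of_nonneg_right hK hv.le
  have lg : 1 ≤ log (p.n:ℝ) := by
    rw [le_log_iff_exp_le (by positivity)]
    exact exp_one_lt_three.le.trans (by exact_mod_cast hn)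
  have k0 : 0 ≤ 1 * p.κ := by unfold Pm.κ; positivity
  refine ⟨g0.le, h.g'.le, h.x0, fun i _ => h.xm (Nat.lt_succ_self i), (h.x_lt n1 le_rfl).le, ?_,
    fun x _ => by simp [h.rs, h.hs], fun k _ _ => ?_, fun i hi => ?_, ?_, by simp [h.hs],
    fun i hi => ?_, fun x => mul_pos g0 (p.ld_pos _ x), fun x x' a b c d => ?_, h.e2⟩
  · linarith [h.Iv_le n1 hx, h.γ1 n1 (by norm_num)]
  · have : 0 ≤ p.ms 1 y (sig p.v (p.om 1 y) k) := mul_nonneg k0 (sq_nonneg _)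
    simp only [h.rs, h.hs, Pi.zero_apply, sub_self, Left.neg_nonpos_iff]
    exact ⟨by positivity, by positivity, by positivity⟩
  · simp only [h.rs, h.hs, Pi.zero_apply, sub_self, add_zero, mul_zero, le_refl, and_true]
    constructor <;> linarith [(h.st i hi).1, (h.st i hi).2]
  · rw [h.hs, Pi.zero_apply]; positivity
  · obtain ⟨s1, s2⟩ := p.lsp_slope P.γ (h.x_ge i) (h.xm.monotone (Nat.le_succ i))
      (h.x_lt n1 hi).le (h.shell n1 hL hi)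
    have s3 := mul_le_mul_of_nonneg_left s1 g0.le
    have s4 := mul_le_mul_of_nonneg_left s2 g0.le
    unfold Pm.spDen
    constructor <;> linarith [(h.st i hi).1, (h.st i hi).2]
  · obtain ⟨e1, e2⟩ := p.ld_dens P.γ a b c.le d
    have f1 := mul_le_mul_of_nonneg_left (e1.trans (mul_le_mul_of_nonneg_right
      (show 2 ≤ K by linarith) (p.ld_pos _ x').le)) g0.le
    have f2 := mul_le_mul_of_nonneg_left (e2.trans (mul_le_mul_of_nonneg_right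
      (show 2 ≤ K by linarith) (p.ld_pos _ x).le)) g0.le
    unfold Pm.spDen
    constructor <;> linarith

/-- the mesh is small against the spread -/
theorem ev_lL (β : ℝ) : ∀ᶠ n : ℕ in atTop, ∀ p : Pm, p.β = β → p.n = n → 2 ≤ p.A →
    9 * p.lL * p.v ≤ (p.n : ℝ) ^ (-(7 / 20 : ℝ)) := by
  filter_upwards [ev_log (162 * β ^ 2) one_pos, eventually_ge_atTop 2] with n h1 h2 p e1 e2 hA
  have n2 : (2:ℝ) ≤ p.n := by rw [e2]; exact_mod_cast h2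
  have n0 : (0:ℝ) < p.n := by linarith
  rw [← e1, ← e2, rpow_one] at h1
  have a : p.v ≤ p.β ^ 2 / (p.n:ℝ) ^ 2 :=
    div_le_div_of_nonneg_left (sq_nonneg _) (by positivity) (pow_le_pow_right₀ (by linarith) hA)
  have b := mul_le_mul (p.lL_le n2) a (by unfold Pm.v; positivity) (by
    linarith [p.lL_pos, p.lL_le n2])
  have c : 9 * (18 * log p.n * (p.β ^ 2 / (p.n:ℝ) ^ 2)) ≤ (p.n : ℝ) ^ (-(1 : ℝ)) := by
    rw [rpow_neg_one, ← mul_div_assoc, ← mul_div_assoc, div_le_iff₀ (by positivity),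
      show (p.n:ℝ)⁻¹ * (p.n:ℝ) ^ 2 = p.n by field_simp]
    linarith
  linarith [rpow_le_rpow_of_exponent_le (show (1:ℝ) ≤ p.n by linarith)
    (show (-(1:ℝ)) ≤ -(7 / 20) by norm_num)]

/-- membership data of the spread models -/
def MemSp (K : ℝ) (p : Pm) : Prop := ∀ (y : ℝ) (P : Pl), p.r ≤ y → y ≤ p.ye →
  p.SpOk (7 / 20) P → (∃ c0 C0 η, MemD K c0 C0 η (2 * y) p P (p.om 1 y) p.jf (p.b 1 y) 0
    (p.ms 1 y) (p.spDen P.γ) 0 (p.l0' P.γ) ((p.n : ℝ) ^ (-(2 : ℝ)))) ∧ p.ms 1 y 1 = p.μ 1 y ∧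
    p.ms 1 y 0 = p.κ * p.r ^ 2 ∧ CrF K p P y ∧ 3 ≤ p.jf ∧ p.ms 1 y (p.J * p.v) = p.μ 1 y

theorem memSp (β : ℝ) (hβ : 1 < β) : Cst β MemSp := by
  intro c0 C0 hc0 hC0
  obtain ⟨K, K1, H⟩ := memT β hβ c0 C0 hc0 hC0
  refine ⟨max K 6, le_max_of_le_left K1, fun A hA c hc hc' => ?_⟩
  filter_upwards [H _ (le_max_left K 6) A hA c hc hc', eventually_ge_atTop 3, ev_lL β]
    with n h h3 h4 p e1 e2 e3 e4 hp y P y1 y2 hP
  obtain ⟨a, b⟩ := h p e1 e2 e3 e4 hp y P _ _ _ _ y1 y2 (hP.plD (le_max_right _ _) (e2 ▸ h3)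
    hp.base.v_pos (hp.base.lab.pos.le.trans (hp.base.lab.mono (Nat.zero_le _)))
    (hP.g' ▸ h4 p e1 e2 (e3 ▸ hA)))
  exact ⟨⟨_, _, _, a⟩, b⟩

/-- **membership of the spread models** -/
def ClSp (C : ℝ) (p : Pm) : Prop := ∀ (y : ℝ) (P : Pl), p.r ≤ y → y ≤ p.ye →
  p.SpOk (7 / 20) P → Cl (p.spS C y P) (p.tst P y) ∧ Cei (p.spS C y P) (p.tst P y)

theorem clSp (β : ℝ) (hβ : 1 < β) : Cst β ClSp := by
  intro c0 C0 hc0 hC0
  obtain ⟨K, K1, H⟩ := memSp β hβ c0 C0 hc0 hC0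
  refine ⟨8 * K ^ 2, by nlinarith, fun A hA c hc hc' => ?_⟩
  filter_upwards [H A hA c hc hc'] with n h p e1 e2 e3 e4 hp y P y1 y2 hP
  obtain ⟨⟨_, _, _, a⟩, b1, -, -, b2, b3⟩ := h p e1 e2 e3 e4 hp y P y1 y2 hP
  refine ⟨a.cl, a.cei' b2 (b1.trans b3.symm).le (fun k _ _ => ?_) fun i _ => by simp [hP.rs, hP.hs]⟩
  rw [hP.hs, Pi.zero_apply, Pi.zero_apply, sub_self]
  exact mul_nonneg (mul_nonneg a.K0.le (a.msp (a.geo.sP_nn k)).le) a.geo.v0.le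

end Crest.Agent.T156.Alt

end
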