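import Mathlib

/-!
# Row 156 (helper28): the logarithmic spread
-/

set_option autoImplicit false

noncomputable section

namespace Crest.Agent.T156.Ph28

open Real Set

/-- the logarithmic clock on `[xs, 1)` with corner length `w` -/
def lgs (xs w x : ℝ) : ℝ := log ((x - xs + w) / w) - log ((1 - x) / (1 - xs))

/-- its density -/
def dl (xs w x : ℝ) : ℝ := if xs ≤ x ∧ x < 1 then 1 / (x - xs + w) + 1 / (1 - x) else 1

variable {xs w a b x : ℝ}

theorem log_bd {s t : ℝ} (hs : 0 < s) (h : s ≤ t) :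
    (t - s) / t ≤ log t - log s ∧ log t - log s ≤ (t - s) / s := by
  have ht := hs.trans_le h
  have a := log_le_sub_one_of_pos (div_pos hs ht)
  have b := log_le_sub_one_of_pos (div_pos ht hs)
  rw [log_div hs.ne' ht.ne'] at a
  rw [log_div ht.ne' hs.ne'] at b
  rw [sub_div, sub_div, div_self hs.ne', div_self ht.ne']
  constructor <;> linarith

theorem lgs_xs (hw : 0 < w) (h1 : xs < 1) : lgs xs w xs = 0 := by
  unfold lgs
  rw [sub_self, zero_add, div_self hw.ne', div_self (sub_pos.2 h1).ne', sub_self]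

theorem lgs_eq (hw : 0 < w) (h0 : xs ≤ x) (h1 : x < 1) :
    lgs xs w x = log (x - xs + w) - log w - (log (1 - x) - log (1 - xs)) := by
  unfold lgs
  rw [log_div (by linarith) hw.ne', log_div (by linarith) (by linarith)]

theorem dl_eq (h0 : xs ≤ x) (h1 : x < 1) : dl xs w x = 1 / (x - xs + w) + 1 / (1 - x) :=
  if_pos ⟨h0, h1⟩

theorem dl_pos (hw : 0 < w) (x : ℝ) : 0 < dl xs w x := by
  unfold dl
  split_ifs with h
  · have : 0 < x - xs + w := by linarith [h.1]
    have : 0 < 1 - x := by linarith [h.2]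
    positivity
  · exact one_pos

theorem one_le_dl (hw : 0 < w) (hx : 0 ≤ xs) (x : ℝ) : 1 ≤ dl xs w x := by
  unfold dl
  split_ifs with h
  · have : 0 < 1 / (x - xs + w) := one_div_pos.2 (by linarith [h.1])
    have : 1 ≤ 1 / (1 - x) := one_le_one_div (by linarith [h.2]) (by linarith [h.1])
    linarith
  · exact le_rfl

/-- two-sided increments -/
theorem lgs_sub (hw : 0 < w) (ha : xs ≤ a) (hab : a ≤ b) (hb : b < 1) :
    (b - a) / (b - xs + w) + (b - a) / (1 - a) ≤ lgs xs w b - lgs xs w a ∧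
      lgs xs w b - lgs xs w a ≤ (b - a) / (a - xs + w) + (b - a) / (1 - b) := by
  obtain ⟨c1, c2⟩ := log_bd (s := a - xs + w) (t := b - xs + w) (by linarith) (by linarith)
  obtain ⟨d1, d2⟩ := log_bd (s := 1 - b) (t := 1 - a) (by linarith) (by linarith)
  rw [show b - xs + w - (a - xs + w) = b - a by ring] at c1 c2
  rw [show 1 - a - (1 - b) = b - a by ring] at d1 d2
  rw [lgs_eq hw (ha.trans hab) hb, lgs_eq hw ha (hab.trans_lt hb)]
  constructor <;> linarith

/-- the slope is at least `1` -/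
theorem le_sub (hw : 0 < w) (hx : 0 ≤ xs) (ha : xs ≤ a) (hab : a ≤ b) (hb : b < 1) :
    b - a ≤ lgs xs w b - lgs xs w a := by
  have c : 0 ≤ (b - a) / (b - xs + w) := div_nonneg (by linarith) (by linarith)
  have d : b - a ≤ (b - a) / (1 - a) := le_div_self (by linarith) (by linarith) (by linarith)
  linarith [(lgs_sub hw ha hab hb).1]

theorem lgs_lt (hw : 0 < w) (ha : xs ≤ a) (hab : a < b) (hb : b < 1) :
    lgs xs w a < lgs xs w b := by
  have c : 0 < (b - a) / (b - xs + w) := div_pos (by linarith) (by linarith)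
  have d : 0 < (b - a) / (1 - a) := div_pos (by linarith) (by linarith)
  linarith [(lgs_sub hw ha hab.le hb).1]

theorem lgs_le (hw : 0 < w) (ha : xs ≤ a) (hab : a ≤ b) (hb : b < 1) :
    lgs xs w a ≤ lgs xs w b := by
  rcases hab.eq_or_lt with e | e
  · rw [e]
  · exact (lgs_lt hw ha e hb).le

theorem lgs_nn (hw : 0 < w) (h0 : xs ≤ x) (h1 : x < 1) : 0 ≤ lgs xs w x :=
  lgs_xs hw (h0.trans_lt h1) ▸ lgs_le hw le_rfl h0 h1

/-- slopes on a shell -/
theorem slope (hw : 0 < w) (ha : xs ≤ a) (hab : a ≤ b) (hb : b < 1)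
    (hs : b - a ≤ min (a - xs + w) (1 - b)) :
    dl xs w a * (b - a) ≤ 2 * (lgs xs w b - lgs xs w a) ∧
      lgs xs w b - lgs xs w a ≤ 2 * (dl xs w a * (b - a)) := by
  obtain ⟨c1, c2⟩ := lgs_sub hw ha hab hb
  have s1 := hs.trans (min_le_left _ _)
  have s2 := hs.trans (min_le_right _ _)
  have d : 0 ≤ b - a := by linarith
  have pa : 0 < a - xs + w := by linarith
  have e1 : (b - a) / (a - xs + w) ≤ 2 * ((b - a) / (b - xs + w)) := by
    rw [← mul_div_assoc, div_le_div_iff₀ pa (by linarith)]; nlinarith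
  have e2 : (b - a) / (1 - b) ≤ 2 * ((b - a) / (1 - a)) := by
    rw [← mul_div_assoc, div_le_div_iff₀ (by linarith) (by linarith)]; nlinarith
  have e3 : 0 ≤ (b - a) / (1 - a) := div_nonneg d (by linarith)
  have e4 : 0 ≤ (b - a) / (a - xs + w) := div_nonneg d pa.le
  rw [dl_eq ha (by linarith), add_mul, one_div_mul_eq_div, one_div_mul_eq_div]
  constructor <;> linarith

/-- the density on a shell -/
theorem dens (hw : 0 < w) (ha : xs ≤ a) (hab : a ≤ b) (hb : b < 1)
    (hs : b - a ≤ min (a - xs + w) (1 - b)) :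
    dl xs w a ≤ 2 * dl xs w b ∧ dl xs w b ≤ 2 * dl xs w a := by
  have s1 := hs.trans (min_le_left _ _)
  have s2 := hs.trans (min_le_right _ _)
  have pa : 0 < a - xs + w := by linarith
  have e1 : 1 / (a - xs + w) ≤ 2 * (1 / (b - xs + w)) := by
    rw [← mul_div_assoc, div_le_div_iff₀ pa (by linarith)]; linarith
  have e2 : 1 / (1 - b) ≤ 2 * (1 / (1 - a)) := by
    rw [← mul_div_assoc, div_le_div_iff₀ (by linarith) (by linarith)]; linarith
  have e3 : 1 / (1 - a) ≤ 1 / (1 - b) := one_div_le_one_div_of_le (by linarith) (by linarith)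
  have e4 : 1 / (b - xs + w) ≤ 1 / (a - xs + w) := one_div_le_one_div_of_le pa (by linarith)
  have e5 : 0 < 1 / (1 - a) := one_div_pos.2 (by linarith)
  have e6 : 0 < 1 / (b - xs + w) := one_div_pos.2 (by linarith)
  rw [dl_eq ha (by linarith), dl_eq (by linarith) hb]
  constructor <;> linarith

theorem cont (hw : 0 < w) : ContinuousOn (lgs xs w) (Ico xs 1) := by
  refine ContinuousOn.sub (ContinuousOn.log (by fun_prop) fun x hx => ?_)
    (ContinuousOn.log (by fun_prop) fun x hx => ?_)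
  · exact (div_pos (by linarith [hx.1]) hw).ne'
  · exact (div_pos (by linarith [hx.2]) (by linarith [hx.1, hx.2])).ne'

theorem unb (hw : 0 < w) (h1 : xs < 1) (M : ℝ) : ∃ x, xs ≤ x ∧ x < 1 ∧ M ≤ lgs xs w x := by
  have e0 := exp_pos (-|M|)
  have e1 : exp (-|M|) ≤ 1 := exp_le_one_iff.2 (by linarith [abs_nonneg M])
  have p := mul_pos (sub_pos.2 h1) e0
  have q := mul_le_of_le_one_right (sub_pos.2 h1).le e1
  refine ⟨1 - (1 - xs) * exp (-|M|), by linarith, by linarith, ?_⟩
  unfold lgs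
  rw [sub_sub_cancel, mul_div_cancel_left₀ _ (sub_pos.2 h1).ne', log_exp]
  have : 0 ≤ log ((1 - (1 - xs) * exp (-|M|) - xs + w) / w) :=
    log_nonneg ((one_le_div hw).2 (by linarith))
  linarith [le_abs_self M]

/-- total rise -/
theorem lgs_top {e : ℝ} (hw : 0 < w) (hw1 : w ≤ 1) (hx : 0 ≤ xs) (h0 : xs ≤ x) (he : 0 < e)
    (h1 : e ≤ 1 - x) : lgs xs w x ≤ log (2 / w) - log e := by
  rw [lgs_eq hw h0 (by linarith), log_div two_ne_zero hw.ne']
  have a : log (x - xs + w) ≤ log 2 := log_le_log (by linarith) (by linarith)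
  have b : log e ≤ log (1 - x) := log_le_log he h1
  have c : log (1 - xs) ≤ 0 := log_nonpos (by linarith) (by linarith)
  linarith

/-- the density times the distance to the ends (any corner length `u0 ≤ w`: use `min`) -/
theorem dl_min (hw : 0 < w) (h0 : xs ≤ x) (h1 : x < 1) :
    1 ≤ dl xs w x * min (x - xs + w) (1 - x) ∧ dl xs w x * min (x - xs + w) (1 - x) ≤ 2 := by
  have p : 0 < x - xs + w := by linarith
  have q : 0 < 1 - x := by linarith
  rw [dl_eq h0 h1, add_mul, one_div_mul_eq_div, one_div_mul_eq_div]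
  have a : min (x - xs + w) (1 - x) / (x - xs + w) ≤ 1 := (div_le_one p).2 (min_le_left _ _)
  have b : min (x - xs + w) (1 - x) / (1 - x) ≤ 1 := (div_le_one q).2 (min_le_right _ _)
  refine ⟨?_, by linarith⟩
  rcases le_total (x - xs + w) (1 - x) with c | c
  · rw [min_eq_left c, div_self p.ne']; linarith [div_pos p q]
  · rw [min_eq_right c, div_self q.ne']; linarith [div_pos q p]

/-- small rise forces a shell -/
theorem shell (hw : 0 < w) (ha : xs ≤ a) (hab : a ≤ b) (hb : b < 1)
    (h : lgs xs w b - lgs xs w a ≤ 1 / 2) : b - a ≤ min (a - xs + w) (1 - b) := by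
  have c := (lgs_sub hw ha hab hb).1
  have d1 : 0 ≤ (b - a) / (b - xs + w) := div_nonneg (by linarith) (by linarith)
  have d2 : 0 ≤ (b - a) / (1 - a) := div_nonneg (by linarith) (by linarith)
  have e1 : (b - a) / (b - xs + w) ≤ 1 / 2 := by linarith
  have e2 : (b - a) / (1 - a) ≤ 1 / 2 := by linarith
  rw [div_le_iff₀ (by linarith)] at e1 e2
  exact le_min (by linarith) (by linarith)

end Crest.Agent.T156.Ph28

end
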