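import Crest.Agent.T156.AltMemA_37
import Crest.Agent.T156.LspB_28

/-!
# Row 156, ALT route (helper28): criticality and `G'` for the reference list of `famO`

Any displacement `om`, any plateau grid, any slope `γ ≥ 0` of the spread: the facts about
`p.lO P om` follow from those about the list without plateau.
-/

set_option autoImplicit false

noncomputable section

namespace Crest.Agent.T156.Alt

open MeasureTheory Real Set Filter Topology
open Crest.Agent.R164.GC Crest.Agent.R339.B Crest.Agent.R339.Var Crest.Agent.T157.Pf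
open Crest.Agent.T156.Pr Crest.Agent.T156.Pr.Spr41 Crest.Agent.T156.Ker

/-- what a spread keeps -/
structure SpT (C T g : ℝ) (l l2 : List (ℝ × ℝ)) : Prop where
  near : Near C g l l2
  lo : ∀ b, 0 ≤ b → ∀ t ∈ Icc 0 T, |ec b l2 t - ec b l t| ≤ b * C * g
  mid : ∀ b, 0 ≤ b → ∀ t ∈ Icc T (T + g), |ec b l2 t - ec b l T| ≤ b * C * g
  gpp : ∀ t, 0 ≤ t → t < T → |NN l2 t - 2 * lvr 1 l2 t * AA l2 t| ≤
    |NN l t - 2 * lvr 1 l t * AA l t| + C * g
  crit : ∀ (b : ℝ) (ms : ℝ → ℝ) (C1 K : ℝ), 0 ≤ b → 1 ≤ C1 → 1 ≤ K → Monotone ms →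
    ms (T + g) ≤ K * ms T → 2 * C1 * (b * C * g) ≤ ms 0 →
    (∀ t ∈ Icc 0 T, ms t / C1 ≤ ec b l t ∧ ec b l t ≤ C1 * ms t) →
    ∀ t ∈ Icc 0 (T + g), ms t / (2 * K * C1) ≤ ec b l2 t ∧ ec b l2 t ≤ 2 * K * C1 * ms t

/-- list form -/
theorem spT (T0 : ℝ) : ∃ C : ℝ, 1 ≤ C ∧ ∀ (T g : ℝ) (l l2 : List (ℝ × ℝ)), Spr T g l l2 → Ok l →
    Ok l2 → T + g ≤ T0 → lvr 1 l2 0 = lvr 1 l 0 → SpT C T g l l2 := by
  obtain ⟨C, c1, hC⟩ := near T0
  refine ⟨3 * C + 4, by linarith, fun T g l l2 S o o' hT e0 => ?_⟩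
  have g0 := S.g0
  have N := hC _ _ _ _ S hT
  have w3 : C * g ≤ (3 * C + 4) * g := mul_le_mul_of_nonneg_right (by linarith) g0
  have m : ∀ t, 0 ≤ t → C * min t 1 * g ≤ (3 * C + 4) * min t 1 * g := fun t ht => by
    have := le_min ht zero_le_one
    gcongr; linarith
  have T1 : T ≤ TT l := by linarith [S.tp.mem.2]
  have T2 : T ≤ TT l2 := by linarith [S.tp2.mem.2]
  have A1 : ∀ b, 0 ≤ b → ∀ t ∈ Icc 0 T, |ec b l2 t - ec b l t| ≤ b * (3 * C + 4) * g :=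
    fun b hb t ht => (N.ec hb ht.1 (ht.2.trans T1) (ht.2.trans T2)).trans (by
      rw [mul_assoc]; exact mul_le_mul_of_nonneg_left w3 hb)
  have A2 : ∀ b, 0 ≤ b → ∀ t ∈ Icc T (T + g), |ec b l2 t - ec b l T| ≤ b * (3 * C + 4) * g :=
    fun b hb t ht => (N.plat S o' hb ht.1 ht.2).1.trans (by
      rw [mul_assoc]
      exact mul_le_mul_of_nonneg_left (mul_le_mul_of_nonneg_right (by linarith) g0) hb)
  refine ⟨⟨fun t a j b x => (N.dk t a j b x).trans w3, N.chi.trans w3, N.k4.trans w3,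
    fun t a b c => (N.gam t a b c).trans (m t a), fun t a b c => (N.gg t a b c).trans w3,
    fun t a b c => (N.aa t a b c).trans w3, fun t a b c => (N.nn t a b c).trans (m t a),
    fun t a b c => (N.n4 t a b c).trans w3, fun t a b c => (N.bb t a b c).trans (m t a)⟩,
    A1, A2, fun t h0 h1 => ?_, fun b ms C1 K hb hC1 hK mm mt sm cr t ht => ?_⟩
  · have e : lvr 1 l2 t = lvr 1 l t := by
      rcases h0.eq_or_lt with a | a
      · rw [← a, e0]
      · exact S.eq t a h1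
    rw [e]
    have a1 := (N.nn t h0 (h1.le.trans T1) (h1.le.trans T2)).trans (mul_le_mul_of_nonneg_right
      (mul_le_of_le_one_right (by linarith) (min_le_right t 1)) g0)
    have a2 := N.aa t h0 (h1.le.trans T1) (h1.le.trans T2)
    have z0 := (Pp.Ode3.lvr_pos o.1 t).le
    have z1 := Pp.Ode3.lvr_le_one o.1 t
    have a3 : |lvr 1 l t * (AA l2 t - AA l t)| ≤ C * g := by
      rw [abs_mul, abs_of_nonneg z0]
      exact (mul_le_of_le_one_left (abs_nonneg _) z1).trans a2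
    have a4 := abs_le.1 a1
    have a5 := abs_le.1 a3
    have a6 := le_abs_self (NN l t - 2 * lvr 1 l t * AA l t)
    have a7 := neg_abs_le (NN l t - 2 * lvr 1 l t * AA l t)
    rw [abs_le]
    constructor <;> linarith only [a4.1, a4.2, a5.1, a5.2, a6, a7, g0]
  · have c0 : 0 < C1 := by linarith
    have k0 : 0 < K := by linarith
    have m0 : 0 ≤ ms 0 := le_trans (by positivity) sm
    have key : ∀ {e e' u w : ℝ}, |e' - e| ≤ b * (3 * C + 4) * g → ms 0 ≤ u → u / C1 ≤ e →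
        e ≤ C1 * u → u ≤ w → w ≤ K * u → w / (2 * K * C1) ≤ e' ∧ e' ≤ 2 * K * C1 * w :=
      fun {e e' u w} a1 a2 a3 a4 b1 b2 => by
        have a5 : b * (3 * C + 4) * g ≤ u / (2 * C1) := by
          rw [le_div_iff₀ (by positivity)]; linarith
        have a6 : u / C1 = 2 * (u / (2 * C1)) := by field_simp
        have a7 : 0 ≤ u := m0.trans a2
        have a8 : u / (2 * C1) ≤ C1 * u :=
          (div_le_self a7 (by linarith)).trans (le_mul_of_one_le_left a7 hC1)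
        have a9 := abs_le.1 a1
        have b3 : w / (2 * K * C1) ≤ u / (2 * C1) := by
          rw [div_le_div_iff₀ (by positivity) (by positivity)]
          nlinarith only [mul_le_mul_of_nonneg_right b2 c0.le]
        have b4 : C1 * u ≤ K * C1 * w := by
          have := mul_le_mul_of_nonneg_left b1 c0.le
          have := le_mul_of_one_le_left (mul_nonneg c0.le (a7.trans b1)) hK
          linarith
        constructor <;> linarith only [a9.1, a9.2, a3, a4, a5, a6, a8, b3, b4]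
    rcases le_total t T with a | a
    · exact key (A1 b hb t ⟨ht.1, a⟩) (mm ht.1) (cr t ⟨ht.1, a⟩).1 (cr t ⟨ht.1, a⟩).2 le_rfl
        (le_mul_of_one_le_left (m0.trans (mm ht.1)) hK)
    · exact key (A2 b hb t ⟨a, ht.2⟩) (mm S.t0) (cr _ ⟨S.t0, le_rfl⟩).1 (cr _ ⟨S.t0, le_rfl⟩).2
        (mm a) ((mm ht.2).trans mt)

namespace Mem37.Geo

variable {c0 C0 η Y : ℝ} {p : Pm} {P : Pl} {om : ℕ → ℝ} (h : Geo c0 C0 η Y p P om)
include h

theorem area0 : Ok (lo p.z p.v om (p.J + p.Nr)) ∧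
    TT (lo p.z p.v om (p.J + p.Nr)) = p.J * p.v + p.Nr * p.v ∧
    ∀ j t, sig p.v om j ≤ t → t < sig p.v om (j + 1) →
      lvr 1 (lo p.z p.v om (p.J + p.Nr)) t = p.z j := by
  obtain ⟨⟨a1, a2, a3, -⟩, -⟩ := areaS p.z (sig p.v om) (p.J + p.Nr)
    (h.base.lab.up (Nat.le_add_right _ _)) h.hom.sig0 (h.hom.sm h.v0 le_rfl)
  refine ⟨a1, a2.trans ?_, a3⟩
  rw [h.hom.sig_eq (h.hY.trans (mul_le_mul_of_nonneg_right
    (Nat.cast_le.2 (Nat.le_add_right _ _)) h.v0.le))]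
  push_cast; ring

/-- below `J v` the tilts are those of the list without plateau -/
theorem lv_lo {t : ℝ} (h0 : 0 ≤ t) (h1 : t < p.J * p.v) :
    lvr 1 (p.lO P om) t = lvr 1 (lo p.z p.v om (p.J + p.Nr)) t := by
  obtain ⟨j, hj, a, b⟩ := exists_cell (s := p.sO P om) (h.sP_zero ▸ h0) p.J (h.sP_J ▸ h1)
  rw [h.ref.2.2.1 j t a b, zP_lo hj]
  rw [sP_lo hj.le] at a
  rw [sP_lo hj] at b
  exact (h.area0.2.2 j t a b).symm

theorem sP_Jp_le : p.sO P om (p.Jp P) ≤ p.J * p.v + P.γ := by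
  have := mul_le_of_le_one_right h.g0 (h.lsp_mem le_rfl).2
  rw [h.sP_Jp]; linarith

theorem spr (hN : P.γ ≤ p.Nr * p.v) :
    Spr (p.J * p.v) P.γ (lo p.z p.v om (p.J + p.Nr)) (p.lO P om) := by
  have v := h.v0
  have g := h.g0
  have t0 : 0 ≤ (p.J:ℝ) * p.v := by positivity
  refine ⟨t0, g, tp_lst h.base.lab (Nat.le_add_right _ _) h.hom.sig0 (h.hom.sm v le_rfl)
    (by rw [h.sigJ]; linarith) ?_, ⟨h.ok.1, ⟨by linarith, ?_⟩,
    fun s hs => h.ref.2.2.2 s (h.sP_Jp_le.trans hs)⟩, fun s a b => h.lv_lo a.le b⟩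
  · rw [h.hom.sig_eq (h.hY.trans (mul_le_mul_of_nonneg_right
      (Nat.cast_le.2 (Nat.le_add_right _ _)) v.le))]
    push_cast; linarith
  · have := h.sP_mono (J_le (p := p) (P := P))
    rw [h.sP_J] at this
    rw [h.tt, h.sP_N]; linarith

end Mem37.Geo

/-- **transfer to the reference list of `famO`** -/
theorem spO (T0 : ℝ) : ∃ C : ℝ, 1 ≤ C ∧ ∀ (c0 C0 η Y : ℝ) (p : Pm) (P : Pl) (om : ℕ → ℝ),
    Mem37.Geo c0 C0 η Y p P om → P.γ ≤ p.Nr * p.v → p.J * p.v + P.γ ≤ T0 →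
    SpT C (p.J * p.v) P.γ (lo p.z p.v om (p.J + p.Nr)) (p.lO P om) := by
  obtain ⟨C, c1, hC⟩ := spT T0
  refine ⟨C, c1, fun c0 C0 η Y p P om h hN hT => hC _ _ _ _ (h.spr hN) h.area0.1 h.ok hT ?_⟩
  have := h.v0
  have : (0:ℝ) < p.J := Nat.cast_pos.2 h.J0
  exact h.lv_lo le_rfl (by positivity)

/-- the fields `crit` and `gpp` of `Cl` for the spread list from those without plateau -/
theorem SpT.cl {C T g : ℝ} {l l2 : List (ℝ × ℝ)} (h : SpT C T g l l2) {b C1 t0 T' : ℝ}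
    {ms : ℝ → ℝ} (hC : 1 ≤ C) (g0 : 0 ≤ g) (hb : 1 ≤ b) (hC1 : 1 ≤ C1) (mm : Monotone ms)
    (m2 : ∀ t, 0 ≤ t → ms (2 * t) ≤ 4 * ms t) (gT : g ≤ T) (TC : T ≤ C1) (t00 : 0 < t0)
    (t0T : t0 ≤ T) (hT' : T' ≤ T + g) (sm : 2 * C1 * (b * C * g) ≤ ms 0)
    (cr : ∀ t ∈ Icc 0 T, ms t / C1 ≤ 1 - b * GG l t ∧ 1 - b * GG l t ≤ C1 * ms t)
    (gp : ∀ t, 0 ≤ t → t < T →
      |NN l t - 2 * lvr 1 l t * AA l t| ≤ C1 * (ms t / max t t0)) :
    (∀ t ∈ Icc 0 T', ms t / (8 * C1) ≤ 1 - b * GG l2 t ∧ 1 - b * GG l2 t ≤ 8 * C1 * ms t) ∧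
    ∀ t, 0 ≤ t → t < T →
      |NN l2 t - 2 * lvr 1 l2 t * AA l2 t| ≤ 2 * C1 * (ms t / max t t0) := by
  refine ⟨fun t ht => ?_, fun t h0 h1 => ?_⟩
  · have := h.crit b ms C1 4 (by linarith) hC1 (by norm_num) mm
      ((mm (by linarith)).trans (m2 T (g0.trans gT))) sm cr t ⟨ht.1, ht.2.trans hT'⟩
    rwa [show (2:ℝ) * 4 = 8 by norm_num] at this
  · have a := (h.gpp t h0 h1).trans (add_le_add_left (gp t h0 h1) _)
    have x0 : 0 < max t t0 := t00.trans_le (le_max_right _ _)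
    have x1 : max t t0 ≤ C1 := (max_le h1.le t0T).trans TC
    have cg : 0 ≤ C * g := by positivity
    have b1 : C * g * max t t0 ≤ ms t := by
      have := mul_le_mul_of_nonneg_left x1 cg
      have := mm h0
      have : C * g * C1 * 1 ≤ C * g * C1 * b := mul_le_mul_of_nonneg_left hb (by positivity)
      have : 0 ≤ C * g * C1 * b := by positivity
      linarith
    have b2 : C * g ≤ ms t / max t t0 := by rwa [le_div_iff₀ x0]
    have b3 := le_mul_of_one_le_left (cg.trans b2) hC1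
    linarith

/-! ### the logarithmic spread -/

namespace Pm.SpOk

variable {p : Pm} {P : Pl} {g : ℝ} (h : p.SpOk g P)
include h

theorem γ0 (hn : 1 ≤ p.n) : 0 < P.γ := h.g' ▸ rpow_pos_of_pos (Nat.cast_pos.2 hn) _

theorem γ1 (hn : 1 ≤ p.n) (hg : 0 ≤ g) : P.γ ≤ 1 :=
  h.g' ▸ rpow_le_one_of_one_le_of_nonpos (Nat.one_le_cast.2 hn) (by linarith)

theorem x_lt (hn : 1 ≤ p.n) {i : ℕ} (hi : i ≤ P.I) : P.x i < 1 := by
  have : 0 < (p.n : ℝ) ^ (-(3 : ℝ)) := rpow_pos_of_pos (Nat.cast_pos.2 hn) _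
  linarith [h.e1, h.xm.monotone hi]

theorem x_ge (i : ℕ) : p.xs ≤ P.x i := h.x0 ▸ h.xm.monotone (Nat.zero_le i)

theorem Iv_le (hn : 1 ≤ p.n) (hx : 0 ≤ p.xs) : P.I * p.v ≤ 2 * P.γ := by
  have a : ∀ i ≤ P.I, (i : ℝ) * (p.v / 2) ≤ P.γ * p.lsp P.γ (P.x i) := fun i => by
    induction i with
    | zero => simp [h.x0]
    | succ i ih =>
      intro hi
      have := ih (by omega)
      have := (h.st i hi).1
      push_cast; linarith
  have := mul_le_of_le_one_right (h.γ0 hn).le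
    (p.lsp_le_one P.γ hx (h.x_ge P.I) (h.x_lt hn le_rfl).le)
  linarith [a _ le_rfl]

/-- the cells lie in shells -/
theorem shell (hn : 1 ≤ p.n) (hv : 9 * p.lL * p.v ≤ P.γ) {i : ℕ} (hi : i < P.I) :
    P.x (i + 1) - P.x i ≤ min (P.x i - p.xs + p.l0' P.γ) (1 - P.x (i + 1)) := by
  refine p.lsp_shell _ (h.x_ge i) (h.xm.monotone (Nat.le_succ i))
    ((p.l1'_le3 hn).trans (by linarith [h.e1, h.xm.monotone (show i + 1 ≤ P.I from hi)])) ?_
  refine le_of_mul_le_mul_left ?_ (h.γ0 hn)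
  nlinarith [mul_le_mul_of_nonneg_left (h.st i hi).2 p.lL_pos.le]

theorem geo {c0 C0 η Y : ℝ} {om : ℕ → ℝ} (hn : 1 ≤ p.n)
    (hb : Base (p.β ^ 2) c0 C0 η p.v p.J p.z) (ho : Om p.v Y (1 / 2) om) (hY : Y ≤ p.J * p.v)
    (hJ : 0 < p.J) : Mem37.Geo c0 C0 η Y p P om :=
  ⟨hb, ho, hY, hJ, (h.γ0 hn).le, h.x0, fun i _ => h.xm (Nat.lt_succ_self i), (h.x_lt hn le_rfl).le⟩

end Pm.SpOk

/-- the reveal part has variance at least `1` -/
theorem Pm.one_le_Nr (p : Pm) (hv : 0 < p.v) (hA : 1 ≤ p.A) (hn : 3 ≤ p.n) : 1 ≤ p.Nr * p.v := by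
  have a : (p.A:ℝ) * log p.n / p.v ≤ p.Nr := Nat.le_ceil _
  rw [div_le_iff₀ hv] at a
  have b : 1 ≤ log (p.n:ℝ) := by
    rw [le_log_iff_exp_le (by positivity)]
    exact exp_one_lt_three.le.trans (by exact_mod_cast hn)
  exact (one_le_mul_of_one_le_of_one_le (Nat.one_le_cast.2 hA) b).trans a

/-- the slope `n^{-7/20}` is below the smallest mass `κ r²` -/
theorem ev_spr (K c : ℝ) (hc : c ≤ 1 / 200) : ∀ᶠ n : ℕ in atTop, ∀ p : Pm, p.n = n → p.c = c →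
    1 ≤ p.s → K * (p.n : ℝ) ^ (-(7 / 20 : ℝ)) ≤ p.κ * p.r ^ 2 := by
  have t := (tendsto_rpow_atTop (y := 1 / 100) (by norm_num)).comp
    (tendsto_natCast_atTop_atTop (R := ℝ))
  filter_upwards [t.eventually_ge_atTop K, eventually_ge_atTop 1] with n h1 h2 p e1 e2 hs
  have n1 : (1:ℝ) ≤ n := Nat.one_le_cast.2 h2
  have n0 : (0:ℝ) < n := by linarith
  unfold Pm.κ Pm.r
  rw [e1, e2, mul_pow, ← rpow_natCast ((n:ℝ) ^ _), ← rpow_mul n0.le]
  calc K * (n:ℝ) ^ (-(7 / 20 : ℝ)) ≤ (n:ℝ) ^ (1 / 100 : ℝ) * (n:ℝ) ^ (-(7 / 20 : ℝ)) :=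
        mul_le_mul_of_nonneg_right h1 (by positivity)
    _ ≤ (n:ℝ) ^ (-c) * (n:ℝ) ^ ((c / 7 - 1 / 6) * (2:ℕ)) := by
        rw [← rpow_add n0, ← rpow_add n0]
        exact rpow_le_rpow_of_exponent_le n1 (by push_cast; linarith)
    _ ≤ _ := by
        refine mul_le_mul_of_nonneg_left (le_mul_of_one_le_left (by positivity) ?_) (by positivity)
        exact one_le_pow₀ hs

end Crest.Agent.T156.Alt

end
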