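import Crest.Agent.T156.SoftDef_88

/-!
# Row 156: the last step of the flow route (helper26)

* `key_of_family`: a family `F n` of model curves that contains `Ln n' β s₁` for `n ≤ n' ≤ 2 n`,
  a trivial bound, the comparison estimate (F) with an error LINEAR in the a priori bound of the
  family, and a weak lower bound give `Key β` (tightness, Cauchy property, non-zero limit).
* `flow_step`, `flow_tele`: the discrete flow in `n`.
-/

set_option autoImplicit false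
open Filter Topology Set

namespace Crest.Agent.T156.Soft.Fin26

/-- one-sided dyadic chaining -/
theorem bdd_dyadic (a : ℕ → ℝ) (c E : ℝ) (n₁ : ℕ) (hc : 0 < c) (hE : 0 ≤ E) (hn₁ : 2 ≤ n₁)
    (h : ∀ n n' : ℕ, n₁ ≤ n → n ≤ n' → n' ≤ 2 * n → a n' ≤ a n + E * (n : ℝ) ^ (-c)) :
    ∃ M, ∀ n, n₁ ≤ n → a n ≤ M := by
  set ρ : ℝ := (3 / 2 : ℝ) ^ (-c) with hρ
  have hρ1 : ρ < 1 := Real.rpow_lt_one_of_one_lt_of_neg (by norm_num) (by linarith)
  have hρ0 : 0 < ρ := Real.rpow_pos_of_pos (by norm_num) _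
  set G : ℝ := E / (1 - ρ) with hG
  have hG0 : 0 ≤ G := div_nonneg hE (by linarith)
  have hGE : G * (1 - ρ) = E := div_mul_cancel₀ _ (by linarith)
  have hle1 : ∀ n : ℕ, 1 ≤ n → (n : ℝ) ^ (-c) ≤ 1 := fun n hn =>
    Real.rpow_le_one_of_one_le_of_nonpos (by exact_mod_cast hn) (by linarith)
  refine ⟨a n₁ + E + G, fun n hn => ?_⟩
  suffices H : ∀ n, n₁ ≤ n → a n + G * (n : ℝ) ^ (-c) ≤ a n₁ + E + G by
    have := H n hn
    have h2 : 0 ≤ G * (n : ℝ) ^ (-c) := mul_nonneg hG0 (Real.rpow_nonneg (Nat.cast_nonneg _) _)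
    linarith
  intro n
  induction n using Nat.strong_induction_on with
  | _ n ih =>
    intro hn
    by_cases h2 : n ≤ 2 * n₁
    · have h3 := h n₁ n le_rfl hn h2
      have h4 := mul_le_mul_of_nonneg_left (hle1 n₁ (by omega)) hE
      have h5 := mul_le_mul_of_nonneg_left (hle1 n (by omega)) hG0
      linarith
    · obtain ⟨m, hm1, hm2, hm3, hm4⟩ : ∃ m, n₁ ≤ m ∧ m < n ∧ n ≤ 2 * m ∧ 3 * m ≤ 2 * n :=
        ⟨(n + 1) / 2, by omega, by omega, by omega, by omega⟩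
      have h3 := h m n hm1 hm2.le hm3
      have h4 := ih m hm2 hm1
      have hm0 : (0 : ℝ) < m := by exact_mod_cast (by omega : 0 < m)
      have h5 : (n : ℝ) ^ (-c) ≤ ρ * (m : ℝ) ^ (-c) := by
        rw [hρ, ← Real.mul_rpow (by norm_num) hm0.le]
        refine Real.rpow_le_rpow_of_nonpos (by positivity) ?_ (by linarith)
        have : (3 * m : ℝ) ≤ 2 * n := by exact_mod_cast hm4
        linarith
      have h6 := mul_le_mul_of_nonneg_left h5 hG0
      have h7 : E * (m : ℝ) ^ (-c) = G * (m : ℝ) ^ (-c) - G * (ρ * (m : ℝ) ^ (-c)) := by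
        rw [← hGE]; ring
      linarith

/-- telescoping to infinity along `n, 2n, 4n, ...` -/
theorem tele_inf (a e : ℕ → ℝ) (ρ : ℝ) (n : ℕ) (hn : 1 ≤ n) (hρ : ρ < 1)
    (he0 : ∀ m, n ≤ m → 0 ≤ e m) (he : ∀ m, n ≤ m → e (2 * m) ≤ ρ * e m)
    (h : ∀ m, n ≤ m → a m ≤ a (2 * m) + e m) (hlim : ∀ δ : ℝ, 0 < δ → ∀ᶠ m in atTop, a m < δ) :
    a n ≤ e n / (1 - ρ) := by
  have h1 : 0 < 1 - ρ := by linarith
  have key : ∀ i : ℕ, a n - e n / (1 - ρ) ≤ a (2 ^ i * n) - e (2 ^ i * n) / (1 - ρ) := by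
    intro i
    induction i with
    | zero => simp
    | succ i ih =>
      have hm : n ≤ 2 ^ i * n := Nat.le_mul_of_pos_left n (by positivity)
      have e1 : 2 ^ (i + 1) * n = 2 * (2 ^ i * n) := by ring
      rw [e1]
      have h2 := h _ hm
      have h3 := div_le_div_of_nonneg_right (he _ hm) h1.le
      have h4 : ρ * e (2 ^ i * n) / (1 - ρ) = e (2 ^ i * n) / (1 - ρ) - e (2 ^ i * n) := by
        field_simp; ring
      linarith
  refine le_of_forall_pos_lt_add fun δ hδ => ?_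
  obtain ⟨N, hN⟩ := eventually_atTop.1 (hlim δ hδ)
  have hm : n ≤ 2 ^ N * n := Nat.le_mul_of_pos_left n (by positivity)
  have hN' : N ≤ 2 ^ N * n :=
    (Nat.lt_two_pow_self.le).trans (Nat.le_mul_of_pos_right _ (by omega))
  have h2 := hN _ hN'
  have h3 := key N
  have h4 : 0 ≤ e (2 ^ N * n) / (1 - ρ) := div_nonneg (he0 _ hm) h1.le
  linarith

/-- the data of the last step, for an arbitrary reference sequence of curves `L` -/
structure Fam (L : ℕ → ℝ → ℝ) (F : ℕ → Set (ℝ → ℝ)) (s₁ l A r D c k C' : ℝ) (n₀ : ℕ) :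
    Prop where
  s1 : 1 ≤ s₁
  hl : 1 ≤ l
  hc : 0 < c
  hk : 0 < k
  hr : 0 ≤ r
  hC : 0 ≤ C'
  mem : ∀ n n' : ℕ, n₀ ≤ n → n ≤ n' → n' ≤ 2 * n → L n' ∈ F n
  triv : ∀ n, n₀ ≤ n → ∀ f ∈ F n, ∀ s, s₁ ≤ s → f s ≤ A * s * (n : ℝ) ^ r
  cmp : ∀ n, n₀ ≤ n → ∀ s, s₁ ≤ s → s ≤ (n : ℝ) ^ k → ∀ B, 0 ≤ B →
    (∀ g ∈ F n, ∀ u, s₁ ≤ u → u ≤ l * s → g u ≤ B) →
    ∀ f ∈ F n, |f s - L n s| ≤ D * (n : ℝ) ^ (-c) * (B + s ^ C')

variable {L : ℕ → ℝ → ℝ} {F : ℕ → Set (ℝ → ℝ)} {s₁ l A r D c k C' : ℝ} {n₀ : ℕ}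

theorem Fam.abs (h : Fam L F s₁ l A r D c k C' n₀) : Fam L F s₁ l |A| r |D| c k C' n₀ where
  s1 := h.s1
  hl := h.hl
  hc := h.hc
  hk := h.hk
  hr := h.hr
  hC := h.hC
  mem := h.mem
  triv n hn f hf s hs := (h.triv n hn f hf s hs).trans (by
    have := h.s1
    have : 0 ≤ s := by linarith
    gcongr; exact le_abs_self A)
  cmp n hn s hs hs' B hB hg f hf := (h.cmp n hn s hs hs' B hB hg f hf).trans (by
    have := h.s1
    have : 0 ≤ s := by linarith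
    gcongr; exact le_abs_self D)

/-- one step of the tightness bootstrap -/
theorem Fam.step (h : Fam L F s₁ l A r D c k C' n₀) (hA : 0 ≤ A) (hD : 0 ≤ D) {p : ℝ}
    (hp1 : 1 + r / k ≤ p) (hp2 : C' ≤ p) {n : ℕ} (hn : n₀ ≤ n) (hn1 : 1 ≤ n) {K : ℝ}
    (hK1 : 1 ≤ K) (hKA : A ≤ K) (hε : D * (n : ℝ) ^ (-c) * (l ^ p + 1) ≤ 1 / 2)
    (hL : ∀ s, s₁ ≤ s → L n s ≤ K * s ^ p) :
    ∀ f ∈ F n, ∀ s, s₁ ≤ s →
      f s ≤ K * (1 + 2 * (D * (n : ℝ) ^ (-c) * (l ^ p + 1))) * s ^ p := by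
  have hs1 := h.s1
  have hl1 := h.hl
  have hl0 : 0 < l := by linarith
  have hrk : 0 ≤ r / k := div_nonneg h.hr h.hk.le
  have hn0 : (1 : ℝ) ≤ n := by exact_mod_cast hn1
  set ε := D * (n : ℝ) ^ (-c) * (l ^ p + 1) with hεd
  have hε0 : 0 ≤ ε := by positivity
  set S : Set ℝ := {b | K ≤ b ∧ ∀ f ∈ F n, ∀ s, s₁ ≤ s → f s ≤ b * s ^ p} with hS
  have hne : S.Nonempty := by
    refine ⟨max K (A * (n : ℝ) ^ r), le_max_left _ _, fun f hf s hs => ?_⟩
    have h1 : s ≤ s ^ p := by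
      have := Real.rpow_le_rpow_of_exponent_le (x := s) (by linarith) (show 1 ≤ p by linarith)
      rwa [Real.rpow_one] at this
    have h0 : 0 ≤ s := by linarith
    calc f s ≤ A * s * (n : ℝ) ^ r := h.triv n hn f hf s hs
      _ = A * (n : ℝ) ^ r * s := by ring
      _ ≤ max K (A * (n : ℝ) ^ r) * s ^ p :=
        mul_le_mul (le_max_right _ _) h1 h0 (le_max_of_le_left (by linarith))
  have hbd : BddBelow S := ⟨K, fun b hb => hb.1⟩
  set b := sInf S with hb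
  have hbK : K ≤ b := le_csInf hne fun b hb => hb.1
  have hbS : ∀ f ∈ F n, ∀ s, s₁ ≤ s → f s ≤ b * s ^ p := by
    intro f hf s hs
    have hsp : 0 < s ^ p := Real.rpow_pos_of_pos (by linarith) _
    rw [← div_le_iff₀ hsp]
    exact le_csInf hne fun b' hb' => (div_le_iff₀ hsp).2 (hb'.2 f hf s hs)
  have hb2 : b ≤ K + ε * b := by
    refine csInf_le hbd ⟨by nlinarith, fun f hf s hs => ?_⟩
    have h0 : 0 < s := by linarith
    have hsp : 0 < s ^ p := Real.rpow_pos_of_pos h0 _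
    by_cases hsk : s ≤ (n : ℝ) ^ k
    · have hb0 : 0 ≤ b := by linarith
      have h1 := h.cmp n hn s hs hsk (b * (l * s) ^ p) (by positivity)
        (fun g hg u hu hu' => (hbS g hg u hu).trans (by
          have : 0 ≤ u := by linarith
          have : 0 ≤ p := by linarith
          gcongr)) f hf
      have h2 : s ^ C' ≤ b * s ^ p := by
        have := Real.rpow_le_rpow_of_exponent_le (x := s) (by linarith) hp2
        nlinarith
      rw [Real.mul_rpow hl0.le h0.le] at h1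
      have h3 : D * (n : ℝ) ^ (-c) * (b * (l ^ p * s ^ p) + s ^ C') ≤ ε * b * s ^ p := by
        have : D * (n : ℝ) ^ (-c) * (b * (l ^ p * s ^ p) + s ^ C') ≤
            D * (n : ℝ) ^ (-c) * (b * (l ^ p * s ^ p) + b * s ^ p) := by gcongr
        rw [hεd]; linarith
      have h4 := hL s hs
      have h5 := (abs_le.1 h1).2
      nlinarith
    · have h1 : (n : ℝ) ^ r ≤ s ^ (r / k) := by
        have e : (n : ℝ) ^ r = ((n : ℝ) ^ k) ^ (r / k) := by
          rw [← Real.rpow_mul (by linarith), mul_div_cancel₀ _ h.hk.ne']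
        rw [e]
        exact Real.rpow_le_rpow (by positivity) (not_le.1 hsk).le hrk
      have h2 : s * s ^ (r / k) ≤ s ^ p := by
        have e : s * s ^ (r / k) = s ^ (1 + r / k) := by rw [Real.rpow_add h0, Real.rpow_one]
        rw [e]
        exact Real.rpow_le_rpow_of_exponent_le (by linarith) hp1
      calc f s ≤ A * s * (n : ℝ) ^ r := h.triv n hn f hf s hs
        _ ≤ A * s * s ^ (r / k) := by gcongr
        _ = A * (s * s ^ (r / k)) := by ring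
        _ ≤ (K + ε * b) * s ^ p := by
          have : 0 ≤ ε * b := mul_nonneg hε0 (by linarith)
          gcongr
          linarith
  intro f hf s hs
  have hsp : 0 < s ^ p := Real.rpow_pos_of_pos (by linarith) _
  refine (hbS f hf s hs).trans (mul_le_mul_of_nonneg_right ?_ hsp.le)
  have h1 : b ≤ 2 * K := by nlinarith
  nlinarith

theorem ev_small (hc : 0 < c) (E δ : ℝ) (hδ : 0 < δ) :
    ∀ᶠ n : ℕ in atTop, E * (n : ℝ) ^ (-c) ≤ δ := by
  have h1 : Tendsto (fun n : ℕ => E * (n : ℝ) ^ (-c)) atTop (𝓝 (E * 0)) :=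
    ((tendsto_rpow_neg_atTop hc).comp tendsto_natCast_atTop_atTop).const_mul E
  rw [mul_zero] at h1
  exact h1.eventually (ge_mem_nhds hδ)

/-- **tightness is an output**: a polynomial bound in the tilt, uniform in `n` -/
theorem Fam.tight (h : Fam L F s₁ l A r D c k C' n₀) :
    ∃ (p K : ℝ) (n₁ : ℕ), 0 ≤ p ∧ 0 ≤ K ∧ n₀ ≤ n₁ ∧ 2 ≤ n₁ ∧
      ∀ n, n₁ ≤ n → ∀ f ∈ F n, ∀ s, s₁ ≤ s → f s ≤ K * s ^ p := by
  replace h := h.abs
  have hA := abs_nonneg A
  have hD := abs_nonneg D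
  generalize |A| = A at h hA
  generalize |D| = D at h hD
  have hs1 := h.s1
  have hl1 := h.hl
  have hl0 : 0 < l := by linarith
  set p := max (1 + r / k) C' with hp
  have hrk : 0 ≤ r / k := div_nonneg h.hr h.hk.le
  have hp1 : 1 ≤ p := le_max_of_le_left (by linarith)
  set E := D * (l ^ p + 1) with hE
  have hE0 : 0 ≤ E := by positivity
  obtain ⟨N, hN⟩ := eventually_atTop.1 (ev_small h.hc E (1 / 2) (by norm_num))
  set n₁ := max (max N n₀) 2 with hn₁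
  have hn₁N : N ≤ n₁ := le_max_of_le_left (le_max_left _ _)
  have hn₁0 : n₀ ≤ n₁ := le_max_of_le_left (le_max_right _ _)
  have hn₁2 : 2 ≤ n₁ := le_max_right _ _
  -- the best constant of `L n`
  set S : ℕ → Set ℝ := fun n => {K | max 1 A ≤ K ∧ ∀ s, s₁ ≤ s → L n s ≤ K * s ^ p} with hS
  have hne : ∀ n, n₁ ≤ n → (S n).Nonempty := by
    intro n hn
    refine ⟨max (max 1 A) (A * (n : ℝ) ^ r), le_max_left _ _, fun s hs => ?_⟩
    have h1 : s ≤ s ^ p := by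
      have := Real.rpow_le_rpow_of_exponent_le (x := s) (by linarith) hp1
      rwa [Real.rpow_one] at this
    have h0 : 0 ≤ s := by linarith
    calc L n s ≤ A * s * (n : ℝ) ^ r :=
          h.triv n (by omega) _ (h.mem n n (by omega) le_rfl (by omega)) s hs
      _ = A * (n : ℝ) ^ r * s := by ring
      _ ≤ max (max 1 A) (A * (n : ℝ) ^ r) * s ^ p :=
        mul_le_mul (le_max_right _ _) h1 h0 (le_max_of_le_right (by positivity))
  set K : ℕ → ℝ := fun n => sInf (S n) with hK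
  have hK1 : ∀ n, n₁ ≤ n → max 1 A ≤ K n := fun n hn => le_csInf (hne n hn) fun b hb => hb.1
  have hK2 : ∀ n, n₁ ≤ n → ∀ s, s₁ ≤ s → L n s ≤ K n * s ^ p := by
    intro n hn s hs
    have hsp : 0 < s ^ p := Real.rpow_pos_of_pos (by linarith) _
    rw [← div_le_iff₀ hsp]
    exact le_csInf (hne n hn) fun b' hb' => (div_le_iff₀ hsp).2 (hb'.2 s hs)
  have hstep : ∀ n, n₁ ≤ n → ∀ f ∈ F n, ∀ s, s₁ ≤ s →
      f s ≤ K n * (1 + 2 * (E * (n : ℝ) ^ (-c))) * s ^ p := by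
    intro n hn
    have e : E * (n : ℝ) ^ (-c) = D * (n : ℝ) ^ (-c) * (l ^ p + 1) := by rw [hE]; ring
    rw [e]
    exact h.step hA hD (le_max_left _ _) (le_max_right _ _) (by omega) (by omega)
      ((le_max_left _ _).trans (hK1 n hn)) ((le_max_right _ _).trans (hK1 n hn))
      (e ▸ hN n (by omega)) (hK2 n hn)
  obtain ⟨M, hM⟩ := bdd_dyadic (fun n => Real.log (K n)) c (2 * E) n₁ h.hc (by positivity) hn₁2 (by
    intro n n' hn hn' hn''
    have hx : 0 ≤ E * (n : ℝ) ^ (-c) := by positivity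
    have k1 : 1 ≤ K n := (le_max_left _ _).trans (hK1 n hn)
    have k1' : 1 ≤ K n' := (le_max_left _ _).trans (hK1 n' (by omega))
    have h1 : K n' ≤ K n * (1 + 2 * (E * (n : ℝ) ^ (-c))) :=
      csInf_le ⟨max 1 A, fun b hb => hb.1⟩ ⟨by nlinarith [hK1 n hn],
        fun s hs => hstep n hn _ (h.mem n n' (by omega) hn' hn'') s hs⟩
    have h2 := Real.log_le_log (by linarith) h1
    rw [Real.log_mul (by linarith) (by linarith)] at h2
    have h3 := Real.log_le_sub_one_of_pos (show 0 < 1 + 2 * (E * (n : ℝ) ^ (-c)) by linarith)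
    show Real.log (K n') ≤ Real.log (K n) + 2 * E * (n : ℝ) ^ (-c)
    linarith)
  refine ⟨p, Real.exp M * 2, n₁, by linarith, by positivity, hn₁0, hn₁2, fun n hn f hf s hs => ?_⟩
  have k1 : 1 ≤ K n := (le_max_left _ _).trans (hK1 n hn)
  have h1 : K n ≤ Real.exp M := by
    rw [← Real.log_le_iff_le_exp (by linarith)]; exact hM n hn
  have hsp : 0 < s ^ p := Real.rpow_pos_of_pos (by linarith) _
  have h2 := hN n (by omega)
  have hx : 0 ≤ E * (n : ℝ) ^ (-c) := by positivity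
  refine (hstep n hn f hf s hs).trans (mul_le_mul_of_nonneg_right ?_ hsp.le)
  gcongr
  linarith

/-- all the curves of the family are within `C n^{-c}` of `L n` on compact sets of tilts -/
theorem Fam.close (h : Fam L F s₁ l A r D c k C' n₀) (s₂ : ℝ) :
    ∃ (C : ℝ) (n₁ : ℕ), n₀ ≤ n₁ ∧ ∀ n, n₁ ≤ n → ∀ f ∈ F n, ∀ s ∈ Icc s₁ s₂,
      |f s - L n s| ≤ C * (n : ℝ) ^ (-c) := by
  obtain ⟨p, K, n₁, hp, hK, hn₁, -, hb⟩ := h.tight
  have hs1 := h.s1
  have hl1 := h.hl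
  have hl0 : 0 < l := by linarith
  obtain ⟨N, hN⟩ := eventually_atTop.1
    (((tendsto_rpow_atTop h.hk).comp tendsto_natCast_atTop_atTop).eventually_ge_atTop s₂)
  refine ⟨|D| * (K * (l * s₂) ^ p + s₂ ^ C'), max n₁ N, le_max_of_le_left hn₁,
    fun n hn f hf s hs => ?_⟩
  have hn1 : n₁ ≤ n := (le_max_left _ _).trans hn
  have h0 : 0 ≤ s := by linarith [hs.1]
  have h0' : 0 ≤ s₂ := by linarith [hs.2]
  have h1 := h.abs.cmp n (by omega) s hs.1 (hs.2.trans (hN n ((le_max_right _ _).trans hn)))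
    (K * (l * s₂) ^ p) (by positivity) (fun g hg u hu hu' => (hb n hn1 g hg u hu).trans (by
      have : 0 ≤ u := by linarith
      have : u ≤ l * s₂ := hu'.trans (by gcongr; exact hs.2)
      gcongr)) f hf
  refine h1.trans ?_
  have h2 : s ^ C' ≤ s₂ ^ C' := Real.rpow_le_rpow h0 hs.2 h.hC
  calc |D| * (n : ℝ) ^ (-c) * (K * (l * s₂) ^ p + s ^ C')
      ≤ |D| * (n : ℝ) ^ (-c) * (K * (l * s₂) ^ p + s₂ ^ C') := by gcongr
    _ = _ := by ring

/-- if the limit vanishes at every fixed tilt, it vanishes at the rate `n^{-c} s^{C'}` up to the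
tilts `n^k / l^j` -/
theorem Fam.feed (h : Fam L F s₁ l A r D c k C' n₀)
    (hlim : ∀ s, s₁ ≤ s → ∀ δ : ℝ, 0 < δ → ∀ᶠ n in atTop, L n s < δ) :
    ∃ (j : ℕ) (K : ℝ) (n₁ : ℕ), ∀ n, n₁ ≤ n → ∀ f ∈ F n, ∀ s, s₁ ≤ s → s ≤ (n : ℝ) ^ k / l ^ j →
      f s ≤ K * (n : ℝ) ^ (-c) * s ^ C' := by
  obtain ⟨p, K₀, n₁, hp, hK₀, hn₁, hn2, hb⟩ := h.tight
  replace h := h.abs
  have hD := abs_nonneg D
  generalize |D| = D at h hD
  have hs1 := h.s1
  have hl1 := h.hl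
  have hl0 : 0 < l := by linarith
  have hc := h.hc
  have hC := h.hC
  set ρ : ℝ := (2 : ℝ) ^ (-c) with hρ
  have hρ1 : ρ < 1 := Real.rpow_lt_one_of_one_lt_of_neg (by norm_num) (by linarith)
  have hρ0 : 0 < ρ := Real.rpow_pos_of_pos (by norm_num) _
  have hle1 : ∀ n : ℕ, 1 ≤ n → (n : ℝ) ^ (-c) ≤ 1 := fun n hn =>
    Real.rpow_le_one_of_one_le_of_nonpos (by exact_mod_cast hn) (by linarith)
  have main : ∀ j : ℕ, ∃ K, 0 ≤ K ∧ ∀ n, n₁ ≤ n → ∀ f ∈ F n, ∀ s, s₁ ≤ s →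
      s ≤ (n : ℝ) ^ k / l ^ j →
      f s ≤ K * (((n : ℝ) ^ (-c)) ^ j * s ^ p + (n : ℝ) ^ (-c) * s ^ C') := by
    intro j
    induction j with
    | zero =>
      refine ⟨K₀, hK₀, fun n hn f hf s hs _ => (hb n hn f hf s hs).trans ?_⟩
      have : 0 ≤ s := by linarith
      have : 0 ≤ (n : ℝ) ^ (-c) * s ^ C' := by positivity
      rw [pow_zero, one_mul]
      gcongr
      linarith
    | succ j ih =>
      obtain ⟨K, hK, ih⟩ := ih
      set K₁ := D * (K * l ^ p + K * l ^ C' + 1) with hK₁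
      have hK₁0 : 0 ≤ K₁ := by positivity
      have err : ∀ n, n₁ ≤ n → ∀ f ∈ F n, ∀ s, s₁ ≤ s → s ≤ (n : ℝ) ^ k / l ^ (j + 1) →
          |f s - L n s| ≤
            K₁ * (((n : ℝ) ^ (-c)) ^ (j + 1) * s ^ p + (n : ℝ) ^ (-c) * s ^ C') := by
        intro n hn f hf s hs hs'
        have h0 : 0 ≤ s := by linarith
        have hnk : 0 ≤ (n : ℝ) ^ k := by positivity
        have h2s : l * s ≤ (n : ℝ) ^ k / l ^ j := by
          rw [pow_succ, ← div_div, le_div_iff₀ hl0] at hs'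
          linarith
        have hsk : s ≤ (n : ℝ) ^ k := by
          have : (n : ℝ) ^ k / l ^ j ≤ (n : ℝ) ^ k := div_le_self hnk (one_le_pow₀ hl1)
          nlinarith
        set x := (n : ℝ) ^ (-c) with hx
        have hx0 : 0 ≤ x := by positivity
        have hx1 : x ≤ 1 := hle1 n (by omega)
        have h1 := h.cmp n (by omega) s hs hsk (K * (x ^ j * (l * s) ^ p + x * (l * s) ^ C'))
          (by positivity) (fun g hg u hu hu' => (ih n hn g hg u hu (hu'.trans h2s)).trans (by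
            have : 0 ≤ u := by linarith
            gcongr)) f hf
        refine h1.trans ?_
        rw [Real.mul_rpow hl0.le h0, Real.mul_rpow hl0.le h0, ← hx]
        have hP : 0 ≤ x ^ (j + 1) * s ^ p := by positivity
        have hQ : 0 ≤ x * s ^ C' := by positivity
        have h2p : (0 : ℝ) ≤ l ^ p := by positivity
        have h2C : (0 : ℝ) ≤ l ^ C' := by positivity
        have e : D * x * (K * (x ^ j * (l ^ p * s ^ p) + x * (l ^ C' * s ^ C')) + s ^ C') =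
            D * (K * l ^ p * (x ^ (j + 1) * s ^ p) + (K * l ^ C' * x + 1) * (x * s ^ C')) := by
          ring
        rw [e, hK₁, mul_assoc D]
        refine mul_le_mul_of_nonneg_left ?_ hD
        have h3 : K * l ^ C' * x ≤ K * l ^ C' := mul_le_of_le_one_right (by positivity) hx1
        have h4 := mul_le_mul_of_nonneg_right h3 hQ
        have h5 : 0 ≤ K * l ^ p * (x * s ^ C') := by positivity
        have h6 : 0 ≤ K * l ^ C' * (x ^ (j + 1) * s ^ p) := by positivity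
        nlinarith
      have hρ2 : 0 < 1 - ρ := by linarith
      refine ⟨K₁ / (1 - ρ) + K₁, by positivity, fun n hn f hf s hs hs' => ?_⟩
      have h0 : 0 ≤ s := by linarith
      have h1 := tele_inf (fun m => L m s)
        (fun m => K₁ * (((m : ℝ) ^ (-c)) ^ (j + 1) * s ^ p + (m : ℝ) ^ (-c) * s ^ C')) ρ n
        (by omega) hρ1 (fun m _ => by positivity) (fun m hm => by
          have e : ((2 * m : ℕ) : ℝ) ^ (-c) = ρ * (m : ℝ) ^ (-c) := by
            rw [hρ, ← Real.mul_rpow (by norm_num) (Nat.cast_nonneg _)]; push_cast; rfl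
          simp only [e]
          set x := (m : ℝ) ^ (-c)
          have hx0 : 0 ≤ x := by positivity
          have h2 : ρ ^ (j + 1) ≤ ρ := pow_le_of_le_one hρ0.le hρ1.le (by omega)
          have h3 : 0 ≤ x ^ (j + 1) * s ^ p := by positivity
          have h4 := mul_le_mul_of_nonneg_right h2 h3
          rw [mul_pow, mul_left_comm ρ K₁]
          refine mul_le_mul_of_nonneg_left ?_ hK₁0
          nlinarith)
        (fun m hm => by
          have hmk : (n : ℝ) ^ k ≤ (m : ℝ) ^ k :=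
            Real.rpow_le_rpow (Nat.cast_nonneg _) (by exact_mod_cast hm) h.hk.le
          have h2 := err m (by omega) _ (h.mem m (2 * m) (by omega) (by omega) le_rfl) s hs
            (hs'.trans (by gcongr))
          have := (abs_le.1 h2).1
          linarith) (hlim s hs)
      have h2 := (abs_le.1 (err n hn f hf s hs hs')).2
      rw [add_mul, div_mul_eq_mul_div]
      linarith
  obtain ⟨j, hj⟩ := exists_nat_ge ((c + k * p) / c)
  obtain ⟨K, hK, hm⟩ := main j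
  refine ⟨j, 2 * K, n₁, fun n hn f hf s hs hs' => (hm n hn f hf s hs hs').trans ?_⟩
  have h0 : 0 ≤ s := by linarith
  have hn1 : (1 : ℝ) ≤ n := by exact_mod_cast (by omega : 1 ≤ n)
  have hsk : s ≤ (n : ℝ) ^ k :=
    hs'.trans (div_le_self (by positivity) (one_le_pow₀ hl1))
  have h1 : ((n : ℝ) ^ (-c)) ^ j * s ^ p ≤ (n : ℝ) ^ (-c) := by
    calc ((n : ℝ) ^ (-c)) ^ j * s ^ p ≤ ((n : ℝ) ^ (-c)) ^ j * ((n : ℝ) ^ k) ^ p := by gcongr
      _ = (n : ℝ) ^ (-c * j + k * p) := by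
        rw [← Real.rpow_natCast, ← Real.rpow_mul (by linarith), ← Real.rpow_mul (by linarith),
          ← Real.rpow_add (by linarith)]
      _ ≤ (n : ℝ) ^ (-c) := by
        refine Real.rpow_le_rpow_of_exponent_le hn1 ?_
        rw [div_le_iff₀ hc] at hj
        linarith
  have h2 : 1 ≤ s ^ C' := Real.one_le_rpow (by linarith) hC
  have hx0 : 0 ≤ (n : ℝ) ^ (-c) := by positivity
  have h3 : (n : ℝ) ^ (-c) ≤ (n : ℝ) ^ (-c) * s ^ C' := le_mul_of_one_le_right hx0 h2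
  have h4 := mul_le_mul_of_nonneg_left (h1.trans h3) hK
  nlinarith

/-- **the last step**: family + weak lower bound give `Key` -/
theorem key_of_family {β : ℝ} (h : Fam (fun n => Ln n β s₁) F s₁ l A r D c k C' n₀)
    (hlb : ∀ K δ : ℝ, 0 < δ → ∃ᶠ n : ℕ in atTop, ∃ f ∈ F n, ∃ s, s₁ ≤ s ∧
      s ≤ δ * (n : ℝ) ^ k ∧ K * (n : ℝ) ^ (-c) * s ^ C' ≤ f s) : Key β := by
  have hs1 := h.s1
  have hl1 := h.hl
  have hl0 : 0 < l := by linarith
  have hex : ∃ s, s₁ ≤ s ∧ ∃ δ : ℝ, 0 < δ ∧ ∃ᶠ n : ℕ in atTop, δ ≤ Ln n β s₁ s := by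
    by_contra hcon
    obtain ⟨j, K, n₁, hb⟩ := h.feed fun s hs δ hδ => by
      by_contra h2
      refine hcon ⟨s, hs, δ, hδ, ?_⟩
      rw [not_eventually] at h2
      exact h2.mono fun n hn => not_lt.1 hn
    obtain ⟨n, ⟨f, hf, s, hs, hs', hlt⟩, hn⟩ :=
      ((hlb (K + 1) (l ^ j)⁻¹ (by positivity)).and_eventually
        (eventually_ge_atTop (max n₁ 1))).exists
    have h1 := hb n ((le_max_left _ _).trans hn) f hf s hs (by rwa [div_eq_inv_mul])
    have hn0 : (0 : ℝ) < n := by exact_mod_cast (le_max_right _ _).trans hn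
    have h0 : 0 < s := by linarith
    have h2 : 0 < (n : ℝ) ^ (-c) * s ^ C' := by positivity
    nlinarith
  obtain ⟨s, hs, δ, hδ, hfr⟩ := hex
  obtain ⟨C, n₁, hn₁, hC⟩ := h.close (3 * s)
  refine ⟨s₁, 3 * s, c, C, n₁, by linarith, by linarith, h.hc, fun n n' hn hn' hn'' u hu => ?_,
    s₁, s, δ, ⟨le_rfl, by linarith⟩, ⟨hs, by linarith⟩, hδ, hfr⟩
  rw [abs_sub_comm]
  exact hC n hn _ (h.mem n n' (by omega) hn' hn'') u hu

/-- the same with the lower bound at one polynomial tilt scale `n^{k'}`, `k' < k` -/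
theorem key_of_family' {β k' γ : ℝ} (h : Fam (fun n => Ln n β s₁) F s₁ l A r D c k C' n₀)
    (hk' : k' < k) (hγ : γ + k' * C' < c)
    (hlb : ∃ᶠ n : ℕ in atTop, ∃ f ∈ F n, ∃ s, s₁ ≤ s ∧ s ≤ (n : ℝ) ^ k' ∧ (n : ℝ) ^ (-γ) ≤ f s) :
    Key β := by
  refine key_of_family h fun K δ hδ => ?_
  have e1 := ev_small (c := k - k') (by linarith) 1 δ hδ
  have e2 := ev_small (c := c - γ - k' * C') (by linarith) |K| (1 / 2) (by norm_num)
  refine (hlb.and_eventually (e1.and (e2.and (eventually_ge_atTop 1)))).mono ?_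
  rintro n ⟨⟨f, hf, s, hs, hs', hlt⟩, h1, h2, h3⟩
  have hn : (0 : ℝ) < n := by exact_mod_cast h3
  have h0 : 0 ≤ s := by linarith [h.s1]
  refine ⟨f, hf, s, hs, hs'.trans ?_, le_trans ?_ hlt⟩
  · have e : (n : ℝ) ^ k' = (n : ℝ) ^ (-(k - k')) * (n : ℝ) ^ k := by
      rw [← Real.rpow_add hn]; congr 1; ring
    rw [e]
    have : 0 < (n : ℝ) ^ k := by positivity
    nlinarith
  · have h4 : s ^ C' ≤ (n : ℝ) ^ (k' * C') := by
      rw [Real.rpow_mul hn.le]; exact Real.rpow_le_rpow h0 hs' h.hC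
    have e : (n : ℝ) ^ (-c) * (n : ℝ) ^ (k' * C') =
        (n : ℝ) ^ (-(c - γ - k' * C')) * (n : ℝ) ^ (-γ) := by
      rw [← Real.rpow_add hn, ← Real.rpow_add hn]; congr 1; ring
    have h5 : 0 < (n : ℝ) ^ (-γ) := by positivity
    calc K * (n : ℝ) ^ (-c) * s ^ C' ≤ |K| * (n : ℝ) ^ (-c) * (n : ℝ) ^ (k' * C') := by
          gcongr; exact le_abs_self K
      _ = |K| * (n : ℝ) ^ (-(c - γ - k' * C')) * (n : ℝ) ^ (-γ) := by
          rw [mul_assoc, e, mul_assoc]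
      _ ≤ (n : ℝ) ^ (-γ) := by nlinarith

/-- `√(s B) ≤ B + s`: helper5's form of the error is covered by the linear form -/
theorem sqrt_le_lin {s B : ℝ} (hs : 0 ≤ s) (hB : 0 ≤ B) : √(s * B) ≤ B + s := by
  rw [Real.sqrt_le_left (by positivity)]
  nlinarith [mul_nonneg hs hB]

/-! ### the discrete flow in `n` -/

/-- `τ_n - τ_{n+1} = τ_{n+1} (1 / (6 n) - O(1 / n²))`, `τ_n = n^{-1/6}` -/
theorem tau_step {n : ℝ} (hn : 1 ≤ n) : ∃ θ, n ^ (-(1 : ℝ) / 6) = (n + 1) ^ (-(1 : ℝ) / 6) * (1 + θ) ∧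
    0 ≤ θ ∧ θ ≤ 1 / (6 * n) ∧ 1 / (6 * n) - θ ≤ 1 / n ^ 2 := by
  have h0 : 0 < n := by linarith
  set t := (1 + 1 / n) ^ ((1 : ℝ) / 6) with ht
  have hu : 0 < 1 / n := by positivity
  have hu1 : 1 / n ≤ 1 := by rw [div_le_one h0]; exact hn
  have ht1 : 1 ≤ t := Real.one_le_rpow (by linarith) (by norm_num)
  have ht6 : t ^ 6 = 1 + 1 / n := by
    rw [ht, ← Real.rpow_natCast, ← Real.rpow_mul (by linarith)]; norm_num
  have e6 : 1 / (6 * n) = 1 / n / 6 := by field_simp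
  have e2 : 1 / n ^ 2 = (1 / n) ^ 2 := by field_simp
  refine ⟨t - 1, ?_, by linarith, ?_, ?_⟩
  · have e : n + 1 = n * (1 + 1 / n) := by field_simp
    rw [e, Real.mul_rpow h0.le (by linarith), add_sub_cancel, mul_assoc, ht,
      ← Real.rpow_add (by linarith)]
    norm_num
  · rw [e6]
    generalize 1 / n = u at *
    have := one_add_mul_le_pow (a := t - 1) (by linarith) 6
    rw [add_sub_cancel, ht6] at this
    push_cast at this
    linarith
  · rw [e6, e2]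
    clear ht
    clear_value t
    generalize 1 / n = u at *
    obtain ⟨θ, rfl⟩ : ∃ θ, t = 1 + θ := ⟨t - 1, by ring⟩
    have h1 : 0 ≤ θ := by linarith
    have h2 : θ ≤ u / 6 := by
      have := one_add_mul_le_pow (a := θ) (by linarith) 6
      rw [ht6] at this
      push_cast at this
      linarith
    have h3 : θ ≤ 1 / 6 := by linarith
    have h4 : u = 6 * θ + θ ^ 2 * (15 + θ * (20 + θ * (15 + θ * (6 + θ)))) := by
      have : (1 + θ) ^ 6 = 1 + (6 * θ + θ ^ 2 * (15 + θ * (20 + θ * (15 + θ * (6 + θ))))) := by ring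
      linarith
    have h5 : θ * (6 + θ) ≤ 2 := by nlinarith
    have h6 : θ * (15 + θ * (6 + θ)) ≤ 3 := by nlinarith
    have h7 : θ * (20 + θ * (15 + θ * (6 + θ))) ≤ 4 := by nlinarith
    have h8 : θ ^ 2 ≤ (u / 6) ^ 2 := by gcongr
    have h9 : θ ^ 2 * (15 + θ * (20 + θ * (15 + θ * (6 + θ)))) ≤ θ ^ 2 * 19 := by
      gcongr; linarith
    nlinarith

/-- scaled curve of a family `V n a` (value of the `n`-th model at root tilt `a`) -/
noncomputable def sc (V : ℕ → ℝ → ℝ) (n : ℕ) (s₁ s : ℝ) : ℝ :=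
  (n : ℝ) ^ (-(1 : ℝ) / 6) *
    (V n (s * (n : ℝ) ^ (-(1 : ℝ) / 6)) - V n (s₁ * (n : ℝ) ^ (-(1 : ℝ) / 6)))

theorem sc_psi (β : ℝ) (n : ℕ) (s₁ s : ℝ) : sc (fun n => psi n β) n s₁ s = Ln n β s₁ s := rfl

/-- one tilt, one step: `E` is the derivative of `a ↦ a V a` (the tilted mean of the root value) -/
theorem flow_one {V V' E : ℝ → ℝ} {n M s κ e : ℝ} (hn : 1 ≤ n) (hs : 0 < s)
    (hd : ∀ a ∈ Icc (s * (n + 1) ^ (-(1 : ℝ) / 6)) (s * n ^ (-(1 : ℝ) / 6)),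
      HasDerivAt (fun a => a * V a) (E a) a)
    (hE : |E (s * (n + 1) ^ (-(1 : ℝ) / 6))| ≤ M * n)
    (hL : ∀ a ∈ Icc (s * (n + 1) ^ (-(1 : ℝ) / 6)) (s * n ^ (-(1 : ℝ) / 6)),
      |E a - E (s * (n + 1) ^ (-(1 : ℝ) / 6))| ≤ M * n * (a - s * (n + 1) ^ (-(1 : ℝ) / 6)))
    (hf : |V' (s * (n + 1) ^ (-(1 : ℝ) / 6)) - V (s * (n + 1) ^ (-(1 : ℝ) / 6)) -
      E (s * (n + 1) ^ (-(1 : ℝ) / 6)) / (6 * n) - κ| ≤ e) :
    |(n + 1) ^ (-(1 : ℝ) / 6) * V' (s * (n + 1) ^ (-(1 : ℝ) / 6)) -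
      n ^ (-(1 : ℝ) / 6) * V (s * n ^ (-(1 : ℝ) / 6)) - (n + 1) ^ (-(1 : ℝ) / 6) * κ| ≤
      n ^ (-(1 : ℝ) / 6) * (e + M * (1 + s * n ^ (-(1 : ℝ) / 6)) / n) := by
  obtain ⟨θ, hτ, h0, h1, h2⟩ := tau_step hn
  have hn0 : 0 < n := by linarith
  have ht' : 0 < (n + 1) ^ (-(1 : ℝ) / 6) := by positivity
  generalize (n + 1) ^ (-(1 : ℝ) / 6) = t at *
  generalize n ^ (-(1 : ℝ) / 6) = τ at *
  subst hτ
  have hM : 0 ≤ M := by
    have := (abs_nonneg _).trans hE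
    exact nonneg_of_mul_nonneg_left this hn0
  have he : 0 ≤ e := (abs_nonneg _).trans hf
  have hst : 0 < s * t := by positivity
  have hab : s * t ≤ s * (t * (1 + θ)) := by nlinarith [mul_nonneg hst.le h0]
  -- mean value inequality for `a V a - E(a') a`
  have mv := norm_image_sub_le_of_norm_deriv_le_segment'
    (f := fun a => a * V a - E (s * t) * a) (f' := fun a => E a - E (s * t))
    (a := s * t) (b := s * (t * (1 + θ))) (C := M * n * (s * t * θ))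
    (fun a ha => by
      have := ((hd a ha).sub ((hasDerivAt_id a).const_mul (E (s * t)))).hasDerivWithinAt
        (s := Icc (s * t) (s * (t * (1 + θ))))
      rw [mul_one] at this
      exact this)
    (fun a ha => by
      rw [Real.norm_eq_abs]
      refine (hL a ⟨ha.1, ha.2.le⟩).trans (mul_le_mul_of_nonneg_left ?_ (by positivity))
      nlinarith [ha.2]) _ ⟨hab, le_rfl⟩
  rw [Real.norm_eq_abs] at mv
  set x := V' (s * t) - V (s * t) - E (s * t) / (6 * n) - κ with hx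
  set y := s * (t * (1 + θ)) * V (s * (t * (1 + θ))) - E (s * t) * (s * (t * (1 + θ))) -
    (s * t * V (s * t) - E (s * t) * (s * t)) with hy
  have key : t * V' (s * t) - t * (1 + θ) * V (s * (t * (1 + θ))) - t * κ =
      t * x - y / s + t * ((1 / (6 * n) - θ) * E (s * t)) := by
    rw [hx, hy]; field_simp; ring
  rw [key]
  have b1 : |t * x| ≤ t * e := by rw [abs_mul, abs_of_pos ht']; gcongr
  have hθ : θ ≤ 1 / n := h1.trans (one_div_le_one_div_of_le hn0 (by linarith))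
  have b2 : |y / s| ≤ t * (M * (s * t) / n) := by
    rw [abs_div, abs_of_pos hs, div_le_iff₀ hs]
    refine mv.trans ?_
    have e1 : M * n * (s * t * θ) * (s * (t * (1 + θ)) - s * t) = M * n * (s * t) ^ 2 * θ ^ 2 := by
      ring
    have e2 : t * (M * (s * t) / n) * s = M * n * (s * t) ^ 2 * (1 / n) ^ 2 := by field_simp
    rw [e1, e2]
    gcongr
  have b3 : |t * ((1 / (6 * n) - θ) * E (s * t))| ≤ t * (M / n) := by
    rw [abs_mul, abs_of_pos ht', abs_mul, abs_of_nonneg (by linarith : 0 ≤ 1 / (6 * n) - θ)]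
    have e2 : M / n = 1 / n ^ 2 * (M * n) := by field_simp
    rw [e2]
    gcongr
  have b4 : |t * x - y / s + t * ((1 / (6 * n) - θ) * E (s * t))| ≤
      t * (e + M * (1 + s * t) / n) := by
    refine ((abs_add_le _ _).trans (add_le_add_left (abs_sub _ _) _)).trans ?_
    have e3 : t * (e + M * (1 + s * t) / n) = t * e + t * (M * (s * t) / n) + t * (M / n) := by ring
    linarith
  refine b4.trans ?_
  have : t ≤ t * (1 + θ) := by nlinarith
  gcongr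

/-- the hypotheses of the flow for the sizes `n ≤ m < n'` and the tilts `a ∈ [a₀, a₁]` -/
structure Flow (V E : ℕ → ℝ → ℝ) (κ : ℕ → ℝ) (n n' : ℕ) (a₀ a₁ M e : ℝ) : Prop where
  der : ∀ m, n ≤ m → m < n' → ∀ a ∈ Icc a₀ a₁, HasDerivAt (fun a => a * V m a) (E m a) a
  bd : ∀ m, n ≤ m → m < n' → ∀ a ∈ Icc a₀ a₁, |E m a| ≤ M * m
  lip : ∀ m, n ≤ m → m < n' → ∀ a ∈ Icc a₀ a₁, ∀ a' ∈ Icc a₀ a₁, a' ≤ a →
    |E m a - E m a'| ≤ M * m * (a - a')
  flow : ∀ m, n ≤ m → m < n' → ∀ a ∈ Icc a₀ a₁,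
    |V (m + 1) a - V m a - E m a / (6 * m) - κ m| ≤ e

theorem flow_step {V E : ℕ → ℝ → ℝ} {κ : ℕ → ℝ} {n n' : ℕ} {a₀ a₁ M e : ℝ}
    (h : Flow V E κ n n' a₀ a₁ M e) (hn : 1 ≤ n) {s₁ s : ℝ} (hs₁ : 0 < s₁) (hs : s₁ ≤ s)
    (h0 : a₀ ≤ s₁ * (n' : ℝ) ^ (-(1 : ℝ) / 6)) (h1 : s * (n : ℝ) ^ (-(1 : ℝ) / 6) ≤ a₁)
    {m : ℕ} (hm : n ≤ m) (hm' : m < n') :
    |sc V (m + 1) s₁ s - sc V m s₁ s| ≤ 2 * ((n : ℝ) ^ (-(1 : ℝ) / 6) * (e + M * (1 + a₁) / n)) := by
  have hn1 : (1 : ℝ) ≤ n := by exact_mod_cast hn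
  have hmn : (n : ℝ) ≤ m := by exact_mod_cast hm
  have hmn' : (m : ℝ) + 1 ≤ n' := by exact_mod_cast hm'
  have hm1 : (1 : ℝ) ≤ m := by linarith
  have t1 : (m : ℝ) ^ (-(1 : ℝ) / 6) ≤ (n : ℝ) ^ (-(1 : ℝ) / 6) :=
    Real.rpow_le_rpow_of_nonpos (by linarith) hmn (by norm_num)
  have t2 : (n' : ℝ) ^ (-(1 : ℝ) / 6) ≤ ((m : ℝ) + 1) ^ (-(1 : ℝ) / 6) :=
    Real.rpow_le_rpow_of_nonpos (by linarith) hmn' (by norm_num)
  have t3 : ((m : ℝ) + 1) ^ (-(1 : ℝ) / 6) ≤ (m : ℝ) ^ (-(1 : ℝ) / 6) :=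
    Real.rpow_le_rpow_of_nonpos (by linarith) (by linarith) (by norm_num)
  have t4 : 0 < ((m : ℝ) + 1) ^ (-(1 : ℝ) / 6) := by positivity
  have one : ∀ u, s₁ ≤ u → u ≤ s →
      |((m : ℝ) + 1) ^ (-(1 : ℝ) / 6) * V (m + 1) (u * ((m : ℝ) + 1) ^ (-(1 : ℝ) / 6)) -
        (m : ℝ) ^ (-(1 : ℝ) / 6) * V m (u * (m : ℝ) ^ (-(1 : ℝ) / 6)) -
        ((m : ℝ) + 1) ^ (-(1 : ℝ) / 6) * κ m| ≤
      (n : ℝ) ^ (-(1 : ℝ) / 6) * (e + M * (1 + a₁) / n) := by
    intro u hu hu'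
    have hu0 : 0 < u := by linarith
    have l0 : a₀ ≤ u * ((m : ℝ) + 1) ^ (-(1 : ℝ) / 6) := h0.trans (by gcongr)
    have l1 : u * (m : ℝ) ^ (-(1 : ℝ) / 6) ≤ a₁ := le_trans (by gcongr; linarith) h1
    have l2 : u * ((m : ℝ) + 1) ^ (-(1 : ℝ) / 6) ≤ a₁ := le_trans (by gcongr) l1
    have hE := h.bd m hm hm' _ ⟨l0, l2⟩
    have hf := h.flow m hm hm' _ ⟨l0, l2⟩
    have hM : 0 ≤ M := nonneg_of_mul_nonneg_left ((abs_nonneg _).trans hE) (by linarith)
    have he : 0 ≤ e := (abs_nonneg _).trans hf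
    have ha : 0 ≤ a₁ := le_trans (by positivity) l1
    refine (flow_one (V := V m) (V' := V (m + 1)) (E := E m) hm1 hu0
      (fun a ha => h.der m hm hm' a ⟨l0.trans ha.1, ha.2.trans l1⟩) hE
      (fun a ha => h.lip m hm hm' a ⟨l0.trans ha.1, ha.2.trans l1⟩ _ ⟨l0, l2⟩ ha.1) hf).trans ?_
    gcongr
  have o1 := abs_le.1 (one s hs le_rfl)
  have o2 := abs_le.1 (one s₁ le_rfl hs)
  unfold sc
  push_cast
  rw [abs_le]
  constructor <;> linarith [o1.1, o1.2, o2.1, o2.2]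

/-- **the flow, telescoped** over `n ≤ m ≤ n' ≤ 2 n`: an error `e` per step in the flow equation
costs `2 n^{5/6} e`, the discretisation costs `2 M (1 + a₁) n^{-1/6}` -/
theorem flow_tele {V E : ℕ → ℝ → ℝ} {κ : ℕ → ℝ} {n n' : ℕ} {a₀ a₁ M e : ℝ}
    (h : Flow V E κ n n' a₀ a₁ M e) (hn : 1 ≤ n) (hn' : n' ≤ 2 * n) (hM : 0 ≤ M) (he : 0 ≤ e)
    (ha : 0 ≤ a₁) {s₁ s : ℝ} (hs₁ : 0 < s₁) (hs : s₁ ≤ s)
    (h0 : a₀ ≤ s₁ * (n' : ℝ) ^ (-(1 : ℝ) / 6)) (h1 : s * (n : ℝ) ^ (-(1 : ℝ) / 6) ≤ a₁)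
    {m : ℕ} (hm : n ≤ m) (hm' : m ≤ n') :
    |sc V m s₁ s - sc V n s₁ s| ≤ 2 * ((n : ℝ) ^ (-(1 : ℝ) / 6) * (n * e + M * (1 + a₁))) := by
  have hn0 : (0 : ℝ) < n := by exact_mod_cast hn
  set b := 2 * ((n : ℝ) ^ (-(1 : ℝ) / 6) * (e + M * (1 + a₁) / n)) with hb
  have hb0 : 0 ≤ b := by positivity
  have key : ∀ i : ℕ, n + i ≤ n' → |sc V (n + i) s₁ s - sc V n s₁ s| ≤ i * b := by
    intro i
    induction i with
    | zero => simp
    | succ i ih =>
      intro hi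
      have h2 := flow_step h hn hs₁ hs h0 h1 (m := n + i) (by omega) (by omega)
      have h3 := ih (by omega)
      have h4 := abs_sub_le (sc V (n + i + 1) s₁ s) (sc V (n + i) s₁ s) (sc V n s₁ s)
      rw [← add_assoc]
      push_cast
      linarith
  obtain ⟨i, rfl⟩ := Nat.exists_eq_add_of_le hm
  refine (key i hm').trans ?_
  have hi : (i : ℝ) ≤ n := by exact_mod_cast (by omega : i ≤ n)
  calc (i : ℝ) * b ≤ n * b := by gcongr
    _ = _ := by rw [hb]; field_simp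

end Crest.Agent.T156.Soft.Fin26
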