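import Crest.Agent.T156.LDef_69

/-!
# Row 156, block (L): the corner clause of the low part of the weak input (helper49)
-/

set_option autoImplicit false

noncomputable section

namespace Crest.Agent.T156.Alt.L69

open Real

/-- a rise at the corner is seen by the plateau at the cost `G0²` -/
def G0d (S : Sc) (M : Md) (Xp G0 u1 γ : ℝ) : Prop :=
  (∃ a, 0 < a ∧ (∀ k, S.J ≤ k → k ≤ S.Jp → u1 ≤ du M k →
      a ^ 2 ≤ S.den (M.z (k - 1)) ^ 2 * dl M S k ^ 3) ∧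
    S.w3 1 * (√Xp + γ + √S.u0 * Xp ^ ((1 : ℝ) / 3)) ≤ a * G0 ^ 2) ∨
  (∃ d, 0 < d ∧ (∀ k, S.J ≤ k → k ≤ S.Jp → u1 ≤ du M k → d ≤ S.den (M.z (k - 1))) ∧
    S.w3 1 * (Xp ^ ((1 : ℝ) / 3) + γ) ≤ d * G0 ^ 2)

end Crest.Agent.T156.Alt.L69

end
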