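import Crest.Agent.T156.L0C_49

/-!
Row 156 (helper89): length of a gap when the node errors contain `o |Γ''|`; one-sided form.
-/

set_option autoImplicit false

namespace Crest.Agent.T156.L0.G89

open MeasureTheory Set Filter Topology
open Crest.Agent.R164.GC Crest.Agent.R339.B Crest.Agent.R339.Var Crest.Agent.T157.Pf
open Crest.Agent.T156.Pp Crest.Agent.T156.Pp.Ode3 Crest.Agent.T156.Str

noncomputable section

variable {l : List (ℝ × ℝ)} {T : ℝ}

/-- `G'` is Lipschitz up to the labels, with the constant `K` -/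
def Lp (l : List (ℝ × ℝ)) (K : ℝ) : Prop := ∀ s t : ℝ, 0 ≤ s → s ≤ t → t ≤ TT l →
  |Gd l t - Gd l s| ≤ K * (t - s) + 2 * (lvr 1 l t - lvr 1 l s)

/-- `G' ≥ D` at the lower end -/
theorem big_up (h : AP l) (hT : TT l ≤ T) {b s t D : ℝ} (hb : 0 ≤ b) (h0 : 0 ≤ s) (hst : s ≤ t)
    (ht : t ≤ TT l) (hD : lvr 1 l t ≤ lvr 1 l s + D) (h4 : 4 * D ≤ Gd l s) :
    rho b l t - rho b l s ≤ (b * Gp l t - 1) * (t - s) - b * (Gd l s - 4 * D) * (t - s) ^ 2 / 4 := by
  have mo := lvr_mono h.adm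
  have k0 := kc_pos T
  have key : ∀ r, s ≤ r → r ≤ t → (Gd l s - 4 * D) * (t - r) ≤ Gp l t - Gp l r := fun r r0 r1 => by
    have a := Gp_right h hT (h0.trans r0) r1 ht (Z := lvr 1 l t) fun x hx => mo hx.2.le
    have c := Gd_mono h hT h0 r0 (r1.trans ht)
    have m1 := mo r0
    have m2 := mo r1
    have p1 := mul_nonneg k0.le (sub_nonneg.2 r0)
    have p2 := mul_nonneg k0.le (sq_nonneg (t - r))
    have p3 := mul_le_mul_of_nonneg_right
      (show Gd l s - 4 * D ≤ Gd l r - 2 * (lvr 1 l t - lvr 1 l r) by linarith) (sub_nonneg.2 r1)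
    linarith
  have d0 : 0 ≤ Gd l s - 4 * D := by linarith
  have a := rho_le h (b := b) (s := s) (t := (s + t) / 2)
    (g := b * Gp l t - 1 - b * ((Gd l s - 4 * D) * ((t - s) / 2))) h0 (by linarith) (by linarith)
    fun r hr => by
      have := mul_le_mul_of_nonneg_left ((mul_le_mul_of_nonneg_left
        (show (t - s) / 2 ≤ t - r by linarith [hr.2]) d0).trans
        (key r hr.1 (by linarith [hr.2]))) hb
      linarith
  have c := rho_le h (b := b) (s := (s + t) / 2) (t := t) (g := b * Gp l t - 1) (by linarith)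
    (by linarith) ht fun r hr => by
      have := mul_le_mul_of_nonneg_left ((mul_nonneg d0 (sub_nonneg.2 hr.2.le)).trans
        (key r (by linarith [hr.1]) hr.2.le)) hb
      linarith
  unfold rho
  linarith

/-- `G' ≤ -D` at the upper end -/
theorem big_dn (h : AP l) (hT : TT l ≤ T) {b s t D : ℝ} (hb : 0 ≤ b) (h0 : 0 ≤ s) (hst : s ≤ t)
    (ht : t ≤ TT l) (hD : lvr 1 l t ≤ lvr 1 l s + D) (h4 : 4 * D ≤ -Gd l t) :
    rho b l t - rho b l s ≤ (b * Gp l s - 1) * (t - s) - b * (-Gd l t - 4 * D) * (t - s) ^ 2 / 4 := by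
  have mo := lvr_mono h.adm
  have k0 := kc_pos T
  have key : ∀ r, s ≤ r → r ≤ t → (-Gd l t - 4 * D) * (r - s) ≤ Gp l s - Gp l r := fun r r0 r1 => by
    have a := Gp_left h hT h0 r0 (r1.trans ht)
    have c := Gd_mono h hT (h0.trans r0) r1 ht
    have m1 := mo r0
    have m2 := mo r1
    have p1 := mul_nonneg k0.le (sub_nonneg.2 r1)
    have p2 := mul_nonneg k0.le (sq_nonneg (r - s))
    have p3 := mul_le_mul_of_nonneg_right
      (show Gd l r + 2 * (lvr 1 l r - lvr 1 l s) ≤ -(-Gd l t - 4 * D) by linarith)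
      (sub_nonneg.2 r0)
    linarith
  have d0 : 0 ≤ -Gd l t - 4 * D := by linarith
  have a := rho_le h (b := b) (s := s) (t := (s + t) / 2) (g := b * Gp l s - 1) h0 (by linarith)
    (by linarith) fun r hr => by
      have := mul_le_mul_of_nonneg_left ((mul_nonneg d0 (sub_nonneg.2 hr.1)).trans
        (key r hr.1 (by linarith [hr.2]))) hb
      linarith
  have c := rho_le h (b := b) (s := (s + t) / 2) (t := t)
    (g := b * Gp l s - 1 - b * ((-Gd l t - 4 * D) * ((t - s) / 2))) (by linarith) (by linarith) ht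
    fun r hr => by
      have := mul_le_mul_of_nonneg_left ((mul_le_mul_of_nonneg_left
        (show (t - s) / 2 ≤ r - s by linarith [hr.1]) d0).trans
        (key r (by linarith [hr.1]) hr.2.le)) hb
      linarith
  unfold rho
  linarith

theorem aux_big {b k K L A o D P g : ℝ} (hb : 0 ≤ b) (hk : 0 < k) (hK : k ≤ K) (hL : 0 < L)
    (ho : 0 ≤ o) (hP : K * L ≤ P) (hD : 8 * D ≤ k * L) (h48 : 48 * o ≤ b * L ^ 2)
    (H : -(A + o * (3 * P)) ≤ g * L - b * (P - 4 * D) * L ^ 2 / 4) :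
    b * k / 24 * L ^ 2 - (A + 4 * K * o * L) / L ≤ g := by
  have P0 : k * L ≤ P := (mul_le_mul_of_nonneg_right hK hL.le).trans hP
  have kL := mul_pos hk hL
  have bL : 0 ≤ b * L ^ 2 := by positivity
  have a1 := mul_le_mul_of_nonneg_left (show P / 2 ≤ P - 4 * D by linarith) bL
  have a2 := mul_le_mul_of_nonneg_right h48 (show 0 ≤ P by linarith)
  have a3 := mul_le_mul_of_nonneg_left P0 bL
  have a4 : 0 ≤ 4 * K * o * L := by have : 0 ≤ K := by linarith
                                    positivity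
  have a5 := mul_nonneg bL kL.le
  rw [sub_le_iff_le_add, ← sub_le_iff_le_add', le_div_iff₀ hL]
  nlinarith

/-- a long gap has an unstable end; the drop contains `o |G'|` -/
theorem unst (h : AP l) (hT : TT l ≤ T) {b s t D A o K : ℝ} (hK : Lp l K) (hb : 0 ≤ b)
    (h0 : 0 ≤ s) (hst : s < t) (ht : t ≤ TT l) (hD : lvr 1 l t ≤ lvr 1 l s + D)
    (hκ : 8 * D ≤ kc T * (t - s)) (ho : 0 ≤ o) (K0 : 0 ≤ K) (h48 : 48 * o ≤ b * (t - s) ^ 2)
    (hδ : -(A + o * (|Gd l s| + |Gd l t|)) ≤ rho b l t - rho b l s) :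
    (kc T / 4 * (t - s) ≤ Gd l t ∧ 1 + (b * kc T / 24 * (t - s) ^ 2 -
        (A + 4 * (K + kc T) * o * (t - s)) / (t - s)) ≤ b * Gp l t) ∨
      (Gd l s ≤ -(kc T / 4 * (t - s)) ∧ 1 + (b * kc T / 24 * (t - s) ^ 2 -
        (A + 4 * (K + kc T) * o * (t - s)) / (t - s)) ≤ b * Gp l s) := by
  have k0 := kc_pos T
  have L0 := sub_pos.2 hst
  have kL := mul_pos k0 L0
  have KL := mul_nonneg K0 L0.le
  have m := Gd_mono h hT h0 hst.le ht
  have u := abs_le.1 (hK s t h0 hst.le ht)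
  by_cases c1 : (K + kc T) * (t - s) ≤ Gd l s
  · refine .inl ⟨by linarith, ?_⟩
    have a := big_up h hT hb h0 hst.le ht hD (by linarith)
    rw [abs_of_nonneg (show 0 ≤ Gd l s by linarith),
      abs_of_nonneg (show 0 ≤ Gd l t by linarith)] at hδ
    have e := mul_le_mul_of_nonneg_left
      (show Gd l s + Gd l t ≤ 3 * Gd l s by linarith [u.2]) ho
    linarith [aux_big (A := A) (g := b * Gp l t - 1) hb k0 (show kc T ≤ K + kc T by linarith) L0 ho
      c1 hκ h48 (by linarith)]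
  by_cases c2 : (K + kc T) * (t - s) ≤ -Gd l t
  · refine .inr ⟨by linarith, ?_⟩
    have a := big_dn h hT hb h0 hst.le ht hD (by linarith)
    rw [abs_of_nonpos (show Gd l s ≤ 0 by linarith),
      abs_of_nonpos (show Gd l t ≤ 0 by linarith)] at hδ
    have e := mul_le_mul_of_nonneg_left
      (show -Gd l s + -Gd l t ≤ 3 * -Gd l t by linarith [u.2]) ho
    linarith [aux_big (A := A) (g := b * Gp l s - 1) hb k0 (show kc T ≤ K + kc T by linarith) L0 ho
      c2 hκ h48 (by linarith)]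
  have e1 : |Gd l s| ≤ 2 * ((K + kc T) * (t - s)) := abs_le.2 ⟨by linarith [u.2], by linarith⟩
  have e2 : |Gd l t| ≤ 2 * ((K + kc T) * (t - s)) := abs_le.2 ⟨by linarith, by linarith [u.2]⟩
  have e := mul_le_mul_of_nonneg_left (add_le_add e1 e2) ho
  exact unstable_end h hT hb h0 hst ht hD hκ (by linarith)

theorem aux_num {o m τ0 Dm D x y : ℝ} (ho : 0 ≤ o) (hm : 0 < m) (τp : 0 < τ0) (h2 : 16 * τ0 ≤ x)
    (h32 : 32 * o ≤ m) (hτ : 2 * y < m * τ0) (d1 : x / 4 ≤ D) (d2 : D ≤ Dm) :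
    0 < τ0 + 8 * o * D / m ∧ 2 * (τ0 + 8 * o * D / m) ≤ D ∧
      τ0 + 8 * o * D / m ≤ τ0 + 8 * o * Dm / m ∧
      ∀ Z, τ0 + 8 * o * D / m ≤ Z → y + 2 * o * D + 2 * o * Z < m * Z := by
  have D0 : 0 ≤ D := by linarith
  have e : m * (8 * o * D / m) = 8 * o * D := by field_simp
  have p0 : 0 ≤ 8 * o * D / m := by positivity
  have p1 : 8 * o * D / m ≤ D / 4 := by
    rw [div_le_iff₀ hm]; nlinarith [mul_le_mul_of_nonneg_right h32 D0]
  refine ⟨by linarith, by linarith, by gcongr, fun Z hZ => ?_⟩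
  have Z0 : 0 ≤ Z := by linarith
  have q1 := mul_le_mul_of_nonneg_left hZ hm.le
  have q2 := mul_le_mul_of_nonneg_right h32 Z0
  have q3 := mul_nonneg ho D0
  have q4 := mul_nonneg ho Z0
  rw [mul_add, e] at q1
  linarith

set_option maxHeartbeats 800000 in
/-- **length of a gap `(p, q)`**: one-sided (E1) with the floor on the two runs -/
theorem len2 (h : AP l) (hT : TT l ≤ T) {b δ θ η lam o m A τ0 Dm K : ℝ} {σ : ℕ → ℝ}
    {Gn : ℕ → Prop} {u v p q : ℕ} (hK : Lp l K) (K0 : 0 ≤ K) (hb : 0 ≤ b)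
    (mem : ∀ i, u ≤ i → i ≤ v → 0 ≤ σ i ∧ σ i ≤ TT l)
    (mono : ∀ i j, u ≤ i → i ≤ j → j ≤ v → σ i ≤ σ j) (δ0 : 0 ≤ δ)
    (gap : ∀ i j, u ≤ i → i < j → j ≤ v → Gn i → Gn j → (∀ k, i < k → k < j → ¬ Gn k) →
      lvr 1 l (σ j) ≤ lvr 1 l (σ i) + (δ + θ * (σ j - σ i)))
    (hu : u ≤ p) (hpq : p < q) (hv : q ≤ v) (gp : Gn p) (gq : Gn q)
    (hbad : ∀ k, p < k → k < q → ¬ Gn k)
    (up : ∀ i j, u ≤ i → i ≤ j → j ≤ v → Gn i → Gn j → rho b l (σ j) - rho b l (σ i) ≤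
      η + o * (|Gd l (σ i)| + |Gd l (σ j)|) + lam * (σ j - σ i) -
        m * (lvr 1 l (σ j) - lvr 1 l (σ i)))
    (drop : -(A + o * (|Gd l (σ p)| + |Gd l (σ q)|)) ≤ rho b l (σ q) - rho b l (σ p))
    (gu : Gn u) (gv : Gn v) (hup : lvr 1 l (σ q) + (τ0 + 8 * o * Dm / m) ≤ lvr 1 l (σ v))
    (hdn : lvr 1 l (σ u) + (τ0 + 8 * o * Dm / m) ≤ lvr 1 l (σ p))
    (Dp : |Gd l (σ p)| ≤ Dm) (Dq : |Gd l (σ q)| ≤ Dm) (ho : 0 ≤ o) (hm : 0 < m) (τp : 0 < τ0)
    (hθ : 16 * θ ≤ kc T) (h1 : 16 * δ ≤ kc T * (σ q - σ p)) (h2 : 16 * τ0 ≤ kc T * (σ q - σ p))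
    (h48 : 48 * o ≤ b * (σ q - σ p) ^ 2) (h32 : 32 * o ≤ m)
    (hτ : 2 * (η + 22 * b * δ ^ 3 / kc T ^ 2) < m * τ0) :
    b * kc T / 24 * (σ q - σ p) ^ 3 < A + (lam + 5 * (K + kc T) * o) * (σ q - σ p) := by
  classical
  by_contra c3
  rw [not_lt] at c3
  have k0 := kc_pos T
  have L0 : 0 < σ q - σ p := by
    by_contra hc
    have := mul_nonpos_of_nonneg_of_nonpos k0.le (not_lt.1 hc)
    linarith
  have a1 := gap p q hu hpq hv gp gq hbad
  have a4 := mul_le_mul_of_nonneg_right hθ L0.le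
  have mp := mem p hu (hpq.le.trans hv)
  have mq := mem q (hu.trans hpq.le) hv
  have a2 := unst h hT hK hb mp.1 (sub_pos.1 L0) mq.2 a1 (by linarith) ho K0 h48 drop
  have ko := mul_nonneg k0.le ho
  have g1 : lam + K * o ≤ b * kc T / 24 * (σ q - σ p) ^ 2 -
      (A + 4 * (K + kc T) * o * (σ q - σ p)) / (σ q - σ p) := by
    rw [le_sub_comm, div_le_iff₀ L0]
    linarith [mul_nonneg ko L0.le]
  have θ12 : 12 * θ ≤ kc T := by linarith
  have kL := mul_pos k0 L0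
  have num : ∀ D : ℝ, kc T / 4 * (σ q - σ p) ≤ D → D ≤ Dm → 0 < τ0 + 8 * o * D / m ∧
      2 * (τ0 + 8 * o * D / m) ≤ D ∧ τ0 + 8 * o * D / m ≤ τ0 + 8 * o * Dm / m ∧
      ∀ Z, τ0 + 8 * o * D / m ≤ Z →
        η + 22 * b * δ ^ 3 / kc T ^ 2 + 2 * o * D + 2 * o * Z < m * Z := fun D d1 d2 =>
    aux_num ho hm τp h2 h32 hτ (by linarith) d2
  rcases a2 with ⟨d1, d2⟩ | ⟨d1, d2⟩
  · obtain ⟨t0, t1, t2, t3⟩ := num _ d1 ((le_abs_self _).trans Dq)
    set τ := τ0 + 8 * o * Gd l (σ q) / m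
    have hup' : ∃ j, q ≤ j ∧ j ≤ v ∧ Gn j ∧ lvr 1 l (σ q) + τ ≤ lvr 1 l (σ j) :=
      ⟨v, hv, le_rfl, gv, by linarith⟩
    obtain ⟨j1, j2, j3, j4⟩ := Nat.find_spec hup'
    set j := Nat.find hup' with hj
    have qj : q < j := lt_of_le_of_ne j1 fun e => by rw [← e] at j4; linarith
    have i1 : q ≤ Nat.findGreatest Gn (j - 1) := Nat.le_findGreatest (by omega) gq
    have i2 : Nat.findGreatest Gn (j - 1) ≤ j - 1 := Nat.findGreatest_le _
    have i3 : Gn (Nat.findGreatest Gn (j - 1)) := Nat.findGreatest_spec (by omega : q ≤ j - 1) gq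
    have i4 : ∀ k, Nat.findGreatest Gn (j - 1) < k → k < j → ¬ Gn k := fun k a c =>
      Nat.findGreatest_is_greatest a (by omega)
    set i := Nat.findGreatest Gn (j - 1)
    have i5 : lvr 1 l (σ i) ≤ lvr 1 l (σ q) + τ := by
      by_contra hc
      exact Nat.find_min hup' (m := i) (by omega) ⟨i1, by omega, i3, (not_le.1 hc).le⟩
    have uq := hu.trans hpq.le
    have mj := mem j (by omega) j2
    have f := floor_up h hT (g := lam + K * o) hb mq.1 (mono q i uq i1 (by omega))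
      (mono i j (by omega) (by omega) j2) mj.2 δ0 θ12 i5
      (gap i j (by omega) (by omega) j2 i3 j3 i4) t1 (by linarith)
    have e1 := up q j uq j1 j2 gq j3
    have e2 := hK _ _ mq.1 (mono q j uq j1 j2) mj.2
    have e3 : |Gd l (σ j)| ≤ |Gd l (σ q)| + (K * (σ j - σ q) + 2 * (lvr 1 l (σ j) - lvr 1 l (σ q))) := by
      linarith [abs_sub_abs_le_abs_sub (Gd l (σ j)) (Gd l (σ q))]
    rw [abs_of_nonneg (show 0 ≤ Gd l (σ q) by linarith)] at e1 e3
    have e4 := mul_le_mul_of_nonneg_left e3 ho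
    linarith [t3 (lvr 1 l (σ j) - lvr 1 l (σ q)) (by linarith)]
  · obtain ⟨t0, t1, t2, t3⟩ := num (-Gd l (σ p)) (by linarith) ((neg_le_abs _).trans Dp)
    set τ := τ0 + 8 * o * -Gd l (σ p) / m
    set P : ℕ → Prop := fun i => u ≤ i ∧ Gn i ∧ lvr 1 l (σ i) + τ ≤ lvr 1 l (σ p) with hP
    obtain ⟨i1, i3, i4⟩ : P (Nat.findGreatest P p) :=
      Nat.findGreatest_spec hu ⟨le_rfl, gu, by linarith⟩
    have i2 : Nat.findGreatest P p ≤ p := Nat.findGreatest_le _
    have i5 : ∀ k, Nat.findGreatest P p < k → k ≤ p → ¬ P k := fun k a c =>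
      Nat.findGreatest_is_greatest a c
    set i := Nat.findGreatest P p
    have ip : i < p := lt_of_le_of_ne i2 fun e => by rw [e] at i4; linarith
    have ex : ∃ j, i < j ∧ Gn j := ⟨p, ip, gp⟩
    obtain ⟨j1, j2⟩ := Nat.find_spec ex
    have j3 : Nat.find ex ≤ p := Nat.find_min' ex ⟨ip, gp⟩
    have j4 : ∀ k, i < k → k < Nat.find ex → ¬ Gn k := fun k a c e => Nat.find_min ex c ⟨a, e⟩
    set j := Nat.find ex
    have j5 : lvr 1 l (σ p) ≤ lvr 1 l (σ j) + τ := by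
      by_contra hc
      exact i5 j j1 j3 ⟨by omega, j2, (not_le.1 hc).le⟩
    have pv := hpq.le.trans hv
    have mi := mem i i1 (by omega)
    have f := floor_down h hT (g := lam + K * o) hb mi.1
      (mono i j i1 j1.le (by omega)) (mono j p (by omega) j3 pv) mp.2 δ0 θ12 j5
      (gap i j i1 j1 (by omega) i3 j2 j4) (by linarith) (by linarith)
    have e1 := up i p i1 i2 pv i3 gp
    have e2 := hK _ _ mi.1 (mono i p i1 i2 pv) mp.2
    have e3 : |Gd l (σ i)| ≤ |Gd l (σ p)| + (K * (σ p - σ i) + 2 * (lvr 1 l (σ p) - lvr 1 l (σ i))) := by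
      rw [abs_sub_comm] at e2
      linarith [abs_sub_abs_le_abs_sub (Gd l (σ i)) (Gd l (σ p))]
    rw [abs_of_nonpos (show Gd l (σ p) ≤ 0 by linarith)] at e1 e3
    have e4 := mul_le_mul_of_nonneg_left e3 ho
    linarith [t3 (lvr 1 l (σ p) - lvr 1 l (σ i)) (by linarith)]

end

end Crest.Agent.T156.L0.G89
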