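import Crest.Agent.T156.GapA_89
import Crest.Agent.T156.ClTh_9

/-!
# Row 156, block (L): all gaps are short (weighted longest gap) (helper89)
-/

set_option autoImplicit false

noncomputable section

namespace Crest.Agent.T156.Alt.G89

open Real Finset
open Crest.Agent.R164.GC Crest.Agent.R339.B Crest.Agent.R339.Var Crest.Agent.T157.Pf
open Crest.Agent.T156.Alt.Mp9
open Crest.Agent.T156.L0 (kc kc_pos)

/-- time length between two nodes -/
def ds (M : Md) (m : ℕ) (a : ℝ) (i k : ℕ) : ℝ := sb M m a (k + 1) - sb M m a (i + 1)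
/-- `|Γ''|` of the mean profile at a node -/
def gd (M : Md) (S : Sc) (m : ℕ) (a T : ℝ) (k : ℕ) : ℝ :=
  |L0.Gd (lb M S m a T) (sb M m a (k + 1))|

/-- node data on `[U, V]` -/
structure GH (S : Sc) (M : Md) (m : ℕ) (a T : ℝ) (Gn : ℕ → Prop) (U V : ℕ) (e o cu al : ℕ → ℝ)
    (la be θ : ℝ) : Prop where
  A : At S M m a T
  hU : S.jl < U
  hV : V < S.J
  la0 : 0 ≤ la
  be0 : 0 ≤ be
  θ0 : 0 ≤ θ
  c0 : ∀ y, 0 ≤ cu y
  e1 : ∀ i k, U ≤ i → i ≤ k → k ≤ V → Gn i → Gn k → |res M S m a T k - res M S m a T i| ≤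
    e i + o i * gd M S m a T i + (e k + o k * gd M S m a T k) +
      (la * ds M m a i k + ∑ y ∈ Ioo i k, (M.z y - M.z (y - 1)) * cu y)
  lab : ∀ i k, Nx Gn U V i k → i < k → M.z (k - 1) - M.z i ≤ θ * ds M m a i k
  cg : ∀ y, U ≤ y → y ≤ V → Gn y → cu y ≤ al y
  cb : ∀ i k, Nx Gn U V i k → ∀ y, i < y → y < k → cu y ≤ al y + be * ds M m a i k ^ 2

/-- the window `[i, j]` around the gap `(p, q)` and its numbers -/
structure Wn (S : Sc) (M : Md) (m : ℕ) (a T : ℝ) (Gn : ℕ → Prop) (U V : ℕ) (e o al W : ℕ → ℝ)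
    (la be θ ε Kw : ℝ) (p q i j : ℕ) (η α o' μ Mc τ0 Dm w : ℝ) : Prop where
  i0 : U ≤ i
  ip : i ≤ p
  qj : q ≤ j
  j1 : j ≤ V
  gi : Gn i
  gj : Gn j
  dn : M.z i + (τ0 + o' * Dm / (ε * μ)) ≤ M.z p
  up : M.z q + (τ0 + o' * Dm / (ε * μ)) ≤ M.z j
  nd : ∀ y, i ≤ y → y ≤ j → W y ≤ Kw * W p ∧ al y ≤ α ∧ (Gn y → e y ≤ η ∧ o y ≤ o')
  fl : ∀ x y, i ≤ x → x ≤ y → y ≤ j → μ * (M.z y - M.z x) ≤ M.H y - M.H x
  ce : M.H q - M.H p ≤ Mc * (M.z q - M.z p)
  Dp : gd M S m a T p ≤ Dm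
  Dq : gd M S m a T q ≤ Dm
  w0 : 0 < w
  w1 : w ^ 2 ≤ W p
  μ0 : 0 < μ
  τp : 0 < τ0
  nn : 0 ≤ η ∧ 0 ≤ α ∧ 0 ≤ o' ∧ 0 ≤ Mc
  n1 : θ * (1 + be * (1 + Kw)) ≤ ε
  n2 : S.v ≤ ε * w ∧ τ0 ≤ ε * w
  n3 : la + (α + Mc) * θ + o' ≤ ε * w ^ 2
  n4 : α + o' ≤ ε * μ
  n5 : η + Mc * S.v ≤ ε * w ^ 3
  n6 : η + 1 / (m + 1) + S.v ^ 3 ≤ ε * (μ * τ0)

variable {S : Sc} {M : Md} {m : ℕ} {a T : ℝ} {Gn : ℕ → Prop} {U V : ℕ} {e o cu al W : ℕ → ℝ}
  {la be θ : ℝ}

theorem ds_nn (A : At S M m a T) {i k : ℕ} (h : i ≤ k) : 0 ≤ ds M m a i k :=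
  sub_nonneg.2 (A.sb_mono (by omega))

theorem GH.one (G : GH S M m a T Gn U V e o cu al la be θ) {r k : ℕ} {α B : ℝ}
    (n : Nx Gn U V r k) (h : r < k) (α0 : 0 ≤ α) (hα : ∀ y, r < y → y < k → al y ≤ α)
    (hB : ds M m a r k ^ 2 ≤ B) : ∑ y ∈ Ioo r k, (M.z y - M.z (y - 1)) * cu y ≤
      α * (M.z (k - 1) - M.z r) + be * B * θ * ds M m a r k := by
  have e1 : Ioo r k = Ioc r (k - 1) := by ext y; simp only [mem_Ioo, mem_Ioc]; omega
  have b1 := mul_le_mul_of_nonneg_left hB G.be0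
  have b0 : 0 ≤ be * B := mul_nonneg G.be0 ((sq_nonneg _).trans hB)
  calc _ ≤ ∑ y ∈ Ioo r k, (M.z y - M.z (y - 1)) * (α + be * B) := sum_le_sum fun y hy => by
        rw [mem_Ioo] at hy
        exact mul_le_mul_of_nonneg_left
          (by linarith [G.cb r k n y hy.1 hy.2, hα y hy.1 hy.2]) (G.A.dz_nn y)
    _ = (M.z (k - 1) - M.z r) * (α + be * B) := by
        rw [← sum_mul, e1, At.sum_dz M (by omega)]
    _ ≤ _ := by nlinarith [mul_le_mul_of_nonneg_left (G.lab r k n h) b0]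

/-- the label clock between two good nodes -/
theorem GH.clock (G : GH S M m a T Gn U V e o cu al la be θ) {i j : ℕ} {α B : ℝ} (hi : U ≤ i)
    (hj : j ≤ V) (gi : Gn i) (α0 : 0 ≤ α) (hα : ∀ y, i ≤ y → y ≤ j → al y ≤ α)
    (hB : ∀ r k, Nx Gn U V r k → i ≤ r → k ≤ j → ds M m a r k ^ 2 ≤ B) :
    ∀ k, i ≤ k → k ≤ j → Gn k → ∑ y ∈ Ioc i k, (M.z y - M.z (y - 1)) * cu y ≤
      α * (M.z k - M.z i) + be * B * θ * ds M m a i k := by
  classical
  intro k
  induction k using Nat.strong_induction_on with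
  | _ k ih =>
  intro h1 h2 gk
  rcases h1.eq_or_lt with rfl | c
  · simp [ds]
  have i1 : i ≤ Nat.findGreatest Gn (k - 1) := Nat.le_findGreatest (by omega) gi
  have i2 : Nat.findGreatest Gn (k - 1) ≤ k - 1 := Nat.findGreatest_le _
  have i3 : Gn (Nat.findGreatest Gn (k - 1)) := Nat.findGreatest_spec (by omega : i ≤ k - 1) gi
  have i4 : ∀ y, Nat.findGreatest Gn (k - 1) < y → y < k → ¬ Gn y := fun y a c =>
    Nat.findGreatest_is_greatest a (by omega)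
  set r := Nat.findGreatest Gn (k - 1)
  have n : Nx Gn U V r k := ⟨by omega, by omega, by omega, i3, gk, i4⟩
  have a1 := ih r (by omega) i1 (by omega) i3
  have a2 := G.one n (by omega) α0 (fun y u1 u2 => hα y (by omega) (by omega)) (hB r k n i1 h2)
  have a3 := mul_le_mul_of_nonneg_left ((G.cg k (by omega) (by omega) gk).trans (hα k h1 h2))
    (G.A.dz_nn k)
  rw [← sum_Ioc_consecutive _ i1 (show r ≤ k by omega), ← Ioo_insert_right (show r < k by omega),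
    sum_insert (by simp)]
  unfold ds at *
  linarith

theorem rho_eq (A : At S M m a T) {k : ℕ} (h1 : S.jl < k) (h2 : k ≤ S.Jp) :
    L0.rho M.b (lb M S m a T) (sb M m a (k + 1)) =
      M.b * res M S m a T k + M.b * M.rb m a k / (m + 1) - M.H k := by
  have a1 := A.Mf_b h1 h2
  simp only [Rig.Mf] at a1
  simp only [L0.rho]
  linarith

theorem aux_fin {k K C ε L w η Mc v la α θ o be Kw b : ℝ} (k0 : 0 < k) (K0 : 0 ≤ K) (C1 : 1 ≤ C)
    (hε : 120 * C * (1 + K + k) * ε ≤ k) (w0 : 0 < w) (hL : w ≤ L) (b1 : 1 ≤ b) (ε0 : 0 ≤ ε)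
    (η0 : 0 ≤ η) (M0 : 0 ≤ Mc) (v0 : 0 ≤ v) (l0 : 0 ≤ la) (α0 : 0 ≤ α) (θ0 : 0 ≤ θ) (o0 : 0 ≤ o)
    (n1 : θ * (1 + be * (1 + Kw)) ≤ ε) (n3 : la + (α + Mc) * θ + o ≤ ε * w ^ 2)
    (n5 : η + Mc * v ≤ ε * w ^ 3) :
    C * (2 * η + la * L + (α * (θ * L) + be * L ^ 2 * θ * L)) + Mc * (C * v + θ * L) +
      (C * (la + be * (Kw * L ^ 2) * θ) + 5 * (K + k) * (C * o)) * L ≤ b * k / 24 * L ^ 3 := by
  have L0 : 0 < L := w0.trans_le hL
  have L3 : 0 < L ^ 3 := by positivity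
  have C0 : 0 ≤ C := by linarith
  have p2 : ε * w ^ 2 ≤ ε * L ^ 2 := by gcongr
  have p3 : ε * w ^ 3 ≤ ε * L ^ 3 := by gcongr
  have q1 := mul_nonneg M0 v0
  have q2 := mul_nonneg α0 θ0
  have q3 := mul_nonneg M0 θ0
  have a1 : C * (2 * η + Mc * v) ≤ C * (2 * (ε * L ^ 3)) := by gcongr; linarith
  have a2 : C * L * (2 * la + α * θ + Mc * θ) ≤ C * L * (2 * (ε * L ^ 2)) := by gcongr; linarith
  have a3 : Mc * θ * L ≤ C * (Mc * θ * L) := le_mul_of_one_le_left (by positivity) C1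
  have a4 : C * L ^ 3 * (θ * (be * (1 + Kw))) ≤ C * L ^ 3 * ε := by gcongr; linarith
  have a5 : 5 * (K + k) * C * L * o ≤ 5 * (K + k) * C * L * (ε * L ^ 2) := by gcongr; linarith
  have a6 := mul_le_mul_of_nonneg_right hε L3.le
  have a7 : k * L ^ 3 ≤ b * (k * L ^ 3) := le_mul_of_one_le_left (by positivity) b1
  linarith

theorem aux_tau {k C ε η x v b y : ℝ} (k0 : 0 < k) (C1 : 1 ≤ C) (b1 : b ≤ C) (η0 : 0 ≤ η)
    (x0 : 0 ≤ x) (v0 : 0 ≤ v) (y0 : 0 < y) (hε : (16 * C + 100 * C ^ 4 / k ^ 2) * ε ≤ 1)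
    (n6 : η + x + v ^ 3 ≤ ε * y) :
    2 * (C * (2 * η) + C * x + 22 * b * (C * v) ^ 3 / k ^ 2) < y / 2 := by
  have C0 : 0 ≤ C := by linarith
  have v3 : 0 ≤ v ^ 3 := by positivity
  have a1 : C * (2 * η + x) ≤ C * (2 * (ε * y)) := by gcongr; linarith
  have a2 : 22 * b * (C * v) ^ 3 / k ^ 2 ≤ 22 * (C ^ 4 / k ^ 2) * (ε * y) :=
    calc _ ≤ 22 * C * (C * v) ^ 3 / k ^ 2 := by gcongr
      _ = 22 * (C ^ 4 / k ^ 2) * v ^ 3 := by ring
      _ ≤ _ := by gcongr; linarith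
  have a3 := mul_le_mul_of_nonneg_right hε y0.le
  have ε0 : 0 ≤ ε * y := by linarith
  have a4 : 0 ≤ C * (ε * y) := by positivity
  have a5 : 0 ≤ C ^ 4 / k ^ 2 * (ε * y) := by positivity
  have e : (16 * C + 100 * C ^ 4 / k ^ 2) * ε * y =
    16 * (C * (ε * y)) + 100 * (C ^ 4 / k ^ 2 * (ε * y)) := by ring
  linarith

set_option maxHeartbeats 800000 in
/-- **all gaps are short** -/
theorem gapW (T0 C0 : ℝ) : ∃ ε : ℝ, 0 < ε ∧ ε ≤ 1 ∧ ∀ {S : Sc} {M : Md} {m : ℕ} {a T : ℝ}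
    {Gn : ℕ → Prop} {U V : ℕ} {e o cu al W : ℕ → ℝ} {la be θ Kw : ℝ},
    GH S M m a T Gn U V e o cu al la be θ → S.C ≤ C0 → T ≤ T0 → (∀ k, 0 < W k) → 0 ≤ Kw →
    (∀ p q, Nx Gn U V p q → W p < ds M m a p q ^ 2 → ∃ i j η α o' μ Mc τ0 Dm w,
      Wn S M m a T Gn U V e o al W la be θ ε Kw p q i j η α o' μ Mc τ0 Dm w) →
    ∀ p q, Nx Gn U V p q → ds M m a p q ^ 2 ≤ W p := by
  classical
  obtain ⟨K, K1, hK⟩ := L0.Gd_up T0
  have k0 := kc_pos T0
  set C1 := max C0 1 with hC1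
  have c1 : 1 ≤ C1 := le_max_right _ _
  have P1 : 0 < 120 * C1 * (1 + K + kc T0) := by positivity
  have P2 : 0 < 16 * C1 + 100 * C1 ^ 4 / kc T0 ^ 2 := by positivity
  obtain ⟨ε, ε0, ε1, ε2⟩ : ∃ ε : ℝ, 0 < ε ∧ 120 * C1 * (1 + K + kc T0) * ε ≤ kc T0 ∧
      (16 * C1 + 100 * C1 ^ 4 / kc T0 ^ 2) * ε ≤ 1 :=
    ⟨min (kc T0 / (120 * C1 * (1 + K + kc T0))) (1 / (16 * C1 + 100 * C1 ^ 4 / kc T0 ^ 2)),
      by positivity, by rw [← le_div_iff₀' P1]; exact min_le_left _ _,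
      by rw [← le_div_iff₀' P2]; exact min_le_right _ _⟩
  have ε3 : 120 * (C1 * ε) ≤ kc T0 := by
    nlinarith [mul_nonneg (mul_nonneg (show 0 ≤ C1 by linarith) ε0.le)
      (show 0 ≤ K + kc T0 by linarith)]
  have ε4 : 120 * (C1 * ε) ≤ 1 := by
    refine le_of_mul_le_mul_right ?_ (show 0 < 1 + K + kc T0 by linarith)
    linarith
  have ε5 : ε ≤ C1 * ε := le_mul_of_one_le_left ε0.le c1
  refine ⟨ε, ε0, by linarith, fun {S M m a T Gn U V e o cu al W la be θ Kw} G hC hT W0 Kw0 hw => ?_⟩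
  by_contra hn
  push Not at hn
  obtain ⟨p0, q0, n0, c0⟩ := hn
  have A := G.A
  have mem : ∀ r k, Nx Gn U V r k → (r, k) ∈ (range (V + 1) ×ˢ range (V + 1)).filter
      fun x : ℕ × ℕ => Nx Gn U V x.1 x.2 := fun r k n => by
    obtain ⟨n1, n2, n3, -⟩ := id n
    simp only [mem_filter, mem_product, mem_range]
    exact ⟨⟨by omega, by omega⟩, n⟩
  obtain ⟨⟨p, q⟩, hx, mx⟩ := exists_max_image _ (fun x : ℕ × ℕ => ds M m a x.1 x.2 ^ 2 / W x.1)
    ⟨_, mem _ _ n0⟩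
  have n : Nx Gn U V p q := (mem_filter.1 hx).2
  have r1 : 1 < ds M m a p q ^ 2 / W p :=
    ((one_lt_div (W0 p0)).2 c0).trans_le (mx _ (mem _ _ n0))
  have c : W p < ds M m a p q ^ 2 := (one_lt_div (W0 p)).1 r1
  obtain ⟨i, j, η, α, o', μ, Mc, τ0, Dm, w, X⟩ := hw p q n c
  obtain ⟨n1, n2, n3, gp, gq, hbad⟩ := id n
  obtain ⟨η0, α0, o0, M0⟩ := X.nn
  have hL0 := ds_nn A n2
  have wL : w ≤ ds M m a p q := (pow_le_pow_iff_left₀ X.w0.le hL0 two_ne_zero).1 (by linarith [X.w1])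
  have w0 := X.w0
  have pq : p < q := lt_of_le_of_ne n2 fun h => by
    subst h; simp only [ds, sub_self] at wL; linarith
  have hB : ∀ r k, Nx Gn U V r k → i ≤ r → k ≤ j → ds M m a r k ^ 2 ≤ Kw * ds M m a p q ^ 2 :=
    fun r k nr u1 u2 => by
    have b1 := mx _ (mem _ _ nr)
    simp only at b1
    rw [div_le_div_iff₀ (W0 r) (W0 p)] at b1
    have b2 := mul_le_mul_of_nonneg_left (X.nd r u1 (nr.2.1.trans u2)).1 (sq_nonneg (ds M m a p q))
    refine le_of_mul_le_mul_right ?_ (W0 p)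
    linarith
  have hU := G.hU
  have hV := G.hV
  have J1 := A.cl.i3
  have i0 := X.i0
  have ip := X.ip
  have qj := X.qj
  have j1 := X.j1
  obtain ⟨b1, b2⟩ := A.b_mem
  have CC : S.C ≤ C1 := hC.trans (le_max_left _ _)
  have bC : M.b ≤ C1 := b2.trans CC
  have ok := A.okb
  have v0 := v_pos A.cl
  have lv : ∀ k, i ≤ k → k ≤ j → lvr 1 (lb M S m a T) (sb M m a (k + 1)) = M.z k :=
    fun k u1 u2 => A.lvb_node (by omega) (by omega)
  have E1 : ∀ x y, i ≤ x → x ≤ y → y ≤ j → Gn x → Gn y → ∀ Z,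
      ∑ t ∈ Ioo x y, (M.z t - M.z (t - 1)) * cu t ≤ Z →
      |M.b * res M S m a T y - M.b * res M S m a T x| ≤ C1 * (2 * η + la * ds M m a x y + Z) +
        C1 * o' * (gd M S m a T x + gd M S m a T y) := fun x y u1 u2 u3 gx gy Z hZ => by
    have d1 := G.e1 x y (by omega) u2 (by omega) gx gy
    obtain ⟨d2, d3⟩ := (X.nd x u1 (by omega)).2.2 gx
    obtain ⟨d4, d5⟩ := (X.nd y (by omega) u3).2.2 gy
    have d6 := mul_le_mul_of_nonneg_right d3 (show 0 ≤ gd M S m a T x from abs_nonneg _)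
    have d7 := mul_le_mul_of_nonneg_right d5 (show 0 ≤ gd M S m a T y from abs_nonneg _)
    rw [← mul_sub, abs_mul, abs_of_nonneg (by linarith)]
    refine (mul_le_mul bC (show _ ≤ 2 * η + la * ds M m a x y + Z +
      o' * (gd M S m a T x + gd M S m a T y) by linarith) (abs_nonneg _) (by linarith)).trans_eq ?_
    ring
  have εw := mul_le_mul_of_nonneg_left wL ε0.le
  have kL := mul_le_mul_of_nonneg_right ε3 hL0
  have μ0 := X.μ0
  have αθ := mul_nonneg α0 G.θ0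
  have Mθ := mul_nonneg M0 G.θ0
  have hθ : θ ≤ ε := by
    have := X.n1
    nlinarith [mul_nonneg G.θ0 (mul_nonneg G.be0 (show 0 ≤ 1 + Kw by linarith))]
  have Dm0 : 0 ≤ Dm := (abs_nonneg _).trans X.Dp
  have hτ1 : 8 * (C1 * o') * Dm / (μ / 2) ≤ o' * Dm / (ε * μ) := by
    rw [div_le_div_iff₀ (by positivity) (by positivity)]
    nlinarith [mul_le_mul_of_nonneg_right ε4 (show 0 ≤ o' * Dm * μ by positivity),
      show 0 ≤ o' * Dm * μ by positivity]
  have cα : C1 * (α + o') ≤ μ / 120 := by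
    have := mul_le_mul_of_nonneg_left X.n4 (show 0 ≤ C1 by linarith)
    nlinarith [mul_le_mul_of_nonneg_right ε4 μ0.le]
  have cα1 := mul_nonneg (show 0 ≤ C1 by linarith) α0
  have co1 := mul_nonneg (show 0 ≤ C1 by linarith) o0
  have lab2 : ∀ x y, Nx Gn U V x y → x < y → M.z y ≤ M.z x + (C1 * S.v + θ * ds M m a x y) :=
    fun x y nx c => by
    have d1 := G.lab x y nx c
    have d2 := (A.cl.zs (y - 1) (by have := A.cl.i1; have := nx.1; omega)
      (by have := nx.2.2.1; omega)).2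
    rw [show y - 1 + 1 = y by omega] at d2
    linarith [mul_le_mul_of_nonneg_right CC v0.le]
  have R := L0.G89.len2 (T := T0) (L0.ap_of_ok ok.1) (ok.2.trans_le hT) (b := M.b)
    (δ := C1 * S.v) (θ := θ) (η := C1 * (2 * η) + C1 * (1 / (m + 1)))
    (lam := C1 * (la + be * (Kw * ds M m a p q ^ 2) * θ)) (o := C1 * o') (m := μ / 2)
    (A := C1 * (2 * η + la * ds M m a p q + (α * (θ * ds M m a p q) +
      be * ds M m a p q ^ 2 * θ * ds M m a p q)) + Mc * (C1 * S.v + θ * ds M m a p q))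
    (τ0 := τ0) (Dm := Dm) (K := K) (σ := fun k => sb M m a (k + 1)) (Gn := Gn) (u := i) (v := j)
    (p := p) (q := q) (hK _ (L0.ap_of_ok ok.1) (ok.2.trans_le hT)) (by linarith) (by linarith)
    (fun k u1 u2 => by rw [ok.2]; exact A.sb_mem (by omega))
    (fun x y _ u2 _ => A.sb_mono (by omega)) (by positivity)
    (fun x y u1 u2 u3 gx gy nb => by
      rw [lv x u1 (by omega), lv y (by omega) u3]
      exact lab2 x y ⟨by omega, u2.le, by omega, gx, gy, nb⟩ u2)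
    ip pq qj gp gq hbad
    (fun x y u1 u2 u3 gx gy => by
      rw [lv x u1 (by omega), lv y (by omega) u3, rho_eq A (by omega) (by omega),
        rho_eq A (by omega) (by omega)]
      have d1 := G.clock (i := x) (j := j) (by omega) j1 gx α0
        (fun t v1 v2 => (X.nd t (by omega) v2).2.1) (fun r k nr v1 v2 => hB r k nr (by omega) v2)
        y u2 u3 gy
      have d2 := (abs_le.1 (E1 x y u1 u2 u3 gx gy _ ((sum_le_sum_of_subset_of_nonneg
        Ioo_subset_Ioc_self fun t _ _ => mul_nonneg (A.dz_nn t) (G.c0 t)).trans d1))).2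
      obtain ⟨t1, -⟩ := A.tail_mem (k := x) (A.jp_le (by omega))
      obtain ⟨-, t4⟩ := A.tail_mem (k := y) (A.jp_le (by omega))
      rw [d_top A.cl (by omega) (A.jp_le (by omega))] at t1 t4
      have t5 : S.C / (m + 1) ≤ C1 * (1 / (m + 1)) := by rw [mul_one_div]; gcongr
      have d3 := X.fl x y u1 u2 u3
      have d4 := mul_le_mul_of_nonneg_right (show C1 * α ≤ μ / 2 by linarith)
        (sub_nonneg.2 (A.cl.leg.zm u2))
      simp only [gd, ds] at d2 ⊢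
      linarith)
    (by
      rw [rho_eq A (by omega) (by omega), rho_eq A (by omega) (by omega)]
      have d1 := G.one n pq α0 (fun y u1 u2 => (X.nd y (by omega) (by omega)).2.1) le_rfl
      have d0 := mul_le_mul_of_nonneg_left (G.lab p q n pq) α0
      have d2 := (abs_le.1 (E1 p q ip n2 qj gp gq (α * (θ * ds M m a p q) +
        be * ds M m a p q ^ 2 * θ * ds M m a p q) (by linarith))).1
      have d3 := X.ce.trans (mul_le_mul_of_nonneg_left (show M.z q - M.z p ≤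
        C1 * S.v + θ * ds M m a p q by linarith [lab2 p q n pq]) M0)
      have d4 : M.b * M.rb m a p / (m + 1) ≤ M.b * M.rb m a q / (m + 1) := by
        have := rb_mono (M := M) (a := a) A.m_pos n2
        gcongr
      simp only [gd] at d2
      linarith)
    X.gi X.gj (by rw [lv q (by omega) qj, lv j (by omega) le_rfl]; linarith [X.up])
    (by rw [lv i le_rfl (by omega), lv p ip (by omega)]; linarith [X.dn]) X.Dp X.Dq co1
    (by positivity) X.τp (by linarith)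
    (by
      have := mul_le_mul_of_nonneg_left (X.n2.1.trans εw) (show 0 ≤ C1 by linarith)
      have := mul_nonneg (show 0 ≤ C1 by linarith) v0.le
      unfold ds at *; linarith)
    (by
      have := mul_le_mul_of_nonneg_right ε5 hL0
      have := X.τp
      have := X.n2.2
      unfold ds at *; linarith)
    (by
      have d1 : ε * w ^ 2 ≤ ε * ds M m a p q ^ 2 := by gcongr
      have d2 := mul_le_mul_of_nonneg_left (show o' ≤ ε * ds M m a p q ^ 2 by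
        linarith [X.n3, G.la0]) (show 0 ≤ C1 by linarith)
      have d3 := mul_le_mul_of_nonneg_right ε4 (sq_nonneg (ds M m a p q))
      have d4 := mul_le_mul_of_nonneg_right b1 (sq_nonneg (ds M m a p q))
      unfold ds at *; linarith)
    (by linarith)
    (by
      have := aux_tau k0 c1 bC η0 (show (0 : ℝ) ≤ 1 / (m + 1) by positivity) v0.le
        (mul_pos μ0 X.τp) ε2 X.n6
      linarith)
  have F := aux_fin k0 (by linarith) c1 ε1 w0 wL b1 ε0.le η0 M0 v0.le G.la0 α0 G.θ0 o0 X.n1 X.n3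
    X.n5
  unfold ds at *
  linarith

end Crest.Agent.T156.Alt.G89

end
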