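import Crest.Agent.T156.TopQ_25
import Crest.Agent.T156.ClE1b_61

/-!
# Row 156 (helper5): two nodes at the top end of the plateau

The first cavity equation in difference form with all path sizes bounded by `N 2`.
-/

set_option autoImplicit false
set_option linter.unusedSectionVars false

noncomputable section

namespace Crest.Agent.T156.Alt.Tq5

open MeasureTheory Real Set Finset
open Crest.Agent.T157.E Crest.Agent.T157.Casc Crest.Agent.T157.SL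
open Crest.Agent.T156.Cas Crest.Agent.T156.Cas.Sy41 Crest.Agent.T156.Cas.Q33
open Crest.Agent.T156.Alt.Md67 Crest.Agent.T156.Alt.Mp9 Crest.Agent.T156.Alt.E61

variable {S : Sc} {M : Md} {m : ℕ} {a T ms : ℝ} {u : ℕ → ℝ}

/-- total variance -/
def Ps (M : Md) (m : ℕ) (a : ℝ) : ℝ := ∑ k ∈ range M.N, M.dz m a k * U2 M m a k

theorem vv_le_U2 (hm : 0 < m) (k : ℕ) :
    r2 M m a k + 2 * vv (fun _ => 1) (M.L m a) (sl m) 0 (k + 1) ≤ U2 M m a k := by
  rw [U2_eq hm, Vn]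
  have : 0 ≤ tc (fun _ => 1) (M.L m a) (sl m) 0 (k + 1) := tc_nonneg _ _ _ _
  linarith

theorem pE_rs2 (hm : 0 < m) (k : ℕ) : pE (fun _ => 1) (M.L m a) 0 (fun g _ =>
    (Eg33.rs (fun _ => 1) (M.L m a) (sl m) 0 (k + 1) g - M.rb m a k) ^ 2) = r2 M m a k := by
  rw [r2, rh_eq (sl_cov hm)]
  exact Pe.pE_node1 Link33.wt1 (((eg_rr Link33.wt1 _ (sl m)).sub (Eg.const _)).pow 2) _ _ _

/-- **crude weak input** -/
theorem gm_crude (G : Lg M m a) (ht : Top M) (h0 : 0 < ms) (j : ℕ) {g : ℝ} (g0 : 0 ≤ g)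
    (hg : 18 * Ps M m a ≤ g ^ 2) : (eD M m a u ms).Gm (j + 1) g := by
  have hm := G.m0
  have w1 := Link33.wt1 (n := m)
  refine ⟨g0, fun φ h1 h2 => ?_⟩
  have φ0 : φ 0 = 0 := h2 0 eD_t0
  have hc : ∀ k ∈ range M.N, |M.dz m a k * φ (k + 1)| ≤ 3 * M.dz m a k := fun k hk => by
    rw [abs_mul, abs_of_nonneg (G.dz_nonneg k), mul_comm]
    refine mul_le_mul_of_nonneg_right ((h1 _).trans ((gz_le G h0 j (mem_range.1 hk)).trans ?_))
      (G.dz_nonneg k)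
    split_ifs
    exacts [pb_le G k, by norm_num]
  have s3 : ∑ k ∈ range M.N, 3 * M.dz m a k * 1 ≤ 3 := by
    simp only [mul_one, ← mul_sum]
    linarith [G.sum_dz_le (range M.N), G.a0]
  have key : ∀ F : ℕ → (NI (M.L m a) → ℝ) → Cube m → ℝ, (∀ k x, Eg fun p => F k p x) →
      (∀ k, pE (fun _ => 1) (M.L m a) 0 (fun p x => (F (k + 1) p x - M.rb m a k) ^ 2) ≤
        2 * U2 M m a k) →
      pE (fun _ => 1) (M.L m a) 0 (fun p x => ((eD M m a u ms).I fun y =>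
        φ y * (F y p x - (eD M m a u ms).q y)) ^ 2) ≤ g ^ 2 := fun F hF hU => by
    have e : ∀ p x, ((eD M m a u ms).I fun y => φ y * (F y p x - (eD M m a u ms).q y)) =
        ∑ k ∈ range M.N, M.dz m a k * φ (k + 1) * (F (k + 1) p x - M.rb m a k) := fun p x => by
      rw [I_eq G ht (by rw [φ0, zero_mul])]
      exact sum_congr rfl fun k hk => by rw [eD_q (mem_range.1 hk), mul_assoc]
    simp only [e]
    have e2 := fun k x => ((hF (k + 1) x).sub (Eg.const (M.rb m a k)))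
    refine (Eg33.pE_mono' w1 _ _ (fun x => (Eg.sum _ fun k _ => (e2 k x).const_mul _).pow 2)
      (fun x => (Eg.sum _ fun k _ => ((e2 k x).pow 2).const_mul _).const_mul _)
      fun p x => Eg33.wcs (ω := fun _ => 1) hc (fun _ _ => one_pos) _).trans ?_
    rw [Pe.pE_const_mul, Eg33.pE_sum' w1 _ _ _ fun k x => ((e2 k x).pow 2).const_mul _]
    simp only [Pe.pE_const_mul]
    have b : ∑ k ∈ range M.N, 3 * M.dz m a k / 1 * pE (fun _ => 1) (M.L m a) 0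
        (fun p x => (F (k + 1) p x - M.rb m a k) ^ 2) ≤ 6 * Ps M m a := by
      rw [Ps, mul_sum]
      refine sum_le_sum fun k _ => ?_
      nlinarith [mul_le_mul_of_nonneg_left (hU k) (G.dz_nonneg k)]
    have p0 : 0 ≤ Ps M m a := sum_nonneg fun k _ => mul_nonneg (G.dz_nonneg k) (U2_nn k)
    have s0 : 0 ≤ ∑ k ∈ range M.N, 3 * M.dz m a k * 1 := sum_nonneg fun k _ => by
      have := G.dz_nonneg k; positivity
    nlinarith [mul_le_mul_of_nonneg_left b s0, mul_le_mul_of_nonneg_right s3 p0]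
  have vv0 : ∀ k, 0 ≤ vv (fun _ => 1) (M.L m a) (sl m) 0 (k + 1) := fun k => vv_nonneg w1 _ _ _ _
  refine ⟨key (fun y p _ => Eg33.rs (fun _ => 1) (M.L m a) (sl m) 0 y p) (fun k _ => Eg33.eg_rs w1 _ _ _ _)
    fun k => ?_, key (fun y p x => Eg33.ms (fun _ => 1) (M.L m a) (sl m) 0 y p x)
    (fun k x => Eg33.eg_ms w1 _ _ _ _ x) fun k => ?_⟩
  · rw [pE_rs2 hm]
    linarith [r2_le (M := M) (a := a) hm k, U2_nn (M := M) (m := m) (a := a) k]
  · have a1 := fun x => ((Eg33.eg_ms w1 (M.L m a) (sl m) 0 (k + 1) x).sub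
      (Eg33.eg_rs w1 (M.L m a) (sl m) 0 (k + 1))).pow 2
    have a2 := ((Eg33.eg_rs w1 (M.L m a) (sl m) 0 (k + 1)).sub (Eg.const (M.rb m a k))).pow 2
    refine (Eg33.pE_mono' w1 _ _ (fun x => ((Eg33.eg_ms w1 _ _ _ _ x).sub (Eg.const _)).pow 2)
      (fun x => ((a1 x).const_mul 2).add (a2.const_mul 2)) fun p x => ?_).trans ?_
    · nlinarith [sq_nonneg (Eg33.ms (fun _ => 1) (M.L m a) (sl m) 0 (k + 1) p x -
        2 * Eg33.rs (fun _ => 1) (M.L m a) (sl m) 0 (k + 1) p + M.rb m a k)]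
    · rw [Eg33.pE_add' w1 _ _ (fun x => (a1 x).const_mul 2) fun _ => a2.const_mul 2,
        Pe.pE_const_mul, Pe.pE_const_mul, Eg33.pE_pi w1, pE_rs2 hm]
      linarith [vv_le_U2 (M := M) (a := a) hm k, vv0 k, r2_nn (M := M) (m := m) (a := a) k]

theorem Ps_le (G : Lg M m a) (hu : Mj M m a u) : Ps M m a ≤ Nu M m a u 2 :=
  sum_le_sum fun k hk => mul_le_mul_of_nonneg_left (U2_le hu (mem_range.1 hk)) (G.dz_nonneg k)

theorem VVn_le (G : Lg M m a) {j : ℕ} (hj : j ≤ M.N) : VVn M m a j ≤ Ps M m a := by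
  refine le_trans (sum_le_sum fun k hk => mul_le_mul_of_nonneg_left ?_ (G.dz_nonneg k))
    (sum_le_sum_of_subset_of_nonneg (range_subset_range.2 hj) fun k _ _ =>
      mul_nonneg (G.dz_nonneg k) (U2_nn k))
  refine (Eg33.vt_near Link33.wt1 _ _ _ (Nat.succ_le_succ (mem_range.1 hk).le)).trans ?_
  have := Vn_le (M := M) (a := a) G.m0 k
  rw [Vn] at this
  have : 0 ≤ vv (fun _ => 1) (M.L m a) (sl m) 0 (k + 1) := vv_nonneg Link33.wt1 _ _ _ _
  linarith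

/-- **crude node error**: `N 2 ≤ A²`, `u k ≤ w` -/
theorem en_le (G : Lg M m a) (hu : Mj M m a u) {A w : ℝ} (A0 : 0 ≤ A) (hN : Nu M m a u 2 ≤ A ^ 2)
    (h0 : 0 < ms) {k : ℕ} (hk : k < M.N) (hw : u k ≤ w) :
    en M m a u ms (n3 false M m a u ms k) (5 * A) k ≤ 61441 * ms + 8 * w ^ 2 + 23 * A ^ 2 := by
  have n11 : Nu M m a u 1 ^ 2 ≤ A ^ 2 := (Nu_one_sq G).trans hN
  have n1 : Nu M m a u 1 ≤ A := le_of_pow_le_pow_left₀ two_ne_zero A0 n11
  have n12 : Nu M m a u (0 + 1) ≤ 2 ^ 1 * Nu M m a u 0 :=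
    Nu_add_le G hu (fun k _ _ => (hu.u0 k).2) 0 1
  have n0 : Nu M m a u 0 ≤ 1 := by
    simp only [Nu, pow_zero, mul_one]
    linarith [G.sum_dz_le (range M.N), G.a0]
  have n3' : Nu M m a u (2 + 1) ≤ 2 ^ 1 * Nu M m a u 2 :=
    Nu_add_le G hu (fun k _ _ => (hu.u0 k).2) 2 1
  have n4 : Nu M m a u (2 + 2) ≤ 2 ^ 2 * Nu M m a u 2 :=
    Nu_add_le G hu (fun k _ _ => (hu.u0 k).2) 2 2
  have u0 := hu.u0 k
  have U2w : u k ^ 2 ≤ w ^ 2 := pow_le_pow_left₀ u0.1 hw 2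
  have U := U2_le hu hk
  have U4 : U2 M m a k ≤ 4 := U.trans (by nlinarith)
  have r := r2_le (M := M) (a := a) G.m0 k
  have V := Vn_le (M := M) (a := a) G.m0 k
  have V0 := Vn_nn (M := M) (m := m) (a := a) k
  have p := pb_le (ms := ms) G k
  have vv := (VVn_le G hk.le).trans (Ps_le G hu)
  have N10 := Nu_nn G hu 1
  have N20 := Nu_nn G hu 2
  norm_num at n3' n4 n12
  have t1 : 15360 * ms * r2 M m a k ≤ 15360 * ms * 4 :=
    mul_le_mul_of_nonneg_left (r.trans U4) (by positivity)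
  have t2 : pb M m a ms k * Vn M m a k ≤ 3 * w ^ 2 :=
    (mul_le_mul_of_nonneg_right p V0).trans (by linarith)
  have t3 : 5 * A * (u k + Nu M m a u 1) ≤ 5 * A * (w + A) :=
    mul_le_mul_of_nonneg_left (by linarith) (by positivity)
  have t4 : (u k + Nu M m a u 1) * (Nu M m a u 2 + Nu M m a u 1 ^ 2) ≤ 4 * (2 * A ^ 2) :=
    mul_le_mul (by linarith [u0.2]) (by linarith) (by positivity) (by norm_num)
  have t5 : u k ^ 3 ≤ 2 * w ^ 2 := by nlinarith [mul_le_mul_of_nonneg_right u0.2 (sq_nonneg (u k))]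
  simp only [en, n3, Bool.false_eq_true, if_false]
  nlinarith [sq_nonneg (w - A)]

theorem abs_Gd (H : At S M m a T) {k : ℕ} (hk : k ≤ S.Jp) :
    |L0.Gd (lb M S m a T) (sb M m a (k + 1))| ≤ 4 * T + 2 := by
  have s := H.sb_mem hk
  have p := L0.Gd_le (Spl27.ap_of_ok H.okb.1) (t := sb M m a (k + 1)) (by rw [H.okb.2]; exact s)
  have q := L0.Gd_ge H.okb.1.1 (sb M m a (k + 1))
  have r := Pp.Ode3.lvr_le_one H.okb.1.1 (sb M m a (k + 1))
  exact abs_le.2 ⟨by linarith [s.1, s.2], by linarith [s.2]⟩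

/-- **(E1), difference form, crude path sizes** -/
theorem res_le (T0 C0 : ℝ) : ∃ K : ℝ, 1 ≤ K ∧ ∀ {S : Sc} {M : Md} {m : ℕ} {a T : ℝ} {u : ℕ → ℝ},
    At S M m a T → T ≤ T0 → S.C ≤ C0 → Mj M m a u → ∀ {i j : ℕ} {A W : ℝ}, S.jl ≤ i → i ≤ j →
      j ≤ S.Jp → 0 ≤ A → A ≤ W → 0 < W → Nu M m a u 2 ≤ A ^ 2 → u i ≤ W → u j ≤ W →
      M.dz m a i ≤ W ^ 2 → M.dz m a j ≤ W ^ 2 → |res M S m a T j - res M S m a T i| ≤
        (K * W) ^ 2 + K * A ^ 2 * (sb M m a (j + 1) - sb M m a (i + 1)) := by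
  obtain ⟨C, C0', h⟩ := e1C2 false C0
  refine ⟨1 + C * (123000 + 8 * (4 * |T0| + 2) + (1 + 2 * |C0|)), le_add_of_nonneg_right
    (by positivity), fun {S M m a T u} H hT hC hu i j A W h1 h2 h3 A0 AW W0 hN ui uj di dj => ?_⟩
  set K := 1 + C * (123000 + 8 * (4 * |T0| + 2) + (1 + 2 * |C0|)) with hK
  have K1 : 1 ≤ K := le_add_of_nonneg_right (by positivity)
  have D0 := sub_nonneg.2 (H.sb_mono (Nat.succ_le_succ h2))
  rcases h2.eq_or_lt with rfl | c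
  · simp only [sub_self, abs_zero, mul_zero, add_zero]; positivity
  have G := lg H
  have m0 : 0 < W ^ 2 := by positivity
  have gm : ∀ k, (eD M m a u (W ^ 2)).Gm (k + 1) (5 * A) := fun k =>
    gm_crude G (top_cl H.cl) m0 k (by positivity) (by nlinarith [Ps_le G hu])
  have iN := (h2.trans h3).trans_lt H.cl.i4
  have jN := h3.trans_lt H.cl.i4
  have k0 := (h S M m a T u (W ^ 2) H (H.cl.b1.trans hC) hu m0 i _
    ⟨h1, h2.trans h3, di, gm i⟩).2 j _ ⟨h1.trans h2, h3, dj, gm j⟩ c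
  have e1 := en_le G hu A0 hN m0 iN ui
  have e2 := en_le G hu A0 hN m0 jN uj
  have AW2 : A ^ 2 ≤ W ^ 2 := pow_le_pow_left₀ A0 AW 2
  have g : ∀ k ≤ S.Jp, u k ≤ W → 4 * r2 M m a k * |L0.Gd (lb M S m a T) (sb M m a (k + 1))| ≤
      4 * W ^ 2 * (4 * |T0| + 2) := fun k hk hw =>
    mul_le_mul (mul_le_mul_of_nonneg_left ((r2_le G.m0 k).trans ((U2_le hu (hk.trans_lt H.cl.i4)).trans
      (pow_le_pow_left₀ (hu.u0 k).1 hw 2))) (by norm_num))
      ((abs_Gd H hk).trans (by linarith [le_abs_self T0])) (abs_nonneg _) (by positivity)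
  have g1 := g i (h2.trans h3) ui
  have g2 := g j h3 uj
  have s : ∑ k ∈ Finset.Ioo i j, M.dz m a k * u k ^ 2 ≤ Nu M m a u 2 :=
    sum_le_sum_of_subset_of_nonneg (fun k hk => mem_range.2 ((Finset.mem_Ioo.1 hk).2.trans jN))
      fun k _ _ => mul_nonneg (G.dz_nonneg k) (sq_nonneg _)
  have l : (1 + 2 * S.C) * Nu M m a u 2 * (sb M m a (j + 1) - sb M m a (i + 1)) ≤
      (1 + 2 * |C0|) * A ^ 2 * (sb M m a (j + 1) - sb M m a (i + 1)) :=
    mul_le_mul_of_nonneg_right (mul_le_mul (by linarith [le_abs_self C0]) hN (Nu_nn G hu 2)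
      (by positivity)) D0
  have b1 : C * ((123000 + 8 * (4 * |T0| + 2)) * W ^ 2) ≤ (K * W) ^ 2 := by
    have : K * W ^ 2 ≤ K ^ 2 * W ^ 2 :=
      mul_le_mul_of_nonneg_right (le_self_pow₀ K1 two_ne_zero) m0.le
    have : 0 ≤ C * (1 + 2 * |C0|) * W ^ 2 := by positivity
    rw [mul_pow]
    nlinarith
  have b2 : C * ((1 + 2 * |C0|) * A ^ 2 * (sb M m a (j + 1) - sb M m a (i + 1))) ≤
      K * A ^ 2 * (sb M m a (j + 1) - sb M m a (i + 1)) := by
    have : 0 ≤ (1 + C * (123000 + 8 * (4 * |T0| + 2))) * (A ^ 2 *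
      (sb M m a (j + 1) - sb M m a (i + 1))) := by positivity
    nlinarith
  refine k0.trans (le_trans (mul_le_mul_of_nonneg_left ?_ C0') ((mul_add _ _ _).trans_le
    (add_le_add b1 b2)))
  linarith

/-- **two nodes at the top**: both forms of the cost of the marks -/
theorem two (T0 C0 : ℝ) : ∃ K u0 : ℝ, 1 ≤ K ∧ 0 < u0 ∧
    ∀ {S : Sc} {M : Md} {m : ℕ} {a T : ℝ} {u : ℕ → ℝ},
    At S M m a T → T ≤ T0 → S.C ≤ C0 → Mj M m a u → ∀ {i j : ℕ} {W dH : ℝ}, S.jl < i → i ≤ j →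
      j ≤ S.Jp → 1 - u0 ≤ M.z i → 0 < W → W ≤ 1 → Nu M m a u 2 ≤ W ^ 2 → u i ≤ W → u j ≤ W →
      M.dz m a i ≤ W ^ 2 → M.dz m a j ≤ W ^ 2 →
      Rig.Hp (lh M T) (lb M S m a T) (sb M m a (i + 1)) ≤ W → M.H j - M.H i ≤ dH →
      (∀ k ≤ j, M.rb m a k ≤ M.rb m a i + K * (W + √dH)) ∧
      ∀ μ, 0 < μ → μ ≤ 1 - M.b * Pr.GG (lh M T) (sb M m a (i + 1)) →
        ∀ k ≤ j, M.rb m a k ≤ M.rb m a i + (K * W + 2 * (dH / μ)) := by
  obtain ⟨K0, k0, h0⟩ := res_le T0 C0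
  obtain ⟨K1, u1, k1, p1, h1⟩ := At.top_diff T0
  obtain ⟨K2, u2, k2, p2, h2⟩ := At.top_diff' T0
  refine ⟨2 * (K1 + K2) * (1 + 2 * K0), min u1 u2, by nlinarith, lt_min p1 p2,
    fun {S M m a T u} H hT hC hu i j W dH a1 a2 a3 hz W0 W1 hN ui uj di dj hp hH => ?_⟩
  have r := (abs_le.1 (h0 H hT hC hu a1.le a2 a3 W0.le le_rfl W0 hN ui uj di dj)).1
  have dH0 : 0 ≤ dH := (sub_nonneg.2 (H.cl.leg.Hm a2)).trans hH
  have w2 : K0 * W ^ 2 ≤ K0 * W := mul_le_mul_of_nonneg_left (by nlinarith) (by linarith)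
  have s0 := sqrt_nonneg dH
  have kw : 0 ≤ K0 * W := by positivity
  constructor
  · intro k hk
    have := (h1 H hT (er := (K0 * W) ^ 2) (la := K0 * W ^ 2) a1 a2 a3
      (by linarith [min_le_left u1 u2]) (by positivity) (by positivity) hp (by linarith) hH).2 k hk
    have q : √(dH + (K0 * W) ^ 2) ≤ √dH + K0 * W := sqrt_le_iff.2 ⟨by positivity, by
      nlinarith [sq_sqrt dH0, mul_nonneg s0 kw]⟩
    have q2 : W + K0 * W ^ 2 + √(dH + (K0 * W) ^ 2) ≤ (1 + 2 * K0) * (W + √dH) := by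
      nlinarith [mul_nonneg (by linarith : 0 ≤ K0) s0]
    have q3 := mul_le_mul_of_nonneg_left q2 (by linarith : 0 ≤ 2 * K1)
    have q4 : 0 ≤ K2 * ((1 + 2 * K0) * (W + √dH)) := by positivity
    nlinarith
  · intro μ μ0 hμ k hk
    have := (h2 H hT (er := (K0 * W) ^ 2) (la := K0 * W ^ 2) a1 a2 a3
      (by linarith [min_le_right u1 u2]) (by positivity) (by positivity) μ0 hμ hp (by linarith)
      hH).2 k hk
    rw [sqrt_sq kw] at this
    have q2 : W + K0 * W ^ 2 + K0 * W ≤ (1 + 2 * K0) * W := by nlinarith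
    have q3 := mul_le_mul_of_nonneg_left q2 (by linarith : 0 ≤ 2 * K2)
    have q4 : 0 ≤ K1 * ((1 + 2 * K0) * W) := by positivity
    nlinarith

end Crest.Agent.T156.Alt.Tq5

end
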