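import Crest.Agent.T156.TLtD_5
import Crest.Agent.T156.TopS_5
import Crest.Agent.T156.ClAp_63

/-!
# Row 156, block (L) (helper5): `TLt` from the two sizes
-/

set_option autoImplicit false
set_option maxHeartbeats 400000

noncomputable section

namespace Crest.Agent.T156.Alt.L69

open Real Finset
open Crest.Agent.R164.GC Crest.Agent.R339.B Crest.Agent.R339.Var Crest.Agent.T157.Pf
open Crest.Agent.T156.Alt.E61 Crest.Agent.T156.Alt.Mp9 Crest.Agent.T156.Alt.Md67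

namespace T5

variable {S : Sc} {M : Md} {m : ℕ} {a T : ℝ}

theorem e_lo (A : At S M m a T) {t0 e r : ℝ} (h0 : 0 ≤ t0) (h1 : t0 ≤ M.s S.Jp)
    (he : e ≤ S.ms t0 / S.C) (he1 : e ≤ 1) (hr : t0 ≤ r) (hT : r ≤ T) :
    e ≤ 1 - M.b * Pr.GG (lh M T) r := by
  have key : ∀ r, t0 ≤ r → r ≤ M.s S.Jp → e ≤ M.e r := fun r a1 a2 =>
    he.trans ((div_le_div_of_nonneg_right (A.cl.msm a1) A.c_pos.le).trans
      (A.cl.crit r ⟨h0.trans a1, a2⟩).1)
  rcases le_total r (M.s S.Jp) with c | c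
  · rw [A.e_h ⟨h0.trans hr, c⟩]; exact key r hr c
  · have a1 := A.e_top c hT
    have a2 := key _ h1 le_rfl
    have a3 : exp (-((r - M.s S.Jp) / 2)) ≤ 1 := exp_le_one_iff.2 (by linarith)
    nlinarith [exp_pos (-((r - M.s S.Jp) / 2))]

theorem w3_pos (h : Cl S M) : 0 < S.w3 1 := by
  have := h.F1; have := h.N0; have := h.θ0
  unfold Sc.w3
  change 0 < S.F / (S.n * 1 * S.θ)
  positivity

theorem w3_ge (h : Cl S M) (h1 : S.θ ≤ 1) : 1 / (S.n : ℝ) ≤ S.w3 1 := by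
  have := h.F1; have n0 := h.N0; have := h.θ0
  unfold Sc.w3
  change _ ≤ S.F / (S.n * 1 * S.θ)
  rw [div_le_div_iff₀ n0 (by positivity)]
  nlinarith

theorem ap_ge (h : Cl S M) (Xp Vt γ : ℝ) (k : ℕ) :
    S.w3 1 / (S.den (M.z (k - 1)) * ds M S k ^ 2) ≤ ap M S Xp Vt γ k := by
  have := w3_pos h
  have := h.den0 (M.z (k - 1))
  exact le_add_of_le_of_nonneg (le_add_of_nonneg_left (by positivity)) (sqrt_nonneg _)

theorem ap_nn (h : Cl S M) (Xp Vt γ : ℝ) (k : ℕ) : 0 ≤ ap M S Xp Vt γ k := by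
  have := w3_pos h
  have := h.den0 (M.z (k - 1))
  exact le_trans (by positivity) (ap_ge h Xp Vt γ k)

/-- a small `ap` bounds the density from below -/
theorem den_ge (h : Cl S M) (h1 : S.θ ≤ 1) (hu : 0 < S.u0) {Xp Vt γ : ℝ} {k : ℕ} (hk : S.J ≤ k)
    (h0 : 0 < du M k) (ha : ap M S Xp Vt γ k ≤ 1) : 1 / (S.n : ℝ) ≤ S.den (M.z (k - 1)) := by
  have d0 := h.den0 (M.z (k - 1))
  have l0 : 0 < dl M S k := by
    have := h.leg.zm (show S.J - 1 ≤ k - 1 by omega)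
    unfold dl; linarith
  have s0 : 0 < ds M S k := lt_min l0 h0
  have s1 : ds M S k ≤ 1 := (min_le_right _ _).trans (by unfold du; linarith [h.z_pos (k - 1)])
  have := (ap_ge h Xp Vt γ k).trans ha
  rw [div_le_one (by positivity)] at this
  exact (w3_ge h h1).trans (this.trans (mul_le_of_le_one_right d0.le (pow_le_one₀ s0.le s1)))

theorem G_eq (h : Cl S M) : Ap63.Sx M.z M.G S.jl S.Jp 2 = GS M S 0 S.C + GP M S := by
  rw [Ap63.Sx_two, GS, GP, filter_true_of_mem fun k hk =>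
    ⟨h.s_nn k, h.s_le_C ((mem_Ioo.1 hk).2.le.trans h.i3)⟩, ← sum_union]
  · refine sum_congr ?_ fun _ _ => rfl
    ext k
    have := h.i3
    have := h.i2
    simp only [mem_Ioc, mem_union, mem_Ioo, mem_Icc]
    omega
  · exact disjoint_left.2 fun k a b => by
      have := mem_Ioo.1 a; have := mem_Icc.1 b; omega

/-- the area between the graphs from the a priori bounds -/
theorem hp_le (A : At S M m a T) {l0 X γ j Z : ℝ} (hθ : S.C * S.θ ≤ 1 / 2) (l1 : M.s S.jl ≤ l0)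
    (l2 : l0 ≤ 1) (X0 : 0 < X) (X1 : X ≤ 1) (hγ : M.s S.Jp - M.s S.J ≤ γ) (hX : Phi M S m a ≤ X)
    (hj : √X + √(GS M S 0 S.C + GP M S) + l0 ^ 2 ≤ j) (z1 : j + γ ≤ Z) (z2 : S.v ≤ Z)
    (z3 : 1 / ((m : ℝ) + 1) ≤ Z) {t : ℝ} (ht : t ∈ Set.Icc 0 T) :
    Rig.Hp (lh M T) (lb M S m a T) t ≤ (1 + T) * (100 * S.C ^ 4 * Z) := by
  have h := A.cl
  have C1 := h.C1
  have C0 := h.C0
  have v0 := h.v0
  have s0 := h.s_nn S.jl
  have g0 : 0 ≤ γ := (sub_nonneg.2 (h.sm h.i3)).trans hγ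
  have jJ := h.jl_lt
  set R := X ^ ((1 : ℝ) / 3) with hR
  have R0 : 0 ≤ R := by positivity
  have R3 : R ^ 3 = X := by rw [hR, ← rpow_natCast, ← rpow_mul X0.le]; norm_num
  have R1 : R ≤ 1 := rpow_le_one X0.le X1 (by norm_num)
  have R2 : R ^ 2 ≤ √X := le_sqrt_of_sq_le (by
    rw [← R3, show (R ^ 2) ^ 2 = R * R ^ 3 by ring]
    exact mul_le_of_le_one_left (by positivity) R1)
  have sx : Ap63.Sx M.z (M.del m a) S.jl S.Jp 2 ≤ X := by
    refine le_trans ?_ hX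
    rw [Phi, Ap63.En_eq h]
    exact sum_le_sum_of_subset_of_nonneg (Ioc_subset_Ioc_left h.i1) fun k _ _ =>
      mul_nonneg (Ap63.w_nn h.leg.zm k) (by positivity)
  have sg : Ap63.Sx M.z M.G S.jl S.Jp 2 ≤ √(GS M S 0 S.C + GP M S) ^ 2 := by
    rw [← G_eq h, sq_sqrt (Ap63.Sx_nn h.leg.zm 2)]
  have P := A.pri_rb h.i1 jJ ((Ap63.q_slow h h.i3 le_rfl).trans hγ) R0 R1 (sx.trans R3.ge)
  have r1 : M.rb m a S.jl ≤ 2 * Ap63.VV S M S.jl R γ := P.low' (Nat.le_succ _)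
  have V0 := P.V0
  have jN : S.jl ≤ M.N := (jJ.trans h.J_lt).le
  have H1 : M.H S.jl ≤ 2 * M.s S.jl := by
    have a1 := (abs_le.1 (h.Glo _ le_rfl)).2
    have a2 : S.C * S.ms (M.s S.jl) * M.s S.jl ≤ 1 / 2 * M.s S.jl :=
      mul_le_mul_of_nonneg_right ((mul_le_mul_of_nonneg_left (h.ms1 _) C0.le).trans hθ) s0
    have a3 : 0 ≤ M.d S.jl * M.q S.jl := mul_nonneg (by linarith [h.d_ge S.jl]) (h.q_nn jN)
    unfold Md.G at a1
    linarith
  have b1 : sb M m a (S.jl + 1) ≤ S.C * (2 * Ap63.VV S M S.jl R γ) + 2 * M.s S.jl := by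
    have a1 : kp m * M.d S.jl ≤ 1 * S.C := mul_le_mul (kp_mem m).2 ((h.d_le jN).trans h.b1)
      (by linarith [h.d_ge S.jl]) zero_le_one
    have a2 := mul_le_mul a1 r1 (rb_mem A.m_pos _).1 (by positivity)
    simp only [sb]
    linarith
  have ar := A.area h.i1 jJ b1 (by
    have : 0 ≤ S.C * (2 * Ap63.VV S M S.jl R γ) := by positivity
    linarith)
  have ds1 := A.dsb_one (jJ.le.trans h.i3) (sqrt_nonneg _) sx sg
  refine A.hp (ar.trans ?_) t ht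
  have zz := (h.z_s h.i1 jJ).2
  have z0 := h.z_pos S.jl
  have z1' := h.leg.z1 S.jl
  have sj := h.sm h.i1
  have q0 := sqrt_nonneg X
  have q1 := sqrt_nonneg (GS M S 0 S.C + GP M S)
  have l0' : 0 ≤ l0 := s0.trans l1
  have Z0 : 0 ≤ Z := v0.le.trans z2
  have c2 : S.C ≤ S.C ^ 4 := le_self_pow₀ C1 (by norm_num)
  have c3 : S.C ^ 2 ≤ S.C ^ 4 := pow_le_pow_right₀ C1 (by norm_num)
  have y1 : M.z S.jl * R ≤ S.C * (4 * Z) := by
    refine (mul_le_mul_of_nonneg_right zz R0).trans ?_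
    rw [mul_assoc]
    refine mul_le_mul_of_nonneg_left ?_ C0.le
    linarith [sq_nonneg (l0 - R), mul_le_mul_of_nonneg_right l1 R0,
      mul_le_mul_of_nonneg_left R1 v0.le, sq_nonneg l0, sq_nonneg R]
  have y2 : M.z S.jl * M.s S.jl ≤ S.C * (3 * Z) := by
    refine (mul_le_mul_of_nonneg_right zz s0).trans ?_
    rw [mul_assoc]
    refine mul_le_mul_of_nonneg_left ?_ C0.le
    linarith [mul_le_mul l1 l1 s0 l0', mul_le_mul_of_nonneg_left (l1.trans l2) v0.le]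
  have y3 : M.z S.jl * S.v ≤ Z := (mul_le_of_le_one_left v0.le z1').trans z2
  have y4 : M.z S.jl * γ ≤ Z := (mul_le_of_le_one_left g0 z1').trans (by linarith [sq_nonneg l0])
  have y5 : M.z S.jl * M.s S.j0 ≤ M.z S.jl * M.s S.jl := mul_le_mul_of_nonneg_left sj z0.le
  have y6 : S.C / (m + 1) ≤ S.C * Z := by
    rw [div_eq_mul_one_div]; exact mul_le_mul_of_nonneg_left z3 C0.le
  have y7 : S.C * √X ≤ S.C * Z := mul_le_mul_of_nonneg_left (by linarith [sq_nonneg l0]) C0.le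
  have e : M.z S.jl * (S.C * (2 * Ap63.VV S M S.jl R γ) + 2 * M.s S.jl + M.s S.j0) =
      4 * S.C ^ 3 * (M.z S.jl * R) + (4 * S.C ^ 4 + 8 * S.C ^ 2) * (M.z S.jl * S.v) +
      4 * S.C * (M.z S.jl * γ) + (4 * S.C + 2) * (M.z S.jl * M.s S.jl) + M.z S.jl * M.s S.j0 := by
    unfold Ap63.VV; ring
  rw [e]
  have w1 := mul_le_mul_of_nonneg_left y1 (by positivity : 0 ≤ 4 * S.C ^ 3)
  have w2 := mul_le_mul_of_nonneg_left y3 (by positivity : 0 ≤ 4 * S.C ^ 4 + 8 * S.C ^ 2)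
  have w3 := mul_le_mul_of_nonneg_left y4 (by positivity : 0 ≤ 4 * S.C)
  have w4 := mul_le_mul_of_nonneg_left y2 (by positivity : 0 ≤ 4 * S.C + 3)
  have w5 := mul_le_mul_of_nonneg_right c2 Z0
  have w6 := mul_le_mul_of_nonneg_right c3 Z0
  have w7 : Z ≤ S.C * Z := le_mul_of_one_le_left Z0 C1
  have w8 : 0 ≤ S.C ^ 4 * Z := by positivity
  linarith [sq_nonneg l0]

theorem du_anti (h : Cl S M) {i k : ℕ} (e : i ≤ k) : du M k ≤ du M i := by
  have := h.leg.zm (show i - 1 ≤ k - 1 by omega)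
  unfold du; linarith

/-- the reference node in the upper half of the plateau -/
theorem exists_ref (A : At S M m a T) {E Λ l0 X Xp Vt X2 u1 j γ Lp u0 Z : ℝ}
    (H : TH E S M m a l0 X Xp Vt X2 u1 j γ Lp) (hu : 0 < u0) (u1' : u0 ≤ 1 / S.C)
    (hK : 6 / u0 ≤ Λ) (hE : Λ ≤ E) (L1 : 1 ≤ Λ) (hN : Nu M m a (u4 M m a) 2 ≤ Λ * X2)
    (z1 : j ≤ Z) (z2 : √X2 ≤ Z) : ∃ i, S.J ≤ i ∧ i ≤ S.Jp ∧ 1 - u0 ≤ M.z i ∧ 0 < du M i ∧
      u4 M m a i ≤ Λ * Z ∧ |M.del m a i| ≤ Λ * Z ∧ ap M S Xp Vt γ i ≤ Λ * Z := by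
  classical
  have h := A.cl
  have G := lg A
  have J1 : 1 ≤ S.J := by have := h.i2; omega
  have Z0 : 0 ≤ Z := (sqrt_nonneg _).trans z2
  have Lp1 : 1 ≤ Lp := L1.trans (hE.trans H.Lp0)
  have Lp2 : 1 ≤ Lp ^ ((2 : ℝ) / 3) := one_le_rpow Lp1 (by norm_num)
  have w0 := Ap63.w_nn h.leg.zm
  obtain ⟨i, a1, a2, a3, a4, a5⟩ := h.exists_pt_25 hu (f := fun k => u4 M m a k ^ 2 +
    M.del m a k ^ 2 + if u1 ≤ du M k then ap M S Xp Vt γ k ^ 2 else 0) fun k => by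
      split_ifs <;> positivity
  rw [min_eq_left u1'] at a4 a5
  have d1 : u0 / 2 ≤ du M i := by unfold du; linarith
  have u10 : 0 ≤ u1 := le_trans (by linarith [h.leg.z1 (S.Jp - 1), h.last]) H.u1a
  have d2 : u1 ≤ du M i := by
    have b1 := (mul_le_mul_of_nonneg_right (hK.trans hE) u10).trans H.u1b
    rw [div_mul_eq_mul_div, div_le_one hu] at b1
    linarith
  rw [if_pos d2] at a5
  have s1 : ∑ k ∈ Icc S.J S.Jp, (M.z k - M.z (k - 1)) * u4 M m a k ^ 2 ≤ Λ * X2 := by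
    refine le_trans ?_ hN
    rw [sum_congr rfl fun k hk => by rw [← dz_up (m := m) (a := a) h.leg
      (show 0 < k by have := mem_Icc.1 hk; omega)]]
    exact sum_le_sum_of_subset_of_nonneg (fun k hk => mem_range.2 ((mem_Icc.1 hk).2.trans_lt h.i4))
      fun k _ _ => mul_nonneg (G.dz_nonneg k) (sq_nonneg _)
  have s2 : ∑ k ∈ Icc S.J S.Jp, (M.z k - M.z (k - 1)) * M.del m a k ^ 2 ≤ X := by
    refine le_trans ?_ H.pri.all
    rw [Phi, Ap63.En_eq h, Ap63.Sx_two]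
    exact sum_le_sum_of_subset_of_nonneg (fun k hk => by
      have := mem_Icc.1 hk; have := h.j0_lt; exact mem_Ioc.2 ⟨by omega, by omega⟩)
      fun k _ _ => mul_nonneg (w0 k) (sq_nonneg _)
  have s3 : u1 + ∑ k ∈ Icc S.J S.Jp, (M.z k - M.z (k - 1)) *
      (if u1 ≤ du M k then ap M S Xp Vt γ k ^ 2 else 0) ≤ X2 := by
    refine le_trans ?_ H.n2
    simp only [Np, mul_ite, mul_zero, ← sum_filter]
    refine add_le_add le_rfl (sum_le_sum fun k _ => mul_le_mul_of_nonneg_left ?_ (w0 k))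
    have := ap_nn h Xp Vt γ k
    have g0 : 0 ≤ γ := (sub_nonneg.2 (h.sm h.i3)).trans H.γ0
    have v0 := H.Vt0
    have r0 : 0 ≤ Rp M S Xp Vt γ k := by unfold Rp; positivity
    exact le_add_of_le_of_nonneg (pow_le_pow_left₀ this (le_mul_of_one_le_left this Lp2) 2)
      (by positivity)
  have s4 : 0 ≤ ∑ k ∈ Icc S.J S.Jp, (M.z k - M.z (k - 1)) *
      (if u1 ≤ du M k then ap M S Xp Vt γ k ^ 2 else 0) :=
    sum_nonneg fun k _ => mul_nonneg (w0 k) (by split_ifs <;> positivity)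
  have x2 : X2 ≤ Z ^ 2 := (sq_sqrt (by linarith)).ge.trans (pow_le_pow_left₀ (sqrt_nonneg _) z2 2)
  have x1 : X ≤ Z ^ 2 := (sq_sqrt H.X0.le).ge.trans (pow_le_pow_left₀ (sqrt_nonneg _) (by
    linarith [H.pri.j0, sqrt_nonneg (GS M S 0 S.C + GP M S), sq_nonneg l0]) 2)
  simp only [mul_add, sum_add_distrib] at a5
  have f1 : u0 / 2 * (u4 M m a i ^ 2 + M.del m a i ^ 2 + ap M S Xp Vt γ i ^ 2) ≤
      u0 / 2 * (Λ * Z) ^ 2 := by
    have b1 : Λ * X2 ≤ Λ * Z ^ 2 := mul_le_mul_of_nonneg_left x2 (by linarith)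
    have b2 : Z ^ 2 ≤ Λ * Z ^ 2 := le_mul_of_one_le_left (sq_nonneg _) L1
    rw [div_le_iff₀ hu] at hK
    have b3 := mul_le_mul_of_nonneg_right hK (by positivity : 0 ≤ Λ * Z ^ 2)
    linarith
  have f2 := le_of_mul_le_mul_left f1 (by positivity)
  have p0 : 0 ≤ Λ * Z := by positivity
  refine ⟨i, a1, a2, a3, by linarith, ?_, ?_, ?_⟩
  · exact le_of_pow_le_pow_left₀ two_ne_zero p0
      (by linarith [sq_nonneg (M.del m a i), sq_nonneg (ap M S Xp Vt γ i)])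
  · exact abs_le_of_sq_le_sq' (by
      linarith [sq_nonneg (u4 M m a i), sq_nonneg (ap M S Xp Vt γ i)]) p0 |> abs_le.2
  · exact le_of_pow_le_pow_left₀ two_ne_zero p0
      (by linarith [sq_nonneg (M.del m a i), sq_nonneg (u4 M m a i)])

/-- the mass of the reference at the top -/
theorem mu_le (A : At S M m a T) (hθ : S.C * S.θ ≤ 1 / 2) (hv : 4 * S.C ^ 2 * S.v ≤ 1) {i : ℕ}
    (h1 : S.J ≤ i) (h2 : i ≤ S.Jp) (hd : 8 * S.C ^ 3 * |M.del m a i| ≤ 1) :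
    S.θ / (1024 * S.C ^ 7) ≤ 1 - M.b * Pr.GG (lh M T) (sb M m a (i + 1)) := by
  have h := A.cl
  have C1 := h.C1
  have C0 := h.C0
  have θ0 := h.θ0
  have j0 := h.j0_lt
  have c3 : 1 ≤ S.C ^ 3 := one_le_pow₀ C1
  have s1 : 1 ≤ 2 * S.C ^ 2 * M.s S.J := by
    have a1 := (h.z_s (k := S.J - 1) (by omega) (by omega)).2
    have a2 := h.atom.1
    rw [div_le_iff₀ C0] at a2
    have a3 := mul_le_mul_of_nonneg_right a1 C0.le
    have a4 := mul_le_mul_of_nonneg_left (h.sm (Nat.sub_le S.J 1)) (by positivity : 0 ≤ S.C ^ 2)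
    linarith
  have q1 : 1 ≤ 4 * S.C ^ 3 * M.q i := by
    have a1 := (h.q_s hθ h2).1
    rw [div_le_iff₀ (by positivity)] at a1
    have a2 := mul_le_mul_of_nonneg_left ((h.sm h1).trans a1) (by positivity : 0 ≤ 2 * S.C ^ 2)
    linarith
  have r1 : 1 ≤ 8 * S.C ^ 3 * M.rb m a i := by
    have := mul_le_mul_of_nonneg_left (neg_abs_le (M.del m a i)) (by positivity : 0 ≤ 8 * S.C ^ 3)
    unfold Md.del at this hd
    linarith
  have b1 : M.rb m a i / 2 ≤ sb M m a (i + 1) := by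
    have a1 : 1 / 2 * 1 ≤ kp m * M.d i := mul_le_mul A.kp_half (h.d_ge i) zero_le_one (kp_mem m).1
    have a2 := mul_le_mul_of_nonneg_right a1 (rb_mem (M := M) (a := a) A.m_pos i).1
    simp only [sb]
    linarith [h.H_nn i]
  have t0 : 0 < 1 / (16 * S.C ^ 3) := by positivity
  refine e_lo A t0.le ?_ ?_ ?_ ?_ (A.sb_mem h2).2
  · rw [div_le_iff₀ (by positivity)]
    have a1 := h.s_nn S.J
    have a2 : S.C ^ 2 ≤ S.C ^ 3 := pow_le_pow_right₀ C1 (by norm_num)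
    have a3 := mul_le_mul_of_nonneg_right a2 a1
    have a4 := mul_le_mul_of_nonneg_right (h.sm h.i3) (by positivity : 0 ≤ 16 * S.C ^ 3)
    have a5 : 0 ≤ S.C ^ 3 * M.s S.J := by positivity
    linarith
  · have a1 := h.ms_mul t0.le (k := 16 * S.C ^ 3) (by linarith)
    rw [mul_one_div_cancel (by positivity)] at a1
    rw [div_le_div_iff₀ (by positivity) C0]
    change S.θ ≤ _ at a1
    nlinarith [mul_le_mul_of_nonneg_right a1 C0.le]
  · rw [div_le_one (by positivity)]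
    have a1 : 1 ≤ S.C ^ 7 := one_le_pow₀ C1
    nlinarith
  · rw [div_le_iff₀ (by positivity)]
    nlinarith [mul_le_mul_of_nonneg_left b1 (by positivity : 0 ≤ 16 * S.C ^ 3)]

set_option maxHeartbeats 1600000 in
/-- `TLt` at fixed numbers -/
theorem core (C : ℝ) : ∃ K : ℝ, ∀ {S : Sc} {M : Md} {m : ℕ}
    {a E Λ Λ' l0 X Xp Vt X2 u1 j γ Lp : ℝ}, S.C = C → Cl S M → S.In m a → K ≤ Λ → Λ ≤ E →
    Λ ^ 4 ≤ Λ' →     K * S.θ ≤ 1 → 4 * S.C ^ 2 * S.v * (S.n : ℝ) ^ 2 ≤ 1 →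
    TH E S M m a l0 X Xp Vt X2 u1 j γ Lp → Nu M m a (u4 M m a) 2 ≤ Λ * X2 →
    (∀ k, S.J ≤ k → k ≤ S.Jp → 2 * u1 ≤ du M k → du M k ≤ dl M S k → Lp * ap M S Xp Vt γ k ≤ 1 →
      ∃ i, k ≤ i ∧ i < S.Jp ∧ du M k / 2 < du M i ∧ u4 M m a i ≤ Λ * (Lp * ap M S Xp Vt γ k)) →
    ∀ k, S.J ≤ k → k ≤ S.Jp → 2 * u1 ≤ du M k → ∀ k', k ≤ k' → k' ≤ S.Jp →
      du M k' ≤ du M k / 2 → M.del m a k ≤ Λ' * (j + γ + √X2 + Lp * ap M S Xp Vt γ k +
        min (√(M.H k' - M.H S.J)) (S.F * (M.H k' - M.H S.J) / S.θ) + 1 / √S.n) := by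
  obtain ⟨K0, u0, k1, u0p, h2⟩ := Tq5.two (2 * C) C
  refine ⟨K0 + 6 / u0 + 3000 * C ^ 8,
    fun {S M m a E Λ Λ' l0 X Xp Vt X2 u1 j γ Lp} hC h I hK hE hL hθ hv H hN hG k a1 a2 a3 k' b1 b2
      b3 => ?_⟩
  subst hC
  have C1 := h.C1
  have C0 := h.C0
  have v0 := h.v0
  have n1 : (1 : ℝ) ≤ S.n := by exact_mod_cast h.n1
  have θ0 := h.θ0
  have A : At S M m a (2 * S.C) := ⟨h, I, by linarith [h.b1, H.HJ], by linarith [h.sT]⟩
  have p6 : 0 < 6 / u0 := by positivity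
  have cp : ∀ i ≤ 8, 3000 * S.C ^ i ≤ K0 + 6 / u0 + 3000 * S.C ^ 8 - 1 := fun i hi => by
    have := pow_le_pow_right₀ C1 hi
    linarith
  have c0 := cp 0 (by norm_num)
  have c1 := cp 1 (by norm_num)
  rw [pow_zero] at c0
  rw [pow_one] at c1
  have c8 : 0 ≤ S.C ^ 8 := by positivity
  have L1 : 1 ≤ Λ := by linarith
  have L0 : 0 < Λ := by linarith
  have hθ' : S.C * S.θ ≤ 1 / 2 := by
    have := mul_le_mul_of_nonneg_right (show 2 * S.C ≤ K0 + 6 / u0 + 3000 * S.C ^ 8 by linarith) θ0.le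
    linarith
  have θ1 : S.θ ≤ 1 := by linarith [le_mul_of_one_le_left θ0.le C1]
  have Lp1 : 1 ≤ Lp := L1.trans (hE.trans H.Lp0)
  have ap0 := ap_nn h Xp Vt γ k
  have g0 : 0 ≤ γ := (sub_nonneg.2 (h.sm h.i3)).trans H.γ0
  have j0 : 0 ≤ j := le_trans (by positivity) H.pri.j0
  have sn : 0 < √(S.n : ℝ) := sqrt_pos.2 h.N0
  have dH0 : 0 ≤ M.H k' - M.H S.J := sub_nonneg.2 (h.leg.Hm (a1.trans b1))
  have F1 := h.F1
  set B := min (√(M.H k' - M.H S.J)) (S.F * (M.H k' - M.H S.J) / S.θ) with hB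
  have B0 : 0 ≤ B := le_min (sqrt_nonneg _) (by positivity)
  set Z := j + γ + √X2 + Lp * ap M S Xp Vt γ k + 1 / √S.n with hZ
  have q1 := sqrt_nonneg X2
  have q2 : 0 ≤ Lp * ap M S Xp Vt γ k := by positivity
  have q3 : 0 < 1 / √(S.n : ℝ) := by positivity
  have Z0 : 0 < Z := by positivity
  rw [show j + γ + √X2 + Lp * ap M S Xp Vt γ k + B + 1 / √S.n = Z + B by ring]
  refine le_trans ?_ (mul_le_mul_of_nonneg_right hL (by positivity))
  have l2 : Λ * Z ≤ Λ ^ 2 * Z := mul_le_mul_of_nonneg_right (le_self_pow₀ L1 two_ne_zero) Z0.le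
  have l1 : Z ≤ Λ * Z := le_mul_of_one_le_left Z0.le L1
  have l3 : Λ ^ 2 * Z ≤ Λ ^ 3 * Z :=
    mul_le_mul_of_nonneg_right (pow_le_pow_right₀ L1 (by norm_num)) Z0.le
  have l4 : 3 * (Λ ^ 3 * Z) ≤ Λ ^ 4 * Z := by
    have := mul_le_mul_of_nonneg_right (show 3 ≤ Λ by linarith) (by positivity : 0 ≤ Λ ^ 3 * Z)
    linarith
  have l5 : Λ * B ≤ Λ ^ 4 * B := mul_le_mul_of_nonneg_right (le_self_pow₀ L1 (by norm_num)) B0
  have l6 : 0 ≤ Λ * B := by positivity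
  rw [mul_add]
  rcases le_or_gt 1 (Λ ^ 2 * Z) with W1 | W1
  · have := (rb_mem (M := M) (a := a) A.m_pos k).2
    have := h.q_nn (A.jp_le a2)
    unfold Md.del
    linarith
  have n2 : 1 / (S.n : ℝ) ≤ Z ^ 2 := by
    have : (1 / √(S.n : ℝ)) ^ 2 ≤ Z ^ 2 := pow_le_pow_left₀ q3.le (by linarith) 2
    rwa [div_pow, one_pow, sq_sqrt h.N0.le] at this
  have Z1 : Z ≤ 1 := by linarith
  have n3 : 1 / (S.n : ℝ) ≤ Z := n2.trans (pow_le_of_le_one Z0.le Z1 two_ne_zero)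
  have W2 : Z ^ 2 ≤ (Λ ^ 2 * Z) ^ 2 := pow_le_pow_left₀ Z0.le (by linarith) 2
  have vn : S.C ^ 2 * S.v * S.n ≤ 1 / S.n := by
    rw [le_div_iff₀ h.N0]
    have : 0 ≤ S.C ^ 2 * S.v * (S.n : ℝ) ^ 2 := by positivity
    linarith
  have vc : S.C * S.v * S.n ≤ S.C ^ 2 * S.v * S.n := by
    gcongr; exact le_self_pow₀ C1 two_ne_zero
  have hu : 0 < min u0 (1 / (2 * S.C)) := lt_min u0p (by positivity)
  have hu2 : 1 / (2 * S.C) ≤ 1 / S.C := one_div_le_one_div_of_le C0 (by linarith)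
  obtain ⟨i, i1, i2, i3, i4, i5, i6, i7⟩ := exists_ref A H hu ((min_le_right _ _).trans hu2) (by
      rcases le_total u0 (1 / (2 * S.C)) with c | c
      · rw [min_eq_left c]; linarith
      · rw [min_eq_right c, div_div_eq_mul_div, div_one]; linarith) hE L1 hN
    (show j ≤ Z by linarith) (show √X2 ≤ Z by linarith)
  have sk : |M.s k - M.s i| ≤ γ := abs_le.2
    ⟨by linarith [h.sm i2, h.sm a1, H.γ0], by linarith [h.sm a2, h.sm i1, H.γ0]⟩
  have di := le_abs_self (M.del m a i)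
  rcases le_or_gt k i with c | c
  · have := A.del_up i2 a2 (D := 0) (by rw [add_zero]; exact Mp9.rb_mono A.m_pos c)
    linarith
  have zk : M.z i ≤ M.z (k - 1) := h.leg.zm (by omega)
  have e1 : du M k ≤ dl M S k := by
    have a : 1 / S.C = 2 * (1 / (2 * S.C)) := by field_simp
    unfold du dl
    linarith [min_le_right u0 (1 / (2 * S.C)), h.atom.2, H.u0]
  obtain ⟨y, y1, y2, y3, y4⟩ := hG k a1 a2 a3 e1 (by linarith)
  have u10 : 0 ≤ u1 := le_trans (by linarith [h.leg.z1 (S.Jp - 1), h.last]) H.u1a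
  have y0 : 0 < du M y := by linarith
  have yk : y ≤ k' := by
    by_contra x
    linarith [du_anti h (not_le.1 x).le]
  have J1 : 1 ≤ S.J := by have := h.i2; omega
  have dzl : ∀ x, S.J ≤ x → x < S.Jp → ∀ d, 1 / (S.n : ℝ) ≤ d → d ≤ S.C * S.den (M.z (x - 1)) →
      M.dz m a x ≤ (Λ ^ 2 * Z) ^ 2 := fun x x1 x2 d d1 d2 => by
    have p := (h.plat x x1 x2).2
    have w := Ap63.w_nn h.leg.zm x
    rw [dz_up h.leg (by omega)]
    refine le_trans ?_ (vn.trans (n2.trans W2))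
    have p1 := mul_le_mul_of_nonneg_left (d1.trans d2) w
    have p2 := mul_le_mul_of_nonneg_left p C0.le
    rw [mul_one_div, div_le_iff₀ h.N0] at p1
    linarith [mul_le_mul_of_nonneg_right p2 h.N0.le]
  have dy : M.dz m a y ≤ (Λ ^ 2 * Z) ^ 2 := by
    refine dzl y (a1.trans y1) y2 _ (den_ge h θ1 H.u0 a1 (y0.trans_le (du_anti h y1))
      ((le_mul_of_one_le_left ap0 Lp1).trans (by linarith))) (h.dens _ _
      (h.leg.zm (by omega)) (h.leg.zm (show k - 1 ≤ y - 1 by omega)) ?_ (le_min ?_ ?_)).1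
    · unfold du at y0; linarith
    · unfold du dl at e1; linarith [h.leg.z1 (y - 1)]
    · unfold du at y3; linarith
  have dn := den_ge h θ1 H.u0 i1 i4 (i7.trans (by linarith))
  have dI : M.dz m a i ≤ (Λ ^ 2 * Z) ^ 2 :=
    dzl i i1 (by omega) _ dn (le_mul_of_one_le_left (h.den0 _).le C1)
  have X20 : 0 ≤ X2 := (mul_nonneg_iff_of_pos_left L0).1 ((Nu_nn (lg A) (mj_u4 A.m_pos) 2).trans hN)
  have N2 : Nu M m a (u4 M m a) 2 ≤ (Λ ^ 2 * Z) ^ 2 := by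
    refine hN.trans ?_
    have x2 : X2 ≤ Z ^ 2 := (sq_sqrt X20).ge.trans (pow_le_pow_left₀ q1 (by linarith) 2)
    rw [mul_pow, ← pow_mul]
    exact mul_le_mul (le_self_pow₀ L1 (by norm_num)) x2 X20 (by positivity)
  have E1 : 1 ≤ E := L1.trans hE
  have s0 := h.s_nn S.jl
  have l00 : M.s S.jl ≤ l0 := (le_mul_of_one_le_left s0 E1).trans H.l0s
  have m1 : (S.n : ℝ) ≤ m := by exact_mod_cast I.m1
  have hp := hp_le A hθ' l00 ((le_mul_of_one_le_left (s0.trans l00) E1).trans H.l01) H.X0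
    ((le_mul_of_one_le_left H.X0.le E1).trans H.X1) H.γ0 H.pri.all H.pri.j0 (Z := Z) (by linarith)
    (le_trans (by
      have : S.v ≤ S.C * S.v * S.n := by
        have := le_mul_of_one_le_left v0.le (one_le_mul_of_one_le_of_one_le C1 n1)
        linarith
      linarith) n3)
    ((one_div_le_one_div_of_le h.N0 (by linarith)).trans n3) (A.sb_mem i2)
  have hp2 : (1 + 2 * S.C) * (100 * S.C ^ 4 * Z) ≤ Λ ^ 2 * Z := by
    refine le_trans ?_ l2
    rw [← mul_assoc]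
    refine mul_le_mul_of_nonneg_right ?_ Z0.le
    have := cp 5 (by norm_num)
    have : S.C ^ 4 ≤ S.C ^ 5 := pow_le_pow_right₀ C1 (by norm_num)
    linarith
  obtain ⟨r1, r2⟩ := h2 A le_rfl le_rfl (mj_u4 A.m_pos) (h.jl_lt.trans_le i1) (c.le.trans y1) y2.le
    (by linarith [min_le_left u0 (1 / (2 * S.C))]) (by positivity) W1.le N2 (i5.trans l2)
    (y4.trans ((mul_le_mul_of_nonneg_left (by linarith) L0.le).trans l2)) dI dy (hp.trans hp2)
    (dH := M.H k' - M.H S.J) (by linarith [h.leg.Hm yk, h.leg.Hm i1])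
  have kw : K0 * (Λ ^ 2 * Z) ≤ Λ ^ 3 * Z := by
    have := mul_le_mul_of_nonneg_right (show K0 ≤ Λ by linarith) (by positivity : 0 ≤ Λ ^ 2 * Z)
    linarith
  have fin : M.rb m a k ≤ M.rb m a i + (Λ ^ 3 * Z + Λ * B) := by
    rcases min_cases (√(M.H k' - M.H S.J)) (S.F * (M.H k' - M.H S.J) / S.θ) with x | x
    · have := mul_le_mul_of_nonneg_right (show K0 ≤ Λ by linarith) (sqrt_nonneg (M.H k' - M.H S.J))
      rw [hB, x.1]
      linarith [r1 k y1]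
    · have mu := mu_le A hθ' ((le_mul_of_one_le_right (by positivity) (one_le_pow₀ n1)).trans hv)
        i1 i2 (by
          have a := mul_le_mul_of_nonneg_left i6 (by positivity : 0 ≤ 8 * S.C ^ 3)
          have b := mul_le_mul_of_nonneg_right (show 8 * S.C ^ 3 ≤ Λ by
            linarith [cp 3 (by norm_num), pow_pos C0 3]) (by positivity : 0 ≤ Λ * Z)
          linarith)
      have r := r2 _ (by positivity) mu k y1
      have e : 2 * ((M.H k' - M.H S.J) / (S.θ / (1024 * S.C ^ 7))) =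
          2048 * S.C ^ 7 * (1 * (M.H k' - M.H S.J) / S.θ) := by field_simp; ring
      have e2 : 2048 * S.C ^ 7 * (1 * (M.H k' - M.H S.J) / S.θ) ≤
          Λ * (S.F * (M.H k' - M.H S.J) / S.θ) := by
        gcongr
        linarith [cp 7 (by norm_num), pow_pos C0 7]
      rw [hB, x.1]
      linarith
  have := A.del_up i2 a2 fin
  linarith

end T5

/-- **(TLt)** from the two sizes -/
theorem tlt_of (h2 : SzN2) (hG : SzG) : TLt := by
  refine (CL.and h2 hG).glue fun C => ⟨3, fun A hA ε η hε hη => ?_⟩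
  obtain ⟨K, hK⟩ := T5.core C
  refine ⟨ε, min (min ε 1) (η / 4), max K (4 * C ^ 3), hε, by positivity,
    fun S M m a G h I P l0 X Xp Vt X2 u1 j γ Lp b1 b2 b3 b4 b5 b6 b7 b8 b9 b10 b11 b12 b13 b14 b15
      b16 b17 b18 b19 b20 b21 b22 => ?_⟩
  have H : TH ((S.n : ℝ) ^ ε) S M m a l0 X Xp Vt X2 u1 j γ Lp :=
    ⟨b1, b2, b3, b4, b5, b6, b7, b8, b9, b10, b11, b12, b13, b14, b15, b16, b17, b18, b19, b20, b21,
      b22⟩
  have n1 := G.N1.le
  refine hK G.hC h I ((le_max_left _ _).trans G.K_le)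
    (rpow_le_rpow_of_exponent_le n1 ((min_le_left _ _).trans (min_le_left _ _))) ?_
    ((mul_le_mul_of_nonneg_right (le_max_left _ _) h.θ0.le).trans (G.Kθ h)) ?_ H
    (P.1 _ _ _ _ _ _ _ _ _ H) (P.2 _ _ _ _ _ _ _ _ _ H)
  · rw [← rpow_natCast, ← rpow_mul G.N0.le]
    exact rpow_le_rpow_of_exponent_le n1 (by
      have := min_le_right (min ε 1) (η / 4)
      push_cast; linarith)
  · have a1 : 4 * S.C ^ 3 ≤ S.n := by
      rw [G.hC]
      refine (le_max_right _ _).trans (G.K_le.trans ?_)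
      simpa using rpow_le_rpow_of_exponent_le n1 ((min_le_left _ (η / 4)).trans (min_le_right ε 1))
    have a2 : S.v * (S.n : ℝ) ^ 3 ≤ S.C := (mul_le_mul_of_nonneg_left
      (pow_le_pow_right₀ n1 (by rw [G.hA]; exact hA)) h.v0.le).trans h.v2
    have a3 := mul_le_mul_of_nonneg_left a2 (by have := h.C0; positivity : 0 ≤ 4 * S.C ^ 2)
    refine le_of_mul_le_mul_right ?_ G.N0
    linarith

end Crest.Agent.T156.Alt.L69

end
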