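import Crest.Agent.T156.NdS_89
import Crest.Agent.T156.TLt_5
import Crest.Agent.T156.Abel_33

/-!
# Row 156, block (L): `Γ''` of the mean profile a priori, and the numbers `Tau` (helper65)
-/

set_option autoImplicit false

noncomputable section

namespace Crest.Agent.T156.Alt.Gd65

open Real Finset
open Crest.Agent.R164.GC Crest.Agent.R339.B Crest.Agent.R339.Var Crest.Agent.T157.Pf
open Crest.Agent.T156.Alt.Mp9 Crest.Agent.T156.Alt.Sz9 Crest.Agent.T156.Alt.L69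
open Crest.Agent.T156.Alt.G89 (Ug Tau)
open Crest.Agent.T156.Alt.Ap63 (Sx)

variable {S : Sc} {M : Md} {m : ℕ} {a T : ℝ}

/-- pointwise bound -/
theorem gd_pt (T0 : ℝ) : ∃ K : ℝ, 1 ≤ K ∧ ∀ {S : Sc} {M : Md} {m : ℕ} {a T : ℝ}, At S M m a T →
    T ≤ T0 → ∀ {k : ℕ} {h : ℝ}, S.jl ≤ k → k < S.J →
    Rig.Hp (lh M T) (lb M S m a T) (sb M m a (k + 1)) ≤ h →
    G89.gd M S m a T k ≤ S.C * (S.θ / M.s k) + K * (h + |sb M m a (k + 1) - M.s k|) := by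
  obtain ⟨K, k1, hK⟩ := Pr.Cv25.Gd_two T0
  refine ⟨K, k1, fun {S M m a T} A hT k h h1 h2 hh => ?_⟩
  have c := A.cl
  have kp : k ≤ S.Jp := h2.le.trans c.i3
  have e := A.okh.2
  have p := (hK _ _ A.okb.1 A.okh.1 (A.okb.2.trans e.symm) (e.trans_le hT) (sb M m a (k + 1))
    (by rw [e]; exact A.sb_mem kp) (M.s k) (by rw [e]; exact ⟨c.s_nn k, (c.sm kp).trans A.t2⟩)
    h hh).1
  rw [A.lvb_node h1 kp, A.lvh_node (c.i1.trans h1) h2, sub_self, mul_zero, add_zero] at p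
  have s0 : 0 < M.s k := c.s_pos (c.i0.trans (c.i1.trans h1))
  have q := A.gd_h s0.le (c.s_lt h2 h2)
  have r : S.ms (M.s k) / max (M.s k) (M.s S.j0) ≤ S.θ / M.s k :=
    div_le_div₀ c.θ0.le (c.ms1 _) s0 (le_max_left _ _)
  have r' := mul_le_mul_of_nonneg_left r c.C0.le
  change |L0.Gd (lb M S m a T) (sb M m a (k + 1)) - L0.Gd (lh M T) (M.s k)| ≤ _ at p
  unfold G89.gd
  exact abs_le.2 ⟨by linarith [(abs_le.1 p).1, (abs_le.1 q).1],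
    by linarith [(abs_le.1 p).2, (abs_le.1 q).2]⟩

theorem ref_mem (h : Cl S M) {k : ℕ} (hk : k ≤ S.Jp) :
    0 ≤ M.s k - M.b * M.q k ∧ M.s k - M.b * M.q k ≤ S.C ^ 2 * S.θ := by
  obtain ⟨p, q⟩ := h.href le_rfl (h.s_nn k) (h.sm hk)
  have z : Pr.Gam M.lr 0 = 0 := Pp.Ode3.Gam_zero h.ap
  rw [z] at p q
  have a1 : 0 ≤ S.ms 0 / S.C * (M.s k - 0) :=
    mul_nonneg (div_pos (h.ms_pos le_rfl) h.C0).le (by linarith [h.s_nn k])
  have a2 : S.C * S.ms (M.s k) * (M.s k - 0) ≤ S.C * S.θ * S.C :=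
    mul_le_mul (mul_le_mul_of_nonneg_left (h.ms1 _) h.C0.le) (by linarith [h.s_le_C hk])
      (by linarith [h.s_nn k]) (mul_pos h.C0 h.θ0).le
  unfold Md.q
  exact ⟨by linarith, by linarith⟩

/-- the residual pointwise from its square sum -/
theorem G_top (h : Cl S M) {g : ℝ} (g0 : 0 ≤ g) (hg : Sx M.z M.G S.jl S.Jp 2 ≤ g ^ 2) {k : ℕ}
    (h1 : S.jl < k) (h2 : k ≤ S.J) : |M.G k| ≤ S.C ^ 2 * S.θ + S.C * g := by
  have C0 := h.C0
  have C1 := h.C1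
  have kp := h2.trans h.i3
  have e := h.H_eq h1 (kp.trans h.i4.le)
  have r := ref_mem h kp
  have H0 := h.H_nn k
  have cg : 0 ≤ S.C * g := by positivity
  refine abs_le.2 ⟨by linarith [r.2], not_lt.1 fun c => ?_⟩
  have b := Ap63.blk_le (y := M.G) (lo := S.jl) (hi := S.Jp) h.leg.zm (p := k - 1) (by omega)
    (show k - 1 ≤ S.Jp by omega) le_rfl (ρ := M.G k - S.C ^ 2 * S.θ) (by linarith)
    (fun i a b => le_trans (by
      linarith [h.H_eq (show S.jl < i by omega) (b.trans h.i4.le), (ref_mem h b).2, r.1,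
        h.leg.Hm (show k ≤ i by omega)]) (le_abs_self _)) 2
  rw [h.top _ le_rfl] at b
  have w : 1 / S.C ≤ 1 - M.z (k - 1) := by
    linarith [h.atom.2, h.leg.zm (show k - 1 ≤ S.J - 1 by omega)]
  have d : (S.C * g) ^ 2 < (M.G k - S.C ^ 2 * S.θ) ^ 2 :=
    pow_lt_pow_left₀ (by linarith) cg two_ne_zero
  have d2 := mul_lt_mul_of_pos_right d (show 0 < 1 / S.C by positivity)
  have d3 := mul_le_mul_of_nonneg_left w (sq_nonneg (M.G k - S.C ^ 2 * S.θ))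
  have d4 : (S.C * g) ^ 2 * (1 / S.C) = S.C * g ^ 2 := by field_simp
  nlinarith [sq_nonneg g]

/-- sup location from the energy of a window -/
theorem del_win (A : At S M m a T) (hθ : S.C * S.θ ≤ 1 / 2) {lo k : ℕ} {R γ ρ : ℝ}
    (l0 : S.j0 ≤ lo) (h1 : lo < k) (h2 : k ≤ S.J) (hγ : M.s S.Jp - M.s S.J ≤ γ) (R0 : 0 ≤ R)
    (R1 : R ≤ 1) (hS : Sx M.z (M.del m a) lo S.Jp 2 ≤ R ^ 3)
    (hρ : S.C ^ 2 * R + (S.C ^ 3 * S.v + S.C * S.v + γ) < ρ)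
    (hs : 2 * S.C * ρ < M.s k - M.s (lo + 1)) : |M.del m a k| ≤ 2 * ρ := by
  have h := A.cl
  have C0 := h.C0
  have C1 := h.C1
  have v0 := h.v0
  have W := Ap63.sw_q h ((Ap63.q_slow h h.i3 le_rfl).trans hγ)
  have g0 := W.g0 h
  have kp := h2.trans h.i3
  have c2 : 1 ≤ S.C ^ 2 := one_le_pow₀ C1
  have e0 : 0 ≤ S.C ^ 3 * S.v + S.C * S.v + γ := by positivity
  have p0 : R ≤ S.C ^ 2 * R := le_mul_of_one_le_left R0 c2
  have r0 : 0 < ρ := by linarith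
  have r2 : R ^ 2 ≤ ρ ^ 2 := pow_le_pow_left₀ R0 (by linarith) 2
  have cub : S.C ^ 2 * Sx M.z (fun j => M.rb m a j - M.q j) lo S.Jp 2 <
      ρ ^ 2 * (ρ - (S.C ^ 3 * S.v + S.C * S.v + γ)) :=
    calc _ ≤ S.C ^ 2 * R ^ 3 := mul_le_mul_of_nonneg_left hS (by positivity)
      _ = R ^ 2 * (S.C ^ 2 * R) := by ring
      _ ≤ ρ ^ 2 * (S.C ^ 2 * R) := mul_le_mul_of_nonneg_right r2 (by positivity)
      _ < _ := mul_lt_mul_of_pos_left (by linarith) (by positivity)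
  refine abs_le.2 ⟨not_lt.1 fun c => ?_, not_lt.1 fun c => ?_⟩
  · rcases Ap63.dn (ρ := ρ) h.leg.zm (rb_mono (M := M) (a := a) A.m_pos) (by positivity) W.mono
      (fun i k a => W.lip h i k (l0.trans a)) h1 kp r0.le (by unfold Md.del at c; linarith) 2
      with b | b
    · have q := (h.q_tel hθ (show lo + 1 ≤ k from h1) kp).1
      rw [div_le_iff₀ (by positivity)] at q
      nlinarith
    · exact absurd b (not_le.2 cub)
  · rcases Ap63.up (ρ := ρ) h.leg.zm (rb_mono (M := M) (a := a) A.m_pos) (by positivity) W.mono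
      (fun i k a => W.lip h i k (l0.trans a)) h1 kp r0.le (by unfold Md.del at c; linarith) 2
      with b | b
    · rw [h.top _ le_rfl] at b
      have w : 1 / S.C ≤ 1 - M.z (k - 1) := by
        linarith [h.atom.2, h.leg.zm (show k - 1 ≤ S.J - 1 by omega)]
      have d : (S.C ^ 2 * R) ^ 2 < ρ ^ 2 := pow_lt_pow_left₀ (by linarith) (by positivity) two_ne_zero
      have d2 := mul_lt_mul_of_pos_right d (show 0 < 1 / S.C by positivity)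
      have d3 := mul_le_mul_of_nonneg_left w (sq_nonneg ρ)
      have d4 : (S.C ^ 2 * R) ^ 2 * (1 / S.C) = S.C ^ 3 * R ^ 2 := by field_simp
      have d5 : R ^ 3 ≤ S.C ^ 3 * R ^ 2 := by
        rw [pow_succ' R]
        exact mul_le_mul_of_nonneg_right (R1.trans (one_le_pow₀ C1)) (sq_nonneg R)
      have d6 : Sx M.z (fun j => M.rb m a j - M.q j) lo S.Jp 2 ≤ R ^ 3 := hS
      linarith
    · exact absurd b (not_le.2 cub)

theorem inv_le (A : At S M m a T) : 1 / ((m : ℝ) + 1) ≤ S.θ := by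
  have h := A.cl
  have a1 := h.ms_ge zero_le_one
  rw [rpow_neg_one, ← one_div] at a1
  have a2 : (S.n : ℝ) ≤ m := by exact_mod_cast A.mem.m1
  exact (one_div_le_one_div_of_le h.N0 (by linarith)).trans a1

/-- **a priori bound of `Γ''`** from the energy `R ^ 3` above the node `lo` -/
theorem gd_win (T0 : ℝ) : ∃ K : ℝ, 1 ≤ K ∧ ∀ {S : Sc} {M : Md} {m : ℕ} {a T : ℝ}, At S M m a T →
    T ≤ T0 → ∀ {l0 X γ j R : ℝ} {lo k : ℕ}, S.C * S.θ ≤ 1 / 2 → S.v ≤ S.θ → M.s S.jl ≤ l0 →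
    l0 ≤ 1 → 0 < X → X ≤ 1 → M.s S.Jp - M.s S.J ≤ γ → Phi M S m a ≤ X →
    √X + √(GS M S 0 S.C + GP M S) + l0 ^ 2 ≤ j → S.jl ≤ lo → lo < k → k < S.J → 0 ≤ R → R ≤ 1 →
    Sx M.z (M.del m a) lo S.Jp 2 ≤ R ^ 3 →
    2 * S.C * (S.C ^ 2 * R + 3 * S.C ^ 3 * S.θ + γ) < M.s k - M.s (lo + 1) →
    |M.del m a k| ≤ 2 * (S.C ^ 2 * R + 3 * S.C ^ 3 * S.θ + γ) ∧
    |sb M m a (k + 1) - M.s k| ≤ 8 * S.C ^ 4 * (S.θ + j + γ + R) ∧
    G89.gd M S m a T k ≤ S.C * (S.θ / M.s k) + K * S.C ^ 4 * (S.θ + j + γ + R) := by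
  obtain ⟨K, k1, hK⟩ := gd_pt T0
  refine ⟨K * (100 * (1 + |T0|) + 8), by nlinarith [abs_nonneg T0], fun {S M m a T} A hT l0 X γ j R
    lo k hθ hv l1 l2 X0 X1 hγ hX hj h0 h1 h2 R0 R1 hS hs => ?_⟩
  have h := A.cl
  have C0 := h.C0
  have C1 := h.C1
  have v0 := h.v0
  have t0 := h.θ0
  have g0 : 0 ≤ γ := (sub_nonneg.2 (h.sm h.i3)).trans hγ
  have q0 := sqrt_nonneg X
  have q1 := sqrt_nonneg (GS M S 0 S.C + GP M S)
  have j1 : √(GS M S 0 S.C + GP M S) ≤ j := by linarith [sq_nonneg l0]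
  have j0 : 0 ≤ j := q1.trans j1
  have kp := h2.le.trans h.i3
  have c1 : S.C ≤ S.C ^ 2 := le_self_pow₀ C1 two_ne_zero
  have c2 : S.C ^ 2 ≤ S.C ^ 3 := pow_le_pow_right₀ C1 (by norm_num)
  have c3 : S.C ^ 3 ≤ S.C ^ 4 := pow_le_pow_right₀ C1 (by norm_num)
  have i1 := inv_le A
  have d := del_win A hθ (ρ := S.C ^ 2 * R + 3 * S.C ^ 3 * S.θ + γ) (h.i1.trans h0) h1 h2.le hγ R0 R1
    hS (by
      have := mul_le_mul_of_nonneg_left hv (show 0 ≤ S.C ^ 3 by positivity)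
      have := mul_le_mul (c1.trans c2) hv v0.le (by positivity)
      have : 0 < S.C ^ 3 * S.θ := by positivity
      linarith) hs
  have g := G_top h j0 (by
    rw [T5.G_eq h, ← sq_sqrt (T5.G_eq h ▸ Ap63.Sx_nn h.leg.zm 2 : 0 ≤ GS M S 0 S.C + GP M S)]
    exact pow_le_pow_left₀ q1 j1 2) (h0.trans_lt h1) h2.le
  have u := A.sub_le (A.jp_le kp)
  have u1 : S.C / (m + 1) ≤ S.C * S.θ := by
    rw [div_eq_mul_one_div]; exact mul_le_mul_of_nonneg_left i1 C0.le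
  have u2 := mul_le_mul_of_nonneg_left d C0.le
  have u3 : |sb M m a (k + 1) - M.s k| ≤ 8 * S.C ^ 4 * (S.θ + j + γ + R) := by
    have c4 := c2.trans c3
    have c5 := c1.trans c4
    linarith [mul_le_mul_of_nonneg_right c3 R0, mul_le_mul_of_nonneg_right c4 t0.le,
      mul_le_mul_of_nonneg_right c5 t0.le, mul_le_mul_of_nonneg_right c5 g0,
      mul_le_mul_of_nonneg_right c5 j0, mul_nonneg (pow_pos C0 4).le R0,
      mul_nonneg (pow_pos C0 4).le j0, mul_nonneg (pow_pos C0 4).le g0]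
  refine ⟨d, u3, ?_⟩
  have p := T5.hp_le A (Z := S.θ + j + γ + R) hθ l1 l2 X0 X1 hγ hX hj (by linarith) (by linarith)
    (by linarith) (A.sb_mem kp)
  have p2 : (1 + T) * (100 * S.C ^ 4 * (S.θ + j + γ + R)) ≤
      (1 + |T0|) * (100 * S.C ^ 4 * (S.θ + j + γ + R)) :=
    mul_le_mul_of_nonneg_right (by linarith [le_abs_self T0]) (by positivity)
  have p3 := hK A hT (h0.trans h1.le) h2 (p.trans p2)
  have p4 := mul_le_mul_of_nonneg_left u3 (zero_le_one.trans k1)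
  linarith

theorem s_top (h : Cl S M) {k : ℕ} (h1 : S.J ≤ 8 * k) (h2 : k ≤ S.J) :
    1 ≤ 24 * S.C ^ 5 * M.s k := by
  have C0 := h.C0
  have a1 := Ab33.sJ_ge h
  have a2 := (h.s_bds (le_refl S.J)).2
  have a3 := Ab33.kv_le h h2
  have a4 : (S.J : ℝ) ≤ 8 * k := by exact_mod_cast h1
  have a5 := mul_le_mul_of_nonneg_right a4 (mul_pos C0 h.v0).le
  have a6 := mul_le_mul_of_nonneg_left a3 C0.le
  have a7 : M.s S.J ≤ 8 * S.C ^ 2 * M.s k := by linarith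
  linarith [mul_le_mul_of_nonneg_left a7 (show 0 ≤ 3 * S.C ^ 3 by positivity)]

/-- the output: location and `Γ''` at the node `k` -/
def Out (K : ℝ) (S : Sc) (M : Md) (m : ℕ) (a T j γ R : ℝ) (k : ℕ) : Prop :=
  |M.del m a k| ≤ K * (S.θ + γ + R) ∧ |sb M m a (k + 1) - M.s k| ≤ K * (S.θ + j + γ + R) ∧
    G89.gd M S m a T k ≤ K * (S.θ + j + γ + R)

theorem cb3 {x : ℝ} (hx : 0 ≤ x) : (x ^ ((1 : ℝ) / 3)) ^ 3 = x := by
  rw [← rpow_natCast, ← rpow_mul hx]; norm_num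

/-- **(gd_top)**: `X ^ (1/3)` on `J ≤ 8 k`, `Xp ^ (1/3)` on `5/8 s J ≤ s k` -/
theorem gd_top (C : ℝ) : ∃ K : ℝ, 1 ≤ K ∧ ∀ {S : Sc} {M : Md} {m : ℕ} {a T : ℝ}, S.C = C →
    At S M m a T → T ≤ 2 * S.C → ∀ {E l0 X Xp Vt u1 γ j : ℝ}, K ≤ E → K * S.θ ≤ 1 → S.v ≤ S.θ →
    E * M.s S.jl ≤ l0 → l0 ≤ 1 → 0 < X → E * X ≤ 1 → M.s S.Jp - M.s S.J ≤ γ → E * γ ≤ 1 →
    Ap S M m a l0 X Xp Vt u1 j →
    (∀ k, S.J ≤ 8 * k → k < S.J → Out K S M m a T j γ (X ^ ((1 : ℝ) / 3)) k) ∧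
    (0 < Xp → E * Xp ≤ 1 → ∀ k, 5 * M.s S.J ≤ 8 * M.s k → k < S.J →
      Out K S M m a T j γ (Xp ^ ((1 : ℝ) / 3)) k) := by
  obtain ⟨K, k1, hK⟩ := gd_win (2 * C)
  refine ⟨(300 * (1 + |C|) ^ 9) ^ 3 + K * C ^ 4 + 24 * C ^ 6, ?_, fun {S M m a T} hC A hT E l0 X Xp Vt
    u1 γ j hE hθ hv l1 l2 X0 X1 hγ g1 P => ?_⟩
  · have : 1 ≤ (1 + |C|) ^ 9 := one_le_pow₀ (by linarith [abs_nonneg C])
    have : 1 ≤ (300 * (1 + |C|) ^ 9) ^ 3 := one_le_pow₀ (by linarith)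
    have : 0 ≤ K * C ^ 4 := by positivity
    have : 0 ≤ C ^ 6 := by positivity
    linarith
  subst hC
  have h := A.cl
  have C0 := h.C0
  have C1 := h.C1
  have v0 := h.v0
  have t0 := h.θ0
  have g0 : 0 ≤ γ := (sub_nonneg.2 (h.sm h.i3)).trans hγ
  have j0 : 0 ≤ j := le_trans (by positivity) P.j0
  obtain ⟨Q, hQ⟩ : ∃ Q, Q = 300 * S.C ^ 9 := ⟨_, rfl⟩
  have c9 : 1 ≤ S.C ^ 9 := one_le_pow₀ C1
  have Q1 : 1 ≤ Q := by linarith
  have Q0 : 0 < Q := by linarith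
  have Q2 : Q ≤ Q ^ 3 := le_self_pow₀ Q1 (by norm_num)
  have Q3 : Q ^ 3 ≤ (300 * (1 + |S.C|) ^ 9) ^ 3 := by
    rw [hQ]; gcongr; linarith [le_abs_self S.C]
  have k4 : 0 ≤ K * S.C ^ 4 := by positivity
  have k6 : 0 ≤ 24 * S.C ^ 6 := by positivity
  generalize (300 * (1 + |S.C|) ^ 9) ^ 3 = W at *
  have sm : ∀ {x : ℝ}, 0 ≤ x → E * x ≤ 1 → x ≤ 1 / Q := fun {x} x0 x1 => by
    rw [le_div_iff₀' Q0]
    exact (mul_le_mul_of_nonneg_right (by linarith) x0).trans x1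
  have sm3 : ∀ {x : ℝ}, 0 < x → E * x ≤ 1 → x ^ ((1 : ℝ) / 3) ≤ 1 / Q := fun {x} x0 x1 => by
    refine le_of_pow_le_pow_left₀ (n := 3) (by norm_num) (by positivity) ?_
    rw [cb3 x0.le, div_pow, one_pow, le_div_iff₀' (by positivity)]
    exact (mul_le_mul_of_nonneg_right (by linarith) x0.le).trans x1
  have y1 : S.θ ≤ 1 / Q := by
    rw [le_div_iff₀' Q0]
    exact (mul_le_mul_of_nonneg_right (by linarith) t0.le).trans hθ
  have y2 := sm g0 g1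
  have y3 := sm (h.s_nn S.jl) (l1.trans l2)
  have y4 := sm X0.le X1
  have y0 : 0 < 1 / Q := by positivity
  have yQ : 300 * S.C ^ 9 * (1 / Q) = 1 := by rw [← hQ]; field_simp
  have y5 : 1 / Q ≤ 1 := (div_le_one Q0).2 Q1
  generalize 1 / Q = y at *
  have E1 : 1 ≤ E := by linarith
  have c1 : S.C ≤ S.C ^ 4 := le_self_pow₀ C1 (by norm_num)
  have c2 : S.C ^ 2 ≤ S.C ^ 4 := pow_le_pow_right₀ C1 (by norm_num)
  have c3 : S.C ^ 3 ≤ S.C ^ 4 := pow_le_pow_right₀ C1 (by norm_num)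
  have c4 : S.C ^ 4 ≤ S.C ^ 6 := pow_le_pow_right₀ C1 (by norm_num)
  have c5 : S.C ≤ S.C ^ 9 := le_self_pow₀ C1 (by norm_num)
  have hθ' : S.C * S.θ ≤ 1 / 2 := by
    linarith [mul_le_mul c5 y1 t0.le (by positivity), mul_pos (pow_pos C0 9) y0]
  have cv : S.C * S.v ≤ S.C ^ 4 * y := mul_le_mul c1 (hv.trans y1) v0.le (by positivity)
  have cy : y ≤ S.C ^ 4 * y := le_mul_of_one_le_left y0.le (C1.trans c1)
  have tp : ∀ {t : ℝ}, 1 ≤ 24 * S.C ^ 5 * t → 25 / 2 * (S.C ^ 4 * y) ≤ t := fun {t} ht =>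
    le_of_mul_le_mul_left (by linarith) (show 0 < 24 * S.C ^ 5 by positivity)
  have main : ∀ {R : ℝ} {lo k : ℕ}, 0 ≤ R → R ≤ y → S.jl ≤ lo → k < S.J →
      Sx M.z (M.del m a) lo S.Jp 2 ≤ R ^ 3 → 1 ≤ 24 * S.C ^ 5 * M.s k →
      10 * (S.C ^ 4 * y) < M.s k - M.s (lo + 1) →
      Out (W + K * S.C ^ 4 + 24 * S.C ^ 6) S M m a T j γ R k := fun {R lo k} R0 R1 h0 h2 hS hk hs => by
    have h1 : lo < k := by
      by_contra c
      linarith [h.sm (show k ≤ lo + 1 by omega), mul_pos (pow_pos C0 4) y0]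
    obtain ⟨o1, o2, o3⟩ := hK A hT hθ' hv ((le_mul_of_one_le_left (h.s_nn _) E1).trans l1) l2 X0
      (y4.trans y5) hγ P.all P.j0 h0 h1 h2 R0 (R1.trans y5) hS (by
        linarith [mul_le_mul c3 R1 R0 (by positivity), mul_le_mul c1 y2 g0 (by positivity),
          mul_le_mul_of_nonneg_left y1 (pow_pos C0 4).le])
    have s0 : 0 < M.s k := h.s_pos (by omega)
    have o4 : S.θ / M.s k ≤ 24 * S.C ^ 5 * S.θ := by
      rw [div_le_iff₀ s0]; linarith [mul_le_mul_of_nonneg_left hk t0.le]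
    have o5 := mul_le_mul_of_nonneg_left o4 C0.le
    have z1 : 0 ≤ S.θ + γ + R := by positivity
    have z2 : 0 ≤ S.θ + j + γ + R := by positivity
    have W0 : 0 ≤ W := by linarith
    refine ⟨o1.trans ?_, o2.trans (mul_le_mul_of_nonneg_right (by linarith) z2), o3.trans ?_⟩
    · refine le_trans ?_ (mul_le_mul_of_nonneg_right
        (show 6 * S.C ^ 4 ≤ W + K * S.C ^ 4 + 24 * S.C ^ 6 by linarith) z1)
      linarith [mul_le_mul_of_nonneg_right c2 R0, mul_le_mul_of_nonneg_right c3 t0.le,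
        mul_le_mul_of_nonneg_right (C1.trans c1) g0, mul_nonneg (pow_pos C0 4).le R0,
        mul_nonneg (pow_pos C0 4).le g0]
    · linarith [mul_nonneg W0 z2, mul_nonneg k6 (show 0 ≤ j + γ + R by positivity)]
  refine ⟨fun k h1 h2 => ?_, fun p0 p1 k h1 h2 => ?_⟩
  · have a1 := s_top h h1 h2.le
    refine main (by positivity) (sm3 X0 X1) le_rfl h2 ?_ a1 (by
      linarith [tp a1, Ap63.s_lo1 h h.jl_lt, mul_pos (pow_pos C0 4) y0])
    rw [cb3 X0.le]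
    refine le_trans ?_ P.all
    rw [Phi, Ap63.En_eq h]
    exact sum_le_sum_of_subset_of_nonneg (Ioc_subset_Ioc_left h.i1) fun k _ _ =>
      mul_nonneg (Ap63.w_nn h.leg.zm k) (by positivity)
  · have a0 := Ab33.sJ_ge h
    have sJ : 0 < M.s S.J := h.s_pos (by have := h.i2; omega)
    have a1 : 3 * S.C ^ 3 * M.s S.J ≤ 3 * S.C ^ 5 * M.s S.J := by
      linarith [mul_le_mul_of_nonneg_right (pow_le_pow_right₀ C1 (by norm_num : 3 ≤ 5)) sJ.le]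
    have a2 := tp (t := M.s S.J / 8) (by linarith)
    obtain ⟨lo, b0, b1, b2, b3⟩ := h.exists_node (t := M.s S.J / 2) (by linarith) (by linarith)
    have b4 : S.jl ≤ lo := by
      by_contra c
      linarith [h.sm (show lo + 1 ≤ S.jl by omega), mul_pos (pow_pos C0 4) y0]
    refine main (by positivity) (sm3 p0 p1) b4 h2 ?_ (by
      linarith [mul_le_mul_of_nonneg_left h1 (pow_pos C0 5).le,
        mul_pos (pow_pos C0 5) sJ]) (by
      linarith [Ap63.s_lo1 h b0, mul_pos (pow_pos C0 4) y0])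
    rw [cb3 p0.le]
    refine le_trans ?_ P.top
    refine sum_le_sum_of_subset_of_nonneg (fun i hi => ?_) fun k _ _ =>
      mul_nonneg (Ap63.w_nn h.leg.zm k) (by positivity)
    obtain ⟨i1, i2⟩ := mem_Ioc.1 hi
    exact mem_filter.2 ⟨mem_Ioc.2 ⟨(h.i1.trans b4).trans_lt i1, i2⟩,
      b2.le.trans (h.sm i1), h.s_le_C i2⟩

section tau

variable {E l0 l V X Lg X2 X3 G0 : ℝ} {η : ℝ → ℝ}

theorem Ug_le (h : Cl S M) (g1 : 1 ≤ Lg) {t : ℝ} (t0 : 0 < t) :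
    0 ≤ Ug S Lg t ∧ Lg * Ug S Lg t ≤ uw S Lg t ∧ Lg ^ 2 * w1 S t ≤ uw S Lg t := by
  have c1 : 1 ≤ cr S t := le_max_left _ _
  have w0 : 0 ≤ w1 S t := by
    have := h.F1; have := h.N0; have := h.ms_pos t0.le
    unfold w1 Sc.w3; positivity
  have p := rpow_le_self_of_one_le (one_le_mul_of_one_le_of_one_le g1 c1)
    (by norm_num : (2 : ℝ) / 3 ≤ 1)
  have e : uw S Lg t = Lg ^ 2 * cr S t * w1 S t := rfl
  rw [e]
  unfold Ug Nd22.U
  refine ⟨by positivity, ?_, ?_⟩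
  · linarith [mul_le_mul_of_nonneg_left (mul_le_mul_of_nonneg_right p w0) (zero_le_one.trans g1)]
  · linarith [mul_le_mul_of_nonneg_left c1 (show 0 ≤ Lg ^ 2 * w1 S t by positivity)]

/-- **`Tau` from the thickness numbers** -/
theorem tau_ln (h : Cl S M) (N : LN E S M l0 l V X Lg X2 X3 G0 η) (hE : 24 * S.C ^ 5 ≤ E)
    {E' D1 τ1 : ℝ} (d1 : ∀ k, S.J ≤ 2 * k → k < S.J → G89.gd M S m a T k ≤ D1) (D0 : 0 ≤ D1)
    (hτ : (√S.θ + D1 / Lg ^ 2) / E ≤ τ1) (t2 : E' * τ1 ^ 2 ≤ 1) : Tau E' S M m a T Lg D1 τ1 η := by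
  refine ⟨d1, fun k h1 h2 => ?_, t2⟩
  have c5 : 1 ≤ S.C ^ 5 := one_le_pow₀ h.C1
  have E0 : 0 < E := by linarith
  have F1 := h.F1
  have g1 : 1 ≤ Lg := le_trans (one_le_mul_of_one_le_of_one_le (by linarith) (one_le_pow₀ F1)) N.Lg0
  have s0 : 0 < M.s k := h.s_pos (by have := h.i2; omega)
  have a1 := s_top h (show S.J ≤ 8 * k by omega) h2.le
  have a2 : l ≤ M.s k := le_of_mul_le_mul_left
    (by linarith [N.l1, mul_le_mul_of_nonneg_right hE s0.le]) E0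
  have a3 := h.s_le_C (h2.le.trans h.i3)
  have m0 : 0 < mf S (M.s k) := div_pos (h.ms_pos s0.le) (by linarith)
  have m1 : mf S (M.s k) ≤ S.θ := (div_le_self (h.ms_pos s0.le).le F1).trans (h.ms1 _)
  have b1 := N.th1 _ a2 a3
  have b2 := N.th2 _ a2 a3
  obtain ⟨u0, u1, u2⟩ := Ug_le h g1 s0
  have e1 : mf S (M.s k) ^ ((3 : ℝ) / 2) = √(mf S (M.s k)) * mf S (M.s k) := by
    rw [sqrt_eq_rpow, ← rpow_add_one m0.ne']; norm_num
  have b3 : η (M.s k) ≤ √S.θ / E * mf S (M.s k) := by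
    rw [div_mul_eq_mul_div, le_div_iff₀' E0]
    exact b1.trans (e1.trans_le (mul_le_mul_of_nonneg_right (sqrt_le_sqrt m1) m0.le))
  have b4 : Ug S Lg (M.s k) ^ 2 ≤ mf S (M.s k) / (E * Lg ^ 2) := by
    rw [le_div_iff₀ (by positivity)]
    have := mul_le_mul_of_nonneg_left (pow_le_pow_left₀ (by positivity) u1 2) E0.le
    linarith
  have b5 := mul_le_mul_of_nonneg_right b4 D0
  have b6 := mul_le_mul_of_nonneg_right hτ m0.le
  have e2 : (√S.θ + D1 / Lg ^ 2) / E * mf S (M.s k) =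
      √S.θ / E * mf S (M.s k) + mf S (M.s k) / (E * Lg ^ 2) * D1 := by field_simp
  refine ⟨by linarith, le_trans ?_ hτ⟩
  have E1 : 1 ≤ E := by linarith
  have g2 : E ≤ Lg ^ 2 := ((le_mul_of_one_le_right E0.le (one_le_pow₀ F1)).trans N.Lg0).trans
    (le_self_pow₀ g1 two_ne_zero)
  have w0 : 0 ≤ w1 S (M.s k) := by
    have := h.N0; have := h.ms_pos s0.le
    unfold w1 Sc.w3; positivity
  have b7 : uw S Lg (M.s k) ≤ √S.θ :=
    le_sqrt_of_sq_le (((le_mul_of_one_le_left (sq_nonneg _) E1).trans b2).trans m1)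
  rw [le_div_iff₀' E0]
  linarith [mul_le_mul_of_nonneg_right g2 w0, div_nonneg D0 (sq_nonneg Lg)]

/-- the canonical margin -/
def tau (E : ℝ) (S : Sc) (Lg D1 : ℝ) : ℝ := (√S.θ + D1 / Lg ^ 2) / E

theorem tau_can (h : Cl S M) (N : LN E S M l0 l V X Lg X2 X3 G0 η) (hE : 24 * S.C ^ 5 ≤ E)
    (hθ : S.θ ≤ 1) {D1 : ℝ} (d1 : ∀ k, S.J ≤ 2 * k → k < S.J → G89.gd M S m a T k ≤ D1)
    (D0 : 0 ≤ D1) (D2 : D1 ≤ E ^ 2) :
    Tau E S M m a T Lg D1 (tau E S Lg D1) η ∧ 0 < tau E S Lg D1 ∧ E * tau E S Lg D1 ≤ 2 := by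
  have c5 : 1 ≤ S.C ^ 5 := one_le_pow₀ h.C1
  have E0 : 0 < E := by linarith
  have g1 : E ≤ Lg := (le_mul_of_one_le_right E0.le (one_le_pow₀ h.F1)).trans N.Lg0
  have g0 : 0 < Lg := E0.trans_le g1
  have a1 : D1 / Lg ^ 2 ≤ 1 := (div_le_one (by positivity)).2 (D2.trans (pow_le_pow_left₀ E0.le g1 2))
  have a2 : √S.θ ≤ 1 := sqrt_le_one.2 hθ
  have a3 : 0 < √S.θ := sqrt_pos.2 h.θ0
  have a4 : E * tau E S Lg D1 = √S.θ + D1 / Lg ^ 2 := by unfold tau; field_simp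
  have a5 : 0 < tau E S Lg D1 := by unfold tau; positivity
  have a6 : E * tau E S Lg D1 ≤ 2 := by linarith
  refine ⟨tau_ln h N hE d1 D0 le_rfl ?_, a5, a6⟩
  nlinarith [mul_le_mul_of_nonneg_right a6 a5.le, mul_le_mul_of_nonneg_right
    (show (24 : ℝ) ≤ E by linarith) a5.le]

/-- the crude numbers: no a priori bound -/
theorem tau_crude (A : At S M m a T) (N : LN E S M l0 l V X Lg X2 X3 G0 η)
    (hE : 24 * S.C ^ 5 ≤ E) (hθ : S.θ ≤ 1) (hT : T ≤ 2 * S.C) :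
    Tau E S M m a T Lg (10 * S.C) (tau E S Lg (10 * S.C)) η ∧ 0 < tau E S Lg (10 * S.C) ∧
      E * tau E S Lg (10 * S.C) ≤ 2 := by
  have C1 := A.cl.C1
  have c5 : S.C ≤ S.C ^ 5 := le_self_pow₀ C1 (by norm_num)
  exact tau_can A.cl N hE hθ (fun k _ h2 => (Tq5.abs_Gd A (h2.le.trans A.cl.i3)).trans (by linarith))
    (by linarith) (by nlinarith)

end tau

theorem v_le {C η K : ℝ} {A : ℕ} (G : RgC C A η K S) (h : Cl S M) : S.v ≤ S.θ := by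
  have a1 := h.ms_ge zero_le_one
  rw [rpow_neg_one, ← one_div] at a1
  refine le_trans ?_ a1
  have n0 := G.N0
  have a2 : (S.n : ℝ) ^ 2 ≤ (S.n : ℝ) ^ S.A := pow_le_pow_right₀ G.N1.le (G.hA ▸ G.A2)
  have a3 := (mul_le_mul_of_nonneg_left a2 h.v0.le).trans h.v2
  have a4 : S.C ≤ S.n := by linarith [G.C_log, G.hC, log_le_self n0.le, h.C0]
  rw [le_div_iff₀ n0]
  exact le_of_mul_le_mul_right (by linarith) n0

/-- **(GdT)** -/
def GdT : Prop := CL fun E Λ S M m a => ∀ l0 X Xp Vt u1 γ j T, At S M m a T → T ≤ 2 * S.C →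
  E * M.s S.jl ≤ l0 → l0 ≤ 1 → 0 < X → E * X ≤ 1 → M.s S.Jp - M.s S.J ≤ γ → E * γ ≤ 1 →
  Ap S M m a l0 X Xp Vt u1 j →
  (∀ k, S.J ≤ 8 * k → k < S.J → Out Λ S M m a T j γ (X ^ ((1 : ℝ) / 3)) k) ∧
  (0 < Xp → E * Xp ≤ 1 → ∀ k, 5 * M.s S.J ≤ 8 * M.s k → k < S.J →
    Out Λ S M m a T j γ (Xp ^ ((1 : ℝ) / 3)) k)

theorem Out.mono {K K' j γ R : ℝ} {k : ℕ} (k1 : 1 ≤ K) (h : K ≤ K') (o : Out K S M m a T j γ R k) :
    Out K' S M m a T j γ R k := by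
  have f : ∀ {x y : ℝ}, 0 ≤ x → x ≤ K * y → x ≤ K' * y := fun {x y} x0 b =>
    b.trans (mul_le_mul_of_nonneg_right h
      (nonneg_of_mul_nonneg_right (x0.trans b) (by linarith) |> id))
  exact ⟨f (abs_nonneg _) o.1, f (abs_nonneg _) o.2.1, f (abs_nonneg _) o.2.2⟩

theorem gdT : GdT := by
  refine CL.intro (fun E Λ Λ' S M m a h1 h2 H l0 X Xp Vt u1 γ j T b1 b2 b3 b4 b5 b6 b7 b8 b9 => ?_)
    0 1 1 fun C A ε η _ _ => ?_
  · obtain ⟨p, q⟩ := H l0 X Xp Vt u1 γ j T b1 b2 b3 b4 b5 b6 b7 b8 b9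
    exact ⟨fun k x y => (p k x y).mono h1 h2, fun z w k x y => (q z w k x y).mono h1 h2⟩
  obtain ⟨K, k1, hK⟩ := gd_top C
  refine ⟨K, fun S M m a G _ e _ h _ l0 X Xp Vt u1 γ j T b1 b2 b3 b4 b5 b6 b7 b8 b9 => ?_⟩
  rw [pow_one]
  obtain ⟨p, q⟩ := hK G.hC b1 b2 (G.K_le.trans (Pre29.rp_le G.n1 (by simpa using e))) (G.Kθ h) (v_le G h)
    b3 b4 b5 b6 b7 b8 b9
  exact ⟨fun k x y => (p k x y).mono k1 G.K_le, fun z w k x y => (q z w k x y).mono k1 G.K_le⟩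

/-- **(TauS)** the numbers `Tau` from `LN` and the a priori bounds -/
def TauS : Prop := CL fun E Λ S M m a => ∀ l0 l V X Lg X2 X3 G0 η Xp Vt u1 γ j T D1,
  LN E S M l0 l V X Lg X2 X3 G0 η → M.s S.Jp - M.s S.J ≤ γ → E * γ ≤ 1 →
  Ap S M m a l0 X Xp Vt u1 j → At S M m a T → T ≤ 2 * S.C →
  min (Λ * (S.θ + j + γ + X ^ ((1 : ℝ) / 3))) (10 * S.C) ≤ D1 → D1 ≤ E ^ 2 →
  Tau E S M m a T Lg D1 (tau E S Lg D1) η ∧ 0 < tau E S Lg D1 ∧ E * tau E S Lg D1 ≤ 2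

theorem tauS : TauS := by
  refine CL.glue' gdT (fun E Λ Λ' S M m a h1 h2 H l0 l V X Lg X2 X3 G0 η Xp Vt u1 γ j T D1 N b1 b2 P
    B hT d => H l0 l V X Lg X2 X3 G0 η Xp Vt u1 γ j T D1 N b1 b2 P B hT (le_trans (min_le_min_right _
      (mul_le_mul_of_nonneg_right h2 ?_)) d)) 0 le_rfl 1 1 fun C A ε η _ _ => ⟨24 * C ^ 5, ?_⟩
  · have := B.cl.θ0
    have : 0 ≤ j := le_trans (by positivity) P.j0
    have : 0 ≤ γ := (sub_nonneg.2 (B.cl.sm B.cl.i3)).trans b1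
    have := N.X0
    positivity
  intro S M m a G _ e _ h _ H l0 l V X Lg X2 X3 G0 η' Xp Vt u1 γ j T D1 N b1 b2 P B hT d d2
  rw [pow_one] at *
  have hE : 24 * S.C ^ 5 ≤ (S.n : ℝ) ^ ε := by
    rw [G.hC]; exact G.K_le.trans (Pre29.rp_le G.n1 (by simpa using e))
  have c5 : 1 ≤ S.C ^ 5 := one_le_pow₀ h.C1
  have l0' : 0 ≤ l0 := (mul_nonneg (by linarith) (h.s_nn _)).trans N.l0s
  have l1 : l0 ≤ 1 := by nlinarith [N.l0l, N.l1]
  have o := (H l0 X Xp Vt u1 γ j T B hT N.l0s l1 N.X0 N.X1 b1 b2 P).1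
  have f : ∀ k, S.J ≤ 2 * k → k < S.J → G89.gd M S m a T k ≤ D1 := fun k x y =>
    (le_min (o k (by omega) y).2.2 ((Tq5.abs_Gd B (y.le.trans h.i3)).trans
      (by linarith [h.C1]))).trans d
  have i2 := h.i2
  exact tau_can h N hE (G.θ1 h) f ((abs_nonneg _).trans (f (S.J - 1) (by omega) (by omega))) d2

end Crest.Agent.T156.Alt.Gd65

end
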