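import Crest.Agent.T156.CaVar_6
import Crest.Agent.T156.CaPe_45

/-!
# Row 156, cascade frame (helper68): Itô formula inside a level, Girsanov identity

* `heat`, `hjb`, `ito` : the generator of a level split at time `ρ`;
* `gir`, `kl` : drift of the value of a second weight `w'` under the path law of `w`;
* `tele` : telescoping along the path.
-/

set_option autoImplicit false
set_option linter.unusedSectionVars false

noncomputable section

namespace Crest.Agent.T156.Cas.Gir68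

open MeasureTheory Real Set Filter Topology
open Crest.Agent.T157.E Crest.Agent.T157.Casc Crest.Agent.T157.SL
open Var6 (vT vT_at vT_S vT_c1 vT_cont)

variable {Ω : Type} [Fintype Ω] {w w' : Ω → ℝ} {I : Set ℝ}

open Classical in
/-- the heat equation along a moving level -/
theorem heat (hI : IsOpen I) {l : TL Ω} (hl : l.OkD I) {G a : Pt Ω → ℝ} {b : Ω → Pt Ω → ℝ}
    (h : Sm I G a b) {t : ℝ} (ht : t ∈ I) {c : Ω → Ω → (Ω → ℝ) → ℝ}
    (hc : ∀ x, Gr (fun z => b x (t, z)) (c x)) (z : Ω → ℝ) :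
    HasDerivAt (fun s => ∫ g, G (s, z + (l.at s).fld g) ∂gv l.ι)
      (∫ g, (a (t, z + (l.at t).fld g) +
        ∑ x, ∑ y, l.S t x y * c x y (z + (l.at t).fld g)) ∂gv l.ι) t := by
  have h1 := ((h.iL hI hl).fd (t, z) ht).comp_hasDerivAt t
    ((hasDerivAt_id t).prodMk (hasDerivAt_const t z))
  refine h1.congr_deriv ?_
  rw [D2_apply]
  simp only [mul_one, Pi.zero_apply, mul_zero, Finset.sum_const_zero, add_zero]
  have ia : Integrable (fun g => a (t, z + (l.at t).fld g)) (gv l.ι) :=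
    (eg_of_EG h.ega ht).int (l.at t) z
  have ib : ∀ x i, Integrable (fun g : l.ι → ℝ => g i * b x (t, z + (l.at t).fld g)) (gv l.ι) :=
    fun x i => eg_int_g (I := I) (H := fun q => q.2 (.inr i) * b x (sh l q))
      ((EG.coord _).mul (hl.toOkC.eg_sh (h.egb x))) (p := (t, z)) ht
  have ic : ∀ x y, Integrable (fun g : l.ι → ℝ => c x y (z + (l.at t).fld g)) (gv l.ι) :=
    fun x y => ((hc x).eg' y).int (l.at t) z
  have e1 : iL l (fun q => a (sh l q) + ∑ x, b x (sh l q) * dfl l x q) (t, z) =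
      ∫ g, (a (t, z + (l.at t).fld g) +
        ∑ x, ∑ i, l.A' t x i * (g i * b x (t, z + (l.at t).fld g))) ∂gv l.ι := by
    refine integral_congr_ae (.of_forall fun g => ?_)
    show a (t, z + (l.at t).fld g) + ∑ x, b x (t, z + (l.at t).fld g) * ∑ i, l.A' t x i * g i = _
    simp only [Finset.mul_sum]
    congr 1
    exact Finset.sum_congr rfl fun x _ => Finset.sum_congr rfl fun i _ => by ring
  rw [e1, integral_add ia (integrable_finsetSum _ fun x _ => integrable_finsetSum _ fun i _ =>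
      (ib x i).const_mul _), integral_add ia (integrable_finsetSum _ fun x _ =>
      integrable_finsetSum _ fun y _ => (ic x y).const_mul _),
    integral_finsetSum _ fun x _ => integrable_finsetSum _ fun i _ => (ib x i).const_mul _,
    integral_finsetSum _ fun x _ => integrable_finsetSum _ fun y _ => (ic x y).const_mul _]
  congr 1
  refine Finset.sum_congr rfl fun x _ => ?_
  rw [integral_finsetSum _ fun i _ => (ib x i).const_mul _,
    integral_finsetSum _ fun y _ => (ic x y).const_mul _]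
  simp only [integral_const_mul]
  have e2 : ∀ i, ∫ g : l.ι → ℝ, g i * b x (t, z + (l.at t).fld g) ∂gv l.ι =
      ∑ y, l.A t y i * ∫ g, c x y (z + (l.at t).fld g) ∂gv l.ι :=
    fun i => stein_fld (hc x) (l.at t) z i
  simp only [e2, TL.S, Finset.mul_sum, Finset.sum_mul]
  exact Finset.sum_comm.trans (Finset.sum_congr rfl fun y _ => Finset.sum_congr rfl fun i _ =>
    by ring)

/-- the rest of a level and what follows it -/
def rest (l : Lv Ω) (m : ℝ) (L : List (Lv Ω)) : List (TL Ω) := vT l 1 (-1) m :: L.map Lv.cst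

theorem rest_at (l : Lv Ω) (m : ℝ) (L : List (Lv Ω)) (t : ℝ) :
    atL (rest l m L) t = lv l (1 - t) m :: L := by
  rw [rest, Var6.atL_cons, atL_cst, vT_at, neg_one_mul, ← sub_eq_add_neg]

theorem rest_okD (l : Lv Ω) (m : ℝ) (L : List (Lv Ω)) (h : (vT l 1 (-1) m).OkD I) :
    ∀ k ∈ rest l m L, k.OkD I := by
  intro k hk
  rcases List.mem_cons.1 hk with rfl | hk
  · exact h
  · exact cst_ok L _ k hk

theorem rest_okC (l : Lv Ω) (m : ℝ) (L : List (Lv Ω)) : ∀ k ∈ rest l m L, k.OkC (Icc 0 1) := by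
  intro k hk
  rcases List.mem_cons.1 hk with rfl | hk
  · exact TL.okC_of_compact isCompact_Icc (vT_cont l 1 (-1) m)
  · exact (cst_ok L _ k hk).toOkC

theorem cov_symm (l : Lv Ω) (x y : Ω) : l.cov x y = l.cov y x :=
  Finset.sum_congr rfl fun _ _ => mul_comm _ _

theorem lv_cov (l : Lv Ω) {v : ℝ} (hv : 0 ≤ v) (m : ℝ) (x y : Ω) :
    (lv l v m).cov x y = v * l.cov x y := by
  show ∑ i, √v * l.A x i * (√v * l.A y i) = v * ∑ i, l.A x i * l.A y i
  rw [Finset.mul_sum]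
  refine Finset.sum_congr rfl fun i _ => ?_
  have := mul_self_sqrt hv
  linear_combination (l.A x i * l.A y i) * this

open Classical in
/-- the Hamilton–Jacobi–Bellman equation inside a level -/
theorem hjb (hw : Wt w) (hI : IsOpen I) (l : Lv Ω) (m : ℝ) (L : List (Lv Ω))
    (h2 : (vT l 1 (-1) m).OkD I) {t : ℝ} (ht : t ∈ I) (ht1 : t < 1) (z : Ω → ℝ) :
    D0 w (rest l m L) (t, z) = -(∑ x, ∑ y, l.cov x y * (Hs w (lv l (1 - t) m :: L) z x y +
      m * (P w (lv l (1 - t) m :: L) z x * P w (lv l (1 - t) m :: L) z y))) / 2 := by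
  have hS : ∀ j, Sacc (rest l m L) t (j + 1) = fun x y => -1 / 2 * l.cov x y := fun j => by
    rw [rest, Sacc_cons, Var6.Sacc_cst]
    ext x y
    rw [vT_S l 1 (-1) m t (by linarith), add_zero]
  rw [D0_eq hw ht hI _ (rest_okD l m L h2) m, rest_at, sum_Hs hw]
  have e1 : (rest l m L).length = L.length + 1 := by simp [rest]
  rw [e1, hS]
  have e2 : pair w (lv l (1 - t) m :: L) m (Sacc (rest l m L) t) z =
      -1 / 2 * pair w (lv l (1 - t) m :: L) m (fun _ => l.cov) z := by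
    simp only [pair, hS, sub_self, zero_mul, zero_add]
    rw [← tE_const_mul]
    congr 1
    ext y
    simp only [pair_eq_sum hw, pi2_const_mul, Finset.mul_sum]
    exact Finset.sum_congr rfl fun _ _ => by ring
  rw [e2]
  simp only [mul_left_comm _ (-1 / 2 : ℝ), ← Finset.mul_sum]
  ring

theorem X_spl (hw : Wt w) (l : Lv Ω) (m : ℝ) (L : List (Lv Ω)) {s : ℝ} (h0 : 0 ≤ s) (h1 : s ≤ 1) :
    X w (lv l s m :: lv l (1 - s) m :: L) = X w (lv l 1 m :: L) :=
  (C.X_split hw (l := lv l 1 m) (l1 := lv l s m) (l2 := lv l (1 - s) m) rfl rfl (fun x y => by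
    rw [lv_cov l zero_le_one, lv_cov l h0, lv_cov l (by linarith)]; ring) L).symm

open Classical in
/-- **Itô formula** inside a level, under the path law -/
theorem ito (hw : Wt w) (hI : IsOpen I) (hI' : I ⊆ Ioo 0 1) (l : Lv Ω) (m : ℝ) (L : List (Lv Ω))
    (h1 : (vT l 0 1 m).OkD I) (h2 : (vT l 1 (-1) m).OkD I) {G a : Pt Ω → ℝ} {b : Ω → Pt Ω → ℝ}
    (hG : Sm I G a b) {t : ℝ} (ht : t ∈ I) {c : Ω → Ω → (Ω → ℝ) → ℝ}
    (hc : ∀ x, Gr (fun z => b x (t, z)) (c x)) (z : Ω → ℝ) :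
    HasDerivAt (fun s => tE (lv l s m) (X w (lv l (1 - s) m :: L)) (fun y => G (s, y)) z)
      (tE (lv l t m) (X w (lv l (1 - t) m :: L)) (fun y => a (t, y) +
        (∑ x, ∑ x', l.cov x x' * c x x' y) / 2 +
        m * ∑ x, ∑ x', l.cov x x' * (P w (lv l (1 - t) m :: L) y x * b x' (t, y))) z) t := by
  have hD := rest_okD l m L h2
  have hu := sm_XP hI hw hD
  have lu := lg_XP hw fun k hk => (hD k hk).toOkC
  have hΨ := ((hu.const_mul m).exp (lu.exp m)).mul hG
  set M := lv l (1 - t) m :: L with hM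
  have gE := (gr_X hw M).exp (lg_X hw M) m
  have gΨ : ∀ x, Gr (fun z => exp (m * XP w (rest l m L) (t, z)) *
      (m * PP w (rest l m L) x (t, z)) * G (t, z) +
        exp (m * XP w (rest l m L) (t, z)) * b x (t, z)) _ := fun x => by
    simp only [XP, PP, rest_at, ← hM]
    exact ((gE.mul ((gr_P hw M x).const_mul m)).mul (gr_of_Sm hG ht)).add (gE.mul (hc x))
  have key := heat hI h1 hΨ ht gΨ z
  have hf : ∀ s (g : (vT l 0 1 m).ι → ℝ), ((vT l 0 1 m).at s).fld g = (lv l s m).fld g :=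
    fun s g => funext fun x => by
      show ∑ i : l.ι, √(0 + 1 * s) * l.A x i * g i = ∑ i : l.ι, √s * l.A x i * g i
      rw [zero_add, one_mul]
  simp only [hf] at key
  have hZ : ∀ s ∈ I, ∫ g, exp (m * X w (lv l (1 - s) m :: L) (z + (lv l s m).fld g)) ∂gv l.ι =
      exp (m * X w (lv l 1 m :: L) z) := fun s hs => by
    rw [← X_spl hw l m L (hI' hs).1.le (hI' hs).2.le]
    exact (Pe.exp_X_cons hw (lv l s m) _ z).symm
  have key2 := key.div_const (exp (m * X w (lv l 1 m :: L) z))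
  refine (key2.congr_of_eventuallyEq ?_).congr_deriv ?_
  · filter_upwards [hI.mem_nhds ht] with s hs
    rw [← hZ s hs]
    simp only [XP, rest_at]
    rfl
  · rw [← hZ t ht, tE]
    simp only [XP, rest_at, ← hM]
    congr 1
    refine integral_congr_ae (.of_forall fun g => ?_)
    simp only [hjb hw hI l m L h2 ht (hI' ht).2, ← hM,
      vT_S l 0 1 m t (by simpa using (hI' ht).1)]
    obtain ⟨y, hy⟩ : ∃ y, y = z + (lv l t m).fld g := ⟨_, rfl⟩
    simp only [← hy]
    have sw : ∑ x, ∑ x', l.cov x x' * (P w M y x' * b x (t, y)) =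
        ∑ x, ∑ x', l.cov x x' * (P w M y x * b x' (t, y)) :=
      Finset.sum_comm.trans (Finset.sum_congr rfl fun x _ => Finset.sum_congr rfl fun x' _ => by
        rw [cov_symm])
    have ex : ∑ x, ∑ x', 1 / 2 * l.cov x x' *
        ((exp (m * X w M y) * (m * P w M y x') * (m * P w M y x) +
            exp (m * X w M y) * (m * Hs w M y x x')) * G (t, y) +
          exp (m * X w M y) * (m * P w M y x) * b x' (t, y) +
          (exp (m * X w M y) * (m * P w M y x') * b x (t, y) + exp (m * X w M y) * c x x' y)) =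
        exp (m * X w M y) / 2 * (m * G (t, y) *
          (∑ x, ∑ x', l.cov x x' * (Hs w M y x x' + m * (P w M y x * P w M y x'))) +
          m * (∑ x, ∑ x', l.cov x x' * (P w M y x * b x' (t, y))) +
          m * (∑ x, ∑ x', l.cov x x' * (P w M y x' * b x (t, y))) +
          ∑ x, ∑ x', l.cov x x' * c x x' y) := by
      simp only [Finset.mul_sum, ← Finset.sum_add_distrib]
      exact Finset.sum_congr rfl fun x _ => Finset.sum_congr rfl fun x' _ => by ring
    rw [ex, sw]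
    ring

/-- an open interval around `t` on which the split levels are smooth -/
theorem exists_I (l : Lv Ω) (m : ℝ) {t : ℝ} (ht : t ∈ Ioo (0 : ℝ) 1) : ∃ I : Set ℝ, IsOpen I ∧
    I ⊆ Ioo 0 1 ∧ t ∈ I ∧ (vT l 0 1 m).OkD I ∧ (vT l 1 (-1) m).OkD I := by
  have hs : Icc (t / 2) ((1 + t) / 2) ⊆ Ioo 0 1 := fun s hs =>
    ⟨by linarith [hs.1, ht.1], by linarith [hs.2, ht.2]⟩
  exact ⟨Ioo (t / 2) ((1 + t) / 2), isOpen_Ioo, Ioo_subset_Icc_self.trans hs,
    ⟨by linarith [ht.1], by linarith [ht.2]⟩,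
    (vT_c1 l 0 1 m (I := Ioo 0 1) fun s hs => by simpa using hs.1).okD hs,
    (vT_c1 l 1 (-1) m (I := Ioo 0 1) fun s hs => by linarith [hs.2]).okD hs⟩

open Classical in
/-- joint continuity of an expectation at the split point -/
theorem eg_spl (hw : Wt w) (l : Lv Ω) (m : ℝ) (L : List (Lv Ω)) {G : Pt Ω → ℝ}
    (hG : EG (Icc 0 1) G) : EG (Icc 0 1) fun p : Pt Ω =>
      tE (lv l p.1 m) (X w (lv l (1 - p.1) m :: L)) (fun y => G (p.1, y)) p.2 :=
  ((lg_XP hw (rest_okC l m L)).eg_tP (TL.okC_of_compact isCompact_Icc (vT_cont l 0 1 m))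
    hG).congr fun p _ => by
      rw [tP_eq]
      simp only [XP, rest_at, vT_at, zero_add, one_mul]

/-- mixed quadratic form -/
def mx (p p' : Ω → ℝ) (K : Ω → Ω → ℝ) : ℝ := ∑ x, ∑ y, p x * p' y * K x y

/-- the drift of the value of `w'` under the path law of `w` -/
def dri (w w' : Ω → ℝ) (m : ℝ) (K : Ω → Ω → ℝ) (M : List (Lv Ω)) (y : Ω → ℝ) : ℝ :=
  m * mx (P w M y) (P w' M y) K - m / 2 * qf (P w' M y) K

open Classical in
theorem eg_dri (hw : Wt w) (hw' : Wt w') (l : Lv Ω) (m m' : ℝ) (K : Ω → Ω → ℝ) (L : List (Lv Ω)) :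
    EG (Icc 0 1) fun p : Pt Ω => dri w w' m' K (lv l (1 - p.1) m :: L) p.2 := by
  have hP : ∀ {v : Ω → ℝ}, Wt v → ∀ x, EG (Icc 0 1) fun p : Pt Ω =>
      P v (lv l (1 - p.1) m :: L) p.2 x := fun hv x =>
    (eg_PP hv (rest_okC l m L) x).congr fun p _ => by simp only [PP, rest_at]
  exact ((EG.sum _ fun x _ => EG.sum _ fun y _ =>
    ((hP hw x).mul (hP hw' y)).mul (EG.const _)).const_mul _).sub
    ((EG.sum _ fun x _ => EG.sum _ fun y _ =>
    ((hP hw' x).mul (hP hw' y)).mul (EG.const _)).const_mul _)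

open Classical in
theorem gir1 (hw : Wt w) (hw' : Wt w') (l : Lv Ω) (m : ℝ) (L : List (Lv Ω)) (z : Ω → ℝ) :
    tE (lv l 1 m) (X w L) (X w' L) z - X w' (lv l 1 m :: L) z = ∫ ρ in (0 : ℝ)..1,
      tE (lv l ρ m) (X w (lv l (1 - ρ) m :: L)) (dri w w' m l.cov (lv l (1 - ρ) m :: L)) z := by
  have cz : ∀ {G : Pt Ω → ℝ}, EG (Icc 0 1) G → ContinuousOn (fun ρ => G (ρ, z)) (Icc 0 1) :=
    fun hG => hG.cont.comp (f := fun ρ : ℝ => ((ρ, z) : Pt Ω)) (by fun_prop)
      fun _ ht => ⟨ht, trivial⟩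
  have hc := cz (eg_spl hw l m L (lg_XP hw' (rest_okC l m L)).eg)
  have hi := (cz (eg_spl hw l m L (eg_dri hw hw' l m m l.cov L))).intervalIntegrable_of_Icc
    (μ := volume) zero_le_one
  have hd : ∀ t ∈ Ioo (0 : ℝ) 1, HasDerivAt (fun s => tE (lv l s m) (X w (lv l (1 - s) m :: L))
      (fun y => XP w' (rest l m L) (s, y)) z) (tE (lv l t m) (X w (lv l (1 - t) m :: L))
        (fun y => dri w w' m l.cov (lv l (1 - t) m :: L) y) z) t := by
    intro t ht
    obtain ⟨I, hI, hI', htI, h1, h2⟩ := exists_I l m ht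
    refine (ito hw hI hI' l m L h1 h2 (sm_XP hI hw' (rest_okD l m L h2)) htI
      (c := fun x y z => Hs w' (lv l (1 - t) m :: L) z x y) (fun x => by
        simpa only [PP, rest_at] using gr_P hw' (lv l (1 - t) m :: L) x) z).congr_deriv ?_
    congr 1
    ext y
    rw [hjb hw' hI l m L h2 htI ht.2]
    simp only [PP, rest_at, dri, mx, qf, mul_add, Finset.sum_add_distrib]
    have e1 : ∀ p p' : Ω → ℝ, ∑ x, ∑ x', l.cov x x' * (p x * p' x') =
        ∑ x, ∑ x', p x * p' x' * l.cov x x' := fun p p' =>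
      Finset.sum_congr rfl fun _ _ => Finset.sum_congr rfl fun _ _ => mul_comm _ _
    simp only [mul_left_comm (l.cov _ _) m, ← Finset.mul_sum, e1]
    ring
  have ftc := intervalIntegral.integral_eq_sub_of_hasDerivAt_of_le zero_le_one hc hd hi
  rw [ftc]
  simp only [XP, rest_at]
  have z1 : ∀ v : Ω → ℝ, X v (lv l (1 - 1) m :: L) = X v L := fun v => by
    rw [C.X_cons, C.step_of_zero (l := lv l (1 - 1) m) fun x i => by simp]
  rw [z1, z1, C.tE_of_zero (l := lv l 0 m) (fun x i => by simp), sub_zero]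

open Classical in
/-- Fubini for one level -/
theorem tE_int {F : (Ω → ℝ) → ℝ} (hF : Lg F) (l : Lv Ω) {Θ : Pt Ω → ℝ} (hΘ : EG (Icc 0 1) Θ)
    (z : Ω → ℝ) : tE l F (fun y => ∫ ρ in (0 : ℝ)..1, Θ (ρ, y)) z =
      ∫ ρ in (0 : ℝ)..1, tE l F (fun y => Θ (ρ, y)) z := by
  have hH := (l.cst_okD (Icc 0 1)).toOkC.eg_sh (((hF.exp l.m).toEG (Icc 0 1)).mul hΘ)
  obtain ⟨C, c, -, -, h3⟩ := eg_bd2 hH
  have hi : Integrable (Function.uncurry fun (ρ : ℝ) (g : l.ι → ℝ) =>
      exp (l.m * F (z + l.fld g)) * Θ (ρ, z + l.fld g))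
      ((volume.restrict (uIoc 0 1)).prod (gv l.ι)) := by
    rw [uIoc_of_le zero_le_one]
    have hm : AEStronglyMeasurable (Function.uncurry fun (ρ : ℝ) (g : l.ι → ℝ) =>
        exp (l.m * F (z + l.fld g)) * Θ (ρ, z + l.fld g))
        ((volume.restrict (Ioc 0 1)).prod (gv l.ι)) := by
      rw [Measure.restrict_prod_eq_prod_univ]
      refine ContinuousOn.aestronglyMeasurable ?_ (measurableSet_Ioc.prod MeasurableSet.univ)
      exact hH.cont.comp (f := fun q : ℝ × (l.ι → ℝ) => jn (q.1, z) q.2)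
        (cont_jn.comp (f := fun q : ℝ × (l.ι → ℝ) => (((q.1, z) : Pt Ω), q.2))
          (by fun_prop)).continuousOn fun q hq => ⟨Ioc_subset_Icc_self hq.1, trivial⟩
    refine (((int_exp c).const_mul (C * exp (c * ‖z‖))).comp_snd _).mono' hm ?_
    rw [Measure.restrict_prod_eq_prod_univ]
    refine (ae_restrict_iff' (measurableSet_Ioc.prod MeasurableSet.univ)).2 (.of_forall ?_)
    exact fun q hq => h3 (q.1, z) q.2 (Ioc_subset_Icc_self hq.1)
  simp only [tE]
  rw [intervalIntegral.integral_div, intervalIntegral_integral_swap hi]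
  simp only [intervalIntegral.integral_const_mul]

open Classical in
/-- Fubini for a block of levels -/
theorem nodeT_int {F : (Ω → ℝ) → ℝ} (hF : Lg F) {Θ : Pt Ω → ℝ} (hΘ : EG (Icc 0 1) Θ) :
    ∀ (M : List (Lv Ω)) (z : Ω → ℝ), nodeT F M (fun y => ∫ ρ in (0 : ℝ)..1, Θ (ρ, y)) z =
      ∫ ρ in (0 : ℝ)..1, nodeT F M (fun y => Θ (ρ, y)) z
  | [], _ => rfl
  | l :: M, z => by
    have hF' : LG (Icc 0 1) fun p : Pt Ω => F p.2 :=
      ⟨hF.cont.mono fun _ _ => ⟨trivial, trivial⟩, hF.bd.imp fun _ => .imp fun _ h =>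
        ⟨h.1, h.2.1, fun p _ => h.2.2 p trivial⟩⟩
    have h1 : Lg (XT F M) := (Var6.pre (I := univ) hF (EG.const 0) M).1
    show tE l (XT F M) (nodeT F M fun y => ∫ ρ in (0 : ℝ)..1, Θ (ρ, y)) z = _
    rw [show nodeT F M (fun y => ∫ ρ in (0 : ℝ)..1, Θ (ρ, y)) = _ from
      funext (nodeT_int hF hΘ M)]
    exact tE_int h1 l (Var6.pre hF' hΘ M).2 z

theorem node_succ (w : Ω → ℝ) (L₁ L₂ : List (Lv Ω)) (l : Lv Ω) (Φ : (Ω → ℝ) → ℝ) :
    node w (L₁ ++ l :: L₂) (L₁.length + 1) Φ = nodeT (X w (l :: L₂)) L₁ (tE l (X w L₂) Φ) := by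
  rw [add_comm, ← node_node, List.drop_left, node_cons, node_zero, Var6.node_app]

/-- a one-level identity under a prefix -/
theorem node_int (hw : Wt w) (L₁ L₂ : List (Lv Ω)) (l : Lv Ω) (m : ℝ) {Θ : Pt Ω → ℝ}
    (hΘ : EG (Icc 0 1) Θ) (h : Ω → ℝ) :
    node w (L₁ ++ lv l 1 m :: L₂) L₁.length (fun z => ∫ ρ in (0 : ℝ)..1,
      tE (lv l ρ m) (X w (lv l (1 - ρ) m :: L₂)) (fun y => Θ (ρ, y)) z) h =
    ∫ ρ in (0 : ℝ)..1, node w (L₁ ++ lv l ρ m :: lv l (1 - ρ) m :: L₂) (L₁.length + 1)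
      (fun y => Θ (ρ, y)) h := by
  rw [Var6.node_app, nodeT_int (lg_X hw _) (eg_spl hw l m L₂ hΘ)]
  refine intervalIntegral.integral_congr fun ρ hρ => ?_
  rw [uIcc_of_le zero_le_one] at hρ
  simp only [node_succ, X_spl hw l m L₂ hρ.1 hρ.2]

/-- **Girsanov identity**: the drift of `X w'` over one level under the path law of `w` -/
theorem gir (hw : Wt w) (hw' : Wt w') (L₁ L₂ : List (Lv Ω)) (l : Lv Ω) (h : Ω → ℝ) :
    node w (L₁ ++ l :: L₂) (L₁.length + 1) (X w' L₂) h -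
      node w (L₁ ++ l :: L₂) L₁.length (X w' (l :: L₂)) h =
    ∫ ρ in (0 : ℝ)..1, node w (L₁ ++ lv l ρ l.m :: lv l (1 - ρ) l.m :: L₂) (L₁.length + 1)
      (dri w w' l.m l.cov (lv l (1 - ρ) l.m :: L₂)) h := by
  have e : lv l 1 l.m = l := Var6.lv_one l l.m
  rw [← node_int hw L₁ L₂ l l.m (eg_dri hw hw' l l.m l.m l.cov L₂) h]
  simp only [← gir1 hw hw', e]
  rw [node_sub hw ((lg_X hw' L₂).eg.tE (lg_X hw L₂) l) (lg_X hw' _).eg, node_succ]
  simp only [Var6.node_app]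

theorem dri_sub (w w' : Ω → ℝ) (m : ℝ) {K : Ω → Ω → ℝ} (hK : ∀ x y, K x y = K y x)
    (M : List (Lv Ω)) (y : Ω → ℝ) :
    dri w w m K M y - dri w w' m K M y = m / 2 * qf (fun x => P w M y x - P w' M y x) K := by
  have sw : mx (P w' M y) (P w M y) K = mx (P w M y) (P w' M y) K :=
    Finset.sum_comm.trans (Finset.sum_congr rfl fun x _ => Finset.sum_congr rfl fun x' _ => by
      rw [hK]; ring)
  have e : qf (fun x => P w M y x - P w' M y x) K = mx (P w M y) (P w M y) K -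
      mx (P w M y) (P w' M y) K - mx (P w' M y) (P w M y) K + qf (P w' M y) K := by
    simp only [qf, mx, ← Finset.sum_sub_distrib, ← Finset.sum_add_distrib]
    exact Finset.sum_congr rfl fun _ _ => Finset.sum_congr rfl fun _ _ => by ring
  rw [e, sw]
  simp only [dri]
  rw [show qf (P w M y) K = mx (P w M y) (P w M y) K from rfl]
  ring

theorem eg_dri' (hw : Wt w) (hw' : Wt w') (m : ℝ) (K : Ω → Ω → ℝ) (M : List (Lv Ω)) :
    Eg (dri w w' m K M) :=
  ((Eg.sum _ fun x _ => Eg.sum _ fun y _ =>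
    ((eg_P hw M x).mul (eg_P hw' M y)).mul_const _).const_mul _).sub ((eg_qf hw' M K).const_mul _)

open Classical in
/-- continuity in the split time of an expectation at the split point -/
theorem cont_spl (hw : Wt w) (L₁ L₂ : List (Lv Ω)) (l : Lv Ω) (m : ℝ) {Θ : Pt Ω → ℝ}
    (hΘ : EG (Icc 0 1) Θ) (h : Ω → ℝ) : ContinuousOn (fun ρ =>
      node w (L₁ ++ lv l ρ m :: lv l (1 - ρ) m :: L₂) (L₁.length + 1) (fun y => Θ (ρ, y)) h)
      (Icc 0 1) := by
  have hF := lg_X hw (lv l 1 m :: L₂)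
  have hF' : LG (Icc 0 1) fun p : Pt Ω => X w (lv l 1 m :: L₂) p.2 :=
    ⟨hF.cont.mono fun _ _ => ⟨trivial, trivial⟩, hF.bd.imp fun _ => .imp fun _ h =>
      ⟨h.1, h.2.1, fun p _ => h.2.2 p trivial⟩⟩
  refine ((Var6.pre hF' (eg_spl hw l m L₂ hΘ) L₁).2.cont.comp
    (f := fun ρ : ℝ => ((ρ, h) : Pt Ω)) (by fun_prop) fun _ ht => ⟨ht, trivial⟩).congr
    fun ρ hρ => ?_
  simp only [node_succ, X_spl hw l m L₂ hρ.1 hρ.2, Function.comp_def]

/-- **relative entropy of one level** (`KL_j / m_j`): with `A = X w - X w'`,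
`E^w [A_{j+1} - A_j] = (m / 2) ∫ E^w |∇ Φ^w - ∇ Φ^w'|²` -/
theorem kl (hw : Wt w) (hw' : Wt w') (L₁ L₂ : List (Lv Ω)) (l : Lv Ω) (h : Ω → ℝ) :
    node w (L₁ ++ l :: L₂) (L₁.length + 1) (fun z => X w L₂ z - X w' L₂ z) h -
      node w (L₁ ++ l :: L₂) L₁.length (fun z => X w (l :: L₂) z - X w' (l :: L₂) z) h =
    l.m / 2 * ∫ ρ in (0 : ℝ)..1,
      node w (L₁ ++ lv l ρ l.m :: lv l (1 - ρ) l.m :: L₂) (L₁.length + 1) (fun y =>
        qf (fun x => P w (lv l (1 - ρ) l.m :: L₂) y x - P w' (lv l (1 - ρ) l.m :: L₂) y x)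
          l.cov) h := by
  have i1 := fun (v : Ω → ℝ) (hv : Wt v) => (cont_spl hw L₁ L₂ l l.m
    (eg_dri hw hv l l.m l.m l.cov L₂) h).intervalIntegrable_of_Icc (μ := volume) zero_le_one
  rw [node_sub hw (lg_X hw _).eg (lg_X hw' _).eg, node_sub hw (lg_X hw _).eg (lg_X hw' _).eg]
  have e1 := gir hw hw L₁ L₂ l h
  have e2 := gir hw hw' L₁ L₂ l h
  have e3 := intervalIntegral.integral_sub (i1 w hw) (i1 w' hw')
  rw [← intervalIntegral.integral_const_mul]
  beta_reduce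
  rw [sub_sub_sub_comm, e1, e2, ← e3]
  refine intervalIntegral.integral_congr fun ρ _ => ?_
  have e4 := congrFun (node_sub hw (eg_dri' hw hw l.m l.cov (lv l (1 - ρ) l.m :: L₂))
    (eg_dri' hw hw' l.m l.cov (lv l (1 - ρ) l.m :: L₂))
    (L₁ ++ lv l ρ l.m :: lv l (1 - ρ) l.m :: L₂) (L₁.length + 1)) h
  simp only [dri_sub w w' l.m (cov_symm l), node_const_mul] at e4
  exact e4.symm

/-- telescoping along the path -/
theorem tele (w : Ω → ℝ) (L : List (Lv Ω)) (Φ : ℕ → (Ω → ℝ) → ℝ) (h : Ω → ℝ) {i k : ℕ}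
    (hik : i ≤ k) : node w L k (Φ k) h - node w L i (Φ i) h =
      ∑ j ∈ Finset.Ico i k, (node w L (j + 1) (Φ (j + 1)) h - node w L j (Φ j) h) := by
  rw [Finset.sum_Ico_sub (fun j => node w L j (Φ j) h) hik]

end Crest.Agent.T156.Cas.Gir68

end
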