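import Crest.Agent.T156.GrDef_62
import Crest.Agent.T156.AltTopF_11

/-!
# Row 156: the glue of the graded path (helper62)
-/

set_option autoImplicit false

noncomputable section

namespace Crest.Agent.T156.Alt

open Real Set Filter Topology

namespace Gr62

theorem gS_le (σ t : ℝ) : gS σ t ≤ t := sub_le_self _ (sq_nonneg _)

theorem gS_ge {σ t : ℝ} (ht : 0 ≤ t) (hσ : 0 ≤ σ) : min t (σ * √t) ≤ gS σ t := by
  rcases le_total √t σ with h | h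
  · rw [gS_lo h]; exact min_le_left _ _
  · rw [gS_hi ht h]
    exact (min_le_right _ _).trans (by nlinarith)

theorem gS_le' {σ t : ℝ} (ht : 0 ≤ t) (hσ : 0 ≤ σ) : gS σ t ≤ 2 * σ * √t := by
  rcases le_total √t σ with h | h
  · rw [gS_lo h]; nlinarith [sq_sqrt ht, sqrt_nonneg t]
  · rw [gS_hi ht h]; nlinarith

theorem gS_nonneg {σ t : ℝ} (ht : 0 ≤ t) (hσ : 0 ≤ σ) : 0 ≤ gS σ t :=
  (le_min ht (mul_nonneg hσ (sqrt_nonneg t))).trans (gS_ge ht hσ)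

variable {β c0 C0 K η : ℝ} {p : Pm}

theorem sg0_pos (x : Ctx β c0 C0 K η p) : 0 < p.sg0 := by
  have := x.κ_pos; have := x.ye_pos; have := x.μ0_pos
  unfold Pm.sg0; positivity

theorem μ0_le' (x : Ctx β c0 C0 K η p) : p.μ0 ≤ p.κ * p.ye ^ 2 :=
  x.μ0_le.trans (mul_le_mul_of_nonneg_left (pow_le_pow_left₀ x.r_pos.le x.r_le_ye 2) x.κ_pos.le)

theorem sg0_mul (x : Ctx β c0 C0 K η p) : p.κ * p.ye * (p.sg0 * √p.ye) = p.μ0 := by
  have := x.κ_pos; have := x.ye_pos; have := sqrt_pos.2 x.ye_pos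
  unfold Pm.sg0; field_simp

theorem sg0_le (x : Ctx β c0 C0 K η p) : p.sg0 ≤ √p.ye := by
  have a := x.κ_pos; have b := x.ye_pos; have c := sqrt_pos.2 x.ye_pos
  rw [Pm.sg0, div_le_iff₀ (by positivity)]
  have := μ0_le' x
  have e : √p.ye * (p.κ * p.ye * √p.ye) = p.κ * p.ye * (√p.ye * √p.ye) := by ring
  rw [e, mul_self_sqrt b.le]; linarith

theorem sg0_le_sg1 (x : Ctx β c0 C0 K η p) : p.sg0 ≤ p.sg1 :=
  (sg0_le x).trans (sqrt_le_sqrt (by linarith [x.ye_pos]))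

theorem muG_ge (x : Ctx β c0 C0 K η p) {σ : ℝ} (h : p.sg0 ≤ σ) : p.μ0 ≤ p.muG σ := by
  have a := x.κ_pos; have b := x.ye_pos
  have s0 := sg0_pos x
  refine le_trans ?_ (mul_le_mul_of_nonneg_left (gS_ge b.le (s0.le.trans h)) (by positivity))
  rw [mul_min_of_nonneg _ _ (by positivity)]
  refine le_min (by linarith [μ0_le' x]) ?_
  rw [← sg0_mul x]
  gcongr

theorem muG_le (x : Ctx β c0 C0 K η p) (σ : ℝ) : p.muG σ ≤ p.κ * p.ye ^ 2 := by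
  have a := x.κ_pos; have b := x.ye_pos
  have := mul_le_mul_of_nonneg_left (gS_le σ p.ye) (show 0 ≤ p.κ * p.ye by positivity)
  unfold Pm.muG; linarith

theorem muG_le_κ (x : Ctx β c0 C0 K η p) (σ : ℝ) : p.muG σ ≤ p.κ :=
  (muG_le x σ).trans (mul_le_of_le_one_right x.κ_pos.le (pow_le_one₀ x.ye_pos.le x.ye_le_one))

theorem muG_zero (x : Ctx β c0 C0 K η p) : p.muG p.sg0 ≤ 2 * p.μ0 := by
  have a := x.κ_pos; have b := x.ye_pos
  have := mul_le_mul_of_nonneg_left (gS_le' b.le (sg0_pos x).le)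
    (show 0 ≤ p.κ * p.ye by positivity)
  rw [← sg0_mul x]
  unfold Pm.muG; linarith

theorem sg1_le (x : Ctx β c0 C0 K η p) : p.sg1 ≤ 2 * p.n * p.sg0 := by
  have a := x.κ_pos; have b := x.ye_pos; have c := sqrt_pos.2 x.ye_pos
  have n1 := x.one_le_n
  have m1 : 1 ≤ p.n * p.μ0 := by
    rw [Pm.μ0, ← rpow_one_add' x.n_pos.le (by linarith [x.c_le])]
    exact one_le_rpow n1 (by linarith [x.c_le])
  have d : p.κ * p.ye * √p.ye ≤ 1 :=
    mul_le_one₀ (mul_le_one₀ x.κ_le_one b.le x.ye_le_one) c.le (sqrt_le_one.2 x.ye_le_one)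
  have e : p.μ0 ≤ p.sg0 := le_div_self x.μ0_pos.le (by positivity) d
  have f : p.sg1 ≤ 2 := by
    rw [Pm.sg1, sqrt_le_left (by norm_num)]; linarith [x.ye_le_one]
  nlinarith [mul_le_mul_of_nonneg_left e x.n_pos.le]

/-- the octaves -/
def oc (p : Pm) (i : ℕ) : ℝ := min (2 ^ i * p.sg0) p.sg1

theorem oc_zero (x : Ctx β c0 C0 K η p) : oc p 0 = p.sg0 := by
  rw [oc, pow_zero, one_mul, min_eq_left (sg0_le_sg1 x)]

theorem oc_ge (x : Ctx β c0 C0 K η p) (i : ℕ) : p.sg0 ≤ oc p i :=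
  le_min (le_mul_of_one_le_left (sg0_pos x).le (one_le_pow₀ one_le_two)) (sg0_le_sg1 x)

theorem octR (x : Ctx β c0 C0 K η p) (i : ℕ) : p.OctR (oc p i) (oc p (i + 1)) := by
  have s0 := sg0_pos x
  have s1 := s0.trans_le (sg0_le_sg1 x)
  have a : (0 : ℝ) < 2 ^ i * p.sg0 := by positivity
  refine ⟨oc_ge x i, min_le_min (by rw [pow_succ]; nlinarith) le_rfl, ?_, min_le_right _ _⟩
  rw [oc, oc, mul_min_of_nonneg _ _ zero_le_two]
  exact min_le_min (by rw [pow_succ]; nlinarith) (by linarith)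

theorem oc_end (x : Ctx β c0 C0 K η p) : oc p (Nat.log 2 p.n + 1 + 1) = p.sg1 := by
  refine min_eq_right ((sg1_le x).trans (mul_le_mul_of_nonneg_right ?_ (sg0_pos x).le))
  have : (p.n : ℝ) ≤ 2 ^ (Nat.log 2 p.n + 1) := by
    exact_mod_cast (Nat.lt_pow_succ_log_self one_lt_two p.n).le
  rw [pow_succ]; linarith

theorem log_le (x : Ctx β c0 C0 K η p) : (Nat.log 2 p.n : ℝ) ≤ 2 * log p.n := by
  have h : ((2 : ℝ)) ^ Nat.log 2 p.n ≤ p.n := by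
    exact_mod_cast Nat.pow_log_le_self 2 (by have := x.big.two; omega)
  have := log_le_log (by positivity) h
  rw [log_pow] at this
  nlinarith [log_two_gt_d9, (Nat.cast_nonneg (Nat.log 2 p.n) : (0 : ℝ) ≤ _)]

theorem mt_mem (x : Ctx β c0 C0 K η p) {μ : ℝ} (h0 : p.μ0 ≤ μ) (h1 : μ ≤ p.κ) :
    p.μ0 ≤ p.mt μ ∧ p.mt μ ≤ p.κ :=
  ⟨h0.trans (Pm.le_mt x.κ_pos x.κ_le_one (x.μ0_pos.le.trans h0)), (Pm.mt_le' μ).trans (max_le h1
    (mul_le_of_le_one_right x.κ_pos.le (rpow_le_one_of_one_le_of_nonpos x.one_le_n (by norm_num))))⟩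

theorem exists_plG (x : Ctx β c0 C0 K η p) (hP : ∀ μ, p.μ0 ≤ μ → μ ≤ p.κ → ∃ P, p.PlOk μ P)
    {μ : ℝ} (h0 : p.μ0 ≤ μ) (h1 : μ ≤ p.κ) : ∃ P, p.PlG μ P :=
  let ⟨_, h⟩ := hP _ (mt_mem x h0 h1).1 (mt_mem x h0 h1).2
  ⟨_, Pm.PlG.of h⟩

theorem mt_end (x : Ctx β c0 C0 K η p) : p.mt (p.μ 1 p.ye) = p.μ 1 p.ye := by
  refine Pm.mt_eq x.κ_pos x.κ_le_one (x.μ_pos x.mem_end).le ?_
  rw [Pm.μ, one_mul]
  refine mul_le_mul_of_nonneg_left (((x.Epow _).le_iff x.Eye.pow).2 ?_) x.κ_pos.le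
  push_cast
  linarith [x.cl_le, x.l2]

/-- the chain of the octaves -/
theorem path (x : Ctx β c0 C0 K η p) {δ : ℝ} (hδ : 0 ≤ δ)
    (hP : ∀ μ, p.μ0 ≤ μ → μ ≤ p.κ → ∃ P, p.PlOk μ P) (h1 : StartG δ p) (h2 : OctG δ p)
    (h3 : SwG δ p) : PathG (7 * log p.n * δ) p := by
  choose P hP using fun i => exists_plG x hP (muG_ge x (oc_ge x i)) (muG_le_κ x (oc p i))
  have s0 := x.s_pos.le
  have k := Go.chain (M := fun i => p.gst (P i) (oc p i)) (δ := fun _ => δ + δ) s0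
    (fun _ => by positivity) (Nat.log 2 p.n + 1) fun i _ =>
      (h2 _ _ _ (octR x i) (hP i)).trans (h3 _ _ _ _ (octR x i) (hP i) (hP (i + 1))) s0 hδ hδ
  have e := hP (Nat.log 2 p.n + 1 + 1)
  have e0 := hP 0
  simp only [oc_end x, oc_zero x] at k e e0
  rw [Pm.muG_one x.ye_pos] at e
  rw [Pm.gst_one x.ye_pos x.r_le_ye] at k
  refine ⟨_, e.plOk (mt_end x), ((h1 _ e0).trans k s0 hδ (Finset.sum_nonneg fun _ _ => by positivity)).mono s0 ?_⟩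
  rw [Finset.sum_const, Finset.card_range, nsmul_eq_mul]
  push_cast
  nlinarith [mul_le_mul_of_nonneg_right (log_le x) hδ, mul_le_mul_of_nonneg_right x.l2 hδ]

end Gr62

open Gr62

theorem StartG.mono {δ δ' : ℝ} {p : Pm} (h : StartG δ p) (hs : 0 ≤ p.s) (e : δ ≤ δ') :
    StartG δ' p := fun P a => (h P a).mono hs e

theorem OctG.mono {δ δ' : ℝ} {p : Pm} (h : OctG δ p) (hs : 0 ≤ p.s) (e : δ ≤ δ') :
    OctG δ' p := fun σ σ' P a b => (h σ σ' P a b).mono hs e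

theorem SwG.mono {δ δ' : ℝ} {p : Pm} (h : SwG δ p) (hs : 0 ≤ p.s) (e : δ ≤ δ') :
    SwG δ' p := fun σ σ' P P' a b c => (h σ σ' P P' a b c).mono hs e

/-- **the row, graded form** -/
theorem topG : TopG := by
  intro β g hβ h0 h1 h2 h3 h4 h5
  refine key_of_go hβ ?_
  have h := ((((h0.and_sub h1).and_sub h2).and_sub h3).and_sub h4).and_sub h5
  refine h.impF (Loss.triv β) (Par.triv.mono fun _ _ _ _ _ _ _ _ _ _ c1 hc1 =>
    ⟨c1 / 4, by positivity, c1 / 2, half_pos hc1, 8, fun p _ _ x H _ => ?_⟩)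
  obtain ⟨⟨d4, -, e4, ⟨d3, -, e3, ⟨d2, -, e2, ⟨d1, -, e1, ⟨_, -, -, ⟨hP, ⟨P3, p3⟩, -, -⟩⟩,
    t1, -, t1e, T1⟩, t2, -, t2e, T2⟩, t3, -, t3e, T3⟩, t4, t4p, t4e, T4⟩, t5, -, t5e, T5⟩ := H
  have s0 := x.s_pos.le
  have d0 : 0 < (p.n : ℝ) ^ (-c1) := rpow_pos_of_pos x.n_pos _
  obtain ⟨P, hP, G⟩ := path x d0.le hP (T1.mono s0 (by linarith)) (T2.mono s0 (by linarith))
    (T3.mono s0 (by linarith))
  have l2 := x.l2
  have a1 : log (p.n : ℝ) ^ 1 ≤ (p.n : ℝ) ^ (c1 / 4) :=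
    Big.log_pow_le (k := 1) (x.big.mono (by norm_num) le_rfl)
  have e : 8 * log p.n * (p.n : ℝ) ^ (-c1) ≤ (p.n : ℝ) ^ (-(c1 / 2)) :=
    calc 8 * log p.n * (p.n : ℝ) ^ (-c1)
        ≤ (p.n : ℝ) ^ (c1 / 4) * (p.n : ℝ) ^ (c1 / 4) * (p.n : ℝ) ^ (-c1) := by
          have := x.big.le_rpow
          rw [pow_one] at a1
          gcongr
      _ = _ := by rw [← rpow_add x.n_pos, ← rpow_add x.n_pos]; congr 1; ring
  refine ⟨p.tst P3 p.ye, (G.trans (T4 P P3 hP p3) s0 (by positivity) t4p.le).mono s0 ?_,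
    (T5 P3 p3).mono s0 ?_⟩ <;> nlinarith

end Crest.Agent.T156.Alt

end
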