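import Crest.Agent.T156.PSharp_81
import Crest.Agent.T156.PrC_28
import Crest.Agent.T156.Ker_31
import Crest.Agent.T156.PlatS_10

/-!
Row 156, ALT, text (P) (helper97): two lists that differ only below a time `s` (merged low
levels), mixed differences, the susceptibilities `χ_y`, and the time derivative of the replicon
coefficient.
-/

set_option autoImplicit false

namespace Crest.Agent.T156.Pr.Mer97

open MeasureTheory Set
open Crest.Agent.R164.GC Crest.Agent.R339.B Crest.Agent.R339.Var Crest.Agent.T157.Pf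
open Crest.Agent.T156.Pp (Dn Dn_succ Dn_bd Dn_zero Dn_one)
open Crest.Agent.T156.Pp.Ode3 (AP X2 dz_ii int_le_const lvr_pos lvr_le_one lvr_ii lvr_mono)

noncomputable section

/-- sharp comparison of the laws (31) -/
def LipS : Prop := ∀ T0 : ℝ, ∃ C : ℝ, 1 ≤ C ∧ ∀ l l', Ok l → Ok l' → TT l' = TT l → TT l ≤ T0 →
  ∀ t ∈ Icc 0 (TT l), ∀ (F : ℝ → ℝ) (K : ℝ), BD F → (∀ x, |deriv F x| ≤ K) →
    |Et l' t F - Et l t F| ≤ C * K * ((∫ s in (0:ℝ)..t, |lvr 1 l' s - lvr 1 l s|) +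
      (∫ s in (0:ℝ)..t, lvr 1 l s) * ∫ s in t..TT l, |lvr 1 l' s - lvr 1 l s|) ∧
    ((∀ x, F (-x) = F x) → (∀ x, |deriv (deriv F) x| ≤ K) →
      |Et l' t F - Et l t F| ≤ C * K * ((∫ s in (0:ℝ)..t, s * |lvr 1 l' s - lvr 1 l s|) +
        t * (∫ s in (0:ℝ)..t, lvr 1 l s) * ∫ s in t..TT l, |lvr 1 l' s - lvr 1 l s|))

theorem lipS : LipS := by
  intro T0
  obtain ⟨C, hC, H⟩ := Ker.EX_lip T0
  refine ⟨C, hC, fun l l' h h' e hT t ht F K hF hK => ?_⟩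
  obtain ⟨a, -, b⟩ := H l l' h.1 h'.1 e hT t ht F K hF hK 0 _ _ rfl rfl
  refine ⟨a, fun he h2 => ?_⟩
  have := b he h2
  rw [show (0:ℝ) ^ 2 = 0 by norm_num, mul_zero, add_zero] at this
  exact this

/-! ### test functions with two bounded derivatives -/

structure B2 (F : ℝ → ℝ) (K : ℝ) : Prop where
  bd : BD F
  l0 : ∀ x, |F x| ≤ K
  l1 : ∀ x, |deriv F x| ≤ K
  l2 : ∀ x, |deriv (deriv F) x| ≤ K

theorem B2.nn {F : ℝ → ℝ} {K : ℝ} (h : B2 F K) : 0 ≤ K := (abs_nonneg _).trans (h.l0 0)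

theorem B2.mono {F : ℝ → ℝ} {K L : ℝ} (h : B2 F K) (hK : K ≤ L) : B2 F L :=
  ⟨h.bd, fun x => (h.l0 x).trans hK, fun x => (h.l1 x).trans hK, fun x => (h.l2 x).trans hK⟩

theorem abs_mul_le' {a b K L : ℝ} (ha : |a| ≤ K) (hb : |b| ≤ L) : |a * b| ≤ K * L := by
  rw [abs_mul]
  exact mul_le_mul ha hb (abs_nonneg _) ((abs_nonneg _).trans ha)

theorem B2.mul {F G : ℝ → ℝ} {K L : ℝ} (h : B2 F K) (g : B2 G L) :
    B2 (fun x => F x * G x) (4 * (K * L)) := by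
  have k0 : 0 ≤ K * L := mul_nonneg h.nn g.nn
  have e1 : deriv (fun x => F x * G x) = fun x => deriv F x * G x + F x * deriv G x :=
    funext fun x => ((h.bd.hasDerivAt x).fun_mul (g.bd.hasDerivAt x)).deriv
  refine ⟨h.bd.mul g.bd, fun x => ?_, fun x => ?_, fun x => ?_⟩
  · have := abs_mul_le' (h.l0 x) (g.l0 x)
    linarith
  · rw [e1]
    have a := abs_mul_le' (h.l1 x) (g.l0 x)
    have b := abs_mul_le' (h.l0 x) (g.l1 x)
    have := abs_add_le (deriv F x * G x) (F x * deriv G x)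
    linarith
  · rw [e1, (((h.bd.deriv.hasDerivAt x).fun_mul (g.bd.hasDerivAt x)).fun_add
      ((h.bd.hasDerivAt x).fun_mul (g.bd.deriv.hasDerivAt x))).deriv]
    have a := abs_le.1 (abs_mul_le' (h.l2 x) (g.l0 x))
    have b := abs_le.1 (abs_mul_le' (h.l1 x) (g.l1 x))
    have c := abs_le.1 (abs_mul_le' (h.l0 x) (g.l2 x))
    rw [abs_le]
    constructor <;> linarith [a.1, a.2, b.1, b.2, c.1, c.2]

theorem b2_Dk (T : ℝ) : ∃ C : ℝ, 1 ≤ C ∧ ∀ l, Adm 1 l → TT l ≤ T → ∀ t, 0 ≤ t → ∀ j ≤ 3,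
    B2 (Dk j l t) C := by
  obtain ⟨C, h1, hC⟩ := Pp.Ode3.Dn_PhiT T 5
  refine ⟨C, h1, fun l h hT t ht j hj => ⟨Dn_bd (PhiT_prof one_pos l t) j,
    hC l h hT t ht j (by omega), fun x => ?_, fun x => ?_⟩⟩
  · unfold Dk
    rw [← Dn_succ]
    exact hC l h hT t ht _ (by omega) x
  · unfold Dk
    rw [← Dn_succ, ← Dn_succ]
    exact hC l h hT t ht _ (by omega) x

theorem Dk_neg (l : List (ℝ × ℝ)) (t : ℝ) (j : ℕ) (x : ℝ) :
    Dk j l t (-x) = (-1) ^ (j + 1) * Dk j l t x := by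
  unfold Dk
  refine Ker.Dn_neg (fun y => ?_) j x
  rw [Lip62.PhiT_eq_rest]
  exact Ker.PhiL_even _ y

theorem Dk_sq_neg (l : List (ℝ × ℝ)) (t : ℝ) (j : ℕ) (x : ℝ) :
    Dk j l t (-x) * Dk j l t (-x) = Dk j l t x * Dk j l t x := by
  rw [Dk_neg]
  rcases neg_one_pow_eq_or ℝ (j + 1) with h | h <;> rw [h] <;> ring

theorem Dk1_neg (l : List (ℝ × ℝ)) (t x : ℝ) : Dk 1 l t (-x) = Dk 1 l t x := by
  rw [Dk_neg]; ring

theorem Et_sub (l : List (ℝ × ℝ)) (t : ℝ) {F G : ℝ → ℝ} (hF : BD F) (hG : BD G) :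
    Et l t (fun x => F x - G x) = Et l t F - Et l t G := by
  obtain ⟨K, hK⟩ := hF.bc
  obtain ⟨L, hL⟩ := hG.bc
  unfold Et
  rw [show (fun x => F x - G x) = fun x => F x + (-1) * G x from funext fun x => by ring,
    EX_add one_pos l t hK (hL.const_mul (-1)), EX_const_mul one_pos]
  ring

/-! ### lists that differ only below `s` -/

/-- `l` and `k` have the same tilts from `s` on, tilts `≤ m` before -/
structure Low (m s : ℝ) (l k : List (ℝ × ℝ)) : Prop where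
  ok : Ok l
  ok' : Ok k
  tt : TT k = TT l
  s0 : 0 ≤ s
  sT : s ≤ TT l
  m0 : 0 ≤ m
  eq : ∀ t, s ≤ t → lvr 1 k t = lvr 1 l t
  le : ∀ t, 0 ≤ t → t < s → lvr 1 l t ≤ m
  le' : ∀ t, 0 ≤ t → t < s → lvr 1 k t ≤ m

section low

variable {m s : ℝ} {l k l' k' : List (ℝ × ℝ)}

theorem Low.symm (h : Low m s l k) : Low m s k l :=
  ⟨h.ok', h.ok, h.tt.symm, h.s0, h.tt ▸ h.sT, h.m0, fun t ht => (h.eq t ht).symm, h.le', h.le⟩

theorem Low.dz (h : Low m s l k) {t : ℝ} (h0 : 0 ≤ t) (h1 : t < s) :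
    |lvr 1 k t - lvr 1 l t| ≤ m := by
  have a := lvr_pos h.ok.1 t
  have b := lvr_pos h.ok'.1 t
  rw [abs_le]
  constructor <;> linarith [h.le t h0 h1, h.le' t h0 h1]

theorem Low.up (h : Low m s l k) (g : ℝ → ℝ) {t u : ℝ} (ht : s ≤ t) (hu : s ≤ u) :
    ∫ r in t..u, g r * |lvr 1 k r - lvr 1 l r| = 0 := by
  rw [intervalIntegral.integral_congr (g := fun _ => 0) fun r hr => ?_]
  · simp
  · have : s ≤ r := (le_min ht hu).trans hr.1
    simp [h.eq r this]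

theorem Low.up1 (h : Low m s l k) {t u : ℝ} (ht : s ≤ t) (hu : s ≤ u) :
    ∫ r in t..u, |lvr 1 k r - lvr 1 l r| = 0 := by
  simpa using h.up (fun _ => 1) ht hu

theorem Low.int1 (h : Low m s l k) {t : ℝ} (ht : s ≤ t) :
    ∫ r in (0:ℝ)..t, |lvr 1 k r - lvr 1 l r| ≤ m * s := by
  rw [← intervalIntegral.integral_add_adjacent_intervals (dz_ii h.ok.1 h.ok'.1 0 s)
    (dz_ii h.ok.1 h.ok'.1 s t), h.up1 le_rfl ht, add_zero]
  refine (le_abs_self _).trans (int_le_const h.s0 fun r a b => ?_)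
  rw [abs_abs]
  exact h.dz a.le b

theorem Low.dist (h : Low m s l k) : dist1 l k ≤ m * s := h.int1 h.sT

theorem Low.intW (h : Low m s l k) {t : ℝ} (ht : s ≤ t) :
    ∫ r in (0:ℝ)..t, r * |lvr 1 k r - lvr 1 l r| ≤ m * s ^ 2 := by
  have ii : ∀ a b : ℝ, IntervalIntegrable (fun r => r * |lvr 1 k r - lvr 1 l r|) volume a b :=
    fun a b => (dz_ii h.ok.1 h.ok'.1 a b).continuousOn_mul continuousOn_id
  rw [← intervalIntegral.integral_add_adjacent_intervals (ii 0 s) (ii s t),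
    h.up (fun r => r) le_rfl ht, add_zero]
  refine (le_abs_self _).trans ((int_le_const (K := s * m) h.s0 fun r a b => ?_).trans_eq
    (by ring))
  exact abs_mul_le' (by rw [abs_of_pos a]; exact b.le) (by rw [abs_abs]; exact h.dz a.le b)

theorem Low.intZ (h : Low m s l k) : ∫ r in (0:ℝ)..s, lvr 1 l r ≤ m * s :=
  (le_abs_self _).trans (int_le_const h.s0 fun r a b => by
    rw [abs_of_pos (lvr_pos h.ok.1 r)]; exact h.le r a.le b)

end low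

/-- **(St)**: above `s` the profiles agree and the even moments differ by `O(m s²)` -/
theorem St (T0 : ℝ) : ∃ C : ℝ, 1 ≤ C ∧ ∀ (m s : ℝ) (l k : List (ℝ × ℝ)),
    Low m s l k → TT l ≤ T0 → ∀ t ∈ Icc s (TT l), PhiT 1 k t = PhiT 1 l t ∧
      (∀ (F : ℝ → ℝ) (K : ℝ), B2 F K → (∀ x, F (-x) = F x) →
        |Et k t F - Et l t F| ≤ C * K * (m * s ^ 2)) ∧
      |Gam k t - Gam l t| ≤ C * (m * s ^ 2) ∧ |GG k t - GG l t| ≤ C * (m * s ^ 2) ∧
      |AA k t - AA l t| ≤ C * (m * s ^ 2) ∧ |NN k t - NN l t| ≤ C * (m * s ^ 2) ∧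
      |X2 k t - X2 l t| ≤ C * (m * s ^ 2) := by
  obtain ⟨C2, -, H2⟩ := Ker.lip2S T0
  obtain ⟨C, hC, HS⟩ := lipS T0
  obtain ⟨K, hK, hB⟩ := b2_Dk T0
  have K3 : 1 ≤ 16 * K ^ 3 := by nlinarith [one_le_pow₀ (n := 3) hK]
  refine ⟨C * (16 * K ^ 3), by nlinarith, fun m s l k h hT t ht => ?_⟩
  have t0 : 0 ≤ t := h.s0.trans ht.1
  have hP := (H2 l k h.ok h.ok' h.tt hT s ⟨h.s0, h.sT⟩ h.eq t ht).1
  have ms : 0 ≤ m * s ^ 2 := mul_nonneg h.m0 (sq_nonneg s)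
  have key : ∀ (F : ℝ → ℝ) (K : ℝ), B2 F K → (∀ x, F (-x) = F x) →
      |Et k t F - Et l t F| ≤ C * K * (m * s ^ 2) := fun F L hF he => by
    have := (HS l k h.ok h.ok' h.tt hT t ⟨t0, ht.2⟩ F L hF.bd hF.l1).2 he hF.l2
    rw [h.up1 ht.1 h.sT, mul_zero, add_zero] at this
    exact this.trans (mul_le_mul_of_nonneg_left (h.intW ht.1) (mul_nonneg (by linarith) hF.nn))
  have key' : ∀ F : ℝ → ℝ, B2 F (16 * K ^ 3) → (∀ x, F (-x) = F x) →
      |Et k t F - Et l t F| ≤ C * (16 * K ^ 3) * (m * s ^ 2) := fun F => key F _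
  have hD : ∀ j, Dk j k t = Dk j l t := fun j => by unfold Dk; rw [hP]
  have b := hB l h.ok.1 hT t t0
  have q2 : 4 * (K * K) ≤ 16 * K ^ 3 := by nlinarith
  have sq : ∀ j ≤ 3, |(Et k t fun x => Dk j k t x ^ 2) - Et l t fun x => Dk j l t x ^ 2| ≤
      C * (16 * K ^ 3) * (m * s ^ 2) := fun j hj => by
    simp only [hD, sq]
    simpa only [sq] using key' _ (((b j hj).mul (b j hj)).mono q2) (Dk_sq_neg l t j)
  refine ⟨hP, fun F L hF he => (key F L hF he).trans ?_, sq 0 (by norm_num), sq 1 (by norm_num),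
    ?_, sq 2 (by norm_num), ?_⟩
  · have : C * L ≤ C * (16 * K ^ 3) * L := by
      have := hF.nn
      have : 0 ≤ C * L := by positivity
      nlinarith
    exact mul_le_mul_of_nonneg_right this ms
  · unfold AA
    have e : ∀ x, Dk 1 l t x ^ 3 = Dk 1 l t x * Dk 1 l t x * Dk 1 l t x := fun x => by ring
    simp only [hD, e]
    exact key' _ ((((b 1 (by norm_num)).mul (b 1 (by norm_num))).mul (b 1 (by norm_num))).mono
      (le_of_eq (by ring))) fun x => by rw [Dk1_neg]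
  · show |Et k t (Dk 1 k t) - Et l t (Dk 1 l t)| ≤ _
    rw [hD]
    exact key' _ ((b 1 (by norm_num)).mono (by nlinarith [one_le_pow₀ (n := 2) hK])) (Dk1_neg l t)

theorem chi_int {l : List (ℝ × ℝ)} (h : Ok l) {t : ℝ} (ht : t ∈ Icc 0 (TT l)) :
    chi l = X2 l t + ∫ r in (0:ℝ)..t, lvr 1 l r * GG l r := by
  have a := Pp.Ode3.X2_int (AP.of_ok h) le_rfl ht.1 ht.2
  rw [Pp.Ode3.X2_zero (AP.of_ok h), ← Pp.Ode3.chi_eq (AP.of_ok h)] at a
  rw [Pp.Ode3.GG_eq]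
  linarith

theorem ii_zG {l : List (ℝ × ℝ)} (h : Ok l) {t : ℝ} (ht : t ∈ Icc 0 (TT l)) :
    IntervalIntegrable (fun r => lvr 1 l r * GG l r) volume 0 t :=
  Pp.Ode3.ii_lvr_mul h.1 (Pp.Ode3.Gp_cont (AP.of_ok h)) ⟨le_rfl, ht.1.trans ht.2⟩ ht

/-- the part of `χ' - χ` that comes from `[0,s]` when the tilts agree there -/
theorem low_part {l l' : List (ℝ × ℝ)} (h : Ok l) (h' : Ok l') (tt : TT l' = TT l) {m s E : ℝ}
    (hs : s ∈ Icc 0 (TT l)) (he : ∀ t, 0 ≤ t → t < s → lvr 1 l' t = lvr 1 l t)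
    (hm : ∀ t, 0 ≤ t → t < s → lvr 1 l t ≤ m) (hG : ∀ t ∈ Icc 0 (TT l), |GG l' t - GG l t| ≤ E) :
    |chi l' - chi l - (X2 l' s - X2 l s)| ≤ m * E * s := by
  have hs' : s ∈ Icc 0 (TT l') := by rw [tt]; exact hs
  rw [chi_int h hs, chi_int h' hs', show ∀ a b c d : ℝ, a + b - (c + d) - (a - c) = b - d from
    fun a b c d => by ring, ← intervalIntegral.integral_sub (ii_zG h' hs') (ii_zG h hs)]
  refine int_le_const hs.1 fun r a b => ?_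
  rw [he r a.le b, ← mul_sub]
  exact abs_mul_le' (by rw [abs_of_pos (lvr_pos h.1 r)]; exact hm r a.le b)
    (hG r ⟨a.le, b.le.trans hs.2⟩)

theorem dist_eq {m s : ℝ} {l k l' k' : List (ℝ × ℝ)} (h : Low m s l k) (h' : Low m s l' k')
    (e1 : ∀ t, 0 ≤ t → t < s → lvr 1 l' t = lvr 1 l t)
    (e2 : ∀ t, 0 ≤ t → t < s → lvr 1 k' t = lvr 1 k t) : dist1 k k' = dist1 l l' := by
  unfold dist1
  rw [h.tt]
  refine intervalIntegral.integral_congr fun r hr => ?_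
  rw [uIcc_of_le (h.s0.trans h.sT)] at hr
  rcases lt_or_ge r s with a | a
  · simp [e1 r hr.1 a, e2 r hr.1 a]
  · simp [h.eq r a, h'.eq r a]

/-- laws at time `s` when the tilts agree below `s` (Lip3) -/
theorem lip3 (T0 : ℝ) : ∃ C : ℝ, 1 ≤ C ∧ ∀ l l', Ok l → Ok l' → TT l' = TT l →
    TT l ≤ T0 → ∀ (m s : ℝ), s ∈ Icc 0 (TT l) → (∀ t, 0 ≤ t → t < s → lvr 1 l' t = lvr 1 l t) →
    (∀ t, 0 ≤ t → t < s → lvr 1 l t ≤ m) → ∀ (F : ℝ → ℝ) (K : ℝ), BD F → (∀ x, |deriv F x| ≤ K) →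
      |Et l' s F - Et l s F| ≤ C * K * (m * s * dist1 l l') := by
  obtain ⟨C, hC, HS⟩ := lipS T0
  refine ⟨C, hC, fun l l' h h' tt hT m s hs he hm F K hF hK => ?_⟩
  have a := (HS l l' h h' tt hT s hs F K hF hK).1
  have z : ∫ r in (0:ℝ)..s, |lvr 1 l' r - lvr 1 l r| = 0 := by
    have := int_le_const (f := fun r => |lvr 1 l' r - lvr 1 l r|) (K := 0) hs.1 fun r a b => by
      simp [he r a.le b]
    rw [zero_mul] at this
    exact abs_nonpos_iff.1 this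
  have d : ∫ r in s..TT l, |lvr 1 l' r - lvr 1 l r| = dist1 l l' := by
    unfold dist1
    rw [← intervalIntegral.integral_add_adjacent_intervals (dz_ii h.1 h'.1 0 s)
      (dz_ii h.1 h'.1 s (TT l)), z, zero_add]
  have Z : ∫ r in (0:ℝ)..s, lvr 1 l r ≤ m * s :=
    (le_abs_self _).trans (int_le_const hs.1 fun r a b => by
      rw [abs_of_pos (lvr_pos h.1 r)]; exact hm r a.le b)
  rw [z, d, zero_add] at a
  have K0 : 0 ≤ K := (abs_nonneg _).trans (hK 0)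
  exact a.trans (mul_le_mul_of_nonneg_left (mul_le_mul_of_nonneg_right Z
    (Pp.Ode3.dist1_nonneg (AP.of_ok h) l')) (by positivity))

/-- **mixed difference of `χ`** -/
theorem chi_mix (T0 : ℝ) : ∃ C : ℝ, 1 ≤ C ∧
    ∀ (m s : ℝ) (l k l' k' : List (ℝ × ℝ)), Low m s l k → Low m s l' k' → TT l' = TT l →
    TT l ≤ T0 → (∀ t, 0 ≤ t → t < s → lvr 1 l' t = lvr 1 l t) →
    (∀ t, 0 ≤ t → t < s → lvr 1 k' t = lvr 1 k t) →
      |(chi k' - chi k) - (chi l' - chi l)| ≤ C * (m * s * dist1 l l') := by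
  obtain ⟨CF, hCF, HF⟩ := Pp.Ode3.lipFS_of Ker.lip1S T0
  obtain ⟨C1, hC1, H1⟩ := Ker.lip1S T0
  obtain ⟨C2, -, H2⟩ := Ker.lip2S T0
  obtain ⟨C3, hC3, H3⟩ := lip3 T0
  obtain ⟨K, hK, hB⟩ := b2_Dk T0
  refine ⟨2 * CF + C1 * C1 + 2 * (C3 * K), by nlinarith, fun m s l k l' k' h h' tt hT e1 e2 => ?_⟩
  have hD := dist_eq h h' e1 e2
  set D := dist1 l l' with hDd
  have D0 : 0 ≤ D := Pp.Ode3.dist1_nonneg (AP.of_ok h.ok) l'
  have hs : s ∈ Icc 0 (TT l) := ⟨h.s0, h.sT⟩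
  have hsk : s ∈ Icc 0 (TT k) := by rw [h.tt]; exact hs
  have ttk : TT k' = TT k := by rw [h'.tt, h.tt, tt]
  have hTk : TT k ≤ T0 := by rw [h.tt]; exact hT
  have hT' : TT l' ≤ T0 := by rw [tt]; exact hT
  have a1 := low_part h.ok h'.ok tt hs e1 h.le fun t ht => (HF l l' h.ok h'.ok tt hT t ht).2.1
  have a2 := low_part h.ok' h'.ok' ttk hsk e2 h.le' fun t ht =>
    (HF k k' h.ok' h'.ok' ttk hTk t ht).2.1
  rw [hD] at a2
  have P1 := (H2 l k h.ok h.ok' h.tt hT s hs h.eq s ⟨le_rfl, h.sT⟩).1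
  have P2 := (H2 l' k' h'.ok h'.ok' h'.tt hT' s ⟨h'.s0, h'.sT⟩ h'.eq s ⟨le_rfl, h'.sT⟩).1
  have b := hB l h.ok.1 hT s h.s0 1 (by norm_num)
  have b' := hB l' h'.ok.1 hT' s h.s0 1 (by norm_num)
  have x1 : X2 k s = Et k s (Dk 1 l s) := by
    show Et k s (Dk 1 k s) = _
    unfold Dk; rw [P1]
  have x2 : X2 k' s = Et k' s (Dk 1 l' s) := by
    show Et k' s (Dk 1 k' s) = _
    unfold Dk; rw [P2]
  have x3 : X2 l s = Et l s (Dk 1 l s) := rfl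
  have x4 : X2 l' s = Et l' s (Dk 1 l' s) := rfl
  have hd : ∀ x, |deriv (fun x => Dk 1 l' s x - Dk 1 l s x) x| ≤ C1 * D := fun x => by
    rw [((b'.bd.hasDerivAt x).fun_sub (b.bd.hasDerivAt x)).deriv]
    unfold Dk
    rw [← Dn_succ, ← Dn_succ]
    exact (H1 l l' h.ok h'.ok tt hT).1 2 (by norm_num) s h.s0 x
  have a3 := (H1 l' k' h'.ok h'.ok' h'.tt hT').2 _ _ 0 (C1 * D) s ⟨h'.s0, h'.sT⟩
    (b'.bd.sub b.bd) (b'.bd.sub b.bd) (fun x => by simp) hd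
  rw [Et_sub k' s b'.bd b.bd, Et_sub l' s b'.bd b.bd, zero_add] at a3
  have a3' : C1 * (C1 * D) * dist1 l' k' ≤ C1 * (C1 * D) * (m * s) :=
    mul_le_mul_of_nonneg_left h'.dist (by positivity)
  have a4 := H3 l l' h.ok h'.ok tt hT m s hs e1 h.le _ K b.bd b.l1
  have a5 := H3 k k' h.ok' h'.ok' ttk hTk m s hsk e2 h.le' _ K b.bd b.l1
  rw [hD] at a5
  rw [← hDd] at a4
  rw [x3, x4] at a1
  rw [x1, x2] at a2
  rw [abs_le] at a1 a2 a3 a4 a5 ⊢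
  constructor <;> nlinarith [a1.1, a1.2, a2.1, a2.2, a3.1, a3.2, a4.1, a4.2, a5.1, a5.2]

theorem alg {c x x' y y' A B E e e' : ℝ} (hc : 0 < c) (hx : c ≤ x) (hx' : c ≤ x') (x1 : x ≤ 1)
    (y0 : 0 ≤ y) (y1 : y ≤ 1) (y0' : 0 ≤ y') (y1' : y' ≤ 1) (hA : |y - x| ≤ A)
    (hA' : |y' - x'| ≤ A) (hB : |(y' - y) - (x' - x)| ≤ B) (hE : |x' - x| ≤ E) (he : |e| ≤ 1) :
    |1 - (1 - e) / x ^ 2 * y ^ 2 - e| ≤ 4 * c⁻¹ ^ 2 * A ∧
    |(1 - (1 - e') / x' ^ 2 * y' ^ 2) - (1 - (1 - e) / x ^ 2 * y ^ 2) - (e' - e)| ≤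
      2 * c⁻¹ ^ 2 * (|e' - e| * A) + 4 * c⁻¹ ^ 3 * (B + A * E) := by
  have x0 : 0 < x := hc.trans_le hx
  have x0' : 0 < x' := hc.trans_le hx'
  set R := c⁻¹ with hR
  have R1 : 1 ≤ R := (one_le_inv₀ hc).2 (hx.trans x1)
  have r1 : |x⁻¹| ≤ R := by rw [abs_of_pos (inv_pos.2 x0)]; exact inv_anti₀ hc hx
  have r2 : |x'⁻¹| ≤ R := by rw [abs_of_pos (inv_pos.2 x0')]; exact inv_anti₀ hc hx'
  have A0 : 0 ≤ A := (abs_nonneg _).trans hA
  have B0 : 0 ≤ B := (abs_nonneg _).trans hB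
  have E0 : 0 ≤ E := (abs_nonneg _).trans hE
  have p1 : |y * x⁻¹| ≤ 1 * R := abs_mul_le' (by rw [abs_of_nonneg y0]; exact y1) r1
  have p2 : |y' * x'⁻¹| ≤ 1 * R := abs_mul_le' (by rw [abs_of_nonneg y0']; exact y1') r2
  have e1 : |1 - e| ≤ 2 := by rw [abs_le] at he ⊢; constructor <;> linarith [he.1, he.2]
  have s1 : |1 + y * x⁻¹| ≤ 2 * R := by
    rw [abs_le] at p1 ⊢; constructor <;> linarith [p1.1, p1.2]
  have s2 : |1 + y' * x'⁻¹| ≤ 2 * R := by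
    rw [abs_le] at p2 ⊢; constructor <;> linarith [p2.1, p2.2]
  have s3 : |y' * x'⁻¹ + y * x⁻¹| ≤ 2 * R := by
    rw [abs_le] at p1 p2 ⊢; constructor <;> linarith [p1.1, p1.2, p2.1, p2.2]
  have q1 := abs_mul_le' (abs_mul_le' hA r1) s1
  have q2 := abs_mul_le' (abs_mul_le' hA' r2) s2
  have q3 := abs_mul_le' hB r2
  have q4 := abs_mul_le' hA (abs_mul_le' hE (abs_mul_le' r1 r2))
  have q5 : |((y' - y) - (x' - x)) * x'⁻¹ - (y - x) * ((x' - x) * (x⁻¹ * x'⁻¹))| ≤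
      B * R + A * (E * (R * R)) := (abs_sub _ _).trans (add_le_add q3 q4)
  constructor
  · have := abs_mul_le' e1 q1
    rw [show 1 - (1 - e) / x ^ 2 * y ^ 2 - e = -((1 - e) * ((y - x) * x⁻¹ * (1 + y * x⁻¹))) by
      field_simp; ring, abs_neg]
    exact this.trans_eq (by ring)
  · have t1 := abs_mul_le' (le_refl |e' - e|) q2
    have t2 := abs_mul_le' e1 (abs_mul_le' q5 s3)
    rw [show (1 - (1 - e') / x' ^ 2 * y' ^ 2) - (1 - (1 - e) / x ^ 2 * y ^ 2) - (e' - e) =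
      (e' - e) * ((y' - x') * x'⁻¹ * (1 + y' * x'⁻¹)) - (1 - e) * ((((y' - y) - (x' - x)) * x'⁻¹ -
        (y - x) * ((x' - x) * (x⁻¹ * x'⁻¹))) * (y' * x'⁻¹ + y * x⁻¹)) by field_simp; ring]
    refine (abs_sub _ _).trans ((add_le_add t1 t2).trans ?_)
    have : B * R ^ 2 ≤ B * R ^ 3 :=
      mul_le_mul_of_nonneg_left (pow_le_pow_right₀ R1 (by norm_num)) B0
    nlinarith

/-- **the coefficient `μ = 1 - b λ²` of the merged list** and its dependence on the profile -/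
theorem mu_mix (T0 : ℝ) : ∃ C : ℝ, 1 ≤ C ∧
    ∀ (m s eps eps' : ℝ) (l k l' k' : List (ℝ × ℝ)), Low m s l k → Low m s l' k' → TT l' = TT l →
    TT l ≤ T0 → (∀ t, 0 ≤ t → t < s → lvr 1 l' t = lvr 1 l t) →
    (∀ t, 0 ≤ t → t < s → lvr 1 k' t = lvr 1 k t) → |eps| ≤ 1 →
      (|chi k - chi l| ≤ C * (m * s) ∧ |k4 k - k4 l| ≤ C * (m * s) ∧
        |chi k' - chi k| ≤ C * dist1 l l' ∧ |k4 k' - k4 k| ≤ C * dist1 l l') ∧
      |1 - bb l eps * chi k ^ 2 - eps| ≤ C * (m * s) ∧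
      |(1 - bb l' eps' * chi k' ^ 2) - (1 - bb l eps * chi k ^ 2) - (eps' - eps)| ≤
        C * ((dist1 l l' + |eps' - eps|) * (m * s)) := by
  obtain ⟨CF, hCF, HF⟩ := Pp.Ode3.lipFS_of Ker.lip1S T0
  obtain ⟨C1, hC1, H1⟩ := chi_mix T0
  obtain ⟨C0, -, hO⟩ := Pp.Ode3.odeS T0
  set R := (Real.exp (-T0))⁻¹ with hR
  have R0 : 0 < R := by positivity
  have z1 : 0 ≤ 4 * R ^ 2 * CF := by positivity
  have z2 : 0 ≤ 4 * R ^ 3 * (C1 + CF * CF) := by positivity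
  refine ⟨CF + 4 * R ^ 2 * CF + 4 * R ^ 3 * (C1 + CF * CF), by linarith,
    fun m s eps eps' l k l' k' h h' tt hT e1 e2 he => ?_⟩
  have hD := dist_eq h h' e1 e2
  have D0 : 0 ≤ dist1 l l' := Pp.Ode3.dist1_nonneg (AP.of_ok h.ok) l'
  have ms : 0 ≤ m * s := mul_nonneg h.m0 h.s0
  have ttk : TT k' = TT k := by rw [h'.tt, h.tt, tt]
  have hTk : TT k ≤ T0 := by rw [h.tt]; exact hT
  have hT' : TT l' ≤ T0 := by rw [tt]; exact hT
  have hTk' : TT k' ≤ T0 := by rw [ttk]; exact hTk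
  have o : ∀ l, Ok l → (0:ℝ) ∈ Icc 0 (TT l) := fun l h => ⟨le_rfl, (AP.of_ok h).TT_nn⟩
  obtain ⟨-, -, -, -, -, -, a1, a2⟩ := HF l k h.ok h.ok' h.tt hT 0 (o l h.ok)
  obtain ⟨-, -, -, -, -, -, a3, -⟩ := HF l' k' h'.ok h'.ok' h'.tt hT' 0 (o l' h'.ok)
  obtain ⟨-, -, -, -, -, -, a4, -⟩ := HF l l' h.ok h'.ok tt hT 0 (o l h.ok)
  obtain ⟨-, -, -, -, -, -, a5, a6⟩ := HF k k' h.ok' h'.ok' ttk hTk 0 (o k h.ok')
  rw [hD] at a5 a6
  have c0 : 0 ≤ CF := by linarith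
  have b1 := a1.trans (mul_le_mul_of_nonneg_left h.dist c0)
  have b2 := a2.trans (mul_le_mul_of_nonneg_left h.dist c0)
  have b3 := a3.trans (mul_le_mul_of_nonneg_left h'.dist c0)
  obtain ⟨-, -, ⟨-, -, -, -, -, -, x1⟩, -⟩ := hO l h.ok hT
  obtain ⟨-, -, ⟨-, -, -, -, -, y0, y1⟩, -⟩ := hO k h.ok' hTk
  obtain ⟨-, -, ⟨-, -, -, -, -, y0', y1'⟩, -⟩ := hO k' h'.ok' hTk'
  obtain ⟨g1, g2⟩ := alg (e' := eps') (Real.exp_pos _) (Sharp81.chi_ge h.ok hT)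
    (Sharp81.chi_ge h'.ok hT') x1 y0.le y1 y0'.le y1' b1 b3 (H1 m s l k l' k' h h' tt hT e1 e2)
    a4 he
  rw [← hR] at g1 g2
  have w1 := mul_nonneg z1 ms
  have w2 := mul_nonneg z2 ms
  have w3 := mul_nonneg z1 D0
  have w4 := mul_nonneg z2 D0
  have E0 := abs_nonneg (eps' - eps)
  refine ⟨⟨by linarith, by linarith, by linarith, by linarith⟩, ?_, ?_⟩
  · unfold bb
    have := mul_nonneg c0 ms
    linarith
  · unfold bb
    have u1 := mul_nonneg (mul_nonneg c0 D0) ms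
    have u2 := mul_nonneg (mul_nonneg c0 E0) ms
    have u3 := mul_nonneg w3 ms
    have u4 := mul_nonneg w1 E0
    have u5 := mul_nonneg w2 E0
    nlinarith

/-! ### the merged list -/

/-- the part of a list after the time `t`, without empty blocks -/
def rs : List (ℝ × ℝ) → ℝ → List (ℝ × ℝ)
  | [], _ => []
  | p :: l, t => if t < p.2 then (p.1, p.2 - t) :: l else rs l (t - p.2)

theorem rs_spec : ∀ {l : List (ℝ × ℝ)}, Ok l → ∀ {t : ℝ}, 0 ≤ t → Ok (rs l t) ∧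
    headLv 1 (rs l t) = lvr 1 l t ∧ (t ≤ TT l → TT (rs l t) = TT l - t) ∧
    ∀ u, 0 ≤ u → lvr 1 (rs l t) u = lvr 1 l (u + t)
  | [], h, t, ht => ⟨h, rfl, fun a => by
      have : t ≤ 0 := by simpa [TT] using a
      simp [rs, TT, le_antisymm this ht], fun _ _ => rfl⟩
  | p :: l, h, t, ht => by
    unfold rs
    split_ifs with h1
    · refine ⟨⟨⟨h.1.1, h.1.2.1, by simpa using h1.le, h.1.2.2.2⟩, fun q hq => ?_⟩, ?_, fun _ => ?_,
        fun u hu => ?_⟩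
      · rcases List.mem_cons.1 hq with a | a
        · rw [a]; simpa using h1
        · exact h.2 q (List.mem_cons_of_mem _ a)
      · simp only [headLv, lvr, if_pos h1]
      · simp only [TT_cons]; ring
      · simp only [lvr, lt_sub_iff_add_lt]
        rw [show u - (p.2 - t) = u + t - p.2 by ring]
    · obtain ⟨a, b, c, d⟩ := rs_spec (Plat10.ok_tail h) (t := t - p.2) (by linarith)
      refine ⟨a, ?_, fun e => ?_, fun u hu => ?_⟩
      · rw [b]; simp only [lvr, if_neg h1]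
      · rw [TT_cons] at e ⊢
        rw [c (by linarith)]; ring
      · rw [d u hu]
        simp only [lvr]
        rw [if_neg (by linarith), show u + (t - p.2) = u + t - p.2 by ring]

theorem rs_take : ∀ {l : List (ℝ × ℝ)}, (∀ p ∈ l, 0 < p.2) → ∀ j : ℕ,
    rs l (TT (l.take j)) = l.drop j
  | [], _, _ => by simp [rs]
  | p :: l, h, 0 => by
    have := h p List.mem_cons_self
    simp [rs, TT, this]
  | p :: l, h, j + 1 => by
    have hl : ∀ q ∈ l, 0 < q.2 := fun q hq => h q (List.mem_cons_of_mem _ hq)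
    have : 0 ≤ TT (l.take j) := TT_nonneg fun q hq => (hl q (List.mem_of_mem_take hq)).le
    rw [List.take_succ_cons, List.drop_succ_cons, TT_cons, rs, if_neg (by linarith),
      add_sub_cancel_left, rs_take hl j]

/-- all levels below the time `s` merged into one level of tilt `m` -/
def mg (m s : ℝ) (l : List (ℝ × ℝ)) : List (ℝ × ℝ) := (m, s) :: rs l s

theorem lvr_mg_lt (m : ℝ) (l : List (ℝ × ℝ)) {s t : ℝ} (h : t < s) : lvr 1 (mg m s l) t = m := by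
  simp only [mg, lvr, if_pos h]

/-- the merged list is admissible and differs from `l` only below `s` -/
theorem low_mg {m M s : ℝ} {l : List (ℝ × ℝ)} (h : Ok l) (m0 : 0 < m) (s0 : 0 < s) (sT : s ≤ TT l)
    (hm : m ≤ lvr 1 l s) (hM : m ≤ M) (hl : ∀ t, 0 ≤ t → t < s → lvr 1 l t ≤ M) :
    Low M s l (mg m s l) := by
  obtain ⟨a, b, c, d⟩ := rs_spec h s0.le
  refine ⟨h, ⟨⟨m0, b ▸ hm, s0.le, a.1⟩, fun q hq => ?_⟩, ?_, s0.le, sT, by linarith,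
    fun t ht => ?_, hl, fun t _ ht => by rw [lvr_mg_lt m l ht]; exact hM⟩
  · rcases List.mem_cons.1 hq with e | e
    · rw [e]; exact s0
    · exact a.2 q e
  · rw [mg, TT_cons, c sT]; ring
  · simp only [mg, lvr]
    rw [if_neg (not_lt.2 ht), d _ (by linarith), sub_add_cancel]

/-! ### the time derivative of `G` -/

/-- `G' = N - 2 ζ A` -/
def Gd (l : List (ℝ × ℝ)) (t : ℝ) : ℝ := NN l t - 2 * lvr 1 l t * AA l t

theorem NN_lip (T0 : ℝ) : ∃ K : ℝ, 1 ≤ K ∧ ∀ l, Ok l → TT l ≤ T0 → ∀ s ∈ Icc 0 (TT l),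
    ∀ t ∈ Icc 0 (TT l), |NN l t - NN l s| ≤ K * |t - s| := by
  obtain ⟨K, hK, hB⟩ := b2_Dk T0
  refine ⟨K * K + 24, by nlinarith, fun l h hT s hs t ht => ?_⟩
  have hA := AP.of_ok h
  refine abs_sub_le_of_rder (Pp.Ode3.Nm_cont hA) (fun r hr => Pp.Ode3.Nm_rder hA hr.1 hr.2) hs ht
    fun r hr => ?_
  have r0 : 0 ≤ r := (le_min hs.1 ht.1).trans hr.1
  have a1 := Pp.Ode3.N4_nonneg l r
  have a2 : Pp.Ode3.N4 l r ≤ K * K := Pp.Ode3.Et_le Pp.bfn_W3 fun y => by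
    have := abs_mul_le' ((hB l h.1 hT r r0 3 le_rfl).l0 y) ((hB l h.1 hT r r0 3 le_rfl).l0 y)
    unfold Pp.W3
    rw [sq]
    exact (le_abs_self _).trans this
  have a3 := Pp.Ode3.Bm_nonneg h.1 r
  have a4 := (Pp.Ode3.Bm_le_Nm h.1 r).trans (Pp.Ode3.Nm_le_four h.1 r)
  have a5 := lvr_pos h.1 r
  have a6 := lvr_le_one h.1 r
  rw [abs_le]
  constructor <;> nlinarith

variable {b0 c C η v : ℝ} {J : ℕ} {z : ℕ → ℝ}

/-- the base profile is critical to second order -/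
theorem Gd_base (T0 : ℝ) : ∃ K : ℝ, 1 ≤ K ∧ ∀ (b0 c C η v : ℝ) (J : ℕ) (z : ℕ → ℝ),
    Base b0 c C η v J z → 1 ≤ b0 → 0 ≤ C → ∀ N : ℕ, J ≤ N → N * v ≤ T0 → ∀ u, 0 < u → 2 * u ≤ c →
    ∀ t, 0 ≤ t → t < J * v → |Gd (lo z v 0 N) t| ≤ 2 * η / u + (K + 2 * C) * (u + v) := by
  obtain ⟨K, hK, hN⟩ := NN_lip T0
  obtain ⟨C0, -, hO⟩ := Pp.Ode3.odeS T0
  refine ⟨K + 30, by linarith, fun b0 c C η v J z h hb hC N JN hT u u0 uc t t0 t1 => ?_⟩
  obtain ⟨ok, hTT, -⟩ := Sharp81.base_area h JN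
  have hT' : TT (lo z v 0 N) ≤ T0 := hTT.le.trans hT
  have v0 := h.v_pos
  have JT : (J:ℝ) * v ≤ TT (lo z v 0 N) := by
    rw [hTT]; exact mul_le_mul_of_nonneg_right (Nat.cast_le.2 JN) v0.le
  obtain ⟨⟨-, cG, -⟩, hd, -, hb'⟩ := hO _ ok hT'
  obtain ⟨a, a0, a1, a2, a3⟩ : ∃ a : ℝ, 0 ≤ a ∧ a + u ≤ J * v ∧ t - u ≤ a ∧ a ≤ t := by
    rcases le_or_gt (t + u) (J * v) with q | q
    · exact ⟨t, t0, q, by linarith, le_rfl⟩
    · exact ⟨t - u, by linarith [h.lo], by linarith, le_rfl, by linarith⟩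
  have o := Sharp81.GG_osc h hb JN (s := a) (t := a + u) ⟨a0, by linarith⟩ ⟨by linarith, a1⟩
  have lz := fun r r0 r1 => Sharp81.lvr_lip h hC JN (s := r) r0 r1 t0 t1
  set l := lo z v 0 N with hl
  have tI : t ∈ Icc 0 (TT l) := ⟨t0, t1.le.trans JT⟩
  have m := Sharp81.mvt_lin (f := GG l) (f' := Gd l) (a := a) (u := u) (g := Gd l t)
    (E := (K + 30 + 2 * C) * (u + v)) u0.le (cG.mono (Icc_subset_Icc a0 (a1.trans JT)))
    (fun r hr => (hd r (a0.trans hr.1) (by linarith [hr.2])).2.1) (fun r hr => by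
      have r0 : 0 ≤ r := a0.trans hr.1
      have r1 : r < J * v := hr.2.trans_le a1
      have rI : r ∈ Icc 0 (TT l) := ⟨r0, r1.le.trans JT⟩
      have r3 : |r - t| ≤ u := abs_le.2 ⟨by linarith [hr.1], by linarith [hr.2]⟩
      have e1 := (hN l ok hT' t tI r rI).trans
        (mul_le_mul_of_nonneg_left r3 (by linarith : 0 ≤ K))
      obtain ⟨-, -, -, -, -, A0, A1, -, -, -, -, -, hA⟩ := hb' r rI
      have e2 := abs_mul_le' ((lz r r0 r1).trans (mul_le_mul_of_nonneg_left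
        (add_le_add r3 le_rfl) hC)) (show |AA l r| ≤ 1 by rw [abs_of_nonneg A0]; exact A1)
      have e3 := abs_mul_le' (show |lvr 1 l t| ≤ 1 by
        rw [abs_of_pos (lvr_pos ok.1 t)]; exact lvr_le_one ok.1 t)
        ((hA t tI).1.trans (mul_le_mul_of_nonneg_left r3 (by norm_num)))
      have e4 : 0 ≤ (K + 30) * v := by positivity
      unfold Gd
      rw [abs_le] at e1 e2 e3 ⊢
      constructor <;> nlinarith [e1.1, e1.2, e2.1, e2.2, e3.1, e3.2])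
  have : |Gd l t| * u ≤ 2 * η + (K + 30 + 2 * C) * (u + v) * u := by
    rw [← abs_of_pos u0, ← abs_mul, abs_of_pos u0]
    rw [abs_le] at o m ⊢
    constructor <;> linarith [o.1, o.2, m.1, m.2]
  rw [div_add' _ _ _ u0.ne', le_div_iff₀ u0]
  exact this

theorem dist_lo {N : ℕ} {Y L : ℝ} {om om' : ℕ → ℝ} (hz : Lab z N) (h : Om v Y L om)
    (h' : Om v Y L om') (hv : 0 < v) (hL : L ≤ 1 / 2) (hY : Y ≤ N * v) :
    dist1 (lo z v om N) (lo z v om' N) ≤ DD z N om om' := by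
  obtain ⟨-, ar⟩ := areaS z (sig v om) N hz h.sig0 (h.sm hv hL)
  refine (ar (sig v om') h'.sig0 (h'.sm hv hL) (by rw [h.sig_eq hY, h'.sig_eq hY])).1.trans
    (le_of_eq (Finset.sum_congr rfl fun j _ => ?_))
  unfold sig
  rw [show ((j + 1 : ℕ) : ℝ) * v - om' (j + 1) - (((j + 1 : ℕ) : ℝ) * v - om (j + 1)) =
    -(om' (j + 1) - om (j + 1)) by ring, abs_neg]

/-- **P1(v)**: the time derivative of `G` (so of `e = 1 - b G`) on the slice `j` -/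
theorem Gd_lo (T0 : ℝ) : ∃ K : ℝ, 1 ≤ K ∧ ∀ (b0 c C η v : ℝ) (J : ℕ) (z : ℕ → ℝ),
    Base b0 c C η v J z → 1 ≤ b0 → 0 ≤ C → ∀ (N : ℕ) (om : ℕ → ℝ) (Y L : ℝ), J ≤ N → N * v ≤ T0 →
    Om v Y L om → Y ≤ N * v → L ≤ 1 / 2 → ∀ u, 0 < u → 2 * u ≤ c → ∀ j < J, ∀ t, sig v om j ≤ t →
    t < sig v om (j + 1) → |Gd (lo z v om N) t| ≤ 2 * η / u + (K + 2 * C) * (u + v) +
      2 * C * (v + om j) + K * ((1 + 2 * C) * t + 2 * η) * DD z N 0 om := by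
  obtain ⟨K, hK, hG⟩ := Gd_base T0
  obtain ⟨CF, hCF, HF⟩ := Pp.Ode3.lipFS_of Ker.lip1S T0
  obtain ⟨C0, -, hO⟩ := Pp.Ode3.odeS T0
  refine ⟨K + CF, by linarith,
    fun b0 c C η v J z h hb hC N om Y L JN hT ho hY hL u u0 uc j jJ t t0 t1 => ?_⟩
  have v0 := h.v_pos
  have η0 := Sharp81.eta_nn h
  have hz := h.lab.up JN
  have h0 : Om v Y L 0 := om_zero v Y ho.Lv
  have t00 : 0 ≤ t := (ho.sig_nn v0 hL j).trans t0
  have jj : ((j + 1 : ℕ) : ℝ) * v ≤ J * v :=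
    mul_le_mul_of_nonneg_right (Nat.cast_le.2 jJ) v0.le
  have s1 := ho.sig_le (j + 1)
  have tJ : t < J * v := by linarith
  obtain ⟨ok, hTT, cell⟩ := Sharp81.base_area h JN
  obtain ⟨ok', hTT'⟩ := lo_ok areaS hz ho v0 hL hY
  have hT0 : TT (lo z v 0 N) ≤ T0 := hTT.le.trans hT
  have JN' : (J:ℝ) * v ≤ N * v := mul_le_mul_of_nonneg_right (Nat.cast_le.2 JN) v0.le
  have tI : t ∈ Icc 0 (TT (lo z v 0 N)) := ⟨t00, by rw [hTT]; linarith⟩
  obtain ⟨-, -, a1, a2, -⟩ := HF _ _ ok ok' (hTT'.trans hTT.symm) hT0 t tI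
  have d := dist_lo hz h0 ho v0 hL hY
  have D0 := DD_nn hz 0 om
  have b1 := a1.trans (mul_le_mul_of_nonneg_left d (by linarith))
  have b2 := a2.trans (mul_le_mul_of_nonneg_left d (by positivity))
  have g := hG b0 c C η v J z h hb hC N JN hT u u0 uc t t00 tJ
  obtain ⟨i, iJ, i1, i2, i3⟩ := cell t t00 tJ
  obtain ⟨⟨-, -, zj, -⟩, -⟩ := areaS z (sig v om) N hz ho.sig0 (ho.sm v0 hL)
  have z1 : lvr 1 (lo z v om N) t = z j := zj j t t0 t1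
  have z2 : |z j - z i| ≤ C * (v + om j) := (Sharp81.lab_abs h jJ iJ).trans
    (mul_le_mul_of_nonneg_left (by
      have := ho.nn j
      unfold sig at t0
      push_cast at s1
      rw [abs_le]; constructor <;> linarith) hC)
  have z3 := Sharp81.lvr_lin h hC JN t00 tJ
  have z4 := lvr_pos ok.1 t
  rw [i3] at z3 z4
  obtain ⟨-, -, -, hb'⟩ := hO _ ok' (hTT'.le.trans hT)
  obtain ⟨-, -, -, -, -, A0, A1, -⟩ := hb' t ⟨t00, by rw [hTT']; linarith⟩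
  have e2 := abs_mul_le' z2 (show |AA (lo z v om N) t| ≤ 1 by rw [abs_of_nonneg A0]; exact A1)
  have e3 := abs_mul_le' (show |z i| ≤ C * t + η by rw [abs_of_pos z4]; exact z3) b1
  have e4 : 0 ≤ CF * (u + v) := by positivity
  have e5 : 0 ≤ K * ((1 + 2 * C) * t + 2 * η) * DD z N 0 om := by positivity
  unfold Gd at g ⊢
  rw [i3] at g
  rw [z1]
  rw [abs_le] at g e2 e3 b2 ⊢
  constructor <;> linarith [g.1, g.2, e2.1, e2.2, e3.1, e3.2, b2.1, b2.2]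

/-! ### reveal slices: constants that do not depend on their length -/

theorem tE_top_der {F : ℝ → ℝ} {K : ℝ} (hF : BD F) (h0 : ∀ x, |F x| ≤ K)
    (h1 : ∀ x, |deriv F x| ≤ K) (r x : ℝ) : |deriv (tE 1 r (phi0 1) F) x| ≤ 3 * K := by
  have hP := phi0_prof (β := 1) one_pos
  rw [(hP.tE_hasDerivAt 1 r hF.egs x).deriv]
  have b1 : BC (deriv (phi0 1)) 1 := ⟨hP.bd.cont, hP.b1⟩
  have b0 : BC F K := ⟨hF.cont, h0⟩
  have a1 := tE_abs_le hP.lip 1 r (⟨hF.deriv.cont, h1⟩ : BC (deriv F) K) x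
  have a2 := tE_abs_le hP.lip 1 r (b0.mul b1) x
  have a3 := abs_mul_le' (tE_abs_le hP.lip 1 r b0 x) (tE_abs_le hP.lip 1 r b1 x)
  rw [abs_le] at a1 a2 a3 ⊢
  constructor <;> linarith [a1.1, a1.2, a2.1, a2.2, a3.1, a3.2]

/-- slices of tilt `1` -/
def Top (R : List (ℝ × ℝ)) : Prop := ∀ p ∈ R, p.1 = 1 ∧ 0 < p.2

theorem Top.nn {R : List (ℝ × ℝ)} (h : Top R) : ∀ p ∈ R, p.1 = 1 ∧ 0 ≤ p.2 :=
  fun p hp => ⟨(h p hp).1, (h p hp).2.le⟩

theorem Top.adm : ∀ {R : List (ℝ × ℝ)}, Top R → Adm 1 R ∧ headLv 1 R = 1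
  | [], _ => ⟨trivial, rfl⟩
  | p :: R, h => by
    obtain ⟨a, b⟩ := Top.adm (R := R) fun q hq => h q (List.mem_cons_of_mem _ hq)
    have := h p List.mem_cons_self
    exact ⟨⟨by rw [this.1]; exact one_pos, by rw [this.1, b], this.2.le, a⟩, this.1⟩

theorem adm_app {R : List (ℝ × ℝ)} (hR : Top R) : ∀ {M : List (ℝ × ℝ)}, Adm 1 M →
    Adm 1 (M ++ R) ∧ headLv 1 (M ++ R) = headLv 1 M
  | [], _ => hR.adm
  | _ :: _, h => ⟨⟨h.1, by
      have := (adm_app hR h.2.2.2).2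
      exact h.2.1.trans_eq this.symm, h.2.2.1, (adm_app hR h.2.2.2).1⟩, rfl⟩

theorem ok_app {M R : List (ℝ × ℝ)} (h : Ok M) (hR : Top R) : Ok (M ++ R) :=
  ⟨(adm_app hR h.1).1, fun p hp => (List.mem_append.1 hp).elim (h.2 p) fun a => (hR p a).2⟩

theorem lvr_end : ∀ {M : List (ℝ × ℝ)}, (∀ p ∈ M, 0 < p.2) → ∀ {t : ℝ}, TT M ≤ t → lvr 1 M t = 1
  | [], _, _, _ => rfl
  | p :: M, h, t, ht => by
    have hl : ∀ q ∈ M, 0 < q.2 := fun q hq => h q (List.mem_cons_of_mem _ hq)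
    have : 0 ≤ TT M := TT_nonneg fun q hq => (hl q hq).le
    rw [TT_cons] at ht
    simp only [lvr]
    rw [if_neg (by linarith), lvr_end hl (by linarith)]

theorem lvr_app {R : List (ℝ × ℝ)} (hR : Top R) : ∀ (M : List (ℝ × ℝ)) (t : ℝ),
    lvr 1 (M ++ R) t = lvr 1 M t
  | [], t => Pp.Area50.lvr_top (fun p hp => (hR p hp).1) t
  | p :: M, t => by
    simp only [List.cons_append, lvr]
    rw [lvr_app hR M]

theorem Dk_app {M R : List (ℝ × ℝ)} (h : Ok M) (hR : Top R) (j : ℕ) (t : ℝ) :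
    Dk j (M ++ R) t = Dk j M t := by
  obtain ⟨c, hc⟩ := PhiT_append one_pos hR.nn (l := M) (fun p hp => (Adm.pos h.1 p hp).1) t
  unfold Dk
  rw [hc, Pp.Dn_shift]

theorem Et_app {M R : List (ℝ × ℝ)} (h : Ok M) (hR : Top R) {t : ℝ} (ht : t ≤ TT M) (F : ℝ → ℝ) :
    Et (M ++ R) t F = Et M t F := by
  unfold Et
  rw [EX_append one_pos hR.nn (fun p hp => (Adm.pos h.1 p hp).1) ht]

/-- below the top the appended slices are invisible -/
theorem fun_app {M R : List (ℝ × ℝ)} (h : Ok M) (hR : Top R) {t : ℝ} (ht : t ≤ TT M) :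
    Gam (M ++ R) t = Gam M t ∧ GG (M ++ R) t = GG M t ∧ AA (M ++ R) t = AA M t ∧
      NN (M ++ R) t = NN M t ∧ N4 (M ++ R) t = N4 M t ∧ BB (M ++ R) t = BB M t ∧
      chi (M ++ R) = chi M ∧ k4 (M ++ R) = k4 M := by
  simp only [Gam, GG, AA, NN, N4, BB, chi, k4, Dk_app h hR, Et_app h hR ht, and_self]

theorem Et_top {M R : List (ℝ × ℝ)} (h : Ok M) (hR : Top R) {r : ℝ} (r0 : 0 ≤ r) (r1 : r ≤ TT R)
    {F : ℝ → ℝ} (hF : BD F) : Et (M ++ R) (TT M + r) F = Et M (TT M) (tE 1 r (phi0 1) F) ∧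
      ∀ j, Dk j (M ++ R) (TT M + r) = Dk j [] 0 := by
  obtain ⟨K, hK⟩ := hF.bc
  obtain ⟨a, b⟩ := Plat10.top_markov (ok_app h hR) (AP.of_ok h).TT_nn
    (fun s hs => by rw [lvr_app hR, lvr_end h.2 hs])
  constructor
  · rw [← Et_app h hR le_rfl]
    unfold Et
    rw [b r r0 (by rw [Ker.TT_append]; linarith) F K hK]
  · intro j
    obtain ⟨c, hc⟩ := a (TT M + r) (by linarith)
    unfold Dk
    rw [hc, Pp.Dn_shift]
    rfl

/-- **reveal nodes**: the constants depend only on the time below the top -/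
theorem reveal (T0 : ℝ) : ∃ C : ℝ, 1 ≤ C ∧ ∀ M M' R R' : List (ℝ × ℝ), Ok M → Ok M' → Top R →
    Top R' → TT M' = TT M → TT M ≤ T0 → ∀ Y ∈ Icc 0 (TT M),
    (∀ s, Y ≤ s → lvr 1 M' s = lvr 1 M s) → ∀ r, 0 ≤ r → r ≤ TT R → r ≤ TT R' →
      (∀ (F : ℝ → ℝ) (K : ℝ), BD F → (∀ x, |F x| ≤ K) → (∀ x, |deriv F x| ≤ K) →
        |Et (M' ++ R') (TT M + r) F - Et (M ++ R) (TT M + r) F| ≤ C * K * √Y * dist1 M M') ∧
      |Gam (M' ++ R') (TT M + r) - Gam (M ++ R) (TT M + r)| ≤ C * √Y * dist1 M M' ∧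
      |GG (M' ++ R') (TT M + r) - GG (M ++ R) (TT M + r)| ≤ C * √Y * dist1 M M' := by
  obtain ⟨C, hC, H⟩ := Ker.lip2S T0
  obtain ⟨K, hK, hB⟩ := b2_Dk 0
  have K1 : 1 ≤ 4 * (K * K) := by nlinarith
  refine ⟨3 * C * (4 * (K * K)), by nlinarith, fun M M' R R' h h' hR hR' tt hT Y hY he r r0 r1 r2
    => ?_⟩
  have D0 : 0 ≤ √Y * dist1 M M' :=
    mul_nonneg (Real.sqrt_nonneg _) (Pp.Ode3.dist1_nonneg (AP.of_ok h) M')
  have key : ∀ (F : ℝ → ℝ) (L : ℝ), BD F → (∀ x, |F x| ≤ L) → (∀ x, |deriv F x| ≤ L) →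
      |Et (M' ++ R') (TT M + r) F - Et (M ++ R) (TT M + r) F| ≤
        3 * C * L * √Y * dist1 M M' := fun F L hF h0 h1 => by
    have a := (Et_top h' hR' r0 r2 hF).1
    rw [tt] at a
    rw [a, (Et_top h hR r0 r1 hF).1]
    exact ((H M M' h h' tt hT Y hY he (TT M) ⟨hY.2, le_rfl⟩).2 _ _
      ((phi0_prof one_pos).tE_bd 1 r hF) (tE_top_der hF h0 h1 r)).trans_eq (by ring)
  have d := (Et_top h hR r0 r1 (BD.const 0)).2
  have d' := (Et_top h' hR' r0 r2 (BD.const 0)).2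
  rw [tt] at d'
  have sq' : ∀ j ≤ 3, |(Et (M' ++ R') (TT M + r) fun x => Dk j (M' ++ R') (TT M + r) x ^ 2) -
      Et (M ++ R) (TT M + r) fun x => Dk j (M ++ R) (TT M + r) x ^ 2| ≤
      3 * C * (4 * (K * K)) * √Y * dist1 M M' := fun j hj => by
    have b := hB [] trivial (by simp [TT]) 0 le_rfl j hj
    simp only [d, d', sq]
    exact key _ _ (b.mul b).bd (b.mul b).l0 (b.mul b).l1
  refine ⟨fun F L hF h0 h1 => (key F L hF h0 h1).trans ?_, sq' 0 (by norm_num),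
    sq' 1 (by norm_num)⟩
  have L0 : 0 ≤ L := (abs_nonneg _).trans (h0 0)
  have : 0 ≤ 3 * C * L * (√Y * dist1 M M') := by positivity
  nlinarith

/-- node lists: the slices from `J` on have tilt `1` -/
theorem lst_split {s : ℕ → ℝ} (hz : Lab z J) (hs : StrictMono s) (d : ℕ) :
    ∃ R, Top R ∧ lst z s (J + d) = lst z s J ++ R := by
  refine ⟨List.ofFn fun k : Fin d => (z (J + k), s (J + k + 1) - s (J + k)), fun p hp => ?_, ?_⟩
  · obtain ⟨k, rfl⟩ := List.mem_ofFn.1 hp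
    exact ⟨hz.top _ (Nat.le_add_right _ _), sub_pos.2 (hs (Nat.lt_succ_self _))⟩
  · unfold lst
    rw [List.ofFn_add]
    rfl

end

end Crest.Agent.T156.Pr.Mer97
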