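import Crest.Agent.T156.AltP1_3
import Crest.Agent.T156.Rs_13
import Crest.Agent.T156.PMer_97
import Crest.Agent.T156.PrH_28

/-!
Row 156 (helper92): the GRADED displacement shape of docs/T156_19G.md, leaf S9.
`gr σ t = t - (√t - σ)₊²`, `wG κ σ Y t = κ gr σ t (1 - sm (t / Y - 1))`, mass `mG κ σ T = κ T gr σ T`.
-/

set_option autoImplicit false

noncomputable section

namespace Crest.Agent.T156.Alt.Grd92

open MeasureTheory Real Set Filter Topology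
open Crest.Agent.R339.B Crest.Agent.R339.Var Crest.Agent.T157.Pf
open Crest.Agent.T156.Pp Crest.Agent.T156.Pr Crest.Agent.T156.Pr.Fam3 Crest.Agent.T156.Alt.Rs13

/-- `t` below `σ²`, `2 σ √t - σ²` above -/
def gr (σ t : ℝ) : ℝ := t - max 0 (√t - σ) ^ 2
/-- its derivative in `σ` -/
def dgr (σ t : ℝ) : ℝ := 2 * max 0 (√t - σ)

variable {σ σ' s t κ Y r : ℝ}

theorem gr_lo (hσ : 0 ≤ σ) (h : t ≤ σ ^ 2) : gr σ t = t := by
  have : √t ≤ σ := (sqrt_le_sqrt h).trans_eq (sqrt_sq hσ)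
  unfold gr; rw [max_eq_left (by linarith)]; ring

theorem gr_hi (hσ : 0 ≤ σ) (h : σ ^ 2 ≤ t) : gr σ t = 2 * σ * √t - σ ^ 2 := by
  have a : σ ≤ √t := (sqrt_sq hσ).symm.trans_le (sqrt_le_sqrt h)
  have b := sq_sqrt ((sq_nonneg σ).trans h)
  unfold gr; rw [max_eq_right (by linarith)]; nlinarith

theorem gr_zero (hσ : 0 ≤ σ) : gr σ 0 = 0 := gr_lo hσ (sq_nonneg σ)

theorem gr_le (σ t : ℝ) : gr σ t ≤ t := by unfold gr; nlinarith [sq_nonneg (max 0 (√t - σ))]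

theorem gr_le' (hσ : 0 ≤ σ) (ht : 0 ≤ t) : gr σ t ≤ 2 * (σ * √t) := by
  have b := sq_sqrt ht
  have c := sqrt_nonneg t
  rcases le_total t (σ ^ 2) with h | h
  · have : √t ≤ σ := (sqrt_le_sqrt h).trans_eq (sqrt_sq hσ)
    rw [gr_lo hσ h]; nlinarith
  · rw [gr_hi hσ h]; nlinarith

theorem min_le_gr (hσ : 0 ≤ σ) (t : ℝ) : min t (σ * √t) ≤ gr σ t := by
  rcases le_total t (σ ^ 2) with h | h
  · rw [gr_lo hσ h]; exact min_le_left _ _
  · have a : σ ≤ √t := (sqrt_sq hσ).symm.trans_le (sqrt_le_sqrt h)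
    rw [gr_hi hσ h]
    exact (min_le_right _ _).trans (by nlinarith)

theorem gr_le_min (hσ : 0 ≤ σ) (ht : 0 ≤ t) : gr σ t ≤ 2 * min t (σ * √t) := by
  rcases le_total t (σ * √t) with h | h
  · rw [min_eq_left h]; linarith [gr_le σ t]
  · rw [min_eq_right h]; exact gr_le' hσ ht

theorem gr_nn (hσ : 0 ≤ σ) (ht : 0 ≤ t) : 0 ≤ gr σ t :=
  (le_min ht (mul_nonneg hσ (sqrt_nonneg t))).trans (min_le_gr hσ t)

theorem gr_pos (hσ : 0 < σ) (ht : 0 < t) : 0 < gr σ t :=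
  (lt_min ht (mul_pos hσ (sqrt_pos.2 ht))).trans_le (min_le_gr hσ.le t)

/-- monotone with slope at most one -/
theorem gr_sub (hσ : 0 ≤ σ) (h : s ≤ t) : 0 ≤ gr σ t - gr σ s ∧ gr σ t - gr σ s ≤ t - s := by
  have m := sqrt_le_sqrt h
  have s0 := sqrt_nonneg s
  constructor
  · rcases le_total t (σ ^ 2) with a | a
    · rw [gr_lo hσ a, gr_lo hσ (h.trans a)]; linarith
    · have a' : σ ≤ √t := (sqrt_sq hσ).symm.trans_le (sqrt_le_sqrt a)
      rw [gr_hi hσ a]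
      rcases le_total s (σ ^ 2) with b | b
      · rw [gr_lo hσ b]; nlinarith
      · rw [gr_hi hσ b]; nlinarith
  · have : max 0 (√s - σ) ^ 2 ≤ max 0 (√t - σ) ^ 2 :=
      pow_le_pow_left₀ (le_max_left _ _) (max_le_max le_rfl (by linarith)) 2
    unfold gr; linarith

theorem gr_mono (hσ : 0 ≤ σ) : Monotone (gr σ) := fun _ _ h => by linarith [(gr_sub hσ h).1]

theorem gr_lip (hσ : 0 ≤ σ) (s t : ℝ) : |gr σ s - gr σ t| ≤ |s - t| := by
  rcases le_total s t with h | h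
  · obtain ⟨a, b⟩ := gr_sub hσ h
    rw [abs_sub_comm, abs_sub_comm s, abs_of_nonneg a, abs_of_nonneg (by linarith)]; exact b
  · obtain ⟨a, b⟩ := gr_sub hσ h
    rw [abs_of_nonneg a, abs_of_nonneg (by linarith)]; exact b

/-- `gr σ t / t` decreases -/
theorem gr_conc (hσ : 0 ≤ σ) (hs : 0 ≤ s) (h : s ≤ t) : s * gr σ t ≤ t * gr σ s := by
  rcases le_total s (σ ^ 2) with b | b
  · rw [gr_lo hσ b]; nlinarith [gr_le σ t]
  · have a' : σ ≤ √s := (sqrt_sq hσ).symm.trans_le (sqrt_le_sqrt b)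
    have m := sqrt_le_sqrt h
    have e1 := sq_sqrt hs
    have e2 := sq_sqrt (hs.trans h)
    rw [gr_hi hσ b, gr_hi hσ (b.trans h)]
    generalize √s = x at *
    generalize √t = y at *
    subst e1 e2
    have : 0 ≤ σ * (y - x) * (x * (y - σ) + y * (x - σ)) := by
      have : 0 ≤ x := hσ.trans a'
      have : 0 ≤ y := this.trans m
      have : 0 ≤ y - σ := by linarith
      have : 0 ≤ x - σ := by linarith
      have : 0 ≤ y - x := by linarith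
      positivity
    nlinarith

/-- `gr σ t / √t` increases -/
theorem gr_conc' (hσ : 0 ≤ σ) (hs : 0 ≤ s) (h : s ≤ t) : √t * gr σ s ≤ √s * gr σ t := by
  have m := sqrt_le_sqrt h
  have e1 := sq_sqrt hs
  have e2 := sq_sqrt (hs.trans h)
  have x0 := sqrt_nonneg s
  rcases le_total t (σ ^ 2) with a | a
  · rw [gr_lo hσ a, gr_lo hσ (h.trans a)]
    generalize √s = x at *
    generalize √t = y at *
    subst e1 e2
    nlinarith [mul_nonneg (mul_nonneg x0 (x0.trans m)) (sub_nonneg.2 m)]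
  · have a' : σ ≤ √t := (sqrt_sq hσ).symm.trans_le (sqrt_le_sqrt a)
    rw [gr_hi hσ a]
    rcases le_total s (σ ^ 2) with b | b
    · have b' : √s ≤ σ := (sqrt_le_sqrt b).trans_eq (sqrt_sq hσ)
      rw [gr_lo hσ b]
      generalize √s = x at *
      generalize √t = y at *
      subst e1 e2
      have : 0 ≤ x * ((σ - x) * y + σ * (y - σ)) := by
        have : 0 ≤ y := x0.trans m
        have : 0 ≤ y - σ := by linarith
        have : 0 ≤ σ - x := by linarith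
        positivity
      nlinarith
    · rw [gr_hi hσ b]
      nlinarith [mul_nonneg (sq_nonneg σ) (sub_nonneg.2 m)]

theorem gr_mul (hσ : 0 ≤ σ) (ht : 0 ≤ t) {a : ℝ} (ha : 1 ≤ a) : gr σ (a * t) ≤ a * gr σ t := by
  rcases ht.eq_or_lt with e | e
  · rw [← e, mul_zero, gr_zero hσ, mul_zero]
  · have := gr_conc hσ ht (le_mul_of_one_le_left ht ha)
    exact le_of_mul_le_mul_left (by linarith) e

theorem gr_two (hσ : 0 ≤ σ) (ht : 0 ≤ t) : gr σ (2 * t) ≤ 2 * gr σ t := gr_mul hσ ht one_le_two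

/-! ### dependence on `σ` -/

theorem dgr_nn (σ t : ℝ) : 0 ≤ dgr σ t := mul_nonneg zero_le_two (le_max_left _ _)

theorem dgr_lo (hσ : 0 ≤ σ) (h : t ≤ σ ^ 2) : dgr σ t = 0 := by
  have : √t ≤ σ := (sqrt_le_sqrt h).trans_eq (sqrt_sq hσ)
  unfold dgr; rw [max_eq_left (by linarith), mul_zero]

theorem dgr_hi (hσ : 0 ≤ σ) (h : σ ^ 2 ≤ t) : dgr σ t = 2 * (√t - σ) := by
  have a : σ ≤ √t := (sqrt_sq hσ).symm.trans_le (sqrt_le_sqrt h)
  unfold dgr; rw [max_eq_right (by linarith)]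

theorem dgr_le (hσ : 0 ≤ σ) (t : ℝ) : dgr σ t ≤ 2 * √t :=
  mul_le_mul_of_nonneg_left (max_le (sqrt_nonneg t) (by linarith)) zero_le_two

/-- logarithmic derivative at most one -/
theorem mul_dgr_le (hσ : 0 ≤ σ) (ht : 0 ≤ t) : σ * dgr σ t ≤ gr σ t := by
  rcases le_total t (σ ^ 2) with h | h
  · rw [dgr_lo hσ h, mul_zero]; exact gr_nn hσ ht
  · rw [dgr_hi hσ h, gr_hi hσ h]; nlinarith

/-- and at least `1 / 2` from `4 σ²` on -/
theorem le_mul_dgr (hσ : 0 ≤ σ) (h : 4 * σ ^ 2 ≤ t) : gr σ t ≤ 2 * (σ * dgr σ t) := by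
  have a : 2 * σ ≤ √t := (le_sqrt (by linarith) (by nlinarith)).2 (by linarith)
  have b : σ ^ 2 ≤ t := by nlinarith
  rw [dgr_hi hσ b, gr_hi hσ b]; nlinarith

theorem dgr_mono (σ : ℝ) : Monotone (dgr σ) := fun _ _ h =>
  mul_le_mul_of_nonneg_left (max_le_max le_rfl (by linarith [sqrt_le_sqrt h])) zero_le_two

theorem cont_dgr (t : ℝ) : Continuous fun σ => dgr σ t := by unfold dgr; fun_prop

theorem hasDerivAt_pos_sq (u : ℝ) : HasDerivAt (fun u : ℝ => max 0 u ^ 2) (2 * max 0 u) u := by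
  rw [hasDerivAt_iff_isLittleO_nhds_zero]
  have hb : (fun h : ℝ => max 0 (u + h) ^ 2 - max 0 u ^ 2 - h • (2 * max 0 u)) =O[𝓝 0]
      fun h : ℝ => h ^ 2 := by
    refine Asymptotics.IsBigO.of_bound 1 (Eventually.of_forall fun h => ?_)
    rw [Real.norm_eq_abs, Real.norm_eq_abs, one_mul, abs_of_nonneg (sq_nonneg h), smul_eq_mul, abs_le]
    rcases le_total 0 u with a | a <;> rcases le_total 0 (u + h) with b | b
    · rw [max_eq_right a, max_eq_right b]; constructor <;> nlinarith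
    · rw [max_eq_right a, max_eq_left b]; constructor <;> nlinarith
    · rw [max_eq_left a, max_eq_right b]; constructor <;> nlinarith
    · rw [max_eq_left a, max_eq_left b]; constructor <;> nlinarith
  exact hb.trans_isLittleO (Asymptotics.isLittleO_pow_id one_lt_two)

theorem hasDerivAt_gr (σ t : ℝ) : HasDerivAt (fun σ => gr σ t) (dgr σ t) σ := by
  have := ((hasDerivAt_pos_sq (√t - σ)).comp σ ((hasDerivAt_id σ).const_sub (√t))).const_sub t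
  refine this.congr_deriv ?_
  unfold dgr; ring

theorem gr_monoS (h : σ ≤ σ') (t : ℝ) : gr σ t ≤ gr σ' t := by
  have : max 0 (√t - σ') ^ 2 ≤ max 0 (√t - σ) ^ 2 :=
    pow_le_pow_left₀ (le_max_left _ _) (max_le_max le_rfl (by linarith)) 2
  unfold gr; linarith

/-- `gr σ t / σ` decreases in `σ` -/
theorem gr_concS (hσ : 0 ≤ σ) (h : σ ≤ σ') (ht : 0 ≤ t) : σ * gr σ' t ≤ σ' * gr σ t := by
  have h' := hσ.trans h
  have e := sq_sqrt ht
  have x0 := sqrt_nonneg t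
  rcases le_total t (σ ^ 2) with a | a
  · rw [gr_lo hσ a]; nlinarith [gr_le σ' t, gr_nn h' ht]
  · have a' : σ ≤ √t := (sqrt_sq hσ).symm.trans_le (sqrt_le_sqrt a)
    rw [gr_hi hσ a]
    rcases le_total t (σ' ^ 2) with b | b
    · have b' : √t ≤ σ' := (sqrt_le_sqrt b).trans_eq (sqrt_sq h')
      rw [gr_lo h' b]
      generalize √t = x at *
      subst e
      have : 0 ≤ σ * (x * (σ' - x) + σ' * (x - σ)) := by
        have : 0 ≤ σ' - x := by linarith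
        have : 0 ≤ x - σ := by linarith
        positivity
      nlinarith
    · rw [gr_hi h' b]
      nlinarith [mul_nonneg (mul_nonneg hσ h') (sub_nonneg.2 h)]

theorem gr_subS (hσ : 0 ≤ σ) (h : σ ≤ σ') (t : ℝ) : gr σ' t - gr σ t ≤ dgr σ t * (σ' - σ) := by
  unfold gr dgr
  rcases le_total 0 (√t - σ) with a | a <;> rcases le_total 0 (√t - σ') with b | b
  · rw [max_eq_right a, max_eq_right b]; nlinarith
  · rw [max_eq_right a, max_eq_left b]; nlinarith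
  · rw [max_eq_left a, max_eq_right b]; nlinarith
  · rw [max_eq_left a, max_eq_left b]; nlinarith

/-! ### the shape and its mass -/

/-- the graded shape -/
def wG (κ σ Y t : ℝ) : ℝ := κ * gr σ t * (1 - sm (t / Y - 1))
/-- its derivative in `σ` -/
def dwG (κ σ Y t : ℝ) : ℝ := κ * dgr σ t * (1 - sm (t / Y - 1))
/-- the mass at the level `T` -/
def mG (κ σ T : ℝ) : ℝ := κ * T * gr σ T
/-- the mass function: flat below `r` and above `Y` -/
def msG (κ σ r Y t : ℝ) : ℝ := mG κ σ (max r (min t Y))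

theorem cut_nn (Y t : ℝ) : 0 ≤ 1 - sm (t / Y - 1) := sub_nonneg.2 (sm_le _)
theorem cut_le (Y t : ℝ) : 1 - sm (t / Y - 1) ≤ 1 := by linarith [sm_nn (t / Y - 1)]
theorem cut_lo (hY : 0 < Y) (h : t ≤ Y) : 1 - sm (t / Y - 1) = 1 := by
  rw [sm_zero (by rw [sub_nonpos, div_le_one hY]; exact h), sub_zero]
theorem cut_hi (hY : 0 < Y) (h : 2 * Y ≤ t) : 1 - sm (t / Y - 1) = 0 := by
  rw [sm_one (by rw [le_sub_iff_add_le, le_div_iff₀ hY]; linarith), sub_self]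

theorem wG_lo (hY : 0 < Y) (h : t ≤ Y) : wG κ σ Y t = κ * gr σ t := by
  unfold wG; rw [cut_lo hY h, mul_one]
theorem wG_hi (hY : 0 < Y) (h : 2 * Y ≤ t) : wG κ σ Y t = 0 := by
  unfold wG; rw [cut_hi hY h, mul_zero]
theorem wG_nn (hκ : 0 ≤ κ) (hσ : 0 ≤ σ) (ht : 0 ≤ t) : 0 ≤ wG κ σ Y t :=
  mul_nonneg (mul_nonneg hκ (gr_nn hσ ht)) (cut_nn Y t)
theorem wG_le (hκ : 0 ≤ κ) (hσ : 0 ≤ σ) (ht : 0 ≤ t) : wG κ σ Y t ≤ κ * gr σ t :=
  mul_le_of_le_one_right (mul_nonneg hκ (gr_nn hσ ht)) (cut_le Y t)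

/-- the end of the path -/
theorem wG_end (hσ : 0 ≤ σ) (hY : 0 < Y) (h : 2 * Y ≤ σ ^ 2) (κ t : ℝ) :
    wG κ σ Y t = κ * t * (1 - sm (t / Y - 1)) := by
  rcases le_total t (2 * Y) with a | a
  · unfold wG; rw [gr_lo hσ (a.trans h)]
  · rw [wG_hi hY a, cut_hi hY a, mul_zero]

theorem wG_sh (hκ : 0 ≤ κ) (hσ : 0 ≤ σ) (hY : 0 < Y) : Sh (2 * Y) (4 * κ) (wG κ σ Y) := by
  have key : ∀ s t, s ≤ t → |gr σ t * (1 - sm (t / Y - 1)) - gr σ s * (1 - sm (s / Y - 1))| ≤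
      4 * (t - s) := fun s t h => by
    obtain ⟨a1, a2⟩ := gr_sub hσ h
    have hd : s / Y - 1 ≤ t / Y - 1 := by linarith [div_le_div_of_nonneg_right h hY.le]
    obtain ⟨b1, b2⟩ := sm_sub hd
    have c1 := cut_nn Y t
    have c2 := cut_le Y t
    have e : gr σ t * (1 - sm (t / Y - 1)) - gr σ s * (1 - sm (s / Y - 1)) =
        (gr σ t - gr σ s) * (1 - sm (t / Y - 1)) - gr σ s * (sm (t / Y - 1) - sm (s / Y - 1)) := by
      ring
    have d1 : 0 ≤ (gr σ t - gr σ s) * (1 - sm (t / Y - 1)) := mul_nonneg a1 c1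
    have d2 : (gr σ t - gr σ s) * (1 - sm (t / Y - 1)) ≤ t - s :=
      (mul_le_of_le_one_right a1 c2).trans a2
    have d3 : |gr σ s * (sm (t / Y - 1) - sm (s / Y - 1))| ≤ 3 * (t - s) := by
      rw [abs_mul, abs_of_nonneg b1]
      rcases le_total s 0 with s0 | s0
      · rw [gr_lo hσ (s0.trans (sq_nonneg σ)), abs_of_nonpos s0]
        rcases le_total t Y with u | u
        · have := cut_lo hY u
          have := cut_lo hY (h.trans u)
          rw [show sm (t / Y - 1) - sm (s / Y - 1) = 0 by linarith, mul_zero]; linarith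
        · have : sm (t / Y - 1) - sm (s / Y - 1) ≤ 1 := by linarith [sm_nn (s / Y - 1)]
          nlinarith
      · rw [abs_of_nonneg (gr_nn hσ s0)]
        rcases le_total s (2 * Y) with u | u
        · have q : t / Y - 1 - (s / Y - 1) = (t - s) / Y := by ring
          rw [q] at b2
          have q2 := mul_le_mul ((gr_le σ s).trans u) b2 b1 (by linarith)
          rwa [show 2 * Y * (3 / 2 * ((t - s) / Y)) = 3 * (t - s) by field_simp] at q2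
        · have := cut_hi hY u
          have := cut_hi hY (u.trans h)
          rw [show sm (t / Y - 1) - sm (s / Y - 1) = 0 by linarith, mul_zero]; linarith
    rw [e, abs_le] at *
    constructor <;> linarith [d3.1, d3.2]
  refine ⟨by unfold wG; rw [gr_zero hσ]; ring, fun t ht => wG_nn hκ hσ ht,
    fun t ht => wG_hi hY ht, fun s t => ?_⟩
  have e : wG κ σ Y s - wG κ σ Y t =
      κ * (gr σ s * (1 - sm (s / Y - 1)) - gr σ t * (1 - sm (t / Y - 1))) := by unfold wG; ring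
  rw [e, abs_mul, abs_of_nonneg hκ, mul_comm 4 κ, mul_assoc]
  refine mul_le_mul_of_nonneg_left ?_ hκ
  rcases le_total s t with h | h
  · rw [abs_sub_comm, abs_sub_comm s t, abs_of_nonneg (sub_nonneg.2 h)]; exact key s t h
  · rw [abs_of_nonneg (sub_nonneg.2 h)]; exact key t s h

theorem hasDerivAt_wG (κ σ Y t : ℝ) : HasDerivAt (fun σ => wG κ σ Y t) (dwG κ σ Y t) σ :=
  ((hasDerivAt_gr σ t).const_mul κ).mul_const _

theorem cont_dwG (κ Y t : ℝ) : Continuous fun σ => dwG κ σ Y t :=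
  (continuous_const.mul (cont_dgr t)).mul continuous_const

theorem dwG_nn (hκ : 0 ≤ κ) (σ Y t : ℝ) : 0 ≤ dwG κ σ Y t :=
  mul_nonneg (mul_nonneg hκ (dgr_nn σ t)) (cut_nn Y t)

theorem dwG_lo (hσ : 0 ≤ σ) (h : t ≤ σ ^ 2) : dwG κ σ Y t = 0 := by
  unfold dwG; rw [dgr_lo hσ h]; ring

theorem dwG_hi (hY : 0 < Y) (h : 2 * Y ≤ t) : dwG κ σ Y t = 0 := by
  unfold dwG; rw [cut_hi hY h, mul_zero]

theorem mul_dwG_le (hκ : 0 ≤ κ) (hσ : 0 ≤ σ) (ht : 0 ≤ t) : σ * dwG κ σ Y t ≤ wG κ σ Y t := by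
  have := mul_le_mul_of_nonneg_right (mul_le_mul_of_nonneg_left (mul_dgr_le hσ ht) hκ) (cut_nn Y t)
  unfold dwG wG; linarith

theorem wG_monoS (hκ : 0 ≤ κ) (h : σ ≤ σ') (Y t : ℝ) : wG κ σ Y t ≤ wG κ σ' Y t :=
  mul_le_mul_of_nonneg_right (mul_le_mul_of_nonneg_left (gr_monoS h t) hκ) (cut_nn Y t)

theorem mG_nn (hκ : 0 ≤ κ) (hσ : 0 ≤ σ) (ht : 0 ≤ t) : 0 ≤ mG κ σ t :=
  mul_nonneg (mul_nonneg hκ ht) (gr_nn hσ ht)

theorem mG_pos (hκ : 0 < κ) (hσ : 0 < σ) (ht : 0 < t) : 0 < mG κ σ t :=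
  mul_pos (mul_pos hκ ht) (gr_pos hσ ht)

theorem mG_mono (hκ : 0 ≤ κ) (hσ : 0 ≤ σ) (hs : 0 ≤ s) (h : s ≤ t) : mG κ σ s ≤ mG κ σ t :=
  mul_le_mul (mul_le_mul_of_nonneg_left h hκ) (gr_mono hσ h) (gr_nn hσ hs)
    (mul_nonneg hκ (hs.trans h))

theorem mG_mul (hκ : 0 ≤ κ) (hσ : 0 ≤ σ) (ht : 0 ≤ t) {a : ℝ} (ha : 1 ≤ a) :
    mG κ σ (a * t) ≤ a ^ 2 * mG κ σ t := by
  have := mul_le_mul_of_nonneg_left (gr_mul hσ ht ha) (show 0 ≤ κ * (a * t) by positivity)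
  unfold mG; linarith

theorem mG_two (hκ : 0 ≤ κ) (hσ : 0 ≤ σ) (ht : 0 ≤ t) : mG κ σ (2 * t) ≤ 4 * mG κ σ t := by
  linarith [mG_mul hκ hσ ht one_le_two]

/-- `mG / t²` decreases -/
theorem mG_conc (hκ : 0 ≤ κ) (hσ : 0 ≤ σ) (hs : 0 ≤ s) (h : s ≤ t) :
    s ^ 2 * mG κ σ t ≤ t ^ 2 * mG κ σ s := by
  have := mul_le_mul_of_nonneg_left (gr_conc hσ hs h)
    (show 0 ≤ κ * s * t from mul_nonneg (mul_nonneg hκ hs) (hs.trans h))
  unfold mG; linarith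

/-- `mG / t^{3/2}` increases -/
theorem mG_conc' (hκ : 0 ≤ κ) (hσ : 0 ≤ σ) (hs : 0 ≤ s) (h : s ≤ t) :
    t * √t * mG κ σ s ≤ s * √s * mG κ σ t := by
  have := mul_le_mul_of_nonneg_left (gr_conc' hσ hs h)
    (show 0 ≤ κ * s * t from mul_nonneg (mul_nonneg hκ hs) (hs.trans h))
  unfold mG; linarith

theorem mG_le (hκ : 0 ≤ κ) (ht : 0 ≤ t) : mG κ σ t ≤ κ * t ^ 2 := by
  have := mul_le_mul_of_nonneg_left (gr_le σ t) (mul_nonneg hκ ht)
  unfold mG; linarith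

theorem mG_le' (hκ : 0 ≤ κ) (hσ : 0 ≤ σ) (ht : 0 ≤ t) : mG κ σ t ≤ 2 * (κ * σ * (t * √t)) := by
  have := mul_le_mul_of_nonneg_left (gr_le' hσ ht) (mul_nonneg hκ ht)
  unfold mG; linarith

theorem min_le_mG (hκ : 0 ≤ κ) (hσ : 0 ≤ σ) (ht : 0 ≤ t) :
    min (κ * t ^ 2) (κ * σ * (t * √t)) ≤ mG κ σ t := by
  have := mul_le_mul_of_nonneg_left (min_le_gr hσ t) (mul_nonneg hκ ht)
  rw [mul_min_of_nonneg _ _ (mul_nonneg hκ ht)] at this
  rwa [show κ * t ^ 2 = κ * t * t by ring, show κ * σ * (t * √t) = κ * t * (σ * √t) by ring]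

theorem mG_lo (hσ : 0 ≤ σ) (h : t ≤ σ ^ 2) : mG κ σ t = κ * t ^ 2 := by
  unfold mG; rw [gr_lo hσ h]; ring

theorem mG_monoS (hκ : 0 ≤ κ) (h : σ ≤ σ') (ht : 0 ≤ t) : mG κ σ t ≤ mG κ σ' t :=
  mul_le_mul_of_nonneg_left (gr_monoS h t) (mul_nonneg hκ ht)

theorem mG_concS (hκ : 0 ≤ κ) (hσ : 0 ≤ σ) (h : σ ≤ σ') (ht : 0 ≤ t) :
    σ * mG κ σ' t ≤ σ' * mG κ σ t := by
  have := mul_le_mul_of_nonneg_left (gr_concS hσ h ht) (mul_nonneg hκ ht)
  unfold mG; linarith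

theorem hasDerivAt_mG (κ σ t : ℝ) : HasDerivAt (fun σ => mG κ σ t) (κ * t * dgr σ t) σ :=
  (hasDerivAt_gr σ t).const_mul _

theorem Ms_le (hκ : 0 ≤ κ) (hσ : 0 ≤ σ) (hY : 0 < Y) (ht : 0 ≤ t) : Ms (wG κ σ Y) t ≤ mG κ σ t := by
  have := intervalIntegral.integral_mono_on (μ := volume) ht
    ((wG_sh hκ hσ hY).cont.intervalIntegrable _ _) (intervalIntegrable_const (c := κ * gr σ t))
    fun s hs => (wG_le hκ hσ hs.1).trans (mul_le_mul_of_nonneg_left (gr_mono hσ hs.2) hκ)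
  rw [intervalIntegral.integral_const, smul_eq_mul] at this
  unfold Ms mG; linarith

theorem Ms_top (hκ : 0 ≤ κ) (hσ : 0 ≤ σ) (hY : 0 < Y) : Ms (wG κ σ Y) (2 * Y) ≤ 4 * mG κ σ Y :=
  (Ms_le hκ hσ hY (by linarith)).trans (mG_two hκ hσ hY.le)

theorem Ms_ge (hκ : 0 ≤ κ) (hσ : 0 ≤ σ) (hY : 0 < Y) (ht : 0 ≤ t) :
    mG κ σ (min t Y) / 2 ≤ Ms (wG κ σ Y) t := by
  have h := wG_sh hκ hσ hY
  have m0 : 0 ≤ min t Y := le_min ht hY.le
  refine le_trans ?_ (h.Ms_mono m0 (min_le_left t Y))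
  have mY := min_le_right t Y
  generalize min t Y = u at *
  rcases m0.eq_or_lt with e | e
  · rw [← e, Ms_zero]; simp [mG]
  have := intervalIntegral.integral_mono_on (μ := volume) m0
    ((show Continuous fun s : ℝ => κ * gr σ u / u * s by fun_prop).intervalIntegrable _ _)
    (h.cont.intervalIntegrable _ _) fun s hs => by
      rw [wG_lo hY (hs.2.trans mY), div_mul_eq_mul_div, div_le_iff₀ e]
      nlinarith [mul_le_mul_of_nonneg_left (gr_conc hσ hs.1 hs.2) hκ]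
  rw [intervalIntegral.integral_const_mul, integral_id] at this
  refine le_trans (le_of_eq ?_) this
  unfold mG; field_simp; ring

theorem msG_ge (hκ : 0 ≤ κ) (hσ : 0 ≤ σ) (hr : 0 ≤ r) (Y t : ℝ) : mG κ σ r ≤ msG κ σ r Y t :=
  mG_mono hκ hσ hr (le_max_left _ _)

theorem msG_ge' (hκ : 0 ≤ κ) (hσ : 0 ≤ σ) (hY : 0 ≤ Y) (ht : 0 ≤ t) (r : ℝ) :
    mG κ σ (min t Y) ≤ msG κ σ r Y t := mG_mono hκ hσ (le_min ht hY) (le_max_right _ _)

theorem msG_nn (hκ : 0 ≤ κ) (hσ : 0 ≤ σ) (hr : 0 ≤ r) (Y t : ℝ) : 0 ≤ msG κ σ r Y t :=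
  (mG_nn hκ hσ hr).trans (msG_ge hκ hσ hr Y t)

theorem msG_le_add (hκ : 0 ≤ κ) (hσ : 0 ≤ σ) (hr : 0 ≤ r) (hY : 0 ≤ Y) (ht : 0 ≤ t) :
    msG κ σ r Y t ≤ mG κ σ r + mG κ σ (min t Y) := by
  unfold msG
  rcases le_total r (min t Y) with b | b
  · rw [max_eq_right b]; linarith [mG_nn hκ hσ hr]
  · rw [max_eq_left b]; linarith [mG_nn hκ hσ (le_min ht hY)]

theorem msG_top (hr : r ≤ Y) (h : Y ≤ t) : msG κ σ r Y t = mG κ σ Y := by
  unfold msG; rw [min_eq_right h, max_eq_right hr]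

theorem msG_low (h : t ≤ r) : msG κ σ r Y t = mG κ σ r := by
  unfold msG; rw [max_eq_left ((min_le_left _ _).trans h)]

theorem msG_mid (h : r ≤ t) (h' : t ≤ Y) : msG κ σ r Y t = mG κ σ t := by
  unfold msG; rw [min_eq_left h', max_eq_right h]

theorem msG_mono (hκ : 0 ≤ κ) (hσ : 0 ≤ σ) (hr : 0 ≤ r) (Y : ℝ) : Monotone (msG κ σ r Y) :=
  fun _ _ h => mG_mono hκ hσ (hr.trans (le_max_left _ _)) (max_le_max le_rfl (min_le_min h le_rfl))

theorem msG_le (hκ : 0 ≤ κ) (hσ : 0 ≤ σ) (hr : 0 ≤ r) (h : r ≤ Y) (t : ℝ) :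
    msG κ σ r Y t ≤ mG κ σ Y :=
  mG_mono hκ hσ (hr.trans (le_max_left _ _)) (max_le h (min_le_right _ _))

theorem msG_mul (hκ : 0 ≤ κ) (hσ : 0 ≤ σ) (hr : 0 ≤ r) (hY : 0 ≤ Y) {a : ℝ} (ha : 1 ≤ a)
    (h : t ≤ a * s) : msG κ σ r Y t ≤ a ^ 2 * msG κ σ r Y s := by
  have m0 : 0 ≤ max r (min s Y) := hr.trans (le_max_left _ _)
  refine le_trans (mG_mono hκ hσ (hr.trans (le_max_left _ _)) ?_) (mG_mul hκ hσ m0 ha)
  refine max_le ((le_mul_of_one_le_left hr ha).trans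
    (mul_le_mul_of_nonneg_left (le_max_left _ _) (by linarith))) (le_trans ?_
    (mul_le_mul_of_nonneg_left (le_max_right _ _) (by linarith)))
  rw [mul_min_of_nonneg _ _ (by linarith : 0 ≤ a)]
  exact min_le_min h (le_mul_of_one_le_left hY ha)

theorem msG_two (hκ : 0 ≤ κ) (hσ : 0 ≤ σ) (hr : 0 ≤ r) (hY : 0 ≤ Y) (h : t ≤ 2 * s) :
    msG κ σ r Y t ≤ 4 * msG κ σ r Y s := by linarith [msG_mul hκ hσ hr hY one_le_two h]

theorem msG_end (hσ : 0 ≤ σ) (hr : r ≤ Y) (h : Y ≤ σ ^ 2) (κ t : ℝ) :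
    msG κ σ r Y t = κ * max r (min t Y) ^ 2 :=
  mG_lo hσ ((max_le hr (min_le_right _ _)).trans h)

end Crest.Agent.T156.Alt.Grd92

end
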