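import Crest.Agent.T156.GuB_71

/-!
Row 156 (helper71): the class of the soft recursion up to the end of the path (fixed deposit after
the time `U`), the lag, the behaviour above the plateau.
-/

set_option autoImplicit false
set_option linter.unusedSectionVars false

noncomputable section

namespace Crest.Agent.T156.Alt.Gu71

open MeasureTheory Real Set Filter Topology
open Crest.Agent.T157.E Crest.Agent.T157.Casc Crest.Agent.T157.SL
open Crest.Agent.T156.Cas Crest.Agent.T156.Alt.Md77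
open Crest.Agent.T156.Alt.Md67 (Lg)

/-- a profile cut at the node `j` -/
def cut (j : ℕ) (q : ℕ → ℝ) (k : ℕ) : ℝ := if k ≤ j then 0 else q k

theorem cut_lo {j k : ℕ} (q : ℕ → ℝ) (hk : k ≤ j) : cut j q k = 0 := if_pos hk

theorem cut_hi {j k : ℕ} (q : ℕ → ℝ) (hk : j < k) : cut j q k = q k := if_neg (by omega)

theorem cut_dp {j : ℕ} {q : ℕ → ℝ} {R : ℝ} (h : Ck q j R) : Dp (cut j q) R := by
  have := rG_dp (t := fun _ => 0) (g := fun _ => q) (M := Md.sk 0) h le_rfl zero_le_one h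
  have e : cut j q = rG j q (fun _ => 0) (fun _ => q) (Md.sk 0) :=
    funext fun k => by simp [cut, rG]
  rw [e]
  exact this

/-- the lag in `L²` -/
theorem nrm_lag {ω f f' c : ℕ → ℝ} {S : Finset ℕ} (hω : ∀ k ∈ S, 0 ≤ ω k) (h1 : ∑ k ∈ S, ω k ≤ 1)
    {ε : ℝ} (hε : 0 ≤ ε) (h : ∀ k, |f' k - f k| ≤ ε) :
    nrm ω S (fun k => f k - c k) ≤ nrm ω S (fun k => f' k - c k) + ε :=
  ((nrm_congr (g := fun k => (f' k - c k) - (f' k - f k)) fun k _ => by ring).trans_le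
    (nrm_sub hω)).trans (add_le_add_right (nrm_const_le hω h1 hε fun k _ => h k) _)

theorem Ph_eq (M : Md) (m : ℕ) (a : ℝ) {c ω : ℕ → ℝ} {S : Finset ℕ} (hω : ∀ k ∈ S, 0 ≤ ω k) :
    Ph M m a c ω S = nrm ω S (fun k => M.rb m a k - c k) ^ 2 := (nrm_sq hω).symm

theorem Ph_nonneg (M : Md) (m : ℕ) (a : ℝ) {c ω : ℕ → ℝ} {S : Finset ℕ} (hω : ∀ k ∈ S, 0 ≤ ω k) :
    0 ≤ Ph M m a c ω S := by rw [Ph_eq M m a hω]; positivity

theorem Ph_lag {M M' : Md} {m : ℕ} {a : ℝ} {ω c : ℕ → ℝ} {S : Finset ℕ} (hω : ∀ k ∈ S, 0 ≤ ω k)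
    (h1 : ∑ k ∈ S, ω k ≤ 1) {ε : ℝ} (hε : 0 ≤ ε) (h : ∀ k, |M'.rb m a k - M.rb m a k| ≤ ε) :
    Ph M m a c ω S ≤ 2 * Ph M' m a c ω S + 2 * ε ^ 2 := by
  rw [Ph_eq M m a hω, Ph_eq M' m a hω]
  have := pow_le_pow_left₀ nrm_nonneg (nrm_lag (c := c) hω h1 hε h) 2
  nlinarith [sq_nonneg (nrm ω S (fun k => M'.rb m a k - c k) - ε)]

/-- change of the reference -/
theorem Ph_ref (M : Md) (m : ℕ) (a : ℝ) {ω : ℕ → ℝ} (c c' : ℕ → ℝ) {S : Finset ℕ}
    (hω : ∀ k ∈ S, 0 ≤ ω k) :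
    Ph M m a c ω S ≤ 2 * Ph M m a c' ω S + 2 * nrm ω S (fun k => c k - c' k) ^ 2 := by
  rw [Ph_eq M m a hω, Ph_eq M m a hω]
  have := pow_le_pow_left₀ nrm_nonneg ((nrm_congr (f := fun k => M.rb m a k - c k)
    (g := fun k => (M.rb m a k - c' k) - (c k - c' k)) fun k _ => by ring).trans_le (nrm_sub hω)) 2
  nlinarith [sq_nonneg (nrm ω S (fun k => M.rb m a k - c' k) - nrm ω S fun k => c k - c' k)]

theorem dep_dep (M : Md) (r : ℕ → ℝ) (h h' : ℝ) : dep (dep M r h) r h' = dep M r (h + h') := by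
  simp only [dep, sh_sh, add_mul]

namespace KD

variable (D : KD)

/-- **the class up to the end**: a member of `K (min u U)`, then the fixed deposit `r` -/
def K2 (U : ℝ) (r : ℕ → ℝ) (M : Md) (u : ℝ) (N : Md) : Prop :=
  ∃ N₁, D.K M (min u U) N₁ ∧ N = dep N₁ r (u - min u U)

variable {D} {U u R θ a h x : ℝ} {r lam : ℕ → ℝ} {M N : Md} {m : ℕ}

theorem K2_iff (hu : u ≤ U) : D.K2 U r M u N ↔ D.K M u N := by
  simp only [K2, min_eq_left hu, sub_self, dep_zero]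
  exact ⟨fun ⟨_, h, e⟩ => e ▸ h, fun h => ⟨N, h, rfl⟩⟩

theorem K2.N_eq (h : D.K2 U r M u N) : N.N = M.N := by obtain ⟨_, h, rfl⟩ := h; exact h.N_eq

theorem K2.z_eq (h : D.K2 U r M u N) : N.z = M.z := by obtain ⟨_, h, rfl⟩ := h; exact h.z_eq

theorem K2.dz_eq (h : D.K2 U r M u N) (m : ℕ) (a : ℝ) : N.dz m a = M.dz m a :=
  funext fun k => dz_free h.N_eq h.z_eq k

/-- normal form of a member -/
theorem K2.eq (h : D.K2 U r M u N) : ∃ F, D.At (min u U) (min u U / 2) (2 * min u U) (4 * min u U) F ∧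
    N = sh M u fun k => F k + (u - min u U) * r k := by
  obtain ⟨_, ⟨F, rfl, h⟩, rfl⟩ := h
  exact ⟨F, h, by rw [dep, sh_sh, add_sub_cancel]⟩

theorem K2.sh_eq (h : D.K2 U r M u N) : N = sh M u fun k => N.H k - M.H k := by
  obtain ⟨F, -, rfl⟩ := h.eq
  simp only [sh, add_sub_cancel_left]

theorem K2.lr_eq (h : D.K2 U r M u N) : N.lr = M.lr ∧ N.s = M.s ∧ N.ck = M.ck ∧ N.q = M.q := by
  obtain ⟨F, -, rfl⟩ := h.eq; exact ⟨rfl, rfl, rfl, rfl⟩

theorem K2.d_eq (h : D.K2 U r M u N) (k : ℕ) : N.d k = M.d k - u := by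
  obtain ⟨F, -, rfl⟩ := h.eq; rfl

theorem K2.b_eq (h : D.K2 U r M u N) : N.b = M.b - u := by obtain ⟨F, -, rfl⟩ := h.eq; rfl

theorem K2.e_eq (h : D.K2 U r M u N) (t : ℝ) : N.e t = M.e t + u * Pr.GG M.lr t := by
  obtain ⟨F, -, rfl⟩ := h.eq; exact sh_e _ _ _ _

theorem K2.G_eq (h : D.K2 U r M u N) (k : ℕ) : N.G k = M.G k + (N.H k - M.H k - u * M.q k) := by
  obtain ⟨F, -, rfl⟩ := h.eq
  rw [sh_G]
  simp only [sh, add_sub_cancel_left]

theorem K2.leg (H : D.Ok) (hr : Dp r R) (h : D.K2 U r M u N) (hM : M.Leg x) (hU : 0 ≤ U)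
    (h0 : 0 ≤ u) (hu : u ≤ M.d 0) : N.Leg x := by
  obtain ⟨F, hF, rfl⟩ := h.eq
  refine sh_leg hM hu (by rw [hF.low 0 (Nat.zero_le _), hr.r0, mul_zero, add_zero]) ?_
  exact (AB.monotone hF fun k => mul_nonneg (by positivity) (H.fl0 k)).add
    (hr.mono.const_mul (sub_nonneg.2 (min_le_left _ _)))

theorem K2.lg (H : D.Ok) (hr : Dp r R) (h : D.K2 U r M u N) (G : Lg M m a) (hU : 0 ≤ U)
    (h0 : 0 ≤ u) (hu : u ≤ M.d 0) : Lg N m a := ⟨h.leg H hr G.toLeg hU h0 hu, G.m0, G.a0⟩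

/-- floor and ceiling of the marks -/
theorem K2.dH (h : D.K2 U r M u N) (k : ℕ) :
    M.H (k + 1) - M.H k + min u U / 2 * D.fl k + (u - min u U) * (r (k + 1) - r k) ≤
        N.H (k + 1) - N.H k ∧ N.H (k + 1) - N.H k ≤
      M.H (k + 1) - M.H k + 2 * min u U * D.ce k + (u - min u U) * (r (k + 1) - r k) := by
  obtain ⟨F, hF, rfl⟩ := h.eq
  have := hF.fl k
  have := hF.ce k
  simp only [sh]
  constructor <;> linarith

/-- the marks of a member are above those of `M`, increment by increment -/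
theorem K2.dH_ge (hr : Dp r R) (h : D.K2 U r M u N) (k : ℕ) :
    M.H (k + 1) - M.H k + min u U / 2 * D.fl k ≤ N.H (k + 1) - N.H k := by
  have := mul_nonneg (sub_nonneg.2 (min_le_left u U)) (sub_nonneg.2 (hr.mono k.le_succ))
  have := (h.dH k).1
  linarith

theorem K2.low (h : D.K2 U r M u N) {k : ℕ} (hk : k ≤ D.j) (hr : r k = 0) : N.H k = M.H k := by
  obtain ⟨F, hF, rfl⟩ := h.eq
  simp only [sh, hF.low k hk, hr, mul_zero, add_zero]

/-- **the residual against any reference `q`** -/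
theorem K2.res (H : D.Ok) (h : D.K2 U r M u N) (hU : 0 ≤ U) (h0 : 0 ≤ u) (q : ℕ → ℝ) :
    nrm D.ω D.S (fun k => N.H k - M.H k - u * q k) ≤ 4 * min u U * D.g +
      min u U * nrm D.ω D.S (fun k => D.c k - q k) +
      (u - min u U) * nrm D.ω D.S fun k => r k - q k := by
  obtain ⟨F, hF, rfl⟩ := h.eq
  have b := (AB.clock H.ω0 hF (le_min h0 hU) (c' := q) le_rfl).res
  refine ((nrm_congr (g := fun k => (F k - min u U * q k) + (u - min u U) * (r k - q k))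
    fun k _ => by simp only [sh]; ring).trans_le (nrm_add H.ω0)).trans (add_le_add b ?_)
  rw [nrm_mul, abs_of_nonneg (sub_nonneg.2 (min_le_left _ _))]

theorem K2.dep_hi (hN : D.K2 U r M u N) (hu : U ≤ u) (h0 : 0 ≤ h) :
    D.K2 U r M (u + h) (dep N r h) := by
  obtain ⟨N₁, h1, rfl⟩ := hN
  rw [min_eq_right hu] at h1 ⊢
  refine ⟨N₁, by rwa [min_eq_right (by linarith)], ?_⟩
  rw [dep_dep, min_eq_right (by linarith)]
  congr 1
  ring

theorem K2.dep_lo (H : D.Ok) (hN : D.K2 U r M u N) (h0 : 0 ≤ h) (hu : u + h ≤ U) {r' : ℕ → ℝ}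
    (hr : D.Dep r') : D.K2 U r M (u + h) (dep N r' h) := by
  have := ((K2_iff (by linarith)).1 hN).eu H h0 (ρ := fun _ => r') (i := 1) fun _ _ => hr
  rw [Nat.cast_one, one_mul] at this
  exact (K2_iff hu).2 this

/-- the deposit used for the lag at the grid index `j` (`U = d h`) -/
def nxt (D : KD) (θ : ℝ) (lam : ℕ → ℝ) (m : ℕ) (a : ℝ) (r : ℕ → ℝ) (d j : ℕ) (N : Md) : ℕ → ℝ :=
  if j < d then D.rule θ lam m a N else r

theorem Rk.nxt_dp (H : D.Rk θ R lam) (hr : Dp r R) (hm : 0 < m) (d j : ℕ) (N : Md) :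
    Dp (D.nxt θ lam m a r d j N) R := by
  unfold nxt
  split_ifs
  exacts [H.dp hm N, hr]

theorem Rk.nxt_mem (H : D.Rk θ R lam) (hm : 0 < m) (h0 : 0 ≤ h) {d j : ℕ}
    (hN : D.K2 (d * h) r M (j * h) N) :
    D.K2 (d * h) r M ((j + 1 : ℕ) * h) (Gu71.dep N (D.nxt θ lam m a r d j N) h) := by
  rw [Nat.cast_add, Nat.cast_one, add_mul, one_mul]
  unfold nxt
  split_ifs with hj
  · refine hN.dep_lo H.toOk h0 ?_ (H.dep hm N)
    have := cast_le h0 (Nat.succ_le_of_lt hj)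
    push_cast at this
    linarith
  · exact hN.dep_hi (cast_le h0 (not_lt.1 hj)) h0

/-- **the lag on the grid** -/
theorem Rk.lag (H : D.Rk θ R lam) (hr : Dp r R) (G : Lg M m a) (h0 : 0 ≤ h)
    (hs : m * h * (5 + 10 * R) ≤ 1) {d j : ℕ} (hj : (j + 1 : ℕ) * h ≤ M.d 0)
    (hN : D.K2 (d * h) r M (j * h) N) : ∃ N', D.K2 (d * h) r M ((j + 1 : ℕ) * h) N' ∧
      Nr N N' h (h * R) ∧ ∀ k, |N'.rb m a k - N.rb m a k| ≤ 4 * (m * h * (5 + 10 * R)) := by
  have h1 := H.nxt_mem (a := a) G.m0 h0 hN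
  have h2 := nr_dep N (H.nxt_dp (a := a) hr G.m0 d j N) h0
  refine ⟨_, h1, h2, fun k => (rb_lip (hN.lg H.toOk hr G (by positivity) (by positivity)
    ((cast_le h0 j.le_succ).trans hj)) (h1.lg H.toOk hr G (by positivity) (by positivity) hj) h2
    (by linarith) k).trans_eq (by ring)⟩

/-- path states and moved ends on the grid, below `U = d h` -/
theorem Rk.eu2 (H : D.Rk θ R lam) (hm : 0 < m) (h0 : 0 ≤ h) {d j i : ℕ} (hi : j + i ≤ d)
    (hN : D.K2 (d * h) r M (j * h) N) :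
    D.K2 (d * h) r M ((j + i : ℕ) * h) (Gu71.eu (D.rule θ lam m a) h N i) := by
  refine (K2_iff (cast_le h0 hi)).2 ?_
  rw [Nat.cast_add, add_mul]
  exact H.eu hm ((K2_iff (cast_le h0 (by omega))).1 hN) h0 i

theorem Rk.co2 (H : D.Rk θ R lam) (hm : 0 < m) (h0 : 0 ≤ h) {d j i : ℕ} (hi : j + i ≤ d)
    (hji : j ≤ i) (hN : D.K2 (d * h) r M (j * h) N) {G : ℕ → ℝ} (hG : D.Mov (j * h) G) :
    D.K2 (d * h) r M ((j + i : ℕ) * h) (Gu71.co (D.rule θ lam m a) h N (sh N 0 G) i) := by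
  refine (K2_iff (cast_le h0 hi)).2 ?_
  rw [Nat.cast_add, add_mul]
  exact H.co hm ((K2_iff (cast_le h0 (by omega))).1 hN) hG h0 (by positivity) (cast_le h0 hji)

end KD

/-! ### only the nodes up to `Jp` matter: normalisation above the plateau -/

/-- the marks of `N` up to the node `Jp`; above, those of `M` plus `u q` (so that the residual `G`
of a member keeps the shape of that of `M`) -/
def nz (M : Md) (Jp : ℕ) (u : ℝ) (N : Md) : Md :=
  sh M u fun k => N.H (min k Jp) - M.H (min k Jp) + u * (M.q k - M.q (min k Jp))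

theorem nz_H_lo (M : Md) {Jp : ℕ} (u : ℝ) (N : Md) {k : ℕ} (hk : k ≤ Jp) :
    (nz M Jp u N).H k = N.H k := by
  simp only [nz, sh, min_eq_left hk]; ring

theorem nz_G_hi (M : Md) {Jp : ℕ} (u : ℝ) (N : Md) {k : ℕ} (hk : Jp ≤ k) :
    (nz M Jp u N).G k - (nz M Jp u N).G Jp = M.G k - M.G Jp := by
  simp only [nz, sh_G, min_eq_right hk, min_self]; ring

end Crest.Agent.T156.Alt.Gu71

end
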