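import Crest.Agent.T156.GuC_71
import Crest.Agent.T156.SrK_46
import Crest.Agent.T156.MdOne_67

/-!
Row 156 (helper71): the deposit rule of the soft recursion on the class `Sr46.KK`.
-/

set_option autoImplicit false
set_option linter.unusedSectionVars false

noncomputable section

namespace Crest.Agent.T156.Alt.Ru71

open Real Finset
open Crest.Agent.T156.Alt.Md67 (Lg)
open Crest.Agent.T156.Alt.Gu71 Crest.Agent.T156.Alt.Sr46

/-- the cap of `f` started from `0` at the node `j` -/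
def cp (j : ℕ) (lam f : ℕ → ℝ) : ℕ → ℝ := Cap64.cap (cut j f) lam

section cp
variable {j : ℕ} {lam f : ℕ → ℝ}

theorem cut_nn (h0 : ∀ k, 0 ≤ f k) (k : ℕ) : 0 ≤ cut j f k := by
  unfold cut; split_ifs; exacts [le_rfl, h0 k]

theorem cut_le (h0 : ∀ k, 0 ≤ f k) (k : ℕ) : cut j f k ≤ f k := by
  unfold cut; split_ifs; exacts [h0 k, le_rfl]

theorem cut_mono (h0 : ∀ k, 0 ≤ f k) (hf : Monotone f) : Monotone (cut j f) := fun k k' hk => by
  rcases le_or_gt k j with c | c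
  · rw [cut_lo f c]; exact cut_nn h0 k'
  · rw [cut_hi f c, cut_hi f (c.trans_le hk)]; exact hf hk

theorem cp_nn (h0 : ∀ k, 0 ≤ f k) (hl : ∀ k, 0 ≤ lam k) (k : ℕ) : 0 ≤ cp j lam f k :=
  Cap64.cap_nonneg (cut_nn h0) hl k

theorem cp_le (h0 : ∀ k, 0 ≤ f k) (k : ℕ) : cp j lam f k ≤ f k :=
  (Cap64.cap_le k).trans (cut_le h0 k)

theorem cp_lo (h0 : ∀ k, 0 ≤ f k) (hl : ∀ k, 0 ≤ lam k) {k : ℕ} (hk : k ≤ j) : cp j lam f k = 0 :=
  le_antisymm ((Cap64.cap_le k).trans_eq (cut_lo f hk)) (cp_nn h0 hl k)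

theorem cp_mono (h0 : ∀ k, 0 ≤ f k) (hf : Monotone f) (hl : ∀ k, 0 ≤ lam k) :
    Monotone (cp j lam f) := Cap64.cap_mono (cut_mono h0 hf) hl

theorem cp_inc (k : ℕ) : dl (cp j lam f) k ≤ lam k := Cap64.cap_inc k

/-- the first value -/
theorem cp_first (h0 : ∀ k, 0 ≤ f k) (hl : ∀ k, 0 ≤ lam k) :
    cp j lam f (j + 1) = min (f (j + 1)) (lam j) := by
  have := cp_lo (j := j) h0 hl le_rfl
  rw [cp] at this
  rw [cp, Cap64.cap_succ, this, zero_add, cut_hi f j.lt_succ_self]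

theorem cp_succ {k : ℕ} (hk : j ≤ k) :
    cp j lam f (k + 1) = min (f (k + 1)) (cp j lam f k + lam k) := by
  rw [cp, Cap64.cap_succ, cut_hi f (Nat.lt_succ_of_le hk)]

end cp

variable (D : Kd) (M : Md) (lam : ℕ → ℝ) (m : ℕ) (a : ℝ)

/-- the capped mean overlap up to `Jp`, the increments of the reference above -/
def gq (N : Md) (k : ℕ) : ℝ :=
  cp D.j0 lam (N.rb m a) (min k D.Jp) + (qz M D.j0 k - qz M D.j0 (min k D.Jp))

/-- **the rule** -/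
def rho (N : Md) (k : ℕ) : ℝ := D.θ * D.c k + (1 - D.θ) * gq D M lam m a N k

variable {D M lam m a} {R : ℝ}

theorem gq_lo (N : Md) {k : ℕ} (hk : k ≤ D.Jp) :
    gq D M lam m a N k = cp D.j0 lam (N.rb m a) k := by
  rw [gq, min_eq_left hk, sub_self, add_zero]

theorem dl_gq_lo (N : Md) {k : ℕ} (hk : k < D.Jp) :
    dl (gq D M lam m a N) k = dl (cp D.j0 lam (N.rb m a)) k := by
  rw [dl, dl, gq_lo N hk.le, gq_lo N hk]

theorem dl_gq_hi (N : Md) {k : ℕ} (hk : D.Jp ≤ k) :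
    dl (gq D M lam m a N) k = dl (qz M D.j0) k := by
  simp only [dl, gq, min_eq_right hk, min_eq_right (hk.trans k.le_succ)]; ring

theorem dl_rho (N : Md) (k : ℕ) :
    dl (rho D M lam m a N) k = D.θ * dl D.c k + (1 - D.θ) * dl (gq D M lam m a N) k := by
  simp only [dl, rho]; ring

theorem gq_mono (H : Ok D M m a R) (hl : ∀ k, 0 ≤ lam k) (N : Md) :
    Monotone (gq D M lam m a N) := monotone_nat_of_le_succ fun k => sub_nonneg.1 (by
  change 0 ≤ dl _ k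
  rcases lt_or_ge k D.Jp with c | c
  · rw [dl_gq_lo N c]
    exact dl_nonneg (cp_mono (Md67.rb_nonneg H.lg.m0) (Md67.rb_mono H.lg.m0) hl) k
  · rw [dl_gq_hi N c]; exact dl_nonneg H.qm k)

theorem qz_mem (M : Md) (j k : ℕ) : 0 ≤ qz M j k ∧ qz M j k ≤ 1 := by
  unfold qz
  split_ifs
  exacts [⟨le_rfl, zero_le_one⟩, ⟨Md67.q_nonneg _, Md67.q_le_one _⟩]

theorem rho_lo (H : Ok D M m a R) (hl : ∀ k, 0 ≤ lam k) (N : Md) {k : ℕ} (hk : k ≤ D.j0) :
    rho D M lam m a N k = 0 := by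
  rw [rho, H.c0 k hk, gq_lo N (hk.trans H.i0.le), cp_lo (Md67.rb_nonneg H.lg.m0) hl hk]; ring

/-- **always a legal deposit** -/
theorem rho_dp (H : Ok D M m a R) (hl : ∀ k, 0 ≤ lam k) (hR : 2 ≤ R) (N : Md) :
    Dp (rho D M lam m a N) R := by
  refine ⟨rho_lo H hl N (Nat.zero_le _), (H.cm.const_mul H.θ0).add
    ((gq_mono H hl N).const_mul (sub_nonneg.2 H.θ1)), fun k => ?_⟩
  have b1 := (cp_le (j := D.j0) (lam := lam) (Md67.rb_nonneg (M := N) (a := a) H.lg.m0)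
    (min k D.Jp)).trans (Md67.rb_le_one H.lg.m0 _)
  have b2 : gq D M lam m a N k ≤ R := by
    rw [gq]; linarith [(qz_mem M D.j0 k).2, (qz_mem M D.j0 (min k D.Jp)).1]
  have := mul_le_mul_of_nonneg_left (H.cR k) H.θ0
  have := mul_le_mul_of_nonneg_left b2 (sub_nonneg.2 H.θ1)
  rw [rho]; linarith

theorem rho_rl (H : Ok D M m a R) (hl : ∀ k, 0 ≤ lam k) (hR : 2 ≤ R) (N : Md) :
    Rl (rho D M lam m a) R N m a := fun _ _ _ => rho_dp H hl hR _

/-- the error of the cap on the located profiles -/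
def CapE (D : Kd) (M : Md) (lam : ℕ → ℝ) (m : ℕ) (a W F₂ : ℝ) : Prop :=
  ∀ f : ℕ → ℝ, Monotone f → (∀ k, 0 ≤ f k) → (∀ k, f k ≤ 1) →
    ∑ k ∈ D.S, M.dz m a k * (f k - M.q k) ^ 2 ≤ W →
    ∑ k ∈ D.S, M.dz m a k * (f k - cp D.j0 lam f k) ^ 2 ≤ F₂

/-- the fluctuation part on the located members -/
def VarE (D : Kd) (M : Md) (m : ℕ) (a t₀ W F₁ : ℝ) : Prop :=
  ∀ u F, t₀ ≤ u → u ≤ D.U → KK D M m a u F → D.Φ M m a (u, F) ≤ W → Fl (sh M u F) m a D.j0 ≤ F₁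

theorem nrm_le_sqrt {ω f : ℕ → ℝ} {S : Finset ℕ} {B : ℝ} (h : ∑ k ∈ S, ω k * f k ^ 2 ≤ B) :
    nrm ω S f ≤ √B := sqrt_le_sqrt h

/-- **the rule on located members** -/
theorem ruS (H : Ok D M m a R) (hl : ∀ k, 0 ≤ lam k)
    (hce : ∀ k, D.j0 ≤ k → k < D.Jp → D.θ * dl D.c k + (1 - D.θ) * lam k ≤ D.ce k)
    (top : ∀ k, D.Jp ≤ k → M.z k = 1) {t₀ W F₁ F₂ rs : ℝ} (r0 : 0 ≤ rs) (W0 : 0 ≤ W) (F0 : 0 ≤ F₂)
    (hrs : ∑ k ∈ D.S, M.dz m a k * (D.c k - M.q k) ^ 2 ≤ rs ^ 2)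
    (hg : D.θ * rs + √F₂ + √W ≤ 2 * D.g) (h1 : VarE D M m a t₀ W F₁) (h2 : CapE D M lam m a W F₂) :
    RuS D M m a (rho D M lam m a) t₀ W (F₁ + 3 * (D.θ ^ 2 * W + D.θ ^ 2 * rs ^ 2 + F₂)) := by
  intro u F hu hU K hΦ
  set N := sh M u F with hN
  have θ0 := H.θ0
  have θ1 := sub_nonneg.2 H.θ1
  have hm := H.lg.m0
  have ω0 := H.dz0
  have n1 : nrm (M.dz m a) D.S (fun k => N.rb m a k - M.q k) ≤ √W := nrm_le_sqrt hΦ
  have n2 : nrm (M.dz m a) D.S (fun k => N.rb m a k - cp D.j0 lam (N.rb m a) k) ≤ √F₂ :=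
    nrm_le_sqrt (h2 _ (Md67.rb_mono hm) (Md67.rb_nonneg hm) (Md67.rb_le_one hm) hΦ)
  have n3 : nrm (M.dz m a) D.S (fun k => D.c k - M.q k) ≤ rs := nrm_le r0 hrs
  have sW := sqrt_nonneg W
  have sF := sqrt_nonneg F₂
  have eS : ∀ k ∈ D.S, rho D M lam m a N k =
      D.θ * D.c k + (1 - D.θ) * cp D.j0 lam (N.rb m a) k := fun k hk => by
    rw [rho, gq_lo N (mem_Ioc.1 hk).2]
  refine ⟨⟨fun k hk => rho_lo H hl N hk, fun k _ _ => ?_, fun k a1 a2 => ?_, fun k a1 => ?_, ?_⟩, ?_⟩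
  · have := mul_nonneg θ1 (dl_nonneg (gq_mono H hl N) k)
    rw [dl_rho]; linarith
  · have := mul_le_mul_of_nonneg_left (cp_inc (j := D.j0) (lam := lam) (f := N.rb m a) k) θ1
    rw [dl_rho, dl_gq_lo N a2]; linarith [hce k a1 a2]
  · rw [dl_rho, dl_gq_hi N a1, H.chi k a1]; ring
  · refine sq_le_of_nrm ω0 (((nrm_congr (g := fun k => D.θ * (D.c k - M.q k) + (1 - D.θ) *
      ((N.rb m a k - M.q k) - (N.rb m a k - cp D.j0 lam (N.rb m a) k))) fun k hk => by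
        rw [eS k hk]; ring).trans_le (nrm_add ω0)).trans ?_)
    rw [nrm_mul, nrm_mul, abs_of_nonneg θ0, abs_of_nonneg θ1]
    have b1 := mul_le_mul_of_nonneg_left n3 θ0
    have b2 := mul_le_mul_of_nonneg_left ((nrm_sub ω0).trans (add_le_add n1 n2)) θ1
    have b3 := mul_nonneg θ0 (add_nonneg sW sF)
    linarith
  · have jN : D.j0 ≤ N.N := H.i0.le.trans H.i1
    rw [Rem_eq jN fun k hk => rho_lo H hl N hk]
    refine add_le_add (h1 u F hu hU K hΦ) ?_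
    have e1 : Ph N m a (rho D M lam m a N) (N.dz m a) (Ioc D.j0 N.N) =
        ∑ k ∈ D.S, M.dz m a k * (N.rb m a k - rho D M lam m a N k) ^ 2 := by
      rw [Ph, ← sum_subset (Ioc_subset_Ioc_right (show D.Jp ≤ N.N from H.i1)) fun k a1 a2 => ?_]
      · exact sum_congr rfl fun k _ => by rw [hN, sh_dz]
      have b1 := mem_Ioc.1 a1
      have b2 : D.Jp < k := by
        by_contra c
        exact a2 (mem_Ioc.2 ⟨b1.1, not_lt.1 c⟩)
      rw [hN, sh_dz, Md67.dz_up H.lg.toLeg (by omega), top k b2.le, top (k - 1) (by omega),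
        sub_self, zero_mul]
    have b : nrm (M.dz m a) D.S (fun k => N.rb m a k - rho D M lam m a N k) ≤
        D.θ * √W + D.θ * rs + √F₂ := by
      refine ((nrm_congr (g := fun k => D.θ * ((N.rb m a k - M.q k) - (D.c k - M.q k)) +
        (1 - D.θ) * (N.rb m a k - cp D.j0 lam (N.rb m a) k)) fun k hk => by
          rw [eS k hk]; ring).trans_le (nrm_add ω0)).trans ?_
      rw [nrm_mul, nrm_mul, abs_of_nonneg θ0, abs_of_nonneg θ1]
      have b1 := mul_le_mul_of_nonneg_left ((nrm_sub ω0).trans (add_le_add n1 n3)) θ0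
      have b2 := mul_le_mul_of_nonneg_left n2 θ1
      have b3 := mul_nonneg θ0 sF
      linarith
    rw [e1]
    refine (sq_le_of_nrm ω0 b).trans ?_
    have s1 := sq_sqrt W0
    have s2 := sq_sqrt F0
    have : D.θ ^ 2 * W = (D.θ * √W) ^ 2 := by rw [mul_pow, s1]
    rw [this, ← mul_pow, ← s2, sqrt_sq sF]
    nlinarith [sq_nonneg (D.θ * √W - D.θ * rs), sq_nonneg (D.θ * √W - √F₂),
      sq_nonneg (D.θ * rs - √F₂)]

end Crest.Agent.T156.Alt.Ru71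

end
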