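import Crest.Agent.T156.MdDer_77
import Crest.Agent.T156.MdDic_67
import Crest.Agent.T156.Ker_15

/-!
# Row 156, soft recursion (helper16): Guerra deposits, the Euler path and the double step
-/

set_option autoImplicit false
set_option linter.unusedSectionVars false

noncomputable section

namespace Crest.Agent.T156.Alt.Gu16

open MeasureTheory Real Set Filter Topology
open Crest.Agent.T157.E Crest.Agent.T157.Casc Crest.Agent.T157.SL
open Crest.Agent.T157.G1 (ov fl FL)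
open Crest.Agent.T156.Cas Crest.Agent.T156.Alt.Md67 Crest.Agent.T156.Alt.Md77

/-- remove `u` from the W variance of the root, add the accumulated field `g` -/
def dep (M : Md) (u : ℝ) (g : ℕ → ℝ) : Md :=
  { M with d := fun k => M.d k - u, H := fun k => M.H k + g k }

/-- a legal deposit -/
structure Dp (g : ℕ → ℝ) : Prop where
  z : g 0 = 0
  mono : Monotone g

variable {M M' : Md} {m : ℕ} {a x u u' B : ℝ} {g g' r : ℕ → ℝ}

@[simp] theorem dep_N : (dep M u g).N = M.N := rfl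
@[simp] theorem dep_z : (dep M u g).z = M.z := rfl
@[simp] theorem dep_d (k : ℕ) : (dep M u g).d k = M.d k - u := rfl
@[simp] theorem dep_H (k : ℕ) : (dep M u g).H k = M.H k + g k := rfl
@[simp] theorem dep_lr : (dep M u g).lr = M.lr := rfl
@[simp] theorem dep_s : (dep M u g).s = M.s := rfl
@[simp] theorem dep_ck : (dep M u g).ck = M.ck := rfl
@[simp] theorem dep_q : (dep M u g).q = M.q := rfl
theorem dep_b : (dep M u g).b = M.b - u := rfl

theorem dep_G (k : ℕ) : (dep M u g).G k = M.G k + (g k - u * M.q k) := by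
  simp only [Md.G, dep_d, dep_H, dep_q, dep_s]; ring

theorem dep_dep : dep (dep M u g) u' g' = dep M (u + u') (g + g') := by
  simp only [dep, Md.mk.injEq, true_and, and_true]
  exact ⟨funext fun k => by ring, funext fun k => by rw [Pi.add_apply]; ring⟩

theorem dep_zero : dep M 0 0 = M := by
  simp only [dep, sub_zero, Pi.zero_apply, add_zero]

theorem dep_dz (k : ℕ) : (dep M u g).dz m a k = M.dz m a k :=
  Md77.dz_free (M := dep M u g) (M' := M) rfl rfl k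

theorem Dp.nonneg (h : Dp g) (k : ℕ) : 0 ≤ g k := h.z.ge.trans (h.mono k.zero_le)

theorem Dp.zero : Dp 0 := ⟨rfl, monotone_const⟩

theorem Dp.add (h : Dp g) (h' : Dp g') : Dp (g + g') :=
  ⟨by rw [Pi.add_apply, h.z, h'.z, add_zero], h.mono.add h'.mono⟩

theorem Dp.smul (h : Dp g) (hu : 0 ≤ u) : Dp (u • g) :=
  ⟨by rw [Pi.smul_apply, h.z, smul_zero], fun _ _ hij => mul_le_mul_of_nonneg_left (h.mono hij) hu⟩

theorem leg_dep (h : M.Leg x) (hu : u ≤ M.d 0) (hg : Dp g) : (dep M u g).Leg x :=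
  ⟨h.zm, h.z0, h.z1, h.zN, sub_nonneg.2 hu, fun _ _ hij => sub_le_sub_right (h.dm hij) u,
    by rw [dep_H, h.H0, hg.z, add_zero], h.Hm.add hg.mono⟩

theorem lg_dep (h : Lg M m a) (hu : u ≤ M.d 0) (hg : Dp g) : Lg (dep M u g) m a :=
  ⟨leg_dep h.toLeg hu hg, h.m0, h.a0⟩

/-! ### Lipschitz dependence on the variances -/

theorem st_L (hN : M'.N = M.N) (hz : M'.z = M.z) : Ker15.ST (M.L m a) (M'.L m a) := by
  rw [Md77.L_eq, Md77.L_eq, hN, hz]
  exact tilt_MC _ _ _ _ _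

/-- **pair expectations are Lipschitz in the variances** -/
theorem E2_lip (G : Lg M m a) (G' : M'.Leg x) (hN : M'.N = M.N) (hz : M'.z = M.z) {f : ℝ → ℝ}
    {b γ : ℝ} (hf : ∀ R, |R| ≤ 1 → |f R| ≤ b)
    (hd : ∀ k ≤ M.N, |M'.d k - M.d k| / 2 + |M'.H k - M.H k| ≤ γ) (k : ℕ) :
    |M'.E2 m a f k - M.E2 m a f k| ≤ 8 * (b * (m * γ)) := by
  have hm := G.m0
  have e : ∀ j ≤ M.N, ∀ y y' : Cube m, Ker15.dC (M.L m a) (M'.L m a) (j + 1) y y' =
      m * ((M'.d j - M.d j) * ov y y' ^ 2 / 2 + (M'.H j - M.H j) * ov y y') := fun j hj y y' => by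
    rw [Ker15.dC, Md67.cacc_L G' hm y y' (hN ▸ hj), Md67.cacc_L G.toLeg hm y y' hj]; ring
  have h := Ker15.ker1 Link33.wt1 G.monoL (st_L hN hz)
    (c := m * ((M'.d M.N - M.d M.N) / 2 + (M'.H M.N - M.H M.N)))
    (fun y => by rw [len_L, e _ le_rfl, Q33.ov_self hm]; ring) (Sh.two (k + 1)) (N := 2)
    (Wt87.card_two _).le 0 (F := pr2 (k + 1) fun y y' => f (ov y y')) (b := b) (g := m * γ)
    (fun y => hf _ (abs_ov_le _ _)) fun j hj y y' => by
      have h0 : 0 ≤ γ := le_trans (by positivity) (hd 0 (Nat.zero_le _))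
      cases j with
      | zero => simp only [Ker15.dC, cacc, List.take_zero, sub_self, abs_zero]; positivity
      | succ j =>
        rw [len_L] at hj
        have h1 := abs_ov_le y y'
        have h2 : |ov y y' ^ 2| ≤ 1 := by rw [abs_pow]; exact pow_le_one₀ (abs_nonneg _) h1
        rw [e j (by omega), abs_mul, Nat.abs_cast]
        refine mul_le_mul_of_nonneg_left ((abs_add_le _ _).trans (le_trans ?_ (hd j (by omega))))
          (Nat.cast_nonneg m)
        rw [abs_div, abs_mul, abs_mul, abs_two]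
        have := mul_le_of_le_one_right (abs_nonneg (M'.d j - M.d j)) h2
        have := mul_le_of_le_one_right (abs_nonneg (M'.H j - M.H j)) h1
        linarith
  have e2 : ∀ L : List (Lv (Cube m)), TE (fun _ => 1) (Sh.two (k + 1)) L 0
      (pr2 (k + 1) fun y y' => f (ov y y')) = pi2 (fun _ => 1) L (k + 1) (fun y y' => f (ov y y')) 0 :=
    fun L => Wt87.tX_two Link33.wt1 (fun y y' => f (ov y y')) (k + 1) L 0
  rw [e2, e2] at h
  refine h.trans_eq ?_
  push_cast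
  ring

theorem rb_lip (G : Lg M m a) (G' : M'.Leg x) (hN : M'.N = M.N) (hz : M'.z = M.z) {γ : ℝ}
    (hd : ∀ k ≤ M.N, |M'.d k - M.d k| / 2 + |M'.H k - M.H k| ≤ γ) (k : ℕ) :
    |M'.rb m a k - M.rb m a k| ≤ 8 * (m * γ) := by
  simpa only [one_mul, Md.rb] using E2_lip G G' hN hz (f := id) (b := 1) (fun R h => h) hd k

/-- the same along a deposit -/
theorem E2_dep (G : Lg M m a) (h0 : 0 ≤ u) (hu : u ≤ M.d 0) (hg : Dp g) {γ : ℝ}
    (hγ : ∀ k ≤ M.N, g k ≤ γ) {f : ℝ → ℝ} {b : ℝ} (hf : ∀ R, |R| ≤ 1 → |f R| ≤ b) (k : ℕ) :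
    |(dep M u g).E2 m a f k - M.E2 m a f k| ≤ 8 * (b * (m * (u / 2 + γ))) :=
  E2_lip G (leg_dep G.toLeg hu hg) rfl rfl hf (fun k hk => by
    rw [dep_d, dep_H, sub_sub_cancel_left, abs_neg, abs_of_nonneg h0, add_sub_cancel_left,
      abs_of_nonneg (hg.nonneg k)]
    linarith [hγ k hk]) k

theorem rb_dep (G : Lg M m a) (h0 : 0 ≤ u) (hu : u ≤ M.d 0) (hg : Dp g) {γ : ℝ}
    (hγ : ∀ k ≤ M.N, g k ≤ γ) (k : ℕ) :
    |(dep M u g).rb m a k - M.rb m a k| ≤ 8 * (m * (u / 2 + γ)) := by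
  simpa only [one_mul, Md.rb] using E2_dep G h0 hu hg hγ (f := id) (b := 1) (fun R h => h) k

/-! ### the Guerra derivative -/

/-- the Guerra remainder `∑ dz E (R - r)²` -/
def Fr (M : Md) (m : ℕ) (a : ℝ) (r : ℕ → ℝ) : ℝ :=
  ∑ k ∈ Finset.range (M.N + 1), M.dz m a k * M.E2 m a (fun R => (R - r k) ^ 2) k

/-- the part of the derivative that depends on the tilts and on `r` only -/
def cG (M : Md) (m : ℕ) (a : ℝ) (r : ℕ → ℝ) : ℝ :=
  m * (r M.N / 2 - 1 / 4 - ∑ k ∈ Finset.range (M.N + 1), M.dz m a k * (r k ^ 2 / 4))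

theorem cG_free (hN : M'.N = M.N) (hz : M'.z = M.z) : cG M' m a r = cG M m a r := by
  simp only [cG, hN, Md77.dz_free hN hz]

theorem Fr_nonneg (G : Lg M m a) : 0 ≤ Fr M m a r := Finset.sum_nonneg fun k _ =>
  mul_nonneg (G.dz_nonneg k) (E2_nonneg (fun _ _ => sq_nonneg _) k)

theorem DV_gu : DV M m a (fun _ => -1) r = cG M m a r + m / 4 * Fr M m a r := by
  rw [DV_ref M a _ r r, cG, Fr]
  have e : ∑ k ∈ Finset.range (M.N + 1), M.dz m a k * (-1 / 4 * M.E2 m a (fun R => (R - r k) ^ 2) k +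
      (-1 * r k + r k) / 2 * (M.rb m a k - r k) + (-1 / 4 * r k ^ 2 + r k / 2 * r k)) =
      ∑ k ∈ Finset.range (M.N + 1), M.dz m a k * (r k ^ 2 / 4) - 1 / 4 *
        ∑ k ∈ Finset.range (M.N + 1), M.dz m a k * M.E2 m a (fun R => (R - r k) ^ 2) k := by
    rw [Finset.mul_sum, ← Finset.sum_sub_distrib]
    exact Finset.sum_congr rfl fun k _ => by ring
  rw [e]
  ring

/-- **(GU)** the exact derivative along a deposit -/
theorem gu_der (G : Lg M m a) (hr : Dp r) {t : ℝ} (h0 : 0 < t) (ht : t < M.d 0) :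
    HasDerivAt (fun t : ℝ => (dep M t (t • r)).V m a)
      (cG M m a r + m / 4 * Fr (dep M t (t • r)) m a r) t := by
  have hI : ∀ t ∈ Ioo 0 (M.d 0), Inc (dep M t (t • r)) := fun t ht =>
    inc_of_leg (leg_dep G.toLeg ht.2.le (hr.smul ht.1.le))
  have := V_der (a := a) G.m0 (M := fun t : ℝ => dep M t (t • r)) (N := M.N) (z := M.z)
    (fun _ => rfl) (fun _ => rfl) (S := univ) (t := t) (d' := fun _ => -1) (H' := r)
    (fun k _ => ((hasDerivAt_id t).const_sub (M.d k)).hasDerivWithinAt)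
    (fun k _ => ((((hasDerivAt_id t).mul_const (r k)).const_add (M.H k)).congr_deriv
      (one_mul _)).hasDerivWithinAt)
    hr.z (hI t ⟨h0, ht⟩)
    (nhdsWithin_le_nhds (Ioo_mem_nhds h0 ht) |> fun h => eventually_of_mem h hI)
  rw [DV_gu, cG_free (M := M) (M' := dep M t (t • r)) rfl rfl] at this
  exact hasDerivWithinAt_univ.1 this

theorem gu_cont (M : Md) (m : ℕ) (a : ℝ) (r : ℕ → ℝ) (S : Set ℝ) :
    ContinuousOn (fun t : ℝ => (dep M t (t • r)).V m a) S :=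
  V_cont (M := fun t : ℝ => dep M t (t • r)) (N := M.N) (z := M.z) (fun _ => rfl) (fun _ => rfl)
    (fun k _ => by simp only [dep_d]; fun_prop)
    fun k _ => by simp only [dep_H, Pi.smul_apply, smul_eq_mul]; fun_prop

/-- the error of one Euler step -/
def er (m : ℕ) (B u : ℝ) : ℝ := 8 * ((1 + B) ^ 2 * (m * (u / 2 + u * B)))

theorem Fr_dep (G : Lg M m a) (h0 : 0 ≤ u) (hu : u ≤ M.d 0) (hr : Dp r) (hB : ∀ k, r k ≤ B) :
    |Fr (dep M u (u • r)) m a r - Fr M m a r| ≤ er m B u := by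
  have hB0 : 0 ≤ B := (hr.nonneg 0).trans (hB 0)
  rw [Fr, Fr, dep_N, ← Finset.sum_sub_distrib]
  refine (Finset.abs_sum_le_sum_abs _ _).trans ((Finset.sum_le_sum (g := fun k => M.dz m a k * er m B u)
    fun k _ => ?_).trans ?_)
  · rw [dep_dz, ← mul_sub, abs_mul, abs_of_nonneg (G.dz_nonneg k)]
    refine mul_le_mul_of_nonneg_left (E2_dep G h0 hu (hr.smul h0) (γ := u * B)
      (fun k _ => mul_le_mul_of_nonneg_left (hB k) h0) (fun R hR => ?_) k) (G.dz_nonneg k)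
    rw [abs_of_nonneg (sq_nonneg _)]
    have := abs_le.1 hR
    exact sq_le_sq' (by linarith [hB k]) (by linarith [hr.nonneg k])
  · rw [← Finset.sum_mul, sum_dz_all]
    exact mul_le_of_le_one_left (by rw [er]; positivity) (by linarith [G.a0])

theorem er_mono (hB : 0 ≤ B) (h : u ≤ u') : er m B u ≤ er m B u' := by
  unfold er
  gcongr

/-- exact mean value form of the double step -/
theorem gu_mvt (G : Lg M m a) (G' : Lg M' m a) (hN : M'.N = M.N) (hz : M'.z = M.z) (h0 : 0 < u)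
    (hu : u ≤ M.d 0) (hu' : u ≤ M'.d 0) (hr : Dp r) : ∃ t ∈ Ioo 0 u,
    (dep M' u (u • r)).V m a - (dep M u (u • r)).V m a - (M'.V m a - M.V m a) =
      m / 4 * u * (Fr (dep M' t (t • r)) m a r - Fr (dep M t (t • r)) m a r) := by
  obtain ⟨t, ht, e⟩ := exists_hasDerivAt_eq_slope
    (fun t : ℝ => (dep M' t (t • r)).V m a - (dep M t (t • r)).V m a) _ h0
    ((gu_cont M' m a r _).sub (gu_cont M m a r _)) fun t ht =>
      (gu_der G' hr ht.1 (ht.2.trans_le hu')).fun_sub (gu_der G hr ht.1 (ht.2.trans_le hu))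
  refine ⟨t, ht, ?_⟩
  simp only [zero_smul, dep_zero, sub_zero, cG_free hN hz] at e
  rw [eq_div_iff h0.ne'] at e
  rw [← e]
  ring

/-- **one double step**: the same deposit on both models, the square of `M'` is dropped -/
theorem gu_step (G : Lg M m a) (G' : Lg M' m a) (hN : M'.N = M.N) (hz : M'.z = M.z) (h0 : 0 ≤ u)
    (hu : u ≤ M.d 0) (hu' : u ≤ M'.d 0) (hr : Dp r) (hB : ∀ k, r k ≤ B) :
    M'.V m a - M.V m a ≤ (dep M' u (u • r)).V m a - (dep M u (u • r)).V m a +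
      m / 4 * (u * (Fr M m a r + er m B u)) := by
  rcases h0.eq_or_lt with rfl | h1
  · simp [dep_zero]
  obtain ⟨t, ht, e⟩ := gu_mvt G G' hN hz h1 hu hu' hr
  have h2 := Fr_nonneg (r := r) (lg_dep G' (ht.2.le.trans hu') (hr.smul ht.1.le))
  have h3 := (abs_le.1 (Fr_dep G ht.1.le (ht.2.le.trans hu) hr hB)).2
  have h4 := er_mono (m := m) ((hr.nonneg 0).trans (hB 0)) ht.2.le
  have h5 : 0 ≤ m / 4 * u := by positivity
  nlinarith [mul_le_mul_of_nonneg_left (show -(Fr M m a r + er m B u) ≤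
    Fr (dep M' t (t • r)) m a r - Fr (dep M t (t • r)) m a r by linarith) h5]

/-! ### the Euler path -/

/-- a deposit rule -/
def Rule (ρ : Md → ℕ → ℝ) (B : ℝ) : Prop := ∀ M, Dp (ρ M) ∧ ∀ k, ρ M k ≤ B

/-- the accumulated deposit after `i` steps of length `u` -/
def acc (M : Md) (u : ℝ) (ρ : Md → ℕ → ℝ) : ℕ → ℕ → ℝ
  | 0 => 0
  | i + 1 => acc M u ρ i + u • ρ (dep M (i * u) (acc M u ρ i))

/-- the model `M'` with the deposits of the path from `M` -/
def cmp (M M' : Md) (u : ℝ) (ρ : Md → ℕ → ℝ) (i : ℕ) : Md := dep M' (i * u) (acc M u ρ i)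

/-- **the Euler path** from `M` -/
abbrev eul (M : Md) (u : ℝ) (ρ : Md → ℕ → ℝ) (i : ℕ) : Md := cmp M M u ρ i

variable {ρ : Md → ℕ → ℝ}

theorem cmp_zero : cmp M M' u ρ 0 = M' := by simp [cmp, acc, dep_zero]

theorem cmp_succ (i : ℕ) :
    cmp M M' u ρ (i + 1) = dep (cmp M M' u ρ i) u (u • ρ (eul M u ρ i)) := by
  rw [cmp, cmp, dep_dep, Nat.cast_succ, add_mul, one_mul]; rfl

@[simp] theorem cmp_N (i : ℕ) : (cmp M M' u ρ i).N = M'.N := rfl
@[simp] theorem cmp_z (i : ℕ) : (cmp M M' u ρ i).z = M'.z := rfl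
@[simp] theorem cmp_d (i k : ℕ) : (cmp M M' u ρ i).d k = M'.d k - i * u := rfl
@[simp] theorem cmp_H (i k : ℕ) : (cmp M M' u ρ i).H k = M'.H k + acc M u ρ i k := rfl
theorem cmp_dz (i k : ℕ) : (cmp M M' u ρ i).dz m a k = M'.dz m a k := dep_dz k

theorem acc_eq (i k : ℕ) : acc M u ρ i k = u * ∑ j ∈ Finset.range i, ρ (eul M u ρ j) k := by
  induction i with
  | zero => simp [acc]
  | succ i ih => rw [acc, Pi.add_apply, ih, Finset.sum_range_succ, mul_add]; rfl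

theorem acc_dp (hρ : Rule ρ B) (h0 : 0 ≤ u) : ∀ i, Dp (acc M u ρ i)
  | 0 => Dp.zero
  | i + 1 => (acc_dp hρ h0 i).add ((hρ _).1.smul h0)

theorem acc_le (hρ : Rule ρ B) (h0 : 0 ≤ u) (i k : ℕ) : acc M u ρ i k ≤ i * u * B := by
  rw [acc_eq, mul_comm (i : ℝ), mul_assoc]
  refine mul_le_mul_of_nonneg_left ?_ h0
  simpa using Finset.sum_le_card_nsmul (Finset.range i) _ B fun j _ => (hρ (eul M u ρ j)).2 k

theorem leg_cmp (G' : M'.Leg x) (hρ : Rule ρ B) (h0 : 0 ≤ u) {i : ℕ} (hi : i * u ≤ M'.d 0) :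
    (cmp M M' u ρ i).Leg x := leg_dep G' hi (acc_dp hρ h0 i)

theorem lg_cmp (G' : Lg M' m a) (hρ : Rule ρ B) (h0 : 0 ≤ u) {i : ℕ} (hi : i * u ≤ M'.d 0) :
    Lg (cmp M M' u ρ i) m a := lg_dep G' hi (acc_dp hρ h0 i)

/-- the path restarted at the step `i` -/
theorem acc_add (i j : ℕ) : acc M u ρ (i + j) = acc M u ρ i + acc (eul M u ρ i) u ρ j := by
  induction j with
  | zero => simp [acc]
  | succ j ih =>
    rw [← add_assoc, acc, acc, ih, add_assoc, eul, cmp, dep_dep, Nat.cast_add, add_mul]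

theorem cmp_add (i j : ℕ) :
    cmp M M' u ρ (i + j) = cmp (eul M u ρ i) (cmp M M' u ρ i) u ρ j := by
  rw [cmp, acc_add, Nat.cast_add, add_mul, ← dep_dep]; rfl

/-- pair expectations move slowly along the path -/
theorem E2_step (G' : Lg M' m a) (hρ : Rule ρ B) (h0 : 0 ≤ u) {i : ℕ}
    (hi : (i + 1 : ℕ) * u ≤ M'.d 0) {f : ℝ → ℝ} {b : ℝ} (hf : ∀ R, |R| ≤ 1 → |f R| ≤ b) (k : ℕ) :
    |(cmp M M' u ρ (i + 1)).E2 m a f k - (cmp M M' u ρ i).E2 m a f k| ≤
      8 * (b * (m * (u / 2 + u * B))) := by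
  rw [Nat.cast_succ, add_mul, one_mul] at hi
  rw [cmp_succ]
  exact E2_dep (lg_cmp G' hρ h0 (by linarith)) h0 (by rw [cmp_d]; linarith) ((hρ _).1.smul h0)
    (fun k _ => mul_le_mul_of_nonneg_left ((hρ _).2 k) h0) hf k

theorem rb_step (G' : Lg M' m a) (hρ : Rule ρ B) (h0 : 0 ≤ u) {i : ℕ}
    (hi : (i + 1 : ℕ) * u ≤ M'.d 0) (k : ℕ) :
    |(cmp M M' u ρ (i + 1)).rb m a k - (cmp M M' u ρ i).rb m a k| ≤ 8 * (m * (u / 2 + u * B)) := by
  simpa only [one_mul, Md.rb] using E2_step G' hρ h0 hi (f := id) (b := 1) (fun R h => h) k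

/-- **the double Guerra step along the Euler path** -/
theorem gu_double (G : Lg M m a) (G' : Lg M' m a) (hN : M'.N = M.N) (hz : M'.z = M.z)
    (hρ : Rule ρ B) (h0 : 0 ≤ u) : ∀ J : ℕ, J * u ≤ M.d 0 → J * u ≤ M'.d 0 →
    M'.V m a - M.V m a ≤ (cmp M M' u ρ J).V m a - (eul M u ρ J).V m a +
      m / 4 * (u * ∑ i ∈ Finset.range J, Fr (eul M u ρ i) m a (ρ (eul M u ρ i)) + J * u * er m B u)
  | 0, _, _ => by simp [cmp_zero]
  | J + 1, h, h' => by
    rw [Nat.cast_succ, add_mul, one_mul] at h h'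
    have ih := gu_double G G' hN hz hρ h0 J (by linarith) (by linarith)
    have st := gu_step (lg_cmp (M := M) G hρ h0 (i := J) (by linarith))
      (lg_cmp (M := M) G' hρ h0 (i := J) (by linarith)) hN hz h0 (by rw [cmp_d]; linarith)
      (by rw [cmp_d]; linarith) (hρ (eul M u ρ J)).1 (hρ _).2
    rw [← cmp_succ, ← cmp_succ] at st
    rw [Finset.sum_range_succ, Nat.cast_succ]
    nlinarith

/-! ### the adaptive rule -/

/-- `r = θ qh + (1 - θ) φ` above `j0`, `0` below; `φ M` is `M.rb m a` or a capped version -/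
def sf (θ : ℝ) (j0 : ℕ) (qh : ℕ → ℝ) (φ : Md → ℕ → ℝ) (M : Md) (k : ℕ) : ℝ :=
  if k ≤ j0 then 0 else θ * qh k + (1 - θ) * φ M k

/-- monotone above `j0` with values in `[0, B]` -/
structure Tr (j0 : ℕ) (B : ℝ) (f : ℕ → ℝ) : Prop where
  mono : ∀ k k', j0 < k → k ≤ k' → f k ≤ f k'
  nn : ∀ k, j0 < k → 0 ≤ f k
  le : ∀ k, j0 < k → f k ≤ B

variable {θ : ℝ} {j0 : ℕ} {qh : ℕ → ℝ} {φ : Md → ℕ → ℝ}

theorem tr_rb (hm : 0 < m) (hB : 1 ≤ B) : Tr j0 B (M.rb m a) :=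
  ⟨fun _ _ _ h => rb_mono hm h, fun k _ => rb_nonneg hm k, fun k _ => (rb_le_one hm k).trans hB⟩

theorem sf_low {k : ℕ} (hk : k ≤ j0) : sf θ j0 qh φ M k = 0 := if_pos hk

theorem sf_up {k : ℕ} (hk : j0 < k) : sf θ j0 qh φ M k = θ * qh k + (1 - θ) * φ M k :=
  if_neg (by omega)

theorem sf_inc {k k' : ℕ} (hk : j0 < k) (hk' : j0 < k') : sf θ j0 qh φ M k' - sf θ j0 qh φ M k =
    θ * (qh k' - qh k) + (1 - θ) * (φ M k' - φ M k) := by
  rw [sf_up hk, sf_up hk']; ring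

theorem sf_rule (h0 : 0 ≤ θ) (h1 : θ ≤ 1) (hB : 0 ≤ B) (hq : Tr j0 B qh) (hφ : ∀ M, Tr j0 B (φ M)) :
    Rule (sf θ j0 qh φ) B := fun M => by
  refine ⟨⟨sf_low j0.zero_le, fun k k' h => ?_⟩, fun k => ?_⟩
  · rcases le_or_gt k j0 with hk | hk
    · rw [sf_low hk]
      rcases le_or_gt k' j0 with hk' | hk'
      · rw [sf_low hk']
      · rw [sf_up hk']
        exact add_nonneg (mul_nonneg h0 (hq.nn _ hk')) (mul_nonneg (by linarith) ((hφ M).nn _ hk'))
    · nlinarith [sf_inc (θ := θ) (M := M) (φ := φ) (qh := qh) hk (hk.trans_le h), hq.mono k k' hk h,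
        (hφ M).mono k k' hk h]
  · rcases le_or_gt k j0 with hk | hk
    · rw [sf_low hk]; exact hB
    · rw [sf_up hk]
      nlinarith [hq.le k hk, (hφ M).le k hk]

/-- bias and variance -/
theorem E2_bv (c : ℝ) (k : ℕ) : M.E2 m a (fun R => (R - c) ^ 2) k =
    M.E2 m a (fun R => (R - M.rb m a k) ^ 2) k + (M.rb m a k - c) ^ 2 := by
  rw [E2_sq_expand, E2_sq_expand]; ring

/-- `∑_{k ≤ j0} dz E R²` -/
def Lo (M : Md) (m : ℕ) (a : ℝ) (j0 : ℕ) : ℝ :=
  ∑ k ∈ Finset.range (j0 + 1), M.dz m a k * M.E2 m a (fun R => R ^ 2) k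

/-- `∑_{k > j0} dz E (R - rb)²` -/
def Va (M : Md) (m : ℕ) (a : ℝ) (j0 : ℕ) : ℝ :=
  ∑ k ∈ Finset.Ioc j0 M.N, M.dz m a k * M.E2 m a (fun R => (R - M.rb m a k) ^ 2) k

/-- `∑_{k > j0} dz (rb - c)²` -/
def Ph (M : Md) (m : ℕ) (a : ℝ) (j0 : ℕ) (c : ℕ → ℝ) : ℝ :=
  ∑ k ∈ Finset.Ioc j0 M.N, M.dz m a k * (M.rb m a k - c k) ^ 2

/-- the Guerra remainder of a deposit that vanishes up to `j0` -/
theorem Fr_split (hj : j0 ≤ M.N) (hr : ∀ k ≤ j0, r k = 0) :
    Fr M m a r = Lo M m a j0 + Va M m a j0 + Ph M m a j0 r := by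
  have e : Finset.range (M.N + 1) = Finset.range (j0 + 1) ∪ Finset.Ioc j0 M.N := by
    ext k; simp only [Finset.mem_range, Finset.mem_union, Finset.mem_Ioc]; omega
  rw [Fr, e, Finset.sum_union (Finset.disjoint_left.2 fun k h h' => by
    simp only [Finset.mem_range, Finset.mem_Ioc] at h h'; omega), add_assoc, Lo, Va, Ph,
    ← Finset.sum_add_distrib]
  congr 1
  · exact Finset.sum_congr rfl fun k hk => by
      simp only [hr k (Nat.lt_succ_iff.1 (Finset.mem_range.1 hk)), sub_zero]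
  · exact Finset.sum_congr rfl fun k hk => by rw [E2_bv]; ring

/-- **the Guerra remainder of the adaptive rule**, `φ = rb` -/
theorem Fr_rb (hj : j0 ≤ M.N) (hφ : ∀ k, j0 < k → φ M k = M.rb m a k) :
    Fr M m a (sf θ j0 qh φ M) = Lo M m a j0 + Va M m a j0 + θ ^ 2 * Ph M m a j0 qh := by
  rw [Fr_split hj fun k hk => sf_low hk, Ph, Ph, Finset.mul_sum]
  congr 1
  exact Finset.sum_congr rfl fun k hk => by
    rw [sf_up (Finset.mem_Ioc.1 hk).1, hφ k (Finset.mem_Ioc.1 hk).1]; ring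

/-- **the Guerra remainder of the adaptive rule**, any `φ` -/
theorem Fr_sf (G : Lg M m a) (hj : j0 ≤ M.N) (h0 : 0 ≤ θ) (h1 : θ ≤ 1) :
    Fr M m a (sf θ j0 qh φ M) ≤ Lo M m a j0 + Va M m a j0 +
      (2 * θ ^ 2 * Ph M m a j0 qh + 2 * Ph M m a j0 (φ M)) := by
  rw [Fr_split hj fun k hk => sf_low hk, Ph, Ph, Ph, Finset.mul_sum, Finset.mul_sum,
    ← Finset.sum_add_distrib]
  refine add_le_add_right (Finset.sum_le_sum fun k hk => ?_) _
  rw [sf_up (Finset.mem_Ioc.1 hk).1]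
  have h2 : (1 - θ) ^ 2 ≤ 1 := pow_le_one₀ (by linarith) (by linarith)
  have h3 : (M.rb m a k - (θ * qh k + (1 - θ) * φ M k)) ^ 2 ≤
      2 * θ ^ 2 * (M.rb m a k - qh k) ^ 2 + 2 * (M.rb m a k - φ M k) ^ 2 := by
    nlinarith [sq_nonneg (θ * (M.rb m a k - qh k) - (1 - θ) * (M.rb m a k - φ M k)),
      mul_le_of_le_one_left (sq_nonneg (M.rb m a k - φ M k)) h2]
  nlinarith [mul_le_mul_of_nonneg_left h3 (G.dz_nonneg k)]

theorem Ph_tri (G : Lg M m a) (c c' : ℕ → ℝ) : Ph M m a j0 c ≤ 2 * Ph M m a j0 c' +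
    2 * ∑ k ∈ Finset.Ioc j0 M.N, M.dz m a k * (c k - c' k) ^ 2 := by
  rw [Ph, Ph, Finset.mul_sum, Finset.mul_sum, ← Finset.sum_add_distrib]
  refine Finset.sum_le_sum fun k _ => ?_
  nlinarith [mul_nonneg (G.dz_nonneg k) (sq_nonneg (M.rb m a k - c' k + (c k - c' k)))]

theorem acc_low {k : ℕ} (hk : k ≤ j0) (i : ℕ) : acc M u (sf θ j0 qh φ) i k = 0 := by
  simp [acc_eq, sf_low hk]

/-- increments of the accumulated deposit, any rule -/
theorem acc_ge (h0 : 0 ≤ u) {k k' : ℕ} {c : ℝ} (i : ℕ)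
    (h : ∀ j < i, c ≤ ρ (eul M u ρ j) k' - ρ (eul M u ρ j) k) :
    i * u * c ≤ acc M u ρ i k' - acc M u ρ i k := by
  rw [acc_eq, acc_eq, ← mul_sub, ← Finset.sum_sub_distrib, mul_comm (i : ℝ), mul_assoc]
  refine mul_le_mul_of_nonneg_left ?_ h0
  simpa using Finset.card_nsmul_le_sum (Finset.range i) _ _ fun j hj => h j (Finset.mem_range.1 hj)

theorem acc_inc_le (h0 : 0 ≤ u) {k k' : ℕ} {c : ℝ} (i : ℕ)
    (h : ∀ j < i, ρ (eul M u ρ j) k' - ρ (eul M u ρ j) k ≤ c) :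
    acc M u ρ i k' - acc M u ρ i k ≤ i * u * c := by
  rw [acc_eq, acc_eq, ← mul_sub, ← Finset.sum_sub_distrib, mul_comm (i : ℝ), mul_assoc]
  refine mul_le_mul_of_nonneg_left ?_ h0
  simpa using Finset.sum_le_card_nsmul (Finset.range i) _ _ fun j hj => h j (Finset.mem_range.1 hj)

/-- **floor** of the deposit -/
theorem acc_floor (h1 : θ ≤ 1) (h0 : 0 ≤ u) (hφ : ∀ M, Tr j0 B (φ M)) {k k' : ℕ} (hk : j0 < k)
    (hk' : k ≤ k') (i : ℕ) : i * u * (θ * (qh k' - qh k)) ≤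
      acc M u (sf θ j0 qh φ) i k' - acc M u (sf θ j0 qh φ) i k :=
  acc_ge h0 i fun j _ => by
    rw [sf_inc hk (hk.trans_le hk')]
    exact le_add_of_nonneg_right (mul_nonneg (by linarith) (sub_nonneg.2 ((hφ _).mono k k' hk hk')))

/-- **ceiling** of the deposit -/
theorem acc_ceil (hθ : 0 ≤ θ) (h1 : θ ≤ 1) (h0 : 0 ≤ u) {k k' : ℕ} (hk : j0 < k) (hk' : j0 < k')
    {c : ℝ} (hq : qh k' - qh k ≤ c) (hφ : ∀ M, φ M k' - φ M k ≤ c) (i : ℕ) :
    acc M u (sf θ j0 qh φ) i k' - acc M u (sf θ j0 qh φ) i k ≤ i * u * c :=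
  acc_inc_le h0 i fun j _ => by
    rw [sf_inc hk hk']
    nlinarith [hφ (eul M u (sf θ j0 qh φ) j)]

/-- **residual** of the deposit -/
theorem acc_res {k : ℕ} (hk : j0 < k) (i : ℕ) :
    acc M u (sf θ j0 qh φ) i k - i * u * qh k =
      (1 - θ) * u * ∑ j ∈ Finset.range i, (φ (eul M u (sf θ j0 qh φ) j) k - qh k) := by
  simp only [acc_eq, sf_up hk, Finset.sum_add_distrib, Finset.sum_sub_distrib, Finset.sum_const,
    Finset.card_range, nsmul_eq_mul, ← Finset.mul_sum]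
  ring

/-- the residual in a weighted `L²` norm -/
theorem acc_res_sq (h0 : 0 ≤ θ) (h1 : θ ≤ 1) {S : Finset ℕ} (hS : ∀ k ∈ S, j0 < k) {c : ℕ → ℝ}
    (hc : ∀ k ∈ S, 0 ≤ c k) (i : ℕ) {Φ : ℝ} (hΦ : ∀ j < i,
      ∑ k ∈ S, c k * (φ (eul M u (sf θ j0 qh φ) j) k - qh k) ^ 2 ≤ Φ) :
    ∑ k ∈ S, c k * (acc M u (sf θ j0 qh φ) i k - i * u * qh k) ^ 2 ≤ (i * u) ^ 2 * Φ := by
  have h2 : (1 - θ) ^ 2 ≤ 1 := pow_le_one₀ (by linarith) (by linarith)
  calc _ ≤ ∑ k ∈ S, c k * (u ^ 2 * (i * ∑ j ∈ Finset.range i,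
        (φ (eul M u (sf θ j0 qh φ) j) k - qh k) ^ 2)) :=
        Finset.sum_le_sum fun k hk => mul_le_mul_of_nonneg_left (by
          rw [acc_res (hS k hk), mul_pow, mul_pow]
          have := sq_sum_le_card_mul_sum_sq (s := Finset.range i)
            (f := fun j => φ (eul M u (sf θ j0 qh φ) j) k - qh k)
          rw [Finset.card_range] at this
          exact mul_le_mul (mul_le_of_le_one_left (sq_nonneg u) h2) this (sq_nonneg _)
            (sq_nonneg u)) (hc k hk)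
    _ = u ^ 2 * (i * ∑ j ∈ Finset.range i, ∑ k ∈ S,
        c k * (φ (eul M u (sf θ j0 qh φ) j) k - qh k) ^ 2) := by
        rw [Finset.sum_comm, Finset.mul_sum, Finset.mul_sum]
        exact Finset.sum_congr rfl fun k _ => by rw [← Finset.mul_sum]; ring
    _ ≤ u ^ 2 * (i * (i * Φ)) := by
        gcongr
        simpa using Finset.sum_le_card_nsmul (Finset.range i) _ Φ fun j hj =>
          hΦ j (Finset.mem_range.1 hj)
    _ = _ := by ring

/-- the residual in a weighted `L¹` norm -/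
theorem acc_res_abs (h0 : 0 ≤ θ) (h1 : θ ≤ 1) (hu : 0 ≤ u) {S : Finset ℕ} (hS : ∀ k ∈ S, j0 < k)
    {c : ℕ → ℝ} (hc : ∀ k ∈ S, 0 ≤ c k) (i : ℕ) {Z : ℝ} (hZ : ∀ j < i,
      ∑ k ∈ S, c k * |φ (eul M u (sf θ j0 qh φ) j) k - qh k| ≤ Z) :
    ∑ k ∈ S, c k * |acc M u (sf θ j0 qh φ) i k - i * u * qh k| ≤ i * u * Z := by
  calc _ ≤ ∑ k ∈ S, c k * (u * ∑ j ∈ Finset.range i,
        |φ (eul M u (sf θ j0 qh φ) j) k - qh k|) :=
        Finset.sum_le_sum fun k hk => mul_le_mul_of_nonneg_left (by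
          rw [acc_res (hS k hk), abs_mul, abs_of_nonneg (mul_nonneg (by linarith) hu)]
          exact mul_le_mul (mul_le_of_le_one_left hu (by linarith))
            (Finset.abs_sum_le_sum_abs _ _) (abs_nonneg _) hu) (hc k hk)
    _ = u * ∑ j ∈ Finset.range i, ∑ k ∈ S,
        c k * |φ (eul M u (sf θ j0 qh φ) j) k - qh k| := by
        rw [Finset.sum_comm, Finset.mul_sum]
        exact Finset.sum_congr rfl fun k _ => by rw [← Finset.mul_sum]; ring
    _ ≤ u * (i * Z) := by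
        gcongr
        simpa using Finset.sum_le_card_nsmul (Finset.range i) _ Z fun j hj =>
          hZ j (Finset.mem_range.1 hj)
    _ = _ := by ring

/-- **the step with a uniform bound of the remainder and arbitrarily small error**: for every
length `U` and every `η > 0` all fine enough Euler paths work -/
theorem gu_sup (hρ : Rule ρ B) {U η : ℝ} (hU : 0 ≤ U) (hη : 0 < η) (m : ℕ) :
    ∀ᶠ J : ℕ in atTop, 0 < J ∧ J * (U / J) = U ∧ 8 * (m * (U / J / 2 + U / J * B)) ≤ η ∧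
      ∀ (a : ℝ) (M M' : Md), Lg M m a → Lg M' m a → M'.N = M.N → M'.z = M.z → U ≤ M.d 0 →
        U ≤ M'.d 0 → ∀ F : ℝ, (∀ i < J, Fr (eul M (U / J) ρ i) m a (ρ (eul M (U / J) ρ i)) ≤ F) →
          M'.V m a - M.V m a ≤ (cmp M M' (U / J) ρ J).V m a - (eul M (U / J) ρ J).V m a +
            m / 4 * (U * (F + η)) := by
  have t0 : Tendsto (fun J : ℕ => U / J) atTop (𝓝 0) := tendsto_const_div_atTop_nhds_zero_nat U
  have t1 : Tendsto (fun J : ℕ => er m B (U / J)) atTop (𝓝 0) := by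
    have : Continuous (er m B) := by unfold er; fun_prop
    simpa [er, Function.comp_def] using (this.tendsto 0).comp t0
  have t2 : Tendsto (fun J : ℕ => 8 * (m * (U / J / 2 + U / J * B))) atTop (𝓝 0) := by
    have : Continuous fun u : ℝ => 8 * (m * (u / 2 + u * B)) := by fun_prop
    simpa [Function.comp_def] using (this.tendsto 0).comp t0
  filter_upwards [eventually_gt_atTop 0, t1.eventually (ge_mem_nhds hη),
    t2.eventually (ge_mem_nhds hη)] with J hJ h1 h2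
  have e : J * (U / J) = U := mul_div_cancel₀ _ (Nat.cast_pos.2 hJ).ne'
  refine ⟨hJ, e, h2, fun a M M' G G' hN hz hu hu' F hF => ?_⟩
  have h0 : 0 ≤ U / J := by positivity
  refine (gu_double G G' hN hz hρ h0 J (e.symm ▸ hu) (e.symm ▸ hu')).trans ?_
  have s1 := Finset.sum_le_card_nsmul (Finset.range J) _ F fun i hi => hF i (Finset.mem_range.1 hi)
  rw [Finset.card_range, nsmul_eq_mul] at s1
  have s2 := mul_le_mul_of_nonneg_left s1 h0
  rw [← mul_assoc, mul_comm (U / J) J, e] at s2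
  rw [e]
  have s3 := mul_le_mul_of_nonneg_left h1 hU
  have s4 : (0 : ℝ) ≤ m / 4 := by positivity
  refine add_le_add_right (mul_le_mul_of_nonneg_left ?_ s4) _
  rw [mul_add]
  linarith

end Crest.Agent.T156.Alt.Gu16

end
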