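import Crest.Agent.T156.MdDer_77
import Crest.Agent.T156.MdDic_67
import Crest.Agent.T156.CavB_23
import Crest.Agent.T156.Adj_55
import Crest.Agent.T156.CaWt_87

/-!
Row 156 (helper71): leaf S3 of the soft recursion.  Comparison of the pair laws of two close models,
Guerra deposit `dep`, the Euler path `eu` with a model dependent deposit, the companion `co` that gets
the same deposits, and the double Guerra step.
-/

set_option autoImplicit false
set_option linter.unusedSectionVars false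

noncomputable section

namespace Crest.Agent.T156.Alt.Gu71

open MeasureTheory Real Set Filter Topology
open Crest.Agent.T157.E Crest.Agent.T157.Casc Crest.Agent.T157.SL
open Crest.Agent.T157.G1 (ov fl FL Jw)
open Crest.Agent.T156.Cas Crest.Agent.T156.Cas.Seg56 Crest.Agent.T156.Alt.Md77
open Crest.Agent.T156.Alt.Md67 (Lg)

/-- comparison of pair laws along a segment -/
theorem seg_cmp {Ω : Type} [Fintype Ω] {w : Ω → ℝ} (hw : Wt w) {L : ℝ → List (Lv Ω)} {N : ℕ}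
    {D : ℕ → Ω → Ω → ℝ} (H : Seg L N D) (hM : Mono 0 (L 0)) {κ : ℝ}
    (hκ : ∀ j ≤ N, ∀ x y, |D j x y| ≤ κ) (h : Ω → ℝ) (j : ℕ) {K : Ω → Ω → ℝ}
    (hK : ∀ x y, 0 ≤ K x y) {t u : ℝ} (ht : t ∈ Icc (0 : ℝ) 1) (hu : u ∈ Icc (0 : ℝ) 1) :
    pi2 w (L t) j K h ≤ exp (10 * κ * |t - u|) * pi2 w (L u) j K h := by
  obtain ⟨S, h1, h2, h3⟩ := H
  have i0 : (0 : ℝ) ∈ Icc (0 : ℝ) 1 := ⟨le_rfl, zero_le_one⟩
  have e : (L 0).map Lv.m = (ipl S 0).map Lv.m := by
    have := h3 0 i0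
    generalize ipl S 0 = A at this
    generalize L 0 = B at this
    induction this with
    | nil => rfl
    | cons a _ ih => rw [List.map_cons, List.map_cons, ih, a.1]
  have := ipl_cmp hw (Sh.two j) ((mono_ipl 0 S 0).1 (Cav22.mono_tilt e hM)) (κ := κ)
    (fun i y y' => by
      rcases le_total i N with hi | hi
      · rw [h2 i hi]; exact hκ i hi y y'
      · have : iD S i = iD S N := by
          funext x y; rw [iD, iD, List.take_of_length_le (h1 ▸ hi), List.take_of_length_le h1.le]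
        rw [this, h2 N le_rfl]; exact hκ N le_rfl y y') h
    (F := fun x => K (x (Sh.twoL j)) (x (Sh.twoR j))) (fun x => hK _ _) ht hu
  rw [Wt87.card_two] at this
  rw [← C.pi2_same hw (h3 t ht), ← C.pi2_same hw (h3 u hu), ← Adj55.TE_two' hw, ← Adj55.TE_two' hw]
  refine this.trans_eq ?_
  norm_num
  rfl

variable {M M' : Md} {m : ℕ} {a x : ℝ}

/-- same levels, accumulated variances within `ε₁`, `ε₂` -/
structure Nr (M M' : Md) (ε₁ ε₂ : ℝ) : Prop where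
  N : M'.N = M.N
  z : M'.z = M.z
  d : ∀ k ≤ M.N, |M'.d k - M.d k| ≤ ε₁
  H : ∀ k ≤ M.N, |M'.H k - M.H k| ≤ ε₂

theorem Nr.symm {ε₁ ε₂ : ℝ} (h : Nr M M' ε₁ ε₂) : Nr M' M ε₁ ε₂ :=
  ⟨h.N.symm, h.z.symm, fun k hk => by rw [abs_sub_comm]; exact h.d k (h.N ▸ hk),
    fun k hk => by rw [abs_sub_comm]; exact h.H k (h.N ▸ hk)⟩

/-- **comparison of the pair laws of two close models** -/
theorem E2_cmp (G : Lg M m a) (G' : Lg M' m a) {ε₁ ε₂ : ℝ} (h : Nr M M' ε₁ ε₂) {f : ℝ → ℝ}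
    (hf : ∀ r, |r| ≤ 1 → 0 ≤ f r) (k : ℕ) :
    M'.E2 m a f k ≤ exp (m * (5 * ε₁ + 10 * ε₂)) * M.E2 m a f k := by
  have c := (inc_of_leg G.toLeg).cone
  have c' := (inc_of_leg G'.toLeg).cone
  rw [h.N] at c'
  have := seg_cmp Link33.wt1 (seg_MC (tz a M.z) G.m0 c c')
    (by simpa only [zero_smul, add_zero, ← L_eq] using G.monoL)
    (κ := m * (ε₁ / 2 + ε₂)) (fun j hj x y => ?_) 0 (k + 1) (K := fun x x' => f (ov x x'))
    (fun x y => hf _ (abs_ov_le x y)) ⟨zero_le_one, le_rfl⟩ ⟨le_rfl, zero_le_one⟩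
  · simp only [zero_smul, add_zero, one_smul, add_sub_cancel, ← L_eq] at this
    rw [← h.z, ← h.N, ← L_eq] at this
    refine this.trans_eq ?_
    rw [Md.E2]
    congr 2
    simp only [sub_zero, abs_one]
    ring
  have e1 := (abs_nonneg _).trans (h.d 0 (Nat.zero_le _))
  have e2 := (abs_nonneg _).trans (h.H 0 (Nat.zero_le _))
  have hm : (0 : ℝ) ≤ m := Nat.cast_nonneg m
  cases j with
  | zero => simp only [Finset.range_zero, Finset.sum_empty, abs_zero]; positivity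
  | succ j =>
    have hj' : j ≤ M.N := by omega
    simp only [Prod.fst_sub, Prod.snd_sub, Pi.sub_apply, dat, h.N]
    rw [Finset.sum_add_distrib, ← Finset.sum_mul, ← Finset.sum_mul, ← Finset.sum_mul,
      Finset.sum_sub_distrib, Finset.sum_sub_distrib, sum_inc _ _ hj', sum_inc _ _ hj',
      sum_inc _ _ hj', sum_inc _ _ hj', G.H0, G'.H0]
    have r1 := abs_ov_le x y
    have r2 : |ov x y ^ 2| ≤ 1 := by rw [abs_pow]; exact pow_le_one₀ (abs_nonneg _) r1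
    have a1 := mul_le_mul (h.d j hj') r2 (abs_nonneg _) e1
    have a2 := mul_le_mul (h.H j hj') r1 (abs_nonneg _) e2
    rw [← abs_mul] at a1 a2
    rw [show (M'.d 0 + M'.d j - M'.d 0 - (M.d 0 + M.d j - M.d 0)) * (m / 2 * ov x y ^ 2) +
      (0 + M'.H j - 0 - (0 + M.H j - 0)) * m * ov x y =
      m * ((M'.d j - M.d j) * ov x y ^ 2 / 2 + (M'.H j - M.H j) * ov x y) by ring, abs_mul,
      abs_of_nonneg hm]
    refine mul_le_mul_of_nonneg_left ((abs_add_le _ _).trans ?_) hm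
    rw [abs_div, abs_two]
    linarith

/-- two-sided form: `|f| ≤ B` -/
theorem E2_lip (G : Lg M m a) (G' : Lg M' m a) {ε₁ ε₂ B : ℝ} (h : Nr M M' ε₁ ε₂) {f : ℝ → ℝ}
    (hf : ∀ r, |r| ≤ 1 → |f r| ≤ B) (k : ℕ) :
    |M'.E2 m a f k - M.E2 m a f k| ≤ 2 * B * (exp (m * (5 * ε₁ + 10 * ε₂)) - 1) := by
  have e1 := (abs_nonneg _).trans (h.d 0 (Nat.zero_le _))
  have e2 := (abs_nonneg _).trans (h.H 0 (Nat.zero_le _))
  have hE : 0 ≤ exp (m * (5 * ε₁ + 10 * ε₂)) - 1 := sub_nonneg.2 (one_le_exp (by positivity))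
  have b1 := E2_cmp G G' h (f := fun r => f r + B) (fun r hr => by linarith [(abs_le.1 (hf r hr)).1]) k
  have b2 := E2_cmp G G' h (f := fun r => B - f r) (fun r hr => by linarith [(abs_le.1 (hf r hr)).2]) k
  simp only [Md67.E2_add, Md67.E2_sub, Md67.E2_const] at b1 b2
  have b3 := Md67.E2_le (M := M) (m := m) (a := a) (fun r hr => (abs_le.1 (hf r hr)).2) k
  have b4 := Md67.E2_nonneg (M := M) (m := m) (a := a) (f := fun r => f r + B)
    (fun r hr => by linarith [(abs_le.1 (hf r hr)).1]) k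
  simp only [Md67.E2_add, Md67.E2_const] at b4
  rw [abs_le]
  constructor <;> nlinarith

theorem exp_sub_one_le {y : ℝ} (h0 : 0 ≤ y) (h1 : y ≤ 1) : exp y - 1 ≤ 2 * y :=
  (le_abs_self _).trans ((Real.abs_exp_sub_one_le (by rwa [abs_of_nonneg h0])).trans_eq
    (by rw [abs_of_nonneg h0]))

theorem rb_lip (G : Lg M m a) (G' : Lg M' m a) {ε₁ ε₂ : ℝ} (h : Nr M M' ε₁ ε₂)
    (hε : m * (5 * ε₁ + 10 * ε₂) ≤ 1) (k : ℕ) :
    |M'.rb m a k - M.rb m a k| ≤ m * (20 * ε₁ + 40 * ε₂) := by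
  have e1 := (abs_nonneg _).trans (h.d 0 (Nat.zero_le _))
  have e2 := (abs_nonneg _).trans (h.H 0 (Nat.zero_le _))
  have := E2_lip G G' h (f := id) (B := 1) (fun r hr => hr) k
  have := exp_sub_one_le (by positivity) hε
  rw [Md.rb, Md.rb]
  linarith

/-! ### the deposit -/

/-- W variance `u` less, marks `F` more -/
def sh (M : Md) (u : ℝ) (F : ℕ → ℝ) : Md :=
  { M with d := fun k => M.d k - u, H := fun k => M.H k + F k }

/-- deposit of `h r` -/
def dep (M : Md) (r : ℕ → ℝ) (h : ℝ) : Md := sh M h fun k => h * r k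

/-- a legal deposit profile -/
structure Dp (r : ℕ → ℝ) (R : ℝ) : Prop where
  r0 : r 0 = 0
  mono : Monotone r
  le : ∀ k, r k ≤ R

theorem Dp.nn {r : ℕ → ℝ} {R : ℝ} (h : Dp r R) (k : ℕ) : 0 ≤ r k := h.r0 ▸ h.mono (Nat.zero_le k)

theorem sh_sh (M : Md) (u u' : ℝ) (F F' : ℕ → ℝ) :
    sh (sh M u F) u' F' = sh M (u + u') fun k => F k + F' k := by
  simp only [sh, sub_sub, add_assoc]

theorem sh_zero (M : Md) : sh M 0 (fun _ => 0) = M := by simp only [sh, sub_zero, add_zero]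

theorem sh_leg (h : M.Leg x) {u : ℝ} {F : ℕ → ℝ} (hu : u ≤ M.d 0) (h0 : F 0 = 0)
    (hF : Monotone F) : (sh M u F).Leg x :=
  ⟨h.zm, h.z0, h.z1, h.zN, sub_nonneg.2 hu, fun _ _ hk => sub_le_sub_right (h.dm hk) u,
    by simp only [sh, h.H0, h0, add_zero], h.Hm.add hF⟩

theorem sh_lg (G : Lg M m a) {u : ℝ} {F : ℕ → ℝ} (hu : u ≤ M.d 0) (h0 : F 0 = 0)
    (hF : Monotone F) : Lg (sh M u F) m a := ⟨sh_leg G.toLeg hu h0 hF, G.m0, G.a0⟩

theorem dep_lg (G : Lg M m a) {r : ℕ → ℝ} {R h : ℝ} (hr : Dp r R) (h0 : 0 ≤ h) (hu : h ≤ M.d 0) :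
    Lg (dep M r h) m a :=
  sh_lg G hu (by rw [hr.r0, mul_zero]) (hr.mono.const_mul h0)

theorem sh_q (M : Md) (u : ℝ) (F : ℕ → ℝ) : (sh M u F).q = M.q := rfl

theorem sh_G (M : Md) (u : ℝ) (F : ℕ → ℝ) (k : ℕ) :
    (sh M u F).G k = M.G k + (F k - u * M.q k) := by
  simp only [Md.G, sh_q]
  simp only [sh]
  ring

theorem sh_e (M : Md) (u : ℝ) (F : ℕ → ℝ) (t : ℝ) :
    (sh M u F).e t = M.e t + u * Pr.GG M.lr t := by
  simp only [Md.e, Md.b, sh]
  ring

theorem sh_dz (M : Md) (u : ℝ) (F : ℕ → ℝ) (k : ℕ) : (sh M u F).dz m a k = M.dz m a k :=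
  dz_free (M := sh M u F) (M' := M) rfl rfl k

theorem nr_dep (M : Md) {r : ℕ → ℝ} {R h : ℝ} (hr : Dp r R) (h0 : 0 ≤ h) :
    Nr M (dep M r h) h (h * R) :=
  ⟨rfl, rfl, fun k _ => by simp only [dep, sh, sub_sub_cancel_left, abs_neg, abs_of_nonneg h0, le_refl],
    fun k _ => by
      simp only [dep, sh, add_sub_cancel_left]
      rw [abs_of_nonneg (mul_nonneg h0 (hr.nn k))]
      exact mul_le_mul_of_nonneg_left (hr.le k) h0⟩

/-- the Guerra remainder `∑ dz E (R - r)²` -/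
def Rem (M : Md) (m : ℕ) (a : ℝ) (r : ℕ → ℝ) : ℝ :=
  ∑ k ∈ Finset.range (M.N + 1), M.dz m a k * M.E2 m a (fun R => (R - r k) ^ 2) k

/-- the model free part -/
def cR (M : Md) (m : ℕ) (a : ℝ) (r : ℕ → ℝ) : ℝ :=
  r M.N / 2 - 1 / 4 - ∑ k ∈ Finset.range (M.N + 1), M.dz m a k * r k ^ 2 / 4

theorem cR_free (hN : M'.N = M.N) (hz : M'.z = M.z) (r : ℕ → ℝ) : cR M' m a r = cR M m a r := by
  simp only [cR, dz_free hN hz, hN]

theorem Rem_nonneg (G : Lg M m a) (r : ℕ → ℝ) : 0 ≤ Rem M m a r :=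
  Finset.sum_nonneg fun k _ => mul_nonneg (G.dz_nonneg k) (Md67.E2_nonneg (fun _ _ => sq_nonneg _) k)

theorem Rem_cmp (G : Lg M m a) (G' : Lg M' m a) {ε₁ ε₂ : ℝ} (h : Nr M M' ε₁ ε₂) (r : ℕ → ℝ) :
    Rem M' m a r ≤ exp (m * (5 * ε₁ + 10 * ε₂)) * Rem M m a r := by
  rw [Rem, Rem, Finset.mul_sum, h.N]
  refine Finset.sum_le_sum fun k _ => ?_
  rw [dz_free h.N h.z, mul_left_comm]
  exact mul_le_mul_of_nonneg_left (E2_cmp G G' h (fun _ _ => sq_nonneg _) k) (G.dz_nonneg k)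

/-- **(GU)** -/
theorem DV_dep (M : Md) (m : ℕ) (a : ℝ) (r : ℕ → ℝ) :
    DV M m a (fun _ => -1) r = m * (cR M m a r + Rem M m a r / 4) := by
  rw [DV_ref M a _ _ r, cR, Rem, Finset.sum_div]
  congr 1
  have : ∀ k, M.dz m a k * (-1 / 4 * M.E2 m a (fun R => (R - r k) ^ 2) k +
      (-1 * r k + r k) / 2 * (M.rb m a k - r k) + (-1 / 4 * r k ^ 2 + r k / 2 * r k)) =
      M.dz m a k * r k ^ 2 / 4 - M.dz m a k * M.E2 m a (fun R => (R - r k) ^ 2) k / 4 :=
    fun k => by ring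
  simp only [this, Finset.sum_sub_distrib]
  ring

theorem V_dep_der (G : Lg M m a) {r : ℕ → ℝ} {R t : ℝ} (hr : Dp r R) (ht : t ∈ Ioo 0 (M.d 0)) :
    HasDerivAt (fun t => (dep M r t).V m a) (m * (cR M m a r + Rem (dep M r t) m a r / 4)) t := by
  rw [← cR_free (M := M) (M' := dep M r t) rfl rfl, ← DV_dep]
  refine hasDerivWithinAt_univ.1 (V_der G.m0 (M := fun t => dep M r t) (N := M.N) (z := M.z)
    (fun _ => rfl) (fun _ => rfl)
    (fun k _ => ?_) (fun k _ => ?_) hr.r0 (inc_of_leg (dep_lg G hr ht.1.le ht.2.le).toLeg) ?_)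
  · exact ((hasDerivAt_id t).const_sub (M.d k)).hasDerivWithinAt
  · exact (((hasDerivAt_id t).mul_const (r k)).const_add (M.H k)).hasDerivWithinAt.congr_deriv
      (one_mul _)
  · exact eventually_of_mem (nhdsWithin_le_nhds (Ioo_mem_nhds ht.1 ht.2)) fun t' h' =>
      inc_of_leg (dep_lg G hr h'.1.le h'.2.le).toLeg

theorem dep_zero (M : Md) (r : ℕ → ℝ) : dep M r 0 = M := by simp only [dep, zero_mul, sh_zero]

/-- **one Guerra step**, both sides -/
theorem V_dep (G : Lg M m a) {r : ℕ → ℝ} {R h : ℝ} (hr : Dp r R) (h0 : 0 ≤ h) (hu : h ≤ M.d 0) :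
    m * h * cR M m a r ≤ (dep M r h).V m a - M.V m a ∧ (dep M r h).V m a - M.V m a ≤
      m * h * (cR M m a r + exp (m * h * (5 + 10 * R)) * Rem M m a r / 4) := by
  rcases h0.eq_or_lt with rfl | h1
  · simp [dep_zero]
  have hc : ContinuousOn (fun t => (dep M r t).V m a) (Icc 0 h) :=
    V_cont (M := fun t => dep M r t) (N := M.N) (z := M.z) (fun _ => rfl) (fun _ => rfl)
      (fun k _ => (continuous_const.sub continuous_id).continuousOn)
      (fun k _ => (continuous_const.add (continuous_id.mul continuous_const)).continuousOn)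
  obtain ⟨t, ht, e⟩ := exists_hasDerivAt_eq_slope (fun t => (dep M r t).V m a)
    (fun t => m * (cR M m a r + Rem (dep M r t) m a r / 4)) h1 hc
    fun t ht => V_dep_der G hr ⟨ht.1, ht.2.trans_le hu⟩
  rw [dep_zero, sub_zero, eq_div_iff h1.ne'] at e
  have G' := dep_lg G hr ht.1.le (ht.2.le.trans hu)
  have hm : (0 : ℝ) ≤ m := Nat.cast_nonneg m
  have hR := (hr.nn 0).trans (hr.le 0)
  have b1 := Rem_nonneg G' r
  have b2 := (Rem_cmp G G' (nr_dep M hr ht.1.le) r).trans (mul_le_mul_of_nonneg_right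
    (exp_le_exp.2 (show (m : ℝ) * (5 * t + 10 * (t * R)) ≤ m * h * (5 + 10 * R) by
      have := mul_le_mul_of_nonneg_left ht.2.le (show 0 ≤ m * (5 + 10 * R) by positivity)
      linarith)) (Rem_nonneg G r))
  have hmh : 0 ≤ m * h := by positivity
  have b3 := mul_le_mul_of_nonneg_left b2 hmh
  have b4 := mul_nonneg hmh b1
  rw [← e]
  constructor <;> linarith

/-- **double step**: the same deposit on two models with the same levels -/
theorem V_two (G : Lg M m a) (G' : Lg M' m a) (hN : M'.N = M.N) (hz : M'.z = M.z) {r : ℕ → ℝ}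
    {R h : ℝ} (hr : Dp r R) (h0 : 0 ≤ h) (hu : h ≤ M.d 0) (hu' : h ≤ M'.d 0) :
    M'.V m a - M.V m a ≤ (dep M' r h).V m a - (dep M r h).V m a +
      m * h * exp (m * h * (5 + 10 * R)) / 4 * Rem M m a r := by
  have b1 := (V_dep G hr h0 hu).2
  have b2 := (V_dep G' hr h0 hu').1
  rw [cR_free hN hz] at b2
  linarith

/-! ### the Euler path -/

/-- the Euler path of the rule `ρ` (deposit as a function of the current model) -/
def eu (ρ : Md → ℕ → ℝ) (h : ℝ) (M : Md) : ℕ → Md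
  | 0 => M
  | i + 1 => dep (eu ρ h M i) (ρ (eu ρ h M i)) h

/-- accumulated deposit -/
def acc (ρ : Md → ℕ → ℝ) (h : ℝ) (M : Md) (i k : ℕ) : ℝ :=
  ∑ j ∈ Finset.range i, h * ρ (eu ρ h M j) k

/-- the companion of `M'`: the same deposits -/
def co (ρ : Md → ℕ → ℝ) (h : ℝ) (M M' : Md) (i : ℕ) : Md := sh M' (i * h) (acc ρ h M i)

variable {ρ : Md → ℕ → ℝ} {h R : ℝ}

theorem co_zero : co ρ h M M' 0 = M' := by
  rw [co, show acc ρ h M 0 = fun _ => 0 from funext fun _ => Finset.sum_range_zero _]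
  simp only [Nat.cast_zero, zero_mul, sh_zero]

theorem co_succ (i : ℕ) : co ρ h M M' (i + 1) = dep (co ρ h M M' i) (ρ (eu ρ h M i)) h := by
  rw [dep, co, co, sh_sh]
  congr 1
  · push_cast; ring
  · funext k; exact Finset.sum_range_succ _ _

theorem eu_eq : ∀ i, eu ρ h M i = co ρ h M M i
  | 0 => co_zero.symm
  | i + 1 => by rw [co_succ, ← eu_eq i]; rfl

theorem eu_add (i : ℕ) : ∀ j, eu ρ h M (i + j) = eu ρ h (eu ρ h M i) j
  | 0 => rfl
  | j + 1 => by rw [← add_assoc, eu, eu, eu_add i j]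

/-- the rule gives legal deposits on the legal models with the data of `M` -/
def Rl (ρ : Md → ℕ → ℝ) (R : ℝ) (M : Md) (m : ℕ) (a : ℝ) : Prop :=
  ∀ u F, Lg (sh M u F) m a → Dp (ρ (sh M u F)) R

theorem eu_lg (G : Lg M m a) (hρ : Rl ρ R M m a) (h0 : 0 ≤ h) :
    ∀ i : ℕ, i * h ≤ M.d 0 → Lg (eu ρ h M i) m a
  | 0, _ => G
  | i + 1, hi => by
    push_cast at hi
    have G1 := eu_lg G hρ h0 i (by linarith)
    refine dep_lg G1 (R := R) ?_ h0 ?_
    · rw [eu_eq] at G1 ⊢; exact hρ _ _ G1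
    · rw [eu_eq]; simp only [co, sh]; linarith

theorem eu_dp (G : Lg M m a) (hρ : Rl ρ R M m a) (h0 : 0 ≤ h) {i : ℕ} (hi : i * h ≤ M.d 0) :
    Dp (ρ (eu ρ h M i)) R := by
  have G1 := eu_lg G hρ h0 i hi
  rw [eu_eq] at G1 ⊢
  exact hρ _ _ G1

theorem cast_le {i j : ℕ} (h0 : 0 ≤ h) (hij : i ≤ j) : i * h ≤ j * h :=
  mul_le_mul_of_nonneg_right (Nat.cast_le.2 hij) h0

theorem acc_dp (G : Lg M m a) (hρ : Rl ρ R M m a) (h0 : 0 ≤ h) {i : ℕ} (hi : i * h ≤ M.d 0) :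
    Dp (acc ρ h M i) (i * h * R) := by
  have H := fun j (hj : j ∈ Finset.range i) =>
    eu_dp G hρ h0 ((cast_le h0 (Finset.mem_range.1 hj).le).trans hi)
  refine ⟨Finset.sum_eq_zero fun j hj => by rw [(H j hj).r0, mul_zero], fun k k' hk =>
    Finset.sum_le_sum fun j hj => mul_le_mul_of_nonneg_left ((H j hj).mono hk) h0, fun k => ?_⟩
  refine (Finset.sum_le_card_nsmul _ _ (h * R) fun j hj =>
    mul_le_mul_of_nonneg_left ((H j hj).le k) h0).trans_eq ?_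
  rw [Finset.card_range, nsmul_eq_mul, mul_assoc]

theorem co_lg (G : Lg M m a) (G' : Lg M' m a) (hρ : Rl ρ R M m a) (h0 : 0 ≤ h) {i : ℕ}
    (hi : i * h ≤ M.d 0) (hi' : i * h ≤ M'.d 0) : Lg (co ρ h M M' i) m a :=
  sh_lg G' hi' (acc_dp G hρ h0 hi).r0 (acc_dp G hρ h0 hi).mono

/-- **(GU) twice along the Euler path, the square of the companion dropped** -/
theorem V_path (G : Lg M m a) (G' : Lg M' m a) (hN : M'.N = M.N) (hz : M'.z = M.z)
    (hρ : Rl ρ R M m a) (h0 : 0 ≤ h) : ∀ i : ℕ, i * h ≤ M.d 0 → i * h ≤ M'.d 0 →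
    M'.V m a - M.V m a ≤ (co ρ h M M' i).V m a - (eu ρ h M i).V m a +
      m * exp (m * h * (5 + 10 * R)) / 4 *
        ∑ j ∈ Finset.range i, h * Rem (eu ρ h M j) m a (ρ (eu ρ h M j))
  | 0, _, _ => by simp [co_zero, eu]
  | i + 1, hi, hi' => by
    push_cast at hi hi'
    have b1 := V_path G G' hN hz hρ h0 i (by linarith) (by linarith)
    have b2 := V_two (eu_lg G hρ h0 i (by linarith)) (co_lg G G' hρ h0 (i := i) (by linarith)
      (by linarith)) (by rw [eu_eq]; exact hN) (by rw [eu_eq]; exact hz)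
      (eu_dp G hρ h0 (i := i) (by linarith)) h0 (by rw [eu_eq]; simp only [co, sh]; linarith)
      (by simp only [co, sh]; linarith)
    rw [Finset.sum_range_succ, co_succ, eu]
    linarith

/-- one Euler step moves the pair laws little -/
theorem eu_nr (G : Lg M m a) (hρ : Rl ρ R M m a) (h0 : 0 ≤ h) {i : ℕ} (hi : i * h ≤ M.d 0) :
    Nr (eu ρ h M i) (eu ρ h M (i + 1)) h (h * R) := nr_dep _ (eu_dp G hρ h0 hi) h0

theorem eu_rb (G : Lg M m a) (hρ : Rl ρ R M m a) (h0 : 0 ≤ h) (hh : m * h * (5 + 10 * R) ≤ 1)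
    {i : ℕ} (hi : (i + 1 : ℕ) * h ≤ M.d 0) (k : ℕ) :
    |(eu ρ h M (i + 1)).rb m a k - (eu ρ h M i).rb m a k| ≤ 4 * (m * h * (5 + 10 * R)) := by
  have hi' := (cast_le h0 i.le_succ).trans hi
  exact (rb_lip (eu_lg G hρ h0 i hi') (eu_lg G hρ h0 _ hi) (eu_nr G hρ h0 hi') (by linarith)
    k).trans_eq (by ring)

/-! ### the adaptive rule `θ c + (1 - θ) rb` above the node `j` -/

/-- the rule of the soft recursion -/
def rA (θ : ℝ) (c : ℕ → ℝ) (j m : ℕ) (a : ℝ) (M : Md) (k : ℕ) : ℝ :=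
  if k ≤ j then 0 else θ * c k + (1 - θ) * M.rb m a k

variable {θ : ℝ} {c : ℕ → ℝ} {j : ℕ}

theorem rA_lo (M : Md) {k : ℕ} (hk : k ≤ j) : rA θ c j m a M k = 0 := if_pos hk

theorem rA_hi (M : Md) {k : ℕ} (hk : j < k) :
    rA θ c j m a M k = θ * c k + (1 - θ) * M.rb m a k := if_neg (by omega)

/-- a clock above `j` -/
structure Ck (c : ℕ → ℝ) (j : ℕ) (R : ℝ) : Prop where
  nn : 0 ≤ c (j + 1)
  up : ∀ k, j < k → c k ≤ c (k + 1)
  le : ∀ k, j < k → c k ≤ R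
  R1 : 1 ≤ R

/-- **floor of one deposit** -/
theorem rA_inc (hm : 0 < m) (h1 : θ ≤ 1) (M : Md) {k : ℕ} (hk : j < k) :
    θ * (c (k + 1) - c k) ≤ rA θ c j m a M (k + 1) - rA θ c j m a M k := by
  rw [rA_hi M hk, rA_hi M (hk.trans k.lt_succ_self)]
  have := mul_le_mul_of_nonneg_left (Md67.rb_mono (M := M) (a := a) hm k.le_succ) (sub_nonneg.2 h1)
  linarith

theorem rA_dp (hm : 0 < m) (h0 : 0 ≤ θ) (h1 : θ ≤ 1) (hc : Ck c j R) (M : Md) :
    Dp (rA θ c j m a M) R := by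
  refine ⟨rA_lo M (Nat.zero_le j), monotone_nat_of_le_succ fun k => ?_, fun k => ?_⟩
  · rcases lt_trichotomy k j with hk | rfl | hk
    · rw [rA_lo M hk.le, rA_lo M hk]
    · rw [rA_lo M le_rfl, rA_hi M k.lt_succ_self]
      exact add_nonneg (mul_nonneg h0 hc.nn) (mul_nonneg (sub_nonneg.2 h1) (Md67.rb_nonneg hm _))
    · have := rA_inc (c := c) (a := a) hm h1 M hk
      have := mul_nonneg h0 (sub_nonneg.2 (hc.up k hk))
      linarith
  · rcases le_or_gt k j with hk | hk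
    · rw [rA_lo M hk]; linarith [hc.R1]
    · rw [rA_hi M hk]
      have := mul_le_mul_of_nonneg_left (hc.le k hk) h0
      have := mul_le_mul_of_nonneg_left ((Md67.rb_le_one (M := M) (a := a) hm k).trans hc.R1)
        (sub_nonneg.2 h1)
      linarith

theorem rA_rl (hm : 0 < m) (h0 : 0 ≤ θ) (h1 : θ ≤ 1) (hc : Ck c j R) (M : Md) :
    Rl (rA θ c j m a) R M m a := fun _ _ _ => rA_dp hm h0 h1 hc _

/-- **floor of the accumulated deposit** -/
theorem acc_inc (hm : 0 < m) (h1 : θ ≤ 1) (h0 : 0 ≤ h) (M : Md) (i : ℕ) {k : ℕ} (hk : j < k) :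
    θ * (i * h) * (c (k + 1) - c k) ≤
      acc (rA θ c j m a) h M i (k + 1) - acc (rA θ c j m a) h M i k := by
  rw [acc, acc, ← Finset.sum_sub_distrib]
  refine le_trans (le_of_eq ?_) (Finset.card_nsmul_le_sum _ _ (h * (θ * (c (k + 1) - c k)))
    fun l _ => ?_)
  · rw [Finset.card_range, nsmul_eq_mul]; ring
  · rw [← mul_sub]; exact mul_le_mul_of_nonneg_left (rA_inc hm h1 _ hk) h0

theorem acc_lo (M : Md) (i : ℕ) {k : ℕ} (hk : k ≤ j) : acc (rA θ c j m a) h M i k = 0 :=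
  Finset.sum_eq_zero fun _ _ => by rw [rA_lo _ hk, mul_zero]

/-- the residual of the accumulated deposit -/
theorem acc_res (M : Md) (i : ℕ) {k : ℕ} (hk : j < k) :
    acc (rA θ c j m a) h M i k - i * h * c k = (1 - θ) * ∑ l ∈ Finset.range i,
      h * ((eu (rA θ c j m a) h M l).rb m a k - c k) := by
  rw [acc, Finset.mul_sum, show (i : ℝ) * h * c k = ∑ _l ∈ Finset.range i, h * c k by
    rw [Finset.sum_const, Finset.card_range, nsmul_eq_mul, mul_assoc], ← Finset.sum_sub_distrib]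
  exact Finset.sum_congr rfl fun l _ => by rw [rA_hi _ hk]; ring

/-- `∑_{k ∈ S} ω k (rb k - c k)²` -/
def Ph (M : Md) (m : ℕ) (a : ℝ) (c ω : ℕ → ℝ) (S : Finset ℕ) : ℝ :=
  ∑ k ∈ S, ω k * (M.rb m a k - c k) ^ 2

/-- **`L²` bound of the residual**, any weights -/
theorem acc_sq (h0 : 0 ≤ θ) (h1 : θ ≤ 1) (M : Md) (i : ℕ) {S : Finset ℕ} (hS : ∀ k ∈ S, j < k)
    {ω : ℕ → ℝ} (hω : ∀ k ∈ S, 0 ≤ ω k) {φ : ℝ}
    (hφ : ∀ l < i, Ph (eu (rA θ c j m a) h M l) m a c ω S ≤ φ) :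
    ∑ k ∈ S, ω k * (acc (rA θ c j m a) h M i k - i * h * c k) ^ 2 ≤ (i * h) ^ 2 * φ := by
  have e : ∀ k ∈ S, ω k * (acc (rA θ c j m a) h M i k - i * h * c k) ^ 2 ≤ ∑ l ∈ Finset.range i,
      i * h ^ 2 * (ω k * ((eu (rA θ c j m a) h M l).rb m a k - c k) ^ 2) := fun k hk => by
    rw [acc_res M i (hS k hk), mul_pow]
    have b1 := sq_sum_le_card_mul_sum_sq (s := Finset.range i)
      (f := fun l => h * ((eu (rA θ c j m a) h M l).rb m a k - c k))
    have b2 : (1 - θ) ^ 2 ≤ 1 := pow_le_one₀ (by linarith) (by linarith)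
    refine (mul_le_mul_of_nonneg_left ((mul_le_of_le_one_left (sq_nonneg _) b2).trans b1)
      (hω k hk)).trans_eq ?_
    rw [Finset.card_range, Finset.mul_sum, Finset.mul_sum]
    exact Finset.sum_congr rfl fun l _ => by ring
  refine (Finset.sum_le_sum e).trans ?_
  rw [Finset.sum_comm]
  refine (Finset.sum_le_card_nsmul _ _ (i * h ^ 2 * φ) fun l hl => ?_).trans_eq ?_
  · rw [← Finset.mul_sum]
    exact mul_le_mul_of_nonneg_left (hφ l (Finset.mem_range.1 hl)) (by positivity)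
  · rw [Finset.card_range, nsmul_eq_mul]; ring

/-- `L¹` bound of the residual, any weights -/
theorem acc_abs (h0 : 0 ≤ θ) (h1 : θ ≤ 1) (hh : 0 ≤ h) (M : Md) (i : ℕ) {S : Finset ℕ}
    (hS : ∀ k ∈ S, j < k) {ω : ℕ → ℝ} (hω : ∀ k ∈ S, 0 ≤ ω k) {φ : ℝ}
    (hφ : ∀ l < i, ∑ k ∈ S, ω k * |(eu (rA θ c j m a) h M l).rb m a k - c k| ≤ φ) :
    ∑ k ∈ S, ω k * |acc (rA θ c j m a) h M i k - i * h * c k| ≤ i * h * φ := by
  have e : ∀ k ∈ S, ω k * |acc (rA θ c j m a) h M i k - i * h * c k| ≤ ∑ l ∈ Finset.range i,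
      h * (ω k * |(eu (rA θ c j m a) h M l).rb m a k - c k|) := fun k hk => by
    rw [acc_res M i (hS k hk), abs_mul, abs_of_nonneg (sub_nonneg.2 h1)]
    refine (mul_le_mul_of_nonneg_left ((mul_le_of_le_one_left (abs_nonneg _) (by linarith)).trans
      (Finset.abs_sum_le_sum_abs _ _)) (hω k hk)).trans_eq ?_
    rw [Finset.mul_sum]
    exact Finset.sum_congr rfl fun l _ => by rw [abs_mul, abs_of_nonneg hh]; ring
  refine (Finset.sum_le_sum e).trans ?_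
  rw [Finset.sum_comm]
  refine (Finset.sum_le_card_nsmul _ _ (h * φ) fun l hl => ?_).trans_eq ?_
  · rw [← Finset.mul_sum]
    exact mul_le_mul_of_nonneg_left (hφ l (Finset.mem_range.1 hl)) hh
  · rw [Finset.card_range, nsmul_eq_mul]; ring

/-- fluctuation part of the remainder: `E R²` up to the node `j`, `E (R - rb)²` above -/
def Fl (M : Md) (m : ℕ) (a : ℝ) (j : ℕ) : ℝ :=
  ∑ k ∈ Finset.range (j + 1), M.dz m a k * M.E2 m a (fun R => R ^ 2) k +
    ∑ k ∈ Finset.Ioc j M.N, M.dz m a k * M.E2 m a (fun R => (R - M.rb m a k) ^ 2) k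

/-- **the remainder of the adaptive rule** -/
theorem Rem_rA (hj : j ≤ M.N) : Rem M m a (rA θ c j m a M) =
    Fl M m a j + θ ^ 2 * Ph M m a c (M.dz m a) (Finset.Ioc j M.N) := by
  rw [Rem, Fl, Ph, Finset.range_eq_Ico, ← Finset.sum_Ico_consecutive _ (Nat.zero_le (j + 1))
    (Nat.add_le_add_right hj 1), ← Finset.range_eq_Ico, add_assoc, Finset.mul_sum,
    ← Finset.sum_add_distrib, Finset.Ico_add_one_add_one_eq_Ioc]
  congr 1
  · exact Finset.sum_congr rfl fun k hk => by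
      rw [rA_lo M (Nat.lt_succ_iff.1 (Finset.mem_range.1 hk))]; simp only [sub_zero]
  · exact Finset.sum_congr rfl fun k hk => by
      rw [rA_hi M (Finset.mem_Ioc.1 hk).1, Md67.E2_sq_expand, Md67.E2_sq_expand]; ring

/-- **S3 in one line** (adaptive rule, `i` steps of size `h`, `F` a bound of the remainders) -/
theorem step (G : Lg M m a) (G' : Lg M' m a) (hN : M'.N = M.N) (hz : M'.z = M.z) (h0 : 0 ≤ θ)
    (h1 : θ ≤ 1) (hc : Ck c j R) (hj : j ≤ M.N) (hh : 0 ≤ h) (hs : m * h * (5 + 10 * R) ≤ 1)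
    {i : ℕ} (hi : i * h ≤ M.d 0) (hi' : i * h ≤ M'.d 0) :
    M'.V m a - M.V m a ≤
      (co (rA θ c j m a) h M M' i).V m a - (eu (rA θ c j m a) h M i).V m a +
      m * ∑ l ∈ Finset.range i, h * (Fl (eu (rA θ c j m a) h M l) m a j +
        θ ^ 2 * Ph (eu (rA θ c j m a) h M l) m a c (M.dz m a) (Finset.Ioc j M.N)) := by
  have hρ := rA_rl (a := a) G.m0 h0 h1 hc M
  refine (V_path G G' hN hz hρ hh i hi hi').trans (add_le_add_right ?_ _)
  have e : ∀ l, Rem (eu (rA θ c j m a) h M l) m a (rA θ c j m a (eu (rA θ c j m a) h M l)) =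
      Fl (eu (rA θ c j m a) h M l) m a j +
        θ ^ 2 * Ph (eu (rA θ c j m a) h M l) m a c (M.dz m a) (Finset.Ioc j M.N) := fun l => by
    have e1 : (eu (rA θ c j m a) h M l).N = M.N := by rw [eu_eq]; rfl
    have e2 : (eu (rA θ c j m a) h M l).dz m a = M.dz m a := by
      rw [eu_eq]; funext k; exact sh_dz _ _ _ k
    rw [Rem_rA (e1 ▸ hj), e1, e2]
  rw [← Finset.sum_congr rfl fun l _ => congrArg (h * ·) (e l)]
  refine mul_le_mul_of_nonneg_right ?_ (Finset.sum_nonneg fun l hl => mul_nonneg hh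
    (Rem_nonneg (eu_lg G hρ hh l ((cast_le hh (Finset.mem_range.1 hl).le).trans hi)) _))
  have := (exp_le_exp.2 hs).trans exp_one_lt_three.le
  have hm : (0 : ℝ) ≤ m := Nat.cast_nonneg m
  nlinarith

end Crest.Agent.T156.Alt.Gu71

end
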