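import Crest.Agent.T156.Har_90
import Crest.Agent.T156.CasDef_88

/-!
# Row 156 (helper90): Harris' inequality with two cones, and `Cas.HarrisStmt`

`f` increases along `K`, `g` along `K'`, and the dual cones of `K` and `K'` make an acute angle.
-/

set_option autoImplicit false

open MeasureTheory ProbabilityTheory Real Set Filter Topology

noncomputable section

namespace Crest.Agent.T156.Har

open Crest.Agent.R238.Gap Crest.Agent.R253.Meh74

variable {n : ℕ}

lemma fderiv_nonneg2 {K : Set (E n)} (hK : ∀ k ∈ K, ∀ t : ℝ, 0 < t → t • k ∈ K) {f : E n → ℝ}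
    (hd : Differentiable ℝ f) (hf : Mon K f) (x : E n) {k : E n} (hk : k ∈ K) :
    0 ≤ fderiv ℝ f x k := by
  have h1 : HasDerivAt (fun t : ℝ => x + t • k) k 0 := by
    simpa using ((hasDerivAt_id (0 : ℝ)).smul_const k).const_add x
  have h2 : HasDerivAt (fun t : ℝ => f (x + t • k)) (fderiv ℝ f x k) 0 := by
    have h3 : HasFDerivAt f (fderiv ℝ f x) (x + (0 : ℝ) • k) := by
      simpa using (hd x).hasFDerivAt
    exact h3.comp_hasDerivAt (0 : ℝ) h1
  refine ge_of_tendsto h2.tendsto_slope_zero_right ?_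
  filter_upwards [self_mem_nhdsWithin] with t ht
  have ht' : (0 : ℝ) < t := ht
  have := hf x _ (hK k hk t ht')
  simp only [zero_add, zero_smul, add_zero, smul_eq_mul]
  exact mul_nonneg (inv_nonneg.2 ht'.le) (sub_nonneg.2 this)

/-- two cones, bounded functions -/
theorem harris2_bdd {K K' : Set (E n)} (hK : ∀ k ∈ K, ∀ t : ℝ, 0 < t → t • k ∈ K)
    (hK' : ∀ k ∈ K', ∀ t : ℝ, 0 < t → t • k ∈ K')
    (hd : ∀ u v : E n, (∀ k ∈ K, 0 ≤ inner ℝ u k) → (∀ k ∈ K', 0 ≤ inner ℝ v k) →
      0 ≤ inner ℝ u v) {f g : E n → ℝ} {M : ℝ} (hf : Measurable f)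
    (hg : Measurable g) (bf : ∀ x, |f x| ≤ M) (bg : ∀ x, |g x| ≤ M) (mf : Mon K f)
    (mg : Mon K' g) : (∫ x, f x ∂gam n) * (∫ x, g x ∂gam n) ≤ ∫ x, f x * g x ∂gam n := by
  have hM : 0 ≤ M := (abs_nonneg _).trans (bf 0)
  have t1 := tendsto_integral_of_dominated_convergence (μ := gam n) (F := fun j => sm j f)
    (f := f) (fun _ => M) (fun j => (sm_c1 hf bf j).cont.aestronglyMeasurable)
    (integrable_const M) (fun j => .of_forall fun x => sm_bd bf j x) (sm_tendsto hf bf)
  have t2 := tendsto_integral_of_dominated_convergence (μ := gam n) (F := fun j => sm j g)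
    (f := g) (fun _ => M) (fun j => (sm_c1 hg bg j).cont.aestronglyMeasurable)
    (integrable_const M) (fun j => .of_forall fun x => sm_bd bg j x) (sm_tendsto hg bg)
  have t3 := tendsto_integral_of_dominated_convergence (μ := gam n)
    (F := fun j x => sm j f x * sm j g x) (f := fun x => f x * g x) (fun _ => M * M)
    (fun j => ((sm_c1 hf bf j).cont.mul (sm_c1 hg bg j).cont).aestronglyMeasurable)
    (integrable_const _) (fun j => .of_forall fun x => by
      rw [Real.norm_eq_abs, abs_mul]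
      exact mul_le_mul (sm_bd bf j x) (sm_bd bg j x) (abs_nonneg _) hM)
    (by filter_upwards [sm_tendsto hf bf, sm_tendsto hg bg] with x h1 h2 using h1.mul h2)
  refine le_of_tendsto_of_tendsto' (t1.mul t2) t3 fun j => ?_
  have c1 := sm_c1 hf bf j
  have c2 := sm_c1 hg bg j
  rw [← sub_nonneg, cov_eq c1 c2]
  refine intervalIntegral.integral_nonneg (by positivity) fun a ha => ?_
  refine mul_nonneg (Real.sin_nonneg_of_nonneg_of_le_pi ha.1
    (ha.2.trans (by linarith [Real.pi_pos]))) (integral_nonneg fun p => ?_)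
  change 0 ≤ ∑ i, pd i (sm j f) p.1 * pd i (sm j g) (Y a p.1 p.2)
  rw [← inner_gr_gr]
  refine hd _ _ (fun k hk => ?_) fun k hk => ?_
  · rw [inner_gr]; exact fderiv_nonneg2 hK c1.diff (sm_mon hf bf mf j) _ hk
  · rw [inner_gr]; exact fderiv_nonneg2 hK' c2.diff (sm_mon hg bg mg j) _ hk

/-- **Harris' inequality with two cones**, product of standard Gaussians -/
theorem harris2_pi {ι : Type*} [Fintype ι] {K K' : Set (ι → ℝ)}
    (hs : ∀ k ∈ K, ∀ t : ℝ, 0 < t → t • k ∈ K) (hs' : ∀ k ∈ K', ∀ t : ℝ, 0 < t → t • k ∈ K')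
    (hd : ∀ u v : ι → ℝ, (∀ k ∈ K, 0 ≤ ∑ i, u i * k i) → (∀ k ∈ K', 0 ≤ ∑ i, v i * k i) →
      0 ≤ ∑ i, u i * v i)
    {f g : (ι → ℝ) → ℝ} (hf : Measurable f) (hg : Measurable g)
    (i1 : Integrable f (Measure.pi fun _ => gaussianReal 0 1))
    (i2 : Integrable g (Measure.pi fun _ => gaussianReal 0 1))
    (i3 : Integrable (fun x => f x * g x) (Measure.pi fun _ => gaussianReal 0 1))
    (mf : Mon K f) (mg : Mon K' g) :
    (∫ x, f x ∂Measure.pi fun _ => gaussianReal 0 1) *
        (∫ x, g x ∂Measure.pi fun _ => gaussianReal 0 1) ≤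
      ∫ x, f x * g x ∂Measure.pi fun _ => gaussianReal 0 1 := by
  classical
  set μ : Measure (ι → ℝ) := Measure.pi fun _ => gaussianReal 0 1 with hμ
  -- bounded functions
  have key : ∀ (f g : (ι → ℝ) → ℝ) (M : ℝ), Measurable f → Measurable g → (∀ x, |f x| ≤ M) →
      (∀ x, |g x| ≤ M) → Mon K f → Mon K' g →
      (∫ x, f x ∂μ) * (∫ x, g x ∂μ) ≤ ∫ x, f x * g x ∂μ := by
    intro f g M hf hg bf bg mf mg
    set T : E (Fintype.card ι) ≃ₗᵢ[ℝ] EuclideanSpace ℝ ι :=
      LinearIsometryEquiv.piLpCongrLeft 2 ℝ ℝ (Fintype.equivFin ι).symm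
    have hS : Measurable fun x : E (Fintype.card ι) => (T x).ofLp :=
      (PiLp.continuous_ofLp 2 _).measurable.comp T.continuous.measurable
    have hm : (gam (Fintype.card ι)).map (fun x => (T x).ofLp) = μ := by
      have h1 : Measurable (WithLp.ofLp : EuclideanSpace ℝ ι → (ι → ℝ)) := by fun_prop
      have h2 : Measurable (WithLp.toLp 2 : (ι → ℝ) → EuclideanSpace ℝ ι) := by fun_prop
      change (gam _).map (WithLp.ofLp ∘ T) = μ
      rw [← Measure.map_map h1 T.continuous.measurable, gam, stdGaussian_map T,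
        ← map_pi_eq_stdGaussian, Measure.map_map h1 h2]
      exact Measure.map_id
    have ip : ∀ (u : E (Fintype.card ι)) (k : ι → ℝ),
        inner ℝ u (T.symm (WithLp.toLp 2 k)) = ∑ i, (T u).ofLp i * k i := fun u k => by
      rw [← T.inner_map_map, T.apply_symm_apply]
      simp [PiLp.inner_apply, mul_comm]
    rw [← hm, integral_map hS.aemeasurable hf.aestronglyMeasurable,
      integral_map hS.aemeasurable hg.aestronglyMeasurable,
      integral_map (f := fun x => f x * g x) hS.aemeasurable (hf.mul hg).aestronglyMeasurable]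
    refine harris2_bdd (K := {x | (T x).ofLp ∈ K}) (K' := {x | (T x).ofLp ∈ K'})
      (fun k hk t ht => ?_) (fun k hk t ht => ?_) (fun u v hu hv => ?_) (M := M)
      (f := fun x => f (T x).ofLp) (g := fun x => g (T x).ofLp) (hf.comp hS) (hg.comp hS)
      (fun x => bf _) (fun x => bg _) (fun x k hk => ?_) fun x k hk => ?_
    · simpa using hs _ hk t ht
    · simpa using hs' _ hk t ht
    · have := hd (T u).ofLp (T v).ofLp
        (fun k hk => by rw [← ip]; exact hu _ (by simpa using hk))
        (fun k hk => by rw [← ip]; exact hv _ (by simpa using hk))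
      rw [← ip] at this
      simpa using this
    · simpa using mf (T x).ofLp _ hk
    · simpa using mg (T x).ofLp _ hk
  have t1 := tendsto_integral_of_dominated_convergence (μ := μ) (F := fun j x => cl j (f x))
    (f := f) (fun x => ‖f x‖) (fun j => ((cl_meas j).comp hf).aestronglyMeasurable)
    i1.norm (fun j => .of_forall fun x => cl_abs j _) (.of_forall fun x => cl_tendsto _)
  have t2 := tendsto_integral_of_dominated_convergence (μ := μ) (F := fun j x => cl j (g x))
    (f := g) (fun x => ‖g x‖) (fun j => ((cl_meas j).comp hg).aestronglyMeasurable)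
    i2.norm (fun j => .of_forall fun x => cl_abs j _) (.of_forall fun x => cl_tendsto _)
  have t3 := tendsto_integral_of_dominated_convergence (μ := μ)
    (F := fun j x => cl j (f x) * cl j (g x)) (f := fun x => f x * g x) (fun x => ‖f x * g x‖)
    (fun j => (((cl_meas j).comp hf).mul ((cl_meas j).comp hg)).aestronglyMeasurable)
    i3.norm (fun j => .of_forall fun x => by
      rw [Real.norm_eq_abs, Real.norm_eq_abs, abs_mul, abs_mul]
      exact mul_le_mul (cl_abs j _) (cl_abs j _) (abs_nonneg _) (abs_nonneg _))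
    (.of_forall fun x => (cl_tendsto _).mul (cl_tendsto _))
  exact le_of_tendsto_of_tendsto' (t1.mul t2) t3 fun j =>
    key _ _ j ((cl_meas j).comp hf) ((cl_meas j).comp hg) (fun x => cl_bd j _) (fun x => cl_bd j _)
      (fun x k hk => cl_mono j (mf x k hk)) fun x k hk => cl_mono j (mg x k hk)

open Crest.Agent.T157.Casc in
lemma eg_int {ι : Type} [Fintype ι] {f : (ι → ℝ) → ℝ} (h : Eg f) :
    Integrable f (Measure.pi fun _ => gaussianReal 0 1) := by
  classical
  obtain ⟨C, c, -, -, h3⟩ := h.bd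
  exact ((Crest.Agent.T157.SL.int_exp c).const_mul C).mono' h.cont.aestronglyMeasurable
    (.of_forall h3)

open Crest.Agent.T157.Casc in
lemma gr_mon {ι : Type} [Fintype ι] {f : (ι → ℝ) → ℝ} {f₁ : ι → (ι → ℝ) → ℝ} (h : Gr f f₁) :
    Mon {k | ∀ g, 0 ≤ ∑ i, f₁ i g * k i} f := fun x k hk => by
  have hd : ∀ t : ℝ, HasDerivAt (fun t : ℝ => f (x + t • k)) (∑ i, f₁ i (x + t • k) * k i) t :=
    fun t => by
      have h1 : HasDerivAt (fun t : ℝ => x + t • k) k t := by
        simpa using ((hasDerivAt_id t).smul_const k).const_add x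
      exact ((h.fd (x + t • k)).comp_hasDerivAt t h1).congr_deriv (by simp)
  have hm : Monotone fun t : ℝ => f (x + t • k) :=
    monotone_of_deriv_nonneg (fun t => (hd t).differentiableAt) fun t => by
      rw [(hd t).deriv]; exact hk _
  simpa using hm (zero_le_one (α := ℝ))

/-- **`Cas.HarrisStmt`** -/
theorem harrisStmt_90 : Crest.Agent.T156.Cas.HarrisStmt := by
  intro ι _ f f' f₁ f₁' h h' hp
  have sc : ∀ (F : ι → (ι → ℝ) → ℝ), ∀ k ∈ {k : ι → ℝ | ∀ g, 0 ≤ ∑ i, F i g * k i}, ∀ t : ℝ,
      0 < t → t • k ∈ {k : ι → ℝ | ∀ g, 0 ≤ ∑ i, F i g * k i} := fun F k hk t ht g => by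
    have : ∑ i, F i g * (t • k) i = t * ∑ i, F i g * k i := by
      rw [Finset.mul_sum]; exact Finset.sum_congr rfl fun i _ => by simp; ring
    rw [this]; exact mul_nonneg ht.le (hk g)
  refine harris2_pi (sc f₁) (sc f₁') (fun u v hu hv => ?_) h.eg.cont.measurable
    h'.eg.cont.measurable (eg_int h.eg) (eg_int h'.eg) (eg_int (h.eg.mul h'.eg)) (gr_mon h)
    (gr_mon h')
  have h1 := hv u fun g' => by
    simpa only [mul_comm] using hu (fun i => f₁' i g') fun g => hp g g'
  simpa only [mul_comm] using h1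

end Crest.Agent.T156.Har
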