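import Crest.Agent.R253.Meh_74

/-!
# Row 156 (helper90): Harris' inequality for functions monotone along a cone

`E` Euclidean with the standard Gaussian, `K` stable under positive scaling with an acute dual
cone (the orthant; the cone of positive semidefinite matrices).  Two measurable functions that
increase along `K` are positively correlated.
-/

set_option autoImplicit false

open MeasureTheory ProbabilityTheory Real Set Filter Topology
open scoped ContDiff Convolution

noncomputable section

namespace Crest.Agent.T156.Har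

open Crest.Agent.R238.Gap Crest.Agent.R253.Meh74

/-- `f` increases along `K` -/
def Mon {V : Type*} [Add V] (K : Set V) (f : V → ℝ) : Prop := ∀ x, ∀ k ∈ K, f x ≤ f (x + k)

/-- `K` is stable under positive scaling and its dual cone is acute -/
structure Acute {V : Type*} [NormedAddCommGroup V] [InnerProductSpace ℝ V] (K : Set V) :
    Prop where
  smul : ∀ k ∈ K, ∀ t : ℝ, 0 < t → t • k ∈ K
  dual : ∀ u v : V, (∀ k ∈ K, 0 ≤ inner ℝ u k) → (∀ k ∈ K, 0 ≤ inner ℝ v k) → 0 ≤ inner ℝ u v

variable {n : ℕ}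

lemma fderiv_nonneg {K : Set (E n)} (hK : Acute K) {f : E n → ℝ} (hd : Differentiable ℝ f)
    (hf : Mon K f) (x : E n) {k : E n} (hk : k ∈ K) : 0 ≤ fderiv ℝ f x k := by
  have h1 : HasDerivAt (fun t : ℝ => x + t • k) k 0 := by
    simpa using ((hasDerivAt_id (0 : ℝ)).smul_const k).const_add x
  have h2 : HasDerivAt (fun t : ℝ => f (x + t • k)) (fderiv ℝ f x k) 0 := by
    have h3 : HasFDerivAt f (fderiv ℝ f x) (x + (0 : ℝ) • k) := by
      simpa using (hd x).hasFDerivAt
    exact h3.comp_hasDerivAt (0 : ℝ) h1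
  refine ge_of_tendsto h2.tendsto_slope_zero_right ?_
  filter_upwards [self_mem_nhdsWithin] with t ht
  have ht' : (0 : ℝ) < t := ht
  have := hf x _ (hK.smul k hk t ht')
  simp only [zero_add, zero_smul, add_zero, smul_eq_mul]
  exact mul_nonneg (inv_nonneg.2 ht'.le) (sub_nonneg.2 this)

/-- the gradient -/
def gr (f : E n → ℝ) (x : E n) : E n := WithLp.toLp 2 fun i => pd i f x

lemma inner_gr (f : E n → ℝ) (x k : E n) : inner ℝ (gr f x) k = fderiv ℝ f x k := by
  have hk : k = ∑ i, k i • e i := by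
    ext j; simp [e, Finset.sum_apply, Pi.single_apply]
  conv_rhs => rw [hk]
  simp [gr, PiLp.inner_apply, pd]

lemma inner_gr_gr (f g : E n → ℝ) (x y : E n) :
    inner ℝ (gr f x) (gr g y) = ∑ i, pd i f x * pd i g y := by
  simp [gr, PiLp.inner_apply, mul_comm]

/-- smooth case -/
theorem harris_c1 {K : Set (E n)} (hK : Acute K) {f g : E n → ℝ} (hf : C1 f) (hg : C1 g)
    (mf : Mon K f) (mg : Mon K g) :
    (∫ x, f x ∂gam n) * (∫ x, g x ∂gam n) ≤ ∫ x, f x * g x ∂gam n := by
  rw [← sub_nonneg, cov_eq hf hg]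
  refine intervalIntegral.integral_nonneg (by positivity) fun a ha => ?_
  refine mul_nonneg (Real.sin_nonneg_of_nonneg_of_le_pi ha.1
    (ha.2.trans (by linarith [Real.pi_pos]))) (integral_nonneg fun p => ?_)
  change 0 ≤ ∑ i, pd i f p.1 * pd i g (Y a p.1 p.2)
  rw [← inner_gr_gr]
  refine hK.dual _ _ (fun k hk => ?_) fun k hk => ?_
  · rw [inner_gr]; exact fderiv_nonneg hK hf.diff mf _ hk
  · rw [inner_gr]; exact fderiv_nonneg hK hg.diff mg _ hk

/-! ### smoothing -/

/-- the bumps -/
def bump (n j : ℕ) : ContDiffBump (0 : E n) :=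
  ⟨1 / ((j : ℝ) + 1), 2 * (1 / ((j : ℝ) + 1)), by positivity, by
    have : (0 : ℝ) < 1 / ((j : ℝ) + 1) := by positivity
    linarith⟩

/-- the smoothed function -/
def sm (j : ℕ) (f : E n → ℝ) : E n → ℝ :=
  (bump n j).normed volume ⋆[ContinuousLinearMap.lsmul ℝ ℝ, volume] f

lemma locInt {f : E n → ℝ} {M : ℝ} (hm : Measurable f) (hb : ∀ x, |f x| ≤ M) :
    LocallyIntegrable f volume := by
  intro x
  refine ⟨Metric.ball x 1, Metric.ball_mem_nhds x one_pos, ?_⟩
  exact Measure.integrableOn_of_bounded (M := M) measure_ball_lt_top.ne hm.aestronglyMeasurable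
    (.of_forall fun y => hb y)

lemma int_sm {f : E n → ℝ} {M : ℝ} (hm : Measurable f) (hb : ∀ x, |f x| ≤ M) (j : ℕ) (x : E n) :
    Integrable (fun t => (bump n j).normed volume t * f (x - t)) volume :=
  ((bump n j).hasCompactSupport_normed.convolutionExists_left (ContinuousLinearMap.lsmul ℝ ℝ)
    (bump n j).continuous_normed (locInt hm hb) x).integrable

lemma sm_eq (j : ℕ) (f : E n → ℝ) (x : E n) :
    sm j f x = ∫ t, (bump n j).normed volume t * f (x - t) := rfl

lemma sm_bd {f : E n → ℝ} {M : ℝ} (hb : ∀ x, |f x| ≤ M) (j : ℕ) (x : E n) : |sm j f x| ≤ M := by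
  have h := norm_integral_le_of_norm_le (μ := volume)
    (f := fun t => (bump n j).normed volume t * f (x - t))
    (g := fun t => (bump n j).normed volume t * M) ((bump n j).integrable_normed.mul_const M)
    (.of_forall fun t => by
      rw [Real.norm_eq_abs, abs_mul, abs_of_nonneg ((bump n j).nonneg_normed t)]
      exact mul_le_mul_of_nonneg_left (hb _) ((bump n j).nonneg_normed t))
  rw [integral_mul_const, (bump n j).integral_normed, one_mul] at h
  exact h

lemma sm_mon {K : Set (E n)} {f : E n → ℝ} {M : ℝ} (hm : Measurable f) (hb : ∀ x, |f x| ≤ M)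
    (mf : Mon K f) (j : ℕ) : Mon K (sm j f) := fun x k hk => by
  rw [sm_eq, sm_eq]
  refine integral_mono (int_sm hm hb j x) (int_sm hm hb j _) fun t => ?_
  refine mul_le_mul_of_nonneg_left ?_ ((bump n j).nonneg_normed t)
  have := mf (x - t) k hk
  rwa [show x - t + k = x + k - t by abel] at this

lemma sm_c1 {f : E n → ℝ} {M : ℝ} (hm : Measurable f) (hb : ∀ x, |f x| ≤ M) (j : ℕ) :
    C1 (sm j f) := by
  have hc := (bump n j).hasCompactSupport_normed (μ := volume)
  have h1 : ContDiff ℝ 1 ((bump n j).normed volume) := (bump n j).contDiff_normed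
  have hM : 0 ≤ M := (abs_nonneg _).trans (hb 0)
  refine ⟨hc.contDiff_convolution_left _ h1 (locInt hm hb), ⟨M, 0, fun x => by
    simpa using sm_bd hb j x⟩, fun i => ?_⟩
  have hD : Integrable (fun t => ‖fderiv ℝ ((bump n j).normed volume) t‖) volume :=
    ((h1.continuous_fderiv one_ne_zero).integrable_of_hasCompactSupport (hc.fderiv ℝ)).norm
  refine ⟨∫ t, ‖fderiv ℝ ((bump n j).normed volume) t‖ * M, 0, fun x => ?_⟩
  have h2 := (hc.hasFDerivAt_convolution_left (ContinuousLinearMap.lsmul ℝ ℝ) h1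
    (locInt hm hb) x).fderiv
  have h3 : ‖fderiv ℝ (sm j f) x‖ ≤ ∫ t, ‖fderiv ℝ ((bump n j).normed volume) t‖ * M := by
    unfold sm
    rw [h2, convolution_def]
    refine norm_integral_le_of_norm_le (hD.mul_const M) (.of_forall fun t => ?_)
    refine ContinuousLinearMap.opNorm_le_bound _ (by positivity) fun v => ?_
    change ‖(fderiv ℝ ((bump n j).normed volume) t v) • f (x - t)‖ ≤ _
    rw [norm_smul, mul_right_comm]
    exact mul_le_mul (ContinuousLinearMap.le_opNorm _ _) (hb _) (norm_nonneg _) (by positivity)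
  have h4 : |pd i (sm j f) x| ≤ ‖fderiv ℝ (sm j f) x‖ * ‖e i‖ :=
    (fderiv ℝ (sm j f) x).le_opNorm (e i)
  simp only [e, PiLp.norm_single, norm_one, mul_one] at h4
  simpa using h4.trans h3

lemma gam_ac : gam n ≪ volume := by
  rw [gam, Crest.Agent.R285.stdGaussian_eq_withDensity]
  exact withDensity_absolutelyContinuous _ _

lemma sm_tendsto {f : E n → ℝ} {M : ℝ} (hm : Measurable f) (hb : ∀ x, |f x| ≤ M) :
    ∀ᵐ x ∂gam n, Tendsto (fun j => sm j f x) atTop (𝓝 (f x)) := by
  refine gam_ac.ae_le (ContDiffBump.ae_convolution_tendsto_right_of_locallyIntegrable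
    (φ := bump n) (K := 2) ?_ (.of_forall fun j => le_rfl) (locInt hm hb))
  have := (tendsto_one_div_add_atTop_nhds_zero_nat (𝕜 := ℝ)).const_mul 2
  simpa [bump] using this

/-- bounded case -/
theorem harris_bdd {K : Set (E n)} (hK : Acute K) {f g : E n → ℝ} {M : ℝ} (hf : Measurable f)
    (hg : Measurable g) (bf : ∀ x, |f x| ≤ M) (bg : ∀ x, |g x| ≤ M) (mf : Mon K f)
    (mg : Mon K g) : (∫ x, f x ∂gam n) * (∫ x, g x ∂gam n) ≤ ∫ x, f x * g x ∂gam n := by
  have hM : 0 ≤ M := (abs_nonneg _).trans (bf 0)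
  have t1 := tendsto_integral_of_dominated_convergence (μ := gam n) (F := fun j => sm j f)
    (f := f) (fun _ => M) (fun j => (sm_c1 hf bf j).cont.aestronglyMeasurable)
    (integrable_const M) (fun j => .of_forall fun x => sm_bd bf j x) (sm_tendsto hf bf)
  have t2 := tendsto_integral_of_dominated_convergence (μ := gam n) (F := fun j => sm j g)
    (f := g) (fun _ => M) (fun j => (sm_c1 hg bg j).cont.aestronglyMeasurable)
    (integrable_const M) (fun j => .of_forall fun x => sm_bd bg j x) (sm_tendsto hg bg)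
  have t3 := tendsto_integral_of_dominated_convergence (μ := gam n)
    (F := fun j x => sm j f x * sm j g x) (f := fun x => f x * g x) (fun _ => M * M)
    (fun j => ((sm_c1 hf bf j).cont.mul (sm_c1 hg bg j).cont).aestronglyMeasurable)
    (integrable_const _) (fun j => .of_forall fun x => by
      rw [Real.norm_eq_abs, abs_mul]
      exact mul_le_mul (sm_bd bf j x) (sm_bd bg j x) (abs_nonneg _) hM)
    (by filter_upwards [sm_tendsto hf bf, sm_tendsto hg bg] with x h1 h2 using h1.mul h2)
  exact le_of_tendsto_of_tendsto' (t1.mul t2) t3 fun j =>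
    harris_c1 hK (sm_c1 hf bf j) (sm_c1 hg bg j) (sm_mon hf bf mf j) (sm_mon hg bg mg j)

/-! ### truncation -/

/-- clamp to `[-j, j]` -/
def cl (j : ℕ) (y : ℝ) : ℝ := max (-(j : ℝ)) (min y j)

lemma cl_mono (j : ℕ) : Monotone (cl j) := fun _ _ h => max_le_max le_rfl (min_le_min h le_rfl)

lemma cl_bd (j : ℕ) (y : ℝ) : |cl j y| ≤ j := by
  have : (0 : ℝ) ≤ j := Nat.cast_nonneg j
  rw [abs_le]
  exact ⟨le_max_left _ _, max_le (by linarith) (min_le_right _ _)⟩

lemma cl_abs (j : ℕ) (y : ℝ) : |cl j y| ≤ |y| := by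
  have : (0 : ℝ) ≤ j := Nat.cast_nonneg j
  have h1 := le_abs_self y
  have h2 := neg_abs_le y
  have h3 := abs_nonneg y
  rw [abs_le]
  exact ⟨le_max_of_le_right (le_min h2 (by linarith)),
    max_le (by linarith) ((min_le_left _ _).trans h1)⟩

lemma cl_tendsto (y : ℝ) : Tendsto (fun j => cl j y) atTop (𝓝 y) := by
  refine tendsto_const_nhds.congr' ?_
  obtain ⟨N, hN⟩ := exists_nat_ge |y|
  filter_upwards [eventually_ge_atTop N] with j hj
  have h : |y| ≤ j := hN.trans (Nat.cast_le.2 hj)
  rw [abs_le] at h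
  rw [cl, min_eq_left h.2, max_eq_right h.1]

lemma cl_meas (j : ℕ) : Measurable (cl j) := (cl_mono j).measurable

/-- passing from bounded to integrable functions, on any probability space -/
theorem of_bdd {V : Type*} [Add V] [MeasurableSpace V] {μ : Measure V} {K : Set V}
    (h : ∀ (f g : V → ℝ) (M : ℝ), Measurable f → Measurable g → (∀ x, |f x| ≤ M) →
      (∀ x, |g x| ≤ M) → Mon K f → Mon K g → (∫ x, f x ∂μ) * (∫ x, g x ∂μ) ≤ ∫ x, f x * g x ∂μ)
    {f g : V → ℝ} (hf : Measurable f) (hg : Measurable g) (i1 : Integrable f μ)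
    (i2 : Integrable g μ) (i3 : Integrable (fun x => f x * g x) μ) (mf : Mon K f)
    (mg : Mon K g) : (∫ x, f x ∂μ) * (∫ x, g x ∂μ) ≤ ∫ x, f x * g x ∂μ := by
  have t1 := tendsto_integral_of_dominated_convergence (μ := μ) (F := fun j x => cl j (f x))
    (f := f) (fun x => ‖f x‖) (fun j => ((cl_meas j).comp hf).aestronglyMeasurable)
    i1.norm (fun j => .of_forall fun x => cl_abs j _) (.of_forall fun x => cl_tendsto _)
  have t2 := tendsto_integral_of_dominated_convergence (μ := μ) (F := fun j x => cl j (g x))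
    (f := g) (fun x => ‖g x‖) (fun j => ((cl_meas j).comp hg).aestronglyMeasurable)
    i2.norm (fun j => .of_forall fun x => cl_abs j _) (.of_forall fun x => cl_tendsto _)
  have t3 := tendsto_integral_of_dominated_convergence (μ := μ)
    (F := fun j x => cl j (f x) * cl j (g x)) (f := fun x => f x * g x) (fun x => ‖f x * g x‖)
    (fun j => (((cl_meas j).comp hf).mul ((cl_meas j).comp hg)).aestronglyMeasurable)
    i3.norm (fun j => .of_forall fun x => by
      rw [Real.norm_eq_abs, Real.norm_eq_abs, abs_mul, abs_mul]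
      exact mul_le_mul (cl_abs j _) (cl_abs j _) (abs_nonneg _) (abs_nonneg _))
    (.of_forall fun x => (cl_tendsto _).mul (cl_tendsto _))
  exact le_of_tendsto_of_tendsto' (t1.mul t2) t3 fun j =>
    h _ _ j ((cl_meas j).comp hf) ((cl_meas j).comp hg) (fun x => cl_bd j _) (fun x => cl_bd j _)
      (fun x k hk => cl_mono j (mf x k hk)) fun x k hk => cl_mono j (mg x k hk)

/-! ### the general statements -/

section general

variable {V : Type*} [NormedAddCommGroup V] [InnerProductSpace ℝ V] [FiniteDimensional ℝ V]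
  [MeasurableSpace V] [BorelSpace V]

omit [FiniteDimensional ℝ V] [MeasurableSpace V] [BorelSpace V] in
lemma Acute.preimage {W : Type*} [NormedAddCommGroup W] [InnerProductSpace ℝ W] {K : Set V}
    (hK : Acute K) (T : W ≃ₗᵢ[ℝ] V) : Acute (T ⁻¹' K) := by
  refine ⟨fun k hk t ht => ?_, fun u v hu hv => ?_⟩
  · rw [mem_preimage, map_smul]; exact hK.smul _ hk t ht
  · rw [← T.inner_map_map]
    refine hK.dual _ _ (fun k hk => ?_) fun k hk => ?_
    · have := hu (T.symm k) (by simpa using hk)
      rwa [← T.inner_map_map, T.apply_symm_apply] at this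
    · have := hv (T.symm k) (by simpa using hk)
      rwa [← T.inner_map_map, T.apply_symm_apply] at this

/-- **Harris' inequality**, standard Gaussian of a Euclidean space -/
theorem harris {K : Set V} (hK : Acute K) {f g : V → ℝ} (hf : Measurable f) (hg : Measurable g)
    (i1 : Integrable f (stdGaussian V)) (i2 : Integrable g (stdGaussian V))
    (i3 : Integrable (fun x => f x * g x) (stdGaussian V)) (mf : Mon K f) (mg : Mon K g) :
    (∫ x, f x ∂stdGaussian V) * (∫ x, g x ∂stdGaussian V) ≤ ∫ x, f x * g x ∂stdGaussian V := by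
  refine of_bdd (fun f g M hf hg bf bg mf mg => ?_) hf hg i1 i2 i3 mf mg
  set T : E (Module.finrank ℝ V) ≃ₗᵢ[ℝ] V := (stdOrthonormalBasis ℝ V).repr.symm
  have hT : Measurable T := T.continuous.measurable
  have hm : stdGaussian V = (gam _).map T := (stdGaussian_map T).symm
  rw [hm, integral_map hT.aemeasurable hf.aestronglyMeasurable,
    integral_map hT.aemeasurable hg.aestronglyMeasurable,
    integral_map (f := fun x => f x * g x) hT.aemeasurable (hf.mul hg).aestronglyMeasurable]
  exact harris_bdd (hK.preimage T) (f := fun x => f (T x)) (g := fun x => g (T x)) (M := M)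
    (hf.comp hT) (hg.comp hT) (fun x => bf _) (fun x => bg _)
    (fun x k hk => by simpa using mf (T x) (T k) hk) fun x k hk => by simpa using mg (T x) (T k) hk

/-- one increasing, one decreasing function -/
theorem harris_anti {K : Set V} (hK : Acute K) {f g : V → ℝ} (hf : Measurable f)
    (hg : Measurable g) (i1 : Integrable f (stdGaussian V)) (i2 : Integrable g (stdGaussian V))
    (i3 : Integrable (fun x => f x * g x) (stdGaussian V)) (mf : Mon K f)
    (mg : ∀ x, ∀ k ∈ K, g (x + k) ≤ g x) :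
    ∫ x, f x * g x ∂stdGaussian V ≤ (∫ x, f x ∂stdGaussian V) * ∫ x, g x ∂stdGaussian V := by
  have h := harris hK hf hg.neg i1 i2.neg (by simpa using i3.neg) mf
    fun x k hk => neg_le_neg (mg x k hk)
  simp only [Pi.neg_apply, mul_neg, integral_neg] at h
  linarith

end general

/-- **Harris' inequality**, product of standard Gaussians -/
theorem harris_pi {ι : Type*} [Fintype ι] {K : Set (ι → ℝ)}
    (hs : ∀ k ∈ K, ∀ t : ℝ, 0 < t → t • k ∈ K)
    (hd : ∀ u v : ι → ℝ, (∀ k ∈ K, 0 ≤ ∑ i, u i * k i) → (∀ k ∈ K, 0 ≤ ∑ i, v i * k i) →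
      0 ≤ ∑ i, u i * v i)
    {f g : (ι → ℝ) → ℝ} (hf : Measurable f) (hg : Measurable g)
    (i1 : Integrable f (Measure.pi fun _ => gaussianReal 0 1))
    (i2 : Integrable g (Measure.pi fun _ => gaussianReal 0 1))
    (i3 : Integrable (fun x => f x * g x) (Measure.pi fun _ => gaussianReal 0 1))
    (mf : Mon K f) (mg : Mon K g) :
    (∫ x, f x ∂Measure.pi fun _ => gaussianReal 0 1) *
        (∫ x, g x ∂Measure.pi fun _ => gaussianReal 0 1) ≤
      ∫ x, f x * g x ∂Measure.pi fun _ => gaussianReal 0 1 := by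
  refine of_bdd (fun f g M hf hg bf bg mf mg => ?_) hf hg i1 i2 i3 mf mg
  have hT : Measurable (WithLp.toLp 2 : (ι → ℝ) → EuclideanSpace ℝ ι) := by fun_prop
  have hS : Measurable (WithLp.ofLp : EuclideanSpace ℝ ι → (ι → ℝ)) := by fun_prop
  have hK : Acute {x : EuclideanSpace ℝ ι | x.ofLp ∈ K} := by
    refine ⟨fun k hk t ht => hs _ hk t ht, fun u v hu hv => ?_⟩
    have := hd u.ofLp v.ofLp
      (fun k hk => by simpa [PiLp.inner_apply, mul_comm] using hu (WithLp.toLp 2 k) hk)
      (fun k hk => by simpa [PiLp.inner_apply, mul_comm] using hv (WithLp.toLp 2 k) hk)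
    simpa [PiLp.inner_apply, mul_comm] using this
  have hM : 0 ≤ M := (abs_nonneg _).trans (bf 0)
  have h := harris hK (f := fun x => f x.ofLp) (g := fun x => g x.ofLp) (hf.comp hS) (hg.comp hS)
    (.of_bound (hf.comp hS).aestronglyMeasurable M (.of_forall fun x => bf _))
    (.of_bound (hg.comp hS).aestronglyMeasurable M (.of_forall fun x => bg _))
    (.of_bound ((hf.comp hS).mul (hg.comp hS)).aestronglyMeasurable (M * M) (.of_forall fun x => by
      rw [Real.norm_eq_abs, abs_mul]; exact mul_le_mul (bf _) (bg _) (abs_nonneg _) hM))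
    (fun x k hk => mf _ _ hk) fun x k hk => mg _ _ hk
  rw [← map_pi_eq_stdGaussian,
    integral_map (f := fun x => f x.ofLp) hT.aemeasurable (hf.comp hS).aestronglyMeasurable,
    integral_map (f := fun x => g x.ofLp) hT.aemeasurable (hg.comp hS).aestronglyMeasurable,
    integral_map (f := fun x => f x.ofLp * g x.ofLp) hT.aemeasurable
      ((hf.comp hS).mul (hg.comp hS)).aestronglyMeasurable] at h
  exact h

/-! ### cones -/

/-- a cone that contains its dual cone is acute -/
lemma acute_of_dual_subset {V : Type*} [NormedAddCommGroup V] [InnerProductSpace ℝ V] {K : Set V}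
    (hs : ∀ k ∈ K, ∀ t : ℝ, 0 < t → t • k ∈ K)
    (hd : ∀ v : V, (∀ k ∈ K, 0 ≤ inner ℝ v k) → v ∈ K) : Acute K :=
  ⟨hs, fun _ v hu hv => hu v (hd v hv)⟩

/-- the cone cut out by features `Y s` with pairwise nonnegative inner products (Pitt) -/
lemma acute_feature {V S : Type*} [NormedAddCommGroup V] [InnerProductSpace ℝ V] (Y : S → V)
    (h : ∀ s s', 0 ≤ inner ℝ (Y s) (Y s')) : Acute {k : V | ∀ s, 0 ≤ inner ℝ (Y s) k} := by
  refine acute_of_dual_subset (fun k hk t ht s => ?_) fun v hv s => ?_
  · rw [real_inner_smul_right]; exact mul_nonneg ht.le (hk s)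
  · rw [real_inner_comm]; exact hv (Y s) fun s' => h s' s

/-- **Pitt's inequality**: monotone functions of a positively correlated Gaussian family -/
theorem pitt {V S : Type*} [NormedAddCommGroup V] [InnerProductSpace ℝ V] [FiniteDimensional ℝ V]
    [MeasurableSpace V] [BorelSpace V] (Y : S → V)
    (h : ∀ s s', 0 ≤ inner ℝ (Y s) (Y s')) {F G : (S → ℝ) → ℝ} (hF : Measurable F)
    (hG : Measurable G) (mF : Monotone F) (mG : Monotone G)
    (i1 : Integrable (fun x => F fun s => inner ℝ (Y s) x) (stdGaussian V))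
    (i2 : Integrable (fun x => G fun s => inner ℝ (Y s) x) (stdGaussian V))
    (i3 : Integrable (fun x => F (fun s => inner ℝ (Y s) x) * G fun s => inner ℝ (Y s) x)
      (stdGaussian V)) :
    (∫ x, F (fun s => inner ℝ (Y s) x) ∂stdGaussian V) *
        (∫ x, G (fun s => inner ℝ (Y s) x) ∂stdGaussian V) ≤
      ∫ x, F (fun s => inner ℝ (Y s) x) * G (fun s => inner ℝ (Y s) x) ∂stdGaussian V := by
  have hm : Measurable fun (x : V) (s : S) => inner ℝ (Y s) x :=
    measurable_pi_lambda _ fun s => (continuous_const.inner continuous_id).measurable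
  have hle : ∀ x : V, ∀ k ∈ {k : V | ∀ s, 0 ≤ inner ℝ (Y s) k},
      (fun s => inner ℝ (Y s) x) ≤ fun s => inner ℝ (Y s) (x + k) := fun x k hk s => by
    simp only [inner_add_right]; exact le_add_of_nonneg_right (hk s)
  exact harris (acute_feature Y h) (hF.comp hm) (hG.comp hm) i1 i2 i3
    (fun x k hk => mF (hle x k hk)) fun x k hk => mG (hle x k hk)

/-- arrays `k (i, j)` with a nonnegative quadratic form -/
def psd (κ : Type*) [Fintype κ] : Set (κ × κ → ℝ) :=
  {k | ∀ z : κ → ℝ, 0 ≤ ∑ p : κ × κ, k p * (z p.1 * z p.2)}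

lemma rank_one_mem {κ : Type*} [Fintype κ] (w : κ → ℝ) :
    (fun p : κ × κ => w p.1 * w p.2) ∈ psd κ := fun z => by
  have : ∑ p : κ × κ, w p.1 * w p.2 * (z p.1 * z p.2) = (∑ i, w i * z i) ^ 2 := by
    rw [sq, Finset.sum_mul_sum, Fintype.sum_prod_type]
    exact Finset.sum_congr rfl fun i _ => Finset.sum_congr rfl fun j _ => by ring
  rw [this]; positivity

/-- **Harris for functions of a Gaussian array that increase in the order of quadratic forms** -/
theorem harris_psd {κ : Type*} [Fintype κ] {f g : (κ × κ → ℝ) → ℝ} (hf : Measurable f)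
    (hg : Measurable g) (i1 : Integrable f (Measure.pi fun _ => gaussianReal 0 1))
    (i2 : Integrable g (Measure.pi fun _ => gaussianReal 0 1))
    (i3 : Integrable (fun x => f x * g x) (Measure.pi fun _ => gaussianReal 0 1))
    (mf : Mon (psd κ) f) (mg : Mon (psd κ) g) :
    (∫ x, f x ∂Measure.pi fun _ => gaussianReal 0 1) *
        (∫ x, g x ∂Measure.pi fun _ => gaussianReal 0 1) ≤
      ∫ x, f x * g x ∂Measure.pi fun _ => gaussianReal 0 1 := by
  refine harris_pi (fun k hk t ht z => ?_) (fun u v hu hv => hu v fun z => ?_) hf hg i1 i2 i3 mf mg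
  · simp only [Pi.smul_apply, smul_eq_mul, mul_assoc, ← Finset.mul_sum]
    exact mul_nonneg ht.le (by simpa only [mul_assoc] using hk z)
  · exact hv _ (rank_one_mem z)

end Crest.Agent.T156.Har
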