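import Crest.Agent.T156.Mv_7
import Crest.Agent.T156.Hess_65

/-!
# Row 156: (MV) in crude form, with the coefficient `1 - τ E Φ''²` (helper7)
-/

set_option autoImplicit false
set_option linter.unusedSectionVars false

noncomputable section

namespace Crest.Agent.T156.Cas.Apt7

open MeasureTheory Real Set Filter Topology
open Crest.Agent.T157.E Crest.Agent.T157.Casc Crest.Agent.T157.SL
open Crest.Agent.T157.G1 (ov fl)
open Crest.ProbabilityR.SpinGlassDynamics (spin)

section gen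

variable {Ω : Type}

/-- the label weights above `s` -/
def up (L : List (Lv Ω)) (s : ℕ) (G : ℕ → ℝ) : ℝ := ∑ k ∈ Finset.Ioc s L.length, dm L 0 k * G k

theorem up_eq (L : List (Lv Ω)) (s : ℕ) (G : ℕ → ℝ) :
    up L s G = ∑ k ∈ Finset.range (L.length - s), dm L 0 (s + 1 + k) * G (s + 1 + k) := by
  rw [up, show Finset.Ioc s L.length = Finset.Ico (s + 1) (L.length + 1) from by
    ext k; simp only [Finset.mem_Ico, Finset.mem_Ioc]; omega, Finset.sum_Ico_eq_sum_range,
    Nat.add_sub_add_right]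

theorem Wn_two' : ∀ (s : ℕ) (L : List (Lv Ω)), s ≤ L.length → ∀ G : (Sh.two s).Lf → ℕ → ℝ,
    Wn (Sh.two s) L G = ∑ j ∈ Finset.range (L.length + 1), dm L 0 j * G (Sh.twoL s) j +
      ex L s * G (Sh.twoL s) s + up L s (G (Sh.twoR s))
  | 0, L, _, G => by
    rw [Wn, Wt87.sum_two, up_eq, Wt87.fst_two]
    simp only [Finset.sum_range_succ' _ L.length, Nat.sub_zero, Nat.zero_add, add_comm 1]
    show ∑ j ∈ Finset.range L.length, dm L 0 (j + 1) * _ + 0 * _ +
      (∑ j ∈ Finset.range L.length, dm L 0 (j + 1) * _ + 0 * _) + ((1 + 1 : ℕ) : ℝ) * _ * _ =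
      _ + (T157.Casc.ex L 0 - 0) * _ + _ + _
    push_cast
    ring
  | s + 1, l :: L, hs, G => by
    refine (Wt87.Wn_step_cons (Sh.two s) l L G).trans ?_
    rw [Wn_two' s L (by simpa using hs), Wt87.fst_two, up_eq, up_eq, List.length_cons,
      Nat.add_sub_add_right, Finset.sum_range_succ' _ (L.length + 1),
      Finset.sum_range_succ' _ L.length, Finset.sum_range_succ' _ L.length]
    have e : ∀ j, dm (l :: L) 0 (j + 1 + 1) = dm L 0 (j + 1) := fun _ => rfl
    have e0 : dm (l :: L) 0 0 = l.m := sub_zero _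
    have e1 : dm (l :: L) 0 (0 + 1) = dm L 0 0 - l.m := by
      show T157.Casc.ex L 0 - l.m = T157.Casc.ex L 0 - 0 - l.m
      ring
    have e2 : ∀ k, s + 1 + 1 + k = s + k + 1 + 1 := fun k => by omega
    have e3 : ∀ k, s + 1 + k = s + k + 1 := fun k => by omega
    simp only [e, e0, e1, e2, e3, ex_cons_succ]
    show _ = ∑ j ∈ Finset.range L.length, _ * G (Sh.twoL s) _ + _ * G (Sh.twoL s) _ +
      _ * G (Sh.twoL s) _ + _ * G (Sh.twoL s) _ + ∑ j ∈ Finset.range (L.length - s), _ * G (Sh.twoR s) _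
    ring

theorem sum_two_cw {L : List (Lv Ω)} {s : ℕ} (hs : s ≤ L.length) (h0 : dm L 0 s = 0)
    {G : (Sh.two s).Lf → ℕ → ℝ} (hG : ∀ j < s, G (Sh.twoL s) j = 0) :
    ∑ a, ∑ j ∈ Finset.range (L.length + 1), cw (Sh.two s) L a j * G a j =
      ex L s * G (Sh.twoL s) s + up L s (G (Sh.twoL s)) + up L s (G (Sh.twoR s)) := by
  rw [Wt87.sum_cw_eq, Wn_two' s L hs, add_comm (∑ _ ∈ _, _)]
  congr 2
  refine (Finset.sum_subset (fun k hk => Finset.mem_range.2 (by
    have := Finset.mem_Ioc.1 hk; omega)) fun k hk hk' => ?_).symm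
  have h1 := Finset.mem_range.1 hk
  rw [Finset.mem_Ioc] at hk'
  rcases Nat.lt_or_ge k s with h | h
  · rw [hG k h, mul_zero]
  · rw [show k = s by omega, h0, zero_mul]

theorem up_congr {L : List (Lv Ω)} {s : ℕ} {G G' : ℕ → ℝ}
    (h : ∀ k, s < k → k ≤ L.length → G k = G' k) : up L s G = up L s G' :=
  Finset.sum_congr rfl fun k hk => by rw [h k (Finset.mem_Ioc.1 hk).1 (Finset.mem_Ioc.1 hk).2]

theorem up_add (L : List (Lv Ω)) (s : ℕ) (G G' : ℕ → ℝ) :
    up L s (fun k => G k + G' k) = up L s G + up L s G' := by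
  simp only [up, mul_add, Finset.sum_add_distrib]

theorem up_mul (L : List (Lv Ω)) (s : ℕ) (c : ℝ) (G : ℕ → ℝ) :
    up L s (fun k => c * G k) = c * up L s G := by
  simp only [up, Finset.mul_sum, mul_left_comm]

theorem up_zero (L : List (Lv Ω)) (s : ℕ) : up L s (fun _ => 0) = 0 := by simp [up]

variable [Fintype Ω] {w : Ω → ℝ}

/-- the two leaves -/
def lf (s : ℕ) (a : Bool) : (Sh.two s).Lf := cond a (Sh.twoL s) (Sh.twoR s)

/-- the term `E f₁ f₂ f_p f_q` -/
def T4 (w : Ω → ℝ) (L : List (Lv Ω)) (h f : Ω → ℝ) (s : ℕ) (τ : GT (Sh.two s)) : ℝ :=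
  TE w τ.sh L h (τ.ev (fun _ x y => f x * f y) (pr2 s fun x y => f x * f y))

theorem T4_g1 (hw : Wt w) (f : Ω → ℝ) (a b : Bool) (j : ℕ) : ∀ (s : ℕ) (L : List (Lv Ω))
    (h : Ω → ℝ), s ≤ L.length → T4 w L h f s (.g1 _ (lf s a) (j + s) (lf s b)) =
      node w L s (fun z => T4 w (L.drop s) z f 0 (.g1 _ (lf 0 a) j (lf 0 b))) h
  | 0, L, h, _ => by rw [node_zero]; rfl
  | s + 1, l :: L, h, hs => (Law.TE_step hw _ l L h _).trans (congrArg (fun G => tE l (X w L) G h)
      (funext fun z => T4_g1 hw f a b j s L z (by simpa using hs)))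

theorem T4_g2 (hw : Wt w) (f : Ω → ℝ) (a b : Bool) (j k : ℕ) : ∀ (s : ℕ) (L : List (Lv Ω))
    (h : Ω → ℝ), s ≤ L.length → T4 w L h f s (.g2 _ (lf s a) (j + s) (lf s b) (k + s)) =
      node w L s (fun z => T4 w (L.drop s) z f 0 (.g2 _ (lf 0 a) j (lf 0 b) k)) h
  | 0, L, h, _ => by rw [node_zero]; rfl
  | s + 1, l :: L, h, hs => (Law.TE_step hw _ l L h _).trans (congrArg (fun G => tE l (X w L) G h)
      (funext fun z => T4_g2 hw f a b j k s L z (by simpa using hs)))

theorem T4_g3 (hw : Wt w) (f : Ω → ℝ) : ∀ (s : ℕ) (L : List (Lv Ω))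
    (h : Ω → ℝ), s ≤ L.length → T4 w L h f s (.g3 _ (Sh.twoL s) s 0) =
      node w L s (fun z => T4 w (L.drop s) z f 0 (.g3 _ (Sh.twoL 0) 0 0)) h
  | 0, L, h, _ => by rw [node_zero]; rfl
  | s + 1, l :: L, h, hs => (Law.TE_step hw _ l L h _).trans (congrArg (fun G => tE l (X w L) G h)
      (funext fun z => T4_g3 hw f s L z (by simpa using hs)))

theorem TE_ind (hw : Wt w) (s t : Sh) (L : List (Lv Ω)) (h : Ω → ℝ) (A : (s.Lf → Ω) → ℝ)
    (B : (t.Lf → Ω) → ℝ) {F : ((Sh.split s t).Lf → Ω) → ℝ}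
    (e : ∀ x x', F (Sum.elim x x') = A x * B x') :
    TE w (.split s t) L h F = TE w s L h A * TE w t L h B := by
  rw [Law.TE_split hw]
  simp only [e, Law.TE_const_mul hw, Law.TE_mul_const hw]

/-- the pair function -/
def bq (w : Ω → ℝ) (N : List (Lv Ω)) (f : Ω → ℝ) (j : ℕ) (z : Ω → ℝ) : ℝ :=
  pi2 w N j (fun x y => f x * f y) z

theorem bq_zero (N : List (Lv Ω)) (f z : Ω → ℝ) : bq w N f 0 z = Pf w N z f * Pf w N z f := by
  rw [bq, pi2_zero, qf_mul]; rfl

variable (hw : Wt w) (N : List (Lv Ω)) (z f : Ω → ℝ)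
include hw

theorem te2 (j : ℕ) : TE w (Sh.two j) N z (pr2 j fun x y => f x * f y) = bq w N f j z :=
  Wt87.tX_two hw (fun x y => f x * f y) j N z

theorem te1 (g : Ω → ℝ) : TE w .one N z (fun x => g (x ())) = Pf w N z g := Law.TE_one hw N z _

theorem v1LL : T4 w N z f 0 (.g1 _ (lf 0 true) 0 (lf 0 true)) =
    Pf w N z (fun x => f x * f x) * bq w N f 0 z := by
  refine (TE_ind hw (.split .one .one) .one N z (fun x => f (x (.inl ())) * f (x (.inl ())) *
    f (x (.inr ()))) (fun x => f (x ())) fun x x' => ?_).trans ?_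
  · show f (x (.inl ())) * f (x' ()) * (f (x (.inl ())) * f (x (.inr ()))) = _
    ring
  · rw [TE_ind hw .one .one N z (fun x => f (x ()) * f (x ())) (fun x => f (x ())) fun _ _ => rfl,
      te1 hw N z fun x => f x * f x, te1 hw, bq_zero, mul_assoc]

theorem v1LR (j : ℕ) : T4 w N z f 0 (.g1 _ (lf 0 true) j (lf 0 false)) =
    Pf w N z (fun x => f x * f x) * bq w N f j z := by
  refine (TE_ind hw (Sh.two j) .one N z (pr2 j fun x y => f x * f y)
    (fun x => f (x ()) * f (x ())) fun x x' => ?_).trans ?_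
  · show f (x (Sh.twoL j)) * f (x' ()) * (f (x' ()) * f (x (Sh.twoR j))) =
      f (x (Sh.twoL j)) * f (x (Sh.twoR j)) * _
    ring
  · rw [te2 hw, te1 hw N z fun x => f x * f x, mul_comm]

theorem v1RL (j : ℕ) : T4 w N z f 0 (.g1 _ (lf 0 false) j (lf 0 true)) =
    Pf w N z (fun x => f x * f x) * bq w N f j z := by
  refine (TE_ind hw .one (Sh.two j) N z (fun x => f (x ()) * f (x ()))
    (pr2 j fun x y => f x * f y) fun x x' => ?_).trans ?_
  · show f (x ()) * f (x' (Sh.twoL j)) * (f (x ()) * f (x' (Sh.twoR j))) =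
      _ * (f (x' (Sh.twoL j)) * f (x' (Sh.twoR j)))
    ring
  · rw [te2 hw, te1 hw N z fun x => f x * f x]

theorem v2LR (j k : ℕ) : T4 w N z f 0 (.g2 _ (lf 0 true) j (lf 0 false) k) =
    bq w N f j z * bq w N f k z := by
  refine (TE_ind hw (Sh.two j) (Sh.two k) N z (pr2 j fun x y => f x * f y)
    (pr2 k fun x y => f x * f y) fun x x' => ?_).trans (by rw [te2 hw, te2 hw])
  show f (x (Sh.twoL j)) * f (x' (Sh.twoL k)) * (f (x (Sh.twoR j)) * f (x' (Sh.twoR k))) =
    f (x (Sh.twoL j)) * f (x (Sh.twoR j)) * (f (x' (Sh.twoL k)) * f (x' (Sh.twoR k)))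
  ring

theorem v2LL (j : ℕ) : T4 w N z f 0 (.g2 _ (lf 0 true) j (lf 0 true) 0) =
    bq w N f j z * bq w N f 0 z := by
  refine (TE_ind hw (.split (Sh.two j) .one) .one N z (fun x => f (x (.inl (Sh.twoL j))) *
    f (x (.inl (Sh.twoR j))) * f (x (.inr ()))) (fun x => f (x ())) fun x x' => ?_).trans ?_
  · show f (x (.inl (Sh.twoL j))) * f (x' ()) * (f (x (.inl (Sh.twoR j))) * f (x (.inr ()))) = _
    ring
  · rw [TE_ind hw (Sh.two j) .one N z (pr2 j fun x y => f x * f y) (fun x => f (x ()))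
      fun _ _ => rfl, te2 hw, te1 hw, bq_zero, mul_assoc]

theorem v3 : T4 w N z f 0 (.g3 _ (Sh.twoL 0) 0 0) = bq w N f 0 z * bq w N f 0 z := by
  refine (TE_ind hw (.split .one (Sh.two 0)) .one N z (fun x => f (x (.inl ())) *
    (f (x (.inr (Sh.twoL 0))) * f (x (.inr (Sh.twoR 0))))) (fun x => f (x ()))
    fun x x' => ?_).trans ?_
  · show f (x (.inl ())) * f (x' ()) * (f (x (.inr (Sh.twoL 0))) * f (x (.inr (Sh.twoR 0)))) = _
    ring
  · rw [TE_ind hw .one (Sh.two 0) N z (fun x => f (x ())) (pr2 0 fun x y => f x * f y)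
      fun _ _ => rfl, te2 hw, te1 hw, bq_zero]
    ring

theorem Hb_bq : Hb w N z f f = Pf w N z (fun x => f x * f x) -
    ∑ j ∈ Finset.range (N.length + 1), dm N 0 j * bq w N f j z := by
  have := sum_Hs hw (fun x y => f x * f y) N 0 z
  simp only [zero_mul, add_zero, pair_eq_sum hw] at this
  exact this

/-- **the atom at a node of label weight zero** -/
theorem sg_atom {L : List (Lv Ω)} (h : Ω → ℝ) {s : ℕ} (hs : s < L.length) (h0 : dm L 0 s = 0) :
    sg (-1) L (Sh.two s) (fun τ => if τ.j = s then T4 w L h f s τ else 0) =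
      2 * node w L s (fun z => Hb w (L.drop s) z f f ^ 2) h := by
  have I : Wf99.Inv L.length (T4 w L h f s) :=
    Wf99.inv_TE hw _ L h (fun _ _ _ => mul_comm _ _) _ _
  obtain ⟨a, ha⟩ : ∃ a, a = fun z => Pf w (L.drop s) z fun x => f x * f x := ⟨_, rfl⟩
  obtain ⟨B, hB⟩ : ∃ B, B = fun j z => bq w (L.drop s) f (j - s) z := ⟨_, rfl⟩
  have ea : Eg a := ha ▸ Eg.sum _ fun x _ => (eg_P hw _ x).mul_const _
  have eB : ∀ j, Eg (B j) := fun j => hB ▸ eg_pi2 hw _ _ _
  have sub : ∀ {j}, s ≤ j → j = j - s + s := fun h => by omega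
  have B0 : bq w (L.drop s) f 0 = B s := by rw [hB]; simp
  have t0 : ∀ a' b', b' ≠ a' → T4 w L h f s (.g0 _ L.length a' b') =
      node w L s (fun z => a z * a z) h := fun a' b' hab => by
    have e : T4 w L h f s (.g0 _ L.length a' b') =
        TE w (Sh.two s) L h (pr2 s fun x y => f x * f x * (f y * f y)) := by
      refine congrArg (TE w (Sh.two s) L h) (funext fun x => ?_)
      show f _ * f _ * (f (x a') * f (x b')) = f _ * f _ * (f _ * f _)
      rcases Wt87.two_cases s a' with rfl | rfl <;> rcases Wt87.two_cases s b' with rfl | rfl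
      · exact (hab rfl).elim
      · simp only [GT.g0, id]; ring
      · simp only [GT.g0, id]; ring
      · exact (hab rfl).elim
    rw [e]
    refine (Wt87.tX_two hw (fun x y => f x * f x * (f y * f y)) s L h).trans ?_
    simp only [pi2, qf_mul, ha, Pf]
  have t1 : T4 w L h f s (.g1 _ (Sh.twoL s) s (Sh.twoL s)) = node w L s (fun z => a z * B s z) h := by
    have := T4_g1 hw f true true 0 s L h hs.le
    simp only [v1LL hw, B0, Nat.zero_add] at this
    rw [ha]; exact this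
  have t2 : ∀ j, s ≤ j → T4 w L h f s (.g1 _ (Sh.twoL s) j (Sh.twoR s)) =
      node w L s (fun z => a z * B j z) h := fun j hj => by
    have := T4_g1 hw f true false (j - s) s L h hs.le
    simp only [v1LR hw, ← sub hj] at this
    rw [ha, hB]; exact this
  have t3 : ∀ j, s ≤ j → T4 w L h f s (.g1 _ (Sh.twoR s) j (Sh.twoL s)) =
      node w L s (fun z => a z * B j z) h := fun j hj => by
    have := T4_g1 hw f false true (j - s) s L h hs.le
    simp only [v1RL hw, ← sub hj] at this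
    rw [ha, hB]; exact this
  have t4 : ∀ j k, s ≤ j → s ≤ k → T4 w L h f s (.g2 _ (Sh.twoL s) j (Sh.twoR s) k) =
      node w L s (fun z => B j z * B k z) h := fun j k hj hk => by
    have := T4_g2 hw f true false (j - s) (k - s) s L h hs.le
    simp only [v2LR hw, ← sub hj, ← sub hk] at this
    rw [hB]; exact this
  have t5 : ∀ j, s ≤ j → T4 w L h f s (.g2 _ (Sh.twoL s) j (Sh.twoL s) s) =
      node w L s (fun z => B j z * B s z) h := fun j hj => by
    have := T4_g2 hw f true true (j - s) 0 s L h hs.le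
    simp only [v2LL hw, ← sub hj, B0, Nat.zero_add] at this
    rw [show B j = bq w (L.drop s) f (j - s) by rw [hB]]; exact this
  have t6 : T4 w L h f s (.g3 _ (Sh.twoL s) s 0) = node w L s (fun z => B s z * B s z) h := by
    have := T4_g3 hw f s L h hs.le
    simp only [v3 hw, B0] at this
    exact this
  obtain ⟨P, hP⟩ : ∃ P : ℕ → ℝ, P = fun j => node w L s (fun z => a z * B j z) h := ⟨_, rfl⟩
  obtain ⟨Q, hQ⟩ : ∃ Q : ℕ → ℕ → ℝ, Q = fun j k => node w L s (fun z => B j z * B k z) h := ⟨_, rfl⟩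
  have Qc : ∀ j k, Q j k = Q k j := fun j k => by simp only [hQ, mul_comm]
  have sLL : ∀ j, (Sh.two s).shr (Sh.twoL s) (Sh.twoL s) j = j := Wt87.shr_self _ _
  have sRR : ∀ j, (Sh.two s).shr (Sh.twoR s) (Sh.twoR s) j = j := Wt87.shr_self _ _
  have sLR : ∀ j, (Sh.two s).shr (Sh.twoL s) (Sh.twoR s) j = min s j := Wt87.shr_two _
  have sRL : ∀ j, (Sh.two s).shr (Sh.twoR s) (Sh.twoL s) j = min s j := fun j => by
    rw [Wt87.shr_comm, sLR]
  set Φ : GT (Sh.two s) → ℝ := fun τ => if τ.j = s then T4 w L h f s τ else 0 with hΦ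
  have IΦ : Wf99.Inv L.length Φ := by
    simpa only [ite_mul, one_mul, zero_mul] using
      (Wf99.inv_lev (Sh.two s) L.length fun j => if j = s then 1 else 0).mul I
  have s0 : ∑ a', ∑ b' ∈ Finset.univ.erase a', Φ (.g0 _ L.length a' b') =
      2 * node w L s (fun z => a z * a z) h := by
    rw [Finset.sum_congr rfl fun a' _ => Finset.sum_congr rfl fun b' hb => (show
      Φ (.g0 _ L.length a' b') = node w L s (fun z => a z * a z) h from by
        have hb' := Finset.ne_of_mem_erase hb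
        rw [← t0 a' b' hb']
        exact if_pos (old_two hs.le ⟨a', b', hb'.symm, rfl⟩))]
    simp only [Finset.sum_const, Finset.card_erase_of_mem (Finset.mem_univ _), Finset.card_univ,
      Wt87.card_two, nsmul_eq_mul]
    push_cast
    ring
  have s1 : ∑ a', ∑ j ∈ Finset.range (L.length + 1), cw (Sh.two s) L a' j *
      (∑ b', Φ (.g1 _ a' j b') + ∑ b', Φ (.g1' _ a' j b')) = 4 * (ex L s * P s + up L s P) := by
    rw [Finset.sum_congr rfl fun a' _ => Finset.sum_congr rfl fun j hj => by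
      rw [Finset.sum_congr rfl fun b' _ => IΦ.i1' a' j b' (by
        have := Finset.mem_range.1 hj; omega), ← two_mul], sum_two_cw hs.le h0 fun j hj => ?_,
      up_congr (G' := fun j => 2 * P j) fun j hj _ => ?_,
      up_congr (G := fun j => 2 * ∑ b', Φ (.g1 _ (Sh.twoR s) j b')) (G' := fun j => 2 * P j)
        fun j hj _ => ?_, up_mul, Wt87.sum_two]
    · simp only [hΦ, GT.g1, sLL, sRL, min_self, if_true]
      erw [t1, t2 s le_rfl]
      rw [hP]; ring
    · simp only [Wt87.sum_two, hΦ, GT.g1, sLR, sRR, min_eq_left hj.le, if_true, if_neg hj.ne',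
        add_zero]
      erw [t3 j hj.le]
      rw [hP]
    · simp only [Wt87.sum_two, hΦ, GT.g1, sLL, sRL, min_eq_left hj.le, if_true, if_neg hj.ne',
        zero_add]
      erw [t2 j hj.le]
      rw [hP]
    · simp only [Wt87.sum_two, hΦ, GT.g1, sLL, sRL, min_eq_right hj.le, if_neg hj.ne, add_zero,
        mul_zero]
  have r2 : ∀ a' j, j ≤ L.length → ∑ b', ∑ k ∈ Finset.range (L.length + 1), cw (Sh.two s) L b' k *
      Φ (.g2 _ a' j b' k) = ex L s * Φ (.g2 _ a' j (Sh.twoL s) s) +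
        up L s (fun k => Φ (.g2 _ a' j (Sh.twoL s) k)) +
        up L s fun k => Φ (.g2 _ a' j (Sh.twoR s) k) := fun a' j _ =>
    sum_two_cw hs.le h0 fun k hk => if_neg (by
      have := Wt87.shr_le (Sh.two s) a' (Sh.twoL s) (min j k)
      show (Sh.two s).shr a' (Sh.twoL s) (min j k) ≠ s
      omega)
  have r3 : ∀ a' j, j ≤ L.length → ∑ i ∈ Finset.range (L.length - j + 1), dm (L.drop j) 0 i *
      Φ (.g3 _ a' j i) = if j = s then ex L s * Φ (.g3 _ a' s 0) else 0 := fun a' j hj => by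
    split_ifs with e
    · subst e
      rw [Finset.sum_eq_single 0 (fun i _ hi => ?_) (by simp)]
      · congr 1
        simp [dm, exP, T157.Casc.ex]
      · rw [show Φ (.g3 _ a' j i) = 0 from if_neg (show i + j ≠ j by omega), mul_zero]
    · refine Finset.sum_eq_zero fun i _ => ?_
      by_cases e' : i + j = s
      · obtain ⟨i, rfl⟩ : ∃ i', i = i' + 1 := ⟨i - 1, by omega⟩
        rw [dm_drop, e', h0, zero_mul]
      · rw [show Φ (.g3 _ a' j i) = 0 from if_neg e', mul_zero]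
  have u1 : ∀ j, s ≤ j → Φ (.g2 _ (Sh.twoL s) j (Sh.twoL s) s) = Q j s := fun j hj =>
    (if_pos (by simp only [GT.g2, sLL, min_eq_right hj])).trans ((t5 j hj).trans (by rw [hQ]))
  have u2 : ∀ j k, s ≤ j → s ≤ k → Φ (.g2 _ (Sh.twoL s) j (Sh.twoR s) k) = Q j k := fun j k hj hk =>
    (if_pos (by simp only [GT.g2, sLR]; omega)).trans ((t4 j k hj hk).trans (by rw [hQ]))
  obtain ⟨Rw, hR⟩ : ∃ Rw : (Sh.two s).Lf → ℕ → ℝ, Rw = fun a' j =>
      ex L s * Φ (.g2 _ a' j (Sh.twoL s) s) + up L s (fun k => Φ (.g2 _ a' j (Sh.twoL s) k)) +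
        up L s (fun k => Φ (.g2 _ a' j (Sh.twoR s) k)) +
        if j = s then ex L s * Φ (.g3 _ a' s 0) else 0 := ⟨_, rfl⟩
  have eL : ∀ j, s < j → j ≤ L.length → Rw (Sh.twoL s) j = ex L s * Q s j + up L s (Q j) :=
    fun j hj hj' => by
      have z1 : up L s (fun k => Φ (.g2 _ (Sh.twoL s) j (Sh.twoL s) k)) = up L s fun _ => 0 :=
        up_congr fun k hk _ => if_neg (by simp only [GT.g2, sLL]; omega)
      have z2 : up L s (fun k => Φ (.g2 _ (Sh.twoL s) j (Sh.twoR s) k)) = up L s (Q j) :=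
        up_congr fun k hk _ => u2 j k hj.le hk.le
      rw [hR]
      simp only [z1, z2, up_zero, u1 j hj.le, Qc j s, if_neg hj.ne']
      ring
  have eR : ∀ j, s < j → j ≤ L.length → Rw (Sh.twoR s) j = ex L s * Q s j + up L s (Q j) :=
    fun j hj hj' => by
      have z1 : up L s (fun k => Φ (.g2 _ (Sh.twoR s) j (Sh.twoL s) k)) = up L s (Q j) :=
        up_congr fun k hk hk' => by rw [IΦ.i2' _ _ _ _ hj' hk', u2 k j hk.le hj.le, Qc]
      have z2 : up L s (fun k => Φ (.g2 _ (Sh.twoR s) j (Sh.twoR s) k)) = up L s fun _ => 0 :=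
        up_congr fun k hk _ => if_neg (by simp only [GT.g2, sRR]; omega)
      have z3 : Φ (.g2 _ (Sh.twoR s) j (Sh.twoL s) s) = Q s j := by
        rw [IΦ.i2' _ _ _ _ hj' hs.le, u2 s j le_rfl hj.le]
      rw [hR]
      simp only [z1, z2, z3, up_zero, if_neg hj.ne']
      ring
  have eS : Rw (Sh.twoL s) s = 2 * (ex L s * Q s s + up L s (Q s)) := by
    have z1 : up L s (fun k => Φ (.g2 _ (Sh.twoL s) s (Sh.twoL s) k)) = up L s (Q s) :=
      up_congr fun k hk hk' => by rw [IΦ.i2' _ _ _ _ hs.le hk', u1 k hk.le, Qc]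
    have z2 : up L s (fun k => Φ (.g2 _ (Sh.twoL s) s (Sh.twoR s) k)) = up L s (Q s) :=
      up_congr fun k hk _ => u2 s k le_rfl hk.le
    have z3 : Φ (.g3 _ (Sh.twoL s) s 0) = Q s s :=
      (if_pos (Nat.zero_add s)).trans (t6.trans (by rw [hQ]))
    rw [hR]
    simp only [z1, z2, z3, u1 s le_rfl, if_true]
    ring
  have e0 : ∀ j < s, Rw (Sh.twoL s) j = 0 := fun j hj => by
    have z1 : up L s (fun k => Φ (.g2 _ (Sh.twoL s) j (Sh.twoL s) k)) = up L s fun _ => 0 :=
      up_congr fun k hk _ => if_neg (by simp only [GT.g2, sLL]; omega)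
    have z2 : up L s (fun k => Φ (.g2 _ (Sh.twoL s) j (Sh.twoR s) k)) = up L s fun _ => 0 :=
      up_congr fun k hk _ => if_neg (by simp only [GT.g2, sLR]; omega)
    have z3 : Φ (.g2 _ (Sh.twoL s) j (Sh.twoL s) s) = 0 := if_neg (by simp only [GT.g2, sLL]; omega)
    rw [hR]
    simp only [z1, z2, z3, up_zero, if_neg hj.ne]
    ring
  have s2 : ∑ a', ∑ j ∈ Finset.range (L.length + 1), cw (Sh.two s) L a' j *
      (∑ b', ∑ k ∈ Finset.range (L.length + 1), cw (Sh.two s) L b' k * Φ (.g2 _ a' j b' k) +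
        ∑ i ∈ Finset.range (L.length - j + 1), dm (L.drop j) 0 i * Φ (.g3 _ a' j i)) =
      2 * (ex L s * ex L s * Q s s + 2 * ex L s * up L s (Q s) + up L s fun j => up L s (Q j)) := by
    rw [Finset.sum_congr rfl fun a' _ => Finset.sum_congr rfl fun j hj => (by
      have := Finset.mem_range.1 hj
      rw [r2 a' j (by omega), r3 a' j (by omega), hR] : _ = cw (Sh.two s) L a' j * Rw a' j),
      sum_two_cw hs.le h0 e0, up_congr eL, up_congr eR, eS, up_add, up_mul]
    ring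
  have nu : ∀ Ψ : ℕ → (Ω → ℝ) → ℝ, (∀ j, Eg (Ψ j)) → node w L s (fun z => up L s fun j => Ψ j z) h =
      up L s fun j => node w L s (Ψ j) h := fun Ψ hΨ => by
    simp only [up]
    rw [node_sum hw _ fun j _ => (hΨ j).const_mul _]
    simp only [node_const_mul]
  have eu : ∀ Ψ : ℕ → (Ω → ℝ) → ℝ, (∀ j, Eg (Ψ j)) → Eg fun z => up L s fun j => Ψ j z :=
    fun Ψ hΨ => Eg.sum _ fun j _ => (hΨ j).const_mul _
  have eH : (fun z => Hb w (L.drop s) z f f ^ 2) = fun z => a z * a z -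
      2 * (ex L s * (a z * B s z) + up L s fun j => a z * B j z) +
      (ex L s * ex L s * (B s z * B s z) + 2 * ex L s * (up L s fun j => B s z * B j z) +
        up L s fun j => up L s fun k => B j z * B k z) := by
    funext z
    have := Wt87.sum_dm_drop L hs.le fun j => B j z
    simp only [hB, Nat.add_sub_cancel] at this
    rw [Hb_bq hw, List.length_drop, this]
    simp only [up_mul, ha, hB]
    simp only [mul_comm _ (up L s _), up_mul]
    simp only [up]
    ring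
  have a1 := eu (fun j z => a z * B j z) fun j => ea.mul (eB j)
  have a2 := eu (fun j z => B s z * B j z) fun j => (eB s).mul (eB j)
  have a3 := fun j => eu (fun k z => B j z * B k z) fun k => (eB j).mul (eB k)
  have a4 := (((ea.mul (eB s)).const_mul (ex L s)).add a1).const_mul 2
  have a5 := ((eB s).mul (eB s)).const_mul (ex L s * ex L s)
  rw [sg, s0, s1, s2, eH, node_add hw ((ea.mul ea).sub a4) ((a5.add (a2.const_mul _)).add (eu _ a3)),
    node_sub hw (ea.mul ea) a4, node_add hw (a5.add (a2.const_mul _)) (eu _ a3),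
    node_add hw a5 (a2.const_mul _), node_const_mul, node_const_mul, node_const_mul,
    node_add hw ((ea.mul (eB s)).const_mul _) a1, node_const_mul]
  simp only [nu _ a3, nu _ fun j => ea.mul (eB j), fun i => nu _ fun j => (eB i).mul (eB j), hP, hQ]
  ring

/-- the signed weight of the edges at a node of label weight zero vanishes -/
theorem sg_ind {L : List (Lv Ω)} {s : ℕ} (hs : s < L.length) (h0 : dm L 0 s = 0) :
    sg (-1) L (Sh.two s) (fun τ => if τ.j = s then 1 else 0) = 0 := by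
  have := sg_atom hw (fun _ => 1) 0 hs h0
  have e1 : ∀ τ, T4 w L 0 (fun _ => 1) s τ = 1 := fun τ => by
    refine Eq.trans ?_ (Law.TE_const hw τ.sh L 0 1)
    refine congrArg (TE w τ.sh L 0) (funext fun x => ?_)
    simp only [GT.ev, pr2, mul_one]
  have e2 : ∀ z, Hb w (L.drop s) z (fun _ => 1) (fun _ => 1) = 0 := fun z => by
    have a := sum_dm (L.drop s) 0 (L.drop s).length
    rw [ex_length] at a
    rw [Hb_bq hw]
    simp only [bq, mul_one, pi2_const hw, a, Pf, sum_P hw, sub_zero, sub_self]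
  simp only [e1, e2, ne_eq, OfNat.ofNat_ne_zero, not_false_eq_true, zero_pow, node_const hw,
    mul_zero] at this
  exact this

/-- **the term of order one, crudely** -/
theorem first_crude {M : List (Lv Ω)} (hM : Mono 0 M) (h : Ω → ℝ) {s : ℕ} (hs : s < M.length)
    (h0 : dm M 0 s = 0) {K : Ω → Ω → ℝ} {q t g a : ℕ → ℝ}
    {Z : GT (Sh.two s) → ℝ} (hZ : ∀ τ, τ.Mem _ M.length → |Z τ| ≤ 4)
    {T A : ℝ} (ht : ∀ j, 0 ≤ t j ∧ t j ≤ T) (hA : 0 ≤ A) (hg : ∀ j, 0 ≤ g j) (a0 : ∀ j, 0 ≤ a j)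
    (hc : ∀ τ, τ.Mem _ M.length → τ.j ≠ s → t τ.j * |Z τ| ≤ g τ.j)
    (HA : pi2 w M s (fun x y => (K x y - q s) ^ 2) h ≤ A ^ 2)
    (ha : ∀ y ≤ M.length, y ≠ s → pi2 w M y (fun x x' => (K x x' - q y) ^ 2) h ≤ a y ^ 2) :
    |sg (-1) M (Sh.two s) (fun τ => t τ.j / 2 * Z τ * TE w τ.sh M h
        (τ.ev (fun j x y => K x y - q j) (pr2 s fun x y => K x y - q s))) -
      t s * g1 M s Z * pi2 w M s (fun x y => (K x y - q s) ^ 2) h| ≤
      64 * T * pv w M s K h + 20 * A * ∑ j ∈ Finset.range (M.length + 1), dm M 0 j * (g j * a j) := by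
  set u2 := pi2 w M s (fun x y => (K x y - q s) ^ 2) h with hu2
  have e1 : ∀ τ : GT (Sh.two s), τ.Mem _ M.length → ∀ Q : Ω → Ω → ℝ, TE w τ.sh M h
      (fun x => Q (x (τ.e (Sh.twoL s))) (x (τ.e (Sh.twoR s)))) = pi2 w M s Q h := fun τ hτ Q =>
    (hτ.TE_e hw M h (pr2 s Q)).trans (Wt87.tX_two hw Q s M h)
  set D : GT (Sh.two s) → ℝ := fun τ => TE w τ.sh M h fun x =>
    (K (x τ.p) (x τ.q) - K (x (τ.e (Sh.twoL s))) (x (τ.e (Sh.twoR s)))) ^ 2 with hD
  set E : GT (Sh.two s) → ℝ := fun τ => TE w τ.sh M h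
    (τ.ev (fun j x y => K x y - q j) (pr2 s fun x y => K x y - q s)) with hE
  have key : ∀ τ : GT (Sh.two s), τ.Mem _ M.length → t τ.j / 2 * Z τ * E τ =
      t s * u2 / 2 * (if τ.j = s then Z τ else 0) +
      ((if τ.j = s then -(t s / 4 * Z τ * D τ) else 0) +
        if τ.j = s then 0 else t τ.j / 2 * Z τ * E τ) := fun τ hτ => by
    split_ifs with e
    · have a1 := e1 τ hτ fun x y => (K x y - q s) ^ 2
      have a2 := hτ.TE_pair hw h fun x y => (K x y - q s) ^ 2
      rw [e] at a2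
      have a3 : E τ = u2 - D τ / 2 := by
        rw [show u2 - D τ / 2 = 1 / 2 * u2 + 1 / 2 * u2 - 1 / 2 * D τ by ring]
        nth_rw 1 [hu2, ← a1]
        rw [hu2, ← a2, hD, ← Law.TE_const_mul hw, ← Law.TE_const_mul hw, ← Law.TE_const_mul hw,
          ← Law.TE_add hw, ← Law.TE_sub hw]
        refine congrArg (TE w τ.sh M h) (funext fun x => ?_)
        simp only [GT.ev, pr2, e]
        ring
      rw [a3, e]
      ring
    · ring
  have hpv := pv_nonneg hw M s K h
  have T0 : 0 ≤ T := (ht 0).1.trans (ht 0).2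
  have b1 : |sg (-1) M (Sh.two s) fun τ => if τ.j = s then -(t s / 4 * Z τ * D τ) else 0| ≤
      64 * T * pv w M s K h := by
    refine (abs_sg_le hM _ fun τ _ => le_rfl).trans ((sg_mono_two hM h0
      (Ψ := fun _ => 4 * T * pv w M s K h) fun τ hτ hsm => ?_).trans_eq ?_)
    · split_ifs with e
      · have a1 := four hw K τ.sh M h s _ _ _ _ (emb_two hs (shr_e_two hs hτ)) hτ.ne
          (shr_e_two hs hτ) (hτ.shr.trans e) (hsm e)
        have a2 : 0 ≤ D τ := (Law.TE_const hw _ _ _ 0).symm.trans_le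
          (Law.TE_mono hw _ _ _ fun x => sq_nonneg _)
        rw [abs_neg, abs_mul, abs_mul, abs_of_nonneg a2,
          abs_of_nonneg (div_nonneg (ht s).1 (by norm_num))]
        calc _ ≤ T / 4 * 4 * (4 * pv w M s K h) :=
              mul_le_mul (mul_le_mul (by linarith [(ht s).2]) (hZ τ hτ) (abs_nonneg _)
                (by positivity)) a1 a2 (by positivity)
          _ = _ := by ring
      · rw [abs_zero]; positivity
    · rw [sg_const, Wt87.card_two]; push_cast; ring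
  obtain ⟨G, hG⟩ : ∃ G : ℕ → ℝ, G = fun j => if j = s then 0 else g j * a j := ⟨_, rfl⟩
  have G0 : ∀ j, 0 ≤ G j := fun j => by
    rw [hG]; dsimp only; split_ifs
    exacts [le_rfl, mul_nonneg (hg j) (a0 j)]
  have b2 : |sg (-1) M (Sh.two s) fun τ => if τ.j = s then 0 else t τ.j / 2 * Z τ * E τ| ≤
      20 * A * ∑ j ∈ Finset.range (M.length + 1), dm M 0 j * (g j * a j) := by
    have c1 := Ker15.sg_lvl hM (Sh.two s) G0
    rw [Nv_two _ _ hs.le, Wt87.card_two, show G s = 0 by rw [hG]; exact if_pos rfl,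
      Finset.sum_congr rfl fun j _ => (show dm M 0 j * G j = dm M 0 j * (g j * a j) by
        by_cases e : j = s
        · rw [e, h0, zero_mul, zero_mul]
        · rw [hG]; simp only [if_neg e])] at c1
    refine (abs_sg_le hM _ (Ψ := fun τ => A / 2 * G τ.j) fun τ hτ => ?_).trans ?_
    · rw [hG]; dsimp only
      split_ifs with e
      · rw [abs_zero, mul_zero]
      · have c2 : |E τ| ≤ A * a τ.j := Wf99.tX_cs hw τ.sh M h
          (F := fun _ x => K (x (τ.e (Sh.twoL s))) (x (τ.e (Sh.twoR s))) - q s)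
          (G := fun _ x => K (x τ.p) (x τ.q) - q τ.j) (fun _ => Eg.const _) (fun _ => Eg.const _)
          hA (a0 _) ((e1 τ hτ fun x y => (K x y - q s) ^ 2).trans_le HA)
          ((hτ.TE_pair hw h fun x y => (K x y - q τ.j) ^ 2).trans_le (ha _ hτ.le e))
        rw [abs_mul, abs_mul, abs_of_nonneg (div_nonneg (ht _).1 zero_le_two)]
        calc _ ≤ g τ.j / 2 * (A * a τ.j) :=
              mul_le_mul (by linarith [hc τ hτ e]) c2 (abs_nonneg _) (by linarith [hg τ.j])
          _ = _ := by ring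
    · rw [sg_const_mul]
      push_cast at c1
      nlinarith [mul_le_mul_of_nonneg_left c1 hA]
  rw [sg_congr _ _ _ key, sg_add, sg_add, sg_const_mul, g1]
  rw [abs_le] at b1 b2 ⊢
  constructor <;> linarith [b1.1, b1.2, b2.1, b2.2]

end gen

variable {n : ℕ} {β : ℝ} {M : List (ℝ × ℝ × ℝ)} {q : ℕ → ℝ}

/-- **the coefficient of (MV) is `E Φ''²`** -/
theorem g1_Gn {s : ℕ} (hs : s < M.length) (h0 : dm (M.map (mxL n β)) 0 s = 0) :
    g1 (M.map (mxL n β)) s (Zs n β M q s) = Hess65.Gn (opS n β M q) s := by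
  have hs' : s < (opS n β M q).length := by rwa [opS_length]
  have h0' : dm (opS n β M q) 0 s = 0 := (Cav22.dm_tilt tilt_opS 0 s).trans h0
  have key : ∀ τ : GT (Sh.two s), τ.Mem _ (opS n β M q).length →
      (if τ.j = s then Zs n β M q s τ else 0) =
      (if τ.j = s then T4 (fun _ => 1) (opS n β M q) 0 spin s τ else 0) +
        (q s ^ 2 - 2 * q s * Gs n β M q s) * if τ.j = s then 1 else 0 := fun τ hτ => by
    split_ifs with e
    · have a1 : TE (fun _ => 1) τ.sh (opS n β M q) 0 (fun x => spin (x (τ.e (Sh.twoL s))) *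
          spin (x (τ.e (Sh.twoR s)))) = Gs n β M q s :=
        (hτ.TE_e wt_one90 _ 0 (pr2 s fun x y => spin x * spin y)).trans
          (Wt87.tX_two wt_one90 (fun x y => spin x * spin y) s _ 0)
      have a2 := hτ.TE_pair wt_one90 0 fun x y => spin x * spin y
      rw [e] at a2
      rw [show (q s ^ 2 - 2 * q s * Gs n β M q s) * 1 =
        q s ^ 2 - q s * Gs n β M q s - q s * Gs n β M q s by ring]
      nth_rw 1 [← a1]
      rw [Gs, ← a2, Zs, T4, ← Law.TE_const wt_one90 τ.sh (opS n β M q) 0 (q s ^ 2),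
        ← Law.TE_const_mul wt_one90, ← Law.TE_const_mul wt_one90, ← Law.TE_sub wt_one90,
        ← Law.TE_sub wt_one90, ← Law.TE_add wt_one90]
      refine congrArg (TE _ τ.sh _ 0) (funext fun x => ?_)
      simp only [GT.ev, pr2, oE, e]
      ring
    · ring
  rw [g1, ← sg_tilt _ tilt_opS, sg_congr _ _ _ key, sg_add, sg_const_mul, sg_ind wt_one90 hs' h0',
    sg_atom wt_one90 spin 0 hs' h0', Hess65.Gn]
  ring

theorem abs_Er_le {s : ℕ} {f : ℝ → ℝ} {A : ℝ} (hA : 0 ≤ A)
    (HA : Er n β M s (fun u => f u ^ 2) ≤ A ^ 2) : |Er n β M s f| ≤ A := by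
  have := Wf99.tX_cs wt_one90 (Sh.two s) (M.map (mxL n β)) 0
    (F := fun _ => pr2 s fun x y => f (ov x y)) (G := fun _ _ => 1) (fun _ => Eg.const _)
    (fun _ => Eg.const _) hA zero_le_one
    ((Wt87.tX_two wt_one90 (fun x y => f (ov x y) ^ 2) s _ 0).trans_le HA)
    (Law.TE_const wt_one90 _ _ _ _).le
  simp only [mul_one] at this
  rwa [Er, ← Wt87.tX_two wt_one90 (fun x y => f (ov x y)) s _ 0]

/-- **(MV), crude form**, two-sided -/
theorem mv_crude (hn : 0 < n) (H : OOk M q) (hM : Mono 0 (M.map (mxL n β))) {s : ℕ}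
    (hs : s < M.length) (h0 : dm (M.map (mxL n β)) 0 s = 0) {g a v : ℕ → ℝ} {A : ℝ} (hA : 0 ≤ A)
    (hg : ∀ j, 0 ≤ g j) (hc : ∀ τ : GT (Sh.two s), τ.Mem _ M.length → τ.j ≠ s →
      oTau n β M τ.j * |Zs n β M q s τ| ≤ g τ.j)
    (HA : Er n β M s (fun u => (u - q s) ^ 2) ≤ A ^ 2) (a0 : ∀ y, 0 ≤ a y)
    (ha : ∀ y ≤ M.length, y ≠ s → Er n β M y (fun u => (u - q y) ^ 2) ≤ a y ^ 2)
    (v0 : ∀ y, 0 ≤ v y) (hv : ∀ y ≤ M.length, y ≠ s → Er n β M y (fun u => (u - q y) ^ 4) ≤ v y ^ 2) :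
    |(1 - oTau n β M s * Hess65.Gn (opS n β M q) s) * Er n β M s fun u => (u - q s) ^ 2| ≤
      A * (|Gs n β M q s - q s| +
        20 * ∑ j ∈ Finset.range (M.length + 1), dm (M.map (mxL n β)) 0 j * (g j * a j) +
        cM n β M * ∑ j ∈ Finset.range (M.length + 1),
          dm (M.map (mxL n β)) 0 j * (oTau n β M j * v j)) +
      2 / n + 64 * oTau n β M M.length * pv (fun _ => 1) (M.map (mxL n β)) s ov 0 +
      3 * cM n β M * oTau n β M M.length * Er n β M s (fun u => |u - q s| ^ 3) := by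
  have hl : (M.map (mxL n β)).length = M.length := List.length_map _
  have ht := H.oTau_le n β
  have u0 : 0 ≤ Er n β M s fun u => |u - q s| ^ 3 :=
    pi2_nonneg wt_one90 _ _ (fun _ _ => by positivity) _
  obtain ⟨ψ, hψ⟩ : ∃ ψ, ψ = cb (fun _ => 1) (M.map (mxL n β)) 0 (oU q) s A v := ⟨_, rfl⟩
  have ψs : ψ s = Er n β M s fun u => |u - q s| ^ 3 := hψ ▸ if_pos rfl
  have HA' : pi2 (fun _ => 1) (M.map (mxL n β)) s (fun x x' => oU q s x x' ^ 2) 0 ≤ A ^ 2 := HA
  have hv' : ∀ y ≤ (M.map (mxL n β)).length, y ≠ s →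
      pi2 (fun _ => 1) (M.map (mxL n β)) y (fun x x' => oU q y x x' ^ 4) 0 ≤ v y ^ 2 :=
    fun y hy => hv y (hl ▸ hy)
  have C : Cu n β M q s ψ := by
    refine ⟨fun j => ?_, fun r a b p q' y h1 h2 h3 => ?_⟩ <;> rw [hψ]
    · rw [cb]
      split_ifs
      · exact u0
      · exact mul_nonneg hA (v0 j)
    · exact cub (U := oU q) wt_one90 0 hA HA' v0 hv' (emb_two (hs.trans_eq hl.symm) h1) h1 h2 h3
  have eN : Nv (M.map (mxL n β)) (fun j => oTau n β M j * ψ j) (Sh.two s) ≤
      2 * oTau n β M M.length * Er n β M s (fun u => |u - q s| ^ 3) +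
      A * ∑ j ∈ Finset.range (M.length + 1), dm (M.map (mxL n β)) 0 j * (oTau n β M j * v j) := by
    rw [Nv_two _ _ (hl.symm ▸ hs.le), hl, ψs, Finset.mul_sum]
    refine add_le_add (by nlinarith [(ht s).2]) (le_of_eq (Finset.sum_congr rfl fun j _ => ?_))
    by_cases e : j = s
    · rw [e, h0, zero_mul, zero_mul, mul_zero]
    · rw [hψ, cb, if_neg e]; ring
  have h1 := Cav22.taylor_le (f := fun k => iDn (fun _ => 1) (opL n β M q) 0 k (Sh.two s)
    (pr2 s fun x y => (oE q s x.2 y.2 - oU q s x.1 y.1) * oU q s x.1 y.1))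
    (fun k => continuousOn_iDn wt_one90 _ _ k _ _)
    (fun k _ hθ => hasDerivAt_iDn wt_one90 _ _ (iD_op_diag hn H) hθ k _ _)
    (T := 1) ⟨zero_le_one, le_rfl⟩ 1 fun θ hθ => mv_two hn H hM hs C hθ
  have h3 := abs_amp_op (β := β) hn H s
  rw [op, ← iDn_pr2 wt_one90] at h3
  have h4 := first_crude wt_one90 hM 0 (hl.symm ▸ hs) h0 (K := ov) (q := q)
    (fun τ hτ => abs_Zs (n := n) (β := β) H hs.le (hl ▸ hτ)) ht hA hg a0
    (fun τ hτ => hc τ (hl ▸ hτ)) HA fun y hy => ha y (hl ▸ hy)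
  rw [g1_Gn hs h0, hl] at h4
  have h5 := mv_one hn H hM hs C
  have h6 : |(Gs n β M q s - q s) * Er n β M s fun u => u - q s| ≤ A * |Gs n β M q s - q s| := by
    rw [abs_mul, mul_comm]
    exact mul_le_mul_of_nonneg_right (abs_Er_le hA HA) (abs_nonneg _)
  simp only [Finset.sum_range_succ _ 1, Finset.sum_range_succ _ 0, Finset.range_zero,
    Finset.sum_empty, zero_add, one_pow, mul_one,
    Nat.factorial_zero, Nat.factorial_one, Nat.cast_one, div_one, mv_zero hn H] at h1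
  have T0 := (ht M.length).1
  have c0 : 0 ≤ 92160 * oTau n β M M.length * exp (468 * oTau n β M M.length) := by positivity
  have c1 := mul_le_mul_of_nonneg_left eN (add_nonneg (show (0 : ℝ) ≤ 50 by norm_num) c0)
  have c3 := mul_nonneg T0 u0
  have c2 := mul_nonneg c0 c3
  rw [cM]
  simp only [Er] at h1 h5 h6 c1 c2 c3 ⊢
  generalize 92160 * oTau n β M M.length * exp (468 * oTau n β M M.length) = c at h1 c1 c2 ⊢
  rw [abs_le] at h1 h3 h4 h5 h6 ⊢
  constructor <;> linarith [h1.1, h1.2, h3.1, h3.2, h4.1, h4.2, h5.1, h5.2, h6.1, h6.2]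

end Crest.Agent.T156.Cas.Apt7

end
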