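import Crest.Agent.T156.R1Mix_65
import Crest.Agent.T156.WSg_38
import Crest.Agent.T156.R1J_60

/-!
Row 156 (helper65): sizes of the site words with one, two and three letters.
-/

set_option autoImplicit false
set_option linter.unusedSectionVars false

noncomputable section

namespace Crest.Agent.T156.Hess65

open MeasureTheory Real Set Filter Topology
open Crest.Agent.T157.E Crest.Agent.T157.Casc Crest.Agent.T157.SL Crest.Agent.T157.Casc.C
open Crest.Agent.T157 Crest.Agent.T156.Cas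
open Crest.ProbabilityR.SpinGlassDynamics (spin)
open Crest.Agent.T156.Cas.One15 (mo bd mo_add mo_single abs_TE_mo w1)
open Crest.Agent.T156.Cas.Ker15 (R1 kk pk ev_mo odd_kk par1 PB sum_pk)
open Crest.Agent.T156.Cas.R1J (n1 ind off)

theorem W_eq (T : List (Lv Bool)) (k : ℕ) (V : List (ℕ → ℝ)) : R1J.W T k V = Wd T V k := rfl

/-- parity size -/
def pz (L : List (Lv Bool)) (i : ℕ) : ℝ := min 1 (Ker15.tm L i)

variable {L : List (Lv Bool)} {k : ℕ}

theorem tm_nn (H : R1 L) (i : ℕ) : 0 ≤ Ker15.tm L i := by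
  have := H.tm_mono (Nat.zero_le i)
  rwa [show Ker15.tm L 0 = 0 by cases L <;> simp [Ker15.tm, cacc]] at this

theorem pz_nn (H : R1 L) (i : ℕ) : 0 ≤ pz L i := le_min zero_le_one (tm_nn H i)

theorem pz_mono (H : R1 L) {i j : ℕ} (h : i ≤ j) : pz L i ≤ pz L j :=
  min_le_min le_rfl (H.tm_mono h)

theorem parE (H : R1 L) (hM : Mono 0 L) (s : Sh) (c : s.Lf → ℕ) {a : s.Lf} {j : ℕ}
    (hN : Fintype.card s.Lf ≤ 6) (ha : Odd (bd s c a j)) :
    |TE (fun _ => 1) s L 0 (mo c)| ≤ 4608 * pz L j := by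
  have t0 := tm_nn H j
  rcases le_total 1 (Ker15.tm L j) with h | h
  · rw [pz, min_eq_left h]
    linarith [abs_TE_mo s L 0 c]
  · rw [pz, min_eq_right h]
    refine le_of_forall_pos_le_add fun ε hε => ?_
    have s0 : 0 < min 1 (Ker15.tm L j + ε / 4608) := lt_min one_pos (by positivity)
    refine (par1 H hM s c hN ha s0 (le_min h (by linarith [div_pos hε (by norm_num : (0:ℝ) < 4608)]))).trans ?_
    have e1 : exp (1 / 2 + √(min 1 (Ker15.tm L j + ε / 4608))) ≤ 8 := by
      have a1 : √(min 1 (Ker15.tm L j + ε / 4608)) ≤ 1 := sqrt_le_one.2 (min_le_left _ _)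
      refine (exp_le_exp.2 (show _ ≤ 1 + 1 by linarith)).trans ?_
      rw [exp_add]
      nlinarith [exp_one_lt_d9, exp_pos 1]
    have e2 := min_le_right 1 (Ker15.tm L j + ε / 4608)
    unfold PB
    push_cast
    nlinarith

/-- all branches above the depth `i` are even -/
def Ev (s : Sh) (c : s.Lf → ℕ) (i : ℕ) : Prop := ∀ a, Even (bd s c a i)

theorem bd_add (s : Sh) (c c' : s.Lf → ℕ) (a : s.Lf) (i : ℕ) :
    bd s (c + c') a i = bd s c a i + bd s c' a i := by
  simp only [bd, Pi.add_apply, ite_add_zero, Finset.sum_add_distrib]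

theorem bd_single (s : Sh) (p a : s.Lf) (i : ℕ) :
    bd s (Pi.single p 1) a i = if s.shr a p (i + 1) = i + 1 then 1 else 0 := by
  rw [bd, Finset.sum_eq_single p (fun b _ hb => by simp [hb]) (by simp)]
  simp

theorem ev_pair {s : Sh} {p q : s.Lf} {i : ℕ} (h : s.shr p q (i + 1) = i + 1) (a : s.Lf) :
    Even (bd s (Pi.single p 1) a i + bd s (Pi.single q 1) a i) := by
  rw [bd_single, bd_single, Wt87.shr_congr s h, ← two_mul]
  exact even_two_mul _

theorem odd_pair' {s : Sh} {p q : s.Lf} {i : ℕ} (h : s.shr p q (i + 1) ≠ i + 1) :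
    Odd (bd s (Pi.single p 1) p i + bd s (Pi.single q 1) p i) := by
  rw [bd_single, bd_single, if_pos (Wt87.shr_self _ _ _), if_neg h]
  exact odd_one

theorem ev_pk {s : Sh} {n : ℕ} {τ : GT s} (H : τ.Mem s n) {c : s.Lf → ℕ} {i : ℕ} (h : Ev s c i) :
    Ev τ.sh (pk τ.e c) i := fun a => by
  rw [bd, sum_pk τ.e c fun b => τ.sh.shr a b (i + 1) = i + 1]
  by_cases e : ∃ b, τ.sh.shr a (τ.e b) (i + 1) = i + 1
  · obtain ⟨b, hb⟩ := e
    have : ∀ b', τ.sh.shr a (τ.e b') (i + 1) = s.shr b b' (i + 1) := fun b' => by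
      rw [Wt87.shr_comm, Wt87.shr_congr τ.sh hb, Wt87.shr_comm, H.shr_e]
    simp only [this]
    exact h b
  · rw [Finset.sum_eq_zero fun b _ => if_neg fun hb => e ⟨b, hb⟩]
    exact Even.zero

theorem shr_cut {s : Sh} {n : ℕ} {τ : GT s} (H : τ.Mem s n) {i : ℕ} (hi : i < n) :
    τ.sh.shr τ.p τ.q (i + 1) = min (i + 1) τ.j := by
  have := Wt87.shr_min τ.sh τ.p τ.q (i + 1) n
  rwa [min_eq_left hi, H.shr] at this

theorem ev_kk {s : Sh} {n : ℕ} {τ : GT s} (H : τ.Mem s n) {c : s.Lf → ℕ} {i : ℕ} (hi : i < τ.j)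
    (h : Ev s c i) : Ev τ.sh (kk τ c) i := fun a => by
  rw [kk, bd_add, bd_add, add_assoc]
  exact (ev_pk H h a).add (ev_pair (by rw [shr_cut H (hi.trans_le H.le), min_eq_left hi]) a)

theorem odd_new {s : Sh} {n : ℕ} {τ : GT s} (H : τ.Mem s n) {c : s.Lf → ℕ} (hi : τ.j < n)
    (h : Ev s c τ.j) : Odd (bd τ.sh (kk τ c) τ.p τ.j) := by
  rw [kk, bd_add, bd_add, add_assoc]
  exact (ev_pk H h _).add_odd (odd_pair' (by rw [shr_cut H hi]; omega))

/-- the exponents of the test pair -/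
def c0 (k : ℕ) : (Sh.two k).Lf → ℕ := Pi.single (Sh.twoL k) 1 + Pi.single (Sh.twoR k) 1

theorem ev_c0 {i : ℕ} (h : i < k) : Ev (Sh.two k) (c0 k) i := fun a => by
  rw [c0, bd_add]
  exact ev_pair (by rw [Wt87.shr_two, min_eq_right h]) a

theorem odd_c0 (k : ℕ) : Odd (bd (Sh.two k) (c0 k) (Sh.twoL k) k) := by
  rw [c0, bd_add]
  exact odd_pair' (by rw [Wt87.shr_two]; omega)

theorem F0_eq (k : ℕ) : (fun x : (Sh.two k).Lf → Bool => spin (x (Sh.twoL k)) * spin (x (Sh.twoR k))) =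
    fun x => 1 * mo (c0 k) x := by
  funext x
  rw [c0, mo_add, mo_single, mo_single, one_mul]

theorem ev_lt {s : Sh} (τ : GT s) (f : ℕ → ℝ) (a : ℝ) (c : s.Lf → ℕ) :
    τ.ev (lt2 f) (fun x => a * mo c x) = fun x => a * (f τ.j / 2) * mo (kk τ c) x :=
  ev_mo τ (fun _ _ => rfl) a c

theorem Wd1_eq (L : List (Lv Bool)) (f : ℕ → ℝ) (k : ℕ) : Wd L [f] k = sg (-1) L (Sh.two k) fun τ =>
    1 * (f τ.j / 2) * TE (fun _ => 1) τ.sh L 0 (mo (kk τ (c0 k))) := by
  simp only [Wd, twoF, List.map, WdO_cons, WdO_nil, Dop_eq_sg, F0_eq, ev_lt, TEf,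
    Law.TE_const_mul w1]

theorem Wd2_eq (L : List (Lv Bool)) (f g : ℕ → ℝ) (k : ℕ) : Wd L [f, g] k =
    sg (-1) L (Sh.two k) fun τ => sg (-1) L τ.sh fun τ' => 1 * (f τ.j / 2) * (g τ'.j / 2) *
      TE (fun _ => 1) τ'.sh L 0 (mo (kk τ' (kk τ (c0 k)))) := by
  simp only [Wd, twoF, List.map, WdO_cons, WdO_nil, Dop_eq_sg, F0_eq, ev_lt, TEf,
    Law.TE_const_mul w1]

theorem Wd3_eq (L : List (Lv Bool)) (f g h : ℕ → ℝ) (k : ℕ) : Wd L [f, g, h] k =
    sg (-1) L (Sh.two k) fun τ => sg (-1) L τ.sh fun τ' => sg (-1) L τ'.sh fun τ'' =>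
      1 * (f τ.j / 2) * (g τ'.j / 2) * (h τ''.j / 2) *
      TE (fun _ => 1) τ''.sh L 0 (mo (kk τ'' (kk τ' (kk τ (c0 k))))) := by
  simp only [Wd, twoF, List.map, WdO_cons, WdO_nil, Dop_eq_sg, F0_eq, ev_lt, TEf,
    Law.TE_const_mul w1]

theorem I_abs (L : List (Lv Bool)) (k : ℕ) (f : ℕ → ℝ) :
    Ws38.I L k (fun y => |f y|) = n1 L f + |f k| := rfl

theorem n1_nn (hM : Mono 0 L) (f : ℕ → ℝ) : 0 ≤ n1 L f :=
  Finset.sum_nonneg fun j _ => mul_nonneg (dm_nonneg hM j) (abs_nonneg _)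

theorem n1_ind (hk : k ≤ L.length) : n1 L (ind k) = dm L 0 k := by
  rw [n1, Finset.sum_eq_single k (fun b _ hb => by simp [ind, hb]) (by simp; omega)]
  simp [ind]

theorem dm_le_one (hM : Mono 0 L) (hk : k ≤ L.length) : dm L 0 k ≤ 1 := by
  have := Finset.single_le_sum (f := fun j => dm L 0 j) (fun j _ => dm_nonneg hM j)
    (Finset.mem_range.2 (Nat.lt_succ_of_le hk))
  rwa [sum_dm, ex_length, sub_zero] at this

variable (H : R1 L) (hM : Mono 0 L) (hk : k ≤ L.length)
include H hM hk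

/-- **one letter off the node**: kernel `min (σ_y, σ_k)` -/
theorem abs_Wd1 {f : ℕ → ℝ} (h0 : f k = 0) :
    |Wd L [f] k| ≤ 184320 * n1 L fun y => f y * pz L (min y k) := by
  rw [Wd1_eq]
  refine (Ws38.W1 hM hk (D := fun y => 2304 * |f y * pz L (min y k)|) (fun y => by positivity)
    fun τ hτ => ?_).trans (le_of_eq ?_)
  · rw [abs_mul, abs_mul, abs_mul, abs_one, abs_div, abs_two, abs_of_nonneg (pz_nn H _)]
    have c := hτ.card
    rw [Wt87.card_two] at c
    have key : τ.j ≠ k → |TE (fun _ => 1) τ.sh L 0 (mo (kk τ (c0 k)))| ≤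
        4608 * pz L (min τ.j k) := fun hne => by
      rcases lt_or_gt_of_ne hne with h | h
      · rw [min_eq_left h.le]
        exact parE H hM _ _ (by omega) (odd_new hτ (h.trans_le hk) (ev_c0 h))
      · rw [min_eq_right h.le]
        exact parE H hM _ _ (by omega) (odd_kk hτ h (odd_c0 k))
    by_cases e : τ.j = k
    · rw [e, h0]
      simp
    · have := mul_le_mul_of_nonneg_left (key e) (abs_nonneg (f τ.j))
      linarith
  · rw [Ws38.I_mul, I_abs, h0]
    simp only [zero_mul, abs_zero]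
    ring

/-- crude bound, one letter -/
theorem abs_Wd1c (f : ℕ → ℝ) : |Wd L [f] k| ≤ 40 * (n1 L f + |f k|) := by
  rw [Wd1_eq]
  refine (Ws38.W1 hM hk (D := fun y => 1 / 2 * |f y|) (fun y => by positivity)
    fun τ hτ => ?_).trans (le_of_eq ?_)
  · rw [abs_mul, abs_mul, abs_one, abs_div, abs_two]
    have := mul_le_mul_of_nonneg_left (abs_TE_mo τ.sh L 0 (kk τ (c0 k))) (abs_nonneg (f τ.j))
    linarith
  · rw [Ws38.I_mul, I_abs]
    ring

omit H hM hk in
theorem I_abs2 (f g : ℕ → ℝ) :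
    Ws38.I L k (fun y => |f y| * |g y|) = n1 L (fun y => f y * g y) + |f k * g k| := by
  simp only [← abs_mul, I_abs]

omit H hM in
theorem I_ite (a : ℕ) (ha : a ≤ L.length) (f : ℕ → ℝ) :
    Ws38.I L k (fun y => if y = a then f y else 0) = Ws38.mu L k a * f a := by
  rw [← Ws38.sum_mu hk, Finset.sum_eq_single a (fun b _ hb => by simp [hb])
    fun h => absurd (Finset.mem_range.2 (by omega)) h, if_pos rfl]

omit H in
theorem mu_le {a : ℕ} (ha : a ≤ L.length) : Ws38.mu L k a ≤ 2 := by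
  have := dm_le_one hM ha
  unfold Ws38.mu
  split_ifs <;> linarith

/-- crude bound, two letters -/
theorem abs_Wd2c (f g : ℕ → ℝ) : |Wd L [f, g] k| ≤ 4500 ^ 2 *
    ((n1 L f + |f k|) * (n1 L g + |g k|) + (n1 L (fun y => f y * g y) + |f k * g k|)) := by
  rw [Wd2_eq]
  refine (Ws38.W2 hM hk (D := fun y y' => |f y| * |g y'|) (fun y y' => by positivity)
    fun τ hτ τ' hτ' => ?_).trans (le_of_eq ?_)
  · rw [abs_mul, abs_mul, abs_mul, abs_one, abs_div, abs_div, abs_two]
    have a := mul_nonneg (abs_nonneg (f τ.j)) (abs_nonneg (g τ'.j))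
    have := mul_le_mul_of_nonneg_left (abs_TE_mo τ'.sh L 0 (kk τ' (kk τ (c0 k)))) a
    linarith
  · simp only [Ws38.I_add, Ws38.I_mul, Ws38.I_mul', I_abs2, I_abs]

/-- crude bound, three letters -/
theorem abs_Wd3c (f g h : ℕ → ℝ) : |Wd L [f, g, h] k| ≤ 4500 ^ 3 *
    ((n1 L f + |f k|) * (n1 L g + |g k|) * (n1 L h + |h k|) +
      (n1 L (fun y => f y * h y) + |f k * h k|) * (n1 L g + |g k|) +
      (n1 L f + |f k|) * (n1 L (fun y => g y * h y) + |g k * h k|) +
      (n1 L (fun y => f y * g y) + |f k * g k|) * (n1 L h + |h k|) +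
      2 * (n1 L (fun y => f y * g y * h y) + |f k * g k * h k|)) := by
  rw [Wd3_eq]
  refine (Ws38.W3 hM hk (D := fun y y' y'' => |f y| * |g y'| * |h y''|)
    (fun y y' y'' => by positivity) (E := fun _ => 0) (fun _ => le_rfl)
    fun τ hτ τ' hτ' τ'' hτ'' => ?_).trans (le_of_eq ?_)
  · rw [abs_mul, abs_mul, abs_mul, abs_mul, abs_one, abs_div, abs_div, abs_div, abs_two, ite_self]
    have a := mul_nonneg (mul_nonneg (abs_nonneg (f τ.j)) (abs_nonneg (g τ'.j)))
      (abs_nonneg (h τ''.j))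
    have := mul_le_mul_of_nonneg_left
      (abs_TE_mo τ''.sh L 0 (kk τ'' (kk τ' (kk τ (c0 k))))) a
    linarith
  · have e1 : ∀ y, Ws38.I L k (Ws38.T3 L k (fun y y' y'' => |f y| * |g y'| * |h y''|) y) =
        |f y| * ((n1 L g + |g k|) * (n1 L h + |h k|)) + |f y * h y| * (n1 L g + |g k|) +
          |f y| * (n1 L (fun y => g y * h y) + |g k * h k|) := fun y => by
      have : Ws38.T3 L k (fun y y' y'' => |f y| * |g y'| * |h y''|) y = fun y' =>
          |f y| * (n1 L h + |h k|) * |g y'| + |f y * h y| * |g y'| + |f y| * |g y' * h y'| := by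
        funext y'
        simp only [Ws38.T3, Ws38.I_mul, I_abs, abs_mul]
        ring
      simp only [this, Ws38.I_add, Ws38.I_mul, I_abs]
      ring
    have e2 : ∀ y, Ws38.T3 L k (fun y y' y'' => |f y| * |g y'| * |h y''|) y y =
        |f y * g y| * (n1 L h + |h k|) + 2 * |f y * g y * h y| := fun y => by
      simp only [Ws38.T3, Ws38.I_mul, I_abs, abs_mul]
      ring
    simp only [e1, e2, Ws38.I_add, Ws38.I_mul, Ws38.I_mul', I_abs, mul_zero, ite_self,
      Finset.sum_const_zero]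
    ring

/-- **two letters**, with the parity gain on the non-local part -/
theorem abs_Wd2 (f g : ℕ → ℝ) : |Wd L [f, g] k| ≤ 4500 ^ 2 *
    (1152 * pz L k * (n1 L f * n1 L g) + 2 * (|f k| * n1 L g) + 2 * (|g k| * n1 L f) +
      2 * n1 L (fun y => f y * g y) + 8 * |f k * g k|) := by
  have p0 := pz_nn H k
  rw [Wd2_eq]
  refine (Ws38.W2 hM hk (D := fun y y' => 1152 * pz L k * (|off k f y| *
      if y' = y then 0 else |off k g y'|) + (if y = k then |f y| else 0) * |g y'| / 2 +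
      |f y| * (if y' = k then |g y'| else 0) / 2 + if y' = y then |f y * g y| / 2 else 0)
    (fun y y' => by positivity) fun τ hτ τ' hτ' => ?_).trans ?_
  · rw [abs_mul, abs_mul, abs_mul, abs_one, abs_div, abs_div, abs_two]
    have a := mul_nonneg (abs_nonneg (f τ.j)) (abs_nonneg (g τ'.j))
    have c := hτ.card
    have c' := hτ'.card
    rw [Wt87.card_two] at c
    have b := mul_le_mul_of_nonneg_left (abs_TE_mo τ'.sh L 0 (kk τ' (kk τ (c0 k)))) a
    have z : 0 ≤ 1152 * pz L k * (|off k f τ.j| * if τ'.j = τ.j then 0 else |off k g τ'.j|) := by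
      positivity
    by_cases h1 : τ.j = k
    · have : 0 ≤ |f τ.j| * (if τ'.j = k then |g τ'.j| else 0) / 2 := by positivity
      have : 0 ≤ if τ'.j = τ.j then |f τ.j * g τ.j| / 2 else 0 := by positivity
      rw [if_pos h1]
      linarith
    rw [if_neg h1]
    by_cases h5 : τ'.j = k
    · have : 0 ≤ if τ'.j = τ.j then |f τ.j * g τ.j| / 2 else 0 := by positivity
      rw [if_pos h5]
      linarith
    rw [if_neg h5]
    by_cases h7 : τ'.j = τ.j
    · rw [if_pos h7, if_pos h7, ← h7, abs_mul]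
      rw [← h7] at b a
      linarith
    have key : |TE (fun _ => 1) τ'.sh L 0 (mo (kk τ' (kk τ (c0 k))))| ≤ 4608 * pz L k := by
      rcases lt_or_gt_of_ne h7 with h | h
      · rcases lt_or_gt_of_ne h5 with e | e
        · exact (parE H hM _ _ (by omega) (odd_new hτ' (e.trans_le hk) (ev_kk hτ h (ev_c0 e)))).trans
            (mul_le_mul_of_nonneg_left (pz_mono H e.le) (by norm_num))
        · exact parE H hM _ _ (by omega) (odd_kk hτ' e (odd_kk hτ (e.trans h) (odd_c0 k)))
      · rcases lt_or_gt_of_ne h1 with e | e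
        · exact (parE H hM _ _ (by omega) (odd_kk hτ' h (odd_new hτ (e.trans_le hk) (ev_c0 e)))).trans
            (mul_le_mul_of_nonneg_left (pz_mono H e.le) (by norm_num))
        · exact parE H hM _ _ (by omega) (odd_kk hτ' (e.trans h) (odd_kk hτ e (odd_c0 k)))
    have := mul_le_mul_of_nonneg_left key a
    simp only [if_neg h7, off, if_neg h1, if_neg h5]
    linarith
  · refine mul_le_mul_of_nonneg_left ?_ (by norm_num)
    have nf := n1_nn hM f
    have ng := n1_nn hM g
    have of : n1 L (off k f) ≤ n1 L f := Finset.sum_le_sum fun j _ => mul_le_mul_of_nonneg_left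
      (by unfold off; split_ifs <;> simp) (dm_nonneg hM j)
    have og : n1 L (off k g) ≤ n1 L g := Finset.sum_le_sum fun j _ => mul_le_mul_of_nonneg_left
      (by unfold off; split_ifs <;> simp) (dm_nonneg hM j)
    have m2 := mu_le hM hk hk
    have m0 := Ws38.mu_nonneg hM k k
    refine (Ws38.I_mono hM hk (g := fun y => 1152 * pz L k * n1 L g * |off k f y| +
      (if y = k then |f y| * ((n1 L g + |g k|) / 2 + |g k|) else 0) + |f y| * |g k| +
        3 / 2 * |f y * g y|) fun y hy => ?_).trans ?_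
    · have i1 : Ws38.I L k (fun y' => if y' = y then 0 else |off k g y'|) ≤ n1 L g := by
        refine (Ws38.I_mono hM hk (g := fun y' => |off k g y'|) fun y' _ => ?_).trans ?_
        · split_ifs <;> simp
        · rw [I_abs, show off k g k = 0 from if_pos rfl, abs_zero, add_zero]
          exact og
      have i2 := I_ite hk y hy fun _ => |f y * g y| / 2
      have i3 := I_ite hk k hk fun y' => |g y'|
      have my := mu_le hM hk hy
      simp only [Ws38.I_add, div_eq_mul_inv, Ws38.I_mul, Ws38.I_mul', I_abs, if_true] at i2 ⊢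
      rw [i2, i3]
      have a1 := mul_le_mul_of_nonneg_left i1 (mul_nonneg (mul_nonneg (by norm_num : (0:ℝ) ≤ 1152) p0)
        (abs_nonneg (off k f y)))
      have a2 := mul_le_mul_of_nonneg_left m2 (mul_nonneg (abs_nonneg (f y)) (abs_nonneg (g k)))
      have a3 := mul_le_mul_of_nonneg_left my (abs_nonneg (f y * g y))
      by_cases e : y = k
      · simp only [if_pos e]
        subst e
        nlinarith
      · simp only [if_neg e]
        nlinarith
    · simp only [Ws38.I_add, Ws38.I_mul, Ws38.I_mul', I_abs]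
      rw [I_ite hk k hk, show off k f k = 0 from if_pos rfl, abs_zero, add_zero, abs_mul]
      have a0 := abs_nonneg (f k)
      have b0 := abs_nonneg (g k)
      have a1 := mul_le_mul_of_nonneg_left of (mul_nonneg (mul_nonneg (by norm_num : (0:ℝ) ≤ 1152) p0) ng)
      have a2 := mul_le_mul_of_nonneg_right m2
        (show 0 ≤ |f k| * ((n1 L g + |g k|) / 2 + |g k|) by positivity)
      have := n1_nn hM fun y => f y * g y
      have := mul_nonneg a0 ng
      have := mul_nonneg a0 b0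
      have := mul_nonneg b0 nf
      nlinarith

end Crest.Agent.T156.Hess65

end
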