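import Crest.Agent.T156.R1J_60
import Crest.Agent.T156.R1Mix_65

/-!
# Row 156: one step of the test node, `R1J.S5` (helper21)

A weightless node is inserted between the nodes `i` and `i + 1` and moved from one to the other.
-/

set_option autoImplicit false
set_option linter.unusedSectionVars false

noncomputable section

namespace Crest.Agent.T156.Cas.R1J.S21

open Real Set Filter Topology
open Crest.Agent.T157.E Crest.Agent.T157.Casc Crest.Agent.T157.SL Crest.Agent.T157.Casc.C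
open Crest.ProbabilityR.SpinGlassDynamics (spin)
open Crest.Agent.T156.Pp.Area50 (lsg Up lsg_succ lsg_zero)
open Crest.Agent.T156.Hess65 (Wd Wd_rk1 pth rk1_pth der_pth cont_pth cont_Wd pth_okC eq_lsg)
open Crest.Agent.T156.Cas.Ker15 (dn z0 z0_cov R1)

variable {T L L' : List (Lv Bool)} {k : ℕ}

theorem W_eq (T : List (Lv Bool)) (k : ℕ) (fs : List (ℕ → ℝ)) : W T k fs = Wd T fs k := rfl

theorem W_perm {fs fs' : List (ℕ → ℝ)} (p : fs.Perm fs') (h0 : ∀ f ∈ fs, f 0 = 0) :
    W T k fs = W T k fs' := by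
  rw [W, W, WdO_perm One15.w1 T 0 (p.map sk) fun S hS => ?_]
  obtain ⟨f, hf, rfl⟩ := List.mem_map.1 hS
  refine ⟨by funext a b; simp [sk, h0 f hf], f T.length / 2, fun y => ?_⟩
  rw [sk, ← sq, One15.spin_sq, mul_one]

theorem W_lin (a b : ℝ) (f g : ℕ → ℝ) (fs : List (ℕ → ℝ)) :
    W T k ((fun j => a * f j + b * g j) :: fs) = a * W T k (f :: fs) + b * W T k (g :: fs) := by
  have e : sk (fun j => a * f j + b * g j) = fun j x y => a * sk f j x y + b * sk g j x y := by
    funext j x y; simp only [sk]; ring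
  simp only [W, List.map_cons, WdO_cons, twoF, e]
  exact ((isLin_TEf One15.w1 T 0).wdO T _).dopS T a b _ _ _ _

/-! ### empty slices of any tilt -/

variable {z z' σ : ℕ → ℝ} {N N' : ℕ}

theorem len_rk (H : List.Forall₂ (Rk1 spin) L (lsg z σ N)) : L.length = N := by
  rw [H.length_eq, lsg, List.length_ofFn]

theorem wd_of_base {ν : ℕ → ℕ} (zero : ν 0 = 0) (le : ∀ j ≤ N', ν j ≤ N)
    (step : ∀ j < N', ν (j + 1) = ν j ∨ ν (j + 1) = ν j + 1)
    (base : ∀ {σ : ℕ → ℝ}, Up σ N → ∀ {L L' : List (Lv Bool)},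
      List.Forall₂ (Rk1 spin) L (lsg z σ N) →
      List.Forall₂ (Rk1 spin) L' (lsg z' (fun j => σ (ν j)) N') → Wd L' [] k = Wd L [] (ν k))
    (V : List (ℕ → ℝ)) (hV : ∀ f ∈ V, f 0 = 0) :
    ∀ {σ : ℕ → ℝ}, Up σ N → ∀ {L L' : List (Lv Bool)},
      List.Forall₂ (Rk1 spin) L (lsg z σ N) →
      List.Forall₂ (Rk1 spin) L' (lsg z' (fun j => σ (ν j)) N') →
      Wd L' (V.map fun f j => f (ν j)) k = Wd L V (ν k) := by
  have hup : ∀ {σ : ℕ → ℝ}, Up σ N → Up (fun j => σ (ν j)) N' := fun hσ j hj =>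
    hσ.le (by rcases step j hj with e | e <;> omega) (le _ hj)
  induction V using List.reverseRecOn with
  | nil => intro σ hσ L L' H H'; exact base hσ H H'
  | append_singleton V f ih =>
    have ih' := @ih fun g hg => hV g (by simp [hg])
    have f0 := hV f (by simp)
    have strict : ∀ {σ : ℕ → ℝ}, (∀ j < N, σ j < σ (j + 1)) →
        ∀ {L L' : List (Lv Bool)}, List.Forall₂ (Rk1 spin) L (lsg z σ N) →
        List.Forall₂ (Rk1 spin) L' (lsg z' (fun j => σ (ν j)) N') →
        Wd L' ((V ++ [f]).map fun f j => f (ν j)) k = Wd L (V ++ [f]) (ν k) := by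
      intro σ hσ L L' H H'
      have : ∀ᶠ t in 𝓝 (0 : ℝ), ∀ j ∈ Finset.range N, 0 < σ (j + 1) - σ j + (f (j + 1) - f j) * t :=
        (Finset.eventually_all _).2 fun j hj => continuousAt_const.eventually_lt (by fun_prop)
          (by simpa using hσ j (Finset.mem_range.1 hj))
      obtain ⟨I, hI, oI, i0⟩ := eventually_nhds_iff.1 this
      have up : ∀ t ∈ I, Up (fun j => σ j + t * f j) N := fun t ht j hj => by
        have := hI t ht j (Finset.mem_range.2 hj)
        show σ j + t * f j ≤ σ (j + 1) + t * f (j + 1)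
        linarith
      have d1 := der_pth (z := z) (s := σ) oI
        (fun j hj => Or.inr fun t ht => hI t ht j (Finset.mem_range.2 hj)) f0 i0 V (ν k)
      have d2 := der_pth (z := z') (s := fun j => σ (ν j)) (f := fun j => f (ν j)) (N := N') oI
        (fun j hj => by
          rcases step j hj with a | a
          · exact Or.inl (by rw [a, sub_self])
          · refine Or.inr fun t ht => ?_
            have := le (j + 1) hj
            rw [a]
            exact hI t ht _ (Finset.mem_range.2 (by omega))) (by rw [zero, f0]) i0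
        (V.map fun f j => f (ν j)) k
      have e := d2.unique (d1.congr_of_eventuallyEq (by
        filter_upwards [oI.mem_nhds i0] with t ht
        exact ih' (σ := fun j => σ j + t * f j) (up t ht)
          (rk1_pth t N z σ f (up t ht)) (rk1_pth t N' z' _ _ (hup (up t ht)))))
      have R := rk1_pth 0 N z σ f (up 0 i0)
      have R' := rk1_pth 0 N' z' (fun j => σ (ν j)) (fun j => f (ν j)) (hup (up 0 i0))
      simp only [zero_mul, add_zero] at R R'
      rw [Wd_rk1 R H, Wd_rk1 R' H'] at e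
      rw [List.map_append]
      exact e
    intro σ hσ L L' H H'
    have up : ∀ t, 0 ≤ t → Up (fun j => σ j + t * j) N := fun t a j hj => by
      have := hσ j hj
      show σ j + t * j ≤ σ (j + 1) + t * (j + 1 : ℕ)
      push_cast
      linarith
    have c1 := cont_pth z σ (fun j => j) N (V ++ [f]) (ν k) 0 (by simp)
    have c2 := cont_pth z' (fun j => σ (ν j)) (fun j => ν j) N'
      ((V ++ [f]).map fun f j => f (ν j)) k 0 (by simp)
    have e : ∀ t ∈ Ioc (0 : ℝ) 1, Wd (mat (pth z' (fun j => σ (ν j)) (fun j => ν j) N') t)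
        ((V ++ [f]).map fun f j => f (ν j)) k =
        Wd (mat (pth z σ (fun j => j) N) t) (V ++ [f]) (ν k) := fun t ht =>
      strict (σ := fun j => σ j + t * j) (fun j hj => by
          have := hσ j hj
          have := ht.1
          show σ j + t * j < σ (j + 1) + t * (j + 1 : ℕ)
          push_cast
          linarith) (rk1_pth t N z σ _ (up t ht.1.le))
        (rk1_pth t N' z' _ _ (hup (up t ht.1.le)))
    have R := rk1_pth 0 N z σ _ (up 0 le_rfl)
    have R' := rk1_pth 0 N' z' (fun j => σ (ν j)) (fun j => ν j) (hup (up 0 le_rfl))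
    simp only [zero_mul, add_zero] at R R'
    rw [← Wd_rk1 R H, ← Wd_rk1 R' H']
    exact le_antisymm
      (ContinuousWithinAt.closure_le (s := Ioc 0 1) (x := 0) (by simp)
        (c2.mono Ioc_subset_Icc_self) (c1.mono Ioc_subset_Icc_self) fun t ht => (e t ht).le)
      (ContinuousWithinAt.closure_le (s := Ioc 0 1) (x := 0) (by simp)
        (c1.mono Ioc_subset_Icc_self) (c2.mono Ioc_subset_Icc_self) fun t ht => (e t ht).ge)

theorem dn_succ (c j : ℕ) : dn (c + 1) (j + 1) = dn c j + 1 := by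
  rw [dn, dn]; split_ifs <;> omega

theorem rk1_ins : ∀ (c N : ℕ) (z z' σ : ℕ → ℝ) (L : List (Lv Bool)), c ≤ N →
    List.Forall₂ (Rk1 spin) L (lsg z σ N) → (∀ j < c, z' j = z j) → (∀ j, c ≤ j → z' (j + 1) = z j) →
    List.Forall₂ (Rk1 spin) (L.take c ++ z0 Bool (z' c) :: L.drop c)
      (lsg z' (fun j => σ (dn c j)) (N + 1))
  | 0, N, z, z', σ, L, _, H, _, h2 => by
    rw [lsg_succ]
    have e : ∀ j, dn 0 (j + 1) = j := fun j => by simp [dn]
    simp only [e, h2 _ (Nat.zero_le _)]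
    exact .cons ⟨rfl, by simp [dn], fun a b => by simp [dn, z0_cov]⟩ H
  | _ + 1, 0, _, _, _, _, h, _, _, _ => absurd h (by omega)
  | c + 1, N + 1, z, z', σ, L, h, H, h1, h2 => by
    rw [lsg_succ] at H ⊢
    cases H with
    | cons a H =>
      simp only [dn_succ]
      refine .cons ?_ (rk1_ins c N (fun j => z (j + 1)) (fun j => z' (j + 1)) (fun j => σ (j + 1)) _
        (by omega) H (fun j hj => h1 _ (by omega)) fun j hj => h2 _ (by omega))
      rw [h1 0 (by omega)]
      simpa [dn] using a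

/-- **an empty slice of any tilt does not matter** -/
theorem wd_ins {c : ℕ} (hc : c ≤ N) (h1 : ∀ j < c, z' j = z j) (h2 : ∀ j, c ≤ j → z' (j + 1) = z j)
    (hk : k ≤ N) (hσ : Up σ N) (H : List.Forall₂ (Rk1 spin) L (lsg z σ N))
    (H' : List.Forall₂ (Rk1 spin) L' (lsg z' (fun j => σ (dn c j)) (N + 1)))
    (V : List (ℕ → ℝ)) (hV : ∀ f ∈ V, f 0 = 0) :
    W L' k (V.map fun f j => f (dn c j)) = W L (dn c k) V := by
  refine wd_of_base (ν := dn c) (by simp [dn]) (fun j hj => by rw [dn]; split_ifs <;> omega)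
    (fun j _ => by rw [dn, dn]; split_ifs <;> omega) (fun {σ} _ {L L'} H H' => ?_) V hV hσ H H'
  have l1 := len_rk H
  have l2 : (L.take c).length = c := List.length_take_of_le (by omega)
  have ne : Sh.twoL k ≠ Sh.twoR k := fun e => by
    have h1 := Wt87.shr_two k (k + 1)
    rw [e, Wt87.shr_self] at h1
    omega
  rw [← Wd_rk1 (rk1_ins c N z z' σ L hc H h1 h2) H']
  have key := Ker15.TE_del One15.w1 (l := z0 Bool (z' c)) (a := Empty.elim) (fun _ => rfl) (L.drop c)
    (Sh.two k) (L.take c) (fun x => spin (x (Sh.twoL k)) * spin (x (Sh.twoR k))) 0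
  rw [l2, List.take_append_drop, Tay38.TE_pair One15.w1 (fun a b => spin a * spin b) _ L 0 _ _
    fun e => ne (Ker15.delL_inj _ _ e), Ker15.shr_del _ _ _ _ _ (by omega), Wt87.shr_two,
    min_eq_left (by omega)] at key
  exact key.trans (twoF_TEf One15.w1 _ _ L 0).symm

/-! ### the refined cascades -/

theorem ex_rk : ∀ (N : ℕ) (z σ : ℕ → ℝ) (L : List (Lv Bool)),
    List.Forall₂ (Rk1 spin) L (lsg z σ N) → ∀ j, ex L j = if j < N then z j else 1
  | 0, z, σ, L, H, j => by
    rw [lsg_zero] at H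
    cases H
    simp [T157.Casc.ex]
  | N + 1, z, σ, L, H, j => by
    rw [lsg_succ] at H
    cases H with
    | cons a H =>
      cases j with
      | zero => simpa [T157.Casc.ex] using a.1
      | succ j => rw [ex_cons_succ, ex_rk N _ _ _ H j]; simp

theorem ex_top {Ω : Type} (L : List (Lv Ω)) {j : ℕ} (h : L.length ≤ j) : ex L j = 1 := by
  rw [T157.Casc.ex, List.getElem?_eq_none h]

theorem mono_of_ex {Ω : Type} : ∀ (L : List (Lv Ω)) (m : ℝ), m ≤ ex L 0 →
    (∀ j, ex L j ≤ ex L (j + 1)) → Mono m L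
  | [], _, h, _ => h
  | _ :: L, _, h, h' => ⟨h, mono_of_ex L _ (h' 0) fun j => h' (j + 1)⟩

theorem ex_mono (hT : Mono 0 T) : Monotone (ex T) := monotone_nat_of_le_succ fun j =>
  sub_nonneg.1 (dm_nonneg hT (j + 1))

theorem ind_self (k : ℕ) : ind k k = 1 := if_pos rfl

theorem ind_ne {k j : ℕ} (h : j ≠ k) : ind k j = 0 := if_neg h

theorem n1_ind (hk : k ≤ T.length) : n1 T (ind k) = dm T 0 k := by
  rw [n1, Finset.sum_eq_single k (fun j _ h => by rw [ind_ne h, abs_zero, mul_zero])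
    fun h => absurd (Finset.mem_range.2 (by omega)) h, ind_self, abs_one, mul_one]

theorem n1_mono (hT : Mono 0 T) {f g : ℕ → ℝ} (e : ∀ j, |f j| ≤ |g j|) : n1 T f ≤ n1 T g :=
  Finset.sum_le_sum fun j _ => mul_le_mul_of_nonneg_left (e j) (dm_nonneg hT j)

theorem n1_nonneg (hT : Mono 0 T) (f : ℕ → ℝ) : 0 ≤ n1 T f :=
  Finset.sum_nonneg fun j _ => mul_nonneg (dm_nonneg hT j) (abs_nonneg _)

/-- the cascade with a weightless node at the time `tm T i + t` -/
def Mt (T : List (Lv Bool)) (i : ℕ) (t : ℝ) : List (Lv Bool) :=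
  mat (pth (fun j => ex T (dn i j)) (fun j => Ker15.tm T (dn i j)) (ind (i + 1)) (T.length + 1)) t

/-- the time between the nodes -/
def Dl (T : List (Lv Bool)) (i : ℕ) : ℝ := Ker15.tm T (i + 1) - Ker15.tm T i

section ref
variable {i : ℕ} {p t : ℝ} (H : Nd T (i + 1) p)
include H

theorem rk_T : List.Forall₂ (Rk1 spin) T (lsg (ex T) (Ker15.tm T) T.length) := by
  have h := H.r1.rk
  have e : Ker15.tm T = Hess65.tm (T.map fun l => (l.m, l.cov true true)) :=
    funext fun j => Ker15.tm_eq h j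
  rw [e, ← eq_lsg h]
  exact h

theorem up_T : Up (Ker15.tm T) T.length := fun j _ => H.r1.tm_mono (Nat.le_succ j)

theorem Dl_nonneg : 0 ≤ Dl T i := sub_nonneg.2 (H.r1.tm_mono (Nat.le_succ i))

theorem rk_M (ht : t ∈ Icc 0 (Dl T i)) : List.Forall₂ (Rk1 spin) (Mt T i t)
    (lsg (fun j => ex T (dn i j)) (fun j => Ker15.tm T (dn i j) + t * ind (i + 1) j)
      (T.length + 1)) := by
  refine rk1_pth t _ _ _ _ fun j _ => ?_
  have m := fun a b => H.r1.tm_mono (i := a) (j := b)
  have h2 := ht.2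
  have h1 := ht.1
  rw [Dl] at h2
  show Ker15.tm T (dn i j) + t * ind (i + 1) j ≤
    Ker15.tm T (dn i (j + 1)) + t * ind (i + 1) (j + 1)
  rcases eq_or_ne j (i + 1) with rfl | a
  · rw [ind_self, ind_ne (by omega), show dn i (i + 1) = i by simp [dn],
      show dn i (i + 1 + 1) = i + 1 by rw [dn, if_neg (by omega)]; rfl]
    linarith
  · have := m (dn i j) (dn i (j + 1)) (by rw [dn, dn]; split_ifs <;> omega)
    have : 0 ≤ t * ind (i + 1) (j + 1) := mul_nonneg h1 (by unfold ind; split_ifs <;> norm_num)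
    rw [ind_ne a]
    linarith

theorem len_M (ht : t ∈ Icc 0 (Dl T i)) : (Mt T i t).length = T.length + 1 := len_rk (rk_M H ht)

theorem ex_M (ht : t ∈ Icc 0 (Dl T i)) (j : ℕ) : ex (Mt T i t) j = ex T (dn i j) := by
  rw [ex_rk _ _ _ _ (rk_M H ht)]
  split_ifs with a
  · rfl
  · have := H.kK
    exact (ex_top T (by rw [dn]; split_ifs <;> omega)).symm

theorem dm_lo (ht : t ∈ Icc 0 (Dl T i)) {j : ℕ} (hj : j ≤ i) : dm (Mt T i t) 0 j = dm T 0 j := by
  cases j with
  | zero => simp only [dm, exP, ex_M H ht, dn, Nat.zero_le, if_true]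
  | succ j => simp only [dm, exP, ex_M H ht, dn, hj, if_true, show j ≤ i by omega]

theorem dm_new (ht : t ∈ Icc 0 (Dl T i)) : dm (Mt T i t) 0 (i + 1) = 0 := by
  simp [dm, exP, ex_M H ht, dn]

theorem dm_hi (ht : t ∈ Icc 0 (Dl T i)) {j : ℕ} (hj : i ≤ j) :
    dm (Mt T i t) 0 (j + 2) = dm T 0 (j + 1) := by
  simp only [dm, exP, ex_M H ht, dn, show ¬j + 2 ≤ i by omega, show ¬j + 1 ≤ i by omega, if_false]
  rfl

theorem n1_M (ht : t ∈ Icc 0 (Dl T i)) (f : ℕ → ℝ) :
    n1 (Mt T i t) (fun j => f (dn (i + 1) j)) = n1 T f := by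
  obtain ⟨r, hr⟩ : ∃ r, T.length = i + 1 + r := Nat.exists_eq_add_of_le H.kK.le
  rw [n1, n1, len_M H ht, hr, show i + 1 + r + 1 + 1 = i + 1 + (r + 1 + 1) by ring,
    show i + 1 + r + 1 = i + 1 + (r + 1) by ring, Finset.sum_range_add _ (i + 1) (r + 1 + 1),
    Finset.sum_range_add _ (i + 1) (r + 1), Finset.sum_range_succ' _ (r + 1), Nat.add_zero,
    dm_new H ht, zero_mul, add_zero]
  congr 1
  · refine Finset.sum_congr rfl fun j hj => ?_
    have := Finset.mem_range.1 hj
    rw [dm_lo H ht (by omega), dn, if_pos (by omega)]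
  · refine Finset.sum_congr rfl fun j _ => ?_
    rw [show i + 1 + (j + 1) = i + j + 2 by ring, dm_hi H ht (by omega), dn, if_neg (by omega),
      show i + 1 + j = i + j + 1 by ring]
    rfl

theorem nd_M (ht : t ∈ Icc 0 (Dl T i)) : Nd (Mt T i t) (i + 1) (min p 1) := by
  have mo := ex_mono H.mono
  refine ⟨Ker15.r1_of (rk_M H ht), mono_of_ex _ _ ?_ fun j => ?_, H.k0, ?_,
    lt_min H.p0 one_pos, le_min (le_trans (min_le_min le_rfl ?_) H.par) (min_le_left _ _)⟩
  · rw [ex_M H ht]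
    exact le_trans (by simpa [dm, exP] using dm_nonneg H.mono 0) (mo (Nat.zero_le _))
  · rw [ex_M H ht, ex_M H ht]
    exact mo (by rw [dn, dn]; split_ifs <;> omega)
  · rw [len_M H ht]; have := H.kK; omega
  · have e := Hess65.tm_lsg (T.length + 1) (fun j => ex T (dn i j))
      (fun j => Ker15.tm T (dn i j) + t * ind (i + 1) j) (i + 1) (by have := H.kK; omega)
    have h2 := ht.2
    have h0 : Ker15.tm T 0 = 0 := by simp [Ker15.tm, cacc]
    rw [ex_M H ht, Ker15.tm_eq (rk_M H ht)]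
    rw [Hess65.tm] at e
    rw [e, ind_self, ind_ne (by omega), show dn i (i + 1) = i by simp [dn],
      show dn i 0 = 0 by simp [dn], h0]
    rw [Dl] at h2
    linarith [mo (Nat.le_succ i)]

theorem nd_lo (hi : 0 < i) : Nd T i p :=
  ⟨H.r1, H.mono, hi, (Nat.lt_succ_self i).trans H.kK, H.p0, le_trans (min_le_min le_rfl
    (add_le_add (ex_mono H.mono (Nat.le_succ i)) (H.r1.tm_mono (Nat.le_succ i)))) H.par⟩

theorem W_zero (V : List (ℕ → ℝ)) (hV : ∀ f ∈ V, f 0 = 0) :
    W (Mt T i 0) (i + 1) (V.map fun f j => f (dn i j)) = W T i V := by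
  have R := rk_M H (t := 0) ⟨le_rfl, Dl_nonneg H⟩
  simp only [zero_mul, add_zero] at R
  have := wd_ins (c := i) (k := i + 1) (by have := H.kK; omega)
    (fun j hj => by rw [dn, if_pos hj.le]) (fun j hj => by rw [dn, if_neg (by omega)]; rfl)
    H.kK.le (up_T H) (rk_T H) R V hV
  rwa [show dn i (i + 1) = i by simp [dn]] at this

theorem W_end (V : List (ℕ → ℝ)) (hV : ∀ f ∈ V, f 0 = 0) :
    W (Mt T i (Dl T i)) (i + 1) (V.map fun f j => f (dn (i + 1) j)) = W T (i + 1) V := by
  have R := rk_M H (t := Dl T i) ⟨Dl_nonneg H, le_rfl⟩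
  have e : (fun j => Ker15.tm T (dn i j) + Dl T i * ind (i + 1) j) =
      fun j => Ker15.tm T (dn (i + 1) j) := by
    funext j
    rcases eq_or_ne j (i + 1) with rfl | a
    · rw [ind_self, Dl]; simp [dn]
    · rw [ind_ne a, mul_zero, add_zero, show dn i j = dn (i + 1) j by
        rw [dn, dn]; split_ifs <;> omega]
  rw [e] at R
  have := wd_ins (c := i + 1) (k := i + 1) H.kK.le
    (fun j hj => by rw [dn, if_pos (by omega)]) (fun j hj => by rw [dn, if_neg (by omega)]; rfl)
    H.kK.le (up_T H) (rk_T H) R V hV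
  rwa [show dn (i + 1) (i + 1) = i + 1 by simp [dn]] at this

theorem der_M (ht : t ∈ Ioo 0 (Dl T i)) (V : List (ℕ → ℝ)) :
    HasDerivAt (fun u => W (Mt T i u) (i + 1) V) (W (Mt T i t) (i + 1) (V ++ [ind (i + 1)])) t := by
  refine der_pth isOpen_Ioo (fun j _ => ?_) (ind_ne (by omega)) ht V (i + 1)
  rcases eq_or_ne j i with rfl | a
  · refine Or.inr fun u hu => ?_
    rw [ind_self, ind_ne (by omega), show dn j (j + 1) = j by simp [dn], show dn j j = j by simp [dn]]
    linarith [hu.1]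
  rcases eq_or_ne j (i + 1) with rfl | b
  · refine Or.inr fun u hu => ?_
    have := hu.2
    rw [ind_self, ind_ne (by omega), show dn i (i + 1) = i by simp [dn],
      show dn i (i + 1 + 1) = i + 1 by rw [dn, if_neg (by omega)]; rfl]
    rw [Dl] at this
    linarith
  · exact Or.inl (by rw [ind_ne b, ind_ne (by omega), sub_self])

omit H in
theorem cont_M (D : ℝ) (V : List (ℕ → ℝ)) :
    ContinuousOn (fun u => W (Mt T i u) (i + 1) V) (Icc 0 D) := by
  have := cont_Wd (pth_okC (fun j => ex T (dn i j))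
    (fun j => Ker15.tm T (dn i j)) (ind (i + 1)) (T.length + 1) (isCompact_Icc (a := 0) (b := D)))
    V (i + 1)
  simp only [atL_tl] at this
  exact this

end ref

theorem mvt_le {g g' : ℝ → ℝ} {D B c : ℝ} (hc : ContinuousOn g (Icc 0 D))
    (hd : ∀ t ∈ Ioo 0 D, HasDerivAt g (g' t) t) (hB : ∀ t ∈ Ioo 0 D, |g' t - c| ≤ B) {x : ℝ}
    (hx : x ∈ Icc 0 D) : |g x - g 0 - x * c| ≤ x * B := by
  rcases hx.1.eq_or_lt with rfl | h
  · simp
  obtain ⟨θ, hθ, e⟩ := exists_hasDerivAt_eq_slope g g' h (hc.mono (Icc_subset_Icc le_rfl hx.2))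
    fun t ht => hd t ⟨ht.1, ht.2.trans_le hx.2⟩
  rw [sub_zero, eq_div_iff h.ne'] at e
  rw [← e, show g' θ * x - x * c = x * (g' θ - c) by ring, abs_mul, abs_of_pos h]
  exact mul_le_mul_of_nonneg_left (hB θ ⟨hθ.1, hθ.2.trans_le hx.2⟩) h.le

theorem off_eq {i k : ℕ} (hik : i ≠ k) (h : ℕ → ℝ) :
    off k h = fun j => 1 * off i (off k h) j + h i * ind i j := by
  funext j
  simp only [off, ind]
  split_ifs <;> simp_all

theorem off_comm (i k : ℕ) (h : ℕ → ℝ) : off i (off k h) = off k (off i h) := by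
  funext j
  simp only [off]
  split_ifs <;> rfl

theorem W_lin2 {f : ℕ → ℝ} (f0 : f 0 = 0) (a b : ℝ) {g g' : ℕ → ℝ} (g0 : g 0 = 0) (g0' : g' 0 = 0) :
    W T k [f, fun j => a * g j + b * g' j] = a * W T k [f, g] + b * W T k [f, g'] := by
  rw [W_perm (List.Perm.swap _ _ []) (by simp [f0, g0, g0']), W_lin,
    W_perm (List.Perm.swap f g []) (by simp [f0, g0]),
    W_perm (List.Perm.swap f g' []) (by simp [f0, g0'])]

/-- **(S5)** -/
theorem s5_of (h1 : S1) (h2 : S2) (h3 : S3) (h4 : S4) : S5 := by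
  obtain ⟨C1, c1, h1⟩ := h1
  obtain ⟨C2, c2, h2⟩ := h2
  obtain ⟨C3, c3, h3⟩ := h3
  obtain ⟨C4, c4, h4⟩ := h4
  refine ⟨C1 + C2 + C3 + C4, by linarith, fun T i p hi H h h0 Δ hΔ => ?_⟩
  obtain rfl : Δ = Dl T i := hΔ
  have D0 := Dl_nonneg H
  have Hl := nd_lo H hi
  have kK := H.kK
  set g := off i (off (i + 1) h) with hg
  have g0 : g 0 = 0 := by simp [hg, off, h0]
  have gi : g i = 0 := by simp [hg, off]
  have gi' : g (i + 1) = 0 := by simp [hg, off]
  have gh : n1 T g ≤ n1 T h := n1_mono H.mono fun j => by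
    simp only [hg, off]
    split_ifs <;> simp
  have N0 := n1_nonneg H.mono g
  set u : ℕ → ℝ := fun j => g (dn (i + 1) j) with hu
  have u' : (fun j => g (dn i j)) = u := by
    funext j
    rcases eq_or_ne j (i + 1) with rfl | a
    · simp [hu, dn, gi, gi']
    · rw [hu, show dn i j = dn (i + 1) j by rw [dn, dn]; split_ifs <;> omega]
  have u0 : u 0 = 0 := by simp [hu, dn, g0]
  have ui : u i = 0 := by simp [hu, dn, gi]
  have un : u (i + 1) = 0 := by simp [hu, dn, gi']
  have un' : u (i + 2) = 0 := by simp [hu, dn, gi']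
  have i0 : ind i 0 = 0 := ind_ne (by omega)
  have j0 : ind (i + 1) 0 = 0 := ind_ne (by omega)
  have k0 : ind (i + 2) 0 = 0 := ind_ne (by omega)
  have di := dm_nonneg H.mono i
  have dj := dm_nonneg H.mono (i + 1)
  have p0 := H.p0
  -- the moving node
  have B2 : ∀ t ∈ Ioo 0 (Dl T i), |W (Mt T i t) (i + 1) ([u, ind (i + 1)] ++ [ind (i + 1)]) - 0| ≤
      C4 * n1 T g := fun t ht => by
    have ht' := Ioo_subset_Icc_self ht
    have := h4 _ _ _ (nd_M H ht') u u0
    rw [un, abs_zero, zero_add, hu, n1_M H ht'] at this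
    rw [sub_zero, W_perm (fs := [u, ind (i + 1)] ++ [ind (i + 1)])
      (fs' := [ind (i + 1), ind (i + 1), u])
      (List.perm_append_comm (l₁ := [u]) (l₂ := [ind (i + 1), ind (i + 1)])) (by simp [u0, j0])]
    exact this.trans (mul_le_mul_of_nonneg_left (mul_le_of_le_one_left N0 (min_le_right _ _))
      (by linarith))
  have B1 : ∀ x ∈ Icc 0 (Dl T i), |W (Mt T i x) (i + 1) [u, ind (i + 1)] -
      W (Mt T i 0) (i + 1) [u, ind (i + 1)]| ≤ Dl T i * (C4 * n1 T g) := fun x hx => by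
    have := mvt_le (cont_M _ [u, ind (i + 1)]) (fun t ht => der_M H ht _) B2 hx
    rw [mul_zero, sub_zero] at this
    exact this.trans (mul_le_mul_of_nonneg_right hx.2 (by positivity))
  have B0 := mvt_le (cont_M (T := T) (i := i) _ [u]) (fun t ht => der_M H ht _)
    (fun t ht => B1 t (Ioo_subset_Icc_self ht)) ⟨D0, le_rfl⟩
  have B1' := B1 _ ⟨D0, le_rfl⟩
  -- the ends
  have a0 := W_zero H [g] (by simp [g0])
  have a1 := W_end H [g] (by simp [g0])
  have b0 := W_zero H [g, ind i] (by simp [g0, i0])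
  have b1 := W_end H [g, ind (i + 1)] (by simp [g0, j0])
  have e0 : (fun j => ind i (dn i j)) = fun j => 1 * ind (i + 1) j + 1 * ind i j := by
    funext j
    simp only [ind, dn]
    split_ifs <;> first | omega | norm_num
  have e1 : (fun j => ind (i + 1) (dn (i + 1) j)) =
      fun j => 1 * ind (i + 1) j + 1 * ind (i + 2) j := by
    funext j
    simp only [ind, dn]
    split_ifs <;> first | omega | norm_num
  simp only [List.map_cons, List.map_nil, u', ← hu, e0, e1] at a0 a1 b0 b1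
  rw [W_lin2 u0 1 1 j0 i0, one_mul, one_mul] at b0
  rw [W_lin2 u0 1 1 j0 k0, one_mul, one_mul] at b1
  have E : ∀ t ∈ Icc 0 (Dl T i), ∀ m, m ≠ 0 → m ≠ i + 1 → m ≤ T.length + 1 → u m = 0 →
      |W (Mt T i t) (i + 1) [u, ind m]| ≤ C2 * (n1 T g * dm (Mt T i t) 0 m) :=
    fun t ht m m0 m1 m2 um => by
      have := h2 _ _ _ (nd_M H ht) u (ind m) u0 (ind_ne m0.symm) un (ind_ne m1.symm)
      have z : (fun j => u j * ind m j) = fun _ => 0 := by
        funext j
        rcases eq_or_ne j m with rfl | a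
        · rw [um, zero_mul]
        · rw [ind_ne a, mul_zero]
      rw [z, n1_ind (by rw [len_M H ht]; exact m2), hu, n1_M H ht] at this
      simp only [R1J.hi, lo, abs_zero, mul_zero, Finset.sum_const_zero, add_zero] at this
      exact this.trans (mul_le_mul_of_nonneg_left (mul_le_of_le_one_left
        (mul_nonneg N0 (dm_nonneg (nd_M H ht).mono m)) (min_le_right _ _)) (by linarith))
  have E0 := E 0 ⟨le_rfl, D0⟩ i (by omega) (by omega) (by omega) ui
  have E1 := E _ ⟨D0, le_rfl⟩ (i + 2) (by omega) (by omega) (by omega) un'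
  rw [dm_lo H ⟨le_rfl, D0⟩ le_rfl] at E0
  rw [dm_hi H ⟨D0, le_rfl⟩ le_rfl] at E1
  -- the two removed nodes
  have s1 := h1 _ _ _ H (ind i) i0
  have s2 := h1 _ _ _ Hl (ind (i + 1)) j0
  have s3 := h3 _ _ _ H (ind i) i0
  have s4 := h3 _ _ _ Hl (ind (i + 1)) j0
  rw [ind_ne (by omega), n1_ind (by omega)] at s1 s2 s3 s4
  simp only [zero_mul, sub_zero, abs_zero, mul_zero, zero_add] at s1 s2 s3 s4
  have o1 : off (i + 1) h = fun j => 1 * g j + h i * ind i j := off_eq (by omega) h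
  have o2 : off i h = fun j => 1 * g j + h (i + 1) * ind (i + 1) j := by
    rw [hg, off_comm]; exact off_eq (by omega) h
  have n1' : NL T h (i + 1) = W T (i + 1) [g] + h i * W T (i + 1) [ind i] := by
    rw [NL, o1, W_lin, one_mul]
  have n2 : NL T h i = W T i [g] + h (i + 1) * W T i [ind (i + 1)] := by
    rw [NL, o2, W_lin, one_mul]
  have j1 : J T h (i + 1) = W T (i + 1) [g, ind (i + 1)] + h i * W T (i + 1) [ind (i + 1), ind i] := by
    rw [J, o1, W_lin2 j0 _ _ g0 i0, one_mul, W_perm (List.Perm.swap _ _ []) (by simp [g0, j0])]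
  have j2 : J T h i = W T i [g, ind i] + h (i + 1) * W T i [ind i, ind (i + 1)] := by
    rw [J, o2, W_lin2 i0 _ _ g0 j0, one_mul, W_perm (List.Perm.swap _ _ []) (by simp [g0, i0])]
  have mb : ∀ {x y b : ℝ}, |y| ≤ b → |x * y| ≤ |x| * b := fun hb => by
    rw [abs_mul]; exact mul_le_mul_of_nonneg_left hb (abs_nonneg _)
  have t1 := abs_le.1 (mb (x := h i) s1)
  have t2 := abs_le.1 (mb (x := h (i + 1)) s2)
  have t3 := abs_le.1 (mb (x := h i) s3)
  have t4 := abs_le.1 (mb (x := h (i + 1)) s4)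
  have t5 := abs_le.1 (mb (x := Dl T i) (mb (x := h (i + 1)) s4))
  have t6 := abs_le.1 (mb (x := Dl T i) E0)
  rw [abs_of_nonneg D0] at t5 t6
  rw [n1', n2, j1, j2, ← a0, ← a1, ← b0, ← b1]
  replace B0 := abs_le.1 B0
  replace B1' := abs_le.1 B1'
  replace E0 := abs_le.1 E0
  replace E1 := abs_le.1 E1
  generalize Dl T i = D at *
  generalize dm T 0 i = x at *
  generalize dm T 0 (i + 1) = y at *
  have hx := mul_nonneg di (abs_nonneg (h i))
  have hy := mul_nonneg dj (abs_nonneg (h (i + 1)))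
  generalize |h i| = α at *
  generalize |h (i + 1)| = β at *
  have N1 := N0.trans gh
  have q1 : C4 * (D * n1 T g) ≤ C4 * (D * n1 T h) := by gcongr
  have q2 : C2 * (n1 T g * x) ≤ C2 * (n1 T h * x) := by gcongr
  have q3 : C2 * (n1 T g * y) ≤ C2 * (n1 T h * y) := by gcongr
  have r1 := mul_nonneg D0 N1
  have r2 := mul_nonneg di N1
  have r3 := mul_nonneg dj N1
  constructor
  · have q1' := mul_le_mul_of_nonneg_left q1 D0
    have q2' := mul_le_mul_of_nonneg_left q2 D0
    have key : D * (D * (C4 * n1 T g)) + D * (C2 * (n1 T g * x)) + α * (C1 * (p * x)) +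
        β * (C1 * (p * y)) + D * (β * (C3 * y)) ≤ (C1 + C2 + C3 + C4) *
          ((p + D) * (x * α + y * β) + D * ((D + x + y) * n1 T h)) := by
      have w1 := mul_nonneg p0.le hx
      have w2 := mul_nonneg p0.le hy
      have w3 := mul_nonneg D0 hx
      have w4 := mul_nonneg D0 hy
      have w5 := mul_nonneg D0 r1
      have w6 := mul_nonneg D0 r2
      have w7 := mul_nonneg D0 r3
      nlinarith [mul_nonneg (show 0 ≤ C2 + C3 + C4 by linarith) (add_nonneg w1 w2),
        mul_nonneg (show 0 ≤ C1 + C2 + C4 by linarith) w4,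
        mul_nonneg (show 0 ≤ C1 + C2 + C3 + C4 by linarith) (add_nonneg w3 w7),
        mul_nonneg (show 0 ≤ C1 + C2 + C3 by linarith) w5,
        mul_nonneg (show 0 ≤ C1 + C3 + C4 by linarith) w6]
    rw [abs_le]
    constructor <;> linarith [B0.1, B0.2, t1.1, t1.2, t2.1, t2.2, t5.1, t5.2, t6.1, t6.2]
  · have key : D * (C4 * n1 T g) + C2 * (n1 T g * x) + C2 * (n1 T g * y) + α * (C3 * x) +
        β * (C3 * y) ≤ (C1 + C2 + C3 + C4) * (x * α + y * β + (D + x + y) * n1 T h) := by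
      nlinarith [mul_nonneg (show 0 ≤ C1 + C2 + C4 by linarith) (add_nonneg hx hy),
        mul_nonneg (show 0 ≤ C1 + C2 + C3 by linarith) r1,
        mul_nonneg (show 0 ≤ C1 + C3 + C4 by linarith) (add_nonneg r2 r3)]
    rw [abs_le]
    constructor <;> linarith [B1'.1, B1'.2, E0.1, E0.2, E1.1, E1.2, t3.1, t3.2, t4.1, t4.2]

end Crest.Agent.T156.Cas.R1J.S21

end
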