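import Crest.Agent.T156.HbD_68
import Crest.Agent.T156.R1MixB_65
import Crest.Agent.T156.R1S5_21
import Crest.Agent.T156.MvB_7

/-!
# Row 156 (helper91): crude sizes of the atom words and the boundary words, `Hb68.AB`
-/

set_option autoImplicit false
set_option linter.all false

noncomputable section

namespace Crest.Agent.T156.Cas.Hb68

open MeasureTheory Real Finset
open Crest.Agent.T157.E Crest.Agent.T157.Casc Crest.Agent.T157.SL
open Crest.ProbabilityR.SpinGlassDynamics (spin)
open Crest.Agent.T156.Pp.Area50 (lsg Up)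
open R1J (W ind n1)
open Ker15 (R1 tm rf dn z0)
open Crest.Agent.T157.Casc.C (Rk1)
open R1J.S21 (wd_ins rk1_ins ex_rk len_rk ex_top mono_of_ex ex_mono W_lin ind_self ind_ne)

namespace A91

/-! ### empty levels -/

section zero
variable {Ω : Type} [Fintype Ω] {w : Ω → ℝ}

theorem fld_z0 (m : ℝ) (g : (z0 Ω m).ι → ℝ) : (z0 Ω m).fld g = 0 := by
  funext x; exact Finset.sum_eq_zero fun i _ => Empty.elim i

theorem tE_z0 (m : ℝ) (F Φ : (Ω → ℝ) → ℝ) : tE (z0 Ω m) F Φ = Φ := by
  funext h
  simp only [tE, fld_z0, add_zero, integral_const, probReal_univ, smul_eq_mul, one_mul]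
  exact mul_div_cancel_left₀ _ (exp_pos _).ne'

theorem X_z0 (m : ℝ) (B : List (Lv Ω)) : X w (z0 Ω m :: B) = X w B := by
  funext h
  simp only [X, step, fld_z0, add_zero, integral_const, probReal_univ, smul_eq_mul, one_mul,
    log_exp]
  split_ifs with e
  · rfl
  · rw [← mul_assoc, inv_mul_cancel₀ e, one_mul]

theorem Hb_z0 (m : ℝ) (B : List (Lv Ω)) (z f f' : Ω → ℝ) :
    Hb w (z0 Ω m :: B) z f f' = Hb w B z f f' := by
  simp only [Hb, Hs, P, tE_z0, add_sub_cancel_right]

theorem node_z0 (m : ℝ) (A B : List (Lv Ω)) (Φ : (Ω → ℝ) → ℝ) :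
    node w (A ++ z0 Ω m :: B) A.length Φ = node w (A ++ B) A.length Φ := by
  rw [Hess87.node_append, Hess87.node_append, X_z0]

theorem node_z1 (m : ℝ) (A B : List (Lv Ω)) (Φ : (Ω → ℝ) → ℝ) :
    node w (A ++ z0 Ω m :: B) (A.length + 1) Φ = node w (A ++ B) A.length Φ := by
  rw [add_comm, ← node_node, List.drop_left, node_cons, tE_z0, node_zero, node_z0]

theorem rf_eq : ∀ (L : List (Lv Ω)) (j : ℕ) (b : Bool), j < L.length →
    rf L j b = L.take (j + b.toNat) ++ z0 Ω (ex L j) :: L.drop (j + b.toNat)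
  | [], _, _, h => absurd h (by simp)
  | _ :: _, 0, false, _ => rfl
  | _ :: _, 0, true, _ => rfl
  | l :: L, j + 1, b, h => by
    rw [rf, rf_eq L j b (by simpa using h), Nat.add_right_comm]
    rfl

end zero

variable {L M : List (Lv Bool)} {i : ℕ}

theorem Gn_lo (hi : i < L.length) : Hess65.Gn (rf L i false) (i + 1) = Hess65.Gn L i := by
  have l : (L.take i).length = i := List.length_take_of_le hi.le
  have := node_z1 (w := fun _ => 1) (ex L i) (L.take i) (L.drop i)
    fun z => Hb (fun _ => 1) (L.drop i) z spin spin ^ 2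
  rw [l, List.take_append_drop] at this
  rw [Hess65.Gn, Hess65.Gn, ← this, rf_eq L i false hi]
  congr 1
  show (fun z => Hb _ (List.drop (i + 1) (L.take i ++ z0 Bool (ex L i) :: L.drop i)) z spin spin ^ 2)
    = _
  rw [← List.drop_drop, List.drop_left' l]
  rfl

theorem Gn_hi (hi : i < L.length) : Hess65.Gn (rf L i true) (i + 1) = Hess65.Gn L (i + 1) := by
  have l : (L.take (i + 1)).length = i + 1 := List.length_take_of_le hi
  have := node_z0 (w := fun _ => 1) (ex L i) (L.take (i + 1)) (L.drop (i + 1))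
    fun z => Hb (fun _ => 1) (L.drop (i + 1)) z spin spin ^ 2
  rw [l, List.take_append_drop] at this
  rw [Hess65.Gn, Hess65.Gn, ← this, rf_eq L i true hi]
  congr 1
  show (fun z => Hb _ (List.drop (i + 1) (L.take (i + 1) ++ z0 Bool (ex L i) :: L.drop (i + 1))) z
    spin spin ^ 2) = _
  rw [List.drop_left' l]
  simp only [Hb_z0]

/-- **the atom at a weightless node** -/
theorem W_atom {s : ℕ} (hs : s < M.length) (h0 : dm M 0 s = 0) : W M s [ind s] = Hess65.Gn M s := by
  have := Apt7.sg_atom One15.w1 spin 0 hs h0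
  have e : W M s [ind s] = sg (-1) M (Sh.two s) fun τ => 1 / 2 *
      if τ.j = s then Apt7.T4 (fun _ => 1) M 0 spin s τ else 0 := by
    simp only [W, twoF, List.map, WdO_cons, WdO_nil, Dop_eq_sg, TEf]
    refine congrArg _ (funext fun τ => ?_)
    split_ifs with e
    · rw [Apt7.T4, ← Law.TE_const_mul One15.w1]
      refine congrArg _ (funext fun x => ?_)
      simp only [GT.ev, pr2, R1J.sk, ind, e, if_true]
      ring
    · refine Eq.trans (congrArg _ (funext fun x => ?_)) (Law.TE_const One15.w1 τ.sh M 0 _)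
      simp only [GT.ev, R1J.sk, ind, e, if_false]
      ring
  rw [e, sg_const_mul, this, Hess65.Gn]
  ring

/-- a refinement with a weightless node `i + 1` -/
structure Rf (L : List (Lv Bool)) (i : ℕ) (M : List (Lv Bool)) : Prop where
  hi : i < L.length
  r1 : R1 M
  mono : Mono 0 M
  len : M.length = L.length + 1
  ex : ∀ j, ex M j = ex L (dn i j)

theorem rf_of (hM : Mono 0 L) (hi : i < L.length) {σ : ℕ → ℝ}
    (H : List.Forall₂ (Rk1 spin) M (lsg (fun j => ex L (dn i j)) σ (L.length + 1))) : Rf L i M := by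
  have e : ∀ j, ex M j = ex L (dn i j) := fun j => by
    rw [ex_rk _ _ _ _ H]
    split_ifs with a
    · rfl
    · exact (ex_top L (by rw [dn]; split_ifs <;> omega)).symm
  refine ⟨hi, Ker15.r1_of H, mono_of_ex _ _ ?_ fun j => ?_, len_rk H, e⟩
  · rw [e, show dn i 0 = 0 by simp [dn]]
    simpa [dm, exP] using dm_nonneg hM 0
  · rw [e, e]
    exact ex_mono hM (by rw [dn, dn]; split_ifs <;> omega)

theorem Rf.dm_lo (H : Rf L i M) {j : ℕ} (hj : j ≤ i) : dm M 0 j = dm L 0 j := by
  cases j with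
  | zero => simp only [dm, exP, H.ex, dn, Nat.zero_le, if_true]
  | succ j => simp only [dm, exP, H.ex, dn, hj, if_true, show j ≤ i by omega]

theorem Rf.dm_new (H : Rf L i M) : dm M 0 (i + 1) = 0 := by simp [dm, exP, H.ex, dn]

theorem Rf.dm_hi (H : Rf L i M) {j : ℕ} (hj : i ≤ j) : dm M 0 (j + 2) = dm L 0 (j + 1) := by
  simp only [dm, exP, H.ex, dn, show ¬j + 2 ≤ i by omega, show ¬j + 1 ≤ i by omega, if_false]
  rfl

theorem Rf.n1_eq (H : Rf L i M) {f g : ℕ → ℝ} (h1 : ∀ j ≤ i, g j = f j)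
    (h2 : ∀ j, i < j → g (j + 1) = f j) : n1 M g = n1 L f := by
  obtain ⟨r, hr⟩ : ∃ r, L.length = i + 1 + r := Nat.exists_eq_add_of_le H.hi
  rw [n1, n1, H.len, hr, show i + 1 + r + 1 + 1 = i + 1 + (r + 1 + 1) by ring,
    show i + 1 + r + 1 = i + 1 + (r + 1) by ring, Finset.sum_range_add _ (i + 1) (r + 1 + 1),
    Finset.sum_range_add _ (i + 1) (r + 1), Finset.sum_range_succ' _ (r + 1), Nat.add_zero,
    H.dm_new, zero_mul, add_zero]
  congr 1
  · refine Finset.sum_congr rfl fun j hj => ?_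
    have := Finset.mem_range.1 hj
    rw [H.dm_lo (by omega), h1 j (by omega)]
  · refine Finset.sum_congr rfl fun j _ => ?_
    rw [show i + 1 + (j + 1) = i + j + 2 by ring, H.dm_hi (by omega),
      show i + 1 + j = i + j + 1 by ring, h2 _ (by omega)]

theorem n1_zero (L : List (Lv Bool)) : n1 L (fun _ => 0) = 0 := by simp [n1]

theorem Rf.n1_at (H : Rf L i M) {g : ℕ → ℝ} (h : ∀ j, j ≠ i + 1 → g j = 0) : n1 M g = 0 :=
  (H.n1_eq (fun j hj => h j (by omega)) fun j hj => h _ (by omega)).trans (n1_zero L)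

theorem Rf.k (H : Rf L i M) : i + 1 ≤ M.length := by have := H.hi; rw [H.len]; omega

theorem Rf.atom (H : Rf L i M) : W M (i + 1) [ind (i + 1)] = Hess65.Gn M (i + 1) :=
  W_atom (by have := H.hi; rw [H.len]; omega) H.dm_new

theorem Rf.w2 (H : Rf L i M) (g : ℕ → ℝ) :
    |W M (i + 1) [g, ind (i + 1)]| ≤ 4500 ^ 2 * (n1 M g + 2 * |g (i + 1)|) := by
  refine (Hess65.abs_Wd2c H.r1 H.mono H.k g (ind (i + 1))).trans_eq ?_
  rw [H.n1_at fun j hj => ind_ne hj, H.n1_at (g := fun y => g y * ind (i + 1) y)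
    fun j hj => by rw [ind_ne hj, mul_zero], ind_self, abs_one, mul_one]
  ring

theorem n1_le_one (hM : Mono 0 M) {h : ℕ → ℝ} (hh : ∀ j, |h j| ≤ 1) : n1 M h ≤ 1 := by
  refine (sum_le_sum fun j _ => mul_le_of_le_one_right (dm_nonneg hM j) (hh j)).trans_eq ?_
  rw [sum_dm, ex_length, sub_zero]

theorem Rf.w3 (H : Rf L i M) (g : ℕ → ℝ) {h : ℕ → ℝ} (hh : ∀ j, |h j| ≤ 1) :
    |W M (i + 1) [g, h, ind (i + 1)]| ≤ 4500 ^ 3 * (8 * (n1 M g + |g (i + 1)|)) := by
  refine (Hess65.abs_Wd3c H.r1 H.mono H.k g h (ind (i + 1))).trans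
    (mul_le_mul_of_nonneg_left ?_ (by positivity))
  rw [H.n1_at fun j hj => ind_ne hj, H.n1_at (g := fun y => g y * ind (i + 1) y)
    fun j hj => by rw [ind_ne hj, mul_zero], H.n1_at (g := fun y => h y * ind (i + 1) y)
    fun j hj => by rw [ind_ne hj, mul_zero], H.n1_at (g := fun y => g y * h y * ind (i + 1) y)
    fun j hj => by rw [ind_ne hj, mul_zero], ind_self, abs_one, mul_one, mul_one, mul_one,
    abs_mul]
  have a1 := n1_le_one H.mono hh
  have a2 := hh (i + 1)
  have a3 := Hess65.n1_nn H.mono g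
  have a4 := Hess65.n1_nn H.mono h
  have a5 := abs_nonneg (g (i + 1))
  have a6 := abs_nonneg (h (i + 1))
  have a7 : n1 M (fun y => g y * h y) ≤ n1 M g := R1J.S21.n1_mono H.mono fun j => by
    rw [abs_mul]; exact mul_le_of_le_one_right (abs_nonneg _) (hh j)
  nlinarith [mul_le_mul_of_nonneg_left a1 a3, mul_le_mul_of_nonneg_left a2 a3,
    mul_le_mul_of_nonneg_left a1 a5, mul_le_mul_of_nonneg_left a2 a5]

section ref
variable (H : R1 L) (hM : Mono 0 L) (hi : i < L.length)
include H

theorem rk_L : List.Forall₂ (Rk1 spin) L (lsg (ex L) (tm L) L.length) := by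
  have h := H.rk
  have e : tm L = Hess65.tm (L.map fun l => (l.m, l.cov true true)) :=
    funext fun j => Ker15.tm_eq h j
  rw [e, ← Hess65.eq_lsg h]
  exact h

theorem up_L (c N : ℕ) : Up (fun j => tm L (dn c j)) N := fun j _ =>
  H.tm_mono (by rw [dn, dn]; split_ifs <;> omega)

include hi

theorem rk_rf (b : Bool) : List.Forall₂ (Rk1 spin) (rf L i b)
    (lsg (fun j => ex L (dn i j)) (fun j => tm L (dn (i + b.toNat) j)) (L.length + 1)) := by
  have hb : b.toNat ≤ 1 := Bool.toNat_le b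
  have := rk1_ins (i + b.toNat) L.length (ex L) (fun j => ex L (dn i j)) (tm L) L (by omega)
    (rk_L H) (fun j hj => by rw [dn, if_pos (by omega)])
    fun j hj => by rw [dn, if_neg (by omega)]; rfl
  rw [rf_eq L i b hi, show ex L i = ex L (dn i (i + b.toNat)) by
    cases b <;> simp [dn]]
  exact this

/-- refinement invariance at the new node -/
theorem W_rf (b : Bool) (V : List (ℕ → ℝ)) (hV : ∀ f ∈ V, f 0 = 0) :
    W (rf L i b) (i + 1) (V.map fun f j => f (dn (i + b.toNat) j)) = W L (i + b.toNat) V := by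
  have hb : b.toNat ≤ 1 := Bool.toNat_le b
  have := wd_ins (c := i + b.toNat) (k := i + 1) (z := ex L) (z' := fun j => ex L (dn i j))
    (by omega) (fun j hj => by rw [dn, if_pos (by omega)])
    (fun j hj => by rw [dn, if_neg (by omega)]; rfl) hi
    (fun j _ => H.tm_mono (Nat.le_succ j)) (rk_L H) (rk_rf H hi b) V hV
  rw [this]
  congr 1
  cases b <;> simp [dn]

include hM

theorem rf_rf (b : Bool) : Rf L i (rf L i b) := rf_of hM hi (rk_rf H hi b)

/-- the new node slides through the level -/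
theorem slide {f g : ℕ → ℝ} (h1 : ∀ j ≤ i, g j = f j) (h2 : ∀ j, i < j → g (j + 1) = f j) :
    |W (rf L i true) (i + 1) [g] - W (rf L i false) (i + 1) [g]| ≤
      4500 ^ 2 * (gl L i * (n1 L f + 2 * |g (i + 1)|)) := by
  obtain ⟨θ, -, M, hM', e⟩ := Hess65.mvt_Wd (up_L H _ _) (up_L H _ _) (by simp [dn])
    (rk_rf H hi false) (rk_rf H hi true) [g] (i + 1)
  have R := rf_of hM hi hM'
  have g0 : 0 ≤ gl L i := sub_nonneg.2 (H.tm_mono (Nat.le_succ i))
  have e1 : (fun j => tm L (dn (i + true.toNat) j) - tm L (dn (i + false.toNat) j)) =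
      fun j => gl L i * ind (i + 1) j := by
    funext j
    rcases eq_or_ne j (i + 1) with rfl | a
    · simp [dn, gl, ind]
    · rw [ind_ne a, mul_zero, sub_eq_zero]
      congr 1
      simp only [dn, Bool.toNat_true, Bool.toNat_false]
      split_ifs <;> omega
  rw [e1] at e
  refine (congrArg abs e).trans_le ((Hess65.abs_Wd2c R.r1 R.mono R.k g _).trans_eq ?_)
  rw [R.n1_at (g := fun j => gl L i * ind (i + 1) j) fun j hj => by rw [ind_ne hj, mul_zero],
    R.n1_at (g := fun y => g y * (gl L i * ind (i + 1) y))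
      fun j hj => by rw [ind_ne hj, mul_zero, mul_zero], R.n1_eq h1 h2, ind_self, mul_one, abs_mul,
    abs_of_nonneg g0]
  ring

end ref

theorem dn_split (f : ℕ → ℝ) (i : ℕ) : (fun j => f (dn (i + 1) j)) =
    fun j => 1 * f (dn i j) + (f (i + 1) - f i) * ind (i + 1) j := by
  funext j
  rcases eq_or_ne j (i + 1) with rfl | a
  · simp [dn, ind]
  · rw [ind_ne a, mul_zero, add_zero, one_mul]
    congr 1
    simp only [dn]
    split_ifs <;> omega

end A91

open A91 in
/-- **crude sizes of the atom words, and the boundary words** -/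
theorem ab : AB := by
  refine ⟨8 * 4500 ^ 3, by positivity, fun L H hM i hi f h f0 h0 hh => ?_⟩
  have R0 := rf_rf H hM hi false
  have R1' := rf_rf H hM hi true
  have g0 : 0 ≤ gl L i := sub_nonneg.2 (H.tm_mono (Nat.le_succ i))
  have n0 := Hess65.n1_nn hM f
  have a0 := abs_nonneg (f i)
  have d1 : dn i (i + 1) = i := by simp [dn]
  have d2 : dn (i + 1) (i + 1) = i + 1 := by simp [dn]
  have l1 : ∀ j ≤ i, f (dn i j) = f j := fun j hj => by rw [dn, if_pos hj]
  have l2 : ∀ j, i < j → f (dn i (j + 1)) = f j := fun j hj => by rw [dn, if_neg (by omega)]; rfl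
  have l3 : ∀ j ≤ i, f (dn (i + 1) j) = f j := fun j hj => by rw [dn, if_pos (by omega)]
  have l4 : ∀ j, i < j → f (dn (i + 1) (j + 1)) = f j := fun j hj => by
    rw [dn, if_neg (by omega)]; rfl
  have w0 : W (rf L i false) (i + 1) [fun j => f (dn i j)] = W L i [f] :=
    W_rf H hi false [f] (by simpa using f0)
  have w1 : W (rf L i true) (i + 1) [fun j => f (dn (i + 1) j)] = W L (i + 1) [f] :=
    W_rf H hi true [f] (by simpa using f0)
  have s0 := congrArg (fun g => W (rf L i false) (i + 1) [g]) (dn_split f i)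
  have s1 := congrArg (fun g => W (rf L i true) (i + 1) [g]) (dn_split f i)
  simp only [W_lin] at s0 s1
  rw [R0.atom, Gn_lo hi, w0, one_mul] at s0
  rw [R1'.atom, Gn_hi hi, w1, one_mul] at s1
  have c3 : B L i f = W L (i + 1) [f] - (f (i + 1) - f i) * Hess65.Gn L (i + 1) := by
    rw [s1, B]; ring
  have c4 : |B L i f - W L i [f]| ≤ 8 * 4500 ^ 3 * (gl L i * (|f i| + n1 L f)) := by
    have := slide H hM hi l1 l2
    rw [w0, d1] at this
    refine this.trans ?_
    nlinarith [mul_nonneg g0 n0, mul_nonneg g0 a0]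
  refine ⟨?_, ?_, c3, c4, ?_, fun e => ?_, fun e => ?_⟩
  · have := R0.w2 fun j => f (dn i j)
    rw [R0.n1_eq l1 l2, d1] at this
    exact this.trans (by nlinarith)
  · have := R0.w3 (fun j => f (dn i j)) (h := fun j => h (dn i j)) fun j => hh _
    rw [R0.n1_eq l1 l2, d1] at this
    exact this.trans_eq (by ring)
  · have e := W_lin (T := rf L i false) (k := i + 1) 1 (-f i) (fun j => f (dn i j)) (ind (i + 1)) []
    rw [R0.atom, Gn_lo hi, w0] at e
    have := Hess65.abs_Wd1c R0.r1 R0.mono R0.k fun j => 1 * f (dn i j) + -f i * ind (i + 1) j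
    rw [R0.n1_eq (f := f) (fun j hj => by rw [ind_ne (by omega), l1 j hj]; ring)
      fun j hj => by rw [ind_ne (by omega), l2 j hj]; ring, d1, ind_self, ← Hess65.W_eq, e] at this
    rw [show W L i [f] - f i * Hess65.Gn L i = 1 * W L i [f] + -f i * Hess65.Gn L i by ring]
    refine this.trans ?_
    rw [show 1 * f i + -f i * 1 = 0 by ring, abs_zero]
    nlinarith
  · rw [c3, e, sub_zero, abs_zero, zero_add] at c4
    exact c4
  · have := slide H hM hi l3 l4
    rw [w1, s0, d2, e, abs_zero] at this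
    rw [show W L i [f] - f i * Hess65.Gn L i = W L i [f] + (0 - f i) * Hess65.Gn L i by ring]
    refine this.trans ?_
    nlinarith [mul_nonneg g0 n0]

end Crest.Agent.T156.Cas.Hb68

end
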