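import Crest.Agent.T156.CDef_40
import Crest.Agent.T156.Hess_65

/-!
# Row 156, R2: the head (EE), objects and site inputs (helper42)

`omS` = the Euler measure `ω* = σ dx + x dσ / 2` on UP; `H0 … H7` = what the site cascade must
deliver in the direction `ω*` (homogeneity and parity), node by node.
-/

set_option autoImplicit false
set_option linter.all false

noncomputable section

namespace Crest.Agent.T156.Cas.C40.E42

open MeasureTheory Real Set Filter Topology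
open Crest.Agent.T157.E Crest.Agent.T157.Casc Crest.Agent.T157.SL

variable (D : CD)

/-- the same data in the direction `ω` -/
def wi (ω : ℕ → ℝ) : CD := { D with W := some ω }
/-- tilt of the jump level -/
def x1 : ℝ := ex D.B D.J
/-- variance time of the first UP node -/
def s1 : ℝ := D.sig (D.J + 1)
/-- the logarithmic loss -/
def La : ℝ := 1 + D.sig D.K
/-- `x df` on the thin level above the node `t` -/
def mv (f : ℕ → ℝ) (t : ℕ) : ℝ := ex D.B t * (f (t + 1) - f t)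
/-- the thin clock -/
def ck (t : ℕ) : ℝ := D.dx t + (D.sig (t + 1) - D.sig t)
/-- **the Euler measure** -/
def omS (t : ℕ) : ℝ := D.dx t * D.sig t + mv D D.sig t / 2
/-- the data in the direction `ω*` -/
def star : CD := wi D (omS D)
/-- `E Φ_yy²` -/
def G (t : ℕ) : ℝ := Hess65.Gn D.S t

/-- constant `W` variance above the root, mesh and entropy at most `η⁸` -/
structure Hm (η : ℝ) : Prop where
  val : D.W = none
  root : ∃ (a d : ℝ) (M' : List (ℝ × ℝ × ℝ)), D.M = (a, d, 0) :: M' ∧ ∀ p ∈ M', p.2.1 = 0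
  J1 : 1 ≤ D.J
  sX : s1 D ≤ D.X
  η0 : 0 ≤ η
  η1 : η ≤ 1
  mesh : ∀ j < D.K, D.J < j → (D.sig (j + 1) - D.sig j) * La D ^ 2 ≤ η ^ 8
  mshx : ∀ j ∈ D.up, D.dx j * La D ^ 2 ≤ η ^ 2
  fJ : fAcc D.M (D.J + 1) - fAcc D.M D.J ≤ η ^ 8
  ent : ∃ (i : ℕ) (U : ℝ), D.J < i ∧ i < D.K ∧ (∀ j, i ≤ j → ex D.B j = 1) ∧
    U + fAcc D.M i ≤ fAcc D.M D.K ∧ D.n * exp (-U / 2) ≤ 1 ∧ exp (-U / 4) * La D ^ 2 ≤ η ^ 8

/-- prefix of the site inputs; the first argument of `P` is `C (1 + σ_K)` -/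
def HP (P : ℝ → ℝ → CD → Prop) : Prop :=
  ∀ τ0 : ℝ, ∃ C : ℝ, 0 ≤ C ∧ ∀ (D : CD) (η : ℝ), D.Ok τ0 → Hm D η → P (C * La D) η D

/-- crude sizes -/
def H0 : Prop := HP fun c _ D => |D.lam| ≤ c ∧ |D.k4| ≤ c ∧
  ∀ t ∈ D.up, |D.dP 2 [D.lev t]| ≤ c * D.dx t
/-- `2 d λ = -λ + x₁ σ₁ λ²` -/
def H1 : Prop := HP fun c η D =>
  |(star D).dP 2 [] + D.lam - x1 D * s1 D * D.lam ^ 2| ≤ c * (D.X ^ 3 + η)
/-- `2 d k = -3 k` -/
def H2 : Prop := HP fun c η D => |(star D).dP 4 [] + 3 * D.k4| ≤ c * (D.X + η)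
/-- `L ω* = x Γ' / 2 - L (atom)` -/
def H3 : Prop := HP fun c η D => ∀ t ∈ D.up,
  |(star D).sL [D.lev t] - mv D D.Gam t + x1 D * D.lam * s1 D ^ 2 * D.dP 2 [D.lev t] / 2| ≤
    c * (η * ck D t + D.X ^ 4 * D.dx t)
/-- `d ψ = -ψ + O (e)` -/
def H4 : Prop := HP fun c η D => ∀ t ∈ D.up,
  |(star D).dP 2 [D.lev t] + 2 * D.dP 2 [D.lev t]| ≤ c * ((D.e t + η) * ck D t)
/-- `2 d G = -2 G + x G'` -/
def H5 : Prop := HP fun c η D => ∀ t ∈ D.up,
  |(star D).sL [D.lev t, D.lev t] - 2 * mv D (G D) t + 4 * D.dx t * G D t| ≤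
    c * ((η + D.X ^ 3) * ck D t)
/-- two different levels: parity at the lower one -/
def H6 : Prop := HP fun c _ D => ∀ t ∈ D.up, ∀ t' ∈ D.up, t ≠ t' →
  |(star D).sL [D.lev t, D.lev t']| ≤ c * (min (D.e t) (D.e t') * (ck D t * ck D t'))
/-- the local cubic coefficient -/
def H7 : Prop := HP fun c _ D => ∀ t ∈ D.up,
  |(star D).sL [D.lev t, D.lev t, D.lev t]| ≤ c * (D.e t * ck D t)

/-! ### the head -/

/-- the constant `τ` -/
def τ : ℝ := D.τ D.K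
/-- `E_a Φ₀` -/
def EP : ℝ := node (fun _ => 1) D.B 1 (Crest.Agent.T157.Casc.X (fun _ => 1) (D.B.drop 1)) 0
/-- `∫_LOW x rb dh` -/
def Jh : ℝ := ∑ j ∈ Finset.range D.J, ex D.B j * (fAcc D.M (j + 1) - fAcc D.M j) * D.rb (j + 1)
/-- thick low levels -/
def Th : ℝ := ∑ j ∈ Finset.range D.J,
  ex D.B j * (fAcc D.M (j + 1) - fAcc D.M j) * (D.rb (j + 1) - D.rb j)
/-- `∫_LOW h rb dx` -/
def Shu : ℝ := ∑ j ∈ D.lo, D.dx j * (fAcc D.M j * D.rb j)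
/-- `τ O` -/
def Op : ℝ := D.dP 2 [D.Sd]
/-- `∫ x δ d(Γ - q)` -/
def TS : ℝ := ∑ t ∈ D.up, D.del t * mv D (fun j => D.Gam j - D.q j) t
/-- the local second order terms -/
def Eloc : ℝ := ∑ t ∈ D.up, (D.dx t * |1 - τ D * G D t| + |mv D (G D) t|) * D.u 2 t
/-- sums against the thin clock -/
def Ck (a : ℕ → ℝ) : ℝ := ∑ t ∈ D.up, ck D t * a t
/-- **the error of (EE)** besides the error of the test head -/
def EB (η : ℝ) : ℝ := η + 1 / D.n + (|1 - τ D * D.lam ^ 2| + D.X ^ 2) * Shu D + D.X ^ 3 * D.S2 +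
  D.X ^ 2 * |D.S3| + D.X * D.S4 + |TS D| + (D.X ^ 4 + D.X ^ 2 * D.S2) * D.I (fun t => |D.del t|) +
  D.S2 * Ck D (fun t => D.e t * |D.del t|) + Eloc D + D.X ^ 3 * Ck D (D.u 2) +
  Ck D (fun t => √(D.e t) * |D.del t|) ^ 2 + Ck D fun t => D.e t * D.u 3 t
/-- the main terms of `E_a Φ₀ / n` -/
def EM : ℝ := -(D.S1 - D.lam ^ 2 * D.S2) / 2 - D.lam ^ 3 * D.S3 / 2 + D.k4 ^ 2 * D.S4 / 8 -
  D.lam / 2 * x1 D * (D.lam ^ 2 * s1 D) * D.S2 - Jh D / 2 +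
  D.lam / 2 * (x1 D * s1 D ^ 2 + 3 * D.S2) * Op D
/-- the defect of the test head in the direction `ω` -/
def dT (ω : ℕ → ℝ) : ℝ := ∑ j ∈ D.up, ω j * (D.rb j - D.Gam j) - (wi D ω).main

end Crest.Agent.T156.Cas.C40.E42

end
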