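import Crest.Agent.T156.Hom_68
import Crest.Agent.T156.CHd_50
import Crest.Agent.T156.R2EDef_42

/-!
# Row 156 (helper68): homogeneity of site words, interface

`W1`, `W2` are the Euler identities of the site words; `H1 … H5` of `R2EDef_42` follow from them,
the dictionary `YG`, `YD` (`y`-derivatives are root letters) and the atom `AT`.
-/

set_option autoImplicit false
set_option linter.all false

noncomputable section

namespace Crest.Agent.T156.Cas.Hb68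

open Real Finset
open Crest.Agent.T157.E Crest.Agent.T157.Casc Crest.Agent.T157.SL
open Crest.ProbabilityR.SpinGlassDynamics (spin)
open R1J (W ind n1)
open Ker15 (R1 tm rf dn z0)
open C40 C40.E42

/-- the step at the node `a` -/
def st (a : ℕ) : ℕ → ℝ := fun j => if a ≤ j then 1 else 0

variable (L : List (Lv Bool))

/-- length of the level `i` -/
def gl (i : ℕ) : ℝ := tm L (i + 1) - tm L i
/-- the Euler measure -/
def om (j : ℕ) : ℝ := dm L 0 j * tm L j + ex L j * gl L j / 2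
/-- time derivative of the word at a weightless node at the bottom of the level `i` -/
def A (i : ℕ) (V : List (ℕ → ℝ)) : ℝ :=
  W (rf L i false) (i + 1) ((V.map fun f j => f (dn i j)) ++ [ind (i + 1)])
/-- the word at a weightless node at the top of the level `i`, letter read at the bottom -/
def B (i : ℕ) (h : ℕ → ℝ) : ℝ := W (rf L i true) (i + 1) [fun j => h (dn i j)]
/-- the entropy -/
def En : ℝ := node (fun _ => 1) L L.length (Gir68.Sn fun _ => 1) 0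
/-- the scaled cascade: tilts `m / t`, variances `t² σ` -/
def sc (t : ℝ) : List (Lv Bool) := L.map (scl t⁻¹)
/-- the mesh error -/
def ms (f : ℕ → ℝ) : ℝ := ∑ i ∈ range L.length, ex L i * gl L i ^ 3 * (|f i| + n1 L f)

/-- a site cascade whose top levels have tilt one and total variance at least `U` -/
structure Tp (U : ℝ) : Prop where
  r1 : R1 L
  mono : Mono 0 L
  U0 : 0 ≤ U
  top : ∃ i < L.length, (∀ j, i ≤ j → ex L j = 1) ∧ U + tm L i ≤ tm L L.length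

/-- steps and indicators -/
def Stp (h : ℕ → ℝ) : Prop :=
  ∃ a, 1 ≤ a ∧ (a ≤ L.length ∧ h = st a ∨ a < L.length ∧ h = ind a)

/-- **one letter** -/
def W1 : Prop := ∃ C : ℝ, 0 ≤ C ∧ ∀ (L : List (Lv Bool)) (U : ℝ), Tp L U →
  ∀ f : ℕ → ℝ, f 0 = 0 →
  |∑ j ∈ range (L.length + 1), om L j * W L j [f] +
    ∑ i ∈ range L.length, ex L i * (gl L i ^ 2 / 4 * A L i [f] +
      (f (i + 1) - f i) / 2 * W L (i + 1) []) +
    ∑ j ∈ range (L.length + 1), dm L 0 j * (f j / 2 * W L j []) - f L.length / 2| ≤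
    C * (exp (-U / 4) * (n1 L f + |f L.length|) + ms L f)

/-- **two letters**, the second one a step or an indicator -/
def W2 : Prop := ∃ C : ℝ, 0 ≤ C ∧ ∀ (L : List (Lv Bool)) (U : ℝ), Tp L U →
  ∀ f : ℕ → ℝ, f 0 = 0 → ∀ h : ℕ → ℝ, Stp L h →
  |∑ j ∈ range (L.length + 1), om L j * W L j [f, h] +
    ∑ i ∈ range L.length, ex L i * (gl L i ^ 2 / 4 * A L i [f, h] +
      (f (i + 1) - f i) / 2 * B L i h + (h (i + 1) - h i) / 2 * W L (i + 1) [f]) +
    3 * ∑ j ∈ range (L.length + 1), dm L 0 j * (f j / 2 * W L j [h])| ≤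
    C * (exp (-U / 4) * (n1 L f + |f L.length|) + ms L f)

/-! ### leaves of `W1`, `W2` -/

/-- entropy and the top overlap -/
def PE : Prop := ∃ C : ℝ, 0 ≤ C ∧ ∀ (L : List (Lv Bool)) (U : ℝ), Tp L U →
  0 ≤ En L ∧ En L ≤ C * exp (-U / 2) ∧ |1 - W L L.length []| ≤ C * exp (-U / 2)

/-- scaling, crude -/
def PS : Prop := ∃ C : ℝ, 0 ≤ C ∧ ∀ (L : List (Lv Bool)), R1 L → Mono 0 L → ∀ t, 1 ≤ t →
  ∀ k ≤ L.length, |W (sc L t) k [] - W L k []| ≤ C * ((t - 1) * En L) ∧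
    ∀ f g : ℕ → ℝ, f 0 = 0 → g 0 = 0 → (∀ j, |f j| ≤ 1) → (∀ j, |g j| ≤ 1) →
      |W (sc L t) k [f, g] - W L k [f, g]| ≤ C * ((t - 1) * (1 + En L))

/-- scaling, one step letter (Landau inequality along the direction `st a`) -/
def PL : Prop := ∃ C : ℝ, 0 ≤ C ∧ ∀ (L : List (Lv Bool)) (U : ℝ), Tp L U →
  ∀ h : ℕ → ℝ, Stp L h → |W L L.length [h]| ≤ C * exp (-U / 4) ∧
    ∀ t, 1 ≤ t → t ≤ 2 → ∀ k ≤ L.length,
      |t ^ 2 * W (sc L t) k [h] - W L k [h]| ≤ C * ((t - 1) * exp (-U / 4))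

/-- crude sizes of the atom words, and the boundary words -/
def AB : Prop := ∃ C : ℝ, 0 ≤ C ∧ ∀ (L : List (Lv Bool)), R1 L → Mono 0 L → ∀ i < L.length,
  ∀ f h : ℕ → ℝ, f 0 = 0 → h 0 = 0 → (∀ j, |h j| ≤ 1) →
    |A L i [f]| ≤ C * (|f i| + n1 L f) ∧ |A L i [f, h]| ≤ C * (|f i| + n1 L f) ∧
    B L i f = W L (i + 1) [f] - (f (i + 1) - f i) * Hess65.Gn L (i + 1) ∧
    |B L i f - W L i [f]| ≤ C * (gl L i * (|f i| + n1 L f)) ∧
    |W L i [f] - f i * Hess65.Gn L i| ≤ C * n1 L f ∧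
    (f i = 0 → |W L (i + 1) [f] - f (i + 1) * Hess65.Gn L (i + 1) - W L i [f]| ≤
      C * (gl L i * n1 L f)) ∧
    (f (i + 1) = 0 → |W L (i + 1) [f] - (W L i [f] - f i * Hess65.Gn L i)| ≤
      C * (gl L i * n1 L f))

/-! ### `y`-derivatives -/

/-- two `y`-derivatives are one root letter -/
def YG : Prop := ∀ (T : List (Lv Bool)) (k : ℕ) (V : List (ℕ → ℝ)), k ≤ T.length →
  (∀ f ∈ V, f 0 = 0) →
  iteratedDeriv 2 (fun y : ℝ => Hd50.Wh T (fun b => y * spin b) k V) 0 =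
    2 * W (z0 Bool 0 :: T) (k + 1) ((V.map fun f j => f (j - 1)) ++ [st 1]) ∧
  iteratedDeriv 4 (fun y : ℝ => Hd50.Wh T (fun b => y * spin b) k V) 0 =
    4 * W (z0 Bool 0 :: T) (k + 1) ((V.map fun f j => f (j - 1)) ++ [st 1, st 1])

/-- the upper cascade over an empty root of tilt zero; the node `j ≥ J` of `D.S` is `j - J + 1` -/
def T0 (D : CD) : List (Lv Bool) := z0 Bool 0 :: D.S.drop D.J

/-- the heads of `CDef_40` as root words -/
def YD : Prop := ∀ (τ0 : ℝ) (D : CD), D.Ok τ0 → D.W = none →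
  D.lam = 1 - ∑ j ∈ range ((T0 D).length + 1), dm (T0 D) 0 j * (st 1 j * W (T0 D) j []) ∧
  D.k4 = -2 * ∑ j ∈ range ((T0 D).length + 1), dm (T0 D) 0 j * (st 1 j * W (T0 D) j [st 1]) ∧
  W (T0 D) 1 [st 1] = D.lam ^ 2 ∧
  (∀ t ∈ D.up, D.dP 2 [D.lev t] = -2 * (D.dx t * W (T0 D) (t - D.J + 1) [st 1])) ∧
  ∀ ω : ℕ → ℝ,
    (wi D ω).dP 2 [] = -2 * ∑ j ∈ D.up, ω j * W (T0 D) (j - D.J + 1) [st 1] ∧
    (wi D ω).dP 4 [] = -4 * ∑ j ∈ D.up, ω j * W (T0 D) (j - D.J + 1) [st 1, st 1] ∧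
    ∀ t ∈ D.up, (wi D ω).dP 2 [D.lev t] =
      -4 * ∑ j ∈ D.up, ω j * W (T0 D) (j - D.J + 1) [ind (t - D.J + 1), st 1]

/-- the jump atom of `H3` -/
def AT : Prop := ∀ τ0 : ℝ, ∃ C : ℝ, 0 ≤ C ∧ ∀ D : CD, D.Ok τ0 → D.W = none → 1 ≤ D.J →
  ∀ t ∈ D.up, |A D.S D.J [ind t] - D.lam * D.dP 2 [D.lev t]| ≤ C * (D.X * D.dx t)

/-- glue -/
def G1 : Prop := W1 → AB → YD → H1
def G2 : Prop := W2 → AB → YD → H2
def G3 : Prop := W1 → AB → YD → AT → H3
def G4 : Prop := W2 → AB → YD → H4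
def G5 : Prop := W2 → AB → H5

end Crest.Agent.T156.Cas.Hb68

end
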