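import Crest.Agent.T156.Cub_94
import Crest.Agent.T156.WSg_38
import Crest.Agent.T156.Com_6
import Crest.Agent.T156.R1J_60

/-!
# Row 156 (helper95): site words with a marked pair, size and parity
-/

set_option autoImplicit false
set_option linter.unusedSectionVars false

noncomputable section

namespace Crest.Agent.T156.Cas.R1S95

open MeasureTheory Real Set Filter Topology
open Crest.Agent.T157.E Crest.Agent.T157.Casc Crest.Agent.T157.SL Crest.Agent.T157.Casc.C
open Crest.Agent.R339.B Crest.Agent.R339.Var Crest.Agent.T157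
open Crest.ProbabilityR.SpinGlassDynamics (spin)
open Nu87 One15 Site94

variable {L : List (Lv Bool)} {ℓ : List (ℝ × ℝ)} {q : ℕ → ℝ}

/-- product of the site kernels along a family of edges of a tree -/
def TP (L : List (Lv Bool)) (q : ℕ → ℝ) (s : Sh) {ι : Type} [Fintype ι] (a b : ι → s.Lf) : ℝ :=
  TE (fun _ => 1) s L 0 fun x => ∏ e, oE q (s.shr (a e) (b e) L.length) (x (a e)) (x (b e))

theorem TP_eq (s : Sh) {ι : Type} [Fintype ι] [DecidableEq ι] (a b : ι → s.Lf) {r : ℕ}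
    (u : Fin r ≃ s.Lf) : TP L q s a b = SF L (fun _ => q) (fun e => u.symm (a e))
      (fun e => u.symm (b e)) Finset.univ (sm s u L.length) := by
  rw [SF, TM_sm w1 s L 0 u.injective]
  simp only [TP, ed, sm, Equiv.apply_symm_apply]
  rfl

theorem shr_le (s : Sh) (a b : s.Lf) (K : ℕ) : s.shr a b K ≤ K := by
  have := (show Rz K (sm s (Fintype.equivFin s.Lf).symm K) from ⟨s, _, rfl⟩).le
    (Fintype.equivFin s.Lf a) (Fintype.equivFin s.Lf b)
  simpa [sm] using this

/-- crude bound -/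
theorem abs_TP_le (h1 : ∀ j ≤ L.length, |q j| ≤ 1) (s : Sh) {ι : Type} [Fintype ι]
    (a b : ι → s.Lf) : |TP L q s a b| ≤ 2 ^ Fintype.card ι := by
  classical
  rw [TP_eq s a b (Fintype.equivFin s.Lf).symm]
  exact abs_SF_le ⟨s, _, rfl⟩ fun e _ => h1 _ (shr_le _ _ _ _)

/-- the parity constant -/
def cO (N : ℕ) : ℝ := cP N 1 + 1

theorem cO_pos (N : ℕ) : 0 < cO N := add_pos_of_nonneg_of_pos (cP_nonneg _ _) one_pos

theorem one_le_cO (N : ℕ) : 1 ≤ cO N := le_add_of_nonneg_left (cP_nonneg _ _)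

/-- **an odd cluster at the cut `m` costs the size at `m`** -/
theorem TP_odd (H : List.Forall₂ (Rk1 spin) L ℓ) (hM : Mono 0 L) (h1 : ∀ j ≤ L.length, |q j| ≤ 1)
    (s : Sh) {N : ℕ} (hN : Fintype.card s.Lf ≤ N) {ι : Type} [Fintype ι] (a b : ι → s.Lf) {m : ℕ}
    (c : s.Lf) (ho : Odd (Finset.univ.filter fun e =>
      ¬(m < s.shr c (a e) L.length ↔ m < s.shr c (b e) L.length)).card) {P : ℝ}
    (hP : min 1 (R339.Var.TT (ℓ.take m)) ≤ P) (hq : ∀ j ≤ m, |q j| ≤ P) :
    |TP L q s a b| ≤ 2 ^ Fintype.card ι * (cO N * P) := by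
  classical
  have hP0 : 0 ≤ P := (abs_nonneg _).trans (hq 0 (Nat.zero_le _))
  have h2 : (0 : ℝ) < 2 ^ Fintype.card ι := by positivity
  rcases le_total 1 P with h | h
  · refine (abs_TP_le h1 s a b).trans (le_mul_of_one_le_right h2.le ?_)
    exact one_le_mul_of_one_le_of_one_le (one_le_cO N) h
  rcases le_total 1 (R339.Var.TT (ℓ.take m)) with hT | hT
  · rw [min_eq_left hT] at hP
    refine (abs_TP_le h1 s a b).trans (le_mul_of_one_le_right h2.le ?_)
    exact one_le_mul_of_one_le_of_one_le (one_le_cO N) hP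
  rw [min_eq_right hT] at hP
  set u := (Fintype.equivFin s.Lf).symm
  rw [TP_eq s a b u]
  refine le_of_forall_pos_le_add fun ε hε => ?_
  have hA : 0 < 2 ^ Fintype.card ι * cO N := mul_pos h2 (cO_pos N)
  set δ := ε / (2 ^ Fintype.card ι * cO N)
  have hδ : 0 < δ := div_pos hε hA
  have hs : 0 < min 1 (P + δ) := lt_min one_pos (by linarith)
  refine (Cub94.SF_odd' H hM ⟨s, u, rfl⟩ (fun e _ => h1 _ (shr_le _ _ _ _)) (j := m)
    ⟨u.symm c, ?_⟩ hs (le_min hT (by linarith)) hP0 fun e _ he => hq _ he).trans ?_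
  · convert ho using 2
    ext e
    simp only [Finset.mem_filter, Crs, sm, Equiv.apply_symm_apply]
  · have h3 : cP (Fintype.card s.Lf) (min 1 (P + δ)) ≤ cP N 1 := by
      refine (cP_mono _ (min_le_left _ _)).trans ?_
      unfold cP
      have : (Fintype.card s.Lf : ℝ) ≤ N := by exact_mod_cast hN
      gcongr
    have h4 : min 1 (cP (Fintype.card s.Lf) (min 1 (P + δ)) * min 1 (P + δ)) ≤ cP N 1 * (P + δ) :=
      (min_le_right _ _).trans (mul_le_mul h3 (min_le_right _ _) hs.le (cP_nonneg _ _))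
    have h5 : 2 ^ Fintype.card ι * cO N * δ = ε := mul_div_cancel₀ _ hA.ne'
    rw [Finset.card_univ]
    have h6 : cP N 1 * (P + δ) + P ≤ cO N * P + cO N * δ := by
      unfold cO
      nlinarith
    calc _ ≤ 2 ^ Fintype.card ι * (cO N * P + cO N * δ) :=
          mul_le_mul_of_nonneg_left (by linarith) h2.le
      _ = _ := by rw [← h5]; ring

/-- **a single lowest edge** -/
theorem TP_min (H : List.Forall₂ (Rk1 spin) L ℓ) (hM : Mono 0 L) (h1 : ∀ j ≤ L.length, |q j| ≤ 1)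
    (s : Sh) {N : ℕ} (hN : Fintype.card s.Lf ≤ N) {ι : Type} [Fintype ι] (a b : ι → s.Lf) (e₀ : ι)
    {m : ℕ} (hm : s.shr (a e₀) (b e₀) L.length = m) (hK : m < L.length)
    (hlt : ∀ e, e ≠ e₀ → m < s.shr (a e) (b e) L.length) {P : ℝ}
    (hP : min 1 (R339.Var.TT (ℓ.take m)) ≤ P) (hq : ∀ j ≤ m, |q j| ≤ P) :
    |TP L q s a b| ≤ 2 ^ Fintype.card ι * (cO N * P) := by
  classical
  refine TP_odd H hM h1 s hN a b (a e₀) ?_ hP hq
  have : (Finset.univ.filter fun e =>
      ¬(m < s.shr (a e₀) (a e) L.length ↔ m < s.shr (a e₀) (b e) L.length)) = {e₀} := by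
    ext e
    simp only [Finset.mem_filter, Finset.mem_univ, true_and, Finset.mem_singleton]
    constructor
    · intro h
      by_contra he
      have h3 := hlt e he
      have h4 := Wt87.shr_ultra s (a e₀) (a e) (b e) L.length
      have h5 := Wt87.shr_ultra s (a e₀) (b e) (a e) L.length
      rw [Wt87.shr_comm s (b e) (a e)] at h5
      exact h ⟨fun h => by omega, fun h => by omega⟩
    · rintro rfl
      rw [Wt87.shr_self, hm]
      omega
  rw [this]
  simp

theorem TT_take_mono (H : List.Forall₂ (Rk1 spin) L ℓ) : Monotone fun j => R339.Var.TT (ℓ.take j) :=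
  monotone_nat_of_le_succ fun i => TT_take_succ (nn_of H) i

/-! ### the marked pair -/

/-- the site word `W_k [V]` -/
def W (L : List (Lv Bool)) (q : ℕ → ℝ) (k : ℕ) (V : List (ℕ → Bool → Bool → ℝ)) : ℝ :=
  twoF k (oE q k) (WdO L V (TEf (fun _ => 1) L 0))

/-- one term with one edge -/
def T1 (L : List (Lv Bool)) (q : ℕ → ℝ) (k : ℕ) (τ : GT (Sh.two k)) : ℝ :=
  TE (fun _ => 1) τ.sh L 0 (τ.ev (oE q) (pr2 k (oE q k)))

/-- one term with two edges -/
def T2 (L : List (Lv Bool)) (q : ℕ → ℝ) (k : ℕ) (τ : GT (Sh.two k)) (τ' : GT τ.sh) : ℝ :=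
  TE (fun _ => 1) τ'.sh L 0 (τ'.ev (oE q) (τ.ev (oE q) (pr2 k (oE q k))))

variable {k : ℕ} {f g : ℕ → ℝ} {K₁ K₂ : ℕ → Bool → Bool → ℝ}

theorem W_one (h₁ : ∀ j a b, K₁ j a b = f j * oE q j a b) :
    W L q k [K₁] = sg (-1) L (Sh.two k) fun τ => f τ.j * T1 L q k τ := by
  rw [W, twoF, WdO, List.foldr_cons, List.foldr_nil, Dop_eq_sg]
  congr 1
  funext τ
  rw [T1, ← Law.TE_const_mul w1, TEf]
  congr 1
  funext x
  simp only [GT.ev, h₁, pr2]
  ring

theorem W_two (h₁ : ∀ j a b, K₁ j a b = f j * oE q j a b)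
    (h₂ : ∀ j a b, K₂ j a b = g j * oE q j a b) :
    W L q k [K₁, K₂] = sg (-1) L (Sh.two k) fun τ => sg (-1) L τ.sh fun τ' =>
      f τ.j * g τ'.j * T2 L q k τ τ' := by
  rw [W, twoF, WdO, List.foldr_cons, List.foldr_cons, List.foldr_nil, Dop_eq_sg]
  congr 1
  funext τ
  rw [Dop_eq_sg]
  congr 1
  funext τ'
  rw [T2, ← Law.TE_const_mul w1, TEf]
  congr 1
  funext x
  simp only [GT.ev, h₁, h₂, pr2]
  ring

theorem T1_eq (hk : k ≤ L.length) {τ : GT (Sh.two k)} (hτ : τ.Mem _ L.length) :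
    T1 L q k τ = TP L q τ.sh ![τ.e (Sh.twoL k), τ.p] ![τ.e (Sh.twoR k), τ.q] := by
  rw [T1, TP]
  congr 1
  funext x
  simp only [GT.ev, pr2, Fin.prod_univ_two, Matrix.cons_val_zero, Matrix.cons_val_one,
    hτ.shr_e, hτ.shr, Wt87.shr_two, min_eq_left hk]

theorem T2_eq (hk : k ≤ L.length) {τ : GT (Sh.two k)} (hτ : τ.Mem _ L.length) {τ' : GT τ.sh}
    (hτ' : τ'.Mem _ L.length) : T2 L q k τ τ' = TP L q τ'.sh
      ![τ'.e (τ.e (Sh.twoL k)), τ'.e τ.p, τ'.p] ![τ'.e (τ.e (Sh.twoR k)), τ'.e τ.q, τ'.q] := by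
  rw [T2, TP]
  congr 1
  funext x
  simp only [GT.ev, pr2, Fin.prod_univ_three, Matrix.cons_val_zero, Matrix.cons_val_one,
    Matrix.cons_val_two, Matrix.head_cons, Matrix.tail_cons,
    hτ'.shr_e, hτ'.shr, hτ.shr_e, hτ.shr, Wt87.shr_two, min_eq_left hk]

theorem abs_T2_le (h1 : ∀ j ≤ L.length, |q j| ≤ 1) (hk : k ≤ L.length) {τ : GT (Sh.two k)}
    (hτ : τ.Mem _ L.length) {τ' : GT τ.sh} (hτ' : τ'.Mem _ L.length) : |T2 L q k τ τ'| ≤ 8 := by
  rw [T2_eq hk hτ hτ']
  exact (abs_TP_le h1 _ _ _).trans (by simp; norm_num)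

/-- three edges with a single lowest one -/
theorem T2_odd (H : List.Forall₂ (Rk1 spin) L ℓ) (hM : Mono 0 L) (h1 : ∀ j ≤ L.length, |q j| ≤ 1)
    (hk : k ≤ L.length) {τ : GT (Sh.two k)} (hτ : τ.Mem _ L.length) {τ' : GT τ.sh}
    (hτ' : τ'.Mem _ L.length) {m : ℕ} (hm : (k = m ∧ m < τ.j ∧ m < τ'.j) ∨
      (τ.j = m ∧ m < k ∧ m < τ'.j) ∨ (τ'.j = m ∧ m < k ∧ m < τ.j)) {P : ℝ}
    (hP : min 1 (R339.Var.TT (ℓ.take m)) ≤ P) (hq : ∀ j ≤ m, |q j| ≤ P) :
    |T2 L q k τ τ'| ≤ 8 * (cO 6 * P) := by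
  have hc : Fintype.card τ'.sh.Lf ≤ 6 := by
    have h2 := hτ'.card
    have h3 := hτ.card
    rw [Wt87.card_two] at h3
    omega
  have l0 : τ'.sh.shr (τ'.e (τ.e (Sh.twoL k))) (τ'.e (τ.e (Sh.twoR k))) L.length = k := by
    rw [hτ'.shr_e, hτ.shr_e, Wt87.shr_two, min_eq_left hk]
  have l1 : τ'.sh.shr (τ'.e τ.p) (τ'.e τ.q) L.length = τ.j := by rw [hτ'.shr_e, hτ.shr]
  have l2 : τ'.sh.shr τ'.p τ'.q L.length = τ'.j := hτ'.shr
  have k1 := hτ.le
  have k2 := hτ'.le
  have e8 : (8 : ℝ) = 2 ^ Fintype.card (Fin 3) := by simp; norm_num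
  rw [T2_eq hk hτ hτ', e8]
  rcases hm with ⟨h, h', h''⟩ | ⟨h, h', h''⟩ | ⟨h, h', h''⟩
  · refine TP_min H hM h1 _ hc _ _ 0 (l0.trans h) (by omega) (fun e he => ?_) hP hq
    fin_cases e
    · exact absurd rfl he
    · exact l1 ▸ h'
    · exact l2 ▸ h''
  · refine TP_min H hM h1 _ hc _ _ 1 (l1.trans h) (by omega) (fun e he => ?_) hP hq
    fin_cases e
    · exact l0.symm ▸ h'
    · exact absurd rfl he
    · exact l2 ▸ h''
  · refine TP_min H hM h1 _ hc _ _ 2 (l2.trans h) (by omega) (fun e he => ?_) hP hq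
    fin_cases e
    · exact l0.symm ▸ h'
    · exact l1 ▸ h''
    · exact absurd rfl he

/-- `∑ dm |f|` -/
def Nm (L : List (Lv Bool)) (f : ℕ → ℝ) : ℝ := ∑ y ∈ Finset.range (L.length + 1), dm L 0 y * |f y|

theorem dm_le_one (hM : Mono 0 L) {y : ℕ} (hy : y ≤ L.length) : dm L 0 y ≤ 1 := by
  have h := sum_dm L 0 L.length
  rw [ex_top le_rfl, sub_zero] at h
  exact (Finset.single_le_sum (fun j _ => dm_nonneg hM j) (Finset.mem_range.2 (by omega))).trans h.le

/-- **(S2), core**: both densities vanish at the marked level -/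
theorem s2_core (H : List.Forall₂ (Rk1 spin) L ℓ) (hM : Mono 0 L) (h1 : ∀ j ≤ L.length, |q j| ≤ 1)
    (hk : k ≤ L.length) {P : ℝ} (hP : min 1 (R339.Var.TT (ℓ.take k)) ≤ P) (hq : ∀ j ≤ k, |q j| ≤ P)
    (hf : f k = 0) (hg : g k = 0) :
    |sg (-1) L (Sh.two k) fun τ => sg (-1) L τ.sh fun τ' => f τ.j * g τ'.j * T2 L q k τ τ'| ≤
      4500 ^ 2 * (16 * cO 6) * (P * (Nm L f * Nm L g) +
        P * ∑ y ∈ Finset.Ioc k L.length, dm L 0 y * |f y * g y| +
        ∑ y ∈ Finset.range k, dm L 0 y * |f y * g y|) := by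
  have hP0 : 0 ≤ P := (abs_nonneg _).trans (hq 0 (Nat.zero_le _))
  have hc := one_le_cO 6
  have hcP : 0 ≤ 8 * (cO 6 * P) := by positivity
  refine (Ws38.W2 hM hk (D := fun y y' => |f y| * |g y'| *
    if y = y' ∧ y < k then 8 else 8 * (cO 6 * P)) (fun y y' => by positivity)
    fun τ hτ τ' hτ' => ?_).trans ?_
  · rw [abs_mul, abs_mul]
    by_cases e1 : τ.j = k
    · simp [e1, hf]
    by_cases e2 : τ'.j = k
    · simp [e2, hg]
    refine mul_le_mul_of_nonneg_left ?_ (by positivity)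
    split_ifs with h
    · exact abs_T2_le h1 hk hτ hτ'
    · have hm : min k (min τ.j τ'.j) ≤ k := min_le_left _ _
      exact T2_odd H hM h1 hk hτ hτ' (m := min k (min τ.j τ'.j)) (by omega)
        ((min_le_min_left _ (TT_take_mono H hm)).trans hP) fun j hj => hq j (hj.trans hm)
  · rw [mul_assoc]
    refine mul_le_mul_of_nonneg_left ?_ (by positivity)
    simp only [Ws38.I, hf, hg, abs_zero, zero_mul, mul_zero, add_zero, Finset.sum_const_zero,
      true_and]
    have e1 : ∀ y ∈ Finset.range (L.length + 1), dm L 0 y *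
        (∑ y' ∈ Finset.range (L.length + 1), dm L 0 y' * (|f y| * |g y'| *
          if y = y' ∧ y < k then 8 else 8 * (cO 6 * P)) +
          |f y| * |g y| * if y < k then 8 else 8 * (cO 6 * P)) ≤
        8 * (cO 6 * P) * (dm L 0 y * |f y| * Nm L g) +
          (if y < k then 16 * (dm L 0 y * |f y * g y|) else 0) +
          (if k < y then 8 * (cO 6 * P) * (dm L 0 y * |f y * g y|) else 0) := fun y hy => by
      have hy' : y ≤ L.length := Nat.lt_succ_iff.1 (Finset.mem_range.1 hy)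
      have d0 := dm_nonneg hM y
      have d1 := dm_le_one hM hy'
      have e2 : ∑ y' ∈ Finset.range (L.length + 1), dm L 0 y' * (|f y| * |g y'| *
          if y = y' ∧ y < k then 8 else 8 * (cO 6 * P)) ≤ 8 * (cO 6 * P) * (|f y| * Nm L g) +
            if y < k then 8 * |f y * g y| else 0 := by
        have e3 : ∀ y' ∈ Finset.range (L.length + 1), dm L 0 y' * (|f y| * |g y'| *
            if y = y' ∧ y < k then 8 else 8 * (cO 6 * P)) ≤
            8 * (cO 6 * P) * (|f y| * (dm L 0 y' * |g y'|)) +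
              if y = y' then (if y < k then 8 * |f y * g y| else 0) else 0 := fun y' _ => by
          have d2 := dm_nonneg hM y'
          by_cases h : y = y' ∧ y < k
          · obtain ⟨rfl, h'⟩ := h
            rw [if_pos ⟨rfl, h'⟩, if_pos rfl, if_pos h', abs_mul]
            have := mul_nonneg (abs_nonneg (f y)) (abs_nonneg (g y))
            have h5 : 0 ≤ 8 * (cO 6 * P) * (|f y| * (dm L 0 y * |g y|)) := by positivity
            nlinarith
          · rw [if_neg h]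
            refine le_add_of_le_of_nonneg (le_of_eq (by ring)) ?_
            split_ifs <;> positivity
        refine (Finset.sum_le_sum e3).trans (le_of_eq ?_)
        rw [Finset.sum_add_distrib, Finset.sum_ite_eq, if_pos hy, Nm, ← Finset.mul_sum,
          ← Finset.mul_sum]
      refine (mul_le_mul_of_nonneg_left (add_le_add_left e2 _) d0).trans ?_
      rcases lt_trichotomy y k with h | rfl | h
      · simp only [if_pos h, if_neg (not_lt.2 h.le), abs_mul]
        exact le_of_eq (by ring)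
      · simp [hf]
      · simp only [if_pos h, if_neg (not_lt.2 h.le), abs_mul]
        exact le_of_eq (by ring)
    refine (Finset.sum_le_sum e1).trans ?_
    rw [Finset.sum_add_distrib, Finset.sum_add_distrib, ← Finset.sum_filter, ← Finset.sum_filter,
      ← Finset.mul_sum, ← Finset.mul_sum, ← Finset.mul_sum, ← Finset.sum_mul]
    have e4 : (Finset.range (L.length + 1)).filter (fun y => y < k) = Finset.range k := by
      ext y; simp only [Finset.mem_filter, Finset.mem_range]; omega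
    have e5 : (Finset.range (L.length + 1)).filter (fun y => k < y) = Finset.Ioc k L.length := by
      ext y; simp only [Finset.mem_filter, Finset.mem_range, Finset.mem_Ioc]; omega
    rw [e4, e5, ← Nm]
    have n1 : 0 ≤ Nm L f * Nm L g := mul_nonneg
      (Finset.sum_nonneg fun y _ => mul_nonneg (dm_nonneg hM y) (abs_nonneg _))
      (Finset.sum_nonneg fun y _ => mul_nonneg (dm_nonneg hM y) (abs_nonneg _))
    have n2 : 0 ≤ ∑ y ∈ Finset.Ioc k L.length, dm L 0 y * |f y * g y| :=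
      Finset.sum_nonneg fun y _ => mul_nonneg (dm_nonneg hM y) (abs_nonneg _)
    have n3 : 0 ≤ ∑ y ∈ Finset.range k, dm L 0 y * |f y * g y| :=
      Finset.sum_nonneg fun y _ => mul_nonneg (dm_nonneg hM y) (abs_nonneg _)
    have n4 := mul_nonneg hcP n1
    have n5 := mul_nonneg hcP n2
    nlinarith [mul_nonneg (sub_nonneg.2 hc) n3]

/-- `η` at one level -/
def lev (q : ℕ → ℝ) (t : ℕ) : ℕ → Bool → Bool → ℝ := fun j a b => if j = t then oE q j a b else 0

theorem lev_eq (t j : ℕ) (a b : Bool) :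
    lev q t j a b = (if j = t then 1 else 0) * oE q j a b := by
  unfold lev
  split_ifs <;> simp

/-- **(S2)** -/
theorem s2 (H : List.Forall₂ (Rk1 spin) L ℓ) (hM : Mono 0 L) (h1 : ∀ j ≤ L.length, |q j| ≤ 1)
    (hk : k ≤ L.length) {P : ℝ} (hP : min 1 (R339.Var.TT (ℓ.take k)) ≤ P) (hq : ∀ j ≤ k, |q j| ≤ P)
    (h₁ : ∀ j a b, K₁ j a b = f j * oE q j a b) (h₂ : ∀ j a b, K₂ j a b = g j * oE q j a b)
    (hf : f k = 0) :
    |W L q k [K₁, K₂] - g k * W L q k [K₁, lev q k]| ≤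
      4500 ^ 2 * (16 * cO 6) * (P * (Nm L f * Nm L g) +
        P * ∑ y ∈ Finset.Ioc k L.length, dm L 0 y * |f y * g y| +
        ∑ y ∈ Finset.range k, dm L 0 y * |f y * g y|) := by
  have hP0 : 0 ≤ P := (abs_nonneg _).trans (hq 0 (Nat.zero_le _))
  have hc := cO_pos 6
  have e : W L q k [K₁, K₂] - g k * W L q k [K₁, lev q k] = sg (-1) L (Sh.two k) fun τ =>
      sg (-1) L τ.sh fun τ' => f τ.j * (if τ'.j = k then 0 else g τ'.j) * T2 L q k τ τ' := by
    rw [W_two h₁ h₂, W_two h₁ (lev_eq k), ← sg_const_mul, ← sg_sub]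
    congr 1
    funext τ
    rw [← sg_const_mul, ← sg_sub]
    congr 1
    funext τ'
    split_ifs with h
    · rw [h]; ring
    · ring
  rw [e]
  have hg : ∀ y, |if y = k then 0 else g y| ≤ |g y| := fun y => by
    split_ifs
    · simp
    · exact le_rfl
  refine (s2_core (g := fun y => if y = k then 0 else g y) H hM h1 hk hP hq hf (by simp)).trans ?_
  have n1 : 0 ≤ Nm L f := Finset.sum_nonneg fun y _ => mul_nonneg (dm_nonneg hM y) (abs_nonneg _)
  have hd := dm_nonneg hM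
  have hs : ∀ A : Finset ℕ, ∑ y ∈ A, dm L 0 y * |f y * if y = k then 0 else g y| ≤
      ∑ y ∈ A, dm L 0 y * |f y * g y| := fun A => Finset.sum_le_sum fun y _ =>
    mul_le_mul_of_nonneg_left (by
      rw [abs_mul, abs_mul]
      exact mul_le_mul_of_nonneg_left (hg y) (abs_nonneg _)) (hd y)
  have hn : Nm L (fun y => if y = k then 0 else g y) ≤ Nm L g :=
    Finset.sum_le_sum fun y _ => mul_le_mul_of_nonneg_left (hg y) (hd y)
  exact mul_le_mul_of_nonneg_left (add_le_add (add_le_add (mul_le_mul_of_nonneg_left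
    (mul_le_mul_of_nonneg_left hn n1) hP0) (mul_le_mul_of_nonneg_left (hs _) hP0)) (hs _))
    (by positivity)

/-! ### crude weights, any number of letters up to three -/

theorem Nm_nonneg (hM : Mono 0 L) (f : ℕ → ℝ) : 0 ≤ Nm L f :=
  Finset.sum_nonneg fun y _ => mul_nonneg (dm_nonneg hM y) (abs_nonneg _)

theorem I_abs (f : ℕ → ℝ) : Ws38.I L k (fun y => |f y|) = Nm L f + |f k| := rfl

theorem abs_T1_le (h1 : ∀ j ≤ L.length, |q j| ≤ 1) (hk : k ≤ L.length) {τ : GT (Sh.two k)}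
    (hτ : τ.Mem _ L.length) : |T1 L q k τ| ≤ 4 := by
  rw [T1_eq hk hτ]
  exact (abs_TP_le h1 _ _ _).trans (by simp; norm_num)

/-- one letter, crude -/
theorem w1_crude (hM : Mono 0 L) (h1 : ∀ j ≤ L.length, |q j| ≤ 1) (hk : k ≤ L.length)
    (h₁ : ∀ j a b, K₁ j a b = f j * oE q j a b) : |W L q k [K₁]| ≤ 320 * (Nm L f + |f k|) := by
  rw [W_one h₁]
  refine (Ws38.W1 hM hk (D := fun y => 4 * |f y|) (fun y => by positivity) fun τ hτ => ?_).trans ?_
  · rw [abs_mul, mul_comm]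
    exact mul_le_mul_of_nonneg_right (abs_T1_le h1 hk hτ) (abs_nonneg _)
  · rw [Ws38.I_mul, I_abs]
    exact le_of_eq (by ring)

/-- **(S1), core** -/
theorem s1 (H : List.Forall₂ (Rk1 spin) L ℓ) (hM : Mono 0 L) (h1 : ∀ j ≤ L.length, |q j| ≤ 1)
    (hk : k ≤ L.length) {P : ℝ} (hP : min 1 (R339.Var.TT (ℓ.take k)) ≤ P) (hq : ∀ j ≤ k, |q j| ≤ P)
    (h₁ : ∀ j a b, K₁ j a b = f j * oE q j a b) :
    |W L q k [K₁] - f k * W L q k [lev q k]| ≤ 320 * cO 4 * (P * Nm L f) := by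
  have hP0 : 0 ≤ P := (abs_nonneg _).trans (hq 0 (Nat.zero_le _))
  have hc := cO_pos 4
  have e : W L q k [K₁] - f k * W L q k [lev q k] = sg (-1) L (Sh.two k) fun τ =>
      (if τ.j = k then 0 else f τ.j) * T1 L q k τ := by
    rw [W_one h₁, W_one (lev_eq k), ← sg_const_mul, ← sg_sub]
    congr 1
    funext τ
    split_ifs with h
    · rw [h]; ring
    · ring
  rw [e]
  refine (Ws38.W1 hM hk (D := fun y => 4 * (cO 4 * P) * |if y = k then 0 else f y|)
    (fun y => by positivity) fun τ hτ => ?_).trans ?_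
  · rw [abs_mul, mul_comm]
    by_cases e1 : τ.j = k
    · simp [e1]
    refine mul_le_mul_of_nonneg_right ?_ (abs_nonneg _)
    have hc : Fintype.card τ.sh.Lf ≤ 4 := by
      have h3 := hτ.card
      rw [Wt87.card_two] at h3
      omega
    have l0 : τ.sh.shr (τ.e (Sh.twoL k)) (τ.e (Sh.twoR k)) L.length = k := by
      rw [hτ.shr_e, Wt87.shr_two, min_eq_left hk]
    have l1 : τ.sh.shr τ.p τ.q L.length = τ.j := hτ.shr
    have k1 := hτ.le
    have e4 : (4 : ℝ) = 2 ^ Fintype.card (Fin 2) := by simp; norm_num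
    rw [T1_eq hk hτ, e4]
    rcases lt_or_gt_of_ne e1 with h | h
    · refine TP_min H hM h1 _ hc _ _ 1 l1 (by omega) (fun e he => ?_)
        ((min_le_min_left _ (TT_take_mono H h.le)).trans hP) fun j hj => hq j (hj.trans h.le)
      fin_cases e
      · exact l0.symm ▸ h
      · exact absurd rfl he
    · refine TP_min H hM h1 _ hc _ _ 0 l0 (by omega) (fun e he => ?_) hP hq
      fin_cases e
      · exact absurd rfl he
      · exact l1 ▸ h
  · rw [Ws38.I_mul, I_abs, if_pos rfl, abs_zero, add_zero]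
    have : Nm L (fun y => if y = k then 0 else f y) ≤ Nm L f :=
      Finset.sum_le_sum fun y _ => mul_le_mul_of_nonneg_left (by
        beta_reduce
        split_ifs
        · simp
        · exact le_rfl) (dm_nonneg hM y)
    calc _ ≤ 80 * (4 * (cO 4 * P) * Nm L f) := by gcongr
      _ = _ := by ring

theorem I_I (f g : ℕ → ℝ) : Ws38.I L k (fun y => Ws38.I L k (fun y' => |f y| * |g y'|) +
    |f y| * |g y|) = (Nm L f + |f k|) * (Nm L g + |g k|) + (Nm L (fun y => f y * g y) +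
      |f k * g k|) := by
  simp only [Ws38.I_add, Ws38.I_mul, Ws38.I_mul', I_abs]
  simp only [← abs_mul, I_abs]

/-- two letters, crude -/
theorem w2_crude (hM : Mono 0 L) (h1 : ∀ j ≤ L.length, |q j| ≤ 1) (hk : k ≤ L.length)
    (h₁ : ∀ j a b, K₁ j a b = f j * oE q j a b) (h₂ : ∀ j a b, K₂ j a b = g j * oE q j a b) :
    |W L q k [K₁, K₂]| ≤ 4500 ^ 2 * 16 * ((Nm L f + |f k|) * (Nm L g + |g k|) +
      Nm L fun y => f y * g y) := by
  rw [W_two h₁ h₂]
  refine (Ws38.W2 hM hk (D := fun y y' => 8 * (|f y| * |g y'|)) (fun y y' => by positivity)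
    fun τ hτ τ' hτ' => ?_).trans ?_
  · rw [abs_mul, abs_mul, mul_comm]
    exact mul_le_mul_of_nonneg_right (abs_T2_le h1 hk hτ hτ') (by positivity)
  · have e : (fun y => Ws38.I L k (fun y' => 8 * (|f y| * |g y'|)) + 8 * (|f y| * |g y|)) =
        fun y => 8 * (Ws38.I L k (fun y' => |f y| * |g y'|) + |f y| * |g y|) := by
      funext y
      rw [Ws38.I_mul, mul_add]
    rw [e, Ws38.I_mul, I_I, abs_mul, mul_assoc]
    refine mul_le_mul_of_nonneg_left ?_ (by positivity)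
    have n1 := Nm_nonneg hM f
    have n2 := Nm_nonneg hM g
    have n3 := Nm_nonneg hM fun y => f y * g y
    nlinarith [mul_nonneg n1 n2, mul_nonneg n1 (abs_nonneg (g k)), mul_nonneg n2 (abs_nonneg (f k))]

/-! ### the leaf of `R1J_60` -/

theorem W_eq (T : List (Lv Bool)) (k : ℕ) (fs : List (ℕ → ℝ)) :
    R1J.W T k fs = W T 0 k (fs.map R1J.sk) := by
  rw [R1J.W, W]
  congr 1
  funext a b
  simp [oE]

theorem sk_eq (f : ℕ → ℝ) (j : ℕ) (a b : Bool) : R1J.sk f j a b = f j / 2 * oE 0 j a b := by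
  simp [oE, R1J.sk]

theorem Nd_par {T : List (Lv Bool)} {p : ℝ} (h : R1J.Nd T k p) :
    ∃ ℓ, List.Forall₂ (Rk1 spin) T ℓ ∧ min 1 (R339.Var.TT (ℓ.take k)) ≤ p :=
  ⟨_, h.r1.rk, by
    rw [← Ker15.tm_eq h.r1.rk k]
    exact (min_le_min_left _ (le_add_of_nonneg_left (Nu87.ex_nonneg h.mono k))).trans h.par⟩

/-- **(S2)** -/
theorem s2S : R1J.S2 := by
  have hc := one_le_cO 6
  refine ⟨4500 ^ 2 * (16 * cO 6), by nlinarith, fun T k p h f g _ _ hf hg => ?_⟩
  obtain ⟨ℓ, H, hP⟩ := Nd_par h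
  rw [W_eq, List.map_cons, List.map_cons, List.map_nil, W_two (sk_eq f) (sk_eq g)]
  refine (s2_core (f := fun j => f j / 2) (g := fun j => g j / 2) H h.mono (by simp) h.kK.le hP
    (by simp [h.p0.le]) (by simp [hf]) (by simp [hg])).trans
    (mul_le_mul_of_nonneg_left ?_ (by positivity))
  have hd := dm_nonneg h.mono
  have hn : ∀ u : ℕ → ℝ, Nm T (fun j => u j / 2) ≤ R1J.n1 T u := fun u =>
    Finset.sum_le_sum fun y _ => mul_le_mul_of_nonneg_left (by
      rw [abs_div, abs_two]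
      linarith [abs_nonneg (u y)]) (hd y)
  have hs : ∀ A : Finset ℕ, ∑ y ∈ A, dm T 0 y * |f y / 2 * (g y / 2)| ≤
      ∑ y ∈ A, dm T 0 y * |f y * g y| := fun A => Finset.sum_le_sum fun y _ =>
    mul_le_mul_of_nonneg_left (by
      rw [show f y / 2 * (g y / 2) = f y * g y / 4 by ring, abs_div, abs_of_pos (by norm_num :
        (0 : ℝ) < 4)]
      linarith [abs_nonneg (f y * g y)]) (hd y)
  exact add_le_add (add_le_add (mul_le_mul_of_nonneg_left (mul_le_mul (hn f) (hn g)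
    (Nm_nonneg h.mono _) ((Nm_nonneg h.mono _).trans (hn f))) h.p0.le)
    (mul_le_mul_of_nonneg_left (hs _) h.p0.le)) (hs _)

end Crest.Agent.T156.Cas.R1S95

/-- **(S2)** of `R1J_60` -/
theorem Crest.Agent.T156.Cas.R1J.s2 : Crest.Agent.T156.Cas.R1J.S2 :=
  Crest.Agent.T156.Cas.R1S95.s2S

end
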