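import Crest.Agent.T156.HbD_68
import Crest.Agent.T156.R1S_95
import Crest.Agent.T156.CErr_54
import Crest.Agent.T156.AltOne_23

/-!
# Row 156 (helper39): the glue `G3` of `HbD_68`
-/

set_option autoImplicit false

noncomputable section

namespace Crest.Agent.T156.Cas.Hb68

open Real Finset
open Crest.Agent.T157.E Crest.Agent.T157.Casc Crest.Agent.T157.SL
open Crest.ProbabilityR.SpinGlassDynamics (spin)
open R1J (W ind n1)
open Ker15 (R1 tm)
open C40 C40.E42

namespace G39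

variable {D : CD} {τ0 η : ℝ}

theorem lenS (D : CD) : D.S.length = D.K := opS_length

theorem dmS (D : CD) (j : ℕ) : dm D.S 0 j = D.dx j := Cav22.dm_tilt tilt_opS 0 j

theorem exS (D : CD) (j : ℕ) : ex D.S j = ex D.B j := Cav22.ex_tilt tilt_opS j

theorem r1S (H : D.Ok τ0) : R1 D.S := Ker15.r1_of (rk_opS H.ook)

theorem monoS (H : D.Ok τ0) : Mono 0 D.S := mono_opS H.mono

theorem tmS (H : D.Ok τ0) {j : ℕ} (hj : j ≤ D.K) : tm D.S j = D.sig j :=
  (Ker15.tm_eq (rk_opS H.ook) j).trans (opV_acc hj)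

theorem glS (H : D.Ok τ0) {j : ℕ} (hj : j < D.K) : gl D.S j = D.sig (j + 1) - D.sig j := by
  rw [gl, tmS H hj, tmS H hj.le]

theorem gl0 (H : D.Ok τ0) (j : ℕ) : 0 ≤ gl D.S j := sub_nonneg.2 ((r1S H).tm_mono j.le_succ)

theorem omS_eq (H : D.Ok τ0) {j : ℕ} (hj : j < D.K) : om D.S j = omS D j := by
  rw [om, omS, mv, dmS, exS, glS H hj, tmS H hj.le]

theorem om_top (H : D.Ok τ0) : om D.S D.K = 0 := by
  have : gl D.S D.K = 0 := by
    rw [gl, tm, tm, cacc, cacc, List.take_of_length_le (by rw [lenS]; omega),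
      List.take_of_length_le (lenS D).le, sub_self]
  rw [om, dmS, H.top, this]
  ring

theorem La1 (H : D.Ok τ0) : 1 ≤ La D := le_add_of_nonneg_right (H.sig0 le_rfl)

theorem sigJ (H : D.Ok τ0) : D.sig D.J ≤ D.X ^ 3 := by
  rw [CD.sig, H.qlo _ le_rfl, mul_zero, zero_add]
  exact H.h1

theorem sig_zero (H : D.Ok τ0) : D.sig 0 = 0 := by
  rw [CD.sig, H.qlo _ (Nat.zero_le _)]
  simp [fAcc]

theorem sum_gl (H : D.Ok τ0) {j : ℕ} (hj : j ≤ D.K) : ∑ i ∈ range j, gl D.S i = D.sig j := by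
  simp only [gl]
  rw [sum_range_sub (tm D.S), tmS H hj, tmS H (Nat.zero_le _), sig_zero H, sub_zero]

theorem eta8 (h : Hm D η) : η ^ 8 ≤ η := pow_le_of_le_one h.η0 h.η1 (by norm_num)

/-- the top of the site cascade -/
theorem tpS (H : D.Ok τ0) (h : Hm D η) : ∃ U, Tp D.S U ∧ exp (-U / 4) ≤ η := by
  obtain ⟨i, U, -, hi, h1, h2, -, h3⟩ := h.ent
  have h4 : exp (-U / 4) ≤ η :=
    (le_mul_of_one_le_right (exp_pos _).le (one_le_pow₀ (La1 H))).trans (h3.trans (eta8 h))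
  have h5 := exp_le_one_iff.1 (h4.trans h.η1)
  refine ⟨U, ⟨r1S H, monoS H, by linarith, i, by rwa [lenS], fun j hj => (exS D j).trans (h1 j hj),
    ?_⟩, h4⟩
  rw [lenS, tmS H hi.le, tmS H le_rfl]
  have := mul_le_mul (H.tau_mono hi.le) (H.ook.le hi.le le_rfl) (H.ook.mem hi.le).1
    (H.tau_mem D.K).1
  simp only [CD.sig]
  linarith

theorem gl_La (H : D.Ok τ0) (h : Hm D η) {i : ℕ} (hi : i < D.K) (hJ : D.J < i) :
    gl D.S i * La D ≤ η := by
  have h1 := h.mesh i hi hJ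
  rw [← glS H hi] at h1
  exact (mul_le_mul_of_nonneg_left (le_self_pow₀ (La1 H) two_ne_zero) (gl0 H i)).trans
    (h1.trans (eta8 h))

theorem gl_eta (H : D.Ok τ0) (h : Hm D η) {i : ℕ} (hi : i < D.K) (hJ : D.J < i) : gl D.S i ≤ η :=
  (le_mul_of_one_le_right (gl0 H i) (La1 H)).trans (gl_La H h hi hJ)

theorem gl_lo (H : D.Ok τ0) {i : ℕ} (hi : i < D.J) : gl D.S i ≤ D.X ^ 3 := by
  have := H.cut
  rw [glS H (by omega)]
  exact (sub_le_self _ (H.sig0 (by omega))).trans ((H.sig_le hi H.cut.le).trans (sigJ H))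

/-- the thin levels -/
theorem sum_gl2 (H : D.Ok τ0) (h : Hm D η) :
    ∑ i ∈ (range D.K).erase D.J, gl D.S i ^ 2 ≤ η + D.X ^ 4 := by
  have hc := H.cut
  rw [show (range D.K).erase D.J = range D.J ∪ D.up by
    ext i; simp only [mem_erase, mem_range, mem_union, mem_Ioo]; omega,
    sum_union (disjoint_left.2 fun i h1 h2 => by
      simp only [mem_range, mem_Ioo] at h1 h2; omega), add_comm]
  refine add_le_add (le_of_mul_le_mul_right ?_ (one_pos.trans_le (La1 H))) ?_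
  · rw [sum_mul]
    refine (sum_le_sum (g := fun i => η * gl D.S i) fun i hi => ?_).trans ?_
    · have := mul_le_mul_of_nonneg_left (gl_La H h (CD.mem_up.1 hi).2 (CD.mem_up.1 hi).1) (gl0 H i)
      linarith
    · rw [← mul_sum]
      refine mul_le_mul_of_nonneg_left ((sum_le_sum_of_subset_of_nonneg
        (fun i hi => mem_range.2 (CD.mem_up.1 hi).2) fun i _ _ => gl0 H i).trans ?_) h.η0
      rw [sum_gl H le_rfl]
      exact le_add_of_nonneg_left zero_le_one
  · refine (sum_le_sum (g := fun i => D.X * gl D.S i) fun i hi => ?_).trans ?_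
    · rw [sq]
      exact mul_le_mul_of_nonneg_right ((gl_lo H (mem_range.1 hi)).trans
        (pow_le_of_le_one H.X0 H.X1 (by norm_num))) (gl0 H i)
    · rw [← mul_sum, sum_gl H hc.le, pow_succ' D.X 3]
      exact mul_le_mul_of_nonneg_left (sigJ H) H.X0

theorem glJ (H : D.Ok τ0) : gl D.S D.J ≤ s1 D ∧ s1 D - gl D.S D.J ≤ D.X ^ 3 := by
  rw [glS H H.cut, s1]
  exact ⟨by linarith [H.sig0 H.cut.le], by linarith [sigJ H]⟩

theorem n1_ind {t : ℕ} (ht : t ≤ D.K) : n1 D.S (ind t) = D.dx t := by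
  rw [n1, sum_eq_single t (fun j _ hj => by simp [ind, hj])
    fun h => absurd (mem_range.2 (by rw [lenS]; omega)) h, dmS]
  simp [ind]

/-- the mesh sum of an indicator -/
theorem thin (H : D.Ok τ0) (h : Hm D η) {t : ℕ} (ht : t ∈ D.up) :
    ∑ i ∈ (range D.K).erase D.J, gl D.S i ^ 2 * (|ind t i| + D.dx t) ≤
      η * ck D t + D.X ^ 4 * D.dx t := by
  have m := CD.mem_up.1 ht
  simp only [mul_add, sum_add_distrib, ← sum_mul]
  rw [sum_eq_single t (fun j _ hj => by simp [ind, hj])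
    fun h => absurd (mem_erase.2 ⟨m.1.ne', mem_range.2 m.2⟩) h, ck, ← glS H m.2]
  have h1 := mul_le_mul_of_nonneg_right (sum_gl2 H h) (H.dx0 t)
  have h2 := mul_le_mul_of_nonneg_right (gl_eta H h m.2 m.1) (gl0 H t)
  simp only [ind, if_true, abs_one]
  nlinarith

/-- parity at a low node -/
theorem W_low (H : D.Ok τ0) {t j : ℕ} (ht : t ∈ D.up) (hj : j ≤ D.J) :
    |W D.S j [ind t]| ≤ 320 * R1S95.cO 4 * (D.X ^ 3 * D.dx t) := by
  have m := CD.mem_up.1 ht
  have hK : j ≤ D.K := hj.trans H.cut.le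
  have h3 := pow_nonneg H.X0 3
  have h := R1S95.s1 (q := 0) (k := j) (P := D.X ^ 3) (rk_opS H.ook) (monoS H) (by simp)
    (by rwa [lenS]) ((min_le_right _ _).trans ((opV_acc hK).trans_le
      ((H.sig_le hj H.cut.le).trans (sigJ H)))) (by simp [h3]) (R1S95.sk_eq (ind t))
  rw [ind, if_neg (by omega), zero_div, zero_mul, sub_zero] at h
  rw [R1S95.W_eq]
  refine h.trans (mul_le_mul_of_nonneg_left (mul_le_mul_of_nonneg_left ?_ h3)
    (mul_nonneg (by norm_num) (R1S95.cO_pos 4).le))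
  rw [← n1_ind m.2.le]
  exact sum_le_sum fun y _ => mul_le_mul_of_nonneg_left (by
    rw [abs_div, abs_two]
    linarith [abs_nonneg (ind t y)]) (dm_nonneg (monoS H) y)

theorem om0 (H : D.Ok τ0) {j : ℕ} (hj : j ≤ D.K) : 0 ≤ om D.S j := by
  rw [om, dmS, exS, tmS H hj]
  exact add_nonneg (mul_nonneg (H.dx0 j) (H.sig0 hj))
    (div_nonneg (mul_nonneg (H.ex0 j) (gl0 H j)) zero_le_two)

theorem ex_lo (H : D.Ok τ0) {j : ℕ} (hj : j ≤ D.J) : ex D.B j ≤ D.X := by
  have h1 := sum_dm D.B 0 j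
  have h2 := sum_dm D.B 0 D.J
  have h3 := sum_le_sum_of_subset_of_nonneg (f := dm D.B 0)
    (range_subset_range.2 (Nat.succ_le_succ hj)) fun i _ _ => H.dx0 i
  linarith [H.x1]

/-- the Euler mass of the low nodes -/
theorem sum_om_lo (H : D.Ok τ0) (h : Hm D η) : ∑ j ∈ range (D.J + 1), om D.S j ≤ 2 * D.X := by
  have X0 := H.X0
  have h3 : D.X ^ 3 ≤ D.X := pow_le_of_le_one X0 H.X1 (by norm_num)
  refine (sum_le_sum (g := fun j => D.X * (D.dx j + gl D.S j)) fun j hj => ?_).trans ?_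
  · have hj' := Nat.lt_succ_iff.1 (mem_range.1 hj)
    rw [om, dmS, exS, tmS H (hj'.trans H.cut.le)]
    have h1 := mul_le_mul_of_nonneg_left ((H.sig_le hj' H.cut.le).trans ((sigJ H).trans h3))
      (H.dx0 j)
    have h2 := mul_le_mul_of_nonneg_right (ex_lo H hj') (gl0 H j)
    have h4 := mul_nonneg X0 (gl0 H j)
    linarith
  · rw [← mul_sum, sum_add_distrib, sum_gl H H.cut, sum_dm, sub_zero, mul_comm 2]
    exact mul_le_mul_of_nonneg_left (by linarith [H.x1, H.X1, h.sX.trans H.X1, s1.eq_1 D]) X0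

theorem sum_split (H : D.Ok τ0) (g : ℕ → ℝ) : ∑ j ∈ range (D.K + 1), om D.S j * g j =
    ∑ j ∈ range (D.J + 1), om D.S j * g j + ∑ j ∈ D.up, omS D j * g j := by
  have e : D.up = Ico (D.J + 1) D.K := by
    ext j; simp only [mem_Ioo, mem_Ico]; omega
  rw [sum_range_succ, om_top H, zero_mul, add_zero, range_eq_Ico, range_eq_Ico,
    ← sum_Ico_consecutive _ (Nat.zero_le (D.J + 1)) H.cut, e]
  exact congrArg _ (sum_congr rfl fun j hj => by rw [omS_eq H (mem_Ico.1 hj).2])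

/-- the boundary terms of an indicator -/
theorem bdry {t : ℕ} (ht : t ∈ D.up) (g : ℕ → ℝ) :
    ∑ i ∈ range D.K, ex D.S i * ((ind t (i + 1) - ind t i) / 2 * g (i + 1)) +
      ∑ j ∈ range (D.K + 1), dm D.S 0 j * (ind t j / 2 * g j) = -(mv D g t / 2) := by
  have m := CD.mem_up.1 ht
  obtain ⟨s, rfl⟩ : ∃ s, t = s + 1 := ⟨t - 1, by omega⟩
  simp only [sub_div, sub_mul, mul_sub, sum_sub_distrib]
  rw [sum_eq_single s (fun j _ hj => by simp [ind, hj])
      fun h => absurd (mem_range.2 (by omega)) h,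
    sum_eq_single (s + 1) (fun j _ hj => by simp [ind, hj])
      fun h => absurd (mem_range.2 m.2) h,
    sum_eq_single (s + 1) (fun j _ hj => by simp [ind, hj])
      fun h => absurd (mem_range.2 (by omega)) h, mv, ← exS]
  simp only [ind, if_true, dm, exP]
  ring

end G39

open G39 in
/-- **the glue of `H3`** -/
theorem g3 : G3 := by
  rintro ⟨C1, c1, w1⟩ ⟨C2, c2, ab⟩ - at' τ0
  obtain ⟨C3, c3, hat⟩ := at' τ0
  have c4 := (R1S95.cO_pos 4).le
  refine ⟨4 * C1 + 3 * C2 + C3 + 1280 * R1S95.cO 4, by positivity, fun D η H h t ht => ?_⟩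
  obtain ⟨U, T, hU⟩ := tpS H h
  have m := CD.mem_up.1 ht
  have t0 : 0 < t := by omega
  have f0 := Hd50.ind0 t0
  have X0 := H.X0
  have X1 := H.X1
  have d0 := H.dx0 t
  have η0 := h.η0
  have k0 : D.dx t ≤ ck D t := le_add_of_nonneg_right (sub_nonneg.2 (H.sig_le t.le_succ m.2))
  have x0 : 0 ≤ x1 D := H.ex0 _
  have xX : x1 D ≤ D.X := H.x1
  have hJ : D.J ∈ range D.K := mem_range.2 H.cut
  have fJ : ind t D.J = 0 := if_neg m.1.ne
  have th := thin H h ht
  have hA : ∀ i < D.K, |A D.S i [ind t]| ≤ C2 * (|ind t i| + D.dx t) := fun i hi => by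
    have := (ab D.S T.r1 T.mono i (by rwa [lenS]) (ind t) (fun _ => 0) f0 rfl (by simp)).1
    rwa [n1_ind m.2.le] at this
  -- the identity
  have Z := w1 D.S U T (ind t) f0
  rw [ms, lenS, n1_ind m.2.le, show ind t D.K = 0 from if_neg m.2.ne', sum_split H] at Z
  simp only [mul_add (ex D.S _), sum_add_distrib, Hd50.W_nil] at Z
  have B := bdry ht D.Gam
  rw [← add_sum_erase _ _ hJ, ← add_sum_erase _ (fun i => ex D.S i * gl D.S i ^ 3 * _) hJ, fJ,
    exS D D.J] at Z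
  have S : (star D).sL [D.lev t] = 2 * ∑ j ∈ D.up, omS D j * W D.S j [ind t] :=
    Hd50.lev1_test (D := star D) rfl t0
  -- low nodes
  have e1 : |∑ j ∈ range (D.J + 1), om D.S j * W D.S j [ind t]| ≤
      640 * R1S95.cO 4 * (D.X ^ 4 * D.dx t) := by
    refine (abs_sum_le_sum_abs _ _).trans ((sum_le_sum
      (g := fun j => om D.S j * (320 * R1S95.cO 4 * (D.X ^ 3 * D.dx t))) fun j hj => ?_).trans ?_)
    · have hj' := Nat.lt_succ_iff.1 (mem_range.1 hj)
      have := om0 H (hj'.trans H.cut.le)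
      rw [abs_mul, abs_of_nonneg this]
      exact mul_le_mul_of_nonneg_left (W_low H ht hj') this
    · rw [← sum_mul]
      exact (mul_le_mul_of_nonneg_right (sum_om_lo H h) (by positivity)).trans_eq (by ring)
  -- thin atoms
  have ex01 : ∀ i, 0 ≤ ex D.S i ∧ ex D.S i ≤ 1 := fun i =>
    ⟨(exS D i).symm ▸ H.ex0 i, Tay38.ex_le_one T.mono i⟩
  have e2 : |∑ i ∈ (range D.K).erase D.J, ex D.S i * (gl D.S i ^ 2 / 4 * A D.S i [ind t])| ≤
      C2 / 4 * (η * ck D t + D.X ^ 4 * D.dx t) := by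
    refine (abs_sum_le_sum_abs _ _).trans ((sum_le_sum (g := fun i => C2 / 4 *
      (gl D.S i ^ 2 * (|ind t i| + D.dx t))) fun i hi => ?_).trans ?_)
    · rw [abs_mul, abs_mul, abs_of_nonneg (ex01 i).1, abs_of_nonneg (by positivity)]
      refine (mul_le_of_le_one_left (by positivity) (ex01 i).2).trans
        ((mul_le_mul_of_nonneg_left (hA i (mem_range.1 (mem_of_mem_erase hi)))
          (by positivity)).trans_eq (by ring))
    · rw [← mul_sum]
      exact mul_le_mul_of_nonneg_left th (by positivity)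
  have e3 : ∑ i ∈ (range D.K).erase D.J, ex D.S i * gl D.S i ^ 3 * (|ind t i| + D.dx t) ≤
      η * ck D t + D.X ^ 4 * D.dx t := by
    refine (sum_le_sum fun i hi => mul_le_mul_of_nonneg_right ?_ (by positivity)).trans th
    have g0 := gl0 H i
    exact (mul_le_of_le_one_left (by positivity) (ex01 i).2).trans (pow_le_pow_of_le_one g0
      ((lt_or_gt_of_ne (ne_of_mem_erase hi)).elim
        (fun u => (gl_lo H u).trans (pow_le_one₀ X0 X1))
        fun u => (gl_eta H h (mem_range.1 (mem_of_mem_erase hi)) u).trans h.η1) (by norm_num))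
  -- the jump level
  obtain ⟨g1, g2⟩ := glJ H
  have g0 := gl0 H D.J
  have sX := h.sX
  have e4 : ex D.B D.J * gl D.S D.J ^ 3 * (|(0 : ℝ)| + D.dx t) ≤ D.X ^ 4 * D.dx t := by
    rw [abs_zero, zero_add, pow_succ' D.X 3]
    exact mul_le_mul_of_nonneg_right (mul_le_mul xX (pow_le_pow_left₀ g0 (g1.trans sX) 3)
      (by positivity) X0) d0
  have a1 := hA D.J H.cut
  rw [fJ, abs_zero, zero_add] at a1
  have a2 := hat D H h.val h.J1 t ht
  have e5 : |x1 D * (s1 D ^ 2 * (D.lam * D.dP 2 [D.lev t]) - gl D.S D.J ^ 2 * A D.S D.J [ind t])| ≤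
      (2 * C2 + C3) * (D.X ^ 4 * D.dx t) := by
    have b1 : |(s1 D ^ 2 - gl D.S D.J ^ 2) * A D.S D.J [ind t]| ≤ 2 * D.X ^ 3 * (C2 * D.dx t) := by
      rw [abs_mul, abs_of_nonneg (sub_nonneg.2 (pow_le_pow_left₀ g0 g1 2))]
      refine mul_le_mul ?_ a1 (abs_nonneg _) (by positivity)
      nlinarith [mul_le_mul g2 (show s1 D + gl D.S D.J ≤ 2 by linarith) (by linarith)
        (pow_nonneg X0 3)]
    have b2 : |s1 D ^ 2 * (A D.S D.J [ind t] - D.lam * D.dP 2 [D.lev t])| ≤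
        D.X ^ 2 * (C3 * (D.X * D.dx t)) := by
      rw [abs_mul, abs_of_nonneg (sq_nonneg _)]
      exact mul_le_mul (pow_le_pow_left₀ (g0.trans g1) sX 2) a2 (abs_nonneg _) (sq_nonneg _)
    rw [abs_mul, abs_of_nonneg x0, show ∀ s g a b : ℝ, s * b - g * a = (s - g) * a - s * (a - b) from
      fun _ _ _ _ => by ring]
    exact (mul_le_mul xX ((abs_sub _ _).trans (add_le_add b1 b2)) (abs_nonneg _) X0).trans_eq
      (by ring)
  have e6 : exp (-U / 4) * (D.dx t + |(0 : ℝ)|) ≤ η * ck D t := by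
    rw [abs_zero, add_zero]
    exact mul_le_mul hU k0 d0 η0
  have p1 : 0 ≤ η * ck D t := mul_nonneg η0 (d0.trans k0)
  have p2 : 0 ≤ D.X ^ 4 * D.dx t := by positivity
  have Z' := Z.trans (mul_le_mul_of_nonneg_left (add_le_add e6 (add_le_add e4 e3)) c1)
  refine le_trans ?_ (mul_le_mul_of_nonneg_right (le_mul_of_one_le_right (by positivity) (La1 H))
    (add_nonneg p1 p2))
  rw [S]
  change |_ + (x1 D * _ + _ + _) + _ - _| ≤ _ at Z'
  rw [abs_le] at Z' e1 e2 e5 ⊢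
  have q1 := mul_nonneg c1 p2
  have q2 := mul_nonneg c2 p1
  have q3 := mul_nonneg c2 p2
  have q4 := mul_nonneg c3 p1
  have q5 := mul_nonneg c4 p1
  constructor <;> linarith [Z'.1, Z'.2, e1.1, e1.2, e2.1, e2.2, e5.1, e5.2]

end Crest.Agent.T156.Cas.Hb68

end
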