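import Crest.Agent.T156.HbK_95

/-!
# Row 156 (helper95): the site input `H5` from the Euler identity `W2`
-/

set_option autoImplicit false

noncomputable section

namespace Crest.Agent.T156.Cas.Hb68

open Real Finset
open Crest.Agent.T157.E Crest.Agent.T157.Casc Crest.Agent.T157.SL
open R1J (W ind n1)
open Ker15 (R1 tm)
open C40 C40.E42 K95

theorem g5_alg {Su Sl SA x x' d w w' g g' B B' C a c : ℝ} (hx : d = x - x') (x0 : 0 ≤ x)
    (x1 : x ≤ 1) (d0 : 0 ≤ d) (hB' : B' = w - g) (hB : B = w' + g')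
    (h1 : |Su + Sl + (SA + (x' * ((B' + w) / 2) - x * ((B + w') / 2))) + 3 * (d * (1 / 2 * w))| ≤ c)
    (h2 : |Sl| ≤ c) (h3 : |SA| ≤ c) (h4 : |w - g| ≤ C) (h5 : |w' - (w - g)| ≤ a)
    (h6 : d * C ≤ c) (h7 : a ≤ c) :
    |4 * Su - 2 * (x * (g' - g)) + 4 * d * g| ≤ 18 * c := by
  have e : 4 * Su - 2 * (x * (g' - g)) + 4 * d * g =
      4 * (Su + Sl + (SA + (x' * ((B' + w) / 2) - x * ((B + w') / 2))) + 3 * (d * (1 / 2 * w))) -
        4 * Sl - 4 * SA - 2 * (d * (w - g)) + 4 * (x * (w' - (w - g))) := by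
    rw [hB, hB', show x' = x - d by linarith]
    ring
  have a1 : |d * (w - g)| ≤ c := by
    rw [abs_mul, abs_of_nonneg d0]
    exact (mul_le_mul_of_nonneg_left h4 d0).trans h6
  have a2 : |x * (w' - (w - g))| ≤ c := by
    rw [abs_mul, abs_of_nonneg x0]
    exact (mul_le_of_le_one_left (abs_nonneg _) x1).trans (h5.trans h7)
  rw [e]
  rw [abs_le] at *
  constructor <;> linarith [h1.1, h1.2, h2.1, h2.2, h3.1, h3.2, a1.1, a1.2, a2.1, a2.2]

/-- **(G5)** -/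
theorem g5 : G5 := fun ⟨C₁, c1, w2⟩ ⟨C₂, c2, ab⟩ τ0 => by
  obtain ⟨C₃, c3, lw⟩ := w_low
  refine ⟨18 * (2 * (C₁ + C₂ + C₃)), by positivity, fun D η H h t ht => ?_⟩
  obtain ⟨t1, t2⟩ := CD.mem_up.1 ht
  obtain ⟨U, tU, hU⟩ := tp H h
  obtain ⟨s, rfl⟩ : ∃ s, t = s + 1 := ⟨t - 1, by omega⟩
  have hl := lenS D
  have f0 : ind (s + 1) 0 = 0 := by simp [ind]
  have f1 : ∀ j, |ind (s + 1) j| ≤ 1 := fun j => by simp only [ind]; split_ifs <;> norm_num
  have fK : ind (s + 1) D.S.length = 0 := by simp [ind, hl, t2.ne']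
  have hn : n1 D.S (ind (s + 1)) = D.dx (s + 1) := by rw [n1_ind (hl ▸ t2.le), dmS]
  have k := w2 D.S U tU _ f0 _ ⟨s + 1, by omega, Or.inr ⟨hl ▸ t2, rfl⟩⟩
  have ab' := fun i (hi : i < D.K) => ab D.S (r1S H) (monoS H) i (hl ▸ hi) _ _ f0 f0 f1
  rw [hn] at ab' k
  have d0 := H.dx0 (s + 1)
  have dc := dx_le_ck95 H t2
  have dη := dx_eta H h ht
  have gη := gl_eta H h t2 t1
  have hL := one_le_La95 H
  have X3 := pow_nonneg H.X0 3
  have η0 := h.η0
  set R := La D * ((η + D.X ^ 3) * ck D (s + 1)) with hR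
  have r1 : (η + D.X ^ 3) * D.dx (s + 1) ≤ (η + D.X ^ 3) * ck D (s + 1) := by gcongr
  have r2 : (η + D.X ^ 3) * ck D (s + 1) ≤ R :=
    le_mul_of_one_le_left (mul_nonneg (by positivity) (d0.trans dc)) hL
  have r3 : η * D.dx (s + 1) ≤ R := by nlinarith [mul_nonneg X3 d0]
  have R0 : 0 ≤ R := (mul_nonneg η0 d0).trans r3
  have e1 : ∀ i, ex D.S i * (gl D.S i ^ 2 / 4 * A D.S i [ind (s + 1), ind (s + 1)] +
      (ind (s + 1) (i + 1) - ind (s + 1) i) / 2 * B D.S i (ind (s + 1)) +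
      (ind (s + 1) (i + 1) - ind (s + 1) i) / 2 * W D.S (i + 1) [ind (s + 1)]) =
      ex D.S i * gl D.S i ^ 2 / 4 * A D.S i [ind (s + 1), ind (s + 1)] +
      (ind (s + 1) (i + 1) - ind (s + 1) i) *
        (ex D.S i * ((B D.S i (ind (s + 1)) + W D.S (i + 1) [ind (s + 1)]) / 2)) := fun i => by ring
  have e2 : ∀ j, dm D.S 0 j * (ind (s + 1) j / 2 * W D.S j [ind (s + 1)]) =
      ind (s + 1) j * (dm D.S 0 j * (1 / 2 * W D.S j [ind (s + 1)])) := fun j => by ring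
  simp only [e1, e2] at k
  rw [sum_om H, sum_add_distrib, sum_jump (hl ▸ t2), sum_ind (by omega), fK, dmS, exS, exS] at k
  rw [show (star D).sL [D.lev (s + 1), D.lev (s + 1)] = _ from
    Hd50.lev2_test (D := star D) rfl s.succ_pos s.succ_pos]
  refine (g5_alg (C := C₂ * D.dx (s + 1)) (a := C₂ * (gl D.S (s + 1) * D.dx (s + 1)))
    (c := 2 * (C₁ + C₂ + C₃) * R) (dx_succ D s) (H.ex0 _) (Tay38.ex_le_one H.mono _) d0 ?_ ?_
    (k.trans ?_) ?_ ?_ ?_ ?_ ?_ ?_).trans (le_of_eq (by rw [hR]; ring))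
  · simpa [ind, E42.G] using (ab' s (by omega)).2.2.1
  · simpa [ind, E42.G] using (ab' _ t2).2.2.1
  · have h1 := ms_ind H h ht
    have h2 : exp (-U / 4) * D.dx (s + 1) ≤ η * D.dx (s + 1) := by gcongr
    rw [abs_zero, add_zero]
    calc _ ≤ C₁ * (R + R) := by gcongr; exact h2.trans r3
      _ ≤ _ := by nlinarith [mul_nonneg c2 R0, mul_nonneg c3 R0]
  · refine (abs_sum_le_sum_abs _ _).trans ((sum_le_sum (g := fun j =>
      omS D j * (C₃ * (D.X ^ 3 * D.dx (s + 1)))) fun j hj => ?_).trans ?_)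
    · have j1 : j ≤ D.J := Nat.lt_succ_iff.1 (mem_range.1 hj)
      have o := omS_nonneg95 H (j1.trans_lt H.cut)
      rw [abs_mul, abs_of_nonneg o, ← dmS]
      exact mul_le_mul_of_nonneg_left (lw D.S (r1S H) (monoS H) j _ (by omega) (hl ▸ t2.le) _ X3
        (by rw [tmS H (j1.trans H.cut.le)]; exact sig_lo H j1)) o
    · rw [← sum_mul]
      have h1 : La D * (D.X ^ 3 * D.dx (s + 1)) ≤ R := by
        rw [hR]
        gcongr
        exact le_add_of_nonneg_left η0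
      calc _ ≤ 2 * La D * (C₃ * (D.X ^ 3 * D.dx (s + 1))) := by
            gcongr
            exact sum_omS H fun i hi => (mem_range.1 hi).trans_le H.cut
        _ = 2 * C₃ * (La D * (D.X ^ 3 * D.dx (s + 1))) := by ring
        _ ≤ 2 * C₃ * R := by gcongr
        _ ≤ _ := by nlinarith [mul_nonneg c1 R0, mul_nonneg c2 R0]
  · refine (abs_sum_le_sum_abs _ _).trans ((sum_le_sum (g := fun i =>
      C₂ * (ex D.S i * gl D.S i ^ 2 * (|ind (s + 1) i| + D.dx (s + 1)))) fun i hi => ?_).trans ?_)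
    · have x0 : 0 ≤ ex D.S i * gl D.S i ^ 2 := mul_nonneg (exS D i ▸ H.ex0 i) (sq_nonneg _)
      rw [abs_mul, abs_of_nonneg (by positivity)]
      calc _ ≤ ex D.S i * gl D.S i ^ 2 * (C₂ * (|ind (s + 1) i| + D.dx (s + 1))) :=
            mul_le_mul (by linarith) (ab' i (hl ▸ mem_range.1 hi)).2.1 (abs_nonneg _) x0
        _ = _ := by ring
    · rw [← mul_sum, hl]
      calc _ ≤ C₂ * R := mul_le_mul_of_nonneg_left (sum_gl2_ind H h ht) c2
        _ ≤ _ := by nlinarith [mul_nonneg c1 R0, mul_nonneg c2 R0, mul_nonneg c3 R0]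
  · simpa [ind, E42.G] using (ab' _ t2).2.2.2.2.1
  · simpa [ind, E42.G] using (ab' _ t2).2.2.2.2.2.2 (by simp [ind])
  · calc _ = C₂ * (D.dx (s + 1) * D.dx (s + 1)) := by ring
      _ ≤ C₂ * (η * D.dx (s + 1)) := by gcongr
      _ ≤ C₂ * R := by gcongr
      _ ≤ _ := by nlinarith [mul_nonneg c1 R0, mul_nonneg c2 R0, mul_nonneg c3 R0]
  · calc _ ≤ C₂ * (η * D.dx (s + 1)) := by gcongr
      _ ≤ C₂ * R := by gcongr
      _ ≤ _ := by nlinarith [mul_nonneg c1 R0, mul_nonneg c2 R0, mul_nonneg c3 R0]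

end Crest.Agent.T156.Cas.Hb68

end
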