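import Crest.Agent.T156.R1S_95
import Crest.Agent.T156.R2EDef_42
import Crest.Agent.T156.CL3_76

/-!
# Row 156 (helper95): the site input `H6` of the head (EE)
-/

set_option autoImplicit false
set_option linter.unusedSectionVars false

noncomputable section

namespace Crest.Agent.T156.Cas

open MeasureTheory Real Set Filter Topology
open Crest.Agent.T157.E Crest.Agent.T157.Casc Crest.Agent.T157.SL Crest.Agent.T157.Casc.C
open Crest.Agent.R339.B Crest.Agent.R339.Var Crest.Agent.T157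
open Crest.ProbabilityR.SpinGlassDynamics (spin)
open Nu87 One15 Site94

namespace R1S95

variable {L : List (Lv Bool)} {ℓ : List (ℝ × ℝ)} {q : ℕ → ℝ}

theorem I_ind {j t : ℕ} (ht : t ≤ L.length) :
    Ws38.I L j (fun y => if y = t then 1 else 0) = dm L 0 t + if j = t then 1 else 0 := by
  simp only [Ws38.I, mul_ite, mul_one, mul_zero]
  rw [Finset.sum_ite_eq', if_pos (Finset.mem_range.2 (by omega))]

/-- two letters at two different levels -/
theorem w2_lev (H : List.Forall₂ (Rk1 spin) L ℓ) (hM : Mono 0 L) (h1 : ∀ j ≤ L.length, |q j| ≤ 1)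
    {j t t' : ℕ} (hj : j ≤ L.length) (ht : t ≤ L.length) (ht' : t' ≤ L.length) (hne : t ≠ t')
    {P : ℝ} (hP : min 1 (R339.Var.TT (ℓ.take (min t t'))) ≤ P) (hq : ∀ v ≤ min t t', |q v| ≤ P) :
    |W L q j [lev q t, lev q t']| ≤ 4500 ^ 2 * ((if j = min t t' then 8 else 8 * (cO 6 * P)) *
      ((dm L 0 t + if j = t then 1 else 0) * (dm L 0 t' + if j = t' then 1 else 0))) := by
  have hP0 : 0 ≤ P := (abs_nonneg _).trans (hq 0 (Nat.zero_le _))
  have hc := cO_pos 6
  rw [W_two (lev_eq t) (lev_eq t')]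
  refine (Ws38.W2 hM hj (D := fun y y' => (if j = min t t' then 8 else 8 * (cO 6 * P)) *
    ((if y = t then 1 else 0) * if y' = t' then 1 else 0)) (fun y y' => by positivity)
    fun τ hτ τ' hτ' => ?_).trans (le_of_eq ?_)
  · by_cases e1 : τ.j = t
    swap
    · simp [e1]
    by_cases e2 : τ'.j = t'
    swap
    · simp [e2]
    simp only [e1, e2, if_true, one_mul, mul_one]
    split_ifs with h
    · exact abs_T2_le h1 hj hτ hτ'
    · have hm : min j (min t t') ≤ min t t' := min_le_right _ _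
      exact T2_odd H hM h1 hj hτ hτ' (m := min j (min t t')) (by omega)
        ((min_le_min_left _ (TT_take_mono H hm)).trans hP) fun v hv => hq v (hv.trans hm)
  · have e : ∀ y : ℕ, ((if y = t then 1 else 0) * if y = t' then 1 else 0 : ℝ) = 0 := fun y => by
      by_cases h : y = t
      · rw [if_neg (h ▸ hne : y ≠ t'), mul_zero]
      · rw [if_neg h, zero_mul]
    simp only [e, mul_zero, add_zero, Ws38.I_mul, Ws38.I_mul', I_ind ht, I_ind ht']

end R1S95

namespace C40.E42

open R1S95 OneP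

variable {D : CD} {τ0 : ℝ}

theorem size95 (H : D.Ok τ0) {t : ℕ} (ht : t ∈ D.up) :
    min 1 (R339.Var.TT ((opV D.n D.β D.M D.q).take t)) ≤ (cP 2 2 + 1) * D.e t ∧
      ∀ v ≤ t, |D.q v| ≤ (cP 2 2 + 1) * D.e t := by
  have hc : 0 ≤ cP 2 2 + 1 := add_nonneg (cP_nonneg _ _) zero_le_one
  refine ⟨le_of_eps76 hc fun ε h0 h1 => ?_, fun v hv => le_of_eps76 hc fun ε h0 h1 => ?_⟩
  · obtain ⟨s, -, -, h2, -, h3, -⟩ := size76 H ht h0 h1
    exact (min_le_iff.2 h3).trans h2
  · obtain ⟨s, -, -, h2, -, -, h3⟩ := size76 H ht h0 h1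
    exact (h3 v hv).trans h2

theorem one_le_La95 (H : D.Ok τ0) : 1 ≤ La D := le_add_of_nonneg_right (H.sig0 le_rfl)

theorem dx_le_ck95 (H : D.Ok τ0) {t : ℕ} (ht : t < D.K) : D.dx t ≤ ck D t :=
  le_add_of_nonneg_right (sub_nonneg.2 (H.sig_le t.le_succ ht))

theorem omS_nonneg95 (H : D.Ok τ0) {t : ℕ} (ht : t < D.K) : 0 ≤ omS D t :=
  add_nonneg (mul_nonneg (H.dx0 t) (H.sig0 ht.le)) (div_nonneg (mul_nonneg (H.ex0 t)
    (sub_nonneg.2 (H.sig_le t.le_succ ht))) zero_le_two)

theorem omS_le95 (H : D.Ok τ0) {t : ℕ} (ht : t < D.K) {x : ℝ} (h1 : D.sig t ≤ x)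
    (h2 : ex D.B t ≤ x) : omS D t ≤ x * ck D t := by
  have h3 := sub_nonneg.2 (H.sig_le t.le_succ ht)
  have h4 := mul_le_mul_of_nonneg_left h1 (H.dx0 t)
  have h5 := mul_le_mul_of_nonneg_right h2 h3
  have h6 := mul_nonneg (H.ex0 t) h3
  simp only [omS, mv, ck, Nat.succ_eq_add_one] at *
  nlinarith

theorem omS_La95 (H : D.Ok τ0) {t : ℕ} (ht : t < D.K) : omS D t ≤ La D * ck D t :=
  omS_le95 H ht ((H.sig_le ht.le le_rfl).trans (le_add_of_nonneg_left zero_le_one))
    ((Tay38.ex_le_one H.mono t).trans (one_le_La95 H))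

theorem omS_e95 (H : D.Ok τ0) {t : ℕ} (ht : t ∈ D.up) : omS D t ≤ La D * D.e t * ck D t := by
  have hK := (Finset.mem_Ioo.1 ht).2
  have he := H.esc t ht
  have h1 := one_le_La95 H
  have h2 := H.sig0 hK.le
  have h3 := H.ex0 t
  have h4 : D.sig t ≤ La D := (H.sig_le hK.le le_rfl).trans (le_add_of_nonneg_left zero_le_one)
  have h5 := Tay38.ex_le_one H.mono t
  have h6 := H.e0 t
  refine omS_le95 H hK ?_ ?_ <;> rcases min_le_iff.1 he with h | h <;> nlinarith

theorem sum_omS95 (H : D.Ok τ0) : ∑ j ∈ D.up, omS D j ≤ 2 * La D := by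
  have h1 : ∑ j ∈ D.up, D.dx j * D.sig j ≤ D.sig D.K := by
    refine (Finset.sum_le_sum (g := fun j => D.dx j * D.sig D.K) fun j hj =>
      mul_le_mul_of_nonneg_left (H.sig_le (Finset.mem_Ioo.1 hj).2.le le_rfl) (H.dx0 j)).trans ?_
    rw [← Finset.sum_mul]
    exact mul_le_of_le_one_left (H.sig0 le_rfl)
      (H.sum_dx_one fun i hi => (Finset.mem_Ioo.1 hi).2.le)
  have h2 : ∑ j ∈ D.up, mv D D.sig j ≤ D.sig D.K := by
    refine (Finset.sum_le_sum (g := fun j => D.sig (j + 1) - D.sig j) fun j hj =>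
      mul_le_of_le_one_left (sub_nonneg.2 (H.sig_le j.le_succ (Finset.mem_Ioo.1 hj).2))
        (Tay38.ex_le_one H.mono j)).trans ?_
    refine (Finset.sum_le_sum_of_subset_of_nonneg (t := Finset.range D.K) (fun j hj =>
      Finset.mem_range.2 (Finset.mem_Ioo.1 hj).2) fun j hj _ =>
        sub_nonneg.2 (H.sig_le j.le_succ (Finset.mem_range.1 hj))).trans ?_
    rw [Finset.sum_range_sub]
    linarith [H.sig0 (Nat.zero_le D.K)]
  simp only [omS, Finset.sum_add_distrib, ← Finset.sum_div, La]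
  linarith [H.sig0 (le_refl D.K)]

theorem sum_bd95 (H : D.Ok τ0) {m M : ℕ} (hm : m ∈ D.up) (hM : M ∈ D.up) (hne : m ≠ M)
    {w : ℕ → ℝ} {A c : ℝ} (hA : 0 ≤ A) (hc : 1 ≤ c)
    (hw : ∀ j ∈ D.up, |w j| ≤ A * ((if j = m then 1 else c * D.e m) *
      ((D.dx m + if j = m then 1 else 0) * (D.dx M + if j = M then 1 else 0)))) :
    |∑ j ∈ D.up, omS D j * w j| ≤ 6 * A * c * La D * (D.e m * (ck D m * ck D M)) := by
  have k1 := (Finset.mem_Ioo.1 hm).2
  have k2 := (Finset.mem_Ioo.1 hM).2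
  have d1 := H.dx0 m
  have d2 := H.dx0 M
  have d3 := dx_le_ck95 H k1
  have d4 := dx_le_ck95 H k2
  have d5 := H.dx1 k1.le
  have d6 := H.dx1 k2.le
  have c1 := d1.trans d3
  have c2 := d2.trans d4
  have he := H.e0 m
  have hL := one_le_La95 H
  have hc0 : 0 ≤ c := zero_le_one.trans hc
  set B := D.e m * (ck D m * ck D M) with hB
  have hB0 : 0 ≤ B := by positivity
  refine (Finset.abs_sum_le_sum_abs _ _).trans ((Finset.sum_le_sum (g := fun j =>
    A * c * B * omS D j + (if j = m then 2 * A * c * La D * B else 0) +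
      if j = M then 2 * A * c * La D * B else 0) fun j hj => ?_).trans ?_)
  · have k3 := (Finset.mem_Ioo.1 hj).2
    have o1 := omS_nonneg95 H k3
    rw [abs_mul, abs_of_nonneg o1]
    refine (mul_le_mul_of_nonneg_left (hw j hj) o1).trans ?_
    have n0 : 0 ≤ A * c * B * omS D j := by positivity
    by_cases e1 : j = m
    · subst e1
      simp only [if_true, if_neg hne, add_zero, one_mul]
      refine le_add_of_nonneg_of_le n0 ?_
      calc _ ≤ La D * D.e j * ck D j * (A * (2 * ck D M)) := by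
            gcongr
            · exact omS_e95 H hj
            · linarith
        _ = 1 * (2 * A * La D * B) := by rw [hB]; ring
        _ ≤ c * (2 * A * La D * B) := by gcongr
        _ = _ := by ring
    by_cases e2 : j = M
    · subst e2
      simp only [if_true, if_neg e1, add_zero]
      refine le_add_of_nonneg_of_le n0 ?_
      calc _ ≤ La D * ck D j * (A * (c * D.e m * (ck D m * 2))) := by
            gcongr
            · exact omS_La95 H k3
            · linarith
        _ = _ := by rw [hB]; ring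
    · simp only [if_neg e1, if_neg e2, add_zero]
      calc _ ≤ omS D j * (A * (c * D.e m * (ck D m * ck D M))) := by gcongr
        _ = _ := by rw [hB]; ring
  · rw [Finset.sum_add_distrib, Finset.sum_add_distrib, Finset.sum_ite_eq', Finset.sum_ite_eq',
      if_pos hm, if_pos hM, ← Finset.mul_sum]
    have := mul_le_mul_of_nonneg_left (sum_omS95 H) (show 0 ≤ A * c * B by positivity)
    nlinarith

/-- **(H6)** -/
theorem h6 : H6 := fun τ0 => by
  have c1 := one_le_cO 6
  have c2 : 1 ≤ cP 2 2 + 1 := le_add_of_nonneg_left (cP_nonneg _ _)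
  have c3 : 1 ≤ cO 6 * (cP 2 2 + 1) := one_le_mul_of_one_le_of_one_le c1 c2
  refine ⟨6 * (4500 ^ 2 * 8) * (cO 6 * (cP 2 2 + 1)), by positivity,
    fun D η H _ t ht t' ht' hne => ?_⟩
  have hl : D.S.length = D.K := opS_length
  have hS : Mono 0 D.S := Cav22.mono_tilt tilt_opS.symm H.mono
  have hdx : ∀ j, dm D.S 0 j = D.dx j := fun j => Cav22.dm_tilt tilt_opS 0 j
  have hm : min t t' ∈ D.up := by rcases min_choice t t' with h | h <;> rw [h] <;> assumption
  have hw : ∀ j ∈ D.up, |W D.S D.q j [lev D.q t, lev D.q t']| ≤ 4500 ^ 2 * 8 *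
      ((if j = min t t' then 1 else cO 6 * (cP 2 2 + 1) * D.e (min t t')) *
        ((D.dx t + if j = t then 1 else 0) * (D.dx t' + if j = t' then 1 else 0))) := fun j hj => by
    refine (w2_lev (L := D.S) (C.forall₂_sl spin (opV_nn H.ook)) hS (q176 H)
      (hl ▸ (Finset.mem_Ioo.1 hj).2.le) (hl ▸ (Finset.mem_Ioo.1 ht).2.le)
      (hl ▸ (Finset.mem_Ioo.1 ht').2.le) hne (size95 H hm).1 (size95 H hm).2).trans (le_of_eq ?_)
    rw [hdx, hdx]
    split_ifs <;> ring
  have e : (star D).sL [D.lev t, D.lev t'] =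
      ∑ j ∈ D.up, omS D j * W D.S D.q j [lev D.q t, lev D.q t'] := sL_eq76 (star D) _
  rw [e]
  rcases lt_or_gt_of_ne hne with h | h
  · rw [min_eq_left h.le] at hw
    rw [min_eq_left (H.e_mono h.le)]
    exact sum_bd95 H ht ht' hne (by positivity) c3 hw
  · rw [min_eq_right h.le] at hw
    rw [min_eq_right (H.e_mono h.le), mul_comm (ck D t)]
    exact sum_bd95 H ht' ht hne.symm (by positivity) c3 fun j hj =>
      (hw j hj).trans (le_of_eq (by ring))

end C40.E42

end Crest.Agent.T156.Cas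

end
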