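import Crest.Agent.T156.HbD_68
import Crest.Agent.T156.R2H6_95

/-!
# Row 156 (helper95): kit for the glue of `HbD_68` (`D.S` as a site cascade with a top)
-/

set_option autoImplicit false
set_option linter.unusedSectionVars false

noncomputable section

namespace Crest.Agent.T156.Cas.Hb68.K95

open Real Finset
open Crest.Agent.T157.E Crest.Agent.T157.Casc Crest.Agent.T157.SL
open Crest.ProbabilityR.SpinGlassDynamics (spin)
open R1J (W ind n1)
open Ker15 (R1 tm)
open C40 C40.E42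

variable {D : CD} {τ0 η : ℝ}

theorem lenS (D : CD) : D.S.length = D.K := opS_length

theorem dmS (D : CD) (j : ℕ) : dm D.S 0 j = D.dx j := Cav22.dm_tilt tilt_opS 0 j

theorem exS (D : CD) (j : ℕ) : ex D.S j = ex D.B j := Cav22.ex_tilt tilt_opS j

theorem dx_succ (D : CD) (s : ℕ) : D.dx (s + 1) = ex D.B (s + 1) - ex D.B s := rfl

theorem n1_ind {L : List (Lv Bool)} {t : ℕ} (ht : t ≤ L.length) : n1 L (ind t) = dm L 0 t := by
  rw [n1, sum_eq_single_of_mem t (mem_range.2 (by omega)) fun j _ h => by simp [ind, h]]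
  simp [ind]

/-- the jumps of an indicator -/
theorem sum_jump {K s : ℕ} (hs : s + 1 < K) (Y : ℕ → ℝ) :
    ∑ i ∈ range K, (ind (s + 1) (i + 1) - ind (s + 1) i) * Y i = Y s - Y (s + 1) := by
  simp only [sub_mul, sum_sub_distrib, ind, ite_mul, one_mul, zero_mul, Nat.add_right_cancel_iff]
  rw [sum_ite_eq', sum_ite_eq', if_pos (mem_range.2 (by omega)), if_pos (mem_range.2 hs)]

theorem sum_ind {K t : ℕ} (ht : t < K) (Y : ℕ → ℝ) : ∑ i ∈ range K, ind t i * Y i = Y t := by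
  simp only [ind, ite_mul, one_mul, zero_mul]
  rw [sum_ite_eq', if_pos (mem_range.2 ht)]

/-- two equal indicator letters above the node: parity at the node -/
theorem w_low : ∃ C : ℝ, 0 ≤ C ∧ ∀ (L : List (Lv Bool)), R1 L → Mono 0 L → ∀ k t, k < t →
    t ≤ L.length → ∀ P, 0 ≤ P → tm L k ≤ P → |W L k [ind t, ind t]| ≤ C * (P * dm L 0 t) := by
  have hc := R1S95.cO_pos 6
  refine ⟨4500 ^ 2 * (16 * R1S95.cO 6) * 2, by positivity, fun L h hM k t hk ht P P0 hP => ?_⟩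
  rw [R1S95.W_eq, List.map_cons, List.map_cons, List.map_nil,
    R1S95.W_two (R1S95.sk_eq (ind t)) (R1S95.sk_eq (ind t))]
  have e0 : ind t k / 2 = 0 := by simp [ind, hk.ne]
  refine (R1S95.s2_core (f := fun j => ind t j / 2) (g := fun j => ind t j / 2) (P := P) h.rk hM
    (by simp) (hk.le.trans ht) ((min_le_right _ _).trans (by rwa [← Ker15.tm_eq h.rk k]))
    (by simp [P0])
    e0 e0).trans ?_
  have d0 := dm_nonneg hM t
  have d1 := R1S95.dm_le_one hM ht
  have e1 : R1S95.Nm L (fun j => ind t j / 2) = dm L 0 t / 2 := by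
    rw [R1S95.Nm, sum_eq_single_of_mem t (mem_range.2 (by omega)) fun j _ h => by simp [ind, h]]
    simp [ind, div_eq_mul_inv]
  have e2 : ∑ y ∈ Ioc k L.length, dm L 0 y * |ind t y / 2 * (ind t y / 2)| = dm L 0 t / 4 := by
    rw [sum_eq_single_of_mem t (mem_Ioc.2 ⟨hk, ht⟩) fun j _ h => by simp [ind, h]]
    simp only [ind, if_true]
    rw [abs_of_pos (by norm_num)]
    ring
  have e3 : ∑ y ∈ range k, dm L 0 y * |ind t y / 2 * (ind t y / 2)| = 0 :=
    sum_eq_zero fun j hj => by simp [ind, ((mem_range.1 hj).trans hk).ne]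
  rw [e1, e2, e3, mul_assoc _ (2 : ℝ)]
  refine mul_le_mul_of_nonneg_left ?_ (by positivity)
  nlinarith [mul_nonneg P0 d0, mul_le_mul_of_nonneg_left d1 (mul_nonneg P0 d0)]

section
variable (H : D.Ok τ0)
include H

theorem r1S : R1 D.S := Ker15.r1_of (C.forall₂_sl spin (opV_nn H.ook))

theorem monoS : Mono 0 D.S := Cav22.mono_tilt tilt_opS.symm H.mono

theorem tmS {j : ℕ} (hj : j ≤ D.K) : tm D.S j = D.sig j :=
  (Ker15.tm_eq (C.forall₂_sl spin (opV_nn H.ook)) j).trans (opV_acc hj)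

theorem glS {i : ℕ} (hi : i < D.K) : gl D.S i = D.sig (i + 1) - D.sig i := by
  rw [gl, tmS H hi, tmS H hi.le]

theorem gl0 (i : ℕ) : 0 ≤ gl D.S i := sub_nonneg.2 ((r1S H).tm_mono i.le_succ)

theorem gl_top : gl D.S D.K = 0 := by
  have h : List.Forall₂ (C.Rk1 spin) D.S (opV D.n D.β D.M D.q) := C.forall₂_sl spin (opV_nn H.ook)
  rw [gl, Ker15.tm_eq h, Ker15.tm_eq h, List.take_of_length_le (by rw [← h.length_eq, lenS]; omega),
    List.take_of_length_le (by rw [← h.length_eq, lenS]), sub_self]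

theorem omS_eq {j : ℕ} (hj : j < D.K) : om D.S j = omS D j := by
  rw [om, omS, mv, dmS, exS, tmS H hj.le, glS H hj]

theorem om_top : om D.S D.K = 0 := by
  rw [om, dmS, H.top, gl_top H]
  simp

/-- the Euler sum splits into UP and the nodes `j ≤ J` -/
theorem sum_om (a : ℕ → ℝ) : ∑ j ∈ range (D.S.length + 1), om D.S j * a j =
    ∑ j ∈ D.up, omS D j * a j + ∑ j ∈ range (D.J + 1), omS D j * a j := by
  have hc := H.cut
  rw [lenS, sum_range_succ, om_top H, zero_mul, add_zero,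
    sum_congr rfl fun j hj => by rw [omS_eq H (mem_range.1 hj)], add_comm,
    ← sum_range_add_sum_Ico _ (show D.J + 1 ≤ D.K from hc)]
  rfl

theorem sum_gl {A : Finset ℕ} (hA : ∀ i ∈ A, i < D.K) : ∑ i ∈ A, gl D.S i ≤ D.sig D.K := by
  refine (sum_le_sum_of_subset_of_nonneg (t := range D.K) (fun i hi => mem_range.2 (hA i hi))
    fun i _ _ => gl0 H i).trans ?_
  simp only [gl]
  rw [sum_range_sub (tm D.S), tmS H le_rfl, tmS H (Nat.zero_le _)]
  linarith [H.sig0 (Nat.zero_le D.K)]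

/-- mass of the Euler measure on any set of nodes below the top -/
theorem sum_omS {A : Finset ℕ} (hA : ∀ i ∈ A, i < D.K) : ∑ j ∈ A, omS D j ≤ 2 * La D := by
  have h1 : ∑ j ∈ A, D.dx j * D.sig j ≤ D.sig D.K := by
    refine (sum_le_sum (g := fun j => D.dx j * D.sig D.K) fun j hj =>
      mul_le_mul_of_nonneg_left (H.sig_le (hA j hj).le le_rfl) (H.dx0 j)).trans ?_
    rw [← sum_mul]
    exact mul_le_of_le_one_left (H.sig0 le_rfl) (H.sum_dx_one fun i hi => (hA i hi).le)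
  have h2 : ∑ j ∈ A, mv D D.sig j ≤ D.sig D.K := by
    refine (sum_le_sum fun j hj => ?_).trans (sum_gl H hA)
    rw [glS H (hA j hj)]
    exact mul_le_of_le_one_left (sub_nonneg.2 (H.sig_le j.le_succ (hA j hj)))
      (Tay38.ex_le_one H.mono j)
  simp only [omS, sum_add_distrib, ← sum_div, La]
  linarith [H.sig0 (le_refl D.K)]

theorem sig_lo {j : ℕ} (hj : j ≤ D.J) : D.sig j ≤ D.X ^ 3 := by
  rw [CD.sig, H.qlo j hj, mul_zero, zero_add]
  exact (H.fAcc_mono hj).trans H.h1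

variable (h : Hm D η)
include h

theorem eta8 {x : ℝ} (x0 : 0 ≤ x) (hx : x * La D ^ 2 ≤ η ^ 8) : x ≤ η :=
  ((le_mul_of_one_le_right x0 (one_le_pow₀ (one_le_La95 H))).trans hx).trans
    (pow_le_of_le_one h.η0 h.η1 (by norm_num))

theorem gl_eta {i : ℕ} (hi : i < D.K) (hJ : D.J < i) : gl D.S i ≤ η :=
  eta8 H h (gl0 H i) (by rw [glS H hi]; exact h.mesh i hi hJ)

theorem dx_eta {t : ℕ} (ht : t ∈ D.up) : D.dx t ≤ η :=
  ((le_mul_of_one_le_right (H.dx0 t) (one_le_pow₀ (one_le_La95 H))).trans (h.mshx t ht)).trans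
    (pow_le_of_le_one h.η0 h.η1 (by norm_num))

theorem gl_lo {i : ℕ} (hi : i < D.J) : gl D.S i ≤ D.X ^ 3 := by
  have := H.cut
  rw [glS H (by omega)]
  exact (sub_le_self _ (H.sig0 (by omega))).trans (sig_lo H hi)

theorem gl_ne {i : ℕ} (hi : i < D.K) (hJ : i ≠ D.J) : gl D.S i ≤ η + D.X ^ 3 := by
  rcases lt_or_gt_of_ne hJ with h1 | h1
  · exact (gl_lo H h h1).trans (le_add_of_nonneg_left h.η0)
  · exact (gl_eta H h hi h1).trans (le_add_of_nonneg_right (pow_nonneg H.X0 3))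

theorem gl_J : gl D.S D.J ≤ D.X := by
  rw [glS H H.cut]
  exact (sub_le_self _ (H.sig0 H.cut.le)).trans h.sX

theorem gl_one {i : ℕ} (hi : i < D.K) : gl D.S i ≤ 1 := by
  rcases lt_trichotomy i D.J with hJ | hJ | hJ
  · exact (gl_lo H h hJ).trans (pow_le_one₀ H.X0 H.X1)
  · exact hJ ▸ (gl_J H h).trans H.X1
  · exact (gl_eta H h hi hJ).trans h.η1

/-- **the top of the site cascade** -/
theorem tp : ∃ U, Tp D.S U ∧ exp (-U / 4) ≤ η := by
  obtain ⟨i, U, -, h2, h3, h4, -, h6⟩ := h.ent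
  have h7 := eta8 H h (exp_pos _).le h6
  have h8 : -U / 4 ≤ 0 := exp_le_one_iff.1 (h7.trans h.η1)
  refine ⟨U, ⟨r1S H, monoS H, by linarith, i, (lenS D).symm ▸ h2, fun j hj => by
    rw [exS, h3 j hj], ?_⟩, h7⟩
  rw [lenS, tmS H h2.le, tmS H le_rfl]
  have h9 : D.τ i * D.q i ≤ D.τ D.K * D.q D.K :=
    mul_le_mul (H.tau_mono h2.le) (H.ook.le h2.le le_rfl) (H.ook.mem h2.le).1 (H.tau_mem _).1
  simp only [CD.sig]
  linarith

/-- squares of the level lengths -/
theorem sum_gl2 : ∑ i ∈ range D.K, ex D.S i * gl D.S i ^ 2 ≤ La D * (η + D.X ^ 3) := by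
  have hX := H.X0
  have hL := one_le_La95 H
  have hη := add_nonneg h.η0 (pow_nonneg hX 3)
  refine (sum_le_sum (g := fun i => (η + D.X ^ 3) * gl D.S i + if i = D.J then D.X ^ 3 else 0)
    fun i hi => ?_).trans ?_
  · have g0 := gl0 H i
    have e0 := H.ex0 i
    rw [exS]
    split_ifs with hJ
    · subst hJ
      refine le_add_of_nonneg_of_le (mul_nonneg hη g0) ?_
      calc _ ≤ D.X * D.X ^ 2 := mul_le_mul H.x1 (pow_le_pow_left₀ g0 (gl_J H h) 2) (by positivity) hX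
        _ = _ := by ring
    · have := gl_ne H h (mem_range.1 hi) hJ
      nlinarith [Tay38.ex_le_one H.mono i, mul_nonneg g0 g0]
  · rw [sum_add_distrib, sum_ite_eq', if_pos (mem_range.2 H.cut), ← mul_sum]
    have h1 := mul_le_mul_of_nonneg_left (sum_gl H fun i hi => mem_range.1 hi) hη
    simp only [La] at *
    nlinarith [h.η0]

/-- the same against an indicator letter -/
theorem sum_gl2_ind {t : ℕ} (ht : t ∈ D.up) :
    ∑ i ∈ range D.K, ex D.S i * gl D.S i ^ 2 * (|ind t i| + D.dx t) ≤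
      La D * ((η + D.X ^ 3) * ck D t) := by
  obtain ⟨h1, h2⟩ := CD.mem_up.1 ht
  have e : ∀ i, ex D.S i * gl D.S i ^ 2 * (|ind t i| + D.dx t) =
      ind t i * (ex D.S i * gl D.S i ^ 2) + ex D.S i * gl D.S i ^ 2 * D.dx t := fun i => by
    rw [abs_of_nonneg (by simp only [ind]; split_ifs <;> norm_num)]
    ring
  simp only [e]
  rw [sum_add_distrib, sum_ind h2, ← sum_mul, ck, ← glS H h2]
  have a1 := mul_le_mul_of_nonneg_right (sum_gl2 H h) (H.dx0 t)
  have g0 := gl0 H t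
  have g1 := gl_eta H h h2 h1
  have a2 : ex D.S t * gl D.S t ^ 2 ≤ η * gl D.S t := by
    rw [exS]
    nlinarith [Tay38.ex_le_one H.mono t, mul_nonneg g0 g0, H.ex0 t]
  have a3 : η * gl D.S t ≤ La D * ((η + D.X ^ 3) * gl D.S t) :=
    (mul_le_mul_of_nonneg_right (le_add_of_nonneg_right (pow_nonneg H.X0 3)) g0).trans
      (le_mul_of_one_le_left (mul_nonneg (add_nonneg h.η0 (pow_nonneg H.X0 3)) g0) (one_le_La95 H))
  nlinarith

theorem ms_ind {t : ℕ} (ht : t ∈ D.up) : ms D.S (ind t) ≤ La D * ((η + D.X ^ 3) * ck D t) := by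
  refine le_trans ?_ (sum_gl2_ind H h ht)
  rw [ms, n1_ind ((lenS D).symm ▸ (CD.mem_up.1 ht).2.le), dmS, lenS]
  refine sum_le_sum fun i hi => mul_le_mul_of_nonneg_right (mul_le_mul_of_nonneg_left
    (pow_le_pow_of_le_one (gl0 H i) (gl_one H h (mem_range.1 hi)) (by norm_num)) ?_)
    (add_nonneg (abs_nonneg _) (H.dx0 t))
  rw [exS]
  exact H.ex0 i

end

end Crest.Agent.T156.Cas.Hb68.K95

end
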