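import Crest.Agent.T156.HbY_20
import Crest.Agent.T156.HomA_68
import Crest.Agent.T156.HbA_91
import Crest.Agent.T156.HbK_95
import Crest.Agent.T156.R1S_95

/-!
# Row 156 (helper16): the jump atom `Hb68.AT`
-/

set_option autoImplicit false
set_option linter.all false

noncomputable section

namespace Crest.Agent.T156.Cas.Hb68

open Real Finset Filter Topology
open Crest.Agent.T157.E Crest.Agent.T157.Casc Crest.Agent.T157.SL
open Crest.ProbabilityR.SpinGlassDynamics (spin)
open Crest.Agent.T156.Pp.Area50 (lsg Up)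
open R1J (W ind n1)
open Ker15 (R1 tm rf dn z0)
open Crest.Agent.T157.Casc.C (Rk1)
open R1J.S21 (ex_rk len_rk ex_top mono_of_ex ex_mono W_lin W_lin2 W_perm ind_self ind_ne)
open C40 C40.E42

namespace T16

variable {L M T A : List (Lv Bool)}

theorem W_rt (T : List (Lv Bool)) (k : ℕ) (V : List (ℕ → ℝ)) :
    W (z0 Bool 0 :: T) (k + 1) V = W T k (V.map fun f j => f (j + 1)) := by
  rw [Y20.W_up, W, List.map_map]
  rfl

theorem dm_ex (e : ∀ j, ex M j = ex L j) : ∀ j, dm M 0 j = dm L 0 j
  | 0 => by simp only [dm, exP, e]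
  | j + 1 => by simp only [dm, exP, e]

theorem mono_ex (hL : Mono 0 L) (e : ∀ j, ex M j = ex L j) : Mono 0 M := by
  refine mono_of_ex _ _ ?_ fun j => ?_
  · rw [e]
    simpa [dm, exP] using dm_nonneg hL 0
  · rw [e, e]
    exact ex_mono hL j.le_succ

theorem ex_of {s : ℕ → ℝ} (H : List.Forall₂ (Rk1 spin) M (lsg (ex L) s L.length)) (j : ℕ) :
    ex M j = ex L j := by
  rw [ex_rk _ _ _ _ H]
  split_ifs with a
  · rfl
  · exact (ex_top L (by omega)).symm

theorem st0 {a : ℕ} (ha : 1 ≤ a) : st a 0 = 0 := if_neg (by omega)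

theorem abs_st (a j : ℕ) : |st a j| ≤ 1 := by
  unfold st
  split_ifs <;> simp

theorem st_sh (a : ℕ) : (fun j => st (a + 1) (j + 1)) = st a := by
  funext j
  simp [st]

/-- the root word is the square of the susceptibility -/
theorem yq (H : R1 T) : W T 0 [st 0] =
    (1 - ∑ j ∈ range (T.length + 1), dm T 0 j * W T j []) ^ 2 := by
  have e := Y20.W_zero_one (One15.fl_of H.rk)
  rw [W_rt, List.map_singleton, st_sh] at e
  refine e.trans (congrArg (· ^ 2) ((Y20.lop_one _ _).trans (congrArg₂ (· - ·)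
    (Law.TE_const One15.w1 _ _ _ _) (sum_congr rfl fun j _ => ?_))))
  rw [Y20.fld0]
  rfl

/-- its derivative along a step -/
theorem yq_st (H : R1 T) {a : ℕ} (ha : 1 ≤ a) : W T 0 [st 0, st a] =
    -2 * (1 - ∑ j ∈ range (T.length + 1), dm T 0 j * W T j []) *
      ∑ j ∈ range (T.length + 1), dm T 0 j * W T j [st a] := by
  have up : ∀ t ∈ Set.Icc (0 : ℝ) 1, Up (fun j => tm T j + t * st a j) T.length := fun t ht j _ =>
    add_le_add (H.tm_mono j.le_succ) (mul_le_mul_of_nonneg_left (by
      unfold st; split_ifs <;> first | omega | norm_num) ht.1)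
  have rk := fun t ht => Hess65.rk1_pth t T.length (ex T) (tm T) (st a) (up t ht)
  have hP : ∀ j < T.length, st a (j + 1) - st a j = 0 ∨ ∀ t ∈ Set.Ioo (0 : ℝ) 1,
      0 < tm T (j + 1) - tm T j + (st a (j + 1) - st a j) * t := fun j _ => by
    have := H.tm_mono j.le_succ
    unfold st
    split_ifs with c1 c2
    · exact .inl (sub_self _)
    · exact .inr fun t ht => by linarith [ht.1]
    · omega
    · exact .inl (sub_self _)
  have der := fun u hu => Hess65.der_pth (z := ex T) (u := u) isOpen_Ioo hP (st0 ha) hu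
  have con := Hess65.cont_pth (ex T) (tm T) (st a) T.length
  set P := Hess65.pth (ex T) (tm T) (st a) T.length
  have h0 : Set.EqOn (fun u => Hess65.Wd (mat P u) [st 0, st a] 0) (fun u =>
      -2 * (1 - ∑ j ∈ range (T.length + 1), dm T 0 j * Hess65.Wd (mat P u) [] j) *
        ∑ j ∈ range (T.length + 1), dm T 0 j * Hess65.Wd (mat P u) [st a] j) (Set.Ioo 0 1) := by
    intro u hu
    have d2 := ((HasDerivAt.fun_sum fun j (_ : j ∈ range (T.length + 1)) =>
      (der u hu [] j).const_mul (dm T 0 j)).const_sub 1).fun_pow 2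
    refine ((der u hu [st 0] 0).unique (d2.congr_of_eventuallyEq ?_)).trans (by simp)
    filter_upwards [isOpen_Ioo.mem_nhds hu] with t ht
    have r := rk t (Set.Ioo_subset_Icc_self ht)
    have := yq (Ker15.r1_of r)
    rw [len_rk r] at this
    simp only [dm_ex (ex_of r)] at this
    exact this
  have h1 := h0.of_subset_closure (con _ _) ((continuousOn_const.mul (continuousOn_const.sub
    (continuousOn_finset_sum _ fun j _ => continuousOn_const.mul (con _ _)))).mul
    (continuousOn_finset_sum _ fun j _ => continuousOn_const.mul (con _ _)))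
    Set.Ioo_subset_Icc_self (closure_Ioo zero_ne_one).ge (Set.left_mem_Icc.2 zero_le_one)
  have r0 := rk 0 (Set.left_mem_Icc.2 zero_le_one)
  simp only [zero_mul, add_zero] at r0
  simp only [Hess65.Wd_rk1 r0 (A91.rk_L H)] at h1
  exact h1

theorem ind_st (a : ℕ) : ind a = fun j => 1 * st a j + -1 * st (a + 1) j := by
  funext j
  unfold ind st
  split_ifs <;> first | omega | norm_num

theorem ind0 {a : ℕ} (ha : 1 ≤ a) : ind a 0 = 0 := ind_ne (by omega)

/-- **the exact atom** -/
theorem atom (H : R1 T) {a : ℕ} (ha : 1 ≤ a) (hT : a ≤ T.length) :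
    W (z0 Bool 0 :: T) 1 [ind (a + 1), st 1] =
      (1 - ∑ j ∈ range ((z0 Bool 0 :: T).length + 1), dm (z0 Bool 0 :: T) 0 j *
        (st 1 j * W (z0 Bool 0 :: T) j [])) *
      (-2 * (dm T 0 a * W (z0 Bool 0 :: T) (a + 1) [st 1])) := by
  have s7 := Hd50.s7 (z0 Bool 0 :: T) (st 1) (ind (a + 1)) [] (st0 le_rfl) (ind0 (by omega))
    (by simp)
  rw [sum_eq_single_of_mem (a + 1) (f := fun j => dm (z0 Bool 0 :: T) 0 j * (ind (a + 1) j * _))
    (mem_range.2 (by rw [List.length_cons]; omega))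
    (fun j _ h => by rw [ind_ne h, zero_mul, mul_zero]), ind_self, one_mul, Y20.sum_up0] at s7
  have e : dm (z0 Bool 0 :: T) 0 (a + 1) = dm T 0 a := dm_cons_succ _ _ _ _
  rw [← e, ← s7, Y20.sum_up0, W_perm (List.Perm.swap _ _ [])
    (by simp [st0, ind0]), ind_st, W_lin2 (st0 le_rfl) _ _ (st0 (by omega)) (st0 (by omega))]
  simp only [W_lin, W_rt, List.map_cons, List.map_nil, st_sh, yq_st H ha,
    yq_st H (ha.trans a.le_succ), mul_add, sum_add_distrib, mul_left_comm (dm T 0 _), ← mul_sum]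
  ring

/-- empty levels collapse -/
theorem col (T : List (Lv Bool)) {a : ℕ} (ha : 1 ≤ a) : ∀ A : List (Lv Bool),
    W (z0 Bool 0 :: (A.map (fun l => z0 Bool l.m) ++ T)) (A.length + 1)
      [ind (A.length + 1 + a), st 1] = W (z0 Bool 0 :: T) 1 [ind (a + 1), st 1]
  | [] => by simp [add_comm]
  | l :: A => by
    have := W_ref [z0 Bool 0] (A.map (fun l => z0 Bool l.m) ++ T) l.m
      (V := [ind (A.length + 1 + a), st 1])
      (by simp [st0, ind0 (show 1 ≤ A.length + 1 + a by omega)]) (j := A.length + 1 + 1)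
      (by simp)
    have e1 : rd 1 (ind (A.length + 1 + a)) = ind (A.length + 1 + 1 + a) := by
      funext j
      simp only [rd, ind, dn]
      split_ifs <;> first | rfl | omega
    have e2 : rd 1 (st 1) = st 1 := by
      funext j
      simp only [rd, st, dn]
      split_ifs <;> first | rfl | omega
    simp only [List.length_singleton, List.map_cons, List.map_nil, e1, e2] at this
    exact this.trans (col T ha A)

theorem tm_app (A T : List (Lv Bool)) (j : ℕ) : tm (A ++ T) j = tm A j + tm T (j - A.length) := by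
  simp only [tm, cacc, List.take_append, List.map_append, List.sum_append]

theorem tm_z (A : List (Lv Bool)) (j : ℕ) : tm (A.map fun l => z0 Bool l.m) j = 0 := by
  refine List.sum_eq_zero fun x hx => ?_
  obtain ⟨l, hl, rfl⟩ := List.mem_map.1 hx
  obtain ⟨l', -, rfl⟩ := List.mem_map.1 (List.mem_of_mem_take hl)
  exact Ker15.z0_cov _ _ _

theorem r1_z (m : ℝ) (H : R1 T) : R1 (z0 Bool m :: T) := fun l hl =>
  (List.mem_cons.1 hl).elim (fun e => ⟨0, le_rfl, fun a b => by rw [e, Ker15.z0_cov, zero_mul]⟩)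
    (H l)

theorem tm_top (H : R1 A) (j : ℕ) : |tm A j| ≤ tm A A.length := by
  rw [abs_of_nonneg (Hess65.tm_nn H j)]
  rcases le_total j A.length with h | h
  · exact H.tm_mono h
  · simp only [tm, cacc, List.take_of_length_le h, List.take_length, le_refl]

theorem ex_app (A T : List (Lv Bool)) (j : ℕ) : ex (A ++ T) (A.length + j) = ex T j := by
  simp only [T157.Casc.ex, List.getElem?_append_right (Nat.le_add_right _ _),
    Nat.add_sub_cancel_left]

/-- a small last letter -/
theorem abs_W3 (hL : Mono 0 L) {k : ℕ} (hk : k ≤ L.length) {f g h : ℕ → ℝ} {σ : ℝ}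
    (f0 : f 0 = 0) (g0 : g 0 = 0) (h0 : h 0 = 0) (hg : ∀ j, |g j| ≤ 1) (hh : ∀ j, |h j| ≤ σ) :
    |W L k [f, g, h]| ≤ 80 * cW 4 2 * (σ * (|f k| + n1 L f)) := by
  have s0 : 0 ≤ σ := (abs_nonneg _).trans (hh 0)
  have e : h = fun j => σ * (h j / σ) + 0 * h j := funext fun j => by
    rcases s0.eq_or_lt with e | e
    · rw [← e, abs_nonpos_iff.1 ((hh j).trans e.ge)]
      simp
    · field_simp
      simp
  have p : ∀ h' : ℕ → ℝ, [f, g, h'].Perm [h', f, g] := fun h' =>
    (List.perm_append_singleton h' [f, g])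
  have b := abs_W hL hk f (V := [g, fun j => h j / σ]) (by
    simp only [List.forall_mem_cons, List.not_mem_nil, false_imp_iff, implies_true, and_true]
    exact ⟨hg, fun j => by rw [abs_div, abs_of_nonneg s0]; exact div_le_one_of_le₀ (hh j) s0⟩)
  rw [W_perm (p _) (by simp [f0, g0, h0])] at b ⊢
  rw [e, W_lin, zero_mul, add_zero, abs_mul, abs_of_nonneg s0, mul_left_comm]
  exact mul_le_mul_of_nonneg_left b s0

/-- **the atom does not see the low levels** -/
theorem key : ∃ C : ℝ, 0 ≤ C ∧ ∀ (A T : List (Lv Bool)) (a : ℕ) (p : ℝ), R1 (A ++ T) →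
    Mono 0 (A ++ T) → 1 ≤ a → a ≤ T.length → ex T 0 ≤ p → tm A A.length ≤ p →
    |W (A ++ T) A.length [ind (A.length + a), ind A.length] -
      W (z0 Bool 0 :: T) 1 [ind (a + 1), st 1]| ≤ C * (p * dm T 0 a) := by
  obtain ⟨C, hC, h2⟩ := R1J.s2
  have c0 := cW_nonneg 4 2
  refine ⟨4 * C + 80 * cW 4 2, by positivity, fun A T a p H hM ha hT x1 x2 => ?_⟩
  have HA : R1 A := fun l hl => H l (List.mem_append_left _ hl)
  have HT : R1 T := fun l hl => H l (List.mem_append_right _ hl)
  have H1 := r1_z 0 H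
  have M1 : Mono 0 (z0 Bool 0 :: (A ++ T)) := ⟨le_rfl, hM⟩
  have H2 : R1 (z0 Bool 0 :: (A.map (fun l => z0 Bool l.m) ++ T)) := r1_z 0 fun l hl => by
    rcases List.mem_append.1 hl with hl | hl
    · obtain ⟨l', -, rfl⟩ := List.mem_map.1 hl
      exact ⟨0, le_rfl, fun a b => by rw [Ker15.z0_cov, zero_mul]⟩
    · exact HT l hl
  have ln : (z0 Bool 0 :: (A ++ T)).length = A.length + T.length + 1 := by simp
  have f0 : ind (A.length + 1 + a) 0 = 0 := ind0 (by omega)
  have fk : ind (A.length + 1 + a) (A.length + 1) = 0 := ind_ne (by omega)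
  have ed : dm (z0 Bool 0 :: (A ++ T)) 0 (A.length + 1 + a) = dm T 0 a := by
    obtain ⟨b, rfl⟩ : ∃ b, a = b + 1 := ⟨a - 1, by omega⟩
    rw [show A.length + 1 + (b + 1) = A.length + b + 1 + 1 by ring, dm, dm, exP, exP]
    exact congrArg₂ (· - ·) (ex_app A T (b + 1)) (ex_app A T b)
  have nf : n1 (z0 Bool 0 :: (A ++ T)) (ind (A.length + 1 + a)) = dm T 0 a :=
    (K95.n1_ind (by omega)).trans ed
  have d0 : 0 ≤ dm T 0 a := ed ▸ dm_nonneg M1 _
  have e0 : W (A ++ T) A.length [ind (A.length + a), ind A.length] =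
      W (z0 Bool 0 :: (A ++ T)) (A.length + 1) [ind (A.length + 1 + a), ind (A.length + 1)] := by
    rw [W_rt]
    congr 2
    · funext j
      simp only [ind, show j + 1 = A.length + 1 + a ↔ j = A.length + a by omega]
    · congr 1
      funext j
      simp only [ind, Nat.add_right_cancel_iff]
  have tz : ∀ (B : List (Lv Bool)) j, tm (z0 Bool 0 :: B) (j + 1) = tm B j := fun B j => by
    simp [tm, cacc, Ker15.z0_cov]
  have b1 : |W (z0 Bool 0 :: (A ++ T)) (A.length + 1)
      [ind (A.length + 1 + a), fun j => 1 * ind (A.length + 1) j + -1 * st 1 j]| ≤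
      C * (2 * (2 * p) * dm T 0 a) := by
    have g1 : ∀ j, |1 * ind (A.length + 1) j + -1 * st 1 j| ≤ 1 := fun j => by
      unfold ind st
      split_ifs <;> norm_num
    have p0 : 0 ≤ p := (Hess65.tm_nn HA _).trans x2
    refine ge_of_tendsto (f := fun q => C * (2 * q * dm T 0 a)) (x := 𝓝[>] (2 * p))
      ((Continuous.tendsto (by fun_prop) _).mono_left nhdsWithin_le_nhds)
      (eventually_nhdsWithin_of_forall fun q hq => ?_)
    have hq : 2 * p < q := hq
    refine (h2 _ _ q ⟨H1, M1, by omega, by omega, by linarith, (min_le_right _ _).trans ?_⟩ _ _ f0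
      (by simp [ind0, st0]) fk (by simp [ind, st])).trans
      (mul_le_mul_of_nonneg_left ?_ (by linarith))
    · rw [tz, tm_app, Nat.sub_self, show tm T 0 = 0 by simp [tm, cacc],
        show ex (z0 Bool 0 :: (A ++ T)) (A.length + 1) = ex T 0 from ex_app A T 0]
      linarith
    · have a1 := A91.n1_le_one M1 g1
      have a2 : R1J.lo (z0 Bool 0 :: (A ++ T)) (A.length + 1) (fun j => ind (A.length + 1 + a) j *
          (1 * ind (A.length + 1) j + -1 * st 1 j)) = 0 := sum_eq_zero fun j hj => by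
        beta_reduce
        rw [ind_ne (by have := mem_range.1 hj; omega), zero_mul, abs_zero, mul_zero]
      have a3 : R1J.hi (z0 Bool 0 :: (A ++ T)) (A.length + 1) (fun j => ind (A.length + 1 + a) j *
          (1 * ind (A.length + 1) j + -1 * st 1 j)) ≤ dm T 0 a := by
        rw [R1J.hi, sum_eq_single_of_mem (A.length + 1 + a) (mem_Ioc.2 ⟨by omega, by omega⟩)
          fun j _ h => by rw [ind_ne h, zero_mul, abs_zero, mul_zero], ed, ind_self, one_mul]
        exact mul_le_of_le_one_right d0 (g1 _)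
      rw [a2, nf]
      have q0 : 0 ≤ q := by linarith
      nlinarith [mul_le_mul_of_nonneg_left a3 q0, mul_le_mul_of_nonneg_left a1 (mul_nonneg q0 d0)]
  rw [W_lin2 f0 _ _ (ind0 (by omega)) (st0 le_rfl)] at b1
  have ee : ex (z0 Bool 0 :: (A.map (fun l => z0 Bool l.m) ++ T)) = ex (z0 Bool 0 :: (A ++ T)) := by
    funext j
    exact Cav22.ex_tilt (by simp [Function.comp_def, z0]) j
  have r2 := A91.rk_L H2
  rw [ee, show (z0 Bool 0 :: (A.map (fun l => z0 Bool l.m) ++ T)).length =
    (z0 Bool 0 :: (A ++ T)).length by simp] at r2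
  obtain ⟨θ, -, N, hN, e⟩ := Hess65.mvt_Wd (fun j _ => H2.tm_mono j.le_succ)
    (fun j _ => H1.tm_mono j.le_succ) (by simp [tm, cacc]) r2 (A91.rk_L H1)
    [ind (A.length + 1 + a), st 1] (A.length + 1)
  have b2 := abs_W3 (mono_ex M1 (ex_of hN)) (k := A.length + 1) (by rw [len_rk hN]; omega) f0
    (st0 le_rfl) (h := fun j => tm (z0 Bool 0 :: (A ++ T)) j -
      tm (z0 Bool 0 :: (A.map (fun l => z0 Bool l.m) ++ T)) j) (σ := p) (by simp [tm, cacc])
    (abs_st 1) fun j => by
      cases j with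
      | zero => simpa [tm, cacc] using (Hess65.tm_nn HA _).trans x2
      | succ j =>
        rw [tz, tz, tm_app, tm_app, tm_z, List.length_map, zero_add, add_sub_cancel_right]
        exact (tm_top HA j).trans x2
  rw [fk, abs_zero, zero_add, K95.n1_ind (by rw [len_rk hN]; omega), dm_ex (ex_of hN), ed] at b2
  have e' : W (z0 Bool 0 :: (A ++ T)) (A.length + 1) [ind (A.length + 1 + a), st 1] -
    W (z0 Bool 0 :: T) 1 [ind (a + 1), st 1] = _ := (congrArg (_ - ·) (col T ha A).symm).trans e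
  replace b2 := (congrArg abs e').trans_le b2
  rw [e0]
  have := abs_add_le _ _ |>.trans (add_le_add b1 b2)
  refine le_trans (le_of_eq (congrArg abs (by ring))) (this.trans_eq (by ring))

end T16

open T16 in
/-- **the jump atom** -/
theorem at_of (hY : YD) : AT := fun τ0 => by
  obtain ⟨C, hC, h⟩ := key
  refine ⟨C, hC, fun D H hW _ t ht => ?_⟩
  obtain ⟨t1, t2⟩ := mem_Ioo.1 ht
  obtain ⟨y1, -, -, y4, -⟩ := hY τ0 D H hW
  have hJ : D.J < D.S.length := (K95.lenS D).symm ▸ H.cut
  have l1 : (D.S.take D.J).length = D.J := List.length_take_of_le hJ.le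
  have l2 : (D.S.take D.J ++ [z0 Bool (ex D.S D.J)]).length = D.J + 1 := by simp [l1]
  have e : rf D.S D.J false = (D.S.take D.J ++ [z0 Bool (ex D.S D.J)]) ++ D.S.drop D.J := by
    rw [A91.rf_eq _ _ _ hJ]
    simp
  have R := A91.rf_rf (K95.r1S H) (K95.monoS H) hJ false
  have lT : t - D.J ≤ (D.S.drop D.J).length := by rw [List.length_drop, K95.lenS]; omega
  have xd : ∀ j, ex (D.S.drop D.J) j = ex D.B (D.J + j) := fun j => by
    rw [← K95.exS]
    simp only [T157.Casc.ex, List.getElem?_drop]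
  have dd : dm (D.S.drop D.J) 0 (t - D.J) = D.dx t := by
    obtain ⟨b, rfl⟩ : ∃ b, t = D.J + b + 1 := ⟨t - D.J - 1, by omega⟩
    rw [show D.J + b + 1 - D.J = b + 1 by omega, K95.dx_succ, dm, exP, xd, xd]
    rfl
  have k := h _ (D.S.drop D.J) (t - D.J) D.X (e ▸ R.r1) (e ▸ R.mono) (by omega) lT
    (by rw [xd]; exact H.x1) (by
      have e1 : tm (D.S.take D.J ++ [z0 Bool (ex D.S D.J)]) (D.J + 1) = tm D.S D.J := by
        simp [tm, cacc, List.take_append, l1, Ker15.z0_cov, List.take_take]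
      rw [l2, e1, K95.tmS H H.cut.le]
      exact (K95.sig_lo H le_rfl).trans (pow_le_of_le_one H.X0 H.X1 (by norm_num)))
  rw [atom (fun l hl => K95.r1S H l (List.mem_of_mem_drop hl)) (by omega) lT, dd, l2, ← e] at k
  have e2 : (fun j => ind t (dn D.J j)) = ind (D.J + 1 + (t - D.J)) := by
    funext j
    simp only [ind, dn]
    split_ifs <;> first | rfl | omega
  rw [y4 t ht, y1, A, List.map_singleton, e2]
  exact k

/-- **the jump atom**, unconditional -/
theorem at16 : AT := at_of yd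

end Crest.Agent.T156.Cas.Hb68

end
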