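import Crest.Agent.T156.HbZ_68
import Crest.Agent.T156.HbG3_39
import Crest.Agent.T156.HbT_16

/-!
# Row 156 (helper16): `H3`, unconditional
-/

set_option autoImplicit false

namespace Crest.Agent.T156.Cas.Hb68

/-- **`H3`** -/
theorem h3 : C40.E42.H3 := g3 w1 ab yd at16

end Crest.Agent.T156.Cas.Hb68
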