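import Crest.Agent.T156.HbD_68
import Crest.Agent.T156.R1MixB_65
import Crest.Agent.T156.R1S5_21

/-!
# Row 156 (helper97): the leaf `PL` of `HbD_68`

Landau's inequality along the direction `st a` of the node times.
-/

set_option autoImplicit false
set_option linter.all false

noncomputable section

namespace Crest.Agent.T156.Cas.Hb68

open Real Set
open Crest.Agent.T157.E Crest.Agent.T157.Casc Crest.Agent.T157.SL Crest.Agent.T157.Casc.C
open Crest.ProbabilityR.SpinGlassDynamics (spin)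
open Crest.Agent.T156.Pp.Area50 (lsg Up lsg_succ lsg_zero)
open Crest.Agent.T156.Hess65 (Wd_rk1 pth rk1_pth der_pth cont_Wd pth_okC eq_lsg tm_lsg)
open R1J (W ind n1)
open Ker15 (R1)

namespace L97

/-- one-sided Landau inequality -/
theorem landau {g g1 g2 : ℝ → ℝ} {δ A B : ℝ} (hδ : 0 < δ) (c0 : ContinuousOn g (Icc 0 δ))
    (c1 : ContinuousOn g1 (Icc 0 δ)) (d0 : ∀ u ∈ Ioo 0 δ, HasDerivAt g (g1 u) u)
    (d1 : ∀ u ∈ Ioo 0 δ, HasDerivAt g1 (g2 u) u) (hA : ∀ u ∈ Icc 0 δ, |g u| ≤ A)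
    (hB : ∀ u ∈ Ioo 0 δ, |g2 u| ≤ B) : δ * |g1 0| ≤ 2 * A + δ * (δ * B) := by
  obtain ⟨θ, hθ, e⟩ := exists_hasDerivAt_eq_slope g g1 hδ c0 d0
  rw [sub_zero, eq_div_iff hδ.ne'] at e
  have h1 := R1J.S21.mvt_le (c := 0) c1 d1 (fun u hu => by rw [sub_zero]; exact hB u hu)
    ⟨hθ.1.le, hθ.2.le⟩
  rw [mul_zero, sub_zero] at h1
  have B0 : 0 ≤ B := (abs_nonneg _).trans (hB θ hθ)
  have h2 : |g1 θ| * δ ≤ 2 * A := by
    rw [← abs_of_pos hδ, ← abs_mul, e]
    exact (abs_sub _ _).trans (by linarith [hA δ ⟨hδ.le, le_rfl⟩, hA 0 ⟨le_rfl, hδ.le⟩])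
  have h3 : |g1 0| ≤ |g1 θ| + δ * B := by
    have := abs_sub (g1 θ) (g1 θ - g1 0)
    rw [sub_sub_cancel] at this
    linarith [mul_le_mul_of_nonneg_right hθ.2.le B0]
  nlinarith [mul_le_mul_of_nonneg_left h3 hδ.le]

theorem st0 {a : ℕ} (ha : 1 ≤ a) : st a 0 = 0 := if_neg (by omega)

theorem abs_st (a j : ℕ) : |st a j| ≤ 1 := by unfold st; split_ifs <;> norm_num

theorem st_mono (a : ℕ) {i j : ℕ} (h : i ≤ j) : st a i ≤ st a j := by
  unfold st; split_ifs <;> first | omega | norm_num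

/-- the word along the path `s + u st a` -/
def F (z s : ℕ → ℝ) (N a k : ℕ) (V : List (ℕ → ℝ)) (u : ℝ) : ℝ :=
  Hess65.Wd (mat (pth z s (st a) N) u) V k

variable {z s : ℕ → ℝ} {N a k : ℕ}

theorem F_cont (V : List (ℕ → ℝ)) (D : ℝ) : ContinuousOn (F z s N a k V) (Icc 0 D) := by
  have := cont_Wd (pth_okC z s (st a) N (isCompact_Icc (a := 0) (b := D))) V k
  simp only [atL_tl] at this
  exact this

theorem F_der (hs : Up s N) (ha : 1 ≤ a) (V : List (ℕ → ℝ)) {u : ℝ} (hu : 0 < u) :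
    HasDerivAt (F z s N a k V) (F z s N a k (V ++ [st a]) u) u := by
  refine der_pth (I := Ioi 0) isOpen_Ioi (fun j hj => ?_) (st0 ha) hu V k
  by_cases e : j + 1 = a
  · refine Or.inr fun t ht => ?_
    have := hs j hj
    have ht' : 0 < t := ht
    rw [show st a (j + 1) = 1 from if_pos e.ge, show st a j = 0 from if_neg (by omega)]
    linarith
  · refine Or.inl ?_
    unfold st
    split_ifs <;> first | omega | norm_num

theorem up_u (hs : Up s N) (a : ℕ) {u : ℝ} (hu : 0 ≤ u) : Up (fun j => s j + u * st a j) N :=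
  fun j hj => add_le_add (hs j hj) (mul_le_mul_of_nonneg_left (st_mono a j.le_succ) hu)

theorem rk_sc {t : ℝ} : ∀ (N : ℕ) (z s : ℕ → ℝ) (L : List (Lv Bool)),
    List.Forall₂ (Rk1 spin) L (lsg z s N) →
      List.Forall₂ (Rk1 spin) (sc L t) (lsg (fun j => t⁻¹ * z j) (fun j => t ^ 2 * s j) N)
  | 0, z, s, L, H => by
    rw [lsg_zero] at H ⊢
    cases H
    exact .nil
  | N + 1, z, s, L, H => by
    rw [lsg_succ] at H ⊢
    cases H with
    | @cons l _ L _ h H =>
      refine .cons ⟨congrArg (t⁻¹ * ·) h.1, ?_, fun x y => ?_⟩ (rk_sc N _ _ L H)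
      · have := mul_nonneg (sq_nonneg t) h.2.1
        show 0 ≤ t ^ 2 * s 1 - t ^ 2 * s 0
        linarith
      · have := h.2.2 x y
        show ∑ i, t⁻¹⁻¹ * l.A x i * (t⁻¹⁻¹ * l.A y i) = (t ^ 2 * s 1 - t ^ 2 * s 0) * _
        rw [inv_inv, ← mul_sub, mul_assoc]
        rw [Lv.cov] at this
        rw [← show _ = (s 1 - s 0) * (spin x * spin y) from this, Finset.mul_sum]
        exact Finset.sum_congr rfl fun i _ => by ring

variable {L : List (Lv Bool)} {U : ℝ}

theorem rk_L (H : R1 L) : List.Forall₂ (Rk1 spin) L (lsg (ex L) (Ker15.tm L) L.length) := by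
  have h := H.rk
  have e : Ker15.tm L = Hess65.tm (L.map fun l => (l.m, l.cov true true)) :=
    funext fun j => Ker15.tm_eq h j
  rw [e, ← eq_lsg h]
  exact h

theorem up_L (H : R1 L) : Up (Ker15.tm L) L.length := fun j _ => H.tm_mono (Nat.le_succ j)

/-- the cascade with more variance below the node `a` -/
def Lu (L : List (Lv Bool)) (a : ℕ) (u : ℝ) : List (Lv Bool) :=
  mat (pth (ex L) (Ker15.tm L) (st a) L.length) u

theorem rk_u (H : R1 L) (a : ℕ) {u : ℝ} (hu : 0 ≤ u) : List.Forall₂ (Rk1 spin) (Lu L a u)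
    (lsg (ex L) (fun j => Ker15.tm L j + u * st a j) L.length) :=
  rk1_pth u _ _ _ _ (up_u (up_L H) a hu)

theorem len_u (H : R1 L) (a : ℕ) {u : ℝ} (hu : 0 ≤ u) : (Lu L a u).length = L.length :=
  R1J.S21.len_rk (rk_u H a hu)

theorem tp_u (H : Tp L U) (a : ℕ) {u : ℝ} (hu : 0 ≤ u) : Tp (Lu L a u) U := by
  have R := rk_u H.r1 a hu
  have l := len_u H.r1 a hu
  have e : ∀ j, ex (Lu L a u) j = ex L j := fun j => by
    rw [R1J.S21.ex_rk _ _ _ _ R]
    split_ifs with h
    · rfl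
    · exact (R1J.S21.ex_top L (not_lt.1 h)).symm
  have mo := R1J.S21.ex_mono H.mono
  obtain ⟨i, hi, h1, h2⟩ := H.top
  refine ⟨Ker15.r1_of R, R1J.S21.mono_of_ex _ _ ?_ fun j => ?_, H.U0, i, l ▸ hi,
    fun j hj => (e j).trans (h1 j hj), ?_⟩
  · rw [e]
    simpa [dm, exP] using dm_nonneg H.mono 0
  · rw [e, e]
    exact mo j.le_succ
  · have a1 := tm_lsg L.length (ex L) (fun j => Ker15.tm L j + u * st a j) i hi.le
    have a2 := tm_lsg L.length (ex L) (fun j => Ker15.tm L j + u * st a j) L.length le_rfl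
    rw [Hess65.tm] at a1 a2
    rw [l, Ker15.tm_eq R, Ker15.tm_eq R, a1, a2]
    linarith [mul_le_mul_of_nonneg_left (st_mono a hi.le) hu]

theorem W_u (a k : ℕ) (V : List (ℕ → ℝ)) (u : ℝ) :
    W (Lu L a u) k V = F (ex L) (Ker15.tm L) L.length a k V u := rfl

theorem W_0 (H : R1 L) (a k : ℕ) (V : List (ℕ → ℝ)) : W (Lu L a 0) k V = W L k V := by
  have R := rk_u H a le_rfl
  simp only [zero_mul, add_zero] at R
  exact congrFun (Wd_rk1 R (rk_L H) V) k

theorem W_sc0 (H : R1 L) (t : ℝ) (a k : ℕ) (V : List (ℕ → ℝ)) :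
    W (sc (Lu L a 0) t) k V = W (sc L t) k V := by
  have R := rk_u H a le_rfl
  simp only [zero_mul, add_zero] at R
  exact congrFun (Wd_rk1 (rk_sc _ _ _ _ R) (rk_sc _ _ _ _ (rk_L H)) V) k

theorem up_sc (H : R1 L) (t : ℝ) : Up (fun j => t ^ 2 * Ker15.tm L j) L.length :=
  fun j hj => mul_le_mul_of_nonneg_left (up_L H j hj) (sq_nonneg t)

theorem W_sc (H : R1 L) (t : ℝ) (a k : ℕ) (V : List (ℕ → ℝ)) {u : ℝ} (hu : 0 ≤ u) :
    W (sc (Lu L a u) t) k V =
      F (fun j => t⁻¹ * ex L j) (fun j => t ^ 2 * Ker15.tm L j) L.length a k V (t ^ 2 * u) := by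
  have R := rk_sc (t := t) _ _ _ _ (rk_u H a hu)
  have R' := rk1_pth (t ^ 2 * u) L.length (fun j => t⁻¹ * ex L j) (fun j => t ^ 2 * Ker15.tm L j)
    (st a) (up_u (up_sc H t) a (mul_nonneg (sq_nonneg t) hu))
  rw [show (fun j => t ^ 2 * Ker15.tm L j + t ^ 2 * u * st a j) =
    fun j => t ^ 2 * (Ker15.tm L j + u * st a j) from funext fun j => by ring] at R'
  exact congrFun (Wd_rk1 R R' V) k

theorem n1_le (hM : Mono 0 L) {f : ℕ → ℝ} (hf : ∀ j, |f j| ≤ 1) : n1 L f ≤ 1 := by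
  have : n1 L f ≤ ∑ j ∈ Finset.range (L.length + 1), dm L 0 j :=
    Finset.sum_le_sum fun j _ => mul_le_of_le_one_right (dm_nonneg hM j) (hf j)
  rwa [sum_dm, ex_length, sub_zero] at this

/-- the crude constant -/
def c2 : ℝ := 4500 ^ 2 * 6

theorem abs_W2 (H : R1 L) (hM : Mono 0 L) (hk : k ≤ L.length) (a : ℕ) :
    |W L k [st a, st a]| ≤ c2 := by
  refine (Hess65.abs_Wd2c H hM hk _ _).trans (mul_le_mul_of_nonneg_left ?_ (by positivity))
  have h1 := n1_le hM (abs_st a)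
  have h0 := Hess65.n1_nn hM (st a)
  have h2 : ∀ j, |st a j * st a j| ≤ 1 := fun j => by
    rw [abs_mul]; exact mul_le_one₀ (abs_st a j) (abs_nonneg _) (abs_st a j)
  have h3 := n1_le hM h2
  have h4 := abs_st a k
  have h5 := abs_nonneg (st a k)
  nlinarith [h2 k]

theorem exp_hq (U : ℝ) : exp (-U / 2) = exp (-U / 4) * exp (-U / 4) := by
  rw [← exp_add]; ring_nf

end L97

open L97 in
/-- **`PL`** -/
theorem pl (hE : PE) (hS : PS) : PL := by
  obtain ⟨C, C0, hE⟩ := hE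
  obtain ⟨D, D0, hS⟩ := hS
  have c0 : 0 ≤ c2 := by unfold c2; positivity
  have key : ∀ (L : List (Lv Bool)) (U : ℝ), Tp L U → ∀ a, 1 ≤ a →
      |W L L.length [st a]| ≤ (2 * C + c2) * exp (-U / 4) ∧ ∀ t, 1 ≤ t → t ≤ 2 → ∀ k ≤ L.length,
        |t ^ 2 * W (sc L t) k [st a] - W L k [st a]| ≤
          (2 * D * C + 16 * D * (1 + C) + 15 * c2) * ((t - 1) * exp (-U / 4)) := by
    intro L U H a ha
    set δ := exp (-U / 4) with hδ
    have δ0 : 0 < δ := exp_pos _
    have δ1 : δ ≤ 1 := exp_le_one_iff.2 (by linarith [H.U0])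
    have E : ∀ u, 0 ≤ u → 0 ≤ En (Lu L a u) ∧ En (Lu L a u) ≤ C * (δ * δ) ∧
        |1 - W (Lu L a u) L.length []| ≤ C * (δ * δ) := fun u hu => by
      have := hE _ U (tp_u H a hu)
      rwa [len_u H.r1 a hu, exp_hq] at this
    have B : ∀ u, 0 ≤ u → ∀ k ≤ L.length, |W (Lu L a u) k [st a, st a]| ≤ c2 := fun u hu k hk =>
      abs_W2 (tp_u H a hu).r1 (tp_u H a hu).mono (len_u H.r1 a hu ▸ hk) a
    refine ⟨?_, fun t t1 t2 k hk => ?_⟩
    · have := landau (g := fun u => F (ex L) (Ker15.tm L) L.length a L.length [] u - 1)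
        (g1 := F (ex L) (Ker15.tm L) L.length a L.length [st a])
        (g2 := F (ex L) (Ker15.tm L) L.length a L.length [st a, st a]) δ0
        ((F_cont _ _).sub continuousOn_const) (F_cont _ _)
        (fun u hu => (F_der (up_L H.r1) ha [] hu.1).sub_const 1)
        (fun u hu => F_der (up_L H.r1) ha [st a] hu.1)
        (fun u hu => (abs_sub_comm _ _).trans_le (E u hu.1).2.2) fun u hu => B u hu.1.le _ le_rfl
      rw [← W_u, W_0 H.r1] at this
      refine le_of_mul_le_mul_left (this.trans_eq (by ring)) δ0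
    · have t0 : 0 < t ^ 2 := by positivity
      have m : MapsTo (fun u => t ^ 2 * u) (Icc 0 δ) (Icc 0 (t ^ 2 * δ)) := fun u hu =>
        ⟨mul_nonneg t0.le hu.1, mul_le_mul_of_nonneg_left hu.2 t0.le⟩
      set G := F (fun j => t⁻¹ * ex L j) (fun j => t ^ 2 * Ker15.tm L j) L.length a k with hG
      set G' := F (ex L) (Ker15.tm L) L.length a k with hG'
      have cG : ∀ V, ContinuousOn (fun u => G V (t ^ 2 * u)) (Icc 0 δ) := fun V =>
        (F_cont V (t ^ 2 * δ)).comp (by fun_prop) m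
      have dG : ∀ V u, 0 < u →
          HasDerivAt (fun u => G V (t ^ 2 * u)) (t ^ 2 * G (V ++ [st a]) (t ^ 2 * u)) u :=
        fun V u hu => by
          have := (F_der (z := fun j => t⁻¹ * ex L j) (k := k) (up_sc H.r1 t) ha V
            (mul_pos t0 hu)).comp u ((hasDerivAt_id u).const_mul (t ^ 2))
          rw [mul_one, mul_comm] at this
          exact this
      have S := fun u (hu : 0 ≤ u) => hS _ (tp_u H a hu).r1 (tp_u H a hu).mono t t1 k
        (len_u H.r1 a hu ▸ hk)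
      have d1 : 0 ≤ t - 1 := sub_nonneg.2 t1
      have := landau (g := fun u => G [] (t ^ 2 * u) - G' [] u)
        (g1 := fun u => t ^ 2 * G [st a] (t ^ 2 * u) - G' [st a] u)
        (g2 := fun u => t ^ 2 * (t ^ 2 * G [st a, st a] (t ^ 2 * u)) - G' [st a, st a] u)
        (A := D * ((t - 1) * (C * (δ * δ)))) (B := (16 * D * (1 + C) + 15 * c2) * (t - 1)) δ0
        ((cG _).sub (F_cont _ _)) ((continuousOn_const.mul (cG _)).sub (F_cont _ _))
        (fun u hu => (dG [] u hu.1).sub (F_der (up_L H.r1) ha [] hu.1))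
        (fun u hu => ((dG [st a] u hu.1).const_mul _).sub (F_der (up_L H.r1) ha [st a] hu.1))
        (fun u hu => by
          have h1 := (S u hu.1).1
          rw [W_sc H.r1 t a k _ hu.1, W_u] at h1
          exact h1.trans (mul_le_mul_of_nonneg_left
            (mul_le_mul_of_nonneg_left (E u hu.1).2.1 d1) D0))
        fun u hu => by
          have h1 := (S u hu.1.le).2 _ _ (st0 ha) (st0 ha) (abs_st a) (abs_st a)
          have h2 := B u hu.1.le k hk
          rw [W_sc H.r1 t a k _ hu.1.le, W_u] at h1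
          rw [W_u] at h2
          have h3 : En (Lu L a u) ≤ C :=
            (E u hu.1.le).2.1.trans (mul_le_of_le_one_right C0 (mul_le_one₀ δ1 δ0.le δ1))
          have h4 := h1.trans (mul_le_mul_of_nonneg_left
            (mul_le_mul_of_nonneg_left (add_le_add_right h3 1) d1) D0)
          have h5 : t ^ 4 ≤ 16 := by nlinarith [sq_nonneg t, mul_le_mul t2 t2 (by linarith) zero_le_two]
          have h6 : t ^ 4 - 1 ≤ 15 * (t - 1) := by
            have : t ^ 3 + t ^ 2 + t + 1 ≤ 15 := by nlinarith [mul_le_mul t2 t2 (by linarith) zero_le_two]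
            nlinarith [mul_le_mul_of_nonneg_left this d1]
          have h7 : 0 ≤ t ^ 4 - 1 := sub_nonneg.2 (one_le_pow₀ t1)
          rw [show t ^ 2 * (t ^ 2 * G [st a, st a] (t ^ 2 * u)) - G' [st a, st a] u =
            t ^ 4 * (G [st a, st a] (t ^ 2 * u) - G' [st a, st a] u) +
              (t ^ 4 - 1) * G' [st a, st a] u by ring]
          refine (abs_add_le _ _).trans ?_
          rw [abs_mul, abs_mul, abs_of_nonneg h7, abs_of_nonneg (by positivity : 0 ≤ t ^ 4)]
          have h8 := mul_le_mul h5 h4 (abs_nonneg _) (by norm_num)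
          have h9 := mul_le_mul h6 h2 (abs_nonneg _) (by linarith)
          linarith
      simp only [hG, hG'] at this
      rw [← W_sc H.r1 t a k _ le_rfl, ← W_u, W_0 H.r1, W_sc0 H.r1] at this
      refine le_of_mul_le_mul_left (this.trans_eq (by ring)) δ0
  refine ⟨2 * (2 * C + c2 + (2 * D * C + 16 * D * (1 + C) + 15 * c2)), by positivity,
    fun L U H h hh => ?_⟩
  have e0 := exp_pos (-U / 4)
  have p1 : 0 ≤ (2 * C + c2) := by positivity
  have p2 : 0 ≤ 2 * D * C + 16 * D * (1 + C) + 15 * c2 := by positivity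
  obtain ⟨a, ha, ⟨-, rfl⟩ | ⟨-, rfl⟩⟩ := hh
  · obtain ⟨k1, k2⟩ := key L U H a ha
    refine ⟨k1.trans (mul_le_mul_of_nonneg_right (by linarith) e0.le), fun t t1 t2 k hk =>
      (k2 t t1 t2 k hk).trans (mul_le_mul_of_nonneg_right (by linarith)
        (mul_nonneg (sub_nonneg.2 t1) e0.le))⟩
  · obtain ⟨k1, k2⟩ := key L U H a ha
    obtain ⟨k3, k4⟩ := key L U H (a + 1) (by omega)
    have e : ∀ (T : List (Lv Bool)) (k : ℕ), W T k [ind a] = W T k [st a] - W T k [st (a + 1)] :=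
      fun T k => by
        rw [show ind a = fun j => 1 * st a j + -1 * st (a + 1) j from funext fun j => by
          unfold ind st; split_ifs <;> first | omega | norm_num, R1J.S21.W_lin]
        ring
    refine ⟨?_, fun t t1 t2 k hk => ?_⟩
    · rw [e]
      refine (abs_sub _ _).trans ?_
      nlinarith [mul_nonneg p2 e0.le]
    · rw [e, e, show t ^ 2 * (W (sc L t) k [st a] - W (sc L t) k [st (a + 1)]) -
          (W L k [st a] - W L k [st (a + 1)]) = (t ^ 2 * W (sc L t) k [st a] - W L k [st a]) -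
          (t ^ 2 * W (sc L t) k [st (a + 1)] - W L k [st (a + 1)]) by ring]
      refine (abs_sub _ _).trans ?_
      nlinarith [k2 t t1 t2 k hk, k4 t t1 t2 k hk,
        mul_nonneg p1 (mul_nonneg (sub_nonneg.2 t1) e0.le)]

end Crest.Agent.T156.Cas.Hb68

end
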