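import Crest.Agent.T156.Eul_43
import Crest.Agent.T156.CaKkt_28
import Crest.Agent.T156.OneP_23

/-!
# Row 156: the Euler identity of the `n`-system minus the Euler identity of the site (helper68)

First display of `docs/T156_40C.md` section 6, in discrete form, with explicit mesh errors.
-/

set_option autoImplicit false
set_option linter.unusedSectionVars false

noncomputable section

namespace Crest.Agent.T156.Cas.Kid68

open MeasureTheory Real Set Filter Topology
open Crest.Agent.T157.E Crest.Agent.T157.Casc Crest.Agent.T157.SL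
open Eul43

variable {Ω S : Type} [Fintype Ω] [Fintype S] {w : Ω → ℝ} {w' : S → ℝ}

/-! ### the overlap inside a level -/

theorem ins_mem (hw : Wt w) (κ : Lv Ω) (L : List (Lv Ω)) {j : ℕ} (hj : j < L.length) (h : Ω → ℝ) :
    pi2 w L j κ.cov h ≤ ins w L j κ.cov h ∧ ins w L j κ.cov h ≤ pi2 w L (j + 1) κ.cov h := by
  have e : L.take j ++ L[j] :: L.drop (j + 1) = L := by
    rw [← List.drop_eq_getElem_cons hj, List.take_append_drop]
  have hl : (L.take j).length = j := by simp [hj.le]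
  have := Kkt28.int_inside hw κ L[j] (L.take j) (L.drop (j + 1)) L[j].m h
  rw [hl, show Var6.tm L[j] L[j].m = L[j] from rfl, e] at this
  simpa only [ins, List.getElem?_eq_getElem hj, Gir68.spl] using this

theorem ins_sum (hw : Wt w) (κ : Lv Ω) (L : List (Lv Ω)) (h : Ω → ℝ) {J : Finset ℕ}
    (hJ : J ⊆ Finset.range L.length) {c ρ : ℕ → ℝ} {ε : ℝ} (hε : 0 ≤ ε) (hc : ∀ j ∈ J, |c j| ≤ ε)
    (hρ : ∀ j ∈ J, pi2 w L j κ.cov h ≤ ρ j ∧ ρ j ≤ pi2 w L (j + 1) κ.cov h) :
    |∑ j ∈ J, c j * (ins w L j κ.cov h - ρ j)| ≤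
      ε * (pi2 w L L.length κ.cov h - pi2 w L 0 κ.cov h) := by
  refine (Finset.abs_sum_le_sum_abs _ _).trans ?_
  rw [← Finset.sum_range_sub (fun j => pi2 w L j κ.cov h), Finset.mul_sum]
  refine (Finset.sum_le_sum fun j hj => ?_).trans (Finset.sum_le_sum_of_subset_of_nonneg hJ
    fun j _ _ => mul_nonneg hε (sub_nonneg.2 (Kkt28.pi2_succ hw κ L j h)))
  have h1 := ins_mem hw κ L (Finset.mem_range.1 (hJ hj)) h
  have h2 := hρ j hj
  rw [abs_mul]
  exact mul_le_mul (hc j hj) (abs_le.2 ⟨by linarith [h1.1, h2.2], by linarith [h1.2, h2.1]⟩)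
    (abs_nonneg _) hε

theorem pi2_cov_nonneg (hw : Wt w) (κ : Lv Ω) (L : List (Lv Ω)) (j : ℕ) (h : Ω → ℝ) :
    0 ≤ pi2 w L j κ.cov h := by
  refine le_trans ?_ (Kkt28.pi2_mono hw κ L h (Nat.zero_le j))
  show 0 ≤ pi2 w L 0 κ.cov h
  rw [pi2_zero, Kkt28.qf_cov]
  exact Finset.sum_nonneg fun i _ => mul_self_nonneg _

theorem pi2_le_one (hw : Wt w) {K : Ω → Ω → ℝ} (hK : ∀ x y, K x y ≤ 1) (L : List (Lv Ω)) (j : ℕ)
    (h : Ω → ℝ) : pi2 w L j K h ≤ 1 :=
  (T157.Casc.pi2_mono hw L j hK h).trans (pi2_const hw L j 1 h).le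

omit [Fintype Ω] in
/-- Abel summation against the weights `dm` -/
theorem abel_dm (L : List (Lv Ω)) (g : ℕ → ℝ) (k : ℕ) :
    ∑ j ∈ Finset.range (k + 1), dm L 0 j * g j =
      ex L k * g k - ∑ j ∈ Finset.range k, ex L j * (g (j + 1) - g j) := by
  induction k with
  | zero => simp [dm, exP]
  | succ k ih => rw [Finset.sum_range_succ, ih, Finset.sum_range_succ]; simp only [dm, exP]; ring

omit [Fintype Ω] in
theorem ex_len (L : List (Lv Ω)) : ex L L.length = 1 := by simp [T157.Casc.ex]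

omit [Fintype Ω] in
theorem ex_mem {L : List (Lv Ω)} (hL : Mono 0 L) (j : ℕ) : 0 ≤ ex L j ∧ ex L j ≤ 1 := by
  rcases lt_or_ge j L.length with hj | hj
  · simpa only [T157.Casc.ex, List.getElem?_eq_getElem hj] using
      mono_mem hL _ (List.getElem_mem hj)
  · simp [T157.Casc.ex, List.getElem?_eq_none hj]

/-! ### the data -/

/-- `M`: the `n`-system (root level `n B R²/2`, fields `n f_j R` above); `T`: the site cascade with
the same tilts and accumulated variance `∑_{k<j} f_k + τ q_j`. -/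
structure Dat (M : List (Lv Ω)) (T : List (Lv S)) (R : Ω → Ω → ℝ) (E : S → S → ℝ) (n B τ : ℝ)
    (f q : ℕ → ℝ) : Prop where
  pos : 0 < n
  len : T.length = M.length
  one : 1 ≤ M.length
  tilt : ∀ j, ex T j = ex M j
  dR : ∀ x, R x x = 1
  dE : ∀ e, E e e = 1
  cM : QL M R (fun j => if j = 0 then n * B / 2 else 0) fun j => n * f j
  cT : QL T E (fun _ => 0) fun j => f j + τ * (q (j + 1) - q j)
  f0 : f 0 = 0
  q0 : q 0 = 0
  qK : q M.length = 1

/-- accumulated site variance -/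
def sg (τ : ℝ) (f q : ℕ → ℝ) (j : ℕ) : ℝ := ∑ k ∈ Finset.range j, f k + τ * q j

/-- site slice -/
def sl (τ : ℝ) (f q : ℕ → ℝ) (j : ℕ) : ℝ := f j + τ * (q (j + 1) - q j)

/-- the Parisi value of the reference -/
def Pc (w' : S → ℝ) (T : List (Lv S)) (τ : ℝ) (q : ℕ → ℝ) : ℝ :=
  X w' T 0 - τ / 4 * (1 - ∑ j ∈ Finset.range (T.length + 1), dm T 0 j * q j ^ 2)

variable {M : List (Lv Ω)} {T : List (Lv S)} {R : Ω → Ω → ℝ} {E : S → S → ℝ} {n B τ : ℝ}
  {f q : ℕ → ℝ}

theorem Dat.dm_eq (D : Dat M T R E n B τ f q) (j : ℕ) : dm T 0 j = dm M 0 j := by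
  cases j <;> simp [dm, exP, D.tilt]

theorem Dat.sum_sl (D : Dat M T R E n B τ f q) (j : ℕ) :
    ∑ k ∈ Finset.range j, (f k + τ * (q (k + 1) - q k)) = sg τ f q j := by
  rw [Finset.sum_add_distrib, ← Finset.mul_sum, Finset.sum_range_sub q, D.q0, sub_zero, sg]

/-- Euler identity of the `n`-system, per site -/
theorem Dat.eulM (D : Dat M T R E n B τ f q) (hw : Wt w) :
    node w M 1 (X w (M.drop 1)) 0 / n = B / 2 + ∑ k ∈ Finset.range M.length, f k -
      B / 2 * ∑ j ∈ Finset.range M.length, dm M 0 (j + 1) * pi2 w M (j + 1) (fun x y => R x y ^ 2) 0 -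
      ∑ j ∈ Finset.range M.length, dm M 0 (j + 1) * (∑ k ∈ Finset.range (j + 1), f k) *
        pi2 w M (j + 1) R 0 + node w M M.length (Gir68.Sn w) 0 / n -
      ∑ j ∈ Finset.range M.length, ex M j / 2 * (f j * ins w M j R 0) := by
  have e := euler_QL hw D.dR D.cM 0 D.one
  have a1 : ∀ j, ∑ k ∈ Finset.range (j + 1), (if k = 0 then n * B / 2 else 0) = n * B / 2 :=
    fun j => by simp
  obtain ⟨K, hK⟩ : ∃ K, M.length = K + 1 := ⟨M.length - 1, by have := D.one; omega⟩
  have a2 : ∑ j ∈ Finset.Ico 1 M.length, ex M j / 2 * ((if j = 0 then n * B / 2 else 0) *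
      ins w M j (fun x y => R x y ^ 2) 0 + n * f j * ins w M j R 0) =
      n * ∑ j ∈ Finset.range M.length, ex M j / 2 * (f j * ins w M j R 0) := by
    rw [Finset.range_eq_Ico, Finset.sum_eq_sum_Ico_succ_bot (by omega : 0 < M.length), D.f0,
      zero_mul, mul_zero, zero_add, Finset.mul_sum]
    refine Finset.sum_congr rfl fun j hj => ?_
    rw [if_neg (by have := (Finset.mem_Ico.1 hj).1; omega)]
    ring
  have a3 : ∑ k ∈ Finset.range M.length, (if k = 0 then n * B / 2 else 0) = n * B / 2 := by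
    rw [hK, a1]
  rw [a2, a3, Finset.sum_range_succ' _ M.length] at e
  simp only [a1, Finset.range_zero, Finset.sum_empty, zero_mul, add_zero, mul_zero,
    ← Finset.mul_sum] at e
  have a4 : ∑ j ∈ Finset.range M.length, dm M 0 (j + 1) * (n * B / 2 *
      pi2 w M (j + 1) (fun x y => R x y ^ 2) 0 + (n * ∑ k ∈ Finset.range (j + 1), f k) *
        pi2 w M (j + 1) R 0) = n * (B / 2 * ∑ j ∈ Finset.range M.length,
          dm M 0 (j + 1) * pi2 w M (j + 1) (fun x y => R x y ^ 2) 0 +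
        ∑ j ∈ Finset.range M.length, dm M 0 (j + 1) * (∑ k ∈ Finset.range (j + 1), f k) *
          pi2 w M (j + 1) R 0) := by
    rw [Finset.mul_sum, ← Finset.sum_add_distrib, Finset.mul_sum]
    exact Finset.sum_congr rfl fun j _ => by ring
  have a5 : Pf w M 0 0 = 0 := by simp [Pf]
  rw [a4, a5] at e
  rw [e]
  have := D.pos.ne'
  field_simp
  ring

/-- Euler identity of the site -/
theorem Dat.eulT (D : Dat M T R E n B τ f q) (hw' : Wt w') :
    X w' T 0 = ∑ k ∈ Finset.range M.length, f k + τ -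
      ∑ j ∈ Finset.range M.length, dm M 0 (j + 1) * sg τ f q (j + 1) * pi2 w' T (j + 1) E 0 +
      node w' T M.length (Gir68.Sn w') 0 -
      ∑ j ∈ Finset.range M.length, ex M j / 2 * (sl τ f q j * ins w' T j E 0) := by
  have e := euler_QL hw' D.dE D.cT 0 (Nat.zero_le _)
  have a5 : Pf w' T 0 0 = 0 := by simp [Pf]
  rw [node_zero, List.drop_zero, a5, Finset.sum_range_succ' _ T.length] at e
  simp only [D.sum_sl, Finset.sum_const_zero, zero_mul, zero_add, D.len, D.dm_eq, D.tilt,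
    ← Finset.range_eq_Ico, ← mul_assoc] at e
  rw [e, show sg τ f q 0 = 0 by simp [sg, D.q0], sg, D.qK]
  simp only [sl, ← mul_assoc]
  ring

theorem pi2_sq (hw : Wt w) (L : List (Lv Ω)) (j : ℕ) (R : Ω → Ω → ℝ) (c : ℝ) (h : Ω → ℝ) :
    pi2 w L j (fun x y => (R x y - c) ^ 2) h =
      pi2 w L j (fun x y => R x y ^ 2) h - 2 * c * pi2 w L j R h + c ^ 2 := by
  rw [← pi2_const_mul, ← pi2_sub hw, ← pi2_const hw L j (c ^ 2) h, ← pi2_add hw]
  congr 1
  funext x y
  ring

theorem Dat.abel (D : Dat M T R E n B τ f q) :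
    ∑ j ∈ Finset.range M.length, dm M 0 (j + 1) * q (j + 1) ^ 2 =
      1 - ∑ j ∈ Finset.range M.length, ex M j * (q (j + 1) ^ 2 - q j ^ 2) := by
  have := abel_dm M (fun j => q j ^ 2) M.length
  rw [Finset.sum_range_succ', ex_len, D.q0, D.qK] at this
  simpa using this

/-- **exact subtraction of the two Euler identities** -/
theorem Dat.exact (D : Dat M T R E n B τ f q) (hw : Wt w) (hw' : Wt w') :
    node w M 1 (X w (M.drop 1)) 0 / n - Pc w' T τ q =
      -∑ j ∈ Finset.range M.length, dm M 0 (j + 1) * sg τ f q (j + 1) *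
        (pi2 w M (j + 1) R 0 - pi2 w' T (j + 1) E 0) -
      τ / 2 * ∑ j ∈ Finset.range M.length,
        dm M 0 (j + 1) * pi2 w M (j + 1) (fun x y => (R x y - q (j + 1)) ^ 2) 0 -
      ∑ j ∈ Finset.range M.length, (ex M j / 2 * (f j * ins w M j R 0 - sl τ f q j * ins w' T j E 0) +
        τ / 4 * (ex M j * (q (j + 1) ^ 2 - q j ^ 2))) +
      (B - τ) / 2 * (1 - ∑ j ∈ Finset.range M.length,
        dm M 0 (j + 1) * pi2 w M (j + 1) (fun x y => R x y ^ 2) 0) +
      (node w M M.length (Gir68.Sn w) 0 / n - node w' T M.length (Gir68.Sn w') 0) := by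
  have b0 : ∑ j ∈ Finset.range (T.length + 1), dm T 0 j * q j ^ 2 =
      ∑ j ∈ Finset.range M.length, dm M 0 (j + 1) * q (j + 1) ^ 2 := by
    rw [Finset.sum_range_succ', D.q0, D.len]
    simp [D.dm_eq]
  have b1 : ∑ j ∈ Finset.range M.length, dm M 0 (j + 1) * sg τ f q (j + 1) *
      (pi2 w M (j + 1) R 0 - pi2 w' T (j + 1) E 0) =
      ∑ j ∈ Finset.range M.length, dm M 0 (j + 1) * (∑ k ∈ Finset.range (j + 1), f k) *
        pi2 w M (j + 1) R 0 + τ * ∑ j ∈ Finset.range M.length,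
          dm M 0 (j + 1) * q (j + 1) * pi2 w M (j + 1) R 0 -
      ∑ j ∈ Finset.range M.length, dm M 0 (j + 1) * sg τ f q (j + 1) * pi2 w' T (j + 1) E 0 := by
    rw [Finset.mul_sum, ← Finset.sum_add_distrib, ← Finset.sum_sub_distrib]
    exact Finset.sum_congr rfl fun j _ => by simp only [sg]; ring
  have b2 : ∑ j ∈ Finset.range M.length,
      dm M 0 (j + 1) * pi2 w M (j + 1) (fun x y => (R x y - q (j + 1)) ^ 2) 0 =
      ∑ j ∈ Finset.range M.length, dm M 0 (j + 1) * pi2 w M (j + 1) (fun x y => R x y ^ 2) 0 -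
      2 * ∑ j ∈ Finset.range M.length, dm M 0 (j + 1) * q (j + 1) * pi2 w M (j + 1) R 0 +
      ∑ j ∈ Finset.range M.length, dm M 0 (j + 1) * q (j + 1) ^ 2 := by
    rw [Finset.mul_sum, ← Finset.sum_sub_distrib, ← Finset.sum_add_distrib]
    exact Finset.sum_congr rfl fun j _ => by rw [pi2_sq hw]; ring
  have b3 : ∑ j ∈ Finset.range M.length,
      (ex M j / 2 * (f j * ins w M j R 0 - sl τ f q j * ins w' T j E 0) +
        τ / 4 * (ex M j * (q (j + 1) ^ 2 - q j ^ 2))) =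
      ∑ j ∈ Finset.range M.length, ex M j / 2 * (f j * ins w M j R 0) -
      ∑ j ∈ Finset.range M.length, ex M j / 2 * (sl τ f q j * ins w' T j E 0) +
      τ / 4 * ∑ j ∈ Finset.range M.length, ex M j * (q (j + 1) ^ 2 - q j ^ 2) := by
    rw [Finset.mul_sum, ← Finset.sum_sub_distrib, ← Finset.sum_add_distrib]
    exact Finset.sum_congr rfl fun j _ => by ring
  rw [Pc, b0, b1, b2, b3, D.eulM hw, D.eulT hw', D.abel]
  ring

/-- the main part of `E_a Φ₀ / n - Pcal`: fine levels `J` read at the end `p j ∈ {j, j+1}`,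
jump levels kept -/
def Km (w : Ω → ℝ) (w' : S → ℝ) (M : List (Lv Ω)) (T : List (Lv S)) (R : Ω → Ω → ℝ)
    (E : S → S → ℝ) (τ : ℝ) (f q : ℕ → ℝ) (J : Finset ℕ) (p : ℕ → ℕ) : ℝ :=
  -∑ j ∈ Finset.range M.length, dm M 0 (j + 1) * sg τ f q (j + 1) *
      (pi2 w M (j + 1) R 0 - pi2 w' T (j + 1) E 0) -
    ∑ j ∈ J, ex M j / 2 * sl τ f q j * (pi2 w M (p j) R 0 - pi2 w' T (p j) E 0) +
    τ / 2 * ∑ j ∈ J, ex M j * (q (j + 1) - q j) * (pi2 w M (p j) R 0 - q (p j)) -
    τ / 2 * ∑ j ∈ Finset.range M.length,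
      dm M 0 (j + 1) * pi2 w M (j + 1) (fun x y => (R x y - q (j + 1)) ^ 2) 0 -
    ∑ j ∈ Finset.range M.length \ J,
      (ex M j / 2 * (f j * ins w M j R 0 - sl τ f q j * ins w' T j E 0) +
        τ / 4 * (ex M j * (q (j + 1) ^ 2 - q j ^ 2)))

/-- **node form** (40C sec.6): mesh `ε` on the fine levels `J`, entropy difference `η` -/
theorem Dat.node_form (D : Dat M T R E n B τ f q) (hw : Wt w) (hw' : Wt w') (hM : Mono 0 M)
    (hκ : ∃ κ : Lv Ω, κ.cov = R) (hκ' : ∃ κ : Lv S, κ.cov = E)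
    (hR : ∀ x y, |R x y| ≤ 1) (hE : ∀ x y, E x y ≤ 1)
    (hτ : 0 ≤ τ) (hq : ∀ j < M.length, q j ≤ q (j + 1)) {J : Finset ℕ}
    (hJ : J ⊆ Finset.range M.length) {p : ℕ → ℕ} (hp : ∀ j ∈ J, p j = j ∨ p j = j + 1) {ε η : ℝ}
    (hε : 0 ≤ ε) (hf : ∀ j ∈ J, |f j| ≤ ε) (hd : ∀ j ∈ J, τ * (q (j + 1) - q j) ≤ ε)
    (hS : |node w M M.length (Gir68.Sn w) 0 / n - node w' T M.length (Gir68.Sn w') 0| ≤ η) :
    |node w M 1 (X w (M.drop 1)) 0 / n - Pc w' T τ q - Km w w' M T R E τ f q J p| ≤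
      2 * ε + |B - τ| / 2 + η := by
  obtain ⟨κ, rfl⟩ := hκ
  obtain ⟨κ', rfl⟩ := hκ'
  have hm := ex_mem hM
  have hd0 : ∀ j ∈ J, 0 ≤ q (j + 1) - q j := fun j hj =>
    sub_nonneg.2 (hq j (Finset.mem_range.1 (hJ hj)))
  have i1 := ins_sum hw κ M 0 hJ (c := fun j => ex M j / 2 * f j)
    (ρ := fun j => pi2 w M (p j) κ.cov 0) (ε := ε / 2) (by positivity) (fun j hj => by
      rw [abs_mul, abs_of_nonneg (by linarith [(hm j).1] : 0 ≤ ex M j / 2)]
      nlinarith [hf j hj, (hm j).1, (hm j).2, abs_nonneg (f j)]) fun j hj => by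
      rcases hp j hj with e | e <;> rw [e]
      exacts [⟨le_rfl, Kkt28.pi2_succ hw κ M j 0⟩, ⟨Kkt28.pi2_succ hw κ M j 0, le_rfl⟩]
  have i2 := ins_sum hw' κ' T 0 (D.len ▸ hJ) (c := fun j => ex M j / 2 * sl τ f q j)
    (ρ := fun j => pi2 w' T (p j) κ'.cov 0) (ε := ε) hε (fun j hj => by
      have : |sl τ f q j| ≤ 2 * ε := by
        have h1 := abs_le.1 (hf j hj)
        have h2 := mul_nonneg hτ (hd0 j hj)
        exact abs_le.2 ⟨by simp only [sl]; linarith, by simp only [sl]; linarith [hd j hj]⟩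
      rw [abs_mul, abs_of_nonneg (by linarith [(hm j).1] : 0 ≤ ex M j / 2)]
      nlinarith [(hm j).1, (hm j).2, abs_nonneg (sl τ f q j)]) fun j hj => by
      rcases hp j hj with e | e <;> rw [e]
      exacts [⟨le_rfl, Kkt28.pi2_succ hw' κ' T j 0⟩, ⟨Kkt28.pi2_succ hw' κ' T j 0, le_rfl⟩]
  have r1 : ε / 2 * (pi2 w M M.length κ.cov 0 - pi2 w M 0 κ.cov 0) ≤ ε / 2 := by
    have := pi2_le_one hw (fun x y => (le_abs_self _).trans (hR x y)) M M.length 0
    have := pi2_cov_nonneg hw κ M 0 0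
    nlinarith
  have r2 : ε * (pi2 w' T T.length κ'.cov 0 - pi2 w' T 0 κ'.cov 0) ≤ ε := by
    have := pi2_le_one hw' hE T T.length 0
    have := pi2_cov_nonneg hw' κ' T 0 0
    nlinarith
  have i3 : |∑ j ∈ J, τ / 2 * (ex M j * (q (j + 1) - q j) * (q (p j) - (q (j + 1) + q j) / 2))| ≤
      ε / 4 := by
    refine (Finset.abs_sum_le_sum_abs _ _).trans ?_
    have h1 : ∑ j ∈ Finset.range M.length, ε / 4 * (q (j + 1) - q j) = ε / 4 := by
      rw [← Finset.mul_sum, Finset.sum_range_sub q, D.qK, D.q0]; ring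
    rw [← h1]
    refine (Finset.sum_le_sum fun j hj => ?_).trans (Finset.sum_le_sum_of_subset_of_nonneg hJ
      fun j hj _ => mul_nonneg (by positivity) (sub_nonneg.2 (hq j (Finset.mem_range.1 hj))))
    have h2 : |q (p j) - (q (j + 1) + q j) / 2| = (q (j + 1) - q j) / 2 := by
      have := hd0 j hj
      rcases hp j hj with e | e <;> rw [e]
      · rw [abs_of_nonpos (by linarith)]; ring
      · rw [abs_of_nonneg (by linarith)]; ring
    rw [abs_mul, abs_mul, abs_mul, h2, abs_of_nonneg (by positivity : 0 ≤ τ / 2),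
      abs_of_nonneg (hm j).1, abs_of_nonneg (hd0 j hj)]
    have h3 : ex M j * (τ * (q (j + 1) - q j)) ≤ ε := by
      nlinarith [(hm j).1, (hm j).2, hd j hj, mul_nonneg hτ (hd0 j hj)]
    nlinarith [mul_le_mul_of_nonneg_right h3 (hd0 j hj)]
  have i4 : |(B - τ) / 2 * (1 - ∑ j ∈ Finset.range M.length,
      dm M 0 (j + 1) * pi2 w M (j + 1) (fun x y => κ.cov x y ^ 2) 0)| ≤ |B - τ| / 2 := by
    have h0 : 0 ≤ ∑ j ∈ Finset.range M.length,
        dm M 0 (j + 1) * pi2 w M (j + 1) (fun x y => κ.cov x y ^ 2) 0 :=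
      Finset.sum_nonneg fun j _ => mul_nonneg (dm_nonneg hM _)
        (pi2_nonneg hw M _ (fun x y => sq_nonneg _) 0)
    have h1 : ∑ j ∈ Finset.range M.length,
        dm M 0 (j + 1) * pi2 w M (j + 1) (fun x y => κ.cov x y ^ 2) 0 ≤ 1 := by
      have h2 := sum_dm M 0 M.length
      rw [Finset.sum_range_succ', ex_len] at h2
      refine (Finset.sum_le_sum fun j _ => mul_le_of_le_one_right (dm_nonneg hM (j + 1))
        (pi2_le_one hw (fun x y => (sq_le_one_iff_abs_le_one _).2 (hR x y)) M _ 0)).trans ?_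
      linarith [dm_nonneg hM 0]
    rw [abs_mul, abs_div, abs_two]
    exact mul_le_of_le_one_right (by positivity) (abs_le.2 ⟨by linarith, by linarith⟩)
  have sp := Finset.sum_sdiff hJ (f := fun j =>
    ex M j / 2 * (f j * ins w M j κ.cov 0 - sl τ f q j * ins w' T j κ'.cov 0) +
        τ / 4 * (ex M j * (q (j + 1) ^ 2 - q j ^ 2)))
  have e : ∑ j ∈ J, (ex M j / 2 * (f j * ins w M j κ.cov 0 - sl τ f q j * ins w' T j κ'.cov 0) +
        τ / 4 * (ex M j * (q (j + 1) ^ 2 - q j ^ 2))) =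
      ∑ j ∈ J, ex M j / 2 * f j * (ins w M j κ.cov 0 - pi2 w M (p j) κ.cov 0) -
      ∑ j ∈ J, ex M j / 2 * sl τ f q j * (ins w' T j κ'.cov 0 - pi2 w' T (p j) κ'.cov 0) -
      ∑ j ∈ J, τ / 2 * (ex M j * (q (j + 1) - q j) * (q (p j) - (q (j + 1) + q j) / 2)) +
      ∑ j ∈ J, ex M j / 2 * sl τ f q j * (pi2 w M (p j) κ.cov 0 - pi2 w' T (p j) κ'.cov 0) -
      τ / 2 * ∑ j ∈ J, ex M j * (q (j + 1) - q j) * (pi2 w M (p j) κ.cov 0 - q (p j)) := by
    rw [Finset.mul_sum, ← Finset.sum_sub_distrib, ← Finset.sum_sub_distrib,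
      ← Finset.sum_add_distrib, ← Finset.sum_sub_distrib]
    exact Finset.sum_congr rfl fun j _ => by simp only [sl]; ring
  rw [D.exact hw hw', Km, ← sp, e]
  have := abs_le.1 (i1.trans r1)
  have := abs_le.1 (i2.trans r2)
  have := abs_le.1 i3
  have := abs_le.1 i4
  have := abs_le.1 hS
  exact abs_le.2 ⟨by linarith, by linarith⟩

/-! ### the entropy after several reveal slices -/

theorem merge (hw : Wt w) {m : ℝ} : ∀ (N : List (Lv Ω)), N ≠ [] → (∀ k ∈ N, k.m = m) →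
    ∃ l : Lv Ω, l.m = m ∧ (∀ x y, l.cov x y = (N.map fun k => k.cov x y).sum) ∧
      X w N = X w [l] ∧ ∀ Φ, Eg Φ → node w N N.length Φ = tE l (X w []) Φ
  | [], h, _ => absurd rfl h
  | [k], _, h => ⟨k, h k (by simp), fun x y => by simp, rfl, fun Φ _ => by
      rw [List.length_singleton, node_cons, node_zero]⟩
  | k :: k' :: N, _, h => by
    obtain ⟨l, h1, h2, h3, h4⟩ := merge hw (k' :: N) (by simp)
      fun a ha => h a (List.mem_cons_of_mem _ ha)
    have hk : k.m = l.m := (h k (by simp)).trans h1.symm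
    refine ⟨C.addLv k l, h k (by simp), fun x y => ?_, ?_, fun Φ hΦ => ?_⟩
    · rw [C.addLv_cov, h2, List.map_cons (a := k), List.sum_cons]
    · rw [C.X_split hw (l := C.addLv k l) (l1 := k) rfl hk (C.addLv_cov k l), C.X_cons, h3, ← C.X_cons]
    · rw [Kkt28.tE_split hw (l := C.addLv k l) (l1 := k) rfl hk (C.addLv_cov k l) [] hΦ, ← h4 Φ hΦ, ← h3]
      rfl

theorem node_merge (hw : Wt w) {m : ℝ} (L N : List (Lv Ω)) (hN : N ≠ []) (hm : ∀ k ∈ N, k.m = m) :
    ∃ l : Lv Ω, l.m = m ∧ (∀ x y, l.cov x y = (N.map fun k => k.cov x y).sum) ∧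
      ∀ Φ, Eg Φ → node w (L ++ N) (L ++ N).length Φ = node w (L ++ [l]) (L.length + 1) Φ := by
  obtain ⟨l, h1, h2, h3, h4⟩ := merge hw N hN hm
  refine ⟨l, h1, h2, fun Φ hΦ => ?_⟩
  rw [List.length_append, add_comm L.length, add_comm L.length, ← node_node, ← node_node,
    List.drop_left, List.drop_left, Hess87.node_append, Hess87.node_append, h3, h4 Φ hΦ, node_cons,
    node_zero]

open Classical in
/-- all levels from `i` on have tilt one -/
theorem node_Sn_tail (hw : Wt w) (h01 : ∀ x, w x = 0 ∨ w x = 1) {L : List (Lv Ω)} {i : ℕ}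
    (hi : i < L.length) (hm : ∀ j, i ≤ j → ex L j = 1) {c : Ω → Ω → ℝ}
    (hc : ∀ x y, cacc L L.length x y - cacc L i x y = c x y) {v b : ℝ}
    (hv : ∀ x, w x ≠ 0 → c x x = v) (hB : ∀ x, w x ≠ 0 →
      ∑ y ∈ Finset.univ.erase x, w y * exp (-(v - c x y) / 4) ≤ b) (h : Ω → ℝ) :
    0 ≤ node w L L.length (Gir68.Sn w) h ∧ node w L L.length (Gir68.Sn w) h ≤ 2 * b := by
  obtain ⟨l, h1, h2, h3⟩ := node_merge hw (m := 1) (L.take i) (L.drop i)
    (by simpa using hi) fun k hk => by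
      obtain ⟨j, hj, rfl⟩ := List.mem_iff_getElem.1 hk
      have hj' : i + j < L.length := by simp at hj; omega
      have := hm (i + j) (Nat.le_add_right _ _)
      simpa [T157.Casc.ex, List.getElem?_eq_getElem hj'] using this
  have hl : ∀ x y, l.cov x y = c x y := fun x y => by
    rw [h2, ← hc, cacc, cacc, List.take_length]
    have := congrArg (fun N : List (Lv Ω) => (N.map fun k => k.cov x y).sum)
      (List.take_append_drop i L)
    simp only [List.map_append, List.sum_append] at this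
    linarith
  have := h3 _ (Gir68.eg_Sn hw)
  rw [List.take_append_drop] at this
  rw [this]
  exact Gir68.node_Sn_le hw h01 h1 (fun x hx => (hl x x).trans (hv x hx))
    (fun x hx => by simpa only [hl] using hB x hx) _ h

/-! ### the instance on the ONE path -/

section inst

open Crest.Agent.T157.G1 (ov fl)
open Crest.ProbabilityR.SpinGlassDynamics (spin)

variable {N : ℕ} {β a d : ℝ} {M' : List (ℝ × ℝ × ℝ)}

/-- field variance of level `j` -/
def fM (M : List (ℝ × ℝ × ℝ)) (j : ℕ) : ℝ := (M.getD j (0, 0, 0)).2.2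

theorem fAcc_succ (M : List (ℝ × ℝ × ℝ)) (j : ℕ) : fAcc M (j + 1) = fAcc M j + fM M j := by
  rcases lt_or_ge j M.length with hj | hj
  · rw [fAcc, fAcc, fM, List.take_add_one, List.getElem?_eq_getElem hj, List.getD_eq_getElem _ _ hj]
    simp only [Option.toList_some, List.map_append, List.sum_append, List.map_cons, List.map_nil,
      List.sum_cons, List.sum_nil, add_zero]
  · simp [fAcc, fM, List.take_of_length_le hj, List.take_of_length_le (hj.trans (Nat.le_succ j)),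
      List.getD_eq_getElem?_getD, List.getElem?_eq_none hj]

theorem fAcc_eq (M : List (ℝ × ℝ × ℝ)) (j : ℕ) : fAcc M j = ∑ k ∈ Finset.range j, fM M k := by
  induction j with
  | zero => simp [fAcc]
  | succ j ih => rw [fAcc_succ, ih, Finset.sum_range_succ]

theorem dAcc_root (h0 : ∀ p ∈ M', p.2.1 = 0) (j : ℕ) : dAcc ((a, d, 0) :: M') (j + 1) = d := by
  rw [OneP.dAcc_cons, dAcc, List.sum_eq_zero fun x hx => ?_, add_zero]
  obtain ⟨p, hp, rfl⟩ := List.mem_map.1 hx
  exact h0 p (List.mem_of_mem_take hp)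

theorem sg_op (h0 : ∀ p ∈ M', p.2.1 = 0) (hq : q 0 = 0) (j : ℕ) :
    sg (bb N β ^ 2 * d) (fM ((a, d, 0) :: M')) q j =
      oTau N β ((a, d, 0) :: M') j * q j + fAcc ((a, d, 0) :: M') j := by
  rw [sg, fAcc_eq, oTau]
  cases j with
  | zero => simp [hq]
  | succ j => rw [dAcc_root h0]; ring

theorem dat_op (hN : 0 < N) (H : OOk ((a, d, 0) :: M') q) (h0 : ∀ p ∈ M', p.2.1 = 0)
    (hq : q 0 = 0) : Dat (((a, d, 0) :: M').map (mxL N β)) (opS N β ((a, d, 0) :: M') q) ov
      (fun e e' => spin e * spin e') N (β ^ 2 * d) (bb N β ^ 2 * d) (fM ((a, d, 0) :: M')) q where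
  pos := by exact_mod_cast hN
  len := by rw [opS_length, List.length_map]
  one := by simp
  tilt := Cav22.ex_tilt tilt_opS
  dR := Cas.ov_self hN
  dE := fun e => by cases e <;> simp [spin]
  cM := fun j hj x y => by
    have hj' : j < ((a, d, (0 : ℝ)) :: M').length := by simpa using hj
    have hp := H.nn _ (List.getElem_mem hj')
    simp only [fM]
    rw [List.getElem_map, mxL_cov hN β hp.1 hp.2, List.getD_eq_getElem _ _ hj']
    cases j with
    | zero => rw [List.getElem_cons_zero, if_pos rfl]; ring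
    | succ j =>
      rw [List.getElem_cons_succ, h0 _ (List.getElem_mem _), if_neg (Nat.succ_ne_zero j)]
      ring
  cT := fun j hj x y => by
    have hj' : j < ((a, d, (0 : ℝ)) :: M').length := by rwa [opS_length] at hj
    have hv : j < (opV N β ((a, d, 0) :: M') q).length := by simpa [opS] using hj
    have h1 := opV_acc (n := N) (β := β) (q := q) hj'.le
    have h2 := opV_acc (n := N) (β := β) (q := q) (Nat.succ_le_of_lt hj')
    rw [← sg_op h0 hq] at h1 h2
    rw [List.take_add_one, List.getElem?_eq_getElem hv] at h2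
    simp only [Option.toList_some, List.map_append, List.sum_append, h1, List.map_cons,
      List.map_nil, List.sum_cons, List.sum_nil, add_zero, sg, Finset.sum_range_succ] at h2
    simp only [opS, List.getElem_map]
    rw [(C.rk1_sl spin (opV_nn H _ (List.getElem_mem hv))).2.2]
    linear_combination (spin x * spin y) * h2
  f0 := rfl
  q0 := hq
  qK := by simpa using H.top

theorem Pc_op (h0 : ∀ p ∈ M', p.2.1 = 0) (hq : q 0 = 0) :
    Pc (fun _ => 1) (opS N β ((a, d, 0) :: M') q) (bb N β ^ 2 * d) q =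
      X (fun _ => 1) (opS N β ((a, d, 0) :: M') q) 0 - oC N β ((a, d, 0) :: M') q := by
  rw [Pc, oC, opS_length, Finset.sum_range_succ', Finset.sum_range_succ' _ (List.length _)]
  simp only [oTau, dAcc_root h0, hq, Cav22.dm_tilt tilt_opS, List.length_cons]
  rw [mul_sub, mul_add, Finset.mul_sum, sub_div, add_div, Finset.sum_div,
    Finset.sum_congr rfl fun j _ => (by ring : bb N β ^ 2 * d / 4 * (dm (((a, d, 0) :: M').map
      (mxL N β)) 0 (j + 1) * q (j + 1) ^ 2) = dm (((a, d, 0) :: M').map (mxL N β)) 0 (j + 1) *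
        (bb N β ^ 2 * d * q (j + 1) ^ 2) / 4)]
  ring

theorem cacc_sub {L : List (Lv Ω)} {α φ : ℕ → ℝ} (H : QL L R α φ) {i : ℕ} (hi : i ≤ L.length)
    (hα : ∀ k, i ≤ k → α k = 0) (x y : Ω) : cacc L L.length x y - cacc L i x y =
      (∑ k ∈ Finset.Ico i L.length, φ k) * R x y := by
  rw [H.cacc _ le_rfl, H.cacc _ hi, ← Finset.sum_range_add_sum_Ico α hi,
    ← Finset.sum_range_add_sum_Ico φ hi,
    Finset.sum_eq_zero (s := Finset.Ico i L.length) fun k hk => hα k (Finset.mem_Ico.1 hk).1]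
  ring

/-- the two entropies after reveal fields of total variance at least `U` -/
theorem ent_op {M : List (Lv (Cube N))} {T : List (Lv Bool)} (hN : 0 < N)
    (D : Dat M T ov (fun e e' => spin e * spin e') N B τ f q) (hτ : 0 ≤ τ) {i : ℕ} (h1 : 1 ≤ i)
    (hi : i < M.length) (hm : ∀ j, i ≤ j → ex M j = 1) (hq : q i ≤ 1) {U : ℝ}
    (hU : U ≤ ∑ k ∈ Finset.Ico i M.length, f k) :
    |node (fun _ => 1) M M.length (Gir68.Sn fun _ => 1) 0 / N -
      node (fun _ => 1) T M.length (Gir68.Sn fun _ => 1) 0| ≤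
      2 * ((1 + exp (-U / 2)) ^ N - 1) / N + 2 * exp (-U / 2) := by
  have hn : (0 : ℝ) < N := D.pos
  set V := ∑ k ∈ Finset.Ico i M.length, f k with hV
  have hE : exp (-V / 2) ≤ exp (-U / 2) := exp_le_exp.2 (by linarith)
  have e1 := node_Sn_tail wt_one90 (fun _ => Or.inr rfl) hi hm
    (c := fun x y => V * ∑ k, sv x k * sv y k) (v := V * N) (b := (1 + exp (-U / 2)) ^ N - 1)
    (fun x y => by
      rw [cacc_sub D.cM hi.le fun k hk => if_neg (by omega), ← Finset.mul_sum, ← hV,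
        T157.G1.ov, dotProduct]
      field_simp) (fun x _ => by
      have := Cas.ov_self hN x
      rw [T157.G1.ov, dotProduct, div_eq_one_iff_eq hn.ne'] at this
      rw [this]) (fun x _ => by
      simp only [one_mul]
      have := Gir68.sum_cube N V x
      have h2 : (1 + exp (-V / 2)) ^ N ≤ (1 + exp (-U / 2)) ^ N := by gcongr
      refine le_trans (le_of_eq ?_) (sub_le_sub_right h2 1)
      convert this) 0
  have hW : V ≤ ∑ k ∈ Finset.Ico i T.length, (f k + τ * (q (k + 1) - q k)) := by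
    rw [D.len, Finset.sum_add_distrib, ← Finset.mul_sum, Finset.sum_Ico_sub q hi.le, D.qK]
    nlinarith
  set W := ∑ k ∈ Finset.Ico i T.length, (f k + τ * (q (k + 1) - q k)) with hW'
  have e2 := node_Sn_tail wt_one90 (fun _ => Or.inr rfl) (D.len ▸ hi)
    (fun j hj => (D.tilt j).trans (hm j hj)) (c := fun e e' => W * (spin e * spin e')) (v := W)
    (b := exp (-U / 2)) (fun x y => cacc_sub D.cT (D.len ▸ hi.le) (fun _ _ => rfl) x y)
    (fun x _ => by rw [D.dE, mul_one]) (fun x _ => by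
      have h3 : exp (-W / 2) ≤ exp (-U / 2) := exp_le_exp.2 (by linarith)
      have h4 : ∀ (s : Finset Bool), s = {!x} →
          ∑ y ∈ s, 1 * exp (-(W - W * (spin x * spin y)) / 4) ≤ exp (-U / 2) := by
        rintro _ rfl
        rw [Finset.sum_singleton, one_mul]
        refine le_of_eq_of_le (congrArg exp ?_) h3
        cases x <;> simp [spin] <;> ring
      exact h4 _ (by ext y; cases x <;> cases y <;> simp)) 0
  rw [D.len] at e2
  have e3 := div_le_div_of_nonneg_right e1.2 hn.le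
  have e4 := div_nonneg e1.1 hn.le
  exact abs_le.2 ⟨by linarith [e2.2], by linarith [e2.1, exp_pos (-U / 2)]⟩

/-- **(K) head on the ONE path**: `E_a Φ₀ / n - (X opS - oC) = Km + O(ε + 1/n + entropy)` -/
theorem kid_op (hN : 0 < N) (H : OOk ((a, d, 0) :: M') q) (h0 : ∀ p ∈ M', p.2.1 = 0)
    (hq : q 0 = 0) (hM : Mono 0 (((a, d, 0) :: M').map (mxL N β))) {J : Finset ℕ}
    (hJ : J ⊆ Finset.range (M'.length + 1)) {p : ℕ → ℕ} (hp : ∀ j ∈ J, p j = j ∨ p j = j + 1)
    {ε : ℝ} (hε : 0 ≤ ε) (hf : ∀ j ∈ J, fM ((a, d, 0) :: M') j ≤ ε)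
    (hd : ∀ j ∈ J, β ^ 2 * d * (q (j + 1) - q j) ≤ ε) {i : ℕ} (h1 : 1 ≤ i) (hi : i < M'.length + 1)
    (hm : ∀ j, i ≤ j → ex (((a, d, 0) :: M').map (mxL N β)) j = 1) {U : ℝ}
    (hU : U + fAcc ((a, d, 0) :: M') i ≤ fAcc ((a, d, 0) :: M') (M'.length + 1)) :
    |EE (fun _ => 1) (mxL N β (a, d, 0)) (M'.map (mxL N β)) 0 a / N -
      (X (fun _ => 1) (opS N β ((a, d, 0) :: M') q) 0 - oC N β ((a, d, 0) :: M') q) -
      Km (fun _ => 1) (fun _ => 1) (((a, d, 0) :: M').map (mxL N β))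
        (opS N β ((a, d, 0) :: M') q) ov (fun e e' => spin e * spin e') (bb N β ^ 2 * d)
        (fM ((a, d, 0) :: M')) q J p| ≤ 2 * ε + β ^ 2 * d / (2 * (N + 1)) +
      (2 * ((1 + exp (-U / 2)) ^ N - 1) / N + 2 * exp (-U / 2)) := by
  have D := dat_op (β := β) hN H h0 hq
  have hn : (0 : ℝ) < N := D.pos
  have hl : (((a, d, (0 : ℝ)) :: M').map (mxL N β)).length = M'.length + 1 := by simp
  have hb : β ^ 2 * d - bb N β ^ 2 * d = β ^ 2 * d / (N + 1) := by rw [bb_sq]; field_simp; ring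
  have hd0 : 0 ≤ d := (H.nn _ List.mem_cons_self).1
  have hb0 : 0 ≤ β ^ 2 * d / (N + 1) := by positivity
  have hτ : 0 ≤ bb N β ^ 2 * d := by positivity
  have hj : ∀ j ∈ J, j < ((a, d, (0 : ℝ)) :: M').length := fun j hj => by
    simpa using hJ hj
  have := D.node_form wt_one90 wt_one90 hM ⟨fl N 1 (0, 1 / N), funext fun x => funext fun y => by
      rw [Link33.cov_fl N 1 _ x y hN (by positivity)]; field_simp⟩
    ⟨C.sl spin (0, 1), funext fun x => funext fun y => by
      rw [(C.rk1_sl spin (p := (0, 1)) zero_le_one).2.2, one_mul]⟩ Cas.abs_ov_le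
    (fun x y => (le_abs_self _).trans (OneP.abs_spin2 x y).le) hτ
    (fun j hj => H.mono j (by simpa using hj)) (hl ▸ hJ) hp hε (fun j h => by
      have := (H.nn _ (List.getElem_mem (hj j h))).2
      rw [← List.getD_eq_getElem _ (0, 0, 0) (hj j h)] at this
      exact (abs_of_nonneg this).trans_le (hf j h)) (fun j h => le_trans (mul_le_mul_of_nonneg_right (by linarith)
        (sub_nonneg.2 (H.mono j (hj j h)))) (hd j h))
    (ent_op hN D hτ h1 (hl ▸ hi) hm (H.mem (by simpa using hi.le)).2 (U := U) (by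
      rw [hl, Finset.sum_Ico_eq_sub _ hi.le, ← fAcc_eq, ← fAcc_eq]; linarith))
  rw [Pc_op h0 hq, hb, abs_of_nonneg hb0, div_div, mul_comm ((N : ℝ) + 1)] at this
  rw [EE_eq]
  exact this

end inst

end Crest.Agent.T156.Cas.Kid68
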