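import Crest.Agent.T156.HbD_68
import Crest.Agent.T156.SclT_90
import Crest.Agent.T156.Kid_68
import Crest.Agent.T156.NuW_87
import Crest.Agent.T156.SiteC_94

/-!
# Row 156 (helper87): `PE` and `PS` of `HbD_68`

The entropy after a strong reveal, and the crude effect of the scaling on site words.
-/

set_option autoImplicit false
set_option linter.all false

noncomputable section

namespace Crest.Agent.T156.Cas.Hb68

open Real Finset
open Crest.Agent.T157.E Crest.Agent.T157.Casc Crest.Agent.T157.SL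
open Crest.ProbabilityR.SpinGlassDynamics (spin)
open R1J (W sk)
open Ker15 (R1 tm)
open Nu87

namespace P87

/-! ### the entropy -/

theorem En_nonneg (L : List (Lv Bool)) : 0 ≤ En L :=
  node_nonneg _ (Gir68.Sn_nonneg wt_one90 fun _ => .inr rfl) _ _ _

theorem P_nil {Ω : Type} [Fintype Ω] [Nonempty Ω] (z : Ω → ℝ) (x : Ω) :
    P (fun _ => 1) [] z x = exp (z x - X (fun _ => 1) [] z) := by
  rw [exp_sub, C.exp_X_nil wt_one90]
  simp only [P, prob, one_mul]

/-- `1 - tanh² ≤ 2 S` -/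
theorem sech_le (z : Bool → ℝ) :
    0 ≤ 1 - qf (P (fun _ => 1) [] z) (fun a b => spin a * spin b) ∧
    1 - qf (P (fun _ => 1) [] z) (fun a b => spin a * spin b) ≤ 2 * Gir68.Sn (fun _ => 1) z := by
  have h1 := sum_P wt_one90 ([] : List (Lv Bool)) z
  have h2 := fun x => P_nonneg wt_one90 ([] : List (Lv Bool)) z x
  have h3 : ∀ x, 1 - P (fun _ => 1) [] z x ≤ X (fun _ => 1) [] z - z x := fun x => by
    rw [P_nil]
    linarith [add_one_le_exp (z x - X (fun _ => 1) [] z)]
  have a := mul_le_mul_of_nonneg_left (h3 true) (h2 true)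
  have b := mul_le_mul_of_nonneg_left (h3 false) (h2 false)
  have c := mul_nonneg (h2 true) (h2 false)
  simp only [qf, Gir68.Sn, Pf, Fintype.sum_bool, spin] at h1 ⊢
  generalize P (fun _ => 1) [] z true = p at *
  generalize P (fun _ => 1) [] z false = p' at *
  generalize X (fun _ => 1) [] z = Y at *
  obtain rfl : p' = 1 - p := by linarith
  simp only [if_true, Bool.false_eq_true, if_false]
  constructor <;> nlinarith

theorem top_le (L : List (Lv Bool)) : |1 - W L L.length []| ≤ 2 * En L := by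
  have e : 1 - W L L.length [] = node (fun _ => 1) L L.length
      (fun z => 1 - qf (P (fun _ => 1) [] z) fun a b => spin a * spin b) 0 := by
    rw [node_sub wt_one90 (Eg.const 1) (eg_qf wt_one90 _ _), node_const wt_one90]
    exact congrArg (1 - ·) ((Hd50.Wh_nil L 0 _).trans (by rw [pi2, List.drop_length]))
  rw [e, abs_of_nonneg (node_nonneg _ (fun z => (sech_le z).1) _ _ _), En,
    ← congrFun (node_const_mul _ _ 2 L L.length) 0]
  exact node_mono wt_one90 ((Eg.const 1).sub (eg_qf wt_one90 _ _))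
    ((Gir68.eg_Sn wt_one90).const_mul 2) (fun z => (sech_le z).2) _ _ _

theorem En_le {L : List (Lv Bool)} {U : ℝ} (H : Tp L U) : En L ≤ 2 * exp (-U / 2) := by
  obtain ⟨i, hi, hm, hU⟩ := H.top
  refine (Kid68.node_Sn_tail wt_one90 (fun _ => .inr rfl) hi hm
    (c := fun a b => (tm L L.length - tm L i) * (spin a * spin b)) (v := tm L L.length - tm L i)
    (fun x y => by rw [H.r1.cacc, H.r1.cacc, sub_mul])
    (fun x _ => by cases x <;> simp [spin]) (fun x _ => ?_) 0).2
  have h4 : ∀ s : Finset Bool, s = {!x} → ∑ y ∈ s, 1 * exp (-(tm L L.length - tm L i -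
      (tm L L.length - tm L i) * (spin x * spin y)) / 4) ≤ exp (-U / 2) := by
    rintro _ rfl
    rw [Finset.sum_singleton, one_mul]
    refine exp_le_exp.2 ?_
    cases x <;> simp [spin] <;> linarith
  exact h4 _ (by ext y; cases x <;> cases y <;> simp)

/-! ### the scaling -/

section gen
variable {Ω : Type} [Fintype Ω] {L : List (Lv Ω)} {lam : ℝ} {r : ℕ}

theorem mono_scl (h0 : 0 ≤ lam) (h1 : lam ≤ 1) : ∀ {L : List (Lv Ω)} {m : ℝ}, Mono m L →
    Mono (lam * m) (L.map (scl lam))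
  | [], m, H => (mul_le_mul_of_nonneg_left H h0).trans (by simpa using h1)
  | _ :: _, _, H => ⟨mul_le_mul_of_nonneg_left H.1 h0, mono_scl h0 h1 H.2⟩

theorem Ws_scl (σ : SM r) (G : Fin r → ℕ → ℝ) :
    Ws (L.map (scl lam)) σ G = lam * Ws L σ G + (1 - lam) * ∑ a, G a L.length := by
  have e : ∀ j ∈ range L.length, ex (L.map (scl lam)) j = lam * ex L j := fun j hj => by
    simp [T157.Casc.ex, List.getElem?_eq_getElem (mem_range.1 hj)]
  rw [Ws, Ws, List.length_map, sum_congr (s₁ := range L.length) rfl fun j hj => by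
    rw [e j hj, mul_assoc], ← mul_sum]
  ring

theorem abs_up1 (hL : Mono 0 L) {τ : SM (r + 1)} (hτ : Rz L.length τ) {φ : SM (r + 2) → ℝ} {p : ℝ}
    (h : ∀ σ, Rz L.length σ → |φ σ| ≤ p) : |up1 L φ τ| ≤ p := by
  have h1 := up1_mono hL hτ (ψ := fun _ => p) fun σ hσ => (abs_le.1 (h σ hσ)).2
  have h2 := up1_mono hL hτ (φ := fun _ => -p) fun σ hσ => (abs_le.1 (h σ hσ)).1
  rw [up1_const] at h1 h2
  exact abs_le.2 ⟨h2, h1⟩

theorem up1_scl (hL : Mono 0 L) (h1 : lam ≤ 1) {τ : SM (r + 1)} (hτ : Rz L.length τ)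
    {φ : SM (r + 2) → ℝ} {p : ℝ} (h : ∀ σ, Rz L.length σ → |φ σ| ≤ p) :
    |up1 (L.map (scl lam)) φ τ - up1 L φ τ| ≤ (1 - lam) * (2 * p) := by
  have a := abs_up1 hL hτ h
  have b : |(∑ a, φ (gr L.length τ a L.length)) / (r + 1)| ≤ p := by
    rw [abs_div, abs_of_pos (show (0 : ℝ) < r + 1 by positivity), div_le_iff₀ (by positivity)]
    exact (abs_sum_le_sum_abs _ _).trans ((sum_le_card_nsmul _ _ p fun a _ =>
      h _ (hτ.gr a _)).trans_eq (by simp [mul_comm]))
  have e : up1 (L.map (scl lam)) φ τ - up1 L φ τ =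
      (1 - lam) * ((∑ a, φ (gr L.length τ a L.length)) / (r + 1) - up1 L φ τ) := by
    rw [up1, Ws_scl, List.length_map, up1]
    ring
  rw [e, abs_mul, abs_of_nonneg (sub_nonneg.2 h1)]
  exact mul_le_mul_of_nonneg_left ((abs_sub _ _).trans (by linarith)) (sub_nonneg.2 h1)

theorem abs_avc (hL : Mono 0 L) {σ : SM (r + 1)} (hσ : Rz L.length σ) (k : ℕ)
    {φ : SM (r + k + 1) → ℝ} {p : ℝ} (h : ∀ τ, Rz L.length τ → |φ τ| ≤ p) : |avc L σ k φ| ≤ p :=
  (Site94.abs_avc_le hL hσ k (g := fun _ => p) fun τ hτ _ => h τ hτ).trans_eq (avc_const _ _)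

/-- **the weights under the scaling** -/
theorem avc_scl (hL : Mono 0 L) (h0 : 0 ≤ lam) (h1 : lam ≤ 1) {σ : SM (r + 1)}
    (hσ : Rz L.length σ) {p : ℝ} : ∀ (k : ℕ) {φ : SM (r + k + 1) → ℝ},
    (∀ τ, Rz L.length τ → |φ τ| ≤ p) →
    |avc (L.map (scl lam)) σ k φ - avc L σ k φ| ≤ k * ((1 - lam) * (2 * p))
  | 0, _, _ => by simp [avc]
  | k + 1, φ, h => by
      have m : Mono 0 (L.map (scl lam)) := by simpa using mono_scl h0 h1 hL
      have l : (L.map (scl lam)).length = L.length := List.length_map _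
      have a := abs_avc m (l ▸ hσ) k
        (φ := fun τ => up1 (r := r + k) (L.map (scl lam)) φ τ - up1 (r := r + k) L φ τ)
        fun τ hτ => up1_scl hL h1 (l ▸ hτ) h
      have b := avc_scl hL h0 h1 hσ k (φ := up1 (r := r + k) L φ) fun τ hτ => abs_up1 hL hτ h
      rw [avc_sub] at a
      refine (abs_sub_le _ _ _).trans ((add_le_add a b).trans_eq ?_)
      push_cast
      ring

/-- **the law of the leaves under the scaling** -/
theorem TM_scl [Nonempty Ω] (hL : Mono 0 L) (h0 : 0 < lam) (h1 : lam ≤ 1) {σ : SM r}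
    (hσ : Rz L.length σ) {G : (Fin r → Ω) → ℝ} {b : ℝ} (hG : ∀ x, |G x| ≤ b) :
    |TM (fun _ => 1) (L.map (scl lam)) 0 σ G - TM (fun _ => 1) L 0 σ G| ≤
      2 * b * ((lam⁻¹ - 1) * (r * node (fun _ => 1) L L.length (Gir68.Sn fun _ => 1) 0)) := by
  obtain ⟨s, e, rfl⟩ := hσ
  have e1 := TM_sm wt_one90 s (L.map (scl lam)) 0 e.injective G
  have e2 := tX_scl h0 h1 s hL 0 (F := fun x => G fun a => x (e a)) fun x => hG _
  rw [List.length_map] at e1
  rw [smul_zero, ← Fintype.card_congr e, Fintype.card_fin] at e2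
  rw [e1, TM_sm wt_one90 s L 0 e.injective]
  exact e2

/-- **the conditional law under the scaling** -/
theorem nuc_scl [Nonempty Ω] (hL : Mono 0 L) (h0 : 0 < lam) (h1 : lam ≤ 1) {σ : SM (r + 1)}
    (hσ : Rz L.length σ) (k : ℕ) {F : RF Ω (r + k + 1)} {b : ℝ} (hF : ∀ x τ, |F x τ| ≤ b) :
    |nuc (fun _ => 1) (L.map (scl lam)) 0 σ k F - nuc (fun _ => 1) L 0 σ k F| ≤
      2 * b * ((lam⁻¹ - 1) * ((r + k + 1 : ℕ) *
        node (fun _ => 1) L L.length (Gir68.Sn fun _ => 1) 0)) + k * ((1 - lam) * (2 * b)) := by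
  have m : Mono 0 (L.map (scl lam)) := by simpa using mono_scl h0.le h1 hL
  have l : (L.map (scl lam)).length = L.length := List.length_map _
  have a := abs_avc m (l ▸ hσ) k (φ := fun τ => TM (fun _ => 1) (L.map (scl lam)) 0 τ (fun x => F x τ)
    - TM (fun _ => 1) L 0 τ fun x => F x τ) fun τ hτ => TM_scl hL h0 h1 (l ▸ hτ) fun x => hF x τ
  have b := avc_scl hL h0.le h1 hσ k (φ := fun τ => TM (fun _ => 1) L 0 τ fun x => F x τ)
    fun τ hτ => Hom68.abs_TM wt_one90 0 hτ fun x => hF x τ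
  rw [avc_sub] at a
  exact (abs_sub_le _ _ _).trans (add_le_add a b)

/-- sup norm of the function of a word -/
theorem abs_nDv {U : ℕ → ℕ → Ω → Ω → ℝ} (hU : ∀ i j x y, |U i j x y| ≤ 1) {F : RF Ω (r + 1)}
    {b : ℝ} (hb : 0 ≤ b) (hF : ∀ x τ, |F x τ| ≤ b) (k : ℕ) (x : Fin (r + 2 * k + 1) → Ω)
    (τ : SM (r + 2 * k + 1)) : |nDv U F k x τ| ≤ (r + 2 * k + 1 : ℝ) ^ (4 * k) * b := by
  rw [nDv_sum]
  refine abs_sum_nCG_le hb fun f _ => ?_
  rw [abs_mul, Finset.abs_prod]
  exact (mul_le_mul (hF _ _) (Finset.prod_le_one (fun _ _ => abs_nonneg _) fun i _ => hU _ _ _ _)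
    (Finset.prod_nonneg fun _ _ => abs_nonneg _) hb).trans_eq (mul_one _)

end gen

theorem abs_ss (a b : Bool) : |spin a * spin b| ≤ 1 := by cases a <;> cases b <;> simp [spin]

theorem sk_ok {f : ℕ → ℝ} (h : f 0 = 0) (K : ℕ) : sk f ∈ Mul55.Ok Bool K :=
  ⟨by funext a b; simp [sk, h], f K / 2, fun y => by cases y <;> simp [sk, spin]⟩

/-- a site word as a conditional law -/
theorem W_nuc (L : List (Lv Bool)) {k : ℕ} (hk : k ≤ L.length) {V : List (ℕ → ℝ)}
    (hV : ∀ f ∈ V, f 0 = 0) : W L k V = nuc (r := 1) (fun _ => 1) L 0 (tw L.length k)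
      (2 * (V.map sk).length) (nDv (fun i => (V.map sk).getD i 0)
        (ed (fun _ a b => spin a * spin b) 0 1) (V.map sk).length) :=
  (twoF_eq_nW wt_one90 (fun S hS => by
    obtain ⟨f, hf, rfl⟩ := List.mem_map.1 hS
    exact sk_ok (hV f hf) _) hk fun _ a b => spin a * spin b).trans (nW_eq_nuc _ _ _)

/-- **any word under the scaling** -/
theorem W_scl {L : List (Lv Bool)} (hL : Mono 0 L) {t : ℝ} (ht : 1 ≤ t) {k : ℕ} (hk : k ≤ L.length)
    {V : List (ℕ → ℝ)} (hV : ∀ f ∈ V, f 0 = 0) (hb : ∀ f ∈ V, ∀ j, |f j| ≤ 1) :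
    |W (sc L t) k V - W L k V| ≤ 4 * (2 * V.length + 2 : ℝ) ^ (4 * V.length) *
      ((t - 1) * ((V.length + 1) * En L + V.length)) := by
  have t0 : 0 < t := one_pos.trans_le ht
  have l : (sc L t).length = L.length := List.length_map _
  have h1 : t⁻¹ ≤ 1 := inv_le_one_of_one_le₀ ht
  have hU : ∀ i j x y, |(V.map sk).getD i 0 j x y| ≤ 1 := fun i j x y => by
    rcases lt_or_ge i V.length with h | h
    · rw [List.getD_eq_getElem _ _ (by simpa using h), List.getElem_map, sk, abs_mul, abs_div,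
        abs_two]
      have := hb _ (List.getElem_mem h) j
      exact mul_le_one₀ (by linarith) (abs_nonneg _) (abs_ss _ _)
    · rw [List.getD_eq_default _ _ (by simpa using h)]
      simp
  have key := nuc_scl (r := 1) hL (inv_pos.2 t0) h1 (rz_tw L.length k) (2 * (V.map sk).length)
    (abs_nDv (r := 1) hU (F := ed (fun _ a b => spin a * spin b) 0 1) zero_le_one
      (fun _ _ => abs_ss _ _) (V.map sk).length)
  rw [W_nuc _ (l ▸ hk) hV, W_nuc _ hk hV, l]
  refine key.trans ?_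
  have h2 : 1 - t⁻¹ ≤ t - 1 := by
    have := mul_inv_cancel₀ t0.ne'
    nlinarith [mul_nonneg (sub_nonneg.2 ht) (sub_nonneg.2 h1)]
  rw [inv_inv, List.length_map, mul_one,
    show ((1 : ℕ) + 2 * V.length + 1 : ℝ) = 2 * V.length + 2 by push_cast; ring]
  change 2 * _ * (_ * (_ * En L)) + _ ≤ _
  have h3 := mul_le_mul_of_nonneg_left h2 (show (0 : ℝ) ≤ 4 * V.length *
    (2 * V.length + 2 : ℝ) ^ (4 * V.length) by positivity)
  push_cast
  nlinarith

end P87

open P87

/-- **`PE`** -/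
theorem pe : PE := ⟨4, by norm_num, fun L U H => by
  have h1 := En_le H
  have h2 := top_le L
  have h3 := exp_pos (-U / 2)
  exact ⟨En_nonneg L, by linarith, by linarith⟩⟩

/-- **`PS`** -/
theorem ps : PS := ⟨12 * 6 ^ 8, by norm_num, fun L _ hL t ht k hk => by
  have h0 := mul_nonneg (sub_nonneg.2 ht) (En_nonneg L)
  refine ⟨(W_scl hL ht hk (V := []) (by simp) (by simp)).trans ?_, fun f g f0 g0 f1 g1 =>
    (W_scl hL ht hk (V := [f, g]) (by simp [f0, g0]) (by simp [f1, g1])).trans ?_⟩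
  · simp only [List.length_nil, Nat.cast_zero, mul_zero, pow_zero, zero_add, one_mul, add_zero]
    linarith
  · simp only [List.length_cons, List.length_nil]
    norm_num
    nlinarith⟩

end Crest.Agent.T156.Cas.Hb68

end
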