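import Crest.Agent.T156.HbD_68
import Crest.Agent.T156.R2H0_6

/-!
# Row 156 (helper20): `y`-derivatives are root letters (`YG`, `YD` of `HbD_68`)
-/

set_option autoImplicit false
set_option linter.all false

noncomputable section

namespace Crest.Agent.T156.Cas.Hb68

open Real Finset
open Crest.Agent.T157.E Crest.Agent.T157.Casc Crest.Agent.T157.SL
open Crest.ProbabilityR.SpinGlassDynamics (spin)
open R1J (W ind sk)
open Ker15 (z0)
open C40 C40.E42 H06 Mul55 Wt87

namespace Y20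

section gen
variable {Ω Θ : Type}

/-- a graft term below one more root level -/
def upT {s : Sh} (τ : GT s) : GT (.step s) := ⟨.step τ.sh, τ.e, τ.j + 1, τ.p, τ.q⟩

/-- a functional read below one more root level -/
def upF (Λ : Fn Ω) : Fn Ω := fun s F => Λ (.step s) F

theorem cw_up0 {l : Lv Θ} (hl : l.m = 0) (T : List (Lv Θ)) (s : Sh) (a : s.Lf) :
    cw (.step s) (l :: T) a 0 = 0 := by
  have : ex (l :: T) 0 = 0 := hl
  simp [cw, cf, this]

theorem cw_up {l : Lv Θ} (hl : l.m = 0) (T : List (Lv Θ)) (s : Sh) (a : s.Lf) (j : ℕ) :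
    cw (.step s) (l :: T) a (j + 1) = cw s T a j := by
  simp [cw, cf, hl]
  congr

theorem sum_cw_up {l : Lv Θ} (hl : l.m = 0) (T : List (Lv Θ)) (s : Sh) (a : s.Lf) (G : ℕ → ℝ) :
    ∑ j ∈ range ((l :: T).length + 1), cw (.step s) (l :: T) a j * G j =
      ∑ j ∈ range (T.length + 1), cw s T a j * G (j + 1) := by
  rw [List.length_cons, sum_range_succ', cw_up0 hl, zero_mul, add_zero]
  simp only [cw_up hl]

theorem sg_up {l : Lv Θ} (hl : l.m = 0) (T : List (Lv Θ)) (ε : ℝ) (s : Sh) (Φ : GT (.step s) → ℝ) :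
    sg ε (l :: T) (.step s) Φ = sg ε T s fun τ => Φ (upT τ) := by
  refine congrArg₂ (· + ·) (congrArg₂ (· + ·) rfl (congrArg (ε * ·) (sum_congr rfl fun a _ =>
    sum_cw_up hl T s a _))) (sum_congr rfl fun a _ => (sum_cw_up hl T s a _).trans
      (sum_congr rfl fun j _ => congrArg (_ * ·) (congrArg₂ (· + ·) (sum_congr rfl fun b _ =>
        (sum_cw_up hl T s b _).trans (sum_congr rfl fun k _ => congrArg (_ * ·) (congrArg Φ ?_)))
        ?_)))
  · simp only [GT.g2, upT, Nat.succ_min_succ]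
    rfl
  · rw [List.length_cons, Nat.add_sub_add_right]
    rfl

theorem Dop_up {l : Lv Ω} (hl : l.m = 0) (T : List (Lv Ω)) (S : ℕ → Ω → Ω → ℝ) (Λ : Fn Ω) :
    upF (Dop (l :: T) S Λ) = Dop T (fun j => S (j + 1)) (upF Λ) := by
  funext s F
  exact (Dop_eq_sg (l :: T) S Λ (.step s) F).trans ((sg_up hl T _ s _).trans
    (Dop_eq_sg T (fun j => S (j + 1)) (upF Λ) s F).symm)

theorem WdO_up {l : Lv Ω} (hl : l.m = 0) (T : List (Lv Ω)) (Λ : Fn Ω) :
    ∀ U : List (ℕ → Ω → Ω → ℝ),
      upF (WdO (l :: T) U Λ) = WdO T (U.map fun S j => S (j + 1)) (upF Λ)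
  | [] => rfl
  | S :: U => by rw [WdO_cons, Dop_up hl, WdO_up hl T Λ U]; rfl

theorem FL_mul {Φ : Fn Ω → ℝ} (h : FL Φ) (c : ℝ) {Λ Λ' : Fn Ω} (e : ∀ s F, Λ s F = c * Λ' s F) :
    Φ Λ = c * Φ Λ' :=
  h (fun f a => f 0 = c * a) ⟨(mul_zero c).symm, fun h1 h2 => by simp only [h1, h2, mul_add],
    fun r _ _ h1 => by simp only [h1, mul_left_comm]⟩ (fun _ => Λ) Λ' e

variable [Fintype Ω] {w : Ω → ℝ}

theorem TEf_up (hw : Wt w) (m : ℝ) (T : List (Lv Ω)) (h : Ω → ℝ) :
    upF (TEf w (z0 Ω m :: T) h) = TEf w T h := by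
  funext s F
  exact Ker15.TE_del hw (l := z0 Ω m) (a := Empty.elim) (fun _ => rfl) T (.step s) [] F h

/-- **two legs are one root letter** -/
theorem lop_lop (hw : Wt w) (M : List (Lv Ω)) (h : Ω → ℝ) {f : Ω → ℝ} (hf : ∀ y, f y * f y = 1)
    (s : Sh) (F : (s.Lf → Ω) → ℝ) : Lop M f (Lop M f (TEf w M h)) s F =
      2 * Dop M (fun _ x y => 1 / 2 * (f x * f y)) (TEf w M h) s F := by
  have l := (isLin_TEf hw M h).dopS M (1 / 2) 0 (fun _ x y => f x * f y) (fun _ _ _ => 0) s F
  simp only [zero_mul, add_zero] at l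
  rw [l, ← mul_assoc, show (2 : ℝ) * (1 / 2) = 1 by norm_num, one_mul,
    ← dT_eq_Dop hw s M h (c := 1) hf, dT]
  have e : ∀ a, ∀ j ∈ range (M.length + 1), Lop M f (TEf w M h) (s.graft a j)
      (fun x => F (fun b => x (s.emb a j b)) * f (x (s.nw a j))) =
      (∑ b, tX w (s.graft a j) M h (fun _ x => F (fun c => x (s.emb a j c)) *
        (f (x (s.nw a j)) * f (x (s.emb a j b)))) +
      tX w (s.graft a j) M h fun _ x => F (fun c => x (s.emb a j c)) *
        (f (x (s.nw a j)) * f (x (s.nw a j)))) -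
      (∑ b, ∑ k ∈ range (M.length + 1), cw s M b k *
        tX w ((s.graft a j).graft (s.emb a j b) k) M h (fun _ x =>
          F (fun c => x ((s.graft a j).emb (s.emb a j b) k (s.emb a j c))) *
            (f (x ((s.graft a j).nw (s.emb a j b) k)) *
              f (x ((s.graft a j).emb (s.emb a j b) k (s.nw a j))))) +
      ∑ i ∈ range (M.length - j + 1), dm (M.drop j) 0 i *
        tX w ((s.graft a j).graft (s.nw a j) (i + j)) M h fun _ x =>
          F (fun b => x ((s.graft a j).emb (s.nw a j) (i + j) (s.emb a j b))) *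
            (f (x ((s.graft a j).emb (s.nw a j) (i + j) (s.nw a j))) *
              f (x ((s.graft a j).nw (s.nw a j) (i + j))))) := fun a j hj => by
    have k := Wn_graft' M s a (Nat.lt_succ_iff.1 (mem_range.1 hj)) (nc_graft hw (s.graft a j) M h
      (G := fun _ _ x y => F (fun b => x (s.emb a j b)) * f (x (s.nw a j)) * f y) fun _ _ _ _ => rfl)
    rw [← sum_cw_eq, ← sum_cw_eq] at k
    rw [Lop, sum_graft]
    refine congrArg₂ (· - ·) ?_ (k.trans ?_)
    · simp only [TEf, TE, mul_assoc]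
    · simp only [mul_assoc, mul_comm (f _) (f _)]
  rw [Lop, sum_congr rfl fun a _ => sum_congr rfl fun j hj => congrArg (cw s M a j * ·) (e a j hj)]
  simp only [Lop, TEf, TE, mul_assoc, mul_add, mul_sub, sum_add_distrib, sum_sub_distrib, mul_sum]
  have c1 : ∑ a, ∑ b, ∑ k ∈ range (M.length + 1), cw s M b k * tX w (s.graft b k) M h
      (fun _ x => F (fun c => x (s.emb b k c)) * (f (x (s.emb b k a)) * f (x (s.nw b k)))) =
      ∑ b, ∑ k ∈ range (M.length + 1), ∑ a, cw s M b k * tX w (s.graft b k) M h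
      (fun _ x => F (fun c => x (s.emb b k c)) * (f (x (s.emb b k a)) * f (x (s.nw b k)))) :=
    sum_comm.trans (sum_congr rfl fun b _ => sum_comm)
  have c2 : ∀ G : s.Lf → ℕ → s.Lf → ℕ → ℝ, ∑ a, ∑ j ∈ range (M.length + 1), ∑ b,
      ∑ k ∈ range (M.length + 1), cw s M a j * (cw s M b k * G a j b k) =
      ∑ b, ∑ k ∈ range (M.length + 1), ∑ a, ∑ j ∈ range (M.length + 1),
        cw s M b k * (cw s M a j * G a j b k) := fun G => by
    have c : ∀ H : s.Lf → ℕ → s.Lf → ℕ → ℝ, ∑ a, ∑ j ∈ range (M.length + 1), ∑ b,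
        ∑ k ∈ range (M.length + 1), H a j b k = ∑ p ∈ univ ×ˢ range (M.length + 1),
          ∑ q ∈ univ ×ˢ range (M.length + 1), H p.1 p.2 q.1 q.2 := fun H => by
      simp only [sum_product]
    rw [c, c, sum_comm]
    exact sum_congr rfl fun _ _ => sum_congr rfl fun _ _ => mul_left_comm _ _ _
  rw [c1, c2]
  ring

theorem DK_congr (hw : Wt w) {Φ Ψ : Fn Ω → ℝ} (hΦ : FL Φ) (hΨ : FL Ψ) (M : List (Lv Ω))
    (e : ∀ h, Φ (TEf w M h) = Ψ (TEf w M h)) (f h : Ω → ℝ) (r : ℕ) :
    Φ (DK w M f r h) = Ψ (DK w M f r h) := by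
  have h1 := congrFun (iter_DK hw hΦ M f h 0 r) 0
  have h2 := congrFun (iter_DK hw hΨ M f h 0 r) 0
  simp only [DK_zero, e, zero_add r, zero_smul, add_zero] at h1 h2
  exact h1.symm.trans h2

end gen

/-- the root letter read on the upper cascade -/
def K1 : ℕ → Bool → Bool → ℝ := fun _ a b => 1 / 2 * (spin a * spin b)

theorem sp2 (b : Bool) : spin b * spin b = 1 := by cases b <;> simp [spin]

variable {T : List (Lv Bool)}

theorem DY_two {Φ : Fn Bool → ℝ} (hΦ : FL Φ) (y : ℝ) :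
    Φ (DY T 2 y) = 2 * Φ (Dop T K1 (TEf (fun _ => 1) T fun b => y * spin b)) :=
  FL_mul hΦ 2 (lop_lop wt_one90 T _ sp2)

theorem DY_four {Φ : Fn Bool → ℝ} (hΦ : FL Φ) (y : ℝ) :
    Φ (DY T 4 y) = 4 * Φ (Dop T K1 (Dop T K1 (TEf (fun _ => 1) T fun b => y * spin b))) := by
  have h1 := DK_congr wt_one90 (fl_lops T spin 2 hΦ) ((hΦ.dop T K1).cmul 2) T
    (fun h => FL_mul hΦ 2 (lop_lop wt_one90 T h sp2)) spin (fun b => y * spin b) 2
  have h2 := DY_two (T := T) (hΦ.dop T K1) y
  exact h1.trans ((congrArg (2 * ·) h2).trans (by ring))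

theorem W_up (T : List (Lv Bool)) (k : ℕ) (V : List (ℕ → ℝ)) : W (z0 Bool 0 :: T) (k + 1) V =
    twoF k (fun a b => spin a * spin b)
      (WdO T (V.map fun f => sk fun j => f (j + 1)) (TEf (fun _ => 1) T 0)) := by
  have := WdO_up (l := z0 Bool 0) rfl T (TEf (fun _ => 1) (z0 Bool 0 :: T) 0) (V.map sk)
  rw [TEf_up wt_one90, List.map_map] at this
  exact congrArg (twoF k fun a b => spin a * spin b) this

theorem sk_st : (sk fun j => st 1 (j + 1)) = K1 := by
  funext j a b
  simp [sk, st, K1]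

theorem fld0 : (fun b => (0 : ℝ) * spin b) = 0 := funext fun _ => zero_mul _

/-- the differentiated word -/
def Wd (T : List (Lv Bool)) (r k : ℕ) (V : List (ℕ → ℝ)) : ℝ :=
  twoF k (fun a b => spin a * spin b) (WdO T (V.map sk) (DY T r 0))

theorem fl_W (T : List (Lv Bool)) (k : ℕ) (V : List (ℕ → ℝ)) :
    FL fun Λ => twoF k (fun a b => spin a * spin b) (WdO T (V.map sk) Λ) :=
  FL.wdO _ _ (fl_twoF _ _)

theorem Wd_two (T : List (Lv Bool)) (k : ℕ) (V : List (ℕ → ℝ)) :
    Wd T 2 k V = 2 * W (z0 Bool 0 :: T) (k + 1) ((V.map fun f j => f (j - 1)) ++ [st 1]) := by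
  rw [W_up, List.map_append, WdO_append, List.map_map, List.map_singleton, sk_st, Wd,
    DY_two (fl_W T k V), fld0]
  rfl

theorem Wd_four (T : List (Lv Bool)) (k : ℕ) (V : List (ℕ → ℝ)) :
    Wd T 4 k V = 4 * W (z0 Bool 0 :: T) (k + 1) ((V.map fun f j => f (j - 1)) ++ [st 1, st 1]) := by
  rw [W_up, List.map_append, WdO_append, List.map_map, List.map_cons, List.map_singleton, sk_st, Wd,
    DY_four (fl_W T k V), fld0]
  rfl

theorem sum_up0 (T : List (Lv Bool)) (G : ℕ → ℝ) :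
    ∑ j ∈ range ((z0 Bool 0 :: T).length + 1), dm (z0 Bool 0 :: T) 0 j * (st 1 j * G j) =
      ∑ j ∈ range (T.length + 1), dm T 0 j * G (j + 1) := by
  rw [List.length_cons, sum_range_succ']
  simp only [dm_cons_succ, st, le_add_iff_nonneg_left, zero_le, if_true, one_mul]
  simp [z0]

theorem cw_one (M : List (Lv Bool)) (a : Sh.one.Lf) : ∀ j, cw .one M a j = dm M 0 j
  | 0 => by
      rw [cw, if_pos ⟨rfl, rfl⟩]
      show (0 : ℝ) + ((1 : ℕ) : ℝ) * ex M 0 = ex M 0 - 0
      simp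
  | j + 1 => by
      rw [cw, if_neg (by simp), add_zero]
      rfl

theorem lop_one (T : List (Lv Bool)) (Λ : Fn Bool) : Lop T spin Λ .one (fun x => spin (x ())) =
    Λ .one (fun _ => 1) - ∑ j ∈ range (T.length + 1), dm T 0 j *
      twoF j (fun a b => spin a * spin b) Λ := by
  simp only [Lop, sum_one, cw_one, sp2]
  rfl

theorem DY_one (T : List (Lv Bool)) (r : ℕ) (s : Sh) : DY T (r + 1) 0 s (fun _ => 1) = 0 := by
  have := iter_DY (FL.ev s fun _ => 1) T (r + 1) 0
  simp only [TEf, Law.TE_const wt_one90] at this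
  rw [← this, iteratedDeriv_succ', deriv_const']
  simp

/-- the test heads -/
theorem dP_test (D : CD) (a : ℕ → ℝ) (r : ℕ) {fs : List (ℕ → ℝ)} (h0 : ∀ f ∈ fs, f D.J = 0) :
    (wi D a).dP (r + 1) (fs.map (Hd50.le D.q)) =
      -∑ j ∈ D.up, a j * Wd (D.S.drop D.J) (r + 1) (j - D.J) (fs.map fun f k => f (k + D.J)) := by
  have e : (fun y => (wi D a).sH D.J y (fs.map (Hd50.le D.q))) = fun y =>
      -(∑ j ∈ D.up, a j * if fs = [] then D.q j else 0) + ∑ j ∈ D.up, a j * Hd50.T D D.J y j fs :=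
    funext fun y => by
      refine (Hd50.sH_test (D := wi D a) rfl D.J y h0).trans ?_
      rw [neg_add_eq_sub, ← sum_sub_distrib]
      exact sum_congr rfl fun j _ => mul_sub _ _ _
  refine congrArg Neg.neg ((congrArg (fun g => iteratedDeriv (r + 1) g 0) e).trans ?_)
  rw [iteratedDeriv_const_add r.succ_pos]
  exact iter_DY (FL.sum _ fun j _ => (fl_W _ (j - D.J) _).cmul (a j)) _ _ _

theorem W_zero_one (hT : One15.Fl T) : W (z0 Bool 0 :: T) 1 [st 1] =
    DY T 1 0 .one (fun x => spin (x ())) ^ 2 := by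
  have d := fun k => der_DY (FL.ev .one fun x => spin (x ())) T k
  have e : (fun y : ℝ => twoF 0 (fun a b => spin a * spin b)
      (WdO T (List.map sk []) (TEf (fun _ => 1) T fun b => y * spin b))) = fun y =>
        DY T 0 y .one (fun x => spin (x ())) * DY T 0 y .one fun x => spin (x ()) :=
    funext fun y => (Law.TE_split wt_one90 .one .one T _ _).trans ((congrArg
      (TE (fun _ => 1) .one T fun b => y * spin b) (funext fun x =>
      Law.TE_const_mul wt_one90 .one T _ (spin (x ())) fun x' => spin (x' ()))).trans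
        (Law.TE_mul_const wt_one90 .one T _ _ fun x => spin (x ())))
  have h0 : DY T 0 0 .one (fun x => spin (x ())) = 0 := by
    have := One15.TE_flip hT .one (fun x => spin (x ())) 0
    simp only [One15.spin_not, neg_zero, zero_smul] at this
    have h2 := Law.TE_const_mul wt_one90 .one T 0 (-1) fun x => spin (x ())
    simp only [neg_one_mul] at h2
    rw [DY_zero, fld0, TEf]
    linarith
  have h1 := iter_DY (fl_W T 0 []) T 2 0
  have h2 := Wd_two T 0 []
  rw [e, iteratedDeriv_succ, iteratedDeriv_one, funext fun y => ((d 0 y).fun_mul (d 0 y)).deriv,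
    (((d 1 0).fun_mul (d 0 0)).fun_add ((d 0 0).fun_mul (d 1 0))).deriv, h0] at h1
  have h3 : Wd T 2 0 [] = _ := h1.symm
  rw [h2] at h3
  simp only [List.map_nil, List.nil_append, zero_add] at h3
  linarith

end Y20

open Y20

/-- **two `y`-derivatives are one root letter** -/
theorem yg_20 : YG := fun T k V _ _ =>
  ⟨(iter_DY (fl_W T k V) T 2 0).trans (Wd_two T k V),
    (iter_DY (fl_W T k V) T 4 0).trans (Wd_four T k V)⟩

theorem yg : YG := yg_20

/-- **the heads of `CDef_40` as root words** -/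
theorem yd : YD := fun τ0 D H hW => by
  have hl : D.lam = DY (D.S.drop D.J) 1 0 .one fun x => spin (x ()) := iter_Ph _ 1 0
  have k2 : ∀ a : ℕ → ℝ, (wi D a).dP 2 [] = -2 * ∑ j ∈ D.up, a j * W (T0 D) (j - D.J + 1) [st 1] :=
    fun a => (dP_test D a 1 (fs := []) (by simp)).trans (by
      rw [mul_sum, ← sum_neg_distrib]
      exact sum_congr rfl fun j _ => by rw [Wd_two]; simp only [T0, List.map_nil, List.nil_append]; ring)
  refine ⟨?_, ?_, ?_, fun t ht => ?_, fun ω => ⟨k2 ω, ?_, fun t ht => ?_⟩⟩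
  · rw [T0, sum_up0, hl]
    refine (lop_one _ _).trans (congrArg₂ (· - ·) (Law.TE_const wt_one90 _ _ _ _)
      (sum_congr rfl fun j _ => ?_))
    rw [W_up, fld0]
    rfl
  · rw [T0, sum_up0, show D.k4 = _ from iter_Ph _ 3 0, DY, DK, Function.iterate_succ_apply']
    refine (lop_one _ _).trans ?_
    rw [show (Lop (D.S.drop D.J) spin)^[2] _ = DY (D.S.drop D.J) 2 0 from rfl, DY_one, mul_sum,
      zero_sub, ← sum_neg_distrib]
    refine sum_congr rfl fun j _ => ?_
    exact (congrArg (fun r => -(dm (D.S.drop D.J) 0 j * r)) (Wd_two (D.S.drop D.J) j [])).trans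
      (by simp only [List.map_nil, List.nil_append]; ring)
  · rw [hl]
    exact W_zero_one (One15.fl_of (List.forall₂_drop D.J (C.forall₂_sl spin (opV_nn H.ook))))
  · have e : D.dP 2 [D.lev t] = (wi D fun j => D.dx j * (Hd50.i2 t j / 2)).dP 2 [] := by
      rw [Hd50.lev_eq]
      exact congrArg (fun g => -iteratedDeriv 2 g 0) (funext fun y => Hd50.sH_val_test hW H.top
        H.cut le_rfl y (fun j => Hd50.i2_lo D ht) (fs := []) (by simp))
    rw [e, k2, sum_eq_single t (fun j _ hj => by simp [Hd50.i2, ind, hj]) fun h => absurd ht h]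
    simp [Hd50.i2, ind]
  · refine (dP_test D ω 3 (fs := []) (by simp)).trans ?_
    rw [mul_sum, ← sum_neg_distrib]
    exact sum_congr rfl fun j _ => by rw [Wd_four]; simp only [T0, List.map_nil, List.nil_append]; ring
  · have e : (fun j => Hd50.i2 t (j - 1 + D.J)) = fun j => 2 * ind (t - D.J + 1) j := by
      have := (mem_Ioo.1 ht).1
      funext j
      simp only [Hd50.i2, ind, show j - 1 + D.J = t ↔ j = t - D.J + 1 by omega]
    rw [Hd50.lev_eq]
    refine (dP_test D ω 1 (fs := [Hd50.i2 t]) (by simpa using Hd50.i2_lo D ht le_rfl)).trans ?_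
    rw [mul_sum, ← sum_neg_distrib]
    refine sum_congr rfl fun j _ => ?_
    have := Hd50.Wh_smul (T0 D) 0 (j - D.J + 1) 2 (ind (t - D.J + 1)) [st 1]
    rw [Wd_two, List.map_singleton, List.map_singleton, e, List.singleton_append]
    exact (congrArg (fun r => -(ω j * (2 * r))) this).trans (by rw [Hd50.Wh_zero]; ring)

end Crest.Agent.T156.Cas.Hb68

end
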