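import Crest.Agent.T156.RpB_90
import Crest.Agent.T156.Cav_22
import Crest.Agent.T156.CaTayB_38

/-!
# Row 156: legs, marks and consistency (helper99)

A valuation reads a shape through the split matrix of finitely many marked leaves.  A signed leg
keeps this property: leaves that are not marked can be deleted.  The graft sum `sg` of a kernel
that vanishes on the diagonal is the product of two legs.
-/

set_option autoImplicit false
set_option linter.all false

noncomputable section

namespace Crest.Agent.T156.Cas.Swp99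

open MeasureTheory Real Set Filter Topology
open Crest.Agent.T157.E Crest.Agent.T157.Casc Crest.Agent.T157.SL
open Wt87 Nu87

variable {Θ ι : Type}

/-- the same coincidences and the same split matrix of the marks -/
structure Sim (K : ℕ) (s : Sh) (m : ι → s.Lf) (s' : Sh) (m' : ι → s'.Lf) : Prop where
  eq : ∀ a b, m a = m b ↔ m' a = m' b
  shr : ∀ a b, s.shr (m a) (m b) K = s'.shr (m' a) (m' b) K

/-- numbers attached to shapes with marks -/
abbrev Val (ι : Type) : Type := ∀ s : Sh, (ι → s.Lf) → ℝ

/-- the valuation reads only the matrix of the marks -/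
def Inv (K : ℕ) (V : Val ι) : Prop := ∀ s m s' m', Sim K s m s' m' → V s m = V s' m'

/-- one more mark -/
def ad {α : Type} (c : α) (m : ι → α) : Option ι → α := fun o => o.elim c m

@[simp] theorem ad_none {α : Type} (c : α) (m : ι → α) : ad c m none = c := rfl
@[simp] theorem ad_some {α : Type} (c : α) (m : ι → α) (i : ι) : ad c m (some i) = m i := rfl

/-- the marks after a graft, the new leaf marked -/
def gm (s : Sh) (a : s.Lf) (j : ℕ) (m : ι → s.Lf) : Option ι → (s.graft a j).Lf :=
  ad (s.nw a j) fun i => s.emb a j (m i)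

/-- one leg -/
def Leg (ε : ℝ) (L : List (Lv Θ)) (V : Val (Option ι)) : Val ι := fun s m =>
  ∑ c, V s (ad c m) + ε * Wn s L fun a j => V (s.graft a j) (gm s a j m)

section sim
variable {K : ℕ} {s s' : Sh} {m : ι → s.Lf} {m' : ι → s'.Lf}

theorem Sim.refl (K : ℕ) (s : Sh) (m : ι → s.Lf) : Sim K s m s m := ⟨fun _ _ => Iff.rfl, fun _ _ => rfl⟩

theorem Sim.symm (H : Sim K s m s' m') : Sim K s' m' s m :=
  ⟨fun a b => (H.eq a b).symm, fun a b => (H.shr a b).symm⟩

theorem Sim.trans {s'' : Sh} {m'' : ι → s''.Lf} (H : Sim K s m s' m') (H' : Sim K s' m' s'' m'') :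
    Sim K s m s'' m'' :=
  ⟨fun a b => (H.eq a b).trans (H'.eq a b), fun a b => (H.shr a b).trans (H'.shr a b)⟩

theorem Sim.comp {ι' : Type} (H : Sim K s m s' m') (φ : ι' → ι) :
    Sim K s (fun i => m (φ i)) s' fun i => m' (φ i) :=
  ⟨fun _ _ => H.eq _ _, fun _ _ => H.shr _ _⟩

theorem sim_emb (K : ℕ) (s : Sh) (a : s.Lf) (j : ℕ) (m : ι → s.Lf) :
    Sim K (s.graft a j) (fun i => s.emb a j (m i)) s m :=
  ⟨fun _ _ => (Tay38.emb_inj s a j).eq_iff, fun _ _ => shr_emb s a j _ _ K⟩

theorem Sim.ad (H : Sim K s m s' m') {c : s.Lf} {c' : s'.Lf} (e : ∀ i, m i = c ↔ m' i = c')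
    (h : ∀ i, s.shr (m i) c K = s'.shr (m' i) c' K) : Sim K s (ad c m) s' (ad c' m') := by
  refine ⟨fun a b => ?_, fun a b => ?_⟩ <;> cases a <;> cases b
  · simp
  · exact eq_comm.trans ((e _).trans eq_comm)
  · exact e _
  · exact H.eq _ _
  · exact (shr_self _ _ _).trans (shr_self _ _ _).symm
  · exact (shr_comm _ _ _ _).trans ((h _).trans (shr_comm _ _ _ _))
  · exact h _
  · exact H.shr _ _

/-- two grafts seen by the marks at the same levels -/
theorem Sim.gm (H : Sim K s m s' m') {a : s.Lf} {a' : s'.Lf} {j j' : ℕ}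
    (h : ∀ i, s.shr (m i) a (min j K) = s'.shr (m' i) a' (min j' K)) :
    Sim K (s.graft a j) (gm s a j m) (s'.graft a' j') (gm s' a' j' m') :=
  ((sim_emb K s a j m).trans (H.trans (sim_emb K s' a' j' m').symm)).ad
    (fun _ => iff_of_false (Tay38.emb_ne s a j _) (Tay38.emb_ne s' a' j' _))
    fun i => by rw [shr_nw, shr_nw, h]

/-- a leaf that is not marked is a graft -/
theorem sim_old (K : ℕ) (s : Sh) (m : ι → s.Lf) {c a : s.Lf} {j : ℕ} (hc : ∀ i, m i ≠ c)
    (h : ∀ i, s.shr (m i) c K = s.shr (m i) a (min j K)) :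
    Sim K s (ad c m) (s.graft a j) (gm s a j m) :=
  (sim_emb K s a j m).symm.ad (fun i => iff_of_false (hc i) (Tay38.emb_ne s a j _))
    fun i => by rw [shr_nw, h]

end sim

/-- sums over classes, read on the marks -/
theorem cls_sum {α : Type} [Fintype α] [Fintype ι] (r : α → α → Prop) [DecidableRel r]
    (rf : ∀ a, r a a) (sy : ∀ a b, r a b → r b a) (tr : ∀ a b c, r a b → r b c → r a c)
    (m : ι → α) (D : α → ℝ) (hD : ∀ a b, r a b → D a = D b) (h0 : ∀ a, (∀ i, ¬r a (m i)) → D a = 0) :
    ∑ a, D a / (Finset.univ.filter fun b => r a b).card =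
      ∑ i, D (m i) / (Finset.univ.filter fun k => r (m i) (m k)).card := by
  set c : α → ℝ := fun a => (Finset.univ.filter fun b => r a b).card
  set n : α → ℝ := fun a => (Finset.univ.filter fun k => r a (m k)).card
  have hc : ∀ a b, r a b → c a = c b ∧ n a = n b := fun a b h =>
    ⟨congrArg (fun T : Finset α => (T.card : ℝ)) (Finset.filter_congr fun x _ =>
      ⟨tr _ _ _ (sy _ _ h), tr _ _ _ h⟩), congrArg (fun T : Finset ι => (T.card : ℝ))
      (Finset.filter_congr fun x _ => ⟨tr _ _ _ (sy _ _ h), tr _ _ _ h⟩)⟩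
  have c0 : ∀ a, c a ≠ 0 := fun a =>
    Nat.cast_ne_zero.2 (Finset.card_ne_zero.2 ⟨a, Finset.mem_filter.2 ⟨Finset.mem_univ _, rf a⟩⟩)
  have e1 : ∀ a, D a / c a = ∑ i, if r a (m i) then D a / (c a * n a) else 0 := fun a => by
    rw [← Finset.sum_filter, Finset.sum_const, nsmul_eq_mul]
    by_cases h : n a = 0
    · rw [h0 a fun i hi => by
        have : (Finset.univ.filter fun k => r a (m k)).card ≠ 0 :=
          Finset.card_ne_zero.2 ⟨i, by simp [hi]⟩
        exact this (Nat.cast_eq_zero.1 h)]
      simp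
    · show _ = n a * _
      field_simp
  have e2 : ∀ i, D (m i) / n (m i) = ∑ a, if r a (m i) then D a / (c a * n a) else 0 := fun i => by
    rw [Finset.sum_congr rfl (g := fun a => if r (m i) a then D (m i) / (c (m i) * n (m i)) else 0)
      fun a _ => by
        by_cases h : r a (m i)
        · rw [if_pos h, if_pos (sy _ _ h), hD _ _ h, (hc _ _ h).1, (hc _ _ h).2]
        · rw [if_neg h, if_neg fun h' => h (sy _ _ h')],
      ← Finset.sum_filter, Finset.sum_const, nsmul_eq_mul]
    have := c0 (m i)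
    show _ = c (m i) * _
    by_cases h : n (m i) = 0
    · simp [h]
    · field_simp
  show ∑ a, D a / c a = ∑ i, D (m i) / n (m i)
  simp only [e1, e2]
  exact Finset.sum_comm

section leg
variable {L : List (Lv Θ)} {V : Val (Option ι)}

theorem nc_gm (H : Inv L.length V) (s : Sh) (m : ι → s.Lf) :
    NC s fun a j => V (s.graft a j) (gm s a j m) := fun a b j e =>
  H _ _ _ _ ((Sim.refl _ s m).gm fun i => by
    rw [min_comm, shr_min, shr_min, shr_congr s e])

/-- a signed leg in terms of the marks only -/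
theorem Leg_eq [Fintype ι] (H : Inv L.length V) (s : Sh) (m : ι → s.Lf) : Leg (-1) L V s m =
    ∑ i, (V s (ad (m i) m) - V (s.graft (m i) L.length) (gm s (m i) L.length m)) /
      (Finset.univ.filter fun k => m i = m k).card -
    ∑ j ∈ Finset.range L.length, ex L j * ∑ i, (V (s.graft (m i) j) (gm s (m i) j m) -
      V (s.graft (m i) (j + 1)) (gm s (m i) (j + 1) m)) /
        (Finset.univ.filter fun k => j + 1 ≤ s.shr (m i) (m k) L.length).card := by
  have nc := nc_gm H s m
  rw [Leg, Wn_eq_Ws L s nc, Ws, ← cls_sum (fun a b : s.Lf => a = b) (fun _ => rfl) (fun _ _ => Eq.symm)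
    (fun _ _ _ => Eq.trans) m (fun c => V s (ad c m) - V (s.graft c L.length) (gm s c L.length m))
    (fun a b e => by rw [e]) fun c hc => sub_eq_zero.2 (H _ _ _ _
      (sim_old _ s m (fun i e => hc i e.symm) fun i => by rw [min_self]))]
  have e1 : ∀ c : s.Lf, ((Finset.univ.filter fun b => c = b).card : ℝ) = 1 := fun c => by
    rw [Finset.filter_eq, if_pos (Finset.mem_univ _), Finset.card_singleton, Nat.cast_one]
  simp only [e1, div_one, Finset.sum_sub_distrib]
  rw [neg_one_mul, neg_add, ← add_assoc, ← sub_eq_add_neg, ← sub_eq_add_neg]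
  congr 1
  refine Finset.sum_congr rfl fun j hj => congrArg _ ?_
  have hj' := Finset.mem_range.1 hj
  have k : ∀ {a b : s.Lf} {i : ℕ}, i ≤ j + 1 → j + 1 ≤ s.shr a b L.length → s.shr a b i = i :=
    fun {a b i} hi h => by
      have := shr_min s a b i L.length
      rw [min_eq_left (by omega)] at this
      omega
  refine cls_sum (fun a b : s.Lf => j + 1 ≤ s.shr a b L.length) (fun a => by rw [shr_self]; omega)
    (fun a b h => by rwa [shr_comm]) (fun a b c h h' => by have := shr_ultra s a b c L.length; omega)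
    m (fun c => V (s.graft c j) (gm s c j m) - V (s.graft c (j + 1)) (gm s c (j + 1) m))
    (fun a b h => congrArg₂ (· - ·) (nc a b j (k (by omega) h)) (nc a b (j + 1) (k le_rfl h)))
    fun c hc => sub_eq_zero.2 (H _ _ _ _ ((Sim.refl _ s m).gm fun i => ?_))
  have := hc i
  rw [shr_comm] at this
  rw [shr_min, shr_min]
  omega

/-- **consistency**: a signed leg reads only the matrix of the marks -/
theorem Inv.leg [Fintype ι] (H : Inv L.length V) : Inv L.length (Leg (-1) L V) := by
  intro s m s' m' S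
  rw [Leg_eq H, Leg_eq H]
  have g : ∀ i j, V (s.graft (m i) j) (gm s (m i) j m) = V (s'.graft (m' i) j) (gm s' (m' i) j m') :=
    fun i j => H _ _ _ _ (S.gm fun k => by rw [shr_min, shr_min, S.shr])
  have o : ∀ i, V s (ad (m i) m) = V s' (ad (m' i) m') := fun i =>
    H _ _ _ _ (S.ad (fun k => S.eq k i) fun k => S.shr k i)
  simp only [g, o, S.shr, S.eq]

end leg

/-- the marks of a graft term: `none` is `q`, `some none` is `p` -/
def tmk {s : Sh} (τ : GT s) (m : ι → s.Lf) : Option (Option ι) → τ.sh.Lf :=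
  ad τ.q (ad τ.p fun i => τ.e (m i))

/-- **a graft sum is the product of two legs** -/
theorem sg_eq {L : List (Lv Θ)} {W : Val (Option (Option ι))} (H : Inv L.length W)
    (h0 : ∀ s m, m none = m (some none) → W s m = 0) {ε : ℝ} (hε : ε * ε = 1) (s : Sh)
    (m : ι → s.Lf) : sg ε L s (fun τ => W τ.sh (tmk τ m)) = Leg ε L (Leg ε L W) s m := by
  have e0 : ∀ a : s.Lf, ∑ b ∈ Finset.univ.erase a, W s (ad b (ad a m)) = ∑ b, W s (ad b (ad a m)) :=
    fun a => Finset.sum_erase _ (h0 _ _ rfl)
  have e1 : ∀ a j, j ≤ L.length → Leg ε L W (s.graft a j) (gm s a j m) =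
      ∑ b, W (GT.g1' s a j b).sh (tmk (.g1' s a j b) m) +
      ε * (∑ b, ∑ k ∈ Finset.range (L.length + 1), cw s L b k *
          W (GT.g2 s a j b k).sh (tmk (.g2 s a j b k) m) +
        ∑ i ∈ Finset.range (L.length - j + 1), dm (L.drop j) 0 i *
          W (GT.g3 s a j i).sh (tmk (.g3 s a j i) m)) := fun a j hj => by
    rw [Leg, sum_graft, h0 _ (ad (s.nw a j) (gm s a j m)) rfl, add_zero,
      Wn_graft' L s a hj (nc_gm H _ _), sum_cw_eq]
    congr 3
    · refine Wn_congr s L fun b k hk => H _ _ _ _ ⟨fun x y => ?_, fun x y => ?_⟩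
      · rcases x with _ | _ | x <;> rcases y with _ | _ | y <;>
          simp [gm, tmk, GT.g2, (Tay38.emb_inj _ _ _).eq_iff, Tay38.emb_ne, (Tay38.emb_ne _ _ _ _).symm]
      · rcases x with _ | _ | x <;> rcases y with _ | _ | y <;>
          simp only [gm, tmk, GT.g2, ad_none, ad_some, shr_emb, shr_nw, shr_nw', shr_self, shr_min,
            shr_comm s b a] <;> omega
    · refine Finset.sum_congr rfl fun i _ => congrArg _ (congrArg _ (funext fun x => ?_))
      rcases x with _ | _ | x <;> rfl
  have e2 : ∀ b, Leg ε L W s (ad b m) = ∑ c, W s (ad c (ad b m)) +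
      ε * Wn s L fun a j => W (GT.g1 s a j b).sh (tmk (.g1 s a j b) m) := fun b => by
    rw [Leg]
    congr 3
    funext a j
    congr 1
    funext x
    rcases x with _ | _ | x <;> rfl
  have e3 : ∀ X : s.Lf → ℕ → s.Lf → ℝ,
      ∑ b, Wn s L (fun a j => X a j b) = Wn s L fun a j => ∑ b, X a j b := fun X => by
    simp only [← sum_cw_eq, Finset.mul_sum]
    rw [Finset.sum_comm]
    exact Finset.sum_congr rfl fun a _ => Finset.sum_comm
  rw [Leg, Wn_congr s L e1, sg, sum_cw_eq, sum_cw_eq, Wn_add, Wn_add, Wn_add, Wn_const_mul, Wn_add]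
  simp only [e2, Finset.sum_add_distrib, ← Finset.mul_sum, e3, ← e0]
  rw [mul_add, mul_add, ← mul_assoc, hε, one_mul, ← add_assoc, ← add_assoc, ← add_assoc]
  exact add_assoc _ _ _

/-- the signed graft sum of a valuation -/
def SG (L : List (Lv Θ)) (W : Val (Option (Option ι))) : Val ι := fun s m =>
  sg (-1) L s fun τ => W τ.sh (tmk τ m)

/-- **consistency of graft sums** -/
theorem Inv.sg [Fintype ι] {L : List (Lv Θ)} {W : Val (Option (Option ι))} (H : Inv L.length W)
    (h0 : ∀ s m, m none = m (some none) → W s m = 0) : Inv L.length (SG L W) := fun s m s' m' S => by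
  rw [SG, SG, sg_eq H h0 (by norm_num), sg_eq H h0 (by norm_num)]
  exact H.leg.leg s m s' m' S

theorem SG_zero {L : List (Lv Θ)} {W : Val (Option (Option ι))} {i k : ι}
    (h0 : ∀ s m, m (some (some i)) = m (some (some k)) → W s m = 0) (s : Sh) (m : ι → s.Lf)
    (e : m i = m k) : SG L W s m = 0 :=
  (congrArg _ (funext fun τ => h0 _ _ (congrArg τ.e e))).trans (sg_zero _ _ _)

theorem SG_sum (L : List (Lv Θ)) {α : Type} (A : Finset α) (c : α → ℝ)
    (W : α → Val (Option (Option ι))) (s : Sh) (m : ι → s.Lf) :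
    ∑ j ∈ A, c j * SG L (W j) s m = SG L (fun s m => ∑ j ∈ A, c j * W j s m) s m := by
  simp only [SG, sg_sum, sg_const_mul]

theorem Inv.mul {K : ℕ} {V W : Val ι} (H : Inv K V) (H' : Inv K W) :
    Inv K fun s m => V s m * W s m := fun s m s' m' S => by
  show V s m * W s m = V s' m' * W s' m'
  rw [H s m s' m' S, H' s m s' m' S]

theorem inv_lev (K : ℕ) (i k : ι) (φ : ℕ → ℝ) : Inv K fun s (m : ι → s.Lf) => φ (s.shr (m i) (m k) K) :=
  fun _ _ _ _ S => congrArg φ (S.shr i k)

section te
variable {Ω : Type} [Fintype Ω] {w : Ω → ℝ} {L : List (Lv Ω)} {h : Ω → ℝ}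
open R90

theorem TE_sim [Fintype ι] (hw : Wt w) {s s' : Sh} {m : ι → s.Lf} {m' : ι → s'.Lf}
    (S : Sim L.length s m s' m') (F : (ι → Ω) → ℝ) :
    TE w s L h (fun x => F fun i => x (m i)) = TE w s' L h fun x => F fun i => x (m' i) :=
  (TK_sm hw s Function.injective_id fun x => F fun i => x (m i)).symm.trans
    ((TK_map hw (Ker15.um_sm s id _) (Ker15.um_sm s' id _) S.eq (fun a b _ => S.shr a b) F).trans
      (TK_sm hw s' Function.injective_id fun x => F fun i => x (m' i)))

/-- expectations of functions of the marks (and of their levels) -/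
theorem inv_TE [Fintype ι] (hw : Wt w) (F : (ι → ι → ℕ) → (ι → Ω) → ℝ) : Inv L.length
    fun s m => TE w s L h fun x => F (fun i k => s.shr (m i) (m k) L.length) fun i => x (m i) :=
  fun s m s' m' S => by
    show TE w s L h _ = TE w s' L h _
    rw [show (fun i k => s.shr (m i) (m k) L.length) = _ from funext fun i => funext fun k => S.shr i k]
    exact TE_sim hw S _

/-- the same with a fresh leaf grafted on the path of the mark `i₀` -/
theorem inv_gr [Fintype ι] (hw : Wt w) (i₀ : ι) (j : ℕ) (F : (ι → ι → ℕ) → (Option ι → Ω) → ℝ) :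
    Inv L.length fun s m => TE w (s.graft (m i₀) j) L h fun x =>
      F (fun i k => s.shr (m i) (m k) L.length) fun o => x (gm s (m i₀) j m o) :=
  fun s m s' m' S => by
    show TE w _ L h _ = TE w _ L h _
    rw [show (fun i k => s.shr (m i) (m k) L.length) = _ from funext fun i => funext fun k => S.shr i k]
    exact TE_sim hw (S.gm fun i => by rw [shr_min, shr_min, S.shr]) _

/-- moving one end of an edge to another leaf above the depth `t` -/
theorem TE_move (hw : Wt w) (s : Sh) {a c b : s.Lf} {y t : ℕ} (hac : a ≠ c) (hab : a ≠ b)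
    (hcb : c ≠ b) (h1 : s.shr a b L.length = y) (h2 : s.shr a c L.length = t)
    (h3 : s.shr c b L.length = y) (hy : y ≤ t) (U : Ω → Ω → ℝ) :
    TE w s L h (fun x => (U (x a) (x b) - U (x c) (x b)) ^ 2) = 2 * vU w L h U y t := by
  have ht : t ≤ L.length := h2 ▸ shr_le _ _ _ _
  obtain ⟨m, rfl⟩ : ∃ m, t = y + m := ⟨t - y, by omega⟩
  have s1 := (shr_t3 m y L.length).1
  have s2 := (shr_t3 m y L.length).2
  rw [min_eq_left (by omega)] at s1 s2
  have k := TE_sim (L := L) (h := h) hw (s := s) (s' := t3 y m)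
    (m := fun o : Option Bool => o.elim b fun s => cond s a c) (m' := t3e y m)
    ⟨fun u v => by
      rw [(t3e_inj y m).eq_iff]
      rcases u with _ | _ | _ <;> rcases v with _ | _ | _ <;>
        simp [hac, hab, hcb, hac.symm, hab.symm, hcb.symm],
    fun u v => by
      have c1 := fun s => shr_comm (t3 y m) (t3e y m (some s)) (t3e y m none) L.length
      have c2 := shr_comm (t3 y m) (t3e y m (some false)) (t3e y m (some true)) L.length
      rcases u with _ | _ | _ <;> rcases v with _ | _ | _ <;>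
        simp only [Option.elim, cond, s1, s2, c1, c2, shr_comm s b a, shr_comm s b c, shr_comm s c a,
          h1, h2, h3, shr_self]⟩
    fun x => (U (x (some true)) (x none) - U (x (some false)) (x none)) ^ 2
  refine k.trans ((TE_t3 hw m (fun z u v => (U u z - U v z) ^ 2) y L h).trans ?_)
  have nc : ∀ (Φ : (Ω → ℝ) → ℝ) (L : List (Lv Ω)) (j : ℕ) (z : Ω → ℝ),
      2 * node w L j Φ z = node w L j (fun u => 2 * Φ u) z := fun Φ L j z => by
    simp only [node_const_mul]
  rw [vU, nc]
  refine congrArg (fun Φ => node w L y Φ h) (funext fun z => ?_)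
  rw [Pf, Finset.mul_sum]
  refine Finset.sum_congr rfl fun x _ => ?_
  rw [mul_left_comm, Eg33.Cf, nc, pi2, Nat.add_sub_cancel_left, List.drop_drop]
  simp only [qf_sq hw _ _ fun x' => U x' x]

theorem rep_aux [Fintype ι] [DecidableEq ι] (hw : Wt w) {j : ℕ} (hj : j ≤ L.length)
    (k R : Ω → Ω → ℝ) {pt : ι → ι} (hp : ∀ i, pt i ≠ i) {lv : ι → ℕ} (hl : ∀ i, lv i ≤ j)
    {G : (ι → Ω) → ℝ} {c l : ℝ} (l0 : 0 < l)
    (hG : ∀ y i z, |G y - G (Function.update y i z)| ≤ c * |R (y i) (y (pt i)) - R z (y (pt i))|)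
    (T : Finset ι) : ∀ (t : Sh) (a b b' : t.Lf) (mk : ι → t.Lf), a ≠ b → a ≠ b' → b ≠ b' →
      t.shr b a L.length = j → t.shr b' a L.length = j → t.shr b b' L.length = j →
      (∀ i, mk i ≠ mk (pt i)) → (∀ i, t.shr (mk i) (mk (pt i)) L.length = lv i) →
      (∀ i ∉ T, mk i ≠ b ∧ mk i ≠ b' ∧ t.shr (mk i) b L.length = t.shr (mk i) b' L.length) →
      |TE w t L h fun x => (k (x b) (x a) - k (x b') (x a)) * G fun i => x (mk i)| ≤
        ∑ i ∈ T, (l * vU w L h k j j + c ^ 2 / l * vU w L h R (lv i) j) := by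
  induction T using Finset.induction_on with
  | empty =>
    intro t a b b' mk h1 h2 h3 e1 e2 e3 _ _ g
    have := TE_sim (L := L) (h := h) hw ((Sim.refl _ t (ad a mk)).ad (c := b) (c' := b')
      (fun o => by
        cases o with
        | none => exact iff_of_false h1 h2
        | some i => exact iff_of_false (g i (by simp)).1 (g i (by simp)).2.1)
      fun o => by
        cases o with
        | none => exact (shr_comm _ _ _ _).trans (e1.trans (e2.symm.trans (shr_comm _ _ _ _)))
        | some i => exact (g i (by simp)).2.2)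
      fun y => k (y none) (y (some none)) * G fun i => y (some (some i))
    simp only [sub_mul, Law.TE_sub hw, Finset.sum_empty]
    exact (abs_eq_zero.2 (sub_eq_zero.2 this)).le
  | insert i T hi ih =>
    intro t a b b' mk h1 h2 h3 e1 e2 e3 ne lv' g
    obtain ⟨p, hpp⟩ : ∃ p, p = mk i := ⟨_, rfl⟩
    have inj := Tay38.emb_inj t p j
    have nn := Tay38.emb_ne t p j
    let mk' : ι → (t.graft p j).Lf := Function.update (fun i => t.emb p j (mk i)) i (t.nw p j)
    have m1 : mk' i = t.nw p j := Function.update_self _ _ _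
    have m2 : ∀ i', i' ≠ i → mk' i' = t.emb p j (mk i') := fun i' e => Function.update_of_ne e _ _
    have mj : min j L.length = j := min_eq_left hj
    have sm : ∀ u v : t.Lf, t.shr u v j = min j (t.shr u v L.length) := fun u v => by
      rw [← shr_min, mj]
    have A := ih (t.graft p j) (t.emb p j a) (t.emb p j b) (t.emb p j b') mk' (inj.ne h1) (inj.ne h2)
      (inj.ne h3) (by rwa [shr_emb]) (by rwa [shr_emb]) (by rwa [shr_emb])
      (fun i' => by
        by_cases e : i' = i
        · rw [e, m1, m2 _ (hp i)]; exact (nn _).symm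
        · rw [m2 _ e]
          by_cases e' : pt i' = i
          · rw [e', m1]; exact nn _
          · rw [m2 _ e']; exact inj.ne (ne i'))
      (fun i' => by
        have := lv' i'
        have := hl i'
        by_cases e : i' = i
        · subst e
          rw [m1, m2 _ (hp i'), shr_nw', mj, sm, shr_comm, hpp, lv', min_eq_right this]
        · rw [m2 _ e]
          by_cases e' : pt i' = i
          · rw [e', m1, shr_nw, mj, sm, hpp, ← e', lv', min_eq_right this]
          · rwa [m2 _ e', shr_emb])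
      (fun i' hi' => by
        by_cases e : i' = i
        · rw [e, m1, shr_nw', shr_nw', mj, sm, sm]
          have := shr_ultra t b b' p L.length
          have := shr_ultra t b' b p L.length
          have := shr_comm t b b' L.length
          exact ⟨(nn _).symm, (nn _).symm, by omega⟩
        · have := g i' (by simp [e, hi'])
          rw [m2 _ e, shr_emb, shr_emb]
          exact ⟨inj.ne this.1, inj.ne this.2.1, this.2.2⟩)
    have B1 := TE_move (L := L) (h := h) hw (t.graft p j) (inj.ne h3) (inj.ne h1.symm)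
      (inj.ne h2.symm) (by rw [shr_emb, e1]) (by rw [shr_emb, e3]) (by rw [shr_emb, e2]) le_rfl k
    have B2 := TE_move (L := L) (h := h) hw (t.graft p j) (nn p) (inj.ne (hpp ▸ ne i))
      (nn (mk (pt i))).symm (y := lv i) (t := j) (by rw [shr_emb, hpp, lv'])
      (by rw [shr_nw, mj, shr_self])
      (by rw [shr_nw', mj, sm, shr_comm, hpp, lv', min_eq_right (hl i)]) (hl i) R
    rw [Finset.sum_insert hi, ← TE_emb hw t p j]
    have B := abs_TE_le' hw (t.graft p j) L h
      (F := fun x => (k (x (t.emb p j b)) (x (t.emb p j a)) - k (x (t.emb p j b')) (x (t.emb p j a))) *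
        ((G fun i => x (t.emb p j (mk i))) - G fun i => x (mk' i)))
      (F' := fun x => l / 2 * (k (x (t.emb p j b)) (x (t.emb p j a)) -
        k (x (t.emb p j b')) (x (t.emb p j a))) ^ 2 + c ^ 2 / l / 2 *
        (R (x (t.emb p j p)) (x (t.emb p j (mk (pt i)))) - R (x (t.nw p j)) (x (t.emb p j (mk (pt i))))) ^ 2)
      fun x => by
        have := hG (fun i => x (t.emb p j (mk i))) i (x (t.nw p j))
        rw [show Function.update (fun i => x (t.emb p j (mk i))) i (x (t.nw p j)) = fun i => x (mk' i)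
          from (Function.comp_update x _ _ _).symm, ← hpp] at this
        rw [abs_mul]
        refine (mul_le_mul_of_nonneg_left this (abs_nonneg _)).trans ?_
        generalize k (x (t.emb p j b)) (x (t.emb p j a)) - k (x (t.emb p j b')) (x (t.emb p j a)) = u
        generalize R (x (t.emb p j p)) (x (t.emb p j (mk (pt i)))) -
          R (x (t.nw p j)) (x (t.emb p j (mk (pt i)))) = v
        rw [← sq_abs u, ← sq_abs v, ← sub_nonneg]
        have : l / 2 * |u| ^ 2 + c ^ 2 / l / 2 * |v| ^ 2 - |u| * (c * |v|) =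
          (l * |u| - c * |v|) ^ 2 / (2 * l) := by field_simp; ring
        rw [this]
        positivity
    rw [Law.TE_add hw, Law.TE_const_mul hw, Law.TE_const_mul hw, B1, B2] at B
    simp only [mul_sub, Law.TE_sub hw] at A B ⊢
    simp only [sub_mul, Law.TE_sub hw] at A B ⊢
    rw [abs_le] at A B ⊢
    constructor <;> linarith [A.1, A.2, B.1, B.2]

/-- **REP**: the partner `b` of the marked pair is replaced by a fresh leaf at the same node -/
theorem rep [Fintype ι] [DecidableEq ι] (hw : Wt w) {j : ℕ} (k R : Ω → Ω → ℝ) {pt : ι → ι}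
    (hp : ∀ i, pt i ≠ i) {G : (ι → Ω) → ℝ} {c l : ℝ} (l0 : 0 < l)
    (hG : ∀ y i z, |G y - G (Function.update y i z)| ≤ c * |R (y i) (y (pt i)) - R z (y (pt i))|)
    (s : Sh) {a b : s.Lf} (hab : a ≠ b) (e : s.shr a b L.length = j) {mk : ι → s.Lf}
    (ne : ∀ i, mk i ≠ mk (pt i)) (hl : ∀ i, s.shr (mk i) (mk (pt i)) L.length ≤ j) :
    |TE w s L h (fun x => k (x b) (x a) * G fun i => x (mk i)) -
      TE w (s.graft a j) L h fun x => k (x (s.nw a j)) (x (s.emb a j a)) *
        G fun i => x (s.emb a j (mk i))| ≤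
      ∑ i, (l * vU w L h k j j + c ^ 2 / l * vU w L h R (s.shr (mk i) (mk (pt i)) L.length) j) := by
  have hj : j ≤ L.length := e ▸ shr_le _ _ _ _
  have mj : min j L.length = j := min_eq_left hj
  have inj := Tay38.emb_inj s a j
  have nn := Tay38.emb_ne s a j
  have := rep_aux (h := h) hw hj k R hp hl l0 hG Finset.univ (s.graft a j) (s.emb a j a) (s.emb a j b)
    (s.nw a j) (fun i => s.emb a j (mk i)) (inj.ne hab) (nn a) (nn b)
    (by rw [shr_emb, shr_comm, e]) (by rw [shr_nw', mj, shr_self])
    (by rw [shr_nw, shr_min, shr_comm, e, min_self]) (fun i => inj.ne (ne i))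
    (fun i => shr_emb _ _ _ _ _ _) fun i hi => absurd (Finset.mem_univ i) hi
  simp only [sub_mul, Law.TE_sub hw] at this
  rwa [← TE_emb hw s a j]

end te

end Crest.Agent.T156.Cas.Swp99

end
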