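import Crest.Agent.T156.HbD_68
import Crest.Agent.T156.R2H0_6
import Crest.Agent.T156.Swp_99

/-!
# Row 156: two derivatives in the field are one root letter (helper4)
-/

set_option autoImplicit false
set_option linter.all false

noncomputable section

namespace Crest.Agent.T156.Cas.Hb68.Y4

open Real Finset
open Crest.Agent.T157.E Crest.Agent.T157.Casc Crest.Agent.T157.SL
open Crest.ProbabilityR.SpinGlassDynamics (spin)
open Tay38 Wt87 H06 Swp99
open Ker15 (z0 z0_cov)

variable {Ω : Type}

/-- all replicas share the first level -/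
def lift (Λ : Fn Ω) : Fn Ω := fun s F => Λ (.step s) F

section root
variable {l : Lv Ω} (hl : l.m = 0) (T : List (Lv Ω))
include hl

theorem cw_zero (s : Sh) (a : s.Lf) : cw (.step s) (l :: T) a 0 = 0 := by
  have : T157.Casc.ex (l :: T) 0 = 0 := hl
  simp [cw, cf, this]

theorem cw_succ (s : Sh) (a : s.Lf) (j : ℕ) : cw (.step s) (l :: T) a (j + 1) = cw s T a j := by
  rw [cw, if_neg (fun h => Nat.succ_ne_zero _ h.2), add_zero, cw, cf, hl, sub_zero]
  rfl

theorem sum_root (s : Sh) (a : s.Lf) (G : ℕ → ℝ) :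
    ∑ j ∈ range ((l :: T).length + 1), cw (.step s) (l :: T) a j * G j =
      ∑ j ∈ range (T.length + 1), cw s T a j * G (j + 1) := by
  rw [List.length_cons, sum_range_succ', cw_zero hl, zero_mul, add_zero]
  simp only [cw_succ hl]

/-- a root of tilt zero carries no graft -/
theorem lift_Dop (S : ℕ → Ω → Ω → ℝ) (Λ : Fn Ω) :
    lift (Dop (l :: T) S Λ) = Dop T (fun j => S (j + 1)) (lift Λ) := by
  funext s F
  simp only [lift, Dop]
  congr 1
  congr 1
  · refine sum_congr rfl fun a _ => ?_
    exact sum_root hl T s a _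
  · refine sum_congr rfl fun a _ => (sum_root hl T s a _).trans (sum_congr rfl fun j _ => ?_)
    congr 2
    · refine sum_congr rfl fun b _ => (sum_root hl T s b _).trans (sum_congr rfl fun k _ => ?_)
      rw [Nat.succ_min_succ]
      rfl
    · rw [List.length_cons, Nat.add_sub_add_right]
      rfl

theorem lift_WdO (Λ : Fn Ω) : ∀ U : List (ℕ → Ω → Ω → ℝ),
    lift (WdO (l :: T) U Λ) = WdO T (U.map fun S j => S (j + 1)) (lift Λ)
  | [] => rfl
  | S :: U => by rw [WdO_cons, lift_Dop hl, lift_WdO Λ U, List.map_cons, WdO_cons]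

end root

theorem fl_smul {Φ : Fn Ω → ℝ} (h : FL Φ) (c : ℝ) (Λ : Fn Ω) :
    Φ (fun s F => c * Λ s F) = c * Φ Λ :=
  h (fun f a => a = c * f 0) ⟨by simp, fun e e' => by rw [e, e', mul_add],
    fun d _ _ e => by rw [e, mul_left_comm]⟩ (fun _ => Λ) _ fun _ _ => rfl

variable [Fintype Ω] {w : Ω → ℝ}

theorem lift_TEf (hw : Wt w) (m : ℝ) (T : List (Lv Ω)) (h : Ω → ℝ) :
    lift (TEf w (z0 Ω m :: T) h) = TEf w T h := by
  funext s F
  refine (Law.TE_step hw s _ T h F).trans ?_
  rw [tE_congr _ _ h (Φ' := fun _ => TE w s T h F) fun g => by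
    rw [show (z0 Ω m).fld g = 0 from funext fun x => Finset.sum_eq_zero fun i _ => Empty.elim i,
      add_zero],
    tE_const (lg_X hw T)]
  rfl

/-- two legs are one constant letter -/
theorem lop_lop (hw : Wt w) (M : List (Lv Ω)) (h : Ω → ℝ) {f : Ω → ℝ} (hf : ∀ y, f y * f y = 1) :
    Lop M f (Lop M f (TEf w M h)) = Dop M (fun _ x y => f x * f y) (TEf w M h) := by
  funext s F
  set V : Val (Option (Option s.Lf)) := fun s' m => TE w s' M h fun x =>
    F (fun i => x (m (some (some i)))) * (f (x (m (some none))) * f (x (m none))) with hV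
  have hI : Inv M.length V := inv_TE hw fun _ y =>
    F (fun i => y (some (some i))) * (f (y (some none)) * f (y none))
  set W : Val (Option (Option s.Lf)) := fun s' m => if m none = m (some none) then 0 else V s' m
    with hW
  have hI' : Inv M.length W := fun s1 m1 s2 m2 S => by
    simp only [hW, S.eq none (some none), hI s1 m1 s2 m2 S]
  have e1 := sg_eq hI' (fun _ _ e => if_pos e) (ε := -1) (by norm_num) s id
  have e2 : Dop M (fun _ x y => f x * f y) (TEf w M h) s F = sg (-1) M s fun τ => W τ.sh (tmk τ id) := by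
    rw [Dop_eq_sg]
    exact sg_congr _ _ _ fun τ hτ => (if_neg hτ.ne.symm).symm
  have e3 : ∀ s' (m : Option s.Lf → s'.Lf), Leg (-1) M W s' m =
      Lop M f (TEf w M h) s' (fun x => F (fun i => x (m (some i))) * f (x (m none))) -
        TE w s' M h fun x => F fun i => x (m (some i)) := fun s' m => by
    have a1 : ∀ c : s'.Lf, W s' (Swp99.ad c m) = V s' (Swp99.ad c m) -
        if c = m none then TE w s' M h (fun x => F fun i => x (m (some i))) else 0 := fun c => by
      by_cases hc : c = m none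
      · subst hc
        simp only [hW, hV, ad_none, ad_some, if_true, hf, mul_one, sub_self]
      · simp only [hW, ad_none, ad_some, if_neg hc, sub_zero]
    have a2 : ∀ a j, W (s'.graft a j) (gm s' a j m) = V (s'.graft a j) (gm s' a j m) :=
      fun a j => if_neg (emb_ne _ _ _ _).symm
    simp only [Leg, a1, a2]
    simp only [sum_sub_distrib, sum_ite_eq', mem_univ, if_true, Lop, sum_cw_eq, TEf,
      hV, gm, ad_none, ad_some, mul_assoc]
    ring
  rw [e2, e1, Leg]
  simp only [e3, gm, ad_none, ad_some, id, TE_graft hw, ← sum_cw_eq, mul_sub, sum_sub_distrib,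
    ← sum_mul, sum_cw, sum_const, card_univ, nsmul_eq_mul]
  rw [Lop]
  ring

theorem DK_two (hw : Wt w) (M : List (Lv Ω)) (h : Ω → ℝ) {f : Ω → ℝ} (hf : ∀ y, f y * f y = 1)
    (k : ℕ) : DK w M f (k + 2) h = Dop M (fun _ x y => f x * f y) (DK w M f k h) := by
  funext s F
  have h1 := congrFun (iter_DK hw (fl_lop (fl_lop (FL.ev s F) M f) M f) M f h 0 k) 0
  have h2 := congrFun (iter_DK hw ((FL.ev s F).dop M fun _ x y => f x * f y) M f h 0 k) 0
  simp only [DK_zero, lop_lop hw M _ hf, zero_add, zero_smul, add_zero] at h1 h2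
  rw [← h2, h1, DK, DK, Function.iterate_succ_apply', Function.iterate_succ_apply']

/-- the root letter -/
abbrev rt : ℕ → Bool → Bool → ℝ := fun _ a b => 1 / 2 * (spin a * spin b)

theorem Dop_rt {Λ : Fn Bool} (H : IsLin Λ) (T : List (Lv Bool)) :
    Dop T (fun _ a b => spin a * spin b) Λ = fun s F => 2 * Dop T rt Λ s F := by
  funext s F
  have := H.dopS T (1 / 2) 0 (fun _ a b => spin a * spin b) (fun _ _ _ => 0) s F
  simp only [zero_mul, add_zero] at this
  rw [this]
  ring

theorem spin_mul (b : Bool) : spin b * spin b = 1 := by rw [← sq, One15.spin_sq]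

theorem DY_two (T : List (Lv Bool)) (y : ℝ) :
    DY T 2 y = fun s F => 2 * Dop T rt (TEf (fun _ => 1) T fun b => y * spin b) s F :=
  (DK_two wt_one90 T _ spin_mul 0).trans (Dop_rt (isLin_TEf wt_one90 _ _) T)

theorem DY_four (T : List (Lv Bool)) (y : ℝ) : DY T 4 y =
    fun s F => 4 * Dop T rt (Dop T rt (TEf (fun _ => 1) T fun b => y * spin b)) s F := by
  refine (DK_two wt_one90 T _ spin_mul 2).trans ?_
  funext s F
  rw [show DK _ T spin 2 _ = _ from DY_two T y, fl_smul ((FL.ev s F).dop T _),
    Dop_rt ((isLin_TEf wt_one90 _ _).dop T rt)]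
  ring

/-- words over the empty root -/
theorem W_root (T : List (Lv Bool)) (k : ℕ) (U : List (ℕ → ℝ)) :
    R1J.W (z0 Bool 0 :: T) (k + 1) U = R1J.W T k (U.map fun f j => f (j + 1)) := by
  refine Eq.trans (b := twoF k (fun a b => spin a * spin b) (lift (WdO _ _ _))) rfl ?_
  rw [lift_WdO rfl, lift_TEf wt_one90, R1J.W, List.map_map, List.map_map]
  rfl

theorem sk_one : R1J.sk (fun j => st 1 (j + 1)) = rt := by
  funext j a b
  simp [R1J.sk, st]

end Crest.Agent.T156.Cas.Hb68.Y4

namespace Crest.Agent.T156.Cas.Hb68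

open Crest.ProbabilityR.SpinGlassDynamics (spin)
open Y4 H06

theorem yg_4 : YG := fun T k V _ _ => by
  have hΦ := FL.wdO T (V.map R1J.sk) (fl_twoF k fun a b => spin a * spin b)
  have e0 : (fun b => 0 * spin b) = (0 : Bool → ℝ) := funext fun b => zero_mul _
  have e1 : V.map ((fun (f : ℕ → ℝ) j => f (j + 1)) ∘ fun f j => f (j - 1)) = V := List.map_id' V
  constructor
  · refine (iter_DY hΦ T 2 0).trans ?_
    rw [DY_two, fl_smul hΦ, W_root, List.map_append, List.map_map, e1, R1J.W, List.map_append,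
      WdO_append, e0]
    simp only [List.map_cons, List.map_nil, sk_one]
    rfl
  · refine (iter_DY hΦ T 4 0).trans ?_
    rw [DY_four, fl_smul hΦ, W_root, List.map_append, List.map_map, e1, R1J.W, List.map_append,
      WdO_append, e0]
    simp only [List.map_cons, List.map_nil, sk_one]
    rfl

end Crest.Agent.T156.Cas.Hb68

end
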