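import Crest.Agent.T156.HomB_68
import Crest.Agent.T156.HbP_87
import Crest.Agent.T156.HbL_97
import Crest.Agent.T156.HbA_91
import Crest.Agent.T156.HbG5_95

/-!
# Row 156 (helper68): the Euler identities of the site words and `H5`, unconditional
-/

set_option autoImplicit false
set_option linter.all false

namespace Crest.Agent.T156.Cas.Hb68

theorem w1 : W1 := w1_of pe ps

theorem w2 : W2 := w2_of (pl pe ps)

theorem h5 : C40.E42.H5 := g5 w2 ab

end Crest.Agent.T156.Cas.Hb68
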