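import Crest.Agent.T156.Mon_48
import Crest.Agent.T156.PArea_50
import Crest.Agent.T156.POde_3

/-!
Row 156 (helper65): the finite form of the Hessian bound of the one-site functional in the
variance frame (labels fixed, node times move).  List frame; zero slices are allowed.
-/

set_option autoImplicit false

namespace Crest.Agent.T156.Hess65

open MeasureTheory Set
open Crest.Agent.R164.GC Crest.Agent.R339.B Crest.Agent.R339.Var Crest.Agent.T157.Pf
open Crest.Agent.T156.Pp Crest.Agent.T156.Pp.Ode3 Crest.Agent.T156.Pp.Area50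
open Crest.Agent.T156.Sc48 (Eqv eqv_zero adm_len Jf tangent_gen)

noncomputable section

/-- zero slices can be removed -/
theorem exists_ap : ∀ {l : List (ℝ × ℝ)}, Adm 1 l →
    ∃ l', AP l' ∧ Eqv l l' ∧ headLv 1 l ≤ headLv 1 l'
  | [], _ => ⟨[], ⟨trivial, by simp⟩, Eqv.refl _, le_rfl⟩
  | (m, d) :: l, h => by
    obtain ⟨l', h1, h2, h3⟩ := exists_ap h.2.2.2
    rcases (show 0 ≤ d from h.2.2.1).eq_or_lt with rfl | hd
    · exact ⟨l', h1, (eqv_zero h.1.ne' (adm_len h.2.2.2)).trans h2, h.2.1.trans h3⟩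
    · refine ⟨(m, d) :: l', ⟨⟨h.1, h.2.1.trans h3, hd.le, h1.adm⟩, fun p hp => ?_⟩, h2.cons _,
        le_rfl⟩
      rcases List.mem_cons.1 hp with rfl | hp
      · exact hd
      · exact h1.pos p hp

theorem Et_eqv {G : (ℝ → ℝ) → ℝ → ℝ} (hG : BFn G) {l l' : List (ℝ × ℝ)} (h : Eqv l l') {t : ℝ}
    (ht : 0 ≤ t) : Et G l t = Et G l' t := by
  obtain ⟨K, hK⟩ := Et_bc hG l' t
  unfold Et
  rw [h.phiT t ht, h.ex t ht _ K hK]

theorem Gam_QQ (l : List (ℝ × ℝ)) (t : ℝ) : Gam l t = QQ 1 l t 0 := by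
  simp only [Gam, Et, QQ]
  congr 1

variable {l : List (ℝ × ℝ)}

theorem Gam_contA (h : Adm 1 l) : ContinuousOn (Gam l) (Icc 0 (TT l)) := by
  obtain ⟨l', h1, h2, -⟩ := exists_ap h
  rw [h2.tt]
  exact (Gam_cont h1).congr fun t ht => Et_eqv bfn_W0 h2 ht.1

theorem Gp_contA (h : Adm 1 l) : ContinuousOn (Gp l) (Icc 0 (TT l)) := by
  obtain ⟨l', h1, h2, -⟩ := exists_ap h
  rw [h2.tt]
  exact (Gp_cont h1).congr fun t ht => Et_eqv bfn_W1 h2 ht.1

theorem Gp_lipA (h : Adm 1 l) {s t : ℝ} (hs : s ∈ Icc 0 (TT l)) (ht : t ∈ Icc 0 (TT l)) :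
    |Gp l t - Gp l s| ≤ 4 * |t - s| := by
  obtain ⟨l', h1, h2, -⟩ := exists_ap h
  rw [h2.tt] at hs ht
  rw [Gp, Et_eqv bfn_W1 h2 hs.1, Et_eqv bfn_W1 h2 ht.1]
  exact Gp_lip h1 hs ht

/-- first-order Taylor formula for `Γ` -/
theorem Gam_tay (h : Adm 1 l) {u r : ℝ} (hu : u ∈ Icc 0 (TT l)) (hr : r ∈ Icc 0 (TT l)) :
    |Gam l r - Gam l u - Gp l u * (r - u)| ≤ 4 * (r - u) ^ 2 := by
  obtain ⟨l', h1, h2, -⟩ := exists_ap h
  rw [h2.tt] at hu hr
  rw [Gp, Gam, Et_eqv bfn_W1 h2 hu.1, Et_eqv bfn_W0 h2 hu.1, Et_eqv bfn_W0 h2 hr.1]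
  have := abs_sub_le_of_rder (C := 4 * |r - u|) (f := fun t => Gam l' t - Gp l' u * t)
    (f' := fun t => Gp l' t - Gp l' u)
    ((Gam_cont h1).sub (continuousOn_const.mul continuousOn_id))
    (fun t ht => ((Gam_rder h1 ht.1 ht.2).fun_sub
      (((hasDerivAt_id t).const_mul (Gp l' u)).hasDerivWithinAt)).congr_deriv (by simp)) hu hr
    fun t ht => by
      have ht' : t ∈ Icc 0 (TT l') :=
        ⟨(le_min hu.1 hr.1).trans ht.1, ht.2.le.trans (max_le hu.2 hr.2)⟩
      refine (Gp_lip h1 hu ht').trans (mul_le_mul_of_nonneg_left ?_ (by norm_num))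
      rcases le_total u r with a | a
      · rw [min_eq_left a, max_eq_right a] at ht
        rw [abs_of_nonneg (sub_nonneg.2 ht.1), abs_of_nonneg (sub_nonneg.2 a)]
        linarith [ht.2]
      · rw [min_eq_right a, max_eq_left a] at ht
        rw [abs_of_nonpos (sub_nonpos.2 ht.2.le), abs_of_nonpos (sub_nonpos.2 a)]
        linarith [ht.1]
  rw [mul_assoc, ← sq, sq_abs] at this
  refine Eq.trans_le ?_ this
  congr 1
  simp only [Gam, Gp]
  ring

theorem int_Gam (h : Adm 1 l) {u u' : ℝ} (hu : u ∈ Icc 0 (TT l)) (hu' : u' ∈ Icc 0 (TT l)) :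
    -(u' - u) * Gam l u - Gp l u * (u' - u) ^ 2 / 2 - 4 * |u' - u| ^ 3 ≤ ∫ r in u'..u, Gam l r := by
  have i1 := ii_of_cont (Gam_contA h) hu' hu
  have i2 : IntervalIntegrable (fun r => Gam l u + Gp l u * (r - u)) volume u' u :=
    (by fun_prop : Continuous fun r => Gam l u + Gp l u * (r - u)).intervalIntegrable _ _
  have e : ∫ r in u'..u, (Gam l u + Gp l u * (r - u)) =
      -(u' - u) * Gam l u - Gp l u * (u' - u) ^ 2 / 2 := by
    rw [intervalIntegral.integral_add intervalIntegrable_const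
      ((by fun_prop : Continuous fun r => Gp l u * (r - u)).intervalIntegrable _ _),
      intervalIntegral.integral_const_mul, intervalIntegral.integral_sub
      (continuous_id'.intervalIntegrable _ _) intervalIntegrable_const, integral_id]
    simp only [intervalIntegral.integral_const, smul_eq_mul]
    ring
  have b := intervalIntegral.norm_integral_le_of_norm_le_const (a := u') (b := u)
    (C := 4 * (u' - u) ^ 2) (f := fun r => Gam l r - (Gam l u + Gp l u * (r - u))) fun r hr => by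
      have hr' : r ∈ Icc 0 (TT l) := uIcc_subset_Icc hu' hu (uIoc_subset_uIcc hr)
      rw [Real.norm_eq_abs, ← sub_sub]
      refine (Gam_tay h hu hr').trans (mul_le_mul_of_nonneg_left ?_ (by norm_num))
      rw [sq_le_sq]
      exact abs_sub_right_of_mem_uIcc (uIoc_subset_uIcc hr) |>.trans_eq' (abs_sub_comm _ _)
        |>.trans_eq (abs_sub_comm _ _)
  rw [intervalIntegral.integral_sub i1 i2, e, Real.norm_eq_abs, abs_sub_comm u u'] at b
  have e3 : 4 * (u' - u) ^ 2 * |u' - u| = 4 * |u' - u| ^ 3 := by rw [← sq_abs]; ring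
  linarith [(abs_le.1 b).1]

/-- node vectors: start at `0`, nondecreasing, end at `S` -/
structure Nd (s : ℕ → ℝ) (N : ℕ) (S : ℝ) : Prop where
  zero : s 0 = 0
  up : Up s N
  top : s N = S

theorem Nd.mem {s : ℕ → ℝ} {N : ℕ} {S : ℝ} (h : Nd s N S) {j : ℕ} (hj : j ≤ N) :
    s j ∈ Icc 0 S :=
  ⟨h.zero ▸ h.up.le (Nat.zero_le j) hj, h.top ▸ h.up.le hj le_rfl⟩

theorem Nd.nn {s : ℕ → ℝ} {N : ℕ} {S : ℝ} (h : Nd s N S) : 0 ≤ S := h.top ▸ (h.mem le_rfl).1

theorem Nd.TT {s : ℕ → ℝ} {N : ℕ} {S : ℝ} (h : Nd s N S) (z : ℕ → ℝ) : TT (lsg z s N) = S := by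
  rw [TT_lsg, h.zero, h.top, sub_zero]

/-- labels: positive, nondecreasing, end at `1` -/
structure Lb (z : ℕ → ℝ) (N : ℕ) : Prop where
  pos : 0 < z 0
  up : Up z N
  top : z N = 1

variable {z s s' : ℕ → ℝ} {N : ℕ} {S T : ℝ}

theorem Lb.adm (hz : Lb z N) (h : Nd s N S) : Adm 1 (lsg z s N) :=
  adm_lsg N z s hz.top hz.pos hz.up h.up

theorem Lb.dm (hz : Lb z N) {j : ℕ} (hj : j ∈ Finset.range N) : 0 ≤ z (j + 1) - z j :=
  sub_nonneg.2 (hz.up j (Finset.mem_range.1 hj))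

/-- **finite form**: tangent inequality in the variance frame -/
theorem tangent_var (hz : Lb z N) (h : Nd s N S) (h' : Nd s' N S) (hT : S ≤ T) :
    ∑ j ∈ Finset.range N, (z (j + 1) - z j) *
        (-(s' (j + 1) - s (j + 1)) * Gam (lsg z s N) (s (j + 1)) / 2 -
          Gp (lsg z s N) (s (j + 1)) * (s' (j + 1) - s (j + 1)) ^ 2 / 4 -
          2 * |s' (j + 1) - s (j + 1)| ^ 3) +
      Real.exp (-14 * T) / 16 * ∫ r in (0:ℝ)..S, Jf (lsg z s N) (lsg z s' N) S r ^ 2 ≤
      PhiL 1 (lsg z s' N) 0 - PhiL 1 (lsg z s N) 0 := by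
  have a := hz.adm h
  refine le_trans (add_le_add ?_ le_rfl) (tangent_gen a (hz.adm h') (h.TT z) (h'.TT z) hT)
  have c := Gam_contA a
  rw [h.TT z] at c
  simp only [lvr_lsg hz.top h.up h.zero, lvr_lsg hz.top h'.up h'.zero, ← Gam_QQ]
  rw [area z s s' N h.nn (ii_of_cont c ⟨le_rfl, h.nn⟩ ⟨h.nn, le_rfl⟩), Finset.mul_sum]
  refine Finset.sum_le_sum fun j hj => ?_
  have hj' : j + 1 ≤ N := Finset.mem_range.1 hj
  have m := h.mem hj'
  have m' := h'.mem hj'
  rw [cl_of_mem m.1 m.2, cl_of_mem m'.1 m'.2, mul_left_comm]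
  refine mul_le_mul_of_nonneg_left ?_ (hz.dm hj)
  have := int_Gam a (u := s (j + 1)) (u' := s' (j + 1)) (by rwa [h.TT z]) (by rwa [h.TT z])
  linarith

theorem Jf_eq (hz : Lb z N) (h : Nd s N S) (h' : Nd s' N S) {r : ℝ} (hr : r ≤ S) :
    Jf (lsg z s N) (lsg z s' N) S r = ∑ j ∈ Finset.range N, (z (j + 1) - z j) *
      (cl r S (s (j + 1)) - cl r S (s' (j + 1))) := by
  have := area z s s' N hr (g := fun _ => 1) intervalIntegrable_const
  simp only [mul_one, intervalIntegral.integral_const, smul_eq_mul] at this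
  simp only [Jf, lvr_lsg hz.top h.up h.zero, lvr_lsg hz.top h'.up h'.zero, this]

/-- tails of the displaced mass -/
def tl (z om : ℕ → ℝ) (N k : ℕ) : ℝ := ∑ i ∈ Finset.Ico k N, (z (i + 1) - z i) * om (i + 1)

/-- **the `H⁻¹` norm from below** -/
theorem Jf_ge (hz : Lb z N) (h : Nd s N S) (h' : Nd s' N S) {B : ℝ} (hB0 : 0 ≤ B)
    (hB : ∀ j ≤ N, |s' j - s j| ≤ B) :
    ∑ k ∈ Finset.range N, (s (k + 1) - s k - 2 * B) * tl z (fun j => s' j - s j) N k ^ 2 ≤
      ∫ r in (0:ℝ)..S, Jf (lsg z s N) (lsg z s' N) S r ^ 2 := by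
  set J : ℝ → ℝ := fun r => ∑ j ∈ Finset.range N, (z (j + 1) - z j) *
      (cl r S (s (j + 1)) - cl r S (s' (j + 1))) with hJ
  have cJ : Continuous fun r => J r ^ 2 := by
    simp only [hJ, cl]
    fun_prop
  rw [intervalIntegral.integral_congr_Ioo_of_le h.nn (g := fun r => J r ^ 2)
    fun r hr => by rw [Jf_eq hz h h' hr.2.le]]
  have e := intervalIntegral.sum_integral_adjacent_intervals (f := fun r => J r ^ 2) (a := s)
    (n := N) (μ := volume) fun k _ => cJ.intervalIntegrable _ _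
  rw [h.zero, h.top] at e
  rw [← e]
  refine Finset.sum_le_sum fun k hk => ?_
  have hk' : k < N := Finset.mem_range.1 hk
  rcases le_total (s (k + 1) - s k - 2 * B) 0 with a | a
  · exact (mul_nonpos_of_nonpos_of_nonneg a (sq_nonneg _)).trans
      (intervalIntegral.integral_nonneg (h.up k hk') fun _ _ => sq_nonneg _)
  have e2 : ∫ r in (s k + B)..(s (k + 1) - B), J r ^ 2 =
      (s (k + 1) - s k - 2 * B) * tl z (fun j => s' j - s j) N k ^ 2 := by
    rw [intervalIntegral.integral_congr_Ioo_of_le (by linarith)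
      (g := fun _ => tl z (fun j => s' j - s j) N k ^ 2) fun r hr => ?_]
    · simp only [intervalIntegral.integral_const, smul_eq_mul]
      ring
    · have : J r = -tl z (fun j => s' j - s j) N k := by
        simp only [hJ, tl]
        rw [← Finset.sum_range_add_sum_Ico _ hk'.le, Finset.sum_eq_zero fun j hj => ?_, zero_add,
          ← Finset.sum_neg_distrib]
        · refine Finset.sum_congr rfl fun j hj => ?_
          rw [Finset.mem_Ico] at hj
          have a1 := h.up.le (show k + 1 ≤ j + 1 by omega) (show j + 1 ≤ N by omega)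
          have a2 := (abs_le.1 (hB (j + 1) (by omega))).1
          rw [cl_of_mem (by linarith [hr.2]) (h.mem (by omega)).2,
            cl_of_mem (by linarith [hr.2]) (h'.mem (by omega)).2]
          ring
        · rw [Finset.mem_range] at hj
          have a1 := h.up.le (show j + 1 ≤ k by omega) hk'.le
          have a2 := (abs_le.1 (hB (j + 1) (by omega))).2
          rw [cl_of_le (by linarith [hr.1]), cl_of_le (by linarith [hr.1]), sub_self, mul_zero]
      simp only [this, neg_sq]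
  rw [← e2]
  exact intervalIntegral.integral_mono_interval (by linarith) (by linarith) (by linarith)
    (Filter.Eventually.of_forall fun _ => sq_nonneg _) (cJ.intervalIntegrable _ _)

/-- the squared `H⁻¹` norm in the variance clock -/
def Hm (z s om : ℕ → ℝ) (N : ℕ) : ℝ := ∑ k ∈ Finset.range N, (s (k + 1) - s k) * tl z om N k ^ 2

theorem abs_tl_le (hz : Lb z N) {om : ℕ → ℝ} {B : ℝ} (hB0 : 0 ≤ B) (hB : ∀ j ≤ N, |om j| ≤ B)
    {k : ℕ} (hk : k ≤ N) : |tl z om N k| ≤ B := by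
  refine (Finset.abs_sum_le_sum_abs _ _).trans ((Finset.sum_le_sum (g := fun i =>
    (z (i + 1) - z i) * B) fun i hi => ?_).trans ?_)
  · rw [Finset.mem_Ico] at hi
    have := hz.dm (Finset.mem_range.2 hi.2)
    rw [abs_mul, abs_of_nonneg this]
    exact mul_le_mul_of_nonneg_left (hB _ hi.2) this
  · rw [← Finset.sum_mul, Finset.sum_Ico_sub _ hk, hz.top]
    have := hz.pos.trans_le (hz.up.le (Nat.zero_le k) hk)
    exact mul_le_of_le_one_left hB0 (by linarith)

/-- **second-order lower bound along a ray** -/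
theorem ray (hz : Lb z N) (h : Nd s N S) (hT : S ≤ T) {om : ℕ → ℝ} {B e : ℝ} (hB0 : 0 ≤ B)
    (hB : ∀ j ≤ N, |om j| ≤ B) (he : 0 ≤ e) (h' : Nd (fun j => s j + e * om j) N S) :
    -(e / 2) * ∑ j ∈ Finset.range N, (z (j + 1) - z j) * om (j + 1) * Gam (lsg z s N) (s (j + 1)) -
      e ^ 2 / 4 * (∑ j ∈ Finset.range N, (z (j + 1) - z j) * Gp (lsg z s N) (s (j + 1)) *
        om (j + 1) ^ 2 - Real.exp (-14 * T) / 4 * Hm z s om N) -
      (2 + Real.exp (-14 * T) / 8 * N) * B ^ 3 * e ^ 3 ≤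
      PhiL 1 (lsg z (fun j => s j + e * om j) N) 0 - PhiL 1 (lsg z s N) 0 := by
  refine le_trans ?_ (tangent_var hz h h' hT)
  have j1 := Jf_ge hz h h' (B := e * B) (by positivity) fun j hj => by
    rw [add_sub_cancel_left, abs_mul, abs_of_nonneg he]
    exact mul_le_mul_of_nonneg_left (hB j hj) he
  simp only [add_sub_cancel_left] at j1 ⊢
  have e1 : ∀ k, tl z (fun j => e * om j) N k = e * tl z om N k := fun k => by
    simp only [tl, Finset.mul_sum]
    exact Finset.sum_congr rfl fun i _ => by ring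
  have j2 : e ^ 2 * Hm z s om N - 2 * N * B ^ 3 * e ^ 3 ≤ ∑ k ∈ Finset.range N,
      (s (k + 1) - s k - 2 * (e * B)) * tl z (fun j => e * om j) N k ^ 2 := by
    have : ∑ k ∈ Finset.range N, (e ^ 2 * ((s (k + 1) - s k) * tl z om N k ^ 2) -
        2 * B ^ 3 * e ^ 3) = e ^ 2 * Hm z s om N - 2 * N * B ^ 3 * e ^ 3 := by
      rw [Finset.sum_sub_distrib, ← Finset.mul_sum, Finset.sum_const, Finset.card_range, Hm,
        nsmul_eq_mul]
      ring
    rw [← this]
    refine Finset.sum_le_sum fun k hk => ?_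
    have a := abs_tl_le hz hB0 hB (Finset.mem_range.1 hk).le
    have a2 : tl z om N k ^ 2 ≤ B ^ 2 := sq_le_sq' (abs_le.1 a).1 (abs_le.1 a).2
    have a3 := mul_le_mul_of_nonneg_left a2 (show 0 ≤ e ^ 3 * B by positivity)
    rw [e1]
    nlinarith
  have j3 : -(e / 2) * ∑ j ∈ Finset.range N, (z (j + 1) - z j) * om (j + 1) *
        Gam (lsg z s N) (s (j + 1)) - e ^ 2 / 4 * ∑ j ∈ Finset.range N, (z (j + 1) - z j) *
        Gp (lsg z s N) (s (j + 1)) * om (j + 1) ^ 2 - 2 * B ^ 3 * e ^ 3 ≤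
      ∑ j ∈ Finset.range N, (z (j + 1) - z j) * (-(e * om (j + 1)) * Gam (lsg z s N) (s (j + 1)) / 2 -
        Gp (lsg z s N) (s (j + 1)) * (e * om (j + 1)) ^ 2 / 4 - 2 * |e * om (j + 1)| ^ 3) := by
    have b1 : ∑ j ∈ Finset.range N, (z (j + 1) - z j) * (2 * B ^ 3 * e ^ 3) ≤ 2 * B ^ 3 * e ^ 3 := by
      rw [← Finset.sum_mul, Finset.sum_range_sub, hz.top]
      exact mul_le_of_le_one_left (by positivity) (by linarith [hz.pos])
    refine le_trans (sub_le_sub_left b1 _) ?_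
    rw [Finset.mul_sum, Finset.mul_sum, ← Finset.sum_sub_distrib, ← Finset.sum_sub_distrib]
    refine Finset.sum_le_sum fun j hj => ?_
    have a : |e * om (j + 1)| ^ 3 ≤ B ^ 3 * e ^ 3 := by
      rw [abs_mul, abs_of_nonneg he, mul_pow, mul_comm]
      exact mul_le_mul_of_nonneg_right
        (pow_le_pow_left₀ (abs_nonneg _) (hB _ (Finset.mem_range.1 hj)) 3) (by positivity)
    have := mul_le_mul_of_nonneg_left a (hz.dm hj)
    nlinarith
  have j4 := mul_le_mul_of_nonneg_left (j2.trans j1)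
    (show 0 ≤ Real.exp (-14 * T) / 16 by positivity)
  nlinarith

end

end Crest.Agent.T156.Hess65
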