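import Crest.Agent.T156.Spl_27
import Crest.Agent.T156.PArea_50
import Crest.Agent.T156.POde_3

/-!
Row 156 (helper71): `H⁻¹` coercivity of the one-site functional when the NODES move (list form).
`hess_list`: with `D j` the derivative of `Γ` at the moving node `j`,
`c ∑ v_k F_k² ≤ ∑ dm_j φ_j (G_j φ_j - D_j)`, `F_k = ∑_{j > k} dm_j φ_j`; the constant only depends
on the time at which the tilt reaches `1`.
-/

set_option autoImplicit false

namespace Crest.Agent.T156.HessV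

open MeasureTheory Filter Topology Finset
open Crest.Agent.R164.GC Crest.Agent.R339.B Crest.Agent.R339.Var Crest.Agent.T157.Pf
open Crest.Agent.T156.Sc48 Crest.Agent.T156.Pp Crest.Agent.T156.Pp.Area50 Crest.Agent.T156.Pp.Ode3

noncomputable section

/-! ### calculus -/

theorem peano {Φ Φ' : ℝ → ℝ} {D a C : ℝ} (h1 : ∀ᶠ t in 𝓝 (0 : ℝ), HasDerivAt Φ (Φ' t) t)
    (h2 : HasDerivAt Φ' D 0)
    (h3 : ∀ᶠ t in 𝓝[>] (0 : ℝ), a * t ^ 2 - C * t ^ 3 ≤ Φ t - Φ 0 - t * Φ' 0) : a ≤ D / 2 := by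
  by_contra hc
  push Not at hc
  set δ := (a - D / 2) / 2 with hδ
  have hδ0 : 0 < δ := by rw [hδ]; linarith
  have h4 : ∀ᶠ t in 𝓝[≠] (0 : ℝ), slope Φ' 0 t < D + 2 * δ :=
    (hasDerivAt_iff_tendsto_slope.1 h2).eventually (gt_mem_nhds (by linarith))
  have h5 : ∀ᶠ t in 𝓝 (0 : ℝ), C * t < δ := by
    have : Tendsto (fun t : ℝ => C * t) (𝓝 0) (𝓝 (C * 0)) := tendsto_id.const_mul C
    exact this.eventually (gt_mem_nhds (by simpa using hδ0))
  obtain ⟨r, hr, H⟩ := Metric.eventually_nhds_iff.1 (h1.and (eventually_nhdsWithin_iff.1 h4))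
  have h6 : ∀ᶠ t in 𝓝[>] (0 : ℝ), t < r := nhdsWithin_le_nhds (gt_mem_nhds hr)
  obtain ⟨t, ⟨⟨a1, a2⟩, a3⟩, a4⟩ :=
    (((h3.and h6).and (nhdsWithin_le_nhds h5)).and self_mem_nhdsWithin).exists
  have ht : 0 < t := a4
  have hd : ∀ u, 0 ≤ u → u ≤ t → dist u 0 < r := fun u b1 b2 => by
    rw [Real.dist_eq, sub_zero, abs_of_nonneg b1]; linarith
  have hg : ∀ u, 0 ≤ u → u ≤ t → HasDerivAt (fun u => Φ u - u * Φ' 0 - (D / 2 + δ) * u ^ 2)
      (Φ' u - Φ' 0 - (D / 2 + δ) * (2 * u)) u := fun u b1 b2 => by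
    have := (((H (hd u b1 b2)).1.sub ((hasDerivAt_id u).mul_const (Φ' 0))).sub
      ((hasDerivAt_pow 2 u).const_mul (D / 2 + δ)))
    exact this.congr_deriv (by simp)
  obtain ⟨u, hu, e⟩ := exists_hasDerivAt_eq_slope _ _ ht
    (fun u hu => (hg u hu.1 hu.2).continuousAt.continuousWithinAt)
    (fun u hu => hg u hu.1.le hu.2.le)
  have h7 := (H (hd u hu.1.le hu.2.le)).2 hu.1.ne'
  rw [slope_def_field, sub_zero, div_lt_iff₀ hu.1] at h7
  rw [sub_zero, eq_div_iff ht.ne'] at e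
  have h8 : (Φ' u - Φ' 0 - (D / 2 + δ) * (2 * u)) * t < 0 :=
    mul_neg_of_neg_of_pos (by linarith) ht
  have h9 : 0 < t ^ 2 := by positivity
  have h10 : C * t * t ^ 2 < δ * t ^ 2 := mul_lt_mul_of_pos_right a3 h9
  have h11 : a = D / 2 + 2 * δ := by rw [hδ]; ring
  rw [h11] at a1
  nlinarith

theorem cell {g : ℝ → ℝ} (hg : Continuous g) {a b r c : ℝ} (hab : a ≤ b) (hr : 0 ≤ r)
    (h : ∀ t, a + r ≤ t → t ≤ b - r → g t = c) : c ^ 2 * (b - a - 2 * r) ≤ ∫ t in a..b, g t ^ 2 := by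
  have hi : ∀ x y, IntervalIntegrable (fun t => g t ^ 2) volume x y := fun x y =>
    (hg.pow 2).intervalIntegrable x y
  have hp : ∀ x y, x ≤ y → 0 ≤ ∫ t in x..y, g t ^ 2 := fun x y hxy =>
    intervalIntegral.integral_nonneg hxy fun t _ => sq_nonneg _
  by_cases h1 : a + r ≤ b - r
  · rw [← intervalIntegral.integral_add_adjacent_intervals (hi a (a + r)) (hi (a + r) b),
      ← intervalIntegral.integral_add_adjacent_intervals (hi (a + r) (b - r)) (hi (b - r) b),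
      intervalIntegral.integral_congr (a := a + r) (b := b - r) (g := fun _ => c ^ 2) fun t ht => by
        rw [Set.uIcc_of_le h1] at ht
        show g t ^ 2 = _
        rw [h t ht.1 ht.2]]
    have := hp a (a + r) (by linarith)
    have := hp (b - r) b (by linarith)
    simp only [intervalIntegral.integral_const, smul_eq_mul]
    nlinarith
  · exact (mul_nonpos_of_nonneg_of_nonpos (sq_nonneg _) (by linarith)).trans (hp a b hab)

/-! ### lists -/

theorem Et_eqv {G : (ℝ → ℝ) → ℝ → ℝ} (hG : BFn G) {l l' : List (ℝ × ℝ)} (e : Eqv l l') {t : ℝ}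
    (ht : 0 ≤ t) : Et G l t = Et G l' t := by
  obtain ⟨K, hK⟩ := Et_bc hG l' t
  unfold Et
  rw [e.phiT t ht, e.ex t ht _ K hK]

theorem Dn_shift (k : ℕ) (Φ : ℝ → ℝ) (c : ℝ) : Dn k (fun x => Φ x + c) = Dn k Φ := by
  unfold Dn
  rw [deriv_add_const']

theorem Et_app {G : (ℝ → ℝ) → ℝ → ℝ} (hG : ∀ Φ c, G (fun x => Φ x + c) = G Φ)
    {l l' : List (ℝ × ℝ)} (h : ∀ p ∈ l, 0 < p.1) (h' : ∀ p ∈ l', p.1 = 1 ∧ 0 ≤ p.2) {t : ℝ}
    (ht : t ≤ TT l) : Et G (l ++ l') t = Et G l t := by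
  obtain ⟨c, hc⟩ := PhiT_append one_pos h' h t
  unfold Et
  rw [hc, hG, EX_append one_pos h' h ht]

theorem W0_shift (Φ : ℝ → ℝ) (c : ℝ) : W0 (fun x => Φ x + c) = W0 Φ := by
  funext y; unfold W0; rw [Dn_shift]

theorem W1_shift (Φ : ℝ → ℝ) (c : ℝ) : W1 (fun x => Φ x + c) = W1 Φ := by
  funext y; unfold W1; rw [Dn_shift]

theorem QQ_eq (l : List (ℝ × ℝ)) (t : ℝ) : QQ 1 l t 0 = Gam l t := by
  unfold QQ Gam Et W0
  rw [Dn_zero]

/-- second-order Taylor bound for `Γ`, zero slices allowed -/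
theorem Gam_taylor {l : List (ℝ × ℝ)} (h : Adm 1 l) {s t : ℝ} (hs : s ∈ Set.Icc 0 (TT l))
    (ht : t ∈ Set.Icc 0 (TT l)) : |Gam l t - Gam l s - (t - s) * Gp l s| ≤ 4 * (t - s) ^ 2 := by
  obtain ⟨u, hu, e, -⟩ := Spl27.exists_ok h
  have hA : AP u := ⟨hu.1, hu.2⟩
  unfold Gam Gp
  rw [Et_eqv bfn_W0 e ht.1, Et_eqv bfn_W0 e hs.1, Et_eqv bfn_W1 e hs.1]
  rw [e.tt] at hs ht
  have hi := ii_of_cont (Gp_cont hA) hs ht
  have e1 : Gam u t - Gam u s = ∫ r in s..t, Gp u r := by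
    rcases le_total s t with h1 | h1
    · exact Gam_int hA hs.1 h1 ht.2
    · rw [intervalIntegral.integral_symm, ← Gam_int hA ht.1 h1 hs.2]; ring
  have e2 : Gam u t - Gam u s - (t - s) * Gp u s = ∫ r in s..t, (Gp u r - Gp u s) := by
    rw [intervalIntegral.integral_sub hi intervalIntegrable_const, e1]
    simp
  change |Gam u t - Gam u s - (t - s) * Gp u s| ≤ _
  rw [e2]
  have := intervalIntegral.norm_integral_le_of_norm_le_const (a := s) (b := t)
    (f := fun r => Gp u r - Gp u s) (C := 4 * |t - s|) fun r hr => by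
      have hr' := Set.uIoc_subset_uIcc hr
      refine (Gp_lip hA hs (Set.uIcc_subset_Icc hs ht hr')).trans ?_
      exact mul_le_mul_of_nonneg_left (Set.abs_sub_left_of_mem_uIcc hr') (by norm_num)
  rw [Real.norm_eq_abs] at this
  refine this.trans_eq ?_
  rw [mul_assoc, abs_mul_abs_self, sq]

theorem Gam_ii {l : List (ℝ × ℝ)} (h : Adm 1 l) (a b : ℝ) :
    IntervalIntegrable (fun t => QQ 1 l t 0) volume a b :=
  ii_of_bdd (QQ_meas h 0) (K := 1)
    (fun t => (EX_BC one_pos l t (sq_BC (PhiT_prof one_pos l t))).bd 0) a b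

theorem int_Gam_ge {l : List (ℝ × ℝ)} (h : Adm 1 l) {s u : ℝ} (hs : s ∈ Set.Icc 0 (TT l))
    (hu : u ∈ Set.Icc 0 (TT l)) :
    (s - u) * Gam l s - (s - u) ^ 2 / 2 * Gp l s - 4 * |s - u| ^ 3 ≤ ∫ t in u..s, QQ 1 l t 0 := by
  have e1 : ∫ t in u..s, (Gam l s + (t - s) * Gp l s) =
      (s - u) * Gam l s - (s - u) ^ 2 / 2 * Gp l s := by
    rw [intervalIntegral.integral_add intervalIntegrable_const
      (Continuous.intervalIntegrable (by fun_prop) _ _), intervalIntegral.integral_mul_const,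
      intervalIntegral.integral_sub (Continuous.intervalIntegrable (by fun_prop) _ _)
        intervalIntegrable_const, integral_id]
    simp only [intervalIntegral.integral_const, smul_eq_mul]
    ring
  have := intervalIntegral.norm_integral_le_of_norm_le_const (a := u) (b := s)
    (f := fun t => QQ 1 l t 0 - (Gam l s + (t - s) * Gp l s)) (C := 4 * (s - u) ^ 2) fun r hr => by
      have hr' := Set.uIoc_subset_uIcc hr
      rw [QQ_eq, ← sub_sub]
      refine (Gam_taylor h hs (Set.uIcc_subset_Icc hu hs hr')).trans ?_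
      refine mul_le_mul_of_nonneg_left (sq_le_sq.2 ?_) (by norm_num)
      rw [abs_sub_comm]
      exact Set.abs_sub_right_of_mem_uIcc hr'
  rw [intervalIntegral.integral_sub (Gam_ii h _ _) (Continuous.intervalIntegrable (by fun_prop) _ _),
    e1, Real.norm_eq_abs] at this
  have h2 : 4 * (s - u) ^ 2 * |s - u| = 4 * |s - u| ^ 3 := by rw [← sq_abs]; ring
  linarith [(abs_le.1 this).1]

theorem lsg_range (z s : ℕ → ℝ) (N : ℕ) :
    lsg z s N = (List.range N).map fun k => (z k, s (k + 1) - s k) :=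
  List.ext_getElem (by simp [lsg]) fun i _ _ => by simp [lsg]

theorem lsg_add (z s : ℕ → ℝ) (J M : ℕ) : lsg z s (J + M) =
    lsg z s J ++ lsg (fun k => z (J + k)) (fun k => s (J + k)) M := by
  simp only [lsg_range, List.range_add, List.map_append, List.map_map]
  rfl

theorem mem_lsg {z s : ℕ → ℝ} {N : ℕ} {p : ℝ × ℝ} (h : p ∈ lsg z s N) :
    ∃ k < N, p = (z k, s (k + 1) - s k) := by
  rw [lsg_range] at h
  obtain ⟨k, hk, rfl⟩ := List.mem_map.1 h
  exact ⟨k, List.mem_range.1 hk, rfl⟩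

theorem lsg_congr (z : ℕ → ℝ) {s s' : ℕ → ℝ} {N : ℕ} (h : ∀ k ≤ N, s k = s' k) :
    lsg z s N = lsg z s' N := by
  rw [lsg_range, lsg_range]
  refine List.map_congr_left fun k hk => ?_
  rw [List.mem_range] at hk
  rw [h k hk.le, h (k + 1) hk]

/-- labels reaching `1` at the index `J ≤ N` -/
structure Lb (z : ℕ → ℝ) (J N : ℕ) : Prop where
  le : J ≤ N
  pos : 0 < z 0
  up : Up z N
  top : ∀ k, J ≤ k → z k = 1

variable {z : ℕ → ℝ} {J N : ℕ}

theorem Lb.tail (H : Lb z J N) {s : ℕ → ℝ} {M : ℕ} (hs : Up s (J + M)) :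
    (∀ p ∈ lsg z s J, 0 < p.1) ∧
      ∀ p ∈ lsg (fun k => z (J + k)) (fun k => s (J + k)) M, p.1 = 1 ∧ 0 ≤ p.2 := by
  constructor
  · intro p hp
    obtain ⟨k, hk, rfl⟩ := mem_lsg hp
    exact H.pos.trans_le (H.up.le (Nat.zero_le k) (hk.le.trans H.le))
  · intro p hp
    obtain ⟨k, hk, rfl⟩ := mem_lsg hp
    exact ⟨H.top _ (Nat.le_add_right _ _), sub_nonneg.2 (hs (J + k) (by omega))⟩

theorem Lb.phi (H : Lb z J N) {s : ℕ → ℝ} {M : ℕ} (hM : J ≤ M) (hs : Up s M) :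
    PhiL 1 (lsg z s M) 0 = PhiL 1 (lsg z s J) 0 + (s M - s J) / 2 := by
  obtain ⟨M, rfl⟩ := Nat.exists_eq_add_of_le hM
  rw [lsg_add, PhiL_append one_pos (H.tail hs).2 (H.tail hs).1, TT_lsg]
  simp

theorem Lb.et (H : Lb z J N) {G : (ℝ → ℝ) → ℝ → ℝ} (hG : ∀ Φ c, G (fun x => Φ x + c) = G Φ)
    {s : ℕ → ℝ} {M : ℕ} (hM : J ≤ M) (hs : Up s M) (h0 : s 0 = 0) {t : ℝ} (ht : t ≤ s J) :
    Et G (lsg z s M) t = Et G (lsg z s J) t := by
  obtain ⟨M, rfl⟩ := Nat.exists_eq_add_of_le hM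
  rw [lsg_add, Et_app hG (H.tail hs).1 (H.tail hs).2 (by rw [TT_lsg, h0, sub_zero]; exact ht)]

/-- the nodes up to `J`, then the time `S` -/
def tr (s : ℕ → ℝ) (J : ℕ) (S : ℝ) (k : ℕ) : ℝ := if k ≤ J then s k else S

theorem tr_le {s : ℕ → ℝ} {S : ℝ} {k : ℕ} (h : k ≤ J) : tr s J S k = s k := if_pos h

theorem tr_top (s : ℕ → ℝ) (S : ℝ) : tr s J S (J + 1) = S := if_neg (by omega)

theorem up_tr {s : ℕ → ℝ} {S : ℝ} (hs : Up s J) (hS : s J ≤ S) : Up (tr s J S) (J + 1) :=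
  fun k hk => by
    rw [tr_le (by omega)]
    rcases Nat.lt_succ_iff_lt_or_eq.1 hk with h | rfl
    · rw [tr_le h]; exact hs k h
    · rw [tr_top]; exact hS

theorem Lb.up' (H : Lb z J N) : Up z (J + 1) := fun k hk => by
  rcases Nat.lt_succ_iff_lt_or_eq.1 hk with h | rfl
  · exact H.up k (h.trans_le H.le)
  · rw [H.top _ le_rfl, H.top _ (Nat.le_succ _)]

theorem up_mono {s : ℕ → ℝ} {M M' : ℕ} (h : Up s M) (h' : M' ≤ M) : Up s M' :=
  fun k hk => h k (hk.trans_le h')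

/-- `F_k = ∑_{j > k} dm_j φ_j` -/
def FF (z φ : ℕ → ℝ) (N k : ℕ) : ℝ := ∑ j ∈ Ico k N, (z (j + 1) - z j) * φ (j + 1)

/-- **finite move of the nodes** -/
theorem move_ge (H : Lb z J N) {s φ : ℕ → ℝ} (hs : Up s N) (h0 : s 0 = 0) (hφ0 : φ 0 = 0)
    {T ε B : ℝ} (hT : s J + 1 ≤ T) (hε : 0 ≤ ε) (hB : ∀ k ≤ J, |φ k| ≤ B) (hεB : ε * B ≤ 1)
    (hs' : Up (fun k => s k + ε * φ k) N) :
    1 / 2 * ∑ j ∈ range J, (z (j + 1) - z j) * (-(ε * φ (j + 1)) * Gam (lsg z s N) (s (j + 1)) -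
        (ε * φ (j + 1)) ^ 2 / 2 * Gp (lsg z s N) (s (j + 1)) - 4 * (ε * B) ^ 3) +
      Real.exp (-14 * T) / 16 * ∑ k ∈ range J, (ε * FF z φ J k) ^ 2 * (s (k + 1) - s k - 2 * (ε * B)) ≤
    PhiL 1 (lsg z (fun k => s k + ε * φ k) N) 0 - PhiL 1 (lsg z s N) 0 - ε * φ N / 2 := by
  set s' : ℕ → ℝ := fun k => s k + ε * φ k with hs'd
  set S := s J + 1 with hS
  have hab : ∀ k ≤ J, |ε * φ k| ≤ ε * B := fun k hk => by
    rw [abs_mul, abs_of_nonneg hε]; exact mul_le_mul_of_nonneg_left (hB k hk) hε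
  have hB0 : 0 ≤ ε * B := (abs_nonneg _).trans (hab 0 (Nat.zero_le _))
  have h0' : s' 0 = 0 := by simp [hs'd, h0, hφ0]
  have hJ := up_mono hs H.le
  have hJ' := up_mono hs' H.le
  have hS' : s' J ≤ S := by have := (abs_le.1 (hab J le_rfl)).2; simp only [hs'd]; linarith
  have u0 := up_tr hJ (S := S) (by linarith)
  have u1 := up_tr hJ' hS'
  have z1 := H.top (J + 1) (Nat.le_succ _)
  have a0 := adm_lsg (β := 1) (J + 1) z _ z1 H.pos H.up' u0
  have a1 := adm_lsg (β := 1) (J + 1) z _ z1 H.pos H.up' u1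
  have t0 : TT (lsg z (tr s J S) (J + 1)) = S := by
    rw [TT_lsg, tr_top, tr_le (Nat.zero_le _), h0, sub_zero]
  have t1 : TT (lsg z (tr s' J S) (J + 1)) = S := by
    rw [TT_lsg, tr_top, tr_le (Nat.zero_le _), h0', sub_zero]
  have m0 : ∀ k ≤ J, s k ∈ Set.Icc 0 S := fun k hk =>
    ⟨h0 ▸ hJ.le (Nat.zero_le k) hk, by have := hJ.le hk le_rfl; linarith⟩
  have m1 : ∀ k ≤ J, s' k ∈ Set.Icc 0 S := fun k hk =>
    ⟨h0' ▸ hJ'.le (Nat.zero_le k) hk, (hJ'.le hk le_rfl).trans hS'⟩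
  have hS0 : 0 ≤ S := (m0 0 (Nat.zero_le _)).1.trans (m0 0 (Nat.zero_le _)).2
  have key := tangent_gen a0 a1 t0 t1 hT
  have l0 := lvr_lsg z1 u0 (by rw [tr_le (Nat.zero_le _), h0])
  have l1 := lvr_lsg z1 u1 (by rw [tr_le (Nat.zero_le _), h0'])
  have c0 : lsg z (tr s J S) J = lsg z s J := lsg_congr z fun k hk => tr_le hk
  have c1 : lsg z (tr s' J S) J = lsg z s' J := lsg_congr z fun k hk => tr_le hk
  have dJ : z (J + 1) - z J = 0 := by rw [z1, H.top J le_rfl, sub_self]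
  have dn : ∀ j ∈ range J, 0 ≤ z (j + 1) - z j := fun j hj =>
    sub_nonneg.2 (H.up j ((mem_range.1 hj).trans_le H.le))
  -- the value
  rw [H.phi (Nat.le_succ J) u0, H.phi (Nat.le_succ J) u1, c0, c1, tr_top, tr_top, tr_le le_rfl,
    tr_le le_rfl] at key
  rw [H.phi H.le hs, H.phi H.le hs']
  -- the linear term
  simp only [l0, l1] at key
  rw [area z _ _ _ hS0 (Gam_ii a0 0 S), sum_range_succ, dJ, zero_mul, add_zero] at key
  have k1 : ∑ j ∈ range J, (z (j + 1) - z j) * (-(ε * φ (j + 1)) * Gam (lsg z s N) (s (j + 1)) -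
        (ε * φ (j + 1)) ^ 2 / 2 * Gp (lsg z s N) (s (j + 1)) - 4 * (ε * B) ^ 3) ≤
      ∑ j ∈ range J, (z (j + 1) - z j) * ∫ t in cl 0 S (tr s' J S (j + 1))..cl 0 S (tr s J S (j + 1)),
        QQ 1 (lsg z (tr s J S) (J + 1)) t 0 := by
    refine sum_le_sum fun j hj => mul_le_mul_of_nonneg_left ?_ (dn j hj)
    have hj' : j + 1 ≤ J := mem_range.1 hj
    rw [tr_le hj', tr_le hj', cl_of_mem (m0 _ hj').1 (m0 _ hj').2, cl_of_mem (m1 _ hj').1 (m1 _ hj').2]
    have := int_Gam_ge a0 (t0.symm ▸ m0 _ hj') (t0.symm ▸ m1 _ hj')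
    have hle := hJ.le hj' le_rfl
    have hle' : s (j + 1) ≤ tr s J S J := by rw [tr_le le_rfl]; exact hle
    have e0 : tr s J S 0 = 0 := by rw [tr_le (Nat.zero_le _), h0]
    unfold Gam Gp at this ⊢
    rw [H.et W0_shift (Nat.le_succ J) u0 e0 hle', H.et W1_shift (Nat.le_succ J) u0 e0 hle', c0,
      show s (j + 1) - s' (j + 1) = -(ε * φ (j + 1)) by simp [hs'd], neg_sq, abs_neg] at this
    rw [H.et W0_shift H.le hs h0 hle, H.et W1_shift H.le hs h0 hle]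
    have := pow_le_pow_left₀ (abs_nonneg _) (hab _ hj') 3
    linarith
  -- the quadratic term
  set g : ℝ → ℝ := fun t => ∑ j ∈ range J, (z (j + 1) - z j) *
    (cl t S (s (j + 1)) - cl t S (s' (j + 1))) with hg
  have gc : Continuous g := by
    simp only [hg, cl]
    fun_prop
  have e2 : ∫ t in (0:ℝ)..S, Jf (lsg z (tr s J S) (J + 1)) (lsg z (tr s' J S) (J + 1)) S t ^ 2 =
      ∫ t in (0:ℝ)..S, g t ^ 2 := by
    refine intervalIntegral.integral_congr fun t ht => ?_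
    rw [Set.uIcc_of_le hS0] at ht
    have := area z (tr s J S) (tr s' J S) (J + 1) ht.2 (g := fun _ => 1) intervalIntegrable_const
    simp only [mul_one, intervalIntegral.integral_const, smul_eq_mul] at this
    simp only [Jf, l0, l1, this, hg]
    rw [sum_range_succ, dJ, zero_mul, add_zero]
    congr 1
    refine sum_congr rfl fun j hj => ?_
    rw [tr_le (mem_range.1 hj), tr_le (mem_range.1 hj)]
  have hi : ∀ x y, IntervalIntegrable (fun t => g t ^ 2) volume x y := fun x y =>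
    (gc.pow 2).intervalIntegrable x y
  have k2 : ∑ k ∈ range J, (ε * FF z φ J k) ^ 2 * (s (k + 1) - s k - 2 * (ε * B)) ≤
      ∫ t in (0:ℝ)..S, g t ^ 2 := by
    have e3 := intervalIntegral.sum_integral_adjacent_intervals (f := fun t => g t ^ 2) (μ := volume)
      (a := s) (n := J) fun k _ => hi _ _
    rw [← intervalIntegral.integral_add_adjacent_intervals (hi 0 (s J)) (hi (s J) S), ← h0, ← e3]
    refine le_add_of_le_of_nonneg (sum_le_sum fun k hk => ?_)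
      (intervalIntegral.integral_nonneg (by linarith) fun t _ => sq_nonneg _)
    have hk' : k + 1 ≤ J := mem_range.1 hk
    rw [← neg_sq]
    refine cell gc (hJ k hk') hB0 fun t b1 b2 => ?_
    simp only [hg, FF]
    rw [← sum_range_add_sum_Ico _ (mem_range.1 hk).le, sum_eq_zero, zero_add, mul_sum,
      ← sum_neg_distrib]
    · refine sum_congr rfl fun j hj => ?_
      have j1 := mem_Ico.1 hj
      have j2 : j + 1 ≤ J := j1.2
      have b3 := hJ.le (Nat.succ_le_succ j1.1) j2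
      have b4 := (abs_le.1 (hab _ j2)).1
      rw [cl_of_mem (by linarith) (m0 _ j2).2, cl_of_mem (by simp only [hs'd]; linarith) (m1 _ j2).2]
      simp only [hs'd]
      ring
    · intro j hj
      have j1 : j + 1 ≤ k := mem_range.1 hj
      have b3 := hJ.le j1 (by omega)
      have b4 := (abs_le.1 (hab (j + 1) (by omega))).2
      rw [cl_of_le (by linarith), cl_of_le (by simp only [hs'd]; linarith), sub_self, mul_zero]
  rw [e2] at key
  have k3 := mul_le_mul_of_nonneg_left k2 (by positivity : 0 ≤ Real.exp (-14 * T) / 16)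
  simp only [hs'd] at key ⊢
  linarith

/-- **`H⁻¹` coercivity in the variance frame, list form** -/
theorem hess_list (H : Lb z J N) {s φ D : ℕ → ℝ} (hs : Up s N) (h0 : s 0 = 0) (hφ0 : φ 0 = 0)
    {T : ℝ} (hT : s J + 1 ≤ T) (hev : ∀ᶠ ε in 𝓝 (0 : ℝ), Up (fun k => s k + ε * φ k) N)
    (h1 : ∀ᶠ ε in 𝓝 (0 : ℝ), HasDerivAt (fun ε => PhiL 1 (lsg z (fun k => s k + ε * φ k) N) 0)
      ((φ N - ∑ j ∈ range J, (z (j + 1) - z j) * (φ (j + 1) *
        Gam (lsg z (fun k => s k + ε * φ k) N) (s (j + 1) + ε * φ (j + 1)))) / 2) ε)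
    (h2 : ∀ j < J, HasDerivAt (fun ε => Gam (lsg z (fun k => s k + ε * φ k) N)
      (s (j + 1) + ε * φ (j + 1))) (D (j + 1)) 0) :
    Real.exp (-14 * T) / 4 * ∑ k ∈ range J, (s (k + 1) - s k) * FF z φ J k ^ 2 ≤
      ∑ j ∈ range J, (z (j + 1) - z j) *
        (φ (j + 1) * (Gp (lsg z s N) (s (j + 1)) * φ (j + 1) - D (j + 1))) := by
  obtain ⟨B, hB⟩ : ∃ B, ∀ k ≤ J, |φ k| ≤ B :=
    ⟨∑ k ∈ range (J + 1), |φ k|, fun k hk =>
      single_le_sum (f := fun k => |φ k|) (fun _ _ => abs_nonneg _) (mem_range.2 (by omega))⟩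
  have h3 := (((HasDerivAt.fun_sum fun j (hj : j ∈ range J) =>
    ((h2 j (mem_range.1 hj)).const_mul (φ (j + 1))).const_mul (z (j + 1) - z j)).const_sub
      (φ N)).div_const 2)
  have h5 : ∀ᶠ t in 𝓝 (0 : ℝ), t * B < 1 := by
    have : Tendsto (fun t : ℝ => t * B) (𝓝 0) (𝓝 (0 * B)) := tendsto_id.mul_const B
    exact this.eventually (gt_mem_nhds (by simp))
  have := peano (a := -(1 / 4) * ∑ j ∈ range J, (z (j + 1) - z j) * (φ (j + 1) ^ 2 *
      Gp (lsg z s N) (s (j + 1))) +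
      Real.exp (-14 * T) / 16 * ∑ k ∈ range J, (s (k + 1) - s k) * FF z φ J k ^ 2)
    (C := 2 * B ^ 3 * ∑ j ∈ range J, (z (j + 1) - z j) +
      Real.exp (-14 * T) / 8 * B * ∑ k ∈ range J, FF z φ J k ^ 2) h1 h3 ?_
  · simp only [mul_sub, sum_sub_distrib] at this ⊢
    have e : ∀ j, φ (j + 1) * (Gp (lsg z s N) (s (j + 1)) * φ (j + 1)) =
        φ (j + 1) ^ 2 * Gp (lsg z s N) (s (j + 1)) := fun j => by ring
    simp only [e]
    linarith
  filter_upwards [nhdsWithin_le_nhds hev, nhdsWithin_le_nhds h5, self_mem_nhdsWithin] with ε b1 b2 b3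
  have := move_ge H hs h0 hφ0 hT (le_of_lt b3) hB b2.le b1
  simp only [zero_mul, add_zero]
  have e1 : ∑ j ∈ range J, (z (j + 1) - z j) * (-(ε * φ (j + 1)) * Gam (lsg z s N) (s (j + 1)) -
        (ε * φ (j + 1)) ^ 2 / 2 * Gp (lsg z s N) (s (j + 1)) - 4 * (ε * B) ^ 3) =
      -ε * ∑ j ∈ range J, (z (j + 1) - z j) * (φ (j + 1) * Gam (lsg z s N) (s (j + 1))) -
      ε ^ 2 / 2 * ∑ j ∈ range J, (z (j + 1) - z j) * (φ (j + 1) ^ 2 * Gp (lsg z s N) (s (j + 1))) -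
      4 * (ε * B) ^ 3 * ∑ j ∈ range J, (z (j + 1) - z j) := by
    simp only [mul_sum, ← sum_sub_distrib]
    exact sum_congr rfl fun j _ => by ring
  have e2 : ∑ k ∈ range J, (ε * FF z φ J k) ^ 2 * (s (k + 1) - s k - 2 * (ε * B)) =
      ε ^ 2 * ∑ k ∈ range J, (s (k + 1) - s k) * FF z φ J k ^ 2 -
        2 * ε ^ 3 * B * ∑ k ∈ range J, FF z φ J k ^ 2 := by
    simp only [mul_sum, ← sum_sub_distrib]
    exact sum_congr rfl fun j _ => by ring
  rw [e1, e2] at this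
  linarith

end

end Crest.Agent.T156.HessV
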