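import Crest.Agent.T156.Hess_65

/-!
Row 156 (helper65): **(Hess)** with a constant that does not see the levels of tilt one, and for
directions with an arbitrary last entry.
-/

set_option autoImplicit false
set_option linter.unusedSectionVars false

noncomputable section

namespace Crest.Agent.T156.Hess65

open MeasureTheory Real Set Filter Topology
open Crest.Agent.T157.E Crest.Agent.T157.Casc Crest.Agent.T157.SL Crest.Agent.T157.Casc.C
open Crest.Agent.R339.B Crest.Agent.R339.Var Crest.Agent.T157 Crest.Agent.T156.Cas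
open Crest.ProbabilityR.SpinGlassDynamics (spin)
open Crest.Agent.T156.Pp Crest.Agent.T156.Pp.Ode3 Crest.Agent.T156.Pp.Area50

theorem lsg_add (z s : ℕ → ℝ) (J M : ℕ) : lsg z s (J + M) =
    lsg z s J ++ lsg (fun i => z (J + i)) (fun i => s (J + i)) M := by
  unfold lsg
  rw [List.ofFn_add]
  rfl

theorem lsg_congr {z z' s s' : ℕ → ℝ} {J : ℕ} (hz : ∀ j < J, z j = z' j)
    (hs : ∀ j ≤ J, s j = s' j) : lsg z s J = lsg z' s' J := by
  unfold lsg
  congr 1
  funext j
  rw [hz j j.2, hs j j.2.le, hs (j + 1) j.2]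

/-- the levels from `J` on have tilt one -/
structure Tp (z : ℕ → ℝ) (J N : ℕ) : Prop where
  lb : Lb z N
  le : J ≤ N
  one : z J = 1

variable {z s om : ℕ → ℝ} {J N : ℕ} {T : ℝ}

theorem Tp.eq (h : Tp z J N) {j : ℕ} (h1 : J ≤ j) (h2 : j ≤ N) : z j = 1 :=
  le_antisymm (h.lb.top ▸ h.lb.up.le h2 le_rfl) (h.one ▸ h.lb.up.le h1 h2)

theorem Tp.split (h : Tp z J N) (hs : Up s N) : ∃ l', lsg z s N = lsg z s J ++ l' ∧
    (∀ p ∈ l', p.1 = 1 ∧ 0 ≤ p.2) ∧ TT l' = s N - s J ∧ ∀ p ∈ lsg z s J, 0 < p.1 := by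
  obtain ⟨M, rfl⟩ := Nat.exists_eq_add_of_le h.le
  refine ⟨_, lsg_add z s J M, fun p hp => ?_, TT_lsg _ _ _, fun p hp => ?_⟩
  · obtain ⟨k, rfl⟩ := List.mem_ofFn.1 hp
    exact ⟨h.eq (Nat.le_add_right _ _) (by omega), sub_nonneg.2 (hs (J + k) (by omega))⟩
  · obtain ⟨k, rfl⟩ := List.mem_ofFn.1 hp
    exact h.lb.pos.trans_le (h.lb.up.le (Nat.zero_le _) (by omega))

theorem Tp.phi (h : Tp z J N) (hs : Up s N) :
    PhiL 1 (lsg z s N) 0 = PhiL 1 (lsg z s J) 0 + (s N - s J) / 2 := by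
  obtain ⟨l', e, h1, h2, h3⟩ := h.split hs
  rw [e, Pf.PhiL_append one_pos h1 h3, h2, one_mul]

theorem Tp.et (h : Tp z J N) (hs : Up s N) (h0 : s 0 = 0) {G : (ℝ → ℝ) → ℝ → ℝ}
    (hG : ∀ Φ c, G (fun x => Φ x + c) = G Φ) {t : ℝ} (ht : t ≤ s J) :
    Et G (lsg z s N) t = Et G (lsg z s J) t := by
  obtain ⟨l', e, h1, -, h3⟩ := h.split hs
  obtain ⟨c, hc⟩ := Pf.PhiT_append one_pos h1 h3 t
  unfold Et
  rw [e, hc, hG, Pf.EX_append one_pos h1 h3 (by rw [TT_lsg, h0, sub_zero]; exact ht)]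

theorem Dn_sh (k : ℕ) (Φ : ℝ → ℝ) (c : ℝ) : Dn k (fun x => Φ x + c) = Dn k Φ := by
  unfold Dn
  rw [deriv_add_const']

theorem Tp.gam (h : Tp z J N) (hs : Up s N) (h0 : s 0 = 0) {t : ℝ} (ht : t ≤ s J) :
    Gam (lsg z s N) t = Gam (lsg z s J) t :=
  h.et hs h0 (fun Φ c => by funext y; simp only [W0, Dn_sh]) ht

theorem Tp.gp (h : Tp z J N) (hs : Up s N) (h0 : s 0 = 0) {t : ℝ} (ht : t ≤ s J) :
    Gp (lsg z s N) t = Gp (lsg z s J) t :=
  h.et hs h0 (fun Φ c => by funext y; simp only [W1, Dn_sh]) ht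

theorem Tp.sum (h : Tp z J N) (k : ℕ) (f : ℕ → ℝ) :
    ∑ j ∈ Finset.Ico k N, (z (j + 1) - z j) * f j =
      ∑ j ∈ Finset.Ico k J, (z (j + 1) - z j) * f j := by
  refine (Finset.sum_subset (Finset.Ico_subset_Ico_right h.le) fun j h1 h2 => ?_).symm
  simp only [Finset.mem_Ico] at h1 h2
  rw [h.eq (j := j + 1) (by omega) (by omega), h.eq (j := j) (by omega) (by omega), sub_self,
    zero_mul]

theorem Tp.sum' (h : Tp z J N) (f g : ℕ → ℝ) :
    ∑ j ∈ Finset.range N, (z (j + 1) - z j) * f j * g j =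
      ∑ j ∈ Finset.range J, (z (j + 1) - z j) * f j * g j := by
  simp only [mul_assoc, Finset.range_eq_Ico]
  exact h.sum 0 _

theorem Tp.hm (h : Tp z J N) : Hm z s om N = Hm z s om J := by
  have e : ∀ k, tl z om N k = tl z om J k := fun k => h.sum k fun i => om (i + 1)
  simp only [Hm, e]
  refine (Finset.sum_subset (Finset.range_mono h.le) fun j _ h2 => ?_).symm
  rw [tl, Finset.Ico_eq_empty (by simpa using h2), Finset.sum_empty]
  simp

theorem Hm_congr {z' s' om' : ℕ → ℝ} (hz : ∀ j ≤ J, z j = z' j) (hs : ∀ j ≤ J, s j = s' j)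
    (ho : ∀ j ≤ J, om j = om' j) : Hm z s om J = Hm z' s' om' J := by
  refine Finset.sum_congr rfl fun k hk => ?_
  have hk' := Finset.mem_range.1 hk
  rw [hs k hk'.le, hs (k + 1) hk', tl, tl, Finset.sum_congr rfl fun i hi => by
    have := (Finset.mem_Ico.1 hi).2
    rw [hz i this.le, hz (i + 1) this, ho (i + 1) this]]

/-- second-order lower bound along a ray, levels of tilt one are free -/
theorem rayT (hz : Tp z J N) (h0 : s 0 = 0) (hs : Up s N) (hT : s J + 1 ≤ T) {B e : ℝ}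
    (hB0 : 0 ≤ B) (hB : ∀ j ≤ N, |om j| ≤ B) (he : 0 ≤ e) (heB : e * B ≤ 1) (o0 : om 0 = 0)
    (h' : Up (fun j => s j + e * om j) N) :
    -(e / 2) * ∑ j ∈ Finset.range N, (z (j + 1) - z j) * om (j + 1) * Gam (lsg z s N) (s (j + 1)) -
      e ^ 2 / 4 * (∑ j ∈ Finset.range N, (z (j + 1) - z j) * Gp (lsg z s N) (s (j + 1)) *
        om (j + 1) ^ 2 - Real.exp (-14 * T) / 4 * Hm z s om N) -
      (2 + Real.exp (-14 * T) / 8 * (J + 1 : ℕ)) * B ^ 3 * e ^ 3 + om N / 2 * e ≤
      PhiL 1 (lsg z (fun j => s j + e * om j) N) 0 - PhiL 1 (lsg z s N) 0 := by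
  obtain ⟨z', hz'⟩ : ∃ z' : ℕ → ℝ, z' = fun j => z (min j J) := ⟨_, rfl⟩
  obtain ⟨s', hs'⟩ : ∃ s' : ℕ → ℝ, s' = fun j => if j ≤ J then s j else s J + 1 := ⟨_, rfl⟩
  obtain ⟨o', ho'⟩ : ∃ o' : ℕ → ℝ, o' = fun j => if j ≤ J then om j else 0 := ⟨_, rfl⟩
  have a1 : ∀ j ≤ J, z j = z' j := fun j hj => by rw [hz']; simp only [min_eq_left hj]
  have a2 : ∀ j ≤ J, s j = s' j := fun j hj => by rw [hs']; simp only [if_pos hj]
  have a3 : ∀ j ≤ J, om j = o' j := fun j hj => by rw [ho']; simp only [if_pos hj]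
  have b1 : z' (J + 1) = 1 := by rw [hz']; simp [hz.one]
  have b2 : s' (J + 1) = s J + 1 := by rw [hs']; simp
  have b3 : o' (J + 1) = 0 := by rw [ho']; simp
  have le := hz.le
  have tp : Tp z' J (J + 1) := by
    refine ⟨⟨a1 0 (Nat.zero_le _) ▸ hz.lb.pos, fun j hj => ?_, b1⟩, Nat.le_succ _,
      a1 J le_rfl ▸ hz.one⟩
    rw [hz']
    exact hz.lb.up.le (min_le_min (Nat.le_succ _) le_rfl) ((min_le_right _ _).trans le)
  have nd : ∀ t, t * om J ≤ 1 → Up (fun j => s j + t * om j) N →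
      Nd (fun j => s' j + t * o' j) (J + 1) (s J + 1) := fun t h1 h2 => by
    refine ⟨by simp only [← a2 0 (Nat.zero_le _), ← a3 0 (Nat.zero_le _), h0, o0]; ring,
      fun j hj => ?_, by simp only [b2, b3]; ring⟩
    rcases (Nat.lt_succ_iff.1 hj).eq_or_lt with rfl | hj
    · simp only [b2, b3, ← a2 j le_rfl, ← a3 j le_rfl]; linarith
    · simp only [← a2 j hj.le, ← a3 j hj.le, ← a2 (j + 1) hj, ← a3 (j + 1) hj]
      exact h2 j (by omega)
  have n0 := nd 0 (by simp) (by simpa using hs)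
  simp only [zero_mul, add_zero] at n0
  have ne := nd e ((mul_le_mul_of_nonneg_left ((le_abs_self _).trans (hB J le)) he).trans heB) h'
  have key := ray tp.lb n0 hT hB0 (om := o') (fun j hj => by
    rcases hj.eq_or_lt with rfl | hj
    · rw [b3, abs_zero]; exact hB0
    · rw [← a3 j (by omega)]; exact hB j (by omega)) he ne
  have c0 : lsg z' s' J = lsg z s J :=
    (lsg_congr (fun j hj => a1 j hj.le) a2).symm
  have c1 : lsg z' (fun j => s' j + e * o' j) J = lsg z (fun j => s j + e * om j) J :=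
    (lsg_congr (fun j hj => a1 j hj.le) fun j hj => by simp only [a2 j hj, a3 j hj]).symm
  rw [tp.phi ne.up, tp.phi n0.up, c0, c1, tp.sum', tp.sum', tp.hm, ← Hm_congr a1 a2 a3] at key
  rw [hz.phi h', hz.phi hs, hz.sum', hz.sum', hz.hm]
  have d1 : ∑ j ∈ Finset.range J, (z' (j + 1) - z' j) * o' (j + 1) *
      Gam (lsg z' s' (J + 1)) (s' (j + 1)) =
      ∑ j ∈ Finset.range J, (z (j + 1) - z j) * om (j + 1) * Gam (lsg z s N) (s (j + 1)) :=
    Finset.sum_congr rfl fun j hj => by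
      have hj' := Finset.mem_range.1 hj
      rw [tp.gam n0.up n0.zero (n0.up.le hj' (Nat.le_succ _)), c0,
        hz.gam hs h0 (hs.le hj' le), a1 j hj'.le, a1 (j + 1) hj', a2 (j + 1) hj', a3 (j + 1) hj']
  have d2 : ∑ j ∈ Finset.range J, (z' (j + 1) - z' j) * Gp (lsg z' s' (J + 1)) (s' (j + 1)) *
      o' (j + 1) ^ 2 =
      ∑ j ∈ Finset.range J, (z (j + 1) - z j) * Gp (lsg z s N) (s (j + 1)) * om (j + 1) ^ 2 :=
    Finset.sum_congr rfl fun j hj => by
      have hj' := Finset.mem_range.1 hj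
      rw [tp.gp n0.up n0.zero (n0.up.le hj' (Nat.le_succ _)), c0,
        hz.gp hs h0 (hs.le hj' le), a1 j hj'.le, a1 (j + 1) hj', a2 (j + 1) hj', a3 (j + 1) hj']
  rw [d1, d2] at key
  simp only [b2, b3, ← a2 J le_rfl, ← a3 J le_rfl] at key
  linarith

theorem hess_pthT (tp : Tp z J N) (s0 : s 0 = 0) (hT : s J + 1 ≤ T)
    (h0 : om 0 = 0) (hs : ∀ j < N, s j < s (j + 1)) :
    ∑ j ∈ Finset.range N, (z (j + 1) - z j) * om (j + 1) * Lom (mat (pth z s om N) 0) om (j + 1) ≤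
      ∑ j ∈ Finset.range N, (z (j + 1) - z j) * Gp (lsg z s N) (s (j + 1)) * om (j + 1) ^ 2 -
        Real.exp (-14 * T) / 4 * Hm z s om N := by
  have hz := tp.lb
  have h : Nd s N (s N) := ⟨s0, fun j hj => (hs j hj).le, rfl⟩
  obtain ⟨B, hB0, hB⟩ : ∃ B, 0 ≤ B ∧ ∀ j ≤ N, |om j| ≤ B :=
    ⟨∑ j ∈ Finset.range (N + 1), |om j|, Finset.sum_nonneg fun _ _ => abs_nonneg _, fun j hj =>
      Finset.single_le_sum (f := fun j => |om j|) (fun _ _ => abs_nonneg _)
        (Finset.mem_range.2 (by omega))⟩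
  obtain ⟨e0, he0, hp⟩ : ∃ e0, 0 < e0 ∧ ∀ t, 0 ≤ t → t ≤ e0 → t * B < 1 ∧ ∀ j < N,
      0 < s (j + 1) - s j + (om (j + 1) - om j) * t := by
    have : ∀ᶠ t in 𝓝 (0 : ℝ), ∀ j ∈ Finset.range N, 0 < s (j + 1) - s j + (om (j + 1) - om j) * t :=
      (Finset.eventually_all _).2 fun j hj => continuousAt_const.eventually_lt (by fun_prop)
        (by simpa using hs j (Finset.mem_range.1 hj))
    have t2 : ∀ᶠ t in 𝓝 (0 : ℝ), t * B < 1 :=
      ContinuousAt.eventually_lt (by fun_prop) continuousAt_const (by simp)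
    obtain ⟨ε, hε, h1⟩ := Metric.eventually_nhds_iff.1 (t2.and this)
    refine ⟨ε / 2, by positivity, fun t a b => ?_⟩
    have := h1 (y := t) (by rw [Real.dist_eq, sub_zero, abs_of_nonneg a]; linarith)
    exact ⟨this.1, fun j hj => this.2 j (Finset.mem_range.2 hj)⟩
  have nd : ∀ t, 0 ≤ t → t ≤ e0 → Up (fun j => s j + t * om j) N := fun t a b j hj => by
    have := (hp t a b).2 j hj; linarith
  set P := pth z s om N with hP
  set M := P.map ML.tl with hM
  set K : ℕ → Bool → Bool → ℝ := ek fun i => om (min i N) / 2 with hK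
  have lM : M.length = N := by rw [hM, List.length_map, hP, len_pth]
  have l0 : (mat P 0).length = N := by rw [mat_length, hP, len_pth]
  have R0 := rk1_pth 0 N z s om (nd 0 le_rfl he0.le)
  simp only [zero_mul, add_zero] at R0
  have ex0 : ∀ t, ∀ j ≤ N, ex (mat P t) j = z j := fun t j hj => by
    have e1 := m_pth t N z s om
    rcases hj.eq_or_lt with rfl | hj
    · rw [hz.top, ← ex_length (mat P t), mat_length, hP, len_pth]
    · have e2 := congrArg (fun l => l[j]?) e1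
      simp only [List.getElem?_map, List.getElem?_ofFn, hj, dite_true] at e2
      rw [Casc.ex]
      split
      · rename_i l hl
        rw [hl] at e2
        simpa using e2
      · rename_i hl
        rw [hl] at e2
        simp at e2
  have dm0 : ∀ t, ∀ j < N, dm (mat P t) 0 (j + 1) = z (j + 1) - z j := fun t j hj => by
    rw [dm, exP, ex0 t _ hj, ex0 t _ hj.le]
  have mo : Mono 0 (mat P 0) := mono_of R0 (hz.adm h) ((hz.adm h).head_pos one_pos).le
  refine le_of_cubic (C := 4 * ((2 + Real.exp (-14 * T) / 8 * (J + 1 : ℕ)) * B ^ 3 +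
    3 * cTay 2 2 2 * B ^ 3 / (3 : ℕ).factorial)) he0 fun e a b => ?_
  have ok : ∀ p ∈ P, p.Ok (Ioo 0 e) := fun p hp' => by
    obtain ⟨j, rfl⟩ := List.mem_ofFn.1 hp'
    exact ML.aff_ok _ _ _ _ (Or.inr fun t ht => (hp t ht.1.le (ht.2.le.trans b)).2 j j.2)
  have t1 := taylor_X_le (L := M) (S := K) (c := om N / 2) (T := fun _ _ _ => B) One15.w1 a
    (pth_okC z s om N isCompact_Icc)
    (fun k hk => by
      obtain ⟨p, hp', rfl⟩ := List.mem_map.1 hk
      exact (ok p hp').c1)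
    (fun t ht => by
      funext j x y
      rw [hM, Sacc_tl ht x y P ok j, hP, dcov_pth, hK, ek, h0]
      ring)
    (fun y => by rw [hK, ek, lM, min_self, ← sq, One15.spin_sq, mul_one])
    (by rwa [hM, atL_tl])
    (fun j x y => by
      rw [hK, ek, abs_mul, abs_mul, One15.abs_spin, One15.abs_spin, abs_div, abs_two]
      linarith [hB _ (min_le_right j N)])
    0 1 (E := B ^ 3) fun θ _ => by
      simp only [mom0, pi2_const One15.w1]
      rw [← Finset.sum_mul, sum_dm, ex_length, sub_zero, one_mul]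
  simp only [hM, atL_tl] at t1
  have x1 := X_spin (rk1_pth e N z s om (nd e a.le b)) 0
  have x0 := X_spin R0 0
  rw [zero_smul] at x1 x0
  rw [← hP] at x1 x0
  have eK : Dop (mat P 0) K = Dop (mat P 0) (ek fun i => om i / 2) :=
    Dop_congrS _ fun i hi => by rw [hK]; funext x y; simp only [ek, min_eq_left (l0 ▸ hi)]
  have p0 : pairF (mat P 0) K (TEf (fun _ => 1) (mat P 0) 0) = (∑ j ∈ Finset.range N,
      (z (j + 1) - z j) * om (j + 1) * Gam (lsg z s N) (s (j + 1))) / 2 := by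
    rw [pairF, l0, Finset.sum_range_succ', Finset.sum_div]
    have pk : ∀ c j, pi2 (fun _ => 1) (mat P 0) j (ek c j) 0 =
        c j * pi2 (fun _ => 1) (mat P 0) j (fun a b => spin a * spin b) 0 :=
      fun c j => pi2_const_mul _ _ _ _ _ _
    simp only [twoF_TEf One15.w1, hK, pk, Nat.zero_min, h0, zero_div, zero_mul,
      mul_zero, add_zero]
    refine Finset.sum_congr rfl fun j hj => ?_
    have hj' := Finset.mem_range.1 hj
    rw [dm0 0 j hj', pi2_Gam R0 (by rw [← hP]; omega), tm_lsg N z s _ hj', h.zero, sub_zero,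
      min_eq_left (show j + 1 ≤ N from hj')]
    ring
  have p1 : pairF (mat P 0) K (Dop (mat P 0) K (TEf (fun _ => 1) (mat P 0) 0)) =
      (∑ j ∈ Finset.range N, (z (j + 1) - z j) * om (j + 1) * Lom (mat P 0) om (j + 1)) / 2 := by
    rw [eK, hK, pairF_Lom, l0, Finset.sum_range_succ', Finset.sum_div]
    simp only [Nat.zero_min, h0, zero_div, zero_mul, mul_zero, add_zero]
    refine Finset.sum_congr rfl fun j hj => ?_
    have hj' := Finset.mem_range.1 hj
    rw [dm0 0 j hj', min_eq_left (show j + 1 ≤ N from hj')]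
    ring
  simp only [Finset.sum_range_succ, Finset.range_zero, Finset.sum_empty, Function.iterate_zero,
    Function.iterate_one, id_eq, p0, p1, x1, x0, sub_zero] at t1
  have t2 := (abs_le.1 t1).2
  have t3 := rayT tp s0 h.up hT hB0 hB a.le (hp e a.le b).1.le h0 (nd e a.le b)
  have f1 : ((0 + 1 : ℕ).factorial : ℝ) = 1 := by norm_num
  have f2 : ((1 + 1 : ℕ).factorial : ℝ) = 2 := by norm_num [Nat.factorial]
  have f3 : ((1 + 2 : ℕ).factorial : ℝ) = 6 := by norm_num [Nat.factorial]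
  have f4 : ((3 : ℕ).factorial : ℝ) = 6 := by norm_num [Nat.factorial]
  rw [f1, f2, f3] at t2
  rw [f4]
  change PhiL 1 (lsg z (fun j => s j + e * om j) N) 0 - (PhiL 1 (lsg z s N) 0 + _ - _) ≤
    3 * cTay 2 2 2 * B ^ 3 * e ^ 3 / 6 at t2
  simp only [zero_add, pow_one, show 1 + 1 = 2 from rfl] at t2
  linarith

variable {L : List (Lv Bool)} {ℓ : List (ℝ × ℝ)}

theorem hess_lsgT (tp : Tp z J N) (s0 : s 0 = 0) (hs : Up s N) (hT : s J + 1 ≤ T)
    (h0 : om 0 = 0) (H : List.Forall₂ (Rk1 spin) L (lsg z s N)) :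
    ∑ j ∈ Finset.range N, (z (j + 1) - z j) * om (j + 1) * Lom L om (j + 1) ≤
      ∑ j ∈ Finset.range N, (z (j + 1) - z j) * Gn L (j + 1) * om (j + 1) ^ 2 -
        Real.exp (-14 * T) / 4 * Hm z s om N := by
  have h : Nd s N (s N) := ⟨s0, hs, rfl⟩
  set M := (pth z s (fun j => j) N).map ML.tl with hM
  have hC : ∀ l ∈ M, l.OkC (Icc 0 1) := pth_okC z s _ N isCompact_Icc
  have nd : ∀ t, 0 ≤ t → Nd (fun j => s j + t * j) N (s N + t * N) := fun t a =>
    ⟨by simp [h.zero], fun j hj => by have := h.up j hj; push_cast; linarith, by simp⟩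
  have R : ∀ t, 0 ≤ t → List.Forall₂ (Rk1 spin) (atL M t) (lsg z (fun j => s j + t * j) N) :=
    fun t a => by rw [hM, atL_tl]; exact rk1_pth t N z s _ (nd t a).up
  have len : ∀ {L ℓ}, List.Forall₂ (Rk1 spin) L (lsg z ℓ N) → L.length = N := fun H => by
    rw [H.length_eq, lsg, List.length_ofFn]
  have G : ∀ {L s S}, Nd s N S → List.Forall₂ (Rk1 spin) L (lsg z s N) → ∀ j ∈ Finset.range N,
      Gn L (j + 1) = Gp (lsg z s N) (s (j + 1)) := fun h H j hj => by
    have hj' := Finset.mem_range.1 hj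
    rw [Gn_eq H (by rw [len H]; omega), tm_lsg N z _ _ hj', h.zero, sub_zero]
  have c1 : ContinuousOn (fun t => ∑ j ∈ Finset.range N,
      (z (j + 1) - z j) * om (j + 1) * Lom (atL M t) om (j + 1)) (Icc 0 1) :=
    continuousOn_finsetSum _ fun j _ => continuousOn_const.mul (cont_Lom hC om _)
  have c2 : ContinuousOn (fun t => ∑ j ∈ Finset.range N,
      (z (j + 1) - z j) * Gn (atL M t) (j + 1) * om (j + 1) ^ 2 -
        Real.exp (-14 * (T + t * J)) / 4 * Hm z (fun j => s j + t * j) om N) (Icc 0 1) :=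
    (continuousOn_finsetSum _ fun j _ => (continuousOn_const.mul (cont_Gn hC _)).mul
      continuousOn_const).sub (Continuous.continuousOn (by unfold Hm; fun_prop))
  have key := ContinuousWithinAt.closure_le (s := Ioc 0 1) (x := 0) (by simp)
    ((c1 0 (by simp)).mono Ioc_subset_Icc_self) ((c2 0 (by simp)).mono Ioc_subset_Icc_self)
    fun t ht => by
      have n := nd t ht.1.le
      have k := hess_pthT (s := fun j => s j + t * j) tp n.zero (T := T + t * J)
        (by show s J + t * J + 1 ≤ _; linarith) h0 fun j hj => by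
        have := h.up j hj; have := ht.1; push_cast; linarith
      have R' := rk1_pth 0 N z (fun j => s j + t * j) om (by simpa using n.up)
      simp only [zero_mul, add_zero] at R'
      rw [Lom_same (same_of_rk1 R' (R t ht.1.le))] at k
      refine k.trans_eq ?_
      congr 1
      exact Finset.sum_congr rfl fun j hj => by rw [G n (R t ht.1.le) j hj]
  have R0 := R 0 le_rfl
  simp only [zero_mul, add_zero] at key R0
  rw [Lom_same (same_of_rk1 R0 H)] at key
  refine key.trans_eq ?_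
  congr 1
  exact Finset.sum_congr rfl fun j hj => by rw [G h R0 j hj, G h H j hj]

/-- **(Hess)**, only the time below the first level of tilt one counts; `om` is free at the top -/
theorem hessT (H : List.Forall₂ (Rk1 spin) L ℓ) (hA : Adm 1 ℓ) (hJ : J ≤ L.length)
    (h1 : ex L J = 1) (hT : tm ℓ J + 1 ≤ T) (h0 : om 0 = 0) :
    ∑ j ∈ Finset.range (L.length + 1), dm L 0 j * om j * Lom L om j ≤
      ∑ j ∈ Finset.range (L.length + 1), dm L 0 j * Gn L j * om j ^ 2 -
        Real.exp (-14 * T) / 4 * Hc L ℓ om := by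
  have := hess_lsgT ⟨lb_ex H hA, hJ, h1⟩ (nd_tm H).zero (nd_tm H).up hT h0 (eq_lsg H ▸ H)
  rw [Finset.sum_range_succ', Finset.sum_range_succ', h0]
  simp only [mul_zero, zero_mul, add_zero, sq] at this ⊢
  exact this

theorem hessT_mu (H : List.Forall₂ (Rk1 spin) L ℓ) (hA : Adm 1 ℓ) (hJ : J ≤ L.length)
    (h1 : ex L J = 1) (hT : tm ℓ J + 1 ≤ T) (h0 : om 0 = 0) {τ : ℝ} (hτ : 0 ≤ τ) :
    ∑ j ∈ Finset.range (L.length + 1), dm L 0 j * (1 - τ * Gn L j) * om j ^ 2 +
      τ * (Real.exp (-14 * T) / 4) * Hc L ℓ om ≤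
      ∑ j ∈ Finset.range (L.length + 1), dm L 0 j * om j * (om j - τ * Lom L om j) := by
  have := mul_le_mul_of_nonneg_left (hessT H hA hJ h1 hT h0) hτ
  have e1 : ∀ j, dm L 0 j * (1 - τ * Gn L j) * om j ^ 2 =
      dm L 0 j * om j ^ 2 - τ * (dm L 0 j * Gn L j * om j ^ 2) := fun j => by ring
  have e2 : ∀ j, dm L 0 j * om j * (om j - τ * Lom L om j) =
      dm L 0 j * om j ^ 2 - τ * (dm L 0 j * om j * Lom L om j) := fun j => by ring
  simp only [e1, e2, Finset.sum_sub_distrib, ← Finset.mul_sum]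
  linarith

theorem hessT_off (H : List.Forall₂ (Rk1 spin) L ℓ) (hA : Adm 1 ℓ) (hJ : J ≤ L.length)
    (h1 : ex L J = 1) (hT : tm ℓ J + 1 ≤ T) (h0 : om 0 = 0) :
    Real.exp (-14 * T) / 4 * Hc L ℓ om ≤
      -∑ j ∈ Finset.range (L.length + 1), dm L 0 j * om j * Loff L om j := by
  have := hessT H hA hJ h1 hT h0
  have e : ∀ j, dm L 0 j * om j * Loff L om j =
      dm L 0 j * om j * Lom L om j - dm L 0 j * Gn L j * om j ^ 2 := fun j => by unfold Loff; ring
  simp only [e, Finset.sum_sub_distrib]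
  linarith

theorem hessT_pairF (H : List.Forall₂ (Rk1 spin) L ℓ) (hA : Adm 1 ℓ) (hJ : J ≤ L.length)
    (h1 : ex L J = 1) (hT : tm ℓ J + 1 ≤ T) (h0 : om 0 = 0) :
    pairF L (ek om) (Dop L (ek om) (TEf (fun _ => 1) L 0)) ≤
      2 * ∑ j ∈ Finset.range (L.length + 1), dm L 0 j * Gn L j * om j ^ 2 -
        Real.exp (-14 * T) / 2 * Hc L ℓ om := by
  have e : ek om = ek fun i => 2 * om i / 2 := by funext j x y; simp [ek]
  have h := hessT H hA hJ h1 hT (om := fun i => 2 * om i) (by simp [h0])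
  have p := pairF_Lom L om fun i => 2 * om i
  rw [← e] at p
  have e1 : Hc L ℓ (fun i => 2 * om i) = 4 * Hc L ℓ om := by
    simp only [Hc, mul_left_comm _ (2 : ℝ), ← Finset.mul_sum, mul_pow]
    rw [Finset.mul_sum]
    exact Finset.sum_congr rfl fun k _ => by ring
  have e2 : ∀ j, dm L 0 j * (2 * om j) * Lom L (fun i => 2 * om i) j =
      2 * (dm L 0 j * om j * Lom L (fun i => 2 * om i) j) := fun j => by ring
  have e3 : ∀ j, dm L 0 j * Gn L j * (2 * om j) ^ 2 = 4 * (dm L 0 j * Gn L j * om j ^ 2) :=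
    fun j => by ring
  simp only [e1, e2, e3, ← Finset.mul_sum] at h
  rw [p]
  linarith

end Crest.Agent.T156.Hess65

end
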