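import Crest.Agent.T156.Pder_69

/-!
Row 156 (helper31): dependence of the one-site Parisi data on the tilts, `L¹` norm, two lists on
the same slices.  All space derivatives, derivatives of conditional expectations, and the
comparison of the laws with the parity gain.
-/

set_option autoImplicit false

namespace Crest.Agent.T156.Ker

open MeasureTheory ProbabilityTheory Filter Topology Set
open Crest.Agent.R164.GC Crest.Agent.R339.B Crest.Agent.R339.Var Crest.Agent.T157.Pf
open Crest.Agent.T156.Pp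
open Crest.ProbabilityR.InvariantGlass (gaussOp)

noncomputable section

/-- same slices -/
def Sl (l l' : List (ℝ × ℝ)) : Prop := List.Forall₂ (fun p p' : ℝ × ℝ => p.2 = p'.2) l l'

/-- `∫ |ζ' - ζ|` -/
def dN : List (ℝ × ℝ) → List (ℝ × ℝ) → ℝ
  | p :: l, p' :: l' => |p'.1 - p.1| * p.2 + dN l l'
  | _, _ => 0

/-- `∑ |ζ' - ζ| · length · (end time)` -/
def dW : List (ℝ × ℝ) → List (ℝ × ℝ) → ℝ
  | p :: l, p' :: l' => p.2 * dN (p :: l) (p' :: l') + dW l l'
  | _, _ => 0

/-- `∫ ζ` -/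
def Zs : List (ℝ × ℝ) → ℝ
  | [] => 0
  | p :: l => p.1 * p.2 + Zs l

/-- nonnegative lengths -/
def Nn (l : List (ℝ × ℝ)) : Prop := ∀ p ∈ l, 0 ≤ p.2

theorem Nn.tail {p : ℝ × ℝ} {l : List (ℝ × ℝ)} (h : Nn (p :: l)) : Nn l :=
  fun q hq => h q (List.mem_cons_of_mem _ hq)

theorem Nn.head {p : ℝ × ℝ} {l : List (ℝ × ℝ)} (h : Nn (p :: l)) : 0 ≤ p.2 :=
  h p List.mem_cons_self

theorem nn_of_adm {l : List (ℝ × ℝ)} (h : Adm 1 l) : Nn l := fun q hq => (Adm.pos h q hq).2

theorem dN_nonneg : ∀ {l : List (ℝ × ℝ)} (l' : List (ℝ × ℝ)), Nn l → 0 ≤ dN l l'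
  | [], _, _ => by simp [dN]
  | _ :: _, [], _ => by simp [dN]
  | _ :: _, _ :: l', h => add_nonneg (mul_nonneg (abs_nonneg _) h.head) (dN_nonneg l' h.tail)

theorem dW_nonneg : ∀ {l : List (ℝ × ℝ)} (l' : List (ℝ × ℝ)), Nn l → 0 ≤ dW l l'
  | [], _, _ => by simp [dW]
  | _ :: _, [], _ => by simp [dW]
  | _ :: _, _ :: l', h => add_nonneg (mul_nonneg h.head (dN_nonneg _ h)) (dW_nonneg l' h.tail)

theorem dW_le : ∀ {l : List (ℝ × ℝ)} (l' : List (ℝ × ℝ)), Nn l → dW l l' ≤ TT l * dN l l'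
  | [], _, _ => by simp [dW, dN]
  | _ :: _, [], _ => by simp [dW, dN]
  | p :: l, p' :: l', h => by
    have h1 := dW_le l' h.tail
    have h2 := mul_nonneg (TT_nonneg h.tail) (mul_nonneg (abs_nonneg (p'.1 - p.1)) h.head)
    rw [TT_cons]
    simp only [dW, dN]
    nlinarith

theorem dN_append {M M' : List (ℝ × ℝ)} (h : Sl M M') (R R' : List (ℝ × ℝ)) :
    dN (M ++ R) (M' ++ R') = dN M M' + dN R R' := by
  induction h with
  | nil => simp [dN]
  | cons _ _ ih => simp only [List.cons_append, dN, ih]; ring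

theorem Sl.append {M M' R R' : List (ℝ × ℝ)} (h : Sl M M') (h' : Sl R R') :
    Sl (M ++ R) (M' ++ R') := List.rel_append h h'

theorem Sl.tt {l l' : List (ℝ × ℝ)} (h : Sl l l') : TT l' = TT l := by
  induction h with
  | nil => rfl
  | cons h1 _ ih => rw [TT_cons, TT_cons, ih, h1]

theorem TT_append (M R : List (ℝ × ℝ)) : TT (M ++ R) = TT M + TT R := by simp [TT]

theorem adm_head {p : ℝ × ℝ} {l : List (ℝ × ℝ)} (h : Adm 1 (p :: l)) {v : ℝ} (hv : 0 ≤ v) :
    Adm 1 ((p.1, v) :: l) := ⟨h.1, h.2.1, hv, h.2.2.2⟩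

theorem abs_sum_le {j k : ℕ} (hj : j ≤ k) {a b : ℕ → ℝ} {B : ℝ} (hB : 0 ≤ B)
    (h : ∀ i < j, |a i * b i| ≤ B) :
    |∑ i ∈ Finset.range j, (j.choose (i + 1) : ℝ) * a i * b i| ≤ 2 ^ k * B := by
  have h1 : ∑ i ∈ Finset.range j, (j.choose (i + 1) : ℝ) ≤ 2 ^ k := by
    have h2 := Nat.sum_range_choose j
    rw [Finset.sum_range_succ'] at h2
    have h3 : ∑ i ∈ Finset.range j, j.choose (i + 1) ≤ 2 ^ k :=
      (Nat.le.intro h2).trans (Nat.pow_le_pow_right two_pos hj)
    exact_mod_cast h3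
  refine (Finset.abs_sum_le_sum_abs _ _).trans ?_
  refine le_trans (Finset.sum_le_sum fun i hi => ?_)
    ((Finset.sum_mul _ _ _).symm.trans_le (mul_le_mul_of_nonneg_right h1 hB))
  rw [mul_assoc, abs_mul, Nat.abs_cast]
  exact mul_le_mul_of_nonneg_left (h i (Finset.mem_range.1 hi)) (Nat.cast_nonneg _)

theorem gron_step {A N f d c t : ℝ} (hA : 0 ≤ A) (hc : 0 ≤ c) (ht : 0 ≤ t) (hd : 0 ≤ d)
    (hf : 0 ≤ f) : (A * N * Real.exp (2 * c * t) + A * f * d) * Real.exp (2 * c * d) ≤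
      A * (f * d + N) * Real.exp (2 * c * (d + t)) := by
  have e1 : 1 ≤ Real.exp (2 * c * t) := Real.one_le_exp (by positivity)
  rw [show 2 * c * (d + t) = 2 * c * t + 2 * c * d by ring, Real.exp_add, ← mul_assoc]
  refine mul_le_mul_of_nonneg_right ?_ (Real.exp_pos _).le
  have : 0 ≤ A * f * d := by positivity
  nlinarith

/-- **all space derivatives are Lipschitz in `ζ` for the `L¹` norm** -/
theorem Dn_sl (T : ℝ) (k : ℕ) : ∃ C : ℝ, 1 ≤ C ∧ ∀ l l' : List (ℝ × ℝ), Sl l l' → Adm 1 l →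
    Adm 1 l' → TT l ≤ T → ∀ j ≤ k, ∀ x,
      |Dn j (PhiL 1 l') x - Dn j (PhiL 1 l) x| ≤ C * dN l l' := by
  obtain ⟨C0, h1, hC⟩ := Dn_bound T (k + 2)
  set c : ℝ := 2 ^ k * (2 * C0) + C0 with hc
  set A : ℝ := 2 ^ k * C0 ^ 2 + C0 with hA
  have hC0 : 0 ≤ C0 := by linarith
  have hc0 : 0 ≤ c := by positivity
  have hA1 : 1 ≤ A := by
    have : 0 ≤ 2 ^ k * C0 ^ 2 := by positivity
    linarith
  have hA0 : 0 ≤ A := by linarith
  have key : ∀ l l' : List (ℝ × ℝ), Sl l l' → Adm 1 l → Adm 1 l' → TT l ≤ T → ∀ j ≤ k, ∀ x,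
      |Dn j (PhiL 1 l') x - Dn j (PhiL 1 l) x| ≤ A * dN l l' * Real.exp (2 * c * TT l) := by
    intro l l' hs
    induction hs with
    | nil => intro _ _ _ j _ x; simp [dN]
    | @cons p p' l l' hp hl ih =>
      intro h h' hT j hj x
      have hP := PhiL_prof one_pos l
      have hP' := PhiL_prof one_pos l'
      have hT0 := Min62.TT_nn h.2.2.2
      have hd := h.2.2.1
      have htt : TT l' = TT l := Sl.tt hl
      rw [TT_cons] at hT ⊢
      have hN0 := dN_nonneg l' (nn_of_adm h.2.2.2)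
      have low : ∀ v ∈ Icc 0 p.2, ∀ i < k + 2, ∀ y, |Dn i (gaussOp p.1 v (PhiL 1 l)) y| ≤ C0 :=
        fun v hv i hi y => hC i hi ((p.1, v) :: l) (adm_head h hv.1)
          (by rw [TT_cons]; linarith [hv.2]) y
      have low' : ∀ v ∈ Icc 0 p.2, ∀ i < k + 2, ∀ y, |Dn i (gaussOp p'.1 v (PhiL 1 l')) y| ≤ C0 :=
        fun v hv i hi y => hC i hi ((p'.1, v) :: l') (adm_head h' hv.1)
          (by rw [TT_cons]; linarith [hv.2]) y
      have hB : ∃ B, ∀ (i : Fin (k + 1)) v y, |Dn i (gaussOp p'.1 v (PhiL 1 l')) y -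
          Dn i (gaussOp p.1 v (PhiL 1 l)) y| ≤ B := by
        have : ∀ i : Fin (k + 1), ∃ B, ∀ v y, |Dn i (gaussOp p'.1 v (PhiL 1 l')) y -
            Dn i (gaussOp p.1 v (PhiL 1 l)) y| ≤ B := fun i => by
          obtain ⟨B, hB⟩ := Ak_bdd hP p.1 hP.bd i
          obtain ⟨B', hB'⟩ := Ak_bdd hP' p'.1 hP'.bd i
          rw [Ak_eq hP] at hB
          rw [Ak_eq hP'] at hB'
          exact ⟨B' + B, fun v y => (abs_sub _ _).trans (add_le_add (hB' v y) (hB v y))⟩
        choose B hB using this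
        exact ⟨∑ i, |B i|, fun i v y => (hB i v y).trans ((le_abs_self _).trans
          (Finset.single_le_sum (f := fun i => |B i|) (fun _ _ => abs_nonneg _)
            (Finset.mem_univ i)))⟩
      obtain ⟨B, hB⟩ := hB
      have g := gronwall hP h.1.ne' (ι := Fin (k + 1))
        (F := fun i v y => Dn i (gaussOp p'.1 v (PhiL 1 l')) y - Dn i (gaussOp p.1 v (PhiL 1 l)) y)
        (fun i => (Lip62.TB_change (tb_Dn hP' p'.1 i)).sub (tb_Dn hP p.1 i))
        (c := c) (f := A * |p'.1 - p.1|) (M := A * dN l l' * Real.exp (2 * c * TT l))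
        hc0 (by positivity) (by positivity) hd hB
        (fun v hv N hN hF i y => ?_) (fun i y => ?_) ⟨j, Nat.lt_succ_of_le hj⟩ x
      · refine le_trans (le_of_eq ?_) (g.trans (gron_step hA0 hc0 hT0 hd (abs_nonneg _)))
        simp only [PhiL, hp]
      · have hi : (i : ℕ) ≤ k := Nat.lt_succ_iff.1 i.2
        have hF' : ∀ a ≤ k, ∀ y, |Dn a (gaussOp p'.1 v (PhiL 1 l')) y -
            Dn a (gaussOp p.1 v (PhiL 1 l)) y| ≤ N := fun a ha => hF ⟨a, Nat.lt_succ_of_le ha⟩
        have he0 := abs_nonneg (p'.1 - p.1)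
        have d1 := Lip62.drift_le hP hP' h.1 (Lip62.head_le_one h) (e := |p'.1 - p.1|) (N := N)
          (by rw [abs_sub_comm]) (v := v) (x := y) (by
            rw [abs_sub_comm, ← Dn_zero, ← Dn_zero]; exact hF' 0 (Nat.zero_le _) y)
        have d2 := mul_le_mul d1 (low' v hv (i + 1) (by omega) y) (abs_nonneg _) (by positivity)
        rw [← abs_mul] at d2
        set S' := ∑ a ∈ Finset.range i, ((i : ℕ).choose (a + 1) : ℝ) *
          Dn (a + 1) (gaussOp p'.1 v (PhiL 1 l')) y * Dn (i - a) (gaussOp p'.1 v (PhiL 1 l')) y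
          with hS'
        set S := ∑ a ∈ Finset.range i, ((i : ℕ).choose (a + 1) : ℝ) *
          Dn (a + 1) (gaussOp p.1 v (PhiL 1 l)) y * Dn (i - a) (gaussOp p.1 v (PhiL 1 l)) y with hS
        have s1 : |S'| ≤ 2 ^ k * C0 ^ 2 := abs_sum_le hi (by positivity) fun a ha => by
          rw [abs_mul, sq]
          exact mul_le_mul (low' v hv _ (by omega) y) (low' v hv _ (by omega) y) (abs_nonneg _) hC0
        have s2 : |S' - S| ≤ 2 ^ k * (2 * C0 * N) := by
          have := abs_sum_le hi (b := fun _ => 1) (B := 2 * C0 * N) (a := fun a =>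
            Dn (a + 1) (gaussOp p'.1 v (PhiL 1 l')) y * Dn (i - a) (gaussOp p'.1 v (PhiL 1 l')) y -
            Dn (a + 1) (gaussOp p.1 v (PhiL 1 l)) y * Dn (i - a) (gaussOp p.1 v (PhiL 1 l)) y)
            (by positivity) fun a ha => by
              have a1 := mul_le_mul (hF' (a + 1) (by omega) y) (low' v hv (i - a) (by omega) y)
                (abs_nonneg _) hN
              have a2 := mul_le_mul (low v hv (a + 1) (by omega) y) (hF' (i - a) (by omega) y)
                (abs_nonneg _) hC0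
              rw [← abs_mul] at a1 a2
              refine le_trans (le_of_eq ?_) ((abs_add_le _ _).trans
                ((add_le_add a1 a2).trans_eq (by ring)))
              congr 1
              ring
          refine le_trans (le_of_eq ?_) this
          rw [hS', hS, ← Finset.sum_sub_distrib]
          congr 1
          exact Finset.sum_congr rfl fun a _ => by ring
        have s3 := mul_le_mul_of_nonneg_left s1 he0
        have s4 := mul_le_mul (Lip62.head_le_one h) s2 (abs_nonneg _) zero_le_one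
        rw [← abs_of_pos h.1, ← abs_mul] at s4
        rw [← abs_mul] at s3
        have t1 := abs_le.1 d2
        have t2 := abs_le.1 s3
        have t3 := abs_le.1 s4
        rw [abs_le, hc, hA]
        constructor <;> linarith [t1.1, t1.2, t2.1, t2.2, t3.1, t3.2]
      · simp only [gaussOp_v0 h.1.ne', gaussOp_v0 h'.1.ne']
        exact ih h.2.2.2 h'.2.2.2 (by linarith) i (Nat.lt_succ_iff.1 i.2) y
  refine ⟨A * Real.exp (2 * c * |T|), one_le_mul_of_one_le_of_one_le hA1
    (Real.one_le_exp (by positivity)), fun l l' hs h h' hT j hj x =>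
    (key l l' hs h h' hT j hj x).trans ?_⟩
  have := dN_nonneg l' (nn_of_adm h)
  rw [mul_right_comm]
  gcongr
  exact hT.trans (le_abs_self T)

/-- expectation at the end of `M`; the remaining blocks are `R` -/
def EP (R : List (ℝ × ℝ)) (F : ℝ → ℝ) : List (ℝ × ℝ) → ℝ → ℝ
  | [] => F
  | p :: M => tE p.1 p.2 (PhiL 1 (M ++ R)) (EP R F M)

theorem EP_bd (R : List (ℝ × ℝ)) {F : ℝ → ℝ} (hF : BD F) : ∀ M, BD (EP R F M)
  | [] => hF
  | _ :: M => (PhiL_prof one_pos _).tE_bd _ _ (EP_bd R hF M)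

theorem tE_even {Φ P : ℝ → ℝ} (he : ∀ x, Φ (-x) = Φ x) (hP : ∀ x, P (-x) = P x) (a v x : ℝ) :
    tE a v Φ P (-x) = tE a v Φ P x := by
  unfold tE
  rw [H_neg, H_neg]
  simp only [he, hP]

theorem PhiL_even : ∀ (l : List (ℝ × ℝ)) (x : ℝ), PhiL 1 l (-x) = PhiL 1 l x
  | [], x => phi0_even 1 x
  | p :: l, x => gaussOp_even (PhiL_even l) p.1 p.2 x

theorem EP_even (R : List (ℝ × ℝ)) {F : ℝ → ℝ} (hF : ∀ x, F (-x) = F x) :
    ∀ M x, EP R F M (-x) = EP R F M x
  | [] => hF
  | _ :: M => tE_even (PhiL_even _) (EP_even R hF M) _ _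

/-- derivatives of conditional expectations -/
theorem EP_der (T : ℝ) (k : ℕ) : ∃ C : ℝ, 1 ≤ C ∧ ∀ (M R : List (ℝ × ℝ)) (F : ℝ → ℝ) (K : ℝ),
    Adm 1 (M ++ R) → TT (M ++ R) ≤ T → BD F →
    (∀ j, 1 ≤ j → j ≤ k → ∀ x, |iteratedDeriv j F x| ≤ K) →
    ∀ j, 1 ≤ j → j ≤ k → ∀ x, |iteratedDeriv j (EP R F M) x| ≤ C * K := by
  obtain ⟨C0, h1, hC⟩ := Dn_bound T (k + 1)
  set c : ℝ := 2 ^ k * C0 with hc
  have hC0 : 0 ≤ C0 := by linarith
  have hc0 : 0 ≤ c := by positivity
  have key : ∀ (R : List (ℝ × ℝ)) (F : ℝ → ℝ) (K : ℝ), BD F →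
      (∀ j, 1 ≤ j → j ≤ k → ∀ x, |iteratedDeriv j F x| ≤ K) → ∀ M : List (ℝ × ℝ),
      Adm 1 (M ++ R) → TT (M ++ R) ≤ T → ∀ j, 1 ≤ j → j ≤ k → ∀ x,
        |iteratedDeriv j (EP R F M) x| ≤ K * Real.exp (2 * c * TT M) := by
    intro R F K hF hK M
    induction M with
    | nil => intro _ _ j h1 h2 x; simpa [TT, EP] using hK j h1 h2 x
    | cons p M ih =>
      intro h hT j j1 j2 x
      rw [List.cons_append] at h hT
      have hP := PhiL_prof one_pos (M ++ R)
      have hd := h.2.2.1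
      have hK0 : 0 ≤ K := (abs_nonneg _).trans (hK j j1 j2 0)
      rw [TT_cons] at hT ⊢
      have hE := EP_bd R hF M
      have hB : ∃ B, ∀ (i : {i // 1 ≤ i ∧ i ≤ k}) v y,
          |Ak (PhiL 1 (M ++ R)) p.1 (EP R F M) i v y| ≤ B := by
        choose B hB using fun i => Ak_bdd hP p.1 hE i
        exact ⟨∑ i ∈ Finset.range (k + 1), |B i|, fun i v y => (hB i v y).trans
          ((le_abs_self _).trans (Finset.single_le_sum (f := fun i => |B i|)
            (fun _ _ => abs_nonneg _) (Finset.mem_range.2 (Nat.lt_succ_of_le i.2.2))))⟩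
      obtain ⟨B, hB⟩ := hB
      have g := gronwall hP h.1.ne' (ι := {i // 1 ≤ i ∧ i ≤ k})
        (F := fun i => Ak (PhiL 1 (M ++ R)) p.1 (EP R F M) i) (fun i => tb_Ak hP p.1 hE i)
        (c := c) (f := 0) (M := K * Real.exp (2 * c * TT M)) hc0 le_rfl (by positivity) hd hB
        (fun v hv N hN hF i y => ?_) (fun i y => ?_) ⟨j, j1, j2⟩ x
      · refine g.trans_eq ?_
        rw [zero_mul, add_zero, mul_assoc, ← Real.exp_add]
        congr 2
        ring
      · unfold LA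
        rw [abs_mul, abs_neg, abs_of_pos h.1, add_zero, hc, mul_assoc]
        refine (mul_le_of_le_one_left (abs_nonneg _) (Lip62.head_le_one h)).trans
          (abs_sum_le i.2.2 (by positivity) fun a ha => ?_)
        rw [abs_mul, Ak_eq hP]
        have := i.2.2
        exact mul_le_mul (hC (a + 1) (by omega) ((p.1, v) :: (M ++ R)) (adm_head h hv.1)
          (by rw [TT_cons]; linarith [hv.2]) y) (hF ⟨i - a, by omega, by omega⟩ y) (abs_nonneg _) hC0
      · have e : At (PhiL 1 (M ++ R)) p.1 (EP R F M) 0 = EP R F M := tE_v0 _ _ _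
        unfold Ak
        rw [e]
        exact ih h.2.2.2 (by linarith) i i.2.1 i.2.2 y
  refine ⟨Real.exp (2 * c * |T|), Real.one_le_exp (by positivity),
    fun M R F K h hT hF hK j j1 j2 x => (key R F K hF hK M h hT j j1 j2 x).trans ?_⟩
  have hK0 : 0 ≤ K := (abs_nonneg _).trans (hK j j1 j2 0)
  have h2 : 0 ≤ TT R := TT_nonneg fun q hq => nn_of_adm h q (List.mem_append_right _ hq)
  rw [TT_append] at hT
  rw [mul_comm]
  gcongr
  linarith [le_abs_self T]

theorem odd_le {g : ℝ → ℝ} {L : ℝ} (hg : Differentiable ℝ g) (h0 : g 0 = 0)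
    (hb : ∀ x, |deriv g x| ≤ L) (y : ℝ) : |g y| ≤ L * |y| := by
  simpa [h0] using lip_of_deriv_le (fun x => (hg x).hasDerivAt) hb y 0

theorem zero_of_odd {g : ℝ → ℝ} (h : ∀ x, g (-x) = -g x) : g 0 = 0 := by
  have := h 0
  rw [neg_zero] at this
  linarith

section block

variable {Φ : ℝ → ℝ} (h : Prof Φ) {m : ℝ} (hm : 0 < m)
include h hm

theorem VV_le {F G : ℝ → ℝ → ℝ} (hF : UG F) (hG : UG G) {d τ : ℝ} (h0 : 0 ≤ τ) (h1 : τ ≤ d)
    {a c : ℝ} (hle : ∀ y, F (d - τ) y ≤ a + c * G (d - τ) y) (x : ℝ) :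
    VV Φ m d F x τ ≤ a + c * VV Φ m d G x τ := by
  have hl := (h.step m (d - τ)).lip
  rw [VV_eq h hm.ne' _ h0 h1, VV_eq h hm.ne' _ h0 h1, ← tE_const_mul, ← tE_const hl m τ a x,
    ← tE_add hl m τ (EG.const a) ((hG.eg _).const_mul c)]
  exact tE_mono hl m τ (hF.eg _) ((EG.const a).add ((hG.eg _).const_mul c)) hle x

theorem VV_abs {F G : ℝ → ℝ → ℝ} (hF : UG F) (hG : UG G) {d τ : ℝ} (h0 : 0 ≤ τ) (h1 : τ ≤ d)
    {a c : ℝ} (hle : ∀ y, |F (d - τ) y| ≤ a + c * G (d - τ) y) (x : ℝ) :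
    |VV Φ m d F x τ| ≤ a + c * VV Φ m d G x τ := by
  have a1 := VV_le h hm hF hG h0 h1 (fun y => (le_abs_self _).trans (hle y)) x
  have a2 := VV_le h hm (hF.const_mul (-1)) hG h0 h1 (a := a) (c := c)
    (fun y => by linarith [neg_abs_le (F (d - τ) y), hle y]) x
  rw [VV_eq h hm.ne' _ h0 h1, tE_const_mul, ← VV_eq h hm.ne' F h0 h1] at a2
  rw [abs_le]
  constructor <;> linarith

/-- second moment inside a block -/
theorem VV_sq (hm1 : m ≤ 1) {d : ℝ}
    (hu : ∀ v ∈ Icc 0 d, ∀ y, |deriv (gaussOp m v Φ) y| ≤ |y|) {τ : ℝ} (h0 : 0 ≤ τ) (h1 : τ ≤ d)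
    (x : ℝ) : VV Φ m d (fun _ y => y * y) x τ ≤ (x ^ 2 + τ) * Real.exp (2 * τ) := by
  have t : TB Φ m (fun _ y => y * y) (fun v y => y * Dk Φ m 1 v y + y * Dk Φ m 1 v y + 1 * 1)
      (fun _ y => 1 * y + y * 1) := (tb_id Φ m).mul (tb_id Φ m)
  have hd := h0.trans h1
  have mono := monotoneOn_of_block (a := 0) (b := d)
    (f := fun τ => -(Real.exp (-2 * (τ - 0)) * (VV Φ m d (fun _ y => y * y) x τ + 1 / 2)))
    ((by fun_prop : Continuous fun τ : ℝ => Real.exp (-2 * (τ - 0))).mul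
      ((VV_cont h t.ug d x).add continuous_const)).neg.continuousOn
    (fun τ hτ => by
      have e := exp_hasDerivAt 1 (-2) 0 τ
      simp only [one_mul] at e
      exact (e.fun_mul ((VV_deriv h t hτ.1 hτ.2 x).add_const (1 / 2))).fun_neg)
    (fun τ hτ => by
      have a := VV_le h hm (t.ugL h) t.ug hτ.1.le hτ.2.le (a := 1) (c := 2) (fun y => by
        have b1 := hu (d - τ) ⟨by linarith [hτ.2], by linarith [hτ.1]⟩ y
        have b2 : y * Dk Φ m 1 (d - τ) y ≤ y * y := by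
          rw [D1_eq h, Lip62.At_deriv h]
          calc _ ≤ |y * (m * deriv (gaussOp m (d - τ) Φ) y)| := le_abs_self _
            _ = |y| * (m * |deriv (gaussOp m (d - τ) Φ) y|) := by
                rw [abs_mul, abs_mul, abs_of_pos hm]
            _ ≤ |y| * (1 * |y|) := mul_le_mul_of_nonneg_left
                (mul_le_mul hm1 b1 (abs_nonneg _) zero_le_one) (abs_nonneg _)
            _ = y * y := by rw [one_mul, abs_mul_abs_self]
        linarith) x
      have e := mul_le_mul_of_nonneg_left a (Real.exp_pos (-2 * (τ - 0))).le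
      have key : ∀ E V L : ℝ, E * L ≤ E * (1 + 2 * V) → 0 ≤ -(-2 * E * (V + 1 / 2) + E * L) :=
        fun E V L hh => by linarith
      exact key _ _ _ e)
  have i := mono ⟨le_rfl, hd⟩ ⟨h0, h1⟩ h0
  simp only at i
  rw [VV_zero h hm.ne' _ hd] at i
  simp only [sub_zero, mul_zero, Real.exp_zero, one_mul] at i
  have e1 : Real.exp (-2 * τ) * Real.exp (2 * τ) = 1 := by rw [← Real.exp_add]; simp
  have e2 := Real.add_one_le_exp (-2 * τ)
  have e3 := Real.exp_pos (2 * τ)
  have i2 := mul_le_mul_of_nonneg_right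
    (show Real.exp (-2 * τ) * (VV Φ m d (fun _ y => y * y) x τ + 1 / 2) ≤ x * x + 1 / 2 by
      linarith) e3.le
  rw [mul_right_comm, e1, one_mul] at i2
  nlinarith [mul_le_mul_of_nonneg_right e2 e3.le]

/-- comparison of two tilted averages with quadratic weights -/
theorem block_par (hm1 : m ≤ 1) {Φ' : ℝ → ℝ} (h' : Prof Φ') {m' d A B c0 c : ℝ} (hd : 0 ≤ d)
    (hu : ∀ v ∈ Icc 0 d, ∀ y, |deriv (gaussOp m v Φ) y| ≤ |y|) {P P' : ℝ → ℝ} (hP : BD P)
    (hP' : BD P') (hB : 0 ≤ B) (hc : 0 ≤ c) (hM : ∀ y, |P y - P' y| ≤ A + B * y ^ 2)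
    (hL : ∀ v ∈ Icc 0 d, ∀ y,
      |Dk Φ m 1 v y - Dk Φ' m' 1 v y| * |deriv (At Φ' m' P' v) y| ≤ c0 + c * y ^ 2) (x : ℝ) :
    |tE m d Φ P x - tE m' d Φ' P' x| ≤
      A + c0 * d + (B + c * d) * ((x ^ 2 + d) * Real.exp (2 * d)) := by
  have t := (Lip62.tb_At' h m hP).sub (Lip62.TB_change (Φ := Φ) (m := m) (Lip62.tb_At' h' m' hP'))
  have u2 : UG fun _ y : ℝ => y * y := UG.id.mul UG.id
  set Q := (x ^ 2 + d) * Real.exp (2 * d) with hQ
  have hq : ∀ τ ∈ Icc 0 d, VV Φ m d (fun _ y => y * y) x τ ≤ Q := fun τ hτ =>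
    (VV_sq h hm hm1 hu hτ.1 hτ.2 x).trans (by
      rw [hQ]
      have := hτ.1
      gcongr
      · exact hτ.2
      · exact hτ.2)
  have a1 := abs_sub_le_of_rder (a := 0) (b := d) (s := 0) (t := d) (C := c0 + c * Q)
    (VV_cont h t.ug d x).continuousOn
    (fun r hr => rder_of_block (VV_cont h t.ug d x) (VV_cont h (t.ugL h) d x)
      (fun τ a b => VV_deriv h t a b x) hr.1 hr.2) ⟨le_rfl, hd⟩ ⟨hd, le_rfl⟩ (fun r hr => by
      rw [min_eq_left hd, max_eq_right hd] at hr
      refine (VV_abs h hm (t.ugL h) u2 hr.1 hr.2.le (a := c0) (c := c) (fun y => ?_) x).trans ?_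
      · rw [zero_add, zero_sub, abs_neg, abs_mul, ← sq]
        exact hL _ ⟨by linarith [hr.2], by linarith [hr.1]⟩ y
      · have := mul_le_mul_of_nonneg_left (hq r ⟨hr.1, hr.2.le⟩) hc
        linarith)
  have a2 := VV_abs h hm t.ug u2 hd le_rfl (a := A) (c := B) (fun y => by
    have e1 : At Φ m P 0 = P := tE_v0 m Φ P
    have e2 : At Φ' m' P' 0 = P' := tE_v0 m' Φ' P'
    rw [sub_self, e1, e2, ← sq]
    exact hM y) x
  rw [VV_zero h hm.ne' _ hd, sub_zero, abs_of_nonneg hd] at a1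
  have a3 := mul_le_mul_of_nonneg_left (hq d ⟨hd, le_rfl⟩) hB
  have b1 := abs_le.1 a1
  have b2 := abs_le.1 a2
  show |At Φ m P d x - At Φ' m' P' d x| ≤ _
  rw [abs_le]
  constructor <;> linarith [b1.1, b1.2, b2.1, b2.2]

end block

theorem u_le {l : List (ℝ × ℝ)} (h : Adm 1 l) (y : ℝ) : |deriv (PhiL 1 l) y| ≤ |y| := by
  have hI := PhiL_inv one_pos h
  simpa using odd_le hI.prof.bd.diff hI.d0 (L := 1) (fun x => by
    rw [abs_of_pos (u2_pos hI x)]
    exact Inv.d2_le hI one_pos x) y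

theorem Dn_neg {Φ : ℝ → ℝ} (he : ∀ x, Φ (-x) = Φ x) : ∀ (j : ℕ) (x : ℝ),
    Dn j Φ (-x) = (-1) ^ (j + 1) * Dn j Φ x
  | 0, x => by rw [Dn_zero, deriv_neg_of_even he]; ring
  | j + 1, x => by
    rw [Dn_succ]
    rcases neg_one_pow_eq_or ℝ (j + 1) with h | h
    · rw [pow_succ, h, deriv_neg_of_even (fun y => by rw [Dn_neg he j y, h, one_mul])]
      ring
    · rw [pow_succ, h, deriv_neg_of_odd (fun y => by rw [Dn_neg he j y, h, neg_one_mul])]
      ring

theorem Zs_nonneg : ∀ {l : List (ℝ × ℝ)}, (∀ p ∈ l, 0 < p.1 ∧ 0 ≤ p.2) → 0 ≤ Zs l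
  | [], _ => le_rfl
  | p :: _, h => add_nonneg (mul_nonneg (h p List.mem_cons_self).1.le (h p List.mem_cons_self).2)
      (Zs_nonneg fun q hq => h q (List.mem_cons_of_mem _ hq))

/-- second moment -/
theorem EP_sq (R : List (ℝ × ℝ)) {F : ℝ → ℝ} (hF : BD F) {A B : ℝ} (hB : 0 ≤ B)
    (hM : ∀ y, |F y| ≤ A + B * y ^ 2) : ∀ M : List (ℝ × ℝ), Adm 1 (M ++ R) → ∀ x,
    |EP R F M x| ≤ A + B * ((x ^ 2 + TT M) * Real.exp (2 * TT M))
  | [], _, x => by simpa [EP, TT] using hM x
  | p :: M, h, x => by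
    rw [List.cons_append] at h
    have hP := PhiL_prof one_pos (M ++ R)
    have hd := h.2.2.1
    have hT : 0 ≤ TT M := TT_nonneg fun q hq => nn_of_adm h.2.2.2 q (List.mem_append_left _ hq)
    have g := block_par hP h.1 (Lip62.head_le_one h) hP (m' := p.1) (c0 := 0) (c := 0)
      (A := A + B * (TT M * Real.exp (2 * TT M))) (B := B * Real.exp (2 * TT M)) hd
      (fun v hv => u_le (adm_head h hv.1)) (EP_bd R hF M) (BD.const 0) (by positivity) le_rfl
      (fun y => by have := EP_sq R hF hB hM M h.2.2.2 y; rw [sub_zero]; linarith)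
      (fun v _ y => by simp) x
    rw [tE_const hP.lip, sub_zero] at g
    refine g.trans ?_
    rw [TT_cons, show 2 * (p.2 + TT M) = 2 * TT M + 2 * p.2 by ring, Real.exp_add]
    have e1 : 1 ≤ Real.exp (2 * p.2) := Real.one_le_exp (by positivity)
    have e2 : 0 ≤ B * (TT M * Real.exp (2 * TT M)) := by positivity
    nlinarith [mul_le_mul_of_nonneg_left e1 e2]

/-- **comparison of the laws**: without parity, and with the parity gain for even `F` -/
theorem EP_sl (T : ℝ) : ∃ C : ℝ, 1 ≤ C ∧ ∀ (R R' : List (ℝ × ℝ)) (F : ℝ → ℝ) (K : ℝ), Sl R R' →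
    BD F → (∀ x, |deriv F x| ≤ K) → ∀ M M' : List (ℝ × ℝ), Sl M M' → Adm 1 (M ++ R) →
    Adm 1 (M' ++ R') → TT (M ++ R) ≤ T →
    (∀ x, |EP R' F M' x - EP R F M x| ≤ C * K * (dN M M' + Zs M * dN R R')) ∧
    ((∀ x, F (-x) = F x) → (∀ x, |deriv (deriv F) x| ≤ K) → ∀ x, |EP R' F M' x - EP R F M x| ≤
      C * K * (dW M M' + TT M * Zs M * dN R R' + (dN M M' + Zs M * dN R R') * x ^ 2)) := by
  obtain ⟨C1, h1, hD⟩ := Dn_sl T 1
  obtain ⟨C2, h2, hE1⟩ := EP_der T 1
  obtain ⟨C3, h3, hE2⟩ := EP_der T 2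
  have hC1 : 0 ≤ C1 := by linarith
  have key : ∀ (R R' : List (ℝ × ℝ)) (F : ℝ → ℝ) (K : ℝ), Sl R R' →
      BD F → (∀ x, |deriv F x| ≤ K) → ∀ M M' : List (ℝ × ℝ), Sl M M' → Adm 1 (M ++ R) →
      Adm 1 (M' ++ R') → TT (M ++ R) ≤ T →
      (∀ x, |EP R F M x - EP R' F M' x| ≤ C1 * C2 * K * (dN M M' + dW M M' + Zs M * dN R R')) ∧
      ((∀ x, F (-x) = F x) → (∀ x, |deriv (deriv F) x| ≤ K) → ∀ x, |EP R F M x - EP R' F M' x| ≤
        C1 * C3 * K * Real.exp (2 * TT M) * (dW M M' * (1 + TT M) + TT M * Zs M * dN R R') +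
        C1 * C3 * K * Real.exp (2 * TT M) * (dN M M' + dW M M' + Zs M * dN R R') * x ^ 2) := by
    intro R R' F K hR hF hK M M' hs
    have hK0 : 0 ≤ K := (abs_nonneg _).trans (hK 0)
    induction hs with
    | nil => intro _ _ _; simp [EP, dN, dW, Zs, TT]
    | @cons p p' M M' hp hl ih =>
      intro h h' hT
      rw [List.cons_append] at h h' hT
      have hP := PhiL_prof one_pos (M ++ R)
      have hP' := PhiL_prof one_pos (M' ++ R')
      have hd := h.2.2.1
      have hm := h.1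
      have hm1 := Lip62.head_le_one h
      have hl' : Sl M M' := hl
      have htt := (hl'.append hR).tt
      rw [TT_cons] at hT
      obtain ⟨i1, i2⟩ := ih h.2.2.2 h'.2.2.2 (by linarith)
      have nM : Nn M := fun q hq => nn_of_adm h.2.2.2 q (List.mem_append_left _ hq)
      have nR : Nn R := fun q hq => nn_of_adm h.2.2.2 q (List.mem_append_right _ hq)
      have a1 := dN_nonneg M' nM
      have a2 := dW_nonneg M' nM
      have a3 := dN_nonneg R' nR
      have a4 : 0 ≤ Zs M := Zs_nonneg fun q hq => Adm.pos h.2.2.2 q (List.mem_append_left _ hq)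
      have a5 := TT_nonneg nM
      have he := abs_nonneg (p'.1 - p.1)
      set e := |p'.1 - p.1| with hed
      set N := e * p.2 + dN M M' + dN R R' with hN
      have hN0 : 0 ≤ N := by positivity
      have hDv : ∀ v ∈ Icc 0 p.2, ∀ j ≤ 1, ∀ y, |Dn j (gaussOp p'.1 v (PhiL 1 (M' ++ R'))) y -
          Dn j (gaussOp p.1 v (PhiL 1 (M ++ R))) y| ≤ C1 * N := fun v hv j hj y => by
        refine (hD ((p.1, v) :: (M ++ R)) ((p'.1, v) :: (M' ++ R'))
          (List.Forall₂.cons rfl (hl'.append hR)) (adm_head h hv.1) (adm_head h' hv.1)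
          (by rw [TT_cons]; linarith [hv.2]) j hj y).trans (mul_le_mul_of_nonneg_left ?_ hC1)
        simp only [dN, dN_append hl']
        nlinarith [mul_le_mul_of_nonneg_left hv.2 he]
      have hdr : ∀ v y, Dk (PhiL 1 (M ++ R)) p.1 1 v y - Dk (PhiL 1 (M' ++ R')) p'.1 1 v y =
          -(p.1 * (Dn 0 (gaussOp p'.1 v (PhiL 1 (M' ++ R'))) y -
            Dn 0 (gaussOp p.1 v (PhiL 1 (M ++ R))) y) +
            (p'.1 - p.1) * deriv (gaussOp p'.1 v (PhiL 1 (M' ++ R'))) y) := fun v y => by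
        rw [D1_eq hP, D1_eq hP', Lip62.At_deriv hP, Lip62.At_deriv hP', Dn_zero, Dn_zero]
        ring
      have hdr2 : ∀ v y b, 0 ≤ b → |Dn 0 (gaussOp p'.1 v (PhiL 1 (M' ++ R'))) y -
          Dn 0 (gaussOp p.1 v (PhiL 1 (M ++ R))) y| ≤ C1 * N * b →
          |deriv (gaussOp p'.1 v (PhiL 1 (M' ++ R'))) y| ≤ b →
          |Dk (PhiL 1 (M ++ R)) p.1 1 v y - Dk (PhiL 1 (M' ++ R')) p'.1 1 v y| ≤
            C1 * (e + p.1 * N) * b := fun v y b hb q1 q2 => by
        rw [hdr, abs_neg]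
        refine (abs_add_le _ _).trans ?_
        rw [abs_mul, abs_mul, abs_of_pos hm, ← hed]
        have := mul_le_mul_of_nonneg_left q1 hm.le
        have := mul_le_mul_of_nonneg_left q2 he
        nlinarith [mul_le_mul_of_nonneg_right h1 (mul_nonneg he hb)]
      have hAt : ∀ v, At (PhiL 1 (M' ++ R')) p'.1 (EP R' F M') v = EP R' F ((p'.1, v) :: M') :=
        fun v => rfl
      have hT' : ∀ v ∈ Icc 0 p.2, TT (((p'.1, v) :: M') ++ R') ≤ T := fun v hv => by
        rw [List.cons_append, TT_cons, htt]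
        linarith [hv.2]
      have hu : ∀ v ∈ Icc 0 p.2, ∀ y, |deriv (gaussOp p.1 v (PhiL 1 (M ++ R))) y| ≤ |y| :=
        fun v hv => u_le (adm_head h hv.1)
      have q1 : p.2 * (p.1 * (e * p.2 + dN M M')) ≤ p.2 * (e * p.2 + dN M M') :=
        mul_le_mul_of_nonneg_left (mul_le_of_le_one_left (by positivity) hm1) hd
      refine ⟨fun x => ?_, fun hev hK2 x => ?_⟩
      · have g := block_par hP hm hm1 hP' (m' := p'.1) (c0 := C1 * (e + p.1 * N) * (C2 * K))
          (c := 0) (B := 0) hd hu (EP_bd R hF M) (EP_bd R' hF M') le_rfl le_rfl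
          (fun y => (i1 y).trans_eq (by rw [zero_mul, add_zero])) (fun v hv y => by
            rw [zero_mul, add_zero, hAt]
            refine mul_le_mul ((hdr2 v y 1 zero_le_one (by rw [mul_one]; exact hDv v hv 0 (by omega) y)
              ((hP'.step _ _).b1 y)).trans_eq (mul_one _)) ?_ (abs_nonneg _) (by positivity)
            have := hE1 _ R' F K (adm_head h' hv.1) (hT' v hv) hF (fun j j1 j2 y => by
              rw [le_antisymm j2 j1, iteratedDeriv_one]; exact hK y) 1 le_rfl le_rfl y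
            rwa [iteratedDeriv_one] at this) x
        simp only [EP, dN, dW, Zs, ← hp, ← hed]
        refine g.trans ?_
        have c0 : 0 ≤ C1 * C2 * K := by positivity
        nlinarith [mul_le_mul_of_nonneg_left q1 c0]
      · have c0 : 0 ≤ C1 * C3 * K := by positivity
        have g := block_par hP hm hm1 hP' (m' := p'.1) (c := C1 * (e + p.1 * N) * (C3 * K))
          (c0 := 0) hd hu (EP_bd R hF M) (EP_bd R' hF M') (by positivity) (by positivity)
          (i2 hev hK2) (fun v hv y => by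
            rw [zero_add, hAt]
            have b1 := hdr2 v y |y| (abs_nonneg y) (odd_le
              (g := fun y => Dn 0 (gaussOp p'.1 v (PhiL 1 (M' ++ R'))) y -
                Dn 0 (gaussOp p.1 v (PhiL 1 (M ++ R))) y)
              ((Dn_bd (hP'.step _ _) 0).diff.sub (Dn_bd (hP.step _ _) 0).diff)
              (by
                simp only [Dn_zero, zero_of_odd (deriv_neg_of_even (gaussOp_even (PhiL_even _) _ _)),
                  sub_self])
              (fun y => by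
                rw [deriv_fun_sub ((Dn_bd (hP'.step _ _) 0).diff y) ((Dn_bd (hP.step _ _) 0).diff y),
                  ← Dn_succ, ← Dn_succ]
                exact hDv v hv 1 le_rfl y) y) (u_le (adm_head h' hv.1) y)
            have b2 := odd_le (EP_bd R' hF ((p'.1, v) :: M')).deriv.diff
              (zero_of_odd (deriv_neg_of_even (EP_even R' hev _))) (L := C3 * K) (fun y => by
                have := hE2 _ R' F K (adm_head h' hv.1) (hT' v hv) hF (fun j j1 j2 y => by
                  interval_cases j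
                  · rw [iteratedDeriv_one]; exact hK y
                  · rw [iteratedDeriv_succ, iteratedDeriv_one]; exact hK2 y) 2 one_le_two le_rfl y
                rwa [iteratedDeriv_succ, iteratedDeriv_one] at this) y
            refine (mul_le_mul b1 b2 (abs_nonneg _) (by positivity)).trans_eq ?_
            rw [← sq_abs y]
            ring) x
        simp only [EP, dN, dW, Zs, TT_cons, ← hp, ← hed]
        refine g.trans ?_
        rw [show 2 * (p.2 + TT M) = 2 * TT M + 2 * p.2 by ring, Real.exp_add]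
        have e1 : 1 ≤ Real.exp (2 * p.2) := Real.one_le_exp (by positivity)
        have e2 : 1 ≤ Real.exp (2 * TT M) := Real.one_le_exp (by positivity)
        set E1 := Real.exp (2 * p.2)
        set E2 := Real.exp (2 * TT M)
        set b' := e * p.2 + dN M M' + (p.2 * (e * p.2 + dN M M') + dW M M') +
          (p.1 * p.2 + Zs M) * dN R R' with hb'
        set a := dW M M' * (1 + TT M) + TT M * Zs M * dN R R' with ha
        have ha0 : 0 ≤ a := by positivity
        have s1 : C1 * C3 * K * E2 * (dN M M' + dW M M' + Zs M * dN R R') +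
            C1 * (e + p.1 * N) * (C3 * K) * p.2 ≤ C1 * C3 * K * E2 * b' := by
          have r1 : (e + p.1 * N) * p.2 ≤ E2 * ((e + p.1 * N) * p.2) :=
            le_mul_of_one_le_left (by positivity) e2
          have r2 : dN M M' + dW M M' + Zs M * dN R R' + (e + p.1 * N) * p.2 ≤ b' := by
            rw [hb', hN]; linarith
          have r3 := mul_le_mul_of_nonneg_left r2 (show 0 ≤ C1 * C3 * K * E2 by positivity)
          have r4 := mul_le_mul_of_nonneg_left r1 c0
          linarith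
        have s2 := mul_le_mul_of_nonneg_right s1 (show 0 ≤ (x ^ 2 + p.2) * E1 by positivity)
        have s3 : C1 * C3 * K * E2 * a ≤ C1 * C3 * K * E2 * a * E1 :=
          le_mul_of_one_le_right (by positivity) e1
        have s4 : a + p.2 * b' ≤ (p.2 * (e * p.2 + dN M M') + dW M M') * (1 + (p.2 + TT M)) +
            (p.2 + TT M) * (p.1 * p.2 + Zs M) * dN R R' := by
          have r1 : 0 ≤ p.2 * (e * p.2 + dN M M') * TT M := by positivity
          have r2 : 0 ≤ TT M * (p.1 * p.2) * dN R R' := by positivity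
          rw [ha, hb']
          linarith
        have s5 := mul_le_mul_of_nonneg_left s4 (show 0 ≤ C1 * C3 * K * (E2 * E1) by positivity)
        linarith
  refine ⟨C1 * (C2 + C3) * Real.exp (2 * |T|) * (1 + |T|), ?_,
    fun R R' F K hR hF hK M M' hs h h' hT => ?_⟩
  · have e1 : 1 ≤ Real.exp (2 * |T|) := Real.one_le_exp (by positivity)
    exact one_le_mul_of_one_le_of_one_le (one_le_mul_of_one_le_of_one_le
      (one_le_mul_of_one_le_of_one_le h1 (by linarith)) e1) (by linarith [abs_nonneg T])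
  obtain ⟨k1, k2⟩ := key R R' F K hR hF hK M M' hs h h' hT
  have hK0 : 0 ≤ K := (abs_nonneg _).trans (hK 0)
  have nM : Nn M := fun q hq => nn_of_adm h q (List.mem_append_left _ hq)
  have nR : Nn R := fun q hq => nn_of_adm h q (List.mem_append_right _ hq)
  have a1 := dN_nonneg M' nM
  have a2 := dW_nonneg M' nM
  have a3 := dN_nonneg R' nR
  have a4 : 0 ≤ Zs M := Zs_nonneg fun q hq => Adm.pos h q (List.mem_append_left _ hq)
  have a5 := TT_nonneg nM
  have a6 : TT M ≤ |T| := by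
    rw [TT_append] at hT
    linarith [le_abs_self T, TT_nonneg nR]
  have a7 : dN M M' + dW M M' + Zs M * dN R R' ≤ (1 + |T|) * (dN M M' + Zs M * dN R R') := by
    nlinarith [dW_le M' nM, mul_le_mul_of_nonneg_right a6 a1,
      mul_nonneg (abs_nonneg T) (mul_nonneg a4 a3)]
  have a8 : dW M M' * (1 + TT M) + TT M * Zs M * dN R R' ≤
      (1 + |T|) * (dW M M' + TT M * Zs M * dN R R') := by
    nlinarith [mul_le_mul_of_nonneg_left a6 a2,
      mul_nonneg (abs_nonneg T) (mul_nonneg (mul_nonneg a5 a4) a3)]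
  have e1 : 1 ≤ Real.exp (2 * |T|) := Real.one_le_exp (by positivity)
  have hC2 : 0 ≤ C2 := by linarith
  have hC3 : 0 ≤ C3 := by linarith
  refine ⟨fun x => ?_, fun hev hK2 x => ?_⟩
  · rw [abs_sub_comm]
    refine (k1 x).trans ?_
    calc _ ≤ C1 * (C2 + C3) * Real.exp (2 * |T|) * K * ((1 + |T|) * (dN M M' + Zs M * dN R R')) := by
          refine mul_le_mul (mul_le_mul_of_nonneg_right ?_ hK0) a7 (by positivity) (by positivity)
          nlinarith [mul_nonneg hC1 hC3, mul_le_mul_of_nonneg_left e1 (mul_nonneg hC1 (add_nonneg hC2 hC3))]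
      _ = _ := by ring
  · rw [abs_sub_comm]
    refine (k2 hev hK2 x).trans ?_
    have c1 : C1 * C3 * K * Real.exp (2 * TT M) ≤ C1 * (C2 + C3) * K * Real.exp (2 * |T|) := by
      gcongr
      linarith
    have c2 := mul_le_mul c1 a8 (by positivity) (by positivity)
    have c3 := mul_le_mul_of_nonneg_right (mul_le_mul c1 a7 (by positivity) (by positivity))
      (sq_nonneg x)
    linarith

end

end Crest.Agent.T156.Ker
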