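import Crest.Agent.T156.Mon_48
import Crest.Agent.T156.KerA_31
import Crest.Agent.T156.PrDef_28

/-!
Row 156 (helper35): `H⁻¹` Lipschitz bounds for the space derivatives of the Parisi function.
With `J(s) = ∫_s^T (ζ' - ζ)`:
`∂^{j+1}Φ'_t - ∂^{j+1}Φ_t = J(t) ∂^{j+1}((Φ'_t)_x² / 2) + O(∫_t^T |J|)`.
-/

set_option autoImplicit false

namespace Crest.Agent.T156.Hm1

open MeasureTheory ProbabilityTheory Filter Topology Set
open Crest.Agent.R164.GC Crest.Agent.R339.B Crest.Agent.R339.Var Crest.Agent.T157.Pf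
open Crest.Agent.T156.Pp Crest.Agent.T156.Sc48
open Crest.ProbabilityR.InvariantGlass (gaussOp)

noncomputable section

/-- Gronwall in the sup norm with a time dependent source and a local a-priori bound -/
theorem gronwall' {Φ : ℝ → ℝ} (h : Prof Φ) {m : ℝ} (hm : m ≠ 0) {ι : Type}
    {F LF Fx : ι → ℝ → ℝ → ℝ} (hF : ∀ i, TB Φ m (F i) (LF i) (Fx i))
    {B c M d : ℝ} {f G : ℝ → ℝ} (hc : 0 ≤ c) (hG : ∀ v, HasDerivAt G (f v) v) (hG0 : G 0 = 0)
    (hf : ∀ v, 0 ≤ f v) (hM : 0 ≤ M) (hd : 0 ≤ d)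
    (hB : ∀ i, ∀ v ∈ Icc 0 d, ∀ x, |F i v x| ≤ B)
    (hL : ∀ v ∈ Icc 0 d, ∀ N, 0 ≤ N → (∀ j y, |F j v y| ≤ N) → ∀ i x, |LF i v x| ≤ c * N + f v)
    (h0 : ∀ i x, |F i 0 x| ≤ M) (i : ι) (x : ℝ) :
    |F i d x| ≤ (M + G d) * Real.exp (2 * c * d) := by
  have hGm : Monotone G := monotone_of_deriv_nonneg (fun v => (hG v).differentiableAt)
    (fun v => by rw [(hG v).deriv]; exact hf v)
  have hGc : Continuous G := continuous_iff_continuousAt.2 fun v => (hG v).continuousAt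
  set S : Set ℝ := {r | r = 0 ∨ ∃ j v y, v ∈ Icc 0 d ∧ r = Real.exp (-(2 * c * v)) * |F j v y|}
    with hS
  have hne : S.Nonempty := ⟨0, Or.inl rfl⟩
  have hB0 : 0 ≤ B := (abs_nonneg _).trans (hB i 0 ⟨le_rfl, hd⟩ 0)
  have hbd : BddAbove S := by
    refine ⟨B, ?_⟩
    rintro r (rfl | ⟨j, v, y, hv, rfl⟩)
    · exact hB0
    · have h1 : Real.exp (-(2 * c * v)) ≤ 1 := by
        rw [Real.exp_le_one_iff]
        have := mul_nonneg hc hv.1
        linarith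
      calc _ ≤ 1 * B := mul_le_mul h1 (hB j v hv y) (abs_nonneg _) zero_le_one
        _ = B := one_mul B
  set N := sSup S with hN
  have hN0 : 0 ≤ N := le_csSup hbd (Or.inl rfl)
  have hle : ∀ j v y, v ∈ Icc 0 d → |F j v y| ≤ N * Real.exp (2 * c * v) := by
    intro j v y hv
    have h1 : Real.exp (-(2 * c * v)) * |F j v y| ≤ N := le_csSup hbd (Or.inr ⟨j, v, y, hv, rfl⟩)
    have h2 := mul_le_mul_of_nonneg_right h1 (Real.exp_pos (2 * c * v)).le
    rwa [mul_comm (Real.exp _), mul_assoc, ← Real.exp_add, neg_add_cancel, Real.exp_zero,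
      mul_one] at h2
  have hstep : ∀ j v y, v ∈ Icc 0 d →
      |F j v y| ≤ M + G v + N * (Real.exp (2 * c * v) - 1) / 2 := by
    intro j v y hv
    have hc1 := VV_cont h (hF j).ug v y (m := m)
    have hg : ∀ τ, HasDerivAt (fun τ => -G (v - τ) - N * Real.exp (2 * c * (v - τ)) / 2)
        (f (v - τ) + c * (N * Real.exp (2 * c * (v - τ)))) τ := by
      intro τ
      have a0 : HasDerivAt (fun τ => v - τ) (-1) τ := (hasDerivAt_id' τ).const_sub v
      have a1 : HasDerivAt (fun τ => 2 * c * (v - τ)) (2 * c * (-1)) τ := a0.const_mul _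
      have a3 : HasDerivAt (fun τ => G (v - τ)) (f (v - τ) * (-1)) τ := (hG (v - τ)).comp τ a0
      have a2 := a3.fun_neg.fun_sub ((a1.exp.const_mul N).div_const 2)
      refine a2.congr_deriv ?_
      ring
    have hb : ∀ τ ∈ Ioo 0 v, |VV Φ m v (LF j) y τ| ≤
        f (v - τ) + c * (N * Real.exp (2 * c * (v - τ))) := by
      intro τ hτ
      refine VV_abs_le h hm ((hF j).ugL h) hτ.1.le hτ.2.le (fun z => ?_) y
      have hvτ : v - τ ∈ Icc 0 d := ⟨by linarith [hτ.2], by linarith [hτ.1, hv.2]⟩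
      have := hL (v - τ) hvτ _ (by positivity) (fun j' y' => hle j' _ y' hvτ) j z
      linarith
    have hgc : Continuous (fun τ => -G (v - τ) - N * Real.exp (2 * c * (v - τ)) / 2) := by
      fun_prop
    have m1 := monotoneOn_of_block (a := 0) (b := v)
      (f := fun τ => (-G (v - τ) - N * Real.exp (2 * c * (v - τ)) / 2) + VV Φ m v (F j) y τ)
      (hgc.add hc1).continuousOn
      (fun τ hτ => (hg τ).fun_add (VV_deriv h (hF j) hτ.1 hτ.2 y))
      (fun τ hτ => by have := (abs_le.1 (hb τ hτ)).1; linarith)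
    have m2 := monotoneOn_of_block (a := 0) (b := v)
      (f := fun τ => (-G (v - τ) - N * Real.exp (2 * c * (v - τ)) / 2) - VV Φ m v (F j) y τ)
      (hgc.sub hc1).continuousOn
      (fun τ hτ => (hg τ).fun_sub (VV_deriv h (hF j) hτ.1 hτ.2 y))
      (fun τ hτ => by have := (abs_le.1 (hb τ hτ)).2; linarith)
    have i1 := m1 ⟨le_rfl, hv.1⟩ ⟨hv.1, le_rfl⟩ hv.1
    have i2 := m2 ⟨le_rfl, hv.1⟩ ⟨hv.1, le_rfl⟩ hv.1
    simp only at i1 i2
    rw [VV_zero h hm _ hv.1] at i1 i2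
    have e1 := abs_le.1 (VV_abs_le h hm (hF j).ug hv.1 le_rfl (K := M)
      (fun z => by rw [sub_self]; exact h0 j z) y)
    simp only [sub_self, mul_zero, Real.exp_zero, sub_zero, hG0] at i1 i2
    rw [abs_le]
    constructor <;> linarith [e1.1, e1.2]
  have hGd : 0 ≤ G d := hG0 ▸ hGm hd
  have hA : 0 ≤ M + G d := by positivity
  have hNle : N ≤ max (M + G d) (N / 2) := by
    refine csSup_le hne ?_
    rintro r (rfl | ⟨j, v, y, hv, rfl⟩)
    · exact le_max_of_le_left hA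
    · set E := Real.exp (-(2 * c * v)) with hE
      have hE0 : 0 < E := Real.exp_pos _
      have hE1 : E ≤ 1 := by
        rw [hE, Real.exp_le_one_iff]
        have := mul_nonneg hc hv.1
        linarith
      have hEE : E * Real.exp (2 * c * v) = 1 := by
        rw [hE, ← Real.exp_add, neg_add_cancel, Real.exp_zero]
      have h1 := mul_le_mul_of_nonneg_left (hstep j v y hv) hE0.le
      have h2 : G v ≤ G d := hGm hv.2
      have h3 := le_max_left (M + G d) (N / 2)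
      have h4 := le_max_right (M + G d) (N / 2)
      have e : E * (M + G v + N * (Real.exp (2 * c * v) - 1) / 2) =
          E * (M + G v) + (1 - E) * (N / 2) := by
        have : E * (N * (Real.exp (2 * c * v) - 1) / 2) =
          N * (E * Real.exp (2 * c * v)) / 2 - E * N / 2 := by ring
        rw [mul_add, this, hEE]
        ring
      rw [e] at h1
      have h5 : E * (M + G v) ≤ E * max (M + G d) (N / 2) :=
        mul_le_mul_of_nonneg_left (by linarith) hE0.le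
      have h6 : (1 - E) * (N / 2) ≤ (1 - E) * max (M + G d) (N / 2) :=
        mul_le_mul_of_nonneg_left h4 (by linarith)
      nlinarith
  have hNA : N ≤ M + G d := by
    rcases le_max_iff.1 hNle with h1 | h1
    · exact h1
    · linarith
  exact (hle i d x ⟨hd, le_rfl⟩).trans
    (mul_le_mul_of_nonneg_right hNA (Real.exp_pos _).le)

/-- test functions with explicit bounds on `[0, d]` -/
def BT (Φ : ℝ → ℝ) (m d K : ℝ) (F : ℝ → ℝ → ℝ) : Prop := ∃ LF Fx : ℝ → ℝ → ℝ, TB Φ m F LF Fx ∧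
  ∀ v ∈ Icc 0 d, ∀ x, |F v x| ≤ K ∧ |LF v x| ≤ K ∧ |Fx v x| ≤ K

section BT

variable {Φ : ℝ → ℝ} {m d K K' : ℝ} {F G : ℝ → ℝ → ℝ}

theorem BT.mono (h : BT Φ m d K F) (hK : K ≤ K') : BT Φ m d K' F := by
  obtain ⟨LF, Fx, t, b⟩ := h
  exact ⟨LF, Fx, t, fun v hv x =>
    ⟨(b v hv x).1.trans hK, (b v hv x).2.1.trans hK, (b v hv x).2.2.trans hK⟩⟩

theorem BT.add (h : BT Φ m d K F) (h' : BT Φ m d K' G) :
    BT Φ m d (K + K') (fun v x => F v x + G v x) := by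
  obtain ⟨LF, Fx, t, b⟩ := h
  obtain ⟨LG, Gx, t', b'⟩ := h'
  exact ⟨_, _, t.add t', fun v hv x =>
    ⟨(abs_add_le _ _).trans (add_le_add (b v hv x).1 (b' v hv x).1),
      (abs_add_le _ _).trans (add_le_add (b v hv x).2.1 (b' v hv x).2.1),
      (abs_add_le _ _).trans (add_le_add (b v hv x).2.2 (b' v hv x).2.2)⟩⟩

theorem amul {a b A B : ℝ} (ha : |a| ≤ A) (hb : |b| ≤ B) : |a * b| ≤ A * B := by
  rw [abs_mul]
  exact mul_le_mul ha hb (abs_nonneg _) ((abs_nonneg _).trans ha)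

theorem BT.mul (h : BT Φ m d K F) (h' : BT Φ m d K' G) :
    BT Φ m d (3 * (K * K')) (fun v x => F v x * G v x) := by
  obtain ⟨LF, Fx, t, b⟩ := h
  obtain ⟨LG, Gx, t', b'⟩ := h'
  refine ⟨_, _, t.mul t', fun v hv x => ?_⟩
  obtain ⟨a1, a2, a3⟩ := b v hv x
  obtain ⟨b1, b2, b3⟩ := b' v hv x
  have c1 := abs_le.1 (amul a1 b1)
  have c2 := abs_le.1 (amul a1 b2)
  have c3 := abs_le.1 (amul b1 a2)
  have c4 := abs_le.1 (amul a3 b3)
  have c5 := abs_le.1 (amul a3 b1)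
  have c6 := abs_le.1 (amul a1 b3)
  have c0 : 0 ≤ K * K' := (abs_nonneg _).trans (amul a1 b1)
  refine ⟨abs_le.2 ⟨?_, ?_⟩, abs_le.2 ⟨?_, ?_⟩, abs_le.2 ⟨?_, ?_⟩⟩ <;> beta_reduce <;>
    linarith [c1.1, c1.2, c2.1, c2.2, c3.1, c3.2, c4.1, c4.2, c5.1, c5.2, c6.1, c6.2]

theorem BT.cmul (h : BT Φ m d K F) (c : ℝ) : BT Φ m d (|c| * K) (fun v x => c * F v x) := by
  obtain ⟨LF, Fx, t, b⟩ := h
  exact ⟨_, _, t.const_mul c, fun v hv x => ⟨amul le_rfl (b v hv x).1,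
    amul le_rfl (b v hv x).2.1, amul le_rfl (b v hv x).2.2⟩⟩

theorem BT.zero : BT Φ m d 0 (fun _ _ => 0) :=
  ⟨_, _, TB.const 0, fun _ _ _ => by simp⟩

theorem BT.sum {F : ℕ → ℝ → ℝ → ℝ} {c : ℕ → ℝ} : ∀ n : ℕ, (∀ i < n, BT Φ m d K (F i)) →
    BT Φ m d ((∑ i ∈ Finset.range n, |c i|) * K)
      (fun v x => ∑ i ∈ Finset.range n, c i * F i v x)
  | 0, _ => by simpa using BT.zero
  | n + 1, h => by
    simp only [Finset.sum_range_succ, add_mul]
    exact (BT.sum n fun i hi => h i (by omega)).add ((h n (by omega)).cmul (c n))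

end BT

/-- `∂^{j+1} (g_x² / 2)` -/
def Y (j : ℕ) (g : ℝ → ℝ) (x : ℝ) : ℝ := Dn 0 g x * Dn (j + 1) g x +
  ∑ i ∈ Finset.range j, (j.choose (i + 1) : ℝ) * (Dn (i + 1) g x * Dn (j - i) g x)

theorem Y_zero (g : ℝ → ℝ) (x : ℝ) : Y 0 g x = Dn 0 g x * Dn 1 g x := by simp [Y]
theorem Y_one (g : ℝ → ℝ) (x : ℝ) : Y 1 g x = Dn 0 g x * Dn 2 g x + Dn 1 g x ^ 2 := by
  simp [Y, sq]

theorem choose_sum_le {j k : ℕ} (hj : j ≤ k) :
    ∑ i ∈ Finset.range j, |(j.choose (i + 1) : ℝ)| ≤ 2 ^ k := by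
  have := Ker.abs_sum_le hj (a := fun _ => 1) (b := fun _ => 1) (B := 1) zero_le_one
    (fun _ _ => by simp)
  simp only [mul_one] at this
  refine le_trans (le_of_eq ?_) ((le_abs_self _).trans this)
  exact Finset.sum_congr rfl fun i _ => Nat.abs_cast _

theorem bt_Dn {Φ : ℝ → ℝ} (h : Prof Φ) {m d C0 : ℝ} {k : ℕ} (hm : |m| ≤ 1) (hC : 0 ≤ C0)
    (low : ∀ v ∈ Icc 0 d, ∀ i < k + 3, ∀ y, |Dn i (gaussOp m v Φ) y| ≤ C0) {i : ℕ}
    (hi : i ≤ k + 1) :
    BT Φ m d (C0 + 2 ^ (k + 1) * C0 ^ 2) (fun v => Dn i (gaussOp m v Φ)) := by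
  refine ⟨_, _, tb_Dn h m i, fun v hv x => ?_⟩
  have p1 : 0 ≤ 2 ^ (k + 1) * C0 ^ 2 := by positivity
  refine ⟨(low v hv i (by omega) x).trans (by linarith), ?_,
    (low v hv (i + 1) (by omega) x).trans (by linarith)⟩
  have s1 := Ker.abs_sum_le hi (a := fun a => Dn (a + 1) (gaussOp m v Φ) x)
    (b := fun a => Dn (i - a) (gaussOp m v Φ) x) (B := C0 ^ 2) (by positivity) fun a ha => by
      rw [sq]
      exact amul (low v hv _ (by omega) x) (low v hv _ (by omega) x)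
  have := amul (a := -m) (A := 1) (by rwa [abs_neg]) s1
  linarith

theorem bt_Y {Φ : ℝ → ℝ} (h : Prof Φ) {m d C0 : ℝ} {k : ℕ} (hm : |m| ≤ 1) (hC : 0 ≤ C0)
    (low : ∀ v ∈ Icc 0 d, ∀ i < k + 3, ∀ y, |Dn i (gaussOp m v Φ) y| ≤ C0) {j : ℕ}
    (hj : j ≤ k) : BT Φ m d ((1 + 2 ^ k) * (3 * (C0 + 2 ^ (k + 1) * C0 ^ 2) ^ 2))
      (fun v => Y j (gaussOp m v Φ)) := by
  have b := fun i (hi : i ≤ k + 1) => bt_Dn h hm hC low hi
  have b1 := (b 0 (by omega)).mul (b (j + 1) (by omega))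
  have b2 := BT.sum (c := fun i => (j.choose (i + 1) : ℝ)) j fun i hi =>
    (b (i + 1) (by omega)).mul (b (j - i) (by omega))
  refine (b1.add b2).mono ?_
  have := mul_le_mul_of_nonneg_right (choose_sum_le hj)
    (show 0 ≤ 3 * ((C0 + 2 ^ (k + 1) * C0 ^ 2) * (C0 + 2 ^ (k + 1) * C0 ^ 2)) by positivity)
  nlinarith

theorem tb_lin (Φ : ℝ → ℝ) (m J e : ℝ) :
    TB Φ m (fun v _ => J + e * max v 0) (fun _ _ => -e) (fun _ _ => 0) := by
  refine ⟨fun _ _ => e, fun _ _ => 0, fun v x hv => ?_, fun v x => hasDerivAt_const x _,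
    fun v x => hasDerivAt_const x _, ⟨by fun_prop, fun d => ?_⟩, UG.const e, UG.const 0,
    UG.const 0, fun v x => by ring⟩
  · have a : HasDerivAt (fun s => J + e * s) e v := by
      simpa using ((hasDerivAt_id' v).const_mul e).const_add J
    refine a.congr_of_eventuallyEq ?_
    filter_upwards [Ioi_mem_nhds hv] with s hs
    rw [max_eq_left (le_of_lt hs)]
  · refine ⟨|J| + |e| * max d 0, 0, by positivity, le_rfl, fun v x hv => ?_⟩
    rw [zero_mul, Real.exp_zero, mul_one]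
    refine (abs_add_le _ _).trans (add_le_add le_rfl (amul le_rfl ?_))
    rw [abs_of_nonneg (le_max_right _ _)]
    exact max_le_max hv le_rfl

theorem D1_Dn {Φ : ℝ → ℝ} (h : Prof Φ) (m v x : ℝ) :
    Dk Φ m 1 v x = m * Dn 0 (gaussOp m v Φ) x := by
  rw [D1_eq h, Lip62.At_deriv h, Dn_zero]

theorem abs3 {a b c A B C : ℝ} (ha : |a| ≤ A) (hb : |b| ≤ B) (hc : |c| ≤ C) :
    |-a - b - c| ≤ A + B + C := by
  have a1 := abs_le.1 ha
  have a2 := abs_le.1 hb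
  have a3 := abs_le.1 hc
  exact abs_le.2 ⟨by linarith [a1.2, a2.2, a3.2], by linarith [a1.1, a2.1, a3.1]⟩

/-- one block -/
theorem block (C0 : ℝ) (hC : 0 ≤ C0) (k : ℕ) : ∃ A c K : ℝ, 0 ≤ A ∧ 0 ≤ c ∧ 0 ≤ K ∧
    ∀ {Φ Φ' : ℝ → ℝ}, Prof Φ → Prof Φ' → ∀ {m m' d J M : ℝ}, 0 < m → m ≤ 1 → |m'| ≤ 1 → 0 ≤ d →
    0 ≤ M → (∀ v ∈ Icc 0 d, ∀ i < k + 3, ∀ y, |Dn i (gaussOp m v Φ) y| ≤ C0) →
    (∀ v ∈ Icc 0 d, ∀ i < k + 3, ∀ y, |Dn i (gaussOp m' v Φ') y| ≤ C0) →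
    (∀ j ≤ k, ∀ x, |Dn j (gaussOp m' 0 Φ') x - Dn j (gaussOp m 0 Φ) x -
      J * Y j (gaussOp m' 0 Φ') x| ≤ M) →
    ∀ j ≤ k, ∀ x, |Dn j (gaussOp m' d Φ') x - Dn j (gaussOp m d Φ) x -
      (J + (m' - m) * d) * Y j (gaussOp m' d Φ') x| ≤
      (M + A * ∫ v in (0:ℝ)..d, |J + (m' - m) * v|) * Real.exp (2 * c * d) := by
  obtain ⟨K, hK⟩ : ∃ K : ℝ, K = (1 + 2 ^ k) * (3 * (C0 + 2 ^ (k + 1) * C0 ^ 2) ^ 2) := ⟨_, rfl⟩
  obtain ⟨c, hc⟩ : ∃ c : ℝ, c = 2 ^ k * (2 * C0) + C0 := ⟨_, rfl⟩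
  have hK0 : 0 ≤ K := by rw [hK]; positivity
  have hc0 : 0 ≤ c := by rw [hc]; positivity
  refine ⟨c * K + (K + 2 * C0 * K), c, K, by positivity, hc0, hK0, ?_⟩
  intro Φ Φ' h h' m m' d J M hm hm1 hm' hd hM low low' h0 j hj x
  have bY := fun i : Fin (k + 1) => bt_Y h' hm' hC low' (Nat.lt_succ_iff.1 i.2)
  rw [← hK] at bY
  choose LY Yx tY bY using bY
  set e := m' - m with he
  have hcont : Continuous fun v : ℝ => |J + e * v| := by fun_prop
  have g := gronwall' h hm.ne' (ι := Fin (k + 1))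
    (F := fun i v y => Dn i (gaussOp m' v Φ') y - Dn i (gaussOp m v Φ) y -
      (J + e * max v 0) * Y i (gaussOp m' v Φ') y)
    (fun i => ((Lip62.TB_change (tb_Dn h' m' i)).sub (tb_Dn h m i)).sub
      ((tb_lin Φ m J e).mul (Lip62.TB_change (tY i))))
    (B := C0 + C0 + (|J| + |e| * d) * K) (c := c) (M := M) (d := d)
    (f := fun v => (c * K + (K + 2 * C0 * K)) * |J + e * v|)
    (G := fun v => (c * K + (K + 2 * C0 * K)) * ∫ r in (0:ℝ)..v, |J + e * r|) hc0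
    (fun v => (hcont.integral_hasStrictDerivAt 0 v).hasDerivAt.const_mul _) (by simp) (fun v => by positivity) hM hd
    (fun i v hv y => ?_) (fun v hv N hN hF i y => ?_) (fun i y => ?_)
    ⟨j, Nat.lt_succ_of_le hj⟩ x
  · simpa only [max_eq_left hd] using g
  · have a1 := abs_le.1 (low v hv i (by omega) y)
    have a2 := abs_le.1 (low' v hv i (by omega) y)
    have a3 : |J + e * max v 0| ≤ |J| + |e| * d := by
      rw [max_eq_left hv.1]
      exact (abs_add_le _ _).trans (add_le_add le_rfl (amul le_rfl (by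
        rw [abs_of_nonneg hv.1]; exact hv.2)))
    have a4 := abs_le.1 (amul a3 (bY i v hv y).1)
    rw [abs_le]
    constructor <;> linarith [a1.1, a1.2, a2.1, a2.2, a4.1, a4.2]
  · have hi : (i : ℕ) ≤ k := Nat.lt_succ_iff.1 i.2
    simp only [max_eq_left hv.1] at hF ⊢
    set w := |J + e * v| with hw
    have hw0 : 0 ≤ w := abs_nonneg _
    have hF' : ∀ a ≤ k, ∀ y, |Dn a (gaussOp m' v Φ') y - Dn a (gaussOp m v Φ) y| ≤ N + w * K := by
      intro a ha y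
      have a1 := abs_le.1 (hF ⟨a, Nat.lt_succ_of_le ha⟩ y)
      have a2 := abs_le.1 (amul (le_refl w) (bY ⟨a, Nat.lt_succ_of_le ha⟩ v hv y).1)
      rw [abs_le]
      constructor <;> linarith [a1.1, a1.2, a2.1, a2.2]
    have hN' : 0 ≤ N + w * K := by positivity
    set S' := ∑ a ∈ Finset.range i, ((i : ℕ).choose (a + 1) : ℝ) *
      Dn (a + 1) (gaussOp m' v Φ') y * Dn (i - a) (gaussOp m' v Φ') y with hS'
    set S := ∑ a ∈ Finset.range i, ((i : ℕ).choose (a + 1) : ℝ) *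
      Dn (a + 1) (gaussOp m v Φ) y * Dn (i - a) (gaussOp m v Φ) y with hS
    have s2 : |S' - S| ≤ 2 ^ k * (2 * C0 * (N + w * K)) := by
      have := Ker.abs_sum_le hi (b := fun _ => 1) (B := 2 * C0 * (N + w * K)) (a := fun a =>
        Dn (a + 1) (gaussOp m' v Φ') y * Dn (i - a) (gaussOp m' v Φ') y -
        Dn (a + 1) (gaussOp m v Φ) y * Dn (i - a) (gaussOp m v Φ) y)
        (by positivity) fun a ha => by
          have a1 := amul (hF' (a + 1) (by omega) y) (low' v hv (i - a) (by omega) y)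
          have a2 := amul (low v hv (a + 1) (by omega) y) (hF' (i - a) (by omega) y)
          refine le_trans (le_of_eq ?_) ((abs_add_le _ _).trans
            ((add_le_add a1 a2).trans_eq (by ring)))
          congr 1
          ring
      refine le_trans (le_of_eq ?_) this
      rw [hS', hS, ← Finset.sum_sub_distrib]
      congr 1
      exact Finset.sum_congr rfl fun a _ => by ring
    have eY : Y i (gaussOp m' v Φ') y =
        Dn 0 (gaussOp m' v Φ') y * Dn (i + 1) (gaussOp m' v Φ') y + S' := by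
      unfold Y
      rw [hS']
      simp only [mul_assoc]
    have hm2 : |m| ≤ 1 := by rwa [abs_of_pos hm]
    have t1 := amul hm2 s2
    have t2 := amul hm2 (amul (hF' 0 (by omega) y) (low' v hv (i + 1) (by omega) y))
    have q1 := abs_le.1 (amul hm2 (low v hv 0 (by omega) y))
    have q2 := abs_le.1 (amul hm' (low' v hv 0 (by omega) y))
    have q3 : |m * Dn 0 (gaussOp m v Φ) y - m' * Dn 0 (gaussOp m' v Φ') y| ≤ 2 * C0 :=
      abs_le.2 ⟨by linarith [q1.1, q2.2], by linarith [q1.2, q2.1]⟩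
    have q4 := (abs_add_le _ _).trans (add_le_add (bY i v hv y).2.1 (amul q3 (bY i v hv y).2.2))
    have t3 := amul (le_refl w) q4
    rw [D1_Dn h, D1_Dn h', eY]
    have key : -m' * S' + (m * Dn 0 (gaussOp m v Φ) y - m' * Dn 0 (gaussOp m' v Φ') y) *
        Dn (i + 1) (gaussOp m' v Φ') y - -m * S -
        ((J + e * v) * (LY i v y + (m * Dn 0 (gaussOp m v Φ) y - m' * Dn 0 (gaussOp m' v Φ') y) *
          Yx i v y) + (Dn 0 (gaussOp m' v Φ') y * Dn (i + 1) (gaussOp m' v Φ') y + S') * -e +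
          0 * Yx i v y) =
        -(m * (S' - S)) - m * ((Dn 0 (gaussOp m' v Φ') y - Dn 0 (gaussOp m v Φ) y) *
          Dn (i + 1) (gaussOp m' v Φ') y) -
        (J + e * v) * (LY i v y + (m * Dn 0 (gaussOp m v Φ) y - m' * Dn 0 (gaussOp m' v Φ') y) *
          Yx i v y) := by
      rw [he]
      ring
    rw [key]
    refine (abs3 t1 t2 t3).trans (le_of_eq ?_)
    rw [hc]
    ring
  · simpa only [max_self, mul_zero, add_zero] using h0 i (Nat.lt_succ_iff.1 i.2) y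

/-- the tail integral of the increment -/
def tl (L : List (ℝ × ℝ × ℝ)) (s : ℝ) : ℝ := ∫ r in s..TT (lev 0 L), st L r

theorem tl_cont (L : List (ℝ × ℝ × ℝ)) : Continuous (tl L) := tail_cont L _

theorem tl_first (p : ℝ × ℝ × ℝ) {L : List (ℝ × ℝ × ℝ)} (hL : ∀ r ∈ L, 0 ≤ r.2.2) {s : ℝ}
    (hs : s ≤ p.2.2) : tl (p :: L) s = tl L 0 + p.2.1 * (p.2.2 - s) := by
  unfold tl
  rw [lev_cons, TT_cons, tail_first p hL hs, add_comm]

theorem tl_shift (p : ℝ × ℝ × ℝ) {L : List (ℝ × ℝ × ℝ)} {s : ℝ} (hs : 0 ≤ s)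
    (hsT : s ≤ TT (lev 0 L)) : tl (p :: L) (s + p.2.2) = tl L s := by
  unfold tl
  rw [lev_cons, TT_cons, add_comm p.2.2, ← intervalIntegral.integral_comp_add_right]
  exact intervalIntegral.integral_congr fun r hr => by
    rw [uIcc_of_le hsT] at hr
    exact st_shift p L (hs.trans hr.1)

theorem int_shift (p : ℝ × ℝ × ℝ) {L : List (ℝ × ℝ × ℝ)} {s : ℝ} (hs : 0 ≤ s)
    (hsT : s ≤ TT (lev 0 L)) : ∫ r in (s + p.2.2)..TT (lev 0 (p :: L)), |tl (p :: L) r| =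
      ∫ r in s..TT (lev 0 L), |tl L r| := by
  rw [lev_cons, TT_cons, add_comm p.2.2, ← intervalIntegral.integral_comp_add_right
    (fun r => |tl (p :: L) r|)]
  exact intervalIntegral.integral_congr fun r hr => by
    rw [uIcc_of_le hsT] at hr
    simp only [tl_shift p (hs.trans hr.1) hr.2]

theorem int_first (p : ℝ × ℝ × ℝ) {L : List (ℝ × ℝ × ℝ)} (hL : ∀ r ∈ L, 0 ≤ r.2.2) {t : ℝ}
    (ht : t ≤ p.2.2) : ∫ r in t..TT (lev 0 (p :: L)), |tl (p :: L) r| =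
      (∫ r in (0:ℝ)..TT (lev 0 L), |tl L r|) +
        ∫ v in (0:ℝ)..(p.2.2 - t), |tl L 0 + p.2.1 * v| := by
  have hc : Continuous fun r => |tl (p :: L) r| := (tl_cont _).abs
  have e1 := int_shift p (L := L) le_rfl (TT_lev_nonneg hL)
  rw [zero_add] at e1
  rw [← intervalIntegral.integral_add_adjacent_intervals (b := p.2.2) (hc.intervalIntegrable _ _)
    (hc.intervalIntegrable _ _), e1, add_comm]
  congr 1
  have e2 := intervalIntegral.integral_comp_sub_left (a := t) (b := p.2.2)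
    (fun v => |tl L 0 + p.2.1 * v|) p.2.2
  rw [sub_self] at e2
  rw [← e2]
  exact intervalIntegral.integral_congr fun r hr => by
    rw [uIcc_of_le ht] at hr
    simp only [tl_first p hL hr.2]

theorem PhiT_zero' {l : List (ℝ × ℝ)} (h : Adm 1 l) : PhiT 1 l 0 = PhiL 1 l := by
  cases l with
  | nil => rfl
  | cons p l => simp only [PhiT, PhiL]; rw [if_pos h.2.2.1, sub_zero]

theorem dn_lev (T : ℝ) (k : ℕ) : ∃ A c : ℝ, 0 ≤ A ∧ 0 ≤ c ∧ ∀ L : List (ℝ × ℝ × ℝ),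
    Adm 1 (lev 0 L) → Adm 1 (lev 1 L) → TT (lev 0 L) ≤ T → ∀ t ∈ Icc 0 (TT (lev 0 L)),
    ∀ j ≤ k, ∀ x, |Dn j (PhiT 1 (lev 1 L) t) x - Dn j (PhiT 1 (lev 0 L) t) x -
      tl L t * Y j (PhiT 1 (lev 1 L) t) x| ≤
      A * (∫ r in t..TT (lev 0 L), |tl L r|) * Real.exp (2 * c * (TT (lev 0 L) - t)) := by
  obtain ⟨C0, h1, hC⟩ := Dn_bound T (k + 3)
  obtain ⟨A, c, K, hA, hc, -, hb⟩ := block C0 (by linarith) k
  refine ⟨A, c, hA, hc, fun L => ?_⟩
  induction L with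
  | nil =>
    intro _ _ _ t ht j _ x
    have : t = 0 := le_antisymm (by simpa [lev, TT] using ht.2) ht.1
    subst this
    simp [lev, PhiT, tl, TT]
  | cons p L ih =>
    intro h h' hT t ht j hj x
    have hL : ∀ r ∈ L, 0 ≤ r.2.2 := fun r hr =>
      (Adm.pos h.2.2.2 (r.1 + 0 * r.2.1, r.2.2) (List.mem_map.2 ⟨r, hr, rfl⟩)).2
    have hT0 := TT_lev_nonneg hL
    have hd : 0 ≤ p.2.2 := h.2.2.1
    have eT : TT (lev 0 (p :: L)) = p.2.2 + TT (lev 0 L) := by rw [lev_cons, TT_cons]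
    have ih' := ih h.2.2.2 h'.2.2.2 (by linarith)
    by_cases htp : t ≤ p.2.2
    · have I0 : 0 ≤ ∫ r in (0:ℝ)..TT (lev 0 L), |tl L r| :=
        intervalIntegral.integral_nonneg hT0 fun _ _ => abs_nonneg _
      have hm : 0 < p.1 + 0 * p.2.1 := h.1
      have hm' : 0 < p.1 + 1 * p.2.1 := h'.1
      have hm1 : p.1 + 0 * p.2.1 ≤ 1 := Lip62.head_le_one h
      have hm1' : p.1 + 1 * p.2.1 ≤ 1 := Lip62.head_le_one h'
      have g := hb (PhiL_prof one_pos (lev 0 L)) (PhiL_prof one_pos (lev 1 L)) (d := p.2.2 - t)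
        (m' := p.1 + 1 * p.2.1)
        (J := tl L 0) (M := A * (∫ r in (0:ℝ)..TT (lev 0 L), |tl L r|) *
          Real.exp (2 * c * (TT (lev 0 L) - 0))) hm hm1 (by rwa [abs_of_pos hm'])
        (by linarith) (by positivity)
        (fun v hv i hi y => hC i hi ((p.1 + 0 * p.2.1, v) :: lev 0 L) (Ker.adm_head h hv.1)
          (by rw [TT_cons]; linarith [hv.2, ht.1]) y)
        (fun v hv i hi y => hC i hi ((p.1 + 1 * p.2.1, v) :: lev 1 L) (Ker.adm_head h' hv.1)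
          (by rw [TT_cons, TT_lev]; linarith [hv.2, ht.1]) y)
        (fun i hi y => by
          rw [gaussOp_v0 hm.ne', gaussOp_v0 hm'.ne', ← PhiT_zero' (l := lev 0 L) h.2.2.2,
            ← PhiT_zero' (l := lev 1 L) h'.2.2.2]
          exact ih' 0 ⟨le_rfl, hT0⟩ i hi y) j hj x
      have e1 : p.1 + 1 * p.2.1 - (p.1 + 0 * p.2.1) = p.2.1 := by ring
      rw [e1] at g
      rw [int_first p hL htp, tl_first p hL htp, eT]
      simp only [lev_cons, PhiT, if_pos htp]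
      refine g.trans ?_
      have I1 : 0 ≤ ∫ v in (0:ℝ)..(p.2.2 - t), |tl L 0 + p.2.1 * v| :=
        intervalIntegral.integral_nonneg (by linarith) fun _ _ => abs_nonneg _
      have e2 : 1 ≤ Real.exp (2 * c * (TT (lev 0 L) - 0)) :=
        Real.one_le_exp (by rw [sub_zero]; positivity)
      rw [show 2 * c * (p.2.2 + TT (lev 0 L) - t) =
        2 * c * (TT (lev 0 L) - 0) + 2 * c * (p.2.2 - t) by ring, Real.exp_add, ← mul_assoc]
      refine mul_le_mul_of_nonneg_right ?_ (Real.exp_pos _).le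
      have := mul_le_mul_of_nonneg_left e2 (mul_nonneg hA I1)
      nlinarith
    · obtain ⟨s, rfl⟩ : ∃ s, t = s + p.2.2 := ⟨t - p.2.2, by ring⟩
      have hs : 0 ≤ s := by linarith [not_le.1 htp]
      have hsT : s ≤ TT (lev 0 L) := by linarith [ht.2]
      rw [int_shift p hs hsT, tl_shift p hs hsT, eT]
      simp only [lev_cons, PhiT, if_neg htp, add_sub_cancel_right]
      rw [show p.2.2 + TT (lev 0 L) - (s + p.2.2) = TT (lev 0 L) - s by ring]
      exact ih' s ⟨hs, hsT⟩ j hj x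

/-- **sharp form** -/
def DkS : Prop := ∀ (T0 : ℝ) (k : ℕ), ∃ C : ℝ, 1 ≤ C ∧ ∀ l l', Adm 1 l → Adm 1 l' →
  TT l' = TT l → TT l ≤ T0 → ∀ t ∈ Icc 0 (TT l), ∀ j ≤ k, ∀ x,
    |Pr.Dk j l' t x - Pr.Dk j l t x - Jf l l' (TT l) t * Y j (PhiT 1 l' t) x| ≤
      C * ∫ s in t..TT l, |Jf l l' (TT l) s|

/-- **`H⁻¹` Lipschitz bound** -/
def DkH : Prop := ∀ (T0 : ℝ) (k : ℕ), ∃ C : ℝ, 1 ≤ C ∧ ∀ l l', Adm 1 l → Adm 1 l' →
  TT l' = TT l → TT l ≤ T0 → ∀ t ∈ Icc 0 (TT l), ∀ j ≤ k, ∀ x,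
    |Pr.Dk j l' t x - Pr.Dk j l t x| ≤
      C * (|Jf l l' (TT l) t| + ∫ s in t..TT l, |Jf l l' (TT l) s|)

theorem dkS : DkS := by
  intro T k
  obtain ⟨A, c, hA, hc, H⟩ := dn_lev T k
  refine ⟨1 + A * Real.exp (2 * c * |T|), by
    have : 0 ≤ A * Real.exp (2 * c * |T|) := by positivity
    linarith, fun l l' h h' e hT t ht j hj x => ?_⟩
  obtain ⟨L, hL⟩ := exists_ref h h' e.symm
  have eT := hL.e0.tt
  have eJ : ∀ s, 0 ≤ s → s ≤ TT l → tl L s = Jf l l' (TT l) s := fun s hs hsT => by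
    unfold tl Jf
    rw [← eT]
    exact intervalIntegral.integral_congr fun r hr => by
      rw [uIcc_of_le hsT] at hr
      exact hL.st (hs.trans hr.1)
  have g := H L hL.a0 hL.a1 (eT ▸ hT) t (eT ▸ ht) j hj x
  rw [← hL.e0.phiT t ht.1, ← hL.e1.phiT t ht.1, ← eT, eJ t ht.1 ht.2,
    intervalIntegral.integral_congr (g := fun s => |Jf l l' (TT l) s|) (fun r hr => by
      rw [uIcc_of_le ht.2] at hr
      simp only [eJ r (ht.1.trans hr.1) hr.2])] at g
  refine g.trans ?_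
  have I0 : 0 ≤ ∫ s in t..TT l, |Jf l l' (TT l) s| :=
    intervalIntegral.integral_nonneg ht.2 fun _ _ => abs_nonneg _
  have e1 : Real.exp (2 * c * (TT l - t)) ≤ Real.exp (2 * c * |T|) :=
    Real.exp_le_exp.2 (mul_le_mul_of_nonneg_left (by linarith [le_abs_self T, ht.1])
      (by positivity))
  have := mul_le_mul_of_nonneg_left e1 (mul_nonneg hA I0)
  nlinarith

theorem Y_bound (T : ℝ) (k : ℕ) : ∃ K : ℝ, 1 ≤ K ∧ ∀ l, Adm 1 l → TT l ≤ T → ∀ t, 0 ≤ t →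
    ∀ j ≤ k, ∀ x, |Y j (PhiT 1 l t) x| ≤ K := by
  obtain ⟨C0, h1, hC⟩ := Dn_bound T (k + 2)
  have p0 : 0 ≤ 2 ^ k * C0 ^ 2 := by positivity
  refine ⟨C0 ^ 2 + 2 ^ k * C0 ^ 2, by nlinarith, fun l h hT t ht j hj x => ?_⟩
  obtain ⟨a, b⟩ := Lip62.adm_rest h t ht
  have low : ∀ i < k + 2, |Dn i (PhiT 1 l t) x| ≤ C0 := fun i hi => by
    rw [Lip62.PhiT_eq_rest]
    exact hC i hi _ a (b.trans hT) x
  have s1 := Ker.abs_sum_le hj (a := fun a => Dn (a + 1) (PhiT 1 l t) x)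
    (b := fun a => Dn (j - a) (PhiT 1 l t) x) (B := C0 ^ 2) (by positivity) fun a ha => by
      rw [sq]
      exact amul (low _ (by omega)) (low _ (by omega))
  unfold Y
  simp only [mul_assoc] at s1
  refine (abs_add_le _ _).trans (add_le_add ?_ s1)
  rw [sq]
  exact amul (low _ (by omega)) (low _ (by omega))

/-- **kernel at the origin**: `Δχ = J(0) χ'² + O(∫ |J|)` -/
theorem chi_H (T : ℝ) : ∃ C : ℝ, 1 ≤ C ∧ ∀ l l', Adm 1 l → Adm 1 l' → TT l' = TT l → TT l ≤ T →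
    |Pr.chi l' - Pr.chi l - Jf l l' (TT l) 0 * Pr.chi l' ^ 2| ≤
      C * ∫ s in (0:ℝ)..TT l, |Jf l l' (TT l) s| := by
  obtain ⟨C, h1, hC⟩ := dkS T 1
  refine ⟨C, h1, fun l l' h h' e hT => ?_⟩
  have g := hC l l' h h' e hT 0 ⟨le_rfl, Min62.TT_nn h⟩ 1 le_rfl 0
  have z : Dn 0 (PhiT 1 l' 0) 0 = 0 := by
    rw [PhiT_zero' h', Dn_zero]
    have hp := PhiL_prof one_pos l'
    have e1 : (fun x => PhiL 1 l' (-x)) = PhiL 1 l' := funext (Ker.PhiL_even l')
    have e2 := deriv_comp_neg (PhiL 1 l') 0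
    rw [e1, neg_zero] at e2
    linarith
  rw [Y_one, z, zero_mul, zero_add] at g
  exact g

theorem dkH : DkH := by
  intro T k
  obtain ⟨C, h1, hC⟩ := dkS T k
  obtain ⟨K, k1, hK⟩ := Y_bound T k
  refine ⟨C + K, by linarith, fun l l' h h' e hT t ht j hj x => ?_⟩
  have a1 := abs_le.1 (hC l l' h h' e hT t ht j hj x)
  have a2 := abs_le.1 (amul (le_refl |Jf l l' (TT l) t|) (hK l' h' (e ▸ hT) t ht.1 j hj x))
  have I0 : 0 ≤ ∫ s in t..TT l, |Jf l l' (TT l) s| :=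
    intervalIntegral.integral_nonneg ht.2 fun _ _ => abs_nonneg _
  have p1 := mul_nonneg (show 0 ≤ C by linarith) (abs_nonneg (Jf l l' (TT l) t))
  have p2 := mul_nonneg (show 0 ≤ K by linarith) I0
  exact abs_le.2 ⟨by nlinarith [a1.1, a2.1], by nlinarith [a1.2, a2.2]⟩

end

end Crest.Agent.T156.Hm1
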