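import Crest.Agent.T156.POde_3

/-!
Row 156 (helper32): `H⁻¹` Lipschitz bounds of the one-site recursion in the tilts, part A
(one block, and lists on a common grid).
-/

set_option autoImplicit false

namespace Crest.Agent.T156.Hm

open MeasureTheory ProbabilityTheory Filter Topology Set
open Crest.Agent.R164.GC Crest.Agent.R339.B Crest.Agent.R339.Var Crest.Agent.T157.Pf
open Crest.Agent.T156.Pp
open Crest.ProbabilityR.InvariantGlass (gaussOp)

noncomputable section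

/-- Gronwall in the sup norm with an a-priori bound on `[0,d]` only -/
theorem gronwall' {Φ : ℝ → ℝ} (h : Prof Φ) {m : ℝ} (hm : m ≠ 0) {ι : Type}
    {F LF Fx : ι → ℝ → ℝ → ℝ} (hF : ∀ i, TB Φ m (F i) (LF i) (Fx i))
    {B c f M d : ℝ} (hc : 0 ≤ c) (hf : 0 ≤ f) (hM : 0 ≤ M) (hd : 0 ≤ d)
    (hB : ∀ i, ∀ v ∈ Icc 0 d, ∀ x, |F i v x| ≤ B)
    (hL : ∀ v ∈ Icc 0 d, ∀ N, 0 ≤ N → (∀ j y, |F j v y| ≤ N) → ∀ i x, |LF i v x| ≤ c * N + f)
    (h0 : ∀ i x, |F i 0 x| ≤ M) (i : ι) (x : ℝ) :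
    |F i d x| ≤ (M + f * d) * Real.exp (2 * c * d) := by
  set S : Set ℝ := {r | r = 0 ∨ ∃ j v y, v ∈ Icc 0 d ∧ r = Real.exp (-(2 * c * v)) * |F j v y|}
    with hS
  have hne : S.Nonempty := ⟨0, Or.inl rfl⟩
  have hB0 : 0 ≤ B := (abs_nonneg _).trans (hB i 0 ⟨le_rfl, hd⟩ 0)
  have hbd : BddAbove S := by
    refine ⟨B, ?_⟩
    rintro r (rfl | ⟨j, v, y, hv, rfl⟩)
    · exact hB0
    · have h1 : Real.exp (-(2 * c * v)) ≤ 1 := by
        rw [Real.exp_le_one_iff]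
        have := mul_nonneg hc hv.1
        linarith
      calc _ ≤ 1 * B := mul_le_mul h1 (hB j v hv y) (abs_nonneg _) zero_le_one
        _ = B := one_mul B
  set N := sSup S with hN
  have hN0 : 0 ≤ N := le_csSup hbd (Or.inl rfl)
  have hle : ∀ j v y, v ∈ Icc 0 d → |F j v y| ≤ N * Real.exp (2 * c * v) := by
    intro j v y hv
    have h1 : Real.exp (-(2 * c * v)) * |F j v y| ≤ N := le_csSup hbd (Or.inr ⟨j, v, y, hv, rfl⟩)
    have h2 := mul_le_mul_of_nonneg_right h1 (Real.exp_pos (2 * c * v)).le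
    rwa [mul_comm (Real.exp _), mul_assoc, ← Real.exp_add, neg_add_cancel, Real.exp_zero,
      mul_one] at h2
  have hstep : ∀ j v y, v ∈ Icc 0 d →
      |F j v y| ≤ M + f * v + N * (Real.exp (2 * c * v) - 1) / 2 := by
    intro j v y hv
    have hc1 := VV_cont h (hF j).ug v y (m := m)
    have hg : ∀ τ, HasDerivAt (fun τ => f * τ - N * Real.exp (2 * c * (v - τ)) / 2)
        (f + c * (N * Real.exp (2 * c * (v - τ)))) τ := by
      intro τ
      have a1 : HasDerivAt (fun τ => 2 * c * (v - τ)) (2 * c * (-1)) τ :=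
        ((hasDerivAt_id' τ).const_sub v).const_mul _
      have a2 := ((hasDerivAt_id' τ).const_mul f).fun_sub ((a1.exp.const_mul N).div_const 2)
      refine a2.congr_deriv ?_
      ring
    have hb : ∀ τ ∈ Ioo 0 v, |VV Φ m v (LF j) y τ| ≤ f + c * (N * Real.exp (2 * c * (v - τ))) := by
      intro τ hτ
      refine VV_abs_le h hm ((hF j).ugL h) hτ.1.le hτ.2.le (fun z => ?_) y
      have hvτ : v - τ ∈ Icc 0 d := ⟨by linarith [hτ.2], by linarith [hτ.1, hv.2]⟩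
      have := hL (v - τ) hvτ _ (by positivity) (fun j' y' => hle j' _ y' hvτ) j z
      linarith
    have hgc : Continuous (fun τ => f * τ - N * Real.exp (2 * c * (v - τ)) / 2) := by fun_prop
    have m1 := monotoneOn_of_block (a := 0) (b := v)
      (f := fun τ => (f * τ - N * Real.exp (2 * c * (v - τ)) / 2) + VV Φ m v (F j) y τ)
      (hgc.add hc1).continuousOn
      (fun τ hτ => (hg τ).fun_add (VV_deriv h (hF j) hτ.1 hτ.2 y))
      (fun τ hτ => by have := (abs_le.1 (hb τ hτ)).1; linarith)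
    have m2 := monotoneOn_of_block (a := 0) (b := v)
      (f := fun τ => (f * τ - N * Real.exp (2 * c * (v - τ)) / 2) - VV Φ m v (F j) y τ)
      (hgc.sub hc1).continuousOn
      (fun τ hτ => (hg τ).fun_sub (VV_deriv h (hF j) hτ.1 hτ.2 y))
      (fun τ hτ => by have := (abs_le.1 (hb τ hτ)).2; linarith)
    have i1 := m1 ⟨le_rfl, hv.1⟩ ⟨hv.1, le_rfl⟩ hv.1
    have i2 := m2 ⟨le_rfl, hv.1⟩ ⟨hv.1, le_rfl⟩ hv.1
    simp only at i1 i2
    rw [VV_zero h hm _ hv.1] at i1 i2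
    have e1 := abs_le.1 (VV_abs_le h hm (hF j).ug hv.1 le_rfl (K := M)
      (fun z => by rw [sub_self]; exact h0 j z) y)
    simp only [sub_self, mul_zero, Real.exp_zero, sub_zero] at i1 i2
    rw [abs_le]
    constructor <;> linarith [e1.1, e1.2]
  have hA : 0 ≤ M + f * d := by positivity
  have hNle : N ≤ max (M + f * d) (N / 2) := by
    refine csSup_le hne ?_
    rintro r (rfl | ⟨j, v, y, hv, rfl⟩)
    · exact le_max_of_le_left hA
    · set E := Real.exp (-(2 * c * v)) with hE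
      have hE0 : 0 < E := Real.exp_pos _
      have hE1 : E ≤ 1 := by
        rw [hE, Real.exp_le_one_iff]
        have := mul_nonneg hc hv.1
        linarith
      have hEE : E * Real.exp (2 * c * v) = 1 := by
        rw [hE, ← Real.exp_add, neg_add_cancel, Real.exp_zero]
      have h1 := mul_le_mul_of_nonneg_left (hstep j v y hv) hE0.le
      have h2 : f * v ≤ f * d := mul_le_mul_of_nonneg_left hv.2 hf
      have h3 := le_max_left (M + f * d) (N / 2)
      have h4 := le_max_right (M + f * d) (N / 2)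
      have e : E * (M + f * v + N * (Real.exp (2 * c * v) - 1) / 2) =
          E * (M + f * v) + (1 - E) * (N / 2) := by
        have : E * (N * (Real.exp (2 * c * v) - 1) / 2) =
          N * (E * Real.exp (2 * c * v)) / 2 - E * N / 2 := by ring
        rw [mul_add, this, hEE]
        ring
      rw [e] at h1
      have h5 : E * (M + f * v) ≤ E * max (M + f * d) (N / 2) :=
        mul_le_mul_of_nonneg_left (by linarith) hE0.le
      have h6 : (1 - E) * (N / 2) ≤ (1 - E) * max (M + f * d) (N / 2) :=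
        mul_le_mul_of_nonneg_left h4 (by linarith)
      nlinarith
  have hNA : N ≤ M + f * d := by
    rcases le_max_iff.1 hNle with h1 | h1
    · exact h1
    · linarith
  exact (hle i d x ⟨hd, le_rfl⟩).trans
    (mul_le_mul_of_nonneg_right hNA (Real.exp_pos _).le)

/-! ### test functions with bounds -/

theorem amul {a b A B : ℝ} (ha : |a| ≤ A) (hb : |b| ≤ B) : |a * b| ≤ A * B := by
  rw [abs_mul]; exact mul_le_mul ha hb (abs_nonneg _) ((abs_nonneg _).trans ha)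

/-- test functions with bounds on `[0,d]` -/
def Gd (Φ : ℝ → ℝ) (m d : ℝ) (F : ℝ → ℝ → ℝ) (A : ℝ) : Prop :=
  ∃ LF Fx, TB Φ m F LF Fx ∧ ∀ v ∈ Icc 0 d, ∀ x, |F v x| ≤ A ∧ |LF v x| ≤ A ∧ |Fx v x| ≤ A

section gd

variable {Φ : ℝ → ℝ} {m d A B : ℝ} {F G : ℝ → ℝ → ℝ}

theorem Gd.mono (h : Gd Φ m d F A) (hA : A ≤ B) : Gd Φ m d F B := by
  obtain ⟨LF, Fx, t, b⟩ := h
  exact ⟨LF, Fx, t, fun v hv x => ⟨(b v hv x).1.trans hA, (b v hv x).2.1.trans hA,
    (b v hv x).2.2.trans hA⟩⟩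

theorem Gd.congr (h : Gd Φ m d F A) (e : ∀ v x, G v x = F v x) : Gd Φ m d G A := by
  have : G = F := by funext v x; exact e v x
  rw [this]; exact h

theorem Gd.add (h : Gd Φ m d F A) (h' : Gd Φ m d G B) :
    Gd Φ m d (fun v x => F v x + G v x) (A + B) := by
  obtain ⟨LF, Fx, t, b⟩ := h
  obtain ⟨LG, Gx, t', b'⟩ := h'
  refine ⟨_, _, t.add t', fun v hv x => ?_⟩
  obtain ⟨a1, a2, a3⟩ := b v hv x
  obtain ⟨c1, c2, c3⟩ := b' v hv x
  exact ⟨(abs_add_le _ _).trans (add_le_add a1 c1), (abs_add_le _ _).trans (add_le_add a2 c2),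
    (abs_add_le _ _).trans (add_le_add a3 c3)⟩

theorem Gd.mul (h : Gd Φ m d F A) (h' : Gd Φ m d G B) :
    Gd Φ m d (fun v x => F v x * G v x) (3 * (A * B)) := by
  obtain ⟨LF, Fx, t, b⟩ := h
  obtain ⟨LG, Gx, t', b'⟩ := h'
  refine ⟨_, _, t.mul t', fun v hv x => ?_⟩
  obtain ⟨a1, a2, a3⟩ := b v hv x
  obtain ⟨c1, c2, c3⟩ := b' v hv x
  have p1 := amul a1 c1
  have p2 := amul a1 c2
  have p3 := amul c1 a2
  have p4 := amul a3 c3
  have p5 := amul a3 c1
  have p6 := amul a1 c3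
  have p0 : 0 ≤ A * B := (abs_nonneg _).trans p1
  refine ⟨by linarith, ?_, ?_⟩
  · refine (abs_add_three _ _ _).trans ?_
    linarith
  · refine (abs_add_le _ _).trans ?_
    linarith

theorem Gd.const_mul {c : ℝ} (hc : 0 ≤ c) (h : Gd Φ m d F A) :
    Gd Φ m d (fun v x => c * F v x) (c * A) := by
  obtain ⟨LF, Fx, t, b⟩ := h
  refine ⟨_, _, t.const_mul c, fun v hv x => ?_⟩
  obtain ⟨a1, a2, a3⟩ := b v hv x
  have e : |c| ≤ c := (abs_of_nonneg hc).le
  exact ⟨amul e a1, amul e a2, amul e a3⟩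

theorem Gd.sum {f : ℕ → ℝ → ℝ → ℝ} {a : ℕ → ℝ} : ∀ k : ℕ, (∀ i < k, Gd Φ m d (f i) (a i)) →
    Gd Φ m d (fun v x => ∑ i ∈ Finset.range k, f i v x) (∑ i ∈ Finset.range k, a i)
  | 0, _ => ⟨_, _, (TB.const 0).congr (fun _ _ => by simp) (fun _ _ => rfl) (fun _ _ => rfl),
      fun v _ x => by simp⟩
  | k + 1, h => by
    rw [Finset.sum_range_succ]
    exact ((Gd.sum k fun i hi => h i (by omega)).add (h k (by omega))).congr
      fun v x => Finset.sum_range_succ _ _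

end gd

/-- an affine function of the time as a test function -/
theorem tb_aff (Φ : ℝ → ℝ) (m D δ : ℝ) :
    TB Φ m (fun v _ => D + δ * max v 0) (fun _ _ => -δ) (fun _ _ => 0) := by
  refine ⟨fun _ _ => δ, fun _ _ => 0, fun v x hv => ?_, fun v x => hasDerivAt_const x _,
    fun v x => hasDerivAt_const x _, ⟨by fun_prop, fun d => ⟨|D| + |δ| * max d 0, 0,
      by positivity, le_rfl, fun v x hv => ?_⟩⟩, UG.const δ, UG.const 0, UG.const 0,
    fun v x => by ring⟩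
  · have h1 := ((hasDerivAt_id' v).const_mul δ).const_add D
    rw [mul_one] at h1
    refine h1.congr_of_eventuallyEq ?_
    filter_upwards [lt_mem_nhds hv] with s hs
    rw [max_eq_left hs.le]
  · rw [zero_mul, Real.exp_zero, mul_one]
    refine (abs_add_le _ _).trans (add_le_add le_rfl ?_)
    rw [abs_mul, abs_of_nonneg (le_max_right v 0)]
    exact mul_le_mul_of_nonneg_left (max_le_max hv le_rfl) (abs_nonneg _)

theorem aff_le {D δ d v : ℝ} (hv : v ∈ Icc 0 d) : |D + δ * max v 0| ≤ |D| + |D + δ * d| := by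
  rw [max_eq_left hv.1]
  have h1 := le_abs_self D
  have h2 := neg_abs_le D
  have h3 := le_abs_self (D + δ * d)
  have h4 := neg_abs_le (D + δ * d)
  have h5 := abs_nonneg D
  have h6 := abs_nonneg (D + δ * d)
  rw [abs_le]
  rcases le_total 0 δ with h | h
  · have a := mul_nonneg h hv.1
    have b := mul_le_mul_of_nonneg_left hv.2 h
    constructor <;> linarith
  · have a := mul_nonpos_of_nonpos_of_nonneg h hv.1
    have b := mul_le_mul_of_nonpos_left hv.2 h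
    constructor <;> linarith

/-! ### the corrector -/

/-- the lower order terms -/
def SS (k : ℕ) (Φ : ℝ → ℝ) (x : ℝ) : ℝ :=
  ∑ i ∈ Finset.range k, (k.choose (i + 1) : ℝ) * Dn (i + 1) Φ x * Dn (k - i) Φ x

/-- `∂_x^{k+1} (Φ_x² / 2)` -/
def WW (k : ℕ) (Φ : ℝ → ℝ) (x : ℝ) : ℝ := Dn 0 Φ x * Dn (k + 1) Φ x + SS k Φ x

theorem ch_le {k K : ℕ} (hk : k ≤ K) :
    ∑ i ∈ Finset.range k, (k.choose (i + 1) : ℝ) ≤ 2 ^ K := by
  have h1 : ∑ i ∈ Finset.range (k + 1), (k.choose i : ℝ) = 2 ^ k := by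
    exact_mod_cast Nat.sum_range_choose k
  rw [Finset.sum_range_succ'] at h1
  have h2 : (2 : ℝ) ^ k ≤ 2 ^ K := pow_le_pow_right₀ one_le_two hk
  have h3 : (0 : ℝ) ≤ (k.choose 0 : ℝ) := Nat.cast_nonneg _
  linarith

theorem sum_ch_le {k K : ℕ} (hk : k ≤ K) {f : ℕ → ℝ} {B : ℝ} (hB : 0 ≤ B)
    (hf : ∀ i < k, |f i| ≤ B) : |∑ i ∈ Finset.range k, (k.choose (i + 1) : ℝ) * f i| ≤ 2 ^ K * B := by
  refine (Finset.abs_sum_le_sum_abs _ _).trans ?_
  refine le_trans ?_ (mul_le_mul_of_nonneg_right (ch_le hk) hB)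
  rw [Finset.sum_mul]
  refine Finset.sum_le_sum fun i hi => ?_
  rw [abs_mul, Nat.abs_cast]
  exact mul_le_mul_of_nonneg_left (hf i (Finset.mem_range.1 hi)) (Nat.cast_nonneg _)

theorem SS_le {k K : ℕ} (hk : k ≤ K) {Φ : ℝ → ℝ} {C x : ℝ} (hC : 0 ≤ C)
    (hb : ∀ j ≤ k, |Dn j Φ x| ≤ C) : |SS k Φ x| ≤ 2 ^ K * (C * C) := by
  unfold SS
  simp_rw [mul_assoc]
  exact sum_ch_le hk (by positivity) fun i hi => amul (hb _ (by omega)) (hb _ (by omega))

theorem SS_sub_le {k K : ℕ} (hk : k ≤ K) {Φ Φ' : ℝ → ℝ} {C E x : ℝ} (hC : 0 ≤ C) (hE : 0 ≤ E)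
    (hb : ∀ j ≤ k, |Dn j Φ x| ≤ C) (hb' : ∀ j ≤ k, |Dn j Φ' x| ≤ C)
    (he : ∀ j ≤ k, |Dn j Φ' x - Dn j Φ x| ≤ E) : |SS k Φ' x - SS k Φ x| ≤ 2 ^ K * (2 * C * E) := by
  unfold SS
  rw [← Finset.sum_sub_distrib]
  simp_rw [mul_assoc, ← mul_sub]
  refine sum_ch_le hk (by positivity) fun i hi => ?_
  have a1 := amul (he (i + 1) (by omega)) (hb' (k - i) (by omega))
  have a2 := amul (hb (i + 1) (by omega)) (he (k - i) (by omega))
  have e : Dn (i + 1) Φ' x * Dn (k - i) Φ' x - Dn (i + 1) Φ x * Dn (k - i) Φ x =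
      (Dn (i + 1) Φ' x - Dn (i + 1) Φ x) * Dn (k - i) Φ' x +
        Dn (i + 1) Φ x * (Dn (k - i) Φ' x - Dn (k - i) Φ x) := by ring
  rw [e]
  refine (abs_add_le _ _).trans ?_
  linarith

theorem Dk1_eq {Φ : ℝ → ℝ} (h : Prof Φ) (m v x : ℝ) :
    Dk Φ m 1 v x = m * Dn 0 (gaussOp m v Φ) x := by
  rw [D1_eq h, Lip62.At_deriv h, Dn_zero]

theorem D0_le {Φ : ℝ → ℝ} (h : Prof Φ) (x : ℝ) : |Dn 0 Φ x| ≤ 1 := by
  rw [Dn_zero]; exact h.b1 x

/-- the derivatives of the second profile in the block of the first -/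
theorem tb_Dn' {Φ Φ' : ℝ → ℝ} (h : Prof Φ) (h' : Prof Φ') (m m' : ℝ) (k : ℕ) :
    TB Φ m (fun v => Dn k (gaussOp m' v Φ'))
      (fun v x => -m' * SS k (gaussOp m' v Φ') x + (m * Dn 0 (gaussOp m v Φ) x -
        m' * Dn 0 (gaussOp m' v Φ') x) * Dn (k + 1) (gaussOp m' v Φ') x)
      (fun v => Dn (k + 1) (gaussOp m' v Φ')) :=
  (Lip62.TB_change (tb_Dn h' m' k)).congr (fun _ _ => rfl)
    (fun v x => by rw [Dk1_eq h, Dk1_eq h']; rfl) (fun _ _ => rfl)

theorem drift2 {Φ Φ' : ℝ → ℝ} (h : Prof Φ) (h' : Prof Φ') {m m' : ℝ} (hm : 0 < m) (hm1 : m ≤ 1)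
    (hm' : 0 < m') (hm1' : m' ≤ 1) (x : ℝ) : |m * Dn 0 Φ x - m' * Dn 0 Φ' x| ≤ 2 := by
  have a := amul ((abs_of_pos hm).le.trans hm1) (D0_le h x)
  have b := amul ((abs_of_pos hm').le.trans hm1') (D0_le h' x)
  refine (abs_sub _ _).trans ?_
  linarith

/-- constants -/
def c0 (K : ℕ) (C : ℝ) : ℝ := (2 ^ (K + 1) + 2) * (C * C)
def cA (K : ℕ) (C : ℝ) : ℝ := (2 ^ K + 1) * (3 * (c0 K C * c0 K C))
def c1 (K : ℕ) (C : ℝ) : ℝ := 2 ^ K * (2 * C) + C
def c2 (K : ℕ) (C : ℝ) : ℝ := (c1 K C + 1) * cA K C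

theorem c0_nn (K : ℕ) (C : ℝ) : 0 ≤ c0 K C := by
  unfold c0; have := mul_self_nonneg C; positivity
theorem cA_nn (K : ℕ) (C : ℝ) : 0 ≤ cA K C := by
  unfold cA; have := c0_nn K C; positivity
theorem c1_nn (K : ℕ) {C : ℝ} (hC : 1 ≤ C) : 0 ≤ c1 K C := by
  unfold c1; have : 0 ≤ C := by linarith
  positivity
theorem c2_nn (K : ℕ) {C : ℝ} (hC : 1 ≤ C) : 0 ≤ c2 K C := by
  unfold c2; have := c1_nn K hC; have := cA_nn K C; positivity

section block

variable {Φ Φ' : ℝ → ℝ} (h : Prof Φ) (h' : Prof Φ') {m m' d C : ℝ} {K : ℕ} (hm : 0 < m)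
  (hm1 : m ≤ 1) (hm' : 0 < m') (hm1' : m' ≤ 1) (hC : 1 ≤ C)
  (hb' : ∀ v ∈ Icc 0 d, ∀ j ≤ K + 2, ∀ x, |Dn j (gaussOp m' v Φ') x| ≤ C)
include h h' hm hm1 hm' hm1' hC hb'

theorem gd_Dn {j : ℕ} (hj : j ≤ K + 1) :
    Gd Φ m d (fun v => Dn j (gaussOp m' v Φ')) (c0 K C) := by
  refine ⟨_, _, tb_Dn' h h' m m' j, fun v hv x => ?_⟩
  have hC0 : 0 ≤ C := by linarith
  have hCC : C ≤ C * C := le_mul_of_one_le_left hC0 hC
  have h2 : (0 : ℝ) ≤ 2 ^ (K + 1) * (C * C) := by positivity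
  have e : c0 K C = 2 ^ (K + 1) * (C * C) + 2 * (C * C) := by unfold c0; ring
  rw [e]
  refine ⟨(hb' v hv j (by omega) x).trans (by linarith), ?_,
    (hb' v hv (j + 1) (by omega) x).trans (by linarith)⟩
  have a1 := amul (show |-m'| ≤ 1 by rw [abs_neg, abs_of_pos hm']; exact hm1')
    (SS_le hj hC0 (fun i hi => hb' v hv i (by omega) x))
  have a2 := amul (drift2 (h.step m v) (h'.step m' v) hm hm1 hm' hm1' x)
    (hb' v hv (j + 1) (by omega) x)
  refine (abs_add_le _ _).trans ?_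
  linarith

theorem gd_W {k : ℕ} (hk : k ≤ K) : Gd Φ m d (fun v => WW k (gaussOp m' v Φ')) (cA K C) := by
  have g := fun j hj => gd_Dn h h' hm hm1 hm' hm1' hC hb' (j := j) hj
  have g1 := (g 0 (by omega)).mul (g (k + 1) (by omega))
  have g2 := Gd.sum (Φ := Φ) (m := m) (d := d) k (f := fun i v x => (k.choose (i + 1) : ℝ) *
    (Dn (i + 1) (gaussOp m' v Φ') x * Dn (k - i) (gaussOp m' v Φ') x))
    (a := fun i => (k.choose (i + 1) : ℝ) * (3 * (c0 K C * c0 K C)))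
    (fun i hi => ((g (i + 1) (by omega)).mul (g (k - i) (by omega))).const_mul (Nat.cast_nonneg _))
  refine ((g1.add g2).congr fun v x => ?_).mono ?_
  · unfold WW SS
    simp_rw [mul_assoc]
  · rw [← Finset.sum_mul]
    have := mul_le_mul_of_nonneg_right (ch_le hk)
      (show 0 ≤ 3 * (c0 K C * c0 K C) by have := c0_nn K C; positivity)
    unfold cA
    linarith

/-- **one block** -/
theorem block (hd : 0 ≤ d) (hb : ∀ v ∈ Icc 0 d, ∀ j ≤ K + 2, ∀ x, |Dn j (gaussOp m v Φ) x| ≤ C)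
    {D M : ℝ} (h0 : ∀ k ≤ K, ∀ x, |Dn k Φ' x - Dn k Φ x - D * WW k Φ' x| ≤ M) {k : ℕ} (hk : k ≤ K)
    (x : ℝ) : |Dn k (gaussOp m' d Φ') x - Dn k (gaussOp m d Φ) x -
      (D + (m' - m) * d) * WW k (gaussOp m' d Φ') x| ≤
      (M + c2 K C * (|D| + |D + (m' - m) * d|) * d) * Real.exp (2 * c1 K C * d) := by
  have hC0 : 0 ≤ C := by linarith
  have hA := cA_nn K C
  choose LW Wx tW bW using fun i : {k : ℕ // k ≤ K} => gd_W h h' hm hm1 hm' hm1' hC hb' i.2
  set Jm := |D| + |D + (m' - m) * d| with hJm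
  have hJ0 : 0 ≤ Jm := by positivity
  have g := gronwall' h hm.ne' (ι := {k : ℕ // k ≤ K})
    (F := fun i v x => Dn i (gaussOp m' v Φ') x - Dn i (gaussOp m v Φ) x -
      (D + (m' - m) * max v 0) * WW i (gaussOp m' v Φ') x)
    (fun i => ((tb_Dn' h h' m m' i).sub (tb_Dn h m i)).sub ((tb_aff Φ m D (m' - m)).mul (tW i)))
    (B := C + C + Jm * cA K C) (c := c1 K C) (f := c2 K C * Jm) (M := M) (c1_nn K hC)
    (mul_nonneg (c2_nn K hC) hJ0) ((abs_nonneg _).trans (h0 0 (Nat.zero_le _) 0)) hd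
    (fun i v hv y => ?_) (fun v hv N hN hF i y => ?_) (fun i y => ?_) ⟨k, hk⟩ x
  · rw [max_eq_left hd] at g
    exact g
  · have a1 := hb' v hv i (by have := i.2; omega) y
    have a2 := hb v hv i (by have := i.2; omega) y
    have a3 := amul (aff_le (D := D) (δ := m' - m) hv) (bW i v hv y).1
    exact (abs_sub _ _).trans (add_le_add ((abs_sub _ _).trans (add_le_add a1 a2)) a3)
  · have hJ := aff_le (D := D) (δ := m' - m) hv
    rw [← hJm] at hJ
    set J := D + (m' - m) * max v 0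
    have he : ∀ j ≤ K, |Dn j (gaussOp m' v Φ') y - Dn j (gaussOp m v Φ) y| ≤ N + Jm * cA K C := by
      intro j hj
      have a1 := hF ⟨j, hj⟩ y
      have a2 := amul hJ (bW ⟨j, hj⟩ v hv y).1
      have e : Dn j (gaussOp m' v Φ') y - Dn j (gaussOp m v Φ) y =
          (Dn j (gaussOp m' v Φ') y - Dn j (gaussOp m v Φ) y - J * WW j (gaussOp m' v Φ') y) +
            J * WW j (gaussOp m' v Φ') y := by ring
      rw [e]
      exact (abs_add_le _ _).trans (add_le_add a1 a2)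
    have hi := i.2
    have b1 := amul (show |-m| ≤ 1 by rw [abs_neg, abs_of_pos hm]; exact hm1)
      (SS_sub_le hi hC0 (by positivity) (fun j hj => hb v hv j (by omega) y)
        (fun j hj => hb' v hv j (by omega) y) (fun j hj => he j (by omega)))
    have b2 := amul (amul (show |-m| ≤ 1 by rw [abs_neg, abs_of_pos hm]; exact hm1)
      (he 0 (Nat.zero_le _))) (hb' v hv (i + 1) (by omega) y)
    have b3 := amul hJ (bW i v hv y).2.1
    have e : -m' * SS i (gaussOp m' v Φ') y + (m * Dn 0 (gaussOp m v Φ) y -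
        m' * Dn 0 (gaussOp m' v Φ') y) * Dn (i + 1) (gaussOp m' v Φ') y -
        -m * ∑ j ∈ Finset.range i, ((i : ℕ).choose (j + 1) : ℝ) *
          Dn (j + 1) (gaussOp m v Φ) y * Dn (i - j) (gaussOp m v Φ) y -
        (J * LW i v y + WW i (gaussOp m' v Φ') y * -(m' - m) + 0 * Wx i v y) =
        -m * (SS i (gaussOp m' v Φ') y - SS i (gaussOp m v Φ) y) +
          -m * (Dn 0 (gaussOp m' v Φ') y - Dn 0 (gaussOp m v Φ) y) *
            Dn (i + 1) (gaussOp m' v Φ') y - J * LW i v y := by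
      show _ - -m * SS i (gaussOp m v Φ) y - _ = _
      unfold WW
      ring
    rw [e]
    refine (abs_sub _ _).trans ((add_le_add (abs_add_le _ _) le_rfl).trans ?_)
    have e2 : c1 K C * N + c2 K C * Jm = 1 * (2 ^ K * (2 * C * (N + Jm * cA K C))) +
        1 * (N + Jm * cA K C) * C + Jm * cA K C := by
      unfold c2 c1; ring
    rw [e2]
    linarith
  · simp only [gaussOp_v0 hm.ne', gaussOp_v0 hm'.ne', max_self, mul_zero, add_zero]
    exact h0 i i.2 y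

end block

end

end Crest.Agent.T156.Hm
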