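import Crest.Agent.T156.HmA_32
import Crest.Agent.T156.Mon_48

/-!
Row 156 (helper32): `H⁻¹` Lipschitz bounds, part B (backward functions; lists on a common grid).
-/

set_option autoImplicit false

namespace Crest.Agent.T156.Hm

open MeasureTheory ProbabilityTheory Filter Topology Set
open Crest.Agent.R164.GC Crest.Agent.R339.B Crest.Agent.R339.Var Crest.Agent.T157.Pf
open Crest.Agent.T156.Pp Crest.Agent.T156.Sc48
open Crest.ProbabilityR.InvariantGlass (gaussOp)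

noncomputable section

/-! ### more block lemmas -/

theorem bd_ug {F : ℝ → ℝ} (hF : BD F) : UG (fun _ x => F x) := by
  obtain ⟨C, hC⟩ := hF.bdd
  exact ⟨hF.cont.comp continuous_snd, fun _ => ⟨C, 0, (abs_nonneg _).trans (hC 0), le_rfl,
    fun _ x _ => by simpa using hC x⟩⟩

theorem tb_fun (Φ : ℝ → ℝ) (m : ℝ) {F : ℝ → ℝ} (hF : BD F) : TB Φ m (fun _ x => F x)
    (fun v x => 1 / 2 * deriv (deriv F) x + Dk Φ m 1 v x * deriv F x) (fun _ x => deriv F x) :=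
  ⟨fun _ _ => 0, fun _ x => deriv (deriv F) x, fun v x _ => hasDerivAt_const v _,
    fun _ x => hF.hasDerivAt x, fun _ x => hF.deriv.hasDerivAt x, bd_ug hF, UG.const 0,
    bd_ug hF.deriv, bd_ug hF.deriv.deriv, fun v x => by ring⟩

theorem At_zero (Φ : ℝ → ℝ) (m : ℝ) (P : ℝ → ℝ) : At Φ m P 0 = P := tE_v0 m Φ P

theorem block_self {Φ : ℝ → ℝ} (h : Prof Φ) {m d M La : ℝ} (hm : 0 < m) (hm1 : m ≤ 1) (hd : 0 ≤ d)
    {P F : ℝ → ℝ} (hP : BD P) (hF : BD F) (h1 : ∀ x, |deriv F x| ≤ La)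
    (h2 : ∀ x, |deriv (deriv F) x| ≤ La) (hM : ∀ x, |P x - F x| ≤ M) (x : ℝ) :
    |tE m d Φ P x - F x| ≤ M + 2 * La * d := by
  obtain ⟨B, hB⟩ := At_bdd h m hP
  obtain ⟨B', hB'⟩ := hF.bdd
  have hL : 0 ≤ La := (abs_nonneg _).trans (h1 0)
  have g := gronwall h hm.ne' (ι := Unit) (F := fun _ v x => At Φ m P v x - F x)
    (fun _ => (Lip62.tb_At' h m hP).sub (tb_fun Φ m hF)) (B := B + B') (c := 0) (f := 2 * La)
    (M := M) le_rfl (by positivity) ((abs_nonneg _).trans (hM 0)) hd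
    (fun _ v y => (abs_sub _ _).trans (add_le_add (hB v y) (hB' y)))
    (fun v _ N _ _ _ y => ?_) (fun _ y => by rw [At_zero]; exact hM y) () x
  · simpa [At] using g
  · rw [zero_sub, abs_neg, Dk1_eq h]
    have a1 := amul (show |(1 / 2 : ℝ)| ≤ 1 by norm_num [abs_of_pos]) (h2 y)
    have a2 := amul (amul ((abs_of_pos hm).le.trans hm1) (D0_le (h.step m v) y)) (h1 y)
    refine (abs_add_le _ _).trans ?_
    linarith

/-- `|E F(X_t) - F(x)| ≤ 2 L t` -/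
theorem EX_self {F : ℝ → ℝ} (hF : BD F) {La : ℝ} (h1 : ∀ x, |deriv F x| ≤ La)
    (h2 : ∀ x, |deriv (deriv F) x| ≤ La) : ∀ {l : List (ℝ × ℝ)}, Adm 1 l → ∀ t, 0 ≤ t → ∀ x,
    |EX 1 l t F x - F x| ≤ 2 * La * t
  | [], _, t, ht, x => by
    have hL : 0 ≤ La := (abs_nonneg _).trans (h1 0)
    simp only [EX, sub_self, abs_zero]; positivity
  | p :: l, h, t, ht, x => by
    have hP := PhiL_prof one_pos l
    unfold EX
    split_ifs with h3
    · have := block_self (hP.step p.1 (p.2 - t)) h.1 (Lip62.head_le_one h) ht hF hF h1 h2 (M := 0)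
        (fun y => by simp) x
      linarith
    · have := block_self hP h.1 (Lip62.head_le_one h) h.2.2.1 (Lip62.EX_bd one_pos l (t - p.2) hF)
        hF h1 h2 (EX_self hF h1 h2 h.2.2.2 (t - p.2) (by linarith)) x
      linarith

theorem block_der {Φ : ℝ → ℝ} (h : Prof Φ) {m d C La : ℝ} {K : ℕ} (hm : 0 < m) (hm1 : m ≤ 1)
    (hd : 0 ≤ d) (hC : 0 ≤ C) (hLa : 0 ≤ La)
    (hb : ∀ v ∈ Icc 0 d, ∀ j ≤ K, ∀ x, |Dn j (gaussOp m v Φ) x| ≤ C) {P : ℝ → ℝ} (hP : BD P)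
    (hL : ∀ j, 1 ≤ j → j ≤ K → ∀ x, |iteratedDeriv j P x| ≤ La) {j : ℕ} (hj : 1 ≤ j) (hjK : j ≤ K)
    (x : ℝ) : |Ak Φ m P j d x| ≤ La * Real.exp (2 * (2 ^ K * C) * d) := by
  choose B hB using fun j => Ak_bdd h m hP j
  have g := gronwall h hm.ne' (ι := {j : ℕ // 1 ≤ j ∧ j ≤ K}) (F := fun i => Ak Φ m P i)
    (fun i => tb_Ak h m hP i) (B := ∑ j ∈ Finset.range (K + 1), |B j|) (c := 2 ^ K * C) (f := 0)
    (M := La) (by positivity) le_rfl hLa hd
    (fun i v y => (hB i v y).trans ((le_abs_self _).trans (Finset.single_le_sum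
      (f := fun j => |B j|) (fun _ _ => abs_nonneg _)
      (Finset.mem_range.2 (Nat.lt_succ_of_le i.2.2)))))
    (fun v hv N hN hF i y => ?_) (fun i y => ?_) ⟨j, hj, hjK⟩ x
  · simpa using g
  · unfold LA
    simp only [Ak_eq h, mul_assoc]
    have := amul (show |-m| ≤ 1 by rw [abs_neg, abs_of_pos hm]; exact hm1)
      (sum_ch_le i.2.2 (B := C * N) (by positivity)
        (f := fun k => Dn (k + 1) (gaussOp m v Φ) y * Ak Φ m P (i - k) v y) fun k hk =>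
        amul (hb v hv (k + 1) (by have := i.2.2; omega) y)
          (hF ⟨i - k, by omega, by have := i.2.2; omega⟩ y))
    linarith
  · unfold Ak
    rw [At_zero]
    exact hL i i.2.1 i.2.2 y

theorem adm_hd {p : ℝ × ℝ} {l : List (ℝ × ℝ)} (h : Adm 1 (p :: l)) {v : ℝ} (hv : 0 ≤ v) :
    Adm 1 ((p.1, v) :: l) := ⟨h.1, h.2.1, hv, h.2.2.2⟩

/-- the bounds used everywhere -/
def Bd (T : ℝ) (K : ℕ) (C : ℝ) : Prop :=
  ∀ l : List (ℝ × ℝ), Adm 1 l → TT l ≤ T → ∀ j ≤ K, ∀ x, |Dn j (PhiL 1 l) x| ≤ C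

theorem exists_Bd (T : ℝ) (K : ℕ) : ∃ C, 1 ≤ C ∧ Bd T K C := by
  obtain ⟨C, h1, hC⟩ := Dn_bound T (K + 1)
  exact ⟨C, h1, fun l hl hT j hj x => hC j (Nat.lt_succ_of_le hj) l hl hT x⟩

theorem Bd.blk {T C : ℝ} {K : ℕ} (hB : Bd T K C) {p : ℝ × ℝ} {l : List (ℝ × ℝ)}
    (h : Adm 1 (p :: l)) (hT : TT (p :: l) ≤ T) {d : ℝ} (hd : d ≤ p.2) :
    ∀ v ∈ Icc 0 d, ∀ j ≤ K, ∀ x, |Dn j (gaussOp p.1 v (PhiL 1 l)) x| ≤ C := fun v hv j hj x =>
  hB ((p.1, v) :: l) (adm_hd h hv.1) (by rw [TT_cons] at hT ⊢; linarith [hv.2]) j hj x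

theorem Bd.blk2 {T C : ℝ} {K : ℕ} (hB : Bd T K C) {p : ℝ × ℝ} {l : List (ℝ × ℝ)}
    (h : Adm 1 (p :: l)) (hT : TT (p :: l) ≤ T) {t : ℝ} (ht : t ≤ p.2) :
    ∀ v ∈ Icc 0 t, ∀ j ≤ K, ∀ x,
      |Dn j (gaussOp p.1 v (gaussOp p.1 (p.2 - t) (PhiL 1 l))) x| ≤ C := fun v hv j hj x =>
  hB ((p.1, v) :: (p.1, p.2 - t) :: l) (Lip62.adm_split h ht hv.1)
    (by simp only [TT_cons] at hT ⊢; linarith [hv.2]) j hj x

/-- derivative bounds of the backward test functions -/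
theorem EX_der {T C La : ℝ} {K : ℕ} (hC : 0 ≤ C) (hB : Bd T K C) {F : ℝ → ℝ} (hF : BD F)
    (hLa : 0 ≤ La) (hL : ∀ j, 1 ≤ j → j ≤ K → ∀ x, |iteratedDeriv j F x| ≤ La) :
    ∀ {l : List (ℝ × ℝ)}, Adm 1 l → TT l ≤ T → ∀ t, 0 ≤ t → ∀ j, 1 ≤ j → j ≤ K → ∀ x,
      |iteratedDeriv j (EX 1 l t F) x| ≤ La * Real.exp (2 * (2 ^ K * C) * t)
  | [], _, _, t, ht, j, hj, hjK, x => (hL j hj hjK x).trans
      (le_mul_of_one_le_right hLa (Real.one_le_exp (by positivity)))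
  | p :: l, h, hT, t, ht, j, hj, hjK, x => by
    have hP := PhiL_prof one_pos l
    unfold EX
    split_ifs with h1
    · exact block_der (hP.step _ _) h.1 (Lip62.head_le_one h) ht hC hLa (hB.blk2 h hT h1) hF hL
        hj hjK x
    · have := block_der hP h.1 (Lip62.head_le_one h) h.2.2.1 hC (by positivity)
        (hB.blk h hT le_rfl) (Lip62.EX_bd one_pos l (t - p.2) hF)
        (EX_der hC hB hF hLa hL h.2.2.2 (by rw [TT_cons] at hT; linarith [h.2.2.1]) (t - p.2)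
          (by linarith)) hj hjK x
      rwa [mul_assoc, ← Real.exp_add, show 2 * (2 ^ K * C) * (t - p.2) + 2 * (2 ^ K * C) * p.2 =
        2 * (2 ^ K * C) * t by ring] at this

/-- constant of the law comparison -/
def c3 (C : ℝ) : ℝ := 3 * (c0 0 C * (C + 2))

theorem c3_nn {C : ℝ} (hC : 1 ≤ C) : 0 ≤ c3 C := by
  unfold c3; have := c0_nn 0 C; have : 0 ≤ C := by linarith
  positivity

/-- **one block, law** -/
theorem block_law {Φ Φ' : ℝ → ℝ} (h : Prof Φ) (h' : Prof Φ') {m m' d C : ℝ} (hm : 0 < m)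
    (hm1 : m ≤ 1) (hm' : 0 < m') (hm1' : m' ≤ 1) (hC : 1 ≤ C) (hd : 0 ≤ d)
    (hb' : ∀ v ∈ Icc 0 d, ∀ j ≤ 2, ∀ x, |Dn j (gaussOp m' v Φ') x| ≤ C)
    {P P' : ℝ → ℝ} (hP : BD P) (hP' : BD P') {La E D M : ℝ}
    (hL : ∀ v ∈ Icc 0 d, ∀ j, 1 ≤ j → j ≤ 2 → ∀ x, |Ak Φ' m' P' j v x| ≤ La)
    (hE : ∀ v ∈ Icc 0 d, ∀ x, |Dn 0 (gaussOp m' v Φ') x - Dn 0 (gaussOp m v Φ) x| ≤ E)
    (h0 : ∀ x, |P' x - P x - D * (Dn 0 Φ' x * deriv P' x)| ≤ M) (x : ℝ) :
    |tE m' d Φ' P' x - tE m d Φ P x - (D + (m' - m) * d) *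
      (Dn 0 (gaussOp m' d Φ') x * deriv (tE m' d Φ' P') x)| ≤
      M + (E + c3 C * (|D| + |D + (m' - m) * d|)) * La * d := by
  have hC0 : 0 ≤ C := by linarith
  have hLa : 0 ≤ La := (abs_nonneg _).trans (hL 0 ⟨le_rfl, hd⟩ 1 le_rfl one_le_two 0)
  have hE0 : 0 ≤ E := (abs_nonneg _).trans (hE 0 ⟨le_rfl, hd⟩ 0)
  have g0 := gd_Dn (K := 0) h h' hm hm1 hm' hm1' hC hb' (j := 0) (Nat.zero_le _)
  have g1 : Gd Φ m d (Ak Φ' m' P' 1) ((C + 2) * La) := by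
    refine ⟨_, _, Lip62.TB_change (tb_Ak h' m' hP' 1), fun v hv y => ?_⟩
    have a1 := hL v hv 1 le_rfl one_le_two y
    have a2 := hL v hv 2 one_le_two le_rfl y
    have a0 : 0 ≤ C * La := by positivity
    refine ⟨by nlinarith, ?_, by show |Ak Φ' m' P' 2 v y| ≤ _; nlinarith⟩
    have b1 := amul (show |-m'| ≤ 1 by rw [abs_neg, abs_of_pos hm']; exact hm1')
      (amul (hb' v hv 1 one_le_two y) a1)
    have b2 := amul (drift2 (h.step m v) (h'.step m' v) hm hm1 hm' hm1' y) a2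
    rw [Dk1_eq h, Dk1_eq h']
    simp only [LA, Finset.range_one, Finset.sum_singleton, zero_add, Nat.choose_self, Nat.cast_one,
      one_mul, Nat.sub_zero, Ak_eq h'] at b1 ⊢
    refine (abs_add_le _ _).trans ?_
    show _ + |_ * Ak Φ' m' P' 2 v y| ≤ _
    linarith
  obtain ⟨LW, Wx, tW, bW⟩ := g0.mul g1
  obtain ⟨B, hB⟩ := At_bdd h m hP
  obtain ⟨B', hB'⟩ := At_bdd h' m' hP'
  set Jm := |D| + |D + (m' - m) * d| with hJm
  have hJ0 : 0 ≤ Jm := by positivity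
  have e3 : 3 * (c0 0 C * ((C + 2) * La)) = c3 C * La := by unfold c3; ring
  rw [e3] at bW
  have g := gronwall' h hm.ne' (ι := Unit)
    (F := fun _ v x => At Φ' m' P' v x - At Φ m P v x -
      (D + (m' - m) * max v 0) * (Dn 0 (gaussOp m' v Φ') x * Ak Φ' m' P' 1 v x))
    (fun _ => ((Lip62.TB_change (Lip62.tb_At' h' m' hP')).sub (Lip62.tb_At' h m hP)).sub
      ((tb_aff Φ m D (m' - m)).mul tW))
    (B := B' + B + Jm * (c3 C * La)) (c := 0) (f := (E + c3 C * Jm) * La) (M := M) le_rfl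
    (by have := c3_nn hC; positivity) ((abs_nonneg _).trans (h0 0)) hd
    (fun _ v hv y => ?_) (fun v hv N _ _ _ y => ?_) (fun _ y => ?_) () x
  · rw [max_eq_left hd, Lip62.Ak_one, mul_zero, zero_mul, Real.exp_zero, mul_one] at g
    exact g
  · have a3 := amul (aff_le (D := D) (δ := m' - m) hv) (bW v hv y).1
    exact (abs_sub _ _).trans (add_le_add ((abs_sub _ _).trans (add_le_add (hB' v y) (hB v y))) a3)
  · have hJ := aff_le (D := D) (δ := m' - m) hv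
    rw [← hJm] at hJ
    set J := D + (m' - m) * max v 0
    have b2 := amul (amul (show |-m| ≤ 1 by rw [abs_neg, abs_of_pos hm]; exact hm1)
      (hE v hv y)) (hL v hv 1 le_rfl one_le_two y)
    have b3 := amul hJ (bW v hv y).2.1
    rw [Dk1_eq h, Dk1_eq h', ← Lip62.Ak_one]
    have e : 0 + (m * Dn 0 (gaussOp m v Φ) y - m' * Dn 0 (gaussOp m' v Φ') y) * Ak Φ' m' P' 1 v y -
        0 - (J * LW v y + Dn 0 (gaussOp m' v Φ') y * Ak Φ' m' P' 1 v y * -(m' - m) + 0 * Wx v y) =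
        -m * (Dn 0 (gaussOp m' v Φ') y - Dn 0 (gaussOp m v Φ) y) * Ak Φ' m' P' 1 v y -
          J * LW v y := by ring
    rw [e]
    refine (abs_sub _ _).trans ?_
    linarith
  · simp only [gaussOp_v0 hm'.ne', max_self, mul_zero, add_zero, Lip62.Ak_one, At_zero]
    exact h0 y

/-! ### the primitive along a refined list -/

/-- `J(s)` -/
def JL (L : List (ℝ × ℝ × ℝ)) (s : ℝ) : ℝ := ∫ r in s..TT (lev 0 L), st L r
/-- `∫ |J|` -/
def IL (L : List (ℝ × ℝ × ℝ)) (a b : ℝ) : ℝ := ∫ s in a..b, |JL L s|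

theorem JL_cont (L : List (ℝ × ℝ × ℝ)) : Continuous (JL L) := tail_cont L _

theorem IL_add (L : List (ℝ × ℝ × ℝ)) (a b c : ℝ) : IL L a b + IL L b c = IL L a c :=
  intervalIntegral.integral_add_adjacent_intervals ((JL_cont L).abs.intervalIntegrable _ _)
    ((JL_cont L).abs.intervalIntegrable _ _)

theorem IL_nn (L : List (ℝ × ℝ × ℝ)) {a b : ℝ} (h : a ≤ b) : 0 ≤ IL L a b :=
  intervalIntegral.integral_nonneg h fun _ _ => abs_nonneg _

theorem TT_lc (p : ℝ × ℝ × ℝ) (L : List (ℝ × ℝ × ℝ)) :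
    TT (lev 0 (p :: L)) = p.2.2 + TT (lev 0 L) := by rw [lev_cons, TT_cons]

theorem JL_first (p : ℝ × ℝ × ℝ) {L : List (ℝ × ℝ × ℝ)} (hL : ∀ r ∈ L, 0 ≤ r.2.2) {s : ℝ}
    (hs : s ≤ p.2.2) : JL (p :: L) s = JL L 0 + p.2.1 * (p.2.2 - s) := by
  unfold JL
  rw [TT_lc, tail_first p hL hs, add_comm]

theorem JL_next (p : ℝ × ℝ × ℝ) {L : List (ℝ × ℝ × ℝ)} (hL : ∀ r ∈ L, 0 ≤ r.2.2) {s : ℝ}
    (hs : p.2.2 ≤ s) : JL (p :: L) s = JL L (s - p.2.2) := by
  unfold JL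
  have hT := TT_lev_nonneg hL
  have e := intervalIntegral.integral_comp_add_right (a := s - p.2.2) (b := TT (lev 0 L))
    (st (p :: L)) p.2.2
  rw [sub_add_cancel, add_comm (TT (lev 0 L))] at e
  rw [TT_lc, ← e]
  refine intervalIntegral.integral_congr fun r hr => st_shift p L ?_
  rcases mem_uIcc.1 hr with h | h <;> linarith [h.1]

theorem IL_next (p : ℝ × ℝ × ℝ) {L : List (ℝ × ℝ × ℝ)} (hL : ∀ r ∈ L, 0 ≤ r.2.2) {a b : ℝ}
    (ha : p.2.2 ≤ a) (hb : p.2.2 ≤ b) : IL (p :: L) a b = IL L (a - p.2.2) (b - p.2.2) := by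
  unfold IL
  rw [← intervalIntegral.integral_comp_sub_right (fun s => |JL L s|)]
  refine intervalIntegral.integral_congr fun r hr => ?_
  show |JL (p :: L) r| = |JL L (r - p.2.2)|
  rw [JL_next p hL]
  rcases mem_uIcc.1 hr with h | h <;> linarith [h.1]

theorem aff_int (D δ d u w : ℝ) :
    ∫ s in u..w, (D + δ * (d - s)) = (w - u) * (D + δ * (d - (u + w) / 2)) := by
  rw [intervalIntegral.integral_eq_sub_of_hasDerivAt (f := fun s => D * s + δ * (d * s - s ^ 2 / 2))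
    (fun s _ => ?_) (Continuous.intervalIntegrable (by fun_prop) _ _)]
  · ring
  · have a := hasDerivAt_id' s
    refine ((a.const_mul D).fun_add (((a.const_mul d).fun_sub
      ((a.fun_pow 2).div_const 2)).const_mul δ)).congr_deriv ?_
    simp only [Nat.cast_ofNat, Nat.reduceSub, pow_one]
    ring

theorem IL_blk (p : ℝ × ℝ × ℝ) {L : List (ℝ × ℝ × ℝ)} (hL : ∀ r ∈ L, 0 ≤ r.2.2) {a b : ℝ}
    (hab : a ≤ b) (hb : b ≤ p.2.2) :
    (|JL (p :: L) a| + |JL (p :: L) b|) * (b - a) ≤ 4 * IL (p :: L) a b := by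
  have key : ∀ u w, u ≤ w → w ≤ p.2.2 →
      (w - u) * |JL L 0 + p.2.1 * (p.2.2 - (u + w) / 2)| ≤ IL (p :: L) u w := by
    intro u w huw hw
    have h1 := intervalIntegral.abs_integral_le_integral_abs (μ := volume) (f := JL (p :: L)) huw
    rw [intervalIntegral.integral_congr (g := fun s => JL L 0 + p.2.1 * (p.2.2 - s))
      (fun s hs => JL_first p hL (by rw [uIcc_of_le huw] at hs; linarith [hs.2])), aff_int,
      abs_mul, abs_of_nonneg (sub_nonneg.2 huw)] at h1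
    exact h1
  have k1 := key a ((a + b) / 2) (by linarith) (by linarith)
  have k2 := key ((a + b) / 2) b (by linarith) hb
  rw [← IL_add (p :: L) a ((a + b) / 2) b, JL_first p hL (hab.trans hb), JL_first p hL hb]
  set x := JL L 0 + p.2.1 * (p.2.2 - (a + (a + b) / 2) / 2) with hx
  set y := JL L 0 + p.2.1 * (p.2.2 - ((a + b) / 2 + b) / 2) with hy
  have e1 : JL L 0 + p.2.1 * (p.2.2 - a) = 3 / 2 * x - 1 / 2 * y := by rw [hx, hy]; ring
  have e2 : JL L 0 + p.2.1 * (p.2.2 - b) = 3 / 2 * y - 1 / 2 * x := by rw [hx, hy]; ring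
  have b1 : |3 / 2 * x - 1 / 2 * y| ≤ 3 / 2 * |x| + 1 / 2 * |y| := by
    refine (abs_sub _ _).trans (le_of_eq ?_)
    rw [abs_mul, abs_mul]; norm_num [abs_of_pos]
  have b2 : |3 / 2 * y - 1 / 2 * x| ≤ 3 / 2 * |y| + 1 / 2 * |x| := by
    refine (abs_sub _ _).trans (le_of_eq ?_)
    rw [abs_mul, abs_mul]; norm_num [abs_of_pos]
  rw [e1, e2]
  have := mul_le_mul_of_nonneg_right (add_le_add b1 b2) (sub_nonneg.2 hab)
  nlinarith

theorem len_of_adm {L : List (ℝ × ℝ × ℝ)} (h : Adm 1 (lev 0 L)) : ∀ p ∈ L, 0 ≤ p.2.2 := fun p hp =>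
  adm_len h (p.1 + 0 * p.2.1, p.2.2) (List.mem_map.2 ⟨p, hp, rfl⟩)

theorem TT_lev1 : ∀ L : List (ℝ × ℝ × ℝ), TT (lev 1 L) = TT (lev 0 L)
  | [] => rfl
  | p :: L => by rw [lev_cons, lev_cons, TT_cons, TT_cons, TT_lev1 L]

/-- **(1) on a common grid** -/
theorem psi_L {T C : ℝ} {K : ℕ} (hC : 1 ≤ C) (hB : Bd T (K + 2) C) :
    ∀ L : List (ℝ × ℝ × ℝ), Adm 1 (lev 0 L) → Adm 1 (lev 1 L) → TT (lev 0 L) ≤ T →
    ∀ t ∈ Icc 0 (TT (lev 0 L)), ∀ k ≤ K, ∀ x,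
      |Dn k (PhiT 1 (lev 1 L) t) x - Dn k (PhiT 1 (lev 0 L) t) x -
        JL L t * WW k (PhiT 1 (lev 1 L) t) x| ≤
      4 * c2 K C * IL L t (TT (lev 0 L)) * Real.exp (2 * c1 K C * (TT (lev 0 L) - t))
  | [], _, _, _, t, ht, k, _, x => by
    have : t = 0 := le_antisymm ht.2 ht.1
    subst this
    simp [lev, PhiT, JL, IL, st, TT]
  | p :: L, h0', h1', hT, t, ht, k, hk, x => by
    have h0 : Adm 1 ((p.1 + 0 * p.2.1, p.2.2) :: lev 0 L) := h0'
    have h1 : Adm 1 ((p.1 + 1 * p.2.1, p.2.2) :: lev 1 L) := h1'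
    have hL := len_of_adm h0.2.2.2
    have hT0 := TT_lev_nonneg hL
    have hd : 0 ≤ p.2.2 := h0.2.2.1
    have hT1 : TT (lev 1 (p :: L)) ≤ T := by rw [TT_lev1]; exact hT
    have ih := psi_L hC hB L h0.2.2.2 h1.2.2.2 (by rw [TT_lc] at hT; linarith)
    have n1 := c1_nn K hC
    have n2 := c2_nn K hC
    rw [TT_lc] at ht ⊢
    rcases le_total t p.2.2 with h2 | h2
    · have b := block (PhiL_prof one_pos (lev 0 L)) (PhiL_prof one_pos (lev 1 L)) h0.1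
        (Lip62.head_le_one h0) h1.1 (Lip62.head_le_one h1) hC (d := p.2.2 - t)
        (hB.blk h1 hT1 (by simp only; linarith [ht.1])) (by linarith)
        (hB.blk h0 hT (by simp only; linarith [ht.1])) (D := JL L 0)
        (fun k hk x => by
          have := ih 0 ⟨le_rfl, hT0⟩ k hk x
          rwa [PhiT_zero (adm_len h1.2.2.2), PhiT_zero (adm_len h0.2.2.2)] at this) hk x
      have e : p.1 + 1 * p.2.1 - (p.1 + 0 * p.2.1) = p.2.1 := by ring
      simp only [e] at b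
      rw [← JL_first p hL h2] at b
      rw [lev_cons, lev_cons, PhiT_first (by exact h2), PhiT_first (by exact h2)]
      refine b.trans ?_
      have i1 := IL_blk p hL h2 le_rfl
      rw [JL_first p hL le_rfl, sub_self, mul_zero, add_zero] at i1
      have i2 := IL_next p hL (a := p.2.2) (b := p.2.2 + TT (lev 0 L)) le_rfl (by linarith)
      rw [sub_self, add_sub_cancel_left] at i2
      rw [← IL_add (p :: L) t p.2.2, i2, sub_zero,
        show 2 * c1 K C * (p.2.2 + TT (lev 0 L) - t) =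
          2 * c1 K C * TT (lev 0 L) + 2 * c1 K C * (p.2.2 - t) by ring, Real.exp_add, ← mul_assoc]
      refine mul_le_mul_of_nonneg_right ?_ (Real.exp_pos _).le
      have x1 : 1 ≤ Real.exp (2 * c1 K C * TT (lev 0 L)) := Real.one_le_exp (by positivity)
      have x2 := mul_le_mul_of_nonneg_left i1 n2
      have x3 := mul_le_mul_of_nonneg_left x1
        (mul_nonneg n2 (IL_nn (p :: L) h2))
      nlinarith
    · have := ih (t - p.2.2) ⟨by linarith, by linarith [ht.2]⟩ k hk x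
      rw [lev_cons, lev_cons, PhiT_next h1.1.ne' (adm_len h1.2.2.2) (by exact h2),
        PhiT_next h0.1.ne' (adm_len h0.2.2.2) (by exact h2), JL_next p hL h2,
        IL_next p hL h2 (by linarith), add_sub_cancel_left,
        show p.2.2 + TT (lev 0 L) - t = TT (lev 0 L) - (t - p.2.2) by ring]
      exact this

end

end Crest.Agent.T156.Hm
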