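import Crest.Agent.T156.HmB_32
import Crest.Agent.T156.PrDef_28

/-!
Row 156 (helper32): `H⁻¹` Lipschitz bounds of the one-site recursion in the tilts (leaf L-e).
`J(s) = ∫_s^T (ζ' - ζ)`.
-/

set_option autoImplicit false

namespace Crest.Agent.T156.Hm

open MeasureTheory ProbabilityTheory Filter Topology Set
open Crest.Agent.R164.GC Crest.Agent.R339.B Crest.Agent.R339.Var Crest.Agent.T157.Pf
open Crest.Agent.T156.Pp Crest.Agent.T156.Sc48
open Crest.ProbabilityR.InvariantGlass (gaussOp)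

noncomputable section

theorem Bd.phiT {T C : ℝ} {K : ℕ} (hB : Bd T K C) {l : List (ℝ × ℝ)} (h : Adm 1 l) (hT : TT l ≤ T)
    {t : ℝ} (ht : 0 ≤ t) : ∀ j ≤ K, ∀ x, |Dn j (PhiT 1 l t) x| ≤ C := by
  rw [Lip62.PhiT_eq_rest]
  obtain ⟨a, b⟩ := Lip62.adm_rest h t ht
  exact hB _ a (b.trans hT)

theorem Bd.mono {T C : ℝ} {K K' : ℕ} (hB : Bd T K C) (h : K' ≤ K) : Bd T K' C :=
  fun l hl hT j hj => hB l hl hT j (hj.trans h)

theorem WW_le {k K : ℕ} (hk : k ≤ K) {Φ : ℝ → ℝ} {C x : ℝ} (hC : 0 ≤ C)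
    (hb : ∀ j ≤ k + 1, |Dn j Φ x| ≤ C) : |WW k Φ x| ≤ (2 ^ K + 1) * (C * C) := by
  have a1 := amul (hb 0 (by omega)) (hb (k + 1) le_rfl)
  have a2 := SS_le hk hC fun j hj => hb j (by omega)
  unfold WW
  refine (abs_add_le _ _).trans ?_
  linarith

/-- constants -/
def cS (T : ℝ) (K : ℕ) (C : ℝ) : ℝ := 4 * c2 K C * Real.exp (2 * c1 K C * T)
def cD (T : ℝ) (K : ℕ) (C : ℝ) : ℝ := cS T K C + (2 ^ K + 1) * (C * C)

theorem cS_nn (T : ℝ) (K : ℕ) {C : ℝ} (hC : 1 ≤ C) : 0 ≤ cS T K C := by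
  unfold cS; have := c2_nn K hC; positivity

theorem cD_nn (T : ℝ) (K : ℕ) {C : ℝ} (hC : 1 ≤ C) : 0 ≤ cD T K C := by
  unfold cD; have := cS_nn T K hC; have := mul_self_nonneg C; positivity

section grid

variable {T C : ℝ} {K : ℕ} (hC : 1 ≤ C) (hB : Bd T (K + 2) C) {L : List (ℝ × ℝ × ℝ)}
  (h0 : Adm 1 (lev 0 L)) (h1 : Adm 1 (lev 1 L)) (hT : TT (lev 0 L) ≤ T) {t : ℝ}
  (ht : t ∈ Icc 0 (TT (lev 0 L))) {k : ℕ} (hk : k ≤ K) (x : ℝ)
include hC hB h0 h1 hT ht hk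

theorem psi_L' : |Dn k (PhiT 1 (lev 1 L) t) x - Dn k (PhiT 1 (lev 0 L) t) x -
    JL L t * WW k (PhiT 1 (lev 1 L) t) x| ≤ cS T K C * IL L t (TT (lev 0 L)) := by
  refine (psi_L hC hB L h0 h1 hT t ht k hk x).trans ?_
  have n1 := c1_nn K hC
  have n2 := c2_nn K hC
  have n3 := IL_nn L ht.2
  have : Real.exp (2 * c1 K C * (TT (lev 0 L) - t)) ≤ Real.exp (2 * c1 K C * T) :=
    Real.exp_le_exp.2 (mul_le_mul_of_nonneg_left (by linarith [ht.1]) (by positivity))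
  have := mul_le_mul_of_nonneg_left this (show 0 ≤ 4 * c2 K C * IL L t (TT (lev 0 L)) by positivity)
  unfold cS
  linarith

theorem dn_L : |Dn k (PhiT 1 (lev 1 L) t) x - Dn k (PhiT 1 (lev 0 L) t) x| ≤
    cD T K C * (|JL L t| + IL L t (TT (lev 0 L))) := by
  have a1 := psi_L' hC hB h0 h1 hT ht hk x
  have a2 := amul (le_refl |JL L t|) (WW_le hk (by linarith : (0 : ℝ) ≤ C) (x := x) fun j hj =>
    hB.phiT h1 (by rw [TT_lev1]; exact hT) ht.1 j (by omega) x)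
  have n0 := cS_nn T K hC
  have n1 : 0 ≤ (2 ^ K + 1) * (C * C) := by have := mul_self_nonneg C; positivity
  have n3 := IL_nn L ht.2
  have n4 := abs_nonneg (JL L t)
  have := abs_add_le (Dn k (PhiT 1 (lev 1 L) t) x - Dn k (PhiT 1 (lev 0 L) t) x -
    JL L t * WW k (PhiT 1 (lev 1 L) t) x) (JL L t * WW k (PhiT 1 (lev 1 L) t) x)
  rw [sub_add_cancel] at this
  unfold cD
  nlinarith [mul_nonneg n0 n4, mul_nonneg n1 n3]

end grid

theorem JL_mid (p : ℝ × ℝ × ℝ) {L : List (ℝ × ℝ × ℝ)} (hL : ∀ r ∈ L, 0 ≤ r.2.2) {s b : ℝ}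
    (hs : 0 ≤ s) (hsb : s ≤ b) (hb : b ≤ p.2.2) :
    |JL (p :: L) s| ≤ |JL (p :: L) 0| + |JL (p :: L) b| := by
  have := aff_le (D := JL (p :: L) b) (δ := p.2.1) (d := b) (v := b - s)
    ⟨by linarith, by linarith⟩
  rw [max_eq_left (by linarith)] at this
  rw [JL_first p hL (hsb.trans hb), JL_first p hL (hs.trans (hsb.trans hb))]
  rw [JL_first p hL hb] at this ⊢
  rw [show JL L 0 + p.2.1 * (p.2.2 - s) = JL L 0 + p.2.1 * (p.2.2 - b) + p.2.1 * (b - s) by ring,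
    show JL L 0 + p.2.1 * (p.2.2 - 0) = JL L 0 + p.2.1 * (p.2.2 - b) + p.2.1 * b by ring]
  linarith

theorem IL_le (L : List (ℝ × ℝ × ℝ)) {a b c : ℝ} (h : a ≤ b) : IL L b c ≤ IL L a c := by
  rw [← IL_add L a b c]; linarith [IL_nn L h]

/-- **(2) on a common grid** -/
theorem law_L {T C La M : ℝ} (hC : 1 ≤ C) (hB : Bd T 2 C) {F F' : ℝ → ℝ} (hF : BD F) (hF' : BD F')
    (hM : ∀ x, |F' x - F x| ≤ M) (hLa : 0 ≤ La)
    (hL' : ∀ j, 1 ≤ j → j ≤ 2 → ∀ x, |iteratedDeriv j F' x| ≤ La) :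
    ∀ L : List (ℝ × ℝ × ℝ), Adm 1 (lev 0 L) → Adm 1 (lev 1 L) → TT (lev 0 L) ≤ T →
    ∀ t ∈ Icc 0 (TT (lev 0 L)), ∀ x,
      |EX 1 (lev 1 L) t F' x - EX 1 (lev 0 L) t F x - (JL L 0 - JL L t) *
        (Dn 0 (PhiL 1 (lev 1 L)) x * deriv (EX 1 (lev 1 L) t F') x)| ≤
      M + 4 * (cD T 0 C + c3 C) * (La * Real.exp (2 * (2 ^ 2 * C) * T)) *
        (IL L 0 t + t * (|JL L t| + IL L 0 (TT (lev 0 L))))
  | [], _, _, _, t, ht, x => by
    have : t = 0 := le_antisymm ht.2 ht.1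
    subst this
    simpa [lev, EX, IL] using hM x
  | p :: L, h0', h1', hT, t, ht, x => by
    have h0 : Adm 1 ((p.1 + 0 * p.2.1, p.2.2) :: lev 0 L) := h0'
    have h1 : Adm 1 ((p.1 + 1 * p.2.1, p.2.2) :: lev 1 L) := h1'
    have hL := len_of_adm h0.2.2.2
    have hT0 := TT_lev_nonneg hL
    have hd : 0 ≤ p.2.2 := h0.2.2.1
    have hT1 : TT (lev 1 (p :: L)) ≤ T := by rw [TT_lev1]; exact hT
    have hTc := hT
    rw [TT_lc] at hTc
    have ih := law_L hC hB hF hF' hM hLa hL' L h0.2.2.2 h1.2.2.2 (by linarith)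
    have hC0 : 0 ≤ C := by linarith
    have n1 := cD_nn T 0 hC
    have n2 := c3_nn hC
    have hP := PhiL_prof one_pos (lev 0 L)
    have hP' := PhiL_prof one_pos (lev 1 L)
    have e : p.1 + 1 * p.2.1 - (p.1 + 0 * p.2.1) = p.2.1 := by ring
    set La' := La * Real.exp (2 * (2 ^ 2 * C) * T) with hLa'
    have n3 : 0 ≤ La' := by positivity
    have hE : ∀ b, 0 ≤ b → b ≤ p.2.2 → ∀ s ∈ Icc 0 b, ∀ y,
        |Dn 0 (PhiT 1 (lev 1 (p :: L)) s) y - Dn 0 (PhiT 1 (lev 0 (p :: L)) s) y| ≤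
          cD T 0 C * (|JL (p :: L) 0| + |JL (p :: L) b| + IL (p :: L) 0 (TT (lev 0 (p :: L)))) := by
      intro b hb0 hb s hs y
      refine (dn_L (K := 0) hC hB h0' h1' hT (t := s) ⟨hs.1, by rw [TT_lc]; linarith [hs.2]⟩
        le_rfl y).trans (mul_le_mul_of_nonneg_left (add_le_add (JL_mid p hL hs.1 hs.2 hb)
          (IL_le _ hs.1)) n1)
    have nI := IL_nn (p :: L) (show 0 ≤ TT (lev 0 (p :: L)) from ht.1.trans ht.2)
    by_cases h2 : t ≤ p.2.2
    · have b := block_law (hP.step (p.1 + 0 * p.2.1) (p.2.2 - t))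
        (hP'.step (p.1 + 1 * p.2.1) (p.2.2 - t)) h0.1 (Lip62.head_le_one h0) h1.1
        (Lip62.head_le_one h1) hC ht.1 (hB.blk2 h1 hT1 h2) hF hF' (La := La') (D := 0) (M := M)
        (E := cD T 0 C * (|JL (p :: L) 0| + |JL (p :: L) t| + IL (p :: L) 0 (TT (lev 0 (p :: L)))))
        (fun v hv j hj hj2 y => (block_der (hP'.step _ _) h1.1 (Lip62.head_le_one h1) hv.1 hC0 hLa
          (fun w hw => hB.blk2 h1 hT1 h2 w ⟨hw.1, hw.2.trans hv.2⟩) hF' hL' hj hj2 y).trans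
          (mul_le_mul_of_nonneg_left (Real.exp_le_exp.2 (mul_le_mul_of_nonneg_left
            (by linarith [hv.2]) (by positivity))) hLa))
        (fun v hv y => by
          have := hE t ht.1 h2 (t - v) ⟨by linarith [hv.2], by linarith [hv.1]⟩ y
          rw [lev_cons 1, lev_cons 0, PhiT_first (by simp only; linarith [hv.1]),
            PhiT_first (by simp only; linarith [hv.1])] at this
          rw [← gaussOp_semi hP' h1.1.ne' hv.1 (by linarith),
            ← gaussOp_semi hP h0.1.ne' hv.1 (by linarith),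
            show v + (p.2.2 - t) = p.2.2 - (t - v) by ring]
          exact this)
        (fun y => by simpa using hM y) x
      have e2 : JL (p :: L) 0 - JL (p :: L) t = p.2.1 * t := by
        rw [JL_first p hL hd, JL_first p hL h2]; ring
      simp only [e, zero_add, abs_zero] at b
      rw [← gaussOp_semi hP' h1.1.ne' ht.1 (by linarith), add_sub_cancel, ← e2] at b
      rw [lev_cons 1, lev_cons 0]
      simp only [EX, PhiL]
      rw [if_pos h2, if_pos h2, ← lev_cons 0 p L]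
      refine b.trans (add_le_add le_rfl ?_)
      have i1 := IL_blk p hL ht.1 h2
      rw [sub_zero] at i1
      have i2 := abs_sub (JL (p :: L) 0) (JL (p :: L) t)
      have i3 := abs_nonneg (JL (p :: L) t)
      set a := |JL (p :: L) 0| + |JL (p :: L) t|
      set I := IL (p :: L) 0 (TT (lev 0 (p :: L)))
      have j1 : (cD T 0 C * (a + I) + c3 C * |JL (p :: L) 0 - JL (p :: L) t|) * t ≤
          4 * (cD T 0 C + c3 C) * (IL (p :: L) 0 t + t * (|JL (p :: L) t| + I)) := by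
        have k1 := mul_le_mul_of_nonneg_left i1 (add_nonneg n1 n2)
        have k2 := mul_le_mul_of_nonneg_right (mul_le_mul_of_nonneg_left i2 n2) ht.1
        have k3 := mul_nonneg (add_nonneg n1 n2) (mul_nonneg ht.1 i3)
        have k4 := mul_nonneg n1 (mul_nonneg ht.1 nI)
        have k5 := mul_nonneg n2 (mul_nonneg ht.1 nI)
        nlinarith
      have := mul_le_mul_of_nonneg_left j1 n3
      linarith
    · have h3 : p.2.2 ≤ t := (not_le.1 h2).le
      have ht2 := ht.2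
      rw [TT_lc] at ht2
      have b := block_law hP hP' h0.1 (Lip62.head_le_one h0) h1.1
        (Lip62.head_le_one h1) hC hd (hB.blk h1 hT1 le_rfl) (Lip62.EX_bd one_pos (lev 0 L)
          (t - p.2.2) hF) (Lip62.EX_bd one_pos (lev 1 L) (t - p.2.2) hF') (La := La')
        (E := cD T 0 C * (|JL (p :: L) 0| + |JL (p :: L) p.2.2| +
          IL (p :: L) 0 (TT (lev 0 (p :: L)))))
        (fun v hv j hj hj2 y => by
          refine (block_der hP' h1.1 (Lip62.head_le_one h1) hv.1 hC0 (by positivity)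
            (fun w hw => hB.blk h1 hT1 le_rfl w ⟨hw.1, hw.2.trans hv.2⟩)
            (Lip62.EX_bd one_pos (lev 1 L) (t - p.2.2) hF')
            (EX_der hC0 hB hF' hLa hL' h1.2.2.2 (by rw [TT_lev1]; linarith) (t - p.2.2)
              (by linarith)) hj hj2 y).trans ?_
          rw [mul_assoc, ← Real.exp_add, ← mul_add]
          exact mul_le_mul_of_nonneg_left (Real.exp_le_exp.2 (mul_le_mul_of_nonneg_left
            (by linarith [hv.2]) (by positivity))) hLa)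
        (fun v hv y => by
          have := hE p.2.2 hd le_rfl (p.2.2 - v) ⟨by linarith [hv.2], by linarith [hv.1]⟩ y
          rw [lev_cons 1, lev_cons 0, PhiT_first (by simp only; linarith [hv.1]),
            PhiT_first (by simp only; linarith [hv.1])] at this
          simp only [sub_sub_cancel] at this
          exact this)
        (ih (t - p.2.2) ⟨by linarith, by linarith⟩) x
      have e2 : JL L 0 - JL L (t - p.2.2) + p.2.1 * p.2.2 = JL (p :: L) 0 - JL (p :: L) t := by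
        rw [JL_first p hL hd, JL_next p hL h3]; ring
      have e3 : JL L 0 = JL (p :: L) p.2.2 := by rw [JL_first p hL le_rfl]; ring
      have e4 := IL_next p hL (a := p.2.2) (b := t) le_rfl h3
      have e5 := IL_next p hL (a := p.2.2) (b := p.2.2 + TT (lev 0 L)) le_rfl (by linarith)
      rw [sub_self] at e4 e5
      rw [add_sub_cancel_left, ← TT_lc] at e5
      simp only [e] at b
      rw [e2, ← JL_next p hL h3, e3, ← e4, ← e5] at b
      rw [lev_cons 1, lev_cons 0]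
      simp only [EX, PhiL]
      rw [if_neg h2, if_neg h2, ← lev_cons 0 p L]
      refine b.trans ?_
      rw [add_assoc]
      refine add_le_add le_rfl ?_
      have i1 := IL_blk p hL hd le_rfl
      rw [sub_zero] at i1
      have i2 := abs_sub (JL (p :: L) 0) (JL (p :: L) t)
      have i2' := abs_sub (JL (p :: L) p.2.2) (JL (p :: L) t)
      have i3 := abs_nonneg (JL (p :: L) t)
      have i4 := IL_le (p :: L) hd (c := TT (lev 0 (p :: L)))
      rw [← IL_add (p :: L) 0 p.2.2 t]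
      set a := |JL (p :: L) 0| + |JL (p :: L) p.2.2| with ha
      set I := IL (p :: L) 0 (TT (lev 0 (p :: L)))
      set Jt := |JL (p :: L) t|
      have j1 : (cD T 0 C * (a + I) + c3 C * (|JL (p :: L) p.2.2 - JL (p :: L) t| +
          |JL (p :: L) 0 - JL (p :: L) t|)) * p.2.2 ≤
          4 * (cD T 0 C + c3 C) * (IL (p :: L) 0 p.2.2 + p.2.2 * (Jt + I)) := by
        have k1 := mul_le_mul_of_nonneg_left i1 (add_nonneg n1 n2)
        have k2 := mul_le_mul_of_nonneg_right (mul_le_mul_of_nonneg_left (add_le_add i2' i2) n2) hd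
        have k3 := mul_nonneg n1 (mul_nonneg hd i3)
        have k3' := mul_nonneg n2 (mul_nonneg hd i3)
        have k4 := mul_nonneg n1 (mul_nonneg hd nI)
        have k5 := mul_nonneg n2 (mul_nonneg hd nI)
        nlinarith
      have j2 := mul_le_mul_of_nonneg_left j1 n3
      have j3 := mul_le_mul_of_nonneg_left (mul_le_mul_of_nonneg_left i4 (sub_nonneg.2 h3))
        (show 0 ≤ 4 * (cD T 0 C + c3 C) * La' by positivity)
      nlinarith

/-! ### general lists -/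

/-- `∫_a^b |J|` -/
def IJ (l l' : List (ℝ × ℝ)) (a b : ℝ) : ℝ := ∫ s in a..b, |Jf l l' (TT l) s|

theorem ref_JL {l l' : List (ℝ × ℝ)} {L : List (ℝ × ℝ × ℝ)} (h : Ref l l' L) {s : ℝ} (hs : 0 ≤ s) :
    JL L s = Jf l l' (TT l) s := by
  have hT := TT_lev_nonneg h.len
  unfold JL Jf
  rw [h.e0.tt]
  refine intervalIntegral.integral_congr fun r hr => h.st ?_
  rcases mem_uIcc.1 hr with h | h <;> linarith [h.1]

theorem ref_IL {l l' : List (ℝ × ℝ)} {L : List (ℝ × ℝ × ℝ)} (h : Ref l l' L) {a b : ℝ} (ha : 0 ≤ a)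
    (hb : 0 ≤ b) : IL L a b = IJ l l' a b := by
  unfold IL IJ
  refine intervalIntegral.integral_congr fun r hr => ?_
  show |JL L r| = |Jf l l' (TT l) r|
  rw [ref_JL h]
  rcases mem_uIcc.1 hr with h | h <;> linarith [h.1]

theorem IJ_nn (l l' : List (ℝ × ℝ)) {a b : ℝ} (h : a ≤ b) : 0 ≤ IJ l l' a b :=
  intervalIntegral.integral_nonneg h fun _ _ => abs_nonneg _

theorem IJ_add {l l' : List (ℝ × ℝ)} (h : Adm 1 l) (h' : Adm 1 l') (e : TT l' = TT l) {a b c : ℝ}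
    (ha : 0 ≤ a) (hb : 0 ≤ b) (hc : 0 ≤ c) : IJ l l' a b + IJ l l' b c = IJ l l' a c := by
  obtain ⟨L, r⟩ := exists_ref h h' e.symm
  rw [← ref_IL r ha hb, ← ref_IL r hb hc, ← ref_IL r ha hc, IL_add]

/-- **(1), sharp and plain** -/
theorem dn_H (T : ℝ) (K : ℕ) : ∃ C : ℝ, 1 ≤ C ∧ ∀ l l', Adm 1 l → Adm 1 l' → TT l' = TT l →
    TT l ≤ T → ∀ t ∈ Icc 0 (TT l), ∀ k ≤ K, ∀ x,
      |Dn k (PhiT 1 l' t) x - Dn k (PhiT 1 l t) x - Jf l l' (TT l) t * WW k (PhiT 1 l' t) x| ≤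
        C * IJ l l' t (TT l) ∧
      |Dn k (PhiT 1 l' t) x - Dn k (PhiT 1 l t) x| ≤ C * (|Jf l l' (TT l) t| + IJ l l' t (TT l)) := by
  obtain ⟨C, hC, hB⟩ := exists_Bd T (K + 2)
  have n0 := cS_nn T K hC
  have n1 := cD_nn T K hC
  refine ⟨1 + cS T K C + cD T K C, by linarith, fun l l' h h' e hT t ht k hk x => ?_⟩
  obtain ⟨L, r⟩ := exists_ref h h' e.symm
  have a := psi_L' hC hB r.a0 r.a1 (r.e0.tt ▸ hT) (r.e0.tt ▸ ht) hk x
  have b := dn_L hC hB r.a0 r.a1 (r.e0.tt ▸ hT) (r.e0.tt ▸ ht) hk x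
  rw [← r.e0.tt, ref_JL r ht.1, ref_IL r ht.1 (ht.1.trans ht.2), ← r.e0.phiT t ht.1,
    ← r.e1.phiT t ht.1] at a b
  have n2 := IJ_nn l l' ht.2
  have n3 := abs_nonneg (Jf l l' (TT l) t)
  exact ⟨a.trans (mul_le_mul_of_nonneg_right (by linarith) n2),
    b.trans (mul_le_mul_of_nonneg_right (by linarith) (by linarith))⟩

/-- the size of the change of the law of `X_t` -/
def HL (l l' : List (ℝ × ℝ)) (t : ℝ) : ℝ :=
  IJ l l' 0 t + t * (|Jf l l' (TT l) t| + IJ l l' 0 (TT l))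

theorem HL_nn (l l' : List (ℝ × ℝ)) {t : ℝ} (ht : t ∈ Icc 0 (TT l)) : 0 ≤ HL l l' t := by
  have a := IJ_nn l l' ht.1
  have b := IJ_nn l l' (ht.1.trans ht.2)
  have c := ht.1
  unfold HL; positivity

/-- **(2)**: any start `x` with the corrector; start `0` without -/
theorem law_H (T : ℝ) : ∃ C : ℝ, 1 ≤ C ∧ ∀ l l', Adm 1 l → Adm 1 l' → TT l' = TT l → TT l ≤ T →
    ∀ t ∈ Icc 0 (TT l), ∀ (F F' : ℝ → ℝ) (M La : ℝ), BD F → BD F' → (∀ x, |F' x - F x| ≤ M) →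
      (∀ x, |deriv F' x| ≤ La) → (∀ x, |deriv (deriv F') x| ≤ La) →
      (∀ x, |EX 1 l' t F' x - EX 1 l t F x - (Jf l l' (TT l) 0 - Jf l l' (TT l) t) *
        (Dn 0 (PhiL 1 l') x * deriv (EX 1 l' t F') x)| ≤ M + C * La * HL l l' t) ∧
      |EX 1 l' t F' 0 - EX 1 l t F 0| ≤ M + C * La * HL l l' t := by
  obtain ⟨C, hC, hB⟩ := exists_Bd T 2
  have n1 := cD_nn T 0 hC
  have n2 := c3_nn hC
  have n3 : 0 ≤ 4 * (cD T 0 C + c3 C) * Real.exp (2 * (2 ^ 2 * C) * T) := by positivity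
  refine ⟨1 + 4 * (cD T 0 C + c3 C) * Real.exp (2 * (2 ^ 2 * C) * T), by linarith,
    fun l l' h h' e hT t ht F F' M La hF hF' hM d1 d2 => ?_⟩
  obtain ⟨L, r⟩ := exists_ref h h' e.symm
  have hLa : 0 ≤ La := (abs_nonneg _).trans (d1 0)
  obtain ⟨K, hK⟩ := hF.bc
  obtain ⟨K', hK'⟩ := hF'.bc
  have key : ∀ x, |EX 1 l' t F' x - EX 1 l t F x - (Jf l l' (TT l) 0 - Jf l l' (TT l) t) *
      (Dn 0 (PhiL 1 l') x * deriv (EX 1 l' t F') x)| ≤
      M + (1 + 4 * (cD T 0 C + c3 C) * Real.exp (2 * (2 ^ 2 * C) * T)) * La * HL l l' t := by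
    intro x
    have a := law_L hC hB hF hF' hM hLa (fun j hj hj2 y => by
      interval_cases j
      · rw [iteratedDeriv_one]; exact d1 y
      · rw [iteratedDeriv_succ, iteratedDeriv_one]; exact d2 y)
      L r.a0 r.a1 (r.e0.tt ▸ hT) t (r.e0.tt ▸ ht) x
    rw [← r.e0.tt, ref_JL r ht.1, ref_JL r le_rfl, ref_IL r le_rfl ht.1,
      ref_IL r le_rfl (ht.1.trans ht.2), ← r.e0.ex t ht.1 F K hK, ← r.e1.ex t ht.1 F' K' hK',
      ← r.e1.phi] at a
    refine a.trans ?_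
    have := mul_nonneg hLa (HL_nn l l' ht)
    unfold HL at this ⊢
    nlinarith
  refine ⟨key, ?_⟩
  have := key 0
  rwa [Ode3.D0_zero h', zero_mul, mul_zero, sub_zero] at this

end

end Crest.Agent.T156.Hm
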