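import Crest.Agent.T156.HomA_68

/-!
# Row 156 (helper68): the Euler identities `W1`, `W2` of the site words
-/

set_option autoImplicit false
set_option linter.all false

noncomputable section

namespace Crest.Agent.T156.Cas.Hb68

open MeasureTheory Real Set Filter Topology
open Crest.Agent.T157.E Crest.Agent.T157.Casc Crest.Agent.T157.SL
open Crest.ProbabilityR.SpinGlassDynamics (spin)
open Nu87 Ker15 Hom68 Mul55
open R1J (W sk ind n1)

/-- value words -/
def LW (L : List (Lv Bool)) (V : List (ℕ → ℝ)) : ℝ := Lam (fun _ => 1) L 0 (V.map sk)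

variable {L R R' : List (Lv Bool)} {f : ℕ → ℝ} {U V : List (ℕ → ℝ)}

theorem LW_cons (L : List (Lv Bool)) (f : ℕ → ℝ) (V : List (ℕ → ℝ)) : LW L (f :: V) =
    ∑ j ∈ Finset.range (L.length + 1), dm L 0 j * (f j / 2 * W L j V) := by
  rw [LW, List.map_cons, Lam_cons, pairF]
  exact Finset.sum_congr rfl fun j _ => congrArg _
    (Hess65.twoF_mul ((isLin_TEf One15.w1 L 0).wdO L _) j (f j / 2) fun a b => spin a * spin b)

theorem LW_perm (L : List (Lv Bool)) (p : U.Perm V) (h : ∀ f ∈ U, f 0 = 0) : LW L U = LW L V :=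
  (sm_Lam One15.w1 L 0).perm (p.map sk) (Hd50.sk_all h)

theorem LW_ind (R : List (Lv Bool)) {n : ℕ} (hn : n ≤ R.length) (c : ℝ) (V : List (ℕ → ℝ)) :
    LW R ((fun j => c * ind n j) :: V) = dm R 0 n * (c / 2 * W R n V) := by
  rw [LW_cons, Finset.sum_eq_single n (fun j _ hj => by simp [ind, hj])
    fun h => absurd (Finset.mem_range.2 (by omega)) h]
  simp [ind]

theorem LW_ref (A B : List (Lv Bool)) (μ : ℝ) (f : ℕ → ℝ) (hU : ∀ g ∈ U, g 0 = 0) :
    LW (A ++ z0 Bool μ :: B) ((f :: U).map (rd A.length)) = LW (A ++ B) (f :: U) := by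
  rw [List.map_cons, LW_cons, LW_cons, ← dm_ref A B (z0 Bool μ) fun j => f j / 2 * W (A ++ B) j U]
  exact Finset.sum_congr rfl fun j hj => by
    rw [W_ref A B μ hU (by rw [← len_ins A B (z0 Bool μ)]; simpa [Nat.lt_succ_iff] using hj), rd]

theorem LW_bd (R : List (Lv Bool)) {i : ℕ} (hi : i + 1 ≤ R.length) (f : ℕ → ℝ)
    (U : List (ℕ → ℝ)) : LW R (rd (i + 1) f :: U) - LW R (rd i f :: U) =
      dm R 0 (i + 1) * ((f (i + 1) - f i) / 2 * W R (i + 1) U) := by
  rw [← LW_ind R hi, LW_cons, LW_cons, LW_cons, ← Finset.sum_sub_distrib]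
  refine Finset.sum_congr rfl fun j _ => ?_
  have : rd (i + 1) f j = rd i f j + (f (i + 1) - f i) * ind (i + 1) j := by
    unfold rd ind
    split_ifs with h
    · rw [h, dn, dn, if_pos le_rfl, if_neg (by omega)]; simp
    · rw [show dn (i + 1) j = dn i j by unfold dn; split_ifs <;> omega]; simp
  rw [this]; ring

theorem W_mid (R : List (Lv Bool)) (k : ℕ) (c : ℝ) {u : ℕ → ℝ} (hu : u 0 = 0)
    (hV : ∀ f ∈ V, f 0 = 0) (hU : ∀ f ∈ U, f 0 = 0) :
    W R k (V ++ (fun j => c * u j) :: U) = c * W R k (V ++ u :: U) := by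
  have h : ∀ v : ℕ → ℝ, v 0 = 0 → W R k (V ++ v :: U) = W R k (v :: (V ++ U)) := fun v hv =>
    Hd50.Wh_perm R 0 k List.perm_middle fun g hg => by
      rcases List.mem_append.1 hg with h | h
      · exact hV g h
      · rcases List.mem_cons.1 h with rfl | h
        exacts [hv, hU g h]
  rw [h _ (by simp [hu]), h u hu]
  exact Hd50.Wh_smul R 0 k c u _

theorem rd0 {n : ℕ} (hV : ∀ f ∈ V, f 0 = 0) : ∀ f ∈ V.map (rd n), f 0 = 0 := fun f hf => by
  obtain ⟨g, hg, rfl⟩ := List.mem_map.1 hf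
  rw [rd, dn, if_pos (Nat.zero_le _), hV g hg]

theorem LW_tilt (H : Ker15.ST R R') (f : ℕ → ℝ) (U : List (ℕ → ℝ)) :
    pairF R (sk f) (WdO R (U.map sk) (TEf (fun _ => 1) R' 0)) = LW R' (f :: U) := by
  rw [pairF_tilt H, WdO_tilt H]; rfl

theorem n1_tilt (H : Ker15.ST R R') (f : ℕ → ℝ) : n1 R f = n1 R' f := by
  simp only [n1, H.len, Cav22.dm_tilt H]

theorem abs_ind (n j : ℕ) : |ind n j| ≤ 1 := by unfold ind; split_ifs <;> simp

/-- the constant of the mesh error -/
def cM (k : ℕ) : ℝ := 80 * cW 4 (k + 2) / 12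

/-- **one level changes its tilt** -/
theorem stepW (A B : List (Lv Bool)) (l : Lv Bool) {μ g : ℝ}
    (hl : ∀ x y, l.cov x y = g * (spin x * spin y)) (hM : Mono 0 (M0 A l B μ)) (hf : f 0 = 0)
    (h0 : ∀ u ∈ U, u 0 = 0) (h1 : ∀ u ∈ U, ∀ j, |u j| ≤ 1) :
    |LW (A ++ rt l μ :: B) (f :: U) - LW (A ++ l :: B) (f :: U) -
      (LW (M1 A l B μ) ((f :: U).map (rd (A.length + 1))) -
        LW (M1 A l B μ) ((f :: U).map (rd A.length))) -
      (l.m - μ) * (g / 2 * W (A ++ l :: B) A.length (f :: U) + g ^ 2 / 4 *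
        W (M0 A l B μ) (A.length + 1) ((f :: U).map (rd A.length) ++ [ind (A.length + 1)]))| ≤
      (l.m - μ) * (|g| ^ 3 * (cM U.length * (|f A.length| + n1 (A ++ l :: B) f))) := by
  have H := st_M A l B μ
  have hn : A.length + 1 ≤ (A ++ l :: B).length := by simp
  have hn0 : A.length + 1 ≤ (M0 A l B μ).length := by rw [len_M0]; omega
  have i0 : ind (A.length + 1) 0 = 0 := Hd50.ind0 (Nat.succ_pos _)
  have hV : ∀ u ∈ f :: U, u 0 = 0 := by simpa [hf] using h0
  have hV' := rd0 (n := A.length) hV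
  have eK : hK (M0 A l B μ) (M1 A l B μ) = sk fun j => g * ind (A.length + 1) j := by
    funext j x y
    rw [hK, dC_M, sk, ind, hl]
    split_ifs <;> ring
  obtain ⟨θ, hθ, e⟩ := tay_word One15.w1 H (c := 0)
    (fun y => by rw [dC_M, len_M0, if_neg (by omega)]) 0
    (fl_pairF (M0 A l B μ) (sk (rd A.length f))) ((U.map (rd A.length)).map sk) 2
  have Hθ : Ker15.ST (M0 A l B μ) _ := (st_mid H θ).symm
  simp only [eK, ← List.map_replicate, ← List.map_append, LW_tilt H, LW_tilt Hθ, LW_tilt rfl,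
    Finset.sum_range_succ, Finset.sum_range_zero, List.replicate_zero, List.append_nil] at e
  have k : ∀ (R : List (Lv Bool)) (T : List (ℕ → ℝ)), Ker15.ST (M0 A l B μ) R →
      (∀ u ∈ T, u 0 = 0) → LW R (rd A.length f :: (U.map (rd A.length) ++
        (fun j => g * ind (A.length + 1) j) :: T)) = (l.m - μ) * (g / 2 *
          W R (A.length + 1) ((f :: U).map (rd A.length) ++ T)) := fun R T hR hT => by
    rw [← dm_M0 A l B μ, Cav22.dm_tilt hR, ← LW_ind R (hR.len ▸ hn0)]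
    refine LW_perm R (List.perm_middle (l₁ := (f :: U).map (rd A.length))) fun u hu => ?_
    rcases List.mem_append.1 (show u ∈ (f :: U).map (rd A.length) ++ _ from hu) with h | h
    · exact hV' u h
    · rcases List.mem_cons.1 h with rfl | h
      exacts [by simp [i0], hT u h]
  have e1 := k _ [] rfl (by simp)
  have e2 := k _ [fun j => g * ind (A.length + 1) j] rfl (by simp [i0])
  have e3 := k _ [fun j => g * ind (A.length + 1) j, fun j => g * ind (A.length + 1) j] Hθ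
    (by simp [i0])
  rw [W_mid _ _ g i0 hV' (by simp)] at e2
  rw [W_mid _ _ g i0 hV' (by simp [i0]), List.append_cons _ (ind _),
    W_mid _ _ g i0 (by simpa [i0, or_imp, forall_and] using hV') (by simp)] at e3
  have e4 := W_ref A (l :: B) μ hV (j := A.length + 1) (by omega)
  rw [dn, if_neg (by omega), Nat.add_sub_cancel] at e4
  have e5 := LW_ref A (l :: B) μ f h0
  have e6 := LW_ref (A ++ [rt l μ]) B l.m f h0
  simp only [List.append_assoc, List.singleton_append, List.length_append,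
    List.length_singleton] at e6
  have b := abs_W (Cav22.mono_tilt Hθ hM) (Hθ.len ▸ hn0) (rd A.length f)
    (V := U.map (rd A.length) ++ [ind (A.length + 1)] ++ [ind (A.length + 1)]) fun u hu j => by
      simp only [List.mem_append, List.mem_map, List.mem_singleton] at hu
      rcases hu with (⟨v, hv, rfl⟩ | rfl) | rfl
      exacts [h1 v hv _, abs_ind _ _, abs_ind _ _]
  rw [← n1_tilt Hθ, M0, n1_ref A (l :: B), rd, dn, if_neg (by omega), Nat.add_sub_cancel] at b
  simp only [List.length_append, List.length_map, List.length_singleton] at b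
  have p : 0 ≤ l.m - μ := dm_M0 A l B μ ▸ dm_nonneg hM _
  rw [List.append_nil, show W (M0 A l B μ) _ _ = _ from e4] at e1
  have e7 : LW (M1 A l B μ) ((f :: U).map (rd A.length)) = LW (A ++ l :: B) (f :: U) +
      (l.m - μ) * (g / 2 * W (A ++ l :: B) A.length (f :: U)) + (l.m - μ) * (g / 2 * (g *
        W (M0 A l B μ) (A.length + 1) ((f :: U).map (rd A.length) ++ [ind (A.length + 1)]))) / 2 +
      (l.m - μ) * (g / 2 * (g * (g * W (mid (M0 A l B μ) (M1 A l B μ) θ) (A.length + 1)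
        ((f :: U).map (rd A.length) ++ [ind (A.length + 1)] ++ [ind (A.length + 1)])))) / 6 := by
    rw [← e1, ← e2, ← e3, ← e5]
    refine e.trans ?_
    simp only [List.replicate, Nat.factorial, M0, List.map_cons]
    push_cast
    ring
  rw [← e6, e7]
  change |W (mid (M0 A l B μ) (M1 A l B μ) θ) (A.length + 1)
    ((f :: U).map (rd A.length) ++ [ind (A.length + 1)] ++ [ind (A.length + 1)])| ≤ _ at b
  generalize W (mid _ _ θ) _ _ = x at b ⊢
  refine le_of_eq_of_le (congrArg abs (show _ = (l.m - μ) * (g ^ 3 * (x / 12)) by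
    rw [M1]; ring)) ?_
  rw [abs_mul, abs_of_nonneg p, abs_mul, abs_pow, abs_div, Nat.abs_ofNat, cM, div_mul_eq_mul_div]
  gcongr

/-! ### the families -/

/-- the zero level on top of the level `i` -/
def Y (lam : ℝ) (L : List (Lv Bool)) (i : ℕ) : List (Lv Bool) :=
  (L.take (i + 1)).map (ts lam) ++ z0 Bool (ex L i) :: L.drop (i + 1)

theorem Y_one : ∀ (L : List (Lv Bool)) (i : ℕ), i < L.length → Y 1 L i = rf L i true
  | [], _, h => absurd h (by simp)
  | l :: L, 0, _ => by simp [Y, rf, T157.Casc.ex, ts_one]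
  | l :: L, i + 1, h => by
    rw [rf, ← Y_one L i (by simpa using h), Y, Y, List.take_succ_cons, List.map_cons, ts_one]
    rfl

theorem ex_Tl (lam : ℝ) : ∀ (L : List (Lv Bool)) (i j : ℕ), i ≤ L.length →
    ex (Tl lam L i) j = if j < i then lam * ex L j else ex L j
  | _, 0, _, _ => by simp [Tl]
  | [], _ + 1, _, h => absurd h (by simp)
  | _ :: _, _ + 1, 0, _ => rfl
  | l :: L, i + 1, j + 1, h => (ex_Tl lam L i j (by simpa using h)).trans
      (if_congr Nat.succ_lt_succ_iff.symm rfl rfl)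

theorem Tl_one (L : List (Lv Bool)) (i : ℕ) : Tl 1 L i = L := by
  rw [Tl, funext ts_one, List.map_id', List.take_append_drop]

theorem fam (lam : ℝ) {i : ℕ} (hi : i < L.length) : ∃ (A B : List (Lv Bool)) (l : Lv Bool),
    A.length = i ∧ l.m = ex L i ∧ (∀ x y, l.cov x y = cv L i x y) ∧ Tl lam L i = A ++ l :: B ∧
    Tl lam L (i + 1) = A ++ rt l (lam * ex L i) :: B ∧ Z lam L i = M0 A l B (lam * ex L i) ∧
    Y lam L i = M1 A l B (lam * ex L i) := by
  have e0 : ex L i = L[i].m := by simp [T157.Casc.ex, List.getElem?_eq_getElem hi]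
  refine ⟨(L.take i).map (ts lam), L.drop (i + 1), L[i], by simp; omega, e0.symm,
    fun x y => (cv_eq L i hi x y).symm, by rw [Tl, List.drop_eq_getElem_cons hi], ?_,
    by rw [Z, M0, List.drop_eq_getElem_cons hi], ?_⟩
  · rw [Tl, List.take_add_one, List.getElem?_eq_getElem hi, e0, List.map_append, List.append_assoc]
    rfl
  · rw [Y, M1, List.take_add_one, List.getElem?_eq_getElem hi, e0, List.map_append,
      List.append_assoc]
    rfl

theorem st_Y (lam : ℝ) {i : ℕ} (hi : i < L.length) : Ker15.ST (Z lam L i) (Y lam L i) := by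
  obtain ⟨A, B, l, -, -, -, -, -, e, e'⟩ := fam lam hi
  rw [e, e']
  exact st_M _ _ _ _

theorem cv_Sc (H : R1 L) (t : ℝ) (i : ℕ) (x y : Bool) :
    cv (Sc L t) i x y = t ^ 2 * gl L i * (spin x * spin y) := by
  rw [cv, cacc_Sc, cacc_Sc, H.cacc, H.cacc, gl]; ring

theorem abs_ee (x y : Bool) : |spin x * spin y| = 1 := by simp [abs_mul, One15.abs_spin]

theorem tm0 (L : List (Lv Bool)) : Ker15.tm L 0 = 0 := by simp [Ker15.tm, cacc]

theorem inv_t : Tendsto (fun t : ℝ => t⁻¹) (𝓝[>] 1) (𝓝 1) := by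
  simpa using ((continuousAt_inv₀ (one_ne_zero (α := ℝ))).tendsto).mono_left nhdsWithin_le_nhds

theorem id_t : Tendsto (fun t : ℝ => t) (𝓝[>] 1) (𝓝 1) := tendsto_id.mono_left nhdsWithin_le_nhds

section fams
variable (H : R1 L) (hL : Mono 0 L)
include H hL

theorem cl_Tl {i : ℕ} (hi : i ≤ L.length) : ∃ δ : ℕ → ℝ → ℝ,
    (∀ N, Tendsto (δ N) (𝓝[>] 1) (𝓝 0)) ∧ ∀ N t, 1 < t →
      Cl (fun _ => 1) N L 0 (Tl t⁻¹ (Sc L t) i) 0 (δ N t) := by
  refine ⟨fun N t => 2 * N ^ 2 * ((t ^ 2 - 1) * Ker15.tm L L.length) + (1 - t⁻¹) * (cA N *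
    ∑ j ∈ Finset.range i, ex L j * (t ^ 2 * |gl L j| / 2)), fun N => ?_, fun N t ht => ?_⟩
  · have := ((((id_t.pow 2).sub_const 1).mul_const (Ker15.tm L L.length)).const_mul
      (2 * (N : ℝ) ^ 2)).add ((inv_t.const_sub 1).mul ((tendsto_finset_sum (Finset.range i)
        fun j _ => (((id_t.pow 2).mul_const |gl L j|).div_const 2).const_mul (ex L j)).const_mul
          (cA N)))
    simpa using this
  · have S := st_Sc t L
    have p : 0 ≤ t ^ 2 - 1 := by nlinarith
    have e : ∀ j x y, dC L (Sc L t) j x y = (t ^ 2 - 1) * Ker15.tm L j * (spin x * spin y) :=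
      fun j x y => by rw [dC, cacc_Sc, H.cacc]; ring
    have c := cl_tilt One15.w1 (Cav22.mono_tilt S hL) (inv_pos.2 (zero_lt_one.trans ht)).le
      (inv_le_one_of_one_le₀ ht.le) (g := fun j => t ^ 2 * |gl L j|) (fun j x y => by
        rw [cv_Sc H, abs_mul, abs_ee, mul_one, abs_mul, abs_of_nonneg (sq_nonneg t)]) N 0 i
      (S.len ▸ hi)
    simp only [← Cav22.ex_tilt S] at c
    refine (cl_cov One15.w1 hL S (c := (t ^ 2 - 1) * Ker15.tm L L.length)
      (fun y => by rw [e, ← sq, One15.spin_sq, mul_one]) (fun j hj x y => ?_) N 0).trans c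
    have a := H.tm_mono (Nat.zero_le j)
    rw [tm0] at a
    rw [e, abs_mul, abs_ee, mul_one, abs_of_nonneg (mul_nonneg p a)]
    exact mul_le_mul_of_nonneg_left (H.tm_mono hj) p

theorem tz_Tl {i : ℕ} (hi : i ≤ L.length) :
    Tz (fun _ => 1) 0 (𝓝[>] 1) (fun t => Tl t⁻¹ (Sc L t) i) L := by
  obtain ⟨δ, h1, h2⟩ := cl_Tl H hL hi
  refine tz_of One15.w1 (fun t => by rw [len_Tl, (st_Sc t L).len]) (fun j => ?_) h1
    fun N => eventually_nhdsWithin_of_forall (h2 N)
  simp only [fun t => ex_Tl t⁻¹ (Sc L t) i j ((st_Sc t L).len ▸ hi),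
    fun t => (Cav22.ex_tilt (st_Sc t L) j).symm]
  split_ifs
  · simpa using inv_t.mul_const (ex L j)
  · exact tendsto_const_nhds

omit H hL in
theorem ex_Z_t {i : ℕ} (hi : i < L.length) (j : ℕ) :
    Tendsto (fun t => ex (Z t⁻¹ (Sc L t) i) j) (𝓝[>] 1) (𝓝 (ex (Z 1 L i) j)) := by
  simp only [fun t => ex_Z t⁻¹ (Sc L t) i j ((st_Sc t L).len ▸ hi), ex_Z 1 L i j hi,
    fun t k => (Cav22.ex_tilt (st_Sc t L) k).symm]
  split_ifs
  · exact inv_t.mul_const (ex L j)
  · exact tendsto_const_nhds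

theorem tz_Z {i : ℕ} (hi : i < L.length) :
    Tz (fun _ => 1) 0 (𝓝[>] 1) (fun t => Z t⁻¹ (Sc L t) i) (rf L i false) := by
  obtain ⟨δ, h1, h2⟩ := cl_Tl H hL hi.le
  rw [← Z_one L i hi]
  refine tz_of One15.w1 (fun t => by rw [len_Z, len_Z, (st_Sc t L).len]) (ex_Z_t hi) h1
    fun N => eventually_nhdsWithin_of_forall fun t ht => ?_
  have c := h2 N t ht
  nth_rewrite 1 [← Tl_one L i] at c
  exact c.ins One15.w1 (by simp [(st_Sc t L).len]) _ _

theorem tz_Y {i : ℕ} (hi : i < L.length) :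
    Tz (fun _ => 1) 0 (𝓝[>] 1) (fun t => Y t⁻¹ (Sc L t) i) (rf L i true) := by
  obtain ⟨δ, h1, h2⟩ := cl_Tl H hL hi
  have S := fun t => st_Y t⁻¹ (L := Sc L t) ((st_Sc t L).len ▸ hi)
  rw [← Y_one L i hi]
  refine tz_of One15.w1 (fun t => by rw [← (S t).len, ← (st_Y 1 hi).len, len_Z, len_Z,
    (st_Sc t L).len]) (fun j => ?_) h1 fun N => eventually_nhdsWithin_of_forall fun t ht => ?_
  · simp only [fun t => (Cav22.ex_tilt (S t) j).symm, ← Cav22.ex_tilt (st_Y 1 hi)]
    exact ex_Z_t hi j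
  · have c := h2 N t ht
    nth_rewrite 1 [← Tl_one L (i + 1)] at c
    exact c.ins One15.w1 (by simp [(st_Sc t L).len]) _ _

omit hL in
theorem der_LW (hf : f 0 = 0) (h0 : ∀ u ∈ U, u 0 = 0) :
    HasDerivAt (fun t => LW (Sc L t) (f :: U))
      (∑ j ∈ Finset.range (L.length + 1), dm L 0 j * (Ker15.tm L j * W L j (f :: U))) 1 := by
  have e : cacc L = sk fun j => 2 * Ker15.tm L j := by
    funext j x y; rw [H.cacc, sk]; ring
  have e1 : LW L (f :: (U ++ [fun j => 2 * Ker15.tm L j])) =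
      ∑ j ∈ Finset.range (L.length + 1), dm L 0 j * (Ker15.tm L j * W L j (f :: U)) := by
    refine (LW_perm L (List.perm_append_singleton (fun j => 2 * Ker15.tm L j) (f :: U)) (by
      simpa [hf, tm0, or_imp, forall_and] using h0)).trans ((LW_cons _ _ _).trans ?_)
    simp only [mul_div_cancel_left₀ _ (two_ne_zero (α := ℝ))]
  simp only [← e1, fun t => (LW_tilt (st_Sc t L) f U).symm, ← LW_tilt (R := L) rfl,
    List.map_append, WdO_append]
  refine fl_pairF L (sk f) _ (Tay38.lin_der 1) _ _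
    (Hess65.lin_wdO (Tay38.lin_der 1) L (Λ := fun t => TEf (fun _ => 1) (Sc L t) 0)
      (fun s F => ?_) _)
  have := hasDerivAt_Dop_iter One15.w1 isOpen_univ (L := L.map fs) (fun l hl => by
      obtain ⟨l, -, rfl⟩ := List.mem_map.1 hl
      exact ⟨fun t _ x i => by simpa [fs] using (hasDerivAt_id t).mul_const (l.A x i),
        fun x i => continuousOn_const⟩) (mem_univ 1) (S := cacc L)
    (funext fun j => funext fun x => funext fun y => Sacc_fs x y L j) (c := Ker15.tm L L.length)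
    (fun y => by rw [List.length_map, H.cacc, ← sq, One15.spin_sq, mul_one]) 0 1 0 s F
  rw [show atL (L.map fs) 1 = L from Sc_one L, e] at this
  exact this

omit H hL in
theorem gl_top (L : List (Lv Bool)) : gl L L.length = 0 := by
  simp [gl, Ker15.tm, cacc, List.take_of_length_le]

/-- **the response to the scaling** -/
theorem core (hf : f 0 = 0) (h0 : ∀ u ∈ U, u 0 = 0) (h1 : ∀ u ∈ U, ∀ j, |u j| ≤ 1)
    {bd : List (Lv Bool) → ℕ → ℝ} (hb : ∀ (R : List (Lv Bool)) i, i + 1 ≤ R.length →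
      LW R ((f :: U).map (rd (i + 1))) - LW R ((f :: U).map (rd i)) = dm R 0 (i + 1) * bd R i)
    (hc : ∀ R R₀ i, Tz (fun _ => 1) 0 (𝓝[>] 1) R R₀ → i + 1 ≤ R₀.length →
      Tendsto (fun t => bd (R t) i) (𝓝[>] 1) (𝓝 (bd R₀ i)))
    {Q : ℝ → ℝ} {a e : ℝ} (hQ : Tendsto Q (𝓝[>] 1) (𝓝 a)) (hq : ∀ t, 1 < t → t ≤ 2 →
      |LW (sc L t) (f :: U) - LW L (f :: U) - (t - 1) * Q t| ≤ (t - 1) * e) :
    |∑ j ∈ Finset.range (L.length + 1), om L j * W L j (f :: U) +
      ∑ i ∈ Finset.range L.length, ex L i * (gl L i ^ 2 / 4 * A L i (f :: U) +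
        bd (rf L i true) i) - a| ≤ e + cM U.length * ms L f := by
  have hV : ∀ u ∈ f :: U, u 0 = 0 := by simpa [hf] using h0
  let p : ℕ → ℝ → ℝ := fun i t => t⁻¹ * ex L i * (bd (Y t⁻¹ (Sc L t) i) i +
    (t ^ 2 * gl L i / 2 * W (Tl t⁻¹ (Sc L t) i) i (f :: U) + (t ^ 2 * gl L i) ^ 2 / 4 *
      W (Z t⁻¹ (Sc L t) i) (i + 1) ((f :: U).map (rd i) ++ [ind (i + 1)])))
  let q : ℕ → ℝ → ℝ := fun i t => t⁻¹ * ex L i *
    (|t ^ 2 * gl L i| ^ 3 * (cM U.length * (|f i| + n1 (Tl t⁻¹ (Sc L t) i) f)))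
  have st : ∀ t, 1 < t → ∀ i < L.length, |LW (Tl t⁻¹ (Sc L t) (i + 1)) (f :: U) -
      LW (Tl t⁻¹ (Sc L t) i) (f :: U) - (t - 1) * p i t| ≤ (t - 1) * q i t := fun t ht i hi => by
    have S := st_Sc t L
    have t0 : 0 < t := zero_lt_one.trans ht
    obtain ⟨A, B, l, rfl, e1, e2, e3, e4, e5, e6⟩ := fam (L := Sc L t) t⁻¹ (S.len ▸ hi)
    have hZ : Mono 0 (Z t⁻¹ (Sc L t) A.length) := mono_Z (inv_pos.2 t0).le
      (inv_le_one_of_one_le₀ ht.le) _ (Cav22.mono_tilt S hL) le_rfl (by simp)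
    have k := stepW A B l (μ := t⁻¹ * ex (Sc L t) A.length) (g := t ^ 2 * gl L A.length)
      (fun x y => by rw [e2, cv_Sc H]) (e5 ▸ hZ) hf h0 h1
    have e7 := dm_M0 A l B (t⁻¹ * ex (Sc L t) A.length)
    rw [hb _ _ (by rw [← (st_M _ _ _ _).len, len_M0]; simp), ← Cav22.dm_tilt (st_M _ _ _ _), e7,
      ← e3, ← e4, ← e5, ← e6, e1, ← Cav22.ex_tilt S, show ex L A.length - t⁻¹ * ex L A.length =
        (t - 1) * (t⁻¹ * ex L A.length) by field_simp] at k
    refine le_of_eq_of_le (congrArg abs ?_) (k.trans_eq ?_) <;> simp only [p, q] <;> ring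
  have tl : ∀ t, 1 < t → ∀ k ≤ L.length, |LW (Tl t⁻¹ (Sc L t) k) (f :: U) - LW (Sc L t) (f :: U) -
      (t - 1) * ∑ i ∈ Finset.range k, p i t| ≤ (t - 1) * ∑ i ∈ Finset.range k, q i t := by
    intro t ht k hk
    induction k with
    | zero => simp [Tl]
    | succ k ih =>
      have a1 := abs_le.1 (ih (by omega))
      have a2 := abs_le.1 (st t ht k hk)
      rw [Finset.sum_range_succ, Finset.sum_range_succ]
      exact abs_le.2 ⟨by linarith [a1.1, a2.1], by linarith [a1.2, a2.2]⟩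
  have key : ∀ t, 1 < t → t ≤ 2 → |slope (fun t => LW (Sc L t) (f :: U)) 1 t +
      ∑ i ∈ Finset.range L.length, p i t - Q t| ≤ e + ∑ i ∈ Finset.range L.length, q i t :=
    fun t ht ht' => by
    have u0 : 0 < t - 1 := sub_pos.2 ht
    have a1 := abs_le.1 (tl t ht _ le_rfl)
    have a2 := abs_le.1 (hq t ht ht')
    have a3 : (t - 1) * slope (fun t => LW (Sc L t) (f :: U)) 1 t =
        LW (Sc L t) (f :: U) - LW L (f :: U) := by
      rw [slope_def_field, Sc_one, mul_div_cancel₀ _ u0.ne']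
    rw [Tl_Sc] at a1
    rw [sc] at a2
    exact abs_le.2 ⟨le_of_mul_le_mul_left (by linarith [a1.2, a2.1]) u0,
      le_of_mul_le_mul_left (by linarith [a1.1, a2.2]) u0⟩
  have t1 := (hasDerivAt_iff_tendsto_slope.1 (der_LW H hf h0)).mono_left
    (nhdsWithin_mono (1 : ℝ) fun t (ht : t ∈ Ioi (1 : ℝ)) => ne_of_gt ht)
  have t2 := tendsto_finset_sum (Finset.range L.length) fun i hi => by
    have hi := Finset.mem_range.1 hi
    exact (inv_t.mul_const (ex L i)).mul ((hc _ _ i (tz_Y H hL hi) (by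
      rw [rf_len L i _ hi]; omega)).add (((((id_t.pow 2).mul_const (gl L i)).div_const 2).mul
        ((tz_Tl H hL hi.le).two One15.w1 (Hd50.sk_all hV) hi.le fun a b => spin a * spin b)).add
      (((((id_t.pow 2).mul_const (gl L i)).pow 2).div_const 4).mul ((tz_Z H hL hi).two One15.w1
        (Hd50.sk_all (fs := (f :: U).map (rd i) ++ [ind (i + 1)]) (by
          simpa [Hd50.ind0 (Nat.succ_pos i), or_imp, forall_and] using rd0 (n := i) hV))
        (j := i + 1) (by rw [rf_len L i _ hi]; omega) fun a b => spin a * spin b))))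
  have t3 := tendsto_finset_sum (Finset.range L.length) fun i hi => by
    have T := tz_Tl H hL (Finset.mem_range.1 hi).le
    have : Tendsto (fun t => n1 (Tl t⁻¹ (Sc L t) i) f) (𝓝[>] 1) (𝓝 (n1 L f)) := by
      simp only [n1, T.len]
      exact tendsto_finset_sum _ fun j _ => (T.dm j).mul_const _
    exact (inv_t.mul_const (ex L i)).mul ((((id_t.pow 2).mul_const (gl L i)).abs.pow 3).mul
      ((this.const_add |f i|).const_mul (cM U.length)))
  have := le_of_tendsto_of_tendsto ((t1.add t2).sub hQ).abs (t3.const_add e) (by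
    filter_upwards [Ioc_mem_nhdsGT one_lt_two] with t ht using key t ht.1 ht.2)
  refine le_of_eq_of_le (congrArg (fun x => |x - a|) ?_) (this.trans_eq ?_)
  · have eA : ∀ i, A L i (f :: U) =
        W (rf L i false) (i + 1) ((f :: U).map (rd i) ++ [ind (i + 1)]) := fun _ => rfl
    simp only [om, add_mul, Finset.sum_add_distrib]
    rw [Finset.sum_range_succ fun j => ex L j * gl L j / 2 * W L j (f :: U), gl_top, add_assoc,
      mul_zero, zero_div, zero_mul, add_zero, ← Finset.sum_add_distrib]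
    refine congrArg₂ _ (Finset.sum_congr rfl fun j _ => mul_assoc _ _ _)
      (Finset.sum_congr rfl fun i _ => ?_)
    simp only [eA, W]
    ring
  · rw [ms, Finset.mul_sum]
    refine congrArg _ (Finset.sum_congr rfl fun i _ => ?_)
    rw [one_pow, one_mul, one_mul, abs_of_nonneg (show 0 ≤ gl L i from sub_nonneg.2 (H.tm_mono i.le_succ))]
    ring

end fams

theorem len_sc (L : List (Lv Bool)) (t : ℝ) : (sc L t).length = L.length := List.length_map _

theorem ex_sc (L : List (Lv Bool)) (t : ℝ) (j : ℕ) :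
    ex (sc L t) j = if j < L.length then t⁻¹ * ex L j else ex L j := by
  rw [sc, ← Tl_Sc, ex_Tl t⁻¹ (Sc L t) L.length j (st_Sc t L).len.le, ← Cav22.ex_tilt (st_Sc t L)]

theorem dm_sc (L : List (Lv Bool)) (t : ℝ) {j : ℕ} (hj : j ≤ L.length) :
    dm (sc L t) 0 j = t⁻¹ * dm L 0 j + if j = L.length then 1 - t⁻¹ else 0 := by
  have e1 : ex L L.length = 1 := by simp [T157.Casc.ex]
  have e : ex (sc L t) j = t⁻¹ * ex L j + if j = L.length then 1 - t⁻¹ else 0 := by
    rw [ex_sc]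
    by_cases h : j = L.length
    · rw [if_neg (by omega), if_pos h, h, e1]; ring
    · rw [if_pos (by omega), if_neg h, add_zero]
  cases j with
  | zero => rw [dm, dm, e]; simp [exP]
  | succ j => rw [dm, dm, e, exP, exP, ex_sc, if_pos (show j < L.length from hj)]; ring

theorem LW_sc (L : List (Lv Bool)) (t : ℝ) (f : ℕ → ℝ) (U : List (ℕ → ℝ)) : LW (sc L t) (f :: U) =
    t⁻¹ * ∑ j ∈ Finset.range (L.length + 1), dm L 0 j * (f j / 2 * W (sc L t) j U) +
      (1 - t⁻¹) * (f L.length / 2 * W (sc L t) L.length U) := by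
  rw [LW_cons, len_sc, Finset.sum_congr rfl fun j hj => by
    rw [dm_sc L t (Nat.lt_succ_iff.1 (Finset.mem_range.1 hj)), add_mul, ite_mul, zero_mul, mul_assoc],
    Finset.sum_add_distrib, Finset.sum_ite_eq', if_pos (by simp), Finset.mul_sum]

theorem abs_dm (hL : Mono 0 L) (f : ℕ → ℝ) {x : ℕ → ℝ} {ε : ℝ} (h : ∀ j ≤ L.length, |x j| ≤ ε) :
    |∑ j ∈ Finset.range (L.length + 1), dm L 0 j * (f j / 2 * x j)| ≤ ε * n1 L f := by
  rw [n1, Finset.mul_sum]
  refine (Finset.abs_sum_le_sum_abs _ _).trans (Finset.sum_le_sum fun j hj => ?_)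
  have a := h j (Nat.lt_succ_iff.1 (Finset.mem_range.1 hj))
  have d := dm_nonneg hL j
  have b := mul_le_mul_of_nonneg_left a (mul_nonneg d (abs_nonneg (f j)))
  have c := mul_nonneg (mul_nonneg d (abs_nonneg (f j))) (abs_nonneg (x j))
  rw [abs_mul, abs_mul, abs_of_nonneg d, abs_div, _root_.abs_two]
  linarith

theorem n1_nn (hL : Mono 0 L) (f : ℕ → ℝ) : 0 ≤ n1 L f :=
  Finset.sum_nonneg fun j _ => mul_nonneg (dm_nonneg hL j) (abs_nonneg _)

theorem ms_nn (H : R1 L) (hL : Mono 0 L) (f : ℕ → ℝ) : 0 ≤ ms L f :=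
  Finset.sum_nonneg fun i _ => mul_nonneg (mul_nonneg (ex_nonneg hL i)
    (pow_nonneg (sub_nonneg.2 (H.tm_mono i.le_succ)) 3)) (add_nonneg (abs_nonneg _) (n1_nn hL f))

theorem cM_nn (k : ℕ) : 0 ≤ cM k := by have := cW_nonneg 4 (k + 2); unfold cM; positivity

theorem top_le {u c x ε : ℝ} (u0 : 0 ≤ u) (u1 : u ≤ 1) (h : |x| ≤ ε) :
    |u * (c / 2 * x)| ≤ ε * |c| := by
  have := mul_le_mul_of_nonneg_left h (abs_nonneg c)
  have p := mul_nonneg (abs_nonneg c) (abs_nonneg x)
  rw [abs_mul, abs_mul, abs_of_nonneg u0, abs_div, _root_.abs_two]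
  nlinarith

theorem fin_le {x a c m C : ℝ} (ha : 0 ≤ a) (hm : 0 ≤ m) (hc : 0 ≤ c) (hC : 0 ≤ C)
    (h : x ≤ C * a + c * m) : x ≤ (C + c) * (a + m) := by nlinarith [mul_nonneg hC hm, mul_nonneg hc ha]

theorem W_top {i : ℕ} (hi : i ∈ Finset.range L.length) (hV : ∀ f ∈ V, f 0 = 0) :
    W (rf L i true) (i + 1) (V.map (rd (i + 1))) = W L (i + 1) V :=
  (W_rf (Finset.mem_range.1 hi) true hV (Nat.succ_le_succ (Finset.mem_range.1 hi).le)).trans
    (congrArg (W L · V) (if_pos le_rfl))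

/-- **W1** -/
theorem w1_of (pe : PE) (ps : PS) : W1 := by
  obtain ⟨C1, c1, pe⟩ := pe
  obtain ⟨C2, c2, ps⟩ := ps
  refine ⟨C2 * C1 + C1 + cM 0, by have := cM_nn 0; positivity, fun L U T f hf => ?_⟩
  obtain ⟨E0, E1, E2⟩ := pe L U T
  have hx : exp (-U / 2) ≤ exp (-U / 4) := exp_le_exp.2 (by linarith [T.U0])
  have x0 := exp_pos (-U / 4)
  have E3 : En L ≤ C1 * exp (-U / 4) := E1.trans (mul_le_mul_of_nonneg_left hx c1)
  have E4 := E2.trans (mul_le_mul_of_nonneg_left hx c1)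
  have n0 := n1_nn T.mono f
  have k := core T.r1 T.mono (U := []) hf (by simp) (by simp)
    (bd := fun R i => (f (i + 1) - f i) / 2 * W R (i + 1) []) (fun R i hi => LW_bd R hi f [])
    (fun R R₀ i Tz hi => (Tz.two One15.w1 (U := []) (by simp) hi _).const_mul _)
    (e := (C2 * C1 + C1) * (exp (-U / 4) * (n1 L f + |f L.length|)))
    (inv_t.mul_const (f L.length / 2 - LW L [f])) fun t ht ht' => by
      have t0 : 0 < t := zero_lt_one.trans ht
      have u0 : 0 ≤ t - 1 := sub_nonneg.2 ht.le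
      have l0 : 0 ≤ t⁻¹ := (inv_pos.2 t0).le
      have l1 : t⁻¹ ≤ 1 := inv_le_one_of_one_le₀ ht.le
      have b : ∀ j ≤ L.length, |W (sc L t) j [] - W L j []| ≤ (t - 1) * (C2 * C1 * exp (-U / 4)) :=
        fun j hj => (ps L T.r1 T.mono t ht.le j hj).1.trans (by
          calc _ ≤ C2 * ((t - 1) * (C1 * exp (-U / 4))) := by gcongr
            _ = _ := by ring)
      have b1 := abs_dm T.mono f b
      have b2 := top_le (c := f L.length) l0 l1 (x := W (sc L t) L.length [] - 1)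
        (ε := (C2 * C1 + C1) * exp (-U / 4)) (by
          have a := abs_le.1 ((b _ le_rfl).trans
            (mul_le_of_le_one_left (by positivity) (by linarith)))
          have a' := abs_le.1 E4
          exact abs_le.2 ⟨by linarith [a.1, a'.2], by linarith [a.2, a'.1]⟩)
      simp only [mul_sub (_ / 2 : ℝ) (W _ _ _), mul_sub (dm _ _ _), Finset.sum_sub_distrib,
        ← LW_cons] at b1
      rw [LW_sc]
      generalize ∑ j ∈ Finset.range (L.length + 1), dm L 0 j * (f j / 2 * W (sc L t) j []) = S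
        at b1 ⊢
      refine le_of_eq_of_le (congrArg abs (show _ = t⁻¹ * (S - LW L [f]) + (t - 1) *
        (t⁻¹ * (f L.length / 2 * (W (sc L t) L.length [] - 1))) by field_simp; ring))
        ((abs_add_le _ _).trans ?_)
      rw [abs_mul, abs_of_nonneg l0, abs_mul (t - 1), abs_of_nonneg u0]
      have a1 := (mul_le_of_le_one_left (abs_nonneg _) l1).trans b1
      have a2 := mul_le_mul_of_nonneg_left b2 u0
      have a3 : 0 ≤ (t - 1) * (C1 * exp (-U / 4) * n1 L f) := by positivity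
      linarith
  refine fin_le (by positivity) (ms_nn T.r1 T.mono f) (cM_nn 0) (by positivity)
    (le_of_eq_of_le (congrArg abs ?_) k)
  have e : ∑ i ∈ Finset.range L.length, ex L i * (gl L i ^ 2 / 4 * A L i [f] +
      (f (i + 1) - f i) / 2 * W (rf L i true) (i + 1) []) = ∑ i ∈ Finset.range L.length,
      ex L i * (gl L i ^ 2 / 4 * A L i [f] + (f (i + 1) - f i) / 2 * W L (i + 1) []) :=
    Finset.sum_congr rfl fun i hi => by
      rw [show W (rf L i true) (i + 1) [] = _ from W_top (V := []) hi (by simp)]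
  rw [LW_cons, e]
  ring

theorem Stp.zero {h : ℕ → ℝ} (H : Stp L h) : h 0 = 0 ∧ ∀ j, |h j| ≤ 1 := by
  obtain ⟨a, h1, ⟨-, rfl⟩ | ⟨-, rfl⟩⟩ := H
  · exact ⟨if_neg (by omega), fun j => by unfold st; split_ifs <;> simp⟩
  · exact ⟨Hd50.ind0 h1, abs_ind a⟩

/-- **W2** -/
theorem w2_of (pl : PL) : W2 := by
  obtain ⟨C, c, pl⟩ := pl
  refine ⟨2 * C + cM 1, by have := cM_nn 1; positivity, fun L U T f hf h hS => ?_⟩
  obtain ⟨E1, E2⟩ := pl L U T h hS
  obtain ⟨h0, h1⟩ := hS.zero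
  have x0 := exp_pos (-U / 4)
  have n0 := n1_nn T.mono f
  have r0 : ∀ (n : ℕ) {u : ℕ → ℝ}, u 0 = 0 → rd n u 0 = 0 := fun n u hu => by
    rw [rd, dn, if_pos (Nat.zero_le _), hu]
  have k := core T.r1 T.mono (U := [h]) hf (by simpa using h0) (by simpa using h1)
    (bd := fun R i => (f (i + 1) - f i) / 2 * W R (i + 1) [rd i h] +
      (h (i + 1) - h i) / 2 * W R (i + 1) [rd (i + 1) f]) (fun R i hi => by
        have p : ∀ n, LW R [rd (i + 1) f, rd n h] = LW R [rd n h, rd (i + 1) f] := fun n =>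
          LW_perm R (List.Perm.swap _ _ _) (by simp [r0 _ hf, r0 _ h0])
        rw [mul_add, ← LW_bd R hi, ← LW_bd R hi, ← p, ← p]
        simp only [List.map_cons, List.map_nil]
        ring)
    (fun R R₀ i Tz hi => ((Tz.two One15.w1 (Hd50.sk_all (fs := [rd i h]) (by simp [r0 _ h0]))
      hi _).const_mul _).add ((Tz.two One15.w1
        (Hd50.sk_all (fs := [rd (i + 1) f]) (by simp [r0 _ hf])) hi _).const_mul _))
    (e := 2 * C * (exp (-U / 4) * (n1 L f + |f L.length|)))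
    (((inv_t.add (inv_t.pow 2)).add (inv_t.pow 3)).mul_const (-LW L [f, h])) fun t ht ht' => by
      have t0 : 0 < t := zero_lt_one.trans ht
      have u0 : 0 ≤ t - 1 := sub_nonneg.2 ht.le
      have l0 : 0 ≤ t⁻¹ ^ 3 := by positivity
      have l1 : t⁻¹ ^ 3 ≤ 1 := pow_le_one₀ (by positivity) (inv_le_one_of_one_le₀ ht.le)
      have b1 := abs_dm T.mono f (E2 t ht.le ht')
      have b2 := top_le (c := f L.length) l0 l1 (x := t ^ 2 * W (sc L t) L.length [h])
        (ε := 2 * C * exp (-U / 4)) (by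
          have a := abs_le.1 ((E2 t ht.le ht' _ le_rfl).trans (mul_le_mul_of_nonneg_left
            (mul_le_of_le_one_left x0.le (by linarith)) c))
          have a' := abs_le.1 E1
          exact abs_le.2 ⟨by linarith [a.1, a'.1], by linarith [a.2, a'.2]⟩)
      simp only [mul_sub (_ / 2 : ℝ) (_ * W _ _ _), mul_sub (dm _ _ _), Finset.sum_sub_distrib,
        ← LW_cons, mul_left_comm _ (t ^ 2), ← Finset.mul_sum] at b1
      rw [LW_sc]
      generalize ∑ j ∈ Finset.range (L.length + 1), dm L 0 j * (f j / 2 * W (sc L t) j [h]) = S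
        at b1 ⊢
      refine le_of_eq_of_le (congrArg abs (show _ = t⁻¹ ^ 3 * (t ^ 2 * S - LW L [f, h]) + (t - 1) *
        (t⁻¹ ^ 3 * (f L.length / 2 * (t ^ 2 * W (sc L t) L.length [h]))) by field_simp; ring))
        ((abs_add_le _ _).trans ?_)
      rw [abs_mul, abs_of_nonneg l0, abs_mul (t - 1), abs_of_nonneg u0]
      have a1 := (mul_le_of_le_one_left (abs_nonneg _) l1).trans b1
      have a2 := mul_le_mul_of_nonneg_left b2 u0
      have a3 : 0 ≤ (t - 1) * (C * exp (-U / 4) * n1 L f) := by positivity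
      linarith
  refine fin_le (by positivity) (ms_nn T.r1 T.mono f) (cM_nn 1) (by positivity)
    (le_of_eq_of_le (congrArg abs ?_) k)
  have e : ∑ i ∈ Finset.range L.length, ex L i * (gl L i ^ 2 / 4 * A L i [f, h] +
      ((f (i + 1) - f i) / 2 * W (rf L i true) (i + 1) [rd i h] +
        (h (i + 1) - h i) / 2 * W (rf L i true) (i + 1) [rd (i + 1) f])) =
      ∑ i ∈ Finset.range L.length, ex L i * (gl L i ^ 2 / 4 * A L i [f, h] +
        (f (i + 1) - f i) / 2 * B L i h + (h (i + 1) - h i) / 2 * W L (i + 1) [f]) :=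
    Finset.sum_congr rfl fun i hi => by
      rw [show W (rf L i true) (i + 1) [rd (i + 1) f] = _ from
        W_top (V := [f]) hi (by simpa using hf), add_assoc]
      rfl
  rw [LW_cons, e]
  ring

end Crest.Agent.T156.Cas.Hb68

end
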