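import Crest.Agent.T156.CasDef_88

/-!
# Row 156: Helffer–Sjöstrand, part A (helper98)

Abstract Hilbert space lemmas (density, Kato–Rellich step, kernel step), determinacy of a signed
measure by its moments, and the algebra of the Ornstein–Uhlenbeck operator on polynomials.
-/

set_option autoImplicit false
set_option maxHeartbeats 400000

noncomputable section

namespace Crest.Agent.T156.Cas.Hs98

open MeasureTheory Real Set Filter Topology
open Crest.Agent.T157.E Crest.Agent.T157.Casc Crest.Agent.T157.SL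
open scoped RealInnerProductSpace

/-! ### Hilbert space lemmas -/

section hilb
variable {V H : Type*} [AddCommGroup V] [Module ℝ V] [NormedAddCommGroup H]
  [InnerProductSpace ℝ H] [CompleteSpace H]

theorem approx (S : V →ₗ[ℝ] H) (h : ∀ ψ : H, (∀ v, ⟪ψ, S v⟫ = 0) → ψ = 0) (ψ : H) {ε : ℝ}
    (hε : 0 < ε) : ∃ v, ‖S v - ψ‖ < ε := by
  have hb : (LinearMap.range S)ᗮ = ⊥ := by
    rw [Submodule.eq_bot_iff]
    intro x hx
    refine h x fun v => ?_
    rw [real_inner_comm]
    exact hx _ (LinearMap.mem_range_self S v)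
  have hd : Dense ((LinearMap.range S : Submodule ℝ H) : Set H) :=
    Submodule.dense_iff_topologicalClosure_eq_top.2
      (Submodule.topologicalClosure_eq_top_iff.2 hb)
  obtain ⟨y, hy, ⟨v, rfl⟩⟩ := Metric.dense_iff.1 hd ψ ε hε
  exact ⟨v, by simpa [dist_eq_norm] using hy⟩

omit [CompleteSpace H] in
theorem norm_lin (a b : H) (l : ℝ) :
    ‖l • a + b‖ ^ 2 = l ^ 2 * ‖a‖ ^ 2 + 2 * l * ⟪a, b⟫ + ‖b‖ ^ 2 := by
  rw [norm_add_sq_real, norm_smul, real_inner_smul_left, mul_pow, Real.norm_eq_abs, sq_abs]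
  ring

theorem kato (J A B : V →ₗ[ℝ] H) {l : ℝ} (hJ : ∀ ψ : H, (∀ v, ⟪ψ, J v⟫ = 0) → ψ = 0)
    (hT : ∀ p, ∃ q, l • J q + A q = J p + B q)
    (hB : ∀ q, 8 * ‖B q‖ ^ 2 ≤ l * ⟪J q, A q⟫) (ψ : H) (hψ : ∀ v, ⟪ψ, (l • J + A) v⟫ = 0) :
    ψ = 0 := by
  have key : ∀ ε : ℝ, 0 < ε → ‖ψ‖ ≤ 2 * ε := by
    intro ε hε
    obtain ⟨p, hp⟩ := approx J hJ ψ hε
    obtain ⟨q, hq⟩ := hT p
    have h0 := hψ q
    simp only [LinearMap.add_apply, LinearMap.smul_apply] at h0
    have h1 := norm_lin (J q) (A q) l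
    have h2 := hB q
    have h3 : (4 * ‖B q‖) ^ 2 ≤ ‖l • J q + A q‖ ^ 2 := by
      rw [h1]
      nlinarith [sq_nonneg (l * ‖J q‖), sq_nonneg ‖A q‖]
    have h4 : 4 * ‖B q‖ ≤ ‖l • J q + A q‖ :=
      (pow_le_pow_iff_left₀ (by positivity) (norm_nonneg _) two_ne_zero).1 h3
    rw [hq] at h0 h4
    have h5 : ‖J p + B q‖ ≤ ‖J p‖ + ‖B q‖ := norm_add_le _ _
    have h6 : ‖J p‖ ≤ ‖ψ‖ + ε := by
      have := norm_add_le ψ (J p - ψ)
      rw [add_sub_cancel] at this
      linarith
    have h7 : ‖ψ‖ ^ 2 = -⟪ψ, J p - ψ⟫ - ⟪ψ, B q⟫ := by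
      rw [inner_add_right] at h0
      rw [inner_sub_right, real_inner_self_eq_norm_sq]
      linarith
    have h8 := abs_real_inner_le_norm ψ (J p - ψ)
    have h9 := abs_real_inner_le_norm ψ (B q)
    have h10 := neg_abs_le ⟪ψ, J p - ψ⟫
    have h11 := neg_abs_le ⟪ψ, B q⟫
    have hn := norm_nonneg ψ
    have h12 : ‖ψ‖ * ‖J p - ψ‖ ≤ ‖ψ‖ * ε := mul_le_mul_of_nonneg_left hp.le hn
    have h13 : ‖ψ‖ * (3 * ‖B q‖) ≤ ‖ψ‖ * (‖ψ‖ + ε) :=
      mul_le_mul_of_nonneg_left (by linarith) hn
    by_contra hc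
    push Not at hc
    nlinarith
  have : ‖ψ‖ ≤ 0 := by
    by_contra hc
    push Not at hc
    have := key (‖ψ‖ / 4) (by positivity)
    linarith
  exact norm_le_zero_iff.1 this

theorem kerstep (J A : V →ₗ[ℝ] H) {l : ℝ} (hl : 1 ≤ l)
    (hS : ∀ ψ : H, (∀ v, ⟪ψ, (l • J + A) v⟫ = 0) → ψ = 0) (hp : ∀ q, 0 ≤ ⟪J q, A q⟫) (ψ : H)
    (hψ : ∀ v, ⟪ψ, A v⟫ = 0) {ε : ℝ} (hε : 0 < ε) :
    ∃ v, ‖J v - ψ‖ ≤ ε ∧ ⟪J v, A v⟫ ≤ ε ^ 2 := by
  obtain ⟨v, hv⟩ := approx (l • J + A) hS (l • ψ) hε
  have e : (l • J + A) v - l • ψ = l • (J v - ψ) + A v := by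
    simp only [LinearMap.add_apply, LinearMap.smul_apply, smul_sub]
    abel
  rw [e] at hv
  have h1 := norm_lin (J v - ψ) (A v) l
  rw [inner_sub_left, hψ v, sub_zero] at h1
  have h2 : ‖l • (J v - ψ) + A v‖ ^ 2 ≤ ε ^ 2 := pow_le_pow_left₀ (norm_nonneg _) hv.le 2
  have h3 := hp v
  have h4 : ‖J v - ψ‖ ^ 2 ≤ l ^ 2 * ‖J v - ψ‖ ^ 2 :=
    le_mul_of_one_le_left (sq_nonneg _) (one_le_pow₀ hl)
  have h5 : ⟪J v, A v⟫ ≤ l * ⟪J v, A v⟫ := le_mul_of_one_le_left h3 hl
  have h6 := sq_nonneg ‖A v‖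
  have h7 := sq_nonneg ‖J v - ψ‖
  refine ⟨v, ?_, by nlinarith⟩
  exact (pow_le_pow_iff_left₀ (norm_nonneg _) hε.le two_ne_zero).1 (by nlinarith)

end hilb

/-! ### polynomials -/

variable {ι : Type} [Fintype ι]

open MvPolynomial in
/-- evaluation of a polynomial -/
def ev (p : MvPolynomial ι ℝ) (g : ι → ℝ) : ℝ := eval g p

open MvPolynomial in
/-- partial derivative -/
abbrev D (i : ι) (p : MvPolynomial ι ℝ) : MvPolynomial ι ℝ := pderiv i p

omit [Fintype ι] in
theorem ev_add (p q : MvPolynomial ι ℝ) (g : ι → ℝ) : ev (p + q) g = ev p g + ev q g := by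
  simp [ev]

omit [Fintype ι] in
theorem ev_smul (c : ℝ) (p : MvPolynomial ι ℝ) (g : ι → ℝ) : ev (c • p) g = c * ev p g := by
  simp [ev]

open Classical in
theorem gr_coord (j : ι) :
    Gr (fun g : ι → ℝ => g j) fun i _ => if i = j then (1 : ℝ) else 0 := by
  refine ⟨Eg.coord j, fun _ => Eg.const _, fun h => ?_⟩
  have : Crest.Agent.R339.Guerra.dual (fun i => if i = j then (1 : ℝ) else 0) =
      (ContinuousLinearMap.proj j : (ι → ℝ) →L[ℝ] ℝ) := by
    ext v; simp
  rw [this]
  exact (ContinuousLinearMap.proj j : (ι → ℝ) →L[ℝ] ℝ).hasFDerivAt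

open MvPolynomial in
theorem gr_ev (p : MvPolynomial ι ℝ) : Gr (ev p) fun i => ev (D i p) := by
  classical
  induction p using MvPolynomial.induction_on with
  | C a =>
    have e : ev (C a : MvPolynomial ι ℝ) = fun _ => a := by funext g; simp [ev]
    rw [e]
    exact (Gr.const a).congr fun x z => by simp [ev, D]
  | add p q hp hq =>
    have e : ev (p + q) = fun g => ev p g + ev q g := by funext g; simp [ev]
    rw [e]
    exact (hp.add hq).congr fun x z => by simp [ev, D]
  | mul_X p j hp =>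
    have e : ev (p * MvPolynomial.X j) = fun g => ev p g * g j := by funext g; simp [ev]
    rw [e]
    refine (hp.mul (gr_coord j)).congr fun x z => ?_
    simp only [ev, D, pderiv_mul, pderiv_X, map_add, map_mul, eval_X, Pi.single_apply]
    by_cases h : x = j
    · simp [h]
    · simp [h, Ne.symm h]

theorem eg_ev (p : MvPolynomial ι ℝ) : Eg (ev p) := (gr_ev p).eg

omit [Fintype ι] in
open MvPolynomial in
theorem D_comm (i j : ι) (p : MvPolynomial ι ℝ) : D i (D j p) = D j (D i p) := by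
  classical
  induction p using MvPolynomial.induction_on with
  | C a => simp [D]
  | add p q hp hq => simp only [D, map_add] at hp hq ⊢; rw [hp, hq]
  | mul_X p k hp =>
    have e : ∀ a b : ι, pderiv a (pderiv b (MvPolynomial.X k : MvPolynomial ι ℝ)) = 0 := by
      intro a b
      rw [pderiv_X, Pi.single_apply]
      split_ifs <;> simp
    simp only [D, pderiv_mul, map_add, e] at hp ⊢
    rw [hp]
    ring

open MvPolynomial in
/-- the number operator -/
def Nop : MvPolynomial ι ℝ →ₗ[ℝ] MvPolynomial ι ℝ where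
  toFun p := ∑ i, (MvPolynomial.X i * D i p - D i (D i p))
  map_add' p q := by
    simp only [D, map_add, ← Finset.sum_add_distrib]
    exact Finset.sum_congr rfl fun _ _ => by ring
  map_smul' c p := by
    simp only [D, Derivation.map_smul, RingHom.id_apply, Finset.smul_sum, smul_sub, mul_smul_comm]

open MvPolynomial in
theorem ev_Nop (p : MvPolynomial ι ℝ) (g : ι → ℝ) :
    ev (Nop p) g = ∑ i, (g i * ev (D i p) g - ev (D i (D i p)) g) := by
  simp [ev, Nop]

open MvPolynomial in
theorem surj {l : ℝ} (hl : 0 ≤ l) (p : MvPolynomial ι ℝ) :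
    ∃ (q : MvPolynomial ι ℝ) (c : ℝ), p = l • q + Nop q + C c := by
  classical
  let M : Submodule ℝ (MvPolynomial ι ℝ) :=
    { carrier := {p | ∃ (q : MvPolynomial ι ℝ) (c : ℝ), p = l • q + Nop q + C c}
      add_mem' := by
        rintro a b ⟨q, c, rfl⟩ ⟨q', c', rfl⟩
        exact ⟨q + q', c + c', by simp only [smul_add, map_add]; abel⟩
      zero_mem' := ⟨0, 0, by simp⟩
      smul_mem' := by
        rintro a b ⟨q, c, rfl⟩
        refine ⟨a • q, a * c, ?_⟩
        rw [map_smul, smul_add, smul_add, smul_comm a l q, map_mul,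
          ← MvPolynomial.smul_eq_C_mul] }
  have mono : ∀ (n : ℕ) (s : ι →₀ ℕ), ∑ i, s i = n → ∀ a : ℝ, monomial s a ∈ M := by
    intro n
    induction n using Nat.strong_induction_on with
    | _ n ih =>
      intro s hs a
      rcases Nat.eq_zero_or_pos n with h0 | h0
      · have : s = 0 := by
          ext i
          have := Finset.single_le_sum (f := fun i => s i) (fun _ _ => Nat.zero_le _)
            (Finset.mem_univ i)
          simp only [Finsupp.coe_zero, Pi.zero_apply]
          omega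
        subst this
        exact ⟨0, a, by simp⟩
      · have hpos : (0 : ℝ) < l + n := by
          have : (0 : ℝ) < n := by exact_mod_cast h0
          linarith
        have h1 : l • monomial s a + Nop (monomial s a) ∈ M := ⟨monomial s a, 0, by simp⟩
        have h2 : ∑ i, D i (D i (monomial s a)) ∈ M := by
          refine M.sum_mem fun i _ => ?_
          by_cases hi : s i = 0
          · simp [D, hi]
          · simp only [D, pderiv_monomial]
            refine ih _ ?_ _ rfl _
            rw [← hs]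
            refine Finset.sum_lt_sum (fun j _ => ?_) ⟨i, Finset.mem_univ i, ?_⟩
            · simp only [Finsupp.coe_tsub, Pi.sub_apply]; omega
            · simp only [Finsupp.coe_tsub, Pi.sub_apply, Finsupp.single_eq_same]; omega
        have h3 : (l + n) • monomial s a =
            l • monomial s a + Nop (monomial s a) + ∑ i, D i (D i (monomial s a)) := by
          have : Nop (monomial s a) =
              ∑ i, (MvPolynomial.X i * D i (monomial s a)) - ∑ i, D i (D i (monomial s a)) := by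
            rw [← Finset.sum_sub_distrib]; rfl
          rw [this]
          simp only [D, X_mul_pderiv_monomial]
          rw [← Finset.sum_smul, hs, add_smul, Nat.cast_smul_eq_nsmul]
          abel
        have h4 := M.smul_mem (l + n)⁻¹ (h3 ▸ M.add_mem h1 h2)
        rwa [smul_smul, inv_mul_cancel₀ hpos.ne', one_smul] at h4
  have : p ∈ M := by
    rw [p.as_sum]
    exact M.sum_mem fun s _ => mono _ s rfl _
  exact this

open MvPolynomial in
theorem surj_pos {l : ℝ} (hl : 0 < l) (p : MvPolynomial ι ℝ) :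
    ∃ q : MvPolynomial ι ℝ, p = l • q + Nop q := by
  obtain ⟨q, c, h⟩ := surj hl.le p
  refine ⟨q + C (c / l), ?_⟩
  have e1 : Nop (C (c / l) : MvPolynomial ι ℝ) = 0 := by simp [Nop, D]
  have e2 : l • (C (c / l) : MvPolynomial ι ℝ) = C c := by
    rw [MvPolynomial.smul_eq_C_mul, ← map_mul, mul_div_cancel₀ _ hl.ne']
  rw [smul_add, map_add, e1, e2, h]
  abel

/-! ### determinacy -/

open MvPolynomial in
theorem det_zero (ν : Measure (ι → ℝ)) [SigmaFinite ν] {χ : (ι → ℝ) → ℝ}
    (hi : ∀ c : ℝ, Integrable (fun x => χ x * exp (c * ‖x‖)) ν)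
    (h0 : ∀ p : MvPolynomial ι ℝ, ∫ x, χ x * ev p x ∂ν = 0) : χ =ᵐ[ν] 0 := by
  classical
  have h1 : Integrable χ ν := by simpa using hi 0
  have := isFiniteMeasure_withDensity_ofReal h1.2
  have := isFiniteMeasure_withDensity_ofReal h1.neg.2
  have hbd : ∀ (ℓ : StrongDual ℝ (ι → ℝ)) {f : (ι → ℝ) → ℝ}, Integrable f ν →
      Integrable (fun x => (f x : ℂ) * Complex.exp (ℓ x * Complex.I)) ν := by
    intro ℓ f hf
    refine Integrable.mul_bdd (c := 1) hf.ofReal ?_ (Eventually.of_forall fun x => ?_)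
    · exact (by fun_prop : Continuous fun x : ι → ℝ =>
        Complex.exp (ℓ x * Complex.I)).aestronglyMeasurable
    · exact (Complex.norm_exp_ofReal_mul_I _).le
  have dens : ∀ (ℓ : StrongDual ℝ (ι → ℝ)) {f : (ι → ℝ) → ℝ}, Integrable f ν →
      charFunDual (ν.withDensity fun x => ENNReal.ofReal (f x)) ℓ =
        ∫ x, ((max (f x) 0 : ℝ) : ℂ) * Complex.exp (ℓ x * Complex.I) ∂ν := by
    intro ℓ f hf
    rw [charFunDual_apply, integral_withDensity_eq_integral_toReal_smul₀
      hf.aemeasurable.ennreal_ofReal (Eventually.of_forall fun _ => ENNReal.ofReal_lt_top)]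
    refine integral_congr_ae (Eventually.of_forall fun θ => ?_)
    simp only [ENNReal.toReal_ofReal', Complex.real_smul]
  have hft : ∀ ℓ : StrongDual ℝ (ι → ℝ),
      ∫ x, (χ x : ℂ) * Complex.exp (ℓ x * Complex.I) ∂ν = 0 := by
    intro ℓ
    set P : MvPolynomial ι ℝ := ∑ i, C (ℓ (Pi.single i 1)) * MvPolynomial.X i with hP
    have hev : ∀ x, ev P x = ℓ x := fun x => by
      have e : x = ∑ i, x i • (Pi.single i 1 : ι → ℝ) := by
        ext j; simp [Finset.sum_apply, Pi.single_apply]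
      conv_rhs => rw [e]
      simp [ev, hP, mul_comm]
    have hs := hasSum_integral_of_dominated_convergence (μ := ν)
      (F := fun (k : ℕ) x => (χ x : ℂ) * ((ℓ x * Complex.I) ^ k / k.factorial))
      (f := fun x => (χ x : ℂ) * Complex.exp (ℓ x * Complex.I))
      (fun k x => |χ x| * (|ℓ x| ^ k / k.factorial)) (fun k => ?_) (fun k => ?_) ?_ ?_ ?_
    · have hz : ∀ k : ℕ,
          ∫ x, (χ x : ℂ) * ((ℓ x * Complex.I) ^ k / k.factorial) ∂ν = 0 := fun k => by
        have e : ∀ x, (χ x : ℂ) * ((ℓ x * Complex.I) ^ k / k.factorial) =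
            ((χ x * ev (P ^ k) x : ℝ) : ℂ) * (Complex.I ^ k / k.factorial) := fun x => by
          have : ev (P ^ k) x = ℓ x ^ k := by rw [← hev]; simp [ev]
          rw [this]; push_cast; ring
        simp_rw [e]
        rw [integral_mul_const, integral_complex_ofReal, h0]
        simp
      simp_rw [hz] at hs
      exact hs.unique hasSum_zero
    · exact (Complex.continuous_ofReal.comp_aestronglyMeasurable h1.1).mul
        (by fun_prop : Continuous fun x : ι → ℝ =>
          ((ℓ x * Complex.I) ^ k / k.factorial : ℂ)).aestronglyMeasurable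
    · refine Eventually.of_forall fun x => ?_
      simp [norm_mul, norm_div, norm_pow]
    · exact Eventually.of_forall fun x => (Real.summable_pow_div_factorial _).mul_left _
    · have e : (fun x => ∑' k : ℕ, |χ x| * (|ℓ x| ^ k / k.factorial)) =
          fun x => |χ x| * exp |ℓ x| := by
        funext x
        rw [tsum_mul_left, Real.exp_eq_exp_ℝ, NormedSpace.exp_eq_tsum_div]
      rw [e]
      refine (hi ‖ℓ‖).norm.mono' (h1.1.norm.mul (by fun_prop : Continuous fun x : ι → ℝ =>
        exp |ℓ x|).aestronglyMeasurable) (Eventually.of_forall fun x => ?_)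
      rw [Real.norm_eq_abs, Real.norm_eq_abs, abs_mul, abs_mul, abs_abs, abs_of_pos (exp_pos _),
        abs_of_pos (exp_pos _)]
      exact mul_le_mul_of_nonneg_left (exp_le_exp.2 (ℓ.le_opNorm x)) (abs_nonneg _)
    · refine Eventually.of_forall fun x => HasSum.mul_left _ ?_
      rw [Complex.exp_eq_exp_ℂ]
      exact NormedSpace.expSeries_div_hasSum_exp _
  have e : (ν.withDensity fun x => ENNReal.ofReal (χ x)) =
      ν.withDensity fun x => ENNReal.ofReal ((-χ) x) := by
    refine Measure.ext_of_charFunDual (funext fun ℓ => ?_)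
    rw [dens ℓ h1, dens ℓ h1.neg, ← sub_eq_zero, ← hft ℓ,
      ← integral_sub (hbd ℓ h1.pos_part) (hbd ℓ h1.neg.pos_part)]
    refine integral_congr_ae (Eventually.of_forall fun θ => ?_)
    simp only [Pi.neg_apply]
    rw [← sub_mul, ← Complex.ofReal_sub, max_zero_sub_max_neg_zero_eq_self]
  filter_upwards [(withDensity_eq_iff_of_sigmaFinite h1.aemeasurable.ennreal_ofReal
    h1.neg.aemeasurable.ennreal_ofReal).1 e] with θ hθ
  have := congrArg ENNReal.toReal hθ
  simp only [ENNReal.toReal_ofReal', Pi.neg_apply] at this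
  rw [← max_zero_sub_max_neg_zero_eq_self (χ θ), this, sub_self, Pi.zero_apply]

end Crest.Agent.T156.Cas.Hs98

end
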