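import Crest.Agent.T156.CaPe_45
import Crest.Agent.T156.CaConc_68
import Crest.Agent.R144.Hs6_865

/-!
# Row 156: Helffer–Sjöstrand in the `lE` frame (helper23)

`hsL` is `R144.Hs865.hs_var_le` for the law `∝ exp (-U) γ`; `blL` is the Brascamp–Lieb inequality
in dual form and `poinc` the Poincaré inequality (potentials with a bounded Hessian).
-/

set_option autoImplicit false
set_option linter.unusedSectionVars false

noncomputable section

namespace Crest.Agent.T156.Cas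

open MeasureTheory Real Set ProbabilityTheory
open scoped ContDiff
open Crest.Agent.T157.E Crest.Agent.T157.Casc Crest.Agent.T157.SL
open Crest.Agent.R144.Hs865 (pd hs_var_le contDiff_pd continuous_pd hcs_pd muH int_mu integrable_mu)
open Crest.Agent.R339.Guerra (dual dual_apply)

/-- a `C²` potential of linear growth with a bounded Hessian -/
structure C2U {ι : Type} [Fintype ι] (U : (ι → ℝ) → ℝ) (U₁ : ι → (ι → ℝ) → ℝ)
    (U₂ : ι → ι → (ι → ℝ) → ℝ) : Prop where
  lg : Lg U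
  g1 : Gr U U₁
  g2 : ∀ i, Gr (U₁ i) (U₂ i)
  bd : ∃ C, ∀ i j g, |U₂ i j g| ≤ C

namespace Hs23

variable {ι : Type} [Fintype ι] {U f f' Φ Φ' Γ : (ι → ℝ) → ℝ} {U₁ f₁ Ψ : ι → (ι → ℝ) → ℝ}
  {U₂ Ψ₂ : ι → ι → (ι → ℝ) → ℝ}

/-! ### linearity of `lE` -/

theorem eg_w (hU : Lg U) : Eg fun g => exp (-U g) := Pe.eg_exp (Pe.lg_neg hU)

theorem Z_pos (hU : Lg U) : 0 < ∫ g, exp (-U g) ∂gv ι := integral_exp_pos (Pe.eg_int (eg_w hU))

theorem int_w (hU : Lg U) (h : Eg Φ) : Integrable (fun g => exp (-U g) * Φ g) (gv ι) :=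
  Pe.eg_int ((eg_w hU).mul h)

theorem lE_add (hU : Lg U) (h : Eg Φ) (h' : Eg Φ') :
    lE U (fun g => Φ g + Φ' g) = lE U Φ + lE U Φ' := by
  simp only [lE, mul_add]
  rw [integral_add (int_w hU h) (int_w hU h'), add_div]

theorem lE_cmul (U Φ : (ι → ℝ) → ℝ) (c : ℝ) : lE U (fun g => c * Φ g) = c * lE U Φ := by
  simp only [lE, mul_left_comm _ c]
  rw [integral_const_mul, mul_div_assoc]

theorem lE_const (hU : Lg U) (c : ℝ) : lE U (fun _ => c) = c := by
  rw [lE, integral_mul_const, mul_div_cancel_left₀ _ (Z_pos hU).ne']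

theorem lE_sub (hU : Lg U) (h : Eg Φ) (h' : Eg Φ') :
    lE U (fun g => Φ g - Φ' g) = lE U Φ - lE U Φ' := by
  simp only [lE, mul_sub]
  rw [integral_sub (int_w hU h) (int_w hU h'), sub_div]

theorem lE_sum (hU : Lg U) {κ : Type*} (s : Finset κ) {F : κ → (ι → ℝ) → ℝ}
    (h : ∀ k ∈ s, Eg (F k)) : lE U (fun g => ∑ k ∈ s, F k g) = ∑ k ∈ s, lE U (F k) := by
  simp only [lE, Finset.mul_sum]
  rw [integral_finsetSum _ fun k hk => int_w hU (h k hk), Finset.sum_div]

theorem lE_mono (hU : Lg U) (h : Eg Φ) (h' : Eg Φ') (e : ∀ g, Φ g ≤ Φ' g) : lE U Φ ≤ lE U Φ' :=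
  div_le_div_of_nonneg_right (integral_mono (int_w hU h) (int_w hU h') fun g =>
    mul_le_mul_of_nonneg_left (e g) (exp_pos _).le) (Z_pos hU).le

theorem lE_nonneg (U : (ι → ℝ) → ℝ) (e : ∀ g, 0 ≤ Φ g) : 0 ≤ lE U Φ :=
  div_nonneg (integral_nonneg fun g => mul_nonneg (exp_pos _).le (e g))
    (integral_nonneg fun _ => (exp_pos _).le)

theorem lE_sq_sub (hU : Lg U) (h : Eg f) (c : ℝ) :
    lE U (fun g => (f g - c) ^ 2) = lC U f f + (lE U f - c) ^ 2 := by
  have e : (fun g => (f g - c) ^ 2) = fun g => (f g * f g - 2 * c * f g) + c ^ 2 := by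
    funext g; ring
  rw [e, lE_add hU ((h.mul h).sub (h.const_mul _)) (Eg.const _), lE_sub hU (h.mul h)
    (h.const_mul _), lE_cmul, lE_const hU, lC]
  ring

theorem lC_nonneg (hU : Lg U) (h : Eg f) : 0 ≤ lC U f f := by
  have h1 := lE_sq_sub hU h (lE U f)
  have h2 := lE_nonneg U (Φ := fun g => (f g - lE U f) ^ 2) fun _ => sq_nonneg _
  simpa [h1] using h2

/-- `2 Cov (f, f') ≤ λ Var f + Var f' / λ` -/
theorem two_lC_le (hU : Lg U) (h : Eg f) (h' : Eg f') {t : ℝ} (ht : 0 < t) :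
    2 * lC U f f' ≤ t * lC U f f + lC U f' f' / t := by
  have h1 := lC_nonneg hU ((h.const_mul t).sub h')
  have e : (fun g => (t * f g - f' g) * (t * f g - f' g)) =
      fun g => (t ^ 2 * (f g * f g) - 2 * t * (f g * f' g)) + f' g * f' g := by funext g; ring
  rw [lC, e, lE_add hU (((h.mul h).const_mul _).sub ((h.mul h').const_mul _)) (h'.mul h'),
    lE_sub hU ((h.mul h).const_mul _) ((h.mul h').const_mul _), lE_sub hU (h.const_mul _) h',
    lE_cmul, lE_cmul, lE_cmul] at h1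
  rw [← sub_nonneg]
  have : t * lC U f f + lC U f' f' / t - 2 * lC U f f' =
      (t ^ 2 * lC U f f - 2 * t * lC U f f' + lC U f' f') / t := by field_simp; ring
  rw [this]
  refine div_nonneg ?_ ht.le
  simp only [lC]
  linarith

/-! ### `Gr` and `ContDiff` -/

theorem gr_fderiv (h : Gr Φ Ψ) : fderiv ℝ Φ = fun z => dual fun x => Ψ x z :=
  funext fun z => (h.fd z).fderiv

theorem gr_pd [DecidableEq ι] (h : Gr Φ Ψ) (i : ι) : pd i Φ = Ψ i := by
  funext z
  simp [pd, gr_fderiv h, Pi.single_apply]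

theorem gr_cd1 (h : Gr Φ Ψ) : ContDiff ℝ 1 Φ := by
  refine contDiff_one_iff_fderiv.2 ⟨fun z => (h.fd z).differentiableAt, ?_⟩
  rw [gr_fderiv h]
  exact continuous_finsetSum _ fun a _ => (h.eg' a).cont.smul continuous_const

theorem gr_cd2 (h : Gr Φ Ψ) (h' : ∀ i, Gr (Ψ i) (Ψ₂ i)) : ContDiff ℝ 2 Φ := by
  rw [← one_add_one_eq_two]
  refine contDiff_succ_iff_fderiv.2 ⟨fun z => (h.fd z).differentiableAt, by simp, ?_⟩
  rw [gr_fderiv h]
  exact ContDiff.sum fun a _ => (gr_cd1 (h' a)).smul contDiff_const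

theorem eg_of_hcs (hc : Continuous Φ) (hs : HasCompactSupport Φ) : Eg Φ := by
  obtain ⟨C, hC⟩ := hc.bounded_above_of_compact_support hs
  exact Eg.of_bdd hc C hC

theorem gr_of_cd [DecidableEq ι] (hc : ContDiff ℝ 1 Φ) (hs : HasCompactSupport Φ) :
    Gr Φ fun i => pd i Φ := by
  refine ⟨eg_of_hcs hc.continuous hs, fun i => eg_of_hcs (continuous_pd hc i) (hcs_pd hs i),
    fun z => (hc.differentiable (by norm_num) z).hasFDerivAt.congr_fderiv
      (ContinuousLinearMap.ext fun v => ?_)⟩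
  conv_lhs => rw [pi_eq_sum_univ' v]
  simp [pd, mul_comm]

theorem gr_x [DecidableEq ι] (i : ι) :
    Gr (fun g : ι → ℝ => g i) fun j _ => if j = i then 1 else 0 :=
  ⟨Eg.coord i, fun _ => Eg.const _, fun z => (hasFDerivAt_apply i z).congr_fderiv
    (ContinuousLinearMap.ext fun v => by simp)⟩

theorem gr_lip (h : Gr Φ Ψ) {C : ℝ} (hC : ∀ i z, |Ψ i z| ≤ C) (x y : ι → ℝ) :
    |Φ x - Φ y| ≤ Fintype.card ι * C * ‖x - y‖ := by
  obtain ⟨s, -, e⟩ := h.exists_sub y (x - y)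
  rw [add_sub_cancel] at e
  rw [e]
  refine (Finset.abs_sum_le_sum_abs _ _).trans ((Finset.sum_le_sum (g := fun _ => C * ‖x - y‖)
    fun i _ => ?_).trans (by simp [mul_assoc]))
  rw [abs_mul]
  exact mul_le_mul (hC _ _) (norm_le_pi_norm (x - y) i) (abs_nonneg _)
    ((abs_nonneg _).trans (hC i y))

/-- the Hessian of a convex function is positive semidefinite -/
theorem psd (hc : ConvexOn ℝ univ U) (h1 : Gr U U₁) (h2 : ∀ i, Gr (U₁ i) (U₂ i)) (g η : ι → ℝ) :
    0 ≤ ∑ i, ∑ j, U₂ i j g * η i * η j := by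
  have c1 : ConvexOn ℝ univ fun s : ℝ => U (g + s • η) :=
    ⟨convex_univ, fun a _ b _ p q hp hq hpq => by
      have := hc.2 (mem_univ (g + a • η)) (mem_univ (g + b • η)) hp hq hpq
      have e : p • (g + a • η) + q • (g + b • η) = g + (p • a + q • b) • η := by
        funext i
        simp only [Pi.add_apply, Pi.smul_apply, smul_eq_mul]
        linear_combination (g i) * hpq
      rwa [e] at this⟩
  have m1 : Monotone fun s : ℝ => ∑ x, U₁ x (g + s • η) * η x := by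
    have := c1.monotoneOn_deriv fun s _ => (h1.line g η s).differentiableAt
    rw [monotoneOn_univ] at this
    convert this using 1
    exact funext fun s => (h1.line g η s).deriv.symm
  have d2 : HasDerivAt (fun s : ℝ => ∑ x, U₁ x (g + s • η) * η x)
      (∑ x, (∑ y, U₂ x y (g + (0 : ℝ) • η) * η y) * η x) 0 :=
    HasDerivAt.fun_sum fun x _ => ((h2 x).line g η 0).mul_const _
  have := d2.nonneg_of_monotone m1
  simp only [zero_smul, add_zero, Finset.sum_mul] at this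
  refine this.trans_eq (Finset.sum_congr rfl fun _ _ => Finset.sum_congr rfl fun _ _ => by ring)

/-! ### the Gaussian density -/

/-- minus the logarithm of the Gaussian density -/
def H0 (y : ι → ℝ) : ℝ := 1 / 2 * ∑ j, y j * y j + -(Fintype.card ι * log (√(2 * π))⁻¹)

theorem gv_eq [DecidableEq ι] : gv ι = muH (H0 (ι := ι)) := by
  rw [show gv ι = _ from T157.Conc.gv_eq_withDensity, muH]
  congr 1
  funext y
  rw [pdf68, H0]
  congr 2
  simp only [sq]
  ring

theorem gr_H0 [DecidableEq ι] : Gr (H0 (ι := ι)) fun i y => y i :=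
  (((Gr.sum Finset.univ fun j _ => (gr_x j).mul (gr_x j)).const_mul (1 / 2)).add
    (Gr.const _)).congr fun i y => by
      simp only [mul_ite, ite_mul, mul_one, one_mul, mul_zero, zero_mul, Finset.sum_add_distrib,
        Finset.sum_ite_eq, Finset.mem_univ, if_true]
      ring

theorem int_H [DecidableEq ι] (U F : (ι → ℝ) → ℝ) :
    ∫ x, F x * exp (-(U x + H0 x)) = ∫ g, exp (-U g) * F g ∂gv ι := by
  rw [gv_eq, int_mu gr_H0.eg.cont]
  refine integral_congr_ae (.of_forall fun x => ?_)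
  simp only [neg_add, exp_add]
  ring

theorem integrable_H [DecidableEq ι] (hU : Lg U) (h : Eg Φ) :
    Integrable fun x => Φ x * exp (-(U x + H0 x)) := by
  have := int_w hU h
  rw [gv_eq, integrable_mu gr_H0.eg.cont] at this
  refine this.congr (.of_forall fun x => ?_)
  simp only [neg_add, exp_add]
  ring

end Hs23

open Hs23

variable {ι : Type} [Fintype ι] {U f Γ : (ι → ℝ) → ℝ} {U₁ f₁ : ι → (ι → ℝ) → ℝ}
  {U₂ : ι → ι → (ι → ℝ) → ℝ}

/-- **Helffer–Sjöstrand**, dual form, for the law `∝ exp (-U) γ` (no convexity needed) -/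
theorem hsL (hU : C2U U U₁ U₂) (hf : Gr f f₁) {B : ℝ}
    (hB : ∀ (u : ι → (ι → ℝ) → ℝ) (u₁ : ι → ι → (ι → ℝ) → ℝ), (∀ i, Gr (u i) (u₁ i)) →
      2 * lE U (fun g => ∑ i, f₁ i g * u i g) ≤ lE U (fun g => ∑ i, ∑ j, u₁ i j g ^ 2 +
        (∑ i, u i g ^ 2 + ∑ i, ∑ j, U₂ i j g * u i g * u j g)) + B) :
    lC U f f ≤ B := by
  classical
  obtain ⟨C, hC⟩ := hU.bd
  have hZ := Z_pos hU.lg
  have g1 : Gr (fun x => U x + H0 x) fun i x => U₁ i x + x i := hU.g1.add gr_H0
  have g2 : ∀ i, Gr (fun x => U₁ i x + x i) fun j x => U₂ i j x + if j = i then 1 else 0 :=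
    fun i => (hU.g2 i).add (gr_x i)
  have key := hs_var_le (H := fun x => U x + H0 x) (G := f) (gr_cd2 g1 g2)
    (by simpa using integrable_H hU.lg (Eg.const 1)) (C := Fintype.card ι * (|C| + 1))
    (by positivity) (fun i x y => by
      rw [gr_pd g1]
      refine gr_lip (g2 i) (fun j z => (abs_add_le _ _).trans (add_le_add
        ((hC _ _ _).trans (le_abs_self _)) ?_)) x y
      split_ifs <;> simp)
    (gr_cd1 hf) (integrable_H hU.lg (hf.eg.pow 2)) (m := lE U f) (by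
      rw [int_H]
      have := lE_sub hU.lg hf.eg (Eg.const (lE U f))
      rw [lE_const hU.lg, sub_self, lE, div_eq_zero_iff] at this
      exact this.resolve_right hZ.ne')
    (B := B * ∫ g, exp (-U g) ∂gv ι) fun φ h1 h2 => by
      have h3 := hB (fun i => pd i φ) (fun i j => pd j (pd i φ)) fun i =>
        gr_of_cd (contDiff_pd h1 (by norm_cast) i) (hcs_pd h2 i)
      rw [int_H, int_H]
      simp only [gr_pd g1, gr_pd (g2 _), gr_pd hf]
      rw [lE, lE, ← mul_div_assoc, div_add' _ _ _ hZ.ne', div_le_div_iff_of_pos_right hZ] at h3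
      have e1 : ∀ g, ∑ i, pd i φ g * f₁ i g = ∑ i, f₁ i g * pd i φ g := fun g =>
        Finset.sum_congr rfl fun _ _ => mul_comm _ _
      have e2 : ∀ g, ∑ i, ∑ j, pd i (pd j φ) g ^ 2 = ∑ i, ∑ j, pd j (pd i φ) g ^ 2 := fun g =>
        Finset.sum_comm
      have e3 : ∀ g, ∑ i, ∑ j, (U₂ j i g + if i = j then 1 else 0) * pd i φ g * pd j φ g =
          ∑ i, pd i φ g ^ 2 + ∑ i, ∑ j, U₂ i j g * pd i φ g * pd j φ g := fun g => by
        simp only [add_mul, Finset.sum_add_distrib, ite_mul, one_mul, zero_mul,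
          Finset.sum_ite_eq, Finset.mem_univ, if_true, sq]
        rw [add_comm, Finset.sum_comm]
        exact congrArg _ (Finset.sum_congr rfl fun _ _ => Finset.sum_congr rfl fun _ _ => by ring)
      simp only [e1, e2, e3]
      exact h3
  rw [int_H] at key
  have := lE_sq_sub hU.lg hf.eg (lE U f)
  rw [sub_self, lE] at this
  rw [← div_le_iff₀ hZ, this] at key
  simpa using key

/-- **Brascamp–Lieb**, dual form (`BLStmt` for a bounded Hessian) -/
theorem blL (hU : C2U U U₁ U₂) (hc : ConvexOn ℝ univ U) (hf : Gr f f₁) (hΓ : Eg Γ)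
    (h0 : ∀ g, 0 ≤ Γ g) (H : ∀ g η : ι → ℝ, (∑ i, f₁ i g * η i) ^ 2 ≤
      Γ g * (∑ i, η i ^ 2 + ∑ i, ∑ j, U₂ i j g * η i * η j)) : lC U f f ≤ lE U Γ := by
  refine hsL hU hf fun u u₁ hu => ?_
  have e1 : Eg fun g => ∑ i, f₁ i g * u i g := Eg.sum _ fun i _ => (hf.eg' i).mul (hu i).eg
  have e2 : Eg fun g => ∑ i, ∑ j, u₁ i j g ^ 2 +
      (∑ i, u i g ^ 2 + ∑ i, ∑ j, U₂ i j g * u i g * u j g) :=
    (Eg.sum _ fun i _ => Eg.sum _ fun j _ => ((hu i).eg' j).pow 2).add
      ((Eg.sum _ fun i _ => (hu i).eg.pow 2).add (Eg.sum _ fun i _ => Eg.sum _ fun j _ =>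
        (((hU.g2 i).eg' j).mul (hu i).eg).mul (hu j).eg))
  rw [← lE_cmul, ← lE_add hU.lg e2 hΓ]
  refine lE_mono hU.lg (e1.const_mul _) (e2.add hΓ) fun g => ?_
  have h1 := H g fun i => u i g
  have h2 := psd hc hU.g1 hU.g2 g fun i => u i g
  have h3 : 0 ≤ ∑ i, u i g ^ 2 := by positivity
  have h4 : 0 ≤ ∑ i, ∑ j, u₁ i j g ^ 2 := by positivity
  have h5 := abs_le_of_sq_le_sq' (a := 2 * ∑ i, f₁ i g * u i g)
    (b := Γ g + (∑ i, u i g ^ 2 + ∑ i, ∑ j, U₂ i j g * u i g * u j g))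
    (by nlinarith [sq_nonneg (Γ g - (∑ i, u i g ^ 2 + ∑ i, ∑ j, U₂ i j g * u i g * u j g))])
    (by linarith [h0 g])
  linarith [h5.2]

/-- **Poincaré inequality** under a log-concave tilt of the Gaussian -/
theorem poinc (hU : C2U U U₁ U₂) (hc : ConvexOn ℝ univ U) (hf : Gr f f₁) :
    lC U f f ≤ lE U fun g => ∑ i, f₁ i g ^ 2 :=
  blL hU hc hf (Eg.sum _ fun i _ => (hf.eg' i).pow 2) (fun _ => by positivity) fun g η =>
    (Finset.sum_mul_sq_le_sq_mul_sq _ _ _).trans (mul_le_mul_of_nonneg_left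
      (le_add_of_nonneg_right (psd hc hU.g1 hU.g2 g η)) (by positivity))

end Crest.Agent.T156.Cas

end
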