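import Crest.Agent.T156.Ker_31

/-!
Row 156 (helper31): sharp `L¹` dependence on the tilt function of all polynomial functionals
`E ∏ ∂^{k+1}Φ(t, X_t)`, with the parity gains.
-/

set_option autoImplicit false

namespace Crest.Agent.T156.Ker

open MeasureTheory ProbabilityTheory Filter Topology Set
open Crest.Agent.R164.GC Crest.Agent.R339.B Crest.Agent.R339.Var Crest.Agent.T157.Pf
open Crest.Agent.T156.Pp Crest.Agent.T156.Sc48
open Crest.ProbabilityR.InvariantGlass (gaussOp)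

noncomputable section

/-- bounds up to the second derivative -/
structure B2 (F : ℝ → ℝ) (K : ℝ) : Prop where
  bd : BD F
  b0 : ∀ x, |F x| ≤ K
  b1 : ∀ x, |deriv F x| ≤ K
  b2 : ∀ x, |deriv (deriv F) x| ≤ K

theorem B2.nn {F : ℝ → ℝ} {K : ℝ} (h : B2 F K) : 0 ≤ K := (abs_nonneg _).trans (h.b0 0)

theorem B2.mono {F : ℝ → ℝ} {K K' : ℝ} (h : B2 F K) (e : K ≤ K') : B2 F K' :=
  ⟨h.bd, fun x => (h.b0 x).trans e, fun x => (h.b1 x).trans e, fun x => (h.b2 x).trans e⟩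

theorem B2.add {F G : ℝ → ℝ} {a b : ℝ} (h : B2 F a) (h' : B2 G b) :
    B2 (fun x => F x + G x) (a + b) := by
  have e : deriv (fun x => F x + G x) = fun x => deriv F x + deriv G x :=
    funext fun x => deriv_fun_add (h.bd.diff x) (h'.bd.diff x)
  refine ⟨h.bd.add h'.bd, fun x => (abs_add_le _ _).trans (add_le_add (h.b0 x) (h'.b0 x)),
    fun x => ?_, fun x => ?_⟩
  · rw [e]
    exact (abs_add_le _ _).trans (add_le_add (h.b1 x) (h'.b1 x))
  · rw [e, deriv_fun_add (h.bd.deriv.diff x) (h'.bd.deriv.diff x)]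
    exact (abs_add_le _ _).trans (add_le_add (h.b2 x) (h'.b2 x))

theorem B2.mul {F G : ℝ → ℝ} {a b : ℝ} (h : B2 F a) (h' : B2 G b) :
    B2 (fun x => F x * G x) (4 * (a * b)) := by
  have e : deriv (fun x => F x * G x) = fun x => deriv F x * G x + F x * deriv G x :=
    funext fun x => deriv_fun_mul (h.bd.diff x) (h'.bd.diff x)
  have m : ∀ {u v : ℝ}, |u| ≤ a → |v| ≤ b → |u * v| ≤ a * b := fun hu hv => by
    rw [abs_mul]; exact mul_le_mul hu hv (abs_nonneg _) h.nn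
  have ab := mul_nonneg h.nn h'.nn
  refine ⟨h.bd.mul h'.bd, fun x => (m (h.b0 x) (h'.b0 x)).trans (by linarith), fun x => ?_,
    fun x => ?_⟩
  · rw [e]
    exact (abs_add_le _ _).trans
      ((add_le_add (m (h.b1 x) (h'.b0 x)) (m (h.b0 x) (h'.b1 x))).trans (by linarith))
  · rw [e, deriv_fun_add ((h.bd.deriv.mul h'.bd).diff x) ((h.bd.mul h'.bd.deriv).diff x),
      deriv_fun_mul (h.bd.deriv.diff x) (h'.bd.diff x),
      deriv_fun_mul (h.bd.diff x) (h'.bd.deriv.diff x)]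
    refine (abs_add_le _ _).trans ((add_le_add ((abs_add_le _ _).trans
      (add_le_add (m (h.b2 x) (h'.b0 x)) (m (h.b1 x) (h'.b1 x)))) ((abs_add_le _ _).trans
      (add_le_add (m (h.b1 x) (h'.b1 x)) (m (h.b0 x) (h'.b2 x))))).trans (by linarith))

theorem even_le {g : ℝ → ℝ} (hg : BD g) (he : ∀ x, g (-x) = g x) {L : ℝ}
    (hb : ∀ x, |deriv (deriv g) x| ≤ L) (y : ℝ) : |g y| ≤ |g 0| + L * y ^ 2 := by
  have hL : 0 ≤ L := (abs_nonneg _).trans (hb 0)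
  have h1 := odd_le hg.deriv.diff (zero_of_odd (deriv_neg_of_even he)) hb
  have h2 := (convex_uIcc 0 y).norm_image_sub_le_of_norm_deriv_le (f := g) (C := L * |y|)
    (fun x _ => hg.diff x) (fun x hx => (h1 x).trans (mul_le_mul_of_nonneg_left (by
      simpa using abs_sub_left_of_mem_uIcc hx) hL)) left_mem_uIcc right_mem_uIcc
  rw [sub_zero, Real.norm_eq_abs, Real.norm_eq_abs, mul_assoc, abs_mul_abs_self, ← sq] at h2
  linarith [abs_sub_abs_le_abs_sub (g y) (g 0)]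

theorem EX_sub (l : List (ℝ × ℝ)) (t : ℝ) {F F' : ℝ → ℝ} (hF : BD F) (hF' : BD F') (x : ℝ) :
    EX 1 l t (fun y => F' y - F y) x = EX 1 l t F' x - EX 1 l t F x := by
  obtain ⟨K, hK⟩ := hF.bc
  obtain ⟨K', hK'⟩ := (hF'.sub hF).bc
  have := EX_add one_pos l t hK' hK x
  simp only [sub_add_cancel] at this
  linarith

/-- two even observables, start at `0` -/
theorem Et_even (T : ℝ) : ∃ C : ℝ, 1 ≤ C ∧ ∀ l l' : List (ℝ × ℝ), Adm 1 l → Adm 1 l' →
    TT l' = TT l → TT l ≤ T → ∀ t ∈ Icc 0 (TT l), ∀ (F F' : ℝ → ℝ) (K δ : ℝ), BD F → BD F' →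
    (∀ x, F (-x) = F x) → (∀ x, F' (-x) = F' x) → (∀ x, |deriv F x| ≤ K) →
    (∀ x, |deriv (deriv F) x| ≤ K) → (∀ x, |deriv (deriv fun y => F' y - F y) x| ≤ δ) →
    |EX 1 l' t F' 0 - EX 1 l t F 0 - (F' 0 - F 0)| ≤
      C * (K * (Wf l l' t + t * Zf l t * Nf l l' t (TT l)) + δ * t) := by
  obtain ⟨C, h1, hC⟩ := EX_lip T
  have e1 : 1 ≤ Real.exp (2 * |T|) := Real.one_le_exp (by positivity)
  refine ⟨C + Real.exp (2 * |T|), by linarith,
    fun l l' h h' e hT t ht F F' K δ hF hF' he he' hK hK2 hδ => ?_⟩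
  have a := (hC l l' h h' e hT t ht F K hF hK 0 _ _ rfl rfl).2.2 he hK2
  have hδ0 : 0 ≤ δ := (abs_nonneg _).trans (hδ 0)
  have hK0 : 0 ≤ K := (abs_nonneg _).trans (hK 0)
  have g := (hF'.sub hF).sub (BD.const (F' 0 - F 0))
  have b := EX_sq h' (t := t) (e ▸ ht) g (A := 0) hδ0 (fun y => by
    simpa using even_le g (fun x => by simp only [he, he']) (L := δ) (fun x => by
      have : deriv (fun x => F' x - F x - (F' 0 - F 0)) = deriv fun y => F' y - F y :=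
        funext fun x => deriv_sub_const _
      rw [this]
      exact hδ x) y) 0
  rw [EX_sub l' t (BD.const _) (hF'.sub hF), EX_sub l' t hF hF', EX_const one_pos] at b
  have z := (Zf_mem h ht.1).1
  have m2 := Nf_nonneg l l' ht.2
  have m3 := Wf_nonneg l l' ht.1
  have t0 := ht.1
  have c : Real.exp (2 * t) ≤ Real.exp (2 * |T|) := by
    gcongr
    linarith [ht.2, le_abs_self T]
  have c1 := mul_le_mul_of_nonneg_left c (mul_nonneg hδ0 t0)
  have c2 : 0 ≤ C * (δ * t) := by positivity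
  have c3 : 0 ≤ Real.exp (2 * |T|) * (K * (Wf l l' t + t * Zf l t * Nf l l' t (TT l))) := by
    positivity
  have a1 := abs_le.1 a
  have b1 := abs_le.1 b
  rw [abs_le]
  constructor <;> nlinarith [a1.1, a1.2, b1.1, b1.2]

/-- a monomial in the derivatives -/
def Pd (ks : List ℕ) (Φ : ℝ → ℝ) (x : ℝ) : ℝ := (ks.map fun k => Dn k Φ x).prod

theorem Pd_neg {Φ : ℝ → ℝ} (he : ∀ x, Φ (-x) = Φ x) : ∀ (ks : List ℕ) (x : ℝ),
    Pd ks Φ (-x) = (-1) ^ (ks.sum + ks.length) * Pd ks Φ x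
  | [], _ => by simp [Pd]
  | k :: ks, x => by
    have := Pd_neg he ks x
    simp only [Pd, List.map_cons, List.prod_cons, List.sum_cons, List.length_cons] at this ⊢
    rw [this, Dn_neg he]
    ring

theorem PhiT_even (l : List (ℝ × ℝ)) (t x : ℝ) : PhiT 1 l t (-x) = PhiT 1 l t x := by
  rw [Lip62.PhiT_eq_rest, PhiL_even]

theorem Pd_zero {Φ : ℝ → ℝ} (he : ∀ x, Φ (-x) = Φ x) {ks : List ℕ} {k : ℕ} (hk : k ∈ ks)
    (h2 : Even k) : Pd ks Φ 0 = 0 :=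
  List.prod_eq_zero (List.mem_map.2 ⟨k, hk, zero_of_odd fun x => by
    rw [Dn_neg he, h2.add_one.neg_one_pow, neg_one_mul]⟩)

theorem Pd_b2 (T : ℝ) : ∀ ks : List ℕ, ∃ C : ℝ, 1 ≤ C ∧ ∀ l l' : List (ℝ × ℝ), Adm 1 l →
    Adm 1 l' → TT l' = TT l → TT l ≤ T → ∀ t ∈ Icc 0 (TT l), B2 (Pd ks (PhiT 1 l t)) C ∧
      B2 (fun x => Pd ks (PhiT 1 l' t) x - Pd ks (PhiT 1 l t) x) (C * Nf l l' t (TT l))
  | [] => ⟨1, le_rfl, fun l l' _ _ _ _ t ht => by
      have e : ∀ Φ, Pd [] Φ = fun _ => 1 := fun Φ => rfl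
      have := Nf_nonneg l l' ht.2
      simp only [e]
      exact ⟨⟨BD.const _, by simp, by simp, by simp⟩,
        ⟨BD.const _, by simpa, by simpa, by simpa⟩⟩⟩
  | k :: ks => by
    obtain ⟨C, h1, hC⟩ := Pd_b2 T ks
    obtain ⟨C1, h2, hC1⟩ := Dn_bound T (k + 3)
    obtain ⟨C2, h3, hC2⟩ := Dn_lip T (k + 2)
    have q1 := one_le_mul_of_one_le_of_one_le h2 h1
    have q2 := one_le_mul_of_one_le_of_one_le h3 h1
    refine ⟨4 * (C1 * C) + 4 * (C2 * C), by linarith, fun l l' h h' e hT t ht => ?_⟩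
    have e0 : ∀ Φ, Pd (k :: ks) Φ = fun x => Dn k Φ x * Pd ks Φ x := fun Φ => by
      funext x; simp [Pd]
    have d : ∀ l, Adm 1 l → TT l ≤ T → B2 (Dn k (PhiT 1 l t)) C1 := fun l h hT => by
      rw [Lip62.PhiT_eq_rest]
      obtain ⟨a, b⟩ := Lip62.adm_rest h t ht.1
      refine ⟨Dn_bd (PhiL_prof one_pos _) k, hC1 k (by omega) _ a (b.trans hT), ?_, ?_⟩
      · rw [← Dn_succ]; exact hC1 _ (by omega) _ a (b.trans hT)
      · rw [← Dn_succ, ← Dn_succ]; exact hC1 _ (by omega) _ a (b.trans hT)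
    have ds : ∀ j, deriv (fun x => Dn j (PhiT 1 l' t) x - Dn j (PhiT 1 l t) x) =
        fun x => Dn (j + 1) (PhiT 1 l' t) x - Dn (j + 1) (PhiT 1 l t) x := fun j => by
      funext x
      rw [deriv_fun_sub ((Dn_bd (PhiT_prof one_pos l' t) j).diff x)
        ((Dn_bd (PhiT_prof one_pos l t) j).diff x), ← Dn_succ, ← Dn_succ]
    have d' : B2 (fun x => Dn k (PhiT 1 l' t) x - Dn k (PhiT 1 l t) x) (C2 * Nf l l' t (TT l)) :=
      ⟨(Dn_bd (PhiT_prof one_pos l' t) k).sub (Dn_bd (PhiT_prof one_pos l t) k),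
        hC2 l l' h h' e hT t ht k (by omega),
        by rw [ds]; exact hC2 l l' h h' e hT t ht _ (by omega),
        by rw [ds, ds]; exact hC2 l l' h h' e hT t ht _ (by omega)⟩
    obtain ⟨p1, p2⟩ := hC l l' h h' e hT t ht
    simp only [e0]
    refine ⟨((d l h hT).mul p1).mono (by linarith), ?_⟩
    have := ((d l' h' (e.trans_le hT)).mul p2).add (d'.mul p1)
    convert this using 1
    · funext x; ring
    · ring

/-- **all monomials**: `Gam = [0,0]`, `G = [1,1]`, `A = [1,1,1]`, `N = [2,2]`, `N4 = [3,3]`,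
`B = [1,2,2]`, `E Φ_xx = [1]` -/
theorem Pd_lip (T : ℝ) (ks : List ℕ) (hk : Even (ks.sum + ks.length)) : ∃ C : ℝ, 1 ≤ C ∧
    ∀ l l' : List (ℝ × ℝ), Adm 1 l → Adm 1 l' → TT l' = TT l → TT l ≤ T → ∀ t ∈ Icc 0 (TT l),
    |EX 1 l' t (Pd ks (PhiT 1 l' t)) 0 - EX 1 l t (Pd ks (PhiT 1 l t)) 0 -
      (Pd ks (PhiT 1 l' t) 0 - Pd ks (PhiT 1 l t) 0)| ≤ C * (Wf l l' t + t * Nf l l' t (TT l)) ∧
    |EX 1 l' t (Pd ks (PhiT 1 l' t)) 0 - EX 1 l t (Pd ks (PhiT 1 l t)) 0| ≤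
      C * (Wf l l' t + Nf l l' t (TT l)) ∧
    ((∃ k ∈ ks, Even k) →
      |EX 1 l' t (Pd ks (PhiT 1 l' t)) 0 - EX 1 l t (Pd ks (PhiT 1 l t)) 0| ≤
        C * (Wf l l' t + t * Nf l l' t (TT l))) := by
  obtain ⟨C1, h1, hC1⟩ := Et_even T
  obtain ⟨C2, h2, hC2⟩ := Pd_b2 T ks
  have hT0 := abs_nonneg T
  have q : 1 ≤ C1 * C2 * (1 + |T|) := one_le_mul_of_one_le_of_one_le
    (one_le_mul_of_one_le_of_one_le h1 h2) (by linarith)
  refine ⟨C1 * C2 * (1 + |T|) * (1 + |T|) + C2, by nlinarith, fun l l' h h' e hT t ht => ?_⟩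
  obtain ⟨p1, p2⟩ := hC2 l l' h h' e hT t ht
  have ev : ∀ l x, Pd ks (PhiT 1 l t) (-x) = Pd ks (PhiT 1 l t) x := fun l x => by
    rw [Pd_neg (PhiT_even l t), hk.neg_one_pow, one_mul]
  have a := hC1 l l' h h' e hT t ht _ _ _ _ p1.bd (hC2 l' l h' h e.symm (e.trans_le hT) t
    (e ▸ ht)).1.bd (ev l) (ev l') p1.b1 p1.b2 p2.b2
  have z := Zf_mem h ht.1
  have m2 := Nf_nonneg l l' ht.2
  have m3 := Wf_nonneg l l' ht.1
  have t0 := ht.1
  have t1 : t ≤ |T| := by linarith [ht.2, le_abs_self T]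
  have hC2' : 0 ≤ C2 := by linarith
  set N := Nf l l' t (TT l)
  set W := Wf l l' t
  have a1 : C1 * (C2 * (W + t * Zf l t * N) + C2 * N * t) ≤ C1 * C2 * (1 + |T|) * (W + t * N) := by
    have r1 : t * Zf l t * N ≤ t * |T| * N := by gcongr; exact z.2.trans t1
    have r2 : W + t * Zf l t * N + N * t ≤ (1 + |T|) * (W + t * N) := by
      nlinarith [mul_nonneg hT0 m3]
    have := mul_le_mul_of_nonneg_left r2 (show 0 ≤ C1 * C2 by positivity)
    linarith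
  have a2 := a.trans a1
  set Q := C1 * C2 * (1 + |T|)
  have w0 : 0 ≤ W + t * N := by positivity
  have a3 := a2.trans (mul_le_mul_of_nonneg_right
    (show Q ≤ Q * (1 + |T|) + C2 by nlinarith) w0)
  refine ⟨a3, ?_, fun ⟨k, k1, k2⟩ => ?_⟩
  · have r1 : W + t * N ≤ (1 + |T|) * (W + N) := by
      nlinarith [mul_le_mul_of_nonneg_right t1 m2, mul_nonneg hT0 m3]
    have r2 := mul_le_mul_of_nonneg_left r1 (show 0 ≤ Q by linarith)
    have b1 := abs_le.1 a2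
    have b2 := abs_le.1 (p2.b0 0)
    have := mul_nonneg hC2' m3
    rw [abs_le]
    constructor <;> linarith [b1.1, b1.2, b2.1, b2.2]
  · rwa [Pd_zero (PhiT_even l t) k1 k2, Pd_zero (PhiT_even l' t) k1 k2, sub_self, sub_zero] at a3

/-- the functionals of `PrDef_28`, sharp form -/
theorem fun_lip (T : ℝ) : ∃ C : ℝ, 1 ≤ C ∧ ∀ l l' : List (ℝ × ℝ), Adm 1 l → Adm 1 l' →
    TT l' = TT l → TT l ≤ T → ∀ t ∈ Icc 0 (TT l),
    |Pr.Gam l' t - Pr.Gam l t| ≤ C * (Wf l l' t + t * Nf l l' t (TT l)) ∧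
    |Pr.GG l' t - Pr.GG l t| ≤ C * (Wf l l' t + Nf l l' t (TT l)) ∧
    |Pr.AA l' t - Pr.AA l t| ≤ C * (Wf l l' t + Nf l l' t (TT l)) ∧
    |Pr.NN l' t - Pr.NN l t| ≤ C * (Wf l l' t + t * Nf l l' t (TT l)) ∧
    |Pr.N4 l' t - Pr.N4 l t| ≤ C * (Wf l l' t + Nf l l' t (TT l)) ∧
    |Pr.BB l' t - Pr.BB l t| ≤ C * (Wf l l' t + t * Nf l l' t (TT l)) := by
  obtain ⟨C1, h1, k1⟩ := Pd_lip T [0, 0] (by decide)
  obtain ⟨C2, h2, k2⟩ := Pd_lip T [1, 1] (by decide)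
  obtain ⟨C3, h3, k3⟩ := Pd_lip T [1, 1, 1] (by decide)
  obtain ⟨C4, h4, k4⟩ := Pd_lip T [2, 2] (by decide)
  obtain ⟨C5, h5, k5⟩ := Pd_lip T [3, 3] (by decide)
  obtain ⟨C6, h6, k6⟩ := Pd_lip T [1, 2, 2] (by decide)
  refine ⟨C1 + C2 + C3 + C4 + C5 + C6, by linarith, fun l l' h h' e hT t ht => ?_⟩
  have m2 := Nf_nonneg l l' ht.2
  have m3 := Wf_nonneg l l' ht.1
  have t0 := ht.1
  have w1 : 0 ≤ Wf l l' t + t * Nf l l' t (TT l) := by positivity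
  have w2 : 0 ≤ Wf l l' t + Nf l l' t (TT l) := by positivity
  have p2 : ∀ k Φ, Pd [k, k] Φ = fun x => Dn k Φ x ^ 2 := fun k Φ => by
    funext x; simp [Pd, sq]
  have p3 : ∀ Φ, Pd [1, 1, 1] Φ = fun x => Dn 1 Φ x ^ 3 := fun Φ => by
    funext x; simp [Pd]; ring
  have p4 : ∀ Φ, Pd [1, 2, 2] Φ = fun x => Dn 1 Φ x * Dn 2 Φ x ^ 2 := fun Φ => by
    funext x; simp [Pd, sq]
  have a1 := (k1 l l' h h' e hT t ht).2.2 ⟨0, by simp, by decide⟩
  have a2 := (k2 l l' h h' e hT t ht).2.1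
  have a3 := (k3 l l' h h' e hT t ht).2.1
  have a4 := (k4 l l' h h' e hT t ht).2.2 ⟨2, by simp, by decide⟩
  have a5 := (k5 l l' h h' e hT t ht).2.1
  have a6 := (k6 l l' h h' e hT t ht).2.2 ⟨2, by simp, by decide⟩
  simp only [p2, p3, p4] at a1 a2 a3 a4 a5 a6
  exact ⟨a1.trans (mul_le_mul_of_nonneg_right (by linarith) w1),
    a2.trans (mul_le_mul_of_nonneg_right (by linarith) w2),
    a3.trans (mul_le_mul_of_nonneg_right (by linarith) w2),
    a4.trans (mul_le_mul_of_nonneg_right (by linarith) w1),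
    a5.trans (mul_le_mul_of_nonneg_right (by linarith) w2),
    a6.trans (mul_le_mul_of_nonneg_right (by linarith) w1)⟩

end

end Crest.Agent.T156.Ker
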