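import Crest.Agent.T156.ClZb_9
import Crest.Agent.T156.HessA_65
import Crest.Agent.T156.Reg_48

/-!
# Row 156 (helper31): the linear location lemma, list level

Monotonicity of the gradient of the one-site functional, read on the labels.
-/

set_option autoImplicit false

noncomputable section

namespace Crest.Agent.T156.Ht31

open MeasureTheory Set
open Crest.Agent.R164.GC Crest.Agent.R339.B Crest.Agent.R339.Var Crest.Agent.T157.Pf
open Crest.Agent.T156.Pp Crest.Agent.T156.Pp.Ode3 Crest.Agent.T156.Pp.Area50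
open Crest.Agent.T156.Spl27 Crest.Agent.T156.Zb9

variable {l l0 l1 : List (ℝ × ℝ)} {T g ε τ : ℝ}

theorem ap (h : okT T l) : AP l := ⟨h.1.1, h.1.2⟩

theorem gam_ii (h : okT T l) {u r : ℝ} (hu : u ∈ Icc 0 T) (hr : r ∈ Icc 0 T) :
    IntervalIntegrable (Gam l) volume u r := ii_of_cont (h.2 ▸ Gam_cont (ap h)) hu hr

theorem gam_inc (h : okT T l) (hg : ∀ t ∈ Icc 0 T, Gp l t ≤ g) {u r : ℝ} (hu : 0 ≤ u) (hur : u ≤ r)
    (hr : r ≤ T) : Gam l r - Gam l u ≤ g * (r - u) := by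
  rw [Gam_int (ap h) hu hur (h.2 ▸ hr)]
  have := intervalIntegral.integral_mono_on hur
    (ii_of_cont (h.2 ▸ Gp_cont (ap h)) ⟨hu, hur.trans hr⟩ ⟨hu.trans hur, hr⟩)
    (intervalIntegrable_const (c := g)) fun t ht => hg t ⟨hu.trans ht.1, ht.2.trans hr⟩
  simpa [mul_comm] using this

theorem int_le (h : okT T l) (hg : ∀ t ∈ Icc 0 T, Gp l t ≤ g) {u r : ℝ} (hu : u ∈ Icc 0 T)
    (hr : r ∈ Icc 0 T) : ∫ t in u..r, Gam l t ≤ (r - u) * Gam l u + g * (r - u) ^ 2 / 2 := by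
  have i2 : ∀ a b, IntervalIntegrable (fun t => Gam l u + g * (t - u)) volume a b := fun a b =>
    (by fun_prop : Continuous fun t => Gam l u + g * (t - u)).intervalIntegrable _ _
  have e : ∫ t in u..r, (Gam l u + g * (t - u)) = (r - u) * Gam l u + g * (r - u) ^ 2 / 2 := by
    rw [intervalIntegral.integral_add intervalIntegrable_const
      ((by fun_prop : Continuous fun t => g * (t - u)).intervalIntegrable _ _),
      intervalIntegral.integral_const_mul, intervalIntegral.integral_comp_sub_right (fun t => t) u,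
      integral_id]
    simp; ring
  rw [← e]
  rcases le_total u r with h1 | h1
  · exact intervalIntegral.integral_mono_on h1 (gam_ii h hu hr) (i2 _ _) fun t ht => by
      linarith [gam_inc h hg hu.1 ht.1 (ht.2.trans hr.2)]
  · rw [intervalIntegral.integral_symm r u, intervalIntegral.integral_symm r u, neg_le_neg_iff]
    exact intervalIntegral.integral_mono_on h1 (i2 _ _) (gam_ii h hr hu) fun t ht => by
      linarith [gam_inc h hg (hr.1.trans ht.1) ht.2 hu.2]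

/-- two lists read on the labels `x`: node times `σ` (exact) and `s` (up to `ε` before `τ`) -/
structure Two (T ε τ : ℝ) (l0 l1 : List (ℝ × ℝ)) (x σ s : ℕ → ℝ) (J : ℕ) : Prop where
  o0 : okT T l0
  o1 : okT T l1
  ux : Up x J
  m1 : ∀ j < J, σ (j + 1) ∈ Icc 0 T
  m0 : ∀ j < J, s (j + 1) ∈ Icc 0 T
  v1 : ∀ t, 0 ≤ t → lvr 1 l1 t = stp x σ J t
  e0 : 0 ≤ ε
  mt : τ ∈ Icc 0 T
  lo : ∀ t, 0 ≤ t → t < τ → |lvr 1 l0 t - stp x s J t| ≤ ε
  hi : ∀ t, τ ≤ t → lvr 1 l0 t = stp x s J t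

namespace Two

variable {x σ s : ℕ → ℝ} {J : ℕ} (H : Two T ε τ l0 l1 x σ s J)
include H

theorem T0 : 0 ≤ T := H.mt.1.trans H.mt.2

theorem ii0 {f : ℝ → ℝ} (hf : ContinuousOn f (Icc 0 T)) {a b : ℝ} (ha : a ∈ Icc 0 T)
    (hb : b ∈ Icc 0 T) :
    IntervalIntegrable (fun t => (lvr 1 l0 t - stp x s J t) * f t) volume a b := by
  simp only [sub_mul]
  exact (ii_lvr_mul H.o0.1.1 hf ha hb).sub (ii_stp x s J (ii_of_cont hf ha hb))

/-- the low part -/
theorem low {f : ℝ → ℝ} (hf : ContinuousOn f (Icc 0 T)) {B : ℝ}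
    (hB : ∀ t ∈ Icc 0 τ, |f t| ≤ B) :
    ∫ t in (0:ℝ)..T, |(lvr 1 l0 t - stp x s J t) * f t| ≤ ε * B * τ := by
  have z : (0:ℝ) ∈ Icc 0 T := ⟨le_rfl, H.T0⟩
  have w : T ∈ Icc 0 T := ⟨H.T0, le_rfl⟩
  rw [← intervalIntegral.integral_add_adjacent_intervals (b := τ) (H.ii0 hf z H.mt).abs
    (H.ii0 hf H.mt w).abs, intervalIntegral.integral_congr_Ioo_of_le H.mt.2 (g := fun _ => 0)
      fun t ht => by simp only [H.hi t ht.1.le, sub_self, zero_mul, abs_zero]]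
  have := intervalIntegral.integral_mono_on_of_le_Ioo H.mt.1 (H.ii0 hf z H.mt).abs
    (intervalIntegrable_const (c := ε * B)) fun t ht => by
      rw [abs_mul]
      exact mul_le_mul (H.lo t ht.1.le ht.2) (hB t ⟨ht.1.le, ht.2.le⟩) (abs_nonneg _) H.e0
  simp only [intervalIntegral.integral_const, smul_eq_mul, sub_zero, mul_zero] at this ⊢
  linarith

/-- **the quadratic form** -/
theorem quad (g0 : ∀ t ∈ Icc 0 T, Gp l0 t ≤ g) (g1 : ∀ t ∈ Icc 0 T, Gp l1 t ≤ g) :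
    ∑ j ∈ Finset.range J, (x (j + 1) - x j) *
      ((σ (j + 1) - s (j + 1)) * (Gam l1 (σ (j + 1)) - Gam l0 (s (j + 1)))) ≤
      g * ∑ j ∈ Finset.range J, (x (j + 1) - x j) * (σ (j + 1) - s (j + 1)) ^ 2 + ε * τ ^ 2 := by
  have z : (0:ℝ) ∈ Icc 0 T := ⟨le_rfl, H.T0⟩
  have w : T ∈ Icc 0 T := ⟨H.T0, le_rfl⟩
  have c0 : ContinuousOn (Gam l0) (Icc 0 T) := H.o0.2 ▸ Gam_cont (ap H.o0)
  have c1 : ContinuousOn (Gam l1) (Icc 0 T) := H.o1.2 ▸ Gam_cont (ap H.o1)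
  have cf : ContinuousOn (fun t => Gam l1 t - Gam l0 t) (Icc 0 T) := c1.sub c0
  have m := Sc48.mon_gen H.o0.1.1 H.o1.1.1 H.o0.2 H.o1.2 le_rfl
  have p : 0 ≤ Real.exp (-14 * T) / 4 * ∫ r in (0:ℝ)..T, Sc48.Jf l0 l1 T r ^ 2 :=
    mul_nonneg (by positivity) (intervalIntegral.integral_nonneg H.T0 fun _ _ => sq_nonneg _)
  simp only [← Hess65.Gam_QQ] at m
  have i : ∀ {f : ℝ → ℝ}, ContinuousOn f (Icc 0 T) →
      IntervalIntegrable (fun t => (lvr 1 l1 t - lvr 1 l0 t) * f t) volume 0 T := fun hf => by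
    simp only [sub_mul]
    exact (ii_lvr_mul H.o1.1.1 hf z w).sub (ii_lvr_mul H.o0.1.1 hf z w)
  rw [← intervalIntegral.integral_sub (i c1) (i c0)] at m
  have a := area x s σ J H.T0 (ii_of_cont cf z w)
  have e : ∫ t in (0:ℝ)..T, (stp x σ J t - stp x s J t) * (Gam l1 t - Gam l0 t) =
      (∫ t in (0:ℝ)..T, ((lvr 1 l1 t - lvr 1 l0 t) * Gam l1 t -
        (lvr 1 l1 t - lvr 1 l0 t) * Gam l0 t)) +
      ∫ t in (0:ℝ)..T, (lvr 1 l0 t - stp x s J t) * (Gam l1 t - Gam l0 t) := by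
    rw [← intervalIntegral.integral_add ((i c1).sub (i c0)) (H.ii0 cf z w)]
    refine intervalIntegral.integral_congr_Ioo_of_le H.T0 fun t ht => ?_
    simp only [H.v1 t ht.1.le]; ring
  have lw := H.low cf (B := τ) fun t ht => by
    have t1 : t ∈ Icc 0 T := ⟨ht.1, ht.2.trans H.mt.2⟩
    have := Gam_le (ap H.o0) (H.o0.2.symm ▸ t1)
    have := Gam_le (ap H.o1) (H.o1.2.symm ▸ t1)
    have := Gam_nonneg l0 t
    have := Gam_nonneg l1 t
    exact abs_le.2 ⟨by linarith [ht.2], by linarith [ht.2]⟩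
  have lw' := (intervalIntegral.abs_integral_le_integral_abs H.T0).trans lw
  have s1 : ∑ j ∈ Finset.range J, (x (j + 1) - x j) *
      ∫ t in cl 0 T (σ (j + 1))..cl 0 T (s (j + 1)), (Gam l1 t - Gam l0 t) ≤
      ∑ j ∈ Finset.range J, ((x (j + 1) - x j) * (g * (σ (j + 1) - s (j + 1)) ^ 2) -
        (x (j + 1) - x j) *
          ((σ (j + 1) - s (j + 1)) * (Gam l1 (σ (j + 1)) - Gam l0 (s (j + 1))))) := by
    refine Finset.sum_le_sum fun j hj => ?_
    have hj' := Finset.mem_range.1 hj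
    have a1 := H.m1 j hj'
    have a0 := H.m0 j hj'
    rw [cl_of_mem a1.1 a1.2, cl_of_mem a0.1 a0.2, ← mul_sub,
      intervalIntegral.integral_sub (gam_ii H.o1 a1 a0) (gam_ii H.o0 a1 a0),
      intervalIntegral.integral_symm (s (j + 1)) (σ (j + 1)) (f := Gam l0)]
    refine mul_le_mul_of_nonneg_left ?_ (sub_nonneg.2 (H.ux j hj'))
    have b1 := int_le H.o1 g1 a1 a0
    have b0 := int_le H.o0 g0 a0 a1
    nlinarith
  rw [Finset.sum_sub_distrib] at s1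
  simp only [mul_left_comm _ g, ← Finset.mul_sum] at s1
  have := (abs_le.1 lw').1
  nlinarith

/-- the area between the two graphs -/
theorem l1_le : ∫ t in (0:ℝ)..T, |lvr 1 l1 t - lvr 1 l0 t| ≤
    ∑ j ∈ Finset.range J, (x (j + 1) - x j) * |σ (j + 1) - s (j + 1)| + ε * τ := by
  have z : (0:ℝ) ∈ Icc 0 T := ⟨le_rfl, H.T0⟩
  have w : T ∈ Icc 0 T := ⟨H.T0, le_rfl⟩
  have lw := H.low (f := fun _ => 1) continuousOn_const (B := 1) fun _ _ => by simp
  have i0 := (H.ii0 (f := fun _ => 1) continuousOn_const z w).abs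
  have i1 := ((ii_stp_one x σ J 0 T).sub (ii_stp_one x s J 0 T)).abs
  have i2 : IntervalIntegrable (fun t => |lvr 1 l1 t - lvr 1 l0 t|) volume 0 T := by
    simpa using ((ii_lvr_mul H.o1.1.1 (f := fun _ => 1) continuousOn_const z w).sub
      (ii_lvr_mul H.o0.1.1 (f := fun _ => 1) continuousOn_const z w)).abs
  have := intervalIntegral.integral_mono_on H.T0 i2 (i1.add i0) fun t ht => by
    rw [H.v1 t ht.1, mul_one, abs_sub_comm (lvr 1 l0 t)]
    exact abs_sub_le _ _ _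
  rw [intervalIntegral.integral_add i1 i0] at this
  linarith [area_L1' s σ H.ux H.T0]

end Two

/-- `G` does not increase on the levels of tilt one -/
theorem gp_top (h : okT T l) {t0 t : ℝ} (h0 : 0 ≤ t0) (ht : t0 ≤ t) (hT : t ≤ T)
    (top : ∀ r, t0 ≤ r → lvr 1 l r = 1) : Gp l t ≤ Gp l t0 := by
  obtain ⟨u0, c, hu, hc, H⟩ := Pr.Reg48.Gd_neg T
  exact Pr.Reg48.le_of_rder (B := fun _ => Gp l t0) (B' := fun _ => 0) ht
    ((Gp_cont (ap h)).mono (Icc_subset_Icc h0 (h.2 ▸ hT)))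
    (fun r hr => Gp_rder (ap h) (h0.trans hr.1) (h.2 ▸ hr.2.trans_le hT)) le_rfl
    (fun _ => hasDerivAt_const _ _) fun r hr => by
      have := H l h.1 h.2.le r (h0.trans hr.1) (h.2 ▸ hr.2.trans_le hT)
        (by rw [top r hr.1]; linarith)
      exact le_trans this (by linarith)

/-- transfer of a bound on `G` -/
theorem gp_lip (T0 : ℝ) : ∃ C : ℝ, 1 ≤ C ∧ ∀ (T : ℝ) (l0 l1 : List (ℝ × ℝ)), okT T l0 → okT T l1 →
    T ≤ T0 → ∀ t ∈ Icc 0 T, Gp l1 t ≤ Gp l0 t + C * ∫ r in (0:ℝ)..T, |lvr 1 l1 r - lvr 1 l0 r| := by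
  obtain ⟨C, h1, hC⟩ := Ker.fun_lip T0
  refine ⟨C * (1 + |T0|), one_le_mul_of_one_le_of_one_le h1 (by linarith [abs_nonneg T0]),
    fun T l0 l1 o0 o1 hT t ht => ?_⟩
  have a := (hC l0 l1 o0.1.1 o1.1.1 (o1.2.trans o0.2.symm) (o0.2.le.trans hT) t (o0.2.symm ▸ ht)).2.1
  rw [o0.2] at a
  have z : (0:ℝ) ∈ Icc 0 T := ⟨le_rfl, ht.1.trans ht.2⟩
  have w : T ∈ Icc 0 T := ⟨z.2, le_rfl⟩
  have i : ∀ {a b : ℝ}, a ∈ Icc 0 T → b ∈ Icc 0 T →
      IntervalIntegrable (fun r => |lvr 1 l1 r - lvr 1 l0 r|) volume a b := fun ha hb => by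
    simpa using ((ii_lvr_mul o1.1.1 (f := fun _ => 1) continuousOn_const ha hb).sub
      (ii_lvr_mul o0.1.1 (f := fun _ => 1) continuousOn_const ha hb)).abs
  have n1 : 0 ≤ ∫ r in (0:ℝ)..t, |lvr 1 l1 r - lvr 1 l0 r| :=
    intervalIntegral.integral_nonneg ht.1 fun _ _ => abs_nonneg _
  have n2 : 0 ≤ ∫ r in t..T, |lvr 1 l1 r - lvr 1 l0 r| :=
    intervalIntegral.integral_nonneg ht.2 fun _ _ => abs_nonneg _
  have b : Ker.Wf l0 l1 t ≤ |T0| * ∫ r in (0:ℝ)..t, |lvr 1 l1 r - lvr 1 l0 r| := by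
    rw [← intervalIntegral.integral_const_mul]
    refine intervalIntegral.integral_mono_on ht.1
      ((i z ht).continuousOn_mul (by fun_prop)) ((i z ht).const_mul _) fun r hr => ?_
    exact mul_le_mul_of_nonneg_right ((hr.2.trans ht.2).trans (hT.trans (le_abs_self _)))
      (abs_nonneg _)
  rw [← intervalIntegral.integral_add_adjacent_intervals (i z ht) (i ht w)]
  have c := (abs_le.1 a).2
  unfold Ker.Nf at c
  change Gp l1 t - Gp l0 t ≤ _ at c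
  have d : Ker.Wf l0 l1 t + ∫ r in t..T, |lvr 1 l1 r - lvr 1 l0 r| ≤ (1 + |T0|) *
      ((∫ r in (0:ℝ)..t, |lvr 1 l1 r - lvr 1 l0 r|) + ∫ r in t..T, |lvr 1 l1 r - lvr 1 l0 r|) := by
    nlinarith [abs_nonneg T0]
  have := mul_le_mul_of_nonneg_left d (show 0 ≤ C by linarith)
  linarith

/-- the algebra at one node -/
theorem node_alg {D d G r b c γ e : ℝ} (hc : 0 < c) (hcd : c ≤ d) (hdb : d ≤ b) (hγ : 0 < γ)
    (he : D = d * e + G) : γ / (2 * b) * D ^ 2 - b / γ * (r ^ 2 + G ^ 2 / c ^ 2) ≤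
      D * (e + r) - (1 - γ) / b * D ^ 2 := by
  have d0 : 0 < d := hc.trans_le hcd
  have b0 : 0 < b := d0.trans_le hdb
  have e1 : e = (D - G) / d := by rw [he]; field_simp; ring
  have h1 : D ^ 2 / b ≤ D ^ 2 / d := div_le_div_of_nonneg_left (sq_nonneg _) d0 hdb
  have h2 : G ^ 2 / d ^ 2 ≤ G ^ 2 / c ^ 2 :=
    div_le_div_of_nonneg_left (sq_nonneg _) (by positivity) (by gcongr)
  have h3 : D * (e + r) = D ^ 2 / d + D * (r - G / d) := by rw [e1]; field_simp; ring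
  have h4 : -(D * (r - G / d)) ≤ γ / (2 * b) * D ^ 2 + b / (2 * γ) * (r - G / d) ^ 2 := by
    have : γ / (2 * b) * D ^ 2 + b / (2 * γ) * (r - G / d) ^ 2 + D * (r - G / d) =
        (γ * D + b * (r - G / d)) ^ 2 / (2 * b * γ) := by field_simp; ring
    have : 0 ≤ (γ * D + b * (r - G / d)) ^ 2 / (2 * b * γ) := by positivity
    linarith
  have h5 : (r - G / d) ^ 2 ≤ 2 * (r ^ 2 + G ^ 2 / c ^ 2) := by
    have : (G / d) ^ 2 = G ^ 2 / d ^ 2 := div_pow _ _ _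
    nlinarith [sq_nonneg (r + G / d)]
  have h6 := mul_le_mul_of_nonneg_left h5 (show 0 ≤ b / (2 * γ) by positivity)
  have h7 : b / (2 * γ) * (2 * (r ^ 2 + G ^ 2 / c ^ 2)) = b / γ * (r ^ 2 + G ^ 2 / c ^ 2) := by
    field_simp
  have h8 : (1 - γ) / b * D ^ 2 = D ^ 2 / b - 2 * (γ / (2 * b) * D ^ 2) := by field_simp
  linarith

end Crest.Agent.T156.Ht31

end
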