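import Crest.Agent.T156.HtA_31
import Crest.Agent.T156.MdOne_67
import Crest.Agent.T156.Ea_38

/-!
# Row 156 (helper31): LIN, the linear location lemma on the abstract models
-/

set_option autoImplicit false
set_option linter.unusedSectionVars false

noncomputable section

namespace Crest.Agent.T156.Alt.Ht31

open MeasureTheory Set
open Crest.Agent.T157.E Crest.Agent.T157.Casc
open Crest.Agent.T157.G1 (ov)
open Crest.Agent.R164.GC Crest.Agent.R339.B Crest.Agent.R339.Var Crest.Agent.T157.Pf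
open Crest.Agent.T156.Pp.Area50 Crest.Agent.T156.Spl27 Crest.Agent.T156.Zb9
open Crest.Agent.T156.Cas Crest.Agent.T156.Ht31
open Crest.Agent.T156.Alt.Md67 Crest.Agent.T156.Alt.Mp9
open Crest.Agent.T156.Pp.Ode3 (Gam Gp)

/-- the reference list and the labels -/
structure Rg (M : Md) (j0 Jp : ℕ) : Prop where
  i0 : j0 ≤ Jp
  i4 : Jp < M.N
  low : ∀ k ≤ j0, M.z k = M.z j0
  top : ∀ k, Jp ≤ k → M.z k = 1
  ok : Pr.Ok M.lr
  s0 : M.s 0 = 0
  sm : Monotone M.s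
  sT : M.s Jp ≤ TT M.lr
  lv : ∀ k, j0 ≤ k → ∀ t, M.s k ≤ t → t < M.s (k + 1) → lvr 1 M.lr t = M.z k
  lv1 : ∀ t, M.s Jp ≤ t → lvr 1 M.lr t = 1
  lo : ∀ t, t < M.s j0 → lvr 1 M.lr t ≤ M.z j0

variable {S : Sc} {M N : Md} {m j0 Jp : ℕ} {a T : ℝ}

theorem rg_cl (h : Cl S M) : Rg M S.j0 S.Jp := by
  have := h.i1; have := h.i2; have := h.i3
  refine ⟨by omega, h.i4, h.low, h.top, h.ok, h.s0, h.sm, s_tt h, h.lv, h.lv1, fun t ht => ?_⟩
  rw [← h.lv S.j0 le_rfl _ le_rfl (s_lt h (by omega))]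
  exact Sc48.lvr_mono h.ok.1 ht.le

theorem Rg.congr (h : Rg M j0 Jp) (e1 : N.N = M.N) (e2 : N.z = M.z) (e3 : N.lr = M.lr)
    (e4 : N.s = M.s) : Rg N j0 Jp := by
  obtain ⟨a1, a2, a3, a4, a5, a6, a7, a8, a9, a10, a11⟩ := h
  constructor <;> (try simp only [e1, e2, e3, e4]) <;> assumption

/-- `Φ` -/
def Ph (M : Md) (m : ℕ) (a : ℝ) (j0 Jp : ℕ) : ℝ :=
  ∑ k ∈ Finset.Ioc j0 Jp, M.dz m a k * M.del m a k ^ 2
/-- `|G|₂²` -/
def G2 (M : Md) (m : ℕ) (a : ℝ) (j0 Jp : ℕ) : ℝ :=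
  ∑ k ∈ Finset.Ioc j0 Jp, M.dz m a k * M.G k ^ 2
/-- central moments -/
def Vp (M : Md) (m : ℕ) (a : ℝ) (p : ℕ) : ℝ :=
  ∑ k ∈ Finset.range M.N, M.dz m a k * M.E2 m a (fun r => (r - M.rb m a k) ^ p) k
/-- the root term -/
def lw (M : Md) (j0 : ℕ) : ℝ := M.z j0 * M.s j0 ^ 2
/-- the right side -/
def Rh (M : Md) (m : ℕ) (a : ℝ) (j0 Jp p : ℕ) : ℝ :=
  Vp M m a p + G2 M m a j0 Jp + lw M j0 + 1 / (m : ℝ) ^ 2

/-- the site list of the one path -/
abbrev lV (M : Md) (m : ℕ) (a : ℝ) : List (ℝ × ℝ) := opV m 1 (M.Mx a) (qx M (M.rb m a))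
/-- merged reference times -/
def sj (M : Md) (j0 : ℕ) : ℕ → ℝ
  | 0 => 0
  | k + 1 => M.s (max k j0)

theorem xb_sub (h : M.Leg a) (m : ℕ) : ∀ k, xb M a (k + 1) - xb M a k = M.dz m a k
  | 0 => (dz_zero h).symm
  | k + 1 => (dz_succ h k).symm

theorem sb_tp (k : ℕ) : sb M m a (k + 1) = tp M m k * M.rb m a k + M.H k := by
  simp only [sb, tp, kp]; ring

theorem cs (G : Lg M m a) {s : Finset ℕ} (hs : s ⊆ Finset.range (M.N + 1)) (f : ℕ → ℝ) :
    (∑ k ∈ s, M.dz m a k * f k) ^ 2 ≤ ∑ k ∈ s, M.dz m a k * f k ^ 2 := by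
  have h1 := Finset.sum_sq_le_sum_mul_sum_of_sq_le_mul s (r := fun k => M.dz m a k * f k)
    (f := M.dz m a) (g := fun k => M.dz m a k * f k ^ 2) (fun k _ => G.dz_nonneg k)
    (fun k _ => mul_nonneg (G.dz_nonneg k) (sq_nonneg _)) fun k _ => le_of_eq (by ring)
  have h2 : ∑ k ∈ s, M.dz m a k ≤ 1 := (Finset.sum_le_sum_of_subset_of_nonneg hs
    fun k _ _ => G.dz_nonneg k).trans (by rw [sum_dz_all]; linarith [G.a0])
  exact h1.trans (mul_le_of_le_one_left (Finset.sum_nonneg fun k _ =>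
    mul_nonneg (G.dz_nonneg k) (sq_nonneg _)) h2)

theorem mass (G : Lg M m a) {s : Finset ℕ} (hs : s ⊆ Finset.range (M.N + 1)) {c : ℝ} (hc : 0 ≤ c) :
    ∑ k ∈ s, M.dz m a k * c ≤ c := by
  rw [← Finset.sum_mul]
  exact mul_le_of_le_one_left hc ((Finset.sum_le_sum_of_subset_of_nonneg hs
    fun k _ _ => G.dz_nonneg k).trans (by rw [sum_dz_all]; linarith [G.a0]))

theorem E4_nn (k : ℕ) : 0 ≤ M.E2 m a (fun r => (r - M.rb m a k) ^ 4) k :=
  E2_nonneg (fun _ _ => by positivity) k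

theorem V4_nn (G : Lg M m a) : 0 ≤ Vp M m a 4 :=
  Finset.sum_nonneg fun k _ => mul_nonneg (G.dz_nonneg k) (E4_nn k)

theorem V4_le (G : Lg M m a) : Vp M m a 4 ≤ 4 * Vp M m a 2 := by
  rw [Vp, Vp, Finset.mul_sum]
  refine Finset.sum_le_sum fun k _ => ?_
  rw [mul_left_comm, ← E2_mul 4]
  refine mul_le_mul_of_nonneg_left (E2_mono (fun r hr => ?_) k) (G.dz_nonneg k)
  have h1 := rb_nonneg (M := M) (a := a) G.m0 k
  have h2 := rb_le_one (M := M) (a := a) G.m0 k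
  have h3 : (r - M.rb m a k) ^ 2 ≤ 4 := by nlinarith [abs_le.1 hr]
  nlinarith [sq_nonneg (r - M.rb m a k)]

/-- **(E1c)** in `L²` -/
theorem res_sq (tb : ℝ) : ∃ C : ℝ, 0 ≤ C ∧ ∀ (M : Md) (m : ℕ) (a : ℝ), Lg M m a → Top M →
    0 < M.d 0 → M.b ≤ tb → ∑ k ∈ Finset.range M.N, M.dz m a k *
      (Gam (lV M m a) (sb M m a (k + 1)) - M.rb m a k) ^ 2 ≤ C * Vp M m a 4 := by
  set K := 4 * cOp tb 2 1 2 + 2 * cOp tb 1 1 2 with hK
  refine ⟨4 * K ^ 2, by positivity, fun M m a G ht d0 hb => ?_⟩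
  have rf := rf_rb (M := M) G.m0 a
  have ok : OOk (M.Mx a) (qx M (M.rb m a)) := rf.ook G.toLeg
  set m4 : ℕ → ℝ := fun y => pi2 (fun _ => 1) (M.L m a) y
    (fun x x' => oU (qx M (M.rb m a)) y x x' ^ 4) 0 with hm4
  have n4 : ∀ y, 0 ≤ m4 y := fun y => pi2_nonneg Link33.wt1 _ _ (fun _ _ => by positivity) _
  have e4 : ∀ k < M.N, m4 (k + 1) = M.E2 m a (fun r => (r - M.rb m a k) ^ 4) k := fun k hk => by
    simp only [hm4, oU_succ hk]; rfl
  have q01 : ∀ y, 0 ≤ qx M (M.rb m a) y ∧ qx M (M.rb m a) y ≤ 1 := fun y => by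
    rcases y with _ | k
    · exact ⟨le_rfl, zero_le_one⟩
    · rcases lt_or_ge k M.N with h | h
      · rw [qx_succ h]; exact ⟨rb_nonneg G.m0 k, rb_le_one G.m0 k⟩
      · rw [qx_top h]; exact ⟨zero_le_one, le_rfl⟩
  set u : ℕ → ℝ := fun y => if y = 0 then 0 else √(√(m4 y)) with hu
  have u2 : ∀ k, u (k + 1) ^ 2 = √(m4 (k + 1)) := fun k => by
    simp only [hu, Nat.succ_ne_zero, if_false]; exact Real.sq_sqrt (Real.sqrt_nonneg _)
  have u4 : ∀ k, (u (k + 1) ^ 2) ^ 2 = m4 (k + 1) := fun k => by rw [u2, Real.sq_sqrt (n4 _)]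
  have H : Ea38.Hy m 1 (M.Mx a) (qx M (M.rb m a)) u
      (fun y => |Ker15.tm (opS m 1 (M.Mx a) (qx M (M.rb m a))) y| + 1) tb := by
    refine ⟨G.m0, ok, G.monoL, (oTau_le G.toLeg _).trans hb, fun y => ?_, fun y => ?_,
      fun y _ hy => ?_, fun y h1 hy => ?_, by rw [len_Mx]; exact dz_last G.toLeg ht,
      Ker15.r1_of (C.forall₂_sl _ (opV_nn ok)), fun y => by positivity,
      fun y => by linarith [le_abs_self (Ker15.tm (opS m 1 (M.Mx a) (qx M (M.rb m a))) y)]⟩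
    · simp only [hu]; split_ifs; exacts [le_rfl, Real.sqrt_nonneg _]
    · simp only [hu]; split_ifs
      · norm_num
      · refine Real.sqrt_le_iff.2 ⟨by norm_num, Real.sqrt_le_iff.2 ⟨by norm_num, ?_⟩⟩
        refine (T157.Casc.pi2_mono Link33.wt1 _ _ (K' := fun _ _ => (2 ^ 2) ^ 2)
          (fun x x' => ?_) _).trans_eq (pi2_const Link33.wt1 _ _ _ _)
        have h3 : oU (qx M (M.rb m a)) y x x' ^ 2 ≤ 2 ^ 2 := by
          have := abs_le.1 (T157.G1.abs_ov_le x x')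
          unfold oU; nlinarith [q01 y]
        calc _ = (oU (qx M (M.rb m a)) y x x' ^ 2) ^ 2 := by ring
          _ ≤ _ := by gcongr
    · rcases y with _ | k
      · exact absurd oTau_zero hy
      · exact (u4 k).ge.trans_eq (by ring)
    · rcases y with _ | k
      · exact absurd oTau_zero hy
      · rw [len_Mx] at h1
        have hk : k < M.N := by omega
        have := E2_sub (M := M) (m := m) (a := a) id (fun _ => M.rb m a k) k
        rw [E2_const, ← Md.rb, sub_self] at this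
        rw [show oU (qx M (M.rb m a)) (k + 1) = fun x x' : Cube m => ov x x' - M.rb m a k from
          funext fun x => funext (oU_succ hk x)]
        exact this
  set A := ∑ k ∈ Finset.range M.N, M.dz m a k * u (k + 1) ^ 2 with hA
  have sub : Finset.range M.N ⊆ Finset.range (M.N + 1) := Finset.range_mono (Nat.le_succ _)
  have V : ∑ k ∈ Finset.range M.N, M.dz m a k * (u (k + 1) ^ 2) ^ 2 = Vp M m a 4 :=
    Finset.sum_congr rfl fun k hk => by rw [u4, e4 k (Finset.mem_range.1 hk)]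
  have A2 : A ^ 2 ≤ Vp M m a 4 := V ▸ cs G sub _
  have key : ∀ k < M.N, (Gam (lV M m a) (sb M m a (k + 1)) - M.rb m a k) ^ 2 ≤
      2 * K ^ 2 * (A ^ 2 + (u (k + 1) ^ 2) ^ 2) := fun k hk => by
    have t0 : oTau m 1 (M.Mx a) (k + 1) ≠ 0 := by
      rw [oTau_tp hk.le, tp]
      have := d0.trans_le (G.dm (Nat.zero_le k))
      have := G.m0
      positivity
    have h1 := H.e1c (j := k + 1) (by rw [len_Mx]; omega) t0
    have h2 : Ws38.I (Ea38.bL m 1 (M.Mx a)) (k + 1) (fun y => u y ^ 2) = A + u (k + 1) ^ 2 := by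
      rw [Ws38.I, Ea38.len]
      congr 1
      refine (sum_top G.toLeg ht fun y => u y ^ 2).trans ?_
      simp [hu, hA]
    have h3 : E38.rj m 1 (M.Mx a) (qx M (M.rb m a)) (k + 1) =
        Gam (lV M m a) (sb M m a (k + 1)) - M.rb m a k := by
      rw [E38.rj, show oE (qx M (M.rb m a)) (k + 1) = fun e e' => _ from
        funext fun e => funext (oE_succ hk e), pi2_sub One15.w1, pi2_const One15.w1,
        Gam_Mx G.toLeg rf hk, sb_tp]
      rfl
    rw [h2, h3, ← hK] at h1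
    have h4 := pow_le_pow_left₀ (abs_nonneg _) h1 2
    rw [sq_abs] at h4
    nlinarith [mul_nonneg (sq_nonneg K) (sq_nonneg (A - u (k + 1) ^ 2))]
  refine (Finset.sum_le_sum fun k hk => mul_le_mul_of_nonneg_left (key k (Finset.mem_range.1 hk))
    (G.dz_nonneg k)).trans ?_
  simp only [mul_left_comm _ (2 * K ^ 2), mul_add, Finset.sum_add_distrib, ← Finset.mul_sum, V]
  have := mass G sub (sq_nonneg A)
  nlinarith [sq_nonneg K]

namespace Rg

variable (R : Rg M j0 Jp) (G : Lg M m a)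
include R

theorem tp' : Top M := ⟨(Nat.zero_le _).trans_lt R.i4, R.top _ (by have := R.i4; omega)⟩

theorem s_nn (k : ℕ) : 0 ≤ M.s k := R.s0 ▸ R.sm (Nat.zero_le k)

theorem sj_mono : Monotone (sj M j0) := monotone_nat_of_le_succ fun
  | 0 => R.s_nn _
  | k + 1 => R.sm (max_le_max_right _ (Nat.le_succ k))

theorem spec0 (hT : M.s Jp ≤ T) : okT T (cutT M.lr T) ∧
    (∀ t, 0 ≤ t → lvr 1 (cutT M.lr T) t = lvr 1 M.lr t) ∧
      Ker.Same M.lr (cutT M.lr T) (min (TT M.lr) T) :=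
  cutT_spec R.ok.1 (R.s_nn _) R.sT hT R.lv1

include G

theorem xb_mono : Monotone (xb M a) := monotone_nat_of_le_succ fun
  | 0 => G.z0
  | k + 1 => G.zm (Nat.le_succ k)

theorem sb_mono : Monotone (sb M m a) := monotone_nat_of_le_succ fun
  | 0 => by
    rw [sb_tp, G.H0, add_zero]
    exact mul_nonneg (tp_mem G.toLeg 0).1 (rb_nonneg G.m0 0)
  | k + 1 => by
    rw [sb_tp, sb_tp]
    exact add_le_add (mul_le_mul (tp_mono G.toLeg (Nat.le_succ k))
      (Md67.rb_mono G.m0 (Nat.le_succ k)) (rb_nonneg G.m0 k) (tp_mem G.toLeg _).1)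
      (G.Hm (Nat.le_succ k))

theorem lvV (_ha : 0 < a) : sb M m a (Jp + 1) ≤ TT (lV M m a) ∧
    ∀ t, lvr 1 (lV M m a) t = stp (xb M a) (sb M m a) (Jp + 1) t := by
  have i4 := R.i4
  set σ : ℕ → ℝ := fun j => oTau m 1 (M.Mx a) j * qx M (M.rb m a) j + fAcc (M.Mx a) j with hσ
  have e0 : σ 0 = 0 := by simp [hσ, oTau, dAcc, fAcc]
  have e2 : ∀ k ≤ Jp + 1, σ k = sb M m a k := fun k hk => by
    cases k with
    | zero => exact e0
    | succ k =>
      simp only [hσ]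
      rw [oTau_tp (by omega), qx_succ (by omega), fAcc_Mx G.toLeg (by omega), sb_tp]
  have e := opV_eq m 1 (M.Mx a) (qx M (M.rb m a)) (x := xb M a) (Mx_tilt M a)
  rw [Mx_len] at e
  have us : Up σ (M.N + 1) := fun j hj => by
    have := opV_nn (n := m) (β := 1) ((rf_rb G.m0 a).ook (a := a) G.toLeg)
      (xb M a j, σ (j + 1) - σ j) (by rw [e, lsg, List.mem_ofFn]; exact ⟨⟨j, hj⟩, rfl⟩)
    exact sub_nonneg.1 this
  have top : ∀ k, Jp + 1 ≤ k → k ≤ M.N + 1 → xb M a k = 1 := fun k h1 _ => by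
    obtain ⟨k, rfl⟩ : ∃ j, k = j + 1 := ⟨k - 1, by omega⟩
    exact R.top k (by omega)
  refine ⟨?_, fun t => ?_⟩
  · rw [lV, e, TT_lsg, ← e2 _ le_rfl]
    change σ (Jp + 1) ≤ σ (M.N + 1) - σ 0
    rw [e0, sub_zero]
    exact us.le (by omega) le_rfl
  · rw [lV, e, lvr_lsg (top _ (by omega) le_rfl) us e0,
      stp_ext (J := Jp + 1) (by omega) fun k h1 h2 => by rw [top k h1 h2, top _ le_rfl (by omega)],
      stp_congr (fun _ _ => rfl) fun k _ hk => e2 k hk]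

theorem spec1 (ha : 0 < a) (hT : sb M m a (Jp + 1) ≤ T) : okT T (cutT (lV M m a) T) ∧
    (∀ t, 0 ≤ t → lvr 1 (cutT (lV M m a) T) t = lvr 1 (lV M m a) t) ∧
      Ker.Same (lV M m a) (cutT (lV M m a) T) (min (TT (lV M m a)) T) :=
  cutT_spec (adm_Mx G ha (rf_rb G.m0 a)) (R.sb_mono G (Nat.zero_le _)) (R.lvV G ha).1 hT
    fun t ht => by
      rw [(R.lvV G ha).2, stp_eq (up_of_mono (R.sb_mono G) _) le_rfl (fun _ => ht)
        fun h => absurd h (lt_irrefl _)]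
      exact R.top _ le_rfl

theorem two (ha : 0 < a) (h1 : sb M m a (Jp + 1) ≤ T) (h0 : M.s Jp ≤ T) :
    Two T (M.z j0) (M.s j0) (cutT M.lr T) (cutT (lV M m a) T) (xb M a) (sb M m a) (sj M j0)
      (Jp + 1) := by
  have us := up_of_mono R.sj_mono (Jp + 1)
  have i0 := R.i0
  refine ⟨(R.spec0 h0).1, (R.spec1 G ha h1).1, up_of_mono (R.xb_mono G) _,
    fun j hj => ⟨R.sb_mono G (Nat.zero_le _), (R.sb_mono G hj).trans h1⟩,
    fun j hj => ⟨R.s_nn _, (R.sm (max_le (by omega) i0)).trans h0⟩,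
    fun t ht => by rw [(R.spec1 G ha h1).2.1 t ht, (R.lvV G ha).2], G.z_nonneg _,
    ⟨R.s_nn _, (R.sm i0).trans h0⟩, fun t t0 ht => ?_, fun t ht => ?_⟩
  · rw [(R.spec0 h0).2.1 t t0, stp_eq us (Nat.zero_le _) (fun h => absurd h (lt_irrefl _))
      fun _ => by simpa [sj] using ht]
    have := R.lo t ht
    have := Sc48.lvr_pos R.ok.1 t
    have := G.z0.trans (G.zm (Nat.zero_le j0))
    exact abs_le.2 ⟨by simp only [xb]; linarith, by simp only [xb]; linarith⟩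
  · obtain ⟨k, ck⟩ := exists_Cell us t
    have k1 : j0 + 1 ≤ k := ck.ge us (by omega) (by simpa [sj] using ht)
    obtain ⟨k, rfl⟩ : ∃ j, k = j + 1 := ⟨k - 1, by omega⟩
    have h2 := ck.2.1 (Nat.succ_pos k)
    simp only [sj, max_eq_left (show j0 ≤ k by omega)] at h2
    rw [ck.stp us, (R.spec0 h0).2.1 t ((R.s_nn _).trans ht)]
    rcases (Nat.le_of_succ_le_succ ck.1).eq_or_lt with rfl | h
    · rw [R.lv1 t h2]; exact (R.top _ le_rfl).symm
    · have h3 := ck.2.2 (by omega)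
      simp only [sj, max_eq_left (show j0 ≤ k + 1 by omega)] at h3
      exact R.lv k (by omega) t h2 h3

/-- sums over the nodes: the root node and the nodes above `j0` -/
theorem split (f : ℕ → ℝ) : ∑ k ∈ Finset.range (Jp + 1), M.dz m a k * f k =
    M.dz m a 0 * f 0 + ∑ k ∈ Finset.Ioc j0 Jp, M.dz m a k * f k := by
  have i0 := R.i0
  rw [Finset.range_eq_Ico, ← Finset.sum_Ico_consecutive _ (Nat.zero_le (j0 + 1)) (by omega),
    Finset.Ico_add_one_add_one_eq_Ioc, ← Finset.range_eq_Ico, Finset.sum_range_succ',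
    Finset.sum_eq_zero fun k hk => by
      have := Finset.mem_range.1 hk
      rw [dz_succ G.toLeg, R.low k this.le, R.low (k + 1) this, sub_self, zero_mul], zero_add]

theorem dz0 : M.dz m a 0 ≤ M.z j0 := by
  rw [dz_zero G.toLeg, R.low 0 (Nat.zero_le _)]; linarith [G.a0]

theorem sub1 : Finset.range (Jp + 1) ⊆ Finset.range M.N := Finset.range_mono R.i4

theorem sub2 : Finset.range (Jp + 1) ⊆ Finset.range (M.N + 1) :=
  Finset.range_mono (Nat.succ_le_succ R.i4.le)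

theorem sub3 : Finset.Ioc j0 Jp ⊆ Finset.range (M.N + 1) := fun k hk => by
  have := (Finset.mem_Ioc.1 hk).2; have := R.i4
  exact Finset.mem_range.2 (by omega)

theorem tail {k : ℕ} (hk : k ≤ M.N) : |M.d k * M.rb m a k / (m + 1)| ≤ M.b / m := by
  have h1 := d_nonneg G.toLeg k
  have h2 := d_le_b G.toLeg hk
  have h3 := rb_nonneg (M := M) (a := a) G.m0 k
  have h4 := rb_le_one (M := M) (a := a) G.m0 k
  have h5 : (0:ℝ) < m := by exact_mod_cast G.m0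
  rw [abs_of_nonneg (by positivity)]
  exact div_le_div₀ (h1.trans h2) (by nlinarith) h5 (by linarith)

end Rg

/-- merged residual -/
def Gj (M : Md) (j0 k : ℕ) : ℝ := M.d k * M.q (max k j0) + M.H k - M.s (max k j0)

theorem Gj_hi {k : ℕ} (hk : j0 ≤ k) : Gj M j0 k = M.G k := by rw [Gj, max_eq_left hk]; rfl

theorem D_eq (k : ℕ) : sb M m a (k + 1) - sj M j0 (k + 1) =
    M.d k * (M.rb m a k - M.q (max k j0)) + (Gj M j0 k - M.d k * M.rb m a k / (m + 1)) := by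
  simp only [sb, sj, Gj, kp_eq]; ring

theorem G2_nn (G : Lg M m a) : 0 ≤ G2 M m a j0 Jp :=
  Finset.sum_nonneg fun k _ => mul_nonneg (G.dz_nonneg k) (sq_nonneg _)

theorem lw_nn (G : Lg M m a) : 0 ≤ lw M j0 := mul_nonneg (G.z_nonneg _) (sq_nonneg _)

theorem Rg.Gj_zero (R : Rg M j0 Jp) (G : Lg M m a) : |Gj M j0 0| ≤ (M.b + 1) * M.s j0 := by
  have s0 := R.s_nn j0
  have h1 : M.q j0 ≤ M.s j0 :=
    Pp.Ode3.Gam_le (.of_ok R.ok) ⟨s0, (R.sm R.i0).trans R.sT⟩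
  have h2 := q_nonneg (M := M) j0
  have h3 := d_le_b G.toLeg (Nat.zero_le M.N)
  have h4 := G.d0
  rw [Gj, Nat.zero_max, G.H0, add_zero]
  exact abs_le.2 ⟨by nlinarith, by nlinarith⟩

/-- **the core**: a bound on `G` along both lists -/
theorem core (tb : ℝ) : ∃ C : ℝ, 0 ≤ C ∧ ∀ (M : Md) (m j0 Jp : ℕ) (a c γ g T : ℝ), Lg M m a →
    0 < a → Rg M j0 Jp → 0 < c → c ≤ M.d 0 → c ≤ 1 → M.b ≤ tb → 0 < γ → γ ≤ 1 →
    sb M m a (Jp + 1) ≤ T → M.s Jp ≤ T → (∀ t ∈ Icc 0 T, Gp (cutT M.lr T) t ≤ g) →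
    (∀ t ∈ Icc 0 T, Gp (cutT (lV M m a) T) t ≤ g) → M.b * g ≤ 1 - γ →
    Ph M m a j0 Jp ≤ C / (γ ^ 2 * c ^ 4) * Rh M m a j0 Jp 4 := by
  obtain ⟨K, K0, hK⟩ := res_sq tb
  refine ⟨4 * tb ^ 2 * K + (4 * tb ^ 2 + 2) * (2 * (|tb| + 1) ^ 2) + 4 * |tb|, by positivity,
    fun M m j0 Jp a c γ g T G ha R c0 cd c1 hb γ0 γ1 h1 h0 g0 g1 hg => ?_⟩
  have b0 : 0 < M.b := (c0.trans_le cd).trans_le (d_le_b G.toLeg (Nat.zero_le _))
  have t0 : 0 < tb := b0.trans_le hb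
  rw [abs_of_pos t0]
  have i4 := R.i4
  have i0 := R.i0
  have q := (R.two G ha h1 h0).quad g0 g1
  simp only [xb_sub G.toLeg m] at q
  set D : ℕ → ℝ := fun k => sb M m a (k + 1) - sj M j0 (k + 1) with hD
  set e : ℕ → ℝ := fun k => M.rb m a k - M.q (max k j0) with he
  set r : ℕ → ℝ := fun k => Gam (lV M m a) (sb M m a (k + 1)) - M.rb m a k with hr
  set F : ℕ → ℝ := fun k => Gj M j0 k - M.d k * M.rb m a k / (m + 1) with hF
  have eq : ∀ k ∈ Finset.range (Jp + 1), Gam (cutT (lV M m a) T) (sb M m a (k + 1)) -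
      Gam (cutT M.lr T) (sj M j0 (k + 1)) = e k + r k := fun k hk => by
    have hk' := Finset.mem_range.1 hk
    have a1 := R.sb_mono G (show k + 1 ≤ Jp + 1 from hk')
    have a0 : M.s (max k j0) ≤ M.s Jp := R.sm (max_le (by omega) i0)
    have p1 := (R.spec1 G ha h1).2.2.gam (sb M m a (k + 1))
      ⟨R.sb_mono G (Nat.zero_le _), le_min (a1.trans (R.lvV G ha).1) (a1.trans h1)⟩
    have p0 := (R.spec0 h0).2.2.gam (M.s (max k j0))
      ⟨R.s_nn _, le_min (a0.trans R.sT) (a0.trans h0)⟩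
    change Gam _ _ = Gam _ _ at p1
    change Gam _ (sj M j0 (k + 1)) = M.q (max k j0) at p0
    rw [p1, p0]; simp only [he, hr]; ring
  rw [Finset.sum_congr rfl fun k hk => by rw [eq k hk]] at q
  have dk : ∀ k ∈ Finset.range (Jp + 1), c ≤ M.d k ∧ M.d k ≤ M.b := fun k hk =>
    ⟨cd.trans (G.dm (Nat.zero_le k)), d_le_b G.toLeg (by have := Finset.mem_range.1 hk; omega)⟩
  have s1 := Finset.sum_le_sum fun k (hk : k ∈ Finset.range (Jp + 1)) =>
    mul_le_mul_of_nonneg_left (node_alg (D := D k) (G := F k) (r := r k) (e := e k) c0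
      (dk k hk).1 (dk k hk).2 γ0 (D_eq k)) (G.dz_nonneg (M := M) (m := m) (a := a) k)
  set SD := ∑ k ∈ Finset.range (Jp + 1), M.dz m a k * D k ^ 2 with hSD
  set SR := ∑ k ∈ Finset.range (Jp + 1), M.dz m a k * r k ^ 2 with hSR
  set SF := ∑ k ∈ Finset.range (Jp + 1), M.dz m a k * F k ^ 2 with hSF
  have x1 : ∑ k ∈ Finset.range (Jp + 1), M.dz m a k * (γ / (2 * M.b) * D k ^ 2 -
      M.b / γ * (r k ^ 2 + F k ^ 2 / c ^ 2)) =
      γ / (2 * M.b) * SD - M.b / γ * (SR + SF / c ^ 2) := by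
    simp only [hSD, hSR, hSF, mul_add, Finset.mul_sum, Finset.sum_div, ← Finset.sum_add_distrib,
      ← Finset.sum_sub_distrib]
    exact Finset.sum_congr rfl fun k _ => by ring
  have x2 : ∑ k ∈ Finset.range (Jp + 1), M.dz m a k * (D k * (e k + r k) -
      (1 - γ) / M.b * D k ^ 2) = ∑ k ∈ Finset.range (Jp + 1), M.dz m a k * (D k * (e k + r k)) -
      (1 - γ) / M.b * SD := by
    simp only [hSD, Finset.mul_sum, ← Finset.sum_sub_distrib]
    exact Finset.sum_congr rfl fun k _ => by ring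
  rw [x1, x2] at s1
  have nn : ∀ f : ℕ → ℝ, 0 ≤ ∑ k ∈ Finset.range (Jp + 1), M.dz m a k * f k ^ 2 := fun f =>
    Finset.sum_nonneg fun k _ => mul_nonneg (G.dz_nonneg k) (sq_nonneg _)
  have D0 : 0 ≤ SD := nn D
  have R0 : 0 ≤ SR := nn r
  have F0 : 0 ≤ SF := nn F
  have L0 := lw_nn (j0 := j0) G
  have gb : g * SD ≤ (1 - γ) / M.b * SD :=
    mul_le_mul_of_nonneg_right (by rw [le_div_iff₀ b0]; linarith) D0
  have s2 : γ / (2 * M.b) * SD ≤ M.b / γ * (SR + SF / c ^ 2) + lw M j0 := by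
    change _ ≤ g * SD + lw M j0 at q
    linarith
  have c2 : 0 < c ^ 2 := by positivity
  have c3 : c ^ 2 ≤ 1 := pow_le_one₀ c0.le c1
  have s3 : γ ^ 2 * c ^ 2 * SD ≤ 2 * tb ^ 2 * (SR + SF) + 2 * tb * lw M j0 := by
    have y1 := mul_le_mul_of_nonneg_left s2 (show 0 ≤ 2 * M.b * γ * c ^ 2 by positivity)
    have y2 : 2 * M.b * γ * c ^ 2 * (γ / (2 * M.b) * SD) = γ ^ 2 * c ^ 2 * SD := by field_simp
    have y3 : 2 * M.b * γ * c ^ 2 * (M.b / γ * (SR + SF / c ^ 2) + lw M j0) =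
        2 * M.b ^ 2 * (c ^ 2 * SR + SF) + 2 * M.b * (γ * c ^ 2) * lw M j0 := by field_simp
    have y4 : 2 * M.b ^ 2 * (c ^ 2 * SR + SF) ≤ 2 * tb ^ 2 * (1 * SR + SF) := by gcongr
    have y5 : 2 * M.b * (γ * c ^ 2) * lw M j0 ≤ 2 * tb * (1 * 1) * lw M j0 := by gcongr
    linarith
  have s4 : c ^ 2 * Ph M m a j0 Jp ≤ 2 * (SD + SF) := by
    have y1 : Ph M m a j0 Jp ≤ ∑ k ∈ Finset.range (Jp + 1), M.dz m a k * e k ^ 2 := by
      rw [R.split G]
      refine le_add_of_nonneg_of_le (mul_nonneg (G.dz_nonneg 0) (sq_nonneg _)) (le_of_eq ?_)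
      exact Finset.sum_congr rfl fun k hk => by
        simp only [he, max_eq_left (Finset.mem_Ioc.1 hk).1.le]; rfl
    refine (mul_le_mul_of_nonneg_left y1 c2.le).trans ?_
    simp only [hSD, hSF, Finset.mul_sum, ← Finset.sum_add_distrib]
    refine Finset.sum_le_sum fun k hk => ?_
    have z1 : D k = M.d k * e k + F k := D_eq k
    have z2 : c ^ 2 * e k ^ 2 ≤ M.d k ^ 2 * e k ^ 2 := by gcongr; exact (dk k hk).1
    have z3 : c ^ 2 * e k ^ 2 ≤ 2 * (D k ^ 2 + F k ^ 2) := by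
      have : M.d k ^ 2 * e k ^ 2 = (D k - F k) ^ 2 := by rw [z1]; ring
      nlinarith [sq_nonneg (D k + F k)]
    have := mul_le_mul_of_nonneg_left z3 (G.dz_nonneg (M := M) (m := m) (a := a) k)
    linarith
  have s5 : SR ≤ K * Vp M m a 4 :=
    (Finset.sum_le_sum_of_subset_of_nonneg (R.sub1 G) fun k _ _ =>
      mul_nonneg (G.dz_nonneg k) (sq_nonneg _)).trans (hK M m a G R.tp' (c0.trans_le cd) hb)
  have m0 : (0:ℝ) < m := by exact_mod_cast G.m0
  have G0 := G2_nn (j0 := j0) (Jp := Jp) G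
  have s6 : SF ≤ 2 * (tb + 1) ^ 2 * (G2 M m a j0 Jp + lw M j0 + 1 / (m : ℝ) ^ 2) := by
    have y1 : SF ≤ ∑ k ∈ Finset.range (Jp + 1), (2 * (M.dz m a k * Gj M j0 k ^ 2) +
        M.dz m a k * (2 * (tb / m) ^ 2)) := Finset.sum_le_sum fun k hk => by
      have z1 := (R.tail G (k := k) (by have := Finset.mem_range.1 hk; omega)).trans
        (div_le_div_of_nonneg_right hb m0.le)
      have z2 := pow_le_pow_left₀ (abs_nonneg _) z1 2
      rw [sq_abs] at z2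
      have z3 : F k ^ 2 ≤ 2 * Gj M j0 k ^ 2 + 2 * (tb / m) ^ 2 := by
        simp only [hF]
        nlinarith [sq_nonneg (Gj M j0 k + M.d k * M.rb m a k / (m + 1))]
      have := mul_le_mul_of_nonneg_left z3 (G.dz_nonneg (M := M) (m := m) (a := a) k)
      linarith
    rw [Finset.sum_add_distrib, ← Finset.mul_sum, R.split G] at y1
    have y2 := mass G (R.sub2 G) (show 0 ≤ 2 * (tb / m) ^ 2 by positivity)
    have y3 : ∑ k ∈ Finset.Ioc j0 Jp, M.dz m a k * Gj M j0 k ^ 2 = G2 M m a j0 Jp :=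
      Finset.sum_congr rfl fun k hk => by rw [Gj_hi (Finset.mem_Ioc.1 hk).1.le]
    have y4 : M.dz m a 0 * Gj M j0 0 ^ 2 ≤ M.z j0 * ((tb + 1) * M.s j0) ^ 2 := by
      refine mul_le_mul (R.dz0 G) ?_ (sq_nonneg _) (G.z_nonneg _)
      rw [← sq_abs]
      exact pow_le_pow_left₀ (abs_nonneg _) ((R.Gj_zero G).trans
        (mul_le_mul_of_nonneg_right (by linarith) (R.s_nn _))) 2
    have y5 : M.z j0 * ((tb + 1) * M.s j0) ^ 2 = (tb + 1) ^ 2 * lw M j0 := by rw [lw]; ring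
    have y6 : (tb / m) ^ 2 = tb ^ 2 * (1 / (m : ℝ) ^ 2) := by ring
    have y7 : 0 ≤ 1 / (m : ℝ) ^ 2 := by positivity
    rw [y3] at y1
    nlinarith [mul_nonneg t0.le G0, mul_nonneg (sq_nonneg tb) G0, mul_nonneg t0.le y7]
  have V0 := V4_nn G
  have γ2 : γ ^ 2 * c ^ 2 ≤ 1 := mul_le_one₀ (pow_le_one₀ γ0.le γ1) c2.le c3
  rw [div_mul_eq_mul_div, le_div_iff₀ (by positivity), Rh]
  have y7 : 0 ≤ 1 / (m : ℝ) ^ 2 := by positivity
  set W := G2 M m a j0 Jp + lw M j0 + 1 / (m : ℝ) ^ 2 with hW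
  have w1 : lw M j0 ≤ W := by linarith
  have w0 : 0 ≤ W := L0.trans w1
  have z1 := mul_le_mul_of_nonneg_left s4 (show 0 ≤ γ ^ 2 * c ^ 2 by positivity)
  have z2 := mul_le_mul_of_nonneg_right γ2 F0
  have z3 := mul_le_mul_of_nonneg_left s5 (show 0 ≤ 4 * tb ^ 2 by positivity)
  have z4 := mul_le_mul_of_nonneg_left s6 (show 0 ≤ 4 * tb ^ 2 + 2 by positivity)
  have z5 := mul_le_mul_of_nonneg_left w1 (show 0 ≤ 4 * tb by positivity)
  have z6 : 0 ≤ 4 * tb ^ 2 * K * W := by positivity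
  have z7 : 0 ≤ ((4 * tb ^ 2 + 2) * (2 * (tb + 1) ^ 2) + 4 * tb) * Vp M m a 4 := by positivity
  have z8 : Vp M m a 4 + G2 M m a j0 Jp + lw M j0 + 1 / (m : ℝ) ^ 2 = Vp M m a 4 + W := by
    rw [hW]; ring
  rw [z8]
  linarith

theorem Rh_le (G : Lg M m a) : Rh M m a j0 Jp 4 ≤ 4 * Rh M m a j0 Jp 2 := by
  have := V4_le G
  have := G2_nn (j0 := j0) (Jp := Jp) G
  have := lw_nn (j0 := j0) G
  have : 0 ≤ 1 / (m : ℝ) ^ 2 := by positivity
  unfold Rh; linarith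

theorem up4 {C x y : ℝ} (G : Lg M m a) (hC : 0 ≤ C) (hy : 0 < y)
    (h : x ≤ C / y * Rh M m a j0 Jp 4) :
    ∀ p ∈ ({2, 4} : Finset ℕ), x ≤ 4 * C / y * Rh M m a j0 Jp p := fun p hp => by
  have h0 : 0 ≤ Rh M m a j0 Jp 4 := by
    have := V4_nn G
    have := G2_nn (j0 := j0) (Jp := Jp) G
    have := lw_nn (j0 := j0) G
    unfold Rh; positivity
  have h1 : 0 ≤ C / y := by positivity
  have e : 4 * C / y = 4 * (C / y) := by ring
  rw [e]
  rcases Finset.mem_insert.1 hp with rfl | hp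
  · nlinarith [mul_le_mul_of_nonneg_left (Rh_le (j0 := j0) (Jp := Jp) G) h1]
  · rw [Finset.mem_singleton.1 hp]; nlinarith [mul_nonneg h1 h0]

/-- **START**: no a priori location when `b < 1` -/
theorem ht : ∃ C : ℝ, 0 ≤ C ∧ ∀ (M : Md) (m j0 Jp : ℕ) (a c γ : ℝ), Lg M m a → 0 < a →
    Rg M j0 Jp → 0 < c → c ≤ M.d 0 → 0 < γ → M.b ≤ 1 - γ → ∀ p ∈ ({2, 4} : Finset ℕ),
    Ph M m a j0 Jp ≤ C / (γ ^ 2 * c ^ 4) * Rh M m a j0 Jp p := by
  obtain ⟨C, C0, hC⟩ := core 1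
  refine ⟨4 * C, by positivity, fun M m j0 Jp a c γ G ha R c0 cd γ0 hb => ?_⟩
  have cb := cd.trans (d_le_b G.toLeg (Nat.zero_le _))
  have h1 := le_max_left (sb M m a (Jp + 1)) (M.s Jp)
  have h0 := le_max_right (sb M m a (Jp + 1)) (M.s Jp)
  exact up4 G C0 (by positivity) (hC M m j0 Jp a c γ 1 _ G ha R c0 cd (by linarith) (by linarith)
    γ0 (by linarith) h1 h0 (fun t _ => Pp.Ode3.Gp_le_one (R.spec0 h0).1.1.1 t)
    (fun t _ => Pp.Ode3.Gp_le_one (R.spec1 G ha h1).1.1.1 t) (by linarith))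

/-- **LIN**: a priori location small against the replicon coefficient -/
theorem lin (T0 : ℝ) : ∃ C : ℝ, 0 ≤ C ∧ ∀ (M : Md) (m j0 Jp : ℕ) (a c γ P : ℝ), Lg M m a →
    0 < a → Rg M j0 Jp → 0 < c → c ≤ M.d 0 → c ≤ 1 → 0 < γ → γ ≤ 1 → M.b ≤ T0 → M.s Jp ≤ T0 →
    M.H Jp ≤ T0 → (∀ t ∈ Icc 0 (M.s Jp), 2 * γ ≤ M.e t) → Ph M m a j0 Jp ≤ P →
    C * (√P + √(G2 M m a j0 Jp) + M.z j0 + 1 / m) ≤ γ → ∀ p ∈ ({2, 4} : Finset ℕ),
    Ph M m a j0 Jp ≤ C / (γ ^ 2 * c ^ 4) * Rh M m a j0 Jp p := by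
  obtain ⟨C, C0, hC⟩ := core T0
  obtain ⟨L, L1, hL⟩ := gp_lip (2 * T0)
  refine ⟨4 * C + |T0| * L * (3 * |T0| + 1), by positivity,
    fun M m j0 Jp a c γ P G ha R c0 cd c1 γ0 γ1 hb hs hH he hP hγ p hp => ?_⟩
  have b0 : 0 < M.b := (c0.trans_le cd).trans_le (d_le_b G.toLeg (Nat.zero_le _))
  have t0 : 0 < T0 := b0.trans_le hb
  rw [abs_of_pos t0] at hγ ⊢
  have i4 := R.i4
  have m0 : (0:ℝ) < m := by exact_mod_cast G.m0
  have sbl : ∀ k ≤ M.N, sb M m a (k + 1) ≤ T0 + M.H k := fun k hk => by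
    rw [sb_tp]
    have := (tp_mem (m := m) G.toLeg k).1
    have := (tp_mem (m := m) G.toLeg k).2.1.trans ((d_le_b G.toLeg hk).trans hb)
    nlinarith [rb_le_one (M := M) (a := a) G.m0 k]
  have h1 : sb M m a (Jp + 1) ≤ 2 * T0 := by linarith [sbl Jp i4.le]
  have h0 : M.s Jp ≤ 2 * T0 := by linarith
  have W := R.two G ha h1 h0
  have g0 : ∀ t ∈ Icc 0 (2 * T0), Gp (cutT M.lr (2 * T0)) t ≤ (1 - 2 * γ) / M.b := by
    have k : ∀ t ∈ Icc 0 (M.s Jp), Gp (cutT M.lr (2 * T0)) t ≤ (1 - 2 * γ) / M.b := fun t ht => by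
      have p0 := (R.spec0 h0).2.2.gg t ⟨ht.1, le_min (ht.2.trans R.sT) (ht.2.trans h0)⟩
      have := he t ht
      change Gp _ _ = _ at p0
      rw [p0, le_div_iff₀ b0]
      unfold Md.e at this
      linarith
    intro t ht
    rcases le_total t (M.s Jp) with h | h
    · exact k t ⟨ht.1, h⟩
    · exact (gp_top W.o0 (R.s_nn _) h ht.2 fun r hr => by
        rw [(R.spec0 h0).2.1 r ((R.s_nn _).trans hr), R.lv1 r hr]).trans
          (k _ ⟨R.s_nn _, le_rfl⟩)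
  have ar := W.l1_le
  simp only [xb_sub G.toLeg m] at ar
  rw [R.split G] at ar
  have z0 := G.z_nonneg j0
  have sj0 : M.s j0 ≤ T0 := (R.sm R.i0).trans hs
  have a1 : M.dz m a 0 * |sb M m a (0 + 1) - sj M j0 (0 + 1)| ≤ M.z j0 * T0 := by
    refine mul_le_mul (R.dz0 G) ?_ (abs_nonneg _) z0
    have := sbl 0 (Nat.zero_le _)
    have := R.sb_mono G (Nat.zero_le (0 + 1))
    have := R.s_nn j0
    rw [G.H0] at *
    simp only [sj, Nat.zero_max, show sb M m a 0 = 0 from rfl] at *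
    exact abs_le.2 ⟨by linarith, by linarith⟩
  have a2 : ∑ k ∈ Finset.Ioc j0 Jp, M.dz m a k * |sb M m a (k + 1) - sj M j0 (k + 1)| ≤
      ∑ k ∈ Finset.Ioc j0 Jp, (T0 * (M.dz m a k * |M.del m a k|) + M.dz m a k * |M.G k| +
        M.dz m a k * (T0 / m)) := Finset.sum_le_sum fun k hk => by
    obtain ⟨k1, k2⟩ := Finset.mem_Ioc.1 hk
    have y1 := (R.tail G (k := k) (by omega)).trans (div_le_div_of_nonneg_right hb m0.le)
    have y2 : |M.d k * M.del m a k| ≤ T0 * |M.del m a k| := by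
      rw [abs_mul, abs_of_nonneg (d_nonneg G.toLeg k)]
      exact mul_le_mul_of_nonneg_right ((d_le_b G.toLeg (by omega)).trans hb) (abs_nonneg _)
    have y3 : |sb M m a (k + 1) - sj M j0 (k + 1)| ≤ T0 * |M.del m a k| + |M.G k| + T0 / m := by
      rw [D_eq, Gj_hi k1.le, max_eq_left k1.le]
      refine (abs_add_le _ _).trans ?_
      have := abs_sub (M.G k) (M.d k * M.rb m a k / (m + 1))
      change |M.d k * M.del m a k| + _ ≤ _
      linarith
    have := mul_le_mul_of_nonneg_left y3 (G.dz_nonneg (M := M) (m := m) (a := a) k)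
    linarith
  rw [Finset.sum_add_distrib, Finset.sum_add_distrib, ← Finset.mul_sum] at a2
  have a3 : ∑ k ∈ Finset.Ioc j0 Jp, M.dz m a k * |M.del m a k| ≤ √P :=
    Real.le_sqrt_of_sq_le ((cs G (R.sub3 G) _).trans (by simp only [sq_abs]; exact hP))
  have a4 : ∑ k ∈ Finset.Ioc j0 Jp, M.dz m a k * |M.G k| ≤ √(G2 M m a j0 Jp) :=
    Real.le_sqrt_of_sq_le ((cs G (R.sub3 G) _).trans (by simp only [sq_abs]; exact le_rfl))
  have a5 := mass G (R.sub3 G) (show 0 ≤ T0 / m by positivity)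
  set Y := √P + √(G2 M m a j0 Jp) + M.z j0 + 1 / m with hY
  have p1 := Real.sqrt_nonneg P
  have p2 := Real.sqrt_nonneg (G2 M m a j0 Jp)
  have p3 : 0 ≤ 1 / (m : ℝ) := by positivity
  have Y0 : 0 ≤ Y := by positivity
  have a6 : ∫ r in (0:ℝ)..2 * T0, |lvr 1 (cutT (lV M m a) (2 * T0)) r -
      lvr 1 (cutT M.lr (2 * T0)) r| ≤ (3 * T0 + 1) * Y := by
    have := mul_le_mul_of_nonneg_left a3 t0.le
    have := mul_le_mul_of_nonneg_left sj0 z0
    have : T0 / m = T0 * (1 / m) := by ring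
    nlinarith [mul_nonneg t0.le p1, mul_nonneg t0.le p2, mul_nonneg t0.le p3, mul_nonneg t0.le z0]
  have a7 : M.b * (L * ((3 * T0 + 1) * Y)) ≤ γ := by
    have : M.b * (L * ((3 * T0 + 1) * Y)) ≤ T0 * (L * ((3 * T0 + 1) * Y)) := by gcongr
    nlinarith [mul_nonneg C0 Y0]
  have n1 : 0 ≤ L * ((3 * T0 + 1) * Y) := by positivity
  have := up4 G C0 (by positivity) (hC M m j0 Jp a c γ
    ((1 - 2 * γ) / M.b + L * ((3 * T0 + 1) * Y)) _ G ha R c0 cd c1 hb γ0 γ1 h1 h0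
    (fun t ht => (g0 t ht).trans (le_add_of_nonneg_right n1))
    (fun t ht => (hL _ _ _ W.o0 W.o1 le_rfl t ht).trans (add_le_add (g0 t ht)
      (mul_le_mul_of_nonneg_left a6 (by linarith))))
    (by rw [mul_add, mul_div_cancel₀ _ b0.ne']; linarith)) p hp
  refine this.trans (mul_le_mul_of_nonneg_right (div_le_div_of_nonneg_right ?_ (by positivity)) ?_)
  · exact le_add_of_nonneg_right (by positivity)
  · have := G2_nn (j0 := j0) (Jp := Jp) G
    have := lw_nn (j0 := j0) G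
    have : 0 ≤ Vp M m a p := Finset.sum_nonneg fun k _ => mul_nonneg (G.dz_nonneg k)
      (E2_nonneg (fun r _ => by
        rcases Finset.mem_insert.1 hp with rfl | hp
        · positivity
        · rw [Finset.mem_singleton.1 hp]; positivity) k)
    unfold Rh; positivity

end Crest.Agent.T156.Alt.Ht31

end
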