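import Crest.Agent.T156.SrNB_66
import Crest.Agent.T156.R1Def_82
import Crest.Agent.T156.GrMem_37

/-!
# Row 156 (helper44): the level `l0` and the low lines of `R82.NR`
-/

set_option autoImplicit false
set_option linter.unusedSectionVars false

noncomputable section

namespace Crest.Agent.T156.Alt

open Real Set
open Crest.Agent.T156.Alt.R82 (n5 n4)

/-- the level where the window `w3 t` drops below `t³` -/
def Pm.lwG (p : Pm) (σ : ℝ) : ℝ :=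
  max (((p.n : ℝ) * p.κ) ^ (-(1 : ℝ) / 6)) (((p.n : ℝ) * p.κ * σ) ^ (-(2 : ℝ) / 11))

/-- the lowest level of the dyadic blocks -/
def Pm.l0G (p : Pm) (σ l : ℝ) : ℝ :=
  max (max p.r (l * (p.n : ℝ) ^ (-(4 * p.c)))) (8 * p.lwG σ)

namespace Nr44

/-- the exponents `x = lg σ`, `μ = lg θ`, `φ = lg Φ` -/
structure Ex (s c ε x μ φ : ℝ) : Prop where
  c0 : 0 < c
  c1 : c ≤ 1 / 1000
  e0 : 0 ≤ ε
  e1 : 1000 * ε ≤ c
  s0 : 0 ≤ s
  s1 : s ≤ 1 / 19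
  x0 : -(2 / 3) + 7 / 2 * c ≤ x
  x1 : x ≤ -(3 / 2 * c) + ε / 2
  m0 : -(7 * c) ≤ μ ∨ x - 11 / 2 * c ≤ μ
  m1 : μ ≤ -(7 * c) + ε
  m2 : μ ≤ x - 11 / 2 * c + ε
  up : φ ≤ 2 / 3 * (-(1 / 3) + c - x) - 1 / 3 + 3 * ε ∨ φ ≤ -(1 / 2) + c / 2 + 3 * ε ∨
    (φ ≤ -(1 / 3) + 2 * ε ∧ μ + 1 / 3 ≤ ε ∧ x ≤ -(1 / 3) + 11 / 2 * c + ε) ∨
    φ ≤ 3 * (s + c / 7 - 1 / 6) + 2 * ε ∨
    (φ ≤ -(1 / 3) - c - (μ + 1 / 3) + 2 * ε ∧ 0 ≤ μ + 1 / 3) ∨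
    2 * φ ≤ 2 / 3 * (-(1 / 3) + c - x) + 5 * (s + c / 13 - 1 / 6) + 5 * ε ∨
    2 * φ ≤ -(1 / 6) + c / 2 + 5 * (s + c / 13 - 1 / 6) + 5 * ε ∨
    (2 * φ ≤ 5 * (s + c / 13 - 1 / 6) + 4 * ε ∧ μ + 1 / 3 ≤ ε ∧ x ≤ -(1 / 3) + 11 / 2 * c + ε) ∨
    (2 * φ ≤ 5 * (s + c / 13 - 1 / 6) + 4 * ε ∧
      2 * φ ≤ 25 / 4 * (s + c / 13 - 1 / 6) + c / 2 - x / 2 + 4 * ε) ∨
    2 * φ ≤ 6 * (s + c / 13 - 1 / 6) + 2 / 5 * c + 4 * ε ∨
    (2 * φ ≤ 5 * (s + c / 13 - 1 / 6) + 4 * ε ∧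
      2 * φ ≤ 10 * (s + c / 13 - 1 / 6) - 2 * μ + 4 * ε)

/-- a level above `l0` -/
structure Up (s c x φ u : ℝ) : Prop where
  u1 : s + c / 7 - 1 / 6 ≤ u
  u2 : φ / 3 - 4 * c ≤ u
  u3 : -(1 - c) / 6 ≤ u
  u4 : -(2 / 11) * (1 - c + x) ≤ u

section lin
variable {s c ε x μ φ u m : ℝ}

theorem Ex.a (h : Ex s c ε x μ φ) (a1 : m ≤ -c + 2 * u + ε) (a2 : m ≤ -c + x + 3 / 2 * u + ε)
    (hu : u ≤ s + c / 7 - 1 / 6 ∨ u ≤ φ / 3 - 4 * c ∨ u ≤ -(1 - c) / 6 + ε ∨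
      u ≤ -(2 / 11) * (1 - c + x) + ε) : m + φ ≤ -(c / 100) - 5 / 6 + 5 * s := by
  obtain ⟨c0, c1, e0, e1, s0, s1, x0, x1, m0, m1, m2, up⟩ := h
  rcases hu with hu | hu | hu | hu <;>
  rcases up with up | up | ⟨up, _, _⟩ | up | ⟨up, _⟩ | up | up | ⟨up, _, _⟩ | ⟨up, _⟩ | up |
    ⟨up, _⟩ <;>
  first | linarith | (rcases m0 with m0 | m0 <;> linarith)

theorem Ex.b (h : Ex s c ε x μ φ) (a1 : m ≤ -c + 2 * u + ε) (a2 : m ≤ -c + x + 3 / 2 * u + ε)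
    (U : Up s c x φ u) (u5 : u ≤ φ / 3 + ε) :
    m + 2 * φ - 4 * u + 3 * ε ≤ -(c / 50) - 2 / 3 + 4 * s := by
  obtain ⟨c0, c1, e0, e1, s0, s1, x0, x1, m0, m1, m2, up⟩ := h
  obtain ⟨u1, u2, u3, u4⟩ := U
  rcases up with up | up | ⟨up, _, _⟩ | up | ⟨up, _⟩ | up | up | ⟨up, _, _⟩ | ⟨up, _⟩ | up |
    ⟨up, _⟩ <;>
  first | linarith | (rcases m0 with m0 | m0 <;> linarith)

theorem Ex.e (h : Ex s c ε x μ φ) (U : Up s c x φ u) :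
    2 / 3 * φ - 1 - 3 * u + ε ≤ -(c / 100) - 5 / 6 + 5 * s := by
  obtain ⟨c0, c1, e0, e1, s0, s1, x0, x1, m0, m1, m2, up⟩ := h
  obtain ⟨u1, u2, u3, u4⟩ := U
  rcases up with up | up | ⟨up, _, _⟩ | up | ⟨up, _⟩ | up | up | ⟨up, _, _⟩ | ⟨up, _⟩ | up |
    ⟨up, _⟩ <;>
  first | linarith | (rcases m0 with m0 | m0 <;> linarith)

theorem Ex.f (h : Ex s c ε x μ φ) (a1 : m ≤ -c + 2 * u + ε) (a2 : m ≤ -c + x + 3 / 2 * u + ε)
    (U : Up s c x φ u) :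
    m + 4 * (s + c / 7 - 1 / 6) + φ / 3 - 3 * u ≤ -(c / 50) - 2 / 3 + 4 * s := by
  obtain ⟨c0, c1, e0, e1, s0, s1, x0, x1, m0, m1, m2, up⟩ := h
  obtain ⟨u1, u2, u3, u4⟩ := U
  rcases up with up | up | ⟨up, _, _⟩ | up | ⟨up, _⟩ | up | up | ⟨up, _, _⟩ | ⟨up, _⟩ | up |
    ⟨up, _⟩ <;>
  first | linarith | (rcases m0 with m0 | m0 <;> linarith)

theorem Ex.th (h : Ex s c ε x μ φ) : μ + 2 * φ + ε ≤ -(c / 100) - 5 / 6 + 5 * s ∧
    φ / 3 ≤ -(c / 100) - 3 * c := by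
  obtain ⟨c0, c1, e0, e1, s0, s1, x0, x1, m0, m1, m2, up⟩ := h
  constructor <;>
  rcases up with up | up | ⟨up, _, _⟩ | up | ⟨up, _⟩ | up | up | ⟨up, _, _⟩ | ⟨up, _⟩ | up |
    ⟨up, _⟩ <;>
  first | linarith | (rcases m0 with m0 | m0 <;> linarith)

end lin

/-- the hypotheses on `Φ = l³` and on the gain `δ` -/
structure Hy (c η ε : ℝ) (p : Pm) (σ E l Φ δ : ℝ) : Prop where
  hc : c ≤ 1 / 1000
  hη : η ≤ ε
  hε : 1000 * ε ≤ c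
  M : p.MemG σ
  E1 : 1 ≤ E
  E2 : E ≤ (p.n : ℝ) ^ ε
  l0 : 0 < l
  l3 : l ^ 3 = Φ
  up : Φ ≤ (p.n : ℝ) ^ ε * p.PhG E σ
  hδ : (p.n : ℝ) ^ (-(c / 100)) ≤ δ

variable {β c0 C0 : ℝ} {A : ℕ} {c η K ε : ℝ} {p : Pm} {σ E l Φ δ t : ℝ}
  (H : Reg β c0 C0 A c η K p)
include H

theorem lw1 : 0 < ((p.n : ℝ) * p.κ) ^ (-(1 : ℝ) / 6) ∧
    logb p.n (((p.n : ℝ) * p.κ) ^ (-(1 : ℝ) / 6)) = -(1 - c) / 6 := by
  have := H.N0; have := H.κ0
  refine ⟨by positivity, ?_⟩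
  lg_norm; rw [H.lg_n, H.lg_κ]; ring

theorem lw2 (M : p.MemG σ) : 0 < ((p.n : ℝ) * p.κ * σ) ^ (-(2 : ℝ) / 11) ∧
    logb p.n (((p.n : ℝ) * p.κ * σ) ^ (-(2 : ℝ) / 11)) = -(2 / 11) * (1 - c + logb p.n σ) := by
  have := H.N0; have := H.κ0; have := H.sgG_pos M
  refine ⟨by positivity, ?_⟩
  lg_norm; rw [H.lg_n, H.lg_κ]; ring

theorem lw0 : 0 < p.lwG σ := (lw1 H).1.trans_le (le_max_left _ _)

omit H in
theorem r0 : p.r ≤ p.l0G σ l := (le_max_left _ _).trans (le_max_left _ _)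

theorem l00 : 0 < p.l0G σ l := H.r0.trans_le r0

/-- above `lwG` the window is below the level -/
theorem w_lw (M : p.MemG σ) (hc : c ≤ 1 / 1000) (ht : p.lwG σ ≤ t) :
    1 / (p.n * t * p.msG σ t) ≤ t ^ 3 := by
  have t0 : 0 < t := (lw0 H).trans_le ht
  have a1 := H.lg_mono (lw1 H).1 ((le_max_left _ _).trans ht)
  have a2 := H.lg_mono (lw2 H M).1 ((le_max_right _ _).trans ht)
  rw [(lw1 H).2] at a1
  rw [(lw2 H M).2] at a2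
  have := H.N0; have := H.msG_pos M t
  refine H.le_of_lg (by positivity) (by positivity) ?_
  lg_norm
  rw [H.lg_n]
  have b := (H.lg_sgG M).1
  have := H.c_pos
  rcases (H.lg_msG66 M t).1 with m | m <;>
  rcases H.lg_Tc_cases (σ := σ) t0 with ⟨_, _⟩ | ⟨_, _, _⟩ | ⟨_, _, _⟩ <;> linarith

/-- `NR.w0`, `KN.w0` -/
theorem w0 (M : p.MemG σ) (hc : c ≤ 1 / 1000) (ht : p.l0G σ l / 8 ≤ t) :
    1 / (p.n * t * p.msG σ t) ≤ t ^ 3 :=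
  w_lw H M hc (by have : 8 * p.lwG σ ≤ p.l0G σ l := le_max_right _ _; linarith)

/-- `NX.lk` -/
theorem lk (hl : 0 < l) : l * p.ye ^ 2 ≤ p.l0G σ l := by
  refine le_trans (mul_le_mul_of_nonneg_left ?_ hl.le) ((le_max_right _ _).trans (le_max_left _ _))
  have := H.ye0
  refine H.le_of_lg (by positivity) (H.rp0 _) ?_
  rw [H.lg_rp, logb_pow, H.lg_ye, H.hc]
  push_cast
  linarith [H.c_pos]

theorem lw3 (M : p.MemG σ) (E1 : 1 ≤ E) : p.lwG σ ^ 3 ≤ p.PhG E σ := by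
  have E0 : 0 < E := by linarith
  have a := (H.lg_PhG M E0).1.1
  obtain ⟨b1, b2, -⟩ := H.lg_yS M E0
  have b3 := H.lg_nn E1
  have := H.c_pos
  refine H.le_of_lg (pow_pos (lw0 H) 3) (H.PhG0 M E0) ?_
  rw [logb_pow, Pm.lwG, lg_max H.N1 (lw1 H).1 (lw2 H M).1, (lw1 H).2, (lw2 H M).2]
  push_cast
  rcases le_total (-(1 - c) / 6) (-(2 / 11) * (1 - c + logb p.n σ)) with h | h
  · rw [max_eq_right h]; linarith
  · rw [max_eq_left h]; linarith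

/-- `NR.l0l` -/
theorem l0l (M : p.MemG σ) (E1 : 1 ≤ E) (hl : 0 < l) (lo : 512 * p.PhG E σ ≤ l ^ 3) :
    p.l0G σ l ≤ l := by
  have E0 : 0 < E := by linarith
  have a := H.PhG0 M E0
  refine max_le (max_le ?_ ?_) ?_
  · exact le_of_pow_le_pow_left₀ three_ne_zero hl.le (by linarith [(H.PhG_ge M E0).2.1])
  · exact mul_le_of_le_one_right hl.le (rpow_le_one_of_one_le_of_nonpos H.N1.le (by
      rw [H.hc]; linarith [H.c_pos]))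
  · refine le_of_pow_le_pow_left₀ three_ne_zero hl.le ?_
    rw [mul_pow]; linarith [lw3 H M E1]

/-- `NR.jl` -/
theorem jl {K' c0' C0' η' σ0 : ℝ} {Q : Pl} (G : GrD K' c0' C0' η' p σ0 σ Q) (hη : 1000 * η ≤ c) :
    8 * (p.gst Q σ).s p.jf ≤ p.r := by
  have i2 : p.jf + 1 < p.J := G.cl.1.i2
  have a1 : (p.gst Q σ).s p.jf ≤ p.jf * p.v :=
    (Mem37.sP_lo (by omega)).trans_le (G.sl.hom.sig_le _)
  have a2 : (p.jf : ℝ) ≤ p.rj / p.v + 1 := (Nat.ceil_lt_add_one (div_pos H.rj0 H.v0).le).le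
  rw [div_add_one H.v0.ne', le_div_iff₀ H.v0] at a2
  have A2 : (2 : ℝ) ≤ A := by exact_mod_cast H.A2
  have n16 := H.lg_num (x := 16) (by norm_num) (by norm_num)
  have := H.rj0; have := H.v0
  have b1 : 16 * p.rj ≤ p.r := H.le_of_lg (by positivity) H.r0 (by
    lg_norm; linarith [H.lg_rj, H.lg_r, H.c_pos, n16.2])
  have b2 : 16 * p.v ≤ p.r := H.le_of_lg (by positivity) H.r0 (by
    lg_norm; linarith [H.lg_v_le, H.lg_r, H.c_pos, n16.2, H.lg_s.1, H.c_le])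
  linarith

variable (h : Hy c η ε p σ E l Φ δ)
include h

theorem Φ0 : 0 < Φ := h.l3 ▸ pow_pos h.l0 3
theorem δ0 : 0 < δ := (H.rp0 _).trans_le h.hδ
theorem lgδ : -(c / 100) ≤ logb p.n δ := (H.lg_rp _).ge.trans (H.lg_mono (H.rp0 _) h.hδ)
theorem lgl : logb p.n l = logb p.n Φ / 3 := by
  rw [← h.l3, logb_pow]; push_cast; ring

theorem ex : Ex (logb p.n p.s) c ε (logb p.n σ) (logb p.n (p.muG σ)) (logb p.n Φ) := by
  have a := H.lg_sgG h.M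
  have b := H.lg_muG66 h.M
  have d := H.lg_Phi h.hη h.hε h.M h.E1 h.E2 (Φ0 H h) h.up
  have := h.hη
  rw [H.lg_r] at d
  exact ⟨H.c_pos, h.hc, H.η_pos.le.trans h.hη, h.hε, H.lg_s.1, H.lg_s.2, a.1, by linarith [a.2],
    b.1, by linarith [b.2.1], by linarith [b.2.2], d⟩

theorem up (ht : p.l0G σ l ≤ t) :
    Up (logb p.n p.s) c (logb p.n σ) (logb p.n Φ) (logb p.n t) := by
  have w : p.lwG σ ≤ t := by
    have : 8 * p.lwG σ ≤ p.l0G σ l := le_max_right _ _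
    linarith [lw0 (σ := σ) H]
  have a1 := H.lg_mono (lw1 H).1 ((le_max_left _ _).trans w)
  have a2 := H.lg_mono (lw2 H h.M).1 ((le_max_right _ _).trans w)
  have a3 := H.lg_mono H.r0 (r0.trans ht)
  have a4 := H.lg_mono (mul_pos h.l0 (H.rp0 _))
    (((le_max_right _ _).trans (le_max_left _ _)).trans ht)
  rw [logb_mul h.l0.ne' (H.rp0 _).ne', H.lg_rp, lgl H h, H.hc] at a4
  exact ⟨H.lg_r ▸ a3, by linarith, (lw1 H).2 ▸ a1, (lw2 H h.M).2 ▸ a2⟩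

theorem ms (ht : p.r ≤ t) : logb p.n (p.msG σ t) ≤ -c + 2 * logb p.n t + ε ∧
    logb p.n (p.msG σ t) ≤ -c + logb p.n σ + 3 / 2 * logb p.n t + ε := by
  have a := H.lg_mono (H.Tc0 t) (Reg.Tc_le ht)
  obtain ⟨-, b1, b2⟩ := H.lg_msG66 h.M t
  have := h.hη
  constructor <;> linarith

omit h in
theorem lg_n5 : 0 < n5 p ∧ logb p.n (n5 p) = -(5 / 6) + 5 * logb p.n p.s := by
  have := H.N0; have := H.s0
  refine ⟨by unfold n5; positivity, ?_⟩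
  unfold n5; lg_norm; rw [H.lg_n]; ring

omit h in
theorem lg_n4 : 0 < n4 p ∧ logb p.n (n4 p) = -(2 / 3) + 4 * logb p.n p.s := by
  have := H.N0; have := H.s0
  refine ⟨by unfold n4; positivity, ?_⟩
  unfold n4; lg_norm; rw [H.lg_n]; ring

/-- `NR.ly` -/
theorem ly : l ≤ δ * p.ye := by
  have := δ0 H h; have := H.ye0
  refine H.le_of_lg h.l0 (by positivity) ?_
  lg_norm
  linarith [lgl H h, lgδ H h, H.lg_ye, (ex H h).th.2]

/-- `NR.a` -/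
theorem a : p.msG σ (p.l0G σ l) * Φ ≤ δ * n5 p := by
  have := δ0 H h; have := Φ0 H h; have := H.msG_pos h.M (p.l0G σ l); have := (lg_n5 H).1
  obtain ⟨m1, m2⟩ := ms H h (r0 (σ := σ) (l := l))
  have n8 := H.lg_num (x := 8) (by norm_num) (by norm_num)
  have e := h.hη
  have k := (ex H h).a m1 m2 (by
    rcases max_choice (max p.r (l * (p.n : ℝ) ^ (-(4 * p.c)))) (8 * p.lwG σ) with q | q
    · rcases max_choice p.r (l * (p.n : ℝ) ^ (-(4 * p.c))) with q' | q'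
      · exact .inl (by rw [Pm.l0G, q, q', H.lg_r])
      · refine .inr (.inl ?_)
        rw [Pm.l0G, q, q', logb_mul h.l0.ne' (H.rp0 _).ne', H.lg_rp, lgl H h, H.hc]; linarith
    · rw [Pm.l0G, q, logb_mul (by norm_num) (lw0 H).ne']
      rcases max_choice (((p.n : ℝ) * p.κ) ^ (-(1 : ℝ) / 6))
        (((p.n : ℝ) * p.κ * σ) ^ (-(2 : ℝ) / 11)) with q' | q'
      · exact .inr (.inr (.inl (by rw [Pm.lwG, q', (lw1 H).2]; linarith [n8.2])))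
      · exact .inr (.inr (.inr (by rw [Pm.lwG, q', (lw2 H h.M).2]; linarith [n8.2]))))
  refine H.le_of_lg (by positivity) (by positivity) ?_
  lg_norm
  linarith [lgδ H h, (lg_n5 H).2]

/-- `NR.b` on the levels `t ≤ n^ε l` -/
theorem b_low {P : ℝ} (hP : P ≤ Φ) (ht : p.l0G σ l ≤ t) (ht' : t ≤ (p.n : ℝ) ^ ε * l) :
    p.msG σ t * P * max t l ^ 3 / t ^ 4 ≤ δ ^ 2 * n4 p := by
  have := δ0 H h; have := Φ0 H h; have := H.msG_pos h.M t; have := (lg_n4 H).1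
  have t0 := (l00 H).trans_le ht
  have := h.l0
  have e0 := (ex H h).e0
  have r1 := H.rp0 ε
  have mx : max t l ≤ (p.n : ℝ) ^ ε * l :=
    max_le ht' (le_mul_of_one_le_left h.l0.le (one_le_rpow H.N1.le e0))
  have m0 : 0 < max t l := lt_max_of_lt_left t0
  obtain ⟨m1, m2⟩ := ms H h (r0.trans ht)
  have a1 := H.lg_mono t0 ht'
  have a2 := H.lg_mono m0 mx
  rw [logb_mul r1.ne' h.l0.ne', H.lg_rp, lgl H h] at a1 a2
  have k := (ex H h).b m1 m2 (up H h ht) (by linarith)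
  refine le_trans (b := p.msG σ t * Φ * max t l ^ 3 / t ^ 4) (by gcongr) ?_
  refine H.le_of_lg (by positivity) (by positivity) ?_
  lg_norm
  linarith [lgδ H h, (lg_n4 H).2]

/-- `NR.f` -/
theorem f (ht : p.l0G σ l ≤ t) : p.msG σ t * p.r ^ 4 * max t l / t ^ 3 ≤ δ ^ 2 * n4 p := by
  have := δ0 H h; have := H.msG_pos h.M t; have := (lg_n4 H).1; have := H.r0
  have t0 := (l00 H).trans_le ht
  have := h.l0
  obtain ⟨m1, m2⟩ := ms H h (r0.trans ht)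
  have k := (ex H h).f m1 m2 (up H h ht)
  have e1 := h.hε; have := H.c_pos
  rcases le_total t l with q | q
  · rw [max_eq_right q]
    refine H.le_of_lg (by positivity) (by positivity) ?_
    lg_norm
    linarith [lgδ H h, (lg_n4 H).2, H.lg_r, lgl H h]
  · rw [max_eq_left q]
    refine H.le_of_lg (by positivity) (by positivity) ?_
    lg_norm
    linarith [lgδ H h, (lg_n4 H).2, H.lg_r]

/-- `NR.e` at `Λ₂ = max Λ₀ (θ Φ² n / s⁶)` -/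
theorem e {Λ₀ : ℝ} (hΛ : Λ₀ ≤ 1 / p.κ ^ 2) :
    l ^ 2 / (p.n * p.l0G σ l ^ 3) + max Λ₀ (p.muG σ * Φ ^ 2 * p.n / p.s ^ 6) / p.n ≤ δ * n5 p := by
  have := δ0 H h; have := Φ0 H h; have := H.muG_pos h.M; have := (lg_n5 H).1
  have := h.l0; have := l00 (σ := σ) (l := l) H; have := H.N0; have := H.κ0; have := H.s0
  have n2 := H.lg_two66
  have e1 := h.hε; have e2 := h.hη; have := H.c_pos; have := h.hc; have := H.lg_s.1
  have a1 : l ^ 2 / (p.n * p.l0G σ l ^ 3) ≤ δ * n5 p / 2 := by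
    refine H.le_of_lg (by positivity) (by positivity) ?_
    lg_norm
    linarith [lgδ H h, (lg_n5 H).2, H.lg_n, lgl H h, (ex H h).e (up H h le_rfl), n2.2]
  have a2 : 1 / p.κ ^ 2 ≤ δ * n5 p / 2 * p.n := by
    refine H.le_of_lg (by positivity) (by positivity) ?_
    lg_norm
    linarith [lgδ H h, (lg_n5 H).2, H.lg_n, H.lg_κ, n2.2]
  have a3 : p.muG σ * Φ ^ 2 * p.n / p.s ^ 6 ≤ δ * n5 p / 2 * p.n := by
    refine H.le_of_lg (by positivity) (by positivity) ?_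
    lg_norm
    linarith [lgδ H h, (lg_n5 H).2, H.lg_n, (ex H h).th.1, n2.2]
  have a4 : max Λ₀ (p.muG σ * Φ ^ 2 * p.n / p.s ^ 6) / p.n ≤ δ * n5 p / 2 :=
    (div_le_iff₀ H.N0).2 (max_le (hΛ.trans a2) a3)
  linarith

end Nr44

end Crest.Agent.T156.Alt

end
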