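import Crest.Agent.T156.LtE_76
import Crest.Agent.T156.SrP_66
import Crest.Agent.T156.NRa_44

/-!
# Row 156 (helper4): `LN` on the graded path from linear lines in the exponents
-/

set_option autoImplicit false
set_option linter.unusedSectionVars false

noncomputable section

namespace Crest.Agent.T156.Alt.Hl4

open Real Finset
open Crest.Agent.T156.Alt.L69 Crest.Agent.T156.Alt.Ln97

/-- `m = lg (ms y)` at the level `T = lg y`, `y ≥ r`; `μ = lg θ` -/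
structure Ms (c η μ T m : ℝ) : Prop where
  lo : (T ≤ -(3 * c) ∧ (-c + 2 * T ≤ m ∨ μ - η + 3 / 2 * (T + 3 * c) ≤ m)) ∨
    (-(3 * c) ≤ T ∧ μ ≤ m)
  u1 : m ≤ -c + 2 * T + η
  u2 : m ≤ μ + 3 / 2 * (T + 3 * c) + η
  u3 : m ≤ μ

/-- **the lines of `LN`**: `ε, a0, a, ξ, L, χ2, χ3, γ` = exponents of `E, l0, l, x, Lg, X2, X3, G0`
(`X = x³`), `μ = lg θ`, `ρ = lg r` -/
structure LnL (c η μ ρ ε a0 a ξ L χ2 χ3 γ : ℝ) : Prop where
  e0 : 0 ≤ ε ∧ ε ≤ c / 20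
  r0 : ρ ≤ a0
  a0a : a0 ≤ a
  gx : ∀ m0 m, Ms c η μ a0 m0 → Ms c η μ a m → GX η ε a0 a ξ L χ2 χ3 γ m0 m
  gv : ∀ T Y m, a0 ≤ T → T ≤ η → (Y ≤ T ∨ Y ≤ ξ) → Ms c η μ T m → GV η ξ χ2 χ3 T Y m
  gb : ∀ T Y m, a0 ≤ T → T ≤ a → (Y ≤ T ∨ Y ≤ ξ) → Ms c η μ T m →
    η + 3 * Y - T - (1 + m) ≤ 2 * γ
  t2 : ∀ m, Ms c η μ a m → ε + 4 * L - 2 / 3 * (1 + a + m) ≤ m
  t14 : ∀ m, Ms c η μ a m → M12 η L ξ χ2 χ3 γ a m (3 / 2 * m - ε - η)

theorem m12_up {η L ξ χ2 χ3 γ T m T' m' b : ℝ} (h : M12 η L ξ χ2 χ3 γ T m b) (h1 : T ≤ T')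
    (h2 : m ≤ m') : M12 η L ξ χ2 χ3 γ T' m' b := by
  obtain ⟨a1, a2, a3, a4, a5, a6, a7, a8, a9, a10, a11, a12⟩ := h
  exact ⟨by linarith, by linarith, by linarith, by linarith, by linarith, a6, by linarith, a8, a9,
    a10, by linarith, by linarith⟩

variable {β c0 C0 : ℝ} {A : ℕ} {c η K' ε K c0' C0' η' : ℝ} {p : Pm} {σ t : ℝ} {Q : Pl}

theorem ms_lg (H : Reg β c0 C0 A c η K' p) (M : p.MemG t) {y : ℝ} (hy : p.r ≤ y) :
    Ms c η (logb p.n (p.muG t)) (logb p.n y) (logb p.n (p.msG t y)) := by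
  have y0 := H.r0.trans_le hy
  have a := H.lg_mono H.r0 hy
  obtain ⟨b0, b1, b2⟩ := H.lg_msG66 M y
  obtain ⟨d0, d1, d2⟩ := H.lg_muG66 M
  have u3 := H.lg_mono (H.msG_pos M y) (H.msG_le (H.σ0 M) y)
  have η0 := H.η_pos
  have ry := H.lg_mono H.r0 H.r_le_ye
  rw [H.lg_ye] at ry
  rcases H.lg_Tc_cases (σ := t) y0 with ⟨t1, t2⟩ | ⟨t1, t2, t3⟩ | ⟨t1, t2, t3⟩
  · refine ⟨.inl ⟨by linarith, b0.imp (fun h => by linarith) fun h => by linarith⟩, by linarith,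
      ?_, u3⟩
    rcases d0 with d | d <;> linarith
  · refine ⟨.inl ⟨t2, b0.imp (fun h => by linarith) fun h => by linarith⟩, by linarith, ?_, u3⟩
    rcases d0 with d | d <;> linarith
  · exact ⟨.inr ⟨t1, by rw [t3]⟩, by linarith, by linarith, u3⟩

variable (G : Gd66 β c0 C0 A c η K' ε K c0' C0' η' p σ t Q)
include G

theorem ηc : 100000 * η ≤ c := by linarith [G.hη, G.hε]

/-- `n^{c/20} s jl ≤ r` -/
theorem jl_r : (p.n : ℝ) ^ (c / 20) * (p.gst Q t).s p.jf ≤ p.r := by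
  have H := G.R
  have i2 : p.jf + 1 < p.J := G.D.cl.1.i2
  have a1 : (p.gst Q t).s p.jf ≤ p.jf * p.v :=
    (Mem37.sP_lo (by omega)).trans_le (G.D.sl.hom.sig_le _)
  have a2 : (p.jf : ℝ) ≤ p.rj / p.v + 1 := (Nat.ceil_lt_add_one (div_pos H.rj0 H.v0).le).le
  rw [div_add_one H.v0.ne', le_div_iff₀ H.v0] at a2
  have A2 : (2 : ℝ) ≤ A := by exact_mod_cast H.A2
  have n2 := H.lg_two
  have := H.rj0; have := H.v0; have := H.N0; have := ηc G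
  have b1 : 2 * ((p.n : ℝ) ^ (c / 20) * p.rj) ≤ p.r := H.le_of_lg (by positivity) H.r0 (by
    lg_norm; rw [H.lg_n]; linarith [H.lg_rj, H.lg_r, H.c_pos, n2.2])
  have b2 : 2 * ((p.n : ℝ) ^ (c / 20) * p.v) ≤ p.r := H.le_of_lg (by positivity) H.r0 (by
    lg_norm; rw [H.lg_n]; linarith [H.lg_v_le, H.lg_r, H.c_pos, n2.2, H.lg_s.1, H.c_le])
  have := mul_le_mul_of_nonneg_left (a1.trans a2) (H.rp0 (c / 20)).le
  linarith

theorem ms_sq {y : ℝ} (hy : p.r ≤ y) : p.msG t y ≤ y ^ 2 := by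
  have H := G.R
  have y0 := H.r0.trans_le hy
  refine H.le_of_lg (H.msG_pos G.M y) (by positivity) ?_
  rw [logb_pow]; push_cast
  linarith [(ms_lg H G.M hy).u1, ηc G, H.η_pos]

theorem lg_C {y : ℝ} (y0 : 0 < y) (h : y ≤ (p.scG K σ t Q).C) : logb p.n y ≤ η :=
  G.R.lg_le y0 (h.trans G.CK)

variable {E l0 l x X Lg X2 X3 G0 : ℝ} (E0 : 0 < E) (l00 : 0 < l0) (l1 : 0 < l) (x0 : 0 < x)
  (x3 : x ^ 3 = X) (L0 : 0 < Lg) (Y0 : 0 < X2) (Z0 : 0 < X3) (G00 : 0 < G0)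
  (h : LnL c η (logb p.n (p.muG t)) (logb p.n p.r) (logb p.n E) (logb p.n l0) (logb p.n l)
    (logb p.n x) (logb p.n Lg) (logb p.n X2) (logb p.n X3) (logb p.n G0))
include E0 l00 l1 x0 x3 L0 Y0 Z0 G00 h

/-- **`FX` on the graded path** -/
theorem fx : FX E (p.scG K σ t Q) (p.gst Q t) l0 l x X Lg ((p.n : ℝ) ^ (-(2 : ℝ) / 3)) X2 X3 G0 := by
  have H := G.R
  have rl : p.r ≤ l0 := H.le_of_lg H.r0 l00 h.r0
  have ll : l0 ≤ l := H.le_of_lg l00 l1 h.a0a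
  have e : E ≤ (p.n : ℝ) ^ (c / 20) := H.le_of_lg E0 (H.rp0 _) (by rw [H.lg_rp]; exact h.e0.2)
  have mx : ∀ y, 0 < y → logb p.n (max y x) ≤ logb p.n y ∨ logb p.n (max y x) ≤ logb p.n x :=
    fun y y0 => (lg_mx H y0 x0).2.2.imp le_of_eq le_of_eq
  refine fx_lg H G.D.cl.1 rfl rfl (G.HJ.trans G.C1) (((mul_le_mul_of_nonneg_right e
    (G.D.cl.1.s_nn _)).trans (jl_r G)).trans rl) ll (fun a b a0 ab => H.sub66 a0 ab (H.σ0 G.M))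
    (fun y hy => ms_sq G (rl.trans hy)) x3 E0 l00 x0 L0 Y0 Z0 G00
    (h.gx _ _ (ms_lg H G.M rl) (ms_lg H G.M (rl.trans ll))) (fun y a b => ?_) (fun y a b => ?_)
    fun y a b => ?_
  · have y0 := l00.trans_le a
    exact h.gv _ _ _ (H.lg_mono l00 a) (lg_C G y0 b) (mx y y0) (ms_lg H G.M (rl.trans a))
  · have y0 := l00.trans_le a
    exact h.gb _ _ _ (H.lg_mono l00 a) (H.lg_mono y0 b) (mx y y0) (ms_lg H G.M (rl.trans a))
  · have d := h.t2 _ (ms_lg H G.M (rl.trans ll))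
    have d1 := H.lg_mono l1 a
    have d2 := H.lg_mono (H.msG_pos G.M l) (H.msG_mono (H.σ0 G.M) a)
    change _ - 2 / 3 * (1 + _ + logb p.n (p.msG t y)) ≤ logb p.n (p.msG t y)
    linarith

/-- **`LN` on the graded path** -/
theorem ln : LN E (p.scG K σ t Q) (p.gst Q t) l0 l (X ^ ((1 : ℝ) / 3)) X Lg X2 X3 G0
    (eta (p.scG K σ t Q) l Lg ((p.n : ℝ) ^ (-(2 : ℝ) / 3)) X X2 X3 G0) := by
  have H := G.R
  have rl : p.r ≤ l := H.le_of_lg H.r0 l1 (h.r0.trans h.a0a)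
  refine ln_lg H (fx G E0 l00 l1 x0 x3 L0 Y0 Z0 G00 h) rfl rfl E0 fun y a b => ?_
  have d1 := H.lg_mono l1 a
  have d2 := H.lg_mono (H.msG_pos G.M l) (H.msG_mono (H.σ0 G.M) a)
  have d3 := (ms_lg H G.M rl).u1
  have := ηc G; have := H.η_pos
  refine ⟨_, m12_up (h.t14 _ (ms_lg H G.M rl)) d1 d2, ?_, ?_⟩
  · change _ ≤ 3 / 2 * logb p.n (p.msG t y); linarith
  · change _ ≤ logb p.n (p.msG t y) + _; linarith

end Crest.Agent.T156.Alt.Hl4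

end
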