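import Crest.Agent.T156.Rs_13

/-!
# Row 156, ALT: the clock grid of the plateau and the calculus of the static marks (helper13)
-/

set_option autoImplicit false

noncomputable section

namespace Crest.Agent.T156.Alt.Plt13

open Real Set Finset

/-! ### frame-free: the grid of a clock -/

/-- a clock on `[x0, 1)` with density `den`, slowly varying on shells, unbounded at `1` -/
structure Clk (ρ den : ℝ → ℝ) (x0 u0 C : ℝ) : Prop where
  x1 : x0 < 1
  up : 0 < u0
  C1 : 1 ≤ C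
  der : ∀ x, x0 ≤ x → x < 1 → HasDerivAt ρ (den x) x
  pos : ∀ x, 0 < den x
  dens : ∀ x x', x0 ≤ x → x ≤ x' → x' < 1 → x' - x ≤ min (x - x0 + u0) (1 - x') →
    den x ≤ C * den x' ∧ den x' ≤ C * den x
  unb : ∀ M, ∃ x, x0 ≤ x ∧ x < 1 ∧ M ≤ ρ x

/-- the label at which the clock shows `ρ x0 + k v` -/
def gx (ρ : ℝ → ℝ) (x0 v : ℝ) (k : ℕ) : ℝ := Function.invFunOn ρ (Set.Ico x0 1) (ρ x0 + k * v)

/-- number of plateau nodes up to the label `1 - ue` -/
def gI (ρ : ℝ → ℝ) (x0 v ue : ℝ) : ℕ := ⌈(ρ (1 - ue) - ρ x0) / v⌉₊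

namespace Clk

variable {ρ den : ℝ → ℝ} {x0 u0 C v : ℝ} (h : Clk ρ den x0 u0 C)
include h

theorem cont {a b : ℝ} (ha : x0 ≤ a) (hb : b < 1) : ContinuousOn ρ (Set.Icc a b) := fun x hx =>
  (h.der x (ha.trans hx.1) (hx.2.trans_lt hb)).continuousAt.continuousWithinAt

theorem mvt {a b : ℝ} (ha : x0 ≤ a) (hab : a < b) (hb : b < 1) :
    ∃ c ∈ Set.Ioo a b, ρ b - ρ a = den c * (b - a) := by
  obtain ⟨c, hc, e⟩ := exists_hasDerivAt_eq_slope ρ den hab (h.cont ha hb)
    fun x hx => h.der x (ha.trans hx.1.le) (hx.2.trans hb)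
  exact ⟨c, hc, by rw [e, div_mul_cancel₀ _ (sub_pos.2 hab).ne']⟩

theorem lt {a b : ℝ} (ha : x0 ≤ a) (hab : a < b) (hb : b < 1) : ρ a < ρ b := by
  obtain ⟨c, -, e⟩ := h.mvt ha hab hb
  nlinarith [mul_pos (h.pos c) (sub_pos.2 hab)]

theorem le {a b : ℝ} (ha : x0 ≤ a) (hab : a ≤ b) (hb : b < 1) : ρ a ≤ ρ b := by
  rcases hab.eq_or_lt with e | e
  · rw [e]
  · exact (h.lt ha e hb).le

theorem le_of_le {a b : ℝ} (ha : a < 1) (hb : x0 ≤ b) (e : ρ a ≤ ρ b) : a ≤ b := by
  by_contra c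
  exact absurd (h.lt hb (not_le.1 c) ha) (not_lt.2 e)

/-- two-sided slope on a shell -/
theorem slope {a b : ℝ} (ha : x0 ≤ a) (hab : a ≤ b) (hb : b < 1)
    (hs : b - a ≤ min (a - x0 + u0) (1 - b)) :
    den a * (b - a) ≤ C * (ρ b - ρ a) ∧ ρ b - ρ a ≤ C * (den a * (b - a)) := by
  rcases hab.eq_or_lt with e | e
  · simp [e]
  obtain ⟨c, hc, e'⟩ := h.mvt ha e hb
  have d := h.dens a c ha hc.1.le (hc.2.trans hb) (by
    have := le_min_iff.1 hs
    exact le_min (by linarith [hc.2]) (by linarith [hc.2]))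
  rw [e']
  have p := sub_pos.2 e
  constructor <;> nlinarith [d.1, d.2]

theorem ex (hv : 0 ≤ v) (k : ℕ) : ∃ x ∈ Set.Ico x0 1, ρ x = ρ x0 + k * v := by
  obtain ⟨x, a, b, c⟩ := h.unb (ρ x0 + k * v)
  have : ρ x0 + k * v ∈ Set.Icc (ρ x0) (ρ x) := ⟨le_add_of_nonneg_right (by positivity), c⟩
  obtain ⟨y, hy, e⟩ := intermediate_value_Icc a (h.cont le_rfl b) this
  exact ⟨y, ⟨hy.1, hy.2.trans_lt b⟩, e⟩

theorem gx_ge (hv : 0 ≤ v) (k : ℕ) : x0 ≤ gx ρ x0 v k := (Function.invFunOn_mem (h.ex hv k)).1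
theorem gx_lt (hv : 0 ≤ v) (k : ℕ) : gx ρ x0 v k < 1 := (Function.invFunOn_mem (h.ex hv k)).2
theorem rho_gx (hv : 0 ≤ v) (k : ℕ) : ρ (gx ρ x0 v k) = ρ x0 + k * v :=
  Function.invFunOn_eq (h.ex hv k)

theorem gx_zero (hv : 0 ≤ v) : gx ρ x0 v 0 = x0 :=
  le_antisymm (h.le_of_le (h.gx_lt hv 0) le_rfl (by rw [h.rho_gx hv]; simp)) (h.gx_ge hv 0)

theorem rho_step (hv : 0 ≤ v) (k : ℕ) : ρ (gx ρ x0 v (k + 1)) - ρ (gx ρ x0 v k) = v := by
  rw [h.rho_gx hv, h.rho_gx hv]; push_cast; ring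

theorem gx_strictMono (hv : 0 < v) : StrictMono (gx ρ x0 v) := by
  refine strictMono_nat_of_lt_succ fun k => ?_
  by_contra c
  have := h.le (h.gx_ge hv.le (k + 1)) (not_lt.1 c) (h.gx_lt hv.le k)
  linarith [h.rho_step hv.le k]

/-- the mesh is small against the shells -/
def Fine (_ : Clk ρ den x0 u0 C) (v : ℝ) : Prop := 0 < v ∧ ∀ x, x0 ≤ x → x < 1 →
  C * v ≤ den x * min (x - x0 + u0) ((1 - x) / 2)

theorem shell (hf : h.Fine v) (k : ℕ) : gx ρ x0 v (k + 1) - gx ρ x0 v k ≤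
    min (gx ρ x0 v k - x0 + u0) (1 - gx ρ x0 v (k + 1)) := by
  have hv := hf.1
  have a := h.gx_ge hv.le k
  have b := h.gx_lt hv.le k
  set x := gx ρ x0 v k with hx
  set δ := min (x - x0 + u0) ((1 - x) / 2) with hδ
  have d1 : δ ≤ x - x0 + u0 := min_le_left _ _
  have d2 : δ ≤ (1 - x) / 2 := min_le_right _ _
  have d0 : 0 < δ := lt_min (by linarith [h.up]) (by linarith)
  have s := (h.slope (a := x) (b := x + δ) a (by linarith) (by linarith)
    (le_min (by linarith) (by linarith))).1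
  have f := hf.2 x a b
  have hC : 0 < C := by linarith [h.C1]
  have e : ρ (gx ρ x0 v (k + 1)) ≤ ρ (x + δ) := by
    have r := h.rho_step hv.le k
    rw [← hx] at r
    have : C * v ≤ C * (ρ (x + δ) - ρ x) := by
      rw [add_sub_cancel_left] at s; linarith
    linarith [le_of_mul_le_mul_left this hC]
  have g := h.le_of_le (h.gx_lt hv.le (k + 1)) (by linarith) e
  exact le_min (by linarith) (by linarith)

/-- **`Cl.plat`** -/
theorem plat (hf : h.Fine v) (k : ℕ) :
    v / C ≤ (gx ρ x0 v (k + 1) - gx ρ x0 v k) * den (gx ρ x0 v k) ∧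
      (gx ρ x0 v (k + 1) - gx ρ x0 v k) * den (gx ρ x0 v k) ≤ C * v := by
  have hv := hf.1
  have s := h.slope (h.gx_ge hv.le k) ((h.gx_strictMono hv).monotone (Nat.le_succ k))
    (h.gx_lt hv.le (k + 1)) (h.shell hf k)
  rw [h.rho_step hv.le k] at s
  have hC : 0 < C := by linarith [h.C1]
  refine ⟨by rw [div_le_iff₀ hC]; linarith [s.2], by linarith [s.1]⟩

/-- **`Cl.last`** and the number of nodes -/
theorem last (hv : 0 < v) {ue : ℝ} (h0 : 0 < ue) (h1 : x0 ≤ 1 - ue) :
    1 - gx ρ x0 v (gI ρ x0 v ue) ≤ ue ∧ (gI ρ x0 v ue : ℝ) * v ≤ ρ (1 - ue) - ρ x0 + v ∧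
      ∀ k < gI ρ x0 v ue, gx ρ x0 v k < 1 - ue := by
  have p : 0 ≤ ρ (1 - ue) - ρ x0 := sub_nonneg.2 (h.le le_rfl h1 (by linarith))
  have a : (ρ (1 - ue) - ρ x0) / v ≤ gI ρ x0 v ue := Nat.le_ceil _
  have b : (gI ρ x0 v ue : ℝ) < (ρ (1 - ue) - ρ x0) / v + 1 := Nat.ceil_lt_add_one (by positivity)
  rw [div_le_iff₀ hv] at a
  refine ⟨?_, ?_, fun k hk => ?_⟩
  · have := h.le_of_le (a := 1 - ue) (by linarith) (h.gx_ge hv.le (gI ρ x0 v ue))
      (by rw [h.rho_gx hv.le]; linarith)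
    linarith
  · have := mul_le_mul_of_nonneg_right b.le hv.le
    rwa [add_mul, div_mul_cancel₀ _ hv.ne', one_mul] at this
  · have c : (k : ℝ) < (ρ (1 - ue) - ρ x0) / v := Nat.lt_ceil.1 hk
    rw [lt_div_iff₀ hv] at c
    by_contra d
    have := h.le h1 (not_lt.1 d) (h.gx_lt hv.le k)
    rw [h.rho_gx hv.le] at this
    linarith

/-- the last label is not closer to `1` than `ue / 2` -/
theorem last' (hf : h.Fine v) {ue : ℝ} (h0 : 0 < ue) (h1 : x0 ≤ 1 - ue) (k : ℕ)
    (hk : k ≤ gI ρ x0 v ue) : ue / 2 ≤ 1 - gx ρ x0 v k := by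
  rcases k with _ | k
  · rw [h.gx_zero hf.1.le]; linarith
  · have a := (h.last hf.1 h0 h1).2.2 k (by omega)
    have b := (le_min_iff.1 (h.shell hf k)).2
    linarith

end Clk

/-! ### the two shapes -/

/-- top shape `V log (1 + l / (V √u))` -/
def ft (V l u : ℝ) : ℝ := V * log (1 + l / (V * √u))
/-- minus its derivative in `u` -/
def dt (V l u : ℝ) : ℝ := l * V / (2 * u * (V * √u + l))
/-- bottom shape `l / √A` -/
def fb (l A : ℝ) : ℝ := l / √A
/-- minus its derivative -/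
def db (l A : ℝ) : ℝ := l / (2 * (A * √A))

section shapes
variable {V l u u' A A' : ℝ}

theorem hasDerivAt_fb (hA : 0 < A) : HasDerivAt (fb l) (-db l A) A := by
  have s := sqrt_pos.2 hA
  have a := ((hasDerivAt_sqrt hA.ne').inv s.ne').const_mul l
  have e : -db l A = l * (-(1 / (2 * √A)) / √A ^ 2) := by
    unfold db; rw [sq_sqrt hA.le]; field_simp
  rw [e]
  have f : fb l = fun A => l * (√A)⁻¹ := by funext A; unfold fb; rw [div_eq_mul_inv]
  rw [f]
  exact a

theorem hasDerivAt_ft (hV : 0 < V) (hl : 0 ≤ l) (hu : 0 < u) :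
    HasDerivAt (ft V l) (-dt V l u) u := by
  have s := sqrt_pos.2 hu
  have a : HasDerivAt (fun u => 1 + fb (l / V) u) (-db (l / V) u) u :=
    (hasDerivAt_fb hu).const_add 1
  have p : 0 < 1 + fb (l / V) u := by unfold fb; positivity
  have b := (a.log p.ne').const_mul V
  have f : ft V l = fun u => V * log (1 + fb (l / V) u) := by
    funext u; unfold ft fb; rw [div_div]
  have e : -dt V l u = V * (-db (l / V) u / (1 + fb (l / V) u)) := by
    unfold dt db fb; field_simp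
  rw [f, e]
  exact b

theorem db_pos (hl : 0 < l) (hA : 0 < A) : 0 < db l A := by
  have := sqrt_pos.2 hA
  unfold db; positivity

theorem dt_pos (hV : 0 < V) (hl : 0 < l) (hu : 0 < u) : 0 < dt V l u := by
  unfold dt; positivity

theorem dt_nn (hV : 0 < V) (hl : 0 ≤ l) (hu : 0 < u) : 0 ≤ dt V l u := by
  unfold dt; positivity

theorem sqrt_two_mul (hA : 0 ≤ A) (h : A' ≤ 2 * A) : √A' ≤ 3 / 2 * √A := by
  rw [sqrt_le_left (by positivity), mul_pow, sq_sqrt hA]; linarith

theorem db_shell (hl : 0 ≤ l) (hA : 0 < A) (h : A ≤ A') (h2 : A' ≤ 2 * A) :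
    db l A' ≤ db l A ∧ db l A ≤ 3 * db l A' := by
  have s := sqrt_pos.2 hA
  have a := sqrt_le_sqrt h
  have b := sqrt_two_mul hA.le h2
  have hA' : 0 < A' := hA.trans_le h
  have s' := sqrt_pos.2 hA'
  unfold db
  constructor
  · exact div_le_div_of_nonneg_left hl (by positivity) (by nlinarith [mul_le_mul h a s.le hA'.le])
  · rw [← mul_div_assoc, div_le_div_iff₀ (by positivity) (by positivity)]
    have := mul_le_mul h2 b s'.le (by positivity : 0 ≤ 2 * A)
    nlinarith [mul_le_mul_of_nonneg_left this hl]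

theorem dt_shell (hV : 0 < V) (hl : 0 ≤ l) (hu : 0 < u') (h : u' ≤ u) (h2 : u ≤ 2 * u') :
    dt V l u ≤ dt V l u' ∧ dt V l u' ≤ 3 * dt V l u := by
  have s := sqrt_pos.2 hu
  have a := sqrt_le_sqrt h
  have b := sqrt_two_mul hu.le h2
  have hu' : 0 < u := hu.trans_le h
  have s' := sqrt_pos.2 hu'
  have c : V * √u' + l ≤ V * √u + l := by nlinarith
  have d : V * √u + l ≤ 3 / 2 * (V * √u' + l) := by nlinarith
  unfold dt
  constructor
  · exact div_le_div_of_nonneg_left (by positivity) (by positivity)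
      (mul_le_mul (by linarith) c (by positivity) (by positivity))
  · rw [← mul_div_assoc, div_le_div_iff₀ (by positivity) (by positivity)]
    have := mul_le_mul h2 d (by positivity) (by positivity : 0 ≤ 2 * u')
    nlinarith [mul_le_mul_of_nonneg_left this (mul_nonneg hl hV.le)]

theorem ft_nn (hV : 0 < V) (hl : 0 ≤ l) (u : ℝ) : 0 ≤ ft V l u :=
  mul_nonneg hV.le (log_nonneg (le_add_of_nonneg_right (by positivity)))

theorem ft_le (hV : 0 < V) (hl : 0 ≤ l) (u : ℝ) : ft V l u ≤ l / √u := by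
  have a := log_le_sub_one_of_pos (x := 1 + l / (V * √u)) (by positivity)
  have e : V * (l / (V * √u)) = l / √u := by
    rw [← mul_div_assoc, mul_div_mul_left _ _ hV.ne']
  unfold ft
  nlinarith [mul_le_mul_of_nonneg_left a hV.le]

theorem ft_anti (hV : 0 < V) (hl : 0 ≤ l) (hu : 0 < u') (h : u' ≤ u) : ft V l u ≤ ft V l u' := by
  have s := sqrt_pos.2 hu
  unfold ft
  refine mul_le_mul_of_nonneg_left (log_le_log (by positivity) ?_) hV.le
  have := div_le_div_of_nonneg_left hl (by positivity : 0 < V * √u')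
    (mul_le_mul_of_nonneg_left (sqrt_le_sqrt h) hV.le)
  linarith

/-- on a shell the top shape at most doubles -/
theorem ft_shell (hV : 0 < V) (hl : 0 ≤ l) (hu : 0 < u') (h2 : u ≤ 2 * u') (h0 : 0 < u) :
    ft V l u' ≤ 2 * ft V l u := by
  have s := sqrt_pos.2 hu
  have s' := sqrt_pos.2 h0
  have b := sqrt_two_mul hu.le h2
  have c : l / (V * √u') ≤ 2 * (l / (V * √u)) := by
    rw [← mul_div_assoc, div_le_div_iff₀ (by positivity) (by positivity)]
    have : V * √u ≤ 2 * (V * √u') := by nlinarith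
    nlinarith [mul_le_mul_of_nonneg_left this hl]
  have p : 0 ≤ l / (V * √u) := by positivity
  have d : log (1 + l / (V * √u')) ≤ log ((1 + l / (V * √u)) ^ 2) :=
    log_le_log (by positivity) (by nlinarith [sq_nonneg (l / (V * √u))])
  rw [log_pow] at d
  unfold ft
  push_cast at d
  nlinarith [mul_le_mul_of_nonneg_left d hV.le]

theorem log_pow_le {t : ℝ} (ht : 0 ≤ t) {p : ℕ} (hp : 1 ≤ p) :
    log (1 + t) ^ p ≤ (p : ℝ) ^ p * (1 + t) := by
  have hp' : (0 : ℝ) < p := by exact_mod_cast hp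
  have a : 0 ≤ log (1 + t) := log_nonneg (by linarith)
  have b : log (1 + t) / p ≤ exp (log (1 + t) / p) := by linarith [add_one_le_exp (log (1 + t) / p)]
  have c := pow_le_pow_left₀ (div_nonneg a hp'.le) b p
  rw [← exp_nat_mul, mul_div_cancel₀ _ hp'.ne', exp_log (by linarith), div_pow,
    div_le_iff₀ (by positivity)] at c
  linarith

theorem log_sq_le {t : ℝ} (ht : 0 ≤ t) : log (1 + t) ^ 2 * (1 + t) ≤ 16 * t ^ 2 := by
  have a : 0 ≤ log (1 + t) := log_nonneg (by linarith)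
  rcases le_total t 1 with h | h
  · have b := log_le_sub_one_of_pos (x := 1 + t) (by linarith)
    have c : log (1 + t) ^ 2 ≤ t ^ 2 := pow_le_pow_left₀ a (by linarith) 2
    nlinarith [sq_nonneg t]
  · have c := log_pow_le ht (p := 2) (by norm_num)
    push_cast at c
    nlinarith [mul_le_mul_of_nonneg_right c (by linarith : (0:ℝ) ≤ 1 + t)]

theorem log_cube_le {t : ℝ} (ht : 0 ≤ t) {p : ℕ} (hp : 3 ≤ p) :
    log (1 + t) ^ p * (1 + t) ^ 2 ≤ 8 * (p : ℝ) ^ p * t ^ 3 := by
  have a : 0 ≤ log (1 + t) := log_nonneg (by linarith)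
  have q : (1 : ℝ) ≤ (p : ℝ) ^ p := one_le_pow₀ (by exact_mod_cast (by omega : 1 ≤ p))
  have t3 : 0 ≤ t ^ 3 := by positivity
  rcases le_total t 1 with h | h
  · have b := log_le_sub_one_of_pos (x := 1 + t) (by linarith)
    have c : log (1 + t) ^ p ≤ t ^ 3 :=
      (pow_le_pow_left₀ a (by linarith) p).trans (pow_le_pow_of_le_one ht h hp)
    have d : (1 + t) ^ 2 ≤ 4 := by nlinarith
    nlinarith [mul_le_mul c d (by positivity) t3]
  · have c := log_pow_le ht (p := p) (by omega)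
    have d : (1 + t) ^ 3 ≤ (2 * t) ^ 3 := pow_le_pow_left₀ (by linarith) (by linarith) 3
    have e := mul_le_mul_of_nonneg_right c (sq_nonneg (1 + t))
    nlinarith [mul_le_mul_of_nonneg_left d (by linarith : (0:ℝ) ≤ (p : ℝ) ^ p)]

theorem tele_le (F : ℕ → ℝ) (G : ℕ → ℝ) (N : ℕ) (h : ∀ k < N, F k ≤ G (k + 1) - G k) :
    ∑ k ∈ range N, F k ≤ G N - G 0 := by
  rw [← Finset.sum_range_sub]
  exact sum_le_sum fun k hk => h k (mem_range.1 hk)

/-- **second moment of the top shape** (left end points, `u N = 0` allowed) -/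
theorem sum_ft_two (hV : 0 < V) (hl : 0 < l) (u : ℕ → ℝ) (N : ℕ) (h0 : u 0 ≤ 1)
    (hp : ∀ k < N, 0 < u k) (ha : ∀ k < N, u (k + 1) ≤ u k) (hN : ∀ k < N, 0 ≤ u (k + 1)) :
    ∑ k ∈ range N, (u k - u (k + 1)) * ft V l (u k) ^ 2 ≤ 32 * l ^ 2 * log (1 + V / l) := by
  have key := tele_le (fun k => (u k - u (k + 1)) * ft V l (u k) ^ 2)
    (fun k => -(32 * l ^ 2 * log (V * √(u k) + l))) N fun k hk => by
      obtain ⟨s, hs, e⟩ : ∃ s, 0 < s ∧ u k = s ^ 2 :=
        ⟨√(u k), sqrt_pos.2 (hp k hk), (sq_sqrt (hp k hk).le).symm⟩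
      obtain ⟨r, hr, e'⟩ : ∃ r, 0 ≤ r ∧ u (k + 1) = r ^ 2 :=
        ⟨√(u (k + 1)), sqrt_nonneg _, (sq_sqrt (hN k hk)).symm⟩
      have hrs : r ≤ s := by have := ha k hk; rw [e, e'] at this; nlinarith
      simp only [e, e', ft, sqrt_sq hs.le, sqrt_sq hr]
      have a := log_sq_le (t := l / (V * s)) (by positivity)
      have b := log_le_sub_one_of_pos (x := (V * r + l) / (V * s + l)) (by positivity)
      rw [log_div (by positivity) (by positivity)] at b
      have e1 : (V * r + l) / (V * s + l) - 1 = -(V * (s - r) / (V * s + l)) := by field_simp; ring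
      have a' : (V * log (1 + l / (V * s))) ^ 2 ≤ 16 * l ^ 2 * V / (s * (V * s + l)) := by
        rw [le_div_iff₀ (by positivity)]
        have e2 : (V * log (1 + l / (V * s))) ^ 2 * (s * (V * s + l)) =
            log (1 + l / (V * s)) ^ 2 * (1 + l / (V * s)) * (V ^ 3 * s ^ 2) := by field_simp
        have e3 : 16 * l ^ 2 * V = 16 * (l / (V * s)) ^ 2 * (V ^ 3 * s ^ 2) := by field_simp
        rw [e2, e3]
        exact mul_le_mul_of_nonneg_right a (by positivity)
      have c : s ^ 2 - r ^ 2 ≤ 2 * s * (s - r) := by nlinarith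
      have d := mul_le_mul c a' (by positivity) (by nlinarith)
      have e4 : 2 * s * (s - r) * (16 * l ^ 2 * V / (s * (V * s + l))) =
          32 * l ^ 2 * (V * (s - r) / (V * s + l)) := by field_simp; ring
      rw [e4] at d
      nlinarith [mul_le_mul_of_nonneg_left b (by positivity : 0 ≤ 32 * l ^ 2)]
  refine key.trans ?_
  have a : log l ≤ log (V * √(u N) + l) := log_le_log hl (le_add_of_nonneg_left (by positivity))
  have b : log (V * √(u 0) + l) ≤ log (V + l) := by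
    refine log_le_log (by positivity) ?_
    have : √(u 0) ≤ 1 := sqrt_le_one.2 h0
    nlinarith
  have e : log (1 + V / l) = log (V + l) - log l := by
    rw [← log_div (by positivity) hl.ne']; congr 1; field_simp; ring
  rw [e]
  nlinarith [mul_le_mul_of_nonneg_left a (by positivity : 0 ≤ 32 * l ^ 2),
    mul_le_mul_of_nonneg_left b (by positivity : 0 ≤ 32 * l ^ 2)]

/-- **higher moments of the top shape** -/
theorem sum_ft_pow (hV : 0 < V) (hl : 0 < l) (q : ℕ) (u : ℕ → ℝ) (N : ℕ)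
    (hp : ∀ k < N, 0 < u k) (ha : ∀ k < N, u (k + 1) ≤ u k) (hN : ∀ k < N, 0 ≤ u (k + 1)) :
    ∑ k ∈ range N, (u k - u (k + 1)) * ft V l (u k) ^ (q + 3) ≤
      16 * ((q + 3 : ℕ) : ℝ) ^ (q + 3) * (l ^ 2 * V ^ (q + 1)) := by
  set K : ℝ := 16 * ((q + 3 : ℕ) : ℝ) ^ (q + 3) with hK
  have K0 : 0 ≤ K := by positivity
  have key := tele_le (fun k => (u k - u (k + 1)) * ft V l (u k) ^ (q + 3))
    (fun k => K * (l ^ 3 * V ^ (q + 1)) / (V * √(u k) + l)) N fun k hk => by
      obtain ⟨s, hs, e⟩ : ∃ s, 0 < s ∧ u k = s ^ 2 :=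
        ⟨√(u k), sqrt_pos.2 (hp k hk), (sq_sqrt (hp k hk).le).symm⟩
      obtain ⟨r, hr, e'⟩ : ∃ r, 0 ≤ r ∧ u (k + 1) = r ^ 2 :=
        ⟨√(u (k + 1)), sqrt_nonneg _, (sq_sqrt (hN k hk)).symm⟩
      have hrs : r ≤ s := by have := ha k hk; rw [e, e'] at this; nlinarith
      simp only [e, e', ft, sqrt_sq hs.le, sqrt_sq hr]
      have a := log_cube_le (t := l / (V * s)) (by positivity) (p := q + 3) (by omega)
      have a' : (V * log (1 + l / (V * s))) ^ (q + 3) ≤
          K / 2 * (l ^ 3 * V ^ (q + 2)) / (s * (V * s + l) ^ 2) := by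
        rw [le_div_iff₀ (by positivity)]
        have e2 : (V * log (1 + l / (V * s))) ^ (q + 3) * (s * (V * s + l) ^ 2) =
            log (1 + l / (V * s)) ^ (q + 3) * (1 + l / (V * s)) ^ 2 * (V ^ (q + 5) * s ^ 3) := by
          rw [mul_pow]; field_simp; ring
        have e3 : K / 2 * (l ^ 3 * V ^ (q + 2)) =
            8 * ((q + 3 : ℕ) : ℝ) ^ (q + 3) * (l / (V * s)) ^ 3 * (V ^ (q + 5) * s ^ 3) := by
          rw [hK]; field_simp; ring
        rw [e2, e3]
        exact mul_le_mul_of_nonneg_right a (by positivity)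
      have c : s ^ 2 - r ^ 2 ≤ 2 * s * (s - r) := by nlinarith
      have d := mul_le_mul c a' (pow_nonneg (mul_nonneg hV.le
        (log_nonneg (le_add_of_nonneg_right (by positivity)))) _) (by nlinarith)
      refine d.trans ?_
      have e4 : 2 * s * (s - r) * (K / 2 * (l ^ 3 * V ^ (q + 2)) / (s * (V * s + l) ^ 2)) =
          K * (l ^ 3 * V ^ (q + 1)) * (V * (s - r)) / ((V * s + l) * (V * s + l)) := by
        field_simp; ring
      have e5 : K * (l ^ 3 * V ^ (q + 1)) / (V * r + l) - K * (l ^ 3 * V ^ (q + 1)) / (V * s + l) =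
          K * (l ^ 3 * V ^ (q + 1)) * (V * (s - r)) / ((V * r + l) * (V * s + l)) := by
        field_simp; ring
      rw [e4, e5]
      refine div_le_div_of_nonneg_left (mul_nonneg (by positivity)
        (mul_nonneg hV.le (sub_nonneg.2 hrs))) (by positivity) ?_
      exact mul_le_mul_of_nonneg_right (by nlinarith) (by positivity)
  refine key.trans ?_
  have a : K * (l ^ 3 * V ^ (q + 1)) / (V * √(u N) + l) ≤ K * (l ^ 3 * V ^ (q + 1)) / l :=
    div_le_div_of_nonneg_left (by positivity) hl (le_add_of_nonneg_left (by positivity))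
  have b : 0 ≤ K * (l ^ 3 * V ^ (q + 1)) / (V * √(u 0) + l) := by positivity
  have e : K * (l ^ 3 * V ^ (q + 1)) / l = K * (l ^ 2 * V ^ (q + 1)) := by field_simp
  linarith

/-- **second moment of the bottom shape** -/
theorem sum_fb_two (A : ℕ → ℝ) (N : ℕ) (h0 : 0 < A 0) (hm : ∀ k < N, A k ≤ A (k + 1))
    (h2 : ∀ k < N, A (k + 1) ≤ 2 * A k) :
    ∑ k ∈ range N, (A (k + 1) - A k) * fb l (A k) ^ 2 ≤ 2 * l ^ 2 * log (A N / A 0) := by
  have pos : ∀ k ≤ N, 0 < A k := fun k => by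
    induction k with
    | zero => exact fun _ => h0
    | succ k ih => exact fun hk => (ih (by omega)).trans_le (hm k (by omega))
  have key := tele_le (fun k => (A (k + 1) - A k) * fb l (A k) ^ 2)
    (fun k => 2 * l ^ 2 * log (A k)) N fun k hk => by
      have p := pos k hk.le
      have p' := pos (k + 1) hk
      have b := log_le_sub_one_of_pos (x := A k / A (k + 1)) (by positivity)
      rw [log_div p.ne' p'.ne'] at b
      have e1 : A k / A (k + 1) - 1 = -((A (k + 1) - A k) / A (k + 1)) := by field_simp; ring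
      have c : (A (k + 1) - A k) / A k ≤ 2 * ((A (k + 1) - A k) / A (k + 1)) := by
        rw [← mul_div_assoc, div_le_div_iff₀ p p']
        nlinarith [mul_le_mul_of_nonneg_left (h2 k hk) (sub_nonneg.2 (hm k hk))]
      have e2 : (A (k + 1) - A k) * fb l (A k) ^ 2 = l ^ 2 * ((A (k + 1) - A k) / A k) := by
        unfold fb; rw [div_pow, sq_sqrt p.le]; ring
      simp only [e2]
      nlinarith [mul_le_mul_of_nonneg_left c (sq_nonneg l), mul_le_mul_of_nonneg_left b (sq_nonneg l)]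
  rw [log_div (pos N le_rfl).ne' h0.ne']
  linarith

/-- **higher moments of the bottom shape** -/
theorem sum_fb_pow (hl : 0 ≤ l) (q : ℕ) (A : ℕ → ℝ) (N : ℕ) (h0 : 0 < A 0)
    (hm : ∀ k < N, A k ≤ A (k + 1)) (h2 : ∀ k < N, A (k + 1) ≤ 2 * A k) :
    ∑ k ∈ range N, (A (k + 1) - A k) * fb l (A k) ^ (q + 3) ≤ 6 * (l ^ 2 * fb l (A 0) ^ (q + 1)) := by
  have ge : ∀ k ≤ N, A 0 ≤ A k := fun k => by
    induction k with
    | zero => exact fun _ => le_rfl
    | succ k ih => exact fun hk => (ih (by omega)).trans (hm k (by omega))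
  have f0 : 0 ≤ fb l (A 0) := by unfold fb; positivity
  have key := tele_le (fun k => (A (k + 1) - A k) * fb l (A k) ^ (q + 3))
    (fun k => -(6 * (l ^ 2 * fb l (A 0) ^ q) * fb l (A k))) N fun k hk => by
      have p : 0 < A k := h0.trans_le (ge k hk.le)
      have s := sqrt_pos.2 p
      have a := (Rs13.inv_sqrt_sub hl p (hm k hk)).1
      have b := (db_shell hl p (hm k hk) (h2 k hk)).2
      have d0 := sub_nonneg.2 (hm k hk)
      have c : fb l (A k) ^ q ≤ fb l (A 0) ^ q := by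
        refine pow_le_pow_left₀ (by unfold fb; positivity) ?_ q
        exact div_le_div_of_nonneg_left hl (sqrt_pos.2 h0) (sqrt_le_sqrt (ge k hk.le))
      have e : fb l (A k) ^ 3 = 2 * l ^ 2 * db l (A k) := by
        unfold fb db
        rw [div_pow, show √(A k) ^ 3 = A k * √(A k) by rw [pow_succ, sq_sqrt p.le]]
        field_simp
      have e' : l * (A (k + 1) - A k) / (2 * (A (k + 1) * √(A (k + 1)))) =
          (A (k + 1) - A k) * db l (A (k + 1)) := by unfold db; ring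
      rw [e'] at a
      have g : (A (k + 1) - A k) * fb l (A k) ^ 3 ≤ 6 * l ^ 2 * (fb l (A k) - fb l (A (k + 1))) := by
        rw [e]
        have b' := mul_le_mul_of_nonneg_left b d0
        unfold fb
        nlinarith [mul_le_mul_of_nonneg_left b' (sq_nonneg l), mul_le_mul_of_nonneg_left a (sq_nonneg l)]
      have g0 : 0 ≤ (A (k + 1) - A k) * fb l (A k) ^ 3 :=
        mul_nonneg d0 (pow_nonneg (by unfold fb; positivity) 3)
      have := mul_le_mul c g g0 (pow_nonneg f0 q)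
      simp only [pow_add]
      nlinarith
  have fN : 0 ≤ fb l (A N) := by unfold fb; positivity
  have : 0 ≤ 6 * (l ^ 2 * fb l (A 0) ^ q) * fb l (A N) := by positivity
  rw [pow_succ (fb l (A 0)) q]
  linarith

end shapes

/-! ### the clock of the static marks -/

/-- `-l / √(x - xs + u0) + V log (1 + l / (V √u)) + log (1 + √u2 / √u) + γ x`, `u = 1 - x` -/
def rho (xs u0 l V u2 γ x : ℝ) : ℝ :=
  -fb l (x - xs + u0) + ft V l (1 - x) + ft 1 (√u2) (1 - x) + γ * x

/-- its density (`1` outside `[xs, 1)`) -/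
def den (xs u0 l V u2 γ x : ℝ) : ℝ :=
  if xs ≤ x ∧ x < 1 then db l (x - xs + u0) + dt V l (1 - x) + dt 1 (√u2) (1 - x) + γ else 1

section clock
variable {xs u0 l V u2 γ : ℝ}

theorem den_eq {x : ℝ} (h0 : xs ≤ x) (h1 : x < 1) : den xs u0 l V u2 γ x =
    db l (x - xs + u0) + dt V l (1 - x) + dt 1 (√u2) (1 - x) + γ := by simp [den, h0, h1]

theorem clk (hx : xs < 1) (hu : 0 < u0) (hl : 0 < l) (hV : 0 < V) (h2 : 0 < u2) (hγ : 0 ≤ γ) :
    Clk (rho xs u0 l V u2 γ) (den xs u0 l V u2 γ) xs u0 3 where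
  x1 := hx
  up := hu
  C1 := by norm_num
  der := fun x h0 h1 => by
    have a := (hasDerivAt_fb (l := l) (A := x - xs + u0) (by linarith)).comp x
      (((hasDerivAt_id x).sub_const xs).add_const u0)
    have i : HasDerivAt (fun x : ℝ => 1 - x) (-1) x := (hasDerivAt_id x).const_sub 1
    have b := (hasDerivAt_ft hV hl.le (u := 1 - x) (by linarith)).comp x i
    have c := (hasDerivAt_ft one_pos (sqrt_nonneg u2) (u := 1 - x) (by linarith)).comp x i
    have d := ((a.neg.add b).add c).add ((hasDerivAt_id x).const_mul γ)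
    rw [den_eq h0 h1]
    refine (d.congr_deriv (by ring)).congr_of_eventuallyEq (Filter.Eventually.of_forall fun y => ?_)
    simp [rho]
  pos := fun x => by
    unfold den
    split_ifs with h
    · have a := db_pos hl (A := x - xs + u0) (by linarith [h.1])
      have b := dt_nn hV hl.le (u := 1 - x) (by linarith [h.2])
      have c := dt_nn one_pos (sqrt_nonneg u2) (u := 1 - x) (by linarith [h.2])
      linarith
    · exact one_pos
  dens := fun x x' h0 h h1 hs => by
    have s := le_min_iff.1 hs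
    have a := db_shell hl.le (A := x - xs + u0) (A' := x' - xs + u0) (by linarith) (by linarith)
      (by linarith [s.1])
    have b := dt_shell hV hl.le (u' := 1 - x') (u := 1 - x) (by linarith) (by linarith)
      (by linarith [s.2])
    have c := dt_shell one_pos (sqrt_nonneg u2) (u' := 1 - x') (u := 1 - x) (by linarith)
      (by linarith) (by linarith [s.2])
    have a0 := db_pos hl (A := x' - xs + u0) (by linarith)
    have b0 := dt_nn hV hl.le (u := 1 - x) (by linarith)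
    have c0 := dt_nn one_pos (sqrt_nonneg u2) (u := 1 - x) (by linarith)
    rw [den_eq h0 (h.trans_lt h1), den_eq (h0.trans h) h1]
    constructor <;> linarith [a.1, a.2, b.1, b.2, c.1, c.2]
  unb := fun M => by
    have s2 := sqrt_pos.2 h2
    set K := M + fb l u0 + γ * |xs| with hK
    set s := min (√(1 - xs)) (√u2 / exp K) with hs
    have s0 : 0 < s := lt_min (sqrt_pos.2 (by linarith)) (by positivity)
    have s1 : s ^ 2 ≤ 1 - xs := by
      have := pow_le_pow_left₀ s0.le (min_le_left (√(1 - xs)) (√u2 / exp K)) 2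
      rwa [sq_sqrt (by linarith)] at this
    refine ⟨1 - s ^ 2, by linarith, by nlinarith, ?_⟩
    have a : fb l (1 - s ^ 2 - xs + u0) ≤ fb l u0 :=
      div_le_div_of_nonneg_left hl.le (sqrt_pos.2 hu) (sqrt_le_sqrt (by linarith))
    have b := ft_nn hV hl.le (1 - (1 - s ^ 2))
    have c : K ≤ ft 1 (√u2) (1 - (1 - s ^ 2)) := by
      unfold ft
      rw [sub_sub_cancel, sqrt_sq s0.le, one_mul, one_mul, le_log_iff_exp_le (by positivity)]
      have : s ≤ √u2 / exp K := min_le_right _ _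
      rw [le_div_iff₀ (exp_pos K)] at this
      have : exp K ≤ √u2 / s := by rw [le_div_iff₀ s0]; linarith
      linarith
    have d : -(γ * |xs|) ≤ γ * (1 - s ^ 2) := by
      have : -|xs| ≤ 1 - s ^ 2 := by linarith [neg_abs_le xs]
      nlinarith [mul_le_mul_of_nonneg_left this hγ]
    unfold rho
    linarith

/-- the mesh condition -/
theorem fine (hx : xs < 1) (hu : 0 < u0) (hl : 0 < l) (hV : 0 < V) (h2 : 0 < u2) (hγ : 0 ≤ γ)
    (hx0 : 0 ≤ xs) (hu1 : u0 ≤ 1) (h21 : u2 ≤ 1) {v : ℝ} (hv : 0 < v) (h1 : 12 * v ≤ l)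
    (h3 : 24 * v ≤ √u2) : (clk hx hu hl hV h2 hγ).Fine v := by
  refine ⟨hv, fun x a b => ?_⟩
  have pA : 0 < x - xs + u0 := by linarith
  have pu : 0 < 1 - x := by linarith
  have a0 := db_pos hl pA
  have b0 := dt_nn hV hl.le pu
  have c0 := dt_nn one_pos (sqrt_nonneg u2) pu
  rw [den_eq a b]
  rcases min_choice (x - xs + u0) ((1 - x) / 2) with e | e <;> rw [e]
  · have s := sqrt_pos.2 pA
    have s2 : √(x - xs + u0) ≤ 2 := by rw [sqrt_le_left (by norm_num)]; linarith
    have : l / 4 ≤ db l (x - xs + u0) * (x - xs + u0) := by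
      have e : db l (x - xs + u0) * (x - xs + u0) = l / (2 * √(x - xs + u0)) := by
        unfold db; field_simp
      rw [e]
      exact div_le_div_of_nonneg_left hl.le (by positivity) (by linarith)
    nlinarith [mul_nonneg b0 pA.le, mul_nonneg c0 pA.le, mul_nonneg hγ pA.le]
  · have s := sqrt_pos.2 pu
    have s1 : √(1 - x) ≤ 1 := sqrt_le_one.2 (by linarith)
    have s2 : √u2 ≤ 1 := sqrt_le_one.2 h21
    have s3 := sqrt_pos.2 h2
    have : √u2 / 8 ≤ dt 1 (√u2) (1 - x) * ((1 - x) / 2) := by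
      have e : dt 1 (√u2) (1 - x) * ((1 - x) / 2) = √u2 / (4 * (√(1 - x) + √u2)) := by
        unfold dt; field_simp; ring
      rw [e]
      exact div_le_div_of_nonneg_left s3.le (by positivity) (by linarith)
    nlinarith [mul_nonneg b0 pu.le, mul_nonneg a0.le pu.le, mul_nonneg hγ pu.le]

end clock

end Crest.Agent.T156.Alt.Plt13

end
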