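import Crest.Agent.T156.LP_62
import Crest.Agent.T156.Plt_13

/-!
# Row 156: the pointwise plateau fields of `R62.KN` for the static clock density (helper72)
-/

set_option autoImplicit false
set_option linter.unusedSectionVars false

noncomputable section

namespace Crest.Agent.T156.Alt.Kn72

open Real Finset Plt13 R62

/-! ### one point: `A` = distance to the lower end, `u` = distance to the top -/

/-- the clock length of a shell -/
def LL (la V u2 A u : ℝ) : ℝ := (db la A + dt V la u + dt 1 (√u2) u) * min A u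

theorem dt_le' {V l u : ℝ} (hV : 0 < V) (hl : 0 ≤ l) (hu : 0 < u) : dt V l u ≤ db l u := by
  have s := sqrt_pos.2 hu
  unfold dt db
  rw [div_le_div_iff₀ (by positivity) (by positivity)]
  nlinarith [mul_nonneg (mul_nonneg hl hl) hu.le]

theorem db_anti {l A u : ℝ} (hl : 0 ≤ l) (hA : 0 < A) (h : A ≤ u) : db l u ≤ db l A := by
  have s := sqrt_pos.2 hA
  unfold db
  refine div_le_div_of_nonneg_left hl (by positivity) ?_
  have := mul_le_mul h (sqrt_le_sqrt h) s.le (hA.le.trans h)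
  linarith

theorem db_mono {l l' A : ℝ} (h : l ≤ l') (hA : 0 < A) : db l A ≤ db l' A := by
  have s := sqrt_pos.2 hA
  unfold db
  exact div_le_div_of_nonneg_right h (by positivity)

theorem db_mul {l A : ℝ} (hA : 0 < A) : db l A * A = l / √A / 2 := by
  have s := sqrt_pos.2 hA
  unfold db; field_simp

theorem dt_mul {V l u : ℝ} (hV : 0 < V) (hl : 0 < l) (hu : 0 < u) :
    min (l / √u) V / 4 ≤ dt V l u * u := by
  have s := sqrt_pos.2 hu
  have e : dt V l u * u = l * V / (2 * (V * √u + l)) := by unfold dt; field_simp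
  rw [e, div_le_div_iff₀ (by norm_num) (by positivity)]
  have a : min (l / √u) V * √u ≤ l := by
    rw [← le_div_iff₀ s]; exact min_le_left _ _
  have b := min_le_right (l / √u) V
  nlinarith [mul_le_mul_of_nonneg_left a hV.le, mul_le_mul_of_nonneg_left b hl.le]

/-- the numbers of the static marks -/
structure Nu (la V u2 : ℝ) : Prop where
  u2p : 0 < u2
  u2l : √u2 ≤ la
  lV : la ≤ V
  V1 : V ≤ 1

namespace Nu

variable {la V u2 A u : ℝ} (h : Nu la V u2)
include h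

theorem sp : 0 < √u2 := sqrt_pos.2 h.u2p
theorem lp : 0 < la := h.sp.trans_le h.u2l
theorem Vp : 0 < V := h.lp.trans_le h.lV
theorem s1 : √u2 ≤ 1 := h.u2l.trans (h.lV.trans h.V1)
theorem u2_sq : u2 ≤ la ^ 2 := by
  have := pow_le_pow_left₀ h.sp.le h.u2l 2
  rwa [sq_sqrt h.u2p.le] at this

theorem den_lo (hA : 0 < A) (e : A ≤ u) : db la A ≤ db la A + dt V la u + dt 1 (√u2) u ∧
    db la A + dt V la u + dt 1 (√u2) u ≤ 3 * db la A := by
  have hu := hA.trans_le e
  have a := dt_nn h.Vp h.lp.le hu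
  have b := dt_nn one_pos h.sp.le hu
  have c := (dt_le' h.Vp h.lp.le hu).trans (db_anti h.lp.le hA e)
  have d := ((dt_le' one_pos h.sp.le hu).trans (db_mono h.u2l hu)).trans (db_anti h.lp.le hA e)
  constructor <;> linarith

/-- lower half -/
theorem lo (hA : 0 < A) (e : A ≤ u) : la / √A / 2 ≤ LL la V u2 A u ∧
    LL la V u2 A u ≤ 3 / 2 * (la / √A) := by
  obtain ⟨a, b⟩ := h.den_lo hA e
  have c := db_mul (l := la) hA
  unfold LL
  rw [min_eq_left e]
  constructor <;> nlinarith [mul_le_mul_of_nonneg_right a hA.le, mul_le_mul_of_nonneg_right b hA.le]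

/-- upper half -/
theorem hi (hu : 0 < u) (e : u ≤ A) : min (la / √u) V / 4 ≤ LL la V u2 A u ∧
    min (√u2 / √u) 1 / 4 ≤ LL la V u2 A u ∧ LL la V u2 A u ≤ 3 / 2 * (la / √u) := by
  have a := dt_mul h.Vp h.lp hu
  have b := dt_mul one_pos h.sp hu
  have c := mul_pos (db_pos h.lp (hu.trans_le e)) hu
  have a0 := mul_nonneg (dt_nn h.Vp h.lp.le hu) hu.le
  have b0 := mul_nonneg (dt_nn one_pos h.sp.le hu) hu.le
  have d1 := mul_le_mul_of_nonneg_right (db_anti h.lp.le hu e) hu.le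
  have d2 := mul_le_mul_of_nonneg_right (dt_le' h.Vp h.lp.le hu) hu.le
  have d3 := mul_le_mul_of_nonneg_right ((dt_le' one_pos h.sp.le hu).trans (db_mono h.u2l hu)) hu.le
  have d := db_mul (l := la) hu
  unfold LL
  rw [min_eq_right e]
  refine ⟨?_, ?_, ?_⟩ <;> nlinarith

theorem ge (hA : 0 < A) (A2 : A ≤ 4) (hu : 0 < u) (u1 : u ≤ 1) : √u2 / 4 ≤ LL la V u2 A u := by
  rcases le_total A u with e | e
  · have s := sqrt_pos.2 hA
    have s2 : √A ≤ 2 := by rw [sqrt_le_left (by norm_num)]; linarith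
    have : la / 2 ≤ la / √A := div_le_div_of_nonneg_left h.lp.le s s2
    linarith [(h.lo hA e).1, h.u2l]
  · have s := sqrt_pos.2 hu
    have : √u2 ≤ √u2 / √u := le_div_self h.sp.le s (sqrt_le_one.2 u1)
    have := le_min this h.s1
    linarith [(h.hi hu e).2.1]

theorem pos (hA : 0 < A) (hu : 0 < u) : 0 < LL la V u2 A u :=
  mul_pos (by linarith [db_pos h.lp hA, dt_nn h.Vp h.lp.le hu, dt_nn one_pos h.sp.le hu])
    (lt_min hA hu)

/-- `ls² · min (A, u) ≥ min (u, u2) / 16` -/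
theorem sq_ge (hA : 0 < A) (hu : 0 < u) :
    min u u2 / 16 ≤ LL la V u2 A u ^ 2 * min A u := by
  rcases le_total A u with e | e
  · have s := sqrt_pos.2 hA
    have a := pow_le_pow_left₀ (by have := h.lp; positivity) (h.lo hA e).1 2
    have b : (la / √A / 2) ^ 2 * A = la ^ 2 / 4 := by
      rw [div_pow, div_pow, sq_sqrt hA.le]; field_simp; norm_num
    rw [min_eq_left e]
    have c := mul_le_mul_of_nonneg_right a hA.le
    have d := (min_le_right u u2).trans h.u2_sq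
    nlinarith [sq_nonneg la]
  · have s := sqrt_pos.2 hu
    have m0 : 0 ≤ min (√u2 / √u) 1 := le_min (by have := h.sp; positivity) zero_le_one
    have a := pow_le_pow_left₀ (by positivity) (h.hi hu e).2.1 2
    rw [min_eq_right e]
    refine le_trans ?_ (mul_le_mul_of_nonneg_right a hu.le)
    rcases min_choice (√u2 / √u) 1 with q | q <;> rw [q]
    · have b : (√u2 / √u / 4) ^ 2 * u = u2 / 16 := by
        rw [div_pow, div_pow, sq_sqrt hu.le, sq_sqrt h.u2p.le]; field_simp; norm_num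
      rw [b]; linarith [min_le_right u u2]
    · linarith [min_le_left u u2]

theorem fin (hu : 0 < u) (e : u ≤ A) (e2 : u ≤ u2) : 1 / 4 ≤ LL la V u2 A u := by
  have s := sqrt_pos.2 hu
  have : 1 ≤ √u2 / √u := (one_le_div s).2 (sqrt_le_sqrt e2)
  have b := (h.hi hu e).2.1
  rwa [min_eq_right this] at b

/-- the tolerance is dominated by the clock length -/
theorem cap {C Λ₁ Λ₂ Pt Vt x : ℝ} (hA : 0 < A) (hu : 0 < u) (hC : 1 ≤ C) (hs : 1 / C ≤ A + u)
    (hP : √Pt ≤ Λ₂ * la) (hVt : Vt ≤ Λ₂ * V) (h1 : 0 ≤ Λ₁) (hx : 0 ≤ x) :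
    LL la V u2 A u + √(Pt / (A + x)) + min (√(Pt / u)) (Vt + Λ₁ * LL la V u2 A u) ≤
      (1 + Λ₁ + 12 * C * Λ₂) * LL la V u2 A u := by
  have L0 := h.pos hA hu
  have lp := h.lp
  have l2 : 0 ≤ Λ₂ := nonneg_of_mul_nonneg_left ((sqrt_nonneg _).trans hP) lp
  have sA := sqrt_pos.2 hA
  have su := sqrt_pos.2 hu
  have key : ∀ y z : ℝ, 0 < z → z ≤ y → √(Pt / y) ≤ Λ₂ * (la / √z) := fun y z hz e => by
    have sz := sqrt_pos.2 hz
    rw [sqrt_div' _ (hz.le.trans e), ← mul_div_assoc]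
    exact div_le_div₀ (by positivity) hP sz (sqrt_le_sqrt e)
  have t1 := mul_nonneg h1 L0.le
  have t2 := mul_nonneg l2 L0.le
  have t3 : Λ₂ * LL la V u2 A u ≤ C * (Λ₂ * LL la V u2 A u) := le_mul_of_one_le_left t2 hC
  rcases le_total A u with e | e
  · have a := key (A + x) A hA (by linarith)
    have b := (min_le_left _ (Vt + Λ₁ * LL la V u2 A u)).trans (key u A hA e)
    have c := mul_le_mul_of_nonneg_left (h.lo hA e).1 l2
    nlinarith
  · have c := (h.hi hu e).1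
    have A1 : 1 / (2 * C) ^ 2 ≤ A := by
      have : 1 / (2 * C) ^ 2 ≤ 1 / C / 2 := by
        rw [div_div]; exact one_div_le_one_div_of_le (by positivity) (by nlinarith)
      linarith
    have A2 : la / √A ≤ 2 * C * la := by
      have : 1 / (2 * C) ≤ √A := le_sqrt_of_sq_le (by rwa [div_pow, one_pow])
      rw [div_le_iff₀ (by positivity)] at this
      rw [div_le_iff₀ sA]; nlinarith
    have A3 : la / √A ≤ la / √u := div_le_div_of_nonneg_left lp.le su (sqrt_le_sqrt e)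
    have A4 : la / √A ≤ 2 * C * min (la / √u) V := by
      rcases min_choice (la / √u) V with q | q <;> rw [q]
      · nlinarith [div_pos lp su]
      · nlinarith [h.lV]
    have a := (key (A + x) A hA (by linarith)).trans (mul_le_mul_of_nonneg_left A4 l2)
    have b : min (√(Pt / u)) (Vt + Λ₁ * LL la V u2 A u) ≤
        Λ₂ * min (la / √u) V + Λ₁ * LL la V u2 A u := by
      rcases min_choice (la / √u) V with q | q <;> rw [q]
      · linarith [min_le_left (√(Pt / u)) (Vt + Λ₁ * LL la V u2 A u), key u u hu le_rfl]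
      · linarith [min_le_right (√(Pt / u)) (Vt + Λ₁ * LL la V u2 A u)]
    have d := mul_le_mul_of_nonneg_left c l2
    have d' := mul_le_mul_of_nonneg_left d (by linarith : 0 ≤ C)
    nlinarith

end Nu

/-! ### the class -/

/-- a member with the static clock density -/
structure SD (S : Sc) (M : Md) (la V u2 : ℝ) : Prop where
  cl : Cl S M
  nu : Nu la V u2
  den : S.den = den (M.z (S.J - 1)) S.u0 la V u2 0
  u0 : S.u0 = la ^ ((2 : ℝ) / 3)
  C4 : 4 ≤ S.C
  uC : S.C * S.u0 ≤ 1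

namespace SD

variable {S : Sc} {M : Md} {la V u2 : ℝ} (h : SD S M la V u2) {k : ℕ}
include h

theorem u0p : 0 < S.u0 := h.u0 ▸ rpow_pos_of_pos h.nu.lp _
theorem u0_cube : S.u0 ^ 3 = la ^ 2 := by
  rw [h.u0, ← rpow_mul_natCast h.nu.lp.le, ← rpow_two]; norm_num
theorem u0_le : S.u0 ≤ 1 / 4 := by nlinarith [h.uC, h.C4, h.u0p]
theorem fb_u0 : la / √S.u0 = S.u0 := by
  have s := sqrt_pos.2 h.u0p
  rw [div_eq_iff s.ne']
  refine (pow_left_inj₀ h.nu.lp.le (by have := h.u0p; positivity) two_ne_zero).1 ?_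
  rw [mul_pow, sq_sqrt h.u0p.le, ← h.u0_cube]; ring

theorem xs_le (hk : S.J ≤ k) : M.z (S.J - 1) ≤ M.z (k - 1) := h.cl.leg.zm (by omega)

theorem x_lt (hk : S.J ≤ k) (hk' : k < S.Jp) : M.z (k - 1) < 1 := by
  have C0 : 0 < S.C := by linarith [h.C4]
  have n0 : (0 : ℝ) ≤ (S.n : ℝ) ^ S.A := by positivity
  have v0 : 0 < S.v := by
    by_contra c
    nlinarith [h.cl.v1, one_div_pos.2 C0, mul_nonneg (neg_nonneg.2 (not_lt.1 c)) n0]
  have a := (div_pos v0 C0).trans_le (h.cl.plat k hk hk').1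
  have b := (mul_pos_iff_of_pos_right (h.cl.den0 _)).1 a
  linarith [h.cl.leg.z1 k]

theorem dl0 (hk : S.J ≤ k) : 0 < dl S M k := by
  unfold dl; linarith [h.xs_le hk, h.u0p]

theorem xs0 : 0 < M.z (S.J - 1) :=
  (one_div_pos.2 (by linarith [h.C4])).trans_le h.cl.atom.1

theorem dl_le : dl S M k ≤ 2 := by
  unfold dl; linarith [h.xs0, h.u0_le, h.cl.leg.z1 (k - 1)]

theorem du_le (hk : S.J ≤ k) : du M k ≤ 1 := by
  unfold du; linarith [h.xs0, h.xs_le hk]

theorem sum_ge (k : ℕ) : 1 / S.C ≤ dl S M k + du M k := by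
  unfold dl du; linarith [h.cl.atom.2, h.u0p]

theorem ls_eq (hk : S.J ≤ k) (hu : 0 < du M k) :
    ls S M k = LL la V u2 (dl S M k) (du M k) := by
  unfold ls LL
  rw [h.den, den_eq (h.xs_le hk) (by unfold du at hu; linarith), add_zero]
  rfl

theorem du0 (hk : S.J ≤ k) (hk' : k < S.Jp) : 0 < du M k := sub_pos.2 (h.x_lt hk hk')

omit h in
theorem mem_pl {u : ℝ} (hk : k ∈ pl S M u) : S.J ≤ k ∧ k < S.Jp ∧ u ≤ du M k := by
  obtain ⟨a, b⟩ := mem_filter.1 hk
  exact ⟨(mem_Ico.1 a).1, (mem_Ico.1 a).2, b⟩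

theorem dlJ : dl S M S.J = S.u0 := by unfold dl; ring

theorem duJ : S.u0 ≤ du M S.J := by
  have C0 : 0 < S.C := by linarith [h.C4]
  have : S.u0 ≤ 1 / S.C := by rw [le_div_iff₀ C0]; linarith [h.uC]
  unfold du; linarith [h.cl.atom.2]

/-- **`KN.dj`** -/
theorem dj : 1 / S.C ≤ S.den (M.z (S.J - 1)) ∧ S.den (M.z (S.J - 1)) ≤ S.C := by
  have u := h.u0p
  have e := h.duJ
  obtain ⟨a, b⟩ := h.nu.den_lo u e
  have c := db_mul (l := la) u
  rw [h.fb_u0] at c
  have d : db la S.u0 = 1 / 2 := mul_right_cancel₀ u.ne' (by linarith)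
  have f : 1 / S.C ≤ 1 / 2 := one_div_le_one_div_of_le (by norm_num) (by linarith [h.C4])
  unfold du at a b e
  rw [h.den, den_eq le_rfl (by linarith), sub_self, zero_add, add_zero]
  constructor <;> linarith [h.C4]

/-- **`KN.lsJ`** -/
theorem lsJ : ls S M S.J ≤ 2 * S.u0 := by
  have u := h.u0p
  rw [h.ls_eq le_rfl (u.trans_le h.duJ), h.dlJ]
  have := (h.nu.lo u h.duJ).2
  rw [h.fb_u0] at this
  linarith

theorem ls_ge (hk : S.J ≤ k) (hk' : k < S.Jp) : √u2 / 4 ≤ ls S M k := by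
  rw [h.ls_eq hk (h.du0 hk hk')]
  exact h.nu.ge (h.dl0 hk) (by linarith [h.dl_le (k := k)]) (h.du0 hk hk') (h.du_le hk)

/-- **`KN.fine`** -/
theorem fine {E : ℝ} (hE : 4 * (E * S.v) ≤ √u2) : ∀ k, S.J ≤ k → k < S.Jp → E * S.v ≤ ls S M k :=
  fun _ a b => by linarith [h.ls_ge a b]

/-- **`KN.cap`** -/
theorem cap {Λ₀ Λ₁ Λ₂ Pt Vt u : ℝ} (P0 : 0 ≤ Pt) (hP : √Pt ≤ Λ₂ * la) (hVt : Vt ≤ Λ₂ * V)
    (h1 : 0 ≤ Λ₁) (h0 : 1 + Λ₁ + 12 * S.C * Λ₂ ≤ Λ₀) :
    ∀ k ∈ pl S M u, tau S M Λ₁ Pt Vt k ≤ Λ₀ * ls S M k := fun k hk => by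
  obtain ⟨a, b, -⟩ := mem_pl hk
  have c := h.du0 a b
  unfold tau
  rw [h.ls_eq a c]
  exact (h.nu.cap (h.dl0 a) c h.cl.C1 (h.sum_ge k) hP hVt h1 (rpow_nonneg P0 _)).trans
    (mul_le_mul_of_nonneg_right h0 (h.nu.pos (h.dl0 a) c).le)

/-- **`KN.wpl`** -/
theorem wpl {W u1 : ℝ} (h1 : u1 ≤ u2) (hW : 64 * W ≤ u1) :
    ∀ k ∈ pl S M (u1 / 4), W ≤ ls S M k ^ 2 * min (dl S M k) (du M k) := fun k hk => by
  obtain ⟨a, b, c⟩ := mem_pl hk
  have d := h.du0 a b
  rw [h.ls_eq a d]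
  have e := h.nu.sq_ge (h.dl0 a) d
  have : u1 / 4 ≤ min (du M k) u2 := le_min c (by linarith [h.nu.u2p])
  linarith

/-- **`KN.fin`** -/
theorem fin {u1 u : ℝ} (h1 : u1 ≤ u2) (hC : 2 * S.C * u1 ≤ 1) :
    ∀ k ∈ pl S M u, du M k ≤ u1 → 1 / S.C ≤ ls S M k := fun k hk hu => by
  obtain ⟨a, b, -⟩ := mem_pl hk
  have d := h.du0 a b
  have C0 : 0 < S.C := by linarith [h.C4]
  have e : 2 * u1 ≤ 1 / S.C := by rw [le_div_iff₀ C0]; linarith
  have f : 1 / S.C ≤ 1 / 4 := one_div_le_one_div_of_le (by norm_num) h.C4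
  rw [h.ls_eq a d]
  exact f.trans (h.nu.fin d (by linarith [h.sum_ge k]) (hu.trans h1))

/-- upper bound of the clock length -/
theorem ls_le (hk : S.J ≤ k) (hu : 0 < du M k) :
    ls S M k ≤ 3 / 2 * (la / √(min (dl S M k) (du M k))) := by
  rw [h.ls_eq hk hu]
  rcases le_total (dl S M k) (du M k) with e | e
  · rw [min_eq_left e]; exact (h.nu.lo (h.dl0 hk) e).2
  · rw [min_eq_right e]; exact (h.nu.hi hu e).2.2

end SD

end Crest.Agent.T156.Alt.Kn72

end
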