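import Crest.Agent.T156.LP_62
import Crest.Agent.T156.ClReg_29
import Crest.Agent.T156.KnQ_72

/-!
# Row 156: the plateau sums `KN.s2`, `KN.s4` on a static plateau (helper17)
-/

set_option autoImplicit false
set_option linter.unusedSectionVars false

noncomputable section

namespace Crest.Agent.T156.Alt.R62.K17

open Real Finset
open Crest.Agent.T156.Alt.Plt13

theorem db_mul {l A r : ℝ} (hl : 0 ≤ l) (hA : 0 < A) (h : r ≤ A) : db l A * r ≤ l / √A / 2 := by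
  have s := sqrt_pos.2 hA
  calc _ ≤ db l A * A := mul_le_mul_of_nonneg_left h (by unfold db; positivity)
    _ = _ := by unfold db; field_simp

theorem dt_mul {V l u r : ℝ} (hV : 0 < V) (hl : 0 < l) (hu : 0 < u) (h : r ≤ u) :
    dt V l u * r ≤ min (l / √u) V / 2 := by
  have s := sqrt_pos.2 hu
  have e : dt V l u * u = l * V / (V * √u + l) / 2 := by unfold dt; field_simp
  refine (mul_le_mul_of_nonneg_left h (dt_nn hV hl.le hu)).trans (e.trans_le ?_)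
  gcongr
  refine le_min ?_ ?_
  · rw [div_le_div_iff₀ (by positivity) s]; nlinarith [mul_pos hl hl]
  · rw [div_le_iff₀ (by positivity)]; nlinarith [mul_pos (mul_pos hV hV) s]

theorem p4 {a b c : ℝ} (ha : 0 ≤ a) (hb : 0 ≤ b) (hc : 0 ≤ c) :
    (a + b + c) ^ 4 ≤ 27 * (a ^ 4 + b ^ 4 + c ^ 4) := by
  have h1 : (a + b + c) ^ 2 ≤ 3 * (a ^ 2 + b ^ 2 + c ^ 2) := by
    nlinarith [sq_nonneg (a - b), sq_nonneg (b - c), sq_nonneg (a - c)]
  have h2 := pow_le_pow_left₀ (by positivity) h1 2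
  nlinarith [sq_nonneg (a ^ 2 - b ^ 2), sq_nonneg (b ^ 2 - c ^ 2), sq_nonneg (a ^ 2 - c ^ 2)]

theorem min4 {a b : ℝ} (ha : 0 ≤ a) (hb : 0 ≤ b) : min a b ^ 4 ≤ a ^ 2 * b ^ 2 := by
  have m := le_min ha hb
  calc _ = min a b ^ 2 * min a b ^ 2 := by ring
    _ ≤ _ := by gcongr; exacts [min_le_left _ _, min_le_right _ _]

/-- a static plateau with amplitude `l`, cap `V`, end `u2`; logarithms `≤ Λ` -/
structure SP (S : Sc) (M : Md) (l V u2 u1 Λ : ℝ) : Prop where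
  cl : Cl S M
  l0 : 0 < l
  V0 : 0 < V
  p2 : 0 < u2
  u0 : 0 < S.u0 ∧ S.u0 ≤ 1
  p1 : 0 < u1
  den : ∀ x, M.z (S.J - 1) ≤ x → x < 1 →
    S.den x = db l (x - M.z (S.J - 1) + S.u0) + dt V l (1 - x) + dt 1 (√u2) (1 - x)
  mesh : 4 * S.C * S.v ≤ l
  L0 : 2 * log (1 + 1 / S.u0) ≤ Λ
  L1 : 2 * log (1 + 1 / u1) ≤ Λ

namespace SP

variable {S : Sc} {M : Md} {l V u2 u1 Λ : ℝ} (P : SP S M l V u2 u1 Λ) {k : ℕ}
include P

theorem lw0 (k : ℕ) : 0 ≤ lw M k := sub_nonneg.2 (P.cl.leg.zm (Nat.sub_le k 1))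

theorem dl_ge (hk : S.J ≤ k) : S.u0 ≤ dl S M k :=
  le_add_of_nonneg_left (sub_nonneg.2 (P.cl.leg.zm (Nat.sub_le_sub_right hk 1)))

theorem dl0 (hk : S.J ≤ k) : 0 < dl S M k := P.u0.1.trans_le (P.dl_ge hk)

theorem dl_le (k : ℕ) : dl S M k ≤ 1 + S.u0 := by
  unfold dl; linarith [P.cl.leg.z1 (k - 1), P.cl.z_pos (S.J - 1)]

omit P in
theorem mem (hk : k ∈ pl S M u1) : S.J ≤ k ∧ k < S.Jp ∧ u1 ≤ du M k :=
  ⟨(mem_Ico.1 (mem_filter.1 hk).1).1, (mem_Ico.1 (mem_filter.1 hk).1).2, (mem_filter.1 hk).2⟩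

theorem den_k (hk : S.J ≤ k) (hu : 0 < du M k) : S.den (M.z (k - 1)) =
    db l (dl S M k) + dt V l (du M k) + dt 1 (√u2) (du M k) :=
  P.den _ (P.cl.leg.zm (Nat.sub_le_sub_right hk 1)) (sub_pos.1 hu)

/-- the three parts of the clock length -/
theorem ls_le (hk : S.J ≤ k) (hu : 0 < du M k) : ls S M k ≤
    l / √(dl S M k) / 2 + min (l / √(du M k)) V / 2 + min (√u2 / √(du M k)) 1 / 2 := by
  rw [ls, P.den_k hk hu, add_mul, add_mul]
  exact add_le_add_three (db_mul P.l0.le (P.dl0 hk) (min_le_left _ _))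
    (dt_mul P.V0 P.l0 hu (min_le_right _ _))
    (dt_mul one_pos (sqrt_pos.2 P.p2) hu (min_le_right _ _))

theorem ls0 (hk : S.J ≤ k) (hu : 0 < du M k) : 0 ≤ ls S M k :=
  mul_nonneg (P.cl.den0 _).le (le_min (P.dl0 hk).le hu.le)

theorem lw_le (hk : S.J ≤ k) (hk' : k < S.Jp) (hu : 0 < du M k) : lw M k ≤ dl S M k := by
  have a := (P.cl.plat k hk hk').2
  have A := P.dl0 hk
  have s := sqrt_pos.2 A
  have s2 : √(dl S M k) ≤ 2 := by rw [sqrt_le_left (by norm_num)]; linarith [P.dl_le k, P.u0.2]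
  have b : lw M k * db l (dl S M k) ≤ l / 4 := by
    refine le_trans (mul_le_mul_of_nonneg_left ?_ (P.lw0 k)) (a.trans (by linarith [P.mesh]))
    rw [P.den_k hk hu]
    linarith [dt_nn P.V0 P.l0.le hu, dt_nn one_pos (sqrt_nonneg u2) hu]
  rw [db, ← mul_div_assoc, div_le_iff₀ (by positivity)] at b
  refine le_of_mul_le_mul_right (b.trans ?_) P.l0
  nlinarith [mul_le_mul_of_nonneg_left s2 (mul_pos A P.l0).le]

theorem sum_dl : ∑ k ∈ pl S M u1, lw M k / dl S M k ≤ Λ := by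
  have j := P.cl.jl_lt
  have e : ∀ k, S.J ≤ k → dl S M (k + 1) = dl S M k + lw M k := fun k _ => by
    simp only [dl, lw, add_tsub_cancel_right]; ring
  calc _ ≤ ∑ k ∈ pl S M u1, 2 * (log (dl S M (k + 1)) - log (dl S M k)) :=
        sum_le_sum fun k hk => by
          obtain ⟨k1, k2, k3⟩ := mem hk
          have A := P.dl0 k1
          have w := P.lw0 k
          have x0 := div_nonneg w A.le
          have x1 := (div_le_one A).2 (P.lw_le k1 k2 (P.p1.trans_le k3))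
          have := le_log_one_add_of_nonneg x0
          rw [← log_div (P.dl0 (by omega)).ne' A.ne', e k k1, add_div, div_self A.ne']
          rw [div_le_iff₀ (by linarith)] at this
          nlinarith [log_nonneg (show 1 ≤ 1 + lw M k / dl S M k by linarith)]
    _ ≤ ∑ k ∈ Ico S.J S.Jp, 2 * (log (dl S M (k + 1)) - log (dl S M k)) :=
        sum_le_sum_of_subset_of_nonneg (filter_subset _ _) fun k hk _ => by
          have k1 := (mem_Ico.1 hk).1
          have := log_le_log (P.dl0 k1) (show _ ≤ dl S M (k + 1) by linarith [e k k1, P.lw0 k])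
          linarith
    _ ≤ Λ := by
        rw [← mul_sum, sum_Ico_sub (fun k => log (dl S M k)) P.cl.i3,
          ← log_div (P.dl0 P.cl.i3).ne' (P.dl0 le_rfl).ne']
        refine le_trans (mul_le_mul_of_nonneg_left (log_le_log
          (div_pos (P.dl0 P.cl.i3) (P.dl0 le_rfl)) ?_) zero_le_two) P.L0
        have u := P.u0.1
        calc _ ≤ (1 + S.u0) / S.u0 := by
              gcongr
              exacts [P.dl_le _, P.dl_ge le_rfl]
          _ = _ := by field_simp; ring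

theorem sum_du : ∑ k ∈ pl S M u1, lw M k / du M k ≤ Λ := by
  have u := P.p1
  have d : ∀ k, 0 < du M k + u1 := fun k => by
    unfold du; linarith [P.cl.leg.z1 (k - 1)]
  have e : ∀ k, du M (k + 1) = du M k - lw M k := fun k => by
    simp only [du, lw, add_tsub_cancel_right]; ring
  have f : ∀ k, lw M k / (du M k + u1) ≤ log (du M k + u1) - log (du M (k + 1) + u1) := fun k => by
    have := log_le_sub_one_of_pos (div_pos (d (k + 1)) (d k))
    rw [log_div (d _).ne' (d _).ne', e, show du M k - lw M k + u1 = du M k + u1 - lw M k by ring,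
      sub_div, div_self (d k).ne'] at this
    rw [e, show du M k - lw M k + u1 = du M k + u1 - lw M k by ring]
    linarith
  calc _ ≤ ∑ k ∈ pl S M u1, 2 * (lw M k / (du M k + u1)) := sum_le_sum fun k hk => by
        have k3 := (mem hk).2.2
        rw [← mul_div_assoc, div_le_div_iff₀ (u.trans_le k3) (d k)]
        nlinarith [P.lw0 k]
    _ ≤ ∑ k ∈ Ico S.J S.Jp, 2 * -(log (du M (k + 1) + u1) - log (du M k + u1)) :=
        (sum_le_sum_of_subset_of_nonneg (filter_subset _ _) fun k _ _ =>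
          mul_nonneg zero_le_two (div_nonneg (P.lw0 k) (d k).le)).trans
          (sum_le_sum fun k _ => by linarith [f k])
    _ ≤ Λ := by
        rw [← mul_sum, sum_neg_distrib, sum_Ico_sub (fun k => log (du M k + u1)) P.cl.i3, neg_sub,
          ← log_div (d _).ne' (d _).ne']
        refine le_trans (mul_le_mul_of_nonneg_left (log_le_log (div_pos (d _) (d _)) ?_)
          zero_le_two) P.L1
        calc _ ≤ (1 + u1) / u1 := by
              gcongr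
              · unfold du; linarith [P.cl.z_pos (S.J - 1)]
              · unfold du; linarith [P.cl.leg.z1 (S.Jp - 1)]
          _ = _ := by field_simp; ring

/-- a weight `≤ a / dl + b / du` has the sum `≤ (a + b) Λ` -/
theorem sum_le {f : ℕ → ℝ} {a b : ℝ} (ha : 0 ≤ a) (hb : 0 ≤ b)
    (h : ∀ k ∈ pl S M u1, f k ≤ a / dl S M k + b / du M k) :
    ∑ k ∈ pl S M u1, lw M k * f k ≤ (a + b) * Λ := by
  calc _ ≤ ∑ k ∈ pl S M u1, (a * (lw M k / dl S M k) + b * (lw M k / du M k)) :=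
        sum_le_sum fun k hk => (mul_le_mul_of_nonneg_left (h k hk) (P.lw0 k)).trans_eq (by ring)
    _ ≤ _ := by
        rw [sum_add_distrib, ← mul_sum, ← mul_sum, add_mul]
        gcongr
        exacts [P.sum_dl, P.sum_du]

theorem ls_sq (hk : S.J ≤ k) (hu : 0 < du M k) :
    ls S M k ^ 2 ≤ l ^ 2 / dl S M k + (l ^ 2 + u2) / du M k := by
  have A := P.dl0 hk
  have l0 := P.l0
  have a : (l / √(dl S M k)) ^ 2 = l ^ 2 / dl S M k := by rw [div_pow, sq_sqrt A.le]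
  have b : (l / √(du M k)) ^ 2 = l ^ 2 / du M k := by rw [div_pow, sq_sqrt hu.le]
  have c : (√u2 / √(du M k)) ^ 2 = u2 / du M k := by rw [div_pow, sq_sqrt hu.le, sq_sqrt P.p2.le]
  have e : ls S M k ≤ l / √(dl S M k) / 2 + l / √(du M k) / 2 + √u2 / √(du M k) / 2 :=
    (P.ls_le hk hu).trans (by gcongr <;> exact min_le_left _ _)
  rw [add_div, ← a, ← b, ← c]
  refine (pow_le_pow_left₀ (P.ls0 hk hu) e 2).trans ?_
  generalize l / √(dl S M k) = x, l / √(du M k) = y, √u2 / √(du M k) = z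
  nlinarith [sq_nonneg (x - y), sq_nonneg (y - z), sq_nonneg (x - z), sq_nonneg x, sq_nonneg y,
    sq_nonneg z]

/-- **`KN.s2`** -/
theorem s2 : ∑ k ∈ pl S M u1, lw M k * ls S M k ^ 2 ≤ (2 * l ^ 2 + u2) * Λ :=
  (P.sum_le (sq_nonneg l) (add_nonneg (sq_nonneg l) P.p2.le) fun _ hk =>
    P.ls_sq (mem hk).1 (P.p1.trans_le (mem hk).2.2)).trans_eq (by ring)

theorem a4 (hk : S.J ≤ k) : (l / √(dl S M k)) ^ 4 ≤ l ^ 4 / S.u0 / dl S M k := by
  have A := P.dl0 hk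
  have u := P.u0.1
  rw [div_pow, show √(dl S M k) ^ 4 = (√(dl S M k) ^ 2) ^ 2 by ring, sq_sqrt A.le, div_div, sq (dl S M k)]
  gcongr
  exact P.dl_ge hk

omit P in
theorem b4 {l V u : ℝ} (hl : 0 ≤ l) (hV : 0 ≤ V) (hu : 0 < u) :
    min (l / √u) V ^ 4 ≤ l ^ 2 * V ^ 2 / u :=
  (min4 (by positivity) hV).trans_eq (by rw [div_pow, sq_sqrt hu.le]; ring)

theorem ls_four (hk : S.J ≤ k) (hu : 0 < du M k) :
    ls S M k ^ 4 ≤ 2 * (l ^ 4 / S.u0) / dl S M k + 2 * (l ^ 2 * V ^ 2 + u2) / du M k := by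
  have l0 := P.l0
  have V0 := P.V0
  have a := P.a4 hk
  have b := b4 l0.le V0.le hu
  have c := b4 (sqrt_nonneg u2) zero_le_one hu
  rw [sq_sqrt P.p2.le, one_pow, mul_one] at c
  have x0 : 0 ≤ l / √(dl S M k) := by positivity
  have y0 : 0 ≤ min (l / √(du M k)) V := by positivity
  have z0 : 0 ≤ min (√u2 / √(du M k)) 1 := by positivity
  have e := (pow_le_pow_left₀ (P.ls0 hk hu) (P.ls_le hk hu) 4).trans
    (p4 (by positivity) (by positivity) (by positivity))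
  rw [mul_div_assoc, mul_div_assoc, add_div]
  simp only [div_pow _ (2 : ℝ)] at e
  linarith [pow_nonneg x0 4, pow_nonneg y0 4, pow_nonneg z0 4]

theorem sum_four : ∑ k ∈ pl S M u1, lw M k * ls S M k ^ 4 ≤
    2 * (l ^ 4 / S.u0 + l ^ 2 * V ^ 2 + u2) * Λ := by
  have u := P.u0.1
  have := P.p2
  exact (P.sum_le (by positivity) (by positivity) fun _ hk =>
    P.ls_four (mem hk).1 (P.p1.trans_le (mem hk).2.2)).trans_eq (by ring)

theorem inv_mul (hk : S.J ≤ k) (hu : 0 < du M k) :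
    1 / (dl S M k * du M k) ≤ S.C / dl S M k + S.C / du M k := by
  have A := P.dl0 hk
  have C := P.cl.C0
  have a : 1 / S.C ≤ dl S M k + du M k := by
    unfold dl du; linarith [P.cl.atom.2, P.u0.1]
  rw [div_le_iff₀ C] at a
  rw [div_add_div _ _ A.ne' hu.ne']
  gcongr
  linarith

variable {Pt Vt Λ₁ : ℝ}

/-- the tolerance term; `W` bounds the cap part in either way -/
theorem min_four (hP : 0 ≤ Pt) (hV : 0 ≤ Vt) (hΛ : 0 ≤ Λ₁) (hk : S.J ≤ k) (hu : 0 < du M k) :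
    min (√(Pt / du M k)) (Vt + Λ₁ * ls S M k) ^ 4 ≤ 7 * (S.C * (Pt * Λ₁ ^ 2 * l ^ 2)) / dl S M k +
      (7 * (S.C * (Pt * Λ₁ ^ 2 * l ^ 2)) + 27 * (Pt * (Vt + Λ₁ * V) ^ 2) + 2 * (Λ₁ ^ 4 * u2)) /
        du M k := by
  have l0 := P.l0
  have V0 := P.V0
  have A := P.dl0 hk
  have hu2 := P.p2
  set y := √(Pt / du M k)
  have y0 : 0 ≤ y := sqrt_nonneg _
  have y2 : y ^ 2 = Pt / du M k := sq_sqrt (by positivity)
  set x := l / √(dl S M k) / 2 with hx
  set z := min (√u2 / √(du M k)) 1 with hz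
  have x0 : 0 ≤ x := by positivity
  have z0 : 0 ≤ z := by positivity
  have e : Vt + Λ₁ * ls S M k ≤ Λ₁ * x + (Vt + Λ₁ * V) + Λ₁ * (z / 2) := by
    have := (P.ls_le hk hu).trans (show _ ≤ x + V + z / 2 by
      linarith [min_le_right (l / √(du M k)) V])
    nlinarith [mul_le_mul_of_nonneg_left this hΛ]
  have p1 : 0 ≤ Λ₁ * x := by positivity
  have p2 : 0 ≤ Vt + Λ₁ * V := by positivity
  have p3 : 0 ≤ Λ₁ * (z / 2) := by positivity
  have m1 := le_min y0 p1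
  have m2 := le_min y0 p2
  have f : min y (Vt + Λ₁ * ls S M k) ≤ min y (Λ₁ * x) + min y (Vt + Λ₁ * V) + Λ₁ * (z / 2) := by
    rcases min_choice y (Λ₁ * x) with a | a
    · linarith [min_le_left y (Vt + Λ₁ * ls S M k)]
    rcases min_choice y (Vt + Λ₁ * V) with b | b
    · linarith [min_le_left y (Vt + Λ₁ * ls S M k)]
    · linarith [min_le_right y (Vt + Λ₁ * ls S M k)]
  have g := (pow_le_pow_left₀ (le_min y0 (add_nonneg hV (mul_nonneg hΛ (P.ls0 hk hu)))) f 4).trans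
    (p4 m1 m2 p3)
  have a := min4 y0 p1
  have b := min4 y0 p2
  have c := b4 (sqrt_nonneg u2) zero_le_one hu
  rw [sq_sqrt P.p2.le, one_pow, mul_one, ← hz] at c
  have a' : y ^ 2 * (Λ₁ * x) ^ 2 = Pt * Λ₁ ^ 2 * l ^ 2 * (1 / (dl S M k * du M k)) / 4 := by
    rw [y2, hx, mul_pow, div_pow, div_pow, sq_sqrt A.le]; field_simp; norm_num
  have a'' := mul_le_mul_of_nonneg_left (P.inv_mul hk hu) (show 0 ≤ Pt * Λ₁ ^ 2 * l ^ 2 by positivity)
  have c' : (Λ₁ * (z / 2)) ^ 4 ≤ Λ₁ ^ 4 * (u2 / du M k) / 16 := by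
    rw [mul_pow, div_pow, ← mul_div_assoc]
    norm_num
    gcongr
  have C := P.cl.C0
  have q1 : 0 ≤ Pt * Λ₁ ^ 2 * l ^ 2 * (S.C / dl S M k) := by positivity
  have q2 : 0 ≤ Pt * Λ₁ ^ 2 * l ^ 2 * (S.C / du M k) := by positivity
  have q3 : 0 ≤ Λ₁ ^ 4 * (u2 / du M k) := by positivity
  calc _ ≤ 7 * (Pt * Λ₁ ^ 2 * l ^ 2 * (S.C / dl S M k)) + (7 * (Pt * Λ₁ ^ 2 * l ^ 2 * (S.C / du M k)) +
        27 * (Pt / du M k * (Vt + Λ₁ * V) ^ 2) + 2 * (Λ₁ ^ 4 * (u2 / du M k))) := by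
        rw [y2] at b
        linarith
    _ = _ := by ring

/-- **`KN.s4`**, the sum -/
theorem s4 (hP : 0 ≤ Pt) (hV : 0 ≤ Vt) (hΛ : 0 ≤ Λ₁) : ∑ k ∈ pl S M u1, lw M k *
    (ls S M k ^ 4 + min (√(Pt / du M k)) (Vt + Λ₁ * ls S M k) ^ 4) ≤
    (2 * (l ^ 4 / S.u0 + l ^ 2 * V ^ 2 + u2) + 14 * (S.C * (Pt * Λ₁ ^ 2 * l ^ 2)) +
      27 * (Pt * (Vt + Λ₁ * V) ^ 2) + 2 * (Λ₁ ^ 4 * u2)) * Λ := by
  have C := P.cl.C0
  have := P.p2
  have b := P.sum_le (by positivity) (by positivity) fun _ hk =>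
    P.min_four hP hV hΛ (mem hk).1 (P.p1.trans_le (mem hk).2.2)
  simp only [mul_add (lw M _), sum_add_distrib]
  linarith [P.sum_four]

/-- **`KN.s4`**, second form -/
theorem s4' (hP : 0 ≤ Pt) (hV : 0 ≤ Vt) (hΛ : 0 ≤ Λ₁) : ∑ k ∈ pl S M u1, lw M k *
    (ls S M k ^ 4 + min (√(Pt / du M k)) (Vt + Λ₁ * ls S M k) ^ 4) ≤
    (2 * (1 + 8 * Λ₁ ^ 4) * (l ^ 4 / S.u0 + l ^ 2 * V ^ 2 + u2) + 8 * (Pt * Vt ^ 2)) * Λ := by
  have b := P.sum_le (f := fun k => min (√(Pt / du M k)) Vt ^ 4) (a := 0) (b := Pt * Vt ^ 2) le_rfl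
    (by positivity) fun k hk => by
      have hu := P.p1.trans_le (mem hk).2.2
      refine (min4 (sqrt_nonneg _) hV).trans_eq ?_
      rw [sq_sqrt (by positivity)]; ring
  have c := mul_le_mul_of_nonneg_left P.sum_four (show 0 ≤ 1 + 8 * Λ₁ ^ 4 by positivity)
  refine le_trans (sum_le_sum (g := fun k => (1 + 8 * Λ₁ ^ 4) * (lw M k * ls S M k ^ 4) +
    8 * (lw M k * min (√(Pt / du M k)) Vt ^ 4)) fun k hk => ?_) ?_
  · have s := mul_nonneg hΛ (P.ls0 (mem hk).1 (P.p1.trans_le (mem hk).2.2))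
    have m := le_min (sqrt_nonneg (Pt / du M k)) hV
    have f : min (√(Pt / du M k)) (Vt + Λ₁ * ls S M k) ≤ min (√(Pt / du M k)) Vt + Λ₁ * ls S M k := by
      rcases min_choice (√(Pt / du M k)) Vt with a | a <;> rw [a]
      · linarith [min_le_left (√(Pt / du M k)) (Vt + Λ₁ * ls S M k)]
      · exact min_le_right _ _
    have g := (pow_le_pow_left₀ (le_min (sqrt_nonneg _) (add_nonneg hV s)) f 4).trans
      (add_pow_le m s 4)
    have := mul_le_mul_of_nonneg_left g (P.lw0 k)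
    norm_num at this
    linarith
  · rw [sum_add_distrib, ← mul_sum, ← mul_sum]
    linarith

end SP

/-! ### on the frame `Kn72.SD` -/

section
variable {S : Sc} {M : Md} {la V u2 u1 Λ Pt Vt Λ₁ : ℝ} (D : Kn72.SD S M la V u2)
  (hv : 4 * S.C * S.v ≤ la) (h1 : 0 < u1) (h2 : u1 ≤ u2) (hΛ : 2 * log (1 + 1 / u1) ≤ Λ)
include D hv h1 h2 hΛ

theorem sp_of : SP S M la V u2 u1 Λ := by
  have N := D.nu
  have l1 := N.lV.trans N.V1
  have a : S.u0 ≤ 1 := D.u0 ▸ rpow_le_one N.lp.le l1 (by norm_num)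
  have b : la ^ 2 ≤ S.u0 := by
    rw [D.u0, ← rpow_natCast]
    exact rpow_le_rpow_of_exponent_ge N.lp l1 (by norm_num)
  refine ⟨D.cl, N.lp, N.Vp, N.u2p, ⟨D.u0p, a⟩, h1, fun x x0 x1 => ?_, hv, le_trans ?_ hΛ, hΛ⟩
  · rw [D.den, den_eq x0 x1, add_zero]
  · have := D.u0p
    have := h2.trans (N.u2_sq.trans b)
    gcongr

theorem L0 : 0 ≤ Λ := le_trans (mul_nonneg zero_le_two (log_nonneg (by
  linarith [one_div_pos.2 h1]))) hΛ

/-- **`KN.s2`** from `3 Λ la² ≤ Pt` -/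
theorem s2 (h : 3 * Λ * la ^ 2 ≤ Pt) : ∑ k ∈ pl S M u1, lw M k * ls S M k ^ 2 ≤ Pt :=
  (sp_of D hv h1 h2 hΛ).s2.trans (by
    nlinarith [mul_le_mul_of_nonneg_left D.nu.u2_sq (L0 D hv h1 h2 hΛ)])

/-- **`KN.s4`**; `la⁴ / u₀ = la² u₀²` -/
theorem s4 (hP : 0 ≤ Pt) (hV : 0 ≤ Vt) (hL : 1 ≤ Λ₁) {l V4 : ℝ}
    (h : Λ * (2 * (la ^ 2 * (S.u0 ^ 2 + V ^ 2)) + 41 * (S.C * (Pt * (Vt + Λ₁ * V) ^ 2)) +
      4 * (Λ₁ ^ 4 * u2)) + Pt * l ^ 2 + u1 ≤ V4) :
    ∑ k ∈ pl S M u1, lw M k * (ls S M k ^ 4 + min (√(Pt / du M k)) (Vt + Λ₁ * ls S M k) ^ 4) +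
      Pt * l ^ 2 + u1 ≤ V4 := by
  have N := D.nu
  have L := zero_le_one.trans hL
  have u := D.u0p
  have C := D.cl.C1
  have a : la ^ 4 / S.u0 = la ^ 2 * S.u0 ^ 2 := by
    rw [div_eq_iff u.ne', show la ^ 4 = la ^ 2 * la ^ 2 by ring, mul_assoc, ← pow_succ, D.u0_cube]
  have b : Pt * Λ₁ ^ 2 * la ^ 2 ≤ Pt * (Vt + Λ₁ * V) ^ 2 := by
    rw [mul_assoc, ← mul_pow]
    have := N.lp
    gcongr
    linarith [mul_le_mul_of_nonneg_left N.lV L]
  have c := le_mul_of_one_le_left (show 0 ≤ Pt * (Vt + Λ₁ * V) ^ 2 by positivity) C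
  have d := le_mul_of_one_le_left N.u2p.le (one_le_pow₀ (n := 4) hL)
  have e := mul_le_mul_of_nonneg_left b (zero_le_one.trans C)
  refine le_trans (add_le_add_left (add_le_add_left (((sp_of D hv h1 h2 hΛ).s4 hP hV L).trans ?_)
    _) _) h
  rw [mul_comm _ Λ, a]
  exact mul_le_mul_of_nonneg_left (by linarith) (L0 D hv h1 h2 hΛ)

end

end Crest.Agent.T156.Alt.R62.K17

end
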