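import Crest.Agent.T156.LDef_69
import Crest.Agent.T156.KnQ_72

/-!
# Row 156: the location kit `R62.LK` from the outputs of SR and (L), class level (helper37)
-/

set_option autoImplicit false
set_option linter.unusedSectionVars false

noncomputable section

namespace Crest.Agent.T156.Alt.Lk37

open Real Finset Plt13
open Crest.Agent.T156.Alt.L69 (mf GS GP Pla LO Rp ap)
open Crest.Agent.T156.Alt.R62 (lw sb pl ls T0 LK)
open Crest.Agent.T156.Alt.Kn72 (SD)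

variable {S : Sc} {M : Md} {m : ℕ} {a : ℝ}

/-- the total sum (`= M.Phi S m a` by `rfl`) -/
def Tot (S : Sc) (M : Md) (m : ℕ) (a : ℝ) : ℝ := ∑ k ∈ Ioc S.jl S.Jp, lw M k * M.del m a k ^ 2

theorem dx_nn (c : Cl S M) (k : ℕ) : 0 ≤ lw M k := sub_nonneg.2 (c.leg.zm (Nat.sub_le k 1))

theorem term_nn (c : Cl S M) (f : ℕ → ℝ) (k : ℕ) : 0 ≤ lw M k * f k ^ 2 :=
  mul_nonneg (dx_nn c k) (sq_nonneg _)

theorem le_tot (c : Cl S M) {T : Finset ℕ} (h : ∀ k ∈ T, S.jl < k ∧ k ≤ S.Jp) :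
    ∑ k ∈ T, lw M k * M.del m a k ^ 2 ≤ Tot S M m a :=
  sum_le_sum_of_subset_of_nonneg (fun k hk => mem_Ioc.2 (h k hk)) fun k _ _ => term_nn c _ k

theorem mem_blk {t t' : ℝ} {k : ℕ} :
    k ∈ M.blk S t t' ↔ (S.j0 < k ∧ k ≤ S.Jp) ∧ t ≤ M.s k ∧ M.s k ≤ t' := by
  rw [Md.blk, mem_filter, mem_Ioc]

theorem Pla_eq (M : Md) (S : Sc) (m : ℕ) (a : ℝ) :
    Pla M S m a 2 = ∑ k ∈ Icc S.J S.Jp, lw M k * M.del m a k ^ 2 :=
  sum_congr rfl fun k _ => by rw [sq_abs]; rfl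

theorem phi_eq (c : Cl S M) (jj : S.j0 = S.jl) : L69.Phi M S m a = Tot S M m a := by
  rw [L69.Phi, Md.En, Md.blk, filter_true_of_mem fun k hk =>
    ⟨c.s_nn k, c.s_le_C (mem_Ioc.1 hk).2⟩, jj]
  exact sum_congr rfl fun k _ => by rw [sq_abs]; rfl

/-- `∑ dx δ²` over the sloped nodes with time in `[t, t']` -/
def Q (S : Sc) (M : Md) (m : ℕ) (a t t' : ℝ) : ℝ := ∑ k ∈ sb S M t t', lw M k * M.del m a k ^ 2

theorem mem_sb {t t' : ℝ} {k : ℕ} :
    k ∈ sb S M t t' ↔ (S.jl < k ∧ k < S.J) ∧ t ≤ M.s k ∧ M.s k ≤ t' := by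
  rw [sb, mem_filter, mem_Ioo]

theorem sb_sub (c : Cl S M) (t t' : ℝ) : sb S M t t' ⊆ (M.blk S t t').filter (· < S.J) :=
  fun k hk => by
    have i1 := c.i1
    have i3 := c.i3
    obtain ⟨⟨a, b⟩, d⟩ := mem_sb.1 hk
    exact mem_filter.2 ⟨mem_blk.2 ⟨⟨by omega, by omega⟩, d⟩, b⟩

theorem Q_nn (c : Cl S M) (t t' : ℝ) : 0 ≤ Q S M m a t t' := sum_nonneg fun k _ => term_nn c _ k

theorem Q_phi (c : Cl S M) (t t' : ℝ) : Q S M m a t t' ≤ Tot S M m a :=
  le_tot c fun k hk => by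
    have i3 := c.i3
    have := (mem_sb.1 hk).1
    omega

theorem Q_mono (c : Cl S M) {t t' r r' : ℝ} (h : r ≤ t) (h' : t' ≤ r') :
    Q S M m a t t' ≤ Q S M m a r r' :=
  sum_le_sum_of_subset_of_nonneg (fun k hk => by
    rw [mem_sb] at hk ⊢
    exact ⟨hk.1, h.trans hk.2.1, hk.2.2.trans h'⟩) fun k _ _ => term_nn c _ k

theorem Q_add (c : Cl S M) (t t' t'' : ℝ) :
    Q S M m a t t'' ≤ Q S M m a t t' + Q S M m a t' t'' := by
  have h := sum_union_inter (s₁ := sb S M t t') (s₂ := sb S M t' t'')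
    (f := fun k => lw M k * M.del m a k ^ 2)
  have h1 := sum_nonneg fun k (_ : k ∈ sb S M t t' ∩ sb S M t' t'') => term_nn c (M.del m a) k
  have h2 := sum_le_sum_of_subset_of_nonneg (f := fun k => lw M k * M.del m a k ^ 2)
    (show sb S M t t'' ⊆ sb S M t t' ∪ sb S M t' t'' from fun k hk => by
      simp only [mem_union, mem_sb] at hk ⊢
      rcases le_total (M.s k) t' with e | e
      · exact .inl ⟨hk.1, hk.2.1, e⟩
      · exact .inr ⟨hk.1, e, hk.2.2⟩) fun k _ _ => term_nn c _ k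
  unfold Q
  linarith

/-- label weight of a time window -/
theorem wt_win (c : Cl S M) {t t' : ℝ} (h : t ≤ t') :
    ∑ k ∈ sb S M t t', lw M k ≤ S.C ^ 3 * (t' - t) + S.C * S.v := by
  have C0 := c.C0
  have v0 := c.v0
  have i1 := c.i1
  rcases (sb S M t t').eq_empty_or_nonempty with e | ne
  · rw [e, sum_empty]; have := sub_nonneg.2 h; positivity
  obtain ⟨⟨a1, a2⟩, a3, -⟩ := mem_sb.1 ((sb S M t t').min'_mem ne)
  obtain ⟨⟨b1, b2⟩, -, b3⟩ := mem_sb.1 ((sb S M t t').max'_mem ne)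
  have ab := (sb S M t t').min'_le _ ((sb S M t t').max'_mem ne)
  set i := (sb S M t t').min' ne
  set j := (sb S M t t').max' ne
  have k1 : ∀ k ∈ sb S M t t', lw M k ≤ S.C * S.v := fun k hk => by
    obtain ⟨⟨d1, d2⟩, -⟩ := mem_sb.1 hk
    have := (c.zs (k - 1) (by omega) (by omega)).2
    rwa [show k - 1 + 1 = k by omega] at this
  have k2 : ((sb S M t t').card : ℝ) ≤ (j : ℝ) - i + 1 := by
    have := card_le_card (show sb S M t t' ⊆ Icc i j from fun k hk =>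
      mem_Icc.2 ⟨min'_le _ k hk, le_max' _ k hk⟩)
    rw [Nat.card_Icc] at this
    have e : ((j + 1 - i : ℕ) : ℝ) = (j : ℝ) - i + 1 := by
      rw [Nat.cast_sub (by omega)]; push_cast; ring
    rw [← e]; exact_mod_cast this
  have k3 : ∀ q, i ≤ q → q ≤ j → ((q : ℝ) - i) * (S.v / S.C) ≤ M.s q - M.s i := by
    intro q hq
    induction q, hq using Nat.le_induction with
    | base => intro _; simp
    | succ q hq ih =>
      intro hj
      have := (c.ss q (by omega)).1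
      have := ih (by omega)
      push_cast; linarith
  have k4 := k3 j ab le_rfl
  have k5 : ((j : ℝ) - i) * S.v ≤ S.C * (t' - t) := by
    rw [← mul_div_assoc, div_le_iff₀ C0] at k4
    nlinarith
  have k6 := (sum_le_card_nsmul _ _ _ k1).trans_eq (nsmul_eq_mul _ _)
  have k7 := mul_le_mul_of_nonneg_right k2 (mul_pos C0 v0).le
  have k8 := mul_le_mul_of_nonneg_left k5 C0.le
  have k9 : S.C * (S.C * (t' - t)) ≤ S.C ^ 3 * (t' - t) := by
    have := mul_le_mul_of_nonneg_right (pow_le_pow_right₀ c.C1 (show 2 ≤ 3 by norm_num))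
      (sub_nonneg.2 h)
    linarith
  linarith

/-- from a sup bound -/
theorem Q_sup (c : Cl S M) {t t' D : ℝ} (h : t ≤ t')
    (hD : ∀ k, S.jl < k → k < S.J → t ≤ M.s k → M.s k ≤ t' → |M.del m a k| ≤ D) :
    Q S M m a t t' ≤ (S.C ^ 3 * (t' - t) + S.C * S.v) * D ^ 2 := by
  refine le_trans (sum_le_sum fun k hk => ?_) ((sum_mul _ _ _).symm.trans_le
    (mul_le_mul_of_nonneg_right (wt_win c h) (sq_nonneg D)))
  obtain ⟨⟨a1, a2⟩, a3, a4⟩ := mem_sb.1 hk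
  refine mul_le_mul_of_nonneg_left ?_ (dx_nn c k)
  rw [← sq_abs]
  exact pow_le_pow_left₀ (abs_nonneg _) (hD k a1 a2 a3 a4) 2

variable {Λ t0 u En : ℝ}

/-- from `LO.two` -/
theorem Q_two (c : Cl S M) (h : LO Λ S M m a t0 u En) {t t' : ℝ} (h0 : t0 ≤ t) (h1 : t ≤ t') :
    Q S M m a t t' ≤ Λ * (min (√(t' * En)) (En / mf S t) + GS M S t t' + 1 / (S.n : ℝ) ^ 2) :=
  (sum_le_sum_of_subset_of_nonneg (sb_sub c t t') fun k _ _ => term_nn c _ k).trans (h.two t t' h0 h1)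

/-- from `LO.four` by Cauchy–Schwarz -/
theorem Q_four (c : Cl S M) (h : LO Λ S M m a t0 u En) {t t' G4 : ℝ} (h0 : t0 ≤ t) (h1 : t ≤ t')
    (h2 : t' ≤ S.C) (hΛ : 0 ≤ Λ)
    (hG : ∑ k ∈ (M.blk S t0 S.C).filter (· < S.J), L69.dx M k * M.G k ^ 4 ≤ G4) :
    Q S M m a t t' ≤ √((S.C ^ 3 * (t' - t) + S.C * S.v) * (Λ * (En + G4 + 1 / (S.n : ℝ) ^ 4))) := by
  have p : ∀ k, 0 ≤ lw M k := fun k => dx_nn c k
  have q : ∀ k, 0 ≤ lw M k * M.del m a k ^ 4 := fun k => mul_nonneg (p k) (by positivity)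
  have cs := sum_sq_le_sum_mul_sum_of_sq_le_mul (sb S M t t')
    (r := fun k => lw M k * M.del m a k ^ 2) (f := fun k => lw M k)
    (g := fun k => lw M k * M.del m a k ^ 4) (fun k _ => p k) (fun k _ => q k) fun k _ => le_of_eq (by ring)
  have b : ∑ k ∈ sb S M t t', lw M k * M.del m a k ^ 4 ≤ Λ * (En + G4 + 1 / (S.n : ℝ) ^ 4) := by
    refine (sum_le_sum_of_subset_of_nonneg (fun k hk => sb_sub c t0 S.C ?_)
      fun k _ _ => q k).trans (h.four.trans (mul_le_mul_of_nonneg_left (by linarith) hΛ))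
    rw [mem_sb] at hk ⊢
    exact ⟨hk.1, h0.trans hk.2.1, hk.2.2.trans h2⟩
  refine le_sqrt_of_sq_le (cs.trans (mul_le_mul (wt_win c h1) b (sum_nonneg fun k _ => q k) ?_))
  exact (sum_nonneg fun k _ => p k).trans (wt_win c h1)

/-- the top zone -/
theorem top_le (c : Cl S M) (t : ℝ) :
    ∑ k ∈ sb S M t S.C ∪ Icc S.J S.Jp, lw M k * M.del m a k ^ 2 ≤ Q S M m a t S.C + Pla M S m a 2 := by
  have h := sum_union_inter (s₁ := sb S M t S.C) (s₂ := Icc S.J S.Jp)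
    (f := fun k => lw M k * M.del m a k ^ 2)
  have h1 := sum_nonneg fun k (_ : k ∈ sb S M t S.C ∩ Icc S.J S.Jp) => term_nn c (M.del m a) k
  rw [Pla_eq]
  unfold Q
  linarith

theorem top_phi (c : Cl S M) (t : ℝ) :
    ∑ k ∈ sb S M t S.C ∪ Icc S.J S.Jp, lw M k * M.del m a k ^ 2 ≤ Tot S M m a :=
  le_tot c fun k hk => by
    have i2 := c.i2
    have i3 := c.i3
    rcases mem_union.1 hk with e | e
    · have := (mem_sb.1 e).1; omega
    · have := mem_Icc.1 e; omega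

/-- sloped nodes lie below `s J` -/
theorem Q_top (c : Cl S M) (t : ℝ) : Q S M m a t S.C ≤ Q S M m a t (M.s S.J) :=
  sum_le_sum_of_subset_of_nonneg (fun k hk => by
    rw [mem_sb] at hk ⊢
    exact ⟨hk.1, hk.2.1, c.sm hk.1.2.le⟩) fun k _ _ => term_nn c _ k

/-- **the kit**: every bound may be replaced by the total one -/
theorem lk_of (c : Cl S M) {Φ l0 Λ₁ Pt Vt u1 : ℝ} {P : ℝ → ℝ} (h0 : Tot S M m a ≤ Φ)
    (h1 : ∀ t, l0 ≤ t → t ≤ T0 S M → Φ ≤ P t ∨ Q S M m a (t / 4) (8 * t) ≤ P t)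
    (h2 : Φ ≤ Pt ∨ Q S M m a (T0 S M / 4) S.C + Pla M S m a 2 ≤ Pt)
    (h3 : ∀ k ∈ pl S M (u1 / 4), M.del m a k ≤ Vt + Λ₁ * ls S M k) :
    LK S M m a Φ P l0 Λ₁ Pt Vt u1 :=
  ⟨h0, fun t a b => (h1 t a b).elim (fun e => (Q_phi c _ _).trans (h0.trans e)) id,
    h2.elim (fun e => (top_phi c _).trans (h0.trans e)) fun e => (top_le c _).trans e, h3⟩

/-! ### the upper bound on the static plateau -/

section up

variable {la V u2 : ℝ} (D : SD S M la V u2)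
include D

/-- one step of the grid stays in its shell -/
theorem step (hv : 8 * S.C * S.v ≤ √u2) {i : ℕ} (h0 : S.J ≤ i) (h1 : i < S.Jp) :
    2 * (M.z i - M.z (i - 1)) ≤ min (R62.dl S M i) (R62.du M i) := by
  have a := D.ls_ge h0 h1
  have b := (D.cl.plat i h0 h1).2
  have d := D.cl.den0 (M.z (i - 1))
  unfold ls at a
  refine le_of_mul_le_mul_left ?_ d
  linarith

/-- the clock -/
theorem clock (hv : 8 * S.C * S.v ≤ √u2) {k : ℕ} (h0 : S.J ≤ k) (h1 : k ≤ S.Jp) :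
    M.z (k - 1) < 1 ∧ ((k : ℝ) - S.J) * S.v ≤
      3 * S.C * (rho (M.z (S.J - 1)) S.u0 la V u2 0 (M.z (k - 1)) -
        rho (M.z (S.J - 1)) S.u0 la V u2 0 (M.z (S.J - 1))) := by
  have C0 := D.cl.C0
  have x1 : M.z (S.J - 1) < 1 := by linarith [D.cl.atom.2, one_div_pos.2 C0]
  have K := clk x1 D.u0p D.nu.lp D.nu.Vp D.nu.u2p le_rfl
  induction k, h0 using Nat.le_induction with
  | base => exact ⟨x1, by simp⟩
  | succ k hk ih =>
    obtain ⟨a, b⟩ := ih (by omega)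
    have s := le_min_iff.1 (step D hv hk h1)
    have z := D.cl.leg.zm (Nat.sub_le k 1)
    unfold R62.dl R62.du at s
    have e : M.z k < 1 := by linarith [s.2]
    have f := (K.slope (D.xs_le hk) z e (le_min (by linarith [s.1]) (by linarith [s.2]))).1
    have g := (D.cl.plat k hk h1).1
    rw [D.den, div_le_iff₀ C0] at g
    rw [Nat.add_sub_cancel]
    refine ⟨e, ?_⟩
    push_cast
    nlinarith [mul_le_mul_of_nonneg_left f C0.le]

theorem root_le {k : ℕ} (h0 : S.J ≤ k) (h1 : k < S.Jp) (hu : u2 ≤ 4 * R62.du M k) :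
    √u2 / √(R62.du M k) ≤ 8 * S.C * ls S M k := by
  have d := D.du0 h0 h1
  have s := sqrt_pos.2 d
  have C4 := D.C4
  have g := D.ls_ge h0 h1
  have sp := D.nu.sp
  rcases le_total (R62.du M k) (R62.dl S M k) with e | e
  · have a := (D.nu.hi d e).2.1
    rw [← D.ls_eq h0 d] at a
    have b : √u2 / √(R62.du M k) ≤ 2 := by
      rw [div_le_iff₀ s]
      exact sqrt_le_iff.2 ⟨by positivity, by rw [mul_pow, sq_sqrt d.le]; linarith⟩
    have p : 0 < √u2 / √(R62.du M k) := by positivity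
    have : √u2 / √(R62.du M k) ≤ 2 * min (√u2 / √(R62.du M k)) 1 := by
      rcases min_choice (√u2 / √(R62.du M k)) 1 with q | q <;> rw [q] <;> linarith
    nlinarith
  · have a := D.sum_ge k
    have C0 := D.cl.C0
    rw [div_le_iff₀ C0] at a
    have b : 1 / (2 * S.C) ≤ √(R62.du M k) := by
      refine le_sqrt_of_sq_le ?_
      rw [div_pow, one_pow, div_le_iff₀ (by positivity)]
      nlinarith [mul_pos d C0]
    rw [div_le_iff₀ (by positivity)] at b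
    rw [div_le_iff₀ s]
    nlinarith [mul_le_mul_of_nonneg_right g (show 0 ≤ 8 * S.C * √(R62.du M k) by positivity)]

/-- the node at half the distance to the top, and the clock up to it -/
theorem half (hv : 8 * S.C * S.v ≤ √u2) (ue : 8 * S.ue ≤ u2) {Lg : ℝ}
    (hL : log (1 + 4 / √u2) ≤ Lg) {k : ℕ} (hk : k ∈ pl S M (u2 / 4)) :
    ∃ k', k ≤ k' ∧ k' ≤ S.Jp ∧ R62.du M k' ≤ R62.du M k / 2 ∧
      ((k' : ℝ) - S.J) * S.v ≤ 3 * S.C * (S.u0 + V * Lg + 16 * S.C * ls S M k) := by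
  obtain ⟨h0, h1, hu⟩ := SD.mem_pl hk
  have d := D.du0 h0 h1
  have ex : ∃ k', k ≤ k' ∧ R62.du M k' ≤ R62.du M k / 2 :=
    ⟨S.Jp, h1.le, by linarith [D.cl.last, show R62.du M S.Jp = 1 - M.z (S.Jp - 1) from rfl]⟩
  classical
  obtain ⟨a1, a2⟩ := Nat.find_spec ex
  have a3 : Nat.find ex ≤ S.Jp := Nat.find_min' ex
    ⟨h1.le, by linarith [D.cl.last, show R62.du M S.Jp = 1 - M.z (S.Jp - 1) from rfl]⟩
  have a4 : k < Nat.find ex := lt_of_le_of_ne a1 fun e => by rw [← e] at a2; linarith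
  have a5 := Nat.find_min ex (show Nat.find ex - 1 < Nat.find ex by omega)
  set q := Nat.find ex
  have a6 : R62.du M k / 2 < R62.du M (q - 1) := not_le.1 fun e => a5 ⟨by omega, e⟩
  have s := (le_min_iff.1 (step D hv (i := q - 1) (by omega) (by omega))).2
  have a7 : R62.du M k / 4 ≤ 1 - M.z (q - 1) := by unfold R62.du at *; linarith
  refine ⟨q, a1, a3, a2, (clock D hv (by omega) a3).2.trans
    (mul_le_mul_of_nonneg_left ?_ (by linarith [D.C4]))⟩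
  have lp := D.nu.lp
  have Vp := D.nu.Vp
  have sp := D.nu.sp
  have up : 0 < 1 - M.z (q - 1) := by linarith
  have su := sqrt_pos.2 up
  have sd := sqrt_pos.2 d
  have b1 : √(R62.du M k) ≤ 2 * √(1 - M.z (q - 1)) :=
    sqrt_le_iff.2 ⟨by positivity, by rw [mul_pow, sq_sqrt up.le]; linarith⟩
  have b2 : √u2 ≤ 4 * √(1 - M.z (q - 1)) :=
    sqrt_le_iff.2 ⟨by positivity, by rw [mul_pow, sq_sqrt up.le]; linarith⟩
  have c1 : ft V la (1 - M.z (q - 1)) ≤ V * Lg := by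
    refine mul_le_mul_of_nonneg_left ((log_le_log (by positivity) ?_).trans hL) Vp.le
    have : la / (V * √(1 - M.z (q - 1))) ≤ 4 / √u2 := by
      rw [div_le_div_iff₀ (by positivity) sp]
      nlinarith [mul_le_mul D.nu.lV b2 sp.le Vp.le]
    linarith
  have c2 : ft 1 (√u2) (1 - M.z (q - 1)) ≤ 16 * S.C * ls S M k := by
    refine (ft_le one_pos sp.le _).trans ?_
    have : √u2 / √(1 - M.z (q - 1)) ≤ 2 * (√u2 / √(R62.du M k)) := by
      rw [← mul_div_assoc, div_le_div_iff₀ su sd]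
      nlinarith [mul_le_mul_of_nonneg_left b1 sp.le]
    linarith [root_le D h0 h1 (by linarith)]
  have c3 := ft_nn Vp lp.le (1 - M.z (S.J - 1))
  have c4 := ft_nn one_pos sp.le (1 - M.z (S.J - 1))
  have c5 : 0 ≤ fb la (M.z (q - 1) - M.z (S.J - 1) + S.u0) := by unfold fb; positivity
  have c6 : fb la (M.z (S.J - 1) - M.z (S.J - 1) + S.u0) = S.u0 := by
    rw [sub_self, zero_add]; exact D.fb_u0
  unfold rho
  linarith

/-- the size `ap` on the static plateau -/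
theorem ap_le {Xp Vt γ ε L : ℝ} (w0 : 0 ≤ S.w3 1) (X0 : 0 < Xp) (V0 : 0 ≤ Vt) (g0 : 0 ≤ γ)
    (ε0 : 0 ≤ ε) (L0 : 0 ≤ L) (h1 : 64 * S.w3 1 ≤ ε ^ 3 * u2)
    (h2 : 4096 * (S.w3 1 * Xp) ≤ L ^ 3 * u2 ^ 2) {k : ℕ} (hk : k ∈ pl S M (u2 / 4)) :
    ap M S Xp Vt γ k ≤ ε * (2 * Xp ^ ((1 : ℝ) / 3) + γ) + (ε + ε ^ 3 + 2 * L) * ls S M k +
      √(S.w3 1 / ls S M k) := by
  obtain ⟨k0, k1, hu⟩ := SD.mem_pl hk
  have d := D.du0 k0 k1
  have u := D.nu.u2p
  have q := D.wpl (W := u2 / 64) le_rfl (by linarith) k hk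
  have de := D.cl.den0 (M.z (k - 1))
  have s0 : 0 < min (R62.dl S M k) (R62.du M k) := lt_min (D.dl0 k0) d
  have s1 := min_le_right (R62.dl S M k) (R62.du M k)
  have y0 : 0 < Xp ^ ((1 : ℝ) / 3) := rpow_pos_of_pos X0 _
  have y3 : (Xp ^ ((1 : ℝ) / 3)) ^ 3 = Xp := by
    rw [← rpow_mul_natCast X0.le]; norm_num
  have r0 : 0 ≤ Rp M S Xp Vt γ k :=
    add_nonneg (add_nonneg (sqrt_nonneg _) (le_min (by positivity) (sqrt_nonneg _))) g0
  have r1 : Rp M S Xp Vt γ k ≤ Xp ^ ((1 : ℝ) / 3) + √(Xp / R62.du M k) + γ := by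
    refine add_le_add (add_le_add ?_ (min_le_right _ _)) le_rfl
    refine sqrt_le_iff.2 ⟨y0.le, (div_le_div_of_nonneg_left X0.le y0 (le_max_right _ _)).trans ?_⟩
    rw [div_le_iff₀ y0]; linarith
  unfold ap
  rw [show L69.ds M S k = min (R62.dl S M k) (R62.du M k) from rfl,
    show L69.lsh M S k = ls S M k from rfl]
  have el : ls S M k = S.den (M.z (k - 1)) * min (R62.dl S M k) (R62.du M k) := rfl
  generalize min (R62.dl S M k) (R62.du M k) = s at *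
  generalize S.den (M.z (k - 1)) = e at *
  generalize Rp M S Xp Vt γ k = R at *
  generalize Xp ^ ((1 : ℝ) / 3) = y at *
  generalize S.w3 1 = w at *
  generalize R62.du M k = U at *
  generalize ls S M k = l at *
  have l0 : 0 < l := el ▸ mul_pos de s0
  have e3 : 0 ≤ ε ^ 3 := by positivity
  have w1 : w ≤ ε ^ 3 * (l ^ 2 * s) := by nlinarith [mul_le_mul_of_nonneg_left q e3]
  have w2 : w * Xp ≤ L ^ 3 * (l ^ 2 * s) ^ 2 := by
    have := mul_le_mul_of_nonneg_left (pow_le_pow_left₀ (by positivity) q 2)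
      (show 0 ≤ L ^ 3 by positivity)
    nlinarith
  have a : w * e ≤ (ε * l) ^ 3 := by
    have := mul_le_mul_of_nonneg_right w1 de.le
    rw [el] at this ⊢; nlinarith
  have c : w / (e * s ^ 2) ≤ ε ^ 3 * l := by
    rw [div_le_iff₀ (by positivity)]
    rw [el] at w1 ⊢; nlinarith
  have z2 : √(Xp / U) ^ 2 ≤ Xp / s := by
    rw [sq_sqrt (by positivity)]; exact div_le_div_of_nonneg_left X0.le s0 s1
  have R2 : (R + y) ^ 2 ≤ 2 * (2 * y + γ) ^ 2 + 2 * (Xp / s) := by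
    have := pow_le_pow_left₀ (by positivity) (show R + y ≤ (2 * y + γ) + √(Xp / U) by linarith) 2
    nlinarith [sq_nonneg (2 * y + γ - √(Xp / U))]
  have c' : w / (e * s ^ 2) * (Xp / s) ≤ (L * l) ^ 3 := by
    rw [div_mul_div_comm, div_le_iff₀ (by positivity)]
    rw [el] at w2 ⊢; nlinarith
  have b : w * ((R + y) ^ 2 / (s ^ 2 * e)) ≤
      2 * (ε ^ 3 * l * (2 * y + γ) ^ 2) + 2 * (L * l) ^ 3 := by
    have p : 0 ≤ w / (e * s ^ 2) := by positivity
    have t1 := mul_le_mul_of_nonneg_left R2 p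
    have t2 := mul_le_mul_of_nonneg_right c (sq_nonneg (2 * y + γ))
    rw [show w * ((R + y) ^ 2 / (s ^ 2 * e)) = w / (e * s ^ 2) * (R + y) ^ 2 by ring]
    linarith
  have f : (w * (e + (R + y) ^ 2 / (s ^ 2 * e))) ^ ((1 : ℝ) / 3) ≤
      ε * l + ε * (2 * y + γ) + 2 * (L * l) := by
    have p1 : 0 ≤ ε * l := by positivity
    have p2 : 0 ≤ ε * (2 * y + γ) := by positivity
    have p3 : 0 ≤ L * l := by positivity
    have g : w * (e + (R + y) ^ 2 / (s ^ 2 * e)) ≤ (ε * l + ε * (2 * y + γ) + 2 * (L * l)) ^ 3 := by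
      have e1 : ε ^ 3 * l * (2 * y + γ) ^ 2 = ε * l * (ε * (2 * y + γ)) ^ 2 := by ring
      rw [mul_add, ← sub_nonneg]
      rw [e1] at b
      generalize ε * l = A at *
      generalize ε * (2 * y + γ) = B at *
      generalize L * l = Z at *
      have : 0 ≤ (A + B + 2 * Z) ^ 3 - (A ^ 3 + 2 * (A * B ^ 2) + 2 * Z ^ 3) := by
        ring_nf; positivity
      linarith
    refine (rpow_le_rpow (by positivity) g (by norm_num)).trans_eq ?_
    rw [← rpow_natCast, ← rpow_mul (by positivity)]; norm_num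
  linarith

/-- **`LK.up`** from the conclusion of `TLt` read at `u1 = u2 / 8` -/
theorem up_of (ce : Cei S M) (hv : 8 * S.C * S.v ≤ √u2) (ue : 8 * S.ue ≤ u2)
    {Lg B B' W Λ₁ Λ₂ Vt : ℝ} {φ : ℕ → ℝ} (hL : log (1 + 4 / √u2) ≤ Lg) (Λ0 : 0 ≤ Λ)
    (h : ∀ k, S.J ≤ k → k ≤ S.Jp → 2 * (u2 / 8) ≤ L69.du M k → ∀ k', k ≤ k' → k' ≤ S.Jp →
      L69.du M k' ≤ L69.du M k / 2 → M.del m a k ≤ Λ * (B + φ k +
        min (√(M.H k' - M.H S.J)) (S.F * (M.H k' - M.H S.J) / S.θ) + B'))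
    (hφ : ∀ k ∈ pl S M (u2 / 4), φ k ≤ W + Λ₂ * ls S M k)
    (hV : Λ * (B + B' + W + 3 * (S.C * S.F) ^ 2 * (S.u0 + V * Lg)) ≤ Vt)
    (hΛ : Λ * (Λ₂ + 48 * S.C * (S.C * S.F) ^ 2) ≤ Λ₁) :
    ∀ k ∈ pl S M (u2 / 4), M.del m a k ≤ Vt + Λ₁ * ls S M k := fun k hk => by
  obtain ⟨k0, k1, hu⟩ := SD.mem_pl hk
  obtain ⟨q, q0, q1, q2, q3⟩ := half D hv ue hL hk
  have c := D.cl
  have l0 : 0 ≤ ls S M k := le_trans (by positivity) (D.ls_ge k0 k1)
  have θ0 : 0 < S.θ := c.θ0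
  have F0 : 0 ≤ S.F := zero_le_one.trans c.F1
  have C0 := c.C0
  have a := (ce.toG c).pl S.J q le_rfl (k0.trans q0) q1
  have b : S.F * (M.H q - M.H S.J) / S.θ ≤
      3 * (S.C * S.F) ^ 2 * (S.u0 + V * Lg + 16 * S.C * ls S M k) := by
    rw [div_le_iff₀ θ0]
    have a1 := mul_le_mul_of_nonneg_left a F0
    have a2 := mul_le_mul_of_nonneg_left q3 (show 0 ≤ S.C * S.F ^ 2 * S.θ by positivity)
    nlinarith
  have d := h k k0 k1.le (by change _ ≤ R62.du M k; linarith) q q0 q1 q2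
  have e := mul_le_mul_of_nonneg_left (show B + φ k + min (√(M.H q - M.H S.J))
    (S.F * (M.H q - M.H S.J) / S.θ) + B' ≤ B + (W + Λ₂ * ls S M k) +
      3 * (S.C * S.F) ^ 2 * (S.u0 + V * Lg + 16 * S.C * ls S M k) + B' by
    linarith [hφ k hk, min_le_right (√(M.H q - M.H S.J)) (S.F * (M.H q - M.H S.J) / S.θ)]) Λ0
  nlinarith [mul_le_mul_of_nonneg_right hΛ l0]

end up

end Crest.Agent.T156.Alt.Lk37

end
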