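import Crest.Agent.T156.LPg_86
import Crest.Agent.T156.KnR_72
import Crest.Agent.T156.PlX_13
import Crest.Agent.T156.Mem2_28

/-!
# Row 156 (helper13): the plateau facts `GX`, `Ct` on the graded path
-/

set_option autoImplicit false

noncomputable section

namespace Crest.Agent.T156.Alt.Lx13

open Real Finset Plt13 Mem37 L69 Kn72

variable {β c0 C0 c0' C0' η' : ℝ} {A : ℕ} {c η K K' : ℝ} {p : Pm} {σ σ' : ℝ} {Q : Pl}

/-- the residual sums are parts of `g2P` -/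
theorem G_le (G : GrD K c0' C0' η' p σ σ' Q) (t t' : ℝ) :
    GS (p.gst Q σ') (p.scG K σ σ' Q) t t' + GP (p.gst Q σ') (p.scG K σ σ' Q) ≤ p.g2P Q := by
  have h := G.memD
  have jJ := h.jlJ
  have JJ := J_le (p := p) (P := Q)
  have zm := G.cl.1.leg.zm
  have a : GS (p.gst Q σ') (p.scG K σ σ' Q) t t' ≤
      ∑ k ∈ Ioo p.jf p.J, dx (p.gst Q σ') k * (p.gst Q σ').G k ^ 2 :=
    sum_le_sum_of_subset_of_nonneg (filter_subset _ _) fun k _ _ =>
      mul_nonneg (sub_nonneg.2 (zm (Nat.sub_le k 1))) (sq_nonneg _)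
  have b : ∑ k ∈ Ioo p.jf p.J, dx (p.gst Q σ') k * (p.gst Q σ').G k ^ 2 +
      ∑ k ∈ Icc p.J (p.Jp Q), dx (p.gst Q σ') k * (p.gst Q σ').G k ^ 2 = p.g2P Q := by
    rw [← sum_union (disjoint_left.2 fun k x y => by
      have := (mem_Ioo.1 x).2; have := (mem_Icc.1 y).1; omega)]
    refine sum_congr (by ext k; simp only [mem_union, mem_Ioo, mem_Icc, mem_Ioc]; omega)
      fun k hk => ?_
    have k1 := (mem_Ioc.1 hk).1
    have e : (p.gst Q σ').G k = Q.hs (p.xP Q k) := h.G_hi k1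
    rw [e]
    change (p.zP Q (max k p.jf) - p.zP Q (max (k - 1) p.jf)) * _ = _
    rw [max_eq_left k1.le, max_eq_left (by omega)]
  exact (add_le_add a le_rfl).trans b.le

/-- the floor of the marks on the reveal nodes -/
theorem rev (H : Reg β c0 C0 A c η K' p) (G : GrD K c0' C0' η' p σ σ' Q) :
    ∃ k1, (p.scG K σ σ' Q).Jp ≤ k1 ∧ k1 ≤ (p.gst Q σ').N ∧
      1 / (p.scG K σ σ' Q).C ≤ ((k1 : ℝ) - (p.scG K σ σ' Q).Jp) * (p.scG K σ σ' Q).v ∧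
      ∀ k, (p.scG K σ σ' Q).Jp ≤ k → k < k1 →
        (p.scG K σ σ' Q).θ * (p.scG K σ σ' Q).v / ((p.scG K σ σ' Q).C * (p.scG K σ σ' Q).F) ≤
          (p.gst Q σ').H (k + 1) - (p.gst Q σ').H k := by
  have m := G.memD
  have K1 := G.nb.K1
  have v0 := H.v0
  refine ⟨p.NP Q, Nat.le_add_right _ _, le_rfl, ?_, fun k a b => ?_⟩
  · change 1 / (8 * K ^ 2) ≤ (((p.NP Q : ℕ) : ℝ) - (p.Jp Q : ℕ)) * p.v
    have a : p.A * log p.n / p.v ≤ p.Nr := Nat.le_ceil _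
    have A1 : (1 : ℝ) ≤ p.A := by exact_mod_cast G.nb.A1
    rw [div_le_iff₀ v0] at a
    rw [NP_eq]; push_cast
    have b : 1 / (8 * K ^ 2) ≤ 1 := (div_le_one (by positivity)).2 (by nlinarith)
    nlinarith [H.log1]
  · have d := m.flr_rev (G.sl.fl _ (by linarith [G.sl.hY, H.ye0])) a b
    change p.msG σ' 1 * p.v / (8 * K ^ 2 * 1) ≤
      p.HO Q _ (p.bG σ' + 0) (k + 1) + 0 - (p.HO Q _ (p.bG σ' + 0) k + 0)
    have t0 : 0 ≤ p.msG σ' 1 := G.cl.1.θ0.le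
    rw [mul_one, mul_div_right_comm]
    have := mul_le_mul_of_nonneg_right (div_le_div_of_nonneg_left t0 m.K0 m.KC) v0.le
    linarith

theorem C_le (H : Reg β c0 C0 A c η K' p) (G : GrD K c0' C0' η' p σ σ' Q) :
    8 * K ^ 2 ≤ (p.n : ℝ) ^ η := by
  linarith [G.nb.K3.2.2, G.nb.lg, H.log_le]

/-- `la ≥ n^{-1/2}` -/
theorem la_ge {ν : ℝ} (N : Nm p ν) : (p.n : ℝ) ^ (-(1 / 2 : ℝ)) ≤ p.la ν := by
  refine le_trans (le_sqrt_of_sq_le ?_) N.u2l
  rw [← rpow_natCast, ← rpow_mul N.np.le]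
  refine le_trans (le_of_eq ?_) N.u2n
  rw [one_div (p.n : ℝ), ← rpow_neg_one]; norm_num

/-- **the facts of the static plateau on the graded path** -/
theorem gx_gst (H : Reg β c0 C0 A c η K' p) (hA : 4 ≤ A) (o : p.OctR σ σ')
    (G : GrD K c0' C0' η' p σ σ' Q) (X : p.PlX σ σ' Q) :
    Lp86.GX (p.scG K σ σ' Q) (p.gst Q σ') (p.la (nu p σ)) (p.Vc (nu p σ)) (p.u2 (nu p σ))
      ((p.n : ℝ) ^ (-(3 / 2 : ℝ)))
      (5 * (406 + 8 * K) * (p.muG σ' ^ 2 * (p.la (nu p σ) ^ 2 * log p.n))) := by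
  have x := xk_of H o G X
  have K1 := G.nb.K1
  refine ⟨sd_gst H o G, rfl, ?_, ⟨H.rp0 _, ?_⟩, rev H G,
    (flat G x.g0 _ G.cl.1.i3 le_rfl).le, (G_le G _ _).trans x.g2⟩
  · change 4 * (8 * K ^ 2) * p.v ≤ _
    refine le_trans ?_ (mul_le_mul_of_nonneg_left (la_ge x.nm) (H.rp0 _).le)
    have v := H.v0
    have a := H.lg_le (by positivity) (C_le H G)
    have A4 : (4 : ℝ) ≤ A := by exact_mod_cast hA
    refine H.le_of_lg (by positivity) (mul_pos (H.rp0 _) (H.rp0 _)) ?_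
    rw [logb_mul (by positivity) v.ne', logb_mul (by norm_num) (by positivity),
      logb_mul (H.rp0 _).ne' (H.rp0 _).ne', H.lg_rp, H.lg_rp]
    linarith [H.lg_v_le, (H.lg_num (x := 4) (by norm_num) (by norm_num)).2, H.η_le, H.c_le]
  · exact rpow_le_rpow_of_exponent_le H.N1.le (by norm_num)

/-- **the numbers of a cut** -/
theorem ct_gst (H : Reg β c0 C0 A c η K' p) {ν C x u : ℝ} (N : Nm p ν)
    (hu : (p.n : ℝ) ^ (-(9 / 10 : ℝ)) ≤ u) (ux : u0 p ν ≤ x) (Cx : C * x ≤ 1) :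
    Lp86.Ct p.n C (u0 p ν) (p.u2 ν) ((p.n : ℝ) ^ (-(3 / 2 : ℝ))) x u
      (min (u / 4) (min (√(p.u2 ν * u) / 4) (u0 p ν ^ 2 / 2))) (12 * log p.n) := by
  have n0 := H.N0
  have u9 : 0 < u := (H.rp0 _).trans_le hu
  have U := N.u2p
  have w := N.u0p
  have a : 16 * (p.n : ℝ) ^ (-(3 / 2 : ℝ)) ≤ (p.n : ℝ) ^ (-(9 / 10 : ℝ)) :=
    H.le_of_lg (mul_pos (by norm_num) (H.rp0 _)) (H.rp0 _) (by
      rw [logb_mul (by norm_num) (H.rp0 _).ne', H.lg_rp, H.lg_rp]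
      linarith [(H.lg_num (x := 16) (by norm_num) (by norm_num)).2, H.η_le, H.c_le])
  have b : (p.n : ℝ) ^ (-(9 / 10 : ℝ)) ≤ u0 p ν :=
    ((rpow_le_rpow_of_exponent_le H.N1.le (by norm_num)).trans (la_ge N)).trans N.l_le_u0
  have d : ∀ y, (p.n : ℝ) ^ (-(9 / 10 : ℝ)) ≤ y → 1 / y ≤ p.n := fun y hy => by
    refine (one_div_le_one_div_of_le (H.rp0 _) hy).trans ?_
    rw [one_div, ← rpow_neg n0.le]
    exact (rpow_le_rpow_of_exponent_le H.N1.le (by norm_num)).trans_eq (rpow_one _)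
  have d0 : 0 < min (u / 4) (min (√(p.u2 ν * u) / 4) (u0 p ν ^ 2 / 2)) := by positivity
  refine ⟨a.trans hu, a.trans b, ux, Cx, d u hu, d _ b, ?_, d0, ?_, ?_, ?_⟩
  · have : log (1 + (p.n : ℝ)) ≤ log ((p.n : ℝ) ^ 2) :=
      log_le_log (by linarith) (by nlinarith [N.n2])
    rw [log_pow] at this
    push_cast at this
    linarith
  · linarith [(min_le_right (u / 4) _).trans (min_le_right (√(p.u2 ν * u) / 4) (u0 p ν ^ 2 / 2))]
  · linarith [min_le_left (u / 4) (min (√(p.u2 ν * u) / 4) (u0 p ν ^ 2 / 2))]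
  · have e := pow_le_pow_left₀ d0.le
      ((min_le_right (u / 4) _).trans (min_le_left (√(p.u2 ν * u) / 4) (u0 p ν ^ 2 / 2))) 2
    rw [div_pow, sq_sqrt (by positivity)] at e
    linarith

/-- the numbers of the plateau mass -/
theorem nm_nu (H : Reg β c0 C0 A c η K' p) (o : p.OctR σ σ') (G : GrD K c0' C0' η' p σ σ' Q) :
    Nm p (nu p σ) := by
  obtain ⟨x1, x2⟩ := H.mtG_mem (Gr29.oct_mem o).1
  exact (G.nb.la _ x1 x2).1

/-- junction data: density at the corner, first shell, clock length of the shells -/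
theorem jn_gst (H : Reg β c0 C0 A c η K' p) (o : p.OctR σ σ') (G : GrD K c0' C0' η' p σ σ' Q) :
    1 ≤ (p.scG K σ σ' Q).C * (p.scG K σ σ' Q).den ((p.gst Q σ').z ((p.scG K σ σ' Q).J - 1)) ∧
    (p.scG K σ σ' Q).den ((p.gst Q σ').z ((p.scG K σ σ' Q).J - 1)) ≤ (p.scG K σ σ' Q).C ∧
    (p.scG K σ σ' Q).u0 ^ 3 = p.la (nu p σ) ^ 2 ∧
    ∀ k, (p.scG K σ σ' Q).J ≤ k → 0 < du (p.gst Q σ') k →
      p.la (nu p σ) / 4 ≤ lsh (p.gst Q σ') (p.scG K σ σ' Q) k ∧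
        1 ≤ p.n * lsh (p.gst Q σ') (p.scG K σ σ' Q) k := by
  have D := sd_gst H o G
  have C0 : 0 < (p.scG K σ σ' Q).C := by linarith [D.C4]
  have a := D.dj
  rw [div_le_iff₀ C0] at a
  refine ⟨by linarith [a.1], a.2, D.u0_cube, fun k hk hu => ?_⟩
  have b := Lp86.Nd.L_ge ⟨D, hk, hu, le_rfl, D.uC⟩
  refine ⟨b, le_trans ?_ (mul_le_mul_of_nonneg_left
    ((div_le_div_of_nonneg_right (la_ge (nm_nu H o G)) (by norm_num)).trans b) H.N0.le)⟩
  refine H.le_of_lg one_pos (mul_pos H.N0 (div_pos (H.rp0 _) (by norm_num))) ?_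
  rw [logb_mul H.N0.ne' (div_pos (H.rp0 _) (by norm_num)).ne',
    logb_div (H.rp0 _).ne' (by norm_num), H.lg_rp, H.lg_n, logb_one]
  linarith [(H.lg_num (x := 4) (by norm_num) (by norm_num)).2, H.η_le, H.c_le]

end Crest.Agent.T156.Alt.Lx13

end
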