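import Crest.Agent.T156.NbD_29
import Crest.Agent.T156.SRDef_19
import Crest.Agent.T156.R1Gx_79

/-!
# Row 156 (helper77): `LocG` from six leaves on the numbers `Pm.nb`
-/

set_option autoImplicit false
set_option linter.unusedSectionVars false

noncomputable section

namespace Crest.Agent.T156.Alt.R77

open Real Finset Filter Topology Pre29
open Crest.Agent.T156.Alt.R62 (lw sb pl ls T0)

/-- a property of one datum: `S = p.scG K σ t Q`, `M = p.gst Q t` -/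
abbrev Dt := Pm → ℝ → ℝ → Sc → Md → Prop

/-- the property holds for every datum of the tested path -/
def OnG (X : Dt) (β : ℝ) : Prop := ∀ K : ℝ, 1 ≤ K → Sml β fun _ p =>
  ∀ c0 C0 η σ t Q, p.OctR σ t → GrD K c0 C0 η p σ t Q → p.PlX σ t Q →
    X p σ t (p.scG K σ t Q) (p.gst Q t)

/-- `R62.KN` -/
def KNx : Dt := fun p σ t S M => R62.KN S M p.dN⁻¹ (p.lN t) (p.PhN t) (p.PN t) (p.l0G t (p.lN t))
  (p.L0N σ t) p.L1N (p.PtN σ t) (p.VtN σ t) (p.u1N σ) (p.V4N σ t)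
/-- `R82.NR` at the factor `L2N` -/
def NRx : Dt := fun p σ t S M => R82.NR p.dN⁻¹ p.dN p S M (p.lN t) (p.PhN t) (p.PN t)
  (p.l0G t (p.lN t)) (p.L2N σ t) (p.PtN σ t) (p.u1N σ) (p.V4N σ t)
/-- `NX` -/
def NXx : Dt := fun p σ t S M => ∃ N, (p.nb σ t N).NX p.dN p σ t (T0 S M)
/-- `LK.tot` -/
def Totx : Dt := fun p _ t S M => ∀ m a, S.In m a → M.Phi S m a ≤ p.PhN t
/-- `LK.blk` when it is not the total bound -/
def Blkx : Dt := fun p _ t S M => ∀ m a, S.In m a → M.Phi S m a ≤ p.PhN t →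
  ∀ x, p.l0G t (p.lN t) ≤ x → x ≤ T0 S M → p.PN t x < p.PhN t →
    ∑ k ∈ sb S M (x / 4) (8 * x), lw M k * M.del m a k ^ 2 ≤ p.PN t x
/-- `LK.top` when it is not the total bound -/
def Topx : Dt := fun p σ t S M => ∀ m a, S.In m a → M.Phi S m a ≤ p.PhN t →
  p.PtN σ t < p.PhN t →
    ∑ k ∈ sb S M (T0 S M / 4) S.C ∪ Icc S.J S.Jp, lw M k * M.del m a k ^ 2 ≤ p.PtN σ t
/-- `LK.up` -/
def Upx : Dt := fun p σ t S M => ∀ m a, S.In m a → M.Phi S m a ≤ p.PhN t →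
  ∀ k ∈ pl S M (p.u1N σ / 4), M.del m a k ≤ p.VtN σ t + p.L1N * ls S M k

theorem sub_tot {S : Sc} {M : Md} (c : Cl S M) (m : ℕ) (a : ℝ) {T : Finset ℕ}
    (h : ∀ k ∈ T, S.jl < k ∧ k ≤ S.Jp) : ∑ k ∈ T, lw M k * M.del m a k ^ 2 ≤ M.Phi S m a :=
  sum_le_sum_of_subset_of_nonneg (fun k hk => mem_Ioc.2 (h k hk)) fun k _ _ =>
    mul_nonneg (sub_nonneg.2 (c.leg.zm (Nat.sub_le k 1))) (sq_nonneg _)

theorem lk_nb {p : Pm} {σ t : ℝ} {S : Sc} {M : Md} (c : Cl S M) (h0 : Totx p σ t S M)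
    (h1 : Blkx p σ t S M) (h2 : Topx p σ t S M) (h3 : Upx p σ t S M) (N : ℝ) {m : ℕ} {a : ℝ}
    (h : S.In m a) : (p.nb σ t N).LK S M m a := by
  have i2 := c.i2
  have i3 := c.i3
  have e := h0 m a h
  refine ⟨e, fun x x0 x1 => ?_, ?_, h3 m a h e⟩
  · have b : ∑ k ∈ sb S M (x / 4) (8 * x), lw M k * M.del m a k ^ 2 ≤ p.PhN t :=
      (sub_tot c m a fun k hk => by
        have := mem_Ioo.1 (mem_filter.1 hk).1
        omega).trans e
    exact (le_or_gt (p.PhN t) (p.PN t x)).elim b.trans (h1 m a h e x x0 x1)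
  · have b : ∑ k ∈ sb S M (T0 S M / 4) S.C ∪ Icc S.J S.Jp, lw M k * M.del m a k ^ 2 ≤ p.PhN t :=
      (sub_tot c m a fun k hk => by
        rcases mem_union.1 hk with r | r
        · have := mem_Ioo.1 (mem_filter.1 r).1
          omega
        · have := mem_Icc.1 r
          omega).trans e
    exact (le_or_gt (p.PhN t) (p.PtN σ t)).elim b.trans (h2 m a h e)

theorem OnG.and {X Y : Dt} {β : ℝ} (h : OnG X β) (h' : OnG Y β) :
    OnG (fun p σ t S M => X p σ t S M ∧ Y p σ t S M) β := fun K k =>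
  ((h K k).and (h' K k)).mono fun _ _ e c0 C0 η σ t Q a b c =>
    ⟨e.1 c0 C0 η σ t Q a b c, e.2 c0 C0 η σ t Q a b c⟩

/-- **`LocG`** -/
theorem locG_of' {β : ℝ} (h0 : OnG Totx β) (h1 : OnG KNx β) (h2 : OnG NRx β)
    (h3 : OnG NXx β) (h4 : OnG Blkx β) (h5 : OnG Topx β) (h6 : OnG Upx β) : LocG β := by
  intro K k c0 C0 a0 a1
  filter_upwards [((((((h1.and h2).and h3).and h0).and h4).and h5).and h6) K k c0 C0 a0 a1]
    with A H
  filter_upwards [H, ev_pos] with c H hc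
  obtain ⟨η, H⟩ := H.exists
  refine ⟨c / 4000, by positivity, H.mono fun n H p b1 b2 b3 b4 b5 c0' C0' η' σ t Q O D X => ?_⟩
  obtain ⟨⟨⟨⟨⟨⟨r1, r2⟩, N, r3⟩, r4⟩, r5⟩, r6⟩, r7⟩ :=
    H p b1 b2 b3 b4 b5 c0' C0' η' σ t Q O D (Gx79.plX_of X)
  have e : (n : ℝ) ^ (-(c / 4000)) = p.dN := by rw [Pm.dN, b2, b4]
  rw [e]
  exact ⟨p.nb σ t N, r1, ⟨_, r3.L2, r3.lk, r2⟩, r3, fun m a hm => lk_nb D.cl.1 r4 r5 r6 r7 N hm⟩

end Crest.Agent.T156.Alt.R77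

end
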