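import Crest.Agent.T156.TL2D_63
import Crest.Agent.T156.LPx_13
import Crest.Agent.T156.LKc_37
import Crest.Agent.T156.KnP_17
import Crest.Agent.T156.NRn_44
import Crest.Agent.T156.R1Loc_77

/-!
# Row 156 (helper43): the frame of `L63.Hy` on the graded path (`ce`, `ap`, `jg`)
-/

set_option autoImplicit false
set_option linter.all false

noncomputable section

namespace Crest.Agent.T156.Alt.Hy43

open Real Finset
open Crest.Agent.T156.Alt.L69 Crest.Agent.T156.Alt.L63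

section cl

variable {S : Sc} {M : Md} {m : ℕ} {a : ℝ}

theorem term_nn (c : Cl S M) (f : ℕ → ℝ) (k : ℕ) : 0 ≤ (M.z k - M.z (k - 1)) * |f k| ^ 2 :=
  mul_nonneg (sub_nonneg.2 (c.leg.zm (Nat.sub_le k 1))) (sq_nonneg _)

/-- every block is a part of `Φ` -/
theorem En_le (c : Cl S M) (t t' : ℝ) : M.En S m a M.q 2 t t' ≤ Phi M S m a := by
  unfold Phi Md.En Md.blk
  exact sum_le_sum_of_subset_of_nonneg (fun k hk => by
    have h := (mem_filter.1 hk).1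
    exact mem_filter.2 ⟨h, c.s_nn k, c.s_le_C (mem_Ioc.1 h).2⟩)
    fun k _ _ => term_nn c (fun k => M.rb m a k - M.q k) k

/-- sloped part and plateau -/
theorem En_split (c : Cl S M) (t t' : ℝ) : M.En S m a M.q 2 t t' ≤
    ∑ k ∈ (M.blk S t t').filter (· < S.J), dx M k * M.del m a k ^ 2 + Pla M S m a 2 := by
  rw [Md.En, ← sum_filter_add_sum_filter_not _ (· < S.J)]
  refine add_le_add (le_of_eq (sum_congr rfl fun k _ => by rw [sq_abs]; rfl)) ?_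
  exact sum_le_sum_of_subset_of_nonneg (fun k hk => by
    obtain ⟨h, h'⟩ := mem_filter.1 hk
    exact mem_Icc.2 ⟨not_lt.1 h', (mem_Ioc.1 (mem_filter.1 h).1).2⟩)
    fun k _ _ => term_nn c (fun k => M.rb m a k - M.q k) k

/-- **`Ap.top` from a previous pass** -/
theorem top_LO (c : Cl S M) {Λ t0 u En B : ℝ} (h : LO Λ S M m a t0 u En) (hΛ : 0 ≤ Λ)
    (h0 : t0 ≤ M.s S.J / 2) (e1 : min (√(S.C * En)) (En / mf S (M.s S.J / 2)) ≤ B)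
    (e2 : min (En ^ ((3 : ℝ) / 5)) (En / S.θ) ≤ B) (e3 : u ≤ B)
    (e4 : GS M S (M.s S.J / 2) S.C + GP M S ≤ B) (e5 : (M.s S.Jp - M.s S.J) ^ 2 ≤ B)
    (e6 : 1 / (S.n : ℝ) ^ 2 ≤ B) : M.En S m a M.q 2 (M.s S.J / 2) S.C ≤ 7 * Λ * B := by
  have h1 : M.s S.J / 2 ≤ S.C := by linarith [c.s_le_C c.i3, c.s_nn S.J]
  have a1 := h.two _ S.C h0 h1
  have a2 := h.pla
  have a3 := En_split (m := m) (a := a) c (M.s S.J / 2) S.C
  have b := mul_le_mul_of_nonneg_left (show min (√(S.C * En)) (En / mf S (M.s S.J / 2)) +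
    GS M S (M.s S.J / 2) S.C + 1 / (S.n : ℝ) ^ 2 + (min (En ^ ((3 : ℝ) / 5)) (En / S.θ) + u +
      GP M S + (M.s S.Jp - M.s S.J) ^ 2 + 1 / (S.n : ℝ) ^ 2) ≤ 7 * B by linarith) hΛ
  linarith

/-- **`Ap.vt`, first pass** -/
theorem vt_one (hm : 0 < m) (k : ℕ) : M.del m a k ≤ 1 := by
  have := Md67.rb_le_one (M := M) (a := a) hm k
  have := Md67.q_nonneg (M := M) k
  unfold Md.del
  linarith

/-- the clock length of a shell above the cut `u` -/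
theorem ls_up {la V u2 u : ℝ} (h : Kn72.SD S M la V u2) {k : ℕ} (hk : S.J ≤ k) (hu : 0 < u)
    (h1 : u ≤ R62.du M k) : R62.ls S M k ≤ S.u0 + min (la / √u) V + min (√(u2 / u)) 1 := by
  have d0 := hu.trans_le h1
  have A := h.dl0 hk
  have l0 := h.nu.lp
  have u0 := h.u0p
  have e : S.u0 ≤ R62.dl S M k := by unfold R62.dl; linarith [h.xs_le hk]
  have a1 := R62.K17.db_mul l0.le A (min_le_left _ (R62.du M k))
  have a2 := R62.K17.dt_mul h.nu.Vp l0 d0 (min_le_right (R62.dl S M k) _)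
  have a3 := R62.K17.dt_mul one_pos h.nu.sp d0 (min_le_right (R62.dl S M k) _)
  have b1 : la / √(R62.dl S M k) ≤ S.u0 := by
    rw [← h.fb_u0]
    gcongr
  have b2 : min (la / √(R62.du M k)) V ≤ min (la / √u) V := by gcongr
  have b3 : min (√u2 / √(R62.du M k)) 1 ≤ min (√(u2 / u)) 1 := by
    rw [sqrt_div h.nu.u2p.le]
    gcongr
  have b4 : 0 ≤ min (la / √u) V := le_min (by positivity) h.nu.Vp.le
  have b5 : 0 ≤ min (√(u2 / u)) 1 := le_min (by positivity) one_pos.le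
  rw [h.ls_eq hk d0, Kn72.LL, add_mul, add_mul]
  linarith

end cl

variable {β c0 C0 c0' C0' η' : ℝ} {A : ℕ} {c η K K' : ℝ} {p : Pm} {σ t : ℝ} {Q : Pl} {m : ℕ}
  {a E l0 l X Xp Vt u1 u2 j Lg ℓ : ℝ}

/-- **`Hy.ce`** -/
theorem ce (G : GrD K' c0' C0' η' p σ t Q) : CeiG (p.scG K' σ t Q) (p.gst Q t) 0 :=
  G.cl.2.toG G.cl.1

theorem phi (G : GrD K' c0' C0' η' p σ t Q) :
    Phi (p.gst Q t) (p.scG K' σ t Q) m a = (p.gst Q t).Phi (p.scG K' σ t Q) m a :=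
  Lk37.phi_eq G.cl.1 rfl

variable (H : Reg β c0 C0 A c η K p) (o : p.OctR σ t) (G : GrD K' c0' C0' η' p σ t Q)
include H o G

/-- **`Ap.jn`** -/
theorem jn (hx : p.laG σ ^ 2 ≤ Xp) (hu : 0 < u1) : Jn (p.scG K' σ t Q) (p.gst Q t) Xp u1 := by
  obtain ⟨a1, a2, a3, a4⟩ := Lx13.jn_gst H o G
  exact ⟨a1, a2, a3.trans_le hx, fun k h _ h' => (a4 k h (hu.trans_le h')).2⟩

omit o G in
theorem m0 (h : (p.scG K' σ t Q).In m a) : 0 < m := H.n0.trans_le h.m1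

/-- **`Ap.vt` from `Upx`** -/
theorem vt_up (U : R77.Upx p σ t (p.scG K' σ t Q) (p.gst Q t)) (hm : (p.scG K' σ t Q).In m a)
    (hΦ : (p.gst Q t).Phi (p.scG K' σ t Q) m a ≤ p.PhN t) (h1 : p.u1N σ / 4 ≤ u1)
    (h2 : (p.n : ℝ) ^ (-(2 : ℝ)) < u1)
    (h3 : p.VtN σ t + p.L1N * ((p.scG K' σ t Q).u0 +
      min (p.laG σ / √u1) (p.Vc (p.mt (p.muG σ))) + min (√(p.u1N σ / u1)) 1) ≤ Vt) :
    ∀ k, (p.scG K' σ t Q).J ≤ k → k ≤ (p.scG K' σ t Q).Jp → u1 ≤ du (p.gst Q t) k →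
      (p.gst Q t).del m a k ≤ Vt := fun k k1 k2 k3 => by
  have u0 := (H.rp0 _).trans h2
  have k4 : k < (p.scG K' σ t Q).Jp := lt_of_le_of_ne k2 fun e => by
    have := G.cl.1.last
    rw [← e] at this
    exact absurd (k3.trans this) (not_le.2 h2)
  refine (U m a hm hΦ k (mem_filter.2 ⟨mem_Ico.2 ⟨k1, k4⟩, h1.trans k3⟩)).trans (le_trans ?_ h3)
  exact add_le_add le_rfl (mul_le_mul_of_nonneg_left
    (ls_up (Kn72.sd_gst H o G) k1 u0 k3) (H.rp0 _).le)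

/-- the residual sums -/
theorem G_le (P : p.PlX σ t Q) (hK : 5 * (406 + 8 * K') ≤ (p.n : ℝ) ^ η) (x y : ℝ) :
    GS (p.gst Q t) (p.scG K' σ t Q) x y + GP (p.gst Q t) (p.scG K' σ t Q) ≤
      ((p.n : ℝ) ^ η * (p.muG t * p.laG σ)) ^ 2 := by
  have x := Plt13.xk_of H o G P
  refine ((Lx13.G_le G _ _).trans x.g2).trans ?_
  have K1 := G.nb.K1
  have l0 : 0 ≤ log p.n := by linarith [H.log1]
  change 5 * (406 + 8 * K') * (p.muG t ^ 2 * (p.laG σ ^ 2 * log p.n)) ≤ _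
  have := mul_le_mul_of_nonneg_right (mul_le_mul hK H.log_le l0 H.Λ0.le)
    (sq_nonneg (p.muG t * p.laG σ))
  nlinarith

/-- **`Ap.j0`** in exponents -/
theorem j0 (P : p.PlX σ t Q) (hK : 5 * (406 + 8 * K') ≤ (p.n : ℝ) ^ η) (X0 : 0 < X) (l00 : 0 < l0)
    (j00 : 0 < j) (k1 : logb p.n X / 2 + η ≤ logb p.n j)
    (k2 : logb p.n (p.muG t) + logb p.n (p.laG σ) + 2 * η ≤ logb p.n j)
    (k3 : 2 * logb p.n l0 + η ≤ logb p.n j) :
    √X + √(GS (p.gst Q t) (p.scG K' σ t Q) 0 (p.scG K' σ t Q).C +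
      GP (p.gst Q t) (p.scG K' σ t Q)) + l0 ^ 2 ≤ j := by
  have a0 := H.N0
  have a1 := H.muG_pos (Gr29.oct_mem o).2
  have a2 := H.laG0 (Gr29.oct_mem o).1
  have n3 := (H.lg_num (x := 3) (by norm_num) (by norm_num)).2
  have b := sqrt_le_left (by positivity) |>.2 (G_le H o G P hK 0 (p.scG K' σ t Q).C)
  have b1 : 3 * √X ≤ j := H.le_of_lg (by positivity) j00 (by lg_norm; linarith)
  have b2 : 3 * ((p.n : ℝ) ^ η * (p.muG t * p.laG σ)) ≤ j :=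
    H.le_of_lg (by positivity) j00 (by lg_norm; rw [H.lg_n]; linarith)
  have b3 : 3 * l0 ^ 2 ≤ j := H.le_of_lg (by positivity) j00 (by lg_norm; linarith)
  linarith

/-- the lines of the frame: exponents of `E, l0, X, Xp, j, Lg, ℓ, θ, la` -/
structure FL (η e a0 φ φp ι L lam μ al : ℝ) : Prop where
  j1 : φ / 2 + η ≤ ι
  j2 : μ + al + 2 * η ≤ ι
  j3 : 2 * a0 + η ≤ ι
  la : 2 * al ≤ φp
  jg : e + ι ≤ L + lam

/-- **`Hy.ap`** -/
theorem ap (P : p.PlX σ t Q) (hK : 5 * (406 + 8 * K') ≤ (p.n : ℝ) ^ η)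
    (hΦ : (p.gst Q t).Phi (p.scG K' σ t Q) m a ≤ X)
    (top : X ≤ Xp ∨ (p.gst Q t).En (p.scG K' σ t Q) m a (p.gst Q t).q 2
      ((p.gst Q t).s (p.scG K' σ t Q).J / 2) (p.scG K' σ t Q).C ≤ Xp)
    (vt : ∀ k, (p.scG K' σ t Q).J ≤ k → k ≤ (p.scG K' σ t Q).Jp → u1 ≤ du (p.gst Q t) k →
      (p.gst Q t).del m a k ≤ Vt)
    (X0 : 0 < X) (Xp0 : 0 < Xp) (l00 : 0 < l0) (j00 : 0 < j) (hu : 0 < u1) {e L lam : ℝ}
    (F : FL η e (logb p.n l0) (logb p.n X) (logb p.n Xp) (logb p.n j) L lam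
      (logb p.n (p.muG t)) (logb p.n (p.laG σ))) :
    Ap (p.scG K' σ t Q) (p.gst Q t) m a l0 X Xp Vt u1 j := by
  have a2 := H.laG0 (Gr29.oct_mem o).1
  have h := (phi G).trans_le hΦ
  exact ⟨h, top.elim (fun e => ((En_le G.cl.1 _ _).trans h).trans e) id, vt,
    j0 H o G P hK X0 l00 j00 F.j1 F.j2 F.j3,
    jn H o G (H.le_of_lg (by positivity) Xp0 (by lg_norm; linarith [F.la])) hu⟩

/-- **`Hy` on the graded path** (`G1 = 0`, `γ = 0`) -/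
theorem hy (P : p.PlX σ t Q) (hK : 5 * (406 + 8 * K') ≤ (p.n : ℝ) ^ η)
    {Lc ηc τ Lp X2 X3 X4 G0 N t1 tu En p0 : ℝ} {et g : ℝ → ℝ}
    (hΦ : (p.gst Q t).Phi (p.scG K' σ t Q) m a ≤ X)
    (top : X ≤ Xp ∨ (p.gst Q t).En (p.scG K' σ t Q) m a (p.gst Q t).q 2
      ((p.gst Q t).s (p.scG K' σ t Q).J / 2) (p.scG K' σ t Q).C ≤ Xp)
    (vt : ∀ k, (p.scG K' σ t Q).J ≤ k → k ≤ (p.scG K' σ t Q).Jp → u1 ≤ du (p.gst Q t) k →
      (p.gst Q t).del m a k ≤ Vt)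
    (E0 : 0 < E) (l00 : 0 < l0) (j00 : 0 < j) (hu : 0 < u1) (L0 : 0 < Lg) (ℓ0 : 0 < ℓ)
    (F : FL η (logb p.n E) (logb p.n l0) (logb p.n X) (logb p.n Xp) (logb p.n j) (logb p.n Lg)
      (logb p.n ℓ) (logb p.n (p.muG t)) (logb p.n (p.laG σ)))
    (ln : LN E (p.scG K' σ t Q) (p.gst Q t) l0 l (X ^ ((1 : ℝ) / 3)) X Lg X2 X3 G0 et)
    (lp : LP E (p.scG K' σ t Q) (p.gst Q t) Xp Vt Lg Lp X2 X3 G0 0 u1 u2 j 0 Lc ηc τ et N)
    (lt : LT2 E (p.scG K' σ t Q) (p.gst Q t) l0 l X Xp Lg X2 X4 g t1 tu ℓ N En p0 et) :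
    Hy E (p.scG K' σ t Q) (p.gst Q t) m a 0 u1 u2 j 0 Lc ηc τ l0 l X Xp Vt Lg Lp X2 X3 X4 G0 et N g
      t1 tu ℓ En p0 :=
  ⟨ce G, ln, lp, ap H o G P hK hΦ top vt ln.X0 lp.Xp0.1 l00 j00 hu F, lt, by
    rw [add_zero]
    exact H.le_of_lg (by positivity) (by positivity) (by lg_norm; exact F.jg)⟩

end Crest.Agent.T156.Alt.Hy43

end
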