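import Crest.Agent.T156.LPx_13
import Crest.Agent.T156.NRn_44

/-!
# Row 156 (helper13): `LP`, `LC`, `Jn` on the graded path from pure numbers; exponents of the data
-/

set_option autoImplicit false

noncomputable section

namespace Crest.Agent.T156.Alt.Lx13

open Real Finset Plt13 Mem37 L69 Kn72

variable {β c0 C0 c0' C0' η' : ℝ} {A : ℕ} {c η K K' : ℝ} {p : Pm} {σ t : ℝ} {Q : Pl}

/-- the residual bound -/
def Gm (p : Pm) (K σ t : ℝ) : ℝ := 5 * (406 + 8 * K) * (p.muG t ^ 2 * (p.laG σ ^ 2 * log p.n))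
/-- the mesh -/
abbrev hh (p : Pm) : ℝ := (p.n : ℝ) ^ (-(3 / 2 : ℝ))
/-- `w3 1` -/
abbrev ww (p : Pm) (t : ℝ) : ℝ := 1 / (p.n * p.muG t)

theorem θ_eq (G : GrD K c0' C0' η' p σ t Q) : (p.scG K σ t Q).θ = p.muG t := G.top

theorem w_eq (G : GrD K c0' C0' η' p σ t Q) : (p.scG K σ t Q).w3 1 = ww p t := by
  change 1 / (p.n * 1 * p.msG t 1) = _
  rw [mul_one, G.top]

/-- **exponents of the plateau data**; `μ = lg θ`, `ν = lg nu`, `a = lg la` -/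
structure Lg (c η μ ν a V U u w C Γ : ℝ) : Prop where
  μ1 : -(2 / 3) - 2 * c ≤ μ ∧ μ ≤ -(7 * c)
  ν1 : μ - η ≤ ν ∧ ν ≤ μ + 3 * c
  ν2 : ν ≤ max μ (-(1 / 3) - c)
  pl : (0 ≤ ν + 1 / 3 ∧ a = -(1 / 6) - c / 2 - (ν + 1 / 3) / 2 ∧ V = -(1 / 6) + 3 * c / 4 ∧
      U = -(5 / 6) - c / 4 - ν) ∨
    (ν + 1 / 3 ≤ 0 ∧ a = -(1 / 6) - c / 2 - (ν + 1 / 3) / 3 ∧
      V = -(1 / 6) + 3 * c / 4 - (ν + 1 / 3) / 3 ∧ U = -(5 / 6) - c / 4 - ν + (ν + 1 / 3) / 3)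
  u : u = 2 / 3 * a
  w : w = -1 - μ
  C : 0 ≤ C ∧ C ≤ η
  Γ : 2 * μ + 2 * a ≤ Γ ∧ Γ ≤ 2 * μ + 2 * a + 3 * η

theorem Gm0 (X : Nr44.Cx β c0 C0 A c η K' p σ t) (G : GrD K c0' C0' η' p σ t Q) : 0 < Gm p K σ t := by
  have := X.θ0; have := X.la0; have := G.nb.K1; have := X.H.log1
  rw [Gm]; positivity

theorem lg_gst (X : Nr44.Cx β c0 C0 A c η K' p σ t) (G : GrD K c0' C0' η' p σ t Q) :
    Lg c η (logb p.n (p.muG t)) (logb p.n (nu p σ)) (logb p.n (p.laG σ)) (logb p.n (p.Vc (nu p σ)))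
      (logb p.n (p.u2 (nu p σ))) (logb p.n (u0 p (nu p σ))) (logb p.n (ww p t))
      (logb p.n (8 * K ^ 2)) (logb p.n (Gm p K σ t)) := by
  have H := X.H
  have θ := X.θ0
  have l := X.la0
  have m := H.muG_pos X.Mσ
  have o := H.lg_mono m (H.oct_mu X.o).1
  have K1 := G.nb.K1
  have g := H.log1
  have N0 := H.N0
  have b1 : 1 ≤ 406 + 8 * K := by linarith
  have b2 : 406 + 8 * K ≤ 414 * (8 * K ^ 2) := by nlinarith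
  have b3 := H.lg_cst (show 1 ≤ 8 * K ^ 2 by nlinarith) (C_le H G)
  have B0 : 0 < 5 * (406 + 8 * K) := by linarith
  have b4 := H.lg_mono one_pos (show 1 ≤ 5 * (406 + 8 * K) by linarith)
  have b5 := H.lg_mono (show 0 < 5 * (406 + 8 * K) by linarith)
    (show 5 * (406 + 8 * K) ≤ 300 * (8 * K ^ 2) by nlinarith)
  rw [logb_mul (x := 300) (by norm_num) (by positivity)] at b5
  rw [logb_one] at b4
  refine ⟨H.lg_muG' X.Mt, ⟨by linarith [X.lg_θν], by linarith [(H.lg_mt' m).2]⟩, ?_, X.lg_pl, ?_, ?_,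
    b3, ?_⟩
  · refine ((H.lg_mt m).le.trans (min_le_right _ _)).trans (max_le_max o (le_of_eq (by ring)))
  · exact (logb_rpow_eq_mul_logb_of_pos l)
  · rw [logb_div one_ne_zero (by positivity), logb_one, logb_mul N0.ne' θ.ne', H.lg_n]; ring
  · rw [Gm]
    generalize 5 * (406 + 8 * K) = B at *
    rw [logb_mul (by positivity) (by positivity), logb_mul (by positivity) (by positivity),
      logb_mul (by positivity) (by positivity), logb_pow, logb_pow]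
    push_cast
    constructor <;>
      linarith [H.lg_log.1, H.lg_log.2, (H.lg_num (x := 300) (by norm_num) (by norm_num)).2, b3.2]

section wrap

variable (H : Reg β c0 C0 A c η K' p) (hA : 4 ≤ A) (o : p.OctR σ t)
  (G : GrD K c0' C0' η' p σ t Q) (X : p.PlX σ t Q)
  {E x u1 u2 dm Λ Vt q w s z ρ L P2 P3 Lg Lc uc X2 X3 G0 j ηc τ N V2 Q2 dm2 z2 aM e1 e B m : ℝ}
  {φ : ℝ → ℝ}
  (S : Lp86.NS p.n (8 * K ^ 2) (u0 p (nu p σ)) (p.laG σ) (p.Vc (nu p σ)) (p.u2 (nu p σ)) (hh p)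
    x Vt q w u1 dm Λ s z ρ L P2 P3)
include H hA o G X S

/-- **`Jn`** -/
theorem jn : Jn (p.scG K σ t Q) (p.gst Q t) (x ^ 3) u1 := by
  obtain ⟨a, b, -, d⟩ := jn_gst H o G
  have F := gx_gst H hA o G X
  exact ⟨a, b, pow_le_pow_left₀ F.sd.u0p.le S.ct.ux 3,
    fun k k1 _ k3 => (d k k1 ((Lp86.cu0 F S.ct).trans_le k3)).2⟩

theorem np (hw : ww p t ≤ w) :
    Np (p.gst Q t) (p.scG K σ t Q) (x ^ 3) Vt 0 u1 (L ^ 3) 2 ≤ P2 ∧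
      Np (p.gst Q t) (p.scG K σ t Q) (x ^ 3) Vt 0 u1 (L ^ 3) 3 ≤ P3 :=
  ⟨Lp86.np2 (gx_gst H hA o G X) S ((w_eq G).trans_le hw),
    Lp86.np3 (gx_gst H hA o G X) S ((w_eq G).trans_le hw)⟩

variable (T : Lp86.NA E p.n (p.muG t) (p.laG σ) (hh p) x w u1 u2 L P2 P3 Lg Lc uc X2 X3 G0 j ηc τ)
include T

theorem lp_ex (φ : ℝ → ℝ) : ∃ N', LP E (p.scG K σ t Q) (p.gst Q t) (x ^ 3) Vt Lg (L ^ 3) X2 X3 G0 0
    u1 u2 j 0 Lc ηc τ φ N' :=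
  Lp86.lp_ex (gx_gst H hA o G X) S (by rw [θ_eq G]; exact T) φ

/-- **`LC`** -/
theorem lc (R : Lp86.NC E p.n (8 * K ^ 2) (p.muG t) (u0 p (nu p σ)) (p.laG σ) (p.Vc (nu p σ))
    (p.u2 (nu p σ)) (hh p) (Gm p K σ t) x Vt V2 Q2 w u2 dm2 Λ z2 aM P2 Lg X2 G0 j ηc τ e1 e B m N)
    (φ0 : 0 ≤ φ 1) (φ1 : φ 1 ≤ e1) :
    LC E (p.scG K σ t Q) (p.gst Q t) (x ^ 3) Vt V2 Lg (L ^ 3) X2 G0 0 u1 u2 j 0 ηc τ φ N :=
  Lp86.lc (gx_gst H hA o G X) S (by rw [θ_eq G]; exact T) (by rw [θ_eq G]; exact R) φ0 φ1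

/-- **`LP`** -/
theorem lp (R : Lp86.NC E p.n (8 * K ^ 2) (p.muG t) (u0 p (nu p σ)) (p.laG σ) (p.Vc (nu p σ))
    (p.u2 (nu p σ)) (hh p) (Gm p K σ t) x Vt Vt Q2 w u2 dm2 Λ z2 aM P2 Lg X2 G0 j ηc τ e1 e B m N)
    (φ0 : 0 ≤ φ 1) (φ1 : φ 1 ≤ e1) :
    LP E (p.scG K σ t Q) (p.gst Q t) (x ^ 3) Vt Lg (L ^ 3) X2 X3 G0 0 u1 u2 j 0 Lc ηc τ φ N :=
  Lp86.lp_of (gx_gst H hA o G X) S (by rw [θ_eq G]; exact T) (lc H hA o G X S T R φ0 φ1)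

end wrap

end Crest.Agent.T156.Alt.Lx13

end
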