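import Crest.Agent.T156.LPr_3
import Crest.Agent.T156.LPy_13

/-!
# Row 156 (helper3): `LP` and `Jn` on the graded path from linear lines
-/

set_option autoImplicit false

noncomputable section

namespace Crest.Agent.T156.Alt.Lq3

open Real Tr3 Lp86 Lx13 Plt13 L69 Kn72

/-- the lines of the sizes: `μ a v uu` = exponents of `θ la Vc u2` -/
structure EZ (η μ a v uu ξ vt μ1 lp p2 p3 d1 q r : ℝ) : Prop where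
  c1 : -(9 / 10) ≤ μ1
  c2 : 2 / 3 * a ≤ ξ
  c3 : η + ξ ≤ 0
  D1 : LD η (2 / 3 * a) uu μ1 d1
  S : ES η (2 / 3 * a) a v uu ξ vt (-1 - μ) μ1 d1 lp p2 p3 q r

/-- **all the lines of `LP`** -/
structure EL (η e μ a v uu ξ vt μ1 μ2 lp L lc χ2 χ3 γ ι κ τ ε1 ν
    p2 p3 d1 d2 q r lm z b α ε a' m β δ : ℝ) : Prop where
  Z : EZ η μ a v uu ξ vt μ1 lp p2 p3 d1 q r
  D2 : LD η (2 / 3 * a) uu μ2 d2
  A : EA η e μ a ξ (-1 - μ) μ1 μ2 lp p2 p3 L lc χ2 χ3 γ ι κ τ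
  C : EC η e μ (2 / 3 * a) a v uu (2 * μ + 2 * a + 3 * η) ξ vt (-1 - μ) μ2 d2 p2 L χ2 γ ι κ τ ε1 ν
    q lm z b α ε a' m β δ

variable {β c0 C0 c0' C0' η' : ℝ} {A : ℕ} {c η K K' : ℝ} {p : Pm} {σ t : ℝ} {Q : Pl}
  (X : Nr44.Cx β c0 C0 A c η K' p σ t) (G : GrD K c0' C0' η' p σ t Q)
include X G

theorem tw : T p.n (ww p t) (-1 - logb p.n (p.muG t)) := by
  have := X.θ0
  have := X.H.N0
  exact (lg_gst X G).w ▸ tl (B.of X.H) (by positivity)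

theorem tu : T p.n (u0 p (nu p σ)) (2 / 3 * logb p.n (p.laG σ)) :=
  (lg_gst X G).u ▸ tl (B.of X.H) (rpow_pos_of_pos X.la0 _)

theorem xd : XD p.n η (8 * K ^ 2) (p.muG t) (u0 p (nu p σ)) (p.laG σ) (p.Vc (nu p σ))
    (p.u2 (nu p σ)) (Gm p K σ t) (logb p.n (p.muG t)) (2 / 3 * logb p.n (p.laG σ))
    (logb p.n (p.laG σ)) (logb p.n (p.Vc (nu p σ))) (logb p.n (p.u2 (nu p σ)))
    (2 * logb p.n (p.muG t) + 2 * logb p.n (p.laG σ) + 3 * η) := by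
  have H := B.of X.H
  exact ⟨H, ⟨by positivity, C_le X.H G⟩, H.ul X.θ0, H.dl X.θ0, (tu X G).1, H.ul X.la0, H.dl X.la0,
    H.ul X.Vc0, H.dl X.Vc0, H.ul X.u0, H.dl X.u0, H.mono (H.ul (Gm0 X G)) (lg_gst X G).Γ.2⟩

omit G in
theorem lam : U p.n (12 * log p.n) (2 * η) :=
  (B.of X.H).mono ((B.of X.H).mul ((B.of X.H).cst (by norm_num) (by norm_num))
    ⟨by linarith [X.H.log1], X.H.log_le⟩) (by linarith)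

theorem ct {x u ξ μ : ℝ} (hx : T p.n x ξ) (hu : D p.n u μ) (c1 : -(9 / 10) ≤ μ)
    (c2 : 2 / 3 * logb p.n (p.laG σ) ≤ ξ) (c3 : η + ξ ≤ 0) :
    Ct p.n (8 * K ^ 2) (u0 p (nu p σ)) (p.u2 (nu p σ)) (hh p) x u
      (min (u / 4) (min (√(p.u2 (nu p σ) * u) / 4) (u0 p (nu p σ) ^ 2 / 2))) (12 * log p.n) :=
  have H := B.of X.H
  ct_gst X.H (nm_nu X.H X.o G) (H.dmono hu c1) (H.le (tu X G).1 hx.2 c2)
    (H.le (H.mul (xd X G).C hx.1) B.done c3)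

/-- the sizes -/
theorem ns {x Vt u1 L ξ vt μ1 lp p2 p3 d1 q r : ℝ} (hx : T p.n x ξ) (hV : U p.n Vt vt)
    (h1 : T p.n u1 μ1) (hL : T p.n L lp)
    (Z : EZ η (logb p.n (p.muG t)) (logb p.n (p.laG σ)) (logb p.n (p.Vc (nu p σ)))
      (logb p.n (p.u2 (nu p σ))) ξ vt μ1 lp p2 p3 d1 q r) :
    ∃ dm s z, NS p.n (8 * K ^ 2) (u0 p (nu p σ)) (p.laG σ) (p.Vc (nu p σ)) (p.u2 (nu p σ)) (hh p)
      x Vt ((p.n : ℝ) ^ q) (ww p t) u1 dm (12 * log p.n) s z ((p.n : ℝ) ^ r) L ((p.n : ℝ) ^ p2)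
      ((p.n : ℝ) ^ p3) :=
  ⟨_, ns_lg (xd X G) (ct X G hx h1.2 Z.c1 Z.c2 Z.c3) hx.1 hV (tw X G).1 h1
    (dm_d (B.of X.H) (tu X G).2 (xd X G).ud h1.2 Z.D1) (lam X) hL Z.S⟩

variable (hA : 4 ≤ A) (P : p.PlX σ t Q)
include hA P

/-- **`Jn`, `Far`, `Np 2`, `Np 3`** -/
theorem sz_lg {x Vt u1 L ξ vt μ1 lp p2 p3 d1 q r : ℝ} (hx : T p.n x ξ) (hV : U p.n Vt vt)
    (h1 : T p.n u1 μ1) (hL : T p.n L lp)
    (Z : EZ η (logb p.n (p.muG t)) (logb p.n (p.laG σ)) (logb p.n (p.Vc (nu p σ)))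
      (logb p.n (p.u2 (nu p σ))) ξ vt μ1 lp p2 p3 d1 q r) :
    Jn (p.scG K σ t Q) (p.gst Q t) (x ^ 3) u1 ∧
      Far (p.gst Q t) (p.scG K σ t Q) (x ^ 3) Vt 0 u1 (L ^ 3) ∧
      Np (p.gst Q t) (p.scG K σ t Q) (x ^ 3) Vt 0 u1 (L ^ 3) 2 ≤ (p.n : ℝ) ^ p2 ∧
      Np (p.gst Q t) (p.scG K σ t Q) (x ^ 3) Vt 0 u1 (L ^ 3) 3 ≤ (p.n : ℝ) ^ p3 := by
  obtain ⟨_, _, _, S⟩ := ns X G hx hV h1 hL Z
  exact ⟨jn X.H hA X.o G P S, Lp86.far' (gx_gst X.H hA X.o G P) S (w_eq G).le 0,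
    np X.H hA X.o G P S le_rfl⟩

/-- **`LP` from the lines** -/
theorem lp_lg {E x Vt u1 u2 L Lg Lc X2 X3 G0 j ηc τ N : ℝ} {φ : ℝ → ℝ}
    {e ξ vt μ1 μ2 lp Lg' lc χ2 χ3 γ ι κ τ' ε1 ν p2 p3 d1 d2 q r lm z b α ε a' m β' δ : ℝ}
    (hE : T p.n E e) (hx : T p.n x ξ) (hV : U p.n Vt vt) (h1 : T p.n u1 μ1) (h2 : T p.n u2 μ2)
    (hL : T p.n L lp) (hg : T p.n Lg Lg') (hc : T p.n Lc lc) (hX : T p.n X2 χ2)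
    (hY : T p.n X3 χ3) (hG : T p.n G0 γ) (hj : U p.n j ι) (hk : T p.n ηc κ) (hτ : T p.n τ τ')
    (hN : D p.n N ν) (hφ : U p.n (φ 1) ε1)
    (Z : EL η e (logb p.n (p.muG t)) (logb p.n (p.laG σ)) (logb p.n (p.Vc (nu p σ)))
      (logb p.n (p.u2 (nu p σ))) ξ vt μ1 μ2 lp Lg' lc χ2 χ3 γ ι κ τ' ε1 ν
      p2 p3 d1 d2 q r lm z b α ε a' m β' δ) :
    LP E (p.scG K σ t Q) (p.gst Q t) (x ^ 3) Vt Lg (L ^ 3) X2 X3 G0 0 u1 u2 j 0 Lc ηc τ φ N := by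
  have H := B.of X.H
  have Y := xd X G
  obtain ⟨_, _, _, S⟩ := ns X G hx hV h1 hL Z.Z
  exact Lx13.lp X.H hA X.o G P S
    (na_lg H hE ⟨Y.θu, Y.θd⟩ Y.ld (H.up _) hx (tw X G) h1.1 h2 hL.1 hg hc hX hY hG hj hk hτ Z.A)
    (nc_mono (nc_lg Y (ct X G hx h2.2 (Z.Z.c1.trans Z.A.u12) Z.Z.c2 Z.Z.c3) le_rfl hE.1 hx.1 hV
      (tw X G).1 h2.1 h2.2 (dm_d H (tu X G).2 Y.ud h2.2 Z.D2) (lam X) (H.up _) hg.1 hX.1 hG.1 hj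
      hk.1 hτ.1 (H.up ε1) Z.C) hN) hφ.1 hφ.2

end Crest.Agent.T156.Alt.Lq3

end
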