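import Crest.Agent.T156.LtE_76
import Crest.Agent.T156.LT2a_38

/-!
# Row 156, block (L): `LT2` on the graded members from lines in exponents (helper52)
-/

set_option autoImplicit false
set_option linter.unusedSectionVars false

noncomputable section

namespace Crest.Agent.T156.Alt.Lt52

open Real Finset Plt13 Mem37 R77
open Crest.Agent.T156.Alt.L69 Crest.Agent.T156.Alt.Tn15 Crest.Agent.T156.Alt.Ln97
  Crest.Agent.T156.Alt.Lt76 Crest.Agent.T156.Alt.Lt38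

/-- the bulk cost when the residual vanishes below `y` -/
theorem cB_le' {S : Sc} {M : Md} {t t' B L Γ y : ℝ} (c : Cl S M) {η : ℝ → ℝ}
    (hL : S.C ^ 2 * log (S.C / M.s S.jl) ≤ L) (hB : 0 ≤ B)
    (h : ∀ r, t ≤ r → r ≤ t' → r ≤ S.C → r * (cr S r * (η r ^ 2 / mf S r)) ≤ B)
    (hz : ∀ k, S.jl < k → M.s k ≤ y → M.G k = 0) (hy : 0 ≤ y) (hΓ : GS M S 0 S.C ≤ Γ) :
    cB M S η t t' ≤ L * B + Γ / mf S y := by
  rw [Tm71.cB_eq]
  refine add_le_add ((Tm71.cE_le c hB h).trans (mul_le_mul_of_nonneg_right hL hB))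
    (cG_le c (mf0 c hy) (fun k a _ => ?_) hΓ)
  rcases le_total (M.s k) y with e | e
  · exact .inl (hz k a e)
  · exact .inr (mf_mono c e)

/-- the constant lines: `e a ξ L χ2 χ4 T1 m1 Tu lm ε q θ` are the exponents of
`E l x Lg X2 X4 t1 (ms t1) tu ℓ En p0 (muG σ')` -/
structure TL (η c e a ξ L χ2 χ4 T1 m1 Tu lm ε q θ : ℝ) : Prop where
  e5 : 5 * η ≤ e
  ec : 2 * e ≤ c
  lX : e + ξ ≤ a
  Lg3 : e + ξ ≤ L + lm
  l1 : e + θ / 2 ≤ lm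
  l2 : e + lm ≤ Tu
  t1b : e + T1 ≤ Tu
  t1c : e + 3 * ξ ≤ 4 * T1
  x4a : 3 * η - (1 + m1) - (1 + T1 + m1) / 3 ≤ χ4
  x4b : 8 * η - 3 * (1 + T1 + m1) + 21 * ξ ≤ 6 * χ4
  k3 : 2 * χ2 + η ≤ ε
  k4 : χ4 + η ≤ ε
  k6 : 3 * a + 3 * ξ + η ≤ ε
  p1 : ε + 2 * η ≤ 2 * q + Tu
  p2 : ε + 2 * η ≤ 2 * q
  pl : e + q ≤ a
  pm : e + q ≤ lm

variable {β c0 C0 c0' C0' η' : ℝ} {A : ℕ} {c η K K' : ℝ} {p : Pm} {σ σ' : ℝ} {Q : Pl}
  (H : Reg β c0 C0 A c η K p)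
include H

section cls

variable {E l0 l x X Lg X2 X3 G0 b : ℝ} {S : Sc} {M : Md}
  (h : FX E S M l0 l x X Lg ((p.n : ℝ) ^ (-(2 : ℝ) / 3)) X2 X3 G0) (hn : S.n = p.n) (hF : S.F = 1)
include h hn hF

/-- **`LT2.en`**, residual zero below `y` -/
theorem en_lg' {t1 X4 N En g y Γ B : ℝ} (hC : S.C ≤ (p.n : ℝ) ^ η) (hj : S.C ≤ p.n * M.s S.jl)
    (a : 2 * l ≤ t1) (e0 : 0 < En) (x4 : 0 < X4)
    (k : ∀ r, t1 / 2 ≤ r → r ≤ S.C → ∃ b, M12 η (logb p.n Lg) (logb p.n x) (logb p.n X2)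
      (logb p.n X3) (logb p.n G0) (logb p.n r) (logb p.n (S.ms r)) b ∧
      logb p.n r + 2 * b + 6 * η ≤ logb p.n En + logb p.n (S.ms r))
    (hz : ∀ k, S.jl < k → M.s k ≤ y → M.G k = 0) (hy : 0 ≤ y) (hΓ : GS M S 0 S.C ≤ Γ)
    (k2 : 7 * Γ ≤ En * S.ms y) (k3 : 2 * logb p.n X2 + η ≤ logb p.n En)
    (k4 : logb p.n X4 + η ≤ logb p.n En) (k5 : 7 * N ≤ En)
    (k6 : 3 * logb p.n l + 3 * logb p.n x + η ≤ logb p.n En)
    (m : M12 η (logb p.n Lg) (logb p.n x) (logb p.n X2) (logb p.n X3) (logb p.n G0) (logb p.n t1)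
      (logb p.n (S.ms t1)) b) (g0 : 0 ≤ g) (hg : g ≤ (p.n : ℝ) ^ (b + η))
    (k7 : BL η (logb p.n Lg) (logb p.n X2) (logb p.n t1) (logb p.n (S.ms t1)) b
      (logb p.n (S.ms t1)) B) (k8 : 2 * B + 3 * η ≤ logb p.n En + logb p.n t1) :
    cB M S (eta S l Lg ((p.n : ℝ) ^ (-(2 : ℝ) / 3)) X X2 X3 G0) (t1 / 2) S.C + X2 ^ 2 + X4 + N +
      l ^ 3 * X + (S.ms t1 * bs S Lg X2 g
        (eta S l Lg ((p.n : ℝ) ^ (-(2 : ℝ) / 3)) X X2 X3 G0) t1) ^ 2 / t1 ≤ En := by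
  have lp := h.lp
  have t0 : 0 < t1 := by linarith
  have n0 := H.N0
  have := h.X20
  have := h.X0
  have := h.x0
  have my := h.cl.ms_pos hy
  have mf1 : ∀ t, mf S t = S.ms t := fun t => by rw [mf, hF, div_one]
  have eX : logb p.n X = 3 * logb p.n x := by rw [← h.x3]; lg_norm
  have b1 := cB_le' (t := t1 / 2) (t' := S.C) (B := En * (p.n : ℝ) ^ (-(4 * η)))
    (η := eta S l Lg ((p.n : ℝ) ^ (-(2 : ℝ) / 3)) X X2 X3 G0) h.cl (L_le H h.cl hC hj)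
    (by positivity) (fun r r1 _ r2 => cost h (by linarith) (by
      obtain ⟨b, m, e⟩ := k r r1 r2
      have r0 : 0 < r := by linarith
      have := h.cl.ms_pos r0.le
      refine (mul_le_mul_of_nonneg_left (pow_le_pow_left₀ (h.eta_pos _).le
        (eta_lg H h hn hF (by linarith) m) 2) r0.le).trans ?_
      rw [mf1]
      refine H.le_of_lg (by positivity) (by positivity) ?_
      lg_norm; rw [H.lg_n]; linarith)) hz hy hΓ
  have d := div_le_div_of_nonneg_right (pow_le_pow_left₀ (mul_nonneg (h.cl.ms_pos t0.le).le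
    (bs_nn h.cl t0.le (h.eta_pos _).le g0 h.X20.le))
    (bs_lg H h hn hF (by linarith) (h.cl.ms_pos t0.le) m hg k7) 2) t0.le
  have a1 : 7 * ((p.n : ℝ) ^ (3 * η) * (En * (p.n : ℝ) ^ (-(4 * η)))) ≤ En :=
    num_le H (by norm_num) (by positivity) e0 (by lg_norm; rw [H.lg_n]; linarith)
  have a2 : 7 * (Γ / mf S y) ≤ En := by rw [mf1, ← mul_div_assoc, div_le_iff₀ my]; exact k2
  have a3 : 7 * X2 ^ 2 ≤ En := num_le H (by norm_num) (by positivity) e0 (by lg_norm; linarith)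
  have a4 : 7 * X4 ≤ En := num_le H (by norm_num) x4 e0 k4
  have a6 : 7 * (l ^ 3 * X) ≤ En := num_le H (by norm_num) (by positivity) e0 (by lg_norm; linarith)
  have a7 : 7 * (((p.n : ℝ) ^ (B + η)) ^ 2 / t1) ≤ En :=
    num_le H (by norm_num) (by positivity) e0 (by lg_norm; rw [H.lg_n]; linarith)
  linarith

/-- **`LT2.x4`** from the lines at `t1` -/
theorem x4_lg' {X4 t1 t' : ℝ} (a : 2 * l ≤ t1) (x4 : 0 < X4)
    (k1 : 3 * η - (1 + logb p.n (S.ms t1)) - (1 + logb p.n t1 + logb p.n (S.ms t1)) / 3 ≤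
      logb p.n X4)
    (k2 : 8 * η - 3 * (1 + logb p.n t1 + logb p.n (S.ms t1)) + 21 * logb p.n x ≤ 6 * logb p.n X4) :
    L4 S (X ^ ((1 : ℝ) / 3)) X (t1 / 2) t' X4 := by
  have t0 : 0 < t1 := by linarith [h.lp]
  have m0 := h.cl.ms_pos (half_pos t0).le
  have m1 := h.cl.ms2 (t1 / 2) (half_pos t0).le
  rw [mul_div_cancel₀ _ two_ne_zero] at m1
  have m2 := H.lg_mono (h.cl.ms_pos t0.le) m1
  have n4 := H.lg_num (x := 4) (by norm_num) (by norm_num)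
  have n2 := H.lg_num (x := 2) (by norm_num) (by norm_num)
  have η0 := H.η_pos
  rw [logb_mul (by norm_num) m0.ne'] at m2
  refine x4_lg H h hn hF (by linarith) x4 ?_ ?_ <;> rw [logb_div t0.ne' two_ne_zero] <;> linarith

end cls

variable (D : GrD K' c0' C0' η' p σ σ' Q) (hC : 8 * K' ^ 2 ≤ (p.n : ℝ) ^ η)
include D hC

/-- the root level is not too small -/
theorem hj : (p.scG K' σ σ' Q).C ≤ p.n * (p.gst Q σ').s (p.scG K' σ σ' Q).jl := by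
  have cl := D.cl.1
  have C0 := cl.C0
  have a := (cl.s_bds (k := (p.scG K' σ σ' Q).jl) (by have := cl.i2; omega)).1
  have n0 := H.N0
  have j0 := H.jfv0
  have b := H.lg_jf.1
  have d := H.lg_le C0 hC
  refine le_trans ?_ (mul_le_mul_of_nonneg_left a n0.le)
  change _ ≤ (p.n : ℝ) * (p.jf * (p.v / (p.scG K' σ σ' Q).C))
  rw [← mul_div_assoc]
  refine H.le_of_lg C0 (by positivity) ?_
  rw [logb_mul n0.ne' (by positivity), logb_div j0.ne' C0.ne', H.lg_n]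
  linarith [H.lg_s.1, H.η_le, H.c_le, H.c_pos]

/-- below `tz / 4` in exponents -/
theorem tz_of {t : ℝ} (t0 : 0 < t) (ht : logb p.n t + 4 * η ≤ 0) : 4 * t ≤ tz K' := by
  have C0 : 0 < 8 * K' ^ 2 := D.cl.1.C0
  have d := H.lg_le C0 hC
  rw [tz, le_div_iff₀ (by positivity), show 4 * t * (6 * (8 * K' ^ 2) ^ 3) =
    24 * (t * (8 * K' ^ 2) ^ 3) by ring]
  refine num_le H (by norm_num) (by positivity) one_pos ?_
  generalize 8 * K' ^ 2 = C at *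
  lg_norm; linarith

omit D hC in
theorem gL_of {gT t B : ℝ} (hB : 0 ≤ B) (h : 4 * t ≤ tz K' ∨ gT ≤ B) : gL K' gT t ≤ B := by
  unfold gL
  split_ifs with a
  · exact hB
  · exact h.resolve_left a

/-- **`LT2` on the graded members** with `g = gL K' gT` (`g1` from `Lt38.g1_all / g1_off`, or
`g1_lo`), `η = Ln97.eta` -/
theorem lt2_lg (o : p.OctR σ σ') {E l0 l x X Xp Lg X2 X3 G0 X4 gT t1 tu ℓ N En p0 Γ b B : ℝ}
    (h : FX E (p.scG K' σ σ' Q) (p.gst Q σ') l0 l x X Lg ((p.n : ℝ) ^ (-(2 : ℝ) / 3)) X2 X3 G0)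
    (E0 : 0 < E) (x4 : 0 < X4) (ℓ0 : 0 < ℓ) (u0 : 0 < tu) (e0 : 0 < En) (q0 : 0 < p0)
    (g0 : 0 ≤ gT) (l2 : 2 * l0 ≤ l) (rl : p.r ≤ l) (t1a : 2 * l ≤ t1)
    (tu1 : tu ≤ (p.gst Q σ').s (p.scG K' σ σ' Q).J)
    (g1 : ∀ t k, (p.scG K' σ σ' Q).jl < k → k < (p.scG K' σ σ' Q).J → l ≤ (p.gst Q σ').s k →
      (p.gst Q σ').s k ≤ 4 * t → (p.gst Q σ').s k + ℓ / 8 ≤ tu →
      |(p.gst Q σ').G k| ≤ gL K' gT t)
    (g2 : 4 * tu ≤ tz K' ∨ E * gT ≤ p.muG σ' ^ ((3 : ℝ) / 2))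
    (hΓ : GS (p.gst Q σ') (p.scG K' σ σ' Q) 0 (8 * K' ^ 2) ≤ Γ) (kΓ : 7 * Γ ≤ En * p.muG σ')
    (kN : 7 * N ≤ En)
    (T : TL η c (logb p.n E) (logb p.n l) (logb p.n x) (logb p.n Lg) (logb p.n X2) (logb p.n X4)
      (logb p.n t1) (logb p.n (p.msG σ' t1)) (logb p.n tu) (logb p.n ℓ) (logb p.n En)
      (logb p.n p0) (logb p.n (p.muG σ')))
    (m1 : M12 η (logb p.n Lg) (logb p.n x) (logb p.n X2) (logb p.n X3) (logb p.n G0) (logb p.n t1)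
      (logb p.n (p.msG σ' t1)) b)
    (k7 : BL η (logb p.n Lg) (logb p.n X2) (logb p.n t1) (logb p.n (p.msG σ' t1)) b
      (logb p.n (p.msG σ' t1)) B) (k8 : 2 * B + 3 * η ≤ logb p.n En + logb p.n t1)
    (ke : ∀ r, t1 / 2 ≤ r → r ≤ 8 * K' ^ 2 → ∃ b, M12 η (logb p.n Lg) (logb p.n x) (logb p.n X2)
      (logb p.n X3) (logb p.n G0) (logb p.n r) (logb p.n (p.msG σ' r)) b ∧
      logb p.n r + 2 * b + 6 * η ≤ logb p.n En + logb p.n (p.msG σ' r))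
    (kp : ∀ r, l ≤ r → r ≤ tu → ∃ b, M12 η (logb p.n Lg) (logb p.n x) (logb p.n X2)
      (logb p.n X3) (logb p.n G0) (logb p.n r) (logb p.n (p.msG σ' r)) b ∧
      (4 * r ≤ tz K' ∨ gT ≤ (p.n : ℝ) ^ (b + η)) ∧ BL η (logb p.n Lg) (logb p.n X2) (logb p.n r)
        (logb p.n (p.msG σ' r)) b (logb p.n r) (logb p.n p0 - 5 * η)) :
    L63.LT2 E (p.scG K' σ σ' Q) (p.gst Q σ') l0 l X Xp Lg X2 X4 (gL K' gT) t1 tu ℓ N En p0
      (eta (p.scG K' σ σ' Q) l Lg ((p.n : ℝ) ^ (-(2 : ℝ) / 3)) X X2 X3 G0) := by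
  have cl := D.cl.1
  have C0 := cl.C0
  have lp := h.lp
  have t0 : 0 < t1 := by linarith
  have n0 := H.N0
  have η0 := H.η_pos
  have x0 := h.x0
  have X0 := h.X0
  have L0 := h.Lgp
  have κ0 := H.κ0
  have θe : (p.scG K' σ σ' Q).θ = p.muG σ' := D.top
  have θ0 : 0 < p.muG σ' := θe ▸ cl.ms_pos zero_le_one
  have eX : logb p.n X = 3 * logb p.n x := by rw [← h.x3]; lg_norm
  have lC := H.lg_le C0 hC
  have lu := H.lg_mono u0 (tu1.trans (cl.s_le_C cl.i3))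
  have l1 := H.lg_np (mul_pos E0 lp) h.l1
  rw [logb_mul E0.ne' lp.ne'] at l1
  obtain ⟨e5, ec, lX, Lg3, a1, a2, t1b, t1c, x4a, x4b, k3, k4, k6, p1, p2, pl, pm⟩ := T
  have zy : 4 * p.ye ≤ tz K' := tz_of H D hC H.ye0 (by rw [H.lg_ye]; linarith)
  have zl : 4 * l ≤ tz K' := tz_of H D hC lp (by linarith)
  have z1 : 4 * t1 ≤ tz K' := tz_of H D hC t0 (by linarith)
  have y0 := H.ye0
  have mz : (p.scG K' σ σ' Q).ms (tz K') = p.muG σ' := H.msG_hi σ' (by linarith)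
  refine ⟨rfl, l2, gL_nn g0, g1, fun t a a' => ?_, ?_, ?_, ?_, fun t a _ => ml H o rl ?_ E0.le a, ?_,
    ?_, tu1, t1a, ?_, ?_, x4_lg' H h rfl rfl t1a x4 x4a x4b,
    en_lg' H h rfl rfl hC (hj H D hC) t1a e0 x4 ke (fun k a a' => G_lo D a a') (by linarith) hΓ
      (mz ▸ kΓ) k3 k4 kN k6 m1 (gL_nn g0 _) (gL_of H (by positivity) (.inl z1)) k7 k8,
    pa_lg H h rfl rfl hC (hj H D hC) e0 u0 q0 (fun r a a' _ => ?_) p1 p2, ?_, ?_⟩
  · by_cases z : 4 * t ≤ tz K'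
    · rw [gL_lo z, mul_zero]
      exact rpow_nonneg (cl.ms_pos (lp.le.trans a)).le _
    · have e : (p.scG K' σ σ' Q).ms t = p.muG σ' := H.msG_hi σ' (by linarith)
      rw [e]
      exact (mul_le_mul_of_nonneg_left (gL_le g0 t) E0.le).trans
        (g2.resolve_left fun w => z (by linarith))
  · rw [GS_lo D (by linarith), mul_zero]
    exact e0.le
  rotate_right 3
  · obtain ⟨b, m, w, k⟩ := kp r a a'
    exact ⟨b, m, gL_of H (by positivity) w, k⟩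
  all_goals
    try rw [h.rx]
    try rw [θe]
    refine H.le_of_lg (by positivity) (by positivity) ?_
    lg_norm
    try rw [H.lg_κ]
    linarith

omit H hC in
/-- `g1` when the whole zone lies below `tz` -/
theorem g1_lo {gT l tu ℓ : ℝ} (g0 : 0 ≤ gT) (hu : tu ≤ tz K') (hℓ : 0 ≤ ℓ) :
    ∀ t k, (p.scG K' σ σ' Q).jl < k → k < (p.scG K' σ σ' Q).J → l ≤ (p.gst Q σ').s k →
      (p.gst Q σ').s k ≤ 4 * t → (p.gst Q σ').s k + ℓ / 8 ≤ tu →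
      |(p.gst Q σ').G k| ≤ gL K' gT t := fun t k a b c d e =>
  (g1_zero D hu hℓ t k a b c d e).trans (gL_nn g0 t)

end Crest.Agent.T156.Alt.Lt52

end
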