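import Crest.Agent.T156.TL2D_63
import Crest.Agent.T156.ClReg_29
import Crest.Agent.T156.SRDef_19

/-!
# Row 156, block (L) (helper64): one pass, the top energy from the output `LO`
-/

set_option autoImplicit false

noncomputable section

namespace Crest.Agent.T156.Alt.Lp64

open Real Finset
open Crest.Agent.T156.Alt.L69 Crest.Agent.T156.Alt.L63

variable {S : Sc} {M : Md} {m : ℕ} {a : ℝ}

theorem tm0 (c : Cl S M) (f : ℕ → ℝ) (k : ℕ) : 0 ≤ dx M k * f k ^ 2 :=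
  mul_nonneg (sub_nonneg.2 (c.leg.zm (Nat.sub_le k 1))) (sq_nonneg _)

theorem En_eq (t t' : ℝ) :
    M.En S m a M.q 2 t t' = ∑ k ∈ M.blk S t t', dx M k * M.del m a k ^ 2 :=
  sum_congr rfl fun k _ => by rw [sq_abs]; rfl

theorem top_split (c : Cl S M) (t : ℝ) : M.En S m a M.q 2 t S.C ≤
    ∑ k ∈ (M.blk S t S.C).filter (· < S.J), dx M k * M.del m a k ^ 2 + Pla M S m a 2 := by
  have e : Pla M S m a 2 = ∑ k ∈ Icc S.J S.Jp, dx M k * M.del m a k ^ 2 :=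
    sum_congr rfl fun k _ => by rw [sq_abs]
  rw [En_eq, e, ← sum_filter_add_sum_filter_not _ (· < S.J)]
  refine add_le_add le_rfl (sum_le_sum_of_subset_of_nonneg (fun k hk => ?_) fun k _ _ => tm0 c _ k)
  obtain ⟨b, d⟩ := mem_filter.1 hk
  exact mem_Icc.2 ⟨not_lt.1 d, (mem_Ioc.1 (mem_filter.1 b).1).2⟩

/-- the energy above a level over the floor is at most `Φ` -/
theorem top_phi (c : Cl S M) {t : ℝ} (h : S.j0 = S.jl ∨ M.s S.jl < t) (t' : ℝ) :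
    M.En S m a M.q 2 t t' ≤ M.Phi S m a := by
  rw [En_eq]
  change _ ≤ ∑ k ∈ Ioc S.jl S.Jp, dx M k * M.del m a k ^ 2
  refine sum_le_sum_of_subset_of_nonneg (fun k hk => ?_) fun k _ _ => tm0 c _ k
  obtain ⟨b, d, -⟩ := mem_filter.1 hk
  refine mem_Ioc.2 ⟨?_, (mem_Ioc.1 b).2⟩
  rcases h with h | h
  · exact h ▸ (mem_Ioc.1 b).1
  · exact not_le.1 fun e => absurd ((c.sm e).trans_lt h) (not_lt.2 d)

theorem GS_le (c : Cl S M) (t t' : ℝ) : GS M S t t' ≤ GS M S 0 S.C :=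
  sum_le_sum_of_subset_of_nonneg (fun k hk => by
    have b := (mem_filter.1 hk).1
    exact mem_filter.2 ⟨b, c.s_nn k, c.s_le_C ((mem_Ioo.1 b).2.le.trans c.i3)⟩)
    fun k _ _ => tm0 c _ k

/-- **the energy above `t` from `LO`** -/
theorem top_LO (c : Cl S M) {Λ t0 u En t : ℝ} (h : LO Λ S M m a t0 u En) (hΛ : 0 ≤ Λ)
    (h0 : t0 ≤ t) (h1 : t ≤ S.C) : M.En S m a M.q 2 t S.C ≤ Λ * (En / mf S t + En / S.θ + u +
      (GS M S 0 S.C + GP M S) + (M.s S.Jp - M.s S.J) ^ 2 + 2 / (S.n : ℝ) ^ 2) := by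
  refine (top_split c t).trans ((add_le_add (h.two t S.C h0 h1) h.pla).trans ?_)
  rw [← mul_add]
  refine mul_le_mul_of_nonneg_left ?_ hΛ
  have := min_le_right (√(S.C * En)) (En / mf S t)
  have := min_le_right (En ^ ((3 : ℝ) / 5)) (En / S.θ)
  have := GS_le c t S.C
  have : 2 / (S.n : ℝ) ^ 2 = 1 / (S.n : ℝ) ^ 2 + 1 / (S.n : ℝ) ^ 2 := by ring
  linarith

theorem sJ3 (h : Cl S M) : 1 ≤ 3 * S.C ^ 3 * M.s S.J := by
  have a := h.atom.1
  have i0 := h.i0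
  have i1 := h.i1
  have i2 := h.i2
  have C0 := h.C0
  have b := (h.z_s (k := S.J - 1) (by omega) (by omega)).2
  have d := (h.ss 0 (by omega)).1
  have e : M.s (0 + 1) ≤ M.s S.J := h.sm (by omega)
  have f : M.s (S.J - 1) ≤ M.s S.J := h.sm (Nat.sub_le _ _)
  have s0 := h.s_nn S.J
  rw [h.s0, div_le_iff₀ C0] at d
  rw [div_le_iff₀ C0] at a
  have g : S.v ≤ S.C * M.s S.J := by nlinarith
  have g' : M.s S.J ≤ S.C * M.s S.J := le_mul_of_one_le_left s0 h.C1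
  have k : M.z (S.J - 1) ≤ S.C * (3 * (S.C * M.s S.J)) :=
    b.trans (mul_le_mul_of_nonneg_left (by linarith) C0.le)
  linarith [mul_le_mul_of_nonneg_right k C0.le]

theorem θ_le (h : Cl S M) : S.θ ≤ 144 * S.C ^ 6 * S.ms (M.s S.J / 2) := by
  have c3 : 1 ≤ S.C ^ 3 := one_le_pow₀ h.C1
  have a := h.ms_mul (t := M.s S.J / 2) (k := 6 * S.C ^ 3) (by linarith [h.s_nn S.J]) (by linarith)
  exact ((h.msm (by linarith [sJ3 h])).trans a).trans_eq (by ring)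

/-- **one pass**: the top energy after a call of (TL2) -/
def Pass : Prop := CL fun E Λ S M m a =>
  ∀ G1 u1 u2 j γ Lc ηc τ l0 l X Xp Vt Lg Lp X2 X3 X4 G0 η N g t1 tu ℓ En p0,
  Hy E S M m a G1 u1 u2 j γ Lc ηc τ l0 l X Xp Vt Lg Lp X2 X3 X4 G0 η N g t1 tu ℓ En p0 →
    M.En S m a M.q 2 (M.s S.J / 2) S.C ≤ Λ * ((En + t1 * p0 ^ 2) / S.θ + u2 +
      (GS M S 0 S.C + GP M S) + (M.s S.Jp - M.s S.J) ^ 2 + 1 / (S.n : ℝ) ^ 2)

theorem pass (hy : TL2y) : Pass := by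
  have key : CL fun E Λ S M m a => ∀ Λ', Λ ≤ Λ' →
      ∀ G1 u1 u2 j γ Lc ηc τ l0 l X Xp Vt Lg Lp X2 X3 X4 G0 η N g t1 tu ℓ En p0,
      Hy E S M m a G1 u1 u2 j γ Lc ηc τ l0 l X Xp Vt Lg Lp X2 X3 X4 G0 η N g t1 tu ℓ En p0 →
      M.En S m a M.q 2 (M.s S.J / 2) S.C ≤ Λ' * ((En + t1 * p0 ^ 2) / S.θ + u2 +
        (GS M S 0 S.C + GP M S) + (M.s S.Jp - M.s S.J) ^ 2 + 1 / (S.n : ℝ) ^ 2) := by
    refine CL.glue' hy (fun _ _ _ _ _ _ _ _ h H _ h' => H _ (h.trans h')) 0 le_rfl 1 2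
      fun C _ ε η' hε _ => ⟨145 * C ^ 6, fun S M m a G _ b1 _ h I Y Λ hΛ G1 u1 u2 j γ Lc ηc τ l0 l X
        Xp Vt Lg Lp X2 X3 X4 G0 η N g t1 tu ℓ En p0 H => ?_⟩
    rw [pow_one] at H
    have L := (Y _ _ _ _ _ _ _ _ _ _ _ _ _ _ _ _ _ _ _ _ _ _ _ _ _ _ _ H).1
    have E4 : 1000 ≤ (S.n : ℝ) ^ ε := G.num_le.trans (Pre29.rp_le G.n1 (by simpa using b1))
    have K := G.K_le
    have L4' := G.num_le
    rw [← G.hC] at K
    generalize (S.n : ℝ) ^ η' = W at *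
    generalize (S.n : ℝ) ^ ε = E at *
    have T := H.lt
    have l1 : 0 < l := (mul_pos (by linarith) (rpow_pos_of_pos H.ln.X0 _)).trans_le T.lX
    have t0 : 0 < t1 := by linarith [T.t1a]
    have t2 : 2 * t1 ≤ M.s S.J / 2 := by nlinarith [T.t1b, T.tu1]
    have sC := (h.sm h.i3).trans h.sT
    have s0 := h.s_nn S.J
    have g0 : 0 ≤ GS M S 0 (2 * l) := sum_nonneg fun k _ => tm0 h _ k
    have e0 : 0 ≤ En + t1 * p0 ^ 2 := add_nonneg (le_trans (by positivity) T.gl) (by positivity)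
    have R := top_LO h L (by linarith) t2 (by linarith)
    generalize En + t1 * p0 ^ 2 = Z at *
    have θ0 := h.θ0
    have m0 := h.ms_pos (t := M.s S.J / 2) (by linarith)
    have a1 : Z / mf S (M.s S.J / 2) ≤ 144 * S.C ^ 6 * (Z / S.θ) := by
      rw [mf, T.F1, div_one, ← mul_div_assoc, div_le_div_iff₀ m0 θ0]
      linarith [mul_le_mul_of_nonneg_left (θ_le h) e0]
    have c6 : 1 ≤ S.C ^ 6 := one_le_pow₀ h.C1
    have z0 : 0 ≤ Z / S.θ := by positivity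
    have u0 : 0 ≤ u2 := by linarith [h.leg.z1 (S.Jp - 1), h.last, H.lp.u1a, H.lp.u1b.1]
    have g1 : 0 ≤ GS M S 0 S.C + GP M S :=
      add_nonneg (sum_nonneg fun k _ => tm0 h _ k) (sum_nonneg fun k _ => tm0 h _ k)
    have n2 : 0 ≤ 1 / (S.n : ℝ) ^ 2 := by positivity
    have e2 : 2 / (S.n : ℝ) ^ 2 = 2 * (1 / (S.n : ℝ) ^ 2) := by ring
    have q0 := sq_nonneg (M.s S.Jp - M.s S.J)
    rw [e2] at R
    generalize 1 / (S.n : ℝ) ^ 2 = ν at *
    generalize GS M S 0 S.C + GP M S = Γ at *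
    generalize (M.s S.Jp - M.s S.J) ^ 2 = q at *
    refine R.trans (le_trans ?_ (mul_le_mul_of_nonneg_right hΛ (by positivity)))
    rw [sq, mul_assoc]
    refine mul_le_mul_of_nonneg_left ?_ (by linarith)
    have a2 := mul_le_mul_of_nonneg_right K z0
    have a3 := mul_le_mul_of_nonneg_right c6 z0
    have a4 := mul_le_mul_of_nonneg_right L4' (show 0 ≤ u2 + Γ + q + ν by positivity)
    linarith
  exact key.mono fun _ _ _ _ _ _ _ _ _ _ H => H _ le_rfl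

/-- **iteration without a count**: a bound that halves at every pass reaches the budget -/
theorem iter {P : Prop} {x B Φ : ℝ} (B0 : 0 < B) (h0 : x ≤ Φ)
    (h : ∀ y, B ≤ y → y ≤ max B Φ → x ≤ y → P ∨ x ≤ y / 2) (hB : x ≤ B → P) : P := by
  have key : ∀ i : ℕ, ∀ y, y ≤ max B Φ → x ≤ y → y ≤ 2 ^ i * B → P := fun i => by
    induction i with
    | zero => exact fun y _ a b => hB (a.trans (by simpa using b))
    | succ i ih =>
      intro y a b d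
      rcases le_total y B with e | e
      · exact hB (b.trans e)
      · exact (h y e a b).elim id fun f => ih (y / 2) (by linarith) f (by rw [pow_succ] at d; linarith)
  obtain ⟨i, hi⟩ := pow_unbounded_of_one_lt (Φ / B) (one_lt_two (α := ℝ))
  rw [div_lt_iff₀ B0] at hi
  exact key i Φ (le_max_right _ _) h0 hi.le

end Crest.Agent.T156.Alt.Lp64

end
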