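import Crest.Agent.T156.HyA_4
import Crest.Agent.T156.HyF_43
import Crest.Agent.T156.LPu_3
import Crest.Agent.T156.LT2x_52
import Crest.Agent.T156.LoP_64

/-!
# Row 156 (helper4): `L63.Hy` on the graded path from linear lines in free exponents
-/

set_option autoImplicit false
set_option linter.unusedSectionVars false

noncomputable section

namespace Crest.Agent.T156.Alt.Hl4

open Real Finset
open Crest.Agent.T156.Alt.L69 Crest.Agent.T156.Alt.Ln97 Crest.Agent.T156.Alt.L63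
open Crest.Agent.T156.Alt.Lt52 (TL)
open Crest.Agent.T156.Alt.Lt38 (gL tz)
open Crest.Agent.T156.Alt.Kn72 (nu)

/-- **the lines of `LT2`**: `μ al ρ` = exponents of `θ la r`; `e a0 a ξ L χ2 χ3 χ4 γ ν g T1 Tu lm ε q`
= exponents of `E l0 l x Lg X2 X3 X4 G0 N gT t1 tu ℓ En p0` -/
structure LtL (c η μ al ρ e a0 a ξ L χ2 χ3 χ4 γ ν g T1 Tu lm ε q : ℝ) : Prop where
  rl : ρ ≤ a
  l2 : a0 + η ≤ a
  t1a : a + η ≤ T1
  kN : ν + η ≤ ε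
  kΓ : μ + 2 * al + 3 * η ≤ ε
  g1 : Tu + 4 * η ≤ 0 ∨ (μ + al + η ≤ g ∧ 2 / 3 * al + 4 * η ≤ lm ∧ e + g ≤ 3 / 2 * μ)
  tl : ∀ m, Ms c η μ T1 m → TL η c e a ξ L χ2 χ4 T1 m Tu lm ε q μ ∧ m + 2 * χ2 + 3 * η ≤ ε + T1 ∧
    m + 8 * L - 4 / 3 * (1 + T1 + m) + 3 * η ≤ ε + T1
  ke : ∀ T m, T1 - η ≤ T → T ≤ η → Ms c η μ T m →
    M12 η L ξ χ2 χ3 γ T m ((ε + m - T - 6 * η) / 2)
  kp : ∀ T m, a ≤ T → T ≤ Tu → Ms c η μ T m → M12 η L ξ χ2 χ3 γ T m (q - 6 * η + m - T) ∧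
    (T + 4 * η ≤ 0 ∨ g ≤ q - 5 * η + m - T) ∧ T + χ2 + 5 * η ≤ q + m / 2 ∧
    T + 4 * L - 2 / 3 * (1 + T + m) + 5 * η ≤ q + m / 2

/-- **all the lines of `Hy` but those of `LN`**: `v uu` = exponents of `Vc u2`;
`ξp vt μ1 μ2 lp lc ι κ τ` = exponents of `xp Vt u1 u2 L Lc j ηc τ` (`X = x³`, `Xp = xp³`, `Lp = L³`);
`ε1` = exponent of `η 1` -/
structure HyL (c η μ al ρ v uu e a0 a ξ L χ2 χ3 χ4 γ ν g T1 Tu lm ε q
    ξp vt μ1 μ2 lp lc ι κ τ ε1 : ℝ) : Prop where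
  lt : LtL c η μ al ρ e a0 a ξ L χ2 χ3 χ4 γ ν g T1 Tu lm ε q
  fl : Hy43.FL η e a0 (3 * ξ) (3 * ξp) ι L lm μ al
  e1 : M12 η L ξ χ2 χ3 γ 0 μ (ε1 - η)
  el : ∃ p2 p3 d1 d2 q' r lm' z b α ε' a' m β δ, Lq3.EL η e μ al v uu ξp vt μ1 μ2 lp L lc χ2 χ3 γ ι κ τ
    ε1 ν p2 p3 d1 d2 q' r lm' z b α ε' a' m β δ

variable {β c0 C0 : ℝ} {A : ℕ} {c η K' ε0 K c0' C0' η' : ℝ} {p : Pm} {σ t : ℝ} {Q : Pl}
  (G : Gd66 β c0 C0 A c η K' ε0 K c0' C0' η' p σ t Q)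
include G

theorem cx (hc : c ≤ 1 / 2000) : Nr44.Cx β c0 C0 A c η K' p σ t :=
  ⟨G.R, hc, by linarith [ηc G, G.R.η_pos], G.O⟩

/-- exponent of the corner level -/
theorem lg_sJ : 0 < (p.gst Q t).s (p.scG K σ t Q).J ∧
    -(4 * η) ≤ logb p.n ((p.gst Q t).s (p.scG K σ t Q).J) ∧
    logb p.n ((p.gst Q t).s (p.scG K σ t Q).J) ≤ η := by
  have H := G.R
  have cl := G.D.cl.1
  have a := Lp64.sJ3 cl
  have C0 := cl.C0
  have b := lg_C G C0 le_rfl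
  have d := cl.s_le_C cl.i3
  have s0 : 0 < (p.gst Q t).s (p.scG K σ t Q).J :=
    (mul_pos_iff_of_pos_left (by positivity)).1 (one_pos.trans_le a)
  refine ⟨s0, ?_, lg_C G s0 d⟩
  have e := H.lg_mono one_pos a
  have n3 := (H.lg_num (x := 3) (by norm_num) (by norm_num)).2
  generalize (p.scG K σ t Q).C = C at *
  rw [logb_one, logb_mul (by positivity) s0.ne', logb_mul (by norm_num) (by positivity),
    logb_pow] at e
  push_cast at e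
  linarith

section fx

variable {E l0 l x X Lg X2 X3 G0 b : ℝ}
  (h : FX E (p.scG K σ t Q) (p.gst Q t) l0 l x X Lg ((p.n : ℝ) ^ (-(2 : ℝ) / 3)) X2 X3 G0)
  (E0 : 0 < E) (e5 : 5 * η ≤ logb p.n E)
include h E0 e5

/-- the top levels -/
theorem top_lv {y : ℝ} (y0 : 0 < y) (hy : -(5 * η) ≤ logb p.n y) :
    l ≤ y ∧ (p.scG K σ t Q).ms y = p.muG t := by
  have H := G.R
  have l1 := H.lg_np (mul_pos E0 h.lp) h.l1
  rw [logb_mul E0.ne' h.lp.ne'] at l1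
  refine ⟨H.le_of_lg h.lp y0 (by linarith), H.msG_hi t (H.le_of_lg H.ye0 y0 ?_)⟩
  rw [H.lg_ye]; linarith [ηc G, H.η_pos]

/-- **`η` on the top levels** -/
theorem eta_top {y T : ℝ} (y0 : 0 < y) (hT : -(5 * η) ≤ T) (hy : T ≤ logb p.n y)
    (m : M12 η (logb p.n Lg) (logb p.n x) (logb p.n X2) (logb p.n X3) (logb p.n G0) T
      (logb p.n (p.muG t)) b) :
    eta (p.scG K σ t Q) l Lg ((p.n : ℝ) ^ (-(2 : ℝ) / 3)) X X2 X3 G0 y ≤ (p.n : ℝ) ^ (b + η) := by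
  obtain ⟨a1, a2⟩ := top_lv G h E0 e5 y0 (hT.trans hy)
  exact Lt76.eta_lg G.R h rfl rfl a1 (m12_up m hy (by rw [a2]))

/-- **the local size on the top levels** -/
theorem bs_top {y T g B : ℝ} (y0 : 0 < y) (hT : -(5 * η) ≤ T) (hy : T ≤ logb p.n y)
    (m : M12 η (logb p.n Lg) (logb p.n x) (logb p.n X2) (logb p.n X3) (logb p.n G0) T
      (logb p.n (p.muG t)) b) (hg : g ≤ (p.n : ℝ) ^ (b + η))
    (k : Lt76.BL η (logb p.n Lg) (logb p.n X2) T (logb p.n (p.muG t)) b 0 B) :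
    bs (p.scG K σ t Q) Lg X2 g (eta (p.scG K σ t Q) l Lg ((p.n : ℝ) ^ (-(2 : ℝ) / 3)) X X2 X3 G0) y ≤
      (p.n : ℝ) ^ (B + η) := by
  obtain ⟨a1, a2⟩ := top_lv G h E0 e5 y0 (hT.trans hy)
  have := Lt76.bs_lg (B := B) G.R h rfl rfl a1 one_pos (m12_up m hy (by rw [a2])) hg (by
    rw [a2, logb_one]; exact ⟨k.k1, k.k2, by linarith [k.k3]⟩)
  rwa [one_mul] at this

omit h E0 e5 in
/-- `[sJ / 64, sJ]` is on the top levels -/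
theorem lv64 {y : ℝ} (hy : (p.gst Q t).s (p.scG K σ t Q).J / 64 ≤ y) :
    0 < y ∧ -(5 * η) ≤ logb p.n y := by
  obtain ⟨s0, s1, -⟩ := lg_sJ G
  have y0 : 0 < (p.gst Q t).s (p.scG K σ t Q).J / 64 := by positivity
  have a := G.R.lg_mono y0 hy
  rw [logb_div s0.ne' (by norm_num)] at a
  exact ⟨y0.trans_le hy, by linarith [(G.R.lg_num (x := 64) (by norm_num) (by norm_num)).2]⟩

omit e5 in
/-- **`LT2` from the lines** -/
theorem lt2 {Xp X4 N gT t1 tu ℓ En p0 : ℝ} (x4 : 0 < X4) (N0 : 0 < N) (g0 : 0 < gT) (t0 : 0 < t1)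
    (u0 : 0 < tu) (ℓ0 : 0 < ℓ) (e0 : 0 < En) (q0 : 0 < p0)
    (tu1 : tu ≤ (p.gst Q t).s (p.scG K σ t Q).J)
    (T : LtL c η (logb p.n (p.muG t)) (logb p.n (p.laG σ)) (logb p.n p.r) (logb p.n E) (logb p.n l0)
      (logb p.n l) (logb p.n x) (logb p.n Lg) (logb p.n X2) (logb p.n X3) (logb p.n X4)
      (logb p.n G0) (logb p.n N) (logb p.n gT) (logb p.n t1) (logb p.n tu) (logb p.n ℓ)
      (logb p.n En) (logb p.n p0)) :
    LT2 E (p.scG K σ t Q) (p.gst Q t) l0 l X Xp Lg X2 X4 (gL K gT) t1 tu ℓ N En p0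
      (eta (p.scG K σ t Q) l Lg ((p.n : ℝ) ^ (-(2 : ℝ) / 3)) X X2 X3 G0) := by
  have H := G.R
  have lp := h.lp
  have η0 := H.η_pos
  have n0 := H.N0
  have θ0 := H.muG_pos G.M
  have a0 := H.laG0 G.M0
  have K1 := G.D.nb.K1
  have ηc' := ηc G
  have rl : p.r ≤ l := H.le_of_lg H.r0 lp T.rl
  have t1a : 2 * l ≤ t1 := Lt76.num_le H (by norm_num) lp t0 T.t1a
  have M1 := ms_lg H G.M (show p.r ≤ t1 by linarith)
  obtain ⟨T1, k2, k3⟩ := T.tl _ M1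
  have n2 := (H.lg_num (x := 2) (by norm_num) (by norm_num)).2
  have lu := lg_C G u0 (tu1.trans (G.D.cl.1.s_le_C G.D.cl.1.i3))
  have gs := Hy43.G_le H G.O G.D G.X G.BK 0 (8 * K ^ 2)
  have gp : 0 ≤ GP (p.gst Q t) (p.scG K σ t Q) := sum_nonneg fun k _ => Lp64.tm0 G.D.cl.1 _ k
  refine Lt52.lt2_lg (Γ := ((p.n : ℝ) ^ η * (p.muG t * p.laG σ)) ^ 2)
    (b := (logb p.n En + logb p.n t1 - 5 * η) / 2) (B := (logb p.n En + logb p.n t1 - 3 * η) / 2)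
    H G.D G.CK G.O h E0 x4 ℓ0 u0 e0 q0 g0.le (Lt76.num_le H (by norm_num) h.l00 lp T.l2) rl t1a tu1
    ?_ ?_ (by linarith) (Lt76.num_le H (by norm_num) (by positivity) (by positivity) ?_)
    (Lt76.num_le H (by norm_num) N0 e0 T.kN) T1
    ((T.ke _ _ (by linarith) (by linarith [T1.t1b, T1.e5]) M1).mono (by linarith [M1.u1]))
    ⟨by linarith, by linarith, by linarith⟩ (by linarith) (fun r r1 r2 => ?_) fun r r1 r2 => ?_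
  · rcases T.g1 with a | ⟨a1, a2, -⟩
    · have := Lt52.tz_of H G.D G.CK u0 a
      exact Lt52.g1_lo G.D g0.le (by linarith) ℓ0.le
    · have U : 0 < Plt13.u0 p (p.mt (p.muG σ)) ∧
          logb p.n (Plt13.u0 p (p.mt (p.muG σ))) = 2 / 3 * logb p.n (p.laG σ) :=
        ⟨rpow_pos_of_pos a0 _, logb_rpow_eq_mul_logb_of_pos a0⟩
      have lg0 : 0 < log p.n := by linarith [H.log1]
      have C0 : 0 < 8 * K ^ 2 := by positivity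
      have c1 := H.lg_le C0 G.CK
      have c2 := H.lg_le (show 0 < 4 * K by positivity) (by linarith [G.BK])
      refine Lt38.g1_off H G.O G.D G.X ?_ tu1 ?_
      · rw [show 4 * (p.muG t * K * p.laG σ) = 4 * K * (p.muG t * p.laG σ) by ring]
        refine H.le_of_lg (by positivity) g0 ?_
        rw [logb_mul (by positivity) (by positivity), logb_mul θ0.ne' a0.ne']
        linarith
      · rw [mul_assoc]
        have := U.1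
        refine Lt76.num_le H (by norm_num) (by positivity) ℓ0 ?_
        rw [logb_mul (by positivity) (by positivity), logb_mul lg0.ne' U.1.ne', logb_pow, U.2]
        push_cast
        linarith [H.lg_log.2]
  · refine T.g1.imp (Lt52.tz_of H G.D G.CK u0) fun a => H.le_of_lg (by positivity) (by positivity) ?_
    lg_norm; linarith [a.2.2]
  · lg_norm; rw [H.lg_n]; linarith [T.kΓ]
  · have r0 : 0 < r := by linarith
    have d := H.lg_mono (half_pos t0) r1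
    rw [logb_div t0.ne' two_ne_zero] at d
    exact ⟨_, T.ke _ _ (by linarith) (H.lg_le r0 (r2.trans G.CK)) (ms_lg H G.M (by linarith)),
      by linarith⟩
  · have r0 := lp.trans_le r1
    obtain ⟨a1, a2, a3, a4⟩ := T.kp _ _ (H.lg_mono lp r1) (H.lg_mono r0 r2)
      (ms_lg H G.M (rl.trans r1))
    exact ⟨_, a1, a2.imp (Lt52.tz_of H G.D G.CK r0) fun a =>
      H.le_of_lg g0 (H.rp0 _) (by rw [H.lg_rp]; linarith), by linarith, by linarith, by linarith⟩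

end fx

variable (hc : c ≤ 1 / 2000) {m : ℕ}
  {a E l0 l x xp Vt u1 u2 L Lg Lc X2 X3 X4 G0 j ηc τ N gT t1 tu ℓ En p0 ε1 : ℝ}
include hc

/-- **`Hy` from `FX`, `LN` and the lines** -/
theorem hy' (fx : FX E (p.scG K σ t Q) (p.gst Q t) l0 l x (x ^ 3) Lg ((p.n : ℝ) ^ (-(2 : ℝ) / 3)) X2 X3 G0)
    (ln : LN E (p.scG K σ t Q) (p.gst Q t) l0 l ((x ^ 3) ^ ((1 : ℝ) / 3)) (x ^ 3) Lg X2 X3 G0
      (eta (p.scG K σ t Q) l Lg ((p.n : ℝ) ^ (-(2 : ℝ) / 3)) (x ^ 3) X2 X3 G0))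
    (E0 : 0 < E) (xp0 : 0 < xp) (V0 : 0 < Vt) (u10 : 0 < u1) (u20 : 0 < u2) (L0 : 0 < L)
    (Lc0 : 0 < Lc) (Z0 : 0 < X3) (x4 : 0 < X4) (G00 : 0 < G0) (j0 : 0 < j) (k0 : 0 < ηc) (τ0 : 0 < τ)
    (N0 : 0 < N) (g0 : 0 < gT) (t0 : 0 < t1) (u0 : 0 < tu) (ℓ0 : 0 < ℓ) (e0 : 0 < En) (q0 : 0 < p0)
    (hΦ : (p.gst Q t).Phi (p.scG K σ t Q) m a ≤ x ^ 3)
    (top : x ^ 3 ≤ xp ^ 3 ∨ (p.gst Q t).En (p.scG K σ t Q) m a (p.gst Q t).q 2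
      ((p.gst Q t).s (p.scG K σ t Q).J / 2) (p.scG K σ t Q).C ≤ xp ^ 3)
    (vt : ∀ k, (p.scG K σ t Q).J ≤ k → k ≤ (p.scG K σ t Q).Jp → u1 ≤ du (p.gst Q t) k →
      (p.gst Q t).del m a k ≤ Vt)
    (tu1 : tu ≤ (p.gst Q t).s (p.scG K σ t Q).J)
    (T : HyL c η (logb p.n (p.muG t)) (logb p.n (p.laG σ)) (logb p.n p.r)
      (logb p.n (p.Vc (nu p σ))) (logb p.n (p.u2 (nu p σ))) (logb p.n E) (logb p.n l0)
      (logb p.n l) (logb p.n x) (logb p.n Lg) (logb p.n X2) (logb p.n X3) (logb p.n X4)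
      (logb p.n G0) (logb p.n N) (logb p.n gT) (logb p.n t1) (logb p.n tu) (logb p.n ℓ)
      (logb p.n En) (logb p.n p0) (logb p.n xp) (logb p.n Vt) (logb p.n u1) (logb p.n u2)
      (logb p.n L) (logb p.n Lc) (logb p.n j) (logb p.n ηc) (logb p.n τ) ε1) :
    Hy E (p.scG K σ t Q) (p.gst Q t) m a 0 u1 u2 j 0 Lc ηc τ l0 l (x ^ 3) (xp ^ 3) Vt Lg (L ^ 3) X2 X3
      X4 G0 (eta (p.scG K σ t Q) l Lg ((p.n : ℝ) ^ (-(2 : ℝ) / 3)) (x ^ 3) X2 X3 G0) N (gL K gT)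
      t1 tu ℓ En p0 := by
  have H := G.R
  have B := Tr3.B.of H
  have lt := lt2 (Xp := xp ^ 3) G fx E0 x4 N0 g0 t0 u0 ℓ0 e0 q0 tu1 T.lt
  have rl : p.r ≤ t1 := by
    linarith [H.le_of_lg H.r0 fx.lp T.lt.rl, lt.t1a, fx.lp]
  have e5 := (T.lt.tl _ (ms_lg H G.M rl)).1.e5
  have e1 := eta_top G fx E0 e5 one_pos (by linarith [H.η_pos]) logb_one.ge T.e1
  rw [sub_add_cancel] at e1
  obtain ⟨_, _, _, _, _, _, _, _, _, _, _, _, _, _, _, Z⟩ := T.el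
  refine Hy43.hy H G.O G.D G.X G.BK hΦ top vt E0 fx.l00 j0 u10 fx.Lgp ℓ0 ?_ ln
    (Lq3.lp_lg (cx G hc) G.D G.A4 G.X (Lq3.tl B E0) (Lq3.tl B xp0) (B.ul V0) (Lq3.tl B u10)
      (Lq3.tl B u20) (Lq3.tl B L0) (Lq3.tl B fx.Lgp) (Lq3.tl B Lc0) (Lq3.tl B fx.X20) (Lq3.tl B Z0)
      (Lq3.tl B G00) (B.ul j0) (Lq3.tl B k0) (Lq3.tl B τ0) (B.dl N0) ⟨(fx.eta_pos _).le, e1⟩ Z) lt
  rw [logb_pow, logb_pow]
  exact_mod_cast T.fl

/-- `n ^ a` -/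
abbrev pw (p : Pm) (a : ℝ) : ℝ := (p.n : ℝ) ^ a

/-- the function `η` of the table -/
abbrev etaN (p : Pm) (S : Sc) (a ξ L χ2 χ3 γ : ℝ) : ℝ → ℝ :=
  eta S (pw p a) (pw p L) ((p.n : ℝ) ^ (-(2 : ℝ) / 3)) (pw p ξ ^ 3) (pw p χ2) (pw p χ3) (pw p γ)

omit hc in
/-- `FX` for a table of pure powers -/
theorem fxN {e a0 a' ξ L χ2 χ3 γ : ℝ}
    (h : LnL c η (logb p.n (p.muG t)) (logb p.n p.r) e a0 a' ξ L χ2 χ3 γ) :
    FX (pw p e) (p.scG K σ t Q) (p.gst Q t) (pw p a0) (pw p a') (pw p ξ) (pw p ξ ^ 3) (pw p L)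
      ((p.n : ℝ) ^ (-(2 : ℝ) / 3)) (pw p χ2) (pw p χ3) (pw p γ) :=
  have r := G.R.rp0
  fx G (r _) (r _) (r _) (r _) rfl (r _) (r _) (r _) (r _) (by simpa only [G.R.lg_rp] using h)

/-- **`Hy` for a table of pure powers** (`tu` is free) -/
theorem hyN {e a0 a' ξ L χ2 χ3 χ4 γ ν g T1 lm ε q ξp vt μ1 μ2 lp lc ι κ τ : ℝ}
    (h : LnL c η (logb p.n (p.muG t)) (logb p.n p.r) e a0 a' ξ L χ2 χ3 γ)
    (hΦ : (p.gst Q t).Phi (p.scG K σ t Q) m a ≤ pw p ξ ^ 3)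
    (top : pw p ξ ^ 3 ≤ pw p ξp ^ 3 ∨ (p.gst Q t).En (p.scG K σ t Q) m a (p.gst Q t).q 2
      ((p.gst Q t).s (p.scG K σ t Q).J / 2) (p.scG K σ t Q).C ≤ pw p ξp ^ 3)
    (hv : ∀ k, (p.scG K σ t Q).J ≤ k → k ≤ (p.scG K σ t Q).Jp → pw p μ1 ≤ du (p.gst Q t) k →
      (p.gst Q t).del m a k ≤ pw p vt)
    (u0 : 0 < tu) (tu1 : tu ≤ (p.gst Q t).s (p.scG K σ t Q).J)
    (T : HyL c η (logb p.n (p.muG t)) (logb p.n (p.laG σ)) (logb p.n p.r)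
      (logb p.n (p.Vc (nu p σ))) (logb p.n (p.u2 (nu p σ))) e a0 a' ξ L χ2 χ3 χ4 γ ν g T1
      (logb p.n tu) lm ε q ξp vt μ1 μ2 lp lc ι κ τ ε1) :
    Hy (pw p e) (p.scG K σ t Q) (p.gst Q t) m a 0 (pw p μ1) (pw p μ2) (pw p ι) 0 (pw p lc) (pw p κ)
      (pw p τ) (pw p a0) (pw p a') (pw p ξ ^ 3) (pw p ξp ^ 3) (pw p vt) (pw p L) (pw p lp ^ 3)
      (pw p χ2) (pw p χ3) (pw p χ4) (pw p γ) (etaN p (p.scG K σ t Q) a' ξ L χ2 χ3 γ) (pw p ν)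
      (gL K (pw p g)) (pw p T1) tu (pw p lm) (pw p ε) (pw p q) :=
  have r := G.R.rp0
  hy' G hc (fxN G h) (ln G (r _) (r _) (r _) (r _) rfl (r _) (r _) (r _) (r _)
    (by simpa only [G.R.lg_rp] using h)) (r _) (r _) (r _) (r _) (r _) (r _) (r _) (r _) (r _) (r _)
    (r _) (r _) (r _) (r _) (r _) (r _) u0 (r _) (r _) (r _) hΦ top hv tu1
    (by simpa only [G.R.lg_rp] using T)

end Crest.Agent.T156.Alt.Hl4

end
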