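import Crest.Agent.T156.HyD_77
import Crest.Agent.T156.HyF_43
import Crest.Agent.T156.R1LocB_77

/-!
# Row 156 (helper77): `L63.Hy` and the sup location on the numbers of `LtD_29`
-/

set_option autoImplicit false

noncomputable section

namespace Crest.Agent.T156.Alt.R77

open Real Finset Pre29
open Crest.Agent.T156.Alt.L69 (LN LP LO bs)
open Crest.Agent.T156.Alt.L63 (LT2 Hy TP TL2x)

section pt

variable {β c0 C0 c0' C0' η' : ℝ} {A : ℕ} {c η K K' : ℝ} {p : Pm} {σ t : ℝ} {Q : Pl}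
  (X : Nr44.Cx β c0 C0 A c η K' p σ t) (hη : 200000 * η ≤ c)
include X

theorem lg_nc (e : ℝ) : 0 < p.nc e ∧ logb p.n (p.nc e) = e * c :=
  ⟨X.H.rp0 _, by rw [Pm.nc, X.H.lg_rp, X.H.hc]⟩

theorem la_Xlo : p.laG σ ^ 2 ≤ p.XloL σ t := by
  have H := X.H
  have := X.la0; have := X.sM0; have := X.θ0
  obtain ⟨a0, a⟩ := lg_nc X (1 / 40)
  obtain ⟨b0, b⟩ := lg_nc X (21 / 40)
  refine le_min (X.la_Pt.trans (min_le_left _ _)) ?_
  unfold Pm.BuL
  refine H.le_of_lg (by positivity) (by positivity) ?_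
  lg_norm
  linarith [X.lg_sM.1, (H.lg_muG' X.Mt).2, H.c_pos]

include hη

theorem EL_ge : ((p.n : ℝ) ^ η) ^ 2 ≤ p.EL := by
  rw [rp_pow]
  exact rp_le X.H.n1 (by rw [X.H.hc]; push_cast; linarith)

theorem EL_two : 2 ≤ p.EL := by nlinarith [EL_ge X hη, X.H.num_le]

/-- `Hy.jg` -/
theorem jg_L (hl : p.lN t ≤ p.ye) (l0 : 0 < p.l0L t) (h0 : p.l0L t ^ 3 ≤ p.X2L t) :
    p.EL * (p.jL σ t + 0) ≤ p.LgL * p.elL t := by
  have H := X.H
  have E2 := EL_two X hη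
  have x0 := X.lN0
  have θ0 := X.θ0
  have la := X.la0
  have c0 := H.c_pos
  have e : logb p.n (p.lN t) ≤ -(3 * c) := (H.lg_mono x0 hl).trans_eq H.lg_ye
  have a1 : √(p.PhN t) ≤ p.lN t := by
    rw [← X.l3]
    exact H.le_of_lg (by positivity) x0 (by lg_norm; linarith)
  have a2 : √(p.GaL σ t) ≤ p.EL * √(p.muG t) := by
    obtain ⟨b0, b⟩ := lg_nc X (1 / 100000)
    unfold Pm.GaL Pm.EL
    refine H.le_of_lg (by positivity) (by positivity) ?_
    lg_norm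
    linarith [X.lg_θla]
  have a3 : p.l0L t ^ 2 ≤ p.lN t := by
    obtain ⟨b0, b⟩ := lg_nc X (1 / 1000)
    have d : p.l0L t ^ 3 ≤ p.nc (1 / 1000) * p.lN t ^ 3 := h0.trans (by
      rw [X.l3]; exact mul_le_mul_of_nonneg_left (min_le_left _ _) b0.le)
    have d' := H.lg_mono (by positivity) d
    rw [logb_mul b0.ne' (by positivity), logb_pow, logb_pow] at d'
    refine H.le_of_lg (by positivity) x0 ?_
    rw [logb_pow]
    push_cast at d' ⊢
    linarith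
  have s := sqrt_nonneg (p.muG t)
  unfold Pm.jL Pm.LgL Pm.elL
  generalize p.EL = E at *
  have f : 2 ≤ E ^ 3 ∧ E ≤ E ^ 3 := by
    have := le_self_pow₀ (show 1 ≤ E by linarith) (show 3 ≠ 0 by norm_num)
    exact ⟨by linarith, this⟩
  have g := mul_le_mul_of_nonneg_right f.1 x0.le
  have g' := mul_le_mul_of_nonneg_right f.2 s
  have k : √(p.PhN t) + √(p.GaL σ t) + p.l0L t ^ 2 + 0 ≤ E ^ 3 * (p.lN t + √(p.muG t)) := by
    linarith
  exact (mul_le_mul_of_nonneg_left k (by linarith)).trans_eq (by ring)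

theorem tp_L : p.EL * p.PhN t ≤ p.elL t ^ 3 := by
  have E2 := EL_two X hη
  have x0 := X.lN0
  have a : p.EL * p.lN t ≤ p.elL t := mul_le_mul (by nlinarith) (by linarith [sqrt_nonneg (p.muG t)])
    x0.le (by positivity)
  refine le_trans ?_ (pow_le_pow_left₀ (by positivity) a 3)
  rw [mul_pow, X.l3]
  exact mul_le_mul_of_nonneg_right (le_self_pow₀ (by linarith) (by norm_num)) X.Ph0.le

end pt

theorem hyY_of {β : ℝ} (hβ : 1 < β) (h1 : OnG LNx β) (h2 : OnG LPx β) (h3 : OnG LTx β)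
    (h4 : OnG Vtx β) : OnG HyY β :=
  OnG.cl' hβ CL.triv (((h1.and h2).and h3).and h4) one_pos (by norm_num : (0 : ℝ) < 1 / 2000)
    200000 0 (fun _ => 0) fun K c0 C0 A c η K' c0' C0' η' p σ t Q G a _ b _ _ ⟨⟨⟨r1, r2⟩, r3⟩, r4⟩
      nd n2 m x hm hΦ y y0 y1 top => by
    have b' : 200000 * η ≤ c := by exact_mod_cast b
    have X : Nr44.Cx β c0 C0 A c η K' p σ t := ⟨G.R, a, by linarith [G.R.η_pos], G.O⟩
    have ln := r1 nd n2
    have cl := G.D.cl.1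
    have s0 := X.H.rp0
    have θ0 := X.θ0
    have l0 : 0 < p.l0L t := lt_max_of_lt_left (mul_pos (pow_pos (s0 _) 2) X.H.rj0)
    have u0 : 0 < p.uL t := div_pos (s0 _) (lt_max_of_lt_left one_pos)
    have g : L69.GS (p.gst Q t) (p.scG K σ t Q) 0 (p.scG K σ t Q).C +
        L69.GP (p.gst Q t) (p.scG K σ t Q) ≤ p.GaL σ t :=
      (Hy43.G_le G.R G.O G.D G.X G.BK _ _).trans (by
        rw [mul_pow]; exact mul_le_mul_of_nonneg_right (EL_ge X b') (sq_nonneg _))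
    refine ⟨Hy43.ce G.D, ln, r2 nd n2 y y0 y1, ⟨(Hy43.phi G.D).trans_le hΦ, top, r4 nd n2 m x hm hΦ,
      add_le_add (add_le_add le_rfl (sqrt_le_sqrt g)) le_rfl,
      Hy43.jn G.R G.O G.D ((la_Xlo X).trans y0) u0⟩, r3 nd n2 y y0 y1, jg_L X b' ?_ l0 ?_⟩
    · have := (X.nr G.D G.CK).ly
      refine this.trans (mul_le_of_le_one_left X.H.ye0.le ?_)
      exact rpow_le_one_of_one_le_of_nonpos X.H.N1.le (by rw [X.H.hc]; linarith [X.H.c_pos])
    · refine le_trans ?_ ln.x2a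
      have e : p.l0L t ≤ L69.cl (p.scG K σ t Q) (p.PhN t ^ ((1 : ℝ) / 3)) (p.l0L t) := by
        have := le_mul_of_one_le_left l0.le (le_max_left 1
          (((p.scG K σ t Q).F * (p.scG K σ t Q).ms (p.l0L t) / p.l0L t ^ 2) ^ ((1 : ℝ) / 3)))
        unfold L69.cl L69.cr
        linarith [ln.V0]
      rw [pow_succ']
      exact mul_le_mul_of_nonneg_left (pow_le_pow_left₀ l0.le e 2) l0.le

theorem supx_of {β : ℝ} (hβ : 1 < β) (T : TL2x) (h : OnG Hyx β) : OnG Supx β :=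
  OnG.cl' hβ T h (by norm_num : (0 : ℝ) < 1 / 100000) (by norm_num : (0 : ℝ) < 1 / 2000)
    200000 0 (fun _ => 0) fun K c0 C0 A c η K' c0' C0' η' p σ t Q G a _ b _ L r
      nd n2 m x hm hΦ k k1 k2 => by
    have b' : 200000 * η ≤ c := by exact_mod_cast b
    have X : Nr44.Cx β c0 C0 A c η K' p σ t := ⟨G.R, a, by linarith [G.R.η_pos], G.O⟩
    have e : (p.n : ℝ) ^ (1 / 100000 * c) = p.EL := by rw [Pm.EL, Pm.nc, G.R.hc]
    have L := L m x hm
    rw [e] at L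
    have o := (L _ _ _ _ _ _ _ _ _ _ _ _ _ _ _ _ _ _ _ _ _ _ _ _ _ _ _ (r nd n2 m x hm hΦ)
      (Or.inl (tp_L X b'))).1 k k1 k2
    have Λ := G.R.Λ0
    have := nonneg_of_mul_nonneg_right ((abs_nonneg _).trans o) Λ
    refine o.trans (mul_le_mul_of_nonneg_right ?_ this)
    nlinarith [EL_ge X b', G.R.Λ1]

end Crest.Agent.T156.Alt.R77

end
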