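import Crest.Agent.T156.HyF_43
import Crest.Agent.T156.LtD_29

/-!
# Row 156 (helper43): the frame of `L63.Hy` on the numbers of `LtD_29`
-/

set_option autoImplicit false
set_option linter.all false

noncomputable section

namespace Crest.Agent.T156.Alt.Hy43

open Real Finset
open Crest.Agent.T156.Alt.L69 Crest.Agent.T156.Alt.L63

variable {β c0 C0 c0' C0' η' : ℝ} {A : ℕ} {c η K K' : ℝ} {p : Pm} {σ t : ℝ} {Q : Pl} {m : ℕ}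
  {a y : ℝ} (X : Nr44.Cx β c0 C0 A c η K p σ t)
include X

theorem nc0 (e : ℝ) : 0 < p.nc e := X.H.rp0 _
theorem lg_nc (e : ℝ) : logb p.n (p.nc e) = e * c := by rw [Pm.nc, X.H.lg_rp, X.H.hc]
theorem EL0 : 0 < p.EL := nc0 X _
theorem lg_EL : logb p.n p.EL = c / 100000 := by rw [Pm.EL, lg_nc X]; ring

theorem lN1 : p.lN t ≤ 1 := by
  have a := Nr44.ly X.H X.hy
  have b : p.dN ≤ 1 := X.H.le_of_lg X.d0 one_pos (by rw [X.lg_d, logb_one]; linarith [X.H.c_pos])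
  nlinarith [X.H.ye1, X.H.ye0, X.d0]

theorem l0L0 : 0 < p.l0L t := lt_max_of_lt_left (mul_pos (pow_pos (EL0 X) 2) X.H.rj0)

theorem l0L_le : p.l0L t ≤ p.l0G t (p.lN t) := by
  refine max_le (le_trans ?_ Nr44.r0) (le_max_right _ _)
  have := EL0 X; have := X.H.rj0
  refine X.H.le_of_lg (by positivity) X.H.r0 ?_
  lg_norm
  linarith [lg_EL X, X.H.lg_rj, X.H.lg_r, X.H.c_pos]

theorem l0L_lN : p.l0L t ≤ p.lN t := (l0L_le X).trans X.l0l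

theorem θ1 : p.muG t ≤ 1 := X.H.le_of_lg X.θ0 one_pos (by
  rw [logb_one]; linarith [(X.H.lg_muG66 X.Mt).2.1, X.H.η_le, X.H.c_pos])

theorem la_Ph : p.laG σ ^ 2 ≤ p.PhN t := X.la_Pt.trans (min_le_left _ _)

theorem xM1 : 1 ≤ p.xM t := le_max_left _ _
theorem uL0 : 0 < p.uL t := div_pos (X.H.rp0 _) (one_pos.trans_le (xM1 X))

/-- `la² ≤ XloL` -/
theorem la_Xlo : p.laG σ ^ 2 ≤ p.XloL σ t := by
  refine le_min (la_Ph X) ?_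
  have := X.la0; have := X.sM0; have := X.θ0; have := nc0 X (1 / 40); have := nc0 X (21 / 40)
  rw [Pm.BuL]
  refine X.H.le_of_lg (by positivity) (by positivity) ?_
  lg_norm
  linarith [lg_nc X (1 / 40), lg_nc X (21 / 40), X.lg_sM.1, X.H.c_pos,
    X.H.lg_np X.θ0 (θ1 X)]

/-- **`GS + GP ≤ GaL`** -/
theorem G_Ga (hη : 200000 * η ≤ c) (G : GrD K' c0' C0' η' p σ t Q) (P : p.PlX σ t Q)
    (hK : 5 * (406 + 8 * K') ≤ (p.n : ℝ) ^ η) (x y : ℝ) :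
    GS (p.gst Q t) (p.scG K' σ t Q) x y + GP (p.gst Q t) (p.scG K' σ t Q) ≤ p.GaL σ t := by
  refine (G_le X.H X.o G P hK x y).trans ?_
  have := X.la0; have := X.θ0; have := EL0 X; have := X.H.N0
  rw [Pm.GaL]
  refine X.H.le_of_lg (by positivity) (by positivity) ?_
  lg_norm
  rw [X.H.lg_n]
  linarith [lg_EL X]

theorem jL0 : 0 < p.jL σ t := by
  have := X.Ph0
  rw [Pm.jL]; positivity

/-- **`Hy.ap`** -/
theorem ap_L (hη : 200000 * η ≤ c) (G : GrD K' c0' C0' η' p σ t Q) (P : p.PlX σ t Q)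
    (hK : 5 * (406 + 8 * K') ≤ (p.n : ℝ) ^ η) {Vt u1 : ℝ}
    (hΦ : (p.gst Q t).Phi (p.scG K' σ t Q) m a ≤ p.PhN t) (hy : p.laG σ ^ 2 ≤ y)
    (top : p.PhN t ≤ y ∨ (p.gst Q t).En (p.scG K' σ t Q) m a (p.gst Q t).q 2
      ((p.gst Q t).s (p.scG K' σ t Q).J / 2) (p.scG K' σ t Q).C ≤ y) (hu : 0 < u1)
    (vt : ∀ k, (p.scG K' σ t Q).J ≤ k → k ≤ (p.scG K' σ t Q).Jp → u1 ≤ du (p.gst Q t) k →
      (p.gst Q t).del m a k ≤ Vt) :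
    Ap (p.scG K' σ t Q) (p.gst Q t) m a (p.l0L t) (p.PhN t) y Vt u1 (p.jL σ t) := by
  have h := (phi G).trans_le hΦ
  exact ⟨h, top.elim (fun e => ((En_le G.cl.1 _ _).trans h).trans e) id, vt,
    add_le_add (add_le_add le_rfl (sqrt_le_sqrt (G_Ga X hη G P hK _ _))) le_rfl,
    jn X.H X.o G hy hu⟩

/-- `jL ≤ EL (lN + √θ)` -/
theorem jL_le (hη : 200000 * η ≤ c) : p.jL σ t ≤ p.EL * (p.lN t + √(p.muG t)) := by
  have l0 := X.lN0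
  have l1 := lN1 X
  have E1 : 1000 ≤ p.EL := X.H.num_le.trans (rpow_le_rpow_of_exponent_le X.H.N1.le (by
    rw [X.H.hc]; linarith [X.H.η_pos]))
  have a1 : √(p.PhN t) ≤ p.lN t := (sqrt_le_left l0.le).2 (by rw [← X.l3]; nlinarith [pow_pos l0 2])
  have a2 : p.l0L t ^ 2 ≤ p.lN t := by nlinarith [l0L_lN X, l0L0 X]
  have a4 : p.laG σ ^ 2 ≤ 1 := (la_Ph X).trans (by rw [← X.l3]; exact pow_le_one₀ l0.le l1)
  have θ0 := X.θ0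
  have a3 : √(p.GaL σ t) ≤ p.EL * √(p.muG t) := by
    refine (sqrt_le_left (by positivity)).2 ?_
    rw [Pm.GaL, mul_pow, mul_pow, sq_sqrt θ0.le]
    have b1 : p.muG t ^ 2 * p.laG σ ^ 2 ≤ p.muG t := by
      nlinarith [θ1 X, mul_le_mul_of_nonneg_left a4 (sq_nonneg (p.muG t))]
    exact mul_le_mul (by nlinarith) b1 (by positivity) (by positivity)
  rw [Pm.jL]
  nlinarith

/-- **`Hy.jg`** for any `Lg ≥ LgL`, `ℓ ≥ lN + √θ` -/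
theorem jg_L (hη : 200000 * η ≤ c) {Lg ℓ : ℝ} (h1 : p.LgL ≤ Lg) (h2 : p.lN t + √(p.muG t) ≤ ℓ) :
    p.EL * (p.jL σ t + 0) ≤ Lg * ℓ := by
  have E0 := EL0 X
  have l0 := X.lN0
  rw [add_zero]
  refine (mul_le_mul_of_nonneg_left (jL_le X hη) E0.le).trans ?_
  rw [← mul_assoc, ← sq]
  exact mul_le_mul h1 h2 (by positivity) ((sq_nonneg _).trans h1)

theorem le_elL : p.lN t + √(p.muG t) ≤ p.elL t := by
  have l0 := X.lN0
  exact le_mul_of_one_le_left (by positivity) (one_le_pow₀ (one_le_rpow X.H.N1.le (by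
    rw [X.H.hc]; linarith [X.H.c_pos])))

/-- **`Hy` on the numbers of `LtD_29`**; `Xp = y`, all other numbers free -/
theorem hy_L (hη : 200000 * η ≤ c) (G : GrD K' c0' C0' η' p σ t Q) (P : p.PlX σ t Q)
    (hK : 5 * (406 + 8 * K') ≤ (p.n : ℝ) ^ η)
    {Vt u1 u2 l Lg ℓ Lc ηc τ Lp X2 X3 X4 G0 N t1 tu En p0 : ℝ} {et g : ℝ → ℝ}
    (hΦ : (p.gst Q t).Phi (p.scG K' σ t Q) m a ≤ p.PhN t) (hy : p.laG σ ^ 2 ≤ y)
    (top : p.PhN t ≤ y ∨ (p.gst Q t).En (p.scG K' σ t Q) m a (p.gst Q t).q 2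
      ((p.gst Q t).s (p.scG K' σ t Q).J / 2) (p.scG K' σ t Q).C ≤ y) (hu : 0 < u1)
    (vt : ∀ k, (p.scG K' σ t Q).J ≤ k → k ≤ (p.scG K' σ t Q).Jp → u1 ≤ du (p.gst Q t) k →
      (p.gst Q t).del m a k ≤ Vt)
    (jg : p.EL * (p.jL σ t + 0) ≤ Lg * ℓ)
    (ln : LN p.EL (p.scG K' σ t Q) (p.gst Q t) (p.l0L t) l (p.PhN t ^ ((1 : ℝ) / 3)) (p.PhN t) Lg X2
      X3 G0 et)
    (lp : LP p.EL (p.scG K' σ t Q) (p.gst Q t) y Vt Lg Lp X2 X3 G0 0 u1 u2 (p.jL σ t) 0 Lc ηc τ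
      et N)
    (lt : LT2 p.EL (p.scG K' σ t Q) (p.gst Q t) (p.l0L t) l (p.PhN t) y Lg X2 X4 g t1 tu ℓ N En p0
      et) :
    Hy p.EL (p.scG K' σ t Q) (p.gst Q t) m a 0 u1 u2 (p.jL σ t) 0 Lc ηc τ (p.l0L t) l (p.PhN t) y
      Vt Lg Lp X2 X3 X4 G0 et N g t1 tu ℓ En p0 :=
  ⟨ce G, ln, lp, ap_L X hη G P hK hΦ hy top hu vt, lt, jg⟩

end Crest.Agent.T156.Alt.Hy43

end
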