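import Crest.Agent.T156.Plt_13
import Crest.Agent.T156.AltFam_88
import Crest.Agent.T156.AltNum_11
import Crest.Agent.T156.Atom_48

/-!
# Row 156, ALT: existence of plateau data and the plateau facts of `rF` (helper13)
-/

set_option autoImplicit false
set_option linter.unusedSectionVars false

noncomputable section

namespace Crest.Agent.T156.Alt.Plt13

open Real Set Finset
open Crest.Agent.T157.Nm

/-! ### clocks without derivative -/

/-- a continuous clock with two-sided slopes on shells -/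
structure Clw (ρ den : ℝ → ℝ) (x0 u0 C : ℝ) : Prop where
  x1 : x0 < 1
  up : 0 < u0
  C1 : 1 ≤ C
  cont : ContinuousOn ρ (Set.Ico x0 1)
  lt : ∀ a b, x0 ≤ a → a < b → b < 1 → ρ a < ρ b
  slope : ∀ a b, x0 ≤ a → a ≤ b → b < 1 → b - a ≤ min (a - x0 + u0) (1 - b) →
    den a * (b - a) ≤ C * (ρ b - ρ a) ∧ ρ b - ρ a ≤ C * (den a * (b - a))
  unb : ∀ M, ∃ x, x0 ≤ x ∧ x < 1 ∧ M ≤ ρ x

namespace Clw

variable {ρ den : ℝ → ℝ} {x0 u0 C v : ℝ} (h : Clw ρ den x0 u0 C)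
include h

theorem le {a b : ℝ} (ha : x0 ≤ a) (hab : a ≤ b) (hb : b < 1) : ρ a ≤ ρ b := by
  rcases hab.eq_or_lt with e | e
  · rw [e]
  · exact (h.lt a b ha e hb).le

theorem le_of_le {a b : ℝ} (ha : a < 1) (hb : x0 ≤ b) (e : ρ a ≤ ρ b) : a ≤ b := by
  by_contra c
  exact absurd (h.lt b a hb (not_le.1 c) ha) (not_lt.2 e)

theorem ex (hv : 0 ≤ v) (k : ℕ) : ∃ x ∈ Set.Ico x0 1, ρ x = ρ x0 + k * v := by
  obtain ⟨x, a, b, c⟩ := h.unb (ρ x0 + k * v)
  have : ρ x0 + k * v ∈ Set.Icc (ρ x0) (ρ x) := ⟨le_add_of_nonneg_right (by positivity), c⟩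
  obtain ⟨y, hy, e⟩ := intermediate_value_Icc a
    (h.cont.mono fun z hz => ⟨hz.1, hz.2.trans_lt b⟩) this
  exact ⟨y, ⟨hy.1, hy.2.trans_lt b⟩, e⟩

theorem gx_ge (hv : 0 ≤ v) (k : ℕ) : x0 ≤ gx ρ x0 v k := (Function.invFunOn_mem (h.ex hv k)).1
theorem gx_lt (hv : 0 ≤ v) (k : ℕ) : gx ρ x0 v k < 1 := (Function.invFunOn_mem (h.ex hv k)).2
theorem rho_gx (hv : 0 ≤ v) (k : ℕ) : ρ (gx ρ x0 v k) = ρ x0 + k * v :=
  Function.invFunOn_eq (h.ex hv k)

theorem gx_zero (hv : 0 ≤ v) : gx ρ x0 v 0 = x0 :=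
  le_antisymm (h.le_of_le (h.gx_lt hv 0) le_rfl (by rw [h.rho_gx hv]; simp)) (h.gx_ge hv 0)

theorem rho_step (hv : 0 ≤ v) (k : ℕ) : ρ (gx ρ x0 v (k + 1)) - ρ (gx ρ x0 v k) = v := by
  rw [h.rho_gx hv, h.rho_gx hv]; push_cast; ring

theorem gx_strictMono (hv : 0 < v) : StrictMono (gx ρ x0 v) := by
  refine strictMono_nat_of_lt_succ fun k => ?_
  by_contra c
  have := h.le (h.gx_ge hv.le (k + 1)) (not_lt.1 c) (h.gx_lt hv.le k)
  linarith [h.rho_step hv.le k]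

/-- two labels whose clocks differ by at most `w` lie in one shell -/
theorem shell {w a b : ℝ} (hf : C * w ≤ den a * min (a - x0 + u0) ((1 - a) / 2)) (ha : x0 ≤ a)
    (ha1 : a < 1) (hb : b < 1) (hw : ρ b - ρ a ≤ w) : b - a ≤ min (a - x0 + u0) (1 - b) := by
  set δ := min (a - x0 + u0) ((1 - a) / 2) with hδ
  have d1 : δ ≤ a - x0 + u0 := min_le_left _ _
  have d2 : δ ≤ (1 - a) / 2 := min_le_right _ _
  have d0 : 0 < δ := lt_min (by linarith [h.up]) (by linarith)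
  have s := (h.slope a (a + δ) ha (by linarith) (by linarith)
    (le_min (by linarith) (by linarith))).1
  have hC : 0 < C := by linarith [h.C1]
  have e : ρ b ≤ ρ (a + δ) := by
    have : C * w ≤ C * (ρ (a + δ) - ρ a) := by
      rw [add_sub_cancel_left] at s; linarith
    linarith [le_of_mul_le_mul_left this hC]
  have g := h.le_of_le hb (by linarith) e
  exact le_min (by linarith) (by linarith)

theorem last (hv : 0 < v) {ue : ℝ} (h0 : 0 < ue) (h1 : x0 ≤ 1 - ue) :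
    1 - gx ρ x0 v (gI ρ x0 v ue) ≤ ue ∧ ∀ k < gI ρ x0 v ue, gx ρ x0 v k < 1 - ue := by
  have a : (ρ (1 - ue) - ρ x0) / v ≤ gI ρ x0 v ue := Nat.le_ceil _
  rw [div_le_iff₀ hv] at a
  refine ⟨?_, fun k hk => ?_⟩
  · have := h.le_of_le (a := 1 - ue) (by linarith) (h.gx_ge hv.le (gI ρ x0 v ue))
      (by rw [h.rho_gx hv.le]; linarith)
    linarith
  · have c : (k : ℝ) < (ρ (1 - ue) - ρ x0) / v := Nat.lt_ceil.1 hk
    rw [lt_div_iff₀ hv] at c
    by_contra d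
    have := h.le h1 (not_lt.1 d) (h.gx_lt hv.le k)
    rw [h.rho_gx hv.le] at this
    linarith

end Clw

theorem ft_sub_le {V l u u' : ℝ} (hV : 0 < V) (hl : 0 ≤ l) (hu : 0 < u') (h : u' ≤ u) :
    ft V l u' - ft V l u ≤ l * (u - u') / (2 * (u' * √u')) := by
  have a := (Rs13.inv_sqrt_sub hl hu h).2
  have s := sqrt_pos.2 hu
  have m : l / (V * √u) ≤ l / (V * √u') := div_le_div_of_nonneg_left hl (by positivity)
    (mul_le_mul_of_nonneg_left (sqrt_le_sqrt h) hV.le)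
  have b := (Rs13.log_sub_bd (a := l / (V * √u)) (by positivity) m).2
  have c : (l / (V * √u') - l / (V * √u)) / (1 + l / (V * √u)) ≤ l / (V * √u') - l / (V * √u) :=
    div_le_self (sub_nonneg.2 m) (le_add_of_nonneg_right (by positivity))
  have e : V * (l / (V * √u') - l / (V * √u)) = l / √u' - l / √u := by
    rw [mul_sub, ← mul_div_assoc, ← mul_div_assoc, mul_div_mul_left _ _ hV.ne',
      mul_div_mul_left _ _ hV.ne']
  unfold ft
  nlinarith [mul_le_mul_of_nonneg_left (b.trans c) hV.le]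

theorem dt_le {V l u : ℝ} (hV : 0 < V) (hl : 0 ≤ l) (hu : 1 / 2 ≤ u) : dt V l u ≤ 3 / 2 * l := by
  have s : 2 / 3 ≤ √u := le_sqrt_of_sq_le (by linarith)
  unfold dt
  rw [div_le_iff₀ (by positivity)]
  have a : V * (2 / 3) ≤ V * √u + l := by nlinarith
  have b : 1 * (V * (2 / 3)) ≤ 2 * u * (V * √u + l) := mul_le_mul (by linarith) a (by positivity)
    (by positivity)
  nlinarith [mul_le_mul_of_nonneg_left b hl]

theorem add3_pow {a b c : ℝ} (ha : 0 ≤ a) (hb : 0 ≤ b) (hc : 0 ≤ c) (p : ℕ) :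
    (a + b + c) ^ p ≤ 3 ^ p * (a ^ p + b ^ p + c ^ p) := by
  have pa := pow_nonneg ha p
  have pb := pow_nonneg hb p
  have pc := pow_nonneg hc p
  have key : ∀ m : ℝ, a + b + c ≤ 3 * m → m ^ p ≤ a ^ p + b ^ p + c ^ p →
      (a + b + c) ^ p ≤ 3 ^ p * (a ^ p + b ^ p + c ^ p) := fun m h1 h2 => by
    refine (pow_le_pow_left₀ (by positivity) h1 p).trans ?_
    rw [mul_pow]
    exact mul_le_mul_of_nonneg_left h2 (by positivity)
  rcases le_total a b with h | h <;> rcases le_total b c with h' | h' <;>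
    rcases le_total a c with h'' | h''
  all_goals first
    | exact key a (by linarith) (by linarith)
    | exact key b (by linarith) (by linarith)
    | exact key c (by linarith) (by linarith)

/-! ### the numbers -/

/-- `u₀ = la^{2/3}` -/
def u0 (p : Pm) (μ : ℝ) : ℝ := p.la μ ^ ((2 : ℝ) / 3)

/-- **the density of the clock `rF μ`** (`Sc.den`) -/
def dn (p : Pm) (μ : ℝ) : ℝ → ℝ := den p.xs (u0 p μ) (p.la μ) (p.Vc μ) (p.u2 μ) 0

/-- numeric facts on the static marks -/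
structure Nm (p : Pm) (μ : ℝ) : Prop where
  n2 : (2 : ℝ) ≤ p.n
  l1 : 1 ≤ log (p.n : ℝ)
  v0 : 0 < p.v
  vn : 1000 * p.v ≤ 1 / p.n
  u2n : 1 / p.n ≤ p.u2 μ
  u2l : √(p.u2 μ) ≤ p.la μ
  lV : p.la μ ≤ p.Vc μ
  V1 : p.Vc μ ≤ 1
  x0 : 0 < p.xs
  x1 : p.xs ≤ 1 - 1 / p.n

theorem nm_of {β c0 C0 K η μ : ℝ} {p : Pm} (h : Ctx β c0 C0 K η p) (hβ : 1 < β)
    (hK : 1000 * β ^ 2 ≤ p.n) (hx : p.xs ≤ 1 - 1 / p.n) (h0 : p.μ0 ≤ μ) (h1 : μ ≤ p.κ) :
    Nm p μ := by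
  have μp : 0 < μ := h.μ0_pos.trans_le h0
  have Eμ := Eb.log μp
  have a0 := (h.Eμ0.le_iff Eμ).1 h0
  have a1 := (Eμ.le_iff h.Eκ).1 h1
  have Em : Eb (p.mu' μ) _ := Eμ.mul (h.Epow ((1 : ℝ) / 3))
  have El : Eb (p.la μ) _ := (h.Epow _).mul (Em.rpow.min Em.rpow)
  have EV : Eb (p.Vc μ) _ := (h.Epow _).mul (Eb.one.max Em.rpow)
  have Eu : Eb (p.u2 μ) _ := (h.Epow _).div ((h.En.mul Eμ).mul EV)
  have E1 : Eb (1 / (p.n : ℝ)) _ := Eb.one.div h.En
  have c0 := h.cl_pos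
  have c1 := h.cl_le
  have l2 := h.l2
  have np := h.n_pos
  refine ⟨by exact_mod_cast h.big.two, by linarith, h.v_pos (by linarith), ?_, ?_, ?_, ?_, ?_,
    ?_, hx⟩
  · have a := h.v_le (k := 2) (by exact_mod_cast h.A2)
    rw [rpow_neg np.le, rpow_two] at a
    have b : 1000 * (β ^ 2 * ((p.n : ℝ) ^ 2)⁻¹) ≤ 1 / p.n := by
      rw [← mul_assoc, ← div_eq_mul_inv, div_le_div_iff₀ (by positivity) np]; nlinarith
    linarith
  · rw [E1.le_iff Eu]
    rcases max_cases 0 (-(1 : ℝ) / 3 * (log μ + (1 : ℝ) / 3 * log p.n)) with ⟨e, _⟩ | ⟨e, _⟩ <;>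
      rw [e] <;> linarith
  · rw [Eu.sqrt.le_iff El]
    rcases max_cases 0 (-(1 : ℝ) / 3 * (log μ + (1 : ℝ) / 3 * log p.n)) with ⟨e, _⟩ | ⟨e, _⟩ <;>
    rcases min_cases (-(1 : ℝ) / 3 * (log μ + (1 : ℝ) / 3 * log p.n))
      (-(1 : ℝ) / 2 * (log μ + (1 : ℝ) / 3 * log p.n)) with ⟨e', _⟩ | ⟨e', _⟩ <;>
      rw [e, e'] <;> linarith
  · rw [El.le_iff EV]
    have := min_le_left (-(1 : ℝ) / 3 * (log μ + (1 : ℝ) / 3 * log p.n))
      (-(1 : ℝ) / 2 * (log μ + (1 : ℝ) / 3 * log p.n))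
    have := le_max_right 0 (-(1 : ℝ) / 3 * (log μ + (1 : ℝ) / 3 * log p.n))
    linarith
  · rw [EV.le_iff Eb.one]
    rcases max_cases 0 (-(1 : ℝ) / 3 * (log μ + (1 : ℝ) / 3 * log p.n)) with ⟨e, _⟩ | ⟨e, _⟩ <;>
      rw [e] <;> linarith
  · exact h.ok.base.lab.pos.trans_le (h.ok.base.lab.mono (Nat.zero_le _))

theorem rB_eq (p : Pm) (μ x : ℝ) : p.rB μ x = Rs13.r1 (p.la μ) (log p.n) p.xs x := rfl

namespace Nm

variable {p : Pm} {μ : ℝ} (h : Nm p μ)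
include h

theorem np : (0 : ℝ) < p.n := by linarith [h.n2]
theorem u2p : 0 < p.u2 μ := (one_div_pos.2 h.np).trans_le h.u2n
theorem sp : 0 < √(p.u2 μ) := sqrt_pos.2 h.u2p
theorem lp : 0 < p.la μ := h.sp.trans_le h.u2l
theorem Vp : 0 < p.Vc μ := h.lp.trans_le h.lV
theorem l_le : p.la μ ≤ 1 := h.lV.trans h.V1
theorem u2_le : p.u2 μ ≤ 1 := sqrt_le_one.1 (h.u2l.trans h.l_le)
theorem u2_sq : p.u2 μ ≤ p.la μ ^ 2 := by
  have := pow_le_pow_left₀ h.sp.le h.u2l 2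
  rwa [sq_sqrt h.u2p.le] at this
theorem ns : 1 / p.n ≤ √(p.u2 μ) := h.u2n.trans (le_sqrt_of_sq_le (by nlinarith [h.u2p, h.u2_le]))
theorem nl : 1 / p.n ≤ p.la μ := h.ns.trans h.u2l
theorem u0p : 0 < u0 p μ := rpow_pos_of_pos h.lp _
theorem u0_le : u0 p μ ≤ 1 := rpow_le_one h.lp.le h.l_le (by norm_num)
theorem l_le_u0 : p.la μ ≤ u0 p μ := by
  have := rpow_le_rpow_of_exponent_ge h.lp h.l_le (show (2 : ℝ) / 3 ≤ 1 by norm_num)
  rwa [rpow_one] at this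
theorem xs1 : p.xs < 1 := by linarith [h.x1, one_div_pos.2 h.np]
theorem fb_u0 : fb (p.la μ) (u0 p μ) = u0 p μ := Rs13.div_sqrt_W h.lp

theorem rT_eq (u : ℝ) : p.rT μ u = ft (p.Vc μ) (p.la μ) u + ft 1 (√(p.u2 μ)) u := by
  unfold Pm.rT ft
  rw [sqrt_div h.u2p.le, one_mul, one_mul]

theorem rT_nn (u : ℝ) : 0 ≤ p.rT μ u := by
  rw [h.rT_eq]; exact add_nonneg (ft_nn h.Vp h.lp.le u) (ft_nn one_pos h.sp.le u)

theorem rT_anti {u u' : ℝ} (hu : 0 < u') (e : u' ≤ u) : p.rT μ u ≤ p.rT μ u' := by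
  rw [h.rT_eq, h.rT_eq]
  exact add_le_add (ft_anti h.Vp h.lp.le hu e) (ft_anti one_pos h.sp.le hu e)

theorem rT_sub {u u' : ℝ} (hu : 0 < u') (e : u' ≤ u) :
    p.rT μ u' - p.rT μ u ≤ p.la μ * (u - u') / (u' * √u') := by
  have a := ft_sub_le h.Vp h.lp.le hu e
  have b := ft_sub_le one_pos h.sp.le hu e
  have s := sqrt_pos.2 hu
  have c : √(p.u2 μ) * (u - u') / (2 * (u' * √u')) ≤ p.la μ * (u - u') / (2 * (u' * √u')) :=
    div_le_div_of_nonneg_right (mul_le_mul_of_nonneg_right h.u2l (sub_nonneg.2 e)) (by positivity)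
  have d : p.la μ * (u - u') / (u' * √u') = 2 * (p.la μ * (u - u') / (2 * (u' * √u'))) := by
    field_simp
  rw [h.rT_eq, h.rT_eq]
  linarith

theorem rT_le (u : ℝ) : p.rT μ u ≤ 2 * (p.la μ / √u) := by
  have a := ft_le h.Vp h.lp.le u
  have b := ft_le one_pos h.sp.le u
  have c : √(p.u2 μ) / √u ≤ p.la μ / √u := div_le_div_of_nonneg_right h.u2l (sqrt_nonneg u)
  rw [h.rT_eq]
  linarith

theorem rT_log {u : ℝ} (hu : (p.n : ℝ) ^ (-(3 : ℝ)) ≤ u) : p.rT μ u ≤ 6 * log p.n := by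
  have np := h.np
  have n2 := h.n2
  have e : (p.n : ℝ) ^ (-(3 : ℝ)) = ((p.n : ℝ) ^ 3)⁻¹ := by
    rw [rpow_neg np.le]; norm_num
  rw [e] at hu
  have s : 1 / (p.n : ℝ) ^ 2 ≤ √u := by
    refine le_sqrt_of_sq_le (le_trans ?_ hu)
    rw [inv_eq_one_div, div_pow, one_pow]
    refine one_div_le_one_div_of_le (by positivity) ?_
    nlinarith [pow_pos np 3]
  have s0 : 0 < √u := (by positivity : (0 : ℝ) < 1 / (p.n : ℝ) ^ 2).trans_le s
  have s1 : 1 ≤ (p.n : ℝ) ^ 2 * √u := by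
    rw [div_le_iff₀ (by positivity)] at s; linarith
  have key : ∀ V l : ℝ, 0 < V → V ≤ 1 → 0 ≤ l → l ≤ V → ft V l u ≤ 3 * log p.n := by
    intro V l hV hV1 hl hlV
    have a : l / (V * √u) ≤ (p.n : ℝ) ^ 2 := by
      rw [div_le_iff₀ (by positivity)]; nlinarith
    have b : log (1 + l / (V * √u)) ≤ log ((p.n : ℝ) ^ 3) :=
      log_le_log (by positivity) (by nlinarith [pow_pos np 2])
    rw [log_pow] at b
    have c : 0 ≤ log (1 + l / (V * √u)) := log_nonneg (le_add_of_nonneg_right (by positivity))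
    unfold ft
    push_cast at b
    nlinarith
  rw [h.rT_eq]
  linarith [key _ _ h.Vp h.V1 h.lp.le h.lV, key 1 _ one_pos le_rfl h.sp.le (h.u2l.trans h.l_le)]

/-- the top part of `rF` -/
theorem top_mono {a b : ℝ} (hab : a ≤ b) (hb : b < 1) :
    0 ≤ p.rT μ (1 - max b (1 / 2)) - p.rT μ (1 - max a (1 / 2)) ∧
    p.rT μ (1 - max b (1 / 2)) - p.rT μ (1 - max a (1 / 2)) ≤ p.rT μ (1 - b) - p.rT μ (1 - a) := by
  have m : max b (1 / 2) < 1 := max_lt hb (by norm_num)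
  refine ⟨sub_nonneg.2 (h.rT_anti (by linarith) (by linarith [max_le_max hab (le_refl (1 / 2 : ℝ))])), ?_⟩
  rcases le_total b (1 / 2) with c | c
  · rw [max_eq_right c, max_eq_right (hab.trans c), sub_self]
    exact sub_nonneg.2 (h.rT_anti (by linarith) (by linarith))
  · rw [max_eq_left c]
    have m' : max a (1 / 2) < 1 := max_lt (hab.trans_lt hb) (by norm_num)
    linarith [h.rT_anti (u := 1 - a) (u' := 1 - max a (1 / 2)) (by linarith)
      (by linarith [le_max_left a (1 / 2)])]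

theorem top_bd {x : ℝ} (hx : x < 1) : 0 ≤ p.rT μ (1 - max x (1 / 2)) - p.rT μ (1 / 2) ∧
    p.rT μ (1 - max x (1 / 2)) - p.rT μ (1 / 2) ≤ p.rT μ (1 - x) := by
  rcases le_total x (1 / 2) with c | c
  · rw [max_eq_right c]; norm_num; exact h.rT_nn _
  · rw [max_eq_left c]
    exact ⟨sub_nonneg.2 (h.rT_anti (by linarith) (by linarith)), by linarith [h.rT_nn (1 / 2)]⟩

theorem rF_hi {x : ℝ} (hx : p.xs ≤ x) : p.rF μ x =
    -fb (p.la μ) (x - p.xs + u0 p μ) + (p.rT μ (1 - max x (1 / 2)) - p.rT μ (1 / 2)) := by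
  unfold Pm.rF
  rw [rB_eq, Rs13.r1_hi h.lp hx]
  rfl

theorem rho_eq (x : ℝ) : rho p.xs (u0 p μ) (p.la μ) (p.Vc μ) (p.u2 μ) 0 x =
    -fb (p.la μ) (x - p.xs + u0 p μ) + p.rT μ (1 - x) := by
  rw [h.rT_eq]; unfold rho; ring

theorem clk0 : Clk (rho p.xs (u0 p μ) (p.la μ) (p.Vc μ) (p.u2 μ) 0) (dn p μ) p.xs (u0 p μ) 3 :=
  clk h.xs1 h.u0p h.lp h.Vp h.u2p le_rfl

/-- **`Cl.den0`** -/
theorem den0 (x : ℝ) : 0 < dn p μ x := h.clk0.pos x

/-- **`Cl.dens`** -/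
theorem dens {x x' : ℝ} (h0 : p.xs ≤ x) (h1 : x ≤ x') (h2 : x' < 1)
    (hs : x' - x ≤ min (x - p.xs + u0 p μ) (1 - x')) :
    dn p μ x ≤ 3 * dn p μ x' ∧ dn p μ x' ≤ 3 * dn p μ x := h.clk0.dens x x' h0 h1 h2 hs

/-- the density is at least `la / 8` -/
theorem den_ge {x : ℝ} (h0 : p.xs ≤ x) (h1 : x < 1) : p.la μ / 8 ≤ dn p μ x := by
  have pA : 0 < x - p.xs + u0 p μ := by linarith [h.u0p]
  have A2 : x - p.xs + u0 p μ ≤ 2 := by linarith [h.u0_le, h.x0]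
  have s := sqrt_pos.2 pA
  have s2 : √(x - p.xs + u0 p μ) ≤ 2 := by rw [sqrt_le_left (by norm_num)]; linarith
  have a : p.la μ / 8 ≤ db (p.la μ) (x - p.xs + u0 p μ) :=
    div_le_div_of_nonneg_left h.lp.le (by positivity) (by nlinarith)
  have b := dt_nn h.Vp h.lp.le (u := 1 - x) (by linarith)
  have c := dt_nn one_pos h.sp.le (u := 1 - x) (by linarith)
  unfold dn
  rw [den_eq h0 h1]
  linarith

/-- **`rF μ` is a clock on `[xs, 1)`** -/
theorem clw : Clw (p.rF μ) (dn p μ) p.xs (u0 p μ) 39 where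
  x1 := h.xs1
  up := h.u0p
  C1 := by norm_num
  cont := by
    refine ContinuousOn.congr (f := fun x => -fb (p.la μ) (x - p.xs + u0 p μ) +
      (ft (p.Vc μ) (p.la μ) (1 - max x (1 / 2)) + ft 1 (√(p.u2 μ)) (1 - max x (1 / 2)) -
        p.rT μ (1 / 2))) (fun x hx => ?_) fun x hx => by rw [h.rF_hi hx.1, h.rT_eq (1 - _)]
    have m : 0 < 1 - max x (1 / 2) := sub_pos.2 (max_lt hx.2 (by norm_num))
    have g : ContinuousAt (fun x : ℝ => 1 - max x (1 / 2)) x := by fun_prop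
    have a : ContinuousAt (fun x : ℝ => fb (p.la μ) (x - p.xs + u0 p μ)) x :=
      ContinuousAt.comp (f := fun x : ℝ => x - p.xs + u0 p μ)
        (hasDerivAt_fb (by linarith [hx.1, h.u0p])).continuousAt (by fun_prop)
    have b := ContinuousAt.comp (f := fun x : ℝ => 1 - max x (1 / 2))
      (hasDerivAt_ft h.Vp h.lp.le m).continuousAt g
    have c := ContinuousAt.comp (f := fun x : ℝ => 1 - max x (1 / 2))
      (hasDerivAt_ft one_pos h.sp.le m).continuousAt g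
    exact (a.neg.add ((b.add c).sub continuousAt_const)).continuousWithinAt
  lt := fun a b ha hab hb => by
    have r := Rs13.r1_lt (lg := log p.n) h.lp ha hab
    have t := (h.top_mono hab.le hb).1
    unfold Pm.rF
    rw [rB_eq, rB_eq]
    linarith
  slope := fun a b ha hab hb hs => by
    have s := h.clk0.slope ha hab hb hs
    have t := h.top_mono hab hb
    have d0 := mul_nonneg (h.den0 a).le (sub_nonneg.2 hab)
    rw [h.rho_eq, h.rho_eq] at s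
    rw [h.rF_hi ha, h.rF_hi (ha.trans hab)]
    refine ⟨?_, by linarith [s.2, t.2]⟩
    rcases le_total (1 / 2) a with c | c
    · rw [max_eq_left c, max_eq_left (c.trans hab)]; linarith [s.1]
    · have pA : 0 < a - p.xs + u0 p μ := by linarith [h.u0p]
      have sh := (le_min_iff.1 hs).1
      have i := (Rs13.inv_sqrt_sub h.lp.le pA (u' := b - p.xs + u0 p μ) (by linarith)).1
      have j := (db_shell h.lp.le pA (A' := b - p.xs + u0 p μ) (by linarith) (by linarith)).2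
      have e : p.la μ * (b - p.xs + u0 p μ - (a - p.xs + u0 p μ)) /
          (2 * ((b - p.xs + u0 p μ) * √(b - p.xs + u0 p μ))) =
          db (p.la μ) (b - p.xs + u0 p μ) * (b - a) := by unfold db; ring
      rw [e] at i
      have sA := sqrt_pos.2 pA
      have A2 : a - p.xs + u0 p μ ≤ 3 / 2 := by linarith [h.u0_le, h.x0]
      have s2 : √(a - p.xs + u0 p μ) ≤ 4 / 3 := by rw [sqrt_le_left (by norm_num)]; linarith
      have k : p.la μ / 4 ≤ db (p.la μ) (a - p.xs + u0 p μ) :=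
        div_le_div_of_nonneg_left h.lp.le (by positivity) (by nlinarith)
      have k1 := dt_le h.Vp h.lp.le (u := 1 - a) (by linarith)
      have k2 := dt_le one_pos h.sp.le (u := 1 - a) (by linarith)
      have k3 : dn p μ a ≤ 39 * db (p.la μ) (b - p.xs + u0 p μ) := by
        unfold dn
        rw [den_eq ha (hab.trans_lt hb)]
        linarith [h.u2l]
      have k4 := mul_le_mul_of_nonneg_right k3 (sub_nonneg.2 hab)
      unfold fb
      linarith [t.1]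
  unb := fun M => by
    obtain ⟨x, a, b, c⟩ := h.clk0.unb (M + p.rT μ (1 / 2))
    have m : max x (1 / 2) < 1 := max_lt b (by norm_num)
    have d := h.clk0.le a (le_max_left x (1 / 2)) m
    refine ⟨max x (1 / 2), a.trans (le_max_left _ _), m, ?_⟩
    rw [h.rF_hi (a.trans (le_max_left _ _)), max_assoc, max_self]
    rw [h.rho_eq (max x (1 / 2))] at d
    linarith

theorem fine' {x : ℝ} (h0 : p.xs ≤ x) (h1 : x < 1) :
    39 * (2 * p.v) ≤ dn p μ x * min (x - p.xs + u0 p μ) ((1 - x) / 2) := by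
  have f := (fine h.xs1 h.u0p h.lp h.Vp h.u2p le_rfl h.x0.le h.u0_le h.u2_le (v := 26 * p.v)
    (by linarith [h.v0]) (by linarith [h.vn, h.nl, h.v0]) (by linarith [h.vn, h.ns, h.v0])).2 x h0 h1
  unfold dn
  linarith

/-! #### below `xs` and global bounds -/

theorem rF_zero {x : ℝ} (h1 : x ≤ 1 / 2) (h2 : x + log p.n * u0 p μ ≤ p.xs) : p.rF μ x = 0 := by
  unfold Pm.rF
  rw [rB_eq, Rs13.r1_zero h.lp (by linarith [h.l1]) h2, max_eq_right h1]
  norm_num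

/-- slopes below `xs` -/
theorem rF_sub_lo {x x' : ℝ} (h1 : x ≤ x') (h2 : x' ≤ p.xs) :
    -(3 / (2 * log p.n) * (x' - x)) ≤ p.rF μ x' - p.rF μ x ∧
      p.rF μ x' - p.rF μ x ≤ p.la μ * (x' - x) / ((1 - x') * √(1 - x')) := by
  have a := Rs13.r1_sub_lo h.lp (lg := log p.n) (by linarith [h.l1]) h1 h2
  have b := h.top_mono h1 (h2.trans_lt h.xs1)
  have c := h.rT_sub (u := 1 - x) (u' := 1 - x') (by linarith [h.xs1]) (by linarith)
  rw [show 1 - x - (1 - x') = x' - x by ring] at c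
  unfold Pm.rF
  rw [rB_eq, rB_eq]
  constructor <;> linarith [a.1, a.2, b.1, b.2]

theorem rF_bd {x : ℝ} (hx : x < 1) : -u0 p μ ≤ p.rF μ x ∧ p.rF μ x ≤ p.rT μ (1 - x) ∧
    p.rF μ x ≤ 2 * (p.la μ / √(1 - x)) := by
  have a := Rs13.r1_bd (lg := log p.n) (xs := p.xs) h.lp x
  have b := h.top_bd hx
  have c := h.rT_le (1 - x)
  unfold Pm.rF u0
  rw [rB_eq]
  refine ⟨by linarith [a.1, b.1], by linarith [a.2, b.2], by linarith [a.2, b.2]⟩

theorem abs_rF_log {x : ℝ} (hx : (p.n : ℝ) ^ (-(3 : ℝ)) ≤ 1 - x) : |p.rF μ x| ≤ 6 * log p.n := by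
  have a := h.rF_bd (x := x) (by linarith [rpow_pos_of_pos h.np (-(3 : ℝ))])
  exact abs_le.2 ⟨by linarith [a.1, h.u0_le, h.l1], a.2.1.trans (h.rT_log hx)⟩

theorem abs_rF_hi {x : ℝ} (h0 : p.xs ≤ x) (hx : x < 1) : |p.rF μ x| ≤
    fb (p.la μ) (x - p.xs + u0 p μ) + ft (p.Vc μ) (p.la μ) (1 - x) + ft 1 (√(p.u2 μ)) (1 - x) := by
  have b := h.top_bd hx
  have f : 0 ≤ fb (p.la μ) (x - p.xs + u0 p μ) := div_nonneg h.lp.le (sqrt_nonneg _)
  have g := h.rT_nn (1 - x)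
  rw [h.rF_hi h0, add_assoc, ← h.rT_eq]
  exact abs_le.2 ⟨by linarith [b.1], by linarith [b.2]⟩

theorem rF_xs : -u0 p μ ≤ p.rF μ p.xs := (h.rF_bd h.xs1).1

/-- **existence of static plateau data** -/
theorem exists_plOk : ∃ P, p.PlOk μ P := by
  have c := h.clw
  have np := h.np
  have n2 := h.n2
  have hv := h.v0
  have e2 : (p.n : ℝ) ^ (-(2 : ℝ)) = 1 / (p.n : ℝ) ^ 2 := by rw [rpow_neg np.le]; norm_num
  have e3 : (p.n : ℝ) ^ (-(3 : ℝ)) = 1 / (p.n : ℝ) ^ 3 := by rw [rpow_neg np.le]; norm_num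
  have u0' : 0 < (p.n : ℝ) ^ (-(2 : ℝ)) := rpow_pos_of_pos np _
  have u1 : p.xs ≤ 1 - (p.n : ℝ) ^ (-(2 : ℝ)) := by
    have : 1 / (p.n : ℝ) ^ 2 ≤ 1 / p.n := one_div_le_one_div_of_le np (by nlinarith)
    rw [e2]; linarith [h.x1]
  have u3 : (p.n : ℝ) ^ (-(3 : ℝ)) ≤ (p.n : ℝ) ^ (-(2 : ℝ)) / 2 := by
    rw [e2, e3, div_div]
    exact one_div_le_one_div_of_le (by positivity) (by nlinarith [pow_pos np 2])
  have l := c.last hv u0' u1
  refine ⟨⟨gI (p.rF μ) p.xs p.v ((p.n : ℝ) ^ (-(2 : ℝ))), gx (p.rF μ) p.xs p.v,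
    fun x => μ * p.rF μ x, p.rF μ, 0⟩, rfl, rfl, rfl, c.gx_zero hv.le, c.gx_strictMono hv,
    fun i _ => ?_, ?_, l.1⟩
  · simp only [c.rho_step hv.le i]; constructor <;> linarith
  · refine u3.trans ?_
    show _ ≤ 1 - gx (p.rF μ) p.xs p.v (gI (p.rF μ) p.xs p.v ((p.n : ℝ) ^ (-(2 : ℝ))))
    generalize gI (p.rF μ) p.xs p.v ((p.n : ℝ) ^ (-(2 : ℝ))) = I at l
    rcases I with _ | I
    · rw [c.gx_zero hv.le]; linarith
    · have a := l.2 I (Nat.lt_succ_self I)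
      have b := (le_min_iff.1 (c.shell (h.fine' (c.gx_ge hv.le I) (c.gx_lt hv.le I))
        (c.gx_ge hv.le I) (c.gx_lt hv.le I) (c.gx_lt hv.le (I + 1))
        (by rw [c.rho_step hv.le I]; linarith))).2
      linarith

end Nm

/-! ### facts on every static plateau -/

/-- the labels, with `1` after the last one -/
def xe (P : Pl) (i : ℕ) : ℝ := if i ≤ P.I then P.x i else 1

section plok
variable {p : Pm} {μ : ℝ} {P : Pl} (h : Nm p μ) (H : p.PlOk μ P)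
include h H

theorem x_ge (i : ℕ) : p.xs ≤ P.x i := H.x0 ▸ H.xm.monotone (Nat.zero_le i)

theorem x_le {i : ℕ} (hi : i ≤ P.I) : (p.n : ℝ) ^ (-(3 : ℝ)) ≤ 1 - P.x i := by
  linarith [H.e1, H.xm.monotone hi]

theorem x_lt {i : ℕ} (hi : i ≤ P.I) : P.x i < 1 := by
  linarith [x_le h H hi, rpow_pos_of_pos h.np (-(3 : ℝ))]

theorem x_shell {i : ℕ} (hi : i < P.I) :
    P.x (i + 1) - P.x i ≤ min (P.x i - p.xs + u0 p μ) (1 - P.x (i + 1)) :=
  h.clw.shell (h.fine' (x_ge h H i) (x_lt h H hi.le)) (x_ge h H i) (x_lt h H hi.le) (x_lt h H hi)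
    (by have := (H.st i hi).2; rwa [H.rs] at this)

/-- **`Cl.plat`** -/
theorem x_plat {i : ℕ} (hi : i < P.I) : p.v / 78 ≤ (P.x (i + 1) - P.x i) * dn p μ (P.x i) ∧
    (P.x (i + 1) - P.x i) * dn p μ (P.x i) ≤ 78 * p.v := by
  have s := h.clw.slope _ _ (x_ge h H i) (H.xm.monotone (Nat.le_succ i)) (x_lt h H hi)
    (x_shell h H hi)
  have t := H.st i hi
  rw [H.rs] at t
  constructor <;> linarith [s.1, s.2, t.1, t.2]

/-- label mesh -/
theorem x_mesh {i : ℕ} (hi : i < P.I) : P.x (i + 1) - P.x i ≤ 624 * p.n * p.v := by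
  have a := (x_plat h H hi).2
  have b := h.den_ge (x_ge h H i) (x_lt h H hi.le)
  have c := h.nl
  have d : 0 ≤ P.x (i + 1) - P.x i := sub_nonneg.2 (H.xm.monotone (Nat.le_succ i))
  have np := h.np
  rw [div_le_iff₀ np] at c
  have e : 1 ≤ 8 * p.n * dn p μ (P.x i) := by nlinarith
  nlinarith [mul_le_mul_of_nonneg_left e d, mul_le_mul_of_nonneg_left a np.le]

/-- number of plateau levels -/
theorem I_le : (P.I : ℝ) * p.v ≤ 14 * log p.n := by
  have a : ∀ i ≤ P.I, (i : ℝ) * (p.v / 2) ≤ P.rs (P.x i) - P.rs (P.x 0) := fun i => by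
    induction i with
    | zero => simp
    | succ i ih =>
      intro hi
      have := ih (by omega)
      have := (H.st i hi).1
      push_cast; linarith
  have b := a P.I le_rfl
  rw [H.rs, H.x0] at b
  have c := (abs_le.1 (h.abs_rF_log (x_le h H le_rfl))).2
  linarith [h.rF_xs, h.u0_le, h.l1]

theorem xe_facts {i : ℕ} (hi : i < P.I + 1) : xe P i = P.x i ∧ xe P i ≤ xe P (i + 1) ∧
    xe P (i + 1) ≤ 1 ∧ xe P (i + 1) - xe P i ≤ xe P i - p.xs + u0 p μ := by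
  have e : xe P i = P.x i := if_pos (by omega)
  rcases Nat.lt_or_ge i P.I with c | c
  · have e' : xe P (i + 1) = P.x (i + 1) := if_pos c
    rw [e, e']
    exact ⟨rfl, H.xm.monotone (Nat.le_succ i), (x_lt h H c).le, (le_min_iff.1 (x_shell h H c)).1⟩
  · have e' : xe P (i + 1) = 1 := if_neg (by omega)
    obtain rfl : i = P.I := by omega
    rw [e, e']
    refine ⟨rfl, (x_lt h H le_rfl).le, le_rfl, ?_⟩
    have np := h.np
    have e2 : (p.n : ℝ) ^ (-(2 : ℝ)) = 1 / (p.n : ℝ) ^ 2 := by rw [rpow_neg np.le]; norm_num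
    have : 1 / (p.n : ℝ) ^ 2 ≤ 1 / p.n := one_div_le_one_div_of_le np (by nlinarith [h.n2])
    linarith [H.e2, x_ge h H P.I, h.nl, h.l_le_u0]

theorem sum_split (k : ℕ) :
    ∑ i ∈ range (P.I + 1), (xe P (i + 1) - xe P i) * |p.rF μ (xe P i)| ^ k ≤ 3 ^ k *
      (∑ i ∈ range (P.I + 1), ((xe P (i + 1) - p.xs + u0 p μ) - (xe P i - p.xs + u0 p μ)) *
          fb (p.la μ) (xe P i - p.xs + u0 p μ) ^ k +
        ∑ i ∈ range (P.I + 1), ((1 - xe P i) - (1 - xe P (i + 1))) *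
          ft (p.Vc μ) (p.la μ) (1 - xe P i) ^ k +
        ∑ i ∈ range (P.I + 1), ((1 - xe P i) - (1 - xe P (i + 1))) *
          ft 1 (√(p.u2 μ)) (1 - xe P i) ^ k) := by
  rw [← sum_add_distrib, ← sum_add_distrib, mul_sum]
  refine sum_le_sum fun i hi => ?_
  have f := xe_facts h H (mem_range.1 hi)
  have a := h.abs_rF_hi (x := xe P i) (f.1 ▸ x_ge h H i)
    (f.1 ▸ x_lt h H (by have := mem_range.1 hi; omega))
  have b := (pow_le_pow_left₀ (abs_nonneg _) a k).trans (add3_pow (div_nonneg h.lp.le (sqrt_nonneg _))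
    (ft_nn h.Vp h.lp.le _) (ft_nn one_pos h.sp.le _) k)
  refine (mul_le_mul_of_nonneg_left b (sub_nonneg.2 f.2.1)).trans (le_of_eq ?_)
  unfold fb
  ring

/-- **second moment of the static marks on the plateau** (`Cl.Gtp`) -/
theorem sum_rF_two : ∑ i ∈ range (P.I + 1), (xe P (i + 1) - xe P i) * |p.rF μ (xe P i)| ^ 2 ≤
    1200 * (p.la μ ^ 2 * log p.n) := by
  have f := fun i (hi : i < P.I + 1) => xe_facts h H hi
  have x0 : xe P 0 = p.xs := (f 0 (by omega)).1.trans H.x0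
  have pu : ∀ i < P.I + 1, 0 < 1 - xe P i := fun i hi => by
    rw [(f i hi).1]; linarith [x_lt h H (show i ≤ P.I by omega)]
  have a := sum_fb_two (l := p.la μ) (fun i => xe P i - p.xs + u0 p μ) (P.I + 1)
    (by simp only [x0]; linarith [h.u0p]) (fun i hi => by linarith [(f i hi).2.1])
    (fun i hi => by linarith [(f i hi).2.2.2])
  have b := sum_ft_two h.Vp h.lp (fun i => 1 - xe P i) (P.I + 1) (by simp only [x0]; linarith [h.x0])
    pu (fun i hi => by linarith [(f i hi).2.1]) (fun i hi => by linarith [(f i hi).2.2.1])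
  have c := sum_ft_two one_pos h.sp (fun i => 1 - xe P i) (P.I + 1)
    (by simp only [x0]; linarith [h.x0])
    pu (fun i hi => by linarith [(f i hi).2.1]) (fun i hi => by linarith [(f i hi).2.2.1])
  have np := h.np
  have n2 := h.n2
  have L2 : ∀ t : ℝ, 0 < t → t ≤ 2 * p.n → log t ≤ 2 * log p.n := fun t t0 t1 => by
    have := log_le_log t0 (show t ≤ (p.n : ℝ) ^ 2 by nlinarith)
    rwa [log_pow] at this
  have nu : 1 ≤ u0 p μ * p.n := by
    have := h.nl.trans h.l_le_u0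
    rwa [div_le_iff₀ np] at this
  have nl : 1 ≤ p.la μ * p.n := by have := h.nl; rwa [div_le_iff₀ np] at this
  have ns : 1 ≤ √(p.u2 μ) * p.n := by have := h.ns; rwa [div_le_iff₀ np] at this
  have a' : log ((xe P (P.I + 1) - p.xs + u0 p μ) / (xe P 0 - p.xs + u0 p μ)) ≤ 2 * log p.n := by
    have e : xe P (P.I + 1) = 1 := if_neg (by omega)
    rw [e, x0, sub_self, zero_add]
    refine L2 _ (div_pos (by linarith [h.xs1, h.u0p]) h.u0p) ?_
    rw [div_le_iff₀ h.u0p]; nlinarith [h.x0, h.u0_le]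
  have b' : log (1 + p.Vc μ / p.la μ) ≤ 2 * log p.n := by
    have : p.Vc μ / p.la μ ≤ p.n := by rw [div_le_iff₀ h.lp]; nlinarith [h.V1]
    exact L2 _ (by have := div_pos h.Vp h.lp; linarith) (by linarith)
  have c' : log (1 + 1 / √(p.u2 μ)) ≤ 2 * log p.n := by
    have : 1 / √(p.u2 μ) ≤ p.n := by rw [div_le_iff₀ h.sp]; nlinarith
    exact L2 _ (by have := one_div_pos.2 h.sp; linarith) (by linarith)
  have s := sum_split h H 2
  have q := sq_nonneg (p.la μ)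
  have r : √(p.u2 μ) ^ 2 ≤ p.la μ ^ 2 := pow_le_pow_left₀ h.sp.le h.u2l 2
  have l0 : 0 ≤ log (p.n : ℝ) := by linarith [h.l1]
  have a2 := mul_le_mul_of_nonneg_left a' q
  have b2 := mul_le_mul_of_nonneg_left b' q
  have c2 := mul_le_mul r c' (log_nonneg (le_add_of_nonneg_right (one_div_pos.2 h.sp).le)) q
  have z := mul_nonneg q l0
  linarith

/-- **higher moments of the static marks on the plateau** -/
theorem sum_rF_pow (q : ℕ) :
    ∑ i ∈ range (P.I + 1), (xe P (i + 1) - xe P i) * |p.rF μ (xe P i)| ^ (q + 3) ≤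
      3 ^ (q + 3) * (6 * (p.la μ ^ 2 * u0 p μ ^ (q + 1)) + 16 * ((q + 3 : ℕ) : ℝ) ^ (q + 3) *
        (p.la μ ^ 2 * p.Vc μ ^ (q + 1) + p.u2 μ)) := by
  have f := fun i (hi : i < P.I + 1) => xe_facts h H hi
  have x0 : xe P 0 = p.xs := (f 0 (by omega)).1.trans H.x0
  have pu : ∀ i < P.I + 1, 0 < 1 - xe P i := fun i hi => by
    rw [(f i hi).1]; linarith [x_lt h H (show i ≤ P.I by omega)]
  have a := sum_fb_pow h.lp.le q (fun i => xe P i - p.xs + u0 p μ) (P.I + 1)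
    (by simp only [x0]; linarith [h.u0p]) (fun i hi => by linarith [(f i hi).2.1])
    (fun i hi => by linarith [(f i hi).2.2.2])
  have b := sum_ft_pow h.Vp h.lp q (fun i => 1 - xe P i) (P.I + 1)
    pu (fun i hi => by linarith [(f i hi).2.1]) (fun i hi => by linarith [(f i hi).2.2.1])
  have c := sum_ft_pow one_pos h.sp q (fun i => 1 - xe P i) (P.I + 1)
    pu (fun i hi => by linarith [(f i hi).2.1]) (fun i hi => by linarith [(f i hi).2.2.1])
  simp only [x0, sub_self, zero_add, h.fb_u0] at a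
  rw [sq_sqrt h.u2p.le, one_pow, mul_one] at c
  refine (sum_split h H (q + 3)).trans (mul_le_mul_of_nonneg_left ?_ (by positivity))
  linarith

end plok

/-- for `n` large: `Nm` for all masses, and the atom -/
theorem fin_nm {β : ℝ} (hβ : 1 < β) (c0 C0 : ℝ) (h0 : 0 < c0) (h1 : 1 ≤ C0) : ∃ K c2 : ℝ, 0 < c2 ∧
    ∀ p : Pm, Ctx β c0 C0 K 1 p → (1 ≤ p.J ∧ c2 ≤ 1 - p.xs) ∧
      ∀ μ, p.μ0 ≤ μ → μ ≤ p.κ → Nm p μ := by
  obtain ⟨c2, η0, hc, hη, A⟩ := Pr.atomS (β ^ 2) c0 C0 (by nlinarith) h0 h1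
  refine ⟨max (1000 * β ^ 2) (max (1 / c2) (C0 / η0)), c2, hc, fun p h => ?_⟩
  have k := h.big.le_rpow
  rw [rpow_one] at k
  have k1 := (le_max_left _ _).trans k
  have k2 := (le_max_left _ _).trans ((le_max_right _ _).trans k)
  have k3 := (le_max_right _ _).trans ((le_max_right _ _).trans k)
  have np := h.n_pos
  have b := h.ok.base
  rw [h.hβ] at b
  have e : C0 / (p.n : ℝ) ^ p.A ≤ η0 := by
    have : (p.n : ℝ) ≤ (p.n : ℝ) ^ p.A := le_self_pow₀ h.one_le_n (by have := h.A2; omega)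
    rw [div_le_iff₀ hη] at k3
    rw [div_le_iff₀ (by positivity)]
    nlinarith
  have a := A _ _ _ _ b e
  have x : p.xs ≤ 1 - 1 / p.n := by
    have : 1 / (p.n : ℝ) ≤ c2 := by
      rw [div_le_iff₀ hc] at k2
      rw [div_le_iff₀ np]; linarith
    have := a.2.1
    unfold Pm.xs
    linarith
  exact ⟨⟨a.1, a.2.1⟩, fun μ a0 a1 => nm_of h hβ k1 x a0 a1⟩

theorem y1_facts {β c0 C0 K η : ℝ} {p : Pm} (h : Ctx β c0 C0 K η p) :
    p.μ0 ≤ p.μ 1 p.y1 ∧ p.y1 ≤ p.ye ∧ p.r ≤ p.y1 := by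
  have r := le_max_left p.r ((p.n : ℝ) ^ (6 / 25 * p.c - 1 / 6))
  refine ⟨h.μ0_le.trans ?_, max_le h.r_le_ye ?_, r⟩
  · unfold Pm.μ
    rw [one_mul]
    exact mul_le_mul_of_nonneg_left (pow_le_pow_left₀ h.r_pos.le r 2) h.κ_pos.le
  · rw [(h.Epow _).le_iff h.Eye]
    linarith [h.cl_pos, h.cl_le, h.l2]

end Crest.Agent.T156.Alt.Plt13

end
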