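import Crest.Agent.T156.StartM_56
import Crest.Agent.T156.AltMemA_37
import Crest.Agent.T156.AltP1_3
import Crest.Agent.T156.PlEx_13

/-!
# Row 156, ALT route: legality of the family with static marks (helper56)
-/

set_option autoImplicit false
set_option linter.unusedSectionVars false

noncomputable section

namespace Crest.Agent.T156.Alt.St56

open Real Set Filter Topology
open Crest.Agent.R164.GC Crest.Agent.R339.B Crest.Agent.R339.Var Crest.Agent.T157.Pf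
open Crest.Agent.T156.Pr.Spr41 (ec mk_inc)
open Mem37 Plt13

theorem ec_le_one {b : ℝ} (hb : 0 ≤ b) (l : List (ℝ × ℝ)) (t : ℝ) : ec b l t ≤ 1 :=
  sub_le_self _ (mul_nonneg hb (GG_nn l t))

/-- `t - b Γ` increases on the whole half line -/
theorem mk_mono {l : List (ℝ × ℝ)} (h : Pr.Ok l) {b : ℝ} (hb : 0 ≤ b)
    (he : ∀ t ∈ Icc 0 (TT l), 0 ≤ ec b l t) {s t : ℝ} (hs : 0 ≤ s) (hst : s ≤ t) :
    Pr.Spr41.mk b l s ≤ Pr.Spr41.mk b l t := by
  have k : ∀ s t, 0 ≤ s → s ≤ t → t ≤ TT l → Pr.Spr41.mk b l s ≤ Pr.Spr41.mk b l t := fun s t h0 h1 h2 => by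
    have := (mk_inc h b (lo := 0) (hi := 1) h0 h1 h2 fun r hr =>
      ⟨he r ⟨h0.trans hr.1, hr.2.trans h2⟩, ec_le_one hb l r⟩).1
    linarith
  have k' : ∀ s t, TT l ≤ s → s ≤ t → Pr.Spr41.mk b l s ≤ Pr.Spr41.mk b l t := fun s t h0 h1 => by
    unfold Pr.Spr41.mk
    rw [Gam_end h h0, Gam_end h (h0.trans h1)]
    linarith
  rcases le_total t (TT l) with a | a
  · exact k s t hs hst a
  · rcases le_total s (TT l) with c | c
    · exact (k s _ hs c le_rfl).trans (k' _ t le_rfl a)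
    · exact k' s t c hst

theorem mk_zero {l : List (ℝ × ℝ)} (h : Pr.Ok l) (b : ℝ) : Pr.Spr41.mk b l 0 = 0 := by
  rw [Pr.Spr41.mk, Gam_zero h]; ring

/-- the variance below the tilt `1` is at most the marks at the last node below `1` -/
theorem low_le {M : Md} {x : ℝ} (H : M.Leg x) (hx : 0 ≤ x) (hd : ∀ k, M.d k = M.d 0) {K : ℕ}
    (hK : ∀ k, K ≤ k → M.z k = 1) : low M ≤ M.H K := by
  have k : ∀ N : ℕ, ∑ k ∈ Finset.range N,
      (1 - M.z k) * ((M.d (k + 1) - M.d k) / 2 + (M.H (k + 1) - M.H k)) ≤ M.H (min N K) := by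
    intro N
    induction N with
    | zero => simp [H.H0]
    | succ N ih =>
      rw [Finset.sum_range_succ, hd (N + 1), hd N, sub_self, zero_div, zero_add]
      rcases lt_or_ge N K with a | a
      · rw [min_eq_left a.le] at ih
        rw [min_eq_left a]
        have z0 : 0 ≤ M.z N := hx.trans (H.z0.trans (H.zm (Nat.zero_le N)))
        have := mul_nonneg z0 (sub_nonneg.2 (H.Hm N.le_succ))
        linarith
      · rw [min_eq_right a] at ih
        rw [min_eq_right (a.trans N.le_succ), hK N a]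
        linarith
  exact (k M.N).trans (H.Hm (min_le_right _ _))

/-- data for the legality of `famO P om jf b 0 0` with the static field `μ * rF ν` -/
structure LD (c0 C0 η Y μ ν y lo hi : ℝ) (p : Pm) (P : Pl) (om : ℕ → ℝ) (b : ℝ) : Prop where
  geo : Geo c0 C0 η Y p P om
  nm : Nm p ν
  hs : P.hs = fun x => μ * p.rF ν x
  xe : (p.n : ℝ) ^ (-(3 : ℝ)) ≤ 1 - P.x P.I
  C00 : 0 ≤ C0
  μ0 : 0 ≤ μ
  b0 : 0 ≤ b
  e0 : ∀ t ∈ Icc 0 (TT (p.lO P om)), 0 ≤ ec b (p.lO P om) t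
  e1 : ∀ t ∈ Icc y (p.J * p.v), lo ≤ ec b (p.lO P om) t
  e2 : ∀ t ∈ Icc 0 (p.sO P om (p.Jp P)), ec b (p.lO P om) t ≤ hi
  n1 : 3 * C0 * μ ≤ lo * log p.n
  n2 : C0 * (p.v + 2 * y) ≤ 1 / 2
  n3 : C0 * (p.v + 2 * y) + log p.n * u0 p ν ≤ p.xs
  jf : p.jf * p.v ≤ 2 * y
  jJ : p.jf < p.J

namespace LD

variable {c0 C0 η Y μ ν y lo hi b : ℝ} {p : Pm} {P : Pl} {om : ℕ → ℝ}
  (h : LD c0 C0 η Y μ ν y lo hi p P om b)
include h

theorem H_eq {k : ℕ} (hk : p.jf < k) :
    p.HO P om b k = Pr.Spr41.mk b (p.lO P om) (p.sO P om k) + μ * p.rF ν (p.xP P k) := by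
  rw [Pm.HO, if_neg (by omega), h.hs]; rfl

theorem rF0 {k : ℕ} (hk : k < p.J) (h2 : k * p.v ≤ 2 * y) : p.rF ν (p.z k) = 0 := by
  have a := (PP3.z_bds h.geo.base k hk).2
  have c := mul_le_mul_of_nonneg_left h2 h.C00
  exact h.nm.rF_zero (by linarith [h.n2]) (by linarith [h.n3])

theorem xP_succ {k : ℕ} (hk : k < p.J) : p.xP P (k + 1) = p.z k := by
  rw [xP_lo (k := k + 1) (hk.trans_le J_le), Nat.add_sub_cancel, zP_lo hk]

theorem mono {s t : ℝ} (hs : 0 ≤ s) (hst : s ≤ t) :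
    Pr.Spr41.mk b (p.lO P om) s ≤ Pr.Spr41.mk b (p.lO P om) t := mk_mono h.geo.ok h.b0 h.e0 hs hst

theorem H_step (k : ℕ) : p.HO P om b k ≤ p.HO P om b (k + 1) := by
  have g := h.geo
  have v := g.v0
  have m := h.mono (g.sP_nn k) (g.sP_mono k.le_succ)
  rcases lt_trichotomy k p.jf with a | a | a
  · rw [Pm.HO, Pm.HO, if_pos a.le, if_pos (Nat.succ_le_of_lt a)]
  · rw [Pm.HO, if_pos a.le, h.H_eq (by omega), a, h.xP_succ h.jJ, h.rF0 h.jJ h.jf]
    linarith [h.mono le_rfl (g.sP_nn (p.jf + 1)), mk_zero g.ok b]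
  rw [h.H_eq a, h.H_eq (a.trans k.lt_succ_self)]
  rcases g.cases k with c | ⟨i, c, rfl⟩ | c
  · obtain ⟨j, rfl⟩ : ∃ j, k = j + 1 := ⟨k - 1, by omega⟩
    rw [h.xP_succ c, h.xP_succ (by omega : j < p.J)]
    rcases le_total (((j + 1 : ℕ) : ℝ) * p.v) (2 * y) with d | d
    · rw [h.rF0 c d, h.rF0 (by omega : j < p.J) (by push_cast at d; linarith)]
      linarith
    · have s1 := (g.s_inc (Nat.zero_le (j + 1)) c.le).1
      have s2 : p.sO P om (j + 1 + 1) ≤ p.J * p.v := g.sP_J ▸ g.sP_mono c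
      rw [g.sP_zero] at s1
      have a1 := (mk_inc g.ok b (lo := lo) (hi := 1) (g.sP_nn (j + 1)) (g.sP_mono (j + 1).le_succ)
        (g.sP_le_tt (Nat.succ_le_of_lt (c.trans_le (J_le.trans (Nat.le_add_right _ _)))))
        fun r hr => ⟨h.e1 r ⟨by
          simp only [Nat.cast_zero, sub_zero] at s1
          linarith [hr.1], hr.2.trans s2⟩, ec_le_one h.b0 _ r⟩).1
      have lg : 0 < log (p.n : ℝ) := by linarith [h.nm.l1]
      have l0 : 0 ≤ lo := by
        refine le_of_mul_le_mul_right (le_trans ?_ h.n1) lg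
        rw [zero_mul]
        exact mul_nonneg (mul_nonneg (by norm_num) h.C00) h.μ0
      have a2 := mul_le_mul_of_nonneg_left (g.ds_lo c).1 l0
      have a3 := (h.nm.rF_sub_lo (g.base.lab.mono j.le_succ)
        (g.base.lab.mono (by omega : j + 1 ≤ p.J - 1))).1
      have a4 : p.z (j + 1) - p.z j ≤ C0 * p.v := (g.base.slo j c).2
      have a5 : μ * (3 / (2 * log p.n) * (p.z (j + 1) - p.z j)) ≤ lo * (p.v / 2) := by
        have e : μ * (3 / (2 * log p.n) * (p.z (j + 1) - p.z j)) =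
            3 * μ * (p.z (j + 1) - p.z j) / 2 / log p.n := by field_simp
        rw [e, div_le_iff₀ lg]
        nlinarith [mul_le_mul_of_nonneg_left a4 h.μ0, mul_le_mul_of_nonneg_right h.n1 v.le]
      have a6 := mul_le_mul_of_nonneg_left a3 h.μ0
      simp only [Nat.succ_eq_add_one] at *
      linarith
  · have r := h.nm.clw.lt _ _ (g.x0 ▸ g.x_le (Nat.zero_le i) c.le) (g.xm i c) (by
      linarith [g.x_le (show i + 1 ≤ P.I from c) le_rfl, h.xe,
        rpow_pos_of_pos h.nm.np (-(3 : ℝ))])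
    rw [g.xP_x c.le, show p.xP P (p.J + i).succ = P.x (i + 1) from g.xP_x (i := i + 1) c]
    have := mul_nonneg h.μ0 (show 0 ≤ p.rF ν (P.x (i + 1)) - p.rF ν (P.x i) by linarith)
    linarith
  · rw [g.xP_top c, g.xP_top (c.trans k.le_succ)]
    linarith

/-- **legality** -/
theorem leg {x : ℝ} (hx : x ≤ p.z p.jf) : (p.famO P om p.jf b 0 0).Leg x := by
  have g := h.geo
  refine ⟨fun i j hij => g.zP_mono (max_le_max hij le_rfl), ?_, fun k => g.zP_le _,
    zP_hi ((Nat.le_add_right _ _).trans (le_max_left _ _)), ?_, fun i j _ => ?_, ?_,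
    monotone_nat_of_le_succ fun k => ?_⟩
  · change x ≤ p.zP P (max 0 p.jf)
    rwa [max_eq_right (Nat.zero_le _), zP_lo h.jJ]
  · simpa [Pm.famO] using h.b0
  · simp [Pm.famO]
  · simp [Pm.famO, Pm.HO]
  · simpa [Pm.famO] using h.H_step k

/-- the marks below the tilt `1` -/
theorem H_Jp : p.HO P om b (p.Jp P) ≤ hi * p.sO P om (p.Jp P) + 6 * μ * log p.n := by
  have g := h.geo
  have e : p.sO P om (p.Jp P) ≤ TT (p.lO P om) := g.sP_le_tt (Nat.le_add_right _ _)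
  have a := (mk_inc g.ok b (lo := 0) (hi := hi) le_rfl (g.sP_nn _) e fun r hr =>
    ⟨h.e0 r ⟨hr.1, hr.2.trans e⟩, h.e2 r hr⟩).2
  have c := mul_le_mul_of_nonneg_left (abs_le.1 (h.nm.abs_rF_log h.xe)).2 h.μ0
  rw [h.H_eq (h.jJ.trans_le J_le), g.xP_top le_rfl]
  linarith [mk_zero g.ok b]

/-- all marks -/
theorem H_N : p.HO P om b (p.NP P) ≤ p.sO P om (p.NP P) + 6 * μ * log p.n := by
  have g := h.geo
  have c := mul_le_mul_of_nonneg_left (abs_le.1 (h.nm.abs_rF_log h.xe)).2 h.μ0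
  have e : p.Jp P ≤ p.NP P := Nat.le_add_right _ _
  rw [h.H_eq (h.jJ.trans_le (J_le.trans e)), g.xP_top e, Pr.Spr41.mk]
  linarith [mul_nonneg h.b0 (Gam_nn (p.lO P om) (p.sO P om (p.NP P)))]

theorem low_bd :
    low (p.famO P om p.jf b 0 0) ≤ hi * p.sO P om (p.Jp P) + 6 * μ * log p.n := by
  have z0 : 0 ≤ p.z p.jf := h.geo.base.lab.pos.le.trans (h.geo.base.lab.mono (Nat.zero_le _))
  refine (low_le (h.leg le_rfl) z0 (fun k => by simp [Pm.famO]) (K := p.Jp P)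
    fun k hk => zP_hi (hk.trans (le_max_left _ _))).trans ?_
  simpa [Pm.famO] using h.H_Jp

end LD

end Crest.Agent.T156.Alt.St56

end
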