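import Crest.Agent.T156.StartG_56
import Crest.Agent.T156.LegG_56
import Crest.Agent.T156.AltPG_3
import Crest.Agent.T156.GrReg_29

/-!
# Row 156, ALT route: legality of the graded family and `StartG` (helper56)
-/

set_option autoImplicit false

noncomputable section

namespace Crest.Agent.T156.Alt

open Real Set Filter Topology Pre29
open Crest.Agent.R164.GC Crest.Agent.R339.B Crest.Agent.R339.Var Crest.Agent.T157.Pf
open Crest.Agent.T156.Pr.Spr41 (ec)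
open Mem37 Plt13

namespace St56

variable {β c0 C0 c η K C μ ν σ : ℝ} {A : ℕ} {p : Pm} {P : Pl}

/-- the numeric facts on the static marks, for all masses -/
theorem nm_sml (hβ : 1 < β) : Sml β fun _ p => ∀ μ, p.μ0 ≤ μ → μ ≤ p.κ → Nm p μ := by
  intro c0 C0 h0 h1
  obtain ⟨K, c2, -, H⟩ := fin_nm hβ c0 C0 h0 h1
  filter_upwards [eventually_ge_atTop 2] with A hA
  filter_upwards [ev_pos, ev_le (by norm_num : (0 : ℝ) < 1 / 200)] with c hc hc'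
  refine .of_forall fun η => ?_
  filter_upwards [ev_Big K one_pos] with n hn p b1 b2 b3 b4 b5
  exact (H p ⟨b1, b5, h0, h1, b3 ▸ hA, b4 ▸ hc, b4 ▸ hc', one_pos, b2 ▸ hn⟩).2

theorem lg_c0 (H : Reg β c0 C0 A c η K p) : -η ≤ logb p.n c0 := by
  have := H.lg_le (x := 1 / c0) (one_div_pos.2 H.c00) H.c0_le
  rw [one_div, logb_inv] at this
  linarith

theorem jf_le (H : Reg β c0 C0 A c η K p) (hη : 40 * η ≤ c) : p.jf * p.v ≤ p.r :=
  H.le_of_lg H.jfv0 H.r0 (by linarith [H.lg_jf.2, H.lg_r, H.η_pos])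

theorem am_le (H : Reg β c0 C0 A c η K p) (hη : 40 * η ≤ c) (hj : p.jf < p.J) :
    2 * p.am ≤ p.z p.jf := by
  have a := H.am0
  have b := H.jfv0
  have d := H.c00
  refine le_trans (H.le_of_lg (by positivity) (mul_pos d b) ?_) (PP3.z_bds H.ok.base _ hj).1
  rw [logb_mul d.ne' b.ne', logb_mul two_ne_zero a.ne']
  linarith [H.lg_jf.1, H.lg_am, H.lg_two.2, lg_c0 H, H.η_pos]

/-- the data of `LegG_56` for the graded family -/
theorem ld_gst (H : Reg β c0 C0 A c η K p) (hη : 40 * η ≤ c) (hC : 1 ≤ C)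
    (hK : exp (3 * C0 * C) ≤ K) (G : P1G C p) (M : p.MemG σ) (N : Nm p ν) (h0 : p.μ0 ≤ ν)
    (μp : 0 ≤ μ) (h1 : μ ≤ p.muG σ) (hP : p.PlOk ν { P with hs := fun x => ν * p.rF ν x })
    (hs : P.hs = fun x => μ * p.rF ν x) :
    LD c0 C0 (C0 / (p.n : ℝ) ^ p.A) (2 * p.ye) μ ν p.ye (p.muG σ / C) (C * p.muG σ) p P (p.omG σ)
      (p.bG σ) := by
  obtain ⟨⟨s0, -, -, -, k4, yJ⟩, ⟨om, -, tt, -⟩, ⟨b0, -⟩, e1, e2, -⟩ := G σ M
  have B := H.ok.base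
  have v0 := H.v0
  have y0 := H.ye0
  have d0 := H.c00
  have C1 := H.C01
  have νp := H.μ00.trans_le h0
  have mp := H.muG0 s0
  have vy := H.v_le_r.trans H.r_le_ye
  have el : p.lO P (p.omG σ) = p.lG σ := if_pos hP.g
  have jy := (jf_le H hη).trans H.r_le_ye
  have jJ : p.jf < p.J := by
    have : (p.jf : ℝ) < p.J := lt_of_mul_lt_mul_right (by linarith) v0.le
    exact_mod_cast this
  have lC := H.lg_cst C1 H.C0_le
  have l3 := H.lg_num (x := 3) (by norm_num) (by norm_num)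
  have l4 := H.lg_num (x := 4) (by norm_num) (by norm_num)
  have lc := lg_c0 H
  have C0p : 0 < C0 := by linarith
  have a0 : C0 * (p.v + 2 * p.ye) ≤ C0 * (3 * p.ye) :=
    mul_le_mul_of_nonneg_left (by linarith) C0p.le
  have a1 : C0 * (3 * p.ye) ≤ 1 / 2 := H.le_of_lg (by positivity) (by norm_num) (by
    lg_norm
    linarith [H.lg_ye, H.lg_two.2, H.η_pos])
  have a2 : C0 * (3 * p.ye) ≤ c0 ^ 2 / 4 := H.le_of_lg (by positivity) (by positivity) (by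
    lg_norm
    linarith [H.lg_ye, H.η_pos])
  have a3 : p.ye ≤ c0 / 2 := H.le_of_lg y0 (by positivity) (by
    lg_norm
    linarith [H.lg_ye, H.lg_two.2, H.η_pos])
  have a4 : log p.n * u0 p ν ≤ c0 ^ 2 / 4 := by
    have l0 := H.la0 νp
    have lg0 : 0 < log (p.n : ℝ) := by linarith [H.log1]
    refine H.le_of_lg (mul_pos lg0 N.u0p) (by positivity) ?_
    rw [u0]
    lg_norm
    rw [H.lg_la νp]
    linarith [min_le_left (-(logb p.n ν + 1 / 3) / 3) (-(logb p.n ν + 1 / 3) / 2), H.lg_log.2,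
      H.lg_mono H.μ00 h0, H.lg_μ0, H.η_pos, H.c_le]
  have a5 : c0 ^ 2 / 2 ≤ p.xs := by
    have g := (PP3.z_bds B (p.J - 1) (by omega)).1
    rw [Nat.cast_sub (by omega), Nat.cast_one] at g
    have := mul_le_mul_of_nonneg_left (show c0 / 2 ≤ (p.J - 1) * p.v by linarith [B.lo]) d0.le
    unfold Pm.xs
    linarith
  have a6 : 3 * C0 * C ≤ log p.n := by
    have := log_le_log (exp_pos _) (hK.trans H.K_le)
    rw [log_exp, log_rpow H.N0] at this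
    nlinarith [H.η_le, H.c_le, H.log1]
  have Cp : 0 < C := by linarith
  have g : Geo c0 C0 (C0 / (p.n : ℝ) ^ p.A) (2 * p.ye) p P (p.omG σ) :=
    ⟨B, ⟨om.zero, om.nn, om.supp, fun j => (om.lip j).trans
      (mul_le_mul_of_nonneg_right k4 v0.le)⟩, yJ, by omega, hP.g.ge, hP.x0,
      fun i _ => hP.xm i.lt_succ_self, (x_lt N hP le_rfl).le⟩
  refine ⟨g, N, hs, hP.e1, C0p.le, μp, by linarith,
    fun t ht => ?_, fun t ht => ?_, fun t ht => ?_, ?_, a0.trans a1, by linarith, by linarith, jJ⟩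
  · rw [el] at ht ⊢
    rcases le_total t (p.J * p.v) with a | a
    · exact (div_pos (H.msG0 s0 t) Cp).le.trans (e1 t ⟨ht.1, a⟩).1
    · exact (div_pos mp Cp).le.trans (e2 t ⟨a, tt ▸ ht.2⟩).2.1
  · rw [el, ← H.msG_hi σ ht.1]
    exact (e1 t ⟨y0.le.trans ht.1, ht.2⟩).1
  · rw [g.sP_Jp, show P.γ = 0 from hP.g, zero_mul, add_zero] at ht
    rw [el]
    exact (e1 t ht).2.1.trans (mul_le_mul_of_nonneg_left (H.msG_le s0 t) Cp.le)
  · rw [div_mul_eq_mul_div, le_div_iff₀ Cp]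
    nlinarith [mul_le_mul h1 a6 (by positivity) mp.le]

end St56

open St56

/-- legality of the members of the graded path: grid of the mass `ν`, field `μ * rF ν` -/
def LegW (Λ : ℝ) (p : Pm) : Prop := ∀ (σ μ ν : ℝ) (P : Pl), p.MemG σ → 0 ≤ μ → μ ≤ p.muG σ →
  p.μ0 ≤ ν → ν ≤ p.κ → p.PlOk ν { P with hs := fun x => ν * p.rF ν x } →
  (P.hs = fun x => μ * p.rF ν x) →
  (p.gst P σ).Leg (2 * p.am) ∧ (p.gst P σ).Leg (p.z p.jf) ∧ p.bG σ ≤ p.β ^ 2 ∧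
    p.β ^ 2 - p.bG σ ≤ Λ ^ 2 * p.muG σ ∧ (p.gst P σ).H (p.Jp P) ≤ 2 * Λ ^ 2 * p.muG σ ∧
    low (p.gst P σ) ≤ 2 * Λ ^ 2 * p.muG σ ∧ (p.gst P σ).H (p.NP P) ≤ 3 * Λ ^ 2

theorem legW {β : ℝ} (hβ : 1 < β) : Sml β LegW := by
  refine Sml.glueC hβ (p1G β hβ) (nm_sml hβ) fun C hC c0 C0 h0 h1 =>
    ⟨0, fun A _ => ⟨1, one_pos, fun c _ hc => ⟨c / 40, by positivity, fun η hη _ =>
      ⟨max C (exp (3 * C0 * C)), fun p H G N σ μ ν P M m0 m1 n0 n1 hP hs => ?_⟩⟩⟩⟩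
  have hη' : 40 * η ≤ c := by linarith
  have L := ld_gst H hη' hC (le_max_right _ _) G M (N ν n0 n1) n0 m0 m1 hP hs
  obtain ⟨⟨s0, -⟩, -, ⟨-, b1, -, b2⟩, -⟩ := G σ M
  have mp := H.muG0 s0
  have L0 := H.Λ0
  have CL : C ≤ (p.n : ℝ) ^ η := (le_max_left _ _).trans H.K_le
  have βL : p.β ^ 2 ≤ (p.n : ℝ) ^ η := H.hβ ▸ H.β_le
  have β0 : 0 < p.β ^ 2 := pow_pos H.β0 2
  have e : p.sO P (p.omG σ) (p.Jp P) = p.J * p.v := by
    rw [L.geo.sP_Jp, show P.γ = 0 from hP.g, zero_mul, add_zero]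
  have a1 : C * p.β ^ 2 ≤ ((p.n : ℝ) ^ η) ^ 2 := by
    rw [sq ((p.n : ℝ) ^ η)]; exact mul_le_mul CL βL β0.le L0.le
  have u3 := mul_le_mul m1 H.log_le (by linarith [H.log1]) mp.le
  have a2 : C * p.muG σ * p.sO P (p.omG σ) (p.Jp P) + 6 * μ * log p.n ≤
      2 * ((p.n : ℝ) ^ η) ^ 2 * p.muG σ := by
    have u1 := mul_le_mul_of_nonneg_left H.ok.base.hi (show 0 ≤ C * p.muG σ by positivity)
    have u2 := mul_le_mul_of_nonneg_right a1 mp.le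
    have u4 := mul_le_mul_of_nonneg_right H.num_le (mul_pos mp L0).le
    rw [e]
    nlinarith [mul_pos mp L0]
  refine ⟨L.leg (am_le H hη' L.jJ), L.leg le_rfl, b1, ?_, ?_, L.low_bd.trans a2, ?_⟩
  · rw [sub_le_iff_le_add, ← sub_le_iff_le_add', ← sub_nonneg] at b2
    have := mul_nonneg b2 β0.le
    rw [sub_mul, div_mul_cancel₀ _ β0.ne'] at this
    nlinarith [mul_le_mul_of_nonneg_right a1 mp.le]
  · simpa [Pm.gst, Pm.famO] using L.H_Jp.trans a2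
  · have u := L.H_N
    rw [L.geo.sP_N, e] at u
    have u1 := mul_le_mul H.A_le H.log_le (by linarith [H.log1]) L0.le
    have u2 := mul_le_mul_of_nonneg_right (m1.trans ((H.muG_le_κ σ).trans H.κ1))
      (show 0 ≤ log (p.n : ℝ) by linarith [H.log1])
    have u4 := mul_le_mul_of_nonneg_right H.num_le L0.le
    have u5 : p.v ≤ 1 := H.v_le_r.trans (H.r_le_ye.trans H.ye1)
    have : p.HO P (p.omG σ) (p.bG σ) (p.NP P) ≤ 3 * ((p.n : ℝ) ^ η) ^ 2 := by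
      nlinarith [H.Nr_bds.2, H.ok.base.hi, H.log_le, H.Λ1]
    simpa [Pm.gst, Pm.famO] using this

/-- the same for the plateau data `PlG` of any smaller mass -/
def LegG56 (Λ : ℝ) (p : Pm) : Prop := ∀ σ μ P, p.MemG σ → p.μ0 ≤ μ → μ ≤ p.muG σ → p.PlG μ P →
  (p.gst P σ).Leg (2 * p.am) ∧ (p.gst P σ).Leg (p.z p.jf) ∧ p.bG σ ≤ p.β ^ 2 ∧
    p.β ^ 2 - p.bG σ ≤ Λ ^ 2 * p.muG σ ∧ (p.gst P σ).H (p.Jp P) ≤ 2 * Λ ^ 2 * p.muG σ ∧
    low (p.gst P σ) ≤ 2 * Λ ^ 2 * p.muG σ ∧ (p.gst P σ).H (p.NP P) ≤ 3 * Λ ^ 2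

theorem St56.mt_bds {β c0 C0 c η K μ : ℝ} {A : ℕ} {p : Pm} (H : Reg β c0 C0 A c η K p)
    (h0 : p.μ0 ≤ μ) (h1 : μ ≤ p.κ) : p.μ0 ≤ p.mt μ ∧ p.mt μ ≤ p.κ :=
  ⟨h0.trans (Pm.le_mt H.κ0 H.κ1 (H.μ00.le.trans h0)), (Pm.mt_le' μ).trans (max_le h1
    (mul_le_of_le_one_right H.κ0.le (rpow_le_one_of_one_le_of_nonpos H.N1.le (by norm_num))))⟩

theorem legG {β : ℝ} (hβ : 1 < β) : Sml β LegG56 :=
  (legW hβ).glue' hβ 0 one_pos 0 fun _ _ _ _ _ _ _ _ _ =>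
    ⟨0, fun _ H _ _ _ G σ μ P M m0 m1 hP =>
      have a := mt_bds H m0 (m1.trans (H.muG_le_κ σ))
      G σ μ _ P M (H.μ00.le.trans m0) m1 a.1 a.2 hP.ok hP.hs⟩

/-- **START of the graded path** -/
theorem startG {β : ℝ} (hβ : 1 < β) : Gain β StartG := by
  refine Sml.gain ((legG hβ).glue' hβ 0 one_pos 10 fun c0 C0 A c η _ _ _ _ =>
    ⟨0, fun p H _ _ hη G P hP => ?_⟩)
  have hη' : 10 * η ≤ c := by exact_mod_cast hη
  obtain ⟨g1, -, g2, g3, -, g4, -⟩ := G _ _ P H.memG0 (H.μ0_le_muG H.memG0) le_rfl hP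
  have L0 := H.Λ0
  have m0 := H.μ00
  have k0 := H.κ0
  have a : 4 * ((p.n : ℝ) ^ η) ^ 2 * p.μ0 ≤ p.μ0 / p.κ :=
    H.le_of_lg (by positivity) (by positivity) (by
      have := H.N0
      lg_norm
      rw [H.lg_n]
      linarith [H.lg_κ, (H.lg_num (x := 4) (by norm_num) (by norm_num)).2, H.η_pos])
  have b := mul_le_mul_of_nonneg_left H.muG_sg0 (sq_nonneg ((p.n : ℝ) ^ η))
  have d : (p.gst P p.sg0).d 0 = p.bG p.sg0 := by simp [Pm.gst, Pm.famO]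
  exact go_sk H hη' g1 (d ▸ g2) (by rw [d]; nlinarith [mul_pos (pow_pos L0 2) m0]) (by linarith)

end Crest.Agent.T156.Alt

end
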