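import Crest.Agent.T156.SprLgD_59
import Crest.Agent.T156.CostP_41
import Crest.Agent.T156.FamSr_28
import Crest.Agent.T156.StartGB_56

/-!
# Row 156, stage C2: the static marks are halved (helper11)
-/

set_option autoImplicit false
set_option linter.unusedSectionVars false

noncomputable section

namespace Crest.Agent.T156.Alt.C2s11

open Real Set Filter Topology
open Crest.Agent.R164.GC Crest.Agent.R339.B Crest.Agent.R339.Var Crest.Agent.T157.Pf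
open Crest.Agent.T156.Pr.Spr41 (ec mk_inc Gam_inc)
open Mem37 Plt13 Cost41 Md67

/-- the data of one halving -/
structure AD (c0 C0 η Y K g α : ℝ) (p : Pm) (P : Pl) : Prop where
  geo : Geo c0 C0 η Y p (p.alP g P 0) (p.om 1 p.ye)
  nm : Nm p p.μe
  al : p.AlOk g α P
  α0 : 0 < α
  α1 : α ≤ 1
  K1 : 1 ≤ K
  μ0 : 0 < p.μe
  μ1 : p.μe ≤ 1
  CK : C0 ≤ K
  cK : 1 ≤ c0 * K
  b0 : 0 ≤ p.b 1 p.ye
  y0 : 0 ≤ p.ye
  crit : ∀ t ∈ Icc p.ye (p.sO (p.alP g P 0) (p.om 1 p.ye) (p.Jp P)),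
    p.μe / K ≤ ec (p.b 1 p.ye) (p.lO (p.alP g P 0) (p.om 1 p.ye)) t
  sT : p.sO (p.alP g P 0) (p.om 1 p.ye) (p.Jp P) ≤ K
  xs0 : 4 / K ≤ p.xs
  xs1 : 1 / K ≤ 1 - p.xs
  jJ : p.jf < p.J
  jx : p.z p.jf < p.xs / 2
  n1 : 6 * K ^ 2 ≤ log p.n
  n2 : log p.n * u0 p p.μe ≤ 2 / K
  n3 : 6 * (K * p.v) ≤ p.la p.μe
  n4 : K ^ 2 * (2 * p.ye + p.v) ≤ 1
  n5 : 2 * p.lL * (3 * p.v) ≤ (p.n : ℝ) ^ (-g) * (p.n : ℝ) ^ (-(3 : ℝ))
  n6 : (p.n : ℝ) ^ (-g) ≤ p.la p.μe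
  n7 : (p.n : ℝ) ^ (-(2 : ℝ)) ≤ p.la p.μe ^ 2
  n8 : K * p.v ≤ (p.n : ℝ) ^ (-(3 : ℝ))
  leg : ∀ a, α / 2 ≤ a → a ≤ α → (p.alM g P a).Leg p.am

/-- the velocity -/
def ph (p : Pm) (g α : ℝ) (P : Pl) (k : ℕ) : ℝ :=
  if k ≤ p.jf then 0 else -(α / 2) * (p.μe * p.rF p.μe (p.xP (p.alP g P 0) k))

theorem z_eq (p : Pm) (g a : ℝ) (P : Pl) (k : ℕ) :
    (p.alM g P a).z k = p.zP (p.alP g P 0) (max k p.jf) := rfl

theorem q_eq (p : Pm) (g a : ℝ) (P : Pl) (k : ℕ) : (p.alM g P a).q k =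
    Pr.Gam (p.lO (p.alP g P 0) (p.om 1 p.ye)) (p.sO (p.alP g P 0) (p.om 1 p.ye) k) := rfl

theorem H_eq (p : Pm) (g a : ℝ) (P : Pl) (k : ℕ) : (p.alM g P a).H k = if k ≤ p.jf then 0 else
    Pr.Spr41.mk (p.b 1 p.ye) (p.lO (p.alP g P 0) (p.om 1 p.ye))
      (p.sO (p.alP g P 0) (p.om 1 p.ye) k) + a * (p.μe * p.rF p.μe (p.xP (p.alP g P 0) k)) := by
  change (if k ≤ p.jf then 0 else p.sO (p.alP g P 0) (p.om 1 p.ye) k - (p.b 1 p.ye + 0) *
    Pr.Gam (p.lO (p.alP g P 0) (p.om 1 p.ye)) (p.sO (p.alP g P 0) (p.om 1 p.ye) k) +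
      a * (p.μe * p.rF p.μe (p.xP (p.alP g P 0) k))) + 0 = _
  rw [add_zero, add_zero]; rfl

theorem fs (p : Pm) (g α : ℝ) (P : Pl) :
    FS (fun t => p.alM g P (α - t * (α / 2))) (ph p g α P) := by
  refine ⟨fun _ => rfl, fun _ => rfl, fun _ => rfl, fun t k => ?_, if_pos (Nat.zero_le _)⟩
  simp only [H_eq, ph]
  split_ifs <;> ring

namespace AD

variable {c0 C0 η Y K g α : ℝ} {p : Pm} {P : Pl} (h : AD c0 C0 η Y K g α p P)
include h

theorem K0 : 0 < K := by linarith [h.K1]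
theorem v0 : 0 < p.v := h.geo.v0
theorem γ0 : 0 < (p.n : ℝ) ^ (-g) := rpow_pos_of_pos h.nm.np _
theorem iK : 0 < 1 / K := one_div_pos.2 h.K0
theorem e4 : 4 / K = 4 * (1 / K) := by ring
theorem e2 : 2 / K = 2 * (1 / K) := by ring
theorem c00 : 0 < c0 := by
  by_contra c
  nlinarith [h.cK, h.K0, not_lt.1 c]
theorem vK : K * p.v ≤ 1 / K := by
  rw [le_div_iff₀ h.K0]; nlinarith [h.n4, mul_nonneg (sq_nonneg K) h.y0]

theorem ex : ∃ k, p.xs / 2 ≤ p.z k :=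
  ⟨p.J - 1, by change p.xs / 2 ≤ p.xs; linarith [h.nm.x0]⟩

open Classical in
/-- the first node of the top window -/
def j1 : ℕ := Nat.find h.ex

theorem j1_ge : p.xs / 2 ≤ p.z h.j1 := by classical exact Nat.find_spec h.ex
theorem j1_lt {k : ℕ} (hk : k < h.j1) : p.z k < p.xs / 2 := by
  classical exact not_le.1 (Nat.find_min h.ex hk)
theorem j1_le : h.j1 ≤ p.J - 1 := by
  classical exact Nat.find_min' h.ex (by change p.xs / 2 ≤ p.xs; linarith [h.nm.x0])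
theorem jf_lt : p.jf < h.j1 := not_le.1 fun c =>
  absurd (h.j1_ge.trans (h.geo.base.lab.mono c)) (not_le.2 h.jx)

theorem dz_lo {k : ℕ} (hk : k + 1 < p.J) :
    p.v / K ≤ p.z (k + 1) - p.z k ∧ p.z (k + 1) - p.z k ≤ K * p.v := by
  obtain ⟨a, b⟩ := h.geo.base.slo k hk
  have v := h.v0
  refine ⟨le_trans ?_ a, b.trans (mul_le_mul_of_nonneg_right h.CK v.le)⟩
  rw [div_le_iff₀ h.K0]; nlinarith [h.cK]

theorem z_lo (a : ℝ) {k : ℕ} (h1 : p.jf ≤ k) (h2 : k < p.J) : (p.alM g P a).z k = p.z k := by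
  rw [z_eq, max_eq_left h1, zP_lo h2]

theorem z_hi (a : ℝ) {i : ℕ} (hi : i ≤ P.I) : (p.alM g P a).z (p.J - 1 + i) = P.x i := by
  have := h.jJ
  rw [z_eq, max_eq_left (by omega), show p.J - 1 + i = p.J + i - 1 by omega]
  exact h.geo.zP_x hi

theorem xP_eq (a : ℝ) {k : ℕ} (h1 : p.jf < k) (h2 : k ≤ p.Jp P) :
    p.xP (p.alP g P 0) k = (p.alM g P a).z (k - 1) := by
  rw [z_eq, max_eq_left (by omega)]; exact xP_lo h2

theorem x_ge (i : ℕ) : p.xs ≤ P.x i := h.al.x0 ▸ h.al.xm.monotone (Nat.zero_le i)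
theorem x_top {i : ℕ} (hi : i ≤ P.I) : (p.n : ℝ) ^ (-(3 : ℝ)) ≤ 1 - P.x i := by
  linarith [h.al.e3, h.al.xm.monotone hi]
theorem x_lt {i : ℕ} (hi : i ≤ P.I) : P.x i < 1 := by
  linarith [h.x_top hi, rpow_pos_of_pos h.nm.np (-(3 : ℝ))]
theorem dr_nn {i : ℕ} (hi : i < P.I) : 0 ≤ p.rF p.μe (P.x (i + 1)) - p.rF p.μe (P.x i) :=
  sub_nonneg.2 (h.nm.clw.le (h.x_ge i) (h.al.xm.monotone i.le_succ) (h.x_lt hi))
theorem dx_nn (i : ℕ) : 0 ≤ P.x (i + 1) - P.x i := sub_nonneg.2 (h.al.xm.monotone i.le_succ)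
theorem dl_ge {i : ℕ} (hi : i < P.I) : (P.x (i + 1) - P.x i) / (2 * p.lL) ≤
    p.lsp ((p.n : ℝ) ^ (-g)) (P.x (i + 1)) - p.lsp ((p.n : ℝ) ^ (-g)) (P.x i) :=
  p.lsp_inc _ h.nm.x0.le (h.x_ge i) (h.al.xm.monotone i.le_succ) (h.x_lt hi).le
theorem dl_nn {i : ℕ} (hi : i < P.I) : 0 ≤ (p.n : ℝ) ^ (-g) *
    (p.lsp ((p.n : ℝ) ^ (-g)) (P.x (i + 1)) - p.lsp ((p.n : ℝ) ^ (-g)) (P.x i)) :=
  mul_nonneg h.γ0.le ((div_nonneg (h.dx_nn i) (by linarith [p.lL_pos])).trans (h.dl_ge hi))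
theorem dx_le {i : ℕ} (hi : i < P.I) : P.x (i + 1) - P.x i ≤ (p.n : ℝ) ^ (-(3 : ℝ)) := by
  have L : 0 < 2 * p.lL := by linarith [p.lL_pos]
  have a := mul_le_mul_of_nonneg_left (h.dl_ge hi) h.γ0.le
  have b : (p.n : ℝ) ^ (-g) * ((P.x (i + 1) - P.x i) / (2 * p.lL)) ≤ 3 * p.v := by
    linarith [(h.al.st i hi).2, mul_nonneg h.α0.le (h.dr_nn hi)]
  rw [← mul_div_assoc, div_le_iff₀' L] at b
  exact le_of_mul_le_mul_left (b.trans h.n5) h.γ0
theorem n3_le : (p.n : ℝ) ^ (-(3 : ℝ)) ≤ u0 p p.μe := by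
  have a : (p.n : ℝ) ^ (-(3 : ℝ)) ≤ (p.n : ℝ) ^ (-(1 : ℝ)) :=
    rpow_le_rpow_of_exponent_le (by linarith [h.nm.n2]) (by norm_num)
  rw [rpow_neg_one, ← one_div] at a
  exact a.trans (h.nm.nl.trans h.nm.l_le_u0)

theorem s_j1 : p.ye ≤ p.sO (p.alP g P 0) (p.om 1 p.ye) h.j1 := by
  have J1 := h.j1_le
  have := h.jJ
  have a := (h.geo.s_inc (Nat.zero_le h.j1) (by omega)).1
  have b := (PP3.z_bds h.geo.base h.j1 (by omega)).2
  have v := h.v0
  have K0 := h.K0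
  rw [h.geo.sP_zero] at a
  simp only [Nat.cast_zero, sub_zero] at a
  have c : C0 * p.v + C0 * (h.j1 * p.v) ≤ K * (p.v + h.j1 * p.v) := by
    rw [← mul_add]; exact mul_le_mul_of_nonneg_right h.CK (by positivity)
  have d : 2 / K ≤ K * (p.v + h.j1 * p.v) := by linarith [h.j1_ge, h.xs0, h.e4, h.e2]
  rw [div_le_iff₀ K0] at d
  have e : K ^ 2 * (2 * p.ye) ≤ K ^ 2 * (h.j1 * p.v) := by nlinarith [h.n4]
  linarith [le_of_mul_le_mul_left e (by positivity)]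

theorem mk_ge {k : ℕ} (h1 : h.j1 ≤ k) (h2 : k < p.Jp P) :
    p.μe / K * (p.sO (p.alP g P 0) (p.om 1 p.ye) (k + 1) - p.sO (p.alP g P 0) (p.om 1 p.ye) k) ≤
      Pr.Spr41.mk (p.b 1 p.ye) (p.lO (p.alP g P 0) (p.om 1 p.ye))
        (p.sO (p.alP g P 0) (p.om 1 p.ye) (k + 1)) -
      Pr.Spr41.mk (p.b 1 p.ye) (p.lO (p.alP g P 0) (p.om 1 p.ye))
        (p.sO (p.alP g P 0) (p.om 1 p.ye) k) :=
  (mk_inc h.geo.ok _ (hi := 1) (h.geo.sP_nn k) (h.geo.sP_mono k.le_succ)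
    (h.geo.sP_le_tt (le_trans h2 (Nat.le_add_right _ _))) fun r hr =>
    ⟨h.crit r ⟨(h.s_j1.trans (h.geo.sP_mono h1)).trans hr.1, hr.2.trans (h.geo.sP_mono h2)⟩,
      St56.ec_le_one h.b0 _ r⟩).1

/-- **the floor on the top window** -/
theorem flr {a : ℝ} (a0 : α / 2 ≤ a) (a1 : a ≤ α) {k : ℕ} (h1 : h.j1 ≤ k) (h2 : k < p.Jp P) :
    p.μe * p.v / (4 * K) ≤ (p.alM g P a).H (k + 1) - (p.alM g P a).H k := by
  have jf := h.jf_lt
  have m := h.mk_ge h1 h2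
  have K0 := h.K0
  have μ0 := h.μ0
  have v := h.v0
  have ap : 0 < a := by linarith [h.α0]
  have mK : 0 < p.μe / K := by positivity
  rw [H_eq, H_eq, if_neg (by omega), if_neg (by omega)]
  rcases h.geo.cases k with c | ⟨i, c, rfl⟩ | c
  · obtain ⟨j, rfl⟩ : ∃ j, k = j + 1 := ⟨k - 1, by omega⟩
    rw [h.xP_eq a (k := j + 1 + 1) (by omega) h2, h.xP_eq a (k := j + 1) (by omega) h2.le,
      Nat.add_sub_cancel,
      Nat.add_sub_cancel, h.z_lo a (by omega) c, h.z_lo a (by omega) (by omega)]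
    have a2 := mul_le_mul_of_nonneg_left (h.geo.ds_lo c).1 mK.le
    have a3 := (h.nm.rF_sub_lo (h.geo.base.lab.mono j.le_succ)
      (h.geo.base.lab.mono (by omega : j + 1 ≤ p.J - 1))).1
    have lg : 0 < log (p.n : ℝ) := by linarith [h.nm.l1]
    have a4 : 3 / (2 * log p.n) * (p.z (j + 1) - p.z j) ≤ p.v / (4 * K) := by
      refine (mul_le_mul_of_nonneg_left (h.dz_lo c).2 (by positivity)).trans ?_
      rw [div_mul_eq_mul_div, div_le_div_iff₀ (by positivity) (by positivity)]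
      nlinarith [mul_le_mul_of_nonneg_right h.n1 v.le]
    have a5 : -(p.μe * (p.v / (4 * K))) ≤
        a * (p.μe * (p.rF p.μe (p.z (j + 1)) - p.rF p.μe (p.z j))) := by
      have b1 : -(p.v / (4 * K)) ≤ p.rF p.μe (p.z (j + 1)) - p.rF p.μe (p.z j) := by
        simp only [Nat.succ_eq_add_one] at a3; linarith
      have b2 := mul_le_mul_of_nonneg_left (mul_le_mul_of_nonneg_left b1 μ0.le) ap.le
      have b3 := mul_le_mul_of_nonneg_right (a1.trans h.α1)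
        (show 0 ≤ p.μe * (p.v / (4 * K)) by positivity)
      linarith
    have e1 : p.μe * p.v / (4 * K) = p.μe * (p.v / (4 * K)) := by ring
    have e2 : p.μe / K * (p.v / 2) = 2 * (p.μe * (p.v / (4 * K))) := by field_simp; ring
    linarith
  · have d := h.geo.ds_mid (i := i) c
    have r := (h.al.st i c).1
    have x1 : p.xP (p.alP g P 0) (p.J + i + 1) = P.x (i + 1) := h.geo.xP_x (i := i + 1) c
    have x0 : p.xP (p.alP g P 0) (p.J + i) = P.x i := h.geo.xP_x c.le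
    rw [x1, x0]
    rw [show p.J + i + 1 = p.J + (i + 1) from rfl, d] at m
    change p.μe / K * ((p.n : ℝ) ^ (-g) * (p.lsp ((p.n : ℝ) ^ (-g)) (P.x (i + 1)) -
      p.lsp ((p.n : ℝ) ^ (-g)) (P.x i))) ≤ _ at m
    have R := h.dr_nn c
    have X := h.dl_nn c
    have b1 := mul_le_mul_of_nonneg_left r (show 0 ≤ p.μe / K / 2 by positivity)
    have b2 : p.μe / K / 2 * (α * (p.rF p.μe (P.x (i + 1)) - p.rF p.μe (P.x i))) ≤
        a * (p.μe * (p.rF p.μe (P.x (i + 1)) - p.rF p.μe (P.x i))) := by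
      have c1 : p.μe / K ≤ p.μe := div_le_self μ0.le h.K1
      have c2 := mul_le_mul c1 a0 (by linarith [h.α0]) μ0.le
      nlinarith [mul_le_mul_of_nonneg_right c2 R]
    have b3 := mul_nonneg mK.le X
    have e1 : p.μe * p.v / (4 * K) = p.μe / K / 2 * (p.v / 2) := by field_simp; ring
    rw [show p.J + i + 1 = p.J + (i + 1) from rfl]
    linarith
  · exact absurd h2 (not_lt.2 c)

theorem N_eq : p.Jp P - 1 = p.J - 1 + P.I := by have := h.jJ; unfold Pm.Jp; omega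

theorem flr' {a : ℝ} (a0 : α / 2 ≤ a) (a1 : a ≤ α) {k : ℕ} (h1 : h.j1 ≤ k) (h2 : k < p.Jp P) :
    p.μe * p.v / (2 * K ^ 2) ≤ (p.alM g P a).z k * ((p.alM g P a).H (k + 1) - (p.alM g P a).H k) := by
  have K0 := h.K0
  have μ0 := h.μ0
  have v := h.v0
  have J1 := h.j1_le
  have := h.jJ
  have z1 : 2 / K ≤ (p.alM g P a).z k := by
    have := (h.leg a a0 a1).zm h1
    rw [h.z_lo a h.jf_lt.le (by omega)] at this
    linarith [h.j1_ge, h.xs0, h.e4, h.e2]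
  refine le_trans (le_of_eq ?_) (mul_le_mul z1 (h.flr a0 a1 h1 h2) (by positivity)
    (le_trans (by positivity) z1))
  field_simp; ring

theorem z_j1 : p.z h.j1 ≤ p.xs / 2 + K * p.v := by
  have J1 := h.j1_le
  have jf := h.jf_lt
  have := h.jJ
  have a := (h.dz_lo (k := h.j1 - 1) (by omega)).2
  rw [Nat.sub_add_cancel (by omega)] at a
  linarith [h.j1_lt (k := h.j1 - 1) (by omega)]

theorem tw {a : ℝ} (a0 : α / 2 ≤ a) (a1 : a ≤ α) :
    Tw p p.μe (2 * K) α (p.μe / (6 * K ^ 3)) (p.alM g P a).z (Phi (p.alM g P a)) h.j1 (p.J - 1)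
      (p.J - 1 + P.I) := by
  have K0 := h.K0
  have μ0 := h.μ0
  have v := h.v0
  have J1 := h.j1_le
  have jf := h.jf_lt
  have jJ := h.jJ
  have L := h.leg a a0 a1
  have i2 : 1 / (2 * K) ≤ 1 / K := one_div_le_one_div_of_le K0 (by linarith)
  have NN := h.N_eq
  have JJ : p.Jp P = p.J + P.I := rfl
  refine ⟨h.nm, by linarith [h.K1], h.α0, h.α1, by positivity, J1, Nat.le_add_right _ _, ?_, L.zm,
    ?_, fun i b c => ?_, ⟨?_, fun i _ => L.zm (by omega), ?_, fun i hi => ?_⟩, ?_, i2.trans h.xs1,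
    ?_, fun i b c => ?_, fun i b c => ?_⟩
  · exact h.z_lo a (by omega) (by omega)
  · rw [z_eq, max_eq_right (Nat.zero_le _), zP_lo jJ]
    exact h.geo.base.lab.pos.le.trans (h.geo.base.lab.mono (Nat.zero_le _))
  · obtain ⟨j, rfl⟩ : ∃ j, i = j + 1 := ⟨i - 1, by omega⟩
    rw [Nat.add_sub_cancel, h.z_lo a (by omega) (by omega), h.z_lo a (by omega) (by omega)]
    have := (h.dz_lo (k := j) (by omega)).2
    linarith [h.n3, h.nm.l_le_u0, mul_pos K0 v]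
  · simp only [h.z_hi a (Nat.zero_le _)]; exact h.x_ge 0
  · simp only [Nat.add_sub_cancel_left, h.z_hi a le_rfl]; exact h.al.e3
  · rw [Nat.add_sub_cancel_left] at hi
    simp only [h.z_hi a hi.le, h.z_hi a (i := i + 1) hi]
    exact le_min (by linarith [h.dx_le hi, h.x_ge i, h.n3_le])
      ((h.dx_le hi).trans (h.x_top (i := i + 1) hi))
  · rw [h.z_hi a le_rfl]; exact h.al.e2.trans h.n7
  · rw [h.z_lo a jf.le (by omega)]
    linarith [h.z_j1, h.vK, h.xs0, h.e4]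
  · rw [Phi_succ]
    refine le_trans ?_ (h.flr' a0 a1 b (by omega))
    rw [h.z_lo a (by omega) (by omega), h.z_lo a (by omega) (by omega)]
    refine (mul_le_mul_of_nonneg_left (h.dz_lo (by omega)).2 (by positivity)).trans ?_
    rw [div_mul_eq_mul_div, div_le_div_iff₀ (by positivity) (by positivity)]
    nlinarith [show 0 < p.μe * p.v * K ^ 3 by positivity]
  · rw [Phi_succ]
    refine le_trans ?_ (h.flr' a0 a1 (by omega) (by omega))
    obtain ⟨l, rfl⟩ := Nat.exists_eq_add_of_le b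
    have hl : l < P.I := by omega
    rw [show p.J - 1 + l + 1 = p.J - 1 + (l + 1) from rfl, h.z_hi a (i := l + 1) hl, h.z_hi a hl.le,
      mul_assoc]
    have r : α * (p.rF p.μe (P.x (l + 1)) - p.rF p.μe (P.x l)) ≤ 3 * p.v := by
      linarith [(h.al.st l hl).2, h.dl_nn hl]
    refine (mul_le_mul_of_nonneg_left r (by positivity)).trans ?_
    rw [div_mul_eq_mul_div, div_le_div_iff₀ (by positivity) (by positivity)]
    nlinarith [mul_le_mul_of_nonneg_left h.K1 (show 0 ≤ p.μe * p.v * K ^ 2 by positivity)]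

theorem top_le {x : ℝ} (hx : x ≤ p.xs) : 2 * (p.la p.μe / √(1 - x)) ≤ 2 * K * p.la p.μe := by
  have K0 := h.K0
  have l := h.nm.lp
  have a : 1 / K ≤ √(1 - x) := le_sqrt_of_sq_le (by
    have : 1 / K ≤ 1 := (div_le_one K0).2 h.K1
    nlinarith [h.xs1, h.iK])
  have b := div_le_div_of_nonneg_left l.le h.iK a
  rw [div_div_eq_mul_div, div_one] at b
  linarith

theorem abs_ph {k : ℕ} (hk : p.jf < k) {B : ℝ} (hB : |p.rF p.μe (p.xP (p.alP g P 0) k)| ≤ B) :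
    |ph p g α P k| ≤ α * p.μe / 2 * B := by
  have := h.α0
  have := h.μ0
  rw [ph, if_neg (by omega), abs_mul, abs_mul, abs_neg, abs_of_pos (by positivity : 0 < α / 2),
    abs_of_pos h.μ0]
  nlinarith [mul_le_mul_of_nonneg_left hB (show 0 ≤ α * p.μe / 2 by positivity)]

theorem mv (a : ℝ) : Mv p p.μe (K * α * p.μe) (p.alM g P a).z (ph p g α P) h.j1 (p.J - 1)
    (p.J - 1 + P.I) := by
  have J1 := h.j1_le
  have jf := h.jf_lt
  have jJ := h.jJ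
  have JJ : p.Jp P = p.J + P.I := rfl
  have K1 := h.K1
  have αμ := mul_pos h.α0 h.μ0
  have l := h.nm.lp
  have lu := h.nm.l_le_u0
  have lo : ∀ i, h.j1 < i → i ≤ p.J - 1 → (p.alM g P a).z (i - 1) ≤ p.xs := fun i b c => by
    rw [h.z_lo a (by omega) (by omega)]; exact h.geo.base.lab.mono (by omega)
  refine ⟨fun i b c => ?_, fun i b c d => ?_, fun i b c => ?_⟩
  · have x := lo i b c
    have r := h.nm.rF_bd (x.trans_lt h.nm.xs1)
    refine (h.abs_ph (B := 2 * K * u0 p p.μe) (by omega) ?_).trans (le_of_eq (by ring))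
    rw [h.xP_eq a (by omega) (by omega)]
    exact abs_le.2 ⟨by nlinarith [r.1], by nlinarith [r.2.2, h.top_le x]⟩
  · have x := lo i b c
    have r := h.nm.rF_bd (x.trans_lt h.nm.xs1)
    refine (h.abs_ph (B := 2 * K * p.la p.μe) (by omega) ?_).trans (le_of_eq (by ring))
    rw [h.xP_eq a (by omega) (by omega)]
    refine abs_le.2 ⟨?_, r.2.2.trans (h.top_le x)⟩
    have t := (h.nm.top_bd (x.trans_lt h.nm.xs1)).1
    have u : p.rB p.μe ((p.alM g P a).z (i - 1)) = 0 := by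
      rw [rB_eq]
      exact Rs13.r1_zero l (by linarith [h.nm.l1]) (by unfold u0 at d; linarith)
    unfold Pm.rF
    nlinarith
  · obtain ⟨j, rfl⟩ : ∃ j, i = p.J - 1 + j + 1 := ⟨i - p.J, by omega⟩
    have hj : j ≤ P.I := by omega
    refine (h.abs_ph (B := env p p.μe (P.x j)) (by omega) ?_).trans ?_
    · rw [h.xP_eq a (by omega) (by omega), Nat.add_sub_cancel, h.z_hi a hj]
      exact h.nm.abs_rF_env (h.x_ge j) (h.x_lt hj)
    · rw [Nat.add_sub_cancel, h.z_hi a hj]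
      exact mul_le_mul_of_nonneg_right (by nlinarith) (h.nm.env_nn _)

theorem q_inc (a : ℝ) {i j : ℕ} (hij : i ≤ j) (hj : j ≤ p.Jp P) :
    0 ≤ (p.alM g P a).q j - (p.alM g P a).q i ∧ (p.alM g P a).q j - (p.alM g P a).q i ≤
      p.sO (p.alP g P 0) (p.om 1 p.ye) j - p.sO (p.alP g P 0) (p.om 1 p.ye) i := by
  have := Gam_inc h.geo.ok (lo := 0) (hi := 1) (h.geo.sP_nn i) (h.geo.sP_mono hij)
    (h.geo.sP_le_tt (hj.trans (Nat.le_add_right _ _))) fun r _ =>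
      ⟨GG_nn _ r, Pp.Ode3.Gp_le_one h.geo.ok.1 r⟩
  rw [zero_mul, one_mul] at this
  exact this

theorem lc {a V a0 : ℝ} {m : ℕ} (hm : 0 < m) (b0 : α / 2 ≤ a) (b1 : a ≤ α) (V0 : 0 ≤ V)
    (hV : p.tw P (p.alM g P a) m a0 ≤ V ^ 2) :
    Lc p p.μe (2 * K) 1 V (p.alM g P a).z (fun _ => 1) (p.alM g P a).q ((p.alM g P a).rb m a0)
      h.j1 h.j1 (p.J - 1) (p.J - 1 + P.I) := by
  have J1 := h.j1_le
  have jf := h.jf_lt
  have jJ := h.jJ
  have JJ : p.Jp P = p.J + P.I := rfl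
  have K0 := h.K0
  have v := h.v0
  have L := h.leg a b0 b1
  refine ⟨zero_le_one, V0, one_pos, monotone_const, fun j _ _ => by simpa using rb_le_one hm j,
    Gam_nn _ _, Pp.Ode3.Gam_le_one _ _,
    fun i j _ b c => sub_nonneg.1 (h.q_inc a b (by omega)).1, fun j b c => ?_, ?_,
    le_trans ?_ hV⟩
  · obtain ⟨j, rfl⟩ : ∃ i, j = i + 1 := ⟨j - 1, by omega⟩
    rw [Nat.add_sub_cancel, h.z_lo a (by omega) (by omega), h.z_lo a (by omega) (by omega)]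
    have a1 := (h.dz_lo (k := j) (by omega)).1
    rw [div_le_iff₀ K0] at a1
    linarith [(h.q_inc a j.le_succ (by omega)).2, (h.geo.ds_lo (k := j) (by omega)).2]
  · have a1 := (h.q_inc a (i := p.J - 1) (j := p.J - 1 + P.I) (Nat.le_add_right _ _) (by omega)).2
    have a2 := h.geo.sP_mono (show p.J - 1 + P.I ≤ p.Jp (p.alP g P 0) by
      change _ ≤ p.Jp P; omega)
    have a3 := (h.geo.ds_lo (k := p.J - 1) (by omega)).2
    rw [Nat.sub_add_cancel (by omega), h.geo.sP_J] at a3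
    rw [h.geo.sP_Jp] at a2
    change _ ≤ p.J * p.v + (p.n : ℝ) ^ (-g) * p.lsp ((p.n : ℝ) ^ (-g)) (P.x P.I) at a2
    have a4 := mul_le_mul_of_nonneg_left (p.lsp_le_one ((p.n : ℝ) ^ (-g)) h.nm.x0.le (h.x_ge P.I)
      (h.x_lt le_rfl).le) h.γ0.le
    have l := h.nm.lp
    have a5 : p.v ≤ K * p.v := le_mul_of_one_le_left v.le h.K1
    have a6 : p.la p.μe ≤ K * p.la p.μe := le_mul_of_one_le_left l.le h.K1
    linarith [h.n6, h.n3]
  · simp only [sq_abs]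
    refine Finset.sum_le_sum_of_subset_of_nonneg (fun k hk => ?_) fun k _ _ =>
      mul_nonneg (sub_nonneg.2 (L.zm (by omega))) (sq_nonneg _)
    obtain ⟨c, d⟩ := Finset.mem_Ioc.1 hk
    refine Finset.mem_filter.2 ⟨Finset.mem_Ioc.2 ⟨by omega, by omega⟩, ?_⟩
    have := L.zm (show h.j1 ≤ k - 1 by omega)
    rw [h.z_lo a jf.le (by omega)] at this
    exact h.j1_ge.trans this

theorem xP_le (k : ℕ) : p.xP (p.alP g P 0) k ≤ P.x P.I := by
  refine le_trans ?_ (h.geo.xP_top (k := p.Jp (p.alP g P 0)) le_rfl).le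
  exact h.geo.zP_mono (by unfold Pm.Jp; omega)

theorem ph_le (k : ℕ) : |ph p g α P k| ≤ 3 * log p.n := by
  have L := h.nm.l1
  rcases le_or_gt k p.jf with c | c
  · rw [ph, if_pos c, abs_zero]; linarith
  · refine (h.abs_ph c (h.nm.abs_rF_log (by linarith [h.xP_le k, h.al.e3]))).trans ?_
    nlinarith [mul_le_one₀ h.α1 h.μ0.le h.μ1]

theorem dz_le (a : ℝ) {k : ℕ} (h1 : h.j1 < k) (h2 : k ≤ p.J - 1 + P.I) :
    (p.alM g P a).z k - (p.alM g P a).z (k - 1) ≤ (p.n : ℝ) ^ (-(3 : ℝ)) := by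
  have jf := h.jf_lt
  have jJ := h.jJ
  obtain ⟨j, rfl⟩ : ∃ i, k = i + 1 := ⟨k - 1, by omega⟩
  rw [Nat.add_sub_cancel]
  rcases lt_or_ge (j + 1) p.J with c | c
  · rw [h.z_lo a (by omega) c, h.z_lo a (by omega) (by omega)]
    exact (h.dz_lo c).2.trans h.n8
  · obtain ⟨l, rfl⟩ : ∃ l, j = p.J - 1 + l := ⟨j - (p.J - 1), by omega⟩
    rw [show p.J - 1 + l + 1 = p.J - 1 + (l + 1) from rfl, h.z_hi a (i := l + 1) (by omega),
      h.z_hi a (by omega)]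
    exact h.dx_le (by omega)

theorem Phi_le {a : ℝ} (a0 : α / 2 ≤ a) (a1 : a ≤ α) :
    Phi (p.alM g P a) (p.J - 1 + P.I) - Phi (p.alM g P a) h.j1 ≤ K + 6 * log p.n := by
  have L := h.leg a a0 a1
  have J1 := h.j1_le
  have jf := h.jf_lt
  have JJ : p.Jp P = p.J + P.I := rfl
  have t := tel_le (f := Phi (p.alM g P a)) (g := (p.alM g P a).H)
    (show h.j1 ≤ p.J - 1 + P.I by omega) fun i _ _ => by
      rw [Phi_succ]
      exact mul_le_of_le_one_left (sub_nonneg.2 (L.Hm i.le_succ)) (L.z1 i)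
  have a2 := L.Hm (Nat.zero_le h.j1)
  rw [L.H0] at a2
  have a3 := L.Hm (show p.J - 1 + P.I ≤ p.Jp P by omega)
  rw [H_eq p g a P (p.Jp P), if_neg (by omega)] at a3
  have a4 := abs_le.1 (h.nm.abs_rF_log (x := p.xP (p.alP g P 0) (p.Jp P))
    (by linarith [h.xP_le (p.Jp P), h.al.e3]))
  have a5 := mul_nonneg h.b0 (Gam_nn (p.lO (p.alP g P 0) (p.om 1 p.ye))
    (p.sO (p.alP g P 0) (p.om 1 p.ye) (p.Jp P)))
  have ap : 0 ≤ a := by linarith [h.α0]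
  have a6 := mul_le_mul_of_nonneg_left a4.2 (mul_nonneg ap h.μ0.le)
  have a7 := mul_le_mul_of_nonneg_right (mul_le_one₀ (a1.trans h.α1) h.μ0.le h.μ1)
    (show 0 ≤ 6 * log (p.n : ℝ) by linarith [h.nm.l1])
  unfold Pr.Spr41.mk at a3
  linarith [h.sT]

/-- **the cost** -/
theorem cost {a V a0 : ℝ} {m D : ℕ} (hm : 0 < m) (b0 : α / 2 ≤ a) (b1 : a ≤ α) (V0 : 0 ≤ V)
    (c0' : 0 ≤ a0) (c1 : a0 ≤ p.am) (hV : p.tw P (p.alM g P a) m a0 ≤ V ^ 2)
    (hD : K + 6 * log p.n ≤ 2 ^ D * (p.μe * p.v / (2 * K ^ 2))) :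
    ∑ k ∈ Finset.Ioc h.j1 (p.J - 1 + P.I), ((p.alM g P a).z k - (p.alM g P a).z (k - 1)) *
      ph p g α P k ^ 2 * aM (p.alM g P a) m a0 k ≤ (D + 2) * (2 / m * ((1 + D) *
        (48 * 10 ^ 6 * K ^ 8 * log p.n ^ 2 * (α * p.μe) * (p.la p.μe * (p.la p.μe + V)))) +
        (p.n : ℝ) ^ (-(3 : ℝ)) * (3 * log p.n) ^ 2) := by
  have K0 := h.K0
  have μ0 := h.μ0
  have α0 := h.α0
  have v := h.v0
  have J1 := h.j1_le
  have jf := h.jf_lt
  have JJ : p.Jp P = p.J + P.I := rfl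
  have n3 := rpow_pos_of_pos h.nm.np (-(3 : ℝ))
  refine (costP (B0 := 0) (σ := p.μe * p.v / (2 * K ^ 2)) (D := D)
    (cm := (p.n : ℝ) ^ (-(3 : ℝ)) * (3 * log p.n) ^ 2) (lg_of (h.leg a b0 b1) hm c0' c1)
    (h.tw b0 b1) (h.mv a) (h.lc hm b0 b1 V0 hV) (by positivity) le_rfl
    (by change _ ≤ p.J + P.I + p.Nr; omega) (fun i b c => h.flr' b0 b1 b (by omega))
    ((h.Phi_le b0 b1).trans hD) (by positivity) (fun k b c => ?_) le_rfl
    fun i b c => absurd b (not_le.2 c)).trans (le_of_eq ?_)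
  · have := pow_le_pow_left₀ (abs_nonneg _) (h.ph_le k) 2
    rw [sq_abs] at this
    exact mul_le_mul (h.dz_le a b c) this (sq_nonneg _) n3.le
  · field_simp; ring

theorem abs_part (a : ℝ) (L : (p.alM g P a).Leg p.am) :
    ∑ k ∈ Finset.Ioc 0 h.j1, ((p.alM g P a).z k - (p.alM g P a).z (k - 1)) * |ph p g α P k| +
      ∑ k ∈ Finset.Ioc (p.J - 1 + P.I) (p.alM g P a).N,
        ((p.alM g P a).z k - (p.alM g P a).z (k - 1)) * |ph p g α P k| ≤
      (p.n : ℝ) ^ (-(2 : ℝ)) * (3 * log p.n) := by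
  have J1 := h.j1_le
  have jJ := h.jJ
  have JJ : p.Jp P = p.J + P.I := rfl
  rw [Finset.sum_eq_zero fun k hk => ?_, zero_add]
  · refine (Finset.sum_le_sum fun k _ => mul_le_mul_of_nonneg_left (h.ph_le k)
      (sub_nonneg.2 (L.zm (by omega)))).trans ?_
    rw [← Finset.sum_mul, tele _ (by change _ ≤ p.J + P.I + p.Nr; omega), L.zN, h.z_hi a le_rfl]
    exact mul_le_mul_of_nonneg_right h.al.e2 (by linarith [h.nm.l1])
  · obtain ⟨c, d⟩ := Finset.mem_Ioc.1 hk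
    rw [ph]
    split_ifs with e
    · simp
    · have x := h.j1_lt (k := k - 1) (by omega)
      rw [h.xP_eq a (by omega) (by omega), h.z_lo a (k := k - 1) (by omega) (by omega),
        h.nm.rF_zero (by linarith [h.nm.xs1]) (by linarith [h.n2, h.xs0, h.e4, h.e2])]
      simp

/-- **one halving** -/
theorem go {δ V W : ℝ} {D : ℕ} (hn : 0 < p.n) (hb : p.b 1 p.ye ≤ p.β ^ 2) (V0 : 0 ≤ V) (W0 : 0 ≤ W)
    (hV : ∀ a, α / 2 ≤ a → a ≤ α → ∀ m a0, p.InW m a0 → p.tw P (p.alM g P a) m a0 ≤ V ^ 2)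
    (hD : K + 6 * log p.n ≤ 2 ^ D * (p.μe * p.v / (2 * K ^ 2)))
    (hW : (D + 2) * (2 / p.n * ((1 + D) *
        (48 * 10 ^ 6 * K ^ 8 * log p.n ^ 2 * (α * p.μe) * (p.la p.μe * (p.la p.μe + V)))) +
        (p.n : ℝ) ^ (-(3 : ℝ)) * (3 * log p.n) ^ 2) ≤ W ^ 2)
    (h1 : 2 * p.n * W ≤ δ * (p.n : ℝ) ^ ((1 : ℝ) / 6) * p.s ^ 2)
    (h2 : 2 * p.n * ((p.n : ℝ) ^ (-(2 : ℝ)) * (3 * log p.n)) ≤
      δ * (p.n : ℝ) ^ ((1 : ℝ) / 6) * p.s ^ 5) :
    Go δ p (p.alM g P α) (p.alM g P (α / 2)) := by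
  have α0 := h.α0
  have J1 := h.j1_le
  have K0 := h.K0
  have μ0 := h.μ0
  have l0 := h.nm.lp
  have np := h.nm.np
  have L1 := h.nm.l1
  have r : ∀ t ∈ Icc (0 : ℝ) 1, α / 2 ≤ α - t * (α / 2) ∧ α - t * (α / 2) ≤ α := fun t ht =>
    ⟨by nlinarith [ht.2], by nlinarith [ht.1]⟩
  have r0 := r 0 ⟨le_rfl, zero_le_one⟩
  have S := (fs p g α P).stage (n := p.n) (s := p.s) (γ := p.ga) (C := p.β ^ 2) (δ := δ) hn W0
    (fun t ht => h.leg _ (r t ht).1 (r t ht).2) (by simpa [Pm.alM, Pm.tst, Pm.fam] using hb)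
    (j0 := h.j1) (N := p.J - 1 + P.I) (by omega) (by change _ ≤ p.J + P.I + p.Nr; omega)
    (fun t ht m m1 m2 a0 c1 c2 => by
      have mp : (p.n : ℝ) ≤ m := Nat.cast_le.2 m1
      refine ((h.cost (hn.trans_le m1) (r t ht).1 (r t ht).2 V0 (le_trans (by positivity) c1) c2
        (hV _ (r t ht).1 (r t ht).2 m a0 ⟨m1, m2, c1, c2⟩) hD).trans ?_).trans hW
      gcongr)
    (h.abs_part _ (h.leg _ r0.1 r0.2)) (by positivity) h1 h2
  refine ⟨(fun t => p.alM g P (α - t * (α / 2))) '' Icc 0 1,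
    by simpa only [zero_mul, sub_zero] using S, 1, ⟨zero_le_one, le_rfl⟩, ?_⟩
  change p.alM g P (α - 1 * (α / 2)) = _
  congr 1; ring

end AD

section num

variable {β c0 C0 c η K' : ℝ} {A : ℕ} {p : Pm} (H : Reg β c0 C0 A c η K' p)
include H

theorem μe0 : 0 < p.μe := H.μ_pos H.mem_end

theorem lg_μe : logb p.n p.μe = -(7 * c) := by
  rw [Pm.μe, H.lg_μ_eq H.mem_end, logb_one, H.lg_ye]; ring

theorem lg_lae : logb p.n (p.la p.μe) = -(1 / 3) + 3 * c := by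
  rw [H.lg_la (μe0 H), lg_μe H, min_eq_right (by linarith [H.c_le])]; ring

theorem μe_mem : p.μ0 ≤ p.μe ∧ p.μe ≤ p.κ :=
  ⟨H.μ0_le_μ H.mem_end, H.le_of_lg (μe0 H) H.κ0 (by rw [lg_μe H, H.lg_κ]; linarith [H.c_pos])⟩

set_option maxHeartbeats 1000000 in
/-- the data -/
theorem ad {C C' C'' K α : ℝ} {P : Pl} (hA : 4 ≤ A) (hη : 100 * η ≤ c) (Cp : 0 < C)
    (C1' : 0 < C') (K1 : 1 ≤ K) (k0 : C' ≤ K) (k1 : 4 * C ≤ K)
    (k2 : C0 ≤ K) (k3 : 1 / c0 ≤ K) (k4 : exp (6 * K ^ 2) ≤ K') (G1 : CrS C' p) (G2 : GpO C p)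
    (G3 : P1G C'' p) (N : Nm p p.μe) (L : LegA (7 / 20) 1 p) (α0 : 0 < α) (α1 : α ≤ 1)
    (hP : p.AlOk (7 / 20) α P) :
    AD c0 C0 (C0 / (p.n : ℝ) ^ p.A) (2 * p.ye) K (7 / 20) α p P := by
  obtain ⟨⟨-, -, -, -, k5, yJ⟩, ⟨om, -⟩, -⟩ := G3 p.sg1 H.memG1
  obtain ⟨⟨-, jr, J1, x0, x1, -⟩, -⟩ := G2
  rw [Pm.omG_one H.ye0] at om
  have v0 := H.v0
  have y0 := H.ye0
  have d0 := H.c00
  have μ0 := μe0 H
  have l0 := N.lp
  have K0 : 0 < K := by linarith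
  have a6 : 6 * K ^ 2 ≤ η * log p.n := by
    have := log_le_log (exp_pos _) (k4.trans H.K_le)
    rwa [log_exp, log_rpow H.N0] at this
  have a7 : η * log p.n ≤ log p.n := by nlinarith [H.η_le, H.c_le, H.log1]
  have KΛ : K ≤ (p.n : ℝ) ^ η := by nlinarith [H.log_le]
  have lK := H.lg_cst K1 KΛ
  have A4 : (4 : ℝ) ≤ A := by exact_mod_cast hA
  have lv := H.lg_v_le
  have l3 := H.lg_num (x := 3) (by norm_num) (by norm_num)
  have l6 := H.lg_num (x := 6) (by norm_num) (by norm_num)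
  have η0 := H.η_pos
  have cl := H.c_le
  have vy := H.v_le_r.trans H.r_le_ye
  have jy := jr.trans H.r_le_ye
  have jJ : p.jf < p.J := by
    have : (p.jf : ℝ) < p.J := lt_of_mul_lt_mul_right (by linarith) v0.le
    exact_mod_cast this
  have geo : Geo c0 C0 (C0 / (p.n : ℝ) ^ p.A) (2 * p.ye) p (p.alP (7 / 20) P 0) (p.om 1 p.ye) :=
    ⟨H.ok.base, ⟨om.zero, om.nn, om.supp, fun j => (om.lip j).trans
      (mul_le_mul_of_nonneg_right k5 v0.le)⟩, yJ, by omega, (H.rp0 _).le, hP.x0,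
      fun i _ => hP.xm i.lt_succ_self, hP.e1.le⟩
  have F := G1 _ _ _ _ _ _ H.r_le_ye le_rfl geo le_rfl
  have n4 : K ^ 2 * (3 * p.ye) ≤ 1 := H.le_of_lg (by positivity) one_pos (by
    lg_norm
    linarith [H.lg_ye])
  have iK : 1 / K ≤ 1 / (4 * C) := one_div_le_one_div_of_le (by positivity) k1
  have e4 : 4 / K = 4 * (1 / K) := by ring
  have eC : 1 / C = 4 * (1 / (4 * C)) := by field_simp
  have iK0 : 0 < 1 / K := by positivity
  refine ⟨geo, N, hP, α0, α1, K1, μ0, (μe_mem H).2.trans H.κ1, k2, ?_, by linarith [F.b1], y0.le,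
    fun t ht => ?_, F.sT.trans k0, by linarith, by linarith, jJ, ?_, a6.trans a7, ?_, ?_,
    by nlinarith, ?_, ?_, ?_, ?_, fun a b d => Leg_mono
      (L.2.1 a P (by linarith) (d.trans α1) hP.toFine).1 (by linarith [H.am0])⟩
  · rw [div_le_iff₀ d0] at k3; linarith
  · have := (F.crit t ⟨y0.le.trans ht.1, ht.2⟩).1
    rw [H.ms_top H.mem_end ht.1] at this
    exact (div_le_div_of_nonneg_left μ0.le C1' k0).trans this
  · have a := (PP3.z_bds H.ok.base p.jf jJ).2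
    have b : C0 * p.v + C0 * (p.jf * p.v) ≤ K * (2 * p.ye) := by
      rw [← mul_add]
      exact mul_le_mul k2 (by linarith) (by have := H.jfv0; positivity) K0.le
    have d : K * (2 * p.ye) ≤ 1 / K := by rw [le_div_iff₀ K0]; nlinarith
    linarith
  · have lg0 : 0 < log (p.n : ℝ) := by linarith [H.log1]
    refine H.le_of_lg (mul_pos lg0 N.u0p) (by positivity) ?_
    rw [u0]
    lg_norm
    linarith [lg_lae H, H.lg_log.2, H.lg_two.1]
  · refine H.le_of_lg (by positivity) l0 ?_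
    lg_norm
    linarith [lg_lae H]
  · have := H.N0
    have lg0 : 0 < log (p.n : ℝ) := by linarith [H.log1]
    have a : p.lL ≤ 12 * log p.n := by
      have := log_le_log (by positivity) (show (p.n : ℝ) + 3 ≤ p.n ^ 2 by nlinarith [H.N3])
      rw [log_pow] at this
      unfold Pm.lL
      push_cast at this
      linarith
    refine (show _ ≤ 72 * log p.n * p.v by
      linarith only [mul_le_mul_of_nonneg_right a v0.le]).trans
      (H.le_of_lg (by positivity) (by positivity) ?_)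
    lg_norm
    rw [H.lg_n]
    linarith [H.lg_log.2, (H.lg_num (x := 72) (by norm_num) (by norm_num)).2]
  · exact H.le_of_lg (H.rp0 _) l0 (by rw [H.lg_rp, lg_lae H]; linarith)
  · refine H.le_of_lg (H.rp0 _) (by positivity) ?_
    rw [H.lg_rp]
    lg_norm
    linarith [lg_lae H]
  · refine H.le_of_lg (by positivity) (H.rp0 _) ?_
    rw [H.lg_rp]
    lg_norm
    linarith

set_option maxHeartbeats 1000000 in
/-- the numbers -/
theorem go' {K α : ℝ} {P : Pl} {Y η' : ℝ} (hη : 100 * η ≤ c) (KΛ : K ≤ (p.n : ℝ) ^ η)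
    (h : AD c0 C0 η' Y K (7 / 20) α p P) (hb : p.b 1 p.ye ≤ p.β ^ 2)
    (hL : SprL2 (7 / 20) ((p.n : ℝ) ^ η) p) :
    Go ((p.n : ℝ) ^ η)⁻¹ p (p.alM (7 / 20) P α) (p.alM (7 / 20) P (α / 2)) := by
  have N0 := H.N0
  have μ0 := h.μ0
  have l0 := h.nm.lp
  have α0 := h.α0
  have K0 := h.K0
  have s0 := H.s0
  have v0 := H.v0
  have L1 := H.log1
  have L0 : 0 < log (p.n : ℝ) := by linarith
  have Λ0 := H.Λ0
  have Λ1 := H.Λ1
  have h6 := H.num_le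
  have lK := H.lg_cst h.K1 KΛ
  have lΛ := H.lg_rp η
  have η0 := H.η_pos
  have cl := H.c_le
  have ls := H.lg_s
  have l2 := H.lg_two
  have lL := H.lg_log
  have lm := lg_μe H
  have ll := lg_lae H
  have ln := H.lg_n
  have LΛ := H.log_le
  have AΛ := H.A_le
  set Λ := (p.n : ℝ) ^ η with hΛ
  set D := ⌈(A + 2) * (2 * log (p.n : ℝ))⌉₊ with hD
  have A0 : (0 : ℝ) ≤ A := Nat.cast_nonneg A
  have D1 : (A + 2) * (2 * log (p.n : ℝ)) ≤ D := Nat.le_ceil _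
  have D2 : (D : ℝ) + 2 ≤ Λ ^ 3 := by
    have := (Nat.ceil_lt_add_one (show 0 ≤ (A + 2) * (2 * log (p.n : ℝ)) by positivity)).le
    have b : (A + 2) * (2 * log (p.n : ℝ)) ≤ (Λ + 2) * (2 * Λ) := by gcongr
    nlinarith [mul_le_mul_of_nonneg_right h6 (sq_nonneg Λ)]
  have D0 : (0 : ℝ) ≤ D := Nat.cast_nonneg D
  have e2 : (p.n : ℝ) ^ ((A : ℝ) + 2) ≤ 2 ^ D := by
    have h3 : (1 : ℝ) / 2 ≤ log 2 := by linarith [log_two_gt_d9]
    rw [← log_le_log_iff (by positivity) (by positivity), log_pow, log_rpow N0]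
    nlinarith
  set T := Λ * p.s ^ 4 * (p.n : ℝ) ^ (-(2 / 3) - c / 2) with hT
  have T0 : 0 < T := by positivity
  refine h.go (V := Λ * p.s ^ 4 * (p.n : ℝ) ^ (-(1 : ℝ) / 3) / (α * √p.μe)) (D := D)
    (W := Λ ^ 12 * p.s ^ 2 * (p.n : ℝ) ^ (-(5 / 6) - c / 4)) H.n0 hb (by positivity)
    (by positivity) (fun a b d m a0 w => (hL α a P α0 h.α1 b d h.al m a0 w).trans ?_) ?_ ?_ ?_ ?_
  · refine H.le_of_lg (by positivity) (by positivity) ?_
    lg_norm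
    rw [ln]
    linarith
  · refine le_trans ?_ (mul_le_mul_of_nonneg_right e2 (by positivity))
    refine (show _ ≤ Λ ^ 2 by nlinarith).trans (H.le_of_lg (by positivity) (by positivity) ?_)
    lg_norm
    rw [ln]
    linarith [H.lg_v, H.lg_β.1]
  · have t1 : α * p.μe * p.la p.μe ^ 2 ≤ T := H.le_of_lg (by positivity) T0 (by
      rw [hT]
      lg_norm
      rw [ln]
      linarith [H.lg_np α0 h.α1])
    have t2 : α * p.μe * p.la p.μe * (Λ * p.s ^ 4 * (p.n : ℝ) ^ (-(1 : ℝ) / 3) / (α * √p.μe)) ≤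
        T := H.le_of_lg (by positivity) T0 (by
      rw [hT]
      lg_norm
      rw [ln]
      linarith)
    have t3 : 48 * 10 ^ 6 * K ^ 8 * log p.n ^ 2 ≤ Λ ^ 3 * Λ ^ 8 * Λ ^ 2 := by
      gcongr
      exact le_trans (by norm_num) (pow_le_pow_left₀ (by norm_num) h6 3)
    have t4 : 48 * 10 ^ 6 * K ^ 8 * log p.n ^ 2 * (α * p.μe) * (p.la p.μe * (p.la p.μe +
        Λ * p.s ^ 4 * (p.n : ℝ) ^ (-(1 : ℝ) / 3) / (α * √p.μe))) ≤ Λ ^ 3 * Λ ^ 8 * Λ ^ 2 * (2 * T) := by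
      rw [mul_assoc (48 * 10 ^ 6 * K ^ 8 * log p.n ^ 2)]
      exact mul_le_mul t3 (by linarith) (by positivity) (by positivity)
    have t5 : Λ ^ 3 * (2 / p.n * (Λ ^ 3 * (Λ ^ 3 * Λ ^ 8 * Λ ^ 2 * (2 * T)))) ≤
        (Λ ^ 12 * p.s ^ 2 * (p.n : ℝ) ^ (-(5 / 6) - c / 4)) ^ 2 / 2 :=
      H.le_of_lg (by positivity) (by positivity) (by
        rw [hT]
        lg_norm
        rw [ln]
        linarith)
    have t6 : Λ ^ 3 * ((p.n : ℝ) ^ (-(3 : ℝ)) * (3 * log p.n) ^ 2) ≤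
        (Λ ^ 12 * p.s ^ 2 * (p.n : ℝ) ^ (-(5 / 6) - c / 4)) ^ 2 / 2 :=
      H.le_of_lg (by positivity) (by positivity) (by
        lg_norm
        rw [ln]
        linarith [(H.lg_num (x := 3) (by norm_num) (by norm_num)).2])
    refine le_trans ?_ (show Λ ^ 3 * (2 / p.n * (Λ ^ 3 * (Λ ^ 3 * Λ ^ 8 * Λ ^ 2 * (2 * T))) +
      (p.n : ℝ) ^ (-(3 : ℝ)) * (3 * log p.n) ^ 2) ≤ _ by linarith)
    gcongr
    linarith
  · refine H.le_of_lg (by positivity) (by positivity) ?_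
    lg_norm
    rw [ln]
    linarith
  · refine H.le_of_lg (by positivity) (by positivity) ?_
    lg_norm
    rw [ln]
    linarith [(H.lg_num (x := 3) (by norm_num) (by norm_num)).2]

end num

/-- **`C2S`** from the location input and the legality -/
theorem c2S_of {β : ℝ} (hβ : 1 < β) (hL : Sml β (LegA (7 / 20))) (h2 : Loss β (SprL2 (7 / 20))) :
    Gain β (C2S (7 / 20)) := by
  refine Sml.gain (Sml.glueC hβ (((crS β hβ).and_sub (gpO β hβ)).and_sub (p1G β hβ))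
    ((hL.and h2.sml).and (St56.nm_sml hβ)) fun C hC c0 C0 h0 h1 => ⟨4, fun A hA =>
      ⟨1, one_pos, fun c _ hc => ⟨c / 100, by positivity, fun η hη _ =>
        ⟨exp (6 * (4 * C + C0 + 1 / c0) ^ 2), fun p H G ⟨⟨L, S⟩, N⟩ α P a0 a1 hP => ?_⟩⟩⟩⟩)
  obtain ⟨⟨x, x1, x2, ⟨y, y1, y2, G1⟩, z, z1, z2, G2⟩, w, -, -, G3⟩ := G
  have i0 : 0 < 1 / c0 := by positivity
  have η1 : 100 * η ≤ c := by linarith
  have K1 : 1 ≤ 4 * C + C0 + 1 / c0 := by linarith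
  have KΛ : 4 * C + C0 + 1 / c0 ≤ (p.n : ℝ) ^ η := by
    have := add_one_le_exp (6 * (4 * C + C0 + 1 / c0) ^ 2)
    nlinarith [H.K_le]
  exact go' H η1 KΛ (ad H hA η1 z1 y1 K1 (by linarith) (by linarith) (by linarith) (by linarith)
    le_rfl G1 G2 G3 (N _ (μe_mem H).1 (μe_mem H).2) L a0 a1 hP) L.1.2 S

end Crest.Agent.T156.Alt.C2s11


end
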