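import Crest.Agent.T156.AltCl_88
import Crest.Agent.T156.AltDic_77
import Crest.Agent.T156.Seg_56

/-!
# Row 156, ALT route: exact derivative of `V` along any family of abstract models (helper77)

Only derivatives at the point are used; increments may vanish.
-/

set_option autoImplicit false
set_option linter.unusedSectionVars false

noncomputable section

namespace Crest.Agent.T156.Alt.Md77

open MeasureTheory Real Set Filter Topology
open Crest.Agent.T157.E Crest.Agent.T157.Casc Crest.Agent.T157.SL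
open Crest.Agent.T157.G1 (ov fl FL Jw)
open Crest.Agent.T156.Cas Crest.Agent.T156.Cas.Seg56

/-- variances of the W parts and of the field parts -/
abbrev Dt := (ℕ → ℝ) × (ℕ → ℝ)

section gen
variable (m : ℕ) (T : ℕ → ℝ) (K : ℕ)

/-- `K` mixed levels -/
def MC (u : Dt) : List (Lv (Cube m)) := List.ofFn fun k : Fin K => mxL m 1 (T k, u.1 k, u.2 k)

/-- the cone of legal variances -/
def Cone (u : Dt) : Prop := ∀ k < K, 0 ≤ u.1 k ∧ 0 ≤ u.2 k

theorem MC_length (u : Dt) : (MC m T K u).length = K := by simp [MC]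

theorem tilt_MC (u u' : Dt) : (MC m T K u).map Lv.m = (MC m T K u').map Lv.m := by
  simp only [MC, List.map_ofFn]
  rfl

/-- a mixed level along a curve -/
def mT (z : ℝ) (d f : ℝ → ℝ) : TL (Cube m) :=
  ⟨(mxL m 1 (z, 0, 0)).ι, fun t => (mxL m 1 (z, d t, f t)).A, fun _ _ _ => 0, z⟩

theorem mT_okC (z : ℝ) {d f : ℝ → ℝ} {I : Set ℝ} (hI : IsCompact I) (hd : ContinuousOn d I)
    (hf : ContinuousOn f I) : (mT m z d f).OkC I :=
  TL.okC_of_compact hI fun x i => by
    rcases i with i | i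
    · exact hd.sqrt.mul continuousOn_const
    · exact (continuousOn_const.mul hf.sqrt).mul continuousOn_const

theorem atL_MC (γ : ℝ → Dt) (t : ℝ) : atL (List.ofFn fun k : Fin K =>
    mT m (T k) (fun t => (γ t).1 k) fun t => (γ t).2 k) t = MC m T K (γ t) := by
  simp only [atL, MC, List.map_ofFn]
  rfl

theorem okC_MC {γ : ℝ → Dt} {I : Set ℝ} (hI : IsCompact I) (hγ : ContinuousOn γ I) :
    ∀ l ∈ List.ofFn fun k : Fin K => mT m (T k) (fun t => (γ t).1 k) fun t => (γ t).2 k,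
      l.OkC I := fun l hl => by
  obtain ⟨k, rfl⟩ := List.mem_ofFn.1 hl
  exact mT_okC m _ hI ((continuous_apply _).comp_continuousOn hγ.fst)
    ((continuous_apply _).comp_continuousOn hγ.snd)

theorem cont_X : Continuous fun u : Dt => X (fun _ => 1) (MC m T K u) 0 := by
  refine Dic77.cont_of_curves _ fun γ I hI hγ => ?_
  have := continuousOn_X Link33.wt1 (okC_MC m T K hI hγ) (b := fun _ => 0)
    fun _ => continuousOn_const
  simpa only [atL_MC] using this

theorem cont_pi2 (j : ℕ) (Q : Cube m → Cube m → ℝ) :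
    Continuous fun u : Dt => pi2 (fun _ => 1) (MC m T K u) j Q 0 := by
  refine Dic77.cont_of_curves _ fun γ I hI hγ => ?_
  have := (Var6.eg_pi2P Link33.wt1 Q _ (okC_MC m T K hI hγ) j).cont.comp
    (f := fun ρ : ℝ => ((ρ, 0) : Pt (Cube m))) (s := I) (by fun_prop) fun _ ht => ⟨ht, trivial⟩
  simpa only [Function.comp_def, atL_MC] using this

/-- the derivative at `u` in the direction `u'` -/
def GD (u u' : Dt) : ℝ :=
  m * ((∑ k ∈ Finset.range K, u'.1 k) / 4 + (∑ k ∈ Finset.range K, u'.2 k) / 2 -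
    ∑ j ∈ Finset.range (K + 1), dm (MC m T K u) 0 j *
      ((∑ k ∈ Finset.range j, u'.1 k) / 4 * pi2 (fun _ => 1) (MC m T K u) j (fun x y => ov x y ^ 2) 0 +
        (∑ k ∈ Finset.range j, u'.2 k) / 2 * pi2 (fun _ => 1) (MC m T K u) j ov 0))

theorem cont_GD : Continuous fun z : Dt × Dt => GD m T K z.1 z.2 := by
  have e : ∀ (u : Dt) j, dm (MC m T K u) 0 j = dm (MC m T K 0) 0 j :=
    fun u j => Cav22.dm_tilt (tilt_MC m T K _ _) 0 j
  have h1 := fun j Q => (cont_pi2 m T K j Q).comp (continuous_fst (X := Dt) (Y := Dt))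
  simp only [GD, e]
  simp only [Function.comp_def] at h1
  fun_prop

theorem GD_smul (u : Dt) (c : ℝ) (u' : Dt) : GD m T K u (c • u') = c * GD m T K u u' := by
  simp only [GD, Prod.smul_fst, Prod.smul_snd, Pi.smul_apply, smul_eq_mul, ← Finset.mul_sum]
  rw [Finset.sum_congr rfl fun j _ => (show dm (MC m T K u) 0 j *
      (c * (∑ k ∈ Finset.range j, u'.1 k) / 4 * pi2 (fun _ => 1) (MC m T K u) j (fun x y => ov x y ^ 2) 0 +
        c * (∑ k ∈ Finset.range j, u'.2 k) / 2 * pi2 (fun _ => 1) (MC m T K u) j ov 0) =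
      c * (dm (MC m T K u) 0 j *
      ((∑ k ∈ Finset.range j, u'.1 k) / 4 * pi2 (fun _ => 1) (MC m T K u) j (fun x y => ov x y ^ 2) 0 +
        (∑ k ∈ Finset.range j, u'.2 k) / 2 * pi2 (fun _ => 1) (MC m T K u) j ov 0)) by ring),
    ← Finset.mul_sum]
  ring

variable {m K}

theorem Cone.seg {u u' : Dt} (h : Cone K u) (h' : Cone K u') {t : ℝ} (ht : t ∈ Icc (0 : ℝ) 1) :
    Cone K (u + t • (u' - u)) := fun k hk => by
  simp only [Prod.fst_add, Prod.snd_add, Prod.smul_fst, Prod.smul_snd, Prod.fst_sub, Prod.snd_sub,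
    Pi.add_apply, Pi.smul_apply, Pi.sub_apply, smul_eq_mul]
  constructor <;> nlinarith [(h k hk).1, (h k hk).2, (h' k hk).1, (h' k hk).2, ht.1, ht.2]

theorem seg_MC (hm : 0 < m) {u u' : Dt} (h : Cone K u) (h' : Cone K u') :
    Seg (fun t => MC m T K (u + t • (u' - u))) K fun j x y => ∑ k ∈ Finset.range j,
      ((u' - u).1 k * (m / 2 * ov x y ^ 2) + (u' - u).2 k * m * ov x y) := by
  refine Seg.of_cov (fun t _ => MC_length _ _ _ _) fun t ht k h1 h0 => ?_
  have hk : k < K := by simpa [MC_length] using h1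
  simp only [MC, List.getElem_ofFn]
  refine ⟨rfl, fun x y => ?_⟩
  rw [mxL_cov hm 1 (h.seg h' ht k hk).1 (h.seg h' ht k hk).2,
    mxL_cov hm 1 (h.seg h' ⟨le_rfl, zero_le_one⟩ k hk).1 (h.seg h' ⟨le_rfl, zero_le_one⟩ k hk).2]
  simp only [Prod.fst_add, Prod.snd_add, Prod.smul_fst, Prod.smul_snd, Pi.add_apply, Pi.smul_apply,
    smul_eq_mul]
  ring

theorem seg_der (hm : 0 < m) {u u' : Dt} (h : Cone K u) (h' : Cone K u') {t : ℝ}
    (ht : t ∈ Ioo (0 : ℝ) 1) :
    HasDerivAt (fun t : ℝ => X (fun _ => 1) (MC m T K (u + t • (u' - u))) 0)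
      (GD m T K (u + t • (u' - u)) (u' - u)) t := by
  refine ((seg_MC T hm h h').der Link33.wt1 (c := ∑ k ∈ Finset.range K,
    ((u' - u).1 k * (m / 2) + (u' - u).2 k * m)) (fun x => by simp [ov_self hm]) 0 ht).congr_deriv ?_
  have e : ∀ j, pi2 (fun _ => 1) (MC m T K (u + t • (u' - u))) j (fun x y => ∑ k ∈ Finset.range j,
      ((u' - u).1 k * (m / 2 * ov x y ^ 2) + (u' - u).2 k * m * ov x y)) 0 =
      2 * m * ((∑ k ∈ Finset.range j, (u' - u).1 k) / 4 *
        pi2 (fun _ => 1) (MC m T K (u + t • (u' - u))) j (fun x y => ov x y ^ 2) 0 +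
        (∑ k ∈ Finset.range j, (u' - u).2 k) / 2 *
        pi2 (fun _ => 1) (MC m T K (u + t • (u' - u))) j ov 0) := fun j => by
    rw [← pi2_const_mul, ← pi2_const_mul (K := ov), ← pi2_add Link33.wt1, ← pi2_const_mul]
    congr 1
    funext x y
    rw [Finset.sum_add_distrib, ← Finset.sum_mul, ← Finset.sum_mul, ← Finset.sum_mul]
    ring
  simp only [e, mul_left_comm _ (2 * (m : ℝ)), ← Finset.mul_sum]
  rw [GD, Finset.sum_add_distrib, ← Finset.sum_mul, ← Finset.sum_mul]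
  ring

/-- mean value form between two legal points -/
theorem MC_mvt (hm : 0 < m) {u u' : Dt} (h : Cone K u) (h' : Cone K u') :
    ∃ θ ∈ Ioo (0 : ℝ) 1, X (fun _ => 1) (MC m T K u') 0 - X (fun _ => 1) (MC m T K u) 0 =
      GD m T K (u + θ • (u' - u)) (u' - u) := by
  obtain ⟨θ, hθ, e⟩ := exists_hasDerivAt_eq_slope
    (fun t : ℝ => X (fun _ => 1) (MC m T K (u + t • (u' - u))) 0) _ zero_lt_one
    ((seg_MC T hm h h').cont Link33.wt1 0) fun t ht => seg_der T hm h h' ht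
  refine ⟨θ, hθ, ?_⟩
  rw [e]
  simp

/-- **derivative along a curve of legal points** -/
theorem MC_der (hm : 0 < m) {u : ℝ → Dt} {u' : Dt} {S : Set ℝ} {t : ℝ}
    (hd : ∀ k, HasDerivWithinAt (fun t => (u t).1 k) (u'.1 k) S t)
    (hG : ∀ k, HasDerivWithinAt (fun t => (u t).2 k) (u'.2 k) S t) (h0 : Cone K (u t))
    (h : ∀ᶠ t' in 𝓝[S] t, Cone K (u t')) :
    HasDerivWithinAt (fun t => X (fun _ => 1) (MC m T K (u t)) 0) (GD m T K (u t) u') S t := by
  have hc : Tendsto u (𝓝[S \ {t}] t) (𝓝 (u t)) :=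
    ((continuousWithinAt_pi.2 fun k => (hd k).continuousWithinAt).prodMk
      (continuousWithinAt_pi.2 fun k => (hG k).continuousWithinAt)).tendsto.mono_left
        (nhdsWithin_mono _ sdiff_subset)
  have hs : Tendsto (fun t' => (t' - t)⁻¹ • (u t' - u t)) (𝓝[S \ {t}] t) (𝓝 u') := by
    refine (Prod.tendsto_iff _ _).2 ⟨tendsto_pi_nhds.2 fun k => ?_, tendsto_pi_nhds.2 fun k => ?_⟩
    · simpa [slope_fun_def] using hasDerivWithinAt_iff_tendsto_slope.1 (hd k)
    · simpa [slope_fun_def] using hasDerivWithinAt_iff_tendsto_slope.1 (hG k)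
  have key : ∀ t', ∃ θ ∈ Icc (0 : ℝ) 1, Cone K (u t') →
      X (fun _ => 1) (MC m T K (u t')) 0 - X (fun _ => 1) (MC m T K (u t)) 0 =
        GD m T K (u t + θ • (u t' - u t)) (u t' - u t) := fun t' => by
    by_cases H : Cone K (u t')
    · obtain ⟨θ, hθ, e⟩ := MC_mvt T hm h0 H
      exact ⟨θ, Ioo_subset_Icc_self hθ, fun _ => e⟩
    · exact ⟨0, ⟨le_rfl, zero_le_one⟩, fun H' => absurd H' H⟩
  choose θ hθ e using key
  have hz : Tendsto (fun t' => u t' - u t) (𝓝[S \ {t}] t) (𝓝 0) := by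
    simpa using hc.sub_const (u t)
  have hb : ∀ f : ℝ → ℝ, Tendsto f (𝓝[S \ {t}] t) (𝓝 0) →
      Tendsto (fun t' => θ t' * f t') (𝓝[S \ {t}] t) (𝓝 0) := fun f hf =>
    squeeze_zero_norm (a := fun t' => ‖f t'‖) (fun t' => by
      rw [norm_mul]
      exact mul_le_of_le_one_left (norm_nonneg _) (by
        rw [Real.norm_of_nonneg (hθ t').1]; exact (hθ t').2)) (by simpa using hf.norm)
  have hm' : Tendsto (fun t' => u t + θ t' • (u t' - u t)) (𝓝[S \ {t}] t) (𝓝 (u t)) := by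
    have : Tendsto (fun t' => θ t' • (u t' - u t)) (𝓝[S \ {t}] t) (𝓝 0) :=
      (Prod.tendsto_iff _ _).2
        ⟨tendsto_pi_nhds.2 fun k => hb _ ((((continuous_apply k).comp continuous_fst).tendsto _).comp hz),
        tendsto_pi_nhds.2 fun k => hb _ ((((continuous_apply k).comp continuous_snd).tendsto _).comp hz)⟩
    simpa using this.const_add (u t)
  rw [hasDerivWithinAt_iff_tendsto_slope]
  refine (((cont_GD m T K).tendsto (u t, u')).comp (hm'.prodMk_nhds hs)).congr' ?_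
  filter_upwards [nhdsWithin_mono _ sdiff_subset h] with t' ht'
  simp only [Function.comp, GD_smul, slope_def_field, ← e t' ht', div_eq_inv_mul]

end gen

/-! ### abstract models -/

/-- value at the root, increments above -/
def inc (g0 : ℝ) (g : ℕ → ℝ) (N : ℕ) : ℕ → ℝ
  | 0 => g0
  | k + 1 => g (min (k + 1) N) - g (min k N)

theorem sum_inc (g0 : ℝ) (g : ℕ → ℝ) {N j : ℕ} (hj : j ≤ N) :
    ∑ k ∈ Finset.range (j + 1), inc g0 g N k = g0 + g j - g 0 := by
  induction j with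
  | zero => simp [inc]
  | succ j ih =>
    rw [Finset.sum_range_succ, ih (by omega), inc, min_eq_left hj, min_eq_left (by omega)]
    ring

/-- tilts of the cascade -/
def tz (a : ℝ) (z : ℕ → ℝ) : ℕ → ℝ
  | 0 => a
  | k + 1 => z k

/-- the variances of a model -/
def dat (M : Md) : Dt := (inc (M.d 0) M.d M.N, inc 0 M.H M.N)

theorem L_eq (M : Md) (m : ℕ) (a : ℝ) : M.L m a = MC m (tz a M.z) (M.N + 1) (dat M) := by
  rw [MC, List.ofFn_succ, Md.L, Md.Mx, List.map_cons, Md.Mu, List.map_ofFn]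
  congr 2
  funext k
  simp only [Function.comp, Fin.val_succ, tz, dat, inc, min_eq_left k.2.le,
    min_eq_left (Nat.succ_le_of_lt k.2)]

/-- the increments are nonnegative -/
def Inc (M : Md) : Prop :=
  0 ≤ M.d 0 ∧ ∀ k < M.N, M.d k ≤ M.d (k + 1) ∧ M.H k ≤ M.H (k + 1)

theorem inc_of_leg {M : Md} {x : ℝ} (h : M.Leg x) : Inc M :=
  ⟨h.d0, fun k _ => ⟨h.dm k.le_succ, h.Hm k.le_succ⟩⟩

theorem Inc.cone {M : Md} (h : Inc M) : Cone (M.N + 1) (dat M) := fun k hk => by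
  cases k with
  | zero => exact ⟨h.1, le_rfl⟩
  | succ k =>
    have hk' : k < M.N := by omega
    simp only [dat, inc, min_eq_left hk'.le, min_eq_left (Nat.succ_le_of_lt hk'), sub_nonneg]
    exact h.2 k hk'

/-- the derivative of `V` in the direction `(d', H')` -/
def DV (M : Md) (m : ℕ) (a : ℝ) (d' H' : ℕ → ℝ) : ℝ :=
  m * (d' M.N / 4 + H' M.N / 2 - ∑ k ∈ Finset.range (M.N + 1),
    M.dz m a k * (d' k / 4 * M.E2 m a (fun r => r ^ 2) k + H' k / 2 * M.rb m a k))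

theorem GD_eq (M : Md) (m : ℕ) (a : ℝ) {d' H' : ℕ → ℝ} (h0 : H' 0 = 0) :
    GD m (tz a M.z) (M.N + 1) (dat M) (inc (d' 0) d' M.N, inc 0 H' M.N) = DV M m a d' H' := by
  rw [GD, DV, Finset.sum_range_succ' _ (M.N + 1), ← L_eq]
  simp only [sum_inc _ _ le_rfl, h0, Finset.range_zero, Finset.sum_empty, zero_div, zero_mul,
    add_zero, mul_zero, zero_add, sub_zero, add_sub_cancel_left]
  congr 2
  refine Finset.sum_congr rfl fun k hk => ?_
  rw [sum_inc _ _ (Nat.lt_succ_iff.1 (Finset.mem_range.1 hk)),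
    sum_inc _ _ (Nat.lt_succ_iff.1 (Finset.mem_range.1 hk)), h0, add_sub_cancel_left, zero_add,
    sub_zero]
  rfl

section fam
variable {N : ℕ} {z : ℕ → ℝ} {m : ℕ} {a : ℝ}

theorem L_fam {E : Type} {M : E → Md} (hN : ∀ t, (M t).N = N) (hz : ∀ t, (M t).z = z) (t : E) :
    (M t).L m a = MC m (tz a z) (N + 1) (inc ((M t).d 0) (M t).d N, inc 0 (M t).H N) := by
  rw [L_eq, dat, hN, hz]

theorem inc_der {g : ℝ → ℕ → ℝ} {g0 : ℝ → ℝ} {g' : ℕ → ℝ} {g0' : ℝ} {S : Set ℝ} {t : ℝ}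
    (h0 : HasDerivWithinAt g0 g0' S t) (h : ∀ k ≤ N, HasDerivWithinAt (fun t => g t k) (g' k) S t)
    (k : ℕ) : HasDerivWithinAt (fun t => inc (g0 t) (g t) N k) (inc g0' g' N k) S t := by
  cases k with
  | zero => exact h0
  | succ k => exact (h _ (min_le_right _ _)).fun_sub (h _ (min_le_right _ _))

theorem inc_cont {E : Type} [TopologicalSpace E] {g : E → ℕ → ℝ} {g0 : E → ℝ} {S : Set E}
    (h0 : ContinuousOn g0 S) (h : ∀ k ≤ N, ContinuousOn (fun t => g t k) S) :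
    ContinuousOn (fun t => inc (g0 t) (g t) N) S := continuousOn_pi.2 fun k => by
  cases k with
  | zero => exact h0
  | succ k => exact (h _ (min_le_right _ _)).sub (h _ (min_le_right _ _))

/-- **exact derivative of `V` along a family with fixed tilts** -/
theorem V_der (hm : 0 < m) {M : ℝ → Md} (hN : ∀ t, (M t).N = N) (hz : ∀ t, (M t).z = z)
    {S : Set ℝ} {t : ℝ} {d' H' : ℕ → ℝ}
    (hd : ∀ k ≤ N, HasDerivWithinAt (fun t => (M t).d k) (d' k) S t)
    (hH : ∀ k ≤ N, HasDerivWithinAt (fun t => (M t).H k) (H' k) S t) (h0 : H' 0 = 0)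
    (hi : Inc (M t)) (hI : ∀ᶠ t' in 𝓝[S] t, Inc (M t')) :
    HasDerivWithinAt (fun t => (M t).V m a) (DV (M t) m a d' H') S t := by
  have := MC_der (tz a z) (K := N + 1) hm
    (u := fun t => (inc ((M t).d 0) (M t).d N, inc 0 (M t).H N))
    (u' := (inc (d' 0) d' N, inc 0 H' N)) (inc_der (hd 0 N.zero_le) hd)
    (inc_der (hasDerivWithinAt_const _ _ _) hH) (by simpa only [dat, hN] using hi.cone)
    (hI.mono fun t' h => by simpa only [dat, hN] using h.cone)
  simp only [← L_fam hN hz] at this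
  refine this.congr_deriv ?_
  rw [← GD_eq _ _ _ h0, dat, hN, hz]

theorem V_cont {E : Type} [TopologicalSpace E] {M : E → Md} (hN : ∀ t, (M t).N = N)
    (hz : ∀ t, (M t).z = z) {S : Set E} (hd : ∀ k ≤ N, ContinuousOn (fun t => (M t).d k) S)
    (hH : ∀ k ≤ N, ContinuousOn (fun t => (M t).H k) S) :
    ContinuousOn (fun t => (M t).V m a) S := by
  simpa only [Function.comp_def, ← L_fam hN hz, Md.V] using
    (cont_X m (tz a z) (N + 1)).comp_continuousOn
      ((inc_cont (hd 0 N.zero_le) hd).prodMk (inc_cont (g0 := fun _ => 0) continuousOn_const hH))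

theorem pi2_cont {E : Type} [TopologicalSpace E] {M : E → Md} (hN : ∀ t, (M t).N = N)
    (hz : ∀ t, (M t).z = z) {S : Set E} (hd : ∀ k ≤ N, ContinuousOn (fun t => (M t).d k) S)
    (hH : ∀ k ≤ N, ContinuousOn (fun t => (M t).H k) S) (j : ℕ) (Q : Cube m → Cube m → ℝ) :
    ContinuousOn (fun t => pi2 (fun _ => 1) ((M t).L m a) j Q 0) S := by
  simpa only [Function.comp_def, ← L_fam hN hz] using
    (cont_pi2 m (tz a z) (N + 1) j Q).comp_continuousOn
      ((inc_cont (hd 0 N.zero_le) hd).prodMk (inc_cont (g0 := fun _ => 0) continuousOn_const hH))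

theorem E2_cont {E : Type} [TopologicalSpace E] {M : E → Md} (hN : ∀ t, (M t).N = N)
    (hz : ∀ t, (M t).z = z) {S : Set E} (hd : ∀ k ≤ N, ContinuousOn (fun t => (M t).d k) S)
    (hH : ∀ k ≤ N, ContinuousOn (fun t => (M t).H k) S) (f : ℝ → ℝ) (k : ℕ) :
    ContinuousOn (fun t => (M t).E2 m a f k) S := pi2_cont hN hz hd hH _ _

/-- `dz` depends only on the tilts -/
theorem dz_free {M M' : Md} (hN : M.N = M'.N) (hz : M.z = M'.z) (k : ℕ) :
    M.dz m a k = M'.dz m a k := by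
  rw [Md.dz, Md.dz, L_eq, L_eq, hN, hz]
  exact Cav22.dm_tilt (tilt_MC _ _ _ _ _) 0 _

theorem dz_root (M : Md) (a a' : ℝ) (k : ℕ) : M.dz m a' (k + 1) = M.dz m a (k + 1) := rfl

/-- **mean value form for the difference of two root tilts** -/
theorem V_mvt (hm : 0 < m) {M : ℝ → Md} (hN : ∀ t, (M t).N = N) (hz : ∀ t, (M t).z = z)
    {d' H' : ℝ → ℕ → ℝ} {t0 t1 : ℝ} (h01 : t0 < t1) (a a' : ℝ)
    (cd : ∀ k ≤ N, ContinuousOn (fun t => (M t).d k) (Icc t0 t1))
    (cH : ∀ k ≤ N, ContinuousOn (fun t => (M t).H k) (Icc t0 t1))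
    (hd : ∀ t ∈ Ioo t0 t1, ∀ k ≤ N, HasDerivAt (fun t => (M t).d k) (d' t k) t)
    (hH : ∀ t ∈ Ioo t0 t1, ∀ k ≤ N, HasDerivAt (fun t => (M t).H k) (H' t k) t)
    (h0 : ∀ t, H' t 0 = 0) (hI : ∀ t ∈ Ioo t0 t1, Inc (M t)) :
    ∃ t ∈ Ioo t0 t1, (M t1).V m a' - (M t1).V m a - ((M t0).V m a' - (M t0).V m a) =
      (t1 - t0) * (DV (M t) m a' (d' t) (H' t) - DV (M t) m a (d' t) (H' t)) := by
  have hD : ∀ a, ∀ t ∈ Ioo t0 t1, HasDerivAt (fun t => (M t).V m a)
      (DV (M t) m a (d' t) (H' t)) t := fun a t ht =>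
    hasDerivWithinAt_univ.1 (V_der hm hN hz (fun k hk => (hd t ht k hk).hasDerivWithinAt)
      (fun k hk => (hH t ht k hk).hasDerivWithinAt) (h0 t) (hI t ht)
      (nhdsWithin_le_nhds (Ioo_mem_nhds ht.1 ht.2) |> fun h => eventually_of_mem h hI))
  obtain ⟨t, ht, e⟩ := exists_hasDerivAt_eq_slope (fun t => (M t).V m a' - (M t).V m a) _ h01
    ((V_cont hN hz cd cH).sub (V_cont hN hz cd cH)) fun t ht => (hD a' t ht).fun_sub (hD a t ht)
  refine ⟨t, ht, ?_⟩
  rw [e, mul_div_cancel₀ _ (sub_pos.2 h01).ne']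

end fam

section ref
variable (M : Md) {m : ℕ}

/-- `E R² = E (R - g)² + 2 g E R - g²` -/
theorem E2_sq (a g : ℝ) (k : ℕ) : M.E2 m a (fun r => r ^ 2) k =
    M.E2 m a (fun r => (r - g) ^ 2) k + 2 * g * M.rb m a k - g ^ 2 := by
  simp only [Md.E2, Md.rb, id]
  rw [← pi2_const_mul, ← pi2_add Link33.wt1, ← pi2_const Link33.wt1 (M.L m a) (k + 1) (g ^ 2) 0,
    ← pi2_sub Link33.wt1]
  congr 1
  funext x x'
  ring

/-- `DV` around any reference `g` -/
theorem DV_ref (a : ℝ) (d' H' g : ℕ → ℝ) : DV M m a d' H' =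
    m * (d' M.N / 4 + H' M.N / 2 - ∑ k ∈ Finset.range (M.N + 1), M.dz m a k *
      (d' k / 4 * M.E2 m a (fun r => (r - g k) ^ 2) k + (d' k * g k + H' k) / 2 * (M.rb m a k - g k) +
        (d' k / 4 * g k ^ 2 + H' k / 2 * g k))) := by
  rw [DV]
  congr 2
  exact Finset.sum_congr rfl fun k _ => by
    rw [E2_sq M a (g k) k]
    ring

/-- **the part of `DV` that depends on the root tilt** (`g` any reference; the root term is
`dz 0 d' 0 E R² / 4`) -/
theorem DV_sub (a a' : ℝ) {d' H' : ℕ → ℝ} (g : ℕ → ℝ) (hH : H' 0 = 0) :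
    DV M m a' d' H' - DV M m a d' H' = -(m * (d' 0 / 4 *
      (M.dz m a' 0 * M.E2 m a' (fun r => r ^ 2) 0 - M.dz m a 0 * M.E2 m a (fun r => r ^ 2) 0) +
      ∑ k ∈ Finset.range M.N, M.dz m a (k + 1) * (d' (k + 1) / 4 *
        (M.E2 m a' (fun r => (r - g (k + 1)) ^ 2) (k + 1) -
          M.E2 m a (fun r => (r - g (k + 1)) ^ 2) (k + 1)) +
        (d' (k + 1) * g (k + 1) + H' (k + 1)) / 2 * (M.rb m a' (k + 1) - M.rb m a (k + 1))))) := by
  rw [DV, DV, Finset.sum_range_succ', Finset.sum_range_succ', hH]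
  have e : ∑ k ∈ Finset.range M.N, M.dz m a (k + 1) * (d' (k + 1) / 4 *
        (M.E2 m a' (fun r => (r - g (k + 1)) ^ 2) (k + 1) -
          M.E2 m a (fun r => (r - g (k + 1)) ^ 2) (k + 1)) +
        (d' (k + 1) * g (k + 1) + H' (k + 1)) / 2 * (M.rb m a' (k + 1) - M.rb m a (k + 1))) =
      ∑ k ∈ Finset.range M.N, M.dz m a' (k + 1) * (d' (k + 1) / 4 *
        M.E2 m a' (fun r => r ^ 2) (k + 1) + H' (k + 1) / 2 * M.rb m a' (k + 1)) -
      ∑ k ∈ Finset.range M.N, M.dz m a (k + 1) * (d' (k + 1) / 4 *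
        M.E2 m a (fun r => r ^ 2) (k + 1) + H' (k + 1) / 2 * M.rb m a (k + 1)) := by
    rw [← Finset.sum_sub_distrib]
    refine Finset.sum_congr rfl fun k _ => ?_
    rw [E2_sq M a (g (k + 1)), E2_sq M a' (g (k + 1)), dz_root M a a']
    ring
  rw [e]
  ring

theorem cacc_L (hm : 0 < m) (h : Inc M) (a : ℝ) {k : ℕ} (hk : k ≤ M.N) (x y : Cube m) :
    cacc (M.L m a) (k + 1) x y = m * (M.d k * ov x y ^ 2 / 2 + (M.H k - M.H 0) * ov x y) := by
  induction k with
  | zero =>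
    simp only [cacc, Md.L, Md.Mx, List.map_cons, List.take_succ_cons, List.take_zero, List.map_nil,
      List.sum_cons, List.sum_nil]
    rw [mxL_cov hm 1 h.1 le_rfl]
    ring
  | succ k ih =>
    have hl : k + 1 < (M.L m a).length := by simp [Md.L, Md.Mx, Md.Mu]; omega
    have e : (M.L m a)[k + 1] = mxL m 1 (M.z k, M.d (k + 1) - M.d k, M.H (k + 1) - M.H k) := by
      simp [Md.L, Md.Mx, Md.Mu]
    have ih' := ih (by omega)
    rw [cacc] at ih' ⊢
    rw [List.take_add_one, List.map_append, List.sum_append, ih', List.getElem?_eq_getElem hl, e]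
    simp only [Option.toList_some, List.map_cons, List.map_nil, List.sum_cons, List.sum_nil]
    rw [mxL_cov hm 1 (sub_nonneg.2 (h.2 k hk).1) (sub_nonneg.2 (h.2 k hk).2)]
    ring

end ref

end Crest.Agent.T156.Alt.Md77

end
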