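import Crest.Agent.T156.SprLgD_59
import Crest.Agent.T156.MdDer_77
import Crest.Agent.T156.MdDic_67
import Crest.Agent.T156.PlEx_13

/-!
# Row 156 (helper16): the absolute steps `C1T`, `C3S` of stage C
-/

set_option autoImplicit false

noncomputable section

namespace Crest.Agent.T156.Alt

open Real Set Filter Topology

namespace SprC16

/-- segment in the field -/
def sg (M M' : Md) (t : ℝ) : Md := { M with H := fun k => M.H k + t * (M'.H k - M.H k) }

theorem V_congr {M M' : Md} (hN : M'.N = M.N) (hz : M'.z = M.z) (hd : M'.d = M.d)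
    (hH : M'.H = M.H) (m : ℕ) (a : ℝ) : M'.V m a = M.V m a := by
  obtain ⟨N, z, d, H, l, s, c⟩ := M
  obtain ⟨N', z', d', H', l', s', c'⟩ := M'
  simp only at hN hz hd hH
  subst hN hz hd hH
  rfl

theorem leg_sg {M M' : Md} {x t : ℝ} (h : M.Leg x) (h' : M'.Leg x) (ht : t ∈ Icc (0 : ℝ) 1) :
    (sg M M' t).Leg x :=
  ⟨h.zm, h.z0, h.z1, h.zN, h.d0, h.dm, by simp [sg, h.H0, h'.H0], fun i j hij => by
    have a := h.Hm hij
    have b := h'.Hm hij
    simp only [sg]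
    nlinarith [ht.1, ht.2]⟩

/-- **the link between two models with the same tilts and `W` variances, absolute form** -/
theorem lnk_H {M M' : Md} {x : ℝ} (h : M.Leg x) (h' : M'.Leg x) (hN : M'.N = M.N)
    (hz : M'.z = M.z) (hd : M'.d = M.d) {m : ℕ} (hm : 0 < m) (a a' : ℝ) :
    |M'.V m a' - M'.V m a - (M.V m a' - M.V m a)| ≤
      m / 2 * ∑ k ∈ Finset.range M.N, (M.z (k + 1) - M.z k) * |M'.H (k + 1) - M.H (k + 1)| := by
  obtain ⟨t, ht, e⟩ := Md77.V_mvt (M := sg M M') (N := M.N) (z := M.z) hm (fun _ => rfl)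
    (fun _ => rfl) (d' := fun _ _ => 0) (H' := fun _ k => M'.H k - M.H k) one_pos a a'
    (fun k _ => continuousOn_const) (fun k _ => by simp only [sg]; fun_prop)
    (fun t _ k _ => hasDerivAt_const _ _)
    (fun t _ k _ => by
      simpa [sg] using ((hasDerivAt_id t).mul_const (M'.H k - M.H k)).const_add (M.H k))
    (fun _ => by rw [h.H0, h'.H0, sub_self])
    fun t ht => Md77.inc_of_leg (leg_sg h h' (Ioo_subset_Icc_self ht))
  have e1 : ∀ b, (sg M M' 1).V m b = M'.V m b := fun b =>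
    V_congr (M := M') (M' := sg M M' 1) hN.symm hz.symm hd.symm (by funext k; simp [sg]) m b
  have e0 : ∀ b, (sg M M' 0).V m b = M.V m b := fun b =>
    V_congr (M := M) (M' := sg M M' 0) rfl rfl rfl (by funext k; simp [sg]) m b
  have L := leg_sg h h' (Ioo_subset_Icc_self ht)
  rw [e1, e1, e0, e0, Md77.DV_sub _ a a' (fun _ => 0) (by rw [h.H0, h'.H0, sub_self])] at e
  rw [e, sub_zero, one_mul, abs_neg, abs_mul, Nat.abs_cast, zero_div, zero_mul, zero_add,
    div_eq_mul_inv (m : ℝ), mul_assoc, Finset.mul_sum]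
  refine mul_le_mul_of_nonneg_left ((Finset.abs_sum_le_sum_abs _ _).trans
    (Finset.sum_le_sum fun k _ => ?_)) m.cast_nonneg
  have z0 : 0 ≤ M.z (k + 1) - M.z k := sub_nonneg.2 (h.zm k.le_succ)
  rw [Md67.dz_succ L, abs_mul]
  simp only [zero_mul, zero_add]
  rw [show (sg M M' t).z = M.z from rfl, abs_of_nonneg z0, abs_mul, abs_div, abs_two]
  have r : |(sg M M' t).rb m a' (k + 1) - (sg M M' t).rb m a (k + 1)| ≤ 1 :=
    abs_le.2 ⟨by linarith [Md67.rb_nonneg (M := sg M M' t) (a := a') hm (k + 1),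
      Md67.rb_le_one (M := sg M M' t) (a := a) hm (k + 1)],
      by linarith [Md67.rb_nonneg (M := sg M M' t) (a := a) hm (k + 1),
      Md67.rb_le_one (M := sg M M' t) (a := a') hm (k + 1)]⟩
  have := mul_le_mul_of_nonneg_left r (mul_nonneg z0 (abs_nonneg (M'.H (k + 1) - M.H (k + 1))))
  linarith

/-- a two point stage -/
theorem go_H {δ : ℝ} {p : Pm} {M M' : Md} (h : M.Leg p.am) (h' : M'.Leg p.am) (hN : M'.N = M.N)
    (hz : M'.z = M.z) (hd : M'.d = M.d) (hb : M.d 0 ≤ p.β ^ 2) (hn : 0 < p.n) (hs : 0 ≤ p.s)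
    (hδ : 0 ≤ δ)
    (hB : p.n * ∑ k ∈ Finset.range M.N, (M.z (k + 1) - M.z k) * |M'.H (k + 1) - M.H (k + 1)| ≤
      δ * (p.n : ℝ) ^ ((1 : ℝ) / 6) * p.s ^ 5) : Go δ p M M' := by
  refine ⟨{M, M'}, ⟨by simp, fun K hK => ?_, fun a a' Q _ hQ _ m m1 m2 K hK => ?_⟩, by simp⟩
  · rcases hK with rfl | rfl
    exacts [⟨h, hb⟩, ⟨h', hd ▸ hb⟩]
  · rcases hK with rfl | rfl
    · rw [sub_self, abs_zero]; positivity
    · refine (lnk_H h h' hN hz hd (hn.trans_le m1) a a').trans ?_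
      have s0 : 0 ≤ ∑ k ∈ Finset.range M.N,
          (M.z (k + 1) - M.z k) * |K.H (k + 1) - M.H (k + 1)| := Finset.sum_nonneg fun k _ =>
        mul_nonneg (sub_nonneg.2 (h.zm k.le_succ)) (abs_nonneg _)
      have m3 : (m : ℝ) / 2 ≤ p.n := by
        have : (m : ℝ) ≤ 2 * p.n := by exact_mod_cast m2
        linarith
      refine ((mul_le_mul_of_nonneg_right m3 s0).trans hB).trans ?_
      have : 0 ≤ Q * p.s ^ 2 := by positivity
      exact mul_le_mul_of_nonneg_left (by linarith) (by positivity)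

/-- sup form -/
theorem sum_le {M : Md} {x B : ℝ} (h : M.Leg x) (hx : 0 ≤ x) (hB : 0 ≤ B) {g : ℕ → ℝ}
    (hg : ∀ k < M.N, M.z k < M.z (k + 1) → g (k + 1) ≤ B) :
    ∑ k ∈ Finset.range M.N, (M.z (k + 1) - M.z k) * g (k + 1) ≤ B := by
  refine (Finset.sum_le_sum (g := fun k => (M.z (k + 1) - M.z k) * B) fun k hk => ?_).trans ?_
  · rcases (h.zm k.le_succ).eq_or_lt with e | e
    · rw [show M.z (k + 1) = M.z k from e.symm, sub_self, zero_mul, zero_mul]
    · exact mul_le_mul_of_nonneg_left (hg k (Finset.mem_range.1 hk) e) (sub_nonneg.2 e.le)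
  · rw [← Finset.sum_mul, Finset.sum_range_sub, h.zN]
    nlinarith [h.z0]

theorem zP_top (p : Pm) (P : Pl) {k : ℕ} (hk : p.Jp P ≤ k) : p.zP P k = 1 := by
  unfold Pm.zP
  rw [if_neg (by unfold Pm.Jp at hk; omega), if_neg (by omega)]

theorem lt_Jp {p : Pm} {P : Pl} {jl k : ℕ}
    (h : p.zP P (max k jl) < p.zP P (max (k + 1) jl)) : jl ≤ k ∧ k < p.Jp P := by
  constructor
  · by_contra hk
    rw [max_eq_right (by omega), max_eq_right (by omega)] at h
    exact lt_irrefl _ h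
  · by_contra hk
    rw [zP_top p P (by omega), zP_top p P (by omega)] at h
    exact lt_irrefl _ h

end SprC16

open SprC16

/-- legality of the models of stage C -/
def LegC (g : ℝ) (_δ : ℝ) (p : Pm) : Prop :=
  p.b 1 p.ye ≤ p.β ^ 2 ∧
  (∀ α P, 0 < α → α ≤ 1 → p.AlOk g α P → (p.alM g P α).Leg p.am ∧ (p.alM g P 0).Leg p.am) ∧
  ∀ P, p.PlOk p.μe P → p.AlOk g 1 P → (p.c1M g P 1).Leg p.am

theorem c1T_at {g δ d : ℝ} {p : Pm} (L : LegC g d p) (hn : 0 < p.n) (hs : 0 ≤ p.s) (hδ : 0 ≤ δ) :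
    C1T g δ p := fun P hP hA => by
  refine go_H (L.2.2 P hP hA) (L.2.1 1 P one_pos le_rfl hA).1 rfl rfl rfl
    (by simpa [Pm.c1M, Pm.fam] using L.1) hn hs hδ ?_
  rw [Finset.sum_eq_zero, mul_zero]
  · positivity
  intro k _
  rcases ((L.2.2 P hP hA).zm k.le_succ).eq_or_lt with e | e
  · rw [show (p.c1M g P 1).z (k + 1) = (p.c1M g P 1).z k from e.symm, sub_self, zero_mul]
  · have := (lt_Jp e).2
    have e2 : (p.c1M g P 1).H (k + 1) = (p.alM g P 1).H (k + 1) := by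
      show p.HP P 1 p.ye (p.b 1 p.ye + 0) (k + 1) + 1 * ((p.alM g P 1).H (min (k + 1) (p.Jp P)) -
        (p.tst P p.ye).H (min (k + 1) (p.Jp P))) = _
      rw [min_eq_left (by omega)]
      have : (p.tst P p.ye).H (k + 1) = p.HP P 1 p.ye (p.b 1 p.ye + 0) (k + 1) + 0 := rfl
      rw [this]
      ring
    rw [e2, sub_self, abs_zero, mul_zero]

theorem c3S_at {g δ d : ℝ} {p : Pm} (L : LegC g d p) (N : Plt13.Nm p p.μe) (hn : 1 ≤ p.n)
    (hs : 1 ≤ p.s) (m0 : 0 ≤ p.μe) (m1 : p.μe ≤ 1) (hδ0 : 0 ≤ δ)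
    (hδ : 6 * log p.n ≤ δ * (p.n : ℝ) ^ ((1 : ℝ) / 6)) : C3S g δ p := fun α P a0 a1 hA => by
  have n1 : (1 : ℝ) ≤ p.n := by exact_mod_cast hn
  have a2 : α ≤ 1 := a1.trans (inv_le_one_of_one_le₀ n1)
  obtain ⟨l1, l0⟩ := L.2.1 α P a0 a2 hA
  have lg : 0 ≤ log (p.n : ℝ) := log_nonneg n1
  have am0 : 0 ≤ p.am := mul_nonneg (by linarith) (rpow_nonneg (by linarith) _)
  refine go_H l1 l0 rfl rfl rfl (by simpa [Pm.alM, Pm.tst, Pm.fam] using L.1) hn (by linarith) hδ0 ?_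
  have b := sum_le l1 am0 (B := α * (6 * log p.n)) (by positivity)
    (g := fun k => |(p.alM g P 0).H k - (p.alM g P α).H k|) fun k _ e => by
      obtain ⟨k1, k2⟩ := lt_Jp e
      have k3 : k < p.Jp P := k2
      have e1 : (p.alM g P 0).H (k + 1) - (p.alM g P α).H (k + 1) =
          -(α * (p.μe * p.rF p.μe (p.xP P (k + 1)))) := by
        have : ∀ β, (p.alM g P β).H (k + 1) = p.sP (p.alP g P 0) 1 p.ye (k + 1) -
            (p.b 1 p.ye + 0) * p.qP (p.alP g P 0) 1 p.ye (k + 1) +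
            β * (p.μe * p.rF p.μe (p.xP P (k + 1))) + 0 := fun β => by
          show p.HP (p.alP g P β) 1 p.ye (p.b 1 p.ye + 0) (k + 1) + 0 = _
          rw [Pm.HP, if_neg (by omega)]
          rfl
        rw [this, this]
        ring
      have x1 : p.xP P (k + 1) ≤ P.x P.I := by
        have h1 : p.xP P (k + 1) = (p.alM g P α).z k := by
          show p.zP P (min (k + 1) (p.Jp P) - 1) = p.zP P (max k p.jf)
          rw [min_eq_left (by omega), max_eq_left k1, Nat.add_sub_cancel]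
        have h2 : (p.alM g P α).z (p.Jp P - 1) = p.zP P (p.Jp P - 1) := by
          show p.zP P (max (p.Jp P - 1) p.jf) = _
          rw [max_eq_left (by omega)]
        rw [h1]
        refine (l1.zm (by omega : k ≤ p.Jp P - 1)).trans ?_
        rw [h2, Pm.zP]
        unfold Pm.Jp at k3 ⊢
        split_ifs with c1 c2
        · have : P.I = 0 := by omega
          rw [this, hA.x0, add_zero]
          rfl
        · rw [show p.J + P.I - 1 + 1 - p.J = P.I by omega]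
        · omega
      have r := N.abs_rF_log (x := p.xP P (k + 1)) (by linarith [hA.e3])
      simp only [e1]
      rw [abs_neg, abs_mul, abs_mul, abs_of_pos a0, abs_of_nonneg m0]
      refine mul_le_mul_of_nonneg_left ?_ a0.le
      nlinarith [abs_nonneg (p.rF p.μe (p.xP P (k + 1)))]
  refine (mul_le_mul_of_nonneg_left b (by linarith)).trans ?_
  have c1 : (p.n : ℝ) * α ≤ 1 := by
    have := mul_le_mul_of_nonneg_left a1 (by linarith : (0 : ℝ) ≤ p.n)
    rwa [mul_inv_cancel₀ (by linarith)] at this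
  have c2 : 1 ≤ p.s ^ 5 := one_le_pow₀ hs
  have c3 : 0 ≤ δ * (p.n : ℝ) ^ ((1 : ℝ) / 6) := by positivity
  nlinarith

theorem nmE {β : ℝ} (hβ : 1 < β) : Gain β fun _ p => Plt13.Nm p p.μe :=
  Gain.introF (Par.intro' 2 one_pos fun c0 C0 _ _ h0 h1 _ _ _ => by
    obtain ⟨K, c2, hc, H⟩ := Plt13.fin_nm hβ c0 C0 h0 h1
    refine ⟨1, one_pos, 1, one_pos, K, fun p _ _ h => (H p h).2 _ ?_ ?_⟩
    · obtain ⟨a, b, c⟩ := Plt13.y1_facts h
      refine a.trans ?_
      unfold Pm.μe Pm.μ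
      exact mul_le_mul_of_nonneg_left (pow_le_pow_left₀ (h.r_pos.le.trans c) b 2)
        (by rw [one_mul]; exact h.κ_pos.le)
    · unfold Pm.μe Pm.μ Pm.ye
      have k0 := h.κ_pos
      have k1 : p.κ ≤ 1 := h.κ_le_one
      rw [one_mul]
      exact mul_le_of_le_one_right k0.le (pow_le_one₀ (by positivity) (pow_le_one₀ k0.le k1)))

theorem LegA.legC {g d : ℝ} {p : Pm} (L : LegA g d p) (hs : 0 < p.s) : LegC g d p := by
  have a : p.am ≤ 2 * p.am := by
    have : 0 ≤ p.am := mul_nonneg hs.le (rpow_nonneg p.n.cast_nonneg _)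
    linarith
  exact ⟨L.1.2, fun α P a0 a1 h => ⟨Md67.Leg_mono (L.2.1 α P a0.le a1 h.toFine).1 a,
    Md67.Leg_mono (L.2.1 0 P le_rfl zero_le_one h.toFine).1 a⟩,
    fun P h _ => Md67.Leg_mono ((L.2.2 P h).2.2 1 ⟨zero_le_one, le_rfl⟩).1 a⟩

/-- **`C1T` from legality** -/
theorem c1T_of {β g : ℝ} (hβ : 1 < β) (hL : Sml β (LegA g)) : Gain β (C1T g) := by
  refine Sml.gain (Sml.glue' hβ hL 2 one_pos 1 ?_)
  intro c0 C0 A c η _ _ _ _
  exact ⟨1, fun p H _ _ _ L => c1T_at (L.legC H.s0) H.n0 H.s0.le (inv_nonneg.2 H.Λ0.le)⟩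

/-- **`C3S` from legality** -/
theorem c3S_of {β g : ℝ} (hβ : 1 < β) (hL : Sml β (LegA g)) : Gain β (C3S g) := by
  refine Sml.gain (Sml.glue' hβ (hL.and
    ((nmE hβ).sml 1 fun _ _ _ _ _ H => H)) 2 one_pos 1 ?_)
  intro c0 C0 A c η _ _ _ _
  refine ⟨1, fun p H _ _ _ ⟨L, N⟩ => c3S_at (L.legC H.s0) N H.n1 H.ok.s1 ?_ ?_ (inv_nonneg.2 H.Λ0.le) ?_⟩
  · exact mul_nonneg (mul_nonneg zero_le_one H.κ0.le) (sq_nonneg _)
  · unfold Pm.μe Pm.μ
    rw [one_mul]
    exact mul_le_one₀ H.κ1 (sq_nonneg _) (pow_le_one₀ H.ye0.le H.ye1)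
  · rw [← div_eq_inv_mul, le_div_iff₀ H.Λ0]
    have a : 6 * log (p.n : ℝ) ≤ (p.n : ℝ) ^ η * (p.n : ℝ) ^ η :=
      mul_le_mul (by linarith [H.num_le]) H.log_le (by linarith [H.log1]) H.Λ0.le
    refine (mul_le_mul_of_nonneg_right a H.Λ0.le).trans ?_
    rw [← rpow_add H.N0, ← rpow_add H.N0]
    exact Pre29.rp_le H.n1 (by linarith [H.η_le, H.c_le])

end Crest.Agent.T156.Alt

end
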