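import Crest.Agent.T156.SprT_59
import Crest.Agent.T156.SprC_16
import Crest.Agent.T156.SprC2_11
import Crest.Agent.T156.AlEx_13

/-!
# Row 156 (helper59): stage C from the first segment and one location input
-/

set_option autoImplicit false

noncomputable section

namespace Crest.Agent.T156.Alt

theorem sprS_red {β : ℝ} (hβ : 1 < β) (h1 : Gain β (C1S (7 / 20)))
    (h2 : Loss β (SprL2 (7 / 20))) : Gain β (SprS (7 / 20)) :=
  have L := legA hβ (le_refl (7 / 20 : ℝ))
  sprS_of hβ (alEx hβ (by norm_num) (by norm_num)) h1 (c1T_of hβ L) (C2s11.c2S_of hβ L h2)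
    (c3S_of hβ L) (c2T hβ le_rfl)

end Crest.Agent.T156.Alt

end
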