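import Crest.Agent.T156.SwM_2
import Crest.Agent.T156.AltMem_37
import Crest.Agent.T156.SprDef_59
import Crest.Agent.T156.CostP_41

/-!
# Row 156: the switch of the static field on the graded path (helper2)
-/

set_option autoImplicit false
set_option linter.unusedSectionVars false

noncomputable section

namespace Crest.Agent.T156.Alt

open Real Set Crest.Agent.T157.Nm

/-- membership data of the mixed members -/
def MemSw (K : ℝ) (p : Pm) : Prop := ∀ σ σ' P P' t, p.OctR σ σ' → p.PlG (p.muG σ) P →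
  p.PlG (p.muG σ') P' → t ∈ Icc (0 : ℝ) 1 → ∃ c0 C0 η Y den g2 u0 ue,
    MemD K c0 C0 η Y p (P.mix P' t) (p.omG σ') p.jf (p.bG σ') 0 (p.msG σ') den g2 u0 ue

/-- location input of the switch (loss form) -/
def SwL (Λ : ℝ) (p : Pm) : Prop := ∀ σ σ' P P' t, p.OctR σ σ' → p.PlG (p.muG σ) P →
  p.PlG (p.muG σ') P' → t ∈ Icc (0 : ℝ) 1 → ∀ m a, p.InW m a →
    p.tw P (p.gst (P.mix P' t) σ') m a ≤ Λ * p.s ^ 8 * (p.n : ℝ) ^ (-(2 : ℝ) / 3) / p.muG σ'

/-- `∫ (rb - q)² dx` on the nodes with label `≥ xs / 2` and time `≥ J v / 64` -/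
def Pm.tw2 (p : Pm) (P : Pl) (M : Md) (m : ℕ) (a : ℝ) : ℝ :=
  ∑ k ∈ (Finset.Ioc p.jf (p.Jp P)).filter fun k => p.xs / 2 ≤ M.z (k - 1) ∧ p.J * p.v / 64 ≤ M.s k,
    (M.z k - M.z (k - 1)) * (M.rb m a k - M.q k) ^ 2

/-- the weakest form of the location input -/
def SwLo (Λ : ℝ) (p : Pm) : Prop := ∀ σ σ' P P' t, p.OctR σ σ' → p.PlG (p.muG σ) P →
  p.PlG (p.muG σ') P' → t ∈ Icc (0 : ℝ) 1 → ∀ m a, p.InW m a →
    p.tw2 P (p.gst (P.mix P' t) σ') m a ≤ Λ * p.s ^ 8 * (p.n : ℝ) ^ (-(2 : ℝ) / 3) / p.muG σ'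

theorem Pm.tw2_le {p : Pm} {P : Pl} {M : Md} (h : Monotone M.z) (m : ℕ) (a : ℝ) :
    p.tw2 P M m a ≤ p.tw P M m a :=
  Finset.sum_le_sum_of_subset_of_nonneg (fun _ hk => Finset.mem_filter.2
    ⟨(Finset.mem_filter.1 hk).1, (Finset.mem_filter.1 hk).2.1⟩) fun k _ _ =>
      mul_nonneg (sub_nonneg.2 (h (Nat.sub_le k 1))) (sq_nonneg _)

namespace Sw2

open Mem37 Cost41 Plt13 Md67

/-- the start of the located window -/
structure J2 (p : Pm) (K : ℝ) (s : ℕ → ℝ) (j1 j2 : ℕ) : Prop where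
  le : j1 ≤ j2
  lt : j2 ≤ p.J - 1
  xs : 1 / (4 * K ^ 2) ≤ p.xs - p.z j2
  s : p.J * p.v / 64 ≤ s j2

/-- the first node above `xs / 2` -/
structure J1 (p : Pm) (j1 : ℕ) : Prop where
  hi : p.xs / 2 ≤ p.z j1
  lo : ∀ k < j1, p.z k < p.xs / 2

theorem ex_j1 {p : Pm} (h : 0 ≤ p.xs) : ∃ j1, J1 p j1 := by
  classical
  have e : ∃ k, p.xs / 2 ≤ p.z k := ⟨p.J - 1, by unfold Pm.xs at *; linarith⟩
  exact ⟨Nat.find e, Nat.find_spec e, fun k hk => not_le.1 (Nat.find_min e hk)⟩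

section core

variable {K c0 C0 η Y g2 w0 ue b θ ν : ℝ} {p : Pm} {Q : Pl} {om : ℕ → ℝ} {ms den : ℝ → ℝ}
  {j1 : ℕ} (h : MemD K c0 C0 η Y p Q om p.jf b 0 ms den g2 w0 ue) (j : J1 p j1)
include h

theorem zM {k : ℕ} (hk : p.jf ≤ k) : (p.famO Q om p.jf b 0 0).z k = p.zP Q k :=
  congrArg (p.zP Q) (max_eq_left hk)

theorem z_lo {k : ℕ} (hk : p.jf ≤ k) (h2 : k < p.J) : (p.famO Q om p.jf b 0 0).z k = p.z k := by
  rw [zM h hk, zP_lo h2]

theorem z_x {i : ℕ} (hi : i ≤ Q.I) : (p.famO Q om p.jf b 0 0).z (p.J - 1 + i) = Q.x i := by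
  have := h.jlJ
  rw [zM h (by omega), show p.J - 1 + i = p.J + i - 1 by omega, h.geo.zP_x hi]

theorem step_lo {k : ℕ} (hk : k + 1 < p.J) :
    p.v ≤ K * (p.z (k + 1) - p.z k) ∧ p.z (k + 1) - p.z k ≤ K * p.v := by
  obtain ⟨a, c⟩ := h.geo.base.slo k hk
  unfold Pr.dm at a c
  have v := h.geo.v0
  have := mul_le_mul_of_nonneg_left a h.K0.le
  exact ⟨by nlinarith [h.cK], c.trans (mul_le_mul_of_nonneg_right h.CK v.le)⟩

theorem xs_lo : 1 / (2 * K) ≤ p.xs / 2 := by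
  have := h.atom.1
  rw [mul_comm, ← div_div]; linarith

include j

theorem j1_le : j1 ≤ p.J - 1 := by
  by_contra c
  have a : p.xs < p.xs / 2 := j.lo _ (not_le.1 c)
  linarith [h.xs0]

theorem jf_lt : p.jf < j1 := by
  by_contra c
  have a := h.geo.base.lab.mono (not_lt.1 c)
  have K1 := h.K1
  have b1 : 1 / (16 * K ^ 2) < 1 / (2 * K) :=
    one_div_lt_one_div_of_lt (by linarith) (by nlinarith)
  linarith [j.hi, h.zjl, xs_lo h]

theorem z_ge {i : ℕ} (hi : j1 ≤ i) : p.xs / 2 ≤ (p.famO Q om p.jf b 0 0).z i := by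
  have a := j1_le h j
  have c := jf_lt h j
  refine le_trans ?_ (h.cl.leg.zm hi)
  rw [z_lo h c.le (by omega)]; exact j.hi

theorem s_j1 (hv : 4 * K ^ 2 * p.v ≤ 1) : 1 / (8 * K ^ 2) ≤ p.sO Q om j1 := by
  have a := j1_le h j
  have J := h.geo.J0
  have K0 := h.K0
  have v := h.geo.v0
  have b1 := (h.geo.s_inc (Nat.zero_le j1) (by omega)).1
  have b2 := (h.geo.z_inc (Nat.zero_le j1) (by omega)).2
  have b3 := h.geo.base.z0.trans (mul_le_mul_of_nonneg_right h.CK v.le)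
  rw [h.geo.sP_zero] at b1
  simp only [Nat.cast_zero, sub_zero] at b1 b2
  have b4 : C0 * p.v * j1 ≤ K * p.v * j1 := by have := h.CK; gcongr
  have b5 := (xs_lo h).trans j.hi
  rw [div_le_iff₀ (by positivity)] at b5 ⊢
  have b6 : p.z j1 ≤ K * p.v + K * (2 * p.sO Q om j1) := by nlinarith
  nlinarith [mul_le_mul_of_nonneg_right b6 (show 0 ≤ 2 * K by positivity)]

theorem ex_j2 (hv : 8 * K ^ 2 * p.v ≤ 1) : ∃ j2, J2 p K (p.sO Q om) j1 j2 := by
  classical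
  have a := j1_le h j
  have c := jf_lt h j
  have J := h.geo.J0
  have K0 := h.K0
  have K1 := h.K1
  have v := h.geo.v0
  have i2 : 1 / (4 * K ^ 2) ≤ 1 / (4 * K) := one_div_le_one_div_of_le (by positivity) (by nlinarith)
  have a5 : 2 * K * p.v ≤ 1 / (4 * K) := by rw [le_div_iff₀ (by positivity)]; nlinarith
  have a4 : 1 / (2 * K) = 2 * (1 / (4 * K)) := by field_simp; norm_num
  have a6 : 0 < K * p.v := by positivity
  rcases le_or_gt (p.J * p.v / 64) (p.sO Q om j1) with b1 | b1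
  · refine ⟨j1, le_rfl, a, ?_, b1⟩
    obtain ⟨i, rfl⟩ : ∃ k, j1 = k + 1 := ⟨j1 - 1, by omega⟩
    linarith [(step_lo h (k := i) (by omega)).2, j.lo i (by omega), xs_lo h]
  have Jv : 0 ≤ p.J * p.v := by positivity
  have e : ∃ k, p.J * p.v / 64 ≤ p.sO Q om k := ⟨p.J, by rw [h.geo.sP_J]; linarith⟩
  have l1 : j1 < Nat.find e := not_le.1 fun x => by
    linarith [Nat.find_spec e, h.geo.sP_mono x]
  have l2 : Nat.find e ≤ p.J := Nat.find_min' e (by rw [h.geo.sP_J]; linarith)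
  have l3 := Nat.find_spec e
  have l4 := fun k => Nat.find_min e (m := k)
  obtain ⟨i, hi⟩ : ∃ k, Nat.find e = k + 1 := ⟨Nat.find e - 1, by omega⟩
  rw [hi] at l1 l2 l3 l4
  have l5 := not_le.1 (l4 i i.lt_succ_self)
  have l6 := (h.geo.s_inc (show i ≤ p.J by omega) le_rfl).2
  rw [h.geo.sP_J] at l6
  have l7 : 1 ≤ K * (p.J * p.v) := h.cK.trans (by
    rw [mul_comm c0]; exact mul_le_mul_of_nonneg_left h.geo.base.lo K0.le)
  have l8 : 1 / (2 * K) ≤ p.v * ((p.J : ℝ) - i) := by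
    rw [div_le_iff₀ (by positivity)]; nlinarith
  have l9 : 1 / (4 * K) ≤ p.v * ((p.J : ℝ) - i - 2) := by nlinarith
  have l10 : i + 2 ≤ p.J := by
    have : (0 : ℝ) < p.v * ((p.J : ℝ) - i - 2) := lt_of_lt_of_le (by positivity) l9
    have : (i : ℝ) + 2 < p.J := by linarith [(mul_pos_iff_of_pos_left v).1 this]
    exact_mod_cast this.le
  refine ⟨i + 1, l1.le, by omega, ?_, l3⟩
  have b2 := (h.geo.z_inc (show i + 1 ≤ p.J - 1 by omega) (by omega)).1
  rw [Nat.cast_sub J] at b2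
  push_cast at b2
  have b3 := mul_le_mul h.cK l9 (by positivity) (by linarith [h.cK])
  rw [div_le_iff₀ (by positivity)]
  rw [one_mul, div_le_iff₀ (by positivity)] at b3
  have b4 := mul_le_mul_of_nonneg_right b2 (show 0 ≤ 4 * K ^ 2 by positivity)
  unfold Pm.xs
  linarith

theorem flr (hv : 4 * K ^ 2 * p.v ≤ 1) (θ0 : 0 ≤ θ) (hθ : ∀ t, 1 / (8 * K ^ 2) ≤ t → θ ≤ ms t)
    {i : ℕ} (h1 : j1 ≤ i) (h2 : i < p.Jp Q) : θ * p.v / (16 * K ^ 3) ≤
      (p.famO Q om p.jf b 0 0).z i *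
        ((p.famO Q om p.jf b 0 0).H (i + 1) - (p.famO Q om p.jf b 0 0).H i) := by
  have K0 := h.K0
  have v := h.geo.v0
  have a := h.flr (k := i) (by have := jf_lt h j; omega) h2
  have c := hθ _ ((s_j1 h j hv).trans (h.geo.sP_mono h1))
  have d : θ * p.v / (8 * K ^ 2) ≤ ms (p.sO Q om i) * p.v / (8 * K ^ 2) := by gcongr
  have e := mul_le_mul ((xs_lo h).trans (z_ge h j h1)) (d.trans a) (by positivity)
    (le_trans (by positivity) ((xs_lo h).trans (z_ge h j h1)))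
  refine le_trans (le_of_eq ?_) (e.trans (le_of_eq ?_))
  · field_simp; ring
  · simp [Pm.famO]

/-- the top window -/
theorem tw_of (hv : 4 * K ^ 2 * p.v ≤ 1) (θ0 : 0 < θ) (hθ : ∀ t, 1 / (8 * K ^ 2) ≤ t → θ ≤ ms t)
    (N : Nm p ν) (vn : K * p.v ≤ 1 / p.n) (G : Shg p ν Q.x Q.I)
    (e2 : 1 - Q.x Q.I ≤ (p.n : ℝ) ^ (-(2 : ℝ)))
    (st : ∀ i < Q.I, p.rF ν (Q.x (i + 1)) - p.rF ν (Q.x i) ≤ 2 * p.v) {j2 : ℕ}
    (j' : J2 p K (p.sO Q om) j1 j2) :
    Tw p ν (4 * K ^ 2) 1 (θ / (32 * K ^ 4)) (p.famO Q om p.jf b 0 0).z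
      (Phi (p.famO Q om p.jf b 0 0)) j2 (p.J - 1) (p.Jp Q - 1) := by
  have a' := j'.le
  have a'' := j'.lt
  have K0 := h.K0
  have K1 := h.K1
  have v := h.geo.v0
  have a := j1_le h j
  have c := jf_lt h j
  have J := h.geo.J0
  have eJ : p.Jp Q = p.J + Q.I := rfl
  have i4 : 1 / (4 * K ^ 2) ≤ 1 / K := one_div_le_one_div_of_le K0 (by nlinarith)
  have w : θ / (32 * K ^ 4) * (2 * K * p.v) = θ * p.v / (16 * K ^ 3) := by field_simp; norm_num
  have w0 : 0 ≤ θ / (32 * K ^ 4) := by positivity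
  refine ⟨N, by nlinarith, one_pos, le_rfl, by positivity, a'', by omega,
    by rw [z_lo h (by omega) (by omega)]; rfl, h.cl.leg.zm, ?_, fun i h1 h2 => ?_,
    shg_congr (by rw [show p.Jp Q - 1 - (p.J - 1) = Q.I by omega]; exact G) fun i hi =>
      z_x h (by omega), ?_, by linarith [h.atom.2], ?_, fun i h1 h2 => ?_, fun i h1 h2 => ?_⟩
  · rw [show (p.famO Q om p.jf b 0 0).z 0 = p.zP Q p.jf from congrArg (p.zP Q) (max_eq_right
      (Nat.zero_le _)), zP_lo (by omega)]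
    exact h.geo.base.lab.pos.le.trans (h.geo.base.lab.mono (Nat.zero_le _))
  · obtain ⟨i, rfl⟩ : ∃ k, i = k + 1 := ⟨i - 1, by omega⟩
    rw [Nat.add_sub_cancel, z_lo h (by omega) (by omega), z_lo h (by omega) (by omega)]
    linarith [(step_lo h (k := i) (by omega)).2, N.nl, N.l_le_u0]
  · rw [show p.Jp Q - 1 = p.J - 1 + Q.I by omega, z_x h le_rfl]
    refine e2.trans (le_trans (le_of_eq ?_) (pow_le_pow_left₀ (one_div_pos.2 N.np).le N.nl 2))
    rw [rpow_neg N.np.le, rpow_two, one_div, inv_pow]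
  · rw [z_lo h (by omega) (by omega)]; exact j'.xs
  · rw [Phi_succ]
    refine le_trans ?_ (flr h j hv θ0.le hθ (by omega) (by omega))
    rw [z_lo h (by omega) (by omega), z_lo h (by omega) (by omega), ← w]
    refine mul_le_mul_of_nonneg_left ?_ w0
    nlinarith [(step_lo h (k := i) (by omega)).2, mul_pos K0 v]
  · rw [Phi_succ]
    refine le_trans ?_ (flr h j hv θ0.le hθ (by omega) (by omega))
    obtain ⟨i, rfl⟩ := Nat.exists_eq_add_of_le h1
    rw [add_assoc (p.J - 1), z_x h (by omega), z_x h (by omega), mul_one, ← w]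
    refine mul_le_mul_of_nonneg_left ((st i (by omega)).trans ?_) w0
    nlinarith

/-- the location on the top window -/
theorem lc_of (g : Q.γ = 0) (N : Nm p ν) {m : ℕ} (hm : 0 < m) {a V : ℝ} (V0 : 0 ≤ V)
    (hV : p.tw2 Q (p.famO Q om p.jf b 0 0) m a ≤ V ^ 2) {j2 : ℕ}
    (j' : J2 p K (p.sO Q om) j1 j2) :
    Lc p ν (4 * K ^ 2) 1 V (p.famO Q om p.jf b 0 0).z (fun _ => 1) (p.famO Q om p.jf b 0 0).q
      ((p.famO Q om p.jf b 0 0).rb m a) j1 j2 (p.J - 1) (p.Jp Q - 1) := by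
  have a' := j'.le
  have a'' := j'.lt
  have K2 : K ≤ K ^ 2 := by nlinarith [h.K1]
  have K0 := h.K0
  have K1 := h.K1
  have v := h.geo.v0
  have a1 := j1_le h j
  have c := jf_lt h j
  have J := h.geo.J0
  have eJ : p.Jp Q = p.J + Q.I := rfl
  have inc : ∀ i k, i ≤ k → k ≤ p.Jp Q →
      0 ≤ (p.famO Q om p.jf b 0 0).q k - (p.famO Q om p.jf b 0 0).q i ∧
      (p.famO Q om p.jf b 0 0).q k - (p.famO Q om p.jf b 0 0).q i ≤ p.sO Q om k - p.sO Q om i :=
    fun i k h1 h2 => by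
      obtain ⟨-, x, y⟩ := h.inc (h.geo.sP_nn i) (h.geo.sP_mono h1) (h.geo.sP_mono h2)
      exact ⟨le_trans (mul_nonneg (by positivity) (sub_nonneg.2 (h.geo.sP_mono h1))) x,
        y.trans_eq (one_mul _)⟩
  refine ⟨zero_le_one, V0, one_pos, monotone_const, fun i _ _ => by
    rw [mul_one]; exact rb_le_one hm i, Gam_nn _ _, Pp.Ode3.Gam_le_one _ _,
    fun i k _ h1 h2 => sub_nonneg.1 (inc i k h1 (by omega)).1, fun i h1 h2 => ?_, ?_, ?_⟩
  · obtain ⟨i, rfl⟩ : ∃ k, i = k + 1 := ⟨i - 1, by omega⟩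
    rw [Nat.add_sub_cancel, z_lo h (by omega) (by omega), z_lo h (by omega) (by omega)]
    have := mul_le_mul_of_nonneg_right K2 (sub_nonneg.2 (h.geo.base.lab.mono i.le_succ))
    linarith [(inc i (i + 1) i.le_succ (by omega)).2, (h.geo.ds_lo (k := i) (by omega)).2,
      (step_lo h (k := i) (by omega)).1]
  · have b1 := (inc (p.J - 1) (p.Jp Q - 1) (by omega) (by omega)).2
    have b2 := h.geo.sP_mono (Nat.sub_le (p.Jp Q) 1)
    have b3 := (h.geo.ds_lo (k := p.J - 1) (by omega)).2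
    rw [Nat.sub_add_cancel J, h.geo.sP_J] at b3
    rw [h.geo.sP_Jp, g, zero_mul, add_zero] at b2
    nlinarith [N.vn, N.nl, N.lp]
  · refine le_trans ?_ hV
    simp only [sq_abs]
    refine Finset.sum_le_sum_of_subset_of_nonneg (fun k hk => ?_) fun k _ _ =>
      mul_nonneg (sub_nonneg.2 (h.cl.leg.zm (Nat.sub_le k 1))) (sq_nonneg _)
    have := Finset.mem_Ioc.1 hk
    exact Finset.mem_filter.2 ⟨Finset.mem_Ioc.2 ⟨by omega, by omega⟩, z_ge h j (by omega),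
      j'.s.trans (h.geo.sP_mono this.1.le)⟩

omit j in
theorem Phi_le {i k : ℕ} (hik : i ≤ k) (hk : k ≤ p.NP Q) :
    Phi (p.famO Q om p.jf b 0 0) k - Phi (p.famO Q om p.jf b 0 0) i ≤
      8 * K ^ 2 * p.A * log p.n := by
  have L := h.cl.leg
  have a := tel_le (f := Phi (p.famO Q om p.jf b 0 0)) (g := (p.famO Q om p.jf b 0 0).H) hik
    fun l _ _ => by
      rw [Phi_succ]
      exact mul_le_of_le_one_left (sub_nonneg.2 (L.Hm l.le_succ)) (L.z1 l)
  have c := L.Hm (Nat.zero_le i)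
  have d : (p.famO Q om p.jf b 0 0).H k ≤ _ := (L.Hm hk).trans h.cl.HN
  rw [L.H0] at c
  exact a.trans (le_trans (by linarith) d)

variable {μ μ' ν' : ℝ} {φ : ℕ → ℝ} (T : Tm p μ μ' ν ν')
  (hφ : ∀ k, p.jf < k → φ k = ps p μ μ' ν ν' (p.xP Q k))
include T hφ

theorem phi_eq {k : ℕ} (h1 : p.jf < k) (h2 : k ≤ p.Jp Q) :
    φ k = ps p μ μ' ν ν' ((p.famO Q om p.jf b 0 0).z (k - 1)) := by
  rw [hφ k h1, xP_lo h2, zM h (by omega)]

/-- the size of the move -/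
theorem mv_of (G : Shg p ν Q.x Q.I) :
    Mv p ν (9 * K * μ') (p.famO Q om p.jf b 0 0).z φ j1 (p.J - 1) (p.Jp Q - 1) := by
  have a1 := j1_le h j
  have c := jf_lt h j
  have J := h.geo.J0
  have eJ : p.Jp Q = p.J + Q.I := rfl
  have lo : ∀ i ≤ p.J - 1, (p.famO Q om p.jf b 0 0).z (i - 1) ≤ p.xs := fun i hi => by
    have := h.cl.leg.zm (show i - 1 ≤ p.J - 1 by omega)
    rwa [z_lo h (k := p.J - 1) (by omega) (by omega)] at this
  refine ⟨fun i h1 h2 => ?_, fun i h1 h2 h3 => ?_, fun i h1 h2 => ?_⟩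
  · rw [phi_eq h j T hφ (by omega) (by omega)]
    exact T.p1 h.K1 h.atom.2 (lo i h2)
  · rw [phi_eq h j T hφ (by omega) (by omega)]
    exact T.p2 h.K1 h.atom.2 (lo i h2) (by linarith)
  · rw [phi_eq h j T hφ (by omega) (by omega), show i - 1 = p.J - 1 + (i - p.J) by omega,
      z_x h (by omega)]
    exact T.p3 h.K1 (G.ge (by omega)) (G.lt T.n (by omega))

omit j in
theorem phi_le (m1 : μ' ≤ 1) (G : Shg p ν Q.x Q.I) {k : ℕ} (h1 : p.jf < k) :
    |φ k| ≤ 12 * log p.n := by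
  rw [hφ k h1]
  refine T.p4 m1 (G.hi.trans (sub_le_sub_left ?_ 1))
  have J := h.geo.J0
  rw [← h.geo.zP_x le_rfl]
  exact h.geo.zP_mono (Nat.sub_le_sub_right (min_le_right _ _) 1)

/-- the nodes outside the top window -/
theorem out_le (m1 : μ' ≤ 1) (G : Shg p ν Q.x Q.I) (e2 : 1 - Q.x Q.I ≤ (p.n : ℝ) ^ (-(2 : ℝ)))
    (φ0 : ∀ k ≤ p.jf, φ k = 0) (hu : log p.n * u0 p ν ≤ 1 / (2 * K)) :
    ∑ k ∈ Finset.Ioc 0 j1, ((p.famO Q om p.jf b 0 0).z k - (p.famO Q om p.jf b 0 0).z (k - 1)) *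
      |φ k| + ∑ k ∈ Finset.Ioc (p.Jp Q - 1) (p.NP Q),
      ((p.famO Q om p.jf b 0 0).z k - (p.famO Q om p.jf b 0 0).z (k - 1)) * |φ k| ≤
      (p.n : ℝ) ^ (-(2 : ℝ)) * (12 * log p.n) := by
  have a1 := j1_le h j
  have c := jf_lt h j
  have J := h.geo.J0
  have eJ : p.Jp Q = p.J + Q.I := rfl
  have eN : p.NP Q = p.J + Q.I + p.Nr := rfl
  have L := h.cl.leg
  rw [Finset.sum_eq_zero fun k hk => ?_, zero_add]
  · refine (Finset.sum_le_sum fun k hk => mul_le_mul_of_nonneg_left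
      (phi_le h T hφ m1 G (k := k) (by have := Finset.mem_Ioc.1 hk; omega))
      (sub_nonneg.2 (L.zm (Nat.sub_le k 1)))).trans ?_
    rw [← Finset.sum_mul, tele _ (by omega), show p.Jp Q - 1 = p.J - 1 + Q.I by omega,
      z_x h le_rfl]
    exact mul_le_mul_of_nonneg_right ((sub_le_sub_right (L.z1 _) _).trans e2)
      (by linarith [h.lg])
  · have hk := Finset.mem_Ioc.1 hk
    rcases le_or_gt k p.jf with e | e
    · rw [φ0 k e, abs_zero, mul_zero]
    · have z := j.lo (k - 1) (by omega)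
      rw [phi_eq h j T hφ e (by omega), z_lo h (k := k - 1) (by omega) (by omega),
        T.p0 (by linarith [T.n.xs1]) (by linarith [xs_lo h]), abs_zero, mul_zero]

/-- **the cost of the switch** -/
theorem cost_le (hv : 4 * K ^ 2 * p.v ≤ 1) (m0 : 0 < μ') (m1 : μ' ≤ 1)
    (hθ : ∀ t, 1 / (8 * K ^ 2) ≤ t → μ' ≤ ms t) (vn : K * p.v ≤ 1 / p.n) (Kn : K ≤ p.n)
    (G : Shg p ν Q.x Q.I) (e2 : 1 - Q.x Q.I ≤ (p.n : ℝ) ^ (-(2 : ℝ)))
    (st : ∀ i < Q.I, p.rF ν (Q.x (i + 1)) - p.rF ν (Q.x i) ≤ 2 * p.v)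
    (me : ∀ i < Q.I, Q.x (i + 1) - Q.x i ≤ 624 * p.n * p.v) (g : Q.γ = 0) {D m : ℕ}
    (hD : 8 * K ^ 2 * p.A * log p.n ≤ 2 ^ D * (μ' * p.v / (16 * K ^ 3))) (hm : 0 < m) {a V : ℝ}
    (a0 : 0 ≤ a) (a1 : a ≤ p.am) (V0 : 0 ≤ V)
    (hV : p.tw2 Q (p.famO Q om p.jf b 0 0) m a ≤ V ^ 2) (hv' : 8 * K ^ 2 * p.v ≤ 1)
    (hu : log p.n * u0 p ν ≤ 1 / (4 * K ^ 2)) :
    ∑ k ∈ Finset.Ioc j1 (p.Jp Q - 1),
      ((p.famO Q om p.jf b 0 0).z k - (p.famO Q om p.jf b 0 0).z (k - 1)) * φ k ^ 2 *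
        aM (p.famO Q om p.jf b 0 0) m a k ≤
      (D + 2) * (2 / m * ((1 + D) * (170000000000 * K ^ 12 * log p.n ^ 2 *
        (μ' * (p.la ν * (p.la ν + V))))) + 624 * p.n * p.v * (12 * log p.n) ^ 2) := by
  have K0 := h.K0
  have v := h.geo.v0
  have b1 := j1_le h j
  have c := jf_lt h j
  have J := h.geo.J0
  have eJ : p.Jp Q = p.J + Q.I := rfl
  have eN : p.NP Q = p.J + Q.I + p.Nr := rfl
  have np := T.n.np
  have L := h.cl.leg
  obtain ⟨j2, j'⟩ := ex_j2 h j hv'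
  have a' := j'.le
  have a'' := j'.lt
  have l0 := T.n.lp
  have M := mv_of h j T hφ G
  have := costP (B0 := 1296 * K ^ 6 * (μ' * p.la ν ^ 2)) (D := D)
    (cm := 624 * p.n * p.v * (12 * log p.n) ^ 2)
    (lg_of L hm a0 (show a ≤ 2 * p.am by linarith)) (tw_of h j hv m0 hθ T.n vn G e2 st j')
    ⟨fun i h1 => M.p1 i (by omega), fun i h1 => M.p2 i (by omega), M.p3⟩
    (lc_of h j g T.n hm V0 hV j') (σ := μ' * p.v / (16 * K ^ 3)) (by positivity)
    a' (show p.Jp Q - 1 ≤ p.NP Q by omega)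
    (fun i h1 h2 => flr h j hv m0.le hθ h1 (by omega))
    ((Phi_le h (by omega) (by omega)).trans hD) (by positivity) (fun k h1 h2 => ?_) (by positivity)
    fun i h1 h2 => ?_
  · refine this.trans (mul_le_mul_of_nonneg_left (add_le_add (mul_le_mul_of_nonneg_left
      (mul_le_mul_of_nonneg_left ?_ (by positivity)) (by positivity)) le_rfl) (by positivity))
    have e : 10 ^ 6 * (4 * K ^ 2) ^ 3 * log p.n ^ 2 * (9 * K * μ') ^ 2 / (μ' / (32 * K ^ 4) * 1) *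
        (p.la ν * (p.la ν + V)) =
        165888000000 * (K ^ 12 * log p.n ^ 2 * (μ' * (p.la ν * (p.la ν + V)))) := by
      field_simp; ring
    have L1 := h.lg
    have e2 : K ^ 6 * 1 * (μ' * (p.la ν * p.la ν)) ≤
        K ^ 12 * log p.n ^ 2 * (μ' * (p.la ν * (p.la ν + V))) := by
      have := h.K1
      gcongr
      · norm_num
      · nlinarith
      · linarith
    have e3 : 0 ≤ K ^ 6 * 1 * (μ' * (p.la ν * p.la ν)) := by positivity
    rw [e, div_one, log_one]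
    linarith
  swap
  · have z : p.z i ≤ p.z j2 := h.geo.base.lab.mono h2.le
    have x := j'.xs
    have u := mul_nonneg (zero_le_one.trans h.lg) T.n.u0p.le
    have a : |φ (i + 1)| ≤ 9 * K * μ' * p.la ν := by
      rw [phi_eq h j T hφ (by omega) (by omega), Nat.add_sub_cancel, z_lo h (by omega) (by omega)]
      exact T.p2 h.K1 h.atom.2 (by linarith) (by linarith)
    have a2 := pow_le_pow_left₀ (abs_nonneg _) a 2
    rw [sq_abs] at a2
    refine le_trans ?_ (mul_le_mul_of_nonneg_left (flr h j hv m0.le hθ h1 (by omega))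
      (by positivity))
    rw [z_lo h (by omega) (by omega), z_lo h (by omega) (by omega)]
    refine (mul_le_mul (step_lo h (k := i) (by omega)).2 a2 (sq_nonneg _) (by positivity)).trans
      (le_of_eq ?_)
    field_simp; ring
  · have a := pow_le_pow_left₀ (abs_nonneg _) (phi_le h T hφ m1 G (k := k) (by omega)) 2
    rw [sq_abs] at a
    refine mul_le_mul ?_ a (sq_nonneg _) (by positivity)
    obtain ⟨k, rfl⟩ : ∃ i, k = i + 1 := ⟨k - 1, by omega⟩
    rw [Nat.add_sub_cancel]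
    rcases lt_or_ge (k + 1) p.J with e | e
    · rw [z_lo h (by omega) e, z_lo h (by omega) (by omega)]
      nlinarith [(step_lo h e).2, mul_le_mul_of_nonneg_right Kn v.le, mul_pos np v]
    · obtain ⟨i, rfl⟩ := Nat.exists_eq_add_of_le (show p.J - 1 ≤ k by omega)
      rw [add_assoc, z_x h (by omega), z_x h (by omega)]
      exact me i (by omega)

end core

theorem fs (p : Pm) (P P' : Pl) (σ : ℝ) : FS (fun t => p.gst (P.mix P' t) σ)
    fun k => if k ≤ p.jf then 0 else P'.hs (p.xP P k) - P.hs (p.xP P k) where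
  N _ := rfl
  z _ := rfl
  d _ := rfl
  H t k := by
    show (if k ≤ p.jf then 0 else p.sO (P.mix P' 0) (p.omG σ) k -
      (p.bG σ + 0) * p.qO (P.mix P' 0) (p.omG σ) k +
        ((1 - t) * P.hs (p.xP P k) + t * P'.hs (p.xP P k))) + 0 =
      (if k ≤ p.jf then 0 else p.sO (P.mix P' 0) (p.omG σ) k -
      (p.bG σ + 0) * p.qO (P.mix P' 0) (p.omG σ) k +
        ((1 - 0) * P.hs (p.xP P k) + 0 * P'.hs (p.xP P k))) + 0 + _
    split_ifs <;> ring
  φ0 := if_pos (Nat.zero_le _)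

theorem key_num {μ l w s Λ u : ℝ} (m0 : 0 < μ) (l0 : 0 < l) (w0 : 0 ≤ w) (s1 : 1 ≤ s)
    (Λ1 : 1 ≤ Λ) (u0 : 0 ≤ u) (h1 : μ * l ^ 2 ≤ 4 * w) (h2 : μ * l ^ 2 * u ≤ 4 * w ^ 2) :
    μ * (l * (l + √(Λ * s ^ 8 * u / μ))) ≤ 6 * Λ * s ^ 4 * w := by
  have a : μ * l * √(Λ * s ^ 8 * u / μ) ≤ 2 * Λ * s ^ 4 * w := by
    refine abs_le_of_sq_le_sq' ?_ (by positivity) |>.2
    rw [mul_pow, sq_sqrt (by positivity)]
    have e : (μ * l) ^ 2 * (Λ * s ^ 8 * u / μ) = Λ * s ^ 8 * (μ * l ^ 2 * u) := by field_simp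
    have b := mul_le_mul_of_nonneg_left h2 (show 0 ≤ Λ * s ^ 8 by positivity)
    have c := mul_le_mul_of_nonneg_right Λ1 (show 0 ≤ Λ * s ^ 8 * w ^ 2 by positivity)
    rw [e]; nlinarith
  have b : 1 ≤ Λ * s ^ 4 := one_le_mul_of_one_le_of_one_le Λ1 (one_le_pow₀ s1)
  nlinarith [mul_le_mul_of_nonneg_right b w0]

end Sw2

open Sw2 Cost41 Plt13

/-- legality from membership -/
theorem legSw_of {β : ℝ} (hβ : 1 < β) (hM : Loss β fun Λ p => ∃ K, K ≤ Λ ∧ MemSw K p) :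
    Loss β LegSw :=
  (hM.and (p1G β hβ).loss_exp).powC 5 fun c0 C0 A c => ⟨max 8 A, fun η Λ p hA _ x hΛ
    ⟨⟨K, hK, H⟩, _, _, _, hp⟩ σ σ' P P' t o hP hP' ht => by
    obtain ⟨_, _, _, _, _, _, _, _, h⟩ := H σ σ' P P' t o hP hP' ht
    have am : 0 ≤ p.am := by have := x.s_pos; unfold Pm.am; positivity
    refine ⟨by linarith [h.jlJ], Md67.Leg_mono h.cl.leg (show p.am ≤ 2 * p.am by linarith),
      (hp σ' ⟨o.1.trans o.2.1, o.2.2.2⟩).2.2.1.2.1, h.cl.HN.trans (le_trans ?_ hΛ)⟩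
    show 8 * K ^ 2 * (p.A : ℝ) * log p.n ≤ _
    have k := x.big.le_rpow
    have l : log (p.n : ℝ) ^ 1 ≤ _ := Big.log_pow_le (x.big.mono
      (le_max_of_le_left (by norm_num)) le_rfl)
    have a1 := (le_max_left _ _).trans k
    have a2 := (le_max_right _ _).trans k
    have := h.K0
    have := h.lg
    rw [pow_one] at l
    rw [hA]
    calc _ ≤ (p.n : ℝ) ^ η * ((p.n : ℝ) ^ η) ^ 2 * (p.n : ℝ) ^ η * (p.n : ℝ) ^ η := by gcongr
      _ = _ := by ring⟩

set_option maxHeartbeats 1000000 in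
/-- **the field segment** -/
theorem swGA_of {β : ℝ} (hβ : 1 < β) (hM : Loss β fun Λ p => ∃ K, K ≤ Λ ∧ MemSw K p)
    (hL : Loss β SwLo) : Gain β SwGA :=
  ((hM.and (legSw_of hβ hM)).and hL).gainF (Par.intro' 4 one_pos fun c0 C0 A c h0 h1 hA hc _ => by
    obtain ⟨K1, c2, -, H⟩ := Plt13.fin_nm hβ c0 C0 h0 h1
    refine ⟨c / 200, by positivity, c / 8, by positivity,
      max K1 (max (170000000000 + β ^ 2) (2 * A + 9)),
      fun p hpA hpc x ⟨⟨⟨K, hK, hM⟩, hG⟩, hL⟩ σ σ' P P' o hP hP' => ?_⟩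
    subst hpc hpA
    have N := (H p (x.mono (le_max_left _ _) (by linarith [x.c_le]))).2
    have T := tm_of x N o
    have m := muG_mem x o.1
    have m' := muG_mem x (o.1.trans o.2.1)
    have oc := muG_oct x o
    have mt := mt_mem x m.1 m.2
    have m0 := x.μ0_pos.trans_le m'.1
    have m1 := m'.2.trans x.κ_le_one
    have np := x.n_pos
    obtain ⟨j1, j⟩ := ex_j1 T.n.x0.le
    obtain ⟨_, _, _, _, _, _, _, _, h⟩ := hM σ σ' P P' 0 o hP hP' ⟨le_rfl, zero_le_one⟩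
    have K0 := h.K0
    -- exponents
    have cl := x.cl_pos
    have cl' := x.cl_le
    have l2 := x.l2
    have ls := x.sg_nn
    have EΛ := x.Epow (p.c / 200)
    have big := x.big.le_rpow
    have b1 := (le_max_left _ _).trans ((le_max_right _ _).trans big)
    have b2 := (le_max_right _ _).trans ((le_max_right _ _).trans big)
    have b3 := (le_max_left _ _).trans ((le_max_right _ _).trans x.big.le)
    have β2 : 0 ≤ β ^ 2 := sq_nonneg β
    have A4 : (4 : ℝ) ≤ p.A := by exact_mod_cast hA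
    have U : ∀ {C : ℝ}, 0 ≤ C → C ≤ 170000000000 → Ub C (p.c / 200 * log p.n) := fun a b =>
      EΛ.ub.of_le a (by linarith)
    have UK : Ub K (p.c / 200 * log p.n) := EΛ.ub.of_le K0.le hK
    have UL : Ub (log p.n) (p.c / 200 * log p.n) := EΛ.ub.of_le (by linarith) (by
      have l : log (p.n : ℝ) ^ 1 ≤ _ := Big.log_pow_le (x.big.mono (le_max_of_le_right
        (le_max_of_le_left (by norm_num; linarith))) le_rfl)
      rwa [pow_one] at l)
    have UA : Ub (2 * p.A + 9) (p.c / 200 * log p.n) := EΛ.ub.of_le (by linarith) b2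
    have v0 := T.n.v0
    have Uv : Ub p.v _ := ((EΛ.ub.of_le β2 (by linarith)).mul (x.Epow (-4)).ub).of_le v0.le
      (x.v_le A4)
    have hv : 4 * K ^ 2 * p.v ≤ 1 := le_of (((U (by norm_num) (by norm_num)).mul UK.pow).mul Uv)
      Eb.one.lb (by push_cast; linarith)
    have hv' : 8 * K ^ 2 * p.v ≤ 1 := le_of (((U (by norm_num) (by norm_num)).mul UK.pow).mul Uv)
      Eb.one.lb (by push_cast; linarith)
    have hu' : log p.n * u0 p (p.mt (p.muG σ)) ≤ 1 / (4 * K ^ 2) := le_of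
      (UL.mul ((x.Epow _).ub.of_le T.n.u0p.le (u0_small x mt.1))) (Eb.one.lb.div
      ((U (by norm_num) (by norm_num)).mul UK.pow) (by positivity)) (by push_cast; linarith)
    have vn : K * p.v ≤ 1 / p.n := le_of (UK.mul Uv) (Eb.one.div x.En).lb (by linarith)
    have Kn : K ≤ p.n := le_of UK x.En.lb (by linarith)
    have hy : p.ye ≤ 1 / (8 * K ^ 2) := le_of x.Eye.ub (Eb.one.lb.div
      ((U (by norm_num) (by norm_num)).mul UK.pow) (by positivity)) (by push_cast; linarith)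
    have hθ : ∀ t, 1 / (8 * K ^ 2) ≤ t → p.muG σ' ≤ p.msG σ' t := fun t ht => by
      unfold Pm.msG Pm.muG
      rw [min_eq_right (hy.trans ht), max_eq_right x.r_le_ye]
    have hu : log p.n * u0 p (p.mt (p.muG σ)) ≤ 1 / (2 * K) := le_of
      (UL.mul ((x.Epow _).ub.of_le T.n.u0p.le (u0_small x mt.1))) (Eb.one.lb.div
      ((U (by norm_num) (by norm_num)).mul UK) (by positivity)) (by linarith)
    obtain ⟨D, D1, D2⟩ : ∃ D : ℕ, 2 * (p.A + 3) * log p.n ≤ D ∧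
        (D : ℝ) + 2 ≤ (2 * p.A + 9) * log p.n :=
      ⟨⌈2 * ((p.A : ℝ) + 3) * log p.n⌉₊, Nat.le_ceil _, by
        linarith [(Nat.ceil_lt_add_one (show 0 ≤ 2 * ((p.A : ℝ) + 3) * log p.n by positivity)).le]⟩
    have UD : Ub ((D : ℝ) + 2) _ := (UA.mul UL).of_le (by positivity) D2
    have UD' : Ub (1 + (D : ℝ)) _ := UD.of_le (by positivity) (by linarith)
    have hD : 8 * K ^ 2 * p.A * log p.n ≤ 2 ^ D * (p.muG σ' * p.v / (16 * K ^ 3)) := by
      have l : (D : ℝ) * (1 / 2) ≤ D * log 2 :=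
        mul_le_mul_of_nonneg_left (by linarith [log_two_gt_d9]) D.cast_nonneg
      exact le_of ((((U (by norm_num) (by norm_num)).mul UK.pow).mul
        (UA.of_le (by positivity) (by linarith))).mul UL)
        ((Eb.log two_pos).pow.lb.mul (((x.Eμ0.lb.of_le m'.1).mul (x.Ev' (by linarith)).lb).div
          ((U (by norm_num) (by norm_num)).mul UK.pow) (by positivity)))
        (by push_cast; linarith [log_nonneg hβ.le])
    -- the grid
    have G : Shg p (p.mt (p.muG σ)) P.x P.I := (shg_of T.n hP.ok :)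
    have hφ : ∀ k, p.jf < k → (if k ≤ p.jf then 0 else P'.hs (p.xP P k) - P.hs (p.xP P k)) =
        ps p (p.muG σ) (p.muG σ') (p.mt (p.muG σ)) (p.mt (p.muG σ')) (p.xP P k) := fun k hk => by
      rw [if_neg (by omega), hP.hs, hP'.hs]; rfl
    have EV := ((EΛ.pow (k := 12)).mul (x.Es.pow (k := 2))).mul (x.Epow (-(5 / 6) - p.c / 4))
    have Λ1 : 1 ≤ (p.n : ℝ) ^ (p.c / 200) := by linarith
    have kn : p.muG σ' * p.la (p.mt (p.muG σ)) ^ 2 ≤ 4 * (p.n : ℝ) ^ (-(2 / 3) - p.c) := by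
      have a := la_sq np (x.μ0_pos.trans_le mt.1)
      have b := mul_le_mul_of_nonneg_right (oc.2.trans (mul_le_mul_of_nonneg_left
        (Pm.le_mt x.κ_pos x.κ_le_one T.m0) (by norm_num))) (sq_nonneg (p.la (p.mt (p.muG σ))))
      linarith
    have Ew := x.Epow (-(2 / 3) - p.c / 2)
    have kk := key_num (u := (p.n : ℝ) ^ (-(2 : ℝ) / 3)) m0 T.n.lp Ew.pos.le x.ok.s1 Λ1
      (by positivity) (kn.trans (mul_le_mul_of_nonneg_left
        (((x.Epow _).le_iff Ew).2 (by linarith)) (by norm_num)))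
      ((mul_le_mul_of_nonneg_right kn (by positivity)).trans (by
        rw [mul_assoc]
        exact mul_le_mul_of_nonneg_left ((((x.Epow _).mul (x.Epow _)).le_iff Ew.pow).2
          (by push_cast; linarith)) (by norm_num)))
    have S := (fs p P P' σ').stage (n := p.n) (s := p.s) (γ := p.ga) (C := p.β ^ 2)
      (δ := (p.n : ℝ) ^ (-(p.c / 8))) (by exact_mod_cast np) EV.pos.le
      (fun t ht => (hG σ σ' P P' t o hP hP' ht).2.1)
      (by simpa [Pm.gst, Pm.famO] using (hG σ σ' P P' 0 o hP hP' ⟨le_rfl, zero_le_one⟩).2.2.1)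
      (j0 := j1) (N := p.Jp P - 1) (by have := j1_le h j; unfold Pm.Jp; omega)
      (show p.Jp P - 1 ≤ p.Jp P + p.Nr by omega) (fun t ht m a1 a2 a a3 a4 => ?_)
      (out_le h j T hφ m1 G hP.ok.e2 (fun k hk => if_pos hk) hu) (by positivity)
      (le_of (((U (by norm_num) (by norm_num)).mul x.En.ub).mul EV.ub)
        (((x.Epow _).mul (x.Epow _)).mul x.Es.pow).lb (by push_cast; linarith))
      (le_of (((U (by norm_num) (by norm_num)).mul x.En.ub).mul ((x.Epow _).ub.mul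
        ((U (by norm_num) (by norm_num)).mul UL)))
        (((x.Epow _).mul (x.Epow _)).mul x.Es.pow).lb (by push_cast; linarith))
    · simp only [mix_zero hP.g] at S
      exact ⟨_, S, 1, ⟨zero_le_one, le_rfl⟩, rfl⟩
    obtain ⟨_, _, _, _, _, _, _, _, h'⟩ := hM σ σ' P P' t o hP hP' ht
    have mp : 0 < m := lt_of_lt_of_le (by exact_mod_cast np) a1
    have q0 : 0 ≤ (p.n : ℝ) ^ (p.c / 200) * p.s ^ 8 * (p.n : ℝ) ^ (-(2 : ℝ) / 3) / p.muG σ' := by
      have := x.s_pos; positivity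
    refine (cost_le h' j T hφ hv m0 m1 hθ vn Kn G hP.ok.e2 (fun i hi => ?_)
      (fun i hi => x_mesh T.n hP.ok hi) rfl hD mp (le_trans (by positivity) a3) a4 (sqrt_nonneg _)
      ((hL σ σ' P P' t o hP hP' ht m a ⟨a1, a2, a3, a4⟩).trans_eq (sq_sqrt q0).symm) hv' hu').trans ?_
    · have := (hP.ok.st i hi).2
      rwa [hP.ok.rs] at this
    have l0 := T.n.lp
    refine le_of (UD.mul ((((U (by norm_num) (by norm_num)).div (x.Lm a1)).mul (UD'.mul
      ((((U (by norm_num) le_rfl).mul UK.pow).mul UL.pow).mul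
        (((((U (by norm_num) (by norm_num)).mul EΛ.ub).mul x.Es.pow.ub).mul Ew.ub).of_le
          (by positivity) kk)))).add ((((U (by norm_num) (by norm_num)).mul x.En.ub).mul Uv).mul
        ((U (by norm_num) (by norm_num)).mul UL).pow))) EV.pow.lb ?_
    rw [← le_sub_iff_add_le', ← le_sub_iff_add_le, max_le_iff]
    push_cast
    constructor <;> linarith)

/-- **the switch** -/
theorem swG_lo {β : ℝ} (hβ : 1 < β) (hM : Loss β fun Λ p => ∃ K, K ≤ Λ ∧ MemSw K p)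
    (hL : Loss β SwLo) : Gain β SwG :=
  swG_of (swGA_of hβ hM hL) (swGB_of hβ (legSw_of hβ hM))

theorem swG_main {β : ℝ} (hβ : 1 < β) (hM : Loss β fun Λ p => ∃ K, K ≤ Λ ∧ MemSw K p)
    (hL : Loss β SwL) : Gain β SwG :=
  swG_lo hβ hM (((legSw_of hβ hM).and hL).mono fun _ _ _ H σ σ' P P' t o hP hP' ht m a w =>
    (Pm.tw2_le (H.1 σ σ' P P' t o hP hP' ht).2.1.zm m a).trans (H.2 σ σ' P P' t o hP hP' ht m a w))

theorem MemSw.loss {β : ℝ} (hM : Cst β MemSw) : Loss β fun Λ p => ∃ K, K ≤ Λ ∧ MemSw K p :=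
  hM.loss_exp.mono fun _ _ _ ⟨K, _, a, b⟩ => ⟨K, by linarith [add_one_le_exp K], b⟩

theorem swG_cst {β : ℝ} (hβ : 1 < β) (hM : Cst β MemSw) (hL : Loss β SwL) : Gain β SwG :=
  swG_main hβ (MemSw.loss hM) hL

end Crest.Agent.T156.Alt

end
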