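import Crest.Agent.T156.GrTop_62
import Crest.Agent.T156.PlS_13
import Crest.Agent.T156.R1Def_82
import Crest.Agent.T156.SwGA_2
import Crest.Agent.T156.SprR_59

/-!
# Row 156 (helper88): the key estimate from the stages that read a location
-/

set_option autoImplicit false

noncomputable section

namespace Crest.Agent.T156.Alt

theorem key_st {β : ℝ} (hβ : 1 < β) (h1 : Gain β OctG) (h2 : Gain β SwG)
    (h3 : Gain β (C1S (7 / 20))) (h4 : Loss β (SprL2 (7 / 20))) (h5 : Gain β (FlwS (7 / 20))) :
    Soft.Key β :=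
  topG β (7 / 20) hβ (plEx hβ (by norm_num)) (startG hβ) h1 h2 (sprS_red hβ h3 h4) h5

end Crest.Agent.T156.Alt

end
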