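import Crest.Agent.T156.R1Loc_77
import Crest.Agent.T156.KnR_72
import Crest.Agent.T156.KnP_17

/-!
# Row 156: `R62.KN` for the explicit numbers `Pm.nb` of the graded path (helper17)
-/

set_option autoImplicit false
set_option linter.unusedSectionVars false

noncomputable section

namespace Crest.Agent.T156.Alt.Kn17

open Real Finset R62

theorem num4 {B L V u P w l a r C : ℝ} (B0 : 0 ≤ B) (L1 : 1000 ≤ L) (BL : B ≤ L) (V0 : 0 ≤ V)
    (u0 : 0 ≤ u) (P0 : 0 ≤ P) (w0 : 0 ≤ w) (wl : w ≤ l) (aP : a ^ 2 ≤ P) (r0 : 0 ≤ r) (rl : r ≤ l)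
    (C0 : 0 ≤ C) (CL : C ≤ L) :
    B ^ 2 * (2 * (a ^ 2 * (w ^ 2 + V ^ 2)) + 41 * (C * (P * (L * (V + r) + L * V) ^ 2)) +
      4 * (L ^ 4 * u)) + P * l ^ 2 + u ≤ L ^ 20 * (u + P * (V ^ 2 + l ^ 2)) := by
  have L0 : 1 ≤ L := by linarith
  have b0 : (L * (V + r) + L * V) ^ 2 ≤ L ^ 2 * (8 * (V ^ 2 + l ^ 2)) := by
    rw [← mul_add, mul_pow]
    gcongr
    nlinarith [sq_nonneg (2 * V - r), pow_le_pow_left₀ r0 rl 2]
  have b1 : a ^ 2 * (w ^ 2 + V ^ 2) ≤ P * (l ^ 2 + V ^ 2) := by gcongr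
  have b2 : C * (P * (L * (V + r) + L * V) ^ 2) ≤ L * (P * (L ^ 2 * (8 * (V ^ 2 + l ^ 2)))) := by
    gcongr
  have b3 : 1 ≤ L ^ 4 := one_le_pow₀ L0
  have b4 : L ^ 3 ≤ L ^ 4 := pow_le_pow_right₀ L0 (by norm_num)
  have p1 : 0 ≤ P * (V ^ 2 + l ^ 2) := by positivity
  have p2 : P * l ^ 2 ≤ P * (V ^ 2 + l ^ 2) := by nlinarith [mul_nonneg P0 (sq_nonneg V)]
  have b5 : 2 * (a ^ 2 * (w ^ 2 + V ^ 2)) + 41 * (C * (P * (L * (V + r) + L * V) ^ 2)) +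
      4 * (L ^ 4 * u) ≤ 330 * L ^ 4 * (u + P * (V ^ 2 + l ^ 2)) := by
    nlinarith [mul_le_mul_of_nonneg_right b3 p1, mul_le_mul_of_nonneg_right b4 p1,
      mul_nonneg (zero_le_one.trans b3) u0]
  have b6 := mul_le_mul (pow_le_pow_left₀ B0 BL 2) b5 (by positivity) (by positivity)
  have b7 : 330 * L ^ 6 + 1 ≤ L ^ 20 := by
    have := one_le_pow₀ (n := 6) L0
    have := pow_le_pow_right₀ L0 (show 7 ≤ 20 by norm_num)
    nlinarith [mul_le_mul_of_nonneg_right L1 (by positivity : 0 ≤ L ^ 6)]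
  nlinarith [mul_le_mul_of_nonneg_right b7 (add_nonneg u0 p1)]

variable {β c0 C0 c0' C0' η' : ℝ} {A : ℕ} {c η K K' : ℝ} {p : Pm} {σ t : ℝ} {Q : Pl}
  (H : Reg β c0 C0 A c η K' p) (o : p.OctR σ t) (hη : 100000 * η ≤ c)
include H

theorem pw1 {x : ℝ} (hx : 0 ≤ x) : 1 ≤ (p.n : ℝ) ^ x := one_le_rpow H.N1.le hx

theorem dN_inv : (p.dN)⁻¹ = (p.n : ℝ) ^ (c / 4000) := by
  rw [Pm.dN, rpow_neg H.N0.le, inv_inv, H.hc]

theorem PhN_eq (t : ℝ) :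
    p.PhN t = (p.n : ℝ) ^ (c / 4000) * p.PhG ((p.n : ℝ) ^ (c / 1000)) t := by rw [Pm.PhN, H.hc]

theorem PhN0 (M : p.MemG t) : 0 < p.PhN t := mul_pos (H.rp0 _) (H.PhG0 M (H.rp0 _))

theorem lN0 (M : p.MemG t) : 0 < p.lN t := rpow_pos_of_pos (PhN0 H M) _

theorem lN3 (M : p.MemG t) : p.lN t ^ 3 = p.PhN t := by
  rw [Pm.lN, ← rpow_mul_natCast (PhN0 H M).le]; norm_num

theorem lg_lN (M : p.MemG t) : logb p.n (p.lN t) = logb p.n (p.PhN t) / 3 := by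
  rw [← lN3 H M, logb_pow]; push_cast; ring

theorem sM0 (M : p.MemG t) : 0 < p.sM t := lt_min H.s0 (div_pos (pow_pos H.κ0 2) (H.muG_pos M))

/-- the exponent of `sM` -/
theorem lg_sM (M : p.MemG t) : 0 ≤ logb p.n (p.sM t) ∧ logb p.n (p.sM t) ≤ logb p.n p.s ∧
    (logb p.n (p.sM t) = logb p.n p.s ∨ logb p.n (p.sM t) = -(2 * c) - logb p.n (p.muG t)) := by
  have k := H.κ0
  have m := H.muG_pos M
  have e : logb p.n (p.κ ^ 2 / p.muG t) = -(2 * c) - logb p.n (p.muG t) := by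
    rw [logb_div (by positivity) m.ne', logb_pow, H.lg_κ]; push_cast; ring
  rw [Pm.sM, lg_min H.N1 H.s0 (by positivity), e]
  exact ⟨le_min H.lg_s.1 (by linarith [(H.lg_muG' M).2, H.c_pos]), min_le_left _ _, min_choice _ _⟩

include hη

/-- lower and crude upper bounds of the exponent of `PhN` -/
theorem lg_PhN (M : p.MemG t) :
    -(1 / 2) + c / 2 + c / 4000 ≤ logb p.n (p.PhN t) ∧
    2 / 3 * (-(1 / 3) + c - logb p.n t) - 1 / 3 + c / 4000 ≤ logb p.n (p.PhN t) ∧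
    3 * logb p.n p.r + c / 4000 ≤ logb p.n (p.PhN t) ∧
    2 * logb p.n (p.laG t) + c / 4000 ≤ logb p.n (p.PhN t) ∧
    logb p.n (p.PhN t) ≤ -(1 / 9) - c / 2 := by
  have c0 := H.c_pos
  have E0 := H.rp0 (c / 1000)
  obtain ⟨a1, a2⟩ := H.lg_PhG_bds (ε := c / 1000) (by linarith [H.η_pos]) (by linarith) M
    (pw1 H (by positivity)) le_rfl
  obtain ⟨⟨b1, b2, b3, -⟩, -⟩ := H.lg_PhG M E0
  have d := (H.lg_yS M E0).1
  rw [H.lg_rp] at d
  rw [PhN_eq H, logb_mul (H.rp0 _).ne' (H.PhG0 M E0).ne', H.lg_rp]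
  refine ⟨?_, ?_, ?_, ?_, ?_⟩ <;> linarith

include o

theorem la_oct : logb p.n (p.laG σ) ≤ logb p.n (p.laG t) + η / 2 := by
  obtain ⟨M, M'⟩ := Gr29.oct_mem o
  have a := H.mt0 (H.muG_pos M)
  have b := H.mt0 (H.muG_pos M')
  have d := H.lg_mono b (H.oct_mt o).2
  rw [logb_mul two_ne_zero a.ne'] at d
  have e := H.lg_two.2
  have f := H.η_pos
  rw [Pm.laG, Pm.laG, H.lg_la a, H.lg_la b]
  rcases min_choice (-(logb p.n (p.mt (p.muG t)) + 1 / 3) / 3)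
    (-(logb p.n (p.mt (p.muG t)) + 1 / 3) / 2) with q | q <;> rw [q]
  · linarith [min_le_left (-(logb p.n (p.mt (p.muG σ)) + 1 / 3) / 3)
      (-(logb p.n (p.mt (p.muG σ)) + 1 / 3) / 2)]
  · linarith [min_le_right (-(logb p.n (p.mt (p.muG σ)) + 1 / 3) / 3)
      (-(logb p.n (p.mt (p.muG σ)) + 1 / 3) / 2)]

theorem PtN0 : 0 < p.PtN σ t := lt_min (PhN0 H (Gr29.oct_mem o).2)
  (mul_pos (H.rp0 _) (pow_pos (mul_pos (sM0 H (Gr29.oct_mem o).2) (H.laG0 (Gr29.oct_mem o).1)) 2))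

theorem lg_PtN_eq : logb p.n (p.PtN σ t) = min (logb p.n (p.PhN t))
    (5 / 8 * c + 2 * logb p.n (p.sM t) + 2 * logb p.n (p.laG σ)) := by
  obtain ⟨M, M'⟩ := Gr29.oct_mem o
  have a := H.laG0 M
  have s := sM0 H M'
  rw [Pm.PtN, lg_min H.N1 (PhN0 H M') (mul_pos (H.rp0 _) (by positivity)),
    logb_mul (H.rp0 _).ne' (by positivity), H.lg_rp, logb_pow, logb_mul s.ne' a.ne', H.hc]
  congr 1; push_cast; ring

/-- the exponent of `PtN` -/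
theorem lg_PtN : 2 * logb p.n (p.laG σ) + c / 5000 ≤ logb p.n (p.PtN σ t) ∧
    logb p.n (p.PtN σ t) ≤ 5 / 8 * c + 2 * logb p.n p.s + 2 * logb p.n (p.laG σ) ∧
    logb p.n (p.PtN σ t) ≤ logb p.n (p.PhN t) := by
  obtain ⟨s0, s1, -⟩ := lg_sM H (Gr29.oct_mem o).2
  rw [lg_PtN_eq H o hη]
  exact ⟨le_min (by linarith [(lg_PhN H hη (Gr29.oct_mem o).2).2.2.2.1, la_oct H o hη, H.c_pos])
    (by linarith [H.c_pos]), (min_le_right _ _).trans (by linarith), min_le_left _ _⟩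

/-- **`PhN ≤ max (Vc², s² n^{-1/3})`** -/
theorem lg_PhN_up : logb p.n (p.PhN t) ≤ 2 * logb p.n (p.Vc (Kn72.nu p σ)) ∨
    logb p.n (p.PhN t) ≤ 2 * logb p.n (p.sM t) - 1 / 3 := by
  obtain ⟨M, M'⟩ := Gr29.oct_mem o
  have c0 := H.c_pos
  have c1 := H.c_le
  have η0 := H.η_pos
  have E0 := H.rp0 (c / 1000)
  obtain ⟨s0, s1⟩ := H.lg_s
  have V := H.lg_Vc (Kn72.nu0 H o)
  have V1 := le_max_left 0 (-(logb p.n (Kn72.nu p σ) + 1 / 3) / 3)
  have V2 := le_max_right 0 (-(logb p.n (Kn72.nu p σ) + 1 / 3) / 3)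
  have m1 := (H.lg_mt' (H.muG_pos M)).2
  have m2 := H.lg_mono (H.muG_pos M) (H.oct_mu o).1
  have m3 := (H.lg_muG66 M').2.2
  have m4 := H.lg_mono (Kn72.nu0 H o) (H.oct_mt o).1
  rw [PhN_eq H, logb_mul (H.rp0 _).ne' (H.PhG0 M' E0).ne', H.lg_rp]
  rcases (H.lg_PhG M' E0).2 with h | h | h | h
  · left
    rcases (H.lg_yS M' E0).2.2.2 with y | y | ⟨y, -⟩ <;> rw [y] at h <;>
      (try rw [H.lg_rp] at h) <;> linarith
  · right; linarith [H.lg_r, (lg_sM H M').1]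
  · left
    rw [Pm.laG, H.lg_la (H.mt0 (H.muG_pos M'))] at h
    linarith [min_le_left (-(logb p.n (p.mt (p.muG t)) + 1 / 3) / 3)
      (-(logb p.n (p.mt (p.muG t)) + 1 / 3) / 2)]
  · right
    have r := H.lg_rtG (σ := t) E0
    have r0 := min_le_right (logb p.n (p.yG ((p.n : ℝ) ^ (c / 1000)) t)) 0
    have r1 := min_le_left (logb p.n (p.yG ((p.n : ℝ) ^ (c / 1000)) t)) 0
    obtain ⟨z0, z1, z | z⟩ := lg_sM H M'
    · linarith
    have j := H.lg_rj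
    rcases (H.lg_yG M' E0).2 with g | g | g | g
    · rcases (H.lg_yS M' E0).2.2.2 with y | y | ⟨-, y⟩
      · rw [H.lg_rp] at y; linarith
      · rw [H.lg_rp] at y; linarith
      · rw [H.lg_flat M' E0, H.lg_rp] at y; linarith
    all_goals linarith

/-- `√Φ / Vc ≤ √Pt / la` -/
theorem Ph_Vc : √(p.PhN t) ≤ √(p.PtN σ t) / p.laG σ * p.Vc (Kn72.nu p σ) := by
  obtain ⟨M, M'⟩ := Gr29.oct_mem o
  have a := H.laG0 M
  have b := PtN0 H o hη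
  have d := PhN0 H M'
  have V0 : 0 < p.Vc (Kn72.nu p σ) := H.Vc0
  have V := H.lg_Vc (Kn72.nu0 H o)
  have V1 := le_max_left 0 (-(logb p.n (Kn72.nu p σ) + 1 / 3) / 3)
  have V2 := le_max_right 0 (-(logb p.n (Kn72.nu p σ) + 1 / 3) / 3)
  have l : logb p.n (p.laG σ) = _ := H.lg_la (Kn72.nu0 H o)
  have l1 := min_le_left (-(logb p.n (Kn72.nu p σ) + 1 / 3) / 3)
    (-(logb p.n (Kn72.nu p σ) + 1 / 3) / 2)
  have e := lg_PtN_eq H o hη
  refine H.le_of_lg (by positivity) (by positivity) ?_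
  lg_norm
  rcases min_choice (logb p.n (p.PhN t))
    (5 / 8 * c + 2 * logb p.n (p.sM t) + 2 * logb p.n (p.laG σ)) with q | q <;> rw [q] at e <;>
  rcases lg_PhN_up H o hη with h | h <;> linarith [H.c_pos, (lg_sM H M').1]

theorem L0N0 : 0 < p.L0N σ t := mul_pos (H.rp0 _)
  (div_pos (sqrt_pos.2 (PtN0 H o hη)) (H.laG0 (Gr29.oct_mem o).1))

theorem lg_L0N :
    logb p.n (p.L0N σ t) = c / 200 + logb p.n (p.PtN σ t) / 2 - logb p.n (p.laG σ) := by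
  have a := H.laG0 (Gr29.oct_mem o).1
  have b := PtN0 H o hη
  have := H.N0
  rw [Pm.L0N]; lg_norm; rw [H.lg_n, H.hc]; ring

theorem la_Pt : p.laG σ ^ 2 ≤ p.PtN σ t :=
  H.le_of_lg (pow_pos (H.laG0 (Gr29.oct_mem o).1) 2) (PtN0 H o hη) (by
    rw [logb_pow]; push_cast; linarith [(lg_PtN H o hη).1, H.c_pos])

theorem L0N_le : p.L0N σ t ≤ (p.n : ℝ) ^ (1 / 18 : ℝ) := by
  refine H.le_of_lg (L0N0 H o hη) (H.rp0 _) ?_
  linarith [lg_L0N H o hη, (lg_PtN H o hη).2.1, H.lg_rp (1 / 18), H.c_le, H.lg_s.2]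

/-- hypothesis of `SD.wpl` -/
theorem n_wpl (G : GrD K c0' C0' η' p σ t Q) :
    64 * ((p.n : ℝ) ^ (c / 4000) * p.L0N σ t ^ 2 * (p.scG K σ t Q).w3 1) ≤ p.u2 (Kn72.nu p σ) := by
  obtain ⟨w0, w1⟩ := Kn72.lg_w3 H o G
  obtain ⟨M, -⟩ := Gr29.oct_mem o
  have m := H.muG_pos M
  have L0 := L0N0 H o hη
  have E0 := H.rp0 (c / 4000)
  have d := H.lg_mono m (H.oct_mu o).1
  have e := (H.lg_mt' m).2
  obtain ⟨f, -⟩ := Kn72.lg_nu H o
  obtain ⟨-, b1, b2⟩ := lg_PtN H o hη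
  have V := H.lg_Vc (Kn72.nu0 H o)
  have l : logb p.n (p.laG σ) = _ := H.lg_la (Kn72.nu0 H o)
  refine H.le_of_lg (by positivity) (H.u20 (Kn72.nu0 H o)) ?_
  rw [logb_mul (by norm_num) (by positivity), logb_mul (by positivity) w0.ne',
    logb_mul E0.ne' (by positivity), logb_pow, w1, Kn72.lg_u2 H o, lg_L0N H o hη, H.lg_rp]
  push_cast
  have g := (H.lg_num (x := 64) (by norm_num) (by norm_num)).2
  have := H.c_le
  have := H.c_pos
  have := H.lg_s.2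
  rcases max_cases 0 (-(logb p.n (Kn72.nu p σ) + 1 / 3) / 3) with ⟨q, _⟩ | ⟨q, _⟩ <;> rw [q] at V ⊢
  · linarith
  rw [min_eq_left (by linarith)] at l
  rcases lg_PhN_up H o hη with h | h <;> linarith [(lg_sM H (Gr29.oct_mem o).2).2.1]

omit o in
/-- `KN.Pw` -/
theorem Pw (M : p.MemG t) {x : ℝ} (h1 : p.lN t ≤ x) (h2 : x ≤ (p.n : ℝ) ^ η) :
    x ^ 3 * (1 / (p.n * x * p.msG t x)) ^ 2 ≤ p.PN t x ^ 3 ∧ p.v ≤ p.PN t x := by
  have x0 := (lN0 H M).trans_le h1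
  have m0 := H.msG_pos M x
  have μ0 := H.muG_pos M
  have N0 := H.N0
  have c0 := H.c_pos
  have c1 := H.c_le
  have η0 := H.η_pos
  obtain ⟨f1, f2, f3, -, -⟩ := lg_PhN H hη M
  have u1 := H.lg_mono (lN0 H M) h1
  have u2 := H.lg_mono x0 h2
  rw [lg_lN H M] at u1
  rw [H.lg_rp] at u2
  obtain ⟨m1, m2, -⟩ := H.lg_msG66 M x
  have xr : p.r ≤ x := H.le_of_lg H.r0 x0 (by linarith)
  have m4 := H.lg_mono (H.Tc0 x) (Reg.Tc_le xr)
  have A2 : (2 : ℝ) ≤ A := by exact_mod_cast H.A2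
  have v := H.lg_v_le
  have k : ∀ y, 0 < y → logb p.n x - 2 - 2 * logb p.n (p.msG t x) ≤ 3 * logb p.n y →
      -1 ≤ logb p.n y → x ^ 3 * (1 / (p.n * x * p.msG t x)) ^ 2 ≤ y ^ 3 ∧ p.v ≤ y :=
    fun y y0 e1 e2 => ⟨H.le_of_lg (by positivity) (by positivity) (by
      lg_norm; linarith [H.lg_n]), H.le_of_lg H.v0 y0 (by linarith)⟩
  have a := k _ (PhN0 H M) (by
    rcases m1 with m1 | m1 <;>
    rcases H.lg_Tc_cases (σ := t) x0 with ⟨_, _⟩ | ⟨_, _, _⟩ | ⟨_, _, _⟩ <;> linarith) (by linarith)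
  unfold Pm.PN
  split_ifs
  · exact a
  rcases min_choice (p.PhN t) (p.PbN t x) with q | q <;> rw [q]
  · exact a
  obtain ⟨n1, n2⟩ := Nr44.lg_n4 H
  have s0 := H.s0
  have s1 := H.lg_s.1
  have d0 : 0 < p.dN := H.rp0 _
  have d1 : logb p.n p.dN = -(c / 4000) := by rw [Pm.dN, H.lg_rp, H.hc]
  have r1 := H.rp0 (8 / 25 * p.c)
  have m3 := H.lg_mono m0 (H.msG_le (H.σ0 M) x)
  have m5 := H.lg_mono (H.Tc0 x) (H.Tc_le_ye x)
  rw [H.lg_ye] at m5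
  have z0 := sM0 H M
  have z1 := (lg_sM H M).2.1
  have r3 := div_pos m0 μ0
  have r4 : 0 < p.muG t * x ^ 2 / p.msG t x := by positivity
  have r5 := r3.trans_le (le_max_left _ (p.muG t * x ^ 2 / p.msG t x))
  have r2 := mul_pos (mul_pos r1 z0) r5
  have m6 := (H.lg_muG66 M).2.2
  have m7 := (H.lg_muG' M).2
  have e : logb p.n (p.PbN t x) = -(c / 2000) + (-(2 / 3) + 4 * logb p.n p.s) + logb p.n x -
      logb p.n (p.msG t x) - max 0 (8 / 25 * c + logb p.n (p.sM t) +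
        max (logb p.n (p.msG t x) - logb p.n (p.muG t))
          (logb p.n (p.muG t) + 2 * logb p.n x - logb p.n (p.msG t x))) := by
    rw [Pm.PbN, logb_div (by positivity) (by positivity), logb_mul (by positivity) x0.ne',
      logb_mul (by positivity) n1.ne', logb_pow, d1, n2, logb_mul m0.ne' (by positivity),
      lg_max H.N1 one_pos r2, logb_one, logb_mul (by positivity) r5.ne', lg_max H.N1 r3 r4,
      logb_mul r1.ne' z0.ne', H.lg_rp, H.hc, logb_div m0.ne' μ0.ne',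
      logb_div (by positivity) m0.ne', logb_mul μ0.ne' (by positivity), logb_pow]
    push_cast; ring
  have b : 4 * logb p.n x - 2 * logb p.n (p.msG t x) + 3 * logb p.n (p.muG t) ≤ -c := by
    rcases H.lg_Tc_cases (σ := t) x0 with ⟨_, _⟩ | ⟨_, _, _⟩ | ⟨_, _, y⟩
    · rcases m1 with m1 | m1 <;> linarith
    · rcases m1 with m1 | m1 <;> linarith
    · rw [y]; linarith
  refine k _ (by unfold Pm.PbN; positivity) ?_ ?_ <;> rw [e] <;>
  rcases max_choice (logb p.n (p.msG t x) - logb p.n (p.muG t))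
    (logb p.n (p.muG t) + 2 * logb p.n x - logb p.n (p.msG t x)) with q | q <;> rw [q] <;>
  simp only [max_def] <;> split_ifs <;> linarith

/-- `KN.Ptw` -/
theorem Ptw : (p.L0N σ t ^ 2 * (1 / (p.n * 1 * p.msG t 1))) ^ 2 ≤ p.PtN σ t ^ 3 ∧
    p.v ≤ p.PtN σ t := by
  obtain ⟨M, M'⟩ := Gr29.oct_mem o
  have a := L0N0 H o hη
  have b := PtN0 H o hη
  have μ0 := H.muG_pos M'
  have N0 := H.N0
  have c0 := H.c_pos
  have c1 := H.c_le
  have η0 := H.η_pos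
  have d := H.lg_mono (H.muG_pos M) (H.oct_mu o).1
  have e := (H.lg_muG' M).2
  have f := (lg_PtN H o hη).1
  have A2 : (2 : ℝ) ≤ A := by exact_mod_cast H.A2
  have v := H.lg_v_le
  rw [H.msG_one, mul_one]
  refine ⟨H.le_of_lg (by positivity) (by positivity) ?_, H.le_of_lg H.v0 b ?_⟩
  · lg_norm
    rw [lg_L0N H o hη, H.lg_n]
    rcases H.lg_laG M with ⟨_, _⟩ | ⟨_, _, _⟩ | ⟨_, _, _⟩ | ⟨_, _⟩ <;> linarith
  · rcases H.lg_laG M with ⟨_, _⟩ | ⟨_, _, _⟩ | ⟨_, _, _⟩ | ⟨_, _⟩ <;> linarith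

/-- **`KN` for the numbers `Pm.nb`** -/
theorem kn (hc : c ≤ 1 / 1000) (hK : 8 * K ^ 2 ≤ (p.n : ℝ) ^ η) (G : GrD K c0' C0' η' p σ t Q)
    (hg : Q.γ = 0) (N : ℝ) : (p.nb σ t N).KN (p.scG K σ t Q) (p.gst Q t) (p.dN)⁻¹ := by
  obtain ⟨M, M'⟩ := Gr29.oct_mem o
  have c0 := H.c_pos
  have η0 := H.η_pos
  have N0 := H.N0
  have D := Kn72.sd_gst H o G
  have la0 := H.laG0 M
  have l0 := lN0 H M'
  have P0 := PtN0 H o hη
  have laP := la_Pt H o hη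
  obtain ⟨f1, -, -, f4, f5⟩ := lg_PhN H hη M'
  have mono : ∀ {x y : ℝ}, x ≤ y → (p.n : ℝ) ^ x ≤ (p.n : ℝ) ^ y :=
    fun h => rpow_le_rpow_of_exponent_le H.N1.le h
  have B1 := H.num_le
  have hC : (p.scG K σ t Q).C ≤ (p.n : ℝ) ^ η := hK
  have C1 := G.cl.1.C1
  have e1 : p.L1N = (p.n : ℝ) ^ (c / 400) := by rw [Pm.L1N, H.hc]
  have BL : (p.n : ℝ) ^ η ≤ p.L1N := e1 ▸ mono (by linarith)
  have L1 : 1 ≤ p.L1N := by linarith
  have q1 : 1 ≤ √(p.PtN σ t) / p.laG σ := (one_le_div la0).2 (le_sqrt_of_sq_le laP)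
  have e0 : p.L0N σ t = p.L1N * (p.L1N * (√(p.PtN σ t) / p.laG σ)) := by
    rw [Pm.L0N, Pm.L1N, ← mul_assoc, ← rpow_add N0]; congr 2; ring
  have q2 : p.L1N ≤ p.L1N * (√(p.PtN σ t) / p.laG σ) := le_mul_of_one_le_right (by linarith) q1
  have CL : 26 * (p.scG K σ t Q).C ≤ p.L1N := by
    refine le_trans (b := (p.n : ℝ) ^ η * (p.n : ℝ) ^ η) (by nlinarith) ?_
    rw [← rpow_add N0, e1]; exact mono (by linarith)
  have ul : 2 * (p.scG K σ t Q).u0 ≤ p.lN t := by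
    refine le_of_pow_le_pow_left₀ three_ne_zero l0.le ?_
    rw [mul_pow, D.u0_cube, lN3 H M']
    refine H.le_of_lg (mul_pos (by norm_num) (pow_pos la0 2)) (PhN0 H M') ?_
    rw [logb_mul (by norm_num) (pow_pos D.nu.lp 2).ne', logb_pow _ _ 2]
    push_cast
    linarith [(H.lg_num (x := 2 ^ 3) (by norm_num) (by norm_num)).2, la_oct H o hη,
      show logb p.n (p.la (Kn72.nu p σ)) = logb p.n (p.laG σ) from rfl]
  have V0 := D.nu.Vp
  have l1 : p.lN t ≤ 1 := H.le_of_lg l0 one_pos (by rw [lg_lN H M', logb_one]; linarith)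
  have Pl : √(p.PhN t) ≤ p.lN t := sqrt_le_iff.2 ⟨l0.le, by
    rw [← lN3 H M']; exact pow_le_pow_of_le_one l0.le l1 (by norm_num)⟩
  have Vt0 : 0 ≤ p.VtN σ t := mul_nonneg (H.rp0 _).le (add_nonneg V0.le (sqrt_nonneg _))
  rw [dN_inv H]
  have cap := D.cap (Λ₀ := p.L0N σ t) (Λ₁ := p.L1N) (Vt := p.VtN σ t) (u := p.u1N σ / 4)
    (Λ₂ := 2 * (p.L1N * (√(p.PtN σ t) / p.laG σ))) P0.le (by
      change _ ≤ _ * p.laG σ
      rw [mul_assoc, mul_assoc, div_mul_cancel₀ _ la0.ne']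
      nlinarith [sqrt_nonneg (p.PtN σ t)]) (by
      change p.L1N * (p.Vc (Kn72.nu p σ) + _) ≤ _
      nlinarith [mul_le_mul_of_nonneg_left (Ph_Vc H o hη) (by linarith : 0 ≤ p.L1N),
        mul_le_mul_of_nonneg_right q2 V0.le]) (by linarith) (by
      rw [e0]; nlinarith [mul_le_mul_of_nonneg_right CL (by linarith : 0 ≤ p.L1N *
        (√(p.PtN σ t) / p.laG σ)), mul_le_mul_of_nonneg_right C1 (by linarith : 0 ≤ p.L1N *
        (√(p.PtN σ t) / p.laG σ))])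
  have u0 := D.nu.u2p
  have hv : 4 * (p.scG K σ t Q).C * (p.scG K σ t Q).v ≤ p.la (Kn72.nu p σ) := by
    rw [mul_assoc]
    exact (Kn72.n_fine H o (by linarith) (hC.trans (mono H.η_le))).trans D.nu.u2l
  have hΛ : 2 * log (1 + 1 / p.u2 (Kn72.nu p σ)) ≤ ((p.n : ℝ) ^ η) ^ 2 := by
    have a : 1 / p.u2 (Kn72.nu p σ) ≤ p.n := H.le_of_lg (by positivity) N0 (by
      lg_norm; linarith [(Kn72.lg_u2_bds H o).1, H.lg_n])
    have b := log_le_log (by positivity) (show 1 + 1 / p.u2 (Kn72.nu p σ) ≤ (p.n : ℝ) ^ 2 by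
      nlinarith [H.N3])
    rw [log_pow] at b
    push_cast at b
    nlinarith [H.log_le]
  refine ⟨Kn72.jj, Kn72.flat G hg, lN3 H M', ?_, (Nr44.jl H G (by linarith)).trans Nr44.r0,
    Nr44.l0l (E := (p.n : ℝ) ^ (c / 1000)) H M' (pw1 H (by positivity)) l0 ?_,
    fun x hx _ => Nr44.w0 H M' hc hx, fun x => ?_, fun x hx => if_pos (hx.trans ?_),
    fun x h1 h2 => Pw H hη M' h1 (h2.trans hC), min_le_left _ _, Ptw H o hη,
    ⟨D.u0p, D.u0_cube.le.trans laP⟩, D.dj, ⟨L1, ?_, (L0N_le H o hη).trans ?_⟩, D.lsJ.trans ul, Vt0,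
    (Kn72.n_ue H o).1, ⟨(Kn72.n_ue H o).2, D.nu.u2_sq.trans laP⟩,
    D.fine (Kn72.n_fine H o (H.rp0 _) (mono (by linarith))), cap, D.wpl le_rfl (n_wpl H o hη G),
    D.fin le_rfl (Kn72.n_fin H o G),
    K17.s2 D hv u0 le_rfl hΛ ?_, K17.s4 D hv u0 le_rfl hΛ P0.le Vt0 L1 ?_⟩
  · refine H.le_of_lg (mul_pos (H.rp0 _) l0) one_pos ?_
    change logb _ (_ * p.lN t) ≤ _
    rw [logb_mul (H.rp0 _).ne' l0.ne', H.lg_rp, lg_lN H M', logb_one]
    linarith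
  · change _ ≤ p.lN t ^ 3
    rw [lN3 H M', PhN_eq H]
    exact mul_le_mul_of_nonneg_right (by linarith [mono (show η ≤ c / 4000 by linarith)])
      (H.PhG0 M' (H.rp0 _)).le
  · change p.PN t x ≤ p.PhN t
    unfold Pm.PN
    split_ifs
    exacts [le_rfl, min_le_left _ _]
  · rw [H.hc]
    exact mul_le_mul_of_nonneg_right (mono (by linarith)) l0.le
  · change p.L1N ≤ p.L0N σ t
    rw [e0]
    exact q2.trans (le_mul_of_one_le_left (by linarith) L1)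
  · exact (mono (by norm_num)).trans_eq (rpow_one _)
  · have r := H.rp0 η
    change 3 * _ * p.laG σ ^ 2 ≤ p.PtN σ t
    refine H.le_of_lg (by positivity) P0 ?_
    rw [logb_mul (by positivity) (by positivity), logb_mul (by positivity) (by positivity),
      logb_pow, logb_pow, H.lg_rp]
    push_cast
    linarith [(H.lg_num (x := 3) (by norm_num) (by norm_num)).2, (lg_PtN H o hη).1]
  · change _ * (2 * (p.laG σ ^ 2 * _) + 41 * (_ * (p.PtN σ t *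
      (p.L1N * (p.Vc (Kn72.nu p σ) + √(p.PhN t)) + p.L1N * _) ^ 2)) + 4 * (p.L1N ^ 4 * _)) +
      p.PtN σ t * p.lN t ^ 2 + p.u2 (Kn72.nu p σ) ≤ (p.n : ℝ) ^ (p.c / 20) *
      (p.u2 (Kn72.nu p σ) + p.PtN σ t * (p.Vc (Kn72.nu p σ) ^ 2 + p.lN t ^ 2))
    have e : (p.n : ℝ) ^ (p.c / 20) = p.L1N ^ 20 := by
      rw [Pm.L1N, ← rpow_mul_natCast N0.le]; congr 1; push_cast; ring
    rw [e]
    exact num4 (by linarith) (B1.trans BL) BL V0.le u0.le P0.le D.u0p.le (by linarith) laP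
      (sqrt_nonneg _) Pl (by linarith) (by linarith)

omit H o hη in
/-- **the leaf `KNx` of `R77.locG_of'`** -/
theorem knG (hβ : 1 < β) : R77.OnG R77.KNx β := fun K _ =>
  Sml.triv.glue' hβ 0 (by norm_num : (0 : ℝ) < 1 / 1000) 100000 fun _ _ _ _ _ _ _ _ _ =>
    ⟨8 * K ^ 2, fun p R _ hc e _ _ _ _ σ t Q O D X => by
      push_cast at e
      obtain ⟨P, P', s, -, h, h', rfl⟩ := X
      have g : P'.γ = 0 := h'.elim (fun e => e ▸ h.g) fun e => e.g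
      exact kn R O e hc R.K_le D (by simp [Pl.mix, h.g, g]) 0⟩

end Crest.Agent.T156.Alt.Kn17

end
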