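import Crest.Agent.T156.LKu_37
import Crest.Agent.T156.KnG_17
import Crest.Agent.T156.LPx_13

/-!
# Row 156: the leaf `Upx` of `LocG` from `TLt` (helper37)
-/

set_option autoImplicit false
set_option linter.unusedSectionVars false

noncomputable section

namespace Crest.Agent.T156.Alt.Lk37

open Real Finset Plt13 Mem37
open Crest.Agent.T156.Alt.Kn72 (nu)

theorem cube3 {x : ℝ} (h : 0 ≤ x) : (x ^ ((1 : ℝ) / 3)) ^ 3 = x := by
  rw [← rpow_mul_natCast h]; norm_num

variable {β c0 C0 c0' C0' η' : ℝ} {A : ℕ} {c η K K' : ℝ} {p : Pm} {σ t : ℝ} {Q : Pl}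
  (H : Reg β c0 C0 A c η K' p) (o : p.OctR σ t) (G : GrD K c0' C0' η' p σ t Q) (X : p.PlX σ t Q)
include H o G X

theorem HJ_gst : (p.gst Q t).H (p.Jp Q) ≤ 1 := by
  have h := G.memD
  have K1 := h.K1
  have M := (Gr29.oct_mem o).2
  have θ := H.muG_pos M
  show p.HO Q (p.omG t) (p.bG t + 0) (p.Jp Q) + 0 ≤ 1
  rw [MemD.H_hi (by have := h.jlJ; have := J_le (p := p) (P := Q); omega), add_zero,
    h.geo.xP_top le_rfl]
  have a := (h.inc le_rfl (h.geo.sP_nn (p.Jp Q)) le_rfl).1.2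
  rw [h.mk0, sub_zero, sub_zero] at a
  have b := (abs_le.1 ((xk_of H o G X).hsL _ le_rfl)).2
  have d : K * p.msG t (p.sO Q (p.omG t) (p.Jp Q)) * p.sO Q (p.omG t) (p.Jp Q) ≤
      K * p.muG t * (K + 1) := mul_le_mul (mul_le_mul_of_nonneg_left (H.msG_le (H.σ0 M) _)
        (by linarith)) h.sT (h.geo.sP_nn _) (by positivity)
  have e := mul_le_mul_of_nonneg_left
    (show K * (K + 1) ≤ (p.n : ℝ) ^ η by nlinarith [Lx13.C_le H G]) θ.le
  have f := mul_le_mul_of_nonneg_left H.log_le θ.le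
  have Λ := H.Λ0
  have g : 7 * (p.muG t * (p.n : ℝ) ^ η) ≤ 1 := H.le_of_lg (by positivity) one_pos (by
    have := H.N0
    lg_norm; rw [H.lg_n]
    linarith [(H.lg_num (x := 7) (by norm_num) (by norm_num)).2, (H.lg_muG' M).2, H.η_le, H.c_pos])
  linarith

/-- **the numbers of the passes on the graded path** -/
theorem un_gst (hη : 100000 * η ≤ c) (hc : c ≤ 1 / 1000)
    (hK : 5 * (406 + 8 * K) ≤ (p.n : ℝ) ^ η) :
    UN (p.scG K σ t Q) (p.gst Q t) (p.la (nu p σ)) (p.Vc (nu p σ)) (p.u2 (nu p σ))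
      (max (p.Vc (nu p σ)) √(p.PhN t) ^ ((1 : ℝ) / 3)) (p.Vc (nu p σ) ^ ((1 : ℝ) / 3))
      ((p.n : ℝ) ^ c) (4 * log p.n) ((p.n : ℝ) ^ (c / 20000)) ((p.n : ℝ) ^ (c / 400)) := by
  obtain ⟨M, M'⟩ := Gr29.oct_mem o
  have x := xk_of H o G X
  have D := Kn72.sd_gst H o G
  have c0 := H.c_pos
  have η0 := H.η_pos
  have N0 := H.N0
  have K1 := G.nb.K1
  have hC : (p.scG K σ t Q).C ≤ (p.n : ℝ) ^ η := Lx13.C_le H G
  have C1 := G.cl.1.C1
  have lC := H.lg_cst C1 hC
  have mono : ∀ {x y : ℝ}, x ≤ y → (p.n : ℝ) ^ x ≤ (p.n : ℝ) ^ y :=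
    fun h => rpow_le_rpow_of_exponent_le H.N1.le h
  have V0 := D.nu.Vp
  have la0 := D.nu.lp
  have u0 := D.nu.u2p
  have P0 := Kn17.PhN0 H M'
  have θ0 := H.muG_pos M'
  have hθ : (p.scG K σ t Q).θ = p.muG t := G.top
  obtain ⟨w0, w1⟩ := Kn72.lg_w3 H o G
  obtain ⟨-, -, f3, -, f5⟩ := Kn17.lg_PhN H hη M'
  obtain ⟨a1, a2⟩ := Kn72.lg_nu H o
  have V := H.lg_Vc (Kn72.nu0 H o)
  have U := H.lg_u2 (Kn72.nu0 H o)
  have U1 := (Kn72.lg_u2_bds H o).1
  have L := H.lg_la (Kn72.nu0 H o)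
  have L1 := min_le_left (-(logb p.n (nu p σ) + 1 / 3) / 3) (-(logb p.n (nu p σ) + 1 / 3) / 2)
  have L2 := min_le_right (-(logb p.n (nu p σ) + 1 / 3) / 3) (-(logb p.n (nu p σ) + 1 / 3) / 2)
  have V1 := le_max_left 0 (-(logb p.n (nu p σ) + 1 / 3) / 3)
  have V2 := le_max_right 0 (-(logb p.n (nu p σ) + 1 / 3) / 3)
  have V3 : max 0 (-(logb p.n (nu p σ) + 1 / 3) / 3) ≤ 1 / 9 + 2 * c / 3 :=
    max_le (by linarith) (by linarith)
  have m0 := H.muG_pos M
  have m1 := H.lg_mono m0 (H.oct_mu o).1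
  have m2 := H.lg_mono θ0 (H.oct_mu o).2
  rw [logb_mul two_ne_zero m0.ne'] at m2
  obtain ⟨m3, m4⟩ := H.lg_mt' m0
  have m5 := (H.lg_mt m0).le.trans (min_le_right _ _)
  have m6 := (H.lg_muG' M').2
  have t2 := H.lg_two.2
  have s0 := sqrt_pos.2 P0
  have B0 : 0 < max (p.Vc (nu p σ)) √(p.PhN t) := lt_max_of_lt_left V0
  have B1 : logb p.n (max (p.Vc (nu p σ)) √(p.PhN t)) ≤ -(1 / 18) + 2 * c := by
    rw [lg_max H.N1 V0 s0, lg_sqrt _ P0.le]; exact max_le (by linarith) (by linarith)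
  have B2 := H.lg_mono s0 (le_max_right (p.Vc (nu p σ)) _)
  rw [lg_sqrt _ P0.le] at B2
  have y3 := cube3 B0.le
  have y0 : 0 < max (p.Vc (nu p σ)) √(p.PhN t) ^ ((1 : ℝ) / 3) := rpow_pos_of_pos B0 _
  have ry := rpow_le_rpow V0.le (le_max_left _ √(p.PhN t)) (show (0 : ℝ) ≤ 1 / 3 by norm_num)
  have yV : p.Vc (nu p σ) ≤ max (p.Vc (nu p σ)) √(p.PhN t) := le_max_left _ _
  have r3 := cube3 V0.le
  have r0 := rpow_pos_of_pos V0 ((1 : ℝ) / 3)
  generalize max (p.Vc (nu p σ)) √(p.PhN t) ^ ((1 : ℝ) / 3) = y at *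
  generalize p.Vc (nu p σ) ^ ((1 : ℝ) / 3) = r at *
  rw [← y3] at B1 B2 yV
  rw [logb_pow] at B1 B2
  have R : 3 * logb p.n r = logb p.n (p.Vc (nu p σ)) := by rw [← r3, logb_pow]; push_cast; ring
  push_cast at B1 B2
  have yl : p.lN t ≤ y ^ 2 := H.le_of_lg (Kn17.lN0 H M') (by positivity) (by
    rw [Kn17.lg_lN H M', logb_pow]; push_cast; linarith)
  have yr : (p.n : ℝ) ^ (c / 20000) * p.r ≤ y ^ 2 := by
    have := H.r0
    refine H.le_of_lg (by positivity) (by positivity) ?_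
    lg_norm; rw [H.lg_n]; linarith
  have E1 : 1 ≤ (p.n : ℝ) ^ (c / 20000) := Kn17.pw1 H (by positivity)
  have g := H.log1
  have e1 := H.lg_n
  refine ⟨D, G.cl.2, Kn72.jj, rfl, Kn72.flat G x.g0, (HJ_gst H o G X).trans C1, Lx13.rev H G, ?_,
    r0, r3, ry, E1, (mono (by linarith)).trans_eq (rpow_one _), ?_, ?_, ?_, fun z a _ => ?_,
    fun z a b => ?_, ?_, (Kn72.n_ue H o).1, by linarith, ?_, Kn17.pw1 H c0.le,
    Kn17.pw1 H (by positivity), ?_, ?_, ?_, ?_, ?_, ?_⟩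
  · refine ((Lx13.G_le G _ _).trans x.g2).trans (le_trans ?_
      ((pow_le_pow_left₀ V0.le yV 2).trans_eq (by ring)))
    have b0 : 0 < 5 * (406 + 8 * K) := by linarith
    have b1 := H.lg_le b0 hK
    have g0 : 0 < log (p.n : ℝ) := by linarith
    generalize 5 * (406 + 8 * K) = b at *
    refine H.le_of_lg (by positivity) (by positivity) ?_
    lg_norm
    linarith [H.lg_log.2, H.lg_mono la0 D.nu.lV]
  · refine H.le_of_lg (by positivity) one_pos ?_
    lg_norm; rw [e1]; linarith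
  · have : 0 < (p.scG K σ t Q).C := by linarith
    refine H.le_of_lg (by positivity) one_pos ?_
    lg_norm; linarith [(H.lg_num (x := 4) (by norm_num) (by norm_num)).2]
  · have j := Nr44.jl H G (by linarith)
    refine le_trans (mul_le_mul_of_nonneg_left ?_ (by linarith)) yr
    change (p.gst Q t).s p.jf ≤ _
    linarith [H.r0]
  · have zr : p.r ≤ z := ((le_mul_of_one_le_left H.r0.le E1).trans yr).trans a
    refine (H.msG_le_sq t z).trans ((mul_le_of_le_one_left (sq_nonneg _) H.κ1).trans ?_)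
    exact pow_le_pow_left₀ (H.xc0 z).le (max_le zr (min_le_left _ _)) 2
  · obtain ⟨d, e⟩ := Kn17.Pw H hη M' (yl.trans a) (b.trans hC)
    have f : p.PN t z ≤ p.PhN t := by
      unfold Pm.PN
      split_ifs
      exacts [le_rfl, min_le_left _ _]
    refine (d.trans (pow_le_pow_left₀ (H.v0.le.trans e) f 3)).trans ?_
    refine H.le_of_lg (by positivity) (by positivity) ?_
    lg_norm; linarith
  · have d := Kn72.n_fine (K := K) (Q := Q) H o (E := 2 * (p.scG K σ t Q).C) (by linarith)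
      (H.le_of_lg (by linarith) (H.rp0 _) (by
        rw [logb_mul two_ne_zero (by linarith), H.lg_rp]; linarith))
    linarith
  · have a : 4 / p.u2 (nu p σ) ≤ p.n := H.le_of_lg (by positivity) N0 (by
      lg_norm; linarith [(H.lg_num (x := 4) (by norm_num) (by norm_num)).2])
    have b := log_le_log (by positivity) (show 1 + 4 / p.u2 (nu p σ) ≤ (p.n : ℝ) ^ 2 by
      nlinarith [H.N3])
    rw [log_pow] at b
    push_cast at b
    linarith
  · refine H.le_of_lg (by positivity) (by positivity) ?_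
    lg_norm; rw [e1]; linarith [(H.lg_num (x := 64) (by norm_num) (by norm_num)).2]
  · refine H.le_of_lg (by positivity) one_pos ?_
    lg_norm; rw [e1]; linarith
  · refine H.le_of_lg (by positivity) (by positivity) ?_
    have := (H.lg_num (x := 256) (by norm_num) (by norm_num)).2
    lg_norm; rw [e1]
    rcases le_max_iff.1 m5 with q | q <;> linarith
  · rw [hθ]
    refine H.le_of_lg (by positivity) (by positivity) ?_
    lg_norm
    rcases le_total 0 (logb p.n (nu p σ) + 1 / 3) with q | q <;> linarith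
  · change 1 ≤ (p.n : ℝ) * _
    refine H.le_of_lg one_pos (by positivity) ?_
    lg_norm; linarith
  · change 4 ≤ (p.n : ℝ) * _
    refine H.le_of_lg (by norm_num) (by positivity) ?_
    lg_norm; linarith [(H.lg_num (x := 4) (by norm_num) (by norm_num)).2]

omit o X in
theorem loss_le (hη : 100000 * η ≤ c) : 300 * (p.scG K σ t Q).C ^ 4 *
    ((p.n : ℝ) ^ η * (p.n : ℝ) ^ (c / 20000) * (4 * log p.n)) ≤ (p.n : ℝ) ^ (c / 400) := by
  have C1 := G.cl.1.C1
  have lC := (H.lg_cst C1 (Lx13.C_le H G)).2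
  have : 0 < (p.scG K σ t Q).C := by linarith
  have g0 : 0 < log (p.n : ℝ) := by linarith [H.log1]
  have N0 := H.N0
  refine H.le_of_lg (by positivity) (by positivity) ?_
  lg_norm; rw [H.lg_n]
  linarith [(H.lg_num (x := 4) (by norm_num) (by norm_num)).2, H.lg_log.2, H.c_pos,
    (H.lg_num (x := 300) (by norm_num) (by norm_num)).2]

omit H o G X in
/-- **the leaf `Upx`** -/
theorem upG (hβ : 1 < β) (T : L69.TLt) : R77.OnG R77.Upx β := fun K _ =>
  Sml.glueCL (P := fun _ _ => True) (Q := fun _ _ => True) hβ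
    (fun _ _ _ _ => ⟨1, le_rfl, fun _ _ _ _ _ => .of_forall fun _ _ _ _ _ _ _ => trivial⟩)
    Sml.triv (up_cl T) (fun _ => 8 * K ^ 2) (fun c => c / 20000) (fun c hc => by positivity)
    fun _ _ c0 C0 _ _ => ⟨0, fun A _ => ⟨1 / 1000, by norm_num, fun c hc c' =>
      ⟨c / 100000, by positivity, fun η hη _ => ⟨5 * (406 + 8 * K),
        fun p H _ _ L c0' C0' η' σ t Q o G X m a I hΦ k hk => by
          have e : 100000 * η ≤ c := by linarith
          have U := un_gst H o G X e hc H.K_le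
          have l := L _ _ rfl rfl rfl G.cl.1 m a I
          rw [H.hc] at l
          have V0 := U.V0
          have P0 := Kn17.PhN0 H (Gr29.oct_mem o).2
          have s0 := sqrt_nonneg (p.PhN t)
          have y3 := cube3 (le_max_of_le_left V0.le : 0 ≤ max (p.Vc (nu p σ)) √(p.PhN t))
          have b := l _ _ _ _ _ _ _ _ U (loss_le H G e) (hΦ.trans (by
            rw [show 6 = 3 * 2 from rfl, pow_mul, y3]
            exact (sq_sqrt P0.le).ge.trans (pow_le_pow_left₀ s0 (le_max_right _ _) 2))) k hk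
          rw [y3, mul_add] at b
          rw [Pm.VtN, Pm.L1N, H.hc]
          refine b.trans (add_le_add (mul_le_mul_of_nonneg_left (max_le ?_ ?_) (H.rp0 _).le) le_rfl)
          · exact le_add_of_nonneg_right s0
          · exact le_add_of_nonneg_left V0.le⟩⟩⟩⟩

end Crest.Agent.T156.Alt.Lk37

end
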