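import Crest.Agent.T156.LtD_29
import Crest.Agent.T156.NRn_44

/-!
# Row 156 (helper15): the exponents of the numbers of `LtD_29`, and the lines of the passes
-/

set_option autoImplicit false
set_option linter.unusedSectionVars false

noncomputable section

namespace Crest.Agent.T156.Alt.Lt15

open Real Set
open Crest.Agent.T156.Alt.Kn72 (nu)

variable {β c0 C0 : ℝ} {A : ℕ} {c η K : ℝ} {p : Pm} {σ t y : ℝ}

section reg

variable (H : Reg β c0 C0 A c η K p)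
include H

/-- the exponent of a sum of two terms -/
theorem two {a b : ℝ} (ha : 0 < a) (hb : 0 < b) : logb p.n a ≤ logb p.n (a + b) ∧
    logb p.n b ≤ logb p.n (a + b) ∧
      (logb p.n (a + b) ≤ η + logb p.n a ∨ logb p.n (a + b) ≤ η + logb p.n b) := by
  have k : ∀ x, 0 < x → a + b ≤ 2 * x → logb p.n (a + b) ≤ η + logb p.n x := fun x hx h => by
    have := H.lg_mono (add_pos ha hb) h
    rw [logb_mul two_ne_zero hx.ne'] at this
    linarith [H.lg_two66.2]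
  refine ⟨H.lg_mono ha (by linarith), H.lg_mono hb (by linarith), ?_⟩
  rcases le_total a b with h | h
  · exact .inr (k b hb (by linarith))
  · exact .inl (k a ha (by linarith))

/-- the exponent of a sum of three terms -/
theorem three {a b d : ℝ} (ha : 0 < a) (hb : 0 < b) (hd : 0 < d) :
    logb p.n a ≤ logb p.n (a + b + d) ∧ logb p.n b ≤ logb p.n (a + b + d) ∧
    logb p.n d ≤ logb p.n (a + b + d) ∧ (logb p.n (a + b + d) ≤ η + logb p.n a ∨
      logb p.n (a + b + d) ≤ η + logb p.n b ∨ logb p.n (a + b + d) ≤ η + logb p.n d) := by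
  have k : ∀ x, 0 < x → a + b + d ≤ 3 * x → logb p.n (a + b + d) ≤ η + logb p.n x :=
    fun x hx h => by
    have := H.lg_mono (by positivity) h
    rw [logb_mul three_ne_zero hx.ne'] at this
    linarith [(H.lg_num (x := 3) (by norm_num) (by norm_num)).2]
  refine ⟨H.lg_mono ha (by linarith), H.lg_mono hb (by linarith), H.lg_mono hd (by linarith), ?_⟩
  by_cases h1 : a + b + d ≤ 3 * a
  · exact .inl (k a ha h1)
  by_cases h2 : a + b + d ≤ 3 * b
  · exact .inr (.inl (k b hb h2))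
  · exact .inr (.inr (k d hd (by linarith)))

theorem nc0 (e : ℝ) : 0 < p.nc e := H.rp0 _
theorem lg_nc (e : ℝ) : logb p.n (p.nc e) = e * c := by rw [Pm.nc, H.lg_rp, H.hc]
theorem nc1 {e : ℝ} (he : 0 ≤ e) : 1 ≤ p.nc e :=
  one_le_rpow H.N1.le (mul_nonneg he (by rw [H.hc]; exact H.c_pos.le))
theorem EL0 : 0 < p.EL := nc0 H _
theorem EL1 : 1 ≤ p.EL := nc1 H (by norm_num)
theorem lg_EL : logb p.n p.EL = c / 100000 := by rw [Pm.EL, lg_nc H]; ring
theorem LgL0 : 0 < p.LgL := pow_pos (EL0 H) 2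
theorem lg_LgL : logb p.n p.LgL = c / 50000 := by rw [Pm.LgL, logb_pow, lg_EL H]; push_cast; ring
theorem t1L0 : 0 < p.t1L := one_div_pos.2 (pow_pos (EL0 H) 3)
theorem lg_t1L : logb p.n p.t1L = -(3 * c / 100000) := by
  have := EL0 H
  rw [Pm.t1L]; lg_norm; rw [lg_EL H]; ring

end reg

variable (X : Nr44.Cx β c0 C0 A c η K p σ t)
include X

theorem t0 : 0 < t := X.H.sgG_pos X.Mt
theorem lg_x3 : logb p.n (p.muG t * (p.n : ℝ) ^ ((1 : ℝ) / 3)) = logb p.n (p.muG t) + 1 / 3 := by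
  rw [logb_mul X.θ0.ne' (X.H.rp0 _).ne', X.H.lg_rp]
theorem xM0 : 0 < p.xM t := one_pos.trans_le (le_max_left _ _)
theorem lg_xM_eq : logb p.n (p.xM t) = max 0 (logb p.n (p.muG t) + 1 / 3) := by
  rw [Pm.xM, lg_max X.H.N1 one_pos (mul_pos X.θ0 (X.H.rp0 _)), logb_one, lg_x3 X]
theorem lg_xM : (0 ≤ logb p.n (p.muG t) + 1 / 3 ∧ logb p.n (p.xM t) = logb p.n (p.muG t) + 1 / 3) ∨
    (logb p.n (p.muG t) + 1 / 3 ≤ 0 ∧ logb p.n (p.xM t) = 0) := by
  rw [lg_xM_eq X]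
  rcases le_total 0 (logb p.n (p.muG t) + 1 / 3) with h | h
  · exact .inl ⟨h, max_eq_right h⟩
  · exact .inr ⟨h, max_eq_left h⟩
theorem wL0 : 0 < p.wL t := one_div_pos.2 (mul_pos X.H.N0 X.θ0)
theorem lg_wL : logb p.n (p.wL t) = -1 - logb p.n (p.muG t) := by
  have := X.H.N0; have := X.θ0
  rw [Pm.wL]; lg_norm; rw [X.H.lg_n]; ring
theorem need_iff : p.Need t ↔ -(4 * c) ≤ logb p.n (p.muG t) + 1 / 3 := by
  rw [Pm.Need, ← logb_le_logb X.H.N1 (pow_pos X.H.κ0 4) (mul_pos X.θ0 (X.H.rp0 _)), lg_x3 X,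
    logb_pow, X.H.lg_κ]
  push_cast
  constructor <;> intro <;> linarith
theorem top_iff : p.TopR t ↔ -(23 / 40 * c) ≤ logb p.n (p.muG t) + 1 / 3 := by
  rw [Pm.TopR, ← logb_le_logb X.H.N1 (nc0 X.H _) (mul_pos X.θ0 (X.H.rp0 _)), lg_x3 X, lg_nc X.H,
    neg_mul]
theorem need2_iff : p.Need2 t ↔
    logb p.n p.s ≤ 7 / 200 ∨ 1 / 20 ≤ logb p.n (p.muG t) + 1 / 3 := by
  rw [Pm.Need2, ← logb_le_logb X.H.N1 X.H.s0 (X.H.rp0 _),
    ← logb_le_logb X.H.N1 (X.H.rp0 _) (mul_pos X.θ0 (X.H.rp0 _)), lg_x3 X, X.H.lg_rp, X.H.lg_rp]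
theorem lg_lN : logb p.n (p.lN t) = logb p.n (p.PhN t) / 3 := Nr44.lgl X.H X.hy

/-- `θ` and the amplitude -/
theorem lg_θ : (-(7 * c) ≤ logb p.n (p.muG t) ∨ logb p.n t - 11 / 2 * c ≤ logb p.n (p.muG t)) ∧
    logb p.n (p.muG t) ≤ -(7 * c) + η ∧ logb p.n (p.muG t) ≤ logb p.n t - 11 / 2 * c + η :=
  X.H.lg_muG66 X.Mt

/-- lower bounds of the energy -/
theorem lg_Ph_lo : -(1 / 2) + c / 2 ≤ logb p.n (p.PhN t) ∧
    2 / 3 * (-(1 / 3) + c - logb p.n t) - 1 / 3 ≤ logb p.n (p.PhN t) ∧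
    3 * (logb p.n p.s + c / 7 - 1 / 6) ≤ logb p.n (p.PhN t) ∧
    2 * logb p.n (p.laG σ) ≤ logb p.n (p.PhN t) := by
  have E0 := X.H.rp0 (p.c / 1000)
  obtain ⟨⟨a, b, -, -⟩, -⟩ := X.H.lg_PhG X.Mt E0
  obtain ⟨y1, y2, -⟩ := X.H.lg_yS X.Mt E0
  have := X.H.lg_nn X.E1
  have := X.H.c_pos
  refine ⟨?_, ?_, ?_, ?_⟩ <;> linarith [X.lg_Ph, X.H.lg_r, X.lg_laΦ]

/-- upper bound of the energy in the range of (L) -/
theorem lg_Ph_hi (nd : p.Need t) : logb p.n (p.PhN t) ≤ -(71 / 250) := by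
  obtain ⟨c0, c1, e0, e1, s0, s1, x0, x1, m0, m1, m2, up⟩ := Nr44.ex X.H X.hy
  have := (need_iff X).1 nd
  have := X.hc
  rcases up with up | up | ⟨up, _, _⟩ | up | ⟨up, _⟩ | up | up | ⟨up, _, _⟩ | ⟨up, _⟩ | up |
    ⟨up, _⟩ <;> linarith

/-- `ν` against `θ` -/
theorem lg_ν : logb p.n (p.muG t) - η ≤ logb p.n (nu p σ) ∧
    (logb p.n (nu p σ) ≤ logb p.n (p.muG t) ∨ logb p.n (nu p σ) ≤ -(1 / 3) - c) := by
  refine ⟨by linarith [X.lg_θν], ?_⟩
  have a := X.H.lg_mono X.ν0 ((X.H.oct_mt X.o).1.trans (Pm.mt_le' _))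
  have := X.H.κ0; have := X.H.N0
  rw [lg_max X.H.N1 X.θ0 (by positivity), logb_mul X.H.κ0.ne' (X.H.rp0 _).ne', X.H.lg_κ,
    X.H.lg_rp] at a
  exact (le_max_iff.1 a).imp id fun h => by linarith

/-- the amplitude of the static marks in the range of (L) -/
theorem lg_la (nd : p.Need t) :
    -(1 / 3) - c - logb p.n (p.xM t) ≤ 2 * logb p.n (p.laG σ) ∧
    2 * logb p.n (p.laG σ) ≤ -(1 / 3) + 2 * c ∧
    2 * logb p.n (p.laG σ) ≤ -(1 / 3) - c - (logb p.n (p.muG t) + 1 / 3) + η := by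
  have := (need_iff X).1 nd
  have := X.H.c_pos; have := X.hη; have := X.H.η_pos
  obtain ⟨a, b⟩ := lg_ν X
  refine ⟨?_, ?_, by linarith [X.lg_θla]⟩ <;>
  rcases X.lg_pl with ⟨_, _, _, _⟩ | ⟨_, _, _, _⟩ <;> rcases lg_xM X with ⟨_, _⟩ | ⟨_, _⟩ <;>
  rcases b with b | b <;> linarith

theorem lw_eq : logb p.n (p.lwG t) = max (-(1 - c) / 6) (-(2 / 11) * (1 - c + logb p.n t)) := by
  rw [Pm.lwG, lg_max X.H.N1 (Nr44.lw1 X.H).1 (Nr44.lw2 X.H X.Mt).1, (Nr44.lw1 X.H).2,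
    (Nr44.lw2 X.H X.Mt).2]
theorem l0L0 : 0 < p.l0L t := (mul_pos (pow_pos (EL0 X.H) 2) X.H.rj0).trans_le (le_max_left _ _)
theorem lg_l0L : (c / 50000 + (logb p.n p.s + c / 13 - 1 / 6) ≤ logb p.n (p.l0L t) ∧
      -(1 - c) / 6 ≤ logb p.n (p.l0L t) ∧ -(2 / 11) * (1 - c + logb p.n t) ≤ logb p.n (p.l0L t)) ∧
    (logb p.n (p.l0L t) = c / 50000 + (logb p.n p.s + c / 13 - 1 / 6) ∨
      logb p.n (p.l0L t) ≤ η - (1 - c) / 6 ∨
      logb p.n (p.l0L t) ≤ η - (2 / 11) * (1 - c + logb p.n t)) := by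
  have := EL0 X.H; have := X.H.rj0; have w := Nr44.lw0 (σ := t) X.H
  obtain ⟨n0, n1⟩ := X.H.lg_num (x := 8) (by norm_num) (by norm_num)
  have e : logb p.n (p.l0L t) = max (c / 50000 + (logb p.n p.s + c / 13 - 1 / 6))
      (logb p.n 8 + max (-(1 - c) / 6) (-(2 / 11) * (1 - c + logb p.n t))) := by
    rw [Pm.l0L, lg_max X.H.N1 (by positivity) (by positivity)]
    lg_norm
    rw [lg_EL X.H, X.H.lg_rj, lw_eq X]
    congr 1
    ring
  have a := le_max_left (-(1 - c) / 6) (-(2 / 11) * (1 - c + logb p.n t))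
  have b := le_max_right (-(1 - c) / 6) (-(2 / 11) * (1 - c + logb p.n t))
  have d := max_choice (-(1 - c) / 6) (-(2 / 11) * (1 - c + logb p.n t))
  generalize max (-(1 - c) / 6) (-(2 / 11) * (1 - c + logb p.n t)) = z at *
  rw [e]
  refine ⟨⟨le_max_left _ _, le_max_of_le_right (by linarith), le_max_of_le_right (by linarith)⟩, ?_⟩
  rcases max_choice (c / 50000 + (logb p.n p.s + c / 13 - 1 / 6)) (logb p.n 8 + z) with h | h
  · exact .inl h
  · rw [h]; exact .inr (d.imp (fun _ => by linarith) fun _ => by linarith)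

theorem X2L0 : 0 < p.X2L t := by
  have := nc0 X.H (1 / 1000); have := X.Ph0; have := X.lN0; have := X.H.N0
  rw [Pm.X2L]; positivity
theorem lg_X2L_eq : logb p.n (p.X2L t) = c / 1000 + min (logb p.n (p.PhN t))
    (2 / 3 * logb p.n (p.PhN t) + max (c / 100 + (logb p.n p.s + c / 13 - 1 / 6)) (-7 / 60)) := by
  have := nc0 X.H (1 / 1000); have := X.Ph0; have := X.lN0; have := X.H.N0
  have := nc0 X.H (1 / 100); have := X.H.rj0
  rw [Pm.X2L, logb_mul (by positivity) (by positivity), lg_min X.H.N1 X.Ph0 (by positivity),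
    logb_mul (by positivity) (by positivity), lg_max X.H.N1 (by positivity) (by positivity),
    logb_mul (by positivity) (by positivity), logb_pow, lg_nc X.H, lg_nc X.H, X.H.lg_rp, X.H.lg_rj,
    lg_lN X]
  push_cast
  rw [show 1 / 1000 * c = c / 1000 by ring, show 1 / 100 * c = c / 100 by ring,
    show 2 * (logb p.n (p.PhN t) / 3) = 2 / 3 * logb p.n (p.PhN t) by ring]
/-- `X2L`: upper bounds, and the value -/
theorem lg_X2L : logb p.n (p.X2L t) ≤ c / 1000 + logb p.n (p.PhN t) ∧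
    (logb p.n (p.X2L t) ≤ c / 1000 + 2 / 3 * logb p.n (p.PhN t) +
        (c / 100 + (logb p.n p.s + c / 13 - 1 / 6)) ∨
      logb p.n (p.X2L t) ≤ c / 1000 + 2 / 3 * logb p.n (p.PhN t) - 7 / 60) ∧
    (logb p.n (p.X2L t) = c / 1000 + logb p.n (p.PhN t) ∨
      (c / 1000 + 2 / 3 * logb p.n (p.PhN t) + (c / 100 + (logb p.n p.s + c / 13 - 1 / 6)) ≤
        logb p.n (p.X2L t) ∧
      c / 1000 + 2 / 3 * logb p.n (p.PhN t) - 7 / 60 ≤ logb p.n (p.X2L t))) := by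
  rw [lg_X2L_eq X]
  have a := le_max_left (c / 100 + (logb p.n p.s + c / 13 - 1 / 6)) (-7 / 60)
  have b := le_max_right (c / 100 + (logb p.n p.s + c / 13 - 1 / 6)) (-7 / 60)
  have d := max_choice (c / 100 + (logb p.n p.s + c / 13 - 1 / 6)) (-7 / 60)
  generalize max (c / 100 + (logb p.n p.s + c / 13 - 1 / 6)) (-7 / 60) = z at *
  have e := min_le_left (logb p.n (p.PhN t)) (2 / 3 * logb p.n (p.PhN t) + z)
  have f := min_le_right (logb p.n (p.PhN t)) (2 / 3 * logb p.n (p.PhN t) + z)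
  refine ⟨by linarith, d.imp (fun _ => by linarith) fun _ => by linarith, ?_⟩
  exact (min_choice (logb p.n (p.PhN t)) (2 / 3 * logb p.n (p.PhN t) + z)).imp
    (fun _ => by linarith) fun _ => ⟨by linarith, by linarith⟩

theorem E2L0 : 0 < p.E2L t := (nc0 X.H _).trans_le (le_max_left _ _)
theorem yA0 : 0 < p.yA (p.E2L t) t := by
  have := E2L0 X; have := X.H.N0; have := X.H.κ0; have := t0 X
  rw [Pm.yA]; positivity
theorem yB0 : 0 < p.yB (p.E2L t) := by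
  have := E2L0 X; have := X.H.N0; have := X.H.κ0
  rw [Pm.yB]; positivity
theorem yL0 : 0 < p.yL t := (yA0 X).trans_le (le_max_left _ _)
theorem lg_yL : logb p.n (p.yL t) =
    max (2 / 3 * (logb p.n (p.E2L t) - 1 / 3 + c - logb p.n t))
      ((logb p.n (p.E2L t) - 1 / 3 + c) / 2) := by
  rw [Pm.yL, lg_max X.H.N1 (yA0 X) (yB0 X), X.H.lg_yA X.Mt (E2L0 X), X.H.lg_yB (E2L0 X)]
theorem ltL0 : 0 < p.ltL t := (mul_pos (nc0 X.H _) X.lN0).trans_le (le_max_left _ _)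
theorem lg_ltL : logb p.n (p.ltL t) = max (c / 3000 + logb p.n (p.PhN t) / 3)
    (min (logb p.n (p.yL t)) (-(10 * c)) - logb p.n 8) := by
  have := nc0 X.H (1 / 3000); have := X.lN0; have := yL0 X; have := X.H.κ0
  rw [Pm.ltL, lg_max X.H.N1 (by positivity) (by positivity), logb_mul (by positivity) (by positivity),
    logb_div (by positivity) (by positivity), lg_min X.H.N1 (by positivity) (by positivity),
    logb_pow, lg_nc X.H, lg_lN X, X.H.lg_κ]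
  push_cast
  congr 2
  · ring
  · congr 1; ring

theorem X3L0 : 0 < p.X3L t := by
  have := X2L0 X; have := X.H.N0
  rw [Pm.X3L]; positivity
theorem lg_X3L : -(101 / 200) ≤ logb p.n (p.X3L t) ∧
    3 / 2 * logb p.n (p.X2L t) ≤ logb p.n (p.X3L t) ∧
    (logb p.n (p.X3L t) ≤ η - 101 / 200 ∨
      logb p.n (p.X3L t) ≤ η + 3 / 2 * logb p.n (p.X2L t)) := by
  have := X2L0 X
  obtain ⟨a, b, d⟩ := two X.H (X.H.rp0 (-(101 : ℝ) / 200))
    (show 0 < p.X2L t ^ ((3 : ℝ) / 2) by positivity)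
  rw [X.H.lg_rp] at a d
  rw [logb_rpow_eq_mul_logb_of_pos (X2L0 X)] at b d
  rw [Pm.X3L]
  exact ⟨by linarith, by linarith, d.imp (fun _ => by linarith) fun _ => by linarith⟩

theorem G0L0 : 0 < p.G0L σ t := by
  have := X2L0 X; have := nc0 X.H 5; have := nc0 X.H (1 / 100); have := X.H.N0; have := xM0 X
  rw [Pm.G0L]; positivity
theorem lg_G0L : 5 * c - 1 / 3 - logb p.n (p.xM t) / 2 ≤ logb p.n (p.G0L σ t) ∧
    c / 100 + (-1 - logb p.n (p.muG t) + logb p.n (p.PhN t) / 2 - logb p.n (p.laG σ)) / 2 ≤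
      logb p.n (p.G0L σ t) ∧ logb p.n (p.X2L t) ≤ logb p.n (p.G0L σ t) ∧
    (logb p.n (p.G0L σ t) ≤ η + 5 * c - 1 / 3 - logb p.n (p.xM t) / 2 ∨
      logb p.n (p.G0L σ t) ≤ η + c / 100 +
        (-1 - logb p.n (p.muG t) + logb p.n (p.PhN t) / 2 - logb p.n (p.laG σ)) / 2 ∨
      logb p.n (p.G0L σ t) ≤ η + logb p.n (p.X2L t)) := by
  have := nc0 X.H 5; have := nc0 X.H (1 / 100); have := X.H.N0; have := xM0 X
  have := wL0 X; have := X.Ph0; have := X.la0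
  obtain ⟨a, b, d, e⟩ := three X.H
    (show 0 < p.nc 5 * (p.n : ℝ) ^ (-(1 : ℝ) / 3) / √(p.xM t) by positivity)
    (show 0 < p.nc (1 / 100) * √(p.wL t * √(p.PhN t) / p.laG σ) by positivity) (X2L0 X)
  rw [← Pm.G0L] at a b d e
  generalize logb p.n (p.G0L σ t) = g at *
  revert a b e
  lg_norm
  rw [lg_nc X.H, lg_nc X.H, X.H.lg_n, lg_wL X]
  intro a b e
  exact ⟨by linarith, by linarith, d,
    e.imp (fun _ => by linarith) fun e => e.imp (fun _ => by linarith) id⟩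

theorem uL0 : 0 < p.uL t := div_pos (X.H.rp0 _) (xM0 X)
theorem lg_uL : logb p.n (p.uL t) = -(51 / 100) - logb p.n (p.xM t) := by
  rw [Pm.uL, logb_div (X.H.rp0 _).ne' (xM0 X).ne', X.H.lg_rp]; ring
theorem VL0 : 0 < p.VL σ t :=
  mul_pos (nc0 X.H _) (X.Vc0.trans_le ((le_max_right _ _).trans (le_max_right _ _)))
theorem lg_VL : logb p.n (p.VL σ t) = c / 100 +
    max (max ((-(49 / 100) - logb p.n (p.muG t) + logb p.n (p.xM t)) / 3) (logb p.n (p.muG t) / 2))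
      (max (logb p.n (p.PhN t) / 2) (logb p.n (p.Vc (nu p σ)))) := by
  have := nc0 X.H (1 / 100); have := wL0 X; have := uL0 X; have := X.θ0; have := X.Ph0
  have : 0 < p.Vc (p.mt (p.muG σ)) := X.Vc0
  rw [Pm.VL, logb_mul (by positivity) (by positivity), lg_max X.H.N1 (by positivity) (by positivity),
    lg_max X.H.N1 (by positivity) (by positivity), lg_max X.H.N1 (by positivity) (by positivity)]
  lg_norm
  rw [lg_nc X.H, lg_wL X, lg_uL X, show 1 / 100 * c = c / 100 by ring]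
  congr 3
  ring
theorem GaL0 : 0 < p.GaL σ t := mul_pos (EL0 X.H) (pow_pos (mul_pos X.θ0 X.la0) 2)
theorem lg_GaL : logb p.n (p.GaL σ t) =
    c / 100000 + 2 * logb p.n (p.muG t) + 2 * logb p.n (p.laG σ) := by
  have := EL0 X.H; have := X.θ0; have := X.la0
  rw [Pm.GaL]; lg_norm; rw [lg_EL X.H]; ring
theorem jL0 : 0 < p.jL σ t := by
  have := l0L0 X
  rw [Pm.jL]; positivity
theorem lg_jL : logb p.n (p.PhN t) / 2 ≤ logb p.n (p.jL σ t) ∧
    (logb p.n (p.jL σ t) ≤ η + logb p.n (p.PhN t) / 2 ∨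
      logb p.n (p.jL σ t) ≤ η + c / 200000 + logb p.n (p.muG t) + logb p.n (p.laG σ) ∨
      logb p.n (p.jL σ t) ≤ η + 2 * logb p.n (p.l0L t)) := by
  obtain ⟨a, -, -, e⟩ := three X.H (sqrt_pos.2 X.Ph0) (sqrt_pos.2 (GaL0 X)) (pow_pos (l0L0 X) 2)
  rw [← Pm.jL, lg_sqrt _ X.Ph0.le] at a e
  rw [lg_sqrt _ (GaL0 X).le, logb_pow, lg_GaL X] at e
  push_cast at e
  exact ⟨a, e.imp id fun e => e.imp (fun _ => by linarith) id⟩
theorem LcL0 : 0 < p.LcL t := mul_pos (nc0 X.H _) (rpow_pos_of_pos (xM0 X) _)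
theorem lg_LcL : logb p.n (p.LcL t) = c / 50 + logb p.n (p.xM t) / 4 := by
  have := nc0 X.H (1 / 50); have := xM0 X
  rw [Pm.LcL]; lg_norm; rw [lg_nc X.H]; ring
theorem ucL0 : 0 < p.ucL t := mul_pos (rpow_pos_of_pos (LcL0 X) _) (rpow_pos_of_pos (wL0 X) _)
theorem lg_ucL : logb p.n (p.ucL t) =
    c / 75 + logb p.n (p.xM t) / 6 - (1 + logb p.n (p.muG t)) / 3 := by
  have := LcL0 X; have := wL0 X
  rw [Pm.ucL]; lg_norm; rw [lg_LcL X, lg_wL X]; ring

theorem ecL0 (hy : 0 ≤ y) : 0 < p.ecL σ t y := by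
  have := ucL0 X; have := X.θ0; have := jL0 X; have := G0L0 X; have := X2L0 X; have := X3L0 X
  have := X.H.N0
  rw [Pm.ecL]; positivity
/-- `ecL` from above: twelve lines -/
theorem ecL_le (hy : 0 < y) {b : ℝ} (h1 : 3 * logb p.n (p.ucL t) ≤ b)
    (h2 : 2 * logb p.n (p.ucL t) + logb p.n (p.muG t) ≤ b)
    (h3 : 2 * logb p.n (p.ucL t) + logb p.n (p.jL σ t) ≤ b)
    (h4 : 2 * logb p.n (p.ucL t) + logb p.n y / 3 ≤ b)
    (h5 : (logb p.n (p.LcL t) + logb p.n (p.wL t)) / 2 + logb p.n (p.ucL t) ≤ b)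
    (h6 : (logb p.n (p.LcL t) + logb p.n (p.wL t)) / 2 + logb p.n (p.X2L t) / 2 ≤ b)
    (h7 : logb p.n (p.G0L σ t) + logb p.n (p.ucL t) ≤ b)
    (h8 : logb p.n (p.G0L σ t) + logb p.n (p.X2L t) / 2 ≤ b)
    (h9 : logb p.n (p.X3L t) ≤ b) : logb p.n (p.ecL σ t y) ≤ b + η := by
  have := ucL0 X; have := X.θ0; have := jL0 X; have := G0L0 X; have := X2L0 X; have := X3L0 X
  have := X.H.N0; have := LcL0 X; have := wL0 X
  have B := X.H.rp0 b
  have k : ∀ x, 0 < x → logb p.n x ≤ b → x ≤ (p.n : ℝ) ^ b := fun x a e =>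
    X.H.le_of_lg a B (by rwa [X.H.lg_rp])
  have g := (lg_G0L X).2.2.1
  have x3 := (lg_X3L X).1
  have a1 := k (p.ucL t ^ 3) (by positivity) (by lg_norm; linarith)
  have a2 := k (p.ucL t ^ 2 * p.muG t) (by positivity) (by lg_norm; linarith)
  have a3 := k (p.ucL t ^ 2 * p.jL σ t) (by positivity) (by lg_norm; linarith)
  have a4 := k (p.ucL t ^ 2 * y ^ ((1 : ℝ) / 3)) (by positivity) (by lg_norm; linarith)
  have a5 := k (√(p.LcL t * p.wL t) * p.ucL t) (by positivity) (by lg_norm; linarith)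
  have a6 := k (√(p.LcL t * p.wL t) * √(p.X2L t)) (by positivity) (by lg_norm; linarith)
  have a7 := k (p.G0L σ t * p.ucL t) (by positivity) (by lg_norm; linarith)
  have a8 := k (p.G0L σ t * √(p.X2L t)) (by positivity) (by lg_norm; linarith)
  have a9 := k (p.X2L t * p.ucL t) (by positivity) (by lg_norm; linarith)
  have a10 := k (p.X2L t * √(p.X2L t)) (by positivity) (by lg_norm; linarith)
  have a11 := k (p.X3L t) (by positivity) h9
  have a12 := k (1 / p.n) (by positivity) (by lg_norm; rw [X.H.lg_n]; linarith)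
  have e : p.ecL σ t y ≤ 12 * (p.n : ℝ) ^ b := by rw [Pm.ecL]; linarith
  have := X.H.lg_mono (ecL0 X hy.le) e
  rw [logb_mul (by norm_num) B.ne', X.H.lg_rp] at this
  linarith [(X.H.lg_num (x := 12) (by norm_num) (by norm_num)).2]
/-- `ecL` from below -/
theorem le_ecL (hy : 0 < y) : 3 * logb p.n (p.ucL t) ≤ logb p.n (p.ecL σ t y) ∧
    2 * logb p.n (p.ucL t) + logb p.n (p.muG t) ≤ logb p.n (p.ecL σ t y) ∧
    2 * logb p.n (p.ucL t) + logb p.n (p.jL σ t) ≤ logb p.n (p.ecL σ t y) ∧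
    2 * logb p.n (p.ucL t) + logb p.n y / 3 ≤ logb p.n (p.ecL σ t y) ∧
    (logb p.n (p.LcL t) + logb p.n (p.wL t)) / 2 + logb p.n (p.ucL t) ≤ logb p.n (p.ecL σ t y) ∧
    (logb p.n (p.LcL t) + logb p.n (p.wL t)) / 2 + logb p.n (p.X2L t) / 2 ≤
      logb p.n (p.ecL σ t y) ∧
    logb p.n (p.G0L σ t) + logb p.n (p.ucL t) ≤ logb p.n (p.ecL σ t y) ∧
    logb p.n (p.G0L σ t) + logb p.n (p.X2L t) / 2 ≤ logb p.n (p.ecL σ t y) ∧
    logb p.n (p.X3L t) ≤ logb p.n (p.ecL σ t y) := by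
  have := ucL0 X; have := X.θ0; have := jL0 X; have := G0L0 X; have := X2L0 X; have := X3L0 X
  have := X.H.N0; have := LcL0 X; have := wL0 X
  have b1 : 0 < p.ucL t ^ 3 := by positivity
  have b2 : 0 < p.ucL t ^ 2 * p.muG t := by positivity
  have b3 : 0 < p.ucL t ^ 2 * p.jL σ t := by positivity
  have b4 : 0 < p.ucL t ^ 2 * y ^ ((1 : ℝ) / 3) := by positivity
  have b5 : 0 < √(p.LcL t * p.wL t) * p.ucL t := by positivity
  have b6 : 0 < √(p.LcL t * p.wL t) * √(p.X2L t) := by positivity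
  have b7 : 0 < p.G0L σ t * p.ucL t := by positivity
  have b8 : 0 < p.G0L σ t * √(p.X2L t) := by positivity
  have b9 : 0 < p.X2L t * p.ucL t := by positivity
  have b10 : 0 < p.X2L t * √(p.X2L t) := by positivity
  have b12 : (0 : ℝ) < 1 / p.n := by positivity
  have k : ∀ x, 0 < x → x ≤ p.ecL σ t y → logb p.n x ≤ logb p.n (p.ecL σ t y) := fun x a e =>
    X.H.lg_mono a e
  have a1 := k _ b1 (by rw [Pm.ecL]; linarith)
  have a2 := k _ b2 (by rw [Pm.ecL]; linarith)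
  have a3 := k _ b3 (by rw [Pm.ecL]; linarith)
  have a4 := k _ b4 (by rw [Pm.ecL]; linarith)
  have a5 := k _ b5 (by rw [Pm.ecL]; linarith)
  have a6 := k _ b6 (by rw [Pm.ecL]; linarith)
  have a7 := k _ b7 (by rw [Pm.ecL]; linarith)
  have a8 := k _ b8 (by rw [Pm.ecL]; linarith)
  have a9 := k _ (X3L0 X) (by rw [Pm.ecL]; linarith)
  generalize logb p.n (p.ecL σ t y) = g at *
  revert a1 a2 a3 a4 a5 a6 a7 a8
  lg_norm
  intro a1 a2 a3 a4 a5 a6 a7 a8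
  exact ⟨by linarith, by linarith, by linarith, by linarith, by linarith, by linarith,
    by linarith, by linarith, a9⟩
theorem tauL0 (hy : 0 ≤ y) : 0 < p.tauL σ t y := by
  have := ecL0 X hy; have := X.θ0; have := LcL0 X; have := wL0 X
  rw [Pm.tauL]; positivity
theorem lg_tauL (hy : 0 < y) :
    logb p.n y / 3 - logb p.n (p.LcL t) ≤ logb p.n (p.tauL σ t y) ∧
    logb p.n (p.ecL σ t y) - logb p.n (p.muG t) ≤ logb p.n (p.tauL σ t y) ∧
    logb p.n (p.wL t) / 3 ≤ logb p.n (p.tauL σ t y) ∧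
    (logb p.n (p.tauL σ t y) ≤ η + logb p.n y / 3 - logb p.n (p.LcL t) ∨
      logb p.n (p.tauL σ t y) ≤ η + logb p.n (p.ecL σ t y) - logb p.n (p.muG t) ∨
      logb p.n (p.tauL σ t y) ≤ η + logb p.n (p.wL t) / 3) := by
  have := ecL0 X hy.le; have := X.θ0; have := LcL0 X; have := wL0 X
  obtain ⟨a, b, d, e⟩ := three X.H (show 0 < y ^ ((1 : ℝ) / 3) / p.LcL t by positivity)
    (show 0 < p.ecL σ t y / p.muG t by positivity) (show 0 < p.wL t ^ ((1 : ℝ) / 3) by positivity)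
  rw [← Pm.tauL] at a b d e
  generalize logb p.n (p.tauL σ t y) = g at *
  revert a b d e
  lg_norm
  intro a b d e
  exact ⟨by linarith, by linarith, by linarith,
    e.imp (fun _ => by linarith) fun e => e.imp (fun _ => by linarith) fun _ => by linarith⟩

theorem BuL0 : 0 < p.BuL σ t := mul_pos (nc0 X.H _) (pow_pos (mul_pos X.sM0 X.la0) 2)
theorem lg_BuL : logb p.n (p.BuL σ t) =
    21 / 40 * c + 2 * logb p.n (p.sM t) + 2 * logb p.n (p.laG σ) := by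
  have := nc0 X.H (21 / 40); have := X.sM0; have := X.la0
  rw [Pm.BuL]; lg_norm; rw [lg_nc X.H]; ring
theorem BuL_le (hy : 0 ≤ y) : p.BuL σ t ≤ p.NL σ t y := by
  have := nc0 X.H (1 / 20); have := X.θ0
  exact le_add_of_nonneg_right (by positivity)
theorem NL0 (hy : 0 ≤ y) : 0 < p.NL σ t y := (BuL0 X).trans_le (BuL_le X hy)
theorem NL_mono {y' : ℝ} (hy : 0 ≤ y) (h : y ≤ y') : p.NL σ t y ≤ p.NL σ t y' := by
  have := nc0 X.H (1 / 20); have := X.θ0
  unfold Pm.NL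
  gcongr
theorem lg_NL (hy : 0 < y) : logb p.n (p.BuL σ t) ≤ logb p.n (p.NL σ t y) ∧
    c / 20 + logb p.n (p.muG t) + 4 / 3 * logb p.n y ≤ logb p.n (p.NL σ t y) ∧
    (logb p.n (p.NL σ t y) ≤ η + logb p.n (p.BuL σ t) ∨
      logb p.n (p.NL σ t y) ≤ η + c / 20 + logb p.n (p.muG t) + 4 / 3 * logb p.n y) := by
  have := nc0 X.H (1 / 20); have := X.θ0
  obtain ⟨a, b, d⟩ := two X.H (BuL0 X)
    (show 0 < p.nc (1 / 20) * p.muG t * y ^ ((4 : ℝ) / 3) by positivity)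
  rw [← Pm.NL] at a b d
  generalize logb p.n (p.NL σ t y) = g at *
  revert b d
  lg_norm
  rw [lg_nc X.H]
  intro b d
  exact ⟨a, by linarith, d.imp id fun _ => by linarith⟩
theorem EnL0 (hy : 0 ≤ y) : 0 < p.EnL σ t y := mul_pos (nc0 X.H _) (NL0 X hy)
theorem lg_EnL (hy : 0 ≤ y) : logb p.n (p.EnL σ t y) = c / 100 + logb p.n (p.NL σ t y) := by
  rw [Pm.EnL, logb_mul (nc0 X.H _).ne' (NL0 X hy).ne', lg_nc X.H]; ring
theorem p0L0 (hy : 0 ≤ y) : 0 < p.p0L σ t y := mul_pos (nc0 X.H _) (sqrt_pos.2 (NL0 X hy))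
theorem lg_p0L (hy : 0 ≤ y) : logb p.n (p.p0L σ t y) = c / 100 + logb p.n (p.NL σ t y) / 2 := by
  rw [Pm.p0L, logb_mul (nc0 X.H _).ne' (sqrt_pos.2 (NL0 X hy)).ne', lg_nc X.H,
    lg_sqrt _ (NL0 X hy).le]; ring
theorem elL0 : 0 < p.elL t := by
  have := EL0 X.H; have := X.lN0
  rw [Pm.elL]; positivity
theorem lg_elL : c / 50000 + logb p.n (p.PhN t) / 3 ≤ logb p.n (p.elL t) ∧
    c / 50000 + logb p.n (p.muG t) / 2 ≤ logb p.n (p.elL t) ∧
    (logb p.n (p.elL t) ≤ η + c / 50000 + logb p.n (p.PhN t) / 3 ∨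
      logb p.n (p.elL t) ≤ η + c / 50000 + logb p.n (p.muG t) / 2) := by
  obtain ⟨a, b, d⟩ := two X.H X.lN0 (sqrt_pos.2 X.θ0)
  rw [lg_lN X] at a d
  rw [lg_sqrt _ X.θ0.le] at b d
  rw [Pm.elL, logb_mul (pow_pos (EL0 X.H) 2).ne' (add_pos X.lN0 (sqrt_pos.2 X.θ0)).ne', logb_pow,
    lg_EL X.H]
  push_cast
  exact ⟨by linarith, by linarith, d.imp (fun _ => by linarith) fun _ => by linarith⟩

/-! ### the passes -/

theorem XloL0 : 0 < p.XloL σ t :=
  lt_min X.Ph0 (div_pos (mul_pos (nc0 X.H _) (BuL0 X)) X.θ0)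
theorem lg_XloL : logb p.n (p.XloL σ t) =
    min (logb p.n (p.PhN t)) (c / 40 + logb p.n (p.BuL σ t) - logb p.n (p.muG t)) := by
  have := nc0 X.H (1 / 40); have := BuL0 X; have := X.θ0
  rw [Pm.XloL, lg_min X.H.N1 X.Ph0 (by positivity)]
  lg_norm
  rw [lg_nc X.H]
  congr 1
  ring
omit X in
theorem XloL_le : p.XloL σ t ≤ p.PhN t := min_le_left _ _
omit X in
theorem nxL_le : p.nxL σ t y ≤ p.PhN t := min_le_left _ _
theorem le_nxL (hy : 0 ≤ y) : p.XloL σ t ≤ p.nxL σ t y := min_le_min le_rfl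
  (div_le_div_of_nonneg_right (mul_le_mul_of_nonneg_left (BuL_le X hy) (nc0 X.H _).le) X.θ0.le)
theorem nxL0 (hy : 0 ≤ y) : 0 < p.nxL σ t y := (XloL0 X).trans_le (le_nxL X hy)
theorem XpL_mem : p.XloL σ t ≤ p.XpL σ t ∧ p.XpL σ t ≤ p.PhN t :=
  ⟨le_nxL X (nxL0 X X.Ph0.le).le, nxL_le⟩
theorem lg_nxL (hy : 0 ≤ y) : logb p.n (p.nxL σ t y) ≤ logb p.n (p.PhN t) ∧
    logb p.n (p.nxL σ t y) ≤ c / 40 + logb p.n (p.NL σ t y) - logb p.n (p.muG t) := by
  have := nc0 X.H (1 / 40); have := NL0 X hy; have := X.θ0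
  refine ⟨X.H.lg_mono (nxL0 X hy) nxL_le, (X.H.lg_mono (nxL0 X hy) (min_le_right _ _)).trans ?_⟩
  lg_norm
  rw [lg_nc X.H]
  linarith

/-- **the last pass** -/
theorem NL_XpL (nd : p.Need t) : p.NL σ t (p.XpL σ t) ≤ 2 * p.BuL σ t := by
  have y1 := nxL0 X X.Ph0.le
  have y2 := nxL0 X y1.le
  have := nc0 X.H (1 / 20); have := X.θ0
  have k : p.nc (1 / 20) * p.muG t * p.XpL σ t ^ ((4 : ℝ) / 3) ≤ p.BuL σ t := by
    rw [Pm.XpL]
    refine X.H.le_of_lg (by positivity) (BuL0 X) ?_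
    lg_norm
    rw [lg_nc X.H]
    obtain ⟨a1, a2⟩ := lg_nxL X X.Ph0.le
    obtain ⟨b1, b2⟩ := lg_nxL X y1.le
    have f := lg_Ph_hi X nd
    have b := lg_BuL X
    have s := X.lg_sM.1
    have l := (lg_la X nd).1
    have m := (lg_θ X).2.1
    have := X.hc; have := X.hη; have := X.H.η_pos
    rcases le_total (logb p.n (p.BuL σ t) - logb p.n (p.muG t)) (-(1 / 10)) with h | h
    · rcases (lg_NL X X.Ph0).2.2 with d | d <;> rcases (lg_NL X y1).2.2 with e | e <;>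
      rcases lg_xM X with ⟨_, _⟩ | ⟨_, _⟩ <;> linarith
    · linarith
  rw [Pm.NL]
  linarith

/-- **the line of a pass**: the output of `LO` on the top window and on the plateau -/
theorem nx_line (nd : p.Need t) (hy : 0 ≤ y) {Λ : ℝ} (hΛ : Λ ≤ p.nc (1 / 1000)) :
    Λ * (2 * ((p.EnL σ t y + p.t1L * p.p0L σ t y ^ 2) / p.muG t) + p.uL t + p.GaL σ t +
      2 / (p.n : ℝ) ^ 2) ≤ p.nc (1 / 40) * p.NL σ t y / p.muG t := by
  have n0 := X.H.N0; have := X.θ0; have N0 := NL0 X hy; have := EnL0 X hy; have := p0L0 X hy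
  have := t1L0 X.H; have := uL0 X; have := GaL0 X; have L0 := nc0 X.H (1 / 1000)
  have := nc0 X.H (1 / 40)
  have n6 := (X.H.lg_num (x := 8) (by norm_num) (by norm_num)).2
  have k : ∀ x, 0 < x → logb p.n x ≤ c / 50 + logb p.n (p.NL σ t y) - logb p.n (p.muG t) →
      8 * (p.nc (1 / 1000) * x) ≤ p.nc (1 / 40) * p.NL σ t y / p.muG t := fun x a b =>
    X.H.le_of_lg (by positivity) (by positivity) (by
      lg_norm; rw [lg_nc X.H, lg_nc X.H]; linarith [X.hη, X.H.η_pos])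
  have b := X.H.lg_mono (BuL0 X) (BuL_le X hy)
  have e := lg_BuL X
  have s := X.lg_sM.1
  have l := (lg_la X nd).1
  have m := (lg_θ X).2.1
  have := X.hc; have := X.hη; have := X.H.η_pos
  have a1 := k (p.EnL σ t y / p.muG t) (by positivity) (by lg_norm; linarith [lg_EnL X hy])
  have a2 := k (p.t1L * p.p0L σ t y ^ 2 / p.muG t) (by positivity)
    (by lg_norm; linarith [lg_p0L X hy, lg_t1L X.H])
  have a3 := k (p.uL t) (by positivity)
    (by rcases lg_xM X with ⟨_, _⟩ | ⟨_, _⟩ <;> linarith [lg_uL X])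
  have a4 := k (p.GaL σ t) (by positivity) (by linarith [lg_GaL X])
  have a5 := k (1 / (p.n : ℝ) ^ 2) (by positivity) (by
    lg_norm; rw [X.H.lg_n]; rcases lg_xM X with ⟨_, _⟩ | ⟨_, _⟩ <;> linarith)
  refine (mul_le_mul_of_nonneg_right hΛ (by positivity)).trans ?_
  rw [add_div, show 2 / (p.n : ℝ) ^ 2 = 2 * (1 / (p.n : ℝ) ^ 2) by ring]
  simp only [mul_add, mul_left_comm (p.nc (1 / 1000)) 2]
  linarith

end Crest.Agent.T156.Alt.Lt15

end
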