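import Crest.Agent.T156.LNg_97
import Crest.Agent.T156.LtK_15
import Crest.Agent.T156.HyD_77
import Crest.Agent.T156.R1LocB_77

/-!
# Row 156, block (L): the bulk numbers `LN` on the table `LtD_29` (helper97)
-/

set_option autoImplicit false
set_option linter.unusedSectionVars false

noncomputable section

namespace Crest.Agent.T156.Alt.Ln97

open Real Finset
open Crest.Agent.T156.Alt.L69 Crest.Agent.T156.Alt.Tn15 Crest.Agent.T156.Alt.Lt15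
open Crest.Agent.T156.Alt.R77 (Dt OnG LNx etaL)

/-- the exponents of the table `LtD_29`: `x, μ` amplitude and top mass, `ξ` crude level, `a0, a, a2`
levels `l0L, ltL, min x A2` with masses `m0, m, m2`, `W = lg xM`, `la = lg laG σ` -/
structure LT (c η x μ ξ a0 a a2 m0 m m2 χ2 χ3 γ W la : ℝ) : Prop where
  c0 : 0 < c
  c1 : c ≤ 1 / 100000
  e0 : 0 ≤ η
  e1 : 1000000 * η ≤ c
  μ0 : -(7 * c) ≤ μ ∨ x - 11 / 2 * c ≤ μ
  μ1 : μ ≤ -(7 * c) + η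
  μ2 : μ ≤ x - 11 / 2 * c + η
  nd : -(1 / 3) - 4 * c ≤ μ
  ξ1 : 3 * ξ ≤ -(71 / 250)
  n2 : 3 * ξ ≤ -(79 / 240) + c / 4 ∧ χ2 ≤ -(121 / 360) + c / 4 ∨ 1 / 20 ≤ μ + 1 / 3 ∧ χ2 ≤ -(3 / 10)
  w1 : -(1 - c) / 6 ≤ a0
  w2 : -(2 / 11) * (1 - c + x) ≤ a0
  a02 : a0 ≤ a2
  a2ξ : a2 ≤ ξ
  a2l : a2 = ξ ∨ -(7 / 60) ≤ a2
  χ2e : χ2 = c / 1000 + 2 * ξ + a2
  m0l : -c + 2 * a0 ≤ m0 ∨ -c + x + 3 / 2 * a0 ≤ m0
  m2l : -c + 2 * a2 ≤ m2 ∨ -c + x + 3 / 2 * a2 ≤ m2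
  ml : -c + 2 * a ≤ m ∨ -c + x + 3 / 2 * a ≤ m
  mu : m ≤ -c + 2 * a + η
  ξa : c / 3000 + ξ ≤ a
  a1 : a ≤ -(10 * c)
  lv : (-(1 / 6) + 49 / 100 * c ≤ a ∧ 2 / 3 * (-(1 / 3) + 49 / 50 * c - x) ≤ a) ∧
      -(1 / 3) - 3 / 200 * c - 2 * η ≤ m ∧ χ2 + c / 20 - 2 * η ≤ m ∨
    -(10 * c) - η ≤ a ∧ μ - 14 * c - 3 * η ≤ m
  χ3l : -(101 / 200) ≤ χ3 ∧ 3 / 2 * χ2 ≤ χ3
  χ3u : χ3 ≤ η - 101 / 200 ∨ χ3 ≤ η + 3 / 2 * χ2
  γl : 5 * c - 1 / 3 - W / 2 ≤ γ ∧ χ2 ≤ γ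
  γu : γ ≤ η + 5 * c - 1 / 3 - W / 2 ∨ γ ≤ η + c / 100 + (-1 - μ + 3 / 2 * ξ - la) / 2 ∨ γ ≤ η + χ2
  hW : 0 ≤ μ + 1 / 3 ∧ W = μ + 1 / 3 ∨ μ + 1 / 3 ≤ 0 ∧ W = 0
  hla : -(1 / 3) - c - W ≤ 2 * la

namespace LT

variable {c η x μ ξ a0 a a2 m0 m m2 χ2 χ3 γ W la : ℝ}
  (h : LT c η x μ ξ a0 a a2 m0 m m2 χ2 χ3 γ W la)
include h

theorem q0 : -1 - 4 * a0 ≤ m0 := by rcases h.m0l with k | k <;> linarith [h.w1, h.w2]
theorem q2 : -1 - 4 * a2 ≤ m2 := by rcases h.m2l with k | k <;> linarith [h.w1, h.w2, h.a02]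
theorem χ2u : χ2 ≤ -(3 / 10) := by rcases h.n2 with ⟨_, _⟩ | ⟨_, _⟩ <;> linarith [h.c1]
theorem mlo : -(1 / 3) - 19 * c ≤ m := by
  rcases h.lv with ⟨_, _, _⟩ | ⟨_, _⟩ <;> linarith [h.c0, h.e1, h.nd]
theorem mχ : χ2 + c / 25 ≤ m := by
  rcases h.lv with ⟨_, _, _⟩ | ⟨_, _⟩ <;> rcases h.n2 with ⟨_, _⟩ | ⟨_, _⟩ <;>
    linarith [h.c0, h.e1, h.nd, h.c1]
theorem ξ2 : 2 * ξ + 1 / 20 ≤ a2 := by rcases h.a2l with k | k <;> linarith [h.ξ1]
theorem γ1 : γ ≤ η + 5 * c - 1 / 3 - W / 2 ∨ γ ≤ 3 * c - 1 / 4 + 3 / 4 * ξ - W / 4 ∨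
    γ ≤ η + χ2 := h.γu.imp_right fun k => k.imp_left fun k => by
  rcases h.hW with ⟨_, _⟩ | ⟨_, _⟩ <;> linarith [h.hla, h.nd, h.e1, h.c0]
theorem W0 : 0 ≤ W ∧ μ + 1 / 3 ≤ W := by rcases h.hW with ⟨_, _⟩ | ⟨_, _⟩ <;> constructor <;> linarith
theorem γ2 : γ ≤ -(29 / 100) := by
  rcases h.γ1 with k | k | k <;> linarith [h.W0.1, h.ξ1, h.χ2u, h.c1, h.e1, h.c0]

theorem gx : GX η (c / 100000) a0 a ξ (c / 50000) χ2 χ3 γ m0 m := by
  have := h.c0; have := h.c1; have := h.e0; have := h.e1; have := h.ξ1; have := h.a02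
  have := h.a2ξ; have := h.χ2e; have := h.ξ2; have := h.χ3l.2; have := h.γl.2; have := h.mlo
  exact ⟨by linarith [h.q0], by linarith [h.a1], by linarith, by linarith [h.ξa], by linarith,
    by linarith, by linarith, by linarith [h.γ2], ⟨by linarith, by linarith⟩,
    ⟨by linarith, by linarith⟩, ⟨by linarith, by linarith⟩, by linarith [h.mχ]⟩

theorem h5 : γ + c / 10000 ≤ 11 / 6 * m + (1 + a) / 3 := by
  have := h.c0; have := h.c1; have := h.e0; have := h.e1; have := h.ξ1; have := h.W0.1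
  have := h.W0.2; have := h.nd; have := h.χ2u
  rcases h.lv with ⟨⟨_, _⟩, _, _⟩ | ⟨_, _⟩ <;> rcases h.γ1 with k | k | k <;>
    first | linarith | (rcases h.μ0 with _ | _ <;> linarith)

theorem h6 : γ + χ2 / 2 + c / 10000 ≤ 3 / 2 * m := by
  have := h.c0; have := h.c1; have := h.e0; have := h.e1; have := h.ξ1; have := h.W0.1
  have := h.W0.2; have := h.nd; have := h.mχ
  rcases h.γu with k | k | k
  · rcases h.n2 with ⟨_, _⟩ | ⟨_, _⟩ <;> linarith [h.mlo]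
  · have := h.hla
    rcases h.lv with ⟨-, _, _⟩ | ⟨_, _⟩ <;> rcases h.n2 with ⟨_, _⟩ | ⟨_, _⟩ <;>
      rcases h.hW with ⟨_, _⟩ | ⟨_, _⟩ <;> linarith
  · linarith

theorem m12 : M12 η (c / 50000) ξ χ2 χ3 γ a m (3 / 2 * m - c / 100000 - η) := by
  have := h.c0; have := h.c1; have := h.e0; have := h.e1; have := h.ξ1; have := h.mχ
  have := h.mlo; have := h.nd
  refine ⟨?_, ?_, ?_, ?_, by linarith [h.h5], by linarith [h.h6], by linarith [h.h5, h.γl.2],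
    by linarith, ?_, by linarith, by linarith, by linarith [h.ξa]⟩
  · rcases h.lv with ⟨⟨_, _⟩, _, _⟩ | ⟨_, _⟩ <;> linarith
  · rcases h.lv with ⟨⟨_, _⟩, _, _⟩ | ⟨_, _⟩ <;> linarith
  · rcases h.lv with ⟨⟨_, _⟩, _, _⟩ | ⟨_, _⟩ <;> linarith
  · rcases h.lv with ⟨⟨_, _⟩, _, _⟩ | ⟨_, _⟩
    · linarith
    · rcases h.n2 with ⟨_, _⟩ | ⟨_, _⟩ <;> linarith
  · rcases h.χ3u with _ | _ <;> linarith

theorem lg : LG η (c / 100000) μ ξ a0 a (c / 50000) χ2 χ3 γ m0 m a2 ξ m2 a2 ξ m2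
    (3 / 2 * m - c / 100000 - η) := by
  have := h.c0; have := h.c1; have := h.e0; have := h.e1; have := h.ξ1; have := h.a02
  have := h.a2ξ; have := h.χ2e; have := h.ξ2; have := h.χ3l.1; have := h.χ3l.2; have := h.γl.1
  have := h.γl.2; have := h.q0; have := h.q2; have := h.nd; have := h.w1; have := h.w2
  refine ⟨h.gx, by linarith, by linarith, ?_, ?_, ?_, by linarith, by linarith, ?_, by linarith,
    by linarith, by linarith, ?_, ?_, h.m12, by linarith, by linarith [h.mu]⟩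
  · have := h.μ2
    rcases h.a2l with _ | _
    · linarith
    · rcases h.m2l with _ | _ <;> rcases h.n2 with ⟨_, _⟩ | ⟨_, _⟩ <;> linarith
  · rcases h.μ0 with _ | _ <;> linarith
  · rcases h.μ0 with _ | _ <;> linarith
  · rcases h.a2l with _ | _ <;> linarith
  · have := h.μ2; have := h.μ1; have := h.a1
    rcases h.ml with _ | _ <;> rcases h.hW with ⟨_, _⟩ | ⟨_, _⟩ <;> linarith
  · rcases h.lv with ⟨⟨_, _⟩, _, _⟩ | ⟨_, _⟩ <;> linarith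

end LT

/-- the crossing level of `X2L`, `X3L` -/
def t2L (p : Pm) (t : ℝ) : ℝ :=
  min (p.lN t) (max (p.nc (1 / 100) * p.rj) ((p.n : ℝ) ^ (-(7 : ℝ) / 60)))

variable {β c0 C0 : ℝ} {A : ℕ} {c η K' ε K c0' C0' η' : ℝ} {p : Pm} {σ t y : ℝ} {Q : Pl}

/-- the mass exponent from below -/
theorem ms_lo (H : Reg β c0 C0 A c η K' p) (M : p.MemG t) (y0 : 0 < y)
    (hy : logb p.n y ≤ -(3 * c)) : -c + 2 * logb p.n y ≤ logb p.n (p.msG t y) ∨
      -c + logb p.n t + 3 / 2 * logb p.n y ≤ logb p.n (p.msG t y) := by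
  have b := (H.lg_msG66 M y).1
  rcases H.lg_Tc_cases (σ := t) y0 with ⟨_, _⟩ | ⟨_, _, _⟩ | ⟨_, _, _⟩ <;>
    exact b.imp (fun _ => by linarith) fun _ => by linarith

section

variable (X : Nr44.Cx β c0 C0 A c η K' p σ t)
include X

theorem t2L0 : 0 < t2L p t := lt_min X.lN0 (lt_max_of_lt_right (X.H.rp0 _))

theorem lg_t2L : logb p.n (t2L p t) = min (logb p.n (p.PhN t) / 3)
    (max (c / 100 + (logb p.n p.s + c / 13 - 1 / 6)) (-7 / 60)) := by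
  have a := mul_pos (nc0 X.H (1 / 100)) X.H.rj0
  rw [t2L, lg_min X.H.N1 X.lN0 (lt_max_of_lt_left a), lg_max X.H.N1 a (X.H.rp0 _),
    logb_mul (nc0 X.H _).ne' X.H.rj0.ne', lg_nc X.H, X.H.lg_rp, X.H.lg_rj, lg_lN X]
  congr 2; ring

theorem lg_E2 : -(15 / 1000 * c) ≤ logb p.n (p.E2L t) ∧
    c / 20 + logb p.n (p.X2L t) + 1 / 3 ≤ logb p.n (p.E2L t) := by
  have := nc0 X.H (1 / 20); have := X2L0 X; have := X.H.N0
  rw [Pm.E2L, lg_max X.H.N1 (nc0 X.H _) (by positivity), logb_mul (by positivity) (by positivity),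
    logb_mul (by positivity) (by positivity), lg_nc X.H, lg_nc X.H, X.H.lg_rp]
  exact ⟨le_max_of_le_left (by linarith), le_max_of_le_right (by linarith)⟩

theorem Ph_s (nd : p.Need t) (hc : c ≤ 1 / 100000) (hs : logb p.n p.s ≤ 7 / 200) :
    logb p.n (p.PhN t) ≤ -(79 / 240) + c / 4 := by
  obtain ⟨c0, c1, e0, e1, s0, s1, x0, x1, m0, m1, m2, up⟩ := Nr44.ex X.H X.hy
  have := (need_iff X).1 nd
  rcases up with up | up | ⟨up, _, _⟩ | up | ⟨up, _⟩ | up | up | ⟨up, _, _⟩ | ⟨up, _⟩ | up |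
    ⟨up, _⟩ <;> linarith

/-- **all exponents of the bulk part of the table** -/
theorem lt_lg (hc : c ≤ 1 / 100000) (hη : 1000000 * η ≤ c) (nd : p.Need t) (n2 : p.Need2 t) :
    LT c η (logb p.n t) (logb p.n (p.muG t)) (logb p.n (p.lN t)) (logb p.n (p.l0L t))
      (logb p.n (p.ltL t)) (logb p.n (t2L p t)) (logb p.n (p.msG t (p.l0L t)))
      (logb p.n (p.msG t (p.ltL t))) (logb p.n (p.msG t (t2L p t))) (logb p.n (p.X2L t))
      (logb p.n (p.X3L t)) (logb p.n (p.G0L σ t)) (logb p.n (p.xM t)) (logb p.n (p.laG σ)) := by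
  have H := X.H
  have c0 := H.c_pos; have η0 := H.η_pos
  obtain ⟨θ0, θ1, θ2⟩ := lg_θ X
  have n1 := (need_iff X).1 nd
  have P1 := lg_Ph_hi X nd
  obtain ⟨P2, P3, P4, -⟩ := lg_Ph_lo X
  obtain ⟨⟨-, w1, w2⟩, w3⟩ := lg_l0L X
  obtain ⟨s0, s1⟩ := H.lg_s
  have n8 := H.lg_num (x := 8) (by norm_num) (by norm_num)
  have ex := lg_lN X
  have e2 := lg_t2L X
  have e3 := lg_X2L_eq X
  have e4 := lg_ltL X
  have e5 := lg_yL X
  obtain ⟨E1, E2⟩ := lg_E2 X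
  have q1 := le_max_left (c / 100 + (logb p.n p.s + c / 13 - 1 / 6)) (-7 / 60)
  have q2 := le_max_right (c / 100 + (logb p.n p.s + c / 13 - 1 / 6)) (-7 / 60)
  have q3 := max_choice (c / 100 + (logb p.n p.s + c / 13 - 1 / 6)) (-7 / 60)
  generalize max (c / 100 + (logb p.n p.s + c / 13 - 1 / 6)) (-7 / 60) = B at e2 e3 q1 q2 q3
  have r1 : logb p.n (t2L p t) ≤ logb p.n (p.PhN t) / 3 := e2 ▸ min_le_left _ _
  have r2 : logb p.n (t2L p t) ≤ B := e2 ▸ min_le_right _ _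
  have r3 : logb p.n (t2L p t) = logb p.n (p.PhN t) / 3 ∨ logb p.n (t2L p t) = B :=
    e2 ▸ min_choice _ _
  have r4 : logb p.n (p.X2L t) = c / 1000 + 2 / 3 * logb p.n (p.PhN t) + logb p.n (t2L p t) := by
    rw [e3, e2]
    rcases le_total (logb p.n (p.PhN t) / 3) B with h | h
    · rw [min_eq_left h, min_eq_left (by linarith)]; ring
    · rw [min_eq_right h, min_eq_right (by linarith)]; ring
  have l1 : logb p.n (p.l0L t) ≤ logb p.n (p.PhN t) / 3 := ex ▸ H.lg_mono (l0L0 X) (max_le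
    (H.le_of_lg (mul_pos (pow_pos (EL0 H) 2) H.rj0) X.lN0 (by
      rw [logb_mul (pow_pos (EL0 H) 2).ne' H.rj0.ne', logb_pow, lg_EL H, H.lg_rj, ex]
      push_cast; linarith)) ((le_max_right _ _).trans X.l0l))
  have l2 : logb p.n (p.l0L t) ≤ logb p.n (t2L p t) := by
    rcases r3 with r | r
    · linarith
    · rcases w3 with w | w | w <;> linarith
  have a1 : c / 3000 + logb p.n (p.PhN t) / 3 ≤ logb p.n (p.ltL t) := e4 ▸ le_max_left _ _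
  have a2 : min (logb p.n (p.yL t)) (-(10 * c)) - logb p.n 8 ≤ logb p.n (p.ltL t) :=
    e4 ▸ le_max_right _ _
  have a3 : logb p.n (p.ltL t) ≤ -(10 * c) := e4 ▸ max_le (by linarith)
    (by linarith [min_le_right (logb p.n (p.yL t)) (-(10 * c))])
  have y1 : 2 / 3 * (logb p.n (p.E2L t) - 1 / 3 + c - logb p.n t) ≤ logb p.n (p.yL t) :=
    e5 ▸ le_max_left _ _
  have y2 : (logb p.n (p.E2L t) - 1 / 3 + c) / 2 ≤ logb p.n (p.yL t) := e5 ▸ le_max_right _ _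
  have ml := ms_lo H X.Mt (ltL0 X) (by linarith)
  have rl : p.r ≤ p.ltL t := H.le_of_lg H.r0 (ltL0 X) (by rw [H.lg_r]; linarith)
  have mu := H.lg_mono (H.Tc0 _) (Reg.Tc_le rl)
  obtain ⟨z1, z2, z3⟩ := lg_X3L X
  obtain ⟨g1, -, g2, g3⟩ := lg_G0L X
  refine ⟨c0, hc, η0.le, hη, θ0, θ1, θ2, by linarith, by linarith, ?_, w1, w2, l2, by linarith,
    r3.imp (fun _ => by linarith) fun _ => by linarith, by linarith,
    ms_lo H X.Mt (l0L0 X) (by linarith), ms_lo H X.Mt (t2L0 X) (by linarith), ml,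
    by linarith [(H.lg_msG66 X.Mt (p.ltL t)).2.1], by linarith, a3, ?_, ⟨z1, z2⟩, z3, ⟨g1, g2⟩,
    g3.imp_right fun g => g.imp_left fun g => by linarith, lg_xM X, (lg_la X nd).1⟩
  · rcases (need2_iff X).1 n2 with h | h
    · have := Ph_s X nd hc h
      exact .inl ⟨by linarith, by rcases q3 with q | q <;> linarith⟩
    · exact .inr ⟨h, by rcases q3 with q | q <;> linarith⟩
  · rcases min_choice (logb p.n (p.yL t)) (-(10 * c)) with h | h <;> rw [h] at a2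
    · exact .inl ⟨⟨by linarith, by linarith⟩, by rcases ml with m | m <;> linarith,
        by rcases ml with m | m <;> linarith⟩
    · exact .inr ⟨by linarith, by rcases ml with m | m <;> linarith⟩

end

/-- `FX` on the table -/
def FXx : Dt := fun p σ t S M => p.Need t → p.Need2 t →
  FX p.EL S M (p.l0L t) (p.ltL t) (p.lN t) (p.PhN t) p.LgL ((p.n : ℝ) ^ (-(2 : ℝ) / 3)) (p.X2L t)
    (p.X3L t) (p.G0L σ t)

/-- **`FX` and `LN` on the table** -/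
theorem lnL (G : Gd66 β c0 C0 A c η K' ε K c0' C0' η' p σ t Q) (hc : c ≤ 1 / 100000)
    (hη : 1000000 * η ≤ c) :
    FXx p σ t (p.scG K σ t Q) (p.gst Q t) ∧ LNx p σ t (p.scG K σ t Q) (p.gst Q t) := by
  have H := G.R
  have c0 := H.c_pos; have η0 := H.η_pos
  have X : Nr44.Cx β _ C0 A c η K' p σ t := ⟨H, by linarith, by linarith, G.O⟩
  have E0 := EL0 H
  have r0 := H.rj0
  have E3 : 3 ≤ p.EL := le_trans (by linarith [H.num_le])
    (Pre29.rp_le H.n1 (show η ≤ 1 / 100000 * p.c by rw [H.hc]; linarith))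
  have l0 : p.EL ^ 2 * p.rj ≤ p.l0L t := le_max_left _ _
  have k : ∀ (nd : p.Need t) (n2 : p.Need2 t), _ := fun nd n2 =>
    have T := lt_lg X hc hη nd n2
    ln_gst H (t2 := t2L p t) (t3 := t2L p t) (E := p.EL) (Lg := p.LgL) G.M (by linarith) G.D.cl.1
      rfl rfl rfl G.CK (G.HJ.trans G.C1)
      ((mul_le_mul_of_nonneg_left G.sj.2 E0.le).trans (le_trans (by nlinarith [mul_pos E0 r0]) l0))
      (le_trans (by nlinarith [mul_pos E0 r0]) l0)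
      (H.le_of_lg (l0L0 X) (ltL0 X) (by linarith [T.a02, T.a2ξ, T.ξa]))
      (H.le_of_lg H.r0 X.lN0 (by rw [H.lg_r, lg_lN X]; linarith [(lg_Ph_lo X).2.2.1])) X.l3 E0
      (LgL0 H) (X2L0 X) (X3L0 X) (G0L0 X) (t2L0 X) (t2L0 X) (by
        rw [max_eq_right (show t2L p t ≤ p.lN t from min_le_left _ _), lg_EL H, lg_LgL H]
        exact T.lg)
  exact ⟨fun a b => (k a b).1, fun a b => (k a b).2⟩

theorem lnG' (hβ : 1 < β) : OnG (fun p σ t S M => FXx p σ t S M ∧ LNx p σ t S M) β :=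
  R77.OnG.cl' hβ CL.triv (R77.OnG.triv β) one_pos (c1 := 1 / 100000) (by norm_num) 1000000 0
    (fun _ => 1) fun _ _ _ _ _ _ _ _ _ _ _ _ _ _ G hc _ hη _ _ _ => lnL G hc (by exact_mod_cast hη)

/-- **the leaf `FXx`** -/
theorem fxG (hβ : 1 < β) : OnG FXx β := fun K k =>
  (lnG' hβ K k).mono fun _ _ h a b d e f g i j l => (h a b d e f g i j l).1
/-- **the leaf `LNx`** -/
theorem lnG (hβ : 1 < β) : OnG LNx β := fun K k =>
  (lnG' hβ K k).mono fun _ _ h a b d e f g i j l => (h a b d e f g i j l).2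

end Crest.Agent.T156.Alt.Ln97

end
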