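import Crest.Agent.T156.LtK_15
import Crest.Agent.T156.LPy_13

/-!
# Row 156 (helper72): the lines `NA` of `LP` on the table `LtD_29`
-/

set_option autoImplicit false
set_option linter.unusedSectionVars false

noncomputable section

namespace Crest.Agent.T156.Alt.La72

open Real Lt15

variable {β c0 C0 : ℝ} {A : ℕ} {c η K : ℝ} {p : Pm} {σ t x y : ℝ}
  (X : Nr44.Cx β c0 C0 A c η K p σ t) (nd : p.Need t)
include X nd

/-- crude upper exponents -/
theorem up : logb p.n (p.X2L t) ≤ c / 1000 + logb p.n (p.PhN t) ∧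
    logb p.n (p.X2L t) ≤ 2 / 3 * logb p.n (p.PhN t) - 113 / 1000 ∧
    (logb p.n (p.jL σ t) ≤ η + logb p.n (p.PhN t) / 2 ∨ logb p.n (p.jL σ t) ≤ -1 / 7) := by
  have hc := X.hc; have hη := X.hη; have η0 := X.H.η_pos
  have s := X.H.lg_s.2
  have n1 := (need_iff X).1 nd
  obtain ⟨a1, a2, -⟩ := lg_X2L X
  obtain ⟨-, θ2, θ3⟩ := lg_θ X
  obtain ⟨-, l2, -⟩ := lg_la X nd
  refine ⟨a1, by rcases a2 with e | e <;> linarith, ?_⟩
  rcases (lg_jL X).2 with e | e | e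
  · exact .inl e
  · exact .inr (by linarith)
  · rcases (lg_l0L X).2 with f | f | f <;> exact .inr (by linarith)

/-- lower exponent of the a priori energy -/
theorem lo (h : p.XloL σ t ≤ y) : logb p.n (p.PhN t) ≤ logb p.n y ∨
    -(1 / 3) - c / 2 - logb p.n (p.muG t) - logb p.n (p.xM t) ≤ logb p.n y := by
  have a := X.H.lg_mono (XloL0 X) h
  rw [lg_XloL X, lg_BuL X, min_le_iff] at a
  exact a.imp id fun e => by linarith [X.lg_sM.1, (lg_la X nd).1, X.H.c_pos]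

set_option maxHeartbeats 1600000 in
theorem ec_le (h : p.XloL σ t ≤ y) (x0 : 0 < x) (hx : x ^ 3 = y) :
    p.ucL t ^ 3 + p.ucL t ^ 2 * (p.muG t + p.jL σ t + x) +
      (√(p.LcL t * p.wL t) + p.G0L σ t + p.X2L t) * (p.ucL t + √(p.X2L t)) + p.X3L t + 1 / p.n ≤
      p.muG t * x / 3 := by
  have H := X.H
  have hc := X.hc; have hη := X.hη; have η0 := H.η_pos
  have N0 := H.N0; have θ0 := X.θ0; have u0 := ucL0 X; have j0 := jL0 X; have L0 := LcL0 X
  have w0 := wL0 X; have G0 := G0L0 X; have X0 := X2L0 X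
  have n1 := (need_iff X).1 nd
  have θ2 := (lg_θ X).2.1
  have φ1 := (lg_Ph_lo X).1
  have φ2 := lg_Ph_hi X nd
  have l1 := (lg_la X nd).1
  obtain ⟨a1, a2, a3⟩ := up X nd
  have g := (lg_G0L X).2.2.2
  have lu := lg_ucL X
  have lL := lg_LcL X
  have lw := lg_wL X
  have ly := lo X nd h
  have m := lg_xM X
  have c := (H.lg_num (x := 42) (by norm_num) (by norm_num)).2
  rw [← hx, logb_pow] at ly
  push_cast at ly
  have k : ∀ v, 0 < v → η + logb p.n v ≤ logb p.n (p.muG t) + logb p.n x → 42 * v ≤ p.muG t * x :=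
    fun v v0 e => H.le_of_lg (by positivity) (by positivity) (by lg_norm; linarith)
  have k1 := k (p.ucL t ^ 3) (by positivity) (by
    lg_norm; rcases m with ⟨m, m'⟩ | ⟨m, m'⟩ <;> rcases ly with e | e <;> linarith)
  have k2 := k (p.ucL t ^ 2 * p.muG t) (by positivity) (by
    lg_norm; rcases m with ⟨m, m'⟩ | ⟨m, m'⟩ <;> rcases ly with e | e <;> linarith)
  have k3 := k (p.ucL t ^ 2 * p.jL σ t) (by positivity) (by
    lg_norm
    rcases m with ⟨m, m'⟩ | ⟨m, m'⟩ <;> rcases ly with e | e <;> rcases a3 with f | f <;> linarith)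
  have k4 := k (p.ucL t ^ 2 * x) (by positivity) (by
    lg_norm; rcases m with ⟨m, m'⟩ | ⟨m, m'⟩ <;> linarith)
  have k5 := k (√(p.LcL t * p.wL t) * p.ucL t) (by positivity) (by
    lg_norm; rcases m with ⟨m, m'⟩ | ⟨m, m'⟩ <;> rcases ly with e | e <;> linarith)
  have k6 := k (√(p.LcL t * p.wL t) * √(p.X2L t)) (by positivity) (by
    lg_norm; rcases m with ⟨m, m'⟩ | ⟨m, m'⟩ <;> rcases ly with e | e <;> linarith)
  have k7 := k (p.G0L σ t * p.ucL t) (by positivity) (by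
    lg_norm
    rcases m with ⟨m, m'⟩ | ⟨m, m'⟩ <;> rcases ly with e | e <;> rcases g with f | f | f <;> linarith)
  have k8 := k (p.G0L σ t * √(p.X2L t)) (by positivity) (by
    lg_norm
    rcases m with ⟨m, m'⟩ | ⟨m, m'⟩ <;> rcases ly with e | e <;> rcases g with f | f | f <;> linarith)
  have k9 := k (p.X2L t * p.ucL t) (by positivity) (by
    lg_norm; rcases m with ⟨m, m'⟩ | ⟨m, m'⟩ <;> rcases ly with e | e <;> linarith)
  have k10 := k (p.X2L t * √(p.X2L t)) (by positivity) (by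
    lg_norm; rcases m with ⟨m, m'⟩ | ⟨m, m'⟩ <;> rcases ly with e | e <;> linarith)
  have k11 := k ((p.n : ℝ) ^ (-(101 : ℝ) / 200)) (by positivity) (by
    rw [H.lg_rp]; rcases m with ⟨m, m'⟩ | ⟨m, m'⟩ <;> rcases ly with e | e <;> linarith)
  have k12 := k (p.X2L t ^ ((3 : ℝ) / 2)) (by positivity) (by
    lg_norm; rcases m with ⟨m, m'⟩ | ⟨m, m'⟩ <;> rcases ly with e | e <;> linarith)
  have k13 := k (1 / p.n) (by positivity) (by
    lg_norm; rw [H.lg_n]; rcases m with ⟨m, m'⟩ | ⟨m, m'⟩ <;> rcases ly with e | e <;> linarith)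
  rw [Pm.X3L]
  nlinarith [mul_pos θ0 x0]

set_option maxHeartbeats 1600000 in
/-- **`NA` on the table** -/
theorem naL (h : p.XloL σ t ≤ y) (h' : y ≤ p.PhN t) (x0 : 0 < x) (hx : x ^ 3 = y) {P2 P3 : ℝ}
    (h2 : P2 ≤ p.X2L t) (h3 : P3 ≤ p.X3L t) :
    Lp86.NA p.EL p.n (p.muG t) (p.laG σ) (Lx13.hh p) x (p.wL t) (p.uL t) (p.uL t) 1 P2 P3 p.LgL
      (p.LcL t) (p.ucL t) (p.X2L t) (p.X3L t) (p.G0L σ t) (p.jL σ t) (p.ecL σ t y) (p.tauL σ t y) := by
  have H := X.H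
  have hc := X.hc; have hη := X.hη; have η0 := H.η_pos
  have N0 := H.N0; have θ0 := X.θ0; have u0 := ucL0 X; have j0 := jL0 X; have L0 := LcL0 X
  have w0 := wL0 X; have G0 := G0L0 X; have X0 := X2L0 X; have E0 := EL0 H; have v0 := uL0 X
  have a0 := X.la0
  have n1 := (need_iff X).1 nd
  have θ2 := (lg_θ X).2.1
  have φ1 := (lg_Ph_lo X).1
  have φ2 := lg_Ph_hi X nd
  obtain ⟨-, -, a3⟩ := up X nd
  obtain ⟨g1, g2, -⟩ := lg_G0L X
  have lu := lg_ucL X
  have lL := lg_LcL X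
  have lw := lg_wL X
  have lE := lg_EL H
  have lv := lg_uL X
  have ly := lo X nd h
  have ly' := H.lg_mono ((XloL0 X).trans_le h) h'
  have m := lg_xM X
  have c2 := (H.lg_num (x := 2) (by norm_num) (by norm_num)).2
  have c3 := (H.lg_num (x := 3) (by norm_num) (by norm_num)).2
  have c8 := (H.lg_num (x := 8) (by norm_num) (by norm_num)).2
  have c24 := (H.lg_num (x := 24) (by norm_num) (by norm_num)).2
  have e3 : y ^ ((1 : ℝ) / 3) = x := by
    rw [← hx, ← rpow_natCast, ← rpow_mul x0.le]; norm_num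
  have ec := ec_le X nd h x0 hx
  rw [← hx, logb_pow] at ly ly'
  push_cast at ly ly'
  have w3 : 0 < p.wL t ^ ((1 : ℝ) / 3) := by positivity
  have e0 : 0 < p.ecL σ t y := by
    have := X3L0 X
    rw [Pm.ecL, e3]; positivity
  have t1 : p.tauL σ t y ≤ x := by
    have b1 : 3 * (x / p.LcL t) ≤ x := H.le_of_lg (by positivity) x0 (by
      lg_norm; rcases m with ⟨m, m'⟩ | ⟨m, m'⟩ <;> linarith)
    have b2 : 3 * p.wL t ^ ((1 : ℝ) / 3) ≤ x := H.le_of_lg (by positivity) x0 (by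
      lg_norm; rcases m with ⟨m, m'⟩ | ⟨m, m'⟩ <;> rcases ly with e | e <;> linarith)
    have b3 : p.ecL σ t y / p.muG t ≤ x / 3 := by
      rw [div_le_iff₀ θ0, Pm.ecL, e3]; linarith
    rw [Pm.tauL, e3]
    linarith
  have x1 : 2 * (p.EL * x) ≤ 1 := H.le_of_lg (by positivity) one_pos (by lg_norm; linarith)
  have j1 : 2 * (p.EL * p.jL σ t) ≤ 1 := H.le_of_lg (by positivity) one_pos (by
    lg_norm; rcases a3 with f | f <;> linarith)
  have b1 : 24 * (p.wL t * (√(x ^ 3) / p.laG σ)) ≤ p.G0L σ t ^ 2 :=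
    H.le_of_lg (by positivity) (by positivity) (by lg_norm; linarith)
  have b2 : 8 * p.wL t ≤ p.G0L σ t ^ 2 := H.le_of_lg (by positivity) (by positivity) (by
    lg_norm; rcases m with ⟨m, m'⟩ | ⟨m, m'⟩ <;> linarith)
  refine ⟨EL1 H, by rw [Pm.wL, one_div_mul_cancel (by positivity)], by nlinarith [mul_pos E0 x0],
    le_rfl, H.le_of_lg (by positivity) one_pos ?_, by rw [one_pow]; exact H.N1.le,
    one_le_pow₀ (EL1 H), h2, h3, H.le_of_lg v0 G0 ?_, ?_,
    H.le_of_lg (H.rp0 _) (by positivity) ?_,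
    ⟨H.le_of_lg (LgL0 H) L0 ?_, H.le_of_lg L0 N0 ?_⟩, u0.le,
    H.le_of_lg (by positivity) (by positivity) ?_, j0.le, by rw [Pm.ecL, e3],
    H.le_of_lg (by positivity) θ0 ?_, by rw [Pm.tauL, e3]; linarith, t1,
    by nlinarith [mul_le_mul_of_nonneg_left t1 E0.le], ?_⟩
  · lg_norm; rcases m with ⟨m, m'⟩ | ⟨m, m'⟩ <;> linarith
  · rcases m with ⟨m, m'⟩ | ⟨m, m'⟩ <;> linarith
  · rw [mul_div_assoc]; linarith
  · rw [H.lg_rp]; lg_norm; rcases m with ⟨m, m'⟩ | ⟨m, m'⟩ <;> linarith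
  · rw [lg_LgL H]; rcases m with ⟨m, m'⟩ | ⟨m, m'⟩ <;> linarith
  · rw [H.lg_n]; rcases m with ⟨m, m'⟩ | ⟨m, m'⟩ <;> linarith
  · lg_norm; linarith
  · lg_norm; rcases m with ⟨m, m'⟩ | ⟨m, m'⟩ <;> linarith
  · refine (Ps64.cube3 w0.le).ge.trans (pow_le_pow_left₀ w3.le ?_ 3)
    rw [Pm.tauL, e3]
    exact le_add_of_nonneg_left (by positivity)

end Crest.Agent.T156.Alt.La72

end
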