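import Crest.Agent.T156.LtC2_85
import Crest.Agent.T156.LPa_72
import Crest.Agent.T156.HyD_77
import Crest.Agent.T156.R1LocB_77

/-!
# Row 156 (helper85): the leaf `LPx`
-/

set_option autoImplicit false
set_option linter.unusedSectionVars false

noncomputable section

namespace Crest.Agent.T156.Alt.Lc85

open Real Tr3 R77

variable {β c0 C0 c0' C0' η' : ℝ} {A : ℕ} {c η K K' : ℝ} {p : Pm} {σ t y : ℝ} {Q : Pl}
  (X : Nr44.Cx β c0 C0 A c η K' p σ t) (nd : p.Need t) (G : GrD K c0' C0' η' p σ t Q)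
include X nd

theorem lt1 : p.ltL t ≤ 1 := by
  have H := B.of X.H
  obtain ⟨_, _, _, _, _, _, _, _, _, _, _, _⟩ := facts X nd
  have k : p.κ ^ 10 ≤ 1 := X.H.le_of_lg (pow_pos X.H.κ0 10) one_pos (by
    rw [logb_pow, X.H.lg_κ, logb_one]; push_cast; linarith)
  refine max_le (H.le (H.mul (uc X _) (H.rpw (uPh X nd) ((1 : ℝ) / 3))) B.done (by linarith)) ?_
  linarith [min_le_right (p.yL t) (p.κ ^ 10)]

include G

theorem W1 : Tn15.W (p.scG K σ t Q) 1 = p.wL t ^ ((1 : ℝ) / 3) := by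
  have H := B.of X.H
  obtain ⟨_, _, _, _, _, _, _, _, _, _, _, _⟩ := facts X nd
  have e : (p.scG K σ t Q).F * (p.scG K σ t Q).ms 1 / 1 ^ 2 = p.muG t := by
    change 1 * p.msG t 1 / 1 ^ 2 = _
    rw [one_mul, one_pow, div_one]; exact G.top
  rw [Tn15.W, L69.cr, e, Lx13.w_eq G,
    max_eq_left (H.le (H.rpw (uθ X) ((1 : ℝ) / 3)) B.done (by linarith)), one_mul, Pm.wL]

/-- the residual size at the top -/
theorem uη : U p.n (etaL p σ t (p.scG K σ t Q) 1) (-(2 / 5)) := by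
  have H := B.of X.H
  obtain ⟨_, _, _, _, _, _, _, _, _, _, _, _⟩ := facts (σ := σ) X nd
  have w : U p.n (p.wL t ^ ((1 : ℝ) / 3)) (-(11 / 50)) := H.mono (H.rpw (uw X) _) (by linarith)
  have L : U p.n p.LgL (c / 1000) := H.mono (H.pow (uc X _) 2) (by push_cast; linarith)
  have c8 := H.mul (H.cst (y := 8) (by norm_num) (by norm_num)) (H.mul B.one (H.pow w 3))
  have χ := uX2 X nd
  have p1 := H.pc (c := -(2 / 5)) (H.mul (H.pow L 6) (H.pow w 3)) (by push_cast; linarith)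
  have p2 := H.pc (c := -(2 / 5)) (H.mul (H.pow L 4) (H.div (H.up (-(2 : ℝ) / 3)) B.done))
    (by push_cast; linarith)
  have p3 := H.pc (c := -(2 / 5)) (H.mul (H.add3 (c := -(7 / 25))
    (H.sqrt (H.mul L (H.mul B.one (H.pow w 3)))) (uG0 (σ := σ) X nd) χ (by push_cast; linarith)
    (by linarith) (by linarith)) (H.add (c := -(7 / 50)) (H.mul (H.pow L 2) w) (H.sqrt χ)
    (by push_cast; linarith) (by linarith))) (by linarith)
  have p4 := H.pc (c := -(2 / 5)) (uX3 X nd) (by linarith)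
  have p5 := H.pc (c := -(2 / 5)) (H.div B.one B.dn) (by linarith)
  have p6 := H.pc (c := -(2 / 5)) c8 (by push_cast; linarith)
  have p7 := H.pc (c := -(2 / 5)) (H.mul (H.rpw c8 ((1 : ℝ) / 7)) (H.rpw (H.mul (H.mul
    (H.cst (y := 2) (by norm_num) (by norm_num)) w) (uPh X nd)) ((6 : ℝ) / 7)))
    (by push_cast; linarith)
  rw [etaL, Ln97.eta, max_eq_left (lt1 X nd), Ln97.e2, Tn15.e0, Tn15.P, W1 X nd G]
  change U p.n (_ + _ + _ + _ + 1 / (p.n : ℝ) + _) _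
  exact H.tot 7 (by linarith) (by linarith)

theorem lpx (hA : 4 ≤ A) (P : p.PlX σ t Q) (y0 : p.XloL σ t ≤ y) (y1 : y ≤ p.PhN t) :
    L69.LP p.EL (p.scG K σ t Q) (p.gst Q t) y (p.VL σ t) p.LgL 1 (p.X2L t) (p.X3L t) (p.G0L σ t) 0
      (p.uL t) (p.uL t) (p.jL σ t) 0 (p.LcL t) (p.ecL σ t y) (p.tauL σ t y)
      (etaL p σ t (p.scG K σ t Q)) (p.NL σ t y) := by
  have h0 := (Lt15.XloL0 X).trans_le y0
  have x0 := rpow_pos_of_pos h0 ((1 : ℝ) / 3)
  have hx : (y ^ ((1 : ℝ) / 3)) ^ 3 = y := by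
    rw [← rpow_natCast, ← rpow_mul h0.le]; norm_num
  obtain ⟨_, _, _, _, _, S⟩ := Lx13.nsL X G nd y0 y1 x0 hx
  obtain ⟨_, _, _, _, _, _, _, R⟩ := ncL X nd G x0 hx y1 y0 (uη X nd G)
  have k := Lx13.lp X.H hA X.o G P S (La72.naL X nd y0 y1 x0 hx le_rfl le_rfl) R (uη X nd G).1 le_rfl
  rwa [hx, one_pow] at k

omit X nd G in
/-- **the leaf `LPx`** -/
theorem lpxG (hβ : 1 < β) : OnG LPx β :=
  OnG.cl' hβ CL.triv (OnG.triv β) one_pos (by norm_num : (0 : ℝ) < 1 / 2000) 10000 0 (fun _ => 0)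
    fun _ _ _ _ _ _ _ _ _ _ _ _ _ _ G a _ b _ _ _ nd _ _ y0 y1 =>
      lpx ⟨G.R, a, by exact_mod_cast b, G.O⟩ nd G.D G.A4 G.X y0 y1

end Crest.Agent.T156.Alt.Lc85

end
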