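import Crest.Agent.T156.LT2p_38
import Crest.Agent.T156.HyA_4

/-!
# Row 156 (helper38): the linear lines of `LT2.pa` on the table `LtD_29`
-/

set_option autoImplicit false
set_option linter.unusedVariables false

namespace Crest.Agent.T156.Alt.Lt38

open Crest.Agent.T156.Alt.Ln97 (M12)
open Crest.Agent.T156.Alt.Lt76 (BL)

variable {c η s μ z sm φ χ2 χ3 γ L β T m π : ℝ}

theorem lv_of {x e : ℝ} (M : Hl4.Ms c η μ T m) (c0 : 0 < c) (e0 : 0 ≤ η) (e1 : 1000000 * η ≤ c)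
    (m1 : μ ≤ -(7 * c)) (d0 : -(7 * c) ≤ μ ∨ x - 11 / 2 * c ≤ μ) (t0 : φ / 3 ≤ T) (t1 : T ≤ η)
    (h : -(10 * c) - η ≤ T ∨ 2 / 3 * (e - 1 / 3 + c - x) - η ≤ T ∧ (e - 1 / 3 + c) / 2 - η ≤ T)
    (a1 : -(15 / 1000 * c) ≤ e) (a2 : c / 100 + χ2 + 1 / 3 ≤ e) : Lv c η μ φ χ2 T m := by
  refine ⟨t0, t1, ?_⟩
  rcases le_total (-(10 * c) - η) T with k | k
  · rcases M.lo with ⟨_, _ | _⟩ | ⟨_, _⟩ <;>
      exact .inr (.inr ⟨by linarith, by linarith, by linarith⟩)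
  rcases h with h | ⟨h, h'⟩
  · rcases M.lo with ⟨_, _ | _⟩ | ⟨_, _⟩ <;>
      exact .inr (.inr ⟨by linarith, by linarith, by linarith⟩)
  rcases M.lo with ⟨_, _ | _⟩ | ⟨_, _⟩
  · exact .inl ⟨by linarith, by linarith, by linarith⟩
  · rcases d0 with d0 | d0
    · exact .inl ⟨by linarith, by linarith, by linarith⟩
    · exact .inr (.inl ⟨by linarith, by linarith, by linarith, by linarith⟩)
  · linarith

set_option hygiene false in
macro "op38" : tactic => `(tactic| (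
  obtain ⟨c0, c1, e0, e1, s0, s1, m0, m1, z0, sm0, sm1, f0, f1, x2, x2', x3, g0, L0, b0⟩ := h
  obtain ⟨t0, t1, t2⟩ := l
  subst L0))

section
variable (h : Nb c η s μ z sm φ χ2 χ3 γ L β) (l : Lv c η μ φ χ2 T m) (hπ : c / 100 + β / 2 ≤ π)
include h l hπ

set_option maxHeartbeats 2000000 in
theorem Nb.p1 : 6 * L - (1 + T + m) ≤ π - 6 * η + m - T := by
  op38
  clear x3 g0; lv38
set_option maxHeartbeats 2000000 in
theorem Nb.p2 : 4 * L - 2 / 3 - T ≤ π - 6 * η + m - T := by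
  op38
  clear x3 g0; lv38
set_option maxHeartbeats 2000000 in
theorem Nb.p3 : 5 / 2 * L - (1 + m) / 2 - (1 + T + m) / 3 ≤ π - 6 * η + m - T := by
  op38
  clear x3 g0; lv38
set_option maxHeartbeats 2000000 in
theorem Nb.p4 : (L - (1 + m)) / 2 + χ2 / 2 ≤ π - 6 * η + m - T := by
  op38
  clear x3 g0; lv38
set_option maxHeartbeats 2000000 in
theorem Nb.p5 : γ + 2 * L - (1 + T + m) / 3 ≤ π - 6 * η + m - T := by
  op38
  clear x3; rcases g0 with g0 | g0 | g0 <;> lv38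
set_option maxHeartbeats 2000000 in
theorem Nb.p6 : γ + χ2 / 2 ≤ π - 6 * η + m - T := by
  op38
  clear x3; rcases g0 with g0 | g0 | g0 <;> lv38
set_option maxHeartbeats 2000000 in
theorem Nb.p7 : χ2 + 2 * L - (1 + T + m) / 3 ≤ π - 6 * η + m - T := by
  op38
  clear x3 g0; lv38
set_option maxHeartbeats 2000000 in
theorem Nb.p8 : 3 / 2 * χ2 ≤ π - 6 * η + m - T := by
  op38
  clear x3 g0; lv38
set_option maxHeartbeats 2000000 in
theorem Nb.p9 : χ3 ≤ π - 6 * η + m - T := by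
  op38
  clear g0; rcases x3 with x3 | x3 <;> lv38
set_option maxHeartbeats 2000000 in
theorem Nb.p10 : -1 ≤ π - 6 * η + m - T := by
  op38
  clear x3 g0; lv38
set_option maxHeartbeats 2000000 in
theorem Nb.p11 : η - (1 + m) ≤ π - 6 * η + m - T := by
  op38
  clear x3 g0; lv38
set_option maxHeartbeats 2000000 in
theorem Nb.p12 : η - (1 + m) / 7 + 6 / 7 * (3 * (φ / 3) - (1 + T + m) / 3) ≤
    π - 6 * η + m - T := by
  op38
  clear x3 g0; lv38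
set_option maxHeartbeats 2000000 in
theorem Nb.p13 : T + χ2 ≤ π - 5 * η + m / 2 := by
  op38
  clear x3 g0; lv38
set_option maxHeartbeats 2000000 in
theorem Nb.p14 : T + 4 * L - 2 / 3 * (1 + T + m) ≤ π - 5 * η + m / 2 := by
  op38
  clear x3 g0; lv38

theorem Nb.pa : M12 η L (φ / 3) χ2 χ3 γ T m (π - 6 * η + m - T) ∧
    BL η L χ2 T m (π - 6 * η + m - T) T (π - 5 * η) :=
  ⟨⟨h.p1 l hπ, h.p2 l hπ, h.p3 l hπ, h.p4 l hπ, h.p5 l hπ, h.p6 l hπ, h.p7 l hπ, h.p8 l hπ,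
    h.p9 l hπ, h.p10 l hπ, h.p11 l hπ, h.p12 l hπ⟩, by linarith, h.p13 l hπ, h.p14 l hπ⟩

end

set_option maxHeartbeats 2000000 in
/-- `l³ X` -/
theorem Nb.l3' (h : Nb c η s μ z sm φ χ2 χ3 γ L β) {a e : ℝ}
    (he : e ≤ -(15 / 1000 * c) ∨ e ≤ c / 10 + χ2 + 1 / 3)
    (ha : a ≤ c / 3000 + φ / 3 ∨ a ≤ -(10 * c) ∧
      (a ≤ 2 / 3 * (e - 1 / 3 - μ - 4 * c) ∨ a ≤ (e - 1 / 3 + c) / 2)) :
    3 * a + φ ≤ β := by
  have k := h.lo.2.2.2.2
  obtain ⟨c0, c1, e0, e1, s0, s1, m0, m1, z0, sm0, sm1, f0, f1, x2, x2', x3, g0, L0, b0⟩ := h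
  clear x3 g0
  rcases ha with ha | ⟨ha, hb⟩
  · linarith
  rcases he with he | he <;> rcases hb with hb | hb <;> nb38

end Crest.Agent.T156.Alt.Lt38
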