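import Crest.Agent.T156.LT2h_38
import Crest.Agent.T156.LT2r_38
import Crest.Agent.T156.LtK_15
import Crest.Agent.T156.HyE_77

/-!
# Row 156 (helper38): `LT2.en`, `LT2.pa` on the table `LtD_29` and the leaf `LTx`
-/

set_option autoImplicit false
set_option linter.unusedSectionVars false

noncomputable section

namespace Crest.Agent.T156.Alt.Lt38

open Real Finset
open Crest.Agent.T156.Alt.L69 (GS GP dx L4 cB bs)
open Crest.Agent.T156.Alt.Ln97 (FX M12 eta)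
open Crest.Agent.T156.Alt.Nr44 (Cx)
open Crest.Agent.T156.Alt.R77

section num

variable {β c0 C0 c0' C0' η' : ℝ} {A : ℕ} {c η K K' : ℝ} {p : Pm} {σ t y : ℝ} {Q : Pl}
  (X : Cx β c0 C0 A c η K p σ t) (hη : 1000000 * η ≤ c)
include X

theorem e_bd : -(15 / 1000 * c) ≤ logb p.n (p.E2L t) ∧
    c / 100 + logb p.n (p.X2L t) + 1 / 3 ≤ logb p.n (p.E2L t) ∧
    (logb p.n (p.E2L t) ≤ -(15 / 1000 * c) ∨
      logb p.n (p.E2L t) ≤ c / 10 + logb p.n (p.X2L t) + 1 / 3) := by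
  have c0 := X.H.c_pos
  rw [X.lg_E2]
  refine ⟨le_max_left _ _, le_max_of_le_right (by linarith), ?_⟩
  rw [max_def]
  split_ifs
  · exact .inr (by linarith)
  · exact .inl le_rfl

theorem lg_N (y0 : 0 ≤ y) : logb p.n (p.BuL σ t) ≤ logb p.n (p.NL σ t y) := by
  have := nc0 X (1 / 20); have := X.θ0
  exact X.H.lg_mono (Bu0 X) (le_add_of_nonneg_right (by positivity))

include hη

/-- a level above the first thick level -/
theorem lv {r : ℝ} (h : p.ltL t ≤ r) (h1 : logb p.n r ≤ η) :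
    Lv c η (logb p.n (p.muG t)) (logb p.n (p.PhN t)) (logb p.n (p.X2L t)) (logb p.n r)
      (logb p.n (p.msG t r)) := by
  have H := X.H
  have a := H.lg_mono (lt0 X hη) h
  have c0 := H.c_pos
  have n8 := (H.lg_num (x := 8) (by norm_num) (by norm_num)).2
  obtain ⟨e1, e2, -⟩ := e_bd X
  rw [Lt15.lg_ltL X, max_le_iff, Lt15.lg_yL X, sub_le_iff_le_add, min_le_iff, max_le_iff] at a
  exact lv_of (Hl4.ms_lg H X.Mt (((r_x X).trans (x_l X hη)).trans h)) c0 H.η_pos.le hη (lg_θ X)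
    (H.lg_muG66 X.Mt).1 (by linarith [a.1]) h1
    (a.2.elim (fun b => .inr ⟨by linarith [b.1], by linarith [b.2]⟩) fun b => .inl (by linarith))
    e1 e2

theorem l3 (hc : c ≤ 1 / 100000) (nd : p.Need t) :
    3 * logb p.n (p.ltL t) + logb p.n (p.PhN t) ≤ logb p.n (p.BuL σ t) := by
  have H := X.H
  have n8 := (H.lg_num (x := 8) (by norm_num) (by norm_num)).1
  have m2 := (H.lg_muG66 X.Mt).2.2
  have c0 := H.c_pos
  have η0 := H.η_pos
  refine (nb X hη hc nd).l3' (e_bd X).2.2 ?_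
  rw [Lt15.lg_ltL X, max_def]
  split_ifs
  · have a := min_le_left (logb p.n (p.yL t)) (-(10 * c))
    have b := min_le_right (logb p.n (p.yL t)) (-(10 * c))
    refine .inr ⟨by linarith, ?_⟩
    generalize min (logb p.n (p.yL t)) (-(10 * c)) = u at *
    rw [Lt15.lg_yL X, le_max_iff] at a
    exact a.imp (fun _ => by linarith) fun _ => by linarith
  · exact .inl le_rfl

variable (G : GrD K' c0' C0' η' p σ t Q) (hc : c ≤ 1 / 100000) (nd : p.Need t)
  (hC : 8 * K' ^ 2 ≤ (p.n : ℝ) ^ η) (y0 : 0 ≤ y)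
  (h : FX p.EL (p.scG K' σ t Q) (p.gst Q t) (p.l0L t) (p.ltL t) (p.lN t) (p.PhN t) p.LgL
    ((p.n : ℝ) ^ (-(2 : ℝ) / 3)) (p.X2L t) (p.X3L t) (p.G0L σ t))
include G hc nd hC y0 h

/-- **`LT2.pa`** -/
theorem pa : √(p.EnL σ t y / p.tuL t ((p.gst Q t).s (p.scG K' σ t Q).J)) + √(p.EnL σ t y) +
      ∑ k ∈ (Ioo (p.scG K' σ t Q).jl (p.scG K' σ t Q).J).filter fun k =>
        p.ltL t ≤ (p.gst Q t).s k ∧
          (p.gst Q t).s k ≤ p.tuL t ((p.gst Q t).s (p.scG K' σ t Q).J),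
      dx (p.gst Q t) k * bs (p.scG K' σ t Q) p.LgL (p.X2L t)
        (gL K' (4 * (p.muG t * K' * p.laG σ)) ((p.gst Q t).s k))
        (eta (p.scG K' σ t Q) (p.ltL t) p.LgL ((p.n : ℝ) ^ (-(2 : ℝ) / 3)) (p.PhN t) (p.X2L t)
          (p.X3L t) (p.G0L σ t)) ((p.gst Q t).s k) ≤ p.p0L σ t y := by
  have H := X.H
  have c0 := H.c_pos
  have η0 := H.η_pos
  have E0 := E0 X
  have u := (tu_bd X hη G).1
  have u0 : 0 < 1 / p.EL := by positivity
  have lE : logb p.n (1 / p.EL) = -(c / 100000) := by lg_norm; rw [lg_E X]; ring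
  have u1 := H.lg_mono u0 u
  have e := Lt15.lg_EnL X y0
  have q := Lt15.lg_p0L X y0
  have N := lg_N X y0
  refine Lt76.pa_lg H h rfl rfl hC (Lt52.hj H G hC) (Lt15.EnL0 X y0) (u0.trans_le u)
    (Lt15.p0L0 X y0) (fun r r1 _ r3 => ?_) (by linarith) (by linarith)
  have r0 := (lt0 X hη).trans_le r1
  have T := H.lg_le r0 (r3.trans hC)
  obtain ⟨m, b⟩ := (nb X hη hc nd).pa (lv X hη r1 T)
    (show c / 100 + logb p.n (p.BuL σ t) / 2 ≤ logb p.n (p.p0L σ t y) by linarith)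
  refine ⟨_, by rw [lg_x X]; exact m, Lt52.gL_of H (H.rp0 _).le ?_, b⟩
  refine (le_or_gt (4 * r) (tz K')).imp id fun z => ?_
  have z1 := H.lg_mono u0 (show 1 / p.EL ≤ r by linarith [E_tz X hη G])
  have K1 := G.nb.K1
  have K0 : 0 < K' := by linarith
  have k : logb p.n K' ≤ η := H.lg_le K0 (le_trans (by nlinarith) hC)
  have := X.θ0; have := X.la0
  rw [ms_hi X r0 (by linarith)]
  refine H.le_of_lg (by positivity) (H.rp0 _) ?_
  rw [H.lg_rp]
  lg_norm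
  linarith [(H.lg_num (x := 4) (by norm_num) (by norm_num)).2, lg_Bu X, X.lg_sM.1]

/-- **`LT2.en`** -/
theorem en (PX : p.PlX σ t Q) (hK : 5 * (406 + 8 * K') ≤ (p.n : ℝ) ^ η) :
    cB (p.gst Q t) (p.scG K' σ t Q) (eta (p.scG K' σ t Q) (p.ltL t) p.LgL
      ((p.n : ℝ) ^ (-(2 : ℝ) / 3)) (p.PhN t) (p.X2L t) (p.X3L t) (p.G0L σ t)) (p.t1L / 2)
      (p.scG K' σ t Q).C + p.X2L t ^ 2 + p.X4L σ t + p.NL σ t y + p.ltL t ^ 3 * p.PhN t +
      ((p.scG K' σ t Q).ms p.t1L * bs (p.scG K' σ t Q) p.LgL (p.X2L t)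
        (gL K' (4 * (p.muG t * K' * p.laG σ)) p.t1L)
        (eta (p.scG K' σ t Q) (p.ltL t) p.LgL ((p.n : ℝ) ^ (-(2 : ℝ) / 3)) (p.PhN t) (p.X2L t)
          (p.X3L t) (p.G0L σ t)) p.t1L) ^ 2 / p.t1L ≤ p.EnL σ t y := by
  have H := X.H
  have c0 := H.c_pos
  have η0 := H.η_pos
  have E0 := E0 X
  have E2 := E2 X hη
  have t0 := t10 X
  have lt := lg_t1 X
  have u0 : 0 < 1 / p.EL := by positivity
  have lE : logb p.n (1 / p.EL) = -(c / 100000) := by lg_norm; rw [lg_E X]; ring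
  have z := E_tz X hη G
  have z0 : 0 < tz K' := by linarith
  have z1 := H.lg_mono u0 (show 1 / p.EL ≤ tz K' by linarith)
  have e := Lt15.lg_EnL X y0
  have e0 := Lt15.EnL0 X y0
  have N := lg_N X y0
  have B := nb X hη hc nd
  obtain ⟨o1, o2, o3, -, o5⟩ := B.lo
  have x2 := B.x2
  have L := B.L0
  have θ := lg_θ X
  have ξ := lg_x X
  have m1 : (p.scG K' σ t Q).ms p.t1L = p.muG t := ms_hi X t0 (by linarith)
  have m2 : (p.scG K' σ t Q).ms (tz K') = p.muG t := ms_hi X z0 (by linarith)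
  have := X.θ0; have := X.la0; have := H.N0
  refine Lt52.en_lg' (b := -(2 / 5)) (B := (logb p.n (p.EnL σ t y) + logb p.n p.t1L - 3 * η) / 2)
    (Γ := ((p.n : ℝ) ^ η * (p.muG t * p.laG σ)) ^ 2) H h rfl rfl hC (Lt52.hj H G hC) (t1a X hη) e0
    (Bu0 X) (fun r r1 r2 => ?_) (fun k a a' => G_lo G a a') z0.le
    (le_trans (le_add_of_nonneg_right (Tm71.GP_nn G.cl.1)) (Hy43.G_le H X.o G PX hK _ _)) ?_
    (by linarith) (by rw [Pm.X4L]; linarith) ?_ (by linarith [l3 X hη hc nd])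
    (by rw [m1, ξ]; exact B.top (by linarith)) (gL_nn (gT0 X G) _)
    (Lt52.gL_of H (H.rp0 _).le (.inl (by nlinarith [t1b X hη])))
    (by rw [m1]; exact ⟨by linarith, by linarith, by linarith⟩) (by linarith)
  · have a := H.lg_mono (half_pos t0) r1
    have r0 := (half_pos t0).trans_le r1
    have T := H.lg_le r0 (r2.trans hC)
    rw [logb_div t0.ne' two_ne_zero] at a
    have n2 := H.lg_two.2
    have m : (p.scG K' σ t Q).ms r = p.muG t := ms_hi X r0 (by linarith)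
    rw [m, ξ]
    exact ⟨_, B.top (by linarith), by linarith⟩
  · rw [m2]
    refine Lt76.num_le H (by norm_num) (by positivity) (by positivity) ?_
    rw [logb_mul e0.ne' X.θ0.ne']
    lg_norm
    rw [H.lg_n]
    linarith [lg_Bu X, X.lg_sM.1]
  · exact mul_le_mul_of_nonneg_right (le_trans (by linarith [H.num_le])
      (Pre29.rp_le H.n1 (show η ≤ 1 / 100 * p.c by rw [H.hc]; linarith))) (NL0 X y0).le

end num

/-- the input of `LN` on the table -/
def FXx : Dt := fun p σ t S M => p.Need t → p.Need2 t →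
  FX p.EL S M (p.l0L t) (p.ltL t) (p.lN t) (p.PhN t) p.LgL ((p.n : ℝ) ^ (-(2 : ℝ) / 3)) (p.X2L t)
    (p.X3L t) (p.G0L σ t)

/-- **the leaf `LTx`** -/
theorem ltxG {β : ℝ} (hβ : 1 < β) (hF : OnG FXx β) : OnG LTx β :=
  OnG.cl' hβ CL.triv hF one_pos (by norm_num : (0 : ℝ) < 1 / 100000) 1000000 0 (fun _ => 0)
    fun K c0 C0 A c η K' c0' C0' η' p σ t Q G a _ b _ _ r nd n2 y y0 y1 => by
    have b' : 1000000 * η ≤ c := by exact_mod_cast b
    have X : Cx β c0 C0 A c η K' p σ t := ⟨G.R, by linarith, by linarith [G.R.η_pos], G.O⟩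
    have h := r nd n2
    have y2 : 0 ≤ y := (sq_nonneg _).trans ((la_Xlo X).trans y0)
    rw [gG, etaL, kS_eq p (by linarith [G.D.nb.K1])]
    exact lt2 X b' G.D G.X nd y2 y1 (x4 X b' a nd h) (en X b' G.D a nd G.CK y2 h G.X G.BK)
      (pa X b' G.D a nd G.CK y2 h)

end Crest.Agent.T156.Alt.Lt38

end
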