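import Crest.Agent.T156.TL2D_63

/-!
# Row 156, block (L): the corner by the pointwise route, quadratic branch; statements (helper62)

Static plateau.  `ℓ` is the distance of the last located node to the corner, `α` the size of the
corner layer.
-/

set_option autoImplicit false

noncomputable section

namespace Crest.Agent.T156.Alt.L62

open Real Finset
open Crest.Agent.T156.Alt.L69 Crest.Agent.T156.Alt.Mp9 Crest.Agent.T156.Alt.L63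

/-- the part of the error of (E1) that does not depend on the plateau node -/
def x0 (S : Sc) (M : Md) (X Xp Vt Lg Lp G0 u1 j γ ℓ : ℝ) (η : ℝ → ℝ) : ℝ :=
  η 1 + G0 ^ 2 + Np M S Xp Vt γ u1 Lp 2 +
    uw S Lg 1 ^ 2 * (S.θ + j + X ^ ((1 : ℝ) / 3) + ℓ) + ℓ ^ ((1 : ℝ) / 3) * η 1 ^ ((2 : ℝ) / 3)

/-- **good nodes of the plateau** `Pn` with errors `ez`, in every shell above the cut `u`, and
sloped partners in every window of label length `ω` at distance in `[ℓ / 5, B ℓ]` of the corner -/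
structure PN (S : Sc) (M : Md) (m : ℕ) (a T : ℝ) (Pn : ℕ → Prop) (ez : ℕ → ℝ) (x la u ω ℓ B : ℝ) :
    Prop where
  x00 : 0 ≤ x
  la0 : 0 ≤ la
  ez0 : ∀ k, 0 ≤ ez k
  mem : ∀ k, Pn k → S.J ≤ k ∧ k < S.Jp
  ex : ∀ k, S.J ≤ k → k ≤ S.Jp → u ≤ du M k → ∃ i, Pn i ∧ k ≤ i ∧
    M.z i ≤ M.z (k - 1) + ds M S k / 4
  dp : ∀ i k, Pn i → Pn k → i ≤ k → |res M S m a T k - res M S m a T i| ≤
    x + ez i + ez k + la * (sb M m a (k + 1) - sb M m a (i + 1))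
  dv : ∀ p q, S.jl < p → p ≤ q → q < S.J → M.s S.J - B * ℓ ≤ M.s p → M.s q + ℓ / 5 ≤ M.s S.J →
    ω ≤ M.z q - M.z p → ∃ i, p ≤ i ∧ i ≤ q ∧
      ∀ k, Pn k → |res M S m a T k - res M S m a T i| ≤
        x + ez k + la * (sb M m a (k + 1) - sb M m a (i + 1))

/-- **(PNS)** the nodes -/
def PNS : Prop := CL fun _E Λ S M m a =>
  ∀ G1 u1 u2 j γ Lc ηc τ l0 l X Xp Vt Lg Lp X2 X3 X4 G0 η N g t1 ℓ En p0,
  Hy _E S M m a G1 u1 u2 j γ Lc ηc τ l0 l X Xp Vt Lg Lp X2 X3 X4 G0 η N g t1 (M.s S.J) ℓ En p0 →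
  ∃ Pn, PN S M m a (2 * S.C) Pn (fun k => Λ * (Lg ^ 2 * ap M S Xp Vt γ k) ^ 2)
    (Λ * x0 S M X Xp Vt Lg Lp G0 u1 j γ ℓ η) (Λ * X2) (8 * u2) (ℓ / (100 * S.C ^ 3)) ℓ (100 * S.C ^ 3)

/-- numbers of the quadratic branch -/
structure LQ (E : ℝ) (S : Sc) (M : Md) (X Xp Vt Lg Lp X2 G0 u1 u2 j γ : ℝ) (η g : ℝ → ℝ)
    (ℓ α p0 Pq : ℝ) : Prop where
  flat : M.s S.Jp = M.s S.J
  a1 : ℓ + j + S.u0 ≤ α
  a2 : E * α ≤ 1
  a3 : x0 S M X Xp Vt Lg Lp G0 u1 j γ ℓ η + g (M.s S.J) + √(GP M S) ≤ α ^ 3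
  a4 : ∀ k, S.J ≤ k → k ≤ S.Jp → α ≤ M.z k - M.z (S.J - 1) → u2 ≤ du M k →
    du M k * (Lg ^ 2 * ap M S Xp Vt γ k) ^ 2 ≤ α ^ 3
  pq : (p0 + bs S Lg X2 (g (M.s S.J)) η (M.s S.J)) ^ 2 + α ^ 3 + √(GP M S / α) + u2 + GP M S +
    GS M S (M.s S.J / 2) S.C + 1 / (S.n : ℝ) ^ 2 ≤ Pq

/-- **(TLp)** last window and plateau -/
def TLp : Prop := CL fun E Λ S M m a =>
  ∀ G1 u1 u2 j γ Lc ηc τ l0 l X Xp Vt Lg Lp X2 X3 X4 G0 η N g t1 ℓ En p0 α Pq,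
  Hy E S M m a G1 u1 u2 j γ Lc ηc τ l0 l X Xp Vt Lg Lp X2 X3 X4 G0 η N g t1 (M.s S.J) ℓ En p0 →
  LQ E S M X Xp Vt Lg Lp X2 G0 u1 u2 j γ η g ℓ α p0 Pq →
    ∑ k ∈ (Ioo S.jl S.J).filter fun k => 3 / 4 * M.s S.J ≤ M.s k, dx M k * M.del m a k ^ 2 +
      Pla M S m a 2 ≤ Λ * Pq

end Crest.Agent.T156.Alt.L62

end
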