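import Crest.Agent.T156.TL2D_63

/-!
# Row 156, block (L): the last window and the plateau, linear regime; statement (helper53)
-/

set_option autoImplicit false

noncomputable section

namespace Crest.Agent.T156.Alt.L63

open MeasureTheory Real Finset
open Crest.Agent.T156.Alt.L69 Crest.Agent.T156.Alt.Mp9

/-- the constant part of the node error on the plateau -/
def eQ (S : Sc) (M : Md) (X Xp Vt Lg Lp X2 G0 u1 j γ aa : ℝ) (η : ℝ → ℝ) : ℝ :=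
  η 1 + G0 ^ 2 + Np M S Xp Vt γ u1 Lp 2 + uw S Lg 1 ^ 2 * (S.θ + j + X ^ ((1 : ℝ) / 3) + aa) +
    √(S.w3 1 * (Xp + aa ^ 3 + γ ^ 3)) + X2 * Xp ^ ((1 : ℝ) / 3)

/-- numbers of the linear regime: `aa` is the distance of the last good sloped node to the corner,
`g'` bounds the residual below it, `R2` is the spread of the plateau -/
structure LQ (E : ℝ) (S : Sc) (M : Md) (X Xp Vt Lg Lp X2 G0 u1 u2 j γ : ℝ) (η : ℝ → ℝ)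
    (aa g' R2 : ℝ) : Prop where
  g0 : 0 ≤ g'
  g1 : ∀ k, S.jl < k → k < S.J → M.s S.J / 2 ≤ M.s k → M.s k + aa / 8 ≤ M.s S.J → |M.G k| ≤ g'
  a1 : E * X ^ ((1 : ℝ) / 3) ≤ Lg * aa
  a2 : E * η (M.s S.J / 2) ≤ S.θ * aa
  a3 : E ^ 3 * S.w3 1 ≤ aa ^ 3
  a4 : j + S.θ + γ ≤ Lg * aa
  a5 : S.u0 ≤ aa
  a6 : γ ≤ X ^ ((1 : ℝ) / 3)
  sm : E * (aa + j + bs S Lg X2 g' η (M.s S.J) + γ) ≤ √S.θ
  q1 : eQ S M X Xp Vt Lg Lp X2 G0 u1 j γ (√S.θ) η ^ 2 + GP M S ≤ S.θ ^ 2 * R2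
  q2 : ∑ k ∈ (Icc S.J S.Jp).filter fun k => 1 ≤ E * du M k,
    dx M k * (Lg ^ 2 * ap M S Xp Vt γ k) ^ 4 ≤ S.θ ^ 2 * R2
  q3 : ∑ k ∈ (Icc S.J S.Jp).filter fun k => u2 ≤ du M k,
    dx M k * (Lg ^ 2 * ap M S Xp Vt γ k) ^ 2 ≤ R2
  q4 : u2 + X2 ^ 2 + γ ^ 2 ≤ R2
  q5 : E * R2 ^ 2 ≤ S.θ ^ 3

/-- **(TLq)** the last window and the plateau -/
def TLq : Prop := CL fun E Λ S M m a =>
  ∀ G1 u1 u2 j γ Lc ηc τ l0 l X Xp Vt Lg Lp X2 X3 X4 G0 η N g t1 ℓ En p0,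
  Hy E S M m a G1 u1 u2 j γ Lc ηc τ l0 l X Xp Vt Lg Lp X2 X3 X4 G0 η N g t1 (M.s S.J) ℓ En p0 →
  ∀ aa g' R2, LQ E S M X Xp Vt Lg Lp X2 G0 u1 u2 j γ η aa g' R2 →
    M.En S m a M.q 2 (M.s S.J - ℓ) S.C ≤ Λ * (p0 ^ 2 +
      (ℓ + X ^ ((1 : ℝ) / 3) + M.s S.jl) * (j + bs S Lg X2 g' η (M.s S.J)) ^ 2 + aa ^ 3 + R2 +
      GS M S (M.s S.J - ℓ) S.C + GP M S + 1 / (S.n : ℝ) ^ 2)

end Crest.Agent.T156.Alt.L63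

end
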