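import Crest.Agent.T156.LDefX_64
import Crest.Agent.T156.TLp_62
import Crest.Agent.T156.TLqD_53

/-!
# Row 156, block (L): what the rest of the proof reads (helper94)
-/

set_option autoImplicit false

namespace Crest.Agent.T156.Alt.LZ

/-- **the output of the block (L)** -/
structure Out : Prop where
  tl0 : L69.TL0
  tlt : L69.TLt
  tl1x : L69.TL1x
  tl1cx : L69.TL1cx
  tl2x : L63.TL2x
  tl2y : L63.TL2y
  tlp : L62.TLp
  tlq : L63.TLq

end Crest.Agent.T156.Alt.LZ
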