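import Crest.Agent.T156.R1TpB_4
import Crest.Agent.T156.LoP_64

/-!
# Row 156 (helper64): the passes of the energy branch of `SupT` on the graded path
-/

set_option autoImplicit false

noncomputable section

namespace Crest.Agent.T156.Alt.Lp64

open Real Finset
open Crest.Agent.T156.Alt.L69 Crest.Agent.T156.Alt.Tp4
open Crest.Agent.T156.Alt.L63 (Hy TL2y)
open Crest.Agent.T156.Alt.R77 (Dt OnG)

/-- **the table**, free in the a priori top energy `Xp` -/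
def TabT (e : ℝ) (R : Pm → ℝ → ℝ → Prop) : Dt := fun p σ t S M => ∀ m a, S.In m a →
  M.Phi S m a ≤ p.PhN t → p.PtN σ t < p.PhN t → R p σ t → ∀ Xp, Bt p σ t ≤ Xp → Xp ≤ p.PhN t →
  M.En S m a M.q 2 (M.s S.J / 2) S.C ≤ Xp →
  ∃ Xp' G1 u1 u2 j γ Lc ηc τ l0 l X Vt Lg Lp X2 X3 X4 G0 η N g t1 tu ℓ En p0,
    Hy ((p.n : ℝ) ^ (e * p.c)) S M m a G1 u1 u2 j γ Lc ηc τ l0 l X Xp' Vt Lg Lp X2 X3 X4 G0 η N g
      t1 tu ℓ En p0 ∧ u2 ≤ Bt p σ t ∧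
    En + t1 * p0 ^ 2 ≤ p.muG t * max ((p.n : ℝ) ^ (-(p.c / 50)) * Xp) (Bt p σ t)

/-- the first branch of `SupT` in the regime `R` -/
def LoT (e : ℝ) (R : Pm → ℝ → ℝ → Prop) : Dt := fun p σ t S M => ∀ m a, S.In m a →
  M.Phi S m a ≤ p.PhN t → p.PtN σ t < p.PhN t → R p σ t →
  ∃ G1 u1 u2 j γ Lc ηc τ l0 l X Xp Vt Lg Lp X2 X3 X4 G0 η N g t1 tu ℓ En p0,
    Hy ((p.n : ℝ) ^ (e * p.c)) S M m a G1 u1 u2 j γ Lc ηc τ l0 l X Xp Vt Lg Lp X2 X3 X4 G0 η N g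
      t1 tu ℓ En p0 ∧ u2 ≤ Bt p σ t ∧ En + t1 * p0 ^ 2 ≤ p.muG t * Bt p σ t

theorem loT_of {β e : ℝ} {R : Pm → ℝ → ℝ → Prop} (hβ : 1 < β) (he : 0 < e) (hy : TL2y)
    (h : OnG (TabT e R) β) : OnG (LoT e R) β := by
  refine OnG.cl' hβ (pass hy) h he (show (0 : ℝ) < 1 / 2000 by norm_num) 10000 0 (fun _ => 1) ?_
  intro K c0 C0 A c η K' c0' C0' η' p σ t Q G hc _ hη _ Z Y m a hm h1 h2 r
  have H := G.R
  push_cast at hη
  have X : Nr44.Cx β c0 C0 A c η K' p σ t := ⟨H, hc, hη, G.O⟩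
  have cl := G.D.cl.1
  have B0 := Bt0 X
  have c0 := H.c_pos
  have n1 : (1 : ℝ) ≤ p.n := by exact_mod_cast H.n1
  have BP : Bt p σ t ≤ p.PhN t := by
    have o := out X h2
    have : 1 ≤ (p.n : ℝ) ^ (p.c / 100) := one_le_rpow n1 (by rw [H.hc]; positivity)
    nlinarith
  have d0 := H.rp0 (-(p.c / 50))
  have d1 : (p.n : ℝ) ^ (-(p.c / 50)) ≤ 1 :=
    rpow_le_one_of_one_le_of_nonpos n1 (by rw [H.hc]; linarith)
  have d2 : (p.n : ℝ) ^ η * (p.n : ℝ) ^ η * (p.n : ℝ) ^ (-(p.c / 50)) ≤ 1 := by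
    rw [← rpow_add H.N0, ← rpow_add H.N0]
    exact rpow_le_one_of_one_le_of_nonpos n1 (by rw [H.hc]; linarith)
  refine iter (Φ := p.PhN t) B0 ((top_phi (t := (p.gst Q t).s (p.scG K σ t Q).J / 2) cl (.inl rfl)
    (p.scG K σ t Q).C).trans h1) (fun y a1 a2 a3 => ?_) fun a1 => ?_
  · obtain ⟨Xp, G1, u1, u2, j, γ, Lc, ηc, τ, l0, l, X', Vt, Lg, Lp, X2, X3, X4, G0, ζ, N, g, t1, tu,
      ℓ, En, p0, W, r1, r2⟩ := Y m a hm h1 h2 r y a1 (a2.trans (max_le BP le_rfl)) a3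
    rcases le_total ((p.n : ℝ) ^ (-(p.c / 50)) * y) (Bt p σ t) with f | f
    · rw [max_eq_right f] at r2
      exact .inl ⟨_, _, _, _, _, _, _, _, _, _, _, _, _, _, _, _, _, _, _, _, _, _, _, _, _, _, _,
        W, r1, r2⟩
    rw [max_eq_left f] at r2
    rw [H.hc] at W
    have z := Z m a hm _ _ _ _ _ _ _ _ _ _ _ _ _ _ _ _ _ _ _ _ _ _ _ _ _ _ _ W
    have hθ : (p.scG K σ t Q).θ = p.muG t := G.D.top
    have b1 := G_Bt X G.D G.X G.BK 0 (p.scG K σ t Q).C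
    have b2 : 1 / ((p.scG K σ t Q).n : ℝ) ^ 2 ≤ _ := n_Bt X G.D G.X
    rw [hθ, Kn72.flat G.D (Plt13.xk_of X.H X.o G.D G.X).g0 _ cl.i3 le_rfl, sub_self] at z
    rw [← div_le_iff₀' X.θ0] at r2
    refine .inr (z.trans ((mul_le_mul_of_nonneg_left (c := 4 * ((p.n : ℝ) ^ (-(p.c / 50)) * y))
      (by linarith) H.Λ0.le).trans ?_))
    have y0 : 0 ≤ y := B0.le.trans a1
    have e1 := mul_le_mul_of_nonneg_right d2 y0
    have e2 := mul_le_mul_of_nonneg_right H.num_le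
      (show 0 ≤ (p.n : ℝ) ^ η * ((p.n : ℝ) ^ (-(p.c / 50)) * y) by have := H.Λ0; positivity)
    have e3 : 0 ≤ (p.n : ℝ) ^ η * ((p.n : ℝ) ^ (-(p.c / 50)) * y) := by have := H.Λ0; positivity
    linarith
  · obtain ⟨Xp, G1, u1, u2, j, γ, Lc, ηc, τ, l0, l, X', Vt, Lg, Lp, X2, X3, X4, G0, ζ, N, g, t1, tu,
      ℓ, En, p0, W, r1, r2⟩ := Y m a hm h1 h2 r _ le_rfl BP a1
    rw [max_eq_right (mul_le_of_le_one_left B0.le d1)] at r2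
    exact ⟨_, _, _, _, _, _, _, _, _, _, _, _, _, _, _, _, _, _, _, _, _, _, _, _, _, _, _,
      W, r1, r2⟩

/-- **dispatch** on a regime -/
theorem supT_split {β e : ℝ} {R : Pm → ℝ → ℝ → Prop} (h1 : OnG (LoT e R) β)
    (h2 : OnG (fun p σ t S M => ¬ R p σ t → SupT e p σ t S M) β) : OnG (SupT e) β := fun K k =>
  ((h1.and h2) K k).mono fun _ p w c0 C0 η σ t Q a b c m x i1 i2 i3 => by
    obtain ⟨w1, w2⟩ := w c0 C0 η σ t Q a b c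
    by_cases r : R p σ t
    · obtain ⟨G1, u1, u2, j, γ, Lc, ηc, τ, l0, l, X', Xp, Vt, Lg, Lp, X2, X3, X4, G0, ζ, N, g, t1, tu,
        ℓ, En, p0, W, r1⟩ := w1 m x i1 i2 i3 r
      exact ⟨_, _, _, _, _, _, _, _, _, _, _, _, _, _, _, _, _, _, _, _, _, _, _, _, _, _, _,
        W, .inl r1⟩
    · exact w2 r m x i1 i2 i3

end Crest.Agent.T156.Alt.Lp64

end
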