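import Crest.Agent.T156.LoA_17
import Crest.Agent.T156.LoQ_64
import Crest.Agent.T156.LtK_15
import Crest.Agent.T156.HyD_77
import Crest.Agent.T156.KnG_17

/-!
# Row 156 (helper17): the table of the `LO` pass for `lg θ ≥ -1/6` on the graded path
-/

set_option autoImplicit false

noncomputable section

namespace Crest.Agent.T156.Alt.Lo17

open Real
open Crest.Agent.T156.Alt.Hl4 Crest.Agent.T156.Alt.Tp4
open Crest.Agent.T156.Alt.R77 (OnG Vtx)

section X

variable {β c0 C0 : ℝ} {A : ℕ} {c η K' : ℝ} {p : Pm} {σ t : ℝ}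
  (X : Nr44.Cx β c0 C0 A c η K' p σ t) (hc : c ≤ 1 / 100000)
  (r : -(1 / 6) ≤ logb p.n (p.muG t))
include X hc r

theorem lg_Ph : logb p.n (p.PhN t) ≤ 3 * xi (logb p.n (p.muG t)) (logb p.n p.s) := by
  obtain ⟨c0, c1, e0, e1, s0, s1, x0, x1, m0, m1, m2, up⟩ := Nr44.ex X.H X.hy
  unfold xi
  rcases up with up | up | ⟨up, _, _⟩ | up | ⟨up, _⟩ | up | up | ⟨up, _, _⟩ | ⟨up, _⟩ | up |
    ⟨up, _⟩ <;> linarith

omit hc in
theorem lg_u : logb p.n (p.uL t) = uL (logb p.n (p.muG t)) := by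
  rw [Lt15.lg_uL X, Lt15.lg_xM_eq X, max_eq_right (by linarith), uL]; ring

theorem lg_V (hv : logb p.n (p.Vc (Kn72.nu p σ)) = -(1 / 6) + 3 * c / 4) :
    logb p.n (p.VL σ t) ≤ 31 / 100 * logb p.n (p.muG t) := by
  have a := lg_Ph X hc r
  have b := (X.H.lg_muG' X.Mt).2
  have d := X.H.lg_s
  have := X.H.c_pos
  unfold xi at a
  rw [Lt15.lg_VL X, Lt15.lg_xM_eq X, max_eq_right (a := 0) (by linarith), hv, ← le_sub_iff_add_le']
  exact max_le (max_le (by linarith) (by linarith)) (max_le (by linarith [d.2]) (by linarith))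

end X

/-- **the table of the pass** -/
theorem tabT {β : ℝ} (hβ : 1 < β) (hV : OnG Vtx β) :
    OnG (Lp64.TabT (1 / 100000) fun p _ t => -(1 / 6) ≤ logb p.n (p.muG t)) β := by
  refine OnG.cl' hβ CL.triv hV one_pos (show (0 : ℝ) < 1 / 100000 by norm_num) (10 ^ 7) 0
    (fun _ => 1) ?_
  intro K c0 C0 A c η K' c0' C0' η' p σ t Q G hc _ hη _ _ V m a hm h1 h2 r y y0 y1 y2
  have H := G.R
  have X := cx G (by linarith)
  have η0 := H.η_pos
  have c0 := H.c_pos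
  push_cast at hη
  have L := Lx13.lg_gst X G.D
  have B0 := Bt0 X
  have Y0 := B0.trans_le y0
  have θ0 := X.θ0
  have W0 : 0 < max ((p.n : ℝ) ^ (-(p.c / 50)) * y) (Bt p σ t) := lt_max_of_lt_right B0
  have n2 := L.ν2
  rw [max_eq_left (by linarith)] at n2
  obtain ⟨-, l1, l2, l3⟩ := L.pl.resolve_right fun h => by linarith [h.1, L.ν1.1]
  have R : Rg c η (1 / 100000 * c) (logb p.n (p.muG t)) (logb p.n p.s) :=
    ⟨hc, η0, by linarith, by ring, r, L.μ1.2, H.lg_s.1, H.lg_s.2⟩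
  have Ph := lg_Ph X hc r
  have b := lg_Bt X
  have b1 := H.lg_mono B0 y0
  have b2 := H.lg_mono Y0 y1
  have s0 := Kn17.lg_sM H G.M
  have s1 := X.lg_sM
  have P : Tp c η (logb p.n (p.muG t)) (logb p.n p.s) (logb p.n (p.laG σ)) (logb p.n y)
      (logb p.n (max ((p.n : ℝ) ^ (-(p.c / 50)) * y) (Bt p σ t))) := by
    rw [lg_max H.N1 (mul_pos (H.rp0 _) Y0) B0, logb_mul (H.rp0 _).ne' Y0.ne', H.lg_rp, H.hc]
    have w1 := le_max_left (-(c / 50) + logb p.n y) (logb p.n (Bt p σ t))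
    have w2 := le_max_right (-(c / 50) + logb p.n y) (logb p.n (Bt p σ t))
    exact ⟨by linarith, by linarith [L.ν1.1], by linarith [s1.1], max_le (by linarith) b1,
      by linarith, by linarith, s0.2.2.imp (fun h => ⟨by linarith [s1.2.2], by linarith⟩)
        fun h => ⟨by linarith [s1.2.1], by linarith⟩⟩
  have T := hyL R P l2 (uu := logb p.n (p.u2 (Kn72.nu p σ))) (by linarith) (by linarith [L.ν1.1])
  have N := lnL R
  rw [← H.lg_r] at T N
  generalize hw : logb p.n (max ((p.n : ℝ) ^ (-(p.c / 50)) * y) (Bt p σ t)) = w at P T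
  obtain ⟨j0, j1, -⟩ := lg_sJ G
  have p3 : ∀ x : ℝ, logb p.n (pw p x ^ 3) = 3 * x := fun x => by
    rw [logb_pow, H.lg_rp]; norm_num
  have e : pw p (logb p.n y / 3) ^ 3 = y := by
    refine le_antisymm (H.le_of_lg (pow_pos (H.rp0 _) 3) Y0 ?_) (H.le_of_lg Y0 (pow_pos (H.rp0 _) 3) ?_)
    all_goals rw [p3]; linarith
  have Z := hyN G (by linarith) (m := m) (a := a) (tu := pw p (2 / 5 * logb p.n (p.muG t)))
    (μ1 := uL (logb p.n (p.muG t))) (vt := 31 / 100 * logb p.n (p.muG t)) N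
    (h1.trans (H.le_of_lg X.Ph0 (pow_pos (H.rp0 _) 3) (by rw [p3]; exact Ph)))
    (.inr (y2.trans e.ge))
    (fun k k1 k2 k3 => (V ((Lt15.need_iff X).2 (by linarith)) ((Lt15.need2_iff X).2
      (.inr (by linarith))) m a hm h1 k k1 k2 ((H.le_of_lg (Lt15.uL0 X) (H.rp0 _)
        (by rw [H.lg_rp, lg_u X r])).trans k3)).trans
      (H.le_of_lg (Lt15.VL0 X) (H.rp0 _) (by rw [H.lg_rp]; exact lg_V X hc r l2)))
    (H.rp0 _) (H.le_of_lg (H.rp0 _) j0 (by rw [H.lg_rp]; linarith [L.μ1.2]))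
    (by rw [H.lg_rp]; exact T)
  rw [H.hc]
  refine ⟨_, _, _, _, _, _, _, _, _, _, _, _, _, _, _, _, _, _, _, _, _, _, _, _, _, _, _, Z,
    H.le_of_lg (H.rp0 _) B0 ?_, ?_⟩
  · rw [H.lg_rp, uL]; linarith [s1.1, P.l0]
  · rw [H.hc] at hw W0
    have z : pw p (t1 (logb p.n (p.muG t)) (logb p.n p.s)) *
        pw p ((logb p.n (p.muG t) + w - η - t1 (logb p.n (p.muG t)) (logb p.n p.s)) / 2) ^ 2 =
        pw p (logb p.n (p.muG t) + w - η) := by
      rw [sq, ← rpow_add H.N0, ← rpow_add H.N0]; congr 1; ring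
    rw [z, ← two_mul]
    refine Lt76.num_le H (by norm_num) (H.rp0 _) (mul_pos θ0 W0) ?_
    rw [H.lg_rp, logb_mul θ0.ne' W0.ne', hw]; linarith

end Crest.Agent.T156.Alt.Lo17

end
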