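import Crest.Agent.T156.NRn_44
import Crest.Agent.T156.R1Loc_77

/-!
# Row 156 (helper44): the leaf `NRx` of `LocG`
-/

set_option autoImplicit false

noncomputable section

namespace Crest.Agent.T156.Alt.Nr44

open Real Set
open Crest.Agent.T156.Alt.R77

/-- a pointwise statement under `Cx` holds on the tested path -/
theorem onG_cx {β : ℝ} (hβ : 1 < β) {X : Dt} (f : ℝ → ℝ)
    (h : ∀ (K c0 C0 : ℝ) (A : ℕ) (c η K' c0' C0' η' : ℝ) (p : Pm) (σ t : ℝ) (Q : Pl), 1 ≤ K →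
      Cx β c0 C0 A c η K' p σ t → f K ≤ (p.n : ℝ) ^ η → GrD K c0' C0' η' p σ t Q →
      p.PlX σ t Q → X p σ t (p.scG K σ t Q) (p.gst Q t)) : OnG X β := fun K k =>
  Sml.glue' (P := fun _ _ => True) hβ Sml.triv 0 (c1 := 1 / 2000) (by norm_num) 10000
    fun c0 C0 A c η _ _ _ _ => ⟨f K, fun p H _ hc hη _ c0' C0' η' σ t Q o G P =>
      h K c0 C0 A c η (f K) c0' C0' η' p σ t Q k ⟨H, hc, by exact_mod_cast hη, o⟩ H.K_le G P⟩

/-- **the leaf `NRx`** -/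
theorem nrG {β : ℝ} (hβ : 1 < β) : OnG NRx β :=
  onG_cx hβ (fun K => 8 * K ^ 2) fun _ _ _ _ _ _ _ _ _ _ _ _ _ _ _ X hK G _ => X.nr G hK

end Crest.Agent.T156.Alt.Nr44

end
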