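import Crest.Agent.T156.NxC_43
import Crest.Agent.T156.R1Loc_77

/-!
# Row 156, R1: `NX` on the explicit numbers `p.nb` (helper43)
-/

set_option autoImplicit false
set_option linter.all false

noncomputable section

namespace Crest.Agent.T156.Alt

open Real Set

namespace Reg

variable {β c0 C0 : ℝ} {A : ℕ} {c η K : ℝ} {p : Pm} (H : Reg β c0 C0 A c η K p) {σ t : ℝ}
include H

/-- `1 ≤ sM ≤ s` -/
theorem sM_bds43 (M : p.MemG t) : 1 ≤ p.sM t ∧ p.sM t ≤ p.s := by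
  have a1 := H.muG_pos M
  have a2 := H.κ0
  have b := (H.lg_muG66 M).2.1
  have c0 := H.c_pos
  have c1 := H.η_le
  refine ⟨le_min H.ok.s1 (H.le_of_lg one_pos (by positivity) ?_), min_le_left _ _⟩
  lg_norm
  rw [H.lg_κ]
  linarith

/-- `la² ≤ PtN ≤ n^c s² la²` -/
theorem PtN_bds43 (hη : 10000 * η ≤ c) (o : p.OctR σ t) :
    p.laG σ ^ 2 ≤ p.PtN σ t ∧ p.PtN σ t ≤ (p.n : ℝ) ^ c * p.s ^ 2 * p.laG σ ^ 2 := by
  have a0 := H.laG0 (oct_l o)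
  have a2 := H.N0
  have a3 := H.s0
  have c0 := H.c_pos
  obtain ⟨m1, m2⟩ := H.sM_bds43 (oct_r o)
  have m0 : 0 < p.sM t := by linarith
  have m3 := H.lg_nn m1
  have m4 := H.lg_mono m0 m2
  unfold Pm.PtN Pm.PhN
  rw [H.hc]
  refine ⟨le_min (H.la_Ph43 hη o (H.rp0 _)) ?_, (min_le_right _ _).trans ?_⟩ <;>
    refine H.le_of_lg (by positivity) (by positivity) ?_ <;> lg_norm <;> rw [H.lg_n] <;> linarith

/-- **`NX` on the numbers of `NbD_29`**, from `NR` read at any factor `L` -/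
theorem nx_nb {E L V4 : ℝ} {S : Sc} {M : Md} (hc : c ≤ 1 / 1000) (hη : 10000 * η ≤ c)
    (o : p.OctR σ t) (hθ : S.θ = p.muG t) (hms : ∀ x, S.ms x = p.msG t x)
    (hT : R62.T0 S M ≤ (p.n : ℝ) ^ η)
    (N : R82.NR E p.dN p S M (p.lN t) (p.PhN t) (p.PN t) (p.l0G t (p.lN t)) L (p.PtN σ t)
      (p.u1N σ) V4) :
    ∃ N, 0 < N ∧ (p.nb σ t N).NX p.dN p σ t (R62.T0 S M) :=
  H.nx_gen43 hc hη o (show p.PhN t = _ by rw [Pm.PhN, H.hc]) (by rw [Pm.dN, H.hc]) hθ hms hT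
    (H.PtN_bds43 hη o).1 (H.PtN_bds43 hη o).2 (show p.L0N σ t = (p.n : ℝ) ^ (c / 200) * (√(p.PtN σ t) / p.laG σ) by rw [Pm.L0N, H.hc])
    ((le_max_left _ _).trans (le_max_left _ _)) N

/-- the same on the graded member -/
theorem nx_gst {E L V4 K' c0' C0' η' : ℝ} {Q : Pl} (hc : c ≤ 1 / 1000) (hη : 10000 * η ≤ c)
    (o : p.OctR σ t) (G : GrD K' c0' C0' η' p σ t Q) (hK : 8 * K' ^ 2 ≤ (p.n : ℝ) ^ η)
    (N : R82.NR E p.dN p (p.scG K' σ t Q) (p.gst Q t) (p.lN t) (p.PhN t) (p.PN t)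
      (p.l0G t (p.lN t)) L (p.PtN σ t) (p.u1N σ) V4) :
    ∃ N, 0 < N ∧ (p.nb σ t N).NX p.dN p σ t (R62.T0 (p.scG K' σ t Q) (p.gst Q t)) := by
  refine H.nx_nb hc hη o G.top (fun _ => rfl) (le_trans ?_ hK) N
  have h := G.cl.1
  have a := (h.sm h.i3).trans h.sT
  have b := h.C1
  change 1 ≤ 8 * K' ^ 2 at b
  change _ ≤ 8 * K' ^ 2 at a
  unfold R62.T0
  linarith

end Reg

/-- **`OnG NRx β → OnG NXx β`**, unfolded: `fun K k => nxG43 hβ (h K k)` -/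
theorem nxG43 {β K : ℝ} (hβ : 1 < β) {X : Pm → ℝ → ℝ → Pl → Prop}
    (h : Sml β fun _ p => ∀ c0 C0 η σ t Q, p.OctR σ t → GrD K c0 C0 η p σ t Q → X p σ t Q →
      R82.NR p.dN⁻¹ p.dN p (p.scG K σ t Q) (p.gst Q t) (p.lN t) (p.PhN t) (p.PN t)
        (p.l0G t (p.lN t)) (p.L2N σ t) (p.PtN σ t) (p.u1N σ) (p.V4N σ t)) :
    Sml β fun _ p => ∀ c0 C0 η σ t Q, p.OctR σ t → GrD K c0 C0 η p σ t Q → X p σ t Q →
      ∃ N, (p.nb σ t N).NX p.dN p σ t (R62.T0 (p.scG K σ t Q) (p.gst Q t)) :=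
  h.glue' hβ 0 (by norm_num : (0 : ℝ) < 1 / 1000) 10000 fun _ _ _ _ _ _ _ _ _ =>
    ⟨8 * K ^ 2, fun p R _ hc e h c0' C0' η' σ t Q O D x => by
      push_cast at e
      obtain ⟨N, -, h⟩ := R.nx_gst hc e O D R.K_le (h c0' C0' η' σ t Q O D x)
      exact ⟨N, h⟩⟩

/-- **the leaf `NXx` of `locG_of`** -/
theorem R77.nxG_of {β : ℝ} (hβ : 1 < β) (h : R77.OnG R77.NRx β) : R77.OnG R77.NXx β :=
  fun K k => nxG43 hβ (h K k)

end Crest.Agent.T156.Alt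

end
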