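import Crest.Agent.T156.QClDef_98
import Crest.Agent.T156.ClReg_29
import Crest.Agent.T156.MdDic_67

/-!
# Row 156, block Q on the class: builders of `QH` (helper57)

`ls` is the clock length of the shell of a plateau node.
-/

set_option autoImplicit false
set_option linter.unusedVariables false

noncomputable section

namespace Crest.Agent.T156.Alt.Pl57

open Real Finset

/-- distance of a label to the ends of the plateau -/
def uu (S : Sc) (M : Md) (x : ℝ) : ℝ := min (x - M.z (S.J - 1) + S.u0) (1 - x)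
/-- clock length of the shell of the node `k` -/
def ls (S : Sc) (M : Md) (k : ℕ) : ℝ := S.den (M.z (k - 1)) * uu S M (M.z (k - 1))
/-- the profile of the tolerance on the top window -/
def bt (S : Sc) (M : Md) (k : ℕ) : ℝ := ls S M (max k S.J) + ((S.J - k : ℕ) : ℝ) * S.v

/-- upper Lipschitz envelope -/
theorem env {β : ℕ → ℝ} {k0 k1 : ℕ} (h01 : k0 ≤ k1) {D L : ℝ} (hL : 0 ≤ L)
    (h : ∀ i k : ℕ, k0 ≤ i → i ≤ k1 → k0 ≤ k → k ≤ k1 → β i ≤ D * β k + |(i : ℝ) - k| * L) :
    ∃ ρ : ℕ → ℝ, (∀ k, k0 ≤ k → k ≤ k1 → β k ≤ ρ k ∧ ρ k ≤ D * β k) ∧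
      ∀ k k' : ℕ, |ρ k - ρ k'| ≤ |(k : ℝ) - k'| * L := by
  have ne : (Icc k0 k1).Nonempty := nonempty_Icc.2 h01
  have key : ∀ k k' : ℕ, (Icc k0 k1).sup' ne (fun i => β i - |(i : ℝ) - k| * L) ≤
      (Icc k0 k1).sup' ne (fun i => β i - |(i : ℝ) - k'| * L) + |(k : ℝ) - k'| * L := fun k k' => by
    refine sup'_le _ _ fun i hi => ?_
    have h1 := le_sup' (fun i : ℕ => β i - |(i : ℝ) - k'| * L) hi
    have h2 := mul_le_mul_of_nonneg_right (abs_sub_le (i : ℝ) k k') hL
    linarith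
  refine ⟨fun k => (Icc k0 k1).sup' ne fun i => β i - |(i : ℝ) - k| * L, fun k a b => ⟨?_, ?_⟩,
    fun k k' => abs_le.2 ⟨?_, ?_⟩⟩
  · exact le_trans (by simp) (le_sup' (fun i : ℕ => β i - |(i : ℝ) - k| * L) (mem_Icc.2 ⟨a, b⟩))
  · exact sup'_le _ _ fun i hi => by linarith [h i k (mem_Icc.1 hi).1 (mem_Icc.1 hi).2 a b]
  · have := key k' k
    rw [abs_sub_comm] at this
    linarith
  · linarith [key k k']

variable {S : Sc} {M : Md}

theorem uu_lip (x x' : ℝ) : uu S M x ≤ uu S M x' + |x - x'| := by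
  have h1 := le_abs_self (x - x')
  have h2 := neg_abs_le (x - x')
  unfold uu
  rcases min_choice (x' - M.z (S.J - 1) + S.u0) (1 - x') with e | e <;> rw [e]
  · linarith [min_le_left (x - M.z (S.J - 1) + S.u0) (1 - x)]
  · linarith [min_le_right (x - M.z (S.J - 1) + S.u0) (1 - x)]

section cl
variable (h : Cl S M)
include h

theorem x_ge {k : ℕ} (hk : S.J ≤ k) : M.z (S.J - 1) ≤ M.z (k - 1) := h.leg.zm (by omega)

theorem dz_pos {k : ℕ} (h1 : S.J ≤ k) (h2 : k < S.Jp) : M.z (k - 1) < M.z k := by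
  have := (h.plat k h1 h2).1
  have h3 : 0 < (M.z k - M.z (k - 1)) * S.den (M.z (k - 1)) :=
    lt_of_lt_of_le (div_pos h.v0 h.C0) this
  linarith [(mul_pos_iff_of_pos_right (h.den0 _)).1 h3]

theorem x_lt {k : ℕ} (h1 : S.J ≤ k) (h2 : k < S.Jp) : M.z (k - 1) < 1 :=
  (dz_pos h h1 h2).trans_le (h.leg.z1 k)

theorem uu_pos (u0 : 0 < S.u0) {k : ℕ} (h1 : S.J ≤ k) (h2 : k < S.Jp) :
    0 < uu S M (M.z (k - 1)) :=
  lt_min (by linarith [x_ge h h1]) (by linarith [x_lt h h1 h2])

theorem ls_pos (u0 : 0 < S.u0) {k : ℕ} (h1 : S.J ≤ k) (h2 : k < S.Jp) : 0 < ls S M k :=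
  mul_pos (h.den0 _) (uu_pos h u0 h1 h2)

/-- the density is comparable on a shell -/
theorem cmp {x x' : ℝ} (hx : M.z (S.J - 1) ≤ x) (hx1 : x < 1) (hx' : M.z (S.J - 1) ≤ x')
    (hu : |x' - x| ≤ uu S M x / 2) : S.den x ≤ S.C * S.den x' ∧ S.den x' ≤ S.C * S.den x := by
  have a1 : uu S M x ≤ x - M.z (S.J - 1) + S.u0 := min_le_left _ _
  have a2 : uu S M x ≤ 1 - x := min_le_right _ _
  obtain ⟨b1, b2⟩ := abs_le.1 hu
  have b3 := abs_nonneg (x' - x)
  rcases le_total x x' with e | e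
  · exact h.dens x x' hx e (by linarith) (le_min (by linarith) (by linarith))
  · exact (h.dens x' x hx' e hx1 (le_min (by linarith) (by linarith))).symm

/-- steps of the labels in the shell of `x` -/
theorem step {x : ℝ} (hx : M.z (S.J - 1) ≤ x) (hx1 : x < 1) {y : ℕ} (h1 : S.J ≤ y) (h2 : y < S.Jp)
    (hu : |M.z (y - 1) - x| ≤ uu S M x / 2) :
    S.v ≤ S.C ^ 2 * S.den x * (M.z y - M.z (y - 1)) ∧
      S.den x * (M.z y - M.z (y - 1)) ≤ S.C ^ 2 * S.v := by
  obtain ⟨a1, a2⟩ := cmp h hx hx1 (x_ge h h1) hu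
  obtain ⟨b1, b2⟩ := h.plat y h1 h2
  have d0 : 0 ≤ M.z y - M.z (y - 1) := by linarith [dz_pos h h1 h2]
  have C0 := h.C0
  rw [div_le_iff₀ C0] at b1
  constructor
  · nlinarith [mul_le_mul_of_nonneg_left a2 (mul_nonneg d0 C0.le)]
  · nlinarith [mul_le_mul_of_nonneg_left a1 d0, mul_le_mul_of_nonneg_left b2 C0.le]

/-- **the shell length is quasi-Lipschitz in the clock** -/
theorem ls_quasi (u0 : 0 < S.u0) (fine : ∀ y, S.J ≤ y → y < S.Jp → 8 * S.C * S.v ≤ ls S M y)
    {i k : ℕ} (i1 : S.J ≤ i) (i2 : i < S.Jp) (k1 : S.J ≤ k) (k2 : k < S.Jp) :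
    ls S M i ≤ 4 * S.C ^ 2 * (ls S M k + |(i : ℝ) - k| * S.v) := by
  have C1 := h.C1
  have v0 := h.v0
  have j1 : 1 ≤ S.J := by have := h.i2; omega
  set x := M.z (i - 1) with hx
  have x0 := x_ge h i1
  have x1 := x_lt h i1 i2
  have up := uu_pos h u0 i1 i2
  have lk := ls_pos h u0 k1 k2
  have d0 := h.den0 x
  rw [← hx] at x0 x1 up
  have e0 : ls S M i = S.den x * uu S M x := rfl
  have p0 : 0 ≤ |(i : ℝ) - k| * S.v := by positivity
  have CC : S.C ≤ S.C ^ 2 := by nlinarith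
  by_cases hA : |M.z (k - 1) - x| ≤ uu S M x / 2
  · have a1 := (cmp h x0 x1 (x_ge h k1) hA).1
    have a2 := uu_lip (S := S) (M := M) x (M.z (k - 1))
    rw [abs_sub_comm] at a2
    have a3 : ls S M i ≤ S.C * S.den (M.z (k - 1)) * (2 * uu S M (M.z (k - 1))) :=
      mul_le_mul a1 (by linarith) up.le (by have := h.den0 (M.z (k - 1)); positivity)
    have a4 : ls S M i ≤ 2 * S.C * ls S M k := a3.trans (le_of_eq (by unfold ls; ring))
    nlinarith [mul_nonneg (sq_nonneg S.C) p0]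
  have fin : S.den x * uu S M x ≤ 4 * S.C ^ 2 * (|(i : ℝ) - k| * S.v) := by
    rcases le_total i k with e | e
    · have ind : ∀ n : ℕ, i + n ≤ k → S.den x * (M.z (i + n - 1) - x) ≤ n * (S.C ^ 2 * S.v) ∨
          S.den x * uu S M x / 2 ≤ n * (S.C ^ 2 * S.v) := by
        intro n
        induction n with
        | zero => intro _; left; simp [hx]
        | succ n ih =>
          intro hn
          have cv : 0 < S.C ^ 2 * S.v := by positivity
          push_cast
          rcases le_or_gt (S.den x * uu S M x / 2) (n * (S.C ^ 2 * S.v)) with a | a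
          · right; linarith
          left
          have b := (ih (by omega)).resolve_right a.not_ge
          have b0 : x ≤ M.z (i + n - 1) := h.leg.zm (by omega)
          have b1 : M.z (i + n - 1) - x ≤ uu S M x / 2 := by
            refine le_of_mul_le_mul_left ?_ d0
            linarith
          have := (step h x0 x1 (y := i + n) (by omega) (by omega)
            (by rwa [abs_of_nonneg (by linarith)])).2
          rw [show i + (n + 1) - 1 = i + n by omega]
          linarith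
      obtain ⟨n, rfl⟩ := Nat.exists_eq_add_of_le e
      have b0 : x ≤ M.z (i + n - 1) := h.leg.zm (by omega)
      rw [abs_of_nonneg (by linarith), not_le] at hA
      have a5 := mul_lt_mul_of_pos_left hA d0
      have : |(i : ℝ) - ((i + n : ℕ) : ℝ)| = n := by push_cast; simp
      rw [this]
      have cv : 0 ≤ n * (S.C ^ 2 * S.v) := by positivity
      rcases ind n le_rfl with a | a <;> linarith
    · have ind : ∀ n : ℕ, k + n ≤ i → S.den x * (x - M.z (i - n - 1)) ≤ n * (S.C ^ 2 * S.v) ∨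
          S.den x * uu S M x / 4 ≤ n * (S.C ^ 2 * S.v) := by
        intro n
        induction n with
        | zero => intro _; left; simp [hx]
        | succ n ih =>
          intro hn
          have cv : 0 < S.C ^ 2 * S.v := by positivity
          push_cast
          rcases le_or_gt (S.den x * uu S M x / 4) (n * (S.C ^ 2 * S.v)) with a | a
          · right; linarith
          left
          have b := (ih (by omega)).resolve_right a.not_ge
          set y := i - n - 1 with hy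
          have y1 : S.J ≤ y := by omega
          have y2 : y < S.Jp := by omega
          have b0 : M.z y ≤ x := h.leg.zm (by omega)
          have b1 : x - M.z y ≤ uu S M x / 4 := by
            refine le_of_mul_le_mul_left ?_ d0
            linarith
          have c0 := dz_pos h y1 y2
          have c1 := uu_lip (S := S) (M := M) (M.z (y - 1)) x
          rw [abs_of_nonpos (by linarith)] at c1
          have c2 : 8 * (M.z y - M.z (y - 1)) ≤ uu S M (M.z (y - 1)) := by
            refine le_of_mul_le_mul_left ?_ (h.den0 (M.z (y - 1)))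
            have := fine y y1 y2
            unfold ls at this
            linarith [(h.plat y y1 y2).2]
          have := (step h x0 x1 y1 y2 (by rw [abs_of_nonpos (by linarith)]; linarith)).2
          rw [show i - (n + 1) - 1 = y - 1 by omega]
          linarith
      obtain ⟨n, rfl⟩ := Nat.exists_eq_add_of_le e
      have b0 : M.z (k - 1) ≤ x := h.leg.zm (by omega)
      rw [abs_of_nonpos (by linarith), not_le] at hA
      have a5 := mul_lt_mul_of_pos_left hA d0
      have : |((k + n : ℕ) : ℝ) - k| = n := by push_cast; simp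
      rw [this]
      have cv : 0 ≤ n * (S.C ^ 2 * S.v) := by positivity
      have a6 := ind n le_rfl
      rw [show k + n - n - 1 = k - 1 by omega] at a6
      have := mul_pos d0 up
      rcases a6 with a | a <;> linarith
  rw [e0]
  nlinarith [mul_nonneg (sq_nonneg S.C) lk.le]

theorem bt_quasi (u0 : 0 < S.u0) (fine : ∀ y, S.J ≤ y → y < S.Jp → 8 * S.C * S.v ≤ ls S M y)
    (hJ : S.J < S.Jp) {i k : ℕ} (i2 : i < S.Jp) (k2 : k < S.Jp) :
    bt S M i ≤ 4 * S.C ^ 2 * bt S M k + |(i : ℝ) - k| * ((4 * S.C ^ 2 + 1) * S.v) := by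
  have a := ls_quasi h u0 fine (i := max i S.J) (k := max k S.J) (le_max_right _ _) (by omega)
    (le_max_right _ _) (by omega)
  have v0 := h.v0
  have C1 := h.C1
  have b1 : |((max i S.J : ℕ) : ℝ) - (max k S.J : ℕ)| ≤ |(i : ℝ) - k| := by
    push_cast
    exact abs_max_sub_max_le_abs _ _ _
  have b2 : ((S.J - i : ℕ) : ℝ) ≤ (S.J - k : ℕ) + |(i : ℝ) - k| := by
    rcases le_total i k with e | e
    · rw [abs_sub_comm, ← Nat.cast_sub e, Nat.abs_cast]
      exact_mod_cast (by omega : S.J - i ≤ S.J - k + (k - i))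
    · have : ((S.J - i : ℕ) : ℝ) ≤ (S.J - k : ℕ) := by exact_mod_cast (by omega : S.J - i ≤ S.J - k)
      linarith [abs_nonneg ((i : ℝ) - k)]
  have c1 := mul_le_mul_of_nonneg_left (mul_le_mul_of_nonneg_right b1 v0.le)
    (show 0 ≤ 4 * S.C ^ 2 by positivity)
  have c2 := mul_le_mul_of_nonneg_right b2 v0.le
  have c3 : 0 ≤ ((S.J - k : ℕ) : ℝ) * S.v := by positivity
  have c4 : 1 ≤ 4 * S.C ^ 2 := by nlinarith
  unfold bt
  nlinarith [mul_le_mul_of_nonneg_right c4 c3]

/-- **top window and plateau** -/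
theorem qh_plat {m : ℕ} {a K K0 Λ₀ t : ℝ} {k0 k1 : ℕ} {c : ℕ → ℝ} (u0 : 0 < S.u0)
    (B : QB K S M t k0 k1) (cr : Crude Λ₀ S M m a t k0) (hJ : S.J ≤ k1) (k1p : k1 < S.Jp)
    (K01 : 1 ≤ K0) (hK : K0 * (4 * S.C ^ 2 + 1) ≤ K) (c0 : 0 ≤ c k0)
    (clk : ∀ k, k0 ≤ k → k < k1 → c k ≤ c (k + 1) ∧ c (k + 1) ≤ c k + K * S.v)
    (fine : ∀ y, S.J ≤ y → y < S.Jp → 8 * S.C * S.v ≤ ls S M y)
    (hw : ∀ y, S.J ≤ y → y ≤ k1 → S.w3 t ≤ ls S M y ^ 3)
    (hT : ∀ y, S.J ≤ y → y < k1 → 8 * K ^ 2 * S.C * S.w3 t * S.den (M.z (y - 1)) ≤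
      ls S M y * min (ls S M y) t ^ 2)
    (loc : ∀ k, k0 ≤ k → k ≤ k1 → |M.rb m a k - c k| ≤ K0 * bt S M k) :
    ∃ ρ, QH K Λ₀ S M m a t k0 k1 c ρ ∧
      ∀ k, k0 ≤ k → k ≤ k1 → K0 * bt S M k ≤ ρ k ∧ ρ k ≤ 4 * S.C ^ 2 * (K0 * bt S M k) := by
  have v0 := h.v0
  have C1 := h.C1
  have K1 : 1 ≤ K := by nlinarith
  obtain ⟨ρ, r1, r2⟩ := env (β := fun k => K0 * bt S M k) B.k01 (D := 4 * S.C ^ 2) (L := K * S.v)
    (by positivity) fun i k _ a _ b => by
      have e1 := mul_le_mul_of_nonneg_left (bt_quasi h u0 fine (by omega) (i := i) (k := k)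
        (by omega) (by omega)) (by linarith : 0 ≤ K0)
      have e2 := mul_le_mul_of_nonneg_left (mul_le_mul_of_nonneg_right hK v0.le)
        (abs_nonneg ((i : ℝ) - k))
      nlinarith
  have lb : ∀ k, k0 ≤ k → k ≤ k1 → ls S M (max k S.J) ≤ ρ k := fun k a b => by
    have l0 := ls_pos h u0 (k := max k S.J) (le_max_right _ _) (by omega)
    have : 0 ≤ ((S.J - k : ℕ) : ℝ) * S.v := by positivity
    have e := (r1 k a b).1
    unfold bt at e
    nlinarith
  refine ⟨ρ, ⟨B, cr, c0, clk, fun k _ _ => by simpa using r2 (k + 1) k, fun k a b => ?_,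
    fun k a b => (loc k a b).trans (r1 k a b).1, fun k y a b y1 y2 hy => Or.inr ?_⟩, r1⟩
  · exact (hw _ (le_max_right _ _) (by omega)).trans (pow_le_pow_left₀
      (ls_pos h u0 (le_max_right _ _) (by omega)).le (lb k a b) 3)
  · have l0 := ls_pos h u0 y1 (by omega : y < S.Jp)
    have t0 := B.t0
    have e0 : ls S M y ≤ 2 * K * ρ k := by
      have r0 : 0 ≤ ρ k := le_trans (by positivity) hy
      rcases le_or_gt k0 y with e | e
      · have e1 := lb y e y2.le
        rw [max_eq_left y1] at e1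
        have e2 := (abs_le.1 (r2 y k)).2
        nlinarith [mul_le_mul_of_nonneg_left hy (by linarith : 0 ≤ K)]
      · have e1 := ls_quasi h u0 fine y1 (by omega : y < S.Jp) (k := k) (by omega) (by omega)
        have e2 := lb k a b
        rw [max_eq_left (by omega)] at e2
        have e3 : 4 * S.C ^ 2 ≤ K := by nlinarith
        have e4 := mul_le_mul_of_nonneg_left (add_le_add e2 hy) (show 0 ≤ 4 * S.C ^ 2 by positivity)
        nlinarith
    have r0 : 0 < ρ k := by
      by_contra hh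
      nlinarith
    have e1 : min (ls S M y) t ≤ 2 * K * min (ρ k) t := by
      rw [mul_min_of_nonneg _ _ (by linarith : 0 ≤ 2 * K)]
      exact min_le_min e0 (by nlinarith)
    have e2 : ls S M y * min (ls S M y) t ^ 2 ≤ 2 * K * ρ k * (2 * K * min (ρ k) t) ^ 2 :=
      mul_le_mul e0 (pow_le_pow_left₀ (le_min l0.le t0.le) e1 2) (by positivity) (by positivity)
    have e3 := (hT y y1 y2).trans e2
    have e4 := (h.plat y y1 (by omega)).1
    rw [div_le_iff₀ h.C0] at e4
    rw [Md67.dz_up h.leg (by have := h.i2; omega)]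
    have d0 : 0 ≤ M.z y - M.z (y - 1) := by linarith [dz_pos h y1 (by omega : y < S.Jp)]
    have e5 : S.C * S.w3 t * S.den (M.z (y - 1)) ≤ K * (ρ k * min (ρ k) t ^ 2) := by
      refine le_of_mul_le_mul_left ?_ (show 0 < 8 * K ^ 2 by positivity)
      nlinarith
    have w0 : 0 ≤ S.w3 t := by
      have := h.ms_pos t0.le
      have := h.N0
      have := h.F1
      unfold Sc.w3
      positivity
    nlinarith [mul_le_mul_of_nonneg_left e4 w0, mul_le_mul_of_nonneg_left e5 d0]

/-- window of labels above a plateau node -/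
theorem win_up (u0 : 0 < S.u0) {k : ℕ} (k1 : S.J ≤ k) (k2 : k < S.Jp) :
    ∃ n : ℕ, k + n ≤ S.Jp ∧ uu S M (M.z (k - 1)) / 2 ≤ M.z (k + n) - M.z (k - 1) ∧
      n * S.v ≤ S.C ^ 2 * ls S M k := by
  have j1 : 1 ≤ S.J := by have := h.i2; omega
  set x := M.z (k - 1) with hx
  have x0 := x_ge h k1
  have x1 := x_lt h k1 k2
  have up := uu_pos h u0 k1 k2
  rw [← hx] at x0 x1 up
  have a2 : uu S M x ≤ 1 - x := min_le_right _ _
  have ex : ∃ n : ℕ, uu S M x / 2 ≤ M.z (k + n) - x :=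
    ⟨S.Jp - k, by rw [h.top _ (by omega)]; linarith⟩
  have hn := Nat.find_spec ex
  have hm : Nat.find ex ≤ S.Jp - k := Nat.find_min' ex (by rw [h.top _ (by omega)]; linarith)
  have d0 := h.den0 x
  have C0 := h.C0
  refine ⟨Nat.find ex, by omega, hn, ?_⟩
  have ind : ∀ n ≤ Nat.find ex, n * S.v ≤ S.C ^ 2 * S.den x * (M.z (k + n - 1) - x) ∧
      M.z (k + n - 1) - x ≤ uu S M x / 2 := by
    intro n
    induction n with
    | zero => intro _; simp [hx]; linarith
    | succ n ih =>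
      intro hn
      obtain ⟨b1, b2⟩ := ih (by omega)
      have b0 : x ≤ M.z (k + n - 1) := h.leg.zm (by omega)
      have := (step h x0 x1 (y := k + n) (by omega) (by omega)
        (by rwa [abs_of_nonneg (by linarith)])).1
      rw [show k + (n + 1) - 1 = k + n by omega]
      push_cast
      exact ⟨by linarith, (not_le.1 (Nat.find_min ex (by omega : n < Nat.find ex))).le⟩
  obtain ⟨b1, b2⟩ := ind _ le_rfl
  have := mul_le_mul_of_nonneg_left b2 (show 0 ≤ S.C ^ 2 * S.den x by positivity)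
  have e0 : ls S M k = S.den x * uu S M x := rfl
  rw [e0]
  nlinarith [mul_pos (mul_pos (pow_pos C0 2) d0) up]

/-- window of labels below a plateau node; it may enter the sloped part -/
theorem win_lo (u0 : 0 < S.u0) (hd : 1 ≤ S.C * S.den (M.z (S.J - 1))) {kb k : ℕ} (hb : S.j0 ≤ kb)
    (hb' : M.z kb ≤ M.z (S.J - 1) - S.u0 / 2) (k1 : S.J ≤ k) (k2 : k < S.Jp) :
    ∃ n : ℕ, kb + n + 1 ≤ k ∧ uu S M (M.z (k - 1)) / 2 ≤ M.z (k - 1) - M.z (k - n - 1) ∧
      n * S.v ≤ S.C ^ 3 * ls S M k + S.v := by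
  have j1 : 1 ≤ S.J := by have := h.i2; omega
  set x := M.z (k - 1) with hx
  have x0 := x_ge h k1
  have x1 := x_lt h k1 k2
  have up := uu_pos h u0 k1 k2
  rw [← hx] at x0 x1 up
  have a1 : uu S M x ≤ x - M.z (S.J - 1) + S.u0 := min_le_left _ _
  have kbJ : kb + 1 < S.J := by
    by_contra hh
    have := h.leg.zm (show S.J - 1 ≤ kb by omega)
    linarith
  have e1 : uu S M x / 2 ≤ x - M.z (k - (k - kb - 1) - 1) := by
    rw [show k - (k - kb - 1) - 1 = kb by omega]; linarith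
  have ex : ∃ n : ℕ, uu S M x / 2 ≤ x - M.z (k - n - 1) := ⟨_, e1⟩
  have hn := Nat.find_spec ex
  have hm : Nat.find ex ≤ k - kb - 1 := Nat.find_min' ex e1
  have d0 := h.den0 x
  have C0 := h.C0
  have C1 := h.C1
  have v0 := h.v0
  have e0 : ls S M k = S.den x * uu S M x := rfl
  have l0 : 0 < S.C ^ 3 * S.den x * uu S M x := by positivity
  refine ⟨Nat.find ex, by omega, hn, ?_⟩
  have ind : ∀ n < Nat.find ex, n * S.v ≤ S.C ^ 3 * S.den x * (x - M.z (k - n - 1)) := by
    intro n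
    induction n with
    | zero => intro _; simp [hx]
    | succ n ih =>
      intro hn
      have b1 := ih (by omega)
      have b2 := not_le.1 (Nat.find_min ex hn)
      set y := k - n - 1 with hy
      rw [show k - (n + 1) - 1 = y - 1 by omega] at b2 ⊢
      have b0 : M.z (y - 1) ≤ x := h.leg.zm (by omega)
      have b3 : M.z (y - 1) ≤ M.z y := h.leg.zm (by omega)
      have : S.v ≤ S.C ^ 3 * S.den x * (M.z y - M.z (y - 1)) := by
        rcases le_or_gt S.J y with e | e
        · have := (step h x0 x1 e (by omega) (by rw [abs_of_nonpos (by linarith)]; linarith)).1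
          have c3 : S.C ^ 2 ≤ S.C ^ 3 := pow_le_pow_right₀ C1 (by norm_num)
          nlinarith [mul_le_mul_of_nonneg_right c3 (mul_nonneg d0.le (sub_nonneg.2 b3))]
        · have b4 : M.z (y - 1) ≤ M.z (S.J - 1) := h.leg.zm (by omega)
          have c1 := (cmp h x0 x1 le_rfl (by rw [abs_of_nonpos (by linarith)]; linarith)).2
          have c2 := (h.zs (y - 1) (by omega) (by omega)).1
          rw [show y - 1 + 1 = y by omega, div_le_iff₀ C0] at c2
          have c3 : 1 ≤ S.C ^ 2 * S.den x := by nlinarith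
          nlinarith [mul_le_mul_of_nonneg_right c3 (mul_nonneg (sub_nonneg.2 b3) C0.le)]
      push_cast
      linarith
  rw [e0]
  rcases Nat.eq_zero_or_pos (Nat.find ex) with e | e
  · rw [e]; simp; linarith
  · obtain ⟨n, hn'⟩ : ∃ n, Nat.find ex = n + 1 := ⟨_, (Nat.succ_pred_eq_of_pos e).symm⟩
    have b1 := ind n (by omega)
    have b2 := not_le.1 (Nat.find_min ex (by omega : n < Nat.find ex))
    rw [hn']
    push_cast
    nlinarith [mul_le_mul_of_nonneg_left b2.le (show 0 ≤ S.C ^ 3 * S.den x by positivity)]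

omit h in
/-- persistence: a lower bound `F` of `|f|` on `(a, b]` against an energy -/
theorem persist (hz : Monotone M.z) {f : ℕ → ℝ} {T : Finset ℕ} {a b i : ℕ} (hab : a ≤ b)
    (hT : Ioc a b ⊆ T) {V W l F : ℝ} (hi : i ≠ 0) (hE : ∑ y ∈ T, (M.z y - M.z (y - 1)) * |f y| ^ i ≤ V)
    (W0 : 0 < W) (hW : W / 2 ≤ M.z b - M.z a) (l0 : 0 ≤ l) (hV : V ≤ l ^ i * W)
    (hF : ∀ y, a < y → y ≤ b → F ≤ |f y|) : F ≤ 2 * l := by
  by_contra hh
  rw [not_le] at hh
  have e1 : ∑ y ∈ Ioc a b, (M.z y - M.z (y - 1)) = M.z b - M.z a := by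
    induction b, hab using Nat.le_induction with
    | base => simp
    | succ b hb ih => rw [sum_Ioc_succ_top hb, Nat.add_sub_cancel]
                      have : ∑ y ∈ Ioc a b, (M.z y - M.z (y - 1)) = M.z b - M.z a := by
                        clear ih hT hW hF
                        induction b, hb using Nat.le_induction with
                        | base => simp
                        | succ b hb ih => rw [sum_Ioc_succ_top hb, Nat.add_sub_cancel, ih]; ring
                      rw [this]; ring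
  have d0 : ∀ y, 0 ≤ M.z y - M.z (y - 1) := fun y => sub_nonneg.2 (hz (Nat.sub_le _ _))
  have e2 : (M.z b - M.z a) * F ^ i ≤ V := by
    rw [← e1, sum_mul]
    refine le_trans (sum_le_sum fun y hy => mul_le_mul_of_nonneg_left (pow_le_pow_left₀
      (by linarith) (hF y (mem_Ioc.1 hy).1 (mem_Ioc.1 hy).2) i) (d0 y)) (le_trans ?_ hE)
    exact sum_le_sum_of_subset_of_nonneg hT fun y _ _ => mul_nonneg (d0 y) (by positivity)
  have e3 : (2 * l) ^ i < F ^ i := pow_lt_pow_left₀ hh (by linarith) hi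
  have e4 : 2 * l ^ i ≤ (2 * l) ^ i := by
    rw [mul_pow]
    exact mul_le_mul_of_nonneg_right (le_self_pow₀ one_le_two hi) (by positivity)
  have e5 : 0 ≤ F ^ i := by have : 0 ≤ l ^ i := by positivity
                            linarith
  nlinarith [mul_le_mul_of_nonneg_right hW e5]

/-- upper location at a plateau node from an energy (`f = rb - c`) -/
theorem up_le (u0 : 0 < S.u0) {f : ℕ → ℝ} {K V l : ℝ} {T : Finset ℕ} {k i : ℕ} (K0 : 0 ≤ K)
    (k1 : S.J ≤ k) (k2 : k < S.Jp) (sl : ∀ y, k ≤ y → y < S.Jp → f y - K * S.v ≤ f (y + 1))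
    (hT : Icc k S.Jp ⊆ T) (hi : i ≠ 0) (hE : ∑ y ∈ T, (M.z y - M.z (y - 1)) * |f y| ^ i ≤ V)
    (l0 : 0 ≤ l) (hV : V ≤ l ^ i * uu S M (M.z (k - 1))) :
    f k ≤ K * S.C ^ 2 * ls S M k + 2 * l := by
  obtain ⟨n, n1, n2, n3⟩ := win_up h u0 k1 k2
  have j1 : 1 ≤ S.J := by have := h.i2; omega
  have v0 := h.v0
  have := persist h.leg.zm (f := f) (a := k - 1) (b := k + n) (by omega)
    (fun y hy => hT (by simp only [mem_Ioc, mem_Icc] at *; omega)) hi hE (uu_pos h u0 k1 k2) n2 l0 hV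
    (F := f k - K * S.C ^ 2 * ls S M k) fun y a b => by
      have s : Qf24.Sl f (K * S.v) k S.Jp := sl
      have := s.le' (by positivity) (i := k) (j := y) (U := n) le_rfl (by omega) (by omega) (by omega)
      nlinarith [le_abs_self (f y), mul_le_mul_of_nonneg_left n3 K0]
  linarith

/-- lower location at a plateau node from an energy -/
theorem lo_le (u0 : 0 < S.u0) (hd : 1 ≤ S.C * S.den (M.z (S.J - 1))) {f : ℕ → ℝ} {K V l : ℝ}
    {T : Finset ℕ} {kb k i : ℕ} (K0 : 0 ≤ K) (hb : S.j0 ≤ kb)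
    (hb' : M.z kb ≤ M.z (S.J - 1) - S.u0 / 2) (k1 : S.J ≤ k) (k2 : k < S.Jp)
    (sl : ∀ y, kb ≤ y → y < k → f y - K * S.v ≤ f (y + 1)) (hT : Ioo kb k ⊆ T) (hi : i ≠ 0)
    (hE : ∑ y ∈ T, (M.z y - M.z (y - 1)) * |f y| ^ i ≤ V) (l0 : 0 ≤ l)
    (hV : V ≤ l ^ i * uu S M (M.z (k - 1))) :
    -f k ≤ K * (S.C ^ 3 * ls S M k + S.v) + 2 * l := by
  obtain ⟨n, n1, n2, n3⟩ := win_lo h u0 hd hb hb' k1 k2
  have v0 := h.v0
  have := persist h.leg.zm (f := f) (a := k - n - 1) (b := k - 1) (by omega)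
    (fun y hy => hT (by simp only [mem_Ioc, mem_Ioo] at *; omega)) hi hE (uu_pos h u0 k1 k2) n2 l0 hV
    (F := -f k - K * (S.C ^ 3 * ls S M k + S.v)) fun y a b => by
      have s : Qf24.Sl f (K * S.v) kb k := sl
      have := s.le' (by positivity) (i := y) (j := k) (U := n) (by omega) (by omega) le_rfl (by omega)
      nlinarith [neg_abs_le (f y), mul_le_mul_of_nonneg_left n3 K0]
  linarith

/-- lower location at a sloped node from an energy, window of `n` nodes -/
theorem lo_slope {f : ℕ → ℝ} {K V l : ℝ} {T : Finset ℕ} {kb k i n : ℕ} (K0 : 0 ≤ K) (hb : S.j0 ≤ kb)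
    (n0 : 0 < n) (hn : kb + n ≤ k) (k1 : k < S.J)
    (sl : ∀ y, kb ≤ y → y < k → f y - K * S.v ≤ f (y + 1)) (hT : Ioc kb k ⊆ T) (hi : i ≠ 0)
    (hE : ∑ y ∈ T, (M.z y - M.z (y - 1)) * |f y| ^ i ≤ V) (l0 : 0 ≤ l)
    (hV : V ≤ l ^ i * (2 * (n * (S.v / S.C)))) : -f k ≤ K * (n * S.v) + 2 * l := by
  have v0 := h.v0
  have C0 := h.C0
  have z := (h.z_tel (i := k - n) (j := k) (by omega) (by omega) k1).1
  rw [show (k : ℝ) - ((k - n : ℕ) : ℝ) = n by rw [Nat.cast_sub (by omega)]; ring] at z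
  have := persist h.leg.zm (f := f) (a := k - n) (b := k) (by omega)
    (fun y hy => hT (by simp only [mem_Ioc] at *; omega)) hi hE (by positivity) (by linarith) l0 hV
    (F := -f k - K * (n * S.v)) fun y a b => by
      have s : Qf24.Sl f (K * S.v) kb k := sl
      have := s.le' (by positivity) (i := y) (j := k) (U := n) (by omega) (by omega) le_rfl (by omega)
      nlinarith [neg_abs_le (f y)]
  linarith

omit h in
/-- upper location at a sloped node from the first plateau node -/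
theorem up_slope {f : ℕ → ℝ} {K : ℝ} {k : ℕ} (k1 : k ≤ S.J)
    (sl : ∀ y, k ≤ y → y < S.J → f y - K * S.v ≤ f (y + 1)) :
    f k ≤ f S.J + K * (((S.J - k : ℕ) : ℝ) * S.v) := by
  have s : Qf24.Sl f (K * S.v) k S.J := sl
  have := s.le le_rfl k1 le_rfl
  rw [Nat.cast_sub k1]
  linarith

omit h in
/-- **sup location below the plateau** -/
theorem qh_sup {m : ℕ} {a K Λ₀ t l : ℝ} {k0 k1 : ℕ} {c : ℕ → ℝ} (hK : 0 ≤ K * S.v)
    (B : QB K S M t k0 k1) (cr : Crude Λ₀ S M m a t k0) (hJ : k1 ≤ S.J) (c0 : 0 ≤ c k0)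
    (clk : ∀ k, k0 ≤ k → k < k1 → c k ≤ c (k + 1) ∧ c (k + 1) ≤ c k + K * S.v)
    (hw : S.w3 t ≤ l ^ 3) (loc : ∀ k, k0 ≤ k → k ≤ k1 → |M.rb m a k - c k| ≤ l) :
    QH K Λ₀ S M m a t k0 k1 c fun _ => l :=
  ⟨B, cr, c0, clk, fun _ _ _ => by simpa using hK, fun _ _ _ => hw, loc,
    fun _ _ _ _ _ _ _ => by omega⟩

end cl

end Crest.Agent.T156.Alt.Pl57
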