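import Crest.Agent.T156.LP_62
import Crest.Agent.T156.QPl_57

/-!
# Row 156: the crude location is free (helper32)
-/

set_option autoImplicit false

noncomputable section

namespace Crest.Agent.T156.Alt.R62

open Real Finset

variable {S : Sc} {M : Md}

/-- `q` is `1`-Lipschitz in the time, no smallness of the mass -/
theorem dq_le (h : Cl S M) {i j : ℕ} (hij : i ≤ j) (hj : j ≤ S.Jp) :
    M.q j - M.q i ≤ M.s j - M.s i := by
  have a1 := (h.href (h.s_nn i) (h.sm hij) (h.sm hj)).1
  have a2 : 0 ≤ S.ms (M.s i) / S.C * (M.s j - M.s i) :=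
    mul_nonneg (div_nonneg (h.ms_pos (h.s_nn i)).le h.C0.le) (sub_nonneg.2 (h.sm hij))
  have a3 := sub_nonneg.2 (h.q_mono hij (hj.trans h.i4.le))
  have a5 := mul_le_mul_of_nonneg_right h.b_ge a3
  change _ ≤ M.s j - M.b * M.q j - (M.s i - M.b * M.q i) at a1
  nlinarith

/-- sup location from the total energy -/
theorem sup_del (h : Cl S M) {m : ℕ} {a l : ℝ} (hm : 0 < m) (l1 : M.s S.jl ≤ l) (l2 : S.v ≤ l)
    (fl : ∀ k, S.J ≤ k → k ≤ S.Jp → M.s k = M.s S.J)
    (hE : ∑ k ∈ Ioc S.jl S.Jp, lw M k * M.del m a k ^ 2 ≤ l ^ 3) {k : ℕ} (k0 : S.jl ≤ k)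
    (k1 : k ≤ S.J) : |M.del m a k| ≤ 4 * S.C * l := by
  have v0 := h.v0
  have C1 := h.C1
  have C0 := h.C0
  have l0 : 0 < l := v0.trans_le l2
  have i1 := h.i1
  have i2 := h.i2
  have i3 := h.i3
  have i4 := h.i4
  obtain ⟨n, n1, n2⟩ : ∃ n : ℕ, l ≤ n * S.v ∧ n * S.v ≤ 2 * l :=
    ⟨⌈l / S.v⌉₊, (div_le_iff₀ v0).1 (Nat.le_ceil _), by
      have := (lt_div_iff₀ v0).1 (sub_lt_iff_lt_add.2 (Nat.ceil_lt_add_one (div_pos l0 v0).le))
      linarith⟩
  have hE' : ∑ y ∈ Ioc S.jl S.Jp, (M.z y - M.z (y - 1)) * |M.del m a y| ^ 2 ≤ l ^ 3 := by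
    simpa only [sq_abs, lw] using hE
  have ds : ∀ i j, i ≤ j → j ≤ S.J → j ≤ i + n → M.s j - M.s i ≤ 2 * S.C * l := fun i j a b c => by
    have e1 := (h.s_tel a b).2
    have e2 : (j : ℝ) - i ≤ n := by
      have : (j : ℝ) ≤ i + n := by exact_mod_cast c
      linarith
    have e3 := mul_le_mul_of_nonneg_right e2 (mul_pos C0 v0).le
    have e4 := mul_le_mul_of_nonneg_left n2 C0.le
    linarith
  have dq : ∀ i j, i ≤ j → j ≤ S.J → j ≤ i + n → M.q j - M.q i ≤ 2 * S.C * l := fun i j a b c =>
    (dq_le h a (b.trans i3)).trans (ds i j a b c)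
  have dz : ∀ i, S.jl ≤ i → i + n < S.J → 2 * l / S.C / 2 ≤ M.z (i + n) - M.z i := fun i a b => by
    refine le_trans ?_ (h.z_tel (i1.trans a) (Nat.le_add_right i n) b).1
    rw [Nat.cast_add, add_sub_cancel_left, ← mul_div_assoc, div_right_comm,
      mul_div_cancel_left₀ _ two_ne_zero]
    exact div_le_div_of_nonneg_right n1 C0.le
  have W0 : 0 < 2 * l / S.C := by positivity
  have Cl0 : 0 ≤ S.C * l := by positivity
  have lC : l ≤ S.C * l := le_mul_of_one_le_left l0.le C1
  have hV : l ^ 3 ≤ (S.C * l) ^ 2 * (2 * l / S.C) := by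
    rw [show (S.C * l) ^ 2 * (2 * l / S.C) = 2 * S.C * l ^ 3 by field_simp]
    exact le_mul_of_one_le_left (by positivity) (by linarith)
  have rm := Md67.rb_mono (M := M) (a := a) hm
  have r0 := Md67.rb_nonneg (M := M) (a := a) hm k
  have r1 := Md67.rb_le_one (M := M) (a := a) hm k
  refine abs_le.2 ⟨?_, ?_⟩
  · by_cases c : S.jl + n + 1 ≤ k
    · obtain ⟨i, rfl⟩ : ∃ i, k = i + n + 1 := ⟨k - n - 1, by omega⟩
      have := Pl57.persist (F := -M.del m a (i + n + 1) - 2 * S.C * l) h.leg.zm
        (a := i) (b := i + n + 1) (by omega) (Ioc_subset_Ioc (by omega) (by omega)) two_ne_zero hE'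
        W0 ((dz i (by omega) (by omega)).trans (sub_le_sub_right (h.leg.zm (Nat.le_succ _)) _)) Cl0
        hV fun y a b => by
          have e1 := dq y (i + n + 1) b k1 (by omega)
          have e2 := rm b
          refine le_trans ?_ (neg_le_abs _)
          unfold Md.del
          linarith
      linarith
    · have e1 := ds S.jl k k0 k1 (by omega)
      have e2 := h.q_le_s (k := k) (by omega)
      unfold Md.del
      linarith
  · by_cases c : k + n < S.J
    · have := Pl57.persist (F := M.del m a k - 2 * S.C * l) h.leg.zm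
        (a := k) (b := k + n) (by omega) (Ioc_subset_Ioc k0 (by omega)) two_ne_zero hE'
        W0 (dz k k0 c) Cl0 hV fun y a b => by
          have e1 := dq k y a.le (by omega) b
          have e2 := rm a.le
          refine le_trans ?_ (le_abs_self _)
          unfold Md.del
          linarith
      linarith
    · have q0 := h.q_nn (k := k) (by omega)
      rcases le_total 1 l with c1 | c1
      · unfold Md.del
        linarith
      · have := Pl57.persist (F := M.del m a k - 2 * S.C * l) (W := 2 / S.C) h.leg.zm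
          (a := S.J - 1) (b := S.Jp) (by omega) (Ioc_subset_Ioc (by omega) le_rfl) two_ne_zero hE'
          (by positivity) (by
            rw [h.top _ le_rfl, div_right_comm, div_self two_ne_zero]; linarith [h.atom.2]) Cl0 (by
            rw [show (S.C * l) ^ 2 * (2 / S.C) = 2 * S.C * l ^ 2 by field_simp, pow_succ, mul_comm]
            exact mul_le_mul_of_nonneg_right (by linarith) (by positivity)) fun y a b => by
            have e1 := dq k S.J k1 le_rfl (by omega)
            have e2 := rm (show k ≤ y by omega)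
            have e3 : M.q y = M.q S.J := by unfold Md.q; rw [fl y (by omega) b]
            refine le_trans ?_ (le_abs_self _)
            unfold Md.del
            linarith
        linarith

/-- **`CruS`** -/
theorem cruS : CruS := fun C => ⟨1 + 6 * C ^ 2, by nlinarith [sq_nonneg C],
  fun S M hC h m a hI l l1 l2 fl hE => by
    subst hC
    have hm : 0 < m := lt_of_lt_of_le h.n1 hI.m1
    have C1 := h.C1
    have C0 := h.C0
    have l0 : 0 < l := h.v0.trans_le l2
    have C2 : S.C ≤ S.C ^ 2 := le_self_pow₀ C1 two_ne_zero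
    refine ⟨⟨by nlinarith, fun k k0 k1 => ?_⟩, fun k k0 k1 =>
      (sup_del h hm l1 l2 fl hE k0 k1).trans (mul_le_mul_of_nonneg_right (by linarith) l0.le)⟩
    have m1 := le_max_left (M.z k) l
    have m2 := le_max_right (M.z k) l
    have m0 := l0.le.trans m2
    have a1 := mul_le_mul_of_nonneg_left m1 C0.le
    have a2 := mul_le_mul_of_nonneg_left m2 C0.le
    have a3 := mul_le_mul_of_nonneg_right C2 m0
    rcases lt_or_ge k S.J with c | c
    · have e1 := (le_abs_self _).trans (sup_del h hm l1 l2 fl hE k0 c.le)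
      have e2 := h.q_le_s (k := k) (k1.trans h.i4.le)
      have e3 := (h.z_s (h.i1.trans k0) c).1
      rw [sub_le_iff_le_add, div_le_iff₀ C0] at e3
      have e4 := mul_le_mul_of_nonneg_left (l2.trans m2) (sq_nonneg S.C)
      unfold Md.del at e1
      nlinarith
    · have e1 := h.atom.1.trans (h.leg.zm (show S.J - 1 ≤ k by omega))
      rw [div_le_iff₀ C0] at e1
      have e2 := Md67.rb_le_one (M := M) (a := a) hm k
      nlinarith⟩

end Crest.Agent.T156.Alt.R62

end
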