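import Crest.Agent.T156.QDef_57

/-!
# Row 156, block Q: the leaves `CoverS` and `TolS` of `QDef_57` (helper29)
-/

set_option autoImplicit false

noncomputable section

namespace Crest.Agent.T156.Q57

open Finset

/-- greedy cover of a block by windows -/
theorem coverS : CoverS := by
  intro N U b0 b1 f G hN hf hG H
  induction' hn : b1 - b0 using Nat.strong_induction_on with n ih generalizing b0
  rcases le_or_gt b1 b0 with h | h
  · rw [Ico_eq_empty_of_le h, sum_empty]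
    exact sum_nonneg fun y _ => hG y
  have h1 := hN b0
  have h2 := ih (b1 - (b0 + N b0)) (by omega) (b0 + N b0) (fun j hj hj' => H j (by omega) hj') rfl
  have h3 := H b0 le_rfl h
  have h4 : ∑ y ∈ Ico b0 b1, f y ≤
      ∑ y ∈ Ico b0 (b0 + N b0), f y + ∑ y ∈ Ico (b0 + N b0) b1, f y := by
    rcases le_total (b0 + N b0) b1 with h5 | h5
    · exact (sum_Ico_consecutive f (Nat.le_add_right _ _) h5).ge
    · rw [Ico_eq_empty_of_le h5, sum_empty, add_zero]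
      exact sum_le_sum_of_subset_of_nonneg (Ico_subset_Ico_right h5) fun y _ _ => hf y
  rw [← sum_Ico_consecutive G (Nat.le_add_right b0 (N b0)) (by omega : b0 + N b0 ≤ b1 + U)]
  linarith

namespace Tol29

theorem persist {f : ℕ → ℝ} {v : ℝ} (H : ∀ j, f j - v ≤ f (j + 1)) (i t : ℕ) :
    f i - t * v ≤ f (i + t) := by
  induction t with
  | zero => simp
  | succ t ih =>
    have := H (i + t)
    rw [← add_assoc]
    push_cast
    linarith

theorem card_near (s : Finset ℕ) (y : ℕ) {ρ : ℝ} (hρ : 0 ≤ ρ) :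
    ((s.filter fun j : ℕ => |(y : ℝ) - j| ≤ ρ).card : ℝ) ≤ 2 * ρ + 1 := by
  have h1 : (s.filter fun j : ℕ => |(y : ℝ) - j| ≤ ρ) ⊆ Icc (y - ⌊ρ⌋₊) (y + ⌊ρ⌋₊) := by
    intro j hj
    have h := abs_le.1 (mem_filter.1 hj).2
    rw [mem_Icc]
    constructor
    · rcases le_total y j with h2 | h2
      · omega
      · have : y - j ≤ ⌊ρ⌋₊ := Nat.le_floor (by rw [Nat.cast_sub h2]; exact h.2)
        omega
    · rcases le_total j y with h2 | h2
      · omega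
      · have : j - y ≤ ⌊ρ⌋₊ := Nat.le_floor (by rw [Nat.cast_sub h2]; linarith [h.1])
        omega
  have h2 : (Icc (y - ⌊ρ⌋₊) (y + ⌊ρ⌋₊)).card ≤ 2 * ⌊ρ⌋₊ + 1 := by
    rw [Nat.card_Icc]
    omega
  have h3 : (((s.filter fun j : ℕ => |(y : ℝ) - j| ≤ ρ).card : ℕ) : ℝ) ≤ ((2 * ⌊ρ⌋₊ + 1 : ℕ) : ℝ) :=
    Nat.cast_le.2 ((card_le_card h1).trans h2)
  have h4 := Nat.floor_le hρ
  push_cast at h3
  linarith

/-- the kernel that carries the mass of `y` to the node `j` -/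
def ker (f : ℕ → ℝ) (v : ℝ) (y j : ℕ) : ℝ :=
  if |(y : ℝ) - j| ≤ 33 * |f y| / v ∧ v ≤ |f y| then |f y| * v else 0

theorem ker_nonneg (f : ℕ → ℝ) {v : ℝ} (hv : 0 < v) (y j : ℕ) : 0 ≤ ker f v y j := by
  unfold ker
  split_ifs
  · positivity
  · exact le_rfl

theorem sum_ker (f : ℕ → ℝ) {v : ℝ} (hv : 0 < v) (s : Finset ℕ) (y : ℕ) :
    ∑ j ∈ s, ker f v y j ≤ 67 * f y ^ 2 := by
  rcases le_or_gt v |f y| with h | h
  · have h1 : ∑ j ∈ s, ker f v y j =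
        ((s.filter fun j : ℕ => |(y : ℝ) - j| ≤ 33 * |f y| / v).card : ℝ) * (|f y| * v) := by
      simp only [ker, h, and_true]
      rw [← sum_filter, sum_const, nsmul_eq_mul]
    have h2 := card_near s y (ρ := 33 * |f y| / v) (by positivity)
    have h3 : (2 * (33 * |f y| / v) + 1) * (|f y| * v) = 66 * |f y| ^ 2 + |f y| * v := by
      field_simp
      ring
    have h4 := mul_le_mul_of_nonneg_right h2 (by positivity : 0 ≤ |f y| * v)
    have h5 : |f y| * v ≤ |f y| * |f y| := mul_le_mul_of_nonneg_left h (abs_nonneg _)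
    rw [h1, ← sq_abs (f y)]
    nlinarith
  · have h1 : ∀ j ∈ s, ker f v y j = 0 := fun j _ => if_neg fun h' => absurd h'.2 h.not_ge
    rw [sum_eq_zero h1]
    positivity

/-- a deviation persists -/
theorem le_ker {f : ℕ → ℝ} {v : ℝ} (hv : 0 < v) (Hf : ∀ j, f j - v ≤ f (j + 1)) {j0 j1 H x j : ℕ}
    (hH : H ≤ j0) (hx0 : j0 ≤ x) (hx1 : x ≤ j1) (hb : |f x| ≤ H * v) (hl : 2 * v ≤ |f x|)
    (hj : |(x : ℝ) - j| * v / 16 ≤ |f x|) :
    f x ^ 2 ≤ 4 * ∑ y ∈ Icc (j0 - H) (j1 + H), ker f v y j := by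
  set d := |f x| with hd
  set T := ⌊d / (2 * v)⌋₊ with hT
  have hd0 : 0 ≤ d := abs_nonneg _
  have hT1 : (T : ℝ) * v ≤ d / 2 := by
    have := Nat.floor_le (by positivity : 0 ≤ d / (2 * v))
    rw [le_div_iff₀ (by positivity)] at this
    linarith
  have hT2 : d / 2 ≤ ((T : ℝ) + 1) * v := by
    have := (Nat.lt_floor_add_one (d / (2 * v))).le
    rw [div_le_iff₀ (by positivity)] at this
    linarith
  have hTH : T ≤ H := by
    have : (T : ℝ) * v ≤ H * v := by linarith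
    exact_mod_cast le_of_mul_le_mul_right this hv
  obtain ⟨a, ha0, ha1, ha⟩ : ∃ a : ℕ, j0 - H ≤ a ∧ a + T ≤ j1 + H ∧
      ∀ y ∈ Icc a (a + T), d / 2 ≤ |f y| ∧ |(y : ℝ) - x| ≤ T := by
    rcases le_total 0 (f x) with h | h
    · refine ⟨x, by omega, by omega, fun y hy => ?_⟩
      obtain ⟨h1, h2⟩ := mem_Icc.1 hy
      obtain ⟨t, rfl⟩ := Nat.exists_eq_add_of_le h1
      have h3 : (t : ℝ) ≤ T := Nat.cast_le.2 (by omega)
      have h4 := persist Hf x t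
      have h5 : d = f x := abs_of_nonneg h
      refine ⟨le_trans ?_ (le_abs_self _), ?_⟩
      · nlinarith
      · push_cast
        rw [add_sub_cancel_left, Nat.abs_cast]
        exact h3
    · refine ⟨x - T, by omega, by omega, fun y hy => ?_⟩
      obtain ⟨h1, h2⟩ := mem_Icc.1 hy
      obtain ⟨t, rfl⟩ := Nat.exists_eq_add_of_le (show y ≤ x by omega)
      have h3 : (t : ℝ) ≤ T := Nat.cast_le.2 (by omega)
      have h4 := persist Hf y t
      have h5 : d = -f (y + t) := abs_of_nonpos h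
      refine ⟨le_trans ?_ (neg_le_abs _), ?_⟩
      · nlinarith
      · push_cast
        rw [abs_sub_comm, add_sub_cancel_left, Nat.abs_cast]
        exact h3
  have h1 : ∀ y ∈ Icc a (a + T), d / 2 * v ≤ ker f v y j := fun y hy => by
    obtain ⟨h2, h3⟩ := ha y hy
    have h4 : |(y : ℝ) - j| ≤ |(y : ℝ) - x| + |(x : ℝ) - j| := abs_sub_le _ _ _
    have h5 : |(y : ℝ) - j| ≤ 33 * |f y| / v := by
      rw [le_div_iff₀ hv]
      nlinarith
    rw [ker, if_pos ⟨h5, by linarith⟩]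
    exact mul_le_mul_of_nonneg_right h2 hv.le
  have h2 := card_nsmul_le_sum _ _ _ h1
  rw [Nat.card_Icc, show a + T + 1 - a = T + 1 by omega, nsmul_eq_mul] at h2
  push_cast at h2
  have h3 : ∑ y ∈ Icc a (a + T), ker f v y j ≤ ∑ y ∈ Icc (j0 - H) (j1 + H), ker f v y j :=
    sum_le_sum_of_subset_of_nonneg (Icc_subset_Icc ha0 ha1) fun y _ _ => ker_nonneg f hv y j
  rw [← sq_abs (f x), ← hd]
  nlinarith

end Tol29

open Tol29

/-- **tolerance from RMS location**, without the factor `Q + 1` -/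
theorem tol_sharp (r c : ℕ → ℝ) {v l0 : ℝ} {j0 j1 H : ℕ} (hv : 0 < v) (hl : 16 * v ≤ l0)
    (hr : ∀ j, r j ≤ r (j + 1)) (hc : ∀ j, c (j + 1) - c j ≤ v) (hH : H ≤ j0)
    (hb : ∀ j, j0 ≤ j → j ≤ j1 → |r j - c j| ≤ H * v) :
    ∃ τ : ℕ → ℝ, (∀ j, l0 ≤ τ j ∧ τ j ≤ l0 + H * v) ∧
      (∀ j, j0 ≤ j → j ≤ j1 → |r j - c j| ≤ τ j) ∧
      (∀ i j : ℕ, |τ i - τ j| ≤ |(i : ℝ) - j| * v / 16) ∧
      ∑ j ∈ Icc j0 j1, τ j ^ 2 ≤ (j1 + 1 - j0 : ℕ) * l0 ^ 2 +
        268 * ∑ j ∈ Icc (j0 - H) (j1 + H), (r j - c j) ^ 2 := by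
  set f : ℕ → ℝ := fun j => r j - c j with hf
  have Hf : ∀ j, f j - v ≤ f (j + 1) := fun j => by
    have := hr j
    have := hc j
    simp only [hf]
    linarith
  set τ : ℕ → ℝ := fun j => (Icc j0 j1).fold max l0 fun i => |f i| - |(i : ℝ) - j| * v / 16 with hτ
  have hle : ∀ j t, t ≤ τ j ↔ t ≤ l0 ∨ ∃ i ∈ Icc j0 j1, t ≤ |f i| - |(i : ℝ) - j| * v / 16 :=
    fun j t => le_fold_max t
  have hge : ∀ j t, τ j ≤ t ↔ l0 ≤ t ∧ ∀ i ∈ Icc j0 j1, |f i| - |(i : ℝ) - j| * v / 16 ≤ t :=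
    fun j t => fold_max_le t
  have h0 : ∀ j, l0 ≤ τ j := fun j => (hle j l0).2 (.inl le_rfl)
  have hl0 : 0 ≤ l0 := by linarith
  have hHv : 0 ≤ (H : ℝ) * v := by positivity
  have hlip : ∀ i j : ℕ, τ i - τ j ≤ |(i : ℝ) - j| * v / 16 := fun i j => by
    have h1 : 0 ≤ |(i : ℝ) - j| * v / 16 := by positivity
    rw [sub_le_iff_le_add, hge]
    refine ⟨by linarith [h0 j], fun x hx => ?_⟩
    have h2 := (hle j _).2 (.inr ⟨x, hx, le_rfl⟩)
    have h3 : |(x : ℝ) - j| ≤ |(x : ℝ) - i| + |(i : ℝ) - j| := abs_sub_le _ _ _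
    nlinarith
  refine ⟨τ, fun j => ⟨h0 j, (hge j _).2 ⟨by linarith, fun i hi => ?_⟩⟩, fun j hj0 hj1 => ?_,
    fun i j => abs_le.2 ⟨?_, hlip i j⟩, ?_⟩
  · have h1 : 0 ≤ |(i : ℝ) - j| * v / 16 := by positivity
    have h2 := hb i (mem_Icc.1 hi).1 (mem_Icc.1 hi).2
    linarith
  · exact (hle j _).2 (.inr ⟨j, mem_Icc.2 ⟨hj0, hj1⟩, by simp [hf]⟩)
  · have := hlip j i
    rw [abs_sub_comm] at this
    linarith
  have h1 : ∀ j ∈ Icc j0 j1, τ j ^ 2 ≤ l0 ^ 2 + 4 * ∑ y ∈ Icc (j0 - H) (j1 + H), ker f v y j := by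
    intro j _
    have h2 : 0 ≤ ∑ y ∈ Icc (j0 - H) (j1 + H), ker f v y j :=
      sum_nonneg fun y _ => ker_nonneg f hv y j
    have h3 := h0 j
    rcases (hle j _).1 le_rfl with h | ⟨x, hx, h⟩
    · nlinarith
    · have h4 : 0 ≤ |(x : ℝ) - j| * v / 16 := by positivity
      have h5 := le_ker hv Hf (j := j) hH (mem_Icc.1 hx).1 (mem_Icc.1 hx).2
        (hb x (mem_Icc.1 hx).1 (mem_Icc.1 hx).2) (by linarith) (by linarith)
      have h6 : τ j ^ 2 ≤ |f x| ^ 2 := pow_le_pow_left₀ (by linarith) (by linarith) 2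
      rw [sq_abs] at h6
      nlinarith
  refine (sum_le_sum h1).trans ?_
  rw [sum_add_distrib, sum_const, Nat.card_Icc, nsmul_eq_mul, ← mul_sum, sum_comm]
  have h2 : ∑ y ∈ Icc (j0 - H) (j1 + H), ∑ j ∈ Icc j0 j1, ker f v y j ≤
      ∑ y ∈ Icc (j0 - H) (j1 + H), 67 * f y ^ 2 := sum_le_sum fun y _ => sum_ker f hv _ y
  rw [← mul_sum] at h2
  simp only [hf] at h2 ⊢
  linarith

/-- (D2) -/
theorem tolS : TolS := by
  refine ⟨268, by norm_num, fun r c v l0 j0 j1 H Q hv hl hr hc hH hb _ => ?_⟩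
  obtain ⟨τ, h1, h2, h3, h4⟩ := tol_sharp r c hv hl hr hc hH hb
  refine ⟨τ, h1, h2, h3, h4.trans ?_⟩
  have h5 : 0 ≤ ∑ j ∈ Icc (j0 - H) (j1 + H), (r j - c j) ^ 2 := sum_nonneg fun _ _ => sq_nonneg _
  have h6 : 0 ≤ ((j1 + 1 - j0 : ℕ) : ℝ) * l0 ^ 2 := by positivity
  have h7 : 0 ≤ (Q : ℝ) * ∑ j ∈ Icc (j0 - H) (j1 + H), (r j - c j) ^ 2 := by positivity
  nlinarith

end Crest.Agent.T156.Q57
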