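import Crest.Agent.T156.LPe_12
import Crest.Agent.T156.LPc_32
import Crest.Agent.T156.QTol_29

/-!
# Row 156: moments on one sloped block from the location kit (helper78)
-/

set_option autoImplicit false
set_option linter.unusedVariables false
set_option maxHeartbeats 400000

noncomputable section

namespace Crest.Agent.T156.Alt.R62

open MeasureTheory Real Finset Filter
open Crest.Agent.T156.Alt.Md67 Crest.Agent.T156.Alt.QS98

namespace B78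

variable {S : Sc} {M : Md} {m : ℕ} {a t : ℝ} {b0 b1 D p : ℕ}

theorem diag {P : ℝ → CP} (H : ∀ C, CL (P C)) : CL fun E Λ S M m a => P S.C E Λ S M m a := by
  intro C
  filter_upwards [H C C] with A H ε hε η hη
  filter_upwards [H ε hε η hη] with n H S M b1 b2 b3 b4 m a b5
  have := H S M b1 b2 b3 b4 m a b5
  rwa [← b1] at this

/-- geometry of the block `[t, 2 t]` with margins of `2 D` nodes -/
structure Geo (S : Sc) (M : Md) (t : ℝ) (b0 b1 D : ℕ) : Prop where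
  t0 : 0 < t
  D1 : 1 ≤ D
  lo : t / (32 * S.C) ≤ D * S.v
  De : D = ⌈t / (32 * S.C * S.v)⌉₊
  b0l : S.jl + 2 * D < b0
  b01 : b0 ≤ b1
  b1J : b1 + 2 * D ≤ S.J
  eq : sb S M t (2 * t) = Ico b0 b1
  rg : ∀ k, b0 ≤ k + 2 * D → k < b1 + 2 * D → t / 2 ≤ M.s k ∧ M.s k ≤ 3 * t
  cnt : ((b1 + 2 * D : ℕ) : ℝ) * S.v ≤ 4 * S.C * t
  vt : 32 * S.C * S.v ≤ t

theorem geo (h : Cl S M) (t0 : 0 < t) (hl : 8 * M.s S.jl ≤ t) (hT : t ≤ T0 S M)
    (vt : 32 * S.C * S.v ≤ t) : ∃ b0 b1 D, Geo S M t b0 b1 D := by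
  have C1 := h.C1
  have v0 := h.v0
  have hJ : 16 * t ≤ M.s S.J := by rw [T0] at hT; linarith
  have x0 : ∃ k, t ≤ M.s k := ⟨S.J, by linarith⟩
  have x1 : ∃ k, 2 * t < M.s k := ⟨S.J, by linarith⟩
  classical
  obtain ⟨b0, p0, q0⟩ : ∃ b, t ≤ M.s b ∧ ∀ k, t ≤ M.s k → b ≤ k :=
    ⟨Nat.find x0, Nat.find_spec x0, fun k hk => Nat.find_min' x0 hk⟩
  obtain ⟨b1, p1, q1⟩ : ∃ b, 2 * t < M.s b ∧ ∀ k, 2 * t < M.s k → b ≤ k :=
    ⟨Nat.find x1, Nat.find_spec x1, fun k hk => Nat.find_min' x1 hk⟩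
  set D := ⌈t / (32 * S.C * S.v)⌉₊ with hD
  have d0 : t / (32 * S.C * S.v) ≤ D := Nat.le_ceil _
  have d1 : (D : ℝ) < t / (32 * S.C * S.v) + 1 := Nat.ceil_lt_add_one (by positivity)
  have D1 : 1 ≤ D := Nat.one_le_ceil_iff.2 (by positivity)
  have d2 : (D : ℝ) * (S.C * S.v) ≤ t / 16 := by
    have : (D : ℝ) * (S.C * S.v) ≤ (t / (32 * S.C * S.v) + 1) * (S.C * S.v) := by gcongr
    have e : (t / (32 * S.C * S.v) + 1) * (S.C * S.v) = t / 32 + S.C * S.v := by field_simp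
    linarith
  have b0J : b0 ≤ S.J := q0 _ (by linarith)
  have b1J : b1 ≤ S.J := q1 _ (by linarith)
  have b01 : b0 ≤ b1 := q0 _ (by linarith)
  have b11 : 1 ≤ b1 := by
    by_contra hc
    rw [show b1 = 0 by omega, h.s0] at p1
    linarith
  have e1 : M.s (b1 - 1) ≤ 2 * t := by
    by_contra hc
    have := q1 _ (not_le.1 hc)
    omega
  have lo : ∀ k, b0 ≤ k + 2 * D → t / 2 ≤ M.s k := fun k hk => by
    rcases le_total b0 k with h1 | h1
    · linarith [h.sm h1]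
    · have h2 := (h.s_tel h1 b0J).2
      have h3 : (b0 : ℝ) - k ≤ 2 * D := by
        have : (b0 : ℝ) ≤ k + 2 * D := by exact_mod_cast hk
        linarith
      have : ((b0 : ℝ) - k) * (S.C * S.v) ≤ 2 * D * (S.C * S.v) := by gcongr
      linarith
  have hi : ∀ k, k < b1 + 2 * D → k ≤ S.J → M.s k ≤ 3 * t := fun k hk hkJ => by
    rcases le_total k (b1 - 1) with h1 | h1
    · linarith [h.sm h1]
    · have h2 := (h.s_tel h1 hkJ).2
      have h3 : (k : ℝ) - (b1 - 1 : ℕ) ≤ 2 * D := by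
        have : (k : ℝ) ≤ (b1 - 1 : ℕ) + 2 * D := by exact_mod_cast (by omega : k ≤ b1 - 1 + 2 * D)
        linarith
      have : ((k : ℝ) - (b1 - 1 : ℕ)) * (S.C * S.v) ≤ 2 * D * (S.C * S.v) := by gcongr
      linarith
  have a1 : b1 + 2 * D ≤ S.J := by
    by_contra hc
    linarith [hi S.J (by omega) le_rfl]
  have a0 : S.jl + 2 * D < b0 := by
    by_contra hc
    linarith [lo S.jl (by omega)]
  refine ⟨b0, b1, D, t0, D1, ?_, rfl, a0, b01, a1, ?_,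
    fun k h0 h1 => ⟨lo k h0, hi k h1 (by omega)⟩, ?_, vt⟩
  · rw [div_le_iff₀ (by positivity)] at d0 ⊢
    linarith
  · ext k
    simp only [sb, mem_filter, mem_Ioo, mem_Ico]
    refine ⟨fun ⟨_, h1, h2⟩ => ⟨q0 k h1, ?_⟩, fun ⟨h1, h2⟩ => ⟨⟨by omega, by omega⟩,
      p0.trans (h.sm h1), (h.sm (by omega : k ≤ b1 - 1)).trans e1⟩⟩
    by_contra hc
    linarith [h.sm (not_lt.1 hc)]
  · have h1 := (h.s_bds (k := b1 + 2 * D - 1) (by omega)).1
    have h2 := hi (b1 + 2 * D - 1) (by omega) (by omega)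
    have h3 : ((b1 + 2 * D : ℕ) : ℝ) = (b1 + 2 * D - 1 : ℕ) + 1 := by
      exact_mod_cast (by omega : b1 + 2 * D = b1 + 2 * D - 1 + 1)
    rw [← mul_div_assoc, div_le_iff₀ (by positivity)] at h1
    rw [h3]
    nlinarith

/-- the clock -/
def cq (S : Sc) (M : Md) (j : ℕ) : ℝ := M.q (min j S.J)

theorem cq_eq {k : ℕ} (hk : k ≤ S.J) : cq S M k = M.q k := by rw [cq, min_eq_left hk]

theorem cq_step (h : Cl S M) (hθ : S.C * S.θ ≤ 1 / 2) (j : ℕ) :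
    cq S M j ≤ cq S M (j + 1) ∧ cq S M (j + 1) - cq S M j ≤ S.C * S.v := by
  rcases lt_or_ge j S.J with h1 | h1
  · rw [cq_eq h1.le, cq_eq h1]
    exact ⟨h.q_mono (Nat.le_succ j) (h1.trans h.J_lt),
      (h.q_tel hθ (Nat.le_succ j) (h1.trans_le h.i3)).2.trans (h.ss j h1).2⟩
  · rw [cq, cq, min_eq_right h1, min_eq_right (by omega), sub_self]
    exact ⟨le_rfl, (mul_pos h.C0 h.v0).le⟩

theorem Geo.dz (G : Geo S M t b0 b1 D) (h : Cl S M) {k : ℕ} (h0 : S.jl < k) (h1 : k < S.J) :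
    M.dz m a k = lw M k ∧ S.v / S.C ≤ lw M k ∧ lw M k ≤ S.C * S.v := by
  have := h.zs (k - 1) (by have := h.i1; omega) (by omega)
  rw [Nat.sub_add_cancel (by omega)] at this
  exact ⟨dz_up h.leg (by omega), this⟩

theorem Geo.qh (G : Geo S M t b0 b1 D) (h : Cl S M) (hθ : S.C * S.θ ≤ 1 / 2)
    (hw : S.w3 t ≤ t ^ 3) {Λ₀ : ℝ} {ρ : ℕ → ℝ} (cr : Crude Λ₀ S M m a t (b0 - D))
    (lip : ∀ k, |ρ (k + 1) - ρ k| ≤ 32 * S.C * S.v)
    (wρ : ∀ k, S.w3 t ≤ ρ k ^ 3 ∧ ρ k ≤ t)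
    (loc : ∀ k, b0 - D ≤ k → k ≤ b1 - 1 + D → |M.rb m a k - cq S M k| ≤ Λ₀ * ρ k) :
    QH' (32 * S.C) Λ₀ S M m a t (b0 - D) (b1 - 1 + D) (cq S M) ρ := by
  have C1 := h.C1
  have v0 := h.v0
  have t0 := G.t0
  have := G.b0l
  have := G.b01
  have := G.b1J
  have := G.D1
  have w0 : 0 < S.w3 t := div_pos (by linarith [h.F1]) (mul_pos (mul_pos h.N0 t0) (h.ms_pos t0.le))
  have n1 : (1 : ℝ) ≤ S.n := by exact_mod_cast h.n1
  refine ⟨⟨t0, by omega, by omega, by have := h.i3; omega, ?_, ?_, hw⟩, cr, ?_, fun k _ _ => ?_,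
    fun k _ _ => lip k, fun k _ _ => ?_, fun k _ _ => ?_, loc, fun k y _ _ _ _ => by omega⟩
  · nlinarith [(G.rg (b0 - D) (by omega) (by omega)).1]
  · have h1 := (h.z_s (k := b1 - 1 + D) (by have := h.i1; omega) (by omega)).2
    have h2 := (G.rg (b1 - 1 + D) (by omega) (by omega)).2
    have h3 := G.vt
    nlinarith
  · exact h.q_nn ((min_le_right _ _).trans h.J_lt.le)
  · obtain ⟨h1, h2⟩ := cq_step h hθ k
    exact ⟨h1, by nlinarith [mul_pos h.C0 v0]⟩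
  · rw [min_eq_left (wρ k).2, ← pow_succ']
    exact (wρ k).1.trans (le_mul_of_one_le_left (w0.le.trans (wρ k).1) cr.1)
  · exact (wρ k).1.trans (le_mul_of_one_le_left (w0.le.trans (wρ k).1) n1)

/-- the envelope output -/
def EO (K Λ : ℝ) (S : Sc) (M : Md) (m : ℕ) (a t : ℝ) (k0 k1 : ℕ) (c ρ : ℕ → ℝ) : Prop :=
  ∀ (k : ℕ) (q e : ℝ), Inn K S t k0 k1 k → |c k| ≤ 1 → 0 < ρ k → |c k - q| + Λ * ρ k ≤ e →
    M.E2 m a (fun R => max (|R - q| - e) 0) k ≤ CIn12.tlD S 3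

theorem Geo.out (G : Geo S M t b0 b1 D) (h : Cl S M) (I : S.In m a) {Λ : ℝ} (hΛ : 0 ≤ Λ)
    {ρ : ℕ → ℝ} (h0 : ∀ k, 0 < ρ k ∧ ρ k ≤ t)
    (O : QO (32 * S.C) Λ p S M m a t (b0 - D) (b1 - 1 + D) (cq S M) ρ)
    (O' : EO (32 * S.C) Λ S M m a t (b0 - D) (b1 - 1 + D) (cq S M) ρ) :
    (∀ k ∈ sb S M t (2 * t), (M.E2 m a (fun R => (R - M.q k) ^ (2 * p)) k ≤ (Λ * ρ k) ^ (2 * p) ∧
      M.Mo m a p (fun x => M.rP m a k x - M.q k) (Λ * ρ k)) ∧ Env S M m a k (Λ * ρ k)) ∧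
    (∀ R, ∑ k ∈ Icc (b0 - D) (b1 - 1 + D), S.v * ρ k ^ 2 ≤ R →
      ∑ k ∈ sb S M t (2 * t), M.dz m a k * (Λ * ρ k) ^ 2 ≤ Λ ^ 2 * (S.C * R)) ∧
    ∀ i ≤ p, ∀ R, ∑ k ∈ Icc (b0 - D) (b1 - 1 + D), S.v * ρ k ^ i ≤ R →
      ∑ k ∈ sb S M t (2 * t), M.dz m a k * ja M m a i k ≤ Λ ^ (i + 1) * S.w3 t * (2 * S.C * R) := by
  have C0 := h.C0
  have v0 := h.v0
  have t0 := G.t0
  have := G.b0l
  have := G.b01
  have := G.b1J
  have := G.D1
  have w0 : 0 < S.w3 t := div_pos (by linarith [h.F1]) (mul_pos (mul_pos h.N0 t0) (h.ms_pos t0.le))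
  have inn : ∀ k, b0 ≤ k → k < b1 → Inn (32 * S.C) S t (b0 - D) (b1 - 1 + D) k := fun k a0 a1 => by
    refine ⟨G.lo.trans ?_, G.lo.trans ?_⟩ <;> gcongr
    · have : ((b0 - D : ℕ) : ℝ) + D ≤ k := by exact_mod_cast (by omega : b0 - D + D ≤ k)
      linarith
    · have : (k : ℝ) + D ≤ (b1 - 1 + D : ℕ) := by exact_mod_cast (by omega : k + D ≤ b1 - 1 + D)
      linarith
  rw [G.eq]
  refine ⟨fun k hk => ?_, fun R hR => ?_, fun i hi R hR => ?_⟩
  · obtain ⟨a0, a1⟩ := mem_Ico.1 hk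
    have e1 := O.pair k (inn k a0 a1)
    have e2 := O.node k (inn k a0 a1)
    have e3 := O' k (M.q k) (Λ * ρ k) (inn k a0 a1)
    rw [cq_eq (by omega)] at e1 e2 e3
    refine ⟨⟨e1, e2⟩, e3 ?_ (h0 k).1 (by rw [sub_self, abs_zero, zero_add])⟩
    rw [abs_of_nonneg (h.q_nn (by have := h.J_lt; omega))]
    exact Cl.q_le_one k
  · refine le_trans ?_ (mul_le_mul_of_nonneg_left (mul_le_mul_of_nonneg_left hR C0.le)
      (sq_nonneg Λ))
    rw [mul_sum, mul_sum]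
    refine le_trans (sum_le_sum fun k hk => ?_) (sum_le_sum_of_subset_of_nonneg
      (s := Ico b0 b1) (fun k hk => by simp only [mem_Ico, mem_Icc] at hk ⊢; omega)
      fun k _ _ => by positivity)
    obtain ⟨a0, a1⟩ := mem_Ico.1 hk
    obtain ⟨e1, -, e3⟩ := G.dz (m := m) (a := a) h (k := k) (by omega) (by omega)
    rw [e1]
    calc _ ≤ S.C * S.v * (Λ * ρ k) ^ 2 := by gcongr
      _ = _ := by ring
  · have W : Wts (32 * S.C) S t (b0 - D) (b1 - 1 + D) ρ b0 b1 D (fun y => max (M.dz m a y) 0)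
        fun _ => S.C * S.v :=
      ⟨fun k a0 a1 => ⟨inn k a0 a1, (min_le_right _ _).trans G.lo⟩, by omega,
        fun y => le_max_right _ _, fun _ => by positivity, fun y y' a0 _ a1 _ _ => by
          obtain ⟨e1, -, e3⟩ := G.dz (m := m) (a := a) h (k := y) (by omega) (by omega)
          exact max_le (e1.trans_le e3) (by positivity), by omega⟩
    refine le_trans (le_of_eq (sum_congr rfl fun k hk => ?_)) ((O.jnt _ _ _ _ _ W i hi).trans ?_)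
    · obtain ⟨a0, a1⟩ := mem_Ico.1 hk
      obtain ⟨e1, e2, -⟩ := G.dz (m := m) (a := a) h (k := k) (by omega) (by omega)
      rw [max_eq_left (e1 ▸ (div_pos v0 C0).le.trans e2), cq_eq (by omega), ja]
    · refine mul_le_mul_of_nonneg_left (le_trans ?_ (mul_le_mul_of_nonneg_left hR
        (by positivity))) (by positivity)
      rw [mul_sum]
      refine le_trans (sum_le_sum fun k hk => ?_) (sum_le_sum_of_subset_of_nonneg
        (s := Ico b0 (b1 + D)) (fun k hk => by simp only [mem_Ico, mem_Icc] at hk ⊢; omega)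
        fun k _ _ => by have := (h0 k).1; positivity)
      have r0 := (h0 k).1
      have : 1 + ρ k / t ≤ 2 := by linarith [(div_le_one t0).2 (h0 k).2]
      calc _ ≤ S.C * S.v * (ρ k ^ i * 2) := by gcongr
        _ = _ := by ring

theorem Geo.sum_c (G : Geo S M t b0 b1 D) (h : Cl S M) {x : ℝ} (hx : 0 ≤ x) :
    ∑ _k ∈ Icc (b0 - D) (b1 - 1 + D), S.v * x ≤ 4 * S.C * t * x := by
  have v0 := h.v0
  rw [sum_const, Nat.card_Icc, nsmul_eq_mul, ← mul_assoc]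
  refine mul_le_mul_of_nonneg_right (le_trans ?_ G.cnt) hx
  have := G.b0l
  have := G.b01
  gcongr
  omega

/-- the conclusion -/
def Out (p : ℕ) (Λ : ℝ) (S : Sc) (M : Md) (m : ℕ) (a l Pt t : ℝ) : Prop :=
  ∃ G : ℕ → ℝ, (∀ k, 0 < G k ∧ G k ≤ Λ * l) ∧
    (∀ k ∈ sb S M t (2 * t), (M.E2 m a (fun R => (R - M.q k) ^ (2 * p)) k ≤ G k ^ (2 * p) ∧
      M.Mo m a p (fun x => M.rP m a k x - M.q k) (G k)) ∧ Env S M m a k (G k)) ∧
    ∑ k ∈ sb S M t (2 * t), M.dz m a k * G k ^ 2 ≤ Λ * Pt ∧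
    ∑ k ∈ sb S M t (2 * t), M.dz m a k * ja M m a 0 k ≤ Λ * S.w3 t * max t l ∧
    ∑ k ∈ sb S M t (2 * t), M.dz m a k * ja M m a 2 k ≤ Λ * S.w3 t * Pt ∧
    ∑ k ∈ sb S M t (2 * t), M.dz m a k * ja M m a 4 k ≤ Λ * S.w3 t * (Pt * l ^ 2)

theorem Out.mono {Λ Λ' l Pt : ℝ} (O : Out p Λ S M m a l Pt t) (h : Λ ≤ Λ') (hl : 0 ≤ l)
    (hP : 0 ≤ Pt) (hw : 0 ≤ S.w3 t) : Out p Λ' S M m a l Pt t := by
  obtain ⟨G, h1, h2, h3, h4, h5, h6⟩ := O
  have : 0 ≤ max t l := le_max_of_le_right hl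
  exact ⟨G, fun k => ⟨(h1 k).1, (h1 k).2.trans (by gcongr)⟩, h2, h3.trans (by gcongr),
    h4.trans (by gcongr), h5.trans (by gcongr), h6.trans (by gcongr)⟩

/-- the common data -/
structure Cx (p : ℕ) (L K : ℝ) (S : Sc) (M : Md) (m : ℕ) (a l t : ℝ) (b0 b1 D : ℕ) : Prop where
  cl : Cl S M
  I : S.In m a
  geo : Geo S M t b0 b1 D
  hθ : S.C * S.θ ≤ 1 / 2
  K1 : 1 ≤ K
  hL : 600 * S.C ^ 2 * K ≤ L
  p4 : 4 ≤ p
  Q : ∀ Λ₀ t k0 k1 c ρ, QH' (32 * S.C) Λ₀ S M m a t k0 k1 c ρ →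
    QO (32 * S.C) (L * Λ₀) p S M m a t k0 k1 c ρ ∧ EO (32 * S.C) (L * Λ₀) S M m a t k0 k1 c ρ
  l0 : 0 < l
  hw : S.w3 t ≤ t ^ 3
  cr : Crude K S M m a l S.jl
  sup : ∀ k, S.jl ≤ k → k ≤ S.J → |M.del m a k| ≤ K * l

namespace Cx

variable {L K l : ℝ} (X : Cx p L K S M m a l t b0 b1 D)
include X

theorem num : 1 ≤ L ∧ 600 * K ≤ L ∧ 600 * S.C ^ 2 ≤ L := by
  have C2 : 1 ≤ S.C ^ 2 := one_le_pow₀ X.cl.C1
  have := X.K1
  have := X.hL
  refine ⟨by nlinarith, by nlinarith, by nlinarith⟩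

theorem w0 : 0 < S.w3 t :=
  div_pos (by linarith [X.cl.F1]) (mul_pos (mul_pos X.cl.N0 X.geo.t0) (X.cl.ms_pos X.geo.t0.le))

theorem loc {k : ℕ} (h0 : b0 ≤ k + 2 * D) (h1 : k < b1 + 2 * D) :
    |M.rb m a k - cq S M k| ≤ K * l := by
  have := X.geo.b0l
  have := X.geo.b1J
  rw [cq_eq (by omega)]
  exact X.sup k (by omega) (by omega)

/-- low blocks -/
theorem low (ht : t ≤ L * l) : Out p (L ^ 16) S M m a l (l ^ 3) t := by
  obtain ⟨L1, LK, LC⟩ := X.num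
  have G := X.geo
  have t0 := G.t0
  have l0 := X.l0
  have K1 := X.K1
  have w0 := X.w0
  have C0 := X.cl.C0
  have := G.b0l
  have := G.b01
  set y := max t l with hy
  have y1 : t ≤ y := le_max_left _ _
  have y2 : l ≤ y := le_max_right _ _
  have y3 : y ≤ L * l := max_le ht (le_mul_of_one_le_left l0.le L1)
  have r1 : 1 ≤ y / t := (one_le_div t0).2 y1
  have e0 : K * (y / t) * t = K * y := by field_simp
  have cr : Crude (K * (y / t)) S M m a t (b0 - D) := by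
    refine ⟨one_le_mul_of_one_le_of_one_le K1 r1, fun k h0 h1 =>
      (X.cr.2 k (by omega) h1).trans ?_⟩
    rw [mul_assoc]
    refine mul_le_mul_of_nonneg_left (max_le ?_ ?_) (by linarith)
    · exact (le_max_left _ _).trans (le_mul_of_one_le_left (le_max_of_le_right t0.le) r1)
    · calc l ≤ y / t * t := by rw [div_mul_cancel₀ _ t0.ne']; exact y2
        _ ≤ _ := by gcongr; exact le_max_right _ _
  have O := X.Q _ _ _ _ _ _ (G.qh X.cl X.hθ X.hw (ρ := fun _ => t) cr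
    (fun _ => by have := X.cl.v0; rw [sub_self, abs_zero]; positivity) (fun _ => ⟨X.hw, le_rfl⟩)
    fun k h0 h1 => (X.loc (by omega) (by omega)).trans (by rw [e0]; gcongr))
  obtain ⟨o1, o2, o3⟩ := G.out X.cl X.I (by positivity) (fun _ => ⟨t0, le_rfl⟩) O.1 O.2
  set x := L * (K * (y / t)) with hx
  have x0 : 0 < x := by positivity
  have x1 : x * t ≤ L ^ 2 * y := by
    rw [hx, mul_assoc, e0, sq, mul_assoc]
    gcongr
    linarith
  have x2 : x * t ≤ L ^ 3 * l := x1.trans (by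
    calc _ ≤ L ^ 2 * (L * l) := by gcongr
      _ = _ := by ring)
  have pw : ∀ {i j : ℕ}, i ≤ j → L ^ i ≤ L ^ j := fun h => pow_le_pow_right₀ L1 h
  have key : ∀ i ≤ p, ∑ k ∈ sb S M t (2 * t), M.dz m a k * ja M m a i k ≤
      L * S.w3 t * (x * t) ^ (i + 1) := fun i hi =>
    (o3 i hi _ (G.sum_c X.cl (pow_nonneg t0.le i))).trans (by
      calc _ = 8 * S.C ^ 2 * S.w3 t * (x * t) ^ (i + 1) := by ring
        _ ≤ _ := by gcongr; nlinarith)
  have p4 := X.p4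
  refine ⟨fun _ => x * t, fun _ => ⟨by positivity, x2.trans (by gcongr; norm_num)⟩, o1,
    (o2 _ (G.sum_c X.cl (sq_nonneg t))).trans ?_, (key 0 (by omega)).trans ?_,
    (key 2 (by omega)).trans ?_, (key 4 p4).trans ?_⟩
  · calc _ = 4 * S.C ^ 2 * t * (x * t) ^ 2 := by ring
      _ ≤ L * (L * l) * (L ^ 3 * l) ^ 2 := by gcongr; nlinarith
      _ = L ^ 8 * l ^ 3 := by ring
      _ ≤ _ := by gcongr; norm_num
  · calc _ ≤ L * S.w3 t * (L ^ 2 * y) ^ (0 + 1) := by gcongr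
      _ = L ^ 3 * S.w3 t * y := by ring
      _ ≤ _ := by gcongr; norm_num
  · calc _ ≤ L * S.w3 t * (L ^ 3 * l) ^ (2 + 1) := by gcongr
      _ = L ^ 10 * S.w3 t * l ^ 3 := by ring
      _ ≤ _ := by gcongr; norm_num
  · calc _ ≤ L * S.w3 t * (L ^ 3 * l) ^ (4 + 1) := by gcongr
      _ = _ := by ring

/-- high blocks -/
theorem high {Pt : ℝ} (ht : L * l ≤ t) (tC : t ≤ S.C) (hv : S.v * L ^ 2 ≤ S.C) (P1 : Pt ≤ l ^ 3)
    (P2 : t ^ 3 * S.w3 t ^ 2 ≤ Pt ^ 3) (P3 : S.v ≤ Pt)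
    (P4 : ∑ k ∈ sb S M (t / 4) (8 * t), lw M k * M.del m a k ^ 2 ≤ Pt) :
    Out p (L ^ 16) S M m a l Pt t := by
  obtain ⟨L1, LK, LC⟩ := X.num
  have G := X.geo
  have t0 := G.t0
  have l0 := X.l0
  have K1 := X.K1
  have w0 := X.w0
  have C1 := X.cl.C1
  have C0 := X.cl.C0
  have v0 := X.cl.v0
  have := G.b0l
  have := G.b01
  have := G.b1J
  have := G.D1
  have P0 : 0 < Pt := v0.trans_le P3
  have lt : l ≤ t := (le_mul_of_one_le_left l0.le L1).trans ht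
  set r := √(Pt / t) with hr
  have r2 : r ^ 2 = Pt / t := sq_sqrt (by positivity)
  have r0 : 0 < r := sqrt_pos.2 (by positivity)
  have rl : r ≤ l := by
    refine sqrt_le_iff.2 ⟨l0.le, ?_⟩
    rw [div_le_iff₀ t0]
    calc Pt ≤ l ^ 2 * l := by linarith [pow_succ l 2]
      _ ≤ _ := by gcongr
  have rw3 : S.w3 t ≤ r ^ 3 := by
    refine (pow_le_pow_iff_left₀ w0.le (by positivity) two_ne_zero).1 ?_
    rw [← pow_mul, mul_comm 3 2, pow_mul, r2, div_pow, le_div_iff₀ (by positivity)]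
    linarith
  have rv : 16 * (S.C * S.v) ≤ r := by
    refine le_sqrt_of_sq_le ?_
    rw [le_div_iff₀ t0]
    have a1 : S.v * (600 * S.C ^ 2) ^ 2 ≤ S.C := le_trans (by gcongr) hv
    have a2 : 256 * S.C ^ 3 * S.v ≤ 1 := by
      have : S.C * (360000 * S.C ^ 3 * S.v) ≤ S.C * 1 := by linarith
      have := le_of_mul_le_mul_left this C0
      have : 0 ≤ S.C ^ 3 * S.v := by positivity
      linarith
    calc _ ≤ (16 * (S.C * S.v)) ^ 2 * S.C := by gcongr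
      _ = 256 * S.C ^ 3 * S.v * S.v := by ring
      _ ≤ 1 * Pt := by gcongr
      _ = _ := one_mul _
  set H := ⌈K * l / (S.C * S.v)⌉₊ with hH
  have HD : H ≤ D := by
    rw [G.De]
    refine Nat.ceil_mono ?_
    rw [div_le_div_iff₀ (by positivity) (by positivity)]
    have : 32 * K * l ≤ t := le_trans (by gcongr; linarith) ht
    calc _ = 32 * K * l * (S.C * S.v) := by ring
      _ ≤ _ := by gcongr
  have H0 : K * l ≤ H * (S.C * S.v) := by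
    rw [← div_le_iff₀ (by positivity)]
    exact Nat.le_ceil _
  have H1 : H * (S.C * S.v) ≤ K * l + S.C * S.v := by
    have : (H : ℝ) ≤ K * l / (S.C * S.v) + 1 := (Nat.ceil_lt_add_one (by positivity)).le
    calc _ ≤ (K * l / (S.C * S.v) + 1) * (S.C * S.v) := by gcongr
      _ = _ := by field_simp
  obtain ⟨τ, a1, a2, a3, a4⟩ := Q57.tol_sharp (M.rb m a) (cq S M) (v := S.C * S.v) (l0 := r)
    (j0 := b0 - D) (j1 := b1 - 1 + D) (H := H) (by positivity) rv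
    (fun j => rb_mono (X.cl.n1.trans X.I.m1) (Nat.le_succ j)) (fun j => (cq_step X.cl X.hθ j).2)
    (by omega) fun j h0 h1 => (X.loc (by omega) (by omega)).trans H0
  have τ0 : ∀ k, 0 < τ k := fun k => r0.trans_le (a1 k).1
  have τl : ∀ k, τ k ≤ L * l := fun k => by
    have := (a1 k).2
    have : 0 < S.C * S.v := by positivity
    nlinarith
  have cr : Crude K S M m a t (b0 - D) := ⟨K1, fun k h0 h1 => (X.cr.2 k (by omega) h1).trans
    (by gcongr)⟩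
  have O := X.Q _ _ _ _ _ _ (G.qh X.cl X.hθ X.hw (ρ := τ) cr
    (fun k => (a3 (k + 1) k).trans (by
      rw [Nat.cast_succ, add_sub_cancel_left, abs_one]; nlinarith [mul_pos C0 v0]))
    (fun k => ⟨rw3.trans (by gcongr; exact (a1 k).1), (τl k).trans ht⟩)
    fun k h0 h1 => (a2 k h0 h1).trans (le_mul_of_one_le_left (τ0 k).le K1))
  obtain ⟨o1, o2, o3⟩ := G.out X.cl X.I (by positivity) (fun k => ⟨τ0 k, (τl k).trans ht⟩) O.1 O.2
  have s1 : ∑ k ∈ Icc (b0 - D - H) (b1 - 1 + D + H), S.v * (M.rb m a k - cq S M k) ^ 2 ≤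
      S.C * Pt := by
    refine le_trans ?_ (mul_le_mul_of_nonneg_left P4 C0.le)
    rw [mul_sum]
    refine le_trans (sum_le_sum fun k hk => ?_) (sum_le_sum_of_subset_of_nonneg
      (s := Icc (b0 - D - H) (b1 - 1 + D + H)) (fun k hk => ?_) fun k _ _ =>
        mul_nonneg C0.le (mul_nonneg (sub_nonneg.2 (X.cl.leg.zm (Nat.sub_le _ _))) (sq_nonneg _)))
    · obtain ⟨h0, h1⟩ := mem_Icc.1 hk
      obtain ⟨-, e2, -⟩ := G.dz (m := m) (a := a) X.cl (k := k) (by omega) (by omega)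
      rw [cq_eq (by omega), ← mul_assoc]
      rw [div_le_iff₀' C0] at e2
      exact mul_le_mul_of_nonneg_right e2 (sq_nonneg _)
    · obtain ⟨h0, h1⟩ := mem_Icc.1 hk
      obtain ⟨e1, e2⟩ := G.rg k (by omega) (by omega)
      exact mem_filter.2 ⟨mem_Ioo.2 ⟨by omega, by omega⟩, by linarith, by linarith⟩
  have s2 : ∑ k ∈ Icc (b0 - D) (b1 - 1 + D), S.v * τ k ^ 2 ≤ 272 * S.C * Pt := by
    have e1 := G.sum_c X.cl (sq_nonneg r)
    rw [sum_const, Nat.card_Icc, nsmul_eq_mul] at e1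
    have e2 : 4 * S.C * t * r ^ 2 = 4 * S.C * Pt := by rw [r2]; field_simp
    rw [← mul_sum] at s1 ⊢
    nlinarith [mul_le_mul_of_nonneg_left a4 v0.le]
  have s4 : ∑ k ∈ Icc (b0 - D) (b1 - 1 + D), S.v * τ k ^ 4 ≤ (L * l) ^ 2 * (272 * S.C * Pt) := by
    refine le_trans ?_ (mul_le_mul_of_nonneg_left s2 (sq_nonneg _))
    rw [mul_sum]
    refine sum_le_sum fun k _ => ?_
    have := τ0 k
    calc _ = τ k ^ 2 * (S.v * τ k ^ 2) := by ring
      _ ≤ _ := by gcongr; exact τl k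
  have s0 : ∑ k ∈ Icc (b0 - D) (b1 - 1 + D), S.v * τ k ^ 0 ≤ 4 * S.C * t * 1 := by
    simp only [pow_zero]
    exact G.sum_c X.cl zero_le_one
  have x1 : L * K ≤ L ^ 2 := by rw [sq]; gcongr; linarith
  have p4 := X.p4
  refine ⟨fun k => L * K * τ k, fun k => ⟨by have := τ0 k; positivity, ?_⟩, o1,
    (o2 _ s2).trans ?_, (o3 0 (by omega) _ s0).trans ?_, (o3 2 (by omega) _ s2).trans ?_,
    (o3 4 p4 _ s4).trans ?_⟩
  · calc L * K * τ k ≤ L ^ 2 * (L * l) := mul_le_mul x1 (τl k) (τ0 k).le (by positivity)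
      _ = L ^ 3 * l := by ring
      _ ≤ _ := by gcongr; norm_num
  · calc _ = (L * K) ^ 2 * (272 * S.C ^ 2) * Pt := by ring
      _ ≤ (L ^ 2) ^ 2 * L * Pt := by gcongr; nlinarith
      _ = L ^ 5 * Pt := by ring
      _ ≤ _ := by gcongr; norm_num
  · calc _ = L * K * (8 * S.C ^ 2) * S.w3 t * t := by ring
      _ ≤ L ^ 2 * L * S.w3 t * max t l := by gcongr; exacts [by nlinarith, le_max_left _ _]
      _ = L ^ 3 * S.w3 t * max t l := by ring
      _ ≤ _ := by have : 0 ≤ max t l := le_max_of_le_right l0.le; gcongr; norm_num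
  · calc _ = (L * K) ^ 3 * (544 * S.C ^ 2) * S.w3 t * Pt := by ring
      _ ≤ (L ^ 2) ^ 3 * L * S.w3 t * Pt := by gcongr; nlinarith
      _ = L ^ 7 * S.w3 t * Pt := by ring
      _ ≤ _ := by gcongr; norm_num
  · calc _ = (L * K) ^ 5 * (544 * S.C ^ 2) * L ^ 2 * S.w3 t * (Pt * l ^ 2) := by ring
      _ ≤ (L ^ 2) ^ 5 * L * L ^ 2 * S.w3 t * (Pt * l ^ 2) := by gcongr; nlinarith
      _ = L ^ 13 * S.w3 t * (Pt * l ^ 2) := by ring
      _ ≤ _ := by gcongr; norm_num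

end Cx

theorem n_t (h : Cl S M) (hθ : S.C * S.θ ≤ 1 / 2) (h0 : 0 < t) (hw : S.w3 t ≤ t ^ 3) :
    1 ≤ S.n * t := by
  have n1 : (1 : ℝ) ≤ S.n := by exact_mod_cast h.n1
  have m0 := h.ms_pos h0.le
  have m1 : S.ms t ≤ 1 := (h.ms1 t).trans (by nlinarith [h.C1, h.θ0])
  rw [Sc.w3, div_le_iff₀ (by positivity)] at hw
  by_contra hc
  push Not at hc
  have t1 : t ≤ 1 := by nlinarith
  have : t ^ 3 * (S.n * t * S.ms t) ≤ 1 * (S.n * t * 1) := by
    gcongr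
    exact pow_le_one₀ h0.le t1
  linarith [h.F1]

end B78

open B78

/-- **one sloped block** -/
theorem blkE_of (H : CruS) : BlkE := fun p hp => by
  refine (diag fun C => (qSyncS' (32 * max C 1) p (by linarith [le_max_right C 1])).and
    (CIn12.env_syn 3 (32 * max C 1) (by linarith [le_max_right C 1]))).glue' (i := 1)
    (R := fun E Λ S M m a => ∀ l Φ P l0 Λ₀ Λ₁ Pt Vt u1 V4,
      KN S M E l Φ P l0 Λ₀ Λ₁ Pt Vt u1 V4 → LK S M m a Φ P l0 Λ₁ Pt Vt u1 →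
      ∀ t, l0 ≤ t → t ≤ T0 S M → 0 < t → 0 < S.w3 t → 0 < l → 0 ≤ P t → Out p Λ S M m a l (P t) t)
    (fun E Λ Λ' S M m a _ hΛ h l Φ P l0 Λ₀ Λ₁ Pt Vt u1 V4 N Lk t h0 h1 a1 a2 a3 a4 =>
      (h l Φ P l0 Λ₀ Λ₁ Pt Vt u1 V4 N Lk t h0 h1 a1 a2 a3 a4).mono hΛ a3.le a4 a2.le)
    0 le_rfl 1 16 (fun C A ε η hε hη => ?_) |>.mono
    fun E Λ S M m a _ _ h I R l Φ P l0 Λ₀ Λ₁ Pt Vt u1 V4 N Lk t h0 h1 => ?_
  · obtain ⟨K, K1, H⟩ := H C
    refine ⟨600 * C ^ 2 * K, fun S M m a G _ j1 j2 h I Q => ?_⟩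
    intro l Φ P l0 Λ₀ Λ₁ Pt Vt u1 V4 N Lk t h0 h1 t0 w0 l0' P0
    rw [Nat.cast_one, one_mul] at j1 j2
    rw [pow_one] at N
    rw [max_eq_left h.C1] at Q
    have n1 : (1 : ℝ) ≤ S.n := by exact_mod_cast h.n1
    have LE : (S.n : ℝ) ^ η ≤ (S.n : ℝ) ^ ε := rpow_le_rpow_of_exponent_le n1 j1
    have Ln : (S.n : ℝ) ^ η ≤ S.n := (rpow_le_rpow_of_exponent_le n1 j2).trans_eq (rpow_one _)
    have L1 := G.Λ1
    have hL := G.K_le
    have hθ := G.Cθ h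
    have v0 := h.v0
    have C1 := h.C1
    rw [← G.hC] at hL
    set L := (S.n : ℝ) ^ η
    set E := (S.n : ℝ) ^ ε
    have vn : S.v * S.n ^ 2 ≤ S.C := le_trans (mul_le_mul_of_nonneg_left
      (pow_le_pow_right₀ n1 (G.hA ▸ G.A2)) v0.le) h.v2
    have sJ := h.s_le_C h.i3
    have tC : t ≤ S.C := by rw [T0] at h1; linarith
    have s0 := h.s_nn S.jl
    have hw := N.w0 t (by linarith [N.jl]) tC
    have l1 : l ≤ 1 := (le_mul_of_one_le_left l0'.le (L1.trans LE)).trans N.l1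
    have vl : S.v ≤ l := ((N.Pw l le_rfl (l1.trans C1)).2.trans (N.PΦ l)).trans
      (N.l3 ▸ pow_le_of_le_one l0'.le l1 (by norm_num))
    obtain ⟨c1, c2⟩ := H S M G.hC h m a I l (by linarith [N.jl, N.l0l]) vl N.flat
      (Lk.tot.trans_eq N.l3.symm)
    have vt : 32 * S.C * S.v ≤ t := by
      have a1 := n_t h hθ t0 hw
      have a2 : S.v * S.n * (600 * S.C ^ 2) ≤ S.C := by
        calc _ ≤ S.v * S.n * S.n := by gcongr; nlinarith [sq_nonneg S.C]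
          _ ≤ _ := by rw [mul_assoc, ← sq]; exact vn
      have a3 : 600 * S.C * (S.v * S.n) ≤ 1 :=
        le_of_mul_le_mul_left (a := S.C) (by linarith) h.C0
      calc _ ≤ 32 * S.C * S.v * (S.n * t) := le_mul_of_one_le_right (by positivity) a1
        _ = 32 * S.C * (S.v * S.n) * t := by ring
        _ ≤ 1 * t := by gcongr; nlinarith [mul_pos (mul_pos h.C0 v0) h.N0]
        _ = t := one_mul _
    obtain ⟨b0, b1, D, Ge⟩ := geo h t0 (N.jl.trans h0) h1 vt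
    have X : B78.Cx p L K S M m a l t b0 b1 D := ⟨h, I, Ge, hθ, K1, hL, hp,
      fun _ _ _ _ _ _ H => ⟨Q.1 _ _ _ _ _ _ H, Q.2 _ _ _ _ _ _ H⟩, l0', hw, c1, c2⟩
    rcases le_total t (L * l) with ht | ht
    · rw [N.Plo t (ht.trans (by gcongr)), ← N.l3]
      exact X.low ht
    · obtain ⟨q1, q2⟩ := N.Pw t ((le_mul_of_one_le_left l0'.le L1).trans ht) tC
      exact X.high ht tC (le_trans (by gcongr) vn) ((N.PΦ t).trans_eq N.l3.symm) q1 q2
        (Lk.blk t h0 h1)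
  · have s0 : 0 < M.s S.jl := h.s_pos (h.i0.trans h.i1)
    have t0 : 0 < t := by linarith [N.jl]
    exact R l Φ P l0 Λ₀ Λ₁ Pt Vt u1 V4 N Lk t h0 h1 t0
      (div_pos (by linarith [h.F1]) (mul_pos (mul_pos h.N0 t0) (h.ms_pos t0.le)))
      (by linarith [N.jl, N.l0l])
      (le_trans (sum_nonneg fun k _ => mul_nonneg (sub_nonneg.2 (h.leg.zm (Nat.sub_le _ _)))
        (sq_nonneg _)) (Lk.blk t h0 h1))

theorem blkE : BlkE := blkE_of cruS

theorem blkS_of (H : CruS) : BlkS := (blkE_of H).blkS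

theorem blkS : BlkS := blkE.blkS

end Crest.Agent.T156.Alt.R62

end
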