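import Crest.Agent.T156.LPt_57

/-!
# Row 156: the weighted Riccati sum on the top zone (helper57)
-/

set_option autoImplicit false
set_option linter.unusedSectionVars false
set_option linter.unusedVariables false
set_option maxHeartbeats 400000

noncomputable section

namespace Crest.Agent.T156.Alt.R62

open Real Finset Filter
open Crest.Agent.T156.Alt.C33 Crest.Agent.T156.Alt.Md67 Crest.Agent.T156.Alt.Pl57

/-- the weight -/
def hw (S : Sc) (M : Md) (Pt : ℝ) (k : ℕ) : ℝ :=
  1 / (|M.z (k - 1) - M.z (S.J - 1)| + pp Pt) + 1 / du M k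

theorem logsum {M : Md} (hz : Monotone M.z) {c : ℝ} {i j : ℕ} (h : i ≤ j) (hc : 0 < du M j + c) :
    ∑ k ∈ Ico i j, lw M k * (1 / (du M k + c)) ≤ log ((du M i + c) / (du M j + c)) := by
  have an : ∀ k ≤ j, 0 < du M k + c := fun k hk => by
    have := hz (show k - 1 ≤ j - 1 by omega)
    unfold du at *; linarith
  have e := tel (fun k => -log (du M k + c)) h
  rw [log_div (an i h).ne' hc.ne', ← neg_sub_neg, ← e]
  refine sum_le_sum fun k hk => ?_
  have d0 := an k (mem_Ico.1 hk).2.le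
  have d1 := an (k + 1) (mem_Ico.1 hk).2
  have d : lw M k = du M k - du M (k + 1) := by simp [du, lw]
  have f := log_le_sub_one_of_pos (show 0 < (du M (k + 1) + c) / (du M k + c) by positivity)
  rw [log_div d1.ne' d0.ne', div_sub_one d0.ne',
    show du M (k + 1) + c - (du M k + c) = -(du M k - du M (k + 1)) by ring, neg_div] at f
  rw [d, mul_one_div]
  linarith

namespace Tx

variable {lam : ℝ} {S : Sc} {M : Md} {m : ℕ} {a E l Φ : ℝ} {P : ℝ → ℝ} {l0 Λ₀ Λ₁ Pt Vt u1 V4 : ℝ}
  (X : Tx lam S M m a E l Φ P l0 Λ₀ Λ₁ Pt Vt u1 V4) {kb n k0 b1 k1 : ℕ}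
  (I : Ix S M Pt u1 kb n k0 b1 k1)
include X I

omit I in
theorem logv : log (30 / S.v) ≤ lam ^ 3 / 8 := by
  have v0 := X.h.v0
  have C0 := X.h.C0
  have n1 := X.F.n1
  have big := X.big
  have e : 30 / S.v ≤ 30 * S.C * (S.n : ℝ) ^ S.A := by
    have e1 := X.h.v1
    rw [div_le_iff₀ C0] at e1
    rw [div_le_iff₀ v0]
    nlinarith
  refine (log_le_log (by positivity) e).trans ?_
  rw [log_mul (by positivity) (by positivity), log_pow]
  have e1 := log_le_sub_one_of_pos (show 0 < 30 * S.C by positivity)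
  have e2 : (S.A : ℝ) * log S.n ≤ lam * lam :=
    mul_le_mul X.Al X.lg (log_nonneg n1) (by linarith)
  nlinarith [X.Cl, mul_le_mul_of_nonneg_right big (show 0 ≤ lam * lam by positivity)]

theorem dup {k : ℕ} (h : k ≤ k1) : 0 < du M k :=
  lt_of_lt_of_le (by linarith [X.h.v0, X.kn.u1P.1]) (I.p4 k h)

theorem hw0 {k : ℕ} (h : k ≤ k1) : 0 < hw S M Pt k := by
  have := X.dup I h
  have := X.p0
  unfold hw; positivity

theorem sum_hw : ∑ k ∈ Ico k0 (k1 + 1), lw M k * hw S M Pt k ≤ lam ^ 3 := by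
  have p0 := X.p0
  have P0 := X.P0
  have v0 := X.h.v0
  have kJ := I.k0J
  have Jk := X.Jk I
  have kp := I.kp
  have u1' := X.kn.u1P.1
  have vp := X.vp
  have L := X.logv
  have j1 : 1 ≤ S.J := by have := X.h.i2; omega
  have s1 : ∑ k ∈ Ico k0 (k1 + 1), lw M k * (1 / du M k) ≤ 2 * log (30 / S.v) := by
    have d1 := X.du0 (k1 + 1)
    have e := logsum X.h.leg.zm (c := S.v / 4) (show k0 ≤ k1 + 1 by omega) (by positivity)
    have e2 : log ((du M k0 + S.v / 4) / (du M (k1 + 1) + S.v / 4)) ≤ log (30 / S.v) := by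
      refine log_le_log (by have := X.du0 k0; positivity) ?_
      rw [div_le_div_iff₀ (by positivity) v0]
      nlinarith [X.du1 k0, X.p1]
    refine le_trans ?_ (mul_le_mul_of_nonneg_left (e.trans e2) zero_le_two)
    rw [mul_sum]
    refine sum_le_sum fun k hk => ?_
    have := I.p4 k (by have := (mem_Ico.1 hk).2; omega)
    rw [mul_left_comm]
    refine mul_le_mul_of_nonneg_left ?_ (X.lw0 k)
    rw [mul_one_div, div_le_div_iff₀ (by linarith) (by linarith)]
    linarith
  have s2 : ∑ k ∈ Ico k0 S.J, lw M k * (1 / (|M.z (k - 1) - M.z (S.J - 1)| + pp Pt)) ≤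
      log (30 / S.v) := by
    have e := logsum X.h.leg.zm (c := pp Pt - du M S.J) kJ.le (by linarith)
    refine le_trans (le_of_eq (sum_congr rfl fun k hk => ?_)) (e.trans (log_le_log ?_ ?_))
    · have := X.h.leg.zm (show k - 1 ≤ S.J - 1 by have := (mem_Ico.1 hk).2; omega)
      rw [abs_of_nonpos (by linarith)]
      unfold du; congr 2; ring
    · have := X.du_anti kJ.le
      exact div_pos (by linarith) (by linarith)
    · rw [div_le_div_iff₀ (by linarith) v0]
      nlinarith [X.du1 k0, X.p1, X.du0 S.J]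
  have s3 : ∑ k ∈ Ico S.J (k1 + 1), lw M k * (1 / (|M.z (k - 1) - M.z (S.J - 1)| + pp Pt)) ≤
      4 * log (30 / S.v) := by
    have e := tel (fun k => log (dl S M k + pp Pt)) (show S.J ≤ k1 + 1 by omega)
    have d0 := X.dl0 le_rfl
    have d1 := X.dl0 (show S.J ≤ k1 + 1 by omega)
    have e2 : log ((dl S M (k1 + 1) + pp Pt) / (dl S M S.J + pp Pt)) ≤ log (30 / S.v) := by
      gcongr
      exacts [by linarith [X.dl2 (k1 + 1), X.p1], by linarith]
    rw [log_div (by positivity) (by positivity), ← e] at e2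
    refine le_trans ?_ (mul_le_mul_of_nonneg_left e2 (by norm_num))
    rw [mul_sum]
    refine sum_le_sum fun k hk => ?_
    obtain ⟨a1, a2⟩ := mem_Ico.1 hk
    have d0 := X.dl0 a1
    have w0 := X.lw0 k
    have w1 := (X.lw_le a1 (by omega)).trans (min_le_left _ _)
    have d : dl S M (k + 1) = dl S M k + lw M k := by simp [dl, lw]; ring
    have f := one_sub_inv_le_log_of_pos
      (show 0 < (dl S M k + lw M k + pp Pt) / (dl S M k + pp Pt) by positivity)
    have x0 := x_ge X.h a1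
    rw [d, ← log_div (by positivity) (by positivity), abs_of_nonneg (by linarith)]
    refine le_trans ?_ (mul_le_mul_of_nonneg_left f (by positivity))
    rw [inv_div, one_sub_div (by positivity), ← mul_div_assoc, ← mul_div_assoc,
      div_le_div_iff₀ (by linarith) (by positivity)]
    have up := X.up
    unfold dl at *
    nlinarith [mul_nonneg w0 (show 0 ≤ 4 * (M.z (k - 1) - M.z (S.J - 1) + pp Pt) -
      (M.z (k - 1) - M.z (S.J - 1) + S.u0 + lw M k + pp Pt) by linarith)]
  simp only [hw, mul_add, sum_add_distrib]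
  rw [← sum_Ico_consecutive _ kJ.le (show S.J ≤ k1 + 1 by omega)]
  linarith [pow_pos (show 0 < lam by linarith [X.big]) 3]

variable {T : ℕ → ℝ} (Y : TT lam S M m a Λ₀ Λ₁ Pt Vt k0 k1 T)
include Y

theorem T_slp {k : ℕ} (h0 : k0 ≤ k) (h1 : k < S.J) : S.C * (T k / (lam ^ 12 * Λ₀)) ≤ pp Pt / 2 := by
  have e := Y.sl k h0 h1
  have kp := I.kp
  have Jk := X.Jk I
  have p0 := X.p0
  have big := X.big
  have l1 := X.l1
  have v0 := X.h.v0
  have L0 : 1 ≤ Λ₀ := X.kn.L1.1.trans X.kn.L1.2.1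
  have e1 := Env96.ev_le_sup (f := M.rb m a) (q := M.q) (g := S.C * S.v) (c := 3 * (S.C * S.v))
    (a := k0) (b := S.J - 1) (k := k) (D := lam ^ 2 * pp Pt) (fun y _ b => X.qs y (by omega))
    (by linarith [mul_pos X.h.C0 v0]) (fun i a' b => X.sup I a' (by omega)) h0 (by omega)
  have e2 := X.sup I h0 h1.le
  have e3 : max (lam ^ 7 * pp Pt - ((S.J : ℝ) - k) * S.v) 0 ≤ lam ^ 8 * pp Pt := by
    have f : (k : ℝ) ≤ S.J := by exact_mod_cast h1.le
    have : lam ^ 7 * pp Pt ≤ lam ^ 8 * pp Pt := by gcongr; norm_num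
    exact max_le (by nlinarith) (by positivity)
  have e4 : lam ^ 8 * √Pt ≤ lam ^ 8 * pp Pt := by gcongr; exact X.sp
  have e5 : lam ^ 2 * pp Pt ≤ lam ^ 8 * pp Pt := by gcongr; norm_num
  have e6 : T k ≤ 5 * (lam ^ 8 * pp Pt) := by linarith
  have t0 := X.T0' I Y h0 (by omega)
  calc _ ≤ lam * (5 * (lam ^ 8 * pp Pt) / (lam ^ 12 * 1)) := by gcongr; exact X.Cl
    _ = 5 / lam ^ 3 * pp Pt := by field_simp
    _ ≤ 1 / 2 * pp Pt := by
        gcongr ?_ * _
        rw [div_le_div_iff₀ (by positivity) two_pos]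
        linarith [le_self_pow₀ l1 (n := 3) (by norm_num)]
    _ = _ := by ring

theorem majh {y y' : ℕ} (a0 : k0 ≤ y) (a1 : y ≤ k1) (b0 : k0 ≤ y') (b1' : y' ≤ k1)
    (hy : |(y : ℝ) - y'| * S.v ≤ T y' / (lam ^ 12 * Λ₀)) :
    hw S M Pt y ≤ lam ^ 2 * hw S M Pt y' := by
  have h := X.h
  have C1 := h.C1
  have C0 := h.C0
  have v0 := h.v0
  have kp := I.kp
  have Jk := X.Jk I
  have p0 := X.p0
  have up := X.up
  have jl : S.j0 < k0 := by have := h.i1; have := I.jl; have := I.e0; omega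
  have d0 := X.dup I a1
  have d1 := X.dup I b1'
  have dJ := X.duJ
  have key : |M.z (y' - 1) - M.z (S.J - 1)| + pp Pt ≤ 2 * (|M.z (y - 1) - M.z (S.J - 1)| + pp Pt) ∧
      du M y' ≤ 2 * S.C * du M y := by
    have g0 := abs_nonneg (M.z (y - 1) - M.z (S.J - 1))
    rcases lt_or_ge y' S.J with c' | c'
    · have r := (mul_le_mul_of_nonneg_left hy C0.le).trans (X.T_slp I Y b0 c')
      have zt : ∀ i j : ℕ, k0 ≤ i → i ≤ j → j ≤ S.J →
          M.z (j - 1) - M.z (i - 1) ≤ S.C * (((j : ℝ) - i) * S.v) := fun i j a' b c => by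
        have := (h.z_tel (i := i - 1) (j := j - 1) (by omega) (by omega) (by omega)).2
        rw [Nat.cast_sub (by omega), Nat.cast_sub (by omega)] at this
        push_cast at this
        linarith
      rcases lt_or_ge y S.J with c | c
      · have e1 : |M.z (y' - 1) - M.z (y - 1)| ≤ pp Pt / 2 := by
          refine le_trans ?_ r
          rcases le_total y y' with e | e
          · have f : (y : ℝ) ≤ y' := by exact_mod_cast e
            rw [abs_of_nonneg (sub_nonneg.2 (h.leg.zm (by omega))), abs_of_nonpos (by linarith),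
              neg_sub]
            exact zt y y' a0 e c'.le
          · have f : (y' : ℝ) ≤ y := by exact_mod_cast e
            rw [abs_of_nonpos (sub_nonpos.2 (h.leg.zm (by omega))), abs_of_nonneg (by linarith),
              neg_sub]
            exact zt y' y b0 e c.le
        refine ⟨by linarith [abs_sub_le (M.z (y' - 1)) (M.z (y - 1)) (M.z (S.J - 1))], ?_⟩
        nlinarith [X.du1 y', mul_le_mul_of_nonneg_left (X.du_anti c.le) C0.le]
      · have f1 : (S.J : ℝ) ≤ y := by exact_mod_cast c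
        have f2 : (y' : ℝ) ≤ S.J := by exact_mod_cast c'.le
        have L := (X.L1 I).1
        have e := X.sh' I Y le_rfl Jk c a1 (by
          have e := Y.lip y' S.J
          rw [abs_of_nonneg (by linarith), le_div_iff₀ (by positivity)] at hy ⊢
          rw [abs_of_nonpos (by linarith)] at e
          linarith)
        have e1 := zt y' S.J b0 c'.le le_rfl
        rw [abs_of_nonneg (by linarith)] at r
        have e2 : S.C * (((S.J : ℝ) - y') * S.v) ≤ S.C * (((y : ℝ) - y') * S.v) := by gcongr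
        rw [abs_of_nonpos (sub_nonpos.2 (h.leg.zm (by omega)))]
        refine ⟨by linarith, ?_⟩
        have e3 : uu S M (M.z (S.J - 1)) ≤ du M S.J := min_le_right _ _
        have e4 : du M S.J ≤ 2 * du M y := by
          have := le_abs_self (M.z (y - 1) - M.z (S.J - 1))
          unfold du at *; linarith
        nlinarith [X.du1 y', mul_le_mul_of_nonneg_left e4 C0.le]
    · have x0 := x_ge h c'
      have b3 : uu S M (M.z (y' - 1)) ≤ dl S M y' := min_le_left _ _
      have b4 : uu S M (M.z (y' - 1)) ≤ du M y' := min_le_right _ _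
      rw [abs_of_nonneg (by linarith)]
      rcases lt_or_ge y S.J with c | c
      · have f1 : (S.J : ℝ) ≤ y' := by exact_mod_cast c'
        have f2 : (y : ℝ) ≤ S.J := by exact_mod_cast c.le
        have e := X.sh' I Y c' b1' le_rfl Jk (le_trans (by
          gcongr ?_ * _
          rw [abs_of_nonpos (by linarith), abs_of_nonpos (by linarith)]; linarith) hy)
        have e1 := (abs_le.1 e).1
        have e2 := X.du_anti (c.le.trans c')
        refine ⟨by unfold dl at *; linarith, by nlinarith⟩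
      · obtain ⟨e1, e2⟩ := abs_le.1 (X.sh' I Y c' b1' c a1 hy)
        have e3 := le_abs_self (M.z (y - 1) - M.z (S.J - 1))
        refine ⟨by unfold dl at *; linarith, ?_⟩
        have : du M y' ≤ 2 * du M y := by unfold du at *; linarith
        nlinarith
  have l2 : 2 * S.C ≤ lam ^ 2 := by rw [sq]; gcongr; exacts [by linarith [X.big], by linarith [X.big], X.Cl]
  unfold hw
  rw [mul_add]
  refine add_le_add ?_ ?_ <;> rw [mul_one_div, div_le_div_iff₀ (by positivity) (by positivity)]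
  · nlinarith [key.1, mul_le_mul_of_nonneg_right (show 2 ≤ lam ^ 2 by linarith)
      (show 0 ≤ |M.z (y - 1) - M.z (S.J - 1)| + pp Pt by positivity)]
  · nlinarith [key.2, mul_le_mul_of_nonneg_right l2 d0.le]

theorem gsq {p : ℕ} (Q : QOG (200 * S.C ^ 5) (lam * (200 * S.C ^ 5)) p S M m a 1 k0 k1
      M.q (fun k => T k / (lam ^ 12 * Λ₀)) T) :
    ∑ k ∈ tz S M u1, M.dz m a k * (hw S M Pt k * ja M m a 0 k) ≤ lam ^ 100 * Λ₀ * S.w3 1 := by
  classical
  have h := X.h
  have C1 := h.C1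
  have v0 := h.v0
  have big := X.big
  have l1 := X.l1
  have kJ := I.k0J
  have Jb := I.Jb
  have bk := I.bk
  have L0 : 1 ≤ Λ₀ := X.kn.L1.1.trans X.kn.L1.2.1
  have w0 := X.F.w3_pos one_pos
  have jl : 0 < k0 := by have := I.jl; have := I.e0; omega
  set K := 200 * S.C ^ 5 with hK
  have K0 : 0 < K := by positivity
  have Kl : lam * K ≤ lam ^ 7 := by
    rw [show lam ^ 7 = lam * (lam * lam ^ 5) by ring, hK]
    gcongr
    exacts [by linarith, X.Cl]
  have gap : 1 / K ≤ ((k1 : ℝ) + 1 - b1) * S.v := by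
    have e := I.gap
    have f : (b1 : ℝ) ≤ k1 := by exact_mod_cast bk
    rw [div_le_iff₀ K0]
    have : S.C ^ 3 ≤ S.C ^ 5 := pow_le_pow_right₀ C1 (by norm_num)
    nlinarith [mul_le_mul_of_nonneg_right this (show 0 ≤ ((k1 : ℝ) + 1 - b1) * S.v by
      have : 0 ≤ (k1 : ℝ) + 1 - b1 := by linarith
      positivity)]
  set n0 := ⌈1 / K / S.v⌉₊ with hn0
  have inn : ∀ k, k0 + n0 ≤ k → k < b1 → Inn K S 1 k0 k1 k := fun k a1 a2 => by
    have f1 : (k0 : ℝ) + n0 ≤ k := by exact_mod_cast a1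
    have f2 : (k : ℝ) + 1 ≤ b1 := by exact_mod_cast a2
    have e := Nat.le_ceil (1 / K / S.v)
    rw [div_le_iff₀ v0] at e
    exact ⟨e.trans (by gcongr ?_ * _; linarith), gap.trans (by gcongr ?_ * _; linarith)⟩
  have sub : ∀ k ∈ tz S M u1, k0 + n0 ≤ k ∧ k < b1 := fun k hk => by
    obtain ⟨e1, e2⟩ := X.tz_mem I hk
    have f : (0 : ℝ) < k - k0 := pos_of_mul_pos_left (lt_of_lt_of_le (by positivity) e2) v0.le
    have f1 : k0 ≤ k := by exact_mod_cast (by linarith : (k0 : ℝ) ≤ k)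
    have : n0 ≤ k - k0 := Nat.ceil_le.2 (by rw [div_le_iff₀ v0, Nat.cast_sub f1]; exact e2)
    omega
  have dz : ∀ k, k0 ≤ k → M.dz m a k = lw M k := fun k hk => dz_up h.leg (by omega)
  have W : Wts K S 1 k0 k1 (fun k => T k / (lam ^ 12 * Λ₀)) (k0 + n0) b1 (k1 + 1 - b1)
      (fun y => if y ∈ tz S M u1 then lw M y * hw S M Pt y else 0)
      fun y => lam ^ 6 * (lw M y * |hw S M Pt y|) :=
    ⟨fun k a1 a2 => ⟨inn k a1 a2, (min_le_right _ _).trans (by
        rw [Nat.cast_sub (by omega)]; push_cast; exact gap)⟩, by omega,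
      fun y => by
        split_ifs with c
        exacts [mul_nonneg (X.lw0 y) (X.hw0 I (by have := sub y c; omega)).le, le_rfl],
      fun y => by have := X.lw0 y; positivity,
      fun y y' a1 a2 a3 a4 hy => by
        have f0 := X.hw0 I (k := y) (by omega)
        have f1 := X.lw0 y'
        refine le_trans (by split_ifs; exacts [le_rfl, mul_nonneg (X.lw0 y) f0.le])
          ((mul_le_mul (X.maj I Y (by omega) (by omega) (by omega) (by omega) hy)
            (X.majh I Y (by omega) (by omega) (by omega) (by omega) hy) f0.le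
            (by positivity)).trans (le_of_eq ?_))
        rw [abs_of_pos (X.hw0 I (by omega))]; ring, by omega⟩
  have e := Q.jnt _ _ _ _ _ W 0 (Nat.zero_le _)
  rw [show b1 + (k1 + 1 - b1) = k1 + 1 by omega] at e
  have e1 : ∑ k ∈ tz S M u1, M.dz m a k * (hw S M Pt k * ja M m a 0 k) = ∑ y ∈ Ico (k0 + n0) b1,
      (if y ∈ tz S M u1 then lw M y * hw S M Pt y else 0) * ja M m a 0 y := by
    simp only [ite_mul, zero_mul]
    rw [← sum_filter, filter_mem_eq_inter, inter_eq_right.2 fun k hk => mem_Ico.2 (sub k hk)]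
    exact sum_congr rfl fun k hk => by rw [dz k (by have := sub k hk; omega), mul_assoc]
  have e2 : ∑ y ∈ Ico (k0 + n0) (k1 + 1), lam ^ 6 * (lw M y * |hw S M Pt y|) *
      (T y ^ 0 * (T y / min (T y / (lam ^ 12 * Λ₀)) 1)) ≤ lam ^ 18 * Λ₀ * lam ^ 3 := by
    refine le_trans ?_ (mul_le_mul_of_nonneg_left (X.sum_hw I) (by positivity))
    rw [mul_sum]
    refine le_trans (sum_le_sum fun y hy => le_of_eq ?_) (sum_le_sum_of_subset_of_nonneg
      (Ico_subset_Ico_left (Nat.le_add_right k0 n0)) fun y hy _ => ?_)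
    · have := X.T0' I Y (k := y) (by have := mem_Ico.1 hy; omega) (by have := mem_Ico.1 hy; omega)
      rw [min_eq_left (X.r1 I Y y), abs_of_pos (X.hw0 I (by have := mem_Ico.1 hy; omega))]
      field_simp
    · have := X.hw0 I (k := y) (by have := mem_Ico.1 hy; omega)
      have := X.lw0 y
      positivity
  rw [e1]
  refine e.trans ?_
  calc _ ≤ (lam ^ 7) ^ (0 + 1) * S.w3 1 * (lam ^ 18 * Λ₀ * lam ^ 3) :=
        mul_le_mul_of_nonneg_left e2 (by positivity) |>.trans (by gcongr)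
    _ = lam ^ 28 * Λ₀ * S.w3 1 := by ring
    _ ≤ _ := by gcongr; norm_num

end Tx

/-- **the weighted Riccati sum on the top zone** (the text of `R82.GsqS`) -/
theorem gsq57 : CL fun E Λ S M m a => ∀ l Φ P l0 Λ₀ Λ₁ Pt Vt u1 V4,
    KN S M E l Φ P l0 Λ₀ Λ₁ Pt Vt u1 V4 → LK S M m a Φ P l0 Λ₁ Pt Vt u1 →
    ∑ k ∈ tz S M u1, M.dz m a k * ((1 / (|M.z (k - 1) - M.z (S.J - 1)| + Pt ^ ((1 : ℝ) / 3)) +
      1 / du M k) * ja M m a 0 k) ≤ Λ * Λ₀ * S.w3 1 := by
  intro C
  filter_upwards [eventually_ge_atTop 2] with A hA ε hε η hη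
  set η' := min (min ε η) 1 / 100 with hη'
  have e0 : 0 < η' := by positivity
  filter_upwards [T57.qGenU (le_max_left 1 (200 * C ^ 5)) C hA e0 0, ev_rgc C hA e0 0, ev_fn C hA]
    with n a1 a2 a3 S M e1 e2 e3 h m a I l Φ P l0 Λ₀ Λ₁ Pt Vt u1 V4 kn lk
  have G := a2 S e1 e2 e3
  have F := a3 S M e1 e2 e3 h m a I
  have Q := a1 S M e1 e2 e3 h m a I
  subst e1 e2 e3
  have n1 := G.N1.le
  have pw : ∀ (j : ℕ) (x : ℝ), η' * j ≤ x → ((S.n : ℝ) ^ η') ^ j ≤ (S.n : ℝ) ^ x := fun j x hx => by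
    rw [← rpow_mul_natCast G.N0.le]; exact rpow_le_rpow_of_exponent_le n1 hx
  have m1 := min_le_left (min ε η) 1
  have m2 := min_le_right (min ε η) 1
  have m3 := min_le_left ε η
  have m4 := min_le_right ε η
  have X : Tx ((S.n : ℝ) ^ η') S M m a _ l Φ P l0 Λ₀ Λ₁ Pt Vt u1 V4 :=
    ⟨F, kn, lk, G.num_le, G.C_le h, pw 30 ε (by push_cast; linarith), G.log_le, G.A_le, G.Cθ h,
      (pw 20 1 (by push_cast; linarith)).trans (rpow_one _).le⟩
  obtain ⟨kb, n, k0, b1, k1, J⟩ := X.ex_ix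
  obtain ⟨T, Y⟩ := X.ex_tt J
  rw [max_eq_right (by nlinarith [one_le_pow₀ (n := 5) h.C1])] at Q
  have L := pw 100 η (by push_cast; linarith)
  have L0 : 1 ≤ Λ₀ := kn.L1.1.trans kn.L1.2.1
  have w0 := F.w3_pos one_pos
  exact (X.gsq J Y (Q _ _ _ _ _ _ _ (X.qg J Y))).trans (by gcongr)

end Crest.Agent.T156.Alt.R62

end
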