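import Crest.Agent.T156.R1SDB_56
import Crest.Agent.T156.CLfB_24
import Crest.Agent.T156.LPc_32

/-!
# Row 156 (helper6): pair fluctuations on the blocks and on the top zone (`SD56.PK`)
-/

set_option autoImplicit false
set_option linter.unusedSectionVars false

noncomputable section

namespace Crest.Agent.T156.Alt.R62

open Real Finset Filter
open Crest.Agent.T156.Alt.Md67 Crest.Agent.T156.Alt.SD56 Crest.Agent.T156.Alt.Lb24

/-- **pair fluctuations from location** -/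
def PKS : Prop := CL fun E Λ S M m a => ∀ l Φ P l0 Λ₀ Λ₁ Pt Vt u1 V4,
  KN S M E l Φ P l0 Λ₀ Λ₁ Pt Vt u1 V4 → LK S M m a Φ P l0 Λ₁ Pt Vt u1 → PK S M Λ m a l l0 Λ₀ u1

namespace Pk6

theorem rise {r : ℕ → ℝ} (hr : Monotone r) (r0 : 0 ≤ r 0) {T : Finset ℕ} {x : ℝ} (hx : 0 ≤ x)
    (h : ∀ k ∈ T, r (k + 1) ≤ x) : ∑ k ∈ T, (r (k + 1) - r k) ≤ x := by
  rcases T.eq_empty_or_nonempty with rfl | hT
  · simpa using hx
  refine (sum_le_sum_of_subset_of_nonneg (t := range (T.max' hT + 1))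
    (fun k hk => mem_range.2 (Nat.lt_succ_of_le (T.le_max' k hk)))
    fun k _ _ => sub_nonneg.2 (hr k.le_succ)).trans ?_
  rw [sum_range_sub]
  linarith [h _ (T.max'_mem hT)]

/-- what is used about the scales -/
structure Hy (S : Sc) (M : Md) (m : ℕ) (a E : ℝ) : Prop where
  cl : Cl S M
  inn : S.In m a
  hv : S.v * S.n ≤ S.C
  θ1 : S.θ ≤ 1
  hE : 64 * S.C ^ 4 ≤ E

variable {S : Sc} {M : Md} {m p : ℕ} {a E Λ l Φ l0 Λ₀ Λ₁ Pt Vt u1 V4 : ℝ} {P : ℝ → ℝ} {G : ℕ → ℝ}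

theorem vv_sum (g : Lg M m a) {T : Finset ℕ} {y : ℝ} (y0 : 0 ≤ y) (h : ∀ k ∈ T, 1 ≤ y * M.z k) :
    ∑ k ∈ T, M.dz m a k * vvM M m a k ≤ y * ∑ k ∈ T, M.dz m a k * ja M m a 0 k := by
  rw [mul_sum]
  refine sum_le_sum fun k hk => ?_
  have e : ja M m a 0 k = Cost41.aM M m a k := JA_zero (M.q k) k
  have a1 := mul_le_mul_of_nonneg_left (vv_aa g k) y0
  have a2 := le_mul_of_one_le_left (vvM_nn (M := M) (m := m) (a := a) k) (h k hk)
  rw [e, mul_left_comm]
  exact mul_le_mul_of_nonneg_left (by linarith) (g.dz_nonneg k)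

theorem pf_sum (T : Finset ℕ) : ∑ k ∈ T, M.dz m a k * M.pf m a k =
    ∑ k ∈ T, M.dz m a k * tcM M m a k + 2 * ∑ k ∈ T, M.dz m a k * vvM M m a k := by
  rw [mul_sum, ← sum_add_distrib]
  exact sum_congr rfl fun k _ => by
    show _ * (tcM M m a k + 2 * vvM M m a k) = _
    ring

namespace Hy

variable (X : Hy S M m a E)
include X

theorem lg : Lg M m a := lg_cl X.cl X.cl.n1 X.inn

/-- `tr C²` at one node -/
theorem tcy {k : ℕ} (k0 : S.jl ≤ k) (k1 : k < S.Jp) {y w : ℝ} (hy : 1 ≤ y * M.z k)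
    (hw : S.F / (S.n * S.ms (M.s k)) ≤ w) :
    S.v * tcM M m a k ≤ 4 * S.C * y ^ 2 * w * (M.rb m a (k + 1) - M.rb m a k) := by
  have h := X.cl
  have h1 := tc_node X.lg (k1.trans h.i4)
  have h2 := h.flr k k0 k1
  have C0 := h.C0
  have v0 := h.v0
  have F1 := h.F1
  have N0 := h.N0
  have ms := h.ms_pos (h.s_nn k)
  have ms1 := (h.ms1 (M.s k)).trans X.θ1
  have mn : (S.n : ℝ) ≤ m := Nat.cast_le.2 X.inn.m1
  have t0 := tcM_nn (M := M) (m := m) (a := a) k
  have d0 := sub_nonneg.2 (rb_mono (M := M) (a := a) X.lg.m0 k.le_succ)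
  rw [div_le_iff₀ (by positivity)] at hw h2
  have hH : 0 < M.H (k + 1) - M.H k := pos_of_mul_pos_left ((mul_pos ms v0).trans_le h2) (by positivity)
  have w0 : 0 < w := pos_of_mul_pos_left (one_pos.trans_le (F1.trans hw)) (by positivity)
  generalize M.H (k + 1) - M.H k = D at *
  generalize M.rb m a (k + 1) - M.rb m a k = Δ at *
  generalize tcM M m a k = τ at *
  have a1 : S.v ≤ S.C * w * (D * m) := by
    refine le_of_mul_le_mul_left ?_ ms
    calc _ ≤ D * (S.C * S.F) := h2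
      _ ≤ D * (S.C * (w * (m * S.ms (M.s k)))) := by gcongr; exact hw.trans (by gcongr)
      _ = _ := by ring
  have a2 : S.v ≤ S.C * w := by
    refine le_of_mul_le_mul_right (X.hv.trans ?_) N0
    have : 1 ≤ w * S.n := F1.trans (hw.trans (by
      gcongr; exact mul_le_of_le_one_right N0.le ms1))
    nlinarith
  have D0 : 0 < D * m := mul_pos hH (N0.trans_le mn)
  generalize D * m = e at *
  have a3 : S.v * (M.z k ^ 2 * τ) ≤ 4 * S.C * w * Δ := by
    refine le_of_mul_le_mul_left ?_ D0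
    calc e * (S.v * (M.z k ^ 2 * τ)) = S.v * (e * (M.z k ^ 2 * τ)) := by ring
      _ ≤ S.v * ((2 + 2 * e) * Δ) := by gcongr
      _ = 2 * (S.v * Δ) + 2 * (S.v * (e * Δ)) := by ring
      _ ≤ 2 * (S.C * w * e * Δ) + 2 * (S.C * w * (e * Δ)) := by gcongr
      _ = _ := by ring
  calc S.v * τ ≤ (y * M.z k) ^ 2 * (S.v * τ) :=
        le_mul_of_one_le_left (by positivity) (one_le_pow₀ hy)
    _ = y ^ 2 * (S.v * (M.z k ^ 2 * τ)) := by ring
    _ ≤ y ^ 2 * (4 * S.C * w * Δ) := by gcongr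
    _ = _ := by ring

variable (N : KN S M E l Φ P l0 Λ₀ Λ₁ Pt Vt u1 V4)
include N

theorem l00 : 0 < l0 := by linarith [X.cl.s_pos (X.cl.i0.trans X.cl.i1), N.jl]
theorem lp : 0 < l := (X.l00 N).trans_le N.l0l
theorem lC : 64 * S.C ^ 4 * l ≤ 1 := (mul_le_mul_of_nonneg_right X.hE (X.lp N).le).trans N.l1
theorem l1 : l ≤ 1 := by nlinarith [X.lC N, one_le_pow₀ (n := 4) X.cl.C1, X.lp N]
theorem Pt0 : 0 < Pt := X.cl.v0.trans_le N.Ptw.2

theorem vl : S.v ≤ l := by
  have := N.Ptw.2.trans (N.PtΦ.trans N.l3.ge)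
  exact this.trans (pow_le_of_le_one (X.lp N).le (X.l1 N) (by norm_num))

theorem sJ : 1 ≤ 2 * S.C ^ 2 * M.s S.J := by
  have h := X.cl
  have i1 := h.i1
  have i2 := h.i2
  have a1 := h.atom.1
  have a2 := (h.z_s (k := S.J - 1) (by omega) (by omega)).2
  have a3 := h.sm (Nat.sub_le S.J 1)
  have C0 := h.C0
  have c4 : S.C ^ 2 ≤ S.C ^ 4 := pow_le_pow_right₀ h.C1 (by norm_num)
  rw [div_le_iff₀ C0] at a1
  have a4 : S.C ^ 2 * S.v ≤ S.C ^ 4 * l := by gcongr; exacts [h.v0.le, X.vl N]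
  have a5 := mul_le_mul_of_nonneg_right a2 C0.le
  have a6 := mul_le_mul_of_nonneg_left a3 (sq_nonneg S.C)
  nlinarith [X.lC N]

omit X in
theorem q_pl {k : ℕ} (k0 : S.J ≤ k) (k1 : k ≤ S.Jp) : M.q k = M.q S.J := by
  rw [Md.q, Md.q, N.flat k k0 k1]

theorem nxt {k : ℕ} (hk : k ∈ pl S M u1) :
    M.z k - M.z (k - 1) ≤ Pl57.uu S M (M.z (k - 1)) / 2 ∧ k + 1 ∈ pl S M (u1 / 4) := by
  have h := X.cl
  obtain ⟨⟨k0, k1⟩, k2⟩ := mem_pl.1 hk
  have a1 := (h.plat k k0 k1).2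
  have a2 : E * S.v ≤ S.den (M.z (k - 1)) * Pl57.uu S M (M.z (k - 1)) := N.fine k k0 k1
  have a3 : S.C ≤ S.C ^ 4 := le_self_pow₀ h.C1 (by norm_num)
  have a4 : 2 * S.C * S.v ≤ E * S.v := mul_le_mul_of_nonneg_right (by linarith [X.hE, h.C0]) h.v0.le
  have b : M.z k - M.z (k - 1) ≤ Pl57.uu S M (M.z (k - 1)) / 2 :=
    le_of_mul_le_mul_right (by linarith) (h.den0 (M.z (k - 1)))
  have c : Pl57.uu S M (M.z (k - 1)) ≤ 1 - M.z (k - 1) := min_le_right _ _
  have u0 := h.v0.trans_le N.u1P.1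
  unfold du at k2
  refine ⟨b, mem_pl.2 ⟨⟨by omega, lt_of_le_of_ne k1 fun e => ?_⟩, ?_⟩⟩
  · have := h.last
    rw [← e, Nat.add_sub_cancel] at this
    linarith [N.ue]
  · rw [du, Nat.add_sub_cancel]
    linarith

/-- **rises against the density of the clock** -/
theorem shell {r : ℕ → ℝ} (hr : Monotone r) {c B : ℝ} (B0 : 0 ≤ B)
    (hB : ∀ k ∈ pl S M (u1 / 4), |r k - c| ≤ B * ls S M k) :
    ∑ k ∈ pl S M u1, (r (k + 1) - r k) / S.den (M.z (k - 1)) ≤ 8 * S.C ^ 3 * B := by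
  have h := X.cl
  have C0 := h.C0
  have C1 := h.C1
  have u0 := h.v0.trans_le N.u1P.1
  have g0 : ∀ j, 0 ≤ (r (j + 1) - r j) / S.den (M.z (j - 1)) := fun j =>
    div_nonneg (sub_nonneg.2 (hr j.le_succ)) (h.den0 _).le
  have emp : ∀ k, S.J ≤ k → k ∉ pl S M u1 → ∑ j ∈ (pl S M u1).filter (k ≤ ·),
      (r (j + 1) - r j) / S.den (M.z (j - 1)) = 0 := fun k k0 hk =>
    sum_eq_zero fun j hj => (hk <| by
      obtain ⟨j1, j2⟩ := mem_filter.1 hj
      obtain ⟨⟨-, j3⟩, j4⟩ := mem_pl.1 j1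
      exact mem_pl.2 ⟨⟨k0, j2.trans_lt j3⟩, j4.trans
        (sub_le_sub_left (h.leg.zm (Nat.sub_le_sub_right j2 1)) 1)⟩).elim
  have du0 : ∀ k, 0 ≤ 8 * S.C ^ 3 * B * du M k := fun k =>
    mul_nonneg (by positivity) (sub_nonneg.2 (h.leg.z1 _))
  have key : ∀ n k, S.J ≤ k → S.Jp ≤ k + n → ∑ j ∈ (pl S M u1).filter (k ≤ ·),
      (r (j + 1) - r j) / S.den (M.z (j - 1)) ≤ 8 * S.C ^ 3 * B * du M k := by
    intro n
    induction n with
    | zero =>
      intro k k0 hk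
      rw [emp k k0 fun e => by have := (mem_pl.1 e).1.2; omega]
      exact du0 k
    | succ n ih =>
      intro k k0 hk
      by_cases hp : k ∈ pl S M u1
      swap
      · rw [emp k k0 hp]
        exact du0 k
      obtain ⟨⟨-, k1⟩, k2⟩ := mem_pl.1 hp
      have x0 := Pl57.x_ge h k0
      have x1 := Pl57.x_lt h k0 k1
      have up := Pl57.uu_pos h N.u0.1 k0 k1
      have lk : ls S M k = S.den (M.z (k - 1)) * Pl57.uu S M (M.z (k - 1)) := rfl
      have ud : Pl57.uu S M (M.z (k - 1)) ≤ du M k := min_le_right _ _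
      have dk : du M k = 1 - M.z (k - 1) := rfl
      have xm : ∀ j, k ≤ j → M.z (k - 1) ≤ M.z (j - 1) := fun j e =>
        h.leg.zm (Nat.sub_le_sub_right e 1)
      generalize M.z (k - 1) = x at *
      have d0 := h.den0 x
      have ex : ∃ i : ℕ, ¬(k + i + 1 ∈ pl S M u1 ∧ M.z (k + i) - x ≤ Pl57.uu S M x / 2) :=
        ⟨S.Jp, fun e => by have := (mem_pl.1 e.1).1.2; omega⟩
      classical
      have hi := Nat.find_spec ex
      have hm := fun i => Nat.find_min ex (m := i)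
      generalize Nat.find ex = i at hi hm
      have grp : ∀ j, k ≤ j → j ≤ k + i → j ∈ pl S M u1 ∧ |M.z (j - 1) - x| ≤ Pl57.uu S M x / 2 := by
        intro j j0 j1
        rw [abs_of_nonneg (sub_nonneg.2 (xm j j0))]
        rcases j0.eq_or_lt with rfl | j2
        · exact ⟨hp, by unfold du at dk; linarith⟩
        · obtain ⟨i', rfl⟩ : ∃ i', j = k + i' + 1 := ⟨j - k - 1, by omega⟩
          exact not_not.1 (hm i' (by omega))
      obtain ⟨j1, j2⟩ := grp (k + i) (by omega) le_rfl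
      obtain ⟨n1, n2⟩ := X.nxt N j1
      obtain ⟨⟨j3, j4⟩, -⟩ := mem_pl.1 j1
      have y0 := Pl57.x_ge h j3
      have ym : M.z (k + i - 1) ≤ M.z (k + i) := h.leg.zm (Nat.sub_le _ _)
      have n3 : |M.z (k + i) - M.z (k + i - 1)| ≤ Pl57.uu S M (M.z (k + i - 1)) / 2 := by
        rwa [abs_of_nonneg (sub_nonneg.2 ym)]
      have c1 := (Pl57.cmp h y0 (Pl57.x_lt h j3 j4) (y0.trans ym) n3).2
      have c2 := (Pl57.cmp h x0 x1 y0 j2).2
      have c3 := Pl57.uu_lip (S := S) (M := M) (M.z (k + i)) (M.z (k + i - 1))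
      have c4 := Pl57.uu_lip (S := S) (M := M) (M.z (k + i - 1)) x
      have c5 : ls S M (k + i + 1) ≤ S.C * (S.C * S.den x) * (9 / 4 * Pl57.uu S M x) :=
        mul_le_mul (c1.trans (by gcongr)) (show Pl57.uu S M (M.z (k + i)) ≤ _ by linarith)
          (Pl57.uu_pos h N.u0.1 (k := k + i + 1) (by omega) (mem_pl.1 n2).1.2).le (by positivity)
      have b1 := (abs_le.1 (hB _ n2)).2
      have b2 := (abs_le.1 (hB k (mem_pl.2 ⟨⟨k0, k1⟩, by linarith⟩))).1
      have s1 : ∑ j ∈ Ico k (k + i + 1), (r (j + 1) - r j) / S.den (M.z (j - 1)) ≤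
          4 * S.C ^ 3 * B * Pl57.uu S M x := by
        refine (sum_le_sum (g := fun j => S.C / S.den x * (r (j + 1) - r j)) fun j hj => ?_).trans ?_
        · obtain ⟨e1, e2⟩ := mem_Ico.1 hj
          obtain ⟨e3, e4⟩ := grp j e1 (by omega)
          have e5 := (Pl57.cmp h x0 x1 (Pl57.x_ge h (mem_pl.1 e3).1.1) e4).1
          rw [div_mul_eq_mul_div, div_le_div_iff₀ (h.den0 _) d0]
          nlinarith [mul_le_mul_of_nonneg_left e5 (sub_nonneg.2 (hr j.le_succ))]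
        rw [← mul_sum, sum_Ico_sub _ (by omega), div_mul_eq_mul_div, div_le_iff₀ d0]
        have e1 : r (k + i + 1) - r k ≤ B * (4 * S.C ^ 2 * (S.den x * Pl57.uu S M x)) := by
          have e2 := mul_le_mul_of_nonneg_left c5 B0
          have e3 : B * (S.den x * Pl57.uu S M x) ≤ S.C ^ 2 * (B * (S.den x * Pl57.uu S M x)) :=
            le_mul_of_one_le_left (by positivity) (one_le_pow₀ C1)
          have e4 : 0 ≤ S.C ^ 2 * (B * (S.den x * Pl57.uu S M x)) := by positivity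
          rw [lk] at b2
          linarith
        exact (mul_le_mul_of_nonneg_left e1 C0.le).trans_eq (by ring)
      have s2 := sum_le_sum_of_subset_of_nonneg (s := (pl S M u1).filter (k ≤ ·))
        (t := Ico k (k + i + 1) ∪ (pl S M u1).filter (k + i + 1 ≤ ·)) (fun j hj => by
          obtain ⟨e1, e2⟩ := mem_filter.1 hj
          rcases lt_or_ge j (k + i + 1) with e | e
          exacts [mem_union_left _ (mem_Ico.2 ⟨e2, e⟩), mem_union_right _ (mem_filter.2 ⟨e1, e⟩)])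
        fun j _ _ => g0 j
      refine s2.trans ((sum_union_le fun j _ => g0 j).trans ?_)
      have p0 : 0 ≤ 4 * S.C ^ 3 * B := by positivity
      rcases not_and_or.1 hi with e | e
      · rw [emp _ (by omega) e]
        linarith [mul_le_mul_of_nonneg_left ud p0, du0 k]
      · have e1 := ih (k + i + 1) (by omega) (by omega)
        rw [du, Nat.add_sub_cancel] at e1
        rw [dk]
        linarith [mul_le_mul_of_nonneg_left (not_le.1 e).le p0]
  have := key S.Jp S.J le_rfl (by omega)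
  rw [filter_true_of_mem fun j hj => (mem_pl.1 hj).1.1] at this
  exact this.trans (mul_le_of_le_one_right (by positivity) (sub_le_self _ (h.z_pos _).le))

variable (L : LK S M m a Φ P l0 Λ₁ Pt Vt u1)
include L

theorem top : ∑ y ∈ sb S M (T0 S M / 4) S.C ∪ Icc S.J S.Jp,
    (M.z y - M.z (y - 1)) * |M.del m a y| ^ 2 ≤ Pt := by
  simpa only [sq_abs, lw] using L.top

/-- lower location at the last sloped node -/
theorem lo_J : -M.del m a (S.J - 1) ≤ 4 * S.C * Pt ^ ((1 : ℝ) / 3) := by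
  have h := X.cl
  have v0 := h.v0
  have C0 := h.C0
  have C1 := h.C1
  have P0 := X.Pt0 N
  have p3 : (Pt ^ ((1 : ℝ) / 3)) ^ 3 = Pt := by
    rw [← rpow_natCast, ← rpow_mul P0.le]; norm_num
  have p0 : 0 < Pt ^ ((1 : ℝ) / 3) := by positivity
  have hE := X.top N L
  have vP := N.Ptw.2
  generalize Pt ^ ((1 : ℝ) / 3) = q at *
  have ql : q ≤ l := le_of_pow_le_pow_left₀ three_ne_zero (X.lp N).le
    (p3.le.trans (N.PtΦ.trans N.l3.ge))
  have vq : S.v ≤ q := vP.trans (p3.ge.trans (pow_le_of_le_one p0.le (ql.trans (X.l1 N)) (by norm_num)))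
  obtain ⟨n, n1, n2⟩ : ∃ n : ℕ, q ≤ n * S.v ∧ n * S.v ≤ 2 * q :=
    ⟨⌈q / S.v⌉₊, (div_le_iff₀ v0).1 (Nat.le_ceil _), by
      have := (lt_div_iff₀ v0).1 (sub_lt_iff_lt_add.2 (Nat.ceil_lt_add_one (div_pos p0 v0).le))
      linarith⟩
  have sJ := X.sJ N
  have lC := X.lC N
  have lp := X.lp N
  have s0 : 0 < M.s S.J := h.s_pos (by have := h.i2; omega)
  have e1 : 32 * (S.C * l) ≤ M.s S.J := by
    refine le_of_mul_le_mul_left ?_ (show 0 < 2 * S.C ^ 2 by positivity)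
    have : S.C ^ 3 * l ≤ S.C ^ 4 * l := by gcongr; norm_num
    linarith
  have e2 : ((n : ℝ) + 1) * (S.C * S.v) ≤ 3 * (S.C * l) := by
    have := mul_le_mul_of_nonneg_left (show n * S.v + S.v ≤ 3 * l by linarith) C0.le
    linarith
  have Cl : l ≤ S.C * l := le_mul_of_one_le_left lp.le C1
  have nJ : n + 1 ≤ S.J := by
    by_contra e
    have e3 : (S.J : ℝ) ≤ n + 1 := by exact_mod_cast (not_le.1 e).le
    have := (h.s_bds le_rfl).2.trans (mul_le_mul_of_nonneg_right e3 (by positivity))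
    linarith
  have e4 := (h.s_tel (i := S.J - 1 - n) (j := S.J) (by omega) le_rfl).2
  rw [show (S.J : ℝ) - ((S.J - 1 - n : ℕ) : ℝ) = n + 1 by
    rw [Nat.sub_sub, Nat.cast_sub (by omega)]; push_cast; ring] at e4
  have e5 : S.jl < S.J - 1 - n := h.sm.reflect_lt (by linarith [N.jl, N.l0l])
  have n0 : 0 < n := Nat.cast_pos.1 (pos_of_mul_pos_left (p0.trans_le n1) v0.le)
  have := Pl57.lo_slope h (f := M.del m a) (K := S.C) (l := S.C * q) (kb := S.J - 1 - n)
    (k := S.J - 1) C0.le (h.i1.trans e5.le) n0 (by omega) (by omega) (fun y _ y1 => by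
      have a1 := rb_mono (M := M) (a := a) X.lg.m0 y.le_succ
      have a2 := dq_le h y.le_succ (by have := h.i3; omega)
      have a3 := (h.ss y (by omega)).2
      unfold Md.del
      linarith) (fun y hy => by
      obtain ⟨y0, y1⟩ := mem_Ioc.1 hy
      have := h.sm y0.le
      exact mem_union_left _ (mem_sb.2 ⟨⟨by omega, by omega⟩, by unfold T0; linarith,
        h.s_le_C (by have := h.i3; omega)⟩)) two_ne_zero hE (by positivity) (by
      calc Pt = q ^ 2 * q := by rw [← p3]; ring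
        _ ≤ 2 * S.C * q ^ 2 * (n * S.v) := by gcongr; nlinarith [sq_nonneg q]
        _ = _ := by field_simp)
  linarith [mul_le_mul_of_nonneg_left n2 C0.le]

/-- **location on the plateau** -/
theorem loc_pl {k : ℕ} (hk : k ∈ pl S M (u1 / 4)) :
    |M.del m a k| ≤ 10 * S.C * tau S M Λ₁ Pt Vt k := by
  have h := X.cl
  have C1 := h.C1
  obtain ⟨⟨k0, k1⟩, -⟩ := mem_pl.1 hk
  have i2 := h.i2
  have P0 := X.Pt0 N
  have hE := X.top N L
  have lo := X.lo_J N L
  have ls0 : 0 < ls S M k := Pl57.ls_pos h N.u0.1 k0 k1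
  have du0 : 0 < du M k := sub_pos.2 (Pl57.x_lt h k0 k1)
  have x0 := Pl57.x_ge h k0
  have dl0 : 0 < dl S M k := by unfold dl; linarith [N.u0.1]
  have rm := rb_mono (M := M) (a := a) X.lg.m0
  have dm : ∀ i j, S.J ≤ i → i ≤ j → j ≤ S.Jp → M.del m a i ≤ M.del m a j := fun i j b c d => by
    rw [Md.del, Md.del, q_pl N b (c.trans d), q_pl N (b.trans c) d]
    exact sub_le_sub_right (rm c) _
  have v1 : 0 ≤ Vt + Λ₁ * ls S M k := add_nonneg N.Vt0 (mul_nonneg (by linarith [N.L1.1]) ls0.le)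
  have u1 : M.del m a k ≤ 2 * √(Pt / du M k) :=
    Pl57.persist h.leg.zm (a := k - 1) (b := S.Jp) (by omega)
      (fun y hy => mem_union_right _ (by simp only [mem_Ioc, mem_Icc] at *; omega)) two_ne_zero hE du0
      (by rw [h.top _ le_rfl]; unfold du at *; linarith) (sqrt_nonneg _)
      (by rw [sq_sqrt (by positivity), div_mul_cancel₀ _ du0.ne'])
      fun y b c => (dm k y k0 (by omega) c).trans (le_abs_self _)
  have u2 : M.del m a k ≤ 2 * min (√(Pt / du M k)) (Vt + Λ₁ * ls S M k) := by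
    rw [mul_min_of_nonneg _ _ zero_le_two]
    exact le_min u1 (by linarith [L.up k hk])
  have m0 : 0 ≤ min (√(Pt / du M k)) (Vt + Λ₁ * ls S M k) := le_min (sqrt_nonneg _) v1
  have p3 : (Pt ^ ((1 : ℝ) / 3)) ^ 3 = Pt := by
    rw [← rpow_natCast, ← rpow_mul P0.le]; norm_num
  have p0 : 0 < Pt ^ ((1 : ℝ) / 3) := by positivity
  unfold tau
  generalize Pt ^ ((1 : ℝ) / 3) = q at *
  have uq : S.u0 ≤ q := le_of_pow_le_pow_left₀ three_ne_zero p0.le (N.u0.2.trans p3.ge)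
  have r0 := sqrt_nonneg (Pt / (dl S M k + q))
  have l1 : -M.del m a k ≤ 10 * S.C * √(Pt / (dl S M k + q)) := by
    rcases le_total (3 * q) (dl S M k) with e | e
    · refine le_trans (Pl57.persist h.leg.zm (a := S.J - 1) (b := k - 1) (W := dl S M k + q) (by omega)
        (fun y hy => mem_union_right _ (by simp only [mem_Ioc, mem_Icc] at *; omega)) two_ne_zero hE
        (by positivity) (by unfold dl at *; linarith) r0
        (by rw [sq_sqrt (by positivity), div_mul_cancel₀ _ (by positivity)])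
        fun y b c => (neg_le_neg (dm y k (by omega) (by omega) k1.le)).trans (neg_le_abs _)) ?_
      gcongr
      linarith
    · have e1 : q / 2 ≤ √(Pt / (dl S M k + q)) := le_sqrt_of_sq_le (by
        rw [le_div_iff₀ (by positivity), ← p3]
        nlinarith [mul_le_mul_of_nonneg_left e (sq_nonneg q)])
      have ql : q ≤ l := le_of_pow_le_pow_left₀ three_ne_zero (X.lp N).le
        (p3.le.trans (N.PtΦ.trans N.l3.ge))
      have vq : S.v ≤ q := N.Ptw.2.trans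
        (p3.ge.trans (pow_le_of_le_one p0.le (ql.trans (X.l1 N)) (by norm_num)))
      have a1 := rm (show S.J - 1 ≤ k by omega)
      have a2 := dq_le h (Nat.sub_le S.J 1) h.i3
      have a3 := (h.ss (S.J - 1) (by omega)).2
      rw [show S.J - 1 + 1 = S.J by omega] at a3
      rw [Md.del] at lo
      rw [Md.del, q_pl N k0 k1.le]
      linarith [mul_le_mul_of_nonneg_left e1 h.C0.le, mul_le_mul_of_nonneg_left vq h.C0.le]
  have C0 := h.C0
  refine abs_le.2 ⟨?_, ?_⟩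
  · nlinarith [mul_nonneg C0.le m0, mul_nonneg C0.le ls0.le]
  · nlinarith [mul_nonneg C0.le r0, mul_nonneg C0.le ls0.le, le_mul_of_one_le_left m0 C1]

variable (K : MK S M p Λ m a l Φ P l0 Λ₀ Pt u1 V4 G) (Λ1 : 1 ≤ Λ)
include K Λ1

theorem pkb {t : ℝ} (t0 : l0 ≤ t) (t1 : t ≤ T0 S M) :
    ∑ k ∈ sb S M t (2 * t), M.dz m a k * M.pf m a k ≤
      116 * S.C ^ 7 * Λ * S.w3 t * max t l / t := by
  have h := X.cl
  have C0 := h.C0
  have C1 := h.C1
  have tp := (X.l00 N).trans_le t0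
  have lp := X.lp N
  have N0 := h.N0
  have F1 := h.F1
  have ms := h.ms_pos tp.le
  have w0 : 0 ≤ S.w3 t := by unfold Sc.w3; positivity
  have m1 := le_max_left t l
  have m2 := le_max_right t l
  have hz : ∀ k ∈ sb S M t (2 * t), 1 ≤ 2 * S.C ^ 2 / t * M.z k := fun k hk => by
    obtain ⟨⟨k0, k1⟩, k2, -⟩ := mem_sb.1 hk
    have a1 := (h.z_tel h.i1 k0.le k1).1
    have a2 := (h.s_tel k0.le k1.le).2
    have a3 : S.C ^ 2 * (((k : ℝ) - S.jl) * (S.v / S.C)) = (k - S.jl) * (S.C * S.v) := by field_simp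
    have a4 := mul_le_mul_of_nonneg_left a1 (sq_nonneg S.C)
    have a5 := mul_nonneg (sq_nonneg S.C) (h.z_pos S.jl).le
    rw [div_mul_eq_mul_div, le_div_iff₀ tp]
    linarith [N.jl]
  have a1 := (vv_sum X.lg (by positivity) hz).trans
    (mul_le_mul_of_nonneg_left (K.a0 t t0 t1) (by positivity))
  have a2 : ∑ k ∈ sb S M t (2 * t), M.dz m a k * tcM M m a k ≤
      16 * S.C ^ 6 * S.w3 t / t * (7 * S.C * max t l) := by
    refine (sum_le_sum (g := fun k => 16 * S.C ^ 6 * S.w3 t / t *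
      (M.rb m a (k + 1) - M.rb m a k)) fun k hk => ?_).trans ?_
    · obtain ⟨⟨k0, k1⟩, k2, -⟩ := mem_sb.1 hk
      have b1 := X.tcy k0.le (k1.trans_le h.i3) (hz k hk) (w := t * S.w3 t) (by
        have := h.msm k2
        calc _ ≤ S.F / (S.n * S.ms t) := by gcongr
          _ = _ := by unfold Sc.w3; field_simp)
      have b2 := (h.zs (k - 1) (by have := h.i1; omega) (by omega)).2
      rw [show k - 1 + 1 = k by omega, ← dz_up (m := m) (a := a) h.leg (by omega)] at b2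
      calc _ ≤ S.C * S.v * tcM M m a k := mul_le_mul_of_nonneg_right b2 (tcM_nn k)
        _ ≤ S.C * _ := (mul_assoc _ _ _).trans_le (mul_le_mul_of_nonneg_left b1 C0.le)
        _ = _ := by field_simp; ring
    rw [← mul_sum]
    refine mul_le_mul_of_nonneg_left (rise (rb_mono X.lg.m0) (rb_nonneg X.lg.m0 0) (by positivity)
      fun k hk => ?_) (by positivity)
    obtain ⟨⟨k0, k1⟩, -, k2⟩ := mem_sb.1 hk
    have b1 := (abs_le.1 (sup_del h X.lg.m0 (by linarith [N.jl, N.l0l, h.s_nn S.jl]) (X.vl N) N.flat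
      (L.tot.trans N.l3.ge) (k := k + 1) (by omega) k1)).2
    have b2 := h.q_le_s (k := k + 1) (Nat.succ_le_of_lt (k1.trans h.J_lt))
    have b3 := (h.ss k k1).2
    have b4 := mul_le_mul_of_nonneg_left ((X.vl N).trans m2) C0.le
    have b5 := mul_le_mul_of_nonneg_left m2 C0.le
    have b6 := le_mul_of_one_le_left (tp.le.trans m1) C1
    rw [Md.del] at b1
    linarith
  rw [pf_sum]
  have p0 : 0 ≤ S.w3 t * max t l / t := by positivity
  have c1 : S.C ^ 7 ≤ S.C ^ 7 * Λ := le_mul_of_one_le_right (by positivity) Λ1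
  have c2 : S.C ^ 2 * Λ ≤ S.C ^ 7 * Λ := by gcongr; norm_num
  calc _ ≤ (112 * S.C ^ 7 + 4 * (S.C ^ 2 * Λ)) * (S.w3 t * max t l / t) :=
        (add_le_add a2 (mul_le_mul_of_nonneg_left a1 zero_le_two)).trans_eq (by ring)
    _ ≤ 116 * (S.C ^ 7 * Λ) * (S.w3 t * max t l / t) := by gcongr ?_ * _; linarith
    _ = _ := by ring

theorem pkc : ∑ k ∈ tz S M u1, M.dz m a k * M.pf m a k ≤
    2 ^ 33 * S.C ^ 16 * Λ * Λ₀ * S.w3 1 := by
  have h := X.cl
  have C0 := h.C0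
  have C1 := h.C1
  have N0 := h.N0
  have F1 := h.F1
  have ms := h.ms_pos zero_le_one
  have w0 : 0 ≤ S.w3 1 := by unfold Sc.w3; positivity
  have L1 : 1 ≤ Λ₀ := N.L1.1.trans N.L1.2.1
  have sJ := X.sJ N
  have hs : ∀ k ∈ tz S M u1, 1 ≤ 32 * S.C ^ 2 * M.s k ∧ S.jl ≤ k ∧ k < S.Jp := fun k hk => by
    rcases mem_union.1 hk with e | e
    · obtain ⟨⟨k0, k1⟩, k2, -⟩ := mem_sb.1 e
      have := mul_le_mul_of_nonneg_left k2 (sq_nonneg S.C)
      exact ⟨by unfold T0 at this; linarith, k0.le, k1.trans_le h.i3⟩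
    · obtain ⟨⟨k0, k1⟩, -⟩ := mem_pl.1 e
      have := mul_le_mul_of_nonneg_left (h.sm k0) (sq_nonneg S.C)
      have := mul_nonneg (sq_nonneg S.C) (h.s_nn k)
      exact ⟨by linarith, h.jl_lt.le.trans k0, k1⟩
  have hz : ∀ k ∈ tz S M u1, 1 ≤ 64 * S.C ^ 3 * M.z k := fun k hk => by
    rcases lt_or_ge k S.J with e | e
    · have a1 := (h.z_s (h.i1.trans (hs k hk).2.1) e).1
      rw [sub_le_iff_le_add, div_le_iff₀ C0] at a1
      have a2 := mul_le_mul_of_nonneg_left a1 (sq_nonneg S.C)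
      have a3 := mul_le_mul_of_nonneg_left (X.vl N) (pow_pos C0 4).le
      linarith [(hs k hk).1, X.lC N]
    · have a1 := h.atom.1.trans (h.leg.zm ((Nat.sub_le _ _).trans e))
      rw [div_le_iff₀' C0] at a1
      have a2 : S.C * M.z k ≤ S.C ^ 3 * M.z k :=
        mul_le_mul_of_nonneg_right (le_self_pow₀ C1 (by norm_num)) (h.z_pos k).le
      linarith
  have ht : ∀ k ∈ tz S M u1, S.C * S.v * tcM M m a k ≤
      2 ^ 26 * S.C ^ 12 * S.w3 1 * (M.rb m a (k + 1) - M.rb m a k) := fun k hk => by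
    obtain ⟨k0, k1, k2⟩ := hs k hk
    have b1 := X.tcy k1 k2 (hz k hk) (w := 4096 * S.C ^ 4 * S.w3 1) (by
      have m0 := h.ms_pos (h.s_nn k)
      have e := (h.msm k0).trans (h.ms_mul (h.s_nn k) (k := 32 * S.C ^ 2)
        (by linarith [one_le_pow₀ (n := 2) C1]))
      rw [Sc.w3, ← mul_div_assoc, div_le_div_iff₀ (by positivity) (by positivity)]
      calc _ = S.F * S.n * S.ms 1 := by ring
        _ ≤ S.F * S.n * (4 * (32 * S.C ^ 2) ^ 2 * S.ms (M.s k)) := by gcongr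
        _ = _ := by ring)
    exact (mul_assoc _ _ _).trans_le ((mul_le_mul_of_nonneg_left b1 C0.le).trans_eq (by ring))
  have a1 := (vv_sum X.lg (by positivity) hz).trans (mul_le_mul_of_nonneg_left K.c0 (by positivity))
  have a2 : ∑ k ∈ sb S M (T0 S M) S.C, M.dz m a k * tcM M m a k ≤
      2 ^ 26 * S.C ^ 12 * S.w3 1 * 1 := by
    refine (sum_le_sum (g := fun k => 2 ^ 26 * S.C ^ 12 * S.w3 1 *
      (M.rb m a (k + 1) - M.rb m a k)) fun k hk => ?_).trans ?_
    · obtain ⟨⟨k0, k1⟩, -⟩ := mem_sb.1 hk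
      have b2 := (h.zs (k - 1) (by have := h.i1; omega) (by omega)).2
      rw [show k - 1 + 1 = k by omega, ← dz_up (m := m) (a := a) h.leg (by omega)] at b2
      exact (mul_le_mul_of_nonneg_right b2 (tcM_nn k)).trans (ht k (mem_union_left _ hk))
    rw [← mul_sum]
    exact mul_le_mul_of_nonneg_left (rise (rb_mono X.lg.m0) (rb_nonneg X.lg.m0 0) zero_le_one
      fun k _ => rb_le_one X.lg.m0 _) (by positivity)
  have a3 : ∑ k ∈ pl S M u1, M.dz m a k * tcM M m a k ≤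
      2 ^ 26 * S.C ^ 12 * S.w3 1 * (8 * S.C ^ 3 * (10 * S.C * Λ₀)) := by
    refine (sum_le_sum (g := fun k => 2 ^ 26 * S.C ^ 12 * S.w3 1 *
      ((M.rb m a (k + 1) - M.rb m a k) / S.den (M.z (k - 1)))) fun k hk => ?_).trans ?_
    · obtain ⟨⟨k0, k1⟩, -⟩ := mem_pl.1 hk
      have b2 := (h.plat k k0 k1).2
      rw [← dz_up (m := m) (a := a) h.leg (by have := h.i2; omega)] at b2
      rw [← mul_div_assoc, le_div_iff₀ (h.den0 _), mul_right_comm]
      exact (mul_le_mul_of_nonneg_right b2 (tcM_nn k)).trans (ht k (mem_union_right _ hk))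
    rw [← mul_sum]
    refine mul_le_mul_of_nonneg_left (X.shell N (rb_mono X.lg.m0) (c := M.q S.J) (by positivity)
      fun k hk => ?_) (by positivity)
    have e := (X.loc_pl N L hk).trans (mul_le_mul_of_nonneg_left (N.cap k hk) (by positivity))
    rw [Md.del, q_pl N (mem_pl.1 hk).1.1 (mem_pl.1 hk).1.2.le] at e
    exact e.trans_eq (by ring)
  have a4 := (sum_union_le (U := sb S M (T0 S M) S.C) fun k _ =>
    mul_nonneg (X.lg.dz_nonneg k) (tcM_nn (M := M) (m := m) (a := a) k)).trans (add_le_add a2 a3)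
  rw [pf_sum]
  have c1 : S.C ^ 12 * S.w3 1 ≤ S.C ^ 16 * (Λ * Λ₀ * S.w3 1) := by
    gcongr
    exacts [by norm_num, le_mul_of_one_le_left w0 (one_le_mul_of_one_le_of_one_le Λ1 L1)]
  have c2 : S.C ^ 16 * (Λ₀ * S.w3 1) ≤ S.C ^ 16 * (Λ * Λ₀ * S.w3 1) := by
    gcongr
    exact le_mul_of_one_le_left (by linarith) Λ1
  have c3 : S.C ^ 3 * (Λ * Λ₀ * S.w3 1) ≤ S.C ^ 16 * (Λ * Λ₀ * S.w3 1) := by
    gcongr
    norm_num
  have c4 : 0 ≤ S.C ^ 16 * (Λ * Λ₀ * S.w3 1) := by positivity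
  unfold tz at *
  linarith

/-- **pair fluctuations** -/
theorem pk {Λ' : ℝ} (e : 2 ^ 33 * S.C ^ 16 * Λ ≤ Λ') : PK S M Λ' m a l l0 Λ₀ u1 := by
  have h := X.cl
  have C1 := h.C1
  have N0 := h.N0
  have F1 := h.F1
  have L1 : 1 ≤ Λ₀ := N.L1.1.trans N.L1.2.1
  refine ⟨fun t t0 t1 => (X.pkb N L K Λ1 t0 t1).trans ?_, (X.pkc N L K Λ1).trans ?_⟩
  · have tp := (X.l00 N).trans_le t0
    have ms := h.ms_pos tp.le
    have w0 : 0 ≤ S.w3 t := by unfold Sc.w3; positivity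
    have : 116 * S.C ^ 7 * Λ ≤ 2 ^ 33 * S.C ^ 16 * Λ := by gcongr <;> norm_num [C1]
    gcongr
    linarith
  · have ms := h.ms_pos zero_le_one
    have w0 : 0 ≤ S.w3 1 := by unfold Sc.w3; positivity
    gcongr

end Hy

end Pk6

theorem pkS_of (H : MomS) : PKS := by
  refine (H 4 le_rfl).glue fun C => ⟨0, fun A _ ε η hε hη => ⟨ε, min ε (η / 2), 2 ^ 33 * C ^ 16, hε,
    by positivity, fun S M m a R h I g l Φ P l0 Λ₀ Λ₁ Pt Vt u1 V4 N L => ?_⟩⟩
  obtain ⟨-, G, K⟩ := g l Φ P l0 Λ₀ Λ₁ Pt Vt u1 V4 N L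
  have e := R.K_le
  rw [← R.hC] at e
  have C1 := h.C1
  have N1 := R.N1.le
  have e1 := rpow_le_rpow_of_exponent_le N1 (min_le_left ε (η / 2))
  have e2 := rpow_le_rpow_of_exponent_le N1 (min_le_right ε (η / 2))
  have X : Pk6.Hy S M m a ((S.n : ℝ) ^ ε) := ⟨h, I, le_trans (mul_le_mul_of_nonneg_left
    (le_self_pow₀ N1 (by have := R.A2; have := R.hA; omega)) h.v0.le) h.v2, R.θ1 h,
    le_trans (by gcongr <;> norm_num [C1]) (e.trans e1)⟩
  refine X.pk N L K R.Λ1 ?_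
  calc _ ≤ (S.n : ℝ) ^ (η / 2) * (S.n : ℝ) ^ (η / 2) := mul_le_mul (e.trans e2) e2 (R.rp0 _).le (R.rp0 _).le
    _ = _ := by rw [← rpow_add R.N0, add_halves]

end Crest.Agent.T156.Alt.R62

end
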