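import Crest.Agent.T156.LPm_17
import Crest.Agent.T156.LPe_12

/-!
# Row 156: the envelope kit from its blocks, `momE_of` (helper17)
-/

set_option autoImplicit false

noncomputable section

namespace Crest.Agent.T156.Alt.R62

open Real Finset Filter
open Crest.Agent.T156.Cas Crest.Agent.T156.Cas.Lp12 Crest.Agent.T156.Alt.Md67

namespace M17

variable {S : Sc} {M : Md} {m p : ℕ} {a : ℝ}

/-- the least envelope -/
def ee (S : Sc) (M : Md) (m : ℕ) (a : ℝ) (k : ℕ) : ℝ := sInf {g | 0 ≤ g ∧ Env S M m a k g}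

theorem env_two (h : Cl S M) {k : ℕ} (hk : k ≤ M.N) : Env S M m a k 2 :=
  (CIn12.env_triv (by
    rw [abs_of_nonneg (h.q_nn hk)]; linarith [Cl.q_le_one (M := M) k])).trans (CIn12.tlD_nn S 3)

theorem ee_le {k : ℕ} {g : ℝ} (g0 : 0 ≤ g) (H : Env S M m a k g) : ee S M m a k ≤ g :=
  csInf_le ⟨0, fun _ hx => hx.1⟩ ⟨g0, H⟩

theorem env_ee (h : Cl S M) {k : ℕ} (hk : k ≤ M.N) : Env S M m a k (ee S M m a k) := by
  refine le_of_forall_pos_le_add fun ε hε => ?_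
  obtain ⟨g, ⟨-, H⟩, e⟩ := exists_lt_of_csInf_lt (s := {g | 0 ≤ g ∧ Env S M m a k g})
    ⟨2, zero_le_two, env_two h hk⟩ (lt_add_of_pos_right (ee S M m a k) hε)
  refine (E2_mono (g := fun R => max (|R - M.q k| - g) 0 + ε) (fun r _ => max_le ?_ ?_) k).trans ?_
  · linarith [le_max_left (|r - M.q k| - g) 0]
  · linarith [le_max_right (|r - M.q k| - g) 0]
  · rw [E2_add, E2_const]
    exact add_le_add_left H _

/-- the majorant with the envelope -/
def GE (S : Sc) (M : Md) (m : ℕ) (a : ℝ) (p k : ℕ) : ℝ :=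
  min 2 (max (GG S M m a p k) (ee S M m a k))

end M17

open M17

theorem momE_of (hC : CruS) (hB : BlkE) (hT : TopBE) : MomE := fun p hp => by
  refine ((((hB p hp).and (hT p hp)).and (C33.qLowS p)).and (CIn12.env_cl 3)).glue fun C =>
    ⟨0, fun A _ ε η hε hη => ?_⟩
  obtain ⟨K, K1, hK⟩ := hC C
  refine ⟨ε, η / 19, K, hε, by positivity, fun S M m a R h I ⟨⟨⟨b, t⟩, q⟩, e⟩
    l Φ P l0 Λ₀ Λ₁ Pt Vt u1 V4 N L => ?_⟩
  obtain ⟨e19, E1, l0', sl, w, cr, cnt⟩ := side hε R h rfl N L (hK S M R.hC h m a I)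
  have p0 : p ≠ 0 := by omega
  rw [e19]
  refine ⟨cr _ (le_self_pow₀ R.Λ1 (by norm_num)), GE S M m a p, mk_of
    (Q := fun k g => Ok M m a p k g ∧ Env S M m a k g)
    (fun k => lt_min two_pos ((GG_pos h k).trans_le (le_max_left _ _))) (fun _ => min_le_left _ _)
    (fun k hk => (GG_ok h (lg_cl h h.n1 I).m0 p0 hk).mono
      (le_min (min_le_left _ _) (le_max_left _ _)))
    (fun H => ⟨H.1.2.nn, (min_le_right _ _).trans (max_le (GG_le p0 H.1)
      ((ee_le H.1.2.nn H.2).trans (le_max_right _ _)))⟩) h I E1 R.num_le (R.C_le h) cnt N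
    (fun k hk D d1 d2 => ?_) (b l Φ P l0 Λ₀ Λ₁ Pt Vt u1 V4 N L) (t l Φ P l0 Λ₀ Λ₁ Pt Vt u1 V4 N L),
    fun k _ hk => (env_ee h hk).mono
      (le_min (ee_le zero_le_two (env_two h hk)) (le_max_right _ _))⟩
  obtain ⟨b2, b3⟩ := q _ l l0' sl w (cr _ le_rfl) k hk
  exact ⟨ok_of p0 (h.q_nn hk) d1 (b2.mono d2) (b3.trans (pow_le_pow_left₀ b2.nn d2 _)),
    e _ l l0' sl w (cr _ le_rfl) k _ _ (by rw [abs_of_nonneg (h.q_nn hk)]; linarith)⟩

end Crest.Agent.T156.Alt.R62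

end
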