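import Crest.Agent.T156.R1MsB_38
import Crest.Agent.T156.ErrSA_4

/-!
# Row 156, R1: the sums of moments on the frame (helper4)
-/

set_option autoImplicit false
set_option linter.unusedSectionVars false

noncomputable section

namespace Crest.Agent.T156.Alt.P60

open Real Finset
open Crest.Agent.T156.Alt.Md67 Crest.Agent.T156.Alt.R62 Crest.Agent.T156.Alt.R77
open Crest.Agent.T156.Alt.R82 Crest.Agent.T156.Alt.SD56 Crest.Agent.T156.Alt.E35.S4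

namespace M4

theorem sq_of {c s B : ℝ} (c0 : 0 < c) (B0 : 0 ≤ B) (s0 : 0 ≤ s) (h : s ≤ √(B / c)) :
    c * s ^ 2 ≤ B := by
  have := pow_le_pow_left₀ s0 h 2
  rwa [sq_sqrt (by positivity), le_div_iff₀' c0] at this

variable {E t a a' Q l Φ l0 Λ₀ Pt u1 V4 x : ℝ} {p : Pm} {P : Pl} {m I : ℕ} {S : Sc} {Pf : ℝ → ℝ}
  {G : ℕ → ℝ} (F : Fr E p P t a a' Q m S l Φ Pf l0 Λ₀ Pt u1 V4 I)
include F

/-- the decomposition against a square budget -/
theorem decq {g : ℕ → ℝ} {c B : ℝ} (c0 : 0 < c) (B0 : 0 ≤ B)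
    (g0 : ∀ k ∈ Ioo S.jl (p.gst P t).N, 0 ≤ g k)
    (h1 : ∀ v, 0 ≤ v → c * v ^ 2 = E ^ 4 * B → ∑ k ∈ lz S (p.gst P t) l0, g k ≤ v)
    (h2 : ∀ v, 0 ≤ v → c * v ^ 2 = E ^ 4 * B → ∀ τ, l0 ≤ τ → τ ≤ T0 S (p.gst P t) →
      ∑ k ∈ sb S (p.gst P t) τ (2 * τ), g k ≤ v)
    (h3 : ∀ v, 0 ≤ v → c * v ^ 2 = E ^ 4 * B →
      ∑ k ∈ sb S (p.gst P t) (T0 S (p.gst P t)) S.C ∪ Ico S.J (p.gst P t).N, g k ≤ v) :
    c * (∑ k ∈ Ioo S.jl (p.gst P t).N, g k) ^ 2 ≤ E ^ 10 * B := by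
  have E0 := F.E0
  have v0 := sqrt_nonneg (E ^ 4 * B / c)
  have e : c * √(E ^ 4 * B / c) ^ 2 = E ^ 4 * B := by
    rw [sq_sqrt (by positivity)]; field_simp
  have k := pow_le_pow_left₀ (sum_nonneg g0) (dec F g0 v0 (h1 _ v0 e) (h2 _ v0 e) (h3 _ v0 e)) 2
  refine (mul_le_mul_of_nonneg_left k c0.le).trans (le_of_eq ?_)
  rw [mul_pow, mul_left_comm, e]
  ring

variable (K : MK S (p.gst P t) 8 E m x l Φ Pf l0 Λ₀ Pt u1 V4 G)
include K

theorem d2 {U : Finset ℕ} {B : ℝ} (hU : U ⊆ Ioo S.jl (p.gst P t).N)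
    (h : ∑ k ∈ U, (p.gst P t).dz m x k * G k ^ 2 ≤ B) :
    ∑ k ∈ U, (p.gst P t).dz m x k * |(p.gst P t).del m x k| ^ 2 ≤ 16 * B := by
  refine le_trans ?_ (mul_le_mul_of_nonneg_left h (by norm_num))
  rw [mul_sum]
  refine sum_le_sum fun k hk => ?_
  rw [mul_left_comm]
  exact mul_le_mul_of_nonneg_left ((pow_le_pow_left₀ (abs_nonneg _) (M38.del_le K (hU hk)) 2).trans
    (le_of_eq (by ring))) (dz0 F (hU hk))

theorem tt {U : Finset ℕ} (hU : U ⊆ Ioo S.jl (p.gst P t).N) :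
    ∑ k ∈ U, (p.gst P t).dz m x k * G k ^ 2 ≤ E * Φ :=
  (sum_le_sum_of_subset_of_nonneg hU fun _ hk _ => mul_nonneg (dz0 F hk) (sq_nonneg _)).trans K.tot

theorem d_lo {v : ℝ} (v0 : 0 ≤ v) (h : 48 * E ^ 3 * (l0 * Pf l0) ≤ v ^ 2) :
    ∑ k ∈ lz S (p.gst P t) l0, (p.gst P t).dz m x k * |(p.gst P t).del m x k| ≤ v := by
  have E0 := F.E0
  have l00 := F.l00
  have Φ0 : 0 < Φ := F.nr.l3 ▸ pow_pos F.l0' 3
  refine cs (fun k hk => dz0 F (lz_sub F hk)) (lz_w F l00.le) (d2 F K (lz_sub F) (tt F K (lz_sub F)))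
    v0 (le_trans ?_ h)
  rw [F.nr.Plo l0 F.nr.l0l]
  have : 0 ≤ E ^ 3 * (l0 * Φ) := by positivity
  linarith

theorem d_sb {τ v : ℝ} (h1 : l0 ≤ τ) (h2 : τ ≤ T0 S (p.gst P t)) (v0 : 0 ≤ v)
    (h : 48 * E ^ 3 * (τ * Pf τ) ≤ v ^ 2) :
    ∑ k ∈ sb S (p.gst P t) τ (2 * τ), (p.gst P t).dz m x k * |(p.gst P t).del m x k| ≤ v :=
  cs (fun k hk => dz0 F (sb_sub F.cl hk)) (sb_w F h1) (d2 F K (sb_sub F.cl) (K.b2 τ h1 h2)) v0
    (by linarith)

omit K in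
theorem num {c v B y j : ℝ} (c0 : 0 < c) (B0 : 0 ≤ B) (e : c * v ^ 2 = E ^ 4 * B) (j0 : 0 ≤ j)
    (hj : j ≤ 1000) (h : c * y ≤ B) : j * E ^ 3 * y ≤ v ^ 2 := by
  have E0 := F.E0
  refine le_of_mul_le_mul_left ?_ c0
  rw [e]
  calc _ = j * E ^ 3 * (c * y) := by ring
    _ ≤ j * E ^ 3 * B := by gcongr
    _ ≤ E * E ^ 3 * B := by gcongr; linarith [F.E1]
    _ = _ := by ring

theorem N1 : S.θ * Λ₀ * (∑ k ∈ Ioo S.jl (p.gst P t).N,
    (p.gst P t).dz m x k * |(p.gst P t).del m x k|) ^ 2 ≤ E ^ 10 * ((1 / E ^ 200) ^ 2 * n4 p) := by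
  have E0 := F.E0
  have a4 := F.n40
  have c0 : 0 < S.θ * Λ₀ := mul_pos F.θ0 (by linarith [F.nr.L1])
  have P0 := F.nr.Pt0
  refine decq F c0 (by positivity) (fun k hk => mul_nonneg (dz0 F hk) (abs_nonneg _))
    (fun v v0 e => d_lo F K v0 (num F c0 (by positivity) e (by norm_num) (by norm_num)
      (F.nr.i _ le_rfl (l0_T F))))
    (fun v v0 e τ h1 h2 => d_sb F K h1 h2 v0 (num F c0 (by positivity) e (by norm_num) (by norm_num)
      (F.nr.i τ h1 h2)))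
    fun v v0 e => cs (fun k hk => dz0 F (top_sub F hk)) (F.W.wt_le x (top_sub F))
      (d2 F K (top_sub F) K.t2) v0 (le_trans ?_ (num F (j := 16) (y := Pt) c0 (by positivity) e
        (by norm_num) (by norm_num) (le_trans ?_ F.nr.c)))
  · have := mul_le_mul_of_nonneg_right (le_self_pow₀ F.E1' (show 3 ≠ 0 by norm_num))
      (P0.1.trans P0.2.1)
    linarith
  · exact mul_le_mul_of_nonneg_left (by linarith [pow_pos F.r0 4, P0.1, P0.2.2.2]) c0.le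

theorem Gb (y : ℝ) (hy : l ≤ y) : cum S (p.gst P t) m x y ^ 2 ≤ E ^ 4 * (y * l ^ 3) := by
  have E0 := F.E0
  have l0' := F.l0'
  have y0 := l0'.trans_le hy
  have s : (Ioo S.jl S.J).filter (fun k => (p.gst P t).s k ≤ y) ⊆ lz S (p.gst P t) (2 * y) :=
    fun k hk => mem_filter.2 ⟨(mem_filter.1 hk).1, by linarith [(mem_filter.1 hk).2]⟩
  have s' := s.trans (lz_sub F)
  have k := sq_of one_pos (B := E ^ 4 * (y * l ^ 3)) (by positivity)
    (sum_nonneg fun k hk => mul_nonneg (dz0 (x := x) F (s' hk)) (abs_nonneg ((p.gst P t).del m x k)))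
    (cs (fun k hk => dz0 F (s' hk)) ((sum_le_sum_of_subset_of_nonneg s fun k hk _ =>
      dz0 F (lz_sub F hk)).trans (lz_w F (by positivity))) (d2 F K s' (tt F K s')) (sqrt_nonneg _)
      (by
        rw [sq_sqrt (by positivity), div_one, ← F.nr.l3]
        calc _ = 32 * (E ^ 3 * (y * l ^ 3)) := by ring
          _ ≤ E * (E ^ 3 * (y * l ^ 3)) := by gcongr; linarith [F.E1]
          _ = _ := by ring))
  rwa [one_mul] at k

omit K in
theorem cut_eq (y : ℝ) (g : ℕ → ℝ) :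
    ∑ k ∈ (Ioo S.jl S.J).filter fun k => (p.gst P t).s k ≤ y, g k =
      ∑ k ∈ Ioo S.jl (p.gst P t).N, if k < S.J ∧ (p.gst P t).s k ≤ y then g k else 0 := by
  rw [← sum_filter]
  refine sum_congr ?_ fun _ _ => rfl
  ext k
  have := F.cl.J_lt
  simp only [mem_filter, mem_Ioo]
  exact ⟨fun h => ⟨⟨h.1.1, by omega⟩, h.1.2, h.2⟩, fun h => ⟨⟨h.1.1, h.2.1⟩, h.2.2⟩⟩

omit F K in
theorem cut_le {U V : Finset ℕ} {c : ℕ → Prop} [DecidablePred c] {g : ℕ → ℝ}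
    (g0 : ∀ k ∈ V, 0 ≤ g k) (h : ∀ k ∈ U, c k → k ∈ V) :
    ∑ k ∈ U, (if c k then g k else 0) ≤ ∑ k ∈ V, g k := by
  rw [← sum_filter]
  exact sum_le_sum_of_subset_of_nonneg (fun k hk => h k (mem_filter.1 hk).1 (mem_filter.1 hk).2)
    fun k hk _ => g0 k hk

theorem Ga (y : ℝ) (hy : l ≤ y) (hT : y ≤ T0 S (p.gst P t)) :
    S.ms y * cum S (p.gst P t) m x y ^ 2 ≤ E ^ 10 * ((1 / E ^ 200) ^ 2 * n4 p) * y ^ 2 := by
  have E0 := F.E0
  have a4 := F.n40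
  have l00 := F.l00
  have ly := F.nr.l0l.trans hy
  have c0 := F.cl.ms_pos (l00.le.trans ly)
  have g0 : ∀ k ∈ Ioo S.jl (p.gst P t).N, 0 ≤ (p.gst P t).dz m x k * |(p.gst P t).del m x k| :=
    fun k hk => mul_nonneg (dz0 F hk) (abs_nonneg _)
  have hb := F.nr.b
  have d0 : 0 < (1 / E ^ 200) ^ 2 * n4 p := by positivity
  generalize (1 / E ^ 200) ^ 2 * n4 p = d at hb d0 ⊢
  have k : ∀ v, S.ms y * v ^ 2 = E ^ 4 * (d * y ^ 2) → ∀ τ, l0 ≤ τ → τ ≤ y →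
      48 * E ^ 3 * (τ * Pf τ) ≤ v ^ 2 := fun v e τ h1 h2 => by
    have τ0 := l00.trans_le h1
    have m1 := F.cl.ms_pos τ0.le
    have P0 := (F.nr.P0 τ).1
    have a := F.cl.ms_mul τ0.le ((one_le_div τ0).2 h2)
    rw [div_mul_cancel₀ _ τ0.ne'] at a
    refine le_trans (le_of_eq (by ring)) (num F (j := 192) (y := τ * Pf τ / 4) c0 (by positivity) e
      (by norm_num) (by norm_num) ?_)
    calc _ ≤ 4 * (y / τ) ^ 2 * S.ms τ * (τ * Pf τ / 4) := by gcongr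
      _ = S.ms τ * Pf τ * τ ^ 3 / τ ^ 4 * y ^ 2 := by field_simp
      _ ≤ S.ms τ * Pf τ * max τ l ^ 3 / τ ^ 4 * y ^ 2 := by gcongr; exact le_max_left _ _
      _ ≤ _ := by gcongr; exact hb τ h1 (h2.trans hT)
  rw [cum, cut_eq F, mul_assoc]
  refine decq F c0 (by positivity) (fun k hk => by split_ifs; exacts [g0 k hk, le_rfl])
    (fun v v0 e => (cut_le (fun k hk => g0 k (lz_sub F hk)) fun _ hk _ => hk).trans
      (d_lo F K v0 (k v e _ le_rfl ly)))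
    (fun v v0 e τ h1 h2 => ?_)
    fun v v0 e => (cut_le (fun k hk => g0 k (sb_sub F.cl hk)) fun k hk c => ?_).trans
      (d_sb F K ly hT v0 (k v e _ ly le_rfl))
  · rcases le_or_gt τ y with c | c
    · exact (cut_le (fun k hk => g0 k (sb_sub F.cl hk)) fun _ hk _ => hk).trans
        (d_sb F K h1 h2 v0 (k v e _ h1 c))
    · exact (sum_eq_zero fun k hk => if_neg fun e =>
        absurd ((mem_sb.1 hk).2.1.trans e.2) (not_le.2 c)).trans_le v0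
  · rcases mem_union.1 hk with e | e
    · exact mem_sb.2 ⟨(mem_sb.1 e).1, hT.trans (mem_sb.1 e).2.1, by linarith [c.2]⟩
    · exact absurd c.1 (not_lt.2 (mem_Ico.1 e).1)

theorem A1 (hy : 2 * p.ye < T0 S (p.gst P t)) :
    Λ₀ * (∑ k ∈ (Ioo S.jl S.J).filter fun k => (p.gst P t).s k ≤ 2 * p.ye, (p.gst P t).dz m x k *
      (R82.mt p t ((p.gst P t).s k) * |(p.gst P t).del m x k|)) ^ 2 ≤
      E ^ 10 * (S.θ * ((1 / E ^ 200) ^ 2 * n4 p)) := by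
  have E0 := F.E0
  have a4 := F.n40
  have θ0 := F.θ0
  have l00 := F.l00
  have c0 : 0 < Λ₀ := by linarith [F.nr.L1]
  have g0 : ∀ k ∈ Ioo S.jl (p.gst P t).N, 0 ≤ (p.gst P t).dz m x k *
      (R82.mt p t ((p.gst P t).s k) * |(p.gst P t).del m x k|) :=
    fun k hk => mul_nonneg (dz0 F hk) (mul_nonneg (F.mt0 (F.cl.s_nn k)) (abs_nonneg _))
  have k : ∀ v, Λ₀ * v ^ 2 = E ^ 4 * (S.θ * ((1 / E ^ 200) ^ 2 * n4 p)) → ∀ τ, l0 ≤ τ →
      τ ≤ T0 S (p.gst P t) → 48 * E ^ 3 * (τ * Pf τ) ≤ (v * τ / (4 * S.ms τ)) ^ 2 :=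
    fun v e τ h1 h2 => by
      have τ0 := l00.trans_le h1
      have m1 := F.cl.ms_pos τ0.le
      have a := num F (j := 768) (y := S.ms τ ^ 2 * Pf τ / τ) c0 (by positivity) e (by norm_num)
        (by norm_num) (le_trans (le_of_eq (by ring)) (F.nr.j τ h1 h2))
      calc _ = 768 * E ^ 3 * (S.ms τ ^ 2 * Pf τ / τ) * (τ / (4 * S.ms τ)) ^ 2 := by field_simp; ring
        _ ≤ v ^ 2 * (τ / (4 * S.ms τ)) ^ 2 := by gcongr
        _ = _ := by ring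
  rw [cut_eq F]
  refine decq F c0 (by positivity) (fun k hk => by split_ifs; exacts [g0 k hk, le_rfl])
    (fun v v0 e => (cut_le (fun k hk => g0 k (lz_sub F hk)) fun _ hk _ => hk).trans ?_)
    (fun v v0 e τ h1 h2 => (cut_le (fun k hk => g0 k (sb_sub F.cl hk)) fun _ hk _ => hk).trans ?_)
    fun v v0 e => (sum_eq_zero fun k hk => if_neg fun c => ?_).trans_le v0
  · have m1 := F.cl.ms_pos l00.le
    refine (fac (B := 4 * S.ms l0 / l0) (fun k hk => dz0 F (lz_sub F hk)) (fun _ => abs_nonneg _)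
      (by positivity) (fun k hk => (mt_lo F (mem_filter.1 hk).2.le F.nr.r0
        (F.nr.l0l.trans (l_ye F))).trans (by gcongr; linarith))
      (d_lo F K (by positivity) (k v e _ le_rfl (l0_T F)))).trans (le_of_eq (by field_simp))
  · have τ0 := l00.trans_le h1
    have m1 := F.cl.ms_pos τ0.le
    refine (fac (B := 4 * S.ms τ / τ) (fun k hk => dz0 F (sb_sub F.cl hk)) (fun _ => abs_nonneg _)
      (by positivity) (fun k hk => F.mt_le (F.ms_blk h1 hk) τ0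
        ((mem_sb.1 hk).2.1.trans (le_max_left _ _)) (by positivity))
      (d_sb F K h1 h2 (by positivity) (k v e _ h1 h2))).trans (le_of_eq (by field_simp))
  · rcases mem_union.1 hk with e | e
    · linarith [(mem_sb.1 e).2.1, c.2]
    · exact absurd c.1 (not_lt.2 (mem_Ico.1 e).1)

end M4

/-- **the sums of moments on the frame** -/
theorem msS : MsS := fun β hβ => by
  refine Sml.glue' hβ (fxS hβ) 2 one_pos 2 ?_
  intro c0 C0 A c η _ _ hc _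
  refine ⟨0, fun p H _ _ hη _ σ σ' P t a a' Q m _ S l Φ Pf l0 Λ₀ Pt u1 V4 I F x hx => ?_⟩
  obtain ⟨G, K⟩ := F.mkk x hx
  have E0 := F.E0
  have y0 := H.ye0
  have e : ((p.n : ℝ) ^ η) ^ 5 * p.ye ≤ 1 := by
    rw [Pm.ye, Pm.κ, H.hc, ← rpow_natCast, ← rpow_natCast (_ ^ (-c)), ← rpow_mul H.N0.le,
      ← rpow_mul H.N0.le, ← rpow_add H.N0]
    exact rpow_le_one_of_one_le_of_nonpos H.N1.le (by push_cast at hη ⊢; linarith)
  have hy : 2 * p.ye < T0 S (p.gst P t) := by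
    refine lt_of_mul_lt_mul_left (lt_of_lt_of_le ?_ (e.trans F.T0_ge)) (by positivity)
    nlinarith [mul_le_mul_of_nonneg_right F.E1 (mul_pos (pow_pos E0 4) y0).le,
      mul_pos (pow_pos E0 4) y0]
  exact ⟨M38.ms_sup F hx, M4.N1 F K, M38.ms_N2 F hx, M4.Ga F K, M4.Gb F K, M4.A1 F K hy,
    M38.ms_u2 F hx, M38.ms_u3 F hx, M38.ms_u3' F hx, M38.ms_s0 F hx⟩

end Crest.Agent.T156.Alt.P60

end
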