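import Crest.Agent.T156.R1SD_56
import Crest.Agent.T156.LP_62
import Crest.Agent.T156.ClReg_29

/-!
# Row 156, R1: the SD budgets from the moment kit (helper56)
-/

set_option autoImplicit false
set_option linter.unusedSectionVars false

noncomputable section

namespace Crest.Agent.T156.Alt.SD56

open Real Finset
open Crest.Agent.T156.Alt.Md67 Crest.Agent.T156.Alt.R62

variable (S : Sc) (M : Md)

/-- good nodes -/
def gd (l0 u1 : ℝ) : Finset ℕ := ((Ioo S.jl S.J).filter fun k => l0 ≤ M.s k) ∪ pl S M u1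
/-- low zone -/
def lz (l0 : ℝ) : Finset ℕ := (Ioo S.jl S.J).filter fun k => M.s k < l0
/-- end -/
def en (u1 : ℝ) : Finset ℕ := Ico S.J M.N \ pl S M u1

/-- a profile of the coefficient `c`: low zone, dyadic blocks, top -/
structure Pf (l0 u1 : ℝ) (c : ℕ → ℝ) (Al : ℝ) (A : ℝ → ℝ) (At : ℝ) : Prop where
  low : ∀ k ∈ lz S M l0, |c k| ≤ Al
  blk : ∀ t, l0 ≤ t → t ≤ T0 S M → ∀ k ∈ sb S M t (2 * t), |c k| ≤ A t
  top : ∀ k ∈ tz S M u1 ∪ en S M u1, k ≤ S.Jp → |c k| ≤ At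
  Al0 : 0 ≤ Al
  A0 : ∀ t, 0 ≤ A t
  At0 : 0 ≤ At

/-- **pair fluctuations** -/
structure PK (Λ : ℝ) (m : ℕ) (a l l0 Λ₀ u1 : ℝ) : Prop where
  b : ∀ t, l0 ≤ t → t ≤ T0 S M →
    ∑ k ∈ sb S M t (2 * t), M.dz m a k * M.pf m a k ≤ Λ * S.w3 t * max t l / t
  c : ∑ k ∈ tz S M u1, M.dz m a k * M.pf m a k ≤ Λ * Λ₀ * S.w3 1

variable {S M} {m I p : ℕ} {a a' s Q l Φ l0 Λ Λ₀ Pt u1 V4 v v' Al At : ℝ} {P A : ℝ → ℝ}
  {c G : ℕ → ℝ}

theorem mem_sb {t t' : ℝ} {k : ℕ} :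
    k ∈ sb S M t t' ↔ (S.jl < k ∧ k < S.J) ∧ t ≤ M.s k ∧ M.s k ≤ t' := by
  rw [sb, mem_filter, mem_Ioo]

theorem mem_pl {u : ℝ} {k : ℕ} : k ∈ pl S M u ↔ (S.J ≤ k ∧ k < S.Jp) ∧ u ≤ du M k := by
  rw [pl, mem_filter, mem_Ico]

theorem gd_sub (h : Cl S M) : gd S M l0 u1 ⊆ Ioo S.jl M.N := fun k hk => by
  have := h.i2
  have := h.i3
  have := h.i4
  rcases mem_union.1 hk with e | e
  · have := mem_Ioo.1 (mem_filter.1 e).1
    exact mem_Ioo.2 (by omega)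
  · have := (mem_pl.1 e).1
    exact mem_Ioo.2 (by omega)

theorem sb_sub (h : Cl S M) {t t' : ℝ} : sb S M t t' ⊆ Ioo S.jl M.N := fun k hk => by
  have := h.i3
  have := h.i4
  have := (mem_sb.1 hk).1
  exact mem_Ioo.2 (by omega)

theorem tz_sub (h : Cl S M) : tz S M u1 ⊆ Ioo S.jl M.N :=
  union_subset (sb_sub h) (subset_union_right.trans (gd_sub (l0 := 0) h))

theorem tz_le (h : Cl S M) {k : ℕ} (hk : k ∈ tz S M u1) : k ≤ S.Jp := by
  rcases mem_union.1 hk with e | e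
  exacts [(mem_sb.1 e).1.2.le.trans h.i3, (mem_pl.1 e).1.2.le]

theorem bad_sub : Ioo S.jl M.N \ gd S M l0 u1 ⊆ lz S M l0 ∪ en S M u1 := fun k hk => by
  obtain ⟨h1, h2⟩ := mem_sdiff.1 hk
  rw [gd, mem_union, not_or, mem_filter, mem_Ioo] at h2
  have := mem_Ioo.1 h1
  rcases lt_or_ge k S.J with e | e
  · exact mem_union_left _ (mem_filter.2 ⟨mem_Ioo.2 ⟨this.1, e⟩,
      lt_of_not_ge fun h => h2.1 ⟨⟨this.1, e⟩, h⟩⟩)
  · exact mem_union_right _ (mem_sdiff.2 ⟨mem_Ico.2 ⟨e, this.2⟩, h2.2⟩)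

theorem sum_union_le {U U' : Finset ℕ} {g : ℕ → ℝ} (h : ∀ k ∈ U', 0 ≤ g k) :
    ∑ k ∈ U ∪ U', g k ≤ ∑ k ∈ U, g k + ∑ k ∈ U', g k := by
  rw [← sum_union_inter]
  exact le_add_of_nonneg_right (sum_nonneg fun k hk => h k (mem_inter.1 hk).2)

/-- **dyadic decomposition of the good nodes** -/
theorem dyad (h : Cl S M) {g : ℕ → ℝ} (g0 : ∀ k ∈ Ioo S.jl M.N, 0 ≤ g k) (v0 : 0 ≤ v)
    (hI : T0 S M ≤ l0 * 2 ^ I) (l00 : 0 ≤ l0)
    (hb : ∀ t, l0 ≤ t → t ≤ T0 S M → ∑ k ∈ sb S M t (2 * t), g k ≤ v)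
    (ht : ∑ k ∈ tz S M u1, g k ≤ v') : ∑ k ∈ gd S M l0 u1, g k ≤ I * v + v' := by
  let F : ℕ → Finset ℕ := fun i => (Ioo S.jl S.J).filter fun k =>
    l0 ≤ M.s k ∧ M.s k ≤ T0 S M ∧ M.s k < l0 * 2 ^ i
  have k : ∀ i : ℕ, ∑ k ∈ F i, g k ≤ i * v := fun i => by
    induction i with
    | zero =>
      rw [sum_eq_zero fun k hk => absurd (mem_filter.1 hk).2 (by
        rw [pow_zero, mul_one]; exact fun e => absurd e.1 (not_le.2 e.2.2))]
      simp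
    | succ i ih =>
      rw [← sum_filter_add_sum_filter_not (F (i + 1)) fun k => M.s k < l0 * 2 ^ i]
      have e1 : (F (i + 1)).filter (fun k => M.s k < l0 * 2 ^ i) = F i := by
        ext k
        simp only [F, mem_filter]
        refine ⟨fun e => ⟨e.1.1, e.1.2.1, e.1.2.2.1, e.2⟩, fun e => ⟨⟨e.1, e.2.1, e.2.2.1,
          e.2.2.2.trans_le ?_⟩, e.2.2.2⟩⟩
        rw [pow_succ]
        nlinarith [mul_nonneg l00 (pow_pos two_pos i).le]
      have e2 : ∑ k ∈ (F (i + 1)).filter (fun k => ¬M.s k < l0 * 2 ^ i), g k ≤ v := by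
        rcases le_or_gt (l0 * 2 ^ i) (T0 S M) with c | c
        · refine le_trans (sum_le_sum_of_subset_of_nonneg (fun k hk => ?_)
            fun k hk _ => g0 k (sb_sub h hk))
            (hb _ (le_mul_of_one_le_right l00 (one_le_pow₀ one_le_two)) c)
          simp only [F, mem_filter, mem_Ioo, not_lt] at hk
          exact mem_sb.2 ⟨hk.1.1, hk.2, by rw [pow_succ] at hk; linarith [hk.1.2.2.2]⟩
        · rw [sum_eq_zero fun k hk => ?_]
          · exact v0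
          · simp only [F, mem_filter, not_lt] at hk
            linarith [hk.1.2.2.1, hk.2]
      rw [e1]
      push_cast
      linarith
  refine le_trans (sum_le_sum_of_subset_of_nonneg (t := F I ∪ tz S M u1) (fun k hk => ?_)
    fun k hk _ => g0 k ?_) ((sum_union_le fun k hk => g0 k (tz_sub h hk)).trans (by linarith [k I]))
  · rcases mem_union.1 hk with e | e
    · obtain ⟨e1, e2⟩ := mem_filter.1 e
      rcases lt_or_ge (M.s k) (T0 S M) with c | c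
      · exact mem_union_left _ (mem_filter.2 ⟨e1, e2, c.le, c.trans_le hI⟩)
      · exact mem_union_right _ (mem_union_left _ (mem_sb.2 ⟨mem_Ioo.1 e1, c,
          (h.sm ((mem_Ioo.1 e1).2.le.trans h.i3)).trans h.sT⟩))
    · exact mem_union_right _ (mem_union_right _ e)
  · rcases mem_union.1 hk with e | e
    · have := mem_Ioo.1 (mem_filter.1 e).1
      have := h.i3
      have := h.i4
      exact mem_Ioo.2 (by omega)
    · exact tz_sub h e

/-- the same against a profile -/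
theorem Pf.sum (H : Pf S M l0 u1 c Al A At) (h : Cl S M) (i : ℕ) {g : ℕ → ℝ} {b : ℝ → ℝ} {bt : ℝ}
    (g0 : ∀ k ∈ Ioo S.jl M.N, 0 ≤ g k) (v0 : 0 ≤ v) (hI : T0 S M ≤ l0 * 2 ^ I) (l00 : 0 ≤ l0)
    (hb : ∀ t, l0 ≤ t → t ≤ T0 S M → ∑ k ∈ sb S M t (2 * t), g k ≤ b t)
    (ht : ∑ k ∈ tz S M u1, g k ≤ bt) (n1 : ∀ t, l0 ≤ t → t ≤ T0 S M → A t ^ i * b t ≤ v)
    (n2 : At ^ i * bt ≤ v) : ∑ k ∈ gd S M l0 u1, |c k| ^ i * g k ≤ (I + 1) * v := by
  have k : ∀ (U : Finset ℕ) (B b : ℝ), U ⊆ Ioo S.jl M.N → 0 ≤ B → (∀ k ∈ U, |c k| ≤ B) →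
      ∑ k ∈ U, g k ≤ b → ∑ k ∈ U, |c k| ^ i * g k ≤ B ^ i * b := fun U B b hU B0 hB hb =>
    (sum_le_sum fun k hk => mul_le_mul_of_nonneg_right
      (pow_le_pow_left₀ (abs_nonneg _) (hB k hk) i) (g0 k (hU hk))).trans (by
        rw [← mul_sum]; exact mul_le_mul_of_nonneg_left hb (by positivity))
  rw [add_mul, one_mul]
  exact dyad h (fun k hk => mul_nonneg (by positivity) (g0 k hk)) v0 hI l00
    (fun t h1 h2 => (k _ _ _ (sb_sub h) (H.A0 t) (H.blk t h1 h2) (hb t h1 h2)).trans (n1 t h1 h2))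
    ((k _ _ _ (tz_sub h) H.At0 (fun k hk => H.top k (mem_union_left _ hk) (tz_le h hk)) ht).trans n2)

/-- weight of the low zone -/
theorem lz_wt (h : Cl S M) (l00 : 0 ≤ l0) : ∑ k ∈ lz S M l0, M.dz m a k ≤ S.C ^ 2 * l0 := by
  have C0 := h.C0
  have k : ∀ j, j ≤ S.J → ∑ k ∈ (Ioo S.jl j).filter fun k => M.s k < l0, M.dz m a k ≤
      S.C ^ 2 * min l0 (M.s (j - 1)) := fun j => by
    induction j with
    | zero => exact fun _ => by simpa using mul_nonneg (sq_nonneg _) (le_min l00 h.s0.ge)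
    | succ j ih =>
      intro hj
      have s0 : ∀ k, 0 ≤ M.s k := fun k => h.s0.ge.trans (h.sm (Nat.zero_le k))
      rcases le_or_gt j S.jl with c | c
      · rw [show Ioo S.jl (j + 1) = ∅ from by ext; simp; omega]
        simpa using mul_nonneg (sq_nonneg _) (le_min l00 (s0 j))
      rw [show Ioo S.jl (j + 1) = insert j (Ioo S.jl j) from by ext; simp; omega, filter_insert,
        Nat.add_sub_cancel]
      have ih := ih (by omega)
      have m1 : M.s (j - 1) ≤ M.s j := h.sm (Nat.sub_le _ _)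
      split_ifs with e
      · rw [sum_insert (by simp), min_eq_right e.le]
        rw [min_eq_right (m1.trans e.le)] at ih
        obtain ⟨i, rfl⟩ : ∃ i, j = i + 1 := ⟨j - 1, by omega⟩
        have a1 := (h.zs i (h.i1.trans (by omega)) hj).2
        have a2 := (h.ss i (by omega)).1
        rw [div_le_iff₀' C0] at a2
        rw [Nat.add_sub_cancel] at ih
        rw [dz_succ h.leg]
        nlinarith
      · exact ih.trans (mul_le_mul_of_nonneg_left (min_le_min le_rfl m1) (sq_nonneg _))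
  exact (k _ le_rfl).trans (mul_le_mul_of_nonneg_left (min_le_left _ _) (sq_nonneg _))

section mk

variable (K : MK S M p Λ m s l Φ P l0 Λ₀ Pt u1 V4 G)
include K

/-- absolute moments from the kit -/
theorem mom {k i : ℕ} (hi : i ≤ 2 * p) (hk : k ∈ Ioo S.jl M.N) :
    M.E2 m s (fun R => |R - M.q k| ^ i) k ≤ 2 ^ (i + 1) * G k ^ i := by
  simpa using CIn12.mom_pair (q := M.q k) (K.pos k) hi
    (K.mom k (mem_Ioo.1 hk).1.le (mem_Ioo.1 hk).2.le)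

/-- the bad nodes -/
theorem bad (h : Cl S M) (H : Pf S M l0 u1 c Al A At) (l00 : 0 ≤ l0) {i : ℕ} (hi : i ≤ 2 * p)
    {F : ℕ → ℝ} (hF : ∀ k, |F k| ≤ M.E2 m s (fun R => |R - M.q k| ^ i) k) :
    ∑ k ∈ Ioo S.jl M.N \ gd S M l0 u1, M.dz m s k * |c k * F k| ≤
      2 ^ (i + 1) * (Al * (Λ * l) ^ i * (S.C ^ 2 * l0) + At * 2 ^ i * (2 * u1)) := by
  have i2 := h.i2
  have i3 := h.i3
  have i4 := h.i4
  have d0 : ∀ k, 0 < k → 0 ≤ M.dz m s k := fun k hk => by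
    rw [dz_up h.leg hk]; exact sub_nonneg.2 (h.leg.zm (Nat.sub_le _ _))
  have u1' : en S M u1 ⊆ Ioo S.jl M.N := fun k hk => by
    have := mem_Ico.1 (mem_sdiff.1 hk).1
    exact mem_Ioo.2 (by omega)
  have u2 : lz S M l0 ⊆ Ioo S.jl M.N := fun k hk => by
    have := mem_Ioo.1 (mem_filter.1 hk).1
    exact mem_Ioo.2 (by omega)
  have p0 : ∀ k ∈ Ioo S.jl M.N, 0 < k := fun k hk => by have := mem_Ioo.1 hk; omega
  have k : ∀ (U : Finset ℕ) (B g w : ℝ), U ⊆ Ioo S.jl M.N → 0 ≤ B → 0 ≤ g →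
      (∀ k ∈ U, (k ≤ S.Jp → |c k| ≤ B) ∧ G k ≤ g) → ∑ k ∈ U, M.dz m s k ≤ w →
      ∑ k ∈ U, M.dz m s k * |c k * F k| ≤ 2 ^ (i + 1) * (B * g ^ i * w) :=
    fun U B g w hU B0 g0 hB hw => by
      refine (sum_le_sum (g := fun k => 2 ^ (i + 1) * (B * g ^ i) * M.dz m s k)
        fun k hk => ?_).trans ?_
      · rw [mul_comm _ (M.dz m s k), abs_mul]
        rcases lt_or_ge S.Jp k with e | e
        · rw [dz_up h.leg (p0 k (hU hk)), h.top k e.le, h.top (k - 1) (by omega)]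
          simp
        refine mul_le_mul_of_nonneg_left ?_ (d0 k (p0 k (hU hk)))
        rw [mul_left_comm]
        exact mul_le_mul ((hB k hk).1 e) (((hF k).trans (mom K hi (hU hk))).trans (by
          gcongr; exacts [(K.pos k).le, (hB k hk).2])) (abs_nonneg _) B0
      · rw [← mul_sum, mul_assoc]
        gcongr
  have l1 : 0 ≤ Λ * l := (K.pos S.jl).le.trans (K.sl _ le_rfl (by omega))
  refine le_trans (sum_le_sum_of_subset_of_nonneg bad_sub fun k hk _ => mul_nonneg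
    (d0 k (p0 k (union_subset u2 u1' hk))) (abs_nonneg _)) ((sum_union_le fun k hk => mul_nonneg
      (d0 k (p0 k (u1' hk))) (abs_nonneg _)).trans ?_)
  rw [mul_add]
  exact add_le_add (k _ _ _ _ u2 H.Al0 l1 (fun k hk => ⟨fun _ => H.low k hk, K.sl k
      (mem_Ioo.1 (u2 hk)).1.le (mem_Ioo.1 (mem_filter.1 hk).1).2⟩) (lz_wt h l00))
    (k _ _ _ _ u1' H.At0 zero_le_two (fun k hk => ⟨H.top k (mem_union_right _ hk), K.le2 k⟩) K.fin)

end mk

theorem pos_of (S : Sc) (M : Md) : ∀ k ∈ Ioo S.jl M.N, 0 < k := fun k hk => by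
  have := mem_Ioo.1 hk; omega

theorem sq_root (I : ℕ) (v : ℝ) : (I + 1) * v ^ 2 = (√(I + 1) * v) ^ 2 := by
  rw [mul_pow, sq_sqrt (by positivity)]

namespace Wn

variable (W : Wn M m a a' Q) (h : Cl S M) (H : Pf S M l0 u1 c Al A At) (l00 : 0 ≤ l0)
  (hI : T0 S M ≤ l0 * 2 ^ I) (v0 : 0 ≤ v)
include W h H l00 hI v0

theorem ja_le {i : ℕ} {b : ℝ → ℝ} {bt : ℝ} (hs : s ∈ Set.Icc a a')
    (hb : ∀ t, l0 ≤ t → t ≤ T0 S M → ∑ k ∈ sb S M t (2 * t), M.dz m s k * ja M m s i k ≤ b t)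
    (ht : ∑ k ∈ tz S M u1, M.dz m s k * ja M m s i k ≤ bt)
    (n1 : ∀ t, l0 ≤ t → t ≤ T0 S M → A t ^ 2 * b t ≤ v ^ 2) (n2 : At ^ 2 * bt ≤ v ^ 2) :
    ∑ k ∈ gd S M l0 u1, M.dz m s k * c k ^ 2 * JA M m s i (M.q k) k ≤ (√(I + 1) * v) ^ 2 := by
  rw [← sq_root]
  refine le_trans (le_of_eq (sum_congr rfl fun k _ => ?_)) (H.sum h 2 (fun k hk => mul_nonneg
    (W.dz0 s (pos_of S M k hk)) (JA_nonneg (W.lg hs) i (M.q k) k)) (sq_nonneg v) hI l00 hb ht n1 n2)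
  rw [sq_abs]; ring

/-- **linear terms from the kit** -/
theorem lin_MK (hp : 1 ≤ p) (K : ∀ s ∈ Set.Icc a a', ∃ G, MK S M p Λ m s l Φ P l0 Λ₀ Pt u1 V4 G)
    (n1 : ∀ t, l0 ≤ t → t ≤ T0 S M → A t ^ 2 * (Λ * S.w3 t * max t l) ≤ v ^ 2)
    (n2 : At ^ 2 * (Λ * Λ₀ * S.w3 1) ≤ v ^ 2) :
    |Da M m a a' (Ioo S.jl M.N) fun s k => c k * (M.rb m s k - M.q k)| ≤
      Q * (2 * (√(I + 1) * v)) + 8 * (Al * (Λ * l) * (S.C ^ 2 * l0) + At * 2 * (2 * u1)) := by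
  refine (W.lin_le (pos_of S M) (gd_sub (l0 := l0) (u1 := u1) h) c M.q (V := √(I + 1) * v)
    (by positivity) (fun s hs => ?_)
    (A := 2 ^ (1 + 1) * (Al * (Λ * l) ^ 1 * (S.C ^ 2 * l0) + At * 2 ^ 1 * (2 * u1)))
    fun s hs => ?_).trans (le_of_eq (by ring))
  · obtain ⟨G, K⟩ := K s hs
    exact W.ja_le h H l00 hI v0 hs K.a0 K.c0 n1 n2
  · obtain ⟨G, K⟩ := K s hs
    refine bad K h H l00 (by omega) fun k => ?_
    simp only [pow_one]
    refine le_trans (le_of_eq ?_) (abs_E2_le (fun R => R - M.q k) k)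
    rw [E2_sub, E2_const]; rfl

/-- **squares from the kit** -/
theorem sq_MK {w : ℝ} (w0 : 0 ≤ w) (hp : 1 ≤ p)
    (K : ∀ s ∈ Set.Icc a a', PK S M Λ m s l l0 Λ₀ u1 ∧ ∃ G, MK S M p Λ m s l Φ P l0 Λ₀ Pt u1 V4 G)
    (n1 : ∀ t, l0 ≤ t → t ≤ T0 S M → A t ^ 2 * (Λ * S.w3 t * P t) ≤ v ^ 2)
    (n2 : At ^ 2 * (Λ * Λ₀ * S.w3 1 * Pt) ≤ v ^ 2)
    (n3 : ∀ t, l0 ≤ t → t ≤ T0 S M → A t * (Λ * S.w3 t * max t l / t) ≤ w)
    (n4 : At * (Λ * Λ₀ * S.w3 1) ≤ w) :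
    |Da M m a a' (Ioo S.jl M.N) fun s k => c k * M.E2 m s (fun r => (r - M.q k) ^ 2) k| ≤
      Q * (4 * (√(I + 1) * v)) + 2 * ((I + 1) * w) +
        16 * (Al * (Λ * l) ^ 2 * (S.C ^ 2 * l0) + At * 4 * (2 * u1)) := by
  refine (W.split (pos_of S M) (gd_sub (l0 := l0) (u1 := u1) h)
    (W.sd_sq (fun k hk => pos_of S M k (gd_sub h hk)) c M.q
    (V := √(I + 1) * v) (B := (I + 1) * w) (by positivity) (fun s hs => ?_) fun s hs => ?_)
    (A := 2 ^ (2 + 1) * (Al * (Λ * l) ^ 2 * (S.C ^ 2 * l0) + At * 2 ^ 2 * (2 * u1)))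
    fun s hs => ?_).trans (le_of_eq (by ring))
  · obtain ⟨-, G, K⟩ := K s hs
    exact W.ja_le h H l00 hI v0 hs K.a2 K.c2 n1 n2
  · obtain ⟨K, -⟩ := K s hs
    refine le_trans (le_of_eq (sum_congr rfl fun k _ => ?_)) (H.sum h 1 (fun k hk => mul_nonneg
      (W.dz0 s (pos_of S M k hk)) (Sg56.pf_nonneg k)) w0 hI l00 K.b K.c
      (by simpa only [pow_one] using n3) (by simpa only [pow_one] using n4))
    ring
  · obtain ⟨-, G, K⟩ := K s hs
    refine bad K h H l00 (by omega) fun k => ?_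
    simp only [sq_abs]
    exact (abs_of_nonneg (E2_nonneg (fun _ _ => sq_nonneg _) k)).le

omit H l00 hI v0 h in
theorem wt_le (s : ℝ) {U : Finset ℕ} (hU : U ⊆ Ioo S.jl M.N) : ∑ k ∈ U, M.dz m s k ≤ 1 := by
  refine (sum_le_sum_of_subset_of_nonneg (t := Ioc 0 M.N) (fun k hk => ?_)
    fun k hk _ => W.dz0 s (mem_Ioc.1 hk).1).trans ?_
  · have := mem_Ioo.1 (hU hk)
    exact mem_Ioc.2 (by omega)
  · rw [sum_dz W.leg (Nat.zero_le _), W.leg.zN]
    linarith [W.leg.z0, W.a0, W.le]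

/-- **cubes from the kit** (`L` = threshold of the envelope) -/
theorem cub_MK {w L : ℝ} (w0 : 0 ≤ w) (L0 : 0 < L) (hp : 1 ≤ p)
    (K : ∀ s ∈ Set.Icc a a', PK S M Λ m s l l0 Λ₀ u1 ∧
      ∃ G, MK S M (p + 1) Λ m s l Φ P l0 Λ₀ Pt u1 V4 G)
    (n1 : ∀ t, l0 ≤ t → t ≤ T0 S M → A t ^ 2 * (Λ * S.w3 t * (P t * l ^ 2)) ≤ v ^ 2)
    (n2 : At ^ 2 * (Λ * Λ₀ * S.w3 1 * V4) ≤ v ^ 2)
    (n3 : ∀ t, l0 ≤ t → t ≤ T0 S M → A t * (3 * L * (Λ * l) * (Λ * S.w3 t * max t l / t) +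
      24 / L ^ (2 * p + 1)) ≤ w)
    (n4 : At * (3 * L * 2 * (Λ * Λ₀ * S.w3 1) + 24 / L ^ (2 * p + 1)) ≤ w) :
    |Da M m a a' (Ioo S.jl M.N) fun s k => c k * M.E2 m s (fun r => (r - M.q k) ^ 3) k| ≤
      Q * (6 * (√(I + 1) * v)) + 2 * ((I + 1) * w) +
        32 * (Al * (Λ * l) ^ 3 * (S.C ^ 2 * l0) + At * 8 * (2 * u1)) := by
  choose! G K using fun s hs => (K s hs).2.imp fun G k => And.intro (K s hs).1 k
  refine (W.split (pos_of S M) (gd_sub (l0 := l0) (u1 := u1) h)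
    (W.sd_cub (fun k hk => pos_of S M k (gd_sub h hk)) c M.q (fun s k => L * G s k)
    (V := √(I + 1) * v) (B := (I + 1) * w) (by positivity) (fun s hs => ?_) fun s hs => ?_)
    (A := 2 ^ (3 + 1) * (Al * (Λ * l) ^ 3 * (S.C ^ 2 * l0) + At * 2 ^ 3 * (2 * u1)))
    fun s hs => ?_).trans (le_of_eq (by ring))
  · exact W.ja_le h H l00 hI v0 hs (K s hs).2.a4 (K s hs).2.c4 n1 n2
  · obtain ⟨K1, K⟩ := K s hs
    have k : ∀ (U : Finset ℕ) (g b : ℝ), U ⊆ Ioo S.jl M.N → 0 ≤ g → (∀ k ∈ U, G s k ≤ g) →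
        ∑ k ∈ U, M.dz m s k * M.pf m s k ≤ b → ∑ k ∈ U, M.dz m s k * (3 * (L * G s k) * M.pf m s k +
          12 * M.E2 m s (fun r => max (|r - M.q k| - L * G s k) 0) k) ≤
          3 * L * g * b + 24 / L ^ (2 * p + 1) := fun U g b hU g0 hg hb => by
      refine (sum_le_sum (g := fun k => 3 * L * g * (M.dz m s k * M.pf m s k) +
        24 / L ^ (2 * p + 1) * M.dz m s k) fun k hk => ?_).trans ?_
      · have e := mem_Ioo.1 (hU hk)
        have a1 := (CIn12.env_pair' (q := M.q k) (e := L * G s k) (K.pos k) L0 (by simp)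
          (K.mom k e.1.le e.2.le)).trans (div_le_div_of_nonneg_right (K.le2 k) (by positivity))
        have a2 := mul_le_mul_of_nonneg_right (mul_le_mul_of_nonneg_left (hg k hk) L0.le)
          (Sg56.pf_nonneg (M := M) (m := m) (a := s) k)
        have a3 : 3 * (L * G s k) * M.pf m s k +
            12 * M.E2 m s (fun r => max (|r - M.q k| - L * G s k) 0) k ≤
            3 * (L * g * M.pf m s k) + 12 * (2 / L ^ (2 * p + 1)) := by linarith
        exact (mul_le_mul_of_nonneg_left a3 (W.dz0 s (pos_of S M k (hU hk)))).trans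
          (le_of_eq (by ring))
      · rw [sum_add_distrib, ← mul_sum, ← mul_sum]
        exact add_le_add (mul_le_mul_of_nonneg_left hb (by positivity))
          (mul_le_of_le_one_right (by positivity) (W.wt_le s hU))
    have l1 : 0 ≤ Λ * l := (K.pos S.jl).le.trans (K.sl _ le_rfl h.jl_lt)
    refine le_trans (le_of_eq (sum_congr rfl fun k _ => ?_)) (H.sum h 1 (fun k hk => mul_nonneg
      (W.dz0 s (pos_of S M k hk)) (add_nonneg (mul_nonneg (by have := K.pos k; positivity)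
        (Sg56.pf_nonneg k)) (mul_nonneg (by norm_num) (E2_nonneg (fun _ _ => le_max_right _ _) k))))
      w0 hI l00 (fun t h1 h2 => k _ _ _ (sb_sub h) l1 (fun k hk => K.sl k (mem_sb.1 hk).1.1.le
        (mem_sb.1 hk).1.2) (K1.b t h1 h2)) (k _ _ _ (tz_sub h) zero_le_two (fun k _ => K.le2 k) K1.c)
      (by simpa only [pow_one] using n3) (by simpa only [pow_one] using n4))
    ring
  · refine bad (K s hs).2 h H l00 (by omega) fun k => ?_
    simp only [← abs_pow]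
    exact abs_E2_le _ k

end Wn

end Crest.Agent.T156.Alt.SD56

end
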