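import Crest.Agent.T156.R1Cx_77
import Crest.Agent.T156.R1SDB_56
import Crest.Agent.T156.R1Def_82
import Crest.Agent.T156.GrReg_29
import Crest.Agent.T156.SW_76
import Crest.Agent.T156.CErr_54

/-!
# Row 156, R1: the local cubic term is a node functional up to the error (helper79)
-/

set_option autoImplicit false
set_option linter.unusedSectionVars false

noncomputable section

namespace Crest.Agent.T156.Alt.C379

open Real Finset Filter Topology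
open Crest.Agent.T157.E Crest.Agent.T157.Casc Crest.Agent.T157.SL
open Crest.ProbabilityR.SpinGlassDynamics (spin)
open Crest.Agent.T156.Cas Crest.Agent.T156.Cas.C40 Crest.Agent.T156.Alt.Alg77
open Crest.Agent.T156.Cas.Sy41 Crest.Agent.T156.Cas.Q33 Crest.Agent.T156.Cas.Lp12
open Crest.Agent.T156.Alt.CIn12 Crest.Agent.T156.Alt.Md67 Crest.Agent.T156.Alt.SD56
open Crest.Agent.T156.Alt.R77 Crest.Agent.T156.Cas.Alg77 Crest.Agent.T156.Alt.R62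
open Link33 (wt1)

/-- **the coefficient** -/
theorem c3_le : ∃ C : ℝ, 1 ≤ C ∧ ∀ (D : CD) (f : ℕ → ℝ) (τ0 p : ℝ) (t : ℕ), D.Ok τ0 → Tw D f →
    t ∈ D.up → 0 ≤ p → min 1 (ex D.B t + D.sig t) ≤ p →
    |c3 D f t| ≤ C * τ0 ^ 3 * (|f t| + p * D.wt) := by
  obtain ⟨C, c1, hC⟩ := R1J.s4
  refine ⟨C, c1, fun D f τ0 p t H T ht p0 hp => ?_⟩
  obtain ⟨t1, t2⟩ := CD.mem_up.1 ht
  have n1 : R1J.n1 D.S f = D.wt := by
    have := T.sum_up (g := fun j => |f j|) (fun j hj => by rw [T.lo j hj, abs_zero]) fun _ => 1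
    simp only [mul_one] at this
    rw [R1J.n1, this, CD.wt_test T.tst]
    exact sum_congr rfl fun j hj => by rw [T.om j hj, abs_mul, abs_of_nonneg (H.dx0 j), mul_one]
  have w0 := D.wt0
  have k : |R1J.W D.S t [R1J.ind t, R1J.ind t, f]| ≤ C * (|f t| + (p + 0) * D.wt) :=
    le_of_forall2 (f := fun ε => C * (|f t| + (p + ε) * D.wt)) (by fun_prop) fun ε hε => by
      have := hC D.S t (p + ε) ⟨Ker15.r1_of (T157.Casc.C.forall₂_sl spin (opV_nn H.ook)),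
        Cav22.mono_tilt tilt_opS.symm H.mono, by omega, by rwa [lenS], by linarith, by
          rw [Cav22.ex_tilt tilt_opS t, show Ker15.tm D.S t = D.sig t from
            (Ker15.tm_eq (T157.Casc.C.forall₂_sl spin (opV_nn H.ook)) t).trans (opV_acc t2.le)]
          exact hp.trans (by linarith)⟩ f T.f0
      rwa [n1] at this
  obtain ⟨a0, a1⟩ := H.tau_mem t
  have a3 := pow_le_pow_left₀ a0 a1 3
  have a4 := pow_nonneg a0 3
  rw [add_zero] at k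
  rw [c3, abs_mul, abs_of_nonneg (by positivity)]
  calc _ ≤ τ0 ^ 3 * (C * (|f t| + p * D.wt)) :=
        mul_le_mul (by linarith) k (abs_nonneg _) (a4.trans a3)
    _ = _ := by ring

/-- the pair-node remainder is an error term -/
theorem rem_le {D : CD} {τ0 C : ℝ} {f c R : ℕ → ℝ} (H : D.Ok τ0) (T : Tw D f) (hC : 0 ≤ C)
    (hc : ∀ j ∈ D.up, |c j| ≤ C * (|f j| + min 1 (D.e j) * D.wt))
    (hR : ∀ j ∈ D.up, |R j| ≤ 6 * (D.e j * D.v j j) + 12 * D.tl) :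
    (D.I fun j => |c j * R j|) ≤ 36 * C * D.Err := by
  have w0 := D.wt0
  have t0 := H.tl0
  have e1 : ∀ a : ℕ → ℝ, (D.I fun j => |f j| * a j) = D.Iw a := fun a =>
    sum_congr rfl fun j hj => by rw [T.om j hj, abs_mul, abs_of_nonneg (H.dx0 j), mul_assoc]
  have k := H.I_mono (a := fun j => |c j * R j|) (b := fun j => C * (6 * (|f j| * (D.e j * D.v j j)) +
      12 * D.tl * (|f j| * 1) + 6 * D.wt * (D.e j ^ 2 * D.v j j) + 12 * D.tl * D.wt * 1))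
    fun j hj => by
      have e0 := H.e0 j
      have v0 := mul_nonneg e0 (D.v0 j j)
      have m0 : 0 ≤ min 1 (D.e j) := le_min zero_le_one e0
      have b1 := mul_le_mul_of_nonneg_right (min_le_right 1 (D.e j)) (mul_nonneg w0 v0)
      have b2 := mul_le_mul_of_nonneg_right (min_le_left 1 (D.e j)) (mul_nonneg w0 t0)
      rw [abs_mul]
      refine (mul_le_mul (hc j hj) (hR j hj) (abs_nonneg _) (by positivity)).trans ?_
      rw [mul_assoc]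
      exact mul_le_mul_of_nonneg_left (by linarith) hC
  simp only [CD.I_mul, CD.I_add, e1] at k
  rw [← CD.wt_test T.tst] at k
  have a1 : D.Iw (fun j => D.e j * D.v j j) ≤ D.Err :=
    ((D.Iw_mono fun j _ => le_add_of_nonneg_right (H.sv_low0 _ j)).trans H.Lad1_le).trans
      (H.E1_le T.tst)
  have a2 : D.wt * D.tl ≤ D.Err := (mul_le_mul_of_nonneg_left H.tl_le w0).trans H.wtE0_le
  have a3 : D.wt * (D.I fun j => D.e j ^ 2 * D.v j j) ≤ D.Err := by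
    obtain ⟨l1, l2, l3⟩ := H.Lad0_parts
    exact (mul_le_mul_of_nonneg_left (le_trans (by rw [CD.Lad0]; linarith) H.Lad0_le) w0).trans
      H.wtE0_le
  have a4 := mul_le_mul_of_nonneg_left (H.I_le (a := fun _ => 1) zero_le_one fun _ _ => le_rfl)
    (mul_nonneg w0 t0)
  refine k.trans ?_
  rw [mul_comm 36 C, mul_assoc C]
  exact mul_le_mul_of_nonneg_left (by linarith) hC

variable {M : Md} {m J : ℕ} {a a' x Q V A B : ℝ} {T T' : Finset ℕ}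

theorem pf_le (k : ℕ) :
    M.pf m a k ≤ 2 * Eg33.vt (fun _ => 1) (M.L m a) (sl m) 0 (k + 1) (k + 1) := by
  have e : Eg33.vt (fun _ => 1) (M.L m a) (sl m) 0 (k + 1) (k + 1) =
      tc (fun _ => 1) (M.L m a) (sl m) 0 (k + 1) + vv (fun _ => 1) (M.L m a) (sl m) 0 (k + 1) := by
    rw [Eg33.vt, funext (Eg33.vz_self wt1 (M.L m a) (sl m) (k + 1)),
      node_add wt1 (eg_trC2 wt1 _ _) (eg_Vq wt1 _ _)]
    rfl
  rw [e, Md.pf]
  linarith [tc_nonneg (w := fun _ => 1) (sl m) 0 (M.L m a) (k + 1)]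

/-- node cube -/
abbrev N3 (M : Md) (m : ℕ) (s : ℝ) (k : ℕ) : ℝ := GE M m s (fun r => (r - M.q k) ^ 3) k

/-- the remainder on an admissible datum -/
theorem rem_cd {f c : ℕ → ℝ} {E : CIn12.Ev} {τ0 C : ℝ} (hm : 0 < m) (h : Cut M x J)
    (H : (cdf M m a M.q J f E).Ok τ0) (hC : 0 ≤ C) (hc : ∀ j ∈ (cdf M m a M.q J f E).up, |c j| ≤
      C * (|fc J f j| + min 1 ((cdf M m a M.q J f E).e j) * (cdf M m a M.q J f E).wt)) :
    ∑ k ∈ Ico J M.N, M.dz m a k * |c (k + 1) *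
      (M.E2 m a (fun r => (r - M.q k) ^ 3) k - N3 M m a k)| ≤ 36 * C * (cdf M m a M.q J f E).Err := by
  have := rem_le H h.tw hC hc
    (R := fun j => M.E2 m a (fun r => (r - M.q (j - 1)) ^ 3) (j - 1) - N3 M m a (j - 1)) fun j hj => by
      have e1 := H.envU j hj
      have e0 := H.e0 j
      obtain ⟨k, rfl, h1, h2⟩ := mem_up hj
      unfold oU at e1
      rw [cd_q m a _ _ E h1 h2] at e1
      have e2 := E2_cub (M := M) (s := a) hm k (M.q k) (E.e k)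
      have e3 := mul_le_mul_of_nonneg_left (pf_le (M := M) (m := m) (a := a) k) e0
      rw [cd_v a _ _ E hm, cd_e] at *
      change M.E2 m a (fun r => max (|r - M.q k| - E.e k) 0) k ≤ _ at e1
      simp only [Nat.add_sub_cancel]
      linarith
  rwa [cd_I] at this

/-- **cubes from the kit, remainder at the two ends only** -/
theorem cub_err {S : Sc} {I e : ℕ} {l Φ l0 Λ Λ₀ Pt u1 V4 v Al At : ℝ} {P A : ℝ → ℝ} {c : ℕ → ℝ}
    (W : Wn M m a a' Q) (h : Cl S M) (H : Pf S M l0 u1 c Al A At) (l00 : 0 ≤ l0)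
    (hI : T0 S M ≤ l0 * 2 ^ I) (v0 : 0 ≤ v) (he : 2 ≤ e)
    (K : ∀ s ∈ Set.Icc a a', ∃ G, MK S M e Λ m s l Φ P l0 Λ₀ Pt u1 V4 G)
    (n1 : ∀ t, l0 ≤ t → t ≤ T0 S M → A t ^ 2 * (Λ * S.w3 t * (P t * l ^ 2)) ≤ v ^ 2)
    (n2 : At ^ 2 * (Λ * Λ₀ * S.w3 1 * V4) ≤ v ^ 2)
    (hB : ∀ s, s = a ∨ s = a' → ∑ k ∈ Ioo S.jl M.N, M.dz m s k *
      |c k * (M.E2 m s (fun r => (r - M.q k) ^ 3) k - N3 M m s k)| ≤ B) :
    |Da M m a a' (Ioo S.jl M.N) fun s k => c k * M.E2 m s (fun r => (r - M.q k) ^ 3) k| ≤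
      Q * (6 * (√(I + 1) * v)) + 2 * B +
        32 * (Al * (Λ * l) ^ 3 * (S.C ^ 2 * l0) + At * 8 * (2 * u1)) := by
  have g := gd_sub (l0 := l0) (u1 := u1) h
  have p0 : ∀ k ∈ gd S M l0 u1, 0 < k := fun k hk => pos_of S M k (g hk)
  refine (W.split (pos_of S M) g (B := Q * (6 * (√(I + 1) * v)) + 2 * B) ?_
    (A := 2 ^ (3 + 1) * (Al * (Λ * l) ^ 3 * (S.C ^ 2 * l0) + At * 2 ^ 3 * (2 * u1)))
    fun s hs => ?_).trans (le_of_eq (by ring))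
  · have h1 := W.sd_gen p0 (V := 3 * (√(I + 1) * v)) (g := fun k r => c k * (r - M.q k) ^ 3)
      (g' := fun k r => c k * (3 * (r - M.q k) ^ 2))
      (fun k r => by simpa using (((hasDerivAt_id r).sub_const (M.q k)).pow 3).const_mul (c k))
      (fun _ => by fun_prop) M.q (fun k => 3 * |c k|) 2 (fun k _ r _ _ => by
        rw [abs_mul, abs_mul, abs_pow, abs_of_pos (by norm_num : (0 : ℝ) < 3)]; linarith)
      (by positivity) fun s hs => by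
        obtain ⟨G, K⟩ := K s hs
        have := W.ja_le h H l00 hI v0 hs K.a4 K.c4 n1 n2
        simp only [mul_pow, sq_abs, mul_left_comm _ ((3 : ℝ) ^ 2), mul_assoc, ← mul_sum] at this ⊢
        linarith
    have h2 : ∀ s, s = a ∨ s = a' → |∑ k ∈ gd S M l0 u1, M.dz m s k *
        (c k * (M.E2 m s (fun r => (r - M.q k) ^ 3) k - N3 M m s k))| ≤ B := fun s hs =>
      ((abs_sum_le_sum_abs _ _).trans (le_of_eq (sum_congr rfl fun k hk => by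
        rw [abs_mul, abs_of_nonneg (W.dz0 s (p0 k hk))]))).trans
        ((sum_le_sum_of_subset_of_nonneg g fun k hk _ =>
          mul_nonneg (W.dz0 s (pos_of S M k hk)) (abs_nonneg _)).trans (hB s hs))
    rw [Da_congr (G := fun s k => GE M m s (fun r => c k * (r - M.q k) ^ 3) k +
      c k * (M.E2 m s (fun r => (r - M.q k) ^ 3) k - N3 M m s k))
      fun s k _ => by rw [GE_mul]; ring, Da_add]
    refine (abs_add_le _ _).trans (add_le_add (by linarith) ((abs_sub _ _).trans ?_))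
    linarith [h2 a (.inl rfl), h2 a' (.inr rfl)]
  · obtain ⟨G, K⟩ := K s hs
    refine bad K h H l00 (by omega) fun k => ?_
    simp only [← abs_pow]
    exact abs_E2_le _ k

theorem T0_ge {S : Sc} (h : Cl S M) : 1 ≤ 32 * S.C ^ 3 * T0 S M := by
  have i2 := h.i2
  have C1 := h.C1
  have v0 := h.v0
  have a1 := h.atom.1.trans (h.z_s (h.i1.trans (by omega)) (by omega : S.J - 1 < S.J)).2
  have a2 := (h.ss (S.J - 1) (by omega)).1
  rw [show S.J - 1 + 1 = S.J by omega, div_le_iff₀' h.C0] at a2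
  rw [div_le_iff₀' h.C0] at a1
  have a3 := mul_le_mul_of_nonneg_right (show 1 ≤ 2 * S.C by linarith) (h.s_nn (S.J - 1))
  have a4 : M.s (S.J - 1) + 2 * S.v ≤ 2 * S.C * M.s S.J := by linarith
  refine a1.trans ((mul_le_mul_of_nonneg_left (mul_le_mul_of_nonneg_left a4 h.C0.le) h.C0.le).trans
    (le_of_eq ?_))
  rw [T0]; ring

theorem wn {Λ t : ℝ} {p : Pm} {P : Pl} (h : Fx Λ p P t a a' Q m) (hQ : 0 ≤ Q) :
    Wn (p.gst P t) m a a' Q :=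
  ⟨Leg_mono h.leg (by linarith [h.a1, h.am0]), h.m0, h.a0.le, h.aa, hQ, h.W⟩

section reg

variable {β c0 C0 c η K t l0 u1 L E : ℝ} {A : ℕ} {p : Pm} {S : Sc}

/-- a coefficient below `L mt` has a profile -/
theorem pf_mt (H : Reg β c0 C0 A c η K p) (t0 : 0 < t) (h : Cl S M) (ms : S.ms = p.msG t)
    (hE : S.C ≤ E) (l1 : 0 < l0) (l2 : l0 ≤ p.ye) (L0 : 0 ≤ L) {f : ℕ → ℝ}
    (hf : ∀ k, S.jl < k → k ≤ S.Jp → |f k| ≤ L * R82.mt p t (M.s k)) :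
    Pf S M l0 u1 f (L * (S.ms l0 / l0)) (fun y => 4 * L * (S.ms y / max y l0))
      (32 * E ^ 3 * L * S.θ) := by
  have m0 := fun y => (H.msG0 t0 y).le
  have C0 := h.C0
  have T1 := T0_ge h
  have T2 : 0 < T0 S M := div_pos (h.s_pos (by have := h.i2; omega)) (by norm_num)
  have i3 := h.i3
  refine ⟨fun k hk => ?_, fun y h1 h2 k hk => ?_, fun k hk hk' => ?_, by rw [ms]; have := m0 l0; positivity,
    fun y => by rw [ms]; have := m0 y; positivity, by have := h.θ0; have := C0.trans_le hE; positivity⟩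
  · obtain ⟨e1, e2⟩ := mem_filter.1 hk
    obtain ⟨e3, e4⟩ := mem_Ioo.1 e1
    refine (hf k e3 (by omega)).trans (mul_le_mul_of_nonneg_left ?_ L0)
    have x1 : Gr29.xc p (M.s k) = max (M.s k) p.r := by
      rw [Gr29.xc, min_eq_left (e2.le.trans l2), max_comm]
    have x2 : l0 ≤ Gr29.xc p l0 := by rw [Gr29.xc, min_eq_left l2]; exact le_max_right _ _
    have g := mul_le_mul_of_nonneg_left (Gr29.gS_mono t0.le (Gr29.xc_mono p e2.le)) H.κ0.le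
    have g0 := mul_nonneg H.κ0.le (Gr29.gS_nn t0.le (H.xc0 l0).le)
    rw [R82.mt, ms, Gr29.msG_eq, Gr29.msG_eq, ← x1, le_div_iff₀ l1, mul_right_comm p.κ,
      mul_div_cancel_right₀ _ (H.xc0 _).ne', mul_right_comm p.κ (Gr29.xc p l0)]
    exact mul_le_mul g x2 l1.le g0
  · obtain ⟨e1, e2, e3⟩ := mem_sb.1 hk
    refine (hf k e1.1 (by omega)).trans ?_
    rw [max_eq_left h1, mul_comm 4 L, mul_assoc, ← mul_div_assoc, ms]
    exact mul_le_mul_of_nonneg_left (div_le_div₀ (by linarith [m0 y]) ((H.msG_mono t0 e3).trans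
      (H.msG_two t0 y)) (l1.trans_le h1) (e2.trans (le_max_left _ _))) L0
  · have e : S.jl < k ∧ T0 S M ≤ M.s k := by
      have up : S.J ≤ k → S.jl < k ∧ T0 S M ≤ M.s k := fun e => ⟨h.jl_lt.trans_le e, by
        have := h.sm e
        rw [T0] at *
        linarith⟩
      rcases mem_union.1 hk with e | e
      · rcases mem_union.1 e with e | e
        exacts [⟨(mem_sb.1 e).1.1, (mem_sb.1 e).2.1⟩, up (mem_pl.1 e).1.1]
      · exact up (mem_Ico.1 (mem_sdiff.1 e).1).1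
    refine (hf k e.1 hk').trans ?_
    rw [mul_comm _ L, mul_assoc]
    refine mul_le_mul_of_nonneg_left ((div_le_div₀ h.θ0.le (ms ▸ h.ms1 _) T2
      (e.2.trans (le_max_left _ _))).trans ?_) L0
    rw [div_le_iff₀ T2, mul_right_comm]
    exact le_mul_of_one_le_left h.θ0.le (T1.trans (by gcongr))

theorem ex_I (H : Reg β c0 C0 A c η K p) (h : Cl S M) (hE : S.C ≤ (p.n : ℝ) ^ η)
    (l1 : 1 ≤ p.n * l0) : ∃ I : ℕ, T0 S M ≤ l0 * 2 ^ I ∧ √(I + 1) ≤ (p.n : ℝ) ^ η := by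
  set i := ⌈2 * log (p.n : ℝ)⌉₊ with hi
  have hl := H.log1
  have hi1 : 2 * log (p.n : ℝ) ≤ i := Nat.le_ceil _
  have hi2 : (i : ℝ) ≤ 2 * log p.n + 1 := (Nat.ceil_lt_add_one (by linarith)).le
  have h2 : (p.n : ℝ) ≤ 2 ^ i := by
    have h3 : (1 : ℝ) / 2 ≤ log 2 := by linarith [log_two_gt_d9]
    rw [← log_le_log_iff H.N0 (by positivity), log_pow]
    nlinarith
  have N0 := H.N0
  have l0' : 0 < l0 := (mul_pos_iff_of_pos_left N0).1 (one_pos.trans_le l1)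
  have a1 : (p.n : ℝ) ^ η ≤ p.n := by
    simpa using Pre29.rp_le (n := p.n) (by have := H.n3; omega) (b := 1)
      (by linarith [H.η_le, H.c_le])
  have a2 : T0 S M ≤ p.n := by
    have := h.s_le_C h.i3
    have := h.C0
    rw [T0]; linarith
  refine ⟨2 * i, ?_, sqrt_le_iff.2 ⟨H.Λ0.le, ?_⟩⟩
  · calc _ ≤ p.n * (p.n * l0) := a2.trans (le_mul_of_one_le_right N0.le l1)
      _ ≤ 2 ^ i * (2 ^ i * l0) := by gcongr
      _ = _ := by ring
  · have := H.log_le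
    have := H.num_le
    push_cast
    nlinarith

end reg

/-- what the cubic term reads of a kit: loss `Λ`, gain `δ` -/
def K3 (δ Λ : ℝ) (p : Pm) : Prop := ∀ σ σ' P t a a' Q m, Cx p σ σ' P t a a' Q m →
  ∃ (S : Sc) (e : ℕ) (l Φ : ℝ) (Pf : ℝ → ℝ) (l0 Λ₀ Pt u1 V4 : ℝ), Cl S (p.gst P t) ∧ S.C ≤ Λ ∧
    S.F ≤ Λ ∧ S.n = p.n ∧ S.ms = p.msG t ∧ S.jl = p.jf ∧ S.Jp = p.Jp P ∧ 2 ≤ e ∧ 1 ≤ p.n * l0 ∧
    l0 ≤ p.ye ∧ (∀ y, l0 ≤ y → y ≤ T0 S (p.gst P t) →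
      S.ms y * Pf y * l ^ 2 ≤ δ ^ 2 * R82.n4 p * y ^ 3) ∧ S.θ * Λ₀ * V4 ≤ δ ^ 2 * R82.n4 p ∧
    S.ms l0 * l ^ 3 ≤ δ * R82.n5 p ∧ S.θ * u1 ≤ δ * R82.n5 p ∧
    ∀ x ∈ Set.Icc a a', ∃ G, MK S (p.gst P t) e Λ m x l Φ Pf l0 Λ₀ Pt u1 V4 G

theorem units (p : Pm) (hn : 0 < (p.n : ℝ)) (Q : ℝ) : ∃ w : ℝ, 0 < w ∧
    R82.n4 p = p.n * (w * p.s ^ 2) ^ 2 ∧ R82.n5 p = w * p.s ^ 5 ∧
      Bud p Q = p.n * (w * (Q * p.s ^ 2 + p.s ^ 5)) := by
  refine ⟨(p.n : ℝ) ^ (-(5 : ℝ) / 6), by positivity, ?_, rfl, ?_⟩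
  · rw [R82.n4, show (-(2 : ℝ) / 3) = 1 + -(5 : ℝ) / 6 + -(5 : ℝ) / 6 by norm_num, rpow_add hn,
      rpow_add hn, rpow_one]
    ring
  · rw [Bud, show ((1 : ℝ) / 6) = 1 + -(5 : ℝ) / 6 by norm_num, rpow_add hn, rpow_one]
    ring

theorem fin_num {Λ K n m w Q s I ms l l0 C θ u1 Bd : ℝ} (Λ1 : 1000 ≤ Λ) (K0 : 0 < K) (KΛ : K ≤ Λ)
    (m0 : 0 < m) (m2 : m ≤ 2 * n) (w0 : 0 < w) (Q0 : 0 ≤ Q) (hs : 0 < s) (I1 : I ≤ Λ)
    (l00 : 0 < l0) (C0 : 0 < C) (hE : C ≤ Λ) (a1 : ms * l ^ 3 ≤ Λ⁻¹ ^ 10 * (w * s ^ 5))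
    (a2 : θ * u1 ≤ Λ⁻¹ ^ 10 * (w * s ^ 5)) (eB : Bd = n * (w * (Q * s ^ 2 + s ^ 5))) :
    m * (Q * (6 * (I * (32 * Λ ^ 5 * Λ⁻¹ ^ 10 * (w * s ^ 2)))) + 2 * (36 * K * (Λ⁻¹ ^ 3 * Bd) / m) +
      32 * (Λ * (ms / l0) * (Λ * l) ^ 3 * (C ^ 2 * l0) + 32 * Λ ^ 3 * Λ * θ * 8 * (2 * u1))) ≤
      Λ⁻¹ * Bd := by
  have Λ0 : 0 < Λ := by linarith
  have n0 : 0 < n := by linarith
  have d0 : 0 ≤ Λ⁻¹ ^ 10 * (w * s ^ 5) := by positivity
  have b1 : Q * (6 * (I * (32 * Λ ^ 5 * Λ⁻¹ ^ 10 * (w * s ^ 2)))) ≤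
      192 * Λ⁻¹ ^ 4 * (w * (Q * s ^ 2)) :=
    calc _ ≤ Q * (6 * (Λ * (32 * Λ ^ 5 * Λ⁻¹ ^ 10 * (w * s ^ 2)))) := by gcongr
      _ = _ := by field_simp; ring
  have b2 : Λ * (ms / l0) * (Λ * l) ^ 3 * (C ^ 2 * l0) ≤ Λ⁻¹ ^ 4 * (w * s ^ 5) :=
    calc _ = Λ ^ 4 * C ^ 2 * (ms * l ^ 3) := by field_simp
      _ ≤ Λ ^ 4 * Λ ^ 2 * (Λ⁻¹ ^ 10 * (w * s ^ 5)) :=
          (mul_le_mul_of_nonneg_left a1 (by positivity)).trans (by gcongr)
      _ = _ := by field_simp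
  have b3 : 32 * Λ ^ 3 * Λ * θ * 8 * (2 * u1) ≤ Λ⁻¹ ^ 4 * (w * s ^ 5) :=
    calc _ = 512 * Λ ^ 4 * (θ * u1) := by ring
      _ ≤ Λ ^ 2 * Λ ^ 4 * (Λ⁻¹ ^ 10 * (w * s ^ 5)) :=
          (mul_le_mul_of_nonneg_left a2 (by positivity)).trans (by gcongr; nlinarith)
      _ = _ := by field_simp
  have b5 : 0 ≤ Λ⁻¹ ^ 4 * (w * s ^ 5) := by positivity
  have b6 : 384 * Λ⁻¹ ^ 4 + 72 * K * Λ⁻¹ ^ 3 ≤ Λ⁻¹ := by
    have i0 : 0 < Λ⁻¹ := by positivity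
    have i1 : Λ⁻¹ ≤ 1 / 1000 := by rw [← one_div]; gcongr
    have i2 : K * Λ⁻¹ ≤ 1 := by rw [← div_eq_mul_inv, div_le_one Λ0]; exact KΛ
    have i3 : Λ⁻¹ ^ 3 ≤ (1 / 1000) ^ 3 := by gcongr
    have i4 := mul_le_mul i2 i1 i0.le zero_le_one
    linarith [mul_le_mul_of_nonneg_right i3 i0.le, mul_le_mul_of_nonneg_right i4 i0.le]
  calc _ ≤ m * (192 * Λ⁻¹ ^ 4 * (w * (Q * s ^ 2 + s ^ 5))) + 72 * K * Λ⁻¹ ^ 3 * Bd := by
        have : m * (2 * (36 * K * (Λ⁻¹ ^ 3 * Bd) / m)) = 72 * K * Λ⁻¹ ^ 3 * Bd := by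
          field_simp; ring
        rw [← this, ← mul_add]
        exact mul_le_mul_of_nonneg_left (by linarith) m0.le
    _ ≤ 2 * n * (192 * Λ⁻¹ ^ 4 * (w * (Q * s ^ 2 + s ^ 5))) + 72 * K * Λ⁻¹ ^ 3 * Bd := by gcongr
    _ = (384 * Λ⁻¹ ^ 4 + 72 * K * Λ⁻¹ ^ 3) * Bd := by rw [eB]; ring
    _ ≤ _ := mul_le_mul_of_nonneg_right b6 (by rw [eB]; positivity)

set_option maxHeartbeats 400000 in
/-- **C3R** -/
theorem c3R_of {β : ℝ} (hβ : 1 < β) (h1 : Gain β ErrR) (h2 : Sml β R82.Co3)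
    (h3 : Sml β fun Λ p => K3 (Λ⁻¹ ^ 10) Λ p) : Gain β C3R := by
  obtain ⟨C, c1, hC⟩ := c3_le
  have k1 := (h1.mono fun _ p _ _ H (_ : 0 ≤ p.s) => H).sml 3 mo_Err
  refine Sml.gain (Sml.glue' hβ (((k1.and h2).and h3).and (fxS hβ)) 2 one_pos 1 ?_)
  intro c0 C0 A c η _ _ _ _
  refine ⟨C * (β ^ 2) ^ 3, fun p H _ _ _ ⟨⟨⟨g1, g2⟩, g4⟩, g3⟩ σ σ' P t a a' Q m cx => ?_⟩
  have hs := H.s0
  have F := g3 σ σ' P t a a' Q m cx
  obtain ⟨S, e, l, Φ, Pf, l0, Λ₀, Pt, u1, V4, cl, hE, hF, hn, ms, jl, Jp, he, l1, l2, q3, t4, a1, a2,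
    mk⟩ := g4 σ σ' P t a a' Q m cx
  obtain ⟨I, hI, I1⟩ := ex_I H cl hE l1
  have N0 := H.N0
  have l00 : 0 < l0 := (mul_pos_iff_of_pos_left N0).1 (one_pos.trans_le l1)
  obtain ⟨w, w0, e4, e5, eB⟩ := units p N0 Q
  set Λ := (p.n : ℝ) ^ η with hΛ
  have Λ1 : 1000 ≤ Λ := H.num_le
  have Λ0 : 0 < Λ := H.Λ0
  have W := wn F cx.Q0
  have Q0 := cx.Q0
  have t0 := F.t0
  have m0 : (0 : ℝ) < m := Nat.cast_pos.2 F.m0
  have m2 : (m : ℝ) ≤ 2 * p.n := by exact_mod_cast cx.m2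
  set K := C * (p.β ^ 2) ^ 3 with hK
  have K0 : 0 < K := by have := H.β1; rw [hK, H.hβ]; positivity
  have KΛ : K ≤ Λ := by rw [hK, H.hβ]; exact H.K_le
  have b0 : 0 ≤ Bud p Q := Bud_nonneg hs.le Q0
  have fr : ∀ x E, ∀ j ∈ (Dd p P t m x E).up,
      c3 (D0 p P t m a) (fd p t) j = c3 (Dd p P t m x E) (fd p t) j := fun x E j hj => by
    obtain ⟨k, rfl, h1, h2⟩ := mem_up hj
    rw [c3, c3, F.tau a _ h2.le, F.tau x _ h2.le, W_free (a := x) (a' := a) (E := E)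
      (Wt := some fun k => (p.gst P t).dz m 0 k * sv p t k) (by omega) F.top.1 (by
        have : k ≠ 0 := by omega
        simp [R1J.ind, this, fd_lo]) k.succ_pos]
  have pf := pf_mt (u1 := u1) H t0 cl ms hE l00 l2 Λ0.le
    (f := fun k => t * c3 (D0 p P t m a) (fd p t) (k + 1)) fun k h1 h2 => by
      rw [abs_mul, abs_of_pos t0]
      exact g2 σ σ' P t a a' Q m cx a W.lo k (jl ▸ h1) (Jp ▸ h2)
  have θ0 := cl.θ0
  have F0 : 0 ≤ S.F := zero_le_one.trans cl.F1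
  have key := cub_err W cl pf l00.le hI (v := 32 * Λ ^ 5 * Λ⁻¹ ^ 10 * (w * p.s ^ 2)) (by positivity)
    he mk (B := 36 * K * (Λ⁻¹ ^ 3 * Bud p Q) / m) (fun y y1 y2 => by
      have y0 := l00.trans_le y1
      have := cl.ms_pos y0.le
      have z := q3 y y1 y2
      rw [e4] at z
      calc _ = 16 * Λ ^ 3 * S.F * (S.ms y * Pf y * l ^ 2) / (p.n * y ^ 3) := by
            rw [max_eq_left y1, Sc.w3, hn]; field_simp; ring
        _ ≤ 16 * Λ ^ 3 * Λ * ((Λ⁻¹ ^ 10) ^ 2 * (p.n * (w * p.s ^ 2) ^ 2) * y ^ 3) / (p.n * y ^ 3) :=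
            div_le_div_of_nonneg_right ((mul_le_mul_of_nonneg_left z (by positivity)).trans
              (by gcongr)) (by positivity)
        _ = 16 * Λ ^ 4 * (Λ⁻¹ ^ 10 * (w * p.s ^ 2)) ^ 2 := by field_simp
        _ ≤ 32 ^ 2 * Λ ^ 10 * (Λ⁻¹ ^ 10 * (w * p.s ^ 2)) ^ 2 := by
            gcongr
            exacts [by norm_num, by linarith, by norm_num]
        _ = _ := by ring) (by
      rw [e4] at t4
      calc _ = 32 ^ 2 * Λ ^ 9 * S.F * (S.θ * Λ₀ * V4) / p.n := by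
            rw [Sc.w3, hn, ← Sc.θ]; field_simp
        _ ≤ 32 ^ 2 * Λ ^ 9 * Λ * ((Λ⁻¹ ^ 10) ^ 2 * (p.n * (w * p.s ^ 2) ^ 2)) / p.n :=
            div_le_div_of_nonneg_right ((mul_le_mul_of_nonneg_left t4 (by positivity)).trans
              (by gcongr)) N0.le
        _ = _ := by field_simp) fun x hx => by
      obtain ⟨E, ok, er⟩ := g1 hs.le σ σ' P t a a' Q m cx x hx
      have := rem_cd F.m0 F.cut ok (mul_pos t0 K0).le
        (c := fun j => t * c3 (D0 p P t m a) (fd p t) j) fun j hj => by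
          rw [fr x E j hj, abs_mul, abs_of_pos t0, mul_assoc]
          exact mul_le_mul_of_nonneg_left (hC _ _ _ _ j ok (F.tw x E) hj
            (le_min zero_le_one (ok.e0 j)) (le_min (min_le_left _ _) (ok.esc j hj))) t0.le
      rw [jl, le_div_iff₀' m0]
      calc _ ≤ m * (36 * (t * K) * (Dd p P t m x E).Err) := mul_le_mul_of_nonneg_left this m0.le
        _ = 36 * K * (t * (m * (Dd p P t m x E).Err)) := by ring
        _ ≤ _ := by gcongr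
  change t * (m * |(D0 p P t m a).I _|) ≤ _
  rw [W.I_u3 (Nat.succ_pos _), mul_left_comm, ← abs_of_pos t0, ← abs_mul, abs_of_pos t0]
  rw [jl] at key
  simp only [Da, mul_assoc t, mul_left_comm _ t, ← mul_sum, ← mul_sub] at key
  refine (mul_le_mul_of_nonneg_left key m0.le).trans ?_
  rw [e5] at a1 a2
  exact fin_num Λ1 K0 KΛ m0 m2 w0 Q0 hs I1 l00 cl.C0 hE a1 a2 eB

/-- the kit of `R1Def_82` -/
theorem k3_kit {β : ℝ} (hβ : 1 < β) (h : Sml β R82.Kit) : Sml β fun Λ p => K3 (Λ⁻¹ ^ 10) Λ p := by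
  refine Sml.glue' hβ (h.and (fxS hβ)) 2 one_pos 1 ?_
  intro c0 C0 A c η _ _ _ _
  refine ⟨1, fun p H _ _ _ ⟨g, g3⟩ σ σ' P t a a' Q m cx => ?_⟩
  have F := g3 σ σ' P t a a' Q m cx
  obtain ⟨S, l, Φ, Pf, l0, Λ₀, Pt, u1, V4, sc, nr, bk⟩ := g σ t P cx.oct' cx.pl
  set Λ := (p.n : ℝ) ^ η with hΛ
  have Λ1 : 1 ≤ Λ := le_trans (by norm_num) H.num_le
  have d0 : 0 < 1 / Λ ^ 200 := by positivity
  have d1 : 1 / Λ ^ 200 ≤ Λ⁻¹ ^ 10 := by
    rw [inv_pow, one_div]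
    exact inv_anti₀ (by positivity) (pow_le_pow_right₀ Λ1 (by norm_num))
  have d2 : 1 / Λ ^ 200 ≤ 1 := (div_le_one (by positivity)).2 (one_le_pow₀ Λ1)
  have s0 := H.s0
  have N0 := H.N0
  have r0 := H.r0
  have n4 : (1 / Λ ^ 200) ^ 2 * R82.n4 p ≤ (Λ⁻¹ ^ 10) ^ 2 * R82.n4 p := by
    unfold R82.n4; gcongr
  have n5 : 1 / Λ ^ 200 * R82.n5 p ≤ Λ⁻¹ ^ 10 * R82.n5 p := by unfold R82.n5; gcongr
  have l00 := r0.trans_le nr.r0
  have θ0 := sc.cl.θ0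
  obtain ⟨u0, u2, -, u3⟩ := nr.Pt0
  refine ⟨S, 8, l, Φ, Pf, l0, Λ₀, Pt, u1, V4, sc.cl, sc.C, sc.F.trans_le Λ1, sc.n, sc.ms, sc.jl, sc.Jp,
    by norm_num, ?_, nr.l0l.trans (nr.ly.trans (mul_le_of_le_one_left F.y0.le d2)),
    fun y y1 y2 => ?_, le_trans ?_ (nr.c.trans n4), nr.l3 ▸ nr.a.trans n5,
    (mul_le_mul_of_nonneg_left u3 θ0.le).trans (nr.d.trans n5), fun x hx => ?_⟩
  · refine le_trans ?_ (mul_le_mul_of_nonneg_left nr.r0 N0.le)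
    refine H.le_of_lg one_pos (by positivity) ?_
    rw [logb_mul N0.ne' r0.ne', H.lg_n, H.lg_r, logb_one]
    linarith [H.lg_s.1, H.c_pos]
  · have y0 := l00.trans_le y1
    have := (nr.b y y1 y2).trans n4
    rw [div_le_iff₀ (by positivity)] at this
    have a0 := mul_nonneg (sc.cl.ms_pos y0.le).le (nr.P0 y).1
    have a1 : l ^ 2 * y ≤ max y l ^ 3 := by
      rw [pow_succ _ 2]
      exact mul_le_mul (pow_le_pow_left₀ (l00.le.trans nr.l0l) (le_max_right _ _) 2) (le_max_left _ _)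
        y0.le (sq_nonneg _)
    refine le_of_mul_le_mul_right ?_ y0
    linarith [mul_le_mul_of_nonneg_left a1 a0]
  · exact mul_le_mul_of_nonneg_left (by linarith [pow_pos r0 4])
      (mul_nonneg θ0.le (zero_le_one.trans nr.L1))
  · exact (bk m x ⟨sc.n ▸ cx.m1, sc.n ▸ cx.m2, sc.n ▸ cx.win.lo.trans hx.1,
      sc.am ▸ hx.2.trans F.a1⟩).imp fun _ b => b.mk'

/-- **C3R from the two inputs** -/
theorem from_C3R (h : R82.From ErrR) : R82.From C3R := fun β hβ hC hK =>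
  c3R_of hβ (h β hβ hC hK) (hC.mono fun _ _ h => h.2.2.1) (k3_kit hβ hK)

end Crest.Agent.T156.Alt.C379

end
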