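import Crest.Agent.T156.PlO_13
import Crest.Agent.T156.GrDef_62

/-!
# Row 156, ALT: the plateau half of the membership of the mixed graded members (helper13)
-/

set_option autoImplicit false
set_option linter.unusedSectionVars false

noncomputable section

namespace Crest.Agent.T156.Alt.Plt13

open Real Set Finset
open Crest.Agent.T156.Alt.Mem37

theorem tele_Ioc (g : ℕ → ℝ) {m n : ℕ} (h : m ≤ n) :
    ∑ k ∈ Finset.Ioc m n, (g k - g (k - 1)) = g n - g m := by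
  induction n, h using Nat.le_induction with
  | base => simp
  | succ n hn ih => rw [Finset.sum_Ioc_succ_top hn, ih, Nat.add_sub_cancel]; ring

namespace Nm

variable {p : Pm} {ν : ℝ} (h : Nm p ν)
include h

theorem u0_cube : u0 p ν ^ 3 = p.la ν ^ 2 := by
  unfold u0
  rw [← rpow_natCast, ← rpow_mul h.lp.le, ← rpow_natCast]
  norm_num

/-- below `xs`: taper plus top part -/
theorem rF_sq_lo {K x : ℝ} (K0 : 0 < K) (hK : 1 / K ≤ 1 - p.xs) (hx : x ≤ p.xs) :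
    p.rF ν x ^ 2 ≤ 2 * p.rB ν x ^ 2 + 8 * K * p.la ν ^ 2 := by
  have u : 0 < 1 - x := by linarith [h.xs1]
  have b := h.top_bd (x := x) (by linarith)
  have c := h.rT_le (1 - x)
  have d := pow_le_pow_left₀ b.1 (b.2.trans c) 2
  have e : (2 * (p.la ν / √(1 - x))) ^ 2 = 4 * p.la ν ^ 2 / (1 - x) := by
    rw [mul_pow, div_pow, sq_sqrt u.le]; ring
  have f : 4 * p.la ν ^ 2 / (1 - x) ≤ 4 * K * p.la ν ^ 2 := by
    rw [div_le_iff₀ K0] at hK
    rw [div_le_iff₀ u]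
    have : 1 ≤ K * (1 - x) := by nlinarith
    nlinarith [mul_le_mul_of_nonneg_left this (sq_nonneg (p.la ν))]
  unfold Pm.rF
  nlinarith [sq_nonneg (p.rB ν x - (p.rT ν (1 - max x (1 / 2)) - p.rT ν (1 / 2)))]

/-- the last cell -/
theorem rF_sq_last {x : ℝ} (h0 : p.xs ≤ x) (h1 : x < 1) (h2 : 1 - x ≤ 1 / p.n) :
    (1 - x) * p.rF ν x ^ 2 ≤ 4 * p.la ν ^ 2 := by
  have u : 0 < 1 - x := by linarith
  have s := sqrt_pos.2 u
  have a := (h.rF_bd h1).2.2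
  have f : fb (p.la ν) (x - p.xs + u0 p ν) ≤ p.la ν / √(1 - x) :=
    div_le_div_of_nonneg_left h.lp.le s (sqrt_le_sqrt (by linarith [h.nl, h.l_le_u0]))
  have q : 0 ≤ p.la ν / √(1 - x) := div_nonneg h.lp.le s.le
  have b : -(2 * (p.la ν / √(1 - x))) ≤ p.rF ν x := by
    rw [h.rF_hi h0]; linarith [(h.top_bd h1).1]
  have c := sq_le_sq' b a
  have e : (1 - x) * (2 * (p.la ν / √(1 - x))) ^ 2 = 4 * p.la ν ^ 2 := by
    rw [mul_pow, div_pow, sq_sqrt u.le]; field_simp; ring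
  nlinarith [mul_le_mul_of_nonneg_left c u.le]

/-- **second moment of `rF ν` over all nodes above `jl`** (any shell grid, any spread) -/
theorem gtp {c0 C0 η Y K : ℝ} {P : Pl} {om : ℕ → ℝ} (G : Geo c0 C0 η Y p P om)
    (S : Shg p ν P.x P.I) (e2 : 1 - P.x P.I ≤ 1 / p.n) (K0 : 0 < K) (hK : 1 / K ≤ 1 - p.xs)
    {jl : ℕ} (hj : jl < p.J) :
    ∑ k ∈ Finset.Ioc jl (p.Jp P), (p.zP P k - p.zP P (k - 1)) * p.rF ν (p.xP P k) ^ 2 ≤
      (406 + 8 * K) * (p.la ν ^ 2 * log p.n) := by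
  have J0 := G.J0
  have l1 := h.l1
  have q := sq_nonneg (p.la ν)
  rw [← Finset.sum_Ioc_consecutive _ (show jl ≤ p.J - 1 by omega)
    (show p.J - 1 ≤ p.Jp P from (Nat.sub_le _ _).trans J_le)]
  have A : ∑ k ∈ Finset.Ioc jl (p.J - 1), (p.zP P k - p.zP P (k - 1)) * p.rF ν (p.xP P k) ^ 2 ≤
      2 * (p.la ν ^ 2 * log p.n) + 8 * K * p.la ν ^ 2 := by
    set a := p.xs - log p.n * u0 p ν with ha
    have L0 : 0 ≤ log p.n * u0 p ν := mul_nonneg (by linarith) h.u0p.le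
    have t := tele_Ioc (fun k => 2 * u0 p ν ^ 2 * max (p.z k) a + 8 * K * p.la ν ^ 2 * p.z k)
      (show jl ≤ p.J - 1 by omega)
    refine (Finset.sum_le_sum fun k hk => ?_).trans (t.le.trans ?_)
    · have hk := Finset.mem_Ioc.1 hk
      have m : p.z (k - 1) ≤ p.z k := G.base.lab.mono (Nat.sub_le _ _)
      have x1 : p.z (k - 1) ≤ p.xs := G.base.lab.mono (by omega)
      rw [xP_lo (by have := J_le (p := p) (P := P); omega), zP_lo (by omega), zP_lo (by omega)]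
      have b := mul_le_mul_of_nonneg_left (h.rF_sq_lo K0 hK x1) (sub_nonneg.2 m)
      have c : (p.z k - p.z (k - 1)) * p.rB ν (p.z (k - 1)) ^ 2 ≤
          u0 p ν ^ 2 * (max (p.z k) a - max (p.z (k - 1)) a) := by
        rcases le_total (p.z (k - 1)) a with e | e
        · rw [rB_eq, Rs13.r1_zero h.lp (by linarith) (by unfold u0 at ha; linarith)]
          have := max_le_max m (le_refl a)
          nlinarith [mul_nonneg (sq_nonneg (u0 p ν)) (sub_nonneg.2 this)]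
        · rw [max_eq_left e, max_eq_left (e.trans m), mul_comm]
          have r := Rs13.r1_bd (lg := log p.n) (xs := p.xs) h.lp (p.z (k - 1))
          refine mul_le_mul_of_nonneg_right (sq_le_sq' r.1 ?_) (sub_nonneg.2 m)
          exact r.2.trans h.u0p.le
      linarith
    · have e : p.z (p.J - 1) = p.xs := rfl
      simp only [e]
      rw [max_eq_left (by linarith : a ≤ p.xs)]
      have z0 : 0 ≤ p.z jl := (G.base.lab.pos.trans_le (G.base.lab.mono (Nat.zero_le _))).le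
      have b := mul_le_mul_of_nonneg_left (le_max_right (p.z jl) a) (sq_nonneg (u0 p ν))
      have c : u0 p ν ^ 2 * (log p.n * u0 p ν) = p.la ν ^ 2 * log p.n := by rw [← h.u0_cube]; ring
      have d := mul_le_mul_of_nonneg_left (show p.xs - p.z jl ≤ 1 by linarith [h.xs1])
        (mul_nonneg K0.le q)
      rw [ha] at b ⊢
      nlinarith
  have B : ∑ k ∈ Finset.Ioc (p.J - 1) (p.Jp P),
      (p.zP P k - p.zP P (k - 1)) * p.rF ν (p.xP P k) ^ 2 ≤
      400 * (p.la ν ^ 2 * log p.n) + 4 * p.la ν ^ 2 := by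
    have e : Finset.Ioc (p.J - 1) (p.Jp P) = Finset.Ico p.J (p.J + (P.I + 1)) := by
      ext k; simp only [Finset.mem_Ioc, Finset.mem_Ico, Pm.Jp]; omega
    rw [e, Finset.sum_Ico_eq_sum_range, Nat.add_sub_cancel_left, Finset.sum_range_succ]
    refine add_le_add (le_trans (Finset.sum_le_sum fun i hi => ?_) (S.sum_env h)) ?_
    · have hi := Finset.mem_range.1 hi
      have z := G.zP_x (i := i + 1) hi
      rw [show p.J + (i + 1) - 1 = p.J + i by omega] at z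
      rw [z, G.zP_x hi.le, G.xP_x hi.le]
      refine mul_le_mul_of_nonneg_left ?_ (sub_nonneg.2 (S.mono i hi))
      rw [← sq_abs]
      exact pow_le_pow_left₀ (abs_nonneg _) (h.abs_rF_env (S.ge hi.le) (S.lt h hi.le)) 2
    · rw [zP_hi (k := p.J + P.I) le_rfl, G.zP_x le_rfl, G.xP_x le_rfl]
      exact h.rF_sq_last (S.ge le_rfl) (S.lt h le_rfl) e2
  nlinarith [mul_le_mul_of_nonneg_left l1 q, mul_le_mul_of_nonneg_left l1 (mul_nonneg K0.le q)]

/-- steps of `rF ν` on the sloped labels -/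
theorem rF_step_lo {c0 C0 η Y K : ℝ} {P : Pl} {om : ℕ → ℝ} (G : Geo c0 C0 η Y p P om)
    (K1 : 1 ≤ K) (_C1 : 0 ≤ C0) (hK : 1 / K ≤ 1 - p.xs) (hl : 12 * K * C0 ≤ log p.n)
    (hla : p.la ν * C0 * K ≤ 1) {k : ℕ} (k0 : 0 < k) (hk : k < p.J) :
    -(p.v / (8 * K)) ≤ p.rF ν (p.z k) - p.rF ν (p.z (k - 1)) ∧
      p.rF ν (p.z k) - p.rF ν (p.z (k - 1)) ≤ K * p.v := by
  have v := h.v0
  have K0 : 0 < K := by linarith
  have l1 := h.l1
  have m : p.z (k - 1) ≤ p.z k := G.base.lab.mono (Nat.sub_le _ _)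
  have x1 : p.z k ≤ p.xs := G.base.lab.mono (by omega)
  have d : p.z k - p.z (k - 1) ≤ C0 * p.v := by
    have := (G.base.slo (k - 1) (by omega)).2
    unfold Pr.dm at this
    rwa [Nat.sub_add_cancel k0] at this
  have a := h.rF_sub_lo m x1
  refine ⟨le_trans (neg_le_neg ?_) a.1, a.2.trans ?_⟩
  · refine (mul_le_mul_of_nonneg_left d (by positivity)).trans ?_
    rw [div_mul_eq_mul_div, div_le_div_iff₀ (by positivity) (by positivity)]
    nlinarith [mul_le_mul_of_nonneg_right hl v.le]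
  · have u : 1 / K ≤ 1 - p.z k := by linarith
    have u0 : 0 < 1 - p.z k := (one_div_pos.2 K0).trans_le u
    have u1 : 1 - p.z k ≤ 1 := by
      linarith [G.base.lab.pos.trans_le (G.base.lab.mono (Nat.zero_le k))]
    have s : 1 - p.z k ≤ √(1 - p.z k) := le_sqrt_of_sq_le (by nlinarith)
    rw [div_le_iff₀ K0] at u
    rw [div_le_iff₀ (mul_pos u0 (sqrt_pos.2 u0))]
    have e1 : 1 ≤ K * √(1 - p.z k) := by nlinarith
    have e2 : 1 * 1 ≤ (1 - p.z k) * K * (K * √(1 - p.z k)) := mul_le_mul u e1 zero_le_one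
      (by positivity)
    have e3 := mul_le_mul_of_nonneg_left d h.lp.le
    have e4 := mul_le_mul_of_nonneg_right hla v.le
    have e5 := mul_le_mul_of_nonneg_right e2 v.le
    refine le_of_mul_le_mul_right ?_ K0
    nlinarith [mul_le_mul_of_nonneg_right e3 K0.le]

end Nm

/-- the plateau fields of `MemD` -/
structure PlH (K : ℝ) (p : Pm) (P : Pl) (om : ℕ → ℝ) (jl : ℕ) (ms den : ℝ → ℝ) (g2 u0 ue : ℝ) :
    Prop where
  z0 : ∀ x, x ≤ 1 / (2 * K) → P.rs x = 0 ∧ P.hs x = 0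
  sl : ∀ k, jl < k → k < p.J → -(p.v / (8 * K)) ≤ P.rs (p.z k) - P.rs (p.z (k - 1)) ∧
    P.rs (p.z k) - P.rs (p.z (k - 1)) ≤ K * p.v ∧
    -(ms (p.sO P om k) * p.v / (4 * K)) ≤ P.hs (p.z k) - P.hs (p.z (k - 1))
  pc : ∀ i < P.I, p.v / K ≤ P.γ * (P.x (i + 1) - P.x i) + (P.rs (P.x (i + 1)) - P.rs (P.x i)) ∧
    P.γ * (P.x (i + 1) - P.x i) + (P.rs (P.x (i + 1)) - P.rs (P.x i)) ≤ K * p.v ∧
    0 ≤ P.rs (P.x (i + 1)) - P.rs (P.x i) ∧
    ms 1 / K * (P.rs (P.x (i + 1)) - P.rs (P.x i)) ≤ P.hs (P.x (i + 1)) - P.hs (P.x i)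
  hN : P.hs (P.x P.I) ≤ K * p.A * log p.n
  Gtp : ∑ k ∈ Finset.Ioc jl (p.Jp P), (p.zP P k - p.zP P (k - 1)) * P.hs (p.xP P k) ^ 2 ≤ g2
  plat : ∀ i < P.I, p.v / K ≤ (P.x (i + 1) - P.x i) * den (P.x i) ∧
    (P.x (i + 1) - P.x i) * den (P.x i) ≤ K * p.v
  den0 : ∀ x, 0 < den x
  dens : ∀ x x', p.xs ≤ x → x ≤ x' → x' < 1 → x' - x ≤ min (x - p.xs + u0) (1 - x') →
    den x ≤ K * den x' ∧ den x' ≤ K * den x
  last : 1 - P.x P.I ≤ ue
  /-- upper increments of the field (ceiling) -/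
  up1 : ∀ k, jl < k → k < p.J → P.hs (p.z k) - P.hs (p.z (k - 1)) ≤ K * (ms (p.sO P om k) * p.v)
  up2 : ∀ i < P.I, P.hs (P.x (i + 1)) - P.hs (P.x i) ≤ K * (ms 1 * p.v)

theorem mixG_rs {p : Pm} {μ μ' : ℝ} {P P' : Pl} (H : p.PlG μ P) (H' : p.PlG μ' P') (t x : ℝ) :
    (P.mix P' t).rs x = (1 - t) * p.rF (p.mt μ) x + t * p.rF (p.mt μ') x := by
  simp only [Pl.mix, H.rs, H'.rs]

theorem mixG_hs {p : Pm} {μ μ' : ℝ} {P P' : Pl} (H : p.PlG μ P) (H' : p.PlG μ' P') (t x : ℝ) :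
    (P.mix P' t).hs x = (1 - t) * (μ * p.rF (p.mt μ) x) + t * (μ' * p.rF (p.mt μ') x) := by
  simp only [Pl.mix, H.hs, H'.hs]

theorem mt_cp {p : Pm} {μ μ' : ℝ} (hn : (0 : ℝ) < p.n) (hκ : 0 < p.κ) (h0 : 0 < μ) (h1 : μ ≤ μ')
    (h2 : μ' ≤ 4 * μ) : Cp p (p.mt μ) (p.mt μ') := by
  have k : 0 < p.κ ^ 3 := pow_pos hκ 3
  have w : 0 < p.κ * (p.n : ℝ) ^ (-(1 : ℝ) / 3) := mul_pos hκ (rpow_pos_of_pos hn _)
  have a : 0 < p.mt μ := lt_min (div_pos h0 k) (lt_max_of_lt_left h0)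
  have b : p.mt μ ≤ p.mt μ' :=
    min_le_min (div_le_div_of_nonneg_right h1 k.le) (max_le_max h1 le_rfl)
  refine cp_of hn a (a.trans_le b) ?_ (by linarith)
  unfold Pm.mt
  rw [mul_min_of_nonneg _ _ (by norm_num : (0 : ℝ) ≤ 4), mul_max_of_nonneg _ _ (by norm_num : (0 : ℝ) ≤ 4),
    ← mul_div_assoc]
  exact min_le_min (div_le_div_of_nonneg_right h2 k.le) (max_le_max h2 (by linarith))

theorem cvx_sq {t : ℝ} (t0 : 0 ≤ t) (t1 : t ≤ 1) (a b : ℝ) :
    ((1 - t) * a + t * b) ^ 2 ≤ a ^ 2 + b ^ 2 := by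
  have s0 := sub_nonneg.2 t1
  nlinarith [mul_nonneg (mul_nonneg s0 t0) (sq_nonneg (a - b)), mul_nonneg t0 (sq_nonneg a),
    mul_nonneg s0 (sq_nonneg b)]

section sums
variable {c0 C0 η Y K μ μ' t : ℝ} {p : Pm} {P P' : Pl} {om : ℕ → ℝ} {jl : ℕ}
  (G : Geo c0 C0 η Y p (P.mix P' t) om) (h : Nm p (p.mt μ)) (h' : Nm p (p.mt μ'))
  (c : Cp p (p.mt μ) (p.mt μ')) (H : p.PlG μ P)
include G h h' c H

theorem sum_two (K0 : 0 < K) (kx : 1 / K ≤ 1 - p.xs) (hj : jl < p.J) :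
    ∑ k ∈ Finset.Ioc jl (p.Jp (P.mix P' t)),
      (p.zP (P.mix P' t) k - p.zP (P.mix P' t) (k - 1)) *
        (p.rF (p.mt μ) (p.xP (P.mix P' t) k) ^ 2 + p.rF (p.mt μ') (p.xP (P.mix P' t) k) ^ 2) ≤
      5 * (406 + 8 * K) * (p.la (p.mt μ) ^ 2 * log p.n) := by
  have O := H.ok
  have e2 : 1 - P.x P.I ≤ 1 / p.n := by
    have np := h.np
    have e : (p.n : ℝ) ^ (-(2 : ℝ)) = 1 / (p.n : ℝ) ^ 2 := by rw [rpow_neg np.le]; norm_num
    exact (O.e2.trans e.le).trans (one_div_le_one_div_of_le np (by nlinarith [h.n2]))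
  have S : Shg p (p.mt μ) P.x P.I := by have := shg_of h O; exact this
  have S' : Shg p (p.mt μ') P.x P.I := by have := shg_cp h h' c O; exact this
  have a := h.gtp G S e2 K0 kx hj
  have b := h'.gtp G S' e2 K0 kx hj
  have q : p.la (p.mt μ') ^ 2 ≤ 4 * p.la (p.mt μ) ^ 2 := by nlinarith [c.l1, h'.lp]
  have q' := mul_le_mul_of_nonneg_left (mul_le_mul_of_nonneg_right q
    (show 0 ≤ log (p.n : ℝ) by linarith [h.l1])) (show 0 ≤ 406 + 8 * K by linarith)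
  simp only [mul_add (_ - _ : ℝ), Finset.sum_add_distrib]
  linarith

/-- **second moment of the clock shift of the mixtures** -/
theorem r2_mix (H' : p.PlG μ' P') (t0 : 0 ≤ t) (t1 : t ≤ 1) (K0 : 0 < K) (kx : 1 / K ≤ 1 - p.xs)
    (hj : jl < p.J) :
    ∑ k ∈ Finset.Ioc jl (p.Jp (P.mix P' t)), (p.zP (P.mix P' t) k - p.zP (P.mix P' t) (k - 1)) *
      (P.mix P' t).rs (p.xP (P.mix P' t) k) ^ 2 ≤
      5 * (406 + 8 * K) * (p.la (p.mt μ) ^ 2 * log p.n) := by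
  refine le_trans (Finset.sum_le_sum fun k _ => ?_) (sum_two G h h' c H K0 kx hj)
  refine mul_le_mul_of_nonneg_left ?_ (sub_nonneg.2 (G.zP_mono (Nat.sub_le k 1)))
  rw [mixG_rs H H']
  exact cvx_sq t0 t1 _ _

/-- **second moment of the field of the mixtures** (`g2P`) -/
theorem g2_mix {θ : ℝ} (H' : p.PlG μ' P') (t0 : 0 ≤ t) (t1 : t ≤ 1) (K0 : 0 < K)
    (kx : 1 / K ≤ 1 - p.xs) (μ0 : 0 ≤ μ) (μ0' : 0 ≤ μ') (a2 : μ ≤ θ) (b2 : μ' ≤ θ)
    (hj : jl < p.J) :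
    ∑ k ∈ Finset.Ioc jl (p.Jp (P.mix P' t)), (p.zP (P.mix P' t) k - p.zP (P.mix P' t) (k - 1)) *
      (P.mix P' t).hs (p.xP (P.mix P' t) k) ^ 2 ≤
      5 * (406 + 8 * K) * (θ ^ 2 * (p.la (p.mt μ) ^ 2 * log p.n)) := by
  have s := mul_le_mul_of_nonneg_left (sum_two G h h' c H K0 kx hj) (sq_nonneg θ)
  refine le_trans ?_ (s.trans (le_of_eq (by ring)))
  rw [Finset.mul_sum]
  refine Finset.sum_le_sum fun k _ => ?_
  rw [mul_left_comm (θ ^ 2)]
  refine mul_le_mul_of_nonneg_left ?_ (sub_nonneg.2 (G.zP_mono (Nat.sub_le k 1)))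
  rw [mixG_hs H H']
  refine (cvx_sq t0 t1 _ _).trans ?_
  rw [mul_pow, mul_pow, mul_add]
  exact add_le_add (mul_le_mul_of_nonneg_right (pow_le_pow_left₀ μ0 a2 2) (sq_nonneg _))
    (mul_le_mul_of_nonneg_right (pow_le_pow_left₀ μ0' b2 2) (sq_nonneg _))

/-- sup of the clock shift of the mixtures -/
theorem rs_mix_log (H' : p.PlG μ' P') (t0 : 0 ≤ t) (t1 : t ≤ 1) {x : ℝ} (hx : x ≤ P.x P.I) :
    |(P.mix P' t).rs x| ≤ 6 * log p.n := by
  have e : (p.n : ℝ) ^ (-(3 : ℝ)) ≤ 1 - x := by linarith [show _ ≤ 1 - P.x P.I from H.ok.e1]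
  have a := abs_le.1 (h.abs_rF_log e)
  have b := abs_le.1 (h'.abs_rF_log e)
  have s0 := sub_nonneg.2 t1
  rw [mixG_rs H H', abs_le]
  constructor
  · linarith [mul_le_mul_of_nonneg_left a.1 s0, mul_le_mul_of_nonneg_left b.1 t0]
  · linarith [mul_le_mul_of_nonneg_left a.2 s0, mul_le_mul_of_nonneg_left b.2 t0]

end sums

/-- **the plateau half of `MemD` for the mixtures** (`θ = ms 1`) -/
theorem plH_mix {c0 C0 η Y K y μ μ' t : ℝ} {p : Pm} {P P' : Pl} {om : ℕ → ℝ} {jl : ℕ}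
    {ms : ℝ → ℝ} (G : Geo c0 C0 η Y p (P.mix P' t) om) (h : Nm p (p.mt μ)) (h' : Nm p (p.mt μ'))
    (c : Cp p (p.mt μ) (p.mt μ')) (H : p.PlG μ P) (H' : p.PlG μ' P') (t0 : 0 ≤ t) (t1 : t ≤ 1)
    (hK : 18252 ≤ K) (C1 : 0 ≤ C0) (A1 : 1 ≤ p.A) (atom : 1 / K ≤ p.xs ∧ p.xs ≤ 1 - 1 / K)
    (hu : 4 * K * (log p.n * u0 p (p.mt μ)) ≤ 1) (hl : 12 * K * C0 ≤ log p.n)
    (hla : 2 * p.la (p.mt μ) * C0 * K ≤ 1) (hy : 2 * C0 * y + η ≤ 1 / (2 * K))
    (m0 : ∀ s, 0 ≤ ms s) (my : ∀ s, y ≤ s → ms s = ms 1) (m1 : ms 1 ≤ 1)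
    (a1 : ms 1 ≤ K * μ) (a2 : μ ≤ ms 1) (b1 : ms 1 ≤ K * μ') (b2 : μ' ≤ ms 1) (hj : jl < p.J) :
    PlH K p (P.mix P' t) om jl ms (dn p (p.mt μ))
      (5 * (406 + 8 * K) * (ms 1 ^ 2 * (p.la (p.mt μ) ^ 2 * log p.n))) (u0 p (p.mt μ))
      ((p.n : ℝ) ^ (-(2 : ℝ))) := by
  set ν := p.mt μ with hν
  set ν' := p.mt μ' with hν'
  have K0 : 0 < K := by linarith
  have v := h.v0
  have l1 := h.l1
  have θ0 := m0 1
  have μ0 : 0 ≤ μ := by by_contra e; nlinarith [not_le.1 e]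
  have μ0' : 0 ≤ μ' := by by_contra e; nlinarith [not_le.1 e]
  have s0 : 0 ≤ 1 - t := by linarith
  have O := H.ok
  have kx : 1 / K ≤ 1 - p.xs := by linarith [atom.2]
  have Z : ∀ x, x ≤ 1 / (2 * K) → p.rF ν x = 0 ∧ p.rF ν' x = 0 := fun x hx => by
    have e : 1 / (2 * K) = 1 / K / 2 := by field_simp
    have a : 1 / (2 * K) ≤ 1 / 2 := one_div_le_one_div_of_le (by norm_num) (by linarith)
    have b : 2 * log p.n * u0 p ν ≤ 1 / (2 * K) := by rw [le_div_iff₀ (by positivity)]; linarith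
    have L := mul_nonneg (show 0 ≤ log (p.n : ℝ) by linarith) h.u0p.le
    exact ⟨h.rF_zero (by linarith) (by linarith [atom.1]),
      rF_zero_cp h h' c (by linarith) (by linarith [atom.1])⟩
  have St : ∀ k, jl < k → k < p.J →
      (-(p.v / (8 * K)) ≤ p.rF ν (p.z k) - p.rF ν (p.z (k - 1)) ∧
        p.rF ν (p.z k) - p.rF ν (p.z (k - 1)) ≤ K * p.v) ∧
      (-(p.v / (8 * K)) ≤ p.rF ν' (p.z k) - p.rF ν' (p.z (k - 1)) ∧
        p.rF ν' (p.z k) - p.rF ν' (p.z (k - 1)) ≤ K * p.v) := fun k k0 hk =>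
    ⟨h.rF_step_lo G (by linarith) C1 kx hl
      (by nlinarith [mul_nonneg (mul_nonneg h.lp.le C1) K0.le]) (by omega) hk,
    h'.rF_step_lo G (by linarith) C1 kx hl
      (by nlinarith [mul_le_mul_of_nonneg_right c.l1 (mul_nonneg C1 K0.le)]) (by omega) hk⟩
  have Ms : ∀ k, k < p.J → 1 / (2 * K) ≤ p.z k → ms (p.sO (P.mix P' t) om k) = ms 1 :=
    fun k hk hz => by
    refine my _ ?_
    have a := G.base.lin k
    have b := (G.s_inc (Nat.zero_le k) hk.le).1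
    rw [G.sP_zero] at b
    push_cast at b
    by_contra e
    have e := not_le.1 e
    rcases C1.eq_or_lt with f | f
    · have := G.base.z0
      rw [← f] at this
      linarith [G.base.lab.pos]
    · nlinarith
  have Hs : ∀ k, jl < k → k < p.J →
      -(ms (p.sO (P.mix P' t) om k) * p.v / (4 * K)) ≤
        (P.mix P' t).hs (p.z k) - (P.mix P' t).hs (p.z (k - 1)) ∧
      (P.mix P' t).hs (p.z k) - (P.mix P' t).hs (p.z (k - 1)) ≤
        K * (ms (p.sO (P.mix P' t) om k) * p.v) := fun k k0 hk => by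
    rw [mixG_hs H H', mixG_hs H H']
    rcases le_total (p.z k) (1 / (2 * K)) with e | e
    · have a := Z _ e
      have b := Z _ ((G.base.lab.mono (Nat.sub_le k 1)).trans e)
      have := m0 (p.sO (P.mix P' t) om k)
      rw [← hν, ← hν', a.1, a.2, b.1, b.2]
      simp only [mul_zero, add_zero, sub_zero, neg_nonpos]
      constructor <;> positivity
    · rw [Ms k hk e, ← hν, ← hν']
      obtain ⟨⟨a, b⟩, a', b'⟩ := St k k0 hk
      set w := p.v / (8 * K) with hw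
      have w0 : 0 ≤ w := by positivity
      have e1 : ms 1 * p.v / (4 * K) = 2 * (ms 1 * w) := by rw [hw]; field_simp; ring
      have Kv : 0 ≤ K * p.v := by positivity
      have f1 := mul_le_mul_of_nonneg_left ((neg_le_neg (mul_le_mul_of_nonneg_right a2 w0)).trans
        (by linarith [mul_le_mul_of_nonneg_left a μ0] :
          -(μ * w) ≤ μ * (p.rF ν (p.z k) - p.rF ν (p.z (k - 1))))) s0
      have f2 := mul_le_mul_of_nonneg_left ((neg_le_neg (mul_le_mul_of_nonneg_right b2 w0)).trans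
        (by linarith [mul_le_mul_of_nonneg_left a' μ0'] :
          -(μ' * w) ≤ μ' * (p.rF ν' (p.z k) - p.rF ν' (p.z (k - 1))))) t0
      have g1 := mul_le_mul_of_nonneg_left ((mul_le_mul_of_nonneg_left b μ0).trans
        (mul_le_mul_of_nonneg_right a2 Kv)) s0
      have g2 := mul_le_mul_of_nonneg_left ((mul_le_mul_of_nonneg_left b' μ0').trans
        (mul_le_mul_of_nonneg_right b2 Kv)) t0
      rw [e1]
      constructor <;> linarith [mul_nonneg θ0 w0]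
  have Pc : ∀ i < P.I, (p.v / 18252 ≤ p.rF ν (P.x (i + 1)) - p.rF ν (P.x i) ∧
      p.rF ν (P.x (i + 1)) - p.rF ν (P.x i) ≤ 18252 * p.v) ∧
      (p.v / 18252 ≤ p.rF ν' (P.x (i + 1)) - p.rF ν' (P.x i) ∧
      p.rF ν' (P.x (i + 1)) - p.rF ν' (P.x i) ≤ 18252 * p.v) := fun i hi => by
    have a := O.st i hi
    rw [O.rs] at a
    exact ⟨⟨by linarith [a.1], by linarith [a.2]⟩, step_cp h h' c O hi⟩
  have vK : p.v / K ≤ p.v / 18252 := div_le_div_of_nonneg_left v.le (by norm_num) hK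
  have Kv : 18252 * p.v ≤ K * p.v := mul_le_mul_of_nonneg_right hK v.le
  refine ⟨fun x hx => ?_, fun k k0 hk => ?_, fun i hi => ?_, ?_, ?_, fun i hi => ?_, h.den0,
    fun x x' a b d e => ?_, O.e2, fun k k0 hk => (Hs k k0 hk).2, fun i hi => ?_⟩
  · rw [mixG_rs H H', mixG_hs H H', ← hν, ← hν', (Z x hx).1, (Z x hx).2]; simp
  · obtain ⟨⟨a, b⟩, a', b'⟩ := St k k0 hk
    refine ⟨?_, ?_, (Hs k k0 hk).1⟩ <;> rw [mixG_rs H H', mixG_rs H H', ← hν, ← hν']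
    · linarith [mul_le_mul_of_nonneg_left a s0, mul_le_mul_of_nonneg_left a' t0]
    · linarith [mul_le_mul_of_nonneg_left b s0, mul_le_mul_of_nonneg_left b' t0]
  · obtain ⟨⟨a, b⟩, a', b'⟩ := Pc i hi
    have e : (P.mix P' t).x = P.x := rfl
    have e' : (P.mix P' t).γ = 0 := rfl
    rw [e', e, mixG_rs H H', mixG_rs H H', mixG_hs H H', mixG_hs H H', ← hν, ← hν']
    have f1 := mul_le_mul_of_nonneg_left a s0
    have f2 := mul_le_mul_of_nonneg_left a' t0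
    have g1 := mul_le_mul_of_nonneg_left b s0
    have g2 := mul_le_mul_of_nonneg_left b' t0
    have A0 : 0 ≤ (1 - t) * (p.rF ν (P.x (i + 1)) - p.rF ν (P.x i)) :=
      mul_nonneg s0 (by linarith)
    have B0 : 0 ≤ t * (p.rF ν' (P.x (i + 1)) - p.rF ν' (P.x i)) := mul_nonneg t0 (by linarith)
    have n1 : ms 1 / K ≤ μ := by rw [div_le_iff₀ K0]; linarith
    have n2 : ms 1 / K ≤ μ' := by rw [div_le_iff₀ K0]; linarith
    refine ⟨by linarith, by linarith, by linarith, ?_⟩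
    linarith [mul_le_mul_of_nonneg_right n1 A0, mul_le_mul_of_nonneg_right n2 B0]
  · have e : (P.mix P' t).x (P.mix P' t).I = P.x P.I := rfl
    rw [e, mixG_hs H H', ← hν, ← hν']
    have a := (abs_le.1 (h.abs_rF_log O.e1)).2
    have b := (abs_le.1 (h'.abs_rF_log O.e1)).2
    have L : 0 ≤ 6 * log (p.n : ℝ) := by linarith
    have f1 := mul_le_mul_of_nonneg_left ((mul_le_mul_of_nonneg_left a μ0).trans
      (mul_le_mul_of_nonneg_right (a2.trans m1) L)) s0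
    have f2 := mul_le_mul_of_nonneg_left ((mul_le_mul_of_nonneg_left b μ0').trans
      (mul_le_mul_of_nonneg_right (b2.trans m1) L)) t0
    have A : (1 : ℝ) ≤ p.A := by exact_mod_cast A1
    have f3 : 6 ≤ K * p.A := by nlinarith
    linarith [mul_le_mul_of_nonneg_right f3 (show 0 ≤ log (p.n : ℝ) by linarith)]
  · exact g2_mix G h h' c H H' t0 t1 K0 kx μ0 μ0' a2 b2 hj
  · have a := x_plat h O hi
    have b : p.v / K ≤ p.v / 78 := div_le_div_of_nonneg_left v.le (by norm_num) (by linarith)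
    exact ⟨b.trans a.1, a.2.trans (by linarith)⟩
  · have f := h.dens a b d e
    have g := mul_le_mul_of_nonneg_right (show 3 ≤ K by linarith) (h.den0 x).le
    have g' := mul_le_mul_of_nonneg_right (show 3 ≤ K by linarith) (h.den0 x').le
    exact ⟨f.1.trans g', f.2.trans g⟩
  · obtain ⟨⟨a, b⟩, a', b'⟩ := Pc i hi
    have e : (P.mix P' t).x = P.x := rfl
    rw [e, mixG_hs H H', mixG_hs H H', ← hν, ← hν']
    have Kv0 : 0 ≤ K * p.v := by positivity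
    have g1 := mul_le_mul_of_nonneg_left ((mul_le_mul_of_nonneg_left (b.trans Kv) μ0).trans
      (mul_le_mul_of_nonneg_right a2 Kv0)) s0
    have g2 := mul_le_mul_of_nonneg_left ((mul_le_mul_of_nonneg_left (b'.trans Kv) μ0').trans
      (mul_le_mul_of_nonneg_right b2 Kv0)) t0
    linarith

end Crest.Agent.T156.Alt.Plt13

end
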