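import Crest.Agent.T156.R1Lo3_73
import Crest.Agent.T156.R1Def_82
import Crest.Agent.T156.R1Cx_77
import Crest.Agent.T156.PlM_13

/-!
# Row 156 (helper73): sizes of the static displacement, and `CoLo`
-/

set_option autoImplicit false
set_option linter.unusedSectionVars false

noncomputable section

namespace Crest.Agent.T156.Alt.P73

open Real Finset Filter
open Crest.Agent.T156.Alt.Md67 Crest.Agent.T156.Alt.Md77 Crest.Agent.T156.Alt.R77
open Crest.Agent.T156.Alt.Co65 Mem37 Plt13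

theorem G_gst (p : Pm) (P : Pl) (t : ℝ) {k : ℕ} (hk : p.jf < k) :
    (p.gst P t).G k = P.hs (p.xP P k) := by
  rw [Md.G, gst_d]
  change p.bG t * p.qO P (p.omG t) k + (p.HO P (p.omG t) (p.bG t + 0) k + 0) -
    p.sO P (p.omG t) k = _
  rw [Pm.HO, if_neg hk.not_ge]
  ring

/-- sizes of the static displacement -/
def GmS (p : Pm) : Prop := ∀ σ σ' P t a a' Q m, Cx p σ σ' P t a a' Q m →
  Pr.Lab (p.zP P) (p.NP P) ∧ p.J < p.NP P ∧ p.muG t * p.r ^ 2 ≤ p.msG t 0 ∧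
  (∀ k, p.jf < k → k * p.v ≤ 2 * p.ye → (p.gst P t).G k = 0) ∧
  ∀ x, Lg (p.gst P t) m x → Fg p P t m x = 0 ∧ Gm p P t m x ≤ 3 * p.r ^ 2 ∧
    ∑ k ∈ Ico (p.jf + 1) (p.NP P), (p.gst P t).dz m x k * |(p.gst P t).G k| ≤
      (p.n : ℝ) ^ (-(1 : ℝ) / 3) * p.κ ^ 3

theorem gmS {β : ℝ} (hβ : 1 < β) : Sml β fun _ => GmS := by
  refine Sml.glueC hβ (p1G β hβ) ((St56.nm_sml hβ).and (gpO β hβ).sml) fun C hC c0 C0 h0 h1 =>
    ⟨0, fun A _ => ⟨1, one_pos, fun c _ hc => ⟨c / 40, by positivity, fun η hη _ =>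
      ⟨exp (3 * C0 * C), fun p H G ⟨N, K, K1, KL, gp⟩ σ σ' P t a a' Q m x => ?_⟩⟩⟩⟩
  have hη' : 40 * η ≤ c := by linarith
  have M0 := (Gr29.oct_mem x.oct).1
  have μp := H.muG0 (H.σ0 M0)
  obtain ⟨n0, n1⟩ := H.mtG_mem M0
  have N := N _ n0 n1
  have L := St56.ld_gst H hη' hC le_rfl G x.mem N n0 μp.le (H.oct_mu x.oct').1 x.pl.ok x.pl.hs
  have t0 := H.σ0 x.mem
  have v0 := H.v0
  have r0 := H.r0
  have yJ := L.geo.hY
  have g0 : ∀ k, p.jf < k → k * p.v ≤ 2 * p.ye → (p.gst P t).G k = 0 := fun k hk h2 => by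
    have kJ : k ≤ p.J := by
      exact_mod_cast le_of_mul_le_mul_right (h2.trans yJ) v0
    obtain ⟨j, rfl⟩ := Nat.exists_eq_add_of_lt (p.jf.zero_le.trans_lt hk)
    rw [zero_add] at *
    rw [G_gst p P t hk, L.hs, L.xP_succ kJ]
    simp only [L.rF0 kJ (by push_cast at h2; linarith), mul_zero]
  refine ⟨L.geo.lab, by have := Nr_pos H; unfold Pm.NP; omega, ?_, g0, fun y Y => ?_⟩
  · have := PG3.mG_conc H.κ0.le t0.le r0.le H.r_le_ye
    rw [H.msG_zero]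
    exact this.trans (mul_le_of_le_one_right (H.epsG0 t0).le (pow_le_one₀ H.ye0.le H.ye1))
  set Λ := (p.n : ℝ) ^ η with hΛ
  have Λ0 : 0 < Λ := H.Λ0
  set l := p.la (p.mt (p.muG σ)) with hl
  have l0 : 0 < l := N.lp
  have e2 : 1 - P.x P.I ≤ 1 / p.n := by
    have np := N.np
    have e : (p.n : ℝ) ^ (-(2 : ℝ)) = 1 / (p.n : ℝ) ^ 2 := by rw [rpow_neg np.le]; norm_num
    exact (x.pl.ok.e2.trans e.le).trans (one_div_le_one_div_of_le np (by nlinarith [N.n2]))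
  have S : Shg p (p.mt (p.muG σ)) P.x P.I := by have := shg_of N x.pl.ok; exact this
  have s2 := N.gtp L.geo S e2 (K := K) (by linarith) (by linarith [gp.1.2.2.2.2.1]) L.jJ
  have s3 : ∑ k ∈ Ico (p.jf + 1) (p.NP P), (p.gst P t).dz m y k *
      p.rF (p.mt (p.muG σ)) (p.xP P k) ^ 2 ≤ (Λ ^ 2 * l) ^ 2 := by
    have dz : ∀ k, p.jf < k → (p.gst P t).dz m y k = p.zP P k - p.zP P (k - 1) := fun k hk => by
      rw [dz_up Y.toLeg (by omega), gst_z p P t hk.le, gst_z p P t (by omega)]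
    rw [← sum_subset (s₁ := Ioc p.jf (p.Jp P)) (fun k hk => by
        have := Nr_pos H
        simp only [mem_Ioc, mem_Ico, NP_eq] at *
        omega) fun k h1 h2 => by
        simp only [mem_Ioc, mem_Ico] at h1 h2
        rw [dz k h1.1, zP_hi (by omega), zP_hi (by omega), sub_self, zero_mul],
      sum_congr rfl fun k hk => by rw [dz k (mem_Ioc.1 hk).1]]
    refine s2.trans ?_
    have := H.num_le
    have a1 : 406 + 8 * K ≤ Λ ^ 3 := by nlinarith [mul_le_mul this this (by norm_num) Λ0.le]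
    calc _ ≤ Λ ^ 3 * (l ^ 2 * Λ) := by have := H.log1; gcongr; exact H.log_le
      _ = _ := by ring
  have s4 : ∑ k ∈ Ico (p.jf + 1) (p.NP P), (p.gst P t).dz m y k * |(p.gst P t).G k| ≤
      p.muG σ * (Λ ^ 2 * l) := by
    have w0 : 0 < Λ ^ 2 * l := by positivity
    refine le_of_mul_le_mul_left ?_ (show 0 < 2 * (Λ ^ 2 * l) by positivity)
    have a1 := mul_le_mul_of_nonneg_right
      ((Y.sum_dz_le (Ico (p.jf + 1) (p.NP P))).trans (sub_le_self 1 Y.a0)) (sq_nonneg (Λ ^ 2 * l))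
    rw [sum_mul] at a1
    have a2 := mul_le_mul_of_nonneg_left (add_le_add s3 a1) μp.le
    rw [← sum_add_distrib, mul_sum] at a2
    rw [mul_sum]
    refine (sum_le_sum fun k hk => ?_).trans (a2.trans_eq (by ring))
    rw [G_gst p P t (mem_Ico.1 hk).1, L.hs, abs_mul, abs_of_pos μp, ← sq_abs (p.rF _ _)]
    nlinarith [mul_nonneg (mul_nonneg μp.le (Y.dz_nonneg k))
      (sq_nonneg (|p.rF (p.mt (p.muG σ)) (p.xP P k)| - Λ ^ 2 * l))]
  have κ0 := H.κ0
  have n0' := H.N0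
  have s5 : p.muG σ * (Λ ^ 2 * l) ≤ (p.n : ℝ) ^ (-(1 : ℝ) / 3) * p.κ ^ 3 :=
    H.le_of_lg (by positivity) (by positivity) (by
      lg_norm
      rw [H.lg_la (H.mt0 μp), H.lg_rp, H.lg_n, H.lg_κ]
      linarith [min_le_right (-(logb p.n (p.mt (p.muG σ)) + 1 / 3) / 3)
        (-(logb p.n (p.mt (p.muG σ)) + 1 / 3) / 2), (H.lg_mt' μp).1, (H.lg_muG' M0).2])
  have s6 : (p.n : ℝ) ^ (-(1 : ℝ) / 3) * p.κ ^ 3 ≤ p.r ^ 2 :=
    H.le_of_lg (by positivity) (by positivity) (by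
      lg_norm
      linarith [H.lg_n, H.lg_κ, H.lg_r, H.lg_s.1])
  refine ⟨sum_eq_zero fun k hk => ?_, ?_, s4.trans s5⟩
  · rcases le_total (k * p.v) (2 * p.ye) with b | b
    · rw [g0 k (mem_Ico.1 hk).1 b, abs_zero, mul_zero, mul_zero]
    · rw [L.geo.hom.supp k b, zero_mul, mul_zero]
  · have b1 : p.bG t / (m + 1) ≤ p.r ^ 2 := by
      have m1 : (p.n : ℝ) ≤ m := Nat.cast_le.2 x.m1
      have β0 := H.β0
      refine (div_le_div₀ (sq_nonneg _) (G t x.mem).2.2.1.2.1 n0' (by linarith)).trans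
        (H.le_of_lg (by positivity) (by positivity) ?_)
      lg_norm
      linarith [H.lg_n, H.lg_β.2, H.lg_r, H.lg_s.1, H.c_le]
    have j0 := H.jfv0
    have b2 : p.z p.jf * (p.jf * p.v) ≤ p.r ^ 2 := by
      have j1 : (1 : ℝ) ≤ p.jf := by exact_mod_cast H.jf_pos
      have := mul_le_mul_of_nonneg_left (le_mul_of_one_le_left v0.le j1) (zero_le_one.trans h1)
      refine (mul_le_mul_of_nonneg_right (show _ ≤ 2 * (C0 * (p.jf * p.v)) by
        linarith [(PP3.z_bds H.ok.base _ L.jJ).2]) j0.le).trans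
        (H.le_of_lg (by positivity) (by positivity) ?_)
      rw [logb_mul (by positivity) j0.ne', logb_mul two_ne_zero (by positivity),
        logb_mul (by positivity) j0.ne', logb_pow]
      push_cast
      linarith [H.lg_jf.2, H.lg_r, H.lg_two.2, (H.lg_cst h1 H.C0_le).2]
    rw [Gm]
    linarith

/-- **the coefficient of the root atom** -/
theorem coLo {β : ℝ} (hβ : 1 < β) : Sml β R82.CoLo := by
  refine Sml.glueC hβ (loQ β hβ) ((gmS hβ).and (fxS hβ)) fun C hC c0 C0 h0 h1 =>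
    ⟨0, fun A _ => ⟨1, one_pos, fun c _ hc => ⟨1, one_pos, fun η _ _ =>
      ⟨4 * C, fun p H G ⟨g, f⟩ σ σ' P t a a' Q m x => ?_⟩⟩⟩⟩
  obtain ⟨lab, jN, mu, -, s⟩ := g σ σ' P t a a' Q m x
  have F := f σ σ' P t a a' Q m x
  obtain ⟨s1, s2, -⟩ := s a F.lga
  have := G t x.mem P F.g lab F.jJ jN m a F.lga F.a0 F.top E0 _ rfl
  rw [s1, Reg.msG_lo t F.jr, ← H.msG_zero] at this
  have b := mul_le_mul_of_nonneg_left s2 (H.muG0 F.t0).le
  have m0 := (H.msG0 F.t0 0).le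
  refine this.trans ((mul_le_mul_of_nonneg_left (show _ ≤ 4 * p.msG t 0 by linarith)
    (by linarith)).trans ?_)
  rw [← mul_assoc, mul_comm C]
  exact mul_le_mul_of_nonneg_right H.K_le m0

end Crest.Agent.T156.Alt.P73

end
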